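import Vale.Agent.Lib.P154.PChain.BU.L

set_option linter.all false

namespace Vale.Agent.Lib.P154.PChain.BU.S0

open Vale.Agent.Lib.P154.Chain

noncomputable def pc0 : PT := (PT.nd (nat_lit 3042000) (PT.nd (nat_lit 2948166) (PT.nd (nat_lit 2854488) (PT.nd (nat_lit 2823132) (PT.nd (nat_lit 2791932) (PT.nd (nat_lit 2760732) PT.nil (PT.lf (nat_lit 76) (nat_lit 3) (nat_lit 1) (nat_lit 1) (nat_lit 106) (nat_lit 88) (nat_lit 106))) (PT.nd (nat_lit 78) (PT.lf (nat_lit 152) (nat_lit 6) (nat_lit 2) (nat_lit 3) (nat_lit 105) (nat_lit 89) (nat_lit 106)) (PT.lf (nat_lit 152) (nat_lit 6) (nat_lit 2) (nat_lit 1) (nat_lit 106) (nat_lit 89) (nat_lit 105)))) (PT.nd (nat_lit 156) (PT.nd (nat_lit 78) (PT.lf (nat_lit 228) (nat_lit 6) (nat_lit 3) (nat_lit 3) (nat_lit 104) (nat_lit 90) (nat_lit 106)) (PT.lf (nat_lit 304) (nat_lit 3) (nat_lit 4) (nat_lit 1) (nat_lit 105) (nat_lit 90) (nat_lit 105))) (PT.nd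 (nat_lit 31122) (PT.lf (nat_lit 228) (nat_lit 6) (nat_lit 3) (nat_lit 1) (nat_lit 106) (nat_lit 90) (nat_lit 104)) (PT.lf (nat_lit 380) (nat_lit 6) (nat_lit 5) (nat_lit 3) (nat_lit 104) (nat_lit 91) (nat_lit 105))))) (PT.nd (nat_lit 31278) (PT.nd (nat_lit 31122) (PT.lf (nat_lit 380) (nat_lit 6) (nat_lit 5) (nat_lit 1) (nat_lit 105) (nat_lit 91) (nat_lit 104)) (PT.nd (nat_lit 78) (PT.lf (nat_lit 456) (nat_lit 6) (nat_lit 6) (nat_lit 3) (nat_lit 103) (nat_lit 92) (nat_lit 105)) (PT.lf (nat_lit 532) (nat_lit 3) (nat_lit 7) (nat_lit 1) (nat_lit 104) (nat_lit 92) (nat_lit 104)))) (PT.nd (nat_lit 31200) (PT.nd (nat_lit 31122) (PT.lf (nat_lit 456) (nat_lit 6) (nat_lit 6) (nat_lit 1) (nat_lit 105) (nat_lit 92) (nat_lit 103)) (PT.lf (nat_lit 608) (nat_lit 6) (nat_lit 8) (nat_lit 3) (nat_lit 103) (nat_lit 93) (nat_lit 104))) (PT.nd (nat_lit 31122) (PT.lf (nat_lit 608) (nat_lit 6) (nat_lit 8)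 (nat_lit 1) (nat_lit 104) (nat_lit 93) (nat_lit 103)) (PT.lf (nat_lit 684) (nat_lit 6) (nat_lit 9) (nat_lit 3) (nat_lit 102) (nat_lit 94) (nat_lit 104)))))) (PT.nd (nat_lit 62400) (PT.nd (nat_lit 31200) (PT.nd (nat_lit 78) (PT.lf (nat_lit 760) (nat_lit 3) (nat_lit 10) (nat_lit 1) (nat_lit 103) (nat_lit 94) (nat_lit 103)) (PT.nd (nat_lit 31044) (PT.lf (nat_lit 684) (nat_lit 6) (nat_lit 9) (nat_lit 1) (nat_lit 104) (nat_lit 94) (nat_lit 102)) (PT.lf (nat_lit 836) (nat_lit 6) (nat_lit 11) (nat_lit 3) (nat_lit 101) (nat_lit 95) (nat_lit 104)))) (PT.nd (nat_lit 156) (PT.nd (nat_lit 78) (PT.lf (nat_lit 912) (nat_lit 6) (nat_lit 12) (nat_lit 3) (nat_lit 102) (nat_lit 95) (nat_lit 103)) (PT.lf (nat_lit 912) (nat_lit 6) (nat_lit 12) (nat_lit 1) (nat_lit 103) (nat_lit 95) (nat_lit 102))) (PT.nd (nat_lit 30966) (PT.lf (nat_lit 836) (nat_lit 6) (nat_lit 11) (nat_lit 1) (nat_lit 104) (nat_lit 95)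 (nat_lit 101)) (PT.lf (nat_lit 988) (nat_lit 6) (nat_lit 13) (nat_lit 3) (nat_lit 100) (nat_lit 96) (nat_lit 104))))) (PT.nd (nat_lit 234) (PT.nd (nat_lit 78) (PT.lf (nat_lit 1064) (nat_lit 6) (nat_lit 14) (nat_lit 3) (nat_lit 101) (nat_lit 96) (nat_lit 103)) (PT.nd (nat_lit 78) (PT.lf (nat_lit 1140) (nat_lit 3) (nat_lit 15) (nat_lit 1) (nat_lit 102) (nat_lit 96) (nat_lit 102)) (PT.lf (nat_lit 1064) (nat_lit 6) (nat_lit 14) (nat_lit 1) (nat_lit 103) (nat_lit 96) (nat_lit 101)))) (PT.nd (nat_lit 31044) (PT.nd (nat_lit 30966) (PT.lf (nat_lit 988) (nat_lit 6) (nat_lit 13) (nat_lit 1) (nat_lit 104) (nat_lit 96) (nat_lit 100)) (PT.lf (nat_lit 1292) (nat_lit 6) (nat_lit 17) (nat_lit 3) (nat_lit 100) (nat_lit 97) (nat_lit 103))) (PT.nd (nat_lit 78) (PT.lf (nat_lit 1368) (nat_lit 6) (nat_lit 18) (nat_lit 3) (nat_lit 101) (nat_lit 97) (nat_lit 102)) (PT.lf (nat_lit 1368) (nat_lit 6) (nat_lit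 18) (nat_lit 1) (nat_lit 102) (nat_lit 97) (nat_lit 101))))))) (PT.nd (nat_lit 93444) (PT.nd (nat_lit 62244) (PT.nd (nat_lit 31122) (PT.nd (nat_lit 30966) (PT.lf (nat_lit 1292) (nat_lit 6) (nat_lit 17) (nat_lit 1) (nat_lit 103) (nat_lit 97) (nat_lit 100)) (PT.nd (nat_lit 78) (PT.lf (nat_lit 1216) (nat_lit 6) (nat_lit 16) (nat_lit 3) (nat_lit 99) (nat_lit 98) (nat_lit 103)) (PT.lf (nat_lit 1520) (nat_lit 6) (nat_lit 20) (nat_lit 3) (nat_lit 100) (nat_lit 98) (nat_lit 102)))) (PT.nd (nat_lit 156) (PT.nd (nat_lit 78) (PT.lf (nat_lit 1596) (nat_lit 3) (nat_lit 21) (nat_lit 1) (nat_lit 101) (nat_lit 98) (nat_lit 101)) (PT.lf (nat_lit 1520) (nat_lit 6) (nat_lit 20) (nat_lit 1) (nat_lit 102) (nat_lit 98) (nat_lit 100))) (PT.nd (nat_lit 30888) (PT.lf (nat_lit 1216) (nat_lit 6) (nat_lit 16) (nat_lit 1) (nat_lit 103) (nat_lit 98) (nat_lit 99)) (PT.lf (nat_lit 1216) (nat_lit 6) (nat_lit 16) (nat_lit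 5) (nat_lit 98) (nat_lit 99) (nat_lit 103))))) (PT.nd (nat_lit 234) (PT.nd (nat_lit 78) (PT.lf (nat_lit 1444) (nat_lit 3) (nat_lit 19) (nat_lit 3) (nat_lit 99) (nat_lit 99) (nat_lit 102)) (PT.nd (nat_lit 78) (PT.lf (nat_lit 1672) (nat_lit 6) (nat_lit 22) (nat_lit 3) (nat_lit 100) (nat_lit 99) (nat_lit 101)) (PT.lf (nat_lit 1672) (nat_lit 6) (nat_lit 22) (nat_lit 1) (nat_lit 101) (nat_lit 99) (nat_lit 100)))) (PT.nd (nat_lit 30810) (PT.nd (nat_lit 78) (PT.lf (nat_lit 1444) (nat_lit 3) (nat_lit 19) (nat_lit 0) (nat_lit 102) (nat_lit 99) (nat_lit 99)) (PT.lf (nat_lit 1216) (nat_lit 6) (nat_lit 16) (nat_lit 0) (nat_lit 103) (nat_lit 99) (nat_lit 98))) (PT.nd (nat_lit 78) (PT.lf (nat_lit 988) (nat_lit 6) (nat_lit 13) (nat_lit 5) (nat_lit 96) (nat_lit 100) (nat_lit 104)) (PT.lf (nat_lit 1292) (nat_lit 6) (nat_lit 17) (nat_lit 5) (nat_lit 97) (nat_lit 100) (nat_lit 103)))))) (PT.nd (nat_lit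 31044) (PT.nd (nat_lit 234) (PT.nd (nat_lit 78) (PT.lf (nat_lit 1520) (nat_lit 6) (nat_lit 20) (nat_lit 5) (nat_lit 98) (nat_lit 100) (nat_lit 102)) (PT.nd (nat_lit 78) (PT.lf (nat_lit 1672) (nat_lit 6) (nat_lit 22) (nat_lit 5) (nat_lit 99) (nat_lit 100) (nat_lit 101)) (PT.lf (nat_lit 1748) (nat_lit 1) (nat_lit 23) (nat_lit 0) (nat_lit 100) (nat_lit 100) (nat_lit 100)))) (PT.nd (nat_lit 156) (PT.nd (nat_lit 78) (PT.lf (nat_lit 1672) (nat_lit 6) (nat_lit 22) (nat_lit 0) (nat_lit 101) (nat_lit 100) (nat_lit 99)) (PT.lf (nat_lit 1520) (nat_lit 6) (nat_lit 20) (nat_lit 0) (nat_lit 102) (nat_lit 100) (nat_lit 98))) (PT.nd (nat_lit 78) (PT.lf (nat_lit 1292) (nat_lit 6) (nat_lit 17) (nat_lit 0) (nat_lit 103) (nat_lit 100) (nat_lit 97)) (PT.lf (nat_lit 988) (nat_lit 6) (nat_lit 13) (nat_lit 0) (nat_lit 104) (nat_lit 100) (nat_lit 96))))) (PT.nd (nat_lit 234) (PT.nd (nat_lit 78) (PT.lf (nat_lit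 836) (nat_lit 6) (nat_lit 11) (nat_lit 5) (nat_lit 95) (nat_lit 101) (nat_lit 104)) (PT.nd (nat_lit 78) (PT.lf (nat_lit 1064) (nat_lit 6) (nat_lit 14) (nat_lit 5) (nat_lit 96) (nat_lit 101) (nat_lit 103)) (PT.lf (nat_lit 1368) (nat_lit 6) (nat_lit 18) (nat_lit 5) (nat_lit 97) (nat_lit 101) (nat_lit 102)))) (PT.nd (nat_lit 156) (PT.nd (nat_lit 78) (PT.lf (nat_lit 1596) (nat_lit 3) (nat_lit 21) (nat_lit 4) (nat_lit 98) (nat_lit 101) (nat_lit 101)) (PT.lf (nat_lit 1672) (nat_lit 6) (nat_lit 22) (nat_lit 4) (nat_lit 99) (nat_lit 101) (nat_lit 100))) (PT.nd (nat_lit 78) (PT.lf (nat_lit 1672) (nat_lit 6) (nat_lit 22) (nat_lit 2) (nat_lit 100) (nat_lit 101) (nat_lit 99)) (PT.lf (nat_lit 1596) (nat_lit 3) (nat_lit 21) (nat_lit 0) (nat_lit 101) (nat_lit 101) (nat_lit 98))))))))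
noncomputable def pc1 : PT := (PT.nd (nat_lit 92898) (PT.nd (nat_lit 61776) (PT.nd (nat_lit 30966) (PT.nd (nat_lit 30654) (PT.nd (nat_lit 78) (PT.lf (nat_lit 1368) (nat_lit 6) (nat_lit 18) (nat_lit 0) (nat_lit 102) (nat_lit 101) (nat_lit 97)) (PT.nd (nat_lit 78) (PT.lf (nat_lit 1064) (nat_lit 6) (nat_lit 14) (nat_lit 0) (nat_lit 103) (nat_lit 101) (nat_lit 96)) (PT.lf (nat_lit 836) (nat_lit 6) (nat_lit 11) (nat_lit 0) (nat_lit 104) (nat_lit 101) (nat_lit 95)))) (PT.nd (nat_lit 156) (PT.nd (nat_lit 78) (PT.lf (nat_lit 684) (nat_lit 6) (nat_lit 9) (nat_lit 5) (nat_lit 94) (nat_lit 102) (nat_lit 104)) (PT.lf (nat_lit 912) (nat_lit 6) (nat_lit 12) (nat_lit 5) (nat_lit 95) (nat_lit 102) (nat_lit 103))) (PT.nd (nat_lit 78) (PT.lf (nat_lit 1140) (nat_lit 3) (nat_lit 15) (nat_lit 4) (nat_lit 96) (nat_lit 102) (nat_lit 102)) (PT.lf (nat_lit 1368) (nat_lit 6) (nat_lit 18) (nat_lit 4) (nat_lit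 97) (nat_lit 102) (nat_lit 101))))) (PT.nd (nat_lit 234) (PT.nd (nat_lit 78) (PT.lf (nat_lit 1520) (nat_lit 6) (nat_lit 20) (nat_lit 4) (nat_lit 98) (nat_lit 102) (nat_lit 100)) (PT.nd (nat_lit 78) (PT.lf (nat_lit 1444) (nat_lit 3) (nat_lit 19) (nat_lit 2) (nat_lit 99) (nat_lit 102) (nat_lit 99)) (PT.lf (nat_lit 1520) (nat_lit 6) (nat_lit 20) (nat_lit 2) (nat_lit 100) (nat_lit 102) (nat_lit 98)))) (PT.nd (nat_lit 156) (PT.nd (nat_lit 78) (PT.lf (nat_lit 1368) (nat_lit 6) (nat_lit 18) (nat_lit 2) (nat_lit 101) (nat_lit 102) (nat_lit 97)) (PT.lf (nat_lit 1140) (nat_lit 3) (nat_lit 15) (nat_lit 0) (nat_lit 102) (nat_lit 102) (nat_lit 96))) (PT.nd (nat_lit 78) (PT.lf (nat_lit 912) (nat_lit 6) (nat_lit 12) (nat_lit 0) (nat_lit 103) (nat_lit 102) (nat_lit 95)) (PT.lf (nat_lit 684) (nat_lit 6) (nat_lit 9) (nat_lit 0) (nat_lit 104) (nat_lit 102) (nat_lit 94)))))) (PT.nd (nat_lit 546) (PT.nd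 (nat_lit 234) (PT.nd (nat_lit 78) (PT.lf (nat_lit 456) (nat_lit 6) (nat_lit 6) (nat_lit 5) (nat_lit 92) (nat_lit 103) (nat_lit 105)) (PT.nd (nat_lit 78) (PT.lf (nat_lit 608) (nat_lit 6) (nat_lit 8) (nat_lit 5) (nat_lit 93) (nat_lit 103) (nat_lit 104)) (PT.lf (nat_lit 760) (nat_lit 3) (nat_lit 10) (nat_lit 4) (nat_lit 94) (nat_lit 103) (nat_lit 103)))) (PT.nd (nat_lit 156) (PT.nd (nat_lit 78) (PT.lf (nat_lit 912) (nat_lit 6) (nat_lit 12) (nat_lit 4) (nat_lit 95) (nat_lit 103) (nat_lit 102)) (PT.lf (nat_lit 1064) (nat_lit 6) (nat_lit 14) (nat_lit 4) (nat_lit 96) (nat_lit 103) (nat_lit 101))) (PT.nd (nat_lit 78) (PT.lf (nat_lit 1292) (nat_lit 6) (nat_lit 17) (nat_lit 4) (nat_lit 97) (nat_lit 103) (nat_lit 100)) (PT.lf (nat_lit 1216) (nat_lit 6) (nat_lit 16) (nat_lit 4) (nat_lit 98) (nat_lit 103) (nat_lit 99))))) (PT.nd (nat_lit 234) (PT.nd (nat_lit 78) (PT.lf (nat_lit 1216) (nat_lit 6)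 (nat_lit 16) (nat_lit 2) (nat_lit 99) (nat_lit 103) (nat_lit 98)) (PT.nd (nat_lit 78) (PT.lf (nat_lit 1292) (nat_lit 6) (nat_lit 17) (nat_lit 2) (nat_lit 100) (nat_lit 103) (nat_lit 97)) (PT.lf (nat_lit 1064) (nat_lit 6) (nat_lit 14) (nat_lit 2) (nat_lit 101) (nat_lit 103) (nat_lit 96)))) (PT.nd (nat_lit 156) (PT.nd (nat_lit 78) (PT.lf (nat_lit 912) (nat_lit 6) (nat_lit 12) (nat_lit 2) (nat_lit 102) (nat_lit 103) (nat_lit 95)) (PT.lf (nat_lit 760) (nat_lit 3) (nat_lit 10) (nat_lit 0) (nat_lit 103) (nat_lit 103) (nat_lit 94))) (PT.nd (nat_lit 78) (PT.lf (nat_lit 608) (nat_lit 6) (nat_lit 8) (nat_lit 0) (nat_lit 104) (nat_lit 103) (nat_lit 93)) (PT.lf (nat_lit 456) (nat_lit 6) (nat_lit 6) (nat_lit 0) (nat_lit 105) (nat_lit 103) (nat_lit 92))))))) (PT.nd (nat_lit 31200) (PT.nd (nat_lit 780) (PT.nd (nat_lit 234) (PT.nd (nat_lit 78) (PT.lf (nat_lit 228) (nat_lit 6) (nat_lit 3) (nat_lit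 5) (nat_lit 90) (nat_lit 104) (nat_lit 106)) (PT.nd (nat_lit 78) (PT.lf (nat_lit 380) (nat_lit 6) (nat_lit 5) (nat_lit 5) (nat_lit 91) (nat_lit 104) (nat_lit 105)) (PT.lf (nat_lit 532) (nat_lit 3) (nat_lit 7) (nat_lit 4) (nat_lit 92) (nat_lit 104) (nat_lit 104)))) (PT.nd (nat_lit 156) (PT.nd (nat_lit 78) (PT.lf (nat_lit 608) (nat_lit 6) (nat_lit 8) (nat_lit 4) (nat_lit 93) (nat_lit 104) (nat_lit 103)) (PT.lf (nat_lit 684) (nat_lit 6) (nat_lit 9) (nat_lit 4) (nat_lit 94) (nat_lit 104) (nat_lit 102))) (PT.nd (nat_lit 78) (PT.lf (nat_lit 836) (nat_lit 6) (nat_lit 11) (nat_lit 4) (nat_lit 95) (nat_lit 104) (nat_lit 101)) (PT.lf (nat_lit 988) (nat_lit 6) (nat_lit 13) (nat_lit 4) (nat_lit 96) (nat_lit 104) (nat_lit 100))))) (PT.nd (nat_lit 234) (PT.nd (nat_lit 78) (PT.lf (nat_lit 988) (nat_lit 6) (nat_lit 13) (nat_lit 2) (nat_lit 100) (nat_lit 104) (nat_lit 96)) (PT.nd (nat_lit 78) (PT.lf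 (nat_lit 836) (nat_lit 6) (nat_lit 11) (nat_lit 2) (nat_lit 101) (nat_lit 104) (nat_lit 95)) (PT.lf (nat_lit 684) (nat_lit 6) (nat_lit 9) (nat_lit 2) (nat_lit 102) (nat_lit 104) (nat_lit 94)))) (PT.nd (nat_lit 156) (PT.nd (nat_lit 78) (PT.lf (nat_lit 608) (nat_lit 6) (nat_lit 8) (nat_lit 2) (nat_lit 103) (nat_lit 104) (nat_lit 93)) (PT.lf (nat_lit 532) (nat_lit 3) (nat_lit 7) (nat_lit 0) (nat_lit 104) (nat_lit 104) (nat_lit 92))) (PT.nd (nat_lit 78) (PT.lf (nat_lit 380) (nat_lit 6) (nat_lit 5) (nat_lit 0) (nat_lit 105) (nat_lit 104) (nat_lit 91)) (PT.lf (nat_lit 228) (nat_lit 6) (nat_lit 3) (nat_lit 0) (nat_lit 106) (nat_lit 104) (nat_lit 90)))))) (PT.nd (nat_lit 1326) (PT.nd (nat_lit 234) (PT.nd (nat_lit 78) (PT.lf (nat_lit 152) (nat_lit 6) (nat_lit 2) (nat_lit 5) (nat_lit 89) (nat_lit 105) (nat_lit 106)) (PT.nd (nat_lit 78) (PT.lf (nat_lit 304) (nat_lit 3) (nat_lit 4) (nat_lit 4)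 (nat_lit 90) (nat_lit 105) (nat_lit 105)) (PT.lf (nat_lit 380) (nat_lit 6) (nat_lit 5) (nat_lit 4) (nat_lit 91) (nat_lit 105) (nat_lit 104)))) (PT.nd (nat_lit 936) (PT.nd (nat_lit 858) (PT.lf (nat_lit 456) (nat_lit 6) (nat_lit 6) (nat_lit 4) (nat_lit 92) (nat_lit 105) (nat_lit 103)) (PT.lf (nat_lit 456) (nat_lit 6) (nat_lit 6) (nat_lit 2) (nat_lit 103) (nat_lit 105) (nat_lit 92))) (PT.nd (nat_lit 78) (PT.lf (nat_lit 380) (nat_lit 6) (nat_lit 5) (nat_lit 2) (nat_lit 104) (nat_lit 105) (nat_lit 91)) (PT.lf (nat_lit 304) (nat_lit 3) (nat_lit 4) (nat_lit 0) (nat_lit 105) (nat_lit 105) (nat_lit 90))))) (PT.nd (nat_lit 30030) (PT.nd (nat_lit 29874) (PT.lf (nat_lit 152) (nat_lit 6) (nat_lit 2) (nat_lit 0) (nat_lit 106) (nat_lit 105) (nat_lit 89)) (PT.nd (nat_lit 78) (PT.lf (nat_lit 76) (nat_lit 3) (nat_lit 1) (nat_lit 4) (nat_lit 88) (nat_lit 106) (nat_lit 106)) (PT.lf (nat_lit 152) (nat_lit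 6) (nat_lit 2) (nat_lit 4) (nat_lit 89) (nat_lit 106) (nat_lit 105)))) (PT.nd (nat_lit 1170) (PT.nd (nat_lit 1092) (PT.lf (nat_lit 228) (nat_lit 6) (nat_lit 3) (nat_lit 4) (nat_lit 90) (nat_lit 106) (nat_lit 104)) (PT.lf (nat_lit 228) (nat_lit 6) (nat_lit 3) (nat_lit 2) (nat_lit 104) (nat_lit 106) (nat_lit 90))) (PT.nd (nat_lit 78) (PT.lf (nat_lit 152) (nat_lit 6) (nat_lit 2) (nat_lit 2) (nat_lit 105) (nat_lit 106) (nat_lit 89)) (PT.lf (nat_lit 76) (nat_lit 3) (nat_lit 1) (nat_lit 0) (nat_lit 106) (nat_lit 106) (nat_lit 88))))))))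
noncomputable def xc0 : XT := (XT.nd (nat_lit 186732) (nat_lit 0) (nat_lit 0) (XT.nd (nat_lit 93678) (nat_lit 0) (nat_lit 0) (XT.nd (nat_lit 62322) (nat_lit 0) (nat_lit 0) (XT.nd (nat_lit 31200) (nat_lit 0) (nat_lit 0) (XT.nd (nat_lit 78) (nat_lit 0) (nat_lit 0) (XT.lf (nat_lit 0) (nat_lit 24985446473860) (nat_lit 76) (nat_lit 20422275438789) (nat_lit 76) (nat_lit 20422275438789) (nat_lit 1) (nat_lit 4) (nat_lit 2) (nat_lit 5) (nat_lit 2) (nat_lit 4) (nat_lit 282) (nat_lit 159) (nat_lit 159)) (XT.nd (nat_lit 31044) (nat_lit 0) (nat_lit 0) (XT.lf (nat_lit 0) (nat_lit 57466621458032) (nat_lit 76) (nat_lit 46971184344985) (nat_lit 76) (nat_lit 46971180420865) (nat_lit 1) (nat_lit 4) (nat_lit 2) (nat_lit 5) (nat_lit 2) (nat_lit 4) (nat_lit 283) (nat_lit 159) (nat_lit 158)) (XT.lf (nat_lit 0) (nat_lit 18892500594063) (nat_lit 76) (nat_lit 15442221026397) (nat_lit 76) (nat_lit 15442221026397)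 (nat_lit 1) (nat_lit 4) (nat_lit 2) (nat_lit 5) (nat_lit 2) (nat_lit 4) (nat_lit 280) (nat_lit 160) (nat_lit 160)))) (XT.nd (nat_lit 156) (nat_lit 0) (nat_lit 0) (XT.nd (nat_lit 78) (nat_lit 0) (nat_lit 0) (XT.lf (nat_lit 0) (nat_lit 43452860119722) (nat_lit 76) (nat_lit 35517051821850) (nat_lit 76) (nat_lit 35517047309111) (nat_lit 1) (nat_lit 4) (nat_lit 2) (nat_lit 5) (nat_lit 2) (nat_lit 4) (nat_lit 281) (nat_lit 160) (nat_lit 159)) (XT.lf (nat_lit 0) (nat_lit 49970888649168) (nat_lit 76) (nat_lit 40844557419931) (nat_lit 76) (nat_lit 40844548983071) (nat_lit 1) (nat_lit 4) (nat_lit 2) (nat_lit 5) (nat_lit 2) (nat_lit 4) (nat_lit 282) (nat_lit 160) (nat_lit 158))) (XT.nd (nat_lit 30888) (nat_lit 0) (nat_lit 0) (XT.lf (nat_lit 0) (nat_lit 57466613421608) (nat_lit 76) (nat_lit 46971192652218) (nat_lit 76) (nat_lit 46971180803080) (nat_lit 1) (nat_lit 4) (nat_lit 2) (nat_lit 5) (nat_lit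 2) (nat_lit 4) (nat_lit 283) (nat_lit 160) (nat_lit 157)) (XT.lf (nat_lit 0) (nat_lit 14285345172114) (nat_lit 76) (nat_lit 11676591436909) (nat_lit 76) (nat_lit 11676591436909) (nat_lit 1) (nat_lit 4) (nat_lit 2) (nat_lit 5) (nat_lit 2) (nat_lit 4) (nat_lit 278) (nat_lit 161) (nat_lit 161))))) (XT.nd (nat_lit 31044) (nat_lit 0) (nat_lit 0) (XT.nd (nat_lit 156) (nat_lit 0) (nat_lit 0) (XT.nd (nat_lit 78) (nat_lit 0) (nat_lit 0) (XT.lf (nat_lit 0) (nat_lit 32856418962244) (nat_lit 76) (nat_lit 26856095285196) (nat_lit 76) (nat_lit 26856090095547) (nat_lit 1) (nat_lit 4) (nat_lit 2) (nat_lit 5) (nat_lit 2) (nat_lit 4) (nat_lit 279) (nat_lit 161) (nat_lit 160)) (XT.lf (nat_lit 0) (nat_lit 37784996244792) (nat_lit 76) (nat_lit 30884449576500) (nat_lit 76) (nat_lit 30884439874112) (nat_lit 1) (nat_lit 4) (nat_lit 2) (nat_lit 5) (nat_lit 2) (nat_lit 4) (nat_lit 280) (nat_lit 161) (nat_lit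 159))) (XT.nd (nat_lit 78) (nat_lit 0) (nat_lit 0) (XT.lf (nat_lit 0) (nat_lit 43452850877834) (nat_lit 76) (nat_lit 35517061375168) (nat_lit 76) (nat_lit 35517047748659) (nat_lit 1) (nat_lit 4) (nat_lit 2) (nat_lit 5) (nat_lit 2) (nat_lit 4) (nat_lit 281) (nat_lit 161) (nat_lit 158)) (XT.lf (nat_lit 0) (nat_lit 49970875669409) (nat_lit 76) (nat_lit 40844568738130) (nat_lit 76) (nat_lit 40844551699342) (nat_lit 1) (nat_lit 4) (nat_lit 2) (nat_lit 5) (nat_lit 2) (nat_lit 4) (nat_lit 282) (nat_lit 161) (nat_lit 157)))) (XT.nd (nat_lit 156) (nat_lit 0) (nat_lit 0) (XT.nd (nat_lit 78) (nat_lit 0) (nat_lit 0) (XT.lf (nat_lit 0) (nat_lit 10801658848832) (nat_lit 76) (nat_lit 8829242539252) (nat_lit 76) (nat_lit 8829242539252) (nat_lit 1) (nat_lit 4) (nat_lit 2) (nat_lit 5) (nat_lit 2) (nat_lit 4) (nat_lit 276) (nat_lit 162) (nat_lit 162)) (XT.lf (nat_lit 0) (nat_lit 24843959178652) (nat_lit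 76) (nat_lit 20307183067631) (nat_lit 76) (nat_lit 20307177099534) (nat_lit 1) (nat_lit 4) (nat_lit 2) (nat_lit 5) (nat_lit 2) (nat_lit 4) (nat_lit 277) (nat_lit 162) (nat_lit 161))) (XT.nd (nat_lit 78) (nat_lit 0) (nat_lit 0) (XT.lf (nat_lit 0) (nat_lit 28570684659393) (nat_lit 76) (nat_lit 23353191526078) (nat_lit 76) (nat_lit 23353180368332) (nat_lit 1) (nat_lit 4) (nat_lit 2) (nat_lit 5) (nat_lit 2) (nat_lit 4) (nat_lit 278) (nat_lit 162) (nat_lit 160)) (XT.lf (nat_lit 0) (nat_lit 32856408334074) (nat_lit 76) (nat_lit 26856106271512) (nat_lit 76) (nat_lit 26856090601026) (nat_lit 1) (nat_lit 4) (nat_lit 2) (nat_lit 5) (nat_lit 2) (nat_lit 4) (nat_lit 279) (nat_lit 162) (nat_lit 159)))))) (XT.nd (nat_lit 31278) (nat_lit 0) (nat_lit 0) (XT.nd (nat_lit 30966) (nat_lit 0) (nat_lit 0) (XT.nd (nat_lit 78) (nat_lit 0) (nat_lit 0) (XT.lf (nat_lit 0) (nat_lit 37784981318069) (nat_lit 76)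 (nat_lit 30884462592429) (nat_lit 76) (nat_lit 30884442997823) (nat_lit 1) (nat_lit 4) (nat_lit 2) (nat_lit 5) (nat_lit 2) (nat_lit 4) (nat_lit 280) (nat_lit 162) (nat_lit 158)) (XT.nd (nat_lit 78) (nat_lit 0) (nat_lit 0) (XT.lf (nat_lit 0) (nat_lit 43452832213240) (nat_lit 76) (nat_lit 35517076155978) (nat_lit 76) (nat_lit 35517053149093) (nat_lit 1) (nat_lit 4) (nat_lit 2) (nat_lit 5) (nat_lit 2) (nat_lit 4) (nat_lit 281) (nat_lit 162) (nat_lit 157)) (XT.lf (nat_lit 0) (nat_lit 49970853754491) (nat_lit 76) (nat_lit 40844585053619) (nat_lit 76) (nat_lit 40844559079536) (nat_lit 1) (nat_lit 4) (nat_lit 2) (nat_lit 5) (nat_lit 2) (nat_lit 4) (nat_lit 282) (nat_lit 162) (nat_lit 156)))) (XT.nd (nat_lit 156) (nat_lit 0) (nat_lit 0) (XT.nd (nat_lit 78) (nat_lit 0) (nat_lit 0) (XT.lf (nat_lit 0) (nat_lit 21603311160103) (nat_lit 76) (nat_lit 17658495028603) (nat_lit 76) (nat_lit 17658482197195)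 (nat_lit 1) (nat_lit 4) (nat_lit 2) (nat_lit 5) (nat_lit 2) (nat_lit 4) (nat_lit 276) (nat_lit 163) (nat_lit 161)) (XT.lf (nat_lit 0) (nat_lit 24843946956256) (nat_lit 76) (nat_lit 20307195701894) (nat_lit 76) (nat_lit 20307177680836) (nat_lit 1) (nat_lit 4) (nat_lit 2) (nat_lit 5) (nat_lit 2) (nat_lit 4) (nat_lit 277) (nat_lit 163) (nat_lit 160))) (XT.nd (nat_lit 78) (nat_lit 0) (nat_lit 0) (XT.lf (nat_lit 0) (nat_lit 28570667493661) (nat_lit 76) (nat_lit 23353206494397) (nat_lit 76) (nat_lit 23353183960600) (nat_lit 1) (nat_lit 4) (nat_lit 2) (nat_lit 5) (nat_lit 2) (nat_lit 4) (nat_lit 278) (nat_lit 163) (nat_lit 159)) (XT.lf (nat_lit 0) (nat_lit 32856386869790) (nat_lit 76) (nat_lit 26856123269444) (nat_lit 76) (nat_lit 26856096811526) (nat_lit 1) (nat_lit 4) (nat_lit 2) (nat_lit 5) (nat_lit 2) (nat_lit 4) (nat_lit 279) (nat_lit 163) (nat_lit 158))))) (XT.nd (nat_lit 31122) (nat_lit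 0) (nat_lit 0) (XT.nd (nat_lit 30654) (nat_lit 0) (nat_lit 0) (XT.nd (nat_lit 78) (nat_lit 0) (nat_lit 0) (XT.lf (nat_lit 0) (nat_lit 37784956115913) (nat_lit 76) (nat_lit 30884481355242) (nat_lit 76) (nat_lit 30884451485045) (nat_lit 1) (nat_lit 4) (nat_lit 2) (nat_lit 5) (nat_lit 2) (nat_lit 4) (nat_lit 280) (nat_lit 163) (nat_lit 157)) (XT.lf (nat_lit 0) (nat_lit 43452803760761) (nat_lit 76) (nat_lit 35517096453470) (nat_lit 76) (nat_lit 35517063616074) (nat_lit 1) (nat_lit 4) (nat_lit 2) (nat_lit 5) (nat_lit 2) (nat_lit 4) (nat_lit 281) (nat_lit 163) (nat_lit 156))) (XT.nd (nat_lit 390) (nat_lit 0) (nat_lit 0) (XT.lf (nat_lit 0) (nat_lit 6175632648586) (nat_lit 76) (nat_lit 5048283697998) (nat_lit 76) (nat_lit 5048283697998) (nat_lit 1) (nat_lit 4) (nat_lit 2) (nat_lit 5) (nat_lit 2) (nat_lit 4) (nat_lit 272) (nat_lit 164) (nat_lit 164)) (XT.lf (nat_lit 0) (nat_lit 24843922272329)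 (nat_lit 76) (nat_lit 20307215249515) (nat_lit 76) (nat_lit 20307184822910) (nat_lit 1) (nat_lit 4) (nat_lit 2) (nat_lit 5) (nat_lit 2) (nat_lit 4) (nat_lit 277) (nat_lit 164) (nat_lit 159)))) (XT.nd (nat_lit 624) (nat_lit 0) (nat_lit 0) (XT.nd (nat_lit 78) (nat_lit 0) (nat_lit 0) (XT.lf (nat_lit 0) (nat_lit 28570638511182) (nat_lit 76) (nat_lit 23353228071631) (nat_lit 76) (nat_lit 23353193720905) (nat_lit 1) (nat_lit 4) (nat_lit 2) (nat_lit 5) (nat_lit 2) (nat_lit 4) (nat_lit 278) (nat_lit 164) (nat_lit 158)) (XT.lf (nat_lit 0) (nat_lit 32856354149439) (nat_lit 76) (nat_lit 26856146611559) (nat_lit 76) (nat_lit 26856108848555) (nat_lit 1) (nat_lit 4) (nat_lit 2) (nat_lit 5) (nat_lit 2) (nat_lit 4) (nat_lit 279) (nat_lit 164) (nat_lit 157))) (XT.nd (nat_lit 78) (nat_lit 0) (nat_lit 0) (XT.lf (nat_lit 0) (nat_lit 87399668253921) (nat_lit 76) (nat_lit 71437257924962) (nat_lit 76) (nat_lit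 71437205965445) (nat_lit 1) (nat_lit 4) (nat_lit 2) (nat_lit 5) (nat_lit 2) (nat_lit 4) (nat_lit 286) (nat_lit 164) (nat_lit 150)) (XT.lf (nat_lit 0) (nat_lit 100509702291570) (nat_lit 76) (nat_lit 82152797970005) (nat_lit 76) (nat_lit 82152744895008) (nat_lit 1) (nat_lit 4) (nat_lit 2) (nat_lit 5) (nat_lit 2) (nat_lit 4) (nat_lit 287) (nat_lit 164) (nat_lit 149))))))) (XT.nd (nat_lit 32448) (nat_lit 0) (nat_lit 0) (XT.nd (nat_lit 31122) (nat_lit 0) (nat_lit 0) (XT.nd (nat_lit 1092) (nat_lit 0) (nat_lit 0) (XT.nd (nat_lit 78) (nat_lit 0) (nat_lit 0) (XT.lf (nat_lit 0) (nat_lit 4669491472565) (nat_lit 76) (nat_lit 3817321843398) (nat_lit 76) (nat_lit 3817321843398) (nat_lit 1) (nat_lit 4) (nat_lit 2) (nat_lit 5) (nat_lit 2) (nat_lit 4) (nat_lit 270) (nat_lit 165) (nat_lit 165)) (XT.nd (nat_lit 78) (nat_lit 0) (nat_lit 0) (XT.lf (nat_lit 0) (nat_lit 10740049128784) (nat_lit 76) (nat_lit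 8779726519965) (nat_lit 76) (nat_lit 8779717443235) (nat_lit 1) (nat_lit 4) (nat_lit 2) (nat_lit 5) (nat_lit 2) (nat_lit 4) (nat_lit 271) (nat_lit 165) (nat_lit 164)) (XT.lf (nat_lit 0) (nat_lit 12351256651248) (nat_lit 76) (nat_lit 10096580555003) (nat_lit 76) (nat_lit 10096563585465) (nat_lit 1) (nat_lit 4) (nat_lit 2) (nat_lit 5) (nat_lit 2) (nat_lit 4) (nat_lit 272) (nat_lit 165) (nat_lit 163)))) (XT.nd (nat_lit 156) (nat_lit 0) (nat_lit 0) (XT.nd (nat_lit 78) (nat_lit 0) (nat_lit 0) (XT.lf (nat_lit 0) (nat_lit 66086507030110) (nat_lit 76) (nat_lit 54016947813980) (nat_lit 76) (nat_lit 54016888060535) (nat_lit 1) (nat_lit 4) (nat_lit 2) (nat_lit 5) (nat_lit 2) (nat_lit 4) (nat_lit 284) (nat_lit 165) (nat_lit 151)) (XT.lf (nat_lit 0) (nat_lit 75999579454122) (nat_lit 76) (nat_lit 62119434045820) (nat_lit 76) (nat_lit 62119373009574) (nat_lit 1) (nat_lit 4) (nat_lit 2) (nat_lit 5)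 (nat_lit 2) (nat_lit 4) (nat_lit 285) (nat_lit 165) (nat_lit 150))) (XT.nd (nat_lit 78) (nat_lit 0) (nat_lit 0) (XT.lf (nat_lit 0) (nat_lit 87399610114614) (nat_lit 76) (nat_lit 71437294452865) (nat_lit 76) (nat_lit 71437232301138) (nat_lit 1) (nat_lit 4) (nat_lit 2) (nat_lit 5) (nat_lit 2) (nat_lit 4) (nat_lit 286) (nat_lit 165) (nat_lit 149)) (XT.lf (nat_lit 0) (nat_lit 100509643089727) (nat_lit 76) (nat_lit 82152834999598) (nat_lit 76) (nat_lit 82152771877888) (nat_lit 1) (nat_lit 4) (nat_lit 2) (nat_lit 5) (nat_lit 2) (nat_lit 4) (nat_lit 287) (nat_lit 165) (nat_lit 148))))) (XT.nd (nat_lit 312) (nat_lit 0) (nat_lit 0) (XT.nd (nat_lit 156) (nat_lit 0) (nat_lit 0) (XT.nd (nat_lit 78) (nat_lit 0) (nat_lit 0) (XT.lf (nat_lit 0) (nat_lit 3530606253330) (nat_lit 76) (nat_lit 2886551946525) (nat_lit 76) (nat_lit 2886551946525) (nat_lit 1) (nat_lit 4) (nat_lit 2) (nat_lit 5) (nat_lit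 2) (nat_lit 4) (nat_lit 268) (nat_lit 166) (nat_lit 166)) (XT.lf (nat_lit 0) (nat_lit 8120645935826) (nat_lit 76) (nat_lit 6638938699177) (nat_lit 76) (nat_lit 6638928260938) (nat_lit 1) (nat_lit 4) (nat_lit 2) (nat_lit 5) (nat_lit 2) (nat_lit 4) (nat_lit 269) (nat_lit 166) (nat_lit 165))) (XT.nd (nat_lit 78) (nat_lit 0) (nat_lit 0) (XT.lf (nat_lit 0) (nat_lit 9338973002318) (nat_lit 76) (nat_lit 7634658819655) (nat_lit 76) (nat_lit 7634639304686) (nat_lit 1) (nat_lit 4) (nat_lit 2) (nat_lit 5) (nat_lit 2) (nat_lit 4) (nat_lit 270) (nat_lit 166) (nat_lit 164)) (XT.lf (nat_lit 0) (nat_lit 10740030540047) (nat_lit 76) (nat_lit 8779745735099) (nat_lit 76) (nat_lit 8779718327323) (nat_lit 1) (nat_lit 4) (nat_lit 2) (nat_lit 5) (nat_lit 2) (nat_lit 4) (nat_lit 271) (nat_lit 166) (nat_lit 163)))) (XT.nd (nat_lit 390) (nat_lit 0) (nat_lit 0) (XT.nd (nat_lit 312) (nat_lit 0) (nat_lit 0) (XT.lf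 (nat_lit 0) (nat_lit 12351230544316) (nat_lit 76) (nat_lit 10096603319944) (nat_lit 76) (nat_lit 10096569048856) (nat_lit 1) (nat_lit 4) (nat_lit 2) (nat_lit 5) (nat_lit 2) (nat_lit 4) (nat_lit 272) (nat_lit 166) (nat_lit 162)) (XT.lf (nat_lit 0) (nat_lit 21603210518444) (nat_lit 76) (nat_lit 17658569955551) (nat_lit 76) (nat_lit 17658516089856) (nat_lit 1) (nat_lit 4) (nat_lit 2) (nat_lit 5) (nat_lit 2) (nat_lit 4) (nat_lit 276) (nat_lit 166) (nat_lit 158))) (XT.nd (nat_lit 546) (nat_lit 0) (nat_lit 0) (XT.lf (nat_lit 0) (nat_lit 24843833334838) (nat_lit 76) (nat_lit 20307276757391) (nat_lit 76) (nat_lit 20307219479417) (nat_lit 1) (nat_lit 4) (nat_lit 2) (nat_lit 5) (nat_lit 2) (nat_lit 4) (nat_lit 277) (nat_lit 166) (nat_lit 157)) (XT.lf (nat_lit 0) (nat_lit 66086440169907) (nat_lit 76) (nat_lit 54016989821068) (nat_lit 76) (nat_lit 54016918346583) (nat_lit 1) (nat_lit 4) (nat_lit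 2) (nat_lit 5) (nat_lit 2) (nat_lit 4) (nat_lit 284) (nat_lit 166) (nat_lit 150)))))) (XT.nd (nat_lit 30186) (nat_lit 0) (nat_lit 0) (XT.nd (nat_lit 29874) (nat_lit 0) (nat_lit 0) (XT.nd (nat_lit 156) (nat_lit 0) (nat_lit 0) (XT.nd (nat_lit 78) (nat_lit 0) (nat_lit 0) (XT.lf (nat_lit 0) (nat_lit 75999511372002) (nat_lit 76) (nat_lit 62119476629852) (nat_lit 76) (nat_lit 62119404039886) (nat_lit 1) (nat_lit 4) (nat_lit 2) (nat_lit 5) (nat_lit 2) (nat_lit 4) (nat_lit 285) (nat_lit 166) (nat_lit 149)) (XT.lf (nat_lit 0) (nat_lit 87399540969958) (nat_lit 76) (nat_lit 71437337538585) (nat_lit 76) (nat_lit 71437263978637) (nat_lit 1) (nat_lit 4) (nat_lit 2) (nat_lit 5) (nat_lit 2) (nat_lit 4) (nat_lit 286) (nat_lit 166) (nat_lit 148))) (XT.nd (nat_lit 29640) (nat_lit 0) (nat_lit 0) (XT.lf (nat_lit 0) (nat_lit 100509573021126) (nat_lit 76) (nat_lit 82152878521570) (nat_lit 76) (nat_lit 82152804118158)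 (nat_lit 1) (nat_lit 4) (nat_lit 2) (nat_lit 5) (nat_lit 2) (nat_lit 4) (nat_lit 287) (nat_lit 166) (nat_lit 147)) (XT.lf (nat_lit 0) (nat_lit 2669415384056) (nat_lit 76) (nat_lit 2182772414584) (nat_lit 76) (nat_lit 2182772414584) (nat_lit 1) (nat_lit 4) (nat_lit 2) (nat_lit 5) (nat_lit 2) (nat_lit 4) (nat_lit 266) (nat_lit 167) (nat_lit 167)))) (XT.nd (nat_lit 156) (nat_lit 0) (nat_lit 0) (XT.nd (nat_lit 78) (nat_lit 0) (nat_lit 0) (XT.lf (nat_lit 0) (nat_lit 6139944669469) (nat_lit 76) (nat_lit 5020226159040) (nat_lit 76) (nat_lit 5020214155065) (nat_lit 1) (nat_lit 4) (nat_lit 2) (nat_lit 5) (nat_lit 2) (nat_lit 4) (nat_lit 267) (nat_lit 167) (nat_lit 166)) (XT.lf (nat_lit 0) (nat_lit 7061201072426) (nat_lit 76) (nat_lit 5773121295836) (nat_lit 76) (nat_lit 5773098853622) (nat_lit 1) (nat_lit 4) (nat_lit 2) (nat_lit 5) (nat_lit 2) (nat_lit 4) (nat_lit 268) (nat_lit 167) (nat_lit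 165))) (XT.nd (nat_lit 78) (nat_lit 0) (nat_lit 0) (XT.lf (nat_lit 0) (nat_lit 8120624558778) (nat_lit 76) (nat_lit 6638960796583) (nat_lit 76) (nat_lit 6638929277639) (nat_lit 1) (nat_lit 4) (nat_lit 2) (nat_lit 5) (nat_lit 2) (nat_lit 4) (nat_lit 269) (nat_lit 167) (nat_lit 164)) (XT.lf (nat_lit 0) (nat_lit 9338942979346) (nat_lit 76) (nat_lit 7634684999337) (nat_lit 76) (nat_lit 7634645587585) (nat_lit 1) (nat_lit 4) (nat_lit 2) (nat_lit 5) (nat_lit 2) (nat_lit 4) (nat_lit 270) (nat_lit 167) (nat_lit 163))))) (XT.nd (nat_lit 468) (nat_lit 0) (nat_lit 0) (XT.nd (nat_lit 312) (nat_lit 0) (nat_lit 0) (XT.nd (nat_lit 78) (nat_lit 0) (nat_lit 0) (XT.lf (nat_lit 0) (nat_lit 10739992998880) (nat_lit 76) (nat_lit 8779775464588) (nat_lit 76) (nat_lit 8779729189525) (nat_lit 1) (nat_lit 4) (nat_lit 2) (nat_lit 5) (nat_lit 2) (nat_lit 4) (nat_lit 271) (nat_lit 167) (nat_lit 162)) (XT.lf (nat_lit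 0) (nat_lit 12351186465588) (nat_lit 76) (nat_lit 10096636136221) (nat_lit 76) (nat_lit 10096583893061) (nat_lit 1) (nat_lit 4) (nat_lit 2) (nat_lit 5) (nat_lit 2) (nat_lit 4) (nat_lit 272) (nat_lit 167) (nat_lit 161))) (XT.nd (nat_lit 78) (nat_lit 0) (nat_lit 0) (XT.lf (nat_lit 0) (nat_lit 18785211640978) (nat_lit 76) (nat_lit 15355389813272) (nat_lit 76) (nat_lit 15355323943602) (nat_lit 1) (nat_lit 4) (nat_lit 2) (nat_lit 5) (nat_lit 2) (nat_lit 4) (nat_lit 275) (nat_lit 167) (nat_lit 158)) (XT.lf (nat_lit 0) (nat_lit 21603147775122) (nat_lit 76) (nat_lit 17658611584540) (nat_lit 76) (nat_lit 17658542302592) (nat_lit 1) (nat_lit 4) (nat_lit 2) (nat_lit 5) (nat_lit 2) (nat_lit 4) (nat_lit 276) (nat_lit 167) (nat_lit 157)))) (XT.nd (nat_lit 468) (nat_lit 0) (nat_lit 0) (XT.nd (nat_lit 78) (nat_lit 0) (nat_lit 0) (XT.lf (nat_lit 0) (nat_lit 24843767341192) (nat_lit 76) (nat_lit 20307319921060)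 (nat_lit 76) (nat_lit 20307247671913) (nat_lit 1) (nat_lit 4) (nat_lit 2) (nat_lit 5) (nat_lit 2) (nat_lit 4) (nat_lit 277) (nat_lit 167) (nat_lit 156)) (XT.lf (nat_lit 0) (nat_lit 28570473765482) (nat_lit 76) (nat_lit 23353337377240) (nat_lit 76) (nat_lit 23353262547920) (nat_lit 1) (nat_lit 4) (nat_lit 2) (nat_lit 5) (nat_lit 2) (nat_lit 4) (nat_lit 278) (nat_lit 167) (nat_lit 155))) (XT.nd (nat_lit 78) (nat_lit 0) (nat_lit 0) (XT.lf (nat_lit 0) (nat_lit 57466297676151) (nat_lit 76) (nat_lit 46971399168046) (nat_lit 76) (nat_lit 46971315689586) (nat_lit 1) (nat_lit 4) (nat_lit 2) (nat_lit 5) (nat_lit 2) (nat_lit 4) (nat_lit 283) (nat_lit 167) (nat_lit 150)) (XT.lf (nat_lit 0) (nat_lit 66086360653553) (nat_lit 76) (nat_lit 54017039369647) (nat_lit 76) (nat_lit 54016954775707) (nat_lit 1) (nat_lit 4) (nat_lit 2) (nat_lit 5) (nat_lit 2) (nat_lit 4) (nat_lit 284) (nat_lit 167) (nat_lit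 149))))))))
noncomputable def xc1 : XT := (XT.nd (nat_lit 61698) (nat_lit 0) (nat_lit 0) (XT.nd (nat_lit 30654) (nat_lit 0) (nat_lit 0) (XT.nd (nat_lit 30030) (nat_lit 0) (nat_lit 0) (XT.nd (nat_lit 29718) (nat_lit 0) (nat_lit 0) (XT.nd (nat_lit 78) (nat_lit 0) (nat_lit 0) (XT.lf (nat_lit 0) (nat_lit 75999430793111) (nat_lit 76) (nat_lit 62119526680120) (nat_lit 76) (nat_lit 62119441116197) (nat_lit 1) (nat_lit 4) (nat_lit 2) (nat_lit 5) (nat_lit 2) (nat_lit 4) (nat_lit 285) (nat_lit 167) (nat_lit 148)) (XT.nd (nat_lit 29562) (nat_lit 0) (nat_lit 0) (XT.lf (nat_lit 0) (nat_lit 87399459467123) (nat_lit 76) (nat_lit 71437388025105) (nat_lit 76) (nat_lit 71437301617719) (nat_lit 1) (nat_lit 4) (nat_lit 2) (nat_lit 5) (nat_lit 2) (nat_lit 4) (nat_lit 286) (nat_lit 167) (nat_lit 147)) (XT.lf (nat_lit 0) (nat_lit 2018196835502) (nat_lit 76) (nat_lit 1650632644318) (nat_lit 76) (nat_lit 1650632644318)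 (nat_lit 1) (nat_lit 4) (nat_lit 2) (nat_lit 5) (nat_lit 2) (nat_lit 4) (nat_lit 264) (nat_lit 168) (nat_lit 168)))) (XT.nd (nat_lit 156) (nat_lit 0) (nat_lit 0) (XT.nd (nat_lit 78) (nat_lit 0) (nat_lit 0) (XT.lf (nat_lit 0) (nat_lit 4642185400718) (nat_lit 76) (nat_lit 3796282128253) (nat_lit 76) (nat_lit 3796268323682) (nat_lit 1) (nat_lit 4) (nat_lit 2) (nat_lit 5) (nat_lit 2) (nat_lit 4) (nat_lit 265) (nat_lit 168) (nat_lit 167)) (XT.lf (nat_lit 0) (nat_lit 5338817618742) (nat_lit 76) (nat_lit 4365564842373) (nat_lit 76) (nat_lit 4365539033827) (nat_lit 1) (nat_lit 4) (nat_lit 2) (nat_lit 5) (nat_lit 2) (nat_lit 4) (nat_lit 266) (nat_lit 168) (nat_lit 166))) (XT.nd (nat_lit 78) (nat_lit 0) (nat_lit 0) (XT.lf (nat_lit 0) (nat_lit 6139920085865) (nat_lit 76) (nat_lit 5020251571056) (nat_lit 76) (nat_lit 5020215324271) (nat_lit 1) (nat_lit 4) (nat_lit 2) (nat_lit 5) (nat_lit 2) (nat_lit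 4) (nat_lit 267) (nat_lit 168) (nat_lit 165)) (XT.lf (nat_lit 0) (nat_lit 7061166546008) (nat_lit 76) (nat_lit 5773151402471) (nat_lit 76) (nat_lit 5773106078957) (nat_lit 1) (nat_lit 4) (nat_lit 2) (nat_lit 5) (nat_lit 2) (nat_lit 4) (nat_lit 268) (nat_lit 168) (nat_lit 164))))) (XT.nd (nat_lit 312) (nat_lit 0) (nat_lit 0) (XT.nd (nat_lit 156) (nat_lit 0) (nat_lit 0) (XT.nd (nat_lit 78) (nat_lit 0) (nat_lit 0) (XT.lf (nat_lit 0) (nat_lit 8120581386436) (nat_lit 76) (nat_lit 6638994985495) (nat_lit 76) (nat_lit 6638941769172) (nat_lit 1) (nat_lit 4) (nat_lit 2) (nat_lit 5) (nat_lit 2) (nat_lit 4) (nat_lit 269) (nat_lit 168) (nat_lit 163)) (XT.lf (nat_lit 0) (nat_lit 9338892288809) (nat_lit 76) (nat_lit 7634722738055) (nat_lit 76) (nat_lit 7634662658421) (nat_lit 1) (nat_lit 4) (nat_lit 2) (nat_lit 5) (nat_lit 2) (nat_lit 4) (nat_lit 270) (nat_lit 168) (nat_lit 162))) (XT.nd (nat_lit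 78) (nat_lit 0) (nat_lit 0) (XT.lf (nat_lit 0) (nat_lit 10739935770782) (nat_lit 76) (nat_lit 8779816290094) (nat_lit 76) (nat_lit 8779750242363) (nat_lit 1) (nat_lit 4) (nat_lit 2) (nat_lit 5) (nat_lit 2) (nat_lit 4) (nat_lit 271) (nat_lit 168) (nat_lit 161)) (XT.lf (nat_lit 0) (nat_lit 12351123552655) (nat_lit 76) (nat_lit 10096679645891) (nat_lit 76) (nat_lit 10096608408510) (nat_lit 1) (nat_lit 4) (nat_lit 2) (nat_lit 5) (nat_lit 2) (nat_lit 4) (nat_lit 272) (nat_lit 168) (nat_lit 160)))) (XT.nd (nat_lit 156) (nat_lit 0) (nat_lit 0) (XT.nd (nat_lit 78) (nat_lit 0) (nat_lit 0) (XT.lf (nat_lit 0) (nat_lit 14203978873638) (nat_lit 76) (nat_lit 11611077523276) (nat_lit 76) (nat_lit 11611001773156) (nat_lit 1) (nat_lit 4) (nat_lit 2) (nat_lit 5) (nat_lit 2) (nat_lit 4) (nat_lit 273) (nat_lit 168) (nat_lit 159)) (XT.lf (nat_lit 0) (nat_lit 16334753250880) (nat_lit 76) (nat_lit 13352639445937)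 (nat_lit 76) (nat_lit 13352559771696) (nat_lit 1) (nat_lit 4) (nat_lit 2) (nat_lit 5) (nat_lit 2) (nat_lit 4) (nat_lit 274) (nat_lit 168) (nat_lit 158))) (XT.nd (nat_lit 78) (nat_lit 0) (nat_lit 0) (XT.lf (nat_lit 0) (nat_lit 18785135748285) (nat_lit 76) (nat_lit 15355439451491) (nat_lit 76) (nat_lit 15355356364972) (nat_lit 1) (nat_lit 4) (nat_lit 2) (nat_lit 5) (nat_lit 2) (nat_lit 4) (nat_lit 275) (nat_lit 168) (nat_lit 157)) (XT.lf (nat_lit 0) (nat_lit 21603068632106) (nat_lit 76) (nat_lit 17658662757439) (nat_lit 76) (nat_lit 17658576703721) (nat_lit 1) (nat_lit 4) (nat_lit 2) (nat_lit 5) (nat_lit 2) (nat_lit 4) (nat_lit 276) (nat_lit 168) (nat_lit 156)))))) (XT.nd (nat_lit 30420) (nat_lit 0) (nat_lit 0) (XT.nd (nat_lit 30108) (nat_lit 0) (nat_lit 0) (XT.nd (nat_lit 546) (nat_lit 0) (nat_lit 0) (XT.nd (nat_lit 78) (nat_lit 0) (nat_lit 0) (XT.lf (nat_lit 0) (nat_lit 24843685371808)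 (nat_lit 76) (nat_lit 20307372428462) (nat_lit 76) (nat_lit 20307283794571) (nat_lit 1) (nat_lit 4) (nat_lit 2) (nat_lit 5) (nat_lit 2) (nat_lit 4) (nat_lit 277) (nat_lit 168) (nat_lit 155)) (XT.lf (nat_lit 0) (nat_lit 28570389338387) (nat_lit 76) (nat_lit 23353391045080) (nat_lit 76) (nat_lit 23353300167560) (nat_lit 1) (nat_lit 4) (nat_lit 2) (nat_lit 5) (nat_lit 2) (nat_lit 4) (nat_lit 278) (nat_lit 168) (nat_lit 154))) (XT.nd (nat_lit 78) (nat_lit 0) (nat_lit 0) (XT.lf (nat_lit 0) (nat_lit 66086266925292) (nat_lit 76) (nat_lit 54017097429144) (nat_lit 76) (nat_lit 54016998060650) (nat_lit 1) (nat_lit 4) (nat_lit 2) (nat_lit 5) (nat_lit 2) (nat_lit 4) (nat_lit 284) (nat_lit 168) (nat_lit 148)) (XT.lf (nat_lit 0) (nat_lit 75999336140906) (nat_lit 76) (nat_lit 62119585175869) (nat_lit 76) (nat_lit 62119484963912) (nat_lit 1) (nat_lit 4) (nat_lit 2) (nat_lit 5) (nat_lit 2) (nat_lit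 4) (nat_lit 285) (nat_lit 168) (nat_lit 147)))) (XT.nd (nat_lit 156) (nat_lit 0) (nat_lit 0) (XT.nd (nat_lit 78) (nat_lit 0) (nat_lit 0) (XT.lf (nat_lit 0) (nat_lit 1525742348607) (nat_lit 76) (nat_lit 1248279992798) (nat_lit 76) (nat_lit 1248279992798) (nat_lit 1) (nat_lit 4) (nat_lit 2) (nat_lit 5) (nat_lit 2) (nat_lit 4) (nat_lit 262) (nat_lit 169) (nat_lit 169)) (XT.lf (nat_lit 0) (nat_lit 3509589982718) (nat_lit 76) (nat_lit 2870845086703) (nat_lit 76) (nat_lit 2870829211446) (nat_lit 1) (nat_lit 4) (nat_lit 2) (nat_lit 5) (nat_lit 2) (nat_lit 4) (nat_lit 263) (nat_lit 169) (nat_lit 168))) (XT.nd (nat_lit 78) (nat_lit 0) (nat_lit 0) (XT.lf (nat_lit 0) (nat_lit 4036378549229) (nat_lit 76) (nat_lit 3301288303822) (nat_lit 76) (nat_lit 3301258623995) (nat_lit 1) (nat_lit 4) (nat_lit 2) (nat_lit 5) (nat_lit 2) (nat_lit 4) (nat_lit 264) (nat_lit 169) (nat_lit 167)) (XT.lf (nat_lit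 0) (nat_lit 4642157129572) (nat_lit 76) (nat_lit 3796311352072) (nat_lit 76) (nat_lit 3796269668269) (nat_lit 1) (nat_lit 4) (nat_lit 2) (nat_lit 5) (nat_lit 2) (nat_lit 4) (nat_lit 265) (nat_lit 169) (nat_lit 166))))) (XT.nd (nat_lit 312) (nat_lit 0) (nat_lit 0) (XT.nd (nat_lit 156) (nat_lit 0) (nat_lit 0) (XT.nd (nat_lit 78) (nat_lit 0) (nat_lit 0) (XT.lf (nat_lit 0) (nat_lit 5338777913361) (nat_lit 76) (nat_lit 4365599465003) (nat_lit 76) (nat_lit 4365547342961) (nat_lit 1) (nat_lit 4) (nat_lit 2) (nat_lit 5) (nat_lit 2) (nat_lit 4) (nat_lit 266) (nat_lit 169) (nat_lit 165)) (XT.lf (nat_lit 0) (nat_lit 6139870437671) (nat_lit 76) (nat_lit 5020290888304) (nat_lit 76) (nat_lit 5020229689533) (nat_lit 1) (nat_lit 4) (nat_lit 2) (nat_lit 5) (nat_lit 2) (nat_lit 4) (nat_lit 267) (nat_lit 169) (nat_lit 164))) (XT.nd (nat_lit 78) (nat_lit 0) (nat_lit 0) (XT.lf (nat_lit 0) (nat_lit 7061108251891)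 (nat_lit 76) (nat_lit 5773194801997) (nat_lit 76) (nat_lit 5773125710417) (nat_lit 1) (nat_lit 4) (nat_lit 2) (nat_lit 5) (nat_lit 2) (nat_lit 4) (nat_lit 268) (nat_lit 169) (nat_lit 163)) (XT.lf (nat_lit 0) (nat_lit 8120515574124) (nat_lit 76) (nat_lit 6639041934827) (nat_lit 76) (nat_lit 6638965979936) (nat_lit 1) (nat_lit 4) (nat_lit 2) (nat_lit 5) (nat_lit 2) (nat_lit 4) (nat_lit 269) (nat_lit 169) (nat_lit 162)))) (XT.nd (nat_lit 156) (nat_lit 0) (nat_lit 0) (XT.nd (nat_lit 78) (nat_lit 0) (nat_lit 0) (XT.lf (nat_lit 0) (nat_lit 9338819938936) (nat_lit 76) (nat_lit 7634772774176) (nat_lit 76) (nat_lit 7634690851188) (nat_lit 1) (nat_lit 4) (nat_lit 2) (nat_lit 5) (nat_lit 2) (nat_lit 4) (nat_lit 270) (nat_lit 169) (nat_lit 161)) (XT.lf (nat_lit 0) (nat_lit 10739857736073) (nat_lit 76) (nat_lit 8779869010378) (nat_lit 76) (nat_lit 8779781897741) (nat_lit 1) (nat_lit 4) (nat_lit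 2) (nat_lit 5) (nat_lit 2) (nat_lit 4) (nat_lit 271) (nat_lit 169) (nat_lit 160))) (XT.nd (nat_lit 78) (nat_lit 0) (nat_lit 0) (XT.lf (nat_lit 0) (nat_lit 12351040574611) (nat_lit 76) (nat_lit 10096734700230) (nat_lit 76) (nat_lit 10096643074854) (nat_lit 1) (nat_lit 4) (nat_lit 2) (nat_lit 5) (nat_lit 2) (nat_lit 4) (nat_lit 272) (nat_lit 169) (nat_lit 159)) (XT.lf (nat_lit 0) (nat_lit 14203891597041) (nat_lit 76) (nat_lit 11611134607228) (nat_lit 76) (nat_lit 11611039057731) (nat_lit 1) (nat_lit 4) (nat_lit 2) (nat_lit 5) (nat_lit 2) (nat_lit 4) (nat_lit 273) (nat_lit 169) (nat_lit 158))))))) (XT.nd (nat_lit 30966) (nat_lit 0) (nat_lit 0) (XT.nd (nat_lit 30342) (nat_lit 0) (nat_lit 0) (XT.nd (nat_lit 234) (nat_lit 0) (nat_lit 0) (XT.nd (nat_lit 78) (nat_lit 0) (nat_lit 0) (XT.lf (nat_lit 0) (nat_lit 16334662236412) (nat_lit 76) (nat_lit 13352698294770) (nat_lit 76) (nat_lit 13352599332994)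 (nat_lit 1) (nat_lit 4) (nat_lit 2) (nat_lit 5) (nat_lit 2) (nat_lit 4) (nat_lit 274) (nat_lit 169) (nat_lit 157)) (XT.nd (nat_lit 78) (nat_lit 0) (nat_lit 0) (XT.lf (nat_lit 0) (nat_lit 18785041483494) (nat_lit 76) (nat_lit 15355499835004) (nat_lit 76) (nat_lit 15355397906029) (nat_lit 1) (nat_lit 4) (nat_lit 2) (nat_lit 5) (nat_lit 2) (nat_lit 4) (nat_lit 275) (nat_lit 169) (nat_lit 156)) (XT.lf (nat_lit 0) (nat_lit 21602971540946) (nat_lit 76) (nat_lit 17658724475455) (nat_lit 76) (nat_lit 17658619966307) (nat_lit 1) (nat_lit 4) (nat_lit 2) (nat_lit 5) (nat_lit 2) (nat_lit 4) (nat_lit 276) (nat_lit 169) (nat_lit 155)))) (XT.nd (nat_lit 29952) (nat_lit 0) (nat_lit 0) (XT.nd (nat_lit 78) (nat_lit 0) (nat_lit 0) (XT.lf (nat_lit 0) (nat_lit 24843585822938) (nat_lit 76) (nat_lit 20307435306916) (nat_lit 76) (nat_lit 20307328554139) (nat_lit 1) (nat_lit 4) (nat_lit 2) (nat_lit 5) (nat_lit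 2) (nat_lit 4) (nat_lit 277) (nat_lit 169) (nat_lit 154)) (XT.lf (nat_lit 0) (nat_lit 28570287652376) (nat_lit 76) (nat_lit 23353454932611) (nat_lit 76) (nat_lit 23353346228852) (nat_lit 1) (nat_lit 4) (nat_lit 2) (nat_lit 5) (nat_lit 2) (nat_lit 4) (nat_lit 278) (nat_lit 169) (nat_lit 153))) (XT.nd (nat_lit 78) (nat_lit 0) (nat_lit 0) (XT.lf (nat_lit 0) (nat_lit 1153330345722) (nat_lit 76) (nat_lit 944068269094) (nat_lit 76) (nat_lit 944068269094) (nat_lit 1) (nat_lit 4) (nat_lit 2) (nat_lit 5) (nat_lit 2) (nat_lit 4) (nat_lit 260) (nat_lit 170) (nat_lit 170)) (XT.lf (nat_lit 0) (nat_lit 2653099763220) (nat_lit 76) (nat_lit 2171128287676) (nat_lit 76) (nat_lit 2171110031131) (nat_lit 1) (nat_lit 4) (nat_lit 2) (nat_lit 5) (nat_lit 2) (nat_lit 4) (nat_lit 261) (nat_lit 170) (nat_lit 169))))) (XT.nd (nat_lit 312) (nat_lit 0) (nat_lit 0) (XT.nd (nat_lit 156) (nat_lit 0) (nat_lit 0) (XT.nd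 (nat_lit 78) (nat_lit 0) (nat_lit 0) (XT.lf (nat_lit 0) (nat_lit 3051467307172) (nat_lit 76) (nat_lit 2496586453058) (nat_lit 76) (nat_lit 2496552321256) (nat_lit 1) (nat_lit 4) (nat_lit 2) (nat_lit 5) (nat_lit 2) (nat_lit 4) (nat_lit 262) (nat_lit 170) (nat_lit 168)) (XT.lf (nat_lit 0) (nat_lit 3509557470900) (nat_lit 76) (nat_lit 2870878694094) (nat_lit 76) (nat_lit 2870830757721) (nat_lit 1) (nat_lit 4) (nat_lit 2) (nat_lit 5) (nat_lit 2) (nat_lit 4) (nat_lit 263) (nat_lit 170) (nat_lit 167))) (XT.nd (nat_lit 78) (nat_lit 0) (nat_lit 0) (XT.lf (nat_lit 0) (nat_lit 4036332888042) (nat_lit 76) (nat_lit 3301328119847) (nat_lit 76) (nat_lit 3301268179499) (nat_lit 1) (nat_lit 4) (nat_lit 2) (nat_lit 5) (nat_lit 2) (nat_lit 4) (nat_lit 264) (nat_lit 170) (nat_lit 166)) (XT.lf (nat_lit 0) (nat_lit 4642100034150) (nat_lit 76) (nat_lit 3796356566908) (nat_lit 76) (nat_lit 3796286188321)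 (nat_lit 1) (nat_lit 4) (nat_lit 2) (nat_lit 5) (nat_lit 2) (nat_lit 4) (nat_lit 265) (nat_lit 170) (nat_lit 165)))) (XT.nd (nat_lit 156) (nat_lit 0) (nat_lit 0) (XT.nd (nat_lit 78) (nat_lit 0) (nat_lit 0) (XT.lf (nat_lit 0) (nat_lit 5338710875126) (nat_lit 76) (nat_lit 4365649374458) (nat_lit 76) (nat_lit 4365569919141) (nat_lit 1) (nat_lit 4) (nat_lit 2) (nat_lit 5) (nat_lit 2) (nat_lit 4) (nat_lit 266) (nat_lit 170) (nat_lit 164)) (XT.lf (nat_lit 0) (nat_lit 6139794753512) (nat_lit 76) (nat_lit 5020344880036) (nat_lit 76) (nat_lit 5020257531912) (nat_lit 1) (nat_lit 4) (nat_lit 2) (nat_lit 5) (nat_lit 2) (nat_lit 4) (nat_lit 267) (nat_lit 170) (nat_lit 163))) (XT.nd (nat_lit 78) (nat_lit 0) (nat_lit 0) (XT.lf (nat_lit 0) (nat_lit 7061025049536) (nat_lit 76) (nat_lit 5773252343535) (nat_lit 76) (nat_lit 5773158132099) (nat_lit 1) (nat_lit 4) (nat_lit 2) (nat_lit 5) (nat_lit 2) (nat_lit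 4) (nat_lit 268) (nat_lit 170) (nat_lit 162)) (XT.lf (nat_lit 0) (nat_lit 8120425834208) (nat_lit 76) (nat_lit 6639102563153) (nat_lit 76) (nat_lit 6639002383620) (nat_lit 1) (nat_lit 4) (nat_lit 2) (nat_lit 5) (nat_lit 2) (nat_lit 4) (nat_lit 269) (nat_lit 170) (nat_lit 161)))))) (XT.nd (nat_lit 624) (nat_lit 0) (nat_lit 0) (XT.nd (nat_lit 312) (nat_lit 0) (nat_lit 0) (XT.nd (nat_lit 156) (nat_lit 0) (nat_lit 0) (XT.nd (nat_lit 78) (nat_lit 0) (nat_lit 0) (XT.lf (nat_lit 0) (nat_lit 9338724514185) (nat_lit 76) (nat_lit 7634836086665) (nat_lit 76) (nat_lit 7634730717483) (nat_lit 1) (nat_lit 4) (nat_lit 2) (nat_lit 5) (nat_lit 2) (nat_lit 4) (nat_lit 270) (nat_lit 170) (nat_lit 160)) (XT.lf (nat_lit 0) (nat_lit 10739757367987) (nat_lit 76) (nat_lit 8779934656923) (nat_lit 76) (nat_lit 8779824775002) (nat_lit 1) (nat_lit 4) (nat_lit 2) (nat_lit 5) (nat_lit 2) (nat_lit 4) (nat_lit 271)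 (nat_lit 170) (nat_lit 159))) (XT.nd (nat_lit 78) (nat_lit 0) (nat_lit 0) (XT.lf (nat_lit 0) (nat_lit 12350935907972) (nat_lit 76) (nat_lit 10096802376388) (nat_lit 76) (nat_lit 10096688570346) (nat_lit 1) (nat_lit 4) (nat_lit 2) (nat_lit 5) (nat_lit 2) (nat_lit 4) (nat_lit 272) (nat_lit 170) (nat_lit 158)) (XT.lf (nat_lit 0) (nat_lit 14203783192531) (nat_lit 76) (nat_lit 11611204048267) (nat_lit 76) (nat_lit 11611086829946) (nat_lit 1) (nat_lit 4) (nat_lit 2) (nat_lit 5) (nat_lit 2) (nat_lit 4) (nat_lit 273) (nat_lit 170) (nat_lit 157)))) (XT.nd (nat_lit 156) (nat_lit 0) (nat_lit 0) (XT.nd (nat_lit 78) (nat_lit 0) (nat_lit 0) (XT.lf (nat_lit 0) (nat_lit 16334550581579) (nat_lit 76) (nat_lit 13352769270489) (nat_lit 76) (nat_lit 13352649084968) (nat_lit 1) (nat_lit 4) (nat_lit 2) (nat_lit 5) (nat_lit 2) (nat_lit 4) (nat_lit 274) (nat_lit 170) (nat_lit 156)) (XT.lf (nat_lit 0) (nat_lit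 18784927002292) (nat_lit 76) (nat_lit 15355572145226) (nat_lit 76) (nat_lit 15355449379533) (nat_lit 1) (nat_lit 4) (nat_lit 2) (nat_lit 5) (nat_lit 2) (nat_lit 4) (nat_lit 275) (nat_lit 170) (nat_lit 155))) (XT.nd (nat_lit 78) (nat_lit 0) (nat_lit 0) (XT.lf (nat_lit 0) (nat_lit 21602854602034) (nat_lit 76) (nat_lit 17658797946115) (nat_lit 76) (nat_lit 17658672936794) (nat_lit 1) (nat_lit 4) (nat_lit 2) (nat_lit 5) (nat_lit 2) (nat_lit 4) (nat_lit 276) (nat_lit 170) (nat_lit 154)) (XT.lf (nat_lit 0) (nat_lit 24843466746885) (nat_lit 76) (nat_lit 20307509786653) (nat_lit 76) (nat_lit 20307382826349) (nat_lit 1) (nat_lit 4) (nat_lit 2) (nat_lit 5) (nat_lit 2) (nat_lit 4) (nat_lit 277) (nat_lit 170) (nat_lit 153))))) (XT.nd (nat_lit 29952) (nat_lit 0) (nat_lit 0) (XT.nd (nat_lit 29796) (nat_lit 0) (nat_lit 0) (XT.nd (nat_lit 29718) (nat_lit 0) (nat_lit 0) (XT.lf (nat_lit 0) (nat_lit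 28570166717941) (nat_lit 76) (nat_lit 23353530289805) (nat_lit 76) (nat_lit 23353401632996) (nat_lit 1) (nat_lit 4) (nat_lit 2) (nat_lit 5) (nat_lit 2) (nat_lit 4) (nat_lit 278) (nat_lit 170) (nat_lit 152)) (XT.lf (nat_lit 0) (nat_lit 871680857749) (nat_lit 76) (nat_lit 714068889328) (nat_lit 76) (nat_lit 714068889328) (nat_lit 1) (nat_lit 4) (nat_lit 2) (nat_lit 5) (nat_lit 2) (nat_lit 4) (nat_lit 258) (nat_lit 171) (nat_lit 171))) (XT.nd (nat_lit 78) (nat_lit 0) (nat_lit 0) (XT.lf (nat_lit 0) (nat_lit 2005371936092) (nat_lit 76) (nat_lit 1642095404527) (nat_lit 76) (nat_lit 1642074409500) (nat_lit 1) (nat_lit 4) (nat_lit 2) (nat_lit 5) (nat_lit 2) (nat_lit 4) (nat_lit 259) (nat_lit 171) (nat_lit 170)) (XT.lf (nat_lit 0) (nat_lit 2306640692896) (nat_lit 76) (nat_lit 1888166975771) (nat_lit 76) (nat_lit 1888127724199) (nat_lit 1) (nat_lit 4) (nat_lit 2) (nat_lit 5) (nat_lit 2) (nat_lit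 4) (nat_lit 260) (nat_lit 171) (nat_lit 169)))) (XT.nd (nat_lit 156) (nat_lit 0) (nat_lit 0) (XT.nd (nat_lit 78) (nat_lit 0) (nat_lit 0) (XT.lf (nat_lit 0) (nat_lit 2653062374630) (nat_lit 76) (nat_lit 2171166936176) (nat_lit 76) (nat_lit 2171111809347) (nat_lit 1) (nat_lit 4) (nat_lit 2) (nat_lit 5) (nat_lit 2) (nat_lit 4) (nat_lit 261) (nat_lit 171) (nat_lit 168)) (XT.lf (nat_lit 0) (nat_lit 3051414796807) (nat_lit 76) (nat_lit 2496632241486) (nat_lit 76) (nat_lit 2496563310086) (nat_lit 1) (nat_lit 4) (nat_lit 2) (nat_lit 5) (nat_lit 2) (nat_lit 4) (nat_lit 262) (nat_lit 171) (nat_lit 167))) (XT.nd (nat_lit 78) (nat_lit 0) (nat_lit 0) (XT.lf (nat_lit 0) (nat_lit 3509491811165) (nat_lit 76) (nat_lit 2870930691156) (nat_lit 76) (nat_lit 2870849755781) (nat_lit 1) (nat_lit 4) (nat_lit 2) (nat_lit 5) (nat_lit 2) (nat_lit 4) (nat_lit 263) (nat_lit 171) (nat_lit 166)) (XT.lf (nat_lit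 0) (nat_lit 4036255794071) (nat_lit 76) (nat_lit 3301385515720) (nat_lit 76) (nat_lit 3301294142106) (nat_lit 1) (nat_lit 4) (nat_lit 2) (nat_lit 5) (nat_lit 2) (nat_lit 4) (nat_lit 264) (nat_lit 171) (nat_lit 165))))))))
noncomputable def xc2 : XT := (XT.nd (nat_lit 31902) (nat_lit 0) (nat_lit 0) (XT.nd (nat_lit 30654) (nat_lit 0) (nat_lit 0) (XT.nd (nat_lit 546) (nat_lit 0) (nat_lit 0) (XT.nd (nat_lit 234) (nat_lit 0) (nat_lit 0) (XT.nd (nat_lit 78) (nat_lit 0) (nat_lit 0) (XT.lf (nat_lit 0) (nat_lit 4642012997366) (nat_lit 76) (nat_lit 3796418657399) (nat_lit 76) (nat_lit 3796318207056) (nat_lit 1) (nat_lit 4) (nat_lit 2) (nat_lit 5) (nat_lit 2) (nat_lit 4) (nat_lit 265) (nat_lit 171) (nat_lit 164)) (XT.nd (nat_lit 78) (nat_lit 0) (nat_lit 0) (XT.lf (nat_lit 0) (nat_lit 5338615192419) (nat_lit 76) (nat_lit 4365715547227) (nat_lit 76) (nat_lit 4365607204075) (nat_lit 1) (nat_lit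 4) (nat_lit 2) (nat_lit 5) (nat_lit 2) (nat_lit 4) (nat_lit 266) (nat_lit 171) (nat_lit 163)) (XT.lf (nat_lit 0) (nat_lit 6139691552609) (nat_lit 76) (nat_lit 5020414602612) (nat_lit 76) (nat_lit 5020299396148) (nat_lit 1) (nat_lit 4) (nat_lit 2) (nat_lit 5) (nat_lit 2) (nat_lit 4) (nat_lit 267) (nat_lit 171) (nat_lit 162)))) (XT.nd (nat_lit 156) (nat_lit 0) (nat_lit 0) (XT.nd (nat_lit 78) (nat_lit 0) (nat_lit 0) (XT.lf (nat_lit 0) (nat_lit 7060915311073) (nat_lit 76) (nat_lit 5773325152898) (nat_lit 76) (nat_lit 5773203978338) (nat_lit 1) (nat_lit 4) (nat_lit 2) (nat_lit 5) (nat_lit 2) (nat_lit 4) (nat_lit 268) (nat_lit 171) (nat_lit 161)) (XT.lf (nat_lit 0) (nat_lit 8120310410909) (nat_lit 76) (nat_lit 6639178056680) (nat_lit 76) (nat_lit 6639051692470) (nat_lit 1) (nat_lit 4) (nat_lit 2) (nat_lit 5) (nat_lit 2) (nat_lit 4) (nat_lit 269) (nat_lit 171) (nat_lit 160))) (XT.nd (nat_lit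 78) (nat_lit 0) (nat_lit 0) (XT.lf (nat_lit 0) (nat_lit 9338604147551) (nat_lit 76) (nat_lit 7634913914247) (nat_lit 76) (nat_lit 7634783037299) (nat_lit 1) (nat_lit 4) (nat_lit 2) (nat_lit 5) (nat_lit 2) (nat_lit 4) (nat_lit 270) (nat_lit 171) (nat_lit 159)) (XT.lf (nat_lit 0) (nat_lit 10739632702801) (nat_lit 76) (nat_lit 8780014514119) (nat_lit 76) (nat_lit 8779879713049) (nat_lit 1) (nat_lit 4) (nat_lit 2) (nat_lit 5) (nat_lit 2) (nat_lit 4) (nat_lit 271) (nat_lit 171) (nat_lit 158))))) (XT.nd (nat_lit 312) (nat_lit 0) (nat_lit 0) (XT.nd (nat_lit 156) (nat_lit 0) (nat_lit 0) (XT.nd (nat_lit 78) (nat_lit 0) (nat_lit 0) (XT.lf (nat_lit 0) (nat_lit 12350807504914) (nat_lit 76) (nat_lit 10096883998465) (nat_lit 76) (nat_lit 10096745785117) (nat_lit 1) (nat_lit 4) (nat_lit 2) (nat_lit 5) (nat_lit 2) (nat_lit 4) (nat_lit 272) (nat_lit 171) (nat_lit 157)) (XT.lf (nat_lit 0) (nat_lit 14203651539150)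 (nat_lit 76) (nat_lit 11611287205023) (nat_lit 76) (nat_lit 11611146024476) (nat_lit 1) (nat_lit 4) (nat_lit 2) (nat_lit 5) (nat_lit 2) (nat_lit 4) (nat_lit 273) (nat_lit 171) (nat_lit 156))) (XT.nd (nat_lit 78) (nat_lit 0) (nat_lit 0) (XT.lf (nat_lit 0) (nat_lit 16334416101829) (nat_lit 76) (nat_lit 13352853761748) (nat_lit 76) (nat_lit 13352710001028) (nat_lit 1) (nat_lit 4) (nat_lit 2) (nat_lit 5) (nat_lit 2) (nat_lit 4) (nat_lit 274) (nat_lit 171) (nat_lit 155)) (XT.lf (nat_lit 0) (nat_lit 18784790064832) (nat_lit 76) (nat_lit 15355657796923) (nat_lit 76) (nat_lit 15355511792574) (nat_lit 1) (nat_lit 4) (nat_lit 2) (nat_lit 5) (nat_lit 2) (nat_lit 4) (nat_lit 275) (nat_lit 171) (nat_lit 154)))) (XT.nd (nat_lit 156) (nat_lit 0) (nat_lit 0) (XT.nd (nat_lit 78) (nat_lit 0) (nat_lit 0) (XT.lf (nat_lit 0) (nat_lit 21602715527433) (nat_lit 76) (nat_lit 17658884606889) (nat_lit 76) (nat_lit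 17658736651559) (nat_lit 1) (nat_lit 4) (nat_lit 2) (nat_lit 5) (nat_lit 2) (nat_lit 4) (nat_lit 276) (nat_lit 171) (nat_lit 153)) (XT.lf (nat_lit 0) (nat_lit 24843325813901) (nat_lit 76) (nat_lit 20307597324884) (nat_lit 76) (nat_lit 20307447673048) (nat_lit 1) (nat_lit 4) (nat_lit 2) (nat_lit 5) (nat_lit 2) (nat_lit 4) (nat_lit 277) (nat_lit 171) (nat_lit 152))) (XT.nd (nat_lit 29562) (nat_lit 0) (nat_lit 0) (XT.lf (nat_lit 0) (nat_lit 28570024168972) (nat_lit 76) (nat_lit 23353618591043) (nat_lit 76) (nat_lit 23353467463985) (nat_lit 1) (nat_lit 4) (nat_lit 2) (nat_lit 5) (nat_lit 2) (nat_lit 4) (nat_lit 278) (nat_lit 171) (nat_lit 151)) (XT.lf (nat_lit 0) (nat_lit 658652994101) (nat_lit 76) (nat_lit 540188961759) (nat_lit 76) (nat_lit 540188961759) (nat_lit 1) (nat_lit 4) (nat_lit 2) (nat_lit 5) (nat_lit 2) (nat_lit 4) (nat_lit 256) (nat_lit 172) (nat_lit 172)))))) (XT.nd (nat_lit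 624) (nat_lit 0) (nat_lit 0) (XT.nd (nat_lit 312) (nat_lit 0) (nat_lit 0) (XT.nd (nat_lit 156) (nat_lit 0) (nat_lit 0) (XT.nd (nat_lit 78) (nat_lit 0) (nat_lit 0) (XT.lf (nat_lit 0) (nat_lit 1515483744191) (nat_lit 76) (nat_lit 1242132114978) (nat_lit 76) (nat_lit 1242107970697) (nat_lit 1) (nat_lit 4) (nat_lit 2) (nat_lit 5) (nat_lit 2) (nat_lit 4) (nat_lit 257) (nat_lit 172) (nat_lit 171)) (XT.lf (nat_lit 0) (nat_lit 1743338717168) (nat_lit 76) (nat_lit 1428172781876) (nat_lit 76) (nat_lit 1428127642568) (nat_lit 1) (nat_lit 4) (nat_lit 2) (nat_lit 5) (nat_lit 2) (nat_lit 4) (nat_lit 258) (nat_lit 172) (nat_lit 170))) (XT.nd (nat_lit 78) (nat_lit 0) (nat_lit 0) (XT.lf (nat_lit 0) (nat_lit 2005328939213) (nat_lit 76) (nat_lit 1642139850301) (nat_lit 76) (nat_lit 1642076454448) (nat_lit 1) (nat_lit 4) (nat_lit 2) (nat_lit 5) (nat_lit 2) (nat_lit 4) (nat_lit 259) (nat_lit 172) (nat_lit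 169)) (XT.lf (nat_lit 0) (nat_lit 2306580305975) (nat_lit 76) (nat_lit 1888219632464) (nat_lit 76) (nat_lit 1888140361354) (nat_lit 1) (nat_lit 4) (nat_lit 2) (nat_lit 5) (nat_lit 2) (nat_lit 4) (nat_lit 260) (nat_lit 172) (nat_lit 168)))) (XT.nd (nat_lit 156) (nat_lit 0) (nat_lit 0) (XT.nd (nat_lit 78) (nat_lit 0) (nat_lit 0) (XT.lf (nat_lit 0) (nat_lit 2652986865934) (nat_lit 76) (nat_lit 2171226732796) (nat_lit 76) (nat_lit 2171133657115) (nat_lit 1) (nat_lit 4) (nat_lit 2) (nat_lit 5) (nat_lit 2) (nat_lit 4) (nat_lit 261) (nat_lit 172) (nat_lit 167)) (XT.lf (nat_lit 0) (nat_lit 3051326138741) (nat_lit 76) (nat_lit 2496698246740) (nat_lit 76) (nat_lit 2496593167085) (nat_lit 1) (nat_lit 4) (nat_lit 2) (nat_lit 5) (nat_lit 2) (nat_lit 4) (nat_lit 262) (nat_lit 172) (nat_lit 166))) (XT.nd (nat_lit 78) (nat_lit 0) (nat_lit 0) (XT.lf (nat_lit 0) (nat_lit 3509391718864) (nat_lit 76)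 (nat_lit 2871002095221) (nat_lit 76) (nat_lit 2870886577326) (nat_lit 1) (nat_lit 4) (nat_lit 2) (nat_lit 5) (nat_lit 2) (nat_lit 4) (nat_lit 263) (nat_lit 172) (nat_lit 165)) (XT.lf (nat_lit 0) (nat_lit 4036145758958) (nat_lit 76) (nat_lit 3301461614404) (nat_lit 76) (nat_lit 3301337019780) (nat_lit 1) (nat_lit 4) (nat_lit 2) (nat_lit 5) (nat_lit 2) (nat_lit 4) (nat_lit 264) (nat_lit 172) (nat_lit 164))))) (XT.nd (nat_lit 312) (nat_lit 0) (nat_lit 0) (XT.nd (nat_lit 156) (nat_lit 0) (nat_lit 0) (XT.nd (nat_lit 78) (nat_lit 0) (nat_lit 0) (XT.lf (nat_lit 0) (nat_lit 4641894316329) (nat_lit 76) (nat_lit 3796498838361) (nat_lit 76) (nat_lit 3796366350928) (nat_lit 1) (nat_lit 4) (nat_lit 2) (nat_lit 5) (nat_lit 2) (nat_lit 4) (nat_lit 265) (nat_lit 172) (nat_lit 163)) (XT.lf (nat_lit 0) (nat_lit 5338488993186) (nat_lit 76) (nat_lit 4365799277995) (nat_lit 76) (nat_lit 4365659927250)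 (nat_lit 1) (nat_lit 4) (nat_lit 2) (nat_lit 5) (nat_lit 2) (nat_lit 4) (nat_lit 266) (nat_lit 172) (nat_lit 162))) (XT.nd (nat_lit 78) (nat_lit 0) (nat_lit 0) (XT.lf (nat_lit 0) (nat_lit 6139558815816) (nat_lit 76) (nat_lit 5020501420167) (nat_lit 76) (nat_lit 5020356101326) (nat_lit 1) (nat_lit 4) (nat_lit 2) (nat_lit 5) (nat_lit 2) (nat_lit 4) (nat_lit 267) (nat_lit 172) (nat_lit 161)) (XT.lf (nat_lit 0) (nat_lit 7060776889444) (nat_lit 76) (nat_lit 5773414654618) (nat_lit 76) (nat_lit 5773264146127) (nat_lit 1) (nat_lit 4) (nat_lit 2) (nat_lit 5) (nat_lit 2) (nat_lit 4) (nat_lit 268) (nat_lit 172) (nat_lit 160)))) (XT.nd (nat_lit 156) (nat_lit 0) (nat_lit 0) (XT.nd (nat_lit 78) (nat_lit 0) (nat_lit 0) (XT.lf (nat_lit 0) (nat_lit 8120167045945) (nat_lit 76) (nat_lit 6639269892455) (nat_lit 76) (nat_lit 6639114871225) (nat_lit 1) (nat_lit 4) (nat_lit 2) (nat_lit 5) (nat_lit 2) (nat_lit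 4) (nat_lit 269) (nat_lit 172) (nat_lit 159)) (XT.lf (nat_lit 0) (nat_lit 9338456484034) (nat_lit 76) (nat_lit 7635007779635) (nat_lit 76) (nat_lit 7634848834285) (nat_lit 1) (nat_lit 4) (nat_lit 2) (nat_lit 5) (nat_lit 2) (nat_lit 4) (nat_lit 270) (nat_lit 172) (nat_lit 158))) (XT.nd (nat_lit 78) (nat_lit 0) (nat_lit 0) (XT.lf (nat_lit 0) (nat_lit 10739481301412) (nat_lit 76) (nat_lit 8780110144387) (nat_lit 76) (nat_lit 8779947786758) (nat_lit 1) (nat_lit 4) (nat_lit 2) (nat_lit 5) (nat_lit 2) (nat_lit 4) (nat_lit 271) (nat_lit 172) (nat_lit 157)) (XT.lf (nat_lit 0) (nat_lit 12350652853202) (nat_lit 76) (nat_lit 10096981163413) (nat_lit 76) (nat_lit 10096815838585) (nat_lit 1) (nat_lit 4) (nat_lit 2) (nat_lit 5) (nat_lit 2) (nat_lit 4) (nat_lit 272) (nat_lit 172) (nat_lit 156))))))) (XT.nd (nat_lit 30498) (nat_lit 0) (nat_lit 0) (XT.nd (nat_lit 29874) (nat_lit 0) (nat_lit 0) (XT.nd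 (nat_lit 234) (nat_lit 0) (nat_lit 0) (XT.nd (nat_lit 78) (nat_lit 0) (nat_lit 0) (XT.lf (nat_lit 0) (nat_lit 14203494061070) (nat_lit 76) (nat_lit 11611385704475) (nat_lit 76) (nat_lit 11611217799474) (nat_lit 1) (nat_lit 4) (nat_lit 2) (nat_lit 5) (nat_lit 2) (nat_lit 4) (nat_lit 273) (nat_lit 172) (nat_lit 155)) (XT.nd (nat_lit 78) (nat_lit 0) (nat_lit 0) (XT.lf (nat_lit 0) (nat_lit 16334256166038) (nat_lit 76) (nat_lit 13352953421638) (nat_lit 76) (nat_lit 13352783273008) (nat_lit 1) (nat_lit 4) (nat_lit 2) (nat_lit 5) (nat_lit 2) (nat_lit 4) (nat_lit 274) (nat_lit 172) (nat_lit 154)) (XT.lf (nat_lit 0) (nat_lit 18784627991900) (nat_lit 76) (nat_lit 15355758465889) (nat_lit 76) (nat_lit 15355586366278) (nat_lit 1) (nat_lit 4) (nat_lit 2) (nat_lit 5) (nat_lit 2) (nat_lit 4) (nat_lit 275) (nat_lit 172) (nat_lit 153)))) (XT.nd (nat_lit 156) (nat_lit 0) (nat_lit 0) (XT.nd (nat_lit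 78) (nat_lit 0) (nat_lit 0) (XT.lf (nat_lit 0) (nat_lit 21602551596119) (nat_lit 76) (nat_lit 17658986153313) (nat_lit 76) (nat_lit 17658812357196) (nat_lit 1) (nat_lit 4) (nat_lit 2) (nat_lit 5) (nat_lit 2) (nat_lit 4) (nat_lit 276) (nat_lit 172) (nat_lit 152)) (XT.lf (nat_lit 0) (nat_lit 24843160266602) (nat_lit 76) (nat_lit 20307699634315) (nat_lit 76) (nat_lit 20307524362976) (nat_lit 1) (nat_lit 4) (nat_lit 2) (nat_lit 5) (nat_lit 2) (nat_lit 4) (nat_lit 277) (nat_lit 172) (nat_lit 151))) (XT.nd (nat_lit 29406) (nat_lit 0) (nat_lit 0) (XT.lf (nat_lit 0) (nat_lit 28569857216468) (nat_lit 76) (nat_lit 23353721563958) (nat_lit 76) (nat_lit 23353545009817) (nat_lit 1) (nat_lit 4) (nat_lit 2) (nat_lit 5) (nat_lit 2) (nat_lit 4) (nat_lit 278) (nat_lit 172) (nat_lit 150)) (XT.lf (nat_lit 0) (nat_lit 497503879087) (nat_lit 76) (nat_lit 408748299619) (nat_lit 76) (nat_lit 408748299619)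 (nat_lit 1) (nat_lit 4) (nat_lit 2) (nat_lit 5) (nat_lit 2) (nat_lit 4) (nat_lit 254) (nat_lit 173) (nat_lit 173))))) (XT.nd (nat_lit 312) (nat_lit 0) (nat_lit 0) (XT.nd (nat_lit 156) (nat_lit 0) (nat_lit 0) (XT.nd (nat_lit 78) (nat_lit 0) (nat_lit 0) (XT.lf (nat_lit 0) (nat_lit 1144928058323) (nat_lit 76) (nat_lit 939773217497) (nat_lit 76) (nat_lit 939745451574) (nat_lit 1) (nat_lit 4) (nat_lit 2) (nat_lit 5) (nat_lit 2) (nat_lit 4) (nat_lit 255) (nat_lit 173) (nat_lit 172)) (XT.lf (nat_lit 0) (nat_lit 1317279540122) (nat_lit 76) (nat_lit 1080418177220) (nat_lit 76) (nat_lit 1080366267016) (nat_lit 1) (nat_lit 4) (nat_lit 2) (nat_lit 5) (nat_lit 2) (nat_lit 4) (nat_lit 256) (nat_lit 173) (nat_lit 171))) (XT.nd (nat_lit 78) (nat_lit 0) (nat_lit 0) (XT.lf (nat_lit 0) (nat_lit 1515434297781) (nat_lit 76) (nat_lit 1242183227619) (nat_lit 76) (nat_lit 1242110322388) (nat_lit 1) (nat_lit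 4) (nat_lit 2) (nat_lit 5) (nat_lit 2) (nat_lit 4) (nat_lit 257) (nat_lit 173) (nat_lit 170)) (XT.lf (nat_lit 0) (nat_lit 1743269272210) (nat_lit 76) (nat_lit 1428233337072) (nat_lit 76) (nat_lit 1428142175295) (nat_lit 1) (nat_lit 4) (nat_lit 2) (nat_lit 5) (nat_lit 2) (nat_lit 4) (nat_lit 258) (nat_lit 173) (nat_lit 169)))) (XT.nd (nat_lit 156) (nat_lit 0) (nat_lit 0) (XT.nd (nat_lit 78) (nat_lit 0) (nat_lit 0) (XT.lf (nat_lit 0) (nat_lit 2005242104213) (nat_lit 76) (nat_lit 1642208616415) (nat_lit 76) (nat_lit 1642101579382) (nat_lit 1) (nat_lit 4) (nat_lit 2) (nat_lit 5) (nat_lit 2) (nat_lit 4) (nat_lit 259) (nat_lit 173) (nat_lit 168)) (XT.lf (nat_lit 0) (nat_lit 2306478349199) (nat_lit 76) (nat_lit 1888295538506) (nat_lit 76) (nat_lit 1888174696902) (nat_lit 1) (nat_lit 4) (nat_lit 2) (nat_lit 5) (nat_lit 2) (nat_lit 4) (nat_lit 260) (nat_lit 173) (nat_lit 167))) (XT.nd (nat_lit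 78) (nat_lit 0) (nat_lit 0) (XT.lf (nat_lit 0) (nat_lit 2652871759788) (nat_lit 76) (nat_lit 2171308847472) (nat_lit 76) (nat_lit 2171176001893) (nat_lit 1) (nat_lit 4) (nat_lit 2) (nat_lit 5) (nat_lit 2) (nat_lit 4) (nat_lit 261) (nat_lit 173) (nat_lit 166)) (XT.lf (nat_lit 0) (nat_lit 3051199598360) (nat_lit 76) (nat_lit 2496785760227) (nat_lit 76) (nat_lit 2496642476409) (nat_lit 1) (nat_lit 4) (nat_lit 2) (nat_lit 5) (nat_lit 2) (nat_lit 4) (nat_lit 262) (nat_lit 173) (nat_lit 165)))))) (XT.nd (nat_lit 624) (nat_lit 0) (nat_lit 0) (XT.nd (nat_lit 312) (nat_lit 0) (nat_lit 0) (XT.nd (nat_lit 156) (nat_lit 0) (nat_lit 0) (XT.nd (nat_lit 78) (nat_lit 0) (nat_lit 0) (XT.lf (nat_lit 0) (nat_lit 3509255235670) (nat_lit 76) (nat_lit 2871094303327) (nat_lit 76) (nat_lit 2870941942779) (nat_lit 1) (nat_lit 4) (nat_lit 2) (nat_lit 5) (nat_lit 2) (nat_lit 4) (nat_lit 263) (nat_lit 173) (nat_lit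 164)) (XT.lf (nat_lit 0) (nat_lit 4036000629840) (nat_lit 76) (nat_lit 3301557904787) (nat_lit 76) (nat_lit 3301397651431) (nat_lit 1) (nat_lit 4) (nat_lit 2) (nat_lit 5) (nat_lit 2) (nat_lit 4) (nat_lit 264) (nat_lit 173) (nat_lit 163))) (XT.nd (nat_lit 78) (nat_lit 0) (nat_lit 0) (XT.lf (nat_lit 0) (nat_lit 4641741669016) (nat_lit 76) (nat_lit 3796598678550) (nat_lit 76) (nat_lit 3796431561883) (nat_lit 1) (nat_lit 4) (nat_lit 2) (nat_lit 5) (nat_lit 2) (nat_lit 4) (nat_lit 265) (nat_lit 173) (nat_lit 162)) (XT.lf (nat_lit 0) (nat_lit 5338329808312) (nat_lit 76) (nat_lit 4365902204972) (nat_lit 76) (nat_lit 4365729120207) (nat_lit 1) (nat_lit 4) (nat_lit 2) (nat_lit 5) (nat_lit 2) (nat_lit 4) (nat_lit 266) (nat_lit 173) (nat_lit 161)))) (XT.nd (nat_lit 156) (nat_lit 0) (nat_lit 0) (XT.nd (nat_lit 78) (nat_lit 0) (nat_lit 0) (XT.lf (nat_lit 0) (nat_lit 6139393946106) (nat_lit 76)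 (nat_lit 5020607031308) (nat_lit 76) (nat_lit 5020428756894) (nat_lit 1) (nat_lit 4) (nat_lit 2) (nat_lit 5) (nat_lit 2) (nat_lit 4) (nat_lit 267) (nat_lit 173) (nat_lit 160)) (XT.lf (nat_lit 0) (nat_lit 7060607076399) (nat_lit 76) (nat_lit 5773522599814) (nat_lit 76) (nat_lit 5773339812661) (nat_lit 1) (nat_lit 4) (nat_lit 2) (nat_lit 5) (nat_lit 2) (nat_lit 4) (nat_lit 268) (nat_lit 173) (nat_lit 159))) (XT.nd (nat_lit 78) (nat_lit 0) (nat_lit 0) (XT.lf (nat_lit 0) (nat_lit 8119992934348) (nat_lit 76) (nat_lit 6639379867264) (nat_lit 76) (nat_lit 6639193155990) (nat_lit 1) (nat_lit 4) (nat_lit 2) (nat_lit 5) (nat_lit 2) (nat_lit 4) (nat_lit 269) (nat_lit 173) (nat_lit 158)) (XT.lf (nat_lit 0) (nat_lit 9338278634565) (nat_lit 76) (nat_lit 7635119519326) (nat_lit 76) (nat_lit 7634929395773) (nat_lit 1) (nat_lit 4) (nat_lit 2) (nat_lit 5) (nat_lit 2) (nat_lit 4) (nat_lit 270) (nat_lit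 173) (nat_lit 157))))) (XT.nd (nat_lit 312) (nat_lit 0) (nat_lit 0) (XT.nd (nat_lit 156) (nat_lit 0) (nat_lit 0) (XT.nd (nat_lit 78) (nat_lit 0) (nat_lit 0) (XT.lf (nat_lit 0) (nat_lit 10739300201620) (nat_lit 76) (nat_lit 8780223418757) (nat_lit 76) (nat_lit 8780030328006) (nat_lit 1) (nat_lit 4) (nat_lit 2) (nat_lit 5) (nat_lit 2) (nat_lit 4) (nat_lit 271) (nat_lit 173) (nat_lit 156)) (XT.lf (nat_lit 0) (nat_lit 12350468927043) (nat_lit 76) (nat_lit 10097095772286) (nat_lit 76) (nat_lit 10096900101362) (nat_lit 1) (nat_lit 4) (nat_lit 2) (nat_lit 5) (nat_lit 2) (nat_lit 4) (nat_lit 272) (nat_lit 173) (nat_lit 155))) (XT.nd (nat_lit 78) (nat_lit 0) (nat_lit 0) (XT.lf (nat_lit 0) (nat_lit 14203307677199) (nat_lit 76) (nat_lit 11611501473786) (nat_lit 76) (nat_lit 11611303559233) (nat_lit 1) (nat_lit 4) (nat_lit 2) (nat_lit 5) (nat_lit 2) (nat_lit 4) (nat_lit 273) (nat_lit 173) (nat_lit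 154)) (XT.lf (nat_lit 0) (nat_lit 16334067645027) (nat_lit 76) (nat_lit 13353070200025) (nat_lit 76) (nat_lit 13352870334491) (nat_lit 1) (nat_lit 4) (nat_lit 2) (nat_lit 5) (nat_lit 2) (nat_lit 4) (nat_lit 274) (nat_lit 173) (nat_lit 153)))) (XT.nd (nat_lit 156) (nat_lit 0) (nat_lit 0) (XT.nd (nat_lit 78) (nat_lit 0) (nat_lit 0) (XT.lf (nat_lit 0) (nat_lit 18784437612506) (nat_lit 76) (nat_lit 15355876121735) (nat_lit 76) (nat_lit 15355674559695) (nat_lit 1) (nat_lit 4) (nat_lit 2) (nat_lit 5) (nat_lit 2) (nat_lit 4) (nat_lit 275) (nat_lit 173) (nat_lit 152)) (XT.lf (nat_lit 0) (nat_lit 21602359600740) (nat_lit 76) (nat_lit 17659104572166) (nat_lit 76) (nat_lit 17658901534903) (nat_lit 1) (nat_lit 4) (nat_lit 2) (nat_lit 5) (nat_lit 2) (nat_lit 4) (nat_lit 276) (nat_lit 173) (nat_lit 151))) (XT.nd (nat_lit 312) (nat_lit 0) (nat_lit 0) (XT.lf (nat_lit 0) (nat_lit 24842966866019) (nat_lit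 76) (nat_lit 20307818716652) (nat_lit 76) (nat_lit 20307614396587) (nat_lit 1) (nat_lit 4) (nat_lit 2) (nat_lit 5) (nat_lit 2) (nat_lit 4) (nat_lit 277) (nat_lit 173) (nat_lit 150)) (XT.lf (nat_lit 0) (nat_lit 43451742215495) (nat_lit 76) (nat_lit 35517757928200) (nat_lit 76) (nat_lit 35517549945763) (nat_lit 1) (nat_lit 4) (nat_lit 2) (nat_lit 5) (nat_lit 2) (nat_lit 4) (nat_lit 281) (nat_lit 173) (nat_lit 146))))))))
noncomputable def xc3 : XT := (XT.nd (nat_lit 60060) (nat_lit 0) (nat_lit 0) (XT.nd (nat_lit 30030) (nat_lit 0) (nat_lit 0) (XT.nd (nat_lit 29406) (nat_lit 0) (nat_lit 0) (XT.nd (nat_lit 29094) (nat_lit 0) (nat_lit 0) (XT.nd (nat_lit 28938) (nat_lit 0) (nat_lit 0) (XT.lf (nat_lit 0) (nat_lit 49969746745492) (nat_lit 76) (nat_lit 40845274857910) (nat_lit 76) (nat_lit 40845066237694) (nat_lit 1) (nat_lit 4) (nat_lit 2) (nat_lit 5) (nat_lit 2) (nat_lit 4) (nat_lit 282)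 (nat_lit 173) (nat_lit 145)) (XT.nd (nat_lit 78) (nat_lit 0) (nat_lit 0) (XT.lf (nat_lit 0) (nat_lit 375572134576) (nat_lit 76) (nat_lit 309403450873) (nat_lit 76) (nat_lit 309403450873) (nat_lit 1) (nat_lit 4) (nat_lit 2) (nat_lit 5) (nat_lit 2) (nat_lit 4) (nat_lit 252) (nat_lit 174) (nat_lit 174)) (XT.lf (nat_lit 0) (nat_lit 864585416412) (nat_lit 76) (nat_lit 711227884638) (nat_lit 76) (nat_lit 711195953826) (nat_lit 1) (nat_lit 4) (nat_lit 2) (nat_lit 5) (nat_lit 2) (nat_lit 4) (nat_lit 253) (nat_lit 174) (nat_lit 173)))) (XT.nd (nat_lit 156) (nat_lit 0) (nat_lit 0) (XT.nd (nat_lit 78) (nat_lit 0) (nat_lit 0) (XT.lf (nat_lit 0) (nat_lit 994977342882) (nat_lit 76) (nat_lit 817542890997) (nat_lit 76) (nat_lit 817483194262) (nat_lit 1) (nat_lit 4) (nat_lit 2) (nat_lit 5) (nat_lit 2) (nat_lit 4) (nat_lit 254) (nat_lit 174) (nat_lit 172)) (XT.lf (nat_lit 0) (nat_lit 1144871194951)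 (nat_lit 76) (nat_lit 939831997034) (nat_lit 76) (nat_lit 939748156019) (nat_lit 1) (nat_lit 4) (nat_lit 2) (nat_lit 5) (nat_lit 2) (nat_lit 4) (nat_lit 255) (nat_lit 174) (nat_lit 171))) (XT.nd (nat_lit 78) (nat_lit 0) (nat_lit 0) (XT.lf (nat_lit 0) (nat_lit 1317199678420) (nat_lit 76) (nat_lit 1080487815696) (nat_lit 76) (nat_lit 1080382979653) (nat_lit 1) (nat_lit 4) (nat_lit 2) (nat_lit 5) (nat_lit 2) (nat_lit 4) (nat_lit 256) (nat_lit 174) (nat_lit 170)) (XT.lf (nat_lit 0) (nat_lit 1515334437530) (nat_lit 76) (nat_lit 1242262308650) (nat_lit 76) (nat_lit 1242139216062) (nat_lit 1) (nat_lit 4) (nat_lit 2) (nat_lit 5) (nat_lit 2) (nat_lit 4) (nat_lit 257) (nat_lit 174) (nat_lit 169))))) (XT.nd (nat_lit 312) (nat_lit 0) (nat_lit 0) (XT.nd (nat_lit 156) (nat_lit 0) (nat_lit 0) (XT.nd (nat_lit 78) (nat_lit 0) (nat_lit 0) (XT.lf (nat_lit 0) (nat_lit 1743152021917) (nat_lit 76) (nat_lit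 1428320629020) (nat_lit 76) (nat_lit 1428181661175) (nat_lit 1) (nat_lit 4) (nat_lit 2) (nat_lit 5) (nat_lit 2) (nat_lit 4) (nat_lit 258) (nat_lit 174) (nat_lit 168)) (XT.lf (nat_lit 0) (nat_lit 2005109732145) (nat_lit 76) (nat_lit 1642303048292) (nat_lit 76) (nat_lit 1642150275876) (nat_lit 1) (nat_lit 4) (nat_lit 2) (nat_lit 5) (nat_lit 2) (nat_lit 4) (nat_lit 259) (nat_lit 174) (nat_lit 167))) (XT.nd (nat_lit 78) (nat_lit 0) (nat_lit 0) (XT.lf (nat_lit 0) (nat_lit 2306332827761) (nat_lit 76) (nat_lit 1888396179016) (nat_lit 76) (nat_lit 1888231402625) (nat_lit 1) (nat_lit 4) (nat_lit 2) (nat_lit 5) (nat_lit 2) (nat_lit 4) (nat_lit 260) (nat_lit 174) (nat_lit 166)) (XT.lf (nat_lit 0) (nat_lit 2652714804115) (nat_lit 76) (nat_lit 2171414886793) (nat_lit 76) (nat_lit 2171239672164) (nat_lit 1) (nat_lit 4) (nat_lit 2) (nat_lit 5) (nat_lit 2) (nat_lit 4) (nat_lit 261) (nat_lit 174) (nat_lit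 165)))) (XT.nd (nat_lit 156) (nat_lit 0) (nat_lit 0) (XT.nd (nat_lit 78) (nat_lit 0) (nat_lit 0) (XT.lf (nat_lit 0) (nat_lit 3051032699874) (nat_lit 76) (nat_lit 2496896494168) (nat_lit 76) (nat_lit 2496712202809) (nat_lit 1) (nat_lit 4) (nat_lit 2) (nat_lit 5) (nat_lit 2) (nat_lit 4) (nat_lit 262) (nat_lit 174) (nat_lit 164)) (XT.lf (nat_lit 0) (nat_lit 3509079691260) (nat_lit 76) (nat_lit 2871209119545) (nat_lit 76) (nat_lit 2871016935377) (nat_lit 1) (nat_lit 4) (nat_lit 2) (nat_lit 5) (nat_lit 2) (nat_lit 4) (nat_lit 263) (nat_lit 174) (nat_lit 163))) (XT.nd (nat_lit 78) (nat_lit 0) (nat_lit 0) (XT.lf (nat_lit 0) (nat_lit 4035817567235) (nat_lit 76) (nat_lit 3301676270811) (nat_lit 76) (nat_lit 3301477223332) (nat_lit 1) (nat_lit 4) (nat_lit 2) (nat_lit 5) (nat_lit 2) (nat_lit 4) (nat_lit 264) (nat_lit 174) (nat_lit 162)) (XT.lf (nat_lit 0) (nat_lit 4641552068850) (nat_lit 76)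 (nat_lit 3796720131362) (nat_lit 76) (nat_lit 3796515115786) (nat_lit 1) (nat_lit 4) (nat_lit 2) (nat_lit 5) (nat_lit 2) (nat_lit 4) (nat_lit 265) (nat_lit 174) (nat_lit 161)))))) (XT.nd (nat_lit 624) (nat_lit 0) (nat_lit 0) (XT.nd (nat_lit 312) (nat_lit 0) (nat_lit 0) (XT.nd (nat_lit 156) (nat_lit 0) (nat_lit 0) (XT.nd (nat_lit 78) (nat_lit 0) (nat_lit 0) (XT.lf (nat_lit 0) (nat_lit 5338134523311) (nat_lit 76) (nat_lit 4366026341947) (nat_lit 76) (nat_lit 4365816136722) (nat_lit 1) (nat_lit 4) (nat_lit 2) (nat_lit 5) (nat_lit 2) (nat_lit 4) (nat_lit 266) (nat_lit 174) (nat_lit 160)) (XT.lf (nat_lit 0) (nat_lit 6139193717770) (nat_lit 76) (nat_lit 5020733502339) (nat_lit 76) (nat_lit 5020518784374) (nat_lit 1) (nat_lit 4) (nat_lit 2) (nat_lit 5) (nat_lit 2) (nat_lit 4) (nat_lit 267) (nat_lit 174) (nat_lit 159))) (XT.nd (nat_lit 78) (nat_lit 0) (nat_lit 0) (XT.lf (nat_lit 0) (nat_lit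 7060402549510) (nat_lit 76) (nat_lit 5773651100458) (nat_lit 76) (nat_lit 5773432458373) (nat_lit 1) (nat_lit 4) (nat_lit 2) (nat_lit 5) (nat_lit 2) (nat_lit 4) (nat_lit 268) (nat_lit 174) (nat_lit 158)) (XT.lf (nat_lit 0) (nat_lit 8119784669587) (nat_lit 76) (nat_lit 6639510132789) (nat_lit 76) (nat_lit 6639288078425) (nat_lit 1) (nat_lit 4) (nat_lit 2) (nat_lit 5) (nat_lit 2) (nat_lit 4) (nat_lit 269) (nat_lit 174) (nat_lit 157)))) (XT.nd (nat_lit 156) (nat_lit 0) (nat_lit 0) (XT.nd (nat_lit 78) (nat_lit 0) (nat_lit 0) (XT.lf (nat_lit 0) (nat_lit 9338067119482) (nat_lit 76) (nat_lit 7635251319530) (nat_lit 76) (nat_lit 7635026297967) (nat_lit 1) (nat_lit 4) (nat_lit 2) (nat_lit 5) (nat_lit 2) (nat_lit 4) (nat_lit 270) (nat_lit 174) (nat_lit 156)) (XT.lf (nat_lit 0) (nat_lit 10739085860169) (nat_lit 76) (nat_lit 8780356553465) (nat_lit 76) (nat_lit 8780128951729) (nat_lit 1) (nat_lit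 4) (nat_lit 2) (nat_lit 5) (nat_lit 2) (nat_lit 4) (nat_lit 271) (nat_lit 174) (nat_lit 155))) (XT.nd (nat_lit 78) (nat_lit 0) (nat_lit 0) (XT.lf (nat_lit 0) (nat_lit 12350252127880) (nat_lit 76) (nat_lit 10097230067432) (nat_lit 76) (nat_lit 10097000222067) (nat_lit 1) (nat_lit 4) (nat_lit 2) (nat_lit 5) (nat_lit 2) (nat_lit 4) (nat_lit 272) (nat_lit 174) (nat_lit 154)) (XT.lf (nat_lit 0) (nat_lit 14203088740896) (nat_lit 76) (nat_lit 11611636778008) (nat_lit 76) (nat_lit 11611404981662) (nat_lit 1) (nat_lit 4) (nat_lit 2) (nat_lit 5) (nat_lit 2) (nat_lit 4) (nat_lit 273) (nat_lit 174) (nat_lit 153))))) (XT.nd (nat_lit 468) (nat_lit 0) (nat_lit 0) (XT.nd (nat_lit 156) (nat_lit 0) (nat_lit 0) (XT.nd (nat_lit 78) (nat_lit 0) (nat_lit 0) (XT.lf (nat_lit 0) (nat_lit 16333846850341) (nat_lit 76) (nat_lit 13353206381705) (nat_lit 76) (nat_lit 13352972888854) (nat_lit 1) (nat_lit 4) (nat_lit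 2) (nat_lit 5) (nat_lit 2) (nat_lit 4) (nat_lit 274) (nat_lit 174) (nat_lit 152)) (XT.lf (nat_lit 0) (nat_lit 18784215201835) (nat_lit 76) (nat_lit 15356013066422) (nat_lit 76) (nat_lit 15355778098348) (nat_lit 1) (nat_lit 4) (nat_lit 2) (nat_lit 5) (nat_lit 2) (nat_lit 4) (nat_lit 275) (nat_lit 174) (nat_lit 151))) (XT.nd (nat_lit 78) (nat_lit 0) (nat_lit 0) (XT.lf (nat_lit 0) (nat_lit 21602135784864) (nat_lit 76) (nat_lit 17659242180337) (nat_lit 76) (nat_lit 17659005929460) (nat_lit 1) (nat_lit 4) (nat_lit 2) (nat_lit 5) (nat_lit 2) (nat_lit 4) (nat_lit 276) (nat_lit 174) (nat_lit 150)) (XT.lf (nat_lit 0) (nat_lit 24842741828226) (nat_lit 76) (nat_lit 20307956901766) (nat_lit 76) (nat_lit 20307719535409) (nat_lit 1) (nat_lit 4) (nat_lit 2) (nat_lit 5) (nat_lit 2) (nat_lit 4) (nat_lit 277) (nat_lit 174) (nat_lit 149)))) (XT.nd (nat_lit 156) (nat_lit 0) (nat_lit 0) (XT.nd (nat_lit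 78) (nat_lit 0) (nat_lit 0) (XT.lf (nat_lit 0) (nat_lit 37783683055564) (nat_lit 76) (nat_lit 30885274630176) (nat_lit 76) (nat_lit 30885034716928) (nat_lit 1) (nat_lit 4) (nat_lit 2) (nat_lit 5) (nat_lit 2) (nat_lit 4) (nat_lit 280) (nat_lit 174) (nat_lit 146)) (XT.lf (nat_lit 0) (nat_lit 43451513689157) (nat_lit 76) (nat_lit 35517897760473) (nat_lit 76) (nat_lit 35517657209445) (nat_lit 1) (nat_lit 4) (nat_lit 2) (nat_lit 5) (nat_lit 2) (nat_lit 4) (nat_lit 281) (nat_lit 174) (nat_lit 145))) (XT.nd (nat_lit 78) (nat_lit 0) (nat_lit 0) (XT.lf (nat_lit 0) (nat_lit 49969517611644) (nat_lit 76) (nat_lit 40845414977025) (nat_lit 76) (nat_lit 40845173871407) (nat_lit 1) (nat_lit 4) (nat_lit 2) (nat_lit 5) (nat_lit 2) (nat_lit 4) (nat_lit 282) (nat_lit 174) (nat_lit 144)) (XT.lf (nat_lit 0) (nat_lit 57465220986728) (nat_lit 76) (nat_lit 46972060312332) (nat_lit 76) (nat_lit 46971818724461)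 (nat_lit 1) (nat_lit 4) (nat_lit 2) (nat_lit 5) (nat_lit 2) (nat_lit 4) (nat_lit 283) (nat_lit 174) (nat_lit 143))))))) (XT.nd (nat_lit 1170) (nat_lit 0) (nat_lit 0) (XT.nd (nat_lit 546) (nat_lit 0) (nat_lit 0) (XT.nd (nat_lit 234) (nat_lit 0) (nat_lit 0) (XT.nd (nat_lit 78) (nat_lit 0) (nat_lit 0) (XT.lf (nat_lit 0) (nat_lit 283282377165) (nat_lit 76) (nat_lit 234334124505) (nat_lit 76) (nat_lit 234334124505) (nat_lit 1) (nat_lit 4) (nat_lit 2) (nat_lit 5) (nat_lit 2) (nat_lit 4) (nat_lit 250) (nat_lit 175) (nat_lit 175)) (XT.nd (nat_lit 78) (nat_lit 0) (nat_lit 0) (XT.lf (nat_lit 0) (nat_lit 652434400399) (nat_lit 76) (nat_lit 538508426136) (nat_lit 76) (nat_lit 538471705703) (nat_lit 1) (nat_lit 4) (nat_lit 2) (nat_lit 5) (nat_lit 2) (nat_lit 4) (nat_lit 251) (nat_lit 175) (nat_lit 174)) (XT.lf (nat_lit 0) (nat_lit 751109291568) (nat_lit 76) (nat_lit 618860137269) (nat_lit 76) (nat_lit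 618791486024) (nat_lit 1) (nat_lit 4) (nat_lit 2) (nat_lit 5) (nat_lit 2) (nat_lit 4) (nat_lit 252) (nat_lit 175) (nat_lit 173)))) (XT.nd (nat_lit 156) (nat_lit 0) (nat_lit 0) (XT.nd (nat_lit 78) (nat_lit 0) (nat_lit 0) (XT.lf (nat_lit 0) (nat_lit 864520023535) (nat_lit 76) (nat_lit 711295481106) (nat_lit 76) (nat_lit 711199063937) (nat_lit 1) (nat_lit 4) (nat_lit 2) (nat_lit 5) (nat_lit 2) (nat_lit 4) (nat_lit 253) (nat_lit 175) (nat_lit 172)) (XT.lf (nat_lit 0) (nat_lit 994885501925) (nat_lit 76) (nat_lit 817622975244) (nat_lit 76) (nat_lit 817502413794) (nat_lit 1) (nat_lit 4) (nat_lit 2) (nat_lit 5) (nat_lit 2) (nat_lit 4) (nat_lit 254) (nat_lit 175) (nat_lit 171))) (XT.nd (nat_lit 78) (nat_lit 0) (nat_lit 0) (XT.lf (nat_lit 0) (nat_lit 1144756355663) (nat_lit 76) (nat_lit 939922940220) (nat_lit 76) (nat_lit 939781383744) (nat_lit 1) (nat_lit 4) (nat_lit 2) (nat_lit 5) (nat_lit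 2) (nat_lit 4) (nat_lit 255) (nat_lit 175) (nat_lit 170)) (XT.lf (nat_lit 0) (nat_lit 1317064840584) (nat_lit 76) (nat_lit 1080588201436) (nat_lit 76) (nat_lit 1080428388415) (nat_lit 1) (nat_lit 4) (nat_lit 2) (nat_lit 5) (nat_lit 2) (nat_lit 4) (nat_lit 256) (nat_lit 175) (nat_lit 169))))) (XT.nd (nat_lit 312) (nat_lit 0) (nat_lit 0) (XT.nd (nat_lit 156) (nat_lit 0) (nat_lit 0) (XT.nd (nat_lit 78) (nat_lit 0) (nat_lit 0) (XT.lf (nat_lit 0) (nat_lit 1515182209652) (nat_lit 76) (nat_lit 1242370905308) (nat_lit 76) (nat_lit 1242195217030) (nat_lit 1) (nat_lit 4) (nat_lit 2) (nat_lit 5) (nat_lit 2) (nat_lit 4) (nat_lit 257) (nat_lit 175) (nat_lit 168)) (XT.lf (nat_lit 0) (nat_lit 1742984672264) (nat_lit 76) (nat_lit 1428436365607) (nat_lit 76) (nat_lit 1428246872757) (nat_lit 1) (nat_lit 4) (nat_lit 2) (nat_lit 5) (nat_lit 2) (nat_lit 4) (nat_lit 258) (nat_lit 175) (nat_lit 167))) (XT.nd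 (nat_lit 78) (nat_lit 0) (nat_lit 0) (XT.lf (nat_lit 0) (nat_lit 2004929233122) (nat_lit 76) (nat_lit 1642424993512) (nat_lit 76) (nat_lit 1642223496688) (nat_lit 1) (nat_lit 4) (nat_lit 2) (nat_lit 5) (nat_lit 2) (nat_lit 4) (nat_lit 259) (nat_lit 175) (nat_lit 166)) (XT.lf (nat_lit 0) (nat_lit 2306140894503) (nat_lit 76) (nat_lit 1888523523047) (nat_lit 76) (nat_lit 1888311587984) (nat_lit 1) (nat_lit 4) (nat_lit 2) (nat_lit 5) (nat_lit 2) (nat_lit 4) (nat_lit 260) (nat_lit 175) (nat_lit 165)))) (XT.nd (nat_lit 156) (nat_lit 0) (nat_lit 0) (XT.nd (nat_lit 78) (nat_lit 0) (nat_lit 0) (XT.lf (nat_lit 0) (nat_lit 2652512928044) (nat_lit 76) (nat_lit 2171546925444) (nat_lit 76) (nat_lit 2171325913651) (nat_lit 1) (nat_lit 4) (nat_lit 2) (nat_lit 5) (nat_lit 2) (nat_lit 4) (nat_lit 261) (nat_lit 175) (nat_lit 164)) (XT.lf (nat_lit 0) (nat_lit 3050822177879) (nat_lit 76) (nat_lit 2497032615095)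 (nat_lit 76) (nat_lit 2496803710494) (nat_lit 1) (nat_lit 4) (nat_lit 2) (nat_lit 5) (nat_lit 2) (nat_lit 4) (nat_lit 262) (nat_lit 175) (nat_lit 163))) (XT.nd (nat_lit 78) (nat_lit 0) (nat_lit 0) (XT.lf (nat_lit 0) (nat_lit 3508861651070) (nat_lit 76) (nat_lit 2871348790278) (nat_lit 76) (nat_lit 2871113022366) (nat_lit 1) (nat_lit 4) (nat_lit 2) (nat_lit 5) (nat_lit 2) (nat_lit 4) (nat_lit 263) (nat_lit 175) (nat_lit 162)) (XT.lf (nat_lit 0) (nat_lit 4035592989484) (nat_lit 76) (nat_lit 3301819028333) (nat_lit 76) (nat_lit 3301577292323) (nat_lit 1) (nat_lit 4) (nat_lit 2) (nat_lit 5) (nat_lit 2) (nat_lit 4) (nat_lit 264) (nat_lit 175) (nat_lit 161)))))) (XT.nd (nat_lit 624) (nat_lit 0) (nat_lit 0) (XT.nd (nat_lit 312) (nat_lit 0) (nat_lit 0) (XT.nd (nat_lit 156) (nat_lit 0) (nat_lit 0) (XT.nd (nat_lit 78) (nat_lit 0) (nat_lit 0) (XT.lf (nat_lit 0) (nat_lit 4641321806263) (nat_lit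 76) (nat_lit 3796865573047) (nat_lit 76) (nat_lit 3796618647388) (nat_lit 1) (nat_lit 4) (nat_lit 2) (nat_lit 5) (nat_lit 2) (nat_lit 4) (nat_lit 265) (nat_lit 175) (nat_lit 160)) (XT.lf (nat_lit 0) (nat_lit 5337899317389) (nat_lit 76) (nat_lit 4366174117688) (nat_lit 76) (nat_lit 4365922679290) (nat_lit 1) (nat_lit 4) (nat_lit 2) (nat_lit 5) (nat_lit 2) (nat_lit 4) (nat_lit 266) (nat_lit 175) (nat_lit 159))) (XT.nd (nat_lit 78) (nat_lit 0) (nat_lit 0) (XT.lf (nat_lit 0) (nat_lit 6138954213295) (nat_lit 76) (nat_lit 5020883307693) (nat_lit 76) (nat_lit 5020627945174) (nat_lit 1) (nat_lit 4) (nat_lit 2) (nat_lit 5) (nat_lit 2) (nat_lit 4) (nat_lit 267) (nat_lit 175) (nat_lit 158)) (XT.lf (nat_lit 0) (nat_lit 7060159307164) (nat_lit 76) (nat_lit 5773802670693) (nat_lit 76) (nat_lit 5773543895895) (nat_lit 1) (nat_lit 4) (nat_lit 2) (nat_lit 5) (nat_lit 2) (nat_lit 4) (nat_lit 268) (nat_lit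 175) (nat_lit 157)))) (XT.nd (nat_lit 156) (nat_lit 0) (nat_lit 0) (XT.nd (nat_lit 78) (nat_lit 0) (nat_lit 0) (XT.lf (nat_lit 0) (nat_lit 8119538176918) (nat_lit 76) (nat_lit 6639663237703) (nat_lit 76) (nat_lit 6639401495707) (nat_lit 1) (nat_lit 4) (nat_lit 2) (nat_lit 5) (nat_lit 2) (nat_lit 4) (nat_lit 269) (nat_lit 175) (nat_lit 156)) (XT.lf (nat_lit 0) (nat_lit 9337817800444) (nat_lit 76) (nat_lit 7635405758948) (nat_lit 76) (nat_lit 7635141436778) (nat_lit 1) (nat_lit 4) (nat_lit 2) (nat_lit 5) (nat_lit 2) (nat_lit 4) (nat_lit 270) (nat_lit 175) (nat_lit 155))) (XT.nd (nat_lit 78) (nat_lit 0) (nat_lit 0) (XT.lf (nat_lit 0) (nat_lit 10738834083420) (nat_lit 76) (nat_lit 8780512153321) (nat_lit 76) (nat_lit 8780245587523) (nat_lit 1) (nat_lit 4) (nat_lit 2) (nat_lit 5) (nat_lit 2) (nat_lit 4) (nat_lit 271) (nat_lit 175) (nat_lit 154)) (XT.lf (nat_lit 0) (nat_lit 12349998213991)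 (nat_lit 76) (nat_lit 10097386676364) (nat_lit 76) (nat_lit 10097118159584) (nat_lit 1) (nat_lit 4) (nat_lit 2) (nat_lit 5) (nat_lit 2) (nat_lit 4) (nat_lit 272) (nat_lit 175) (nat_lit 153))))) (XT.nd (nat_lit 390) (nat_lit 0) (nat_lit 0) (XT.nd (nat_lit 156) (nat_lit 0) (nat_lit 0) (XT.nd (nat_lit 78) (nat_lit 0) (nat_lit 0) (XT.lf (nat_lit 0) (nat_lit 14202832968624) (nat_lit 76) (nat_lit 11611794264398) (nat_lit 76) (nat_lit 11611524051113) (nat_lit 1) (nat_lit 4) (nat_lit 2) (nat_lit 5) (nat_lit 2) (nat_lit 4) (nat_lit 273) (nat_lit 175) (nat_lit 152)) (XT.lf (nat_lit 0) (nat_lit 16333589462084) (nat_lit 76) (nat_lit 13353364631102) (nat_lit 76) (nat_lit 13353092942595) (nat_lit 1) (nat_lit 4) (nat_lit 2) (nat_lit 5) (nat_lit 2) (nat_lit 4) (nat_lit 274) (nat_lit 175) (nat_lit 151))) (XT.nd (nat_lit 78) (nat_lit 0) (nat_lit 0) (XT.lf (nat_lit 0) (nat_lit 18783956408374) (nat_lit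 76) (nat_lit 15356171979303) (nat_lit 76) (nat_lit 15355899007993) (nat_lit 1) (nat_lit 4) (nat_lit 2) (nat_lit 5) (nat_lit 2) (nat_lit 4) (nat_lit 275) (nat_lit 175) (nat_lit 150)) (XT.lf (nat_lit 0) (nat_lit 21601875769486) (nat_lit 76) (nat_lit 17659401670160) (nat_lit 76) (nat_lit 17659127583371) (nat_lit 1) (nat_lit 4) (nat_lit 2) (nat_lit 5) (nat_lit 2) (nat_lit 4) (nat_lit 276) (nat_lit 175) (nat_lit 149)))) (XT.nd (nat_lit 156) (nat_lit 0) (nat_lit 0) (XT.nd (nat_lit 78) (nat_lit 0) (nat_lit 0) (XT.lf (nat_lit 0) (nat_lit 28569174491780) (nat_lit 76) (nat_lit 23354140337806) (nat_lit 76) (nat_lit 23353864437570) (nat_lit 1) (nat_lit 4) (nat_lit 2) (nat_lit 5) (nat_lit 2) (nat_lit 4) (nat_lit 278) (nat_lit 175) (nat_lit 147)) (XT.lf (nat_lit 0) (nat_lit 32854870567094) (nat_lit 76) (nat_lit 26857068114613) (nat_lit 76) (nat_lit 26856791480931) (nat_lit 1) (nat_lit 4) (nat_lit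 2) (nat_lit 5) (nat_lit 2) (nat_lit 4) (nat_lit 279) (nat_lit 175) (nat_lit 146))) (XT.nd (nat_lit 78) (nat_lit 0) (nat_lit 0) (XT.lf (nat_lit 0) (nat_lit 37783419551640) (nat_lit 76) (nat_lit 30885435767159) (nat_lit 76) (nat_lit 30885158495698) (nat_lit 1) (nat_lit 4) (nat_lit 2) (nat_lit 5) (nat_lit 2) (nat_lit 4) (nat_lit 280) (nat_lit 175) (nat_lit 145)) (XT.lf (nat_lit 0) (nat_lit 43451249577724) (nat_lit 76) (nat_lit 35518059184298) (nat_lit 76) (nat_lit 35517781358246) (nat_lit 1) (nat_lit 4) (nat_lit 2) (nat_lit 5) (nat_lit 2) (nat_lit 4) (nat_lit 281) (nat_lit 175) (nat_lit 144))))))))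
noncomputable def xc4 : XT := (XT.nd (nat_lit 31044) (nat_lit 0) (nat_lit 0) (XT.nd (nat_lit 29640) (nat_lit 0) (nat_lit 0) (XT.nd (nat_lit 29016) (nat_lit 0) (nat_lit 0) (XT.nd (nat_lit 28704) (nat_lit 0) (nat_lit 0) (XT.nd (nat_lit 78) (nat_lit 0) (nat_lit 0) (XT.lf (nat_lit 0) (nat_lit 49969252971943) (nat_lit 76) (nat_lit 40845576650279) (nat_lit 76) (nat_lit 40845298341975) (nat_lit 1) (nat_lit 4) (nat_lit 2) (nat_lit 5) (nat_lit 2) (nat_lit 4) (nat_lit 282) (nat_lit 175) (nat_lit 143)) (XT.nd (nat_lit 28548) (nat_lit 0) (nat_lit 0) (XT.lf (nat_lit 0) (nat_lit 57464955887663) (nat_lit 76) (nat_lit 46972222202480) (nat_lit 76) (nat_lit 46971943474825) (nat_lit 1) (nat_lit 4) (nat_lit 2) (nat_lit 5) (nat_lit 2) (nat_lit 4) (nat_lit 283) (nat_lit 175) (nat_lit 142)) (XT.lf (nat_lit 0) (nat_lit 213392444440) (nat_lit 76) (nat_lit 177628028437) (nat_lit 76) (nat_lit 177628028437) (nat_lit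 1) (nat_lit 4) (nat_lit 2) (nat_lit 5) (nat_lit 2) (nat_lit 4) (nat_lit 248) (nat_lit 176) (nat_lit 176)))) (XT.nd (nat_lit 156) (nat_lit 0) (nat_lit 0) (XT.nd (nat_lit 78) (nat_lit 0) (nat_lit 0) (XT.lf (nat_lit 0) (nat_lit 491820295070) (nat_lit 76) (nat_lit 408015396145) (nat_lit 76) (nat_lit 407973167647) (nat_lit 1) (nat_lit 4) (nat_lit 2) (nat_lit 5) (nat_lit 2) (nat_lit 4) (nat_lit 249) (nat_lit 176) (nat_lit 175)) (XT.lf (nat_lit 0) (nat_lit 566524530107) (nat_lit 76) (nat_lit 468729469861) (nat_lit 76) (nat_lit 468650520929) (nat_lit 1) (nat_lit 4) (nat_lit 2) (nat_lit 5) (nat_lit 2) (nat_lit 4) (nat_lit 250) (nat_lit 176) (nat_lit 174))) (XT.nd (nat_lit 78) (nat_lit 0) (nat_lit 0) (XT.lf (nat_lit 0) (nat_lit 652359198589) (nat_lit 76) (nat_lit 538586162074) (nat_lit 76) (nat_lit 538475282330) (nat_lit 1) (nat_lit 4) (nat_lit 2) (nat_lit 5) (nat_lit 2) (nat_lit 4) (nat_lit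 251) (nat_lit 176) (nat_lit 173)) (XT.lf (nat_lit 0) (nat_lit 751003674467) (nat_lit 76) (nat_lit 618952234153) (nat_lit 76) (nat_lit 618813588486) (nat_lit 1) (nat_lit 4) (nat_lit 2) (nat_lit 5) (nat_lit 2) (nat_lit 4) (nat_lit 252) (nat_lit 176) (nat_lit 172))))) (XT.nd (nat_lit 312) (nat_lit 0) (nat_lit 0) (XT.nd (nat_lit 156) (nat_lit 0) (nat_lit 0) (XT.nd (nat_lit 78) (nat_lit 0) (nat_lit 0) (XT.lf (nat_lit 0) (nat_lit 864387958354) (nat_lit 76) (nat_lit 711400065769) (nat_lit 76) (nat_lit 711237275821) (nat_lit 1) (nat_lit 4) (nat_lit 2) (nat_lit 5) (nat_lit 2) (nat_lit 4) (nat_lit 253) (nat_lit 176) (nat_lit 171)) (XT.lf (nat_lit 0) (nat_lit 994730438413) (nat_lit 76) (nat_lit 817738418845) (nat_lit 76) (nat_lit 817554633871) (nat_lit 1) (nat_lit 4) (nat_lit 2) (nat_lit 5) (nat_lit 2) (nat_lit 4) (nat_lit 254) (nat_lit 176) (nat_lit 170))) (XT.nd (nat_lit 78) (nat_lit 0) (nat_lit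 0) (XT.lf (nat_lit 0) (nat_lit 1144581293604) (nat_lit 76) (nat_lit 940047826377) (nat_lit 76) (nat_lit 939845784857) (nat_lit 1) (nat_lit 4) (nat_lit 2) (nat_lit 5) (nat_lit 2) (nat_lit 4) (nat_lit 255) (nat_lit 176) (nat_lit 169)) (XT.lf (nat_lit 0) (nat_lit 1316872388482) (nat_lit 76) (nat_lit 1080721298511) (nat_lit 76) (nat_lit 1080503381734) (nat_lit 1) (nat_lit 4) (nat_lit 2) (nat_lit 5) (nat_lit 2) (nat_lit 4) (nat_lit 256) (nat_lit 176) (nat_lit 168)))) (XT.nd (nat_lit 156) (nat_lit 0) (nat_lit 0) (XT.nd (nat_lit 78) (nat_lit 0) (nat_lit 0) (XT.lf (nat_lit 0) (nat_lit 1514974635775) (nat_lit 76) (nat_lit 1242511142311) (nat_lit 76) (nat_lit 1242279420963) (nat_lit 1) (nat_lit 4) (nat_lit 2) (nat_lit 5) (nat_lit 2) (nat_lit 4) (nat_lit 257) (nat_lit 176) (nat_lit 167)) (XT.lf (nat_lit 0) (nat_lit 1742763949017) (nat_lit 76) (nat_lit 1428582811243) (nat_lit 76) (nat_lit 1428339085920)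 (nat_lit 1) (nat_lit 4) (nat_lit 2) (nat_lit 5) (nat_lit 2) (nat_lit 4) (nat_lit 258) (nat_lit 176) (nat_lit 166))) (XT.nd (nat_lit 78) (nat_lit 0) (nat_lit 0) (XT.lf (nat_lit 0) (nat_lit 2004697075640) (nat_lit 76) (nat_lit 1642576837960) (nat_lit 76) (nat_lit 1642322674398) (nat_lit 1) (nat_lit 4) (nat_lit 2) (nat_lit 5) (nat_lit 2) (nat_lit 4) (nat_lit 259) (nat_lit 176) (nat_lit 165)) (XT.lf (nat_lit 0) (nat_lit 2305898794208) (nat_lit 76) (nat_lit 1888680062114) (nat_lit 76) (nat_lit 1888416821823) (nat_lit 1) (nat_lit 4) (nat_lit 2) (nat_lit 5) (nat_lit 2) (nat_lit 4) (nat_lit 260) (nat_lit 176) (nat_lit 164)))))) (XT.nd (nat_lit 546) (nat_lit 0) (nat_lit 0) (XT.nd (nat_lit 234) (nat_lit 0) (nat_lit 0) (XT.nd (nat_lit 78) (nat_lit 0) (nat_lit 0) (XT.lf (nat_lit 0) (nat_lit 2652262181825) (nat_lit 76) (nat_lit 2171707546787) (nat_lit 76) (nat_lit 2171436413688) (nat_lit 1) (nat_lit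 4) (nat_lit 2) (nat_lit 5) (nat_lit 2) (nat_lit 4) (nat_lit 261) (nat_lit 176) (nat_lit 163)) (XT.nd (nat_lit 78) (nat_lit 0) (nat_lit 0) (XT.lf (nat_lit 0) (nat_lit 3050563913465) (nat_lit 76) (nat_lit 2497196786245) (nat_lit 76) (nat_lit 2496918789834) (nat_lit 1) (nat_lit 4) (nat_lit 2) (nat_lit 5) (nat_lit 2) (nat_lit 4) (nat_lit 262) (nat_lit 176) (nat_lit 162)) (XT.lf (nat_lit 0) (nat_lit 3508596849095) (nat_lit 76) (nat_lit 2871516048216) (nat_lit 76) (nat_lit 2871232083708) (nat_lit 1) (nat_lit 4) (nat_lit 2) (nat_lit 5) (nat_lit 2) (nat_lit 4) (nat_lit 263) (nat_lit 176) (nat_lit 161)))) (XT.nd (nat_lit 156) (nat_lit 0) (nat_lit 0) (XT.nd (nat_lit 78) (nat_lit 0) (nat_lit 0) (XT.lf (nat_lit 0) (nat_lit 4035322502673) (nat_lit 76) (nat_lit 3301988970435) (nat_lit 76) (nat_lit 3301699816277) (nat_lit 1) (nat_lit 4) (nat_lit 2) (nat_lit 5) (nat_lit 2) (nat_lit 4) (nat_lit 264)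 (nat_lit 176) (nat_lit 160)) (XT.lf (nat_lit 0) (nat_lit 4641046376117) (nat_lit 76) (nat_lit 3797037849204) (nat_lit 76) (nat_lit 3796744182308) (nat_lit 1) (nat_lit 4) (nat_lit 2) (nat_lit 5) (nat_lit 2) (nat_lit 4) (nat_lit 265) (nat_lit 176) (nat_lit 159))) (XT.nd (nat_lit 78) (nat_lit 0) (nat_lit 0) (XT.lf (nat_lit 0) (nat_lit 5337619588690) (nat_lit 76) (nat_lit 4366348423458) (nat_lit 76) (nat_lit 4366050832441) (nat_lit 1) (nat_lit 4) (nat_lit 2) (nat_lit 5) (nat_lit 2) (nat_lit 4) (nat_lit 266) (nat_lit 176) (nat_lit 158)) (XT.lf (nat_lit 0) (nat_lit 6138670746725) (nat_lit 76) (nat_lit 5021059378344) (nat_lit 76) (nat_lit 5020758375048) (nat_lit 1) (nat_lit 4) (nat_lit 2) (nat_lit 5) (nat_lit 2) (nat_lit 4) (nat_lit 267) (nat_lit 176) (nat_lit 157))))) (XT.nd (nat_lit 312) (nat_lit 0) (nat_lit 0) (XT.nd (nat_lit 156) (nat_lit 0) (nat_lit 0) (XT.nd (nat_lit 78) (nat_lit 0)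 (nat_lit 0) (XT.lf (nat_lit 0) (nat_lit 7059872590271) (nat_lit 76) (nat_lit 5773980276023) (nat_lit 76) (nat_lit 5773676305528) (nat_lit 1) (nat_lit 4) (nat_lit 2) (nat_lit 5) (nat_lit 2) (nat_lit 4) (nat_lit 268) (nat_lit 176) (nat_lit 156)) (XT.lf (nat_lit 0) (nat_lit 8119248633657) (nat_lit 76) (nat_lit 6639842177537) (nat_lit 76) (nat_lit 6639535626869) (nat_lit 1) (nat_lit 4) (nat_lit 2) (nat_lit 5) (nat_lit 2) (nat_lit 4) (nat_lit 269) (nat_lit 176) (nat_lit 155))) (XT.nd (nat_lit 78) (nat_lit 0) (nat_lit 0) (XT.lf (nat_lit 0) (nat_lit 9337525799472) (nat_lit 76) (nat_lit 7635585859220) (nat_lit 76) (nat_lit 7635277064923) (nat_lit 1) (nat_lit 4) (nat_lit 2) (nat_lit 5) (nat_lit 2) (nat_lit 4) (nat_lit 270) (nat_lit 176) (nat_lit 154)) (XT.lf (nat_lit 0) (nat_lit 10738539945308) (nat_lit 76) (nat_lit 8780693262669) (nat_lit 76) (nat_lit 8780382517391) (nat_lit 1) (nat_lit 4)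 (nat_lit 2) (nat_lit 5) (nat_lit 2) (nat_lit 4) (nat_lit 271) (nat_lit 176) (nat_lit 153)))) (XT.nd (nat_lit 156) (nat_lit 0) (nat_lit 0) (XT.nd (nat_lit 78) (nat_lit 0) (nat_lit 0) (XT.lf (nat_lit 0) (nat_lit 12349702217495) (nat_lit 76) (nat_lit 10097568663170) (nat_lit 76) (nat_lit 10097256221387) (nat_lit 1) (nat_lit 4) (nat_lit 2) (nat_lit 5) (nat_lit 2) (nat_lit 4) (nat_lit 272) (nat_lit 176) (nat_lit 152)) (XT.lf (nat_lit 0) (nat_lit 14202535356144) (nat_lit 76) (nat_lit 11611977014211) (nat_lit 76) (nat_lit 11611663097205) (nat_lit 1) (nat_lit 4) (nat_lit 2) (nat_lit 5) (nat_lit 2) (nat_lit 4) (nat_lit 273) (nat_lit 176) (nat_lit 151))) (XT.nd (nat_lit 312) (nat_lit 0) (nat_lit 0) (XT.lf (nat_lit 0) (nat_lit 16333290444400) (nat_lit 76) (nat_lit 13353548044400) (nat_lit 76) (nat_lit 13353232844591) (nat_lit 1) (nat_lit 4) (nat_lit 2) (nat_lit 5) (nat_lit 2) (nat_lit 4) (nat_lit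 274) (nat_lit 176) (nat_lit 150)) (XT.lf (nat_lit 0) (nat_lit 28568871462267) (nat_lit 76) (nat_lit 23354325645336) (nat_lit 76) (nat_lit 23354006783156) (nat_lit 1) (nat_lit 4) (nat_lit 2) (nat_lit 5) (nat_lit 2) (nat_lit 4) (nat_lit 278) (nat_lit 176) (nat_lit 146))))))) (XT.nd (nat_lit 29484) (nat_lit 0) (nat_lit 0) (XT.nd (nat_lit 28860) (nat_lit 0) (nat_lit 0) (XT.nd (nat_lit 234) (nat_lit 0) (nat_lit 0) (XT.nd (nat_lit 78) (nat_lit 0) (nat_lit 0) (XT.lf (nat_lit 0) (nat_lit 32854566838946) (nat_lit 76) (nat_lit 26857253752012) (nat_lit 76) (nat_lit 26856934252052) (nat_lit 1) (nat_lit 4) (nat_lit 2) (nat_lit 5) (nat_lit 2) (nat_lit 4) (nat_lit 279) (nat_lit 176) (nat_lit 145)) (XT.nd (nat_lit 78) (nat_lit 0) (nat_lit 0) (XT.lf (nat_lit 0) (nat_lit 37783115215983) (nat_lit 76) (nat_lit 30885621691400) (nat_lit 76) (nat_lit 30885301636850) (nat_lit 1) (nat_lit 4) (nat_lit 2) (nat_lit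 5) (nat_lit 2) (nat_lit 4) (nat_lit 280) (nat_lit 176) (nat_lit 144)) (XT.lf (nat_lit 0) (nat_lit 43450944713799) (nat_lit 76) (nat_lit 35518245357968) (nat_lit 76) (nat_lit 35517924821165) (nat_lit 1) (nat_lit 4) (nat_lit 2) (nat_lit 5) (nat_lit 2) (nat_lit 4) (nat_lit 281) (nat_lit 176) (nat_lit 143)))) (XT.nd (nat_lit 28470) (nat_lit 0) (nat_lit 0) (XT.nd (nat_lit 78) (nat_lit 0) (nat_lit 0) (XT.lf (nat_lit 0) (nat_lit 49968947648654) (nat_lit 76) (nat_lit 40845763040843) (nat_lit 76) (nat_lit 40845442084690) (nat_lit 1) (nat_lit 4) (nat_lit 2) (nat_lit 5) (nat_lit 2) (nat_lit 4) (nat_lit 282) (nat_lit 176) (nat_lit 142)) (XT.lf (nat_lit 0) (nat_lit 57464650164928) (nat_lit 76) (nat_lit 46972408781647) (nat_lit 76) (nat_lit 46972087460842) (nat_lit 1) (nat_lit 4) (nat_lit 2) (nat_lit 5) (nat_lit 2) (nat_lit 4) (nat_lit 283) (nat_lit 176) (nat_lit 141))) (XT.nd (nat_lit 78) (nat_lit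 0) (nat_lit 0) (XT.lf (nat_lit 0) (nat_lit 160424154737) (nat_lit 76) (nat_lit 134815737622) (nat_lit 76) (nat_lit 134815737622) (nat_lit 1) (nat_lit 4) (nat_lit 2) (nat_lit 5) (nat_lit 2) (nat_lit 4) (nat_lit 246) (nat_lit 177) (nat_lit 177)) (XT.lf (nat_lit 0) (nat_lit 370145879680) (nat_lit 76) (nat_lit 309467766882) (nat_lit 76) (nat_lit 309419204108) (nat_lit 1) (nat_lit 4) (nat_lit 2) (nat_lit 5) (nat_lit 2) (nat_lit 4) (nat_lit 247) (nat_lit 177) (nat_lit 176))))) (XT.nd (nat_lit 312) (nat_lit 0) (nat_lit 0) (XT.nd (nat_lit 156) (nat_lit 0) (nat_lit 0) (XT.nd (nat_lit 78) (nat_lit 0) (nat_lit 0) (XT.lf (nat_lit 0) (nat_lit 426738631024) (nat_lit 76) (nat_lit 355326460852) (nat_lit 76) (nat_lit 355235669580) (nat_lit 1) (nat_lit 4) (nat_lit 2) (nat_lit 5) (nat_lit 2) (nat_lit 4) (nat_lit 248) (nat_lit 177) (nat_lit 175)) (XT.lf (nat_lit 0) (nat_lit 491733812990) (nat_lit 76)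 (nat_lit 408104792474) (nat_lit 76) (nat_lit 407977280768) (nat_lit 1) (nat_lit 4) (nat_lit 2) (nat_lit 5) (nat_lit 2) (nat_lit 4) (nat_lit 249) (nat_lit 177) (nat_lit 174))) (XT.nd (nat_lit 78) (nat_lit 0) (nat_lit 0) (XT.lf (nat_lit 0) (nat_lit 566403070440) (nat_lit 76) (nat_lit 468835381278) (nat_lit 76) (nat_lit 468675938761) (nat_lit 1) (nat_lit 4) (nat_lit 2) (nat_lit 5) (nat_lit 2) (nat_lit 4) (nat_lit 250) (nat_lit 177) (nat_lit 173)) (XT.lf (nat_lit 0) (nat_lit 652207323631) (nat_lit 76) (nat_lit 538706434437) (nat_lit 76) (nat_lit 538519225997) (nat_lit 1) (nat_lit 4) (nat_lit 2) (nat_lit 5) (nat_lit 2) (nat_lit 4) (nat_lit 251) (nat_lit 177) (nat_lit 172)))) (XT.nd (nat_lit 156) (nat_lit 0) (nat_lit 0) (XT.nd (nat_lit 78) (nat_lit 0) (nat_lit 0) (XT.lf (nat_lit 0) (nat_lit 750825351428) (nat_lit 76) (nat_lit 619084994295) (nat_lit 76) (nat_lit 618873641574) (nat_lit 1)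 (nat_lit 4) (nat_lit 2) (nat_lit 5) (nat_lit 2) (nat_lit 4) (nat_lit 252) (nat_lit 177) (nat_lit 171)) (XT.lf (nat_lit 0) (nat_lit 864186636985) (nat_lit 76) (nat_lit 711543684849) (nat_lit 76) (nat_lit 711311337101) (nat_lit 1) (nat_lit 4) (nat_lit 2) (nat_lit 5) (nat_lit 2) (nat_lit 4) (nat_lit 253) (nat_lit 177) (nat_lit 170))) (XT.nd (nat_lit 78) (nat_lit 0) (nat_lit 0) (XT.lf (nat_lit 0) (nat_lit 994509118497) (nat_lit 76) (nat_lit 817891480481) (nat_lit 76) (nat_lit 817640876188) (nat_lit 1) (nat_lit 4) (nat_lit 2) (nat_lit 5) (nat_lit 2) (nat_lit 4) (nat_lit 254) (nat_lit 177) (nat_lit 169)) (XT.lf (nat_lit 0) (nat_lit 1144342583645) (nat_lit 76) (nat_lit 940209098930) (nat_lit 76) (nat_lit 939942619380) (nat_lit 1) (nat_lit 4) (nat_lit 2) (nat_lit 5) (nat_lit 2) (nat_lit 4) (nat_lit 255) (nat_lit 177) (nat_lit 168)))))) (XT.nd (nat_lit 624) (nat_lit 0) (nat_lit 0) (XT.nd (nat_lit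 312) (nat_lit 0) (nat_lit 0) (XT.nd (nat_lit 156) (nat_lit 0) (nat_lit 0) (XT.nd (nat_lit 78) (nat_lit 0) (nat_lit 0) (XT.lf (nat_lit 0) (nat_lit 1316618556748) (nat_lit 76) (nat_lit 1080889710993) (nat_lit 76) (nat_lit 1080609426872) (nat_lit 1) (nat_lit 4) (nat_lit 2) (nat_lit 5) (nat_lit 2) (nat_lit 4) (nat_lit 256) (nat_lit 177) (nat_lit 167)) (XT.lf (nat_lit 0) (nat_lit 1514707654671) (nat_lit 76) (nat_lit 1242685763426) (nat_lit 76) (nat_lit 1242393475330) (nat_lit 1) (nat_lit 4) (nat_lit 2) (nat_lit 5) (nat_lit 2) (nat_lit 4) (nat_lit 257) (nat_lit 177) (nat_lit 166))) (XT.nd (nat_lit 78) (nat_lit 0) (nat_lit 0) (XT.lf (nat_lit 0) (nat_lit 1742485533678) (nat_lit 76) (nat_lit 1428762831170) (nat_lit 76) (nat_lit 1428460104835) (nat_lit 1) (nat_lit 4) (nat_lit 2) (nat_lit 5) (nat_lit 2) (nat_lit 4) (nat_lit 258) (nat_lit 177) (nat_lit 165)) (XT.lf (nat_lit 0) (nat_lit 2004408717488)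 (nat_lit 76) (nat_lit 1642761552505) (nat_lit 76) (nat_lit 1642449749441) (nat_lit 1) (nat_lit 4) (nat_lit 2) (nat_lit 5) (nat_lit 2) (nat_lit 4) (nat_lit 259) (nat_lit 177) (nat_lit 164)))) (XT.nd (nat_lit 156) (nat_lit 0) (nat_lit 0) (XT.nd (nat_lit 78) (nat_lit 0) (nat_lit 0) (XT.lf (nat_lit 0) (nat_lit 2305601790132) (nat_lit 76) (nat_lit 1888868858937) (nat_lit 76) (nat_lit 1888549163064) (nat_lit 1) (nat_lit 4) (nat_lit 2) (nat_lit 5) (nat_lit 2) (nat_lit 4) (nat_lit 260) (nat_lit 177) (nat_lit 163)) (XT.lf (nat_lit 0) (nat_lit 2651957659554) (nat_lit 76) (nat_lit 2171899893416) (nat_lit 76) (nat_lit 2171573334232) (nat_lit 1) (nat_lit 4) (nat_lit 2) (nat_lit 5) (nat_lit 2) (nat_lit 4) (nat_lit 261) (nat_lit 177) (nat_lit 162))) (XT.nd (nat_lit 78) (nat_lit 0) (nat_lit 0) (XT.lf (nat_lit 0) (nat_lit 3050252853633) (nat_lit 76) (nat_lit 2497392219662) (nat_lit 76) (nat_lit 2497059692381)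 (nat_lit 1) (nat_lit 4) (nat_lit 2) (nat_lit 5) (nat_lit 2) (nat_lit 4) (nat_lit 262) (nat_lit 177) (nat_lit 161)) (XT.lf (nat_lit 0) (nat_lit 3508280104427) (nat_lit 76) (nat_lit 2871714165797) (nat_lit 76) (nat_lit 2871376448866) (nat_lit 1) (nat_lit 4) (nat_lit 2) (nat_lit 5) (nat_lit 2) (nat_lit 4) (nat_lit 263) (nat_lit 177) (nat_lit 160))))) (XT.nd (nat_lit 312) (nat_lit 0) (nat_lit 0) (XT.nd (nat_lit 156) (nat_lit 0) (nat_lit 0) (XT.nd (nat_lit 78) (nat_lit 0) (nat_lit 0) (XT.lf (nat_lit 0) (nat_lit 4035000814670) (nat_lit 76) (nat_lit 3302189422070) (nat_lit 76) (nat_lit 3301847192401) (nat_lit 1) (nat_lit 4) (nat_lit 2) (nat_lit 5) (nat_lit 2) (nat_lit 4) (nat_lit 264) (nat_lit 177) (nat_lit 159)) (XT.lf (nat_lit 0) (nat_lit 4640720389562) (nat_lit 76) (nat_lit 3797240330453) (nat_lit 76) (nat_lit 3796894176663) (nat_lit 1) (nat_lit 4) (nat_lit 2) (nat_lit 5) (nat_lit 2) (nat_lit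 4) (nat_lit 265) (nat_lit 177) (nat_lit 158))) (XT.nd (nat_lit 78) (nat_lit 0) (nat_lit 0) (XT.lf (nat_lit 0) (nat_lit 5337289864263) (nat_lit 76) (nat_lit 4366552669588) (nat_lit 76) (nat_lit 4366203103519) (nat_lit 1) (nat_lit 4) (nat_lit 2) (nat_lit 5) (nat_lit 2) (nat_lit 4) (nat_lit 266) (nat_lit 177) (nat_lit 157)) (XT.lf (nat_lit 0) (nat_lit 6138337771975) (nat_lit 76) (nat_lit 5021265159153) (nat_lit 76) (nat_lit 5020912625885) (nat_lit 1) (nat_lit 4) (nat_lit 2) (nat_lit 5) (nat_lit 2) (nat_lit 4) (nat_lit 267) (nat_lit 177) (nat_lit 156)))) (XT.nd (nat_lit 156) (nat_lit 0) (nat_lit 0) (XT.nd (nat_lit 78) (nat_lit 0) (nat_lit 0) (XT.lf (nat_lit 0) (nat_lit 7059536789153) (nat_lit 76) (nat_lit 5774187391336) (nat_lit 76) (nat_lit 5773832277895) (nat_lit 1) (nat_lit 4) (nat_lit 2) (nat_lit 5) (nat_lit 2) (nat_lit 4) (nat_lit 268) (nat_lit 177) (nat_lit 155)) (XT.lf (nat_lit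 0) (nat_lit 8118910374828) (nat_lit 76) (nat_lit 6640050453288) (nat_lit 76) (nat_lit 6639693096218) (nat_lit 1) (nat_lit 4) (nat_lit 2) (nat_lit 5) (nat_lit 2) (nat_lit 4) (nat_lit 269) (nat_lit 177) (nat_lit 154))) (XT.nd (nat_lit 78) (nat_lit 0) (nat_lit 0) (XT.lf (nat_lit 0) (nat_lit 9337185403502) (nat_lit 76) (nat_lit 7635795144047) (nat_lit 76) (nat_lit 7635435835996) (nat_lit 1) (nat_lit 4) (nat_lit 2) (nat_lit 5) (nat_lit 2) (nat_lit 4) (nat_lit 270) (nat_lit 177) (nat_lit 153)) (XT.lf (nat_lit 0) (nat_lit 10738197690955) (nat_lit 76) (nat_lit 8780903424954) (nat_lit 76) (nat_lit 8780542420397) (nat_lit 1) (nat_lit 4) (nat_lit 2) (nat_lit 5) (nat_lit 2) (nat_lit 4) (nat_lit 271) (nat_lit 177) (nat_lit 152))))))))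
noncomputable def xc5 : XT := (XT.nd (nat_lit 30888) (nat_lit 0) (nat_lit 0) (XT.nd (nat_lit 29640) (nat_lit 0) (nat_lit 0) (XT.nd (nat_lit 858) (nat_lit 0) (nat_lit 0) (XT.nd (nat_lit 546) (nat_lit 0) (nat_lit 0) (XT.nd (nat_lit 390) (nat_lit 0) (nat_lit 0) (XT.lf (nat_lit 0) (nat_lit 12349358347158) (nat_lit 76) (nat_lit 10097779588462) (nat_lit 76) (nat_lit 10097417108683) (nat_lit 1) (nat_lit 4) (nat_lit 2) (nat_lit 5) (nat_lit 2) (nat_lit 4) (nat_lit 272) (nat_lit 177) (nat_lit 151)) (XT.nd (nat_lit 78) (nat_lit 0) (nat_lit 0) (XT.lf (nat_lit 0) (nat_lit 24841829236859) (nat_lit 76) (nat_lit 20308515304469) (nat_lit 76) (nat_lit 20308147879515) (nat_lit 1) (nat_lit 4) (nat_lit 2) (nat_lit 5) (nat_lit 2) (nat_lit 4) (nat_lit 277) (nat_lit 177) (nat_lit 146)) (XT.lf (nat_lit 0) (nat_lit 28568521476262) (nat_lit 76) (nat_lit 23354539458214) (nat_lit 76) (nat_lit 23354171395481) (nat_lit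 1) (nat_lit 4) (nat_lit 2) (nat_lit 5) (nat_lit 2) (nat_lit 4) (nat_lit 278) (nat_lit 177) (nat_lit 145)))) (XT.nd (nat_lit 156) (nat_lit 0) (nat_lit 0) (XT.nd (nat_lit 78) (nat_lit 0) (nat_lit 0) (XT.lf (nat_lit 0) (nat_lit 32854216245432) (nat_lit 76) (nat_lit 26857467851732) (nat_lit 76) (nat_lit 26857099234409) (nat_lit 1) (nat_lit 4) (nat_lit 2) (nat_lit 5) (nat_lit 2) (nat_lit 4) (nat_lit 279) (nat_lit 177) (nat_lit 144)) (XT.lf (nat_lit 0) (nat_lit 37782764094201) (nat_lit 76) (nat_lit 30885836040549) (nat_lit 76) (nat_lit 30885466940973) (nat_lit 1) (nat_lit 4) (nat_lit 2) (nat_lit 5) (nat_lit 2) (nat_lit 4) (nat_lit 280) (nat_lit 177) (nat_lit 143))) (XT.nd (nat_lit 78) (nat_lit 0) (nat_lit 0) (XT.lf (nat_lit 0) (nat_lit 43450593132653) (nat_lit 76) (nat_lit 35518459924011) (nat_lit 76) (nat_lit 35518090405084) (nat_lit 1) (nat_lit 4) (nat_lit 2) (nat_lit 5) (nat_lit 2) (nat_lit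 4) (nat_lit 281) (nat_lit 177) (nat_lit 142)) (XT.lf (nat_lit 0) (nat_lit 49968595668062) (nat_lit 76) (nat_lit 40845977795490) (nat_lit 76) (nat_lit 40845607911911) (nat_lit 1) (nat_lit 4) (nat_lit 2) (nat_lit 5) (nat_lit 2) (nat_lit 4) (nat_lit 282) (nat_lit 177) (nat_lit 141))))) (XT.nd (nat_lit 28470) (nat_lit 0) (nat_lit 0) (XT.nd (nat_lit 28314) (nat_lit 0) (nat_lit 0) (XT.nd (nat_lit 28236) (nat_lit 0) (nat_lit 0) (XT.lf (nat_lit 0) (nat_lit 57464297836990) (nat_lit 76) (nat_lit 46972623700297) (nat_lit 76) (nat_lit 46972253499629) (nat_lit 1) (nat_lit 4) (nat_lit 2) (nat_lit 5) (nat_lit 2) (nat_lit 4) (nat_lit 283) (nat_lit 177) (nat_lit 140)) (XT.lf (nat_lit 0) (nat_lit 120232839293) (nat_lit 76) (nat_lit 102519009358) (nat_lit 76) (nat_lit 102519009358) (nat_lit 1) (nat_lit 4) (nat_lit 2) (nat_lit 5) (nat_lit 2) (nat_lit 4) (nat_lit 244) (nat_lit 178) (nat_lit 178))) (XT.nd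 (nat_lit 78) (nat_lit 0) (nat_lit 0) (XT.lf (nat_lit 0) (nat_lit 277881402728) (nat_lit 76) (nat_lit 235094027426) (nat_lit 76) (nat_lit 235038180237) (nat_lit 1) (nat_lit 4) (nat_lit 2) (nat_lit 5) (nat_lit 2) (nat_lit 4) (nat_lit 245) (nat_lit 178) (nat_lit 177)) (XT.lf (nat_lit 0) (nat_lit 320795112938) (nat_lit 76) (nat_lit 269712439819) (nat_lit 76) (nat_lit 269608029856) (nat_lit 1) (nat_lit 4) (nat_lit 2) (nat_lit 5) (nat_lit 2) (nat_lit 4) (nat_lit 246) (nat_lit 178) (nat_lit 176)))) (XT.nd (nat_lit 156) (nat_lit 0) (nat_lit 0) (XT.nd (nat_lit 78) (nat_lit 0) (nat_lit 0) (XT.lf (nat_lit 0) (nat_lit 370046425287) (nat_lit 76) (nat_lit 309570572659) (nat_lit 76) (nat_lit 309423934198) (nat_lit 1) (nat_lit 4) (nat_lit 2) (nat_lit 5) (nat_lit 2) (nat_lit 4) (nat_lit 247) (nat_lit 178) (nat_lit 175)) (XT.lf (nat_lit 0) (nat_lit 426598952408) (nat_lit 76) (nat_lit 355448258981) (nat_lit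 76) (nat_lit 355264900087) (nat_lit 1) (nat_lit 4) (nat_lit 2) (nat_lit 5) (nat_lit 2) (nat_lit 4) (nat_lit 248) (nat_lit 178) (nat_lit 174))) (XT.nd (nat_lit 78) (nat_lit 0) (nat_lit 0) (XT.lf (nat_lit 0) (nat_lit 491559156787) (nat_lit 76) (nat_lit 408243105691) (nat_lit 76) (nat_lit 408027815985) (nat_lit 1) (nat_lit 4) (nat_lit 2) (nat_lit 5) (nat_lit 2) (nat_lit 4) (nat_lit 249) (nat_lit 178) (nat_lit 173)) (XT.lf (nat_lit 0) (nat_lit 566197998946) (nat_lit 76) (nat_lit 468988055441) (nat_lit 76) (nat_lit 468744999812) (nat_lit 1) (nat_lit 4) (nat_lit 2) (nat_lit 5) (nat_lit 2) (nat_lit 4) (nat_lit 250) (nat_lit 178) (nat_lit 172)))))) (XT.nd (nat_lit 624) (nat_lit 0) (nat_lit 0) (XT.nd (nat_lit 312) (nat_lit 0) (nat_lit 0) (XT.nd (nat_lit 156) (nat_lit 0) (nat_lit 0) (XT.nd (nat_lit 78) (nat_lit 0) (nat_lit 0) (XT.lf (nat_lit 0) (nat_lit 651975804057) (nat_lit 76) (nat_lit 538871596379)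 (nat_lit 76) (nat_lit 538604396469) (nat_lit 1) (nat_lit 4) (nat_lit 2) (nat_lit 5) (nat_lit 2) (nat_lit 4) (nat_lit 251) (nat_lit 178) (nat_lit 171)) (XT.lf (nat_lit 0) (nat_lit 750570833524) (nat_lit 76) (nat_lit 619261015176) (nat_lit 76) (nat_lit 618972820239) (nat_lit 1) (nat_lit 4) (nat_lit 2) (nat_lit 5) (nat_lit 2) (nat_lit 4) (nat_lit 252) (nat_lit 178) (nat_lit 170))) (XT.nd (nat_lit 78) (nat_lit 0) (nat_lit 0) (XT.lf (nat_lit 0) (nat_lit 863912120532) (nat_lit 76) (nat_lit 711729148286) (nat_lit 76) (nat_lit 711422696803) (nat_lit 1) (nat_lit 4) (nat_lit 2) (nat_lit 5) (nat_lit 2) (nat_lit 4) (nat_lit 253) (nat_lit 178) (nat_lit 169)) (XT.lf (nat_lit 0) (nat_lit 994217212002) (nat_lit 76) (nat_lit 818085154835) (nat_lit 76) (nat_lit 817762828096) (nat_lit 1) (nat_lit 4) (nat_lit 2) (nat_lit 5) (nat_lit 2) (nat_lit 4) (nat_lit 254) (nat_lit 178) (nat_lit 168)))) (XT.nd (nat_lit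 156) (nat_lit 0) (nat_lit 0) (XT.nd (nat_lit 78) (nat_lit 0) (nat_lit 0) (XT.lf (nat_lit 0) (nat_lit 1144035555375) (nat_lit 76) (nat_lit 940409913213) (nat_lit 76) (nat_lit 940073781902) (nat_lit 1) (nat_lit 4) (nat_lit 2) (nat_lit 5) (nat_lit 2) (nat_lit 4) (nat_lit 255) (nat_lit 178) (nat_lit 167)) (XT.lf (nat_lit 0) (nat_lit 1316298379108) (nat_lit 76) (nat_lit 1081096733908) (nat_lit 76) (nat_lit 1080748598623) (nat_lit 1) (nat_lit 4) (nat_lit 2) (nat_lit 5) (nat_lit 2) (nat_lit 4) (nat_lit 256) (nat_lit 178) (nat_lit 166))) (XT.nd (nat_lit 78) (nat_lit 0) (nat_lit 0) (XT.lf (nat_lit 0) (nat_lit 1514376042796) (nat_lit 76) (nat_lit 1242898185153) (nat_lit 76) (nat_lit 1242539611629) (nat_lit 1) (nat_lit 4) (nat_lit 2) (nat_lit 5) (nat_lit 2) (nat_lit 4) (nat_lit 257) (nat_lit 178) (nat_lit 165)) (XT.lf (nat_lit 0) (nat_lit 1742143978990) (nat_lit 76) (nat_lit 1428979947516) (nat_lit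 76) (nat_lit 1428612297262) (nat_lit 1) (nat_lit 4) (nat_lit 2) (nat_lit 5) (nat_lit 2) (nat_lit 4) (nat_lit 258) (nat_lit 178) (nat_lit 164))))) (XT.nd (nat_lit 312) (nat_lit 0) (nat_lit 0) (XT.nd (nat_lit 156) (nat_lit 0) (nat_lit 0) (XT.nd (nat_lit 78) (nat_lit 0) (nat_lit 0) (XT.lf (nat_lit 0) (nat_lit 2004058516876) (nat_lit 76) (nat_lit 1642982751128) (nat_lit 76) (nat_lit 1642607208066) (nat_lit 1) (nat_lit 4) (nat_lit 2) (nat_lit 5) (nat_lit 2) (nat_lit 4) (nat_lit 259) (nat_lit 178) (nat_lit 163)) (XT.lf (nat_lit 0) (nat_lit 2305244071325) (nat_lit 76) (nat_lit 1889093607366) (nat_lit 76) (nat_lit 1888711200992) (nat_lit 1) (nat_lit 4) (nat_lit 2) (nat_lit 5) (nat_lit 2) (nat_lit 4) (nat_lit 260) (nat_lit 178) (nat_lit 162))) (XT.nd (nat_lit 78) (nat_lit 0) (nat_lit 0) (XT.lf (nat_lit 0) (nat_lit 2651593403186) (nat_lit 76) (nat_lit 2172127728634) (nat_lit 76) (nat_lit 2171739354163)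 (nat_lit 1) (nat_lit 4) (nat_lit 2) (nat_lit 5) (nat_lit 2) (nat_lit 4) (nat_lit 261) (nat_lit 178) (nat_lit 161)) (XT.lf (nat_lit 0) (nat_lit 3049882912429) (nat_lit 76) (nat_lit 2497622739043) (nat_lit 76) (nat_lit 2497229174923) (nat_lit 1) (nat_lit 4) (nat_lit 2) (nat_lit 5) (nat_lit 2) (nat_lit 4) (nat_lit 262) (nat_lit 178) (nat_lit 160)))) (XT.nd (nat_lit 156) (nat_lit 0) (nat_lit 0) (XT.nd (nat_lit 78) (nat_lit 0) (nat_lit 0) (XT.lf (nat_lit 0) (nat_lit 3507905219889) (nat_lit 76) (nat_lit 2871947019233) (nat_lit 76) (nat_lit 2871548942374) (nat_lit 1) (nat_lit 4) (nat_lit 2) (nat_lit 5) (nat_lit 2) (nat_lit 4) (nat_lit 263) (nat_lit 178) (nat_lit 159)) (XT.lf (nat_lit 0) (nat_lit 4034621631579) (nat_lit 76) (nat_lit 3302424305120) (nat_lit 76) (nat_lit 3302022304140) (nat_lit 1) (nat_lit 4) (nat_lit 2) (nat_lit 5) (nat_lit 2) (nat_lit 4) (nat_lit 264) (nat_lit 178) (nat_lit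 158))) (XT.nd (nat_lit 78) (nat_lit 0) (nat_lit 0) (XT.lf (nat_lit 0) (nat_lit 4640337468599) (nat_lit 76) (nat_lit 3797476978384) (nat_lit 76) (nat_lit 3797071565125) (nat_lit 1) (nat_lit 4) (nat_lit 2) (nat_lit 5) (nat_lit 2) (nat_lit 4) (nat_lit 265) (nat_lit 178) (nat_lit 157)) (XT.lf (nat_lit 0) (nat_lit 5336903692978) (nat_lit 76) (nat_lit 4366790852198) (nat_lit 76) (nat_lit 4366382471740) (nat_lit 1) (nat_lit 4) (nat_lit 2) (nat_lit 5) (nat_lit 2) (nat_lit 4) (nat_lit 266) (nat_lit 178) (nat_lit 156))))))) (XT.nd (nat_lit 29484) (nat_lit 0) (nat_lit 0) (XT.nd (nat_lit 780) (nat_lit 0) (nat_lit 0) (XT.nd (nat_lit 234) (nat_lit 0) (nat_lit 0) (XT.nd (nat_lit 78) (nat_lit 0) (nat_lit 0) (XT.lf (nat_lit 0) (nat_lit 6137948774322) (nat_lit 76) (nat_lit 5021504676267) (nat_lit 76) (nat_lit 5021093715636) (nat_lit 1) (nat_lit 4) (nat_lit 2) (nat_lit 5) (nat_lit 2) (nat_lit 4) (nat_lit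 267) (nat_lit 178) (nat_lit 155)) (XT.nd (nat_lit 78) (nat_lit 0) (nat_lit 0) (XT.lf (nat_lit 0) (nat_lit 7059145333788) (nat_lit 76) (nat_lit 5774428068887) (nat_lit 76) (nat_lit 5774014864628) (nat_lit 1) (nat_lit 4) (nat_lit 2) (nat_lit 5) (nat_lit 2) (nat_lit 4) (nat_lit 268) (nat_lit 178) (nat_lit 154)) (XT.lf (nat_lit 0) (nat_lit 8118516782323) (nat_lit 76) (nat_lit 6640292139916) (nat_lit 76) (nat_lit 6639876984675) (nat_lit 1) (nat_lit 4) (nat_lit 2) (nat_lit 5) (nat_lit 2) (nat_lit 4) (nat_lit 269) (nat_lit 178) (nat_lit 153)))) (XT.nd (nat_lit 156) (nat_lit 0) (nat_lit 0) (XT.nd (nat_lit 78) (nat_lit 0) (nat_lit 0) (XT.lf (nat_lit 0) (nat_lit 9336789952614) (nat_lit 76) (nat_lit 7636037708133) (nat_lit 76) (nat_lit 7635620856386) (nat_lit 1) (nat_lit 4) (nat_lit 2) (nat_lit 5) (nat_lit 2) (nat_lit 4) (nat_lit 270) (nat_lit 178) (nat_lit 152)) (XT.lf (nat_lit 0) (nat_lit 10737800624082)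 (nat_lit 76) (nat_lit 8781146752047) (nat_lit 76) (nat_lit 8780728425078) (nat_lit 1) (nat_lit 4) (nat_lit 2) (nat_lit 5) (nat_lit 2) (nat_lit 4) (nat_lit 271) (nat_lit 178) (nat_lit 151))) (XT.nd (nat_lit 312) (nat_lit 0) (nat_lit 0) (XT.lf (nat_lit 0) (nat_lit 12348959875080) (nat_lit 76) (nat_lit 10098023579039) (nat_lit 76) (nat_lit 10097603969268) (nat_lit 1) (nat_lit 4) (nat_lit 2) (nat_lit 5) (nat_lit 2) (nat_lit 4) (nat_lit 272) (nat_lit 178) (nat_lit 150)) (XT.lf (nat_lit 0) (nat_lit 21600823499503) (nat_lit 76) (nat_lit 17660045150559) (nat_lit 76) (nat_lit 17659621878417) (nat_lit 1) (nat_lit 4) (nat_lit 2) (nat_lit 5) (nat_lit 2) (nat_lit 4) (nat_lit 276) (nat_lit 178) (nat_lit 146))))) (XT.nd (nat_lit 312) (nat_lit 0) (nat_lit 0) (XT.nd (nat_lit 156) (nat_lit 0) (nat_lit 0) (XT.nd (nat_lit 78) (nat_lit 0) (nat_lit 0) (XT.lf (nat_lit 0) (nat_lit 24841426054318) (nat_lit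 76) (nat_lit 20308761519147) (nat_lit 76) (nat_lit 20308337609225) (nat_lit 1) (nat_lit 4) (nat_lit 2) (nat_lit 5) (nat_lit 2) (nat_lit 4) (nat_lit 277) (nat_lit 178) (nat_lit 145)) (XT.lf (nat_lit 0) (nat_lit 28568117686213) (nat_lit 76) (nat_lit 23354785959735) (nat_lit 76) (nat_lit 23354361495222) (nat_lit 1) (nat_lit 4) (nat_lit 2) (nat_lit 5) (nat_lit 2) (nat_lit 4) (nat_lit 278) (nat_lit 178) (nat_lit 144))) (XT.nd (nat_lit 78) (nat_lit 0) (nat_lit 0) (XT.lf (nat_lit 0) (nat_lit 32853811927115) (nat_lit 76) (nat_lit 26857714602681) (nat_lit 76) (nat_lit 26857289655916) (nat_lit 1) (nat_lit 4) (nat_lit 2) (nat_lit 5) (nat_lit 2) (nat_lit 4) (nat_lit 279) (nat_lit 178) (nat_lit 143)) (XT.lf (nat_lit 0) (nat_lit 37782359316520) (nat_lit 76) (nat_lit 30886083008392) (nat_lit 76) (nat_lit 30885657642277) (nat_lit 1) (nat_lit 4) (nat_lit 2) (nat_lit 5) (nat_lit 2) (nat_lit 4) (nat_lit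 280) (nat_lit 178) (nat_lit 142)))) (XT.nd (nat_lit 28236) (nat_lit 0) (nat_lit 0) (XT.nd (nat_lit 78) (nat_lit 0) (nat_lit 0) (XT.lf (nat_lit 0) (nat_lit 43450187955525) (nat_lit 76) (nat_lit 35518707080458) (nat_lit 76) (nat_lit 35518281349690) (nat_lit 1) (nat_lit 4) (nat_lit 2) (nat_lit 5) (nat_lit 2) (nat_lit 4) (nat_lit 281) (nat_lit 178) (nat_lit 141)) (XT.lf (nat_lit 0) (nat_lit 49968190143589) (nat_lit 76) (nat_lit 40846225115940) (nat_lit 76) (nat_lit 40845799068083) (nat_lit 1) (nat_lit 4) (nat_lit 2) (nat_lit 5) (nat_lit 2) (nat_lit 4) (nat_lit 282) (nat_lit 178) (nat_lit 140))) (XT.nd (nat_lit 78) (nat_lit 0) (nat_lit 0) (XT.lf (nat_lit 0) (nat_lit 89681800232) (nat_lit 76) (nat_lit 78184884272) (nat_lit 76) (nat_lit 78184884272) (nat_lit 1) (nat_lit 4) (nat_lit 2) (nat_lit 5) (nat_lit 2) (nat_lit 4) (nat_lit 242) (nat_lit 179) (nat_lit 179)) (XT.lf (nat_lit 0) (nat_lit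 207815893739) (nat_lit 76) (nat_lit 179020585613) (nat_lit 76) (nat_lit 178956361346) (nat_lit 1) (nat_lit 4) (nat_lit 2) (nat_lit 5) (nat_lit 2) (nat_lit 4) (nat_lit 243) (nat_lit 179) (nat_lit 178)))))) (XT.nd (nat_lit 624) (nat_lit 0) (nat_lit 0) (XT.nd (nat_lit 312) (nat_lit 0) (nat_lit 0) (XT.nd (nat_lit 156) (nat_lit 0) (nat_lit 0) (XT.nd (nat_lit 78) (nat_lit 0) (nat_lit 0) (XT.lf (nat_lit 0) (nat_lit 240404502571) (nat_lit 76) (nat_lit 205131127976) (nat_lit 76) (nat_lit 205011056519) (nat_lit 1) (nat_lit 4) (nat_lit 2) (nat_lit 5) (nat_lit 2) (nat_lit 4) (nat_lit 244) (nat_lit 179) (nat_lit 177)) (XT.lf (nat_lit 0) (nat_lit 277767030176) (nat_lit 76) (nat_lit 235212254070) (nat_lit 76) (nat_lit 235043619840) (nat_lit 1) (nat_lit 4) (nat_lit 2) (nat_lit 5) (nat_lit 2) (nat_lit 4) (nat_lit 245) (nat_lit 179) (nat_lit 176))) (XT.nd (nat_lit 78) (nat_lit 0) (nat_lit 0) (XT.lf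 (nat_lit 0) (nat_lit 320634482529) (nat_lit 76) (nat_lit 269852507667) (nat_lit 76) (nat_lit 269641644939) (nat_lit 1) (nat_lit 4) (nat_lit 2) (nat_lit 5) (nat_lit 2) (nat_lit 4) (nat_lit 246) (nat_lit 179) (nat_lit 175)) (XT.lf (nat_lit 0) (nat_lit 369845570655) (nat_lit 76) (nat_lit 309729632859) (nat_lit 76) (nat_lit 309482049697) (nat_lit 1) (nat_lit 4) (nat_lit 2) (nat_lit 5) (nat_lit 2) (nat_lit 4) (nat_lit 247) (nat_lit 179) (nat_lit 174)))) (XT.nd (nat_lit 156) (nat_lit 0) (nat_lit 0) (XT.nd (nat_lit 78) (nat_lit 0) (nat_lit 0) (XT.lf (nat_lit 0) (nat_lit 426363120190) (nat_lit 76) (nat_lit 355623834269) (nat_lit 76) (nat_lit 355344320295) (nat_lit 1) (nat_lit 4) (nat_lit 2) (nat_lit 5) (nat_lit 2) (nat_lit 4) (nat_lit 248) (nat_lit 179) (nat_lit 173)) (XT.lf (nat_lit 0) (nat_lit 491292909277) (nat_lit 76) (nat_lit 408433041925) (nat_lit 76) (nat_lit 408125762028) (nat_lit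 1) (nat_lit 4) (nat_lit 2) (nat_lit 5) (nat_lit 2) (nat_lit 4) (nat_lit 249) (nat_lit 179) (nat_lit 172))) (XT.nd (nat_lit 78) (nat_lit 0) (nat_lit 0) (XT.lf (nat_lit 0) (nat_lit 565905303356) (nat_lit 76) (nat_lit 469190479454) (nat_lit 76) (nat_lit 468859055276) (nat_lit 1) (nat_lit 4) (nat_lit 2) (nat_lit 5) (nat_lit 2) (nat_lit 4) (nat_lit 250) (nat_lit 179) (nat_lit 171)) (XT.lf (nat_lit 0) (nat_lit 651660110137) (nat_lit 76) (nat_lit 539084879331) (nat_lit 76) (nat_lit 538732460126) (nat_lit 1) (nat_lit 4) (nat_lit 2) (nat_lit 5) (nat_lit 2) (nat_lit 4) (nat_lit 251) (nat_lit 179) (nat_lit 170))))) (XT.nd (nat_lit 312) (nat_lit 0) (nat_lit 0) (XT.nd (nat_lit 156) (nat_lit 0) (nat_lit 0) (XT.nd (nat_lit 78) (nat_lit 0) (nat_lit 0) (XT.lf (nat_lit 0) (nat_lit 750235141055) (nat_lit 76) (nat_lit 619483740683) (nat_lit 76) (nat_lit 619113064933) (nat_lit 1) (nat_lit 4) (nat_lit 2)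 (nat_lit 5) (nat_lit 2) (nat_lit 4) (nat_lit 252) (nat_lit 179) (nat_lit 169)) (XT.lf (nat_lit 0) (nat_lit 863559038022) (nat_lit 76) (nat_lit 711960084710) (nat_lit 76) (nat_lit 711573533704) (nat_lit 1) (nat_lit 4) (nat_lit 2) (nat_lit 5) (nat_lit 2) (nat_lit 4) (nat_lit 253) (nat_lit 179) (nat_lit 168))) (XT.nd (nat_lit 78) (nat_lit 0) (nat_lit 0) (XT.lf (nat_lit 0) (nat_lit 993849007716) (nat_lit 76) (nat_lit 818323231188) (nat_lit 76) (nat_lit 817922875610) (nat_lit 1) (nat_lit 4) (nat_lit 2) (nat_lit 5) (nat_lit 2) (nat_lit 4) (nat_lit 254) (nat_lit 179) (nat_lit 167)) (XT.lf (nat_lit 0) (nat_lit 1143654201719) (nat_lit 76) (nat_lit 940654198199) (nat_lit 76) (nat_lit 940241838646) (nat_lit 1) (nat_lit 4) (nat_lit 2) (nat_lit 5) (nat_lit 2) (nat_lit 4) (nat_lit 255) (nat_lit 179) (nat_lit 166)))) (XT.nd (nat_lit 156) (nat_lit 0) (nat_lit 0) (XT.nd (nat_lit 78) (nat_lit 0) (nat_lit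 0) (XT.lf (nat_lit 0) (nat_lit 1315905591217) (nat_lit 76) (nat_lit 1081346417706) (nat_lit 76) (nat_lit 1080923619915) (nat_lit 1) (nat_lit 4) (nat_lit 2) (nat_lit 5) (nat_lit 2) (nat_lit 4) (nat_lit 256) (nat_lit 179) (nat_lit 165)) (XT.lf (nat_lit 0) (nat_lit 1513973312093) (nat_lit 76) (nat_lit 1243152563570) (nat_lit 76) (nat_lit 1242720689049) (nat_lit 1) (nat_lit 4) (nat_lit 2) (nat_lit 5) (nat_lit 2) (nat_lit 4) (nat_lit 257) (nat_lit 179) (nat_lit 164))) (XT.nd (nat_lit 78) (nat_lit 0) (nat_lit 0) (XT.lf (nat_lit 0) (nat_lit 1741732602362) (nat_lit 76) (nat_lit 1429238408209) (nat_lit 76) (nat_lit 1428798640880) (nat_lit 1) (nat_lit 4) (nat_lit 2) (nat_lit 5) (nat_lit 2) (nat_lit 4) (nat_lit 258) (nat_lit 179) (nat_lit 163)) (XT.lf (nat_lit 0) (nat_lit 2003639622053) (nat_lit 76) (nat_lit 1643244761628) (nat_lit 76) (nat_lit 1642798130987) (nat_lit 1) (nat_lit 4) (nat_lit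 2) (nat_lit 5) (nat_lit 2) (nat_lit 4) (nat_lit 259) (nat_lit 179) (nat_lit 162))))))))
noncomputable def xc6 : XT := (XT.nd (nat_lit 30576) (nat_lit 0) (nat_lit 0) (XT.nd (nat_lit 1404) (nat_lit 0) (nat_lit 0) (XT.nd (nat_lit 546) (nat_lit 0) (nat_lit 0) (XT.nd (nat_lit 234) (nat_lit 0) (nat_lit 0) (XT.nd (nat_lit 78) (nat_lit 0) (nat_lit 0) (XT.lf (nat_lit 0) (nat_lit 2304818638941) (nat_lit 76) (nat_lit 1889358704654) (nat_lit 76) (nat_lit 1888906105916) (nat_lit 1) (nat_lit 4) (nat_lit 2) (nat_lit 5) (nat_lit 2) (nat_lit 4) (nat_lit 260) (nat_lit 179) (nat_lit 161)) (XT.nd (nat_lit 78) (nat_lit 0) (nat_lit 0) (XT.lf (nat_lit 0) (nat_lit 2651162285967) (nat_lit 76) (nat_lit 2172395510085) (nat_lit 76) (nat_lit 2171937721698) (nat_lit 1) (nat_lit 4) (nat_lit 2) (nat_lit 5) (nat_lit 2) (nat_lit 4) (nat_lit 261) (nat_lit 179) (nat_lit 160)) (XT.lf (nat_lit 0) (nat_lit 3049446851875)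 (nat_lit 76) (nat_lit 2497892854550) (nat_lit 76) (nat_lit 2497430553424) (nat_lit 1) (nat_lit 4) (nat_lit 2) (nat_lit 5) (nat_lit 2) (nat_lit 4) (nat_lit 262) (nat_lit 179) (nat_lit 159)))) (XT.nd (nat_lit 156) (nat_lit 0) (nat_lit 0) (XT.nd (nat_lit 78) (nat_lit 0) (nat_lit 0) (XT.lf (nat_lit 0) (nat_lit 3507464860782) (nat_lit 76) (nat_lit 2872219164353) (nat_lit 76) (nat_lit 2871752939106) (nat_lit 1) (nat_lit 4) (nat_lit 2) (nat_lit 5) (nat_lit 2) (nat_lit 4) (nat_lit 263) (nat_lit 179) (nat_lit 158)) (XT.lf (nat_lit 0) (nat_lit 4034177534601) (nat_lit 76) (nat_lit 3302698215121) (nat_lit 76) (nat_lit 3302228577595) (nat_lit 1) (nat_lit 4) (nat_lit 2) (nat_lit 5) (nat_lit 2) (nat_lit 4) (nat_lit 264) (nat_lit 179) (nat_lit 157))) (XT.nd (nat_lit 78) (nat_lit 0) (nat_lit 0) (XT.lf (nat_lit 0) (nat_lit 4639890121298) (nat_lit 76) (nat_lit 3797752423064) (nat_lit 76) (nat_lit 3797279818339)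 (nat_lit 1) (nat_lit 4) (nat_lit 2) (nat_lit 5) (nat_lit 2) (nat_lit 4) (nat_lit 265) (nat_lit 179) (nat_lit 156)) (XT.lf (nat_lit 0) (nat_lit 5336453519308) (nat_lit 76) (nat_lit 4367067631382) (nat_lit 76) (nat_lit 4366592446484) (nat_lit 1) (nat_lit 4) (nat_lit 2) (nat_lit 5) (nat_lit 2) (nat_lit 4) (nat_lit 266) (nat_lit 179) (nat_lit 155))))) (XT.nd (nat_lit 312) (nat_lit 0) (nat_lit 0) (XT.nd (nat_lit 156) (nat_lit 0) (nat_lit 0) (XT.nd (nat_lit 78) (nat_lit 0) (nat_lit 0) (XT.lf (nat_lit 0) (nat_lit 6137496142941) (nat_lit 76) (nat_lit 5021782615889) (nat_lit 76) (nat_lit 5021305187362) (nat_lit 1) (nat_lit 4) (nat_lit 2) (nat_lit 5) (nat_lit 2) (nat_lit 4) (nat_lit 267) (nat_lit 179) (nat_lit 154)) (XT.lf (nat_lit 0) (nat_lit 7058690565267) (nat_lit 76) (nat_lit 5774707017586) (nat_lit 76) (nat_lit 5774227638078) (nat_lit 1) (nat_lit 4) (nat_lit 2) (nat_lit 5) (nat_lit 2) (nat_lit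 4) (nat_lit 268) (nat_lit 179) (nat_lit 153))) (XT.nd (nat_lit 78) (nat_lit 0) (nat_lit 0) (XT.lf (nat_lit 0) (nat_lit 8118060155418) (nat_lit 76) (nat_lit 6640571966072) (nat_lit 76) (nat_lit 6640090890058) (nat_lit 1) (nat_lit 4) (nat_lit 2) (nat_lit 5) (nat_lit 2) (nat_lit 4) (nat_lit 269) (nat_lit 179) (nat_lit 152)) (XT.lf (nat_lit 0) (nat_lit 9336331709725) (nat_lit 76) (nat_lit 7636318297296) (nat_lit 76) (nat_lit 7635835746060) (nat_lit 1) (nat_lit 4) (nat_lit 2) (nat_lit 5) (nat_lit 2) (nat_lit 4) (nat_lit 270) (nat_lit 179) (nat_lit 151)))) (XT.nd (nat_lit 390) (nat_lit 0) (nat_lit 0) (XT.nd (nat_lit 78) (nat_lit 0) (nat_lit 0) (XT.lf (nat_lit 0) (nat_lit 10737340975988) (nat_lit 76) (nat_lit 8781428004694) (nat_lit 76) (nat_lit 8780944170656) (nat_lit 1) (nat_lit 4) (nat_lit 2) (nat_lit 5) (nat_lit 2) (nat_lit 4) (nat_lit 271) (nat_lit 179) (nat_lit 150)) (XT.lf (nat_lit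 0) (nat_lit 12348499005070) (nat_lit 76) (nat_lit 10098305408629) (nat_lit 76) (nat_lit 10097820459111) (nat_lit 1) (nat_lit 4) (nat_lit 2) (nat_lit 5) (nat_lit 2) (nat_lit 4) (nat_lit 272) (nat_lit 179) (nat_lit 149))) (XT.nd (nat_lit 78) (nat_lit 0) (nat_lit 0) (XT.lf (nat_lit 0) (nat_lit 21600359140946) (nat_lit 76) (nat_lit 17660328627308) (nat_lit 76) (nat_lit 17659840493119) (nat_lit 1) (nat_lit 4) (nat_lit 2) (nat_lit 5) (nat_lit 2) (nat_lit 4) (nat_lit 276) (nat_lit 179) (nat_lit 145)) (XT.lf (nat_lit 0) (nat_lit 24840961088253) (nat_lit 76) (nat_lit 20309045282739) (nat_lit 76) (nat_lit 20308556593959) (nat_lit 1) (nat_lit 4) (nat_lit 2) (nat_lit 5) (nat_lit 2) (nat_lit 4) (nat_lit 277) (nat_lit 179) (nat_lit 144)))))) (XT.nd (nat_lit 28548) (nat_lit 0) (nat_lit 0) (XT.nd (nat_lit 312) (nat_lit 0) (nat_lit 0) (XT.nd (nat_lit 156) (nat_lit 0) (nat_lit 0) (XT.nd (nat_lit 78)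 (nat_lit 0) (nat_lit 0) (XT.lf (nat_lit 0) (nat_lit 28567652191879) (nat_lit 76) (nat_lit 23355069972755) (nat_lit 76) (nat_lit 23354580801722) (nat_lit 1) (nat_lit 4) (nat_lit 2) (nat_lit 5) (nat_lit 2) (nat_lit 4) (nat_lit 278) (nat_lit 179) (nat_lit 143)) (XT.lf (nat_lit 0) (nat_lit 32853345973417) (nat_lit 76) (nat_lit 26857998832595) (nat_lit 76) (nat_lit 26857509242212) (nat_lit 1) (nat_lit 4) (nat_lit 2) (nat_lit 5) (nat_lit 2) (nat_lit 4) (nat_lit 279) (nat_lit 179) (nat_lit 142))) (XT.nd (nat_lit 78) (nat_lit 0) (nat_lit 0) (XT.lf (nat_lit 0) (nat_lit 37781892963375) (nat_lit 76) (nat_lit 30886367426910) (nat_lit 76) (nat_lit 30885877471875) (nat_lit 1) (nat_lit 4) (nat_lit 2) (nat_lit 5) (nat_lit 2) (nat_lit 4) (nat_lit 280) (nat_lit 179) (nat_lit 141)) (XT.lf (nat_lit 0) (nat_lit 43449721255035) (nat_lit 76) (nat_lit 35518991662979) (nat_lit 76) (nat_lit 35518501390854)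 (nat_lit 1) (nat_lit 4) (nat_lit 2) (nat_lit 5) (nat_lit 2) (nat_lit 4) (nat_lit 281) (nat_lit 179) (nat_lit 140)))) (XT.nd (nat_lit 28080) (nat_lit 0) (nat_lit 0) (XT.nd (nat_lit 28002) (nat_lit 0) (nat_lit 0) (XT.lf (nat_lit 0) (nat_lit 49967723141060) (nat_lit 76) (nat_lit 40846509841072) (nat_lit 76) (nat_lit 40846019293218) (nat_lit 1) (nat_lit 4) (nat_lit 2) (nat_lit 5) (nat_lit 2) (nat_lit 4) (nat_lit 282) (nat_lit 179) (nat_lit 139)) (XT.lf (nat_lit 0) (nat_lit 66396100546) (nat_lit 76) (nat_lit 59884657374) (nat_lit 76) (nat_lit 59884657374) (nat_lit 1) (nat_lit 4) (nat_lit 2) (nat_lit 5) (nat_lit 2) (nat_lit 4) (nat_lit 240) (nat_lit 180) (nat_lit 180))) (XT.nd (nat_lit 78) (nat_lit 0) (nat_lit 0) (XT.lf (nat_lit 0) (nat_lit 154490947442) (nat_lit 76) (nat_lit 136809366516) (nat_lit 76) (nat_lit 136735508609) (nat_lit 1) (nat_lit 4) (nat_lit 2) (nat_lit 5) (nat_lit 2) (nat_lit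 4) (nat_lit 241) (nat_lit 180) (nat_lit 179)) (XT.lf (nat_lit 0) (nat_lit 179293248045) (nat_lit 76) (nat_lit 156476844193) (nat_lit 76) (nat_lit 156338762018) (nat_lit 1) (nat_lit 4) (nat_lit 2) (nat_lit 5) (nat_lit 2) (nat_lit 4) (nat_lit 242) (nat_lit 180) (nat_lit 178))))) (XT.nd (nat_lit 312) (nat_lit 0) (nat_lit 0) (XT.nd (nat_lit 156) (nat_lit 0) (nat_lit 0) (XT.nd (nat_lit 78) (nat_lit 0) (nat_lit 0) (XT.lf (nat_lit 0) (nat_lit 207684365305) (nat_lit 76) (nat_lit 179156546254) (nat_lit 76) (nat_lit 178962616890) (nat_lit 1) (nat_lit 4) (nat_lit 2) (nat_lit 5) (nat_lit 2) (nat_lit 4) (nat_lit 243) (nat_lit 180) (nat_lit 177)) (XT.lf (nat_lit 0) (nat_lit 240219777601) (nat_lit 76) (nat_lit 205292206002) (nat_lit 76) (nat_lit 205049713864) (nat_lit 1) (nat_lit 4) (nat_lit 2) (nat_lit 5) (nat_lit 2) (nat_lit 4) (nat_lit 244) (nat_lit 180) (nat_lit 176))) (XT.nd (nat_lit 78) (nat_lit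 0) (nat_lit 0) (XT.lf (nat_lit 0) (nat_lit 277536047349) (nat_lit 76) (nat_lit 235395173300) (nat_lit 76) (nat_lit 235110452664) (nat_lit 1) (nat_lit 4) (nat_lit 2) (nat_lit 5) (nat_lit 2) (nat_lit 4) (nat_lit 245) (nat_lit 180) (nat_lit 175)) (XT.lf (nat_lit 0) (nat_lit 320363275479) (nat_lit 76) (nat_lit 270054419248) (nat_lit 76) (nat_lit 269732978179) (nat_lit 1) (nat_lit 4) (nat_lit 2) (nat_lit 5) (nat_lit 2) (nat_lit 4) (nat_lit 246) (nat_lit 180) (nat_lit 174)))) (XT.nd (nat_lit 156) (nat_lit 0) (nat_lit 0) (XT.nd (nat_lit 78) (nat_lit 0) (nat_lit 0) (XT.lf (nat_lit 0) (nat_lit 369539386018) (nat_lit 76) (nat_lit 309948059528) (nat_lit 76) (nat_lit 309594687647) (nat_lit 1) (nat_lit 4) (nat_lit 2) (nat_lit 5) (nat_lit 2) (nat_lit 4) (nat_lit 247) (nat_lit 180) (nat_lit 173)) (XT.lf (nat_lit 0) (nat_lit 426026520261) (nat_lit 76) (nat_lit 355856621884) (nat_lit 76) (nat_lit 355475484080)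 (nat_lit 1) (nat_lit 4) (nat_lit 2) (nat_lit 5) (nat_lit 2) (nat_lit 4) (nat_lit 248) (nat_lit 180) (nat_lit 172))) (XT.nd (nat_lit 78) (nat_lit 0) (nat_lit 0) (XT.lf (nat_lit 0) (nat_lit 490929861269) (nat_lit 76) (nat_lit 408678317319) (nat_lit 76) (nat_lit 408273035234) (nat_lit 1) (nat_lit 4) (nat_lit 2) (nat_lit 5) (nat_lit 2) (nat_lit 4) (nat_lit 249) (nat_lit 180) (nat_lit 171)) (XT.lf (nat_lit 0) (nat_lit 565519257017) (nat_lit 76) (nat_lit 469446613787) (nat_lit 76) (nat_lit 469020336675) (nat_lit 1) (nat_lit 4) (nat_lit 2) (nat_lit 5) (nat_lit 2) (nat_lit 4) (nat_lit 250) (nat_lit 180) (nat_lit 170))))))) (XT.nd (nat_lit 1170) (nat_lit 0) (nat_lit 0) (XT.nd (nat_lit 546) (nat_lit 0) (nat_lit 0) (XT.nd (nat_lit 234) (nat_lit 0) (nat_lit 0) (XT.nd (nat_lit 78) (nat_lit 0) (nat_lit 0) (XT.lf (nat_lit 0) (nat_lit 651254065250) (nat_lit 76) (nat_lit 539350456219) (nat_lit 76)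 (nat_lit 538905922561) (nat_lit 1) (nat_lit 4) (nat_lit 2) (nat_lit 5) (nat_lit 2) (nat_lit 4) (nat_lit 251) (nat_lit 180) (nat_lit 169)) (XT.nd (nat_lit 78) (nat_lit 0) (nat_lit 0) (XT.lf (nat_lit 0) (nat_lit 749811706127) (nat_lit 76) (nat_lit 619757528489) (nat_lit 76) (nat_lit 619297119574) (nat_lit 1) (nat_lit 4) (nat_lit 2) (nat_lit 5) (nat_lit 2) (nat_lit 4) (nat_lit 252) (nat_lit 180) (nat_lit 168)) (XT.lf (nat_lit 0) (nat_lit 863120481318) (nat_lit 76) (nat_lit 712241012445) (nat_lit 76) (nat_lit 711766798959) (nat_lit 1) (nat_lit 4) (nat_lit 2) (nat_lit 5) (nat_lit 2) (nat_lit 4) (nat_lit 253) (nat_lit 180) (nat_lit 167)))) (XT.nd (nat_lit 156) (nat_lit 0) (nat_lit 0) (XT.nd (nat_lit 78) (nat_lit 0) (nat_lit 0) (XT.lf (nat_lit 0) (nat_lit 993397301642) (nat_lit 76) (nat_lit 818610367555) (nat_lit 76) (nat_lit 818124150095) (nat_lit 1) (nat_lit 4) (nat_lit 2) (nat_lit 5) (nat_lit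 2) (nat_lit 4) (nat_lit 254) (nat_lit 180) (nat_lit 166)) (XT.lf (nat_lit 0) (nat_lit 1143191061410) (nat_lit 76) (nat_lit 940946733378) (nat_lit 76) (nat_lit 940450077679) (nat_lit 1) (nat_lit 4) (nat_lit 2) (nat_lit 5) (nat_lit 2) (nat_lit 4) (nat_lit 255) (nat_lit 180) (nat_lit 165))) (XT.nd (nat_lit 78) (nat_lit 0) (nat_lit 0) (XT.lf (nat_lit 0) (nat_lit 1315432508095) (nat_lit 76) (nat_lit 1081643647504) (nat_lit 76) (nat_lit 1081137915075) (nat_lit 1) (nat_lit 4) (nat_lit 2) (nat_lit 5) (nat_lit 2) (nat_lit 4) (nat_lit 256) (nat_lit 180) (nat_lit 164)) (XT.lf (nat_lit 0) (nat_lit 1513491583046) (nat_lit 76) (nat_lit 1243453875645) (nat_lit 76) (nat_lit 1242940250408) (nat_lit 1) (nat_lit 4) (nat_lit 2) (nat_lit 5) (nat_lit 2) (nat_lit 4) (nat_lit 257) (nat_lit 180) (nat_lit 163))))) (XT.nd (nat_lit 312) (nat_lit 0) (nat_lit 0) (XT.nd (nat_lit 156) (nat_lit 0) (nat_lit 0) (XT.nd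 (nat_lit 78) (nat_lit 0) (nat_lit 0) (XT.lf (nat_lit 0) (nat_lit 1741243355121) (nat_lit 76) (nat_lit 1429543270091) (nat_lit 76) (nat_lit 1429022781542) (nat_lit 1) (nat_lit 4) (nat_lit 2) (nat_lit 5) (nat_lit 2) (nat_lit 4) (nat_lit 258) (nat_lit 180) (nat_lit 162)) (XT.lf (nat_lit 0) (nat_lit 2003143837251) (nat_lit 76) (nat_lit 1643552710298) (nat_lit 76) (nat_lit 1643026253652) (nat_lit 1) (nat_lit 4) (nat_lit 2) (nat_lit 5) (nat_lit 2) (nat_lit 4) (nat_lit 259) (nat_lit 180) (nat_lit 161))) (XT.nd (nat_lit 78) (nat_lit 0) (nat_lit 0) (XT.lf (nat_lit 0) (nat_lit 2304317169303) (nat_lit 76) (nat_lit 1889669337487) (nat_lit 76) (nat_lit 1889137691192) (nat_lit 1) (nat_lit 4) (nat_lit 2) (nat_lit 5) (nat_lit 2) (nat_lit 4) (nat_lit 260) (nat_lit 180) (nat_lit 160)) (XT.lf (nat_lit 0) (nat_lit 2650655872994) (nat_lit 76) (nat_lit 2172708476973) (nat_lit 76) (nat_lit 2172172317939)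 (nat_lit 1) (nat_lit 4) (nat_lit 2) (nat_lit 5) (nat_lit 2) (nat_lit 4) (nat_lit 261) (nat_lit 180) (nat_lit 159)))) (XT.nd (nat_lit 156) (nat_lit 0) (nat_lit 0) (XT.nd (nat_lit 78) (nat_lit 0) (nat_lit 0) (XT.lf (nat_lit 0) (nat_lit 3048936140349) (nat_lit 76) (nat_lit 2498207851052) (nat_lit 76) (nat_lit 2497667767897) (nat_lit 1) (nat_lit 4) (nat_lit 2) (nat_lit 5) (nat_lit 2) (nat_lit 4) (nat_lit 262) (nat_lit 180) (nat_lit 158)) (XT.lf (nat_lit 0) (nat_lit 3506950411385) (nat_lit 76) (nat_lit 2872535925736) (nat_lit 76) (nat_lit 2871992430302) (nat_lit 1) (nat_lit 4) (nat_lit 2) (nat_lit 5) (nat_lit 2) (nat_lit 4) (nat_lit 263) (nat_lit 180) (nat_lit 157))) (XT.nd (nat_lit 78) (nat_lit 0) (nat_lit 0) (XT.lf (nat_lit 0) (nat_lit 4033659834880) (nat_lit 76) (nat_lit 3303016511183) (nat_lit 76) (nat_lit 3302470048550) (nat_lit 1) (nat_lit 4) (nat_lit 2) (nat_lit 5) (nat_lit 2) (nat_lit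 4) (nat_lit 264) (nat_lit 180) (nat_lit 156)) (XT.lf (nat_lit 0) (nat_lit 4639369595209) (nat_lit 76) (nat_lit 3798072053629) (nat_lit 76) (nat_lit 3797523010824) (nat_lit 1) (nat_lit 4) (nat_lit 2) (nat_lit 5) (nat_lit 2) (nat_lit 4) (nat_lit 265) (nat_lit 180) (nat_lit 155)))))) (XT.nd (nat_lit 858) (nat_lit 0) (nat_lit 0) (XT.nd (nat_lit 312) (nat_lit 0) (nat_lit 0) (XT.nd (nat_lit 156) (nat_lit 0) (nat_lit 0) (XT.nd (nat_lit 78) (nat_lit 0) (nat_lit 0) (XT.lf (nat_lit 0) (nat_lit 5335930535508) (nat_lit 76) (nat_lit 4367388422385) (nat_lit 76) (nat_lit 4366837135951) (nat_lit 1) (nat_lit 4) (nat_lit 2) (nat_lit 5) (nat_lit 2) (nat_lit 4) (nat_lit 266) (nat_lit 180) (nat_lit 154)) (XT.lf (nat_lit 0) (nat_lit 6136971022001) (nat_lit 76) (nat_lit 5022104415968) (nat_lit 76) (nat_lit 5021551178552) (nat_lit 1) (nat_lit 4) (nat_lit 2) (nat_lit 5) (nat_lit 2) (nat_lit 4) (nat_lit 267)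 (nat_lit 180) (nat_lit 153))) (XT.nd (nat_lit 78) (nat_lit 0) (nat_lit 0) (XT.lf (nat_lit 0) (nat_lit 7058163585944) (nat_lit 76) (nat_lit 5775029695123) (nat_lit 76) (nat_lit 5774474761202) (nat_lit 1) (nat_lit 4) (nat_lit 2) (nat_lit 5) (nat_lit 2) (nat_lit 4) (nat_lit 268) (nat_lit 180) (nat_lit 152)) (XT.lf (nat_lit 0) (nat_lit 8117531560111) (nat_lit 76) (nat_lit 6640895406616) (nat_lit 76) (nat_lit 6640338997473) (nat_lit 1) (nat_lit 4) (nat_lit 2) (nat_lit 5) (nat_lit 2) (nat_lit 4) (nat_lit 269) (nat_lit 180) (nat_lit 151)))) (XT.nd (nat_lit 156) (nat_lit 0) (nat_lit 0) (XT.nd (nat_lit 78) (nat_lit 0) (nat_lit 0) (XT.lf (nat_lit 0) (nat_lit 9335801709213) (nat_lit 76) (nat_lit 7636642401324) (nat_lit 76) (nat_lit 7636084709378) (nat_lit 1) (nat_lit 4) (nat_lit 2) (nat_lit 5) (nat_lit 2) (nat_lit 4) (nat_lit 270) (nat_lit 180) (nat_lit 150)) (XT.lf (nat_lit 0) (nat_lit 10736809753560)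 (nat_lit 76) (nat_lit 8781752685665) (nat_lit 76) (nat_lit 8781193878240) (nat_lit 1) (nat_lit 4) (nat_lit 2) (nat_lit 5) (nat_lit 2) (nat_lit 4) (nat_lit 271) (nat_lit 180) (nat_lit 149))) (XT.nd (nat_lit 312) (nat_lit 0) (nat_lit 0) (XT.lf (nat_lit 0) (nat_lit 12347966720105) (nat_lit 76) (nat_lit 10098630591290) (nat_lit 76) (nat_lit 10098070813881) (nat_lit 1) (nat_lit 4) (nat_lit 2) (nat_lit 5) (nat_lit 2) (nat_lit 4) (nat_lit 272) (nat_lit 180) (nat_lit 148)) (XT.lf (nat_lit 0) (nat_lit 21599823822462) (nat_lit 76) (nat_lit 17660655242281) (nat_lit 76) (nat_lit 17660092695593) (nat_lit 1) (nat_lit 4) (nat_lit 2) (nat_lit 5) (nat_lit 2) (nat_lit 4) (nat_lit 276) (nat_lit 180) (nat_lit 144))))) (XT.nd (nat_lit 312) (nat_lit 0) (nat_lit 0) (XT.nd (nat_lit 156) (nat_lit 0) (nat_lit 0) (XT.nd (nat_lit 78) (nat_lit 0) (nat_lit 0) (XT.lf (nat_lit 0) (nat_lit 24840425241501) (nat_lit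 76) (nat_lit 20309372147140) (nat_lit 76) (nat_lit 20308809118199) (nat_lit 1) (nat_lit 4) (nat_lit 2) (nat_lit 5) (nat_lit 2) (nat_lit 4) (nat_lit 277) (nat_lit 180) (nat_lit 143)) (XT.lf (nat_lit 0) (nat_lit 28567115885763) (nat_lit 76) (nat_lit 23355397054050) (nat_lit 76) (nat_lit 23354833605759) (nat_lit 1) (nat_lit 4) (nat_lit 2) (nat_lit 5) (nat_lit 2) (nat_lit 4) (nat_lit 278) (nat_lit 180) (nat_lit 142))) (XT.nd (nat_lit 78) (nat_lit 0) (nat_lit 0) (XT.lf (nat_lit 0) (nat_lit 32852809267855) (nat_lit 76) (nat_lit 26858326102494) (nat_lit 76) (nat_lit 26857762289551) (nat_lit 1) (nat_lit 4) (nat_lit 2) (nat_lit 5) (nat_lit 2) (nat_lit 4) (nat_lit 279) (nat_lit 180) (nat_lit 141)) (XT.lf (nat_lit 0) (nat_lit 37781355910468) (nat_lit 76) (nat_lit 30886694860812) (nat_lit 76) (nat_lit 30886130730780) (nat_lit 1) (nat_lit 4) (nat_lit 2) (nat_lit 5) (nat_lit 2) (nat_lit 4) (nat_lit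 280) (nat_lit 180) (nat_lit 140)))) (XT.nd (nat_lit 28002) (nat_lit 0) (nat_lit 0) (XT.nd (nat_lit 27924) (nat_lit 0) (nat_lit 0) (XT.lf (nat_lit 0) (nat_lit 43449183900088) (nat_lit 76) (nat_lit 35519319239492) (nat_lit 76) (nat_lit 35518754833730) (nat_lit 1) (nat_lit 4) (nat_lit 2) (nat_lit 5) (nat_lit 2) (nat_lit 4) (nat_lit 281) (nat_lit 180) (nat_lit 139)) (XT.lf (nat_lit 0) (nat_lit 48576332474) (nat_lit 76) (nat_lit 46161904533) (nat_lit 76) (nat_lit 46161904533) (nat_lit 1) (nat_lit 4) (nat_lit 2) (nat_lit 5) (nat_lit 2) (nat_lit 4) (nat_lit 238) (nat_lit 181) (nat_lit 181))) (XT.nd (nat_lit 78) (nat_lit 0) (nat_lit 0) (XT.lf (nat_lit 0) (nat_lit 113772468305) (nat_lit 76) (nat_lit 105108233166) (nat_lit 76) (nat_lit 105023296572) (nat_lit 1) (nat_lit 4) (nat_lit 2) (nat_lit 5) (nat_lit 2) (nat_lit 4) (nat_lit 239) (nat_lit 181) (nat_lit 180)) (XT.lf (nat_lit 0) (nat_lit 132711295811)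 (nat_lit 76) (nat_lit 119892451745) (nat_lit 76) (nat_lit 119733657243) (nat_lit 1) (nat_lit 4) (nat_lit 2) (nat_lit 5) (nat_lit 2) (nat_lit 4) (nat_lit 240) (nat_lit 181) (nat_lit 179))))))))
noncomputable def xc7 : XT := (XT.nd (nat_lit 2418) (nat_lit 0) (nat_lit 0) (XT.nd (nat_lit 1170) (nat_lit 0) (nat_lit 0) (XT.nd (nat_lit 546) (nat_lit 0) (nat_lit 0) (XT.nd (nat_lit 234) (nat_lit 0) (nat_lit 0) (XT.nd (nat_lit 78) (nat_lit 0) (nat_lit 0) (XT.lf (nat_lit 0) (nat_lit 154339689743) (nat_lit 76) (nat_lit 136965721254) (nat_lit 76) (nat_lit 136742702484) (nat_lit 1) (nat_lit 4) (nat_lit 2) (nat_lit 5) (nat_lit 2) (nat_lit 4) (nat_lit 241) (nat_lit 181) (nat_lit 178)) (XT.nd (nat_lit 78) (nat_lit 0) (nat_lit 0) (XT.lf (nat_lit 0) (nat_lit 179080814330) (nat_lit 76) (nat_lit 156662083922) (nat_lit 76) (nat_lit 156383217964) (nat_lit 1) (nat_lit 4) (nat_lit 2) (nat_lit 5) (nat_lit 2)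 (nat_lit 4) (nat_lit 242) (nat_lit 181) (nat_lit 177)) (XT.lf (nat_lit 0) (nat_lit 207418735053) (nat_lit 76) (nat_lit 179366903368) (nat_lit 76) (nat_lit 179039474637) (nat_lit 1) (nat_lit 4) (nat_lit 2) (nat_lit 5) (nat_lit 2) (nat_lit 4) (nat_lit 243) (nat_lit 181) (nat_lit 176)))) (XT.nd (nat_lit 156) (nat_lit 0) (nat_lit 0) (XT.nd (nat_lit 78) (nat_lit 0) (nat_lit 0) (XT.lf (nat_lit 0) (nat_lit 239907889493) (nat_lit 76) (nat_lit 205524404320) (nat_lit 76) (nat_lit 205154747090) (nat_lit 1) (nat_lit 4) (nat_lit 2) (nat_lit 5) (nat_lit 2) (nat_lit 4) (nat_lit 244) (nat_lit 181) (nat_lit 175)) (XT.lf (nat_lit 0) (nat_lit 277183935017) (nat_lit 76) (nat_lit 235646363970) (nat_lit 76) (nat_lit 235239986306) (nat_lit 1) (nat_lit 4) (nat_lit 2) (nat_lit 5) (nat_lit 2) (nat_lit 4) (nat_lit 245) (nat_lit 181) (nat_lit 174))) (XT.nd (nat_lit 78) (nat_lit 0) (nat_lit 0) (XT.lf (nat_lit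 0) (nat_lit 319976185561) (nat_lit 76) (nat_lit 270322125006) (nat_lit 76) (nat_lit 269883816531) (nat_lit 1) (nat_lit 4) (nat_lit 2) (nat_lit 5) (nat_lit 2) (nat_lit 4) (nat_lit 246) (nat_lit 181) (nat_lit 173)) (XT.lf (nat_lit 0) (nat_lit 369121880809) (nat_lit 76) (nat_lit 310230126232) (nat_lit 76) (nat_lit 309764051834) (nat_lit 1) (nat_lit 4) (nat_lit 2) (nat_lit 5) (nat_lit 2) (nat_lit 4) (nat_lit 247) (nat_lit 181) (nat_lit 172))))) (XT.nd (nat_lit 312) (nat_lit 0) (nat_lit 0) (XT.nd (nat_lit 156) (nat_lit 0) (nat_lit 0) (XT.nd (nat_lit 78) (nat_lit 0) (nat_lit 0) (XT.lf (nat_lit 0) (nat_lit 425582566972) (nat_lit 76) (nat_lit 356151176367) (nat_lit 76) (nat_lit 355660957688) (nat_lit 1) (nat_lit 4) (nat_lit 2) (nat_lit 5) (nat_lit 2) (nat_lit 4) (nat_lit 248) (nat_lit 181) (nat_lit 171)) (XT.lf (nat_lit 0) (nat_lit 490462909649) (nat_lit 76) (nat_lit 408983730741) (nat_lit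 76) (nat_lit 408472517034) (nat_lit 1) (nat_lit 4) (nat_lit 2) (nat_lit 5) (nat_lit 2) (nat_lit 4) (nat_lit 249) (nat_lit 181) (nat_lit 170))) (XT.nd (nat_lit 78) (nat_lit 0) (nat_lit 0) (XT.lf (nat_lit 0) (nat_lit 565032306849) (nat_lit 76) (nat_lit 469761469764) (nat_lit 76) (nat_lit 469231999512) (nat_lit 1) (nat_lit 4) (nat_lit 2) (nat_lit 5) (nat_lit 2) (nat_lit 4) (nat_lit 250) (nat_lit 181) (nat_lit 169)) (XT.lf (nat_lit 0) (nat_lit 650749725040) (nat_lit 76) (nat_lit 539673523114) (nat_lit 76) (nat_lit 539128177605) (nat_lit 1) (nat_lit 4) (nat_lit 2) (nat_lit 5) (nat_lit 2) (nat_lit 4) (nat_lit 251) (nat_lit 181) (nat_lit 168)))) (XT.nd (nat_lit 156) (nat_lit 0) (nat_lit 0) (XT.nd (nat_lit 78) (nat_lit 0) (nat_lit 0) (XT.lf (nat_lit 0) (nat_lit 749292244141) (nat_lit 76) (nat_lit 620087735311) (nat_lit 76) (nat_lit 619528585232) (nat_lit 1) (nat_lit 4) (nat_lit 2) (nat_lit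 5) (nat_lit 2) (nat_lit 4) (nat_lit 252) (nat_lit 181) (nat_lit 167)) (XT.lf (nat_lit 0) (nat_lit 862587869962) (nat_lit 76) (nat_lit 712577427901) (nat_lit 76) (nat_lit 712006273846) (nat_lit 1) (nat_lit 4) (nat_lit 2) (nat_lit 5) (nat_lit 2) (nat_lit 4) (nat_lit 253) (nat_lit 181) (nat_lit 166))) (XT.nd (nat_lit 78) (nat_lit 0) (nat_lit 0) (XT.lf (nat_lit 0) (nat_lit 992853256051) (nat_lit 76) (nat_lit 818952181823) (nat_lit 76) (nat_lit 818370589530) (nat_lit 1) (nat_lit 4) (nat_lit 2) (nat_lit 5) (nat_lit 2) (nat_lit 4) (nat_lit 254) (nat_lit 181) (nat_lit 165)) (XT.lf (nat_lit 0) (nat_lit 1142637073006) (nat_lit 76) (nat_lit 941293242264) (nat_lit 76) (nat_lit 940702573241) (nat_lit 1) (nat_lit 4) (nat_lit 2) (nat_lit 5) (nat_lit 2) (nat_lit 4) (nat_lit 255) (nat_lit 181) (nat_lit 164)))))) (XT.nd (nat_lit 624) (nat_lit 0) (nat_lit 0) (XT.nd (nat_lit 312) (nat_lit 0) (nat_lit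 0) (XT.nd (nat_lit 156) (nat_lit 0) (nat_lit 0) (XT.nd (nat_lit 78) (nat_lit 0) (nat_lit 0) (XT.lf (nat_lit 0) (nat_lit 1314869873768) (nat_lit 76) (nat_lit 1081994238668) (nat_lit 76) (nat_lit 1081395676836) (nat_lit 1) (nat_lit 4) (nat_lit 2) (nat_lit 5) (nat_lit 2) (nat_lit 4) (nat_lit 256) (nat_lit 181) (nat_lit 163)) (XT.lf (nat_lit 0) (nat_lit 1512921430524) (nat_lit 76) (nat_lit 1243808016615) (nat_lit 76) (nat_lit 1243202591472) (nat_lit 1) (nat_lit 4) (nat_lit 2) (nat_lit 5) (nat_lit 2) (nat_lit 4) (nat_lit 257) (nat_lit 181) (nat_lit 162))) (XT.nd (nat_lit 78) (nat_lit 0) (nat_lit 0) (XT.lf (nat_lit 0) (nat_lit 1740666665037) (nat_lit 76) (nat_lit 1429900497849) (nat_lit 76) (nat_lit 1429289104609) (nat_lit 1) (nat_lit 4) (nat_lit 2) (nat_lit 5) (nat_lit 2) (nat_lit 4) (nat_lit 258) (nat_lit 181) (nat_lit 161)) (XT.lf (nat_lit 0) (nat_lit 2002561462332) (nat_lit 76) (nat_lit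 1643912622219) (nat_lit 76) (nat_lit 1643296039330) (nat_lit 1) (nat_lit 4) (nat_lit 2) (nat_lit 5) (nat_lit 2) (nat_lit 4) (nat_lit 259) (nat_lit 181) (nat_lit 160)))) (XT.nd (nat_lit 156) (nat_lit 0) (nat_lit 0) (XT.nd (nat_lit 78) (nat_lit 0) (nat_lit 0) (XT.lf (nat_lit 0) (nat_lit 2303729851049) (nat_lit 76) (nat_lit 1890031583463) (nat_lit 76) (nat_lit 1889410487836) (nat_lit 1) (nat_lit 4) (nat_lit 2) (nat_lit 5) (nat_lit 2) (nat_lit 4) (nat_lit 260) (nat_lit 181) (nat_lit 159)) (XT.lf (nat_lit 0) (nat_lit 2650064256187) (nat_lit 76) (nat_lit 2173072752563) (nat_lit 76) (nat_lit 2172447732815) (nat_lit 1) (nat_lit 4) (nat_lit 2) (nat_lit 5) (nat_lit 2) (nat_lit 4) (nat_lit 261) (nat_lit 181) (nat_lit 158))) (XT.nd (nat_lit 78) (nat_lit 0) (nat_lit 0) (XT.lf (nat_lit 0) (nat_lit 3048340785671) (nat_lit 76) (nat_lit 2498573891522) (nat_lit 76) (nat_lit 2497945459495) (nat_lit 1)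 (nat_lit 4) (nat_lit 2) (nat_lit 5) (nat_lit 2) (nat_lit 4) (nat_lit 262) (nat_lit 181) (nat_lit 157)) (XT.lf (nat_lit 0) (nat_lit 3506351806383) (nat_lit 76) (nat_lit 2872903500886) (nat_lit 76) (nat_lit 2872272101659) (nat_lit 1) (nat_lit 4) (nat_lit 2) (nat_lit 5) (nat_lit 2) (nat_lit 4) (nat_lit 263) (nat_lit 181) (nat_lit 156))))) (XT.nd (nat_lit 312) (nat_lit 0) (nat_lit 0) (XT.nd (nat_lit 156) (nat_lit 0) (nat_lit 0) (XT.nd (nat_lit 78) (nat_lit 0) (nat_lit 0) (XT.lf (nat_lit 0) (nat_lit 4033058403511) (nat_lit 76) (nat_lit 3303385420836) (nat_lit 76) (nat_lit 3302751441437) (nat_lit 1) (nat_lit 4) (nat_lit 2) (nat_lit 5) (nat_lit 2) (nat_lit 4) (nat_lit 264) (nat_lit 181) (nat_lit 155)) (XT.lf (nat_lit 0) (nat_lit 4638765706129) (nat_lit 76) (nat_lit 3798442123721) (nat_lit 76) (nat_lit 3797805900693) (nat_lit 1) (nat_lit 4) (nat_lit 2) (nat_lit 5) (nat_lit 2) (nat_lit 4) (nat_lit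 265) (nat_lit 181) (nat_lit 154))) (XT.nd (nat_lit 78) (nat_lit 0) (nat_lit 0) (XT.lf (nat_lit 0) (nat_lit 5335324509288) (nat_lit 76) (nat_lit 4367759501553) (nat_lit 76) (nat_lit 4367121327543) (nat_lit 1) (nat_lit 4) (nat_lit 2) (nat_lit 5) (nat_lit 2) (nat_lit 4) (nat_lit 266) (nat_lit 181) (nat_lit 153)) (XT.lf (nat_lit 0) (nat_lit 6136363137397) (nat_lit 76) (nat_lit 5022476372594) (nat_lit 76) (nat_lit 5021836502079) (nat_lit 1) (nat_lit 4) (nat_lit 2) (nat_lit 5) (nat_lit 2) (nat_lit 4) (nat_lit 267) (nat_lit 181) (nat_lit 152)))) (XT.nd (nat_lit 156) (nat_lit 0) (nat_lit 0) (XT.nd (nat_lit 78) (nat_lit 0) (nat_lit 0) (XT.lf (nat_lit 0) (nat_lit 7057554085355) (nat_lit 76) (nat_lit 5775402414756) (nat_lit 76) (nat_lit 5774761069019) (nat_lit 1) (nat_lit 4) (nat_lit 2) (nat_lit 5) (nat_lit 2) (nat_lit 4) (nat_lit 268) (nat_lit 181) (nat_lit 151)) (XT.lf (nat_lit 0) (nat_lit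 8116920654318) (nat_lit 76) (nat_lit 6641268789733) (nat_lit 76) (nat_lit 6640626161194) (nat_lit 1) (nat_lit 4) (nat_lit 2) (nat_lit 5) (nat_lit 2) (nat_lit 4) (nat_lit 269) (nat_lit 181) (nat_lit 150))) (XT.nd (nat_lit 78) (nat_lit 0) (nat_lit 0) (XT.lf (nat_lit 0) (nat_lit 9335189581503) (nat_lit 76) (nat_lit 7637016361384) (nat_lit 76) (nat_lit 7636372617364) (nat_lit 1) (nat_lit 4) (nat_lit 2) (nat_lit 5) (nat_lit 2) (nat_lit 4) (nat_lit 270) (nat_lit 181) (nat_lit 149)) (XT.lf (nat_lit 0) (nat_lit 10736196563313) (nat_lit 76) (nat_lit 8782127147414) (nat_lit 76) (nat_lit 8781482433412) (nat_lit 1) (nat_lit 4) (nat_lit 2) (nat_lit 5) (nat_lit 2) (nat_lit 4) (nat_lit 271) (nat_lit 181) (nat_lit 148))))))) (XT.nd (nat_lit 29250) (nat_lit 0) (nat_lit 0) (XT.nd (nat_lit 28626) (nat_lit 0) (nat_lit 0) (XT.nd (nat_lit 546) (nat_lit 0) (nat_lit 0) (XT.nd (nat_lit 390) (nat_lit 0) (nat_lit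 0) (XT.lf (nat_lit 0) (nat_lit 12347352605914) (nat_lit 76) (nat_lit 10099005489290) (nat_lit 76) (nat_lit 10098359931825) (nat_lit 1) (nat_lit 4) (nat_lit 2) (nat_lit 5) (nat_lit 2) (nat_lit 4) (nat_lit 272) (nat_lit 181) (nat_lit 147)) (XT.nd (nat_lit 78) (nat_lit 0) (nat_lit 0) (XT.lf (nat_lit 0) (nat_lit 24839808030104) (nat_lit 76) (nat_lit 20309748507524) (nat_lit 76) (nat_lit 20309100122639) (nat_lit 1) (nat_lit 4) (nat_lit 2) (nat_lit 5) (nat_lit 2) (nat_lit 4) (nat_lit 277) (nat_lit 181) (nat_lit 142)) (XT.lf (nat_lit 0) (nat_lit 28566498274920) (nat_lit 76) (nat_lit 23355773603038) (nat_lit 76) (nat_lit 23355124853500) (nat_lit 1) (nat_lit 4) (nat_lit 2) (nat_lit 5) (nat_lit 2) (nat_lit 4) (nat_lit 278) (nat_lit 181) (nat_lit 141)))) (XT.nd (nat_lit 27924) (nat_lit 0) (nat_lit 0) (XT.nd (nat_lit 546) (nat_lit 0) (nat_lit 0) (XT.lf (nat_lit 0) (nat_lit 32852191309666) (nat_lit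 76) (nat_lit 26858702815485) (nat_lit 76) (nat_lit 26858053748859) (nat_lit 1) (nat_lit 4) (nat_lit 2) (nat_lit 5) (nat_lit 2) (nat_lit 4) (nat_lit 279) (nat_lit 181) (nat_lit 140)) (XT.lf (nat_lit 0) (nat_lit 87395411374055) (nat_lit 76) (nat_lit 71439858531049) (nat_lit 76) (nat_lit 71439208145199) (nat_lit 1) (nat_lit 4) (nat_lit 2) (nat_lit 5) (nat_lit 2) (nat_lit 4) (nat_lit 286) (nat_lit 181) (nat_lit 133))) (XT.nd (nat_lit 78) (nat_lit 0) (nat_lit 0) (XT.lf (nat_lit 0) (nat_lit 34857728921) (nat_lit 76) (nat_lit 35917606888) (nat_lit 76) (nat_lit 35917606888) (nat_lit 1) (nat_lit 4) (nat_lit 2) (nat_lit 5) (nat_lit 2) (nat_lit 4) (nat_lit 236) (nat_lit 182) (nat_lit 182)) (XT.lf (nat_lit 0) (nat_lit 82526715675) (nat_lit 76) (nat_lit 81386726494) (nat_lit 76) (nat_lit 81289049411) (nat_lit 1) (nat_lit 4) (nat_lit 2) (nat_lit 5) (nat_lit 2) (nat_lit 4) (nat_lit 237) (nat_lit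 182) (nat_lit 181))))) (XT.nd (nat_lit 312) (nat_lit 0) (nat_lit 0) (XT.nd (nat_lit 156) (nat_lit 0) (nat_lit 0) (XT.nd (nat_lit 78) (nat_lit 0) (nat_lit 0) (XT.lf (nat_lit 0) (nat_lit 97059623875) (nat_lit 76) (nat_lit 92465416612) (nat_lit 76) (nat_lit 92282802936) (nat_lit 1) (nat_lit 4) (nat_lit 2) (nat_lit 5) (nat_lit 2) (nat_lit 4) (nat_lit 238) (nat_lit 182) (nat_lit 180)) (XT.lf (nat_lit 0) (nat_lit 113598521950) (nat_lit 76) (nat_lit 105288041114) (nat_lit 76) (nat_lit 105031569529) (nat_lit 1) (nat_lit 4) (nat_lit 2) (nat_lit 5) (nat_lit 2) (nat_lit 4) (nat_lit 239) (nat_lit 182) (nat_lit 179))) (XT.nd (nat_lit 78) (nat_lit 0) (nat_lit 0) (XT.lf (nat_lit 0) (nat_lit 132466997038) (nat_lit 76) (nat_lit 120105477434) (nat_lit 76) (nat_lit 119784781582) (nat_lit 1) (nat_lit 4) (nat_lit 2) (nat_lit 5) (nat_lit 2) (nat_lit 4) (nat_lit 240) (nat_lit 182) (nat_lit 178)) (XT.lf (nat_lit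 0) (nat_lit 154034214953) (nat_lit 76) (nat_lit 137207631935) (nat_lit 76) (nat_lit 136831088894) (nat_lit 1) (nat_lit 4) (nat_lit 2) (nat_lit 5) (nat_lit 2) (nat_lit 4) (nat_lit 241) (nat_lit 182) (nat_lit 177)))) (XT.nd (nat_lit 156) (nat_lit 0) (nat_lit 0) (XT.nd (nat_lit 78) (nat_lit 0) (nat_lit 0) (XT.lf (nat_lit 0) (nat_lit 178722143005) (nat_lit 76) (nat_lit 156929111988) (nat_lit 76) (nat_lit 156504006174) (nat_lit 1) (nat_lit 4) (nat_lit 2) (nat_lit 5) (nat_lit 2) (nat_lit 4) (nat_lit 242) (nat_lit 182) (nat_lit 176)) (XT.lf (nat_lit 0) (nat_lit 207013805871) (nat_lit 76) (nat_lit 179655772638) (nat_lit 76) (nat_lit 179188438325) (nat_lit 1) (nat_lit 4) (nat_lit 2) (nat_lit 5) (nat_lit 2) (nat_lit 4) (nat_lit 243) (nat_lit 182) (nat_lit 175))) (XT.nd (nat_lit 78) (nat_lit 0) (nat_lit 0) (XT.lf (nat_lit 0) (nat_lit 239462736087) (nat_lit 76) (nat_lit 205832265941) (nat_lit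 76) (nat_lit 205328211195) (nat_lit 1) (nat_lit 4) (nat_lit 2) (nat_lit 5) (nat_lit 2) (nat_lit 4) (nat_lit 244) (nat_lit 182) (nat_lit 174)) (XT.lf (nat_lit 0) (nat_lit 276703804026) (nat_lit 76) (nat_lit 235970740679) (nat_lit 76) (nat_lit 235434755121) (nat_lit 1) (nat_lit 4) (nat_lit 2) (nat_lit 5) (nat_lit 2) (nat_lit 4) (nat_lit 245) (nat_lit 182) (nat_lit 173)))))) (XT.nd (nat_lit 624) (nat_lit 0) (nat_lit 0) (XT.nd (nat_lit 312) (nat_lit 0) (nat_lit 0) (XT.nd (nat_lit 156) (nat_lit 0) (nat_lit 0) (XT.nd (nat_lit 78) (nat_lit 0) (nat_lit 0) (XT.lf (nat_lit 0) (nat_lit 319465639278) (nat_lit 76) (nat_lit 270660862661) (nat_lit 76) (nat_lit 270097111180) (nat_lit 1) (nat_lit 4) (nat_lit 2) (nat_lit 5) (nat_lit 2) (nat_lit 4) (nat_lit 246) (nat_lit 182) (nat_lit 172)) (XT.lf (nat_lit 0) (nat_lit 368584886446) (nat_lit 76) (nat_lit 310581351667) (nat_lit 76) (nat_lit 309993455904)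 (nat_lit 1) (nat_lit 4) (nat_lit 2) (nat_lit 5) (nat_lit 2) (nat_lit 4) (nat_lit 247) (nat_lit 182) (nat_lit 171))) (XT.nd (nat_lit 78) (nat_lit 0) (nat_lit 0) (XT.lf (nat_lit 0) (nat_lit 425022574278) (nat_lit 76) (nat_lit 356513260741) (nat_lit 76) (nat_lit 355904369951) (nat_lit 1) (nat_lit 4) (nat_lit 2) (nat_lit 5) (nat_lit 2) (nat_lit 4) (nat_lit 248) (nat_lit 182) (nat_lit 170)) (XT.lf (nat_lit 0) (nat_lit 489882918407) (nat_lit 76) (nat_lit 409355257669) (nat_lit 76) (nat_lit 408728110335) (nat_lit 1) (nat_lit 4) (nat_lit 2) (nat_lit 5) (nat_lit 2) (nat_lit 4) (nat_lit 249) (nat_lit 182) (nat_lit 169)))) (XT.nd (nat_lit 156) (nat_lit 0) (nat_lit 0) (XT.nd (nat_lit 78) (nat_lit 0) (nat_lit 0) (XT.lf (nat_lit 0) (nat_lit 564434925566) (nat_lit 76) (nat_lit 470141207610) (nat_lit 76) (nat_lit 469498185019) (nat_lit 1) (nat_lit 4) (nat_lit 2) (nat_lit 5) (nat_lit 2) (nat_lit 4)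 (nat_lit 250) (nat_lit 182) (nat_lit 168)) (XT.lf (nat_lit 0) (nat_lit 650137221981) (nat_lit 76) (nat_lit 540060400888) (nat_lit 76) (nat_lit 539403573726) (nat_lit 1) (nat_lit 4) (nat_lit 2) (nat_lit 5) (nat_lit 2) (nat_lit 4) (nat_lit 251) (nat_lit 182) (nat_lit 167))) (XT.nd (nat_lit 78) (nat_lit 0) (nat_lit 0) (XT.lf (nat_lit 0) (nat_lit 748666591712) (nat_lit 76) (nat_lit 620480821719) (nat_lit 76) (nat_lit 619811990582) (nat_lit 1) (nat_lit 4) (nat_lit 2) (nat_lit 5) (nat_lit 2) (nat_lit 4) (nat_lit 252) (nat_lit 182) (nat_lit 166)) (XT.lf (nat_lit 0) (nat_lit 861950783298) (nat_lit 76) (nat_lit 712975913120) (nat_lit 76) (nat_lit 712296643744) (nat_lit 1) (nat_lit 4) (nat_lit 2) (nat_lit 5) (nat_lit 2) (nat_lit 4) (nat_lit 253) (nat_lit 182) (nat_lit 165))))) (XT.nd (nat_lit 312) (nat_lit 0) (nat_lit 0) (XT.nd (nat_lit 156) (nat_lit 0) (nat_lit 0) (XT.nd (nat_lit 78) (nat_lit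 0) (nat_lit 0) (XT.lf (nat_lit 0) (nat_lit 992206226575) (nat_lit 76) (nat_lit 819355361661) (nat_lit 76) (nat_lit 818667015555) (nat_lit 1) (nat_lit 4) (nat_lit 2) (nat_lit 5) (nat_lit 2) (nat_lit 4) (nat_lit 254) (nat_lit 182) (nat_lit 164)) (XT.lf (nat_lit 0) (nat_lit 1141981397605) (nat_lit 76) (nat_lit 941700504379) (nat_lit 76) (nat_lit 941004265465) (nat_lit 1) (nat_lit 4) (nat_lit 2) (nat_lit 5) (nat_lit 2) (nat_lit 4) (nat_lit 255) (nat_lit 182) (nat_lit 163))) (XT.nd (nat_lit 78) (nat_lit 0) (nat_lit 0) (XT.lf (nat_lit 0) (nat_lit 1314206680172) (nat_lit 76) (nat_lit 1082405050589) (nat_lit 76) (nat_lit 1081701948363) (nat_lit 1) (nat_lit 4) (nat_lit 2) (nat_lit 5) (nat_lit 2) (nat_lit 4) (nat_lit 256) (nat_lit 182) (nat_lit 162)) (XT.lf (nat_lit 0) (nat_lit 1512251699367) (nat_lit 76) (nat_lit 1244221915324) (nat_lit 76) (nat_lit 1243512845002) (nat_lit 1) (nat_lit 4) (nat_lit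 2) (nat_lit 5) (nat_lit 2) (nat_lit 4) (nat_lit 257) (nat_lit 182) (nat_lit 161)))) (XT.nd (nat_lit 156) (nat_lit 0) (nat_lit 0) (XT.nd (nat_lit 78) (nat_lit 0) (nat_lit 0) (XT.lf (nat_lit 0) (nat_lit 1739991249045) (nat_lit 76) (nat_lit 1430317080722) (nat_lit 76) (nat_lit 1429602820749) (nat_lit 1) (nat_lit 4) (nat_lit 2) (nat_lit 5) (nat_lit 2) (nat_lit 4) (nat_lit 258) (nat_lit 182) (nat_lit 160)) (XT.lf (nat_lit 0) (nat_lit 2001881103004) (nat_lit 76) (nat_lit 1644331539147) (nat_lit 76) (nat_lit 1643612766436) (nat_lit 1) (nat_lit 4) (nat_lit 2) (nat_lit 5) (nat_lit 2) (nat_lit 4) (nat_lit 259) (nat_lit 182) (nat_lit 159))) (XT.nd (nat_lit 78) (nat_lit 0) (nat_lit 0) (XT.lf (nat_lit 0) (nat_lit 2303045193169) (nat_lit 76) (nat_lit 1890452530005) (nat_lit 76) (nat_lit 1889729833173) (nat_lit 1) (nat_lit 4) (nat_lit 2) (nat_lit 5) (nat_lit 2) (nat_lit 4) (nat_lit 260) (nat_lit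 182) (nat_lit 158)) (XT.lf (nat_lit 0) (nat_lit 2649375860435) (nat_lit 76) (nat_lit 2173495463986) (nat_lit 76) (nat_lit 2172769354876) (nat_lit 1) (nat_lit 4) (nat_lit 2) (nat_lit 5) (nat_lit 2) (nat_lit 4) (nat_lit 261) (nat_lit 182) (nat_lit 157))))))))
noncomputable def xc8 : XT := (XT.nd (nat_lit 30342) (nat_lit 0) (nat_lit 0) (XT.nd (nat_lit 29172) (nat_lit 0) (nat_lit 0) (XT.nd (nat_lit 546) (nat_lit 0) (nat_lit 0) (XT.nd (nat_lit 234) (nat_lit 0) (nat_lit 0) (XT.nd (nat_lit 78) (nat_lit 0) (nat_lit 0) (XT.lf (nat_lit 0) (nat_lit 3047649139596) (nat_lit 76) (nat_lit 2498998137624) (nat_lit 76) (nat_lit 2498269061315) (nat_lit 1) (nat_lit 4) (nat_lit 2) (nat_lit 5) (nat_lit 2) (nat_lit 4) (nat_lit 262) (nat_lit 182) (nat_lit 156)) (XT.nd (nat_lit 78) (nat_lit 0) (nat_lit 0) (XT.lf (nat_lit 0) (nat_lit 3505657333940) (nat_lit 76) (nat_lit 2873329081491) (nat_lit 76) (nat_lit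 2872597425009) (nat_lit 1) (nat_lit 4) (nat_lit 2) (nat_lit 5) (nat_lit 2) (nat_lit 4) (nat_lit 263) (nat_lit 182) (nat_lit 155)) (XT.lf (nat_lit 0) (nat_lit 4032361473357) (nat_lit 76) (nat_lit 3303812161880) (nat_lit 76) (nat_lit 3303078261769) (nat_lit 1) (nat_lit 4) (nat_lit 2) (nat_lit 5) (nat_lit 2) (nat_lit 4) (nat_lit 264) (nat_lit 182) (nat_lit 154)))) (XT.nd (nat_lit 156) (nat_lit 0) (nat_lit 0) (XT.nd (nat_lit 78) (nat_lit 0) (nat_lit 0) (XT.lf (nat_lit 0) (nat_lit 4638066638834) (nat_lit 76) (nat_lit 3798869873841) (nat_lit 76) (nat_lit 3798134022748) (nat_lit 1) (nat_lit 4) (nat_lit 2) (nat_lit 5) (nat_lit 2) (nat_lit 4) (nat_lit 265) (nat_lit 182) (nat_lit 153)) (XT.lf (nat_lit 0) (nat_lit 5334623583610) (nat_lit 76) (nat_lit 4368188129131) (nat_lit 76) (nat_lit 4367450581533) (nat_lit 1) (nat_lit 4) (nat_lit 2) (nat_lit 5) (nat_lit 2) (nat_lit 4) (nat_lit 266) (nat_lit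 182) (nat_lit 152))) (XT.nd (nat_lit 78) (nat_lit 0) (nat_lit 0) (XT.lf (nat_lit 0) (nat_lit 6135660595735) (nat_lit 76) (nat_lit 5022905763179) (nat_lit 76) (nat_lit 5022166740358) (nat_lit 1) (nat_lit 4) (nat_lit 2) (nat_lit 5) (nat_lit 2) (nat_lit 4) (nat_lit 267) (nat_lit 182) (nat_lit 151)) (XT.lf (nat_lit 0) (nat_lit 7056850138489) (nat_lit 76) (nat_lit 5775832468825) (nat_lit 76) (nat_lit 5775092163202) (nat_lit 1) (nat_lit 4) (nat_lit 2) (nat_lit 5) (nat_lit 2) (nat_lit 4) (nat_lit 268) (nat_lit 182) (nat_lit 150))))) (XT.nd (nat_lit 1248) (nat_lit 0) (nat_lit 0) (XT.nd (nat_lit 156) (nat_lit 0) (nat_lit 0) (XT.nd (nat_lit 78) (nat_lit 0) (nat_lit 0) (XT.lf (nat_lit 0) (nat_lit 8116215485534) (nat_lit 76) (nat_lit 6641699420745) (nat_lit 76) (nat_lit 6640957999642) (nat_lit 1) (nat_lit 4) (nat_lit 2) (nat_lit 5) (nat_lit 2) (nat_lit 4) (nat_lit 269) (nat_lit 182) (nat_lit 149))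 (XT.lf (nat_lit 0) (nat_lit 9334483350183) (nat_lit 76) (nat_lit 7637447494085) (nat_lit 76) (nat_lit 7636705103000) (nat_lit 1) (nat_lit 4) (nat_lit 2) (nat_lit 5) (nat_lit 2) (nat_lit 4) (nat_lit 270) (nat_lit 182) (nat_lit 148))) (XT.nd (nat_lit 78) (nat_lit 0) (nat_lit 0) (XT.lf (nat_lit 0) (nat_lit 10735489408049) (nat_lit 76) (nat_lit 8782558716367) (nat_lit 76) (nat_lit 8781815481819) (nat_lit 1) (nat_lit 4) (nat_lit 2) (nat_lit 5) (nat_lit 2) (nat_lit 4) (nat_lit 271) (nat_lit 182) (nat_lit 147)) (XT.lf (nat_lit 0) (nat_lit 12346644647219) (nat_lit 76) (nat_lit 10099437437592) (nat_lit 76) (nat_lit 10098693469597) (nat_lit 1) (nat_lit 4) (nat_lit 2) (nat_lit 5) (nat_lit 2) (nat_lit 4) (nat_lit 272) (nat_lit 182) (nat_lit 146)))) (XT.nd (nat_lit 156) (nat_lit 0) (nat_lit 0) (XT.nd (nat_lit 78) (nat_lit 0) (nat_lit 0) (XT.lf (nat_lit 0) (nat_lit 75994675544780) (nat_lit 76) (nat_lit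 62122428755016) (nat_lit 76) (nat_lit 62121680692083) (nat_lit 1) (nat_lit 4) (nat_lit 2) (nat_lit 5) (nat_lit 2) (nat_lit 4) (nat_lit 285) (nat_lit 182) (nat_lit 133)) (XT.lf (nat_lit 0) (nat_lit 87394698816144) (nat_lit 76) (nat_lit 71440292650926) (nat_lit 76) (nat_lit 71439544484336) (nat_lit 1) (nat_lit 4) (nat_lit 2) (nat_lit 5) (nat_lit 2) (nat_lit 4) (nat_lit 286) (nat_lit 182) (nat_lit 132))) (XT.nd (nat_lit 27144) (nat_lit 0) (nat_lit 0) (XT.lf (nat_lit 0) (nat_lit 100504725365929) (nat_lit 76) (nat_lit 82155836231455) (nat_lit 76) (nat_lit 82155087974729) (nat_lit 1) (nat_lit 4) (nat_lit 2) (nat_lit 5) (nat_lit 2) (nat_lit 4) (nat_lit 287) (nat_lit 182) (nat_lit 131)) (XT.lf (nat_lit 0) (nat_lit 24203550131) (nat_lit 76) (nat_lit 28323332364) (nat_lit 76) (nat_lit 28323332364) (nat_lit 1) (nat_lit 4) (nat_lit 2) (nat_lit 5) (nat_lit 2) (nat_lit 4) (nat_lit 234) (nat_lit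 183) (nat_lit 183)))))) (XT.nd (nat_lit 546) (nat_lit 0) (nat_lit 0) (XT.nd (nat_lit 234) (nat_lit 0) (nat_lit 0) (XT.nd (nat_lit 78) (nat_lit 0) (nat_lit 0) (XT.lf (nat_lit 0) (nat_lit 58375195332) (nat_lit 76) (nat_lit 63736329686) (nat_lit 76) (nat_lit 63624001040) (nat_lit 1) (nat_lit 4) (nat_lit 2) (nat_lit 5) (nat_lit 2) (nat_lit 4) (nat_lit 235) (nat_lit 183) (nat_lit 182)) (XT.nd (nat_lit 78) (nat_lit 0) (nat_lit 0) (XT.lf (nat_lit 0) (nat_lit 69608460607) (nat_lit 76) (nat_lit 71998062455) (nat_lit 76) (nat_lit 71788056727) (nat_lit 1) (nat_lit 4) (nat_lit 2) (nat_lit 5) (nat_lit 2) (nat_lit 4) (nat_lit 236) (nat_lit 183) (nat_lit 181)) (XT.lf (nat_lit 0) (nat_lit 82326677367) (nat_lit 76) (nat_lit 81593505634) (nat_lit 76) (nat_lit 81298563312) (nat_lit 1) (nat_lit 4) (nat_lit 2) (nat_lit 5) (nat_lit 2) (nat_lit 4) (nat_lit 237) (nat_lit 183) (nat_lit 180)))) (XT.nd (nat_lit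 156) (nat_lit 0) (nat_lit 0) (XT.nd (nat_lit 78) (nat_lit 0) (nat_lit 0) (XT.lf (nat_lit 0) (nat_lit 96778680286) (nat_lit 76) (nat_lit 92710396155) (nat_lit 76) (nat_lit 92341595925) (nat_lit 1) (nat_lit 4) (nat_lit 2) (nat_lit 5) (nat_lit 2) (nat_lit 4) (nat_lit 238) (nat_lit 183) (nat_lit 179)) (XT.lf (nat_lit 0) (nat_lit 113247225943) (nat_lit 76) (nat_lit 105566238397) (nat_lit 76) (nat_lit 105133213900) (nat_lit 1) (nat_lit 4) (nat_lit 2) (nat_lit 5) (nat_lit 2) (nat_lit 4) (nat_lit 239) (nat_lit 183) (nat_lit 178))) (XT.nd (nat_lit 78) (nat_lit 0) (nat_lit 0) (XT.lf (nat_lit 0) (nat_lit 132054525014) (nat_lit 76) (nat_lit 120412559709) (nat_lit 76) (nat_lit 119923688023) (nat_lit 1) (nat_lit 4) (nat_lit 2) (nat_lit 5) (nat_lit 2) (nat_lit 4) (nat_lit 240) (nat_lit 183) (nat_lit 177)) (XT.lf (nat_lit 0) (nat_lit 153568546394) (nat_lit 76) (nat_lit 137539831595) (nat_lit 76) (nat_lit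 137002397135) (nat_lit 1) (nat_lit 4) (nat_lit 2) (nat_lit 5) (nat_lit 2) (nat_lit 4) (nat_lit 241) (nat_lit 183) (nat_lit 176))))) (XT.nd (nat_lit 312) (nat_lit 0) (nat_lit 0) (XT.nd (nat_lit 156) (nat_lit 0) (nat_lit 0) (XT.nd (nat_lit 78) (nat_lit 0) (nat_lit 0) (XT.lf (nat_lit 0) (nat_lit 178210216589) (nat_lit 76) (nat_lit 157283152853) (nat_lit 76) (nat_lit 156703489894) (nat_lit 1) (nat_lit 4) (nat_lit 2) (nat_lit 5) (nat_lit 2) (nat_lit 4) (nat_lit 242) (nat_lit 183) (nat_lit 175)) (XT.lf (nat_lit 0) (nat_lit 206461655232) (nat_lit 76) (nat_lit 180028805854) (nat_lit 76) (nat_lit 179412422462) (nat_lit 1) (nat_lit 4) (nat_lit 2) (nat_lit 5) (nat_lit 2) (nat_lit 4) (nat_lit 243) (nat_lit 183) (nat_lit 174))) (XT.nd (nat_lit 78) (nat_lit 0) (nat_lit 0) (XT.lf (nat_lit 0) (nat_lit 238875607862) (nat_lit 76) (nat_lit 206221814245) (nat_lit 76) (nat_lit 205573500041) (nat_lit 1)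 (nat_lit 4) (nat_lit 2) (nat_lit 5) (nat_lit 2) (nat_lit 4) (nat_lit 244) (nat_lit 183) (nat_lit 173)) (XT.lf (nat_lit 0) (nat_lit 276086260508) (nat_lit 76) (nat_lit 236374649929) (nat_lit 76) (nat_lit 235698569802) (nat_lit 1) (nat_lit 4) (nat_lit 2) (nat_lit 5) (nat_lit 2) (nat_lit 4) (nat_lit 245) (nat_lit 183) (nat_lit 172)))) (XT.nd (nat_lit 156) (nat_lit 0) (nat_lit 0) (XT.nd (nat_lit 78) (nat_lit 0) (nat_lit 0) (XT.lf (nat_lit 0) (nat_lit 318821647680) (nat_lit 76) (nat_lit 271077259691) (nat_lit 76) (nat_lit 270377035283) (nat_lit 1) (nat_lit 4) (nat_lit 2) (nat_lit 5) (nat_lit 2) (nat_lit 4) (nat_lit 246) (nat_lit 183) (nat_lit 171)) (XT.lf (nat_lit 0) (nat_lit 367917896518) (nat_lit 76) (nat_lit 311008607634) (nat_lit 76) (nat_lit 310287388200) (nat_lit 1) (nat_lit 4) (nat_lit 2) (nat_lit 5) (nat_lit 2) (nat_lit 4) (nat_lit 247) (nat_lit 183) (nat_lit 170))) (XT.nd (nat_lit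 78) (nat_lit 0) (nat_lit 0) (XT.lf (nat_lit 0) (nat_lit 424335585802) (nat_lit 76) (nat_lit 356949959264) (nat_lit 76) (nat_lit 356210483283) (nat_lit 1) (nat_lit 4) (nat_lit 2) (nat_lit 5) (nat_lit 2) (nat_lit 4) (nat_lit 248) (nat_lit 183) (nat_lit 169)) (XT.lf (nat_lit 0) (nat_lit 489178539890) (nat_lit 76) (nat_lit 409800167110) (nat_lit 76) (nat_lit 409044815873) (nat_lit 1) (nat_lit 4) (nat_lit 2) (nat_lit 5) (nat_lit 2) (nat_lit 4) (nat_lit 249) (nat_lit 183) (nat_lit 168))))))) (XT.nd (nat_lit 1170) (nat_lit 0) (nat_lit 0) (XT.nd (nat_lit 546) (nat_lit 0) (nat_lit 0) (XT.nd (nat_lit 234) (nat_lit 0) (nat_lit 0) (XT.nd (nat_lit 78) (nat_lit 0) (nat_lit 0) (XT.lf (nat_lit 0) (nat_lit 563715425272) (nat_lit 76) (nat_lit 470593256979) (nat_lit 76) (nat_lit 469824101171) (nat_lit 1) (nat_lit 4) (nat_lit 2) (nat_lit 5) (nat_lit 2) (nat_lit 4) (nat_lit 250) (nat_lit 183) (nat_lit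 167)) (XT.nd (nat_lit 78) (nat_lit 0) (nat_lit 0) (XT.lf (nat_lit 0) (nat_lit 649404572317) (nat_lit 76) (nat_lit 540518658890) (nat_lit 76) (nat_lit 539737499107) (nat_lit 1) (nat_lit 4) (nat_lit 2) (nat_lit 5) (nat_lit 2) (nat_lit 4) (nat_lit 251) (nat_lit 183) (nat_lit 166)) (XT.lf (nat_lit 0) (nat_lit 747922507814) (nat_lit 76) (nat_lit 620944478533) (nat_lit 76) (nat_lit 620152880511) (nat_lit 1) (nat_lit 4) (nat_lit 2) (nat_lit 5) (nat_lit 2) (nat_lit 4) (nat_lit 252) (nat_lit 183) (nat_lit 165)))) (XT.nd (nat_lit 156) (nat_lit 0) (nat_lit 0) (XT.nd (nat_lit 78) (nat_lit 0) (nat_lit 0) (XT.lf (nat_lit 0) (nat_lit 861196756587) (nat_lit 76) (nat_lit 713444264552) (nat_lit 76) (nat_lit 712643589801) (nat_lit 1) (nat_lit 4) (nat_lit 2) (nat_lit 5) (nat_lit 2) (nat_lit 4) (nat_lit 253) (nat_lit 183) (nat_lit 164)) (XT.lf (nat_lit 0) (nat_lit 991443553939) (nat_lit 76) (nat_lit 819827795371)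 (nat_lit 76) (nat_lit 819019227811) (nat_lit 1) (nat_lit 4) (nat_lit 2) (nat_lit 5) (nat_lit 2) (nat_lit 4) (nat_lit 254) (nat_lit 183) (nat_lit 163))) (XT.nd (nat_lit 78) (nat_lit 0) (nat_lit 0) (XT.lf (nat_lit 0) (nat_lit 1141211206775) (nat_lit 76) (nat_lit 942176487895) (nat_lit 76) (nat_lit 941361057024) (nat_lit 1) (nat_lit 4) (nat_lit 2) (nat_lit 5) (nat_lit 2) (nat_lit 4) (nat_lit 255) (nat_lit 183) (nat_lit 162)) (XT.lf (nat_lit 0) (nat_lit 1313429951780) (nat_lit 76) (nat_lit 1082884120893) (nat_lit 76) (nat_lit 1082062721925) (nat_lit 1) (nat_lit 4) (nat_lit 2) (nat_lit 5) (nat_lit 2) (nat_lit 4) (nat_lit 256) (nat_lit 183) (nat_lit 161))))) (XT.nd (nat_lit 312) (nat_lit 0) (nat_lit 0) (XT.nd (nat_lit 156) (nat_lit 0) (nat_lit 0) (XT.nd (nat_lit 78) (nat_lit 0) (nat_lit 0) (XT.lf (nat_lit 0) (nat_lit 1511469286140) (nat_lit 76) (nat_lit 1244703669792) (nat_lit 76) (nat_lit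 1243877081174) (nat_lit 1) (nat_lit 4) (nat_lit 2) (nat_lit 5) (nat_lit 2) (nat_lit 4) (nat_lit 257) (nat_lit 183) (nat_lit 160)) (XT.lf (nat_lit 0) (nat_lit 1739203892483) (nat_lit 76) (nat_lit 1430801169244) (nat_lit 76) (nat_lit 1429970067888) (nat_lit 1) (nat_lit 4) (nat_lit 2) (nat_lit 5) (nat_lit 2) (nat_lit 4) (nat_lit 258) (nat_lit 183) (nat_lit 159))) (XT.nd (nat_lit 78) (nat_lit 0) (nat_lit 0) (XT.lf (nat_lit 0) (nat_lit 2001089447890) (nat_lit 76) (nat_lit 1644817657283) (nat_lit 76) (nat_lit 1643982631806) (nat_lit 1) (nat_lit 4) (nat_lit 2) (nat_lit 5) (nat_lit 2) (nat_lit 4) (nat_lit 259) (nat_lit 183) (nat_lit 158)) (XT.lf (nat_lit 0) (nat_lit 2302249800183) (nat_lit 76) (nat_lit 1890940413022) (nat_lit 76) (nat_lit 1890101975266) (nat_lit 1) (nat_lit 4) (nat_lit 2) (nat_lit 5) (nat_lit 2) (nat_lit 4) (nat_lit 260) (nat_lit 183) (nat_lit 157)))) (XT.nd (nat_lit 156)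 (nat_lit 0) (nat_lit 0) (XT.nd (nat_lit 78) (nat_lit 0) (nat_lit 0) (XT.lf (nat_lit 0) (nat_lit 2648577217126) (nat_lit 76) (nat_lit 2173984881682) (nat_lit 76) (nat_lit 2173143476727) (nat_lit 1) (nat_lit 4) (nat_lit 2) (nat_lit 5) (nat_lit 2) (nat_lit 4) (nat_lit 261) (nat_lit 183) (nat_lit 156)) (XT.lf (nat_lit 0) (nat_lit 3046847669919) (nat_lit 76) (nat_lit 2499488889824) (nat_lit 76) (nat_lit 2498644904696) (nat_lit 1) (nat_lit 4) (nat_lit 2) (nat_lit 5) (nat_lit 2) (nat_lit 4) (nat_lit 262) (nat_lit 183) (nat_lit 155))) (XT.nd (nat_lit 78) (nat_lit 0) (nat_lit 0) (XT.lf (nat_lit 0) (nat_lit 3504853406552) (nat_lit 76) (nat_lit 2873820994129) (nat_lit 76) (nat_lit 2872974765373) (nat_lit 1) (nat_lit 4) (nat_lit 2) (nat_lit 5) (nat_lit 2) (nat_lit 4) (nat_lit 263) (nat_lit 183) (nat_lit 154)) (XT.lf (nat_lit 0) (nat_lit 4031555408828) (nat_lit 76) (nat_lit 3304305083594) (nat_lit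 76) (nat_lit 3303456903856) (nat_lit 1) (nat_lit 4) (nat_lit 2) (nat_lit 5) (nat_lit 2) (nat_lit 4) (nat_lit 264) (nat_lit 183) (nat_lit 153)))))) (XT.nd (nat_lit 1482) (nat_lit 0) (nat_lit 0) (XT.nd (nat_lit 312) (nat_lit 0) (nat_lit 0) (XT.nd (nat_lit 156) (nat_lit 0) (nat_lit 0) (XT.nd (nat_lit 78) (nat_lit 0) (nat_lit 0) (XT.lf (nat_lit 0) (nat_lit 4637258715923) (nat_lit 76) (nat_lit 3799363673013) (nat_lit 76) (nat_lit 3798513796770) (nat_lit 1) (nat_lit 4) (nat_lit 2) (nat_lit 5) (nat_lit 2) (nat_lit 4) (nat_lit 265) (nat_lit 183) (nat_lit 152)) (XT.lf (nat_lit 0) (nat_lit 5333814044714) (nat_lit 76) (nat_lit 4368682691310) (nat_lit 76) (nat_lit 4367831339844) (nat_lit 1) (nat_lit 4) (nat_lit 2) (nat_lit 5) (nat_lit 2) (nat_lit 4) (nat_lit 266) (nat_lit 183) (nat_lit 151))) (XT.nd (nat_lit 78) (nat_lit 0) (nat_lit 0) (XT.lf (nat_lit 0) (nat_lit 6134849651634) (nat_lit 76) (nat_lit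 5023400988842) (nat_lit 76) (nat_lit 5022548354574) (nat_lit 1) (nat_lit 4) (nat_lit 2) (nat_lit 5) (nat_lit 2) (nat_lit 4) (nat_lit 267) (nat_lit 183) (nat_lit 150)) (XT.lf (nat_lit 0) (nat_lit 7056037972471) (nat_lit 76) (nat_lit 5776328271431) (nat_lit 76) (nat_lit 5775474521683) (nat_lit 1) (nat_lit 4) (nat_lit 2) (nat_lit 5) (nat_lit 2) (nat_lit 4) (nat_lit 268) (nat_lit 183) (nat_lit 149)))) (XT.nd (nat_lit 156) (nat_lit 0) (nat_lit 0) (XT.nd (nat_lit 78) (nat_lit 0) (nat_lit 0) (XT.lf (nat_lit 0) (nat_lit 8115402256980) (nat_lit 76) (nat_lit 6642195725040) (nat_lit 76) (nat_lit 6641341005310) (nat_lit 1) (nat_lit 4) (nat_lit 2) (nat_lit 5) (nat_lit 2) (nat_lit 4) (nat_lit 269) (nat_lit 183) (nat_lit 148)) (XT.lf (nat_lit 0) (nat_lit 9333669197684) (nat_lit 76) (nat_lit 7637944234632) (nat_lit 76) (nat_lit 7637088671438) (nat_lit 1) (nat_lit 4) (nat_lit 2) (nat_lit 5) (nat_lit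 2) (nat_lit 4) (nat_lit 270) (nat_lit 183) (nat_lit 147))) (XT.nd (nat_lit 78) (nat_lit 0) (nat_lit 0) (XT.lf (nat_lit 0) (nat_lit 10734674452119) (nat_lit 76) (nat_lit 8783055836263) (nat_lit 76) (nat_lit 8782199539623) (nat_lit 1) (nat_lit 4) (nat_lit 2) (nat_lit 5) (nat_lit 2) (nat_lit 4) (nat_lit 271) (nat_lit 183) (nat_lit 146)) (XT.lf (nat_lit 0) (nat_lit 12345828992655) (nat_lit 76) (nat_lit 10099934887357) (nat_lit 76) (nat_lit 10099077952938) (nat_lit 1) (nat_lit 4) (nat_lit 2) (nat_lit 5) (nat_lit 2) (nat_lit 4) (nat_lit 272) (nat_lit 183) (nat_lit 145))))) (XT.nd (nat_lit 27222) (nat_lit 0) (nat_lit 0) (XT.nd (nat_lit 156) (nat_lit 0) (nat_lit 0) (XT.nd (nat_lit 78) (nat_lit 0) (nat_lit 0) (XT.lf (nat_lit 0) (nat_lit 66080792176667) (nat_lit 76) (nat_lit 54020437748838) (nat_lit 76) (nat_lit 54019577357261) (nat_lit 1) (nat_lit 4) (nat_lit 2) (nat_lit 5) (nat_lit 2) (nat_lit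 4) (nat_lit 284) (nat_lit 183) (nat_lit 133)) (XT.lf (nat_lit 0) (nat_lit 75993855989634) (nat_lit 76) (nat_lit 62122928046488) (nat_lit 76) (nat_lit 62122067551253) (nat_lit 1) (nat_lit 4) (nat_lit 2) (nat_lit 5) (nat_lit 2) (nat_lit 4) (nat_lit 285) (nat_lit 183) (nat_lit 132))) (XT.nd (nat_lit 78) (nat_lit 0) (nat_lit 0) (XT.lf (nat_lit 0) (nat_lit 87393879162261) (nat_lit 76) (nat_lit 71440791989018) (nat_lit 76) (nat_lit 71439931403646) (nat_lit 1) (nat_lit 4) (nat_lit 2) (nat_lit 5) (nat_lit 2) (nat_lit 4) (nat_lit 286) (nat_lit 183) (nat_lit 131)) (XT.lf (nat_lit 0) (nat_lit 100503905626188) (nat_lit 76) (nat_lit 82156335610085) (nat_lit 76) (nat_lit 82155474946334) (nat_lit 1) (nat_lit 4) (nat_lit 2) (nat_lit 5) (nat_lit 2) (nat_lit 4) (nat_lit 287) (nat_lit 183) (nat_lit 130)))) (XT.nd (nat_lit 156) (nat_lit 0) (nat_lit 0) (XT.nd (nat_lit 78) (nat_lit 0) (nat_lit 0) (XT.lf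 (nat_lit 0) (nat_lit 15824375181) (nat_lit 76) (nat_lit 22755638981) (nat_lit 76) (nat_lit 22755638981) (nat_lit 1) (nat_lit 4) (nat_lit 2) (nat_lit 5) (nat_lit 2) (nat_lit 4) (nat_lit 232) (nat_lit 184) (nat_lit 184)) (XT.lf (nat_lit 0) (nat_lit 39509147452) (nat_lit 76) (nat_lit 50719534691) (nat_lit 76) (nat_lit 50590356749) (nat_lit 1) (nat_lit 4) (nat_lit 2) (nat_lit 5) (nat_lit 2) (nat_lit 4) (nat_lit 233) (nat_lit 184) (nat_lit 183))) (XT.nd (nat_lit 78) (nat_lit 0) (nat_lit 0) (XT.lf (nat_lit 0) (nat_lit 48284053443) (nat_lit 76) (nat_lit 56833940708) (nat_lit 76) (nat_lit 56592434121) (nat_lit 1) (nat_lit 4) (nat_lit 2) (nat_lit 5) (nat_lit 2) (nat_lit 4) (nat_lit 234) (nat_lit 184) (nat_lit 182)) (XT.lf (nat_lit 0) (nat_lit 58145151278) (nat_lit 76) (nat_lit 63974125697) (nat_lit 76) (nat_lit 63634942026) (nat_lit 1) (nat_lit 4) (nat_lit 2) (nat_lit 5) (nat_lit 2) (nat_lit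 4) (nat_lit 235) (nat_lit 184) (nat_lit 181))))))))
noncomputable def xc9 : XT := (XT.nd (nat_lit 2418) (nat_lit 0) (nat_lit 0) (XT.nd (nat_lit 1170) (nat_lit 0) (nat_lit 0) (XT.nd (nat_lit 546) (nat_lit 0) (nat_lit 0) (XT.nd (nat_lit 234) (nat_lit 0) (nat_lit 0) (XT.nd (nat_lit 78) (nat_lit 0) (nat_lit 0) (XT.lf (nat_lit 0) (nat_lit 69285375480) (nat_lit 76) (nat_lit 72279788929) (nat_lit 76) (nat_lit 71855668664) (nat_lit 1) (nat_lit 4) (nat_lit 2) (nat_lit 5) (nat_lit 2) (nat_lit 4) (nat_lit 236) (nat_lit 184) (nat_lit 180)) (XT.nd (nat_lit 78) (nat_lit 0) (nat_lit 0) (XT.lf (nat_lit 0) (nat_lit 81922686958) (nat_lit 76) (nat_lit 81913432510) (nat_lit 76) (nat_lit 81415454338) (nat_lit 1) (nat_lit 4) (nat_lit 2) (nat_lit 5) (nat_lit 2) (nat_lit 4) (nat_lit 237) (nat_lit 184) (nat_lit 179)) (XT.lf (nat_lit 0) (nat_lit 96304337459) (nat_lit 76) (nat_lit 93063540772) (nat_lit 76) (nat_lit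 92501338332) (nat_lit 1) (nat_lit 4) (nat_lit 2) (nat_lit 5) (nat_lit 2) (nat_lit 4) (nat_lit 238) (nat_lit 184) (nat_lit 178)))) (XT.nd (nat_lit 156) (nat_lit 0) (nat_lit 0) (XT.nd (nat_lit 78) (nat_lit 0) (nat_lit 0) (XT.lf (nat_lit 0) (nat_lit 112711707100) (nat_lit 76) (nat_lit 105948268007) (nat_lit 76) (nat_lit 105330218378) (nat_lit 1) (nat_lit 4) (nat_lit 2) (nat_lit 5) (nat_lit 2) (nat_lit 4) (nat_lit 239) (nat_lit 184) (nat_lit 177)) (XT.lf (nat_lit 0) (nat_lit 131465809636) (nat_lit 76) (nat_lit 120819706704) (nat_lit 76) (nat_lit 120153094301) (nat_lit 1) (nat_lit 4) (nat_lit 2) (nat_lit 5) (nat_lit 2) (nat_lit 4) (nat_lit 240) (nat_lit 184) (nat_lit 176))) (XT.nd (nat_lit 78) (nat_lit 0) (nat_lit 0) (XT.lf (nat_lit 0) (nat_lit 152933573159) (nat_lit 76) (nat_lit 137968819793) (nat_lit 76) (nat_lit 137259978893) (nat_lit 1) (nat_lit 4) (nat_lit 2) (nat_lit 5) (nat_lit 2)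 (nat_lit 4) (nat_lit 241) (nat_lit 184) (nat_lit 175)) (XT.lf (nat_lit 0) (nat_lit 177535019129) (nat_lit 76) (nat_lit 157731133402) (nat_lit 76) (nat_lit 156985572068) (nat_lit 1) (nat_lit 4) (nat_lit 2) (nat_lit 5) (nat_lit 2) (nat_lit 4) (nat_lit 242) (nat_lit 184) (nat_lit 174))))) (XT.nd (nat_lit 312) (nat_lit 0) (nat_lit 0) (XT.nd (nat_lit 156) (nat_lit 0) (nat_lit 0) (XT.nd (nat_lit 78) (nat_lit 0) (nat_lit 0) (XT.lf (nat_lit 0) (nat_lit 205751480186) (nat_lit 76) (nat_lit 180493301492) (nat_lit 76) (nat_lit 179715809346) (nat_lit 1) (nat_lit 4) (nat_lit 2) (nat_lit 5) (nat_lit 2) (nat_lit 4) (nat_lit 243) (nat_lit 184) (nat_lit 173)) (XT.lf (nat_lit 0) (nat_lit 238135017525) (nat_lit 76) (nat_lit 206700670829) (nat_lit 76) (nat_lit 205895412760) (nat_lit 1) (nat_lit 4) (nat_lit 2) (nat_lit 5) (nat_lit 2) (nat_lit 4) (nat_lit 244) (nat_lit 184) (nat_lit 172))) (XT.nd (nat_lit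 78) (nat_lit 0) (nat_lit 0) (XT.lf (nat_lit 0) (nat_lit 275319222091) (nat_lit 76) (nat_lit 236865994292) (nat_lit 76) (nat_lit 236036591942) (nat_lit 1) (nat_lit 4) (nat_lit 2) (nat_lit 5) (nat_lit 2) (nat_lit 4) (nat_lit 245) (nat_lit 184) (nat_lit 171)) (XT.lf (nat_lit 0) (nat_lit 318031610933) (nat_lit 76) (nat_lit 271579462992) (nat_lit 76) (nat_lit 270729065615) (nat_lit 1) (nat_lit 4) (nat_lit 2) (nat_lit 5) (nat_lit 2) (nat_lit 4) (nat_lit 246) (nat_lit 184) (nat_lit 170)))) (XT.nd (nat_lit 156) (nat_lit 0) (nat_lit 0) (XT.nd (nat_lit 78) (nat_lit 0) (nat_lit 0) (XT.lf (nat_lit 0) (nat_lit 367107861222) (nat_lit 76) (nat_lit 311520253491) (nat_lit 76) (nat_lit 310651599569) (nat_lit 1) (nat_lit 4) (nat_lit 2) (nat_lit 5) (nat_lit 2) (nat_lit 4) (nat_lit 247) (nat_lit 184) (nat_lit 169)) (XT.lf (nat_lit 0) (nat_lit 423508160465) (nat_lit 76) (nat_lit 357469816038) (nat_lit 76)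 (nat_lit 356585286859) (nat_lit 1) (nat_lit 4) (nat_lit 2) (nat_lit 5) (nat_lit 2) (nat_lit 4) (nat_lit 248) (nat_lit 184) (nat_lit 168))) (XT.nd (nat_lit 78) (nat_lit 0) (nat_lit 0) (XT.lf (nat_lit 0) (nat_lit 488335992777) (nat_lit 76) (nat_lit 410327163812) (nat_lit 76) (nat_lit 409428830062) (nat_lit 1) (nat_lit 4) (nat_lit 2) (nat_lit 5) (nat_lit 2) (nat_lit 4) (nat_lit 249) (nat_lit 184) (nat_lit 167)) (XT.lf (nat_lit 0) (nat_lit 562859728790) (nat_lit 76) (nat_lit 471126462315) (nat_lit 76) (nat_lit 470216124590) (nat_lit 1) (nat_lit 4) (nat_lit 2) (nat_lit 5) (nat_lit 2) (nat_lit 4) (nat_lit 250) (nat_lit 184) (nat_lit 166)))))) (XT.nd (nat_lit 624) (nat_lit 0) (nat_lit 0) (XT.nd (nat_lit 312) (nat_lit 0) (nat_lit 0) (XT.nd (nat_lit 156) (nat_lit 0) (nat_lit 0) (XT.nd (nat_lit 78) (nat_lit 0) (nat_lit 0) (XT.lf (nat_lit 0) (nat_lit 648537441599) (nat_lit 76) (nat_lit 541057263037)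 (nat_lit 76) (nat_lit 540136487074) (nat_lit 1) (nat_lit 4) (nat_lit 2) (nat_lit 5) (nat_lit 2) (nat_lit 4) (nat_lit 251) (nat_lit 184) (nat_lit 165)) (XT.lf (nat_lit 0) (nat_lit 747045434283) (nat_lit 76) (nat_lit 621487777299) (nat_lit 76) (nat_lit 620557924606) (nat_lit 1) (nat_lit 4) (nat_lit 2) (nat_lit 5) (nat_lit 2) (nat_lit 4) (nat_lit 252) (nat_lit 184) (nat_lit 164))) (XT.nd (nat_lit 78) (nat_lit 0) (nat_lit 0) (XT.lf (nat_lit 0) (nat_lit 860311037132) (nat_lit 76) (nat_lit 713991645596) (nat_lit 76) (nat_lit 713053900094) (nat_lit 1) (nat_lit 4) (nat_lit 2) (nat_lit 5) (nat_lit 2) (nat_lit 4) (nat_lit 253) (nat_lit 184) (nat_lit 163)) (XT.lf (nat_lit 0) (nat_lit 990550316289) (nat_lit 76) (nat_lit 820378726220) (nat_lit 76) (nat_lit 819434117407) (nat_lit 1) (nat_lit 4) (nat_lit 2) (nat_lit 5) (nat_lit 2) (nat_lit 4) (nat_lit 254) (nat_lit 184) (nat_lit 162)))) (XT.nd (nat_lit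 156) (nat_lit 0) (nat_lit 0) (XT.nd (nat_lit 78) (nat_lit 0) (nat_lit 0) (XT.lf (nat_lit 0) (nat_lit 1140311431564) (nat_lit 76) (nat_lit 942730505533) (nat_lit 76) (nat_lit 941779928623) (nat_lit 1) (nat_lit 4) (nat_lit 2) (nat_lit 5) (nat_lit 2) (nat_lit 4) (nat_lit 255) (nat_lit 184) (nat_lit 161)) (XT.lf (nat_lit 0) (nat_lit 1312524491734) (nat_lit 76) (nat_lit 1083440822694) (nat_lit 76) (nat_lit 1082485056134) (nat_lit 1) (nat_lit 4) (nat_lit 2) (nat_lit 5) (nat_lit 2) (nat_lit 4) (nat_lit 256) (nat_lit 184) (nat_lit 160))) (XT.nd (nat_lit 78) (nat_lit 0) (nat_lit 0) (XT.lf (nat_lit 0) (nat_lit 1510558882759) (nat_lit 76) (nat_lit 1245262705648) (nat_lit 76) (nat_lit 1244302426350) (nat_lit 1) (nat_lit 4) (nat_lit 2) (nat_lit 5) (nat_lit 2) (nat_lit 4) (nat_lit 257) (nat_lit 184) (nat_lit 159)) (XT.lf (nat_lit 0) (nat_lit 1738289190549) (nat_lit 76) (nat_lit 1431362234714) (nat_lit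 76) (nat_lit 1430398031295) (nat_lit 1) (nat_lit 4) (nat_lit 2) (nat_lit 5) (nat_lit 2) (nat_lit 4) (nat_lit 258) (nat_lit 184) (nat_lit 158))))) (XT.nd (nat_lit 312) (nat_lit 0) (nat_lit 0) (XT.nd (nat_lit 156) (nat_lit 0) (nat_lit 0) (XT.nd (nat_lit 78) (nat_lit 0) (nat_lit 0) (XT.lf (nat_lit 0) (nat_lit 2000171008084) (nat_lit 76) (nat_lit 1645380487634) (nat_lit 76) (nat_lit 1644412871936) (nat_lit 1) (nat_lit 4) (nat_lit 2) (nat_lit 5) (nat_lit 2) (nat_lit 4) (nat_lit 259) (nat_lit 184) (nat_lit 157)) (XT.lf (nat_lit 0) (nat_lit 2301328110054) (nat_lit 76) (nat_lit 1891504778052) (nat_lit 76) (nat_lit 1890534195155) (nat_lit 1) (nat_lit 4) (nat_lit 2) (nat_lit 5) (nat_lit 2) (nat_lit 4) (nat_lit 260) (nat_lit 184) (nat_lit 156))) (XT.nd (nat_lit 78) (nat_lit 0) (nat_lit 0) (XT.lf (nat_lit 0) (nat_lit 2647652700629) (nat_lit 76) (nat_lit 2174550581216) (nat_lit 76) (nat_lit 2173577418146)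 (nat_lit 1) (nat_lit 4) (nat_lit 2) (nat_lit 5) (nat_lit 2) (nat_lit 4) (nat_lit 261) (nat_lit 184) (nat_lit 155)) (XT.lf (nat_lit 0) (nat_lit 3045920695711) (nat_lit 76) (nat_lit 2500055749796) (nat_lit 76) (nat_lit 2499080343097) (nat_lit 1) (nat_lit 4) (nat_lit 2) (nat_lit 5) (nat_lit 2) (nat_lit 4) (nat_lit 262) (nat_lit 184) (nat_lit 154)))) (XT.nd (nat_lit 156) (nat_lit 0) (nat_lit 0) (XT.nd (nat_lit 78) (nat_lit 0) (nat_lit 0) (XT.lf (nat_lit 0) (nat_lit 3503924295204) (nat_lit 76) (nat_lit 2874388863177) (nat_lit 76) (nat_lit 2873411505497) (nat_lit 1) (nat_lit 4) (nat_lit 2) (nat_lit 5) (nat_lit 2) (nat_lit 4) (nat_lit 263) (nat_lit 184) (nat_lit 153)) (XT.lf (nat_lit 0) (nat_lit 4030624439097) (nat_lit 76) (nat_lit 3304873830100) (nat_lit 76) (nat_lit 3303894775914) (nat_lit 1) (nat_lit 4) (nat_lit 2) (nat_lit 5) (nat_lit 2) (nat_lit 4) (nat_lit 264) (nat_lit 184) (nat_lit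 152))) (XT.nd (nat_lit 78) (nat_lit 0) (nat_lit 0) (XT.lf (nat_lit 0) (nat_lit 4636326130207) (nat_lit 76) (nat_lit 3799933182526) (nat_lit 76) (nat_lit 3798952653118) (nat_lit 1) (nat_lit 4) (nat_lit 2) (nat_lit 5) (nat_lit 2) (nat_lit 4) (nat_lit 265) (nat_lit 184) (nat_lit 151)) (XT.lf (nat_lit 0) (nat_lit 5332880053793) (nat_lit 76) (nat_lit 4369252864307) (nat_lit 76) (nat_lit 4368271052097) (nat_lit 1) (nat_lit 4) (nat_lit 2) (nat_lit 5) (nat_lit 2) (nat_lit 4) (nat_lit 266) (nat_lit 184) (nat_lit 150))))))) (XT.nd (nat_lit 28626) (nat_lit 0) (nat_lit 0) (XT.nd (nat_lit 702) (nat_lit 0) (nat_lit 0) (XT.nd (nat_lit 234) (nat_lit 0) (nat_lit 0) (XT.nd (nat_lit 78) (nat_lit 0) (nat_lit 0) (XT.lf (nat_lit 0) (nat_lit 6133914438797) (nat_lit 76) (nat_lit 5023971738782) (nat_lit 76) (nat_lit 5022988811091) (nat_lit 1) (nat_lit 4) (nat_lit 2) (nat_lit 5) (nat_lit 2) (nat_lit 4) (nat_lit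 267) (nat_lit 184) (nat_lit 149)) (XT.nd (nat_lit 78) (nat_lit 0) (nat_lit 0) (XT.lf (nat_lit 0) (nat_lit 7055101697097) (nat_lit 76) (nat_lit 5776899523060) (nat_lit 76) (nat_lit 5775915625387) (nat_lit 1) (nat_lit 4) (nat_lit 2) (nat_lit 5) (nat_lit 2) (nat_lit 4) (nat_lit 268) (nat_lit 184) (nat_lit 148)) (XT.lf (nat_lit 0) (nat_lit 8114465057661) (nat_lit 76) (nat_lit 6642767412921) (nat_lit 76) (nat_lit 6641782671785) (nat_lit 1) (nat_lit 4) (nat_lit 2) (nat_lit 5) (nat_lit 2) (nat_lit 4) (nat_lit 269) (nat_lit 184) (nat_lit 147)))) (XT.nd (nat_lit 156) (nat_lit 0) (nat_lit 0) (XT.nd (nat_lit 78) (nat_lit 0) (nat_lit 0) (XT.lf (nat_lit 0) (nat_lit 9332731194936) (nat_lit 76) (nat_lit 7638516301862) (nat_lit 76) (nat_lit 7637530827279) (nat_lit 1) (nat_lit 4) (nat_lit 2) (nat_lit 5) (nat_lit 2) (nat_lit 4) (nat_lit 270) (nat_lit 184) (nat_lit 146)) (XT.lf (nat_lit 0) (nat_lit 10733735750736)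 (nat_lit 76) (nat_lit 8783628233362) (nat_lit 76) (nat_lit 8782642121000) (nat_lit 1) (nat_lit 4) (nat_lit 2) (nat_lit 5) (nat_lit 2) (nat_lit 4) (nat_lit 271) (nat_lit 184) (nat_lit 145))) (XT.nd (nat_lit 234) (nat_lit 0) (nat_lit 0) (XT.lf (nat_lit 0) (nat_lit 12344889683762) (nat_lit 76) (nat_lit 10100507571298) (nat_lit 76) (nat_lit 10099520904346) (nat_lit 1) (nat_lit 4) (nat_lit 2) (nat_lit 5) (nat_lit 2) (nat_lit 4) (nat_lit 272) (nat_lit 184) (nat_lit 144)) (XT.lf (nat_lit 0) (nat_lit 18778824594857) (nat_lit 76) (nat_lit 15359303867722) (nat_lit 76) (nat_lit 15358315934514) (nat_lit 1) (nat_lit 4) (nat_lit 2) (nat_lit 5) (nat_lit 2) (nat_lit 4) (nat_lit 275) (nat_lit 184) (nat_lit 141))))) (XT.nd (nat_lit 780) (nat_lit 0) (nat_lit 0) (XT.nd (nat_lit 624) (nat_lit 0) (nat_lit 0) (XT.nd (nat_lit 78) (nat_lit 0) (nat_lit 0) (XT.lf (nat_lit 0) (nat_lit 21596738125490) (nat_lit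 76) (nat_lit 17662536311511) (nat_lit 76) (nat_lit 17661548061214) (nat_lit 1) (nat_lit 4) (nat_lit 2) (nat_lit 5) (nat_lit 2) (nat_lit 4) (nat_lit 276) (nat_lit 184) (nat_lit 140)) (XT.lf (nat_lit 0) (nat_lit 24837338036334) (nat_lit 76) (nat_lit 20311253928482) (nat_lit 76) (nat_lit 20310265402455) (nat_lit 1) (nat_lit 4) (nat_lit 2) (nat_lit 5) (nat_lit 2) (nat_lit 4) (nat_lit 277) (nat_lit 184) (nat_lit 139))) (XT.nd (nat_lit 78) (nat_lit 0) (nat_lit 0) (XT.lf (nat_lit 0) (nat_lit 66079849574702) (nat_lit 76) (nat_lit 54021011987644) (nat_lit 76) (nat_lit 54020022314467) (nat_lit 1) (nat_lit 4) (nat_lit 2) (nat_lit 5) (nat_lit 2) (nat_lit 4) (nat_lit 284) (nat_lit 184) (nat_lit 132)) (XT.lf (nat_lit 0) (nat_lit 75992913288932) (nat_lit 76) (nat_lit 62123502331913) (nat_lit 76) (nat_lit 62122512568599) (nat_lit 1) (nat_lit 4) (nat_lit 2) (nat_lit 5) (nat_lit 2) (nat_lit 4) (nat_lit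 285) (nat_lit 184) (nat_lit 131)))) (XT.nd (nat_lit 26988) (nat_lit 0) (nat_lit 0) (XT.nd (nat_lit 26910) (nat_lit 0) (nat_lit 0) (XT.lf (nat_lit 0) (nat_lit 87392936375701) (nat_lit 76) (nat_lit 71441366314982) (nat_lit 76) (nat_lit 71440376473288) (nat_lit 1) (nat_lit 4) (nat_lit 2) (nat_lit 5) (nat_lit 2) (nat_lit 4) (nat_lit 286) (nat_lit 184) (nat_lit 130)) (XT.lf (nat_lit 0) (nat_lit 9116967210) (nat_lit 76) (nat_lit 18746532474) (nat_lit 76) (nat_lit 18746532474) (nat_lit 1) (nat_lit 4) (nat_lit 2) (nat_lit 5) (nat_lit 2) (nat_lit 4) (nat_lit 230) (nat_lit 185) (nat_lit 185))) (XT.nd (nat_lit 78) (nat_lit 0) (nat_lit 0) (XT.lf (nat_lit 0) (nat_lit 24549071797) (nat_lit 76) (nat_lit 41255824481) (nat_lit 76) (nat_lit 41107269847) (nat_lit 1) (nat_lit 4) (nat_lit 2) (nat_lit 5) (nat_lit 2) (nat_lit 4) (nat_lit 231) (nat_lit 185) (nat_lit 184)) (XT.lf (nat_lit 0) (nat_lit 31507246520)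 (nat_lit 76) (nat_lit 45726645338) (nat_lit 76) (nat_lit 45448912762) (nat_lit 1) (nat_lit 4) (nat_lit 2) (nat_lit 5) (nat_lit 2) (nat_lit 4) (nat_lit 232) (nat_lit 185) (nat_lit 183)))))) (XT.nd (nat_lit 624) (nat_lit 0) (nat_lit 0) (XT.nd (nat_lit 312) (nat_lit 0) (nat_lit 0) (XT.nd (nat_lit 156) (nat_lit 0) (nat_lit 0) (XT.nd (nat_lit 78) (nat_lit 0) (nat_lit 0) (XT.lf (nat_lit 0) (nat_lit 39244596790) (nat_lit 76) (nat_lit 50993000104) (nat_lit 76) (nat_lit 50602938883) (nat_lit 1) (nat_lit 4) (nat_lit 2) (nat_lit 5) (nat_lit 2) (nat_lit 4) (nat_lit 233) (nat_lit 185) (nat_lit 182)) (XT.lf (nat_lit 0) (nat_lit 47912505546) (nat_lit 76) (nat_lit 57157926153) (nat_lit 76) (nat_lit 56670187849) (nat_lit 1) (nat_lit 4) (nat_lit 2) (nat_lit 5) (nat_lit 2) (nat_lit 4) (nat_lit 234) (nat_lit 185) (nat_lit 181))) (XT.nd (nat_lit 78) (nat_lit 0) (nat_lit 0) (XT.lf (nat_lit 0) (nat_lit 57680562308)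 (nat_lit 76) (nat_lit 64342041604) (nat_lit 76) (nat_lit 63769366706) (nat_lit 1) (nat_lit 4) (nat_lit 2) (nat_lit 5) (nat_lit 2) (nat_lit 4) (nat_lit 235) (nat_lit 185) (nat_lit 180)) (XT.lf (nat_lit 0) (nat_lit 68739881229) (nat_lit 76) (nat_lit 72685905238) (nat_lit 76) (nat_lit 72039372433) (nat_lit 1) (nat_lit 4) (nat_lit 2) (nat_lit 5) (nat_lit 2) (nat_lit 4) (nat_lit 236) (nat_lit 185) (nat_lit 179)))) (XT.nd (nat_lit 156) (nat_lit 0) (nat_lit 0) (XT.nd (nat_lit 78) (nat_lit 0) (nat_lit 0) (XT.lf (nat_lit 0) (nat_lit 81306840289) (nat_lit 76) (nat_lit 82352766561) (nat_lit 76) (nat_lit 81642009488) (nat_lit 1) (nat_lit 4) (nat_lit 2) (nat_lit 5) (nat_lit 2) (nat_lit 4) (nat_lit 237) (nat_lit 185) (nat_lit 178)) (XT.lf (nat_lit 0) (nat_lit 95627314773) (nat_lit 76) (nat_lit 93531759815) (nat_lit 76) (nat_lit 92765155553) (nat_lit 1) (nat_lit 4) (nat_lit 2) (nat_lit 5) (nat_lit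 2) (nat_lit 4) (nat_lit 238) (nat_lit 185) (nat_lit 177))) (XT.nd (nat_lit 78) (nat_lit 0) (nat_lit 0) (XT.lf (nat_lit 0) (nat_lit 111981487879) (nat_lit 76) (nat_lit 106441604434) (nat_lit 76) (nat_lit 105626437399) (nat_lit 1) (nat_lit 4) (nat_lit 2) (nat_lit 5) (nat_lit 2) (nat_lit 4) (nat_lit 239) (nat_lit 185) (nat_lit 176)) (XT.lf (nat_lit 0) (nat_lit 130689332557) (nat_lit 76) (nat_lit 121334884335) (nat_lit 76) (nat_lit 120477488801) (nat_lit 1) (nat_lit 4) (nat_lit 2) (nat_lit 5) (nat_lit 2) (nat_lit 4) (nat_lit 240) (nat_lit 185) (nat_lit 175))))) (XT.nd (nat_lit 312) (nat_lit 0) (nat_lit 0) (XT.nd (nat_lit 156) (nat_lit 0) (nat_lit 0) (XT.nd (nat_lit 78) (nat_lit 0) (nat_lit 0) (XT.lf (nat_lit 0) (nat_lit 152116871857) (nat_lit 76) (nat_lit 138502989776) (nat_lit 76) (nat_lit 137608873809) (nat_lit 1) (nat_lit 4) (nat_lit 2) (nat_lit 5) (nat_lit 2) (nat_lit 4) (nat_lit 241)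 (nat_lit 185) (nat_lit 174)) (XT.lf (nat_lit 0) (nat_lit 176683340242) (nat_lit 76) (nat_lit 158281818473) (nat_lit 76) (nat_lit 157355771694) (nat_lit 1) (nat_lit 4) (nat_lit 2) (nat_lit 5) (nat_lit 2) (nat_lit 4) (nat_lit 242) (nat_lit 185) (nat_lit 173))) (XT.nd (nat_lit 78) (nat_lit 0) (nat_lit 0) (XT.lf (nat_lit 0) (nat_lit 204869386007) (nat_lit 76) (nat_lit 181058347509) (nat_lit 76) (nat_lit 180104534806) (nat_lit 1) (nat_lit 4) (nat_lit 2) (nat_lit 5) (nat_lit 2) (nat_lit 4) (nat_lit 243) (nat_lit 185) (nat_lit 172)) (XT.lf (nat_lit 0) (nat_lit 237226475265) (nat_lit 76) (nat_lit 207278204625) (nat_lit 76) (nat_lit 206300247642) (nat_lit 1) (nat_lit 4) (nat_lit 2) (nat_lit 5) (nat_lit 2) (nat_lit 4) (nat_lit 244) (nat_lit 185) (nat_lit 171)))) (XT.nd (nat_lit 156) (nat_lit 0) (nat_lit 0) (XT.nd (nat_lit 78) (nat_lit 0) (nat_lit 0) (XT.lf (nat_lit 0) (nat_lit 274387681502)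 (nat_lit 76) (nat_lit 237454387027) (nat_lit 76) (nat_lit 236455435016) (nat_lit 1) (nat_lit 4) (nat_lit 2) (nat_lit 5) (nat_lit 2) (nat_lit 4) (nat_lit 245) (nat_lit 185) (nat_lit 170)) (XT.lf (nat_lit 0) (nat_lit 317080071795) (nat_lit 76) (nat_lit 272177298282) (nat_lit 76) (nat_lit 271160089726) (nat_lit 1) (nat_lit 4) (nat_lit 2) (nat_lit 5) (nat_lit 2) (nat_lit 4) (nat_lit 246) (nat_lit 185) (nat_lit 169))) (XT.nd (nat_lit 78) (nat_lit 0) (nat_lit 0) (XT.lf (nat_lit 0) (nat_lit 366138932043) (nat_lit 76) (nat_lit 312126299699) (nat_lit 76) (nat_lit 311093215886) (nat_lit 1) (nat_lit 4) (nat_lit 2) (nat_lit 5) (nat_lit 2) (nat_lit 4) (nat_lit 247) (nat_lit 185) (nat_lit 168)) (XT.lf (nat_lit 0) (nat_lit 422524109510) (nat_lit 76) (nat_lit 358083002174) (nat_lit 76) (nat_lit 357036113790) (nat_lit 1) (nat_lit 4) (nat_lit 2) (nat_lit 5) (nat_lit 2) (nat_lit 4) (nat_lit 248) (nat_lit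 185) (nat_lit 167))))))))
noncomputable def xc10 : XT := (XT.nd (nat_lit 29796) (nat_lit 0) (nat_lit 0) (XT.nd (nat_lit 1170) (nat_lit 0) (nat_lit 0) (XT.nd (nat_lit 546) (nat_lit 0) (nat_lit 0) (XT.nd (nat_lit 234) (nat_lit 0) (nat_lit 0) (XT.nd (nat_lit 78) (nat_lit 0) (nat_lit 0) (XT.lf (nat_lit 0) (nat_lit 487338792451) (nat_lit 76) (nat_lit 410946558582) (nat_lit 76) (nat_lit 409887666223) (nat_lit 1) (nat_lit 4) (nat_lit 2) (nat_lit 5) (nat_lit 2) (nat_lit 4) (nat_lit 249) (nat_lit 185) (nat_lit 166)) (XT.nd (nat_lit 78) (nat_lit 0) (nat_lit 0) (XT.lf (nat_lit 0) (nat_lit 561851094229) (nat_lit 76) (nat_lit 471751255896) (nat_lit 76) (nat_lit 470681925299) (nat_lit 1) (nat_lit 4) (nat_lit 2) (nat_lit 5) (nat_lit 2) (nat_lit 4) (nat_lit 250) (nat_lit 185) (nat_lit 165)) (XT.lf (nat_lit 0) (nat_lit 647518864226) (nat_lit 76) (nat_lit 541686751237) (nat_lit 76) (nat_lit 540608343910)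 (nat_lit 1) (nat_lit 4) (nat_lit 2) (nat_lit 5) (nat_lit 2) (nat_lit 4) (nat_lit 251) (nat_lit 185) (nat_lit 164)))) (XT.nd (nat_lit 156) (nat_lit 0) (nat_lit 0) (XT.nd (nat_lit 78) (nat_lit 0) (nat_lit 0) (XT.lf (nat_lit 0) (nat_lit 746018210986) (nat_lit 76) (nat_lit 622121347776) (nat_lit 76) (nat_lit 621035047641) (nat_lit 1) (nat_lit 4) (nat_lit 2) (nat_lit 5) (nat_lit 2) (nat_lit 4) (nat_lit 252) (nat_lit 185) (nat_lit 163)) (XT.lf (nat_lit 0) (nat_lit 859276295640) (nat_lit 76) (nat_lit 714628765879) (nat_lit 76) (nat_lit 713535602432) (nat_lit 1) (nat_lit 4) (nat_lit 2) (nat_lit 5) (nat_lit 2) (nat_lit 4) (nat_lit 253) (nat_lit 185) (nat_lit 162))) (XT.nd (nat_lit 78) (nat_lit 0) (nat_lit 0) (XT.lf (nat_lit 0) (nat_lit 989509037236) (nat_lit 76) (nat_lit 821018933292) (nat_lit 76) (nat_lit 819919801748) (nat_lit 1) (nat_lit 4) (nat_lit 2) (nat_lit 5) (nat_lit 2) (nat_lit 4)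 (nat_lit 254) (nat_lit 185) (nat_lit 161)) (XT.lf (nat_lit 0) (nat_lit 1139264467676) (nat_lit 76) (nat_lit 943373396768) (nat_lit 76) (nat_lit 942269075575) (nat_lit 1) (nat_lit 4) (nat_lit 2) (nat_lit 5) (nat_lit 2) (nat_lit 4) (nat_lit 255) (nat_lit 185) (nat_lit 160))))) (XT.nd (nat_lit 312) (nat_lit 0) (nat_lit 0) (XT.nd (nat_lit 156) (nat_lit 0) (nat_lit 0) (XT.nd (nat_lit 78) (nat_lit 0) (nat_lit 0) (XT.lf (nat_lit 0) (nat_lit 1311472584510) (nat_lit 76) (nat_lit 1084086047984) (nat_lit 76) (nat_lit 1082977214052) (nat_lit 1) (nat_lit 4) (nat_lit 2) (nat_lit 5) (nat_lit 2) (nat_lit 4) (nat_lit 256) (nat_lit 185) (nat_lit 159)) (XT.lf (nat_lit 0) (nat_lit 1509502676982) (nat_lit 76) (nat_lit 1245909960552) (nat_lit 76) (nat_lit 1244797202499) (nat_lit 1) (nat_lit 4) (nat_lit 2) (nat_lit 5) (nat_lit 2) (nat_lit 4) (nat_lit 257) (nat_lit 185) (nat_lit 158))) (XT.nd (nat_lit 78)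 (nat_lit 0) (nat_lit 0) (XT.lf (nat_lit 0) (nat_lit 1737229246901) (nat_lit 76) (nat_lit 1432011254499) (nat_lit 76) (nat_lit 1430895084167) (nat_lit 1) (nat_lit 4) (nat_lit 2) (nat_lit 5) (nat_lit 2) (nat_lit 4) (nat_lit 258) (nat_lit 185) (nat_lit 157)) (XT.lf (nat_lit 0) (nat_lit 1999107814113) (nat_lit 76) (nat_lit 1646031042098) (nat_lit 76) (nat_lit 1644911904567) (nat_lit 1) (nat_lit 4) (nat_lit 2) (nat_lit 5) (nat_lit 2) (nat_lit 4) (nat_lit 259) (nat_lit 185) (nat_lit 156)))) (XT.nd (nat_lit 156) (nat_lit 0) (nat_lit 0) (XT.nd (nat_lit 78) (nat_lit 0) (nat_lit 0) (XT.lf (nat_lit 0) (nat_lit 2300262089715) (nat_lit 76) (nat_lit 1892156667020) (nat_lit 76) (nat_lit 1891034949316) (nat_lit 1) (nat_lit 4) (nat_lit 2) (nat_lit 5) (nat_lit 2) (nat_lit 4) (nat_lit 260) (nat_lit 185) (nat_lit 155)) (XT.lf (nat_lit 0) (nat_lit 2646584222579) (nat_lit 76) (nat_lit 2175203630621) (nat_lit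 76) (nat_lit 2174079669289) (nat_lit 1) (nat_lit 4) (nat_lit 2) (nat_lit 5) (nat_lit 2) (nat_lit 4) (nat_lit 261) (nat_lit 185) (nat_lit 154))) (XT.nd (nat_lit 78) (nat_lit 0) (nat_lit 0) (XT.lf (nat_lit 0) (nat_lit 3044850080520) (nat_lit 76) (nat_lit 2500709808278) (nat_lit 76) (nat_lit 2499583895964) (nat_lit 1) (nat_lit 4) (nat_lit 2) (nat_lit 5) (nat_lit 2) (nat_lit 4) (nat_lit 262) (nat_lit 185) (nat_lit 153)) (XT.lf (nat_lit 0) (nat_lit 3502851821630) (nat_lit 76) (nat_lit 2875043799117) (nat_lit 76) (nat_lit 2873916190297) (nat_lit 1) (nat_lit 4) (nat_lit 2) (nat_lit 5) (nat_lit 2) (nat_lit 4) (nat_lit 263) (nat_lit 185) (nat_lit 152)))))) (XT.nd (nat_lit 624) (nat_lit 0) (nat_lit 0) (XT.nd (nat_lit 312) (nat_lit 0) (nat_lit 0) (XT.nd (nat_lit 156) (nat_lit 0) (nat_lit 0) (XT.nd (nat_lit 78) (nat_lit 0) (nat_lit 0) (XT.lf (nat_lit 0) (nat_lit 4029550349539) (nat_lit 76) (nat_lit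 3305529529047) (nat_lit 76) (nat_lit 3304400445005) (nat_lit 1) (nat_lit 4) (nat_lit 2) (nat_lit 5) (nat_lit 2) (nat_lit 4) (nat_lit 264) (nat_lit 185) (nat_lit 151)) (XT.lf (nat_lit 0) (nat_lit 4635250635444) (nat_lit 76) (nat_lit 3800589544957) (nat_lit 76) (nat_lit 3799459178113) (nat_lit 1) (nat_lit 4) (nat_lit 2) (nat_lit 5) (nat_lit 2) (nat_lit 4) (nat_lit 265) (nat_lit 185) (nat_lit 150))) (XT.nd (nat_lit 78) (nat_lit 0) (nat_lit 0) (XT.lf (nat_lit 0) (nat_lit 5331803337113) (nat_lit 76) (nat_lit 4369909803680) (nat_lit 76) (nat_lit 4368778321356) (nat_lit 1) (nat_lit 4) (nat_lit 2) (nat_lit 5) (nat_lit 2) (nat_lit 4) (nat_lit 266) (nat_lit 185) (nat_lit 149)) (XT.lf (nat_lit 0) (nat_lit 6132836659580) (nat_lit 76) (nat_lit 5024629179844) (nat_lit 76) (nat_lit 5023496727538) (nat_lit 1) (nat_lit 4) (nat_lit 2) (nat_lit 5) (nat_lit 2) (nat_lit 4) (nat_lit 267) (nat_lit 185) (nat_lit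 148)))) (XT.nd (nat_lit 156) (nat_lit 0) (nat_lit 0) (XT.nd (nat_lit 78) (nat_lit 0) (nat_lit 0) (XT.lf (nat_lit 0) (nat_lit 7054022993936) (nat_lit 76) (nat_lit 5777557400374) (nat_lit 76) (nat_lit 5776424104605) (nat_lit 1) (nat_lit 4) (nat_lit 2) (nat_lit 5) (nat_lit 2) (nat_lit 4) (nat_lit 268) (nat_lit 185) (nat_lit 147)) (XT.lf (nat_lit 0) (nat_lit 8113385551070) (nat_lit 76) (nat_lit 6643425669584) (nat_lit 76) (nat_lit 6642291640369) (nat_lit 1) (nat_lit 4) (nat_lit 2) (nat_lit 5) (nat_lit 2) (nat_lit 4) (nat_lit 269) (nat_lit 185) (nat_lit 146))) (XT.nd (nat_lit 78) (nat_lit 0) (nat_lit 0) (XT.lf (nat_lit 0) (nat_lit 9331650989710) (nat_lit 76) (nat_lit 7639174888394) (nat_lit 76) (nat_lit 7638040221399) (nat_lit 1) (nat_lit 4) (nat_lit 2) (nat_lit 5) (nat_lit 2) (nat_lit 4) (nat_lit 270) (nat_lit 185) (nat_lit 145)) (XT.lf (nat_lit 0) (nat_lit 10732654938001) (nat_lit 76)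 (nat_lit 8784287106737) (nat_lit 76) (nat_lit 8783151885151) (nat_lit 1) (nat_lit 4) (nat_lit 2) (nat_lit 5) (nat_lit 2) (nat_lit 4) (nat_lit 271) (nat_lit 185) (nat_lit 144))))) (XT.nd (nat_lit 390) (nat_lit 0) (nat_lit 0) (XT.nd (nat_lit 234) (nat_lit 0) (nat_lit 0) (XT.nd (nat_lit 156) (nat_lit 0) (nat_lit 0) (XT.lf (nat_lit 0) (nat_lit 12343808342759) (nat_lit 76) (nat_lit 10101166694102) (nat_lit 76) (nat_lit 10100030990263) (nat_lit 1) (nat_lit 4) (nat_lit 2) (nat_lit 5) (nat_lit 2) (nat_lit 4) (nat_lit 272) (nat_lit 185) (nat_lit 143)) (XT.lf (nat_lit 0) (nat_lit 16327382153804) (nat_lit 76) (nat_lit 13357152881952) (nat_lit 76) (nat_lit 13356016394111) (nat_lit 1) (nat_lit 4) (nat_lit 2) (nat_lit 5) (nat_lit 2) (nat_lit 4) (nat_lit 274) (nat_lit 185) (nat_lit 141))) (XT.nd (nat_lit 78) (nat_lit 0) (nat_lit 0) (XT.lf (nat_lit 0) (nat_lit 18777742047698) (nat_lit 76) (nat_lit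 15359963560026) (nat_lit 76) (nat_lit 15358826755096) (nat_lit 1) (nat_lit 4) (nat_lit 2) (nat_lit 5) (nat_lit 2) (nat_lit 4) (nat_lit 275) (nat_lit 185) (nat_lit 140)) (XT.lf (nat_lit 0) (nat_lit 21595655276292) (nat_lit 76) (nat_lit 17663196146426) (nat_lit 76) (nat_lit 17662059065766) (nat_lit 1) (nat_lit 4) (nat_lit 2) (nat_lit 5) (nat_lit 2) (nat_lit 4) (nat_lit 276) (nat_lit 185) (nat_lit 139)))) (XT.nd (nat_lit 27456) (nat_lit 0) (nat_lit 0) (XT.nd (nat_lit 78) (nat_lit 0) (nat_lit 0) (XT.lf (nat_lit 0) (nat_lit 24836254924494) (nat_lit 76) (nat_lit 20311913887407) (nat_lit 76) (nat_lit 20310776566982) (nat_lit 1) (nat_lit 4) (nat_lit 2) (nat_lit 5) (nat_lit 2) (nat_lit 4) (nat_lit 277) (nat_lit 185) (nat_lit 138)) (XT.lf (nat_lit 0) (nat_lit 28562944028897) (nat_lit 76) (nat_lit 23357939521380) (nat_lit 76) (nat_lit 23356801992464) (nat_lit 1) (nat_lit 4) (nat_lit 2) (nat_lit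 5) (nat_lit 2) (nat_lit 4) (nat_lit 278) (nat_lit 185) (nat_lit 137))) (XT.nd (nat_lit 78) (nat_lit 0) (nat_lit 0) (XT.lf (nat_lit 0) (nat_lit 3617923067) (nat_lit 76) (nat_lit 15946072002) (nat_lit 76) (nat_lit 15946072002) (nat_lit 1) (nat_lit 4) (nat_lit 2) (nat_lit 5) (nat_lit 2) (nat_lit 4) (nat_lit 228) (nat_lit 186) (nat_lit 186)) (XT.lf (nat_lit 0) (nat_lit 12438277352) (nat_lit 76) (nat_lit 34535585363) (nat_lit 76) (nat_lit 34364747535) (nat_lit 1) (nat_lit 4) (nat_lit 2) (nat_lit 5) (nat_lit 2) (nat_lit 4) (nat_lit 229) (nat_lit 186) (nat_lit 185))))))) (XT.nd (nat_lit 1170) (nat_lit 0) (nat_lit 0) (XT.nd (nat_lit 546) (nat_lit 0) (nat_lit 0) (XT.nd (nat_lit 234) (nat_lit 0) (nat_lit 0) (XT.nd (nat_lit 78) (nat_lit 0) (nat_lit 0) (XT.lf (nat_lit 0) (nat_lit 18071205001) (nat_lit 76) (nat_lit 37740737431) (nat_lit 76) (nat_lit 37421344969) (nat_lit 1) (nat_lit 4) (nat_lit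 2) (nat_lit 5) (nat_lit 2) (nat_lit 4) (nat_lit 230) (nat_lit 186) (nat_lit 184)) (XT.nd (nat_lit 78) (nat_lit 0) (nat_lit 0) (XT.lf (nat_lit 0) (nat_lit 24244838536) (nat_lit 76) (nat_lit 41570309705) (nat_lit 76) (nat_lit 41121739301) (nat_lit 1) (nat_lit 4) (nat_lit 2) (nat_lit 5) (nat_lit 2) (nat_lit 4) (nat_lit 231) (nat_lit 186) (nat_lit 183)) (XT.lf (nat_lit 0) (nat_lit 31079966440) (nat_lit 76) (nat_lit 46099228600) (nat_lit 76) (nat_lit 45538329550) (nat_lit 1) (nat_lit 4) (nat_lit 2) (nat_lit 5) (nat_lit 2) (nat_lit 4) (nat_lit 232) (nat_lit 186) (nat_lit 182)))) (XT.nd (nat_lit 156) (nat_lit 0) (nat_lit 0) (XT.nd (nat_lit 78) (nat_lit 0) (nat_lit 0) (XT.lf (nat_lit 0) (nat_lit 38710319475) (nat_lit 76) (nat_lit 51416103397) (nat_lit 76) (nat_lit 50757527265) (nat_lit 1) (nat_lit 4) (nat_lit 2) (nat_lit 5) (nat_lit 2) (nat_lit 4) (nat_lit 233) (nat_lit 186) (nat_lit 181))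 (XT.lf (nat_lit 0) (nat_lit 47285187157) (nat_lit 76) (nat_lit 57624959909) (nat_lit 76) (nat_lit 56881447183) (nat_lit 1) (nat_lit 4) (nat_lit 2) (nat_lit 5) (nat_lit 2) (nat_lit 4) (nat_lit 234) (nat_lit 186) (nat_lit 180))) (XT.nd (nat_lit 78) (nat_lit 0) (nat_lit 0) (XT.lf (nat_lit 0) (nat_lit 56972338638) (nat_lit 76) (nat_lit 64847275763) (nat_lit 76) (nat_lit 64029905129) (nat_lit 1) (nat_lit 4) (nat_lit 2) (nat_lit 5) (nat_lit 2) (nat_lit 4) (nat_lit 235) (nat_lit 186) (nat_lit 179)) (XT.lf (nat_lit 0) (nat_lit 67961305141) (nat_lit 76) (nat_lit 73224357138) (nat_lit 76) (nat_lit 72342762236) (nat_lit 1) (nat_lit 4) (nat_lit 2) (nat_lit 5) (nat_lit 2) (nat_lit 4) (nat_lit 236) (nat_lit 186) (nat_lit 178))))) (XT.nd (nat_lit 312) (nat_lit 0) (nat_lit 0) (XT.nd (nat_lit 156) (nat_lit 0) (nat_lit 0) (XT.nd (nat_lit 78) (nat_lit 0) (nat_lit 0) (XT.lf (nat_lit 0) (nat_lit 80467088185)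 (nat_lit 76) (nat_lit 82920103453) (nat_lit 76) (nat_lit 81982661362) (nat_lit 1) (nat_lit 4) (nat_lit 2) (nat_lit 5) (nat_lit 2) (nat_lit 4) (nat_lit 237) (nat_lit 186) (nat_lit 177)) (XT.lf (nat_lit 0) (nat_lit 94734366133) (nat_lit 76) (nat_lit 94124214092) (nat_lit 76) (nat_lit 93138209227) (nat_lit 1) (nat_lit 4) (nat_lit 2) (nat_lit 5) (nat_lit 2) (nat_lit 4) (nat_lit 238) (nat_lit 186) (nat_lit 176))) (XT.nd (nat_lit 78) (nat_lit 0) (nat_lit 0) (XT.lf (nat_lit 0) (nat_lit 111042281382) (nat_lit 76) (nat_lit 107055899915) (nat_lit 76) (nat_lit 106027666552) (nat_lit 1) (nat_lit 4) (nat_lit 2) (nat_lit 5) (nat_lit 2) (nat_lit 4) (nat_lit 239) (nat_lit 186) (nat_lit 175)) (XT.lf (nat_lit 0) (nat_lit 129709901837) (nat_lit 76) (nat_lit 121968172167) (nat_lit 76) (nat_lit 120903218371) (nat_lit 1) (nat_lit 4) (nat_lit 2) (nat_lit 5) (nat_lit 2) (nat_lit 4) (nat_lit 240) (nat_lit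 186) (nat_lit 174)))) (XT.nd (nat_lit 156) (nat_lit 0) (nat_lit 0) (XT.nd (nat_lit 78) (nat_lit 0) (nat_lit 0) (XT.lf (nat_lit 0) (nat_lit 151102463550) (nat_lit 76) (nat_lit 139152792696) (nat_lit 76) (nat_lit 138055908088) (nat_lit 1) (nat_lit 4) (nat_lit 2) (nat_lit 5) (nat_lit 2) (nat_lit 4) (nat_lit 241) (nat_lit 186) (nat_lit 173)) (XT.lf (nat_lit 0) (nat_lit 175638516643) (nat_lit 76) (nat_lit 158945982339) (nat_lit 76) (nat_lit 157821331808) (nat_lit 1) (nat_lit 4) (nat_lit 2) (nat_lit 5) (nat_lit 2) (nat_lit 4) (nat_lit 242) (nat_lit 186) (nat_lit 172))) (XT.nd (nat_lit 78) (nat_lit 0) (nat_lit 0) (XT.lf (nat_lit 0) (nat_lit 203798114329) (nat_lit 76) (nat_lit 181734999154) (nat_lit 76) (nat_lit 180586204342) (nat_lit 1) (nat_lit 4) (nat_lit 2) (nat_lit 5) (nat_lit 2) (nat_lit 4) (nat_lit 243) (nat_lit 186) (nat_lit 171)) (XT.lf (nat_lit 0) (nat_lit 236132205256) (nat_lit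 76) (nat_lit 207965715209) (nat_lit 76) (nat_lit 206795925370) (nat_lit 1) (nat_lit 4) (nat_lit 2) (nat_lit 5) (nat_lit 2) (nat_lit 4) (nat_lit 244) (nat_lit 186) (nat_lit 170)))))) (XT.nd (nat_lit 624) (nat_lit 0) (nat_lit 0) (XT.nd (nat_lit 312) (nat_lit 0) (nat_lit 0) (XT.nd (nat_lit 156) (nat_lit 0) (nat_lit 0) (XT.nd (nat_lit 78) (nat_lit 0) (nat_lit 0) (XT.lf (nat_lit 0) (nat_lit 273273412945) (nat_lit 76) (nat_lit 238151340166) (nat_lit 76) (nat_lit 236963293781) (nat_lit 1) (nat_lit 4) (nat_lit 2) (nat_lit 5) (nat_lit 2) (nat_lit 4) (nat_lit 245) (nat_lit 186) (nat_lit 169)) (XT.lf (nat_lit 0) (nat_lit 315948413196) (nat_lit 76) (nat_lit 272882462339) (nat_lit 76) (nat_lit 271678540698) (nat_lit 1) (nat_lit 4) (nat_lit 2) (nat_lit 5) (nat_lit 2) (nat_lit 4) (nat_lit 246) (nat_lit 186) (nat_lit 168))) (XT.nd (nat_lit 78) (nat_lit 0) (nat_lit 0) (XT.lf (nat_lit 0) (nat_lit 364992151668)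 (nat_lit 76) (nat_lit 312838603684) (nat_lit 76) (nat_lit 311620877472) (nat_lit 1) (nat_lit 4) (nat_lit 2) (nat_lit 5) (nat_lit 2) (nat_lit 4) (nat_lit 247) (nat_lit 186) (nat_lit 167)) (XT.lf (nat_lit 0) (nat_lit 421364179765) (nat_lit 76) (nat_lit 358801514792) (nat_lit 76) (nat_lit 357571784605) (nat_lit 1) (nat_lit 4) (nat_lit 2) (nat_lit 5) (nat_lit 2) (nat_lit 4) (nat_lit 248) (nat_lit 186) (nat_lit 166)))) (XT.nd (nat_lit 156) (nat_lit 0) (nat_lit 0) (XT.nd (nat_lit 78) (nat_lit 0) (nat_lit 0) (XT.lf (nat_lit 0) (nat_lit 486167428472) (nat_lit 76) (nat_lit 411670470012) (nat_lit 76) (nat_lit 410430301586) (nat_lit 1) (nat_lit 4) (nat_lit 2) (nat_lit 5) (nat_lit 2) (nat_lit 4) (nat_lit 249) (nat_lit 186) (nat_lit 165)) (XT.lf (nat_lit 0) (nat_lit 560669787437) (nat_lit 76) (nat_lit 472479861945) (nat_lit 76) (nat_lit 471230616789) (nat_lit 1) (nat_lit 4) (nat_lit 2) (nat_lit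 5) (nat_lit 2) (nat_lit 4) (nat_lit 250) (nat_lit 186) (nat_lit 164))) (XT.nd (nat_lit 78) (nat_lit 0) (nat_lit 0) (XT.lf (nat_lit 0) (nat_lit 646328911510) (nat_lit 76) (nat_lit 542419439563) (nat_lit 76) (nat_lit 541162301599) (nat_lit 1) (nat_lit 4) (nat_lit 2) (nat_lit 5) (nat_lit 2) (nat_lit 4) (nat_lit 251) (nat_lit 186) (nat_lit 163)) (XT.lf (nat_lit 0) (nat_lit 744820740074) (nat_lit 76) (nat_lit 622857585908) (nat_lit 76) (nat_lit 621593584633) (nat_lit 1) (nat_lit 4) (nat_lit 2) (nat_lit 5) (nat_lit 2) (nat_lit 4) (nat_lit 252) (nat_lit 186) (nat_lit 162))))) (XT.nd (nat_lit 312) (nat_lit 0) (nat_lit 0) (XT.nd (nat_lit 156) (nat_lit 0) (nat_lit 0) (XT.nd (nat_lit 78) (nat_lit 0) (nat_lit 0) (XT.lf (nat_lit 0) (nat_lit 858072287168) (nat_lit 76) (nat_lit 715368090799) (nat_lit 76) (nat_lit 714098121427) (nat_lit 1) (nat_lit 4) (nat_lit 2) (nat_lit 5) (nat_lit 2) (nat_lit 4)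 (nat_lit 253) (nat_lit 186) (nat_lit 161)) (XT.lf (nat_lit 0) (nat_lit 988299343929) (nat_lit 76) (nat_lit 821760942376) (nat_lit 76) (nat_lit 820485783354) (nat_lit 1) (nat_lit 4) (nat_lit 2) (nat_lit 5) (nat_lit 2) (nat_lit 4) (nat_lit 254) (nat_lit 186) (nat_lit 160))) (XT.nd (nat_lit 78) (nat_lit 0) (nat_lit 0) (XT.lf (nat_lit 0) (nat_lit 1138049831033) (nat_lit 76) (nat_lit 944117739907) (nat_lit 76) (nat_lit 942838068146) (nat_lit 1) (nat_lit 4) (nat_lit 2) (nat_lit 5) (nat_lit 2) (nat_lit 4) (nat_lit 255) (nat_lit 186) (nat_lit 159)) (XT.lf (nat_lit 0) (nat_lit 1310253649315) (nat_lit 76) (nat_lit 1084832420737) (nat_lit 76) (nat_lit 1083548824855) (nat_lit 1) (nat_lit 4) (nat_lit 2) (nat_lit 5) (nat_lit 2) (nat_lit 4) (nat_lit 256) (nat_lit 186) (nat_lit 158)))) (XT.nd (nat_lit 156) (nat_lit 0) (nat_lit 0) (XT.nd (nat_lit 78) (nat_lit 0) (nat_lit 0) (XT.lf (nat_lit 0) (nat_lit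 1508280003915) (nat_lit 76) (nat_lit 1246658098185) (nat_lit 76) (nat_lit 1245371090025) (nat_lit 1) (nat_lit 4) (nat_lit 2) (nat_lit 5) (nat_lit 2) (nat_lit 4) (nat_lit 257) (nat_lit 186) (nat_lit 157)) (XT.lf (nat_lit 0) (nat_lit 1736003323511) (nat_lit 76) (nat_lit 1432760926811) (nat_lit 76) (nat_lit 1431470951452) (nat_lit 1) (nat_lit 4) (nat_lit 2) (nat_lit 5) (nat_lit 2) (nat_lit 4) (nat_lit 258) (nat_lit 186) (nat_lit 156))) (XT.nd (nat_lit 78) (nat_lit 0) (nat_lit 0) (XT.lf (nat_lit 0) (nat_lit 1997879064355) (nat_lit 76) (nat_lit 1646782048914) (nat_lit 76) (nat_lit 1645489493382) (nat_lit 1) (nat_lit 4) (nat_lit 2) (nat_lit 5) (nat_lit 2) (nat_lit 4) (nat_lit 259) (nat_lit 186) (nat_lit 155)) (XT.lf (nat_lit 0) (nat_lit 2299030882246) (nat_lit 76) (nat_lit 1892908834274) (nat_lit 76) (nat_lit 1891614035113) (nat_lit 1) (nat_lit 4) (nat_lit 2) (nat_lit 5) (nat_lit 2) (nat_lit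 4) (nat_lit 260) (nat_lit 186) (nat_lit 154))))))))
noncomputable def xc11 : XT := (XT.nd (nat_lit 29562) (nat_lit 0) (nat_lit 0) (XT.nd (nat_lit 1170) (nat_lit 0) (nat_lit 0) (XT.nd (nat_lit 546) (nat_lit 0) (nat_lit 0) (XT.nd (nat_lit 234) (nat_lit 0) (nat_lit 0) (XT.nd (nat_lit 78) (nat_lit 0) (nat_lit 0) (XT.lf (nat_lit 0) (nat_lit 2645350877969) (nat_lit 76) (nat_lit 2175956806952) (nat_lit 76) (nat_lit 2174660056809) (nat_lit 1) (nat_lit 4) (nat_lit 2) (nat_lit 5) (nat_lit 2) (nat_lit 4) (nat_lit 261) (nat_lit 186) (nat_lit 153)) (XT.nd (nat_lit 78) (nat_lit 0) (nat_lit 0) (XT.lf (nat_lit 0) (nat_lit 3043614877528) (nat_lit 76) (nat_lit 2501463862066) (nat_lit 76) (nat_lit 2500165415418) (nat_lit 1) (nat_lit 4) (nat_lit 2) (nat_lit 5) (nat_lit 2) (nat_lit 4) (nat_lit 262) (nat_lit 186) (nat_lit 152)) (XT.lf (nat_lit 0) (nat_lit 3501615002653) (nat_lit 76) (nat_lit 2875798615912)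 (nat_lit 76) (nat_lit 2874498694042) (nat_lit 1) (nat_lit 4) (nat_lit 2) (nat_lit 5) (nat_lit 2) (nat_lit 4) (nat_lit 263) (nat_lit 186) (nat_lit 151)))) (XT.nd (nat_lit 156) (nat_lit 0) (nat_lit 0) (XT.nd (nat_lit 78) (nat_lit 0) (nat_lit 0) (XT.lf (nat_lit 0) (nat_lit 4028312125357) (nat_lit 76) (nat_lit 3306285009326) (nat_lit 76) (nat_lit 3304983804654) (nat_lit 1) (nat_lit 4) (nat_lit 2) (nat_lit 5) (nat_lit 2) (nat_lit 4) (nat_lit 264) (nat_lit 186) (nat_lit 150)) (XT.lf (nat_lit 0) (nat_lit 4634011189345) (nat_lit 76) (nat_lit 3801345602179) (nat_lit 76) (nat_lit 3800043282026) (nat_lit 1) (nat_lit 4) (nat_lit 2) (nat_lit 5) (nat_lit 2) (nat_lit 4) (nat_lit 265) (nat_lit 186) (nat_lit 149))) (XT.nd (nat_lit 78) (nat_lit 0) (nat_lit 0) (XT.lf (nat_lit 0) (nat_lit 5330562828478) (nat_lit 76) (nat_lit 4370666362592) (nat_lit 76) (nat_lit 4369363072457) (nat_lit 1) (nat_lit 4) (nat_lit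 2) (nat_lit 5) (nat_lit 2) (nat_lit 4) (nat_lit 266) (nat_lit 186) (nat_lit 148)) (XT.lf (nat_lit 0) (nat_lit 6131595227000) (nat_lit 76) (nat_lit 5025386175008) (nat_lit 76) (nat_lit 5024082041409) (nat_lit 1) (nat_lit 4) (nat_lit 2) (nat_lit 5) (nat_lit 2) (nat_lit 4) (nat_lit 267) (nat_lit 186) (nat_lit 147))))) (XT.nd (nat_lit 312) (nat_lit 0) (nat_lit 0) (XT.nd (nat_lit 156) (nat_lit 0) (nat_lit 0) (XT.nd (nat_lit 78) (nat_lit 0) (nat_lit 0) (XT.lf (nat_lit 0) (nat_lit 7052780757926) (nat_lit 76) (nat_lit 5778314774887) (nat_lit 76) (nat_lit 5777009907842) (nat_lit 1) (nat_lit 4) (nat_lit 2) (nat_lit 5) (nat_lit 2) (nat_lit 4) (nat_lit 268) (nat_lit 186) (nat_lit 146)) (XT.lf (nat_lit 0) (nat_lit 8112142616425) (nat_lit 76) (nat_lit 6644183373966) (nat_lit 76) (nat_lit 6642877869142) (nat_lit 1) (nat_lit 4) (nat_lit 2) (nat_lit 5) (nat_lit 2) (nat_lit 4) (nat_lit 269) (nat_lit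 186) (nat_lit 145))) (XT.nd (nat_lit 78) (nat_lit 0) (nat_lit 0) (XT.lf (nat_lit 0) (nat_lit 9330407447556) (nat_lit 76) (nat_lit 7639932879618) (nat_lit 76) (nat_lit 7638626820203) (nat_lit 1) (nat_lit 4) (nat_lit 2) (nat_lit 5) (nat_lit 2) (nat_lit 4) (nat_lit 270) (nat_lit 186) (nat_lit 144)) (XT.lf (nat_lit 0) (nat_lit 10731410867579) (nat_lit 76) (nat_lit 8785045347389) (nat_lit 76) (nat_lit 8783738805722) (nat_lit 1) (nat_lit 4) (nat_lit 2) (nat_lit 5) (nat_lit 2) (nat_lit 4) (nat_lit 271) (nat_lit 186) (nat_lit 143)))) (XT.nd (nat_lit 156) (nat_lit 0) (nat_lit 0) (XT.nd (nat_lit 78) (nat_lit 0) (nat_lit 0) (XT.lf (nat_lit 0) (nat_lit 12342563812973) (nat_lit 76) (nat_lit 10101925151648) (nat_lit 76) (nat_lit 10100618190630) (nat_lit 1) (nat_lit 4) (nat_lit 2) (nat_lit 5) (nat_lit 2) (nat_lit 4) (nat_lit 272) (nat_lit 186) (nat_lit 142)) (XT.lf (nat_lit 0) (nat_lit 14195388841367)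 (nat_lit 76) (nat_lit 11616337332043) (nat_lit 76) (nat_lit 11615030006374) (nat_lit 1) (nat_lit 4) (nat_lit 2) (nat_lit 5) (nat_lit 2) (nat_lit 4) (nat_lit 273) (nat_lit 186) (nat_lit 141))) (XT.nd (nat_lit 78) (nat_lit 0) (nat_lit 0) (XT.lf (nat_lit 0) (nat_lit 16326136877227) (nat_lit 76) (nat_lit 13357911692105) (nat_lit 76) (nat_lit 13356604049346) (nat_lit 1) (nat_lit 4) (nat_lit 2) (nat_lit 5) (nat_lit 2) (nat_lit 4) (nat_lit 274) (nat_lit 186) (nat_lit 140)) (XT.lf (nat_lit 0) (nat_lit 18776496469082) (nat_lit 76) (nat_lit 15360722512791) (nat_lit 76) (nat_lit 15359414594302) (nat_lit 1) (nat_lit 4) (nat_lit 2) (nat_lit 5) (nat_lit 2) (nat_lit 4) (nat_lit 275) (nat_lit 186) (nat_lit 139)))))) (XT.nd (nat_lit 27768) (nat_lit 0) (nat_lit 0) (XT.nd (nat_lit 27456) (nat_lit 0) (nat_lit 0) (XT.nd (nat_lit 156) (nat_lit 0) (nat_lit 0) (XT.nd (nat_lit 78) (nat_lit 0) (nat_lit 0) (XT.lf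 (nat_lit 0) (nat_lit 21594409435033) (nat_lit 76) (nat_lit 17663955223200) (nat_lit 76) (nat_lit 17662647064947) (nat_lit 1) (nat_lit 4) (nat_lit 2) (nat_lit 5) (nat_lit 2) (nat_lit 4) (nat_lit 276) (nat_lit 186) (nat_lit 138)) (XT.lf (nat_lit 0) (nat_lit 24835008854849) (nat_lit 76) (nat_lit 20312673072016) (nat_lit 76) (nat_lit 20311364705272) (nat_lit 1) (nat_lit 4) (nat_lit 2) (nat_lit 5) (nat_lit 2) (nat_lit 4) (nat_lit 277) (nat_lit 186) (nat_lit 137))) (XT.nd (nat_lit 27222) (nat_lit 0) (nat_lit 76) (XT.lf (nat_lit 0) (nat_lit 28561697760657) (nat_lit 76) (nat_lit 23358698799758) (nat_lit 76) (nat_lit 23357390251717) (nat_lit 1) (nat_lit 4) (nat_lit 2) (nat_lit 5) (nat_lit 2) (nat_lit 4) (nat_lit 278) (nat_lit 186) (nat_lit 136)) (XT.lf (nat_lit 0) (nat_lit 13105368044) (nat_lit 152) (nat_lit 939683704) (nat_lit 0) (nat_lit 13105368044) (nat_lit 2) (nat_lit 5) (nat_lit 4) (nat_lit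 4) (nat_lit 2) (nat_lit 4) (nat_lit 226) (nat_lit 187) (nat_lit 187)))) (XT.nd (nat_lit 156) (nat_lit 0) (nat_lit 0) (XT.nd (nat_lit 78) (nat_lit 0) (nat_lit 0) (XT.lf (nat_lit 0) (nat_lit 2362124651) (nat_lit 76) (nat_lit 29955157353) (nat_lit 76) (nat_lit 29758693850) (nat_lit 1) (nat_lit 4) (nat_lit 2) (nat_lit 5) (nat_lit 2) (nat_lit 4) (nat_lit 227) (nat_lit 187) (nat_lit 186)) (XT.lf (nat_lit 0) (nat_lit 7048707303) (nat_lit 76) (nat_lit 32176967359) (nat_lit 76) (nat_lit 31809666028) (nat_lit 1) (nat_lit 4) (nat_lit 2) (nat_lit 5) (nat_lit 2) (nat_lit 4) (nat_lit 228) (nat_lit 187) (nat_lit 185))) (XT.nd (nat_lit 78) (nat_lit 0) (nat_lit 0) (XT.lf (nat_lit 0) (nat_lit 12088409101) (nat_lit 76) (nat_lit 34897243372) (nat_lit 76) (nat_lit 34381387407) (nat_lit 1) (nat_lit 4) (nat_lit 2) (nat_lit 5) (nat_lit 2) (nat_lit 4) (nat_lit 229) (nat_lit 187) (nat_lit 184)) (XT.lf (nat_lit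 0) (nat_lit 17579832908) (nat_lit 76) (nat_lit 38169208182) (nat_lit 76) (nat_lit 37524174275) (nat_lit 1) (nat_lit 4) (nat_lit 2) (nat_lit 5) (nat_lit 2) (nat_lit 4) (nat_lit 230) (nat_lit 187) (nat_lit 183))))) (XT.nd (nat_lit 312) (nat_lit 0) (nat_lit 0) (XT.nd (nat_lit 156) (nat_lit 0) (nat_lit 0) (XT.nd (nat_lit 78) (nat_lit 0) (nat_lit 0) (XT.lf (nat_lit 0) (nat_lit 23630419623) (nat_lit 76) (nat_lit 42056878493) (nat_lit 76) (nat_lit 41299515940) (nat_lit 1) (nat_lit 4) (nat_lit 2) (nat_lit 5) (nat_lit 2) (nat_lit 4) (nat_lit 231) (nat_lit 187) (nat_lit 182)) (XT.lf (nat_lit 0) (nat_lit 30358550293) (nat_lit 76) (nat_lit 46636317419) (nat_lit 76) (nat_lit 45781277784) (nat_lit 1) (nat_lit 4) (nat_lit 2) (nat_lit 5) (nat_lit 2) (nat_lit 4) (nat_lit 232) (nat_lit 187) (nat_lit 181))) (XT.nd (nat_lit 78) (nat_lit 0) (nat_lit 0) (XT.lf (nat_lit 0) (nat_lit 37895862254) (nat_lit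 76) (nat_lit 51997122680) (nat_lit 76) (nat_lit 51057146450) (nat_lit 1) (nat_lit 4) (nat_lit 2) (nat_lit 5) (nat_lit 2) (nat_lit 4) (nat_lit 233) (nat_lit 187) (nat_lit 180)) (XT.lf (nat_lit 0) (nat_lit 46389824656) (nat_lit 76) (nat_lit 58244179594) (nat_lit 76) (nat_lit 57230345457) (nat_lit 1) (nat_lit 4) (nat_lit 2) (nat_lit 5) (nat_lit 2) (nat_lit 4) (nat_lit 234) (nat_lit 187) (nat_lit 179)))) (XT.nd (nat_lit 156) (nat_lit 0) (nat_lit 0) (XT.nd (nat_lit 78) (nat_lit 0) (nat_lit 0) (XT.lf (nat_lit 0) (nat_lit 56006623718) (nat_lit 76) (nat_lit 65499713189) (nat_lit 76) (nat_lit 64421654784) (nat_lit 1) (nat_lit 4) (nat_lit 2) (nat_lit 5) (nat_lit 2) (nat_lit 4) (nat_lit 235) (nat_lit 187) (nat_lit 178)) (XT.lf (nat_lit 0) (nat_lit 66934414205) (nat_lit 76) (nat_lit 73905679556) (nat_lit 76) (nat_lit 72771773962) (nat_lit 1) (nat_lit 4) (nat_lit 2) (nat_lit 5) (nat_lit 2) (nat_lit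 4) (nat_lit 236) (nat_lit 187) (nat_lit 177))) (XT.nd (nat_lit 78) (nat_lit 0) (nat_lit 0) (XT.lf (nat_lit 0) (nat_lit 79387000713) (nat_lit 76) (nat_lit 83626543255) (nat_lit 76) (nat_lit 82444074888) (nat_lit 1) (nat_lit 4) (nat_lit 2) (nat_lit 5) (nat_lit 2) (nat_lit 4) (nat_lit 237) (nat_lit 187) (nat_lit 176)) (XT.lf (nat_lit 0) (nat_lit 93608020805) (nat_lit 76) (nat_lit 94852495098) (nat_lit 76) (nat_lit 93627798233) (nat_lit 1) (nat_lit 4) (nat_lit 2) (nat_lit 5) (nat_lit 2) (nat_lit 4) (nat_lit 238) (nat_lit 187) (nat_lit 175))))))) (XT.nd (nat_lit 1170) (nat_lit 0) (nat_lit 0) (XT.nd (nat_lit 546) (nat_lit 0) (nat_lit 0) (XT.nd (nat_lit 234) (nat_lit 0) (nat_lit 0) (XT.nd (nat_lit 78) (nat_lit 0) (nat_lit 0) (XT.lf (nat_lit 0) (nat_lit 109875711829) (nat_lit 76) (nat_lit 107803173273) (nat_lit 76) (nat_lit 106541755974) (nat_lit 1) (nat_lit 4) (nat_lit 2) (nat_lit 5) (nat_lit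 2) (nat_lit 4) (nat_lit 239) (nat_lit 187) (nat_lit 174)) (XT.nd (nat_lit 78) (nat_lit 0) (nat_lit 0) (XT.lf (nat_lit 0) (nat_lit 128508354698) (nat_lit 76) (nat_lit 122731960613) (nat_lit 76) (nat_lit 121438612502) (nat_lit 1) (nat_lit 4) (nat_lit 2) (nat_lit 5) (nat_lit 2) (nat_lit 4) (nat_lit 240) (nat_lit 187) (nat_lit 173)) (XT.lf (nat_lit 0) (nat_lit 149870501120) (nat_lit 76) (nat_lit 139930942089) (nat_lit 76) (nat_lit 138609828055) (nat_lit 1) (nat_lit 4) (nat_lit 2) (nat_lit 5) (nat_lit 2) (nat_lit 4) (nat_lit 241) (nat_lit 187) (nat_lit 172)))) (XT.nd (nat_lit 156) (nat_lit 0) (nat_lit 0) (XT.nd (nat_lit 78) (nat_lit 0) (nat_lit 0) (XT.lf (nat_lit 0) (nat_lit 174380106133) (nat_lit 76) (nat_lit 159736619511) (nat_lit 76) (nat_lit 158391361196) (nat_lit 1) (nat_lit 4) (nat_lit 2) (nat_lit 5) (nat_lit 2) (nat_lit 4) (nat_lit 242) (nat_lit 187) (nat_lit 171)) (XT.lf (nat_lit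 0) (nat_lit 202516705488) (nat_lit 76) (nat_lit 182536495264) (nat_lit 76) (nat_lit 181170241922) (nat_lit 1) (nat_lit 4) (nat_lit 2) (nat_lit 5) (nat_lit 2) (nat_lit 4) (nat_lit 243) (nat_lit 187) (nat_lit 170))) (XT.nd (nat_lit 78) (nat_lit 0) (nat_lit 0) (XT.lf (nat_lit 0) (nat_lit 234830797868) (nat_lit 76) (nat_lit 208776653874) (nat_lit 76) (nat_lit 207392143987) (nat_lit 1) (nat_lit 4) (nat_lit 2) (nat_lit 5) (nat_lit 2) (nat_lit 4) (nat_lit 244) (nat_lit 187) (nat_lit 169)) (XT.lf (nat_lit 0) (nat_lit 271954615514) (nat_lit 76) (nat_lit 238970489748) (nat_lit 76) (nat_lit 237570104605) (nat_lit 1) (nat_lit 4) (nat_lit 2) (nat_lit 5) (nat_lit 2) (nat_lit 4) (nat_lit 245) (nat_lit 187) (nat_lit 168))))) (XT.nd (nat_lit 312) (nat_lit 0) (nat_lit 0) (XT.nd (nat_lit 156) (nat_lit 0) (nat_lit 0) (XT.nd (nat_lit 78) (nat_lit 0) (nat_lit 0) (XT.lf (nat_lit 0) (nat_lit 314614493990)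 (nat_lit 76) (nat_lit 273708751850) (nat_lit 76) (nat_lit 272294562135) (nat_lit 1) (nat_lit 4) (nat_lit 2) (nat_lit 5) (nat_lit 2) (nat_lit 4) (nat_lit 246) (nat_lit 187) (nat_lit 167)) (XT.lf (nat_lit 0) (nat_lit 363645083092) (nat_lit 76) (nat_lit 313671101828) (nat_lit 76) (nat_lit 312244908138) (nat_lit 1) (nat_lit 4) (nat_lit 2) (nat_lit 5) (nat_lit 2) (nat_lit 4) (nat_lit 247) (nat_lit 187) (nat_lit 166))) (XT.nd (nat_lit 78) (nat_lit 0) (nat_lit 0) (XT.lf (nat_lit 0) (nat_lit 420005676955) (nat_lit 76) (nat_lit 359639411748) (nat_lit 76) (nat_lit 358202779819) (nat_lit 1) (nat_lit 4) (nat_lit 2) (nat_lit 5) (nat_lit 2) (nat_lit 4) (nat_lit 248) (nat_lit 187) (nat_lit 165)) (XT.lf (nat_lit 0) (nat_lit 484798982849) (nat_lit 76) (nat_lit 412513061586) (nat_lit 76) (nat_lit 411067352928) (nat_lit 1) (nat_lit 4) (nat_lit 2) (nat_lit 5) (nat_lit 2) (nat_lit 4) (nat_lit 249) (nat_lit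 187) (nat_lit 164)))) (XT.nd (nat_lit 156) (nat_lit 0) (nat_lit 0) (XT.nd (nat_lit 78) (nat_lit 0) (nat_lit 0) (XT.lf (nat_lit 0) (nat_lit 559292695889) (nat_lit 76) (nat_lit 473326535796) (nat_lit 76) (nat_lit 471872934330) (nat_lit 1) (nat_lit 4) (nat_lit 2) (nat_lit 5) (nat_lit 2) (nat_lit 4) (nat_lit 250) (nat_lit 187) (nat_lit 163)) (XT.lf (nat_lit 0) (nat_lit 644944301767) (nat_lit 76) (nat_lit 543269663221) (nat_lit 76) (nat_lit 541809198443) (nat_lit 1) (nat_lit 4) (nat_lit 2) (nat_lit 5) (nat_lit 2) (nat_lit 4) (nat_lit 251) (nat_lit 187) (nat_lit 162))) (XT.nd (nat_lit 78) (nat_lit 0) (nat_lit 0) (XT.lf (nat_lit 0) (nat_lit 743429592771) (nat_lit 76) (nat_lit 623710896354) (nat_lit 76) (nat_lit 622244463479) (nat_lit 1) (nat_lit 4) (nat_lit 2) (nat_lit 5) (nat_lit 2) (nat_lit 4) (nat_lit 252) (nat_lit 187) (nat_lit 161)) (XT.lf (nat_lit 0) (nat_lit 856675455028) (nat_lit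 76) (nat_lit 716224085409) (nat_lit 76) (nat_lit 714752462884) (nat_lit 1) (nat_lit 4) (nat_lit 2) (nat_lit 5) (nat_lit 2) (nat_lit 4) (nat_lit 253) (nat_lit 187) (nat_lit 160)))))) (XT.nd (nat_lit 624) (nat_lit 0) (nat_lit 0) (XT.nd (nat_lit 312) (nat_lit 0) (nat_lit 0) (XT.nd (nat_lit 156) (nat_lit 0) (nat_lit 0) (XT.nd (nat_lit 78) (nat_lit 0) (nat_lit 0) (XT.lf (nat_lit 0) (nat_lit 986897568454) (nat_lit 76) (nat_lit 822619271041) (nat_lit 76) (nat_lit 821143135777) (nat_lit 1) (nat_lit 4) (nat_lit 2) (nat_lit 5) (nat_lit 2) (nat_lit 4) (nat_lit 254) (nat_lit 187) (nat_lit 159)) (XT.lf (nat_lit 0) (nat_lit 1136643757006) (nat_lit 76) (nat_lit 944978098185) (nat_lit 76) (nat_lit 943498038801) (nat_lit 1) (nat_lit 4) (nat_lit 2) (nat_lit 5) (nat_lit 2) (nat_lit 4) (nat_lit 255) (nat_lit 187) (nat_lit 158))) (XT.nd (nat_lit 78) (nat_lit 0) (nat_lit 0) (XT.lf (nat_lit 0) (nat_lit 1308843837416)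 (nat_lit 76) (nat_lit 1085694543896) (nat_lit 76) (nat_lit 1084211072233) (nat_lit 1) (nat_lit 4) (nat_lit 2) (nat_lit 5) (nat_lit 2) (nat_lit 4) (nat_lit 256) (nat_lit 187) (nat_lit 157)) (XT.lf (nat_lit 0) (nat_lit 1506866941693) (nat_lit 76) (nat_lit 1247521756024) (nat_lit 76) (nat_lit 1246035317162) (nat_lit 1) (nat_lit 4) (nat_lit 2) (nat_lit 5) (nat_lit 2) (nat_lit 4) (nat_lit 257) (nat_lit 187) (nat_lit 156)))) (XT.nd (nat_lit 156) (nat_lit 0) (nat_lit 0) (XT.nd (nat_lit 78) (nat_lit 0) (nat_lit 0) (XT.lf (nat_lit 0) (nat_lit 1734587434921) (nat_lit 76) (nat_lit 1433625919153) (nat_lit 76) (nat_lit 1432136900118) (nat_lit 1) (nat_lit 4) (nat_lit 2) (nat_lit 5) (nat_lit 2) (nat_lit 4) (nat_lit 258) (nat_lit 187) (nat_lit 155)) (XT.lf (nat_lit 0) (nat_lit 1996460718054) (nat_lit 76) (nat_lit 1647648201694) (nat_lit 76) (nat_lit 1646156939030) (nat_lit 1) (nat_lit 4) (nat_lit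 2) (nat_lit 5) (nat_lit 2) (nat_lit 4) (nat_lit 259) (nat_lit 187) (nat_lit 154))) (XT.nd (nat_lit 78) (nat_lit 0) (nat_lit 0) (XT.lf (nat_lit 0) (nat_lit 2297610398805) (nat_lit 76) (nat_lit 1893775996130) (nat_lit 76) (nat_lit 1892282782485) (nat_lit 1) (nat_lit 4) (nat_lit 2) (nat_lit 5) (nat_lit 2) (nat_lit 4) (nat_lit 260) (nat_lit 187) (nat_lit 153)) (XT.lf (nat_lit 0) (nat_lit 2643928536145) (nat_lit 76) (nat_lit 2176824846266) (nat_lit 76) (nat_lit 2175329936115) (nat_lit 1) (nat_lit 4) (nat_lit 2) (nat_lit 5) (nat_lit 2) (nat_lit 4) (nat_lit 261) (nat_lit 187) (nat_lit 152))))) (XT.nd (nat_lit 312) (nat_lit 0) (nat_lit 0) (XT.nd (nat_lit 156) (nat_lit 0) (nat_lit 0) (XT.nd (nat_lit 78) (nat_lit 0) (nat_lit 0) (XT.lf (nat_lit 0) (nat_lit 3042190919719) (nat_lit 76) (nat_lit 2502332664387) (nat_lit 76) (nat_lit 2500836279014) (nat_lit 1) (nat_lit 4) (nat_lit 2) (nat_lit 5) (nat_lit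 2) (nat_lit 4) (nat_lit 262) (nat_lit 187) (nat_lit 151)) (XT.lf (nat_lit 0) (nat_lit 3500189639639) (nat_lit 76) (nat_lit 2876668081717) (nat_lit 76) (nat_lit 2875170413542) (nat_lit 1) (nat_lit 4) (nat_lit 2) (nat_lit 5) (nat_lit 2) (nat_lit 4) (nat_lit 263) (nat_lit 187) (nat_lit 150))) (XT.nd (nat_lit 78) (nat_lit 0) (nat_lit 0) (XT.lf (nat_lit 0) (nat_lit 4026885540426) (nat_lit 76) (nat_lit 3307155052074) (nat_lit 76) (nat_lit 3305656268419) (nat_lit 1) (nat_lit 4) (nat_lit 2) (nat_lit 5) (nat_lit 2) (nat_lit 4) (nat_lit 264) (nat_lit 187) (nat_lit 149)) (XT.lf (nat_lit 0) (nat_lit 4632583541878) (nat_lit 76) (nat_lit 3802216146616) (nat_lit 76) (nat_lit 3800716392978) (nat_lit 1) (nat_lit 4) (nat_lit 2) (nat_lit 5) (nat_lit 2) (nat_lit 4) (nat_lit 265) (nat_lit 187) (nat_lit 148)))) (XT.nd (nat_lit 156) (nat_lit 0) (nat_lit 0) (XT.nd (nat_lit 78) (nat_lit 0) (nat_lit 0) (XT.lf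 (nat_lit 0) (nat_lit 5329134257067) (nat_lit 76) (nat_lit 4371537343281) (nat_lit 76) (nat_lit 4370036746180) (nat_lit 1) (nat_lit 4) (nat_lit 2) (nat_lit 5) (nat_lit 2) (nat_lit 4) (nat_lit 266) (nat_lit 187) (nat_lit 147)) (XT.lf (nat_lit 0) (nat_lit 6130165852159) (nat_lit 76) (nat_lit 5026257535046) (nat_lit 76) (nat_lit 5024756204499) (nat_lit 1) (nat_lit 4) (nat_lit 2) (nat_lit 5) (nat_lit 2) (nat_lit 4) (nat_lit 267) (nat_lit 187) (nat_lit 146))) (XT.nd (nat_lit 78) (nat_lit 0) (nat_lit 0) (XT.lf (nat_lit 0) (nat_lit 7051350684449) (nat_lit 76) (nat_lit 5779186464794) (nat_lit 76) (nat_lit 5777684496467) (nat_lit 1) (nat_lit 4) (nat_lit 2) (nat_lit 5) (nat_lit 2) (nat_lit 4) (nat_lit 268) (nat_lit 187) (nat_lit 145)) (XT.lf (nat_lit 0) (nat_lit 8110711935440) (nat_lit 76) (nat_lit 6645055350715) (nat_lit 76) (nat_lit 6643552827798) (nat_lit 1) (nat_lit 4) (nat_lit 2) (nat_lit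 5) (nat_lit 2) (nat_lit 4) (nat_lit 269) (nat_lit 187) (nat_lit 144))))))))
noncomputable def xc12 : XT := (XT.nd (nat_lit 29406) (nat_lit 0) (nat_lit 0) (XT.nd (nat_lit 28158) (nat_lit 0) (nat_lit 0) (XT.nd (nat_lit 546) (nat_lit 0) (nat_lit 0) (XT.nd (nat_lit 234) (nat_lit 0) (nat_lit 0) (XT.nd (nat_lit 78) (nat_lit 0) (nat_lit 0) (XT.lf (nat_lit 0) (nat_lit 9328976238302) (nat_lit 76) (nat_lit 7640805105796) (nat_lit 76) (nat_lit 7639302100626) (nat_lit 1) (nat_lit 4) (nat_lit 2) (nat_lit 5) (nat_lit 2) (nat_lit 4) (nat_lit 270) (nat_lit 187) (nat_lit 143)) (XT.nd (nat_lit 78) (nat_lit 0) (nat_lit 0) (XT.lf (nat_lit 0) (nat_lit 10729979198962) (nat_lit 76) (nat_lit 8785917790461) (nat_lit 76) (nat_lit 8784414365941) (nat_lit 1) (nat_lit 4) (nat_lit 2) (nat_lit 5) (nat_lit 2) (nat_lit 4) (nat_lit 271) (nat_lit 187) (nat_lit 142)) (XT.lf (nat_lit 0) (nat_lit 12341131744909) (nat_lit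 76) (nat_lit 10102797783324) (nat_lit 76) (nat_lit 10101293994151) (nat_lit 1) (nat_lit 4) (nat_lit 2) (nat_lit 5) (nat_lit 2) (nat_lit 4) (nat_lit 272) (nat_lit 187) (nat_lit 141)))) (XT.nd (nat_lit 156) (nat_lit 0) (nat_lit 0) (XT.nd (nat_lit 78) (nat_lit 0) (nat_lit 0) (XT.lf (nat_lit 0) (nat_lit 14193956425957) (nat_lit 76) (nat_lit 11617210127722) (nat_lit 76) (nat_lit 11615706021461) (nat_lit 1) (nat_lit 4) (nat_lit 2) (nat_lit 5) (nat_lit 2) (nat_lit 4) (nat_lit 273) (nat_lit 187) (nat_lit 140)) (XT.lf (nat_lit 0) (nat_lit 16324704159778) (nat_lit 76) (nat_lit 13358784630395) (nat_lit 76) (nat_lit 13357280248404) (nat_lit 1) (nat_lit 4) (nat_lit 2) (nat_lit 5) (nat_lit 2) (nat_lit 4) (nat_lit 274) (nat_lit 187) (nat_lit 139))) (XT.nd (nat_lit 78) (nat_lit 0) (nat_lit 0) (XT.lf (nat_lit 0) (nat_lit 18775063488990) (nat_lit 76) (nat_lit 15361595575091) (nat_lit 76) (nat_lit 15360090953335)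 (nat_lit 1) (nat_lit 4) (nat_lit 2) (nat_lit 5) (nat_lit 2) (nat_lit 4) (nat_lit 275) (nat_lit 187) (nat_lit 138)) (XT.lf (nat_lit 0) (nat_lit 21592976226557) (nat_lit 76) (nat_lit 17664828393335) (nat_lit 76) (nat_lit 17663323563088) (nat_lit 1) (nat_lit 4) (nat_lit 2) (nat_lit 5) (nat_lit 2) (nat_lit 4) (nat_lit 276) (nat_lit 187) (nat_lit 137))))) (XT.nd (nat_lit 27300) (nat_lit 0) (nat_lit 0) (XT.nd (nat_lit 27144) (nat_lit 0) (nat_lit 76) (XT.nd (nat_lit 78) (nat_lit 0) (nat_lit 0) (XT.lf (nat_lit 0) (nat_lit 24833575447777) (nat_lit 76) (nat_lit 20313546335920) (nat_lit 76) (nat_lit 20312041324376) (nat_lit 1) (nat_lit 4) (nat_lit 2) (nat_lit 5) (nat_lit 2) (nat_lit 4) (nat_lit 277) (nat_lit 187) (nat_lit 136)) (XT.lf (nat_lit 0) (nat_lit 28560264180893) (nat_lit 76) (nat_lit 23359572145201) (nat_lit 76) (nat_lit 23358066976008) (nat_lit 1) (nat_lit 4) (nat_lit 2) (nat_lit 5)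 (nat_lit 2) (nat_lit 4) (nat_lit 278) (nat_lit 187) (nat_lit 135))) (XT.nd (nat_lit 78) (nat_lit 0) (nat_lit 0) (XT.lf (nat_lit 0) (nat_lit 8098814661) (nat_lit 152) (nat_lit 4657111740) (nat_lit 0) (nat_lit 8098814661) (nat_lit 2) (nat_lit 5) (nat_lit 4) (nat_lit 4) (nat_lit 2) (nat_lit 4) (nat_lit 224) (nat_lit 188) (nat_lit 188)) (XT.lf (nat_lit 0) (nat_lit 21015967423) (nat_lit 152) (nat_lit 5751286826) (nat_lit 0) (nat_lit 20790034395) (nat_lit 2) (nat_lit 5) (nat_lit 4) (nat_lit 4) (nat_lit 2) (nat_lit 4) (nat_lit 225) (nat_lit 188) (nat_lit 187)))) (XT.nd (nat_lit 156) (nat_lit 0) (nat_lit 0) (XT.nd (nat_lit 78) (nat_lit 76) (nat_lit 0) (XT.lf (nat_lit 0) (nat_lit 26331984663) (nat_lit 152) (nat_lit 2075417613) (nat_lit 0) (nat_lit 25909588132) (nat_lit 2) (nat_lit 5) (nat_lit 4) (nat_lit 4) (nat_lit 2) (nat_lit 4) (nat_lit 226) (nat_lit 188) (nat_lit 186)) (XT.lf (nat_lit 0)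 (nat_lit 1959776163) (nat_lit 76) (nat_lit 30371064063) (nat_lit 76) (nat_lit 29777829703) (nat_lit 1) (nat_lit 4) (nat_lit 2) (nat_lit 5) (nat_lit 2) (nat_lit 4) (nat_lit 227) (nat_lit 188) (nat_lit 185))) (XT.nd (nat_lit 78) (nat_lit 0) (nat_lit 0) (XT.lf (nat_lit 0) (nat_lit 6483629396) (nat_lit 76) (nat_lit 32669708723) (nat_lit 76) (nat_lit 31927919729) (nat_lit 1) (nat_lit 4) (nat_lit 2) (nat_lit 5) (nat_lit 2) (nat_lit 4) (nat_lit 228) (nat_lit 188) (nat_lit 184)) (XT.lf (nat_lit 0) (nat_lit 11381827352) (nat_lit 76) (nat_lit 35456797477) (nat_lit 76) (nat_lit 34585830542) (nat_lit 1) (nat_lit 4) (nat_lit 2) (nat_lit 5) (nat_lit 2) (nat_lit 4) (nat_lit 229) (nat_lit 188) (nat_lit 183)))))) (XT.nd (nat_lit 624) (nat_lit 0) (nat_lit 0) (XT.nd (nat_lit 312) (nat_lit 0) (nat_lit 0) (XT.nd (nat_lit 156) (nat_lit 0) (nat_lit 0) (XT.nd (nat_lit 78) (nat_lit 0) (nat_lit 0) (XT.lf (nat_lit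 0) (nat_lit 16750204339) (nat_lit 76) (nat_lit 38786860324) (nat_lit 76) (nat_lit 37803564743) (nat_lit 1) (nat_lit 4) (nat_lit 2) (nat_lit 5) (nat_lit 2) (nat_lit 4) (nat_lit 230) (nat_lit 188) (nat_lit 182)) (XT.lf (nat_lit 0) (nat_lit 22693793820) (nat_lit 76) (nat_lit 42725050667) (nat_lit 76) (nat_lit 41644078004) (nat_lit 1) (nat_lit 4) (nat_lit 2) (nat_lit 5) (nat_lit 2) (nat_lit 4) (nat_lit 231) (nat_lit 188) (nat_lit 181))) (XT.nd (nat_lit 78) (nat_lit 0) (nat_lit 0) (XT.lf (nat_lit 0) (nat_lit 29328883416) (nat_lit 76) (nat_lit 47348420057) (nat_lit 76) (nat_lit 46182510799) (nat_lit 1) (nat_lit 4) (nat_lit 2) (nat_lit 5) (nat_lit 2) (nat_lit 4) (nat_lit 232) (nat_lit 188) (nat_lit 180)) (XT.lf (nat_lit 0) (nat_lit 36785290096) (nat_lit 76) (nat_lit 52747425719) (nat_lit 76) (nat_lit 51507658554) (nat_lit 1) (nat_lit 4) (nat_lit 2) (nat_lit 5) (nat_lit 2) (nat_lit 4) (nat_lit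 233) (nat_lit 188) (nat_lit 179)))) (XT.nd (nat_lit 156) (nat_lit 0) (nat_lit 0) (XT.nd (nat_lit 78) (nat_lit 0) (nat_lit 0) (XT.lf (nat_lit 0) (nat_lit 45208900079) (nat_lit 76) (nat_lit 59027700375) (nat_lit 76) (nat_lit 57723708941) (nat_lit 1) (nat_lit 4) (nat_lit 2) (nat_lit 5) (nat_lit 2) (nat_lit 4) (nat_lit 234) (nat_lit 188) (nat_lit 178)) (XT.lf (nat_lit 0) (nat_lit 54764523126) (nat_lit 76) (nat_lit 66312118962) (nat_lit 76) (nat_lit 64952280339) (nat_lit 1) (nat_lit 4) (nat_lit 2) (nat_lit 5) (nat_lit 2) (nat_lit 4) (nat_lit 235) (nat_lit 188) (nat_lit 177))) (XT.nd (nat_lit 78) (nat_lit 0) (nat_lit 0) (XT.lf (nat_lit 0) (nat_lit 65639117077) (nat_lit 76) (nat_lit 74743202714) (nat_lit 76) (nat_lit 73334801318) (nat_lit 1) (nat_lit 4) (nat_lit 2) (nat_lit 5) (nat_lit 2) (nat_lit 4) (nat_lit 236) (nat_lit 188) (nat_lit 176)) (XT.lf (nat_lit 0) (nat_lit 78045445728) (nat_lit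 76) (nat_lit 84485907617) (nat_lit 76) (nat_lit 83035277723) (nat_lit 1) (nat_lit 4) (nat_lit 2) (nat_lit 5) (nat_lit 2) (nat_lit 4) (nat_lit 237) (nat_lit 188) (nat_lit 175))))) (XT.nd (nat_lit 312) (nat_lit 0) (nat_lit 0) (XT.nd (nat_lit 156) (nat_lit 0) (nat_lit 0) (XT.nd (nat_lit 78) (nat_lit 0) (nat_lit 0) (XT.lf (nat_lit 0) (nat_lit 92226241596) (nat_lit 76) (nat_lit 95730851811) (nat_lit 76) (nat_lit 94243501484) (nat_lit 1) (nat_lit 4) (nat_lit 2) (nat_lit 5) (nat_lit 2) (nat_lit 4) (nat_lit 238) (nat_lit 188) (nat_lit 174)) (XT.lf (nat_lit 0) (nat_lit 108458955035) (nat_lit 76) (nat_lit 108698045074) (nat_lit 76) (nat_lit 107178763935) (nat_lit 1) (nat_lit 4) (nat_lit 2) (nat_lit 5) (nat_lit 2) (nat_lit 4) (nat_lit 239) (nat_lit 188) (nat_lit 173))) (XT.nd (nat_lit 78) (nat_lit 0) (nat_lit 0) (XT.lf (nat_lit 0) (nat_lit 127061182612) (nat_lit 76) (nat_lit 123641193360) (nat_lit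 76) (nat_lit 122094146298) (nat_lit 1) (nat_lit 4) (nat_lit 2) (nat_lit 5) (nat_lit 2) (nat_lit 4) (nat_lit 240) (nat_lit 188) (nat_lit 172)) (XT.lf (nat_lit 0) (nat_lit 148396880954) (nat_lit 76) (nat_lit 140852662615) (nat_lit 76) (nat_lit 139281471272) (nat_lit 1) (nat_lit 4) (nat_lit 2) (nat_lit 5) (nat_lit 2) (nat_lit 4) (nat_lit 241) (nat_lit 188) (nat_lit 171)))) (XT.nd (nat_lit 156) (nat_lit 0) (nat_lit 0) (XT.nd (nat_lit 78) (nat_lit 0) (nat_lit 0) (XT.lf (nat_lit 0) (nat_lit 172883487637) (nat_lit 76) (nat_lit 160669198976) (nat_lit 76) (nat_lit 159077012605) (nat_lit 1) (nat_lit 4) (nat_lit 2) (nat_lit 5) (nat_lit 2) (nat_lit 4) (nat_lit 242) (nat_lit 188) (nat_lit 170)) (XT.lf (nat_lit 0) (nat_lit 201000088443) (nat_lit 76) (nat_lit 183478517284) (nat_lit 76) (nat_lit 181868074369) (nat_lit 1) (nat_lit 4) (nat_lit 2) (nat_lit 5) (nat_lit 2) (nat_lit 4) (nat_lit 243) (nat_lit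 188) (nat_lit 169))) (XT.nd (nat_lit 78) (nat_lit 0) (nat_lit 0) (XT.lf (nat_lit 0) (nat_lit 233296790781) (nat_lit 76) (nat_lit 209726886812) (nat_lit 76) (nat_lit 208100568640) (nat_lit 1) (nat_lit 4) (nat_lit 2) (nat_lit 5) (nat_lit 2) (nat_lit 4) (nat_lit 244) (nat_lit 188) (nat_lit 168)) (XT.lf (nat_lit 0) (nat_lit 270405486652) (nat_lit 76) (nat_lit 239927862615) (nat_lit 76) (nat_lit 238287739871) (nat_lit 1) (nat_lit 4) (nat_lit 2) (nat_lit 5) (nat_lit 2) (nat_lit 4) (nat_lit 245) (nat_lit 188) (nat_lit 167))))))) (XT.nd (nat_lit 1170) (nat_lit 0) (nat_lit 0) (XT.nd (nat_lit 546) (nat_lit 0) (nat_lit 0) (XT.nd (nat_lit 234) (nat_lit 0) (nat_lit 0) (XT.nd (nat_lit 78) (nat_lit 0) (nat_lit 0) (XT.lf (nat_lit 0) (nat_lit 313052215758) (nat_lit 76) (nat_lit 274672333349) (nat_lit 76) (nat_lit 273020206631) (nat_lit 1) (nat_lit 4) (nat_lit 2) (nat_lit 5) (nat_lit 2) (nat_lit 4)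 (nat_lit 246) (nat_lit 188) (nat_lit 166)) (XT.nd (nat_lit 78) (nat_lit 0) (nat_lit 0) (XT.lf (nat_lit 0) (nat_lit 362071370625) (nat_lit 76) (nat_lit 314640082139) (nat_lit 76) (nat_lit 312977517182) (nat_lit 1) (nat_lit 4) (nat_lit 2) (nat_lit 5) (nat_lit 2) (nat_lit 4) (nat_lit 247) (nat_lit 188) (nat_lit 165)) (XT.lf (nat_lit 0) (nat_lit 418422021674) (nat_lit 76) (nat_lit 360613086678) (nat_lit 76) (nat_lit 358941444991) (nat_lit 1) (nat_lit 4) (nat_lit 2) (nat_lit 5) (nat_lit 2) (nat_lit 4) (nat_lit 248) (nat_lit 188) (nat_lit 164)))) (XT.nd (nat_lit 156) (nat_lit 0) (nat_lit 0) (XT.nd (nat_lit 78) (nat_lit 0) (nat_lit 0) (XT.lf (nat_lit 0) (nat_lit 483206681644) (nat_lit 76) (nat_lit 413490818793) (nat_lit 76) (nat_lit 411811284298) (nat_lit 1) (nat_lit 4) (nat_lit 2) (nat_lit 5) (nat_lit 2) (nat_lit 4) (nat_lit 249) (nat_lit 188) (nat_lit 163)) (XT.lf (nat_lit 0) (nat_lit 557692876490)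 (nat_lit 76) (nat_lit 474307842810) (nat_lit 76) (nat_lit 472621445003) (nat_lit 1) (nat_lit 4) (nat_lit 2) (nat_lit 5) (nat_lit 2) (nat_lit 4) (nat_lit 250) (nat_lit 188) (nat_lit 162))) (XT.nd (nat_lit 78) (nat_lit 0) (nat_lit 0) (XT.lf (nat_lit 0) (nat_lit 643337944807) (nat_lit 76) (nat_lit 544254057023) (nat_lit 76) (nat_lit 542561691119) (nat_lit 1) (nat_lit 4) (nat_lit 2) (nat_lit 5) (nat_lit 2) (nat_lit 4) (nat_lit 251) (nat_lit 188) (nat_lit 161)) (XT.lf (nat_lit 0) (nat_lit 741817550975) (nat_lit 76) (nat_lit 624697974319) (nat_lit 76) (nat_lit 623000418766) (nat_lit 1) (nat_lit 4) (nat_lit 2) (nat_lit 5) (nat_lit 2) (nat_lit 4) (nat_lit 252) (nat_lit 188) (nat_lit 160))))) (XT.nd (nat_lit 312) (nat_lit 0) (nat_lit 0) (XT.nd (nat_lit 156) (nat_lit 0) (nat_lit 0) (XT.nd (nat_lit 78) (nat_lit 0) (nat_lit 0) (XT.lf (nat_lit 0) (nat_lit 855058469897) (nat_lit 76) (nat_lit 717213497429)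 (nat_lit 76) (nat_lit 715511429137) (nat_lit 1) (nat_lit 4) (nat_lit 2) (nat_lit 5) (nat_lit 2) (nat_lit 4) (nat_lit 253) (nat_lit 188) (nat_lit 159)) (XT.lf (nat_lit 0) (nat_lit 985276284771) (nat_lit 76) (nat_lit 823610712674) (nat_lit 76) (nat_lit 821904720261) (nat_lit 1) (nat_lit 4) (nat_lit 2) (nat_lit 5) (nat_lit 2) (nat_lit 4) (nat_lit 254) (nat_lit 188) (nat_lit 158))) (XT.nd (nat_lit 78) (nat_lit 0) (nat_lit 0) (XT.lf (nat_lit 0) (nat_lit 1135018735451) (nat_lit 76) (nat_lit 945971304700) (nat_lit 76) (nat_lit 944261900008) (nat_lit 1) (nat_lit 4) (nat_lit 2) (nat_lit 5) (nat_lit 2) (nat_lit 4) (nat_lit 255) (nat_lit 188) (nat_lit 157)) (XT.lf (nat_lit 0) (nat_lit 1307215565538) (nat_lit 76) (nat_lit 1086689285089) (nat_lit 76) (nat_lit 1084976913199) (nat_lit 1) (nat_lit 4) (nat_lit 2) (nat_lit 5) (nat_lit 2) (nat_lit 4) (nat_lit 256) (nat_lit 188) (nat_lit 156)))) (XT.nd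 (nat_lit 156) (nat_lit 0) (nat_lit 0) (XT.nd (nat_lit 78) (nat_lit 0) (nat_lit 0) (XT.lf (nat_lit 0) (nat_lit 1505235843447) (nat_lit 76) (nat_lit 1248517831721) (nat_lit 76) (nat_lit 1246802879657) (nat_lit 1) (nat_lit 4) (nat_lit 2) (nat_lit 5) (nat_lit 2) (nat_lit 4) (nat_lit 257) (nat_lit 188) (nat_lit 155)) (XT.lf (nat_lit 0) (nat_lit 1732953878964) (nat_lit 76) (nat_lit 1434623155288) (nat_lit 76) (nat_lit 1432905959596) (nat_lit 1) (nat_lit 4) (nat_lit 2) (nat_lit 5) (nat_lit 2) (nat_lit 4) (nat_lit 258) (nat_lit 188) (nat_lit 154))) (XT.nd (nat_lit 78) (nat_lit 0) (nat_lit 0) (XT.lf (nat_lit 0) (nat_lit 1994825024956) (nat_lit 76) (nat_lit 1648646446906) (nat_lit 76) (nat_lit 1646927300232) (nat_lit 1) (nat_lit 4) (nat_lit 2) (nat_lit 5) (nat_lit 2) (nat_lit 4) (nat_lit 259) (nat_lit 188) (nat_lit 153)) (XT.lf (nat_lit 0) (nat_lit 2295972847324) (nat_lit 76) (nat_lit 1894775118800)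 (nat_lit 76) (nat_lit 1893054275620) (nat_lit 1) (nat_lit 4) (nat_lit 2) (nat_lit 5) (nat_lit 2) (nat_lit 4) (nat_lit 260) (nat_lit 188) (nat_lit 152)))))) (XT.nd (nat_lit 624) (nat_lit 0) (nat_lit 0) (XT.nd (nat_lit 312) (nat_lit 0) (nat_lit 0) (XT.nd (nat_lit 156) (nat_lit 0) (nat_lit 0) (XT.nd (nat_lit 78) (nat_lit 0) (nat_lit 0) (XT.lf (nat_lit 0) (nat_lit 2642289368680) (nat_lit 76) (nat_lit 2177824731943) (nat_lit 76) (nat_lit 2176102413541) (nat_lit 1) (nat_lit 4) (nat_lit 2) (nat_lit 5) (nat_lit 2) (nat_lit 4) (nat_lit 261) (nat_lit 188) (nat_lit 151)) (XT.lf (nat_lit 0) (nat_lit 3040550347049) (nat_lit 76) (nat_lit 2503333213548) (nat_lit 76) (nat_lit 2501609612344) (nat_lit 1) (nat_lit 4) (nat_lit 2) (nat_lit 5) (nat_lit 2) (nat_lit 4) (nat_lit 262) (nat_lit 188) (nat_lit 150))) (XT.nd (nat_lit 78) (nat_lit 0) (nat_lit 0) (XT.lf (nat_lit 0) (nat_lit 3498547845052) (nat_lit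 76) (nat_lit 2877669207821) (nat_lit 76) (nat_lit 2875944491137) (nat_lit 1) (nat_lit 4) (nat_lit 2) (nat_lit 5) (nat_lit 2) (nat_lit 4) (nat_lit 263) (nat_lit 188) (nat_lit 149)) (XT.lf (nat_lit 0) (nat_lit 4025242683303) (nat_lit 76) (nat_lit 3308156679867) (nat_lit 76) (nat_lit 3306430993200) (nat_lit 1) (nat_lit 4) (nat_lit 2) (nat_lit 5) (nat_lit 2) (nat_lit 4) (nat_lit 264) (nat_lit 188) (nat_lit 148)))) (XT.nd (nat_lit 156) (nat_lit 0) (nat_lit 0) (XT.nd (nat_lit 78) (nat_lit 0) (nat_lit 0) (XT.lf (nat_lit 0) (nat_lit 4630939760810) (nat_lit 76) (nat_lit 3803218210660) (nat_lit 76) (nat_lit 3801491680531) (nat_lit 1) (nat_lit 4) (nat_lit 2) (nat_lit 5) (nat_lit 2) (nat_lit 4) (nat_lit 265) (nat_lit 188) (nat_lit 147)) (XT.lf (nat_lit 0) (nat_lit 5327489672569) (nat_lit 76) (nat_lit 4372539786674) (nat_lit 76) (nat_lit 4370812523099) (nat_lit 1) (nat_lit 4) (nat_lit 2) (nat_lit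 5) (nat_lit 2) (nat_lit 4) (nat_lit 266) (nat_lit 188) (nat_lit 146))) (XT.nd (nat_lit 78) (nat_lit 0) (nat_lit 0) (XT.lf (nat_lit 0) (nat_lit 6128520569026) (nat_lit 76) (nat_lit 5027260308308) (nat_lit 76) (nat_lit 5025532406953) (nat_lit 1) (nat_lit 4) (nat_lit 2) (nat_lit 5) (nat_lit 2) (nat_lit 4) (nat_lit 267) (nat_lit 188) (nat_lit 145)) (XT.lf (nat_lit 0) (nat_lit 7049704793808) (nat_lit 76) (nat_lit 5780189524899) (nat_lit 76) (nat_lit 5778461068953) (nat_lit 1) (nat_lit 4) (nat_lit 2) (nat_lit 5) (nat_lit 2) (nat_lit 4) (nat_lit 268) (nat_lit 188) (nat_lit 144))))) (XT.nd (nat_lit 312) (nat_lit 0) (nat_lit 0) (XT.nd (nat_lit 156) (nat_lit 0) (nat_lit 0) (XT.nd (nat_lit 78) (nat_lit 0) (nat_lit 0) (XT.lf (nat_lit 0) (nat_lit 8109065516530) (nat_lit 76) (nat_lit 6646058660248) (nat_lit 76) (nat_lit 6644329722050) (nat_lit 1) (nat_lit 4) (nat_lit 2) (nat_lit 5) (nat_lit 2) (nat_lit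 4) (nat_lit 269) (nat_lit 188) (nat_lit 143)) (XT.lf (nat_lit 0) (nat_lit 9327329360028) (nat_lit 76) (nat_lit 7641808632223) (nat_lit 76) (nat_lit 7640079274675) (nat_lit 1) (nat_lit 4) (nat_lit 2) (nat_lit 5) (nat_lit 2) (nat_lit 4) (nat_lit 270) (nat_lit 188) (nat_lit 142))) (XT.nd (nat_lit 78) (nat_lit 0) (nat_lit 0) (XT.lf (nat_lit 0) (nat_lit 10728331921241) (nat_lit 76) (nat_lit 8786921505492) (nat_lit 76) (nat_lit 8785191783291) (nat_lit 1) (nat_lit 4) (nat_lit 2) (nat_lit 5) (nat_lit 2) (nat_lit 4) (nat_lit 271) (nat_lit 188) (nat_lit 141)) (XT.lf (nat_lit 0) (nat_lit 12339484119844) (nat_lit 76) (nat_lit 10103801662358) (nat_lit 76) (nat_lit 10102071623068) (nat_lit 1) (nat_lit 4) (nat_lit 2) (nat_lit 5) (nat_lit 2) (nat_lit 4) (nat_lit 272) (nat_lit 188) (nat_lit 140)))) (XT.nd (nat_lit 156) (nat_lit 0) (nat_lit 0) (XT.nd (nat_lit 78) (nat_lit 0) (nat_lit 0) (XT.lf (nat_lit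 0) (nat_lit 14192308498852) (nat_lit 76) (nat_lit 11618214149368) (nat_lit 76) (nat_lit 11616483834348) (nat_lit 1) (nat_lit 4) (nat_lit 2) (nat_lit 5) (nat_lit 2) (nat_lit 4) (nat_lit 273) (nat_lit 188) (nat_lit 139)) (XT.lf (nat_lit 0) (nat_lit 16323055970031) (nat_lit 76) (nat_lit 13359788776051) (nat_lit 76) (nat_lit 13358058221266) (nat_lit 1) (nat_lit 4) (nat_lit 2) (nat_lit 5) (nat_lit 2) (nat_lit 4) (nat_lit 274) (nat_lit 188) (nat_lit 138))) (XT.nd (nat_lit 78) (nat_lit 0) (nat_lit 0) (XT.lf (nat_lit 0) (nat_lit 18773415070858) (nat_lit 76) (nat_lit 15362599828581) (nat_lit 76) (nat_lit 15360869065305) (nat_lit 1) (nat_lit 4) (nat_lit 2) (nat_lit 5) (nat_lit 2) (nat_lit 4) (nat_lit 275) (nat_lit 188) (nat_lit 137)) (XT.lf (nat_lit 0) (nat_lit 21591327609828) (nat_lit 76) (nat_lit 17665832740595) (nat_lit 76) (nat_lit 17664101796022) (nat_lit 1) (nat_lit 4) (nat_lit 2) (nat_lit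 5) (nat_lit 2) (nat_lit 4) (nat_lit 276) (nat_lit 188) (nat_lit 136))))))))
noncomputable def xc13 : XT := (XT.nd (nat_lit 29250) (nat_lit 0) (nat_lit 0) (XT.nd (nat_lit 28002) (nat_lit 0) (nat_lit 0) (XT.nd (nat_lit 27378) (nat_lit 0) (nat_lit 0) (XT.nd (nat_lit 27066) (nat_lit 0) (nat_lit 76) (XT.nd (nat_lit 78) (nat_lit 0) (nat_lit 0) (XT.lf (nat_lit 0) (nat_lit 24831926658357) (nat_lit 76) (nat_lit 20314550764718) (nat_lit 76) (nat_lit 20312819662497) (nat_lit 1) (nat_lit 4) (nat_lit 2) (nat_lit 5) (nat_lit 2) (nat_lit 4) (nat_lit 277) (nat_lit 188) (nat_lit 135)) (XT.nd (nat_lit 26910) (nat_lit 0) (nat_lit 76) (XT.lf (nat_lit 0) (nat_lit 28558615241306) (nat_lit 76) (nat_lit 23360576644902) (nat_lit 76) (nat_lit 23358845405594) (nat_lit 1) (nat_lit 4) (nat_lit 2) (nat_lit 5) (nat_lit 2) (nat_lit 4) (nat_lit 278) (nat_lit 188) (nat_lit 134)) (XT.lf (nat_lit 0) (nat_lit 4041532067)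 (nat_lit 152) (nat_lit 8060007787) (nat_lit 0) (nat_lit 4041532067) (nat_lit 2) (nat_lit 5) (nat_lit 4) (nat_lit 4) (nat_lit 2) (nat_lit 4) (nat_lit 222) (nat_lit 189) (nat_lit 189)))) (XT.nd (nat_lit 156) (nat_lit 0) (nat_lit 0) (XT.nd (nat_lit 78) (nat_lit 0) (nat_lit 0) (XT.lf (nat_lit 0) (nat_lit 12042521511) (nat_lit 152) (nat_lit 12833937207) (nat_lit 0) (nat_lit 11782698529) (nat_lit 2) (nat_lit 5) (nat_lit 4) (nat_lit 4) (nat_lit 2) (nat_lit 4) (nat_lit 223) (nat_lit 189) (nat_lit 188)) (XT.lf (nat_lit 0) (nat_lit 16337065183) (nat_lit 152) (nat_lit 9539681216) (nat_lit 0) (nat_lit 15851309172) (nat_lit 2) (nat_lit 5) (nat_lit 4) (nat_lit 4) (nat_lit 2) (nat_lit 4) (nat_lit 224) (nat_lit 189) (nat_lit 187))) (XT.nd (nat_lit 78) (nat_lit 0) (nat_lit 0) (XT.lf (nat_lit 0) (nat_lit 21050718830) (nat_lit 152) (nat_lit 6172794766) (nat_lit 0) (nat_lit 20368499316) (nat_lit 2) (nat_lit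 5) (nat_lit 4) (nat_lit 4) (nat_lit 2) (nat_lit 4) (nat_lit 225) (nat_lit 189) (nat_lit 186)) (XT.lf (nat_lit 0) (nat_lit 26275706110) (nat_lit 152) (nat_lit 2667403992) (nat_lit 0) (nat_lit 25422648767) (nat_lit 2) (nat_lit 5) (nat_lit 4) (nat_lit 4) (nat_lit 2) (nat_lit 4) (nat_lit 226) (nat_lit 189) (nat_lit 185))))) (XT.nd (nat_lit 312) (nat_lit 0) (nat_lit 0) (XT.nd (nat_lit 156) (nat_lit 0) (nat_lit 0) (XT.nd (nat_lit 78) (nat_lit 0) (nat_lit 0) (XT.lf (nat_lit 0) (nat_lit 1147207151) (nat_lit 76) (nat_lit 31014551285) (nat_lit 76) (nat_lit 30012939309) (nat_lit 1) (nat_lit 4) (nat_lit 2) (nat_lit 5) (nat_lit 2) (nat_lit 4) (nat_lit 227) (nat_lit 189) (nat_lit 184)) (XT.lf (nat_lit 0) (nat_lit 5529556541) (nat_lit 76) (nat_lit 33380008687) (nat_lit 76) (nat_lit 32249218768) (nat_lit 1) (nat_lit 4) (nat_lit 2) (nat_lit 5) (nat_lit 2) (nat_lit 4) (nat_lit 228) (nat_lit 189) (nat_lit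 183))) (XT.nd (nat_lit 78) (nat_lit 0) (nat_lit 0) (XT.lf (nat_lit 0) (nat_lit 10304707678) (nat_lit 76) (nat_lit 36225195478) (nat_lit 76) (nat_lit 34982076915) (nat_lit 1) (nat_lit 4) (nat_lit 2) (nat_lit 5) (nat_lit 2) (nat_lit 4) (nat_lit 229) (nat_lit 189) (nat_lit 182)) (XT.lf (nat_lit 0) (nat_lit 15566087430) (nat_lit 76) (nat_lit 39605778357) (nat_lit 76) (nat_lit 38264982711) (nat_lit 1) (nat_lit 4) (nat_lit 2) (nat_lit 5) (nat_lit 2) (nat_lit 4) (nat_lit 230) (nat_lit 189) (nat_lit 181)))) (XT.nd (nat_lit 156) (nat_lit 0) (nat_lit 0) (XT.nd (nat_lit 78) (nat_lit 0) (nat_lit 0) (XT.lf (nat_lit 0) (nat_lit 21416635838) (nat_lit 76) (nat_lit 43587899163) (nat_lit 76) (nat_lit 42162166923) (nat_lit 1) (nat_lit 4) (nat_lit 2) (nat_lit 5) (nat_lit 2) (nat_lit 4) (nat_lit 231) (nat_lit 189) (nat_lit 180)) (XT.lf (nat_lit 0) (nat_lit 27970820153) (nat_lit 76) (nat_lit 48249468954)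 (nat_lit 76) (nat_lit 46749878806) (nat_lit 1) (nat_lit 4) (nat_lit 2) (nat_lit 5) (nat_lit 2) (nat_lit 4) (nat_lit 232) (nat_lit 189) (nat_lit 179))) (XT.nd (nat_lit 78) (nat_lit 0) (nat_lit 0) (XT.lf (nat_lit 0) (nat_lit 35356874415) (nat_lit 76) (nat_lit 53681692358) (nat_lit 76) (nat_lit 52117877942) (nat_lit 1) (nat_lit 4) (nat_lit 2) (nat_lit 5) (nat_lit 2) (nat_lit 4) (nat_lit 233) (nat_lit 189) (nat_lit 178)) (XT.lf (nat_lit 0) (nat_lit 43719308382) (nat_lit 76) (nat_lit 59990852006) (nat_lit 76) (nat_lit 58371190401) (nat_lit 1) (nat_lit 4) (nat_lit 2) (nat_lit 5) (nat_lit 2) (nat_lit 4) (nat_lit 234) (nat_lit 189) (nat_lit 177)))))) (XT.nd (nat_lit 624) (nat_lit 0) (nat_lit 0) (XT.nd (nat_lit 312) (nat_lit 0) (nat_lit 0) (XT.nd (nat_lit 156) (nat_lit 0) (nat_lit 0) (XT.nd (nat_lit 78) (nat_lit 0) (nat_lit 0) (XT.lf (nat_lit 0) (nat_lit 53221734892) (nat_lit 76) (nat_lit 67300387977)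 (nat_lit 76) (nat_lit 65632163599) (nat_lit 1) (nat_lit 4) (nat_lit 2) (nat_lit 5) (nat_lit 2) (nat_lit 4) (nat_lit 235) (nat_lit 189) (nat_lit 176)) (XT.lf (nat_lit 0) (nat_lit 64050070987) (nat_lit 76) (nat_lit 75753312933) (nat_lit 76) (nat_lit 74042860057) (nat_lit 1) (nat_lit 4) (nat_lit 2) (nat_lit 5) (nat_lit 2) (nat_lit 4) (nat_lit 236) (nat_lit 189) (nat_lit 175))) (XT.nd (nat_lit 78) (nat_lit 0) (nat_lit 0) (XT.lf (nat_lit 0) (nat_lit 76416175414) (nat_lit 76) (nat_lit 85515010188) (nat_lit 76) (nat_lit 83767836878) (nat_lit 1) (nat_lit 4) (nat_lit 2) (nat_lit 5) (nat_lit 2) (nat_lit 4) (nat_lit 237) (nat_lit 189) (nat_lit 174)) (XT.lf (nat_lit 0) (nat_lit 90561993696) (nat_lit 76) (nat_lit 96776469470) (nat_lit 76) (nat_lit 94997365349) (nat_lit 1) (nat_lit 4) (nat_lit 2) (nat_lit 5) (nat_lit 2) (nat_lit 4) (nat_lit 238) (nat_lit 189) (nat_lit 173)))) (XT.nd (nat_lit 156)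 (nat_lit 0) (nat_lit 0) (XT.nd (nat_lit 78) (nat_lit 0) (nat_lit 0) (XT.lf (nat_lit 0) (nat_lit 106764291843) (nat_lit 76) (nat_lit 109758023679) (nat_lit 76) (nat_lit 107951153634) (nat_lit 1) (nat_lit 4) (nat_lit 2) (nat_lit 5) (nat_lit 2) (nat_lit 4) (nat_lit 239) (nat_lit 189) (nat_lit 172)) (XT.lf (nat_lit 0) (nat_lit 125340071341) (nat_lit 76) (nat_lit 124713659745) (nat_lit 76) (nat_lit 122882645419) (nat_lit 1) (nat_lit 4) (nat_lit 2) (nat_lit 5) (nat_lit 2) (nat_lit 4) (nat_lit 240) (nat_lit 189) (nat_lit 171))) (XT.nd (nat_lit 78) (nat_lit 0) (nat_lit 0) (XT.lf (nat_lit 0) (nat_lit 146652771352) (nat_lit 76) (nat_lit 141935987938) (nat_lit 76) (nat_lit 140083978585) (nat_lit 1) (nat_lit 4) (nat_lit 2) (nat_lit 5) (nat_lit 2) (nat_lit 4) (nat_lit 241) (nat_lit 189) (nat_lit 170)) (XT.lf (nat_lit 0) (nat_lit 171119379487) (nat_lit 76) (nat_lit 161761966854) (nat_lit 76) (nat_lit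 159891700956) (nat_lit 1) (nat_lit 4) (nat_lit 2) (nat_lit 5) (nat_lit 2) (nat_lit 4) (nat_lit 242) (nat_lit 189) (nat_lit 169))))) (XT.nd (nat_lit 312) (nat_lit 0) (nat_lit 0) (XT.nd (nat_lit 156) (nat_lit 0) (nat_lit 0) (XT.nd (nat_lit 78) (nat_lit 0) (nat_lit 0) (XT.lf (nat_lit 0) (nat_lit 199218590252) (nat_lit 76) (nat_lit 184579496080) (nat_lit 76) (nat_lit 182693354925) (nat_lit 1) (nat_lit 4) (nat_lit 2) (nat_lit 5) (nat_lit 2) (nat_lit 4) (nat_lit 243) (nat_lit 189) (nat_lit 168)) (XT.lf (nat_lit 0) (nat_lit 231500170814) (nat_lit 76) (nat_lit 210835005536) (nat_lit 76) (nat_lit 208935059810) (nat_lit 1) (nat_lit 4) (nat_lit 2) (nat_lit 5) (nat_lit 2) (nat_lit 4) (nat_lit 244) (nat_lit 189) (nat_lit 167))) (XT.nd (nat_lit 78) (nat_lit 0) (nat_lit 0) (XT.lf (nat_lit 0) (nat_lit 268595717315) (nat_lit 76) (nat_lit 241042189972) (nat_lit 76) (nat_lit 239130240271) (nat_lit 1)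 (nat_lit 4) (nat_lit 2) (nat_lit 5) (nat_lit 2) (nat_lit 4) (nat_lit 245) (nat_lit 189) (nat_lit 166)) (XT.lf (nat_lit 0) (nat_lit 311231012186) (nat_lit 76) (nat_lit 275792059518) (nat_lit 76) (nat_lit 273869671579) (nat_lit 1) (nat_lit 4) (nat_lit 2) (nat_lit 5) (nat_lit 2) (nat_lit 4) (nat_lit 246) (nat_lit 189) (nat_lit 165)))) (XT.nd (nat_lit 156) (nat_lit 0) (nat_lit 0) (XT.nd (nat_lit 78) (nat_lit 0) (nat_lit 0) (XT.lf (nat_lit 0) (nat_lit 360240224240) (nat_lit 76) (nat_lit 315764502927) (nat_lit 76) (nat_lit 313833038258) (nat_lit 1) (nat_lit 4) (nat_lit 2) (nat_lit 5) (nat_lit 2) (nat_lit 4) (nat_lit 247) (nat_lit 189) (nat_lit 164)) (XT.lf (nat_lit 0) (nat_lit 416582229365) (nat_lit 76) (nat_lit 361741589743) (nat_lit 76) (nat_lit 359802232265) (nat_lit 1) (nat_lit 4) (nat_lit 2) (nat_lit 5) (nat_lit 2) (nat_lit 4) (nat_lit 248) (nat_lit 189) (nat_lit 163))) (XT.nd (nat_lit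 78) (nat_lit 0) (nat_lit 0) (XT.lf (nat_lit 0) (nat_lit 481359371140) (nat_lit 76) (nat_lit 414622871665) (nat_lit 76) (nat_lit 412676650876) (nat_lit 1) (nat_lit 4) (nat_lit 2) (nat_lit 5) (nat_lit 2) (nat_lit 4) (nat_lit 249) (nat_lit 189) (nat_lit 162)) (XT.lf (nat_lit 0) (nat_lit 555839028425) (nat_lit 76) (nat_lit 475442982469) (nat_lit 76) (nat_lit 473490793583) (nat_lit 1) (nat_lit 4) (nat_lit 2) (nat_lit 5) (nat_lit 2) (nat_lit 4) (nat_lit 250) (nat_lit 189) (nat_lit 161))))))) (XT.nd (nat_lit 1170) (nat_lit 0) (nat_lit 0) (XT.nd (nat_lit 546) (nat_lit 0) (nat_lit 0) (XT.nd (nat_lit 234) (nat_lit 0) (nat_lit 0) (XT.nd (nat_lit 78) (nat_lit 0) (nat_lit 0) (XT.lf (nat_lit 0) (nat_lit 641478411906) (nat_lit 76) (nat_lit 545391880846) (nat_lit 76) (nat_lit 543434502310) (nat_lit 1) (nat_lit 4) (nat_lit 2) (nat_lit 5) (nat_lit 2) (nat_lit 4) (nat_lit 251) (nat_lit 189) (nat_lit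 160)) (XT.nd (nat_lit 78) (nat_lit 0) (nat_lit 0) (XT.lf (nat_lit 0) (nat_lit 739953074739) (nat_lit 76) (nat_lit 625838132197) (nat_lit 76) (nat_lit 623876240923) (nat_lit 1) (nat_lit 4) (nat_lit 2) (nat_lit 5) (nat_lit 2) (nat_lit 4) (nat_lit 252) (nat_lit 189) (nat_lit 159)) (XT.lf (nat_lit 0) (nat_lit 853189695109) (nat_lit 76) (nat_lit 718355684920) (nat_lit 76) (nat_lit 716389869525) (nat_lit 1) (nat_lit 4) (nat_lit 2) (nat_lit 5) (nat_lit 2) (nat_lit 4) (nat_lit 253) (nat_lit 189) (nat_lit 158)))) (XT.nd (nat_lit 156) (nat_lit 0) (nat_lit 0) (XT.nd (nat_lit 78) (nat_lit 0) (nat_lit 0) (XT.lf (nat_lit 0) (nat_lit 983403772111) (nat_lit 76) (nat_lit 824754665046) (nat_lit 76) (nat_lit 822785437372) (nat_lit 1) (nat_lit 4) (nat_lit 2) (nat_lit 5) (nat_lit 2) (nat_lit 4) (nat_lit 254) (nat_lit 189) (nat_lit 157)) (XT.lf (nat_lit 0) (nat_lit 1133142972468) (nat_lit 76) (nat_lit 947116791751)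 (nat_lit 76) (nat_lit 945144596878) (nat_lit 1) (nat_lit 4) (nat_lit 2) (nat_lit 5) (nat_lit 2) (nat_lit 4) (nat_lit 255) (nat_lit 189) (nat_lit 156))) (XT.nd (nat_lit 78) (nat_lit 0) (nat_lit 0) (XT.lf (nat_lit 0) (nat_lit 1305336976187) (nat_lit 76) (nat_lit 1087836106645) (nat_lit 76) (nat_lit 1085861331599) (nat_lit 1) (nat_lit 4) (nat_lit 2) (nat_lit 5) (nat_lit 2) (nat_lit 4) (nat_lit 256) (nat_lit 189) (nat_lit 155)) (XT.lf (nat_lit 0) (nat_lit 1503354796385) (nat_lit 76) (nat_lit 1249665813714) (nat_lit 76) (nat_lit 1247688795039) (nat_lit 1) (nat_lit 4) (nat_lit 2) (nat_lit 5) (nat_lit 2) (nat_lit 4) (nat_lit 257) (nat_lit 189) (nat_lit 154))))) (XT.nd (nat_lit 312) (nat_lit 0) (nat_lit 0) (XT.nd (nat_lit 156) (nat_lit 0) (nat_lit 0) (XT.nd (nat_lit 78) (nat_lit 0) (nat_lit 0) (XT.lf (nat_lit 0) (nat_lit 1731070694761) (nat_lit 76) (nat_lit 1435772146358) (nat_lit 76) (nat_lit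 1433793176702) (nat_lit 1) (nat_lit 4) (nat_lit 2) (nat_lit 5) (nat_lit 2) (nat_lit 4) (nat_lit 258) (nat_lit 189) (nat_lit 153)) (XT.lf (nat_lit 0) (nat_lit 1992939982371) (nat_lit 76) (nat_lit 1649796315433) (nat_lit 76) (nat_lit 1647815649271) (nat_lit 1) (nat_lit 4) (nat_lit 2) (nat_lit 5) (nat_lit 2) (nat_lit 4) (nat_lit 259) (nat_lit 189) (nat_lit 152))) (XT.nd (nat_lit 78) (nat_lit 0) (nat_lit 0) (XT.lf (nat_lit 0) (nat_lit 2294086188754) (nat_lit 76) (nat_lit 1895925750334) (nat_lit 76) (nat_lit 1893943608950) (nat_lit 1) (nat_lit 4) (nat_lit 2) (nat_lit 5) (nat_lit 2) (nat_lit 4) (nat_lit 260) (nat_lit 189) (nat_lit 151)) (XT.lf (nat_lit 0) (nat_lit 2640401304905) (nat_lit 76) (nat_lit 2178976026961) (nat_lit 76) (nat_lit 2176992602775) (nat_lit 1) (nat_lit 4) (nat_lit 2) (nat_lit 5) (nat_lit 2) (nat_lit 4) (nat_lit 261) (nat_lit 189) (nat_lit 150)))) (XT.nd (nat_lit 156)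 (nat_lit 0) (nat_lit 0) (XT.nd (nat_lit 78) (nat_lit 0) (nat_lit 0) (XT.lf (nat_lit 0) (nat_lit 3038661061357) (nat_lit 76) (nat_lit 2504485085509) (nat_lit 76) (nat_lit 2502500545843) (nat_lit 1) (nat_lit 4) (nat_lit 2) (nat_lit 5) (nat_lit 2) (nat_lit 4) (nat_lit 262) (nat_lit 189) (nat_lit 149)) (XT.lf (nat_lit 0) (nat_lit 3496657496824) (nat_lit 76) (nat_lit 2878821581471) (nat_lit 76) (nat_lit 2876836071823) (nat_lit 1) (nat_lit 4) (nat_lit 2) (nat_lit 5) (nat_lit 2) (nat_lit 4) (nat_lit 263) (nat_lit 189) (nat_lit 148))) (XT.nd (nat_lit 78) (nat_lit 0) (nat_lit 0) (XT.lf (nat_lit 0) (nat_lit 4023351411130) (nat_lit 76) (nat_lit 3309309489769) (nat_lit 76) (nat_lit 3307323136657) (nat_lit 1) (nat_lit 4) (nat_lit 2) (nat_lit 5) (nat_lit 2) (nat_lit 4) (nat_lit 264) (nat_lit 189) (nat_lit 147)) (XT.lf (nat_lit 0) (nat_lit 4629047685207) (nat_lit 76) (nat_lit 3804371399912) (nat_lit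 76) (nat_lit 3802384313354) (nat_lit 1) (nat_lit 4) (nat_lit 2) (nat_lit 5) (nat_lit 2) (nat_lit 4) (nat_lit 265) (nat_lit 189) (nat_lit 146)))))) (XT.nd (nat_lit 624) (nat_lit 0) (nat_lit 0) (XT.nd (nat_lit 312) (nat_lit 0) (nat_lit 0) (XT.nd (nat_lit 156) (nat_lit 0) (nat_lit 0) (XT.nd (nat_lit 78) (nat_lit 0) (nat_lit 0) (XT.lf (nat_lit 0) (nat_lit 5325596898331) (nat_lit 76) (nat_lit 4373693305795) (nat_lit 76) (nat_lit 4371705581457) (nat_lit 1) (nat_lit 4) (nat_lit 2) (nat_lit 5) (nat_lit 2) (nat_lit 4) (nat_lit 266) (nat_lit 189) (nat_lit 145)) (XT.lf (nat_lit 0) (nat_lit 6126627187279) (nat_lit 76) (nat_lit 5028414114271) (nat_lit 76) (nat_lit 5026425835343) (nat_lit 1) (nat_lit 4) (nat_lit 2) (nat_lit 5) (nat_lit 2) (nat_lit 4) (nat_lit 267) (nat_lit 189) (nat_lit 144))) (XT.nd (nat_lit 78) (nat_lit 0) (nat_lit 0) (XT.lf (nat_lit 0) (nat_lit 7047810883793) (nat_lit 76) (nat_lit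 5781343580290) (nat_lit 76) (nat_lit 5779354819109) (nat_lit 1) (nat_lit 4) (nat_lit 2) (nat_lit 5) (nat_lit 2) (nat_lit 4) (nat_lit 268) (nat_lit 189) (nat_lit 143)) (XT.lf (nat_lit 0) (nat_lit 8107171147151) (nat_lit 76) (nat_lit 6647212932534) (nat_lit 76) (nat_lit 6645223752003) (nat_lit 1) (nat_lit 4) (nat_lit 2) (nat_lit 5) (nat_lit 2) (nat_lit 4) (nat_lit 269) (nat_lit 189) (nat_lit 142)))) (XT.nd (nat_lit 156) (nat_lit 0) (nat_lit 0) (XT.nd (nat_lit 78) (nat_lit 0) (nat_lit 0) (XT.lf (nat_lit 0) (nat_lit 9325434591203) (nat_lit 76) (nat_lit 7642963093112) (nat_lit 76) (nat_lit 7640973547929) (nat_lit 1) (nat_lit 4) (nat_lit 2) (nat_lit 5) (nat_lit 2) (nat_lit 4) (nat_lit 270) (nat_lit 189) (nat_lit 141)) (XT.lf (nat_lit 0) (nat_lit 10726436805070) (nat_lit 76) (nat_lit 8788076130384) (nat_lit 76) (nat_lit 8786086268111) (nat_lit 1) (nat_lit 4) (nat_lit 2) (nat_lit 5) (nat_lit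 2) (nat_lit 4) (nat_lit 271) (nat_lit 189) (nat_lit 140))) (XT.nd (nat_lit 78) (nat_lit 0) (nat_lit 0) (XT.lf (nat_lit 0) (nat_lit 12337588701634) (nat_lit 76) (nat_lit 10104956429861) (nat_lit 76) (nat_lit 10102966291859) (nat_lit 1) (nat_lit 4) (nat_lit 2) (nat_lit 5) (nat_lit 2) (nat_lit 4) (nat_lit 272) (nat_lit 189) (nat_lit 139)) (XT.lf (nat_lit 0) (nat_lit 14190412818000) (nat_lit 76) (nat_lit 11619369040881) (nat_lit 76) (nat_lit 11617378663114) (nat_lit 1) (nat_lit 4) (nat_lit 2) (nat_lit 5) (nat_lit 2) (nat_lit 4) (nat_lit 273) (nat_lit 189) (nat_lit 138))))) (XT.nd (nat_lit 312) (nat_lit 0) (nat_lit 0) (XT.nd (nat_lit 156) (nat_lit 0) (nat_lit 0) (XT.nd (nat_lit 78) (nat_lit 0) (nat_lit 0) (XT.lf (nat_lit 0) (nat_lit 16321160060793) (nat_lit 76) (nat_lit 13360943775399) (nat_lit 76) (nat_lit 13358953189141) (nat_lit 1) (nat_lit 4) (nat_lit 2) (nat_lit 5) (nat_lit 2) (nat_lit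 4) (nat_lit 274) (nat_lit 189) (nat_lit 137)) (XT.lf (nat_lit 0) (nat_lit 18771518963025) (nat_lit 76) (nat_lit 15363754921699) (nat_lit 76) (nat_lit 15361764154144) (nat_lit 1) (nat_lit 4) (nat_lit 2) (nat_lit 5) (nat_lit 2) (nat_lit 4) (nat_lit 275) (nat_lit 189) (nat_lit 136))) (XT.nd (nat_lit 78) (nat_lit 0) (nat_lit 0) (XT.lf (nat_lit 0) (nat_lit 21589431329303) (nat_lit 76) (nat_lit 17666987915251) (nat_lit 76) (nat_lit 17664996990047) (nat_lit 1) (nat_lit 4) (nat_lit 2) (nat_lit 5) (nat_lit 2) (nat_lit 4) (nat_lit 276) (nat_lit 189) (nat_lit 135)) (XT.lf (nat_lit 0) (nat_lit 24830030227665) (nat_lit 76) (nat_lit 20315706010278) (nat_lit 76) (nat_lit 20313714947987) (nat_lit 1) (nat_lit 4) (nat_lit 2) (nat_lit 5) (nat_lit 2) (nat_lit 4) (nat_lit 277) (nat_lit 189) (nat_lit 134)))) (XT.nd (nat_lit 26832) (nat_lit 0) (nat_lit 76) (XT.nd (nat_lit 26754) (nat_lit 0) (nat_lit 76)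 (XT.lf (nat_lit 0) (nat_lit 28556718680035) (nat_lit 76) (nat_lit 23361731952116) (nat_lit 76) (nat_lit 23359740770620) (nat_lit 1) (nat_lit 4) (nat_lit 2) (nat_lit 5) (nat_lit 2) (nat_lit 4) (nat_lit 278) (nat_lit 189) (nat_lit 133)) (XT.lf (nat_lit 0) (nat_lit 661293224) (nat_lit 152) (nat_lit 11313870419) (nat_lit 0) (nat_lit 661293224) (nat_lit 2) (nat_lit 5) (nat_lit 4) (nat_lit 4) (nat_lit 2) (nat_lit 4) (nat_lit 220) (nat_lit 190) (nat_lit 190))) (XT.nd (nat_lit 78) (nat_lit 0) (nat_lit 0) (XT.lf (nat_lit 0) (nat_lit 4680021836) (nat_lit 152) (nat_lit 19462209155) (nat_lit 0) (nat_lit 4381225406) (nat_lit 2) (nat_lit 5) (nat_lit 4) (nat_lit 4) (nat_lit 2) (nat_lit 4) (nat_lit 221) (nat_lit 190) (nat_lit 189)) (XT.lf (nat_lit 0) (nat_lit 8243415373) (nat_lit 152) (nat_lit 16379291970) (nat_lit 0) (nat_lit 7684795961) (nat_lit 2) (nat_lit 5) (nat_lit 4) (nat_lit 4) (nat_lit 2)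 (nat_lit 4) (nat_lit 222) (nat_lit 190) (nat_lit 188))))))))
noncomputable def xc14 : XT := (XT.nd (nat_lit 2418) (nat_lit 0) (nat_lit 0) (XT.nd (nat_lit 1170) (nat_lit 0) (nat_lit 0) (XT.nd (nat_lit 546) (nat_lit 0) (nat_lit 0) (XT.nd (nat_lit 234) (nat_lit 76) (nat_lit 0) (XT.nd (nat_lit 78) (nat_lit 0) (nat_lit 0) (XT.lf (nat_lit 0) (nat_lit 12082485629) (nat_lit 152) (nat_lit 13318671338) (nat_lit 0) (nat_lit 11297933188) (nat_lit 2) (nat_lit 5) (nat_lit 4) (nat_lit 4) (nat_lit 2) (nat_lit 4) (nat_lit 223) (nat_lit 190) (nat_lit 187)) (XT.nd (nat_lit 78) (nat_lit 0) (nat_lit 0) (XT.lf (nat_lit 0) (nat_lit 16272344847) (nat_lit 152) (nat_lit 10220465552) (nat_lit 0) (nat_lit 15291328903) (nat_lit 2) (nat_lit 5) (nat_lit 4) (nat_lit 4) (nat_lit 2) (nat_lit 4) (nat_lit 224) (nat_lit 190) (nat_lit 186)) (XT.lf (nat_lit 0) (nat_lit 20894968534) (nat_lit 152) (nat_lit 7024057540) (nat_lit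 0) (nat_lit 19743114761) (nat_lit 2) (nat_lit 5) (nat_lit 4) (nat_lit 4) (nat_lit 2) (nat_lit 4) (nat_lit 225) (nat_lit 190) (nat_lit 185)))) (XT.nd (nat_lit 156) (nat_lit 76) (nat_lit 0) (XT.nd (nat_lit 78) (nat_lit 0) (nat_lit 0) (XT.lf (nat_lit 0) (nat_lit 26040799327) (nat_lit 152) (nat_lit 3666908887) (nat_lit 0) (nat_lit 24740390921) (nat_lit 2) (nat_lit 5) (nat_lit 4) (nat_lit 4) (nat_lit 2) (nat_lit 4) (nat_lit 226) (nat_lit 190) (nat_lit 184)) (XT.lf (nat_lit 0) (nat_lit 31810516524) (nat_lit 152) (nat_lit 83336248) (nat_lit 0) (nat_lit 30380930176) (nat_lit 2) (nat_lit 5) (nat_lit 4) (nat_lit 4) (nat_lit 2) (nat_lit 4) (nat_lit 227) (nat_lit 190) (nat_lit 183))) (XT.nd (nat_lit 78) (nat_lit 0) (nat_lit 0) (XT.lf (nat_lit 0) (nat_lit 4167822097) (nat_lit 76) (nat_lit 34321764424) (nat_lit 76) (nat_lit 32779849431) (nat_lit 1) (nat_lit 4) (nat_lit 2) (nat_lit 5) (nat_lit 2)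 (nat_lit 4) (nat_lit 228) (nat_lit 190) (nat_lit 182)) (XT.lf (nat_lit 0) (nat_lit 8835975999) (nat_lit 76) (nat_lit 37217471248) (nat_lit 76) (nat_lit 35577879172) (nat_lit 1) (nat_lit 4) (nat_lit 2) (nat_lit 5) (nat_lit 2) (nat_lit 4) (nat_lit 229) (nat_lit 190) (nat_lit 181))))) (XT.nd (nat_lit 312) (nat_lit 0) (nat_lit 0) (XT.nd (nat_lit 156) (nat_lit 0) (nat_lit 0) (XT.nd (nat_lit 78) (nat_lit 0) (nat_lit 0) (XT.lf (nat_lit 0) (nat_lit 14004314678) (nat_lit 76) (nat_lit 40641984590) (nat_lit 76) (nat_lit 38917455919) (nat_lit 1) (nat_lit 4) (nat_lit 2) (nat_lit 5) (nat_lit 2) (nat_lit 4) (nat_lit 230) (nat_lit 190) (nat_lit 180)) (XT.lf (nat_lit 0) (nat_lit 19773957805) (nat_lit 76) (nat_lit 44662305798) (nat_lit 76) (nat_lit 42863919220) (nat_lit 1) (nat_lit 4) (nat_lit 2) (nat_lit 5) (nat_lit 2) (nat_lit 4) (nat_lit 231) (nat_lit 190) (nat_lit 179))) (XT.nd (nat_lit 78) (nat_lit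 0) (nat_lit 0) (XT.lf (nat_lit 0) (nat_lit 26257789701) (nat_lit 76) (nat_lit 49357093330) (nat_lit 76) (nat_lit 47494482485) (nat_lit 1) (nat_lit 4) (nat_lit 2) (nat_lit 5) (nat_lit 2) (nat_lit 4) (nat_lit 232) (nat_lit 190) (nat_lit 178)) (XT.lf (nat_lit 0) (nat_lit 33582667947) (nat_lit 76) (nat_lit 54818201726) (nat_lit 76) (nat_lit 52899743692) (nat_lit 1) (nat_lit 4) (nat_lit 2) (nat_lit 5) (nat_lit 2) (nat_lit 4) (nat_lit 233) (nat_lit 190) (nat_lit 177)))) (XT.nd (nat_lit 156) (nat_lit 0) (nat_lit 0) (XT.nd (nat_lit 78) (nat_lit 0) (nat_lit 0) (XT.lf (nat_lit 0) (nat_lit 41891905379) (nat_lit 76) (nat_lit 61152478759) (nat_lit 76) (nat_lit 59185457951) (nat_lit 1) (nat_lit 4) (nat_lit 2) (nat_lit 5) (nat_lit 2) (nat_lit 4) (nat_lit 234) (nat_lit 190) (nat_lit 176)) (XT.lf (nat_lit 0) (nat_lit 51348074032) (nat_lit 76) (nat_lit 68483855934) (nat_lit 76) (nat_lit 66474606628)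 (nat_lit 1) (nat_lit 4) (nat_lit 2) (nat_lit 5) (nat_lit 2) (nat_lit 4) (nat_lit 235) (nat_lit 190) (nat_lit 175))) (XT.nd (nat_lit 78) (nat_lit 0) (nat_lit 0) (XT.lf (nat_lit 0) (nat_lit 62136185902) (nat_lit 76) (nat_lit 76955773241) (nat_lit 76) (nat_lit 74909803502) (nat_lit 1) (nat_lit 4) (nat_lit 2) (nat_lit 5) (nat_lit 2) (nat_lit 4) (nat_lit 236) (nat_lit 190) (nat_lit 174)) (XT.lf (nat_lit 0) (nat_lit 74467312744) (nat_lit 76) (nat_lit 86733985584) (nat_lit 76) (nat_lit 84656085033) (nat_lit 1) (nat_lit 4) (nat_lit 2) (nat_lit 5) (nat_lit 2) (nat_lit 4) (nat_lit 237) (nat_lit 190) (nat_lit 173)))))) (XT.nd (nat_lit 624) (nat_lit 0) (nat_lit 0) (XT.nd (nat_lit 312) (nat_lit 0) (nat_lit 0) (XT.nd (nat_lit 156) (nat_lit 0) (nat_lit 0) (XT.nd (nat_lit 78) (nat_lit 0) (nat_lit 0) (XT.lf (nat_lit 0) (nat_lit 88582715734) (nat_lit 76) (nat_lit 98009805813) (nat_lit 76) (nat_lit 95904139338)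 (nat_lit 1) (nat_lit 4) (nat_lit 2) (nat_lit 5) (nat_lit 2) (nat_lit 4) (nat_lit 238) (nat_lit 190) (nat_lit 172)) (XT.lf (nat_lit 0) (nat_lit 104758565802) (nat_lit 76) (nat_lit 111003847801) (nat_lit 76) (nat_lit 108874037045) (nat_lit 1) (nat_lit 4) (nat_lit 2) (nat_lit 5) (nat_lit 2) (nat_lit 4) (nat_lit 239) (nat_lit 190) (nat_lit 171))) (XT.nd (nat_lit 78) (nat_lit 0) (nat_lit 0) (XT.lf (nat_lit 0) (nat_lit 123311346968) (nat_lit 76) (nat_lit 125970342805) (nat_lit 76) (nat_lit 123819537022) (nat_lit 1) (nat_lit 4) (nat_lit 2) (nat_lit 5) (nat_lit 2) (nat_lit 4) (nat_lit 240) (nat_lit 190) (nat_lit 170)) (XT.lf (nat_lit 0) (nat_lit 144604048432) (nat_lit 76) (nat_lit 143202113553) (nat_lit 76) (nat_lit 141033051225) (nat_lit 1) (nat_lit 4) (nat_lit 2) (nat_lit 5) (nat_lit 2) (nat_lit 4) (nat_lit 241) (nat_lit 190) (nat_lit 169)))) (XT.nd (nat_lit 156) (nat_lit 0) (nat_lit 0)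 (XT.nd (nat_lit 78) (nat_lit 0) (nat_lit 0) (XT.lf (nat_lit 0) (nat_lit 169053266525) (nat_lit 76) (nat_lit 163036303387) (nat_lit 76) (nat_lit 160851365802) (nat_lit 1) (nat_lit 4) (nat_lit 2) (nat_lit 5) (nat_lit 2) (nat_lit 4) (nat_lit 242) (nat_lit 190) (nat_lit 168)) (XT.lf (nat_lit 0) (nat_lit 197137355514) (nat_lit 76) (nat_lit 185860972541) (nat_lit 76) (nat_lit 183662230386) (nat_lit 1) (nat_lit 4) (nat_lit 2) (nat_lit 5) (nat_lit 2) (nat_lit 4) (nat_lit 243) (nat_lit 190) (nat_lit 167))) (XT.nd (nat_lit 78) (nat_lit 0) (nat_lit 0) (XT.lf (nat_lit 0) (nat_lit 229405786706) (nat_lit 76) (nat_lit 212122690631) (nat_lit 76) (nat_lit 209911944500) (nat_lit 1) (nat_lit 4) (nat_lit 2) (nat_lit 5) (nat_lit 2) (nat_lit 4) (nat_lit 244) (nat_lit 190) (nat_lit 166)) (XT.lf (nat_lit 0) (nat_lit 266489898972) (nat_lit 76) (nat_lit 242335273878) (nat_lit 76) (nat_lit 240114089509) (nat_lit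 1) (nat_lit 4) (nat_lit 2) (nat_lit 5) (nat_lit 2) (nat_lit 4) (nat_lit 245) (nat_lit 190) (nat_lit 165))))) (XT.nd (nat_lit 312) (nat_lit 0) (nat_lit 0) (XT.nd (nat_lit 156) (nat_lit 0) (nat_lit 0) (XT.nd (nat_lit 78) (nat_lit 0) (nat_lit 0) (XT.lf (nat_lit 0) (nat_lit 309115251030) (nat_lit 76) (nat_lit 277089838043) (nat_lit 76) (nat_lit 274859576944) (nat_lit 1) (nat_lit 4) (nat_lit 2) (nat_lit 5) (nat_lit 2) (nat_lit 4) (nat_lit 246) (nat_lit 190) (nat_lit 164)) (XT.lf (nat_lit 0) (nat_lit 358115817160) (nat_lit 76) (nat_lit 317066363729) (nat_lit 76) (nat_lit 314828209822) (nat_lit 1) (nat_lit 4) (nat_lit 2) (nat_lit 5) (nat_lit 2) (nat_lit 4) (nat_lit 247) (nat_lit 190) (nat_lit 163))) (XT.nd (nat_lit 78) (nat_lit 0) (nat_lit 0) (XT.lf (nat_lit 0) (nat_lit 414450304090) (nat_lit 76) (nat_lit 363047000351) (nat_lit 76) (nat_lit 360801983132) (nat_lit 1) (nat_lit 4) (nat_lit 2)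 (nat_lit 5) (nat_lit 2) (nat_lit 4) (nat_lit 248) (nat_lit 190) (nat_lit 162)) (XT.lf (nat_lit 0) (nat_lit 479220908304) (nat_lit 76) (nat_lit 415931369061) (nat_lit 76) (nat_lit 413680383745) (nat_lit 1) (nat_lit 4) (nat_lit 2) (nat_lit 5) (nat_lit 2) (nat_lit 4) (nat_lit 249) (nat_lit 190) (nat_lit 161)))) (XT.nd (nat_lit 156) (nat_lit 0) (nat_lit 0) (XT.nd (nat_lit 78) (nat_lit 0) (nat_lit 0) (XT.lf (nat_lit 0) (nat_lit 553694880754) (nat_lit 76) (nat_lit 476754164029) (nat_lit 76) (nat_lit 474497989063) (nat_lit 1) (nat_lit 4) (nat_lit 2) (nat_lit 5) (nat_lit 2) (nat_lit 4) (nat_lit 250) (nat_lit 190) (nat_lit 160)) (XT.lf (nat_lit 0) (nat_lit 639329320900) (nat_lit 76) (nat_lit 546705396461) (nat_lit 76) (nat_lit 544444708756) (nat_lit 1) (nat_lit 4) (nat_lit 2) (nat_lit 5) (nat_lit 2) (nat_lit 4) (nat_lit 251) (nat_lit 190) (nat_lit 159))) (XT.nd (nat_lit 78) (nat_lit 0) (nat_lit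 0) (XT.lf (nat_lit 0) (nat_lit 737799685180) (nat_lit 76) (nat_lit 627153677426) (nat_lit 76) (nat_lit 624889065601) (nat_lit 1) (nat_lit 4) (nat_lit 2) (nat_lit 5) (nat_lit 2) (nat_lit 4) (nat_lit 252) (nat_lit 190) (nat_lit 158)) (XT.lf (nat_lit 0) (nat_lit 851032567679) (nat_lit 76) (nat_lit 719672995030) (nat_lit 76) (nat_lit 717404970926) (nat_lit 1) (nat_lit 4) (nat_lit 2) (nat_lit 5) (nat_lit 2) (nat_lit 4) (nat_lit 253) (nat_lit 190) (nat_lit 157))))))) (XT.nd (nat_lit 1170) (nat_lit 0) (nat_lit 0) (XT.nd (nat_lit 546) (nat_lit 0) (nat_lit 0) (XT.nd (nat_lit 234) (nat_lit 0) (nat_lit 0) (XT.nd (nat_lit 78) (nat_lit 0) (nat_lit 0) (XT.lf (nat_lit 0) (nat_lit 981243394357) (nat_lit 76) (nat_lit 826073509835) (nat_lit 76) (nat_lit 823802518532) (nat_lit 1) (nat_lit 4) (nat_lit 2) (nat_lit 5) (nat_lit 2) (nat_lit 4) (nat_lit 254) (nat_lit 190) (nat_lit 156)) (XT.nd (nat_lit 78)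 (nat_lit 0) (nat_lit 0) (XT.lf (nat_lit 0) (nat_lit 1130979768346) (nat_lit 76) (nat_lit 948436971044) (nat_lit 76) (nat_lit 946163399568) (nat_lit 1) (nat_lit 4) (nat_lit 2) (nat_lit 5) (nat_lit 2) (nat_lit 4) (nat_lit 255) (nat_lit 190) (nat_lit 155)) (XT.lf (nat_lit 0) (nat_lit 1303171314354) (nat_lit 76) (nat_lit 1089157446375) (nat_lit 76) (nat_lit 1086881631271) (nat_lit 1) (nat_lit 4) (nat_lit 2) (nat_lit 5) (nat_lit 2) (nat_lit 4) (nat_lit 256) (nat_lit 190) (nat_lit 154)))) (XT.nd (nat_lit 156) (nat_lit 0) (nat_lit 0) (XT.nd (nat_lit 78) (nat_lit 0) (nat_lit 0) (XT.lf (nat_lit 0) (nat_lit 1501186997412) (nat_lit 76) (nat_lit 1250988162521) (nat_lit 76) (nat_lit 1248710396435) (nat_lit 1) (nat_lit 4) (nat_lit 2) (nat_lit 5) (nat_lit 2) (nat_lit 4) (nat_lit 257) (nat_lit 190) (nat_lit 153)) (XT.lf (nat_lit 0) (nat_lit 1728901037405) (nat_lit 76) (nat_lit 1437095372623) (nat_lit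 76) (nat_lit 1434815910031) (nat_lit 1) (nat_lit 4) (nat_lit 2) (nat_lit 5) (nat_lit 2) (nat_lit 4) (nat_lit 258) (nat_lit 190) (nat_lit 152))) (XT.nd (nat_lit 78) (nat_lit 0) (nat_lit 0) (XT.lf (nat_lit 0) (nat_lit 1990768709030) (nat_lit 76) (nat_lit 1651120304705) (nat_lit 76) (nat_lit 1648839366891) (nat_lit 1) (nat_lit 4) (nat_lit 2) (nat_lit 5) (nat_lit 2) (nat_lit 4) (nat_lit 259) (nat_lit 190) (nat_lit 151)) (XT.lf (nat_lit 0) (nat_lit 2291913510208) (nat_lit 76) (nat_lit 1897250403090) (nat_lit 76) (nat_lit 1894968182474) (nat_lit 1) (nat_lit 4) (nat_lit 2) (nat_lit 5) (nat_lit 2) (nat_lit 4) (nat_lit 260) (nat_lit 190) (nat_lit 150))))) (XT.nd (nat_lit 312) (nat_lit 0) (nat_lit 0) (XT.nd (nat_lit 156) (nat_lit 0) (nat_lit 0) (XT.nd (nat_lit 78) (nat_lit 0) (nat_lit 0) (XT.lf (nat_lit 0) (nat_lit 2638227404442) (nat_lit 76) (nat_lit 2180301256660) (nat_lit 76) (nat_lit 2178017920563)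 (nat_lit 1) (nat_lit 4) (nat_lit 2) (nat_lit 5) (nat_lit 2) (nat_lit 4) (nat_lit 261) (nat_lit 190) (nat_lit 149)) (XT.lf (nat_lit 0) (nat_lit 3036486098358) (nat_lit 76) (nat_lit 2505810816897) (nat_lit 76) (nat_lit 2503526510818) (nat_lit 1) (nat_lit 4) (nat_lit 2) (nat_lit 5) (nat_lit 2) (nat_lit 4) (nat_lit 262) (nat_lit 190) (nat_lit 148))) (XT.nd (nat_lit 78) (nat_lit 0) (nat_lit 0) (XT.lf (nat_lit 0) (nat_lit 3494481609881) (nat_lit 76) (nat_lit 2880147749111) (nat_lit 76) (nat_lit 2877862599569) (nat_lit 1) (nat_lit 4) (nat_lit 2) (nat_lit 5) (nat_lit 2) (nat_lit 4) (nat_lit 263) (nat_lit 190) (nat_lit 147)) (XT.lf (nat_lit 0) (nat_lit 4021174720757) (nat_lit 76) (nat_lit 3310636036758) (nat_lit 76) (nat_lit 3308350153770) (nat_lit 1) (nat_lit 4) (nat_lit 2) (nat_lit 5) (nat_lit 2) (nat_lit 4) (nat_lit 264) (nat_lit 190) (nat_lit 146)))) (XT.nd (nat_lit 156) (nat_lit 0) (nat_lit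 0) (XT.nd (nat_lit 78) (nat_lit 0) (nat_lit 0) (XT.lf (nat_lit 0) (nat_lit 4626870296199) (nat_lit 76) (nat_lit 3805698276770) (nat_lit 76) (nat_lit 3803411756002) (nat_lit 1) (nat_lit 4) (nat_lit 2) (nat_lit 5) (nat_lit 2) (nat_lit 4) (nat_lit 265) (nat_lit 190) (nat_lit 145)) (XT.lf (nat_lit 0) (nat_lit 5323418901813) (nat_lit 76) (nat_lit 4375020469495) (nat_lit 76) (nat_lit 4372733394137) (nat_lit 1) (nat_lit 4) (nat_lit 2) (nat_lit 5) (nat_lit 2) (nat_lit 4) (nat_lit 266) (nat_lit 190) (nat_lit 144))) (XT.nd (nat_lit 78) (nat_lit 0) (nat_lit 0) (XT.lf (nat_lit 0) (nat_lit 6124448662493) (nat_lit 76) (nat_lit 5029741527399) (nat_lit 76) (nat_lit 5027453969789) (nat_lit 1) (nat_lit 4) (nat_lit 2) (nat_lit 5) (nat_lit 2) (nat_lit 4) (nat_lit 267) (nat_lit 190) (nat_lit 143)) (XT.lf (nat_lit 0) (nat_lit 7045631899643) (nat_lit 76) (nat_lit 5782671210312) (nat_lit 76) (nat_lit 5780383233351)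 (nat_lit 1) (nat_lit 4) (nat_lit 2) (nat_lit 5) (nat_lit 2) (nat_lit 4) (nat_lit 268) (nat_lit 190) (nat_lit 142)))))) (XT.nd (nat_lit 624) (nat_lit 0) (nat_lit 0) (XT.nd (nat_lit 312) (nat_lit 0) (nat_lit 0) (XT.nd (nat_lit 156) (nat_lit 0) (nat_lit 0) (XT.nd (nat_lit 78) (nat_lit 0) (nat_lit 0) (XT.lf (nat_lit 0) (nat_lit 8104991763555) (nat_lit 76) (nat_lit 6648540751160) (nat_lit 76) (nat_lit 6646252409546) (nat_lit 1) (nat_lit 4) (nat_lit 2) (nat_lit 5) (nat_lit 2) (nat_lit 4) (nat_lit 269) (nat_lit 190) (nat_lit 141)) (XT.lf (nat_lit 0) (nat_lit 9323254860261) (nat_lit 76) (nat_lit 7644291075741) (nat_lit 76) (nat_lit 7642002417039) (nat_lit 1) (nat_lit 4) (nat_lit 2) (nat_lit 5) (nat_lit 2) (nat_lit 4) (nat_lit 270) (nat_lit 190) (nat_lit 140))) (XT.nd (nat_lit 78) (nat_lit 0) (nat_lit 0) (XT.lf (nat_lit 0) (nat_lit 10724256772090) (nat_lit 76) (nat_lit 8789404255625) (nat_lit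 76) (nat_lit 8787115321192) (nat_lit 1) (nat_lit 4) (nat_lit 2) (nat_lit 5) (nat_lit 2) (nat_lit 4) (nat_lit 271) (nat_lit 190) (nat_lit 139)) (XT.lf (nat_lit 0) (nat_lit 12335408406011) (nat_lit 76) (nat_lit 10106284679112) (nat_lit 76) (nat_lit 10103995504915) (nat_lit 1) (nat_lit 4) (nat_lit 2) (nat_lit 5) (nat_lit 2) (nat_lit 4) (nat_lit 272) (nat_lit 190) (nat_lit 138)))) (XT.nd (nat_lit 156) (nat_lit 0) (nat_lit 0) (XT.nd (nat_lit 78) (nat_lit 0) (nat_lit 0) (XT.lf (nat_lit 0) (nat_lit 14188232293992) (nat_lit 76) (nat_lit 11620697397967) (nat_lit 76) (nat_lit 11618408015278) (nat_lit 1) (nat_lit 4) (nat_lit 2) (nat_lit 5) (nat_lit 2) (nat_lit 4) (nat_lit 273) (nat_lit 190) (nat_lit 137)) (XT.lf (nat_lit 0) (nat_lit 16318979338189) (nat_lit 76) (nat_lit 13362272226254) (nat_lit 76) (nat_lit 13359982662269) (nat_lit 1) (nat_lit 4) (nat_lit 2) (nat_lit 5) (nat_lit 2) (nat_lit 4)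 (nat_lit 274) (nat_lit 190) (nat_lit 136))) (XT.nd (nat_lit 78) (nat_lit 0) (nat_lit 0) (XT.lf (nat_lit 0) (nat_lit 18769338067729) (nat_lit 76) (nat_lit 15365083454092) (nat_lit 76) (nat_lit 15362793732457) (nat_lit 1) (nat_lit 4) (nat_lit 2) (nat_lit 5) (nat_lit 2) (nat_lit 4) (nat_lit 275) (nat_lit 190) (nat_lit 135)) (XT.lf (nat_lit 0) (nat_lit 21587250283841) (nat_lit 76) (nat_lit 17668316518547) (nat_lit 76) (nat_lit 17666026659827) (nat_lit 1) (nat_lit 4) (nat_lit 2) (nat_lit 5) (nat_lit 2) (nat_lit 4) (nat_lit 276) (nat_lit 190) (nat_lit 134))))) (XT.nd (nat_lit 26910) (nat_lit 0) (nat_lit 76) (XT.nd (nat_lit 26754) (nat_lit 0) (nat_lit 76) (XT.nd (nat_lit 26676) (nat_lit 0) (nat_lit 228) (XT.lf (nat_lit 0) (nat_lit 24827849051623) (nat_lit 76) (nat_lit 20317034675229) (nat_lit 76) (nat_lit 20314744697303) (nat_lit 1) (nat_lit 4) (nat_lit 2) (nat_lit 5) (nat_lit 2) (nat_lit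 4) (nat_lit 277) (nat_lit 190) (nat_lit 133)) (XT.lf (nat_lit 0) (nat_lit 5689172774) (nat_lit 76) (nat_lit 2151407827) (nat_lit 76) (nat_lit 2151407827) (nat_lit 4) (nat_lit 4) (nat_lit 5) (nat_lit 5) (nat_lit 5) (nat_lit 4) (nat_lit 218) (nat_lit 191) (nat_lit 191))) (XT.nd (nat_lit 78) (nat_lit 152) (nat_lit 0) (XT.lf (nat_lit 0) (nat_lit 19159429297) (nat_lit 76) (nat_lit 1842043127) (nat_lit 76) (nat_lit 1446884849) (nat_lit 4) (nat_lit 4) (nat_lit 5) (nat_lit 5) (nat_lit 5) (nat_lit 4) (nat_lit 219) (nat_lit 191) (nat_lit 190)) (XT.lf (nat_lit 0) (nat_lit 1506990373) (nat_lit 152) (nat_lit 22925908693) (nat_lit 0) (nat_lit 864578049) (nat_lit 2) (nat_lit 5) (nat_lit 4) (nat_lit 4) (nat_lit 2) (nat_lit 4) (nat_lit 220) (nat_lit 191) (nat_lit 189)))) (XT.nd (nat_lit 156) (nat_lit 0) (nat_lit 0) (XT.nd (nat_lit 78) (nat_lit 0) (nat_lit 0) (XT.lf (nat_lit 0) (nat_lit 4725980571)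 (nat_lit 152) (nat_lit 20019653406) (nat_lit 0) (nat_lit 3823745264) (nat_lit 2) (nat_lit 5) (nat_lit 4) (nat_lit 4) (nat_lit 2) (nat_lit 4) (nat_lit 221) (nat_lit 191) (nat_lit 188)) (XT.lf (nat_lit 0) (nat_lit 8168986986) (nat_lit 152) (nat_lit 17162193956) (nat_lit 0) (nat_lit 7040818651) (nat_lit 2) (nat_lit 5) (nat_lit 4) (nat_lit 4) (nat_lit 2) (nat_lit 4) (nat_lit 222) (nat_lit 191) (nat_lit 187))) (XT.nd (nat_lit 78) (nat_lit 0) (nat_lit 0) (XT.lf (nat_lit 0) (nat_lit 11903372788) (nat_lit 152) (nat_lit 14297623529) (nat_lit 0) (nat_lit 10578740950) (nat_lit 2) (nat_lit 5) (nat_lit 4) (nat_lit 4) (nat_lit 2) (nat_lit 4) (nat_lit 223) (nat_lit 191) (nat_lit 186)) (XT.lf (nat_lit 0) (nat_lit 16002202046) (nat_lit 152) (nat_lit 11369896181) (nat_lit 0) (nat_lit 14506732379) (nat_lit 2) (nat_lit 5) (nat_lit 4) (nat_lit 4) (nat_lit 2) (nat_lit 4) (nat_lit 224) (nat_lit 191) (nat_lit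 185))))))))
noncomputable def xc15 : XT := (XT.nd (nat_lit 2418) (nat_lit 0) (nat_lit 0) (XT.nd (nat_lit 1170) (nat_lit 0) (nat_lit 0) (XT.nd (nat_lit 546) (nat_lit 0) (nat_lit 0) (XT.nd (nat_lit 234) (nat_lit 76) (nat_lit 0) (XT.nd (nat_lit 78) (nat_lit 0) (nat_lit 0) (XT.lf (nat_lit 0) (nat_lit 20545669246) (nat_lit 152) (nat_lit 8321730290) (nat_lit 0) (nat_lit 18901644946) (nat_lit 2) (nat_lit 5) (nat_lit 4) (nat_lit 4) (nat_lit 2) (nat_lit 4) (nat_lit 225) (nat_lit 191) (nat_lit 184)) (XT.nd (nat_lit 78) (nat_lit 0) (nat_lit 0) (XT.lf (nat_lit 0) (nat_lit 25622668311) (nat_lit 152) (nat_lit 5093487829) (nat_lit 0) (nat_lit 23849466069) (nat_lit 2) (nat_lit 5) (nat_lit 4) (nat_lit 4) (nat_lit 2) (nat_lit 4) (nat_lit 226) (nat_lit 191) (nat_lit 183)) (XT.lf (nat_lit 0) (nat_lit 31332531832) (nat_lit 152) (nat_lit 1622007531) (nat_lit 0) (nat_lit 29447000944) (nat_lit 2) (nat_lit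 5) (nat_lit 4) (nat_lit 4) (nat_lit 2) (nat_lit 4) (nat_lit 227) (nat_lit 191) (nat_lit 182)))) (XT.nd (nat_lit 156) (nat_lit 0) (nat_lit 0) (XT.nd (nat_lit 78) (nat_lit 0) (nat_lit 0) (XT.lf (nat_lit 0) (nat_lit 2371783432) (nat_lit 76) (nat_lit 35513401592) (nat_lit 76) (nat_lit 33530193621) (nat_lit 1) (nat_lit 4) (nat_lit 2) (nat_lit 5) (nat_lit 2) (nat_lit 4) (nat_lit 228) (nat_lit 191) (nat_lit 181)) (XT.lf (nat_lit 0) (nat_lit 6946896260) (nat_lit 76) (nat_lit 38453038878) (nat_lit 76) (nat_lit 36384894313) (nat_lit 1) (nat_lit 4) (nat_lit 2) (nat_lit 5) (nat_lit 2) (nat_lit 4) (nat_lit 229) (nat_lit 191) (nat_lit 180))) (XT.nd (nat_lit 78) (nat_lit 0) (nat_lit 0) (XT.lf (nat_lit 0) (nat_lit 12034329658) (nat_lit 76) (nat_lit 41915752622) (nat_lit 76) (nat_lit 39773750150) (nat_lit 1) (nat_lit 4) (nat_lit 2) (nat_lit 5) (nat_lit 2) (nat_lit 4) (nat_lit 230) (nat_lit 191) (nat_lit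 179)) (XT.lf (nat_lit 0) (nat_lit 17733620367) (nat_lit 76) (nat_lit 45969291571) (nat_lit 76) (nat_lit 43763064831) (nat_lit 1) (nat_lit 4) (nat_lit 2) (nat_lit 5) (nat_lit 2) (nat_lit 4) (nat_lit 231) (nat_lit 191) (nat_lit 178))))) (XT.nd (nat_lit 312) (nat_lit 0) (nat_lit 0) (XT.nd (nat_lit 156) (nat_lit 0) (nat_lit 0) (XT.nd (nat_lit 78) (nat_lit 0) (nat_lit 0) (XT.lf (nat_lit 0) (nat_lit 24156276247) (nat_lit 76) (nat_lit 50692964096) (nat_lit 76) (nat_lit 48430890167) (nat_lit 1) (nat_lit 4) (nat_lit 2) (nat_lit 5) (nat_lit 2) (nat_lit 4) (nat_lit 232) (nat_lit 191) (nat_lit 177)) (XT.lf (nat_lit 0) (nat_lit 31427957957) (nat_lit 76) (nat_lit 56179189877) (nat_lit 76) (nat_lit 53868553174) (nat_lit 1) (nat_lit 4) (nat_lit 2) (nat_lit 5) (nat_lit 2) (nat_lit 4) (nat_lit 233) (nat_lit 191) (nat_lit 176))) (XT.nd (nat_lit 78) (nat_lit 0) (nat_lit 0) (XT.lf (nat_lit 0) (nat_lit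 39690937532) (nat_lit 76) (nat_lit 62535308113) (nat_lit 76) (nat_lit 60182442912) (nat_lit 1) (nat_lit 4) (nat_lit 2) (nat_lit 5) (nat_lit 2) (nat_lit 4) (nat_lit 234) (nat_lit 191) (nat_lit 175)) (XT.lf (nat_lit 0) (nat_lit 49106881961) (nat_lit 76) (nat_lit 69885677640) (nat_lit 76) (nat_lit 67496092005) (nat_lit 1) (nat_lit 4) (nat_lit 2) (nat_lit 5) (nat_lit 2) (nat_lit 4) (nat_lit 235) (nat_lit 191) (nat_lit 174)))) (XT.nd (nat_lit 156) (nat_lit 0) (nat_lit 0) (XT.nd (nat_lit 78) (nat_lit 0) (nat_lit 0) (XT.lf (nat_lit 0) (nat_lit 59860016246) (nat_lit 76) (nat_lit 78374110035) (nat_lit 76) (nat_lit 75952593589) (nat_lit 1) (nat_lit 4) (nat_lit 2) (nat_lit 5) (nat_lit 2) (nat_lit 4) (nat_lit 236) (nat_lit 191) (nat_lit 173)) (XT.lf (nat_lit 0) (nat_lit 72160727796) (nat_lit 76) (nat_lit 88166683324) (nat_lit 76) (nat_lit 85717400955) (nat_lit 1) (nat_lit 4) (nat_lit 2) (nat_lit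 5) (nat_lit 2) (nat_lit 4) (nat_lit 237) (nat_lit 191) (nat_lit 172))) (XT.nd (nat_lit 78) (nat_lit 0) (nat_lit 0) (XT.lf (nat_lit 0) (nat_lit 86249682706) (nat_lit 76) (nat_lit 99454991332) (nat_lit 76) (nat_lit 96981564682) (nat_lit 1) (nat_lit 4) (nat_lit 2) (nat_lit 5) (nat_lit 2) (nat_lit 4) (nat_lit 238) (nat_lit 191) (nat_lit 171)) (XT.lf (nat_lit 0) (nat_lit 102402534443) (nat_lit 76) (nat_lit 112459892258) (nat_lit 76) (nat_lit 109965470581) (nat_lit 1) (nat_lit 4) (nat_lit 2) (nat_lit 5) (nat_lit 2) (nat_lit 4) (nat_lit 239) (nat_lit 191) (nat_lit 170)))))) (XT.nd (nat_lit 624) (nat_lit 0) (nat_lit 0) (XT.nd (nat_lit 312) (nat_lit 0) (nat_lit 0) (XT.nd (nat_lit 156) (nat_lit 0) (nat_lit 0) (XT.nd (nat_lit 78) (nat_lit 0) (nat_lit 0) (XT.lf (nat_lit 0) (nat_lit 120935317062) (nat_lit 76) (nat_lit 127435829818) (nat_lit 76) (nat_lit 124923151595) (nat_lit 1) (nat_lit 4) (nat_lit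 2) (nat_lit 5) (nat_lit 2) (nat_lit 4) (nat_lit 240) (nat_lit 191) (nat_lit 169)) (XT.lf (nat_lit 0) (nat_lit 142210628483) (nat_lit 76) (nat_lit 144675811484) (nat_lit 76) (nat_lit 142147258005) (nat_lit 1) (nat_lit 4) (nat_lit 2) (nat_lit 5) (nat_lit 2) (nat_lit 4) (nat_lit 241) (nat_lit 191) (nat_lit 168))) (XT.nd (nat_lit 78) (nat_lit 0) (nat_lit 0) (XT.lf (nat_lit 0) (nat_lit 166644724800) (nat_lit 76) (nat_lit 164517141246) (nat_lit 76) (nat_lit 161974783195) (nat_lit 1) (nat_lit 4) (nat_lit 2) (nat_lit 5) (nat_lit 2) (nat_lit 4) (nat_lit 242) (nat_lit 191) (nat_lit 167)) (XT.lf (nat_lit 0) (nat_lit 194715664420) (nat_lit 76) (nat_lit 187348019033) (nat_lit 76) (nat_lit 184793657008) (nat_lit 1) (nat_lit 4) (nat_lit 2) (nat_lit 5) (nat_lit 2) (nat_lit 4) (nat_lit 243) (nat_lit 191) (nat_lit 166)))) (XT.nd (nat_lit 156) (nat_lit 0) (nat_lit 0) (XT.nd (nat_lit 78) (nat_lit 0) (nat_lit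 0) (XT.lf (nat_lit 0) (nat_lit 226972661377) (nat_lit 76) (nat_lit 213615135934) (nat_lit 76) (nat_lit 211050335670) (nat_lit 1) (nat_lit 4) (nat_lit 2) (nat_lit 5) (nat_lit 2) (nat_lit 4) (nat_lit 244) (nat_lit 191) (nat_lit 165)) (XT.lf (nat_lit 0) (nat_lit 264046830830) (nat_lit 76) (nat_lit 243832413801) (nat_lit 76) (nat_lit 241258536807) (nat_lit 1) (nat_lit 4) (nat_lit 2) (nat_lit 5) (nat_lit 2) (nat_lit 4) (nat_lit 245) (nat_lit 191) (nat_lit 164))) (XT.nd (nat_lit 78) (nat_lit 0) (nat_lit 0) (XT.lf (nat_lit 0) (nat_lit 306663536964) (nat_lit 76) (nat_lit 278591060243) (nat_lit 76) (nat_lit 276009290441) (nat_lit 1) (nat_lit 4) (nat_lit 2) (nat_lit 5) (nat_lit 2) (nat_lit 4) (nat_lit 246) (nat_lit 191) (nat_lit 163)) (XT.lf (nat_lit 0) (nat_lit 355656584899) (nat_lit 76) (nat_lit 318571135735) (nat_lit 76) (nat_lit 315982502622) (nat_lit 1) (nat_lit 4) (nat_lit 2) (nat_lit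 5) (nat_lit 2) (nat_lit 4) (nat_lit 247) (nat_lit 191) (nat_lit 162))))) (XT.nd (nat_lit 312) (nat_lit 0) (nat_lit 0) (XT.nd (nat_lit 156) (nat_lit 0) (nat_lit 0) (XT.nd (nat_lit 78) (nat_lit 0) (nat_lit 0) (XT.lf (nat_lit 0) (nat_lit 411984534268) (nat_lit 76) (nat_lit 364554859145) (nat_lit 76) (nat_lit 361960257935) (nat_lit 1) (nat_lit 4) (nat_lit 2) (nat_lit 5) (nat_lit 2) (nat_lit 4) (nat_lit 248) (nat_lit 191) (nat_lit 161)) (XT.lf (nat_lit 0) (nat_lit 476749453647) (nat_lit 76) (nat_lit 417441912019) (nat_lit 76) (nat_lit 414842121159) (nat_lit 1) (nat_lit 4) (nat_lit 2) (nat_lit 5) (nat_lit 2) (nat_lit 4) (nat_lit 249) (nat_lit 191) (nat_lit 160))) (XT.nd (nat_lit 78) (nat_lit 0) (nat_lit 0) (XT.lf (nat_lit 0) (nat_lit 551218482761) (nat_lit 76) (nat_lit 478267041042) (nat_lit 76) (nat_lit 475662737443) (nat_lit 1) (nat_lit 4) (nat_lit 2) (nat_lit 5) (nat_lit 2) (nat_lit 4)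 (nat_lit 250) (nat_lit 191) (nat_lit 159)) (XT.lf (nat_lit 0) (nat_lit 636848624355) (nat_lit 76) (nat_lit 548220303087) (nat_lit 76) (nat_lit 545612075367) (nat_lit 1) (nat_lit 4) (nat_lit 2) (nat_lit 5) (nat_lit 2) (nat_lit 4) (nat_lit 251) (nat_lit 191) (nat_lit 158)))) (XT.nd (nat_lit 156) (nat_lit 0) (nat_lit 0) (XT.nd (nat_lit 78) (nat_lit 0) (nat_lit 0) (XT.lf (nat_lit 0) (nat_lit 735315250763) (nat_lit 76) (nat_lit 628670348933) (nat_lit 76) (nat_lit 626058708935) (nat_lit 1) (nat_lit 4) (nat_lit 2) (nat_lit 5) (nat_lit 2) (nat_lit 4) (nat_lit 252) (nat_lit 191) (nat_lit 157)) (XT.lf (nat_lit 0) (nat_lit 848544882939) (nat_lit 76) (nat_lit 721191201216) (nat_lit 76) (nat_lit 718576594019) (nat_lit 1) (nat_lit 4) (nat_lit 2) (nat_lit 5) (nat_lit 2) (nat_lit 4) (nat_lit 253) (nat_lit 191) (nat_lit 156))) (XT.nd (nat_lit 78) (nat_lit 0) (nat_lit 0) (XT.lf (nat_lit 0) (nat_lit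 978752883249) (nat_lit 76) (nat_lit 827593050525) (nat_lit 76) (nat_lit 824975863155) (nat_lit 1) (nat_lit 4) (nat_lit 2) (nat_lit 5) (nat_lit 2) (nat_lit 4) (nat_lit 254) (nat_lit 191) (nat_lit 155)) (XT.lf (nat_lit 0) (nat_lit 1128486799527) (nat_lit 76) (nat_lit 949957672171) (nat_lit 76) (nat_lit 947338241172) (nat_lit 1) (nat_lit 4) (nat_lit 2) (nat_lit 5) (nat_lit 2) (nat_lit 4) (nat_lit 255) (nat_lit 191) (nat_lit 154))))))) (XT.nd (nat_lit 1170) (nat_lit 0) (nat_lit 0) (XT.nd (nat_lit 546) (nat_lit 0) (nat_lit 0) (XT.nd (nat_lit 234) (nat_lit 0) (nat_lit 0) (XT.nd (nat_lit 78) (nat_lit 0) (nat_lit 0) (XT.lf (nat_lit 0) (nat_lit 1300676208395) (nat_lit 76) (nat_lit 1090679156580) (nat_lit 76) (nat_lit 1088057774599) (nat_lit 1) (nat_lit 4) (nat_lit 2) (nat_lit 5) (nat_lit 2) (nat_lit 4) (nat_lit 256) (nat_lit 191) (nat_lit 153)) (XT.nd (nat_lit 78) (nat_lit 0) (nat_lit 0) (XT.lf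 (nat_lit 0) (nat_lit 1498690033069) (nat_lit 76) (nat_lit 1252510750183) (nat_lit 76) (nat_lit 1249887671697) (nat_lit 1) (nat_lit 4) (nat_lit 2) (nat_lit 5) (nat_lit 2) (nat_lit 4) (nat_lit 257) (nat_lit 191) (nat_lit 152)) (XT.lf (nat_lit 0) (nat_lit 1726402457078) (nat_lit 76) (nat_lit 1438618723292) (nat_lit 76) (nat_lit 1435994169583) (nat_lit 1) (nat_lit 4) (nat_lit 2) (nat_lit 5) (nat_lit 2) (nat_lit 4) (nat_lit 258) (nat_lit 191) (nat_lit 151)))) (XT.nd (nat_lit 156) (nat_lit 0) (nat_lit 0) (XT.nd (nat_lit 78) (nat_lit 0) (nat_lit 0) (XT.lf (nat_lit 0) (nat_lit 1988268723498) (nat_lit 76) (nat_lit 1652644318858) (nat_lit 76) (nat_lit 1650018482347) (nat_lit 1) (nat_lit 4) (nat_lit 2) (nat_lit 5) (nat_lit 2) (nat_lit 4) (nat_lit 259) (nat_lit 191) (nat_lit 150)) (XT.lf (nat_lit 0) (nat_lit 2289412302760) (nat_lit 76) (nat_lit 1898774994186) (nat_lit 76) (nat_lit 1896148042195)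 (nat_lit 1) (nat_lit 4) (nat_lit 2) (nat_lit 5) (nat_lit 2) (nat_lit 4) (nat_lit 260) (nat_lit 191) (nat_lit 149))) (XT.nd (nat_lit 78) (nat_lit 0) (nat_lit 0) (XT.lf (nat_lit 0) (nat_lit 2635725134457) (nat_lit 76) (nat_lit 2181826349445) (nat_lit 76) (nat_lit 2179198427472) (nat_lit 1) (nat_lit 4) (nat_lit 2) (nat_lit 5) (nat_lit 2) (nat_lit 4) (nat_lit 261) (nat_lit 191) (nat_lit 148)) (XT.lf (nat_lit 0) (nat_lit 3033982904429) (nat_lit 76) (nat_lit 2507336345934) (nat_lit 76) (nat_lit 2504707580497) (nat_lit 1) (nat_lit 4) (nat_lit 2) (nat_lit 5) (nat_lit 2) (nat_lit 4) (nat_lit 262) (nat_lit 191) (nat_lit 147))))) (XT.nd (nat_lit 312) (nat_lit 0) (nat_lit 0) (XT.nd (nat_lit 156) (nat_lit 0) (nat_lit 0) (XT.nd (nat_lit 78) (nat_lit 0) (nat_lit 0) (XT.lf (nat_lit 0) (nat_lit 3491977612521) (nat_lit 76) (nat_lit 2881673657497) (nat_lit 76) (nat_lit 2879044158614) (nat_lit 1) (nat_lit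 4) (nat_lit 2) (nat_lit 5) (nat_lit 2) (nat_lit 4) (nat_lit 263) (nat_lit 191) (nat_lit 146)) (XT.lf (nat_lit 0) (nat_lit 4018670024762) (nat_lit 76) (nat_lit 3312162275013) (nat_lit 76) (nat_lit 3309532138351) (nat_lit 1) (nat_lit 4) (nat_lit 2) (nat_lit 5) (nat_lit 2) (nat_lit 4) (nat_lit 264) (nat_lit 191) (nat_lit 145))) (XT.nd (nat_lit 78) (nat_lit 0) (nat_lit 0) (XT.lf (nat_lit 0) (nat_lit 4624364992695) (nat_lit 76) (nat_lit 3807224801867) (nat_lit 76) (nat_lit 3804594110615) (nat_lit 1) (nat_lit 4) (nat_lit 2) (nat_lit 5) (nat_lit 2) (nat_lit 4) (nat_lit 265) (nat_lit 191) (nat_lit 144)) (XT.lf (nat_lit 0) (nat_lit 5320913070042) (nat_lit 76) (nat_lit 4376547244020) (nat_lit 76) (nat_lit 4373916070515) (nat_lit 1) (nat_lit 4) (nat_lit 2) (nat_lit 5) (nat_lit 2) (nat_lit 4) (nat_lit 266) (nat_lit 191) (nat_lit 143)))) (XT.nd (nat_lit 156) (nat_lit 0) (nat_lit 0) (XT.nd (nat_lit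 78) (nat_lit 0) (nat_lit 0) (XT.lf (nat_lit 0) (nat_lit 6121942371358) (nat_lit 76) (nat_lit 5031268518819) (nat_lit 76) (nat_lit 5028636925964) (nat_lit 1) (nat_lit 4) (nat_lit 2) (nat_lit 5) (nat_lit 2) (nat_lit 4) (nat_lit 267) (nat_lit 191) (nat_lit 142)) (XT.lf (nat_lit 0) (nat_lit 7043125209061) (nat_lit 76) (nat_lit 5784198390336) (nat_lit 76) (nat_lit 5781566432828) (nat_lit 1) (nat_lit 4) (nat_lit 2) (nat_lit 5) (nat_lit 2) (nat_lit 4) (nat_lit 268) (nat_lit 191) (nat_lit 141))) (XT.nd (nat_lit 78) (nat_lit 0) (nat_lit 0) (XT.lf (nat_lit 0) (nat_lit 8102484725627) (nat_lit 76) (nat_lit 6650068095187) (nat_lit 76) (nat_lit 6647435820590) (nat_lit 1) (nat_lit 4) (nat_lit 2) (nat_lit 5) (nat_lit 2) (nat_lit 4) (nat_lit 269) (nat_lit 191) (nat_lit 140)) (XT.lf (nat_lit 0) (nat_lit 9320747520295) (nat_lit 76) (nat_lit 7645818562379) (nat_lit 76) (nat_lit 7643186012053) (nat_lit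 1) (nat_lit 4) (nat_lit 2) (nat_lit 5) (nat_lit 2) (nat_lit 4) (nat_lit 270) (nat_lit 191) (nat_lit 139)))))) (XT.nd (nat_lit 780) (nat_lit 0) (nat_lit 0) (XT.nd (nat_lit 312) (nat_lit 0) (nat_lit 0) (XT.nd (nat_lit 156) (nat_lit 0) (nat_lit 0) (XT.nd (nat_lit 78) (nat_lit 0) (nat_lit 0) (XT.lf (nat_lit 0) (nat_lit 10721749169480) (nat_lit 76) (nat_lit 8790931866273) (nat_lit 76) (nat_lit 8788299076181) (nat_lit 1) (nat_lit 4) (nat_lit 2) (nat_lit 5) (nat_lit 2) (nat_lit 4) (nat_lit 271) (nat_lit 191) (nat_lit 138)) (XT.lf (nat_lit 0) (nat_lit 12332900575016) (nat_lit 76) (nat_lit 10107812397594) (nat_lit 76) (nat_lit 10105179399012) (nat_lit 1) (nat_lit 4) (nat_lit 2) (nat_lit 5) (nat_lit 2) (nat_lit 4) (nat_lit 272) (nat_lit 191) (nat_lit 137))) (XT.nd (nat_lit 78) (nat_lit 0) (nat_lit 0) (XT.lf (nat_lit 0) (nat_lit 14185724264402) (nat_lit 76) (nat_lit 11622225210219) (nat_lit 76)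 (nat_lit 11619592030339) (nat_lit 1) (nat_lit 4) (nat_lit 2) (nat_lit 5) (nat_lit 2) (nat_lit 4) (nat_lit 273) (nat_lit 191) (nat_lit 136)) (XT.lf (nat_lit 0) (nat_lit 16316471135907) (nat_lit 76) (nat_lit 13363800120044) (nat_lit 76) (nat_lit 13361166782516) (nat_lit 1) (nat_lit 4) (nat_lit 2) (nat_lit 5) (nat_lit 2) (nat_lit 4) (nat_lit 274) (nat_lit 191) (nat_lit 135)))) (XT.nd (nat_lit 156) (nat_lit 0) (nat_lit 0) (XT.nd (nat_lit 78) (nat_lit 0) (nat_lit 0) (XT.lf (nat_lit 0) (nat_lit 18766829715280) (nat_lit 76) (nat_lit 15366611418785) (nat_lit 76) (nat_lit 15363977944170) (nat_lit 1) (nat_lit 4) (nat_lit 2) (nat_lit 5) (nat_lit 2) (nat_lit 4) (nat_lit 275) (nat_lit 191) (nat_lit 134)) (XT.lf (nat_lit 0) (nat_lit 21584741800812) (nat_lit 76) (nat_lit 17669844544896) (nat_lit 76) (nat_lit 17667210951075) (nat_lit 1) (nat_lit 4) (nat_lit 2) (nat_lit 5) (nat_lit 2) (nat_lit 4) (nat_lit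 276) (nat_lit 191) (nat_lit 133))) (XT.nd (nat_lit 234) (nat_lit 0) (nat_lit 0) (XT.lf (nat_lit 0) (nat_lit 24825340455046) (nat_lit 76) (nat_lit 20318562755190) (nat_lit 76) (nat_lit 20315929057713) (nat_lit 1) (nat_lit 4) (nat_lit 2) (nat_lit 5) (nat_lit 2) (nat_lit 4) (nat_lit 277) (nat_lit 191) (nat_lit 132)) (XT.lf (nat_lit 0) (nat_lit 37766264811342) (nat_lit 76) (nat_lit 30895888449466) (nat_lit 76) (nat_lit 30893254515316) (nat_lit 1) (nat_lit 4) (nat_lit 2) (nat_lit 5) (nat_lit 2) (nat_lit 4) (nat_lit 280) (nat_lit 191) (nat_lit 129))))) (XT.nd (nat_lit 26364) (nat_lit 0) (nat_lit 76) (XT.nd (nat_lit 26208) (nat_lit 0) (nat_lit 228) (XT.nd (nat_lit 78) (nat_lit 0) (nat_lit 0) (XT.lf (nat_lit 0) (nat_lit 43434091220177) (nat_lit 76) (nat_lit 35528513574533) (nat_lit 76) (nat_lit 35525879581117) (nat_lit 1) (nat_lit 4) (nat_lit 2) (nat_lit 5) (nat_lit 2) (nat_lit 4) (nat_lit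 281) (nat_lit 191) (nat_lit 128)) (XT.lf (nat_lit 0) (nat_lit 49952091468962) (nat_lit 76) (nat_lit 40856032525669) (nat_lit 76) (nat_lit 40853398480717) (nat_lit 1) (nat_lit 4) (nat_lit 2) (nat_lit 5) (nat_lit 2) (nat_lit 4) (nat_lit 282) (nat_lit 191) (nat_lit 127))) (XT.nd (nat_lit 78) (nat_lit 76) (nat_lit 0) (XT.lf (nat_lit 0) (nat_lit 3445510913) (nat_lit 152) (nat_lit 1144457112) (nat_lit 0) (nat_lit 3445510913) (nat_lit 5) (nat_lit 5) (nat_lit 7) (nat_lit 4) (nat_lit 5) (nat_lit 4) (nat_lit 216) (nat_lit 192) (nat_lit 192)) (XT.lf (nat_lit 0) (nat_lit 4095987599) (nat_lit 76) (nat_lit 7122397309) (nat_lit 76) (nat_lit 6667965289) (nat_lit 4) (nat_lit 4) (nat_lit 5) (nat_lit 5) (nat_lit 5) (nat_lit 4) (nat_lit 217) (nat_lit 192) (nat_lit 191)))) (XT.nd (nat_lit 156) (nat_lit 152) (nat_lit 0) (XT.nd (nat_lit 78) (nat_lit 0) (nat_lit 0) (XT.lf (nat_lit 0) (nat_lit 11102239552)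 (nat_lit 76) (nat_lit 4877782350) (nat_lit 76) (nat_lit 4028192051) (nat_lit 4) (nat_lit 4) (nat_lit 5) (nat_lit 5) (nat_lit 5) (nat_lit 4) (nat_lit 218) (nat_lit 192) (nat_lit 190)) (XT.lf (nat_lit 0) (nat_lit 18643231130) (nat_lit 76) (nat_lit 2521822584) (nat_lit 76) (nat_lit 1328616390) (nat_lit 4) (nat_lit 4) (nat_lit 5) (nat_lit 5) (nat_lit 5) (nat_lit 4) (nat_lit 219) (nat_lit 192) (nat_lit 189))) (XT.nd (nat_lit 78) (nat_lit 0) (nat_lit 0) (XT.lf (nat_lit 0) (nat_lit 1421397728) (nat_lit 152) (nat_lit 23826245977) (nat_lit 0) (nat_lit 124004143) (nat_lit 2) (nat_lit 5) (nat_lit 4) (nat_lit 4) (nat_lit 2) (nat_lit 4) (nat_lit 220) (nat_lit 192) (nat_lit 188)) (XT.lf (nat_lit 0) (nat_lit 4520000804) (nat_lit 152) (nat_lit 21145448425) (nat_lit 0) (nat_lit 2996674190) (nat_lit 2) (nat_lit 5) (nat_lit 4) (nat_lit 4) (nat_lit 2) (nat_lit 4) (nat_lit 221) (nat_lit 192) (nat_lit 187))))))))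
noncomputable def xc16 : XT := (XT.nd (nat_lit 2340) (nat_lit 0) (nat_lit 0) (XT.nd (nat_lit 1170) (nat_lit 0) (nat_lit 0) (XT.nd (nat_lit 546) (nat_lit 0) (nat_lit 0) (XT.nd (nat_lit 234) (nat_lit 76) (nat_lit 0) (XT.nd (nat_lit 78) (nat_lit 0) (nat_lit 0) (XT.lf (nat_lit 0) (nat_lit 7858322766) (nat_lit 152) (nat_lit 18484039180) (nat_lit 0) (nat_lit 6138532649) (nat_lit 2) (nat_lit 5) (nat_lit 4) (nat_lit 4) (nat_lit 2) (nat_lit 4) (nat_lit 222) (nat_lit 192) (nat_lit 186)) (XT.nd (nat_lit 78) (nat_lit 0) (nat_lit 0) (XT.lf (nat_lit 0) (nat_lit 11501678607) (nat_lit 152) (nat_lit 15789947191) (nat_lit 0) (nat_lit 9611050662) (nat_lit 2) (nat_lit 5) (nat_lit 4) (nat_lit 4) (nat_lit 2) (nat_lit 4) (nat_lit 223) (nat_lit 192) (nat_lit 185)) (XT.lf (nat_lit 0) (nat_lit 15521351378) (nat_lit 152) (nat_lit 13010461964) (nat_lit 0) (nat_lit 13482168800) (nat_lit 2) (nat_lit 5) (nat_lit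 4) (nat_lit 4) (nat_lit 2) (nat_lit 4) (nat_lit 224) (nat_lit 192) (nat_lit 184)))) (XT.nd (nat_lit 156) (nat_lit 76) (nat_lit 0) (XT.nd (nat_lit 78) (nat_lit 0) (nat_lit 0) (XT.lf (nat_lit 0) (nat_lit 19995986851) (nat_lit 152) (nat_lit 10091202266) (nat_lit 0) (nat_lit 17827626329) (nat_lit 2) (nat_lit 5) (nat_lit 4) (nat_lit 4) (nat_lit 2) (nat_lit 4) (nat_lit 225) (nat_lit 192) (nat_lit 183)) (XT.lf (nat_lit 0) (nat_lit 25013132239) (nat_lit 152) (nat_lit 6975052145) (nat_lit 0) (nat_lit 22732443073) (nat_lit 2) (nat_lit 5) (nat_lit 4) (nat_lit 4) (nat_lit 2) (nat_lit 4) (nat_lit 226) (nat_lit 192) (nat_lit 182))) (XT.nd (nat_lit 78) (nat_lit 76) (nat_lit 0) (XT.lf (nat_lit 0) (nat_lit 30670949085) (nat_lit 152) (nat_lit 3601043447) (nat_lit 0) (nat_lit 28292582836) (nat_lit 2) (nat_lit 5) (nat_lit 4) (nat_lit 4) (nat_lit 2) (nat_lit 4) (nat_lit 227) (nat_lit 192) (nat_lit 181))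 (XT.lf (nat_lit 0) (nat_lit 106300659) (nat_lit 76) (nat_lit 36978234829) (nat_lit 76) (nat_lit 34514931986) (nat_lit 1) (nat_lit 4) (nat_lit 2) (nat_lit 5) (nat_lit 2) (nat_lit 4) (nat_lit 228) (nat_lit 192) (nat_lit 180))))) (XT.nd (nat_lit 312) (nat_lit 0) (nat_lit 0) (XT.nd (nat_lit 156) (nat_lit 0) (nat_lit 0) (XT.nd (nat_lit 78) (nat_lit 0) (nat_lit 0) (XT.lf (nat_lit 0) (nat_lit 4600508206) (nat_lit 76) (nat_lit 39956072517) (nat_lit 76) (nat_lit 37418911766) (nat_lit 1) (nat_lit 4) (nat_lit 2) (nat_lit 5) (nat_lit 2) (nat_lit 4) (nat_lit 229) (nat_lit 192) (nat_lit 179)) (XT.lf (nat_lit 0) (nat_lit 9617589186) (nat_lit 76) (nat_lit 43452004003) (nat_lit 76) (nat_lit 40850618984) (nat_lit 1) (nat_lit 4) (nat_lit 2) (nat_lit 5) (nat_lit 2) (nat_lit 4) (nat_lit 230) (nat_lit 192) (nat_lit 178))) (XT.nd (nat_lit 78) (nat_lit 0) (nat_lit 0) (XT.lf (nat_lit 0) (nat_lit 15255703878)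 (nat_lit 76) (nat_lit 47534427944) (nat_lit 76) (nat_lit 44877195736) (nat_lit 1) (nat_lit 4) (nat_lit 2) (nat_lit 5) (nat_lit 2) (nat_lit 4) (nat_lit 231) (nat_lit 192) (nat_lit 177)) (XT.lf (nat_lit 0) (nat_lit 21625163223) (nat_lit 76) (nat_lit 52283217853) (nat_lit 76) (nat_lit 49577422872) (nat_lit 1) (nat_lit 4) (nat_lit 2) (nat_lit 5) (nat_lit 2) (nat_lit 4) (nat_lit 232) (nat_lit 192) (nat_lit 176)))) (XT.nd (nat_lit 156) (nat_lit 0) (nat_lit 0) (XT.nd (nat_lit 78) (nat_lit 0) (nat_lit 0) (XT.lf (nat_lit 0) (nat_lit 28850587076) (nat_lit 76) (nat_lit 57791284838) (nat_lit 76) (nat_lit 55043261359) (nat_lit 1) (nat_lit 4) (nat_lit 2) (nat_lit 5) (nat_lit 2) (nat_lit 4) (nat_lit 233) (nat_lit 192) (nat_lit 175)) (XT.lf (nat_lit 0) (nat_lit 37073342427) (nat_lit 76) (nat_lit 64166395426) (nat_lit 76) (nat_lit 61381651513) (nat_lit 1) (nat_lit 4) (nat_lit 2) (nat_lit 5) (nat_lit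 2) (nat_lit 4) (nat_lit 234) (nat_lit 192) (nat_lit 174))) (XT.nd (nat_lit 78) (nat_lit 0) (nat_lit 0) (XT.lf (nat_lit 0) (nat_lit 46454309271) (nat_lit 76) (nat_lit 71533280041) (nat_lit 76) (nat_lit 68716605316) (nat_lit 1) (nat_lit 4) (nat_lit 2) (nat_lit 5) (nat_lit 2) (nat_lit 4) (nat_lit 235) (nat_lit 192) (nat_lit 173)) (XT.lf (nat_lit 0) (nat_lit 57177028264) (nat_lit 76) (nat_lit 80036073382) (nat_lit 76) (nat_lit 77191632734) (nat_lit 1) (nat_lit 4) (nat_lit 2) (nat_lit 5) (nat_lit 2) (nat_lit 4) (nat_lit 236) (nat_lit 192) (nat_lit 172)))))) (XT.nd (nat_lit 546) (nat_lit 0) (nat_lit 0) (XT.nd (nat_lit 234) (nat_lit 0) (nat_lit 0) (XT.nd (nat_lit 78) (nat_lit 0) (nat_lit 0) (XT.lf (nat_lit 0) (nat_lit 69451291733) (nat_lit 76) (nat_lit 89841134450) (nat_lit 76) (nat_lit 86972549521) (nat_lit 1) (nat_lit 4) (nat_lit 2) (nat_lit 5) (nat_lit 2) (nat_lit 4) (nat_lit 237) (nat_lit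 192) (nat_lit 171)) (XT.nd (nat_lit 78) (nat_lit 0) (nat_lit 0) (XT.lf (nat_lit 0) (nat_lit 83517248314) (nat_lit 76) (nat_lit 101140301397) (nat_lit 76) (nat_lit 98250721441) (nat_lit 1) (nat_lit 4) (nat_lit 2) (nat_lit 5) (nat_lit 2) (nat_lit 4) (nat_lit 238) (nat_lit 192) (nat_lit 170)) (XT.lf (nat_lit 0) (nat_lit 99650101502) (nat_lit 76) (nat_lit 114154644878) (nat_lit 76) (nat_lit 111246808377) (nat_lit 1) (nat_lit 4) (nat_lit 2) (nat_lit 5) (nat_lit 2) (nat_lit 4) (nat_lit 239) (nat_lit 192) (nat_lit 169)))) (XT.nd (nat_lit 156) (nat_lit 0) (nat_lit 0) (XT.nd (nat_lit 78) (nat_lit 0) (nat_lit 0) (XT.lf (nat_lit 0) (nat_lit 118165494079) (nat_lit 76) (nat_lit 129138793355) (nat_lit 76) (nat_lit 126215081598) (nat_lit 1) (nat_lit 4) (nat_lit 2) (nat_lit 5) (nat_lit 2) (nat_lit 4) (nat_lit 240) (nat_lit 192) (nat_lit 168)) (XT.lf (nat_lit 0) (nat_lit 139425683725) (nat_lit 76)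 (nat_lit 146385914950) (nat_lit 76) (nat_lit 143448398621) (nat_lit 1) (nat_lit 4) (nat_lit 2) (nat_lit 5) (nat_lit 2) (nat_lit 4) (nat_lit 241) (nat_lit 192) (nat_lit 167))) (XT.nd (nat_lit 78) (nat_lit 0) (nat_lit 0) (XT.lf (nat_lit 0) (nat_lit 163846630672) (nat_lit 76) (nat_lit 166233453345) (nat_lit 76) (nat_lit 163283933041) (nat_lit 1) (nat_lit 4) (nat_lit 2) (nat_lit 5) (nat_lit 2) (nat_lit 4) (nat_lit 242) (nat_lit 192) (nat_lit 166)) (XT.lf (nat_lit 0) (nat_lit 191906136057) (nat_lit 76) (nat_lit 189069729944) (nat_lit 76) (nat_lit 186109771402) (nat_lit 1) (nat_lit 4) (nat_lit 2) (nat_lit 5) (nat_lit 2) (nat_lit 4) (nat_lit 243) (nat_lit 192) (nat_lit 165))))) (XT.nd (nat_lit 312) (nat_lit 0) (nat_lit 0) (XT.nd (nat_lit 156) (nat_lit 0) (nat_lit 0) (XT.nd (nat_lit 78) (nat_lit 0) (nat_lit 0) (XT.lf (nat_lit 0) (nat_lit 224153190201) (nat_lit 76) (nat_lit 215341541464) (nat_lit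 76) (nat_lit 212372506192) (nat_lit 1) (nat_lit 4) (nat_lit 2) (nat_lit 5) (nat_lit 2) (nat_lit 4) (nat_lit 244) (nat_lit 192) (nat_lit 164)) (XT.lf (nat_lit 0) (nat_lit 261218713730) (nat_lit 76) (nat_lit 245562901607) (nat_lit 76) (nat_lit 242585973527) (nat_lit 1) (nat_lit 4) (nat_lit 2) (nat_lit 5) (nat_lit 2) (nat_lit 4) (nat_lit 245) (nat_lit 192) (nat_lit 163))) (XT.nd (nat_lit 78) (nat_lit 0) (nat_lit 0) (XT.lf (nat_lit 0) (nat_lit 303827901669) (nat_lit 76) (nat_lit 280325097856) (nat_lit 76) (nat_lit 277341306464) (nat_lit 1) (nat_lit 4) (nat_lit 2) (nat_lit 5) (nat_lit 2) (nat_lit 4) (nat_lit 246) (nat_lit 192) (nat_lit 162)) (XT.lf (nat_lit 0) (nat_lit 352814412043) (nat_lit 76) (nat_lit 320308260136) (nat_lit 76) (nat_lit 317318500647) (nat_lit 1) (nat_lit 4) (nat_lit 2) (nat_lit 5) (nat_lit 2) (nat_lit 4) (nat_lit 247) (nat_lit 192) (nat_lit 161)))) (XT.nd (nat_lit 156)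 (nat_lit 0) (nat_lit 0) (XT.nd (nat_lit 78) (nat_lit 0) (nat_lit 0) (XT.lf (nat_lit 0) (nat_lit 409136676577) (nat_lit 76) (nat_lit 366294667710) (nat_lit 76) (nat_lit 363299718571) (nat_lit 1) (nat_lit 4) (nat_lit 2) (nat_lit 5) (nat_lit 2) (nat_lit 4) (nat_lit 248) (nat_lit 192) (nat_lit 160)) (XT.lf (nat_lit 0) (nat_lit 473896652620) (nat_lit 76) (nat_lit 419184054638) (nat_lit 76) (nat_lit 416184592761) (nat_lit 1) (nat_lit 4) (nat_lit 2) (nat_lit 5) (nat_lit 2) (nat_lit 4) (nat_lit 249) (nat_lit 192) (nat_lit 159))) (XT.nd (nat_lit 78) (nat_lit 0) (nat_lit 0) (XT.lf (nat_lit 0) (nat_lit 548361383182) (nat_lit 76) (nat_lit 480011213275) (nat_lit 76) (nat_lit 477007827277) (nat_lit 1) (nat_lit 4) (nat_lit 2) (nat_lit 5) (nat_lit 2) (nat_lit 4) (nat_lit 250) (nat_lit 192) (nat_lit 158)) (XT.lf (nat_lit 0) (nat_lit 633987786904) (nat_lit 76) (nat_lit 549966240201) (nat_lit 76) (nat_lit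 546959441924) (nat_lit 1) (nat_lit 4) (nat_lit 2) (nat_lit 5) (nat_lit 2) (nat_lit 4) (nat_lit 251) (nat_lit 192) (nat_lit 157))))))) (XT.nd (nat_lit 1170) (nat_lit 0) (nat_lit 0) (XT.nd (nat_lit 546) (nat_lit 0) (nat_lit 0) (XT.nd (nat_lit 234) (nat_lit 0) (nat_lit 0) (XT.nd (nat_lit 78) (nat_lit 0) (nat_lit 0) (XT.lf (nat_lit 0) (nat_lit 732451162989) (nat_lit 76) (nat_lit 630417820726) (nat_lit 76) (nat_lit 627408055250) (nat_lit 1) (nat_lit 4) (nat_lit 2) (nat_lit 5) (nat_lit 2) (nat_lit 4) (nat_lit 252) (nat_lit 192) (nat_lit 156)) (XT.nd (nat_lit 78) (nat_lit 0) (nat_lit 0) (XT.lf (nat_lit 0) (nat_lit 845677968797) (nat_lit 76) (nat_lit 722940007513) (nat_lit 76) (nat_lit 719927661864) (nat_lit 1) (nat_lit 4) (nat_lit 2) (nat_lit 5) (nat_lit 2) (nat_lit 4) (nat_lit 253) (nat_lit 192) (nat_lit 155)) (XT.lf (nat_lit 0) (nat_lit 975883511396) (nat_lit 76) (nat_lit 829343017260)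 (nat_lit 76) (nat_lit 826328427982) (nat_lit 1) (nat_lit 4) (nat_lit 2) (nat_lit 5) (nat_lit 2) (nat_lit 4) (nat_lit 254) (nat_lit 192) (nat_lit 154)))) (XT.nd (nat_lit 156) (nat_lit 0) (nat_lit 0) (XT.nd (nat_lit 78) (nat_lit 0) (nat_lit 0) (XT.lf (nat_lit 0) (nat_lit 1125615290533) (nat_lit 76) (nat_lit 951708647983) (nat_lit 76) (nat_lit 948692107724) (nat_lit 1) (nat_lit 4) (nat_lit 2) (nat_lit 5) (nat_lit 2) (nat_lit 4) (nat_lit 255) (nat_lit 192) (nat_lit 153)) (XT.lf (nat_lit 0) (nat_lit 1297802841018) (nat_lit 76) (nat_lit 1092431009849) (nat_lit 76) (nat_lit 1089412773084) (nat_lit 1) (nat_lit 4) (nat_lit 2) (nat_lit 5) (nat_lit 2) (nat_lit 4) (nat_lit 256) (nat_lit 192) (nat_lit 152))) (XT.nd (nat_lit 78) (nat_lit 0) (nat_lit 0) (XT.lf (nat_lit 0) (nat_lit 1495815049708) (nat_lit 76) (nat_lit 1254263366459) (nat_lit 76) (nat_lit 1251243654472) (nat_lit 1) (nat_lit 4) (nat_lit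 2) (nat_lit 5) (nat_lit 2) (nat_lit 4) (nat_lit 257) (nat_lit 192) (nat_lit 151)) (XT.lf (nat_lit 0) (nat_lit 1723526068512) (nat_lit 76) (nat_lit 1440372003052) (nat_lit 76) (nat_lit 1437351008263) (nat_lit 1) (nat_lit 4) (nat_lit 2) (nat_lit 5) (nat_lit 2) (nat_lit 4) (nat_lit 258) (nat_lit 192) (nat_lit 150))))) (XT.nd (nat_lit 312) (nat_lit 0) (nat_lit 0) (XT.nd (nat_lit 156) (nat_lit 0) (nat_lit 0) (XT.nd (nat_lit 78) (nat_lit 0) (nat_lit 0) (XT.lf (nat_lit 0) (nat_lit 1985391113015) (nat_lit 76) (nat_lit 1654398175561) (nat_lit 76) (nat_lit 1651376065292) (nat_lit 1) (nat_lit 4) (nat_lit 2) (nat_lit 5) (nat_lit 2) (nat_lit 4) (nat_lit 259) (nat_lit 192) (nat_lit 149)) (XT.lf (nat_lit 0) (nat_lit 2286533629740) (nat_lit 76) (nat_lit 1900529352578) (nat_lit 76) (nat_lit 1897506272326) (nat_lit 1) (nat_lit 4) (nat_lit 2) (nat_lit 5) (nat_lit 2) (nat_lit 4) (nat_lit 260) (nat_lit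 192) (nat_lit 148))) (XT.nd (nat_lit 78) (nat_lit 0) (nat_lit 0) (XT.lf (nat_lit 0) (nat_lit 2632845537493) (nat_lit 76) (nat_lit 2183581144089) (nat_lit 76) (nat_lit 2180557220374) (nat_lit 1) (nat_lit 4) (nat_lit 2) (nat_lit 5) (nat_lit 2) (nat_lit 4) (nat_lit 261) (nat_lit 192) (nat_lit 147)) (XT.lf (nat_lit 0) (nat_lit 3031102504035) (nat_lit 76) (nat_lit 2509091519927) (nat_lit 76) (nat_lit 2506066862766) (nat_lit 1) (nat_lit 4) (nat_lit 2) (nat_lit 5) (nat_lit 2) (nat_lit 4) (nat_lit 262) (nat_lit 192) (nat_lit 146)))) (XT.nd (nat_lit 156) (nat_lit 0) (nat_lit 0) (XT.nd (nat_lit 78) (nat_lit 0) (nat_lit 0) (XT.lf (nat_lit 0) (nat_lit 3489096513492) (nat_lit 76) (nat_lit 2883429161359) (nat_lit 76) (nat_lit 2880403866419) (nat_lit 1) (nat_lit 4) (nat_lit 2) (nat_lit 5) (nat_lit 2) (nat_lit 4) (nat_lit 263) (nat_lit 192) (nat_lit 145)) (XT.lf (nat_lit 0) (nat_lit 4015788318224)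 (nat_lit 76) (nat_lit 3313918065717) (nat_lit 76) (nat_lit 3310892216186) (nat_lit 1) (nat_lit 4) (nat_lit 2) (nat_lit 5) (nat_lit 2) (nat_lit 4) (nat_lit 264) (nat_lit 192) (nat_lit 144))) (XT.nd (nat_lit 78) (nat_lit 0) (nat_lit 0) (XT.lf (nat_lit 0) (nat_lit 4621482757889) (nat_lit 76) (nat_lit 3808980842000) (nat_lit 76) (nat_lit 3805954510216) (nat_lit 1) (nat_lit 4) (nat_lit 2) (nat_lit 5) (nat_lit 2) (nat_lit 4) (nat_lit 265) (nat_lit 192) (nat_lit 143)) (XT.lf (nat_lit 0) (nat_lit 5318030375872) (nat_lit 76) (nat_lit 4378303501048) (nat_lit 76) (nat_lit 4375276749913) (nat_lit 1) (nat_lit 4) (nat_lit 2) (nat_lit 5) (nat_lit 2) (nat_lit 4) (nat_lit 266) (nat_lit 192) (nat_lit 142)))))) (XT.nd (nat_lit 624) (nat_lit 0) (nat_lit 0) (XT.nd (nat_lit 312) (nat_lit 0) (nat_lit 0) (XT.nd (nat_lit 156) (nat_lit 0) (nat_lit 0) (XT.nd (nat_lit 78) (nat_lit 0) (nat_lit 0) (XT.lf (nat_lit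 0) (nat_lit 6119059277741) (nat_lit 76) (nat_lit 5033024964450) (nat_lit 76) (nat_lit 5029997848664) (nat_lit 1) (nat_lit 4) (nat_lit 2) (nat_lit 5) (nat_lit 2) (nat_lit 4) (nat_lit 267) (nat_lit 192) (nat_lit 141)) (XT.lf (nat_lit 0) (nat_lit 7040241768099) (nat_lit 76) (nat_lit 5785954999970) (nat_lit 76) (nat_lit 5782927567094) (nat_lit 1) (nat_lit 4) (nat_lit 2) (nat_lit 5) (nat_lit 2) (nat_lit 4) (nat_lit 268) (nat_lit 192) (nat_lit 140))) (XT.nd (nat_lit 78) (nat_lit 0) (nat_lit 0) (XT.lf (nat_lit 0) (nat_lit 8099600982627) (nat_lit 76) (nat_lit 6651824847432) (nat_lit 76) (nat_lit 6648797138827) (nat_lit 1) (nat_lit 4) (nat_lit 2) (nat_lit 5) (nat_lit 2) (nat_lit 4) (nat_lit 269) (nat_lit 192) (nat_lit 139)) (XT.lf (nat_lit 0) (nat_lit 9317863514651) (nat_lit 76) (nat_lit 7647575438635) (nat_lit 76) (nat_lit 7644547490265) (nat_lit 1) (nat_lit 4) (nat_lit 2) (nat_lit 5) (nat_lit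 2) (nat_lit 4) (nat_lit 270) (nat_lit 192) (nat_lit 138)))) (XT.nd (nat_lit 156) (nat_lit 0) (nat_lit 0) (XT.nd (nat_lit 78) (nat_lit 0) (nat_lit 0) (XT.lf (nat_lit 0) (nat_lit 10718864935452) (nat_lit 76) (nat_lit 8792688850363) (nat_lit 76) (nat_lit 8789660693501) (nat_lit 1) (nat_lit 4) (nat_lit 2) (nat_lit 5) (nat_lit 2) (nat_lit 4) (nat_lit 271) (nat_lit 192) (nat_lit 137)) (XT.lf (nat_lit 0) (nat_lit 12330016142392) (nat_lit 76) (nat_lit 10109569475454) (nat_lit 76) (nat_lit 10106541137296) (nat_lit 1) (nat_lit 4) (nat_lit 2) (nat_lit 5) (nat_lit 2) (nat_lit 4) (nat_lit 272) (nat_lit 192) (nat_lit 136))) (XT.nd (nat_lit 78) (nat_lit 0) (nat_lit 0) (XT.lf (nat_lit 0) (nat_lit 14182839659085) (nat_lit 76) (nat_lit 11623982369616) (nat_lit 76) (nat_lit 11620953873809) (nat_lit 1) (nat_lit 4) (nat_lit 2) (nat_lit 5) (nat_lit 2) (nat_lit 4) (nat_lit 273) (nat_lit 192) (nat_lit 135))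 (XT.lf (nat_lit 0) (nat_lit 16313586380424) (nat_lit 76) (nat_lit 13365557350345) (nat_lit 76) (nat_lit 13362528717452) (nat_lit 1) (nat_lit 4) (nat_lit 2) (nat_lit 5) (nat_lit 2) (nat_lit 4) (nat_lit 274) (nat_lit 192) (nat_lit 134))))) (XT.nd (nat_lit 468) (nat_lit 0) (nat_lit 0) (XT.nd (nat_lit 312) (nat_lit 0) (nat_lit 0) (XT.nd (nat_lit 78) (nat_lit 0) (nat_lit 0) (XT.lf (nat_lit 0) (nat_lit 18763944829217) (nat_lit 76) (nat_lit 15368368710741) (nat_lit 76) (nat_lit 15365339958642) (nat_lit 1) (nat_lit 4) (nat_lit 2) (nat_lit 5) (nat_lit 2) (nat_lit 4) (nat_lit 275) (nat_lit 192) (nat_lit 133)) (XT.lf (nat_lit 0) (nat_lit 21581856801202) (nat_lit 76) (nat_lit 17671601890464) (nat_lit 76) (nat_lit 17668573034708) (nat_lit 1) (nat_lit 4) (nat_lit 2) (nat_lit 5) (nat_lit 2) (nat_lit 4) (nat_lit 276) (nat_lit 192) (nat_lit 132))) (XT.nd (nat_lit 78) (nat_lit 0) (nat_lit 0) (XT.lf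 (nat_lit 0) (nat_lit 32834834727767) (nat_lit 76) (nat_lit 26869276300782) (nat_lit 76) (nat_lit 26866247208354) (nat_lit 1) (nat_lit 4) (nat_lit 2) (nat_lit 5) (nat_lit 2) (nat_lit 4) (nat_lit 279) (nat_lit 192) (nat_lit 129)) (XT.lf (nat_lit 0) (nat_lit 37763379487555) (nat_lit 76) (nat_lit 30897645948098) (nat_lit 76) (nat_lit 30894616796404) (nat_lit 1) (nat_lit 4) (nat_lit 2) (nat_lit 5) (nat_lit 2) (nat_lit 4) (nat_lit 280) (nat_lit 192) (nat_lit 128)))) (XT.nd (nat_lit 156) (nat_lit 0) (nat_lit 0) (XT.nd (nat_lit 78) (nat_lit 0) (nat_lit 0) (XT.lf (nat_lit 0) (nat_lit 43431205839937) (nat_lit 76) (nat_lit 35530271099820) (nat_lit 76) (nat_lit 35527241896590) (nat_lit 1) (nat_lit 4) (nat_lit 2) (nat_lit 5) (nat_lit 2) (nat_lit 4) (nat_lit 281) (nat_lit 192) (nat_lit 127)) (XT.lf (nat_lit 0) (nat_lit 49949206039632) (nat_lit 76) (nat_lit 40857790074134) (nat_lit 76) (nat_lit 40854760826090)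 (nat_lit 1) (nat_lit 4) (nat_lit 2) (nat_lit 5) (nat_lit 2) (nat_lit 4) (nat_lit 282) (nat_lit 192) (nat_lit 126))) (XT.nd (nat_lit 25896) (nat_lit 0) (nat_lit 456) (XT.lf (nat_lit 0) (nat_lit 57444906177506) (nat_lit 76) (nat_lit 46984436937929) (nat_lit 76) (nat_lit 46981407650916) (nat_lit 1) (nat_lit 4) (nat_lit 2) (nat_lit 5) (nat_lit 2) (nat_lit 4) (nat_lit 283) (nat_lit 192) (nat_lit 125)) (XT.lf (nat_lit 0) (nat_lit 6509518261) (nat_lit 76) (nat_lit 43344215) (nat_lit 76) (nat_lit 43344215) (nat_lit 7) (nat_lit 4) (nat_lit 8) (nat_lit 5) (nat_lit 8) (nat_lit 4) (nat_lit 214) (nat_lit 193) (nat_lit 193))))))))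
noncomputable def xc17 : XT := (XT.nd (nat_lit 2418) (nat_lit 0) (nat_lit 0) (XT.nd (nat_lit 1170) (nat_lit 0) (nat_lit 0) (XT.nd (nat_lit 546) (nat_lit 76) (nat_lit 0) (XT.nd (nat_lit 234) (nat_lit 152) (nat_lit 0) (XT.nd (nat_lit 78) (nat_lit 76) (nat_lit 0) (XT.lf (nat_lit 0) (nat_lit 3488280331) (nat_lit 152) (nat_lit 8064692111) (nat_lit 0) (nat_lit 2965683508) (nat_lit 5) (nat_lit 5) (nat_lit 7) (nat_lit 4) (nat_lit 5) (nat_lit 4) (nat_lit 215) (nat_lit 193) (nat_lit 192)) (XT.nd (nat_lit 78) (nat_lit 76) (nat_lit 0) (XT.lf (nat_lit 0) (nat_lit 7247859536) (nat_lit 152) (nat_lit 2578168124) (nat_lit 0) (nat_lit 6270830692) (nat_lit 5) (nat_lit 5) (nat_lit 7) (nat_lit 4) (nat_lit 5) (nat_lit 4) (nat_lit 216) (nat_lit 193) (nat_lit 191)) (XT.lf (nat_lit 0) (nat_lit 3502359708) (nat_lit 76) (nat_lit 7904143684) (nat_lit 76) (nat_lit 6531956562) (nat_lit 4) (nat_lit 4) (nat_lit 5)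 (nat_lit 5) (nat_lit 5) (nat_lit 4) (nat_lit 217) (nat_lit 193) (nat_lit 190)))) (XT.nd (nat_lit 156) (nat_lit 152) (nat_lit 0) (XT.nd (nat_lit 78) (nat_lit 0) (nat_lit 0) (XT.lf (nat_lit 0) (nat_lit 10268519489) (nat_lit 76) (nat_lit 5764341486) (nat_lit 76) (nat_lit 4048538470) (nat_lit 4) (nat_lit 4) (nat_lit 5) (nat_lit 5) (nat_lit 5) (nat_lit 4) (nat_lit 218) (nat_lit 193) (nat_lit 189)) (XT.lf (nat_lit 0) (nat_lit 17600735267) (nat_lit 76) (nat_lit 3499523251) (nat_lit 76) (nat_lit 1484923805) (nat_lit 4) (nat_lit 4) (nat_lit 5) (nat_lit 5) (nat_lit 5) (nat_lit 4) (nat_lit 219) (nat_lit 193) (nat_lit 188))) (XT.nd (nat_lit 78) (nat_lit 0) (nat_lit 0) (XT.lf (nat_lit 0) (nat_lit 102751457) (nat_lit 76) (nat_lit 1002910815) (nat_lit 152) (nat_lit 24384985567) (nat_lit 2) (nat_lit 5) (nat_lit 3) (nat_lit 5) (nat_lit 4) (nat_lit 4) (nat_lit 220) (nat_lit 193) (nat_lit 187)) (XT.lf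 (nat_lit 0) (nat_lit 4058052496) (nat_lit 152) (nat_lit 22861620637) (nat_lit 0) (nat_lit 1883830359) (nat_lit 2) (nat_lit 5) (nat_lit 4) (nat_lit 4) (nat_lit 2) (nat_lit 4) (nat_lit 221) (nat_lit 193) (nat_lit 186))))) (XT.nd (nat_lit 312) (nat_lit 76) (nat_lit 0) (XT.nd (nat_lit 156) (nat_lit 0) (nat_lit 0) (XT.nd (nat_lit 78) (nat_lit 0) (nat_lit 0) (XT.lf (nat_lit 0) (nat_lit 7305344498) (nat_lit 152) (nat_lit 20370689830) (nat_lit 0) (nat_lit 4960284532) (nat_lit 2) (nat_lit 5) (nat_lit 4) (nat_lit 4) (nat_lit 2) (nat_lit 4) (nat_lit 222) (nat_lit 193) (nat_lit 185)) (XT.lf (nat_lit 0) (nat_lit 10869543853) (nat_lit 152) (nat_lit 17824839963) (nat_lit 0) (nat_lit 8375929253) (nat_lit 2) (nat_lit 5) (nat_lit 4) (nat_lit 4) (nat_lit 2) (nat_lit 4) (nat_lit 223) (nat_lit 193) (nat_lit 184))) (XT.nd (nat_lit 78) (nat_lit 0) (nat_lit 0) (XT.lf (nat_lit 0) (nat_lit 14820384896) (nat_lit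 152) (nat_lit 15174260927) (nat_lit 0) (nat_lit 12197592354) (nat_lit 2) (nat_lit 5) (nat_lit 4) (nat_lit 4) (nat_lit 2) (nat_lit 4) (nat_lit 224) (nat_lit 193) (nat_lit 183)) (XT.lf (nat_lit 0) (nat_lit 19235166692) (nat_lit 152) (nat_lit 12367093570) (nat_lit 0) (nat_lit 16500045505) (nat_lit 2) (nat_lit 5) (nat_lit 4) (nat_lit 4) (nat_lit 2) (nat_lit 4) (nat_lit 225) (nat_lit 193) (nat_lit 182)))) (XT.nd (nat_lit 156) (nat_lit 76) (nat_lit 0) (XT.nd (nat_lit 78) (nat_lit 0) (nat_lit 0) (XT.lf (nat_lit 0) (nat_lit 24200265406) (nat_lit 152) (nat_lit 9348415050) (nat_lit 0) (nat_lit 21367467136) (nat_lit 2) (nat_lit 5) (nat_lit 4) (nat_lit 4) (nat_lit 2) (nat_lit 4) (nat_lit 226) (nat_lit 193) (nat_lit 181)) (XT.lf (nat_lit 0) (nat_lit 29812824273) (nat_lit 152) (nat_lit 6059164266) (nat_lit 0) (nat_lit 26895089409) (nat_lit 2) (nat_lit 5) (nat_lit 4) (nat_lit 4) (nat_lit 2) (nat_lit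 4) (nat_lit 227) (nat_lit 193) (nat_lit 180))) (XT.nd (nat_lit 78) (nat_lit 76) (nat_lit 0) (XT.lf (nat_lit 0) (nat_lit 36182654229) (nat_lit 152) (nat_lit 2434986312) (nat_lit 0) (nat_lit 33191061457) (nat_lit 2) (nat_lit 5) (nat_lit 4) (nat_lit 4) (nat_lit 2) (nat_lit 4) (nat_lit 228) (nat_lit 193) (nat_lit 179)) (XT.lf (nat_lit 0) (nat_lit 1750904245) (nat_lit 76) (nat_lit 41755979346) (nat_lit 76) (nat_lit 38700162307) (nat_lit 1) (nat_lit 4) (nat_lit 2) (nat_lit 5) (nat_lit 2) (nat_lit 4) (nat_lit 229) (nat_lit 193) (nat_lit 178)))))) (XT.nd (nat_lit 624) (nat_lit 0) (nat_lit 0) (XT.nd (nat_lit 312) (nat_lit 0) (nat_lit 0) (XT.nd (nat_lit 156) (nat_lit 0) (nat_lit 0) (XT.nd (nat_lit 78) (nat_lit 0) (nat_lit 0) (XT.lf (nat_lit 0) (nat_lit 6706809208) (nat_lit 76) (nat_lit 45280795824) (nat_lit 76) (nat_lit 42169131595) (nat_lit 1) (nat_lit 4) (nat_lit 2) (nat_lit 5) (nat_lit 2)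 (nat_lit 4) (nat_lit 230) (nat_lit 193) (nat_lit 177)) (XT.lf (nat_lit 0) (nat_lit 12291727365) (nat_lit 76) (nat_lit 49388337150) (nat_lit 76) (nat_lit 46228110148) (nat_lit 1) (nat_lit 4) (nat_lit 2) (nat_lit 5) (nat_lit 2) (nat_lit 4) (nat_lit 231) (nat_lit 193) (nat_lit 176))) (XT.nd (nat_lit 78) (nat_lit 0) (nat_lit 0) (XT.lf (nat_lit 0) (nat_lit 18614928852) (nat_lit 76) (nat_lit 54158968263) (nat_lit 76) (nat_lit 50956512763) (nat_lit 1) (nat_lit 4) (nat_lit 2) (nat_lit 5) (nat_lit 2) (nat_lit 4) (nat_lit 232) (nat_lit 193) (nat_lit 175)) (XT.lf (nat_lit 0) (nat_lit 25800128482) (nat_lit 76) (nat_lit 59686027599) (nat_lit 76) (nat_lit 56446851666) (nat_lit 1) (nat_lit 4) (nat_lit 2) (nat_lit 5) (nat_lit 2) (nat_lit 4) (nat_lit 233) (nat_lit 193) (nat_lit 174)))) (XT.nd (nat_lit 156) (nat_lit 0) (nat_lit 0) (XT.nd (nat_lit 78) (nat_lit 0) (nat_lit 0) (XT.lf (nat_lit 0) (nat_lit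 33987906247) (nat_lit 76) (nat_lit 66077653275) (nat_lit 76) (nat_lit 62806546530) (nat_lit 1) (nat_lit 4) (nat_lit 2) (nat_lit 5) (nat_lit 2) (nat_lit 4) (nat_lit 234) (nat_lit 193) (nat_lit 173)) (XT.lf (nat_lit 0) (nat_lit 43338457799) (nat_lit 76) (nat_lit 73458898836) (nat_lit 76) (nat_lit 70160026168) (nat_lit 1) (nat_lit 4) (nat_lit 2) (nat_lit 5) (nat_lit 2) (nat_lit 4) (nat_lit 235) (nat_lit 193) (nat_lit 172))) (XT.nd (nat_lit 78) (nat_lit 0) (nat_lit 0) (XT.lf (nat_lit 0) (nat_lit 54034728712) (nat_lit 76) (nat_lit 81974179957) (nat_lit 76) (nat_lit 78651163007) (nat_lit 1) (nat_lit 4) (nat_lit 2) (nat_lit 5) (nat_lit 2) (nat_lit 4) (nat_lit 236) (nat_lit 193) (nat_lit 171)) (XT.lf (nat_lit 0) (nat_lit 66285993852) (nat_lit 76) (nat_lit 91790099963) (nat_lit 76) (nat_lit 88446087987) (nat_lit 1) (nat_lit 4) (nat_lit 2) (nat_lit 5) (nat_lit 2) (nat_lit 4) (nat_lit 237) (nat_lit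 193) (nat_lit 170))))) (XT.nd (nat_lit 312) (nat_lit 0) (nat_lit 0) (XT.nd (nat_lit 156) (nat_lit 0) (nat_lit 0) (XT.nd (nat_lit 78) (nat_lit 0) (nat_lit 0) (XT.lf (nat_lit 0) (nat_lit 80331951883) (nat_lit 76) (nat_lit 103098709465) (nat_lit 76) (nat_lit 99736440943) (nat_lit 1) (nat_lit 4) (nat_lit 2) (nat_lit 5) (nat_lit 2) (nat_lit 4) (nat_lit 238) (nat_lit 193) (nat_lit 169)) (XT.lf (nat_lit 0) (nat_lit 96447415030) (nat_lit 76) (nat_lit 116121263864) (nat_lit 76) (nat_lit 112743120086) (nat_lit 1) (nat_lit 4) (nat_lit 2) (nat_lit 5) (nat_lit 2) (nat_lit 4) (nat_lit 239) (nat_lit 193) (nat_lit 168))) (XT.nd (nat_lit 78) (nat_lit 0) (nat_lit 0) (XT.lf (nat_lit 0) (nat_lit 114947685831) (nat_lit 76) (nat_lit 131112552269) (nat_lit 76) (nat_lit 127720603920) (nat_lit 1) (nat_lit 4) (nat_lit 2) (nat_lit 5) (nat_lit 2) (nat_lit 4) (nat_lit 240) (nat_lit 193) (nat_lit 167)) (XT.lf (nat_lit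 0) (nat_lit 136194726107) (nat_lit 76) (nat_lit 148365882497) (nat_lit 76) (nat_lit 144961930173) (nat_lit 1) (nat_lit 4) (nat_lit 2) (nat_lit 5) (nat_lit 2) (nat_lit 4) (nat_lit 241) (nat_lit 193) (nat_lit 166)))) (XT.nd (nat_lit 156) (nat_lit 0) (nat_lit 0) (XT.nd (nat_lit 78) (nat_lit 0) (nat_lit 0) (XT.lf (nat_lit 0) (nat_lit 160604238820) (nat_lit 76) (nat_lit 168218819704) (nat_lit 76) (nat_lit 164804429141) (nat_lit 1) (nat_lit 4) (nat_lit 2) (nat_lit 5) (nat_lit 2) (nat_lit 4) (nat_lit 242) (nat_lit 193) (nat_lit 165)) (XT.lf (nat_lit 0) (nat_lit 188653801391) (nat_lit 76) (nat_lit 191059790922) (nat_lit 76) (nat_lit 187636323629) (nat_lit 1) (nat_lit 4) (nat_lit 2) (nat_lit 5) (nat_lit 2) (nat_lit 4) (nat_lit 243) (nat_lit 193) (nat_lit 164))) (XT.nd (nat_lit 78) (nat_lit 0) (nat_lit 0) (XT.lf (nat_lit 0) (nat_lit 220892209611) (nat_lit 76) (nat_lit 217335684719) (nat_lit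 76) (nat_lit 213904324618) (nat_lit 1) (nat_lit 4) (nat_lit 2) (nat_lit 5) (nat_lit 2) (nat_lit 4) (nat_lit 244) (nat_lit 193) (nat_lit 163)) (XT.lf (nat_lit 0) (nat_lit 257950214945) (nat_lit 76) (nat_lit 247560594669) (nat_lit 76) (nat_lit 244122371256) (nat_lit 1) (nat_lit 4) (nat_lit 2) (nat_lit 5) (nat_lit 2) (nat_lit 4) (nat_lit 245) (nat_lit 193) (nat_lit 162))))))) (XT.nd (nat_lit 1170) (nat_lit 0) (nat_lit 0) (XT.nd (nat_lit 546) (nat_lit 0) (nat_lit 0) (XT.nd (nat_lit 234) (nat_lit 0) (nat_lit 0) (XT.nd (nat_lit 78) (nat_lit 0) (nat_lit 0) (XT.lf (nat_lit 0) (nat_lit 300552865324) (nat_lit 76) (nat_lit 282325877705) (nat_lit 76) (nat_lit 278881686196) (nat_lit 1) (nat_lit 4) (nat_lit 2) (nat_lit 5) (nat_lit 2) (nat_lit 4) (nat_lit 246) (nat_lit 193) (nat_lit 161)) (XT.nd (nat_lit 78) (nat_lit 0) (nat_lit 0) (XT.lf (nat_lit 0) (nat_lit 349533690862) (nat_lit 76) (nat_lit 322311724149)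 (nat_lit 76) (nat_lit 318862342990) (nat_lit 1) (nat_lit 4) (nat_lit 2) (nat_lit 5) (nat_lit 2) (nat_lit 4) (nat_lit 247) (nat_lit 193) (nat_lit 160)) (XT.lf (nat_lit 0) (nat_lit 405851012061) (nat_lit 76) (nat_lit 368300465778) (nat_lit 76) (nat_lit 364846571880) (nat_lit 1) (nat_lit 4) (nat_lit 2) (nat_lit 5) (nat_lit 2) (nat_lit 4) (nat_lit 248) (nat_lit 193) (nat_lit 159)))) (XT.nd (nat_lit 156) (nat_lit 0) (nat_lit 0) (XT.nd (nat_lit 78) (nat_lit 0) (nat_lit 0) (XT.lf (nat_lit 0) (nat_lit 470606689551) (nat_lit 76) (nat_lit 421191882320) (nat_lit 76) (nat_lit 417734064301) (nat_lit 1) (nat_lit 4) (nat_lit 2) (nat_lit 5) (nat_lit 2) (nat_lit 4) (nat_lit 249) (nat_lit 193) (nat_lit 158)) (XT.lf (nat_lit 0) (nat_lit 545067682241) (nat_lit 76) (nat_lit 482020805837) (nat_lit 76) (nat_lit 478559575540) (nat_lit 1) (nat_lit 4) (nat_lit 2) (nat_lit 5) (nat_lit 2) (nat_lit 4) (nat_lit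 250) (nat_lit 193) (nat_lit 157))) (XT.nd (nat_lit 78) (nat_lit 0) (nat_lit 0) (XT.lf (nat_lit 0) (nat_lit 630690835640) (nat_lit 76) (nat_lit 551977367442) (nat_lit 76) (nat_lit 548513169946) (nat_lit 1) (nat_lit 4) (nat_lit 2) (nat_lit 5) (nat_lit 2) (nat_lit 4) (nat_lit 251) (nat_lit 193) (nat_lit 156)) (XT.lf (nat_lit 0) (nat_lit 729151385358) (nat_lit 76) (nat_lit 632430282471) (nat_lit 76) (nat_lit 628963504802) (nat_lit 1) (nat_lit 4) (nat_lit 2) (nat_lit 5) (nat_lit 2) (nat_lit 4) (nat_lit 252) (nat_lit 193) (nat_lit 155))))) (XT.nd (nat_lit 312) (nat_lit 0) (nat_lit 0) (XT.nd (nat_lit 156) (nat_lit 0) (nat_lit 0) (XT.nd (nat_lit 78) (nat_lit 0) (nat_lit 0) (XT.lf (nat_lit 0) (nat_lit 842375733454) (nat_lit 76) (nat_lit 724953629696) (nat_lit 76) (nat_lit 721484608398) (nat_lit 1) (nat_lit 4) (nat_lit 2) (nat_lit 5) (nat_lit 2) (nat_lit 4) (nat_lit 253) (nat_lit 193) (nat_lit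 154)) (XT.lf (nat_lit 0) (nat_lit 972579138913) (nat_lit 76) (nat_lit 831357648520) (nat_lit 76) (nat_lit 827886676240) (nat_lit 1) (nat_lit 4) (nat_lit 2) (nat_lit 5) (nat_lit 2) (nat_lit 4) (nat_lit 254) (nat_lit 193) (nat_lit 153))) (XT.nd (nat_lit 78) (nat_lit 0) (nat_lit 0) (XT.lf (nat_lit 0) (nat_lit 1122309059667) (nat_lit 76) (nat_lit 953724156700) (nat_lit 76) (nat_lit 950251487915) (nat_lit 1) (nat_lit 4) (nat_lit 2) (nat_lit 5) (nat_lit 2) (nat_lit 4) (nat_lit 255) (nat_lit 193) (nat_lit 152)) (XT.lf (nat_lit 0) (nat_lit 1294494994167) (nat_lit 76) (nat_lit 1094447281573) (nat_lit 76) (nat_lit 1090973137566) (nat_lit 1) (nat_lit 4) (nat_lit 2) (nat_lit 5) (nat_lit 2) (nat_lit 4) (nat_lit 256) (nat_lit 193) (nat_lit 151)))) (XT.nd (nat_lit 156) (nat_lit 0) (nat_lit 0) (XT.nd (nat_lit 78) (nat_lit 0) (nat_lit 0) (XT.lf (nat_lit 0) (nat_lit 1492505797653) (nat_lit 76) (nat_lit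 1256280301668) (nat_lit 76) (nat_lit 1252804874858) (nat_lit 1) (nat_lit 4) (nat_lit 2) (nat_lit 5) (nat_lit 2) (nat_lit 4) (nat_lit 257) (nat_lit 193) (nat_lit 150)) (XT.lf (nat_lit 0) (nat_lit 1720215594540) (nat_lit 76) (nat_lit 1442389515203) (nat_lit 76) (nat_lit 1438912972914) (nat_lit 1) (nat_lit 4) (nat_lit 2) (nat_lit 5) (nat_lit 2) (nat_lit 4) (nat_lit 258) (nat_lit 193) (nat_lit 149))) (XT.nd (nat_lit 78) (nat_lit 0) (nat_lit 0) (XT.lf (nat_lit 0) (nat_lit 1982079576507) (nat_lit 76) (nat_lit 1656416189401) (nat_lit 76) (nat_lit 1652938677129) (nat_lit 1) (nat_lit 4) (nat_lit 2) (nat_lit 5) (nat_lit 2) (nat_lit 4) (nat_lit 259) (nat_lit 193) (nat_lit 148)) (XT.lf (nat_lit 0) (nat_lit 2283221169287) (nat_lit 76) (nat_lit 1902547802670) (nat_lit 76) (nat_lit 1899069446935) (nat_lit 1) (nat_lit 4) (nat_lit 2) (nat_lit 5) (nat_lit 2) (nat_lit 4) (nat_lit 260) (nat_lit 193) (nat_lit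 147)))))) (XT.nd (nat_lit 624) (nat_lit 0) (nat_lit 0) (XT.nd (nat_lit 312) (nat_lit 0) (nat_lit 0) (XT.nd (nat_lit 156) (nat_lit 0) (nat_lit 0) (XT.nd (nat_lit 78) (nat_lit 0) (nat_lit 0) (XT.lf (nat_lit 0) (nat_lit 2629532273610) (nat_lit 76) (nat_lit 2185599973530) (nat_lit 76) (nat_lit 2182120884349) (nat_lit 1) (nat_lit 4) (nat_lit 2) (nat_lit 5) (nat_lit 2) (nat_lit 4) (nat_lit 261) (nat_lit 193) (nat_lit 146)) (XT.lf (nat_lit 0) (nat_lit 3027788541516) (nat_lit 76) (nat_lit 2511110679237) (nat_lit 76) (nat_lit 2507630952276) (nat_lit 1) (nat_lit 4) (nat_lit 2) (nat_lit 5) (nat_lit 2) (nat_lit 4) (nat_lit 262) (nat_lit 193) (nat_lit 145))) (XT.nd (nat_lit 78) (nat_lit 0) (nat_lit 0) (XT.lf (nat_lit 0) (nat_lit 3485781943465) (nat_lit 76) (nat_lit 2885448607512) (nat_lit 76) (nat_lit 2881968325960) (nat_lit 1) (nat_lit 4) (nat_lit 2) (nat_lit 5) (nat_lit 2) (nat_lit 4) (nat_lit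 263) (nat_lit 193) (nat_lit 144)) (XT.lf (nat_lit 0) (nat_lit 4012473219929) (nat_lit 76) (nat_lit 3315937761298) (nat_lit 76) (nat_lit 3312456997494) (nat_lit 1) (nat_lit 4) (nat_lit 2) (nat_lit 5) (nat_lit 2) (nat_lit 4) (nat_lit 264) (nat_lit 193) (nat_lit 143)))) (XT.nd (nat_lit 156) (nat_lit 0) (nat_lit 0) (XT.nd (nat_lit 78) (nat_lit 0) (nat_lit 0) (XT.lf (nat_lit 0) (nat_lit 4618167200230) (nat_lit 76) (nat_lit 3811000754475) (nat_lit 76) (nat_lit 3807519571321) (nat_lit 1) (nat_lit 4) (nat_lit 2) (nat_lit 5) (nat_lit 2) (nat_lit 4) (nat_lit 265) (nat_lit 193) (nat_lit 142)) (XT.lf (nat_lit 0) (nat_lit 5314714418766) (nat_lit 76) (nat_lit 4380323602126) (nat_lit 76) (nat_lit 4376842054319) (nat_lit 1) (nat_lit 4) (nat_lit 2) (nat_lit 5) (nat_lit 2) (nat_lit 4) (nat_lit 266) (nat_lit 193) (nat_lit 141))) (XT.nd (nat_lit 78) (nat_lit 0) (nat_lit 0) (XT.lf (nat_lit 0) (nat_lit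 6115742973290) (nat_lit 76) (nat_lit 5035045229532) (nat_lit 76) (nat_lit 5031563364636) (nat_lit 1) (nat_lit 4) (nat_lit 2) (nat_lit 5) (nat_lit 2) (nat_lit 4) (nat_lit 267) (nat_lit 193) (nat_lit 140)) (XT.lf (nat_lit 0) (nat_lit 7036925161609) (nat_lit 76) (nat_lit 5787975407663) (nat_lit 76) (nat_lit 5784493267038) (nat_lit 1) (nat_lit 4) (nat_lit 2) (nat_lit 5) (nat_lit 2) (nat_lit 4) (nat_lit 268) (nat_lit 193) (nat_lit 139))))) (XT.nd (nat_lit 312) (nat_lit 0) (nat_lit 0) (XT.nd (nat_lit 156) (nat_lit 0) (nat_lit 0) (XT.nd (nat_lit 78) (nat_lit 0) (nat_lit 0) (XT.lf (nat_lit 0) (nat_lit 8096284113494) (nat_lit 76) (nat_lit 6653845379135) (nat_lit 76) (nat_lit 6650362998745) (nat_lit 1) (nat_lit 4) (nat_lit 2) (nat_lit 5) (nat_lit 2) (nat_lit 4) (nat_lit 269) (nat_lit 193) (nat_lit 138)) (XT.lf (nat_lit 0) (nat_lit 9314546417133) (nat_lit 76) (nat_lit 7649596078173) (nat_lit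 76) (nat_lit 7646113489291) (nat_lit 1) (nat_lit 4) (nat_lit 2) (nat_lit 5) (nat_lit 2) (nat_lit 4) (nat_lit 270) (nat_lit 193) (nat_lit 137))) (XT.nd (nat_lit 78) (nat_lit 0) (nat_lit 0) (XT.lf (nat_lit 0) (nat_lit 10715547639338) (nat_lit 76) (nat_lit 8794709583670) (nat_lit 76) (nat_lit 8791226813492) (nat_lit 1) (nat_lit 4) (nat_lit 2) (nat_lit 5) (nat_lit 2) (nat_lit 4) (nat_lit 271) (nat_lit 193) (nat_lit 136)) (XT.lf (nat_lit 0) (nat_lit 12326698673586) (nat_lit 76) (nat_lit 10111590290300) (nat_lit 76) (nat_lit 10108107362472) (nat_lit 1) (nat_lit 4) (nat_lit 2) (nat_lit 5) (nat_lit 2) (nat_lit 4) (nat_lit 272) (nat_lit 193) (nat_lit 135)))) (XT.nd (nat_lit 468) (nat_lit 0) (nat_lit 0) (XT.nd (nat_lit 390) (nat_lit 0) (nat_lit 0) (XT.lf (nat_lit 0) (nat_lit 14179522040113) (nat_lit 76) (nat_lit 11626003255365) (nat_lit 76) (nat_lit 11622520190452) (nat_lit 1) (nat_lit 4) (nat_lit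 2) (nat_lit 5) (nat_lit 2) (nat_lit 4) (nat_lit 273) (nat_lit 193) (nat_lit 134)) (XT.lf (nat_lit 0) (nat_lit 28545825388570) (nat_lit 76) (nat_lit 23368367353417) (nat_lit 76) (nat_lit 23364883828968) (nat_lit 1) (nat_lit 4) (nat_lit 2) (nat_lit 5) (nat_lit 2) (nat_lit 4) (nat_lit 278) (nat_lit 193) (nat_lit 129))) (XT.nd (nat_lit 78) (nat_lit 0) (nat_lit 0) (XT.lf (nat_lit 0) (nat_lit 32831516540491) (nat_lit 76) (nat_lit 26871297454863) (nat_lit 76) (nat_lit 26867813871148) (nat_lit 1) (nat_lit 4) (nat_lit 2) (nat_lit 5) (nat_lit 2) (nat_lit 4) (nat_lit 279) (nat_lit 193) (nat_lit 128)) (XT.lf (nat_lit 0) (nat_lit 37760061243826) (nat_lit 76) (nat_lit 30899667128834) (nat_lit 76) (nat_lit 30896183493583) (nat_lit 1) (nat_lit 4) (nat_lit 2) (nat_lit 5) (nat_lit 2) (nat_lit 4) (nat_lit 280) (nat_lit 193) (nat_lit 127))))))))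
noncomputable def xc18 : XT := (XT.nd (nat_lit 28080) (nat_lit 0) (nat_lit 0) (XT.nd (nat_lit 26832) (nat_lit 0) (nat_lit 0) (XT.nd (nat_lit 26208) (nat_lit 0) (nat_lit 76) (XT.nd (nat_lit 25896) (nat_lit 0) (nat_lit 304) (XT.nd (nat_lit 78) (nat_lit 0) (nat_lit 0) (XT.lf (nat_lit 0) (nat_lit 43427887547118) (nat_lit 76) (nat_lit 35532292303734) (nat_lit 76) (nat_lit 35528808623670) (nat_lit 1) (nat_lit 4) (nat_lit 2) (nat_lit 5) (nat_lit 2) (nat_lit 4) (nat_lit 281) (nat_lit 193) (nat_lit 126)) (XT.nd (nat_lit 78) (nat_lit 0) (nat_lit 0) (XT.lf (nat_lit 0) (nat_lit 49945887704127) (nat_lit 76) (nat_lit 40859811298203) (nat_lit 76) (nat_lit 40856327579171) (nat_lit 1) (nat_lit 4) (nat_lit 2) (nat_lit 5) (nat_lit 2) (nat_lit 4) (nat_lit 282) (nat_lit 193) (nat_lit 125)) (XT.lf (nat_lit 0) (nat_lit 57441587804881) (nat_lit 76) (nat_lit 46986458179524) (nat_lit 76) (nat_lit 46982974426605)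 (nat_lit 1) (nat_lit 4) (nat_lit 2) (nat_lit 5) (nat_lit 2) (nat_lit 4) (nat_lit 283) (nat_lit 193) (nat_lit 124)))) (XT.nd (nat_lit 156) (nat_lit 152) (nat_lit 0) (XT.nd (nat_lit 78) (nat_lit 76) (nat_lit 0) (XT.lf (nat_lit 0) (nat_lit 2582580000) (nat_lit 152) (nat_lit 342069632) (nat_lit 0) (nat_lit 2582580000) (nat_lit 8) (nat_lit 5) (nat_lit 10) (nat_lit 4) (nat_lit 8) (nat_lit 4) (nat_lit 212) (nat_lit 194) (nat_lit 194)) (XT.lf (nat_lit 0) (nat_lit 5794431831) (nat_lit 76) (nat_lit 3456395893) (nat_lit 76) (nat_lit 2765261594) (nat_lit 7) (nat_lit 4) (nat_lit 8) (nat_lit 5) (nat_lit 8) (nat_lit 4) (nat_lit 213) (nat_lit 194) (nat_lit 193))) (XT.nd (nat_lit 78) (nat_lit 76) (nat_lit 0) (XT.lf (nat_lit 0) (nat_lit 377896025) (nat_lit 152) (nat_lit 479644191) (nat_lit 76) (nat_lit 12358221627) (nat_lit 6) (nat_lit 5) (nat_lit 8) (nat_lit 5) (nat_lit 7) (nat_lit 4) (nat_lit 214)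 (nat_lit 194) (nat_lit 192)) (XT.lf (nat_lit 0) (nat_lit 3732884582) (nat_lit 152) (nat_lit 8686587998) (nat_lit 0) (nat_lit 2154869391) (nat_lit 5) (nat_lit 5) (nat_lit 7) (nat_lit 4) (nat_lit 5) (nat_lit 4) (nat_lit 215) (nat_lit 194) (nat_lit 191))))) (XT.nd (nat_lit 312) (nat_lit 152) (nat_lit 0) (XT.nd (nat_lit 156) (nat_lit 0) (nat_lit 0) (XT.nd (nat_lit 78) (nat_lit 76) (nat_lit 0) (XT.lf (nat_lit 0) (nat_lit 7348325426) (nat_lit 152) (nat_lit 3451589142) (nat_lit 0) (nat_lit 5375151957) (nat_lit 5) (nat_lit 5) (nat_lit 7) (nat_lit 4) (nat_lit 5) (nat_lit 4) (nat_lit 216) (nat_lit 194) (nat_lit 190)) (XT.lf (nat_lit 0) (nat_lit 2303489465) (nat_lit 76) (nat_lit 9028499452) (nat_lit 76) (nat_lit 6711710088) (nat_lit 4) (nat_lit 4) (nat_lit 5) (nat_lit 5) (nat_lit 5) (nat_lit 4) (nat_lit 217) (nat_lit 194) (nat_lit 189))) (XT.nd (nat_lit 78) (nat_lit 0) (nat_lit 0) (XT.lf (nat_lit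 0) (nat_lit 8860873446) (nat_lit 76) (nat_lit 6979838786) (nat_lit 76) (nat_lit 4364252992) (nat_lit 4) (nat_lit 4) (nat_lit 5) (nat_lit 5) (nat_lit 5) (nat_lit 4) (nat_lit 218) (nat_lit 194) (nat_lit 188)) (XT.lf (nat_lit 0) (nat_lit 16011545050) (nat_lit 76) (nat_lit 4794274056) (nat_lit 76) (nat_lit 1918865280) (nat_lit 4) (nat_lit 4) (nat_lit 5) (nat_lit 5) (nat_lit 5) (nat_lit 4) (nat_lit 219) (nat_lit 194) (nat_lit 187)))) (XT.nd (nat_lit 156) (nat_lit 0) (nat_lit 0) (XT.nd (nat_lit 78) (nat_lit 76) (nat_lit 0) (XT.lf (nat_lit 0) (nat_lit 612445008) (nat_lit 152) (nat_lit 1784585035) (nat_lit 76) (nat_lit 23250949540) (nat_lit 3) (nat_lit 5) (nat_lit 5) (nat_lit 5) (nat_lit 4) (nat_lit 4) (nat_lit 220) (nat_lit 194) (nat_lit 186)) (XT.lf (nat_lit 0) (nat_lit 3331097528) (nat_lit 152) (nat_lit 25201747324) (nat_lit 0) (nat_lit 463440739) (nat_lit 2) (nat_lit 5) (nat_lit 4) (nat_lit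 4) (nat_lit 2) (nat_lit 4) (nat_lit 221) (nat_lit 194) (nat_lit 185))) (XT.nd (nat_lit 78) (nat_lit 0) (nat_lit 0) (XT.lf (nat_lit 0) (nat_lit 6499233043) (nat_lit 152) (nat_lit 22859058638) (nat_lit 0) (nat_lit 3483021620) (nat_lit 2) (nat_lit 5) (nat_lit 4) (nat_lit 4) (nat_lit 2) (nat_lit 4) (nat_lit 222) (nat_lit 194) (nat_lit 184)) (XT.lf (nat_lit 0) (nat_lit 9994600670) (nat_lit 152) (nat_lit 20442114962) (nat_lit 0) (nat_lit 6849211305) (nat_lit 2) (nat_lit 5) (nat_lit 4) (nat_lit 4) (nat_lit 2) (nat_lit 4) (nat_lit 223) (nat_lit 194) (nat_lit 183)))))) (XT.nd (nat_lit 624) (nat_lit 0) (nat_lit 0) (XT.nd (nat_lit 312) (nat_lit 76) (nat_lit 0) (XT.nd (nat_lit 156) (nat_lit 0) (nat_lit 0) (XT.nd (nat_lit 78) (nat_lit 0) (nat_lit 0) (XT.lf (nat_lit 0) (nat_lit 13885588037) (nat_lit 152) (nat_lit 17903628268) (nat_lit 0) (nat_lit 10627870027) (nat_lit 2) (nat_lit 5) (nat_lit 4)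 (nat_lit 4) (nat_lit 2) (nat_lit 4) (nat_lit 224) (nat_lit 194) (nat_lit 182)) (XT.lf (nat_lit 0) (nat_lit 18248323158) (nat_lit 152) (nat_lit 15193932511) (nat_lit 0) (nat_lit 14892928064) (nat_lit 2) (nat_lit 5) (nat_lit 4) (nat_lit 4) (nat_lit 2) (nat_lit 4) (nat_lit 225) (nat_lit 194) (nat_lit 181))) (XT.nd (nat_lit 78) (nat_lit 0) (nat_lit 0) (XT.lf (nat_lit 0) (nat_lit 23168163893) (nat_lit 152) (nat_lit 12260011904) (nat_lit 0) (nat_lit 19727832206) (nat_lit 2) (nat_lit 5) (nat_lit 4) (nat_lit 4) (nat_lit 2) (nat_lit 4) (nat_lit 226) (nat_lit 194) (nat_lit 180)) (XT.lf (nat_lit 0) (nat_lit 28741367997) (nat_lit 152) (nat_lit 9044463654) (nat_lit 0) (nat_lit 25227178402) (nat_lit 2) (nat_lit 5) (nat_lit 4) (nat_lit 4) (nat_lit 2) (nat_lit 4) (nat_lit 227) (nat_lit 194) (nat_lit 179)))) (XT.nd (nat_lit 156) (nat_lit 76) (nat_lit 0) (XT.nd (nat_lit 78) (nat_lit 0) (nat_lit 0) (XT.lf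 (nat_lit 0) (nat_lit 35076976419) (nat_lit 152) (nat_lit 5484374860) (nat_lit 0) (nat_lit 31498562557) (nat_lit 2) (nat_lit 5) (nat_lit 4) (nat_lit 4) (nat_lit 2) (nat_lit 4) (nat_lit 228) (nat_lit 194) (nat_lit 178)) (XT.lf (nat_lit 0) (nat_lit 42298946715) (nat_lit 152) (nat_lit 1510091610) (nat_lit 0) (nat_lit 38664685664) (nat_lit 2) (nat_lit 5) (nat_lit 4) (nat_lit 4) (nat_lit 2) (nat_lit 4) (nat_lit 229) (nat_lit 194) (nat_lit 177))) (XT.nd (nat_lit 78) (nat_lit 0) (nat_lit 0) (XT.lf (nat_lit 0) (nat_lit 3245039682) (nat_lit 76) (nat_lit 47437908795) (nat_lit 76) (nat_lit 43755084970) (nat_lit 1) (nat_lit 4) (nat_lit 2) (nat_lit 5) (nat_lit 2) (nat_lit 4) (nat_lit 230) (nat_lit 194) (nat_lit 176)) (XT.lf (nat_lit 0) (nat_lit 8783699982) (nat_lit 76) (nat_lit 51567291325) (nat_lit 76) (nat_lit 47842239001) (nat_lit 1) (nat_lit 4) (nat_lit 2) (nat_lit 5) (nat_lit 2) (nat_lit 4)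 (nat_lit 231) (nat_lit 194) (nat_lit 175))))) (XT.nd (nat_lit 312) (nat_lit 0) (nat_lit 0) (XT.nd (nat_lit 156) (nat_lit 0) (nat_lit 0) (XT.nd (nat_lit 78) (nat_lit 0) (nat_lit 0) (XT.lf (nat_lit 0) (nat_lit 15066677246) (nat_lit 76) (nat_lit 56356914789) (nat_lit 76) (nat_lit 52595142033) (nat_lit 1) (nat_lit 4) (nat_lit 2) (nat_lit 5) (nat_lit 2) (nat_lit 4) (nat_lit 232) (nat_lit 194) (nat_lit 174)) (XT.lf (nat_lit 0) (nat_lit 22216899290) (nat_lit 76) (nat_lit 61900489213) (nat_lit 76) (nat_lit 58106785645) (nat_lit 1) (nat_lit 4) (nat_lit 2) (nat_lit 5) (nat_lit 2) (nat_lit 4) (nat_lit 233) (nat_lit 194) (nat_lit 173))) (XT.nd (nat_lit 78) (nat_lit 0) (nat_lit 0) (XT.lf (nat_lit 0) (nat_lit 30374261763) (nat_lit 76) (nat_lit 68306475835) (nat_lit 76) (nat_lit 64485006344) (nat_lit 1) (nat_lit 4) (nat_lit 2) (nat_lit 5) (nat_lit 2) (nat_lit 4) (nat_lit 234) (nat_lit 194) (nat_lit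 172)) (XT.lf (nat_lit 0) (nat_lit 39698365235) (nat_lit 76) (nat_lit 75700209176) (nat_lit 76) (nat_lit 71854595403) (nat_lit 1) (nat_lit 4) (nat_lit 2) (nat_lit 5) (nat_lit 2) (nat_lit 4) (nat_lit 235) (nat_lit 194) (nat_lit 171)))) (XT.nd (nat_lit 156) (nat_lit 0) (nat_lit 0) (XT.nd (nat_lit 78) (nat_lit 0) (nat_lit 0) (XT.lf (nat_lit 0) (nat_lit 50371637817) (nat_lit 76) (nat_lit 84226349235) (nat_lit 76) (nat_lit 80359740435) (nat_lit 1) (nat_lit 4) (nat_lit 2) (nat_lit 5) (nat_lit 2) (nat_lit 4) (nat_lit 236) (nat_lit 194) (nat_lit 170)) (XT.lf (nat_lit 0) (nat_lit 62602904409) (nat_lit 76) (nat_lit 94051711797) (nat_lit 76) (nat_lit 90166846452) (nat_lit 1) (nat_lit 4) (nat_lit 2) (nat_lit 5) (nat_lit 2) (nat_lit 4) (nat_lit 237) (nat_lit 194) (nat_lit 169))) (XT.nd (nat_lit 78) (nat_lit 0) (nat_lit 0) (XT.lf (nat_lit 0) (nat_lit 76631472399) (nat_lit 76) (nat_lit 105368532216)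 (nat_lit 76) (nat_lit 101467791614) (nat_lit 1) (nat_lit 4) (nat_lit 2) (nat_lit 5) (nat_lit 2) (nat_lit 4) (nat_lit 238) (nat_lit 194) (nat_lit 168)) (XT.lf (nat_lit 0) (nat_lit 92731813770) (nat_lit 76) (nat_lit 118398226544) (nat_lit 76) (nat_lit 114483681371) (nat_lit 1) (nat_lit 4) (nat_lit 2) (nat_lit 5) (nat_lit 2) (nat_lit 4) (nat_lit 239) (nat_lit 194) (nat_lit 167))))))) (XT.nd (nat_lit 1170) (nat_lit 0) (nat_lit 0) (XT.nd (nat_lit 546) (nat_lit 0) (nat_lit 0) (XT.nd (nat_lit 234) (nat_lit 0) (nat_lit 0) (XT.nd (nat_lit 78) (nat_lit 0) (nat_lit 0) (XT.lf (nat_lit 0) (nat_lit 111218935201) (nat_lit 76) (nat_lit 133395723582) (nat_lit 76) (nat_lit 129469174435) (nat_lit 1) (nat_lit 4) (nat_lit 2) (nat_lit 5) (nat_lit 2) (nat_lit 4) (nat_lit 240) (nat_lit 194) (nat_lit 166)) (XT.nd (nat_lit 78) (nat_lit 0) (nat_lit 0) (XT.lf (nat_lit 0) (nat_lit 132454541242) (nat_lit 76) (nat_lit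 150654452621) (nat_lit 76) (nat_lit 146717465235) (nat_lit 1) (nat_lit 4) (nat_lit 2) (nat_lit 5) (nat_lit 2) (nat_lit 4) (nat_lit 241) (nat_lit 194) (nat_lit 165)) (XT.lf (nat_lit 0) (nat_lit 156854111142) (nat_lit 76) (nat_lit 170512084447) (nat_lit 76) (nat_lit 166566020331) (nat_lit 1) (nat_lit 4) (nat_lit 2) (nat_lit 5) (nat_lit 2) (nat_lit 4) (nat_lit 242) (nat_lit 194) (nat_lit 164)))) (XT.nd (nat_lit 156) (nat_lit 0) (nat_lit 0) (XT.nd (nat_lit 78) (nat_lit 0) (nat_lit 0) (XT.lf (nat_lit 0) (nat_lit 184895027789) (nat_lit 76) (nat_lit 193357137942) (nat_lit 76) (nat_lit 189403181018) (nat_lit 1) (nat_lit 4) (nat_lit 2) (nat_lit 5) (nat_lit 2) (nat_lit 4) (nat_lit 243) (nat_lit 194) (nat_lit 163)) (XT.lf (nat_lit 0) (nat_lit 217125917814) (nat_lit 76) (nat_lit 219636581545) (nat_lit 76) (nat_lit 215675761310) (nat_lit 1) (nat_lit 4) (nat_lit 2) (nat_lit 5) (nat_lit 2) (nat_lit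 4) (nat_lit 244) (nat_lit 194) (nat_lit 162))) (XT.nd (nat_lit 78) (nat_lit 0) (nat_lit 0) (XT.lf (nat_lit 0) (nat_lit 254177385587) (nat_lit 76) (nat_lit 249864578283) (nat_lit 76) (nat_lit 245897789951) (nat_lit 1) (nat_lit 4) (nat_lit 2) (nat_lit 5) (nat_lit 2) (nat_lit 4) (nat_lit 245) (nat_lit 194) (nat_lit 161)) (XT.lf (nat_lit 0) (nat_lit 296774351130) (nat_lit 76) (nat_lit 284632545484) (nat_lit 76) (nat_lit 280660567501) (nat_lit 1) (nat_lit 4) (nat_lit 2) (nat_lit 5) (nat_lit 2) (nat_lit 4) (nat_lit 246) (nat_lit 194) (nat_lit 160))))) (XT.nd (nat_lit 312) (nat_lit 0) (nat_lit 0) (XT.nd (nat_lit 156) (nat_lit 0) (nat_lit 0) (XT.nd (nat_lit 78) (nat_lit 0) (nat_lit 0) (XT.lf (nat_lit 0) (nat_lit 345750233333) (nat_lit 76) (nat_lit 324620725982) (nat_lit 76) (nat_lit 320644235261) (nat_lit 1) (nat_lit 4) (nat_lit 2) (nat_lit 5) (nat_lit 2) (nat_lit 4) (nat_lit 247) (nat_lit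 194) (nat_lit 159)) (XT.lf (nat_lit 0) (nat_lit 402063255979) (nat_lit 76) (nat_lit 370611497225) (nat_lit 76) (nat_lit 366631082383) (nat_lit 1) (nat_lit 4) (nat_lit 2) (nat_lit 5) (nat_lit 2) (nat_lit 4) (nat_lit 248) (nat_lit 194) (nat_lit 158))) (XT.nd (nat_lit 78) (nat_lit 0) (nat_lit 0) (XT.lf (nat_lit 0) (nat_lit 466815195598) (nat_lit 76) (nat_lit 423504678648) (nat_lit 76) (nat_lit 419520851527) (nat_lit 1) (nat_lit 4) (nat_lit 2) (nat_lit 5) (nat_lit 2) (nat_lit 4) (nat_lit 249) (nat_lit 194) (nat_lit 157)) (XT.lf (nat_lit 0) (nat_lit 541272937965) (nat_lit 76) (nat_lit 484335136844) (nat_lit 76) (nat_lit 480348342524) (nat_lit 1) (nat_lit 4) (nat_lit 2) (nat_lit 5) (nat_lit 2) (nat_lit 4) (nat_lit 250) (nat_lit 194) (nat_lit 156)))) (XT.nd (nat_lit 156) (nat_lit 0) (nat_lit 0) (XT.nd (nat_lit 78) (nat_lit 0) (nat_lit 0) (XT.lf (nat_lit 0) (nat_lit 626893264996) (nat_lit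 76) (nat_lit 554293032953) (nat_lit 76) (nat_lit 550303658460) (nat_lit 1) (nat_lit 4) (nat_lit 2) (nat_lit 5) (nat_lit 2) (nat_lit 4) (nat_lit 251) (nat_lit 194) (nat_lit 155)) (XT.lf (nat_lit 0) (nat_lit 725351357003) (nat_lit 76) (nat_lit 634747108420) (nat_lit 76) (nat_lit 630755490299) (nat_lit 1) (nat_lit 4) (nat_lit 2) (nat_lit 5) (nat_lit 2) (nat_lit 4) (nat_lit 252) (nat_lit 194) (nat_lit 154))) (XT.nd (nat_lit 78) (nat_lit 0) (nat_lit 0) (XT.lf (nat_lit 0) (nat_lit 838573567958) (nat_lit 76) (nat_lit 727271464722) (nat_lit 76) (nat_lit 723277895619) (nat_lit 1) (nat_lit 4) (nat_lit 2) (nat_lit 5) (nat_lit 2) (nat_lit 4) (nat_lit 253) (nat_lit 194) (nat_lit 153)) (XT.lf (nat_lit 0) (nat_lit 968775115034) (nat_lit 76) (nat_lit 833676361002) (nat_lit 76) (nat_lit 829681095394) (nat_lit 1) (nat_lit 4) (nat_lit 2) (nat_lit 5) (nat_lit 2) (nat_lit 4) (nat_lit 254) (nat_lit 194)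 (nat_lit 152)))))) (XT.nd (nat_lit 624) (nat_lit 0) (nat_lit 0) (XT.nd (nat_lit 312) (nat_lit 0) (nat_lit 0) (XT.nd (nat_lit 156) (nat_lit 0) (nat_lit 0) (XT.nd (nat_lit 78) (nat_lit 0) (nat_lit 0) (XT.lf (nat_lit 0) (nat_lit 1118503419804) (nat_lit 76) (nat_lit 956043632190) (nat_lit 76) (nat_lit 952046891359) (nat_lit 1) (nat_lit 4) (nat_lit 2) (nat_lit 5) (nat_lit 2) (nat_lit 4) (nat_lit 255) (nat_lit 194) (nat_lit 151)) (XT.lf (nat_lit 0) (nat_lit 1290687949099) (nat_lit 76) (nat_lit 1096767420547) (nat_lit 76) (nat_lit 1092769396914) (nat_lit 1) (nat_lit 4) (nat_lit 2) (nat_lit 5) (nat_lit 2) (nat_lit 4) (nat_lit 256) (nat_lit 194) (nat_lit 150))) (XT.nd (nat_lit 78) (nat_lit 0) (nat_lit 0) (XT.lf (nat_lit 0) (nat_lit 1488697530668) (nat_lit 76) (nat_lit 1258601017584) (nat_lit 76) (nat_lit 1254601878471) (nat_lit 1) (nat_lit 4) (nat_lit 2) (nat_lit 5) (nat_lit 2) (nat_lit 4)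 (nat_lit 257) (nat_lit 194) (nat_lit 149)) (XT.lf (nat_lit 0) (nat_lit 1716406265019) (nat_lit 76) (nat_lit 1444710732809) (nat_lit 76) (nat_lit 1440710623714) (nat_lit 1) (nat_lit 4) (nat_lit 2) (nat_lit 5) (nat_lit 2) (nat_lit 4) (nat_lit 258) (nat_lit 194) (nat_lit 148)))) (XT.nd (nat_lit 156) (nat_lit 0) (nat_lit 0) (XT.nd (nat_lit 78) (nat_lit 0) (nat_lit 0) (XT.lf (nat_lit 0) (nat_lit 1978269323041) (nat_lit 76) (nat_lit 1658737843259) (nat_lit 76) (nat_lit 1654736890700) (nat_lit 1) (nat_lit 4) (nat_lit 2) (nat_lit 5) (nat_lit 2) (nat_lit 4) (nat_lit 259) (nat_lit 194) (nat_lit 147)) (XT.lf (nat_lit 0) (nat_lit 2279410112391) (nat_lit 76) (nat_lit 1904869835877) (nat_lit 76) (nat_lit 1900868149872) (nat_lit 1) (nat_lit 4) (nat_lit 2) (nat_lit 5) (nat_lit 2) (nat_lit 4) (nat_lit 260) (nat_lit 194) (nat_lit 146))) (XT.nd (nat_lit 78) (nat_lit 0) (nat_lit 0) (XT.lf (nat_lit 0)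 (nat_lit 2625720518079) (nat_lit 76) (nat_lit 2187922336606) (nat_lit 76) (nat_lit 2183920012822) (nat_lit 1) (nat_lit 4) (nat_lit 2) (nat_lit 5) (nat_lit 2) (nat_lit 4) (nat_lit 261) (nat_lit 194) (nat_lit 145)) (XT.lf (nat_lit 0) (nat_lit 3023976178477) (nat_lit 76) (nat_lit 2513433329156) (nat_lit 76) (nat_lit 2509430450781) (nat_lit 1) (nat_lit 4) (nat_lit 2) (nat_lit 5) (nat_lit 2) (nat_lit 4) (nat_lit 262) (nat_lit 194) (nat_lit 144))))) (XT.nd (nat_lit 312) (nat_lit 0) (nat_lit 0) (XT.nd (nat_lit 156) (nat_lit 0) (nat_lit 0) (XT.nd (nat_lit 78) (nat_lit 0) (nat_lit 0) (XT.lf (nat_lit 0) (nat_lit 3481969052157) (nat_lit 76) (nat_lit 2887771506858) (nat_lit 76) (nat_lit 2883768146231) (nat_lit 1) (nat_lit 4) (nat_lit 2) (nat_lit 5) (nat_lit 2) (nat_lit 4) (nat_lit 263) (nat_lit 194) (nat_lit 143)) (XT.lf (nat_lit 0) (nat_lit 4008659869257) (nat_lit 76) (nat_lit 3318260877539)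 (nat_lit 76) (nat_lit 3314257097561) (nat_lit 1) (nat_lit 4) (nat_lit 2) (nat_lit 5) (nat_lit 2) (nat_lit 4) (nat_lit 264) (nat_lit 194) (nat_lit 142))) (XT.nd (nat_lit 78) (nat_lit 0) (nat_lit 0) (XT.lf (nat_lit 0) (nat_lit 4614353450111) (nat_lit 76) (nat_lit 3813324059320) (nat_lit 76) (nat_lit 3809319914689) (nat_lit 1) (nat_lit 4) (nat_lit 2) (nat_lit 5) (nat_lit 2) (nat_lit 4) (nat_lit 265) (nat_lit 194) (nat_lit 141)) (XT.lf (nat_lit 0) (nat_lit 5310900321302) (nat_lit 76) (nat_lit 4382647070974) (nat_lit 76) (nat_lit 4378642609254) (nat_lit 1) (nat_lit 4) (nat_lit 2) (nat_lit 5) (nat_lit 2) (nat_lit 4) (nat_lit 266) (nat_lit 194) (nat_lit 140)))) (XT.nd (nat_lit 156) (nat_lit 0) (nat_lit 0) (XT.nd (nat_lit 78) (nat_lit 0) (nat_lit 0) (XT.lf (nat_lit 0) (nat_lit 6111928573787) (nat_lit 76) (nat_lit 5037368840991) (nat_lit 76) (nat_lit 5033364103542) (nat_lit 1) (nat_lit 4) (nat_lit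 2) (nat_lit 5) (nat_lit 2) (nat_lit 4) (nat_lit 267) (nat_lit 194) (nat_lit 139)) (XT.lf (nat_lit 0) (nat_lit 7033110499463) (nat_lit 76) (nat_lit 5790299143132) (nat_lit 76) (nat_lit 5786294165918) (nat_lit 1) (nat_lit 4) (nat_lit 2) (nat_lit 5) (nat_lit 2) (nat_lit 4) (nat_lit 268) (nat_lit 194) (nat_lit 138))) (XT.nd (nat_lit 78) (nat_lit 0) (nat_lit 0) (XT.lf (nat_lit 0) (nat_lit 8092469222963) (nat_lit 76) (nat_lit 6656169222439) (nat_lit 76) (nat_lit 6652164036734) (nat_lit 1) (nat_lit 4) (nat_lit 2) (nat_lit 5) (nat_lit 2) (nat_lit 4) (nat_lit 269) (nat_lit 194) (nat_lit 137)) (XT.lf (nat_lit 0) (nat_lit 9310731328007) (nat_lit 76) (nat_lit 7651920015246) (nat_lit 76) (nat_lit 7647914648244) (nat_lit 1) (nat_lit 4) (nat_lit 2) (nat_lit 5) (nat_lit 2) (nat_lit 4) (nat_lit 270) (nat_lit 194) (nat_lit 136))))))))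
noncomputable def xc19 : XT := (XT.nd (nat_lit 28314) (nat_lit 0) (nat_lit 0) (XT.nd (nat_lit 27066) (nat_lit 0) (nat_lit 0) (XT.nd (nat_lit 936) (nat_lit 0) (nat_lit 0) (XT.nd (nat_lit 624) (nat_lit 0) (nat_lit 0) (XT.nd (nat_lit 468) (nat_lit 0) (nat_lit 0) (XT.lf (nat_lit 0) (nat_lit 10711732377520) (nat_lit 76) (nat_lit 8797033602281) (nat_lit 76) (nat_lit 8793028077630) (nat_lit 1) (nat_lit 4) (nat_lit 2) (nat_lit 5) (nat_lit 2) (nat_lit 4) (nat_lit 271) (nat_lit 194) (nat_lit 135)) (XT.nd (nat_lit 78) (nat_lit 0) (nat_lit 0) (XT.lf (nat_lit 0) (nat_lit 24815321393636) (nat_lit 76) (nat_lit 20324665562747) (nat_lit 76) (nat_lit 20320659441475) (nat_lit 1) (nat_lit 4) (nat_lit 2) (nat_lit 5) (nat_lit 2) (nat_lit 4) (nat_lit 277) (nat_lit 194) (nat_lit 129)) (XT.lf (nat_lit 0) (nat_lit 28542009408281) (nat_lit 76) (nat_lit 23370691711262) (nat_lit 76) (nat_lit 23366685530724) (nat_lit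 1) (nat_lit 4) (nat_lit 2) (nat_lit 5) (nat_lit 2) (nat_lit 4) (nat_lit 278) (nat_lit 194) (nat_lit 128)))) (XT.nd (nat_lit 156) (nat_lit 0) (nat_lit 0) (XT.nd (nat_lit 78) (nat_lit 0) (nat_lit 0) (XT.lf (nat_lit 0) (nat_lit 32827700503749) (nat_lit 76) (nat_lit 26873621839364) (nat_lit 76) (nat_lit 26869615607290) (nat_lit 1) (nat_lit 4) (nat_lit 2) (nat_lit 5) (nat_lit 2) (nat_lit 4) (nat_lit 279) (nat_lit 194) (nat_lit 127)) (XT.lf (nat_lit 0) (nat_lit 37756245157994) (nat_lit 76) (nat_lit 30901991536513) (nat_lit 76) (nat_lit 30897985259625) (nat_lit 1) (nat_lit 4) (nat_lit 2) (nat_lit 5) (nat_lit 2) (nat_lit 4) (nat_lit 280) (nat_lit 194) (nat_lit 126))) (XT.nd (nat_lit 78) (nat_lit 0) (nat_lit 0) (XT.lf (nat_lit 0) (nat_lit 43424071418599) (nat_lit 76) (nat_lit 35534616731569) (nat_lit 76) (nat_lit 35530610415713) (nat_lit 1) (nat_lit 4) (nat_lit 2) (nat_lit 5) (nat_lit 2) (nat_lit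 4) (nat_lit 281) (nat_lit 194) (nat_lit 125)) (XT.lf (nat_lit 0) (nat_lit 49942071538489) (nat_lit 76) (nat_lit 40862135743564) (nat_lit 76) (nat_lit 40858129393822) (nat_lit 1) (nat_lit 4) (nat_lit 2) (nat_lit 5) (nat_lit 2) (nat_lit 4) (nat_lit 282) (nat_lit 194) (nat_lit 124))))) (XT.nd (nat_lit 25818) (nat_lit 0) (nat_lit 304) (XT.nd (nat_lit 25662) (nat_lit 0) (nat_lit 532) (XT.nd (nat_lit 25584) (nat_lit 0) (nat_lit 684) (XT.lf (nat_lit 0) (nat_lit 57437771606966) (nat_lit 76) (nat_lit 46988782640125) (nat_lit 76) (nat_lit 46984776260917) (nat_lit 1) (nat_lit 4) (nat_lit 2) (nat_lit 5) (nat_lit 2) (nat_lit 4) (nat_lit 283) (nat_lit 194) (nat_lit 123)) (XT.lf (nat_lit 0) (nat_lit 3679998329) (nat_lit 152) (nat_lit 516395326) (nat_lit 152) (nat_lit 516395326) (nat_lit 10) (nat_lit 4) (nat_lit 12) (nat_lit 5) (nat_lit 12) (nat_lit 4) (nat_lit 210) (nat_lit 195) (nat_lit 195))) (XT.nd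 (nat_lit 78) (nat_lit 0) (nat_lit 0) (XT.lf (nat_lit 0) (nat_lit 2287335624) (nat_lit 152) (nat_lit 6384538415) (nat_lit 0) (nat_lit 1492531180) (nat_lit 8) (nat_lit 5) (nat_lit 10) (nat_lit 4) (nat_lit 8) (nat_lit 4) (nat_lit 211) (nat_lit 195) (nat_lit 194)) (XT.lf (nat_lit 0) (nat_lit 5784247940) (nat_lit 152) (nat_lit 959836156) (nat_lit 0) (nat_lit 4298309197) (nat_lit 8) (nat_lit 5) (nat_lit 10) (nat_lit 4) (nat_lit 8) (nat_lit 4) (nat_lit 212) (nat_lit 195) (nat_lit 193)))) (XT.nd (nat_lit 156) (nat_lit 76) (nat_lit 0) (XT.nd (nat_lit 78) (nat_lit 76) (nat_lit 0) (XT.lf (nat_lit 0) (nat_lit 5228626621) (nat_lit 76) (nat_lit 4465063294) (nat_lit 76) (nat_lit 2378138204) (nat_lit 7) (nat_lit 4) (nat_lit 8) (nat_lit 5) (nat_lit 8) (nat_lit 4) (nat_lit 213) (nat_lit 195) (nat_lit 192)) (XT.lf (nat_lit 0) (nat_lit 580348151) (nat_lit 152) (nat_lit 1361773388) (nat_lit 76) (nat_lit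 11350542250) (nat_lit 6) (nat_lit 5) (nat_lit 8) (nat_lit 5) (nat_lit 7) (nat_lit 4) (nat_lit 214) (nat_lit 195) (nat_lit 191))) (XT.nd (nat_lit 78) (nat_lit 0) (nat_lit 0) (XT.lf (nat_lit 0) (nat_lit 3704281996) (nat_lit 152) (nat_lit 9942547299) (nat_lit 0) (nat_lit 1039974227) (nat_lit 5) (nat_lit 5) (nat_lit 7) (nat_lit 4) (nat_lit 5) (nat_lit 4) (nat_lit 215) (nat_lit 195) (nat_lit 190)) (XT.lf (nat_lit 0) (nat_lit 7194385135) (nat_lit 152) (nat_lit 4926265949) (nat_lit 0) (nat_lit 4186461472) (nat_lit 5) (nat_lit 5) (nat_lit 7) (nat_lit 4) (nat_lit 5) (nat_lit 4) (nat_lit 216) (nat_lit 195) (nat_lit 189)))))) (XT.nd (nat_lit 624) (nat_lit 76) (nat_lit 0) (XT.nd (nat_lit 312) (nat_lit 152) (nat_lit 0) (XT.nd (nat_lit 156) (nat_lit 0) (nat_lit 0) (XT.nd (nat_lit 78) (nat_lit 0) (nat_lit 0) (XT.lf (nat_lit 0) (nat_lit 475920715) (nat_lit 76) (nat_lit 10517462877) (nat_lit 76) (nat_lit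 7210742785) (nat_lit 4) (nat_lit 4) (nat_lit 5) (nat_lit 5) (nat_lit 5) (nat_lit 4) (nat_lit 217) (nat_lit 195) (nat_lit 188)) (XT.lf (nat_lit 0) (nat_lit 6851760522) (nat_lit 76) (nat_lit 8548055717) (nat_lit 76) (nat_lit 4981512641) (nat_lit 4) (nat_lit 4) (nat_lit 5) (nat_lit 5) (nat_lit 5) (nat_lit 4) (nat_lit 218) (nat_lit 195) (nat_lit 187))) (XT.nd (nat_lit 78) (nat_lit 0) (nat_lit 0) (XT.lf (nat_lit 0) (nat_lit 13844567626) (nat_lit 76) (nat_lit 6431407079) (nat_lit 76) (nat_lit 2638930975) (nat_lit 4) (nat_lit 4) (nat_lit 5) (nat_lit 5) (nat_lit 5) (nat_lit 4) (nat_lit 219) (nat_lit 195) (nat_lit 186)) (XT.lf (nat_lit 0) (nat_lit 21591157818) (nat_lit 76) (nat_lit 4126104274) (nat_lit 76) (nat_lit 137164667) (nat_lit 4) (nat_lit 4) (nat_lit 5) (nat_lit 5) (nat_lit 5) (nat_lit 4) (nat_lit 220) (nat_lit 195) (nat_lit 185)))) (XT.nd (nat_lit 156) (nat_lit 0) (nat_lit 0) (XT.nd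 (nat_lit 78) (nat_lit 0) (nat_lit 0) (XT.lf (nat_lit 0) (nat_lit 965076711) (nat_lit 76) (nat_lit 1418576379) (nat_lit 152) (nat_lit 26851777416) (nat_lit 2) (nat_lit 5) (nat_lit 3) (nat_lit 5) (nat_lit 4) (nat_lit 4) (nat_lit 221) (nat_lit 195) (nat_lit 184)) (XT.lf (nat_lit 0) (nat_lit 5424216655) (nat_lit 152) (nat_lit 25997831080) (nat_lit 0) (nat_lit 1677840943) (nat_lit 2) (nat_lit 5) (nat_lit 4) (nat_lit 4) (nat_lit 2) (nat_lit 4) (nat_lit 222) (nat_lit 195) (nat_lit 183))) (XT.nd (nat_lit 78) (nat_lit 0) (nat_lit 0) (XT.lf (nat_lit 0) (nat_lit 8859730606) (nat_lit 152) (nat_lit 23692979745) (nat_lit 0) (nat_lit 5001026249) (nat_lit 2) (nat_lit 5) (nat_lit 4) (nat_lit 4) (nat_lit 2) (nat_lit 4) (nat_lit 223) (nat_lit 195) (nat_lit 182)) (XT.lf (nat_lit 0) (nat_lit 12698671298) (nat_lit 152) (nat_lit 21251964651) (nat_lit 0) (nat_lit 8742289858) (nat_lit 2) (nat_lit 5) (nat_lit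 4) (nat_lit 4) (nat_lit 2) (nat_lit 4) (nat_lit 224) (nat_lit 195) (nat_lit 181))))) (XT.nd (nat_lit 312) (nat_lit 76) (nat_lit 0) (XT.nd (nat_lit 156) (nat_lit 0) (nat_lit 0) (XT.nd (nat_lit 78) (nat_lit 0) (nat_lit 0) (XT.lf (nat_lit 0) (nat_lit 17016148440) (nat_lit 152) (nat_lit 18627026807) (nat_lit 0) (nat_lit 12974830406) (nat_lit 2) (nat_lit 5) (nat_lit 4) (nat_lit 4) (nat_lit 2) (nat_lit 4) (nat_lit 225) (nat_lit 195) (nat_lit 180)) (XT.lf (nat_lit 0) (nat_lit 21896634412) (nat_lit 152) (nat_lit 15766808734) (nat_lit 0) (nat_lit 17781458470) (nat_lit 2) (nat_lit 5) (nat_lit 4) (nat_lit 4) (nat_lit 2) (nat_lit 4) (nat_lit 226) (nat_lit 195) (nat_lit 179))) (XT.nd (nat_lit 78) (nat_lit 0) (nat_lit 0) (XT.lf (nat_lit 0) (nat_lit 27435616982) (nat_lit 152) (nat_lit 12615349644) (nat_lit 0) (nat_lit 23256216773) (nat_lit 2) (nat_lit 5) (nat_lit 4) (nat_lit 4) (nat_lit 2) (nat_lit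 4) (nat_lit 227) (nat_lit 195) (nat_lit 178)) (XT.lf (nat_lit 0) (nat_lit 33741467549) (nat_lit 152) (nat_lit 9110990554) (nat_lit 0) (nat_lit 29506220150) (nat_lit 2) (nat_lit 5) (nat_lit 4) (nat_lit 4) (nat_lit 2) (nat_lit 4) (nat_lit 228) (nat_lit 195) (nat_lit 177)))) (XT.nd (nat_lit 156) (nat_lit 76) (nat_lit 0) (XT.nd (nat_lit 78) (nat_lit 0) (nat_lit 0) (XT.lf (nat_lit 0) (nat_lit 40937561449) (nat_lit 152) (nat_lit 5185167916) (nat_lit 0) (nat_lit 36653751277) (nat_lit 2) (nat_lit 5) (nat_lit 4) (nat_lit 4) (nat_lit 2) (nat_lit 4) (nat_lit 229) (nat_lit 195) (nat_lit 176)) (XT.lf (nat_lit 0) (nat_lit 49164691824) (nat_lit 152) (nat_lit 761072158) (nat_lit 0) (nat_lit 44838653154) (nat_lit 2) (nat_lit 5) (nat_lit 4) (nat_lit 4) (nat_lit 2) (nat_lit 4) (nat_lit 230) (nat_lit 195) (nat_lit 175))) (XT.nd (nat_lit 78) (nat_lit 0) (nat_lit 0) (XT.lf (nat_lit 0) (nat_lit 4662986411)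 (nat_lit 76) (nat_lit 54113922181) (nat_lit 76) (nat_lit 49751163078) (nat_lit 1) (nat_lit 4) (nat_lit 2) (nat_lit 5) (nat_lit 2) (nat_lit 4) (nat_lit 231) (nat_lit 195) (nat_lit 174)) (XT.lf (nat_lit 0) (nat_lit 10910986089) (nat_lit 76) (nat_lit 58920060734) (nat_lit 76) (nat_lit 54525370819) (nat_lit 1) (nat_lit 4) (nat_lit 2) (nat_lit 5) (nat_lit 2) (nat_lit 4) (nat_lit 232) (nat_lit 195) (nat_lit 173))))))) (XT.nd (nat_lit 1170) (nat_lit 0) (nat_lit 0) (XT.nd (nat_lit 546) (nat_lit 0) (nat_lit 0) (XT.nd (nat_lit 234) (nat_lit 0) (nat_lit 0) (XT.nd (nat_lit 78) (nat_lit 0) (nat_lit 0) (XT.lf (nat_lit 0) (nat_lit 18030792841) (nat_lit 76) (nat_lit 64477996104) (nat_lit 76) (nat_lit 60055540266) (nat_lit 1) (nat_lit 4) (nat_lit 2) (nat_lit 5) (nat_lit 2) (nat_lit 4) (nat_lit 233) (nat_lit 195) (nat_lit 172)) (XT.nd (nat_lit 78) (nat_lit 0) (nat_lit 0) (XT.lf (nat_lit 0) (nat_lit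 26161707234) (nat_lit 76) (nat_lit 70896470505) (nat_lit 76) (nat_lit 66449870386) (nat_lit 1) (nat_lit 4) (nat_lit 2) (nat_lit 5) (nat_lit 2) (nat_lit 4) (nat_lit 234) (nat_lit 195) (nat_lit 171)) (XT.lf (nat_lit 0) (nat_lit 35462812376) (nat_lit 76) (nat_lit 78301062784) (nat_lit 76) (nat_lit 73833467638) (nat_lit 1) (nat_lit 4) (nat_lit 2) (nat_lit 5) (nat_lit 2) (nat_lit 4) (nat_lit 235) (nat_lit 195) (nat_lit 170)))) (XT.nd (nat_lit 156) (nat_lit 0) (nat_lit 0) (XT.nd (nat_lit 78) (nat_lit 0) (nat_lit 0) (XT.lf (nat_lit 0) (nat_lit 46116086410) (nat_lit 76) (nat_lit 86836645399) (nat_lit 76) (nat_lit 82350793707) (nat_lit 1) (nat_lit 4) (nat_lit 2) (nat_lit 5) (nat_lit 2) (nat_lit 4) (nat_lit 236) (nat_lit 195) (nat_lit 169)) (XT.lf (nat_lit 0) (nat_lit 58329962959) (nat_lit 76) (nat_lit 96670218878) (nat_lit 76) (nat_lit 92168491930) (nat_lit 1) (nat_lit 4) (nat_lit 2) (nat_lit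 5) (nat_lit 2) (nat_lit 4) (nat_lit 237) (nat_lit 195) (nat_lit 168))) (XT.nd (nat_lit 78) (nat_lit 0) (nat_lit 0) (XT.lf (nat_lit 0) (nat_lit 72343409174) (nat_lit 76) (nat_lit 107994179226) (nat_lit 76) (nat_lit 103478647706) (nat_lit 1) (nat_lit 4) (nat_lit 2) (nat_lit 5) (nat_lit 2) (nat_lit 4) (nat_lit 238) (nat_lit 195) (nat_lit 167)) (XT.lf (nat_lit 0) (nat_lit 88430601175) (nat_lit 76) (nat_lit 121030082187) (nat_lit 76) (nat_lit 116502546692) (nat_lit 1) (nat_lit 4) (nat_lit 2) (nat_lit 5) (nat_lit 2) (nat_lit 4) (nat_lit 239) (nat_lit 195) (nat_lit 166))))) (XT.nd (nat_lit 312) (nat_lit 0) (nat_lit 0) (XT.nd (nat_lit 156) (nat_lit 0) (nat_lit 0) (XT.nd (nat_lit 78) (nat_lit 0) (nat_lit 0) (XT.lf (nat_lit 0) (nat_lit 106906288371) (nat_lit 76) (nat_lit 136032978037) (nat_lit 76) (nat_lit 131495004304) (nat_lit 1) (nat_lit 4) (nat_lit 2) (nat_lit 5) (nat_lit 2) (nat_lit 4)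 (nat_lit 240) (nat_lit 195) (nat_lit 165)) (XT.lf (nat_lit 0) (nat_lit 128131951600) (nat_lit 76) (nat_lit 153296401695) (nat_lit 76) (nat_lit 148749351232) (nat_lit 1) (nat_lit 4) (nat_lit 2) (nat_lit 5) (nat_lit 2) (nat_lit 4) (nat_lit 241) (nat_lit 195) (nat_lit 164))) (XT.nd (nat_lit 78) (nat_lit 0) (nat_lit 0) (XT.lf (nat_lit 0) (nat_lit 152522875575) (nat_lit 76) (nat_lit 173158115798) (nat_lit 76) (nat_lit 168603172526) (nat_lit 1) (nat_lit 4) (nat_lit 2) (nat_lit 5) (nat_lit 2) (nat_lit 4) (nat_lit 242) (nat_lit 195) (nat_lit 163)) (XT.lf (nat_lit 0) (nat_lit 180556274027) (nat_lit 76) (nat_lit 196006719099) (nat_lit 76) (nat_lit 191444912517) (nat_lit 1) (nat_lit 4) (nat_lit 2) (nat_lit 5) (nat_lit 2) (nat_lit 4) (nat_lit 243) (nat_lit 195) (nat_lit 162)))) (XT.nd (nat_lit 156) (nat_lit 0) (nat_lit 0) (XT.nd (nat_lit 78) (nat_lit 0) (nat_lit 0) (XT.lf (nat_lit 0) (nat_lit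 212780626492) (nat_lit 76) (nat_lit 222289249490) (nat_lit 76) (nat_lit 217721474811) (nat_lit 1) (nat_lit 4) (nat_lit 2) (nat_lit 5) (nat_lit 2) (nat_lit 4) (nat_lit 244) (nat_lit 195) (nat_lit 161)) (XT.lf (nat_lit 0) (nat_lit 249826409429) (nat_lit 76) (nat_lit 252519930392) (nat_lit 76) (nat_lit 247946966062) (nat_lit 1) (nat_lit 4) (nat_lit 2) (nat_lit 5) (nat_lit 2) (nat_lit 4) (nat_lit 245) (nat_lit 195) (nat_lit 160))) (XT.nd (nat_lit 78) (nat_lit 0) (nat_lit 0) (XT.lf (nat_lit 0) (nat_lit 292418431636) (nat_lit 76) (nat_lit 287290231647) (nat_lit 76) (nat_lit 282712754579) (nat_lit 1) (nat_lit 4) (nat_lit 2) (nat_lit 5) (nat_lit 2) (nat_lit 4) (nat_lit 246) (nat_lit 195) (nat_lit 159)) (XT.lf (nat_lit 0) (nat_lit 341390015287) (nat_lit 76) (nat_lit 327280441759) (nat_lit 76) (nat_lit 322699040571) (nat_lit 1) (nat_lit 4) (nat_lit 2) (nat_lit 5) (nat_lit 2) (nat_lit 4) (nat_lit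 247) (nat_lit 195) (nat_lit 158)))))) (XT.nd (nat_lit 624) (nat_lit 0) (nat_lit 0) (XT.nd (nat_lit 312) (nat_lit 0) (nat_lit 0) (XT.nd (nat_lit 156) (nat_lit 0) (nat_lit 0) (XT.nd (nat_lit 78) (nat_lit 0) (nat_lit 0) (XT.lf (nat_lit 0) (nat_lit 397699300062) (nat_lit 76) (nat_lit 373272977883) (nat_lit 76) (nat_lit 368688164415) (nat_lit 1) (nat_lit 4) (nat_lit 2) (nat_lit 5) (nat_lit 2) (nat_lit 4) (nat_lit 248) (nat_lit 195) (nat_lit 157)) (XT.lf (nat_lit 0) (nat_lit 462447989358) (nat_lit 76) (nat_lit 426167693985) (nat_lit 76) (nat_lit 421579913318) (nat_lit 1) (nat_lit 4) (nat_lit 2) (nat_lit 5) (nat_lit 2) (nat_lit 4) (nat_lit 249) (nat_lit 195) (nat_lit 156))) (XT.nd (nat_lit 78) (nat_lit 0) (nat_lit 0) (XT.lf (nat_lit 0) (nat_lit 536902905357) (nat_lit 76) (nat_lit 486999486685) (nat_lit 76) (nat_lit 482409125845) (nat_lit 1) (nat_lit 4) (nat_lit 2) (nat_lit 5) (nat_lit 2)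 (nat_lit 4) (nat_lit 250) (nat_lit 195) (nat_lit 155)) (XT.lf (nat_lit 0) (nat_lit 622520774676) (nat_lit 76) (nat_lit 556958543232) (nat_lit 76) (nat_lit 552365938764) (nat_lit 1) (nat_lit 4) (nat_lit 2) (nat_lit 5) (nat_lit 2) (nat_lit 4) (nat_lit 251) (nat_lit 195) (nat_lit 154)))) (XT.nd (nat_lit 156) (nat_lit 0) (nat_lit 0) (XT.nd (nat_lit 78) (nat_lit 0) (nat_lit 0) (XT.lf (nat_lit 0) (nat_lit 720976729542) (nat_lit 76) (nat_lit 637413627775) (nat_lit 76) (nat_lit 632819072326) (nat_lit 1) (nat_lit 4) (nat_lit 2) (nat_lit 5) (nat_lit 2) (nat_lit 4) (nat_lit 252) (nat_lit 195) (nat_lit 153)) (XT.lf (nat_lit 0) (nat_lit 834197082115) (nat_lit 76) (nat_lit 729938861535) (nat_lit 76) (nat_lit 725342609579) (nat_lit 1) (nat_lit 4) (nat_lit 2) (nat_lit 5) (nat_lit 2) (nat_lit 4) (nat_lit 253) (nat_lit 195) (nat_lit 152))) (XT.nd (nat_lit 78) (nat_lit 0) (nat_lit 0) (XT.lf (nat_lit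 0) (nat_lit 964397013206) (nat_lit 76) (nat_lit 836344520822) (nat_lit 76) (nat_lit 831746793645) (nat_lit 1) (nat_lit 4) (nat_lit 2) (nat_lit 5) (nat_lit 2) (nat_lit 4) (nat_lit 254) (nat_lit 195) (nat_lit 151)) (XT.lf (nat_lit 0) (nat_lit 1114123912771) (nat_lit 76) (nat_lit 958712455494) (nat_lit 76) (nat_lit 954113445515) (nat_lit 1) (nat_lit 4) (nat_lit 2) (nat_lit 5) (nat_lit 2) (nat_lit 4) (nat_lit 255) (nat_lit 195) (nat_lit 150))))) (XT.nd (nat_lit 312) (nat_lit 0) (nat_lit 0) (XT.nd (nat_lit 156) (nat_lit 0) (nat_lit 0) (XT.nd (nat_lit 78) (nat_lit 0) (nat_lit 0) (XT.lf (nat_lit 0) (nat_lit 1286307220150) (nat_lit 76) (nat_lit 1099436820794) (nat_lit 76) (nat_lit 1094836695334) (nat_lit 1) (nat_lit 4) (nat_lit 2) (nat_lit 5) (nat_lit 2) (nat_lit 4) (nat_lit 256) (nat_lit 195) (nat_lit 149)) (XT.lf (nat_lit 0) (nat_lit 1484315739182) (nat_lit 76) (nat_lit 1261270919521) (nat_lit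 76) (nat_lit 1256669824078) (nat_lit 1) (nat_lit 4) (nat_lit 2) (nat_lit 5) (nat_lit 2) (nat_lit 4) (nat_lit 257) (nat_lit 195) (nat_lit 148))) (XT.nd (nat_lit 78) (nat_lit 0) (nat_lit 0) (XT.lf (nat_lit 0) (nat_lit 1712023549588) (nat_lit 76) (nat_lit 1447381070997) (nat_lit 76) (nat_lit 1442779132092) (nat_lit 1) (nat_lit 4) (nat_lit 2) (nat_lit 5) (nat_lit 2) (nat_lit 4) (nat_lit 258) (nat_lit 195) (nat_lit 147)) (XT.lf (nat_lit 0) (nat_lit 1973885804180) (nat_lit 76) (nat_lit 1661408560796) (nat_lit 76) (nat_lit 1656805888444) (nat_lit 1) (nat_lit 4) (nat_lit 2) (nat_lit 5) (nat_lit 2) (nat_lit 4) (nat_lit 259) (nat_lit 195) (nat_lit 146)))) (XT.nd (nat_lit 156) (nat_lit 0) (nat_lit 0) (XT.nd (nat_lit 78) (nat_lit 0) (nat_lit 0) (XT.lf (nat_lit 0) (nat_lit 2275025894896) (nat_lit 76) (nat_lit 1907540883283) (nat_lit 76) (nat_lit 1902937573152) (nat_lit 1) (nat_lit 4) (nat_lit 2)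 (nat_lit 5) (nat_lit 2) (nat_lit 4) (nat_lit 260) (nat_lit 195) (nat_lit 145)) (XT.lf (nat_lit 0) (nat_lit 2621335693075) (nat_lit 76) (nat_lit 2190593670854) (nat_lit 76) (nat_lit 2185989806133) (nat_lit 1) (nat_lit 4) (nat_lit 2) (nat_lit 5) (nat_lit 2) (nat_lit 4) (nat_lit 261) (nat_lit 195) (nat_lit 144))) (XT.nd (nat_lit 78) (nat_lit 0) (nat_lit 0) (XT.lf (nat_lit 0) (nat_lit 3019590825204) (nat_lit 76) (nat_lit 2516104912832) (nat_lit 76) (nat_lit 2511500565858) (nat_lit 1) (nat_lit 4) (nat_lit 2) (nat_lit 5) (nat_lit 2) (nat_lit 4) (nat_lit 262) (nat_lit 195) (nat_lit 143)) (XT.lf (nat_lit 0) (nat_lit 3477583239521) (nat_lit 76) (nat_lit 2890443307429) (nat_lit 76) (nat_lit 2885838541104) (nat_lit 1) (nat_lit 4) (nat_lit 2) (nat_lit 5) (nat_lit 2) (nat_lit 4) (nat_lit 263) (nat_lit 195) (nat_lit 142))))))))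
noncomputable def xc20 : XT := (XT.nd (nat_lit 28080) (nat_lit 0) (nat_lit 0) (XT.nd (nat_lit 1404) (nat_lit 0) (nat_lit 0) (XT.nd (nat_lit 546) (nat_lit 0) (nat_lit 0) (XT.nd (nat_lit 234) (nat_lit 0) (nat_lit 0) (XT.nd (nat_lit 78) (nat_lit 0) (nat_lit 0) (XT.lf (nat_lit 0) (nat_lit 4004273657174) (nat_lit 76) (nat_lit 3320932866714) (nat_lit 76) (nat_lit 3316327735736) (nat_lit 1) (nat_lit 4) (nat_lit 2) (nat_lit 5) (nat_lit 2) (nat_lit 4) (nat_lit 264) (nat_lit 195) (nat_lit 141)) (XT.nd (nat_lit 78) (nat_lit 0) (nat_lit 0) (XT.lf (nat_lit 0) (nat_lit 4609966890683) (nat_lit 76) (nat_lit 3815996212497) (nat_lit 76) (nat_lit 3811390764431) (nat_lit 1) (nat_lit 4) (nat_lit 2) (nat_lit 5) (nat_lit 2) (nat_lit 4) (nat_lit 265) (nat_lit 195) (nat_lit 140)) (XT.lf (nat_lit 0) (nat_lit 5306513459835) (nat_lit 76) (nat_lit 4385319366763) (nat_lit 76) (nat_lit 4380713642967) (nat_lit 1)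 (nat_lit 4) (nat_lit 2) (nat_lit 5) (nat_lit 2) (nat_lit 4) (nat_lit 266) (nat_lit 195) (nat_lit 139)))) (XT.nd (nat_lit 156) (nat_lit 0) (nat_lit 0) (XT.nd (nat_lit 78) (nat_lit 0) (nat_lit 0) (XT.lf (nat_lit 0) (nat_lit 6107541449677) (nat_lit 76) (nat_lit 5040041260790) (nat_lit 76) (nat_lit 5035435297229) (nat_lit 1) (nat_lit 4) (nat_lit 2) (nat_lit 5) (nat_lit 2) (nat_lit 4) (nat_lit 267) (nat_lit 195) (nat_lit 138)) (XT.lf (nat_lit 0) (nat_lit 7028723146968) (nat_lit 76) (nat_lit 5792971670766) (nat_lit 76) (nat_lit 5788365498714) (nat_lit 1) (nat_lit 4) (nat_lit 2) (nat_lit 5) (nat_lit 2) (nat_lit 4) (nat_lit 268) (nat_lit 195) (nat_lit 137))) (XT.nd (nat_lit 78) (nat_lit 0) (nat_lit 0) (XT.lf (nat_lit 0) (nat_lit 8088081671872) (nat_lit 76) (nat_lit 6658841843842) (nat_lit 76) (nat_lit 6654235490493) (nat_lit 1) (nat_lit 4) (nat_lit 2) (nat_lit 5) (nat_lit 2) (nat_lit 4) (nat_lit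 269) (nat_lit 195) (nat_lit 136)) (XT.lf (nat_lit 0) (nat_lit 9306343604225) (nat_lit 76) (nat_lit 7654592718187) (nat_lit 76) (nat_lit 7649986207189) (nat_lit 1) (nat_lit 4) (nat_lit 2) (nat_lit 5) (nat_lit 2) (nat_lit 4) (nat_lit 270) (nat_lit 195) (nat_lit 135))))) (XT.nd (nat_lit 546) (nat_lit 0) (nat_lit 0) (XT.nd (nat_lit 390) (nat_lit 0) (nat_lit 0) (XT.nd (nat_lit 78) (nat_lit 0) (nat_lit 0) (XT.lf (nat_lit 0) (nat_lit 10707344503571) (nat_lit 76) (nat_lit 8799706376126) (nat_lit 76) (nat_lit 8795099728042) (nat_lit 1) (nat_lit 4) (nat_lit 2) (nat_lit 5) (nat_lit 2) (nat_lit 4) (nat_lit 271) (nat_lit 195) (nat_lit 134)) (XT.lf (nat_lit 0) (nat_lit 12318495257072) (nat_lit 76) (nat_lit 10116587215314) (nat_lit 76) (nat_lit 10111980448024) (nat_lit 1) (nat_lit 4) (nat_lit 2) (nat_lit 5) (nat_lit 2) (nat_lit 4) (nat_lit 272) (nat_lit 195) (nat_lit 133))) (XT.nd (nat_lit 78) (nat_lit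 0) (nat_lit 0) (XT.lf (nat_lit 0) (nat_lit 21570334621325) (nat_lit 76) (nat_lit 17678620241565) (nat_lit 76) (nat_lit 17674013133946) (nat_lit 1) (nat_lit 4) (nat_lit 2) (nat_lit 5) (nat_lit 2) (nat_lit 4) (nat_lit 276) (nat_lit 195) (nat_lit 129)) (XT.lf (nat_lit 0) (nat_lit 24810932951383) (nat_lit 76) (nat_lit 20327338604923) (nat_lit 76) (nat_lit 20322731438038) (nat_lit 1) (nat_lit 4) (nat_lit 2) (nat_lit 5) (nat_lit 2) (nat_lit 4) (nat_lit 277) (nat_lit 195) (nat_lit 128)))) (XT.nd (nat_lit 156) (nat_lit 0) (nat_lit 0) (XT.nd (nat_lit 78) (nat_lit 0) (nat_lit 0) (XT.lf (nat_lit 0) (nat_lit 28537620909575) (nat_lit 76) (nat_lit 23373364780094) (nat_lit 76) (nat_lit 23368757561673) (nat_lit 1) (nat_lit 4) (nat_lit 2) (nat_lit 5) (nat_lit 2) (nat_lit 4) (nat_lit 278) (nat_lit 195) (nat_lit 127)) (XT.lf (nat_lit 0) (nat_lit 32823311955953) (nat_lit 76) (nat_lit 26876294931373) (nat_lit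 76) (nat_lit 26871687668139) (nat_lit 1) (nat_lit 4) (nat_lit 2) (nat_lit 5) (nat_lit 2) (nat_lit 4) (nat_lit 279) (nat_lit 195) (nat_lit 126))) (XT.nd (nat_lit 78) (nat_lit 0) (nat_lit 0) (XT.lf (nat_lit 0) (nat_lit 37751856567511) (nat_lit 76) (nat_lit 30904664648678) (nat_lit 76) (nat_lit 30900057346475) (nat_lit 1) (nat_lit 4) (nat_lit 2) (nat_lit 5) (nat_lit 2) (nat_lit 4) (nat_lit 280) (nat_lit 195) (nat_lit 125)) (XT.lf (nat_lit 0) (nat_lit 43419682790997) (nat_lit 76) (nat_lit 35537289861260) (nat_lit 76) (nat_lit 35532682525171) (nat_lit 1) (nat_lit 4) (nat_lit 2) (nat_lit 5) (nat_lit 2) (nat_lit 4) (nat_lit 281) (nat_lit 195) (nat_lit 124)))))) (XT.nd (nat_lit 26052) (nat_lit 0) (nat_lit 76) (XT.nd (nat_lit 25740) (nat_lit 0) (nat_lit 380) (XT.nd (nat_lit 25584) (nat_lit 0) (nat_lit 684) (XT.nd (nat_lit 25506) (nat_lit 0) (nat_lit 836) (XT.lf (nat_lit 0) (nat_lit 49937682878610)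 (nat_lit 76) (nat_lit 40864808888495) (nat_lit 76) (nat_lit 40860201522941) (nat_lit 1) (nat_lit 4) (nat_lit 2) (nat_lit 5) (nat_lit 2) (nat_lit 4) (nat_lit 282) (nat_lit 195) (nat_lit 123)) (XT.lf (nat_lit 0) (nat_lit 1096873995) (nat_lit 228) (nat_lit 1930196527) (nat_lit 0) (nat_lit 1096873995) (nat_lit 12) (nat_lit 5) (nat_lit 15) (nat_lit 4) (nat_lit 12) (nat_lit 4) (nat_lit 208) (nat_lit 196) (nat_lit 196))) (XT.nd (nat_lit 78) (nat_lit 0) (nat_lit 0) (XT.lf (nat_lit 0) (nat_lit 1286835160) (nat_lit 152) (nat_lit 4279391828) (nat_lit 152) (nat_lit 3228262951) (nat_lit 10) (nat_lit 4) (nat_lit 12) (nat_lit 5) (nat_lit 12) (nat_lit 4) (nat_lit 209) (nat_lit 196) (nat_lit 195)) (XT.lf (nat_lit 0) (nat_lit 7116512756) (nat_lit 152) (nat_lit 2151355672) (nat_lit 152) (nat_lit 186201685) (nat_lit 10) (nat_lit 4) (nat_lit 12) (nat_lit 5) (nat_lit 12) (nat_lit 4) (nat_lit 210) (nat_lit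 196) (nat_lit 194)))) (XT.nd (nat_lit 156) (nat_lit 152) (nat_lit 0) (XT.nd (nat_lit 78) (nat_lit 0) (nat_lit 0) (XT.lf (nat_lit 0) (nat_lit 2823570249) (nat_lit 152) (nat_lit 6977286730) (nat_lit 0) (nat_lit 423606396) (nat_lit 8) (nat_lit 5) (nat_lit 10) (nat_lit 4) (nat_lit 8) (nat_lit 4) (nat_lit 211) (nat_lit 196) (nat_lit 193)) (XT.lf (nat_lit 0) (nat_lit 6167685604) (nat_lit 152) (nat_lit 1792320898) (nat_lit 0) (nat_lit 3166735404) (nat_lit 8) (nat_lit 5) (nat_lit 10) (nat_lit 4) (nat_lit 8) (nat_lit 4) (nat_lit 212) (nat_lit 196) (nat_lit 192))) (XT.nd (nat_lit 78) (nat_lit 76) (nat_lit 0) (XT.lf (nat_lit 0) (nat_lit 4085946100) (nat_lit 76) (nat_lit 5810998595) (nat_lit 76) (nat_lit 2287451571) (nat_lit 7) (nat_lit 4) (nat_lit 8) (nat_lit 5) (nat_lit 8) (nat_lit 4) (nat_lit 213) (nat_lit 196) (nat_lit 191)) (XT.lf (nat_lit 0) (nat_lit 532346570) (nat_lit 152) (nat_lit 2833433918)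 (nat_lit 76) (nat_lit 10059381773) (nat_lit 6) (nat_lit 5) (nat_lit 8) (nat_lit 5) (nat_lit 7) (nat_lit 4) (nat_lit 214) (nat_lit 196) (nat_lit 190))))) (XT.nd (nat_lit 312) (nat_lit 152) (nat_lit 0) (XT.nd (nat_lit 156) (nat_lit 76) (nat_lit 0) (XT.nd (nat_lit 78) (nat_lit 0) (nat_lit 0) (XT.lf (nat_lit 0) (nat_lit 2980146104) (nat_lit 76) (nat_lit 439985721) (nat_lit 152) (nat_lit 11435376281) (nat_lit 5) (nat_lit 5) (nat_lit 6) (nat_lit 5) (nat_lit 7) (nat_lit 4) (nat_lit 215) (nat_lit 196) (nat_lit 189)) (XT.lf (nat_lit 0) (nat_lit 6783026786) (nat_lit 152) (nat_lit 7031050918) (nat_lit 0) (nat_lit 2681502250) (nat_lit 5) (nat_lit 5) (nat_lit 7) (nat_lit 4) (nat_lit 5) (nat_lit 4) (nat_lit 216) (nat_lit 196) (nat_lit 188))) (XT.nd (nat_lit 78) (nat_lit 76) (nat_lit 0) (XT.lf (nat_lit 0) (nat_lit 10467545071) (nat_lit 152) (nat_lit 1836615862) (nat_lit 0) (nat_lit 6106197552) (nat_lit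 5) (nat_lit 5) (nat_lit 7) (nat_lit 4) (nat_lit 5) (nat_lit 4) (nat_lit 217) (nat_lit 196) (nat_lit 187)) (XT.lf (nat_lit 0) (nat_lit 4201871985) (nat_lit 76) (nat_lit 10499674784) (nat_lit 76) (nat_lit 5912394237) (nat_lit 4) (nat_lit 4) (nat_lit 5) (nat_lit 5) (nat_lit 5) (nat_lit 4) (nat_lit 218) (nat_lit 196) (nat_lit 186)))) (XT.nd (nat_lit 156) (nat_lit 152) (nat_lit 0) (XT.nd (nat_lit 78) (nat_lit 0) (nat_lit 0) (XT.lf (nat_lit 0) (nat_lit 11057405611) (nat_lit 76) (nat_lit 8442953183) (nat_lit 76) (nat_lit 3659209133) (nat_lit 4) (nat_lit 4) (nat_lit 5) (nat_lit 5) (nat_lit 5) (nat_lit 4) (nat_lit 219) (nat_lit 196) (nat_lit 185)) (XT.lf (nat_lit 0) (nat_lit 18684627562) (nat_lit 76) (nat_lit 6189760844) (nat_lit 76) (nat_lit 1235178966) (nat_lit 4) (nat_lit 4) (nat_lit 5) (nat_lit 5) (nat_lit 5) (nat_lit 4) (nat_lit 220) (nat_lit 196) (nat_lit 184))) (XT.nd (nat_lit 78) (nat_lit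 76) (nat_lit 0) (XT.lf (nat_lit 0) (nat_lit 1281851127) (nat_lit 152) (nat_lit 2347156589) (nat_lit 76) (nat_lit 25883909111) (nat_lit 3) (nat_lit 5) (nat_lit 5) (nat_lit 5) (nat_lit 4) (nat_lit 4) (nat_lit 221) (nat_lit 196) (nat_lit 183)) (XT.lf (nat_lit 0) (nat_lit 3543042396) (nat_lit 76) (nat_lit 538518929) (nat_lit 152) (nat_lit 29332197911) (nat_lit 2) (nat_lit 5) (nat_lit 3) (nat_lit 5) (nat_lit 4) (nat_lit 4) (nat_lit 222) (nat_lit 196) (nat_lit 182))))))) (XT.nd (nat_lit 1170) (nat_lit 0) (nat_lit 0) (XT.nd (nat_lit 546) (nat_lit 76) (nat_lit 0) (XT.nd (nat_lit 234) (nat_lit 0) (nat_lit 0) (XT.nd (nat_lit 78) (nat_lit 0) (nat_lit 0) (XT.lf (nat_lit 0) (nat_lit 7442729681) (nat_lit 152) (nat_lit 27641038186) (nat_lit 0) (nat_lit 2795213942) (nat_lit 2) (nat_lit 5) (nat_lit 4) (nat_lit 4) (nat_lit 2) (nat_lit 4) (nat_lit 223) (nat_lit 196) (nat_lit 181)) (XT.nd (nat_lit 78)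 (nat_lit 0) (nat_lit 0) (XT.lf (nat_lit 0) (nat_lit 11236412394) (nat_lit 152) (nat_lit 25284781006) (nat_lit 0) (nat_lit 6503960061) (nat_lit 2) (nat_lit 5) (nat_lit 4) (nat_lit 4) (nat_lit 2) (nat_lit 4) (nat_lit 224) (nat_lit 196) (nat_lit 180)) (XT.lf (nat_lit 0) (nat_lit 15514534773) (nat_lit 152) (nat_lit 22733545696) (nat_lit 0) (nat_lit 10708224532) (nat_lit 2) (nat_lit 5) (nat_lit 4) (nat_lit 4) (nat_lit 2) (nat_lit 4) (nat_lit 225) (nat_lit 196) (nat_lit 179)))) (XT.nd (nat_lit 156) (nat_lit 0) (nat_lit 0) (XT.nd (nat_lit 78) (nat_lit 0) (nat_lit 0) (XT.lf (nat_lit 0) (nat_lit 20360799211) (nat_lit 152) (nat_lit 19937416782) (nat_lit 0) (nat_lit 15490264703) (nat_lit 2) (nat_lit 5) (nat_lit 4) (nat_lit 4) (nat_lit 2) (nat_lit 4) (nat_lit 226) (nat_lit 196) (nat_lit 178)) (XT.lf (nat_lit 0) (nat_lit 25870023926) (nat_lit 152) (nat_lit 16841687396) (nat_lit 0) (nat_lit 20943642228)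 (nat_lit 2) (nat_lit 5) (nat_lit 4) (nat_lit 4) (nat_lit 2) (nat_lit 4) (nat_lit 227) (nat_lit 196) (nat_lit 177))) (XT.nd (nat_lit 78) (nat_lit 0) (nat_lit 0) (XT.lf (nat_lit 0) (nat_lit 32149998097) (nat_lit 152) (nat_lit 13385788918) (nat_lit 0) (nat_lit 27175053626) (nat_lit 2) (nat_lit 5) (nat_lit 4) (nat_lit 4) (nat_lit 2) (nat_lit 4) (nat_lit 228) (nat_lit 196) (nat_lit 176)) (XT.lf (nat_lit 0) (nat_lit 39323590783) (nat_lit 152) (nat_lit 9502105943) (nat_lit 0) (nat_lit 34306417814) (nat_lit 2) (nat_lit 5) (nat_lit 4) (nat_lit 4) (nat_lit 2) (nat_lit 4) (nat_lit 229) (nat_lit 196) (nat_lit 175))))) (XT.nd (nat_lit 312) (nat_lit 0) (nat_lit 0) (XT.nd (nat_lit 156) (nat_lit 76) (nat_lit 0) (XT.nd (nat_lit 78) (nat_lit 0) (nat_lit 0) (XT.lf (nat_lit 0) (nat_lit 47531154885) (nat_lit 152) (nat_lit 5114653370) (nat_lit 0) (nat_lit 42477261483) (nat_lit 2) (nat_lit 5) (nat_lit 4)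 (nat_lit 4) (nat_lit 2) (nat_lit 4) (nat_lit 230) (nat_lit 196) (nat_lit 174)) (XT.lf (nat_lit 0) (nat_lit 56933273180) (nat_lit 152) (nat_lit 137589735) (nat_lit 0) (nat_lit 51847448965) (nat_lit 2) (nat_lit 5) (nat_lit 4) (nat_lit 4) (nat_lit 2) (nat_lit 4) (nat_lit 231) (nat_lit 196) (nat_lit 173))) (XT.nd (nat_lit 78) (nat_lit 0) (nat_lit 0) (XT.lf (nat_lit 0) (nat_lit 6066548381) (nat_lit 76) (nat_lit 61898554605) (nat_lit 76) (nat_lit 56784964467) (nat_lit 1) (nat_lit 4) (nat_lit 2) (nat_lit 5) (nat_lit 2) (nat_lit 4) (nat_lit 232) (nat_lit 196) (nat_lit 172)) (XT.lf (nat_lit 0) (nat_lit 13159907053) (nat_lit 76) (nat_lit 67468977754) (nat_lit 76) (nat_lit 62331243336) (nat_lit 1) (nat_lit 4) (nat_lit 2) (nat_lit 5) (nat_lit 2) (nat_lit 4) (nat_lit 233) (nat_lit 196) (nat_lit 171)))) (XT.nd (nat_lit 156) (nat_lit 0) (nat_lit 0) (XT.nd (nat_lit 78) (nat_lit 0) (nat_lit 0) (XT.lf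 (nat_lit 0) (nat_lit 21267823115) (nat_lit 76) (nat_lit 73898311094) (nat_lit 76) (nat_lit 68739581648) (nat_lit 1) (nat_lit 4) (nat_lit 2) (nat_lit 5) (nat_lit 2) (nat_lit 4) (nat_lit 234) (nat_lit 196) (nat_lit 170)) (XT.lf (nat_lit 0) (nat_lit 30548929709) (nat_lit 76) (nat_lit 81312345928) (nat_lit 76) (nat_lit 76135359937) (nat_lit 1) (nat_lit 4) (nat_lit 2) (nat_lit 5) (nat_lit 2) (nat_lit 4) (nat_lit 235) (nat_lit 196) (nat_lit 169))) (XT.nd (nat_lit 78) (nat_lit 0) (nat_lit 0) (XT.lf (nat_lit 0) (nat_lit 41184813701) (nat_lit 76) (nat_lit 89856139460) (nat_lit 76) (nat_lit 84663278213) (nat_lit 1) (nat_lit 4) (nat_lit 2) (nat_lit 5) (nat_lit 2) (nat_lit 4) (nat_lit 236) (nat_lit 196) (nat_lit 168)) (XT.lf (nat_lit 0) (nat_lit 53383568475) (nat_lit 76) (nat_lit 99696852868) (nat_lit 76) (nat_lit 94490187049) (nat_lit 1) (nat_lit 4) (nat_lit 2) (nat_lit 5) (nat_lit 2) (nat_lit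 4) (nat_lit 237) (nat_lit 196) (nat_lit 167)))))) (XT.nd (nat_lit 624) (nat_lit 0) (nat_lit 0) (XT.nd (nat_lit 312) (nat_lit 0) (nat_lit 0) (XT.nd (nat_lit 156) (nat_lit 0) (nat_lit 0) (XT.nd (nat_lit 78) (nat_lit 0) (nat_lit 0) (XT.lf (nat_lit 0) (nat_lit 67383865320) (nat_lit 76) (nat_lit 111027021849) (nat_lit 76) (nat_lit 105808352055) (nat_lit 1) (nat_lit 4) (nat_lit 2) (nat_lit 5) (nat_lit 2) (nat_lit 4) (nat_lit 238) (nat_lit 196) (nat_lit 166)) (XT.lf (nat_lit 0) (nat_lit 83459623086) (nat_lit 76) (nat_lit 124068323621) (nat_lit 76) (nat_lit 118839215589) (nat_lit 1) (nat_lit 4) (nat_lit 2) (nat_lit 5) (nat_lit 2) (nat_lit 4) (nat_lit 239) (nat_lit 196) (nat_lit 165))) (XT.nd (nat_lit 78) (nat_lit 0) (nat_lit 0) (XT.lf (nat_lit 0) (nat_lit 101925367470) (nat_lit 76) (nat_lit 139075914090) (nat_lit 76) (nat_lit 133837729328) (nat_lit 1) (nat_lit 4) (nat_lit 2) (nat_lit 5) (nat_lit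 2) (nat_lit 4) (nat_lit 240) (nat_lit 196) (nat_lit 164)) (XT.lf (nat_lit 0) (nat_lit 123142384774) (nat_lit 76) (nat_lit 156343420025) (nat_lit 76) (nat_lit 151097342455) (nat_lit 1) (nat_lit 4) (nat_lit 2) (nat_lit 5) (nat_lit 2) (nat_lit 4) (nat_lit 241) (nat_lit 196) (nat_lit 163)))) (XT.nd (nat_lit 156) (nat_lit 0) (nat_lit 0) (XT.nd (nat_lit 78) (nat_lit 0) (nat_lit 0) (XT.lf (nat_lit 0) (nat_lit 147525790554) (nat_lit 76) (nat_lit 176208683934) (nat_lit 76) (nat_lit 170955743053) (nat_lit 1) (nat_lit 4) (nat_lit 2) (nat_lit 5) (nat_lit 2) (nat_lit 4) (nat_lit 242) (nat_lit 196) (nat_lit 162)) (XT.lf (nat_lit 0) (nat_lit 175552651445) (nat_lit 76) (nat_lit 199060374024) (nat_lit 76) (nat_lit 193801465045) (nat_lit 1) (nat_lit 4) (nat_lit 2) (nat_lit 5) (nat_lit 2) (nat_lit 4) (nat_lit 243) (nat_lit 196) (nat_lit 161))) (XT.nd (nat_lit 78) (nat_lit 0) (nat_lit 0) (XT.lf (nat_lit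 0) (nat_lit 207771319074) (nat_lit 76) (nat_lit 225345588579) (nat_lit 76) (nat_lit 220081489950) (nat_lit 1) (nat_lit 4) (nat_lit 2) (nat_lit 5) (nat_lit 2) (nat_lit 4) (nat_lit 244) (nat_lit 196) (nat_lit 160)) (XT.lf (nat_lit 0) (nat_lit 244812158676) (nat_lit 76) (nat_lit 255578603535) (nat_lit 76) (nat_lit 250309992168) (nat_lit 1) (nat_lit 4) (nat_lit 2) (nat_lit 5) (nat_lit 2) (nat_lit 4) (nat_lit 245) (nat_lit 196) (nat_lit 159))))) (XT.nd (nat_lit 312) (nat_lit 0) (nat_lit 0) (XT.nd (nat_lit 156) (nat_lit 0) (nat_lit 0) (XT.nd (nat_lit 78) (nat_lit 0) (nat_lit 0) (XT.lf (nat_lit 0) (nat_lit 287399882331) (nat_lit 76) (nat_lit 290350934404) (nat_lit 76) (nat_lit 285078398916) (nat_lit 1) (nat_lit 4) (nat_lit 2) (nat_lit 5) (nat_lit 2) (nat_lit 4) (nat_lit 246) (nat_lit 196) (nat_lit 158)) (XT.lf (nat_lit 0) (nat_lit 336367728111) (nat_lit 76) (nat_lit 330342909397) (nat_lit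 76) (nat_lit 325066961631) (nat_lit 1) (nat_lit 4) (nat_lit 2) (nat_lit 5) (nat_lit 2) (nat_lit 4) (nat_lit 247) (nat_lit 196) (nat_lit 157))) (XT.nd (nat_lit 78) (nat_lit 0) (nat_lit 0) (XT.lf (nat_lit 0) (nat_lit 392673762562) (nat_lit 76) (nat_lit 376336980200) (nat_lit 76) (nat_lit 371058065234) (nat_lit 1) (nat_lit 4) (nat_lit 2) (nat_lit 5) (nat_lit 2) (nat_lit 4) (nat_lit 248) (nat_lit 196) (nat_lit 156)) (XT.lf (nat_lit 0) (nat_lit 457419625490) (nat_lit 76) (nat_lit 429233030806) (nat_lit 76) (nat_lit 423951535667) (nat_lit 1) (nat_lit 4) (nat_lit 2) (nat_lit 5) (nat_lit 2) (nat_lit 4) (nat_lit 249) (nat_lit 196) (nat_lit 155)))) (XT.nd (nat_lit 156) (nat_lit 0) (nat_lit 0) (XT.nd (nat_lit 78) (nat_lit 0) (nat_lit 0) (XT.lf (nat_lit 0) (nat_lit 531872083777) (nat_lit 76) (nat_lit 490065983944) (nat_lit 76) (nat_lit 484782245176) (nat_lit 1) (nat_lit 4) (nat_lit 2) (nat_lit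 5) (nat_lit 2) (nat_lit 4) (nat_lit 250) (nat_lit 196) (nat_lit 154)) (XT.lf (nat_lit 0) (nat_lit 617487815957) (nat_lit 76) (nat_lit 560026049567) (nat_lit 76) (nat_lit 554740359818) (nat_lit 1) (nat_lit 4) (nat_lit 2) (nat_lit 5) (nat_lit 2) (nat_lit 4) (nat_lit 251) (nat_lit 196) (nat_lit 153))) (XT.nd (nat_lit 78) (nat_lit 0) (nat_lit 0) (XT.lf (nat_lit 0) (nat_lit 715941912440) (nat_lit 76) (nat_lit 640482011568) (nat_lit 76) (nat_lit 635194625314) (nat_lit 1) (nat_lit 4) (nat_lit 2) (nat_lit 5) (nat_lit 2) (nat_lit 4) (nat_lit 252) (nat_lit 196) (nat_lit 152)) (XT.lf (nat_lit 0) (nat_lit 829160649028) (nat_lit 76) (nat_lit 733008008335) (nat_lit 76) (nat_lit 727719146858) (nat_lit 1) (nat_lit 4) (nat_lit 2) (nat_lit 5) (nat_lit 2) (nat_lit 4) (nat_lit 253) (nat_lit 196) (nat_lit 151))))))))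
noncomputable def xc21 : XT := (XT.nd (nat_lit 27924) (nat_lit 0) (nat_lit 0) (XT.nd (nat_lit 1170) (nat_lit 0) (nat_lit 0) (XT.nd (nat_lit 546) (nat_lit 0) (nat_lit 0) (XT.nd (nat_lit 234) (nat_lit 0) (nat_lit 0) (XT.nd (nat_lit 78) (nat_lit 0) (nat_lit 0) (XT.lf (nat_lit 0) (nat_lit 959359174915) (nat_lit 76) (nat_lit 839414331106) (nat_lit 76) (nat_lit 834124186828) (nat_lit 1) (nat_lit 4) (nat_lit 2) (nat_lit 5) (nat_lit 2) (nat_lit 4) (nat_lit 254) (nat_lit 196) (nat_lit 150)) (XT.nd (nat_lit 78) (nat_lit 0) (nat_lit 0) (XT.lf (nat_lit 0) (nat_lit 1109084852563) (nat_lit 76) (nat_lit 961782842721) (nat_lit 76) (nat_lit 956491582962) (nat_lit 1) (nat_lit 4) (nat_lit 2) (nat_lit 5) (nat_lit 2) (nat_lit 4) (nat_lit 255) (nat_lit 196) (nat_lit 149)) (XT.lf (nat_lit 0) (nat_lit 1281267097405) (nat_lit 76) (nat_lit 1102507709710) (nat_lit 76) (nat_lit 1097215479969) (nat_lit 1) (nat_lit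 4) (nat_lit 2) (nat_lit 5) (nat_lit 2) (nat_lit 4) (nat_lit 256) (nat_lit 196) (nat_lit 148)))) (XT.nd (nat_lit 156) (nat_lit 0) (nat_lit 0) (XT.nd (nat_lit 78) (nat_lit 0) (nat_lit 0) (XT.lf (nat_lit 0) (nat_lit 1479274692493) (nat_lit 76) (nat_lit 1264342244688) (nat_lit 76) (nat_lit 1259049171484) (nat_lit 1) (nat_lit 4) (nat_lit 2) (nat_lit 5) (nat_lit 2) (nat_lit 4) (nat_lit 257) (nat_lit 196) (nat_lit 147)) (XT.lf (nat_lit 0) (nat_lit 1706981699468) (nat_lit 76) (nat_lit 1450452775514) (nat_lit 76) (nat_lit 1445158968863) (nat_lit 1) (nat_lit 4) (nat_lit 2) (nat_lit 5) (nat_lit 2) (nat_lit 4) (nat_lit 258) (nat_lit 196) (nat_lit 146))) (XT.nd (nat_lit 78) (nat_lit 0) (nat_lit 0) (XT.lf (nat_lit 0) (nat_lit 1968843255425) (nat_lit 76) (nat_lit 1664480595182) (nat_lit 76) (nat_lit 1659186150752) (nat_lit 1) (nat_lit 4) (nat_lit 2) (nat_lit 5) (nat_lit 2) (nat_lit 4) (nat_lit 259)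 (nat_lit 196) (nat_lit 145)) (XT.lf (nat_lit 0) (nat_lit 2269982738632) (nat_lit 76) (nat_lit 1910613204511) (nat_lit 76) (nat_lit 1905318205491) (nat_lit 1) (nat_lit 4) (nat_lit 2) (nat_lit 5) (nat_lit 2) (nat_lit 4) (nat_lit 260) (nat_lit 196) (nat_lit 144))))) (XT.nd (nat_lit 312) (nat_lit 0) (nat_lit 0) (XT.nd (nat_lit 156) (nat_lit 0) (nat_lit 0) (XT.nd (nat_lit 78) (nat_lit 0) (nat_lit 0) (XT.lf (nat_lit 0) (nat_lit 2616292008543) (nat_lit 76) (nat_lit 2193666241511) (nat_lit 76) (nat_lit 2188370760237) (nat_lit 1) (nat_lit 4) (nat_lit 2) (nat_lit 5) (nat_lit 2) (nat_lit 4) (nat_lit 261) (nat_lit 196) (nat_lit 143)) (XT.lf (nat_lit 0) (nat_lit 3014546681309) (nat_lit 76) (nat_lit 2519177700383) (nat_lit 76) (nat_lit 2513881799759) (nat_lit 1) (nat_lit 4) (nat_lit 2) (nat_lit 5) (nat_lit 2) (nat_lit 4) (nat_lit 262) (nat_lit 196) (nat_lit 142))) (XT.nd (nat_lit 78) (nat_lit 0)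 (nat_lit 0) (XT.lf (nat_lit 0) (nat_lit 3472538696178) (nat_lit 76) (nat_lit 2893516283584) (nat_lit 76) (nat_lit 2888220018307) (nat_lit 1) (nat_lit 4) (nat_lit 2) (nat_lit 5) (nat_lit 2) (nat_lit 4) (nat_lit 263) (nat_lit 196) (nat_lit 141)) (XT.lf (nat_lit 0) (nat_lit 3999228766486) (nat_lit 76) (nat_lit 3324006006871) (nat_lit 76) (nat_lit 3318709424506) (nat_lit 1) (nat_lit 4) (nat_lit 2) (nat_lit 5) (nat_lit 2) (nat_lit 4) (nat_lit 264) (nat_lit 196) (nat_lit 140)))) (XT.nd (nat_lit 156) (nat_lit 0) (nat_lit 0) (XT.nd (nat_lit 78) (nat_lit 0) (nat_lit 0) (XT.lf (nat_lit 0) (nat_lit 4604921697957) (nat_lit 76) (nat_lit 3819069495266) (nat_lit 76) (nat_lit 3813772637171) (nat_lit 1) (nat_lit 4) (nat_lit 2) (nat_lit 5) (nat_lit 2) (nat_lit 4) (nat_lit 265) (nat_lit 196) (nat_lit 139)) (XT.lf (nat_lit 0) (nat_lit 5301468004465) (nat_lit 76) (nat_lit 4388392773542) (nat_lit 76) (nat_lit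 4383095675682) (nat_lit 1) (nat_lit 4) (nat_lit 2) (nat_lit 5) (nat_lit 2) (nat_lit 4) (nat_lit 266) (nat_lit 196) (nat_lit 138))) (XT.nd (nat_lit 78) (nat_lit 0) (nat_lit 0) (XT.lf (nat_lit 0) (nat_lit 6102495765923) (nat_lit 76) (nat_lit 5043114775404) (nat_lit 76) (nat_lit 5037817469053) (nat_lit 1) (nat_lit 4) (nat_lit 2) (nat_lit 5) (nat_lit 2) (nat_lit 4) (nat_lit 267) (nat_lit 196) (nat_lit 137)) (XT.lf (nat_lit 0) (nat_lit 7023677264618) (nat_lit 76) (nat_lit 5796045279149) (nat_lit 76) (nat_lit 5790747791501) (nat_lit 1) (nat_lit 4) (nat_lit 2) (nat_lit 5) (nat_lit 2) (nat_lit 4) (nat_lit 268) (nat_lit 196) (nat_lit 136)))))) (XT.nd (nat_lit 858) (nat_lit 0) (nat_lit 0) (XT.nd (nat_lit 546) (nat_lit 0) (nat_lit 0) (XT.nd (nat_lit 156) (nat_lit 0) (nat_lit 0) (XT.nd (nat_lit 78) (nat_lit 0) (nat_lit 0) (XT.lf (nat_lit 0) (nat_lit 8083035616830) (nat_lit 76) (nat_lit 6661915533763)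 (nat_lit 76) (nat_lit 6656617888466) (nat_lit 1) (nat_lit 4) (nat_lit 2) (nat_lit 5) (nat_lit 2) (nat_lit 4) (nat_lit 269) (nat_lit 196) (nat_lit 135)) (XT.lf (nat_lit 0) (nat_lit 9301297399016) (nat_lit 76) (nat_lit 7657666479012) (nat_lit 76) (nat_lit 7652368696629) (nat_lit 1) (nat_lit 4) (nat_lit 2) (nat_lit 5) (nat_lit 2) (nat_lit 4) (nat_lit 270) (nat_lit 196) (nat_lit 134))) (XT.nd (nat_lit 78) (nat_lit 0) (nat_lit 0) (XT.lf (nat_lit 0) (nat_lit 10702298167782) (nat_lit 76) (nat_lit 8802780198606) (nat_lit 76) (nat_lit 8797482297017) (nat_lit 1) (nat_lit 4) (nat_lit 2) (nat_lit 5) (nat_lit 2) (nat_lit 4) (nat_lit 271) (nat_lit 196) (nat_lit 133)) (XT.lf (nat_lit 0) (nat_lit 12313448807736) (nat_lit 76) (nat_lit 10119661091406) (nat_lit 76) (nat_lit 10114363086160) (nat_lit 1) (nat_lit 4) (nat_lit 2) (nat_lit 5) (nat_lit 2) (nat_lit 4) (nat_lit 272) (nat_lit 196) (nat_lit 132))))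 (XT.nd (nat_lit 156) (nat_lit 0) (nat_lit 0) (XT.nd (nat_lit 78) (nat_lit 0) (nat_lit 0) (XT.lf (nat_lit 0) (nat_lit 21565287847812) (nat_lit 76) (nat_lit 17681694270721) (nat_lit 76) (nat_lit 17676395969537) (nat_lit 1) (nat_lit 4) (nat_lit 2) (nat_lit 5) (nat_lit 2) (nat_lit 4) (nat_lit 276) (nat_lit 196) (nat_lit 128)) (XT.lf (nat_lit 0) (nat_lit 24805886121417) (nat_lit 76) (nat_lit 20330412660735) (nat_lit 76) (nat_lit 20325114308014) (nat_lit 1) (nat_lit 4) (nat_lit 2) (nat_lit 5) (nat_lit 2) (nat_lit 4) (nat_lit 277) (nat_lit 196) (nat_lit 127))) (XT.nd (nat_lit 78) (nat_lit 0) (nat_lit 0) (XT.lf (nat_lit 0) (nat_lit 28532574030519) (nat_lit 76) (nat_lit 23376438859083) (nat_lit 76) (nat_lit 23371140461550) (nat_lit 1) (nat_lit 4) (nat_lit 2) (nat_lit 5) (nat_lit 2) (nat_lit 4) (nat_lit 278) (nat_lit 196) (nat_lit 126)) (XT.lf (nat_lit 0) (nat_lit 32818265034210) (nat_lit 76)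 (nat_lit 26879369030518) (nat_lit 76) (nat_lit 26874070594016) (nat_lit 1) (nat_lit 4) (nat_lit 2) (nat_lit 5) (nat_lit 2) (nat_lit 4) (nat_lit 279) (nat_lit 196) (nat_lit 125))))) (XT.nd (nat_lit 25584) (nat_lit 0) (nat_lit 608) (XT.nd (nat_lit 156) (nat_lit 0) (nat_lit 0) (XT.nd (nat_lit 78) (nat_lit 0) (nat_lit 0) (XT.lf (nat_lit 0) (nat_lit 37746809608649) (nat_lit 76) (nat_lit 30907738765349) (nat_lit 76) (nat_lit 30902440294961) (nat_lit 1) (nat_lit 4) (nat_lit 2) (nat_lit 5) (nat_lit 2) (nat_lit 4) (nat_lit 280) (nat_lit 196) (nat_lit 124)) (XT.lf (nat_lit 0) (nat_lit 43414635799858) (nat_lit 76) (nat_lit 35540363993171) (nat_lit 76) (nat_lit 35535065493317) (nat_lit 1) (nat_lit 4) (nat_lit 2) (nat_lit 5) (nat_lit 2) (nat_lit 4) (nat_lit 281) (nat_lit 196) (nat_lit 123))) (XT.nd (nat_lit 25350) (nat_lit 0) (nat_lit 1064) (XT.lf (nat_lit 0) (nat_lit 49932635859403) (nat_lit 76)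 (nat_lit 40867883033658) (nat_lit 76) (nat_lit 40862584508182) (nat_lit 1) (nat_lit 4) (nat_lit 2) (nat_lit 5) (nat_lit 2) (nat_lit 4) (nat_lit 282) (nat_lit 196) (nat_lit 122)) (XT.lf (nat_lit 0) (nat_lit 984675114) (nat_lit 228) (nat_lit 1360927360) (nat_lit 228) (nat_lit 1360927360) (nat_lit 15) (nat_lit 4) (nat_lit 18) (nat_lit 5) (nat_lit 18) (nat_lit 4) (nat_lit 206) (nat_lit 197) (nat_lit 197)))) (XT.nd (nat_lit 156) (nat_lit 228) (nat_lit 0) (XT.nd (nat_lit 78) (nat_lit 152) (nat_lit 0) (XT.lf (nat_lit 0) (nat_lit 246280424) (nat_lit 304) (nat_lit 860615027) (nat_lit 76) (nat_lit 6703722476) (nat_lit 14) (nat_lit 5) (nat_lit 18) (nat_lit 5) (nat_lit 15) (nat_lit 4) (nat_lit 207) (nat_lit 197) (nat_lit 196)) (XT.lf (nat_lit 0) (nat_lit 3211685748) (nat_lit 228) (nat_lit 4115471427) (nat_lit 0) (nat_lit 951758663) (nat_lit 12) (nat_lit 5) (nat_lit 15) (nat_lit 4) (nat_lit 12)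 (nat_lit 4) (nat_lit 208) (nat_lit 197) (nat_lit 195))) (XT.nd (nat_lit 78) (nat_lit 76) (nat_lit 0) (XT.lf (nat_lit 0) (nat_lit 763344771) (nat_lit 152) (nat_lit 5633177745) (nat_lit 152) (nat_lit 2459225549) (nat_lit 10) (nat_lit 4) (nat_lit 12) (nat_lit 5) (nat_lit 12) (nat_lit 4) (nat_lit 209) (nat_lit 197) (nat_lit 194)) (XT.lf (nat_lit 0) (nat_lit 368921257) (nat_lit 228) (nat_lit 3175575937) (nat_lit 76) (nat_lit 5993091459) (nat_lit 9) (nat_lit 5) (nat_lit 12) (nat_lit 5) (nat_lit 10) (nat_lit 4) (nat_lit 210) (nat_lit 197) (nat_lit 193))))))) (XT.nd (nat_lit 1170) (nat_lit 76) (nat_lit 0) (XT.nd (nat_lit 546) (nat_lit 228) (nat_lit 0) (XT.nd (nat_lit 234) (nat_lit 152) (nat_lit 0) (XT.nd (nat_lit 78) (nat_lit 76) (nat_lit 0) (XT.lf (nat_lit 0) (nat_lit 2122219341) (nat_lit 76) (nat_lit 1032250556) (nat_lit 152) (nat_lit 7184873348) (nat_lit 8) (nat_lit 5) (nat_lit 9) (nat_lit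 5) (nat_lit 10) (nat_lit 4) (nat_lit 211) (nat_lit 197) (nat_lit 192)) (XT.nd (nat_lit 78) (nat_lit 76) (nat_lit 0) (XT.lf (nat_lit 0) (nat_lit 6322975036) (nat_lit 152) (nat_lit 3197881236) (nat_lit 0) (nat_lit 1748299136) (nat_lit 8) (nat_lit 5) (nat_lit 10) (nat_lit 4) (nat_lit 8) (nat_lit 4) (nat_lit 212) (nat_lit 197) (nat_lit 191)) (XT.lf (nat_lit 0) (nat_lit 2344033473) (nat_lit 76) (nat_lit 7520535312) (nat_lit 76) (nat_lit 2491427391) (nat_lit 7) (nat_lit 4) (nat_lit 8) (nat_lit 5) (nat_lit 8) (nat_lit 4) (nat_lit 213) (nat_lit 197) (nat_lit 190)))) (XT.nd (nat_lit 156) (nat_lit 0) (nat_lit 0) (XT.nd (nat_lit 78) (nat_lit 76) (nat_lit 0) (XT.lf (nat_lit 0) (nat_lit 232952120) (nat_lit 152) (nat_lit 4923419140) (nat_lit 76) (nat_lit 8459478360) (nat_lit 6) (nat_lit 5) (nat_lit 8) (nat_lit 5) (nat_lit 7) (nat_lit 4) (nat_lit 214) (nat_lit 197) (nat_lit 189)) (XT.lf (nat_lit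 0) (nat_lit 509398841) (nat_lit 76) (nat_lit 2410266709) (nat_lit 152) (nat_lit 12157372276) (nat_lit 5) (nat_lit 5) (nat_lit 6) (nat_lit 5) (nat_lit 7) (nat_lit 4) (nat_lit 215) (nat_lit 197) (nat_lit 188))) (XT.nd (nat_lit 78) (nat_lit 0) (nat_lit 0) (XT.lf (nat_lit 0) (nat_lit 6106202065) (nat_lit 152) (nat_lit 9807124623) (nat_lit 0) (nat_lit 830829436) (nat_lit 5) (nat_lit 5) (nat_lit 7) (nat_lit 4) (nat_lit 5) (nat_lit 4) (nat_lit 216) (nat_lit 197) (nat_lit 187)) (XT.lf (nat_lit 0) (nat_lit 9708308775) (nat_lit 152) (nat_lit 4756499877) (nat_lit 0) (nat_lit 4207003117) (nat_lit 5) (nat_lit 5) (nat_lit 7) (nat_lit 4) (nat_lit 5) (nat_lit 4) (nat_lit 217) (nat_lit 197) (nat_lit 186))))) (XT.nd (nat_lit 312) (nat_lit 152) (nat_lit 0) (XT.nd (nat_lit 156) (nat_lit 0) (nat_lit 0) (XT.nd (nat_lit 78) (nat_lit 0) (nat_lit 0) (XT.lf (nat_lit 0) (nat_lit 859362190) (nat_lit 76) (nat_lit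 12872879841) (nat_lit 76) (nat_lit 7175110680) (nat_lit 4) (nat_lit 4) (nat_lit 5) (nat_lit 5) (nat_lit 5) (nat_lit 4) (nat_lit 218) (nat_lit 197) (nat_lit 185)) (XT.lf (nat_lit 0) (nat_lit 7595527575) (nat_lit 76) (nat_lit 10868268706) (nat_lit 76) (nat_lit 4999661717) (nat_lit 4) (nat_lit 4) (nat_lit 5) (nat_lit 5) (nat_lit 5) (nat_lit 4) (nat_lit 219) (nat_lit 197) (nat_lit 184))) (XT.nd (nat_lit 78) (nat_lit 0) (nat_lit 0) (XT.lf (nat_lit 0) (nat_lit 15118951055) (nat_lit 76) (nat_lit 8660389816) (nat_lit 76) (nat_lit 2643228193) (nat_lit 4) (nat_lit 4) (nat_lit 5) (nat_lit 5) (nat_lit 5) (nat_lit 4) (nat_lit 220) (nat_lit 197) (nat_lit 183)) (XT.lf (nat_lit 0) (nat_lit 23576830045) (nat_lit 76) (nat_lit 6206045541) (nat_lit 76) (nat_lit 59705976) (nat_lit 4) (nat_lit 4) (nat_lit 5) (nat_lit 5) (nat_lit 5) (nat_lit 4) (nat_lit 221) (nat_lit 197) (nat_lit 182)))) (XT.nd (nat_lit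 156) (nat_lit 0) (nat_lit 0) (XT.nd (nat_lit 78) (nat_lit 76) (nat_lit 0) (XT.lf (nat_lit 0) (nat_lit 2552047469) (nat_lit 152) (nat_lit 771766150) (nat_lit 76) (nat_lit 30449194837) (nat_lit 3) (nat_lit 5) (nat_lit 5) (nat_lit 5) (nat_lit 4) (nat_lit 4) (nat_lit 222) (nat_lit 197) (nat_lit 181)) (XT.lf (nat_lit 0) (nat_lit 5715873964) (nat_lit 152) (nat_lit 32363534907) (nat_lit 0) (nat_lit 188617187) (nat_lit 2) (nat_lit 5) (nat_lit 4) (nat_lit 4) (nat_lit 2) (nat_lit 4) (nat_lit 223) (nat_lit 197) (nat_lit 180))) (XT.nd (nat_lit 78) (nat_lit 0) (nat_lit 0) (XT.lf (nat_lit 0) (nat_lit 9470201913) (nat_lit 152) (nat_lit 30080980261) (nat_lit 0) (nat_lit 3869087229) (nat_lit 2) (nat_lit 5) (nat_lit 4) (nat_lit 4) (nat_lit 2) (nat_lit 4) (nat_lit 224) (nat_lit 197) (nat_lit 179)) (XT.lf (nat_lit 0) (nat_lit 13714102759) (nat_lit 152) (nat_lit 27593834110) (nat_lit 0) (nat_lit 8048763806)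 (nat_lit 2) (nat_lit 5) (nat_lit 4) (nat_lit 4) (nat_lit 2) (nat_lit 4) (nat_lit 225) (nat_lit 197) (nat_lit 178)))))) (XT.nd (nat_lit 624) (nat_lit 0) (nat_lit 0) (XT.nd (nat_lit 312) (nat_lit 76) (nat_lit 0) (XT.nd (nat_lit 156) (nat_lit 0) (nat_lit 0) (XT.nd (nat_lit 78) (nat_lit 0) (nat_lit 0) (XT.lf (nat_lit 0) (nat_lit 18530609341) (nat_lit 152) (nat_lit 24853434901) (nat_lit 0) (nat_lit 12809423200) (nat_lit 2) (nat_lit 5) (nat_lit 4) (nat_lit 4) (nat_lit 2) (nat_lit 4) (nat_lit 226) (nat_lit 197) (nat_lit 177)) (XT.lf (nat_lit 0) (nat_lit 24013957660) (nat_lit 152) (nat_lit 21806166127) (nat_lit 0) (nat_lit 18244208745) (nat_lit 2) (nat_lit 5) (nat_lit 4) (nat_lit 4) (nat_lit 2) (nat_lit 4) (nat_lit 227) (nat_lit 197) (nat_lit 176))) (XT.nd (nat_lit 78) (nat_lit 0) (nat_lit 0) (XT.lf (nat_lit 0) (nat_lit 30271430617) (nat_lit 152) (nat_lit 18392407312) (nat_lit 0) (nat_lit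 24459453204) (nat_lit 2) (nat_lit 5) (nat_lit 4) (nat_lit 4) (nat_lit 2) (nat_lit 4) (nat_lit 228) (nat_lit 197) (nat_lit 175)) (XT.lf (nat_lit 0) (nat_lit 37425457030) (nat_lit 152) (nat_lit 14545367522) (nat_lit 0) (nat_lit 31576759184) (nat_lit 2) (nat_lit 5) (nat_lit 4) (nat_lit 4) (nat_lit 2) (nat_lit 4) (nat_lit 229) (nat_lit 197) (nat_lit 174)))) (XT.nd (nat_lit 156) (nat_lit 76) (nat_lit 0) (XT.nd (nat_lit 78) (nat_lit 0) (nat_lit 0) (XT.lf (nat_lit 0) (nat_lit 45616006982) (nat_lit 152) (nat_lit 10189778588) (nat_lit 0) (nat_lit 39735378324) (nat_lit 2) (nat_lit 5) (nat_lit 4) (nat_lit 4) (nat_lit 2) (nat_lit 4) (nat_lit 230) (nat_lit 197) (nat_lit 173)) (XT.lf (nat_lit 0) (nat_lit 55003330363) (nat_lit 152) (nat_lit 5240422465) (nat_lit 0) (nat_lit 49094935782) (nat_lit 2) (nat_lit 5) (nat_lit 4) (nat_lit 4) (nat_lit 2) (nat_lit 4) (nat_lit 231) (nat_lit 197) (nat_lit 172)))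 (XT.nd (nat_lit 78) (nat_lit 0) (nat_lit 0) (XT.lf (nat_lit 0) (nat_lit 438581644) (nat_lit 76) (nat_lit 65350671282) (nat_lit 76) (nat_lit 59418132419) (nat_lit 1) (nat_lit 4) (nat_lit 2) (nat_lit 5) (nat_lit 2) (nat_lit 4) (nat_lit 232) (nat_lit 197) (nat_lit 171)) (XT.lf (nat_lit 0) (nat_lit 7508941986) (nat_lit 76) (nat_lit 70931953369) (nat_lit 76) (nat_lit 64978419480) (nat_lit 1) (nat_lit 4) (nat_lit 2) (nat_lit 5) (nat_lit 2) (nat_lit 4) (nat_lit 233) (nat_lit 197) (nat_lit 170))))) (XT.nd (nat_lit 312) (nat_lit 0) (nat_lit 0) (XT.nd (nat_lit 156) (nat_lit 0) (nat_lit 0) (XT.nd (nat_lit 78) (nat_lit 0) (nat_lit 0) (XT.lf (nat_lit 0) (nat_lit 15596859501) (nat_lit 76) (nat_lit 77370729264) (nat_lit 76) (nat_lit 71398938830) (nat_lit 1) (nat_lit 4) (nat_lit 2) (nat_lit 5) (nat_lit 2) (nat_lit 4) (nat_lit 234) (nat_lit 197) (nat_lit 169)) (XT.lf (nat_lit 0) (nat_lit 24860576052)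 (nat_lit 76) (nat_lit 84792975016) (nat_lit 76) (nat_lit 78805309325) (nat_lit 1) (nat_lit 4) (nat_lit 2) (nat_lit 5) (nat_lit 2) (nat_lit 4) (nat_lit 235) (nat_lit 197) (nat_lit 168))) (XT.nd (nat_lit 78) (nat_lit 0) (nat_lit 0) (XT.lf (nat_lit 0) (nat_lit 35481338269) (nat_lit 76) (nat_lit 93343908476) (nat_lit 76) (nat_lit 87342438214) (nat_lit 1) (nat_lit 4) (nat_lit 2) (nat_lit 5) (nat_lit 2) (nat_lit 4) (nat_lit 236) (nat_lit 197) (nat_lit 167)) (XT.lf (nat_lit 0) (nat_lit 47666943673) (nat_lit 76) (nat_lit 103190830518) (nat_lit 76) (nat_lit 97177356280) (nat_lit 1) (nat_lit 4) (nat_lit 2) (nat_lit 5) (nat_lit 2) (nat_lit 4) (nat_lit 237) (nat_lit 197) (nat_lit 166)))) (XT.nd (nat_lit 156) (nat_lit 0) (nat_lit 0) (XT.nd (nat_lit 78) (nat_lit 0) (nat_lit 0) (XT.lf (nat_lit 0) (nat_lit 61655806283) (nat_lit 76) (nat_lit 114526398310) (nat_lit 76) (nat_lit 108502485834) (nat_lit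 1) (nat_lit 4) (nat_lit 2) (nat_lit 5) (nat_lit 2) (nat_lit 4) (nat_lit 238) (nat_lit 197) (nat_lit 165)) (XT.lf (nat_lit 0) (nat_lit 77721621236) (nat_lit 76) (nat_lit 127572394701) (nat_lit 76) (nat_lit 121539405496) (nat_lit 1) (nat_lit 4) (nat_lit 2) (nat_lit 5) (nat_lit 2) (nat_lit 4) (nat_lit 239) (nat_lit 197) (nat_lit 164))) (XT.nd (nat_lit 78) (nat_lit 0) (nat_lit 0) (XT.lf (nat_lit 0) (nat_lit 96178719695) (nat_lit 76) (nat_lit 142584067447) (nat_lit 76) (nat_lit 136543185433) (nat_lit 1) (nat_lit 4) (nat_lit 2) (nat_lit 5) (nat_lit 2) (nat_lit 4) (nat_lit 240) (nat_lit 197) (nat_lit 163)) (XT.lf (nat_lit 0) (nat_lit 117388218804) (nat_lit 76) (nat_lit 159855123189) (nat_lit 76) (nat_lit 153807377863) (nat_lit 1) (nat_lit 4) (nat_lit 2) (nat_lit 5) (nat_lit 2) (nat_lit 4) (nat_lit 241) (nat_lit 197) (nat_lit 162))))))))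
noncomputable def xc22 : XT := (XT.nd (nat_lit 2652) (nat_lit 0) (nat_lit 0) (XT.nd (nat_lit 1170) (nat_lit 0) (nat_lit 0) (XT.nd (nat_lit 546) (nat_lit 0) (nat_lit 0) (XT.nd (nat_lit 234) (nat_lit 0) (nat_lit 0) (XT.nd (nat_lit 78) (nat_lit 0) (nat_lit 0) (XT.lf (nat_lit 0) (nat_lit 141765087024) (nat_lit 76) (nat_lit 179723473886) (nat_lit 76) (nat_lit 173669760463) (nat_lit 1) (nat_lit 4) (nat_lit 2) (nat_lit 5) (nat_lit 2) (nat_lit 4) (nat_lit 242) (nat_lit 197) (nat_lit 161)) (XT.nd (nat_lit 78) (nat_lit 0) (nat_lit 0) (XT.lf (nat_lit 0) (nat_lit 169786263080) (nat_lit 76) (nat_lit 202577848139) (nat_lit 76) (nat_lit 196518945067) (nat_lit 1) (nat_lit 4) (nat_lit 2) (nat_lit 5) (nat_lit 2) (nat_lit 4) (nat_lit 243) (nat_lit 197) (nat_lit 160)) (XT.lf (nat_lit 0) (nat_lit 201999987373) (nat_lit 76) (nat_lit 228865396749) (nat_lit 76) (nat_lit 222801980938) (nat_lit 1) (nat_lit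 4) (nat_lit 2) (nat_lit 5) (nat_lit 2) (nat_lit 4) (nat_lit 244) (nat_lit 197) (nat_lit 159)))) (XT.nd (nat_lit 156) (nat_lit 0) (nat_lit 0) (XT.nd (nat_lit 78) (nat_lit 0) (nat_lit 0) (XT.lf (nat_lit 0) (nat_lit 239036528423) (nat_lit 76) (nat_lit 259100441319) (nat_lit 76) (nat_lit 253033101387) (nat_lit 1) (nat_lit 4) (nat_lit 2) (nat_lit 5) (nat_lit 2) (nat_lit 4) (nat_lit 245) (nat_lit 197) (nat_lit 158)) (XT.lf (nat_lit 0) (nat_lit 281620514206) (nat_lit 76) (nat_lit 293874537069) (nat_lit 76) (nat_lit 287803784858) (nat_lit 1) (nat_lit 4) (nat_lit 2) (nat_lit 5) (nat_lit 2) (nat_lit 4) (nat_lit 246) (nat_lit 197) (nat_lit 157))) (XT.nd (nat_lit 78) (nat_lit 0) (nat_lit 0) (XT.lf (nat_lit 0) (nat_lit 330585109662) (nat_lit 76) (nat_lit 333868046741) (nat_lit 76) (nat_lit 327794327332) (nat_lit 1) (nat_lit 4) (nat_lit 2) (nat_lit 5) (nat_lit 2) (nat_lit 4) (nat_lit 247) (nat_lit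 197) (nat_lit 156)) (XT.lf (nat_lit 0) (nat_lit 386888317746) (nat_lit 76) (nat_lit 379863452047) (nat_lit 76) (nat_lit 373787152465) (nat_lit 1) (nat_lit 4) (nat_lit 2) (nat_lit 5) (nat_lit 2) (nat_lit 4) (nat_lit 248) (nat_lit 197) (nat_lit 155))))) (XT.nd (nat_lit 312) (nat_lit 0) (nat_lit 0) (XT.nd (nat_lit 156) (nat_lit 0) (nat_lit 0) (XT.nd (nat_lit 78) (nat_lit 0) (nat_lit 0) (XT.lf (nat_lit 0) (nat_lit 451631722962) (nat_lit 76) (nat_lit 432760663091) (nat_lit 76) (nat_lit 426682119880) (nat_lit 1) (nat_lit 4) (nat_lit 2) (nat_lit 5) (nat_lit 2) (nat_lit 4) (nat_lit 249) (nat_lit 197) (nat_lit 154)) (XT.lf (nat_lit 0) (nat_lit 526082044110) (nat_lit 76) (nat_lit 493594625306) (nat_lit 76) (nat_lit 487514131113) (nat_lit 1) (nat_lit 4) (nat_lit 2) (nat_lit 5) (nat_lit 2) (nat_lit 4) (nat_lit 250) (nat_lit 197) (nat_lit 153))) (XT.nd (nat_lit 78) (nat_lit 0) (nat_lit 0) (XT.lf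 (nat_lit 0) (nat_lit 611695917906) (nat_lit 76) (nat_lit 563555568387) (nat_lit 76) (nat_lit 557473377689) (nat_lit 1) (nat_lit 4) (nat_lit 2) (nat_lit 5) (nat_lit 2) (nat_lit 4) (nat_lit 251) (nat_lit 197) (nat_lit 152)) (XT.lf (nat_lit 0) (nat_lit 710148398405) (nat_lit 76) (nat_lit 644012293395) (nat_lit 76) (nat_lit 637928627474) (nat_lit 1) (nat_lit 4) (nat_lit 2) (nat_lit 5) (nat_lit 2) (nat_lit 4) (nat_lit 252) (nat_lit 197) (nat_lit 151)))) (XT.nd (nat_lit 156) (nat_lit 0) (nat_lit 0) (XT.nd (nat_lit 78) (nat_lit 0) (nat_lit 0) (XT.lf (nat_lit 0) (nat_lit 823365729788) (nat_lit 76) (nat_lit 736538953645) (nat_lit 76) (nat_lit 730454004923) (nat_lit 1) (nat_lit 4) (nat_lit 2) (nat_lit 5) (nat_lit 2) (nat_lit 4) (nat_lit 253) (nat_lit 197) (nat_lit 150)) (XT.lf (nat_lit 0) (nat_lit 953563033758) (nat_lit 76) (nat_lit 842945853360) (nat_lit 76) (nat_lit 836859789157) (nat_lit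 1) (nat_lit 4) (nat_lit 2) (nat_lit 5) (nat_lit 2) (nat_lit 4) (nat_lit 254) (nat_lit 197) (nat_lit 149))) (XT.nd (nat_lit 78) (nat_lit 0) (nat_lit 0) (XT.lf (nat_lit 0) (nat_lit 1103287648870) (nat_lit 76) (nat_lit 965314866664) (nat_lit 76) (nat_lit 959227832479) (nat_lit 1) (nat_lit 4) (nat_lit 2) (nat_lit 5) (nat_lit 2) (nat_lit 4) (nat_lit 255) (nat_lit 197) (nat_lit 148)) (XT.lf (nat_lit 0) (nat_lit 1275468969767) (nat_lit 76) (nat_lit 1106040169904) (nat_lit 76) (nat_lit 1099952292256) (nat_lit 1) (nat_lit 4) (nat_lit 2) (nat_lit 5) (nat_lit 2) (nat_lit 4) (nat_lit 256) (nat_lit 197) (nat_lit 147)))))) (XT.nd (nat_lit 624) (nat_lit 0) (nat_lit 0) (XT.nd (nat_lit 312) (nat_lit 0) (nat_lit 0) (XT.nd (nat_lit 156) (nat_lit 0) (nat_lit 0) (XT.nd (nat_lit 78) (nat_lit 0) (nat_lit 0) (XT.lf (nat_lit 0) (nat_lit 1473475761425) (nat_lit 76) (nat_lit 1267875084232) (nat_lit 76) (nat_lit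 1261786473137) (nat_lit 1) (nat_lit 4) (nat_lit 2) (nat_lit 5) (nat_lit 2) (nat_lit 4) (nat_lit 257) (nat_lit 197) (nat_lit 146)) (XT.lf (nat_lit 0) (nat_lit 1701182069765) (nat_lit 76) (nat_lit 1453985944927) (nat_lit 76) (nat_lit 1447896696053) (nat_lit 1) (nat_lit 4) (nat_lit 2) (nat_lit 5) (nat_lit 2) (nat_lit 4) (nat_lit 258) (nat_lit 197) (nat_lit 145))) (XT.nd (nat_lit 78) (nat_lit 0) (nat_lit 0) (XT.lf (nat_lit 0) (nat_lit 1963043018214) (nat_lit 76) (nat_lit 1668014051437) (nat_lit 76) (nat_lit 1661924247972) (nat_lit 1) (nat_lit 4) (nat_lit 2) (nat_lit 5) (nat_lit 2) (nat_lit 4) (nat_lit 259) (nat_lit 197) (nat_lit 144)) (XT.lf (nat_lit 0) (nat_lit 2264181973152) (nat_lit 76) (nat_lit 1914146910195) (nat_lit 76) (nat_lit 1908056624477) (nat_lit 1) (nat_lit 4) (nat_lit 2) (nat_lit 5) (nat_lit 2) (nat_lit 4) (nat_lit 260) (nat_lit 197) (nat_lit 143)))) (XT.nd (nat_lit 156)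 (nat_lit 0) (nat_lit 0) (XT.nd (nat_lit 78) (nat_lit 0) (nat_lit 0) (XT.lf (nat_lit 0) (nat_lit 2610490783699) (nat_lit 76) (nat_lit 2197200164089) (nat_lit 76) (nat_lit 2191109459021) (nat_lit 1) (nat_lit 4) (nat_lit 2) (nat_lit 5) (nat_lit 2) (nat_lit 4) (nat_lit 261) (nat_lit 197) (nat_lit 142)) (XT.lf (nat_lit 0) (nat_lit 3008745057018) (nat_lit 76) (nat_lit 2522711811564) (nat_lit 76) (nat_lit 2516620741844) (nat_lit 1) (nat_lit 4) (nat_lit 2) (nat_lit 5) (nat_lit 2) (nat_lit 4) (nat_lit 262) (nat_lit 197) (nat_lit 141))) (XT.nd (nat_lit 78) (nat_lit 0) (nat_lit 0) (XT.lf (nat_lit 0) (nat_lit 3466736724542) (nat_lit 76) (nat_lit 2897050558768) (nat_lit 76) (nat_lit 2890959171959) (nat_lit 1) (nat_lit 4) (nat_lit 2) (nat_lit 5) (nat_lit 2) (nat_lit 4) (nat_lit 263) (nat_lit 197) (nat_lit 140)) (XT.lf (nat_lit 0) (nat_lit 3993426492812) (nat_lit 76) (nat_lit 3327540424667) (nat_lit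 76) (nat_lit 3321448762128) (nat_lit 1) (nat_lit 4) (nat_lit 2) (nat_lit 5) (nat_lit 2) (nat_lit 4) (nat_lit 264) (nat_lit 197) (nat_lit 139))))) (XT.nd (nat_lit 312) (nat_lit 0) (nat_lit 0) (XT.nd (nat_lit 156) (nat_lit 0) (nat_lit 0) (XT.nd (nat_lit 78) (nat_lit 0) (nat_lit 0) (XT.lf (nat_lit 0) (nat_lit 4599119161639) (nat_lit 76) (nat_lit 3822604037072) (nat_lit 76) (nat_lit 3816512134768) (nat_lit 1) (nat_lit 4) (nat_lit 2) (nat_lit 5) (nat_lit 2) (nat_lit 4) (nat_lit 265) (nat_lit 197) (nat_lit 138)) (XT.lf (nat_lit 0) (nat_lit 5295665239763) (nat_lit 76) (nat_lit 4391927423182) (nat_lit 76) (nat_lit 4385835312387) (nat_lit 1) (nat_lit 4) (nat_lit 2) (nat_lit 5) (nat_lit 2) (nat_lit 4) (nat_lit 266) (nat_lit 197) (nat_lit 137))) (XT.nd (nat_lit 78) (nat_lit 0) (nat_lit 0) (XT.lf (nat_lit 0) (nat_lit 6096692802625) (nat_lit 76) (nat_lit 5046649518813) (nat_lit 76) (nat_lit 5040557226722)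 (nat_lit 1) (nat_lit 4) (nat_lit 2) (nat_lit 5) (nat_lit 2) (nat_lit 4) (nat_lit 267) (nat_lit 197) (nat_lit 136)) (XT.lf (nat_lit 0) (nat_lit 7017874128628) (nat_lit 76) (nat_lit 5799580104097) (nat_lit 76) (nat_lit 5793487654356) (nat_lit 1) (nat_lit 4) (nat_lit 2) (nat_lit 5) (nat_lit 2) (nat_lit 4) (nat_lit 268) (nat_lit 197) (nat_lit 135)))) (XT.nd (nat_lit 156) (nat_lit 0) (nat_lit 0) (XT.nd (nat_lit 78) (nat_lit 0) (nat_lit 0) (XT.lf (nat_lit 0) (nat_lit 8077232330674) (nat_lit 76) (nat_lit 6665450429615) (nat_lit 76) (nat_lit 6659357842788) (nat_lit 1) (nat_lit 4) (nat_lit 2) (nat_lit 5) (nat_lit 2) (nat_lit 4) (nat_lit 269) (nat_lit 197) (nat_lit 134)) (XT.lf (nat_lit 0) (nat_lit 9295493982279) (nat_lit 76) (nat_lit 7661201436518) (nat_lit 76) (nat_lit 7655108730485) (nat_lit 1) (nat_lit 4) (nat_lit 2) (nat_lit 5) (nat_lit 2) (nat_lit 4) (nat_lit 270) (nat_lit 197) (nat_lit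 133))) (XT.nd (nat_lit 78) (nat_lit 0) (nat_lit 0) (XT.lf (nat_lit 0) (nat_lit 10696494637498) (nat_lit 76) (nat_lit 8806315209725) (nat_lit 76) (nat_lit 8800222400035) (nat_lit 1) (nat_lit 4) (nat_lit 2) (nat_lit 5) (nat_lit 2) (nat_lit 4) (nat_lit 271) (nat_lit 197) (nat_lit 132)) (XT.lf (nat_lit 0) (nat_lit 12307645178714) (nat_lit 76) (nat_lit 10123196149145) (nat_lit 76) (nat_lit 10117103249319) (nat_lit 1) (nat_lit 4) (nat_lit 2) (nat_lit 5) (nat_lit 2) (nat_lit 4) (nat_lit 272) (nat_lit 197) (nat_lit 131))))))) (XT.nd (nat_lit 26364) (nat_lit 0) (nat_lit 76) (XT.nd (nat_lit 25740) (nat_lit 0) (nat_lit 532) (XT.nd (nat_lit 234) (nat_lit 0) (nat_lit 0) (XT.nd (nat_lit 78) (nat_lit 0) (nat_lit 0) (XT.lf (nat_lit 0) (nat_lit 21559483936898) (nat_lit 76) (nat_lit 17685229461559) (nat_lit 76) (nat_lit 17679136304395) (nat_lit 1) (nat_lit 4) (nat_lit 2) (nat_lit 5) (nat_lit 2) (nat_lit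 4) (nat_lit 276) (nat_lit 197) (nat_lit 127)) (XT.nd (nat_lit 78) (nat_lit 0) (nat_lit 0) (XT.lf (nat_lit 0) (nat_lit 24800082161413) (nat_lit 76) (nat_lit 20333947874751) (nat_lit 76) (nat_lit 20327854672773) (nat_lit 1) (nat_lit 4) (nat_lit 2) (nat_lit 5) (nat_lit 2) (nat_lit 4) (nat_lit 277) (nat_lit 197) (nat_lit 126)) (XT.lf (nat_lit 0) (nat_lit 28526770027829) (nat_lit 76) (nat_lit 23379974093255) (nat_lit 76) (nat_lit 23373880852309) (nat_lit 1) (nat_lit 4) (nat_lit 2) (nat_lit 5) (nat_lit 2) (nat_lit 4) (nat_lit 278) (nat_lit 197) (nat_lit 125)))) (XT.nd (nat_lit 156) (nat_lit 0) (nat_lit 0) (XT.nd (nat_lit 78) (nat_lit 0) (nat_lit 0) (XT.lf (nat_lit 0) (nat_lit 32812460994401) (nat_lit 76) (nat_lit 26882904282215) (nat_lit 76) (nat_lit 26876811007384) (nat_lit 1) (nat_lit 4) (nat_lit 2) (nat_lit 5) (nat_lit 2) (nat_lit 4) (nat_lit 279) (nat_lit 197) (nat_lit 124)) (XT.lf (nat_lit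 0) (nat_lit 37741005536562) (nat_lit 76) (nat_lit 30911274032286) (nat_lit 76) (nat_lit 30905180727989) (nat_lit 1) (nat_lit 4) (nat_lit 2) (nat_lit 5) (nat_lit 2) (nat_lit 4) (nat_lit 280) (nat_lit 197) (nat_lit 123))) (XT.nd (nat_lit 25272) (nat_lit 0) (nat_lit 1292) (XT.lf (nat_lit 0) (nat_lit 43408831699704) (nat_lit 76) (nat_lit 35543899273360) (nat_lit 76) (nat_lit 35537805943441) (nat_lit 1) (nat_lit 4) (nat_lit 2) (nat_lit 5) (nat_lit 2) (nat_lit 4) (nat_lit 281) (nat_lit 197) (nat_lit 122)) (XT.lf (nat_lit 0) (nat_lit 97428313) (nat_lit 228) (nat_lit 3237890177) (nat_lit 0) (nat_lit 97428313) (nat_lit 18) (nat_lit 5) (nat_lit 21) (nat_lit 4) (nat_lit 18) (nat_lit 4) (nat_lit 204) (nat_lit 198) (nat_lit 198))))) (XT.nd (nat_lit 312) (nat_lit 304) (nat_lit 0) (XT.nd (nat_lit 156) (nat_lit 228) (nat_lit 0) (XT.nd (nat_lit 78) (nat_lit 228) (nat_lit 0) (XT.lf (nat_lit 0) (nat_lit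 3091289119) (nat_lit 228) (nat_lit 2525303334) (nat_lit 0) (nat_lit 1492653488) (nat_lit 18) (nat_lit 5) (nat_lit 21) (nat_lit 4) (nat_lit 18) (nat_lit 4) (nat_lit 205) (nat_lit 198) (nat_lit 197)) (XT.lf (nat_lit 0) (nat_lit 1755799142) (nat_lit 228) (nat_lit 4339205265) (nat_lit 228) (nat_lit 1350451694) (nat_lit 15) (nat_lit 4) (nat_lit 18) (nat_lit 5) (nat_lit 18) (nat_lit 4) (nat_lit 206) (nat_lit 198) (nat_lit 196))) (XT.nd (nat_lit 78) (nat_lit 152) (nat_lit 0) (XT.lf (nat_lit 0) (nat_lit 1315589246) (nat_lit 304) (nat_lit 1369034898) (nat_lit 76) (nat_lit 5179270283) (nat_lit 14) (nat_lit 5) (nat_lit 18) (nat_lit 5) (nat_lit 15) (nat_lit 4) (nat_lit 207) (nat_lit 198) (nat_lit 195)) (XT.lf (nat_lit 0) (nat_lit 3458752935) (nat_lit 152) (nat_lit 591216176) (nat_lit 228) (nat_lit 4318962035) (nat_lit 12) (nat_lit 5) (nat_lit 14) (nat_lit 5) (nat_lit 15) (nat_lit 4) (nat_lit 208)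 (nat_lit 198) (nat_lit 194)))) (XT.nd (nat_lit 156) (nat_lit 76) (nat_lit 0) (XT.nd (nat_lit 78) (nat_lit 228) (nat_lit 0) (XT.lf (nat_lit 0) (nat_lit 7034398479) (nat_lit 228) (nat_lit 267715138) (nat_lit 0) (nat_lit 1675523900) (nat_lit 12) (nat_lit 5) (nat_lit 15) (nat_lit 4) (nat_lit 12) (nat_lit 4) (nat_lit 209) (nat_lit 198) (nat_lit 193)) (XT.lf (nat_lit 0) (nat_lit 685330224) (nat_lit 228) (nat_lit 4576548895) (nat_lit 76) (nat_lit 4418811141) (nat_lit 9) (nat_lit 5) (nat_lit 12) (nat_lit 5) (nat_lit 10) (nat_lit 4) (nat_lit 210) (nat_lit 198) (nat_lit 192))) (XT.nd (nat_lit 78) (nat_lit 0) (nat_lit 0) (XT.lf (nat_lit 0) (nat_lit 394141113) (nat_lit 76) (nat_lit 2882666485) (nat_lit 152) (nat_lit 7235940042) (nat_lit 8) (nat_lit 5) (nat_lit 9) (nat_lit 5) (nat_lit 10) (nat_lit 4) (nat_lit 211) (nat_lit 198) (nat_lit 191)) (XT.lf (nat_lit 0) (nat_lit 6253154506) (nat_lit 152)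 (nat_lit 5204017263) (nat_lit 0) (nat_lit 15248377) (nat_lit 8) (nat_lit 5) (nat_lit 10) (nat_lit 4) (nat_lit 8) (nat_lit 4) (nat_lit 212) (nat_lit 198) (nat_lit 190)))))) (XT.nd (nat_lit 624) (nat_lit 152) (nat_lit 0) (XT.nd (nat_lit 312) (nat_lit 76) (nat_lit 0) (XT.nd (nat_lit 156) (nat_lit 152) (nat_lit 0) (XT.nd (nat_lit 78) (nat_lit 76) (nat_lit 0) (XT.lf (nat_lit 0) (nat_lit 9597220346) (nat_lit 152) (nat_lit 28415214) (nat_lit 0) (nat_lit 2964155938) (nat_lit 8) (nat_lit 5) (nat_lit 10) (nat_lit 4) (nat_lit 8) (nat_lit 4) (nat_lit 213) (nat_lit 198) (nat_lit 189)) (XT.lf (nat_lit 0) (nat_lit 6178916328) (nat_lit 76) (nat_lit 7332006842) (nat_lit 76) (nat_lit 355326540) (nat_lit 7) (nat_lit 4) (nat_lit 8) (nat_lit 5) (nat_lit 8) (nat_lit 4) (nat_lit 214) (nat_lit 198) (nat_lit 188))) (XT.nd (nat_lit 78) (nat_lit 76) (nat_lit 0) (XT.lf (nat_lit 0) (nat_lit 2256046135) (nat_lit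 152) (nat_lit 2424977541) (nat_lit 76) (nat_lit 10665260079) (nat_lit 6) (nat_lit 5) (nat_lit 8) (nat_lit 5) (nat_lit 7) (nat_lit 4) (nat_lit 215) (nat_lit 198) (nat_lit 187)) (XT.lf (nat_lit 0) (nat_lit 3675628844) (nat_lit 76) (nat_lit 1538756532) (nat_lit 152) (nat_lit 11833761645) (nat_lit 5) (nat_lit 5) (nat_lit 6) (nat_lit 5) (nat_lit 7) (nat_lit 4) (nat_lit 216) (nat_lit 198) (nat_lit 186)))) (XT.nd (nat_lit 156) (nat_lit 76) (nat_lit 0) (XT.nd (nat_lit 78) (nat_lit 0) (nat_lit 0) (XT.lf (nat_lit 0) (nat_lit 8681113219) (nat_lit 152) (nat_lit 8383229248) (nat_lit 0) (nat_lit 1932215182) (nat_lit 5) (nat_lit 5) (nat_lit 7) (nat_lit 4) (nat_lit 5) (nat_lit 4) (nat_lit 217) (nat_lit 198) (nat_lit 185)) (XT.lf (nat_lit 0) (nat_lit 12607147130) (nat_lit 152) (nat_lit 2952614800) (nat_lit 0) (nat_lit 5687411263) (nat_lit 5) (nat_lit 5) (nat_lit 7) (nat_lit 4) (nat_lit 5) (nat_lit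 4) (nat_lit 218) (nat_lit 198) (nat_lit 184))) (XT.nd (nat_lit 78) (nat_lit 0) (nat_lit 0) (XT.lf (nat_lit 0) (nat_lit 3391201121) (nat_lit 76) (nat_lit 13754805472) (nat_lit 76) (nat_lit 6686514972) (nat_lit 4) (nat_lit 4) (nat_lit 5) (nat_lit 5) (nat_lit 5) (nat_lit 4) (nat_lit 219) (nat_lit 198) (nat_lit 183)) (XT.lf (nat_lit 0) (nat_lit 10824365061) (nat_lit 76) (nat_lit 11586329581) (nat_lit 76) (nat_lit 4388861140) (nat_lit 4) (nat_lit 4) (nat_lit 5) (nat_lit 5) (nat_lit 5) (nat_lit 4) (nat_lit 220) (nat_lit 198) (nat_lit 182))))) (XT.nd (nat_lit 312) (nat_lit 0) (nat_lit 0) (XT.nd (nat_lit 156) (nat_lit 76) (nat_lit 0) (XT.nd (nat_lit 78) (nat_lit 76) (nat_lit 0) (XT.lf (nat_lit 0) (nat_lit 19203757495) (nat_lit 76) (nat_lit 9166248784) (nat_lit 76) (nat_lit 1856451697) (nat_lit 4) (nat_lit 4) (nat_lit 5) (nat_lit 5) (nat_lit 5) (nat_lit 4) (nat_lit 221) (nat_lit 198) (nat_lit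 181)) (XT.lf (nat_lit 0) (nat_lit 874771467) (nat_lit 152) (nat_lit 5526715515) (nat_lit 76) (nat_lit 27772824901) (nat_lit 3) (nat_lit 5) (nat_lit 5) (nat_lit 5) (nat_lit 4) (nat_lit 4) (nat_lit 222) (nat_lit 198) (nat_lit 180))) (XT.nd (nat_lit 78) (nat_lit 0) (nat_lit 0) (XT.lf (nat_lit 0) (nat_lit 625604179) (nat_lit 76) (nat_lit 3150216724) (nat_lit 152) (nat_lit 34933093616) (nat_lit 2) (nat_lit 5) (nat_lit 3) (nat_lit 5) (nat_lit 4) (nat_lit 4) (nat_lit 223) (nat_lit 198) (nat_lit 179)) (XT.lf (nat_lit 0) (nat_lit 7365483563) (nat_lit 152) (nat_lit 35734401097) (nat_lit 0) (nat_lit 786119500) (nat_lit 2) (nat_lit 5) (nat_lit 4) (nat_lit 4) (nat_lit 2) (nat_lit 4) (nat_lit 224) (nat_lit 198) (nat_lit 178)))) (XT.nd (nat_lit 156) (nat_lit 0) (nat_lit 0) (XT.nd (nat_lit 78) (nat_lit 0) (nat_lit 0) (XT.lf (nat_lit 0) (nat_lit 11579626553) (nat_lit 152) (nat_lit 33302984651) (nat_lit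 0) (nat_lit 4944415301) (nat_lit 2) (nat_lit 5) (nat_lit 4) (nat_lit 4) (nat_lit 2) (nat_lit 4) (nat_lit 225) (nat_lit 198) (nat_lit 177)) (XT.lf (nat_lit 0) (nat_lit 16370256739) (nat_lit 152) (nat_lit 30611046054) (nat_lit 0) (nat_lit 9686482714) (nat_lit 2) (nat_lit 5) (nat_lit 4) (nat_lit 4) (nat_lit 2) (nat_lit 4) (nat_lit 226) (nat_lit 198) (nat_lit 176))) (XT.nd (nat_lit 78) (nat_lit 0) (nat_lit 0) (XT.lf (nat_lit 0) (nat_lit 21831103844) (nat_lit 152) (nat_lit 27605916943) (nat_lit 0) (nat_lit 15105101321) (nat_lit 2) (nat_lit 5) (nat_lit 4) (nat_lit 4) (nat_lit 2) (nat_lit 4) (nat_lit 227) (nat_lit 198) (nat_lit 175)) (XT.lf (nat_lit 0) (nat_lit 28069010528) (nat_lit 152) (nat_lit 24228801313) (nat_lit 0) (nat_lit 21306287571) (nat_lit 2) (nat_lit 5) (nat_lit 4) (nat_lit 4) (nat_lit 2) (nat_lit 4) (nat_lit 228) (nat_lit 198) (nat_lit 174))))))))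
noncomputable def xc23 : XT := (XT.nd (nat_lit 2418) (nat_lit 0) (nat_lit 0) (XT.nd (nat_lit 1170) (nat_lit 0) (nat_lit 0) (XT.nd (nat_lit 546) (nat_lit 0) (nat_lit 0) (XT.nd (nat_lit 234) (nat_lit 76) (nat_lit 0) (XT.nd (nat_lit 78) (nat_lit 0) (nat_lit 0) (XT.lf (nat_lit 0) (nat_lit 35206022791) (nat_lit 152) (nat_lit 20413625162) (nat_lit 0) (nat_lit 28411369022) (nat_lit 2) (nat_lit 5) (nat_lit 4) (nat_lit 4) (nat_lit 2) (nat_lit 4) (nat_lit 229) (nat_lit 198) (nat_lit 173)) (XT.nd (nat_lit 78) (nat_lit 0) (nat_lit 0) (XT.lf (nat_lit 0) (nat_lit 43381777830) (nat_lit 152) (nat_lit 16085743740) (nat_lit 0) (nat_lit 36559358138) (nat_lit 2) (nat_lit 5) (nat_lit 4) (nat_lit 4) (nat_lit 2) (nat_lit 4) (nat_lit 230) (nat_lit 198) (nat_lit 172)) (XT.lf (nat_lit 0) (nat_lit 52756236068) (nat_lit 152) (nat_lit 11160481107) (nat_lit 0) (nat_lit 45909672096) (nat_lit 2) (nat_lit 5) (nat_lit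 4) (nat_lit 4) (nat_lit 2) (nat_lit 4) (nat_lit 231) (nat_lit 198) (nat_lit 171)))) (XT.nd (nat_lit 156) (nat_lit 0) (nat_lit 0) (XT.nd (nat_lit 78) (nat_lit 76) (nat_lit 0) (XT.lf (nat_lit 0) (nat_lit 63512810821) (nat_lit 152) (nat_lit 5541473427) (nat_lit 0) (nat_lit 56645251821) (nat_lit 2) (nat_lit 5) (nat_lit 4) (nat_lit 4) (nat_lit 2) (nat_lit 4) (nat_lit 232) (nat_lit 198) (nat_lit 170)) (XT.lf (nat_lit 0) (nat_lit 967335281) (nat_lit 76) (nat_lit 74934676821) (nat_lit 76) (nat_lit 68048861276) (nat_lit 1) (nat_lit 4) (nat_lit 2) (nat_lit 5) (nat_lit 2) (nat_lit 4) (nat_lit 233) (nat_lit 198) (nat_lit 169))) (XT.nd (nat_lit 78) (nat_lit 0) (nat_lit 0) (XT.lf (nat_lit 0) (nat_lit 9037862753) (nat_lit 76) (nat_lit 81381663633) (nat_lit 76) (nat_lit 74479972831) (nat_lit 1) (nat_lit 4) (nat_lit 2) (nat_lit 5) (nat_lit 2) (nat_lit 4) (nat_lit 234) (nat_lit 198) (nat_lit 168)) (XT.lf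 (nat_lit 0) (nat_lit 18286457530) (nat_lit 76) (nat_lit 88811049313) (nat_lit 76) (nat_lit 81895553940) (nat_lit 1) (nat_lit 4) (nat_lit 2) (nat_lit 5) (nat_lit 2) (nat_lit 4) (nat_lit 235) (nat_lit 198) (nat_lit 167))))) (XT.nd (nat_lit 312) (nat_lit 0) (nat_lit 0) (XT.nd (nat_lit 156) (nat_lit 0) (nat_lit 0) (XT.nd (nat_lit 78) (nat_lit 0) (nat_lit 0) (XT.lf (nat_lit 0) (nat_lit 28894070376) (nat_lit 76) (nat_lit 97368191407) (nat_lit 76) (nat_lit 90440692059) (nat_lit 1) (nat_lit 4) (nat_lit 2) (nat_lit 5) (nat_lit 2) (nat_lit 4) (nat_lit 236) (nat_lit 198) (nat_lit 166)) (XT.lf (nat_lit 0) (nat_lit 41068241546) (nat_lit 76) (nat_lit 107220512260) (nat_lit 76) (nat_lit 100282574673) (nat_lit 1) (nat_lit 4) (nat_lit 2) (nat_lit 5) (nat_lit 2) (nat_lit 4) (nat_lit 237) (nat_lit 198) (nat_lit 165))) (XT.nd (nat_lit 78) (nat_lit 0) (nat_lit 0) (XT.lf (nat_lit 0) (nat_lit 55047161342)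 (nat_lit 76) (nat_lit 118560774671) (nat_lit 76) (nat_lit 111613760355) (nat_lit 1) (nat_lit 4) (nat_lit 2) (nat_lit 5) (nat_lit 2) (nat_lit 4) (nat_lit 238) (nat_lit 198) (nat_lit 164)) (XT.lf (nat_lit 0) (nat_lit 71104330371) (nat_lit 76) (nat_lit 131610853339) (nat_lit 76) (nat_lit 124655946215) (nat_lit 1) (nat_lit 4) (nat_lit 2) (nat_lit 5) (nat_lit 2) (nat_lit 4) (nat_lit 239) (nat_lit 198) (nat_lit 163)))) (XT.nd (nat_lit 156) (nat_lit 0) (nat_lit 0) (XT.nd (nat_lit 78) (nat_lit 0) (nat_lit 0) (XT.lf (nat_lit 0) (nat_lit 89553910636) (nat_lit 76) (nat_lit 146626075892) (nat_lit 76) (nat_lit 139664305456) (nat_lit 1) (nat_lit 4) (nat_lit 2) (nat_lit 5) (nat_lit 2) (nat_lit 4) (nat_lit 240) (nat_lit 198) (nat_lit 162)) (XT.lf (nat_lit 0) (nat_lit 110756872184) (nat_lit 76) (nat_lit 163900218421) (nat_lit 76) (nat_lit 156932479888) (nat_lit 1) (nat_lit 4) (nat_lit 2) (nat_lit 5)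 (nat_lit 2) (nat_lit 4) (nat_lit 241) (nat_lit 198) (nat_lit 161))) (XT.nd (nat_lit 78) (nat_lit 0) (nat_lit 0) (XT.lf (nat_lit 0) (nat_lit 135128055568) (nat_lit 76) (nat_lit 183771253282) (nat_lit 76) (nat_lit 176798325099) (nat_lit 1) (nat_lit 4) (nat_lit 2) (nat_lit 5) (nat_lit 2) (nat_lit 4) (nat_lit 242) (nat_lit 198) (nat_lit 160)) (XT.lf (nat_lit 0) (nat_lit 163144288288) (nat_lit 76) (nat_lit 206627961590) (nat_lit 76) (nat_lit 199650520669) (nat_lit 1) (nat_lit 4) (nat_lit 2) (nat_lit 5) (nat_lit 2) (nat_lit 4) (nat_lit 243) (nat_lit 198) (nat_lit 159)))))) (XT.nd (nat_lit 624) (nat_lit 0) (nat_lit 0) (XT.nd (nat_lit 312) (nat_lit 0) (nat_lit 0) (XT.nd (nat_lit 156) (nat_lit 0) (nat_lit 0) (XT.nd (nat_lit 78) (nat_lit 0) (nat_lit 0) (XT.lf (nat_lit 0) (nat_lit 195353714030) (nat_lit 76) (nat_lit 232917539813) (nat_lit 76) (nat_lit 225936174771) (nat_lit 1) (nat_lit 4) (nat_lit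 2) (nat_lit 5) (nat_lit 2) (nat_lit 4) (nat_lit 244) (nat_lit 198) (nat_lit 158)) (XT.lf (nat_lit 0) (nat_lit 232386517208) (nat_lit 76) (nat_lit 263154349264) (nat_lit 76) (nat_lit 256169571944) (nat_lit 1) (nat_lit 4) (nat_lit 2) (nat_lit 5) (nat_lit 2) (nat_lit 4) (nat_lit 245) (nat_lit 198) (nat_lit 157))) (XT.nd (nat_lit 78) (nat_lit 0) (nat_lit 0) (XT.lf (nat_lit 0) (nat_lit 274967252668) (nat_lit 76) (nat_lit 297929979693) (nat_lit 76) (nat_lit 290942235173) (nat_lit 1) (nat_lit 4) (nat_lit 2) (nat_lit 5) (nat_lit 2) (nat_lit 4) (nat_lit 246) (nat_lit 198) (nat_lit 156)) (XT.lf (nat_lit 0) (nat_lit 323929021756) (nat_lit 76) (nat_lit 337924823869) (nat_lit 76) (nat_lit 330934499176) (nat_lit 1) (nat_lit 4) (nat_lit 2) (nat_lit 5) (nat_lit 2) (nat_lit 4) (nat_lit 247) (nat_lit 198) (nat_lit 155)))) (XT.nd (nat_lit 156) (nat_lit 0) (nat_lit 0) (XT.nd (nat_lit 78) (nat_lit 0) (nat_lit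 0) (XT.lf (nat_lit 0) (nat_lit 380229772128) (nat_lit 76) (nat_lit 383921389614) (nat_lit 76) (nat_lit 376928821292) (nat_lit 1) (nat_lit 4) (nat_lit 2) (nat_lit 5) (nat_lit 2) (nat_lit 4) (nat_lit 248) (nat_lit 198) (nat_lit 154)) (XT.lf (nat_lit 0) (nat_lit 444971040204) (nat_lit 76) (nat_lit 436819609734) (nat_lit 76) (nat_lit 429825090431) (nat_lit 1) (nat_lit 4) (nat_lit 2) (nat_lit 5) (nat_lit 2) (nat_lit 4) (nat_lit 249) (nat_lit 198) (nat_lit 153))) (XT.nd (nat_lit 78) (nat_lit 0) (nat_lit 0) (XT.lf (nat_lit 0) (nat_lit 519419502969) (nat_lit 76) (nat_lit 497654449406) (nat_lit 76) (nat_lit 490658233598) (nat_lit 1) (nat_lit 4) (nat_lit 2) (nat_lit 5) (nat_lit 2) (nat_lit 4) (nat_lit 250) (nat_lit 198) (nat_lit 152)) (XT.lf (nat_lit 0) (nat_lit 605031760781) (nat_lit 76) (nat_lit 567616155494) (nat_lit 76) (nat_lit 560618464463) (nat_lit 1) (nat_lit 4) (nat_lit 2) (nat_lit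 5) (nat_lit 2) (nat_lit 4) (nat_lit 251) (nat_lit 198) (nat_lit 151))))) (XT.nd (nat_lit 312) (nat_lit 0) (nat_lit 0) (XT.nd (nat_lit 156) (nat_lit 0) (nat_lit 0) (XT.nd (nat_lit 78) (nat_lit 0) (nat_lit 0) (XT.lf (nat_lit 0) (nat_lit 703482836074) (nat_lit 76) (nat_lit 648073543987) (nat_lit 76) (nat_lit 641074570153) (nat_lit 1) (nat_lit 4) (nat_lit 2) (nat_lit 5) (nat_lit 2) (nat_lit 4) (nat_lit 252) (nat_lit 198) (nat_lit 150)) (XT.lf (nat_lit 0) (nat_lit 816698945541) (nat_lit 76) (nat_lit 740600781180) (nat_lit 76) (nat_lit 733600691866) (nat_lit 1) (nat_lit 4) (nat_lit 2) (nat_lit 5) (nat_lit 2) (nat_lit 4) (nat_lit 253) (nat_lit 198) (nat_lit 149))) (XT.nd (nat_lit 78) (nat_lit 0) (nat_lit 0) (XT.lf (nat_lit 0) (nat_lit 946895186974) (nat_lit 76) (nat_lit 847008182584) (nat_lit 76) (nat_lit 840007123288) (nat_lit 1) (nat_lit 4) (nat_lit 2) (nat_lit 5) (nat_lit 2) (nat_lit 4)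 (nat_lit 254) (nat_lit 198) (nat_lit 148)) (XT.lf (nat_lit 0) (nat_lit 1096618878141) (nat_lit 76) (nat_lit 969377632139) (nat_lit 76) (nat_lit 962375729380) (nat_lit 1) (nat_lit 4) (nat_lit 2) (nat_lit 5) (nat_lit 2) (nat_lit 4) (nat_lit 255) (nat_lit 198) (nat_lit 147)))) (XT.nd (nat_lit 156) (nat_lit 0) (nat_lit 0) (XT.nd (nat_lit 78) (nat_lit 0) (nat_lit 0) (XT.lf (nat_lit 0) (nat_lit 1268799395609) (nat_lit 76) (nat_lit 1110103314729) (nat_lit 76) (nat_lit 1103100678524) (nat_lit 1) (nat_lit 4) (nat_lit 2) (nat_lit 5) (nat_lit 2) (nat_lit 4) (nat_lit 256) (nat_lit 198) (nat_lit 146)) (XT.lf (nat_lit 0) (nat_lit 1466805488631) (nat_lit 76) (nat_lit 1271938558925) (nat_lit 76) (nat_lit 1264935284941) (nat_lit 1) (nat_lit 4) (nat_lit 2) (nat_lit 5) (nat_lit 2) (nat_lit 4) (nat_lit 257) (nat_lit 198) (nat_lit 145))) (XT.nd (nat_lit 78) (nat_lit 0) (nat_lit 0) (XT.lf (nat_lit 0) (nat_lit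 1694511189463) (nat_lit 76) (nat_lit 1458049706463) (nat_lit 76) (nat_lit 1451045877888) (nat_lit 1) (nat_lit 4) (nat_lit 2) (nat_lit 5) (nat_lit 2) (nat_lit 4) (nat_lit 258) (nat_lit 198) (nat_lit 144)) (XT.lf (nat_lit 0) (nat_lit 1956371609643) (nat_lit 76) (nat_lit 1672078062401) (nat_lit 76) (nat_lit 1665073751573) (nat_lit 1) (nat_lit 4) (nat_lit 2) (nat_lit 5) (nat_lit 2) (nat_lit 4) (nat_lit 259) (nat_lit 198) (nat_lit 143))))))) (XT.nd (nat_lit 26910) (nat_lit 0) (nat_lit 304) (XT.nd (nat_lit 546) (nat_lit 0) (nat_lit 0) (XT.nd (nat_lit 234) (nat_lit 0) (nat_lit 0) (XT.nd (nat_lit 78) (nat_lit 0) (nat_lit 0) (XT.lf (nat_lit 0) (nat_lit 2257510105218) (nat_lit 76) (nat_lit 1918211138053) (nat_lit 76) (nat_lit 1911206407875) (nat_lit 1) (nat_lit 4) (nat_lit 2) (nat_lit 5) (nat_lit 2) (nat_lit 4) (nat_lit 260) (nat_lit 198) (nat_lit 142)) (XT.nd (nat_lit 78) (nat_lit 0) (nat_lit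 0) (XT.lf (nat_lit 0) (nat_lit 2603818516318) (nat_lit 76) (nat_lit 2201264580550) (nat_lit 76) (nat_lit 2194259485720) (nat_lit 1) (nat_lit 4) (nat_lit 2) (nat_lit 5) (nat_lit 2) (nat_lit 4) (nat_lit 261) (nat_lit 198) (nat_lit 141)) (XT.lf (nat_lit 0) (nat_lit 3002072442292) (nat_lit 76) (nat_lit 2526776392029) (nat_lit 76) (nat_lit 2519770980110) (nat_lit 1) (nat_lit 4) (nat_lit 2) (nat_lit 5) (nat_lit 2) (nat_lit 4) (nat_lit 262) (nat_lit 198) (nat_lit 140)))) (XT.nd (nat_lit 156) (nat_lit 0) (nat_lit 0) (XT.nd (nat_lit 78) (nat_lit 0) (nat_lit 0) (XT.lf (nat_lit 0) (nat_lit 3460063807777) (nat_lit 76) (nat_lit 2901115281844) (nat_lit 76) (nat_lit 2894109594195) (nat_lit 1) (nat_lit 4) (nat_lit 2) (nat_lit 5) (nat_lit 2) (nat_lit 4) (nat_lit 263) (nat_lit 198) (nat_lit 139)) (XT.lf (nat_lit 0) (nat_lit 3986753313404) (nat_lit 76) (nat_lit 3331605271753) (nat_lit 76) (nat_lit 3324599344339)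 (nat_lit 1) (nat_lit 4) (nat_lit 2) (nat_lit 5) (nat_lit 2) (nat_lit 4) (nat_lit 264) (nat_lit 198) (nat_lit 138))) (XT.nd (nat_lit 78) (nat_lit 0) (nat_lit 0) (XT.lf (nat_lit 0) (nat_lit 4592445753846) (nat_lit 76) (nat_lit 3826668991993) (nat_lit 76) (nat_lit 3819662856088) (nat_lit 1) (nat_lit 4) (nat_lit 2) (nat_lit 5) (nat_lit 2) (nat_lit 4) (nat_lit 265) (nat_lit 198) (nat_lit 137)) (XT.lf (nat_lit 0) (nat_lit 5288991633374) (nat_lit 76) (nat_lit 4395992471873) (nat_lit 76) (nat_lit 4388986154671) (nat_lit 1) (nat_lit 4) (nat_lit 2) (nat_lit 5) (nat_lit 2) (nat_lit 4) (nat_lit 266) (nat_lit 198) (nat_lit 136))))) (XT.nd (nat_lit 312) (nat_lit 0) (nat_lit 0) (XT.nd (nat_lit 156) (nat_lit 0) (nat_lit 0) (XT.nd (nat_lit 78) (nat_lit 0) (nat_lit 0) (XT.lf (nat_lit 0) (nat_lit 6090019023544) (nat_lit 76) (nat_lit 5050714649042) (nat_lit 76) (nat_lit 5043708174191) (nat_lit 1) (nat_lit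 4) (nat_lit 2) (nat_lit 5) (nat_lit 2) (nat_lit 4) (nat_lit 267) (nat_lit 198) (nat_lit 135)) (XT.lf (nat_lit 0) (nat_lit 7011200199381) (nat_lit 76) (nat_lit 5803645305229) (nat_lit 76) (nat_lit 5796638693291) (nat_lit 1) (nat_lit 4) (nat_lit 2) (nat_lit 5) (nat_lit 2) (nat_lit 4) (nat_lit 268) (nat_lit 198) (nat_lit 134))) (XT.nd (nat_lit 78) (nat_lit 0) (nat_lit 0) (XT.lf (nat_lit 0) (nat_lit 8070558270846) (nat_lit 76) (nat_lit 6669515692402) (nat_lit 76) (nat_lit 6662508961259) (nat_lit 1) (nat_lit 4) (nat_lit 2) (nat_lit 5) (nat_lit 2) (nat_lit 4) (nat_lit 269) (nat_lit 198) (nat_lit 133)) (XT.lf (nat_lit 0) (nat_lit 9288819808904) (nat_lit 76) (nat_lit 7665266752918) (nat_lit 76) (nat_lit 7658259918118) (nat_lit 1) (nat_lit 4) (nat_lit 2) (nat_lit 5) (nat_lit 2) (nat_lit 4) (nat_lit 270) (nat_lit 198) (nat_lit 132)))) (XT.nd (nat_lit 25896) (nat_lit 0) (nat_lit 1520) (XT.nd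 (nat_lit 78) (nat_lit 0) (nat_lit 0) (XT.lf (nat_lit 0) (nat_lit 10689820365386) (nat_lit 76) (nat_lit 8810380572744) (nat_lit 76) (nat_lit 8803373647808) (nat_lit 1) (nat_lit 4) (nat_lit 2) (nat_lit 5) (nat_lit 2) (nat_lit 4) (nat_lit 271) (nat_lit 198) (nat_lit 131)) (XT.lf (nat_lit 0) (nat_lit 12300970820744) (nat_lit 76) (nat_lit 10127261552704) (nat_lit 76) (nat_lit 10120254549388) (nat_lit 1) (nat_lit 4) (nat_lit 2) (nat_lit 5) (nat_lit 2) (nat_lit 4) (nat_lit 272) (nat_lit 198) (nat_lit 130))) (XT.nd (nat_lit 78) (nat_lit 76) (nat_lit 0) (XT.lf (nat_lit 0) (nat_lit 1541141639) (nat_lit 76) (nat_lit 185015520) (nat_lit 0) (nat_lit 1541141639) (nat_lit 22) (nat_lit 5) (nat_lit 23) (nat_lit 0) (nat_lit 22) (nat_lit 4) (nat_lit 202) (nat_lit 199) (nat_lit 199)) (XT.lf (nat_lit 0) (nat_lit 3229472180) (nat_lit 76) (nat_lit 2779528130) (nat_lit 76) (nat_lit 665332508) (nat_lit 21)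 (nat_lit 4) (nat_lit 22) (nat_lit 5) (nat_lit 22) (nat_lit 4) (nat_lit 203) (nat_lit 199) (nat_lit 198)))))) (XT.nd (nat_lit 624) (nat_lit 304) (nat_lit 0) (XT.nd (nat_lit 312) (nat_lit 380) (nat_lit 0) (XT.nd (nat_lit 156) (nat_lit 304) (nat_lit 0) (XT.nd (nat_lit 78) (nat_lit 0) (nat_lit 0) (XT.lf (nat_lit 0) (nat_lit 117163500) (nat_lit 152) (nat_lit 1775762126) (nat_lit 228) (nat_lit 4997268935) (nat_lit 18) (nat_lit 5) (nat_lit 20) (nat_lit 5) (nat_lit 21) (nat_lit 4) (nat_lit 204) (nat_lit 199) (nat_lit 197)) (XT.lf (nat_lit 0) (nat_lit 4216940373) (nat_lit 152) (nat_lit 326409673) (nat_lit 228) (nat_lit 2630669066) (nat_lit 18) (nat_lit 5) (nat_lit 20) (nat_lit 5) (nat_lit 21) (nat_lit 4) (nat_lit 205) (nat_lit 199) (nat_lit 196))) (XT.nd (nat_lit 78) (nat_lit 76) (nat_lit 0) (XT.lf (nat_lit 0) (nat_lit 1110967711) (nat_lit 228) (nat_lit 6234147142) (nat_lit 228) (nat_lit 198164388)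 (nat_lit 15) (nat_lit 4) (nat_lit 18) (nat_lit 5) (nat_lit 18) (nat_lit 4) (nat_lit 206) (nat_lit 199) (nat_lit 195)) (XT.lf (nat_lit 0) (nat_lit 2208768122) (nat_lit 304) (nat_lit 2338260167) (nat_lit 76) (nat_lit 3433095779) (nat_lit 14) (nat_lit 5) (nat_lit 18) (nat_lit 5) (nat_lit 15) (nat_lit 4) (nat_lit 207) (nat_lit 199) (nat_lit 194)))) (XT.nd (nat_lit 156) (nat_lit 228) (nat_lit 0) (XT.nd (nat_lit 78) (nat_lit 0) (nat_lit 0) (XT.lf (nat_lit 0) (nat_lit 2224080847) (nat_lit 152) (nat_lit 2531834310) (nat_lit 228) (nat_lit 3759143588) (nat_lit 12) (nat_lit 5) (nat_lit 14) (nat_lit 5) (nat_lit 15) (nat_lit 4) (nat_lit 208) (nat_lit 199) (nat_lit 193)) (XT.lf (nat_lit 0) (nat_lit 7414376167) (nat_lit 152) (nat_lit 125306322) (nat_lit 228) (nat_lit 1615758482) (nat_lit 12) (nat_lit 5) (nat_lit 14) (nat_lit 5) (nat_lit 15) (nat_lit 4) (nat_lit 209) (nat_lit 199) (nat_lit 192)))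 (XT.nd (nat_lit 78) (nat_lit 0) (nat_lit 0) (XT.lf (nat_lit 0) (nat_lit 785792789) (nat_lit 228) (nat_lit 6560176358) (nat_lit 76) (nat_lit 2541362137) (nat_lit 9) (nat_lit 5) (nat_lit 12) (nat_lit 5) (nat_lit 10) (nat_lit 4) (nat_lit 210) (nat_lit 199) (nat_lit 191)) (XT.lf (nat_lit 0) (nat_lit 3254414637) (nat_lit 228) (nat_lit 1775236208) (nat_lit 76) (nat_lit 5709202756) (nat_lit 9) (nat_lit 5) (nat_lit 12) (nat_lit 5) (nat_lit 10) (nat_lit 4) (nat_lit 211) (nat_lit 199) (nat_lit 190))))) (XT.nd (nat_lit 312) (nat_lit 76) (nat_lit 0) (XT.nd (nat_lit 156) (nat_lit 152) (nat_lit 0) (XT.nd (nat_lit 78) (nat_lit 0) (nat_lit 0) (XT.lf (nat_lit 0) (nat_lit 3782521163) (nat_lit 76) (nat_lit 2268260633) (nat_lit 152) (nat_lit 5675642671) (nat_lit 8) (nat_lit 5) (nat_lit 9) (nat_lit 5) (nat_lit 10) (nat_lit 4) (nat_lit 212) (nat_lit 199) (nat_lit 189)) (XT.lf (nat_lit 0) (nat_lit 9213561643)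 (nat_lit 152) (nat_lit 2811447499) (nat_lit 0) (nat_lit 846763401) (nat_lit 8) (nat_lit 5) (nat_lit 10) (nat_lit 4) (nat_lit 8) (nat_lit 4) (nat_lit 213) (nat_lit 199) (nat_lit 188))) (XT.nd (nat_lit 78) (nat_lit 76) (nat_lit 0) (XT.lf (nat_lit 0) (nat_lit 2993066266) (nat_lit 76) (nat_lit 9926311849) (nat_lit 76) (nat_lit 1260717177) (nat_lit 7) (nat_lit 4) (nat_lit 8) (nat_lit 5) (nat_lit 8) (nat_lit 4) (nat_lit 214) (nat_lit 199) (nat_lit 187)) (XT.lf (nat_lit 0) (nat_lit 1356580275) (nat_lit 152) (nat_lit 6008770061) (nat_lit 76) (nat_lit 8312119826) (nat_lit 6) (nat_lit 5) (nat_lit 8) (nat_lit 5) (nat_lit 7) (nat_lit 4) (nat_lit 215) (nat_lit 199) (nat_lit 186)))) (XT.nd (nat_lit 156) (nat_lit 0) (nat_lit 0) (XT.nd (nat_lit 78) (nat_lit 76) (nat_lit 0) (XT.lf (nat_lit 0) (nat_lit 4097780992) (nat_lit 152) (nat_lit 341121548) (nat_lit 76) (nat_lit 12973449821) (nat_lit 6) (nat_lit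 5) (nat_lit 8) (nat_lit 5) (nat_lit 7) (nat_lit 4) (nat_lit 216) (nat_lit 199) (nat_lit 185)) (XT.lf (nat_lit 0) (nat_lit 6563321130) (nat_lit 76) (nat_lit 837206923) (nat_lit 152) (nat_lit 11985221754) (nat_lit 5) (nat_lit 5) (nat_lit 6) (nat_lit 5) (nat_lit 7) (nat_lit 4) (nat_lit 217) (nat_lit 199) (nat_lit 184))) (XT.nd (nat_lit 78) (nat_lit 0) (nat_lit 0) (XT.lf (nat_lit 0) (nat_lit 11237708062) (nat_lit 152) (nat_lit 7451704889) (nat_lit 0) (nat_lit 2960619353) (nat_lit 5) (nat_lit 5) (nat_lit 7) (nat_lit 4) (nat_lit 5) (nat_lit 4) (nat_lit 218) (nat_lit 199) (nat_lit 183)) (XT.lf (nat_lit 0) (nat_lit 15589026033) (nat_lit 152) (nat_lit 1492021153) (nat_lit 0) (nat_lit 7182759383) (nat_lit 5) (nat_lit 5) (nat_lit 7) (nat_lit 4) (nat_lit 5) (nat_lit 4) (nat_lit 219) (nat_lit 199) (nat_lit 182))))))))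
noncomputable def xc24 : XT := (XT.nd (nat_lit 2340) (nat_lit 0) (nat_lit 0) (XT.nd (nat_lit 1170) (nat_lit 0) (nat_lit 0) (XT.nd (nat_lit 546) (nat_lit 76) (nat_lit 0) (XT.nd (nat_lit 234) (nat_lit 152) (nat_lit 0) (XT.nd (nat_lit 78) (nat_lit 0) (nat_lit 0) (XT.lf (nat_lit 0) (nat_lit 5716845071) (nat_lit 76) (nat_lit 15024826788) (nat_lit 76) (nat_lit 6506231493) (nat_lit 4) (nat_lit 4) (nat_lit 5) (nat_lit 5) (nat_lit 5) (nat_lit 4) (nat_lit 220) (nat_lit 199) (nat_lit 181)) (XT.nd (nat_lit 78) (nat_lit 0) (nat_lit 0) (XT.lf (nat_lit 0) (nat_lit 14027988326) (nat_lit 76) (nat_lit 12634540319) (nat_lit 76) (nat_lit 4018267940) (nat_lit 4) (nat_lit 4) (nat_lit 5) (nat_lit 5) (nat_lit 5) (nat_lit 4) (nat_lit 221) (nat_lit 199) (nat_lit 180)) (XT.lf (nat_lit 0) (nat_lit 23458206777) (nat_lit 76) (nat_lit 9941413319) (nat_lit 76) (nat_lit 1240204347) (nat_lit 4) (nat_lit 4) (nat_lit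 5) (nat_lit 5) (nat_lit 5) (nat_lit 4) (nat_lit 222) (nat_lit 199) (nat_lit 179)))) (XT.nd (nat_lit 156) (nat_lit 0) (nat_lit 0) (XT.nd (nat_lit 78) (nat_lit 76) (nat_lit 0) (XT.lf (nat_lit 0) (nat_lit 1714736212) (nat_lit 152) (nat_lit 5088384022) (nat_lit 76) (nat_lit 32387634547) (nat_lit 3) (nat_lit 5) (nat_lit 5) (nat_lit 5) (nat_lit 4) (nat_lit 4) (nat_lit 223) (nat_lit 199) (nat_lit 178)) (XT.lf (nat_lit 0) (nat_lit 1929177315) (nat_lit 76) (nat_lit 3079412667) (nat_lit 152) (nat_lit 39403753168) (nat_lit 2) (nat_lit 5) (nat_lit 3) (nat_lit 5) (nat_lit 4) (nat_lit 4) (nat_lit 224) (nat_lit 199) (nat_lit 177))) (XT.nd (nat_lit 78) (nat_lit 0) (nat_lit 0) (XT.lf (nat_lit 0) (nat_lit 9069344665) (nat_lit 152) (nat_lit 39972698089) (nat_lit 0) (nat_lit 1334441763) (nat_lit 2) (nat_lit 5) (nat_lit 4) (nat_lit 4) (nat_lit 2) (nat_lit 4) (nat_lit 225) (nat_lit 199) (nat_lit 176)) (XT.lf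 (nat_lit 0) (nat_lit 13837473637) (nat_lit 152) (nat_lit 37322899155) (nat_lit 0) (nat_lit 6060342237) (nat_lit 2) (nat_lit 5) (nat_lit 4) (nat_lit 4) (nat_lit 2) (nat_lit 4) (nat_lit 226) (nat_lit 199) (nat_lit 175))))) (XT.nd (nat_lit 312) (nat_lit 76) (nat_lit 0) (XT.nd (nat_lit 156) (nat_lit 0) (nat_lit 0) (XT.nd (nat_lit 78) (nat_lit 0) (nat_lit 0) (XT.lf (nat_lit 0) (nat_lit 19278754469) (nat_lit 152) (nat_lit 34354413229) (nat_lit 0) (nat_lit 11464902635) (nat_lit 2) (nat_lit 5) (nat_lit 4) (nat_lit 4) (nat_lit 2) (nat_lit 4) (nat_lit 227) (nat_lit 199) (nat_lit 174)) (XT.lf (nat_lit 0) (nat_lit 25499647003) (nat_lit 152) (nat_lit 31009161238) (nat_lit 0) (nat_lit 17653864357) (nat_lit 2) (nat_lit 5) (nat_lit 4) (nat_lit 4) (nat_lit 2) (nat_lit 4) (nat_lit 228) (nat_lit 199) (nat_lit 173))) (XT.nd (nat_lit 78) (nat_lit 0) (nat_lit 0) (XT.lf (nat_lit 0) (nat_lit 32621864352)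 (nat_lit 152) (nat_lit 27221692600) (nat_lit 0) (nat_lit 24748315783) (nat_lit 2) (nat_lit 5) (nat_lit 4) (nat_lit 4) (nat_lit 2) (nat_lit 4) (nat_lit 229) (nat_lit 199) (nat_lit 172)) (XT.lf (nat_lit 0) (nat_lit 40784754249) (nat_lit 152) (nat_lit 22917904667) (nat_lit 0) (nat_lit 32887061399) (nat_lit 2) (nat_lit 5) (nat_lit 4) (nat_lit 4) (nat_lit 2) (nat_lit 4) (nat_lit 230) (nat_lit 199) (nat_lit 171)))) (XT.nd (nat_lit 156) (nat_lit 76) (nat_lit 0) (XT.nd (nat_lit 78) (nat_lit 0) (nat_lit 0) (XT.lf (nat_lit 0) (nat_lit 50148025408) (nat_lit 152) (nat_lit 18013592893) (nat_lit 0) (nat_lit 42229337531) (nat_lit 2) (nat_lit 5) (nat_lit 4) (nat_lit 4) (nat_lit 2) (nat_lit 4) (nat_lit 231) (nat_lit 199) (nat_lit 170)) (XT.lf (nat_lit 0) (nat_lit 60894872264) (nat_lit 152) (nat_lit 12412803352) (nat_lit 0) (nat_lit 52957927842) (nat_lit 2) (nat_lit 5) (nat_lit 4) (nat_lit 4) (nat_lit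 2) (nat_lit 4) (nat_lit 232) (nat_lit 199) (nat_lit 169))) (XT.nd (nat_lit 78) (nat_lit 76) (nat_lit 0) (XT.lf (nat_lit 0) (nat_lit 73235559214) (nat_lit 152) (nat_lit 6005955380) (nat_lit 0) (nat_lit 65282739536) (nat_lit 2) (nat_lit 5) (nat_lit 4) (nat_lit 4) (nat_lit 2) (nat_lit 4) (nat_lit 233) (nat_lit 199) (nat_lit 168)) (XT.lf (nat_lit 0) (nat_lit 1462504677) (nat_lit 76) (nat_lit 86009589003) (nat_lit 76) (nat_lit 78042964753) (nat_lit 1) (nat_lit 4) (nat_lit 2) (nat_lit 5) (nat_lit 2) (nat_lit 4) (nat_lit 234) (nat_lit 199) (nat_lit 167)))))) (XT.nd (nat_lit 546) (nat_lit 0) (nat_lit 0) (XT.nd (nat_lit 234) (nat_lit 0) (nat_lit 0) (XT.nd (nat_lit 78) (nat_lit 0) (nat_lit 0) (XT.lf (nat_lit 0) (nat_lit 10697950083) (nat_lit 76) (nat_lit 93445183316) (nat_lit 76) (nat_lit 85466555092) (nat_lit 1) (nat_lit 4) (nat_lit 2) (nat_lit 5) (nat_lit 2) (nat_lit 4) (nat_lit 235) (nat_lit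 199) (nat_lit 166)) (XT.nd (nat_lit 78) (nat_lit 0) (nat_lit 0) (XT.lf (nat_lit 0) (nat_lit 21294128695) (nat_lit 76) (nat_lit 102007724222) (nat_lit 76) (nat_lit 94018657758) (nat_lit 1) (nat_lit 4) (nat_lit 2) (nat_lit 5) (nat_lit 2) (nat_lit 4) (nat_lit 236) (nat_lit 199) (nat_lit 165)) (XT.lf (nat_lit 0) (nat_lit 33458357051) (nat_lit 76) (nat_lit 111864739693) (nat_lit 76) (nat_lit 103866596500) (nat_lit 1) (nat_lit 4) (nat_lit 2) (nat_lit 5) (nat_lit 2) (nat_lit 4) (nat_lit 237) (nat_lit 199) (nat_lit 164)))) (XT.nd (nat_lit 156) (nat_lit 0) (nat_lit 0) (XT.nd (nat_lit 78) (nat_lit 0) (nat_lit 0) (XT.lf (nat_lit 0) (nat_lit 47428630924) (nat_lit 76) (nat_lit 123209084382) (nat_lit 76) (nat_lit 115203048380) (nat_lit 1) (nat_lit 4) (nat_lit 2) (nat_lit 5) (nat_lit 2) (nat_lit 4) (nat_lit 238) (nat_lit 199) (nat_lit 163)) (XT.lf (nat_lit 0) (nat_lit 63478281758) (nat_lit 76) (nat_lit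 136262712856) (nat_lit 76) (nat_lit 128249813543) (nat_lit 1) (nat_lit 4) (nat_lit 2) (nat_lit 5) (nat_lit 2) (nat_lit 4) (nat_lit 239) (nat_lit 199) (nat_lit 162))) (XT.nd (nat_lit 78) (nat_lit 0) (nat_lit 0) (XT.lf (nat_lit 0) (nat_lit 81921324461) (nat_lit 76) (nat_lit 151281022197) (nat_lit 76) (nat_lit 143262154787) (nat_lit 1) (nat_lit 4) (nat_lit 2) (nat_lit 5) (nat_lit 2) (nat_lit 4) (nat_lit 240) (nat_lit 199) (nat_lit 161)) (XT.lf (nat_lit 0) (nat_lit 103118601174) (nat_lit 76) (nat_lit 168557848890) (nat_lit 76) (nat_lit 160533791830) (nat_lit 1) (nat_lit 4) (nat_lit 2) (nat_lit 5) (nat_lit 2) (nat_lit 4) (nat_lit 241) (nat_lit 199) (nat_lit 160))))) (XT.nd (nat_lit 312) (nat_lit 0) (nat_lit 0) (XT.nd (nat_lit 156) (nat_lit 0) (nat_lit 0) (XT.nd (nat_lit 78) (nat_lit 0) (nat_lit 0) (XT.lf (nat_lit 0) (nat_lit 127484841223) (nat_lit 76) (nat_lit 188431217806) (nat_lit 76)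 (nat_lit 180402648007) (nat_lit 1) (nat_lit 4) (nat_lit 2) (nat_lit 5) (nat_lit 2) (nat_lit 4) (nat_lit 242) (nat_lit 199) (nat_lit 159)) (XT.lf (nat_lit 0) (nat_lit 155496775391) (nat_lit 76) (nat_lit 211289955727) (nat_lit 76) (nat_lit 203257461808) (nat_lit 1) (nat_lit 4) (nat_lit 2) (nat_lit 5) (nat_lit 2) (nat_lit 4) (nat_lit 243) (nat_lit 199) (nat_lit 158))) (XT.nd (nat_lit 78) (nat_lit 0) (nat_lit 0) (XT.lf (nat_lit 0) (nat_lit 187702463260) (nat_lit 76) (nat_lit 237581298832) (nat_lit 76) (nat_lit 229545392634) (nat_lit 1) (nat_lit 4) (nat_lit 2) (nat_lit 5) (nat_lit 2) (nat_lit 4) (nat_lit 244) (nat_lit 199) (nat_lit 157)) (XT.lf (nat_lit 0) (nat_lit 224732016115) (nat_lit 76) (nat_lit 267819642962) (nat_lit 76) (nat_lit 259780769565) (nat_lit 1) (nat_lit 4) (nat_lit 2) (nat_lit 5) (nat_lit 2) (nat_lit 4) (nat_lit 245) (nat_lit 199) (nat_lit 156)))) (XT.nd (nat_lit 156) (nat_lit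 0) (nat_lit 0) (XT.nd (nat_lit 78) (nat_lit 0) (nat_lit 0) (XT.lf (nat_lit 0) (nat_lit 267309925208) (nat_lit 76) (nat_lit 302596607894) (nat_lit 76) (nat_lit 294555154325) (nat_lit 1) (nat_lit 4) (nat_lit 2) (nat_lit 5) (nat_lit 2) (nat_lit 4) (nat_lit 246) (nat_lit 199) (nat_lit 155)) (XT.lf (nat_lit 0) (nat_lit 316269236584) (nat_lit 76) (nat_lit 342592612509) (nat_lit 76) (nat_lit 334548915310) (nat_lit 1) (nat_lit 4) (nat_lit 2) (nat_lit 5) (nat_lit 2) (nat_lit 4) (nat_lit 247) (nat_lit 199) (nat_lit 154))) (XT.nd (nat_lit 78) (nat_lit 0) (nat_lit 0) (XT.lf (nat_lit 0) (nat_lit 372567849816) (nat_lit 76) (nat_lit 388590187329) (nat_lit 76) (nat_lit 380544539149) (nat_lit 1) (nat_lit 4) (nat_lit 2) (nat_lit 5) (nat_lit 2) (nat_lit 4) (nat_lit 248) (nat_lit 199) (nat_lit 153)) (XT.lf (nat_lit 0) (nat_lit 437307259510) (nat_lit 76) (nat_lit 441489284907) (nat_lit 76) (nat_lit 433441940221)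 (nat_lit 1) (nat_lit 4) (nat_lit 2) (nat_lit 5) (nat_lit 2) (nat_lit 4) (nat_lit 249) (nat_lit 199) (nat_lit 152))))))) (XT.nd (nat_lit 1170) (nat_lit 0) (nat_lit 0) (XT.nd (nat_lit 546) (nat_lit 0) (nat_lit 0) (XT.nd (nat_lit 234) (nat_lit 0) (nat_lit 0) (XT.nd (nat_lit 78) (nat_lit 0) (nat_lit 0) (XT.lf (nat_lit 0) (nat_lit 511754106289) (nat_lit 76) (nat_lit 502324887587) (nat_lit 76) (nat_lit 494276067678) (nat_lit 1) (nat_lit 4) (nat_lit 2) (nat_lit 5) (nat_lit 2) (nat_lit 4) (nat_lit 250) (nat_lit 199) (nat_lit 151)) (XT.nd (nat_lit 78) (nat_lit 0) (nat_lit 0) (XT.lf (nat_lit 0) (nat_lit 597364958896) (nat_lit 76) (nat_lit 572287257159) (nat_lit 76) (nat_lit 564237154449) (nat_lit 1) (nat_lit 4) (nat_lit 2) (nat_lit 5) (nat_lit 2) (nat_lit 4) (nat_lit 251) (nat_lit 199) (nat_lit 150)) (XT.lf (nat_lit 0) (nat_lit 695814812273) (nat_lit 76) (nat_lit 652745222594) (nat_lit 76) (nat_lit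 644694004404) (nat_lit 1) (nat_lit 4) (nat_lit 2) (nat_lit 5) (nat_lit 2) (nat_lit 4) (nat_lit 252) (nat_lit 199) (nat_lit 149)))) (XT.nd (nat_lit 156) (nat_lit 0) (nat_lit 0) (XT.nd (nat_lit 78) (nat_lit 0) (nat_lit 0) (XT.lf (nat_lit 0) (nat_lit 809029859204) (nat_lit 76) (nat_lit 745272961476) (nat_lit 76) (nat_lit 737220773303) (nat_lit 1) (nat_lit 4) (nat_lit 2) (nat_lit 5) (nat_lit 2) (nat_lit 4) (nat_lit 253) (nat_lit 199) (nat_lit 148)) (XT.lf (nat_lit 0) (nat_lit 939225176692) (nat_lit 76) (nat_lit 851680799132) (nat_lit 76) (nat_lit 843627767496) (nat_lit 1) (nat_lit 4) (nat_lit 2) (nat_lit 5) (nat_lit 2) (nat_lit 4) (nat_lit 254) (nat_lit 199) (nat_lit 147))) (XT.nd (nat_lit 78) (nat_lit 0) (nat_lit 0) (XT.lf (nat_lit 0) (nat_lit 1088948064429) (nat_lit 76) (nat_lit 974050628037) (nat_lit 76) (nat_lit 965996862955) (nat_lit 1) (nat_lit 4) (nat_lit 2) (nat_lit 5) (nat_lit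 2) (nat_lit 4) (nat_lit 255) (nat_lit 199) (nat_lit 146)) (XT.lf (nat_lit 0) (nat_lit 1261127883262) (nat_lit 76) (nat_lit 1114776640495) (nat_lit 76) (nat_lit 1106722237634) (nat_lit 1) (nat_lit 4) (nat_lit 2) (nat_lit 5) (nat_lit 2) (nat_lit 4) (nat_lit 256) (nat_lit 199) (nat_lit 145))))) (XT.nd (nat_lit 312) (nat_lit 0) (nat_lit 0) (XT.nd (nat_lit 156) (nat_lit 0) (nat_lit 0) (XT.nd (nat_lit 78) (nat_lit 0) (nat_lit 0) (XT.lf (nat_lit 0) (nat_lit 1459133368775) (nat_lit 76) (nat_lit 1276612171534) (nat_lit 76) (nat_lit 1268557214082) (nat_lit 1) (nat_lit 4) (nat_lit 2) (nat_lit 5) (nat_lit 2) (nat_lit 4) (nat_lit 257) (nat_lit 199) (nat_lit 144)) (XT.lf (nat_lit 0) (nat_lit 1686838541339) (nat_lit 76) (nat_lit 1462723568500) (nat_lit 76) (nat_lit 1454668128795) (nat_lit 1) (nat_lit 4) (nat_lit 2) (nat_lit 5) (nat_lit 2) (nat_lit 4) (nat_lit 258) (nat_lit 199) (nat_lit 143))) (XT.nd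 (nat_lit 78) (nat_lit 0) (nat_lit 0) (XT.lf (nat_lit 0) (nat_lit 1948698502155) (nat_lit 76) (nat_lit 1676752141332) (nat_lit 76) (nat_lit 1668696282277) (nat_lit 1) (nat_lit 4) (nat_lit 2) (nat_lit 5) (nat_lit 2) (nat_lit 4) (nat_lit 259) (nat_lit 199) (nat_lit 142)) (XT.lf (nat_lit 0) (nat_lit 2249836598283) (nat_lit 76) (nat_lit 1922885405588) (nat_lit 76) (nat_lit 1914829181880) (nat_lit 1) (nat_lit 4) (nat_lit 2) (nat_lit 5) (nat_lit 2) (nat_lit 4) (nat_lit 260) (nat_lit 199) (nat_lit 141)))) (XT.nd (nat_lit 156) (nat_lit 0) (nat_lit 0) (XT.nd (nat_lit 78) (nat_lit 0) (nat_lit 0) (XT.lf (nat_lit 0) (nat_lit 2596144662038) (nat_lit 76) (nat_lit 2205939012088) (nat_lit 76) (nat_lit 2197882471292) (nat_lit 1) (nat_lit 4) (nat_lit 2) (nat_lit 5) (nat_lit 2) (nat_lit 4) (nat_lit 261) (nat_lit 199) (nat_lit 140)) (XT.lf (nat_lit 0) (nat_lit 2994398285973) (nat_lit 76) (nat_lit 2531450966179)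 (nat_lit 76) (nat_lit 2523394149653) (nat_lit 1) (nat_lit 4) (nat_lit 2) (nat_lit 5) (nat_lit 2) (nat_lit 4) (nat_lit 262) (nat_lit 199) (nat_lit 139))) (XT.nd (nat_lit 78) (nat_lit 0) (nat_lit 0) (XT.lf (nat_lit 0) (nat_lit 3452389388815) (nat_lit 76) (nat_lit 2905789980004) (nat_lit 76) (nat_lit 2897732923713) (nat_lit 1) (nat_lit 4) (nat_lit 2) (nat_lit 5) (nat_lit 2) (nat_lit 4) (nat_lit 263) (nat_lit 199) (nat_lit 138)) (XT.lf (nat_lit 0) (nat_lit 3979078666057) (nat_lit 76) (nat_lit 3336280077747) (nat_lit 76) (nat_lit 3328222812965) (nat_lit 1) (nat_lit 4) (nat_lit 2) (nat_lit 5) (nat_lit 2) (nat_lit 4) (nat_lit 264) (nat_lit 199) (nat_lit 137)))))) (XT.nd (nat_lit 26208) (nat_lit 0) (nat_lit 988) (XT.nd (nat_lit 312) (nat_lit 0) (nat_lit 0) (XT.nd (nat_lit 156) (nat_lit 0) (nat_lit 0) (XT.nd (nat_lit 78) (nat_lit 0) (nat_lit 0) (XT.lf (nat_lit 0) (nat_lit 4584770907904) (nat_lit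 76) (nat_lit 3831343891756) (nat_lit 76) (nat_lit 3823286445677) (nat_lit 1) (nat_lit 4) (nat_lit 2) (nat_lit 5) (nat_lit 2) (nat_lit 4) (nat_lit 265) (nat_lit 199) (nat_lit 136)) (XT.lf (nat_lit 0) (nat_lit 5281316614740) (nat_lit 76) (nat_lit 4400667453175) (nat_lit 76) (nat_lit 4392609849446) (nat_lit 1) (nat_lit 4) (nat_lit 2) (nat_lit 5) (nat_lit 2) (nat_lit 4) (nat_lit 266) (nat_lit 199) (nat_lit 135))) (XT.nd (nat_lit 78) (nat_lit 0) (nat_lit 0) (XT.lf (nat_lit 0) (nat_lit 6082343854743) (nat_lit 76) (nat_lit 5055389701247) (nat_lit 76) (nat_lit 5047331960433) (nat_lit 1) (nat_lit 4) (nat_lit 2) (nat_lit 5) (nat_lit 2) (nat_lit 4) (nat_lit 267) (nat_lit 199) (nat_lit 134)) (XT.lf (nat_lit 0) (nat_lit 7003524900000) (nat_lit 76) (nat_lit 5808320419089) (nat_lit 76) (nat_lit 5800262559069) (nat_lit 1) (nat_lit 4) (nat_lit 2) (nat_lit 5) (nat_lit 2) (nat_lit 4) (nat_lit 268) (nat_lit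 199) (nat_lit 133)))) (XT.nd (nat_lit 156) (nat_lit 0) (nat_lit 0) (XT.nd (nat_lit 78) (nat_lit 0) (nat_lit 0) (XT.lf (nat_lit 0) (nat_lit 8062882857918) (nat_lit 76) (nat_lit 6674190859874) (nat_lit 76) (nat_lit 6666132896197) (nat_lit 1) (nat_lit 4) (nat_lit 2) (nat_lit 5) (nat_lit 2) (nat_lit 4) (nat_lit 269) (nat_lit 199) (nat_lit 132)) (XT.lf (nat_lit 0) (nat_lit 9281144297238) (nat_lit 76) (nat_lit 7669941967011) (nat_lit 76) (nat_lit 7661883913197) (nat_lit 1) (nat_lit 4) (nat_lit 2) (nat_lit 5) (nat_lit 2) (nat_lit 4) (nat_lit 270) (nat_lit 199) (nat_lit 131))) (XT.nd (nat_lit 78) (nat_lit 0) (nat_lit 0) (XT.lf (nat_lit 0) (nat_lit 10682144767861) (nat_lit 76) (nat_lit 8815055827376) (nat_lit 76) (nat_lit 8806997695183) (nat_lit 1) (nat_lit 4) (nat_lit 2) (nat_lit 5) (nat_lit 2) (nat_lit 4) (nat_lit 271) (nat_lit 199) (nat_lit 130)) (XT.lf (nat_lit 0) (nat_lit 12293295148560)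 (nat_lit 76) (nat_lit 10131936842587) (nat_lit 76) (nat_lit 10123878642238) (nat_lit 1) (nat_lit 4) (nat_lit 2) (nat_lit 5) (nat_lit 2) (nat_lit 4) (nat_lit 272) (nat_lit 199) (nat_lit 129))))) (XT.nd (nat_lit 312) (nat_lit 456) (nat_lit 0) (XT.nd (nat_lit 156) (nat_lit 152) (nat_lit 0) (XT.nd (nat_lit 78) (nat_lit 76) (nat_lit 0) (XT.lf (nat_lit 0) (nat_lit 1073741823) (nat_lit 0) (nat_lit 0) (nat_lit 0) (nat_lit 0) (nat_lit 23) (nat_lit 0) (nat_lit 1) (nat_lit 0) (nat_lit 1) (nat_lit 0) (nat_lit 200) (nat_lit 200) (nat_lit 200)) (XT.lf (nat_lit 0) (nat_lit 2680246330) (nat_lit 76) (nat_lit 3536195964) (nat_lit 0) (nat_lit 248921365) (nat_lit 22) (nat_lit 5) (nat_lit 23) (nat_lit 0) (nat_lit 22) (nat_lit 4) (nat_lit 201) (nat_lit 200) (nat_lit 199))) (XT.nd (nat_lit 78) (nat_lit 152) (nat_lit 0) (XT.lf (nat_lit 0) (nat_lit 5297154883) (nat_lit 76) (nat_lit 523099127) (nat_lit 0) (nat_lit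 751634296) (nat_lit 22) (nat_lit 5) (nat_lit 23) (nat_lit 0) (nat_lit 22) (nat_lit 4) (nat_lit 202) (nat_lit 200) (nat_lit 198)) (XT.lf (nat_lit 0) (nat_lit 1162986904) (nat_lit 152) (nat_lit 3883529718) (nat_lit 76) (nat_lit 1691555317) (nat_lit 20) (nat_lit 5) (nat_lit 22) (nat_lit 5) (nat_lit 21) (nat_lit 4) (nat_lit 203) (nat_lit 200) (nat_lit 197)))) (XT.nd (nat_lit 156) (nat_lit 304) (nat_lit 0) (XT.nd (nat_lit 78) (nat_lit 152) (nat_lit 0) (XT.lf (nat_lit 0) (nat_lit 3476863902) (nat_lit 152) (nat_lit 507329801) (nat_lit 76) (nat_lit 2996550779) (nat_lit 20) (nat_lit 5) (nat_lit 22) (nat_lit 5) (nat_lit 21) (nat_lit 4) (nat_lit 204) (nat_lit 200) (nat_lit 196)) (XT.lf (nat_lit 0) (nat_lit 3401743756) (nat_lit 152) (nat_lit 2539860377) (nat_lit 228) (nat_lit 1353574925) (nat_lit 18) (nat_lit 5) (nat_lit 20) (nat_lit 5) (nat_lit 21) (nat_lit 4) (nat_lit 205) (nat_lit 200) (nat_lit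 195))) (XT.nd (nat_lit 78) (nat_lit 228) (nat_lit 0) (XT.lf (nat_lit 0) (nat_lit 724203410) (nat_lit 228) (nat_lit 46123741) (nat_lit 76) (nat_lit 6928296481) (nat_lit 17) (nat_lit 5) (nat_lit 20) (nat_lit 5) (nat_lit 18) (nat_lit 5) (nat_lit 206) (nat_lit 200) (nat_lit 194)) (XT.lf (nat_lit 0) (nat_lit 2943292291) (nat_lit 304) (nat_lit 3787253936) (nat_lit 76) (nat_lit 1431034680) (nat_lit 14) (nat_lit 5) (nat_lit 18) (nat_lit 5) (nat_lit 15) (nat_lit 4) (nat_lit 207) (nat_lit 200) (nat_lit 193))))))))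
noncomputable def xc25 : XT := (XT.nd (nat_lit 2418) (nat_lit 0) (nat_lit 0) (XT.nd (nat_lit 1170) (nat_lit 228) (nat_lit 0) (XT.nd (nat_lit 546) (nat_lit 304) (nat_lit 0) (XT.nd (nat_lit 234) (nat_lit 76) (nat_lit 0) (XT.nd (nat_lit 78) (nat_lit 228) (nat_lit 0) (XT.lf (nat_lit 0) (nat_lit 485022541) (nat_lit 152) (nat_lit 4815051574) (nat_lit 228) (nat_lit 3426572802) (nat_lit 12) (nat_lit 5) (nat_lit 14) (nat_lit 5) (nat_lit 15) (nat_lit 4) (nat_lit 208) (nat_lit 200) (nat_lit 192)) (XT.nd (nat_lit 78) (nat_lit 228) (nat_lit 0) (XT.lf (nat_lit 0) (nat_lit 5546223663) (nat_lit 152) (nat_lit 2429355299) (nat_lit 228) (nat_lit 1409060467) (nat_lit 12) (nat_lit 5) (nat_lit 14) (nat_lit 5) (nat_lit 15) (nat_lit 4) (nat_lit 209) (nat_lit 200) (nat_lit 191)) (XT.lf (nat_lit 0) (nat_lit 672274523) (nat_lit 228) (nat_lit 9165268428) (nat_lit 76) (nat_lit 324011748) (nat_lit 9) (nat_lit 5)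 (nat_lit 12) (nat_lit 5) (nat_lit 10) (nat_lit 4) (nat_lit 210) (nat_lit 200) (nat_lit 190)))) (XT.nd (nat_lit 156) (nat_lit 0) (nat_lit 0) (XT.nd (nat_lit 78) (nat_lit 76) (nat_lit 0) (XT.lf (nat_lit 0) (nat_lit 3048257255) (nat_lit 228) (nat_lit 4511337576) (nat_lit 76) (nat_lit 3468279452) (nat_lit 9) (nat_lit 5) (nat_lit 12) (nat_lit 5) (nat_lit 10) (nat_lit 4) (nat_lit 211) (nat_lit 200) (nat_lit 189)) (XT.lf (nat_lit 0) (nat_lit 653973742) (nat_lit 76) (nat_lit 4980548441) (nat_lit 152) (nat_lit 6413222124) (nat_lit 8) (nat_lit 5) (nat_lit 9) (nat_lit 5) (nat_lit 10) (nat_lit 4) (nat_lit 212) (nat_lit 200) (nat_lit 188))) (XT.nd (nat_lit 78) (nat_lit 0) (nat_lit 0) (XT.lf (nat_lit 0) (nat_lit 6867297359) (nat_lit 76) (nat_lit 1816964132) (nat_lit 152) (nat_lit 4526468559) (nat_lit 8) (nat_lit 5) (nat_lit 9) (nat_lit 5) (nat_lit 10) (nat_lit 4) (nat_lit 213) (nat_lit 200) (nat_lit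 187)) (XT.lf (nat_lit 0) (nat_lit 12124846521) (nat_lit 152) (nat_lit 833790444) (nat_lit 0) (nat_lit 1600793236) (nat_lit 8) (nat_lit 5) (nat_lit 10) (nat_lit 4) (nat_lit 8) (nat_lit 4) (nat_lit 214) (nat_lit 200) (nat_lit 186))))) (XT.nd (nat_lit 312) (nat_lit 76) (nat_lit 0) (XT.nd (nat_lit 156) (nat_lit 76) (nat_lit 0) (XT.nd (nat_lit 78) (nat_lit 0) (nat_lit 0) (XT.lf (nat_lit 0) (nat_lit 182576608) (nat_lit 152) (nat_lit 10357446606) (nat_lit 76) (nat_lit 5540217539) (nat_lit 6) (nat_lit 5) (nat_lit 8) (nat_lit 5) (nat_lit 7) (nat_lit 4) (nat_lit 215) (nat_lit 200) (nat_lit 185)) (XT.lf (nat_lit 0) (nat_lit 2867309001) (nat_lit 152) (nat_lit 4781735462) (nat_lit 76) (nat_lit 10174938435) (nat_lit 6) (nat_lit 5) (nat_lit 8) (nat_lit 5) (nat_lit 7) (nat_lit 4) (nat_lit 216) (nat_lit 200) (nat_lit 184))) (XT.nd (nat_lit 78) (nat_lit 0) (nat_lit 0) (XT.lf (nat_lit 0) (nat_lit 1600979730)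 (nat_lit 76) (nat_lit 4314493467) (nat_lit 152) (nat_lit 13920433446) (nat_lit 5) (nat_lit 5) (nat_lit 6) (nat_lit 5) (nat_lit 7) (nat_lit 4) (nat_lit 217) (nat_lit 200) (nat_lit 183)) (XT.lf (nat_lit 0) (nat_lit 9314434013) (nat_lit 76) (nat_lit 257787517) (nat_lit 152) (nat_lit 12555327029) (nat_lit 5) (nat_lit 5) (nat_lit 6) (nat_lit 5) (nat_lit 7) (nat_lit 4) (nat_lit 218) (nat_lit 200) (nat_lit 182)))) (XT.nd (nat_lit 156) (nat_lit 76) (nat_lit 0) (XT.nd (nat_lit 78) (nat_lit 0) (nat_lit 0) (XT.lf (nat_lit 0) (nat_lit 13871891953) (nat_lit 152) (nat_lit 6914255520) (nat_lit 0) (nat_lit 3963178717) (nat_lit 5) (nat_lit 5) (nat_lit 7) (nat_lit 4) (nat_lit 5) (nat_lit 4) (nat_lit 219) (nat_lit 200) (nat_lit 181)) (XT.lf (nat_lit 0) (nat_lit 18752186618) (nat_lit 152) (nat_lit 276515542) (nat_lit 0) (nat_lit 8745796300) (nat_lit 5) (nat_lit 5) (nat_lit 7) (nat_lit 4) (nat_lit 5) (nat_lit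 4) (nat_lit 220) (nat_lit 200) (nat_lit 180))) (XT.nd (nat_lit 78) (nat_lit 0) (nat_lit 0) (XT.lf (nat_lit 0) (nat_lit 7948257489) (nat_lit 76) (nat_lit 16678778025) (nat_lit 76) (nat_lit 6587451112) (nat_lit 4) (nat_lit 4) (nat_lit 5) (nat_lit 5) (nat_lit 5) (nat_lit 4) (nat_lit 221) (nat_lit 200) (nat_lit 179)) (XT.lf (nat_lit 0) (nat_lit 17326869755) (nat_lit 76) (nat_lit 14008179817) (nat_lit 76) (nat_lit 3842994997) (nat_lit 4) (nat_lit 4) (nat_lit 5) (nat_lit 5) (nat_lit 5) (nat_lit 4) (nat_lit 222) (nat_lit 200) (nat_lit 178)))))) (XT.nd (nat_lit 624) (nat_lit 76) (nat_lit 0) (XT.nd (nat_lit 312) (nat_lit 0) (nat_lit 0) (XT.nd (nat_lit 156) (nat_lit 76) (nat_lit 0) (XT.nd (nat_lit 78) (nat_lit 76) (nat_lit 0) (XT.lf (nat_lit 0) (nat_lit 28015792733) (nat_lit 76) (nat_lit 10979110926) (nat_lit 76) (nat_lit 749701838) (nat_lit 4) (nat_lit 4) (nat_lit 5) (nat_lit 5) (nat_lit 5)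 (nat_lit 4) (nat_lit 223) (nat_lit 200) (nat_lit 177)) (XT.lf (nat_lit 0) (nat_lit 2507862731) (nat_lit 152) (nat_lit 4893351403) (nat_lit 76) (nat_lit 37585201967) (nat_lit 3) (nat_lit 5) (nat_lit 5) (nat_lit 5) (nat_lit 4) (nat_lit 4) (nat_lit 224) (nat_lit 200) (nat_lit 176))) (XT.nd (nat_lit 78) (nat_lit 0) (nat_lit 0) (XT.lf (nat_lit 0) (nat_lit 3133285488) (nat_lit 76) (nat_lit 3130484064) (nat_lit 152) (nat_lit 44732611423) (nat_lit 2) (nat_lit 5) (nat_lit 3) (nat_lit 5) (nat_lit 4) (nat_lit 4) (nat_lit 225) (nat_lit 200) (nat_lit 175)) (XT.lf (nat_lit 0) (nat_lit 10882705583) (nat_lit 152) (nat_lit 45120313069) (nat_lit 0) (nat_lit 1860055541) (nat_lit 2) (nat_lit 5) (nat_lit 4) (nat_lit 4) (nat_lit 2) (nat_lit 4) (nat_lit 226) (nat_lit 200) (nat_lit 174)))) (XT.nd (nat_lit 156) (nat_lit 0) (nat_lit 0) (XT.nd (nat_lit 78) (nat_lit 0) (nat_lit 0) (XT.lf (nat_lit 0) (nat_lit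 16306972265) (nat_lit 152) (nat_lit 42183690782) (nat_lit 0) (nat_lit 7252391411) (nat_lit 2) (nat_lit 5) (nat_lit 4) (nat_lit 4) (nat_lit 2) (nat_lit 4) (nat_lit 227) (nat_lit 200) (nat_lit 173)) (XT.lf (nat_lit 0) (nat_lit 22513069885) (nat_lit 152) (nat_lit 38866146303) (nat_lit 0) (nat_lit 13430723107) (nat_lit 2) (nat_lit 5) (nat_lit 4) (nat_lit 4) (nat_lit 2) (nat_lit 4) (nat_lit 228) (nat_lit 200) (nat_lit 172))) (XT.nd (nat_lit 78) (nat_lit 0) (nat_lit 0) (XT.lf (nat_lit 0) (nat_lit 29622422092) (nat_lit 152) (nat_lit 35102771154) (nat_lit 0) (nat_lit 20515931034) (nat_lit 2) (nat_lit 5) (nat_lit 4) (nat_lit 4) (nat_lit 2) (nat_lit 4) (nat_lit 229) (nat_lit 200) (nat_lit 171)) (XT.lf (nat_lit 0) (nat_lit 37774124909) (nat_lit 152) (nat_lit 30819934081) (nat_lit 0) (nat_lit 28646638823) (nat_lit 2) (nat_lit 5) (nat_lit 4) (nat_lit 4) (nat_lit 2) (nat_lit 4) (nat_lit 230) (nat_lit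 200) (nat_lit 170))))) (XT.nd (nat_lit 312) (nat_lit 76) (nat_lit 0) (XT.nd (nat_lit 156) (nat_lit 0) (nat_lit 0) (XT.nd (nat_lit 78) (nat_lit 0) (nat_lit 0) (XT.lf (nat_lit 0) (nat_lit 47127668172) (nat_lit 152) (nat_lit 25933840447) (nat_lit 0) (nat_lit 37981925541) (nat_lit 2) (nat_lit 5) (nat_lit 4) (nat_lit 4) (nat_lit 2) (nat_lit 4) (nat_lit 231) (nat_lit 200) (nat_lit 169)) (XT.lf (nat_lit 0) (nat_lit 57866055989) (nat_lit 152) (nat_lit 20348892766) (nat_lit 0) (nat_lit 48704438102) (nat_lit 2) (nat_lit 5) (nat_lit 4) (nat_lit 4) (nat_lit 2) (nat_lit 4) (nat_lit 232) (nat_lit 200) (nat_lit 168))) (XT.nd (nat_lit 78) (nat_lit 0) (nat_lit 0) (XT.lf (nat_lit 0) (nat_lit 70199387252) (nat_lit 152) (nat_lit 13955820324) (nat_lit 0) (nat_lit 61023964794) (nat_lit 2) (nat_lit 5) (nat_lit 4) (nat_lit 4) (nat_lit 2) (nat_lit 4) (nat_lit 233) (nat_lit 200) (nat_lit 167)) (XT.lf (nat_lit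 0) (nat_lit 84368966269) (nat_lit 152) (nat_lit 6629541268) (nat_lit 0) (nat_lit 75181539836) (nat_lit 2) (nat_lit 5) (nat_lit 4) (nat_lit 4) (nat_lit 2) (nat_lit 4) (nat_lit 234) (nat_lit 200) (nat_lit 166)))) (XT.nd (nat_lit 156) (nat_lit 0) (nat_lit 0) (XT.nd (nat_lit 78) (nat_lit 0) (nat_lit 0) (XT.lf (nat_lit 0) (nat_lit 1946582914) (nat_lit 76) (nat_lit 98786044865) (nat_lit 76) (nat_lit 89588180193) (nat_lit 1) (nat_lit 4) (nat_lit 2) (nat_lit 5) (nat_lit 2) (nat_lit 4) (nat_lit 235) (nat_lit 200) (nat_lit 165)) (XT.lf (nat_lit 0) (nat_lit 12532818714) (nat_lit 76) (nat_lit 107353280389) (nat_lit 76) (nat_lit 98146338988) (nat_lit 1) (nat_lit 4) (nat_lit 2) (nat_lit 5) (nat_lit 2) (nat_lit 4) (nat_lit 236) (nat_lit 200) (nat_lit 164))) (XT.nd (nat_lit 78) (nat_lit 0) (nat_lit 0) (XT.lf (nat_lit 0) (nat_lit 24688401146) (nat_lit 76) (nat_lit 117214378138) (nat_lit 76) (nat_lit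 107999543928) (nat_lit 1) (nat_lit 4) (nat_lit 2) (nat_lit 5) (nat_lit 2) (nat_lit 4) (nat_lit 237) (nat_lit 200) (nat_lit 163)) (XT.lf (nat_lit 0) (nat_lit 38651156823) (nat_lit 76) (nat_lit 128562272633) (nat_lit 76) (nat_lit 119340575111) (nat_lit 1) (nat_lit 4) (nat_lit 2) (nat_lit 5) (nat_lit 2) (nat_lit 4) (nat_lit 238) (nat_lit 200) (nat_lit 162))))))) (XT.nd (nat_lit 1170) (nat_lit 0) (nat_lit 0) (XT.nd (nat_lit 546) (nat_lit 0) (nat_lit 0) (XT.nd (nat_lit 234) (nat_lit 0) (nat_lit 0) (XT.nd (nat_lit 78) (nat_lit 0) (nat_lit 0) (XT.lf (nat_lit 0) (nat_lit 54694270096) (nat_lit 76) (nat_lit 141618987895) (nat_lit 76) (nat_lit 132391322277) (nat_lit 1) (nat_lit 4) (nat_lit 2) (nat_lit 5) (nat_lit 2) (nat_lit 4) (nat_lit 239) (nat_lit 200) (nat_lit 161)) (XT.nd (nat_lit 78) (nat_lit 0) (nat_lit 0) (XT.lf (nat_lit 0) (nat_lit 73131627964) (nat_lit 76) (nat_lit 156639981399) (nat_lit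 76) (nat_lit 147407126131) (nat_lit 1) (nat_lit 4) (nat_lit 2) (nat_lit 5) (nat_lit 2) (nat_lit 4) (nat_lit 240) (nat_lit 200) (nat_lit 160)) (XT.lf (nat_lit 0) (nat_lit 94323961342) (nat_lit 76) (nat_lit 173919142148) (nat_lit 76) (nat_lit 164681774141) (nat_lit 1) (nat_lit 4) (nat_lit 2) (nat_lit 5) (nat_lit 2) (nat_lit 4) (nat_lit 241) (nat_lit 200) (nat_lit 159)))) (XT.nd (nat_lit 156) (nat_lit 0) (nat_lit 0) (XT.nd (nat_lit 78) (nat_lit 0) (nat_lit 0) (XT.lf (nat_lit 0) (nat_lit 118685902838) (nat_lit 76) (nat_lit 193794540677) (nat_lit 76) (nat_lit 184553248549) (nat_lit 1) (nat_lit 4) (nat_lit 2) (nat_lit 5) (nat_lit 2) (nat_lit 4) (nat_lit 242) (nat_lit 200) (nat_lit 158)) (XT.lf (nat_lit 0) (nat_lit 146694099135) (nat_lit 76) (nat_lit 216655043480) (nat_lit 76) (nat_lit 207410339073) (nat_lit 1) (nat_lit 4) (nat_lit 2) (nat_lit 5) (nat_lit 2) (nat_lit 4) (nat_lit 243) (nat_lit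 200) (nat_lit 157))) (XT.nd (nat_lit 78) (nat_lit 0) (nat_lit 0) (XT.lf (nat_lit 0) (nat_lit 178896536681) (nat_lit 76) (nat_lit 242947921263) (nat_lit 76) (nat_lit 233700249658) (nat_lit 1) (nat_lit 4) (nat_lit 2) (nat_lit 5) (nat_lit 2) (nat_lit 4) (nat_lit 244) (nat_lit 200) (nat_lit 156)) (XT.lf (nat_lit 0) (nat_lit 215923263168) (nat_lit 76) (nat_lit 273187599897) (nat_lit 76) (nat_lit 263937348119) (nat_lit 1) (nat_lit 4) (nat_lit 2) (nat_lit 5) (nat_lit 2) (nat_lit 4) (nat_lit 245) (nat_lit 200) (nat_lit 155))))) (XT.nd (nat_lit 312) (nat_lit 0) (nat_lit 0) (XT.nd (nat_lit 156) (nat_lit 0) (nat_lit 0) (XT.nd (nat_lit 78) (nat_lit 0) (nat_lit 0) (XT.lf (nat_lit 0) (nat_lit 258498714549) (nat_lit 76) (nat_lit 307965725267) (nat_lit 76) (nat_lit 298713229860) (nat_lit 1) (nat_lit 4) (nat_lit 2) (nat_lit 5) (nat_lit 2) (nat_lit 4) (nat_lit 246) (nat_lit 200) (nat_lit 154)) (XT.lf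 (nat_lit 0) (nat_lit 307455888785) (nat_lit 76) (nat_lit 347962738958) (nat_lit 76) (nat_lit 338708292569) (nat_lit 1) (nat_lit 4) (nat_lit 2) (nat_lit 5) (nat_lit 2) (nat_lit 4) (nat_lit 247) (nat_lit 200) (nat_lit 153))) (XT.nd (nat_lit 78) (nat_lit 0) (nat_lit 0) (XT.lf (nat_lit 0) (nat_lit 363752643634) (nat_lit 76) (nat_lit 393961191236) (nat_lit 76) (nat_lit 384705048342) (nat_lit 1) (nat_lit 4) (nat_lit 2) (nat_lit 5) (nat_lit 2) (nat_lit 4) (nat_lit 248) (nat_lit 200) (nat_lit 152)) (XT.lf (nat_lit 0) (nat_lit 428490437343) (nat_lit 76) (nat_lit 446861051821) (nat_lit 76) (nat_lit 437603433705) (nat_lit 1) (nat_lit 4) (nat_lit 2) (nat_lit 5) (nat_lit 2) (nat_lit 4) (nat_lit 249) (nat_lit 200) (nat_lit 151)))) (XT.nd (nat_lit 156) (nat_lit 0) (nat_lit 0) (XT.nd (nat_lit 78) (nat_lit 0) (nat_lit 0) (XT.lf (nat_lit 0) (nat_lit 502935878918) (nat_lit 76) (nat_lit 507697317985)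 (nat_lit 76) (nat_lit 498438417066) (nat_lit 1) (nat_lit 4) (nat_lit 2) (nat_lit 5) (nat_lit 2) (nat_lit 4) (nat_lit 250) (nat_lit 200) (nat_lit 150)) (XT.lf (nat_lit 0) (nat_lit 588545509608) (nat_lit 76) (nat_lit 577660264500) (nat_lit 76) (nat_lit 568400248101) (nat_lit 1) (nat_lit 4) (nat_lit 2) (nat_lit 5) (nat_lit 2) (nat_lit 4) (nat_lit 251) (nat_lit 200) (nat_lit 149))) (XT.nd (nat_lit 78) (nat_lit 0) (nat_lit 0) (XT.lf (nat_lit 0) (nat_lit 686994300449) (nat_lit 76) (nat_lit 658118731624) (nat_lit 76) (nat_lit 648857745243) (nat_lit 1) (nat_lit 4) (nat_lit 2) (nat_lit 5) (nat_lit 2) (nat_lit 4) (nat_lit 252) (nat_lit 200) (nat_lit 148)) (XT.lf (nat_lit 0) (nat_lit 800208423434) (nat_lit 76) (nat_lit 750646906758) (nat_lit 76) (nat_lit 741385076914) (nat_lit 1) (nat_lit 4) (nat_lit 2) (nat_lit 5) (nat_lit 2) (nat_lit 4) (nat_lit 253) (nat_lit 200) (nat_lit 147)))))) (XT.nd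 (nat_lit 624) (nat_lit 0) (nat_lit 0) (XT.nd (nat_lit 312) (nat_lit 0) (nat_lit 0) (XT.nd (nat_lit 156) (nat_lit 0) (nat_lit 0) (XT.nd (nat_lit 78) (nat_lit 0) (nat_lit 0) (XT.lf (nat_lit 0) (nat_lit 930402937493) (nat_lit 76) (nat_lit 857055123763) (nat_lit 76) (nat_lit 847792560472) (nat_lit 1) (nat_lit 4) (nat_lit 2) (nat_lit 5) (nat_lit 2) (nat_lit 4) (nat_lit 254) (nat_lit 200) (nat_lit 146)) (XT.lf (nat_lit 0) (nat_lit 1080125126595) (nat_lit 76) (nat_lit 979425282537) (nat_lit 76) (nat_lit 970162081467) (nat_lit 1) (nat_lit 4) (nat_lit 2) (nat_lit 5) (nat_lit 2) (nat_lit 4) (nat_lit 255) (nat_lit 200) (nat_lit 145))) (XT.nd (nat_lit 78) (nat_lit 0) (nat_lit 0) (XT.lf (nat_lit 0) (nat_lit 1252304337919) (nat_lit 76) (nat_lit 1120151581838) (nat_lit 76) (nat_lit 1110887826177) (nat_lit 1) (nat_lit 4) (nat_lit 2) (nat_lit 5) (nat_lit 2) (nat_lit 4) (nat_lit 256) (nat_lit 200) (nat_lit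 144)) (XT.lf (nat_lit 0) (nat_lit 1450309295164) (nat_lit 76) (nat_lit 1281987362305) (nat_lit 76) (nat_lit 1272723124392) (nat_lit 1) (nat_lit 4) (nat_lit 2) (nat_lit 5) (nat_lit 2) (nat_lit 4) (nat_lit 257) (nat_lit 200) (nat_lit 143)))) (XT.nd (nat_lit 156) (nat_lit 0) (nat_lit 0) (XT.nd (nat_lit 78) (nat_lit 0) (nat_lit 0) (XT.lf (nat_lit 0) (nat_lit 1678014008364) (nat_lit 76) (nat_lit 1468098976165) (nat_lit 76) (nat_lit 1458834318901) (nat_lit 1) (nat_lit 4) (nat_lit 2) (nat_lit 5) (nat_lit 2) (nat_lit 4) (nat_lit 258) (nat_lit 200) (nat_lit 142)) (XT.lf (nat_lit 0) (nat_lit 1939873569733) (nat_lit 76) (nat_lit 1682127737601) (nat_lit 76) (nat_lit 1672862715685) (nat_lit 1) (nat_lit 4) (nat_lit 2) (nat_lit 5) (nat_lit 2) (nat_lit 4) (nat_lit 259) (nat_lit 200) (nat_lit 141))) (XT.nd (nat_lit 78) (nat_lit 0) (nat_lit 0) (XT.lf (nat_lit 0) (nat_lit 2241011318516) (nat_lit 76)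 (nat_lit 1928261165860) (nat_lit 76) (nat_lit 1918995826855) (nat_lit 1) (nat_lit 4) (nat_lit 2) (nat_lit 5) (nat_lit 2) (nat_lit 4) (nat_lit 260) (nat_lit 200) (nat_lit 140)) (XT.lf (nat_lit 0) (nat_lit 2587319080232) (nat_lit 76) (nat_lit 2211314914972) (nat_lit 76) (nat_lit 2202049300237) (nat_lit 1) (nat_lit 4) (nat_lit 2) (nat_lit 5) (nat_lit 2) (nat_lit 4) (nat_lit 261) (nat_lit 200) (nat_lit 139))))) (XT.nd (nat_lit 312) (nat_lit 0) (nat_lit 0) (XT.nd (nat_lit 156) (nat_lit 0) (nat_lit 0) (XT.nd (nat_lit 78) (nat_lit 0) (nat_lit 0) (XT.lf (nat_lit 0) (nat_lit 2985572441524) (nat_lit 76) (nat_lit 2536826993072) (nat_lit 76) (nat_lit 2527561138572) (nat_lit 1) (nat_lit 4) (nat_lit 2) (nat_lit 5) (nat_lit 2) (nat_lit 4) (nat_lit 262) (nat_lit 200) (nat_lit 138)) (XT.lf (nat_lit 0) (nat_lit 3443563315982) (nat_lit 76) (nat_lit 2911166114732) (nat_lit 76) (nat_lit 2901900051741)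 (nat_lit 1) (nat_lit 4) (nat_lit 2) (nat_lit 5) (nat_lit 2) (nat_lit 4) (nat_lit 263) (nat_lit 200) (nat_lit 137))) (XT.nd (nat_lit 78) (nat_lit 0) (nat_lit 0) (XT.lf (nat_lit 0) (nat_lit 3970252394627) (nat_lit 76) (nat_lit 3341656306244) (nat_lit 76) (nat_lit 3332390061957) (nat_lit 1) (nat_lit 4) (nat_lit 2) (nat_lit 5) (nat_lit 2) (nat_lit 4) (nat_lit 264) (nat_lit 200) (nat_lit 136)) (XT.lf (nat_lit 0) (nat_lit 4575944463782) (nat_lit 76) (nat_lit 3836720201792) (nat_lit 76) (nat_lit 3827453799855) (nat_lit 1) (nat_lit 4) (nat_lit 2) (nat_lit 5) (nat_lit 2) (nat_lit 4) (nat_lit 265) (nat_lit 200) (nat_lit 135)))) (XT.nd (nat_lit 156) (nat_lit 0) (nat_lit 0) (XT.nd (nat_lit 78) (nat_lit 0) (nat_lit 0) (XT.lf (nat_lit 0) (nat_lit 5272490020452) (nat_lit 76) (nat_lit 4406043834113) (nat_lit 76) (nat_lit 4396777295090) (nat_lit 1) (nat_lit 4) (nat_lit 2) (nat_lit 5) (nat_lit 2) (nat_lit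 4) (nat_lit 266) (nat_lit 200) (nat_lit 134)) (XT.lf (nat_lit 0) (nat_lit 6073517129875) (nat_lit 76) (nat_lit 5060766143841) (nat_lit 76) (nat_lit 5051499485612) (nat_lit 1) (nat_lit 4) (nat_lit 2) (nat_lit 5) (nat_lit 2) (nat_lit 4) (nat_lit 267) (nat_lit 200) (nat_lit 133))) (XT.nd (nat_lit 78) (nat_lit 0) (nat_lit 0) (XT.lf (nat_lit 0) (nat_lit 6994698061584) (nat_lit 76) (nat_lit 5813696915295) (nat_lit 76) (nat_lit 5804430153410) (nat_lit 1) (nat_lit 4) (nat_lit 2) (nat_lit 5) (nat_lit 2) (nat_lit 4) (nat_lit 268) (nat_lit 200) (nat_lit 132)) (XT.lf (nat_lit 0) (nat_lit 8054055920765) (nat_lit 76) (nat_lit 6679567402701) (nat_lit 76) (nat_lit 6670300550679) (nat_lit 1) (nat_lit 4) (nat_lit 2) (nat_lit 5) (nat_lit 2) (nat_lit 4) (nat_lit 269) (nat_lit 200) (nat_lit 131))))))))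
noncomputable def xc26 : XT := (XT.nd (nat_lit 28080) (nat_lit 0) (nat_lit 0) (XT.nd (nat_lit 26832) (nat_lit 0) (nat_lit 76) (XT.nd (nat_lit 26208) (nat_lit 0) (nat_lit 608) (XT.nd (nat_lit 25896) (nat_lit 0) (nat_lit 1368) (XT.nd (nat_lit 78) (nat_lit 0) (nat_lit 0) (XT.lf (nat_lit 0) (nat_lit 9272317274227) (nat_lit 76) (nat_lit 7675318550376) (nat_lit 76) (nat_lit 7666051619975) (nat_lit 1) (nat_lit 4) (nat_lit 2) (nat_lit 5) (nat_lit 2) (nat_lit 4) (nat_lit 270) (nat_lit 200) (nat_lit 130)) (XT.nd (nat_lit 78) (nat_lit 0) (nat_lit 0) (XT.lf (nat_lit 0) (nat_lit 10673317670191) (nat_lit 76) (nat_lit 8820432445993) (nat_lit 76) (nat_lit 8811165447435) (nat_lit 1) (nat_lit 4) (nat_lit 2) (nat_lit 5) (nat_lit 2) (nat_lit 4) (nat_lit 271) (nat_lit 200) (nat_lit 129)) (XT.lf (nat_lit 0) (nat_lit 12284467985968) (nat_lit 76) (nat_lit 10137313491857) (nat_lit 76) (nat_lit 10128046434034)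 (nat_lit 1) (nat_lit 4) (nat_lit 2) (nat_lit 5) (nat_lit 2) (nat_lit 4) (nat_lit 272) (nat_lit 200) (nat_lit 128)))) (XT.nd (nat_lit 156) (nat_lit 0) (nat_lit 0) (XT.nd (nat_lit 78) (nat_lit 228) (nat_lit 0) (XT.lf (nat_lit 0) (nat_lit 1279208475) (nat_lit 0) (nat_lit 1279208475) (nat_lit 76) (nat_lit 706406996) (nat_lit 22) (nat_lit 5) (nat_lit 22) (nat_lit 3) (nat_lit 23) (nat_lit 0) (nat_lit 201) (nat_lit 201) (nat_lit 198)) (XT.lf (nat_lit 0) (nat_lit 770745667) (nat_lit 228) (nat_lit 1099440809) (nat_lit 228) (nat_lit 4797182166) (nat_lit 19) (nat_lit 3) (nat_lit 22) (nat_lit 3) (nat_lit 22) (nat_lit 5) (nat_lit 202) (nat_lit 201) (nat_lit 197))) (XT.nd (nat_lit 78) (nat_lit 0) (nat_lit 76) (XT.lf (nat_lit 76) (nat_lit 2098713996) (nat_lit 0) (nat_lit 741800366) (nat_lit 228) (nat_lit 4026461227) (nat_lit 20) (nat_lit 5) (nat_lit 19) (nat_lit 3) (nat_lit 22) (nat_lit 5) (nat_lit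 203) (nat_lit 201) (nat_lit 196)) (XT.lf (nat_lit 0) (nat_lit 4966894863) (nat_lit 152) (nat_lit 1489904886) (nat_lit 76) (nat_lit 683730255) (nat_lit 20) (nat_lit 5) (nat_lit 22) (nat_lit 5) (nat_lit 21) (nat_lit 4) (nat_lit 204) (nat_lit 201) (nat_lit 195))))) (XT.nd (nat_lit 312) (nat_lit 380) (nat_lit 0) (XT.nd (nat_lit 156) (nat_lit 228) (nat_lit 0) (XT.nd (nat_lit 78) (nat_lit 76) (nat_lit 0) (XT.lf (nat_lit 0) (nat_lit 2200428325) (nat_lit 152) (nat_lit 5045132314) (nat_lit 228) (nat_lit 239712846) (nat_lit 18) (nat_lit 5) (nat_lit 20) (nat_lit 5) (nat_lit 21) (nat_lit 4) (nat_lit 205) (nat_lit 201) (nat_lit 194)) (XT.lf (nat_lit 0) (nat_lit 1608179935) (nat_lit 228) (nat_lit 1604953908) (nat_lit 76) (nat_lit 4690087127) (nat_lit 17) (nat_lit 5) (nat_lit 20) (nat_lit 5) (nat_lit 18) (nat_lit 5) (nat_lit 206) (nat_lit 201) (nat_lit 193))) (XT.nd (nat_lit 78) (nat_lit 0) (nat_lit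 0) (XT.lf (nat_lit 0) (nat_lit 2622176543) (nat_lit 228) (nat_lit 950723778) (nat_lit 304) (nat_lit 4833009749) (nat_lit 14) (nat_lit 5) (nat_lit 17) (nat_lit 5) (nat_lit 18) (nat_lit 5) (nat_lit 207) (nat_lit 201) (nat_lit 192)) (XT.lf (nat_lit 0) (nat_lit 5767313983) (nat_lit 304) (nat_lit 1632871006) (nat_lit 76) (nat_lit 1596517228) (nat_lit 14) (nat_lit 5) (nat_lit 18) (nat_lit 5) (nat_lit 15) (nat_lit 4) (nat_lit 208) (nat_lit 201) (nat_lit 191)))) (XT.nd (nat_lit 156) (nat_lit 152) (nat_lit 0) (XT.nd (nat_lit 78) (nat_lit 76) (nat_lit 0) (XT.lf (nat_lit 0) (nat_lit 3156498260) (nat_lit 152) (nat_lit 5117957869) (nat_lit 228) (nat_lit 1406685105) (nat_lit 12) (nat_lit 5) (nat_lit 14) (nat_lit 5) (nat_lit 15) (nat_lit 4) (nat_lit 209) (nat_lit 201) (nat_lit 190)) (XT.lf (nat_lit 0) (nat_lit 531050689) (nat_lit 228) (nat_lit 1870295009) (nat_lit 76) (nat_lit 8079105609) (nat_lit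 11) (nat_lit 5) (nat_lit 14) (nat_lit 5) (nat_lit 12) (nat_lit 5) (nat_lit 210) (nat_lit 201) (nat_lit 189))) (XT.nd (nat_lit 78) (nat_lit 0) (nat_lit 0) (XT.lf (nat_lit 0) (nat_lit 2637981395) (nat_lit 228) (nat_lit 7902784575) (nat_lit 76) (nat_lit 847146549) (nat_lit 9) (nat_lit 5) (nat_lit 12) (nat_lit 5) (nat_lit 10) (nat_lit 4) (nat_lit 211) (nat_lit 201) (nat_lit 188)) (XT.lf (nat_lit 0) (nat_lit 5127118185) (nat_lit 228) (nat_lit 2894756371) (nat_lit 76) (nat_lit 4401158794) (nat_lit 9) (nat_lit 5) (nat_lit 12) (nat_lit 5) (nat_lit 10) (nat_lit 4) (nat_lit 212) (nat_lit 201) (nat_lit 187)))))) (XT.nd (nat_lit 624) (nat_lit 228) (nat_lit 0) (XT.nd (nat_lit 312) (nat_lit 76) (nat_lit 0) (XT.nd (nat_lit 156) (nat_lit 152) (nat_lit 0) (XT.nd (nat_lit 78) (nat_lit 0) (nat_lit 0) (XT.lf (nat_lit 0) (nat_lit 2941111561) (nat_lit 76) (nat_lit 5039338885) (nat_lit 152) (nat_lit 5635622388)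 (nat_lit 8) (nat_lit 5) (nat_lit 9) (nat_lit 5) (nat_lit 10) (nat_lit 4) (nat_lit 213) (nat_lit 201) (nat_lit 186)) (XT.lf (nat_lit 0) (nat_lit 9800906535) (nat_lit 76) (nat_lit 1490994123) (nat_lit 152) (nat_lit 3692757925) (nat_lit 8) (nat_lit 5) (nat_lit 9) (nat_lit 5) (nat_lit 10) (nat_lit 4) (nat_lit 214) (nat_lit 201) (nat_lit 185))) (XT.nd (nat_lit 78) (nat_lit 76) (nat_lit 0) (XT.lf (nat_lit 0) (nat_lit 939009719) (nat_lit 76) (nat_lit 14199779350) (nat_lit 76) (nat_lit 1414898558) (nat_lit 7) (nat_lit 4) (nat_lit 8) (nat_lit 5) (nat_lit 8) (nat_lit 4) (nat_lit 215) (nat_lit 201) (nat_lit 184)) (XT.lf (nat_lit 0) (nat_lit 1346694998) (nat_lit 152) (nat_lit 10060324373) (nat_lit 76) (nat_lit 6906902895) (nat_lit 6) (nat_lit 5) (nat_lit 8) (nat_lit 5) (nat_lit 7) (nat_lit 4) (nat_lit 216) (nat_lit 201) (nat_lit 183)))) (XT.nd (nat_lit 156) (nat_lit 0) (nat_lit 0) (XT.nd (nat_lit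 78) (nat_lit 76) (nat_lit 0) (XT.lf (nat_lit 0) (nat_lit 4285867873) (nat_lit 152) (nat_lit 3889657326) (nat_lit 76) (nat_lit 12166964179) (nat_lit 6) (nat_lit 5) (nat_lit 8) (nat_lit 5) (nat_lit 7) (nat_lit 4) (nat_lit 217) (nat_lit 201) (nat_lit 182)) (XT.lf (nat_lit 0) (nat_lit 3377313397) (nat_lit 76) (nat_lit 4348623622) (nat_lit 152) (nat_lit 14940952387) (nat_lit 5) (nat_lit 5) (nat_lit 6) (nat_lit 5) (nat_lit 7) (nat_lit 4) (nat_lit 218) (nat_lit 201) (nat_lit 181))) (XT.nd (nat_lit 78) (nat_lit 0) (nat_lit 0) (XT.lf (nat_lit 0) (nat_lit 11820585844) (nat_lit 152) (nat_lit 13283497349) (nat_lit 0) (nat_lit 215559895) (nat_lit 5) (nat_lit 5) (nat_lit 7) (nat_lit 4) (nat_lit 5) (nat_lit 4) (nat_lit 219) (nat_lit 201) (nat_lit 180)) (XT.lf (nat_lit 0) (nat_lit 16669898946) (nat_lit 152) (nat_lit 6699820993) (nat_lit 0) (nat_lit 4979936403) (nat_lit 5) (nat_lit 5) (nat_lit 7) (nat_lit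 4) (nat_lit 5) (nat_lit 4) (nat_lit 220) (nat_lit 201) (nat_lit 179))))) (XT.nd (nat_lit 312) (nat_lit 152) (nat_lit 0) (XT.nd (nat_lit 156) (nat_lit 0) (nat_lit 0) (XT.nd (nat_lit 78) (nat_lit 0) (nat_lit 0) (XT.lf (nat_lit 0) (nat_lit 845613730) (nat_lit 76) (nat_lit 21378088290) (nat_lit 76) (nat_lit 9614267839) (nat_lit 4) (nat_lit 4) (nat_lit 5) (nat_lit 5) (nat_lit 5) (nat_lit 4) (nat_lit 221) (nat_lit 201) (nat_lit 178)) (XT.lf (nat_lit 0) (nat_lit 10179351052) (nat_lit 76) (nat_lit 18727080337) (nat_lit 76) (nat_lit 6899035619) (nat_lit 4) (nat_lit 4) (nat_lit 5) (nat_lit 5) (nat_lit 5) (nat_lit 4) (nat_lit 222) (nat_lit 201) (nat_lit 177))) (XT.nd (nat_lit 78) (nat_lit 0) (nat_lit 0) (XT.lf (nat_lit 0) (nat_lit 20829252340) (nat_lit 76) (nat_lit 15715046450) (nat_lit 76) (nat_lit 3831154542) (nat_lit 4) (nat_lit 4) (nat_lit 5) (nat_lit 5) (nat_lit 5) (nat_lit 4) (nat_lit 223)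 (nat_lit 201) (nat_lit 176)) (XT.lf (nat_lit 0) (nat_lit 33003685227) (nat_lit 76) (nat_lit 12283055530) (nat_lit 76) (nat_lit 350600849) (nat_lit 4) (nat_lit 4) (nat_lit 5) (nat_lit 5) (nat_lit 5) (nat_lit 4) (nat_lit 224) (nat_lit 201) (nat_lit 175)))) (XT.nd (nat_lit 156) (nat_lit 0) (nat_lit 0) (XT.nd (nat_lit 78) (nat_lit 76) (nat_lit 0) (XT.lf (nat_lit 0) (nat_lit 3289271696) (nat_lit 152) (nat_lit 4902749031) (nat_lit 76) (nat_lit 43479634239) (nat_lit 3) (nat_lit 5) (nat_lit 5) (nat_lit 5) (nat_lit 4) (nat_lit 4) (nat_lit 225) (nat_lit 201) (nat_lit 174)) (XT.lf (nat_lit 0) (nat_lit 4294946800) (nat_lit 76) (nat_lit 3289402228) (nat_lit 152) (nat_lit 51002650797) (nat_lit 2) (nat_lit 5) (nat_lit 3) (nat_lit 5) (nat_lit 4) (nat_lit 4) (nat_lit 226) (nat_lit 201) (nat_lit 173))) (XT.nd (nat_lit 78) (nat_lit 0) (nat_lit 0) (XT.lf (nat_lit 0) (nat_lit 12857613666) (nat_lit 152)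 (nat_lit 51246931120) (nat_lit 0) (nat_lit 2385148949) (nat_lit 2) (nat_lit 5) (nat_lit 4) (nat_lit 4) (nat_lit 2) (nat_lit 4) (nat_lit 227) (nat_lit 201) (nat_lit 172)) (XT.lf (nat_lit 0) (nat_lit 19050846144) (nat_lit 152) (nat_lit 47953480130) (nat_lit 0) (nat_lit 8554237145) (nat_lit 2) (nat_lit 5) (nat_lit 4) (nat_lit 4) (nat_lit 2) (nat_lit 4) (nat_lit 228) (nat_lit 201) (nat_lit 171))))))) (XT.nd (nat_lit 1170) (nat_lit 0) (nat_lit 0) (XT.nd (nat_lit 546) (nat_lit 76) (nat_lit 0) (XT.nd (nat_lit 234) (nat_lit 0) (nat_lit 0) (XT.nd (nat_lit 78) (nat_lit 0) (nat_lit 0) (XT.lf (nat_lit 0) (nat_lit 26149011271) (nat_lit 152) (nat_lit 44211055840) (nat_lit 0) (nat_lit 15631407246) (nat_lit 2) (nat_lit 5) (nat_lit 4) (nat_lit 4) (nat_lit 2) (nat_lit 4) (nat_lit 229) (nat_lit 201) (nat_lit 170)) (XT.nd (nat_lit 78) (nat_lit 0) (nat_lit 0) (XT.lf (nat_lit 0) (nat_lit 34290986192) (nat_lit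 152) (nat_lit 39946436907) (nat_lit 0) (nat_lit 23755125621) (nat_lit 2) (nat_lit 5) (nat_lit 4) (nat_lit 4) (nat_lit 2) (nat_lit 4) (nat_lit 230) (nat_lit 201) (nat_lit 169)) (XT.lf (nat_lit 0) (nat_lit 43636070415) (nat_lit 152) (nat_lit 35076185132) (nat_lit 0) (nat_lit 33084334588) (nat_lit 2) (nat_lit 5) (nat_lit 4) (nat_lit 4) (nat_lit 2) (nat_lit 4) (nat_lit 231) (nat_lit 201) (nat_lit 168)))) (XT.nd (nat_lit 156) (nat_lit 0) (nat_lit 0) (XT.nd (nat_lit 78) (nat_lit 0) (nat_lit 0) (XT.lf (nat_lit 0) (nat_lit 54367102546) (nat_lit 152) (nat_lit 29505012982) (nat_lit 0) (nat_lit 43801562148) (nat_lit 2) (nat_lit 5) (nat_lit 4) (nat_lit 4) (nat_lit 2) (nat_lit 4) (nat_lit 232) (nat_lit 201) (nat_lit 167)) (XT.lf (nat_lit 0) (nat_lit 66694037559) (nat_lit 152) (nat_lit 23123919262) (nat_lit 0) (nat_lit 56116493187) (nat_lit 2) (nat_lit 5) (nat_lit 4) (nat_lit 4) (nat_lit 2) (nat_lit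 4) (nat_lit 233) (nat_lit 201) (nat_lit 166))) (XT.nd (nat_lit 78) (nat_lit 0) (nat_lit 0) (XT.lf (nat_lit 0) (nat_lit 80858054620) (nat_lit 152) (nat_lit 15808056487) (nat_lit 0) (nat_lit 70270072008) (nat_lit 2) (nat_lit 5) (nat_lit 4) (nat_lit 4) (nat_lit 2) (nat_lit 4) (nat_lit 234) (nat_lit 201) (nat_lit 165)) (XT.lf (nat_lit 0) (nat_lit 97136275801) (nat_lit 152) (nat_lit 7414288210) (nat_lit 0) (nat_lit 86539216459) (nat_lit 2) (nat_lit 5) (nat_lit 4) (nat_lit 4) (nat_lit 2) (nat_lit 4) (nat_lit 235) (nat_lit 201) (nat_lit 164))))) (XT.nd (nat_lit 312) (nat_lit 0) (nat_lit 0) (XT.nd (nat_lit 156) (nat_lit 0) (nat_lit 0) (XT.nd (nat_lit 78) (nat_lit 0) (nat_lit 0) (XT.lf (nat_lit 0) (nat_lit 2438723498) (nat_lit 76) (nat_lit 113509446878) (nat_lit 76) (nat_lit 102904494728) (nat_lit 1) (nat_lit 4) (nat_lit 2) (nat_lit 5) (nat_lit 2) (nat_lit 4) (nat_lit 236) (nat_lit 201) (nat_lit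 163)) (XT.lf (nat_lit 0) (nat_lit 14586787735) (nat_lit 76) (nat_lit 123374094433) (nat_lit 76) (nat_lit 112762278972) (nat_lit 1) (nat_lit 4) (nat_lit 2) (nat_lit 5) (nat_lit 2) (nat_lit 4) (nat_lit 237) (nat_lit 201) (nat_lit 162))) (XT.nd (nat_lit 78) (nat_lit 0) (nat_lit 0) (XT.lf (nat_lit 0) (nat_lit 28543005852) (nat_lit 76) (nat_lit 134725075716) (nat_lit 76) (nat_lit 124107292157) (nat_lit 1) (nat_lit 4) (nat_lit 2) (nat_lit 5) (nat_lit 2) (nat_lit 4) (nat_lit 238) (nat_lit 201) (nat_lit 161)) (XT.lf (nat_lit 0) (nat_lit 44580434289) (nat_lit 76) (nat_lit 147784475142) (nat_lit 76) (nat_lit 137161501934) (nat_lit 1) (nat_lit 4) (nat_lit 2) (nat_lit 5) (nat_lit 2) (nat_lit 4) (nat_lit 239) (nat_lit 201) (nat_lit 160)))) (XT.nd (nat_lit 156) (nat_lit 0) (nat_lit 0) (XT.nd (nat_lit 78) (nat_lit 0) (nat_lit 0) (XT.lf (nat_lit 0) (nat_lit 63012848822) (nat_lit 76) (nat_lit 162807802701)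 (nat_lit 76) (nat_lit 152180316755) (nat_lit 1) (nat_lit 4) (nat_lit 2) (nat_lit 5) (nat_lit 2) (nat_lit 4) (nat_lit 240) (nat_lit 201) (nat_lit 159)) (XT.lf (nat_lit 0) (nat_lit 84200883647) (nat_lit 76) (nat_lit 180088993063) (nat_lit 76) (nat_lit 169457582995) (nat_lit 1) (nat_lit 4) (nat_lit 2) (nat_lit 5) (nat_lit 2) (nat_lit 4) (nat_lit 241) (nat_lit 201) (nat_lit 158))) (XT.nd (nat_lit 78) (nat_lit 0) (nat_lit 0) (XT.lf (nat_lit 0) (nat_lit 108559087272) (nat_lit 76) (nat_lit 199966156473) (nat_lit 76) (nat_lit 189331334127) (nat_lit 1) (nat_lit 4) (nat_lit 2) (nat_lit 5) (nat_lit 2) (nat_lit 4) (nat_lit 242) (nat_lit 201) (nat_lit 157)) (XT.lf (nat_lit 0) (nat_lit 136564033245) (nat_lit 76) (nat_lit 222828193955) (nat_lit 76) (nat_lit 212190404410) (nat_lit 1) (nat_lit 4) (nat_lit 2) (nat_lit 5) (nat_lit 2) (nat_lit 4) (nat_lit 243) (nat_lit 201) (nat_lit 156)))))) (XT.nd (nat_lit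 624) (nat_lit 0) (nat_lit 0) (XT.nd (nat_lit 312) (nat_lit 0) (nat_lit 0) (XT.nd (nat_lit 156) (nat_lit 0) (nat_lit 0) (XT.nd (nat_lit 78) (nat_lit 0) (nat_lit 0) (XT.lf (nat_lit 0) (nat_lit 168763644423) (nat_lit 76) (nat_lit 249122406242) (nat_lit 76) (nat_lit 238482036524) (nat_lit 1) (nat_lit 4) (nat_lit 2) (nat_lit 5) (nat_lit 2) (nat_lit 4) (nat_lit 244) (nat_lit 201) (nat_lit 155)) (XT.lf (nat_lit 0) (nat_lit 205787913199) (nat_lit 76) (nat_lit 279363245314) (nat_lit 76) (nat_lit 268720631967) (nat_lit 1) (nat_lit 4) (nat_lit 2) (nat_lit 5) (nat_lit 2) (nat_lit 4) (nat_lit 245) (nat_lit 201) (nat_lit 154))) (XT.nd (nat_lit 78) (nat_lit 0) (nat_lit 0) (XT.lf (nat_lit 0) (nat_lit 248361227440) (nat_lit 76) (nat_lit 314142379761) (nat_lit 76) (nat_lit 303497815432) (nat_lit 1) (nat_lit 4) (nat_lit 2) (nat_lit 5) (nat_lit 2) (nat_lit 4) (nat_lit 246) (nat_lit 201) (nat_lit 153))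 (XT.lf (nat_lit 0) (nat_lit 297316543294) (nat_lit 76) (nat_lit 354140270909) (nat_lit 76) (nat_lit 343494010075) (nat_lit 1) (nat_lit 4) (nat_lit 2) (nat_lit 5) (nat_lit 2) (nat_lit 4) (nat_lit 247) (nat_lit 201) (nat_lit 152)))) (XT.nd (nat_lit 156) (nat_lit 0) (nat_lit 0) (XT.nd (nat_lit 78) (nat_lit 0) (nat_lit 0) (XT.lf (nat_lit 0) (nat_lit 353611682158) (nat_lit 76) (nat_lit 400139486194) (nat_lit 76) (nat_lit 389491750138) (nat_lit 1) (nat_lit 4) (nat_lit 2) (nat_lit 5) (nat_lit 2) (nat_lit 4) (nat_lit 248) (nat_lit 201) (nat_lit 151)) (XT.lf (nat_lit 0) (nat_lit 418348070662) (nat_lit 76) (nat_lit 453040010263) (nat_lit 76) (nat_lit 442390991405) (nat_lit 1) (nat_lit 4) (nat_lit 2) (nat_lit 5) (nat_lit 2) (nat_lit 4) (nat_lit 249) (nat_lit 201) (nat_lit 150))) (XT.nd (nat_lit 78) (nat_lit 0) (nat_lit 0) (XT.lf (nat_lit 0) (nat_lit 492792290320) (nat_lit 76) (nat_lit 513876853370)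 (nat_lit 76) (nat_lit 503226719031) (nat_lit 1) (nat_lit 4) (nat_lit 2) (nat_lit 5) (nat_lit 2) (nat_lit 4) (nat_lit 250) (nat_lit 201) (nat_lit 149)) (XT.lf (nat_lit 0) (nat_lit 578400858474) (nat_lit 76) (nat_lit 583840301574) (nat_lit 76) (nat_lit 573189197253) (nat_lit 1) (nat_lit 4) (nat_lit 2) (nat_lit 5) (nat_lit 2) (nat_lit 4) (nat_lit 251) (nat_lit 201) (nat_lit 148))))) (XT.nd (nat_lit 312) (nat_lit 0) (nat_lit 0) (XT.nd (nat_lit 156) (nat_lit 0) (nat_lit 0) (XT.nd (nat_lit 78) (nat_lit 0) (nat_lit 0) (XT.lf (nat_lit 0) (nat_lit 676848725370) (nat_lit 76) (nat_lit 664299204950) (nat_lit 76) (nat_lit 653647257166) (nat_lit 1) (nat_lit 4) (nat_lit 2) (nat_lit 5) (nat_lit 2) (nat_lit 4) (nat_lit 252) (nat_lit 201) (nat_lit 147)) (XT.lf (nat_lit 0) (nat_lit 790062044925) (nat_lit 76) (nat_lit 756827759433) (nat_lit 76) (nat_lit 746175078203) (nat_lit 1) (nat_lit 4) (nat_lit 2)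 (nat_lit 5) (nat_lit 2) (nat_lit 4) (nat_lit 253) (nat_lit 201) (nat_lit 146))) (XT.nd (nat_lit 78) (nat_lit 0) (nat_lit 0) (XT.lf (nat_lit 0) (nat_lit 920255860348) (nat_lit 76) (nat_lit 863236306307) (nat_lit 76) (nat_lit 852582987297) (nat_lit 1) (nat_lit 4) (nat_lit 2) (nat_lit 5) (nat_lit 2) (nat_lit 4) (nat_lit 254) (nat_lit 201) (nat_lit 145)) (XT.lf (nat_lit 0) (nat_lit 1069977441942) (nat_lit 76) (nat_lit 985606751923) (nat_lit 76) (nat_lit 974952878323) (nat_lit 1) (nat_lit 4) (nat_lit 2) (nat_lit 5) (nat_lit 2) (nat_lit 4) (nat_lit 255) (nat_lit 201) (nat_lit 144)))) (XT.nd (nat_lit 156) (nat_lit 0) (nat_lit 0) (XT.nd (nat_lit 78) (nat_lit 0) (nat_lit 0) (XT.lf (nat_lit 0) (nat_lit 1242156124997) (nat_lit 76) (nat_lit 1126333300653) (nat_lit 76) (nat_lit 1115678944799) (nat_lit 1) (nat_lit 4) (nat_lit 2) (nat_lit 5) (nat_lit 2) (nat_lit 4) (nat_lit 256) (nat_lit 201) (nat_lit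 143)) (XT.lf (nat_lit 0) (nat_lit 1440160622879) (nat_lit 76) (nat_lit 1288169298014) (nat_lit 76) (nat_lit 1277514522811) (nat_lit 1) (nat_lit 4) (nat_lit 2) (nat_lit 5) (nat_lit 2) (nat_lit 4) (nat_lit 257) (nat_lit 201) (nat_lit 142))) (XT.nd (nat_lit 78) (nat_lit 0) (nat_lit 0) (XT.lf (nat_lit 0) (nat_lit 1667864936632) (nat_lit 76) (nat_lit 1474281100477) (nat_lit 76) (nat_lit 1463625960621) (nat_lit 1) (nat_lit 4) (nat_lit 2) (nat_lit 5) (nat_lit 2) (nat_lit 4) (nat_lit 258) (nat_lit 201) (nat_lit 141)) (XT.lf (nat_lit 0) (nat_lit 1929724150656) (nat_lit 76) (nat_lit 1688310025917) (nat_lit 76) (nat_lit 1677654568972) (nat_lit 1) (nat_lit 4) (nat_lit 2) (nat_lit 5) (nat_lit 2) (nat_lit 4) (nat_lit 259) (nat_lit 201) (nat_lit 140))))))))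
noncomputable def xc27 : XT := (XT.nd (nat_lit 27924) (nat_lit 0) (nat_lit 0) (XT.nd (nat_lit 1326) (nat_lit 0) (nat_lit 0) (XT.nd (nat_lit 546) (nat_lit 0) (nat_lit 0) (XT.nd (nat_lit 234) (nat_lit 0) (nat_lit 0) (XT.nd (nat_lit 78) (nat_lit 0) (nat_lit 0) (XT.lf (nat_lit 0) (nat_lit 2230861597400) (nat_lit 76) (nat_lit 1934443596787) (nat_lit 76) (nat_lit 1923787864112) (nat_lit 1) (nat_lit 4) (nat_lit 2) (nat_lit 5) (nat_lit 2) (nat_lit 4) (nat_lit 260) (nat_lit 201) (nat_lit 139)) (XT.nd (nat_lit 78) (nat_lit 0) (nat_lit 0) (XT.lf (nat_lit 0) (nat_lit 2577169096473) (nat_lit 76) (nat_lit 2217497469909) (nat_lit 76) (nat_lit 2206841497469) (nat_lit 1) (nat_lit 4) (nat_lit 2) (nat_lit 5) (nat_lit 2) (nat_lit 4) (nat_lit 261) (nat_lit 201) (nat_lit 138)) (XT.lf (nat_lit 0) (nat_lit 2975422229380) (nat_lit 76) (nat_lit 2543009655844) (nat_lit 76) (nat_lit 2532353474913) (nat_lit 1)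 (nat_lit 4) (nat_lit 2) (nat_lit 5) (nat_lit 2) (nat_lit 4) (nat_lit 262) (nat_lit 201) (nat_lit 137)))) (XT.nd (nat_lit 156) (nat_lit 0) (nat_lit 0) (XT.nd (nat_lit 78) (nat_lit 0) (nat_lit 0) (XT.lf (nat_lit 0) (nat_lit 3433412905242) (nat_lit 76) (nat_lit 2917348871273) (nat_lit 76) (nat_lit 2906692509046) (nat_lit 1) (nat_lit 4) (nat_lit 2) (nat_lit 5) (nat_lit 2) (nat_lit 4) (nat_lit 263) (nat_lit 201) (nat_lit 136)) (XT.lf (nat_lit 0) (nat_lit 3960101811196) (nat_lit 76) (nat_lit 3347839144324) (nat_lit 76) (nat_lit 3337182624448) (nat_lit 1) (nat_lit 4) (nat_lit 2) (nat_lit 5) (nat_lit 2) (nat_lit 4) (nat_lit 264) (nat_lit 201) (nat_lit 135))) (XT.nd (nat_lit 78) (nat_lit 0) (nat_lit 0) (XT.lf (nat_lit 0) (nat_lit 4565793730184) (nat_lit 76) (nat_lit 3842903110775) (nat_lit 76) (nat_lit 3832246453812) (nat_lit 1) (nat_lit 4) (nat_lit 2) (nat_lit 5) (nat_lit 2) (nat_lit 4) (nat_lit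 265) (nat_lit 201) (nat_lit 134)) (XT.lf (nat_lit 0) (nat_lit 5262339156273) (nat_lit 76) (nat_lit 4412226804751) (nat_lit 76) (nat_lit 4401570028583) (nat_lit 1) (nat_lit 4) (nat_lit 2) (nat_lit 5) (nat_lit 2) (nat_lit 4) (nat_lit 266) (nat_lit 201) (nat_lit 133))))) (XT.nd (nat_lit 312) (nat_lit 0) (nat_lit 0) (XT.nd (nat_lit 156) (nat_lit 0) (nat_lit 0) (XT.nd (nat_lit 78) (nat_lit 0) (nat_lit 0) (XT.lf (nat_lit 0) (nat_lit 6063366152149) (nat_lit 76) (nat_lit 5066949168091) (nat_lit 76) (nat_lit 5056292288266) (nat_lit 1) (nat_lit 4) (nat_lit 2) (nat_lit 5) (nat_lit 2) (nat_lit 4) (nat_lit 267) (nat_lit 201) (nat_lit 132)) (XT.lf (nat_lit 0) (nat_lit 6984546985121) (nat_lit 76) (nat_lit 5819879986166) (nat_lit 76) (nat_lit 5809223016204) (nat_lit 1) (nat_lit 4) (nat_lit 2) (nat_lit 5) (nat_lit 2) (nat_lit 4) (nat_lit 268) (nat_lit 201) (nat_lit 131))) (XT.nd (nat_lit 78) (nat_lit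 0) (nat_lit 0) (XT.lf (nat_lit 0) (nat_lit 8043904758443) (nat_lit 76) (nat_lit 6685750514110) (nat_lit 76) (nat_lit 6675093465769) (nat_lit 1) (nat_lit 4) (nat_lit 2) (nat_lit 5) (nat_lit 2) (nat_lit 4) (nat_lit 269) (nat_lit 201) (nat_lit 130)) (XT.lf (nat_lit 0) (nat_lit 9262166037246) (nat_lit 76) (nat_lit 7681501697037) (nat_lit 76) (nat_lit 7670844580540) (nat_lit 1) (nat_lit 4) (nat_lit 2) (nat_lit 5) (nat_lit 2) (nat_lit 4) (nat_lit 270) (nat_lit 201) (nat_lit 129)))) (XT.nd (nat_lit 312) (nat_lit 0) (nat_lit 0) (XT.nd (nat_lit 78) (nat_lit 0) (nat_lit 0) (XT.lf (nat_lit 0) (nat_lit 10663166368288) (nat_lit 76) (nat_lit 8826615623307) (nat_lit 76) (nat_lit 8815958447544) (nat_lit 1) (nat_lit 4) (nat_lit 2) (nat_lit 5) (nat_lit 2) (nat_lit 4) (nat_lit 271) (nat_lit 201) (nat_lit 128)) (XT.lf (nat_lit 0) (nat_lit 12274316627613) (nat_lit 76) (nat_lit 10143496695827) (nat_lit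 76) (nat_lit 10132839468527) (nat_lit 1) (nat_lit 4) (nat_lit 2) (nat_lit 5) (nat_lit 2) (nat_lit 4) (nat_lit 272) (nat_lit 201) (nat_lit 127))) (XT.nd (nat_lit 78) (nat_lit 0) (nat_lit 0) (XT.lf (nat_lit 0) (nat_lit 18708243150818) (nat_lit 76) (nat_lit 15402296952693) (nat_lit 76) (nat_lit 15391639607726) (nat_lit 1) (nat_lit 4) (nat_lit 2) (nat_lit 5) (nat_lit 2) (nat_lit 4) (nat_lit 275) (nat_lit 201) (nat_lit 124)) (XT.lf (nat_lit 0) (nat_lit 21526154581000) (nat_lit 76) (nat_lit 17705530388235) (nat_lit 76) (nat_lit 17694873013802) (nat_lit 1) (nat_lit 4) (nat_lit 2) (nat_lit 5) (nat_lit 2) (nat_lit 4) (nat_lit 276) (nat_lit 201) (nat_lit 123)))))) (XT.nd (nat_lit 25974) (nat_lit 0) (nat_lit 456) (XT.nd (nat_lit 25662) (nat_lit 0) (nat_lit 988) (XT.nd (nat_lit 25506) (nat_lit 0) (nat_lit 1368) (XT.nd (nat_lit 25428) (nat_lit 0) (nat_lit 1368) (XT.lf (nat_lit 0) (nat_lit 24766752665364)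 (nat_lit 76) (nat_lit 20354248867600) (nat_lit 76) (nat_lit 20343591467545) (nat_lit 1) (nat_lit 4) (nat_lit 2) (nat_lit 5) (nat_lit 2) (nat_lit 4) (nat_lit 277) (nat_lit 201) (nat_lit 122)) (XT.lf (nat_lit 0) (nat_lit 1325058092) (nat_lit 228) (nat_lit 1044032642) (nat_lit 228) (nat_lit 1044032642) (nat_lit 19) (nat_lit 3) (nat_lit 22) (nat_lit 3) (nat_lit 22) (nat_lit 5) (nat_lit 202) (nat_lit 202) (nat_lit 196))) (XT.nd (nat_lit 78) (nat_lit 0) (nat_lit 0) (XT.lf (nat_lit 76) (nat_lit 914037381) (nat_lit 0) (nat_lit 3601652851) (nat_lit 228) (nat_lit 2543550062) (nat_lit 20) (nat_lit 5) (nat_lit 19) (nat_lit 3) (nat_lit 22) (nat_lit 5) (nat_lit 203) (nat_lit 202) (nat_lit 195)) (XT.lf (nat_lit 76) (nat_lit 4415222372) (nat_lit 0) (nat_lit 2057285218) (nat_lit 228) (nat_lit 888119328) (nat_lit 20) (nat_lit 5) (nat_lit 19) (nat_lit 3) (nat_lit 22) (nat_lit 5) (nat_lit 204) (nat_lit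 202) (nat_lit 194)))) (XT.nd (nat_lit 156) (nat_lit 152) (nat_lit 0) (XT.nd (nat_lit 78) (nat_lit 0) (nat_lit 76) (XT.lf (nat_lit 76) (nat_lit 548698575) (nat_lit 0) (nat_lit 123911541) (nat_lit 304) (nat_lit 7070090882) (nat_lit 17) (nat_lit 5) (nat_lit 16) (nat_lit 5) (nat_lit 20) (nat_lit 5) (nat_lit 205) (nat_lit 202) (nat_lit 193)) (XT.lf (nat_lit 0) (nat_lit 2380359917) (nat_lit 228) (nat_lit 3624382479) (nat_lit 76) (nat_lit 2173814051) (nat_lit 17) (nat_lit 5) (nat_lit 20) (nat_lit 5) (nat_lit 18) (nat_lit 5) (nat_lit 206) (nat_lit 202) (nat_lit 192))) (XT.nd (nat_lit 78) (nat_lit 0) (nat_lit 0) (XT.lf (nat_lit 0) (nat_lit 304712877) (nat_lit 228) (nat_lit 3845561700) (nat_lit 304) (nat_lit 4561562744) (nat_lit 14) (nat_lit 5) (nat_lit 17) (nat_lit 5) (nat_lit 18) (nat_lit 5) (nat_lit 207) (nat_lit 202) (nat_lit 191)) (XT.lf (nat_lit 0) (nat_lit 5042272421) (nat_lit 228) (nat_lit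 1140269878) (nat_lit 304) (nat_lit 3145601157) (nat_lit 14) (nat_lit 5) (nat_lit 17) (nat_lit 5) (nat_lit 18) (nat_lit 5) (nat_lit 208) (nat_lit 202) (nat_lit 190))))) (XT.nd (nat_lit 312) (nat_lit 152) (nat_lit 0) (XT.nd (nat_lit 156) (nat_lit 152) (nat_lit 0) (XT.nd (nat_lit 78) (nat_lit 76) (nat_lit 0) (XT.lf (nat_lit 0) (nat_lit 198444462) (nat_lit 152) (nat_lit 8243717125) (nat_lit 228) (nat_lit 1608585922) (nat_lit 12) (nat_lit 5) (nat_lit 14) (nat_lit 5) (nat_lit 15) (nat_lit 4) (nat_lit 209) (nat_lit 202) (nat_lit 189)) (XT.lf (nat_lit 0) (nat_lit 271729258) (nat_lit 228) (nat_lit 5282628325) (nat_lit 76) (nat_lit 5309047150) (nat_lit 11) (nat_lit 5) (nat_lit 14) (nat_lit 5) (nat_lit 12) (nat_lit 5) (nat_lit 210) (nat_lit 202) (nat_lit 188))) (XT.nd (nat_lit 78) (nat_lit 152) (nat_lit 0) (XT.lf (nat_lit 0) (nat_lit 2128446874) (nat_lit 228) (nat_lit 278033965) (nat_lit 76)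 (nat_lit 9402598655) (nat_lit 11) (nat_lit 5) (nat_lit 14) (nat_lit 5) (nat_lit 12) (nat_lit 5) (nat_lit 211) (nat_lit 202) (nat_lit 187)) (XT.lf (nat_lit 0) (nat_lit 4443784989) (nat_lit 228) (nat_lit 7094044138) (nat_lit 76) (nat_lit 1333033684) (nat_lit 9) (nat_lit 5) (nat_lit 12) (nat_lit 5) (nat_lit 10) (nat_lit 4) (nat_lit 212) (nat_lit 202) (nat_lit 186)))) (XT.nd (nat_lit 156) (nat_lit 76) (nat_lit 0) (XT.nd (nat_lit 78) (nat_lit 76) (nat_lit 0) (XT.lf (nat_lit 0) (nat_lit 7122365377) (nat_lit 228) (nat_lit 1594919285) (nat_lit 76) (nat_lit 5373345789) (nat_lit 9) (nat_lit 5) (nat_lit 12) (nat_lit 5) (nat_lit 10) (nat_lit 4) (nat_lit 213) (nat_lit 202) (nat_lit 185)) (XT.lf (nat_lit 0) (nat_lit 5037508358) (nat_lit 76) (nat_lit 5274792215) (nat_lit 152) (nat_lit 5165591035) (nat_lit 8) (nat_lit 5) (nat_lit 9) (nat_lit 5) (nat_lit 10) (nat_lit 4) (nat_lit 214) (nat_lit 202)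 (nat_lit 184))) (XT.nd (nat_lit 78) (nat_lit 76) (nat_lit 0) (XT.lf (nat_lit 0) (nat_lit 12710373005) (nat_lit 76) (nat_lit 1262080196) (nat_lit 152) (nat_lit 3102867518) (nat_lit 8) (nat_lit 5) (nat_lit 9) (nat_lit 5) (nat_lit 10) (nat_lit 4) (nat_lit 215) (nat_lit 202) (nat_lit 183)) (XT.lf (nat_lit 0) (nat_lit 2585778309) (nat_lit 76) (nat_lit 15760539950) (nat_lit 76) (nat_lit 542071075) (nat_lit 7) (nat_lit 4) (nat_lit 8) (nat_lit 5) (nat_lit 8) (nat_lit 4) (nat_lit 216) (nat_lit 202) (nat_lit 182))))))) (XT.nd (nat_lit 1170) (nat_lit 76) (nat_lit 0) (XT.nd (nat_lit 546) (nat_lit 152) (nat_lit 0) (XT.nd (nat_lit 234) (nat_lit 76) (nat_lit 0) (XT.nd (nat_lit 78) (nat_lit 76) (nat_lit 0) (XT.lf (nat_lit 0) (nat_lit 2408231875) (nat_lit 152) (nat_lit 10169948284) (nat_lit 76) (nat_lit 8347968746) (nat_lit 6) (nat_lit 5) (nat_lit 8) (nat_lit 5) (nat_lit 7) (nat_lit 4) (nat_lit 217)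 (nat_lit 202) (nat_lit 181)) (XT.nd (nat_lit 78) (nat_lit 76) (nat_lit 0) (XT.lf (nat_lit 0) (nat_lit 5676167730) (nat_lit 152) (nat_lit 3256214843) (nat_lit 76) (nat_lit 14344209167) (nat_lit 6) (nat_lit 5) (nat_lit 8) (nat_lit 5) (nat_lit 7) (nat_lit 4) (nat_lit 218) (nat_lit 202) (nat_lit 180)) (XT.lf (nat_lit 0) (nat_lit 5045488257) (nat_lit 76) (nat_lit 4537367930) (nat_lit 152) (nat_lit 16374877040) (nat_lit 5) (nat_lit 5) (nat_lit 6) (nat_lit 5) (nat_lit 7) (nat_lit 4) (nat_lit 219) (nat_lit 202) (nat_lit 179)))) (XT.nd (nat_lit 156) (nat_lit 76) (nat_lit 0) (XT.nd (nat_lit 78) (nat_lit 0) (nat_lit 0) (XT.lf (nat_lit 0) (nat_lit 14217346069) (nat_lit 152) (nat_lit 14187697729) (nat_lit 0) (nat_lit 615094643) (nat_lit 5) (nat_lit 5) (nat_lit 7) (nat_lit 4) (nat_lit 5) (nat_lit 4) (nat_lit 220) (nat_lit 202) (nat_lit 178)) (XT.lf (nat_lit 0) (nat_lit 19712707569) (nat_lit 152)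 (nat_lit 6758425253) (nat_lit 0) (nat_lit 6046231875) (nat_lit 5) (nat_lit 5) (nat_lit 7) (nat_lit 4) (nat_lit 5) (nat_lit 4) (nat_lit 221) (nat_lit 202) (nat_lit 177))) (XT.nd (nat_lit 78) (nat_lit 0) (nat_lit 0) (XT.lf (nat_lit 0) (nat_lit 1875807911) (nat_lit 76) (nat_lit 24190441193) (nat_lit 76) (nat_lit 10468118310) (nat_lit 4) (nat_lit 4) (nat_lit 5) (nat_lit 5) (nat_lit 5) (nat_lit 4) (nat_lit 222) (nat_lit 202) (nat_lit 176)) (XT.lf (nat_lit 0) (nat_lit 12491777294) (nat_lit 76) (nat_lit 21193220353) (nat_lit 76) (nat_lit 7422334697) (nat_lit 4) (nat_lit 4) (nat_lit 5) (nat_lit 5) (nat_lit 5) (nat_lit 4) (nat_lit 223) (nat_lit 202) (nat_lit 175))))) (XT.nd (nat_lit 312) (nat_lit 0) (nat_lit 0) (XT.nd (nat_lit 156) (nat_lit 152) (nat_lit 0) (XT.nd (nat_lit 78) (nat_lit 0) (nat_lit 0) (XT.lf (nat_lit 0) (nat_lit 24636704177) (nat_lit 76) (nat_lit 17774110344) (nat_lit 76) (nat_lit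 3960996189) (nat_lit 4) (nat_lit 4) (nat_lit 5) (nat_lit 5) (nat_lit 5) (nat_lit 4) (nat_lit 224) (nat_lit 202) (nat_lit 174)) (XT.lf (nat_lit 0) (nat_lit 38548206694) (nat_lit 76) (nat_lit 13866215535) (nat_lit 76) (nat_lit 16380947) (nat_lit 4) (nat_lit 4) (nat_lit 5) (nat_lit 5) (nat_lit 5) (nat_lit 4) (nat_lit 225) (nat_lit 202) (nat_lit 173))) (XT.nd (nat_lit 78) (nat_lit 76) (nat_lit 0) (XT.lf (nat_lit 0) (nat_lit 4089074213) (nat_lit 152) (nat_lit 5090255840) (nat_lit 76) (nat_lit 50195645142) (nat_lit 3) (nat_lit 5) (nat_lit 5) (nat_lit 5) (nat_lit 4) (nat_lit 4) (nat_lit 226) (nat_lit 202) (nat_lit 172)) (XT.lf (nat_lit 0) (nat_lit 5462189568) (nat_lit 76) (nat_lit 3547913171) (nat_lit 152) (nat_lit 58320456856) (nat_lit 2) (nat_lit 5) (nat_lit 3) (nat_lit 5) (nat_lit 4) (nat_lit 4) (nat_lit 227) (nat_lit 202) (nat_lit 171)))) (XT.nd (nat_lit 156) (nat_lit 0) (nat_lit 0) (XT.nd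 (nat_lit 78) (nat_lit 0) (nat_lit 0) (XT.lf (nat_lit 0) (nat_lit 15045236619) (nat_lit 152) (nat_lit 58448958379) (nat_lit 0) (nat_lit 2928996963) (nat_lit 2) (nat_lit 5) (nat_lit 4) (nat_lit 4) (nat_lit 2) (nat_lit 4) (nat_lit 228) (nat_lit 202) (nat_lit 170)) (XT.lf (nat_lit 0) (nat_lit 22133673851) (nat_lit 152) (nat_lit 54724752229) (nat_lit 0) (nat_lit 9999177650) (nat_lit 2) (nat_lit 5) (nat_lit 4) (nat_lit 4) (nat_lit 2) (nat_lit 4) (nat_lit 229) (nat_lit 202) (nat_lit 169))) (XT.nd (nat_lit 78) (nat_lit 0) (nat_lit 0) (XT.lf (nat_lit 0) (nat_lit 30267189732) (nat_lit 152) (nat_lit 50475975155) (nat_lit 0) (nat_lit 18116818274) (nat_lit 2) (nat_lit 5) (nat_lit 4) (nat_lit 4) (nat_lit 2) (nat_lit 4) (nat_lit 230) (nat_lit 202) (nat_lit 168)) (XT.lf (nat_lit 0) (nat_lit 39604918269) (nat_lit 152) (nat_lit 45619498911) (nat_lit 0) (nat_lit 27440742240) (nat_lit 2) (nat_lit 5) (nat_lit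 4) (nat_lit 4) (nat_lit 2) (nat_lit 4) (nat_lit 231) (nat_lit 202) (nat_lit 167)))))) (XT.nd (nat_lit 624) (nat_lit 0) (nat_lit 0) (XT.nd (nat_lit 312) (nat_lit 76) (nat_lit 0) (XT.nd (nat_lit 156) (nat_lit 0) (nat_lit 0) (XT.nd (nat_lit 78) (nat_lit 0) (nat_lit 0) (XT.lf (nat_lit 0) (nat_lit 50329554150) (nat_lit 152) (nat_lit 40060305483) (nat_lit 0) (nat_lit 38153374146) (nat_lit 2) (nat_lit 5) (nat_lit 4) (nat_lit 4) (nat_lit 2) (nat_lit 4) (nat_lit 232) (nat_lit 202) (nat_lit 166)) (XT.lf (nat_lit 0) (nat_lit 62650927208) (nat_lit 152) (nat_lit 33689628044) (nat_lit 0) (nat_lit 50464308965) (nat_lit 2) (nat_lit 5) (nat_lit 4) (nat_lit 4) (nat_lit 2) (nat_lit 4) (nat_lit 233) (nat_lit 202) (nat_lit 165))) (XT.nd (nat_lit 78) (nat_lit 0) (nat_lit 0) (XT.lf (nat_lit 0) (nat_lit 76810107785) (nat_lit 152) (nat_lit 26382822903) (nat_lit 0) (nat_lit 64614412813) (nat_lit 2) (nat_lit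 5) (nat_lit 4) (nat_lit 4) (nat_lit 2) (nat_lit 4) (nat_lit 234) (nat_lit 202) (nat_lit 164)) (XT.lf (nat_lit 0) (nat_lit 93084123328) (nat_lit 152) (nat_lit 17996930831) (nat_lit 0) (nat_lit 80880535547) (nat_lit 2) (nat_lit 5) (nat_lit 4) (nat_lit 4) (nat_lit 2) (nat_lit 4) (nat_lit 235) (nat_lit 202) (nat_lit 163)))) (XT.nd (nat_lit 156) (nat_lit 0) (nat_lit 0) (XT.nd (nat_lit 78) (nat_lit 76) (nat_lit 0) (XT.lf (nat_lit 0) (nat_lit 111791378488) (nat_lit 152) (nat_lit 8367880025) (nat_lit 0) (nat_lit 99580927396) (nat_lit 2) (nat_lit 5) (nat_lit 4) (nat_lit 4) (nat_lit 2) (nat_lit 4) (nat_lit 236) (nat_lit 202) (nat_lit 162)) (XT.lf (nat_lit 0) (nat_lit 2955876557) (nat_lit 76) (nat_lit 130464404766) (nat_lit 76) (nat_lit 118247985577) (nat_lit 1) (nat_lit 4) (nat_lit 2) (nat_lit 5) (nat_lit 2) (nat_lit 4) (nat_lit 237) (nat_lit 202) (nat_lit 161))) (XT.nd (nat_lit 78) (nat_lit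 0) (nat_lit 0) (XT.lf (nat_lit 0) (nat_lit 16906409838) (nat_lit 76) (nat_lit 141818070212) (nat_lit 76) (nat_lit 129596461374) (nat_lit 1) (nat_lit 4) (nat_lit 2) (nat_lit 5) (nat_lit 2) (nat_lit 4) (nat_lit 238) (nat_lit 202) (nat_lit 160)) (XT.lf (nat_lit 0) (nat_lit 32938894940) (nat_lit 76) (nat_lit 154879803694) (nat_lit 76) (nat_lit 142653682117) (nat_lit 1) (nat_lit 4) (nat_lit 2) (nat_lit 5) (nat_lit 2) (nat_lit 4) (nat_lit 239) (nat_lit 202) (nat_lit 159))))) (XT.nd (nat_lit 312) (nat_lit 0) (nat_lit 0) (XT.nd (nat_lit 156) (nat_lit 0) (nat_lit 0) (XT.nd (nat_lit 78) (nat_lit 0) (nat_lit 0) (XT.lf (nat_lit 0) (nat_lit 51367010921) (nat_lit 76) (nat_lit 169905160867) (nat_lit 76) (nat_lit 157675115169) (nat_lit 1) (nat_lit 4) (nat_lit 2) (nat_lit 5) (nat_lit 2) (nat_lit 4) (nat_lit 240) (nat_lit 202) (nat_lit 158)) (XT.lf (nat_lit 0) (nat_lit 72551307874) (nat_lit 76) (nat_lit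 187188116109) (nat_lit 76) (nat_lit 174954658132) (nat_lit 1) (nat_lit 4) (nat_lit 2) (nat_lit 5) (nat_lit 2) (nat_lit 4) (nat_lit 241) (nat_lit 202) (nat_lit 157))) (XT.nd (nat_lit 78) (nat_lit 0) (nat_lit 0) (XT.lf (nat_lit 0) (nat_lit 96906261175) (nat_lit 76) (nat_lit 207066814199) (nat_lit 76) (nat_lit 194830389023) (nat_lit 1) (nat_lit 4) (nat_lit 2) (nat_lit 5) (nat_lit 2) (nat_lit 4) (nat_lit 242) (nat_lit 202) (nat_lit 156)) (XT.lf (nat_lit 0) (nat_lit 124908380781) (nat_lit 76) (nat_lit 229930186184) (nat_lit 76) (nat_lit 217691180835) (nat_lit 1) (nat_lit 4) (nat_lit 2) (nat_lit 5) (nat_lit 2) (nat_lit 4) (nat_lit 243) (nat_lit 202) (nat_lit 155)))) (XT.nd (nat_lit 156) (nat_lit 0) (nat_lit 0) (XT.nd (nat_lit 78) (nat_lit 0) (nat_lit 0) (XT.lf (nat_lit 0) (nat_lit 157105534248) (nat_lit 76) (nat_lit 256225558909) (nat_lit 76) (nat_lit 243984309932) (nat_lit 1) (nat_lit 4)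 (nat_lit 2) (nat_lit 5) (nat_lit 2) (nat_lit 4) (nat_lit 244) (nat_lit 202) (nat_lit 154)) (XT.lf (nat_lit 0) (nat_lit 194127665884) (nat_lit 76) (nat_lit 286467407058) (nat_lit 76) (nat_lit 274224207098) (nat_lit 1) (nat_lit 4) (nat_lit 2) (nat_lit 5) (nat_lit 2) (nat_lit 4) (nat_lit 245) (nat_lit 202) (nat_lit 153))) (XT.nd (nat_lit 78) (nat_lit 0) (nat_lit 0) (XT.lf (nat_lit 0) (nat_lit 236699121741) (nat_lit 76) (nat_lit 321247418962) (nat_lit 76) (nat_lit 309002522498) (nat_lit 1) (nat_lit 4) (nat_lit 2) (nat_lit 5) (nat_lit 2) (nat_lit 4) (nat_lit 246) (nat_lit 202) (nat_lit 152)) (XT.lf (nat_lit 0) (nat_lit 285652821610) (nat_lit 76) (nat_lit 361246073118) (nat_lit 76) (nat_lit 348999701431) (nat_lit 1) (nat_lit 4) (nat_lit 2) (nat_lit 5) (nat_lit 2) (nat_lit 4) (nat_lit 247) (nat_lit 202) (nat_lit 151))))))))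
noncomputable def xc28 : XT := (XT.nd (nat_lit 27924) (nat_lit 0) (nat_lit 76) (XT.nd (nat_lit 1170) (nat_lit 0) (nat_lit 0) (XT.nd (nat_lit 546) (nat_lit 0) (nat_lit 0) (XT.nd (nat_lit 234) (nat_lit 0) (nat_lit 0) (XT.nd (nat_lit 78) (nat_lit 0) (nat_lit 0) (XT.lf (nat_lit 0) (nat_lit 341946555270) (nat_lit 76) (nat_lit 407245951887) (nat_lit 76) (nat_lit 394998297398) (nat_lit 1) (nat_lit 4) (nat_lit 2) (nat_lit 5) (nat_lit 2) (nat_lit 4) (nat_lit 248) (nat_lit 202) (nat_lit 150)) (XT.nd (nat_lit 78) (nat_lit 0) (nat_lit 0) (XT.lf (nat_lit 0) (nat_lit 406681721857) (nat_lit 76) (nat_lit 460147052899) (nat_lit 76) (nat_lit 447898282930) (nat_lit 1) (nat_lit 4) (nat_lit 2) (nat_lit 5) (nat_lit 2) (nat_lit 4) (nat_lit 249) (nat_lit 202) (nat_lit 149)) (XT.lf (nat_lit 0) (nat_lit 481124878979) (nat_lit 76) (nat_lit 520984397694) (nat_lit 76) (nat_lit 508734657743) (nat_lit 1) (nat_lit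 4) (nat_lit 2) (nat_lit 5) (nat_lit 2) (nat_lit 4) (nat_lit 250) (nat_lit 202) (nat_lit 148)))) (XT.nd (nat_lit 156) (nat_lit 0) (nat_lit 0) (XT.nd (nat_lit 78) (nat_lit 0) (nat_lit 0) (XT.lf (nat_lit 0) (nat_lit 566732523188) (nat_lit 76) (nat_lit 590948282150) (nat_lit 76) (nat_lit 578697698735) (nat_lit 1) (nat_lit 4) (nat_lit 2) (nat_lit 5) (nat_lit 2) (nat_lit 4) (nat_lit 251) (nat_lit 202) (nat_lit 147)) (XT.lf (nat_lit 0) (nat_lit 665179586654) (nat_lit 76) (nat_lit 671407564876) (nat_lit 76) (nat_lit 659156248014) (nat_lit 1) (nat_lit 4) (nat_lit 2) (nat_lit 5) (nat_lit 2) (nat_lit 4) (nat_lit 252) (nat_lit 202) (nat_lit 146))) (XT.nd (nat_lit 78) (nat_lit 0) (nat_lit 0) (XT.lf (nat_lit 0) (nat_lit 778392207574) (nat_lit 76) (nat_lit 763936449228) (nat_lit 76) (nat_lit 751684494587) (nat_lit 1) (nat_lit 4) (nat_lit 2) (nat_lit 5) (nat_lit 2) (nat_lit 4) (nat_lit 253) (nat_lit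 202) (nat_lit 145)) (XT.lf (nat_lit 0) (nat_lit 908585415489) (nat_lit 76) (nat_lit 870345282944) (nat_lit 76) (nat_lit 858092773713) (nat_lit 1) (nat_lit 4) (nat_lit 2) (nat_lit 5) (nat_lit 2) (nat_lit 4) (nat_lit 254) (nat_lit 202) (nat_lit 144))))) (XT.nd (nat_lit 312) (nat_lit 0) (nat_lit 0) (XT.nd (nat_lit 156) (nat_lit 0) (nat_lit 0) (XT.nd (nat_lit 78) (nat_lit 0) (nat_lit 0) (XT.lf (nat_lit 0) (nat_lit 1058306468814) (nat_lit 76) (nat_lit 992715977988) (nat_lit 76) (nat_lit 980462986505) (nat_lit 1) (nat_lit 4) (nat_lit 2) (nat_lit 5) (nat_lit 2) (nat_lit 4) (nat_lit 255) (nat_lit 202) (nat_lit 143)) (XT.lf (nat_lit 0) (nat_lit 1230484692505) (nat_lit 76) (nat_lit 1133442743612) (nat_lit 76) (nat_lit 1121189332778) (nat_lit 1) (nat_lit 4) (nat_lit 2) (nat_lit 5) (nat_lit 2) (nat_lit 4) (nat_lit 256) (nat_lit 202) (nat_lit 142))) (XT.nd (nat_lit 78) (nat_lit 0) (nat_lit 0) (XT.lf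 (nat_lit 0) (nat_lit 1428488790940) (nat_lit 76) (nat_lit 1295278929577) (nat_lit 76) (nat_lit 1283025154090) (nat_lit 1) (nat_lit 4) (nat_lit 2) (nat_lit 5) (nat_lit 2) (nat_lit 4) (nat_lit 257) (nat_lit 202) (nat_lit 141)) (XT.lf (nat_lit 0) (nat_lit 1656192757348) (nat_lit 76) (nat_lit 1481390896043) (nat_lit 76) (nat_lit 1469136803468) (nat_lit 1) (nat_lit 4) (nat_lit 2) (nat_lit 5) (nat_lit 2) (nat_lit 4) (nat_lit 258) (nat_lit 202) (nat_lit 140)))) (XT.nd (nat_lit 156) (nat_lit 0) (nat_lit 0) (XT.nd (nat_lit 78) (nat_lit 0) (nat_lit 0) (XT.lf (nat_lit 0) (nat_lit 1918051669333) (nat_lit 76) (nat_lit 1695419964094) (nat_lit 76) (nat_lit 1683165595789) (nat_lit 1) (nat_lit 4) (nat_lit 2) (nat_lit 5) (nat_lit 2) (nat_lit 4) (nat_lit 259) (nat_lit 202) (nat_lit 139)) (XT.lf (nat_lit 0) (nat_lit 2219188853434) (nat_lit 76) (nat_lit 1941553658974) (nat_lit 76) (nat_lit 1929299050904)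 (nat_lit 1) (nat_lit 4) (nat_lit 2) (nat_lit 5) (nat_lit 2) (nat_lit 4) (nat_lit 260) (nat_lit 202) (nat_lit 138))) (XT.nd (nat_lit 78) (nat_lit 0) (nat_lit 0) (XT.lf (nat_lit 0) (nat_lit 2565496124123) (nat_lit 76) (nat_lit 2224607639931) (nat_lit 76) (nat_lit 2212352823370) (nat_lit 1) (nat_lit 4) (nat_lit 2) (nat_lit 5) (nat_lit 2) (nat_lit 4) (nat_lit 261) (nat_lit 202) (nat_lit 137)) (XT.lf (nat_lit 0) (nat_lit 2963749058434) (nat_lit 76) (nat_lit 2550119919635) (nat_lit 76) (nat_lit 2537864921777) (nat_lit 1) (nat_lit 4) (nat_lit 2) (nat_lit 5) (nat_lit 2) (nat_lit 4) (nat_lit 262) (nat_lit 202) (nat_lit 136)))))) (XT.nd (nat_lit 624) (nat_lit 0) (nat_lit 0) (XT.nd (nat_lit 312) (nat_lit 0) (nat_lit 0) (XT.nd (nat_lit 156) (nat_lit 0) (nat_lit 0) (XT.nd (nat_lit 78) (nat_lit 0) (nat_lit 0) (XT.lf (nat_lit 0) (nat_lit 3421739561604) (nat_lit 76) (nat_lit 2924459216603) (nat_lit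 76) (nat_lit 2912204061096) (nat_lit 1) (nat_lit 4) (nat_lit 2) (nat_lit 5) (nat_lit 2) (nat_lit 4) (nat_lit 263) (nat_lit 202) (nat_lit 135)) (XT.lf (nat_lit 0) (nat_lit 3948428317391) (nat_lit 76) (nat_lit 3354949560557) (nat_lit 76) (nat_lit 3342694267964) (nat_lit 1) (nat_lit 4) (nat_lit 2) (nat_lit 5) (nat_lit 2) (nat_lit 4) (nat_lit 264) (nat_lit 202) (nat_lit 134))) (XT.nd (nat_lit 78) (nat_lit 0) (nat_lit 0) (XT.lf (nat_lit 0) (nat_lit 4554120105799) (nat_lit 76) (nat_lit 3850013588663) (nat_lit 76) (nat_lit 3837758176864) (nat_lit 1) (nat_lit 4) (nat_lit 2) (nat_lit 5) (nat_lit 2) (nat_lit 4) (nat_lit 265) (nat_lit 202) (nat_lit 133)) (XT.lf (nat_lit 0) (nat_lit 5250665418341) (nat_lit 76) (nat_lit 4419337336252) (nat_lit 76) (nat_lit 4407081820796) (nat_lit 1) (nat_lit 4) (nat_lit 2) (nat_lit 5) (nat_lit 2) (nat_lit 4) (nat_lit 266) (nat_lit 202) (nat_lit 132)))) (XT.nd (nat_lit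 156) (nat_lit 0) (nat_lit 0) (XT.nd (nat_lit 78) (nat_lit 0) (nat_lit 0) (XT.lf (nat_lit 0) (nat_lit 6051692315479) (nat_lit 76) (nat_lit 5074059746212) (nat_lit 76) (nat_lit 5061804140620) (nat_lit 1) (nat_lit 4) (nat_lit 2) (nat_lit 5) (nat_lit 2) (nat_lit 4) (nat_lit 267) (nat_lit 202) (nat_lit 131)) (XT.lf (nat_lit 0) (nat_lit 6972873062593) (nat_lit 76) (nat_lit 5826990604826) (nat_lit 76) (nat_lit 5814734920854) (nat_lit 1) (nat_lit 4) (nat_lit 2) (nat_lit 5) (nat_lit 2) (nat_lit 4) (nat_lit 268) (nat_lit 202) (nat_lit 130))) (XT.nd (nat_lit 78) (nat_lit 0) (nat_lit 0) (XT.lf (nat_lit 0) (nat_lit 8032230761256) (nat_lit 76) (nat_lit 6692861168022) (nat_lit 76) (nat_lit 6680605415894) (nat_lit 1) (nat_lit 4) (nat_lit 2) (nat_lit 5) (nat_lit 2) (nat_lit 4) (nat_lit 269) (nat_lit 202) (nat_lit 129)) (XT.lf (nat_lit 0) (nat_lit 9250491975137) (nat_lit 76) (nat_lit 7688612381602)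 (nat_lit 76) (nat_lit 7676356570207) (nat_lit 1) (nat_lit 4) (nat_lit 2) (nat_lit 5) (nat_lit 2) (nat_lit 4) (nat_lit 270) (nat_lit 202) (nat_lit 128))))) (XT.nd (nat_lit 390) (nat_lit 0) (nat_lit 0) (XT.nd (nat_lit 234) (nat_lit 0) (nat_lit 0) (XT.nd (nat_lit 78) (nat_lit 0) (nat_lit 0) (XT.lf (nat_lit 0) (nat_lit 10651492249726) (nat_lit 76) (nat_lit 8833726334527) (nat_lit 76) (nat_lit 8821470471597) (nat_lit 1) (nat_lit 4) (nat_lit 2) (nat_lit 5) (nat_lit 2) (nat_lit 4) (nat_lit 271) (nat_lit 202) (nat_lit 127)) (XT.lf (nat_lit 0) (nat_lit 12262642459961) (nat_lit 76) (nat_lit 10150607430225) (nat_lit 76) (nat_lit 10138351522481) (nat_lit 1) (nat_lit 4) (nat_lit 2) (nat_lit 5) (nat_lit 2) (nat_lit 4) (nat_lit 272) (nat_lit 202) (nat_lit 126))) (XT.nd (nat_lit 78) (nat_lit 0) (nat_lit 0) (XT.lf (nat_lit 0) (nat_lit 16246211077640) (nat_lit 76) (nat_lit 13406596070186) (nat_lit 76)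 (nat_lit 13394340089587) (nat_lit 1) (nat_lit 4) (nat_lit 2) (nat_lit 5) (nat_lit 2) (nat_lit 4) (nat_lit 274) (nat_lit 202) (nat_lit 124)) (XT.lf (nat_lit 0) (nat_lit 18696568871083) (nat_lit 76) (nat_lit 15409407740013) (nat_lit 76) (nat_lit 15397151729949) (nat_lit 1) (nat_lit 4) (nat_lit 2) (nat_lit 5) (nat_lit 2) (nat_lit 4) (nat_lit 275) (nat_lit 202) (nat_lit 123)))) (XT.nd (nat_lit 25584) (nat_lit 0) (nat_lit 1140) (XT.nd (nat_lit 78) (nat_lit 0) (nat_lit 0) (XT.lf (nat_lit 0) (nat_lit 21514480273197) (nat_lit 76) (nat_lit 17712641188807) (nat_lit 76) (nat_lit 17700385153121) (nat_lit 1) (nat_lit 4) (nat_lit 2) (nat_lit 5) (nat_lit 2) (nat_lit 4) (nat_lit 276) (nat_lit 202) (nat_lit 122)) (XT.lf (nat_lit 0) (nat_lit 24755078333156) (nat_lit 76) (nat_lit 20361359679696) (nat_lit 76) (nat_lit 20349103621729) (nat_lit 1) (nat_lit 4) (nat_lit 2) (nat_lit 5) (nat_lit 2) (nat_lit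 4) (nat_lit 277) (nat_lit 202) (nat_lit 121))) (XT.nd (nat_lit 78) (nat_lit 228) (nat_lit 0) (XT.lf (nat_lit 0) (nat_lit 3085331752) (nat_lit 228) (nat_lit 288889545) (nat_lit 228) (nat_lit 288889545) (nat_lit 19) (nat_lit 3) (nat_lit 22) (nat_lit 3) (nat_lit 22) (nat_lit 5) (nat_lit 203) (nat_lit 203) (nat_lit 194)) (XT.lf (nat_lit 0) (nat_lit 299802132) (nat_lit 228) (nat_lit 4873570472) (nat_lit 304) (nat_lit 2476279186) (nat_lit 16) (nat_lit 5) (nat_lit 19) (nat_lit 3) (nat_lit 20) (nat_lit 5) (nat_lit 204) (nat_lit 203) (nat_lit 193))))))) (XT.nd (nat_lit 1170) (nat_lit 304) (nat_lit 0) (XT.nd (nat_lit 546) (nat_lit 380) (nat_lit 0) (XT.nd (nat_lit 234) (nat_lit 380) (nat_lit 0) (XT.nd (nat_lit 78) (nat_lit 0) (nat_lit 0) (XT.lf (nat_lit 0) (nat_lit 1647392428) (nat_lit 228) (nat_lit 1542931270) (nat_lit 304) (nat_lit 4857573348) (nat_lit 16) (nat_lit 5) (nat_lit 19) (nat_lit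 3) (nat_lit 20) (nat_lit 5) (nat_lit 205) (nat_lit 203) (nat_lit 192)) (XT.nd (nat_lit 78) (nat_lit 0) (nat_lit 76) (XT.lf (nat_lit 76) (nat_lit 2351087170) (nat_lit 0) (nat_lit 735207426) (nat_lit 304) (nat_lit 5439155958) (nat_lit 17) (nat_lit 5) (nat_lit 16) (nat_lit 5) (nat_lit 20) (nat_lit 5) (nat_lit 206) (nat_lit 203) (nat_lit 191)) (XT.lf (nat_lit 0) (nat_lit 4727196636) (nat_lit 228) (nat_lit 2321707482) (nat_lit 76) (nat_lit 2030371301) (nat_lit 17) (nat_lit 5) (nat_lit 20) (nat_lit 5) (nat_lit 18) (nat_lit 5) (nat_lit 207) (nat_lit 203) (nat_lit 190)))) (XT.nd (nat_lit 156) (nat_lit 228) (nat_lit 0) (XT.nd (nat_lit 78) (nat_lit 0) (nat_lit 0) (XT.lf (nat_lit 0) (nat_lit 2112827979) (nat_lit 228) (nat_lit 4463211201) (nat_lit 304) (nat_lit 3148092760) (nat_lit 14) (nat_lit 5) (nat_lit 17) (nat_lit 5) (nat_lit 18) (nat_lit 5) (nat_lit 208) (nat_lit 203) (nat_lit 189)) (XT.lf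 (nat_lit 0) (nat_lit 7331142128) (nat_lit 228) (nat_lit 1346801878) (nat_lit 304) (nat_lit 1793350552) (nat_lit 14) (nat_lit 5) (nat_lit 17) (nat_lit 5) (nat_lit 18) (nat_lit 5) (nat_lit 209) (nat_lit 203) (nat_lit 188))) (XT.nd (nat_lit 78) (nat_lit 76) (nat_lit 0) (XT.lf (nat_lit 0) (nat_lit 1936913251) (nat_lit 152) (nat_lit 9204544314) (nat_lit 228) (nat_lit 183810776) (nat_lit 12) (nat_lit 5) (nat_lit 14) (nat_lit 5) (nat_lit 15) (nat_lit 4) (nat_lit 210) (nat_lit 203) (nat_lit 187)) (XT.lf (nat_lit 0) (nat_lit 1632261326) (nat_lit 228) (nat_lit 4446496229) (nat_lit 76) (nat_lit 6202471356) (nat_lit 11) (nat_lit 5) (nat_lit 14) (nat_lit 5) (nat_lit 12) (nat_lit 5) (nat_lit 211) (nat_lit 203) (nat_lit 186))))) (XT.nd (nat_lit 312) (nat_lit 152) (nat_lit 0) (XT.nd (nat_lit 156) (nat_lit 76) (nat_lit 0) (XT.nd (nat_lit 78) (nat_lit 0) (nat_lit 0) (XT.lf (nat_lit 0) (nat_lit 1203516133)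 (nat_lit 152) (nat_lit 2441661225) (nat_lit 228) (nat_lit 9743713559) (nat_lit 9) (nat_lit 5) (nat_lit 11) (nat_lit 5) (nat_lit 12) (nat_lit 5) (nat_lit 212) (nat_lit 203) (nat_lit 185)) (XT.lf (nat_lit 0) (nat_lit 6176595750) (nat_lit 228) (nat_lit 6650280722) (nat_lit 76) (nat_lit 1804304541) (nat_lit 9) (nat_lit 5) (nat_lit 12) (nat_lit 5) (nat_lit 10) (nat_lit 4) (nat_lit 213) (nat_lit 203) (nat_lit 184))) (XT.nd (nat_lit 78) (nat_lit 76) (nat_lit 0) (XT.lf (nat_lit 0) (nat_lit 9117888021) (nat_lit 228) (nat_lit 522965842) (nat_lit 76) (nat_lit 6415274445) (nat_lit 9) (nat_lit 5) (nat_lit 12) (nat_lit 5) (nat_lit 10) (nat_lit 4) (nat_lit 214) (nat_lit 203) (nat_lit 183)) (XT.lf (nat_lit 0) (nat_lit 7044726341) (nat_lit 76) (nat_lit 5672477964) (nat_lit 152) (nat_lit 4945817433) (nat_lit 8) (nat_lit 5) (nat_lit 9) (nat_lit 5) (nat_lit 10) (nat_lit 4) (nat_lit 215) (nat_lit 203)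 (nat_lit 182)))) (XT.nd (nat_lit 156) (nat_lit 0) (nat_lit 0) (XT.nd (nat_lit 78) (nat_lit 152) (nat_lit 0) (XT.lf (nat_lit 0) (nat_lit 15705269590) (nat_lit 76) (nat_lit 1109189544) (nat_lit 152) (nat_lit 2703417422) (nat_lit 8) (nat_lit 5) (nat_lit 9) (nat_lit 5) (nat_lit 10) (nat_lit 4) (nat_lit 216) (nat_lit 203) (nat_lit 181)) (XT.lf (nat_lit 0) (nat_lit 179535692) (nat_lit 152) (nat_lit 17505298689) (nat_lit 76) (nat_lit 3923414246) (nat_lit 6) (nat_lit 5) (nat_lit 8) (nat_lit 5) (nat_lit 7) (nat_lit 4) (nat_lit 217) (nat_lit 203) (nat_lit 180))) (XT.nd (nat_lit 78) (nat_lit 0) (nat_lit 0) (XT.lf (nat_lit 0) (nat_lit 3419396810) (nat_lit 152) (nat_lit 10637274369) (nat_lit 76) (nat_lit 9906425242) (nat_lit 6) (nat_lit 5) (nat_lit 8) (nat_lit 5) (nat_lit 7) (nat_lit 4) (nat_lit 218) (nat_lit 203) (nat_lit 179)) (XT.lf (nat_lit 0) (nat_lit 7092749544) (nat_lit 152) (nat_lit 2824502584)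 (nat_lit 76) (nat_lit 16762154616) (nat_lit 6) (nat_lit 5) (nat_lit 8) (nat_lit 5) (nat_lit 7) (nat_lit 4) (nat_lit 219) (nat_lit 203) (nat_lit 178)))))) (XT.nd (nat_lit 624) (nat_lit 76) (nat_lit 0) (XT.nd (nat_lit 312) (nat_lit 76) (nat_lit 0) (XT.nd (nat_lit 156) (nat_lit 76) (nat_lit 0) (XT.nd (nat_lit 78) (nat_lit 0) (nat_lit 0) (XT.lf (nat_lit 0) (nat_lit 6680631232) (nat_lit 76) (nat_lit 4867463300) (nat_lit 152) (nat_lit 18220735662) (nat_lit 5) (nat_lit 5) (nat_lit 6) (nat_lit 5) (nat_lit 7) (nat_lit 4) (nat_lit 220) (nat_lit 203) (nat_lit 177)) (XT.lf (nat_lit 0) (nat_lit 16821533876) (nat_lit 152) (nat_lit 15492922920) (nat_lit 0) (nat_lit 985015371) (nat_lit 5) (nat_lit 5) (nat_lit 7) (nat_lit 4) (nat_lit 5) (nat_lit 4) (nat_lit 221) (nat_lit 203) (nat_lit 176))) (XT.nd (nat_lit 78) (nat_lit 76) (nat_lit 0) (XT.lf (nat_lit 0) (nat_lit 23079688397) (nat_lit 152) (nat_lit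 7056598199) (nat_lit 0) (nat_lit 7194607118) (nat_lit 5) (nat_lit 5) (nat_lit 7) (nat_lit 4) (nat_lit 5) (nat_lit 4) (nat_lit 222) (nat_lit 203) (nat_lit 175)) (XT.lf (nat_lit 0) (nat_lit 2840243083) (nat_lit 76) (nat_lit 27520814299) (nat_lit 76) (nat_lit 11593504522) (nat_lit 4) (nat_lit 4) (nat_lit 5) (nat_lit 5) (nat_lit 5) (nat_lit 4) (nat_lit 223) (nat_lit 203) (nat_lit 174)))) (XT.nd (nat_lit 156) (nat_lit 76) (nat_lit 0) (XT.nd (nat_lit 78) (nat_lit 0) (nat_lit 0) (XT.lf (nat_lit 0) (nat_lit 14959512572) (nat_lit 76) (nat_lit 24112905081) (nat_lit 76) (nat_lit 8148874871) (nat_lit 4) (nat_lit 4) (nat_lit 5) (nat_lit 5) (nat_lit 5) (nat_lit 4) (nat_lit 224) (nat_lit 203) (nat_lit 173)) (XT.lf (nat_lit 0) (nat_lit 28848704311) (nat_lit 76) (nat_lit 20214750091) (nat_lit 76) (nat_lit 4218789069) (nat_lit 4) (nat_lit 4) (nat_lit 5) (nat_lit 5) (nat_lit 5) (nat_lit 4) (nat_lit 225)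 (nat_lit 203) (nat_lit 172))) (XT.nd (nat_lit 78) (nat_lit 0) (nat_lit 0) (XT.lf (nat_lit 0) (nat_lit 249284018) (nat_lit 152) (nat_lit 15487766305) (nat_lit 76) (nat_lit 44517248583) (nat_lit 3) (nat_lit 5) (nat_lit 5) (nat_lit 5) (nat_lit 4) (nat_lit 4) (nat_lit 226) (nat_lit 203) (nat_lit 171)) (XT.lf (nat_lit 0) (nat_lit 4934126659) (nat_lit 152) (nat_lit 5439498908) (nat_lit 76) (nat_lit 57871733514) (nat_lit 3) (nat_lit 5) (nat_lit 5) (nat_lit 5) (nat_lit 4) (nat_lit 4) (nat_lit 227) (nat_lit 203) (nat_lit 170))))) (XT.nd (nat_lit 312) (nat_lit 0) (nat_lit 0) (XT.nd (nat_lit 156) (nat_lit 0) (nat_lit 0) (XT.nd (nat_lit 78) (nat_lit 0) (nat_lit 0) (XT.lf (nat_lit 0) (nat_lit 6676981707) (nat_lit 76) (nat_lit 3902482460) (nat_lit 152) (nat_lit 66817038381) (nat_lit 2) (nat_lit 5) (nat_lit 3) (nat_lit 5) (nat_lit 4) (nat_lit 4) (nat_lit 228) (nat_lit 203) (nat_lit 169)) (XT.lf (nat_lit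 0) (nat_lit 17497848882) (nat_lit 152) (nat_lit 66849563075) (nat_lit 0) (nat_lit 3509046449) (nat_lit 2) (nat_lit 5) (nat_lit 4) (nat_lit 4) (nat_lit 2) (nat_lit 4) (nat_lit 229) (nat_lit 203) (nat_lit 168))) (XT.nd (nat_lit 78) (nat_lit 0) (nat_lit 0) (XT.lf (nat_lit 0) (nat_lit 25624009076) (nat_lit 152) (nat_lit 62614561532) (nat_lit 0) (nat_lit 11621402072) (nat_lit 2) (nat_lit 5) (nat_lit 4) (nat_lit 4) (nat_lit 2) (nat_lit 4) (nat_lit 230) (nat_lit 203) (nat_lit 167)) (XT.lf (nat_lit 0) (nat_lit 34955341364) (nat_lit 152) (nat_lit 57770064010) (nat_lit 0) (nat_lit 20940730385) (nat_lit 2) (nat_lit 5) (nat_lit 4) (nat_lit 4) (nat_lit 2) (nat_lit 4) (nat_lit 231) (nat_lit 203) (nat_lit 166)))) (XT.nd (nat_lit 156) (nat_lit 0) (nat_lit 0) (XT.nd (nat_lit 78) (nat_lit 0) (nat_lit 0) (XT.lf (nat_lit 0) (nat_lit 45674415289) (nat_lit 152) (nat_lit 52221286862) (nat_lit 0) (nat_lit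 31649366071) (nat_lit 2) (nat_lit 5) (nat_lit 4) (nat_lit 4) (nat_lit 2) (nat_lit 4) (nat_lit 232) (nat_lit 203) (nat_lit 165)) (XT.lf (nat_lit 0) (nat_lit 57990951864) (nat_lit 152) (nat_lit 45859667058) (nat_lit 0) (nat_lit 43956825916) (nat_lit 2) (nat_lit 5) (nat_lit 4) (nat_lit 4) (nat_lit 2) (nat_lit 4) (nat_lit 233) (nat_lit 203) (nat_lit 164))) (XT.nd (nat_lit 78) (nat_lit 0) (nat_lit 0) (XT.lf (nat_lit 0) (nat_lit 72145926803) (nat_lit 152) (nat_lit 38560738121) (nat_lit 0) (nat_lit 58103908047) (nat_lit 2) (nat_lit 5) (nat_lit 4) (nat_lit 4) (nat_lit 2) (nat_lit 4) (nat_lit 234) (nat_lit 203) (nat_lit 163)) (XT.lf (nat_lit 0) (nat_lit 88416285269) (nat_lit 152) (nat_lit 30181694922) (nat_lit 0) (nat_lit 74367403202) (nat_lit 2) (nat_lit 5) (nat_lit 4) (nat_lit 4) (nat_lit 2) (nat_lit 4) (nat_lit 235) (nat_lit 203) (nat_lit 162))))))))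
noncomputable def xc29 : XT := (XT.nd (nat_lit 2418) (nat_lit 0) (nat_lit 0) (XT.nd (nat_lit 1170) (nat_lit 0) (nat_lit 0) (XT.nd (nat_lit 546) (nat_lit 0) (nat_lit 0) (XT.nd (nat_lit 234) (nat_lit 0) (nat_lit 0) (XT.nd (nat_lit 78) (nat_lit 76) (nat_lit 0) (XT.lf (nat_lit 0) (nat_lit 107120360363) (nat_lit 152) (nat_lit 20558599658) (nat_lit 0) (nat_lit 93065510199) (nat_lit 2) (nat_lit 5) (nat_lit 4) (nat_lit 4) (nat_lit 2) (nat_lit 4) (nat_lit 236) (nat_lit 203) (nat_lit 161)) (XT.nd (nat_lit 78) (nat_lit 76) (nat_lit 0) (XT.lf (nat_lit 0) (nat_lit 128624101379) (nat_lit 152) (nat_lit 9503174379) (nat_lit 0) (nat_lit 114564061565) (nat_lit 2) (nat_lit 5) (nat_lit 4) (nat_lit 4) (nat_lit 2) (nat_lit 4) (nat_lit 237) (nat_lit 203) (nat_lit 160)) (XT.lf (nat_lit 0) (nat_lit 3513696251) (nat_lit 76) (nat_lit 149980032103) (nat_lit 76) (nat_lit 135915479550) (nat_lit 1) (nat_lit 4) (nat_lit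 2) (nat_lit 5) (nat_lit 2) (nat_lit 4) (nat_lit 238) (nat_lit 203) (nat_lit 159)))) (XT.nd (nat_lit 156) (nat_lit 0) (nat_lit 0) (XT.nd (nat_lit 78) (nat_lit 0) (nat_lit 0) (XT.lf (nat_lit 0) (nat_lit 19541882802) (nat_lit 76) (nat_lit 163043795198) (nat_lit 76) (nat_lit 148975318524) (nat_lit 1) (nat_lit 4) (nat_lit 2) (nat_lit 5) (nat_lit 2) (nat_lit 4) (nat_lit 239) (nat_lit 203) (nat_lit 158)) (XT.lf (nat_lit 0) (nat_lit 37966260910) (nat_lit 76) (nat_lit 178070917251) (nat_lit 76) (nat_lit 163999028299) (nat_lit 1) (nat_lit 4) (nat_lit 2) (nat_lit 5) (nat_lit 2) (nat_lit 4) (nat_lit 240) (nat_lit 203) (nat_lit 157))) (XT.nd (nat_lit 78) (nat_lit 0) (nat_lit 0) (XT.lf (nat_lit 0) (nat_lit 59147307540) (nat_lit 76) (nat_lit 195355407173) (nat_lit 76) (nat_lit 181280551022) (nat_lit 1) (nat_lit 4) (nat_lit 2) (nat_lit 5) (nat_lit 2) (nat_lit 4) (nat_lit 241) (nat_lit 203) (nat_lit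 156)) (XT.lf (nat_lit 0) (nat_lit 83499434474) (nat_lit 76) (nat_lit 215235439766) (nat_lit 76) (nat_lit 201158003442) (nat_lit 1) (nat_lit 4) (nat_lit 2) (nat_lit 5) (nat_lit 2) (nat_lit 4) (nat_lit 242) (nat_lit 203) (nat_lit 155))))) (XT.nd (nat_lit 312) (nat_lit 0) (nat_lit 0) (XT.nd (nat_lit 156) (nat_lit 0) (nat_lit 0) (XT.nd (nat_lit 78) (nat_lit 0) (nat_lit 0) (XT.lf (nat_lit 0) (nat_lit 111499096368) (nat_lit 76) (nat_lit 238099972190) (nat_lit 76) (nat_lit 224020292237) (nat_lit 1) (nat_lit 4) (nat_lit 2) (nat_lit 5) (nat_lit 2) (nat_lit 4) (nat_lit 243) (nat_lit 203) (nat_lit 154)) (XT.lf (nat_lit 0) (nat_lit 143694112695) (nat_lit 76) (nat_lit 264396353991) (nat_lit 76) (nat_lit 250314723057) (nat_lit 1) (nat_lit 4) (nat_lit 2) (nat_lit 5) (nat_lit 2) (nat_lit 4) (nat_lit 244) (nat_lit 203) (nat_lit 153))) (XT.nd (nat_lit 78) (nat_lit 0) (nat_lit 0) (XT.lf (nat_lit 0) (nat_lit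 180714385948) (nat_lit 76) (nat_lit 294639079597) (nat_lit 76) (nat_lit 280555752157) (nat_lit 1) (nat_lit 4) (nat_lit 2) (nat_lit 5) (nat_lit 2) (nat_lit 4) (nat_lit 245) (nat_lit 203) (nat_lit 152)) (XT.lf (nat_lit 0) (nat_lit 223284225820) (nat_lit 76) (nat_lit 329419854509) (nat_lit 76) (nat_lit 315335051847) (nat_lit 1) (nat_lit 4) (nat_lit 2) (nat_lit 5) (nat_lit 2) (nat_lit 4) (nat_lit 246) (nat_lit 203) (nat_lit 151)))) (XT.nd (nat_lit 156) (nat_lit 0) (nat_lit 0) (XT.nd (nat_lit 78) (nat_lit 0) (nat_lit 0) (XT.lf (nat_lit 0) (nat_lit 272236520485) (nat_lit 76) (nat_lit 369419172148) (nat_lit 76) (nat_lit 355333086684) (nat_lit 1) (nat_lit 4) (nat_lit 2) (nat_lit 5) (nat_lit 2) (nat_lit 4) (nat_lit 247) (nat_lit 203) (nat_lit 150)) (XT.lf (nat_lit 0) (nat_lit 328529032227) (nat_lit 76) (nat_lit 415419627860) (nat_lit 76) (nat_lit 401332426916) (nat_lit 1) (nat_lit 4) (nat_lit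 2) (nat_lit 5) (nat_lit 2) (nat_lit 4) (nat_lit 248) (nat_lit 203) (nat_lit 149))) (XT.nd (nat_lit 78) (nat_lit 0) (nat_lit 0) (XT.lf (nat_lit 0) (nat_lit 393263136278) (nat_lit 76) (nat_lit 468321230562) (nat_lit 76) (nat_lit 454233059635) (nat_lit 1) (nat_lit 4) (nat_lit 2) (nat_lit 5) (nat_lit 2) (nat_lit 4) (nat_lit 249) (nat_lit 203) (nat_lit 148)) (XT.lf (nat_lit 0) (nat_lit 467705369455) (nat_lit 76) (nat_lit 529159011609) (nat_lit 76) (nat_lit 515069997219) (nat_lit 1) (nat_lit 4) (nat_lit 2) (nat_lit 5) (nat_lit 2) (nat_lit 4) (nat_lit 250) (nat_lit 203) (nat_lit 147)))))) (XT.nd (nat_lit 624) (nat_lit 0) (nat_lit 0) (XT.nd (nat_lit 312) (nat_lit 0) (nat_lit 0) (XT.nd (nat_lit 156) (nat_lit 0) (nat_lit 0) (XT.nd (nat_lit 78) (nat_lit 0) (nat_lit 0) (XT.lf (nat_lit 0) (nat_lit 553312210234) (nat_lit 76) (nat_lit 599123275414) (nat_lit 76) (nat_lit 585033527578) (nat_lit 1)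 (nat_lit 4) (nat_lit 2) (nat_lit 5) (nat_lit 2) (nat_lit 4) (nat_lit 251) (nat_lit 203) (nat_lit 146)) (XT.lf (nat_lit 0) (nat_lit 651758575065) (nat_lit 76) (nat_lit 679582888008) (nat_lit 76) (nat_lit 665492502392) (nat_lit 1) (nat_lit 4) (nat_lit 2) (nat_lit 5) (nat_lit 2) (nat_lit 4) (nat_lit 252) (nat_lit 203) (nat_lit 145))) (XT.nd (nat_lit 78) (nat_lit 0) (nat_lit 0) (XT.lf (nat_lit 0) (nat_lit 764970588477) (nat_lit 76) (nat_lit 772112059203) (nat_lit 76) (nat_lit 758021118996) (nat_lit 1) (nat_lit 4) (nat_lit 2) (nat_lit 5) (nat_lit 2) (nat_lit 4) (nat_lit 253) (nat_lit 203) (nat_lit 144)) (XT.lf (nat_lit 0) (nat_lit 895163268123) (nat_lit 76) (nat_lit 878521142347) (nat_lit 76) (nat_lit 864429719888) (nat_lit 1) (nat_lit 4) (nat_lit 2) (nat_lit 5) (nat_lit 2) (nat_lit 4) (nat_lit 254) (nat_lit 203) (nat_lit 143)))) (XT.nd (nat_lit 156) (nat_lit 0) (nat_lit 0) (XT.nd (nat_lit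 78) (nat_lit 0) (nat_lit 0) (XT.lf (nat_lit 0) (nat_lit 1044883862084) (nat_lit 76) (nat_lit 1000892054286) (nat_lit 76) (nat_lit 986800212476) (nat_lit 1) (nat_lit 4) (nat_lit 2) (nat_lit 5) (nat_lit 2) (nat_lit 4) (nat_lit 255) (nat_lit 203) (nat_lit 142)) (XT.lf (nat_lit 0) (nat_lit 1217061686329) (nat_lit 76) (nat_lit 1141619008513) (nat_lit 76) (nat_lit 1127526802051) (nat_lit 1) (nat_lit 4) (nat_lit 2) (nat_lit 5) (nat_lit 2) (nat_lit 4) (nat_lit 256) (nat_lit 203) (nat_lit 141))) (XT.nd (nat_lit 78) (nat_lit 0) (nat_lit 0) (XT.lf (nat_lit 0) (nat_lit 1415065437419) (nat_lit 76) (nat_lit 1303455358481) (nat_lit 76) (nat_lit 1289362834930) (nat_lit 1) (nat_lit 4) (nat_lit 2) (nat_lit 5) (nat_lit 2) (nat_lit 4) (nat_lit 257) (nat_lit 203) (nat_lit 140)) (XT.lf (nat_lit 0) (nat_lit 1642769101788) (nat_lit 76) (nat_lit 1489567467559) (nat_lit 76) (nat_lit 1475474668279) (nat_lit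 1) (nat_lit 4) (nat_lit 2) (nat_lit 5) (nat_lit 2) (nat_lit 4) (nat_lit 258) (nat_lit 203) (nat_lit 139))))) (XT.nd (nat_lit 312) (nat_lit 0) (nat_lit 0) (XT.nd (nat_lit 156) (nat_lit 0) (nat_lit 0) (XT.nd (nat_lit 78) (nat_lit 0) (nat_lit 0) (XT.lf (nat_lit 0) (nat_lit 1904627751130) (nat_lit 76) (nat_lit 1703596659620) (nat_lit 76) (nat_lit 1689503620575) (nat_lit 1) (nat_lit 4) (nat_lit 2) (nat_lit 5) (nat_lit 2) (nat_lit 4) (nat_lit 259) (nat_lit 203) (nat_lit 138)) (XT.lf (nat_lit 0) (nat_lit 2205764706846) (nat_lit 76) (nat_lit 1949730462335) (nat_lit 76) (nat_lit 1935637214798) (nat_lit 1) (nat_lit 4) (nat_lit 2) (nat_lit 5) (nat_lit 2) (nat_lit 4) (nat_lit 260) (nat_lit 203) (nat_lit 137))) (XT.nd (nat_lit 78) (nat_lit 0) (nat_lit 0) (XT.lf (nat_lit 0) (nat_lit 2552071778939) (nat_lit 76) (nat_lit 2232784537061) (nat_lit 76) (nat_lit 2218691108227) (nat_lit 1) (nat_lit 4) (nat_lit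 2) (nat_lit 5) (nat_lit 2) (nat_lit 4) (nat_lit 261) (nat_lit 203) (nat_lit 136)) (XT.lf (nat_lit 0) (nat_lit 2950324540558) (nat_lit 76) (nat_lit 2558296898303) (nat_lit 76) (nat_lit 2544203311821) (nat_lit 1) (nat_lit 4) (nat_lit 2) (nat_lit 5) (nat_lit 2) (nat_lit 4) (nat_lit 262) (nat_lit 203) (nat_lit 135)))) (XT.nd (nat_lit 156) (nat_lit 0) (nat_lit 0) (XT.nd (nat_lit 78) (nat_lit 0) (nat_lit 0) (XT.lf (nat_lit 0) (nat_lit 3408314893561) (nat_lit 76) (nat_lit 2932636266174) (nat_lit 76) (nat_lit 2918542542605) (nat_lit 1) (nat_lit 4) (nat_lit 2) (nat_lit 5) (nat_lit 2) (nat_lit 4) (nat_lit 263) (nat_lit 203) (nat_lit 134)) (XT.lf (nat_lit 0) (nat_lit 3935003518768) (nat_lit 76) (nat_lit 3363126671783) (nat_lit 76) (nat_lit 3349032829009) (nat_lit 1) (nat_lit 4) (nat_lit 2) (nat_lit 5) (nat_lit 2) (nat_lit 4) (nat_lit 264) (nat_lit 203) (nat_lit 133))) (XT.nd (nat_lit 78) (nat_lit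 0) (nat_lit 0) (XT.lf (nat_lit 0) (nat_lit 4540695193629) (nat_lit 76) (nat_lit 3858190753502) (nat_lit 76) (nat_lit 3844096807071) (nat_lit 1) (nat_lit 4) (nat_lit 2) (nat_lit 5) (nat_lit 2) (nat_lit 4) (nat_lit 265) (nat_lit 203) (nat_lit 132)) (XT.lf (nat_lit 0) (nat_lit 5237240407434) (nat_lit 76) (nat_lit 4427514547711) (nat_lit 76) (nat_lit 4413420511143) (nat_lit 1) (nat_lit 4) (nat_lit 2) (nat_lit 5) (nat_lit 2) (nat_lit 4) (nat_lit 266) (nat_lit 203) (nat_lit 131))))))) (XT.nd (nat_lit 26676) (nat_lit 0) (nat_lit 304) (XT.nd (nat_lit 624) (nat_lit 0) (nat_lit 0) (XT.nd (nat_lit 234) (nat_lit 0) (nat_lit 0) (XT.nd (nat_lit 78) (nat_lit 0) (nat_lit 0) (XT.lf (nat_lit 0) (nat_lit 6038267218714) (nat_lit 76) (nat_lit 5082236998210) (nat_lit 76) (nat_lit 5068142883263) (nat_lit 1) (nat_lit 4) (nat_lit 2) (nat_lit 5) (nat_lit 2) (nat_lit 4) (nat_lit 267) (nat_lit 203) (nat_lit 130))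 (XT.nd (nat_lit 78) (nat_lit 0) (nat_lit 0) (XT.lf (nat_lit 0) (nat_lit 6959447891168) (nat_lit 76) (nat_lit 5835167892075) (nat_lit 76) (nat_lit 5821073708972) (nat_lit 1) (nat_lit 4) (nat_lit 2) (nat_lit 5) (nat_lit 2) (nat_lit 4) (nat_lit 268) (nat_lit 203) (nat_lit 129)) (XT.lf (nat_lit 0) (nat_lit 8018805524909) (nat_lit 76) (nat_lit 6701038485925) (nat_lit 76) (nat_lit 6686944243555) (nat_lit 1) (nat_lit 4) (nat_lit 2) (nat_lit 5) (nat_lit 2) (nat_lit 4) (nat_lit 269) (nat_lit 203) (nat_lit 128)))) (XT.nd (nat_lit 234) (nat_lit 0) (nat_lit 0) (XT.nd (nat_lit 78) (nat_lit 0) (nat_lit 0) (XT.lf (nat_lit 0) (nat_lit 9237066682337) (nat_lit 76) (nat_lit 7696789726160) (nat_lit 76) (nat_lit 7682695432254) (nat_lit 1) (nat_lit 4) (nat_lit 2) (nat_lit 5) (nat_lit 2) (nat_lit 4) (nat_lit 270) (nat_lit 203) (nat_lit 127)) (XT.lf (nat_lit 0) (nat_lit 10638066907837) (nat_lit 76) (nat_lit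 8841903702263) (nat_lit 76) (nat_lit 8827809363544) (nat_lit 1) (nat_lit 4) (nat_lit 2) (nat_lit 5) (nat_lit 2) (nat_lit 4) (nat_lit 271) (nat_lit 203) (nat_lit 126))) (XT.nd (nat_lit 78) (nat_lit 0) (nat_lit 0) (XT.lf (nat_lit 0) (nat_lit 14102039688259) (nat_lit 76) (nat_lit 11673198139028) (nat_lit 76) (nat_lit 11659103727455) (nat_lit 1) (nat_lit 4) (nat_lit 2) (nat_lit 5) (nat_lit 2) (nat_lit 4) (nat_lit 273) (nat_lit 203) (nat_lit 124)) (XT.lf (nat_lit 0) (nat_lit 16232785623667) (nat_lit 76) (nat_lit 13414773490843) (nat_lit 76) (nat_lit 13400679049804) (nat_lit 1) (nat_lit 4) (nat_lit 2) (nat_lit 5) (nat_lit 2) (nat_lit 4) (nat_lit 274) (nat_lit 203) (nat_lit 123))))) (XT.nd (nat_lit 25740) (nat_lit 0) (nat_lit 1140) (XT.nd (nat_lit 156) (nat_lit 0) (nat_lit 0) (XT.nd (nat_lit 78) (nat_lit 0) (nat_lit 0) (XT.lf (nat_lit 0) (nat_lit 18683143389043) (nat_lit 76) (nat_lit 15417585173923)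 (nat_lit 76) (nat_lit 15403490707261) (nat_lit 1) (nat_lit 4) (nat_lit 2) (nat_lit 5) (nat_lit 2) (nat_lit 4) (nat_lit 275) (nat_lit 203) (nat_lit 122)) (XT.lf (nat_lit 0) (nat_lit 21501054766751) (nat_lit 76) (nat_lit 17720818634241) (nat_lit 76) (nat_lit 17706724145299) (nat_lit 1) (nat_lit 4) (nat_lit 2) (nat_lit 5) (nat_lit 2) (nat_lit 4) (nat_lit 276) (nat_lit 203) (nat_lit 121))) (XT.nd (nat_lit 78) (nat_lit 0) (nat_lit 0) (XT.lf (nat_lit 0) (nat_lit 24741652805487) (nat_lit 76) (nat_lit 20369537135150) (nat_lit 76) (nat_lit 20355442626834) (nat_lit 1) (nat_lit 4) (nat_lit 2) (nat_lit 5) (nat_lit 2) (nat_lit 4) (nat_lit 277) (nat_lit 203) (nat_lit 120)) (XT.lf (nat_lit 0) (nat_lit 28468340510355) (nat_lit 76) (nat_lit 23415563429931) (nat_lit 76) (nat_lit 23401468904767) (nat_lit 1) (nat_lit 4) (nat_lit 2) (nat_lit 5) (nat_lit 2) (nat_lit 4) (nat_lit 278) (nat_lit 203) (nat_lit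 119)))) (XT.nd (nat_lit 156) (nat_lit 0) (nat_lit 0) (XT.nd (nat_lit 78) (nat_lit 0) (nat_lit 0) (XT.lf (nat_lit 0) (nat_lit 340953607) (nat_lit 0) (nat_lit 340953607) (nat_lit 228) (nat_lit 3323468736) (nat_lit 16) (nat_lit 5) (nat_lit 16) (nat_lit 3) (nat_lit 19) (nat_lit 3) (nat_lit 204) (nat_lit 204) (nat_lit 192)) (XT.lf (nat_lit 0) (nat_lit 2586340412) (nat_lit 228) (nat_lit 4037655989) (nat_lit 304) (nat_lit 1805131316) (nat_lit 16) (nat_lit 5) (nat_lit 19) (nat_lit 3) (nat_lit 20) (nat_lit 5) (nat_lit 205) (nat_lit 204) (nat_lit 191))) (XT.nd (nat_lit 78) (nat_lit 0) (nat_lit 0) (XT.lf (nat_lit 0) (nat_lit 3843690823) (nat_lit 228) (nat_lit 411805697) (nat_lit 304) (nat_lit 4679609568) (nat_lit 16) (nat_lit 5) (nat_lit 19) (nat_lit 3) (nat_lit 20) (nat_lit 5) (nat_lit 206) (nat_lit 204) (nat_lit 190)) (XT.lf (nat_lit 76) (nat_lit 4004380725) (nat_lit 0) (nat_lit 1293661812)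 (nat_lit 304) (nat_lit 4219907571) (nat_lit 17) (nat_lit 5) (nat_lit 16) (nat_lit 5) (nat_lit 20) (nat_lit 5) (nat_lit 207) (nat_lit 204) (nat_lit 189)))))) (XT.nd (nat_lit 624) (nat_lit 228) (nat_lit 0) (XT.nd (nat_lit 312) (nat_lit 228) (nat_lit 0) (XT.nd (nat_lit 156) (nat_lit 228) (nat_lit 0) (XT.nd (nat_lit 78) (nat_lit 228) (nat_lit 0) (XT.lf (nat_lit 0) (nat_lit 6940837742) (nat_lit 228) (nat_lit 1273871075) (nat_lit 76) (nat_lit 1979906311) (nat_lit 17) (nat_lit 5) (nat_lit 20) (nat_lit 5) (nat_lit 18) (nat_lit 5) (nat_lit 208) (nat_lit 204) (nat_lit 188)) (XT.lf (nat_lit 0) (nat_lit 3762385953) (nat_lit 228) (nat_lit 5163555071) (nat_lit 304) (nat_lit 2034140779) (nat_lit 14) (nat_lit 5) (nat_lit 17) (nat_lit 5) (nat_lit 18) (nat_lit 5) (nat_lit 209) (nat_lit 204) (nat_lit 187))) (XT.nd (nat_lit 78) (nat_lit 228) (nat_lit 0) (XT.lf (nat_lit 0) (nat_lit 9589625428) (nat_lit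 228) (nat_lit 1575658847) (nat_lit 304) (nat_lit 683078444) (nat_lit 14) (nat_lit 5) (nat_lit 17) (nat_lit 5) (nat_lit 18) (nat_lit 5) (nat_lit 210) (nat_lit 204) (nat_lit 186)) (XT.lf (nat_lit 0) (nat_lit 955064746) (nat_lit 228) (nat_lit 9371745596) (nat_lit 76) (nat_lit 2514485942) (nat_lit 11) (nat_lit 5) (nat_lit 14) (nat_lit 5) (nat_lit 12) (nat_lit 5) (nat_lit 211) (nat_lit 204) (nat_lit 185)))) (XT.nd (nat_lit 156) (nat_lit 76) (nat_lit 0) (XT.nd (nat_lit 78) (nat_lit 152) (nat_lit 0) (XT.lf (nat_lit 0) (nat_lit 2875038279) (nat_lit 228) (nat_lit 3882070781) (nat_lit 76) (nat_lit 7206238758) (nat_lit 11) (nat_lit 5) (nat_lit 14) (nat_lit 5) (nat_lit 12) (nat_lit 5) (nat_lit 212) (nat_lit 204) (nat_lit 184)) (XT.lf (nat_lit 0) (nat_lit 2559470714) (nat_lit 152) (nat_lit 2548927141) (nat_lit 228) (nat_lit 10142338580) (nat_lit 9) (nat_lit 5) (nat_lit 11) (nat_lit 5) (nat_lit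 12) (nat_lit 5) (nat_lit 213) (nat_lit 204) (nat_lit 183))) (XT.nd (nat_lit 78) (nat_lit 76) (nat_lit 0) (XT.lf (nat_lit 0) (nat_lit 7909318014) (nat_lit 228) (nat_lit 6507656452) (nat_lit 76) (nat_lit 2280103950) (nat_lit 9) (nat_lit 5) (nat_lit 12) (nat_lit 5) (nat_lit 10) (nat_lit 4) (nat_lit 214) (nat_lit 204) (nat_lit 182)) (XT.lf (nat_lit 0) (nat_lit 428155686) (nat_lit 76) (nat_lit 10776216640) (nat_lit 152) (nat_lit 7145533485) (nat_lit 8) (nat_lit 5) (nat_lit 9) (nat_lit 5) (nat_lit 10) (nat_lit 4) (nat_lit 215) (nat_lit 204) (nat_lit 181))))) (XT.nd (nat_lit 312) (nat_lit 76) (nat_lit 0) (XT.nd (nat_lit 156) (nat_lit 152) (nat_lit 0) (XT.nd (nat_lit 78) (nat_lit 0) (nat_lit 0) (XT.lf (nat_lit 0) (nat_lit 9047818453) (nat_lit 76) (nat_lit 6225782110) (nat_lit 152) (nat_lit 4935620289) (nat_lit 8) (nat_lit 5) (nat_lit 9) (nat_lit 5) (nat_lit 10) (nat_lit 4) (nat_lit 216) (nat_lit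 204) (nat_lit 180)) (XT.lf (nat_lit 0) (nat_lit 18884001908) (nat_lit 76) (nat_lit 1016813585) (nat_lit 152) (nat_lit 2454956331) (nat_lit 8) (nat_lit 5) (nat_lit 9) (nat_lit 5) (nat_lit 10) (nat_lit 4) (nat_lit 217) (nat_lit 204) (nat_lit 179))) (XT.nd (nat_lit 78) (nat_lit 0) (nat_lit 0) (XT.lf (nat_lit 0) (nat_lit 771622701) (nat_lit 152) (nat_lit 19210949007) (nat_lit 76) (nat_lit 4778240456) (nat_lit 6) (nat_lit 5) (nat_lit 8) (nat_lit 5) (nat_lit 7) (nat_lit 4) (nat_lit 218) (nat_lit 204) (nat_lit 178)) (XT.lf (nat_lit 0) (nat_lit 4423746900) (nat_lit 152) (nat_lit 11432739885) (nat_lit 76) (nat_lit 11623966484) (nat_lit 6) (nat_lit 5) (nat_lit 8) (nat_lit 5) (nat_lit 7) (nat_lit 4) (nat_lit 219) (nat_lit 204) (nat_lit 177)))) (XT.nd (nat_lit 156) (nat_lit 0) (nat_lit 0) (XT.nd (nat_lit 78) (nat_lit 76) (nat_lit 0) (XT.lf (nat_lit 0) (nat_lit 8584001601) (nat_lit 152) (nat_lit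 2552416547) (nat_lit 76) (nat_lit 19477849508) (nat_lit 6) (nat_lit 5) (nat_lit 8) (nat_lit 5) (nat_lit 7) (nat_lit 4) (nat_lit 220) (nat_lit 204) (nat_lit 176)) (XT.lf (nat_lit 0) (nat_lit 8346861823) (nat_lit 76) (nat_lit 5332547014) (nat_lit 152) (nat_lit 20492316383) (nat_lit 5) (nat_lit 5) (nat_lit 6) (nat_lit 5) (nat_lit 7) (nat_lit 4) (nat_lit 221) (nat_lit 204) (nat_lit 175))) (XT.nd (nat_lit 78) (nat_lit 0) (nat_lit 0) (XT.lf (nat_lit 0) (nat_lit 19701350646) (nat_lit 152) (nat_lit 17194608452) (nat_lit 0) (nat_lit 1342715905) (nat_lit 5) (nat_lit 5) (nat_lit 7) (nat_lit 4) (nat_lit 5) (nat_lit 4) (nat_lit 222) (nat_lit 204) (nat_lit 174)) (XT.lf (nat_lit 0) (nat_lit 26851717038) (nat_lit 152) (nat_lit 7573998445) (nat_lit 0) (nat_lit 8456361863) (nat_lit 5) (nat_lit 5) (nat_lit 7) (nat_lit 4) (nat_lit 5) (nat_lit 4) (nat_lit 223) (nat_lit 204) (nat_lit 173))))))))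
noncomputable def xc30 : XT := (XT.nd (nat_lit 2418) (nat_lit 0) (nat_lit 0) (XT.nd (nat_lit 1170) (nat_lit 76) (nat_lit 0) (XT.nd (nat_lit 546) (nat_lit 0) (nat_lit 0) (XT.nd (nat_lit 234) (nat_lit 152) (nat_lit 0) (XT.nd (nat_lit 78) (nat_lit 0) (nat_lit 0) (XT.lf (nat_lit 0) (nat_lit 3782774053) (nat_lit 76) (nat_lit 31423459639) (nat_lit 76) (nat_lit 12996173653) (nat_lit 4) (nat_lit 4) (nat_lit 5) (nat_lit 5) (nat_lit 5) (nat_lit 4) (nat_lit 224) (nat_lit 204) (nat_lit 172)) (XT.nd (nat_lit 78) (nat_lit 0) (nat_lit 0) (XT.lf (nat_lit 0) (nat_lit 17652565116) (nat_lit 76) (nat_lit 27533774057) (nat_lit 76) (nat_lit 9078722147) (nat_lit 4) (nat_lit 4) (nat_lit 5) (nat_lit 5) (nat_lit 5) (nat_lit 4) (nat_lit 225) (nat_lit 204) (nat_lit 171)) (XT.lf (nat_lit 0) (nat_lit 33566554009) (nat_lit 76) (nat_lit 23076469747) (nat_lit 76) (nat_lit 4597273556) (nat_lit 4) (nat_lit 4) (nat_lit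 5) (nat_lit 5) (nat_lit 5) (nat_lit 4) (nat_lit 226) (nat_lit 204) (nat_lit 170)))) (XT.nd (nat_lit 156) (nat_lit 76) (nat_lit 0) (XT.nd (nat_lit 78) (nat_lit 0) (nat_lit 0) (XT.lf (nat_lit 0) (nat_lit 488147328) (nat_lit 152) (nat_lit 17450674461) (nat_lit 76) (nat_lit 51322437262) (nat_lit 3) (nat_lit 5) (nat_lit 5) (nat_lit 5) (nat_lit 4) (nat_lit 4) (nat_lit 227) (nat_lit 204) (nat_lit 169)) (XT.lf (nat_lit 0) (nat_lit 5849437577) (nat_lit 152) (nat_lit 5942156971) (nat_lit 76) (nat_lit 66663451273) (nat_lit 3) (nat_lit 5) (nat_lit 5) (nat_lit 5) (nat_lit 4) (nat_lit 4) (nat_lit 228) (nat_lit 204) (nat_lit 168))) (XT.nd (nat_lit 78) (nat_lit 0) (nat_lit 0) (XT.lf (nat_lit 0) (nat_lit 7977556337) (nat_lit 76) (nat_lit 4353550340) (nat_lit 152) (nat_lit 76649433834) (nat_lit 2) (nat_lit 5) (nat_lit 3) (nat_lit 5) (nat_lit 4) (nat_lit 4) (nat_lit 229) (nat_lit 204) (nat_lit 167))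 (XT.lf (nat_lit 0) (nat_lit 20270599387) (nat_lit 152) (nat_lit 76599690118) (nat_lit 0) (nat_lit 4141792786) (nat_lit 2) (nat_lit 5) (nat_lit 4) (nat_lit 4) (nat_lit 2) (nat_lit 4) (nat_lit 230) (nat_lit 204) (nat_lit 166))))) (XT.nd (nat_lit 312) (nat_lit 0) (nat_lit 0) (XT.nd (nat_lit 156) (nat_lit 0) (nat_lit 0) (XT.nd (nat_lit 78) (nat_lit 0) (nat_lit 0) (XT.lf (nat_lit 0) (nat_lit 29596369718) (nat_lit 152) (nat_lit 71765608876) (nat_lit 0) (nat_lit 13457124879) (nat_lit 2) (nat_lit 5) (nat_lit 4) (nat_lit 4) (nat_lit 2) (nat_lit 4) (nat_lit 231) (nat_lit 204) (nat_lit 165)) (XT.lf (nat_lit 0) (nat_lit 40310607160) (nat_lit 152) (nat_lit 66225889363) (nat_lit 0) (nat_lit 24162285591) (nat_lit 2) (nat_lit 5) (nat_lit 4) (nat_lit 4) (nat_lit 2) (nat_lit 4) (nat_lit 232) (nat_lit 204) (nat_lit 164))) (XT.nd (nat_lit 78) (nat_lit 0) (nat_lit 0) (XT.lf (nat_lit 0) (nat_lit 52622938097)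 (nat_lit 152) (nat_lit 59872145763) (nat_lit 0) (nat_lit 36466723719) (nat_lit 2) (nat_lit 5) (nat_lit 4) (nat_lit 4) (nat_lit 2) (nat_lit 4) (nat_lit 233) (nat_lit 204) (nat_lit 163)) (XT.lf (nat_lit 0) (nat_lit 66774255960) (nat_lit 152) (nat_lit 52580065700) (nat_lit 0) (nat_lit 50611178271) (nat_lit 2) (nat_lit 5) (nat_lit 4) (nat_lit 4) (nat_lit 2) (nat_lit 4) (nat_lit 234) (nat_lit 204) (nat_lit 162)))) (XT.nd (nat_lit 156) (nat_lit 0) (nat_lit 0) (XT.nd (nat_lit 78) (nat_lit 0) (nat_lit 0) (XT.lf (nat_lit 0) (nat_lit 83041434360) (nat_lit 152) (nat_lit 44206978042) (nat_lit 0) (nat_lit 66872388574) (nat_lit 2) (nat_lit 5) (nat_lit 4) (nat_lit 4) (nat_lit 2) (nat_lit 4) (nat_lit 235) (nat_lit 204) (nat_lit 161)) (XT.lf (nat_lit 0) (nat_lit 101742744178) (nat_lit 152) (nat_lit 34589061511) (nat_lit 0) (nat_lit 85568508743) (nat_lit 2) (nat_lit 5) (nat_lit 4) (nat_lit 4) (nat_lit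 2) (nat_lit 4) (nat_lit 236) (nat_lit 204) (nat_lit 160))) (XT.nd (nat_lit 78) (nat_lit 0) (nat_lit 0) (XT.lf (nat_lit 0) (nat_lit 123244080608) (nat_lit 152) (nat_lit 23538139477) (nat_lit 0) (nat_lit 107065332433) (nat_lit 2) (nat_lit 5) (nat_lit 4) (nat_lit 4) (nat_lit 2) (nat_lit 4) (nat_lit 237) (nat_lit 204) (nat_lit 159)) (XT.lf (nat_lit 0) (nat_lit 147966121969) (nat_lit 152) (nat_lit 10837998249) (nat_lit 0) (nat_lit 131783449674) (nat_lit 2) (nat_lit 5) (nat_lit 4) (nat_lit 4) (nat_lit 2) (nat_lit 4) (nat_lit 238) (nat_lit 204) (nat_lit 158)))))) (XT.nd (nat_lit 624) (nat_lit 0) (nat_lit 0) (XT.nd (nat_lit 312) (nat_lit 0) (nat_lit 0) (XT.nd (nat_lit 156) (nat_lit 0) (nat_lit 0) (XT.nd (nat_lit 78) (nat_lit 0) (nat_lit 0) (XT.lf (nat_lit 0) (nat_lit 4127282418) (nat_lit 76) (nat_lit 172436179921) (nat_lit 76) (nat_lit 156250095347) (nat_lit 1) (nat_lit 4) (nat_lit 2) (nat_lit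 5) (nat_lit 2) (nat_lit 4) (nat_lit 239) (nat_lit 204) (nat_lit 157)) (XT.lf (nat_lit 0) (nat_lit 22548410203) (nat_lit 76) (nat_lit 187464836654) (nat_lit 76) (nat_lit 171275784881) (nat_lit 1) (nat_lit 4) (nat_lit 2) (nat_lit 5) (nat_lit 2) (nat_lit 4) (nat_lit 240) (nat_lit 204) (nat_lit 156))) (XT.nd (nat_lit 78) (nat_lit 0) (nat_lit 0) (XT.lf (nat_lit 0) (nat_lit 43726630465) (nat_lit 76) (nat_lit 204750661079) (nat_lit 76) (nat_lit 188559029133) (nat_lit 1) (nat_lit 4) (nat_lit 2) (nat_lit 5) (nat_lit 2) (nat_lit 4) (nat_lit 241) (nat_lit 204) (nat_lit 155)) (XT.lf (nat_lit 0) (nat_lit 68076299688) (nat_lit 76) (nat_lit 224631854110) (nat_lit 76) (nat_lit 208437978536) (nat_lit 1) (nat_lit 4) (nat_lit 2) (nat_lit 5) (nat_lit 2) (nat_lit 4) (nat_lit 242) (nat_lit 204) (nat_lit 154)))) (XT.nd (nat_lit 156) (nat_lit 0) (nat_lit 0) (XT.nd (nat_lit 78) (nat_lit 0) (nat_lit 0) (XT.lf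 (nat_lit 0) (nat_lit 96073824442) (nat_lit 76) (nat_lit 247497395610) (nat_lit 76) (nat_lit 231301569054) (nat_lit 1) (nat_lit 4) (nat_lit 2) (nat_lit 5) (nat_lit 2) (nat_lit 4) (nat_lit 243) (nat_lit 204) (nat_lit 153)) (XT.lf (nat_lit 0) (nat_lit 128266982386) (nat_lit 76) (nat_lit 273794654870) (nat_lit 76) (nat_lit 257597131808) (nat_lit 1) (nat_lit 4) (nat_lit 2) (nat_lit 5) (nat_lit 2) (nat_lit 4) (nat_lit 244) (nat_lit 204) (nat_lit 152))) (XT.nd (nat_lit 78) (nat_lit 0) (nat_lit 0) (XT.lf (nat_lit 0) (nat_lit 165285639653) (nat_lit 76) (nat_lit 304038143483) (nat_lit 76) (nat_lit 287839145199) (nat_lit 1) (nat_lit 4) (nat_lit 2) (nat_lit 5) (nat_lit 2) (nat_lit 4) (nat_lit 245) (nat_lit 204) (nat_lit 151)) (XT.lf (nat_lit 0) (nat_lit 207854074322) (nat_lit 76) (nat_lit 338819581878) (nat_lit 76) (nat_lit 322619300792) (nat_lit 1) (nat_lit 4) (nat_lit 2) (nat_lit 5) (nat_lit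 2) (nat_lit 4) (nat_lit 246) (nat_lit 204) (nat_lit 150))))) (XT.nd (nat_lit 312) (nat_lit 0) (nat_lit 0) (XT.nd (nat_lit 156) (nat_lit 0) (nat_lit 0) (XT.nd (nat_lit 78) (nat_lit 0) (nat_lit 0) (XT.lf (nat_lit 0) (nat_lit 256805147069) (nat_lit 76) (nat_lit 378819476461) (nat_lit 76) (nat_lit 362618079894) (nat_lit 1) (nat_lit 4) (nat_lit 2) (nat_lit 5) (nat_lit 2) (nat_lit 4) (nat_lit 247) (nat_lit 204) (nat_lit 149)) (XT.lf (nat_lit 0) (nat_lit 313096596275) (nat_lit 76) (nat_lit 424820433862) (nat_lit 76) (nat_lit 408618067313) (nat_lit 1) (nat_lit 4) (nat_lit 2) (nat_lit 5) (nat_lit 2) (nat_lit 4) (nat_lit 248) (nat_lit 204) (nat_lit 148))) (XT.nd (nat_lit 78) (nat_lit 0) (nat_lit 0) (XT.lf (nat_lit 0) (nat_lit 377829776381) (nat_lit 76) (nat_lit 477722472815) (nat_lit 76) (nat_lit 461519262803) (nat_lit 1) (nat_lit 4) (nat_lit 2) (nat_lit 5) (nat_lit 2) (nat_lit 4) (nat_lit 249)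 (nat_lit 204) (nat_lit 147)) (XT.lf (nat_lit 0) (nat_lit 452271206128) (nat_lit 76) (nat_lit 538560633211) (nat_lit 76) (nat_lit 522356689753) (nat_lit 1) (nat_lit 4) (nat_lit 2) (nat_lit 5) (nat_lit 2) (nat_lit 4) (nat_lit 250) (nat_lit 204) (nat_lit 146)))) (XT.nd (nat_lit 156) (nat_lit 0) (nat_lit 0) (XT.nd (nat_lit 78) (nat_lit 0) (nat_lit 0) (XT.lf (nat_lit 0) (nat_lit 537877348272) (nat_lit 76) (nat_lit 608525226885) (nat_lit 76) (nat_lit 592320645648) (nat_lit 1) (nat_lit 4) (nat_lit 2) (nat_lit 5) (nat_lit 2) (nat_lit 4) (nat_lit 251) (nat_lit 204) (nat_lit 145)) (XT.lf (nat_lit 0) (nat_lit 636323105594) (nat_lit 76) (nat_lit 688985126322) (nat_lit 76) (nat_lit 672779990494) (nat_lit 1) (nat_lit 4) (nat_lit 2) (nat_lit 5) (nat_lit 2) (nat_lit 4) (nat_lit 252) (nat_lit 204) (nat_lit 144))) (XT.nd (nat_lit 78) (nat_lit 0) (nat_lit 0) (XT.lf (nat_lit 0) (nat_lit 749534590738)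 (nat_lit 76) (nat_lit 781514546945) (nat_lit 76) (nat_lit 765308928864) (nat_lit 1) (nat_lit 4) (nat_lit 2) (nat_lit 5) (nat_lit 2) (nat_lit 4) (nat_lit 253) (nat_lit 204) (nat_lit 143)) (XT.lf (nat_lit 0) (nat_lit 879726811020) (nat_lit 76) (nat_lit 887923846984) (nat_lit 76) (nat_lit 871717809552) (nat_lit 1) (nat_lit 4) (nat_lit 2) (nat_lit 5) (nat_lit 2) (nat_lit 4) (nat_lit 254) (nat_lit 204) (nat_lit 142))))))) (XT.nd (nat_lit 1170) (nat_lit 0) (nat_lit 0) (XT.nd (nat_lit 546) (nat_lit 0) (nat_lit 0) (XT.nd (nat_lit 234) (nat_lit 0) (nat_lit 0) (XT.nd (nat_lit 78) (nat_lit 0) (nat_lit 0) (XT.lf (nat_lit 0) (nat_lit 1029447005535) (nat_lit 76) (nat_lit 1010294947526) (nat_lit 76) (nat_lit 994088545442) (nat_lit 1) (nat_lit 4) (nat_lit 2) (nat_lit 5) (nat_lit 2) (nat_lit 4) (nat_lit 255) (nat_lit 204) (nat_lit 141)) (XT.nd (nat_lit 78) (nat_lit 0) (nat_lit 0) (XT.lf (nat_lit 0)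 (nat_lit 1201624482435) (nat_lit 76) (nat_lit 1151022065756) (nat_lit 76) (nat_lit 1134815346584) (nat_lit 1) (nat_lit 4) (nat_lit 2) (nat_lit 5) (nat_lit 2) (nat_lit 4) (nat_lit 256) (nat_lit 204) (nat_lit 140)) (XT.lf (nat_lit 0) (nat_lit 1399627931485) (nat_lit 76) (nat_lit 1312858558336) (nat_lit 76) (nat_lit 1296651563433) (nat_lit 1) (nat_lit 4) (nat_lit 2) (nat_lit 5) (nat_lit 2) (nat_lit 4) (nat_lit 257) (nat_lit 204) (nat_lit 139)))) (XT.nd (nat_lit 156) (nat_lit 0) (nat_lit 0) (XT.nd (nat_lit 78) (nat_lit 0) (nat_lit 0) (XT.lf (nat_lit 0) (nat_lit 1627331333211) (nat_lit 76) (nat_lit 1498970791423) (nat_lit 76) (nat_lit 1482763556756) (nat_lit 1) (nat_lit 4) (nat_lit 2) (nat_lit 5) (nat_lit 2) (nat_lit 4) (nat_lit 258) (nat_lit 204) (nat_lit 138)) (XT.lf (nat_lit 0) (nat_lit 1889189754169) (nat_lit 76) (nat_lit 1713000091319) (nat_lit 76) (nat_lit 1696792648161) (nat_lit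 1) (nat_lit 4) (nat_lit 2) (nat_lit 5) (nat_lit 2) (nat_lit 4) (nat_lit 259) (nat_lit 204) (nat_lit 137))) (XT.nd (nat_lit 78) (nat_lit 0) (nat_lit 0) (XT.lf (nat_lit 0) (nat_lit 2190326511289) (nat_lit 76) (nat_lit 1959133987803) (nat_lit 76) (nat_lit 1942926363348) (nat_lit 1) (nat_lit 4) (nat_lit 2) (nat_lit 5) (nat_lit 2) (nat_lit 4) (nat_lit 260) (nat_lit 204) (nat_lit 136)) (XT.lf (nat_lit 0) (nat_lit 2536633410690) (nat_lit 76) (nat_lit 2242188144068) (nat_lit 76) (nat_lit 2225980361963) (nat_lit 1) (nat_lit 4) (nat_lit 2) (nat_lit 5) (nat_lit 2) (nat_lit 4) (nat_lit 261) (nat_lit 204) (nat_lit 135))))) (XT.nd (nat_lit 312) (nat_lit 0) (nat_lit 0) (XT.nd (nat_lit 156) (nat_lit 0) (nat_lit 0) (XT.nd (nat_lit 78) (nat_lit 0) (nat_lit 0) (XT.lf (nat_lit 0) (nat_lit 2934886022142) (nat_lit 76) (nat_lit 2567700576213) (nat_lit 76) (nat_lit 2551492657023) (nat_lit 1) (nat_lit 4) (nat_lit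 2) (nat_lit 5) (nat_lit 2) (nat_lit 4) (nat_lit 262) (nat_lit 204) (nat_lit 134)) (XT.lf (nat_lit 0) (nat_lit 3392876244566) (nat_lit 76) (nat_lit 2942040005739) (nat_lit 76) (nat_lit 2925831967343) (nat_lit 1) (nat_lit 4) (nat_lit 2) (nat_lit 5) (nat_lit 2) (nat_lit 4) (nat_lit 263) (nat_lit 204) (nat_lit 133))) (XT.nd (nat_lit 78) (nat_lit 0) (nat_lit 0) (XT.lf (nat_lit 0) (nat_lit 3919564756225) (nat_lit 76) (nat_lit 3372530464961) (nat_lit 76) (nat_lit 3356322322908) (nat_lit 1) (nat_lit 4) (nat_lit 2) (nat_lit 5) (nat_lit 2) (nat_lit 4) (nat_lit 264) (nat_lit 204) (nat_lit 132)) (XT.lf (nat_lit 0) (nat_lit 4525256332348) (nat_lit 76) (nat_lit 3867594593300) (nat_lit 76) (nat_lit 3851386361110) (nat_lit 1) (nat_lit 4) (nat_lit 2) (nat_lit 5) (nat_lit 2) (nat_lit 4) (nat_lit 265) (nat_lit 204) (nat_lit 131)))) (XT.nd (nat_lit 156) (nat_lit 0) (nat_lit 0) (XT.nd (nat_lit 78) (nat_lit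 0) (nat_lit 0) (XT.lf (nat_lit 0) (nat_lit 5221801460295) (nat_lit 76) (nat_lit 4436918428048) (nat_lit 76) (nat_lit 4420710117479) (nat_lit 1) (nat_lit 4) (nat_lit 2) (nat_lit 5) (nat_lit 2) (nat_lit 4) (nat_lit 266) (nat_lit 204) (nat_lit 130)) (XT.lf (nat_lit 0) (nat_lit 6022828196915) (nat_lit 76) (nat_lit 5091640913799) (nat_lit 76) (nat_lit 5075432535073) (nat_lit 1) (nat_lit 4) (nat_lit 2) (nat_lit 5) (nat_lit 2) (nat_lit 4) (nat_lit 267) (nat_lit 204) (nat_lit 129))) (XT.nd (nat_lit 78) (nat_lit 0) (nat_lit 0) (XT.lf (nat_lit 0) (nat_lit 6944008804448) (nat_lit 76) (nat_lit 5844571838317) (nat_lit 76) (nat_lit 5828363400325) (nat_lit 1) (nat_lit 4) (nat_lit 2) (nat_lit 5) (nat_lit 2) (nat_lit 4) (nat_lit 268) (nat_lit 204) (nat_lit 128)) (XT.lf (nat_lit 0) (nat_lit 8003366381736) (nat_lit 76) (nat_lit 6710442458821) (nat_lit 76) (nat_lit 6694233969294) (nat_lit 1) (nat_lit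 4) (nat_lit 2) (nat_lit 5) (nat_lit 2) (nat_lit 4) (nat_lit 269) (nat_lit 204) (nat_lit 127)))))) (XT.nd (nat_lit 26208) (nat_lit 0) (nat_lit 760) (XT.nd (nat_lit 390) (nat_lit 0) (nat_lit 0) (XT.nd (nat_lit 234) (nat_lit 0) (nat_lit 0) (XT.nd (nat_lit 156) (nat_lit 0) (nat_lit 0) (XT.lf (nat_lit 0) (nat_lit 9221627490075) (nat_lit 76) (nat_lit 7706193722235) (nat_lit 76) (nat_lit 7689985187894) (nat_lit 1) (nat_lit 4) (nat_lit 2) (nat_lit 5) (nat_lit 2) (nat_lit 4) (nat_lit 270) (nat_lit 204) (nat_lit 126)) (XT.lf (nat_lit 0) (nat_lit 12233777803316) (nat_lit 76) (nat_lit 10168188851872) (nat_lit 76) (nat_lit 10151980244677) (nat_lit 1) (nat_lit 4) (nat_lit 2) (nat_lit 5) (nat_lit 2) (nat_lit 4) (nat_lit 272) (nat_lit 204) (nat_lit 124))) (XT.nd (nat_lit 78) (nat_lit 0) (nat_lit 0) (XT.lf (nat_lit 0) (nat_lit 14086600383913) (nat_lit 76) (nat_lit 11682602188025) (nat_lit 76) (nat_lit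 11666393551364) (nat_lit 1) (nat_lit 4) (nat_lit 2) (nat_lit 5) (nat_lit 2) (nat_lit 4) (nat_lit 273) (nat_lit 204) (nat_lit 123)) (XT.lf (nat_lit 0) (nat_lit 16217346291254) (nat_lit 76) (nat_lit 13424177553092) (nat_lit 76) (nat_lit 13407968890808) (nat_lit 1) (nat_lit 4) (nat_lit 2) (nat_lit 5) (nat_lit 2) (nat_lit 4) (nat_lit 274) (nat_lit 204) (nat_lit 122)))) (XT.nd (nat_lit 156) (nat_lit 0) (nat_lit 0) (XT.nd (nat_lit 78) (nat_lit 0) (nat_lit 0) (XT.lf (nat_lit 0) (nat_lit 18667704032224) (nat_lit 76) (nat_lit 15426989247695) (nat_lit 76) (nat_lit 15410780563132) (nat_lit 1) (nat_lit 4) (nat_lit 2) (nat_lit 5) (nat_lit 2) (nat_lit 4) (nat_lit 275) (nat_lit 204) (nat_lit 121)) (XT.lf (nat_lit 0) (nat_lit 21485615388709) (nat_lit 76) (nat_lit 17730222718034) (nat_lit 76) (nat_lit 17714014014096) (nat_lit 1) (nat_lit 4) (nat_lit 2) (nat_lit 5) (nat_lit 2) (nat_lit 4) (nat_lit 276)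 (nat_lit 204) (nat_lit 120))) (XT.nd (nat_lit 78) (nat_lit 0) (nat_lit 0) (XT.lf (nat_lit 0) (nat_lit 24726213408990) (nat_lit 76) (nat_lit 20378941227657) (nat_lit 76) (nat_lit 20362732506872) (nat_lit 1) (nat_lit 4) (nat_lit 2) (nat_lit 5) (nat_lit 2) (nat_lit 4) (nat_lit 277) (nat_lit 204) (nat_lit 119)) (XT.lf (nat_lit 0) (nat_lit 28452901097811) (nat_lit 76) (nat_lit 23424967530014) (nat_lit 76) (nat_lit 23408758794580) (nat_lit 1) (nat_lit 4) (nat_lit 2) (nat_lit 5) (nat_lit 2) (nat_lit 4) (nat_lit 278) (nat_lit 204) (nat_lit 118))))) (XT.nd (nat_lit 312) (nat_lit 380) (nat_lit 0) (XT.nd (nat_lit 156) (nat_lit 0) (nat_lit 0) (XT.nd (nat_lit 78) (nat_lit 0) (nat_lit 0) (XT.lf (nat_lit 0) (nat_lit 889696301) (nat_lit 0) (nat_lit 889696301) (nat_lit 228) (nat_lit 2663711302) (nat_lit 16) (nat_lit 5) (nat_lit 16) (nat_lit 3) (nat_lit 19) (nat_lit 3) (nat_lit 205) (nat_lit 205) (nat_lit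 190)) (XT.lf (nat_lit 0) (nat_lit 4669238892) (nat_lit 228) (nat_lit 3458465027) (nat_lit 304) (nat_lit 1287553377) (nat_lit 16) (nat_lit 5) (nat_lit 19) (nat_lit 3) (nat_lit 20) (nat_lit 5) (nat_lit 206) (nat_lit 205) (nat_lit 189))) (XT.nd (nat_lit 78) (nat_lit 0) (nat_lit 0) (XT.lf (nat_lit 76) (nat_lit 611125129) (nat_lit 0) (nat_lit 5308292025) (nat_lit 304) (nat_lit 4110211579) (nat_lit 17) (nat_lit 5) (nat_lit 16) (nat_lit 5) (nat_lit 20) (nat_lit 5) (nat_lit 207) (nat_lit 205) (nat_lit 188)) (XT.lf (nat_lit 76) (nat_lit 5588501335) (nat_lit 0) (nat_lit 1826594466) (nat_lit 304) (nat_lit 3314049260) (nat_lit 17) (nat_lit 5) (nat_lit 16) (nat_lit 5) (nat_lit 20) (nat_lit 5) (nat_lit 208) (nat_lit 205) (nat_lit 187)))) (XT.nd (nat_lit 156) (nat_lit 228) (nat_lit 0) (XT.nd (nat_lit 78) (nat_lit 228) (nat_lit 0) (XT.lf (nat_lit 0) (nat_lit 9119628138) (nat_lit 228) (nat_lit 409305212)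 (nat_lit 76) (nat_lit 2008445614) (nat_lit 17) (nat_lit 5) (nat_lit 20) (nat_lit 5) (nat_lit 18) (nat_lit 5) (nat_lit 209) (nat_lit 205) (nat_lit 186)) (XT.lf (nat_lit 0) (nat_lit 5334406438) (nat_lit 228) (nat_lit 5961424581) (nat_lit 304) (nat_lit 1139892600) (nat_lit 14) (nat_lit 5) (nat_lit 17) (nat_lit 5) (nat_lit 18) (nat_lit 5) (nat_lit 210) (nat_lit 205) (nat_lit 185))) (XT.nd (nat_lit 78) (nat_lit 152) (nat_lit 0) (XT.lf (nat_lit 0) (nat_lit 234475008) (nat_lit 304) (nat_lit 1585568408) (nat_lit 76) (nat_lit 11657565926) (nat_lit 13) (nat_lit 5) (nat_lit 17) (nat_lit 5) (nat_lit 14) (nat_lit 5) (nat_lit 211) (nat_lit 205) (nat_lit 184)) (XT.lf (nat_lit 0) (nat_lit 1966096418) (nat_lit 228) (nat_lit 9706724929) (nat_lit 76) (nat_lit 2955482049) (nat_lit 11) (nat_lit 5) (nat_lit 14) (nat_lit 5) (nat_lit 12) (nat_lit 5) (nat_lit 212) (nat_lit 205) (nat_lit 183))))))))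
noncomputable def xc31 : XT := (XT.nd (nat_lit 2418) (nat_lit 0) (nat_lit 0) (XT.nd (nat_lit 1170) (nat_lit 228) (nat_lit 0) (XT.nd (nat_lit 546) (nat_lit 152) (nat_lit 0) (XT.nd (nat_lit 234) (nat_lit 228) (nat_lit 0) (XT.nd (nat_lit 78) (nat_lit 152) (nat_lit 0) (XT.lf (nat_lit 0) (nat_lit 4060878335) (nat_lit 228) (nat_lit 3533266175) (nat_lit 76) (nat_lit 8342673021) (nat_lit 11) (nat_lit 5) (nat_lit 14) (nat_lit 5) (nat_lit 12) (nat_lit 5) (nat_lit 213) (nat_lit 205) (nat_lit 182)) (XT.nd (nat_lit 78) (nat_lit 0) (nat_lit 0) (XT.lf (nat_lit 0) (nat_lit 3832183125) (nat_lit 152) (nat_lit 2735437653) (nat_lit 228) (nat_lit 10859960058) (nat_lit 9) (nat_lit 5) (nat_lit 11) (nat_lit 5) (nat_lit 12) (nat_lit 5) (nat_lit 214) (nat_lit 205) (nat_lit 181)) (XT.lf (nat_lit 0) (nat_lit 9705343619) (nat_lit 228) (nat_lit 6621675332) (nat_lit 76) (nat_lit 2777245235) (nat_lit 9) (nat_lit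 5) (nat_lit 12) (nat_lit 5) (nat_lit 10) (nat_lit 4) (nat_lit 215) (nat_lit 205) (nat_lit 180)))) (XT.nd (nat_lit 156) (nat_lit 152) (nat_lit 0) (XT.nd (nat_lit 78) (nat_lit 0) (nat_lit 0) (XT.lf (nat_lit 0) (nat_lit 1315320918) (nat_lit 76) (nat_lit 12133894746) (nat_lit 152) (nat_lit 7563389804) (nat_lit 8) (nat_lit 5) (nat_lit 9) (nat_lit 5) (nat_lit 10) (nat_lit 4) (nat_lit 216) (nat_lit 205) (nat_lit 179)) (XT.lf (nat_lit 0) (nat_lit 11120592855) (nat_lit 76) (nat_lit 6934645609) (nat_lit 152) (nat_lit 5107290546) (nat_lit 8) (nat_lit 5) (nat_lit 9) (nat_lit 5) (nat_lit 10) (nat_lit 4) (nat_lit 217) (nat_lit 205) (nat_lit 178))) (XT.nd (nat_lit 78) (nat_lit 152) (nat_lit 0) (XT.lf (nat_lit 0) (nat_lit 22338864484) (nat_lit 76) (nat_lit 973680130) (nat_lit 152) (nat_lit 2328701706) (nat_lit 8) (nat_lit 5) (nat_lit 9) (nat_lit 5) (nat_lit 10) (nat_lit 4) (nat_lit 218) (nat_lit 205)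 (nat_lit 177)) (XT.lf (nat_lit 0) (nat_lit 1314705731) (nat_lit 152) (nat_lit 21396829933) (nat_lit 76) (nat_lit 5696348224) (nat_lit 6) (nat_lit 5) (nat_lit 8) (nat_lit 5) (nat_lit 7) (nat_lit 4) (nat_lit 219) (nat_lit 205) (nat_lit 176))))) (XT.nd (nat_lit 312) (nat_lit 76) (nat_lit 0) (XT.nd (nat_lit 156) (nat_lit 76) (nat_lit 0) (XT.nd (nat_lit 78) (nat_lit 0) (nat_lit 0) (XT.lf (nat_lit 0) (nat_lit 5458908610) (nat_lit 152) (nat_lit 12542640933) (nat_lit 76) (nat_lit 13542667282) (nat_lit 6) (nat_lit 5) (nat_lit 8) (nat_lit 5) (nat_lit 7) (nat_lit 4) (nat_lit 220) (nat_lit 205) (nat_lit 175)) (XT.lf (nat_lit 0) (nat_lit 10194731993) (nat_lit 152) (nat_lit 2409183433) (nat_lit 76) (nat_lit 22551792870) (nat_lit 6) (nat_lit 5) (nat_lit 8) (nat_lit 5) (nat_lit 7) (nat_lit 4) (nat_lit 221) (nat_lit 205) (nat_lit 174))) (XT.nd (nat_lit 78) (nat_lit 0) (nat_lit 0) (XT.lf (nat_lit 0)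 (nat_lit 10101073256) (nat_lit 76) (nat_lit 5932023940) (nat_lit 152) (nat_lit 23217181135) (nat_lit 5) (nat_lit 5) (nat_lit 6) (nat_lit 5) (nat_lit 7) (nat_lit 4) (nat_lit 222) (nat_lit 205) (nat_lit 173)) (XT.lf (nat_lit 0) (nat_lit 22926184010) (nat_lit 152) (nat_lit 19303287125) (nat_lit 0) (nat_lit 1702874314) (nat_lit 5) (nat_lit 5) (nat_lit 7) (nat_lit 4) (nat_lit 5) (nat_lit 4) (nat_lit 223) (nat_lit 205) (nat_lit 172)))) (XT.nd (nat_lit 156) (nat_lit 0) (nat_lit 0) (XT.nd (nat_lit 78) (nat_lit 76) (nat_lit 0) (XT.lf (nat_lit 0) (nat_lit 31113936130) (nat_lit 152) (nat_lit 8300956825) (nat_lit 0) (nat_lit 9862860510) (nat_lit 5) (nat_lit 5) (nat_lit 7) (nat_lit 4) (nat_lit 5) (nat_lit 4) (nat_lit 224) (nat_lit 205) (nat_lit 171)) (XT.lf (nat_lit 0) (nat_lit 4740734212) (nat_lit 76) (nat_lit 35966485727) (nat_lit 76) (nat_lit 14691265827) (nat_lit 4) (nat_lit 4) (nat_lit 5)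 (nat_lit 5) (nat_lit 5) (nat_lit 4) (nat_lit 225) (nat_lit 205) (nat_lit 170))) (XT.nd (nat_lit 78) (nat_lit 0) (nat_lit 0) (XT.lf (nat_lit 0) (nat_lit 20640053406) (nat_lit 76) (nat_lit 31515585506) (nat_lit 76) (nat_lit 10219370579) (nat_lit 4) (nat_lit 4) (nat_lit 5) (nat_lit 5) (nat_lit 5) (nat_lit 4) (nat_lit 226) (nat_lit 205) (nat_lit 169)) (XT.lf (nat_lit 0) (nat_lit 38896844521) (nat_lit 76) (nat_lit 26409023114) (nat_lit 76) (nat_lit 5094551641) (nat_lit 4) (nat_lit 4) (nat_lit 5) (nat_lit 5) (nat_lit 5) (nat_lit 4) (nat_lit 227) (nat_lit 205) (nat_lit 168)))))) (XT.nd (nat_lit 624) (nat_lit 76) (nat_lit 0) (XT.nd (nat_lit 312) (nat_lit 0) (nat_lit 0) (XT.nd (nat_lit 156) (nat_lit 76) (nat_lit 0) (XT.nd (nat_lit 78) (nat_lit 0) (nat_lit 0) (XT.lf (nat_lit 0) (nat_lit 713710227) (nat_lit 152) (nat_lit 19795869740) (nat_lit 76) (nat_lit 59117287836) (nat_lit 3) (nat_lit 5)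 (nat_lit 5) (nat_lit 5) (nat_lit 4) (nat_lit 4) (nat_lit 228) (nat_lit 205) (nat_lit 167)) (XT.lf (nat_lit 0) (nat_lit 6859323474) (nat_lit 152) (nat_lit 6596605829) (nat_lit 76) (nat_lit 76746868950) (nat_lit 3) (nat_lit 5) (nat_lit 5) (nat_lit 5) (nat_lit 4) (nat_lit 4) (nat_lit 229) (nat_lit 205) (nat_lit 166))) (XT.nd (nat_lit 78) (nat_lit 0) (nat_lit 0) (XT.lf (nat_lit 0) (nat_lit 9400297444) (nat_lit 76) (nat_lit 4905029401) (nat_lit 152) (nat_lit 88003060399) (nat_lit 2) (nat_lit 5) (nat_lit 3) (nat_lit 5) (nat_lit 4) (nat_lit 4) (nat_lit 230) (nat_lit 205) (nat_lit 165)) (XT.lf (nat_lit 0) (nat_lit 23423153886) (nat_lit 152) (nat_lit 87879959387) (nat_lit 0) (nat_lit 4843507352) (nat_lit 2) (nat_lit 5) (nat_lit 4) (nat_lit 4) (nat_lit 2) (nat_lit 4) (nat_lit 231) (nat_lit 205) (nat_lit 164)))) (XT.nd (nat_lit 156) (nat_lit 0) (nat_lit 0) (XT.nd (nat_lit 78) (nat_lit 0) (nat_lit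 0) (XT.lf (nat_lit 0) (nat_lit 34133185690) (nat_lit 152) (nat_lit 82348116078) (nat_lit 0) (nat_lit 15545646348) (nat_lit 2) (nat_lit 5) (nat_lit 4) (nat_lit 4) (nat_lit 2) (nat_lit 4) (nat_lit 232) (nat_lit 205) (nat_lit 163)) (XT.lf (nat_lit 0) (nat_lit 46441859551) (nat_lit 152) (nat_lit 76001221351) (nat_lit 0) (nat_lit 27847456897) (nat_lit 2) (nat_lit 5) (nat_lit 4) (nat_lit 4) (nat_lit 2) (nat_lit 4) (nat_lit 233) (nat_lit 205) (nat_lit 162))) (XT.nd (nat_lit 78) (nat_lit 0) (nat_lit 0) (XT.lf (nat_lit 0) (nat_lit 60589997348) (nat_lit 152) (nat_lit 68715096830) (nat_lit 0) (nat_lit 41989626597) (nat_lit 2) (nat_lit 5) (nat_lit 4) (nat_lit 4) (nat_lit 2) (nat_lit 4) (nat_lit 234) (nat_lit 205) (nat_lit 161)) (XT.lf (nat_lit 0) (nat_lit 76854410472) (nat_lit 152) (nat_lit 60347187905) (nat_lit 0) (nat_lit 58248850072) (nat_lit 2) (nat_lit 5) (nat_lit 4) (nat_lit 4) (nat_lit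 2) (nat_lit 4) (nat_lit 235) (nat_lit 205) (nat_lit 160))))) (XT.nd (nat_lit 312) (nat_lit 76) (nat_lit 0) (XT.nd (nat_lit 156) (nat_lit 0) (nat_lit 0) (XT.nd (nat_lit 78) (nat_lit 0) (nat_lit 0) (XT.lf (nat_lit 0) (nat_lit 95553315704) (nat_lit 152) (nat_lit 50733774619) (nat_lit 0) (nat_lit 76943242565) (nat_lit 2) (nat_lit 5) (nat_lit 4) (nat_lit 4) (nat_lit 2) (nat_lit 4) (nat_lit 236) (nat_lit 205) (nat_lit 159)) (XT.lf (nat_lit 0) (nat_lit 117052561188) (nat_lit 152) (nat_lit 39686768450) (nat_lit 0) (nat_lit 98438563928) (nat_lit 2) (nat_lit 5) (nat_lit 4) (nat_lit 4) (nat_lit 2) (nat_lit 4) (nat_lit 237) (nat_lit 205) (nat_lit 158))) (XT.nd (nat_lit 78) (nat_lit 0) (nat_lit 0) (XT.lf (nat_lit 0) (nat_lit 141772784336) (nat_lit 152) (nat_lit 26990032323) (nat_lit 0) (nat_lit 123155374797) (nat_lit 2) (nat_lit 5) (nat_lit 4) (nat_lit 4) (nat_lit 2) (nat_lit 4) (nat_lit 238) (nat_lit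 205) (nat_lit 157)) (XT.lf (nat_lit 0) (nat_lit 170197641688) (nat_lit 152) (nat_lit 12395151834) (nat_lit 0) (nat_lit 151577264950) (nat_lit 2) (nat_lit 5) (nat_lit 4) (nat_lit 4) (nat_lit 2) (nat_lit 4) (nat_lit 239) (nat_lit 205) (nat_lit 156)))) (XT.nd (nat_lit 156) (nat_lit 0) (nat_lit 0) (XT.nd (nat_lit 78) (nat_lit 0) (nat_lit 0) (XT.lf (nat_lit 0) (nat_lit 4811805199) (nat_lit 76) (nat_lit 198270713150) (nat_lit 76) (nat_lit 179647756239) (nat_lit 1) (nat_lit 4) (nat_lit 2) (nat_lit 5) (nat_lit 2) (nat_lit 4) (nat_lit 240) (nat_lit 205) (nat_lit 155)) (XT.lf (nat_lit 0) (nat_lit 25987567750) (nat_lit 76) (nat_lit 215557698013) (nat_lit 76) (nat_lit 196932497474) (nat_lit 1) (nat_lit 4) (nat_lit 2) (nat_lit 5) (nat_lit 2) (nat_lit 4) (nat_lit 241) (nat_lit 205) (nat_lit 154))) (XT.nd (nat_lit 78) (nat_lit 0) (nat_lit 0) (XT.lf (nat_lit 0) (nat_lit 50335099832) (nat_lit 76) (nat_lit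 235439900121) (nat_lit 76) (nat_lit 216812748600) (nat_lit 1) (nat_lit 4) (nat_lit 2) (nat_lit 5) (nat_lit 2) (nat_lit 4) (nat_lit 242) (nat_lit 205) (nat_lit 153)) (XT.lf (nat_lit 0) (nat_lit 78330766203) (nat_lit 76) (nat_lit 258306319079) (nat_lit 76) (nat_lit 239677471052) (nat_lit 1) (nat_lit 4) (nat_lit 2) (nat_lit 5) (nat_lit 2) (nat_lit 4) (nat_lit 243) (nat_lit 205) (nat_lit 152))))))) (XT.nd (nat_lit 1170) (nat_lit 0) (nat_lit 0) (XT.nd (nat_lit 546) (nat_lit 0) (nat_lit 0) (XT.nd (nat_lit 234) (nat_lit 0) (nat_lit 0) (XT.nd (nat_lit 78) (nat_lit 0) (nat_lit 0) (XT.lf (nat_lit 0) (nat_lit 110522308162) (nat_lit 76) (nat_lit 284604341345) (nat_lit 76) (nat_lit 265974018096) (nat_lit 1) (nat_lit 4) (nat_lit 2) (nat_lit 5) (nat_lit 2) (nat_lit 4) (nat_lit 244) (nat_lit 205) (nat_lit 151)) (XT.nd (nat_lit 78) (nat_lit 0) (nat_lit 0) (XT.lf (nat_lit 0) (nat_lit 147539560225) (nat_lit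 76) (nat_lit 314848493442) (nat_lit 76) (nat_lit 296216887391) (nat_lit 1) (nat_lit 4) (nat_lit 2) (nat_lit 5) (nat_lit 2) (nat_lit 4) (nat_lit 245) (nat_lit 205) (nat_lit 150)) (XT.lf (nat_lit 0) (nat_lit 190106772977) (nat_lit 76) (nat_lit 349630508780) (nat_lit 76) (nat_lit 330997787249) (nat_lit 1) (nat_lit 4) (nat_lit 2) (nat_lit 5) (nat_lit 2) (nat_lit 4) (nat_lit 246) (nat_lit 205) (nat_lit 149)))) (XT.nd (nat_lit 156) (nat_lit 0) (nat_lit 0) (XT.nd (nat_lit 78) (nat_lit 0) (nat_lit 0) (XT.lf (nat_lit 0) (nat_lit 239056783188) (nat_lit 76) (nat_lit 389630905052) (nat_lit 76) (nat_lit 370997213538) (nat_lit 1) (nat_lit 4) (nat_lit 2) (nat_lit 5) (nat_lit 2) (nat_lit 4) (nat_lit 247) (nat_lit 205) (nat_lit 148)) (XT.lf (nat_lit 0) (nat_lit 295347308449) (nat_lit 76) (nat_lit 435632298705) (nat_lit 76) (nat_lit 416997763728) (nat_lit 1) (nat_lit 4) (nat_lit 2) (nat_lit 5) (nat_lit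 2) (nat_lit 4) (nat_lit 248) (nat_lit 205) (nat_lit 147))) (XT.nd (nat_lit 78) (nat_lit 0) (nat_lit 0) (XT.lf (nat_lit 0) (nat_lit 360079685125) (nat_lit 76) (nat_lit 488534717007) (nat_lit 76) (nat_lit 469899448584) (nat_lit 1) (nat_lit 4) (nat_lit 2) (nat_lit 5) (nat_lit 2) (nat_lit 4) (nat_lit 249) (nat_lit 205) (nat_lit 146)) (XT.lf (nat_lit 0) (nat_lit 434520416237) (nat_lit 76) (nat_lit 549373207272) (nat_lit 76) (nat_lit 530737301070) (nat_lit 1) (nat_lit 4) (nat_lit 2) (nat_lit 5) (nat_lit 2) (nat_lit 4) (nat_lit 250) (nat_lit 205) (nat_lit 145))))) (XT.nd (nat_lit 312) (nat_lit 0) (nat_lit 0) (XT.nd (nat_lit 156) (nat_lit 0) (nat_lit 0) (XT.nd (nat_lit 78) (nat_lit 0) (nat_lit 0) (XT.lf (nat_lit 0) (nat_lit 520125950873) (nat_lit 76) (nat_lit 619338087789) (nat_lit 76) (nat_lit 600701626996) (nat_lit 1) (nat_lit 4) (nat_lit 2) (nat_lit 5) (nat_lit 2) (nat_lit 4) (nat_lit 251)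 (nat_lit 205) (nat_lit 144)) (XT.lf (nat_lit 0) (nat_lit 618571179926) (nat_lit 76) (nat_lit 699798236654) (nat_lit 76) (nat_lit 681161293608) (nat_lit 1) (nat_lit 4) (nat_lit 2) (nat_lit 5) (nat_lit 2) (nat_lit 4) (nat_lit 252) (nat_lit 205) (nat_lit 143))) (XT.nd (nat_lit 78) (nat_lit 0) (nat_lit 0) (XT.lf (nat_lit 0) (nat_lit 731782205706) (nat_lit 76) (nat_lit 792327874171) (nat_lit 76) (nat_lit 773690511775) (nat_lit 1) (nat_lit 4) (nat_lit 2) (nat_lit 5) (nat_lit 2) (nat_lit 4) (nat_lit 253) (nat_lit 205) (nat_lit 142)) (XT.lf (nat_lit 0) (nat_lit 861974026542) (nat_lit 76) (nat_lit 898737362813) (nat_lit 76) (nat_lit 880099635764) (nat_lit 1) (nat_lit 4) (nat_lit 2) (nat_lit 5) (nat_lit 2) (nat_lit 4) (nat_lit 254) (nat_lit 205) (nat_lit 141)))) (XT.nd (nat_lit 156) (nat_lit 0) (nat_lit 0) (XT.nd (nat_lit 78) (nat_lit 0) (nat_lit 0) (XT.lf (nat_lit 0) (nat_lit 1011693873711)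 (nat_lit 76) (nat_lit 1021108627358) (nat_lit 76) (nat_lit 1002470583221) (nat_lit 1) (nat_lit 4) (nat_lit 2) (nat_lit 5) (nat_lit 2) (nat_lit 4) (nat_lit 255) (nat_lit 205) (nat_lit 140)) (XT.lf (nat_lit 0) (nat_lit 1183871048572) (nat_lit 76) (nat_lit 1161835888200) (nat_lit 76) (nat_lit 1143197568333) (nat_lit 1) (nat_lit 4) (nat_lit 2) (nat_lit 5) (nat_lit 2) (nat_lit 4) (nat_lit 256) (nat_lit 205) (nat_lit 139))) (XT.nd (nat_lit 78) (nat_lit 0) (nat_lit 0) (XT.lf (nat_lit 0) (nat_lit 1381874234980) (nat_lit 76) (nat_lit 1323672504790) (nat_lit 76) (nat_lit 1305033945158) (nat_lit 1) (nat_lit 4) (nat_lit 2) (nat_lit 5) (nat_lit 2) (nat_lit 4) (nat_lit 257) (nat_lit 205) (nat_lit 138)) (XT.lf (nat_lit 0) (nat_lit 1609577408321) (nat_lit 76) (nat_lit 1509784845712) (nat_lit 76) (nat_lit 1491146077589) (nat_lit 1) (nat_lit 4) (nat_lit 2) (nat_lit 5) (nat_lit 2) (nat_lit 4) (nat_lit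 258) (nat_lit 205) (nat_lit 137)))))) (XT.nd (nat_lit 624) (nat_lit 0) (nat_lit 0) (XT.nd (nat_lit 312) (nat_lit 0) (nat_lit 0) (XT.nd (nat_lit 156) (nat_lit 0) (nat_lit 0) (XT.nd (nat_lit 78) (nat_lit 0) (nat_lit 0) (XT.lf (nat_lit 0) (nat_lit 1871435630683) (nat_lit 76) (nat_lit 1723814239377) (nat_lit 76) (nat_lit 1705175289957) (nat_lit 1) (nat_lit 4) (nat_lit 2) (nat_lit 5) (nat_lit 2) (nat_lit 4) (nat_lit 259) (nat_lit 205) (nat_lit 136)) (XT.lf (nat_lit 0) (nat_lit 2172572215111) (nat_lit 76) (nat_lit 1969948217400) (nat_lit 76) (nat_lit 1951309110331) (nat_lit 1) (nat_lit 4) (nat_lit 2) (nat_lit 5) (nat_lit 2) (nat_lit 4) (nat_lit 260) (nat_lit 205) (nat_lit 135))) (XT.nd (nat_lit 78) (nat_lit 0) (nat_lit 0) (XT.lf (nat_lit 0) (nat_lit 2518878964345) (nat_lit 76) (nat_lit 2253002444567) (nat_lit 76) (nat_lit 2234363200412) (nat_lit 1) (nat_lit 4) (nat_lit 2) (nat_lit 5) (nat_lit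 2) (nat_lit 4) (nat_lit 261) (nat_lit 205) (nat_lit 134)) (XT.lf (nat_lit 0) (nat_lit 2917131445217) (nat_lit 76) (nat_lit 2578514938368) (nat_lit 76) (nat_lit 2559875575007) (nat_lit 1) (nat_lit 4) (nat_lit 2) (nat_lit 5) (nat_lit 2) (nat_lit 4) (nat_lit 262) (nat_lit 205) (nat_lit 133)))) (XT.nd (nat_lit 156) (nat_lit 0) (nat_lit 0) (XT.nd (nat_lit 78) (nat_lit 0) (nat_lit 0) (XT.lf (nat_lit 0) (nat_lit 3375121554093) (nat_lit 76) (nat_lit 2952854421506) (nat_lit 76) (nat_lit 2934214954488) (nat_lit 1) (nat_lit 4) (nat_lit 2) (nat_lit 5) (nat_lit 2) (nat_lit 4) (nat_lit 263) (nat_lit 205) (nat_lit 132)) (XT.lf (nat_lit 0) (nat_lit 3901809967015) (nat_lit 76) (nat_lit 3383344927349) (nat_lit 76) (nat_lit 3364705370194) (nat_lit 1) (nat_lit 4) (nat_lit 2) (nat_lit 5) (nat_lit 2) (nat_lit 4) (nat_lit 264) (nat_lit 205) (nat_lit 131))) (XT.nd (nat_lit 78) (nat_lit 0) (nat_lit 0) (XT.lf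 (nat_lit 0) (nat_lit 4507501457280) (nat_lit 76) (nat_lit 3878409096226) (nat_lit 76) (nat_lit 3859769460692) (nat_lit 1) (nat_lit 4) (nat_lit 2) (nat_lit 5) (nat_lit 2) (nat_lit 4) (nat_lit 265) (nat_lit 205) (nat_lit 130)) (XT.lf (nat_lit 0) (nat_lit 5204046510567) (nat_lit 76) (nat_lit 4447732966226) (nat_lit 76) (nat_lit 4429093262535) (nat_lit 1) (nat_lit 4) (nat_lit 2) (nat_lit 5) (nat_lit 2) (nat_lit 4) (nat_lit 266) (nat_lit 205) (nat_lit 129))))) (XT.nd (nat_lit 390) (nat_lit 0) (nat_lit 0) (XT.nd (nat_lit 156) (nat_lit 0) (nat_lit 0) (XT.nd (nat_lit 78) (nat_lit 0) (nat_lit 0) (XT.lf (nat_lit 0) (nat_lit 6005073182267) (nat_lit 76) (nat_lit 5102455482630) (nat_lit 76) (nat_lit 5083815719673) (nat_lit 1) (nat_lit 4) (nat_lit 2) (nat_lit 5) (nat_lit 2) (nat_lit 4) (nat_lit 267) (nat_lit 205) (nat_lit 128)) (XT.lf (nat_lit 0) (nat_lit 6926253733346) (nat_lit 76) (nat_lit 5855386433803)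 (nat_lit 76) (nat_lit 5836746619311) (nat_lit 1) (nat_lit 4) (nat_lit 2) (nat_lit 5) (nat_lit 2) (nat_lit 4) (nat_lit 268) (nat_lit 205) (nat_lit 127))) (XT.nd (nat_lit 156) (nat_lit 0) (nat_lit 0) (XT.lf (nat_lit 0) (nat_lit 7985611261545) (nat_lit 76) (nat_lit 6721257077486) (nat_lit 76) (nat_lit 6702617218180) (nat_lit 1) (nat_lit 4) (nat_lit 2) (nat_lit 5) (nat_lit 2) (nat_lit 4) (nat_lit 269) (nat_lit 205) (nat_lit 126)) (XT.lf (nat_lit 0) (nat_lit 10604872472890) (nat_lit 76) (nat_lit 8862122374839) (nat_lit 76) (nat_lit 8843482442679) (nat_lit 1) (nat_lit 4) (nat_lit 2) (nat_lit 5) (nat_lit 2) (nat_lit 4) (nat_lit 271) (nat_lit 205) (nat_lit 124)))) (XT.nd (nat_lit 156) (nat_lit 0) (nat_lit 0) (XT.nd (nat_lit 78) (nat_lit 0) (nat_lit 0) (XT.lf (nat_lit 0) (nat_lit 12216022571041) (nat_lit 76) (nat_lit 10179003523458) (nat_lit 76) (nat_lit 10160363561832) (nat_lit 1) (nat_lit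 4) (nat_lit 2) (nat_lit 5) (nat_lit 2) (nat_lit 4) (nat_lit 272) (nat_lit 205) (nat_lit 123)) (XT.lf (nat_lit 0) (nat_lit 14068845123571) (nat_lit 76) (nat_lit 11693416872863) (nat_lit 76) (nat_lit 11674776885614) (nat_lit 1) (nat_lit 4) (nat_lit 2) (nat_lit 5) (nat_lit 2) (nat_lit 4) (nat_lit 273) (nat_lit 205) (nat_lit 122))) (XT.nd (nat_lit 78) (nat_lit 0) (nat_lit 0) (XT.lf (nat_lit 0) (nat_lit 16199591006506) (nat_lit 76) (nat_lit 13434992249454) (nat_lit 76) (nat_lit 13416352239925) (nat_lit 1) (nat_lit 4) (nat_lit 2) (nat_lit 5) (nat_lit 2) (nat_lit 4) (nat_lit 274) (nat_lit 205) (nat_lit 121)) (XT.lf (nat_lit 0) (nat_lit 18649948726252) (nat_lit 76) (nat_lit 15437803954078) (nat_lit 76) (nat_lit 15419163925175) (nat_lit 1) (nat_lit 4) (nat_lit 2) (nat_lit 5) (nat_lit 2) (nat_lit 4) (nat_lit 275) (nat_lit 205) (nat_lit 120))))))))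
noncomputable def xc32 : XT := (XT.nd (nat_lit 27924) (nat_lit 0) (nat_lit 0) (XT.nd (nat_lit 26754) (nat_lit 0) (nat_lit 76) (XT.nd (nat_lit 26130) (nat_lit 0) (nat_lit 532) (XT.nd (nat_lit 25818) (nat_lit 0) (nat_lit 1140) (XT.nd (nat_lit 78) (nat_lit 0) (nat_lit 0) (XT.lf (nat_lit 0) (nat_lit 21467860064283) (nat_lit 76) (nat_lit 17741037433130) (nat_lit 76) (nat_lit 17722397387380) (nat_lit 1) (nat_lit 4) (nat_lit 2) (nat_lit 5) (nat_lit 2) (nat_lit 4) (nat_lit 276) (nat_lit 205) (nat_lit 119)) (XT.nd (nat_lit 78) (nat_lit 0) (nat_lit 0) (XT.lf (nat_lit 0) (nat_lit 24708458068516) (nat_lit 76) (nat_lit 20389755950330) (nat_lit 76) (nat_lit 20371115889931) (nat_lit 1) (nat_lit 4) (nat_lit 2) (nat_lit 5) (nat_lit 2) (nat_lit 4) (nat_lit 277) (nat_lit 205) (nat_lit 118)) (XT.lf (nat_lit 0) (nat_lit 28435145743382) (nat_lit 76) (nat_lit 23435782259276) (nat_lit 76) (nat_lit 23417142186138)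 (nat_lit 1) (nat_lit 4) (nat_lit 2) (nat_lit 5) (nat_lit 2) (nat_lit 4) (nat_lit 278) (nat_lit 205) (nat_lit 117)))) (XT.nd (nat_lit 156) (nat_lit 0) (nat_lit 0) (XT.nd (nat_lit 78) (nat_lit 0) (nat_lit 0) (XT.lf (nat_lit 0) (nat_lit 1399407573) (nat_lit 0) (nat_lit 1399407573) (nat_lit 228) (nat_lit 2187443616) (nat_lit 16) (nat_lit 5) (nat_lit 16) (nat_lit 3) (nat_lit 19) (nat_lit 3) (nat_lit 206) (nat_lit 206) (nat_lit 188)) (XT.lf (nat_lit 0) (nat_lit 6651248482) (nat_lit 228) (nat_lit 3081326003) (nat_lit 304) (nat_lit 884582311) (nat_lit 16) (nat_lit 5) (nat_lit 19) (nat_lit 3) (nat_lit 20) (nat_lit 5) (nat_lit 207) (nat_lit 206) (nat_lit 187))) (XT.nd (nat_lit 78) (nat_lit 0) (nat_lit 0) (XT.lf (nat_lit 76) (nat_lit 1557979551) (nat_lit 0) (nat_lit 6399217031) (nat_lit 304) (nat_lit 3388617710) (nat_lit 17) (nat_lit 5) (nat_lit 16) (nat_lit 5) (nat_lit 20) (nat_lit 5) (nat_lit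 208) (nat_lit 206) (nat_lit 186)) (XT.lf (nat_lit 76) (nat_lit 7170416233) (nat_lit 0) (nat_lit 2356828159) (nat_lit 304) (nat_lit 2647569165) (nat_lit 17) (nat_lit 5) (nat_lit 16) (nat_lit 5) (nat_lit 20) (nat_lit 5) (nat_lit 209) (nat_lit 206) (nat_lit 185))))) (XT.nd (nat_lit 312) (nat_lit 228) (nat_lit 0) (XT.nd (nat_lit 156) (nat_lit 228) (nat_lit 0) (XT.nd (nat_lit 78) (nat_lit 0) (nat_lit 0) (XT.lf (nat_lit 0) (nat_lit 359527021) (nat_lit 228) (nat_lit 11003170569) (nat_lit 304) (nat_lit 1762088452) (nat_lit 14) (nat_lit 5) (nat_lit 17) (nat_lit 5) (nat_lit 18) (nat_lit 5) (nat_lit 210) (nat_lit 206) (nat_lit 184)) (XT.lf (nat_lit 0) (nat_lit 6896505091) (nat_lit 228) (nat_lit 6873283826) (nat_lit 304) (nat_lit 403980992) (nat_lit 14) (nat_lit 5) (nat_lit 17) (nat_lit 5) (nat_lit 18) (nat_lit 5) (nat_lit 211) (nat_lit 206) (nat_lit 183))) (XT.nd (nat_lit 78) (nat_lit 152) (nat_lit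 0) (XT.lf (nat_lit 0) (nat_lit 988043990) (nat_lit 304) (nat_lit 1082797294) (nat_lit 76) (nat_lit 13312804987) (nat_lit 13) (nat_lit 5) (nat_lit 17) (nat_lit 5) (nat_lit 14) (nat_lit 5) (nat_lit 212) (nat_lit 206) (nat_lit 182)) (XT.lf (nat_lit 0) (nat_lit 2917171153) (nat_lit 228) (nat_lit 10353068257) (nat_lit 76) (nat_lit 3447063877) (nat_lit 11) (nat_lit 5) (nat_lit 14) (nat_lit 5) (nat_lit 12) (nat_lit 5) (nat_lit 213) (nat_lit 206) (nat_lit 181)))) (XT.nd (nat_lit 156) (nat_lit 76) (nat_lit 0) (XT.nd (nat_lit 78) (nat_lit 152) (nat_lit 0) (XT.lf (nat_lit 0) (nat_lit 5240584235) (nat_lit 228) (nat_lit 3359199222) (nat_lit 76) (nat_lit 9636038775) (nat_lit 11) (nat_lit 5) (nat_lit 14) (nat_lit 5) (nat_lit 12) (nat_lit 5) (nat_lit 214) (nat_lit 206) (nat_lit 180)) (XT.lf (nat_lit 0) (nat_lit 5079064888) (nat_lit 152) (nat_lit 2997678777) (nat_lit 228) (nat_lit 11881219239) (nat_lit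 9) (nat_lit 5) (nat_lit 11) (nat_lit 5) (nat_lit 12) (nat_lit 5) (nat_lit 215) (nat_lit 206) (nat_lit 179))) (XT.nd (nat_lit 78) (nat_lit 76) (nat_lit 0) (XT.lf (nat_lit 0) (nat_lit 11622111440) (nat_lit 228) (nat_lit 6963032804) (nat_lit 76) (nat_lit 3311129330) (nat_lit 9) (nat_lit 5) (nat_lit 12) (nat_lit 5) (nat_lit 10) (nat_lit 4) (nat_lit 216) (nat_lit 206) (nat_lit 178)) (XT.lf (nat_lit 0) (nat_lit 2134881345) (nat_lit 76) (nat_lit 13758323464) (nat_lit 152) (nat_lit 8203400199) (nat_lit 8) (nat_lit 5) (nat_lit 9) (nat_lit 5) (nat_lit 10) (nat_lit 4) (nat_lit 217) (nat_lit 206) (nat_lit 177)))))) (XT.nd (nat_lit 546) (nat_lit 228) (nat_lit 0) (XT.nd (nat_lit 234) (nat_lit 76) (nat_lit 0) (XT.nd (nat_lit 78) (nat_lit 152) (nat_lit 0) (XT.lf (nat_lit 0) (nat_lit 13329779427) (nat_lit 76) (nat_lit 7804707238) (nat_lit 152) (nat_lit 5443385802) (nat_lit 8) (nat_lit 5) (nat_lit 9)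 (nat_lit 5) (nat_lit 10) (nat_lit 4) (nat_lit 218) (nat_lit 206) (nat_lit 176)) (XT.nd (nat_lit 78) (nat_lit 152) (nat_lit 0) (XT.lf (nat_lit 0) (nat_lit 26160213847) (nat_lit 76) (nat_lit 971788487) (nat_lit 152) (nat_lit 2304095374) (nat_lit 8) (nat_lit 5) (nat_lit 9) (nat_lit 5) (nat_lit 10) (nat_lit 4) (nat_lit 219) (nat_lit 206) (nat_lit 175)) (XT.lf (nat_lit 0) (nat_lit 1835041743) (nat_lit 152) (nat_lit 24080258827) (nat_lit 76) (nat_lit 6703066394) (nat_lit 6) (nat_lit 5) (nat_lit 8) (nat_lit 5) (nat_lit 7) (nat_lit 4) (nat_lit 220) (nat_lit 206) (nat_lit 174)))) (XT.nd (nat_lit 156) (nat_lit 76) (nat_lit 0) (XT.nd (nat_lit 78) (nat_lit 0) (nat_lit 0) (XT.lf (nat_lit 0) (nat_lit 6558727642) (nat_lit 152) (nat_lit 13966562641) (nat_lit 76) (nat_lit 15706472536) (nat_lit 6) (nat_lit 5) (nat_lit 8) (nat_lit 5) (nat_lit 7) (nat_lit 4) (nat_lit 221) (nat_lit 206) (nat_lit 173))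 (XT.lf (nat_lit 0) (nat_lit 11968274610) (nat_lit 152) (nat_lit 2372757094) (nat_lit 76) (nat_lit 26049696724) (nat_lit 6) (nat_lit 5) (nat_lit 8) (nat_lit 5) (nat_lit 7) (nat_lit 4) (nat_lit 222) (nat_lit 206) (nat_lit 172))) (XT.nd (nat_lit 78) (nat_lit 0) (nat_lit 0) (XT.lf (nat_lit 0) (nat_lit 11995956105) (nat_lit 76) (nat_lit 6670292463) (nat_lit 152) (nat_lit 26435877242) (nat_lit 5) (nat_lit 5) (nat_lit 6) (nat_lit 5) (nat_lit 7) (nat_lit 4) (nat_lit 223) (nat_lit 206) (nat_lit 171)) (XT.lf (nat_lit 0) (nat_lit 26568991208) (nat_lit 152) (nat_lit 21843005075) (nat_lit 0) (nat_lit 2078344042) (nat_lit 5) (nat_lit 5) (nat_lit 7) (nat_lit 4) (nat_lit 5) (nat_lit 4) (nat_lit 224) (nat_lit 206) (nat_lit 170))))) (XT.nd (nat_lit 312) (nat_lit 152) (nat_lit 0) (XT.nd (nat_lit 156) (nat_lit 0) (nat_lit 0) (XT.nd (nat_lit 78) (nat_lit 76) (nat_lit 0) (XT.lf (nat_lit 0) (nat_lit 35958313155)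 (nat_lit 152) (nat_lit 9236730680) (nat_lit 0) (nat_lit 11446670962) (nat_lit 5) (nat_lit 5) (nat_lit 7) (nat_lit 4) (nat_lit 5) (nat_lit 4) (nat_lit 225) (nat_lit 206) (nat_lit 169)) (XT.lf (nat_lit 0) (nat_lit 5747151755) (nat_lit 76) (nat_lit 41232541492) (nat_lit 76) (nat_lit 16702642753) (nat_lit 4) (nat_lit 4) (nat_lit 5) (nat_lit 5) (nat_lit 5) (nat_lit 4) (nat_lit 226) (nat_lit 206) (nat_lit 168))) (XT.nd (nat_lit 78) (nat_lit 0) (nat_lit 0) (XT.lf (nat_lit 0) (nat_lit 23992850470) (nat_lit 76) (nat_lit 36130821511) (nat_lit 76) (nat_lit 11585047515) (nat_lit 4) (nat_lit 4) (nat_lit 5) (nat_lit 5) (nat_lit 5) (nat_lit 4) (nat_lit 227) (nat_lit 206) (nat_lit 167)) (XT.lf (nat_lit 0) (nat_lit 44954666028) (nat_lit 76) (nat_lit 30272896737) (nat_lit 76) (nat_lit 5713318170) (nat_lit 4) (nat_lit 4) (nat_lit 5) (nat_lit 5) (nat_lit 5) (nat_lit 4) (nat_lit 228) (nat_lit 206) (nat_lit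 166)))) (XT.nd (nat_lit 156) (nat_lit 76) (nat_lit 0) (XT.nd (nat_lit 78) (nat_lit 0) (nat_lit 0) (XT.lf (nat_lit 0) (nat_lit 935958292) (nat_lit 152) (nat_lit 22559272212) (nat_lit 76) (nat_lit 68057837521) (nat_lit 3) (nat_lit 5) (nat_lit 5) (nat_lit 5) (nat_lit 4) (nat_lit 4) (nat_lit 229) (nat_lit 206) (nat_lit 165)) (XT.lf (nat_lit 0) (nat_lit 7988388544) (nat_lit 152) (nat_lit 7406985409) (nat_lit 76) (nat_lit 88322339736) (nat_lit 3) (nat_lit 5) (nat_lit 5) (nat_lit 5) (nat_lit 4) (nat_lit 4) (nat_lit 230) (nat_lit 206) (nat_lit 164))) (XT.nd (nat_lit 78) (nat_lit 0) (nat_lit 0) (XT.lf (nat_lit 0) (nat_lit 10981311933) (nat_lit 76) (nat_lit 5563994784) (nat_lit 152) (nat_lit 101094794688) (nat_lit 2) (nat_lit 5) (nat_lit 3) (nat_lit 5) (nat_lit 4) (nat_lit 4) (nat_lit 231) (nat_lit 206) (nat_lit 163)) (XT.lf (nat_lit 0) (nat_lit 27021288286) (nat_lit 152) (nat_lit 100903401878)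 (nat_lit 0) (nat_lit 5630861922) (nat_lit 2) (nat_lit 5) (nat_lit 4) (nat_lit 4) (nat_lit 2) (nat_lit 4) (nat_lit 232) (nat_lit 206) (nat_lit 162))))))) (XT.nd (nat_lit 1170) (nat_lit 0) (nat_lit 0) (XT.nd (nat_lit 546) (nat_lit 76) (nat_lit 0) (XT.nd (nat_lit 234) (nat_lit 0) (nat_lit 0) (XT.nd (nat_lit 78) (nat_lit 0) (nat_lit 0) (XT.lf (nat_lit 0) (nat_lit 39326782080) (nat_lit 152) (nat_lit 94562462693) (nat_lit 0) (nat_lit 17930387619) (nat_lit 2) (nat_lit 5) (nat_lit 4) (nat_lit 4) (nat_lit 2) (nat_lit 4) (nat_lit 233) (nat_lit 206) (nat_lit 161)) (XT.nd (nat_lit 78) (nat_lit 0) (nat_lit 0) (XT.lf (nat_lit 0) (nat_lit 53472154602) (nat_lit 152) (nat_lit 87281516904) (nat_lit 0) (nat_lit 32070570492) (nat_lit 2) (nat_lit 5) (nat_lit 4) (nat_lit 4) (nat_lit 2) (nat_lit 4) (nat_lit 234) (nat_lit 206) (nat_lit 160)) (XT.lf (nat_lit 0) (nat_lit 69734163140) (nat_lit 152) (nat_lit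 78918111224) (nat_lit 0) (nat_lit 48328066291) (nat_lit 2) (nat_lit 5) (nat_lit 4) (nat_lit 4) (nat_lit 2) (nat_lit 4) (nat_lit 235) (nat_lit 206) (nat_lit 159)))) (XT.nd (nat_lit 156) (nat_lit 0) (nat_lit 0) (XT.nd (nat_lit 78) (nat_lit 0) (nat_lit 0) (XT.lf (nat_lit 0) (nat_lit 88430977426) (nat_lit 152) (nat_lit 69308613804) (nat_lit 0) (nat_lit 67020956456) (nat_lit 2) (nat_lit 5) (nat_lit 4) (nat_lit 4) (nat_lit 2) (nat_lit 4) (nat_lit 236) (nat_lit 206) (nat_lit 158)) (XT.lf (nat_lit 0) (nat_lit 109928404697) (nat_lit 152) (nat_lit 58265012736) (nat_lit 0) (nat_lit 88514971448) (nat_lit 2) (nat_lit 5) (nat_lit 4) (nat_lit 4) (nat_lit 2) (nat_lit 4) (nat_lit 237) (nat_lit 206) (nat_lit 157))) (XT.nd (nat_lit 78) (nat_lit 0) (nat_lit 0) (XT.lf (nat_lit 0) (nat_lit 134647046790) (nat_lit 152) (nat_lit 45571237565) (nat_lit 0) (nat_lit 113230646342) (nat_lit 2) (nat_lit 5) (nat_lit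 4) (nat_lit 4) (nat_lit 2) (nat_lit 4) (nat_lit 238) (nat_lit 206) (nat_lit 156)) (XT.lf (nat_lit 0) (nat_lit 163070529311) (nat_lit 152) (nat_lit 30978931821) (nat_lit 0) (nat_lit 141651548691) (nat_lit 2) (nat_lit 5) (nat_lit 4) (nat_lit 4) (nat_lit 2) (nat_lit 4) (nat_lit 239) (nat_lit 206) (nat_lit 155))))) (XT.nd (nat_lit 312) (nat_lit 0) (nat_lit 0) (XT.nd (nat_lit 156) (nat_lit 0) (nat_lit 0) (XT.nd (nat_lit 78) (nat_lit 76) (nat_lit 0) (XT.lf (nat_lit 0) (nat_lit 195754963876) (nat_lit 152) (nat_lit 14202593869) (nat_lit 0) (nat_lit 174333739627) (nat_lit 2) (nat_lit 5) (nat_lit 4) (nat_lit 4) (nat_lit 2) (nat_lit 4) (nat_lit 240) (nat_lit 206) (nat_lit 154)) (XT.lf (nat_lit 0) (nat_lit 5583050776) (nat_lit 76) (nat_lit 227987960002) (nat_lit 76) (nat_lit 206564784771) (nat_lit 1) (nat_lit 4) (nat_lit 2) (nat_lit 5) (nat_lit 2) (nat_lit 4) (nat_lit 241) (nat_lit 206) (nat_lit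 153))) (XT.nd (nat_lit 78) (nat_lit 0) (nat_lit 0) (XT.lf (nat_lit 0) (nat_lit 29928724475) (nat_lit 76) (nat_lit 247871039567) (nat_lit 76) (nat_lit 226446167830) (nat_lit 1) (nat_lit 4) (nat_lit 2) (nat_lit 5) (nat_lit 2) (nat_lit 4) (nat_lit 242) (nat_lit 206) (nat_lit 152)) (XT.lf (nat_lit 0) (nat_lit 57922774861) (nat_lit 76) (nat_lit 270738221531) (nat_lit 76) (nat_lit 249311874573) (nat_lit 1) (nat_lit 4) (nat_lit 2) (nat_lit 5) (nat_lit 2) (nat_lit 4) (nat_lit 243) (nat_lit 206) (nat_lit 151)))) (XT.nd (nat_lit 156) (nat_lit 0) (nat_lit 0) (XT.nd (nat_lit 78) (nat_lit 0) (nat_lit 0) (XT.lf (nat_lit 0) (nat_lit 90112911615) (nat_lit 76) (nat_lit 297036907282) (nat_lit 76) (nat_lit 275609277521) (nat_lit 1) (nat_lit 4) (nat_lit 2) (nat_lit 5) (nat_lit 2) (nat_lit 4) (nat_lit 244) (nat_lit 206) (nat_lit 150)) (XT.lf (nat_lit 0) (nat_lit 127128941762) (nat_lit 76) (nat_lit 327281636322)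 (nat_lit 76) (nat_lit 305852891081) (nat_lit 1) (nat_lit 4) (nat_lit 2) (nat_lit 5) (nat_lit 2) (nat_lit 4) (nat_lit 245) (nat_lit 206) (nat_lit 149))) (XT.nd (nat_lit 78) (nat_lit 0) (nat_lit 0) (XT.lf (nat_lit 0) (nat_lit 169695091977) (nat_lit 76) (nat_lit 362064153350) (nat_lit 76) (nat_lit 340634438126) (nat_lit 1) (nat_lit 4) (nat_lit 2) (nat_lit 5) (nat_lit 2) (nat_lit 4) (nat_lit 246) (nat_lit 206) (nat_lit 148)) (XT.lf (nat_lit 0) (nat_lit 218644178243) (nat_lit 76) (nat_lit 402064985873) (nat_lit 76) (nat_lit 380634427186) (nat_lit 1) (nat_lit 4) (nat_lit 2) (nat_lit 5) (nat_lit 2) (nat_lit 4) (nat_lit 247) (nat_lit 206) (nat_lit 147)))))) (XT.nd (nat_lit 624) (nat_lit 0) (nat_lit 0) (XT.nd (nat_lit 312) (nat_lit 0) (nat_lit 0) (XT.nd (nat_lit 156) (nat_lit 0) (nat_lit 0) (XT.nd (nat_lit 78) (nat_lit 0) (nat_lit 0) (XT.lf (nat_lit 0) (nat_lit 274933900075) (nat_lit 76) (nat_lit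 448066758875) (nat_lit 76) (nat_lit 426635466742) (nat_lit 1) (nat_lit 4) (nat_lit 2) (nat_lit 5) (nat_lit 2) (nat_lit 4) (nat_lit 248) (nat_lit 206) (nat_lit 146)) (XT.lf (nat_lit 0) (nat_lit 339665578116) (nat_lit 76) (nat_lit 500969507046) (nat_lit 76) (nat_lit 479537577134) (nat_lit 1) (nat_lit 4) (nat_lit 2) (nat_lit 5) (nat_lit 2) (nat_lit 4) (nat_lit 249) (nat_lit 206) (nat_lit 145))) (XT.nd (nat_lit 78) (nat_lit 0) (nat_lit 0) (XT.lf (nat_lit 0) (nat_lit 414105701719) (nat_lit 76) (nat_lit 561808284154) (nat_lit 76) (nat_lit 540375799651) (nat_lit 1) (nat_lit 4) (nat_lit 2) (nat_lit 5) (nat_lit 2) (nat_lit 4) (nat_lit 250) (nat_lit 206) (nat_lit 144)) (XT.lf (nat_lit 0) (nat_lit 499710708086) (nat_lit 76) (nat_lit 631773414099) (nat_lit 76) (nat_lit 610340447343) (nat_lit 1) (nat_lit 4) (nat_lit 2) (nat_lit 5) (nat_lit 2) (nat_lit 4) (nat_lit 251) (nat_lit 206) (nat_lit 143))))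 (XT.nd (nat_lit 156) (nat_lit 0) (nat_lit 0) (XT.nd (nat_lit 78) (nat_lit 0) (nat_lit 0) (XT.lf (nat_lit 0) (nat_lit 598155477776) (nat_lit 76) (nat_lit 712233779858) (nat_lit 76) (nat_lit 690800393752) (nat_lit 1) (nat_lit 4) (nat_lit 2) (nat_lit 5) (nat_lit 2) (nat_lit 4) (nat_lit 252) (nat_lit 206) (nat_lit 142)) (XT.lf (nat_lit 0) (nat_lit 711366104109) (nat_lit 76) (nat_lit 804763605978) (nat_lit 76) (nat_lit 783329855220) (nat_lit 1) (nat_lit 4) (nat_lit 2) (nat_lit 5) (nat_lit 2) (nat_lit 4) (nat_lit 253) (nat_lit 206) (nat_lit 141))) (XT.nd (nat_lit 78) (nat_lit 0) (nat_lit 0) (XT.lf (nat_lit 0) (nat_lit 841557577600) (nat_lit 76) (nat_lit 911173258624) (nat_lit 76) (nat_lit 889739190776) (nat_lit 1) (nat_lit 4) (nat_lit 2) (nat_lit 5) (nat_lit 2) (nat_lit 4) (nat_lit 254) (nat_lit 206) (nat_lit 140)) (XT.lf (nat_lit 0) (nat_lit 991277122730) (nat_lit 76) (nat_lit 1033544665780)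 (nat_lit 76) (nat_lit 1012110322204) (nat_lit 1) (nat_lit 4) (nat_lit 2) (nat_lit 5) (nat_lit 2) (nat_lit 4) (nat_lit 255) (nat_lit 206) (nat_lit 139))))) (XT.nd (nat_lit 312) (nat_lit 0) (nat_lit 0) (XT.nd (nat_lit 156) (nat_lit 0) (nat_lit 0) (XT.nd (nat_lit 78) (nat_lit 0) (nat_lit 0) (XT.lf (nat_lit 0) (nat_lit 1163454034948) (nat_lit 76) (nat_lit 1174272050632) (nat_lit 76) (nat_lit 1152837467291) (nat_lit 1) (nat_lit 4) (nat_lit 2) (nat_lit 5) (nat_lit 2) (nat_lit 4) (nat_lit 256) (nat_lit 206) (nat_lit 138)) (XT.lf (nat_lit 0) (nat_lit 1361456992970) (nat_lit 76) (nat_lit 1336108775056) (nat_lit 76) (nat_lit 1314673983224) (nat_lit 1) (nat_lit 4) (nat_lit 2) (nat_lit 5) (nat_lit 2) (nat_lit 4) (nat_lit 257) (nat_lit 206) (nat_lit 137))) (XT.nd (nat_lit 78) (nat_lit 0) (nat_lit 0) (XT.lf (nat_lit 0) (nat_lit 1589159967716) (nat_lit 76) (nat_lit 1522221209748) (nat_lit 76) (nat_lit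 1500786236619) (nat_lit 1) (nat_lit 4) (nat_lit 2) (nat_lit 5) (nat_lit 2) (nat_lit 4) (nat_lit 258) (nat_lit 206) (nat_lit 136)) (XT.lf (nat_lit 0) (nat_lit 1851018017386) (nat_lit 76) (nat_lit 1736250684952) (nat_lit 76) (nat_lit 1714815554173) (nat_lit 1) (nat_lit 4) (nat_lit 2) (nat_lit 5) (nat_lit 2) (nat_lit 4) (nat_lit 259) (nat_lit 206) (nat_lit 135)))) (XT.nd (nat_lit 156) (nat_lit 0) (nat_lit 0) (XT.nd (nat_lit 78) (nat_lit 0) (nat_lit 0) (XT.lf (nat_lit 0) (nat_lit 2152154451647) (nat_lit 76) (nat_lit 1982384733877) (nat_lit 76) (nat_lit 1960949466012) (nat_lit 1) (nat_lit 4) (nat_lit 2) (nat_lit 5) (nat_lit 2) (nat_lit 4) (nat_lit 260) (nat_lit 206) (nat_lit 134)) (XT.lf (nat_lit 0) (nat_lit 2498461070302) (nat_lit 76) (nat_lit 2265439022700) (nat_lit 76) (nat_lit 2244003635629) (nat_lit 1) (nat_lit 4) (nat_lit 2) (nat_lit 5) (nat_lit 2) (nat_lit 4) (nat_lit 261) (nat_lit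 206) (nat_lit 133))) (XT.nd (nat_lit 78) (nat_lit 0) (nat_lit 0) (XT.lf (nat_lit 0) (nat_lit 2896713437626) (nat_lit 76) (nat_lit 2590951570113) (nat_lit 76) (nat_lit 2569516079386) (nat_lit 1) (nat_lit 4) (nat_lit 2) (nat_lit 5) (nat_lit 2) (nat_lit 4) (nat_lit 262) (nat_lit 206) (nat_lit 132)) (XT.lf (nat_lit 0) (nat_lit 3354703447765) (nat_lit 76) (nat_lit 2965291099872) (nat_lit 76) (nat_lit 2943855519008) (nat_lit 1) (nat_lit 4) (nat_lit 2) (nat_lit 5) (nat_lit 2) (nat_lit 4) (nat_lit 263) (nat_lit 206) (nat_lit 131))))))))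
noncomputable def xc33 : XT := (XT.nd (nat_lit 28158) (nat_lit 0) (nat_lit 0) (XT.nd (nat_lit 26910) (nat_lit 0) (nat_lit 380) (XT.nd (nat_lit 546) (nat_lit 0) (nat_lit 0) (XT.nd (nat_lit 234) (nat_lit 0) (nat_lit 0) (XT.nd (nat_lit 78) (nat_lit 0) (nat_lit 0) (XT.lf (nat_lit 0) (nat_lit 3881391774829) (nat_lit 76) (nat_lit 3395781646253) (nat_lit 76) (nat_lit 3374345987009) (nat_lit 1) (nat_lit 4) (nat_lit 2) (nat_lit 5) (nat_lit 2) (nat_lit 4) (nat_lit 264) (nat_lit 206) (nat_lit 130)) (XT.nd (nat_lit 78) (nat_lit 0) (nat_lit 0) (XT.lf (nat_lit 0) (nat_lit 4487083190434) (nat_lit 76) (nat_lit 3890845850382) (nat_lit 76) (nat_lit 3869410122982) (nat_lit 1) (nat_lit 4) (nat_lit 2) (nat_lit 5) (nat_lit 2) (nat_lit 4) (nat_lit 265) (nat_lit 206) (nat_lit 129)) (XT.lf (nat_lit 0) (nat_lit 5183628178800) (nat_lit 76) (nat_lit 4460169751035) (nat_lit 76) (nat_lit 4438733964369) (nat_lit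 1) (nat_lit 4) (nat_lit 2) (nat_lit 5) (nat_lit 2) (nat_lit 4) (nat_lit 266) (nat_lit 206) (nat_lit 128)))) (XT.nd (nat_lit 156) (nat_lit 0) (nat_lit 0) (XT.nd (nat_lit 78) (nat_lit 0) (nat_lit 0) (XT.lf (nat_lit 0) (nat_lit 5984654794046) (nat_lit 76) (nat_lit 5114892294094) (nat_lit 76) (nat_lit 5093456455892) (nat_lit 1) (nat_lit 4) (nat_lit 2) (nat_lit 5) (nat_lit 2) (nat_lit 4) (nat_lit 267) (nat_lit 206) (nat_lit 127)) (XT.lf (nat_lit 0) (nat_lit 6905835296036) (nat_lit 76) (nat_lit 5867823268446) (nat_lit 76) (nat_lit 5846387385430) (nat_lit 1) (nat_lit 4) (nat_lit 2) (nat_lit 5) (nat_lit 2) (nat_lit 4) (nat_lit 268) (nat_lit 206) (nat_lit 126))) (XT.nd (nat_lit 78) (nat_lit 0) (nat_lit 0) (XT.lf (nat_lit 0) (nat_lit 7965192781547) (nat_lit 76) (nat_lit 6733693932283) (nat_lit 76) (nat_lit 6712258010299) (nat_lit 1) (nat_lit 4) (nat_lit 2) (nat_lit 5) (nat_lit 2) (nat_lit 4)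 (nat_lit 269) (nat_lit 206) (nat_lit 125)) (XT.lf (nat_lit 0) (nat_lit 9183453810080) (nat_lit 76) (nat_lit 7729445233378) (nat_lit 76) (nat_lit 7708009277508) (nat_lit 1) (nat_lit 4) (nat_lit 2) (nat_lit 5) (nat_lit 2) (nat_lit 4) (nat_lit 270) (nat_lit 206) (nat_lit 124))))) (XT.nd (nat_lit 312) (nat_lit 0) (nat_lit 0) (XT.nd (nat_lit 156) (nat_lit 0) (nat_lit 0) (XT.nd (nat_lit 78) (nat_lit 0) (nat_lit 0) (XT.lf (nat_lit 0) (nat_lit 10584453923496) (nat_lit 76) (nat_lit 8874559262403) (nat_lit 76) (nat_lit 8853123277068) (nat_lit 1) (nat_lit 4) (nat_lit 2) (nat_lit 5) (nat_lit 2) (nat_lit 4) (nat_lit 271) (nat_lit 206) (nat_lit 123)) (XT.lf (nat_lit 0) (nat_lit 12195603993580) (nat_lit 76) (nat_lit 10191440424275) (nat_lit 76) (nat_lit 10170004413317) (nat_lit 1) (nat_lit 4) (nat_lit 2) (nat_lit 5) (nat_lit 2) (nat_lit 4) (nat_lit 272) (nat_lit 206) (nat_lit 122))) (XT.nd (nat_lit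 78) (nat_lit 0) (nat_lit 0) (XT.lf (nat_lit 0) (nat_lit 14048426521703) (nat_lit 76) (nat_lit 11705853785203) (nat_lit 76) (nat_lit 11684417751964) (nat_lit 1) (nat_lit 4) (nat_lit 2) (nat_lit 5) (nat_lit 2) (nat_lit 4) (nat_lit 273) (nat_lit 206) (nat_lit 121)) (XT.lf (nat_lit 0) (nat_lit 16179172383416) (nat_lit 76) (nat_lit 13447429171815) (nat_lit 76) (nat_lit 13425993119202) (nat_lit 1) (nat_lit 4) (nat_lit 2) (nat_lit 5) (nat_lit 2) (nat_lit 4) (nat_lit 274) (nat_lit 206) (nat_lit 120)))) (XT.nd (nat_lit 156) (nat_lit 0) (nat_lit 0) (XT.nd (nat_lit 78) (nat_lit 0) (nat_lit 0) (XT.lf (nat_lit 0) (nat_lit 18629530084708) (nat_lit 76) (nat_lit 15450240885152) (nat_lit 76) (nat_lit 15428804815692) (nat_lit 1) (nat_lit 4) (nat_lit 2) (nat_lit 5) (nat_lit 2) (nat_lit 4) (nat_lit 275) (nat_lit 206) (nat_lit 119)) (XT.lf (nat_lit 0) (nat_lit 21447441406691) (nat_lit 76) (nat_lit 17753474371781)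 (nat_lit 76) (nat_lit 17732038287672) (nat_lit 1) (nat_lit 4) (nat_lit 2) (nat_lit 5) (nat_lit 2) (nat_lit 4) (nat_lit 276) (nat_lit 206) (nat_lit 118))) (XT.nd (nat_lit 25818) (nat_lit 0) (nat_lit 1140) (XT.lf (nat_lit 0) (nat_lit 24688039396970) (nat_lit 76) (nat_lit 20402192895570) (nat_lit 76) (nat_lit 20380756798722) (nat_lit 1) (nat_lit 4) (nat_lit 2) (nat_lit 5) (nat_lit 2) (nat_lit 4) (nat_lit 277) (nat_lit 206) (nat_lit 117)) (XT.lf (nat_lit 0) (nat_lit 1893822925) (nat_lit 0) (nat_lit 1893822925) (nat_lit 228) (nat_lit 1853311098) (nat_lit 16) (nat_lit 5) (nat_lit 16) (nat_lit 3) (nat_lit 19) (nat_lit 3) (nat_lit 207) (nat_lit 207) (nat_lit 186)))))) (XT.nd (nat_lit 624) (nat_lit 380) (nat_lit 0) (XT.nd (nat_lit 312) (nat_lit 228) (nat_lit 0) (XT.nd (nat_lit 156) (nat_lit 152) (nat_lit 0) (XT.nd (nat_lit 78) (nat_lit 0) (nat_lit 0) (XT.lf (nat_lit 0) (nat_lit 8618027442)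 (nat_lit 228) (nat_lit 2866089153) (nat_lit 304) (nat_lit 566529338) (nat_lit 16) (nat_lit 5) (nat_lit 19) (nat_lit 3) (nat_lit 20) (nat_lit 5) (nat_lit 208) (nat_lit 207) (nat_lit 185)) (XT.lf (nat_lit 76) (nat_lit 2438319699) (nat_lit 0) (nat_lit 7581920910) (nat_lit 304) (nat_lit 2885095163) (nat_lit 17) (nat_lit 5) (nat_lit 16) (nat_lit 5) (nat_lit 20) (nat_lit 5) (nat_lit 209) (nat_lit 207) (nat_lit 184))) (XT.nd (nat_lit 78) (nat_lit 152) (nat_lit 0) (XT.lf (nat_lit 76) (nat_lit 8808277117) (nat_lit 0) (nat_lit 2904110057) (nat_lit 304) (nat_lit 2164865233) (nat_lit 17) (nat_lit 5) (nat_lit 16) (nat_lit 5) (nat_lit 20) (nat_lit 5) (nat_lit 210) (nat_lit 207) (nat_lit 183)) (XT.lf (nat_lit 0) (nat_lit 1076010585) (nat_lit 228) (nat_lit 12668990117) (nat_lit 304) (nat_lit 1237796939) (nat_lit 14) (nat_lit 5) (nat_lit 17) (nat_lit 5) (nat_lit 18) (nat_lit 5) (nat_lit 211) (nat_lit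 207) (nat_lit 182)))) (XT.nd (nat_lit 156) (nat_lit 152) (nat_lit 0) (XT.nd (nat_lit 78) (nat_lit 0) (nat_lit 0) (XT.lf (nat_lit 0) (nat_lit 201475496) (nat_lit 304) (nat_lit 7705611806) (nat_lit 76) (nat_lit 8295108042) (nat_lit 13) (nat_lit 5) (nat_lit 17) (nat_lit 5) (nat_lit 14) (nat_lit 5) (nat_lit 212) (nat_lit 207) (nat_lit 181)) (XT.lf (nat_lit 0) (nat_lit 1679462482) (nat_lit 304) (nat_lit 685212067) (nat_lit 76) (nat_lit 15239105071) (nat_lit 13) (nat_lit 5) (nat_lit 17) (nat_lit 5) (nat_lit 14) (nat_lit 5) (nat_lit 213) (nat_lit 207) (nat_lit 180))) (XT.nd (nat_lit 78) (nat_lit 0) (nat_lit 0) (XT.lf (nat_lit 0) (nat_lit 3850898260) (nat_lit 228) (nat_lit 11293805122) (nat_lit 76) (nat_lit 4000614590) (nat_lit 11) (nat_lit 5) (nat_lit 14) (nat_lit 5) (nat_lit 12) (nat_lit 5) (nat_lit 214) (nat_lit 207) (nat_lit 179)) (XT.lf (nat_lit 0) (nat_lit 6458107900) (nat_lit 228) (nat_lit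 3330710954) (nat_lit 76) (nat_lit 11113176009) (nat_lit 11) (nat_lit 5) (nat_lit 14) (nat_lit 5) (nat_lit 12) (nat_lit 5) (nat_lit 215) (nat_lit 207) (nat_lit 178))))) (XT.nd (nat_lit 312) (nat_lit 152) (nat_lit 0) (XT.nd (nat_lit 156) (nat_lit 76) (nat_lit 0) (XT.nd (nat_lit 78) (nat_lit 0) (nat_lit 0) (XT.lf (nat_lit 0) (nat_lit 6349094220) (nat_lit 152) (nat_lit 3335364980) (nat_lit 228) (nat_lit 13203867283) (nat_lit 9) (nat_lit 5) (nat_lit 11) (nat_lit 5) (nat_lit 12) (nat_lit 5) (nat_lit 216) (nat_lit 207) (nat_lit 177)) (XT.lf (nat_lit 0) (nat_lit 13713984889) (nat_lit 228) (nat_lit 7514562335) (nat_lit 76) (nat_lit 3896492348) (nat_lit 9) (nat_lit 5) (nat_lit 12) (nat_lit 5) (nat_lit 10) (nat_lit 4) (nat_lit 217) (nat_lit 207) (nat_lit 176))) (XT.nd (nat_lit 78) (nat_lit 0) (nat_lit 0) (XT.lf (nat_lit 0) (nat_lit 2925633237) (nat_lit 76) (nat_lit 15674128321) (nat_lit 152)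 (nat_lit 9059998642) (nat_lit 8) (nat_lit 5) (nat_lit 9) (nat_lit 5) (nat_lit 10) (nat_lit 4) (nat_lit 218) (nat_lit 207) (nat_lit 175)) (XT.lf (nat_lit 0) (nat_lit 15738393897) (nat_lit 76) (nat_lit 8846766661) (nat_lit 152) (nat_lit 5934753161) (nat_lit 8) (nat_lit 5) (nat_lit 9) (nat_lit 5) (nat_lit 10) (nat_lit 4) (nat_lit 219) (nat_lit 207) (nat_lit 174)))) (XT.nd (nat_lit 156) (nat_lit 0) (nat_lit 0) (XT.nd (nat_lit 78) (nat_lit 152) (nat_lit 0) (XT.lf (nat_lit 0) (nat_lit 30440026408) (nat_lit 76) (nat_lit 1005690096) (nat_lit 152) (nat_lit 2366978801) (nat_lit 8) (nat_lit 5) (nat_lit 9) (nat_lit 5) (nat_lit 10) (nat_lit 4) (nat_lit 220) (nat_lit 207) (nat_lit 173)) (XT.lf (nat_lit 0) (nat_lit 2354630822) (nat_lit 152) (nat_lit 27294493798) (nat_lit 76) (nat_lit 7823661276) (nat_lit 6) (nat_lit 5) (nat_lit 8) (nat_lit 5) (nat_lit 7) (nat_lit 4) (nat_lit 221) (nat_lit 207) (nat_lit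 172))) (XT.nd (nat_lit 78) (nat_lit 0) (nat_lit 0) (XT.lf (nat_lit 0) (nat_lit 7755000108) (nat_lit 152) (nat_lit 15715630643) (nat_lit 76) (nat_lit 18162560741) (nat_lit 6) (nat_lit 5) (nat_lit 8) (nat_lit 5) (nat_lit 7) (nat_lit 4) (nat_lit 222) (nat_lit 207) (nat_lit 171)) (XT.lf (nat_lit 0) (nat_lit 13948266514) (nat_lit 152) (nat_lit 2427873794) (nat_lit 76) (nat_lit 30044209776) (nat_lit 6) (nat_lit 5) (nat_lit 8) (nat_lit 5) (nat_lit 7) (nat_lit 4) (nat_lit 223) (nat_lit 207) (nat_lit 170))))))) (XT.nd (nat_lit 1170) (nat_lit 76) (nat_lit 0) (XT.nd (nat_lit 546) (nat_lit 76) (nat_lit 0) (XT.nd (nat_lit 234) (nat_lit 152) (nat_lit 0) (XT.nd (nat_lit 78) (nat_lit 0) (nat_lit 0) (XT.lf (nat_lit 0) (nat_lit 14082473800) (nat_lit 76) (nat_lit 7556254051) (nat_lit 152) (nat_lit 30201726834) (nat_lit 5) (nat_lit 5) (nat_lit 6) (nat_lit 5) (nat_lit 7) (nat_lit 4) (nat_lit 224) (nat_lit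 207) (nat_lit 169)) (XT.nd (nat_lit 78) (nat_lit 0) (nat_lit 0) (XT.lf (nat_lit 0) (nat_lit 30708502156) (nat_lit 152) (nat_lit 24850438733) (nat_lit 0) (nat_lit 2480862061) (nat_lit 5) (nat_lit 5) (nat_lit 7) (nat_lit 4) (nat_lit 5) (nat_lit 4) (nat_lit 225) (nat_lit 207) (nat_lit 168)) (XT.lf (nat_lit 0) (nat_lit 41486114273) (nat_lit 152) (nat_lit 10388312366) (nat_lit 0) (nat_lit 13242598922) (nat_lit 5) (nat_lit 5) (nat_lit 7) (nat_lit 4) (nat_lit 5) (nat_lit 4) (nat_lit 226) (nat_lit 207) (nat_lit 167)))) (XT.nd (nat_lit 156) (nat_lit 76) (nat_lit 0) (XT.nd (nat_lit 78) (nat_lit 0) (nat_lit 0) (XT.lf (nat_lit 0) (nat_lit 6832519347) (nat_lit 76) (nat_lit 47319942871) (nat_lit 76) (nat_lit 19062622948) (nat_lit 4) (nat_lit 4) (nat_lit 5) (nat_lit 5) (nat_lit 5) (nat_lit 4) (nat_lit 227) (nat_lit 207) (nat_lit 166)) (XT.lf (nat_lit 0) (nat_lit 27785947457) (nat_lit 76) (nat_lit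 41465679655) (nat_lit 76) (nat_lit 13196355758) (nat_lit 4) (nat_lit 4) (nat_lit 5) (nat_lit 5) (nat_lit 5) (nat_lit 4) (nat_lit 228) (nat_lit 207) (nat_lit 165))) (XT.nd (nat_lit 78) (nat_lit 76) (nat_lit 0) (XT.lf (nat_lit 0) (nat_lit 51866708902) (nat_lit 76) (nat_lit 34740122480) (nat_lit 76) (nat_lit 6460360343) (nat_lit 4) (nat_lit 4) (nat_lit 5) (nat_lit 5) (nat_lit 5) (nat_lit 4) (nat_lit 229) (nat_lit 207) (nat_lit 164)) (XT.lf (nat_lit 0) (nat_lit 1163453382) (nat_lit 152) (nat_lit 25787414092) (nat_lit 76) (nat_lit 78321678752) (nat_lit 3) (nat_lit 5) (nat_lit 5) (nat_lit 5) (nat_lit 4) (nat_lit 4) (nat_lit 230) (nat_lit 207) (nat_lit 163))))) (XT.nd (nat_lit 312) (nat_lit 0) (nat_lit 0) (XT.nd (nat_lit 156) (nat_lit 0) (nat_lit 0) (XT.nd (nat_lit 78) (nat_lit 76) (nat_lit 0) (XT.lf (nat_lit 0) (nat_lit 9262387127) (nat_lit 152) (nat_lit 8382599350) (nat_lit 76) (nat_lit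 101618660786) (nat_lit 3) (nat_lit 5) (nat_lit 5) (nat_lit 5) (nat_lit 4) (nat_lit 4) (nat_lit 231) (nat_lit 207) (nat_lit 162)) (XT.lf (nat_lit 0) (nat_lit 12757786509) (nat_lit 76) (nat_lit 6340530465) (nat_lit 152) (nat_lit 116176802344) (nat_lit 2) (nat_lit 5) (nat_lit 3) (nat_lit 5) (nat_lit 4) (nat_lit 4) (nat_lit 232) (nat_lit 207) (nat_lit 161))) (XT.nd (nat_lit 78) (nat_lit 0) (nat_lit 0) (XT.lf (nat_lit 0) (nat_lit 31138497648) (nat_lit 152) (nat_lit 115919024510) (nat_lit 0) (nat_lit 6521486271) (nat_lit 2) (nat_lit 5) (nat_lit 4) (nat_lit 4) (nat_lit 2) (nat_lit 4) (nat_lit 233) (nat_lit 207) (nat_lit 160)) (XT.lf (nat_lit 0) (nat_lit 45281465582) (nat_lit 152) (nat_lit 108642581967) (nat_lit 0) (nat_lit 20659941467) (nat_lit 2) (nat_lit 5) (nat_lit 4) (nat_lit 4) (nat_lit 2) (nat_lit 4) (nat_lit 234) (nat_lit 207) (nat_lit 159)))) (XT.nd (nat_lit 156) (nat_lit 0) (nat_lit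 0) (XT.nd (nat_lit 78) (nat_lit 0) (nat_lit 0) (XT.lf (nat_lit 0) (nat_lit 61541383175) (nat_lit 152) (nat_lit 100283092153) (nat_lit 0) (nat_lit 36915934939) (nat_lit 2) (nat_lit 5) (nat_lit 4) (nat_lit 4) (nat_lit 2) (nat_lit 4) (nat_lit 235) (nat_lit 207) (nat_lit 158)) (XT.lf (nat_lit 0) (nat_lit 80236379248) (nat_lit 152) (nat_lit 90676999832) (nat_lit 0) (nat_lit 55607518733) (nat_lit 2) (nat_lit 5) (nat_lit 4) (nat_lit 4) (nat_lit 2) (nat_lit 4) (nat_lit 236) (nat_lit 207) (nat_lit 157))) (XT.nd (nat_lit 78) (nat_lit 0) (nat_lit 0) (XT.lf (nat_lit 0) (nat_lit 101732225464) (nat_lit 152) (nat_lit 79636359722) (nat_lit 0) (nat_lit 77100397750) (nat_lit 2) (nat_lit 5) (nat_lit 4) (nat_lit 4) (nat_lit 2) (nat_lit 4) (nat_lit 237) (nat_lit 207) (nat_lit 156)) (XT.lf (nat_lit 0) (nat_lit 126449492726) (nat_lit 152) (nat_lit 66945159296) (nat_lit 0) (nat_lit 101815084839) (nat_lit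 2) (nat_lit 5) (nat_lit 4) (nat_lit 4) (nat_lit 2) (nat_lit 4) (nat_lit 238) (nat_lit 207) (nat_lit 155)))))) (XT.nd (nat_lit 624) (nat_lit 0) (nat_lit 0) (XT.nd (nat_lit 312) (nat_lit 0) (nat_lit 0) (XT.nd (nat_lit 156) (nat_lit 76) (nat_lit 0) (XT.nd (nat_lit 78) (nat_lit 0) (nat_lit 0) (XT.lf (nat_lit 0) (nat_lit 154871779743) (nat_lit 152) (nat_lit 52355092461) (nat_lit 0) (nat_lit 130235128228) (nat_lit 2) (nat_lit 5) (nat_lit 4) (nat_lit 4) (nat_lit 2) (nat_lit 4) (nat_lit 239) (nat_lit 207) (nat_lit 154)) (XT.lf (nat_lit 0) (nat_lit 187555174738) (nat_lit 152) (nat_lit 35580701386) (nat_lit 0) (nat_lit 162916572241) (nat_lit 2) (nat_lit 5) (nat_lit 4) (nat_lit 4) (nat_lit 2) (nat_lit 4) (nat_lit 240) (nat_lit 207) (nat_lit 153))) (XT.nd (nat_lit 78) (nat_lit 76) (nat_lit 0) (XT.lf (nat_lit 0) (nat_lit 225139135440) (nat_lit 152) (nat_lit 16293791464) (nat_lit 0) (nat_lit 200498836437)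 (nat_lit 2) (nat_lit 5) (nat_lit 4) (nat_lit 4) (nat_lit 2) (nat_lit 4) (nat_lit 241) (nat_lit 207) (nat_lit 152)) (XT.lf (nat_lit 0) (nat_lit 6457918446) (nat_lit 76) (nat_lit 262168490394) (nat_lit 76) (nat_lit 237526716170) (nat_lit 1) (nat_lit 4) (nat_lit 2) (nat_lit 5) (nat_lit 2) (nat_lit 4) (nat_lit 242) (nat_lit 207) (nat_lit 151)))) (XT.nd (nat_lit 156) (nat_lit 0) (nat_lit 0) (XT.nd (nat_lit 78) (nat_lit 0) (nat_lit 0) (XT.lf (nat_lit 0) (nat_lit 34450563628) (nat_lit 76) (nat_lit 285036335843) (nat_lit 76) (nat_lit 260393278816) (nat_lit 1) (nat_lit 4) (nat_lit 2) (nat_lit 5) (nat_lit 2) (nat_lit 4) (nat_lit 243) (nat_lit 207) (nat_lit 150)) (XT.lf (nat_lit 0) (nat_lit 66639478466) (nat_lit 76) (nat_lit 311335598536) (nat_lit 76) (nat_lit 286691426030) (nat_lit 1) (nat_lit 4) (nat_lit 2) (nat_lit 5) (nat_lit 2) (nat_lit 4) (nat_lit 244) (nat_lit 207) (nat_lit 149))) (XT.nd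 (nat_lit 78) (nat_lit 0) (nat_lit 0) (XT.lf (nat_lit 0) (nat_lit 103654446076) (nat_lit 76) (nat_lit 341580829266) (nat_lit 76) (nat_lit 316935686776) (nat_lit 1) (nat_lit 4) (nat_lit 2) (nat_lit 5) (nat_lit 2) (nat_lit 4) (nat_lit 245) (nat_lit 207) (nat_lit 148)) (XT.lf (nat_lit 0) (nat_lit 146219672346) (nat_lit 76) (nat_lit 376363782545) (nat_lit 76) (nat_lit 351717796592) (nat_lit 1) (nat_lit 4) (nat_lit 2) (nat_lit 5) (nat_lit 2) (nat_lit 4) (nat_lit 246) (nat_lit 207) (nat_lit 147))))) (XT.nd (nat_lit 312) (nat_lit 0) (nat_lit 0) (XT.nd (nat_lit 156) (nat_lit 0) (nat_lit 0) (XT.nd (nat_lit 78) (nat_lit 0) (nat_lit 0) (XT.lf (nat_lit 0) (nat_lit 195167955182) (nat_lit 76) (nat_lit 416364994417) (nat_lit 76) (nat_lit 391718275019) (nat_lit 1) (nat_lit 4) (nat_lit 2) (nat_lit 5) (nat_lit 2) (nat_lit 4) (nat_lit 247) (nat_lit 207) (nat_lit 146)) (XT.lf (nat_lit 0) (nat_lit 251456978379)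 (nat_lit 76) (nat_lit 462367097289) (nat_lit 76) (nat_lit 437719740111) (nat_lit 1) (nat_lit 4) (nat_lit 2) (nat_lit 5) (nat_lit 2) (nat_lit 4) (nat_lit 248) (nat_lit 207) (nat_lit 145))) (XT.nd (nat_lit 78) (nat_lit 0) (nat_lit 0) (XT.lf (nat_lit 0) (nat_lit 316188048911) (nat_lit 76) (nat_lit 515270132302) (nat_lit 76) (nat_lit 490622220533) (nat_lit 1) (nat_lit 4) (nat_lit 2) (nat_lit 5) (nat_lit 2) (nat_lit 4) (nat_lit 249) (nat_lit 207) (nat_lit 144)) (XT.lf (nat_lit 0) (nat_lit 390627644246) (nat_lit 76) (nat_lit 576109158838) (nat_lit 76) (nat_lit 551460764817) (nat_lit 1) (nat_lit 4) (nat_lit 2) (nat_lit 5) (nat_lit 2) (nat_lit 4) (nat_lit 250) (nat_lit 207) (nat_lit 143)))) (XT.nd (nat_lit 156) (nat_lit 0) (nat_lit 0) (XT.nd (nat_lit 78) (nat_lit 0) (nat_lit 0) (XT.lf (nat_lit 0) (nat_lit 476232191249) (nat_lit 76) (nat_lit 646074505677) (nat_lit 76) (nat_lit 621425692305)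 (nat_lit 1) (nat_lit 4) (nat_lit 2) (nat_lit 5) (nat_lit 2) (nat_lit 4) (nat_lit 251) (nat_lit 207) (nat_lit 142)) (XT.lf (nat_lit 0) (nat_lit 574676561492) (nat_lit 76) (nat_lit 726535060040) (nat_lit 76) (nat_lit 701885882016) (nat_lit 1) (nat_lit 4) (nat_lit 2) (nat_lit 5) (nat_lit 2) (nat_lit 4) (nat_lit 252) (nat_lit 207) (nat_lit 141))) (XT.nd (nat_lit 78) (nat_lit 0) (nat_lit 0) (XT.lf (nat_lit 0) (nat_lit 687886840480) (nat_lit 76) (nat_lit 819065050164) (nat_lit 76) (nat_lit 794415555050) (nat_lit 1) (nat_lit 4) (nat_lit 2) (nat_lit 5) (nat_lit 2) (nat_lit 4) (nat_lit 253) (nat_lit 207) (nat_lit 140)) (XT.lf (nat_lit 0) (nat_lit 818078011932) (nat_lit 76) (nat_lit 925474845420) (nat_lit 76) (nat_lit 900825074578) (nat_lit 1) (nat_lit 4) (nat_lit 2) (nat_lit 5) (nat_lit 2) (nat_lit 4) (nat_lit 254) (nat_lit 207) (nat_lit 139))))))))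
noncomputable def xc34 : XT := (XT.nd (nat_lit 28236) (nat_lit 0) (nat_lit 0) (XT.nd (nat_lit 1170) (nat_lit 0) (nat_lit 0) (XT.nd (nat_lit 546) (nat_lit 0) (nat_lit 0) (XT.nd (nat_lit 234) (nat_lit 0) (nat_lit 0) (XT.nd (nat_lit 78) (nat_lit 0) (nat_lit 0) (XT.lf (nat_lit 0) (nat_lit 967797294419) (nat_lit 76) (nat_lit 1047846376587) (nat_lit 76) (nat_lit 1023196365979) (nat_lit 1) (nat_lit 4) (nat_lit 2) (nat_lit 5) (nat_lit 2) (nat_lit 4) (nat_lit 255) (nat_lit 207) (nat_lit 138)) (XT.nd (nat_lit 78) (nat_lit 0) (nat_lit 0) (XT.lf (nat_lit 0) (nat_lit 1139973978252) (nat_lit 76) (nat_lit 1188573869274) (nat_lit 76) (nat_lit 1163923650175) (nat_lit 1) (nat_lit 4) (nat_lit 2) (nat_lit 5) (nat_lit 2) (nat_lit 4) (nat_lit 256) (nat_lit 207) (nat_lit 137)) (XT.lf (nat_lit 0) (nat_lit 1337976737679) (nat_lit 76) (nat_lit 1350410687467) (nat_lit 76) (nat_lit 1325760287072) (nat_lit 1)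 (nat_lit 4) (nat_lit 2) (nat_lit 5) (nat_lit 2) (nat_lit 4) (nat_lit 257) (nat_lit 207) (nat_lit 136)))) (XT.nd (nat_lit 156) (nat_lit 0) (nat_lit 0) (XT.nd (nat_lit 78) (nat_lit 0) (nat_lit 0) (XT.lf (nat_lit 0) (nat_lit 1565679539733) (nat_lit 76) (nat_lit 1536523203698) (nat_lit 76) (nat_lit 1511872645653) (nat_lit 1) (nat_lit 4) (nat_lit 2) (nat_lit 5) (nat_lit 2) (nat_lit 4) (nat_lit 258) (nat_lit 207) (nat_lit 135)) (XT.lf (nat_lit 0) (nat_lit 1827537439236) (nat_lit 76) (nat_lit 1750552749804) (nat_lit 76) (nat_lit 1725902054673) (nat_lit 1) (nat_lit 4) (nat_lit 2) (nat_lit 5) (nat_lit 2) (nat_lit 4) (nat_lit 259) (nat_lit 207) (nat_lit 134))) (XT.nd (nat_lit 78) (nat_lit 0) (nat_lit 0) (XT.lf (nat_lit 0) (nat_lit 2128673742918) (nat_lit 76) (nat_lit 1996686860385) (nat_lit 76) (nat_lit 1972036046048) (nat_lit 1) (nat_lit 4) (nat_lit 2) (nat_lit 5) (nat_lit 2) (nat_lit 4) (nat_lit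 260) (nat_lit 207) (nat_lit 133)) (XT.lf (nat_lit 0) (nat_lit 2474980248024) (nat_lit 76) (nat_lit 2279741202820) (nat_lit 76) (nat_lit 2255090284826) (nat_lit 1) (nat_lit 4) (nat_lit 2) (nat_lit 5) (nat_lit 2) (nat_lit 4) (nat_lit 261) (nat_lit 207) (nat_lit 132))))) (XT.nd (nat_lit 312) (nat_lit 0) (nat_lit 0) (XT.nd (nat_lit 156) (nat_lit 0) (nat_lit 0) (XT.nd (nat_lit 78) (nat_lit 0) (nat_lit 0) (XT.lf (nat_lit 0) (nat_lit 2873232516612) (nat_lit 76) (nat_lit 2605253796854) (nat_lit 76) (nat_lit 2580602788723) (nat_lit 1) (nat_lit 4) (nat_lit 2) (nat_lit 5) (nat_lit 2) (nat_lit 4) (nat_lit 262) (nat_lit 207) (nat_lit 131)) (XT.lf (nat_lit 0) (nat_lit 3331222440892) (nat_lit 76) (nat_lit 2979593367151) (nat_lit 76) (nat_lit 2954942280641) (nat_lit 1) (nat_lit 4) (nat_lit 2) (nat_lit 5) (nat_lit 2) (nat_lit 4) (nat_lit 263) (nat_lit 207) (nat_lit 130))) (XT.nd (nat_lit 78) (nat_lit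 0) (nat_lit 0) (XT.lf (nat_lit 0) (nat_lit 3857910693296) (nat_lit 76) (nat_lit 3410083948784) (nat_lit 76) (nat_lit 3385432794118) (nat_lit 1) (nat_lit 4) (nat_lit 2) (nat_lit 5) (nat_lit 2) (nat_lit 4) (nat_lit 264) (nat_lit 207) (nat_lit 129)) (XT.lf (nat_lit 0) (nat_lit 4463602043981) (nat_lit 76) (nat_lit 3905148183566) (nat_lit 76) (nat_lit 3880496969634) (nat_lit 1) (nat_lit 4) (nat_lit 2) (nat_lit 5) (nat_lit 2) (nat_lit 4) (nat_lit 265) (nat_lit 207) (nat_lit 128)))) (XT.nd (nat_lit 156) (nat_lit 0) (nat_lit 0) (XT.nd (nat_lit 78) (nat_lit 0) (nat_lit 0) (XT.lf (nat_lit 0) (nat_lit 5160146975893) (nat_lit 76) (nat_lit 4474472110874) (nat_lit 76) (nat_lit 4449820845406) (nat_lit 1) (nat_lit 4) (nat_lit 2) (nat_lit 5) (nat_lit 2) (nat_lit 4) (nat_lit 266) (nat_lit 207) (nat_lit 127)) (XT.lf (nat_lit 0) (nat_lit 5961173542049) (nat_lit 76) (nat_lit 5129194677111) (nat_lit 76)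 (nat_lit 5104543366830) (nat_lit 1) (nat_lit 4) (nat_lit 2) (nat_lit 5) (nat_lit 2) (nat_lit 4) (nat_lit 267) (nat_lit 207) (nat_lit 126))) (XT.nd (nat_lit 78) (nat_lit 0) (nat_lit 0) (XT.lf (nat_lit 0) (nat_lit 6882354001352) (nat_lit 76) (nat_lit 5882125671618) (nat_lit 76) (nat_lit 5857474322368) (nat_lit 1) (nat_lit 4) (nat_lit 2) (nat_lit 5) (nat_lit 2) (nat_lit 4) (nat_lit 268) (nat_lit 207) (nat_lit 125)) (XT.lf (nat_lit 0) (nat_lit 7941711449745) (nat_lit 76) (nat_lit 6747996352982) (nat_lit 76) (nat_lit 6723344969846) (nat_lit 1) (nat_lit 4) (nat_lit 2) (nat_lit 5) (nat_lit 2) (nat_lit 4) (nat_lit 269) (nat_lit 207) (nat_lit 124)))))) (XT.nd (nat_lit 26442) (nat_lit 0) (nat_lit 760) (XT.nd (nat_lit 312) (nat_lit 0) (nat_lit 0) (XT.nd (nat_lit 156) (nat_lit 0) (nat_lit 0) (XT.nd (nat_lit 78) (nat_lit 0) (nat_lit 0) (XT.lf (nat_lit 0) (nat_lit 9159972446000) (nat_lit 76) (nat_lit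 7743747669317) (nat_lit 76) (nat_lit 7719096256715) (nat_lit 1) (nat_lit 4) (nat_lit 2) (nat_lit 5) (nat_lit 2) (nat_lit 4) (nat_lit 270) (nat_lit 207) (nat_lit 123)) (XT.lf (nat_lit 0) (nat_lit 10560972531349) (nat_lit 76) (nat_lit 8888861711594) (nat_lit 76) (nat_lit 8864210273370) (nat_lit 1) (nat_lit 4) (nat_lit 2) (nat_lit 5) (nat_lit 2) (nat_lit 4) (nat_lit 271) (nat_lit 207) (nat_lit 122))) (XT.nd (nat_lit 78) (nat_lit 0) (nat_lit 0) (XT.lf (nat_lit 0) (nat_lit 12172122577027) (nat_lit 76) (nat_lit 10205742884989) (nat_lit 76) (nat_lit 10181091424485) (nat_lit 1) (nat_lit 4) (nat_lit 2) (nat_lit 5) (nat_lit 2) (nat_lit 4) (nat_lit 272) (nat_lit 207) (nat_lit 121)) (XT.lf (nat_lit 0) (nat_lit 14024945083927) (nat_lit 76) (nat_lit 11720156255938) (nat_lit 76) (nat_lit 11695504776060) (nat_lit 1) (nat_lit 4) (nat_lit 2) (nat_lit 5) (nat_lit 2) (nat_lit 4) (nat_lit 273) (nat_lit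 207) (nat_lit 120)))) (XT.nd (nat_lit 156) (nat_lit 0) (nat_lit 0) (XT.nd (nat_lit 78) (nat_lit 0) (nat_lit 0) (XT.lf (nat_lit 0) (nat_lit 16155690927185) (nat_lit 76) (nat_lit 13461731651264) (nat_lit 76) (nat_lit 13437080154538) (nat_lit 1) (nat_lit 4) (nat_lit 2) (nat_lit 5) (nat_lit 2) (nat_lit 4) (nat_lit 274) (nat_lit 207) (nat_lit 119)) (XT.lf (nat_lit 0) (nat_lit 18606048612429) (nat_lit 76) (nat_lit 15464543372178) (nat_lit 76) (nat_lit 15439891860803) (nat_lit 1) (nat_lit 4) (nat_lit 2) (nat_lit 5) (nat_lit 2) (nat_lit 4) (nat_lit 275) (nat_lit 207) (nat_lit 118))) (XT.nd (nat_lit 78) (nat_lit 0) (nat_lit 0) (XT.lf (nat_lit 0) (nat_lit 21423959920458) (nat_lit 76) (nat_lit 17767776865396) (nat_lit 76) (nat_lit 17743125341282) (nat_lit 1) (nat_lit 4) (nat_lit 2) (nat_lit 5) (nat_lit 2) (nat_lit 4) (nat_lit 276) (nat_lit 207) (nat_lit 117)) (XT.lf (nat_lit 0) (nat_lit 24664557898602)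 (nat_lit 76) (nat_lit 20416495394914) (nat_lit 76) (nat_lit 20391843859723) (nat_lit 1) (nat_lit 4) (nat_lit 2) (nat_lit 5) (nat_lit 2) (nat_lit 4) (nat_lit 277) (nat_lit 207) (nat_lit 116))))) (XT.nd (nat_lit 312) (nat_lit 380) (nat_lit 0) (XT.nd (nat_lit 156) (nat_lit 0) (nat_lit 0) (XT.nd (nat_lit 78) (nat_lit 0) (nat_lit 0) (XT.lf (nat_lit 0) (nat_lit 2393022426) (nat_lit 0) (nat_lit 2393022426) (nat_lit 228) (nat_lit 1630552330) (nat_lit 16) (nat_lit 5) (nat_lit 16) (nat_lit 3) (nat_lit 19) (nat_lit 3) (nat_lit 208) (nat_lit 208) (nat_lit 184)) (XT.lf (nat_lit 0) (nat_lit 10643504101) (nat_lit 228) (nat_lit 2783763774) (nat_lit 304) (nat_lit 310684300) (nat_lit 16) (nat_lit 5) (nat_lit 19) (nat_lit 3) (nat_lit 20) (nat_lit 5) (nat_lit 209) (nat_lit 208) (nat_lit 183))) (XT.nd (nat_lit 78) (nat_lit 0) (nat_lit 0) (XT.lf (nat_lit 76) (nat_lit 3293022827) (nat_lit 0) (nat_lit 8887693980)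 (nat_lit 304) (nat_lit 2552781780) (nat_lit 17) (nat_lit 5) (nat_lit 16) (nat_lit 5) (nat_lit 20) (nat_lit 5) (nat_lit 210) (nat_lit 208) (nat_lit 182)) (XT.lf (nat_lit 76) (nat_lit 10554697096) (nat_lit 0) (nat_lit 3486235203) (nat_lit 304) (nat_lit 1824310097) (nat_lit 17) (nat_lit 5) (nat_lit 16) (nat_lit 5) (nat_lit 20) (nat_lit 5) (nat_lit 211) (nat_lit 208) (nat_lit 181)))) (XT.nd (nat_lit 156) (nat_lit 152) (nat_lit 0) (XT.nd (nat_lit 78) (nat_lit 76) (nat_lit 0) (XT.lf (nat_lit 0) (nat_lit 1738398571) (nat_lit 228) (nat_lit 14580940875) (nat_lit 304) (nat_lit 827167969) (nat_lit 14) (nat_lit 5) (nat_lit 17) (nat_lit 5) (nat_lit 18) (nat_lit 5) (nat_lit 212) (nat_lit 208) (nat_lit 180)) (XT.lf (nat_lit 0) (nat_lit 704054989) (nat_lit 304) (nat_lit 8374492863) (nat_lit 76) (nat_lit 9477964976) (nat_lit 13) (nat_lit 5) (nat_lit 17) (nat_lit 5) (nat_lit 14) (nat_lit 5) (nat_lit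 213) (nat_lit 208) (nat_lit 179))) (XT.nd (nat_lit 78) (nat_lit 152) (nat_lit 0) (XT.lf (nat_lit 0) (nat_lit 2342128089) (nat_lit 304) (nat_lit 364549778) (nat_lit 76) (nat_lit 17471571464) (nat_lit 13) (nat_lit 5) (nat_lit 17) (nat_lit 5) (nat_lit 14) (nat_lit 5) (nat_lit 214) (nat_lit 208) (nat_lit 178)) (XT.lf (nat_lit 0) (nat_lit 4803694765) (nat_lit 228) (nat_lit 12524947063) (nat_lit 76) (nat_lit 4628299316) (nat_lit 11) (nat_lit 5) (nat_lit 14) (nat_lit 5) (nat_lit 12) (nat_lit 5) (nat_lit 215) (nat_lit 208) (nat_lit 177))))))) (XT.nd (nat_lit 1170) (nat_lit 228) (nat_lit 0) (XT.nd (nat_lit 546) (nat_lit 152) (nat_lit 0) (XT.nd (nat_lit 234) (nat_lit 228) (nat_lit 0) (XT.nd (nat_lit 78) (nat_lit 152) (nat_lit 0) (XT.lf (nat_lit 0) (nat_lit 7753051707) (nat_lit 228) (nat_lit 3427770791) (nat_lit 76) (nat_lit 12804145921) (nat_lit 11) (nat_lit 5) (nat_lit 14) (nat_lit 5) (nat_lit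 12) (nat_lit 5) (nat_lit 216) (nat_lit 208) (nat_lit 176)) (XT.nd (nat_lit 78) (nat_lit 0) (nat_lit 0) (XT.lf (nat_lit 0) (nat_lit 7685707577) (nat_lit 152) (nat_lit 3751007637) (nat_lit 228) (nat_lit 14836973015) (nat_lit 9) (nat_lit 5) (nat_lit 11) (nat_lit 5) (nat_lit 12) (nat_lit 5) (nat_lit 217) (nat_lit 208) (nat_lit 175)) (XT.lf (nat_lit 0) (nat_lit 16034641588) (nat_lit 228) (nat_lit 8269024274) (nat_lit 76) (nat_lit 4548031317) (nat_lit 9) (nat_lit 5) (nat_lit 12) (nat_lit 5) (nat_lit 10) (nat_lit 4) (nat_lit 218) (nat_lit 208) (nat_lit 174)))) (XT.nd (nat_lit 156) (nat_lit 152) (nat_lit 0) (XT.nd (nat_lit 78) (nat_lit 0) (nat_lit 0) (XT.lf (nat_lit 0) (nat_lit 3720258707) (nat_lit 76) (nat_lit 17913380906) (nat_lit 152) (nat_lit 10136267559) (nat_lit 8) (nat_lit 5) (nat_lit 9) (nat_lit 5) (nat_lit 10) (nat_lit 4) (nat_lit 219) (nat_lit 208) (nat_lit 173)) (XT.lf (nat_lit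 0) (nat_lit 18408527316) (nat_lit 76) (nat_lit 10076506301) (nat_lit 152) (nat_lit 6579113196) (nat_lit 8) (nat_lit 5) (nat_lit 9) (nat_lit 5) (nat_lit 10) (nat_lit 4) (nat_lit 220) (nat_lit 208) (nat_lit 172))) (XT.nd (nat_lit 78) (nat_lit 152) (nat_lit 0) (XT.lf (nat_lit 0) (nat_lit 35275051529) (nat_lit 76) (nat_lit 1071956341) (nat_lit 152) (nat_lit 2508240457) (nat_lit 8) (nat_lit 5) (nat_lit 9) (nat_lit 5) (nat_lit 10) (nat_lit 4) (nat_lit 221) (nat_lit 208) (nat_lit 171)) (XT.lf (nat_lit 0) (nat_lit 2892576158) (nat_lit 152) (nat_lit 31087871003) (nat_lit 76) (nat_lit 9084269011) (nat_lit 6) (nat_lit 5) (nat_lit 8) (nat_lit 5) (nat_lit 7) (nat_lit 4) (nat_lit 222) (nat_lit 208) (nat_lit 170))))) (XT.nd (nat_lit 312) (nat_lit 76) (nat_lit 0) (XT.nd (nat_lit 156) (nat_lit 76) (nat_lit 0) (XT.nd (nat_lit 78) (nat_lit 0) (nat_lit 0) (XT.lf (nat_lit 0) (nat_lit 9078902918) (nat_lit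 152) (nat_lit 17811412749) (nat_lit 76) (nat_lit 20962647934) (nat_lit 6) (nat_lit 5) (nat_lit 8) (nat_lit 5) (nat_lit 7) (nat_lit 4) (nat_lit 223) (nat_lit 208) (nat_lit 169)) (XT.lf (nat_lit 0) (nat_lit 16180204573) (nat_lit 152) (nat_lit 2564609219) (nat_lit 76) (nat_lit 34616670008) (nat_lit 6) (nat_lit 5) (nat_lit 8) (nat_lit 5) (nat_lit 7) (nat_lit 4) (nat_lit 224) (nat_lit 208) (nat_lit 168))) (XT.nd (nat_lit 78) (nat_lit 0) (nat_lit 0) (XT.lf (nat_lit 0) (nat_lit 16411952076) (nat_lit 76) (nat_lit 8603051492) (nat_lit 152) (nat_lit 34581111005) (nat_lit 5) (nat_lit 5) (nat_lit 6) (nat_lit 5) (nat_lit 7) (nat_lit 4) (nat_lit 225) (nat_lit 208) (nat_lit 167)) (XT.lf (nat_lit 0) (nat_lit 35431346300) (nat_lit 152) (nat_lit 28374588965) (nat_lit 0) (nat_lit 2921623818) (nat_lit 5) (nat_lit 5) (nat_lit 7) (nat_lit 4) (nat_lit 5) (nat_lit 4) (nat_lit 226) (nat_lit 208) (nat_lit 166))))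 (XT.nd (nat_lit 156) (nat_lit 0) (nat_lit 0) (XT.nd (nat_lit 78) (nat_lit 76) (nat_lit 0) (XT.lf (nat_lit 0) (nat_lit 47810395607) (nat_lit 152) (nat_lit 11769676109) (nat_lit 0) (nat_lit 15288669150) (nat_lit 5) (nat_lit 5) (nat_lit 7) (nat_lit 4) (nat_lit 5) (nat_lit 4) (nat_lit 227) (nat_lit 208) (nat_lit 165)) (XT.lf (nat_lit 0) (nat_lit 8026240220) (nat_lit 76) (nat_lit 54344225534) (nat_lit 76) (nat_lit 21812060838) (nat_lit 4) (nat_lit 4) (nat_lit 5) (nat_lit 5) (nat_lit 5) (nat_lit 4) (nat_lit 228) (nat_lit 208) (nat_lit 164))) (XT.nd (nat_lit 78) (nat_lit 0) (nat_lit 0) (XT.lf (nat_lit 0) (nat_lit 32100659550) (nat_lit 76) (nat_lit 47621437023) (nat_lit 76) (nat_lit 15080195598) (nat_lit 4) (nat_lit 4) (nat_lit 5) (nat_lit 5) (nat_lit 5) (nat_lit 4) (nat_lit 229) (nat_lit 208) (nat_lit 163)) (XT.lf (nat_lit 0) (nat_lit 59774384781) (nat_lit 76) (nat_lit 39895406434) (nat_lit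 76) (nat_lit 7346272200) (nat_lit 4) (nat_lit 4) (nat_lit 5) (nat_lit 5) (nat_lit 5) (nat_lit 4) (nat_lit 230) (nat_lit 208) (nat_lit 162)))))) (XT.nd (nat_lit 624) (nat_lit 76) (nat_lit 0) (XT.nd (nat_lit 312) (nat_lit 0) (nat_lit 0) (XT.nd (nat_lit 156) (nat_lit 76) (nat_lit 0) (XT.nd (nat_lit 78) (nat_lit 0) (nat_lit 0) (XT.lf (nat_lit 0) (nat_lit 1403832521) (nat_lit 152) (nat_lit 29537757623) (nat_lit 76) (nat_lit 90111643687) (nat_lit 3) (nat_lit 5) (nat_lit 5) (nat_lit 5) (nat_lit 4) (nat_lit 4) (nat_lit 231) (nat_lit 208) (nat_lit 161)) (XT.lf (nat_lit 0) (nat_lit 10709015745) (nat_lit 152) (nat_lit 9537581788) (nat_lit 76) (nat_lit 116897732183) (nat_lit 3) (nat_lit 5) (nat_lit 5) (nat_lit 5) (nat_lit 4) (nat_lit 4) (nat_lit 232) (nat_lit 208) (nat_lit 160))) (XT.nd (nat_lit 78) (nat_lit 0) (nat_lit 0) (XT.lf (nat_lit 0) (nat_lit 14769207064) (nat_lit 76) (nat_lit 7247705659)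 (nat_lit 152) (nat_lit 133541158954) (nat_lit 2) (nat_lit 5) (nat_lit 3) (nat_lit 5) (nat_lit 4) (nat_lit 4) (nat_lit 233) (nat_lit 208) (nat_lit 159)) (XT.lf (nat_lit 0) (nat_lit 35857677677) (nat_lit 152) (nat_lit 133216225900) (nat_lit 0) (nat_lit 7534488086) (nat_lit 2) (nat_lit 5) (nat_lit 4) (nat_lit 4) (nat_lit 2) (nat_lit 4) (nat_lit 234) (nat_lit 208) (nat_lit 158)))) (XT.nd (nat_lit 156) (nat_lit 0) (nat_lit 0) (XT.nd (nat_lit 78) (nat_lit 0) (nat_lit 0) (XT.lf (nat_lit 0) (nat_lit 52115777057) (nat_lit 152) (nat_lit 124860141186) (nat_lit 0) (nat_lit 23789175186) (nat_lit 2) (nat_lit 5) (nat_lit 4) (nat_lit 4) (nat_lit 2) (nat_lit 4) (nat_lit 235) (nat_lit 208) (nat_lit 157)) (XT.lf (nat_lit 0) (nat_lit 70809192075) (nat_lit 152) (nat_lit 115257009823) (nat_lit 0) (nat_lit 42479623005) (nat_lit 2) (nat_lit 5) (nat_lit 4) (nat_lit 4) (nat_lit 2) (nat_lit 4) (nat_lit 236)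 (nat_lit 208) (nat_lit 156))) (XT.nd (nat_lit 78) (nat_lit 0) (nat_lit 0) (XT.lf (nat_lit 0) (nat_lit 92303663460) (nat_lit 152) (nat_lit 104218944457) (nat_lit 0) (nat_lit 63971514217) (nat_lit 2) (nat_lit 5) (nat_lit 4) (nat_lit 4) (nat_lit 2) (nat_lit 4) (nat_lit 237) (nat_lit 208) (nat_lit 155)) (XT.lf (nat_lit 0) (nat_lit 117019735218) (nat_lit 152) (nat_lit 91529982941) (nat_lit 0) (nat_lit 88685342346) (nat_lit 2) (nat_lit 5) (nat_lit 4) (nat_lit 4) (nat_lit 2) (nat_lit 4) (nat_lit 238) (nat_lit 208) (nat_lit 154))))) (XT.nd (nat_lit 312) (nat_lit 76) (nat_lit 0) (XT.nd (nat_lit 156) (nat_lit 0) (nat_lit 0) (XT.nd (nat_lit 78) (nat_lit 0) (nat_lit 0) (XT.lf (nat_lit 0) (nat_lit 145440982665) (nat_lit 152) (nat_lit 76941862982) (nat_lit 0) (nat_lit 117104638812) (nat_lit 2) (nat_lit 5) (nat_lit 4) (nat_lit 4) (nat_lit 2) (nat_lit 4) (nat_lit 239) (nat_lit 208) (nat_lit 153))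 (XT.lf (nat_lit 0) (nat_lit 178123473687) (nat_lit 152) (nat_lit 60169164845) (nat_lit 0) (nat_lit 149785433329) (nat_lit 2) (nat_lit 5) (nat_lit 4) (nat_lit 4) (nat_lit 2) (nat_lit 4) (nat_lit 240) (nat_lit 208) (nat_lit 152))) (XT.nd (nat_lit 78) (nat_lit 0) (nat_lit 0) (XT.lf (nat_lit 0) (nat_lit 215706648325) (nat_lit 152) (nat_lit 40883727042) (nat_lit 0) (nat_lit 187367132744) (nat_lit 2) (nat_lit 5) (nat_lit 4) (nat_lit 4) (nat_lit 2) (nat_lit 4) (nat_lit 241) (nat_lit 208) (nat_lit 151)) (XT.lf (nat_lit 0) (nat_lit 258925829561) (nat_lit 152) (nat_lit 18708225791) (nat_lit 0) (nat_lit 230585031179) (nat_lit 2) (nat_lit 5) (nat_lit 4) (nat_lit 4) (nat_lit 2) (nat_lit 4) (nat_lit 242) (nat_lit 208) (nat_lit 150)))) (XT.nd (nat_lit 156) (nat_lit 0) (nat_lit 0) (XT.nd (nat_lit 78) (nat_lit 0) (nat_lit 0) (XT.lf (nat_lit 0) (nat_lit 7454893589) (nat_lit 76) (nat_lit 301480407729)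 (nat_lit 76) (nat_lit 273138493866) (nat_lit 1) (nat_lit 4) (nat_lit 2) (nat_lit 5) (nat_lit 2) (nat_lit 4) (nat_lit 243) (nat_lit 208) (nat_lit 149)) (XT.lf (nat_lit 0) (nat_lit 39642745890) (nat_lit 76) (nat_lit 327780172111) (nat_lit 76) (nat_lit 299437288266) (nat_lit 1) (nat_lit 4) (nat_lit 2) (nat_lit 5) (nat_lit 2) (nat_lit 4) (nat_lit 244) (nat_lit 208) (nat_lit 148))) (XT.nd (nat_lit 78) (nat_lit 0) (nat_lit 0) (XT.lf (nat_lit 0) (nat_lit 76656789556) (nat_lit 76) (nat_lit 358025839092) (nat_lit 76) (nat_lit 329682111783) (nat_lit 1) (nat_lit 4) (nat_lit 2) (nat_lit 5) (nat_lit 2) (nat_lit 4) (nat_lit 245) (nat_lit 208) (nat_lit 147)) (XT.lf (nat_lit 0) (nat_lit 119221212396) (nat_lit 76) (nat_lit 392809171721) (nat_lit 76) (nat_lit 364464710966) (nat_lit 1) (nat_lit 4) (nat_lit 2) (nat_lit 5) (nat_lit 2) (nat_lit 4) (nat_lit 246) (nat_lit 208) (nat_lit 146))))))))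
noncomputable def xc35 : XT := (XT.nd (nat_lit 28392) (nat_lit 0) (nat_lit 76) (XT.nd (nat_lit 1170) (nat_lit 0) (nat_lit 0) (XT.nd (nat_lit 546) (nat_lit 0) (nat_lit 0) (XT.nd (nat_lit 234) (nat_lit 0) (nat_lit 0) (XT.nd (nat_lit 78) (nat_lit 0) (nat_lit 0) (XT.lf (nat_lit 0) (nat_lit 168168796597) (nat_lit 76) (nat_lit 432810713462) (nat_lit 76) (nat_lit 404465614928) (nat_lit 1) (nat_lit 4) (nat_lit 2) (nat_lit 5) (nat_lit 2) (nat_lit 4) (nat_lit 247) (nat_lit 208) (nat_lit 145)) (XT.nd (nat_lit 78) (nat_lit 0) (nat_lit 0) (XT.lf (nat_lit 0) (nat_lit 224457212285) (nat_lit 76) (nat_lit 478813103176) (nat_lit 76) (nat_lit 450467450051) (nat_lit 1) (nat_lit 4) (nat_lit 2) (nat_lit 5) (nat_lit 2) (nat_lit 4) (nat_lit 248) (nat_lit 208) (nat_lit 144)) (XT.lf (nat_lit 0) (nat_lit 289187754549) (nat_lit 76) (nat_lit 531716387617) (nat_lit 76) (nat_lit 503370252240) (nat_lit 1) (nat_lit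 4) (nat_lit 2) (nat_lit 5) (nat_lit 2) (nat_lit 4) (nat_lit 249) (nat_lit 208) (nat_lit 143)))) (XT.nd (nat_lit 156) (nat_lit 0) (nat_lit 0) (XT.nd (nat_lit 78) (nat_lit 0) (nat_lit 0) (XT.lf (nat_lit 0) (nat_lit 363626890520) (nat_lit 76) (nat_lit 592555631048) (nat_lit 76) (nat_lit 564209076320) (nat_lit 1) (nat_lit 4) (nat_lit 2) (nat_lit 5) (nat_lit 2) (nat_lit 4) (nat_lit 250) (nat_lit 208) (nat_lit 142)) (XT.lf (nat_lit 0) (nat_lit 449231038076) (nat_lit 76) (nat_lit 662521166490) (nat_lit 76) (nat_lit 634174247110) (nat_lit 1) (nat_lit 4) (nat_lit 2) (nat_lit 5) (nat_lit 2) (nat_lit 4) (nat_lit 251) (nat_lit 208) (nat_lit 141))) (XT.nd (nat_lit 78) (nat_lit 0) (nat_lit 0) (XT.lf (nat_lit 0) (nat_lit 547675060974) (nat_lit 76) (nat_lit 742981884856) (nat_lit 76) (nat_lit 714634648387) (nat_lit 1) (nat_lit 4) (nat_lit 2) (nat_lit 5) (nat_lit 2) (nat_lit 4) (nat_lit 252) (nat_lit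 208) (nat_lit 140)) (XT.lf (nat_lit 0) (nat_lit 660885037923) (nat_lit 76) (nat_lit 835512017591) (nat_lit 76) (nat_lit 807164505392) (nat_lit 1) (nat_lit 4) (nat_lit 2) (nat_lit 5) (nat_lit 2) (nat_lit 4) (nat_lit 253) (nat_lit 208) (nat_lit 139))))) (XT.nd (nat_lit 312) (nat_lit 0) (nat_lit 0) (XT.nd (nat_lit 156) (nat_lit 0) (nat_lit 0) (XT.nd (nat_lit 78) (nat_lit 0) (nat_lit 0) (XT.lf (nat_lit 0) (nat_lit 791075946732) (nat_lit 76) (nat_lit 941921936858) (nat_lit 76) (nat_lit 913574184894) (nat_lit 1) (nat_lit 4) (nat_lit 2) (nat_lit 5) (nat_lit 2) (nat_lit 4) (nat_lit 254) (nat_lit 208) (nat_lit 138)) (XT.lf (nat_lit 0) (nat_lit 940795000834) (nat_lit 76) (nat_lit 1064293575860) (nat_lit 76) (nat_lit 1035945615405) (nat_lit 1) (nat_lit 4) (nat_lit 2) (nat_lit 5) (nat_lit 2) (nat_lit 4) (nat_lit 255) (nat_lit 208) (nat_lit 137))) (XT.nd (nat_lit 78) (nat_lit 0) (nat_lit 0) (XT.lf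 (nat_lit 0) (nat_lit 1112971486071) (nat_lit 76) (nat_lit 1205021162315) (nat_lit 76) (nat_lit 1176673020564) (nat_lit 1) (nat_lit 4) (nat_lit 2) (nat_lit 5) (nat_lit 2) (nat_lit 4) (nat_lit 256) (nat_lit 208) (nat_lit 136)) (XT.lf (nat_lit 0) (nat_lit 1310974072807) (nat_lit 76) (nat_lit 1366858062048) (nat_lit 76) (nat_lit 1338509762647) (nat_lit 1) (nat_lit 4) (nat_lit 2) (nat_lit 5) (nat_lit 2) (nat_lit 4) (nat_lit 257) (nat_lit 208) (nat_lit 135)))) (XT.nd (nat_lit 156) (nat_lit 0) (nat_lit 0) (XT.nd (nat_lit 78) (nat_lit 0) (nat_lit 0) (XT.lf (nat_lit 0) (nat_lit 1538676724694) (nat_lit 76) (nat_lit 1552970649181) (nat_lit 76) (nat_lit 1524622212694) (nat_lit 1) (nat_lit 4) (nat_lit 2) (nat_lit 5) (nat_lit 2) (nat_lit 4) (nat_lit 258) (nat_lit 208) (nat_lit 134)) (XT.lf (nat_lit 0) (nat_lit 1800534493617) (nat_lit 76) (nat_lit 1767000256942) (nat_lit 76) (nat_lit 1738651701250)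 (nat_lit 1) (nat_lit 4) (nat_lit 2) (nat_lit 5) (nat_lit 2) (nat_lit 4) (nat_lit 259) (nat_lit 208) (nat_lit 133))) (XT.nd (nat_lit 78) (nat_lit 0) (nat_lit 0) (XT.lf (nat_lit 0) (nat_lit 2101670683751) (nat_lit 76) (nat_lit 2013134421136) (nat_lit 76) (nat_lit 1984785761786) (nat_lit 1) (nat_lit 4) (nat_lit 2) (nat_lit 5) (nat_lit 2) (nat_lit 4) (nat_lit 260) (nat_lit 208) (nat_lit 132)) (XT.lf (nat_lit 0) (nat_lit 2447977090120) (nat_lit 76) (nat_lit 2296188810191) (nat_lit 76) (nat_lit 2267840060705) (nat_lit 1) (nat_lit 4) (nat_lit 2) (nat_lit 5) (nat_lit 2) (nat_lit 4) (nat_lit 261) (nat_lit 208) (nat_lit 131)))))) (XT.nd (nat_lit 624) (nat_lit 0) (nat_lit 0) (XT.nd (nat_lit 312) (nat_lit 0) (nat_lit 0) (XT.nd (nat_lit 156) (nat_lit 0) (nat_lit 0) (XT.nd (nat_lit 78) (nat_lit 0) (nat_lit 0) (XT.lf (nat_lit 0) (nat_lit 2846229272849) (nat_lit 76) (nat_lit 2621701444764) (nat_lit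 76) (nat_lit 2593352616898) (nat_lit 1) (nat_lit 4) (nat_lit 2) (nat_lit 5) (nat_lit 2) (nat_lit 4) (nat_lit 262) (nat_lit 208) (nat_lit 130)) (XT.lf (nat_lit 0) (nat_lit 3304219122470) (nat_lit 76) (nat_lit 2996041050313) (nat_lit 76) (nat_lit 2967692154291) (nat_lit 1) (nat_lit 4) (nat_lit 2) (nat_lit 5) (nat_lit 2) (nat_lit 4) (nat_lit 263) (nat_lit 208) (nat_lit 129))) (XT.nd (nat_lit 78) (nat_lit 0) (nat_lit 0) (XT.lf (nat_lit 0) (nat_lit 3830907309953) (nat_lit 76) (nat_lit 3426531662599) (nat_lit 76) (nat_lit 3398182707310) (nat_lit 1) (nat_lit 4) (nat_lit 2) (nat_lit 5) (nat_lit 2) (nat_lit 4) (nat_lit 264) (nat_lit 208) (nat_lit 128)) (XT.lf (nat_lit 0) (nat_lit 4436598604184) (nat_lit 76) (nat_lit 3921595924036) (nat_lit 76) (nat_lit 3893246917212) (nat_lit 1) (nat_lit 4) (nat_lit 2) (nat_lit 5) (nat_lit 2) (nat_lit 4) (nat_lit 265) (nat_lit 208) (nat_lit 127)))) (XT.nd (nat_lit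 156) (nat_lit 0) (nat_lit 0) (XT.nd (nat_lit 78) (nat_lit 0) (nat_lit 0) (XT.lf (nat_lit 0) (nat_lit 5133143487007) (nat_lit 76) (nat_lit 4490919874522) (nat_lit 76) (nat_lit 4462570822884) (nat_lit 1) (nat_lit 4) (nat_lit 2) (nat_lit 5) (nat_lit 2) (nat_lit 4) (nat_lit 266) (nat_lit 208) (nat_lit 126)) (XT.lf (nat_lit 0) (nat_lit 5934170010476) (nat_lit 76) (nat_lit 5145642460915) (nat_lit 76) (nat_lit 5117293370309) (nat_lit 1) (nat_lit 4) (nat_lit 2) (nat_lit 5) (nat_lit 2) (nat_lit 4) (nat_lit 267) (nat_lit 208) (nat_lit 125))) (XT.nd (nat_lit 78) (nat_lit 0) (nat_lit 0) (XT.lf (nat_lit 0) (nat_lit 6855350432660) (nat_lit 76) (nat_lit 5898573472948) (nat_lit 76) (nat_lit 5870224348456) (nat_lit 1) (nat_lit 4) (nat_lit 2) (nat_lit 5) (nat_lit 2) (nat_lit 4) (nat_lit 268) (nat_lit 208) (nat_lit 124)) (XT.lf (nat_lit 0) (nat_lit 7914707848775) (nat_lit 76) (nat_lit 6764444169552)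 (nat_lit 76) (nat_lit 6736095015594) (nat_lit 1) (nat_lit 4) (nat_lit 2) (nat_lit 5) (nat_lit 2) (nat_lit 4) (nat_lit 269) (nat_lit 208) (nat_lit 123))))) (XT.nd (nat_lit 312) (nat_lit 0) (nat_lit 0) (XT.nd (nat_lit 156) (nat_lit 0) (nat_lit 0) (XT.nd (nat_lit 78) (nat_lit 0) (nat_lit 0) (XT.lf (nat_lit 0) (nat_lit 9132968816964) (nat_lit 76) (nat_lit 7760195499139) (nat_lit 76) (nat_lit 7731846319559) (nat_lit 1) (nat_lit 4) (nat_lit 2) (nat_lit 5) (nat_lit 2) (nat_lit 4) (nat_lit 270) (nat_lit 208) (nat_lit 122)) (XT.lf (nat_lit 0) (nat_lit 10533968877906) (nat_lit 76) (nat_lit 8905309552940) (nat_lit 76) (nat_lit 8876960351080) (nat_lit 1) (nat_lit 4) (nat_lit 2) (nat_lit 5) (nat_lit 2) (nat_lit 4) (nat_lit 271) (nat_lit 208) (nat_lit 121))) (XT.nd (nat_lit 78) (nat_lit 0) (nat_lit 0) (XT.lf (nat_lit 0) (nat_lit 12145118902361) (nat_lit 76) (nat_lit 10222190736356) (nat_lit 76)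 (nat_lit 10193841515121) (nat_lit 1) (nat_lit 4) (nat_lit 2) (nat_lit 5) (nat_lit 2) (nat_lit 4) (nat_lit 272) (nat_lit 208) (nat_lit 120)) (XT.lf (nat_lit 0) (nat_lit 13997941390807) (nat_lit 76) (nat_lit 11736604116018) (nat_lit 76) (nat_lit 11708254877936) (nat_lit 1) (nat_lit 4) (nat_lit 2) (nat_lit 5) (nat_lit 2) (nat_lit 4) (nat_lit 273) (nat_lit 208) (nat_lit 119)))) (XT.nd (nat_lit 156) (nat_lit 0) (nat_lit 0) (XT.nd (nat_lit 78) (nat_lit 0) (nat_lit 0) (XT.lf (nat_lit 0) (nat_lit 16128687218017) (nat_lit 76) (nat_lit 13478179518921) (nat_lit 76) (nat_lit 13449830266189) (nat_lit 1) (nat_lit 4) (nat_lit 2) (nat_lit 5) (nat_lit 2) (nat_lit 4) (nat_lit 274) (nat_lit 208) (nat_lit 118)) (XT.lf (nat_lit 0) (nat_lit 18579044889307) (nat_lit 76) (nat_lit 15480991246424) (nat_lit 76) (nat_lit 15452641980954) (nat_lit 1) (nat_lit 4) (nat_lit 2) (nat_lit 5) (nat_lit 2) (nat_lit 4) (nat_lit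 275) (nat_lit 208) (nat_lit 117))) (XT.nd (nat_lit 26052) (nat_lit 0) (nat_lit 1140) (XT.lf (nat_lit 0) (nat_lit 21396956185201) (nat_lit 76) (nat_lit 17784224745371) (nat_lit 76) (nat_lit 17755875468823) (nat_lit 1) (nat_lit 4) (nat_lit 2) (nat_lit 5) (nat_lit 2) (nat_lit 4) (nat_lit 276) (nat_lit 208) (nat_lit 116)) (XT.lf (nat_lit 0) (nat_lit 2914641999) (nat_lit 0) (nat_lit 2914641999) (nat_lit 228) (nat_lit 1496492131) (nat_lit 16) (nat_lit 5) (nat_lit 16) (nat_lit 3) (nat_lit 19) (nat_lit 3) (nat_lit 209) (nat_lit 209) (nat_lit 182))))))) (XT.nd (nat_lit 1170) (nat_lit 304) (nat_lit 0) (XT.nd (nat_lit 546) (nat_lit 380) (nat_lit 0) (XT.nd (nat_lit 234) (nat_lit 380) (nat_lit 0) (XT.nd (nat_lit 78) (nat_lit 0) (nat_lit 0) (XT.lf (nat_lit 0) (nat_lit 12794111034) (nat_lit 228) (nat_lit 2814002252) (nat_lit 304) (nat_lit 99574705) (nat_lit 16) (nat_lit 5) (nat_lit 19) (nat_lit 3)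 (nat_lit 20) (nat_lit 5) (nat_lit 210) (nat_lit 209) (nat_lit 181)) (XT.nd (nat_lit 78) (nat_lit 0) (nat_lit 0) (XT.lf (nat_lit 76) (nat_lit 4156696608) (nat_lit 0) (nat_lit 10348246893) (nat_lit 304) (nat_lit 2357190420) (nat_lit 17) (nat_lit 5) (nat_lit 16) (nat_lit 5) (nat_lit 20) (nat_lit 5) (nat_lit 211) (nat_lit 209) (nat_lit 180)) (XT.lf (nat_lit 76) (nat_lit 12459397623) (nat_lit 0) (nat_lit 4119952063) (nat_lit 304) (nat_lit 1594905633) (nat_lit 17) (nat_lit 5) (nat_lit 16) (nat_lit 5) (nat_lit 20) (nat_lit 5) (nat_lit 212) (nat_lit 209) (nat_lit 179)))) (XT.nd (nat_lit 156) (nat_lit 152) (nat_lit 0) (XT.nd (nat_lit 78) (nat_lit 76) (nat_lit 0) (XT.lf (nat_lit 0) (nat_lit 2377976049) (nat_lit 228) (nat_lit 16776854967) (nat_lit 304) (nat_lit 500355821) (nat_lit 14) (nat_lit 5) (nat_lit 17) (nat_lit 5) (nat_lit 18) (nat_lit 5) (nat_lit 213) (nat_lit 209) (nat_lit 178)) (XT.lf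 (nat_lit 0) (nat_lit 1166833876) (nat_lit 304) (nat_lit 9262454533) (nat_lit 76) (nat_lit 10853225489) (nat_lit 13) (nat_lit 5) (nat_lit 17) (nat_lit 5) (nat_lit 14) (nat_lit 5) (nat_lit 214) (nat_lit 209) (nat_lit 177))) (XT.nd (nat_lit 78) (nat_lit 152) (nat_lit 0) (XT.lf (nat_lit 0) (nat_lit 3004030466) (nat_lit 304) (nat_lit 99047670) (nat_lit 76) (nat_lit 20051929590) (nat_lit 13) (nat_lit 5) (nat_lit 17) (nat_lit 5) (nat_lit 14) (nat_lit 5) (nat_lit 215) (nat_lit 209) (nat_lit 176)) (XT.lf (nat_lit 0) (nat_lit 5807925173) (nat_lit 228) (nat_lit 14053648422) (nat_lit 76) (nat_lit 5343408136) (nat_lit 11) (nat_lit 5) (nat_lit 14) (nat_lit 5) (nat_lit 12) (nat_lit 5) (nat_lit 216) (nat_lit 209) (nat_lit 175))))) (XT.nd (nat_lit 312) (nat_lit 152) (nat_lit 0) (XT.nd (nat_lit 156) (nat_lit 76) (nat_lit 0) (XT.nd (nat_lit 78) (nat_lit 152) (nat_lit 0) (XT.lf (nat_lit 0) (nat_lit 9162684414)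 (nat_lit 228) (nat_lit 3637553192) (nat_lit 76) (nat_lit 14742910351) (nat_lit 11) (nat_lit 5) (nat_lit 14) (nat_lit 5) (nat_lit 12) (nat_lit 5) (nat_lit 217) (nat_lit 209) (nat_lit 174)) (XT.lf (nat_lit 0) (nat_lit 9129111331) (nat_lit 152) (nat_lit 4249642080) (nat_lit 228) (nat_lit 16799778430) (nat_lit 9) (nat_lit 5) (nat_lit 11) (nat_lit 5) (nat_lit 12) (nat_lit 5) (nat_lit 218) (nat_lit 209) (nat_lit 173))) (XT.nd (nat_lit 78) (nat_lit 76) (nat_lit 0) (XT.lf (nat_lit 0) (nat_lit 18639126269) (nat_lit 228) (nat_lit 9227546224) (nat_lit 76) (nat_lit 5280946879) (nat_lit 9) (nat_lit 5) (nat_lit 12) (nat_lit 5) (nat_lit 10) (nat_lit 4) (nat_lit 219) (nat_lit 209) (nat_lit 172)) (XT.lf (nat_lit 0) (nat_lit 4547318673) (nat_lit 76) (nat_lit 20515800773) (nat_lit 152) (nat_lit 11442922528) (nat_lit 8) (nat_lit 5) (nat_lit 9) (nat_lit 5) (nat_lit 10) (nat_lit 4) (nat_lit 220) (nat_lit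 209) (nat_lit 171)))) (XT.nd (nat_lit 156) (nat_lit 152) (nat_lit 0) (XT.nd (nat_lit 78) (nat_lit 0) (nat_lit 0) (XT.lf (nat_lit 0) (nat_lit 21403737857) (nat_lit 76) (nat_lit 11514428099) (nat_lit 152) (nat_lit 7380080033) (nat_lit 8) (nat_lit 5) (nat_lit 9) (nat_lit 5) (nat_lit 10) (nat_lit 4) (nat_lit 221) (nat_lit 209) (nat_lit 170)) (XT.lf (nat_lit 0) (nat_lit 40769727905) (nat_lit 76) (nat_lit 1168789665) (nat_lit 152) (nat_lit 2722824228) (nat_lit 8) (nat_lit 5) (nat_lit 9) (nat_lit 5) (nat_lit 10) (nat_lit 4) (nat_lit 222) (nat_lit 209) (nat_lit 169))) (XT.nd (nat_lit 78) (nat_lit 0) (nat_lit 0) (XT.lf (nat_lit 0) (nat_lit 3466160664) (nat_lit 152) (nat_lit 35523606009) (nat_lit 76) (nat_lit 10512738128) (nat_lit 6) (nat_lit 5) (nat_lit 8) (nat_lit 5) (nat_lit 7) (nat_lit 4) (nat_lit 223) (nat_lit 209) (nat_lit 168)) (XT.lf (nat_lit 0) (nat_lit 10562214949) (nat_lit 152) (nat_lit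 20285345841) (nat_lit 76) (nat_lit 24164287529) (nat_lit 6) (nat_lit 5) (nat_lit 8) (nat_lit 5) (nat_lit 7) (nat_lit 4) (nat_lit 224) (nat_lit 209) (nat_lit 167)))))) (XT.nd (nat_lit 624) (nat_lit 76) (nat_lit 0) (XT.nd (nat_lit 312) (nat_lit 152) (nat_lit 0) (XT.nd (nat_lit 156) (nat_lit 0) (nat_lit 0) (XT.nd (nat_lit 78) (nat_lit 76) (nat_lit 0) (XT.lf (nat_lit 0) (nat_lit 18712867079) (nat_lit 152) (nat_lit 2777319019) (nat_lit 76) (nat_lit 39858946514) (nat_lit 6) (nat_lit 5) (nat_lit 8) (nat_lit 5) (nat_lit 7) (nat_lit 4) (nat_lit 225) (nat_lit 209) (nat_lit 166)) (XT.lf (nat_lit 0) (nat_lit 19037909127) (nat_lit 76) (nat_lit 9827996425) (nat_lit 152) (nat_lit 39654194590) (nat_lit 5) (nat_lit 5) (nat_lit 6) (nat_lit 5) (nat_lit 7) (nat_lit 4) (nat_lit 226) (nat_lit 209) (nat_lit 165))) (XT.nd (nat_lit 78) (nat_lit 0) (nat_lit 0) (XT.lf (nat_lit 0) (nat_lit 40834191021) (nat_lit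 152) (nat_lit 32476965908) (nat_lit 0) (nat_lit 3411763382) (nat_lit 5) (nat_lit 5) (nat_lit 7) (nat_lit 4) (nat_lit 5) (nat_lit 4) (nat_lit 227) (nat_lit 209) (nat_lit 164)) (XT.lf (nat_lit 0) (nat_lit 55058600840) (nat_lit 152) (nat_lit 13401378481) (nat_lit 0) (nat_lit 17627096471) (nat_lit 5) (nat_lit 5) (nat_lit 7) (nat_lit 4) (nat_lit 5) (nat_lit 4) (nat_lit 228) (nat_lit 209) (nat_lit 163)))) (XT.nd (nat_lit 156) (nat_lit 76) (nat_lit 0) (XT.nd (nat_lit 78) (nat_lit 0) (nat_lit 0) (XT.lf (nat_lit 0) (nat_lit 9357845796) (nat_lit 76) (nat_lit 62440124947) (nat_lit 76) (nat_lit 25000727770) (nat_lit 4) (nat_lit 4) (nat_lit 5) (nat_lit 5) (nat_lit 5) (nat_lit 4) (nat_lit 229) (nat_lit 209) (nat_lit 162)) (XT.lf (nat_lit 0) (nat_lit 37026775476) (nat_lit 76) (nat_lit 54716187866) (nat_lit 76) (nat_lit 17269927377) (nat_lit 4) (nat_lit 4) (nat_lit 5) (nat_lit 5) (nat_lit 5) (nat_lit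 4) (nat_lit 230) (nat_lit 209) (nat_lit 161))) (XT.nd (nat_lit 78) (nat_lit 76) (nat_lit 0) (XT.lf (nat_lit 0) (nat_lit 68837079015) (nat_lit 76) (nat_lit 45837574172) (nat_lit 76) (nat_lit 8385345587) (nat_lit 4) (nat_lit 4) (nat_lit 5) (nat_lit 5) (nat_lit 5) (nat_lit 4) (nat_lit 231) (nat_lit 209) (nat_lit 160)) (XT.lf (nat_lit 0) (nat_lit 1664207877) (nat_lit 152) (nat_lit 33879371297) (nat_lit 76) (nat_lit 103659931352) (nat_lit 3) (nat_lit 5) (nat_lit 5) (nat_lit 5) (nat_lit 4) (nat_lit 4) (nat_lit 232) (nat_lit 209) (nat_lit 159))))) (XT.nd (nat_lit 312) (nat_lit 0) (nat_lit 0) (XT.nd (nat_lit 156) (nat_lit 0) (nat_lit 0) (XT.nd (nat_lit 78) (nat_lit 76) (nat_lit 0) (XT.lf (nat_lit 0) (nat_lit 12358672870) (nat_lit 152) (nat_lit 10890784301) (nat_lit 76) (nat_lit 134459819065) (nat_lit 3) (nat_lit 5) (nat_lit 5) (nat_lit 5) (nat_lit 4) (nat_lit 4) (nat_lit 233) (nat_lit 209)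 (nat_lit 158)) (XT.lf (nat_lit 0) (nat_lit 17058503118) (nat_lit 76) (nat_lit 8301663492) (nat_lit 152) (nat_lit 153525328079) (nat_lit 2) (nat_lit 5) (nat_lit 3) (nat_lit 5) (nat_lit 4) (nat_lit 4) (nat_lit 234) (nat_lit 209) (nat_lit 157))) (XT.nd (nat_lit 78) (nat_lit 0) (nat_lit 0) (XT.lf (nat_lit 0) (nat_lit 41272930753) (nat_lit 152) (nat_lit 153130113632) (nat_lit 0) (nat_lit 8690959124) (nat_lit 2) (nat_lit 5) (nat_lit 4) (nat_lit 4) (nat_lit 2) (nat_lit 4) (nat_lit 235) (nat_lit 209) (nat_lit 156)) (XT.lf (nat_lit 0) (nat_lit 59964970940) (nat_lit 152) (nat_lit 143529557014) (nat_lit 0) (nat_lit 27380419138) (nat_lit 2) (nat_lit 5) (nat_lit 4) (nat_lit 4) (nat_lit 2) (nat_lit 4) (nat_lit 236) (nat_lit 209) (nat_lit 155)))) (XT.nd (nat_lit 156) (nat_lit 0) (nat_lit 0) (XT.nd (nat_lit 78) (nat_lit 0) (nat_lit 0) (XT.lf (nat_lit 0) (nat_lit 81458246821) (nat_lit 152) (nat_lit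 132493730557) (nat_lit 0) (nat_lit 48871451390) (nat_lit 2) (nat_lit 5) (nat_lit 4) (nat_lit 4) (nat_lit 2) (nat_lit 4) (nat_lit 237) (nat_lit 209) (nat_lit 154)) (XT.lf (nat_lit 0) (nat_lit 106173279009) (nat_lit 152) (nat_lit 119806715918) (nat_lit 0) (nat_lit 73584532597) (nat_lit 2) (nat_lit 5) (nat_lit 4) (nat_lit 4) (nat_lit 2) (nat_lit 4) (nat_lit 238) (nat_lit 209) (nat_lit 153))) (XT.nd (nat_lit 78) (nat_lit 0) (nat_lit 0) (XT.lf (nat_lit 0) (nat_lit 134593622483) (nat_lit 152) (nat_lit 105220288896) (nat_lit 0) (nat_lit 102003179565) (nat_lit 2) (nat_lit 5) (nat_lit 4) (nat_lit 4) (nat_lit 2) (nat_lit 4) (nat_lit 239) (nat_lit 209) (nat_lit 152)) (XT.lf (nat_lit 0) (nat_lit 167275327441) (nat_lit 152) (nat_lit 88449062877) (nat_lit 0) (nat_lit 134683409301) (nat_lit 2) (nat_lit 5) (nat_lit 4) (nat_lit 4) (nat_lit 2) (nat_lit 4) (nat_lit 240) (nat_lit 209) (nat_lit 151))))))))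
noncomputable def xc36 : XT := (XT.nd (nat_lit 2340) (nat_lit 0) (nat_lit 0) (XT.nd (nat_lit 1170) (nat_lit 0) (nat_lit 0) (XT.nd (nat_lit 546) (nat_lit 0) (nat_lit 0) (XT.nd (nat_lit 234) (nat_lit 76) (nat_lit 0) (XT.nd (nat_lit 78) (nat_lit 0) (nat_lit 0) (XT.lf (nat_lit 0) (nat_lit 204857818546) (nat_lit 152) (nat_lit 69164905178) (nat_lit 0) (nat_lit 172264617603) (nat_lit 2) (nat_lit 5) (nat_lit 4) (nat_lit 4) (nat_lit 2) (nat_lit 4) (nat_lit 241) (nat_lit 209) (nat_lit 150)) (XT.nd (nat_lit 78) (nat_lit 0) (nat_lit 0) (XT.lf (nat_lit 0) (nat_lit 248076405405) (nat_lit 152) (nat_lit 46990517060) (nat_lit 0) (nat_lit 215482088983) (nat_lit 2) (nat_lit 5) (nat_lit 4) (nat_lit 4) (nat_lit 2) (nat_lit 4) (nat_lit 242) (nat_lit 209) (nat_lit 149)) (XT.lf (nat_lit 0) (nat_lit 297776669066) (nat_lit 152) (nat_lit 21492051800) (nat_lit 0) (nat_lit 265181382661) (nat_lit 2) (nat_lit 5)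 (nat_lit 4) (nat_lit 4) (nat_lit 2) (nat_lit 4) (nat_lit 243) (nat_lit 209) (nat_lit 148)))) (XT.nd (nat_lit 156) (nat_lit 0) (nat_lit 0) (XT.nd (nat_lit 78) (nat_lit 0) (nat_lit 0) (XT.lf (nat_lit 0) (nat_lit 8594516947) (nat_lit 76) (nat_lit 346692369663) (nat_lit 76) (nat_lit 314096239795) (nat_lit 1) (nat_lit 4) (nat_lit 2) (nat_lit 5) (nat_lit 2) (nat_lit 4) (nat_lit 244) (nat_lit 209) (nat_lit 147)) (XT.lf (nat_lit 0) (nat_lit 45607757182) (nat_lit 76) (nat_lit 376938415993) (nat_lit 76) (nat_lit 344341552679) (nat_lit 1) (nat_lit 4) (nat_lit 2) (nat_lit 5) (nat_lit 2) (nat_lit 4) (nat_lit 245) (nat_lit 209) (nat_lit 146))) (XT.nd (nat_lit 78) (nat_lit 0) (nat_lit 0) (XT.lf (nat_lit 0) (nat_lit 88171481388) (nat_lit 76) (nat_lit 411722078491) (nat_lit 76) (nat_lit 379124577397) (nat_lit 1) (nat_lit 4) (nat_lit 2) (nat_lit 5) (nat_lit 2) (nat_lit 4) (nat_lit 246) (nat_lit 209)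 (nat_lit 145)) (XT.lf (nat_lit 0) (nat_lit 137118458080) (nat_lit 76) (nat_lit 451723907075) (nat_lit 76) (nat_lit 419125851390) (nat_lit 1) (nat_lit 4) (nat_lit 2) (nat_lit 5) (nat_lit 2) (nat_lit 4) (nat_lit 247) (nat_lit 209) (nat_lit 144))))) (XT.nd (nat_lit 312) (nat_lit 0) (nat_lit 0) (XT.nd (nat_lit 156) (nat_lit 0) (nat_lit 0) (XT.nd (nat_lit 78) (nat_lit 0) (nat_lit 0) (XT.lf (nat_lit 0) (nat_lit 193406345500) (nat_lit 76) (nat_lit 497726546217) (nat_lit 76) (nat_lit 465128008280) (nat_lit 1) (nat_lit 4) (nat_lit 2) (nat_lit 5) (nat_lit 2) (nat_lit 4) (nat_lit 248) (nat_lit 209) (nat_lit 143)) (XT.lf (nat_lit 0) (nat_lit 258136428400) (nat_lit 76) (nat_lit 550630047553) (nat_lit 76) (nat_lit 518031090265) (nat_lit 1) (nat_lit 4) (nat_lit 2) (nat_lit 5) (nat_lit 2) (nat_lit 4) (nat_lit 249) (nat_lit 209) (nat_lit 142))) (XT.nd (nat_lit 78) (nat_lit 0) (nat_lit 0) (XT.lf (nat_lit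 0) (nat_lit 332575164924) (nat_lit 76) (nat_lit 611469479587) (nat_lit 76) (nat_lit 578870157647) (nat_lit 1) (nat_lit 4) (nat_lit 2) (nat_lit 5) (nat_lit 2) (nat_lit 4) (nat_lit 250) (nat_lit 209) (nat_lit 141)) (XT.lf (nat_lit 0) (nat_lit 418178965136) (nat_lit 76) (nat_lit 681435179032) (nat_lit 76) (nat_lit 648835540004) (nat_lit 1) (nat_lit 4) (nat_lit 2) (nat_lit 5) (nat_lit 2) (nat_lit 4) (nat_lit 251) (nat_lit 209) (nat_lit 140)))) (XT.nd (nat_lit 156) (nat_lit 0) (nat_lit 0) (XT.nd (nat_lit 78) (nat_lit 0) (nat_lit 0) (XT.lf (nat_lit 0) (nat_lit 516622685994) (nat_lit 76) (nat_lit 761896040010) (nat_lit 76) (nat_lit 729296125251) (nat_lit 1) (nat_lit 4) (nat_lit 2) (nat_lit 5) (nat_lit 2) (nat_lit 4) (nat_lit 252) (nat_lit 209) (nat_lit 139)) (XT.lf (nat_lit 0) (nat_lit 629832400300) (nat_lit 76) (nat_lit 854426296755) (nat_lit 76) (nat_lit 821826142231) (nat_lit 1) (nat_lit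 4) (nat_lit 2) (nat_lit 5) (nat_lit 2) (nat_lit 4) (nat_lit 253) (nat_lit 209) (nat_lit 138))) (XT.nd (nat_lit 78) (nat_lit 0) (nat_lit 0) (XT.lf (nat_lit 0) (nat_lit 760023080724) (nat_lit 76) (nat_lit 960836323856) (nat_lit 76) (nat_lit 928235960842) (nat_lit 1) (nat_lit 4) (nat_lit 2) (nat_lit 5) (nat_lit 2) (nat_lit 4) (nat_lit 254) (nat_lit 209) (nat_lit 137)) (XT.lf (nat_lit 0) (nat_lit 909741936231) (nat_lit 76) (nat_lit 1083208056627) (nat_lit 76) (nat_lit 1050607512316) (nat_lit 1) (nat_lit 4) (nat_lit 2) (nat_lit 5) (nat_lit 2) (nat_lit 4) (nat_lit 255) (nat_lit 209) (nat_lit 136)))))) (XT.nd (nat_lit 546) (nat_lit 0) (nat_lit 0) (XT.nd (nat_lit 234) (nat_lit 0) (nat_lit 0) (XT.nd (nat_lit 78) (nat_lit 0) (nat_lit 0) (XT.lf (nat_lit 0) (nat_lit 1081918248776) (nat_lit 76) (nat_lit 1223935724621) (nat_lit 76) (nat_lit 1191335022661) (nat_lit 1) (nat_lit 4) (nat_lit 2) (nat_lit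 5) (nat_lit 2) (nat_lit 4) (nat_lit 256) (nat_lit 209) (nat_lit 135)) (XT.nd (nat_lit 78) (nat_lit 0) (nat_lit 0) (XT.lf (nat_lit 0) (nat_lit 1279920685345) (nat_lit 76) (nat_lit 1385772695257) (nat_lit 76) (nat_lit 1353171856210) (nat_lit 1) (nat_lit 4) (nat_lit 2) (nat_lit 5) (nat_lit 2) (nat_lit 4) (nat_lit 257) (nat_lit 209) (nat_lit 134)) (XT.lf (nat_lit 0) (nat_lit 1507623206652) (nat_lit 76) (nat_lit 1571885344045) (nat_lit 76) (nat_lit 1539284385793) (nat_lit 1) (nat_lit 4) (nat_lit 2) (nat_lit 5) (nat_lit 2) (nat_lit 4) (nat_lit 258) (nat_lit 209) (nat_lit 133)))) (XT.nd (nat_lit 156) (nat_lit 0) (nat_lit 0) (XT.nd (nat_lit 78) (nat_lit 0) (nat_lit 0) (XT.lf (nat_lit 0) (nat_lit 1769480862027) (nat_lit 76) (nat_lit 1785915005419) (nat_lit 76) (nat_lit 1753313943510) (nat_lit 1) (nat_lit 4) (nat_lit 2) (nat_lit 5) (nat_lit 2) (nat_lit 4) (nat_lit 259) (nat_lit 209) (nat_lit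 132)) (XT.lf (nat_lit 0) (nat_lit 2070616953424) (nat_lit 76) (nat_lit 2032049216233) (nat_lit 76) (nat_lit 1999448064187) (nat_lit 1) (nat_lit 4) (nat_lit 2) (nat_lit 5) (nat_lit 2) (nat_lit 4) (nat_lit 260) (nat_lit 209) (nat_lit 131))) (XT.nd (nat_lit 78) (nat_lit 0) (nat_lit 0) (XT.lf (nat_lit 0) (nat_lit 2416923273935) (nat_lit 76) (nat_lit 2315103645827) (nat_lit 76) (nat_lit 2282502415402) (nat_lit 1) (nat_lit 4) (nat_lit 2) (nat_lit 5) (nat_lit 2) (nat_lit 4) (nat_lit 261) (nat_lit 209) (nat_lit 130)) (XT.lf (nat_lit 0) (nat_lit 2815175382005) (nat_lit 76) (nat_lit 2640616315651) (nat_lit 76) (nat_lit 2608015017069) (nat_lit 1) (nat_lit 4) (nat_lit 2) (nat_lit 5) (nat_lit 2) (nat_lit 4) (nat_lit 262) (nat_lit 209) (nat_lit 129))))) (XT.nd (nat_lit 312) (nat_lit 0) (nat_lit 0) (XT.nd (nat_lit 156) (nat_lit 0) (nat_lit 0) (XT.nd (nat_lit 78) (nat_lit 0) (nat_lit 0) (XT.lf (nat_lit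 0) (nat_lit 3273165166704) (nat_lit 76) (nat_lit 3014955951853) (nat_lit 76) (nat_lit 2982354594005) (nat_lit 1) (nat_lit 4) (nat_lit 2) (nat_lit 5) (nat_lit 2) (nat_lit 4) (nat_lit 263) (nat_lit 209) (nat_lit 128)) (XT.lf (nat_lit 0) (nat_lit 3799853297734) (nat_lit 76) (nat_lit 3445446590794) (nat_lit 76) (nat_lit 3412845181411) (nat_lit 1) (nat_lit 4) (nat_lit 2) (nat_lit 5) (nat_lit 2) (nat_lit 4) (nat_lit 264) (nat_lit 209) (nat_lit 127))) (XT.nd (nat_lit 78) (nat_lit 0) (nat_lit 0) (XT.lf (nat_lit 0) (nat_lit 4405544542875) (nat_lit 76) (nat_lit 3940510875410) (nat_lit 76) (nat_lit 3907909421212) (nat_lit 1) (nat_lit 4) (nat_lit 2) (nat_lit 5) (nat_lit 2) (nat_lit 4) (nat_lit 265) (nat_lit 209) (nat_lit 126)) (XT.lf (nat_lit 0) (nat_lit 5102089383011) (nat_lit 76) (nat_lit 4509834846051) (nat_lit 76) (nat_lit 4477233352885) (nat_lit 1) (nat_lit 4) (nat_lit 2) (nat_lit 5) (nat_lit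 2) (nat_lit 4) (nat_lit 266) (nat_lit 209) (nat_lit 125)))) (XT.nd (nat_lit 156) (nat_lit 0) (nat_lit 0) (XT.nd (nat_lit 78) (nat_lit 0) (nat_lit 0) (XT.lf (nat_lit 0) (nat_lit 5903115869361) (nat_lit 76) (nat_lit 5164557449970) (nat_lit 76) (nat_lit 5131955922919) (nat_lit 1) (nat_lit 4) (nat_lit 2) (nat_lit 5) (nat_lit 2) (nat_lit 4) (nat_lit 267) (nat_lit 209) (nat_lit 124)) (XT.lf (nat_lit 0) (nat_lit 6824296259268) (nat_lit 76) (nat_lit 5917488477243) (nat_lit 76) (nat_lit 5884886920726) (nat_lit 1) (nat_lit 4) (nat_lit 2) (nat_lit 5) (nat_lit 2) (nat_lit 4) (nat_lit 268) (nat_lit 209) (nat_lit 123))) (XT.nd (nat_lit 78) (nat_lit 0) (nat_lit 0) (XT.lf (nat_lit 0) (nat_lit 7883653647316) (nat_lit 76) (nat_lit 6783359187099) (nat_lit 76) (nat_lit 6750757604960) (nat_lit 1) (nat_lit 4) (nat_lit 2) (nat_lit 5) (nat_lit 2) (nat_lit 4) (nat_lit 269) (nat_lit 209) (nat_lit 122)) (XT.lf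 (nat_lit 0) (nat_lit 9101914591098) (nat_lit 76) (nat_lit 7779110528210) (nat_lit 76) (nat_lit 7746508923790) (nat_lit 1) (nat_lit 4) (nat_lit 2) (nat_lit 5) (nat_lit 2) (nat_lit 4) (nat_lit 270) (nat_lit 209) (nat_lit 121))))))) (XT.nd (nat_lit 27066) (nat_lit 0) (nat_lit 228) (XT.nd (nat_lit 858) (nat_lit 0) (nat_lit 0) (XT.nd (nat_lit 234) (nat_lit 0) (nat_lit 0) (XT.nd (nat_lit 78) (nat_lit 0) (nat_lit 0) (XT.lf (nat_lit 0) (nat_lit 10502914630818) (nat_lit 76) (nat_lit 8924224592032) (nat_lit 76) (nat_lit 8891622968238) (nat_lit 1) (nat_lit 4) (nat_lit 2) (nat_lit 5) (nat_lit 2) (nat_lit 4) (nat_lit 271) (nat_lit 209) (nat_lit 120)) (XT.nd (nat_lit 78) (nat_lit 0) (nat_lit 0) (XT.lf (nat_lit 0) (nat_lit 12114064636818) (nat_lit 76) (nat_lit 10241105784161) (nat_lit 76) (nat_lit 10208504143520) (nat_lit 1) (nat_lit 4) (nat_lit 2) (nat_lit 5) (nat_lit 2) (nat_lit 4) (nat_lit 272)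 (nat_lit 209) (nat_lit 119)) (XT.lf (nat_lit 0) (nat_lit 13966887109216) (nat_lit 76) (nat_lit 11755519171401) (nat_lit 76) (nat_lit 11722917516110) (nat_lit 1) (nat_lit 4) (nat_lit 2) (nat_lit 5) (nat_lit 2) (nat_lit 4) (nat_lit 273) (nat_lit 209) (nat_lit 118)))) (XT.nd (nat_lit 468) (nat_lit 0) (nat_lit 0) (XT.nd (nat_lit 78) (nat_lit 0) (nat_lit 0) (XT.lf (nat_lit 0) (nat_lit 16097632922472) (nat_lit 76) (nat_lit 13497094580892) (nat_lit 76) (nat_lit 13464492912862) (nat_lit 1) (nat_lit 4) (nat_lit 2) (nat_lit 5) (nat_lit 2) (nat_lit 4) (nat_lit 274) (nat_lit 209) (nat_lit 117)) (XT.lf (nat_lit 0) (nat_lit 18547990581627) (nat_lit 76) (nat_lit 15499906314125) (nat_lit 76) (nat_lit 15467304635017) (nat_lit 1) (nat_lit 4) (nat_lit 2) (nat_lit 5) (nat_lit 2) (nat_lit 4) (nat_lit 275) (nat_lit 209) (nat_lit 116))) (XT.nd (nat_lit 78) (nat_lit 0) (nat_lit 0) (XT.lf (nat_lit 0) (nat_lit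 37547422592978) (nat_lit 76) (nat_lit 31029184801289) (nat_lit 76) (nat_lit 30996583085049) (nat_lit 1) (nat_lit 4) (nat_lit 2) (nat_lit 5) (nat_lit 2) (nat_lit 4) (nat_lit 280) (nat_lit 209) (nat_lit 111)) (XT.lf (nat_lit 0) (nat_lit 43215248603978) (nat_lit 76) (nat_lit 35661810114199) (nat_lit 76) (nat_lit 35629208393169) (nat_lit 1) (nat_lit 4) (nat_lit 2) (nat_lit 5) (nat_lit 2) (nat_lit 4) (nat_lit 281) (nat_lit 209) (nat_lit 110))))) (XT.nd (nat_lit 25896) (nat_lit 0) (nat_lit 760) (XT.nd (nat_lit 25740) (nat_lit 0) (nat_lit 1140) (XT.nd (nat_lit 25662) (nat_lit 0) (nat_lit 1140) (XT.lf (nat_lit 0) (nat_lit 49733248506819) (nat_lit 76) (nat_lit 40989329228676) (nat_lit 76) (nat_lit 40956727503482) (nat_lit 1) (nat_lit 4) (nat_lit 2) (nat_lit 5) (nat_lit 2) (nat_lit 4) (nat_lit 282) (nat_lit 209) (nat_lit 109)) (XT.lf (nat_lit 0) (nat_lit 3474837323) (nat_lit 0) (nat_lit 3474837323)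 (nat_lit 228) (nat_lit 1434657407) (nat_lit 16) (nat_lit 5) (nat_lit 16) (nat_lit 3) (nat_lit 19) (nat_lit 3) (nat_lit 210) (nat_lit 210) (nat_lit 180))) (XT.nd (nat_lit 78) (nat_lit 0) (nat_lit 0) (XT.lf (nat_lit 0) (nat_lit 15047635743) (nat_lit 0) (nat_lit 88209596) (nat_lit 228) (nat_lit 2858671396) (nat_lit 16) (nat_lit 5) (nat_lit 16) (nat_lit 3) (nat_lit 19) (nat_lit 3) (nat_lit 211) (nat_lit 210) (nat_lit 179)) (XT.lf (nat_lit 76) (nat_lit 5059762807) (nat_lit 0) (nat_lit 11996815734) (nat_lit 304) (nat_lit 2273333349) (nat_lit 17) (nat_lit 5) (nat_lit 16) (nat_lit 5) (nat_lit 20) (nat_lit 5) (nat_lit 212) (nat_lit 210) (nat_lit 178)))) (XT.nd (nat_lit 156) (nat_lit 228) (nat_lit 0) (XT.nd (nat_lit 78) (nat_lit 152) (nat_lit 0) (XT.lf (nat_lit 76) (nat_lit 14571404403) (nat_lit 0) (nat_lit 4821711661) (nat_lit 304) (nat_lit 1453762665) (nat_lit 17) (nat_lit 5) (nat_lit 16)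 (nat_lit 5) (nat_lit 20) (nat_lit 5) (nat_lit 213) (nat_lit 210) (nat_lit 177)) (XT.lf (nat_lit 0) (nat_lit 3021113055) (nat_lit 228) (nat_lit 19300016831) (nat_lit 304) (nat_lit 234473585) (nat_lit 14) (nat_lit 5) (nat_lit 17) (nat_lit 5) (nat_lit 18) (nat_lit 5) (nat_lit 214) (nat_lit 210) (nat_lit 176))) (XT.nd (nat_lit 78) (nat_lit 152) (nat_lit 0) (XT.lf (nat_lit 0) (nat_lit 1611931273) (nat_lit 304) (nat_lit 10373401344) (nat_lit 76) (nat_lit 12446098362) (nat_lit 13) (nat_lit 5) (nat_lit 17) (nat_lit 5) (nat_lit 14) (nat_lit 5) (nat_lit 215) (nat_lit 210) (nat_lit 175)) (XT.lf (nat_lit 0) (nat_lit 140729422) (nat_lit 152) (nat_lit 3554578410) (nat_lit 228) (nat_lit 22894285650) (nat_lit 11) (nat_lit 5) (nat_lit 13) (nat_lit 5) (nat_lit 14) (nat_lit 5) (nat_lit 216) (nat_lit 210) (nat_lit 174)))))) (XT.nd (nat_lit 624) (nat_lit 152) (nat_lit 0) (XT.nd (nat_lit 312) (nat_lit 228)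 (nat_lit 0) (XT.nd (nat_lit 156) (nat_lit 152) (nat_lit 0) (XT.nd (nat_lit 78) (nat_lit 0) (nat_lit 0) (XT.lf (nat_lit 0) (nat_lit 6893613905) (nat_lit 228) (nat_lit 15897014626) (nat_lit 76) (nat_lit 6160695480) (nat_lit 11) (nat_lit 5) (nat_lit 14) (nat_lit 5) (nat_lit 12) (nat_lit 5) (nat_lit 217) (nat_lit 210) (nat_lit 173)) (XT.lf (nat_lit 0) (nat_lit 10723608777) (nat_lit 228) (nat_lit 3953028728) (nat_lit 76) (nat_lit 16968065272) (nat_lit 11) (nat_lit 5) (nat_lit 14) (nat_lit 5) (nat_lit 12) (nat_lit 5) (nat_lit 218) (nat_lit 210) (nat_lit 172))) (XT.nd (nat_lit 78) (nat_lit 0) (nat_lit 0) (XT.lf (nat_lit 0) (nat_lit 10718173771) (nat_lit 152) (nat_lit 4838682567) (nat_lit 228) (nat_lit 19121075602) (nat_lit 9) (nat_lit 5) (nat_lit 11) (nat_lit 5) (nat_lit 12) (nat_lit 5) (nat_lit 219) (nat_lit 210) (nat_lit 171)) (XT.lf (nat_lit 0) (nat_lit 21585685903) (nat_lit 228) (nat_lit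 10398572909) (nat_lit 76) (nat_lit 6111433609) (nat_lit 9) (nat_lit 5) (nat_lit 12) (nat_lit 5) (nat_lit 10) (nat_lit 4) (nat_lit 220) (nat_lit 210) (nat_lit 170)))) (XT.nd (nat_lit 156) (nat_lit 152) (nat_lit 0) (XT.nd (nat_lit 78) (nat_lit 0) (nat_lit 0) (XT.lf (nat_lit 0) (nat_lit 5432835120) (nat_lit 76) (nat_lit 23529210761) (nat_lit 152) (nat_lit 12997708610) (nat_lit 8) (nat_lit 5) (nat_lit 9) (nat_lit 5) (nat_lit 10) (nat_lit 4) (nat_lit 221) (nat_lit 210) (nat_lit 169)) (XT.lf (nat_lit 0) (nat_lit 24791184315) (nat_lit 76) (nat_lit 13185974811) (nat_lit 152) (nat_lit 8346524823) (nat_lit 8) (nat_lit 5) (nat_lit 9) (nat_lit 5) (nat_lit 10) (nat_lit 4) (nat_lit 222) (nat_lit 210) (nat_lit 168))) (XT.nd (nat_lit 78) (nat_lit 152) (nat_lit 0) (XT.lf (nat_lit 0) (nat_lit 47039000812) (nat_lit 76) (nat_lit 1295745069) (nat_lit 152) (nat_lit 3009015501) (nat_lit 8) (nat_lit 5) (nat_lit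 9) (nat_lit 5) (nat_lit 10) (nat_lit 4) (nat_lit 223) (nat_lit 210) (nat_lit 167)) (XT.lf (nat_lit 0) (nat_lit 4091716583) (nat_lit 152) (nat_lit 40680165327) (nat_lit 76) (nat_lit 12139424852) (nat_lit 6) (nat_lit 5) (nat_lit 8) (nat_lit 5) (nat_lit 7) (nat_lit 4) (nat_lit 224) (nat_lit 210) (nat_lit 166))))) (XT.nd (nat_lit 312) (nat_lit 76) (nat_lit 0) (XT.nd (nat_lit 156) (nat_lit 76) (nat_lit 0) (XT.nd (nat_lit 78) (nat_lit 0) (nat_lit 0) (XT.lf (nat_lit 0) (nat_lit 12238400948) (nat_lit 152) (nat_lit 23178598514) (nat_lit 76) (nat_lit 27832214140) (nat_lit 6) (nat_lit 5) (nat_lit 8) (nat_lit 5) (nat_lit 7) (nat_lit 4) (nat_lit 225) (nat_lit 210) (nat_lit 165)) (XT.lf (nat_lit 0) (nat_lit 21599669972) (nat_lit 152) (nat_lit 3063874086) (nat_lit 76) (nat_lit 45875426302) (nat_lit 6) (nat_lit 5) (nat_lit 8) (nat_lit 5) (nat_lit 7) (nat_lit 4) (nat_lit 226) (nat_lit 210) (nat_lit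 164))) (XT.nd (nat_lit 78) (nat_lit 0) (nat_lit 0) (XT.lf (nat_lit 0) (nat_lit 22017727245) (nat_lit 76) (nat_lit 11252658806) (nat_lit 152) (nat_lit 45516060591) (nat_lit 5) (nat_lit 5) (nat_lit 6) (nat_lit 5) (nat_lit 7) (nat_lit 4) (nat_lit 227) (nat_lit 210) (nat_lit 163)) (XT.lf (nat_lit 0) (nat_lit 47025968276) (nat_lit 152) (nat_lit 37232207276) (nat_lit 0) (nat_lit 3962768714) (nat_lit 5) (nat_lit 5) (nat_lit 7) (nat_lit 4) (nat_lit 5) (nat_lit 4) (nat_lit 228) (nat_lit 210) (nat_lit 162)))) (XT.nd (nat_lit 156) (nat_lit 0) (nat_lit 0) (XT.nd (nat_lit 78) (nat_lit 76) (nat_lit 0) (XT.lf (nat_lit 0) (nat_lit 63375346272) (nat_lit 152) (nat_lit 15310451760) (nat_lit 0) (nat_lit 20305283398) (nat_lit 5) (nat_lit 5) (nat_lit 7) (nat_lit 4) (nat_lit 5) (nat_lit 4) (nat_lit 229) (nat_lit 210) (nat_lit 161)) (XT.lf (nat_lit 0) (nat_lit 10858059181) (nat_lit 76) (nat_lit 71764000462)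 (nat_lit 76) (nat_lit 28687969491) (nat_lit 4) (nat_lit 4) (nat_lit 5) (nat_lit 5) (nat_lit 5) (nat_lit 4) (nat_lit 230) (nat_lit 210) (nat_lit 160))) (XT.nd (nat_lit 78) (nat_lit 0) (nat_lit 0) (XT.lf (nat_lit 0) (nat_lit 42664736595) (nat_lit 76) (nat_lit 62886969761) (nat_lit 76) (nat_lit 19805749141) (nat_lit 4) (nat_lit 4) (nat_lit 5) (nat_lit 5) (nat_lit 5) (nat_lit 4) (nat_lit 231) (nat_lit 210) (nat_lit 159)) (XT.lf (nat_lit 0) (nat_lit 79235636342) (nat_lit 76) (nat_lit 52681343964) (nat_lit 76) (nat_lit 9595610605) (nat_lit 4) (nat_lit 4) (nat_lit 5) (nat_lit 5) (nat_lit 5) (nat_lit 4) (nat_lit 232) (nat_lit 210) (nat_lit 158))))))))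
noncomputable def xc37 : XT := (XT.nd (nat_lit 2418) (nat_lit 0) (nat_lit 0) (XT.nd (nat_lit 1170) (nat_lit 0) (nat_lit 0) (XT.nd (nat_lit 546) (nat_lit 76) (nat_lit 0) (XT.nd (nat_lit 234) (nat_lit 0) (nat_lit 0) (XT.nd (nat_lit 78) (nat_lit 76) (nat_lit 0) (XT.lf (nat_lit 0) (nat_lit 1951495375) (nat_lit 152) (nat_lit 38893942422) (nat_lit 76) (nat_lit 119232770668) (nat_lit 3) (nat_lit 5) (nat_lit 5) (nat_lit 5) (nat_lit 4) (nat_lit 4) (nat_lit 233) (nat_lit 210) (nat_lit 157)) (XT.nd (nat_lit 78) (nat_lit 76) (nat_lit 0) (XT.lf (nat_lit 0) (nat_lit 14245218423) (nat_lit 152) (nat_lit 12465850147) (nat_lit 76) (nat_lit 154649530718) (nat_lit 3) (nat_lit 5) (nat_lit 5) (nat_lit 5) (nat_lit 4) (nat_lit 4) (nat_lit 234) (nat_lit 210) (nat_lit 156)) (XT.lf (nat_lit 0) (nat_lit 19673168940) (nat_lit 76) (nat_lit 9521810546) (nat_lit 152) (nat_lit 176518584970) (nat_lit 2) (nat_lit 5)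 (nat_lit 3) (nat_lit 5) (nat_lit 4) (nat_lit 4) (nat_lit 235) (nat_lit 210) (nat_lit 155)))) (XT.nd (nat_lit 156) (nat_lit 0) (nat_lit 0) (XT.nd (nat_lit 78) (nat_lit 0) (nat_lit 0) (XT.lf (nat_lit 0) (nat_lit 47491546300) (nat_lit 152) (nat_lit 176047799938) (nat_lit 0) (nat_lit 10014487926) (nat_lit 2) (nat_lit 5) (nat_lit 4) (nat_lit 4) (nat_lit 2) (nat_lit 4) (nat_lit 236) (nat_lit 210) (nat_lit 154)) (XT.lf (nat_lit 0) (nat_lit 68983782611) (nat_lit 152) (nat_lit 165013920358) (nat_lit 0) (nat_lit 31504773256) (nat_lit 2) (nat_lit 5) (nat_lit 4) (nat_lit 4) (nat_lit 2) (nat_lit 4) (nat_lit 237) (nat_lit 210) (nat_lit 153))) (XT.nd (nat_lit 78) (nat_lit 0) (nat_lit 0) (XT.lf (nat_lit 0) (nat_lit 93697910827) (nat_lit 152) (nat_lit 152328598655) (nat_lit 0) (nat_lit 56217204965) (nat_lit 2) (nat_lit 5) (nat_lit 4) (nat_lit 4) (nat_lit 2) (nat_lit 4) (nat_lit 238) (nat_lit 210) (nat_lit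 152)) (XT.lf (nat_lit 0) (nat_lit 122117468237) (nat_lit 152) (nat_lit 137743643753) (nat_lit 0) (nat_lit 84635287153) (nat_lit 2) (nat_lit 5) (nat_lit 4) (nat_lit 4) (nat_lit 2) (nat_lit 4) (nat_lit 239) (nat_lit 210) (nat_lit 151))))) (XT.nd (nat_lit 312) (nat_lit 76) (nat_lit 0) (XT.nd (nat_lit 156) (nat_lit 0) (nat_lit 0) (XT.nd (nat_lit 78) (nat_lit 0) (nat_lit 0) (XT.lf (nat_lit 0) (nat_lit 154798489661) (nat_lit 152) (nat_lit 120973697837) (nat_lit 0) (nat_lit 117315025776) (nat_lit 2) (nat_lit 5) (nat_lit 4) (nat_lit 4) (nat_lit 2) (nat_lit 4) (nat_lit 240) (nat_lit 210) (nat_lit 150)) (XT.lf (nat_lit 0) (nat_lit 192380386388) (nat_lit 152) (nat_lit 101690653271) (nat_lit 0) (nat_lit 154895807023) (nat_lit 2) (nat_lit 5) (nat_lit 4) (nat_lit 4) (nat_lit 2) (nat_lit 4) (nat_lit 241) (nat_lit 210) (nat_lit 149))) (XT.nd (nat_lit 78) (nat_lit 0) (nat_lit 0) (XT.lf (nat_lit 0)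 (nat_lit 235598456398) (nat_lit 152) (nat_lit 79517233096) (nat_lit 0) (nat_lit 198112907050) (nat_lit 2) (nat_lit 5) (nat_lit 4) (nat_lit 4) (nat_lit 2) (nat_lit 4) (nat_lit 242) (nat_lit 210) (nat_lit 148)) (XT.lf (nat_lit 0) (nat_lit 285298270625) (nat_lit 152) (nat_lit 54019609525) (nat_lit 0) (nat_lit 247811877813) (nat_lit 2) (nat_lit 5) (nat_lit 4) (nat_lit 4) (nat_lit 2) (nat_lit 4) (nat_lit 243) (nat_lit 210) (nat_lit 147)))) (XT.nd (nat_lit 156) (nat_lit 0) (nat_lit 0) (XT.nd (nat_lit 78) (nat_lit 76) (nat_lit 0) (XT.lf (nat_lit 0) (nat_lit 342452216738) (nat_lit 152) (nat_lit 24698916010) (nat_lit 0) (nat_lit 304965090481) (nat_lit 2) (nat_lit 5) (nat_lit 4) (nat_lit 4) (nat_lit 2) (nat_lit 4) (nat_lit 244) (nat_lit 210) (nat_lit 146)) (XT.lf (nat_lit 0) (nat_lit 9899867888) (nat_lit 76) (nat_lit 398688588648) (nat_lit 76) (nat_lit 361200824611) (nat_lit 1) (nat_lit 4) (nat_lit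 2) (nat_lit 5) (nat_lit 2) (nat_lit 4) (nat_lit 245) (nat_lit 210) (nat_lit 145))) (XT.nd (nat_lit 78) (nat_lit 0) (nat_lit 0) (XT.lf (nat_lit 0) (nat_lit 52462984585) (nat_lit 76) (nat_lit 433472537988) (nat_lit 76) (nat_lit 395984219361) (nat_lit 1) (nat_lit 4) (nat_lit 2) (nat_lit 5) (nat_lit 2) (nat_lit 4) (nat_lit 246) (nat_lit 210) (nat_lit 144)) (XT.lf (nat_lit 0) (nat_lit 101409433009) (nat_lit 76) (nat_lit 473474616000) (nat_lit 76) (nat_lit 435985815120) (nat_lit 1) (nat_lit 4) (nat_lit 2) (nat_lit 5) (nat_lit 2) (nat_lit 4) (nat_lit 247) (nat_lit 210) (nat_lit 143)))))) (XT.nd (nat_lit 624) (nat_lit 0) (nat_lit 0) (XT.nd (nat_lit 312) (nat_lit 0) (nat_lit 0) (XT.nd (nat_lit 156) (nat_lit 0) (nat_lit 0) (XT.nd (nat_lit 78) (nat_lit 0) (nat_lit 0) (XT.lf (nat_lit 0) (nat_lit 157696861065) (nat_lit 76) (nat_lit 519477472036) (nat_lit 76) (nat_lit 481988251806) (nat_lit 1) (nat_lit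 4) (nat_lit 2) (nat_lit 5) (nat_lit 2) (nat_lit 4) (nat_lit 248) (nat_lit 210) (nat_lit 142)) (XT.lf (nat_lit 0) (nat_lit 222426544518) (nat_lit 76) (nat_lit 572381161976) (nat_lit 76) (nat_lit 534891577093) (nat_lit 1) (nat_lit 4) (nat_lit 2) (nat_lit 5) (nat_lit 2) (nat_lit 4) (nat_lit 249) (nat_lit 210) (nat_lit 141))) (XT.nd (nat_lit 78) (nat_lit 0) (nat_lit 0) (XT.lf (nat_lit 0) (nat_lit 296864933697) (nat_lit 76) (nat_lit 633220758013) (nat_lit 76) (nat_lit 595730856041) (nat_lit 1) (nat_lit 4) (nat_lit 2) (nat_lit 5) (nat_lit 2) (nat_lit 4) (nat_lit 250) (nat_lit 210) (nat_lit 140)) (XT.lf (nat_lit 0) (nat_lit 382468431870) (nat_lit 76) (nat_lit 703186600070) (nat_lit 76) (nat_lit 665696422368) (nat_lit 1) (nat_lit 4) (nat_lit 2) (nat_lit 5) (nat_lit 2) (nat_lit 4) (nat_lit 251) (nat_lit 210) (nat_lit 139)))) (XT.nd (nat_lit 156) (nat_lit 0) (nat_lit 0) (XT.nd (nat_lit 78) (nat_lit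 0) (nat_lit 0) (XT.lf (nat_lit 0) (nat_lit 480911890086) (nat_lit 76) (nat_lit 783647585057) (nat_lit 76) (nat_lit 746157167591) (nat_lit 1) (nat_lit 4) (nat_lit 2) (nat_lit 5) (nat_lit 2) (nat_lit 4) (nat_lit 252) (nat_lit 210) (nat_lit 138)) (XT.lf (nat_lit 0) (nat_lit 594121376006) (nat_lit 76) (nat_lit 876177949637) (nat_lit 76) (nat_lit 838687323679) (nat_lit 1) (nat_lit 4) (nat_lit 2) (nat_lit 5) (nat_lit 2) (nat_lit 4) (nat_lit 253) (nat_lit 210) (nat_lit 137))) (XT.nd (nat_lit 78) (nat_lit 0) (nat_lit 0) (XT.lf (nat_lit 0) (nat_lit 724311857835) (nat_lit 76) (nat_lit 982588070508) (nat_lit 76) (nat_lit 945097263253) (nat_lit 1) (nat_lit 4) (nat_lit 2) (nat_lit 5) (nat_lit 2) (nat_lit 4) (nat_lit 254) (nat_lit 210) (nat_lit 136)) (XT.lf (nat_lit 0) (nat_lit 874030540650) (nat_lit 76) (nat_lit 1104959884817) (nat_lit 76) (nat_lit 1067468919914) (nat_lit 1) (nat_lit 4) (nat_lit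 2) (nat_lit 5) (nat_lit 2) (nat_lit 4) (nat_lit 255) (nat_lit 210) (nat_lit 135))))) (XT.nd (nat_lit 312) (nat_lit 0) (nat_lit 0) (XT.nd (nat_lit 156) (nat_lit 0) (nat_lit 0) (XT.nd (nat_lit 78) (nat_lit 0) (nat_lit 0) (XT.lf (nat_lit 0) (nat_lit 1046206703028) (nat_lit 76) (nat_lit 1245687623715) (nat_lit 76) (nat_lit 1208196521725) (nat_lit 1) (nat_lit 4) (nat_lit 2) (nat_lit 5) (nat_lit 2) (nat_lit 4) (nat_lit 256) (nat_lit 210) (nat_lit 134)) (XT.lf (nat_lit 0) (nat_lit 1244209009017) (nat_lit 76) (nat_lit 1407524656005) (nat_lit 76) (nat_lit 1370033434809) (nat_lit 1) (nat_lit 4) (nat_lit 2) (nat_lit 5) (nat_lit 2) (nat_lit 4) (nat_lit 257) (nat_lit 210) (nat_lit 133))) (XT.nd (nat_lit 78) (nat_lit 0) (nat_lit 0) (XT.lf (nat_lit 0) (nat_lit 1471911416776) (nat_lit 76) (nat_lit 1593637358406) (nat_lit 76) (nat_lit 1556146033553) (nat_lit 1) (nat_lit 4) (nat_lit 2) (nat_lit 5) (nat_lit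 2) (nat_lit 4) (nat_lit 258) (nat_lit 210) (nat_lit 132)) (XT.lf (nat_lit 0) (nat_lit 1733768973414) (nat_lit 76) (nat_lit 1807667066400) (nat_lit 76) (nat_lit 1770175651411) (nat_lit 1) (nat_lit 4) (nat_lit 2) (nat_lit 5) (nat_lit 2) (nat_lit 4) (nat_lit 259) (nat_lit 210) (nat_lit 131)))) (XT.nd (nat_lit 156) (nat_lit 0) (nat_lit 0) (XT.nd (nat_lit 78) (nat_lit 0) (nat_lit 0) (XT.lf (nat_lit 0) (nat_lit 2034904978953) (nat_lit 76) (nat_lit 2053801317753) (nat_lit 76) (nat_lit 2016309824384) (nat_lit 1) (nat_lit 4) (nat_lit 2) (nat_lit 5) (nat_lit 2) (nat_lit 4) (nat_lit 260) (nat_lit 210) (nat_lit 130)) (XT.lf (nat_lit 0) (nat_lit 2381211224804) (nat_lit 76) (nat_lit 2336855782598) (nat_lit 76) (nat_lit 2299364221074) (nat_lit 1) (nat_lit 4) (nat_lit 2) (nat_lit 5) (nat_lit 2) (nat_lit 4) (nat_lit 261) (nat_lit 210) (nat_lit 129))) (XT.nd (nat_lit 78) (nat_lit 0) (nat_lit 0) (XT.lf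 (nat_lit 0) (nat_lit 2779463267953) (nat_lit 76) (nat_lit 2662368483076) (nat_lit 76) (nat_lit 2624876862285) (nat_lit 1) (nat_lit 4) (nat_lit 2) (nat_lit 5) (nat_lit 2) (nat_lit 4) (nat_lit 262) (nat_lit 210) (nat_lit 128)) (XT.lf (nat_lit 0) (nat_lit 3237452996199) (nat_lit 76) (nat_lit 3036708145933) (nat_lit 76) (nat_lit 2999216473606) (nat_lit 1) (nat_lit 4) (nat_lit 2) (nat_lit 5) (nat_lit 2) (nat_lit 4) (nat_lit 263) (nat_lit 210) (nat_lit 127))))))) (XT.nd (nat_lit 27456) (nat_lit 0) (nat_lit 304) (XT.nd (nat_lit 1170) (nat_lit 0) (nat_lit 0) (XT.nd (nat_lit 234) (nat_lit 0) (nat_lit 0) (XT.nd (nat_lit 78) (nat_lit 0) (nat_lit 0) (XT.lf (nat_lit 0) (nat_lit 3764141078139) (nat_lit 76) (nat_lit 3467198808052) (nat_lit 76) (nat_lit 3429707090912) (nat_lit 1) (nat_lit 4) (nat_lit 2) (nat_lit 5) (nat_lit 2) (nat_lit 4) (nat_lit 264) (nat_lit 210) (nat_lit 126)) (XT.nd (nat_lit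 78) (nat_lit 0) (nat_lit 0) (XT.lf (nat_lit 0) (nat_lit 4369832280593) (nat_lit 76) (nat_lit 3962263112823) (nat_lit 76) (nat_lit 3924771356714) (nat_lit 1) (nat_lit 4) (nat_lit 2) (nat_lit 5) (nat_lit 2) (nat_lit 4) (nat_lit 265) (nat_lit 210) (nat_lit 125)) (XT.lf (nat_lit 0) (nat_lit 5066377083610) (nat_lit 76) (nat_lit 4531587100991) (nat_lit 76) (nat_lit 4494095310996) (nat_lit 1) (nat_lit 4) (nat_lit 2) (nat_lit 5) (nat_lit 2) (nat_lit 4) (nat_lit 266) (nat_lit 210) (nat_lit 124)))) (XT.nd (nat_lit 390) (nat_lit 0) (nat_lit 0) (XT.nd (nat_lit 78) (nat_lit 0) (nat_lit 0) (XT.lf (nat_lit 0) (nat_lit 5867403537683) (nat_lit 76) (nat_lit 5186309720150) (nat_lit 76) (nat_lit 5148817900689) (nat_lit 1) (nat_lit 4) (nat_lit 2) (nat_lit 5) (nat_lit 2) (nat_lit 4) (nat_lit 267) (nat_lit 210) (nat_lit 123)) (XT.lf (nat_lit 0) (nat_lit 6788583899523) (nat_lit 76) (nat_lit 5939240760675)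 (nat_lit 76) (nat_lit 5901748915592) (nat_lit 1) (nat_lit 4) (nat_lit 2) (nat_lit 5) (nat_lit 2) (nat_lit 4) (nat_lit 268) (nat_lit 210) (nat_lit 122))) (XT.nd (nat_lit 468) (nat_lit 0) (nat_lit 0) (XT.lf (nat_lit 0) (nat_lit 12078352196941) (nat_lit 76) (nat_lit 10262858105428) (nat_lit 76) (nat_lit 10225366187194) (nat_lit 1) (nat_lit 4) (nat_lit 2) (nat_lit 5) (nat_lit 2) (nat_lit 4) (nat_lit 272) (nat_lit 210) (nat_lit 118)) (XT.lf (nat_lit 0) (nat_lit 28297474959807) (nat_lit 76) (nat_lit 23519637034585) (nat_lit 76) (nat_lit 23482145060910) (nat_lit 1) (nat_lit 4) (nat_lit 2) (nat_lit 5) (nat_lit 2) (nat_lit 4) (nat_lit 278) (nat_lit 210) (nat_lit 112))))) (XT.nd (nat_lit 25974) (nat_lit 0) (nat_lit 1140) (XT.nd (nat_lit 156) (nat_lit 0) (nat_lit 0) (XT.nd (nat_lit 78) (nat_lit 0) (nat_lit 0) (XT.lf (nat_lit 0) (nat_lit 32583165719138) (nat_lit 76) (nat_lit 27022567321397) (nat_lit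 76) (nat_lit 26985075342214) (nat_lit 1) (nat_lit 4) (nat_lit 2) (nat_lit 5) (nat_lit 2) (nat_lit 4) (nat_lit 279) (nat_lit 210) (nat_lit 111)) (XT.lf (nat_lit 0) (nat_lit 37511710081091) (nat_lit 76) (nat_lit 31050937156556) (nat_lit 76) (nat_lit 31013445172584) (nat_lit 1) (nat_lit 4) (nat_lit 2) (nat_lit 5) (nat_lit 2) (nat_lit 4) (nat_lit 280) (nat_lit 210) (nat_lit 110))) (XT.nd (nat_lit 78) (nat_lit 0) (nat_lit 0) (XT.lf (nat_lit 0) (nat_lit 43179536087528) (nat_lit 76) (nat_lit 35683562471620) (nat_lit 76) (nat_lit 35646070483483) (nat_lit 1) (nat_lit 4) (nat_lit 2) (nat_lit 5) (nat_lit 2) (nat_lit 4) (nat_lit 281) (nat_lit 210) (nat_lit 109)) (XT.lf (nat_lit 0) (nat_lit 49697535986404) (nat_lit 76) (nat_lit 41011081587970) (nat_lit 76) (nat_lit 40973589596212) (nat_lit 1) (nat_lit 4) (nat_lit 2) (nat_lit 5) (nat_lit 2) (nat_lit 4) (nat_lit 282) (nat_lit 210) (nat_lit 108))))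 (XT.nd (nat_lit 156) (nat_lit 0) (nat_lit 0) (XT.nd (nat_lit 78) (nat_lit 0) (nat_lit 0) (XT.lf (nat_lit 0) (nat_lit 4089067854) (nat_lit 0) (nat_lit 4089067854) (nat_lit 228) (nat_lit 1433365625) (nat_lit 16) (nat_lit 5) (nat_lit 16) (nat_lit 3) (nat_lit 19) (nat_lit 3) (nat_lit 211) (nat_lit 211) (nat_lit 178)) (XT.lf (nat_lit 0) (nat_lit 17466528814) (nat_lit 0) (nat_lit 263188745) (nat_lit 228) (nat_lit 2910967075) (nat_lit 16) (nat_lit 5) (nat_lit 16) (nat_lit 3) (nat_lit 19) (nat_lit 3) (nat_lit 212) (nat_lit 211) (nat_lit 177))) (XT.nd (nat_lit 78) (nat_lit 0) (nat_lit 0) (XT.lf (nat_lit 76) (nat_lit 6030116042) (nat_lit 0) (nat_lit 13869178781) (nat_lit 304) (nat_lit 2283569167) (nat_lit 17) (nat_lit 5) (nat_lit 16) (nat_lit 5) (nat_lit 20) (nat_lit 5) (nat_lit 213) (nat_lit 211) (nat_lit 176)) (XT.lf (nat_lit 76) (nat_lit 16940931423) (nat_lit 0) (nat_lit 5608308138) (nat_lit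 304) (nat_lit 1384206035) (nat_lit 17) (nat_lit 5) (nat_lit 16) (nat_lit 5) (nat_lit 20) (nat_lit 5) (nat_lit 214) (nat_lit 211) (nat_lit 175)))))) (XT.nd (nat_lit 624) (nat_lit 228) (nat_lit 0) (XT.nd (nat_lit 312) (nat_lit 228) (nat_lit 0) (XT.nd (nat_lit 156) (nat_lit 152) (nat_lit 0) (XT.nd (nat_lit 78) (nat_lit 76) (nat_lit 0) (XT.lf (nat_lit 0) (nat_lit 3690870258) (nat_lit 228) (nat_lit 22200035324) (nat_lit 304) (nat_lit 11848321) (nat_lit 14) (nat_lit 5) (nat_lit 17) (nat_lit 5) (nat_lit 18) (nat_lit 5) (nat_lit 215) (nat_lit 211) (nat_lit 174)) (XT.lf (nat_lit 0) (nat_lit 2057934436) (nat_lit 304) (nat_lit 11718884991) (nat_lit 76) (nat_lit 14286464193) (nat_lit 13) (nat_lit 5) (nat_lit 17) (nat_lit 5) (nat_lit 14) (nat_lit 5) (nat_lit 216) (nat_lit 211) (nat_lit 173))) (XT.nd (nat_lit 78) (nat_lit 0) (nat_lit 0) (XT.lf (nat_lit 0) (nat_lit 362796002) (nat_lit 152) (nat_lit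 4072706146) (nat_lit 228) (nat_lit 26112706519) (nat_lit 11) (nat_lit 5) (nat_lit 13) (nat_lit 5) (nat_lit 14) (nat_lit 5) (nat_lit 217) (nat_lit 211) (nat_lit 172)) (XT.lf (nat_lit 0) (nat_lit 8089848775) (nat_lit 228) (nat_lit 18081429913) (nat_lit 76) (nat_lit 7096728817) (nat_lit 11) (nat_lit 5) (nat_lit 14) (nat_lit 5) (nat_lit 12) (nat_lit 5) (nat_lit 218) (nat_lit 211) (nat_lit 171)))) (XT.nd (nat_lit 156) (nat_lit 76) (nat_lit 0) (XT.nd (nat_lit 78) (nat_lit 152) (nat_lit 0) (XT.lf (nat_lit 0) (nat_lit 12473187298) (nat_lit 228) (nat_lit 4371950945) (nat_lit 76) (nat_lit 19523648119) (nat_lit 11) (nat_lit 5) (nat_lit 14) (nat_lit 5) (nat_lit 12) (nat_lit 5) (nat_lit 219) (nat_lit 211) (nat_lit 170)) (XT.lf (nat_lit 0) (nat_lit 12492021380) (nat_lit 152) (nat_lit 5527883195) (nat_lit 228) (nat_lit 21839014187) (nat_lit 9) (nat_lit 5) (nat_lit 11) (nat_lit 5) (nat_lit 12) (nat_lit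 5) (nat_lit 220) (nat_lit 211) (nat_lit 169))) (XT.nd (nat_lit 78) (nat_lit 76) (nat_lit 0) (XT.lf (nat_lit 0) (nat_lit 24937482603) (nat_lit 228) (nat_lit 11797220661) (nat_lit 76) (nat_lit 7057142752) (nat_lit 9) (nat_lit 5) (nat_lit 12) (nat_lit 5) (nat_lit 10) (nat_lit 4) (nat_lit 221) (nat_lit 211) (nat_lit 168)) (XT.lf (nat_lit 0) (nat_lit 6401574110) (nat_lit 76) (nat_lit 27010229329) (nat_lit 152) (nat_lit 14825132540) (nat_lit 8) (nat_lit 5) (nat_lit 9) (nat_lit 5) (nat_lit 10) (nat_lit 4) (nat_lit 222) (nat_lit 211) (nat_lit 167))))) (XT.nd (nat_lit 312) (nat_lit 76) (nat_lit 0) (XT.nd (nat_lit 156) (nat_lit 152) (nat_lit 0) (XT.nd (nat_lit 78) (nat_lit 0) (nat_lit 0) (XT.lf (nat_lit 0) (nat_lit 28643613024) (nat_lit 76) (nat_lit 15121816210) (nat_lit 152) (nat_lit 9492214536) (nat_lit 8) (nat_lit 5) (nat_lit 9) (nat_lit 5) (nat_lit 10) (nat_lit 4) (nat_lit 223) (nat_lit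 211) (nat_lit 166)) (XT.lf (nat_lit 0) (nat_lit 54211156206) (nat_lit 76) (nat_lit 1453537418) (nat_lit 152) (nat_lit 3367942600) (nat_lit 8) (nat_lit 5) (nat_lit 9) (nat_lit 5) (nat_lit 10) (nat_lit 4) (nat_lit 224) (nat_lit 211) (nat_lit 165))) (XT.nd (nat_lit 78) (nat_lit 0) (nat_lit 0) (XT.lf (nat_lit 0) (nat_lit 4785346902) (nat_lit 152) (nat_lit 46652147341) (nat_lit 76) (nat_lit 13997976390) (nat_lit 6) (nat_lit 5) (nat_lit 8) (nat_lit 5) (nat_lit 7) (nat_lit 4) (nat_lit 225) (nat_lit 211) (nat_lit 164)) (XT.lf (nat_lit 0) (nat_lit 14143615726) (nat_lit 152) (nat_lit 26542307608) (nat_lit 76) (nat_lit 32039774792) (nat_lit 6) (nat_lit 5) (nat_lit 8) (nat_lit 5) (nat_lit 7) (nat_lit 4) (nat_lit 226) (nat_lit 211) (nat_lit 163)))) (XT.nd (nat_lit 156) (nat_lit 0) (nat_lit 0) (XT.nd (nat_lit 78) (nat_lit 76) (nat_lit 0) (XT.lf (nat_lit 0) (nat_lit 24900015804) (nat_lit 152) (nat_lit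 3425124171) (nat_lit 76) (nat_lit 52785199839) (nat_lit 6) (nat_lit 5) (nat_lit 8) (nat_lit 5) (nat_lit 7) (nat_lit 4) (nat_lit 227) (nat_lit 211) (nat_lit 162)) (XT.lf (nat_lit 0) (nat_lit 25414247769) (nat_lit 76) (nat_lit 12903100476) (nat_lit 152) (nat_lit 52278242317) (nat_lit 5) (nat_lit 5) (nat_lit 6) (nat_lit 5) (nat_lit 7) (nat_lit 4) (nat_lit 228) (nat_lit 211) (nat_lit 161))) (XT.nd (nat_lit 78) (nat_lit 0) (nat_lit 0) (XT.lf (nat_lit 0) (nat_lit 54130259436) (nat_lit 152) (nat_lit 42729096200) (nat_lit 0) (nat_lit 4586855723) (nat_lit 5) (nat_lit 5) (nat_lit 7) (nat_lit 4) (nat_lit 5) (nat_lit 4) (nat_lit 229) (nat_lit 211) (nat_lit 160)) (XT.lf (nat_lit 0) (nat_lit 72925470750) (nat_lit 152) (nat_lit 17530548073) (nat_lit 0) (nat_lit 23376877387) (nat_lit 5) (nat_lit 5) (nat_lit 7) (nat_lit 4) (nat_lit 5) (nat_lit 4) (nat_lit 230) (nat_lit 211) (nat_lit 159))))))))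
noncomputable def xc38 : XT := (XT.nd (nat_lit 2418) (nat_lit 0) (nat_lit 0) (XT.nd (nat_lit 1170) (nat_lit 76) (nat_lit 0) (XT.nd (nat_lit 546) (nat_lit 0) (nat_lit 0) (XT.nd (nat_lit 234) (nat_lit 152) (nat_lit 0) (XT.nd (nat_lit 78) (nat_lit 0) (nat_lit 0) (XT.lf (nat_lit 0) (nat_lit 12559763534) (nat_lit 76) (nat_lit 82496734197) (nat_lit 76) (nat_lit 32943628096) (nat_lit 4) (nat_lit 4) (nat_lit 5) (nat_lit 5) (nat_lit 5) (nat_lit 4) (nat_lit 231) (nat_lit 211) (nat_lit 158)) (XT.nd (nat_lit 78) (nat_lit 0) (nat_lit 0) (XT.lf (nat_lit 0) (nat_lit 49127921410) (nat_lit 76) (nat_lit 72292305370) (nat_lit 76) (nat_lit 22735275148) (nat_lit 4) (nat_lit 4) (nat_lit 5) (nat_lit 5) (nat_lit 5) (nat_lit 4) (nat_lit 232) (nat_lit 211) (nat_lit 157)) (XT.lf (nat_lit 0) (nat_lit 91176176860) (nat_lit 76) (nat_lit 60559450032) (nat_lit 76) (nat_lit 10999007531) (nat_lit 4) (nat_lit 4) (nat_lit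 5) (nat_lit 5) (nat_lit 5) (nat_lit 4) (nat_lit 233) (nat_lit 211) (nat_lit 156)))) (XT.nd (nat_lit 156) (nat_lit 76) (nat_lit 0) (XT.nd (nat_lit 78) (nat_lit 0) (nat_lit 0) (XT.lf (nat_lit 0) (nat_lit 2272693266) (nat_lit 152) (nat_lit 44677119177) (nat_lit 76) (nat_lit 137135720001) (nat_lit 3) (nat_lit 5) (nat_lit 5) (nat_lit 5) (nat_lit 4) (nat_lit 4) (nat_lit 234) (nat_lit 211) (nat_lit 155)) (XT.lf (nat_lit 0) (nat_lit 16406760826) (nat_lit 152) (nat_lit 14291454096) (nat_lit 76) (nat_lit 177862641834) (nat_lit 3) (nat_lit 5) (nat_lit 5) (nat_lit 5) (nat_lit 4) (nat_lit 4) (nat_lit 235) (nat_lit 211) (nat_lit 154))) (XT.nd (nat_lit 78) (nat_lit 0) (nat_lit 0) (XT.lf (nat_lit 0) (nat_lit 22666405419) (nat_lit 76) (nat_lit 10931101055) (nat_lit 152) (nat_lit 202969497615) (nat_lit 2) (nat_lit 5) (nat_lit 3) (nat_lit 5) (nat_lit 4) (nat_lit 4) (nat_lit 236) (nat_lit 211) (nat_lit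 153)) (XT.lf (nat_lit 0) (nat_lit 54636205228) (nat_lit 152) (nat_lit 202415778443) (nat_lit 0) (nat_lit 11531696982) (nat_lit 2) (nat_lit 5) (nat_lit 4) (nat_lit 4) (nat_lit 2) (nat_lit 4) (nat_lit 237) (nat_lit 211) (nat_lit 152))))) (XT.nd (nat_lit 312) (nat_lit 0) (nat_lit 0) (XT.nd (nat_lit 156) (nat_lit 0) (nat_lit 0) (XT.nd (nat_lit 78) (nat_lit 0) (nat_lit 0) (XT.lf (nat_lit 0) (nat_lit 79349547379) (nat_lit 152) (nat_lit 189731928859) (nat_lit 0) (nat_lit 36243563911) (nat_lit 2) (nat_lit 5) (nat_lit 4) (nat_lit 4) (nat_lit 2) (nat_lit 4) (nat_lit 238) (nat_lit 211) (nat_lit 151)) (XT.lf (nat_lit 0) (nat_lit 107768421256) (nat_lit 152) (nat_lit 175148254060) (nat_lit 0) (nat_lit 64661154985) (nat_lit 2) (nat_lit 5) (nat_lit 4) (nat_lit 4) (nat_lit 2) (nat_lit 4) (nat_lit 239) (nat_lit 211) (nat_lit 150))) (XT.nd (nat_lit 78) (nat_lit 0) (nat_lit 0) (XT.lf (nat_lit 0) (nat_lit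 140448848303) (nat_lit 152) (nat_lit 158379421278) (nat_lit 0) (nat_lit 97340466553) (nat_lit 2) (nat_lit 5) (nat_lit 4) (nat_lit 4) (nat_lit 2) (nat_lit 4) (nat_lit 240) (nat_lit 211) (nat_lit 149)) (XT.lf (nat_lit 0) (nat_lit 178030228181) (nat_lit 152) (nat_lit 139097344654) (nat_lit 0) (nat_lit 134920876448) (nat_lit 2) (nat_lit 5) (nat_lit 4) (nat_lit 4) (nat_lit 2) (nat_lit 4) (nat_lit 241) (nat_lit 211) (nat_lit 148)))) (XT.nd (nat_lit 156) (nat_lit 0) (nat_lit 0) (XT.nd (nat_lit 78) (nat_lit 0) (nat_lit 0) (XT.lf (nat_lit 0) (nat_lit 221247848756) (nat_lit 152) (nat_lit 116924766167) (nat_lit 0) (nat_lit 178137653559) (nat_lit 2) (nat_lit 5) (nat_lit 4) (nat_lit 4) (nat_lit 2) (nat_lit 4) (nat_lit 242) (nat_lit 211) (nat_lit 147)) (XT.lf (nat_lit 0) (nat_lit 270947272170) (nat_lit 152) (nat_lit 91427874500) (nat_lit 0) (nat_lit 227836343527) (nat_lit 2) (nat_lit 5) (nat_lit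 4) (nat_lit 4) (nat_lit 2) (nat_lit 4) (nat_lit 243) (nat_lit 211) (nat_lit 146))) (XT.nd (nat_lit 78) (nat_lit 0) (nat_lit 0) (XT.lf (nat_lit 0) (nat_lit 328100878446) (nat_lit 152) (nat_lit 62107817422) (nat_lit 0) (nat_lit 284989312024) (nat_lit 2) (nat_lit 5) (nat_lit 4) (nat_lit 4) (nat_lit 2) (nat_lit 4) (nat_lit 244) (nat_lit 211) (nat_lit 145)) (XT.lf (nat_lit 0) (nat_lit 393826890317) (nat_lit 152) (nat_lit 28390941645) (nat_lit 0) (nat_lit 350714769304) (nat_lit 2) (nat_lit 5) (nat_lit 4) (nat_lit 4) (nat_lit 2) (nat_lit 4) (nat_lit 245) (nat_lit 211) (nat_lit 144)))))) (XT.nd (nat_lit 624) (nat_lit 0) (nat_lit 0) (XT.nd (nat_lit 312) (nat_lit 0) (nat_lit 0) (XT.nd (nat_lit 156) (nat_lit 0) (nat_lit 0) (XT.nd (nat_lit 78) (nat_lit 0) (nat_lit 0) (XT.lf (nat_lit 0) (nat_lit 11397077485) (nat_lit 76) (nat_lit 458486102681) (nat_lit 76) (nat_lit 415373499415) (nat_lit 1) (nat_lit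 4) (nat_lit 2) (nat_lit 5) (nat_lit 2) (nat_lit 4) (nat_lit 246) (nat_lit 211) (nat_lit 143)) (XT.lf (nat_lit 0) (nat_lit 60343066545) (nat_lit 76) (nat_lit 498488397587) (nat_lit 76) (nat_lit 455375374971) (nat_lit 1) (nat_lit 4) (nat_lit 2) (nat_lit 5) (nat_lit 2) (nat_lit 4) (nat_lit 247) (nat_lit 211) (nat_lit 142))) (XT.nd (nat_lit 78) (nat_lit 0) (nat_lit 0) (XT.lf (nat_lit 0) (nat_lit 116630095154) (nat_lit 76) (nat_lit 544491442227) (nat_lit 76) (nat_lit 501378054959) (nat_lit 1) (nat_lit 4) (nat_lit 2) (nat_lit 5) (nat_lit 2) (nat_lit 4) (nat_lit 248) (nat_lit 211) (nat_lit 141)) (XT.lf (nat_lit 0) (nat_lit 181359431262) (nat_lit 76) (nat_lit 597395296169) (nat_lit 76) (nat_lit 554281591812) (nat_lit 1) (nat_lit 4) (nat_lit 2) (nat_lit 5) (nat_lit 2) (nat_lit 4) (nat_lit 249) (nat_lit 211) (nat_lit 140)))) (XT.nd (nat_lit 156) (nat_lit 0) (nat_lit 0) (XT.nd (nat_lit 78) (nat_lit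 0) (nat_lit 0) (XT.lf (nat_lit 0) (nat_lit 255797518402) (nat_lit 76) (nat_lit 658235034818) (nat_lit 76) (nat_lit 615121054731) (nat_lit 1) (nat_lit 4) (nat_lit 2) (nat_lit 5) (nat_lit 2) (nat_lit 4) (nat_lit 250) (nat_lit 211) (nat_lit 139)) (XT.lf (nat_lit 0) (nat_lit 341400753932) (nat_lit 76) (nat_lit 728201000885) (nat_lit 76) (nat_lit 685086781033) (nat_lit 1) (nat_lit 4) (nat_lit 2) (nat_lit 5) (nat_lit 2) (nat_lit 4) (nat_lit 251) (nat_lit 211) (nat_lit 138))) (XT.nd (nat_lit 78) (nat_lit 0) (nat_lit 0) (XT.lf (nat_lit 0) (nat_lit 439843983763) (nat_lit 76) (nat_lit 808662093707) (nat_lit 76) (nat_lit 765547665364) (nat_lit 1) (nat_lit 4) (nat_lit 2) (nat_lit 5) (nat_lit 2) (nat_lit 4) (nat_lit 252) (nat_lit 211) (nat_lit 137)) (XT.lf (nat_lit 0) (nat_lit 553053271088) (nat_lit 76) (nat_lit 901192552056) (nat_lit 76) (nat_lit 858077942417) (nat_lit 1) (nat_lit 4) (nat_lit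 2) (nat_lit 5) (nat_lit 2) (nat_lit 4) (nat_lit 253) (nat_lit 211) (nat_lit 136))))) (XT.nd (nat_lit 312) (nat_lit 0) (nat_lit 0) (XT.nd (nat_lit 156) (nat_lit 0) (nat_lit 0) (XT.nd (nat_lit 78) (nat_lit 0) (nat_lit 0) (XT.lf (nat_lit 0) (nat_lit 683243580224) (nat_lit 76) (nat_lit 1007602754465) (nat_lit 76) (nat_lit 964487987177) (nat_lit 1) (nat_lit 4) (nat_lit 2) (nat_lit 5) (nat_lit 2) (nat_lit 4) (nat_lit 254) (nat_lit 211) (nat_lit 135)) (XT.lf (nat_lit 0) (nat_lit 832962112872) (nat_lit 76) (nat_lit 1129974639678) (nat_lit 76) (nat_lit 1086859735303) (nat_lit 1) (nat_lit 4) (nat_lit 2) (nat_lit 5) (nat_lit 2) (nat_lit 4) (nat_lit 255) (nat_lit 211) (nat_lit 134))) (XT.nd (nat_lit 78) (nat_lit 0) (nat_lit 0) (XT.lf (nat_lit 0) (nat_lit 1005138144671) (nat_lit 76) (nat_lit 1270702440230) (nat_lit 76) (nat_lit 1227587416650) (nat_lit 1) (nat_lit 4) (nat_lit 2) (nat_lit 5) (nat_lit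 2) (nat_lit 4) (nat_lit 256) (nat_lit 211) (nat_lit 133)) (XT.lf (nat_lit 0) (nat_lit 1203140337112) (nat_lit 76) (nat_lit 1432539526133) (nat_lit 76) (nat_lit 1389424398896) (nat_lit 1) (nat_lit 4) (nat_lit 2) (nat_lit 5) (nat_lit 2) (nat_lit 4) (nat_lit 257) (nat_lit 211) (nat_lit 132)))) (XT.nd (nat_lit 156) (nat_lit 0) (nat_lit 0) (XT.nd (nat_lit 78) (nat_lit 0) (nat_lit 0) (XT.lf (nat_lit 0) (nat_lit 1430842646134) (nat_lit 76) (nat_lit 1618652275154) (nat_lit 76) (nat_lit 1575537057780) (nat_lit 1) (nat_lit 4) (nat_lit 2) (nat_lit 5) (nat_lit 2) (nat_lit 4) (nat_lit 258) (nat_lit 211) (nat_lit 131)) (XT.lf (nat_lit 0) (nat_lit 1692700116914) (nat_lit 76) (nat_lit 1832682023688) (nat_lit 76) (nat_lit 1789566727934) (nat_lit 1) (nat_lit 4) (nat_lit 2) (nat_lit 5) (nat_lit 2) (nat_lit 4) (nat_lit 259) (nat_lit 211) (nat_lit 130))) (XT.nd (nat_lit 78) (nat_lit 0) (nat_lit 0) (XT.lf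 (nat_lit 0) (nat_lit 1993836047793) (nat_lit 76) (nat_lit 2078816310291) (nat_lit 76) (nat_lit 2035700946382) (nat_lit 1) (nat_lit 4) (nat_lit 2) (nat_lit 5) (nat_lit 2) (nat_lit 4) (nat_lit 260) (nat_lit 211) (nat_lit 129)) (XT.lf (nat_lit 0) (nat_lit 2340142228723) (nat_lit 76) (nat_lit 2361870805790) (nat_lit 76) (nat_lit 2318755382615) (nat_lit 1) (nat_lit 4) (nat_lit 2) (nat_lit 5) (nat_lit 2) (nat_lit 4) (nat_lit 261) (nat_lit 211) (nat_lit 128))))))) (XT.nd (nat_lit 27612) (nat_lit 0) (nat_lit 304) (XT.nd (nat_lit 1248) (nat_lit 0) (nat_lit 0) (XT.nd (nat_lit 234) (nat_lit 0) (nat_lit 0) (XT.nd (nat_lit 78) (nat_lit 0) (nat_lit 0) (XT.lf (nat_lit 0) (nat_lit 2738394215418) (nat_lit 76) (nat_lit 2687383532923) (nat_lit 76) (nat_lit 2644268058211) (nat_lit 1) (nat_lit 4) (nat_lit 2) (nat_lit 5) (nat_lit 2) (nat_lit 4) (nat_lit 262) (nat_lit 211) (nat_lit 127)) (XT.nd (nat_lit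 78) (nat_lit 0) (nat_lit 0) (XT.lf (nat_lit 0) (nat_lit 3196383894575) (nat_lit 76) (nat_lit 3061723218959) (nat_lit 76) (nat_lit 3018607699433) (nat_lit 1) (nat_lit 4) (nat_lit 2) (nat_lit 5) (nat_lit 2) (nat_lit 4) (nat_lit 263) (nat_lit 211) (nat_lit 126)) (XT.lf (nat_lit 0) (nat_lit 3723071933828) (nat_lit 76) (nat_lit 3492213901233) (nat_lit 76) (nat_lit 3449098342739) (nat_lit 1) (nat_lit 4) (nat_lit 2) (nat_lit 5) (nat_lit 2) (nat_lit 4) (nat_lit 264) (nat_lit 211) (nat_lit 125)))) (XT.nd (nat_lit 156) (nat_lit 0) (nat_lit 0) (XT.nd (nat_lit 78) (nat_lit 0) (nat_lit 0) (XT.lf (nat_lit 0) (nat_lit 4328763099163) (nat_lit 76) (nat_lit 3987278223530) (nat_lit 76) (nat_lit 3944162631150) (nat_lit 1) (nat_lit 4) (nat_lit 2) (nat_lit 5) (nat_lit 2) (nat_lit 4) (nat_lit 265) (nat_lit 211) (nat_lit 124)) (XT.lf (nat_lit 0) (nat_lit 5025307869903) (nat_lit 76) (nat_lit 4556602226938)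 (nat_lit 76) (nat_lit 4513486605092) (nat_lit 1) (nat_lit 4) (nat_lit 2) (nat_lit 5) (nat_lit 2) (nat_lit 4) (nat_lit 266) (nat_lit 211) (nat_lit 123))) (XT.nd (nat_lit 78) (nat_lit 0) (nat_lit 0) (XT.lf (nat_lit 0) (nat_lit 5826334295909) (nat_lit 76) (nat_lit 5211324859349) (nat_lit 76) (nat_lit 5168209211881) (nat_lit 1) (nat_lit 4) (nat_lit 2) (nat_lit 5) (nat_lit 2) (nat_lit 4) (nat_lit 267) (nat_lit 211) (nat_lit 122)) (XT.lf (nat_lit 0) (nat_lit 6747514633342) (nat_lit 76) (nat_lit 5964255911398) (nat_lit 76) (nat_lit 5921140241650) (nat_lit 1) (nat_lit 4) (nat_lit 2) (nat_lit 5) (nat_lit 2) (nat_lit 4) (nat_lit 268) (nat_lit 211) (nat_lit 121))))) (XT.nd (nat_lit 312) (nat_lit 0) (nat_lit 0) (XT.nd (nat_lit 156) (nat_lit 0) (nat_lit 0) (XT.nd (nat_lit 78) (nat_lit 0) (nat_lit 0) (XT.lf (nat_lit 0) (nat_lit 28256405571136) (nat_lit 76) (nat_lit 23544652243143) (nat_lit 76) (nat_lit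 23501536461575) (nat_lit 1) (nat_lit 4) (nat_lit 2) (nat_lit 5) (nat_lit 2) (nat_lit 4) (nat_lit 278) (nat_lit 211) (nat_lit 111)) (XT.lf (nat_lit 0) (nat_lit 32542096325222) (nat_lit 76) (nat_lit 27047582532432) (nat_lit 76) (nat_lit 27004466746075) (nat_lit 1) (nat_lit 4) (nat_lit 2) (nat_lit 5) (nat_lit 2) (nat_lit 4) (nat_lit 279) (nat_lit 211) (nat_lit 110))) (XT.nd (nat_lit 78) (nat_lit 0) (nat_lit 0) (XT.lf (nat_lit 0) (nat_lit 37470640682613) (nat_lit 76) (nat_lit 31075952369745) (nat_lit 76) (nat_lit 31032836579223) (nat_lit 1) (nat_lit 4) (nat_lit 2) (nat_lit 5) (nat_lit 2) (nat_lit 4) (nat_lit 280) (nat_lit 211) (nat_lit 109)) (XT.lf (nat_lit 0) (nat_lit 43138466685084) (nat_lit 76) (nat_lit 35708577686681) (nat_lit 76) (nat_lit 35665461892539) (nat_lit 1) (nat_lit 4) (nat_lit 2) (nat_lit 5) (nat_lit 2) (nat_lit 4) (nat_lit 281) (nat_lit 211) (nat_lit 108)))) (XT.nd (nat_lit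 25896) (nat_lit 0) (nat_lit 1140) (XT.nd (nat_lit 25818) (nat_lit 0) (nat_lit 1140) (XT.lf (nat_lit 0) (nat_lit 49656466580509) (nat_lit 76) (nat_lit 41036096804660) (nat_lit 76) (nat_lit 40992981007369) (nat_lit 1) (nat_lit 4) (nat_lit 2) (nat_lit 5) (nat_lit 2) (nat_lit 4) (nat_lit 282) (nat_lit 211) (nat_lit 107)) (XT.lf (nat_lit 0) (nat_lit 4772753124) (nat_lit 0) (nat_lit 4772753124) (nat_lit 228) (nat_lit 1484672630) (nat_lit 16) (nat_lit 5) (nat_lit 16) (nat_lit 3) (nat_lit 19) (nat_lit 3) (nat_lit 212) (nat_lit 212) (nat_lit 176))) (XT.nd (nat_lit 78) (nat_lit 0) (nat_lit 0) (XT.lf (nat_lit 0) (nat_lit 20208812643) (nat_lit 0) (nat_lit 424971563) (nat_lit 228) (nat_lit 3062920242) (nat_lit 16) (nat_lit 5) (nat_lit 16) (nat_lit 3) (nat_lit 19) (nat_lit 3) (nat_lit 213) (nat_lit 212) (nat_lit 175)) (XT.lf (nat_lit 76) (nat_lit 7094473762) (nat_lit 0) (nat_lit 16004633622) (nat_lit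 304) (nat_lit 2375999298) (nat_lit 17) (nat_lit 5) (nat_lit 16) (nat_lit 5) (nat_lit 20) (nat_lit 5) (nat_lit 214) (nat_lit 212) (nat_lit 174)))))) (XT.nd (nat_lit 624) (nat_lit 304) (nat_lit 0) (XT.nd (nat_lit 312) (nat_lit 152) (nat_lit 0) (XT.nd (nat_lit 156) (nat_lit 152) (nat_lit 0) (XT.nd (nat_lit 78) (nat_lit 228) (nat_lit 0) (XT.lf (nat_lit 76) (nat_lit 19621062714) (nat_lit 0) (nat_lit 6497448292) (nat_lit 304) (nat_lit 1374354120) (nat_lit 17) (nat_lit 5) (nat_lit 16) (nat_lit 5) (nat_lit 20) (nat_lit 5) (nat_lit 215) (nat_lit 212) (nat_lit 173)) (XT.lf (nat_lit 0) (nat_lit 165164404) (nat_lit 304) (nat_lit 25360035418) (nat_lit 76) (nat_lit 4234476141) (nat_lit 13) (nat_lit 5) (nat_lit 17) (nat_lit 5) (nat_lit 14) (nat_lit 5) (nat_lit 216) (nat_lit 212) (nat_lit 172))) (XT.nd (nat_lit 78) (nat_lit 152) (nat_lit 0) (XT.lf (nat_lit 0) (nat_lit 2521039324) (nat_lit 304) (nat_lit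 13317529418) (nat_lit 76) (nat_lit 16409359022) (nat_lit 13) (nat_lit 5) (nat_lit 17) (nat_lit 5) (nat_lit 14) (nat_lit 5) (nat_lit 217) (nat_lit 212) (nat_lit 171)) (XT.lf (nat_lit 0) (nat_lit 569167890) (nat_lit 152) (nat_lit 4672225280) (nat_lit 228) (nat_lit 29866495689) (nat_lit 11) (nat_lit 5) (nat_lit 13) (nat_lit 5) (nat_lit 14) (nat_lit 5) (nat_lit 218) (nat_lit 212) (nat_lit 170)))) (XT.nd (nat_lit 156) (nat_lit 152) (nat_lit 0) (XT.nd (nat_lit 78) (nat_lit 0) (nat_lit 0) (XT.lf (nat_lit 0) (nat_lit 9425967138) (nat_lit 228) (nat_lit 20642312146) (nat_lit 76) (nat_lit 8170258189) (nat_lit 11) (nat_lit 5) (nat_lit 14) (nat_lit 5) (nat_lit 12) (nat_lit 5) (nat_lit 219) (nat_lit 212) (nat_lit 169)) (XT.lf (nat_lit 0) (nat_lit 14450809781) (nat_lit 228) (nat_lit 4896150321) (nat_lit 76) (nat_lit 22460038859) (nat_lit 11) (nat_lit 5) (nat_lit 14) (nat_lit 5) (nat_lit 12) (nat_lit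 5) (nat_lit 220) (nat_lit 212) (nat_lit 168))) (XT.nd (nat_lit 78) (nat_lit 0) (nat_lit 0) (XT.lf (nat_lit 0) (nat_lit 14491436340) (nat_lit 152) (nat_lit 6329389487) (nat_lit 228) (nat_lit 25001276331) (nat_lit 9) (nat_lit 5) (nat_lit 11) (nat_lit 5) (nat_lit 12) (nat_lit 5) (nat_lit 221) (nat_lit 212) (nat_lit 167)) (XT.lf (nat_lit 0) (nat_lit 28764262887) (nat_lit 228) (nat_lit 13444960143) (nat_lit 76) (nat_lit 8137637871) (nat_lit 9) (nat_lit 5) (nat_lit 12) (nat_lit 5) (nat_lit 10) (nat_lit 4) (nat_lit 222) (nat_lit 212) (nat_lit 166))))) (XT.nd (nat_lit 312) (nat_lit 76) (nat_lit 0) (XT.nd (nat_lit 156) (nat_lit 152) (nat_lit 0) (XT.nd (nat_lit 78) (nat_lit 0) (nat_lit 0) (XT.lf (nat_lit 0) (nat_lit 7478115498) (nat_lit 76) (nat_lit 31025194318) (nat_lit 152) (nat_lit 16956477195) (nat_lit 8) (nat_lit 5) (nat_lit 9) (nat_lit 5) (nat_lit 10) (nat_lit 4) (nat_lit 223) (nat_lit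 212) (nat_lit 165)) (XT.lf (nat_lit 0) (nat_lit 33041289996) (nat_lit 76) (nat_lit 17358289154) (nat_lit 152) (nat_lit 10835676955) (nat_lit 8) (nat_lit 5) (nat_lit 9) (nat_lit 5) (nat_lit 10) (nat_lit 4) (nat_lit 224) (nat_lit 212) (nat_lit 164))) (XT.nd (nat_lit 78) (nat_lit 152) (nat_lit 0) (XT.lf (nat_lit 0) (nat_lit 62430773131) (nat_lit 76) (nat_lit 1643916303) (nat_lit 152) (nat_lit 3803247241) (nat_lit 8) (nat_lit 5) (nat_lit 9) (nat_lit 5) (nat_lit 10) (nat_lit 4) (nat_lit 225) (nat_lit 212) (nat_lit 163)) (XT.lf (nat_lit 0) (nat_lit 5563544273) (nat_lit 152) (nat_lit 53551638414) (nat_lit 76) (nat_lit 16126132441) (nat_lit 6) (nat_lit 5) (nat_lit 8) (nat_lit 5) (nat_lit 7) (nat_lit 4) (nat_lit 226) (nat_lit 212) (nat_lit 162)))) (XT.nd (nat_lit 156) (nat_lit 76) (nat_lit 0) (XT.nd (nat_lit 78) (nat_lit 0) (nat_lit 0) (XT.lf (nat_lit 0) (nat_lit 16317675768) (nat_lit 152)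 (nat_lit 30438148507) (nat_lit 76) (nat_lit 36870488483) (nat_lit 6) (nat_lit 5) (nat_lit 8) (nat_lit 5) (nat_lit 7) (nat_lit 4) (nat_lit 227) (nat_lit 212) (nat_lit 161)) (XT.lf (nat_lit 0) (nat_lit 28680685725) (nat_lit 152) (nat_lit 3864540412) (nat_lit 76) (nat_lit 60724499356) (nat_lit 6) (nat_lit 5) (nat_lit 8) (nat_lit 5) (nat_lit 7) (nat_lit 4) (nat_lit 228) (nat_lit 212) (nat_lit 160))) (XT.nd (nat_lit 78) (nat_lit 0) (nat_lit 0) (XT.lf (nat_lit 0) (nat_lit 29297357665) (nat_lit 76) (nat_lit 14810242560) (nat_lit 152) (nat_lit 60070657407) (nat_lit 5) (nat_lit 5) (nat_lit 6) (nat_lit 5) (nat_lit 7) (nat_lit 4) (nat_lit 229) (nat_lit 212) (nat_lit 159)) (XT.lf (nat_lit 0) (nat_lit 62287904906) (nat_lit 152) (nat_lit 49071963716) (nat_lit 0) (nat_lit 5297320150) (nat_lit 5) (nat_lit 5) (nat_lit 7) (nat_lit 4) (nat_lit 5) (nat_lit 4) (nat_lit 230) (nat_lit 212) (nat_lit 158))))))))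
noncomputable def xc39 : XT := (XT.nd (nat_lit 2418) (nat_lit 0) (nat_lit 0) (XT.nd (nat_lit 1170) (nat_lit 76) (nat_lit 0) (XT.nd (nat_lit 546) (nat_lit 0) (nat_lit 0) (XT.nd (nat_lit 234) (nat_lit 152) (nat_lit 0) (XT.nd (nat_lit 78) (nat_lit 76) (nat_lit 0) (XT.lf (nat_lit 0) (nat_lit 83897427497) (nat_lit 152) (nat_lit 20102306881) (nat_lit 0) (nat_lit 26902918621) (nat_lit 5) (nat_lit 5) (nat_lit 7) (nat_lit 4) (nat_lit 5) (nat_lit 4) (nat_lit 231) (nat_lit 212) (nat_lit 157)) (XT.nd (nat_lit 78) (nat_lit 0) (nat_lit 0) (XT.lf (nat_lit 0) (nat_lit 14498923131) (nat_lit 76) (nat_lit 94847148800) (nat_lit 76) (nat_lit 37849227645) (nat_lit 4) (nat_lit 4) (nat_lit 5) (nat_lit 5) (nat_lit 5) (nat_lit 4) (nat_lit 232) (nat_lit 212) (nat_lit 156)) (XT.lf (nat_lit 0) (nat_lit 56545105332) (nat_lit 76) (nat_lit 83115198543) (nat_lit 76) (nat_lit 26114310190) (nat_lit 4) (nat_lit 4) (nat_lit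 5) (nat_lit 5) (nat_lit 5) (nat_lit 4) (nat_lit 233) (nat_lit 212) (nat_lit 155)))) (XT.nd (nat_lit 156) (nat_lit 76) (nat_lit 0) (XT.nd (nat_lit 78) (nat_lit 76) (nat_lit 0) (XT.lf (nat_lit 0) (nat_lit 104894338790) (nat_lit 76) (nat_lit 69625147857) (nat_lit 76) (nat_lit 12621679330) (nat_lit 4) (nat_lit 4) (nat_lit 5) (nat_lit 5) (nat_lit 5) (nat_lit 4) (nat_lit 234) (nat_lit 212) (nat_lit 154)) (XT.lf (nat_lit 0) (nat_lit 2635127376) (nat_lit 152) (nat_lit 51340188295) (nat_lit 76) (nat_lit 157719714095) (nat_lit 3) (nat_lit 5) (nat_lit 5) (nat_lit 5) (nat_lit 4) (nat_lit 4) (nat_lit 235) (nat_lit 212) (nat_lit 153))) (XT.nd (nat_lit 78) (nat_lit 76) (nat_lit 0) (XT.lf (nat_lit 0) (nat_lit 18886496794) (nat_lit 152) (nat_lit 16401695029) (nat_lit 76) (nat_lit 204553895581) (nat_lit 3) (nat_lit 5) (nat_lit 5) (nat_lit 5) (nat_lit 4) (nat_lit 4) (nat_lit 236) (nat_lit 212) (nat_lit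 152)) (XT.lf (nat_lit 0) (nat_lit 26098321723) (nat_lit 76) (nat_lit 12556413795) (nat_lit 152) (nat_lit 233394600820) (nat_lit 2) (nat_lit 5) (nat_lit 3) (nat_lit 5) (nat_lit 4) (nat_lit 4) (nat_lit 237) (nat_lit 212) (nat_lit 151))))) (XT.nd (nat_lit 312) (nat_lit 0) (nat_lit 0) (XT.nd (nat_lit 156) (nat_lit 0) (nat_lit 0) (XT.nd (nat_lit 78) (nat_lit 0) (nat_lit 0) (XT.lf (nat_lit 0) (nat_lit 62847459818) (nat_lit 152) (nat_lit 232748510816) (nat_lit 0) (nat_lit 13272820805) (nat_lit 2) (nat_lit 5) (nat_lit 4) (nat_lit 4) (nat_lit 2) (nat_lit 4) (nat_lit 238) (nat_lit 212) (nat_lit 150)) (XT.lf (nat_lit 0) (nat_lit 91265739317) (nat_lit 152) (nat_lit 218165949151) (nat_lit 0) (nat_lit 41689984824) (nat_lit 2) (nat_lit 5) (nat_lit 4) (nat_lit 4) (nat_lit 2) (nat_lit 4) (nat_lit 239) (nat_lit 212) (nat_lit 149))) (XT.nd (nat_lit 78) (nat_lit 0) (nat_lit 0) (XT.lf (nat_lit 0) (nat_lit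 123945649515) (nat_lit 152) (nat_lit 201398084311) (nat_lit 0) (nat_lit 74368925039) (nat_lit 2) (nat_lit 5) (nat_lit 4) (nat_lit 4) (nat_lit 2) (nat_lit 4) (nat_lit 240) (nat_lit 212) (nat_lit 148)) (XT.lf (nat_lit 0) (nat_lit 161526579958) (nat_lit 152) (nat_lit 182116849375) (nat_lit 0) (nat_lit 111949012019) (nat_lit 2) (nat_lit 5) (nat_lit 4) (nat_lit 4) (nat_lit 2) (nat_lit 4) (nat_lit 241) (nat_lit 212) (nat_lit 147)))) (XT.nd (nat_lit 156) (nat_lit 0) (nat_lit 0) (XT.nd (nat_lit 78) (nat_lit 0) (nat_lit 0) (XT.lf (nat_lit 0) (nat_lit 204743809720) (nat_lit 152) (nat_lit 159945002792) (nat_lit 0) (nat_lit 155165508335) (nat_lit 2) (nat_lit 5) (nat_lit 4) (nat_lit 4) (nat_lit 2) (nat_lit 4) (nat_lit 242) (nat_lit 212) (nat_lit 146)) (XT.lf (nat_lit 0) (nat_lit 254442893297) (nat_lit 152) (nat_lit 134448747562) (nat_lit 0) (nat_lit 204863954133) (nat_lit 2) (nat_lit 5) (nat_lit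 4) (nat_lit 4) (nat_lit 2) (nat_lit 4) (nat_lit 243) (nat_lit 212) (nat_lit 145))) (XT.nd (nat_lit 78) (nat_lit 0) (nat_lit 0) (XT.lf (nat_lit 0) (nat_lit 311596204063) (nat_lit 152) (nat_lit 105129243909) (nat_lit 0) (nat_lit 262016710308) (nat_lit 2) (nat_lit 5) (nat_lit 4) (nat_lit 4) (nat_lit 2) (nat_lit 4) (nat_lit 244) (nat_lit 212) (nat_lit 144)) (XT.lf (nat_lit 0) (nat_lit 377321958968) (nat_lit 152) (nat_lit 71412849370) (nat_lit 0) (nat_lit 327741982960) (nat_lit 2) (nat_lit 5) (nat_lit 4) (nat_lit 4) (nat_lit 2) (nat_lit 4) (nat_lit 245) (nat_lit 212) (nat_lit 143)))))) (XT.nd (nat_lit 624) (nat_lit 0) (nat_lit 0) (XT.nd (nat_lit 312) (nat_lit 0) (nat_lit 0) (XT.nd (nat_lit 156) (nat_lit 0) (nat_lit 0) (XT.nd (nat_lit 78) (nat_lit 76) (nat_lit 0) (XT.lf (nat_lit 0) (nat_lit 452906096694) (nat_lit 152) (nat_lit 32639895357) (nat_lit 0) (nat_lit 403325701336) (nat_lit 2) (nat_lit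 5) (nat_lit 4) (nat_lit 4) (nat_lit 2) (nat_lit 4) (nat_lit 246) (nat_lit 212) (nat_lit 142)) (XT.lf (nat_lit 0) (nat_lit 13115886301) (nat_lit 76) (nat_lit 527254651909) (nat_lit 76) (nat_lit 477673891899) (nat_lit 1) (nat_lit 4) (nat_lit 2) (nat_lit 5) (nat_lit 2) (nat_lit 4) (nat_lit 247) (nat_lit 212) (nat_lit 141))) (XT.nd (nat_lit 78) (nat_lit 0) (nat_lit 0) (XT.lf (nat_lit 0) (nat_lit 69402567564) (nat_lit 76) (nat_lit 573257860552) (nat_lit 76) (nat_lit 523676783453) (nat_lit 1) (nat_lit 4) (nat_lit 2) (nat_lit 5) (nat_lit 2) (nat_lit 4) (nat_lit 248) (nat_lit 212) (nat_lit 140)) (XT.lf (nat_lit 0) (nat_lit 134131601633) (nat_lit 76) (nat_lit 626161857106) (nat_lit 76) (nat_lit 576580504277) (nat_lit 1) (nat_lit 4) (nat_lit 2) (nat_lit 5) (nat_lit 2) (nat_lit 4) (nat_lit 249) (nat_lit 212) (nat_lit 139)))) (XT.nd (nat_lit 156) (nat_lit 0) (nat_lit 0) (XT.nd (nat_lit 78) (nat_lit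 0) (nat_lit 0) (XT.lf (nat_lit 0) (nat_lit 208569426131) (nat_lit 76) (nat_lit 687001719765) (nat_lit 76) (nat_lit 637420127171) (nat_lit 1) (nat_lit 4) (nat_lit 2) (nat_lit 5) (nat_lit 2) (nat_lit 4) (nat_lit 250) (nat_lit 212) (nat_lit 138)) (XT.lf (nat_lit 0) (nat_lit 294172433275) (nat_lit 76) (nat_lit 756967793667) (nat_lit 76) (nat_lit 707385992581) (nat_lit 1) (nat_lit 4) (nat_lit 2) (nat_lit 5) (nat_lit 2) (nat_lit 4) (nat_lit 251) (nat_lit 212) (nat_lit 137))) (XT.nd (nat_lit 78) (nat_lit 0) (nat_lit 0) (XT.lf (nat_lit 0) (nat_lit 392615464511) (nat_lit 76) (nat_lit 837428980258) (nat_lit 76) (nat_lit 787846997876) (nat_lit 1) (nat_lit 4) (nat_lit 2) (nat_lit 5) (nat_lit 2) (nat_lit 4) (nat_lit 252) (nat_lit 212) (nat_lit 136)) (XT.lf (nat_lit 0) (nat_lit 505824579144) (nat_lit 76) (nat_lit 929959520146) (nat_lit 76) (nat_lit 880377380114) (nat_lit 1) (nat_lit 4) (nat_lit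 2) (nat_lit 5) (nat_lit 2) (nat_lit 4) (nat_lit 253) (nat_lit 212) (nat_lit 135))))) (XT.nd (nat_lit 312) (nat_lit 0) (nat_lit 0) (XT.nd (nat_lit 156) (nat_lit 0) (nat_lit 0) (XT.nd (nat_lit 78) (nat_lit 0) (nat_lit 0) (XT.lf (nat_lit 0) (nat_lit 636014738114) (nat_lit 76) (nat_lit 1036369793458) (nat_lit 76) (nat_lit 986787516340) (nat_lit 1) (nat_lit 4) (nat_lit 2) (nat_lit 5) (nat_lit 2) (nat_lit 4) (nat_lit 254) (nat_lit 212) (nat_lit 134)) (XT.lf (nat_lit 0) (nat_lit 785733140182) (nat_lit 76) (nat_lit 1158741740325) (nat_lit 76) (nat_lit 1109159344002) (nat_lit 1) (nat_lit 4) (nat_lit 2) (nat_lit 5) (nat_lit 2) (nat_lit 4) (nat_lit 255) (nat_lit 212) (nat_lit 133))) (XT.nd (nat_lit 78) (nat_lit 0) (nat_lit 0) (XT.lf (nat_lit 0) (nat_lit 957909058433) (nat_lit 76) (nat_lit 1299469594491) (nat_lit 76) (nat_lit 1249887094511) (nat_lit 1) (nat_lit 4) (nat_lit 2) (nat_lit 5) (nat_lit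 2) (nat_lit 4) (nat_lit 256) (nat_lit 212) (nat_lit 132)) (XT.lf (nat_lit 0) (nat_lit 1155911152137) (nat_lit 76) (nat_lit 1461306727013) (nat_lit 76) (nat_lit 1411724136897) (nat_lit 1) (nat_lit 4) (nat_lit 2) (nat_lit 5) (nat_lit 2) (nat_lit 4) (nat_lit 257) (nat_lit 212) (nat_lit 131)))) (XT.nd (nat_lit 156) (nat_lit 0) (nat_lit 0) (XT.nd (nat_lit 78) (nat_lit 0) (nat_lit 0) (XT.lf (nat_lit 0) (nat_lit 1383613375300) (nat_lit 76) (nat_lit 1647419516574) (nat_lit 76) (nat_lit 1597836848078) (nat_lit 1) (nat_lit 4) (nat_lit 2) (nat_lit 5) (nat_lit 2) (nat_lit 4) (nat_lit 258) (nat_lit 212) (nat_lit 130)) (XT.lf (nat_lit 0) (nat_lit 1645470771421) (nat_lit 76) (nat_lit 1861449300358) (nat_lit 76) (nat_lit 1811866563706) (nat_lit 1) (nat_lit 4) (nat_lit 2) (nat_lit 5) (nat_lit 2) (nat_lit 4) (nat_lit 259) (nat_lit 212) (nat_lit 129))) (XT.nd (nat_lit 78) (nat_lit 0) (nat_lit 0) (XT.lf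 (nat_lit 0) (nat_lit 1946606637379) (nat_lit 76) (nat_lit 2107583617616) (nat_lit 76) (nat_lit 2058000821697) (nat_lit 1) (nat_lit 4) (nat_lit 2) (nat_lit 5) (nat_lit 2) (nat_lit 4) (nat_lit 260) (nat_lit 212) (nat_lit 128)) (XT.lf (nat_lit 0) (nat_lit 2292912761856) (nat_lit 76) (nat_lit 2390638139770) (nat_lit 76) (nat_lit 2341055292315) (nat_lit 1) (nat_lit 4) (nat_lit 2) (nat_lit 5) (nat_lit 2) (nat_lit 4) (nat_lit 261) (nat_lit 212) (nat_lit 127))))))) (XT.nd (nat_lit 1560) (nat_lit 0) (nat_lit 0) (XT.nd (nat_lit 624) (nat_lit 0) (nat_lit 0) (XT.nd (nat_lit 234) (nat_lit 0) (nat_lit 0) (XT.nd (nat_lit 78) (nat_lit 0) (nat_lit 0) (XT.lf (nat_lit 0) (nat_lit 2691164699461) (nat_lit 76) (nat_lit 2716150890080) (nat_lit 76) (nat_lit 2666567997812) (nat_lit 1) (nat_lit 4) (nat_lit 2) (nat_lit 5) (nat_lit 2) (nat_lit 4) (nat_lit 262) (nat_lit 212) (nat_lit 126)) (XT.nd (nat_lit 78)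 (nat_lit 0) (nat_lit 0) (XT.lf (nat_lit 0) (nat_lit 3149154335930) (nat_lit 76) (nat_lit 3090490596271) (nat_lit 76) (nat_lit 3040907665035) (nat_lit 1) (nat_lit 4) (nat_lit 2) (nat_lit 5) (nat_lit 2) (nat_lit 4) (nat_lit 263) (nat_lit 212) (nat_lit 125)) (XT.lf (nat_lit 0) (nat_lit 3675842338065) (nat_lit 76) (nat_lit 3520981296072) (nat_lit 76) (nat_lit 3471398330950) (nat_lit 1) (nat_lit 4) (nat_lit 2) (nat_lit 5) (nat_lit 2) (nat_lit 4) (nat_lit 264) (nat_lit 212) (nat_lit 124)))) (XT.nd (nat_lit 156) (nat_lit 0) (nat_lit 0) (XT.nd (nat_lit 78) (nat_lit 0) (nat_lit 0) (XT.lf (nat_lit 0) (nat_lit 4281533471123) (nat_lit 76) (nat_lit 4016045633609) (nat_lit 76) (nat_lit 3966462639021) (nat_lit 1) (nat_lit 4) (nat_lit 2) (nat_lit 5) (nat_lit 2) (nat_lit 4) (nat_lit 265) (nat_lit 212) (nat_lit 123)) (XT.lf (nat_lit 0) (nat_lit 4978078213795) (nat_lit 76) (nat_lit 4585369650269) (nat_lit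 76) (nat_lit 4535786630058) (nat_lit 1) (nat_lit 4) (nat_lit 2) (nat_lit 5) (nat_lit 2) (nat_lit 4) (nat_lit 266) (nat_lit 212) (nat_lit 122))) (XT.nd (nat_lit 78) (nat_lit 0) (nat_lit 0) (XT.lf (nat_lit 0) (nat_lit 5779104615395) (nat_lit 76) (nat_lit 5240092294204) (nat_lit 76) (nat_lit 5190509251713) (nat_lit 1) (nat_lit 4) (nat_lit 2) (nat_lit 5) (nat_lit 2) (nat_lit 4) (nat_lit 267) (nat_lit 212) (nat_lit 121)) (XT.lf (nat_lit 0) (nat_lit 6700284931605) (nat_lit 76) (nat_lit 5993023356273) (nat_lit 76) (nat_lit 5943440294408) (nat_lit 1) (nat_lit 4) (nat_lit 2) (nat_lit 5) (nat_lit 2) (nat_lit 4) (nat_lit 268) (nat_lit 212) (nat_lit 120))))) (XT.nd (nat_lit 624) (nat_lit 0) (nat_lit 0) (XT.nd (nat_lit 156) (nat_lit 0) (nat_lit 0) (XT.nd (nat_lit 78) (nat_lit 0) (nat_lit 0) (XT.lf (nat_lit 0) (nat_lit 8977903143626) (nat_lit 76) (nat_lit 7854645463810) (nat_lit 76) (nat_lit 7805062370448)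 (nat_lit 1) (nat_lit 4) (nat_lit 2) (nat_lit 5) (nat_lit 2) (nat_lit 4) (nat_lit 270) (nat_lit 212) (nat_lit 118)) (XT.lf (nat_lit 0) (nat_lit 10378903134889) (nat_lit 76) (nat_lit 8999759550511) (nat_lit 76) (nat_lit 8950176444410) (nat_lit 1) (nat_lit 4) (nat_lit 2) (nat_lit 5) (nat_lit 2) (nat_lit 4) (nat_lit 271) (nat_lit 212) (nat_lit 117))) (XT.nd (nat_lit 390) (nat_lit 0) (nat_lit 0) (XT.lf (nat_lit 0) (nat_lit 11990053098753) (nat_lit 76) (nat_lit 10316640762536) (nat_lit 76) (nat_lit 10267057645358) (nat_lit 1) (nat_lit 4) (nat_lit 2) (nat_lit 5) (nat_lit 2) (nat_lit 4) (nat_lit 272) (nat_lit 212) (nat_lit 116)) (XT.lf (nat_lit 0) (nat_lit 24482488146076) (nat_lit 76) (nat_lit 20527393401952) (nat_lit 76) (nat_lit 20477810247641) (nat_lit 1) (nat_lit 4) (nat_lit 2) (nat_lit 5) (nat_lit 2) (nat_lit 4) (nat_lit 277) (nat_lit 212) (nat_lit 111)))) (XT.nd (nat_lit 156) (nat_lit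 0) (nat_lit 0) (XT.nd (nat_lit 78) (nat_lit 0) (nat_lit 0) (XT.lf (nat_lit 0) (nat_lit 28209175762886) (nat_lit 76) (nat_lit 23573419738310) (nat_lit 76) (nat_lit 23523836579210) (nat_lit 1) (nat_lit 4) (nat_lit 2) (nat_lit 5) (nat_lit 2) (nat_lit 4) (nat_lit 278) (nat_lit 212) (nat_lit 110)) (XT.lf (nat_lit 0) (nat_lit 32494866512410) (nat_lit 76) (nat_lit 27076350029753) (nat_lit 76) (nat_lit 27026766866489) (nat_lit 1) (nat_lit 4) (nat_lit 2) (nat_lit 5) (nat_lit 2) (nat_lit 4) (nat_lit 279) (nat_lit 212) (nat_lit 109))) (XT.nd (nat_lit 78) (nat_lit 0) (nat_lit 0) (XT.lf (nat_lit 0) (nat_lit 37423410865834) (nat_lit 76) (nat_lit 31104719868939) (nat_lit 76) (nat_lit 31055136702053) (nat_lit 1) (nat_lit 4) (nat_lit 2) (nat_lit 5) (nat_lit 2) (nat_lit 4) (nat_lit 280) (nat_lit 212) (nat_lit 108)) (XT.lf (nat_lit 0) (nat_lit 43091236864856) (nat_lit 76) (nat_lit 35737345187504) (nat_lit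 76) (nat_lit 35687762017470) (nat_lit 1) (nat_lit 4) (nat_lit 2) (nat_lit 5) (nat_lit 2) (nat_lit 4) (nat_lit 281) (nat_lit 212) (nat_lit 107)))))) (XT.nd (nat_lit 26442) (nat_lit 0) (nat_lit 380) (XT.nd (nat_lit 26130) (nat_lit 0) (nat_lit 760) (XT.nd (nat_lit 25974) (nat_lit 0) (nat_lit 1140) (XT.nd (nat_lit 25896) (nat_lit 0) (nat_lit 1140) (XT.lf (nat_lit 0) (nat_lit 49609236757283) (nat_lit 76) (nat_lit 41064864306899) (nat_lit 76) (nat_lit 41015281134127) (nat_lit 1) (nat_lit 4) (nat_lit 2) (nat_lit 5) (nat_lit 2) (nat_lit 4) (nat_lit 282) (nat_lit 212) (nat_lit 106)) (XT.lf (nat_lit 0) (nat_lit 5541841965) (nat_lit 0) (nat_lit 5541841965) (nat_lit 228) (nat_lit 1583594440) (nat_lit 16) (nat_lit 5) (nat_lit 16) (nat_lit 3) (nat_lit 19) (nat_lit 3) (nat_lit 213) (nat_lit 213) (nat_lit 174))) (XT.nd (nat_lit 78) (nat_lit 0) (nat_lit 0) (XT.lf (nat_lit 0) (nat_lit 23332614317) (nat_lit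 0) (nat_lit 581197075) (nat_lit 228) (nat_lit 3307090305) (nat_lit 16) (nat_lit 5) (nat_lit 16) (nat_lit 3) (nat_lit 19) (nat_lit 3) (nat_lit 214) (nat_lit 213) (nat_lit 173)) (XT.lf (nat_lit 76) (nat_lit 8279507067) (nat_lit 0) (nat_lit 18446975564) (nat_lit 304) (nat_lit 2543283697) (nat_lit 17) (nat_lit 5) (nat_lit 16) (nat_lit 5) (nat_lit 20) (nat_lit 5) (nat_lit 215) (nat_lit 213) (nat_lit 172)))) (XT.nd (nat_lit 156) (nat_lit 152) (nat_lit 0) (XT.nd (nat_lit 78) (nat_lit 228) (nat_lit 0) (XT.lf (nat_lit 76) (nat_lit 22669319721) (nat_lit 0) (nat_lit 7508280231) (nat_lit 304) (nat_lit 1416058980) (nat_lit 17) (nat_lit 5) (nat_lit 16) (nat_lit 5) (nat_lit 20) (nat_lit 5) (nat_lit 216) (nat_lit 213) (nat_lit 171)) (XT.lf (nat_lit 0) (nat_lit 324212737) (nat_lit 304) (nat_lit 29025616103) (nat_lit 76) (nat_lit 4852191214) (nat_lit 13) (nat_lit 5) (nat_lit 17) (nat_lit 5) (nat_lit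 14) (nat_lit 5) (nat_lit 217) (nat_lit 213) (nat_lit 170))) (XT.nd (nat_lit 78) (nat_lit 152) (nat_lit 0) (XT.lf (nat_lit 0) (nat_lit 3015954938) (nat_lit 304) (nat_lit 15194789590) (nat_lit 76) (nat_lit 18855583442) (nat_lit 13) (nat_lit 5) (nat_lit 17) (nat_lit 5) (nat_lit 14) (nat_lit 5) (nat_lit 218) (nat_lit 213) (nat_lit 169)) (XT.lf (nat_lit 0) (nat_lit 769440986) (nat_lit 152) (nat_lit 5364449025) (nat_lit 228) (nat_lit 34223130301) (nat_lit 11) (nat_lit 5) (nat_lit 13) (nat_lit 5) (nat_lit 14) (nat_lit 5) (nat_lit 219) (nat_lit 213) (nat_lit 168))))) (XT.nd (nat_lit 312) (nat_lit 228) (nat_lit 0) (XT.nd (nat_lit 156) (nat_lit 152) (nat_lit 0) (XT.nd (nat_lit 78) (nat_lit 0) (nat_lit 0) (XT.lf (nat_lit 0) (nat_lit 10932596460) (nat_lit 228) (nat_lit 23624230042) (nat_lit 76) (nat_lit 9402617371) (nat_lit 11) (nat_lit 5) (nat_lit 14) (nat_lit 5) (nat_lit 12) (nat_lit 5) (nat_lit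 220) (nat_lit 213) (nat_lit 167)) (XT.lf (nat_lit 0) (nat_lit 16699069727) (nat_lit 228) (nat_lit 5531069456) (nat_lit 76) (nat_lit 25834975516) (nat_lit 11) (nat_lit 5) (nat_lit 14) (nat_lit 5) (nat_lit 12) (nat_lit 5) (nat_lit 221) (nat_lit 213) (nat_lit 166))) (XT.nd (nat_lit 78) (nat_lit 0) (nat_lit 0) (XT.lf (nat_lit 0) (nat_lit 16760132322) (nat_lit 152) (nat_lit 7257870736) (nat_lit 228) (nat_lit 28665577433) (nat_lit 9) (nat_lit 5) (nat_lit 11) (nat_lit 5) (nat_lit 12) (nat_lit 5) (nat_lit 222) (nat_lit 213) (nat_lit 165)) (XT.lf (nat_lit 0) (nat_lit 33144050065) (nat_lit 228) (nat_lit 15369572884) (nat_lit 76) (nat_lit 9374861023) (nat_lit 9) (nat_lit 5) (nat_lit 12) (nat_lit 5) (nat_lit 10) (nat_lit 4) (nat_lit 223) (nat_lit 213) (nat_lit 164)))) (XT.nd (nat_lit 156) (nat_lit 152) (nat_lit 0) (XT.nd (nat_lit 78) (nat_lit 0) (nat_lit 0) (XT.lf (nat_lit 0) (nat_lit 8687776317)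 (nat_lit 76) (nat_lit 35651321737) (nat_lit 152) (nat_lit 19430062025) (nat_lit 8) (nat_lit 5) (nat_lit 9) (nat_lit 5) (nat_lit 10) (nat_lit 4) (nat_lit 224) (nat_lit 213) (nat_lit 163)) (XT.lf (nat_lit 0) (nat_lit 38073956099) (nat_lit 76) (nat_lit 19937987546) (nat_lit 152) (nat_lit 12400257412) (nat_lit 8) (nat_lit 5) (nat_lit 9) (nat_lit 5) (nat_lit 10) (nat_lit 4) (nat_lit 225) (nat_lit 213) (nat_lit 162))) (XT.nd (nat_lit 78) (nat_lit 152) (nat_lit 0) (XT.lf (nat_lit 0) (nat_lit 71861887017) (nat_lit 76) (nat_lit 1869595069) (nat_lit 152) (nat_lit 4320889904) (nat_lit 8) (nat_lit 5) (nat_lit 9) (nat_lit 5) (nat_lit 10) (nat_lit 4) (nat_lit 226) (nat_lit 213) (nat_lit 161)) (XT.lf (nat_lit 0) (nat_lit 6443743465) (nat_lit 152) (nat_lit 61510031791) (nat_lit 76) (nat_lit 18566571848) (nat_lit 6) (nat_lit 5) (nat_lit 8) (nat_lit 5) (nat_lit 7) (nat_lit 4) (nat_lit 227) (nat_lit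 213) (nat_lit 160))))))))
noncomputable def xc40 : XT := (XT.nd (nat_lit 2340) (nat_lit 0) (nat_lit 0) (XT.nd (nat_lit 1170) (nat_lit 76) (nat_lit 0) (XT.nd (nat_lit 546) (nat_lit 152) (nat_lit 0) (XT.nd (nat_lit 234) (nat_lit 76) (nat_lit 0) (XT.nd (nat_lit 78) (nat_lit 76) (nat_lit 0) (XT.lf (nat_lit 0) (nat_lit 18805038047) (nat_lit 152) (nat_lit 34939216536) (nat_lit 76) (nat_lit 42419774399) (nat_lit 6) (nat_lit 5) (nat_lit 8) (nat_lit 5) (nat_lit 7) (nat_lit 4) (nat_lit 228) (nat_lit 213) (nat_lit 159)) (XT.nd (nat_lit 78) (nat_lit 76) (nat_lit 0) (XT.lf (nat_lit 0) (nat_lit 33017319813) (nat_lit 152) (nat_lit 4388000389) (nat_lit 76) (nat_lit 69849446123) (nat_lit 6) (nat_lit 5) (nat_lit 8) (nat_lit 5) (nat_lit 7) (nat_lit 4) (nat_lit 229) (nat_lit 213) (nat_lit 158)) (XT.lf (nat_lit 0) (nat_lit 33745626895) (nat_lit 76) (nat_lit 17010362696) (nat_lit 152) (nat_lit 69043962062)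 (nat_lit 5) (nat_lit 5) (nat_lit 6) (nat_lit 5) (nat_lit 7) (nat_lit 4) (nat_lit 230) (nat_lit 213) (nat_lit 157)))) (XT.nd (nat_lit 156) (nat_lit 76) (nat_lit 0) (XT.nd (nat_lit 78) (nat_lit 0) (nat_lit 0) (XT.lf (nat_lit 0) (nat_lit 71659904672) (nat_lit 152) (nat_lit 56382477053) (nat_lit 0) (nat_lit 6108883065) (nat_lit 5) (nat_lit 5) (nat_lit 7) (nat_lit 4) (nat_lit 5) (nat_lit 4) (nat_lit 231) (nat_lit 213) (nat_lit 156)) (XT.lf (nat_lit 0) (nat_lit 96507097300) (nat_lit 152) (nat_lit 23073930113) (nat_lit 0) (nat_lit 30953108494) (nat_lit 5) (nat_lit 5) (nat_lit 7) (nat_lit 4) (nat_lit 5) (nat_lit 4) (nat_lit 232) (nat_lit 213) (nat_lit 155))) (XT.nd (nat_lit 78) (nat_lit 0) (nat_lit 0) (XT.lf (nat_lit 0) (nat_lit 16715497001) (nat_lit 76) (nat_lit 109056001440) (nat_lit 76) (nat_lit 43499432461) (nat_lit 4) (nat_lit 4) (nat_lit 5) (nat_lit 5) (nat_lit 5) (nat_lit 4) (nat_lit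 233) (nat_lit 213) (nat_lit 154)) (XT.lf (nat_lit 0) (nat_lit 65063162784) (nat_lit 76) (nat_lit 95566635125) (nat_lit 76) (nat_lit 30007822517) (nat_lit 4) (nat_lit 4) (nat_lit 5) (nat_lit 5) (nat_lit 5) (nat_lit 4) (nat_lit 234) (nat_lit 213) (nat_lit 153))))) (XT.nd (nat_lit 312) (nat_lit 0) (nat_lit 0) (XT.nd (nat_lit 156) (nat_lit 76) (nat_lit 0) (XT.nd (nat_lit 78) (nat_lit 76) (nat_lit 0) (XT.lf (nat_lit 0) (nat_lit 120660047567) (nat_lit 76) (nat_lit 80055143340) (nat_lit 76) (nat_lit 14494379751) (nat_lit 4) (nat_lit 4) (nat_lit 5) (nat_lit 5) (nat_lit 5) (nat_lit 4) (nat_lit 235) (nat_lit 213) (nat_lit 152)) (XT.lf (nat_lit 0) (nat_lit 3046676347) (nat_lit 152) (nat_lit 59012105946) (nat_lit 76) (nat_lit 181387982055) (nat_lit 3) (nat_lit 5) (nat_lit 5) (nat_lit 5) (nat_lit 4) (nat_lit 4) (nat_lit 236) (nat_lit 213) (nat_lit 151))) (XT.nd (nat_lit 78) (nat_lit 76) (nat_lit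 0) (XT.lf (nat_lit 0) (nat_lit 21733627717) (nat_lit 152) (nat_lit 18836635724) (nat_lit 76) (nat_lit 235245945871) (nat_lit 3) (nat_lit 5) (nat_lit 5) (nat_lit 5) (nat_lit 4) (nat_lit 4) (nat_lit 237) (nat_lit 213) (nat_lit 150)) (XT.lf (nat_lit 0) (nat_lit 30037232924) (nat_lit 76) (nat_lit 14429023374) (nat_lit 152) (nat_lit 268388425017) (nat_lit 2) (nat_lit 5) (nat_lit 3) (nat_lit 5) (nat_lit 4) (nat_lit 4) (nat_lit 238) (nat_lit 213) (nat_lit 149)))) (XT.nd (nat_lit 156) (nat_lit 0) (nat_lit 0) (XT.nd (nat_lit 78) (nat_lit 0) (nat_lit 0) (XT.lf (nat_lit 0) (nat_lit 72286543861) (nat_lit 152) (nat_lit 267638379580) (nat_lit 0) (nat_lit 15272340731) (nat_lit 2) (nat_lit 5) (nat_lit 4) (nat_lit 4) (nat_lit 2) (nat_lit 4) (nat_lit 239) (nat_lit 213) (nat_lit 148)) (XT.lf (nat_lit 0) (nat_lit 104966004624) (nat_lit 152) (nat_lit 250871356429) (nat_lit 0) (nat_lit 47950958031) (nat_lit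 2) (nat_lit 5) (nat_lit 4) (nat_lit 4) (nat_lit 2) (nat_lit 4) (nat_lit 240) (nat_lit 213) (nat_lit 147))) (XT.nd (nat_lit 78) (nat_lit 0) (nat_lit 0) (XT.lf (nat_lit 0) (nat_lit 142546544254) (nat_lit 152) (nat_lit 231590853397) (nat_lit 0) (nat_lit 85530764215) (nat_lit 2) (nat_lit 5) (nat_lit 4) (nat_lit 4) (nat_lit 2) (nat_lit 4) (nat_lit 241) (nat_lit 213) (nat_lit 146)) (XT.lf (nat_lit 0) (nat_lit 185763434180) (nat_lit 152) (nat_lit 209419643251) (nat_lit 0) (nat_lit 128747016361) (nat_lit 2) (nat_lit 5) (nat_lit 4) (nat_lit 4) (nat_lit 2) (nat_lit 4) (nat_lit 242) (nat_lit 213) (nat_lit 145)))))) (XT.nd (nat_lit 546) (nat_lit 0) (nat_lit 0) (XT.nd (nat_lit 234) (nat_lit 76) (nat_lit 0) (XT.nd (nat_lit 78) (nat_lit 0) (nat_lit 0) (XT.lf (nat_lit 0) (nat_lit 235462222246) (nat_lit 152) (nat_lit 183923941445) (nat_lit 0) (nat_lit 178445249837) (nat_lit 2) (nat_lit 5) (nat_lit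 4) (nat_lit 4) (nat_lit 2) (nat_lit 4) (nat_lit 243) (nat_lit 213) (nat_lit 144)) (XT.nd (nat_lit 78) (nat_lit 0) (nat_lit 0) (XT.lf (nat_lit 0) (nat_lit 292615276046) (nat_lit 152) (nat_lit 154604919030) (nat_lit 0) (nat_lit 235597821384) (nat_lit 2) (nat_lit 5) (nat_lit 4) (nat_lit 4) (nat_lit 2) (nat_lit 4) (nat_lit 244) (nat_lit 213) (nat_lit 143)) (XT.lf (nat_lit 0) (nat_lit 358340807503) (nat_lit 152) (nat_lit 120888942959) (nat_lit 0) (nat_lit 301322933491) (nat_lit 2) (nat_lit 5) (nat_lit 4) (nat_lit 4) (nat_lit 2) (nat_lit 4) (nat_lit 245) (nat_lit 213) (nat_lit 142)))) (XT.nd (nat_lit 156) (nat_lit 76) (nat_lit 0) (XT.nd (nat_lit 78) (nat_lit 0) (nat_lit 0) (XT.lf (nat_lit 0) (nat_lit 433924750926) (nat_lit 152) (nat_lit 82116352831) (nat_lit 0) (nat_lit 376906512262) (nat_lit 2) (nat_lit 5) (nat_lit 4) (nat_lit 4) (nat_lit 2) (nat_lit 4) (nat_lit 246) (nat_lit 213) (nat_lit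 141)) (XT.lf (nat_lit 0) (nat_lit 520845922601) (nat_lit 152) (nat_lit 37528554491) (nat_lit 0) (nat_lit 463827366848) (nat_lit 2) (nat_lit 5) (nat_lit 4) (nat_lit 4) (nat_lit 2) (nat_lit 4) (nat_lit 247) (nat_lit 213) (nat_lit 140))) (XT.nd (nat_lit 78) (nat_lit 0) (nat_lit 0) (XT.lf (nat_lit 0) (nat_lit 15090261452) (nat_lit 76) (nat_lit 606339548241) (nat_lit 76) (nat_lit 549320716758) (nat_lit 1) (nat_lit 4) (nat_lit 2) (nat_lit 5) (nat_lit 2) (nat_lit 4) (nat_lit 248) (nat_lit 213) (nat_lit 139)) (XT.lf (nat_lit 0) (nat_lit 79819032879) (nat_lit 76) (nat_lit 659243668805) (nat_lit 76) (nat_lit 602224597557) (nat_lit 1) (nat_lit 4) (nat_lit 2) (nat_lit 5) (nat_lit 2) (nat_lit 4) (nat_lit 249) (nat_lit 213) (nat_lit 138))))) (XT.nd (nat_lit 312) (nat_lit 0) (nat_lit 0) (XT.nd (nat_lit 156) (nat_lit 0) (nat_lit 0) (XT.nd (nat_lit 78) (nat_lit 0) (nat_lit 0) (XT.lf (nat_lit 0) (nat_lit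 154256628991) (nat_lit 76) (nat_lit 720083639298) (nat_lit 76) (nat_lit 663064359559) (nat_lit 1) (nat_lit 4) (nat_lit 2) (nat_lit 5) (nat_lit 2) (nat_lit 4) (nat_lit 250) (nat_lit 213) (nat_lit 137)) (XT.lf (nat_lit 0) (nat_lit 239859437540) (nat_lit 76) (nat_lit 790049806970) (nat_lit 76) (nat_lit 733030345934) (nat_lit 1) (nat_lit 4) (nat_lit 2) (nat_lit 5) (nat_lit 2) (nat_lit 4) (nat_lit 251) (nat_lit 213) (nat_lit 136))) (XT.nd (nat_lit 78) (nat_lit 0) (nat_lit 0) (XT.lf (nat_lit 0) (nat_lit 338302296084) (nat_lit 76) (nat_lit 870511075099) (nat_lit 76) (nat_lit 813491456414) (nat_lit 1) (nat_lit 4) (nat_lit 2) (nat_lit 5) (nat_lit 2) (nat_lit 4) (nat_lit 252) (nat_lit 213) (nat_lit 135)) (XT.lf (nat_lit 0) (nat_lit 451511260550) (nat_lit 76) (nat_lit 963041685890) (nat_lit 76) (nat_lit 906021930119) (nat_lit 1) (nat_lit 4) (nat_lit 2) (nat_lit 5) (nat_lit 2) (nat_lit 4) (nat_lit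 253) (nat_lit 213) (nat_lit 134)))) (XT.nd (nat_lit 156) (nat_lit 0) (nat_lit 0) (XT.nd (nat_lit 78) (nat_lit 0) (nat_lit 0) (XT.lf (nat_lit 0) (nat_lit 581701288940) (nat_lit 76) (nat_lit 1069452020858) (nat_lit 76) (nat_lit 1012432145880) (nat_lit 1) (nat_lit 4) (nat_lit 2) (nat_lit 5) (nat_lit 2) (nat_lit 4) (nat_lit 254) (nat_lit 213) (nat_lit 133)) (XT.lf (nat_lit 0) (nat_lit 731419577460) (nat_lit 76) (nat_lit 1191824021338) (nat_lit 76) (nat_lit 1134804042704) (nat_lit 1) (nat_lit 4) (nat_lit 2) (nat_lit 5) (nat_lit 2) (nat_lit 4) (nat_lit 255) (nat_lit 213) (nat_lit 132))) (XT.nd (nat_lit 78) (nat_lit 0) (nat_lit 0) (XT.lf (nat_lit 0) (nat_lit 903595396974) (nat_lit 76) (nat_lit 1332551922123) (nat_lit 76) (nat_lit 1275531853352) (nat_lit 1) (nat_lit 4) (nat_lit 2) (nat_lit 5) (nat_lit 2) (nat_lit 4) (nat_lit 256) (nat_lit 213) (nat_lit 131)) (XT.lf (nat_lit 0) (nat_lit 1101597404819)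 (nat_lit 76) (nat_lit 1494389095185) (nat_lit 76) (nat_lit 1437368948035) (nat_lit 1) (nat_lit 4) (nat_lit 2) (nat_lit 5) (nat_lit 2) (nat_lit 4) (nat_lit 257) (nat_lit 213) (nat_lit 130))))))) (XT.nd (nat_lit 1482) (nat_lit 0) (nat_lit 0) (XT.nd (nat_lit 546) (nat_lit 0) (nat_lit 0) (XT.nd (nat_lit 234) (nat_lit 0) (nat_lit 0) (XT.nd (nat_lit 78) (nat_lit 0) (nat_lit 0) (XT.lf (nat_lit 0) (nat_lit 1329299553324) (nat_lit 76) (nat_lit 1680501919996) (nat_lit 76) (nat_lit 1623481704690) (nat_lit 1) (nat_lit 4) (nat_lit 2) (nat_lit 5) (nat_lit 2) (nat_lit 4) (nat_lit 258) (nat_lit 213) (nat_lit 129)) (XT.nd (nat_lit 78) (nat_lit 0) (nat_lit 0) (XT.lf (nat_lit 0) (nat_lit 1591156884523) (nat_lit 76) (nat_lit 1894531734435) (nat_lit 76) (nat_lit 1837511459862) (nat_lit 1) (nat_lit 4) (nat_lit 2) (nat_lit 5) (nat_lit 2) (nat_lit 4) (nat_lit 259) (nat_lit 213) (nat_lit 128)) (XT.lf (nat_lit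 0) (nat_lit 1892292694027) (nat_lit 76) (nat_lit 2140666078347) (nat_lit 76) (nat_lit 2083645752238) (nat_lit 1) (nat_lit 4) (nat_lit 2) (nat_lit 5) (nat_lit 2) (nat_lit 4) (nat_lit 260) (nat_lit 213) (nat_lit 127)))) (XT.nd (nat_lit 156) (nat_lit 0) (nat_lit 0) (XT.nd (nat_lit 78) (nat_lit 0) (nat_lit 0) (XT.lf (nat_lit 0) (nat_lit 2238598769415) (nat_lit 76) (nat_lit 2423720623679) (nat_lit 76) (nat_lit 2366700252757) (nat_lit 1) (nat_lit 4) (nat_lit 2) (nat_lit 5) (nat_lit 2) (nat_lit 4) (nat_lit 261) (nat_lit 213) (nat_lit 126)) (XT.lf (nat_lit 0) (nat_lit 2636850664333) (nat_lit 76) (nat_lit 2749233394145) (nat_lit 76) (nat_lit 2692212984255) (nat_lit 1) (nat_lit 4) (nat_lit 2) (nat_lit 5) (nat_lit 2) (nat_lit 4) (nat_lit 262) (nat_lit 213) (nat_lit 125))) (XT.nd (nat_lit 78) (nat_lit 0) (nat_lit 0) (XT.lf (nat_lit 0) (nat_lit 3094840263684) (nat_lit 76) (nat_lit 3123573117862)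 (nat_lit 76) (nat_lit 3066552674086) (nat_lit 1) (nat_lit 4) (nat_lit 2) (nat_lit 5) (nat_lit 2) (nat_lit 4) (nat_lit 263) (nat_lit 213) (nat_lit 124)) (XT.lf (nat_lit 0) (nat_lit 3621528233541) (nat_lit 76) (nat_lit 3554063832903) (nat_lit 76) (nat_lit 3497043359661) (nat_lit 1) (nat_lit 4) (nat_lit 2) (nat_lit 5) (nat_lit 2) (nat_lit 4) (nat_lit 264) (nat_lit 213) (nat_lit 123))))) (XT.nd (nat_lit 312) (nat_lit 0) (nat_lit 0) (XT.nd (nat_lit 156) (nat_lit 0) (nat_lit 0) (XT.nd (nat_lit 78) (nat_lit 0) (nat_lit 0) (XT.lf (nat_lit 0) (nat_lit 4227219338532) (nat_lit 76) (nat_lit 4049128183692) (nat_lit 76) (nat_lit 3992107684828) (nat_lit 1) (nat_lit 4) (nat_lit 2) (nat_lit 5) (nat_lit 2) (nat_lit 4) (nat_lit 265) (nat_lit 213) (nat_lit 122)) (XT.lf (nat_lit 0) (nat_lit 4923764056797) (nat_lit 76) (nat_lit 4618452211876) (nat_lit 76) (nat_lit 4561431690731) (nat_lit 1) (nat_lit 4)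 (nat_lit 2) (nat_lit 5) (nat_lit 2) (nat_lit 4) (nat_lit 266) (nat_lit 213) (nat_lit 121))) (XT.nd (nat_lit 78) (nat_lit 0) (nat_lit 0) (XT.lf (nat_lit 0) (nat_lit 5724790437174) (nat_lit 76) (nat_lit 5273174865831) (nat_lit 76) (nat_lit 5216154325312) (nat_lit 1) (nat_lit 4) (nat_lit 2) (nat_lit 5) (nat_lit 2) (nat_lit 4) (nat_lit 267) (nat_lit 213) (nat_lit 120)) (XT.lf (nat_lit 0) (nat_lit 6645970734930) (nat_lit 76) (nat_lit 6026105936615) (nat_lit 76) (nat_lit 5969085379249) (nat_lit 1) (nat_lit 4) (nat_lit 2) (nat_lit 5) (nat_lit 2) (nat_lit 4) (nat_lit 268) (nat_lit 213) (nat_lit 119)))) (XT.nd (nat_lit 156) (nat_lit 0) (nat_lit 0) (XT.nd (nat_lit 78) (nat_lit 0) (nat_lit 0) (XT.lf (nat_lit 0) (nat_lit 7705328042846) (nat_lit 76) (nat_lit 6891976684306) (nat_lit 76) (nat_lit 6834956112290) (nat_lit 1) (nat_lit 4) (nat_lit 2) (nat_lit 5) (nat_lit 2) (nat_lit 4) (nat_lit 269)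 (nat_lit 213) (nat_lit 118)) (XT.lf (nat_lit 0) (nat_lit 8923588916949) (nat_lit 76) (nat_lit 7887728058317) (nat_lit 76) (nat_lit 7830707473562) (nat_lit 1) (nat_lit 4) (nat_lit 2) (nat_lit 5) (nat_lit 2) (nat_lit 4) (nat_lit 270) (nat_lit 213) (nat_lit 117))) (XT.nd (nat_lit 78) (nat_lit 0) (nat_lit 0) (XT.lf (nat_lit 0) (nat_lit 10324588896077) (nat_lit 76) (nat_lit 9032842150747) (nat_lit 76) (nat_lit 8975821554915) (nat_lit 1) (nat_lit 4) (nat_lit 2) (nat_lit 5) (nat_lit 2) (nat_lit 4) (nat_lit 271) (nat_lit 213) (nat_lit 116)) (XT.lf (nat_lit 0) (nat_lit 11935738849390) (nat_lit 76) (nat_lit 10349723367754) (nat_lit 76) (nat_lit 10292702762290) (nat_lit 1) (nat_lit 4) (nat_lit 2) (nat_lit 5) (nat_lit 2) (nat_lit 4) (nat_lit 272) (nat_lit 213) (nat_lit 115)))))) (XT.nd (nat_lit 26598) (nat_lit 0) (nat_lit 608) (XT.nd (nat_lit 312) (nat_lit 0) (nat_lit 0) (XT.nd (nat_lit 156) (nat_lit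 0) (nat_lit 0) (XT.nd (nat_lit 78) (nat_lit 0) (nat_lit 0) (XT.lf (nat_lit 0) (nat_lit 24428173861343) (nat_lit 76) (nat_lit 20560476023871) (nat_lit 76) (nat_lit 20503455386117) (nat_lit 1) (nat_lit 4) (nat_lit 2) (nat_lit 5) (nat_lit 2) (nat_lit 4) (nat_lit 277) (nat_lit 213) (nat_lit 110)) (XT.lf (nat_lit 0) (nat_lit 28154861473591) (nat_lit 76) (nat_lit 23606502362383) (nat_lit 76) (nat_lit 23549481720465) (nat_lit 1) (nat_lit 4) (nat_lit 2) (nat_lit 5) (nat_lit 2) (nat_lit 4) (nat_lit 278) (nat_lit 213) (nat_lit 109))) (XT.nd (nat_lit 78) (nat_lit 0) (nat_lit 0) (XT.lf (nat_lit 0) (nat_lit 32440552219149) (nat_lit 76) (nat_lit 27109432655698) (nat_lit 76) (nat_lit 27052412010159) (nat_lit 1) (nat_lit 4) (nat_lit 2) (nat_lit 5) (nat_lit 2) (nat_lit 4) (nat_lit 279) (nat_lit 213) (nat_lit 108)) (XT.lf (nat_lit 0) (nat_lit 37369096569124) (nat_lit 76) (nat_lit 31137802496513) (nat_lit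 76) (nat_lit 31080781847825) (nat_lit 1) (nat_lit 4) (nat_lit 2) (nat_lit 5) (nat_lit 2) (nat_lit 4) (nat_lit 280) (nat_lit 213) (nat_lit 107)))) (XT.nd (nat_lit 26130) (nat_lit 0) (nat_lit 1140) (XT.nd (nat_lit 26052) (nat_lit 0) (nat_lit 1140) (XT.lf (nat_lit 0) (nat_lit 43036922565146) (nat_lit 76) (nat_lit 35770427816494) (nat_lit 76) (nat_lit 35713407165068) (nat_lit 1) (nat_lit 4) (nat_lit 2) (nat_lit 5) (nat_lit 2) (nat_lit 4) (nat_lit 281) (nat_lit 213) (nat_lit 106)) (XT.lf (nat_lit 0) (nat_lit 6413326859) (nat_lit 0) (nat_lit 6413326859) (nat_lit 228) (nat_lit 1727538835) (nat_lit 16) (nat_lit 5) (nat_lit 16) (nat_lit 3) (nat_lit 19) (nat_lit 3) (nat_lit 214) (nat_lit 214) (nat_lit 172))) (XT.nd (nat_lit 78) (nat_lit 0) (nat_lit 0) (XT.lf (nat_lit 0) (nat_lit 26902434464) (nat_lit 0) (nat_lit 738304635) (nat_lit 228) (nat_lit 3640380337) (nat_lit 16) (nat_lit 5) (nat_lit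 16) (nat_lit 3) (nat_lit 19) (nat_lit 3) (nat_lit 215) (nat_lit 214) (nat_lit 171)) (XT.lf (nat_lit 76) (nat_lit 9612822344) (nat_lit 0) (nat_lit 21245512937) (nat_lit 304) (nat_lit 2781777767) (nat_lit 17) (nat_lit 5) (nat_lit 16) (nat_lit 5) (nat_lit 20) (nat_lit 5) (nat_lit 216) (nat_lit 214) (nat_lit 170))))) (XT.nd (nat_lit 312) (nat_lit 152) (nat_lit 0) (XT.nd (nat_lit 156) (nat_lit 152) (nat_lit 0) (XT.nd (nat_lit 78) (nat_lit 228) (nat_lit 0) (XT.lf (nat_lit 76) (nat_lit 26149186565) (nat_lit 0) (nat_lit 8661905777) (nat_lit 304) (nat_lit 1504121319) (nat_lit 17) (nat_lit 5) (nat_lit 16) (nat_lit 5) (nat_lit 20) (nat_lit 5) (nat_lit 217) (nat_lit 214) (nat_lit 169)) (XT.lf (nat_lit 0) (nat_lit 474374835) (nat_lit 304) (nat_lit 33274789614) (nat_lit 76) (nat_lit 5566820389) (nat_lit 13) (nat_lit 5) (nat_lit 17) (nat_lit 5) (nat_lit 14) (nat_lit 5) (nat_lit 218) (nat_lit 214)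 (nat_lit 168))) (XT.nd (nat_lit 78) (nat_lit 152) (nat_lit 0) (XT.lf (nat_lit 0) (nat_lit 3556635298) (nat_lit 304) (nat_lit 17382991590) (nat_lit 76) (nat_lit 21672443126) (nat_lit 13) (nat_lit 5) (nat_lit 17) (nat_lit 5) (nat_lit 14) (nat_lit 5) (nat_lit 219) (nat_lit 214) (nat_lit 167)) (XT.lf (nat_lit 0) (nat_lit 971736462) (nat_lit 152) (nat_lit 6162605946) (nat_lit 228) (nat_lit 39263337281) (nat_lit 11) (nat_lit 5) (nat_lit 13) (nat_lit 5) (nat_lit 14) (nat_lit 5) (nat_lit 220) (nat_lit 214) (nat_lit 166)))) (XT.nd (nat_lit 156) (nat_lit 152) (nat_lit 0) (XT.nd (nat_lit 78) (nat_lit 0) (nat_lit 0) (XT.lf (nat_lit 0) (nat_lit 12642606345) (nat_lit 228) (nat_lit 27081339840) (nat_lit 76) (nat_lit 10818167220) (nat_lit 11) (nat_lit 5) (nat_lit 14) (nat_lit 5) (nat_lit 12) (nat_lit 5) (nat_lit 221) (nat_lit 214) (nat_lit 165)) (XT.lf (nat_lit 0) (nat_lit 19264904461) (nat_lit 228)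 (nat_lit 6285490998) (nat_lit 76) (nat_lit 29714706403) (nat_lit 11) (nat_lit 5) (nat_lit 14) (nat_lit 5) (nat_lit 12) (nat_lit 5) (nat_lit 222) (nat_lit 214) (nat_lit 164))) (XT.nd (nat_lit 78) (nat_lit 0) (nat_lit 0) (XT.lf (nat_lit 0) (nat_lit 19345971098) (nat_lit 152) (nat_lit 8330727397) (nat_lit 228) (nat_lit 32900468605) (nat_lit 9) (nat_lit 5) (nat_lit 11) (nat_lit 5) (nat_lit 12) (nat_lit 5) (nat_lit 223) (nat_lit 214) (nat_lit 163)) (XT.lf (nat_lit 0) (nat_lit 38164918631) (nat_lit 228) (nat_lit 17605344333) (nat_lit 76) (nat_lit 10793625126) (nat_lit 9) (nat_lit 5) (nat_lit 12) (nat_lit 5) (nat_lit 10) (nat_lit 4) (nat_lit 224) (nat_lit 214) (nat_lit 162))))))))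
noncomputable def xc41 : XT := (XT.nd (nat_lit 2418) (nat_lit 0) (nat_lit 0) (XT.nd (nat_lit 1170) (nat_lit 76) (nat_lit 0) (XT.nd (nat_lit 546) (nat_lit 228) (nat_lit 0) (XT.nd (nat_lit 234) (nat_lit 228) (nat_lit 0) (XT.nd (nat_lit 78) (nat_lit 0) (nat_lit 0) (XT.lf (nat_lit 0) (nat_lit 10057440681) (nat_lit 76) (nat_lit 40978111319) (nat_lit 152) (nat_lit 22291726906) (nat_lit 8) (nat_lit 5) (nat_lit 9) (nat_lit 5) (nat_lit 10) (nat_lit 4) (nat_lit 225) (nat_lit 214) (nat_lit 161)) (XT.nd (nat_lit 78) (nat_lit 0) (nat_lit 0) (XT.lf (nat_lit 0) (nat_lit 43842873790) (nat_lit 76) (nat_lit 22910504218) (nat_lit 152) (nat_lit 14214344352) (nat_lit 8) (nat_lit 5) (nat_lit 9) (nat_lit 5) (nat_lit 10) (nat_lit 4) (nat_lit 226) (nat_lit 214) (nat_lit 160)) (XT.lf (nat_lit 0) (nat_lit 82691452048) (nat_lit 76) (nat_lit 2134224364) (nat_lit 152) (nat_lit 4929065414) (nat_lit 8) (nat_lit 5)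 (nat_lit 9) (nat_lit 5) (nat_lit 10) (nat_lit 4) (nat_lit 227) (nat_lit 214) (nat_lit 159)))) (XT.nd (nat_lit 156) (nat_lit 76) (nat_lit 0) (XT.nd (nat_lit 78) (nat_lit 0) (nat_lit 0) (XT.lf (nat_lit 0) (nat_lit 7444836214) (nat_lit 152) (nat_lit 70680315475) (nat_lit 76) (nat_lit 21367829489) (nat_lit 6) (nat_lit 5) (nat_lit 8) (nat_lit 5) (nat_lit 7) (nat_lit 4) (nat_lit 228) (nat_lit 214) (nat_lit 158)) (XT.lf (nat_lit 0) (nat_lit 21655820910) (nat_lit 152) (nat_lit 40131211117) (nat_lit 76) (nat_lit 48796890006) (nat_lit 6) (nat_lit 5) (nat_lit 8) (nat_lit 5) (nat_lit 7) (nat_lit 4) (nat_lit 229) (nat_lit 214) (nat_lit 157))) (XT.nd (nat_lit 78) (nat_lit 76) (nat_lit 0) (XT.lf (nat_lit 0) (nat_lit 37996028355) (nat_lit 152) (nat_lit 5003689230) (nat_lit 76) (nat_lit 80339166909) (nat_lit 6) (nat_lit 5) (nat_lit 8) (nat_lit 5) (nat_lit 7) (nat_lit 4) (nat_lit 230) (nat_lit 214)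 (nat_lit 156)) (XT.lf (nat_lit 0) (nat_lit 38848049819) (nat_lit 76) (nat_lit 19545723340) (nat_lit 152) (nat_lit 79372356782) (nat_lit 5) (nat_lit 5) (nat_lit 6) (nat_lit 5) (nat_lit 7) (nat_lit 4) (nat_lit 231) (nat_lit 214) (nat_lit 155))))) (XT.nd (nat_lit 312) (nat_lit 152) (nat_lit 0) (XT.nd (nat_lit 156) (nat_lit 76) (nat_lit 0) (XT.nd (nat_lit 78) (nat_lit 0) (nat_lit 0) (XT.lf (nat_lit 0) (nat_lit 82430677919) (nat_lit 152) (nat_lit 64801828785) (nat_lit 0) (nat_lit 7038043420) (nat_lit 5) (nat_lit 5) (nat_lit 7) (nat_lit 4) (nat_lit 5) (nat_lit 4) (nat_lit 232) (nat_lit 214) (nat_lit 154)) (XT.lf (nat_lit 0) (nat_lit 111002107587) (nat_lit 152) (nat_lit 26501958912) (nat_lit 0) (nat_lit 35607229459) (nat_lit 5) (nat_lit 5) (nat_lit 7) (nat_lit 4) (nat_lit 5) (nat_lit 4) (nat_lit 233) (nat_lit 214) (nat_lit 153))) (XT.nd (nat_lit 78) (nat_lit 0) (nat_lit 0) (XT.lf (nat_lit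 0) (nat_lit 19254379509) (nat_lit 76) (nat_lit 125400624960) (nat_lit 76) (nat_lit 50003795851) (nat_lit 4) (nat_lit 4) (nat_lit 5) (nat_lit 5) (nat_lit 5) (nat_lit 4) (nat_lit 234) (nat_lit 214) (nat_lit 152)) (XT.lf (nat_lit 0) (nat_lit 74850078905) (nat_lit 76) (nat_lit 109889650659) (nat_lit 76) (nat_lit 34491125044) (nat_lit 4) (nat_lit 4) (nat_lit 5) (nat_lit 5) (nat_lit 5) (nat_lit 4) (nat_lit 235) (nat_lit 214) (nat_lit 151)))) (XT.nd (nat_lit 156) (nat_lit 76) (nat_lit 0) (XT.nd (nat_lit 78) (nat_lit 76) (nat_lit 0) (XT.lf (nat_lit 0) (nat_lit 138782917052) (nat_lit 76) (nat_lit 92052997680) (nat_lit 76) (nat_lit 16652996843) (nat_lit 4) (nat_lit 4) (nat_lit 5) (nat_lit 5) (nat_lit 5) (nat_lit 4) (nat_lit 236) (nat_lit 214) (nat_lit 150)) (XT.lf (nat_lit 0) (nat_lit 3515987716) (nat_lit 152) (nat_lit 67841910048) (nat_lit 76) (nat_lit 208603975844) (nat_lit 3) (nat_lit 5)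 (nat_lit 5) (nat_lit 5) (nat_lit 4) (nat_lit 4) (nat_lit 237) (nat_lit 214) (nat_lit 149))) (XT.nd (nat_lit 78) (nat_lit 76) (nat_lit 0) (XT.lf (nat_lit 0) (nat_lit 25004376150) (nat_lit 152) (nat_lit 21642990396) (nat_lit 76) (nat_lit 270539617300) (nat_lit 3) (nat_lit 5) (nat_lit 5) (nat_lit 5) (nat_lit 4) (nat_lit 4) (nat_lit 238) (nat_lit 214) (nat_lit 148)) (XT.lf (nat_lit 0) (nat_lit 34561088519) (nat_lit 76) (nat_lit 16585170839) (nat_lit 152) (nat_lit 308635069922) (nat_lit 2) (nat_lit 5) (nat_lit 3) (nat_lit 5) (nat_lit 4) (nat_lit 4) (nat_lit 239) (nat_lit 214) (nat_lit 147)))))) (XT.nd (nat_lit 624) (nat_lit 76) (nat_lit 0) (XT.nd (nat_lit 312) (nat_lit 0) (nat_lit 0) (XT.nd (nat_lit 156) (nat_lit 0) (nat_lit 0) (XT.nd (nat_lit 78) (nat_lit 0) (nat_lit 0) (XT.lf (nat_lit 0) (nat_lit 83138572752) (nat_lit 152) (nat_lit 307767192956) (nat_lit 0) (nat_lit 17569692261) (nat_lit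 2) (nat_lit 5) (nat_lit 4) (nat_lit 4) (nat_lit 2) (nat_lit 4) (nat_lit 240) (nat_lit 214) (nat_lit 146)) (XT.lf (nat_lit 0) (nat_lit 120718772545) (nat_lit 152) (nat_lit 288487326362) (nat_lit 0) (nat_lit 55149254275) (nat_lit 2) (nat_lit 5) (nat_lit 4) (nat_lit 4) (nat_lit 2) (nat_lit 4) (nat_lit 241) (nat_lit 214) (nat_lit 145))) (XT.nd (nat_lit 78) (nat_lit 0) (nat_lit 0) (XT.lf (nat_lit 0) (nat_lit 163935366960) (nat_lit 152) (nat_lit 266316669640) (nat_lit 0) (nat_lit 98365294099) (nat_lit 2) (nat_lit 5) (nat_lit 4) (nat_lit 4) (nat_lit 2) (nat_lit 4) (nat_lit 242) (nat_lit 214) (nat_lit 144)) (XT.lf (nat_lit 0) (nat_lit 213633898061) (nat_lit 152) (nat_lit 240821449072) (nat_lit 0) (nat_lit 148063342947) (nat_lit 2) (nat_lit 5) (nat_lit 4) (nat_lit 4) (nat_lit 2) (nat_lit 4) (nat_lit 243) (nat_lit 214) (nat_lit 143)))) (XT.nd (nat_lit 156) (nat_lit 0) (nat_lit 0) (XT.nd (nat_lit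 78) (nat_lit 0) (nat_lit 0) (XT.lf (nat_lit 0) (nat_lit 270786728413) (nat_lit 152) (nat_lit 211502845125) (nat_lit 0) (nat_lit 205215753949) (nat_lit 2) (nat_lit 5) (nat_lit 4) (nat_lit 4) (nat_lit 2) (nat_lit 4) (nat_lit 244) (nat_lit 214) (nat_lit 142)) (XT.lf (nat_lit 0) (nat_lit 336512065567) (nat_lit 152) (nat_lit 177787232940) (nat_lit 0) (nat_lit 270940726450) (nat_lit 2) (nat_lit 5) (nat_lit 4) (nat_lit 4) (nat_lit 2) (nat_lit 4) (nat_lit 245) (nat_lit 214) (nat_lit 141))) (XT.nd (nat_lit 78) (nat_lit 0) (nat_lit 0) (XT.lf (nat_lit 0) (nat_lit 412095840031) (nat_lit 152) (nat_lit 139014959234) (nat_lit 0) (nat_lit 346524183825) (nat_lit 2) (nat_lit 5) (nat_lit 4) (nat_lit 4) (nat_lit 2) (nat_lit 4) (nat_lit 246) (nat_lit 214) (nat_lit 140)) (XT.lf (nat_lit 0) (nat_lit 499016864785) (nat_lit 152) (nat_lit 94427436044) (nat_lit 0) (nat_lit 433444932850) (nat_lit 2) (nat_lit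 5) (nat_lit 4) (nat_lit 4) (nat_lit 2) (nat_lit 4) (nat_lit 247) (nat_lit 214) (nat_lit 139))))) (XT.nd (nat_lit 312) (nat_lit 0) (nat_lit 0) (XT.nd (nat_lit 156) (nat_lit 0) (nat_lit 0) (XT.nd (nat_lit 78) (nat_lit 76) (nat_lit 0) (XT.lf (nat_lit 0) (nat_lit 598975768574) (nat_lit 152) (nat_lit 43152298785) (nat_lit 0) (nat_lit 533403596874) (nat_lit 2) (nat_lit 5) (nat_lit 4) (nat_lit 4) (nat_lit 2) (nat_lit 4) (nat_lit 248) (nat_lit 214) (nat_lit 138)) (XT.lf (nat_lit 0) (nat_lit 17359087783) (nat_lit 76) (nat_lit 697287984104) (nat_lit 76) (nat_lit 631715603912) (nat_lit 1) (nat_lit 4) (nat_lit 2) (nat_lit 5) (nat_lit 2) (nat_lit 4) (nat_lit 249) (nat_lit 214) (nat_lit 137))) (XT.nd (nat_lit 78) (nat_lit 0) (nat_lit 0) (XT.lf (nat_lit 0) (nat_lit 91796485300) (nat_lit 76) (nat_lit 758128048366) (nat_lit 76) (nat_lit 692555486878) (nat_lit 1) (nat_lit 4) (nat_lit 2) (nat_lit 5)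 (nat_lit 2) (nat_lit 4) (nat_lit 250) (nat_lit 214) (nat_lit 136)) (XT.lf (nat_lit 0) (nat_lit 177399121157) (nat_lit 76) (nat_lit 828094297576) (nat_lit 76) (nat_lit 762521578439) (nat_lit 1) (nat_lit 4) (nat_lit 2) (nat_lit 5) (nat_lit 2) (nat_lit 4) (nat_lit 251) (nat_lit 214) (nat_lit 135)))) (XT.nd (nat_lit 156) (nat_lit 0) (nat_lit 0) (XT.nd (nat_lit 78) (nat_lit 0) (nat_lit 0) (XT.lf (nat_lit 0) (nat_lit 275841829534) (nat_lit 76) (nat_lit 908555636609) (nat_lit 76) (nat_lit 842982780385) (nat_lit 1) (nat_lit 4) (nat_lit 2) (nat_lit 5) (nat_lit 2) (nat_lit 4) (nat_lit 252) (nat_lit 214) (nat_lit 134)) (XT.lf (nat_lit 0) (nat_lit 389050663420) (nat_lit 76) (nat_lit 1001086309054) (nat_lit 76) (nat_lit 935513333625) (nat_lit 1) (nat_lit 4) (nat_lit 2) (nat_lit 5) (nat_lit 2) (nat_lit 4) (nat_lit 253) (nat_lit 214) (nat_lit 133))) (XT.nd (nat_lit 78) (nat_lit 0) (nat_lit 0) (XT.lf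 (nat_lit 0) (nat_lit 519240578262) (nat_lit 76) (nat_lit 1107496697635) (nat_lit 76) (nat_lit 1041923618549) (nat_lit 1) (nat_lit 4) (nat_lit 2) (nat_lit 5) (nat_lit 2) (nat_lit 4) (nat_lit 254) (nat_lit 214) (nat_lit 132)) (XT.lf (nat_lit 0) (nat_lit 668958768046) (nat_lit 76) (nat_lit 1229868744735) (nat_lit 76) (nat_lit 1164295575512) (nat_lit 1) (nat_lit 4) (nat_lit 2) (nat_lit 5) (nat_lit 2) (nat_lit 4) (nat_lit 255) (nat_lit 214) (nat_lit 131))))))) (XT.nd (nat_lit 1170) (nat_lit 0) (nat_lit 0) (XT.nd (nat_lit 546) (nat_lit 0) (nat_lit 0) (XT.nd (nat_lit 234) (nat_lit 0) (nat_lit 0) (XT.nd (nat_lit 78) (nat_lit 0) (nat_lit 0) (XT.lf (nat_lit 0) (nat_lit 841134501701) (nat_lit 76) (nat_lit 1370596686059) (nat_lit 76) (nat_lit 1305023438457) (nat_lit 1) (nat_lit 4) (nat_lit 2) (nat_lit 5) (nat_lit 2) (nat_lit 4) (nat_lit 256) (nat_lit 214) (nat_lit 130)) (XT.nd (nat_lit 78) (nat_lit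 0) (nat_lit 0) (XT.lf (nat_lit 0) (nat_lit 1039136434887) (nat_lit 76) (nat_lit 1532433894372) (nat_lit 76) (nat_lit 1466860578614) (nat_lit 1) (nat_lit 4) (nat_lit 2) (nat_lit 5) (nat_lit 2) (nat_lit 4) (nat_lit 257) (nat_lit 214) (nat_lit 129)) (XT.lf (nat_lit 0) (nat_lit 1266838518470) (nat_lit 76) (nat_lit 1718546749837) (nat_lit 76) (nat_lit 1652973374813) (nat_lit 1) (nat_lit 4) (nat_lit 2) (nat_lit 5) (nat_lit 2) (nat_lit 4) (nat_lit 258) (nat_lit 214) (nat_lit 128)))) (XT.nd (nat_lit 156) (nat_lit 0) (nat_lit 0) (XT.nd (nat_lit 78) (nat_lit 0) (nat_lit 0) (XT.lf (nat_lit 0) (nat_lit 1528695793216) (nat_lit 76) (nat_lit 1932576590931) (nat_lit 76) (nat_lit 1867003164370) (nat_lit 1) (nat_lit 4) (nat_lit 2) (nat_lit 5) (nat_lit 2) (nat_lit 4) (nat_lit 259) (nat_lit 214) (nat_lit 127)) (XT.lf (nat_lit 0) (nat_lit 1829831553630) (nat_lit 76) (nat_lit 2178710958021) (nat_lit 76)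 (nat_lit 2113137486647) (nat_lit 1) (nat_lit 4) (nat_lit 2) (nat_lit 5) (nat_lit 2) (nat_lit 4) (nat_lit 260) (nat_lit 214) (nat_lit 126))) (XT.nd (nat_lit 78) (nat_lit 0) (nat_lit 0) (XT.lf (nat_lit 0) (nat_lit 2176137586331) (nat_lit 76) (nat_lit 2461765523509) (nat_lit 76) (nat_lit 2396192013166) (nat_lit 1) (nat_lit 4) (nat_lit 2) (nat_lit 5) (nat_lit 2) (nat_lit 4) (nat_lit 261) (nat_lit 214) (nat_lit 125)) (XT.lf (nat_lit 0) (nat_lit 2574389444130) (nat_lit 76) (nat_lit 2787278311501) (nat_lit 76) (nat_lit 2721704767272) (nat_lit 1) (nat_lit 4) (nat_lit 2) (nat_lit 5) (nat_lit 2) (nat_lit 4) (nat_lit 262) (nat_lit 214) (nat_lit 124))))) (XT.nd (nat_lit 312) (nat_lit 0) (nat_lit 0) (XT.nd (nat_lit 156) (nat_lit 0) (nat_lit 0) (XT.nd (nat_lit 78) (nat_lit 0) (nat_lit 0) (XT.lf (nat_lit 0) (nat_lit 3032379011204) (nat_lit 76) (nat_lit 3161618050458) (nat_lit 76) (nat_lit 3096044476764)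 (nat_lit 1) (nat_lit 4) (nat_lit 2) (nat_lit 5) (nat_lit 2) (nat_lit 4) (nat_lit 263) (nat_lit 214) (nat_lit 123)) (XT.lf (nat_lit 0) (nat_lit 3559066952993) (nat_lit 76) (nat_lit 3592108778751) (nat_lit 76) (nat_lit 3526535179434) (nat_lit 1) (nat_lit 4) (nat_lit 2) (nat_lit 5) (nat_lit 2) (nat_lit 4) (nat_lit 264) (nat_lit 214) (nat_lit 122))) (XT.nd (nat_lit 78) (nat_lit 0) (nat_lit 0) (XT.lf (nat_lit 0) (nat_lit 4164758033578) (nat_lit 76) (nat_lit 4087173141064) (nat_lit 76) (nat_lit 4021599519467) (nat_lit 1) (nat_lit 4) (nat_lit 2) (nat_lit 5) (nat_lit 2) (nat_lit 4) (nat_lit 265) (nat_lit 214) (nat_lit 121)) (XT.lf (nat_lit 0) (nat_lit 4861302730621) (nat_lit 76) (nat_lit 4656497179268) (nat_lit 76) (nat_lit 4590923538297) (nat_lit 1) (nat_lit 4) (nat_lit 2) (nat_lit 5) (nat_lit 2) (nat_lit 4) (nat_lit 266) (nat_lit 214) (nat_lit 120)))) (XT.nd (nat_lit 156) (nat_lit 0) (nat_lit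 0) (XT.nd (nat_lit 78) (nat_lit 0) (nat_lit 0) (XT.lf (nat_lit 0) (nat_lit 5662329092543) (nat_lit 76) (nat_lit 5311219841937) (nat_lit 76) (nat_lit 5245646184119) (nat_lit 1) (nat_lit 4) (nat_lit 2) (nat_lit 5) (nat_lit 2) (nat_lit 4) (nat_lit 267) (nat_lit 214) (nat_lit 119)) (XT.lf (nat_lit 0) (nat_lit 6583509374251) (nat_lit 76) (nat_lit 6064150920298) (nat_lit 76) (nat_lit 5998577247830) (nat_lit 1) (nat_lit 4) (nat_lit 2) (nat_lit 5) (nat_lit 2) (nat_lit 4) (nat_lit 268) (nat_lit 214) (nat_lit 118))) (XT.nd (nat_lit 78) (nat_lit 0) (nat_lit 0) (XT.lf (nat_lit 0) (nat_lit 7642866668213) (nat_lit 76) (nat_lit 6930021674578) (nat_lit 76) (nat_lit 6864447989371) (nat_lit 1) (nat_lit 4) (nat_lit 2) (nat_lit 5) (nat_lit 2) (nat_lit 4) (nat_lit 269) (nat_lit 214) (nat_lit 117)) (XT.lf (nat_lit 0) (nat_lit 8861127530181) (nat_lit 76) (nat_lit 7925773054318) (nat_lit 76) (nat_lit 7860199358034)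 (nat_lit 1) (nat_lit 4) (nat_lit 2) (nat_lit 5) (nat_lit 2) (nat_lit 4) (nat_lit 270) (nat_lit 214) (nat_lit 116)))))) (XT.nd (nat_lit 27066) (nat_lit 0) (nat_lit 608) (XT.nd (nat_lit 624) (nat_lit 0) (nat_lit 0) (XT.nd (nat_lit 468) (nat_lit 0) (nat_lit 0) (XT.nd (nat_lit 78) (nat_lit 0) (nat_lit 0) (XT.lf (nat_lit 0) (nat_lit 10262127498759) (nat_lit 76) (nat_lit 9070887151731) (nat_lit 76) (nat_lit 9005313445814) (nat_lit 1) (nat_lit 4) (nat_lit 2) (nat_lit 5) (nat_lit 2) (nat_lit 4) (nat_lit 271) (nat_lit 214) (nat_lit 115)) (XT.lf (nat_lit 0) (nat_lit 11873277442896) (nat_lit 76) (nat_lit 10387768373069) (nat_lit 76) (nat_lit 10322194658777) (nat_lit 1) (nat_lit 4) (nat_lit 2) (nat_lit 5) (nat_lit 2) (nat_lit 4) (nat_lit 272) (nat_lit 214) (nat_lit 114))) (XT.nd (nat_lit 78) (nat_lit 0) (nat_lit 0) (XT.lf (nat_lit 0) (nat_lit 24365712424092) (nat_lit 76) (nat_lit 20598521043708)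 (nat_lit 76) (nat_lit 20532947301338) (nat_lit 1) (nat_lit 4) (nat_lit 2) (nat_lit 5) (nat_lit 2) (nat_lit 4) (nat_lit 277) (nat_lit 214) (nat_lit 109)) (XT.lf (nat_lit 0) (nat_lit 28092400032374) (nat_lit 76) (nat_lit 23644547384093) (nat_lit 76) (nat_lit 23578973638102) (nat_lit 1) (nat_lit 4) (nat_lit 2) (nat_lit 5) (nat_lit 2) (nat_lit 4) (nat_lit 278) (nat_lit 214) (nat_lit 108)))) (XT.nd (nat_lit 26286) (nat_lit 0) (nat_lit 1140) (XT.nd (nat_lit 78) (nat_lit 0) (nat_lit 0) (XT.lf (nat_lit 0) (nat_lit 32378090774482) (nat_lit 76) (nat_lit 27147477679038) (nat_lit 76) (nat_lit 27081903929897) (nat_lit 1) (nat_lit 4) (nat_lit 2) (nat_lit 5) (nat_lit 2) (nat_lit 4) (nat_lit 279) (nat_lit 214) (nat_lit 107)) (XT.lf (nat_lit 0) (nat_lit 37306635121457) (nat_lit 76) (nat_lit 31175847521268) (nat_lit 76) (nat_lit 31110273769390) (nat_lit 1) (nat_lit 4) (nat_lit 2) (nat_lit 5) (nat_lit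 2) (nat_lit 4) (nat_lit 280) (nat_lit 214) (nat_lit 106))) (XT.nd (nat_lit 78) (nat_lit 0) (nat_lit 0) (XT.lf (nat_lit 0) (nat_lit 7405729365) (nat_lit 0) (nat_lit 7405729365) (nat_lit 228) (nat_lit 1915898567) (nat_lit 16) (nat_lit 5) (nat_lit 16) (nat_lit 3) (nat_lit 19) (nat_lit 3) (nat_lit 215) (nat_lit 215) (nat_lit 170)) (XT.lf (nat_lit 0) (nat_lit 30990675246) (nat_lit 0) (nat_lit 901925944) (nat_lit 228) (nat_lit 4063357225) (nat_lit 16) (nat_lit 5) (nat_lit 16) (nat_lit 3) (nat_lit 19) (nat_lit 3) (nat_lit 216) (nat_lit 215) (nat_lit 169))))) (XT.nd (nat_lit 312) (nat_lit 304) (nat_lit 0) (XT.nd (nat_lit 156) (nat_lit 228) (nat_lit 0) (XT.nd (nat_lit 78) (nat_lit 0) (nat_lit 0) (XT.lf (nat_lit 76) (nat_lit 11123849075) (nat_lit 0) (nat_lit 24456151627) (nat_lit 304) (nat_lit 3090917033) (nat_lit 17) (nat_lit 5) (nat_lit 16) (nat_lit 5) (nat_lit 20) (nat_lit 5) (nat_lit 217)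 (nat_lit 215) (nat_lit 168)) (XT.lf (nat_lit 76) (nat_lit 30131654444) (nat_lit 0) (nat_lit 9981897513) (nat_lit 304) (nat_lit 1635715691) (nat_lit 17) (nat_lit 5) (nat_lit 16) (nat_lit 5) (nat_lit 20) (nat_lit 5) (nat_lit 218) (nat_lit 215) (nat_lit 167))) (XT.nd (nat_lit 78) (nat_lit 0) (nat_lit 0) (XT.lf (nat_lit 0) (nat_lit 622302468) (nat_lit 304) (nat_lit 38186863326) (nat_lit 76) (nat_lit 6391862723) (nat_lit 13) (nat_lit 5) (nat_lit 17) (nat_lit 5) (nat_lit 14) (nat_lit 5) (nat_lit 219) (nat_lit 215) (nat_lit 166)) (XT.lf (nat_lit 0) (nat_lit 4156888339) (nat_lit 304) (nat_lit 19921618824) (nat_lit 76) (nat_lit 24914630705) (nat_lit 13) (nat_lit 5) (nat_lit 17) (nat_lit 5) (nat_lit 14) (nat_lit 5) (nat_lit 220) (nat_lit 215) (nat_lit 165)))) (XT.nd (nat_lit 156) (nat_lit 152) (nat_lit 0) (XT.nd (nat_lit 78) (nat_lit 0) (nat_lit 0) (XT.lf (nat_lit 0) (nat_lit 1183190186) (nat_lit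 152) (nat_lit 7082074015) (nat_lit 228) (nat_lit 45082317976) (nat_lit 11) (nat_lit 5) (nat_lit 13) (nat_lit 5) (nat_lit 14) (nat_lit 5) (nat_lit 221) (nat_lit 215) (nat_lit 164)) (XT.lf (nat_lit 0) (nat_lit 14592018406) (nat_lit 228) (nat_lit 31078115706) (nat_lit 76) (nat_lit 12444791919) (nat_lit 11) (nat_lit 5) (nat_lit 14) (nat_lit 5) (nat_lit 12) (nat_lit 5) (nat_lit 222) (nat_lit 215) (nat_lit 163))) (XT.nd (nat_lit 78) (nat_lit 152) (nat_lit 0) (XT.lf (nat_lit 0) (nat_lit 22200745442) (nat_lit 228) (nat_lit 7171423248) (nat_lit 76) (nat_lit 34175303334) (nat_lit 11) (nat_lit 5) (nat_lit 14) (nat_lit 5) (nat_lit 12) (nat_lit 5) (nat_lit 223) (nat_lit 215) (nat_lit 162)) (XT.lf (nat_lit 0) (nat_lit 22302172190) (nat_lit 152) (nat_lit 9568371327) (nat_lit 228) (nat_lit 37786430811) (nat_lit 9) (nat_lit 5) (nat_lit 11) (nat_lit 5) (nat_lit 12) (nat_lit 5) (nat_lit 224) (nat_lit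 215) (nat_lit 161))))))))
noncomputable def xc42 : XT := (XT.nd (nat_lit 2418) (nat_lit 0) (nat_lit 0) (XT.nd (nat_lit 1170) (nat_lit 152) (nat_lit 0) (XT.nd (nat_lit 546) (nat_lit 228) (nat_lit 0) (XT.nd (nat_lit 234) (nat_lit 152) (nat_lit 0) (XT.nd (nat_lit 78) (nat_lit 76) (nat_lit 0) (XT.lf (nat_lit 0) (nat_lit 43926904860) (nat_lit 228) (nat_lit 20193469625) (nat_lit 76) (nat_lit 12422147118) (nat_lit 9) (nat_lit 5) (nat_lit 12) (nat_lit 5) (nat_lit 10) (nat_lit 4) (nat_lit 225) (nat_lit 215) (nat_lit 160)) (XT.nd (nat_lit 78) (nat_lit 0) (nat_lit 0) (XT.lf (nat_lit 0) (nat_lit 11616338761) (nat_lit 76) (nat_lit 47109018051) (nat_lit 152) (nat_lit 25595527966) (nat_lit 8) (nat_lit 5) (nat_lit 9) (nat_lit 5) (nat_lit 10) (nat_lit 4) (nat_lit 226) (nat_lit 215) (nat_lit 159)) (XT.lf (nat_lit 0) (nat_lit 50463028317) (nat_lit 76) (nat_lit 26333332055) (nat_lit 152) (nat_lit 16311749939)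 (nat_lit 8) (nat_lit 5) (nat_lit 9) (nat_lit 5) (nat_lit 10) (nat_lit 4) (nat_lit 227) (nat_lit 215) (nat_lit 158)))) (XT.nd (nat_lit 156) (nat_lit 0) (nat_lit 0) (XT.nd (nat_lit 78) (nat_lit 152) (nat_lit 0) (XT.lf (nat_lit 0) (nat_lit 95133190255) (nat_lit 76) (nat_lit 2442403414) (nat_lit 152) (nat_lit 5638211256) (nat_lit 8) (nat_lit 5) (nat_lit 9) (nat_lit 5) (nat_lit 10) (nat_lit 4) (nat_lit 228) (nat_lit 215) (nat_lit 157)) (XT.lf (nat_lit 0) (nat_lit 8587672216) (nat_lit 152) (nat_lit 81239851579) (nat_lit 76) (nat_lit 24585307780) (nat_lit 6) (nat_lit 5) (nat_lit 8) (nat_lit 5) (nat_lit 7) (nat_lit 4) (nat_lit 229) (nat_lit 215) (nat_lit 156))) (XT.nd (nat_lit 78) (nat_lit 0) (nat_lit 0) (XT.lf (nat_lit 0) (nat_lit 24926898891) (nat_lit 152) (nat_lit 46113926508) (nat_lit 76) (nat_lit 56127122522) (nat_lit 6) (nat_lit 5) (nat_lit 8) (nat_lit 5) (nat_lit 7) (nat_lit 4) (nat_lit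 230) (nat_lit 215) (nat_lit 155)) (XT.lf (nat_lit 0) (nat_lit 43715175951) (nat_lit 152) (nat_lit 5722098027) (nat_lit 76) (nat_lit 92399345437) (nat_lit 6) (nat_lit 5) (nat_lit 8) (nat_lit 5) (nat_lit 7) (nat_lit 4) (nat_lit 231) (nat_lit 215) (nat_lit 154))))) (XT.nd (nat_lit 312) (nat_lit 76) (nat_lit 0) (XT.nd (nat_lit 156) (nat_lit 76) (nat_lit 0) (XT.nd (nat_lit 78) (nat_lit 0) (nat_lit 0) (XT.lf (nat_lit 0) (nat_lit 44705940762) (nat_lit 76) (nat_lit 22465337032) (nat_lit 152) (nat_lit 91256887359) (nat_lit 5) (nat_lit 5) (nat_lit 6) (nat_lit 5) (nat_lit 7) (nat_lit 4) (nat_lit 232) (nat_lit 215) (nat_lit 153)) (XT.lf (nat_lit 0) (nat_lit 94811754122) (nat_lit 152) (nat_lit 74493354653) (nat_lit 0) (nat_lit 8103449665) (nat_lit 5) (nat_lit 5) (nat_lit 7) (nat_lit 4) (nat_lit 5) (nat_lit 4) (nat_lit 233) (nat_lit 215) (nat_lit 152))) (XT.nd (nat_lit 78) (nat_lit 76) (nat_lit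 0) (XT.lf (nat_lit 0) (nat_lit 127666749390) (nat_lit 152) (nat_lit 30452254096) (nat_lit 0) (nat_lit 40956748428) (nat_lit 5) (nat_lit 5) (nat_lit 7) (nat_lit 4) (nat_lit 5) (nat_lit 4) (nat_lit 234) (nat_lit 215) (nat_lit 151)) (XT.lf (nat_lit 0) (nat_lit 22166398786) (nat_lit 76) (nat_lit 144200301543) (nat_lit 76) (nat_lit 57488825358) (nat_lit 4) (nat_lit 4) (nat_lit 5) (nat_lit 5) (nat_lit 5) (nat_lit 4) (nat_lit 235) (nat_lit 215) (nat_lit 150)))) (XT.nd (nat_lit 156) (nat_lit 76) (nat_lit 0) (XT.nd (nat_lit 78) (nat_lit 0) (nat_lit 0) (XT.lf (nat_lit 0) (nat_lit 86098340611) (nat_lit 76) (nat_lit 126364039856) (nat_lit 76) (nat_lit 39651280869) (nat_lit 4) (nat_lit 4) (nat_lit 5) (nat_lit 5) (nat_lit 5) (nat_lit 4) (nat_lit 236) (nat_lit 215) (nat_lit 149)) (XT.lf (nat_lit 0) (nat_lit 159618397975) (nat_lit 76) (nat_lit 105853070462) (nat_lit 76) (nat_lit 19139195995) (nat_lit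 4) (nat_lit 4) (nat_lit 5) (nat_lit 5) (nat_lit 5) (nat_lit 4) (nat_lit 237) (nat_lit 215) (nat_lit 148))) (XT.nd (nat_lit 78) (nat_lit 0) (nat_lit 0) (XT.lf (nat_lit 0) (nat_lit 4052693939) (nat_lit 152) (nat_lit 78001552479) (nat_lit 76) (nat_lit 239900467480) (nat_lit 3) (nat_lit 5) (nat_lit 5) (nat_lit 5) (nat_lit 4) (nat_lit 4) (nat_lit 238) (nat_lit 215) (nat_lit 147)) (XT.lf (nat_lit 0) (nat_lit 28763126542) (nat_lit 152) (nat_lit 24874965846) (nat_lit 76) (nat_lit 311125686208) (nat_lit 3) (nat_lit 5) (nat_lit 5) (nat_lit 5) (nat_lit 4) (nat_lit 4) (nat_lit 239) (nat_lit 215) (nat_lit 146)))))) (XT.nd (nat_lit 624) (nat_lit 76) (nat_lit 0) (XT.nd (nat_lit 312) (nat_lit 0) (nat_lit 0) (XT.nd (nat_lit 156) (nat_lit 0) (nat_lit 0) (XT.nd (nat_lit 78) (nat_lit 0) (nat_lit 0) (XT.lf (nat_lit 0) (nat_lit 39759067038) (nat_lit 76) (nat_lit 19066741518) (nat_lit 152) (nat_lit 354921544892)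 (nat_lit 2) (nat_lit 5) (nat_lit 3) (nat_lit 5) (nat_lit 4) (nat_lit 4) (nat_lit 240) (nat_lit 215) (nat_lit 145)) (XT.lf (nat_lit 0) (nat_lit 95616199733) (nat_lit 152) (nat_lit 353919460134) (nat_lit 0) (nat_lit 20210061352) (nat_lit 2) (nat_lit 5) (nat_lit 4) (nat_lit 4) (nat_lit 2) (nat_lit 4) (nat_lit 241) (nat_lit 215) (nat_lit 144))) (XT.nd (nat_lit 78) (nat_lit 0) (nat_lit 0) (XT.lf (nat_lit 0) (nat_lit 138832537182) (nat_lit 152) (nat_lit 331749284650) (nat_lit 0) (nat_lit 63425916548) (nat_lit 2) (nat_lit 5) (nat_lit 4) (nat_lit 4) (nat_lit 2) (nat_lit 4) (nat_lit 242) (nat_lit 215) (nat_lit 143)) (XT.lf (nat_lit 0) (nat_lit 188530844834) (nat_lit 152) (nat_lit 306254482550) (nat_lit 0) (nat_lit 113123804850) (nat_lit 2) (nat_lit 5) (nat_lit 4) (nat_lit 4) (nat_lit 2) (nat_lit 4) (nat_lit 243) (nat_lit 215) (nat_lit 142)))) (XT.nd (nat_lit 156) (nat_lit 0) (nat_lit 0) (XT.nd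 (nat_lit 78) (nat_lit 0) (nat_lit 0) (XT.lf (nat_lit 0) (nat_lit 245683480883) (nat_lit 152) (nat_lit 276936242489) (nat_lit 0) (nat_lit 170276076247) (nat_lit 2) (nat_lit 5) (nat_lit 4) (nat_lit 4) (nat_lit 2) (nat_lit 4) (nat_lit 244) (nat_lit 215) (nat_lit 141)) (XT.lf (nat_lit 0) (nat_lit 311408649078) (nat_lit 152) (nat_lit 243220946726) (nat_lit 0) (nat_lit 236000927352) (nat_lit 2) (nat_lit 5) (nat_lit 4) (nat_lit 4) (nat_lit 2) (nat_lit 4) (nat_lit 245) (nat_lit 215) (nat_lit 140))) (XT.nd (nat_lit 78) (nat_lit 0) (nat_lit 0) (XT.lf (nat_lit 0) (nat_lit 386992276621) (nat_lit 152) (nat_lit 204448948169) (nat_lit 0) (nat_lit 311584279166) (nat_lit 2) (nat_lit 5) (nat_lit 4) (nat_lit 4) (nat_lit 2) (nat_lit 4) (nat_lit 246) (nat_lit 215) (nat_lit 139)) (XT.lf (nat_lit 0) (nat_lit 473913173618) (nat_lit 152) (nat_lit 159861664239) (nat_lit 0) (nat_lit 398504936398) (nat_lit 2)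 (nat_lit 5) (nat_lit 4) (nat_lit 4) (nat_lit 2) (nat_lit 4) (nat_lit 247) (nat_lit 215) (nat_lit 138))))) (XT.nd (nat_lit 312) (nat_lit 0) (nat_lit 0) (XT.nd (nat_lit 156) (nat_lit 76) (nat_lit 0) (XT.nd (nat_lit 78) (nat_lit 0) (nat_lit 0) (XT.lf (nat_lit 0) (nat_lit 573871966314) (nat_lit 152) (nat_lit 108586735033) (nat_lit 0) (nat_lit 498463520602) (nat_lit 2) (nat_lit 5) (nat_lit 4) (nat_lit 4) (nat_lit 2) (nat_lit 4) (nat_lit 248) (nat_lit 215) (nat_lit 137)) (XT.lf (nat_lit 0) (nat_lit 688824370217) (nat_lit 152) (nat_lit 49620955414) (nat_lit 0) (nat_lit 613415743209) (nat_lit 2) (nat_lit 5) (nat_lit 4) (nat_lit 4) (nat_lit 2) (nat_lit 4) (nat_lit 249) (nat_lit 215) (nat_lit 136))) (XT.nd (nat_lit 78) (nat_lit 0) (nat_lit 0) (XT.lf (nat_lit 0) (nat_lit 19966948767) (nat_lit 76) (nat_lit 801879294102) (nat_lit 76) (nat_lit 726470509445) (nat_lit 1) (nat_lit 4) (nat_lit 2) (nat_lit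 5) (nat_lit 2) (nat_lit 4) (nat_lit 250) (nat_lit 215) (nat_lit 135)) (XT.lf (nat_lit 0) (nat_lit 105569434457) (nat_lit 76) (nat_lit 871845614215) (nat_lit 76) (nat_lit 796436692471) (nat_lit 1) (nat_lit 4) (nat_lit 2) (nat_lit 5) (nat_lit 2) (nat_lit 4) (nat_lit 251) (nat_lit 215) (nat_lit 134)))) (XT.nd (nat_lit 156) (nat_lit 0) (nat_lit 0) (XT.nd (nat_lit 78) (nat_lit 0) (nat_lit 0) (XT.lf (nat_lit 0) (nat_lit 204012012254) (nat_lit 76) (nat_lit 952307014903) (nat_lit 76) (nat_lit 876897973954) (nat_lit 1) (nat_lit 4) (nat_lit 2) (nat_lit 5) (nat_lit 2) (nat_lit 4) (nat_lit 252) (nat_lit 215) (nat_lit 133)) (XT.lf (nat_lit 0) (nat_lit 317220732593) (nat_lit 76) (nat_lit 1044837740961) (nat_lit 76) (nat_lit 969428596355) (nat_lit 1) (nat_lit 4) (nat_lit 2) (nat_lit 5) (nat_lit 2) (nat_lit 4) (nat_lit 253) (nat_lit 215) (nat_lit 132))) (XT.nd (nat_lit 78) (nat_lit 0) (nat_lit 0)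 (XT.lf (nat_lit 0) (nat_lit 447410548698) (nat_lit 76) (nat_lit 1151248176161) (nat_lit 76) (nat_lit 1075838941419) (nat_lit 1) (nat_lit 4) (nat_lit 2) (nat_lit 5) (nat_lit 2) (nat_lit 4) (nat_lit 254) (nat_lit 215) (nat_lit 131)) (XT.lf (nat_lit 0) (nat_lit 597128652623) (nat_lit 76) (nat_lit 1273620263801) (nat_lit 76) (nat_lit 1198210950679) (nat_lit 1) (nat_lit 4) (nat_lit 2) (nat_lit 5) (nat_lit 2) (nat_lit 4) (nat_lit 255) (nat_lit 215) (nat_lit 130))))))) (XT.nd (nat_lit 1170) (nat_lit 0) (nat_lit 0) (XT.nd (nat_lit 546) (nat_lit 0) (nat_lit 0) (XT.nd (nat_lit 234) (nat_lit 0) (nat_lit 0) (XT.nd (nat_lit 78) (nat_lit 0) (nat_lit 0) (XT.lf (nat_lit 0) (nat_lit 769304311619) (nat_lit 76) (nat_lit 1414348240376) (nat_lit 76) (nat_lit 1338938859098) (nat_lit 1) (nat_lit 4) (nat_lit 2) (nat_lit 5) (nat_lit 2) (nat_lit 4) (nat_lit 256) (nat_lit 215) (nat_lit 129)) (XT.nd (nat_lit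 78) (nat_lit 0) (nat_lit 0) (XT.lf (nat_lit 0) (nat_lit 967306179884) (nat_lit 76) (nat_lit 1576185479343) (nat_lit 76) (nat_lit 1500776038798) (nat_lit 1) (nat_lit 4) (nat_lit 2) (nat_lit 5) (nat_lit 2) (nat_lit 4) (nat_lit 257) (nat_lit 215) (nat_lit 128)) (XT.lf (nat_lit 0) (nat_lit 1195008207013) (nat_lit 76) (nat_lit 1762298361463) (nat_lit 76) (nat_lit 1686888869383) (nat_lit 1) (nat_lit 4) (nat_lit 2) (nat_lit 5) (nat_lit 2) (nat_lit 4) (nat_lit 258) (nat_lit 215) (nat_lit 127)))) (XT.nd (nat_lit 156) (nat_lit 0) (nat_lit 0) (XT.nd (nat_lit 78) (nat_lit 0) (nat_lit 0) (XT.lf (nat_lit 0) (nat_lit 1456865432669) (nat_lit 76) (nat_lit 1976328225734) (nat_lit 76) (nat_lit 1900918688840) (nat_lit 1) (nat_lit 4) (nat_lit 2) (nat_lit 5) (nat_lit 2) (nat_lit 4) (nat_lit 259) (nat_lit 215) (nat_lit 126)) (XT.lf (nat_lit 0) (nat_lit 1758001150397) (nat_lit 76) (nat_lit 2222462612980)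 (nat_lit 76) (nat_lit 2147053037118) (nat_lit 1) (nat_lit 4) (nat_lit 2) (nat_lit 5) (nat_lit 2) (nat_lit 4) (nat_lit 260) (nat_lit 215) (nat_lit 125))) (XT.nd (nat_lit 78) (nat_lit 0) (nat_lit 0) (XT.lf (nat_lit 0) (nat_lit 2104307145979) (nat_lit 76) (nat_lit 2505517195994) (nat_lit 76) (nat_lit 2430107586246) (nat_lit 1) (nat_lit 4) (nat_lit 2) (nat_lit 5) (nat_lit 2) (nat_lit 4) (nat_lit 261) (nat_lit 215) (nat_lit 124)) (XT.lf (nat_lit 0) (nat_lit 2502558971501) (nat_lit 76) (nat_lit 2831029999226) (nat_lit 76) (nat_lit 2755620360012) (nat_lit 1) (nat_lit 4) (nat_lit 2) (nat_lit 5) (nat_lit 2) (nat_lit 4) (nat_lit 262) (nat_lit 215) (nat_lit 123))))) (XT.nd (nat_lit 312) (nat_lit 0) (nat_lit 0) (XT.nd (nat_lit 156) (nat_lit 0) (nat_lit 0) (XT.nd (nat_lit 78) (nat_lit 0) (nat_lit 0) (XT.lf (nat_lit 0) (nat_lit 2960548510507) (nat_lit 76) (nat_lit 3205369751435) (nat_lit 76) (nat_lit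 3129960086599) (nat_lit 1) (nat_lit 4) (nat_lit 2) (nat_lit 5) (nat_lit 2) (nat_lit 4) (nat_lit 263) (nat_lit 215) (nat_lit 122)) (XT.lf (nat_lit 0) (nat_lit 3487236427890) (nat_lit 76) (nat_lit 3635860491252) (nat_lit 76) (nat_lit 3560450804135) (nat_lit 1) (nat_lit 4) (nat_lit 2) (nat_lit 5) (nat_lit 2) (nat_lit 4) (nat_lit 264) (nat_lit 215) (nat_lit 121))) (XT.nd (nat_lit 78) (nat_lit 0) (nat_lit 0) (XT.lf (nat_lit 0) (nat_lit 4092927487252) (nat_lit 76) (nat_lit 4130924863586) (nat_lit 76) (nat_lit 4055515157095) (nat_lit 1) (nat_lit 4) (nat_lit 2) (nat_lit 5) (nat_lit 2) (nat_lit 4) (nat_lit 265) (nat_lit 215) (nat_lit 120)) (XT.lf (nat_lit 0) (nat_lit 4789472165840) (nat_lit 76) (nat_lit 4700248910504) (nat_lit 76) (nat_lit 4624839187166) (nat_lit 1) (nat_lit 4) (nat_lit 2) (nat_lit 5) (nat_lit 2) (nat_lit 4) (nat_lit 266) (nat_lit 215) (nat_lit 119)))) (XT.nd (nat_lit 156)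 (nat_lit 0) (nat_lit 0) (XT.nd (nat_lit 78) (nat_lit 0) (nat_lit 0) (XT.lf (nat_lit 0) (nat_lit 5590498511715) (nat_lit 76) (nat_lit 5354971580750) (nat_lit 76) (nat_lit 5279561842762) (nat_lit 1) (nat_lit 4) (nat_lit 2) (nat_lit 5) (nat_lit 2) (nat_lit 4) (nat_lit 267) (nat_lit 215) (nat_lit 118)) (XT.lf (nat_lit 0) (nat_lit 6511678779468) (nat_lit 76) (nat_lit 6107902665699) (nat_lit 76) (nat_lit 6032492914972) (nat_lit 1) (nat_lit 4) (nat_lit 2) (nat_lit 5) (nat_lit 2) (nat_lit 4) (nat_lit 268) (nat_lit 215) (nat_lit 117))) (XT.nd (nat_lit 78) (nat_lit 0) (nat_lit 0) (XT.lf (nat_lit 0) (nat_lit 7571036061297) (nat_lit 76) (nat_lit 6973773425708) (nat_lit 76) (nat_lit 6898363663904) (nat_lit 1) (nat_lit 4) (nat_lit 2) (nat_lit 5) (nat_lit 2) (nat_lit 4) (nat_lit 269) (nat_lit 215) (nat_lit 116)) (XT.lf (nat_lit 0) (nat_lit 8789296912713) (nat_lit 76) (nat_lit 7969524810431) (nat_lit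 76) (nat_lit 7894115038994) (nat_lit 1) (nat_lit 4) (nat_lit 2) (nat_lit 5) (nat_lit 2) (nat_lit 4) (nat_lit 270) (nat_lit 215) (nat_lit 115)))))) (XT.nd (nat_lit 27456) (nat_lit 0) (nat_lit 532) (XT.nd (nat_lit 27144) (nat_lit 0) (nat_lit 912) (XT.nd (nat_lit 26988) (nat_lit 0) (nat_lit 1140) (XT.nd (nat_lit 78) (nat_lit 0) (nat_lit 0) (XT.lf (nat_lit 0) (nat_lit 10190296872115) (nat_lit 76) (nat_lit 9114638912175) (nat_lit 76) (nat_lit 9039229132363) (nat_lit 1) (nat_lit 4) (nat_lit 2) (nat_lit 5) (nat_lit 2) (nat_lit 4) (nat_lit 271) (nat_lit 215) (nat_lit 114)) (XT.lf (nat_lit 0) (nat_lit 11801446808274) (nat_lit 76) (nat_lit 10431520137281) (nat_lit 76) (nat_lit 10356110350185) (nat_lit 1) (nat_lit 4) (nat_lit 2) (nat_lit 5) (nat_lit 2) (nat_lit 4) (nat_lit 272) (nat_lit 215) (nat_lit 113))) (XT.nd (nat_lit 78) (nat_lit 0) (nat_lit 0) (XT.lf (nat_lit 0) (nat_lit 8539578167) (nat_lit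 0) (nat_lit 8539578167) (nat_lit 228) (nat_lit 2149770239) (nat_lit 16) (nat_lit 5) (nat_lit 16) (nat_lit 3) (nat_lit 19) (nat_lit 3) (nat_lit 216) (nat_lit 216) (nat_lit 168)) (XT.lf (nat_lit 0) (nat_lit 35679258094) (nat_lit 0) (nat_lit 1077196395) (nat_lit 228) (nat_lit 4579794523) (nat_lit 16) (nat_lit 5) (nat_lit 16) (nat_lit 3) (nat_lit 19) (nat_lit 3) (nat_lit 217) (nat_lit 216) (nat_lit 167)))) (XT.nd (nat_lit 156) (nat_lit 228) (nat_lit 0) (XT.nd (nat_lit 78) (nat_lit 0) (nat_lit 0) (XT.lf (nat_lit 76) (nat_lit 12844678518) (nat_lit 0) (nat_lit 28142579475) (nat_lit 304) (nat_lit 3472794741) (nat_lit 17) (nat_lit 5) (nat_lit 16) (nat_lit 5) (nat_lit 20) (nat_lit 5) (nat_lit 218) (nat_lit 216) (nat_lit 166)) (XT.lf (nat_lit 76) (nat_lit 34696839203) (nat_lit 0) (nat_lit 11494838752) (nat_lit 304) (nat_lit 1809977525) (nat_lit 17) (nat_lit 5) (nat_lit 16) (nat_lit 5) (nat_lit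 20) (nat_lit 5) (nat_lit 219) (nat_lit 216) (nat_lit 165))) (XT.nd (nat_lit 78) (nat_lit 0) (nat_lit 0) (XT.lf (nat_lit 0) (nat_lit 773698052) (nat_lit 304) (nat_lit 43855048039) (nat_lit 76) (nat_lit 7343095271) (nat_lit 13) (nat_lit 5) (nat_lit 17) (nat_lit 5) (nat_lit 14) (nat_lit 5) (nat_lit 220) (nat_lit 216) (nat_lit 164)) (XT.lf (nat_lit 0) (nat_lit 4830900037) (nat_lit 304) (nat_lit 22857822703) (nat_lit 76) (nat_lit 28645262823) (nat_lit 13) (nat_lit 5) (nat_lit 17) (nat_lit 5) (nat_lit 14) (nat_lit 5) (nat_lit 221) (nat_lit 216) (nat_lit 163))))) (XT.nd (nat_lit 312) (nat_lit 76) (nat_lit 0) (XT.nd (nat_lit 156) (nat_lit 152) (nat_lit 0) (XT.nd (nat_lit 78) (nat_lit 0) (nat_lit 0) (XT.lf (nat_lit 0) (nat_lit 1410342252) (nat_lit 152) (nat_lit 8140662757) (nat_lit 228) (nat_lit 51791342499) (nat_lit 11) (nat_lit 5) (nat_lit 13) (nat_lit 5) (nat_lit 14) (nat_lit 5) (nat_lit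 222) (nat_lit 216) (nat_lit 162)) (XT.lf (nat_lit 0) (nat_lit 16820912743) (nat_lit 228) (nat_lit 35690362280) (nat_lit 76) (nat_lit 14314459377) (nat_lit 11) (nat_lit 5) (nat_lit 14) (nat_lit 5) (nat_lit 12) (nat_lit 5) (nat_lit 223) (nat_lit 216) (nat_lit 161))) (XT.nd (nat_lit 78) (nat_lit 152) (nat_lit 0) (XT.lf (nat_lit 0) (nat_lit 25565719498) (nat_lit 228) (nat_lit 8204118663) (nat_lit 76) (nat_lit 39304162895) (nat_lit 11) (nat_lit 5) (nat_lit 14) (nat_lit 5) (nat_lit 12) (nat_lit 5) (nat_lit 224) (nat_lit 216) (nat_lit 160)) (XT.lf (nat_lit 0) (nat_lit 25688560724) (nat_lit 152) (nat_lit 10994579631) (nat_lit 228) (nat_lit 43417262665) (nat_lit 9) (nat_lit 5) (nat_lit 11) (nat_lit 5) (nat_lit 12) (nat_lit 5) (nat_lit 225) (nat_lit 216) (nat_lit 159)))) (XT.nd (nat_lit 156) (nat_lit 0) (nat_lit 0) (XT.nd (nat_lit 78) (nat_lit 76) (nat_lit 0) (XT.lf (nat_lit 0) (nat_lit 50544105757)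 (nat_lit 228) (nat_lit 23182659174) (nat_lit 76) (nat_lit 14292636084) (nat_lit 9) (nat_lit 5) (nat_lit 12) (nat_lit 5) (nat_lit 10) (nat_lit 4) (nat_lit 226) (nat_lit 216) (nat_lit 158)) (XT.lf (nat_lit 0) (nat_lit 13396809975) (nat_lit 76) (nat_lit 54163416154) (nat_lit 152) (nat_lit 29404643191) (nat_lit 8) (nat_lit 5) (nat_lit 9) (nat_lit 5) (nat_lit 10) (nat_lit 4) (nat_lit 227) (nat_lit 216) (nat_lit 157))) (XT.nd (nat_lit 78) (nat_lit 0) (nat_lit 0) (XT.lf (nat_lit 0) (nat_lit 58065543782) (nat_lit 76) (nat_lit 30272936554) (nat_lit 152) (nat_lit 18732239412) (nat_lit 8) (nat_lit 5) (nat_lit 9) (nat_lit 5) (nat_lit 10) (nat_lit 4) (nat_lit 228) (nat_lit 216) (nat_lit 156)) (XT.lf (nat_lit 0) (nat_lit 109431917677) (nat_lit 76) (nat_lit 2799724527) (nat_lit 152) (nat_lit 6461096842) (nat_lit 8) (nat_lit 5) (nat_lit 9) (nat_lit 5) (nat_lit 10) (nat_lit 4) (nat_lit 229) (nat_lit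 216) (nat_lit 155))))))))
noncomputable def xc43 : XT := (XT.nd (nat_lit 2418) (nat_lit 0) (nat_lit 0) (XT.nd (nat_lit 1170) (nat_lit 76) (nat_lit 0) (XT.nd (nat_lit 546) (nat_lit 152) (nat_lit 0) (XT.nd (nat_lit 234) (nat_lit 152) (nat_lit 0) (XT.nd (nat_lit 78) (nat_lit 0) (nat_lit 0) (XT.lf (nat_lit 0) (nat_lit 9895566391) (nat_lit 152) (nat_lit 93393684729) (nat_lit 76) (nat_lit 28282407438) (nat_lit 6) (nat_lit 5) (nat_lit 8) (nat_lit 5) (nat_lit 7) (nat_lit 4) (nat_lit 230) (nat_lit 216) (nat_lit 154)) (XT.nd (nat_lit 78) (nat_lit 0) (nat_lit 0) (XT.lf (nat_lit 0) (nat_lit 28683101848) (nat_lit 152) (nat_lit 53003063669) (nat_lit 76) (nat_lit 64554280893) (nat_lit 6) (nat_lit 5) (nat_lit 8) (nat_lit 5) (nat_lit 7) (nat_lit 4) (nat_lit 231) (nat_lit 216) (nat_lit 153)) (XT.lf (nat_lit 0) (nat_lit 50287381147) (nat_lit 152) (nat_lit 6556106805) (nat_lit 76) (nat_lit 106266282028)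 (nat_lit 6) (nat_lit 5) (nat_lit 8) (nat_lit 5) (nat_lit 7) (nat_lit 4) (nat_lit 232) (nat_lit 216) (nat_lit 152)))) (XT.nd (nat_lit 156) (nat_lit 76) (nat_lit 0) (XT.nd (nat_lit 78) (nat_lit 0) (nat_lit 0) (XT.lf (nat_lit 0) (nat_lit 51435032988) (nat_lit 76) (nat_lit 25825878752) (nat_lit 152) (nat_lit 104929297256) (nat_lit 5) (nat_lit 5) (nat_lit 6) (nat_lit 5) (nat_lit 7) (nat_lit 4) (nat_lit 233) (nat_lit 216) (nat_lit 151)) (XT.lf (nat_lit 0) (nat_lit 109045974340) (nat_lit 152) (nat_lit 85645619891) (nat_lit 0) (nat_lit 9326301505) (nat_lit 5) (nat_lit 5) (nat_lit 7) (nat_lit 4) (nat_lit 5) (nat_lit 4) (nat_lit 234) (nat_lit 216) (nat_lit 150))) (XT.nd (nat_lit 78) (nat_lit 76) (nat_lit 0) (XT.lf (nat_lit 0) (nat_lit 146827594060) (nat_lit 152) (nat_lit 35001189637) (nat_lit 0) (nat_lit 47106638423) (nat_lit 5) (nat_lit 5) (nat_lit 7) (nat_lit 4) (nat_lit 5) (nat_lit 4) (nat_lit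 235) (nat_lit 216) (nat_lit 149)) (XT.lf (nat_lit 0) (nat_lit 25509401970) (nat_lit 76) (nat_lit 165822469905) (nat_lit 76) (nat_lit 66100398788) (nat_lit 4) (nat_lit 4) (nat_lit 5) (nat_lit 5) (nat_lit 5) (nat_lit 4) (nat_lit 236) (nat_lit 216) (nat_lit 148))))) (XT.nd (nat_lit 312) (nat_lit 76) (nat_lit 0) (XT.nd (nat_lit 156) (nat_lit 76) (nat_lit 0) (XT.nd (nat_lit 78) (nat_lit 0) (nat_lit 0) (XT.lf (nat_lit 0) (nat_lit 99028781585) (nat_lit 76) (nat_lit 145311796382) (nat_lit 76) (nat_lit 45588755283) (nat_lit 4) (nat_lit 4) (nat_lit 5) (nat_lit 5) (nat_lit 5) (nat_lit 4) (nat_lit 237) (nat_lit 216) (nat_lit 147)) (XT.lf (nat_lit 0) (nat_lit 183574801048) (nat_lit 76) (nat_lit 121725074985) (nat_lit 76) (nat_lit 22001190422) (nat_lit 4) (nat_lit 4) (nat_lit 5) (nat_lit 5) (nat_lit 5) (nat_lit 4) (nat_lit 238) (nat_lit 216) (nat_lit 146))) (XT.nd (nat_lit 78) (nat_lit 0) (nat_lit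 0) (XT.lf (nat_lit 0) (nat_lit 4667636264) (nat_lit 152) (nat_lit 89689200039) (nat_lit 76) (nat_lit 275889995265) (nat_lit 3) (nat_lit 5) (nat_lit 5) (nat_lit 5) (nat_lit 4) (nat_lit 4) (nat_lit 239) (nat_lit 216) (nat_lit 145)) (XT.lf (nat_lit 0) (nat_lit 33083715727) (nat_lit 152) (nat_lit 28595266973) (nat_lit 76) (nat_lit 357798415368) (nat_lit 3) (nat_lit 5) (nat_lit 5) (nat_lit 5) (nat_lit 4) (nat_lit 4) (nat_lit 240) (nat_lit 216) (nat_lit 144)))) (XT.nd (nat_lit 156) (nat_lit 0) (nat_lit 0) (XT.nd (nat_lit 78) (nat_lit 0) (nat_lit 0) (XT.lf (nat_lit 0) (nat_lit 45733373400) (nat_lit 76) (nat_lit 21922060915) (nat_lit 152) (nat_lit 408153133512) (nat_lit 2) (nat_lit 5) (nat_lit 3) (nat_lit 5) (nat_lit 4) (nat_lit 4) (nat_lit 241) (nat_lit 216) (nat_lit 143)) (XT.lf (nat_lit 0) (nat_lit 109963802523) (nat_lit 152) (nat_lit 406997691618) (nat_lit 0) (nat_lit 23245287191) (nat_lit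 2) (nat_lit 5) (nat_lit 4) (nat_lit 4) (nat_lit 2) (nat_lit 4) (nat_lit 242) (nat_lit 216) (nat_lit 142))) (XT.nd (nat_lit 78) (nat_lit 0) (nat_lit 0) (XT.lf (nat_lit 0) (nat_lit 159661915872) (nat_lit 152) (nat_lit 381503253404) (nat_lit 0) (nat_lit 72943035888) (nat_lit 2) (nat_lit 5) (nat_lit 4) (nat_lit 4) (nat_lit 2) (nat_lit 4) (nat_lit 243) (nat_lit 216) (nat_lit 141)) (XT.lf (nat_lit 0) (nat_lit 216814382962) (nat_lit 152) (nat_lit 352185329764) (nat_lit 0) (nat_lit 130095185889) (nat_lit 2) (nat_lit 5) (nat_lit 4) (nat_lit 4) (nat_lit 2) (nat_lit 4) (nat_lit 244) (nat_lit 216) (nat_lit 140)))))) (XT.nd (nat_lit 624) (nat_lit 0) (nat_lit 0) (XT.nd (nat_lit 312) (nat_lit 76) (nat_lit 0) (XT.nd (nat_lit 156) (nat_lit 0) (nat_lit 0) (XT.nd (nat_lit 78) (nat_lit 0) (nat_lit 0) (XT.lf (nat_lit 0) (nat_lit 282539404236) (nat_lit 152) (nat_lit 318470309150) (nat_lit 0) (nat_lit 195819931433)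 (nat_lit 2) (nat_lit 5) (nat_lit 4) (nat_lit 4) (nat_lit 2) (nat_lit 4) (nat_lit 245) (nat_lit 216) (nat_lit 139)) (XT.lf (nat_lit 0) (nat_lit 358122904022) (nat_lit 152) (nat_lit 279698549854) (nat_lit 0) (nat_lit 271403191454) (nat_lit 2) (nat_lit 5) (nat_lit 4) (nat_lit 4) (nat_lit 2) (nat_lit 4) (nat_lit 246) (nat_lit 216) (nat_lit 138))) (XT.nd (nat_lit 78) (nat_lit 0) (nat_lit 0) (XT.lf (nat_lit 0) (nat_lit 445043689925) (nat_lit 152) (nat_lit 235111473977) (nat_lit 0) (nat_lit 358323768866) (nat_lit 2) (nat_lit 5) (nat_lit 4) (nat_lit 4) (nat_lit 2) (nat_lit 4) (nat_lit 247) (nat_lit 216) (nat_lit 137)) (XT.lf (nat_lit 0) (nat_lit 545002386018) (nat_lit 152) (nat_lit 183836725686) (nat_lit 0) (nat_lit 458282283662) (nat_lit 2) (nat_lit 5) (nat_lit 4) (nat_lit 4) (nat_lit 2) (nat_lit 4) (nat_lit 248) (nat_lit 216) (nat_lit 136)))) (XT.nd (nat_lit 156) (nat_lit 76) (nat_lit 0)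 (XT.nd (nat_lit 78) (nat_lit 0) (nat_lit 0) (XT.lf (nat_lit 0) (nat_lit 659954705919) (nat_lit 152) (nat_lit 124871103385) (nat_lit 0) (nat_lit 573234445914) (nat_lit 2) (nat_lit 5) (nat_lit 4) (nat_lit 4) (nat_lit 2) (nat_lit 4) (nat_lit 249) (nat_lit 216) (nat_lit 135)) (XT.lf (nat_lit 0) (nat_lit 792149716757) (nat_lit 152) (nat_lit 57060931853) (nat_lit 0) (nat_lit 705429319666) (nat_lit 2) (nat_lit 5) (nat_lit 4) (nat_lit 4) (nat_lit 2) (nat_lit 4) (nat_lit 250) (nat_lit 216) (nat_lit 134))) (XT.nd (nat_lit 78) (nat_lit 0) (nat_lit 0) (XT.lf (nat_lit 0) (nat_lit 22965014006) (nat_lit 76) (nat_lit 922159760908) (nat_lit 76) (nat_lit 835439244611) (nat_lit 1) (nat_lit 4) (nat_lit 2) (nat_lit 5) (nat_lit 2) (nat_lit 4) (nat_lit 251) (nat_lit 216) (nat_lit 133)) (XT.lf (nat_lit 0) (nat_lit 121407478256) (nat_lit 76) (nat_lit 1002621215208) (nat_lit 76) (nat_lit 915900595254) (nat_lit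 1) (nat_lit 4) (nat_lit 2) (nat_lit 5) (nat_lit 2) (nat_lit 4) (nat_lit 252) (nat_lit 216) (nat_lit 132))))) (XT.nd (nat_lit 312) (nat_lit 0) (nat_lit 0) (XT.nd (nat_lit 156) (nat_lit 0) (nat_lit 0) (XT.nd (nat_lit 78) (nat_lit 0) (nat_lit 0) (XT.lf (nat_lit 0) (nat_lit 234616099857) (nat_lit 76) (nat_lit 1095151987887) (nat_lit 76) (nat_lit 1008431277796) (nat_lit 1) (nat_lit 4) (nat_lit 2) (nat_lit 5) (nat_lit 2) (nat_lit 4) (nat_lit 253) (nat_lit 216) (nat_lit 131)) (XT.lf (nat_lit 0) (nat_lit 364805830104) (nat_lit 76) (nat_lit 1201562463626) (nat_lit 76) (nat_lit 1114841675156) (nat_lit 1) (nat_lit 4) (nat_lit 2) (nat_lit 5) (nat_lit 2) (nat_lit 4) (nat_lit 254) (nat_lit 216) (nat_lit 130))) (XT.nd (nat_lit 78) (nat_lit 0) (nat_lit 0) (XT.lf (nat_lit 0) (nat_lit 514523859369) (nat_lit 76) (nat_lit 1323934586517) (nat_lit 76) (nat_lit 1237213729891) (nat_lit 1) (nat_lit 4) (nat_lit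 2) (nat_lit 5) (nat_lit 2) (nat_lit 4) (nat_lit 255) (nat_lit 216) (nat_lit 129)) (XT.lf (nat_lit 0) (nat_lit 686699453444) (nat_lit 76) (nat_lit 1464662593746) (nat_lit 76) (nat_lit 1377941677853) (nat_lit 1) (nat_lit 4) (nat_lit 2) (nat_lit 5) (nat_lit 2) (nat_lit 4) (nat_lit 256) (nat_lit 216) (nat_lit 128)))) (XT.nd (nat_lit 156) (nat_lit 0) (nat_lit 0) (XT.nd (nat_lit 78) (nat_lit 0) (nat_lit 0) (XT.lf (nat_lit 0) (nat_lit 884701265255) (nat_lit 76) (nat_lit 1626499859367) (nat_lit 76) (nat_lit 1539778891939) (nat_lit 1) (nat_lit 4) (nat_lit 2) (nat_lit 5) (nat_lit 2) (nat_lit 4) (nat_lit 257) (nat_lit 216) (nat_lit 127)) (XT.lf (nat_lit 0) (nat_lit 1112403243295) (nat_lit 76) (nat_lit 1812612764666) (nat_lit 76) (nat_lit 1725891752424) (nat_lit 1) (nat_lit 4) (nat_lit 2) (nat_lit 5) (nat_lit 2) (nat_lit 4) (nat_lit 258) (nat_lit 216) (nat_lit 126))) (XT.nd (nat_lit 78) (nat_lit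 0) (nat_lit 0) (XT.lf (nat_lit 0) (nat_lit 1374260426265) (nat_lit 76) (nat_lit 2026642649092) (nat_lit 76) (nat_lit 1939921597882) (nat_lit 1) (nat_lit 4) (nat_lit 2) (nat_lit 5) (nat_lit 2) (nat_lit 4) (nat_lit 259) (nat_lit 216) (nat_lit 125)) (XT.lf (nat_lit 0) (nat_lit 1675396106874) (nat_lit 76) (nat_lit 2272777053864) (nat_lit 76) (nat_lit 2186055968768) (nat_lit 1) (nat_lit 4) (nat_lit 2) (nat_lit 5) (nat_lit 2) (nat_lit 4) (nat_lit 260) (nat_lit 216) (nat_lit 124))))))) (XT.nd (nat_lit 28080) (nat_lit 0) (nat_lit 304) (XT.nd (nat_lit 546) (nat_lit 0) (nat_lit 0) (XT.nd (nat_lit 234) (nat_lit 0) (nat_lit 0) (XT.nd (nat_lit 78) (nat_lit 0) (nat_lit 0) (XT.lf (nat_lit 0) (nat_lit 2021702070178) (nat_lit 76) (nat_lit 2555831652118) (nat_lit 76) (nat_lit 2469110537556) (nat_lit 1) (nat_lit 4) (nat_lit 2) (nat_lit 5) (nat_lit 2) (nat_lit 4) (nat_lit 261) (nat_lit 216) (nat_lit 123))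 (XT.nd (nat_lit 78) (nat_lit 0) (nat_lit 0) (XT.lf (nat_lit 0) (nat_lit 2419953867633) (nat_lit 76) (nat_lit 2881344468602) (nat_lit 76) (nat_lit 2794623328418) (nat_lit 1) (nat_lit 4) (nat_lit 2) (nat_lit 5) (nat_lit 2) (nat_lit 4) (nat_lit 262) (nat_lit 216) (nat_lit 122)) (XT.lf (nat_lit 0) (nat_lit 2877943382232) (nat_lit 76) (nat_lit 3255684232335) (nat_lit 76) (nat_lit 3168963069871) (nat_lit 1) (nat_lit 4) (nat_lit 2) (nat_lit 5) (nat_lit 2) (nat_lit 4) (nat_lit 263) (nat_lit 216) (nat_lit 121)))) (XT.nd (nat_lit 156) (nat_lit 0) (nat_lit 0) (XT.nd (nat_lit 78) (nat_lit 0) (nat_lit 0) (XT.lf (nat_lit 0) (nat_lit 3404631278393) (nat_lit 76) (nat_lit 3686174982173) (nat_lit 76) (nat_lit 3599453800334) (nat_lit 1) (nat_lit 4) (nat_lit 2) (nat_lit 5) (nat_lit 2) (nat_lit 4) (nat_lit 264) (nat_lit 216) (nat_lit 120)) (XT.lf (nat_lit 0) (nat_lit 4010322319300) (nat_lit 76) (nat_lit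 4181239363220) (nat_lit 76) (nat_lit 4094518164534) (nat_lit 1) (nat_lit 4) (nat_lit 2) (nat_lit 5) (nat_lit 2) (nat_lit 4) (nat_lit 265) (nat_lit 216) (nat_lit 119))) (XT.nd (nat_lit 78) (nat_lit 0) (nat_lit 0) (XT.lf (nat_lit 0) (nat_lit 4706866981841) (nat_lit 76) (nat_lit 4750563417715) (nat_lit 76) (nat_lit 4663842204379) (nat_lit 1) (nat_lit 4) (nat_lit 2) (nat_lit 5) (nat_lit 2) (nat_lit 4) (nat_lit 266) (nat_lit 216) (nat_lit 118)) (XT.lf (nat_lit 0) (nat_lit 5507893313761) (nat_lit 76) (nat_lit 5405286094550) (nat_lit 76) (nat_lit 5318564868476) (nat_lit 1) (nat_lit 4) (nat_lit 2) (nat_lit 5) (nat_lit 2) (nat_lit 4) (nat_lit 267) (nat_lit 216) (nat_lit 117))))) (XT.nd (nat_lit 312) (nat_lit 0) (nat_lit 0) (XT.nd (nat_lit 156) (nat_lit 0) (nat_lit 0) (XT.nd (nat_lit 78) (nat_lit 0) (nat_lit 0) (XT.lf (nat_lit 0) (nat_lit 6429073569380) (nat_lit 76) (nat_lit 6158217185229) (nat_lit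 76) (nat_lit 6071495948077) (nat_lit 1) (nat_lit 4) (nat_lit 2) (nat_lit 5) (nat_lit 2) (nat_lit 4) (nat_lit 268) (nat_lit 216) (nat_lit 116)) (XT.lf (nat_lit 0) (nat_lit 7488430840657) (nat_lit 76) (nat_lit 7024087950220) (nat_lit 76) (nat_lit 6937366703436) (nat_lit 1) (nat_lit 4) (nat_lit 2) (nat_lit 5) (nat_lit 2) (nat_lit 4) (nat_lit 269) (nat_lit 216) (nat_lit 115))) (XT.nd (nat_lit 78) (nat_lit 0) (nat_lit 0) (XT.lf (nat_lit 0) (nat_lit 8706691682898) (nat_lit 76) (nat_lit 8019839339274) (nat_lit 76) (nat_lit 7933118084114) (nat_lit 1) (nat_lit 4) (nat_lit 2) (nat_lit 5) (nat_lit 2) (nat_lit 4) (nat_lit 270) (nat_lit 216) (nat_lit 114)) (XT.lf (nat_lit 0) (nat_lit 10107691634321) (nat_lit 76) (nat_lit 9164953444786) (nat_lit 76) (nat_lit 9078232182343) (nat_lit 1) (nat_lit 4) (nat_lit 2) (nat_lit 5) (nat_lit 2) (nat_lit 4) (nat_lit 271) (nat_lit 216) (nat_lit 113)))) (XT.nd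 (nat_lit 27066) (nat_lit 0) (nat_lit 1140) (XT.nd (nat_lit 26988) (nat_lit 0) (nat_lit 1140) (XT.lf (nat_lit 0) (nat_lit 11718841563543) (nat_lit 76) (nat_lit 10481834673168) (nat_lit 76) (nat_lit 10395113404391) (nat_lit 1) (nat_lit 4) (nat_lit 2) (nat_lit 5) (nat_lit 2) (nat_lit 4) (nat_lit 272) (nat_lit 216) (nat_lit 112)) (XT.lf (nat_lit 0) (nat_lit 9837898179) (nat_lit 0) (nat_lit 9837898179) (nat_lit 228) (nat_lit 2431772172) (nat_lit 16) (nat_lit 5) (nat_lit 16) (nat_lit 3) (nat_lit 19) (nat_lit 3) (nat_lit 217) (nat_lit 217) (nat_lit 166))) (XT.nd (nat_lit 78) (nat_lit 0) (nat_lit 0) (XT.lf (nat_lit 0) (nat_lit 41061378611) (nat_lit 0) (nat_lit 1269007658) (nat_lit 228) (nat_lit 5196392220) (nat_lit 16) (nat_lit 5) (nat_lit 16) (nat_lit 3) (nat_lit 19) (nat_lit 3) (nat_lit 218) (nat_lit 217) (nat_lit 165)) (XT.lf (nat_lit 76) (nat_lit 14810890376) (nat_lit 0) (nat_lit 32377580841)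 (nat_lit 304) (nat_lit 3931891761) (nat_lit 17) (nat_lit 5) (nat_lit 16) (nat_lit 5) (nat_lit 20) (nat_lit 5) (nat_lit 219) (nat_lit 217) (nat_lit 164)))))) (XT.nd (nat_lit 624) (nat_lit 304) (nat_lit 0) (XT.nd (nat_lit 312) (nat_lit 152) (nat_lit 0) (XT.nd (nat_lit 156) (nat_lit 152) (nat_lit 0) (XT.nd (nat_lit 78) (nat_lit 228) (nat_lit 0) (XT.lf (nat_lit 76) (nat_lit 39935721676) (nat_lit 0) (nat_lit 13230903213) (nat_lit 304) (nat_lit 2027715727) (nat_lit 17) (nat_lit 5) (nat_lit 16) (nat_lit 5) (nat_lit 20) (nat_lit 5) (nat_lit 220) (nat_lit 217) (nat_lit 163)) (XT.lf (nat_lit 0) (nat_lit 933647062) (nat_lit 304) (nat_lit 50388053988) (nat_lit 76) (nat_lit 8438853051) (nat_lit 13) (nat_lit 5) (nat_lit 17) (nat_lit 5) (nat_lit 14) (nat_lit 5) (nat_lit 221) (nat_lit 217) (nat_lit 162))) (XT.nd (nat_lit 78) (nat_lit 152) (nat_lit 0) (XT.lf (nat_lit 0) (nat_lit 5593704001) (nat_lit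 304) (nat_lit 26247147190) (nat_lit 76) (nat_lit 32937090063) (nat_lit 13) (nat_lit 5) (nat_lit 17) (nat_lit 5) (nat_lit 14) (nat_lit 5) (nat_lit 222) (nat_lit 217) (nat_lit 161)) (XT.lf (nat_lit 0) (nat_lit 1659453921) (nat_lit 152) (nat_lit 9358947531) (nat_lit 228) (nat_lit 59519723894) (nat_lit 11) (nat_lit 5) (nat_lit 13) (nat_lit 5) (nat_lit 14) (nat_lit 5) (nat_lit 223) (nat_lit 217) (nat_lit 160)))) (XT.nd (nat_lit 156) (nat_lit 152) (nat_lit 0) (XT.nd (nat_lit 78) (nat_lit 0) (nat_lit 0) (XT.lf (nat_lit 0) (nat_lit 19374364645) (nat_lit 228) (nat_lit 41006509603) (nat_lit 76) (nat_lit 16463857902) (nat_lit 11) (nat_lit 5) (nat_lit 14) (nat_lit 5) (nat_lit 12) (nat_lit 5) (nat_lit 224) (nat_lit 217) (nat_lit 159)) (XT.lf (nat_lit 0) (nat_lit 29426938285) (nat_lit 228) (nat_lit 9402208620) (nat_lit 76) (nat_lit 45201726128) (nat_lit 11) (nat_lit 5) (nat_lit 14) (nat_lit 5) (nat_lit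 12) (nat_lit 5) (nat_lit 225) (nat_lit 217) (nat_lit 158))) (XT.nd (nat_lit 78) (nat_lit 0) (nat_lit 0) (XT.lf (nat_lit 0) (nat_lit 29572894136) (nat_lit 152) (nat_lit 12636925445) (nat_lit 228) (nat_lit 49901774358) (nat_lit 9) (nat_lit 5) (nat_lit 11) (nat_lit 5) (nat_lit 12) (nat_lit 5) (nat_lit 226) (nat_lit 217) (nat_lit 157)) (XT.lf (nat_lit 0) (nat_lit 58147018535) (nat_lit 228) (nat_lit 26629940172) (nat_lit 76) (nat_lit 16441950702) (nat_lit 9) (nat_lit 5) (nat_lit 12) (nat_lit 5) (nat_lit 10) (nat_lit 4) (nat_lit 227) (nat_lit 217) (nat_lit 156))))) (XT.nd (nat_lit 312) (nat_lit 76) (nat_lit 0) (XT.nd (nat_lit 156) (nat_lit 152) (nat_lit 0) (XT.nd (nat_lit 78) (nat_lit 0) (nat_lit 0) (XT.lf (nat_lit 0) (nat_lit 15435080356) (nat_lit 76) (nat_lit 62278889178) (nat_lit 152) (nat_lit 33792493567) (nat_lit 8) (nat_lit 5) (nat_lit 9) (nat_lit 5) (nat_lit 10) (nat_lit 4) (nat_lit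 228) (nat_lit 217) (nat_lit 155)) (XT.lf (nat_lit 0) (nat_lit 66800374379) (nat_lit 76) (nat_lit 34806016690) (nat_lit 152) (nat_lit 21522209148) (nat_lit 8) (nat_lit 5) (nat_lit 9) (nat_lit 5) (nat_lit 10) (nat_lit 4) (nat_lit 229) (nat_lit 217) (nat_lit 154))) (XT.nd (nat_lit 78) (nat_lit 152) (nat_lit 0) (XT.lf (nat_lit 0) (nat_lit 125868443616) (nat_lit 76) (nat_lit 3212848122) (nat_lit 152) (nat_lit 7412986433) (nat_lit 8) (nat_lit 5) (nat_lit 9) (nat_lit 5) (nat_lit 10) (nat_lit 4) (nat_lit 230) (nat_lit 217) (nat_lit 153)) (XT.lf (nat_lit 0) (nat_lit 11394830153) (nat_lit 152) (nat_lit 107378431512) (nat_lit 76) (nat_lit 32531803330) (nat_lit 6) (nat_lit 5) (nat_lit 8) (nat_lit 5) (nat_lit 7) (nat_lit 4) (nat_lit 231) (nat_lit 217) (nat_lit 152)))) (XT.nd (nat_lit 156) (nat_lit 76) (nat_lit 0) (XT.nd (nat_lit 78) (nat_lit 0) (nat_lit 0) (XT.lf (nat_lit 0) (nat_lit 32998548694)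 (nat_lit 152) (nat_lit 60932387632) (nat_lit 76) (nat_lit 74243540223) (nat_lit 6) (nat_lit 5) (nat_lit 8) (nat_lit 5) (nat_lit 7) (nat_lit 4) (nat_lit 232) (nat_lit 217) (nat_lit 151)) (XT.lf (nat_lit 0) (nat_lit 57841776640) (nat_lit 152) (nat_lit 7521144053) (nat_lit 76) (nat_lit 122211543634) (nat_lit 6) (nat_lit 5) (nat_lit 8) (nat_lit 5) (nat_lit 7) (nat_lit 4) (nat_lit 233) (nat_lit 217) (nat_lit 150))) (XT.nd (nat_lit 78) (nat_lit 0) (nat_lit 0) (XT.lf (nat_lit 0) (nat_lit 59167831310) (nat_lit 76) (nat_lit 29692759556) (nat_lit 152) (nat_lit 120656500384) (nat_lit 5) (nat_lit 5) (nat_lit 6) (nat_lit 5) (nat_lit 7) (nat_lit 4) (nat_lit 234) (nat_lit 217) (nat_lit 149)) (XT.lf (nat_lit 0) (nat_lit 125412289849) (nat_lit 152) (nat_lit 98476025855) (nat_lit 0) (nat_lit 10730792584) (nat_lit 5) (nat_lit 5) (nat_lit 7) (nat_lit 4) (nat_lit 5) (nat_lit 4) (nat_lit 235) (nat_lit 217)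 (nat_lit 148))))))))
noncomputable def xc44 : XT := (XT.nd (nat_lit 2418) (nat_lit 0) (nat_lit 0) (XT.nd (nat_lit 1170) (nat_lit 76) (nat_lit 0) (XT.nd (nat_lit 546) (nat_lit 0) (nat_lit 0) (XT.nd (nat_lit 234) (nat_lit 152) (nat_lit 0) (XT.nd (nat_lit 78) (nat_lit 76) (nat_lit 0) (XT.lf (nat_lit 0) (nat_lit 168859923915) (nat_lit 152) (nat_lit 40237075022) (nat_lit 0) (nat_lit 54177456668) (nat_lit 5) (nat_lit 5) (nat_lit 7) (nat_lit 4) (nat_lit 5) (nat_lit 4) (nat_lit 236) (nat_lit 217) (nat_lit 147)) (XT.nd (nat_lit 78) (nat_lit 0) (nat_lit 0) (XT.lf (nat_lit 0) (nat_lit 29349455641) (nat_lit 76) (nat_lit 190689884345) (nat_lit 76) (nat_lit 76006573634) (nat_lit 4) (nat_lit 4) (nat_lit 5) (nat_lit 5) (nat_lit 5) (nat_lit 4) (nat_lit 237) (nat_lit 217) (nat_lit 146)) (XT.lf (nat_lit 0) (nat_lit 113894962629) (nat_lit 76) (nat_lit 167103386670) (nat_lit 76) (nat_lit 52419342513) (nat_lit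 4) (nat_lit 4) (nat_lit 5) (nat_lit 5) (nat_lit 5) (nat_lit 4) (nat_lit 238) (nat_lit 217) (nat_lit 145)))) (XT.nd (nat_lit 156) (nat_lit 76) (nat_lit 0) (XT.nd (nat_lit 78) (nat_lit 76) (nat_lit 0) (XT.lf (nat_lit 0) (nat_lit 211121337558) (nat_lit 76) (nat_lit 139979332607) (nat_lit 76) (nat_lit 25294650671) (nat_lit 4) (nat_lit 4) (nat_lit 5) (nat_lit 5) (nat_lit 5) (nat_lit 4) (nat_lit 239) (nat_lit 217) (nat_lit 144)) (XT.lf (nat_lit 0) (nat_lit 5373103621) (nat_lit 152) (nat_lit 103133063740) (nat_lit 76) (nat_lit 317276865189) (nat_lit 3) (nat_lit 5) (nat_lit 5) (nat_lit 5) (nat_lit 4) (nat_lit 4) (nat_lit 240) (nat_lit 217) (nat_lit 143))) (XT.nd (nat_lit 78) (nat_lit 76) (nat_lit 0) (XT.lf (nat_lit 0) (nat_lit 38050900840) (nat_lit 152) (nat_lit 32876281971) (nat_lit 76) (nat_lit 411471108659) (nat_lit 3) (nat_lit 5) (nat_lit 5) (nat_lit 5) (nat_lit 4) (nat_lit 4) (nat_lit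 241) (nat_lit 217) (nat_lit 142)) (XT.lf (nat_lit 0) (nat_lit 52601278319) (nat_lit 76) (nat_lit 25206822354) (nat_lit 152) (nat_lit 469371080390) (nat_lit 2) (nat_lit 5) (nat_lit 3) (nat_lit 5) (nat_lit 4) (nat_lit 4) (nat_lit 242) (nat_lit 217) (nat_lit 141))))) (XT.nd (nat_lit 312) (nat_lit 0) (nat_lit 0) (XT.nd (nat_lit 156) (nat_lit 0) (nat_lit 0) (XT.nd (nat_lit 78) (nat_lit 0) (nat_lit 0) (XT.lf (nat_lit 0) (nat_lit 126462284304) (nat_lit 152) (nat_lit 468040020192) (nat_lit 0) (nat_lit 26734890581) (nat_lit 2) (nat_lit 5) (nat_lit 4) (nat_lit 4) (nat_lit 2) (nat_lit 4) (nat_lit 243) (nat_lit 217) (nat_lit 140)) (XT.lf (nat_lit 0) (nat_lit 183614604473) (nat_lit 152) (nat_lit 438722371702) (nat_lit 0) (nat_lit 83886935020) (nat_lit 2) (nat_lit 5) (nat_lit 4) (nat_lit 4) (nat_lit 2) (nat_lit 4) (nat_lit 244) (nat_lit 217) (nat_lit 139))) (XT.nd (nat_lit 78) (nat_lit 0) (nat_lit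 0) (XT.lf (nat_lit 0) (nat_lit 249339497989) (nat_lit 152) (nat_lit 405007590349) (nat_lit 0) (nat_lit 149611588771) (nat_lit 2) (nat_lit 5) (nat_lit 4) (nat_lit 4) (nat_lit 2) (nat_lit 4) (nat_lit 245) (nat_lit 217) (nat_lit 138)) (XT.lf (nat_lit 0) (nat_lit 324922886682) (nat_lit 152) (nat_lit 366236039106) (nat_lit 0) (nat_lit 225194768973) (nat_lit 2) (nat_lit 5) (nat_lit 4) (nat_lit 4) (nat_lit 2) (nat_lit 4) (nat_lit 246) (nat_lit 217) (nat_lit 137)))) (XT.nd (nat_lit 156) (nat_lit 0) (nat_lit 0) (XT.nd (nat_lit 78) (nat_lit 0) (nat_lit 0) (XT.lf (nat_lit 0) (nat_lit 411843575982) (nat_lit 152) (nat_lit 321649144144) (nat_lit 0) (nat_lit 312115276977) (nat_lit 2) (nat_lit 5) (nat_lit 4) (nat_lit 4) (nat_lit 2) (nat_lit 4) (nat_lit 247) (nat_lit 217) (nat_lit 136)) (XT.lf (nat_lit 0) (nat_lit 511802188073) (nat_lit 152) (nat_lit 270374553170) (nat_lit 0) (nat_lit 412073731418)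 (nat_lit 2) (nat_lit 5) (nat_lit 4) (nat_lit 4) (nat_lit 2) (nat_lit 4) (nat_lit 248) (nat_lit 217) (nat_lit 135))) (XT.nd (nat_lit 78) (nat_lit 0) (nat_lit 0) (XT.lf (nat_lit 0) (nat_lit 626754434928) (nat_lit 152) (nat_lit 211409067667) (nat_lit 0) (nat_lit 527025841187) (nat_lit 2) (nat_lit 5) (nat_lit 4) (nat_lit 4) (nat_lit 2) (nat_lit 4) (nat_lit 249) (nat_lit 217) (nat_lit 134)) (XT.lf (nat_lit 0) (nat_lit 758949382248) (nat_lit 152) (nat_lit 143599015090) (nat_lit 0) (nat_lit 659220669301) (nat_lit 2) (nat_lit 5) (nat_lit 4) (nat_lit 4) (nat_lit 2) (nat_lit 4) (nat_lit 250) (nat_lit 217) (nat_lit 133)))))) (XT.nd (nat_lit 624) (nat_lit 0) (nat_lit 0) (XT.nd (nat_lit 312) (nat_lit 0) (nat_lit 0) (XT.nd (nat_lit 156) (nat_lit 0) (nat_lit 0) (XT.nd (nat_lit 78) (nat_lit 76) (nat_lit 0) (XT.lf (nat_lit 0) (nat_lit 910973452916) (nat_lit 152) (nat_lit 65617677021) (nat_lit 0) (nat_lit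 811244636312) (nat_lit 2) (nat_lit 5) (nat_lit 4) (nat_lit 4) (nat_lit 2) (nat_lit 4) (nat_lit 251) (nat_lit 217) (nat_lit 132)) (XT.lf (nat_lit 0) (nat_lit 26412051872) (nat_lit 76) (nat_lit 1060482645792) (nat_lit 76) (nat_lit 960753739052) (nat_lit 1) (nat_lit 4) (nat_lit 2) (nat_lit 5) (nat_lit 2) (nat_lit 4) (nat_lit 252) (nat_lit 217) (nat_lit 131))) (XT.nd (nat_lit 78) (nat_lit 0) (nat_lit 0) (XT.lf (nat_lit 0) (nat_lit 139620587616) (nat_lit 76) (nat_lit 1153013459010) (nat_lit 76) (nat_lit 1053284473890) (nat_lit 1) (nat_lit 4) (nat_lit 2) (nat_lit 5) (nat_lit 2) (nat_lit 4) (nat_lit 253) (nat_lit 217) (nat_lit 130)) (XT.lf (nat_lit 0) (nat_lit 269810243203) (nat_lit 76) (nat_lit 1259423970001) (nat_lit 76) (nat_lit 1159694916725) (nat_lit 1) (nat_lit 4) (nat_lit 2) (nat_lit 5) (nat_lit 2) (nat_lit 4) (nat_lit 254) (nat_lit 217) (nat_lit 129)))) (XT.nd (nat_lit 156) (nat_lit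 0) (nat_lit 0) (XT.nd (nat_lit 78) (nat_lit 0) (nat_lit 0) (XT.lf (nat_lit 0) (nat_lit 419528207547) (nat_lit 76) (nat_lit 1381796123545) (nat_lit 76) (nat_lit 1282067011002) (nat_lit 1) (nat_lit 4) (nat_lit 2) (nat_lit 5) (nat_lit 2) (nat_lit 4) (nat_lit 255) (nat_lit 217) (nat_lit 128)) (XT.lf (nat_lit 0) (nat_lit 591703745168) (nat_lit 76) (nat_lit 1522524157429) (nat_lit 76) (nat_lit 1422794993351) (nat_lit 1) (nat_lit 4) (nat_lit 2) (nat_lit 5) (nat_lit 2) (nat_lit 4) (nat_lit 256) (nat_lit 217) (nat_lit 127))) (XT.nd (nat_lit 78) (nat_lit 0) (nat_lit 0) (XT.lf (nat_lit 0) (nat_lit 789705507890) (nat_lit 76) (nat_lit 1684361446229) (nat_lit 76) (nat_lit 1584632237337) (nat_lit 1) (nat_lit 4) (nat_lit 2) (nat_lit 5) (nat_lit 2) (nat_lit 4) (nat_lit 257) (nat_lit 217) (nat_lit 126)) (XT.lf (nat_lit 0) (nat_lit 1017407443243) (nat_lit 76) (nat_lit 1870474371682) (nat_lit 76) (nat_lit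 1770745123822) (nat_lit 1) (nat_lit 4) (nat_lit 2) (nat_lit 5) (nat_lit 2) (nat_lit 4) (nat_lit 258) (nat_lit 217) (nat_lit 125))))) (XT.nd (nat_lit 312) (nat_lit 0) (nat_lit 0) (XT.nd (nat_lit 156) (nat_lit 0) (nat_lit 0) (XT.nd (nat_lit 78) (nat_lit 0) (nat_lit 0) (XT.lf (nat_lit 0) (nat_lit 1279264589093) (nat_lit 76) (nat_lit 2084504273635) (nat_lit 76) (nat_lit 1984774991889) (nat_lit 1) (nat_lit 4) (nat_lit 2) (nat_lit 5) (nat_lit 2) (nat_lit 4) (nat_lit 259) (nat_lit 217) (nat_lit 124)) (XT.lf (nat_lit 0) (nat_lit 1580400237425) (nat_lit 76) (nat_lit 2330638693647) (nat_lit 76) (nat_lit 2230909382435) (nat_lit 1) (nat_lit 4) (nat_lit 2) (nat_lit 5) (nat_lit 2) (nat_lit 4) (nat_lit 260) (nat_lit 217) (nat_lit 123))) (XT.nd (nat_lit 78) (nat_lit 0) (nat_lit 0) (XT.lf (nat_lit 0) (nat_lit 1926706172662) (nat_lit 76) (nat_lit 2613693305153) (nat_lit 76) (nat_lit 2513963968319) (nat_lit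 1) (nat_lit 4) (nat_lit 2) (nat_lit 5) (nat_lit 2) (nat_lit 4) (nat_lit 261) (nat_lit 217) (nat_lit 122)) (XT.lf (nat_lit 0) (nat_lit 2324957945710) (nat_lit 76) (nat_lit 2939206133161) (nat_lit 76) (nat_lit 2839476774047) (nat_lit 1) (nat_lit 4) (nat_lit 2) (nat_lit 5) (nat_lit 2) (nat_lit 4) (nat_lit 262) (nat_lit 217) (nat_lit 121)))) (XT.nd (nat_lit 156) (nat_lit 0) (nat_lit 0) (XT.nd (nat_lit 78) (nat_lit 0) (nat_lit 0) (XT.lf (nat_lit 0) (nat_lit 2782947439087) (nat_lit 76) (nat_lit 3313545906915) (nat_lit 76) (nat_lit 3213816528426) (nat_lit 1) (nat_lit 4) (nat_lit 2) (nat_lit 5) (nat_lit 2) (nat_lit 4) (nat_lit 263) (nat_lit 217) (nat_lit 120)) (XT.lf (nat_lit 0) (nat_lit 3309635316793) (nat_lit 76) (nat_lit 3744036665466) (nat_lit 76) (nat_lit 3644307270130) (nat_lit 1) (nat_lit 4) (nat_lit 2) (nat_lit 5) (nat_lit 2) (nat_lit 4) (nat_lit 264) (nat_lit 217) (nat_lit 119)))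 (XT.nd (nat_lit 78) (nat_lit 0) (nat_lit 0) (XT.lf (nat_lit 0) (nat_lit 3915326341652) (nat_lit 76) (nat_lit 4239101054090) (nat_lit 76) (nat_lit 4139371644105) (nat_lit 1) (nat_lit 4) (nat_lit 2) (nat_lit 5) (nat_lit 2) (nat_lit 4) (nat_lit 265) (nat_lit 217) (nat_lit 118)) (XT.lf (nat_lit 0) (nat_lit 4611870990239) (nat_lit 76) (nat_lit 4808425115174) (nat_lit 76) (nat_lit 4708695692449) (nat_lit 1) (nat_lit 4) (nat_lit 2) (nat_lit 5) (nat_lit 2) (nat_lit 4) (nat_lit 266) (nat_lit 217) (nat_lit 117))))))) (XT.nd (nat_lit 28158) (nat_lit 0) (nat_lit 152) (XT.nd (nat_lit 27534) (nat_lit 0) (nat_lit 760) (XT.nd (nat_lit 234) (nat_lit 0) (nat_lit 0) (XT.nd (nat_lit 78) (nat_lit 0) (nat_lit 0) (XT.lf (nat_lit 0) (nat_lit 5412897310025) (nat_lit 76) (nat_lit 5463147797738) (nat_lit 76) (nat_lit 5363418363937) (nat_lit 1) (nat_lit 4) (nat_lit 2) (nat_lit 5) (nat_lit 2) (nat_lit 4) (nat_lit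 267) (nat_lit 217) (nat_lit 116)) (XT.nd (nat_lit 78) (nat_lit 0) (nat_lit 0) (XT.lf (nat_lit 0) (nat_lit 6334077555093) (nat_lit 76) (nat_lit 6216078893399) (nat_lit 76) (nat_lit 6116349449965) (nat_lit 1) (nat_lit 4) (nat_lit 2) (nat_lit 5) (nat_lit 2) (nat_lit 4) (nat_lit 268) (nat_lit 217) (nat_lit 115)) (XT.lf (nat_lit 0) (nat_lit 7393434817194) (nat_lit 76) (nat_lit 7081949662722) (nat_lit 76) (nat_lit 6982220210912) (nat_lit 1) (nat_lit 4) (nat_lit 2) (nat_lit 5) (nat_lit 2) (nat_lit 4) (nat_lit 269) (nat_lit 217) (nat_lit 114)))) (XT.nd (nat_lit 156) (nat_lit 0) (nat_lit 0) (XT.nd (nat_lit 78) (nat_lit 0) (nat_lit 0) (XT.lf (nat_lit 0) (nat_lit 8611695651457) (nat_lit 76) (nat_lit 8077701055544) (nat_lit 76) (nat_lit 7977971596450) (nat_lit 1) (nat_lit 4) (nat_lit 2) (nat_lit 5) (nat_lit 2) (nat_lit 4) (nat_lit 270) (nat_lit 217) (nat_lit 113)) (XT.lf (nat_lit 0) (nat_lit 10012695595942)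 (nat_lit 76) (nat_lit 9222815164332) (nat_lit 76) (nat_lit 9123085698904) (nat_lit 1) (nat_lit 4) (nat_lit 2) (nat_lit 5) (nat_lit 2) (nat_lit 4) (nat_lit 271) (nat_lit 217) (nat_lit 112))) (XT.nd (nat_lit 27066) (nat_lit 0) (nat_lit 1140) (XT.lf (nat_lit 0) (nat_lit 11623845519131) (nat_lit 76) (nat_lit 10539696395562) (nat_lit 76) (nat_lit 10439966924627) (nat_lit 1) (nat_lit 4) (nat_lit 2) (nat_lit 5) (nat_lit 2) (nat_lit 4) (nat_lit 272) (nat_lit 217) (nat_lit 111)) (XT.lf (nat_lit 0) (nat_lit 11326727168) (nat_lit 0) (nat_lit 11326727168) (nat_lit 228) (nat_lit 2765941701) (nat_lit 16) (nat_lit 5) (nat_lit 16) (nat_lit 3) (nat_lit 19) (nat_lit 3) (nat_lit 218) (nat_lit 218) (nat_lit 164))))) (XT.nd (nat_lit 312) (nat_lit 152) (nat_lit 0) (XT.nd (nat_lit 156) (nat_lit 228) (nat_lit 0) (XT.nd (nat_lit 78) (nat_lit 0) (nat_lit 0) (XT.lf (nat_lit 0) (nat_lit 47243444990) (nat_lit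 0) (nat_lit 1482218394) (nat_lit 228) (nat_lit 5922640102) (nat_lit 16) (nat_lit 5) (nat_lit 16) (nat_lit 3) (nat_lit 19) (nat_lit 3) (nat_lit 219) (nat_lit 218) (nat_lit 163)) (XT.lf (nat_lit 76) (nat_lit 17062399230) (nat_lit 0) (nat_lit 37244512444) (nat_lit 304) (nat_lit 4474929066) (nat_lit 17) (nat_lit 5) (nat_lit 16) (nat_lit 5) (nat_lit 20) (nat_lit 5) (nat_lit 220) (nat_lit 218) (nat_lit 162))) (XT.nd (nat_lit 78) (nat_lit 228) (nat_lit 0) (XT.lf (nat_lit 76) (nat_lit 45952058447) (nat_lit 0) (nat_lit 15224490413) (nat_lit 304) (nat_lit 2291223992) (nat_lit 17) (nat_lit 5) (nat_lit 16) (nat_lit 5) (nat_lit 20) (nat_lit 5) (nat_lit 221) (nat_lit 218) (nat_lit 161)) (XT.lf (nat_lit 0) (nat_lit 1106884519) (nat_lit 304) (nat_lit 57912045636) (nat_lit 76) (nat_lit 9700366066) (nat_lit 13) (nat_lit 5) (nat_lit 17) (nat_lit 5) (nat_lit 14) (nat_lit 5) (nat_lit 222) (nat_lit 218)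 (nat_lit 160)))) (XT.nd (nat_lit 156) (nat_lit 0) (nat_lit 0) (XT.nd (nat_lit 78) (nat_lit 152) (nat_lit 0) (XT.lf (nat_lit 0) (nat_lit 6461620817) (nat_lit 304) (nat_lit 30154465833) (nat_lit 76) (nat_lit 37873901449) (nat_lit 13) (nat_lit 5) (nat_lit 17) (nat_lit 5) (nat_lit 14) (nat_lit 5) (nat_lit 223) (nat_lit 218) (nat_lit 159)) (XT.lf (nat_lit 0) (nat_lit 1936773015) (nat_lit 152) (nat_lit 10760661388) (nat_lit 228) (nat_lit 68417194780) (nat_lit 11) (nat_lit 5) (nat_lit 13) (nat_lit 5) (nat_lit 14) (nat_lit 5) (nat_lit 224) (nat_lit 218) (nat_lit 158))) (XT.nd (nat_lit 78) (nat_lit 0) (nat_lit 0) (XT.lf (nat_lit 0) (nat_lit 22303441831) (nat_lit 228) (nat_lit 47129200963) (nat_lit 76) (nat_lit 18935122499) (nat_lit 11) (nat_lit 5) (nat_lit 14) (nat_lit 5) (nat_lit 12) (nat_lit 5) (nat_lit 225) (nat_lit 218) (nat_lit 157)) (XT.lf (nat_lit 0) (nat_lit 33860911627) (nat_lit 228)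 (nat_lit 10787944191) (nat_lit 76) (nat_lit 51983451057) (nat_lit 11) (nat_lit 5) (nat_lit 14) (nat_lit 5) (nat_lit 12) (nat_lit 5) (nat_lit 226) (nat_lit 218) (nat_lit 156)))))) (XT.nd (nat_lit 624) (nat_lit 228) (nat_lit 0) (XT.nd (nat_lit 312) (nat_lit 152) (nat_lit 0) (XT.nd (nat_lit 156) (nat_lit 76) (nat_lit 0) (XT.nd (nat_lit 78) (nat_lit 0) (nat_lit 0) (XT.lf (nat_lit 0) (nat_lit 34032305992) (nat_lit 152) (nat_lit 14527291385) (nat_lit 228) (nat_lit 57365809731) (nat_lit 9) (nat_lit 5) (nat_lit 11) (nat_lit 5) (nat_lit 12) (nat_lit 5) (nat_lit 227) (nat_lit 218) (nat_lit 155)) (XT.lf (nat_lit 0) (nat_lit 66885174841) (nat_lit 228) (nat_lit 30601657754) (nat_lit 76) (nat_lit 18912341005) (nat_lit 9) (nat_lit 5) (nat_lit 12) (nat_lit 5) (nat_lit 10) (nat_lit 4) (nat_lit 228) (nat_lit 218) (nat_lit 154))) (XT.nd (nat_lit 78) (nat_lit 0) (nat_lit 0) (XT.lf (nat_lit 0) (nat_lit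 17772080696) (nat_lit 76) (nat_lit 71613887470) (nat_lit 152) (nat_lit 38844092667) (nat_lit 8) (nat_lit 5) (nat_lit 9) (nat_lit 5) (nat_lit 10) (nat_lit 4) (nat_lit 229) (nat_lit 218) (nat_lit 153)) (XT.lf (nat_lit 0) (nat_lit 76839333394) (nat_lit 76) (nat_lit 40020975642) (nat_lit 152) (nat_lit 24735518837) (nat_lit 8) (nat_lit 5) (nat_lit 9) (nat_lit 5) (nat_lit 10) (nat_lit 4) (nat_lit 230) (nat_lit 218) (nat_lit 152)))) (XT.nd (nat_lit 156) (nat_lit 0) (nat_lit 0) (XT.nd (nat_lit 78) (nat_lit 152) (nat_lit 0) (XT.lf (nat_lit 0) (nat_lit 144765147426) (nat_lit 76) (nat_lit 3689607034) (nat_lit 152) (nat_lit 8511872065) (nat_lit 8) (nat_lit 5) (nat_lit 9) (nat_lit 5) (nat_lit 10) (nat_lit 4) (nat_lit 231) (nat_lit 218) (nat_lit 151)) (XT.lf (nat_lit 0) (nat_lit 13115342996) (nat_lit 152) (nat_lit 123466817466) (nat_lit 76) (nat_lit 37416893130) (nat_lit 6) (nat_lit 5) (nat_lit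 8) (nat_lit 5) (nat_lit 7) (nat_lit 4) (nat_lit 232) (nat_lit 218) (nat_lit 150))) (XT.nd (nat_lit 78) (nat_lit 0) (nat_lit 0) (XT.lf (nat_lit 0) (nat_lit 37958146928) (nat_lit 152) (nat_lit 70056264235) (nat_lit 76) (nat_lit 85384696736) (nat_lit 6) (nat_lit 5) (nat_lit 8) (nat_lit 5) (nat_lit 7) (nat_lit 4) (nat_lit 233) (nat_lit 218) (nat_lit 149)) (XT.lf (nat_lit 0) (nat_lit 66526578727) (nat_lit 152) (nat_lit 8635418669) (nat_lit 76) (nat_lit 140547297335) (nat_lit 6) (nat_lit 5) (nat_lit 8) (nat_lit 5) (nat_lit 7) (nat_lit 4) (nat_lit 234) (nat_lit 218) (nat_lit 148))))) (XT.nd (nat_lit 312) (nat_lit 76) (nat_lit 0) (XT.nd (nat_lit 156) (nat_lit 76) (nat_lit 0) (XT.nd (nat_lit 78) (nat_lit 0) (nat_lit 0) (XT.lf (nat_lit 0) (nat_lit 68056271317) (nat_lit 76) (nat_lit 34141379720) (nat_lit 152) (nat_lit 138745756946) (nat_lit 5) (nat_lit 5) (nat_lit 6) (nat_lit 5) (nat_lit 7) (nat_lit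 4) (nat_lit 235) (nat_lit 218) (nat_lit 147)) (XT.lf (nat_lit 0) (nat_lit 144231255714) (nat_lit 152) (nat_lit 113235000985) (nat_lit 0) (nat_lit 12344604934) (nat_lit 5) (nat_lit 5) (nat_lit 7) (nat_lit 4) (nat_lit 5) (nat_lit 4) (nat_lit 236) (nat_lit 218) (nat_lit 146))) (XT.nd (nat_lit 78) (nat_lit 76) (nat_lit 0) (XT.lf (nat_lit 0) (nat_lit 194195105882) (nat_lit 152) (nat_lit 46261828668) (nat_lit 0) (nat_lit 62307721656) (nat_lit 5) (nat_lit 5) (nat_lit 7) (nat_lit 4) (nat_lit 5) (nat_lit 4) (nat_lit 237) (nat_lit 218) (nat_lit 145)) (XT.lf (nat_lit 0) (nat_lit 33762190340) (nat_lit 76) (nat_lit 219288863370) (nat_lit 76) (nat_lit 87400841365) (nat_lit 4) (nat_lit 4) (nat_lit 5) (nat_lit 5) (nat_lit 5) (nat_lit 4) (nat_lit 238) (nat_lit 218) (nat_lit 144)))) (XT.nd (nat_lit 156) (nat_lit 76) (nat_lit 0) (XT.nd (nat_lit 78) (nat_lit 0) (nat_lit 0) (XT.lf (nat_lit 0) (nat_lit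 130988177764) (nat_lit 76) (nat_lit 192164978473) (nat_lit 76) (nat_lit 60276401877) (nat_lit 4) (nat_lit 4) (nat_lit 5) (nat_lit 5) (nat_lit 5) (nat_lit 4) (nat_lit 239) (nat_lit 218) (nat_lit 143)) (XT.lf (nat_lit 0) (nat_lit 242797338836) (nat_lit 76) (nat_lit 160972827109) (nat_lit 76) (nat_lit 29083768260) (nat_lit 4) (nat_lit 4) (nat_lit 5) (nat_lit 5) (nat_lit 5) (nat_lit 4) (nat_lit 240) (nat_lit 218) (nat_lit 142))) (XT.nd (nat_lit 78) (nat_lit 0) (nat_lit 0) (XT.lf (nat_lit 0) (nat_lit 6183093297) (nat_lit 152) (nat_lit 118595827608) (nat_lit 76) (nat_lit 364870943651) (nat_lit 3) (nat_lit 5) (nat_lit 5) (nat_lit 5) (nat_lit 4) (nat_lit 4) (nat_lit 241) (nat_lit 218) (nat_lit 141)) (XT.lf (nat_lit 0) (nat_lit 43762035213) (nat_lit 152) (nat_lit 37801467143) (nat_lit 76) (nat_lit 473193991205) (nat_lit 3) (nat_lit 5) (nat_lit 5) (nat_lit 5) (nat_lit 4) (nat_lit 4) (nat_lit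 242) (nat_lit 218) (nat_lit 140))))))))
noncomputable def xc45 : XT := (XT.nd (nat_lit 29484) (nat_lit 0) (nat_lit 76) (XT.nd (nat_lit 1170) (nat_lit 0) (nat_lit 0) (XT.nd (nat_lit 546) (nat_lit 76) (nat_lit 0) (XT.nd (nat_lit 234) (nat_lit 0) (nat_lit 0) (XT.nd (nat_lit 78) (nat_lit 0) (nat_lit 0) (XT.lf (nat_lit 0) (nat_lit 60497442777) (nat_lit 76) (nat_lit 28985163137) (nat_lit 152) (nat_lit 539772944227) (nat_lit 2) (nat_lit 5) (nat_lit 3) (nat_lit 5) (nat_lit 4) (nat_lit 4) (nat_lit 243) (nat_lit 218) (nat_lit 139)) (XT.nd (nat_lit 78) (nat_lit 0) (nat_lit 0) (XT.lf (nat_lit 0) (nat_lit 145434584532) (nat_lit 152) (nat_lit 538240484341) (nat_lit 0) (nat_lit 30747249167) (nat_lit 2) (nat_lit 5) (nat_lit 4) (nat_lit 4) (nat_lit 2) (nat_lit 4) (nat_lit 244) (nat_lit 218) (nat_lit 138)) (XT.lf (nat_lit 0) (nat_lit 211159366955) (nat_lit 152) (nat_lit 504525911040) (nat_lit 0) (nat_lit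 96471823098) (nat_lit 2) (nat_lit 5) (nat_lit 4) (nat_lit 4) (nat_lit 2) (nat_lit 4) (nat_lit 245) (nat_lit 218) (nat_lit 137)))) (XT.nd (nat_lit 156) (nat_lit 0) (nat_lit 0) (XT.nd (nat_lit 78) (nat_lit 0) (nat_lit 0) (XT.lf (nat_lit 0) (nat_lit 286742659045) (nat_lit 152) (nat_lit 465754540712) (nat_lit 0) (nat_lit 172054933891) (nat_lit 2) (nat_lit 5) (nat_lit 4) (nat_lit 4) (nat_lit 2) (nat_lit 4) (nat_lit 246) (nat_lit 218) (nat_lit 136)) (XT.lf (nat_lit 0) (nat_lit 373663264343) (nat_lit 152) (nat_lit 421167803068) (nat_lit 0) (nat_lit 258975381540) (nat_lit 2) (nat_lit 5) (nat_lit 4) (nat_lit 4) (nat_lit 2) (nat_lit 4) (nat_lit 247) (nat_lit 218) (nat_lit 135))) (XT.nd (nat_lit 78) (nat_lit 0) (nat_lit 0) (XT.lf (nat_lit 0) (nat_lit 473621803387) (nat_lit 152) (nat_lit 369893348893) (nat_lit 0) (nat_lit 358933783498) (nat_lit 2) (nat_lit 5) (nat_lit 4) (nat_lit 4) (nat_lit 2)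 (nat_lit 4) (nat_lit 248) (nat_lit 218) (nat_lit 134)) (XT.lf (nat_lit 0) (nat_lit 588573986725) (nat_lit 152) (nat_lit 310927982344) (nat_lit 0) (nat_lit 473885847630) (nat_lit 2) (nat_lit 5) (nat_lit 4) (nat_lit 4) (nat_lit 2) (nat_lit 4) (nat_lit 249) (nat_lit 218) (nat_lit 133))))) (XT.nd (nat_lit 312) (nat_lit 0) (nat_lit 0) (XT.nd (nat_lit 156) (nat_lit 76) (nat_lit 0) (XT.nd (nat_lit 78) (nat_lit 0) (nat_lit 0) (XT.lf (nat_lit 0) (nat_lit 720768878812) (nat_lit 152) (nat_lit 243118033206) (nat_lit 0) (nat_lit 606080636060) (nat_lit 2) (nat_lit 5) (nat_lit 4) (nat_lit 4) (nat_lit 2) (nat_lit 4) (nat_lit 250) (nat_lit 218) (nat_lit 132)) (XT.lf (nat_lit 0) (nat_lit 872792901450) (nat_lit 152) (nat_lit 165136785084) (nat_lit 0) (nat_lit 758104568562) (nat_lit 2) (nat_lit 5) (nat_lit 4) (nat_lit 4) (nat_lit 2) (nat_lit 4) (nat_lit 251) (nat_lit 218) (nat_lit 131))) (XT.nd (nat_lit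 78) (nat_lit 76) (nat_lit 0) (XT.lf (nat_lit 0) (nat_lit 1047620437692) (nat_lit 152) (nat_lit 75458517904) (nat_lit 0) (nat_lit 932932026424) (nat_lit 2) (nat_lit 5) (nat_lit 4) (nat_lit 4) (nat_lit 2) (nat_lit 4) (nat_lit 252) (nat_lit 218) (nat_lit 130)) (XT.lf (nat_lit 0) (nat_lit 30375588020) (nat_lit 76) (nat_lit 1219554226592) (nat_lit 76) (nat_lit 1104865747169) (nat_lit 1) (nat_lit 4) (nat_lit 2) (nat_lit 5) (nat_lit 2) (nat_lit 4) (nat_lit 253) (nat_lit 218) (nat_lit 129)))) (XT.nd (nat_lit 156) (nat_lit 0) (nat_lit 0) (XT.nd (nat_lit 78) (nat_lit 0) (nat_lit 0) (XT.lf (nat_lit 0) (nat_lit 160565178685) (nat_lit 76) (nat_lit 1325964768236) (nat_lit 76) (nat_lit 1211276229546) (nat_lit 1) (nat_lit 4) (nat_lit 2) (nat_lit 5) (nat_lit 2) (nat_lit 4) (nat_lit 254) (nat_lit 218) (nat_lit 128)) (XT.lf (nat_lit 0) (nat_lit 310283086576) (nat_lit 76) (nat_lit 1448336948435) (nat_lit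 76) (nat_lit 1333648358210) (nat_lit 1) (nat_lit 4) (nat_lit 2) (nat_lit 5) (nat_lit 2) (nat_lit 4) (nat_lit 255) (nat_lit 218) (nat_lit 127))) (XT.nd (nat_lit 78) (nat_lit 0) (nat_lit 0) (XT.lf (nat_lit 0) (nat_lit 482458575108) (nat_lit 76) (nat_lit 1589065005498) (nat_lit 76) (nat_lit 1474376370458) (nat_lit 1) (nat_lit 4) (nat_lit 2) (nat_lit 5) (nat_lit 2) (nat_lit 4) (nat_lit 256) (nat_lit 218) (nat_lit 126)) (XT.lf (nat_lit 0) (nat_lit 680460295143) (nat_lit 76) (nat_lit 1750902314453) (nat_lit 76) (nat_lit 1636213640445) (nat_lit 1) (nat_lit 4) (nat_lit 2) (nat_lit 5) (nat_lit 2) (nat_lit 4) (nat_lit 257) (nat_lit 218) (nat_lit 125)))))) (XT.nd (nat_lit 624) (nat_lit 0) (nat_lit 0) (XT.nd (nat_lit 312) (nat_lit 0) (nat_lit 0) (XT.nd (nat_lit 156) (nat_lit 0) (nat_lit 0) (XT.nd (nat_lit 78) (nat_lit 0) (nat_lit 0) (XT.lf (nat_lit 0) (nat_lit 908162193377) (nat_lit 76) (nat_lit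 1937015257433) (nat_lit 76) (nat_lit 1822326549539) (nat_lit 1) (nat_lit 4) (nat_lit 2) (nat_lit 5) (nat_lit 2) (nat_lit 4) (nat_lit 258) (nat_lit 218) (nat_lit 124)) (XT.lf (nat_lit 0) (nat_lit 1170019306950) (nat_lit 76) (nat_lit 2151045174625) (nat_lit 76) (nat_lit 2036356437266) (nat_lit 1) (nat_lit 4) (nat_lit 2) (nat_lit 5) (nat_lit 2) (nat_lit 4) (nat_lit 259) (nat_lit 218) (nat_lit 123))) (XT.nd (nat_lit 78) (nat_lit 0) (nat_lit 0) (XT.lf (nat_lit 0) (nat_lit 1471154927214) (nat_lit 76) (nat_lit 2397179607890) (nat_lit 76) (nat_lit 2282490844908) (nat_lit 1) (nat_lit 4) (nat_lit 2) (nat_lit 5) (nat_lit 2) (nat_lit 4) (nat_lit 260) (nat_lit 218) (nat_lit 122)) (XT.lf (nat_lit 0) (nat_lit 1817460838045) (nat_lit 76) (nat_lit 2680234230920) (nat_lit 76) (nat_lit 2565545445657) (nat_lit 1) (nat_lit 4) (nat_lit 2) (nat_lit 5) (nat_lit 2) (nat_lit 4) (nat_lit 261) (nat_lit 218) (nat_lit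 121)))) (XT.nd (nat_lit 156) (nat_lit 0) (nat_lit 0) (XT.nd (nat_lit 78) (nat_lit 0) (nat_lit 0) (XT.lf (nat_lit 0) (nat_lit 2215712589871) (nat_lit 76) (nat_lit 3005747068948) (nat_lit 76) (nat_lit 2891058264312) (nat_lit 1) (nat_lit 4) (nat_lit 2) (nat_lit 5) (nat_lit 2) (nat_lit 4) (nat_lit 262) (nat_lit 218) (nat_lit 120)) (XT.lf (nat_lit 0) (nat_lit 2673702064793) (nat_lit 76) (nat_lit 3380086851416) (nat_lit 76) (nat_lit 3265398029932) (nat_lit 1) (nat_lit 4) (nat_lit 2) (nat_lit 5) (nat_lit 2) (nat_lit 4) (nat_lit 263) (nat_lit 218) (nat_lit 119))) (XT.nd (nat_lit 78) (nat_lit 0) (nat_lit 0) (XT.lf (nat_lit 0) (nat_lit 3200389926451) (nat_lit 76) (nat_lit 3810577617544) (nat_lit 76) (nat_lit 3695888781411) (nat_lit 1) (nat_lit 4) (nat_lit 2) (nat_lit 5) (nat_lit 2) (nat_lit 4) (nat_lit 264) (nat_lit 218) (nat_lit 118)) (XT.lf (nat_lit 0) (nat_lit 3806080937356) (nat_lit 76)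 (nat_lit 4305642012757) (nat_lit 76) (nat_lit 4190953163885) (nat_lit 1) (nat_lit 4) (nat_lit 2) (nat_lit 5) (nat_lit 2) (nat_lit 4) (nat_lit 265) (nat_lit 218) (nat_lit 117))))) (XT.nd (nat_lit 312) (nat_lit 0) (nat_lit 0) (XT.nd (nat_lit 156) (nat_lit 0) (nat_lit 0) (XT.nd (nat_lit 78) (nat_lit 0) (nat_lit 0) (XT.lf (nat_lit 0) (nat_lit 4502625573808) (nat_lit 76) (nat_lit 4874966079570) (nat_lit 76) (nat_lit 4760277219621) (nat_lit 1) (nat_lit 4) (nat_lit 2) (nat_lit 5) (nat_lit 2) (nat_lit 4) (nat_lit 266) (nat_lit 218) (nat_lit 116)) (XT.lf (nat_lit 0) (nat_lit 5303651883043) (nat_lit 76) (nat_lit 5529688767116) (nat_lit 76) (nat_lit 5414999897534) (nat_lit 1) (nat_lit 4) (nat_lit 2) (nat_lit 5) (nat_lit 2) (nat_lit 4) (nat_lit 267) (nat_lit 218) (nat_lit 115))) (XT.nd (nat_lit 78) (nat_lit 0) (nat_lit 0) (XT.lf (nat_lit 0) (nat_lit 6224832118935) (nat_lit 76) (nat_lit 6282619867109)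 (nat_lit 76) (nat_lit 6167930989151) (nat_lit 1) (nat_lit 4) (nat_lit 2) (nat_lit 5) (nat_lit 2) (nat_lit 4) (nat_lit 268) (nat_lit 218) (nat_lit 114)) (XT.lf (nat_lit 0) (nat_lit 7284189373058) (nat_lit 76) (nat_lit 7148490640200) (nat_lit 76) (nat_lit 7033801754958) (nat_lit 1) (nat_lit 4) (nat_lit 2) (nat_lit 5) (nat_lit 2) (nat_lit 4) (nat_lit 269) (nat_lit 218) (nat_lit 113)))) (XT.nd (nat_lit 156) (nat_lit 0) (nat_lit 0) (XT.nd (nat_lit 78) (nat_lit 0) (nat_lit 0) (XT.lf (nat_lit 0) (nat_lit 8502450200383) (nat_lit 76) (nat_lit 8144242036297) (nat_lit 76) (nat_lit 8029553144722) (nat_lit 1) (nat_lit 4) (nat_lit 2) (nat_lit 5) (nat_lit 2) (nat_lit 4) (nat_lit 270) (nat_lit 218) (nat_lit 112)) (XT.lf (nat_lit 0) (nat_lit 9903450138836) (nat_lit 76) (nat_lit 9289356147933) (nat_lit 76) (nat_lit 9174667250851) (nat_lit 1) (nat_lit 4) (nat_lit 2) (nat_lit 5) (nat_lit 2) (nat_lit 4)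 (nat_lit 271) (nat_lit 218) (nat_lit 111))) (XT.nd (nat_lit 27144) (nat_lit 0) (nat_lit 1140) (XT.lf (nat_lit 0) (nat_lit 11514600056778) (nat_lit 76) (nat_lit 10606237381640) (nat_lit 76) (nat_lit 10491548479769) (nat_lit 1) (nat_lit 4) (nat_lit 2) (nat_lit 5) (nat_lit 2) (nat_lit 4) (nat_lit 272) (nat_lit 218) (nat_lit 110)) (XT.lf (nat_lit 0) (nat_lit 13035675194) (nat_lit 0) (nat_lit 13035675194) (nat_lit 228) (nat_lit 3157697761) (nat_lit 16) (nat_lit 5) (nat_lit 16) (nat_lit 3) (nat_lit 19) (nat_lit 3) (nat_lit 219) (nat_lit 219) (nat_lit 162))))))) (XT.nd (nat_lit 1170) (nat_lit 304) (nat_lit 0) (XT.nd (nat_lit 546) (nat_lit 380) (nat_lit 0) (XT.nd (nat_lit 234) (nat_lit 380) (nat_lit 0) (XT.nd (nat_lit 78) (nat_lit 0) (nat_lit 0) (XT.lf (nat_lit 0) (nat_lit 54347246870) (nat_lit 0) (nat_lit 1721836285) (nat_lit 228) (nat_lit 6770800994) (nat_lit 16) (nat_lit 5) (nat_lit 16)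 (nat_lit 3) (nat_lit 19) (nat_lit 3) (nat_lit 220) (nat_lit 219) (nat_lit 161)) (XT.nd (nat_lit 78) (nat_lit 0) (nat_lit 0) (XT.lf (nat_lit 76) (nat_lit 19644349132) (nat_lit 0) (nat_lit 42838973414) (nat_lit 304) (nat_lit 5110821388) (nat_lit 17) (nat_lit 5) (nat_lit 16) (nat_lit 5) (nat_lit 20) (nat_lit 5) (nat_lit 221) (nat_lit 219) (nat_lit 160)) (XT.lf (nat_lit 76) (nat_lit 52864510707) (nat_lit 0) (nat_lit 17514932761) (nat_lit 304) (nat_lit 2604171036) (nat_lit 17) (nat_lit 5) (nat_lit 16) (nat_lit 5) (nat_lit 20) (nat_lit 5) (nat_lit 222) (nat_lit 219) (nat_lit 159)))) (XT.nd (nat_lit 156) (nat_lit 152) (nat_lit 0) (XT.nd (nat_lit 78) (nat_lit 0) (nat_lit 0) (XT.lf (nat_lit 0) (nat_lit 1298013907) (nat_lit 304) (nat_lit 66572979929) (nat_lit 76) (nat_lit 11152158260) (nat_lit 13) (nat_lit 5) (nat_lit 17) (nat_lit 5) (nat_lit 14) (nat_lit 5) (nat_lit 223) (nat_lit 219) (nat_lit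 158)) (XT.lf (nat_lit 0) (nat_lit 7452687165) (nat_lit 304) (nat_lit 34655137836) (nat_lit 76) (nat_lit 43552149521) (nat_lit 13) (nat_lit 5) (nat_lit 17) (nat_lit 5) (nat_lit 14) (nat_lit 5) (nat_lit 224) (nat_lit 219) (nat_lit 157))) (XT.nd (nat_lit 78) (nat_lit 0) (nat_lit 0) (XT.lf (nat_lit 0) (nat_lit 2248764209) (nat_lit 152) (nat_lit 12373151317) (nat_lit 228) (nat_lit 78656720917) (nat_lit 11) (nat_lit 5) (nat_lit 13) (nat_lit 5) (nat_lit 14) (nat_lit 5) (nat_lit 225) (nat_lit 219) (nat_lit 156)) (XT.lf (nat_lit 0) (nat_lit 25666290800) (nat_lit 228) (nat_lit 54177193523) (nat_lit 76) (nat_lit 21776665666) (nat_lit 11) (nat_lit 5) (nat_lit 14) (nat_lit 5) (nat_lit 12) (nat_lit 5) (nat_lit 226) (nat_lit 219) (nat_lit 155))))) (XT.nd (nat_lit 312) (nat_lit 152) (nat_lit 0) (XT.nd (nat_lit 156) (nat_lit 76) (nat_lit 0) (XT.nd (nat_lit 78) (nat_lit 152) (nat_lit 0) (XT.lf (nat_lit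 0) (nat_lit 38955120279) (nat_lit 228) (nat_lit 12387537921) (nat_lit 76) (nat_lit 59782077231) (nat_lit 11) (nat_lit 5) (nat_lit 14) (nat_lit 5) (nat_lit 12) (nat_lit 5) (nat_lit 227) (nat_lit 219) (nat_lit 154)) (XT.lf (nat_lit 0) (nat_lit 39154904431) (nat_lit 152) (nat_lit 16702473654) (nat_lit 228) (nat_lit 65954627671) (nat_lit 9) (nat_lit 5) (nat_lit 11) (nat_lit 5) (nat_lit 12) (nat_lit 5) (nat_lit 228) (nat_lit 219) (nat_lit 153))) (XT.nd (nat_lit 78) (nat_lit 76) (nat_lit 0) (XT.lf (nat_lit 0) (nat_lit 76930127647) (nat_lit 228) (nat_lit 35174686422) (nat_lit 76) (nat_lit 21752290603) (nat_lit 9) (nat_lit 5) (nat_lit 12) (nat_lit 5) (nat_lit 10) (nat_lit 4) (nat_lit 229) (nat_lit 219) (nat_lit 152)) (XT.lf (nat_lit 0) (nat_lit 20454330069) (nat_lit 76) (nat_lit 82350802285) (nat_lit 152) (nat_lit 44657644234) (nat_lit 8) (nat_lit 5) (nat_lit 9) (nat_lit 5) (nat_lit 10) (nat_lit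 4) (nat_lit 230) (nat_lit 219) (nat_lit 151)))) (XT.nd (nat_lit 156) (nat_lit 152) (nat_lit 0) (XT.nd (nat_lit 78) (nat_lit 0) (nat_lit 0) (XT.lf (nat_lit 0) (nat_lit 88379526680) (nat_lit 76) (nat_lit 46019627810) (nat_lit 152) (nat_lit 28434488112) (nat_lit 8) (nat_lit 5) (nat_lit 9) (nat_lit 5) (nat_lit 10) (nat_lit 4) (nat_lit 231) (nat_lit 219) (nat_lit 150)) (XT.lf (nat_lit 0) (nat_lit 166492348476) (nat_lit 76) (nat_lit 4239140108) (nat_lit 152) (nat_lit 9778775874) (nat_lit 8) (nat_lit 5) (nat_lit 9) (nat_lit 5) (nat_lit 10) (nat_lit 4) (nat_lit 232) (nat_lit 219) (nat_lit 149))) (XT.nd (nat_lit 78) (nat_lit 0) (nat_lit 0) (XT.lf (nat_lit 0) (nat_lit 15091180038) (nat_lit 152) (nat_lit 141972943094) (nat_lit 76) (nat_lit 43033449256) (nat_lit 6) (nat_lit 5) (nat_lit 8) (nat_lit 5) (nat_lit 7) (nat_lit 4) (nat_lit 233) (nat_lit 219) (nat_lit 148)) (XT.lf (nat_lit 0) (nat_lit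 43659291221) (nat_lit 152) (nat_lit 80552619529) (nat_lit 76) (nat_lit 98195898773) (nat_lit 6) (nat_lit 5) (nat_lit 8) (nat_lit 5) (nat_lit 7) (nat_lit 4) (nat_lit 234) (nat_lit 219) (nat_lit 147)))))) (XT.nd (nat_lit 624) (nat_lit 76) (nat_lit 0) (XT.nd (nat_lit 312) (nat_lit 152) (nat_lit 0) (XT.nd (nat_lit 156) (nat_lit 0) (nat_lit 0) (XT.nd (nat_lit 78) (nat_lit 76) (nat_lit 0) (XT.lf (nat_lit 0) (nat_lit 76512019670) (nat_lit 152) (nat_lit 9920223347) (nat_lit 76) (nat_lit 161632433263) (nat_lit 6) (nat_lit 5) (nat_lit 8) (nat_lit 5) (nat_lit 7) (nat_lit 4) (nat_lit 235) (nat_lit 219) (nat_lit 146)) (XT.lf (nat_lit 0) (nat_lit 78274742495) (nat_lit 76) (nat_lit 39258583828) (nat_lit 152) (nat_lit 159550649981) (nat_lit 5) (nat_lit 5) (nat_lit 6) (nat_lit 5) (nat_lit 7) (nat_lit 4) (nat_lit 236) (nat_lit 219) (nat_lit 145))) (XT.nd (nat_lit 78) (nat_lit 0) (nat_lit 0) (XT.lf (nat_lit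 0) (nat_lit 165871329619) (nat_lit 152) (nat_lit 130210853213) (nat_lit 0) (nat_lit 14199466533) (nat_lit 5) (nat_lit 5) (nat_lit 7) (nat_lit 4) (nat_lit 5) (nat_lit 4) (nat_lit 237) (nat_lit 219) (nat_lit 144)) (XT.lf (nat_lit 0) (nat_lit 223329054850) (nat_lit 152) (nat_lit 53192930864) (nat_lit 0) (nat_lit 71656637174) (nat_lit 5) (nat_lit 5) (nat_lit 7) (nat_lit 4) (nat_lit 5) (nat_lit 4) (nat_lit 238) (nat_lit 219) (nat_lit 143)))) (XT.nd (nat_lit 156) (nat_lit 76) (nat_lit 0) (XT.nd (nat_lit 78) (nat_lit 0) (nat_lit 0) (XT.lf (nat_lit 0) (nat_lit 38834319536) (nat_lit 76) (nat_lit 252178787487) (nat_lit 76) (nat_lit 100505887558) (nat_lit 4) (nat_lit 4) (nat_lit 5) (nat_lit 5) (nat_lit 5) (nat_lit 4) (nat_lit 239) (nat_lit 219) (nat_lit 142)) (XT.lf (nat_lit 0) (nat_lit 150643187598) (nat_lit 76) (nat_lit 220986764037) (nat_lit 76) (nat_lit 69313444758) (nat_lit 4) (nat_lit 4)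 (nat_lit 5) (nat_lit 5) (nat_lit 5) (nat_lit 4) (nat_lit 240) (nat_lit 219) (nat_lit 141))) (XT.nd (nat_lit 78) (nat_lit 76) (nat_lit 0) (XT.lf (nat_lit 0) (nat_lit 279222838070) (nat_lit 76) (nat_lit 185116176213) (nat_lit 76) (nat_lit 33442492281) (nat_lit 4) (nat_lit 4) (nat_lit 5) (nat_lit 5) (nat_lit 5) (nat_lit 4) (nat_lit 241) (nat_lit 219) (nat_lit 140)) (XT.lf (nat_lit 0) (nat_lit 7113600115) (nat_lit 152) (nat_lit 136379760771) (nat_lit 76) (nat_lit 419603512369) (nat_lit 3) (nat_lit 5) (nat_lit 5) (nat_lit 5) (nat_lit 4) (nat_lit 4) (nat_lit 242) (nat_lit 219) (nat_lit 139))))) (XT.nd (nat_lit 312) (nat_lit 0) (nat_lit 0) (XT.nd (nat_lit 156) (nat_lit 0) (nat_lit 0) (XT.nd (nat_lit 78) (nat_lit 76) (nat_lit 0) (XT.lf (nat_lit 0) (nat_lit 50328986428) (nat_lit 152) (nat_lit 43466955929) (nat_lit 76) (nat_lit 544174765686) (nat_lit 3) (nat_lit 5) (nat_lit 5) (nat_lit 5) (nat_lit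 4) (nat_lit 4) (nat_lit 243) (nat_lit 219) (nat_lit 138)) (XT.lf (nat_lit 0) (nat_lit 69576575420) (nat_lit 76) (nat_lit 33330909200) (nat_lit 152) (nat_lit 620736013860) (nat_lit 2) (nat_lit 5) (nat_lit 3) (nat_lit 5) (nat_lit 4) (nat_lit 4) (nat_lit 244) (nat_lit 219) (nat_lit 137))) (XT.nd (nat_lit 78) (nat_lit 0) (nat_lit 0) (XT.lf (nat_lit 0) (nat_lit 167252008569) (nat_lit 152) (nat_lit 618972368803) (nat_lit 0) (nat_lit 35360943346) (nat_lit 2) (nat_lit 5) (nat_lit 4) (nat_lit 4) (nat_lit 2) (nat_lit 4) (nat_lit 245) (nat_lit 219) (nat_lit 136)) (XT.lf (nat_lit 0) (nat_lit 242835216657) (nat_lit 152) (nat_lit 580201155793) (nat_lit 0) (nat_lit 110943993784) (nat_lit 2) (nat_lit 5) (nat_lit 4) (nat_lit 4) (nat_lit 2) (nat_lit 4) (nat_lit 246) (nat_lit 219) (nat_lit 135)))) (XT.nd (nat_lit 156) (nat_lit 0) (nat_lit 0) (XT.nd (nat_lit 78) (nat_lit 0) (nat_lit 0) (XT.lf (nat_lit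 0) (nat_lit 329755748909) (nat_lit 152) (nat_lit 535614554947) (nat_lit 0) (nat_lit 197864388950) (nat_lit 2) (nat_lit 5) (nat_lit 4) (nat_lit 4) (nat_lit 2) (nat_lit 4) (nat_lit 247) (nat_lit 219) (nat_lit 134)) (XT.lf (nat_lit 0) (nat_lit 429714224435) (nat_lit 152) (nat_lit 484340219726) (nat_lit 0) (nat_lit 297822745271) (nat_lit 2) (nat_lit 5) (nat_lit 4) (nat_lit 4) (nat_lit 2) (nat_lit 4) (nat_lit 248) (nat_lit 219) (nat_lit 133))) (XT.nd (nat_lit 78) (nat_lit 0) (nat_lit 0) (XT.lf (nat_lit 0) (nat_lit 544666352540) (nat_lit 152) (nat_lit 425374956616) (nat_lit 0) (nat_lit 412774769719) (nat_lit 2) (nat_lit 5) (nat_lit 4) (nat_lit 4) (nat_lit 2) (nat_lit 4) (nat_lit 249) (nat_lit 219) (nat_lit 132)) (XT.lf (nat_lit 0) (nat_lit 676861196598) (nat_lit 152) (nat_lit 357565097425) (nat_lit 0) (nat_lit 544969523641) (nat_lit 2) (nat_lit 5) (nat_lit 4) (nat_lit 4) (nat_lit 2) (nat_lit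 4) (nat_lit 250) (nat_lit 219) (nat_lit 131))))))))
noncomputable def xc46 : XT := (XT.nd (nat_lit 29406) (nat_lit 0) (nat_lit 0) (XT.nd (nat_lit 1170) (nat_lit 0) (nat_lit 0) (XT.nd (nat_lit 546) (nat_lit 0) (nat_lit 0) (XT.nd (nat_lit 234) (nat_lit 76) (nat_lit 0) (XT.nd (nat_lit 78) (nat_lit 0) (nat_lit 0) (XT.lf (nat_lit 0) (nat_lit 828885177473) (nat_lit 152) (nat_lit 279583927517) (nat_lit 0) (nat_lit 696993426135) (nat_lit 2) (nat_lit 5) (nat_lit 4) (nat_lit 4) (nat_lit 2) (nat_lit 4) (nat_lit 251) (nat_lit 219) (nat_lit 130)) (XT.nd (nat_lit 78) (nat_lit 0) (nat_lit 0) (XT.lf (nat_lit 0) (nat_lit 1003712677398) (nat_lit 152) (nat_lit 189905728351) (nat_lit 0) (nat_lit 871820857904) (nat_lit 2) (nat_lit 5) (nat_lit 4) (nat_lit 4) (nat_lit 2) (nat_lit 4) (nat_lit 252) (nat_lit 219) (nat_lit 129)) (XT.lf (nat_lit 0) (nat_lit 1204764234415) (nat_lit 152) (nat_lit 86775926464) (nat_lit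 0) (nat_lit 1072872355655) (nat_lit 2) (nat_lit 5) (nat_lit 4) (nat_lit 4) (nat_lit 2) (nat_lit 4) (nat_lit 253) (nat_lit 219) (nat_lit 128)))) (XT.nd (nat_lit 156) (nat_lit 0) (nat_lit 0) (XT.nd (nat_lit 78) (nat_lit 0) (nat_lit 0) (XT.lf (nat_lit 0) (nat_lit 34933233116) (nat_lit 76) (nat_lit 1402486743516) (nat_lit 76) (nat_lit 1270594813220) (nat_lit 1) (nat_lit 4) (nat_lit 2) (nat_lit 5) (nat_lit 2) (nat_lit 4) (nat_lit 254) (nat_lit 219) (nat_lit 127)) (XT.lf (nat_lit 0) (nat_lit 184651091917) (nat_lit 76) (nat_lit 1524858946893) (nat_lit 76) (nat_lit 1392966971784) (nat_lit 1) (nat_lit 4) (nat_lit 2) (nat_lit 5) (nat_lit 2) (nat_lit 4) (nat_lit 255) (nat_lit 219) (nat_lit 126))) (XT.nd (nat_lit 78) (nat_lit 0) (nat_lit 0) (XT.lf (nat_lit 0) (nat_lit 356826537762) (nat_lit 76) (nat_lit 1665587024111) (nat_lit 76) (nat_lit 1533695010033) (nat_lit 1) (nat_lit 4) (nat_lit 2) (nat_lit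 5) (nat_lit 2) (nat_lit 4) (nat_lit 256) (nat_lit 219) (nat_lit 125)) (XT.lf (nat_lit 0) (nat_lit 554828220678) (nat_lit 76) (nat_lit 1827424350592) (nat_lit 76) (nat_lit 1695532302629) (nat_lit 1) (nat_lit 4) (nat_lit 2) (nat_lit 5) (nat_lit 2) (nat_lit 4) (nat_lit 257) (nat_lit 219) (nat_lit 124))))) (XT.nd (nat_lit 312) (nat_lit 0) (nat_lit 0) (XT.nd (nat_lit 156) (nat_lit 0) (nat_lit 0) (XT.nd (nat_lit 78) (nat_lit 0) (nat_lit 0) (XT.lf (nat_lit 0) (nat_lit 782530086635) (nat_lit 76) (nat_lit 2013537308812) (nat_lit 76) (nat_lit 1881645231383) (nat_lit 1) (nat_lit 4) (nat_lit 2) (nat_lit 5) (nat_lit 2) (nat_lit 4) (nat_lit 258) (nat_lit 219) (nat_lit 123)) (XT.lf (nat_lit 0) (nat_lit 1044387172141) (nat_lit 76) (nat_lit 2227567239257) (nat_lit 76) (nat_lit 2095675136205) (nat_lit 1) (nat_lit 4) (nat_lit 2) (nat_lit 5) (nat_lit 2) (nat_lit 4) (nat_lit 259) (nat_lit 219) (nat_lit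 122))) (XT.nd (nat_lit 78) (nat_lit 0) (nat_lit 0) (XT.lf (nat_lit 0) (nat_lit 1345522767999) (nat_lit 76) (nat_lit 2473701684045) (nat_lit 76) (nat_lit 2341809558713) (nat_lit 1) (nat_lit 4) (nat_lit 2) (nat_lit 5) (nat_lit 2) (nat_lit 4) (nat_lit 260) (nat_lit 219) (nat_lit 121)) (XT.lf (nat_lit 0) (nat_lit 1691828657606) (nat_lit 76) (nat_lit 2756756317096) (nat_lit 76) (nat_lit 2624864172389) (nat_lit 1) (nat_lit 4) (nat_lit 2) (nat_lit 5) (nat_lit 2) (nat_lit 4) (nat_lit 261) (nat_lit 219) (nat_lit 120)))) (XT.nd (nat_lit 156) (nat_lit 0) (nat_lit 0) (XT.nd (nat_lit 78) (nat_lit 0) (nat_lit 0) (XT.lf (nat_lit 0) (nat_lit 2090080390977) (nat_lit 76) (nat_lit 3082269163838) (nat_lit 76) (nat_lit 2950377002285) (nat_lit 1) (nat_lit 4) (nat_lit 2) (nat_lit 5) (nat_lit 2) (nat_lit 4) (nat_lit 262) (nat_lit 219) (nat_lit 119)) (XT.lf (nat_lit 0) (nat_lit 2548069849852) (nat_lit 76)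 (nat_lit 3456608953882) (nat_lit 76) (nat_lit 3324716777679) (nat_lit 1) (nat_lit 4) (nat_lit 2) (nat_lit 5) (nat_lit 2) (nat_lit 4) (nat_lit 263) (nat_lit 219) (nat_lit 118))) (XT.nd (nat_lit 78) (nat_lit 0) (nat_lit 0) (XT.lf (nat_lit 0) (nat_lit 3074757697556) (nat_lit 76) (nat_lit 3887099726599) (nat_lit 76) (nat_lit 3755207537657) (nat_lit 1) (nat_lit 4) (nat_lit 2) (nat_lit 5) (nat_lit 2) (nat_lit 4) (nat_lit 264) (nat_lit 219) (nat_lit 117)) (XT.lf (nat_lit 0) (nat_lit 3680448696327) (nat_lit 76) (nat_lit 4382164127541) (nat_lit 76) (nat_lit 4250271927522) (nat_lit 1) (nat_lit 4) (nat_lit 2) (nat_lit 5) (nat_lit 2) (nat_lit 4) (nat_lit 265) (nat_lit 219) (nat_lit 116)))))) (XT.nd (nat_lit 858) (nat_lit 0) (nat_lit 0) (XT.nd (nat_lit 312) (nat_lit 0) (nat_lit 0) (XT.nd (nat_lit 156) (nat_lit 0) (nat_lit 0) (XT.nd (nat_lit 78) (nat_lit 0) (nat_lit 0) (XT.lf (nat_lit 0) (nat_lit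 4376993322227) (nat_lit 76) (nat_lit 4951488199337) (nat_lit 76) (nat_lit 4819595989685) (nat_lit 1) (nat_lit 4) (nat_lit 2) (nat_lit 5) (nat_lit 2) (nat_lit 4) (nat_lit 266) (nat_lit 219) (nat_lit 115)) (XT.lf (nat_lit 0) (nat_lit 5178019622286) (nat_lit 76) (nat_lit 5606210891215) (nat_lit 76) (nat_lit 5474318673188) (nat_lit 1) (nat_lit 4) (nat_lit 2) (nat_lit 5) (nat_lit 2) (nat_lit 4) (nat_lit 267) (nat_lit 219) (nat_lit 114))) (XT.nd (nat_lit 78) (nat_lit 0) (nat_lit 0) (XT.lf (nat_lit 0) (nat_lit 6099199850200) (nat_lit 76) (nat_lit 6359141994975) (nat_lit 76) (nat_lit 6227249769664) (nat_lit 1) (nat_lit 4) (nat_lit 2) (nat_lit 5) (nat_lit 2) (nat_lit 4) (nat_lit 268) (nat_lit 219) (nat_lit 113)) (XT.lf (nat_lit 0) (nat_lit 7158557097385) (nat_lit 76) (nat_lit 7225012771341) (nat_lit 76) (nat_lit 7093120539697) (nat_lit 1) (nat_lit 4) (nat_lit 2) (nat_lit 5) (nat_lit 2) (nat_lit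 4) (nat_lit 269) (nat_lit 219) (nat_lit 112)))) (XT.nd (nat_lit 390) (nat_lit 0) (nat_lit 0) (XT.nd (nat_lit 78) (nat_lit 0) (nat_lit 0) (XT.lf (nat_lit 0) (nat_lit 8376817918678) (nat_lit 76) (nat_lit 8220764170287) (nat_lit 76) (nat_lit 8088871933135) (nat_lit 1) (nat_lit 4) (nat_lit 2) (nat_lit 5) (nat_lit 2) (nat_lit 4) (nat_lit 270) (nat_lit 219) (nat_lit 111)) (XT.lf (nat_lit 0) (nat_lit 9777817851885) (nat_lit 76) (nat_lit 9365878284400) (nat_lit 76) (nat_lit 9233986042459) (nat_lit 1) (nat_lit 4) (nat_lit 2) (nat_lit 5) (nat_lit 2) (nat_lit 4) (nat_lit 271) (nat_lit 219) (nat_lit 110))) (XT.nd (nat_lit 78) (nat_lit 0) (nat_lit 0) (XT.lf (nat_lit 0) (nat_lit 17822893498603) (nat_lit 76) (nat_lit 15941560150073) (nat_lit 76) (nat_lit 15809667894460) (nat_lit 1) (nat_lit 4) (nat_lit 2) (nat_lit 5) (nat_lit 2) (nat_lit 4) (nat_lit 275) (nat_lit 219) (nat_lit 106)) (XT.lf (nat_lit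 0) (nat_lit 20640804730990) (nat_lit 76) (nat_lit 18244793679006) (nat_lit 76) (nat_lit 18112901421012) (nat_lit 1) (nat_lit 4) (nat_lit 2) (nat_lit 5) (nat_lit 2) (nat_lit 4) (nat_lit 276) (nat_lit 219) (nat_lit 105))))) (XT.nd (nat_lit 27066) (nat_lit 0) (nat_lit 760) (XT.nd (nat_lit 26910) (nat_lit 0) (nat_lit 1140) (XT.nd (nat_lit 26832) (nat_lit 0) (nat_lit 1140) (XT.lf (nat_lit 0) (nat_lit 23881402643360) (nat_lit 76) (nat_lit 20893512239581) (nat_lit 76) (nat_lit 20761619979516) (nat_lit 1) (nat_lit 4) (nat_lit 2) (nat_lit 5) (nat_lit 2) (nat_lit 4) (nat_lit 277) (nat_lit 219) (nat_lit 104)) (XT.lf (nat_lit 0) (nat_lit 14998541748) (nat_lit 0) (nat_lit 14998541748) (nat_lit 228) (nat_lit 3613858893) (nat_lit 16) (nat_lit 5) (nat_lit 16) (nat_lit 3) (nat_lit 19) (nat_lit 3) (nat_lit 220) (nat_lit 220) (nat_lit 160))) (XT.nd (nat_lit 78) (nat_lit 0) (nat_lit 0) (XT.lf (nat_lit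 0) (nat_lit 62512403943) (nat_lit 0) (nat_lit 1993181770) (nat_lit 228) (nat_lit 7755997610) (nat_lit 16) (nat_lit 5) (nat_lit 16) (nat_lit 3) (nat_lit 19) (nat_lit 3) (nat_lit 221) (nat_lit 220) (nat_lit 159)) (XT.lf (nat_lit 76) (nat_lit 22608082800) (nat_lit 0) (nat_lit 49270705327) (nat_lit 304) (nat_lit 5850717157) (nat_lit 17) (nat_lit 5) (nat_lit 16) (nat_lit 5) (nat_lit 20) (nat_lit 5) (nat_lit 222) (nat_lit 220) (nat_lit 158)))) (XT.nd (nat_lit 156) (nat_lit 152) (nat_lit 0) (XT.nd (nat_lit 78) (nat_lit 228) (nat_lit 0) (XT.lf (nat_lit 76) (nat_lit 60809040616) (nat_lit 0) (nat_lit 20147290849) (nat_lit 304) (nat_lit 2971555440) (nat_lit 17) (nat_lit 5) (nat_lit 16) (nat_lit 5) (nat_lit 20) (nat_lit 5) (nat_lit 223) (nat_lit 220) (nat_lit 157)) (XT.lf (nat_lit 0) (nat_lit 1511692711) (nat_lit 304) (nat_lit 76539363551) (nat_lit 76) (nat_lit 12822514917) (nat_lit 13) (nat_lit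 5) (nat_lit 17) (nat_lit 5) (nat_lit 14) (nat_lit 5) (nat_lit 224) (nat_lit 220) (nat_lit 156))) (XT.nd (nat_lit 78) (nat_lit 152) (nat_lit 0) (XT.lf (nat_lit 0) (nat_lit 8587091734) (nat_lit 304) (nat_lit 39836396889) (nat_lit 76) (nat_lit 50082826661) (nat_lit 13) (nat_lit 5) (nat_lit 17) (nat_lit 5) (nat_lit 14) (nat_lit 5) (nat_lit 225) (nat_lit 220) (nat_lit 155)) (XT.lf (nat_lit 0) (nat_lit 2602317208) (nat_lit 152) (nat_lit 14227907169) (nat_lit 228) (nat_lit 90437797615) (nat_lit 11) (nat_lit 5) (nat_lit 13) (nat_lit 5) (nat_lit 14) (nat_lit 5) (nat_lit 226) (nat_lit 220) (nat_lit 154))))))) (XT.nd (nat_lit 1170) (nat_lit 228) (nat_lit 0) (XT.nd (nat_lit 546) (nat_lit 304) (nat_lit 0) (XT.nd (nat_lit 234) (nat_lit 76) (nat_lit 0) (XT.nd (nat_lit 78) (nat_lit 152) (nat_lit 0) (XT.lf (nat_lit 0) (nat_lit 29529340427) (nat_lit 228) (nat_lit 62287600465) (nat_lit 76) (nat_lit 25044129441)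 (nat_lit 11) (nat_lit 5) (nat_lit 14) (nat_lit 5) (nat_lit 12) (nat_lit 5) (nat_lit 227) (nat_lit 220) (nat_lit 153)) (XT.nd (nat_lit 78) (nat_lit 152) (nat_lit 0) (XT.lf (nat_lit 0) (nat_lit 44809784849) (nat_lit 228) (nat_lit 14231605925) (nat_lit 76) (nat_lit 68750227011) (nat_lit 11) (nat_lit 5) (nat_lit 14) (nat_lit 5) (nat_lit 12) (nat_lit 5) (nat_lit 228) (nat_lit 220) (nat_lit 152)) (XT.lf (nat_lit 0) (nat_lit 45041563567) (nat_lit 152) (nat_lit 19204887093) (nat_lit 228) (nat_lit 75835683054) (nat_lit 9) (nat_lit 5) (nat_lit 11) (nat_lit 5) (nat_lit 12) (nat_lit 5) (nat_lit 229) (nat_lit 220) (nat_lit 151)))) (XT.nd (nat_lit 156) (nat_lit 0) (nat_lit 0) (XT.nd (nat_lit 78) (nat_lit 76) (nat_lit 0) (XT.lf (nat_lit 0) (nat_lit 88478854037) (nat_lit 228) (nat_lit 40437868596) (nat_lit 76) (nat_lit 25017477066) (nat_lit 9) (nat_lit 5) (nat_lit 12) (nat_lit 5) (nat_lit 10) (nat_lit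 4) (nat_lit 230) (nat_lit 220) (nat_lit 150)) (XT.lf (nat_lit 0) (nat_lit 23534908515) (nat_lit 76) (nat_lit 94699514646) (nat_lit 152) (nat_lit 51346413869) (nat_lit 8) (nat_lit 5) (nat_lit 9) (nat_lit 5) (nat_lit 10) (nat_lit 4) (nat_lit 231) (nat_lit 220) (nat_lit 149))) (XT.nd (nat_lit 78) (nat_lit 0) (nat_lit 0) (XT.lf (nat_lit 0) (nat_lit 101647263453) (nat_lit 76) (nat_lit 52919173737) (nat_lit 152) (nat_lit 32691072633) (nat_lit 8) (nat_lit 5) (nat_lit 9) (nat_lit 5) (nat_lit 10) (nat_lit 4) (nat_lit 232) (nat_lit 220) (nat_lit 148)) (XT.lf (nat_lit 0) (nat_lit 191475598809) (nat_lit 76) (nat_lit 4872056128) (nat_lit 152) (nat_lit 11238123824) (nat_lit 8) (nat_lit 5) (nat_lit 9) (nat_lit 5) (nat_lit 10) (nat_lit 4) (nat_lit 233) (nat_lit 220) (nat_lit 147))))) (XT.nd (nat_lit 312) (nat_lit 76) (nat_lit 0) (XT.nd (nat_lit 156) (nat_lit 76) (nat_lit 0) (XT.nd (nat_lit 78) (nat_lit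 0) (nat_lit 0) (XT.lf (nat_lit 0) (nat_lit 17361311177) (nat_lit 152) (nat_lit 163258376435) (nat_lit 76) (nat_lit 49491507972) (nat_lit 6) (nat_lit 5) (nat_lit 8) (nat_lit 5) (nat_lit 7) (nat_lit 4) (nat_lit 234) (nat_lit 220) (nat_lit 146)) (XT.lf (nat_lit 0) (nat_lit 50213797195) (nat_lit 152) (nat_lit 92626374961) (nat_lit 76) (nat_lit 112927928222) (nat_lit 6) (nat_lit 5) (nat_lit 8) (nat_lit 5) (nat_lit 7) (nat_lit 4) (nat_lit 235) (nat_lit 220) (nat_lit 145))) (XT.nd (nat_lit 78) (nat_lit 76) (nat_lit 0) (XT.lf (nat_lit 0) (nat_lit 87993702873) (nat_lit 152) (nat_lit 11400311198) (nat_lit 76) (nat_lit 185879597933) (nat_lit 6) (nat_lit 5) (nat_lit 8) (nat_lit 5) (nat_lit 7) (nat_lit 4) (nat_lit 236) (nat_lit 220) (nat_lit 144)) (XT.lf (nat_lit 0) (nat_lit 90023538354) (nat_lit 76) (nat_lit 45144344673) (nat_lit 152) (nat_lit 183477976773) (nat_lit 5) (nat_lit 5) (nat_lit 6)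 (nat_lit 5) (nat_lit 7) (nat_lit 4) (nat_lit 237) (nat_lit 220) (nat_lit 143)))) (XT.nd (nat_lit 156) (nat_lit 76) (nat_lit 0) (XT.nd (nat_lit 78) (nat_lit 0) (nat_lit 0) (XT.lf (nat_lit 0) (nat_lit 190756101310) (nat_lit 152) (nat_lit 149735375018) (nat_lit 0) (nat_lit 16331784139) (nat_lit 5) (nat_lit 5) (nat_lit 7) (nat_lit 4) (nat_lit 5) (nat_lit 4) (nat_lit 238) (nat_lit 220) (nat_lit 142)) (XT.lf (nat_lit 0) (nat_lit 256831954163) (nat_lit 152) (nat_lit 61165691209) (nat_lit 0) (nat_lit 82407217642) (nat_lit 5) (nat_lit 5) (nat_lit 7) (nat_lit 4) (nat_lit 5) (nat_lit 4) (nat_lit 239) (nat_lit 220) (nat_lit 141))) (XT.nd (nat_lit 78) (nat_lit 0) (nat_lit 0) (XT.lf (nat_lit 0) (nat_lit 44665365875) (nat_lit 76) (nat_lit 290003030647) (nat_lit 76) (nat_lit 115577929473) (nat_lit 4) (nat_lit 4) (nat_lit 5) (nat_lit 5) (nat_lit 5) (nat_lit 4) (nat_lit 240) (nat_lit 220) (nat_lit 140))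 (XT.lf (nat_lit 0) (nat_lit 173244794789) (nat_lit 76) (nat_lit 254132539545) (nat_lit 76) (nat_lit 79707121282) (nat_lit 4) (nat_lit 4) (nat_lit 5) (nat_lit 5) (nat_lit 5) (nat_lit 4) (nat_lit 241) (nat_lit 220) (nat_lit 139)))))) (XT.nd (nat_lit 624) (nat_lit 76) (nat_lit 0) (XT.nd (nat_lit 312) (nat_lit 0) (nat_lit 0) (XT.nd (nat_lit 156) (nat_lit 76) (nat_lit 0) (XT.nd (nat_lit 78) (nat_lit 76) (nat_lit 0) (XT.lf (nat_lit 0) (nat_lit 321110723824) (nat_lit 76) (nat_lit 212881655603) (nat_lit 76) (nat_lit 38455961610) (nat_lit 4) (nat_lit 4) (nat_lit 5) (nat_lit 5) (nat_lit 5) (nat_lit 4) (nat_lit 242) (nat_lit 220) (nat_lit 138)) (XT.lf (nat_lit 0) (nat_lit 8182940944) (nat_lit 152) (nat_lit 156832610726) (nat_lit 76) (nat_lit 482545496442) (nat_lit 3) (nat_lit 5) (nat_lit 5) (nat_lit 5) (nat_lit 4) (nat_lit 4) (nat_lit 243) (nat_lit 220) (nat_lit 137))) (XT.nd (nat_lit 78) (nat_lit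 76) (nat_lit 0) (XT.lf (nat_lit 0) (nat_lit 57880335098) (nat_lit 152) (nat_lit 49983421787) (nat_lit 76) (nat_lit 625802247685) (nat_lit 3) (nat_lit 5) (nat_lit 5) (nat_lit 5) (nat_lit 4) (nat_lit 4) (nat_lit 244) (nat_lit 220) (nat_lit 136)) (XT.lf (nat_lit 0) (nat_lit 80016476650) (nat_lit 76) (nat_lit 38329011812) (nat_lit 152) (nat_lit 713844244293) (nat_lit 2) (nat_lit 5) (nat_lit 3) (nat_lit 5) (nat_lit 4) (nat_lit 4) (nat_lit 245) (nat_lit 220) (nat_lit 135)))) (XT.nd (nat_lit 156) (nat_lit 0) (nat_lit 0) (XT.nd (nat_lit 78) (nat_lit 0) (nat_lit 0) (XT.lf (nat_lit 0) (nat_lit 192341500862) (nat_lit 152) (nat_lit 711815057251) (nat_lit 0) (nat_lit 40666299823) (nat_lit 2) (nat_lit 5) (nat_lit 4) (nat_lit 4) (nat_lit 2) (nat_lit 4) (nat_lit 246) (nat_lit 220) (nat_lit 134)) (XT.lf (nat_lit 0) (nat_lit 279261969596) (nat_lit 152) (nat_lit 667228575360) (nat_lit 0) (nat_lit 127586649352)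 (nat_lit 2) (nat_lit 5) (nat_lit 4) (nat_lit 4) (nat_lit 2) (nat_lit 4) (nat_lit 247) (nat_lit 220) (nat_lit 133))) (XT.nd (nat_lit 78) (nat_lit 0) (nat_lit 0) (XT.lf (nat_lit 0) (nat_lit 379220389890) (nat_lit 152) (nat_lit 615954343578) (nat_lit 0) (nat_lit 227544965988) (nat_lit 2) (nat_lit 5) (nat_lit 4) (nat_lit 4) (nat_lit 2) (nat_lit 4) (nat_lit 248) (nat_lit 220) (nat_lit 132)) (XT.lf (nat_lit 0) (nat_lit 494172469966) (nat_lit 152) (nat_lit 556989170415) (nat_lit 0) (nat_lit 342496955928) (nat_lit 2) (nat_lit 5) (nat_lit 4) (nat_lit 4) (nat_lit 2) (nat_lit 4) (nat_lit 249) (nat_lit 220) (nat_lit 131))))) (XT.nd (nat_lit 312) (nat_lit 76) (nat_lit 0) (XT.nd (nat_lit 156) (nat_lit 0) (nat_lit 0) (XT.nd (nat_lit 78) (nat_lit 0) (nat_lit 0) (XT.lf (nat_lit 0) (nat_lit 626367272260) (nat_lit 152) (nat_lit 489179389439) (nat_lit 0) (nat_lit 474691679842) (nat_lit 2) (nat_lit 5)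 (nat_lit 4) (nat_lit 4) (nat_lit 2) (nat_lit 4) (nat_lit 250) (nat_lit 220) (nat_lit 130)) (XT.lf (nat_lit 0) (nat_lit 778391216818) (nat_lit 152) (nat_lit 411198287544) (nat_lit 0) (nat_lit 626715556244) (nat_lit 2) (nat_lit 5) (nat_lit 4) (nat_lit 4) (nat_lit 2) (nat_lit 4) (nat_lit 251) (nat_lit 220) (nat_lit 129))) (XT.nd (nat_lit 78) (nat_lit 0) (nat_lit 0) (XT.lf (nat_lit 0) (nat_lit 953218685163) (nat_lit 152) (nat_lit 321520147519) (nat_lit 0) (nat_lit 801542965323) (nat_lit 2) (nat_lit 5) (nat_lit 4) (nat_lit 4) (nat_lit 2) (nat_lit 4) (nat_lit 252) (nat_lit 220) (nat_lit 128)) (XT.lf (nat_lit 0) (nat_lit 1154270214720) (nat_lit 152) (nat_lit 218390397059) (nat_lit 0) (nat_lit 1002594443344) (nat_lit 2) (nat_lit 5) (nat_lit 4) (nat_lit 4) (nat_lit 2) (nat_lit 4) (nat_lit 253) (nat_lit 220) (nat_lit 127)))) (XT.nd (nat_lit 156) (nat_lit 0) (nat_lit 0) (XT.nd (nat_lit 78) (nat_lit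 76) (nat_lit 0) (XT.lf (nat_lit 0) (nat_lit 1385479422370) (nat_lit 152) (nat_lit 99791280177) (nat_lit 0) (nat_lit 1233803606181) (nat_lit 2) (nat_lit 5) (nat_lit 4) (nat_lit 4) (nat_lit 2) (nat_lit 4) (nat_lit 254) (nat_lit 220) (nat_lit 126)) (XT.lf (nat_lit 0) (nat_lit 40174206283) (nat_lit 76) (nat_lit 1612859288453) (nat_lit 76) (nat_lit 1461183433295) (nat_lit 1) (nat_lit 4) (nat_lit 2) (nat_lit 5) (nat_lit 2) (nat_lit 4) (nat_lit 255) (nat_lit 220) (nat_lit 125))) (XT.nd (nat_lit 78) (nat_lit 0) (nat_lit 0) (XT.lf (nat_lit 0) (nat_lit 212349615009) (nat_lit 76) (nat_lit 1753587383197) (nat_lit 76) (nat_lit 1601911494153) (nat_lit 1) (nat_lit 4) (nat_lit 2) (nat_lit 5) (nat_lit 2) (nat_lit 4) (nat_lit 256) (nat_lit 220) (nat_lit 124)) (XT.lf (nat_lit 0) (nat_lit 410351265647) (nat_lit 76) (nat_lit 1915424724918) (nat_lit 76) (nat_lit 1763748806409) (nat_lit 1) (nat_lit 4) (nat_lit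 2) (nat_lit 5) (nat_lit 2) (nat_lit 4) (nat_lit 257) (nat_lit 220) (nat_lit 123))))))))
noncomputable def xc47 : XT := (XT.nd (nat_lit 29328) (nat_lit 0) (nat_lit 0) (XT.nd (nat_lit 1248) (nat_lit 0) (nat_lit 0) (XT.nd (nat_lit 546) (nat_lit 0) (nat_lit 0) (XT.nd (nat_lit 234) (nat_lit 0) (nat_lit 0) (XT.nd (nat_lit 78) (nat_lit 0) (nat_lit 0) (XT.lf (nat_lit 0) (nat_lit 638053103537) (nat_lit 76) (nat_lit 2101537696390) (nat_lit 76) (nat_lit 1949861752259) (nat_lit 1) (nat_lit 4) (nat_lit 2) (nat_lit 5) (nat_lit 2) (nat_lit 4) (nat_lit 258) (nat_lit 220) (nat_lit 122)) (XT.nd (nat_lit 78) (nat_lit 0) (nat_lit 0) (XT.lf (nat_lit 0) (nat_lit 899910164636) (nat_lit 76) (nat_lit 2315567638359) (nat_lit 76) (nat_lit 2163891671947) (nat_lit 1) (nat_lit 4) (nat_lit 2) (nat_lit 5) (nat_lit 2) (nat_lit 4) (nat_lit 259) (nat_lit 220) (nat_lit 121)) (XT.lf (nat_lit 0) (nat_lit 1201045739271)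 (nat_lit 76) (nat_lit 2561702093168) (nat_lit 76) (nat_lit 2410026107382) (nat_lit 1) (nat_lit 4) (nat_lit 2) (nat_lit 5) (nat_lit 2) (nat_lit 4) (nat_lit 260) (nat_lit 220) (nat_lit 120)))) (XT.nd (nat_lit 156) (nat_lit 0) (nat_lit 0) (XT.nd (nat_lit 78) (nat_lit 0) (nat_lit 0) (XT.lf (nat_lit 0) (nat_lit 1547351610424) (nat_lit 76) (nat_lit 2844756734932) (nat_lit 76) (nat_lit 2693080732299) (nat_lit 1) (nat_lit 4) (nat_lit 2) (nat_lit 5) (nat_lit 2) (nat_lit 4) (nat_lit 261) (nat_lit 220) (nat_lit 119)) (XT.lf (nat_lit 0) (nat_lit 1945603327748) (nat_lit 76) (nat_lit 3170269589251) (nat_lit 76) (nat_lit 3018593571968) (nat_lit 1) (nat_lit 4) (nat_lit 2) (nat_lit 5) (nat_lit 2) (nat_lit 4) (nat_lit 262) (nat_lit 220) (nat_lit 118))) (XT.nd (nat_lit 78) (nat_lit 0) (nat_lit 0) (XT.lf (nat_lit 0) (nat_lit 2403592772668) (nat_lit 76) (nat_lit 3544609385884) (nat_lit 76) (nat_lit 3392933355862)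 (nat_lit 1) (nat_lit 4) (nat_lit 2) (nat_lit 5) (nat_lit 2) (nat_lit 4) (nat_lit 263) (nat_lit 220) (nat_lit 117)) (XT.lf (nat_lit 0) (nat_lit 2930280608238) (nat_lit 76) (nat_lit 3975100164331) (nat_lit 76) (nat_lit 3823424123231) (nat_lit 1) (nat_lit 4) (nat_lit 2) (nat_lit 5) (nat_lit 2) (nat_lit 4) (nat_lit 264) (nat_lit 220) (nat_lit 116))))) (XT.nd (nat_lit 312) (nat_lit 0) (nat_lit 0) (XT.nd (nat_lit 156) (nat_lit 0) (nat_lit 0) (XT.nd (nat_lit 78) (nat_lit 0) (nat_lit 0) (XT.lf (nat_lit 0) (nat_lit 3535971596457) (nat_lit 76) (nat_lit 4470164570255) (nat_lit 76) (nat_lit 4318488519523) (nat_lit 1) (nat_lit 4) (nat_lit 2) (nat_lit 5) (nat_lit 2) (nat_lit 4) (nat_lit 265) (nat_lit 220) (nat_lit 115)) (XT.lf (nat_lit 0) (nat_lit 4232516213182) (nat_lit 76) (nat_lit 5039488646382) (nat_lit 76) (nat_lit 4887812587275) (nat_lit 1) (nat_lit 4) (nat_lit 2) (nat_lit 5) (nat_lit 2) (nat_lit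 4) (nat_lit 266) (nat_lit 220) (nat_lit 114))) (XT.nd (nat_lit 78) (nat_lit 0) (nat_lit 0) (XT.lf (nat_lit 0) (nat_lit 5033542505263) (nat_lit 76) (nat_lit 5694211342028) (nat_lit 76) (nat_lit 5542535275637) (nat_lit 1) (nat_lit 4) (nat_lit 2) (nat_lit 5) (nat_lit 2) (nat_lit 4) (nat_lit 267) (nat_lit 220) (nat_lit 113)) (XT.lf (nat_lit 0) (nat_lit 5954722726239) (nat_lit 76) (nat_lit 6447142449064) (nat_lit 76) (nat_lit 6295466376339) (nat_lit 1) (nat_lit 4) (nat_lit 2) (nat_lit 5) (nat_lit 2) (nat_lit 4) (nat_lit 268) (nat_lit 220) (nat_lit 112)))) (XT.nd (nat_lit 156) (nat_lit 0) (nat_lit 0) (XT.nd (nat_lit 78) (nat_lit 0) (nat_lit 0) (XT.lf (nat_lit 0) (nat_lit 7014079967391) (nat_lit 76) (nat_lit 7313013228279) (nat_lit 76) (nat_lit 7161337150047) (nat_lit 1) (nat_lit 4) (nat_lit 2) (nat_lit 5) (nat_lit 2) (nat_lit 4) (nat_lit 269) (nat_lit 220) (nat_lit 111)) (XT.lf (nat_lit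 0) (nat_lit 8232340783438) (nat_lit 76) (nat_lit 8308764629701) (nat_lit 76) (nat_lit 8157088546680) (nat_lit 1) (nat_lit 4) (nat_lit 2) (nat_lit 5) (nat_lit 2) (nat_lit 4) (nat_lit 270) (nat_lit 220) (nat_lit 110))) (XT.nd (nat_lit 156) (nat_lit 0) (nat_lit 0) (XT.lf (nat_lit 0) (nat_lit 9633340712083) (nat_lit 76) (nat_lit 9453878745968) (nat_lit 76) (nat_lit 9302202658783) (nat_lit 1) (nat_lit 4) (nat_lit 2) (nat_lit 5) (nat_lit 2) (nat_lit 4) (nat_lit 271) (nat_lit 220) (nat_lit 109)) (XT.lf (nat_lit 0) (nat_lit 13097313009907) (nat_lit 76) (nat_lit 12285173410598) (nat_lit 76) (nat_lit 12133497316642) (nat_lit 1) (nat_lit 4) (nat_lit 2) (nat_lit 5) (nat_lit 2) (nat_lit 4) (nat_lit 273) (nat_lit 220) (nat_lit 107)))))) (XT.nd (nat_lit 27456) (nat_lit 0) (nat_lit 532) (XT.nd (nat_lit 27144) (nat_lit 0) (nat_lit 1140) (XT.nd (nat_lit 156) (nat_lit 0) (nat_lit 0) (XT.nd (nat_lit 78)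 (nat_lit 0) (nat_lit 0) (XT.lf (nat_lit 0) (nat_lit 15228058750129) (nat_lit 76) (nat_lit 14026748854572) (nat_lit 76) (nat_lit 13875072757879) (nat_lit 1) (nat_lit 4) (nat_lit 2) (nat_lit 5) (nat_lit 2) (nat_lit 4) (nat_lit 274) (nat_lit 220) (nat_lit 106)) (XT.lf (nat_lit 0) (nat_lit 17678416345778) (nat_lit 76) (nat_lit 16029560617791) (nat_lit 76) (nat_lit 15877884518716) (nat_lit 1) (nat_lit 4) (nat_lit 2) (nat_lit 5) (nat_lit 2) (nat_lit 4) (nat_lit 275) (nat_lit 220) (nat_lit 105))) (XT.nd (nat_lit 78) (nat_lit 0) (nat_lit 0) (XT.lf (nat_lit 0) (nat_lit 20496327575897) (nat_lit 76) (nat_lit 18332794147794) (nat_lit 76) (nat_lit 18181118046649) (nat_lit 1) (nat_lit 4) (nat_lit 2) (nat_lit 5) (nat_lit 2) (nat_lit 4) (nat_lit 276) (nat_lit 220) (nat_lit 104)) (XT.lf (nat_lit 0) (nat_lit 23736925486294) (nat_lit 76) (nat_lit 20981512709300) (nat_lit 76) (nat_lit 20829836606355)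 (nat_lit 1) (nat_lit 4) (nat_lit 2) (nat_lit 5) (nat_lit 2) (nat_lit 4) (nat_lit 277) (nat_lit 220) (nat_lit 103)))) (XT.nd (nat_lit 156) (nat_lit 0) (nat_lit 0) (XT.nd (nat_lit 78) (nat_lit 0) (nat_lit 0) (XT.lf (nat_lit 0) (nat_lit 17254005638) (nat_lit 0) (nat_lit 17254005638) (nat_lit 228) (nat_lit 4142710104) (nat_lit 16) (nat_lit 5) (nat_lit 16) (nat_lit 3) (nat_lit 19) (nat_lit 3) (nat_lit 221) (nat_lit 221) (nat_lit 158)) (XT.lf (nat_lit 0) (nat_lit 71899147365) (nat_lit 0) (nat_lit 2302041866) (nat_lit 228) (nat_lit 8896392689) (nat_lit 16) (nat_lit 5) (nat_lit 16) (nat_lit 3) (nat_lit 19) (nat_lit 3) (nat_lit 222) (nat_lit 221) (nat_lit 157))) (XT.nd (nat_lit 78) (nat_lit 0) (nat_lit 0) (XT.lf (nat_lit 76) (nat_lit 26012211136) (nat_lit 0) (nat_lit 56665761712) (nat_lit 304) (nat_lit 6708114947) (nat_lit 17) (nat_lit 5) (nat_lit 16) (nat_lit 5) (nat_lit 20) (nat_lit 5) (nat_lit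 223) (nat_lit 221) (nat_lit 156)) (XT.lf (nat_lit 76) (nat_lit 69941627940) (nat_lit 0) (nat_lit 23173254552) (nat_lit 304) (nat_lit 3399715031) (nat_lit 17) (nat_lit 5) (nat_lit 16) (nat_lit 5) (nat_lit 20) (nat_lit 5) (nat_lit 224) (nat_lit 221) (nat_lit 155))))) (XT.nd (nat_lit 312) (nat_lit 228) (nat_lit 0) (XT.nd (nat_lit 156) (nat_lit 152) (nat_lit 0) (XT.nd (nat_lit 78) (nat_lit 0) (nat_lit 0) (XT.lf (nat_lit 0) (nat_lit 1752795743) (nat_lit 304) (nat_lit 88005475368) (nat_lit 76) (nat_lit 14744026686) (nat_lit 13) (nat_lit 5) (nat_lit 17) (nat_lit 5) (nat_lit 14) (nat_lit 5) (nat_lit 225) (nat_lit 221) (nat_lit 154)) (XT.lf (nat_lit 0) (nat_lit 9887632994) (nat_lit 304) (nat_lit 45798993191) (nat_lit 76) (nat_lit 57593628513) (nat_lit 13) (nat_lit 5) (nat_lit 17) (nat_lit 5) (nat_lit 14) (nat_lit 5) (nat_lit 226) (nat_lit 221) (nat_lit 153))) (XT.nd (nat_lit 78) (nat_lit 0)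 (nat_lit 0) (XT.lf (nat_lit 0) (nat_lit 3004943328) (nat_lit 152) (nat_lit 16361173133) (nat_lit 228) (nat_lit 103990286584) (nat_lit 11) (nat_lit 5) (nat_lit 13) (nat_lit 5) (nat_lit 14) (nat_lit 5) (nat_lit 227) (nat_lit 221) (nat_lit 152)) (XT.lf (nat_lit 0) (nat_lit 33968651516) (nat_lit 228) (nat_lit 71618512114) (nat_lit 76) (nat_lit 28801477723) (nat_lit 11) (nat_lit 5) (nat_lit 14) (nat_lit 5) (nat_lit 12) (nat_lit 5) (nat_lit 228) (nat_lit 221) (nat_lit 151)))) (XT.nd (nat_lit 156) (nat_lit 76) (nat_lit 0) (XT.nd (nat_lit 78) (nat_lit 152) (nat_lit 0) (XT.lf (nat_lit 0) (nat_lit 51539869989) (nat_lit 228) (nat_lit 16355713404) (nat_lit 76) (nat_lit 79063394860) (nat_lit 11) (nat_lit 5) (nat_lit 14) (nat_lit 5) (nat_lit 12) (nat_lit 5) (nat_lit 229) (nat_lit 221) (nat_lit 150)) (XT.lf (nat_lit 0) (nat_lit 51807948175) (nat_lit 152) (nat_lit 22083383780) (nat_lit 228) (nat_lit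 87201856860) (nat_lit 9) (nat_lit 5) (nat_lit 11) (nat_lit 5) (nat_lit 12) (nat_lit 5) (nat_lit 230) (nat_lit 221) (nat_lit 149))) (XT.nd (nat_lit 78) (nat_lit 76) (nat_lit 0) (XT.lf (nat_lit 0) (nat_lit 101757644142) (nat_lit 228) (nat_lit 46493703297) (nat_lit 76) (nat_lit 28771870173) (nat_lit 9) (nat_lit 5) (nat_lit 12) (nat_lit 5) (nat_lit 10) (nat_lit 4) (nat_lit 231) (nat_lit 221) (nat_lit 148)) (XT.lf (nat_lit 0) (nat_lit 27074542854) (nat_lit 76) (nat_lit 108901486848) (nat_lit 152) (nat_lit 59040907518) (nat_lit 8) (nat_lit 5) (nat_lit 9) (nat_lit 5) (nat_lit 10) (nat_lit 4) (nat_lit 232) (nat_lit 221) (nat_lit 147))))))) (XT.nd (nat_lit 1170) (nat_lit 76) (nat_lit 0) (XT.nd (nat_lit 546) (nat_lit 228) (nat_lit 0) (XT.nd (nat_lit 234) (nat_lit 76) (nat_lit 0) (XT.nd (nat_lit 78) (nat_lit 152) (nat_lit 0) (XT.lf (nat_lit 0) (nat_lit 116902525198) (nat_lit 76) (nat_lit 60854480236)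 (nat_lit 152) (nat_lit 37588239240) (nat_lit 8) (nat_lit 5) (nat_lit 9) (nat_lit 5) (nat_lit 10) (nat_lit 4) (nat_lit 233) (nat_lit 221) (nat_lit 146)) (XT.nd (nat_lit 78) (nat_lit 152) (nat_lit 0) (XT.lf (nat_lit 0) (nat_lit 220204044915) (nat_lit 76) (nat_lit 5600630146) (nat_lit 152) (nat_lit 12918195190) (nat_lit 8) (nat_lit 5) (nat_lit 9) (nat_lit 5) (nat_lit 10) (nat_lit 4) (nat_lit 234) (nat_lit 221) (nat_lit 145)) (XT.lf (nat_lit 0) (nat_lit 19970388106) (nat_lit 152) (nat_lit 187739187250) (nat_lit 76) (nat_lit 56917533849) (nat_lit 6) (nat_lit 5) (nat_lit 8) (nat_lit 5) (nat_lit 7) (nat_lit 4) (nat_lit 235) (nat_lit 221) (nat_lit 144)))) (XT.nd (nat_lit 156) (nat_lit 76) (nat_lit 0) (XT.nd (nat_lit 78) (nat_lit 0) (nat_lit 0) (XT.lf (nat_lit 0) (nat_lit 57750110471) (nat_lit 152) (nat_lit 106513421944) (nat_lit 76) (nat_lit 129869117178) (nat_lit 6) (nat_lit 5) (nat_lit 8)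 (nat_lit 5) (nat_lit 7) (nat_lit 4) (nat_lit 236) (nat_lit 221) (nat_lit 143)) (XT.lf (nat_lit 0) (nat_lit 101196448476) (nat_lit 152) (nat_lit 13104349825) (nat_lit 76) (nat_lit 213763276512) (nat_lit 6) (nat_lit 5) (nat_lit 8) (nat_lit 5) (nat_lit 7) (nat_lit 4) (nat_lit 237) (nat_lit 221) (nat_lit 142))) (XT.nd (nat_lit 78) (nat_lit 0) (nat_lit 0) (XT.lf (nat_lit 0) (nat_lit 103532804067) (nat_lit 76) (nat_lit 51913707732) (nat_lit 152) (nat_lit 210995687879) (nat_lit 5) (nat_lit 5) (nat_lit 6) (nat_lit 5) (nat_lit 7) (nat_lit 4) (nat_lit 238) (nat_lit 221) (nat_lit 141)) (XT.lf (nat_lit 0) (nat_lit 219372595711) (nat_lit 152) (nat_lit 172190307980) (nat_lit 0) (nat_lit 18783364709) (nat_lit 5) (nat_lit 5) (nat_lit 7) (nat_lit 4) (nat_lit 5) (nat_lit 4) (nat_lit 239) (nat_lit 221) (nat_lit 140))))) (XT.nd (nat_lit 312) (nat_lit 152) (nat_lit 0) (XT.nd (nat_lit 156) (nat_lit 0) (nat_lit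 0) (XT.nd (nat_lit 78) (nat_lit 76) (nat_lit 0) (XT.lf (nat_lit 0) (nat_lit 295359424857) (nat_lit 152) (nat_lit 70335872464) (nat_lit 0) (nat_lit 94769876766) (nat_lit 5) (nat_lit 5) (nat_lit 7) (nat_lit 4) (nat_lit 5) (nat_lit 4) (nat_lit 240) (nat_lit 221) (nat_lit 139)) (XT.lf (nat_lit 0) (nat_lit 51369630800) (nat_lit 76) (nat_lit 333501538203) (nat_lit 76) (nat_lit 132911714382) (nat_lit 4) (nat_lit 4) (nat_lit 5) (nat_lit 5) (nat_lit 5) (nat_lit 4) (nat_lit 241) (nat_lit 221) (nat_lit 138))) (XT.nd (nat_lit 78) (nat_lit 0) (nat_lit 0) (XT.lf (nat_lit 0) (nat_lit 199235392306) (nat_lit 76) (nat_lit 292250727396) (nat_lit 76) (nat_lit 91660663810) (nat_lit 4) (nat_lit 4) (nat_lit 5) (nat_lit 5) (nat_lit 5) (nat_lit 4) (nat_lit 242) (nat_lit 221) (nat_lit 137)) (XT.lf (nat_lit 0) (nat_lit 369280704832) (nat_lit 76) (nat_lit 244812431700) (nat_lit 76) (nat_lit 44222159623) (nat_lit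 4) (nat_lit 4) (nat_lit 5) (nat_lit 5) (nat_lit 5) (nat_lit 4) (nat_lit 243) (nat_lit 221) (nat_lit 136)))) (XT.nd (nat_lit 156) (nat_lit 76) (nat_lit 0) (XT.nd (nat_lit 78) (nat_lit 0) (nat_lit 0) (XT.lf (nat_lit 0) (nat_lit 9412121830) (nat_lit 152) (nat_lit 180354391439) (nat_lit 76) (nat_lit 554928422775) (nat_lit 3) (nat_lit 5) (nat_lit 5) (nat_lit 5) (nat_lit 4) (nat_lit 4) (nat_lit 244) (nat_lit 221) (nat_lit 135)) (XT.lf (nat_lit 0) (nat_lit 66563898183) (nat_lit 152) (nat_lit 57478229927) (nat_lit 76) (nat_lit 719673542982) (nat_lit 3) (nat_lit 5) (nat_lit 5) (nat_lit 5) (nat_lit 4) (nat_lit 4) (nat_lit 245) (nat_lit 221) (nat_lit 134))) (XT.nd (nat_lit 78) (nat_lit 0) (nat_lit 0) (XT.lf (nat_lit 0) (nat_lit 92021530314) (nat_lit 76) (nat_lit 44077203835) (nat_lit 152) (nat_lit 820919238861) (nat_lit 2) (nat_lit 5) (nat_lit 3) (nat_lit 5) (nat_lit 4) (nat_lit 4) (nat_lit 246)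 (nat_lit 221) (nat_lit 133)) (XT.lf (nat_lit 0) (nat_lit 221194004636) (nat_lit 152) (nat_lit 818584921228) (nat_lit 0) (nat_lit 46767163492) (nat_lit 2) (nat_lit 5) (nat_lit 4) (nat_lit 4) (nat_lit 2) (nat_lit 4) (nat_lit 247) (nat_lit 221) (nat_lit 132)))))) (XT.nd (nat_lit 624) (nat_lit 76) (nat_lit 0) (XT.nd (nat_lit 312) (nat_lit 0) (nat_lit 0) (XT.nd (nat_lit 156) (nat_lit 0) (nat_lit 0) (XT.nd (nat_lit 78) (nat_lit 0) (nat_lit 0) (XT.lf (nat_lit 0) (nat_lit 321152376901) (nat_lit 152) (nat_lit 767310779393) (nat_lit 0) (nat_lit 146725445621) (nat_lit 2) (nat_lit 5) (nat_lit 4) (nat_lit 4) (nat_lit 2) (nat_lit 4) (nat_lit 248) (nat_lit 221) (nat_lit 131)) (XT.lf (nat_lit 0) (nat_lit 436104415212) (nat_lit 152) (nat_lit 708345684445) (nat_lit 0) (nat_lit 261677405553) (nat_lit 2) (nat_lit 5) (nat_lit 4) (nat_lit 4) (nat_lit 2) (nat_lit 4) (nat_lit 249) (nat_lit 221) (nat_lit 130)))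 (XT.nd (nat_lit 78) (nat_lit 0) (nat_lit 0) (XT.lf (nat_lit 0) (nat_lit 568299181190) (nat_lit 152) (nat_lit 640535971482) (nat_lit 0) (nat_lit 393872103374) (nat_lit 2) (nat_lit 5) (nat_lit 4) (nat_lit 4) (nat_lit 2) (nat_lit 4) (nat_lit 250) (nat_lit 221) (nat_lit 129)) (XT.lf (nat_lit 0) (nat_lit 720323094168) (nat_lit 152) (nat_lit 562554928728) (nat_lit 0) (nat_lit 545895957086) (nat_lit 2) (nat_lit 5) (nat_lit 4) (nat_lit 4) (nat_lit 2) (nat_lit 4) (nat_lit 251) (nat_lit 221) (nat_lit 128)))) (XT.nd (nat_lit 156) (nat_lit 0) (nat_lit 0) (XT.nd (nat_lit 78) (nat_lit 0) (nat_lit 0) (XT.lf (nat_lit 0) (nat_lit 895150535053) (nat_lit 152) (nat_lit 472876840130) (nat_lit 0) (nat_lit 720723346435) (nat_lit 2) (nat_lit 5) (nat_lit 4) (nat_lit 4) (nat_lit 2) (nat_lit 4) (nat_lit 252) (nat_lit 221) (nat_lit 127)) (XT.lf (nat_lit 0) (nat_lit 1096202040731) (nat_lit 152) (nat_lit 369747134390)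 (nat_lit 0) (nat_lit 921774807299) (nat_lit 2) (nat_lit 5) (nat_lit 4) (nat_lit 4) (nat_lit 2) (nat_lit 4) (nat_lit 253) (nat_lit 221) (nat_lit 126))) (XT.nd (nat_lit 78) (nat_lit 0) (nat_lit 0) (XT.lf (nat_lit 0) (nat_lit 1327411227617) (nat_lit 152) (nat_lit 251148056395) (nat_lit 0) (nat_lit 1152983955217) (nat_lit 2) (nat_lit 5) (nat_lit 4) (nat_lit 4) (nat_lit 2) (nat_lit 4) (nat_lit 254) (nat_lit 221) (nat_lit 125)) (XT.lf (nat_lit 0) (nat_lit 1593301753717) (nat_lit 152) (nat_lit 114759189401) (nat_lit 0) (nat_lit 1418874447432) (nat_lit 2) (nat_lit 5) (nat_lit 4) (nat_lit 4) (nat_lit 2) (nat_lit 4) (nat_lit 255) (nat_lit 221) (nat_lit 124))))) (XT.nd (nat_lit 312) (nat_lit 0) (nat_lit 0) (XT.nd (nat_lit 156) (nat_lit 0) (nat_lit 0) (XT.nd (nat_lit 78) (nat_lit 0) (nat_lit 0) (XT.lf (nat_lit 0) (nat_lit 46201084446) (nat_lit 76) (nat_lit 1854787828912) (nat_lit 76) (nat_lit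 1680360493161) (nat_lit 1) (nat_lit 4) (nat_lit 2) (nat_lit 5) (nat_lit 2) (nat_lit 4) (nat_lit 256) (nat_lit 221) (nat_lit 123)) (XT.lf (nat_lit 0) (nat_lit 244202707017) (nat_lit 76) (nat_lit 2016625183886) (nat_lit 76) (nat_lit 1842197822512) (nat_lit 1) (nat_lit 4) (nat_lit 2) (nat_lit 5) (nat_lit 2) (nat_lit 4) (nat_lit 257) (nat_lit 221) (nat_lit 122))) (XT.nd (nat_lit 78) (nat_lit 0) (nat_lit 0) (XT.lf (nat_lit 0) (nat_lit 471904520500) (nat_lit 76) (nat_lit 2202738166882) (nat_lit 76) (nat_lit 2028310783227) (nat_lit 1) (nat_lit 4) (nat_lit 2) (nat_lit 5) (nat_lit 2) (nat_lit 4) (nat_lit 258) (nat_lit 221) (nat_lit 121)) (XT.lf (nat_lit 0) (nat_lit 733761560377) (nat_lit 76) (nat_lit 2416768118871) (nat_lit 76) (nat_lit 2242340715843) (nat_lit 1) (nat_lit 4) (nat_lit 2) (nat_lit 5) (nat_lit 2) (nat_lit 4) (nat_lit 259) (nat_lit 221) (nat_lit 120)))) (XT.nd (nat_lit 156) (nat_lit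 0) (nat_lit 0) (XT.nd (nat_lit 78) (nat_lit 0) (nat_lit 0) (XT.lf (nat_lit 0) (nat_lit 1034897116557) (nat_lit 76) (nat_lit 2662902582393) (nat_lit 76) (nat_lit 2488475162518) (nat_lit 1) (nat_lit 4) (nat_lit 2) (nat_lit 5) (nat_lit 2) (nat_lit 4) (nat_lit 260) (nat_lit 221) (nat_lit 119)) (XT.lf (nat_lit 0) (nat_lit 1381202971663) (nat_lit 76) (nat_lit 2945957231735) (nat_lit 76) (nat_lit 2771529797209) (nat_lit 1) (nat_lit 4) (nat_lit 2) (nat_lit 5) (nat_lit 2) (nat_lit 4) (nat_lit 261) (nat_lit 221) (nat_lit 118))) (XT.nd (nat_lit 78) (nat_lit 0) (nat_lit 0) (XT.lf (nat_lit 0) (nat_lit 1779454675032) (nat_lit 76) (nat_lit 3271470092643) (nat_lit 76) (nat_lit 3097042645379) (nat_lit 1) (nat_lit 4) (nat_lit 2) (nat_lit 5) (nat_lit 2) (nat_lit 4) (nat_lit 262) (nat_lit 221) (nat_lit 117)) (XT.lf (nat_lit 0) (nat_lit 2237444107818) (nat_lit 76) (nat_lit 3645809895005) (nat_lit 76) (nat_lit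 3471382436664) (nat_lit 1) (nat_lit 4) (nat_lit 2) (nat_lit 5) (nat_lit 2) (nat_lit 4) (nat_lit 263) (nat_lit 221) (nat_lit 116))))))))
noncomputable def xc48 : XT := (XT.nd (nat_lit 29406) (nat_lit 0) (nat_lit 0) (XT.nd (nat_lit 28236) (nat_lit 0) (nat_lit 304) (XT.nd (nat_lit 702) (nat_lit 0) (nat_lit 0) (XT.nd (nat_lit 234) (nat_lit 0) (nat_lit 0) (XT.nd (nat_lit 78) (nat_lit 0) (nat_lit 0) (XT.lf (nat_lit 0) (nat_lit 2764131932836) (nat_lit 76) (nat_lit 4076300678433) (nat_lit 76) (nat_lit 3901873210459) (nat_lit 1) (nat_lit 4) (nat_lit 2) (nat_lit 5) (nat_lit 2) (nat_lit 4) (nat_lit 264) (nat_lit 221) (nat_lit 115)) (XT.nd (nat_lit 78) (nat_lit 0) (nat_lit 0) (XT.lf (nat_lit 0) (nat_lit 3369822911880) (nat_lit 76) (nat_lit 4571365088690) (nat_lit 76) (nat_lit 4396937612340) (nat_lit 1) (nat_lit 4) (nat_lit 2) (nat_lit 5) (nat_lit 2) (nat_lit 4) (nat_lit 265) (nat_lit 221) (nat_lit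 114)) (XT.lf (nat_lit 0) (nat_lit 4066367520627) (nat_lit 76) (nat_lit 5140689168584) (nat_lit 76) (nat_lit 4966261684951) (nat_lit 1) (nat_lit 4) (nat_lit 2) (nat_lit 5) (nat_lit 2) (nat_lit 4) (nat_lit 266) (nat_lit 221) (nat_lit 113)))) (XT.nd (nat_lit 156) (nat_lit 0) (nat_lit 0) (XT.nd (nat_lit 78) (nat_lit 0) (nat_lit 0) (XT.lf (nat_lit 0) (nat_lit 4867393805770) (nat_lit 76) (nat_lit 5795411867506) (nat_lit 76) (nat_lit 5620984377539) (nat_lit 1) (nat_lit 4) (nat_lit 2) (nat_lit 5) (nat_lit 2) (nat_lit 4) (nat_lit 267) (nat_lit 221) (nat_lit 112)) (XT.lf (nat_lit 0) (nat_lit 5788574020713) (nat_lit 76) (nat_lit 6548342977390) (nat_lit 76) (nat_lit 6373915481916) (nat_lit 1) (nat_lit 4) (nat_lit 2) (nat_lit 5) (nat_lit 2) (nat_lit 4) (nat_lit 268) (nat_lit 221) (nat_lit 111))) (XT.nd (nat_lit 234) (nat_lit 0) (nat_lit 0) (XT.lf (nat_lit 0) (nat_lit 6847931256620) (nat_lit 76)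 (nat_lit 7414213759082) (nat_lit 76) (nat_lit 7239786258819) (nat_lit 1) (nat_lit 4) (nat_lit 2) (nat_lit 5) (nat_lit 2) (nat_lit 4) (nat_lit 269) (nat_lit 221) (nat_lit 110)) (XT.lf (nat_lit 0) (nat_lit 11078341898747) (nat_lit 76) (nat_lit 10871960520161) (nat_lit 76) (nat_lit 10697533008963) (nat_lit 1) (nat_lit 4) (nat_lit 2) (nat_lit 5) (nat_lit 2) (nat_lit 4) (nat_lit 272) (nat_lit 221) (nat_lit 107))))) (XT.nd (nat_lit 312) (nat_lit 0) (nat_lit 0) (XT.nd (nat_lit 156) (nat_lit 0) (nat_lit 0) (XT.nd (nat_lit 78) (nat_lit 0) (nat_lit 0) (XT.lf (nat_lit 0) (nat_lit 12931164284158) (nat_lit 76) (nat_lit 12386373948472) (nat_lit 76) (nat_lit 12211946434537) (nat_lit 1) (nat_lit 4) (nat_lit 2) (nat_lit 5) (nat_lit 2) (nat_lit 4) (nat_lit 273) (nat_lit 221) (nat_lit 106)) (XT.lf (nat_lit 0) (nat_lit 15061910021772) (nat_lit 76) (nat_lit 14127949393678) (nat_lit 76) (nat_lit 13953521877362)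 (nat_lit 1) (nat_lit 4) (nat_lit 2) (nat_lit 5) (nat_lit 2) (nat_lit 4) (nat_lit 274) (nat_lit 221) (nat_lit 105))) (XT.nd (nat_lit 78) (nat_lit 0) (nat_lit 0) (XT.lf (nat_lit 0) (nat_lit 17512267615152) (nat_lit 76) (nat_lit 16130761157968) (nat_lit 76) (nat_lit 15956333639581) (nat_lit 1) (nat_lit 4) (nat_lit 2) (nat_lit 5) (nat_lit 2) (nat_lit 4) (nat_lit 275) (nat_lit 221) (nat_lit 104)) (XT.lf (nat_lit 0) (nat_lit 20330178843300) (nat_lit 76) (nat_lit 18433994688902) (nat_lit 76) (nat_lit 18259567168715) (nat_lit 1) (nat_lit 4) (nat_lit 2) (nat_lit 5) (nat_lit 2) (nat_lit 4) (nat_lit 276) (nat_lit 221) (nat_lit 103)))) (XT.nd (nat_lit 27066) (nat_lit 0) (nat_lit 1140) (XT.nd (nat_lit 26988) (nat_lit 0) (nat_lit 1140) (XT.lf (nat_lit 0) (nat_lit 23570776751982) (nat_lit 76) (nat_lit 21082713251218) (nat_lit 76) (nat_lit 20908285729465) (nat_lit 1) (nat_lit 4) (nat_lit 2) (nat_lit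 5) (nat_lit 2) (nat_lit 4) (nat_lit 277) (nat_lit 221) (nat_lit 102)) (XT.lf (nat_lit 0) (nat_lit 19846403366) (nat_lit 0) (nat_lit 19846403366) (nat_lit 228) (nat_lit 4754114636) (nat_lit 16) (nat_lit 5) (nat_lit 16) (nat_lit 3) (nat_lit 19) (nat_lit 3) (nat_lit 222) (nat_lit 222) (nat_lit 156))) (XT.nd (nat_lit 78) (nat_lit 0) (nat_lit 0) (XT.lf (nat_lit 0) (nat_lit 82691492309) (nat_lit 0) (nat_lit 2654820985) (nat_lit 228) (nat_lit 10213456838) (nat_lit 16) (nat_lit 5) (nat_lit 16) (nat_lit 3) (nat_lit 19) (nat_lit 3) (nat_lit 223) (nat_lit 222) (nat_lit 155)) (XT.lf (nat_lit 76) (nat_lit 29923809094) (nat_lit 0) (nat_lit 65168991251) (nat_lit 304) (nat_lit 7699050689) (nat_lit 17) (nat_lit 5) (nat_lit 16) (nat_lit 5) (nat_lit 20) (nat_lit 5) (nat_lit 224) (nat_lit 222) (nat_lit 154)))))) (XT.nd (nat_lit 546) (nat_lit 304) (nat_lit 0) (XT.nd (nat_lit 234) (nat_lit 304) (nat_lit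 0) (XT.nd (nat_lit 78) (nat_lit 228) (nat_lit 0) (XT.lf (nat_lit 76) (nat_lit 80441364555) (nat_lit 0) (nat_lit 26652169067) (nat_lit 304) (nat_lit 3896384024) (nat_lit 17) (nat_lit 5) (nat_lit 16) (nat_lit 5) (nat_lit 20) (nat_lit 5) (nat_lit 225) (nat_lit 222) (nat_lit 153)) (XT.nd (nat_lit 78) (nat_lit 0) (nat_lit 0) (XT.lf (nat_lit 0) (nat_lit 2026565104) (nat_lit 304) (nat_lit 101195111255) (nat_lit 76) (nat_lit 16954220126) (nat_lit 13) (nat_lit 5) (nat_lit 17) (nat_lit 5) (nat_lit 14) (nat_lit 5) (nat_lit 226) (nat_lit 222) (nat_lit 152)) (XT.lf (nat_lit 0) (nat_lit 11380212726) (nat_lit 304) (nat_lit 52659115719) (nat_lit 76) (nat_lit 66231446214) (nat_lit 13) (nat_lit 5) (nat_lit 17) (nat_lit 5) (nat_lit 14) (nat_lit 5) (nat_lit 227) (nat_lit 222) (nat_lit 151)))) (XT.nd (nat_lit 156) (nat_lit 152) (nat_lit 0) (XT.nd (nat_lit 78) (nat_lit 0) (nat_lit 0) (XT.lf (nat_lit 0)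 (nat_lit 3464969167) (nat_lit 152) (nat_lit 18814653367) (nat_lit 228) (nat_lit 119578863090) (nat_lit 11) (nat_lit 5) (nat_lit 13) (nat_lit 5) (nat_lit 14) (nat_lit 5) (nat_lit 228) (nat_lit 222) (nat_lit 150)) (XT.lf (nat_lit 0) (nat_lit 39071442645) (nat_lit 228) (nat_lit 82352042488) (nat_lit 76) (nat_lit 33122250509) (nat_lit 11) (nat_lit 5) (nat_lit 14) (nat_lit 5) (nat_lit 12) (nat_lit 5) (nat_lit 229) (nat_lit 222) (nat_lit 149))) (XT.nd (nat_lit 78) (nat_lit 152) (nat_lit 0) (XT.lf (nat_lit 0) (nat_lit 59277366489) (nat_lit 228) (nat_lit 18801030030) (nat_lit 76) (nat_lit 90923383330) (nat_lit 11) (nat_lit 5) (nat_lit 14) (nat_lit 5) (nat_lit 12) (nat_lit 5) (nat_lit 230) (nat_lit 222) (nat_lit 148)) (XT.lf (nat_lit 0) (nat_lit 59586815314) (nat_lit 152) (nat_lit 25394200324) (nat_lit 228) (nat_lit 100275195009) (nat_lit 9) (nat_lit 5) (nat_lit 11) (nat_lit 5) (nat_lit 12)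 (nat_lit 5) (nat_lit 231) (nat_lit 222) (nat_lit 147))))) (XT.nd (nat_lit 312) (nat_lit 228) (nat_lit 0) (XT.nd (nat_lit 156) (nat_lit 0) (nat_lit 0) (XT.nd (nat_lit 78) (nat_lit 76) (nat_lit 0) (XT.lf (nat_lit 0) (nat_lit 117026555035) (nat_lit 228) (nat_lit 53460314113) (nat_lit 76) (nat_lit 33088990244) (nat_lit 9) (nat_lit 5) (nat_lit 12) (nat_lit 5) (nat_lit 10) (nat_lit 4) (nat_lit 232) (nat_lit 222) (nat_lit 146)) (XT.lf (nat_lit 0) (nat_lit 31142830566) (nat_lit 76) (nat_lit 125234475474) (nat_lit 152) (nat_lit 67891396438) (nat_lit 8) (nat_lit 5) (nat_lit 9) (nat_lit 5) (nat_lit 10) (nat_lit 4) (nat_lit 233) (nat_lit 222) (nat_lit 145))) (XT.nd (nat_lit 78) (nat_lit 0) (nat_lit 0) (XT.lf (nat_lit 0) (nat_lit 134444083355) (nat_lit 76) (nat_lit 69980709314) (nat_lit 152) (nat_lit 43221564511) (nat_lit 8) (nat_lit 5) (nat_lit 9) (nat_lit 5) (nat_lit 10) (nat_lit 4) (nat_lit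 234) (nat_lit 222) (nat_lit 144)) (XT.lf (nat_lit 0) (nat_lit 253240025024) (nat_lit 76) (nat_lit 6439035140) (nat_lit 152) (nat_lit 14851654369) (nat_lit 8) (nat_lit 5) (nat_lit 9) (nat_lit 5) (nat_lit 10) (nat_lit 4) (nat_lit 235) (nat_lit 222) (nat_lit 143)))) (XT.nd (nat_lit 156) (nat_lit 76) (nat_lit 0) (XT.nd (nat_lit 78) (nat_lit 0) (nat_lit 0) (XT.lf (nat_lit 0) (nat_lit 22969636494) (nat_lit 152) (nat_lit 215894057285) (nat_lit 76) (nat_lit 65456902815) (nat_lit 6) (nat_lit 5) (nat_lit 8) (nat_lit 5) (nat_lit 7) (nat_lit 4) (nat_lit 236) (nat_lit 222) (nat_lit 142)) (XT.lf (nat_lit 0) (nat_lit 66415835887) (nat_lit 152) (nat_lit 122485210841) (nat_lit 76) (nat_lit 149350996832) (nat_lit 6) (nat_lit 5) (nat_lit 8) (nat_lit 5) (nat_lit 7) (nat_lit 4) (nat_lit 237) (nat_lit 222) (nat_lit 141))) (XT.nd (nat_lit 78) (nat_lit 76) (nat_lit 0) (XT.lf (nat_lit 0) (nat_lit 116378706048)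 (nat_lit 152) (nat_lit 15065459347) (nat_lit 76) (nat_lit 245829082839) (nat_lit 6) (nat_lit 5) (nat_lit 8) (nat_lit 5) (nat_lit 7) (nat_lit 4) (nat_lit 238) (nat_lit 222) (nat_lit 140)) (XT.lf (nat_lit 0) (nat_lit 119067061131) (nat_lit 76) (nat_lit 59699033349) (nat_lit 152) (nat_lit 242642027519) (nat_lit 5) (nat_lit 5) (nat_lit 6) (nat_lit 5) (nat_lit 7) (nat_lit 4) (nat_lit 239) (nat_lit 222) (nat_lit 139))))))) (XT.nd (nat_lit 1170) (nat_lit 76) (nat_lit 0) (XT.nd (nat_lit 546) (nat_lit 76) (nat_lit 0) (XT.nd (nat_lit 234) (nat_lit 76) (nat_lit 0) (XT.nd (nat_lit 78) (nat_lit 76) (nat_lit 0) (XT.lf (nat_lit 0) (nat_lit 252280813389) (nat_lit 152) (nat_lit 198014791197) (nat_lit 0) (nat_lit 21602240265) (nat_lit 5) (nat_lit 5) (nat_lit 7) (nat_lit 4) (nat_lit 5) (nat_lit 4) (nat_lit 240) (nat_lit 222) (nat_lit 138)) (XT.nd (nat_lit 78) (nat_lit 76) (nat_lit 0) (XT.lf (nat_lit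 0) (nat_lit 339665363213) (nat_lit 152) (nat_lit 80882720307) (nat_lit 0) (nat_lit 108986550324) (nat_lit 5) (nat_lit 5) (nat_lit 7) (nat_lit 4) (nat_lit 5) (nat_lit 4) (nat_lit 241) (nat_lit 222) (nat_lit 137)) (XT.lf (nat_lit 0) (nat_lit 59078447854) (nat_lit 76) (nat_lit 383525296690) (nat_lit 76) (nat_lit 152846275310) (nat_lit 4) (nat_lit 4) (nat_lit 5) (nat_lit 5) (nat_lit 5) (nat_lit 4) (nat_lit 242) (nat_lit 222) (nat_lit 136)))) (XT.nd (nat_lit 156) (nat_lit 76) (nat_lit 0) (XT.nd (nat_lit 78) (nat_lit 0) (nat_lit 0) (XT.lf (nat_lit 0) (nat_lit 229123633704) (nat_lit 76) (nat_lit 336087056294) (nat_lit 76) (nat_lit 105407853618) (nat_lit 4) (nat_lit 4) (nat_lit 5) (nat_lit 5) (nat_lit 5) (nat_lit 4) (nat_lit 243) (nat_lit 222) (nat_lit 135)) (XT.lf (nat_lit 0) (nat_lit 424675360601) (nat_lit 76) (nat_lit 281533183228) (nat_lit 76) (nat_lit 50853822902) (nat_lit 4) (nat_lit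 4) (nat_lit 5) (nat_lit 5) (nat_lit 5) (nat_lit 4) (nat_lit 244) (nat_lit 222) (nat_lit 134))) (XT.nd (nat_lit 78) (nat_lit 0) (nat_lit 0) (XT.lf (nat_lit 0) (nat_lit 10825255601) (nat_lit 152) (nat_lit 207405197869) (nat_lit 76) (nat_lit 638168519361) (nat_lit 3) (nat_lit 5) (nat_lit 5) (nat_lit 5) (nat_lit 4) (nat_lit 4) (nat_lit 245) (nat_lit 222) (nat_lit 133)) (XT.lf (nat_lit 0) (nat_lit 76549626821) (nat_lit 152) (nat_lit 66097918952) (nat_lit 76) (nat_lit 827625298925) (nat_lit 3) (nat_lit 5) (nat_lit 5) (nat_lit 5) (nat_lit 4) (nat_lit 4) (nat_lit 246) (nat_lit 222) (nat_lit 132))))) (XT.nd (nat_lit 312) (nat_lit 0) (nat_lit 0) (XT.nd (nat_lit 156) (nat_lit 0) (nat_lit 0) (XT.nd (nat_lit 78) (nat_lit 0) (nat_lit 0) (XT.lf (nat_lit 0) (nat_lit 105826712351) (nat_lit 76) (nat_lit 50687907474) (nat_lit 152) (nat_lit 944055883045) (nat_lit 2) (nat_lit 5) (nat_lit 3) (nat_lit 5)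 (nat_lit 4) (nat_lit 4) (nat_lit 247) (nat_lit 222) (nat_lit 131)) (XT.lf (nat_lit 0) (nat_lit 254374072170) (nat_lit 152) (nat_lit 941370848743) (nat_lit 0) (nat_lit 53782932682) (nat_lit 2) (nat_lit 5) (nat_lit 4) (nat_lit 4) (nat_lit 2) (nat_lit 4) (nat_lit 248) (nat_lit 222) (nat_lit 130))) (XT.nd (nat_lit 78) (nat_lit 0) (nat_lit 0) (XT.lf (nat_lit 0) (nat_lit 369326074165) (nat_lit 152) (nat_lit 882405821807) (nat_lit 0) (nat_lit 168734866521) (nat_lit 2) (nat_lit 5) (nat_lit 4) (nat_lit 4) (nat_lit 2) (nat_lit 4) (nat_lit 249) (nat_lit 222) (nat_lit 129)) (XT.lf (nat_lit 0) (nat_lit 501520808563) (nat_lit 152) (nat_lit 814596167985) (nat_lit 0) (nat_lit 300929541653) (nat_lit 2) (nat_lit 5) (nat_lit 4) (nat_lit 4) (nat_lit 2) (nat_lit 4) (nat_lit 250) (nat_lit 222) (nat_lit 128)))) (XT.nd (nat_lit 156) (nat_lit 0) (nat_lit 0) (XT.nd (nat_lit 78) (nat_lit 0) (nat_lit 0) (XT.lf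 (nat_lit 0) (nat_lit 653544694081) (nat_lit 152) (nat_lit 736615176659) (nat_lit 0) (nat_lit 452953375635) (nat_lit 2) (nat_lit 5) (nat_lit 4) (nat_lit 4) (nat_lit 2) (nat_lit 4) (nat_lit 251) (nat_lit 222) (nat_lit 127)) (XT.lf (nat_lit 0) (nat_lit 828372111087) (nat_lit 152) (nat_lit 646937132781) (nat_lit 0) (nat_lit 627780747827) (nat_lit 2) (nat_lit 5) (nat_lit 4) (nat_lit 4) (nat_lit 2) (nat_lit 4) (nat_lit 252) (nat_lit 222) (nat_lit 126))) (XT.nd (nat_lit 78) (nat_lit 0) (nat_lit 0) (XT.lf (nat_lit 0) (nat_lit 1029423596000) (nat_lit 152) (nat_lit 543807465927) (nat_lit 0) (nat_lit 828832193772) (nat_lit 2) (nat_lit 5) (nat_lit 4) (nat_lit 4) (nat_lit 2) (nat_lit 4) (nat_lit 253) (nat_lit 222) (nat_lit 125)) (XT.lf (nat_lit 0) (nat_lit 1260632764831) (nat_lit 152) (nat_lit 425208421746) (nat_lit 0) (nat_lit 1060041328717) (nat_lit 2) (nat_lit 5) (nat_lit 4) (nat_lit 4) (nat_lit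 2) (nat_lit 4) (nat_lit 254) (nat_lit 222) (nat_lit 124)))))) (XT.nd (nat_lit 624) (nat_lit 0) (nat_lit 0) (XT.nd (nat_lit 312) (nat_lit 0) (nat_lit 0) (XT.nd (nat_lit 156) (nat_lit 76) (nat_lit 0) (XT.nd (nat_lit 78) (nat_lit 0) (nat_lit 0) (XT.lf (nat_lit 0) (nat_lit 1526523275231) (nat_lit 152) (nat_lit 288819584156) (nat_lit 0) (nat_lit 1325931809651) (nat_lit 2) (nat_lit 5) (nat_lit 4) (nat_lit 4) (nat_lit 2) (nat_lit 4) (nat_lit 255) (nat_lit 222) (nat_lit 123)) (XT.lf (nat_lit 0) (nat_lit 1832297332836) (nat_lit 152) (nat_lit 131972475900) (nat_lit 0) (nat_lit 1631705841634) (nat_lit 2) (nat_lit 5) (nat_lit 4) (nat_lit 4) (nat_lit 2) (nat_lit 4) (nat_lit 256) (nat_lit 222) (nat_lit 122))) (XT.nd (nat_lit 78) (nat_lit 0) (nat_lit 0) (XT.lf (nat_lit 0) (nat_lit 53131812119) (nat_lit 76) (nat_lit 2133005736475) (nat_lit 76) (nat_lit 1932414222992) (nat_lit 1) (nat_lit 4) (nat_lit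 2) (nat_lit 5) (nat_lit 2) (nat_lit 4) (nat_lit 257) (nat_lit 222) (nat_lit 121)) (XT.lf (nat_lit 0) (nat_lit 280833604379) (nat_lit 76) (nat_lit 2319118729491) (nat_lit 76) (nat_lit 2118527196634) (nat_lit 1) (nat_lit 4) (nat_lit 2) (nat_lit 5) (nat_lit 2) (nat_lit 4) (nat_lit 258) (nat_lit 222) (nat_lit 120)))) (XT.nd (nat_lit 156) (nat_lit 0) (nat_lit 0) (XT.nd (nat_lit 78) (nat_lit 0) (nat_lit 0) (XT.lf (nat_lit 0) (nat_lit 542690625801) (nat_lit 76) (nat_lit 2533148690194) (nat_lit 76) (nat_lit 2332557140490) (nat_lit 1) (nat_lit 4) (nat_lit 2) (nat_lit 5) (nat_lit 2) (nat_lit 4) (nat_lit 259) (nat_lit 222) (nat_lit 119)) (XT.lf (nat_lit 0) (nat_lit 843826165934) (nat_lit 76) (nat_lit 2779283161293) (nat_lit 76) (nat_lit 2578691596940) (nat_lit 1) (nat_lit 4) (nat_lit 2) (nat_lit 5) (nat_lit 2) (nat_lit 4) (nat_lit 260) (nat_lit 222) (nat_lit 118))) (XT.nd (nat_lit 78) (nat_lit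 0) (nat_lit 0) (XT.lf (nat_lit 0) (nat_lit 1190132007085) (nat_lit 76) (nat_lit 3062337817223) (nat_lit 76) (nat_lit 2861746240131) (nat_lit 1) (nat_lit 4) (nat_lit 2) (nat_lit 5) (nat_lit 2) (nat_lit 4) (nat_lit 261) (nat_lit 222) (nat_lit 117)) (XT.lf (nat_lit 0) (nat_lit 1588383698320) (nat_lit 76) (nat_lit 3387850683861) (nat_lit 76) (nat_lit 3187259095691) (nat_lit 1) (nat_lit 4) (nat_lit 2) (nat_lit 5) (nat_lit 2) (nat_lit 4) (nat_lit 262) (nat_lit 222) (nat_lit 116))))) (XT.nd (nat_lit 624) (nat_lit 0) (nat_lit 0) (XT.nd (nat_lit 156) (nat_lit 0) (nat_lit 0) (XT.nd (nat_lit 78) (nat_lit 0) (nat_lit 0) (XT.lf (nat_lit 0) (nat_lit 2046373120555) (nat_lit 76) (nat_lit 3762190491205) (nat_lit 76) (nat_lit 3561598893403) (nat_lit 1) (nat_lit 4) (nat_lit 2) (nat_lit 5) (nat_lit 2) (nat_lit 4) (nat_lit 263) (nat_lit 222) (nat_lit 115)) (XT.lf (nat_lit 0) (nat_lit 2573060936397) (nat_lit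 76) (nat_lit 4192681278966) (nat_lit 76) (nat_lit 3992089672787) (nat_lit 1) (nat_lit 4) (nat_lit 2) (nat_lit 5) (nat_lit 2) (nat_lit 4) (nat_lit 264) (nat_lit 222) (nat_lit 114))) (XT.nd (nat_lit 78) (nat_lit 0) (nat_lit 0) (XT.lf (nat_lit 0) (nat_lit 3178751907463) (nat_lit 76) (nat_lit 4687745692989) (nat_lit 76) (nat_lit 4487154079527) (nat_lit 1) (nat_lit 4) (nat_lit 2) (nat_lit 5) (nat_lit 2) (nat_lit 4) (nat_lit 265) (nat_lit 222) (nat_lit 113)) (XT.lf (nat_lit 0) (nat_lit 3875296509272) (nat_lit 76) (nat_lit 5257069776160) (nat_lit 76) (nat_lit 5056478156364) (nat_lit 1) (nat_lit 4) (nat_lit 2) (nat_lit 5) (nat_lit 2) (nat_lit 4) (nat_lit 266) (nat_lit 222) (nat_lit 112)))) (XT.nd (nat_lit 156) (nat_lit 0) (nat_lit 0) (XT.nd (nat_lit 78) (nat_lit 0) (nat_lit 0) (XT.lf (nat_lit 0) (nat_lit 9276120958171) (nat_lit 76) (nat_lit 9671459899354) (nat_lit 76) (nat_lit 9470868258328)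 (nat_lit 1) (nat_lit 4) (nat_lit 2) (nat_lit 5) (nat_lit 2) (nat_lit 4) (nat_lit 271) (nat_lit 222) (nat_lit 107)) (XT.lf (nat_lit 0) (nat_lit 10887270861136) (nat_lit 76) (nat_lit 10988341140133) (nat_lit 76) (nat_lit 10787749496369) (nat_lit 1) (nat_lit 4) (nat_lit 2) (nat_lit 5) (nat_lit 2) (nat_lit 4) (nat_lit 272) (nat_lit 222) (nat_lit 106))) (XT.nd (nat_lit 78) (nat_lit 0) (nat_lit 0) (XT.lf (nat_lit 0) (nat_lit 12740093243938) (nat_lit 76) (nat_lit 12502754569676) (nat_lit 76) (nat_lit 12302162923531) (nat_lit 1) (nat_lit 4) (nat_lit 2) (nat_lit 5) (nat_lit 2) (nat_lit 4) (nat_lit 273) (nat_lit 222) (nat_lit 105)) (XT.lf (nat_lit 0) (nat_lit 14870838979285) (nat_lit 76) (nat_lit 14244330015953) (nat_lit 76) (nat_lit 14043738367737) (nat_lit 1) (nat_lit 4) (nat_lit 2) (nat_lit 5) (nat_lit 2) (nat_lit 4) (nat_lit 274) (nat_lit 222) (nat_lit 104))))))))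
noncomputable def xc49 : XT := (XT.nd (nat_lit 29406) (nat_lit 0) (nat_lit 0) (XT.nd (nat_lit 28158) (nat_lit 0) (nat_lit 76) (XT.nd (nat_lit 27534) (nat_lit 0) (nat_lit 532) (XT.nd (nat_lit 27222) (nat_lit 0) (nat_lit 1140) (XT.nd (nat_lit 78) (nat_lit 0) (nat_lit 0) (XT.lf (nat_lit 0) (nat_lit 17321196570693) (nat_lit 76) (nat_lit 16247141781173) (nat_lit 76) (nat_lit 16046550131158) (nat_lit 1) (nat_lit 4) (nat_lit 2) (nat_lit 5) (nat_lit 2) (nat_lit 4) (nat_lit 275) (nat_lit 222) (nat_lit 103)) (XT.nd (nat_lit 78) (nat_lit 0) (nat_lit 0) (XT.lf (nat_lit 0) (nat_lit 20139107797126) (nat_lit 76) (nat_lit 18550375312918) (nat_lit 76) (nat_lit 18349783661336) (nat_lit 1) (nat_lit 4) (nat_lit 2) (nat_lit 5) (nat_lit 2) (nat_lit 4) (nat_lit 276) (nat_lit 222) (nat_lit 102)) (XT.lf (nat_lit 0) (nat_lit 23379705704317) (nat_lit 76) (nat_lit 21199093875938) (nat_lit 76) (nat_lit 20998502222995)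 (nat_lit 1) (nat_lit 4) (nat_lit 2) (nat_lit 5) (nat_lit 2) (nat_lit 4) (nat_lit 277) (nat_lit 222) (nat_lit 101)))) (XT.nd (nat_lit 156) (nat_lit 0) (nat_lit 0) (XT.nd (nat_lit 78) (nat_lit 0) (nat_lit 0) (XT.lf (nat_lit 0) (nat_lit 22826612932) (nat_lit 0) (nat_lit 22826612932) (nat_lit 228) (nat_lit 5459668895) (nat_lit 16) (nat_lit 5) (nat_lit 16) (nat_lit 3) (nat_lit 19) (nat_lit 3) (nat_lit 223) (nat_lit 223) (nat_lit 154)) (XT.lf (nat_lit 0) (nat_lit 95100866696) (nat_lit 0) (nat_lit 3058694674) (nat_lit 228) (nat_lit 11732322431) (nat_lit 16) (nat_lit 5) (nat_lit 16) (nat_lit 3) (nat_lit 19) (nat_lit 3) (nat_lit 224) (nat_lit 223) (nat_lit 153))) (XT.nd (nat_lit 78) (nat_lit 0) (nat_lit 0) (XT.lf (nat_lit 76) (nat_lit 34419765174) (nat_lit 0) (nat_lit 74946884576) (nat_lit 304) (nat_lit 8842353282) (nat_lit 17) (nat_lit 5) (nat_lit 16) (nat_lit 5) (nat_lit 20) (nat_lit 5) (nat_lit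 225) (nat_lit 223) (nat_lit 152)) (XT.lf (nat_lit 76) (nat_lit 92513990731) (nat_lit 0) (nat_lit 30652207155) (nat_lit 304) (nat_lit 4470793794) (nat_lit 17) (nat_lit 5) (nat_lit 16) (nat_lit 5) (nat_lit 20) (nat_lit 5) (nat_lit 226) (nat_lit 223) (nat_lit 151))))) (XT.nd (nat_lit 312) (nat_lit 228) (nat_lit 0) (XT.nd (nat_lit 156) (nat_lit 152) (nat_lit 0) (XT.nd (nat_lit 78) (nat_lit 0) (nat_lit 0) (XT.lf (nat_lit 0) (nat_lit 2338754029) (nat_lit 304) (nat_lit 116365920160) (nat_lit 76) (nat_lit 19496286558) (nat_lit 13) (nat_lit 5) (nat_lit 17) (nat_lit 5) (nat_lit 14) (nat_lit 5) (nat_lit 227) (nat_lit 223) (nat_lit 150)) (XT.lf (nat_lit 0) (nat_lit 13094378687) (nat_lit 304) (nat_lit 60550628482) (nat_lit 76) (nat_lit 76165235679) (nat_lit 13) (nat_lit 5) (nat_lit 17) (nat_lit 5) (nat_lit 14) (nat_lit 5) (nat_lit 228) (nat_lit 223) (nat_lit 149))) (XT.nd (nat_lit 78) (nat_lit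 0) (nat_lit 0) (XT.lf (nat_lit 0) (nat_lit 3991734836) (nat_lit 152) (nat_lit 21636325296) (nat_lit 228) (nat_lit 137508156460) (nat_lit 11) (nat_lit 5) (nat_lit 13) (nat_lit 5) (nat_lit 14) (nat_lit 5) (nat_lit 229) (nat_lit 223) (nat_lit 148)) (XT.lf (nat_lit 0) (nat_lit 44937825131) (nat_lit 228) (nat_lit 94697857222) (nat_lit 76) (nat_lit 38091004818) (nat_lit 11) (nat_lit 5) (nat_lit 14) (nat_lit 5) (nat_lit 12) (nat_lit 5) (nat_lit 230) (nat_lit 223) (nat_lit 147)))) (XT.nd (nat_lit 156) (nat_lit 76) (nat_lit 0) (XT.nd (nat_lit 78) (nat_lit 152) (nat_lit 0) (XT.lf (nat_lit 0) (nat_lit 68173898496) (nat_lit 228) (nat_lit 21615104848) (nat_lit 76) (nat_lit 104562253205) (nat_lit 11) (nat_lit 5) (nat_lit 14) (nat_lit 5) (nat_lit 12) (nat_lit 5) (nat_lit 231) (nat_lit 223) (nat_lit 146)) (XT.lf (nat_lit 0) (nat_lit 68530640948) (nat_lit 152) (nat_lit 29202051716) (nat_lit 228) (nat_lit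 115311226337) (nat_lit 9) (nat_lit 5) (nat_lit 11) (nat_lit 5) (nat_lit 12) (nat_lit 5) (nat_lit 232) (nat_lit 223) (nat_lit 145))) (XT.nd (nat_lit 78) (nat_lit 76) (nat_lit 0) (XT.lf (nat_lit 0) (nat_lit 134584518835) (nat_lit 228) (nat_lit 61473731983) (nat_lit 76) (nat_lit 38053351668) (nat_lit 9) (nat_lit 5) (nat_lit 12) (nat_lit 5) (nat_lit 10) (nat_lit 4) (nat_lit 233) (nat_lit 223) (nat_lit 144)) (XT.lf (nat_lit 0) (nat_lit 35819628523) (nat_lit 76) (nat_lit 144017957267) (nat_lit 152) (nat_lit 78070835804) (nat_lit 8) (nat_lit 5) (nat_lit 9) (nat_lit 5) (nat_lit 10) (nat_lit 4) (nat_lit 234) (nat_lit 223) (nat_lit 143)))))) (XT.nd (nat_lit 624) (nat_lit 228) (nat_lit 0) (XT.nd (nat_lit 312) (nat_lit 76) (nat_lit 0) (XT.nd (nat_lit 156) (nat_lit 152) (nat_lit 0) (XT.nd (nat_lit 78) (nat_lit 0) (nat_lit 0) (XT.lf (nat_lit 0) (nat_lit 154615368356) (nat_lit 76) (nat_lit 80476346556)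 (nat_lit 152) (nat_lit 49701086057) (nat_lit 8) (nat_lit 5) (nat_lit 9) (nat_lit 5) (nat_lit 10) (nat_lit 4) (nat_lit 235) (nat_lit 223) (nat_lit 142)) (XT.lf (nat_lit 0) (nat_lit 291230091819) (nat_lit 76) (nat_lit 7403612885) (nat_lit 152) (nat_lit 17076173716) (nat_lit 8) (nat_lit 5) (nat_lit 9) (nat_lit 5) (nat_lit 10) (nat_lit 4) (nat_lit 236) (nat_lit 223) (nat_lit 141))) (XT.nd (nat_lit 78) (nat_lit 0) (nat_lit 0) (XT.lf (nat_lit 0) (nat_lit 26417872268) (nat_lit 152) (nat_lit 248273622926) (nat_lit 76) (nat_lit 75276753087) (nat_lit 6) (nat_lit 5) (nat_lit 8) (nat_lit 5) (nat_lit 7) (nat_lit 4) (nat_lit 237) (nat_lit 223) (nat_lit 140)) (XT.lf (nat_lit 0) (nat_lit 76380637618) (nat_lit 152) (nat_lit 140854042075) (nat_lit 76) (nat_lit 171754789705) (nat_lit 6) (nat_lit 5) (nat_lit 8) (nat_lit 5) (nat_lit 7) (nat_lit 4) (nat_lit 238) (nat_lit 223) (nat_lit 139)))) (XT.nd (nat_lit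 156) (nat_lit 0) (nat_lit 0) (XT.nd (nat_lit 78) (nat_lit 76) (nat_lit 0) (XT.lf (nat_lit 0) (nat_lit 133837621822) (nat_lit 152) (nat_lit 17321843125) (nat_lit 76) (nat_lit 282704439480) (nat_lit 6) (nat_lit 5) (nat_lit 8) (nat_lit 5) (nat_lit 7) (nat_lit 4) (nat_lit 239) (nat_lit 223) (nat_lit 138)) (XT.lf (nat_lit 0) (nat_lit 136930399283) (nat_lit 76) (nat_lit 68652579813) (nat_lit 152) (nat_lit 279036052976) (nat_lit 5) (nat_lit 5) (nat_lit 6) (nat_lit 5) (nat_lit 7) (nat_lit 4) (nat_lit 240) (nat_lit 223) (nat_lit 137))) (XT.nd (nat_lit 78) (nat_lit 0) (nat_lit 0) (XT.lf (nat_lit 0) (nat_lit 290124695943) (nat_lit 152) (nat_lit 227713937680) (nat_lit 0) (nat_lit 24843612865) (nat_lit 5) (nat_lit 5) (nat_lit 7) (nat_lit 4) (nat_lit 5) (nat_lit 4) (nat_lit 241) (nat_lit 223) (nat_lit 136)) (XT.lf (nat_lit 0) (nat_lit 390616698604) (nat_lit 152) (nat_lit 93012456878) (nat_lit 0)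 (nat_lit 125335434229) (nat_lit 5) (nat_lit 5) (nat_lit 7) (nat_lit 4) (nat_lit 5) (nat_lit 4) (nat_lit 242) (nat_lit 223) (nat_lit 135))))) (XT.nd (nat_lit 312) (nat_lit 76) (nat_lit 0) (XT.nd (nat_lit 156) (nat_lit 76) (nat_lit 0) (XT.nd (nat_lit 78) (nat_lit 0) (nat_lit 0) (XT.lf (nat_lit 0) (nat_lit 67942765077) (nat_lit 76) (nat_lit 441052977966) (nat_lit 76) (nat_lit 175771555942) (nat_lit 4) (nat_lit 4) (nat_lit 5) (nat_lit 5) (nat_lit 5) (nat_lit 4) (nat_lit 243) (nat_lit 223) (nat_lit 134)) (XT.lf (nat_lit 0) (nat_lit 263494396189) (nat_lit 76) (nat_lit 386499146715) (nat_lit 76) (nat_lit 121217587604) (nat_lit 4) (nat_lit 4) (nat_lit 5) (nat_lit 5) (nat_lit 5) (nat_lit 4) (nat_lit 244) (nat_lit 223) (nat_lit 133))) (XT.nd (nat_lit 78) (nat_lit 76) (nat_lit 0) (XT.lf (nat_lit 0) (nat_lit 488378592892) (nat_lit 76) (nat_lit 323762318952) (nat_lit 76) (nat_lit 58480640636) (nat_lit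 4) (nat_lit 4) (nat_lit 5) (nat_lit 5) (nat_lit 5) (nat_lit 4) (nat_lit 245) (nat_lit 223) (nat_lit 132)) (XT.lf (nat_lit 0) (nat_lit 12450038645) (nat_lit 152) (nat_lit 238514198885) (nat_lit 76) (nat_lit 733894427260) (nat_lit 3) (nat_lit 5) (nat_lit 5) (nat_lit 5) (nat_lit 4) (nat_lit 4) (nat_lit 246) (nat_lit 223) (nat_lit 131)))) (XT.nd (nat_lit 156) (nat_lit 0) (nat_lit 0) (XT.nd (nat_lit 78) (nat_lit 76) (nat_lit 0) (XT.lf (nat_lit 0) (nat_lit 88032935804) (nat_lit 152) (nat_lit 76011060129) (nat_lit 76) (nat_lit 951769641586) (nat_lit 3) (nat_lit 5) (nat_lit 5) (nat_lit 5) (nat_lit 4) (nat_lit 4) (nat_lit 247) (nat_lit 223) (nat_lit 130)) (XT.lf (nat_lit 0) (nat_lit 121702195566) (nat_lit 76) (nat_lit 58290430505) (nat_lit 152) (nat_lit 1085663326639) (nat_lit 2) (nat_lit 5) (nat_lit 3) (nat_lit 5) (nat_lit 4) (nat_lit 4) (nat_lit 248) (nat_lit 223) (nat_lit 129))) (XT.nd (nat_lit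 78) (nat_lit 0) (nat_lit 0) (XT.lf (nat_lit 0) (nat_lit 292530914065) (nat_lit 152) (nat_lit 1082575106928) (nat_lit 0) (nat_lit 61850897852) (nat_lit 2) (nat_lit 5) (nat_lit 4) (nat_lit 4) (nat_lit 2) (nat_lit 4) (nat_lit 249) (nat_lit 223) (nat_lit 128)) (XT.lf (nat_lit 0) (nat_lit 424725621002) (nat_lit 152) (nat_lit 1014765504534) (nat_lit 0) (nat_lit 194045553253) (nat_lit 2) (nat_lit 5) (nat_lit 4) (nat_lit 4) (nat_lit 2) (nat_lit 4) (nat_lit 250) (nat_lit 223) (nat_lit 127))))))) (XT.nd (nat_lit 1170) (nat_lit 0) (nat_lit 0) (XT.nd (nat_lit 546) (nat_lit 76) (nat_lit 0) (XT.nd (nat_lit 234) (nat_lit 0) (nat_lit 0) (XT.nd (nat_lit 78) (nat_lit 0) (nat_lit 0) (XT.lf (nat_lit 0) (nat_lit 576749482641) (nat_lit 152) (nat_lit 936784557927) (nat_lit 0) (nat_lit 346069370078) (nat_lit 2) (nat_lit 5) (nat_lit 4) (nat_lit 4) (nat_lit 2) (nat_lit 4) (nat_lit 251) (nat_lit 223) (nat_lit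 126)) (XT.nd (nat_lit 78) (nat_lit 0) (nat_lit 0) (XT.lf (nat_lit 0) (nat_lit 751576878883) (nat_lit 152) (nat_lit 847106552935) (nat_lit 0) (nat_lit 520896727352) (nat_lit 2) (nat_lit 5) (nat_lit 4) (nat_lit 4) (nat_lit 2) (nat_lit 4) (nat_lit 252) (nat_lit 223) (nat_lit 125)) (XT.lf (nat_lit 0) (nat_lit 952628345741) (nat_lit 152) (nat_lit 743976919896) (nat_lit 0) (nat_lit 721948160324) (nat_lit 2) (nat_lit 5) (nat_lit 4) (nat_lit 4) (nat_lit 2) (nat_lit 4) (nat_lit 253) (nat_lit 223) (nat_lit 124)))) (XT.nd (nat_lit 156) (nat_lit 0) (nat_lit 0) (XT.nd (nat_lit 78) (nat_lit 0) (nat_lit 0) (XT.lf (nat_lit 0) (nat_lit 1183837498871) (nat_lit 152) (nat_lit 625377905119) (nat_lit 0) (nat_lit 953157283988) (nat_lit 2) (nat_lit 5) (nat_lit 4) (nat_lit 4) (nat_lit 2) (nat_lit 4) (nat_lit 254) (nat_lit 223) (nat_lit 123)) (XT.lf (nat_lit 0) (nat_lit 1449727995618) (nat_lit 152) (nat_lit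 488989093097) (nat_lit 0) (nat_lit 1219047755112) (nat_lit 2) (nat_lit 5) (nat_lit 4) (nat_lit 4) (nat_lit 2) (nat_lit 4) (nat_lit 255) (nat_lit 223) (nat_lit 122))) (XT.nd (nat_lit 78) (nat_lit 0) (nat_lit 0) (XT.lf (nat_lit 0) (nat_lit 1755502041351) (nat_lit 152) (nat_lit 332142007074) (nat_lit 0) (nat_lit 1524821778566) (nat_lit 2) (nat_lit 5) (nat_lit 4) (nat_lit 4) (nat_lit 2) (nat_lit 4) (nat_lit 256) (nat_lit 223) (nat_lit 121)) (XT.lf (nat_lit 0) (nat_lit 2107142171750) (nat_lit 152) (nat_lit 151767899715) (nat_lit 0) (nat_lit 1876461889590) (nat_lit 2) (nat_lit 5) (nat_lit 4) (nat_lit 4) (nat_lit 2) (nat_lit 4) (nat_lit 257) (nat_lit 223) (nat_lit 120))))) (XT.nd (nat_lit 312) (nat_lit 0) (nat_lit 0) (XT.nd (nat_lit 156) (nat_lit 0) (nat_lit 0) (XT.nd (nat_lit 78) (nat_lit 0) (nat_lit 0) (XT.lf (nat_lit 0) (nat_lit 61102011163) (nat_lit 76) (nat_lit 2452956395226) (nat_lit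 76) (nat_lit 2222276096219) (nat_lit 1) (nat_lit 4) (nat_lit 2) (nat_lit 5) (nat_lit 2) (nat_lit 4) (nat_lit 258) (nat_lit 223) (nat_lit 119)) (XT.lf (nat_lit 0) (nat_lit 322959016537) (nat_lit 76) (nat_lit 2666986363506) (nat_lit 76) (nat_lit 2436306049850) (nat_lit 1) (nat_lit 4) (nat_lit 2) (nat_lit 5) (nat_lit 2) (nat_lit 4) (nat_lit 259) (nat_lit 223) (nat_lit 118))) (XT.nd (nat_lit 78) (nat_lit 0) (nat_lit 0) (XT.lf (nat_lit 0) (nat_lit 624094542716) (nat_lit 76) (nat_lit 2913120841194) (nat_lit 76) (nat_lit 2682440514799) (nat_lit 1) (nat_lit 4) (nat_lit 2) (nat_lit 5) (nat_lit 2) (nat_lit 4) (nat_lit 260) (nat_lit 223) (nat_lit 117)) (XT.lf (nat_lit 0) (nat_lit 970400371732) (nat_lit 76) (nat_lit 3196175502853) (nat_lit 76) (nat_lit 2965495165381) (nat_lit 1) (nat_lit 4) (nat_lit 2) (nat_lit 5) (nat_lit 2) (nat_lit 4) (nat_lit 261) (nat_lit 223) (nat_lit 116)))) (XT.nd (nat_lit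 156) (nat_lit 0) (nat_lit 0) (XT.nd (nat_lit 78) (nat_lit 0) (nat_lit 0) (XT.lf (nat_lit 0) (nat_lit 1368652052416) (nat_lit 76) (nat_lit 3521688374473) (nat_lit 76) (nat_lit 3291008027368) (nat_lit 1) (nat_lit 4) (nat_lit 2) (nat_lit 5) (nat_lit 2) (nat_lit 4) (nat_lit 262) (nat_lit 223) (nat_lit 115)) (XT.lf (nat_lit 0) (nat_lit 1826641465475) (nat_lit 76) (nat_lit 3896028186150) (nat_lit 76) (nat_lit 3665347830668) (nat_lit 1) (nat_lit 4) (nat_lit 2) (nat_lit 5) (nat_lit 2) (nat_lit 4) (nat_lit 263) (nat_lit 223) (nat_lit 114))) (XT.nd (nat_lit 78) (nat_lit 0) (nat_lit 0) (XT.lf (nat_lit 0) (nat_lit 2353329273339) (nat_lit 76) (nat_lit 4326518977677) (nat_lit 76) (nat_lit 4095838614912) (nat_lit 1) (nat_lit 4) (nat_lit 2) (nat_lit 5) (nat_lit 2) (nat_lit 4) (nat_lit 264) (nat_lit 223) (nat_lit 113)) (XT.lf (nat_lit 0) (nat_lit 2959020237467) (nat_lit 76) (nat_lit 4821583394977)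 (nat_lit 76) (nat_lit 4590903025878) (nat_lit 1) (nat_lit 4) (nat_lit 2) (nat_lit 5) (nat_lit 2) (nat_lit 4) (nat_lit 265) (nat_lit 223) (nat_lit 112)))))) (XT.nd (nat_lit 28002) (nat_lit 0) (nat_lit 760) (XT.nd (nat_lit 624) (nat_lit 0) (nat_lit 0) (XT.nd (nat_lit 468) (nat_lit 0) (nat_lit 0) (XT.nd (nat_lit 390) (nat_lit 0) (nat_lit 0) (XT.lf (nat_lit 0) (nat_lit 3655564833243) (nat_lit 76) (nat_lit 5390907480995) (nat_lit 76) (nat_lit 5160227106390) (nat_lit 1) (nat_lit 4) (nat_lit 2) (nat_lit 5) (nat_lit 2) (nat_lit 4) (nat_lit 266) (nat_lit 223) (nat_lit 111)) (XT.lf (nat_lit 0) (nat_lit 9056389261919) (nat_lit 76) (nat_lit 9805297613739) (nat_lit 76) (nat_lit 9574617220672) (nat_lit 1) (nat_lit 4) (nat_lit 2) (nat_lit 5) (nat_lit 2) (nat_lit 4) (nat_lit 271) (nat_lit 223) (nat_lit 106))) (XT.nd (nat_lit 78) (nat_lit 0) (nat_lit 0) (XT.lf (nat_lit 0) (nat_lit 10667539162276) (nat_lit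 76) (nat_lit 11122178855749) (nat_lit 76) (nat_lit 10891498460301) (nat_lit 1) (nat_lit 4) (nat_lit 2) (nat_lit 5) (nat_lit 2) (nat_lit 4) (nat_lit 272) (nat_lit 223) (nat_lit 105)) (XT.lf (nat_lit 0) (nat_lit 12520361542810) (nat_lit 76) (nat_lit 12636592286363) (nat_lit 76) (nat_lit 12405911888844) (nat_lit 1) (nat_lit 4) (nat_lit 2) (nat_lit 5) (nat_lit 2) (nat_lit 4) (nat_lit 273) (nat_lit 223) (nat_lit 104)))) (XT.nd (nat_lit 156) (nat_lit 0) (nat_lit 0) (XT.nd (nat_lit 78) (nat_lit 0) (nat_lit 0) (XT.lf (nat_lit 0) (nat_lit 14651107276185) (nat_lit 76) (nat_lit 14378167733571) (nat_lit 76) (nat_lit 14147487334252) (nat_lit 1) (nat_lit 4) (nat_lit 2) (nat_lit 5) (nat_lit 2) (nat_lit 4) (nat_lit 274) (nat_lit 223) (nat_lit 103)) (XT.lf (nat_lit 0) (nat_lit 17101464865878) (nat_lit 76) (nat_lit 16380979499601) (nat_lit 76) (nat_lit 16150299098717) (nat_lit 1) (nat_lit 4) (nat_lit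 2) (nat_lit 5) (nat_lit 2) (nat_lit 4) (nat_lit 275) (nat_lit 223) (nat_lit 102))) (XT.nd (nat_lit 78) (nat_lit 0) (nat_lit 0) (XT.lf (nat_lit 0) (nat_lit 19919376090819) (nat_lit 76) (nat_lit 18684213032050) (nat_lit 76) (nat_lit 18453532629804) (nat_lit 1) (nat_lit 4) (nat_lit 2) (nat_lit 5) (nat_lit 2) (nat_lit 4) (nat_lit 276) (nat_lit 223) (nat_lit 101)) (XT.lf (nat_lit 0) (nat_lit 23159973996714) (nat_lit 76) (nat_lit 21332931595682) (nat_lit 76) (nat_lit 21102251192252) (nat_lit 1) (nat_lit 4) (nat_lit 2) (nat_lit 5) (nat_lit 2) (nat_lit 4) (nat_lit 277) (nat_lit 223) (nat_lit 100))))) (XT.nd (nat_lit 312) (nat_lit 380) (nat_lit 0) (XT.nd (nat_lit 156) (nat_lit 0) (nat_lit 0) (XT.nd (nat_lit 78) (nat_lit 0) (nat_lit 0) (XT.lf (nat_lit 0) (nat_lit 26253061629) (nat_lit 0) (nat_lit 26253061629) (nat_lit 228) (nat_lit 6272900562) (nat_lit 16) (nat_lit 5) (nat_lit 16) (nat_lit 3)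 (nat_lit 19) (nat_lit 3) (nat_lit 224) (nat_lit 224) (nat_lit 152)) (XT.lf (nat_lit 0) (nat_lit 109370269321) (nat_lit 0) (nat_lit 3521771495) (nat_lit 228) (nat_lit 13482225288) (nat_lit 16) (nat_lit 5) (nat_lit 16) (nat_lit 3) (nat_lit 19) (nat_lit 3) (nat_lit 225) (nat_lit 224) (nat_lit 151))) (XT.nd (nat_lit 78) (nat_lit 0) (nat_lit 0) (XT.lf (nat_lit 76) (nat_lit 39588313857) (nat_lit 0) (nat_lit 86190841374) (nat_lit 304) (nat_lit 10159969027) (nat_lit 17) (nat_lit 5) (nat_lit 16) (nat_lit 5) (nat_lit 20) (nat_lit 5) (nat_lit 226) (nat_lit 224) (nat_lit 150)) (XT.lf (nat_lit 76) (nat_lit 106395944911) (nat_lit 0) (nat_lit 35251711369) (nat_lit 304) (nat_lit 5133815257) (nat_lit 17) (nat_lit 5) (nat_lit 16) (nat_lit 5) (nat_lit 20) (nat_lit 5) (nat_lit 227) (nat_lit 224) (nat_lit 149)))) (XT.nd (nat_lit 156) (nat_lit 152) (nat_lit 0) (XT.nd (nat_lit 78) (nat_lit 0) (nat_lit 0)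 (XT.lf (nat_lit 0) (nat_lit 2695770656) (nat_lit 304) (nat_lit 133814412885) (nat_lit 76) (nat_lit 22419923048) (nat_lit 13) (nat_lit 5) (nat_lit 17) (nat_lit 5) (nat_lit 14) (nat_lit 5) (nat_lit 228) (nat_lit 224) (nat_lit 148)) (XT.lf (nat_lit 0) (nat_lit 15063929857) (nat_lit 304) (nat_lit 69627661625) (nat_lit 76) (nat_lit 87589319732) (nat_lit 13) (nat_lit 5) (nat_lit 17) (nat_lit 5) (nat_lit 14) (nat_lit 5) (nat_lit 229) (nat_lit 224) (nat_lit 147))) (XT.nd (nat_lit 78) (nat_lit 0) (nat_lit 0) (XT.lf (nat_lit 0) (nat_lit 4595803413) (nat_lit 152) (nat_lit 24881376302) (nat_lit 228) (nat_lit 158128681561) (nat_lit 11) (nat_lit 5) (nat_lit 13) (nat_lit 5) (nat_lit 14) (nat_lit 5) (nat_lit 230) (nat_lit 224) (nat_lit 146)) (XT.lf (nat_lit 0) (nat_lit 51682783277) (nat_lit 228) (nat_lit 108897249122) (nat_lit 76) (nat_lit 43804970649) (nat_lit 11) (nat_lit 5) (nat_lit 14) (nat_lit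 5) (nat_lit 12) (nat_lit 5) (nat_lit 231) (nat_lit 224) (nat_lit 145))))))))
noncomputable def xc50 : XT := (XT.nd (nat_lit 2418) (nat_lit 0) (nat_lit 0) (XT.nd (nat_lit 1170) (nat_lit 228) (nat_lit 0) (XT.nd (nat_lit 546) (nat_lit 152) (nat_lit 0) (XT.nd (nat_lit 234) (nat_lit 228) (nat_lit 0) (XT.nd (nat_lit 78) (nat_lit 152) (nat_lit 0) (XT.lf (nat_lit 0) (nat_lit 78403708816) (nat_lit 228) (nat_lit 24852773459) (nat_lit 76) (nat_lit 120246865194) (nat_lit 11) (nat_lit 5) (nat_lit 14) (nat_lit 5) (nat_lit 12) (nat_lit 5) (nat_lit 232) (nat_lit 224) (nat_lit 144)) (XT.nd (nat_lit 78) (nat_lit 0) (nat_lit 0) (XT.lf (nat_lit 0) (nat_lit 78814625247) (nat_lit 152) (nat_lit 33581392626) (nat_lit 228) (nat_lit 132603942103) (nat_lit 9) (nat_lit 5) (nat_lit 11) (nat_lit 5) (nat_lit 12) (nat_lit 5) (nat_lit 233) (nat_lit 224) (nat_lit 143)) (XT.lf (nat_lit 0) (nat_lit 154775206525) (nat_lit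 228) (nat_lit 70690535261) (nat_lit 76) (nat_lit 43762120308) (nat_lit 9) (nat_lit 5) (nat_lit 12) (nat_lit 5) (nat_lit 10) (nat_lit 4) (nat_lit 234) (nat_lit 224) (nat_lit 142)))) (XT.nd (nat_lit 156) (nat_lit 152) (nat_lit 0) (XT.nd (nat_lit 78) (nat_lit 0) (nat_lit 0) (XT.lf (nat_lit 0) (nat_lit 41196635843) (nat_lit 76) (nat_lit 165619373331) (nat_lit 152) (nat_lit 89778232366) (nat_lit 8) (nat_lit 5) (nat_lit 9) (nat_lit 5) (nat_lit 10) (nat_lit 4) (nat_lit 235) (nat_lit 224) (nat_lit 141)) (XT.lf (nat_lit 0) (nat_lit 177811206689) (nat_lit 76) (nat_lit 92546687647) (nat_lit 152) (nat_lit 57153441306) (nat_lit 8) (nat_lit 5) (nat_lit 9) (nat_lit 5) (nat_lit 10) (nat_lit 4) (nat_lit 236) (nat_lit 224) (nat_lit 140))) (XT.nd (nat_lit 78) (nat_lit 152) (nat_lit 0) (XT.lf (nat_lit 0) (nat_lit 334917677835) (nat_lit 76) (nat_lit 8513188825) (nat_lit 152) (nat_lit 19635158330) (nat_lit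 8) (nat_lit 5) (nat_lit 9) (nat_lit 5) (nat_lit 10) (nat_lit 4) (nat_lit 237) (nat_lit 224) (nat_lit 139)) (XT.lf (nat_lit 0) (nat_lit 30382662976) (nat_lit 152) (nat_lit 285511231241) (nat_lit 76) (nat_lit 86569260266) (nat_lit 6) (nat_lit 5) (nat_lit 8) (nat_lit 5) (nat_lit 7) (nat_lit 4) (nat_lit 238) (nat_lit 224) (nat_lit 138))))) (XT.nd (nat_lit 312) (nat_lit 76) (nat_lit 0) (XT.nd (nat_lit 156) (nat_lit 76) (nat_lit 0) (XT.nd (nat_lit 78) (nat_lit 0) (nat_lit 0) (XT.lf (nat_lit 0) (nat_lit 87839567929) (nat_lit 152) (nat_lit 161979161322) (nat_lit 76) (nat_lit 197518872696) (nat_lit 6) (nat_lit 5) (nat_lit 8) (nat_lit 5) (nat_lit 7) (nat_lit 4) (nat_lit 239) (nat_lit 224) (nat_lit 137)) (XT.lf (nat_lit 0) (nat_lit 153914860459) (nat_lit 152) (nat_lit 19917522147) (nat_lit 76) (nat_lit 325110857172) (nat_lit 6) (nat_lit 5) (nat_lit 8) (nat_lit 5) (nat_lit 7) (nat_lit 4) (nat_lit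 240) (nat_lit 224) (nat_lit 136))) (XT.nd (nat_lit 78) (nat_lit 0) (nat_lit 0) (XT.lf (nat_lit 0) (nat_lit 157472438557) (nat_lit 76) (nat_lit 78949477342) (nat_lit 152) (nat_lit 320889737919) (nat_lit 5) (nat_lit 5) (nat_lit 6) (nat_lit 5) (nat_lit 7) (nat_lit 4) (nat_lit 241) (nat_lit 224) (nat_lit 135)) (XT.lf (nat_lit 0) (nat_lit 333644731559) (nat_lit 152) (nat_lit 261868705310) (nat_lit 0) (nat_lit 28570938582) (nat_lit 5) (nat_lit 5) (nat_lit 7) (nat_lit 4) (nat_lit 5) (nat_lit 4) (nat_lit 242) (nat_lit 224) (nat_lit 134)))) (XT.nd (nat_lit 156) (nat_lit 0) (nat_lit 0) (XT.nd (nat_lit 78) (nat_lit 76) (nat_lit 0) (XT.lf (nat_lit 0) (nat_lit 449210360981) (nat_lit 152) (nat_lit 106962305391) (nat_lit 0) (nat_lit 144136430918) (nat_lit 5) (nat_lit 5) (nat_lit 7) (nat_lit 4) (nat_lit 5) (nat_lit 4) (nat_lit 243) (nat_lit 224) (nat_lit 133)) (XT.lf (nat_lit 0) (nat_lit 78136108038)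 (nat_lit 76) (nat_lit 507210082901) (nat_lit 76) (nat_lit 202136033632) (nat_lit 4) (nat_lit 4) (nat_lit 5) (nat_lit 5) (nat_lit 5) (nat_lit 4) (nat_lit 244) (nat_lit 224) (nat_lit 132))) (XT.nd (nat_lit 78) (nat_lit 0) (nat_lit 0) (XT.lf (nat_lit 0) (nat_lit 303020232313) (nat_lit 76) (nat_lit 444473286757) (nat_lit 76) (nat_lit 139399133831) (nat_lit 4) (nat_lit 4) (nat_lit 5) (nat_lit 5) (nat_lit 5) (nat_lit 4) (nat_lit 245) (nat_lit 224) (nat_lit 131)) (XT.lf (nat_lit 0) (nat_lit 561636839822) (nat_lit 76) (nat_lit 372326030304) (nat_lit 76) (nat_lit 67251787241) (nat_lit 4) (nat_lit 4) (nat_lit 5) (nat_lit 5) (nat_lit 5) (nat_lit 4) (nat_lit 246) (nat_lit 224) (nat_lit 130)))))) (XT.nd (nat_lit 624) (nat_lit 76) (nat_lit 0) (XT.nd (nat_lit 312) (nat_lit 0) (nat_lit 0) (XT.nd (nat_lit 156) (nat_lit 76) (nat_lit 0) (XT.nd (nat_lit 78) (nat_lit 0) (nat_lit 0) (XT.lf (nat_lit 0) (nat_lit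 14318296581) (nat_lit 152) (nat_lit 274289983791) (nat_lit 76) (nat_lit 843979067716) (nat_lit 3) (nat_lit 5) (nat_lit 5) (nat_lit 5) (nat_lit 4) (nat_lit 4) (nat_lit 247) (nat_lit 224) (nat_lit 129)) (XT.lf (nat_lit 0) (nat_lit 101238530209) (nat_lit 152) (nat_lit 87411549647) (nat_lit 76) (nat_lit 1094535502056) (nat_lit 3) (nat_lit 5) (nat_lit 5) (nat_lit 5) (nat_lit 4) (nat_lit 4) (nat_lit 248) (nat_lit 224) (nat_lit 128))) (XT.nd (nat_lit 78) (nat_lit 0) (nat_lit 0) (XT.lf (nat_lit 0) (nat_lit 139958641244) (nat_lit 76) (nat_lit 67033493689) (nat_lit 152) (nat_lit 1248512115720) (nat_lit 2) (nat_lit 5) (nat_lit 3) (nat_lit 5) (nat_lit 4) (nat_lit 4) (nat_lit 249) (nat_lit 224) (nat_lit 127)) (XT.lf (nat_lit 0) (nat_lit 336411103968) (nat_lit 152) (nat_lit 1244960337711) (nat_lit 0) (nat_lit 71128929707) (nat_lit 2) (nat_lit 5) (nat_lit 4) (nat_lit 4) (nat_lit 2) (nat_lit 4) (nat_lit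 250) (nat_lit 224) (nat_lit 126)))) (XT.nd (nat_lit 156) (nat_lit 0) (nat_lit 0) (XT.nd (nat_lit 78) (nat_lit 0) (nat_lit 0) (XT.lf (nat_lit 0) (nat_lit 488434944843) (nat_lit 152) (nat_lit 1166979429991) (nat_lit 0) (nat_lit 223152731613) (nat_lit 2) (nat_lit 5) (nat_lit 4) (nat_lit 4) (nat_lit 2) (nat_lit 4) (nat_lit 251) (nat_lit 224) (nat_lit 125)) (XT.lf (nat_lit 0) (nat_lit 663262323029) (nat_lit 152) (nat_lit 1077301458814) (nat_lit 0) (nat_lit 397980075913) (nat_lit 2) (nat_lit 5) (nat_lit 4) (nat_lit 4) (nat_lit 2) (nat_lit 4) (nat_lit 252) (nat_lit 224) (nat_lit 124))) (XT.nd (nat_lit 78) (nat_lit 0) (nat_lit 0) (XT.lf (nat_lit 0) (nat_lit 864313774186) (nat_lit 152) (nat_lit 974171855178) (nat_lit 0) (nat_lit 599031497605) (nat_lit 2) (nat_lit 5) (nat_lit 4) (nat_lit 4) (nat_lit 2) (nat_lit 4) (nat_lit 253) (nat_lit 224) (nat_lit 123)) (XT.lf (nat_lit 0) (nat_lit 1095522913663)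 (nat_lit 152) (nat_lit 855572865969) (nat_lit 0) (nat_lit 830240611460) (nat_lit 2) (nat_lit 5) (nat_lit 4) (nat_lit 4) (nat_lit 2) (nat_lit 4) (nat_lit 254) (nat_lit 224) (nat_lit 122))))) (XT.nd (nat_lit 312) (nat_lit 76) (nat_lit 0) (XT.nd (nat_lit 156) (nat_lit 0) (nat_lit 0) (XT.nd (nat_lit 78) (nat_lit 0) (nat_lit 0) (XT.lf (nat_lit 0) (nat_lit 1361413398538) (nat_lit 152) (nat_lit 719184076181) (nat_lit 0) (nat_lit 1096131074054) (nat_lit 2) (nat_lit 5) (nat_lit 4) (nat_lit 4) (nat_lit 2) (nat_lit 4) (nat_lit 255) (nat_lit 224) (nat_lit 121)) (XT.lf (nat_lit 0) (nat_lit 1667187433948) (nat_lit 152) (nat_lit 562337009492) (nat_lit 0) (nat_lit 1401905090090) (nat_lit 2) (nat_lit 5) (nat_lit 4) (nat_lit 4) (nat_lit 2) (nat_lit 4) (nat_lit 256) (nat_lit 224) (nat_lit 120))) (XT.nd (nat_lit 78) (nat_lit 0) (nat_lit 0) (XT.lf (nat_lit 0) (nat_lit 2018827555369) (nat_lit 152) (nat_lit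 381962918945) (nat_lit 0) (nat_lit 1753545194664) (nat_lit 2) (nat_lit 5) (nat_lit 4) (nat_lit 4) (nat_lit 2) (nat_lit 4) (nat_lit 257) (nat_lit 224) (nat_lit 119)) (XT.lf (nat_lit 0) (nat_lit 2423213678221) (nat_lit 152) (nat_lit 174532746246) (nat_lit 0) (nat_lit 2157931302866) (nat_lit 2) (nat_lit 5) (nat_lit 4) (nat_lit 4) (nat_lit 2) (nat_lit 4) (nat_lit 258) (nat_lit 224) (nat_lit 118)))) (XT.nd (nat_lit 156) (nat_lit 0) (nat_lit 0) (XT.nd (nat_lit 78) (nat_lit 0) (nat_lit 0) (XT.lf (nat_lit 0) (nat_lit 70267635881) (nat_lit 76) (nat_lit 2820899701981) (nat_lit 76) (nat_lit 2555617313887) (nat_lit 1) (nat_lit 4) (nat_lit 2) (nat_lit 5) (nat_lit 2) (nat_lit 4) (nat_lit 259) (nat_lit 224) (nat_lit 117)) (XT.lf (nat_lit 0) (nat_lit 371403149925) (nat_lit 76) (nat_lit 3067034185398) (nat_lit 76) (nat_lit 2801751786227) (nat_lit 1) (nat_lit 4) (nat_lit 2) (nat_lit 5) (nat_lit 2) (nat_lit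 4) (nat_lit 260) (nat_lit 224) (nat_lit 116))) (XT.nd (nat_lit 78) (nat_lit 0) (nat_lit 0) (XT.lf (nat_lit 0) (nat_lit 717708968391) (nat_lit 76) (nat_lit 3350088852039) (nat_lit 76) (nat_lit 3084806443236) (nat_lit 1) (nat_lit 4) (nat_lit 2) (nat_lit 5) (nat_lit 2) (nat_lit 4) (nat_lit 261) (nat_lit 224) (nat_lit 115)) (XT.lf (nat_lit 0) (nat_lit 1115960639899) (nat_lit 76) (nat_lit 3675601727991) (nat_lit 76) (nat_lit 3410319310812) (nat_lit 1) (nat_lit 4) (nat_lit 2) (nat_lit 5) (nat_lit 2) (nat_lit 4) (nat_lit 262) (nat_lit 224) (nat_lit 114))))))) (XT.nd (nat_lit 28626) (nat_lit 0) (nat_lit 304) (XT.nd (nat_lit 780) (nat_lit 0) (nat_lit 0) (XT.nd (nat_lit 234) (nat_lit 0) (nat_lit 0) (XT.nd (nat_lit 78) (nat_lit 0) (nat_lit 0) (XT.lf (nat_lit 0) (nat_lit 1573950044980) (nat_lit 76) (nat_lit 4049941543435) (nat_lit 76) (nat_lit 3784659118972) (nat_lit 1) (nat_lit 4) (nat_lit 2)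 (nat_lit 5) (nat_lit 2) (nat_lit 4) (nat_lit 263) (nat_lit 224) (nat_lit 113)) (XT.nd (nat_lit 78) (nat_lit 0) (nat_lit 0) (XT.lf (nat_lit 0) (nat_lit 2100637845906) (nat_lit 76) (nat_lit 4480432338238) (nat_lit 76) (nat_lit 4215149907442) (nat_lit 1) (nat_lit 4) (nat_lit 2) (nat_lit 5) (nat_lit 2) (nat_lit 4) (nat_lit 264) (nat_lit 224) (nat_lit 112)) (XT.lf (nat_lit 0) (nat_lit 2706328804001) (nat_lit 76) (nat_lit 4975496758386) (nat_lit 76) (nat_lit 4710214322083) (nat_lit 1) (nat_lit 4) (nat_lit 2) (nat_lit 5) (nat_lit 2) (nat_lit 4) (nat_lit 265) (nat_lit 224) (nat_lit 111)))) (XT.nd (nat_lit 390) (nat_lit 0) (nat_lit 0) (XT.nd (nat_lit 312) (nat_lit 0) (nat_lit 0) (XT.lf (nat_lit 0) (nat_lit 3402873394532) (nat_lit 76) (nat_lit 5544820846882) (nat_lit 76) (nat_lit 5279538405789) (nat_lit 1) (nat_lit 4) (nat_lit 2) (nat_lit 5) (nat_lit 2) (nat_lit 4) (nat_lit 266) (nat_lit 224)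 (nat_lit 110)) (XT.lf (nat_lit 0) (nat_lit 7402697890000) (nat_lit 76) (nat_lit 8814096865512) (nat_lit 76) (nat_lit 8548814410747) (nat_lit 1) (nat_lit 4) (nat_lit 2) (nat_lit 5) (nat_lit 2) (nat_lit 4) (nat_lit 270) (nat_lit 224) (nat_lit 106))) (XT.nd (nat_lit 78) (nat_lit 0) (nat_lit 0) (XT.lf (nat_lit 0) (nat_lit 8803697805622) (nat_lit 76) (nat_lit 9959210987928) (nat_lit 76) (nat_lit 9693928530782) (nat_lit 1) (nat_lit 4) (nat_lit 2) (nat_lit 5) (nat_lit 2) (nat_lit 4) (nat_lit 271) (nat_lit 224) (nat_lit 105)) (XT.lf (nat_lit 0) (nat_lit 10414847703711) (nat_lit 76) (nat_lit 11276092231009) (nat_lit 76) (nat_lit 11010809771793) (nat_lit 1) (nat_lit 4) (nat_lit 2) (nat_lit 5) (nat_lit 2) (nat_lit 4) (nat_lit 272) (nat_lit 224) (nat_lit 104))))) (XT.nd (nat_lit 27534) (nat_lit 0) (nat_lit 1140) (XT.nd (nat_lit 156) (nat_lit 0) (nat_lit 0) (XT.nd (nat_lit 78) (nat_lit 0) (nat_lit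 0) (XT.lf (nat_lit 0) (nat_lit 12267670082273) (nat_lit 76) (nat_lit 12790505662554) (nat_lit 76) (nat_lit 12525223201537) (nat_lit 1) (nat_lit 4) (nat_lit 2) (nat_lit 5) (nat_lit 2) (nat_lit 4) (nat_lit 273) (nat_lit 224) (nat_lit 103)) (XT.lf (nat_lit 0) (nat_lit 14398415813932) (nat_lit 76) (nat_lit 14532081110572) (nat_lit 76) (nat_lit 14266798647990) (nat_lit 1) (nat_lit 4) (nat_lit 2) (nat_lit 5) (nat_lit 2) (nat_lit 4) (nat_lit 274) (nat_lit 224) (nat_lit 102))) (XT.nd (nat_lit 78) (nat_lit 0) (nat_lit 0) (XT.lf (nat_lit 0) (nat_lit 16848773402134) (nat_lit 76) (nat_lit 16534892877307) (nat_lit 76) (nat_lit 16269610413363) (nat_lit 1) (nat_lit 4) (nat_lit 2) (nat_lit 5) (nat_lit 2) (nat_lit 4) (nat_lit 275) (nat_lit 224) (nat_lit 101)) (XT.lf (nat_lit 0) (nat_lit 19666684625779) (nat_lit 76) (nat_lit 18838126410367) (nat_lit 76) (nat_lit 18572843945240) (nat_lit 1) (nat_lit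 4) (nat_lit 2) (nat_lit 5) (nat_lit 2) (nat_lit 4) (nat_lit 276) (nat_lit 224) (nat_lit 100)))) (XT.nd (nat_lit 156) (nat_lit 0) (nat_lit 0) (XT.nd (nat_lit 78) (nat_lit 0) (nat_lit 0) (XT.lf (nat_lit 0) (nat_lit 30192878534) (nat_lit 0) (nat_lit 30192878534) (nat_lit 228) (nat_lit 7209511513) (nat_lit 16) (nat_lit 5) (nat_lit 16) (nat_lit 3) (nat_lit 19) (nat_lit 3) (nat_lit 225) (nat_lit 225) (nat_lit 150)) (XT.lf (nat_lit 0) (nat_lit 125779040434) (nat_lit 0) (nat_lit 4053267934) (nat_lit 228) (nat_lit 15497038849) (nat_lit 16) (nat_lit 5) (nat_lit 16) (nat_lit 3) (nat_lit 19) (nat_lit 3) (nat_lit 226) (nat_lit 225) (nat_lit 149))) (XT.nd (nat_lit 78) (nat_lit 0) (nat_lit 0) (XT.lf (nat_lit 76) (nat_lit 45530783172) (nat_lit 0) (nat_lit 99120922485) (nat_lit 304) (nat_lit 11677357767) (nat_lit 17) (nat_lit 5) (nat_lit 16) (nat_lit 5) (nat_lit 20) (nat_lit 5) (nat_lit 227) (nat_lit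 225) (nat_lit 148)) (XT.lf (nat_lit 76) (nat_lit 122359008158) (nat_lit 0) (nat_lit 40540733209) (nat_lit 304) (nat_lit 5898142663) (nat_lit 17) (nat_lit 5) (nat_lit 16) (nat_lit 5) (nat_lit 20) (nat_lit 5) (nat_lit 228) (nat_lit 225) (nat_lit 147)))))) (XT.nd (nat_lit 624) (nat_lit 228) (nat_lit 0) (XT.nd (nat_lit 312) (nat_lit 228) (nat_lit 0) (XT.nd (nat_lit 156) (nat_lit 152) (nat_lit 0) (XT.nd (nat_lit 78) (nat_lit 0) (nat_lit 0) (XT.lf (nat_lit 0) (nat_lit 3104827009) (nat_lit 304) (nat_lit 153881739053) (nat_lit 76) (nat_lit 25782301680) (nat_lit 13) (nat_lit 5) (nat_lit 17) (nat_lit 5) (nat_lit 14) (nat_lit 5) (nat_lit 229) (nat_lit 225) (nat_lit 146)) (XT.lf (nat_lit 0) (nat_lit 17327598253) (nat_lit 304) (nat_lit 80067605856) (nat_lit 76) (nat_lit 100727187410) (nat_lit 13) (nat_lit 5) (nat_lit 17) (nat_lit 5) (nat_lit 14) (nat_lit 5) (nat_lit 230) (nat_lit 225) (nat_lit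 145))) (XT.nd (nat_lit 78) (nat_lit 0) (nat_lit 0) (XT.lf (nat_lit 0) (nat_lit 5289187801) (nat_lit 152) (nat_lit 28613281961) (nat_lit 228) (nat_lit 181843675010) (nat_lit 11) (nat_lit 5) (nat_lit 13) (nat_lit 5) (nat_lit 14) (nat_lit 5) (nat_lit 231) (nat_lit 225) (nat_lit 144)) (XT.lf (nat_lit 0) (nat_lit 59438440374) (nat_lit 228) (nat_lit 125227838998) (nat_lit 76) (nat_lit 50375954514) (nat_lit 11) (nat_lit 5) (nat_lit 14) (nat_lit 5) (nat_lit 12) (nat_lit 5) (nat_lit 232) (nat_lit 225) (nat_lit 143)))) (XT.nd (nat_lit 156) (nat_lit 76) (nat_lit 0) (XT.nd (nat_lit 78) (nat_lit 152) (nat_lit 0) (XT.lf (nat_lit 0) (nat_lit 90167082186) (nat_lit 228) (nat_lit 28577213398) (nat_lit 76) (nat_lit 138284102162) (nat_lit 11) (nat_lit 5) (nat_lit 14) (nat_lit 5) (nat_lit 12) (nat_lit 5) (nat_lit 233) (nat_lit 225) (nat_lit 142)) (XT.lf (nat_lit 0) (nat_lit 90640137111) (nat_lit 152) (nat_lit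 38617870444) (nat_lit 228) (nat_lit 152491532900) (nat_lit 9) (nat_lit 5) (nat_lit 11) (nat_lit 5) (nat_lit 12) (nat_lit 5) (nat_lit 234) (nat_lit 225) (nat_lit 141))) (XT.nd (nat_lit 78) (nat_lit 76) (nat_lit 0) (XT.lf (nat_lit 0) (nat_lit 177993763394) (nat_lit 228) (nat_lit 81290897010) (nat_lit 76) (nat_lit 50327017476) (nat_lit 9) (nat_lit 5) (nat_lit 12) (nat_lit 5) (nat_lit 10) (nat_lit 4) (nat_lit 235) (nat_lit 225) (nat_lit 140)) (XT.lf (nat_lit 0) (nat_lit 47379203462) (nat_lit 76) (nat_lit 190461313337) (nat_lit 152) (nat_lit 103242525777) (nat_lit 8) (nat_lit 5) (nat_lit 9) (nat_lit 5) (nat_lit 10) (nat_lit 4) (nat_lit 236) (nat_lit 225) (nat_lit 139))))) (XT.nd (nat_lit 312) (nat_lit 76) (nat_lit 0) (XT.nd (nat_lit 156) (nat_lit 152) (nat_lit 0) (XT.nd (nat_lit 78) (nat_lit 0) (nat_lit 0) (XT.lf (nat_lit 0) (nat_lit 204485559208) (nat_lit 76) (nat_lit 106427850800) (nat_lit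 152) (nat_lit 65724334507) (nat_lit 8) (nat_lit 5) (nat_lit 9) (nat_lit 5) (nat_lit 10) (nat_lit 4) (nat_lit 237) (nat_lit 225) (nat_lit 138)) (XT.lf (nat_lit 0) (nat_lit 385157652567) (nat_lit 76) (nat_lit 9789436719) (nat_lit 152) (nat_lit 22578585997) (nat_lit 8) (nat_lit 5) (nat_lit 9) (nat_lit 5) (nat_lit 10) (nat_lit 4) (nat_lit 238) (nat_lit 225) (nat_lit 137))) (XT.nd (nat_lit 78) (nat_lit 0) (nat_lit 0) (XT.lf (nat_lit 0) (nat_lit 34941657786) (nat_lit 152) (nat_lit 328335318480) (nat_lit 76) (nat_lit 99555401076) (nat_lit 6) (nat_lit 5) (nat_lit 8) (nat_lit 5) (nat_lit 7) (nat_lit 4) (nat_lit 239) (nat_lit 225) (nat_lit 136)) (XT.lf (nat_lit 0) (nat_lit 101016890391) (nat_lit 152) (nat_lit 186273776871) (nat_lit 76) (nat_lit 227147357313) (nat_lit 6) (nat_lit 5) (nat_lit 8) (nat_lit 5) (nat_lit 7) (nat_lit 4) (nat_lit 240) (nat_lit 225) (nat_lit 135)))) (XT.nd (nat_lit 156)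 (nat_lit 0) (nat_lit 0) (XT.nd (nat_lit 78) (nat_lit 76) (nat_lit 0) (XT.lf (nat_lit 0) (nat_lit 177003295852) (nat_lit 152) (nat_lit 22903186426) (nat_lit 76) (nat_lit 373878054193) (nat_lit 6) (nat_lit 5) (nat_lit 8) (nat_lit 5) (nat_lit 7) (nat_lit 4) (nat_lit 241) (nat_lit 225) (nat_lit 134)) (XT.lf (nat_lit 0) (nat_lit 181095179109) (nat_lit 76) (nat_lit 90791150782) (nat_lit 152) (nat_lit 369021895770) (nat_lit 5) (nat_lit 5) (nat_lit 6) (nat_lit 5) (nat_lit 7) (nat_lit 4) (nat_lit 242) (nat_lit 225) (nat_lit 133))) (XT.nd (nat_lit 78) (nat_lit 0) (nat_lit 0) (XT.lf (nat_lit 0) (nat_lit 383692447891) (nat_lit 152) (nat_lit 301147254568) (nat_lit 0) (nat_lit 32857172026) (nat_lit 5) (nat_lit 5) (nat_lit 7) (nat_lit 4) (nat_lit 5) (nat_lit 4) (nat_lit 243) (nat_lit 225) (nat_lit 132)) (XT.lf (nat_lit 0) (nat_lit 516592790431) (nat_lit 152) (nat_lit 123005123775) (nat_lit 0) (nat_lit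 165757410909) (nat_lit 5) (nat_lit 5) (nat_lit 7) (nat_lit 4) (nat_lit 5) (nat_lit 4) (nat_lit 244) (nat_lit 225) (nat_lit 131))))))))
noncomputable def xc51 : XT := (XT.nd (nat_lit 29952) (nat_lit 0) (nat_lit 76) (XT.nd (nat_lit 1170) (nat_lit 76) (nat_lit 0) (XT.nd (nat_lit 546) (nat_lit 0) (nat_lit 0) (XT.nd (nat_lit 234) (nat_lit 152) (nat_lit 0) (XT.nd (nat_lit 78) (nat_lit 0) (nat_lit 0) (XT.lf (nat_lit 0) (nat_lit 89857982241) (nat_lit 76) (nat_lit 583290958845) (nat_lit 76) (nat_lit 232455489186) (nat_lit 4) (nat_lit 4) (nat_lit 5) (nat_lit 5) (nat_lit 5) (nat_lit 4) (nat_lit 245) (nat_lit 225) (nat_lit 130)) (XT.nd (nat_lit 78) (nat_lit 0) (nat_lit 0) (XT.lf (nat_lit 0) (nat_lit 348474534983) (nat_lit 76) (nat_lit 511143726300) (nat_lit 76) (nat_lit 160308178262) (nat_lit 4) (nat_lit 4) (nat_lit 5) (nat_lit 5) (nat_lit 5) (nat_lit 4) (nat_lit 246) (nat_lit 225) (nat_lit 129))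 (XT.lf (nat_lit 0) (nat_lit 645883468250) (nat_lit 76) (nat_lit 428174453570) (nat_lit 76) (nat_lit 77338837376) (nat_lit 4) (nat_lit 4) (nat_lit 5) (nat_lit 5) (nat_lit 5) (nat_lit 4) (nat_lit 247) (nat_lit 225) (nat_lit 128)))) (XT.nd (nat_lit 156) (nat_lit 76) (nat_lit 0) (XT.nd (nat_lit 78) (nat_lit 0) (nat_lit 0) (XT.lf (nat_lit 0) (nat_lit 16466609794) (nat_lit 152) (nat_lit 315432464402) (nat_lit 76) (nat_lit 970576288076) (nat_lit 3) (nat_lit 5) (nat_lit 5) (nat_lit 5) (nat_lit 4) (nat_lit 4) (nat_lit 248) (nat_lit 225) (nat_lit 127)) (XT.lf (nat_lit 0) (nat_lit 116424804284) (nat_lit 152) (nat_lit 100522397783) (nat_lit 76) (nat_lit 1258716140583) (nat_lit 3) (nat_lit 5) (nat_lit 5) (nat_lit 5) (nat_lit 4) (nat_lit 4) (nat_lit 249) (nat_lit 225) (nat_lit 126))) (XT.nd (nat_lit 78) (nat_lit 0) (nat_lit 0) (XT.lf (nat_lit 0) (nat_lit 160953281545) (nat_lit 76) (nat_lit 77088138619)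 (nat_lit 152) (nat_lit 1435788396281) (nat_lit 2) (nat_lit 5) (nat_lit 3) (nat_lit 5) (nat_lit 4) (nat_lit 4) (nat_lit 250) (nat_lit 225) (nat_lit 125)) (XT.lf (nat_lit 0) (nat_lit 386873187554) (nat_lit 152) (nat_lit 1431703605565) (nat_lit 0) (nat_lit 81798569486) (nat_lit 2) (nat_lit 5) (nat_lit 4) (nat_lit 4) (nat_lit 2) (nat_lit 4) (nat_lit 251) (nat_lit 225) (nat_lit 124))))) (XT.nd (nat_lit 312) (nat_lit 0) (nat_lit 0) (XT.nd (nat_lit 156) (nat_lit 0) (nat_lit 0) (XT.nd (nat_lit 78) (nat_lit 0) (nat_lit 0) (XT.lf (nat_lit 0) (nat_lit 561700550040) (nat_lit 152) (nat_lit 1342025663792) (nat_lit 0) (nat_lit 256625902506) (nat_lit 2) (nat_lit 5) (nat_lit 4) (nat_lit 4) (nat_lit 2) (nat_lit 4) (nat_lit 252) (nat_lit 225) (nat_lit 123)) (XT.lf (nat_lit 0) (nat_lit 762751987544) (nat_lit 152) (nat_lit 1238896085725) (nat_lit 0) (nat_lit 457677314388) (nat_lit 2) (nat_lit 5) (nat_lit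 4) (nat_lit 4) (nat_lit 2) (nat_lit 4) (nat_lit 253) (nat_lit 225) (nat_lit 122))) (XT.nd (nat_lit 78) (nat_lit 0) (nat_lit 0) (XT.lf (nat_lit 0) (nat_lit 993961115150) (nat_lit 152) (nat_lit 1120297118749) (nat_lit 0) (nat_lit 688886419713) (nat_lit 2) (nat_lit 5) (nat_lit 4) (nat_lit 4) (nat_lit 2) (nat_lit 4) (nat_lit 254) (nat_lit 225) (nat_lit 121)) (XT.lf (nat_lit 0) (nat_lit 1259851589701) (nat_lit 152) (nat_lit 983908348295) (nat_lit 0) (nat_lit 954776874890) (nat_lit 2) (nat_lit 5) (nat_lit 4) (nat_lit 4) (nat_lit 2) (nat_lit 4) (nat_lit 255) (nat_lit 225) (nat_lit 120)))) (XT.nd (nat_lit 156) (nat_lit 0) (nat_lit 0) (XT.nd (nat_lit 78) (nat_lit 0) (nat_lit 0) (XT.lf (nat_lit 0) (nat_lit 1565625616134) (nat_lit 152) (nat_lit 827061298417) (nat_lit 0) (nat_lit 1260550884476) (nat_lit 2) (nat_lit 5) (nat_lit 4) (nat_lit 4) (nat_lit 2) (nat_lit 4) (nat_lit 256) (nat_lit 225)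 (nat_lit 119)) (XT.lf (nat_lit 0) (nat_lit 1917265729749) (nat_lit 152) (nat_lit 646687222489) (nat_lit 0) (nat_lit 1612190983442) (nat_lit 2) (nat_lit 5) (nat_lit 4) (nat_lit 4) (nat_lit 2) (nat_lit 4) (nat_lit 257) (nat_lit 225) (nat_lit 118))) (XT.nd (nat_lit 78) (nat_lit 0) (nat_lit 0) (XT.lf (nat_lit 0) (nat_lit 2321651845813) (nat_lit 152) (nat_lit 439257062502) (nat_lit 0) (nat_lit 2016577086767) (nat_lit 2) (nat_lit 5) (nat_lit 4) (nat_lit 4) (nat_lit 2) (nat_lit 4) (nat_lit 258) (nat_lit 225) (nat_lit 117)) (XT.lf (nat_lit 0) (nat_lit 2786695866596) (nat_lit 152) (nat_lit 200712402283) (nat_lit 0) (nat_lit 2481621096473) (nat_lit 2) (nat_lit 5) (nat_lit 4) (nat_lit 4) (nat_lit 2) (nat_lit 4) (nat_lit 259) (nat_lit 225) (nat_lit 116)))))) (XT.nd (nat_lit 858) (nat_lit 0) (nat_lit 0) (XT.nd (nat_lit 312) (nat_lit 0) (nat_lit 0) (XT.nd (nat_lit 156) (nat_lit 0) (nat_lit 0) (XT.nd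 (nat_lit 78) (nat_lit 0) (nat_lit 0) (XT.lf (nat_lit 0) (nat_lit 80808025531) (nat_lit 76) (nat_lit 3244034541944) (nat_lit 76) (nat_lit 2938959762188) (nat_lit 1) (nat_lit 4) (nat_lit 2) (nat_lit 5) (nat_lit 2) (nat_lit 4) (nat_lit 260) (nat_lit 225) (nat_lit 115)) (XT.lf (nat_lit 0) (nat_lit 427113834821) (nat_lit 76) (nat_lit 3527089212918) (nat_lit 76) (nat_lit 3222014424785) (nat_lit 1) (nat_lit 4) (nat_lit 2) (nat_lit 5) (nat_lit 2) (nat_lit 4) (nat_lit 261) (nat_lit 225) (nat_lit 114))) (XT.nd (nat_lit 78) (nat_lit 0) (nat_lit 0) (XT.lf (nat_lit 0) (nat_lit 825365498351) (nat_lit 76) (nat_lit 3852602092636) (nat_lit 76) (nat_lit 3547527297221) (nat_lit 1) (nat_lit 4) (nat_lit 2) (nat_lit 5) (nat_lit 2) (nat_lit 4) (nat_lit 262) (nat_lit 225) (nat_lit 113)) (XT.lf (nat_lit 0) (nat_lit 1283354896494) (nat_lit 76) (nat_lit 4226941911356) (nat_lit 76) (nat_lit 3921867109607) (nat_lit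 1) (nat_lit 4) (nat_lit 2) (nat_lit 5) (nat_lit 2) (nat_lit 4) (nat_lit 263) (nat_lit 225) (nat_lit 112)))) (XT.nd (nat_lit 156) (nat_lit 0) (nat_lit 0) (XT.nd (nat_lit 78) (nat_lit 0) (nat_lit 0) (XT.lf (nat_lit 0) (nat_lit 1810042691388) (nat_lit 76) (nat_lit 4657432709008) (nat_lit 76) (nat_lit 4352357901751) (nat_lit 1) (nat_lit 4) (nat_lit 2) (nat_lit 5) (nat_lit 2) (nat_lit 4) (nat_lit 264) (nat_lit 225) (nat_lit 111)) (XT.lf (nat_lit 0) (nat_lit 2415733644237) (nat_lit 76) (nat_lit 5152497131633) (nat_lit 76) (nat_lit 4847422319587) (nat_lit 1) (nat_lit 4) (nat_lit 2) (nat_lit 5) (nat_lit 2) (nat_lit 4) (nat_lit 265) (nat_lit 225) (nat_lit 110))) (XT.nd (nat_lit 312) (nat_lit 0) (nat_lit 0) (XT.lf (nat_lit 0) (nat_lit 3112278230205) (nat_lit 76) (nat_lit 5721821222282) (nat_lit 76) (nat_lit 5416746406072) (nat_lit 1) (nat_lit 4) (nat_lit 2) (nat_lit 5) (nat_lit 2) (nat_lit 4)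 (nat_lit 266) (nat_lit 225) (nat_lit 109)) (XT.lf (nat_lit 0) (nat_lit 7112102712650) (nat_lit 76) (nat_lit 8991097247062) (nat_lit 76) (nat_lit 8686022418963) (nat_lit 1) (nat_lit 4) (nat_lit 2) (nat_lit 5) (nat_lit 2) (nat_lit 4) (nat_lit 270) (nat_lit 225) (nat_lit 105))))) (XT.nd (nat_lit 312) (nat_lit 0) (nat_lit 0) (XT.nd (nat_lit 156) (nat_lit 0) (nat_lit 0) (XT.nd (nat_lit 78) (nat_lit 0) (nat_lit 0) (XT.lf (nat_lit 0) (nat_lit 8513102626004) (nat_lit 76) (nat_lit 10136211370549) (nat_lit 76) (nat_lit 9831136540379) (nat_lit 1) (nat_lit 4) (nat_lit 2) (nat_lit 5) (nat_lit 2) (nat_lit 4) (nat_lit 271) (nat_lit 225) (nat_lit 104)) (XT.lf (nat_lit 0) (nat_lit 10124252522121) (nat_lit 76) (nat_lit 11453092614561) (nat_lit 76) (nat_lit 11148017782591) (nat_lit 1) (nat_lit 4) (nat_lit 2) (nat_lit 5) (nat_lit 2) (nat_lit 4) (nat_lit 272) (nat_lit 225) (nat_lit 103))) (XT.nd (nat_lit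 78) (nat_lit 0) (nat_lit 0) (XT.lf (nat_lit 0) (nat_lit 11977074898968) (nat_lit 76) (nat_lit 12967506046916) (nat_lit 76) (nat_lit 12662431213380) (nat_lit 1) (nat_lit 4) (nat_lit 2) (nat_lit 5) (nat_lit 2) (nat_lit 4) (nat_lit 273) (nat_lit 225) (nat_lit 102)) (XT.lf (nat_lit 0) (nat_lit 14107820629136) (nat_lit 76) (nat_lit 14709081495638) (nat_lit 76) (nat_lit 14404006660741) (nat_lit 1) (nat_lit 4) (nat_lit 2) (nat_lit 5) (nat_lit 2) (nat_lit 4) (nat_lit 274) (nat_lit 225) (nat_lit 101)))) (XT.nd (nat_lit 27456) (nat_lit 0) (nat_lit 1140) (XT.nd (nat_lit 78) (nat_lit 0) (nat_lit 0) (XT.lf (nat_lit 0) (nat_lit 16558178216041) (nat_lit 76) (nat_lit 16711893262984) (nat_lit 76) (nat_lit 16406818426904) (nat_lit 1) (nat_lit 4) (nat_lit 2) (nat_lit 5) (nat_lit 2) (nat_lit 4) (nat_lit 275) (nat_lit 225) (nat_lit 100)) (XT.lf (nat_lit 0) (nat_lit 19376089438558) (nat_lit 76) (nat_lit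 19015126796577) (nat_lit 76) (nat_lit 18710051959468) (nat_lit 1) (nat_lit 4) (nat_lit 2) (nat_lit 5) (nat_lit 2) (nat_lit 4) (nat_lit 276) (nat_lit 225) (nat_lit 99))) (XT.nd (nat_lit 78) (nat_lit 0) (nat_lit 0) (XT.lf (nat_lit 0) (nat_lit 34723214973) (nat_lit 0) (nat_lit 34723214973) (nat_lit 228) (nat_lit 8287668574) (nat_lit 16) (nat_lit 5) (nat_lit 16) (nat_lit 3) (nat_lit 19) (nat_lit 3) (nat_lit 226) (nat_lit 226) (nat_lit 148)) (XT.lf (nat_lit 0) (nat_lit 144648339383) (nat_lit 0) (nat_lit 4663701009) (nat_lit 228) (nat_lit 17815908301) (nat_lit 16) (nat_lit 5) (nat_lit 16) (nat_lit 3) (nat_lit 19) (nat_lit 3) (nat_lit 227) (nat_lit 226) (nat_lit 147))))))) (XT.nd (nat_lit 1170) (nat_lit 304) (nat_lit 0) (XT.nd (nat_lit 546) (nat_lit 380) (nat_lit 0) (XT.nd (nat_lit 234) (nat_lit 152) (nat_lit 0) (XT.nd (nat_lit 78) (nat_lit 228) (nat_lit 0) (XT.lf (nat_lit 76) (nat_lit 52363593264)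 (nat_lit 0) (nat_lit 113990160974) (nat_lit 304) (nat_lit 13423965883) (nat_lit 17) (nat_lit 5) (nat_lit 16) (nat_lit 5) (nat_lit 20) (nat_lit 5) (nat_lit 228) (nat_lit 226) (nat_lit 146)) (XT.nd (nat_lit 78) (nat_lit 228) (nat_lit 0) (XT.lf (nat_lit 76) (nat_lit 140715635570) (nat_lit 0) (nat_lit 46622799814) (nat_lit 304) (nat_lit 6778520107) (nat_lit 17) (nat_lit 5) (nat_lit 16) (nat_lit 5) (nat_lit 20) (nat_lit 5) (nat_lit 229) (nat_lit 226) (nat_lit 145)) (XT.lf (nat_lit 0) (nat_lit 3574097944) (nat_lit 304) (nat_lit 176960343377) (nat_lit 76) (nat_lit 29649185817) (nat_lit 13) (nat_lit 5) (nat_lit 17) (nat_lit 5) (nat_lit 14) (nat_lit 5) (nat_lit 230) (nat_lit 226) (nat_lit 144)))) (XT.nd (nat_lit 156) (nat_lit 0) (nat_lit 0) (XT.nd (nat_lit 78) (nat_lit 152) (nat_lit 0) (XT.lf (nat_lit 0) (nat_lit 19929822238) (nat_lit 304) (nat_lit 92074567140) (nat_lit 76) (nat_lit 115835864551)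 (nat_lit 13) (nat_lit 5) (nat_lit 17) (nat_lit 5) (nat_lit 14) (nat_lit 5) (nat_lit 231) (nat_lit 226) (nat_lit 143)) (XT.lf (nat_lit 0) (nat_lit 6085601039) (nat_lit 152) (nat_lit 32905046818) (nat_lit 228) (nat_lit 209116968200) (nat_lit 11) (nat_lit 5) (nat_lit 13) (nat_lit 5) (nat_lit 14) (nat_lit 5) (nat_lit 232) (nat_lit 226) (nat_lit 142))) (XT.nd (nat_lit 78) (nat_lit 0) (nat_lit 0) (XT.lf (nat_lit 0) (nat_lit 68356656036) (nat_lit 228) (nat_lit 144008992169) (nat_lit 76) (nat_lit 57932527856) (nat_lit 11) (nat_lit 5) (nat_lit 14) (nat_lit 5) (nat_lit 12) (nat_lit 5) (nat_lit 233) (nat_lit 226) (nat_lit 141)) (XT.lf (nat_lit 0) (nat_lit 103694274606) (nat_lit 228) (nat_lit 32861166991) (nat_lit 76) (nat_lit 159026874151) (nat_lit 11) (nat_lit 5) (nat_lit 14) (nat_lit 5) (nat_lit 12) (nat_lit 5) (nat_lit 234) (nat_lit 226) (nat_lit 140))))) (XT.nd (nat_lit 312) (nat_lit 152)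 (nat_lit 0) (XT.nd (nat_lit 156) (nat_lit 76) (nat_lit 0) (XT.nd (nat_lit 78) (nat_lit 0) (nat_lit 0) (XT.lf (nat_lit 0) (nat_lit 104238666620) (nat_lit 152) (nat_lit 44409998213) (nat_lit 228) (nat_lit 175362994013) (nat_lit 9) (nat_lit 5) (nat_lit 11) (nat_lit 5) (nat_lit 12) (nat_lit 5) (nat_lit 235) (nat_lit 226) (nat_lit 139)) (XT.lf (nat_lit 0) (nat_lit 204694548802) (nat_lit 228) (nat_lit 93482097883) (nat_lit 76) (nat_lit 57876507997) (nat_lit 9) (nat_lit 5) (nat_lit 12) (nat_lit 5) (nat_lit 10) (nat_lit 4) (nat_lit 236) (nat_lit 226) (nat_lit 138))) (XT.nd (nat_lit 78) (nat_lit 0) (nat_lit 0) (XT.lf (nat_lit 0) (nat_lit 54488407039) (nat_lit 76) (nat_lit 219029779908) (nat_lit 152) (nat_lit 118727058562) (nat_lit 8) (nat_lit 5) (nat_lit 9) (nat_lit 5) (nat_lit 10) (nat_lit 4) (nat_lit 237) (nat_lit 226) (nat_lit 137)) (XT.lf (nat_lit 0) (nat_lit 235160413139) (nat_lit 76)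 (nat_lit 122391393264) (nat_lit 152) (nat_lit 75581379395) (nat_lit 8) (nat_lit 5) (nat_lit 9) (nat_lit 5) (nat_lit 10) (nat_lit 4) (nat_lit 238) (nat_lit 226) (nat_lit 136)))) (XT.nd (nat_lit 156) (nat_lit 0) (nat_lit 0) (XT.nd (nat_lit 78) (nat_lit 152) (nat_lit 0) (XT.lf (nat_lit 0) (nat_lit 442933057017) (nat_lit 76) (nat_lit 11257299917) (nat_lit 152) (nat_lit 25963977994) (nat_lit 8) (nat_lit 5) (nat_lit 9) (nat_lit 5) (nat_lit 10) (nat_lit 4) (nat_lit 239) (nat_lit 226) (nat_lit 135)) (XT.lf (nat_lit 0) (nat_lit 40184112777) (nat_lit 152) (nat_lit 377583652209) (nat_lit 76) (nat_lit 114489279683) (nat_lit 6) (nat_lit 5) (nat_lit 8) (nat_lit 5) (nat_lit 7) (nat_lit 4) (nat_lit 240) (nat_lit 226) (nat_lit 134))) (XT.nd (nat_lit 78) (nat_lit 0) (nat_lit 0) (XT.lf (nat_lit 0) (nat_lit 116170472926) (nat_lit 152) (nat_lit 214213135538) (nat_lit 76) (nat_lit 261219955211) (nat_lit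 6) (nat_lit 5) (nat_lit 8) (nat_lit 5) (nat_lit 7) (nat_lit 4) (nat_lit 241) (nat_lit 226) (nat_lit 133)) (XT.lf (nat_lit 0) (nat_lit 203554702384) (nat_lit 152) (nat_lit 26337179291) (nat_lit 76) (nat_lit 429960192149) (nat_lit 6) (nat_lit 5) (nat_lit 8) (nat_lit 5) (nat_lit 7) (nat_lit 4) (nat_lit 242) (nat_lit 226) (nat_lit 132)))))) (XT.nd (nat_lit 624) (nat_lit 76) (nat_lit 0) (XT.nd (nat_lit 312) (nat_lit 76) (nat_lit 0) (XT.nd (nat_lit 156) (nat_lit 76) (nat_lit 0) (XT.nd (nat_lit 78) (nat_lit 0) (nat_lit 0) (XT.lf (nat_lit 0) (nat_lit 208260873570) (nat_lit 76) (nat_lit 104409257682) (nat_lit 152) (nat_lit 424374195003) (nat_lit 5) (nat_lit 5) (nat_lit 6) (nat_lit 5) (nat_lit 7) (nat_lit 4) (nat_lit 243) (nat_lit 226) (nat_lit 131)) (XT.lf (nat_lit 0) (nat_lit 441247076207) (nat_lit 152) (nat_lit 346318014558) (nat_lit 0) (nat_lit 37786195963) (nat_lit 5) (nat_lit 5) (nat_lit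 7) (nat_lit 4) (nat_lit 5) (nat_lit 4) (nat_lit 244) (nat_lit 226) (nat_lit 130))) (XT.nd (nat_lit 78) (nat_lit 76) (nat_lit 0) (XT.lf (nat_lit 0) (nat_lit 594082370850) (nat_lit 152) (nat_lit 141454737389) (nat_lit 0) (nat_lit 190621412227) (nat_lit 5) (nat_lit 5) (nat_lit 7) (nat_lit 4) (nat_lit 5) (nat_lit 4) (nat_lit 245) (nat_lit 226) (nat_lit 129)) (XT.lf (nat_lit 0) (nat_lit 103337782031) (nat_lit 76) (nat_lit 670784121392) (nat_lit 76) (nat_lit 267323094613) (nat_lit 4) (nat_lit 4) (nat_lit 5) (nat_lit 5) (nat_lit 5) (nat_lit 4) (nat_lit 246) (nat_lit 226) (nat_lit 128)))) (XT.nd (nat_lit 156) (nat_lit 76) (nat_lit 0) (XT.nd (nat_lit 78) (nat_lit 0) (nat_lit 0) (XT.lf (nat_lit 0) (nat_lit 400746673887) (nat_lit 76) (nat_lit 587814866741) (nat_lit 76) (nat_lit 184353780696) (nat_lit 4) (nat_lit 4) (nat_lit 5) (nat_lit 5) (nat_lit 5) (nat_lit 4) (nat_lit 247) (nat_lit 226) (nat_lit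 127)) (XT.lf (nat_lit 0) (nat_lit 742766822101) (nat_lit 76) (nat_lit 492400257690) (nat_lit 76) (nat_lit 88939120109) (nat_lit 4) (nat_lit 4) (nat_lit 5) (nat_lit 5) (nat_lit 5) (nat_lit 4) (nat_lit 248) (nat_lit 226) (nat_lit 126))) (XT.nd (nat_lit 78) (nat_lit 0) (nat_lit 0) (XT.lf (nat_lit 0) (nat_lit 18937031301) (nat_lit 152) (nat_lit 362746565096) (nat_lit 76) (nat_lit 1116163003652) (nat_lit 3) (nat_lit 5) (nat_lit 5) (nat_lit 5) (nat_lit 4) (nat_lit 4) (nat_lit 249) (nat_lit 226) (nat_lit 125)) (XT.lf (nat_lit 0) (nat_lit 133888898873) (nat_lit 152) (nat_lit 115600088784) (nat_lit 76) (nat_lit 1447523798509) (nat_lit 3) (nat_lit 5) (nat_lit 5) (nat_lit 5) (nat_lit 4) (nat_lit 4) (nat_lit 250) (nat_lit 226) (nat_lit 124))))) (XT.nd (nat_lit 312) (nat_lit 0) (nat_lit 0) (XT.nd (nat_lit 156) (nat_lit 0) (nat_lit 0) (XT.nd (nat_lit 78) (nat_lit 0) (nat_lit 0) (XT.lf (nat_lit 0)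 (nat_lit 185096912049) (nat_lit 76) (nat_lit 88651072740) (nat_lit 152) (nat_lit 1651156249827) (nat_lit 2) (nat_lit 5) (nat_lit 3) (nat_lit 5) (nat_lit 4) (nat_lit 4) (nat_lit 251) (nat_lit 226) (nat_lit 123)) (XT.lf (nat_lit 0) (nat_lit 444904481749) (nat_lit 152) (nat_lit 1646458554489) (nat_lit 0) (nat_lit 94068581997) (nat_lit 2) (nat_lit 5) (nat_lit 4) (nat_lit 4) (nat_lit 2) (nat_lit 4) (nat_lit 252) (nat_lit 226) (nat_lit 122))) (XT.nd (nat_lit 78) (nat_lit 0) (nat_lit 0) (XT.lf (nat_lit 0) (nat_lit 645955907382) (nat_lit 152) (nat_lit 1543328998655) (nat_lit 0) (nat_lit 295119985349) (nat_lit 2) (nat_lit 5) (nat_lit 4) (nat_lit 4) (nat_lit 2) (nat_lit 4) (nat_lit 253) (nat_lit 226) (nat_lit 121)) (XT.lf (nat_lit 0) (nat_lit 877165024664) (nat_lit 152) (nat_lit 1424730051013) (nat_lit 0) (nat_lit 526329083257) (nat_lit 2) (nat_lit 5) (nat_lit 4) (nat_lit 4) (nat_lit 2) (nat_lit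 4) (nat_lit 254) (nat_lit 226) (nat_lit 120)))) (XT.nd (nat_lit 156) (nat_lit 0) (nat_lit 0) (XT.nd (nat_lit 78) (nat_lit 0) (nat_lit 0) (XT.lf (nat_lit 0) (nat_lit 1143055490238) (nat_lit 152) (nat_lit 1288341297371) (nat_lit 0) (nat_lit 792219531984) (nat_lit 2) (nat_lit 5) (nat_lit 4) (nat_lit 4) (nat_lit 2) (nat_lit 4) (nat_lit 255) (nat_lit 226) (nat_lit 119)) (XT.lf (nat_lit 0) (nat_lit 1448829508865) (nat_lit 152) (nat_lit 1131494262112) (nat_lit 0) (nat_lit 1097993535962) (nat_lit 2) (nat_lit 5) (nat_lit 4) (nat_lit 4) (nat_lit 2) (nat_lit 4) (nat_lit 256) (nat_lit 226) (nat_lit 118))) (XT.nd (nat_lit 78) (nat_lit 0) (nat_lit 0) (XT.lf (nat_lit 0) (nat_lit 1800469615693) (nat_lit 152) (nat_lit 951120198895) (nat_lit 0) (nat_lit 1449633630050) (nat_lit 2) (nat_lit 5) (nat_lit 4) (nat_lit 4) (nat_lit 2) (nat_lit 4) (nat_lit 257) (nat_lit 226) (nat_lit 117)) (XT.lf (nat_lit 0)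 (nat_lit 2204855725854) (nat_lit 152) (nat_lit 743690049963) (nat_lit 0) (nat_lit 1854019729134) (nat_lit 2) (nat_lit 5) (nat_lit 4) (nat_lit 4) (nat_lit 2) (nat_lit 4) (nat_lit 258) (nat_lit 226) (nat_lit 116))))))))
noncomputable def xc52 : XT := (XT.nd (nat_lit 30264) (nat_lit 0) (nat_lit 0) (XT.nd (nat_lit 29016) (nat_lit 0) (nat_lit 304) (XT.nd (nat_lit 546) (nat_lit 0) (nat_lit 0) (XT.nd (nat_lit 234) (nat_lit 0) (nat_lit 0) (XT.nd (nat_lit 78) (nat_lit 76) (nat_lit 0) (XT.lf (nat_lit 0) (nat_lit 2669899741505) (nat_lit 152) (nat_lit 505145399356) (nat_lit 0) (nat_lit 2319063735153) (nat_lit 2) (nat_lit 5) (nat_lit 4) (nat_lit 4) (nat_lit 2) (nat_lit 4) (nat_lit 259) (nat_lit 226) (nat_lit 115)) (XT.nd (nat_lit 78) (nat_lit 76) (nat_lit 0) (XT.lf (nat_lit 0) (nat_lit 3204700349907) (nat_lit 152) (nat_lit 230819069129) (nat_lit 0) (nat_lit 2853864335179) (nat_lit 2) (nat_lit 5)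 (nat_lit 4) (nat_lit 4) (nat_lit 2) (nat_lit 4) (nat_lit 260) (nat_lit 226) (nat_lit 114)) (XT.lf (nat_lit 0) (nat_lit 92929414062) (nat_lit 76) (nat_lit 3730639636027) (nat_lit 76) (nat_lit 3379803614015) (nat_lit 1) (nat_lit 4) (nat_lit 2) (nat_lit 5) (nat_lit 2) (nat_lit 4) (nat_lit 261) (nat_lit 226) (nat_lit 113)))) (XT.nd (nat_lit 156) (nat_lit 0) (nat_lit 0) (XT.nd (nat_lit 78) (nat_lit 0) (nat_lit 0) (XT.lf (nat_lit 0) (nat_lit 491181070654) (nat_lit 76) (nat_lit 4056152519021) (nat_lit 76) (nat_lit 3705316490676) (nat_lit 1) (nat_lit 4) (nat_lit 2) (nat_lit 5) (nat_lit 2) (nat_lit 4) (nat_lit 262) (nat_lit 226) (nat_lit 112)) (XT.lf (nat_lit 0) (nat_lit 949170462764) (nat_lit 76) (nat_lit 4430492340589) (nat_lit 76) (nat_lit 4079656306737) (nat_lit 1) (nat_lit 4) (nat_lit 2) (nat_lit 5) (nat_lit 2) (nat_lit 4) (nat_lit 263) (nat_lit 226) (nat_lit 111))) (XT.nd (nat_lit 78)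 (nat_lit 0) (nat_lit 0) (XT.lf (nat_lit 0) (nat_lit 1475858252412) (nat_lit 76) (nat_lit 4860983140718) (nat_lit 76) (nat_lit 4510147102077) (nat_lit 1) (nat_lit 4) (nat_lit 2) (nat_lit 5) (nat_lit 2) (nat_lit 4) (nat_lit 264) (nat_lit 226) (nat_lit 110)) (XT.lf (nat_lit 0) (nat_lit 2081549200699) (nat_lit 76) (nat_lit 5356047565497) (nat_lit 76) (nat_lit 5005211522691) (nat_lit 1) (nat_lit 4) (nat_lit 2) (nat_lit 5) (nat_lit 2) (nat_lit 4) (nat_lit 265) (nat_lit 226) (nat_lit 109))))) (XT.nd (nat_lit 624) (nat_lit 0) (nat_lit 0) (XT.nd (nat_lit 468) (nat_lit 0) (nat_lit 0) (XT.nd (nat_lit 390) (nat_lit 0) (nat_lit 0) (XT.lf (nat_lit 0) (nat_lit 2778093782701) (nat_lit 76) (nat_lit 5925371658019) (nat_lit 76) (nat_lit 5574535611592) (nat_lit 1) (nat_lit 4) (nat_lit 2) (nat_lit 5) (nat_lit 2) (nat_lit 4) (nat_lit 266) (nat_lit 226) (nat_lit 108)) (XT.lf (nat_lit 0) (nat_lit 8178918165203)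 (nat_lit 76) (nat_lit 10339761812564) (nat_lit 76) (nat_lit 9988925753998) (nat_lit 1) (nat_lit 4) (nat_lit 2) (nat_lit 5) (nat_lit 2) (nat_lit 4) (nat_lit 271) (nat_lit 226) (nat_lit 103))) (XT.nd (nat_lit 78) (nat_lit 0) (nat_lit 0) (XT.lf (nat_lit 0) (nat_lit 9790068059605) (nat_lit 76) (nat_lit 11656643057386) (nat_lit 76) (nat_lit 11305806997255) (nat_lit 1) (nat_lit 4) (nat_lit 2) (nat_lit 5) (nat_lit 2) (nat_lit 4) (nat_lit 272) (nat_lit 226) (nat_lit 102)) (XT.lf (nat_lit 0) (nat_lit 11642890434961) (nat_lit 76) (nat_lit 13171056490445) (nat_lit 76) (nat_lit 12820220428952) (nat_lit 1) (nat_lit 4) (nat_lit 2) (nat_lit 5) (nat_lit 2) (nat_lit 4) (nat_lit 273) (nat_lit 226) (nat_lit 101)))) (XT.nd (nat_lit 27690) (nat_lit 0) (nat_lit 1140) (XT.nd (nat_lit 27612) (nat_lit 0) (nat_lit 1140) (XT.lf (nat_lit 0) (nat_lit 13773636163832) (nat_lit 76) (nat_lit 14912631939779) (nat_lit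 76) (nat_lit 14561795877103) (nat_lit 1) (nat_lit 4) (nat_lit 2) (nat_lit 5) (nat_lit 2) (nat_lit 4) (nat_lit 274) (nat_lit 226) (nat_lit 100)) (XT.lf (nat_lit 0) (nat_lit 39932759342) (nat_lit 0) (nat_lit 39932759342) (nat_lit 228) (nat_lit 9528346523) (nat_lit 16) (nat_lit 5) (nat_lit 16) (nat_lit 3) (nat_lit 19) (nat_lit 3) (nat_lit 227) (nat_lit 227) (nat_lit 146))) (XT.nd (nat_lit 78) (nat_lit 0) (nat_lit 0) (XT.lf (nat_lit 0) (nat_lit 166347437462) (nat_lit 0) (nat_lit 5365103332) (nat_lit 228) (nat_lit 20483994829) (nat_lit 16) (nat_lit 5) (nat_lit 16) (nat_lit 3) (nat_lit 19) (nat_lit 3) (nat_lit 228) (nat_lit 227) (nat_lit 145)) (XT.lf (nat_lit 76) (nat_lit 60220546331) (nat_lit 0) (nat_lit 131089516967) (nat_lit 304) (nat_lit 15433783413) (nat_lit 17) (nat_lit 5) (nat_lit 16) (nat_lit 5) (nat_lit 20) (nat_lit 5) (nat_lit 229) (nat_lit 227) (nat_lit 144)))))) (XT.nd (nat_lit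 624) (nat_lit 304) (nat_lit 0) (XT.nd (nat_lit 312) (nat_lit 152) (nat_lit 0) (XT.nd (nat_lit 156) (nat_lit 152) (nat_lit 0) (XT.nd (nat_lit 78) (nat_lit 228) (nat_lit 0) (XT.lf (nat_lit 76) (nat_lit 161825080103) (nat_lit 0) (nat_lit 53616943130) (nat_lit 304) (nat_lit 7792013468) (nat_lit 17) (nat_lit 5) (nat_lit 16) (nat_lit 5) (nat_lit 20) (nat_lit 5) (nat_lit 230) (nat_lit 227) (nat_lit 143)) (XT.lf (nat_lit 0) (nat_lit 4112894590) (nat_lit 304) (nat_lit 203501630020) (nat_lit 76) (nat_lit 34096215020) (nat_lit 13) (nat_lit 5) (nat_lit 17) (nat_lit 5) (nat_lit 14) (nat_lit 5) (nat_lit 231) (nat_lit 227) (nat_lit 142))) (XT.nd (nat_lit 78) (nat_lit 152) (nat_lit 0) (XT.lf (nat_lit 0) (nat_lit 22921627708) (nat_lit 304) (nat_lit 105883347981) (nat_lit 76) (nat_lit 133210941043) (nat_lit 13) (nat_lit 5) (nat_lit 17) (nat_lit 5) (nat_lit 14) (nat_lit 5) (nat_lit 232) (nat_lit 227)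 (nat_lit 141)) (XT.lf (nat_lit 0) (nat_lit 7000736141) (nat_lit 152) (nat_lit 37840631866) (nat_lit 228) (nat_lit 240482049869) (nat_lit 11) (nat_lit 5) (nat_lit 13) (nat_lit 5) (nat_lit 14) (nat_lit 5) (nat_lit 233) (nat_lit 227) (nat_lit 140)))) (XT.nd (nat_lit 156) (nat_lit 152) (nat_lit 0) (XT.nd (nat_lit 78) (nat_lit 0) (nat_lit 0) (XT.lf (nat_lit 0) (nat_lit 78612006696) (nat_lit 228) (nat_lit 165608055415) (nat_lit 76) (nat_lit 66622543265) (nat_lit 11) (nat_lit 5) (nat_lit 14) (nat_lit 5) (nat_lit 12) (nat_lit 5) (nat_lit 234) (nat_lit 227) (nat_lit 139)) (XT.lf (nat_lit 0) (nat_lit 119250026453) (nat_lit 228) (nat_lit 37788354580) (nat_lit 76) (nat_lit 182881023735) (nat_lit 11) (nat_lit 5) (nat_lit 14) (nat_lit 5) (nat_lit 12) (nat_lit 5) (nat_lit 235) (nat_lit 227) (nat_lit 138))) (XT.nd (nat_lit 78) (nat_lit 0) (nat_lit 0) (XT.lf (nat_lit 0) (nat_lit 119876363734) (nat_lit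 152) (nat_lit 51071079950) (nat_lit 228) (nat_lit 201665727559) (nat_lit 9) (nat_lit 5) (nat_lit 11) (nat_lit 5) (nat_lit 12) (nat_lit 5) (nat_lit 236) (nat_lit 227) (nat_lit 137)) (XT.lf (nat_lit 0) (nat_lit 235400032370) (nat_lit 228) (nat_lit 107502572355) (nat_lit 76) (nat_lit 66558315312) (nat_lit 9) (nat_lit 5) (nat_lit 12) (nat_lit 5) (nat_lit 10) (nat_lit 4) (nat_lit 237) (nat_lit 227) (nat_lit 136))))) (XT.nd (nat_lit 312) (nat_lit 76) (nat_lit 0) (XT.nd (nat_lit 156) (nat_lit 152) (nat_lit 0) (XT.nd (nat_lit 78) (nat_lit 0) (nat_lit 0) (XT.lf (nat_lit 0) (nat_lit 62663424660) (nat_lit 76) (nat_lit 251883694584) (nat_lit 152) (nat_lit 136534721443) (nat_lit 8) (nat_lit 5) (nat_lit 9) (nat_lit 5) (nat_lit 10) (nat_lit 4) (nat_lit 238) (nat_lit 227) (nat_lit 135)) (XT.lf (nat_lit 0) (nat_lit 270436002558) (nat_lit 76) (nat_lit 140749621984) (nat_lit 152) (nat_lit 86917372475)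 (nat_lit 8) (nat_lit 5) (nat_lit 9) (nat_lit 5) (nat_lit 10) (nat_lit 4) (nat_lit 239) (nat_lit 227) (nat_lit 134))) (XT.nd (nat_lit 78) (nat_lit 152) (nat_lit 0) (XT.lf (nat_lit 0) (nat_lit 509374343786) (nat_lit 76) (nat_lit 12945477279) (nat_lit 152) (nat_lit 29857519189) (nat_lit 8) (nat_lit 5) (nat_lit 9) (nat_lit 5) (nat_lit 10) (nat_lit 4) (nat_lit 240) (nat_lit 227) (nat_lit 133)) (XT.lf (nat_lit 0) (nat_lit 46212641848) (nat_lit 152) (nat_lit 434219714941) (nat_lit 76) (nat_lit 131663101463) (nat_lit 6) (nat_lit 5) (nat_lit 8) (nat_lit 5) (nat_lit 7) (nat_lit 4) (nat_lit 241) (nat_lit 227) (nat_lit 132)))) (XT.nd (nat_lit 156) (nat_lit 76) (nat_lit 0) (XT.nd (nat_lit 78) (nat_lit 0) (nat_lit 0) (XT.lf (nat_lit 0) (nat_lit 133596837043) (nat_lit 152) (nat_lit 246343814478) (nat_lit 76) (nat_lit 300403322255) (nat_lit 6) (nat_lit 5) (nat_lit 8) (nat_lit 5) (nat_lit 7) (nat_lit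 4) (nat_lit 242) (nat_lit 227) (nat_lit 131)) (XT.lf (nat_lit 0) (nat_lit 234088597461) (nat_lit 152) (nat_lit 30286633237) (nat_lit 76) (nat_lit 494454545983) (nat_lit 6) (nat_lit 5) (nat_lit 8) (nat_lit 5) (nat_lit 7) (nat_lit 4) (nat_lit 243) (nat_lit 227) (nat_lit 130))) (XT.nd (nat_lit 78) (nat_lit 0) (nat_lit 0) (XT.lf (nat_lit 0) (nat_lit 239501076510) (nat_lit 76) (nat_lit 120070218571) (nat_lit 152) (nat_lit 488029579352) (nat_lit 5) (nat_lit 5) (nat_lit 6) (nat_lit 5) (nat_lit 7) (nat_lit 4) (nat_lit 244) (nat_lit 227) (nat_lit 129)) (XT.lf (nat_lit 0) (nat_lit 507434713163) (nat_lit 152) (nat_lit 398264712435) (nat_lit 0) (nat_lit 43454464211) (nat_lit 5) (nat_lit 5) (nat_lit 7) (nat_lit 4) (nat_lit 5) (nat_lit 4) (nat_lit 245) (nat_lit 227) (nat_lit 128))))))) (XT.nd (nat_lit 1170) (nat_lit 76) (nat_lit 0) (XT.nd (nat_lit 546) (nat_lit 0) (nat_lit 0) (XT.nd (nat_lit 234)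 (nat_lit 152) (nat_lit 0) (XT.nd (nat_lit 78) (nat_lit 76) (nat_lit 0) (XT.lf (nat_lit 0) (nat_lit 683195226934) (nat_lit 152) (nat_lit 162672074687) (nat_lit 0) (nat_lit 219214918716) (nat_lit 5) (nat_lit 5) (nat_lit 7) (nat_lit 4) (nat_lit 5) (nat_lit 4) (nat_lit 246) (nat_lit 227) (nat_lit 127)) (XT.nd (nat_lit 78) (nat_lit 0) (nat_lit 0) (XT.lf (nat_lit 0) (nat_lit 118839282950) (nat_lit 76) (nat_lit 771401375685) (nat_lit 76) (nat_lit 307421015931) (nat_lit 4) (nat_lit 4) (nat_lit 5) (nat_lit 5) (nat_lit 5) (nat_lit 4) (nat_lit 247) (nat_lit 227) (nat_lit 126)) (XT.lf (nat_lit 0) (nat_lit 460859399852) (nat_lit 76) (nat_lit 675986780304) (nat_lit 76) (nat_lit 212006375736) (nat_lit 4) (nat_lit 4) (nat_lit 5) (nat_lit 5) (nat_lit 5) (nat_lit 4) (nat_lit 248) (nat_lit 227) (nat_lit 125)))) (XT.nd (nat_lit 156) (nat_lit 76) (nat_lit 0) (XT.nd (nat_lit 78) (nat_lit 76) (nat_lit 0)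 (XT.lf (nat_lit 0) (nat_lit 854182475749) (nat_lit 76) (nat_lit 566260021171) (nat_lit 76) (nat_lit 102279577634) (nat_lit 4) (nat_lit 4) (nat_lit 5) (nat_lit 5) (nat_lit 5) (nat_lit 4) (nat_lit 249) (nat_lit 227) (nat_lit 124)) (XT.lf (nat_lit 0) (nat_lit 21777911167) (nat_lit 152) (nat_lit 417157968412) (nat_lit 76) (nat_lit 1283587660146) (nat_lit 3) (nat_lit 5) (nat_lit 5) (nat_lit 5) (nat_lit 4) (nat_lit 4) (nat_lit 250) (nat_lit 227) (nat_lit 123))) (XT.nd (nat_lit 78) (nat_lit 76) (nat_lit 0) (XT.lf (nat_lit 0) (nat_lit 153972516461) (nat_lit 152) (nat_lit 132939596494) (nat_lit 76) (nat_lit 1664652547370) (nat_lit 3) (nat_lit 5) (nat_lit 5) (nat_lit 5) (nat_lit 4) (nat_lit 4) (nat_lit 251) (nat_lit 227) (nat_lit 122)) (XT.lf (nat_lit 0) (nat_lit 212861931483) (nat_lit 76) (nat_lit 101948516885) (nat_lit 152) (nat_lit 1898829380385) (nat_lit 2) (nat_lit 5) (nat_lit 3) (nat_lit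 5) (nat_lit 4) (nat_lit 4) (nat_lit 252) (nat_lit 227) (nat_lit 121))))) (XT.nd (nat_lit 312) (nat_lit 0) (nat_lit 0) (XT.nd (nat_lit 156) (nat_lit 0) (nat_lit 0) (XT.nd (nat_lit 78) (nat_lit 0) (nat_lit 0) (XT.lf (nat_lit 0) (nat_lit 511640392999) (nat_lit 152) (nat_lit 1893426890092) (nat_lit 0) (nat_lit 108179041007) (nat_lit 2) (nat_lit 5) (nat_lit 4) (nat_lit 4) (nat_lit 2) (nat_lit 4) (nat_lit 253) (nat_lit 227) (nat_lit 120)) (XT.lf (nat_lit 0) (nat_lit 742849501304) (nat_lit 152) (nat_lit 1774827959262) (nat_lit 0) (nat_lit 339388132465) (nat_lit 2) (nat_lit 5) (nat_lit 4) (nat_lit 4) (nat_lit 2) (nat_lit 4) (nat_lit 254) (nat_lit 227) (nat_lit 119))) (XT.nd (nat_lit 78) (nat_lit 0) (nat_lit 0) (XT.lf (nat_lit 0) (nat_lit 1008739959072) (nat_lit 152) (nat_lit 1638439220238) (nat_lit 0) (nat_lit 605278575584) (nat_lit 2) (nat_lit 5) (nat_lit 4) (nat_lit 4) (nat_lit 2) (nat_lit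 4) (nat_lit 255) (nat_lit 227) (nat_lit 118)) (XT.lf (nat_lit 0) (nat_lit 1314513970912) (nat_lit 152) (nat_lit 1481592197692) (nat_lit 0) (nat_lit 911052574684) (nat_lit 2) (nat_lit 5) (nat_lit 4) (nat_lit 4) (nat_lit 2) (nat_lit 4) (nat_lit 256) (nat_lit 227) (nat_lit 117)))) (XT.nd (nat_lit 156) (nat_lit 0) (nat_lit 0) (XT.nd (nat_lit 78) (nat_lit 0) (nat_lit 0) (XT.lf (nat_lit 0) (nat_lit 1666154071837) (nat_lit 152) (nat_lit 1301218145529) (nat_lit 0) (nat_lit 1262692664532) (nat_lit 2) (nat_lit 5) (nat_lit 4) (nat_lit 4) (nat_lit 2) (nat_lit 4) (nat_lit 257) (nat_lit 227) (nat_lit 116)) (XT.lf (nat_lit 0) (nat_lit 2070540176866) (nat_lit 152) (nat_lit 1093788006209) (nat_lit 0) (nat_lit 1667078759929) (nat_lit 2) (nat_lit 5) (nat_lit 4) (nat_lit 4) (nat_lit 2) (nat_lit 4) (nat_lit 258) (nat_lit 227) (nat_lit 115))) (XT.nd (nat_lit 78) (nat_lit 0) (nat_lit 0) (XT.lf (nat_lit 0)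 (nat_lit 2535584188053) (nat_lit 152) (nat_lit 855243363960) (nat_lit 0) (nat_lit 2132122762740) (nat_lit 2) (nat_lit 5) (nat_lit 4) (nat_lit 4) (nat_lit 2) (nat_lit 4) (nat_lit 259) (nat_lit 227) (nat_lit 114)) (XT.lf (nat_lit 0) (nat_lit 3070384792575) (nat_lit 152) (nat_lit 580917041001) (nat_lit 0) (nat_lit 2666923359978) (nat_lit 2) (nat_lit 5) (nat_lit 4) (nat_lit 4) (nat_lit 2) (nat_lit 4) (nat_lit 260) (nat_lit 227) (nat_lit 113)))))) (XT.nd (nat_lit 28860) (nat_lit 0) (nat_lit 608) (XT.nd (nat_lit 312) (nat_lit 0) (nat_lit 0) (XT.nd (nat_lit 156) (nat_lit 0) (nat_lit 0) (XT.nd (nat_lit 78) (nat_lit 76) (nat_lit 0) (XT.lf (nat_lit 0) (nat_lit 3685405480519) (nat_lit 152) (nat_lit 265441783187) (nat_lit 0) (nat_lit 3281944041588) (nat_lit 2) (nat_lit 5) (nat_lit 4) (nat_lit 4) (nat_lit 2) (nat_lit 4) (nat_lit 261) (nat_lit 227) (nat_lit 112)) (XT.lf (nat_lit 0) (nat_lit 106868965833)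 (nat_lit 76) (nat_lit 4290235515488) (nat_lit 76) (nat_lit 3886774071051) (nat_lit 1) (nat_lit 4) (nat_lit 2) (nat_lit 5) (nat_lit 2) (nat_lit 4) (nat_lit 262) (nat_lit 227) (nat_lit 111))) (XT.nd (nat_lit 78) (nat_lit 0) (nat_lit 0) (XT.lf (nat_lit 0) (nat_lit 564858352697) (nat_lit 76) (nat_lit 4664575339533) (nat_lit 76) (nat_lit 4261113890307) (nat_lit 1) (nat_lit 4) (nat_lit 2) (nat_lit 5) (nat_lit 2) (nat_lit 4) (nat_lit 263) (nat_lit 227) (nat_lit 110)) (XT.lf (nat_lit 0) (nat_lit 1091546137783) (nat_lit 76) (nat_lit 5095066141816) (nat_lit 76) (nat_lit 4691604688425) (nat_lit 1) (nat_lit 4) (nat_lit 2) (nat_lit 5) (nat_lit 2) (nat_lit 4) (nat_lit 264) (nat_lit 227) (nat_lit 109)))) (XT.nd (nat_lit 28392) (nat_lit 0) (nat_lit 1140) (XT.nd (nat_lit 78) (nat_lit 0) (nat_lit 0) (XT.lf (nat_lit 0) (nat_lit 1697237082103) (nat_lit 76) (nat_lit 5590130568467) (nat_lit 76) (nat_lit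 5186669111455) (nat_lit 1) (nat_lit 4) (nat_lit 2) (nat_lit 5) (nat_lit 2) (nat_lit 4) (nat_lit 265) (nat_lit 227) (nat_lit 108)) (XT.lf (nat_lit 0) (nat_lit 2393781660656) (nat_lit 76) (nat_lit 6159454662619) (nat_lit 76) (nat_lit 5755993202458) (nat_lit 1) (nat_lit 4) (nat_lit 2) (nat_lit 5) (nat_lit 2) (nat_lit 4) (nat_lit 266) (nat_lit 227) (nat_lit 107))) (XT.nd (nat_lit 78) (nat_lit 0) (nat_lit 0) (XT.lf (nat_lit 0) (nat_lit 45923476362) (nat_lit 0) (nat_lit 45923476362) (nat_lit 228) (nat_lit 10955729059) (nat_lit 16) (nat_lit 5) (nat_lit 16) (nat_lit 3) (nat_lit 19) (nat_lit 3) (nat_lit 228) (nat_lit 228) (nat_lit 144)) (XT.lf (nat_lit 0) (nat_lit 191300949809) (nat_lit 0) (nat_lit 6171265558) (nat_lit 228) (nat_lit 23553342849) (nat_lit 16) (nat_lit 5) (nat_lit 16) (nat_lit 3) (nat_lit 19) (nat_lit 3) (nat_lit 229) (nat_lit 228) (nat_lit 143))))) (XT.nd (nat_lit 312) (nat_lit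 304) (nat_lit 0) (XT.nd (nat_lit 156) (nat_lit 228) (nat_lit 0) (XT.nd (nat_lit 78) (nat_lit 0) (nat_lit 0) (XT.lf (nat_lit 76) (nat_lit 69255453670) (nat_lit 0) (nat_lit 150753573507) (nat_lit 304) (nat_lit 17745994703) (nat_lit 17) (nat_lit 5) (nat_lit 16) (nat_lit 5) (nat_lit 20) (nat_lit 5) (nat_lit 230) (nat_lit 228) (nat_lit 142)) (XT.lf (nat_lit 76) (nat_lit 186100429413) (nat_lit 0) (nat_lit 61660031552) (nat_lit 304) (nat_lit 8958331817) (nat_lit 17) (nat_lit 5) (nat_lit 16) (nat_lit 5) (nat_lit 20) (nat_lit 5) (nat_lit 231) (nat_lit 228) (nat_lit 141))) (XT.nd (nat_lit 78) (nat_lit 0) (nat_lit 0) (XT.lf (nat_lit 0) (nat_lit 4731856721) (nat_lit 304) (nat_lit 234024783888) (nat_lit 76) (nat_lit 39210383629) (nat_lit 13) (nat_lit 5) (nat_lit 17) (nat_lit 5) (nat_lit 14) (nat_lit 5) (nat_lit 232) (nat_lit 228) (nat_lit 140)) (XT.lf (nat_lit 0) (nat_lit 26361635292) (nat_lit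 304) (nat_lit 121764032236) (nat_lit 76) (nat_lit 153192352944) (nat_lit 13) (nat_lit 5) (nat_lit 17) (nat_lit 5) (nat_lit 14) (nat_lit 5) (nat_lit 233) (nat_lit 228) (nat_lit 139)))) (XT.nd (nat_lit 156) (nat_lit 152) (nat_lit 0) (XT.nd (nat_lit 78) (nat_lit 0) (nat_lit 0) (XT.lf (nat_lit 0) (nat_lit 8052581872) (nat_lit 152) (nat_lit 43516596607) (nat_lit 228) (nat_lit 276552494542) (nat_lit 11) (nat_lit 5) (nat_lit 13) (nat_lit 5) (nat_lit 14) (nat_lit 5) (nat_lit 234) (nat_lit 228) (nat_lit 138)) (XT.lf (nat_lit 0) (nat_lit 90405208271) (nat_lit 228) (nat_lit 190447535501) (nat_lit 76) (nat_lit 76616027764) (nat_lit 11) (nat_lit 5) (nat_lit 14) (nat_lit 5) (nat_lit 12) (nat_lit 5) (nat_lit 235) (nat_lit 228) (nat_lit 137))) (XT.nd (nat_lit 78) (nat_lit 152) (nat_lit 0) (XT.lf (nat_lit 0) (nat_lit 137138748309) (nat_lit 228) (nat_lit 43455104961) (nat_lit 76) (nat_lit 210313266869)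 (nat_lit 11) (nat_lit 5) (nat_lit 14) (nat_lit 5) (nat_lit 12) (nat_lit 5) (nat_lit 236) (nat_lit 228) (nat_lit 136)) (XT.lf (nat_lit 0) (nat_lit 137859252791) (nat_lit 152) (nat_lit 58731425878) (nat_lit 228) (nat_lit 231914289487) (nat_lit 9) (nat_lit 5) (nat_lit 11) (nat_lit 5) (nat_lit 12) (nat_lit 5) (nat_lit 237) (nat_lit 228) (nat_lit 135))))))))
noncomputable def xc53 : XT := (XT.nd (nat_lit 30576) (nat_lit 0) (nat_lit 76) (XT.nd (nat_lit 1170) (nat_lit 152) (nat_lit 0) (XT.nd (nat_lit 546) (nat_lit 228) (nat_lit 0) (XT.nd (nat_lit 234) (nat_lit 152) (nat_lit 0) (XT.nd (nat_lit 78) (nat_lit 76) (nat_lit 0) (XT.lf (nat_lit 0) (nat_lit 270711021156) (nat_lit 228) (nat_lit 123626566744) (nat_lit 76) (nat_lit 76542312979) (nat_lit 9) (nat_lit 5) (nat_lit 12) (nat_lit 5) (nat_lit 10) (nat_lit 4) (nat_lit 238) (nat_lit 228) (nat_lit 134)) (XT.nd (nat_lit 78) (nat_lit 0) (nat_lit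 0) (XT.lf (nat_lit 0) (nat_lit 72064266574) (nat_lit 76) (nat_lit 289665831147) (nat_lit 152) (nat_lit 157013874157) (nat_lit 8) (nat_lit 5) (nat_lit 9) (nat_lit 5) (nat_lit 10) (nat_lit 4) (nat_lit 239) (nat_lit 228) (nat_lit 133)) (XT.lf (nat_lit 0) (nat_lit 311002557911) (nat_lit 76) (nat_lit 161861702129) (nat_lit 152) (nat_lit 99954060518) (nat_lit 8) (nat_lit 5) (nat_lit 9) (nat_lit 5) (nat_lit 10) (nat_lit 4) (nat_lit 240) (nat_lit 228) (nat_lit 132)))) (XT.nd (nat_lit 156) (nat_lit 0) (nat_lit 0) (XT.nd (nat_lit 78) (nat_lit 152) (nat_lit 0) (XT.lf (nat_lit 0) (nat_lit 585781499675) (nat_lit 76) (nat_lit 14886983086) (nat_lit 152) (nat_lit 34335348956) (nat_lit 8) (nat_lit 5) (nat_lit 9) (nat_lit 5) (nat_lit 10) (nat_lit 4) (nat_lit 241) (nat_lit 228) (nat_lit 131)) (XT.lf (nat_lit 0) (nat_lit 53145227845) (nat_lit 152) (nat_lit 499351549234) (nat_lit 76) (nat_lit 151412891693)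 (nat_lit 6) (nat_lit 5) (nat_lit 8) (nat_lit 5) (nat_lit 7) (nat_lit 4) (nat_lit 242) (nat_lit 228) (nat_lit 130))) (XT.nd (nat_lit 78) (nat_lit 0) (nat_lit 0) (XT.lf (nat_lit 0) (nat_lit 153636962355) (nat_lit 152) (nat_lit 283294410173) (nat_lit 76) (nat_lit 345464103212) (nat_lit 6) (nat_lit 5) (nat_lit 8) (nat_lit 5) (nat_lit 7) (nat_lit 4) (nat_lit 243) (nat_lit 228) (nat_lit 129)) (XT.lf (nat_lit 0) (nat_lit 269202408607) (nat_lit 152) (nat_lit 34828779112) (nat_lit 76) (nat_lit 568622973635) (nat_lit 6) (nat_lit 5) (nat_lit 8) (nat_lit 5) (nat_lit 7) (nat_lit 4) (nat_lit 244) (nat_lit 228) (nat_lit 128))))) (XT.nd (nat_lit 312) (nat_lit 76) (nat_lit 0) (XT.nd (nat_lit 156) (nat_lit 76) (nat_lit 0) (XT.nd (nat_lit 78) (nat_lit 0) (nat_lit 0) (XT.lf (nat_lit 0) (nat_lit 275427048501) (nat_lit 76) (nat_lit 138080427906) (nat_lit 152) (nat_lit 561233453002) (nat_lit 5) (nat_lit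 5) (nat_lit 6) (nat_lit 5) (nat_lit 7) (nat_lit 4) (nat_lit 245) (nat_lit 228) (nat_lit 127)) (XT.lf (nat_lit 0) (nat_lit 583550355318) (nat_lit 152) (nat_lit 458003659901) (nat_lit 0) (nat_lit 49972890064) (nat_lit 5) (nat_lit 5) (nat_lit 7) (nat_lit 4) (nat_lit 5) (nat_lit 4) (nat_lit 246) (nat_lit 228) (nat_lit 126))) (XT.nd (nat_lit 78) (nat_lit 76) (nat_lit 0) (XT.lf (nat_lit 0) (nat_lit 785674889392) (nat_lit 152) (nat_lit 187072225542) (nat_lit 0) (nat_lit 252097379325) (nat_lit 5) (nat_lit 5) (nat_lit 7) (nat_lit 4) (nat_lit 5) (nat_lit 4) (nat_lit 247) (nat_lit 228) (nat_lit 125)) (XT.lf (nat_lit 0) (nat_lit 136665805725) (nat_lit 76) (nat_lit 887111306865) (nat_lit 76) (nat_lit 353533757830) (nat_lit 4) (nat_lit 4) (nat_lit 5) (nat_lit 5) (nat_lit 5) (nat_lit 4) (nat_lit 248) (nat_lit 228) (nat_lit 124)))) (XT.nd (nat_lit 156) (nat_lit 76) (nat_lit 0) (XT.nd (nat_lit 78)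 (nat_lit 0) (nat_lit 0) (XT.lf (nat_lit 0) (nat_lit 529988857945) (nat_lit 76) (nat_lit 777384558068) (nat_lit 76) (nat_lit 243806975147) (nat_lit 4) (nat_lit 4) (nat_lit 5) (nat_lit 5) (nat_lit 5) (nat_lit 4) (nat_lit 249) (nat_lit 228) (nat_lit 123)) (XT.lf (nat_lit 0) (nat_lit 982310323733) (nat_lit 76) (nat_lit 651198816276) (nat_lit 76) (nat_lit 117621203889) (nat_lit 4) (nat_lit 4) (nat_lit 5) (nat_lit 5) (nat_lit 5) (nat_lit 4) (nat_lit 250) (nat_lit 228) (nat_lit 122))) (XT.nd (nat_lit 78) (nat_lit 0) (nat_lit 0) (XT.lf (nat_lit 0) (nat_lit 25044843718) (nat_lit 152) (nat_lit 479731224015) (nat_lit 76) (nat_lit 1476125964894) (nat_lit 3) (nat_lit 5) (nat_lit 5) (nat_lit 5) (nat_lit 4) (nat_lit 4) (nat_lit 251) (nat_lit 228) (nat_lit 121)) (XT.lf (nat_lit 0) (nat_lit 177068607736) (nat_lit 152) (nat_lit 152880153657) (nat_lit 76) (nat_lit 1914350564889) (nat_lit 3) (nat_lit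 5) (nat_lit 5) (nat_lit 5) (nat_lit 4) (nat_lit 4) (nat_lit 252) (nat_lit 228) (nat_lit 120)))))) (XT.nd (nat_lit 624) (nat_lit 76) (nat_lit 0) (XT.nd (nat_lit 312) (nat_lit 0) (nat_lit 0) (XT.nd (nat_lit 156) (nat_lit 0) (nat_lit 0) (XT.nd (nat_lit 78) (nat_lit 0) (nat_lit 0) (XT.lf (nat_lit 0) (nat_lit 244791586139) (nat_lit 76) (nat_lit 117240630513) (nat_lit 152) (nat_lit 2183653555371) (nat_lit 2) (nat_lit 5) (nat_lit 3) (nat_lit 5) (nat_lit 4) (nat_lit 4) (nat_lit 253) (nat_lit 228) (nat_lit 119)) (XT.lf (nat_lit 0) (nat_lit 588386632658) (nat_lit 152) (nat_lit 2177440585179) (nat_lit 0) (nat_lit 124406026997) (nat_lit 2) (nat_lit 5) (nat_lit 4) (nat_lit 4) (nat_lit 2) (nat_lit 4) (nat_lit 254) (nat_lit 228) (nat_lit 118))) (XT.nd (nat_lit 78) (nat_lit 0) (nat_lit 0) (XT.lf (nat_lit 0) (nat_lit 854277083638) (nat_lit 152) (nat_lit 2041051858867) (nat_lit 0) (nat_lit 390296465238)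 (nat_lit 2) (nat_lit 5) (nat_lit 4) (nat_lit 4) (nat_lit 2) (nat_lit 4) (nat_lit 255) (nat_lit 228) (nat_lit 117)) (XT.lf (nat_lit 0) (nat_lit 1160051089575) (nat_lit 152) (nat_lit 1884204847375) (nat_lit 0) (nat_lit 696070460098) (nat_lit 2) (nat_lit 5) (nat_lit 4) (nat_lit 4) (nat_lit 2) (nat_lit 4) (nat_lit 256) (nat_lit 228) (nat_lit 116)))) (XT.nd (nat_lit 156) (nat_lit 0) (nat_lit 0) (XT.nd (nat_lit 78) (nat_lit 0) (nat_lit 0) (XT.lf (nat_lit 0) (nat_lit 1511691185368) (nat_lit 152) (nat_lit 1703830804824) (nat_lit 0) (nat_lit 1047710546258) (nat_lit 2) (nat_lit 5) (nat_lit 4) (nat_lit 4) (nat_lit 2) (nat_lit 4) (nat_lit 257) (nat_lit 228) (nat_lit 115)) (XT.lf (nat_lit 0) (nat_lit 1916077285934) (nat_lit 152) (nat_lit 1496400673862) (nat_lit 0) (nat_lit 1452096638447) (nat_lit 2) (nat_lit 5) (nat_lit 4) (nat_lit 4) (nat_lit 2) (nat_lit 4) (nat_lit 258) (nat_lit 228) (nat_lit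 114))) (XT.nd (nat_lit 78) (nat_lit 0) (nat_lit 0) (XT.lf (nat_lit 0) (nat_lit 2381121293240) (nat_lit 152) (nat_lit 1257856038882) (nat_lit 0) (nat_lit 1917140638470) (nat_lit 2) (nat_lit 5) (nat_lit 4) (nat_lit 4) (nat_lit 2) (nat_lit 4) (nat_lit 259) (nat_lit 228) (nat_lit 113)) (XT.lf (nat_lit 0) (nat_lit 2915921894387) (nat_lit 152) (nat_lit 983529722243) (nat_lit 0) (nat_lit 2451941233284) (nat_lit 2) (nat_lit 5) (nat_lit 4) (nat_lit 4) (nat_lit 2) (nat_lit 4) (nat_lit 260) (nat_lit 228) (nat_lit 112))))) (XT.nd (nat_lit 312) (nat_lit 0) (nat_lit 0) (XT.nd (nat_lit 156) (nat_lit 76) (nat_lit 0) (XT.nd (nat_lit 78) (nat_lit 0) (nat_lit 0) (XT.lf (nat_lit 0) (nat_lit 3530942579396) (nat_lit 152) (nat_lit 668054469924) (nat_lit 0) (nat_lit 3066961912786) (nat_lit 2) (nat_lit 5) (nat_lit 4) (nat_lit 4) (nat_lit 2) (nat_lit 4) (nat_lit 261) (nat_lit 228) (nat_lit 111)) (XT.lf (nat_lit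 0) (nat_lit 4238216361671) (nat_lit 152) (nat_lit 305257940032) (nat_lit 0) (nat_lit 3774235690271) (nat_lit 2) (nat_lit 5) (nat_lit 4) (nat_lit 4) (nat_lit 2) (nat_lit 4) (nat_lit 262) (nat_lit 228) (nat_lit 110))) (XT.nd (nat_lit 78) (nat_lit 0) (nat_lit 0) (XT.lf (nat_lit 0) (nat_lit 122899416311) (nat_lit 76) (nat_lit 4933770792949) (nat_lit 76) (nat_lit 4469790117385) (nat_lit 1) (nat_lit 4) (nat_lit 2) (nat_lit 5) (nat_lit 2) (nat_lit 4) (nat_lit 263) (nat_lit 228) (nat_lit 109)) (XT.lf (nat_lit 0) (nat_lit 649587197431) (nat_lit 76) (nat_lit 5364261597105) (nat_lit 76) (nat_lit 4900280917920) (nat_lit 1) (nat_lit 4) (nat_lit 2) (nat_lit 5) (nat_lit 2) (nat_lit 4) (nat_lit 264) (nat_lit 228) (nat_lit 108)))) (XT.nd (nat_lit 1092) (nat_lit 0) (nat_lit 0) (XT.nd (nat_lit 78) (nat_lit 0) (nat_lit 0) (XT.lf (nat_lit 0) (nat_lit 1255278138302) (nat_lit 76) (nat_lit 5859326025385)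 (nat_lit 76) (nat_lit 5395345343051) (nat_lit 1) (nat_lit 4) (nat_lit 2) (nat_lit 5) (nat_lit 2) (nat_lit 4) (nat_lit 265) (nat_lit 228) (nat_lit 107)) (XT.lf (nat_lit 0) (nat_lit 1951822713855) (nat_lit 76) (nat_lit 6428650120953) (nat_lit 76) (nat_lit 5964669435880) (nat_lit 1) (nat_lit 4) (nat_lit 2) (nat_lit 5) (nat_lit 2) (nat_lit 4) (nat_lit 266) (nat_lit 228) (nat_lit 106))) (XT.nd (nat_lit 78) (nat_lit 0) (nat_lit 0) (XT.lf (nat_lit 0) (nat_lit 29468610079420) (nat_lit 76) (nat_lit 28919630940987) (nat_lit 76) (nat_lit 28455650240628) (nat_lit 1) (nat_lit 4) (nat_lit 2) (nat_lit 5) (nat_lit 2) (nat_lit 4) (nat_lit 279) (nat_lit 228) (nat_lit 93)) (XT.lf (nat_lit 0) (nat_lit 34397154409226) (nat_lit 76) (nat_lit 32948000791325) (nat_lit 76) (nat_lit 32484020090579) (nat_lit 1) (nat_lit 4) (nat_lit 2) (nat_lit 5) (nat_lit 2) (nat_lit 4) (nat_lit 280) (nat_lit 228) (nat_lit 92)))))))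 (XT.nd (nat_lit 1170) (nat_lit 304) (nat_lit 0) (XT.nd (nat_lit 546) (nat_lit 380) (nat_lit 0) (XT.nd (nat_lit 234) (nat_lit 380) (nat_lit 0) (XT.nd (nat_lit 78) (nat_lit 0) (nat_lit 0) (XT.lf (nat_lit 0) (nat_lit 52812605089) (nat_lit 0) (nat_lit 52812605089) (nat_lit 228) (nat_lit 12597674851) (nat_lit 16) (nat_lit 5) (nat_lit 16) (nat_lit 3) (nat_lit 19) (nat_lit 3) (nat_lit 229) (nat_lit 229) (nat_lit 142)) (XT.nd (nat_lit 78) (nat_lit 0) (nat_lit 0) (XT.lf (nat_lit 0) (nat_lit 219997148407) (nat_lit 0) (nat_lit 7098011519) (nat_lit 228) (nat_lit 27083885900) (nat_lit 16) (nat_lit 5) (nat_lit 16) (nat_lit 3) (nat_lit 19) (nat_lit 3) (nat_lit 230) (nat_lit 229) (nat_lit 141)) (XT.lf (nat_lit 76) (nat_lit 79645151977) (nat_lit 0) (nat_lit 173367085145) (nat_lit 304) (nat_lit 20405734195) (nat_lit 17) (nat_lit 5) (nat_lit 16) (nat_lit 5) (nat_lit 20) (nat_lit 5) (nat_lit 231) (nat_lit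 229) (nat_lit 140)))) (XT.nd (nat_lit 156) (nat_lit 152) (nat_lit 0) (XT.nd (nat_lit 78) (nat_lit 228) (nat_lit 0) (XT.lf (nat_lit 76) (nat_lit 214016694048) (nat_lit 0) (nat_lit 70909449860) (nat_lit 304) (nat_lit 10300203578) (nat_lit 17) (nat_lit 5) (nat_lit 16) (nat_lit 5) (nat_lit 20) (nat_lit 5) (nat_lit 232) (nat_lit 229) (nat_lit 139)) (XT.lf (nat_lit 0) (nat_lit 5443168646) (nat_lit 304) (nat_lit 269126920651) (nat_lit 76) (nat_lit 45091741820) (nat_lit 13) (nat_lit 5) (nat_lit 17) (nat_lit 5) (nat_lit 14) (nat_lit 5) (nat_lit 233) (nat_lit 229) (nat_lit 138))) (XT.nd (nat_lit 78) (nat_lit 152) (nat_lit 0) (XT.lf (nat_lit 0) (nat_lit 30317213991) (nat_lit 304) (nat_lit 140027262445) (nat_lit 76) (nat_lit 176171032535) (nat_lit 13) (nat_lit 5) (nat_lit 17) (nat_lit 5) (nat_lit 14) (nat_lit 5) (nat_lit 234) (nat_lit 229) (nat_lit 137)) (XT.lf (nat_lit 0) (nat_lit 9261781296)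 (nat_lit 152) (nat_lit 50043987771) (nat_lit 228) (nat_lit 318033960174) (nat_lit 11) (nat_lit 5) (nat_lit 13) (nat_lit 5) (nat_lit 14) (nat_lit 5) (nat_lit 235) (nat_lit 229) (nat_lit 136))))) (XT.nd (nat_lit 312) (nat_lit 228) (nat_lit 0) (XT.nd (nat_lit 156) (nat_lit 152) (nat_lit 0) (XT.nd (nat_lit 78) (nat_lit 0) (nat_lit 0) (XT.lf (nat_lit 0) (nat_lit 103967048544) (nat_lit 228) (nat_lit 219013359039) (nat_lit 76) (nat_lit 88108509819) (nat_lit 11) (nat_lit 5) (nat_lit 14) (nat_lit 5) (nat_lit 12) (nat_lit 5) (nat_lit 236) (nat_lit 229) (nat_lit 135)) (XT.lf (nat_lit 0) (nat_lit 157710481453) (nat_lit 228) (nat_lit 49972234368) (nat_lit 76) (nat_lit 241860324630) (nat_lit 11) (nat_lit 5) (nat_lit 14) (nat_lit 5) (nat_lit 12) (nat_lit 5) (nat_lit 237) (nat_lit 229) (nat_lit 134))) (XT.nd (nat_lit 78) (nat_lit 0) (nat_lit 0) (XT.lf (nat_lit 0) (nat_lit 158539225394) (nat_lit 152)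 (nat_lit 67540900770) (nat_lit 228) (nat_lit 266700452035) (nat_lit 9) (nat_lit 5) (nat_lit 11) (nat_lit 5) (nat_lit 12) (nat_lit 5) (nat_lit 238) (nat_lit 229) (nat_lit 133)) (XT.lf (nat_lit 0) (nat_lit 311318418321) (nat_lit 228) (nat_lit 142169499609) (nat_lit 76) (nat_lit 88023849242) (nat_lit 9) (nat_lit 5) (nat_lit 12) (nat_lit 5) (nat_lit 10) (nat_lit 4) (nat_lit 239) (nat_lit 229) (nat_lit 132)))) (XT.nd (nat_lit 156) (nat_lit 152) (nat_lit 0) (XT.nd (nat_lit 78) (nat_lit 0) (nat_lit 0) (XT.lf (nat_lit 0) (nat_lit 82874910882) (nat_lit 76) (nat_lit 333115390034) (nat_lit 152) (nat_lit 180565157168) (nat_lit 8) (nat_lit 5) (nat_lit 9) (nat_lit 5) (nat_lit 10) (nat_lit 4) (nat_lit 240) (nat_lit 229) (nat_lit 131)) (XT.lf (nat_lit 0) (nat_lit 357653814921) (nat_lit 76) (nat_lit 186140682852) (nat_lit 152) (nat_lit 114946475585) (nat_lit 8) (nat_lit 5) (nat_lit 9) (nat_lit 5) (nat_lit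 10) (nat_lit 4) (nat_lit 241) (nat_lit 229) (nat_lit 130))) (XT.nd (nat_lit 78) (nat_lit 152) (nat_lit 0) (XT.lf (nat_lit 0) (nat_lit 673649484038) (nat_lit 76) (nat_lit 17119791770) (nat_lit 152) (nat_lit 39485047812) (nat_lit 8) (nat_lit 5) (nat_lit 9) (nat_lit 5) (nat_lit 10) (nat_lit 4) (nat_lit 242) (nat_lit 229) (nat_lit 129)) (XT.lf (nat_lit 0) (nat_lit 61117533549) (nat_lit 152) (nat_lit 574253432510) (nat_lit 76) (nat_lit 174125071202) (nat_lit 6) (nat_lit 5) (nat_lit 8) (nat_lit 5) (nat_lit 7) (nat_lit 4) (nat_lit 243) (nat_lit 229) (nat_lit 128)))))) (XT.nd (nat_lit 624) (nat_lit 152) (nat_lit 0) (XT.nd (nat_lit 312) (nat_lit 76) (nat_lit 0) (XT.nd (nat_lit 156) (nat_lit 76) (nat_lit 0) (XT.nd (nat_lit 78) (nat_lit 0) (nat_lit 0) (XT.lf (nat_lit 0) (nat_lit 176682960211) (nat_lit 152) (nat_lit 325787833343) (nat_lit 76) (nat_lit 397283932394) (nat_lit 6) (nat_lit 5) (nat_lit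 8) (nat_lit 5) (nat_lit 7) (nat_lit 4) (nat_lit 244) (nat_lit 229) (nat_lit 127)) (XT.lf (nat_lit 0) (nat_lit 309583164247) (nat_lit 152) (nat_lit 40052453930) (nat_lit 76) (nat_lit 653916605506) (nat_lit 6) (nat_lit 5) (nat_lit 8) (nat_lit 5) (nat_lit 7) (nat_lit 4) (nat_lit 245) (nat_lit 229) (nat_lit 126))) (XT.nd (nat_lit 78) (nat_lit 0) (nat_lit 0) (XT.lf (nat_lit 0) (nat_lit 316741718642) (nat_lit 76) (nat_lit 158792247516) (nat_lit 152) (nat_lit 645418045052) (nat_lit 5) (nat_lit 5) (nat_lit 6) (nat_lit 5) (nat_lit 7) (nat_lit 4) (nat_lit 246) (nat_lit 229) (nat_lit 125)) (XT.lf (nat_lit 0) (nat_lit 671083237674) (nat_lit 152) (nat_lit 526703634670) (nat_lit 0) (nat_lit 57469017315) (nat_lit 5) (nat_lit 5) (nat_lit 7) (nat_lit 4) (nat_lit 5) (nat_lit 4) (nat_lit 247) (nat_lit 229) (nat_lit 124)))) (XT.nd (nat_lit 156) (nat_lit 0) (nat_lit 0) (XT.nd (nat_lit 78) (nat_lit 76)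 (nat_lit 0) (XT.lf (nat_lit 0) (nat_lit 903526408938) (nat_lit 152) (nat_lit 215132560056) (nat_lit 0) (nat_lit 289912154693) (nat_lit 5) (nat_lit 5) (nat_lit 7) (nat_lit 4) (nat_lit 5) (nat_lit 4) (nat_lit 248) (nat_lit 229) (nat_lit 123)) (XT.lf (nat_lit 0) (nat_lit 157166153205) (nat_lit 76) (nat_lit 1020177794825) (nat_lit 76) (nat_lit 406563511114) (nat_lit 4) (nat_lit 4) (nat_lit 5) (nat_lit 5) (nat_lit 5) (nat_lit 4) (nat_lit 249) (nat_lit 229) (nat_lit 122))) (XT.nd (nat_lit 78) (nat_lit 0) (nat_lit 0) (XT.lf (nat_lit 0) (nat_lit 609487601090) (nat_lit 76) (nat_lit 893992060848) (nat_lit 76) (nat_lit 280377751515) (nat_lit 4) (nat_lit 4) (nat_lit 5) (nat_lit 5) (nat_lit 5) (nat_lit 4) (nat_lit 250) (nat_lit 229) (nat_lit 121)) (XT.lf (nat_lit 0) (nat_lit 1129657232687) (nat_lit 76) (nat_lit 748878481387) (nat_lit 76) (nat_lit 135264149773) (nat_lit 4) (nat_lit 4) (nat_lit 5)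 (nat_lit 5) (nat_lit 5) (nat_lit 4) (nat_lit 251) (nat_lit 229) (nat_lit 120))))) (XT.nd (nat_lit 312) (nat_lit 0) (nat_lit 0) (XT.nd (nat_lit 156) (nat_lit 76) (nat_lit 0) (XT.nd (nat_lit 78) (nat_lit 0) (nat_lit 0) (XT.lf (nat_lit 0) (nat_lit 28801756193) (nat_lit 152) (nat_lit 551690575172) (nat_lit 76) (nat_lit 1697544977379) (nat_lit 3) (nat_lit 5) (nat_lit 5) (nat_lit 5) (nat_lit 4) (nat_lit 4) (nat_lit 252) (nat_lit 229) (nat_lit 119)) (XT.lf (nat_lit 0) (nat_lit 203629060563) (nat_lit 152) (nat_lit 175811887622) (nat_lit 76) (nat_lit 2201503252014) (nat_lit 3) (nat_lit 5) (nat_lit 5) (nat_lit 5) (nat_lit 4) (nat_lit 4) (nat_lit 253) (nat_lit 229) (nat_lit 118))) (XT.nd (nat_lit 78) (nat_lit 0) (nat_lit 0) (XT.lf (nat_lit 0) (nat_lit 281510600003) (nat_lit 76) (nat_lit 134826601153) (nat_lit 152) (nat_lit 2511201413196) (nat_lit 2) (nat_lit 5) (nat_lit 3) (nat_lit 5) (nat_lit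 4) (nat_lit 4) (nat_lit 254) (nat_lit 229) (nat_lit 117)) (XT.lf (nat_lit 0) (nat_lit 676644764199) (nat_lit 152) (nat_lit 2504056417057) (nat_lit 0) (nat_lit 143067029222) (nat_lit 2) (nat_lit 5) (nat_lit 4) (nat_lit 4) (nat_lit 2) (nat_lit 4) (nat_lit 255) (nat_lit 229) (nat_lit 116)))) (XT.nd (nat_lit 156) (nat_lit 0) (nat_lit 0) (XT.nd (nat_lit 78) (nat_lit 0) (nat_lit 0) (XT.lf (nat_lit 0) (nat_lit 982418765003) (nat_lit 152) (nat_lit 2347209415176) (nat_lit 0) (nat_lit 448841020394) (nat_lit 2) (nat_lit 5) (nat_lit 4) (nat_lit 4) (nat_lit 2) (nat_lit 4) (nat_lit 256) (nat_lit 229) (nat_lit 115)) (XT.lf (nat_lit 0) (nat_lit 1334058856333) (nat_lit 152) (nat_lit 2166835380984) (nat_lit 0) (nat_lit 800481103348) (nat_lit 2) (nat_lit 5) (nat_lit 4) (nat_lit 4) (nat_lit 2) (nat_lit 4) (nat_lit 257) (nat_lit 229) (nat_lit 114))) (XT.nd (nat_lit 78) (nat_lit 0) (nat_lit 0) (XT.lf (nat_lit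 0) (nat_lit 1738444953018) (nat_lit 152) (nat_lit 1959405257290) (nat_lit 0) (nat_lit 1204867192749) (nat_lit 2) (nat_lit 5) (nat_lit 4) (nat_lit 4) (nat_lit 2) (nat_lit 4) (nat_lit 258) (nat_lit 229) (nat_lit 113)) (XT.lf (nat_lit 0) (nat_lit 2203488956949) (nat_lit 152) (nat_lit 1720860628630) (nat_lit 0) (nat_lit 1669911190347) (nat_lit 2) (nat_lit 5) (nat_lit 4) (nat_lit 4) (nat_lit 2) (nat_lit 4) (nat_lit 259) (nat_lit 229) (nat_lit 112))))))))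
noncomputable def xc54 : XT := (XT.nd (nat_lit 30654) (nat_lit 0) (nat_lit 0) (XT.nd (nat_lit 29406) (nat_lit 0) (nat_lit 228) (XT.nd (nat_lit 1482) (nat_lit 0) (nat_lit 0) (XT.nd (nat_lit 234) (nat_lit 76) (nat_lit 0) (XT.nd (nat_lit 78) (nat_lit 0) (nat_lit 0) (XT.lf (nat_lit 0) (nat_lit 2738289555161) (nat_lit 152) (nat_lit 1446534317487) (nat_lit 0) (nat_lit 2204711783052) (nat_lit 2) (nat_lit 5) (nat_lit 4) (nat_lit 4) (nat_lit 2) (nat_lit 4) (nat_lit 260) (nat_lit 229) (nat_lit 111)) (XT.nd (nat_lit 78) (nat_lit 0) (nat_lit 0) (XT.lf (nat_lit 0) (nat_lit 3353310237619) (nat_lit 152) (nat_lit 1131059069947) (nat_lit 0) (nat_lit 2819732460720) (nat_lit 2) (nat_lit 5) (nat_lit 4) (nat_lit 4) (nat_lit 2) (nat_lit 4) (nat_lit 261) (nat_lit 229) (nat_lit 110)) (XT.lf (nat_lit 0) (nat_lit 4060584017675) (nat_lit 152) (nat_lit 768262544211) (nat_lit 0) (nat_lit 3527006236612) (nat_lit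 2) (nat_lit 5) (nat_lit 4) (nat_lit 4) (nat_lit 2) (nat_lit 4) (nat_lit 262) (nat_lit 229) (nat_lit 109)))) (XT.nd (nat_lit 156) (nat_lit 0) (nat_lit 0) (XT.nd (nat_lit 78) (nat_lit 76) (nat_lit 0) (XT.lf (nat_lit 0) (nat_lit 4873948860590) (nat_lit 152) (nat_lit 351046547383) (nat_lit 0) (nat_lit 4340371075906) (nat_lit 2) (nat_lit 5) (nat_lit 4) (nat_lit 4) (nat_lit 2) (nat_lit 4) (nat_lit 263) (nat_lit 229) (nat_lit 108)) (XT.lf (nat_lit 0) (nat_lit 141334408610) (nat_lit 76) (nat_lit 5673836374189) (nat_lit 76) (nat_lit 5140258586356) (nat_lit 1) (nat_lit 4) (nat_lit 2) (nat_lit 5) (nat_lit 2) (nat_lit 4) (nat_lit 264) (nat_lit 229) (nat_lit 107))) (XT.nd (nat_lit 78) (nat_lit 0) (nat_lit 0) (XT.lf (nat_lit 0) (nat_lit 747025346481) (nat_lit 76) (nat_lit 6168900803886) (nat_lit 76) (nat_lit 5635323013315) (nat_lit 1) (nat_lit 4) (nat_lit 2) (nat_lit 5) (nat_lit 2) (nat_lit 4) (nat_lit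 265) (nat_lit 229) (nat_lit 106)) (XT.lf (nat_lit 0) (nat_lit 1443569919427) (nat_lit 76) (nat_lit 6738224900684) (nat_lit 76) (nat_lit 6204647107732) (nat_lit 1) (nat_lit 4) (nat_lit 2) (nat_lit 5) (nat_lit 2) (nat_lit 4) (nat_lit 266) (nat_lit 229) (nat_lit 105))))) (XT.nd (nat_lit 27612) (nat_lit 0) (nat_lit 912) (XT.nd (nat_lit 27456) (nat_lit 0) (nat_lit 1140) (XT.nd (nat_lit 78) (nat_lit 0) (nat_lit 0) (XT.lf (nat_lit 0) (nat_lit 28960357270430) (nat_lit 76) (nat_lit 29229205727595) (nat_lit 76) (nat_lit 28695627921349) (nat_lit 1) (nat_lit 4) (nat_lit 2) (nat_lit 5) (nat_lit 2) (nat_lit 4) (nat_lit 279) (nat_lit 229) (nat_lit 92)) (XT.lf (nat_lit 0) (nat_lit 33888901599867) (nat_lit 76) (nat_lit 33257575578106) (nat_lit 76) (nat_lit 32723997771524) (nat_lit 1) (nat_lit 4) (nat_lit 2) (nat_lit 5) (nat_lit 2) (nat_lit 4) (nat_lit 280) (nat_lit 229) (nat_lit 91))) (XT.nd (nat_lit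 78) (nat_lit 0) (nat_lit 0) (XT.lf (nat_lit 0) (nat_lit 60734955038) (nat_lit 0) (nat_lit 60734955038) (nat_lit 228) (nat_lit 14486257219) (nat_lit 16) (nat_lit 5) (nat_lit 16) (nat_lit 3) (nat_lit 19) (nat_lit 3) (nat_lit 230) (nat_lit 230) (nat_lit 140)) (XT.lf (nat_lit 0) (nat_lit 252997519251) (nat_lit 0) (nat_lit 8163511830) (nat_lit 228) (nat_lit 31144609898) (nat_lit 16) (nat_lit 5) (nat_lit 16) (nat_lit 3) (nat_lit 19) (nat_lit 3) (nat_lit 231) (nat_lit 230) (nat_lit 139)))) (XT.nd (nat_lit 156) (nat_lit 228) (nat_lit 0) (XT.nd (nat_lit 78) (nat_lit 0) (nat_lit 0) (XT.lf (nat_lit 76) (nat_lit 91592968446) (nat_lit 0) (nat_lit 199372507546) (nat_lit 304) (nat_lit 23464961270) (nat_lit 17) (nat_lit 5) (nat_lit 16) (nat_lit 5) (nat_lit 20) (nat_lit 5) (nat_lit 232) (nat_lit 230) (nat_lit 138)) (XT.lf (nat_lit 76) (nat_lit 246120105696) (nat_lit 0) (nat_lit 81546180061) (nat_lit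 304) (nat_lit 11843814067) (nat_lit 17) (nat_lit 5) (nat_lit 16) (nat_lit 5) (nat_lit 20) (nat_lit 5) (nat_lit 233) (nat_lit 230) (nat_lit 137))) (XT.nd (nat_lit 78) (nat_lit 0) (nat_lit 0) (XT.lf (nat_lit 0) (nat_lit 6260803425) (nat_lit 304) (nat_lit 309494763422) (nat_lit 76) (nat_lit 51855352354) (nat_lit 13) (nat_lit 5) (nat_lit 17) (nat_lit 5) (nat_lit 14) (nat_lit 5) (nat_lit 234) (nat_lit 230) (nat_lit 136)) (XT.lf (nat_lit 0) (nat_lit 34865804336) (nat_lit 304) (nat_lit 161030312397) (nat_lit 76) (nat_lit 202596556338) (nat_lit 13) (nat_lit 5) (nat_lit 17) (nat_lit 5) (nat_lit 14) (nat_lit 5) (nat_lit 235) (nat_lit 230) (nat_lit 135)))))) (XT.nd (nat_lit 624) (nat_lit 304) (nat_lit 0) (XT.nd (nat_lit 312) (nat_lit 76) (nat_lit 0) (XT.nd (nat_lit 156) (nat_lit 152) (nat_lit 0) (XT.nd (nat_lit 78) (nat_lit 0) (nat_lit 0) (XT.lf (nat_lit 0) (nat_lit 10652040659) (nat_lit 152)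 (nat_lit 57550511587) (nat_lit 228) (nat_lit 365737989134) (nat_lit 11) (nat_lit 5) (nat_lit 13) (nat_lit 5) (nat_lit 14) (nat_lit 5) (nat_lit 236) (nat_lit 230) (nat_lit 134)) (XT.lf (nat_lit 0) (nat_lit 119562906607) (nat_lit 228) (nat_lit 251864374776) (nat_lit 76) (nat_lit 101324845188) (nat_lit 11) (nat_lit 5) (nat_lit 14) (nat_lit 5) (nat_lit 12) (nat_lit 5) (nat_lit 237) (nat_lit 230) (nat_lit 133))) (XT.nd (nat_lit 78) (nat_lit 152) (nat_lit 0) (XT.lf (nat_lit 0) (nat_lit 181367750002) (nat_lit 228) (nat_lit 57467210290) (nat_lit 76) (nat_lit 278139424538) (nat_lit 11) (nat_lit 5) (nat_lit 14) (nat_lit 5) (nat_lit 12) (nat_lit 5) (nat_lit 238) (nat_lit 230) (nat_lit 132)) (XT.lf (nat_lit 0) (nat_lit 182320929382) (nat_lit 152) (nat_lit 77671855175) (nat_lit 228) (nat_lit 306704778159) (nat_lit 9) (nat_lit 5) (nat_lit 11) (nat_lit 5) (nat_lit 12) (nat_lit 5) (nat_lit 239) (nat_lit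 230) (nat_lit 131)))) (XT.nd (nat_lit 156) (nat_lit 0) (nat_lit 0) (XT.nd (nat_lit 78) (nat_lit 76) (nat_lit 0) (XT.lf (nat_lit 0) (nat_lit 358016743635) (nat_lit 228) (nat_lit 163494128977) (nat_lit 76) (nat_lit 101227569778) (nat_lit 9) (nat_lit 5) (nat_lit 12) (nat_lit 5) (nat_lit 10) (nat_lit 4) (nat_lit 240) (nat_lit 230) (nat_lit 130)) (XT.lf (nat_lit 0) (nat_lit 95306906926) (nat_lit 76) (nat_lit 383082459760) (nat_lit 152) (nat_lit 207649327256) (nat_lit 8) (nat_lit 5) (nat_lit 9) (nat_lit 5) (nat_lit 10) (nat_lit 4) (nat_lit 241) (nat_lit 230) (nat_lit 129))) (XT.nd (nat_lit 78) (nat_lit 0) (nat_lit 0) (XT.lf (nat_lit 0) (nat_lit 411302547517) (nat_lit 76) (nat_lit 214061577647) (nat_lit 152) (nat_lit 132187922151) (nat_lit 8) (nat_lit 5) (nat_lit 9) (nat_lit 5) (nat_lit 10) (nat_lit 4) (nat_lit 242) (nat_lit 230) (nat_lit 128)) (XT.lf (nat_lit 0) (nat_lit 774697480868) (nat_lit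 76) (nat_lit 19687579985) (nat_lit 152) (nat_lit 45407348660) (nat_lit 8) (nat_lit 5) (nat_lit 9) (nat_lit 5) (nat_lit 10) (nat_lit 4) (nat_lit 243) (nat_lit 230) (nat_lit 127))))) (XT.nd (nat_lit 312) (nat_lit 76) (nat_lit 0) (XT.nd (nat_lit 156) (nat_lit 76) (nat_lit 0) (XT.nd (nat_lit 78) (nat_lit 0) (nat_lit 0) (XT.lf (nat_lit 0) (nat_lit 70285557931) (nat_lit 152) (nat_lit 660390805337) (nat_lit 76) (nat_lit 200244017708) (nat_lit 6) (nat_lit 5) (nat_lit 8) (nat_lit 5) (nat_lit 7) (nat_lit 4) (nat_lit 244) (nat_lit 230) (nat_lit 126)) (XT.lf (nat_lit 0) (nat_lit 203185747155) (nat_lit 152) (nat_lit 374655450041) (nat_lit 76) (nat_lit 456876683840) (nat_lit 6) (nat_lit 5) (nat_lit 8) (nat_lit 5) (nat_lit 7) (nat_lit 4) (nat_lit 245) (nat_lit 230) (nat_lit 125))) (XT.nd (nat_lit 78) (nat_lit 76) (nat_lit 0) (XT.lf (nat_lit 0) (nat_lit 356020937069) (nat_lit 152) (nat_lit 46059836538)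 (nat_lit 76) (nat_lit 752004236843) (nat_lit 6) (nat_lit 5) (nat_lit 8) (nat_lit 5) (nat_lit 7) (nat_lit 4) (nat_lit 246) (nat_lit 230) (nat_lit 124)) (XT.lf (nat_lit 0) (nat_lit 364253439852) (nat_lit 76) (nat_lit 182610899710) (nat_lit 152) (nat_lit 742230429768) (nat_lit 5) (nat_lit 5) (nat_lit 6) (nat_lit 5) (nat_lit 7) (nat_lit 4) (nat_lit 247) (nat_lit 230) (nat_lit 123)))) (XT.nd (nat_lit 156) (nat_lit 76) (nat_lit 0) (XT.nd (nat_lit 78) (nat_lit 0) (nat_lit 0) (XT.lf (nat_lit 0) (nat_lit 771745972140) (nat_lit 152) (nat_lit 605708745682) (nat_lit 0) (nat_lit 66089516407) (nat_lit 5) (nat_lit 5) (nat_lit 7) (nat_lit 4) (nat_lit 5) (nat_lit 4) (nat_lit 248) (nat_lit 230) (nat_lit 122)) (XT.lf (nat_lit 0) (nat_lit 1039055586640) (nat_lit 152) (nat_lit 247402066509) (nat_lit 0) (nat_lit 333399105285) (nat_lit 5) (nat_lit 5) (nat_lit 7) (nat_lit 4) (nat_lit 5) (nat_lit 4) (nat_lit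 249) (nat_lit 230) (nat_lit 121))) (XT.nd (nat_lit 78) (nat_lit 0) (nat_lit 0) (XT.lf (nat_lit 0) (nat_lit 180741436580) (nat_lit 76) (nat_lit 1173204306718) (nat_lit 76) (nat_lit 467547803082) (nat_lit 4) (nat_lit 4) (nat_lit 5) (nat_lit 5) (nat_lit 5) (nat_lit 4) (nat_lit 250) (nat_lit 230) (nat_lit 120)) (XT.lf (nat_lit 0) (nat_lit 700911054640) (nat_lit 76) (nat_lit 1028090733166) (nat_lit 76) (nat_lit 322434210156) (nat_lit 4) (nat_lit 4) (nat_lit 5) (nat_lit 5) (nat_lit 5) (nat_lit 4) (nat_lit 251) (nat_lit 230) (nat_lit 119))))))) (XT.nd (nat_lit 1326) (nat_lit 0) (nat_lit 0) (XT.nd (nat_lit 546) (nat_lit 76) (nat_lit 0) (XT.nd (nat_lit 234) (nat_lit 76) (nat_lit 0) (XT.nd (nat_lit 78) (nat_lit 76) (nat_lit 0) (XT.lf (nat_lit 0) (nat_lit 1299106090100) (nat_lit 76) (nat_lit 861210134630) (nat_lit 76) (nat_lit 155553594773) (nat_lit 4) (nat_lit 4) (nat_lit 5) (nat_lit 5) (nat_lit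 5) (nat_lit 4) (nat_lit 252) (nat_lit 230) (nat_lit 118)) (XT.nd (nat_lit 78) (nat_lit 0) (nat_lit 0) (XT.lf (nat_lit 0) (nat_lit 33122160202) (nat_lit 152) (nat_lit 634443910071) (nat_lit 76) (nat_lit 1952176813022) (nat_lit 3) (nat_lit 5) (nat_lit 5) (nat_lit 5) (nat_lit 4) (nat_lit 4) (nat_lit 253) (nat_lit 230) (nat_lit 117)) (XT.lf (nat_lit 0) (nat_lit 234173541891) (nat_lit 152) (nat_lit 202183452178) (nat_lit 76) (nat_lit 2531728817239) (nat_lit 3) (nat_lit 5) (nat_lit 5) (nat_lit 5) (nat_lit 4) (nat_lit 4) (nat_lit 254) (nat_lit 230) (nat_lit 116)))) (XT.nd (nat_lit 156) (nat_lit 0) (nat_lit 0) (XT.nd (nat_lit 78) (nat_lit 0) (nat_lit 0) (XT.lf (nat_lit 0) (nat_lit 323737398656) (nat_lit 76) (nat_lit 155050497613) (nat_lit 152) (nat_lit 2887881492487) (nat_lit 2) (nat_lit 5) (nat_lit 3) (nat_lit 5) (nat_lit 4) (nat_lit 4) (nat_lit 255) (nat_lit 230) (nat_lit 115)) (XT.lf (nat_lit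 0) (nat_lit 778141582150) (nat_lit 152) (nat_lit 2879664686118) (nat_lit 0) (nat_lit 164527157841) (nat_lit 2) (nat_lit 5) (nat_lit 4) (nat_lit 4) (nat_lit 2) (nat_lit 4) (nat_lit 256) (nat_lit 230) (nat_lit 114))) (XT.nd (nat_lit 78) (nat_lit 0) (nat_lit 0) (XT.lf (nat_lit 0) (nat_lit 1129781669598) (nat_lit 152) (nat_lit 2699290659195) (nat_lit 0) (nat_lit 516167238006) (nat_lit 2) (nat_lit 5) (nat_lit 4) (nat_lit 4) (nat_lit 2) (nat_lit 4) (nat_lit 257) (nat_lit 230) (nat_lit 113)) (XT.lf (nat_lit 0) (nat_lit 1534167762908) (nat_lit 152) (nat_lit 2491860541820) (nat_lit 0) (nat_lit 920553324982) (nat_lit 2) (nat_lit 5) (nat_lit 4) (nat_lit 4) (nat_lit 2) (nat_lit 4) (nat_lit 258) (nat_lit 230) (nat_lit 112))))) (XT.nd (nat_lit 312) (nat_lit 76) (nat_lit 0) (XT.nd (nat_lit 156) (nat_lit 0) (nat_lit 0) (XT.nd (nat_lit 78) (nat_lit 0) (nat_lit 0) (XT.lf (nat_lit 0) (nat_lit 1999211763906)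 (nat_lit 152) (nat_lit 2253315918656) (nat_lit 0) (nat_lit 1385597320472) (nat_lit 2) (nat_lit 5) (nat_lit 4) (nat_lit 4) (nat_lit 2) (nat_lit 4) (nat_lit 259) (nat_lit 230) (nat_lit 111)) (XT.lf (nat_lit 0) (nat_lit 2534012359566) (nat_lit 152) (nat_lit 1978989612292) (nat_lit 0) (nat_lit 1920397911344) (nat_lit 2) (nat_lit 5) (nat_lit 4) (nat_lit 4) (nat_lit 2) (nat_lit 4) (nat_lit 260) (nat_lit 230) (nat_lit 110))) (XT.nd (nat_lit 78) (nat_lit 0) (nat_lit 0) (XT.lf (nat_lit 0) (nat_lit 3149033039805) (nat_lit 152) (nat_lit 1663514368908) (nat_lit 0) (nat_lit 2535418587418) (nat_lit 2) (nat_lit 5) (nat_lit 4) (nat_lit 4) (nat_lit 2) (nat_lit 4) (nat_lit 261) (nat_lit 230) (nat_lit 109)) (XT.lf (nat_lit 0) (nat_lit 3856306817930) (nat_lit 152) (nat_lit 1300717846785) (nat_lit 0) (nat_lit 3242692361923) (nat_lit 2) (nat_lit 5) (nat_lit 4) (nat_lit 4) (nat_lit 2) (nat_lit 4) (nat_lit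 262) (nat_lit 230) (nat_lit 108)))) (XT.nd (nat_lit 156) (nat_lit 76) (nat_lit 0) (XT.nd (nat_lit 78) (nat_lit 0) (nat_lit 0) (XT.lf (nat_lit 0) (nat_lit 4669671659168) (nat_lit 152) (nat_lit 883501853100) (nat_lit 0) (nat_lit 4056057200011) (nat_lit 2) (nat_lit 5) (nat_lit 4) (nat_lit 4) (nat_lit 2) (nat_lit 4) (nat_lit 263) (nat_lit 230) (nat_lit 107)) (XT.lf (nat_lit 0) (nat_lit 5605041223454) (nat_lit 152) (nat_lit 403703466236) (nat_lit 0) (nat_lit 4991426761559) (nat_lit 2) (nat_lit 5) (nat_lit 4) (nat_lit 4) (nat_lit 2) (nat_lit 4) (nat_lit 264) (nat_lit 230) (nat_lit 106))) (XT.nd (nat_lit 78) (nat_lit 0) (nat_lit 0) (XT.lf (nat_lit 0) (nat_lit 162534630280) (nat_lit 76) (nat_lit 6524911801809) (nat_lit 76) (nat_lit 5911297337533) (nat_lit 1) (nat_lit 4) (nat_lit 2) (nat_lit 5) (nat_lit 2) (nat_lit 4) (nat_lit 265) (nat_lit 230) (nat_lit 105)) (XT.lf (nat_lit 0) (nat_lit 859079200957)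 (nat_lit 76) (nat_lit 7094235899678) (nat_lit 76) (nat_lit 6480621433332) (nat_lit 1) (nat_lit 4) (nat_lit 2) (nat_lit 5) (nat_lit 2) (nat_lit 4) (nat_lit 266) (nat_lit 230) (nat_lit 104)))))) (XT.nd (nat_lit 28704) (nat_lit 0) (nat_lit 532) (XT.nd (nat_lit 28392) (nat_lit 0) (nat_lit 912) (XT.nd (nat_lit 156) (nat_lit 0) (nat_lit 0) (XT.nd (nat_lit 78) (nat_lit 0) (nat_lit 0) (XT.lf (nat_lit 0) (nat_lit 3640642850028) (nat_lit 76) (nat_lit 9367760531217) (nat_lit 76) (nat_lit 8754146060144) (nat_lit 1) (nat_lit 4) (nat_lit 2) (nat_lit 5) (nat_lit 2) (nat_lit 4) (nat_lit 269) (nat_lit 230) (nat_lit 101)) (XT.lf (nat_lit 0) (nat_lit 4858903639746) (nat_lit 76) (nat_lit 10363511945071) (nat_lit 76) (nat_lit 9749897472814) (nat_lit 1) (nat_lit 4) (nat_lit 2) (nat_lit 5) (nat_lit 2) (nat_lit 4) (nat_lit 270) (nat_lit 230) (nat_lit 100))) (XT.nd (nat_lit 28158) (nat_lit 0) (nat_lit 1140)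 (XT.lf (nat_lit 0) (nat_lit 6259903545497) (nat_lit 76) (nat_lit 11508626072148) (nat_lit 76) (nat_lit 10895011598861) (nat_lit 1) (nat_lit 4) (nat_lit 2) (nat_lit 5) (nat_lit 2) (nat_lit 4) (nat_lit 271) (nat_lit 230) (nat_lit 99)) (XT.lf (nat_lit 0) (nat_lit 69845545504) (nat_lit 0) (nat_lit 69845545504) (nat_lit 228) (nat_lit 16658387591) (nat_lit 16) (nat_lit 5) (nat_lit 16) (nat_lit 3) (nat_lit 19) (nat_lit 3) (nat_lit 231) (nat_lit 231) (nat_lit 138)))) (XT.nd (nat_lit 156) (nat_lit 228) (nat_lit 0) (XT.nd (nat_lit 78) (nat_lit 0) (nat_lit 0) (XT.lf (nat_lit 0) (nat_lit 290947750982) (nat_lit 0) (nat_lit 9388642448) (nat_lit 228) (nat_lit 35814895798) (nat_lit 16) (nat_lit 5) (nat_lit 16) (nat_lit 3) (nat_lit 19) (nat_lit 3) (nat_lit 232) (nat_lit 231) (nat_lit 137)) (XT.lf (nat_lit 76) (nat_lit 105332702878) (nat_lit 0) (nat_lit 229278655611) (nat_lit 304) (nat_lit 26983470637)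 (nat_lit 17) (nat_lit 5) (nat_lit 16) (nat_lit 5) (nat_lit 20) (nat_lit 5) (nat_lit 233) (nat_lit 231) (nat_lit 136))) (XT.nd (nat_lit 78) (nat_lit 228) (nat_lit 0) (XT.lf (nat_lit 76) (nat_lit 283038807782) (nat_lit 0) (nat_lit 93778343533) (nat_lit 304) (nat_lit 13619312418) (nat_lit 17) (nat_lit 5) (nat_lit 16) (nat_lit 5) (nat_lit 20) (nat_lit 5) (nat_lit 234) (nat_lit 231) (nat_lit 135)) (XT.lf (nat_lit 0) (nat_lit 7200800675) (nat_lit 304) (nat_lit 355918074096) (nat_lit 76) (nat_lit 59633541226) (nat_lit 13) (nat_lit 5) (nat_lit 17) (nat_lit 5) (nat_lit 14) (nat_lit 5) (nat_lit 235) (nat_lit 231) (nat_lit 134))))) (XT.nd (nat_lit 312) (nat_lit 228) (nat_lit 0) (XT.nd (nat_lit 156) (nat_lit 0) (nat_lit 0) (XT.nd (nat_lit 78) (nat_lit 152) (nat_lit 0) (XT.lf (nat_lit 0) (nat_lit 40096437365) (nat_lit 304) (nat_lit 185184073309) (nat_lit 76) (nat_lit 232985940675) (nat_lit 13)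 (nat_lit 5) (nat_lit 17) (nat_lit 5) (nat_lit 14) (nat_lit 5) (nat_lit 236) (nat_lit 231) (nat_lit 133)) (XT.lf (nat_lit 0) (nat_lit 12250596980) (nat_lit 152) (nat_lit 66183032106) (nat_lit 228) (nat_lit 420597882162) (nat_lit 11) (nat_lit 5) (nat_lit 13) (nat_lit 5) (nat_lit 14) (nat_lit 5) (nat_lit 237) (nat_lit 231) (nat_lit 132))) (XT.nd (nat_lit 78) (nat_lit 0) (nat_lit 0) (XT.lf (nat_lit 0) (nat_lit 137497948103) (nat_lit 228) (nat_lit 289643283833) (nat_lit 76) (nat_lit 116523616500) (nat_lit 11) (nat_lit 5) (nat_lit 14) (nat_lit 5) (nat_lit 12) (nat_lit 5) (nat_lit 238) (nat_lit 231) (nat_lit 131)) (XT.lf (nat_lit 0) (nat_lit 208573439028) (nat_lit 228) (nat_lit 66086642129) (nat_lit 76) (nat_lit 319860376944) (nat_lit 11) (nat_lit 5) (nat_lit 14) (nat_lit 5) (nat_lit 12) (nat_lit 5) (nat_lit 239) (nat_lit 231) (nat_lit 130)))) (XT.nd (nat_lit 156) (nat_lit 76) (nat_lit 0)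 (XT.nd (nat_lit 78) (nat_lit 0) (nat_lit 0) (XT.lf (nat_lit 0) (nat_lit 209669688961) (nat_lit 152) (nat_lit 89322496808) (nat_lit 228) (nat_lit 352709934064) (nat_lit 9) (nat_lit 5) (nat_lit 11) (nat_lit 5) (nat_lit 12) (nat_lit 5) (nat_lit 240) (nat_lit 231) (nat_lit 129)) (XT.lf (nat_lit 0) (nat_lit 411719680560) (nat_lit 228) (nat_lit 188017646755) (nat_lit 76) (nat_lit 116411813487) (nat_lit 9) (nat_lit 5) (nat_lit 12) (nat_lit 5) (nat_lit 10) (nat_lit 4) (nat_lit 241) (nat_lit 231) (nat_lit 128))) (XT.nd (nat_lit 78) (nat_lit 0) (nat_lit 0) (XT.lf (nat_lit 0) (nat_lit 109603517189) (nat_lit 76) (nat_lit 440544648173) (nat_lit 152) (nat_lit 238796270021) (nat_lit 8) (nat_lit 5) (nat_lit 9) (nat_lit 5) (nat_lit 10) (nat_lit 4) (nat_lit 242) (nat_lit 231) (nat_lit 127)) (XT.lf (nat_lit 0) (nat_lit 472998428970) (nat_lit 76) (nat_lit 246170657293) (nat_lit 152) (nat_lit 152015713671)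 (nat_lit 8) (nat_lit 5) (nat_lit 9) (nat_lit 5) (nat_lit 10) (nat_lit 4) (nat_lit 243) (nat_lit 231) (nat_lit 126))))))))
noncomputable def xc55 : XT := (XT.nd (nat_lit 30576) (nat_lit 0) (nat_lit 76) (XT.nd (nat_lit 1170) (nat_lit 76) (nat_lit 0) (XT.nd (nat_lit 546) (nat_lit 228) (nat_lit 0) (XT.nd (nat_lit 234) (nat_lit 76) (nat_lit 0) (XT.nd (nat_lit 78) (nat_lit 152) (nat_lit 0) (XT.lf (nat_lit 0) (nat_lit 890902537194) (nat_lit 76) (nat_lit 22640580460) (nat_lit 152) (nat_lit 52218105913) (nat_lit 8) (nat_lit 5) (nat_lit 9) (nat_lit 5) (nat_lit 10) (nat_lit 4) (nat_lit 244) (nat_lit 231) (nat_lit 125)) (XT.nd (nat_lit 78) (nat_lit 0) (nat_lit 0) (XT.lf (nat_lit 0) (nat_lit 80828689805) (nat_lit 152) (nat_lit 759448940656) (nat_lit 76) (nat_lit 230280760875) (nat_lit 6) (nat_lit 5) (nat_lit 8) (nat_lit 5) (nat_lit 7) (nat_lit 4) (nat_lit 245) (nat_lit 231) (nat_lit 124)) (XT.lf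 (nat_lit 0) (nat_lit 233663868519) (nat_lit 152) (nat_lit 430853345389) (nat_lit 76) (nat_lit 525408308600) (nat_lit 6) (nat_lit 5) (nat_lit 8) (nat_lit 5) (nat_lit 7) (nat_lit 4) (nat_lit 246) (nat_lit 231) (nat_lit 123)))) (XT.nd (nat_lit 156) (nat_lit 0) (nat_lit 0) (XT.nd (nat_lit 78) (nat_lit 76) (nat_lit 0) (XT.lf (nat_lit 0) (nat_lit 409424303100) (nat_lit 152) (nat_lit 52968444925) (nat_lit 76) (nat_lit 864804978616) (nat_lit 6) (nat_lit 5) (nat_lit 8) (nat_lit 5) (nat_lit 7) (nat_lit 4) (nat_lit 247) (nat_lit 231) (nat_lit 122)) (XT.lf (nat_lit 0) (nat_lit 418891806238) (nat_lit 76) (nat_lit 210002394830) (nat_lit 152) (nat_lit 853564750724) (nat_lit 5) (nat_lit 5) (nat_lit 6) (nat_lit 5) (nat_lit 7) (nat_lit 4) (nat_lit 248) (nat_lit 231) (nat_lit 121))) (XT.nd (nat_lit 78) (nat_lit 0) (nat_lit 0) (XT.lf (nat_lit 0) (nat_lit 887508056102) (nat_lit 152) (nat_lit 696564729224)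 (nat_lit 0) (nat_lit 76003054640) (nat_lit 5) (nat_lit 5) (nat_lit 7) (nat_lit 4) (nat_lit 5) (nat_lit 4) (nat_lit 249) (nat_lit 231) (nat_lit 120)) (XT.lf (nat_lit 0) (nat_lit 1194914088237) (nat_lit 152) (nat_lit 284512090998) (nat_lit 0) (nat_lit 383409067401) (nat_lit 5) (nat_lit 5) (nat_lit 7) (nat_lit 4) (nat_lit 5) (nat_lit 4) (nat_lit 250) (nat_lit 231) (nat_lit 119))))) (XT.nd (nat_lit 312) (nat_lit 76) (nat_lit 0) (XT.nd (nat_lit 156) (nat_lit 76) (nat_lit 0) (XT.nd (nat_lit 78) (nat_lit 0) (nat_lit 0) (XT.lf (nat_lit 0) (nat_lit 207852924578) (nat_lit 76) (nat_lit 1349184833761) (nat_lit 76) (nat_lit 537679796078) (nat_lit 4) (nat_lit 4) (nat_lit 5) (nat_lit 5) (nat_lit 5) (nat_lit 4) (nat_lit 251) (nat_lit 231) (nat_lit 118)) (XT.lf (nat_lit 0) (nat_lit 806047949801) (nat_lit 76) (nat_lit 1182304239693) (nat_lit 76) (nat_lit 370799187361) (nat_lit 4) (nat_lit 4) (nat_lit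 5) (nat_lit 5) (nat_lit 5) (nat_lit 4) (nat_lit 252) (nat_lit 231) (nat_lit 117))) (XT.nd (nat_lit 78) (nat_lit 76) (nat_lit 0) (XT.lf (nat_lit 0) (nat_lit 1493972209672) (nat_lit 76) (nat_lit 990391564870) (nat_lit 76) (nat_lit 178886499798) (nat_lit 4) (nat_lit 4) (nat_lit 5) (nat_lit 5) (nat_lit 5) (nat_lit 4) (nat_lit 253) (nat_lit 231) (nat_lit 116)) (XT.lf (nat_lit 0) (nat_lit 38090590531) (nat_lit 152) (nat_lit 729610306505) (nat_lit 76) (nat_lit 2245003402300) (nat_lit 3) (nat_lit 5) (nat_lit 5) (nat_lit 5) (nat_lit 4) (nat_lit 4) (nat_lit 254) (nat_lit 231) (nat_lit 115)))) (XT.nd (nat_lit 156) (nat_lit 0) (nat_lit 0) (XT.nd (nat_lit 78) (nat_lit 76) (nat_lit 0) (XT.lf (nat_lit 0) (nat_lit 269299665609) (nat_lit 152) (nat_lit 232510804720) (nat_lit 76) (nat_lit 2911488198368) (nat_lit 3) (nat_lit 5) (nat_lit 5) (nat_lit 5) (nat_lit 4) (nat_lit 4) (nat_lit 255) (nat_lit 231)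 (nat_lit 114)) (XT.lf (nat_lit 0) (nat_lit 372298166225) (nat_lit 76) (nat_lit 178308001394) (nat_lit 152) (nat_lit 3321063616029) (nat_lit 2) (nat_lit 5) (nat_lit 3) (nat_lit 5) (nat_lit 4) (nat_lit 4) (nat_lit 256) (nat_lit 231) (nat_lit 113))) (XT.nd (nat_lit 78) (nat_lit 0) (nat_lit 0) (XT.lf (nat_lit 0) (nat_lit 894862897598) (nat_lit 152) (nat_lit 3311614242725) (nat_lit 0) (nat_lit 189206287650) (nat_lit 2) (nat_lit 5) (nat_lit 4) (nat_lit 4) (nat_lit 2) (nat_lit 4) (nat_lit 257) (nat_lit 231) (nat_lit 112)) (XT.lf (nat_lit 0) (nat_lit 1299248987974) (nat_lit 152) (nat_lit 3104184130847) (nat_lit 0) (nat_lit 593592372518) (nat_lit 2) (nat_lit 5) (nat_lit 4) (nat_lit 4) (nat_lit 2) (nat_lit 4) (nat_lit 258) (nat_lit 231) (nat_lit 111)))))) (XT.nd (nat_lit 702) (nat_lit 0) (nat_lit 0) (XT.nd (nat_lit 312) (nat_lit 76) (nat_lit 0) (XT.nd (nat_lit 156) (nat_lit 0) (nat_lit 0) (XT.nd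 (nat_lit 78) (nat_lit 0) (nat_lit 0) (XT.lf (nat_lit 0) (nat_lit 1764292986419) (nat_lit 152) (nat_lit 2865639512461) (nat_lit 0) (nat_lit 1058636366174) (nat_lit 2) (nat_lit 5) (nat_lit 4) (nat_lit 4) (nat_lit 2) (nat_lit 4) (nat_lit 259) (nat_lit 231) (nat_lit 110)) (XT.lf (nat_lit 0) (nat_lit 2299093579860) (nat_lit 152) (nat_lit 2591313210253) (nat_lit 0) (nat_lit 1593436955451) (nat_lit 2) (nat_lit 5) (nat_lit 4) (nat_lit 4) (nat_lit 2) (nat_lit 4) (nat_lit 260) (nat_lit 231) (nat_lit 109))) (XT.nd (nat_lit 78) (nat_lit 0) (nat_lit 0) (XT.lf (nat_lit 0) (nat_lit 2914114258169) (nat_lit 152) (nat_lit 2275837970482) (nat_lit 0) (nat_lit 2208457630139) (nat_lit 2) (nat_lit 5) (nat_lit 4) (nat_lit 4) (nat_lit 2) (nat_lit 4) (nat_lit 261) (nat_lit 231) (nat_lit 108)) (XT.lf (nat_lit 0) (nat_lit 3621388034617) (nat_lit 152) (nat_lit 1913041451502) (nat_lit 0) (nat_lit 2915731403438)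 (nat_lit 2) (nat_lit 5) (nat_lit 4) (nat_lit 4) (nat_lit 2) (nat_lit 4) (nat_lit 262) (nat_lit 231) (nat_lit 107)))) (XT.nd (nat_lit 156) (nat_lit 76) (nat_lit 0) (XT.nd (nat_lit 78) (nat_lit 0) (nat_lit 0) (XT.lf (nat_lit 0) (nat_lit 4434752874396) (nat_lit 152) (nat_lit 1495825460549) (nat_lit 0) (nat_lit 3729096240479) (nat_lit 2) (nat_lit 5) (nat_lit 4) (nat_lit 4) (nat_lit 2) (nat_lit 4) (nat_lit 263) (nat_lit 231) (nat_lit 106)) (XT.lf (nat_lit 0) (nat_lit 5370122437414) (nat_lit 152) (nat_lit 1016027076061) (nat_lit 0) (nat_lit 4664465801115) (nat_lit 2) (nat_lit 5) (nat_lit 4) (nat_lit 4) (nat_lit 2) (nat_lit 4) (nat_lit 264) (nat_lit 231) (nat_lit 105))) (XT.nd (nat_lit 78) (nat_lit 76) (nat_lit 0) (XT.lf (nat_lit 0) (nat_lit 6445797432512) (nat_lit 152) (nat_lit 464258938342) (nat_lit 0) (nat_lit 5740140794143) (nat_lit 2) (nat_lit 5) (nat_lit 4) (nat_lit 4) (nat_lit 2) (nat_lit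 4) (nat_lit 265) (nat_lit 231) (nat_lit 104)) (XT.lf (nat_lit 0) (nat_lit 186914870478) (nat_lit 76) (nat_lit 7503648550523) (nat_lit 76) (nat_lit 6797991910354) (nat_lit 1) (nat_lit 4) (nat_lit 2) (nat_lit 5) (nat_lit 2) (nat_lit 4) (nat_lit 266) (nat_lit 231) (nat_lit 103))))) (XT.nd (nat_lit 312) (nat_lit 0) (nat_lit 0) (XT.nd (nat_lit 156) (nat_lit 0) (nat_lit 0) (XT.nd (nat_lit 78) (nat_lit 0) (nat_lit 0) (XT.lf (nat_lit 0) (nat_lit 1909121305467) (nat_lit 76) (nat_lit 8911302390065) (nat_lit 76) (nat_lit 8205645746969) (nat_lit 1) (nat_lit 4) (nat_lit 2) (nat_lit 5) (nat_lit 2) (nat_lit 4) (nat_lit 268) (nat_lit 231) (nat_lit 101)) (XT.lf (nat_lit 0) (nat_lit 2968478515045) (nat_lit 76) (nat_lit 9777173184188) (nat_lit 76) (nat_lit 9071516539909) (nat_lit 1) (nat_lit 4) (nat_lit 2) (nat_lit 5) (nat_lit 2) (nat_lit 4) (nat_lit 269) (nat_lit 231) (nat_lit 100))) (XT.nd (nat_lit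 78) (nat_lit 0) (nat_lit 0) (XT.lf (nat_lit 0) (nat_lit 4186739303636) (nat_lit 76) (nat_lit 10772924598575) (nat_lit 76) (nat_lit 10067267953266) (nat_lit 1) (nat_lit 4) (nat_lit 2) (nat_lit 5) (nat_lit 2) (nat_lit 4) (nat_lit 270) (nat_lit 231) (nat_lit 99)) (XT.lf (nat_lit 0) (nat_lit 5587739208406) (nat_lit 76) (nat_lit 11918038726114) (nat_lit 76) (nat_lit 11212382079910) (nat_lit 1) (nat_lit 4) (nat_lit 2) (nat_lit 5) (nat_lit 2) (nat_lit 4) (nat_lit 271) (nat_lit 231) (nat_lit 98)))) (XT.nd (nat_lit 28236) (nat_lit 0) (nat_lit 1140) (XT.nd (nat_lit 28158) (nat_lit 0) (nat_lit 1140) (XT.lf (nat_lit 0) (nat_lit 7198889097059) (nat_lit 76) (nat_lit 13234919973651) (nat_lit 76) (nat_lit 12529263326668) (nat_lit 1) (nat_lit 4) (nat_lit 2) (nat_lit 5) (nat_lit 2) (nat_lit 4) (nat_lit 272) (nat_lit 231) (nat_lit 97)) (XT.lf (nat_lit 0) (nat_lit 80322639870) (nat_lit 0) (nat_lit 80322639870)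 (nat_lit 228) (nat_lit 19156534605) (nat_lit 16) (nat_lit 5) (nat_lit 16) (nat_lit 3) (nat_lit 19) (nat_lit 3) (nat_lit 232) (nat_lit 232) (nat_lit 136))) (XT.nd (nat_lit 78) (nat_lit 0) (nat_lit 0) (XT.lf (nat_lit 0) (nat_lit 334590370222) (nat_lit 0) (nat_lit 10797395408) (nat_lit 228) (nat_lit 41186067343) (nat_lit 16) (nat_lit 5) (nat_lit 16) (nat_lit 3) (nat_lit 19) (nat_lit 3) (nat_lit 233) (nat_lit 232) (nat_lit 135)) (XT.lf (nat_lit 76) (nat_lit 121133205033) (nat_lit 0) (nat_lit 263670659572) (nat_lit 304) (nat_lit 31030057529) (nat_lit 17) (nat_lit 5) (nat_lit 16) (nat_lit 5) (nat_lit 20) (nat_lit 5) (nat_lit 234) (nat_lit 232) (nat_lit 134))))))) (XT.nd (nat_lit 1170) (nat_lit 228) (nat_lit 0) (XT.nd (nat_lit 546) (nat_lit 304) (nat_lit 0) (XT.nd (nat_lit 234) (nat_lit 304) (nat_lit 0) (XT.nd (nat_lit 78) (nat_lit 228) (nat_lit 0) (XT.lf (nat_lit 76) (nat_lit 325495147839)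 (nat_lit 0) (nat_lit 107845273863) (nat_lit 304) (nat_lit 15661397364) (nat_lit 17) (nat_lit 5) (nat_lit 16) (nat_lit 5) (nat_lit 20) (nat_lit 5) (nat_lit 235) (nat_lit 232) (nat_lit 133)) (XT.nd (nat_lit 78) (nat_lit 0) (nat_lit 0) (XT.lf (nat_lit 0) (nat_lit 8281583714) (nat_lit 304) (nat_lit 409305101778) (nat_lit 76) (nat_lit 68578486225) (nat_lit 13) (nat_lit 5) (nat_lit 17) (nat_lit 5) (nat_lit 14) (nat_lit 5) (nat_lit 236) (nat_lit 232) (nat_lit 132)) (XT.lf (nat_lit 0) (nat_lit 46111479438) (nat_lit 304) (nat_lit 212961090017) (nat_lit 76) (nat_lit 267933756833) (nat_lit 13) (nat_lit 5) (nat_lit 17) (nat_lit 5) (nat_lit 14) (nat_lit 5) (nat_lit 237) (nat_lit 232) (nat_lit 131)))) (XT.nd (nat_lit 156) (nat_lit 152) (nat_lit 0) (XT.nd (nat_lit 78) (nat_lit 0) (nat_lit 0) (XT.lf (nat_lit 0) (nat_lit 14088753803) (nat_lit 152) (nat_lit 76110444413) (nat_lit 228) (nat_lit 483686955531)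 (nat_lit 11) (nat_lit 5) (nat_lit 13) (nat_lit 5) (nat_lit 14) (nat_lit 5) (nat_lit 238) (nat_lit 232) (nat_lit 130)) (XT.lf (nat_lit 0) (nat_lit 158123098167) (nat_lit 228) (nat_lit 333089211448) (nat_lit 76) (nat_lit 134002192650) (nat_lit 11) (nat_lit 5) (nat_lit 14) (nat_lit 5) (nat_lit 12) (nat_lit 5) (nat_lit 239) (nat_lit 232) (nat_lit 129))) (XT.nd (nat_lit 78) (nat_lit 152) (nat_lit 0) (XT.lf (nat_lit 0) (nat_lit 239859853012) (nat_lit 228) (nat_lit 75999147179) (nat_lit 76) (nat_lit 367839462768) (nat_lit 11) (nat_lit 5) (nat_lit 14) (nat_lit 5) (nat_lit 12) (nat_lit 5) (nat_lit 240) (nat_lit 232) (nat_lit 128)) (XT.lf (nat_lit 0) (nat_lit 241120611245) (nat_lit 152) (nat_lit 102720768007) (nat_lit 228) (nat_lit 405616000115) (nat_lit 9) (nat_lit 5) (nat_lit 11) (nat_lit 5) (nat_lit 12) (nat_lit 5) (nat_lit 241) (nat_lit 232) (nat_lit 127))))) (XT.nd (nat_lit 312) (nat_lit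 228) (nat_lit 0) (XT.nd (nat_lit 156) (nat_lit 0) (nat_lit 0) (XT.nd (nat_lit 78) (nat_lit 76) (nat_lit 0) (XT.lf (nat_lit 0) (nat_lit 473477954293) (nat_lit 228) (nat_lit 216219838897) (nat_lit 76) (nat_lit 133873667357) (nat_lit 9) (nat_lit 5) (nat_lit 12) (nat_lit 5) (nat_lit 10) (nat_lit 4) (nat_lit 242) (nat_lit 232) (nat_lit 126)) (XT.lf (nat_lit 0) (nat_lit 126044478963) (nat_lit 76) (nat_lit 506626208877) (nat_lit 152) (nat_lit 274615365478) (nat_lit 8) (nat_lit 5) (nat_lit 9) (nat_lit 5) (nat_lit 10) (nat_lit 4) (nat_lit 243) (nat_lit 232) (nat_lit 125))) (XT.nd (nat_lit 78) (nat_lit 0) (nat_lit 0) (XT.lf (nat_lit 0) (nat_lit 543948570878) (nat_lit 76) (nat_lit 283096137172) (nat_lit 152) (nat_lit 174817770681) (nat_lit 8) (nat_lit 5) (nat_lit 9) (nat_lit 5) (nat_lit 10) (nat_lit 4) (nat_lit 244) (nat_lit 232) (nat_lit 124)) (XT.lf (nat_lit 0) (nat_lit 1024538246088) (nat_lit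 76) (nat_lit 26036564298) (nat_lit 152) (nat_lit 60050560896) (nat_lit 8) (nat_lit 5) (nat_lit 9) (nat_lit 5) (nat_lit 10) (nat_lit 4) (nat_lit 245) (nat_lit 232) (nat_lit 123)))) (XT.nd (nat_lit 156) (nat_lit 76) (nat_lit 0) (XT.nd (nat_lit 78) (nat_lit 0) (nat_lit 0) (XT.lf (nat_lit 0) (nat_lit 92953218746) (nat_lit 152) (nat_lit 873365914661) (nat_lit 76) (nat_lit 264822981253) (nat_lit 6) (nat_lit 5) (nat_lit 8) (nat_lit 5) (nat_lit 7) (nat_lit 4) (nat_lit 246) (nat_lit 232) (nat_lit 122)) (XT.lf (nat_lit 0) (nat_lit 268713644858) (nat_lit 152) (nat_lit 495481027986) (nat_lit 76) (nat_lit 604219647279) (nat_lit 6) (nat_lit 5) (nat_lit 8) (nat_lit 5) (nat_lit 7) (nat_lit 4) (nat_lit 247) (nat_lit 232) (nat_lit 121))) (XT.nd (nat_lit 78) (nat_lit 76) (nat_lit 0) (XT.lf (nat_lit 0) (nat_lit 470838119054) (nat_lit 152) (nat_lit 60913434088) (nat_lit 76) (nat_lit 994525805747) (nat_lit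 6) (nat_lit 5) (nat_lit 8) (nat_lit 5) (nat_lit 7) (nat_lit 4) (nat_lit 248) (nat_lit 232) (nat_lit 120)) (XT.lf (nat_lit 0) (nat_lit 481725842132) (nat_lit 76) (nat_lit 241502648317) (nat_lit 152) (nat_lit 981599279204) (nat_lit 5) (nat_lit 5) (nat_lit 6) (nat_lit 5) (nat_lit 7) (nat_lit 4) (nat_lit 249) (nat_lit 232) (nat_lit 119)))))) (XT.nd (nat_lit 624) (nat_lit 0) (nat_lit 0) (XT.nd (nat_lit 312) (nat_lit 152) (nat_lit 0) (XT.nd (nat_lit 156) (nat_lit 76) (nat_lit 0) (XT.nd (nat_lit 78) (nat_lit 0) (nat_lit 0) (XT.lf (nat_lit 0) (nat_lit 1020634406778) (nat_lit 152) (nat_lit 801049190359) (nat_lit 0) (nat_lit 87403596596) (nat_lit 5) (nat_lit 5) (nat_lit 7) (nat_lit 4) (nat_lit 5) (nat_lit 4) (nat_lit 250) (nat_lit 232) (nat_lit 118)) (XT.lf (nat_lit 0) (nat_lit 1374151325178) (nat_lit 152) (nat_lit 327188688779) (nat_lit 0) (nat_lit 440920500345) (nat_lit 5) (nat_lit 5) (nat_lit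 7) (nat_lit 4) (nat_lit 5) (nat_lit 4) (nat_lit 251) (nat_lit 232) (nat_lit 117))) (XT.nd (nat_lit 78) (nat_lit 0) (nat_lit 0) (XT.lf (nat_lit 0) (nat_lit 239031069321) (nat_lit 76) (nat_lit 1551562468871) (nat_lit 76) (nat_lit 618331631300) (nat_lit 4) (nat_lit 4) (nat_lit 5) (nat_lit 5) (nat_lit 5) (nat_lit 4) (nat_lit 252) (nat_lit 232) (nat_lit 116)) (XT.lf (nat_lit 0) (nat_lit 926955321451) (nat_lit 76) (nat_lit 1359649797426) (nat_lit 76) (nat_lit 426418948778) (nat_lit 4) (nat_lit 4) (nat_lit 5) (nat_lit 5) (nat_lit 5) (nat_lit 4) (nat_lit 253) (nat_lit 232) (nat_lit 115)))) (XT.nd (nat_lit 156) (nat_lit 76) (nat_lit 0) (XT.nd (nat_lit 78) (nat_lit 76) (nat_lit 0) (XT.lf (nat_lit 0) (nat_lit 1718068196931) (nat_lit 76) (nat_lit 1138950231582) (nat_lit 76) (nat_lit 205719373301) (nat_lit 4) (nat_lit 4) (nat_lit 5) (nat_lit 5) (nat_lit 5) (nat_lit 4) (nat_lit 254) (nat_lit 232)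 (nat_lit 114)) (XT.lf (nat_lit 0) (nat_lit 43804259488) (nat_lit 152) (nat_lit 839051708756) (nat_lit 76) (nat_lit 2581753963551) (nat_lit 3) (nat_lit 5) (nat_lit 5) (nat_lit 5) (nat_lit 4) (nat_lit 4) (nat_lit 255) (nat_lit 232) (nat_lit 113))) (XT.nd (nat_lit 78) (nat_lit 76) (nat_lit 0) (XT.lf (nat_lit 0) (nat_lit 309694685344) (nat_lit 152) (nat_lit 267387300450) (nat_lit 76) (nat_lit 3348211472390) (nat_lit 3) (nat_lit 5) (nat_lit 5) (nat_lit 5) (nat_lit 4) (nat_lit 4) (nat_lit 256) (nat_lit 232) (nat_lit 112)) (XT.lf (nat_lit 0) (nat_lit 428143010457) (nat_lit 76) (nat_lit 205054148022) (nat_lit 152) (nat_lit 3819223082569) (nat_lit 2) (nat_lit 5) (nat_lit 3) (nat_lit 5) (nat_lit 4) (nat_lit 4) (nat_lit 257) (nat_lit 232) (nat_lit 111))))) (XT.nd (nat_lit 312) (nat_lit 0) (nat_lit 0) (XT.nd (nat_lit 156) (nat_lit 0) (nat_lit 0) (XT.nd (nat_lit 78) (nat_lit 0) (nat_lit 0) (XT.lf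 (nat_lit 0) (nat_lit 1029092391312) (nat_lit 152) (nat_lit 3808356268501) (nat_lit 0) (nat_lit 217587273242) (nat_lit 2) (nat_lit 5) (nat_lit 4) (nat_lit 4) (nat_lit 2) (nat_lit 4) (nat_lit 258) (nat_lit 232) (nat_lit 110)) (XT.lf (nat_lit 0) (nat_lit 1494136387538) (nat_lit 152) (nat_lit 3569811654271) (nat_lit 0) (nat_lit 682631265304) (nat_lit 2) (nat_lit 5) (nat_lit 4) (nat_lit 4) (nat_lit 2) (nat_lit 4) (nat_lit 259) (nat_lit 232) (nat_lit 109))) (XT.nd (nat_lit 78) (nat_lit 0) (nat_lit 0) (XT.lf (nat_lit 0) (nat_lit 2028936979050) (nat_lit 152) (nat_lit 3295485355676) (nat_lit 0) (nat_lit 1217431853194) (nat_lit 2) (nat_lit 5) (nat_lit 4) (nat_lit 4) (nat_lit 2) (nat_lit 4) (nat_lit 260) (nat_lit 232) (nat_lit 108)) (XT.lf (nat_lit 0) (nat_lit 2643957655682) (nat_lit 152) (nat_lit 2980010119048) (nat_lit 0) (nat_lit 1832452526677) (nat_lit 2) (nat_lit 5) (nat_lit 4) (nat_lit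 4) (nat_lit 2) (nat_lit 4) (nat_lit 261) (nat_lit 232) (nat_lit 107)))) (XT.nd (nat_lit 156) (nat_lit 0) (nat_lit 0) (XT.nd (nat_lit 78) (nat_lit 0) (nat_lit 0) (XT.lf (nat_lit 0) (nat_lit 3351231430671) (nat_lit 152) (nat_lit 2617213602800) (nat_lit 0) (nat_lit 2539726298928) (nat_lit 2) (nat_lit 5) (nat_lit 4) (nat_lit 4) (nat_lit 2) (nat_lit 4) (nat_lit 262) (nat_lit 232) (nat_lit 106)) (XT.lf (nat_lit 0) (nat_lit 4164596269180) (nat_lit 152) (nat_lit 2199997614223) (nat_lit 0) (nat_lit 3353091135056) (nat_lit 2) (nat_lit 5) (nat_lit 4) (nat_lit 4) (nat_lit 2) (nat_lit 4) (nat_lit 263) (nat_lit 232) (nat_lit 105))) (XT.nd (nat_lit 78) (nat_lit 0) (nat_lit 0) (XT.lf (nat_lit 0) (nat_lit 5099965831095) (nat_lit 152) (nat_lit 1720199231801) (nat_lit 0) (nat_lit 4288460694900) (nat_lit 2) (nat_lit 5) (nat_lit 4) (nat_lit 4) (nat_lit 2) (nat_lit 4) (nat_lit 264) (nat_lit 232) (nat_lit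 104)) (XT.lf (nat_lit 0) (nat_lit 6175640825234) (nat_lit 152) (nat_lit 1168431095879) (nat_lit 0) (nat_lit 5364135687239) (nat_lit 2) (nat_lit 5) (nat_lit 4) (nat_lit 4) (nat_lit 2) (nat_lit 4) (nat_lit 265) (nat_lit 232) (nat_lit 103))))))))
noncomputable def xc56 : XT := (XT.nd (nat_lit 30498) (nat_lit 0) (nat_lit 0) (XT.nd (nat_lit 29328) (nat_lit 0) (nat_lit 152) (XT.nd (nat_lit 28704) (nat_lit 0) (nat_lit 760) (XT.nd (nat_lit 234) (nat_lit 0) (nat_lit 0) (XT.nd (nat_lit 78) (nat_lit 0) (nat_lit 0) (XT.lf (nat_lit 0) (nat_lit 214952135572) (nat_lit 76) (nat_lit 8629195816802) (nat_lit 76) (nat_lit 7817690675880) (nat_lit 1) (nat_lit 4) (nat_lit 2) (nat_lit 5) (nat_lit 2) (nat_lit 4) (nat_lit 267) (nat_lit 232) (nat_lit 101)) (XT.nd (nat_lit 78) (nat_lit 0) (nat_lit 0) (XT.lf (nat_lit 0) (nat_lit 1136132318941) (nat_lit 76) (nat_lit 9382126941594) (nat_lit 76) (nat_lit 8570621799489)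 (nat_lit 1) (nat_lit 4) (nat_lit 2) (nat_lit 5) (nat_lit 2) (nat_lit 4) (nat_lit 268) (nat_lit 232) (nat_lit 100)) (XT.lf (nat_lit 0) (nat_lit 2195489527391) (nat_lit 76) (nat_lit 10247997736250) (nat_lit 76) (nat_lit 9436492593115) (nat_lit 1) (nat_lit 4) (nat_lit 2) (nat_lit 5) (nat_lit 2) (nat_lit 4) (nat_lit 269) (nat_lit 232) (nat_lit 99)))) (XT.nd (nat_lit 156) (nat_lit 0) (nat_lit 0) (XT.nd (nat_lit 78) (nat_lit 0) (nat_lit 0) (XT.lf (nat_lit 0) (nat_lit 3413750315001) (nat_lit 76) (nat_lit 11243749151099) (nat_lit 76) (nat_lit 10432244007069) (nat_lit 1) (nat_lit 4) (nat_lit 2) (nat_lit 5) (nat_lit 2) (nat_lit 4) (nat_lit 270) (nat_lit 232) (nat_lit 98)) (XT.lf (nat_lit 0) (nat_lit 4814750218919) (nat_lit 76) (nat_lit 12388863279041) (nat_lit 76) (nat_lit 11577358134233) (nat_lit 1) (nat_lit 4) (nat_lit 2) (nat_lit 5) (nat_lit 2) (nat_lit 4) (nat_lit 271) (nat_lit 232) (nat_lit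 97))) (XT.nd (nat_lit 28236) (nat_lit 0) (nat_lit 1140) (XT.lf (nat_lit 0) (nat_lit 6425900106831) (nat_lit 76) (nat_lit 13705744526928) (nat_lit 76) (nat_lit 12894239381443) (nat_lit 1) (nat_lit 4) (nat_lit 2) (nat_lit 5) (nat_lit 2) (nat_lit 4) (nat_lit 272) (nat_lit 232) (nat_lit 96)) (XT.lf (nat_lit 0) (nat_lit 92371234369) (nat_lit 0) (nat_lit 92371234369) (nat_lit 228) (nat_lit 22029552699) (nat_lit 16) (nat_lit 5) (nat_lit 16) (nat_lit 3) (nat_lit 19) (nat_lit 3) (nat_lit 233) (nat_lit 233) (nat_lit 134))))) (XT.nd (nat_lit 312) (nat_lit 152) (nat_lit 0) (XT.nd (nat_lit 156) (nat_lit 228) (nat_lit 0) (XT.nd (nat_lit 78) (nat_lit 0) (nat_lit 0) (XT.lf (nat_lit 0) (nat_lit 384779271005) (nat_lit 0) (nat_lit 12417349969) (nat_lit 228) (nat_lit 47363173797) (nat_lit 16) (nat_lit 5) (nat_lit 16) (nat_lit 3) (nat_lit 19) (nat_lit 3) (nat_lit 234) (nat_lit 233) (nat_lit 133)) (XT.lf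 (nat_lit 76) (nat_lit 139303636997) (nat_lit 0) (nat_lit 303221413986) (nat_lit 304) (nat_lit 35683860144) (nat_lit 17) (nat_lit 5) (nat_lit 16) (nat_lit 5) (nat_lit 20) (nat_lit 5) (nat_lit 235) (nat_lit 233) (nat_lit 132))) (XT.nd (nat_lit 78) (nat_lit 228) (nat_lit 0) (XT.lf (nat_lit 76) (nat_lit 374319812370) (nat_lit 0) (nat_lit 124022200140) (nat_lit 304) (nat_lit 18009993044) (nat_lit 17) (nat_lit 5) (nat_lit 16) (nat_lit 5) (nat_lit 20) (nat_lit 5) (nat_lit 236) (nat_lit 233) (nat_lit 131)) (XT.lf (nat_lit 0) (nat_lit 9524322547) (nat_lit 304) (nat_lit 470700350272) (nat_lit 76) (nat_lit 78865193989) (nat_lit 13) (nat_lit 5) (nat_lit 17) (nat_lit 5) (nat_lit 14) (nat_lit 5) (nat_lit 237) (nat_lit 233) (nat_lit 130)))) (XT.nd (nat_lit 156) (nat_lit 0) (nat_lit 0) (XT.nd (nat_lit 78) (nat_lit 152) (nat_lit 0) (XT.lf (nat_lit 0) (nat_lit 53028637246) (nat_lit 304) (nat_lit 244904804152)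 (nat_lit 76) (nat_lit 308123763689) (nat_lit 13) (nat_lit 5) (nat_lit 17) (nat_lit 5) (nat_lit 14) (nat_lit 5) (nat_lit 238) (nat_lit 233) (nat_lit 129)) (XT.lf (nat_lit 0) (nat_lit 16202495816) (nat_lit 152) (nat_lit 87526978931) (nat_lit 228) (nat_lit 556239538403) (nat_lit 11) (nat_lit 5) (nat_lit 13) (nat_lit 5) (nat_lit 14) (nat_lit 5) (nat_lit 239) (nat_lit 233) (nat_lit 128))) (XT.nd (nat_lit 78) (nat_lit 0) (nat_lit 0) (XT.lf (nat_lit 0) (nat_lit 181841909092) (nat_lit 228) (nat_lit 383052165974) (nat_lit 76) (nat_lit 154102547010) (nat_lit 11) (nat_lit 5) (nat_lit 14) (nat_lit 5) (nat_lit 12) (nat_lit 5) (nat_lit 240) (nat_lit 233) (nat_lit 127)) (XT.lf (nat_lit 0) (nat_lit 275839132007) (nat_lit 228) (nat_lit 87398647785) (nat_lit 76) (nat_lit 423015404324) (nat_lit 11) (nat_lit 5) (nat_lit 14) (nat_lit 5) (nat_lit 12) (nat_lit 5) (nat_lit 241) (nat_lit 233) (nat_lit 126))))))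 (XT.nd (nat_lit 546) (nat_lit 228) (nat_lit 0) (XT.nd (nat_lit 234) (nat_lit 152) (nat_lit 0) (XT.nd (nat_lit 78) (nat_lit 76) (nat_lit 0) (XT.lf (nat_lit 0) (nat_lit 277289057517) (nat_lit 152) (nat_lit 118128805082) (nat_lit 228) (nat_lit 466458079483) (nat_lit 9) (nat_lit 5) (nat_lit 11) (nat_lit 5) (nat_lit 12) (nat_lit 5) (nat_lit 242) (nat_lit 233) (nat_lit 125)) (XT.nd (nat_lit 78) (nat_lit 76) (nat_lit 0) (XT.lf (nat_lit 0) (nat_lit 544499890649) (nat_lit 228) (nat_lit 248652470783) (nat_lit 76) (nat_lit 153954779348) (nat_lit 9) (nat_lit 5) (nat_lit 12) (nat_lit 5) (nat_lit 10) (nat_lit 4) (nat_lit 243) (nat_lit 233) (nat_lit 124)) (XT.lf (nat_lit 0) (nat_lit 144951479122) (nat_lit 76) (nat_lit 582620036978) (nat_lit 152) (nat_lit 315807409396) (nat_lit 8) (nat_lit 5) (nat_lit 9) (nat_lit 5) (nat_lit 10) (nat_lit 4) (nat_lit 244) (nat_lit 233) (nat_lit 123)))) (XT.nd (nat_lit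 156) (nat_lit 152) (nat_lit 0) (XT.nd (nat_lit 78) (nat_lit 0) (nat_lit 0) (XT.lf (nat_lit 0) (nat_lit 625541142000) (nat_lit 76) (nat_lit 325560467982) (nat_lit 152) (nat_lit 201040209410) (nat_lit 8) (nat_lit 5) (nat_lit 9) (nat_lit 5) (nat_lit 10) (nat_lit 4) (nat_lit 245) (nat_lit 233) (nat_lit 122)) (XT.lf (nat_lit 0) (nat_lit 1178219231254) (nat_lit 76) (nat_lit 29941970886) (nat_lit 152) (nat_lit 69057947750) (nat_lit 8) (nat_lit 5) (nat_lit 9) (nat_lit 5) (nat_lit 10) (nat_lit 4) (nat_lit 246) (nat_lit 233) (nat_lit 121))) (XT.nd (nat_lit 78) (nat_lit 0) (nat_lit 0) (XT.lf (nat_lit 0) (nat_lit 106896372047) (nat_lit 152) (nat_lit 1004370524284) (nat_lit 76) (nat_lit 304546508779) (nat_lit 6) (nat_lit 5) (nat_lit 8) (nat_lit 5) (nat_lit 7) (nat_lit 4) (nat_lit 247) (nat_lit 233) (nat_lit 120)) (XT.lf (nat_lit 0) (nat_lit 309020839838) (nat_lit 152) (nat_lit 569802940813) (nat_lit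 76) (nat_lit 694852664229) (nat_lit 6) (nat_lit 5) (nat_lit 8) (nat_lit 5) (nat_lit 7) (nat_lit 4) (nat_lit 248) (nat_lit 233) (nat_lit 119))))) (XT.nd (nat_lit 312) (nat_lit 152) (nat_lit 0) (XT.nd (nat_lit 156) (nat_lit 0) (nat_lit 0) (XT.nd (nat_lit 78) (nat_lit 76) (nat_lit 0) (XT.lf (nat_lit 0) (nat_lit 541463965825) (nat_lit 152) (nat_lit 70050239314) (nat_lit 76) (nat_lit 1143704737356) (nat_lit 6) (nat_lit 5) (nat_lit 8) (nat_lit 5) (nat_lit 7) (nat_lit 4) (nat_lit 249) (nat_lit 233) (nat_lit 118)) (XT.lf (nat_lit 0) (nat_lit 553984918798) (nat_lit 76) (nat_lit 277727965613) (nat_lit 152) (nat_lit 1128839031858) (nat_lit 5) (nat_lit 5) (nat_lit 6) (nat_lit 5) (nat_lit 7) (nat_lit 4) (nat_lit 250) (nat_lit 233) (nat_lit 117))) (XT.nd (nat_lit 78) (nat_lit 0) (nat_lit 0) (XT.lf (nat_lit 0) (nat_lit 1173729675365) (nat_lit 152) (nat_lit 921206381201) (nat_lit 0) (nat_lit 100514199419)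 (nat_lit 5) (nat_lit 5) (nat_lit 7) (nat_lit 4) (nat_lit 5) (nat_lit 4) (nat_lit 251) (nat_lit 233) (nat_lit 116)) (XT.lf (nat_lit 0) (nat_lit 1580274117493) (nat_lit 152) (nat_lit 376266828868) (nat_lit 0) (nat_lit 507058630470) (nat_lit 5) (nat_lit 5) (nat_lit 7) (nat_lit 4) (nat_lit 5) (nat_lit 4) (nat_lit 252) (nat_lit 233) (nat_lit 115)))) (XT.nd (nat_lit 156) (nat_lit 76) (nat_lit 0) (XT.nd (nat_lit 78) (nat_lit 0) (nat_lit 0) (XT.lf (nat_lit 0) (nat_lit 274885885528) (nat_lit 76) (nat_lit 1784296771183) (nat_lit 76) (nat_lit 711081274528) (nat_lit 4) (nat_lit 4) (nat_lit 5) (nat_lit 5) (nat_lit 5) (nat_lit 4) (nat_lit 253) (nat_lit 233) (nat_lit 114)) (XT.lf (nat_lit 0) (nat_lit 1065998755155) (nat_lit 76) (nat_lit 1563597207894) (nat_lit 76) (nat_lit 490381702862) (nat_lit 4) (nat_lit 4) (nat_lit 5) (nat_lit 5) (nat_lit 5) (nat_lit 4) (nat_lit 254) (nat_lit 233) (nat_lit 113)))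 (XT.nd (nat_lit 78) (nat_lit 76) (nat_lit 0) (XT.lf (nat_lit 0) (nat_lit 1975778544284) (nat_lit 76) (nat_lit 1309792714887) (nat_lit 76) (nat_lit 236577202573) (nat_lit 4) (nat_lit 4) (nat_lit 5) (nat_lit 5) (nat_lit 5) (nat_lit 4) (nat_lit 255) (nat_lit 233) (nat_lit 112)) (XT.lf (nat_lit 0) (nat_lit 50374959188) (nat_lit 152) (nat_lit 964909356392) (nat_lit 76) (nat_lit 2969017096577) (nat_lit 3) (nat_lit 5) (nat_lit 5) (nat_lit 5) (nat_lit 4) (nat_lit 4) (nat_lit 256) (nat_lit 233) (nat_lit 111))))))) (XT.nd (nat_lit 29484) (nat_lit 0) (nat_lit 380) (XT.nd (nat_lit 546) (nat_lit 76) (nat_lit 0) (XT.nd (nat_lit 234) (nat_lit 0) (nat_lit 0) (XT.nd (nat_lit 78) (nat_lit 76) (nat_lit 0) (XT.lf (nat_lit 0) (nat_lit 356148940995) (nat_lit 152) (nat_lit 307495301016) (nat_lit 76) (nat_lit 3850443226721) (nat_lit 3) (nat_lit 5) (nat_lit 5) (nat_lit 5) (nat_lit 4) (nat_lit 4) (nat_lit 257)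 (nat_lit 233) (nat_lit 110)) (XT.nd (nat_lit 78) (nat_lit 0) (nat_lit 0) (XT.lf (nat_lit 0) (nat_lit 492364552232) (nat_lit 76) (nat_lit 235812229710) (nat_lit 152) (nat_lit 4392106487589) (nat_lit 2) (nat_lit 5) (nat_lit 3) (nat_lit 5) (nat_lit 4) (nat_lit 4) (nat_lit 258) (nat_lit 233) (nat_lit 109)) (XT.lf (nat_lit 0) (nat_lit 1183456294677) (nat_lit 152) (nat_lit 4379609625122) (nat_lit 0) (nat_lit 250225396322) (nat_lit 2) (nat_lit 5) (nat_lit 4) (nat_lit 4) (nat_lit 2) (nat_lit 4) (nat_lit 259) (nat_lit 233) (nat_lit 108)))) (XT.nd (nat_lit 156) (nat_lit 0) (nat_lit 0) (XT.nd (nat_lit 78) (nat_lit 0) (nat_lit 0) (XT.lf (nat_lit 0) (nat_lit 1718256884511) (nat_lit 152) (nat_lit 4105283329670) (nat_lit 0) (nat_lit 785025983007) (nat_lit 2) (nat_lit 5) (nat_lit 4) (nat_lit 4) (nat_lit 2) (nat_lit 4) (nat_lit 260) (nat_lit 233) (nat_lit 107)) (XT.lf (nat_lit 0) (nat_lit 2333277559684)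 (nat_lit 152) (nat_lit 3789808095774) (nat_lit 0) (nat_lit 1400046655441) (nat_lit 2) (nat_lit 5) (nat_lit 4) (nat_lit 4) (nat_lit 2) (nat_lit 4) (nat_lit 261) (nat_lit 233) (nat_lit 106))) (XT.nd (nat_lit 78) (nat_lit 0) (nat_lit 0) (XT.lf (nat_lit 0) (nat_lit 3040551333404) (nat_lit 152) (nat_lit 3427011581901) (nat_lit 0) (nat_lit 2107320426781) (nat_lit 2) (nat_lit 5) (nat_lit 4) (nat_lit 4) (nat_lit 2) (nat_lit 4) (nat_lit 262) (nat_lit 233) (nat_lit 105)) (XT.lf (nat_lit 0) (nat_lit 3853916170811) (nat_lit 152) (nat_lit 3009795595391) (nat_lit 0) (nat_lit 2920685262117) (nat_lit 2) (nat_lit 5) (nat_lit 4) (nat_lit 4) (nat_lit 2) (nat_lit 4) (nat_lit 263) (nat_lit 233) (nat_lit 104))))) (XT.nd (nat_lit 390) (nat_lit 0) (nat_lit 0) (XT.nd (nat_lit 234) (nat_lit 76) (nat_lit 0) (XT.nd (nat_lit 156) (nat_lit 0) (nat_lit 0) (XT.lf (nat_lit 0) (nat_lit 4789285731766) (nat_lit 152)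 (nat_lit 2529997214766) (nat_lit 0) (nat_lit 3856054821271) (nat_lit 2) (nat_lit 5) (nat_lit 4) (nat_lit 4) (nat_lit 2) (nat_lit 4) (nat_lit 264) (nat_lit 233) (nat_lit 103)) (XT.lf (nat_lit 0) (nat_lit 7101986965811) (nat_lit 152) (nat_lit 1343695728813) (nat_lit 0) (nat_lit 6168756052390) (nat_lit 2) (nat_lit 5) (nat_lit 4) (nat_lit 4) (nat_lit 2) (nat_lit 4) (nat_lit 266) (nat_lit 233) (nat_lit 101))) (XT.nd (nat_lit 78) (nat_lit 76) (nat_lit 0) (XT.lf (nat_lit 0) (nat_lit 8524567141307) (nat_lit 152) (nat_lit 613982377021) (nat_lit 0) (nat_lit 7591336226702) (nat_lit 2) (nat_lit 5) (nat_lit 4) (nat_lit 4) (nat_lit 2) (nat_lit 4) (nat_lit 267) (nat_lit 233) (nat_lit 100)) (XT.lf (nat_lit 0) (nat_lit 247194982011) (nat_lit 76) (nat_lit 9923575176997) (nat_lit 76) (nat_lit 8990344261363) (nat_lit 1) (nat_lit 4) (nat_lit 2) (nat_lit 5) (nat_lit 2) (nat_lit 4) (nat_lit 268) (nat_lit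 233) (nat_lit 99)))) (XT.nd (nat_lit 156) (nat_lit 0) (nat_lit 0) (XT.nd (nat_lit 78) (nat_lit 0) (nat_lit 0) (XT.lf (nat_lit 0) (nat_lit 1306552189481) (nat_lit 76) (nat_lit 10789445972116) (nat_lit 76) (nat_lit 9856215055586) (nat_lit 1) (nat_lit 4) (nat_lit 2) (nat_lit 5) (nat_lit 2) (nat_lit 4) (nat_lit 269) (nat_lit 233) (nat_lit 98)) (XT.lf (nat_lit 0) (nat_lit 2524812976238) (nat_lit 76) (nat_lit 11785197387368) (nat_lit 76) (nat_lit 10851966470060) (nat_lit 1) (nat_lit 4) (nat_lit 2) (nat_lit 5) (nat_lit 2) (nat_lit 4) (nat_lit 270) (nat_lit 233) (nat_lit 97))) (XT.nd (nat_lit 78) (nat_lit 0) (nat_lit 0) (XT.lf (nat_lit 0) (nat_lit 3925812879415) (nat_lit 76) (nat_lit 12930311515660) (nat_lit 76) (nat_lit 11997080597675) (nat_lit 1) (nat_lit 4) (nat_lit 2) (nat_lit 5) (nat_lit 2) (nat_lit 4) (nat_lit 271) (nat_lit 233) (nat_lit 96)) (XT.lf (nat_lit 0) (nat_lit 5536962766682)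 (nat_lit 76) (nat_lit 14247192763851) (nat_lit 76) (nat_lit 13313961845278) (nat_lit 1) (nat_lit 4) (nat_lit 2) (nat_lit 5) (nat_lit 2) (nat_lit 4) (nat_lit 272) (nat_lit 233) (nat_lit 95)))))) (XT.nd (nat_lit 624) (nat_lit 380) (nat_lit 0) (XT.nd (nat_lit 312) (nat_lit 380) (nat_lit 0) (XT.nd (nat_lit 156) (nat_lit 0) (nat_lit 0) (XT.nd (nat_lit 78) (nat_lit 0) (nat_lit 0) (XT.lf (nat_lit 0) (nat_lit 106227069633) (nat_lit 0) (nat_lit 106227069633) (nat_lit 228) (nat_lit 25333636191) (nat_lit 16) (nat_lit 5) (nat_lit 16) (nat_lit 3) (nat_lit 19) (nat_lit 3) (nat_lit 234) (nat_lit 234) (nat_lit 132)) (XT.lf (nat_lit 0) (nat_lit 442496422714) (nat_lit 0) (nat_lit 14280213522) (nat_lit 228) (nat_lit 54467042193) (nat_lit 16) (nat_lit 5) (nat_lit 16) (nat_lit 3) (nat_lit 19) (nat_lit 3) (nat_lit 235) (nat_lit 234) (nat_lit 131))) (XT.nd (nat_lit 78) (nat_lit 0) (nat_lit 0) (XT.lf (nat_lit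 76) (nat_lit 160199523724) (nat_lit 0) (nat_lit 348704743647) (nat_lit 304) (nat_lit 41035905317) (nat_lit 17) (nat_lit 5) (nat_lit 16) (nat_lit 5) (nat_lit 20) (nat_lit 5) (nat_lit 236) (nat_lit 234) (nat_lit 130)) (XT.lf (nat_lit 76) (nat_lit 430468080902) (nat_lit 0) (nat_lit 142625632391) (nat_lit 304) (nat_lit 20711027784) (nat_lit 17) (nat_lit 5) (nat_lit 16) (nat_lit 5) (nat_lit 20) (nat_lit 5) (nat_lit 237) (nat_lit 234) (nat_lit 129)))) (XT.nd (nat_lit 156) (nat_lit 152) (nat_lit 0) (XT.nd (nat_lit 78) (nat_lit 0) (nat_lit 0) (XT.lf (nat_lit 0) (nat_lit 10953349967) (nat_lit 304) (nat_lit 541305012059) (nat_lit 76) (nat_lit 90694923811) (nat_lit 13) (nat_lit 5) (nat_lit 17) (nat_lit 5) (nat_lit 14) (nat_lit 5) (nat_lit 238) (nat_lit 234) (nat_lit 128)) (XT.lf (nat_lit 0) (nat_lit 60983262431) (nat_lit 304) (nat_lit 281640184988) (nat_lit 76) (nat_lit 354342285393) (nat_lit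 13) (nat_lit 5) (nat_lit 17) (nat_lit 5) (nat_lit 14) (nat_lit 5) (nat_lit 239) (nat_lit 234) (nat_lit 127))) (XT.nd (nat_lit 78) (nat_lit 0) (nat_lit 0) (XT.lf (nat_lit 0) (nat_lit 18633194530) (nat_lit 152) (nat_lit 100656001466) (nat_lit 228) (nat_lit 639675120992) (nat_lit 11) (nat_lit 5) (nat_lit 13) (nat_lit 5) (nat_lit 14) (nat_lit 5) (nat_lit 240) (nat_lit 234) (nat_lit 126)) (XT.lf (nat_lit 0) (nat_lit 209118457233) (nat_lit 228) (nat_lit 440509667852) (nat_lit 76) (nat_lit 177217948314) (nat_lit 11) (nat_lit 5) (nat_lit 14) (nat_lit 5) (nat_lit 12) (nat_lit 5) (nat_lit 241) (nat_lit 234) (nat_lit 125))))) (XT.nd (nat_lit 312) (nat_lit 152) (nat_lit 0) (XT.nd (nat_lit 156) (nat_lit 76) (nat_lit 0) (XT.nd (nat_lit 78) (nat_lit 152) (nat_lit 0) (XT.lf (nat_lit 0) (nat_lit 317215229440) (nat_lit 228) (nat_lit 100508164068) (nat_lit 76) (nat_lit 486467731715) (nat_lit 11) (nat_lit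 5) (nat_lit 14) (nat_lit 5) (nat_lit 12) (nat_lit 5) (nat_lit 242) (nat_lit 234) (nat_lit 124)) (XT.lf (nat_lit 0) (nat_lit 318882684262) (nat_lit 152) (nat_lit 135848066770) (nat_lit 228) (nat_lit 536426548948) (nat_lit 9) (nat_lit 5) (nat_lit 11) (nat_lit 5) (nat_lit 12) (nat_lit 5) (nat_lit 243) (nat_lit 234) (nat_lit 123))) (XT.nd (nat_lit 78) (nat_lit 76) (nat_lit 0) (XT.lf (nat_lit 0) (nat_lit 626175058150) (nat_lit 228) (nat_lit 285950081326) (nat_lit 76) (nat_lit 177048043046) (nat_lit 9) (nat_lit 5) (nat_lit 12) (nat_lit 5) (nat_lit 10) (nat_lit 4) (nat_lit 244) (nat_lit 234) (nat_lit 122)) (XT.lf (nat_lit 0) (nat_lit 166694449244) (nat_lit 76) (nat_lit 670012964467) (nat_lit 152) (nat_lit 363178323524) (nat_lit 8) (nat_lit 5) (nat_lit 9) (nat_lit 5) (nat_lit 10) (nat_lit 4) (nat_lit 245) (nat_lit 234) (nat_lit 121)))) (XT.nd (nat_lit 156) (nat_lit 152) (nat_lit 0) (XT.nd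 (nat_lit 78) (nat_lit 0) (nat_lit 0) (XT.lf (nat_lit 0) (nat_lit 719372529172) (nat_lit 76) (nat_lit 374394470303) (nat_lit 152) (nat_lit 231196069273) (nat_lit 8) (nat_lit 5) (nat_lit 9) (nat_lit 5) (nat_lit 10) (nat_lit 4) (nat_lit 246) (nat_lit 234) (nat_lit 120)) (XT.lf (nat_lit 0) (nat_lit 1354952303657) (nat_lit 76) (nat_lit 34433207496) (nat_lit 152) (nat_lit 79416490739) (nat_lit 8) (nat_lit 5) (nat_lit 9) (nat_lit 5) (nat_lit 10) (nat_lit 4) (nat_lit 247) (nat_lit 234) (nat_lit 119))) (XT.nd (nat_lit 78) (nat_lit 0) (nat_lit 0) (XT.lf (nat_lit 0) (nat_lit 122930956767) (nat_lit 152) (nat_lit 1155025893040) (nat_lit 76) (nat_lit 350228545843) (nat_lit 6) (nat_lit 5) (nat_lit 8) (nat_lit 5) (nat_lit 7) (nat_lit 4) (nat_lit 248) (nat_lit 234) (nat_lit 118)) (XT.lf (nat_lit 0) (nat_lit 355374077912) (nat_lit 152) (nat_lit 655273199425) (nat_lit 76) (nat_lit 799080616687) (nat_lit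 6) (nat_lit 5) (nat_lit 8) (nat_lit 5) (nat_lit 7) (nat_lit 4) (nat_lit 249) (nat_lit 234) (nat_lit 117))))))))
noncomputable def xc57 : XT := (XT.nd (nat_lit 30732) (nat_lit 0) (nat_lit 0) (XT.nd (nat_lit 1170) (nat_lit 76) (nat_lit 0) (XT.nd (nat_lit 546) (nat_lit 152) (nat_lit 0) (XT.nd (nat_lit 234) (nat_lit 76) (nat_lit 0) (XT.nd (nat_lit 78) (nat_lit 76) (nat_lit 0) (XT.lf (nat_lit 0) (nat_lit 622683658176) (nat_lit 152) (nat_lit 80557616507) (nat_lit 76) (nat_lit 1315260493892) (nat_lit 6) (nat_lit 5) (nat_lit 8) (nat_lit 5) (nat_lit 7) (nat_lit 4) (nat_lit 250) (nat_lit 234) (nat_lit 116)) (XT.nd (nat_lit 78) (nat_lit 0) (nat_lit 0) (XT.lf (nat_lit 0) (nat_lit 637082808109) (nat_lit 76) (nat_lit 319387100000) (nat_lit 152) (nat_lit 1298164781361) (nat_lit 5) (nat_lit 5) (nat_lit 6) (nat_lit 5) (nat_lit 7) (nat_lit 4) (nat_lit 251) (nat_lit 234) (nat_lit 115)) (XT.lf (nat_lit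 0) (nat_lit 1349789208008) (nat_lit 152) (nat_lit 1059387196443) (nat_lit 0) (nat_lit 115591377222) (nat_lit 5) (nat_lit 5) (nat_lit 7) (nat_lit 4) (nat_lit 5) (nat_lit 4) (nat_lit 252) (nat_lit 234) (nat_lit 114)))) (XT.nd (nat_lit 156) (nat_lit 0) (nat_lit 0) (XT.nd (nat_lit 78) (nat_lit 76) (nat_lit 0) (XT.lf (nat_lit 0) (nat_lit 1817315305846) (nat_lit 152) (nat_lit 432706729775) (nat_lit 0) (nat_lit 583117466684) (nat_lit 5) (nat_lit 5) (nat_lit 7) (nat_lit 4) (nat_lit 5) (nat_lit 4) (nat_lit 253) (nat_lit 234) (nat_lit 113)) (XT.lf (nat_lit 0) (nat_lit 316118886170) (nat_lit 76) (nat_lit 2051941235429) (nat_lit 76) (nat_lit 817743388983) (nat_lit 4) (nat_lit 4) (nat_lit 5) (nat_lit 5) (nat_lit 5) (nat_lit 4) (nat_lit 254) (nat_lit 234) (nat_lit 112))) (XT.nd (nat_lit 78) (nat_lit 0) (nat_lit 0) (XT.lf (nat_lit 0) (nat_lit 1225898670875) (nat_lit 76) (nat_lit 1798136744354) (nat_lit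 76) (nat_lit 563938891575) (nat_lit 4) (nat_lit 4) (nat_lit 5) (nat_lit 5) (nat_lit 5) (nat_lit 4) (nat_lit 255) (nat_lit 234) (nat_lit 111)) (XT.lf (nat_lit 0) (nat_lit 2272145415011) (nat_lit 76) (nat_lit 1506261583231) (nat_lit 76) (nat_lit 272063724945) (nat_lit 4) (nat_lit 4) (nat_lit 5) (nat_lit 5) (nat_lit 5) (nat_lit 4) (nat_lit 256) (nat_lit 234) (nat_lit 110))))) (XT.nd (nat_lit 312) (nat_lit 0) (nat_lit 0) (XT.nd (nat_lit 156) (nat_lit 76) (nat_lit 0) (XT.nd (nat_lit 78) (nat_lit 0) (nat_lit 0) (XT.lf (nat_lit 0) (nat_lit 57931249022) (nat_lit 152) (nat_lit 1109645677676) (nat_lit 76) (nat_lit 3414369690170) (nat_lit 3) (nat_lit 5) (nat_lit 5) (nat_lit 5) (nat_lit 4) (nat_lit 4) (nat_lit 257) (nat_lit 234) (nat_lit 109)) (XT.lf (nat_lit 0) (nat_lit 409571322106) (nat_lit 152) (nat_lit 353619524711) (nat_lit 76) (nat_lit 4428009736039) (nat_lit 3) (nat_lit 5) (nat_lit 5)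 (nat_lit 5) (nat_lit 4) (nat_lit 4) (nat_lit 258) (nat_lit 234) (nat_lit 108))) (XT.nd (nat_lit 78) (nat_lit 0) (nat_lit 0) (XT.lf (nat_lit 0) (nat_lit 566219303275) (nat_lit 76) (nat_lit 271184033531) (nat_lit 152) (nat_lit 5050922417352) (nat_lit 2) (nat_lit 5) (nat_lit 3) (nat_lit 5) (nat_lit 4) (nat_lit 4) (nat_lit 259) (nat_lit 234) (nat_lit 107)) (XT.lf (nat_lit 0) (nat_lit 1360974772655) (nat_lit 152) (nat_lit 5036551005636) (nat_lit 0) (nat_lit 287759230038) (nat_lit 2) (nat_lit 5) (nat_lit 4) (nat_lit 4) (nat_lit 2) (nat_lit 4) (nat_lit 260) (nat_lit 234) (nat_lit 106)))) (XT.nd (nat_lit 156) (nat_lit 0) (nat_lit 0) (XT.nd (nat_lit 78) (nat_lit 0) (nat_lit 0) (XT.lf (nat_lit 0) (nat_lit 1975995446559) (nat_lit 152) (nat_lit 4721075774116) (nat_lit 0) (nat_lit 902779901560) (nat_lit 2) (nat_lit 5) (nat_lit 4) (nat_lit 4) (nat_lit 2) (nat_lit 4) (nat_lit 261) (nat_lit 234) (nat_lit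 105)) (XT.lf (nat_lit 0) (nat_lit 2683269219176) (nat_lit 152) (nat_lit 4358279262310) (nat_lit 0) (nat_lit 1610053672107) (nat_lit 2) (nat_lit 5) (nat_lit 4) (nat_lit 4) (nat_lit 2) (nat_lit 4) (nat_lit 262) (nat_lit 234) (nat_lit 104))) (XT.nd (nat_lit 78) (nat_lit 0) (nat_lit 0) (XT.lf (nat_lit 0) (nat_lit 3496634055623) (nat_lit 152) (nat_lit 3941063277596) (nat_lit 0) (nat_lit 2423418506754) (nat_lit 2) (nat_lit 5) (nat_lit 4) (nat_lit 4) (nat_lit 2) (nat_lit 4) (nat_lit 263) (nat_lit 234) (nat_lit 103)) (XT.lf (nat_lit 0) (nat_lit 4432003615744) (nat_lit 152) (nat_lit 3461264898533) (nat_lit 0) (nat_lit 3358788065309) (nat_lit 2) (nat_lit 5) (nat_lit 4) (nat_lit 4) (nat_lit 2) (nat_lit 4) (nat_lit 264) (nat_lit 234) (nat_lit 102)))))) (XT.nd (nat_lit 28938) (nat_lit 0) (nat_lit 760) (XT.nd (nat_lit 312) (nat_lit 76) (nat_lit 0) (XT.nd (nat_lit 156) (nat_lit 0) (nat_lit 0) (XT.nd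 (nat_lit 78) (nat_lit 0) (nat_lit 0) (XT.lf (nat_lit 0) (nat_lit 5507678608323) (nat_lit 152) (nat_lit 2909496765532) (nat_lit 0) (nat_lit 4434463056527) (nat_lit 2) (nat_lit 5) (nat_lit 4) (nat_lit 4) (nat_lit 2) (nat_lit 4) (nat_lit 265) (nat_lit 234) (nat_lit 101)) (XT.lf (nat_lit 0) (nat_lit 6744704848433) (nat_lit 152) (nat_lit 2274963415120) (nat_lit 0) (nat_lit 5671489295454) (nat_lit 2) (nat_lit 5) (nat_lit 4) (nat_lit 4) (nat_lit 2) (nat_lit 4) (nat_lit 266) (nat_lit 234) (nat_lit 100))) (XT.nd (nat_lit 78) (nat_lit 0) (nat_lit 0) (XT.lf (nat_lit 0) (nat_lit 8167285023381) (nat_lit 152) (nat_lit 1545250064355) (nat_lit 0) (nat_lit 7094069469372) (nat_lit 2) (nat_lit 5) (nat_lit 4) (nat_lit 4) (nat_lit 2) (nat_lit 4) (nat_lit 267) (nat_lit 234) (nat_lit 99)) (XT.lf (nat_lit 0) (nat_lit 9803252223545) (nat_lit 152) (nat_lit 706079712896) (nat_lit 0) (nat_lit 8730036668641) (nat_lit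 2) (nat_lit 5) (nat_lit 4) (nat_lit 4) (nat_lit 2) (nat_lit 4) (nat_lit 268) (nat_lit 234) (nat_lit 98)))) (XT.nd (nat_lit 156) (nat_lit 0) (nat_lit 0) (XT.nd (nat_lit 78) (nat_lit 0) (nat_lit 0) (XT.lf (nat_lit 0) (nat_lit 284274249051) (nat_lit 76) (nat_lit 11412111444227) (nat_lit 76) (nat_lit 10338895888545) (nat_lit 1) (nat_lit 4) (nat_lit 2) (nat_lit 5) (nat_lit 2) (nat_lit 4) (nat_lit 269) (nat_lit 234) (nat_lit 97)) (XT.lf (nat_lit 0) (nat_lit 1502535035067) (nat_lit 76) (nat_lit 12407862859829) (nat_lit 76) (nat_lit 11334647303470) (nat_lit 1) (nat_lit 4) (nat_lit 2) (nat_lit 5) (nat_lit 2) (nat_lit 4) (nat_lit 270) (nat_lit 234) (nat_lit 96))) (XT.nd (nat_lit 78) (nat_lit 0) (nat_lit 0) (XT.lf (nat_lit 0) (nat_lit 2903534937599) (nat_lit 76) (nat_lit 13552976988426) (nat_lit 76) (nat_lit 12479761431478) (nat_lit 1) (nat_lit 4) (nat_lit 2) (nat_lit 5) (nat_lit 2) (nat_lit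 4) (nat_lit 271) (nat_lit 234) (nat_lit 95)) (XT.lf (nat_lit 0) (nat_lit 4514684824305) (nat_lit 76) (nat_lit 14869858236881) (nat_lit 76) (nat_lit 13796642679422) (nat_lit 1) (nat_lit 4) (nat_lit 2) (nat_lit 5) (nat_lit 2) (nat_lit 4) (nat_lit 272) (nat_lit 234) (nat_lit 94))))) (XT.nd (nat_lit 312) (nat_lit 380) (nat_lit 0) (XT.nd (nat_lit 156) (nat_lit 0) (nat_lit 0) (XT.nd (nat_lit 78) (nat_lit 0) (nat_lit 0) (XT.lf (nat_lit 0) (nat_lit 122161243582) (nat_lit 0) (nat_lit 122161243582) (nat_lit 228) (nat_lit 29133417414) (nat_lit 16) (nat_lit 5) (nat_lit 16) (nat_lit 3) (nat_lit 19) (nat_lit 3) (nat_lit 235) (nat_lit 235) (nat_lit 130)) (XT.lf (nat_lit 0) (nat_lit 508871083519) (nat_lit 0) (nat_lit 16422442949) (nat_lit 228) (nat_lit 62636639034) (nat_lit 16) (nat_lit 5) (nat_lit 16) (nat_lit 3) (nat_lit 19) (nat_lit 3) (nat_lit 236) (nat_lit 235) (nat_lit 129))) (XT.nd (nat_lit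 78) (nat_lit 0) (nat_lit 0) (XT.lf (nat_lit 76) (nat_lit 184229710263) (nat_lit 0) (nat_lit 401010544090) (nat_lit 304) (nat_lit 47190887449) (nat_lit 17) (nat_lit 5) (nat_lit 16) (nat_lit 5) (nat_lit 20) (nat_lit 5) (nat_lit 237) (nat_lit 235) (nat_lit 128)) (XT.lf (nat_lit 76) (nat_lit 495038517368) (nat_lit 0) (nat_lit 164019554550) (nat_lit 304) (nat_lit 23817330938) (nat_lit 17) (nat_lit 5) (nat_lit 16) (nat_lit 5) (nat_lit 20) (nat_lit 5) (nat_lit 238) (nat_lit 235) (nat_lit 127)))) (XT.nd (nat_lit 156) (nat_lit 152) (nat_lit 0) (XT.nd (nat_lit 78) (nat_lit 0) (nat_lit 0) (XT.lf (nat_lit 0) (nat_lit 12596639068) (nat_lit 304) (nat_lit 622500468401) (nat_lit 76) (nat_lit 104299125122) (nat_lit 13) (nat_lit 5) (nat_lit 17) (nat_lit 5) (nat_lit 14) (nat_lit 5) (nat_lit 239) (nat_lit 235) (nat_lit 126)) (XT.lf (nat_lit 0) (nat_lit 70131001018) (nat_lit 304) (nat_lit 323885955809)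 (nat_lit 76) (nat_lit 407493595801) (nat_lit 13) (nat_lit 5) (nat_lit 17) (nat_lit 5) (nat_lit 14) (nat_lit 5) (nat_lit 240) (nat_lit 235) (nat_lit 125))) (XT.nd (nat_lit 78) (nat_lit 0) (nat_lit 0) (XT.lf (nat_lit 0) (nat_lit 21428418958) (nat_lit 152) (nat_lit 115754383308) (nat_lit 228) (nat_lit 735626125873) (nat_lit 11) (nat_lit 5) (nat_lit 13) (nat_lit 5) (nat_lit 14) (nat_lit 5) (nat_lit 241) (nat_lit 235) (nat_lit 124)) (XT.lf (nat_lit 0) (nat_lit 240486423758) (nat_lit 228) (nat_lit 506585873782) (nat_lit 76) (nat_lit 203800655120) (nat_lit 11) (nat_lit 5) (nat_lit 14) (nat_lit 5) (nat_lit 12) (nat_lit 5) (nat_lit 242) (nat_lit 235) (nat_lit 123))))))) (XT.nd (nat_lit 1170) (nat_lit 228) (nat_lit 0) (XT.nd (nat_lit 546) (nat_lit 152) (nat_lit 0) (XT.nd (nat_lit 234) (nat_lit 228) (nat_lit 0) (XT.nd (nat_lit 78) (nat_lit 152) (nat_lit 0) (XT.lf (nat_lit 0) (nat_lit 364797685979)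 (nat_lit 228) (nat_lit 115584176289) (nat_lit 76) (nat_lit 559437904132) (nat_lit 11) (nat_lit 5) (nat_lit 14) (nat_lit 5) (nat_lit 12) (nat_lit 5) (nat_lit 243) (nat_lit 235) (nat_lit 122)) (XT.nd (nat_lit 78) (nat_lit 0) (nat_lit 0) (XT.lf (nat_lit 0) (nat_lit 366715289637) (nat_lit 152) (nat_lit 156225232116) (nat_lit 228) (nat_lit 616890347958) (nat_lit 9) (nat_lit 5) (nat_lit 11) (nat_lit 5) (nat_lit 12) (nat_lit 5) (nat_lit 244) (nat_lit 235) (nat_lit 121)) (XT.lf (nat_lit 0) (nat_lit 720101455930) (nat_lit 228) (nat_lit 328842396871) (nat_lit 76) (nat_lit 203605284888) (nat_lit 9) (nat_lit 5) (nat_lit 12) (nat_lit 5) (nat_lit 10) (nat_lit 4) (nat_lit 245) (nat_lit 235) (nat_lit 120)))) (XT.nd (nat_lit 156) (nat_lit 152) (nat_lit 0) (XT.nd (nat_lit 78) (nat_lit 0) (nat_lit 0) (XT.lf (nat_lit 0) (nat_lit 191698804345) (nat_lit 76) (nat_lit 770514850115) (nat_lit 152) (nat_lit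 417654922880) (nat_lit 8) (nat_lit 5) (nat_lit 9) (nat_lit 5) (nat_lit 10) (nat_lit 4) (nat_lit 246) (nat_lit 235) (nat_lit 119)) (XT.lf (nat_lit 0) (nat_lit 827278571779) (nat_lit 76) (nat_lit 430553589525) (nat_lit 152) (nat_lit 265875349949) (nat_lit 8) (nat_lit 5) (nat_lit 9) (nat_lit 5) (nat_lit 10) (nat_lit 4) (nat_lit 247) (nat_lit 235) (nat_lit 118))) (XT.nd (nat_lit 78) (nat_lit 152) (nat_lit 0) (XT.lf (nat_lit 0) (nat_lit 1558195291145) (nat_lit 76) (nat_lit 39598143991) (nat_lit 152) (nat_lit 91328851554) (nat_lit 8) (nat_lit 5) (nat_lit 9) (nat_lit 5) (nat_lit 10) (nat_lit 4) (nat_lit 248) (nat_lit 235) (nat_lit 117)) (XT.lf (nat_lit 0) (nat_lit 141370697759) (nat_lit 152) (nat_lit 1328279618291) (nat_lit 76) (nat_lit 402762873653) (nat_lit 6) (nat_lit 5) (nat_lit 8) (nat_lit 5) (nat_lit 7) (nat_lit 4) (nat_lit 249) (nat_lit 235) (nat_lit 116))))) (XT.nd (nat_lit 312) (nat_lit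 76) (nat_lit 0) (XT.nd (nat_lit 156) (nat_lit 76) (nat_lit 0) (XT.nd (nat_lit 78) (nat_lit 0) (nat_lit 0) (XT.lf (nat_lit 0) (nat_lit 408680274362) (nat_lit 152) (nat_lit 753564041335) (nat_lit 76) (nat_lit 918942749132) (nat_lit 6) (nat_lit 5) (nat_lit 8) (nat_lit 5) (nat_lit 7) (nat_lit 4) (nat_lit 250) (nat_lit 235) (nat_lit 115)) (XT.lf (nat_lit 0) (nat_lit 716086280610) (nat_lit 152) (nat_lit 92641138980) (nat_lit 76) (nat_lit 1512549602708) (nat_lit 6) (nat_lit 5) (nat_lit 8) (nat_lit 5) (nat_lit 7) (nat_lit 4) (nat_lit 251) (nat_lit 235) (nat_lit 114))) (XT.nd (nat_lit 78) (nat_lit 0) (nat_lit 0) (XT.lf (nat_lit 0) (nat_lit 732645343874) (nat_lit 76) (nat_lit 367295119287) (nat_lit 152) (nat_lit 1492889418961) (nat_lit 5) (nat_lit 5) (nat_lit 6) (nat_lit 5) (nat_lit 7) (nat_lit 4) (nat_lit 252) (nat_lit 235) (nat_lit 113)) (XT.lf (nat_lit 0) (nat_lit 1552257650712) (nat_lit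 152) (nat_lit 1218295168585) (nat_lit 0) (nat_lit 132930120017) (nat_lit 5) (nat_lit 5) (nat_lit 7) (nat_lit 4) (nat_lit 5) (nat_lit 4) (nat_lit 253) (nat_lit 235) (nat_lit 112)))) (XT.nd (nat_lit 156) (nat_lit 0) (nat_lit 0) (XT.nd (nat_lit 78) (nat_lit 76) (nat_lit 0) (XT.lf (nat_lit 0) (nat_lit 2089912655204) (nat_lit 152) (nat_lit 497612645915) (nat_lit 0) (nat_lit 670585118175) (nat_lit 5) (nat_lit 5) (nat_lit 7) (nat_lit 4) (nat_lit 5) (nat_lit 4) (nat_lit 254) (nat_lit 235) (nat_lit 111)) (XT.lf (nat_lit 0) (nat_lit 363536808180) (nat_lit 76) (nat_lit 2359732381853) (nat_lit 76) (nat_lit 940404839317) (nat_lit 4) (nat_lit 4) (nat_lit 5) (nat_lit 5) (nat_lit 5) (nat_lit 4) (nat_lit 255) (nat_lit 235) (nat_lit 110))) (XT.nd (nat_lit 78) (nat_lit 0) (nat_lit 0) (XT.lf (nat_lit 0) (nat_lit 1409783548970) (nat_lit 76) (nat_lit 2067857222190) (nat_lit 76) (nat_lit 648529674865) (nat_lit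 4) (nat_lit 4) (nat_lit 5) (nat_lit 5) (nat_lit 5) (nat_lit 4) (nat_lit 256) (nat_lit 235) (nat_lit 109)) (XT.lf (nat_lit 0) (nat_lit 2612967294623) (nat_lit 76) (nat_lit 1732200791309) (nat_lit 76) (nat_lit 312873239819) (nat_lit 4) (nat_lit 4) (nat_lit 5) (nat_lit 5) (nat_lit 5) (nat_lit 4) (nat_lit 257) (nat_lit 235) (nat_lit 108)))))) (XT.nd (nat_lit 624) (nat_lit 76) (nat_lit 0) (XT.nd (nat_lit 312) (nat_lit 0) (nat_lit 0) (XT.nd (nat_lit 156) (nat_lit 76) (nat_lit 0) (XT.nd (nat_lit 78) (nat_lit 0) (nat_lit 0) (XT.lf (nat_lit 0) (nat_lit 66620971125) (nat_lit 152) (nat_lit 1276092467191) (nat_lit 76) (nat_lit 3926525165704) (nat_lit 3) (nat_lit 5) (nat_lit 5) (nat_lit 5) (nat_lit 4) (nat_lit 4) (nat_lit 258) (nat_lit 235) (nat_lit 107)) (XT.lf (nat_lit 0) (nat_lit 471007050638) (nat_lit 152) (nat_lit 406662399386) (nat_lit 76) (nat_lit 5092211215583) (nat_lit 3) (nat_lit 5) (nat_lit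 5) (nat_lit 5) (nat_lit 4) (nat_lit 4) (nat_lit 259) (nat_lit 235) (nat_lit 106))) (XT.nd (nat_lit 78) (nat_lit 0) (nat_lit 0) (XT.lf (nat_lit 0) (nat_lit 651152250342) (nat_lit 76) (nat_lit 311861615397) (nat_lit 152) (nat_lit 5808560747156) (nat_lit 2) (nat_lit 5) (nat_lit 3) (nat_lit 5) (nat_lit 4) (nat_lit 4) (nat_lit 260) (nat_lit 235) (nat_lit 105)) (XT.lf (nat_lit 0) (nat_lit 1565121014093) (nat_lit 152) (nat_lit 5792033608652) (nat_lit 0) (nat_lit 330923132893) (nat_lit 2) (nat_lit 5) (nat_lit 4) (nat_lit 4) (nat_lit 2) (nat_lit 4) (nat_lit 261) (nat_lit 235) (nat_lit 104)))) (XT.nd (nat_lit 156) (nat_lit 0) (nat_lit 0) (XT.nd (nat_lit 78) (nat_lit 0) (nat_lit 0) (XT.lf (nat_lit 0) (nat_lit 2272394785751) (nat_lit 152) (nat_lit 5429237098643) (nat_lit 0) (nat_lit 1038196902751) (nat_lit 2) (nat_lit 5) (nat_lit 4) (nat_lit 4) (nat_lit 2) (nat_lit 4) (nat_lit 262) (nat_lit 235)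 (nat_lit 103)) (XT.lf (nat_lit 0) (nat_lit 3085759621364) (nat_lit 152) (nat_lit 5012021115491) (nat_lit 0) (nat_lit 1851561736799) (nat_lit 2) (nat_lit 5) (nat_lit 4) (nat_lit 4) (nat_lit 2) (nat_lit 4) (nat_lit 263) (nat_lit 235) (nat_lit 102))) (XT.nd (nat_lit 78) (nat_lit 0) (nat_lit 0) (XT.lf (nat_lit 0) (nat_lit 4021129180759) (nat_lit 152) (nat_lit 4532222737787) (nat_lit 0) (nat_lit 2786931294833) (nat_lit 2) (nat_lit 5) (nat_lit 4) (nat_lit 4) (nat_lit 2) (nat_lit 4) (nat_lit 264) (nat_lit 235) (nat_lit 101)) (XT.lf (nat_lit 0) (nat_lit 5096804172708) (nat_lit 152) (nat_lit 3980454605967) (nat_lit 0) (nat_lit 3862606285597) (nat_lit 2) (nat_lit 5) (nat_lit 4) (nat_lit 4) (nat_lit 2) (nat_lit 4) (nat_lit 265) (nat_lit 235) (nat_lit 100))))) (XT.nd (nat_lit 312) (nat_lit 76) (nat_lit 0) (XT.nd (nat_lit 156) (nat_lit 0) (nat_lit 0) (XT.nd (nat_lit 78) (nat_lit 0) (nat_lit 0)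 (XT.lf (nat_lit 0) (nat_lit 6333830412269) (nat_lit 152) (nat_lit 3345921256582) (nat_lit 0) (nat_lit 5099632524130) (nat_lit 2) (nat_lit 5) (nat_lit 4) (nat_lit 4) (nat_lit 2) (nat_lit 4) (nat_lit 266) (nat_lit 235) (nat_lit 99)) (XT.lf (nat_lit 0) (nat_lit 7756410586740) (nat_lit 152) (nat_lit 2616207906710) (nat_lit 0) (nat_lit 6522212697705) (nat_lit 2) (nat_lit 5) (nat_lit 4) (nat_lit 4) (nat_lit 2) (nat_lit 4) (nat_lit 267) (nat_lit 235) (nat_lit 98))) (XT.nd (nat_lit 78) (nat_lit 0) (nat_lit 0) (XT.lf (nat_lit 0) (nat_lit 9392377786489) (nat_lit 152) (nat_lit 1777037556028) (nat_lit 0) (nat_lit 8158179896676) (nat_lit 2) (nat_lit 5) (nat_lit 4) (nat_lit 4) (nat_lit 2) (nat_lit 4) (nat_lit 268) (nat_lit 235) (nat_lit 97)) (XT.lf (nat_lit 0) (nat_lit 11273740065426) (nat_lit 152) (nat_lit 811991654195) (nat_lit 0) (nat_lit 10039542174936) (nat_lit 2) (nat_lit 5) (nat_lit 4) (nat_lit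 4) (nat_lit 2) (nat_lit 4) (nat_lit 269) (nat_lit 235) (nat_lit 96)))) (XT.nd (nat_lit 28626) (nat_lit 0) (nat_lit 1140) (XT.nd (nat_lit 78) (nat_lit 0) (nat_lit 0) (XT.lf (nat_lit 0) (nat_lit 326915401334) (nat_lit 76) (nat_lit 13123928153815) (nat_lit 76) (nat_lit 11889730262736) (nat_lit 1) (nat_lit 4) (nat_lit 2) (nat_lit 5) (nat_lit 2) (nat_lit 4) (nat_lit 270) (nat_lit 235) (nat_lit 95)) (XT.lf (nat_lit 0) (nat_lit 1727915303305) (nat_lit 76) (nat_lit 14269042282676) (nat_lit 76) (nat_lit 13034844391086) (nat_lit 1) (nat_lit 4) (nat_lit 2) (nat_lit 5) (nat_lit 2) (nat_lit 4) (nat_lit 271) (nat_lit 235) (nat_lit 94))) (XT.nd (nat_lit 78) (nat_lit 0) (nat_lit 0) (XT.lf (nat_lit 0) (nat_lit 140485515944) (nat_lit 0) (nat_lit 140485515944) (nat_lit 228) (nat_lit 33503230249) (nat_lit 16) (nat_lit 5) (nat_lit 16) (nat_lit 3) (nat_lit 19) (nat_lit 3) (nat_lit 236) (nat_lit 236) (nat_lit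 128)) (XT.lf (nat_lit 0) (nat_lit 585201895308) (nat_lit 0) (nat_lit 18885958652) (nat_lit 228) (nat_lit 72031787450) (nat_lit 16) (nat_lit 5) (nat_lit 16) (nat_lit 3) (nat_lit 19) (nat_lit 3) (nat_lit 237) (nat_lit 236) (nat_lit 127))))))))
noncomputable def xc58 : XT := (XT.nd (nat_lit 2418) (nat_lit 76) (nat_lit 0) (XT.nd (nat_lit 1170) (nat_lit 304) (nat_lit 0) (XT.nd (nat_lit 546) (nat_lit 380) (nat_lit 0) (XT.nd (nat_lit 234) (nat_lit 152) (nat_lit 0) (XT.nd (nat_lit 78) (nat_lit 228) (nat_lit 0) (XT.lf (nat_lit 76) (nat_lit 211864361872) (nat_lit 0) (nat_lit 461162192921) (nat_lit 304) (nat_lit 54269215337) (nat_lit 17) (nat_lit 5) (nat_lit 16) (nat_lit 5) (nat_lit 20) (nat_lit 5) (nat_lit 238) (nat_lit 236) (nat_lit 126)) (XT.nd (nat_lit 78) (nat_lit 228) (nat_lit 0) (XT.lf (nat_lit 76) (nat_lit 569294464599) (nat_lit 0) (nat_lit 188622546182) (nat_lit 304) (nat_lit 27389665162)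 (nat_lit 17) (nat_lit 5) (nat_lit 16) (nat_lit 5) (nat_lit 20) (nat_lit 5) (nat_lit 239) (nat_lit 236) (nat_lit 125)) (XT.lf (nat_lit 0) (nat_lit 14486351644) (nat_lit 304) (nat_lit 715875315246) (nat_lit 76) (nat_lit 119943965716) (nat_lit 13) (nat_lit 5) (nat_lit 17) (nat_lit 5) (nat_lit 14) (nat_lit 5) (nat_lit 240) (nat_lit 236) (nat_lit 124)))) (XT.nd (nat_lit 156) (nat_lit 0) (nat_lit 0) (XT.nd (nat_lit 78) (nat_lit 152) (nat_lit 0) (XT.lf (nat_lit 0) (nat_lit 80650839619) (nat_lit 304) (nat_lit 372468654906) (nat_lit 76) (nat_lit 468617610672) (nat_lit 13) (nat_lit 5) (nat_lit 17) (nat_lit 5) (nat_lit 14) (nat_lit 5) (nat_lit 241) (nat_lit 236) (nat_lit 123)) (XT.lf (nat_lit 0) (nat_lit 24642867246) (nat_lit 152) (nat_lit 133117526908) (nat_lit 228) (nat_lit 845969845686) (nat_lit 11) (nat_lit 5) (nat_lit 13) (nat_lit 5) (nat_lit 14) (nat_lit 5) (nat_lit 242) (nat_lit 236) (nat_lit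 122))) (XT.nd (nat_lit 78) (nat_lit 0) (nat_lit 0) (XT.lf (nat_lit 0) (nat_lit 276559536994) (nat_lit 228) (nat_lit 582573570163) (nat_lit 76) (nat_lit 234370764396) (nat_lit 11) (nat_lit 5) (nat_lit 14) (nat_lit 5) (nat_lit 12) (nat_lit 5) (nat_lit 243) (nat_lit 236) (nat_lit 121)) (XT.lf (nat_lit 0) (nat_lit 419517469025) (nat_lit 228) (nat_lit 132921642135) (nat_lit 76) (nat_lit 643353599324) (nat_lit 11) (nat_lit 5) (nat_lit 14) (nat_lit 5) (nat_lit 12) (nat_lit 5) (nat_lit 244) (nat_lit 236) (nat_lit 120))))) (XT.nd (nat_lit 312) (nat_lit 152) (nat_lit 0) (XT.nd (nat_lit 156) (nat_lit 76) (nat_lit 0) (XT.nd (nat_lit 78) (nat_lit 0) (nat_lit 0) (XT.lf (nat_lit 0) (nat_lit 421722736380) (nat_lit 152) (nat_lit 179658983158) (nat_lit 228) (nat_lit 709423761526) (nat_lit 9) (nat_lit 5) (nat_lit 11) (nat_lit 5) (nat_lit 12) (nat_lit 5) (nat_lit 245) (nat_lit 236) (nat_lit 119)) (XT.lf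 (nat_lit 0) (nat_lit 828116779467) (nat_lit 228) (nat_lit 378168607703) (nat_lit 76) (nat_lit 234146104377) (nat_lit 9) (nat_lit 5) (nat_lit 12) (nat_lit 5) (nat_lit 10) (nat_lit 4) (nat_lit 246) (nat_lit 236) (nat_lit 118))) (XT.nd (nat_lit 78) (nat_lit 0) (nat_lit 0) (XT.lf (nat_lit 0) (nat_lit 220453766936) (nat_lit 76) (nat_lit 886092033003) (nat_lit 152) (nat_lit 480303048516) (nat_lit 8) (nat_lit 5) (nat_lit 9) (nat_lit 5) (nat_lit 10) (nat_lit 4) (nat_lit 247) (nat_lit 236) (nat_lit 117)) (XT.lf (nat_lit 0) (nat_lit 951370480971) (nat_lit 76) (nat_lit 495136589145) (nat_lit 152) (nat_lit 305756554358) (nat_lit 8) (nat_lit 5) (nat_lit 9) (nat_lit 5) (nat_lit 10) (nat_lit 4) (nat_lit 248) (nat_lit 236) (nat_lit 116)))) (XT.nd (nat_lit 156) (nat_lit 0) (nat_lit 0) (XT.nd (nat_lit 78) (nat_lit 152) (nat_lit 0) (XT.lf (nat_lit 0) (nat_lit 1791924692143) (nat_lit 76) (nat_lit 45537831844)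 (nat_lit 152) (nat_lit 105028093997) (nat_lit 8) (nat_lit 5) (nat_lit 9) (nat_lit 5) (nat_lit 10) (nat_lit 4) (nat_lit 249) (nat_lit 236) (nat_lit 115)) (XT.lf (nat_lit 0) (nat_lit 162576376130) (nat_lit 152) (nat_lit 1527521441032) (nat_lit 76) (nat_lit 463177339433) (nat_lit 6) (nat_lit 5) (nat_lit 8) (nat_lit 5) (nat_lit 7) (nat_lit 4) (nat_lit 250) (nat_lit 236) (nat_lit 114))) (XT.nd (nat_lit 78) (nat_lit 0) (nat_lit 0) (XT.lf (nat_lit 0) (nat_lit 469982379609) (nat_lit 152) (nat_lit 866598543184) (nat_lit 76) (nat_lit 1056784191704) (nat_lit 6) (nat_lit 5) (nat_lit 8) (nat_lit 5) (nat_lit 7) (nat_lit 4) (nat_lit 251) (nat_lit 236) (nat_lit 113)) (XT.lf (nat_lit 0) (nat_lit 823499278434) (nat_lit 152) (nat_lit 106537219087) (nat_lit 76) (nat_lit 1739432069377) (nat_lit 6) (nat_lit 5) (nat_lit 8) (nat_lit 5) (nat_lit 7) (nat_lit 4) (nat_lit 252) (nat_lit 236) (nat_lit 112))))))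 (XT.nd (nat_lit 624) (nat_lit 76) (nat_lit 0) (XT.nd (nat_lit 312) (nat_lit 76) (nat_lit 0) (XT.nd (nat_lit 156) (nat_lit 76) (nat_lit 0) (XT.nd (nat_lit 78) (nat_lit 0) (nat_lit 0) (XT.lf (nat_lit 0) (nat_lit 842542232071) (nat_lit 76) (nat_lit 422389352615) (nat_lit 152) (nat_lit 1716822771613) (nat_lit 5) (nat_lit 5) (nat_lit 6) (nat_lit 5) (nat_lit 7) (nat_lit 4) (nat_lit 253) (nat_lit 236) (nat_lit 111)) (XT.lf (nat_lit 0) (nat_lit 1785096344825) (nat_lit 152) (nat_lit 1401039362720) (nat_lit 0) (nat_lit 152869665400) (nat_lit 5) (nat_lit 5) (nat_lit 7) (nat_lit 4) (nat_lit 5) (nat_lit 4) (nat_lit 254) (nat_lit 236) (nat_lit 110))) (XT.nd (nat_lit 78) (nat_lit 76) (nat_lit 0) (XT.lf (nat_lit 0) (nat_lit 2403399593925) (nat_lit 152) (nat_lit 572254472235) (nat_lit 0) (nat_lit 771172909711) (nat_lit 5) (nat_lit 5) (nat_lit 7) (nat_lit 4) (nat_lit 5) (nat_lit 4) (nat_lit 255) (nat_lit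 236) (nat_lit 109)) (XT.lf (nat_lit 0) (nat_lit 418067396767) (nat_lit 76) (nat_lit 2713692209725) (nat_lit 76) (nat_lit 1081465521347) (nat_lit 4) (nat_lit 4) (nat_lit 5) (nat_lit 5) (nat_lit 5) (nat_lit 4) (nat_lit 256) (nat_lit 236) (nat_lit 108)))) (XT.nd (nat_lit 156) (nat_lit 76) (nat_lit 0) (XT.nd (nat_lit 78) (nat_lit 0) (nat_lit 0) (XT.lf (nat_lit 0) (nat_lit 1621251139890) (nat_lit 76) (nat_lit 2378035779948) (nat_lit 76) (nat_lit 745809087949) (nat_lit 4) (nat_lit 4) (nat_lit 5) (nat_lit 5) (nat_lit 5) (nat_lit 4) (nat_lit 257) (nat_lit 236) (nat_lit 107)) (XT.lf (nat_lit 0) (nat_lit 3004912439750) (nat_lit 76) (nat_lit 1992030887770) (nat_lit 76) (nat_lit 359804192622) (nat_lit 4) (nat_lit 4) (nat_lit 5) (nat_lit 5) (nat_lit 5) (nat_lit 4) (nat_lit 258) (nat_lit 236) (nat_lit 106))) (XT.nd (nat_lit 78) (nat_lit 0) (nat_lit 0) (XT.lf (nat_lit 0) (nat_lit 76614143069) (nat_lit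 152) (nat_lit 1467506290286) (nat_lit 76) (nat_lit 4515503957201) (nat_lit 3) (nat_lit 5) (nat_lit 5) (nat_lit 5) (nat_lit 4) (nat_lit 4) (nat_lit 259) (nat_lit 236) (nat_lit 105)) (XT.lf (nat_lit 0) (nat_lit 541658131082) (nat_lit 152) (nat_lit 467661718439) (nat_lit 76) (nat_lit 5856042912391) (nat_lit 3) (nat_lit 5) (nat_lit 5) (nat_lit 5) (nat_lit 4) (nat_lit 4) (nat_lit 260) (nat_lit 236) (nat_lit 104))))) (XT.nd (nat_lit 312) (nat_lit 0) (nat_lit 0) (XT.nd (nat_lit 156) (nat_lit 0) (nat_lit 0) (XT.nd (nat_lit 78) (nat_lit 0) (nat_lit 0) (XT.lf (nat_lit 0) (nat_lit 748825126892) (nat_lit 76) (nat_lit 358640840191) (nat_lit 152) (nat_lit 6679844834430) (nat_lit 2) (nat_lit 5) (nat_lit 3) (nat_lit 5) (nat_lit 4) (nat_lit 4) (nat_lit 261) (nat_lit 236) (nat_lit 103)) (XT.lf (nat_lit 0) (nat_lit 1799889185518) (nat_lit 152) (nat_lit 6660838613784) (nat_lit 0) (nat_lit 380561616703)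 (nat_lit 2) (nat_lit 5) (nat_lit 4) (nat_lit 4) (nat_lit 2) (nat_lit 4) (nat_lit 262) (nat_lit 236) (nat_lit 102))) (XT.nd (nat_lit 78) (nat_lit 0) (nat_lit 0) (XT.lf (nat_lit 0) (nat_lit 2613254020406) (nat_lit 152) (nat_lit 6243622631991) (nat_lit 0) (nat_lit 1193926450229) (nat_lit 2) (nat_lit 5) (nat_lit 4) (nat_lit 4) (nat_lit 2) (nat_lit 4) (nat_lit 263) (nat_lit 236) (nat_lit 101)) (XT.lf (nat_lit 0) (nat_lit 3548623579170) (nat_lit 152) (nat_lit 5763824255468) (nat_lit 0) (nat_lit 2129296007810) (nat_lit 2) (nat_lit 5) (nat_lit 4) (nat_lit 4) (nat_lit 2) (nat_lit 4) (nat_lit 264) (nat_lit 236) (nat_lit 100)))) (XT.nd (nat_lit 156) (nat_lit 0) (nat_lit 0) (XT.nd (nat_lit 78) (nat_lit 0) (nat_lit 0) (XT.lf (nat_lit 0) (nat_lit 4624298570571) (nat_lit 152) (nat_lit 5212056124675) (nat_lit 0) (nat_lit 3204970998181) (nat_lit 2) (nat_lit 5) (nat_lit 4) (nat_lit 4) (nat_lit 2) (nat_lit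 4) (nat_lit 265) (nat_lit 236) (nat_lit 99)) (XT.lf (nat_lit 0) (nat_lit 5861324809655) (nat_lit 152) (nat_lit 4577522776184) (nat_lit 0) (nat_lit 4441997236370) (nat_lit 2) (nat_lit 5) (nat_lit 4) (nat_lit 4) (nat_lit 2) (nat_lit 4) (nat_lit 266) (nat_lit 236) (nat_lit 98))) (XT.nd (nat_lit 78) (nat_lit 0) (nat_lit 0) (XT.lf (nat_lit 0) (nat_lit 7283904983711) (nat_lit 152) (nat_lit 3847809427089) (nat_lit 0) (nat_lit 5864577409648) (nat_lit 2) (nat_lit 5) (nat_lit 4) (nat_lit 4) (nat_lit 2) (nat_lit 4) (nat_lit 267) (nat_lit 236) (nat_lit 97)) (XT.lf (nat_lit 0) (nat_lit 8919872183100) (nat_lit 152) (nat_lit 3008639077081) (nat_lit 0) (nat_lit 7500544608360) (nat_lit 2) (nat_lit 5) (nat_lit 4) (nat_lit 4) (nat_lit 2) (nat_lit 4) (nat_lit 268) (nat_lit 236) (nat_lit 96))))))) (XT.nd (nat_lit 29718) (nat_lit 0) (nat_lit 76) (XT.nd (nat_lit 29094) (nat_lit 0) (nat_lit 532) (XT.nd (nat_lit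 28782) (nat_lit 0) (nat_lit 1140) (XT.nd (nat_lit 78) (nat_lit 76) (nat_lit 0) (XT.lf (nat_lit 0) (nat_lit 10801234461723) (nat_lit 152) (nat_lit 2043593175836) (nat_lit 0) (nat_lit 9381906886394) (nat_lit 2) (nat_lit 5) (nat_lit 4) (nat_lit 4) (nat_lit 2) (nat_lit 4) (nat_lit 269) (nat_lit 236) (nat_lit 95)) (XT.nd (nat_lit 78) (nat_lit 76) (nat_lit 0) (XT.lf (nat_lit 0) (nat_lit 12964801081552) (nat_lit 152) (nat_lit 933790390501) (nat_lit 0) (nat_lit 11545473505712) (nat_lit 2) (nat_lit 5) (nat_lit 4) (nat_lit 4) (nat_lit 2) (nat_lit 4) (nat_lit 270) (nat_lit 236) (nat_lit 94)) (XT.lf (nat_lit 0) (nat_lit 375952722819) (nat_lit 76) (nat_lit 15092517371558) (nat_lit 76) (nat_lit 13673189795273) (nat_lit 1) (nat_lit 4) (nat_lit 2) (nat_lit 5) (nat_lit 2) (nat_lit 4) (nat_lit 271) (nat_lit 236) (nat_lit 93)))) (XT.nd (nat_lit 156) (nat_lit 0) (nat_lit 0) (XT.nd (nat_lit 78) (nat_lit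 0) (nat_lit 0) (XT.lf (nat_lit 0) (nat_lit 161558408232) (nat_lit 0) (nat_lit 161558408232) (nat_lit 228) (nat_lit 38528563726) (nat_lit 16) (nat_lit 5) (nat_lit 16) (nat_lit 3) (nat_lit 19) (nat_lit 3) (nat_lit 237) (nat_lit 237) (nat_lit 126)) (XT.lf (nat_lit 0) (nat_lit 672982292467) (nat_lit 0) (nat_lit 21718965312) (nat_lit 228) (nat_lit 82836292854) (nat_lit 16) (nat_lit 5) (nat_lit 16) (nat_lit 3) (nat_lit 19) (nat_lit 3) (nat_lit 238) (nat_lit 237) (nat_lit 125))) (XT.nd (nat_lit 78) (nat_lit 0) (nat_lit 0) (XT.lf (nat_lit 76) (nat_lit 243644163654) (nat_lit 0) (nat_lit 530336572685) (nat_lit 304) (nat_lit 62409366840) (nat_lit 17) (nat_lit 5) (nat_lit 16) (nat_lit 5) (nat_lit 20) (nat_lit 5) (nat_lit 239) (nat_lit 237) (nat_lit 124)) (XT.lf (nat_lit 76) (nat_lit 654688762550) (nat_lit 0) (nat_lit 216915972306) (nat_lit 304) (nat_lit 31497914243) (nat_lit 17) (nat_lit 5) (nat_lit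 16) (nat_lit 5) (nat_lit 20) (nat_lit 5) (nat_lit 240) (nat_lit 237) (nat_lit 123))))) (XT.nd (nat_lit 312) (nat_lit 228) (nat_lit 0) (XT.nd (nat_lit 156) (nat_lit 152) (nat_lit 0) (XT.nd (nat_lit 78) (nat_lit 0) (nat_lit 0) (XT.lf (nat_lit 0) (nat_lit 16659468259) (nat_lit 304) (nat_lit 823256443599) (nat_lit 76) (nat_lit 137935539270) (nat_lit 13) (nat_lit 5) (nat_lit 17) (nat_lit 5) (nat_lit 14) (nat_lit 5) (nat_lit 241) (nat_lit 237) (nat_lit 122)) (XT.lf (nat_lit 0) (nat_lit 92748608056) (nat_lit 304) (nat_lit 428338806243) (nat_lit 76) (nat_lit 538910233748) (nat_lit 13) (nat_lit 5) (nat_lit 17) (nat_lit 5) (nat_lit 14) (nat_lit 5) (nat_lit 242) (nat_lit 237) (nat_lit 121))) (XT.nd (nat_lit 78) (nat_lit 0) (nat_lit 0) (XT.lf (nat_lit 0) (nat_lit 28339437554) (nat_lit 152) (nat_lit 153085145436) (nat_lit 228) (nat_lit 972865172014) (nat_lit 11) (nat_lit 5) (nat_lit 13) (nat_lit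 5) (nat_lit 14) (nat_lit 5) (nat_lit 243) (nat_lit 237) (nat_lit 120)) (XT.lf (nat_lit 0) (nat_lit 318043580716) (nat_lit 228) (nat_lit 669959466038) (nat_lit 76) (nat_lit 269526387379) (nat_lit 11) (nat_lit 5) (nat_lit 14) (nat_lit 5) (nat_lit 12) (nat_lit 5) (nat_lit 244) (nat_lit 237) (nat_lit 119)))) (XT.nd (nat_lit 156) (nat_lit 76) (nat_lit 0) (XT.nd (nat_lit 78) (nat_lit 152) (nat_lit 0) (XT.lf (nat_lit 0) (nat_lit 482445187790) (nat_lit 228) (nat_lit 152859767021) (nat_lit 76) (nat_lit 739856646461) (nat_lit 11) (nat_lit 5) (nat_lit 14) (nat_lit 5) (nat_lit 12) (nat_lit 5) (nat_lit 245) (nat_lit 237) (nat_lit 118)) (XT.lf (nat_lit 0) (nat_lit 484981262751) (nat_lit 152) (nat_lit 206607805092) (nat_lit 228) (nat_lit 815837220934) (nat_lit 9) (nat_lit 5) (nat_lit 11) (nat_lit 5) (nat_lit 12) (nat_lit 5) (nat_lit 246) (nat_lit 237) (nat_lit 117))) (XT.nd (nat_lit 78) (nat_lit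 76) (nat_lit 0) (XT.lf (nat_lit 0) (nat_lit 952334375894) (nat_lit 228) (nat_lit 434893786421) (nat_lit 76) (nat_lit 269268040265) (nat_lit 9) (nat_lit 5) (nat_lit 12) (nat_lit 5) (nat_lit 10) (nat_lit 4) (nat_lit 247) (nat_lit 237) (nat_lit 116)) (XT.lf (nat_lit 0) (nat_lit 253521939303) (nat_lit 76) (nat_lit 1019005804207) (nat_lit 152) (nat_lit 552348420503) (nat_lit 8) (nat_lit 5) (nat_lit 9) (nat_lit 5) (nat_lit 10) (nat_lit 4) (nat_lit 248) (nat_lit 237) (nat_lit 115)))))) (XT.nd (nat_lit 624) (nat_lit 228) (nat_lit 0) (XT.nd (nat_lit 312) (nat_lit 76) (nat_lit 0) (XT.nd (nat_lit 156) (nat_lit 152) (nat_lit 0) (XT.nd (nat_lit 78) (nat_lit 0) (nat_lit 0) (XT.lf (nat_lit 0) (nat_lit 1094076146444) (nat_lit 76) (nat_lit 569407048173) (nat_lit 152) (nat_lit 351619963346) (nat_lit 8) (nat_lit 5) (nat_lit 9) (nat_lit 5) (nat_lit 10) (nat_lit 4) (nat_lit 249) (nat_lit 237) (nat_lit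 114)) (XT.lf (nat_lit 0) (nat_lit 2060713477119) (nat_lit 76) (nat_lit 52368481103) (nat_lit 152) (nat_lit 120782243605) (nat_lit 8) (nat_lit 5) (nat_lit 9) (nat_lit 5) (nat_lit 10) (nat_lit 4) (nat_lit 250) (nat_lit 237) (nat_lit 113))) (XT.nd (nat_lit 78) (nat_lit 0) (nat_lit 0) (XT.lf (nat_lit 0) (nat_lit 186962888283) (nat_lit 152) (nat_lit 1756649566446) (nat_lit 76) (nat_lit 532653966610) (nat_lit 6) (nat_lit 5) (nat_lit 8) (nat_lit 5) (nat_lit 7) (nat_lit 4) (nat_lit 251) (nat_lit 237) (nat_lit 112)) (XT.lf (nat_lit 0) (nat_lit 540479785014) (nat_lit 152) (nat_lit 996588245757) (nat_lit 76) (nat_lit 1215301843297) (nat_lit 6) (nat_lit 5) (nat_lit 8) (nat_lit 5) (nat_lit 7) (nat_lit 4) (nat_lit 252) (nat_lit 237) (nat_lit 111)))) (XT.nd (nat_lit 156) (nat_lit 0) (nat_lit 0) (XT.nd (nat_lit 78) (nat_lit 76) (nat_lit 0) (XT.lf (nat_lit 0) (nat_lit 947024212341) (nat_lit 152) (nat_lit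 122517733337) (nat_lit 76) (nat_lit 2000346899642) (nat_lit 6) (nat_lit 5) (nat_lit 8) (nat_lit 5) (nat_lit 7) (nat_lit 4) (nat_lit 253) (nat_lit 237) (nat_lit 110)) (XT.lf (nat_lit 0) (nat_lit 968923632375) (nat_lit 76) (nat_lit 485747729370) (nat_lit 152) (nat_lit 1974346141842) (nat_lit 5) (nat_lit 5) (nat_lit 6) (nat_lit 5) (nat_lit 7) (nat_lit 4) (nat_lit 254) (nat_lit 237) (nat_lit 109))) (XT.nd (nat_lit 78) (nat_lit 0) (nat_lit 0) (XT.lf (nat_lit 0) (nat_lit 2052860831713) (nat_lit 152) (nat_lit 1611195205764) (nat_lit 0) (nat_lit 175800135914) (nat_lit 5) (nat_lit 5) (nat_lit 7) (nat_lit 4) (nat_lit 5) (nat_lit 4) (nat_lit 255) (nat_lit 237) (nat_lit 108)) (XT.lf (nat_lit 0) (nat_lit 2763909563591) (nat_lit 152) (nat_lit 658092589710) (nat_lit 0) (nat_lit 886848864171) (nat_lit 5) (nat_lit 5) (nat_lit 7) (nat_lit 4) (nat_lit 5) (nat_lit 4) (nat_lit 256) (nat_lit 237) (nat_lit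 107))))) (XT.nd (nat_lit 312) (nat_lit 76) (nat_lit 0) (XT.nd (nat_lit 156) (nat_lit 76) (nat_lit 0) (XT.nd (nat_lit 78) (nat_lit 0) (nat_lit 0) (XT.lf (nat_lit 0) (nat_lit 480777557216) (nat_lit 76) (nat_lit 3120746018948) (nat_lit 76) (nat_lit 1243685316379) (nat_lit 4) (nat_lit 4) (nat_lit 5) (nat_lit 5) (nat_lit 5) (nat_lit 4) (nat_lit 257) (nat_lit 237) (nat_lit 106)) (XT.lf (nat_lit 0) (nat_lit 1864438855164) (nat_lit 76) (nat_lit 2734741127606) (nat_lit 76) (nat_lit 857680422299) (nat_lit 4) (nat_lit 4) (nat_lit 5) (nat_lit 5) (nat_lit 5) (nat_lit 4) (nat_lit 258) (nat_lit 237) (nat_lit 105))) (XT.nd (nat_lit 78) (nat_lit 76) (nat_lit 0) (XT.lf (nat_lit 0) (nat_lit 3455649344227) (nat_lit 76) (nat_lit 2290835504123) (nat_lit 76) (nat_lit 413774796435) (nat_lit 4) (nat_lit 4) (nat_lit 5) (nat_lit 5) (nat_lit 5) (nat_lit 4) (nat_lit 259) (nat_lit 237) (nat_lit 104)) (XT.lf (nat_lit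 0) (nat_lit 88106284398) (nat_lit 152) (nat_lit 1687632198302) (nat_lit 76) (nat_lit 5192829563365) (nat_lit 3) (nat_lit 5) (nat_lit 5) (nat_lit 5) (nat_lit 4) (nat_lit 4) (nat_lit 260) (nat_lit 237) (nat_lit 103)))) (XT.nd (nat_lit 234) (nat_lit 0) (nat_lit 0) (XT.nd (nat_lit 78) (nat_lit 76) (nat_lit 0) (XT.lf (nat_lit 0) (nat_lit 622906868021) (nat_lit 152) (nat_lit 537810945312) (nat_lit 76) (nat_lit 6734449360192) (nat_lit 3) (nat_lit 5) (nat_lit 5) (nat_lit 5) (nat_lit 4) (nat_lit 4) (nat_lit 261) (nat_lit 237) (nat_lit 102)) (XT.lf (nat_lit 0) (nat_lit 861148925415) (nat_lit 76) (nat_lit 412436952975) (nat_lit 152) (nat_lit 7681821540841) (nat_lit 2) (nat_lit 5) (nat_lit 3) (nat_lit 5) (nat_lit 4) (nat_lit 4) (nat_lit 262) (nat_lit 237) (nat_lit 101))) (XT.nd (nat_lit 78) (nat_lit 0) (nat_lit 0) (XT.lf (nat_lit 0) (nat_lit 3005242136164) (nat_lit 152) (nat_lit 7180166003010)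 (nat_lit 0) (nat_lit 1373015426887) (nat_lit 2) (nat_lit 5) (nat_lit 4) (nat_lit 4) (nat_lit 2) (nat_lit 4) (nat_lit 264) (nat_lit 237) (nat_lit 99)) (XT.lf (nat_lit 0) (nat_lit 4080917127088) (nat_lit 152) (nat_lit 6628397873110) (nat_lit 0) (nat_lit 2448690416915) (nat_lit 2) (nat_lit 5) (nat_lit 4) (nat_lit 4) (nat_lit 2) (nat_lit 4) (nat_lit 265) (nat_lit 237) (nat_lit 98))))))))
noncomputable def xc59 : XT := (XT.nd (nat_lit 31278) (nat_lit 76) (nat_lit 0) (XT.nd (nat_lit 29874) (nat_lit 0) (nat_lit 0) (XT.nd (nat_lit 29250) (nat_lit 0) (nat_lit 532) (XT.nd (nat_lit 234) (nat_lit 0) (nat_lit 0) (XT.nd (nat_lit 78) (nat_lit 0) (nat_lit 0) (XT.lf (nat_lit 0) (nat_lit 5317943365757) (nat_lit 152) (nat_lit 5993864525396) (nat_lit 0) (nat_lit 3685716654806) (nat_lit 2) (nat_lit 5) (nat_lit 4) (nat_lit 4) (nat_lit 2) (nat_lit 4) (nat_lit 266) (nat_lit 237) (nat_lit 97)) (XT.nd (nat_lit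 78) (nat_lit 0) (nat_lit 0) (XT.lf (nat_lit 0) (nat_lit 6740523539453) (nat_lit 152) (nat_lit 5264151176976) (nat_lit 0) (nat_lit 5108296827825) (nat_lit 2) (nat_lit 5) (nat_lit 4) (nat_lit 4) (nat_lit 2) (nat_lit 4) (nat_lit 267) (nat_lit 237) (nat_lit 96)) (XT.lf (nat_lit 0) (nat_lit 8376490738528) (nat_lit 152) (nat_lit 4424980827556) (nat_lit 0) (nat_lit 6744264026311) (nat_lit 2) (nat_lit 5) (nat_lit 4) (nat_lit 4) (nat_lit 2) (nat_lit 4) (nat_lit 268) (nat_lit 237) (nat_lit 95)))) (XT.nd (nat_lit 28860) (nat_lit 0) (nat_lit 1064) (XT.nd (nat_lit 78) (nat_lit 0) (nat_lit 0) (XT.lf (nat_lit 0) (nat_lit 10257853016878) (nat_lit 152) (nat_lit 3459934926821) (nat_lit 0) (nat_lit 8625626304149) (nat_lit 2) (nat_lit 5) (nat_lit 4) (nat_lit 4) (nat_lit 2) (nat_lit 4) (nat_lit 269) (nat_lit 237) (nat_lit 94)) (XT.lf (nat_lit 0) (nat_lit 12421419636471) (nat_lit 152) (nat_lit 2350132141930)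 (nat_lit 0) (nat_lit 10789192923297) (nat_lit 2) (nat_lit 5) (nat_lit 4) (nat_lit 4) (nat_lit 2) (nat_lit 4) (nat_lit 270) (nat_lit 237) (nat_lit 93))) (XT.nd (nat_lit 78) (nat_lit 0) (nat_lit 0) (XT.lf (nat_lit 0) (nat_lit 185792218538) (nat_lit 0) (nat_lit 185792218538) (nat_lit 228) (nat_lit 44307734061) (nat_lit 16) (nat_lit 5) (nat_lit 16) (nat_lit 3) (nat_lit 19) (nat_lit 3) (nat_lit 238) (nat_lit 238) (nat_lit 124)) (XT.lf (nat_lit 0) (nat_lit 773929721678) (nat_lit 0) (nat_lit 24976895450) (nat_lit 228) (nat_lit 95261538132) (nat_lit 16) (nat_lit 5) (nat_lit 16) (nat_lit 3) (nat_lit 19) (nat_lit 3) (nat_lit 239) (nat_lit 238) (nat_lit 123))))) (XT.nd (nat_lit 312) (nat_lit 304) (nat_lit 0) (XT.nd (nat_lit 156) (nat_lit 228) (nat_lit 0) (XT.nd (nat_lit 78) (nat_lit 0) (nat_lit 0) (XT.lf (nat_lit 76) (nat_lit 280190899734) (nat_lit 0) (nat_lit 609887097020) (nat_lit 304) (nat_lit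 71770597350) (nat_lit 17) (nat_lit 5) (nat_lit 16) (nat_lit 5) (nat_lit 20) (nat_lit 5) (nat_lit 240) (nat_lit 238) (nat_lit 122)) (XT.lf (nat_lit 76) (nat_lit 752892173917) (nat_lit 0) (nat_lit 249453401571) (nat_lit 304) (nat_lit 36222449626) (nat_lit 17) (nat_lit 5) (nat_lit 16) (nat_lit 5) (nat_lit 20) (nat_lit 5) (nat_lit 241) (nat_lit 238) (nat_lit 121))) (XT.nd (nat_lit 78) (nat_lit 0) (nat_lit 0) (XT.lf (nat_lit 0) (nat_lit 19158512406) (nat_lit 304) (nat_lit 946744782401) (nat_lit 76) (nat_lit 158625854052) (nat_lit 13) (nat_lit 5) (nat_lit 17) (nat_lit 5) (nat_lit 14) (nat_lit 5) (nat_lit 242) (nat_lit 238) (nat_lit 120)) (XT.lf (nat_lit 0) (nat_lit 106661007011) (nat_lit 304) (nat_lit 492589516102) (nat_lit 76) (nat_lit 619746754803) (nat_lit 13) (nat_lit 5) (nat_lit 17) (nat_lit 5) (nat_lit 14) (nat_lit 5) (nat_lit 243) (nat_lit 238) (nat_lit 119)))) (XT.nd (nat_lit 156)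 (nat_lit 152) (nat_lit 0) (XT.nd (nat_lit 78) (nat_lit 0) (nat_lit 0) (XT.lf (nat_lit 0) (nat_lit 32590459215) (nat_lit 152) (nat_lit 176047909307) (nat_lit 228) (nat_lit 1118794833999) (nat_lit 11) (nat_lit 5) (nat_lit 13) (nat_lit 5) (nat_lit 14) (nat_lit 5) (nat_lit 244) (nat_lit 238) (nat_lit 118)) (XT.lf (nat_lit 0) (nat_lit 365750203399) (nat_lit 228) (nat_lit 770453280349) (nat_lit 76) (nat_lit 309955351780) (nat_lit 11) (nat_lit 5) (nat_lit 14) (nat_lit 5) (nat_lit 12) (nat_lit 5) (nat_lit 245) (nat_lit 238) (nat_lit 117))) (XT.nd (nat_lit 78) (nat_lit 152) (nat_lit 0) (XT.lf (nat_lit 0) (nat_lit 554812040372) (nat_lit 228) (nat_lit 175788640252) (nat_lit 76) (nat_lit 850835148903) (nat_lit 11) (nat_lit 5) (nat_lit 14) (nat_lit 5) (nat_lit 12) (nat_lit 5) (nat_lit 246) (nat_lit 238) (nat_lit 116)) (XT.lf (nat_lit 0) (nat_lit 557728539812) (nat_lit 152) (nat_lit 237598956544)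 (nat_lit 228) (nat_lit 938212724814) (nat_lit 9) (nat_lit 5) (nat_lit 11) (nat_lit 5) (nat_lit 12) (nat_lit 5) (nat_lit 247) (nat_lit 238) (nat_lit 115)))))) (XT.nd (nat_lit 624) (nat_lit 228) (nat_lit 0) (XT.nd (nat_lit 312) (nat_lit 228) (nat_lit 0) (XT.nd (nat_lit 156) (nat_lit 0) (nat_lit 0) (XT.nd (nat_lit 78) (nat_lit 76) (nat_lit 0) (XT.lf (nat_lit 0) (nat_lit 1095184592397) (nat_lit 228) (nat_lit 500127769366) (nat_lit 76) (nat_lit 309658261602) (nat_lit 9) (nat_lit 5) (nat_lit 12) (nat_lit 5) (nat_lit 10) (nat_lit 4) (nat_lit 248) (nat_lit 238) (nat_lit 114)) (XT.lf (nat_lit 0) (nat_lit 291550311353) (nat_lit 76) (nat_lit 1171856649321) (nat_lit 152) (nat_lit 635200619087) (nat_lit 8) (nat_lit 5) (nat_lit 9) (nat_lit 5) (nat_lit 10) (nat_lit 4) (nat_lit 249) (nat_lit 238) (nat_lit 113))) (XT.nd (nat_lit 78) (nat_lit 0) (nat_lit 0) (XT.lf (nat_lit 0) (nat_lit 1258187638980)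 (nat_lit 76) (nat_lit 654818083210) (nat_lit 152) (nat_lit 404362901768) (nat_lit 8) (nat_lit 5) (nat_lit 9) (nat_lit 5) (nat_lit 10) (nat_lit 4) (nat_lit 250) (nat_lit 238) (nat_lit 112)) (XT.lf (nat_lit 0) (nat_lit 2369820560052) (nat_lit 76) (nat_lit 60223733974) (nat_lit 152) (nat_lit 138899531381) (nat_lit 8) (nat_lit 5) (nat_lit 9) (nat_lit 5) (nat_lit 10) (nat_lit 4) (nat_lit 251) (nat_lit 238) (nat_lit 111)))) (XT.nd (nat_lit 156) (nat_lit 76) (nat_lit 0) (XT.nd (nat_lit 78) (nat_lit 0) (nat_lit 0) (XT.lf (nat_lit 0) (nat_lit 215007363667) (nat_lit 152) (nat_lit 2020146932801) (nat_lit 76) (nat_lit 612552081460) (nat_lit 6) (nat_lit 5) (nat_lit 8) (nat_lit 5) (nat_lit 7) (nat_lit 4) (nat_lit 252) (nat_lit 238) (nat_lit 110)) (XT.lf (nat_lit 0) (nat_lit 621551789411) (nat_lit 152) (nat_lit 1146076422958) (nat_lit 76) (nat_lit 1397597137060) (nat_lit 6) (nat_lit 5) (nat_lit 8)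 (nat_lit 5) (nat_lit 7) (nat_lit 4) (nat_lit 253) (nat_lit 238) (nat_lit 109))) (XT.nd (nat_lit 78) (nat_lit 76) (nat_lit 0) (XT.lf (nat_lit 0) (nat_lit 1089077876058) (nat_lit 152) (nat_lit 140895341457) (nat_lit 76) (nat_lit 2300398949604) (nat_lit 6) (nat_lit 5) (nat_lit 8) (nat_lit 5) (nat_lit 7) (nat_lit 4) (nat_lit 254) (nat_lit 238) (nat_lit 108)) (XT.lf (nat_lit 0) (nat_lit 1114262226754) (nat_lit 76) (nat_lit 558609869013) (nat_lit 152) (nat_lit 2270498028703) (nat_lit 5) (nat_lit 5) (nat_lit 6) (nat_lit 5) (nat_lit 7) (nat_lit 4) (nat_lit 255) (nat_lit 238) (nat_lit 107))))) (XT.nd (nat_lit 312) (nat_lit 152) (nat_lit 0) (XT.nd (nat_lit 156) (nat_lit 76) (nat_lit 0) (XT.nd (nat_lit 78) (nat_lit 0) (nat_lit 0) (XT.lf (nat_lit 0) (nat_lit 2360789983060) (nat_lit 152) (nat_lit 1852874440230) (nat_lit 0) (nat_lit 202170171957) (nat_lit 5) (nat_lit 5) (nat_lit 7) (nat_lit 4) (nat_lit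 5) (nat_lit 4) (nat_lit 256) (nat_lit 238) (nat_lit 106)) (XT.lf (nat_lit 0) (nat_lit 3178496021251) (nat_lit 152) (nat_lit 756806437820) (nat_lit 0) (nat_lit 1019876207410) (nat_lit 5) (nat_lit 5) (nat_lit 7) (nat_lit 4) (nat_lit 5) (nat_lit 4) (nat_lit 257) (nat_lit 238) (nat_lit 105))) (XT.nd (nat_lit 78) (nat_lit 0) (nat_lit 0) (XT.lf (nat_lit 0) (nat_lit 552894229312) (nat_lit 76) (nat_lit 3588857904978) (nat_lit 76) (nat_lit 1430238088755) (nat_lit 4) (nat_lit 4) (nat_lit 5) (nat_lit 5) (nat_lit 5) (nat_lit 4) (nat_lit 258) (nat_lit 238) (nat_lit 104)) (XT.lf (nat_lit 0) (nat_lit 2144104716928) (nat_lit 76) (nat_lit 3144952282126) (nat_lit 76) (nat_lit 986332463834) (nat_lit 4) (nat_lit 4) (nat_lit 5) (nat_lit 5) (nat_lit 5) (nat_lit 4) (nat_lit 259) (nat_lit 238) (nat_lit 103)))) (XT.nd (nat_lit 156) (nat_lit 76) (nat_lit 0) (XT.nd (nat_lit 78) (nat_lit 76) (nat_lit 0) (XT.lf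 (nat_lit 0) (nat_lit 3973996774982) (nat_lit 76) (nat_lit 2634460817028) (nat_lit 76) (nat_lit 475840996935) (nat_lit 4) (nat_lit 4) (nat_lit 5) (nat_lit 5) (nat_lit 5) (nat_lit 4) (nat_lit 260) (nat_lit 238) (nat_lit 102)) (XT.lf (nat_lit 0) (nat_lit 101322242080) (nat_lit 152) (nat_lit 1940777001184) (nat_lit 76) (nat_lit 5971754007384) (nat_lit 3) (nat_lit 5) (nat_lit 5) (nat_lit 5) (nat_lit 4) (nat_lit 4) (nat_lit 261) (nat_lit 238) (nat_lit 101))) (XT.nd (nat_lit 234) (nat_lit 76) (nat_lit 0) (XT.lf (nat_lit 0) (nat_lit 716342911288) (nat_lit 152) (nat_lit 618482563749) (nat_lit 76) (nat_lit 7744616772495) (nat_lit 3) (nat_lit 5) (nat_lit 5) (nat_lit 5) (nat_lit 4) (nat_lit 4) (nat_lit 262) (nat_lit 238) (nat_lit 100)) (XT.lf (nat_lit 0) (nat_lit 3456028466190) (nat_lit 152) (nat_lit 8257190885481) (nat_lit 0) (nat_lit 1578967747818) (nat_lit 2) (nat_lit 5) (nat_lit 4) (nat_lit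 4) (nat_lit 2) (nat_lit 4) (nat_lit 265) (nat_lit 238) (nat_lit 97))))))) (XT.nd (nat_lit 30030) (nat_lit 0) (nat_lit 76) (XT.nd (nat_lit 29406) (nat_lit 0) (nat_lit 608) (XT.nd (nat_lit 546) (nat_lit 76) (nat_lit 0) (XT.nd (nat_lit 78) (nat_lit 0) (nat_lit 0) (XT.lf (nat_lit 0) (nat_lit 4693054704500) (nat_lit 152) (nat_lit 7622657538441) (nat_lit 0) (nat_lit 2815993985451) (nat_lit 2) (nat_lit 5) (nat_lit 4) (nat_lit 4) (nat_lit 2) (nat_lit 4) (nat_lit 266) (nat_lit 238) (nat_lit 96)) (XT.nd (nat_lit 78) (nat_lit 0) (nat_lit 0) (XT.lf (nat_lit 0) (nat_lit 6115634877881) (nat_lit 152) (nat_lit 6892944190609) (nat_lit 0) (nat_lit 4238574158243) (nat_lit 2) (nat_lit 5) (nat_lit 4) (nat_lit 4) (nat_lit 2) (nat_lit 4) (nat_lit 267) (nat_lit 238) (nat_lit 95)) (XT.lf (nat_lit 0) (nat_lit 7751602076683) (nat_lit 152) (nat_lit 6053773841700) (nat_lit 0) (nat_lit 5874541356534) (nat_lit 2)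 (nat_lit 5) (nat_lit 4) (nat_lit 4) (nat_lit 2) (nat_lit 4) (nat_lit 268) (nat_lit 238) (nat_lit 94)))) (XT.nd (nat_lit 28704) (nat_lit 0) (nat_lit 1140) (XT.nd (nat_lit 28626) (nat_lit 0) (nat_lit 1140) (XT.lf (nat_lit 0) (nat_lit 497197492194) (nat_lit 76) (nat_lit 19959854216206) (nat_lit 76) (nat_lit 18082793494341) (nat_lit 1) (nat_lit 4) (nat_lit 2) (nat_lit 5) (nat_lit 2) (nat_lit 4) (nat_lit 273) (nat_lit 238) (nat_lit 89)) (XT.lf (nat_lit 0) (nat_lit 213661088423) (nat_lit 0) (nat_lit 213661088423) (nat_lit 228) (nat_lit 50953807801) (nat_lit 16) (nat_lit 5) (nat_lit 16) (nat_lit 3) (nat_lit 19) (nat_lit 3) (nat_lit 239) (nat_lit 239) (nat_lit 122))) (XT.nd (nat_lit 78) (nat_lit 0) (nat_lit 0) (XT.lf (nat_lit 0) (nat_lit 890019244459) (nat_lit 0) (nat_lit 28723494297) (nat_lit 228) (nat_lit 109550618645) (nat_lit 16) (nat_lit 5) (nat_lit 16) (nat_lit 3) (nat_lit 19) (nat_lit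 3) (nat_lit 240) (nat_lit 239) (nat_lit 121)) (XT.lf (nat_lit 76) (nat_lit 322219619028) (nat_lit 0) (nat_lit 701370190632) (nat_lit 304) (nat_lit 82536054993) (nat_lit 17) (nat_lit 5) (nat_lit 16) (nat_lit 5) (nat_lit 20) (nat_lit 5) (nat_lit 241) (nat_lit 239) (nat_lit 120))))) (XT.nd (nat_lit 312) (nat_lit 152) (nat_lit 0) (XT.nd (nat_lit 156) (nat_lit 152) (nat_lit 0) (XT.nd (nat_lit 78) (nat_lit 228) (nat_lit 0) (XT.lf (nat_lit 76) (nat_lit 865826073338) (nat_lit 0) (nat_lit 286871437076) (nat_lit 304) (nat_lit 41655702323) (nat_lit 17) (nat_lit 5) (nat_lit 16) (nat_lit 5) (nat_lit 20) (nat_lit 5) (nat_lit 242) (nat_lit 239) (nat_lit 119)) (XT.lf (nat_lit 0) (nat_lit 22032382959) (nat_lit 304) (nat_lit 1088756403172) (nat_lit 76) (nat_lit 182419719979) (nat_lit 13) (nat_lit 5) (nat_lit 17) (nat_lit 5) (nat_lit 14) (nat_lit 5) (nat_lit 243) (nat_lit 239) (nat_lit 118))) (XT.nd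 (nat_lit 78) (nat_lit 152) (nat_lit 0) (XT.lf (nat_lit 0) (nat_lit 122660239534) (nat_lit 304) (nat_lit 566477859528) (nat_lit 76) (nat_lit 712708757432) (nat_lit 13) (nat_lit 5) (nat_lit 17) (nat_lit 5) (nat_lit 14) (nat_lit 5) (nat_lit 244) (nat_lit 239) (nat_lit 117)) (XT.lf (nat_lit 0) (nat_lit 37479108270) (nat_lit 152) (nat_lit 202455089695) (nat_lit 228) (nat_lit 1286613973036) (nat_lit 11) (nat_lit 5) (nat_lit 13) (nat_lit 5) (nat_lit 14) (nat_lit 5) (nat_lit 245) (nat_lit 239) (nat_lit 116)))) (XT.nd (nat_lit 156) (nat_lit 152) (nat_lit 0) (XT.nd (nat_lit 78) (nat_lit 0) (nat_lit 0) (XT.lf (nat_lit 0) (nat_lit 420612798616) (nat_lit 228) (nat_lit 886021192556) (nat_lit 76) (nat_lit 356448659306) (nat_lit 11) (nat_lit 5) (nat_lit 14) (nat_lit 5) (nat_lit 12) (nat_lit 5) (nat_lit 246) (nat_lit 239) (nat_lit 115)) (XT.lf (nat_lit 0) (nat_lit 638033902695) (nat_lit 228) (nat_lit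 202156866860) (nat_lit 76) (nat_lit 978460425377) (nat_lit 11) (nat_lit 5) (nat_lit 14) (nat_lit 5) (nat_lit 12) (nat_lit 5) (nat_lit 247) (nat_lit 239) (nat_lit 114))) (XT.nd (nat_lit 78) (nat_lit 0) (nat_lit 0) (XT.lf (nat_lit 0) (nat_lit 641387887059) (nat_lit 152) (nat_lit 273238785423) (nat_lit 228) (nat_lit 1078944573604) (nat_lit 9) (nat_lit 5) (nat_lit 11) (nat_lit 5) (nat_lit 12) (nat_lit 5) (nat_lit 248) (nat_lit 239) (nat_lit 113)) (XT.lf (nat_lit 0) (nat_lit 1259462326715) (nat_lit 228) (nat_lit 575146870484) (nat_lit 76) (nat_lit 356107012410) (nat_lit 9) (nat_lit 5) (nat_lit 12) (nat_lit 5) (nat_lit 10) (nat_lit 4) (nat_lit 249) (nat_lit 239) (nat_lit 112)))))) (XT.nd (nat_lit 624) (nat_lit 228) (nat_lit 0) (XT.nd (nat_lit 312) (nat_lit 76) (nat_lit 0) (XT.nd (nat_lit 156) (nat_lit 152) (nat_lit 0) (XT.nd (nat_lit 78) (nat_lit 0) (nat_lit 0) (XT.lf (nat_lit 0) (nat_lit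 335282919421) (nat_lit 76) (nat_lit 1347635127424) (nat_lit 152) (nat_lit 730480663185) (nat_lit 8) (nat_lit 5) (nat_lit 9) (nat_lit 5) (nat_lit 10) (nat_lit 4) (nat_lit 250) (nat_lit 239) (nat_lit 111)) (XT.lf (nat_lit 0) (nat_lit 1446915838187) (nat_lit 76) (nat_lit 753040778914) (nat_lit 152) (nat_lit 465017294630) (nat_lit 8) (nat_lit 5) (nat_lit 9) (nat_lit 5) (nat_lit 10) (nat_lit 4) (nat_lit 251) (nat_lit 239) (nat_lit 110))) (XT.nd (nat_lit 78) (nat_lit 152) (nat_lit 0) (XT.lf (nat_lit 0) (nat_lit 2725293690460) (nat_lit 76) (nat_lit 69257279481) (nat_lit 152) (nat_lit 159734424215) (nat_lit 8) (nat_lit 5) (nat_lit 9) (nat_lit 5) (nat_lit 10) (nat_lit 4) (nat_lit 252) (nat_lit 239) (nat_lit 109)) (XT.lf (nat_lit 0) (nat_lit 247258500083) (nat_lit 152) (nat_lit 2323168920840) (nat_lit 76) (nat_lit 704434908695) (nat_lit 6) (nat_lit 5) (nat_lit 8) (nat_lit 5) (nat_lit 7) (nat_lit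 4) (nat_lit 253) (nat_lit 239) (nat_lit 108)))) (XT.nd (nat_lit 156) (nat_lit 76) (nat_lit 0) (XT.nd (nat_lit 78) (nat_lit 0) (nat_lit 0) (XT.lf (nat_lit 0) (nat_lit 714784585532) (nat_lit 152) (nat_lit 1317987841288) (nat_lit 76) (nat_lit 1607236720676) (nat_lit 6) (nat_lit 5) (nat_lit 8) (nat_lit 5) (nat_lit 7) (nat_lit 4) (nat_lit 254) (nat_lit 239) (nat_lit 107)) (XT.lf (nat_lit 0) (nat_lit 1252439581562) (nat_lit 152) (nat_lit 162029603446) (nat_lit 76) (nat_lit 2645458803399) (nat_lit 6) (nat_lit 5) (nat_lit 8) (nat_lit 5) (nat_lit 7) (nat_lit 4) (nat_lit 255) (nat_lit 239) (nat_lit 106))) (XT.nd (nat_lit 78) (nat_lit 0) (nat_lit 0) (XT.lf (nat_lit 0) (nat_lit 1281401598214) (nat_lit 76) (nat_lit 642401334422) (nat_lit 152) (nat_lit 2611072706986) (nat_lit 5) (nat_lit 5) (nat_lit 6) (nat_lit 5) (nat_lit 7) (nat_lit 4) (nat_lit 256) (nat_lit 239) (nat_lit 105)) (XT.lf (nat_lit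 0) (nat_lit 2714908500625) (nat_lit 152) (nat_lit 2130805571179) (nat_lit 0) (nat_lit 232495709588) (nat_lit 5) (nat_lit 5) (nat_lit 7) (nat_lit 4) (nat_lit 5) (nat_lit 4) (nat_lit 257) (nat_lit 239) (nat_lit 104))))) (XT.nd (nat_lit 312) (nat_lit 152) (nat_lit 0) (XT.nd (nat_lit 156) (nat_lit 0) (nat_lit 0) (XT.nd (nat_lit 78) (nat_lit 76) (nat_lit 0) (XT.lf (nat_lit 0) (nat_lit 3655270441922) (nat_lit 152) (nat_lit 870327372984) (nat_lit 0) (nat_lit 1172857648815) (nat_lit 5) (nat_lit 5) (nat_lit 7) (nat_lit 4) (nat_lit 5) (nat_lit 4) (nat_lit 258) (nat_lit 239) (nat_lit 103)) (XT.lf (nat_lit 0) (nat_lit 635828392831) (nat_lit 76) (nat_lit 4127186578011) (nat_lit 76) (nat_lit 1644773783104) (nat_lit 4) (nat_lit 4) (nat_lit 5) (nat_lit 5) (nat_lit 5) (nat_lit 4) (nat_lit 259) (nat_lit 239) (nat_lit 102))) (XT.nd (nat_lit 78) (nat_lit 0) (nat_lit 0) (XT.lf (nat_lit 0) (nat_lit 2465720449791)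 (nat_lit 76) (nat_lit 3616695113390) (nat_lit 76) (nat_lit 1134282316918) (nat_lit 4) (nat_lit 4) (nat_lit 5) (nat_lit 5) (nat_lit 5) (nat_lit 4) (nat_lit 260) (nat_lit 239) (nat_lit 101)) (XT.lf (nat_lit 0) (nat_lit 4570096313250) (nat_lit 76) (nat_lit 3029629929970) (nat_lit 76) (nat_lit 547217132135) (nat_lit 4) (nat_lit 4) (nat_lit 5) (nat_lit 5) (nat_lit 5) (nat_lit 4) (nat_lit 261) (nat_lit 239) (nat_lit 100)))) (XT.nd (nat_lit 29562) (nat_lit 0) (nat_lit 1064) (XT.nd (nat_lit 780) (nat_lit 76) (nat_lit 0) (XT.lf (nat_lit 0) (nat_lit 116520589752) (nat_lit 152) (nat_lit 2231893531049) (nat_lit 76) (nat_lit 6867517115687) (nat_lit 3) (nat_lit 5) (nat_lit 5) (nat_lit 5) (nat_lit 4) (nat_lit 4) (nat_lit 262) (nat_lit 239) (nat_lit 99)) (XT.lf (nat_lit 0) (nat_lit 16427327477145) (nat_lit 152) (nat_lit 3108049742886) (nat_lit 0) (nat_lit 14268707646745) (nat_lit 2) (nat_lit 5) (nat_lit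 4) (nat_lit 4) (nat_lit 2) (nat_lit 4) (nat_lit 272) (nat_lit 239) (nat_lit 89))) (XT.nd (nat_lit 78) (nat_lit 0) (nat_lit 0) (XT.lf (nat_lit 0) (nat_lit 245710279743) (nat_lit 0) (nat_lit 245710279743) (nat_lit 228) (nat_lit 58596813664) (nat_lit 16) (nat_lit 5) (nat_lit 16) (nat_lit 3) (nat_lit 19) (nat_lit 3) (nat_lit 240) (nat_lit 240) (nat_lit 120)) (XT.lf (nat_lit 0) (nat_lit 1023522179922) (nat_lit 0) (nat_lit 33032067235) (nat_lit 228) (nat_lit 125983097863) (nat_lit 16) (nat_lit 5) (nat_lit 16) (nat_lit 3) (nat_lit 19) (nat_lit 3) (nat_lit 241) (nat_lit 240) (nat_lit 119))))))))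
noncomputable def xc60 : XT := (XT.nd (nat_lit 31980) (nat_lit 152) (nat_lit 0) (XT.nd (nat_lit 1170) (nat_lit 152) (nat_lit 0) (XT.nd (nat_lit 546) (nat_lit 380) (nat_lit 0) (XT.nd (nat_lit 234) (nat_lit 152) (nat_lit 0) (XT.nd (nat_lit 78) (nat_lit 228) (nat_lit 0) (XT.lf (nat_lit 76) (nat_lit 370552625651) (nat_lit 0) (nat_lit 806575741201) (nat_lit 304) (nat_lit 94916363462) (nat_lit 17) (nat_lit 5) (nat_lit 16) (nat_lit 5) (nat_lit 20) (nat_lit 5) (nat_lit 242) (nat_lit 240) (nat_lit 118)) (XT.nd (nat_lit 78) (nat_lit 228) (nat_lit 0) (XT.lf (nat_lit 76) (nat_lit 995700039790) (nat_lit 0) (nat_lit 329902171745) (nat_lit 304) (nat_lit 47903970907) (nat_lit 17) (nat_lit 5) (nat_lit 16) (nat_lit 5) (nat_lit 20) (nat_lit 5) (nat_lit 243) (nat_lit 240) (nat_lit 117)) (XT.lf (nat_lit 0) (nat_lit 25337311247) (nat_lit 304) (nat_lit 1252069790613) (nat_lit 76) (nat_lit 209782668766) (nat_lit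 13) (nat_lit 5) (nat_lit 17) (nat_lit 5) (nat_lit 14) (nat_lit 5) (nat_lit 244) (nat_lit 240) (nat_lit 116)))) (XT.nd (nat_lit 156) (nat_lit 0) (nat_lit 0) (XT.nd (nat_lit 78) (nat_lit 152) (nat_lit 0) (XT.lf (nat_lit 0) (nat_lit 141059337068) (nat_lit 304) (nat_lit 651449474948) (nat_lit 76) (nat_lit 819615063038) (nat_lit 13) (nat_lit 5) (nat_lit 17) (nat_lit 5) (nat_lit 14) (nat_lit 5) (nat_lit 245) (nat_lit 240) (nat_lit 115)) (XT.lf (nat_lit 0) (nat_lit 43101035133) (nat_lit 152) (nat_lit 232823348606) (nat_lit 228) (nat_lit 1479606003915) (nat_lit 11) (nat_lit 5) (nat_lit 13) (nat_lit 5) (nat_lit 14) (nat_lit 5) (nat_lit 246) (nat_lit 240) (nat_lit 114))) (XT.nd (nat_lit 78) (nat_lit 0) (nat_lit 0) (XT.lf (nat_lit 0) (nat_lit 483704767336) (nat_lit 228) (nat_lit 1018924311065) (nat_lit 76) (nat_lit 409915961801) (nat_lit 11) (nat_lit 5) (nat_lit 14) (nat_lit 5) (nat_lit 12) (nat_lit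 5) (nat_lit 247) (nat_lit 240) (nat_lit 113)) (XT.lf (nat_lit 0) (nat_lit 733739030645) (nat_lit 228) (nat_lit 232480344390) (nat_lit 76) (nat_lit 1125229492312) (nat_lit 11) (nat_lit 5) (nat_lit 14) (nat_lit 5) (nat_lit 12) (nat_lit 5) (nat_lit 248) (nat_lit 240) (nat_lit 112))))) (XT.nd (nat_lit 312) (nat_lit 152) (nat_lit 0) (XT.nd (nat_lit 156) (nat_lit 76) (nat_lit 0) (XT.nd (nat_lit 78) (nat_lit 0) (nat_lit 0) (XT.lf (nat_lit 0) (nat_lit 737596120231) (nat_lit 152) (nat_lit 314224592195) (nat_lit 228) (nat_lit 1240786214328) (nat_lit 9) (nat_lit 5) (nat_lit 11) (nat_lit 5) (nat_lit 12) (nat_lit 5) (nat_lit 249) (nat_lit 240) (nat_lit 111)) (XT.lf (nat_lit 0) (nat_lit 1448381710095) (nat_lit 228) (nat_lit 661418852447) (nat_lit 76) (nat_lit 409523073018) (nat_lit 9) (nat_lit 5) (nat_lit 12) (nat_lit 5) (nat_lit 10) (nat_lit 4) (nat_lit 250) (nat_lit 240) (nat_lit 110))) (XT.nd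 (nat_lit 78) (nat_lit 0) (nat_lit 0) (XT.lf (nat_lit 0) (nat_lit 385575403734) (nat_lit 76) (nat_lit 1549780381949) (nat_lit 152) (nat_lit 840052725790) (nat_lit 8) (nat_lit 5) (nat_lit 9) (nat_lit 5) (nat_lit 10) (nat_lit 4) (nat_lit 251) (nat_lit 240) (nat_lit 109)) (XT.lf (nat_lit 0) (nat_lit 1663953254264) (nat_lit 76) (nat_lit 865996883064) (nat_lit 152) (nat_lit 534769856760) (nat_lit 8) (nat_lit 5) (nat_lit 9) (nat_lit 5) (nat_lit 10) (nat_lit 4) (nat_lit 252) (nat_lit 240) (nat_lit 108)))) (XT.nd (nat_lit 156) (nat_lit 0) (nat_lit 0) (XT.nd (nat_lit 78) (nat_lit 152) (nat_lit 0) (XT.lf (nat_lit 0) (nat_lit 3134087779114) (nat_lit 76) (nat_lit 79645860372) (nat_lit 152) (nat_lit 183694559966) (nat_lit 8) (nat_lit 5) (nat_lit 9) (nat_lit 5) (nat_lit 10) (nat_lit 4) (nat_lit 253) (nat_lit 240) (nat_lit 107)) (XT.lf (nat_lit 0) (nat_lit 284347299190) (nat_lit 152) (nat_lit 2671644219737)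 (nat_lit 76) (nat_lit 810100156353) (nat_lit 6) (nat_lit 5) (nat_lit 8) (nat_lit 5) (nat_lit 7) (nat_lit 4) (nat_lit 254) (nat_lit 240) (nat_lit 106))) (XT.nd (nat_lit 78) (nat_lit 0) (nat_lit 0) (XT.lf (nat_lit 0) (nat_lit 822002294314) (nat_lit 152) (nat_lit 1515685983369) (nat_lit 76) (nat_lit 1848322238650) (nat_lit 6) (nat_lit 5) (nat_lit 8) (nat_lit 5) (nat_lit 7) (nat_lit 4) (nat_lit 255) (nat_lit 240) (nat_lit 105)) (XT.lf (nat_lit 0) (nat_lit 1440305537015) (nat_lit 152) (nat_lit 186334014300) (nat_lit 76) (nat_lit 3042277632494) (nat_lit 6) (nat_lit 5) (nat_lit 8) (nat_lit 5) (nat_lit 7) (nat_lit 4) (nat_lit 256) (nat_lit 240) (nat_lit 104)))))) (XT.nd (nat_lit 30186) (nat_lit 0) (nat_lit 380) (XT.nd (nat_lit 312) (nat_lit 0) (nat_lit 0) (XT.nd (nat_lit 156) (nat_lit 76) (nat_lit 0) (XT.nd (nat_lit 78) (nat_lit 0) (nat_lit 0) (XT.lf (nat_lit 0) (nat_lit 1473611866261) (nat_lit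 76) (nat_lit 738761523285) (nat_lit 152) (nat_lit 3002733593357) (nat_lit 5) (nat_lit 5) (nat_lit 6) (nat_lit 5) (nat_lit 7) (nat_lit 4) (nat_lit 257) (nat_lit 240) (nat_lit 103)) (XT.lf (nat_lit 0) (nat_lit 3122144790921) (nat_lit 152) (nat_lit 2450426380327) (nat_lit 0) (nat_lit 267370074977) (nat_lit 5) (nat_lit 5) (nat_lit 7) (nat_lit 4) (nat_lit 5) (nat_lit 4) (nat_lit 258) (nat_lit 240) (nat_lit 102))) (XT.nd (nat_lit 78) (nat_lit 76) (nat_lit 0) (XT.lf (nat_lit 0) (nat_lit 4203561021431) (nat_lit 152) (nat_lit 1000876455863) (nat_lit 0) (nat_lit 1348786303921) (nat_lit 5) (nat_lit 5) (nat_lit 7) (nat_lit 4) (nat_lit 5) (nat_lit 4) (nat_lit 259) (nat_lit 240) (nat_lit 101)) (XT.lf (nat_lit 0) (nat_lit 731202673776) (nat_lit 76) (nat_lit 4746264555100) (nat_lit 76) (nat_lit 1891489836229) (nat_lit 4) (nat_lit 4) (nat_lit 5) (nat_lit 5) (nat_lit 5) (nat_lit 4) (nat_lit 260) (nat_lit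 240) (nat_lit 100)))) (XT.nd (nat_lit 29718) (nat_lit 0) (nat_lit 912) (XT.nd (nat_lit 78) (nat_lit 0) (nat_lit 0) (XT.lf (nat_lit 0) (nat_lit 2835578536408) (nat_lit 76) (nat_lit 4159199372040) (nat_lit 76) (nat_lit 1304424651986) (nat_lit 4) (nat_lit 4) (nat_lit 5) (nat_lit 5) (nat_lit 5) (nat_lit 4) (nat_lit 261) (nat_lit 240) (nat_lit 99)) (XT.lf (nat_lit 0) (nat_lit 5255610776888) (nat_lit 76) (nat_lit 3484074412196) (nat_lit 76) (nat_lit 629299691112) (nat_lit 4) (nat_lit 4) (nat_lit 5) (nat_lit 5) (nat_lit 5) (nat_lit 4) (nat_lit 262) (nat_lit 240) (nat_lit 98))) (XT.nd (nat_lit 78) (nat_lit 0) (nat_lit 0) (XT.lf (nat_lit 0) (nat_lit 282566842919) (nat_lit 0) (nat_lit 282566842919) (nat_lit 228) (nat_lit 67386286332) (nat_lit 16) (nat_lit 5) (nat_lit 16) (nat_lit 3) (nat_lit 19) (nat_lit 3) (nat_lit 241) (nat_lit 241) (nat_lit 118)) (XT.lf (nat_lit 0) (nat_lit 1177050543805)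 (nat_lit 0) (nat_lit 37986914215) (nat_lit 228) (nat_lit 144880476661) (nat_lit 16) (nat_lit 5) (nat_lit 16) (nat_lit 3) (nat_lit 19) (nat_lit 3) (nat_lit 242) (nat_lit 241) (nat_lit 117))))) (XT.nd (nat_lit 312) (nat_lit 304) (nat_lit 0) (XT.nd (nat_lit 156) (nat_lit 228) (nat_lit 0) (XT.nd (nat_lit 78) (nat_lit 0) (nat_lit 0) (XT.lf (nat_lit 76) (nat_lit 426135567717) (nat_lit 0) (nat_lit 927562118996) (nat_lit 304) (nat_lit 109153742534) (nat_lit 17) (nat_lit 5) (nat_lit 16) (nat_lit 5) (nat_lit 20) (nat_lit 5) (nat_lit 243) (nat_lit 241) (nat_lit 116)) (XT.lf (nat_lit 76) (nat_lit 1145055087688) (nat_lit 0) (nat_lit 379387511955) (nat_lit 304) (nat_lit 55089500936) (nat_lit 17) (nat_lit 5) (nat_lit 16) (nat_lit 5) (nat_lit 20) (nat_lit 5) (nat_lit 244) (nat_lit 241) (nat_lit 115))) (XT.nd (nat_lit 78) (nat_lit 0) (nat_lit 0) (XT.lf (nat_lit 0) (nat_lit 29137961503) (nat_lit 304)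 (nat_lit 1439880203981) (nat_lit 76) (nat_lit 241250062117) (nat_lit 13) (nat_lit 5) (nat_lit 17) (nat_lit 5) (nat_lit 14) (nat_lit 5) (nat_lit 245) (nat_lit 241) (nat_lit 114)) (XT.lf (nat_lit 0) (nat_lit 162218284210) (nat_lit 304) (nat_lit 749166848169) (nat_lit 76) (nat_lit 942557316437) (nat_lit 13) (nat_lit 5) (nat_lit 17) (nat_lit 5) (nat_lit 14) (nat_lit 5) (nat_lit 246) (nat_lit 241) (nat_lit 113)))) (XT.nd (nat_lit 156) (nat_lit 152) (nat_lit 0) (XT.nd (nat_lit 78) (nat_lit 0) (nat_lit 0) (XT.lf (nat_lit 0) (nat_lit 49566236241) (nat_lit 152) (nat_lit 267746847462) (nat_lit 228) (nat_lit 1701546855296) (nat_lit 11) (nat_lit 5) (nat_lit 13) (nat_lit 5) (nat_lit 14) (nat_lit 5) (nat_lit 247) (nat_lit 241) (nat_lit 112)) (XT.lf (nat_lit 0) (nat_lit 556260519433) (nat_lit 228) (nat_lit 1171762912073) (nat_lit 76) (nat_lit 471403358792) (nat_lit 11) (nat_lit 5) (nat_lit 14) (nat_lit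 5) (nat_lit 12) (nat_lit 5) (nat_lit 248) (nat_lit 241) (nat_lit 111))) (XT.nd (nat_lit 78) (nat_lit 152) (nat_lit 0) (XT.lf (nat_lit 0) (nat_lit 843799917413) (nat_lit 228) (nat_lit 267352356351) (nat_lit 76) (nat_lit 1294013918525) (nat_lit 11) (nat_lit 5) (nat_lit 14) (nat_lit 5) (nat_lit 12) (nat_lit 5) (nat_lit 249) (nat_lit 241) (nat_lit 110)) (XT.lf (nat_lit 0) (nat_lit 848235576158) (nat_lit 152) (nat_lit 361358272676) (nat_lit 228) (nat_lit 1426904112211) (nat_lit 9) (nat_lit 5) (nat_lit 11) (nat_lit 5) (nat_lit 12) (nat_lit 5) (nat_lit 250) (nat_lit 241) (nat_lit 109))))))) (XT.nd (nat_lit 30576) (nat_lit 0) (nat_lit 304) (XT.nd (nat_lit 546) (nat_lit 304) (nat_lit 0) (XT.nd (nat_lit 234) (nat_lit 152) (nat_lit 0) (XT.nd (nat_lit 78) (nat_lit 76) (nat_lit 0) (XT.lf (nat_lit 0) (nat_lit 1665638992600) (nat_lit 228) (nat_lit 760631643558) (nat_lit 76) (nat_lit 470951540584)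 (nat_lit 9) (nat_lit 5) (nat_lit 12) (nat_lit 5) (nat_lit 10) (nat_lit 4) (nat_lit 251) (nat_lit 241) (nat_lit 108)) (XT.nd (nat_lit 78) (nat_lit 0) (nat_lit 0) (XT.lf (nat_lit 0) (nat_lit 443411749380) (nat_lit 76) (nat_lit 1782247428209) (nat_lit 152) (nat_lit 966060606777) (nat_lit 8) (nat_lit 5) (nat_lit 9) (nat_lit 5) (nat_lit 10) (nat_lit 4) (nat_lit 252) (nat_lit 241) (nat_lit 107)) (XT.lf (nat_lit 0) (nat_lit 1913546272912) (nat_lit 76) (nat_lit 995896405931) (nat_lit 152) (nat_lit 614985311030) (nat_lit 8) (nat_lit 5) (nat_lit 9) (nat_lit 5) (nat_lit 10) (nat_lit 4) (nat_lit 253) (nat_lit 241) (nat_lit 106)))) (XT.nd (nat_lit 156) (nat_lit 0) (nat_lit 0) (XT.nd (nat_lit 78) (nat_lit 152) (nat_lit 0) (XT.lf (nat_lit 0) (nat_lit 3604200972511) (nat_lit 76) (nat_lit 91592731086) (nat_lit 152) (nat_lit 211248722879) (nat_lit 8) (nat_lit 5) (nat_lit 9) (nat_lit 5) (nat_lit 10)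 (nat_lit 4) (nat_lit 254) (nat_lit 241) (nat_lit 105)) (XT.lf (nat_lit 0) (nat_lit 326999412288) (nat_lit 152) (nat_lit 3072390823035) (nat_lit 76) (nat_lit 931615188392) (nat_lit 6) (nat_lit 5) (nat_lit 8) (nat_lit 5) (nat_lit 7) (nat_lit 4) (nat_lit 255) (nat_lit 241) (nat_lit 104))) (XT.nd (nat_lit 78) (nat_lit 0) (nat_lit 0) (XT.lf (nat_lit 0) (nat_lit 945302654304) (nat_lit 152) (nat_lit 1743038855080) (nat_lit 76) (nat_lit 2125570581913) (nat_lit 6) (nat_lit 5) (nat_lit 8) (nat_lit 5) (nat_lit 7) (nat_lit 4) (nat_lit 256) (nat_lit 241) (nat_lit 103)) (XT.lf (nat_lit 0) (nat_lit 1656351381344) (nat_lit 152) (nat_lit 214284094016) (nat_lit 76) (nat_lit 3498619283860) (nat_lit 6) (nat_lit 5) (nat_lit 8) (nat_lit 5) (nat_lit 7) (nat_lit 4) (nat_lit 257) (nat_lit 241) (nat_lit 102))))) (XT.nd (nat_lit 312) (nat_lit 152) (nat_lit 0) (XT.nd (nat_lit 156) (nat_lit 76) (nat_lit 0) (XT.nd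 (nat_lit 78) (nat_lit 0) (nat_lit 0) (XT.lf (nat_lit 0) (nat_lit 1694653667610) (nat_lit 76) (nat_lit 849575743234) (nat_lit 152) (nat_lit 3453143617482) (nat_lit 5) (nat_lit 5) (nat_lit 6) (nat_lit 5) (nat_lit 7) (nat_lit 4) (nat_lit 258) (nat_lit 241) (nat_lit 101)) (XT.lf (nat_lit 0) (nat_lit 3590466521055) (nat_lit 152) (nat_lit 2817990317317) (nat_lit 0) (nat_lit 307475592992) (nat_lit 5) (nat_lit 5) (nat_lit 7) (nat_lit 4) (nat_lit 5) (nat_lit 4) (nat_lit 259) (nat_lit 241) (nat_lit 100))) (XT.nd (nat_lit 78) (nat_lit 76) (nat_lit 0) (XT.lf (nat_lit 0) (nat_lit 4834095184641) (nat_lit 152) (nat_lit 1151007906799) (nat_lit 0) (nat_lit 1551104255395) (nat_lit 5) (nat_lit 5) (nat_lit 7) (nat_lit 4) (nat_lit 5) (nat_lit 4) (nat_lit 260) (nat_lit 241) (nat_lit 99)) (XT.lf (nat_lit 0) (nat_lit 840883091493) (nat_lit 76) (nat_lit 5458204231096) (nat_lit 76) (nat_lit 2175213300820) (nat_lit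 4) (nat_lit 4) (nat_lit 5) (nat_lit 5) (nat_lit 5) (nat_lit 4) (nat_lit 261) (nat_lit 241) (nat_lit 98)))) (XT.nd (nat_lit 234) (nat_lit 76) (nat_lit 0) (XT.nd (nat_lit 156) (nat_lit 76) (nat_lit 0) (XT.lf (nat_lit 0) (nat_lit 3260915331348) (nat_lit 76) (nat_lit 4783079271525) (nat_lit 76) (nat_lit 1500088340355) (nat_lit 4) (nat_lit 4) (nat_lit 5) (nat_lit 5) (nat_lit 5) (nat_lit 4) (nat_lit 262) (nat_lit 241) (nat_lit 97)) (XT.lf (nat_lit 0) (nat_lit 154098496320) (nat_lit 152) (nat_lit 2951679165536) (nat_lit 76) (nat_lit 9082291395866) (nat_lit 3) (nat_lit 5) (nat_lit 5) (nat_lit 5) (nat_lit 4) (nat_lit 4) (nat_lit 264) (nat_lit 241) (nat_lit 95))) (XT.nd (nat_lit 78) (nat_lit 76) (nat_lit 0) (XT.lf (nat_lit 0) (nat_lit 1089468052506) (nat_lit 152) (nat_lit 940634620325) (nat_lit 76) (nat_lit 11778594051159) (nat_lit 3) (nat_lit 5) (nat_lit 5) (nat_lit 5) (nat_lit 4) (nat_lit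 4) (nat_lit 265) (nat_lit 241) (nat_lit 94)) (XT.lf (nat_lit 0) (nat_lit 1506154933242) (nat_lit 76) (nat_lit 721354772324) (nat_lit 152) (nat_lit 13435553835118) (nat_lit 2) (nat_lit 5) (nat_lit 3) (nat_lit 5) (nat_lit 4) (nat_lit 4) (nat_lit 266) (nat_lit 241) (nat_lit 93)))))) (XT.nd (nat_lit 624) (nat_lit 380) (nat_lit 0) (XT.nd (nat_lit 312) (nat_lit 380) (nat_lit 0) (XT.nd (nat_lit 156) (nat_lit 0) (nat_lit 0) (XT.nd (nat_lit 78) (nat_lit 0) (nat_lit 0) (XT.lf (nat_lit 0) (nat_lit 324951885398) (nat_lit 0) (nat_lit 324951885398) (nat_lit 228) (nat_lit 77494191942) (nat_lit 16) (nat_lit 5) (nat_lit 16) (nat_lit 3) (nat_lit 19) (nat_lit 3) (nat_lit 242) (nat_lit 242) (nat_lit 116)) (XT.lf (nat_lit 0) (nat_lit 1353608153274) (nat_lit 0) (nat_lit 43684979246) (nat_lit 228) (nat_lit 166612483221) (nat_lit 16) (nat_lit 5) (nat_lit 16) (nat_lit 3) (nat_lit 19) (nat_lit 3) (nat_lit 243)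 (nat_lit 242) (nat_lit 115))) (XT.nd (nat_lit 78) (nat_lit 0) (nat_lit 0) (XT.lf (nat_lit 76) (nat_lit 490055939334) (nat_lit 0) (nat_lit 1066696449409) (nat_lit 304) (nat_lit 125526746864) (nat_lit 17) (nat_lit 5) (nat_lit 16) (nat_lit 5) (nat_lit 20) (nat_lit 5) (nat_lit 244) (nat_lit 242) (nat_lit 114)) (XT.lf (nat_lit 76) (nat_lit 1316813382545) (nat_lit 0) (nat_lit 436295649673) (nat_lit 304) (nat_lit 63352876468) (nat_lit 17) (nat_lit 5) (nat_lit 16) (nat_lit 5) (nat_lit 20) (nat_lit 5) (nat_lit 245) (nat_lit 242) (nat_lit 113)))) (XT.nd (nat_lit 156) (nat_lit 152) (nat_lit 0) (XT.nd (nat_lit 78) (nat_lit 0) (nat_lit 0) (XT.lf (nat_lit 0) (nat_lit 33508696235) (nat_lit 304) (nat_lit 1655862192820) (nat_lit 76) (nat_lit 277437566168) (nat_lit 13) (nat_lit 5) (nat_lit 17) (nat_lit 5) (nat_lit 14) (nat_lit 5) (nat_lit 246) (nat_lit 242) (nat_lit 112)) (XT.lf (nat_lit 0) (nat_lit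 186551062064) (nat_lit 304) (nat_lit 861541839083) (nat_lit 76) (nat_lit 1083940909324) (nat_lit 13) (nat_lit 5) (nat_lit 17) (nat_lit 5) (nat_lit 14) (nat_lit 5) (nat_lit 247) (nat_lit 242) (nat_lit 111))) (XT.nd (nat_lit 78) (nat_lit 0) (nat_lit 0) (XT.lf (nat_lit 0) (nat_lit 57001206338) (nat_lit 152) (nat_lit 307908871984) (nat_lit 228) (nat_lit 1956778846383) (nat_lit 11) (nat_lit 5) (nat_lit 13) (nat_lit 5) (nat_lit 14) (nat_lit 5) (nat_lit 248) (nat_lit 242) (nat_lit 110)) (XT.lf (nat_lit 0) (nat_lit 639699625323) (nat_lit 228) (nat_lit 1347527314365) (nat_lit 76) (nat_lit 542113864668) (nat_lit 11) (nat_lit 5) (nat_lit 14) (nat_lit 5) (nat_lit 12) (nat_lit 5) (nat_lit 249) (nat_lit 242) (nat_lit 109))))) (XT.nd (nat_lit 312) (nat_lit 152) (nat_lit 0) (XT.nd (nat_lit 156) (nat_lit 76) (nat_lit 0) (XT.nd (nat_lit 78) (nat_lit 152) (nat_lit 0) (XT.lf (nat_lit 0) (nat_lit 970369929351)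 (nat_lit 228) (nat_lit 307455179787) (nat_lit 76) (nat_lit 1488116008093) (nat_lit 11) (nat_lit 5) (nat_lit 14) (nat_lit 5) (nat_lit 12) (nat_lit 5) (nat_lit 250) (nat_lit 242) (nat_lit 108)) (XT.lf (nat_lit 0) (nat_lit 975470941234) (nat_lit 152) (nat_lit 415562007264) (nat_lit 228) (nat_lit 1640939703133) (nat_lit 9) (nat_lit 5) (nat_lit 11) (nat_lit 5) (nat_lit 12) (nat_lit 5) (nat_lit 251) (nat_lit 242) (nat_lit 107))) (XT.nd (nat_lit 78) (nat_lit 76) (nat_lit 0) (XT.lf (nat_lit 0) (nat_lit 1915484861143) (nat_lit 228) (nat_lit 874726362299) (nat_lit 76) (nat_lit 541594276673) (nat_lit 9) (nat_lit 5) (nat_lit 12) (nat_lit 5) (nat_lit 10) (nat_lit 4) (nat_lit 252) (nat_lit 242) (nat_lit 106)) (XT.lf (nat_lit 0) (nat_lit 509923538316) (nat_lit 76) (nat_lit 2049584534099) (nat_lit 152) (nat_lit 1110969676711) (nat_lit 8) (nat_lit 5) (nat_lit 9) (nat_lit 5) (nat_lit 10) (nat_lit 4)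 (nat_lit 253) (nat_lit 242) (nat_lit 105)))) (XT.nd (nat_lit 156) (nat_lit 152) (nat_lit 0) (XT.nd (nat_lit 78) (nat_lit 0) (nat_lit 0) (XT.lf (nat_lit 0) (nat_lit 2200578236918) (nat_lit 76) (nat_lit 1145280859567) (nat_lit 152) (nat_lit 707233089352) (nat_lit 8) (nat_lit 5) (nat_lit 9) (nat_lit 5) (nat_lit 10) (nat_lit 4) (nat_lit 254) (nat_lit 242) (nat_lit 104)) (XT.lf (nat_lit 0) (nat_lit 4144831138448) (nat_lit 76) (nat_lit 105331634442) (nat_lit 152) (nat_lit 242936015369) (nat_lit 8) (nat_lit 5) (nat_lit 9) (nat_lit 5) (nat_lit 10) (nat_lit 4) (nat_lit 255) (nat_lit 242) (nat_lit 103))) (XT.nd (nat_lit 78) (nat_lit 0) (nat_lit 0) (XT.lf (nat_lit 0) (nat_lit 376049337907) (nat_lit 152) (nat_lit 3533249424060) (nat_lit 76) (nat_lit 1071357473142) (nat_lit 6) (nat_lit 5) (nat_lit 8) (nat_lit 5) (nat_lit 7) (nat_lit 4) (nat_lit 256) (nat_lit 242) (nat_lit 102)) (XT.lf (nat_lit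 0) (nat_lit 1087098064429) (nat_lit 152) (nat_lit 2004494663838) (nat_lit 76) (nat_lit 2444406174845) (nat_lit 6) (nat_lit 5) (nat_lit 8) (nat_lit 5) (nat_lit 7) (nat_lit 4) (nat_lit 257) (nat_lit 242) (nat_lit 101))))))))
noncomputable def xc61 : XT := (XT.nd (nat_lit 31824) (nat_lit 0) (nat_lit 0) (XT.nd (nat_lit 30576) (nat_lit 0) (nat_lit 76) (XT.nd (nat_lit 546) (nat_lit 76) (nat_lit 0) (XT.nd (nat_lit 234) (nat_lit 76) (nat_lit 0) (XT.nd (nat_lit 78) (nat_lit 76) (nat_lit 0) (XT.lf (nat_lit 0) (nat_lit 1904804098962) (nat_lit 152) (nat_lit 246426691158) (nat_lit 76) (nat_lit 4023412181348) (nat_lit 6) (nat_lit 5) (nat_lit 8) (nat_lit 5) (nat_lit 7) (nat_lit 4) (nat_lit 258) (nat_lit 242) (nat_lit 100)) (XT.nd (nat_lit 78) (nat_lit 0) (nat_lit 0) (XT.lf (nat_lit 0) (nat_lit 1948851733940) (nat_lit 76) (nat_lit 977012098259) (nat_lit 152) (nat_lit 3971115148855) (nat_lit 5) (nat_lit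 5) (nat_lit 6) (nat_lit 5) (nat_lit 7) (nat_lit 4) (nat_lit 259) (nat_lit 242) (nat_lit 99)) (XT.lf (nat_lit 0) (nat_lit 4129036507905) (nat_lit 152) (nat_lit 3240688849746) (nat_lit 0) (nat_lit 353596937059) (nat_lit 5) (nat_lit 5) (nat_lit 7) (nat_lit 4) (nat_lit 5) (nat_lit 4) (nat_lit 260) (nat_lit 242) (nat_lit 98)))) (XT.nd (nat_lit 156) (nat_lit 0) (nat_lit 0) (XT.nd (nat_lit 78) (nat_lit 76) (nat_lit 0) (XT.lf (nat_lit 0) (nat_lit 5559209469896) (nat_lit 152) (nat_lit 1323659079630) (nat_lit 0) (nat_lit 1783769898154) (nat_lit 5) (nat_lit 5) (nat_lit 7) (nat_lit 4) (nat_lit 5) (nat_lit 4) (nat_lit 261) (nat_lit 242) (nat_lit 97)) (XT.lf (nat_lit 0) (nat_lit 967015567807) (nat_lit 76) (nat_lit 6276934860264) (nat_lit 76) (nat_lit 2501495287744) (nat_lit 4) (nat_lit 4) (nat_lit 5) (nat_lit 5) (nat_lit 5) (nat_lit 4) (nat_lit 262) (nat_lit 242) (nat_lit 96))) (XT.nd (nat_lit 78)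 (nat_lit 0) (nat_lit 0) (XT.lf (nat_lit 0) (nat_lit 3750052641998) (nat_lit 76) (nat_lit 5500541157475) (nat_lit 76) (nat_lit 1725101584278) (nat_lit 4) (nat_lit 4) (nat_lit 5) (nat_lit 5) (nat_lit 5) (nat_lit 4) (nat_lit 263) (nat_lit 242) (nat_lit 95)) (XT.lf (nat_lit 0) (nat_lit 6950545276433) (nat_lit 76) (nat_lit 4607688399653) (nat_lit 76) (nat_lit 832248825868) (nat_lit 4) (nat_lit 4) (nat_lit 5) (nat_lit 5) (nat_lit 5) (nat_lit 4) (nat_lit 264) (nat_lit 242) (nat_lit 94))))) (XT.nd (nat_lit 29718) (nat_lit 0) (nat_lit 760) (XT.nd (nat_lit 29562) (nat_lit 0) (nat_lit 988) (XT.nd (nat_lit 78) (nat_lit 0) (nat_lit 0) (XT.lf (nat_lit 0) (nat_lit 177213275679) (nat_lit 152) (nat_lit 3394431031585) (nat_lit 76) (nat_lit 10444635108356) (nat_lit 3) (nat_lit 5) (nat_lit 5) (nat_lit 5) (nat_lit 4) (nat_lit 4) (nat_lit 265) (nat_lit 242) (nat_lit 93)) (XT.lf (nat_lit 0) (nat_lit 1252888264653)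 (nat_lit 152) (nat_lit 1081729805737) (nat_lit 76) (nat_lit 13545383161538) (nat_lit 3) (nat_lit 5) (nat_lit 5) (nat_lit 5) (nat_lit 4) (nat_lit 4) (nat_lit 266) (nat_lit 242) (nat_lit 92))) (XT.nd (nat_lit 78) (nat_lit 0) (nat_lit 0) (XT.lf (nat_lit 0) (nat_lit 373694680337) (nat_lit 0) (nat_lit 373694680337) (nat_lit 228) (nat_lit 89118292499) (nat_lit 16) (nat_lit 5) (nat_lit 16) (nat_lit 3) (nat_lit 19) (nat_lit 3) (nat_lit 243) (nat_lit 243) (nat_lit 114)) (XT.lf (nat_lit 0) (nat_lit 1556649397360) (nat_lit 0) (nat_lit 50237747228) (nat_lit 228) (nat_lit 191604306601) (nat_lit 16) (nat_lit 5) (nat_lit 16) (nat_lit 3) (nat_lit 19) (nat_lit 3) (nat_lit 244) (nat_lit 243) (nat_lit 113)))) (XT.nd (nat_lit 156) (nat_lit 228) (nat_lit 0) (XT.nd (nat_lit 78) (nat_lit 0) (nat_lit 0) (XT.lf (nat_lit 76) (nat_lit 563564357803) (nat_lit 0) (nat_lit 1226700926320) (nat_lit 304) (nat_lit 144355715756)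 (nat_lit 17) (nat_lit 5) (nat_lit 16) (nat_lit 5) (nat_lit 20) (nat_lit 5) (nat_lit 245) (nat_lit 243) (nat_lit 112)) (XT.lf (nat_lit 76) (nat_lit 1514335413900) (nat_lit 0) (nat_lit 501740005385) (nat_lit 304) (nat_lit 72855770427) (nat_lit 17) (nat_lit 5) (nat_lit 16) (nat_lit 5) (nat_lit 20) (nat_lit 5) (nat_lit 246) (nat_lit 243) (nat_lit 111))) (XT.nd (nat_lit 78) (nat_lit 0) (nat_lit 0) (XT.lf (nat_lit 0) (nat_lit 38535031298) (nat_lit 304) (nat_lit 1904241490168) (nat_lit 76) (nat_lit 319053197112) (nat_lit 13) (nat_lit 5) (nat_lit 17) (nat_lit 5) (nat_lit 14) (nat_lit 5) (nat_lit 247) (nat_lit 243) (nat_lit 110)) (XT.lf (nat_lit 0) (nat_lit 214533748007) (nat_lit 304) (nat_lit 990773087489) (nat_lit 76) (nat_lit 1246532042260) (nat_lit 13) (nat_lit 5) (nat_lit 17) (nat_lit 5) (nat_lit 14) (nat_lit 5) (nat_lit 248) (nat_lit 243) (nat_lit 109)))))) (XT.nd (nat_lit 624) (nat_lit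 304) (nat_lit 0) (XT.nd (nat_lit 312) (nat_lit 76) (nat_lit 0) (XT.nd (nat_lit 156) (nat_lit 152) (nat_lit 0) (XT.nd (nat_lit 78) (nat_lit 0) (nat_lit 0) (XT.lf (nat_lit 0) (nat_lit 65551413498) (nat_lit 152) (nat_lit 354095200818) (nat_lit 228) (nat_lit 2250295645206) (nat_lit 11) (nat_lit 5) (nat_lit 13) (nat_lit 5) (nat_lit 14) (nat_lit 5) (nat_lit 249) (nat_lit 243) (nat_lit 108)) (XT.lf (nat_lit 0) (nat_lit 735654590275) (nat_lit 228) (nat_lit 1549656385418) (nat_lit 76) (nat_lit 623430945924) (nat_lit 11) (nat_lit 5) (nat_lit 14) (nat_lit 5) (nat_lit 12) (nat_lit 5) (nat_lit 250) (nat_lit 243) (nat_lit 107))) (XT.nd (nat_lit 78) (nat_lit 152) (nat_lit 0) (XT.lf (nat_lit 0) (nat_lit 1115925437148) (nat_lit 228) (nat_lit 353573434058) (nat_lit 76) (nat_lit 1711333410660) (nat_lit 11) (nat_lit 5) (nat_lit 14) (nat_lit 5) (nat_lit 12) (nat_lit 5) (nat_lit 251) (nat_lit 243) (nat_lit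 106)) (XT.lf (nat_lit 0) (nat_lit 1121791604085) (nat_lit 152) (nat_lit 477896303580) (nat_lit 228) (nat_lit 1887080639011) (nat_lit 9) (nat_lit 5) (nat_lit 11) (nat_lit 5) (nat_lit 12) (nat_lit 5) (nat_lit 252) (nat_lit 243) (nat_lit 105)))) (XT.nd (nat_lit 156) (nat_lit 0) (nat_lit 0) (XT.nd (nat_lit 78) (nat_lit 76) (nat_lit 0) (XT.lf (nat_lit 0) (nat_lit 2202807605175) (nat_lit 228) (nat_lit 1005935295629) (nat_lit 76) (nat_lit 622833421955) (nat_lit 9) (nat_lit 5) (nat_lit 12) (nat_lit 5) (nat_lit 10) (nat_lit 4) (nat_lit 253) (nat_lit 243) (nat_lit 104)) (XT.lf (nat_lit 0) (nat_lit 586412089124) (nat_lit 76) (nat_lit 2357022207907) (nat_lit 152) (nat_lit 1277615112276) (nat_lit 8) (nat_lit 5) (nat_lit 9) (nat_lit 5) (nat_lit 10) (nat_lit 4) (nat_lit 254) (nat_lit 243) (nat_lit 103))) (XT.nd (nat_lit 78) (nat_lit 0) (nat_lit 0) (XT.lf (nat_lit 0) (nat_lit 2530664989900) (nat_lit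 76) (nat_lit 1317072983018) (nat_lit 152) (nat_lit 813318038892) (nat_lit 8) (nat_lit 5) (nat_lit 9) (nat_lit 5) (nat_lit 10) (nat_lit 4) (nat_lit 255) (nat_lit 243) (nat_lit 102)) (XT.lf (nat_lit 0) (nat_lit 4766555824383) (nat_lit 76) (nat_lit 121131374839) (nat_lit 152) (nat_lit 279376405621) (nat_lit 8) (nat_lit 5) (nat_lit 9) (nat_lit 5) (nat_lit 10) (nat_lit 4) (nat_lit 256) (nat_lit 243) (nat_lit 101))))) (XT.nd (nat_lit 312) (nat_lit 76) (nat_lit 0) (XT.nd (nat_lit 156) (nat_lit 76) (nat_lit 0) (XT.nd (nat_lit 78) (nat_lit 0) (nat_lit 0) (XT.lf (nat_lit 0) (nat_lit 432456749010) (nat_lit 152) (nat_lit 4063236820710) (nat_lit 76) (nat_lit 1232061099022) (nat_lit 6) (nat_lit 5) (nat_lit 8) (nat_lit 5) (nat_lit 7) (nat_lit 4) (nat_lit 257) (nat_lit 243) (nat_lit 100)) (XT.lf (nat_lit 0) (nat_lit 1250162783152) (nat_lit 152) (nat_lit 2305168848666) (nat_lit 76) (nat_lit 2811067105340)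 (nat_lit 6) (nat_lit 5) (nat_lit 8) (nat_lit 5) (nat_lit 7) (nat_lit 4) (nat_lit 258) (nat_lit 243) (nat_lit 99))) (XT.nd (nat_lit 78) (nat_lit 76) (nat_lit 0) (XT.lf (nat_lit 0) (nat_lit 2190524721683) (nat_lit 152) (nat_lit 283390682008) (nat_lit 76) (nat_lit 4626924012262) (nat_lit 6) (nat_lit 5) (nat_lit 8) (nat_lit 5) (nat_lit 7) (nat_lit 4) (nat_lit 259) (nat_lit 243) (nat_lit 98)) (XT.lf (nat_lit 0) (nat_lit 2241179506273) (nat_lit 76) (nat_lit 1123563908113) (nat_lit 152) (nat_lit 4566782412676) (nat_lit 5) (nat_lit 5) (nat_lit 6) (nat_lit 5) (nat_lit 7) (nat_lit 4) (nat_lit 260) (nat_lit 243) (nat_lit 97)))) (XT.nd (nat_lit 156) (nat_lit 76) (nat_lit 0) (XT.nd (nat_lit 78) (nat_lit 0) (nat_lit 0) (XT.lf (nat_lit 0) (nat_lit 4748391990664) (nat_lit 152) (nat_lit 3726792165739) (nat_lit 0) (nat_lit 406636481487) (nat_lit 5) (nat_lit 5) (nat_lit 7) (nat_lit 4) (nat_lit 5) (nat_lit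 4) (nat_lit 261) (nat_lit 243) (nat_lit 96)) (XT.lf (nat_lit 0) (nat_lit 6393090896096) (nat_lit 152) (nat_lit 1522207931601) (nat_lit 0) (nat_lit 2051335386243) (nat_lit 5) (nat_lit 5) (nat_lit 7) (nat_lit 4) (nat_lit 5) (nat_lit 4) (nat_lit 262) (nat_lit 243) (nat_lit 95))) (XT.nd (nat_lit 78) (nat_lit 0) (nat_lit 0) (XT.lf (nat_lit 0) (nat_lit 1112067912498) (nat_lit 76) (nat_lit 7218475085148) (nat_lit 76) (nat_lit 2876719574707) (nat_lit 4) (nat_lit 4) (nat_lit 5) (nat_lit 5) (nat_lit 5) (nat_lit 4) (nat_lit 263) (nat_lit 243) (nat_lit 94)) (XT.lf (nat_lit 0) (nat_lit 4312560546576) (nat_lit 76) (nat_lit 6325622327482) (nat_lit 76) (nat_lit 1983866816529) (nat_lit 4) (nat_lit 4) (nat_lit 5) (nat_lit 5) (nat_lit 5) (nat_lit 4) (nat_lit 264) (nat_lit 243) (nat_lit 93))))))) (XT.nd (nat_lit 30654) (nat_lit 0) (nat_lit 76) (XT.nd (nat_lit 30030) (nat_lit 0) (nat_lit 380) (XT.nd (nat_lit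 29718) (nat_lit 0) (nat_lit 760) (XT.nd (nat_lit 78) (nat_lit 76) (nat_lit 0) (XT.lf (nat_lit 0) (nat_lit 7993127075096) (nat_lit 76) (nat_lit 5298841656459) (nat_lit 76) (nat_lit 957086145060) (nat_lit 4) (nat_lit 4) (nat_lit 5) (nat_lit 5) (nat_lit 5) (nat_lit 4) (nat_lit 265) (nat_lit 243) (nat_lit 92)) (XT.nd (nat_lit 29562) (nat_lit 0) (nat_lit 988) (XT.lf (nat_lit 0) (nat_lit 203795270745) (nat_lit 152) (nat_lit 3903595679683) (nat_lit 76) (nat_lit 12011330376961) (nat_lit 3) (nat_lit 5) (nat_lit 5) (nat_lit 5) (nat_lit 4) (nat_lit 4) (nat_lit 266) (nat_lit 243) (nat_lit 91)) (XT.lf (nat_lit 0) (nat_lit 429748891560) (nat_lit 0) (nat_lit 429748891560) (nat_lit 228) (nat_lit 102486015024) (nat_lit 16) (nat_lit 5) (nat_lit 16) (nat_lit 3) (nat_lit 19) (nat_lit 3) (nat_lit 244) (nat_lit 244) (nat_lit 112)))) (XT.nd (nat_lit 156) (nat_lit 228) (nat_lit 0) (XT.nd (nat_lit 78) (nat_lit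 0) (nat_lit 0) (XT.lf (nat_lit 0) (nat_lit 1790146822914) (nat_lit 0) (nat_lit 57773425262) (nat_lit 228) (nat_lit 220344915463) (nat_lit 16) (nat_lit 5) (nat_lit 16) (nat_lit 3) (nat_lit 19) (nat_lit 3) (nat_lit 245) (nat_lit 244) (nat_lit 111)) (XT.lf (nat_lit 76) (nat_lit 648099032320) (nat_lit 0) (nat_lit 1410706072452) (nat_lit 304) (nat_lit 166009040502) (nat_lit 17) (nat_lit 5) (nat_lit 16) (nat_lit 5) (nat_lit 20) (nat_lit 5) (nat_lit 246) (nat_lit 244) (nat_lit 110))) (XT.nd (nat_lit 78) (nat_lit 228) (nat_lit 0) (XT.lf (nat_lit 76) (nat_lit 1741485744112) (nat_lit 0) (nat_lit 577001012439) (nat_lit 304) (nat_lit 83784107628) (nat_lit 17) (nat_lit 5) (nat_lit 16) (nat_lit 5) (nat_lit 20) (nat_lit 5) (nat_lit 247) (nat_lit 244) (nat_lit 109)) (XT.lf (nat_lit 0) (nat_lit 44315309152) (nat_lit 304) (nat_lit 2189877689818) (nat_lit 76) (nat_lit 366911173668) (nat_lit 13) (nat_lit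 5) (nat_lit 17) (nat_lit 5) (nat_lit 14) (nat_lit 5) (nat_lit 248) (nat_lit 244) (nat_lit 108))))) (XT.nd (nat_lit 312) (nat_lit 228) (nat_lit 0) (XT.nd (nat_lit 156) (nat_lit 0) (nat_lit 0) (XT.nd (nat_lit 78) (nat_lit 152) (nat_lit 0) (XT.lf (nat_lit 0) (nat_lit 246713830347) (nat_lit 304) (nat_lit 1139389029852) (nat_lit 76) (nat_lit 1433511845981) (nat_lit 13) (nat_lit 5) (nat_lit 17) (nat_lit 5) (nat_lit 14) (nat_lit 5) (nat_lit 249) (nat_lit 244) (nat_lit 107)) (XT.lf (nat_lit 0) (nat_lit 75384145340) (nat_lit 152) (nat_lit 407209479456) (nat_lit 228) (nat_lit 2587839970714) (nat_lit 11) (nat_lit 5) (nat_lit 13) (nat_lit 5) (nat_lit 14) (nat_lit 5) (nat_lit 250) (nat_lit 244) (nat_lit 106))) (XT.nd (nat_lit 78) (nat_lit 0) (nat_lit 0) (XT.lf (nat_lit 0) (nat_lit 846002794810) (nat_lit 228) (nat_lit 1782104823495) (nat_lit 76) (nat_lit 716945588989) (nat_lit 11) (nat_lit 5) (nat_lit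 14) (nat_lit 5) (nat_lit 12) (nat_lit 5) (nat_lit 251) (nat_lit 244) (nat_lit 105)) (XT.lf (nat_lit 0) (nat_lit 1283314266628) (nat_lit 228) (nat_lit 406609432005) (nat_lit 76) (nat_lit 1968033423282) (nat_lit 11) (nat_lit 5) (nat_lit 14) (nat_lit 5) (nat_lit 12) (nat_lit 5) (nat_lit 252) (nat_lit 244) (nat_lit 104)))) (XT.nd (nat_lit 156) (nat_lit 76) (nat_lit 0) (XT.nd (nat_lit 78) (nat_lit 0) (nat_lit 0) (XT.lf (nat_lit 0) (nat_lit 1290060361079) (nat_lit 152) (nat_lit 549580745508) (nat_lit 228) (nat_lit 2170142720049) (nat_lit 9) (nat_lit 5) (nat_lit 11) (nat_lit 5) (nat_lit 12) (nat_lit 5) (nat_lit 253) (nat_lit 244) (nat_lit 103)) (XT.lf (nat_lit 0) (nat_lit 2533228757187) (nat_lit 228) (nat_lit 1156825574082) (nat_lit 76) (nat_lit 716258438108) (nat_lit 9) (nat_lit 5) (nat_lit 12) (nat_lit 5) (nat_lit 10) (nat_lit 4) (nat_lit 254) (nat_lit 244) (nat_lit 102))) (XT.nd (nat_lit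 78) (nat_lit 0) (nat_lit 0) (XT.lf (nat_lit 0) (nat_lit 674373917661) (nat_lit 76) (nat_lit 2710575534324) (nat_lit 152) (nat_lit 1469257367064) (nat_lit 8) (nat_lit 5) (nat_lit 9) (nat_lit 5) (nat_lit 10) (nat_lit 4) (nat_lit 255) (nat_lit 244) (nat_lit 101)) (XT.lf (nat_lit 0) (nat_lit 2910264751575) (nat_lit 76) (nat_lit 1514633926323) (nat_lit 152) (nat_lit 935315734245) (nat_lit 8) (nat_lit 5) (nat_lit 9) (nat_lit 5) (nat_lit 10) (nat_lit 4) (nat_lit 256) (nat_lit 244) (nat_lit 100)))))) (XT.nd (nat_lit 624) (nat_lit 0) (nat_lit 0) (XT.nd (nat_lit 312) (nat_lit 152) (nat_lit 0) (XT.nd (nat_lit 156) (nat_lit 0) (nat_lit 0) (XT.nd (nat_lit 78) (nat_lit 152) (nat_lit 0) (XT.lf (nat_lit 0) (nat_lit 5481539209510) (nat_lit 76) (nat_lit 139301077458) (nat_lit 152) (nat_lit 321282857349) (nat_lit 8) (nat_lit 5) (nat_lit 9) (nat_lit 5) (nat_lit 10) (nat_lit 4) (nat_lit 257) (nat_lit 244)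 (nat_lit 99)) (XT.lf (nat_lit 0) (nat_lit 497325269238) (nat_lit 152) (nat_lit 4672722330992) (nat_lit 76) (nat_lit 1416870267587) (nat_lit 6) (nat_lit 5) (nat_lit 8) (nat_lit 5) (nat_lit 7) (nat_lit 4) (nat_lit 258) (nat_lit 244) (nat_lit 98))) (XT.nd (nat_lit 78) (nat_lit 0) (nat_lit 0) (XT.lf (nat_lit 0) (nat_lit 1437687207474) (nat_lit 152) (nat_lit 2650944164815) (nat_lit 76) (nat_lit 3232727174369) (nat_lit 6) (nat_lit 5) (nat_lit 8) (nat_lit 5) (nat_lit 7) (nat_lit 4) (nat_lit 259) (nat_lit 244) (nat_lit 97)) (XT.lf (nat_lit 0) (nat_lit 2519103435892) (nat_lit 152) (nat_lit 325899274612) (nat_lit 76) (nat_lit 5320962616908) (nat_lit 6) (nat_lit 5) (nat_lit 8) (nat_lit 5) (nat_lit 7) (nat_lit 4) (nat_lit 260) (nat_lit 244) (nat_lit 96)))) (XT.nd (nat_lit 156) (nat_lit 76) (nat_lit 0) (XT.nd (nat_lit 78) (nat_lit 0) (nat_lit 0) (XT.lf (nat_lit 0) (nat_lit 2577356441470) (nat_lit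 76) (nat_lit 1292098490636) (nat_lit 152) (nat_lit 5251799768145) (nat_lit 5) (nat_lit 5) (nat_lit 6) (nat_lit 5) (nat_lit 7) (nat_lit 4) (nat_lit 261) (nat_lit 244) (nat_lit 95)) (XT.lf (nat_lit 0) (nat_lit 5460650794233) (nat_lit 152) (nat_lit 4285810981927) (nat_lit 0) (nat_lit 467631956637) (nat_lit 5) (nat_lit 5) (nat_lit 7) (nat_lit 4) (nat_lit 5) (nat_lit 4) (nat_lit 262) (nat_lit 244) (nat_lit 94))) (XT.nd (nat_lit 78) (nat_lit 76) (nat_lit 0) (XT.lf (nat_lit 0) (nat_lit 7352054534832) (nat_lit 152) (nat_lit 1750539113800) (nat_lit 0) (nat_lit 2359035696724) (nat_lit 5) (nat_lit 5) (nat_lit 7) (nat_lit 4) (nat_lit 5) (nat_lit 4) (nat_lit 263) (nat_lit 244) (nat_lit 93)) (XT.lf (nat_lit 0) (nat_lit 1278878106572) (nat_lit 76) (nat_lit 8301246344778) (nat_lit 76) (nat_lit 3308227506225) (nat_lit 4) (nat_lit 4) (nat_lit 5) (nat_lit 5) (nat_lit 5) (nat_lit 4) (nat_lit 264) (nat_lit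 244) (nat_lit 92))))) (XT.nd (nat_lit 29874) (nat_lit 0) (nat_lit 684) (XT.nd (nat_lit 29718) (nat_lit 0) (nat_lit 912) (XT.nd (nat_lit 78) (nat_lit 0) (nat_lit 0) (XT.lf (nat_lit 0) (nat_lit 4959444634822) (nat_lit 76) (nat_lit 7274465673872) (nat_lit 76) (nat_lit 2281446834932) (nat_lit 4) (nat_lit 4) (nat_lit 5) (nat_lit 5) (nat_lit 5) (nat_lit 4) (nat_lit 265) (nat_lit 244) (nat_lit 91)) (XT.lf (nat_lit 0) (nat_lit 9192096141804) (nat_lit 76) (nat_lit 6093667902551) (nat_lit 76) (nat_lit 1100649063275) (nat_lit 4) (nat_lit 4) (nat_lit 5) (nat_lit 5) (nat_lit 5) (nat_lit 4) (nat_lit 266) (nat_lit 244) (nat_lit 90))) (XT.nd (nat_lit 78) (nat_lit 0) (nat_lit 0) (XT.lf (nat_lit 0) (nat_lit 494211232229) (nat_lit 0) (nat_lit 494211232229) (nat_lit 228) (nat_lit 117858901135) (nat_lit 16) (nat_lit 5) (nat_lit 16) (nat_lit 3) (nat_lit 19) (nat_lit 3) (nat_lit 245) (nat_lit 245) (nat_lit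 110)) (XT.lf (nat_lit 0) (nat_lit 2058668858413) (nat_lit 0) (nat_lit 66439451113) (nat_lit 228) (nat_lit 253396624707) (nat_lit 16) (nat_lit 5) (nat_lit 16) (nat_lit 3) (nat_lit 19) (nat_lit 3) (nat_lit 246) (nat_lit 245) (nat_lit 109)))) (XT.nd (nat_lit 156) (nat_lit 228) (nat_lit 0) (XT.nd (nat_lit 78) (nat_lit 0) (nat_lit 0) (XT.lf (nat_lit 76) (nat_lit 745313902931) (nat_lit 0) (nat_lit 1622311988751) (nat_lit 304) (nat_lit 190910371913) (nat_lit 17) (nat_lit 5) (nat_lit 16) (nat_lit 5) (nat_lit 20) (nat_lit 5) (nat_lit 247) (nat_lit 245) (nat_lit 108)) (XT.lf (nat_lit 76) (nat_lit 2002708619436) (nat_lit 0) (nat_lit 663551169028) (nat_lit 304) (nat_lit 96351702325) (nat_lit 17) (nat_lit 5) (nat_lit 16) (nat_lit 5) (nat_lit 20) (nat_lit 5) (nat_lit 248) (nat_lit 245) (nat_lit 107))) (XT.nd (nat_lit 78) (nat_lit 0) (nat_lit 0) (XT.lf (nat_lit 0) (nat_lit 50962623037) (nat_lit 304)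 (nat_lit 2518359325238) (nat_lit 76) (nat_lit 421947847442) (nat_lit 13) (nat_lit 5) (nat_lit 17) (nat_lit 5) (nat_lit 14) (nat_lit 5) (nat_lit 249) (nat_lit 245) (nat_lit 106)) (XT.lf (nat_lit 0) (nat_lit 283720920127) (nat_lit 304) (nat_lit 1310297368631) (nat_lit 76) (nat_lit 1648538620899) (nat_lit 13) (nat_lit 5) (nat_lit 17) (nat_lit 5) (nat_lit 14) (nat_lit 5) (nat_lit 250) (nat_lit 245) (nat_lit 105))))))))
noncomputable def xc62 : XT := (XT.nd (nat_lit 32058) (nat_lit 0) (nat_lit 0) (XT.nd (nat_lit 1170) (nat_lit 0) (nat_lit 0) (XT.nd (nat_lit 546) (nat_lit 304) (nat_lit 0) (XT.nd (nat_lit 234) (nat_lit 228) (nat_lit 0) (XT.nd (nat_lit 78) (nat_lit 0) (nat_lit 0) (XT.lf (nat_lit 0) (nat_lit 86691782125) (nat_lit 152) (nat_lit 468290900251) (nat_lit 228) (nat_lit 2976015950236) (nat_lit 11) (nat_lit 5) (nat_lit 13) (nat_lit 5) (nat_lit 14) (nat_lit 5) (nat_lit 251) (nat_lit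 245) (nat_lit 104)) (XT.nd (nat_lit 78) (nat_lit 0) (nat_lit 0) (XT.lf (nat_lit 0) (nat_lit 972903226126) (nat_lit 228) (nat_lit 2049420532095) (nat_lit 76) (nat_lit 824487428227) (nat_lit 11) (nat_lit 5) (nat_lit 14) (nat_lit 5) (nat_lit 12) (nat_lit 5) (nat_lit 252) (nat_lit 245) (nat_lit 103)) (XT.lf (nat_lit 0) (nat_lit 1475811417139) (nat_lit 228) (nat_lit 467600833828) (nat_lit 76) (nat_lit 2263238437548) (nat_lit 11) (nat_lit 5) (nat_lit 14) (nat_lit 5) (nat_lit 12) (nat_lit 5) (nat_lit 253) (nat_lit 245) (nat_lit 102)))) (XT.nd (nat_lit 156) (nat_lit 76) (nat_lit 0) (XT.nd (nat_lit 78) (nat_lit 0) (nat_lit 0) (XT.lf (nat_lit 0) (nat_lit 1483569427629) (nat_lit 152) (nat_lit 632017854605) (nat_lit 228) (nat_lit 2495664116855) (nat_lit 9) (nat_lit 5) (nat_lit 11) (nat_lit 5) (nat_lit 12) (nat_lit 5) (nat_lit 254) (nat_lit 245) (nat_lit 101)) (XT.lf (nat_lit 0) (nat_lit 2913213079262)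 (nat_lit 228) (nat_lit 1330349398179) (nat_lit 76) (nat_lit 823697205986) (nat_lit 9) (nat_lit 5) (nat_lit 12) (nat_lit 5) (nat_lit 10) (nat_lit 4) (nat_lit 255) (nat_lit 245) (nat_lit 100))) (XT.nd (nat_lit 78) (nat_lit 0) (nat_lit 0) (XT.lf (nat_lit 0) (nat_lit 775530016779) (nat_lit 76) (nat_lit 3117161860866) (nat_lit 152) (nat_lit 1689645963009) (nat_lit 8) (nat_lit 5) (nat_lit 9) (nat_lit 5) (nat_lit 10) (nat_lit 4) (nat_lit 256) (nat_lit 245) (nat_lit 99)) (XT.lf (nat_lit 0) (nat_lit 3346804474284) (nat_lit 76) (nat_lit 1741829012136) (nat_lit 152) (nat_lit 1075613086456) (nat_lit 8) (nat_lit 5) (nat_lit 9) (nat_lit 5) (nat_lit 10) (nat_lit 4) (nat_lit 257) (nat_lit 245) (nat_lit 98))))) (XT.nd (nat_lit 312) (nat_lit 152) (nat_lit 0) (XT.nd (nat_lit 156) (nat_lit 0) (nat_lit 0) (XT.nd (nat_lit 78) (nat_lit 152) (nat_lit 0) (XT.lf (nat_lit 0) (nat_lit 6303770099609) (nat_lit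 76) (nat_lit 160196236350) (nat_lit 152) (nat_lit 369475279060) (nat_lit 8) (nat_lit 5) (nat_lit 9) (nat_lit 5) (nat_lit 10) (nat_lit 4) (nat_lit 258) (nat_lit 245) (nat_lit 97)) (XT.lf (nat_lit 0) (nat_lit 571924065580) (nat_lit 152) (nat_lit 5373630670944) (nat_lit 76) (nat_lit 1629400810532) (nat_lit 6) (nat_lit 5) (nat_lit 8) (nat_lit 5) (nat_lit 7) (nat_lit 4) (nat_lit 259) (nat_lit 245) (nat_lit 96))) (XT.nd (nat_lit 78) (nat_lit 0) (nat_lit 0) (XT.lf (nat_lit 0) (nat_lit 1653340293774) (nat_lit 152) (nat_lit 3048585781105) (nat_lit 76) (nat_lit 3717636252965) (nat_lit 6) (nat_lit 5) (nat_lit 8) (nat_lit 5) (nat_lit 7) (nat_lit 4) (nat_lit 260) (nat_lit 245) (nat_lit 95)) (XT.lf (nat_lit 0) (nat_lit 2896968955779) (nat_lit 152) (nat_lit 374784158472) (nat_lit 76) (nat_lit 6119107011566) (nat_lit 6) (nat_lit 5) (nat_lit 8) (nat_lit 5) (nat_lit 7) (nat_lit 4) (nat_lit 261) (nat_lit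 245) (nat_lit 94)))) (XT.nd (nat_lit 156) (nat_lit 76) (nat_lit 0) (XT.nd (nat_lit 78) (nat_lit 0) (nat_lit 0) (XT.lf (nat_lit 0) (nat_lit 2963959914690) (nat_lit 76) (nat_lit 1485913261438) (nat_lit 152) (nat_lit 6039569728503) (nat_lit 5) (nat_lit 5) (nat_lit 6) (nat_lit 5) (nat_lit 7) (nat_lit 4) (nat_lit 262) (nat_lit 245) (nat_lit 93)) (XT.lf (nat_lit 0) (nat_lit 6279748417126) (nat_lit 152) (nat_lit 4928682622659) (nat_lit 0) (nat_lit 537776752345) (nat_lit 5) (nat_lit 5) (nat_lit 7) (nat_lit 4) (nat_lit 5) (nat_lit 4) (nat_lit 263) (nat_lit 245) (nat_lit 92))) (XT.nd (nat_lit 78) (nat_lit 76) (nat_lit 0) (XT.lf (nat_lit 0) (nat_lit 8454862718324) (nat_lit 152) (nat_lit 2013119975168) (nat_lit 0) (nat_lit 2712891053156) (nat_lit 5) (nat_lit 5) (nat_lit 7) (nat_lit 4) (nat_lit 5) (nat_lit 4) (nat_lit 264) (nat_lit 245) (nat_lit 91)) (XT.lf (nat_lit 0) (nat_lit 1470709828000) (nat_lit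 76) (nat_lit 9546433294118) (nat_lit 76) (nat_lit 3804461628614) (nat_lit 4) (nat_lit 4) (nat_lit 5) (nat_lit 5) (nat_lit 5) (nat_lit 4) (nat_lit 265) (nat_lit 245) (nat_lit 90)))))) (XT.nd (nat_lit 30264) (nat_lit 0) (nat_lit 152) (XT.nd (nat_lit 29952) (nat_lit 0) (nat_lit 532) (XT.nd (nat_lit 29796) (nat_lit 0) (nat_lit 912) (XT.nd (nat_lit 29718) (nat_lit 0) (nat_lit 912) (XT.lf (nat_lit 0) (nat_lit 5703361334778) (nat_lit 76) (nat_lit 8365635522887) (nat_lit 76) (nat_lit 2623663857090) (nat_lit 4) (nat_lit 4) (nat_lit 5) (nat_lit 5) (nat_lit 5) (nat_lit 4) (nat_lit 266) (nat_lit 245) (nat_lit 89)) (XT.lf (nat_lit 0) (nat_lit 568342922307) (nat_lit 0) (nat_lit 568342922307) (nat_lit 228) (nat_lit 135537724099) (nat_lit 16) (nat_lit 5) (nat_lit 16) (nat_lit 3) (nat_lit 19) (nat_lit 3) (nat_lit 246) (nat_lit 246) (nat_lit 108))) (XT.nd (nat_lit 78) (nat_lit 0) (nat_lit 0) (XT.lf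 (nat_lit 0) (nat_lit 2367469196294) (nat_lit 0) (nat_lit 76405377900) (nat_lit 228) (nat_lit 291406097185) (nat_lit 16) (nat_lit 5) (nat_lit 16) (nat_lit 3) (nat_lit 19) (nat_lit 3) (nat_lit 247) (nat_lit 246) (nat_lit 107)) (XT.lf (nat_lit 76) (nat_lit 857111000289) (nat_lit 0) (nat_lit 1865658791171) (nat_lit 304) (nat_lit 219546909050) (nat_lit 17) (nat_lit 5) (nat_lit 16) (nat_lit 5) (nat_lit 20) (nat_lit 5) (nat_lit 248) (nat_lit 246) (nat_lit 106)))) (XT.nd (nat_lit 156) (nat_lit 152) (nat_lit 0) (XT.nd (nat_lit 78) (nat_lit 228) (nat_lit 0) (XT.lf (nat_lit 76) (nat_lit 2303114922716) (nat_lit 0) (nat_lit 763083847954) (nat_lit 304) (nat_lit 110804441457) (nat_lit 17) (nat_lit 5) (nat_lit 16) (nat_lit 5) (nat_lit 20) (nat_lit 5) (nat_lit 249) (nat_lit 246) (nat_lit 105)) (XT.lf (nat_lit 0) (nat_lit 58607029733) (nat_lit 304) (nat_lit 2896113210373) (nat_lit 76) (nat_lit 485240022837)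 (nat_lit 13) (nat_lit 5) (nat_lit 17) (nat_lit 5) (nat_lit 14) (nat_lit 5) (nat_lit 250) (nat_lit 246) (nat_lit 104))) (XT.nd (nat_lit 78) (nat_lit 152) (nat_lit 0) (XT.lf (nat_lit 0) (nat_lit 326279069660) (nat_lit 304) (nat_lit 1506841962056) (nat_lit 76) (nat_lit 1895819412537) (nat_lit 13) (nat_lit 5) (nat_lit 17) (nat_lit 5) (nat_lit 14) (nat_lit 5) (nat_lit 251) (nat_lit 246) (nat_lit 103)) (XT.lf (nat_lit 0) (nat_lit 99695560775) (nat_lit 152) (nat_lit 538534534440) (nat_lit 228) (nat_lit 3422418330608) (nat_lit 11) (nat_lit 5) (nat_lit 13) (nat_lit 5) (nat_lit 14) (nat_lit 5) (nat_lit 252) (nat_lit 246) (nat_lit 102))))) (XT.nd (nat_lit 312) (nat_lit 228) (nat_lit 0) (XT.nd (nat_lit 156) (nat_lit 152) (nat_lit 0) (XT.nd (nat_lit 78) (nat_lit 0) (nat_lit 0) (XT.lf (nat_lit 0) (nat_lit 1118838719190) (nat_lit 228) (nat_lit 2356833600625) (nat_lit 76) (nat_lit 948160543134) (nat_lit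 11) (nat_lit 5) (nat_lit 14) (nat_lit 5) (nat_lit 12) (nat_lit 5) (nat_lit 253) (nat_lit 246) (nat_lit 101)) (XT.lf (nat_lit 0) (nat_lit 1697183137663) (nat_lit 228) (nat_lit 537740949090) (nat_lit 76) (nat_lit 2602724203766) (nat_lit 11) (nat_lit 5) (nat_lit 14) (nat_lit 5) (nat_lit 12) (nat_lit 5) (nat_lit 254) (nat_lit 246) (nat_lit 100))) (XT.nd (nat_lit 78) (nat_lit 0) (nat_lit 0) (XT.lf (nat_lit 0) (nat_lit 1706104851140) (nat_lit 152) (nat_lit 726820530732) (nat_lit 228) (nat_lit 2870013725913) (nat_lit 9) (nat_lit 5) (nat_lit 11) (nat_lit 5) (nat_lit 12) (nat_lit 5) (nat_lit 255) (nat_lit 246) (nat_lit 99)) (XT.lf (nat_lit 0) (nat_lit 3350195047576) (nat_lit 228) (nat_lit 1529901798821) (nat_lit 76) (nat_lit 947251788519) (nat_lit 9) (nat_lit 5) (nat_lit 12) (nat_lit 5) (nat_lit 10) (nat_lit 4) (nat_lit 256) (nat_lit 246) (nat_lit 98)))) (XT.nd (nat_lit 156) (nat_lit 152) (nat_lit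 0) (XT.nd (nat_lit 78) (nat_lit 0) (nat_lit 0) (XT.lf (nat_lit 0) (nat_lit 891859527969) (nat_lit 76) (nat_lit 3584736137269) (nat_lit 152) (nat_lit 1943092850569) (nat_lit 8) (nat_lit 5) (nat_lit 9) (nat_lit 5) (nat_lit 10) (nat_lit 4) (nat_lit 257) (nat_lit 246) (nat_lit 97)) (XT.lf (nat_lit 0) (nat_lit 3848825152968) (nat_lit 76) (nat_lit 2003103361585) (nat_lit 152) (nat_lit 1236955043431) (nat_lit 8) (nat_lit 5) (nat_lit 9) (nat_lit 5) (nat_lit 10) (nat_lit 4) (nat_lit 258) (nat_lit 246) (nat_lit 96))) (XT.nd (nat_lit 78) (nat_lit 152) (nat_lit 0) (XT.lf (nat_lit 0) (nat_lit 7249335621108) (nat_lit 76) (nat_lit 184225669741) (nat_lit 152) (nat_lit 424896565708) (nat_lit 8) (nat_lit 5) (nat_lit 9) (nat_lit 5) (nat_lit 10) (nat_lit 4) (nat_lit 259) (nat_lit 246) (nat_lit 95)) (XT.lf (nat_lit 0) (nat_lit 657712679921) (nat_lit 152) (nat_lit 6179675264253) (nat_lit 76) (nat_lit 1873810934234)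 (nat_lit 6) (nat_lit 5) (nat_lit 8) (nat_lit 5) (nat_lit 7) (nat_lit 4) (nat_lit 260) (nat_lit 246) (nat_lit 94))))))) (XT.nd (nat_lit 30888) (nat_lit 0) (nat_lit 76) (XT.nd (nat_lit 30264) (nat_lit 0) (nat_lit 532) (XT.nd (nat_lit 234) (nat_lit 76) (nat_lit 0) (XT.nd (nat_lit 78) (nat_lit 76) (nat_lit 0) (XT.lf (nat_lit 0) (nat_lit 1901341341756) (nat_lit 152) (nat_lit 3505873641895) (nat_lit 76) (nat_lit 4275281692755) (nat_lit 6) (nat_lit 5) (nat_lit 8) (nat_lit 5) (nat_lit 7) (nat_lit 4) (nat_lit 261) (nat_lit 246) (nat_lit 93)) (XT.nd (nat_lit 78) (nat_lit 76) (nat_lit 0) (XT.lf (nat_lit 0) (nat_lit 3331514302551) (nat_lit 152) (nat_lit 431001776698) (nat_lit 76) (nat_lit 7036973064906) (nat_lit 6) (nat_lit 5) (nat_lit 8) (nat_lit 5) (nat_lit 7) (nat_lit 4) (nat_lit 262) (nat_lit 246) (nat_lit 92)) (XT.lf (nat_lit 0) (nat_lit 3408553907185) (nat_lit 76) (nat_lit 1708800248542)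 (nat_lit 152) (nat_lit 6945505184101) (nat_lit 5) (nat_lit 5) (nat_lit 6) (nat_lit 5) (nat_lit 7) (nat_lit 4) (nat_lit 263) (nat_lit 246) (nat_lit 91)))) (XT.nd (nat_lit 156) (nat_lit 76) (nat_lit 0) (XT.nd (nat_lit 78) (nat_lit 0) (nat_lit 0) (XT.lf (nat_lit 0) (nat_lit 7221710682536) (nat_lit 152) (nat_lit 5667985011100) (nat_lit 0) (nat_lit 618443266870) (nat_lit 5) (nat_lit 5) (nat_lit 7) (nat_lit 4) (nat_lit 5) (nat_lit 4) (nat_lit 264) (nat_lit 246) (nat_lit 90)) (XT.lf (nat_lit 0) (nat_lit 9723092128544) (nat_lit 152) (nat_lit 2315087967131) (nat_lit 0) (nat_lit 3119824712584) (nat_lit 5) (nat_lit 5) (nat_lit 7) (nat_lit 4) (nat_lit 5) (nat_lit 4) (nat_lit 265) (nat_lit 246) (nat_lit 89))) (XT.nd (nat_lit 29796) (nat_lit 0) (nat_lit 912) (XT.lf (nat_lit 0) (nat_lit 1691316306316) (nat_lit 76) (nat_lit 10978398286440) (nat_lit 76) (nat_lit 4375130870226) (nat_lit 4) (nat_lit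 4) (nat_lit 5) (nat_lit 5) (nat_lit 5) (nat_lit 4) (nat_lit 266) (nat_lit 246) (nat_lit 88)) (XT.lf (nat_lit 0) (nat_lit 653594364618) (nat_lit 0) (nat_lit 653594364618) (nat_lit 228) (nat_lit 155868373484) (nat_lit 16) (nat_lit 5) (nat_lit 16) (nat_lit 3) (nat_lit 19) (nat_lit 3) (nat_lit 247) (nat_lit 247) (nat_lit 106))))) (XT.nd (nat_lit 312) (nat_lit 152) (nat_lit 0) (XT.nd (nat_lit 156) (nat_lit 228) (nat_lit 0) (XT.nd (nat_lit 78) (nat_lit 0) (nat_lit 0) (XT.lf (nat_lit 0) (nat_lit 2722589582635) (nat_lit 0) (nat_lit 87866191481) (nat_lit 228) (nat_lit 335116995710) (nat_lit 16) (nat_lit 5) (nat_lit 16) (nat_lit 3) (nat_lit 19) (nat_lit 3) (nat_lit 248) (nat_lit 247) (nat_lit 105)) (XT.lf (nat_lit 76) (nat_lit 985677659345) (nat_lit 0) (nat_lit 2145507612952) (nat_lit 304) (nat_lit 252478931306) (nat_lit 17) (nat_lit 5) (nat_lit 16) (nat_lit 5) (nat_lit 20) (nat_lit 5) (nat_lit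 249) (nat_lit 247) (nat_lit 104))) (XT.nd (nat_lit 78) (nat_lit 228) (nat_lit 0) (XT.lf (nat_lit 76) (nat_lit 2648582168960) (nat_lit 0) (nat_lit 877546427847) (nat_lit 304) (nat_lit 127425095413) (nat_lit 17) (nat_lit 5) (nat_lit 16) (nat_lit 5) (nat_lit 20) (nat_lit 5) (nat_lit 250) (nat_lit 247) (nat_lit 103)) (XT.lf (nat_lit 0) (nat_lit 67398094206) (nat_lit 304) (nat_lit 3330530181607) (nat_lit 76) (nat_lit 558026024960) (nat_lit 13) (nat_lit 5) (nat_lit 17) (nat_lit 5) (nat_lit 14) (nat_lit 5) (nat_lit 251) (nat_lit 247) (nat_lit 102)))) (XT.nd (nat_lit 156) (nat_lit 0) (nat_lit 0) (XT.nd (nat_lit 78) (nat_lit 152) (nat_lit 0) (XT.lf (nat_lit 0) (nat_lit 375220938815) (nat_lit 304) (nat_lit 1732868247389) (nat_lit 76) (nat_lit 2180192323285) (nat_lit 13) (nat_lit 5) (nat_lit 17) (nat_lit 5) (nat_lit 14) (nat_lit 5) (nat_lit 252) (nat_lit 247) (nat_lit 101)) (XT.lf (nat_lit 0)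 (nat_lit 114649903459) (nat_lit 152) (nat_lit 619314713964) (nat_lit 228) (nat_lit 3935781071002) (nat_lit 11) (nat_lit 5) (nat_lit 13) (nat_lit 5) (nat_lit 14) (nat_lit 5) (nat_lit 253) (nat_lit 247) (nat_lit 100))) (XT.nd (nat_lit 78) (nat_lit 0) (nat_lit 0) (XT.lf (nat_lit 0) (nat_lit 1286664533984) (nat_lit 228) (nat_lit 2710358632187) (nat_lit 76) (nat_lit 1090384625113) (nat_lit 11) (nat_lit 5) (nat_lit 14) (nat_lit 5) (nat_lit 12) (nat_lit 5) (nat_lit 254) (nat_lit 247) (nat_lit 99)) (XT.lf (nat_lit 0) (nat_lit 1951760614325) (nat_lit 228) (nat_lit 618402084034) (nat_lit 76) (nat_lit 2993132834773) (nat_lit 11) (nat_lit 5) (nat_lit 14) (nat_lit 5) (nat_lit 12) (nat_lit 5) (nat_lit 255) (nat_lit 247) (nat_lit 98)))))) (XT.nd (nat_lit 624) (nat_lit 76) (nat_lit 0) (XT.nd (nat_lit 312) (nat_lit 152) (nat_lit 0) (XT.nd (nat_lit 156) (nat_lit 76) (nat_lit 0) (XT.nd (nat_lit 78) (nat_lit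 0) (nat_lit 0) (XT.lf (nat_lit 0) (nat_lit 1962020585893) (nat_lit 152) (nat_lit 835843608781) (nat_lit 228) (nat_lit 3300515778395) (nat_lit 9) (nat_lit 5) (nat_lit 11) (nat_lit 5) (nat_lit 12) (nat_lit 5) (nat_lit 256) (nat_lit 247) (nat_lit 97)) (XT.lf (nat_lit 0) (nat_lit 3852724309570) (nat_lit 228) (nat_lit 1759387061774) (nat_lit 76) (nat_lit 1089339558033) (nat_lit 9) (nat_lit 5) (nat_lit 12) (nat_lit 5) (nat_lit 10) (nat_lit 4) (nat_lit 257) (nat_lit 247) (nat_lit 96))) (XT.nd (nat_lit 78) (nat_lit 0) (nat_lit 0) (XT.lf (nat_lit 0) (nat_lit 1025638463722) (nat_lit 76) (nat_lit 4122446555797) (nat_lit 152) (nat_lit 2234556772943) (nat_lit 8) (nat_lit 5) (nat_lit 9) (nat_lit 5) (nat_lit 10) (nat_lit 4) (nat_lit 258) (nat_lit 247) (nat_lit 95)) (XT.lf (nat_lit 0) (nat_lit 4426148931616) (nat_lit 76) (nat_lit 2303568864030) (nat_lit 152) (nat_lit 1422498295415) (nat_lit 8) (nat_lit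 5) (nat_lit 9) (nat_lit 5) (nat_lit 10) (nat_lit 4) (nat_lit 259) (nat_lit 247) (nat_lit 94)))) (XT.nd (nat_lit 156) (nat_lit 0) (nat_lit 0) (XT.nd (nat_lit 78) (nat_lit 152) (nat_lit 0) (XT.lf (nat_lit 0) (nat_lit 8336735969233) (nat_lit 76) (nat_lit 211859518643) (nat_lit 152) (nat_lit 488631046623) (nat_lit 8) (nat_lit 5) (nat_lit 9) (nat_lit 5) (nat_lit 10) (nat_lit 4) (nat_lit 260) (nat_lit 247) (nat_lit 93)) (XT.lf (nat_lit 0) (nat_lit 756369585314) (nat_lit 152) (nat_lit 7106626548347) (nat_lit 76) (nat_lit 2154882575974) (nat_lit 6) (nat_lit 5) (nat_lit 8) (nat_lit 5) (nat_lit 7) (nat_lit 4) (nat_lit 261) (nat_lit 247) (nat_lit 92))) (XT.nd (nat_lit 78) (nat_lit 0) (nat_lit 0) (XT.lf (nat_lit 0) (nat_lit 2186542545981) (nat_lit 152) (nat_lit 4031754683358) (nat_lit 76) (nat_lit 4916573948064) (nat_lit 6) (nat_lit 5) (nat_lit 8) (nat_lit 5) (nat_lit 7) (nat_lit 4) (nat_lit 262)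 (nat_lit 247) (nat_lit 91)) (XT.lf (nat_lit 0) (nat_lit 3831241450509) (nat_lit 152) (nat_lit 495652039011) (nat_lit 76) (nat_lit 8092519025855) (nat_lit 6) (nat_lit 5) (nat_lit 8) (nat_lit 5) (nat_lit 7) (nat_lit 4) (nat_lit 263) (nat_lit 247) (nat_lit 90))))) (XT.nd (nat_lit 30186) (nat_lit 0) (nat_lit 608) (XT.nd (nat_lit 30030) (nat_lit 0) (nat_lit 836) (XT.nd (nat_lit 78) (nat_lit 0) (nat_lit 0) (XT.lf (nat_lit 0) (nat_lit 3919836997265) (nat_lit 76) (nat_lit 1965120284226) (nat_lit 152) (nat_lit 7987330958935) (nat_lit 5) (nat_lit 5) (nat_lit 6) (nat_lit 5) (nat_lit 7) (nat_lit 4) (nat_lit 264) (nat_lit 247) (nat_lit 89)) (XT.lf (nat_lit 0) (nat_lit 8304967287066) (nat_lit 152) (nat_lit 6518182759015) (nat_lit 0) (nat_lit 711209758165) (nat_lit 5) (nat_lit 5) (nat_lit 7) (nat_lit 4) (nat_lit 5) (nat_lit 4) (nat_lit 265) (nat_lit 247) (nat_lit 88))) (XT.nd (nat_lit 78) (nat_lit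 0) (nat_lit 0) (XT.lf (nat_lit 0) (nat_lit 751633522309) (nat_lit 0) (nat_lit 751633522309) (nat_lit 228) (nat_lit 179248622528) (nat_lit 16) (nat_lit 5) (nat_lit 16) (nat_lit 3) (nat_lit 19) (nat_lit 3) (nat_lit 248) (nat_lit 248) (nat_lit 104)) (XT.lf (nat_lit 0) (nat_lit 3130978025244) (nat_lit 0) (nat_lit 101046125417) (nat_lit 228) (nat_lit 385384532930) (nat_lit 16) (nat_lit 5) (nat_lit 16) (nat_lit 3) (nat_lit 19) (nat_lit 3) (nat_lit 249) (nat_lit 248) (nat_lit 103)))) (XT.nd (nat_lit 156) (nat_lit 228) (nat_lit 0) (XT.nd (nat_lit 78) (nat_lit 0) (nat_lit 0) (XT.lf (nat_lit 76) (nat_lit 1133529315062) (nat_lit 0) (nat_lit 2467333757243) (nat_lit 304) (nat_lit 290350760339) (nat_lit 17) (nat_lit 5) (nat_lit 16) (nat_lit 5) (nat_lit 20) (nat_lit 5) (nat_lit 250) (nat_lit 248) (nat_lit 102)) (XT.lf (nat_lit 76) (nat_lit 3045869500230) (nat_lit 0) (nat_lit 1009178394066) (nat_lit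 304) (nat_lit 146538850453) (nat_lit 17) (nat_lit 5) (nat_lit 16) (nat_lit 5) (nat_lit 20) (nat_lit 5) (nat_lit 251) (nat_lit 248) (nat_lit 101))) (XT.nd (nat_lit 78) (nat_lit 0) (nat_lit 0) (XT.lf (nat_lit 0) (nat_lit 77507815908) (nat_lit 304) (nat_lit 3830109701043) (nat_lit 76) (nat_lit 641729927720) (nat_lit 13) (nat_lit 5) (nat_lit 17) (nat_lit 5) (nat_lit 14) (nat_lit 5) (nat_lit 252) (nat_lit 248) (nat_lit 100)) (XT.lf (nat_lit 0) (nat_lit 431504086221) (nat_lit 304) (nat_lit 1992798477711) (nat_lit 76) (nat_lit 2507221170923) (nat_lit 13) (nat_lit 5) (nat_lit 17) (nat_lit 5) (nat_lit 14) (nat_lit 5) (nat_lit 253) (nat_lit 248) (nat_lit 99))))))))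
noncomputable def xc63 : XT := (XT.nd (nat_lit 62790) (nat_lit 0) (nat_lit 380) (XT.nd (nat_lit 31278) (nat_lit 0) (nat_lit 0) (XT.nd (nat_lit 624) (nat_lit 152) (nat_lit 0) (XT.nd (nat_lit 312) (nat_lit 228) (nat_lit 0) (XT.nd (nat_lit 78) (nat_lit 0) (nat_lit 0) (XT.lf (nat_lit 0) (nat_lit 131847395456) (nat_lit 152) (nat_lit 712211920574) (nat_lit 228) (nat_lit 4526148224698) (nat_lit 11) (nat_lit 5) (nat_lit 13) (nat_lit 5) (nat_lit 14) (nat_lit 5) (nat_lit 254) (nat_lit 248) (nat_lit 98)) (XT.nd (nat_lit 78) (nat_lit 0) (nat_lit 0) (XT.lf (nat_lit 0) (nat_lit 1479664219310) (nat_lit 228) (nat_lit 3116912420563) (nat_lit 76) (nat_lit 1253942319265) (nat_lit 11) (nat_lit 5) (nat_lit 14) (nat_lit 5) (nat_lit 12) (nat_lit 5) (nat_lit 255) (nat_lit 248) (nat_lit 97)) (XT.lf (nat_lit 0) (nat_lit 2244524711021) (nat_lit 228) (nat_lit 711162391029) (nat_lit 76) (nat_lit 3442102760323)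 (nat_lit 11) (nat_lit 5) (nat_lit 14) (nat_lit 5) (nat_lit 12) (nat_lit 5) (nat_lit 256) (nat_lit 248) (nat_lit 96)))) (XT.nd (nat_lit 156) (nat_lit 0) (nat_lit 0) (XT.nd (nat_lit 78) (nat_lit 76) (nat_lit 0) (XT.lf (nat_lit 0) (nat_lit 4430632959679) (nat_lit 228) (nat_lit 2023295115845) (nat_lit 76) (nat_lit 1252740492673) (nat_lit 9) (nat_lit 5) (nat_lit 12) (nat_lit 5) (nat_lit 10) (nat_lit 4) (nat_lit 258) (nat_lit 248) (nat_lit 94)) (XT.lf (nat_lit 0) (nat_lit 1179484238239) (nat_lit 76) (nat_lit 4740813537608) (nat_lit 152) (nat_lit 2569740284944) (nat_lit 8) (nat_lit 5) (nat_lit 9) (nat_lit 5) (nat_lit 10) (nat_lit 4) (nat_lit 259) (nat_lit 248) (nat_lit 93))) (XT.nd (nat_lit 78) (nat_lit 0) (nat_lit 0) (XT.lf (nat_lit 0) (nat_lit 5090071275670) (nat_lit 76) (nat_lit 2649104192279) (nat_lit 152) (nat_lit 1635873036300) (nat_lit 8) (nat_lit 5) (nat_lit 9) (nat_lit 5) (nat_lit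 10) (nat_lit 4) (nat_lit 260) (nat_lit 248) (nat_lit 92)) (XT.lf (nat_lit 0) (nat_lit 9587246368367) (nat_lit 76) (nat_lit 243638445260) (nat_lit 152) (nat_lit 561925700637) (nat_lit 8) (nat_lit 5) (nat_lit 9) (nat_lit 5) (nat_lit 10) (nat_lit 4) (nat_lit 261) (nat_lit 248) (nat_lit 91))))) (XT.nd (nat_lit 30342) (nat_lit 0) (nat_lit 532) (XT.nd (nat_lit 156) (nat_lit 0) (nat_lit 0) (XT.nd (nat_lit 78) (nat_lit 0) (nat_lit 0) (XT.lf (nat_lit 0) (nat_lit 869825025686) (nat_lit 152) (nat_lit 8172620526407) (nat_lit 76) (nat_lit 2478114963583) (nat_lit 6) (nat_lit 5) (nat_lit 8) (nat_lit 5) (nat_lit 7) (nat_lit 4) (nat_lit 262) (nat_lit 248) (nat_lit 90)) (XT.lf (nat_lit 0) (nat_lit 2514523930117) (nat_lit 152) (nat_lit 4636517882217) (nat_lit 76) (nat_lit 5654060041329) (nat_lit 6) (nat_lit 5) (nat_lit 8) (nat_lit 5) (nat_lit 7) (nat_lit 4) (nat_lit 263) (nat_lit 248) (nat_lit 89)))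 (XT.nd (nat_lit 30108) (nat_lit 0) (nat_lit 760) (XT.lf (nat_lit 0) (nat_lit 4405927670032) (nat_lit 152) (nat_lit 569999841693) (nat_lit 76) (nat_lit 9306396880651) (nat_lit 6) (nat_lit 5) (nat_lit 8) (nat_lit 5) (nat_lit 7) (nat_lit 4) (nat_lit 264) (nat_lit 248) (nat_lit 88)) (XT.lf (nat_lit 0) (nat_lit 864378552923) (nat_lit 0) (nat_lit 864378552923) (nat_lit 228) (nat_lit 206135910630) (nat_lit 16) (nat_lit 5) (nat_lit 16) (nat_lit 3) (nat_lit 19) (nat_lit 3) (nat_lit 249) (nat_lit 249) (nat_lit 102)))) (XT.nd (nat_lit 156) (nat_lit 228) (nat_lit 0) (XT.nd (nat_lit 78) (nat_lit 0) (nat_lit 0) (XT.lf (nat_lit 0) (nat_lit 3600624732974) (nat_lit 0) (nat_lit 116203048173) (nat_lit 228) (nat_lit 443192203691) (nat_lit 16) (nat_lit 5) (nat_lit 16) (nat_lit 3) (nat_lit 19) (nat_lit 3) (nat_lit 250) (nat_lit 249) (nat_lit 101)) (XT.lf (nat_lit 76) (nat_lit 1303558717474) (nat_lit 0)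 (nat_lit 2837433822605) (nat_lit 304) (nat_lit 333903366327) (nat_lit 17) (nat_lit 5) (nat_lit 16) (nat_lit 5) (nat_lit 20) (nat_lit 5) (nat_lit 251) (nat_lit 249) (nat_lit 100))) (XT.nd (nat_lit 78) (nat_lit 228) (nat_lit 0) (XT.lf (nat_lit 76) (nat_lit 3502749929745) (nat_lit 0) (nat_lit 1160555154720) (nat_lit 304) (nat_lit 168519671010) (nat_lit 17) (nat_lit 5) (nat_lit 16) (nat_lit 5) (nat_lit 20) (nat_lit 5) (nat_lit 252) (nat_lit 249) (nat_lit 99)) (XT.lf (nat_lit 0) (nat_lit 89133994019) (nat_lit 304) (nat_lit 4404626150298) (nat_lit 76) (nat_lit 737989416134) (nat_lit 13) (nat_lit 5) (nat_lit 17) (nat_lit 5) (nat_lit 14) (nat_lit 5) (nat_lit 253) (nat_lit 249) (nat_lit 98)))))) (XT.nd (nat_lit 702) (nat_lit 152) (nat_lit 0) (XT.nd (nat_lit 390) (nat_lit 76) (nat_lit 0) (XT.nd (nat_lit 156) (nat_lit 152) (nat_lit 0) (XT.nd (nat_lit 78) (nat_lit 152) (nat_lit 0) (XT.lf (nat_lit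 0) (nat_lit 496229704132) (nat_lit 304) (nat_lit 2291718244235) (nat_lit 76) (nat_lit 2883304345914) (nat_lit 13) (nat_lit 5) (nat_lit 17) (nat_lit 5) (nat_lit 14) (nat_lit 5) (nat_lit 254) (nat_lit 249) (nat_lit 97)) (XT.lf (nat_lit 0) (nat_lit 151624509673) (nat_lit 152) (nat_lit 819043708293) (nat_lit 228) (nat_lit 5205070453144) (nat_lit 11) (nat_lit 5) (nat_lit 13) (nat_lit 5) (nat_lit 14) (nat_lit 5) (nat_lit 255) (nat_lit 249) (nat_lit 96))) (XT.nd (nat_lit 156) (nat_lit 152) (nat_lit 0) (XT.lf (nat_lit 0) (nat_lit 1701613856160) (nat_lit 228) (nat_lit 3584449278769) (nat_lit 76) (nat_lit 1442033667445) (nat_lit 11) (nat_lit 5) (nat_lit 14) (nat_lit 5) (nat_lit 12) (nat_lit 5) (nat_lit 256) (nat_lit 249) (nat_lit 95)) (XT.lf (nat_lit 0) (nat_lit 2594772235052) (nat_lit 152) (nat_lit 1105403170364) (nat_lit 228) (nat_lit 4364932107697) (nat_lit 9) (nat_lit 5) (nat_lit 11) (nat_lit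 5) (nat_lit 12) (nat_lit 5) (nat_lit 258) (nat_lit 249) (nat_lit 93)))) (XT.nd (nat_lit 156) (nat_lit 0) (nat_lit 0) (XT.nd (nat_lit 78) (nat_lit 76) (nat_lit 0) (XT.lf (nat_lit 0) (nat_lit 5095227906409) (nat_lit 228) (nat_lit 2326789379294) (nat_lit 76) (nat_lit 1440651567280) (nat_lit 9) (nat_lit 5) (nat_lit 12) (nat_lit 5) (nat_lit 10) (nat_lit 4) (nat_lit 259) (nat_lit 249) (nat_lit 92)) (XT.lf (nat_lit 0) (nat_lit 1356406877724) (nat_lit 76) (nat_lit 5451935567070) (nat_lit 152) (nat_lit 2955201324706) (nat_lit 8) (nat_lit 5) (nat_lit 9) (nat_lit 5) (nat_lit 10) (nat_lit 4) (nat_lit 260) (nat_lit 249) (nat_lit 91))) (XT.nd (nat_lit 78) (nat_lit 0) (nat_lit 0) (XT.lf (nat_lit 0) (nat_lit 5853581970281) (nat_lit 76) (nat_lit 3046469820096) (nat_lit 152) (nat_lit 1881253989155) (nat_lit 8) (nat_lit 5) (nat_lit 9) (nat_lit 5) (nat_lit 10) (nat_lit 4) (nat_lit 261) (nat_lit 249) (nat_lit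 90)) (XT.lf (nat_lit 0) (nat_lit 11025333326458) (nat_lit 76) (nat_lit 280184211158) (nat_lit 152) (nat_lit 646214553480) (nat_lit 8) (nat_lit 5) (nat_lit 9) (nat_lit 5) (nat_lit 10) (nat_lit 4) (nat_lit 262) (nat_lit 249) (nat_lit 89))))) (XT.nd (nat_lit 30498) (nat_lit 0) (nat_lit 380) (XT.nd (nat_lit 30342) (nat_lit 0) (nat_lit 760) (XT.nd (nat_lit 30264) (nat_lit 0) (nat_lit 760) (XT.lf (nat_lit 0) (nat_lit 1000298781486) (nat_lit 152) (nat_lit 9398513602198) (nat_lit 76) (nat_lit 2849832209038) (nat_lit 6) (nat_lit 5) (nat_lit 8) (nat_lit 5) (nat_lit 7) (nat_lit 4) (nat_lit 263) (nat_lit 249) (nat_lit 88)) (XT.lf (nat_lit 0) (nat_lit 994035337576) (nat_lit 0) (nat_lit 994035337576) (nat_lit 228) (nat_lit 237056293234) (nat_lit 16) (nat_lit 5) (nat_lit 16) (nat_lit 3) (nat_lit 19) (nat_lit 3) (nat_lit 250) (nat_lit 250) (nat_lit 100))) (XT.nd (nat_lit 78) (nat_lit 0) (nat_lit 0)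 (XT.lf (nat_lit 0) (nat_lit 4140718445901) (nat_lit 0) (nat_lit 133633508380) (nat_lit 228) (nat_lit 509671027305) (nat_lit 16) (nat_lit 5) (nat_lit 16) (nat_lit 3) (nat_lit 19) (nat_lit 3) (nat_lit 251) (nat_lit 250) (nat_lit 99)) (XT.lf (nat_lit 76) (nat_lit 1499092528991) (nat_lit 0) (nat_lit 3263048897339) (nat_lit 304) (nat_lit 383988865180) (nat_lit 17) (nat_lit 5) (nat_lit 16) (nat_lit 5) (nat_lit 20) (nat_lit 5) (nat_lit 252) (nat_lit 250) (nat_lit 98)))) (XT.nd (nat_lit 156) (nat_lit 152) (nat_lit 0) (XT.nd (nat_lit 78) (nat_lit 228) (nat_lit 0) (XT.lf (nat_lit 76) (nat_lit 4028162422595) (nat_lit 0) (nat_lit 1334638429096) (nat_lit 304) (nat_lit 193797616360) (nat_lit 17) (nat_lit 5) (nat_lit 16) (nat_lit 5) (nat_lit 20) (nat_lit 5) (nat_lit 253) (nat_lit 250) (nat_lit 97)) (XT.lf (nat_lit 0) (nat_lit 102504097450) (nat_lit 304) (nat_lit 5065320068381) (nat_lit 76) (nat_lit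 848687827992) (nat_lit 13) (nat_lit 5) (nat_lit 17) (nat_lit 5) (nat_lit 14) (nat_lit 5) (nat_lit 254) (nat_lit 250) (nat_lit 96))) (XT.nd (nat_lit 78) (nat_lit 152) (nat_lit 0) (XT.lf (nat_lit 0) (nat_lit 570664163516) (nat_lit 304) (nat_lit 2635475976990) (nat_lit 76) (nat_lit 3315799997312) (nat_lit 13) (nat_lit 5) (nat_lit 17) (nat_lit 5) (nat_lit 14) (nat_lit 5) (nat_lit 255) (nat_lit 250) (nat_lit 95)) (XT.lf (nat_lit 0) (nat_lit 174368189828) (nat_lit 152) (nat_lit 941900264259) (nat_lit 228) (nat_lit 5985831017140) (nat_lit 11) (nat_lit 5) (nat_lit 13) (nat_lit 5) (nat_lit 14) (nat_lit 5) (nat_lit 256) (nat_lit 250) (nat_lit 94))))))) (XT.nd (nat_lit 93522) (nat_lit 0) (nat_lit 0) (XT.nd (nat_lit 31278) (nat_lit 0) (nat_lit 0) (XT.nd (nat_lit 30966) (nat_lit 0) (nat_lit 152) (XT.nd (nat_lit 30810) (nat_lit 0) (nat_lit 380) (XT.lf (nat_lit 0) (nat_lit 1956855937574) (nat_lit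 228) (nat_lit 4122116666895) (nat_lit 76) (nat_lit 1658338717782) (nat_lit 11) (nat_lit 5) (nat_lit 14) (nat_lit 5) (nat_lit 12) (nat_lit 5) (nat_lit 257) (nat_lit 250) (nat_lit 93)) (XT.nd (nat_lit 78) (nat_lit 0) (nat_lit 0) (XT.lf (nat_lit 0) (nat_lit 1143140639508) (nat_lit 0) (nat_lit 1143140639508) (nat_lit 228) (nat_lit 272614734202) (nat_lit 16) (nat_lit 5) (nat_lit 16) (nat_lit 3) (nat_lit 19) (nat_lit 3) (nat_lit 251) (nat_lit 251) (nat_lit 98)) (XT.lf (nat_lit 0) (nat_lit 4761826215041) (nat_lit 0) (nat_lit 153678536891) (nat_lit 228) (nat_lit 586121676154) (nat_lit 16) (nat_lit 5) (nat_lit 16) (nat_lit 3) (nat_lit 19) (nat_lit 3) (nat_lit 252) (nat_lit 251) (nat_lit 97)))) (XT.nd (nat_lit 156) (nat_lit 228) (nat_lit 0) (XT.nd (nat_lit 78) (nat_lit 0) (nat_lit 0) (XT.lf (nat_lit 76) (nat_lit 1723956411286) (nat_lit 0) (nat_lit 3752506232955) (nat_lit 304) (nat_lit 441587190347)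 (nat_lit 17) (nat_lit 5) (nat_lit 16) (nat_lit 5) (nat_lit 20) (nat_lit 5) (nat_lit 253) (nat_lit 251) (nat_lit 96)) (XT.lf (nat_lit 76) (nat_lit 4632386788546) (nat_lit 0) (nat_lit 1534834194343) (nat_lit 304) (nat_lit 222867254805) (nat_lit 17) (nat_lit 5) (nat_lit 16) (nat_lit 5) (nat_lit 20) (nat_lit 5) (nat_lit 254) (nat_lit 251) (nat_lit 95))) (XT.nd (nat_lit 78) (nat_lit 0) (nat_lit 0) (XT.lf (nat_lit 0) (nat_lit 117879715341) (nat_lit 304) (nat_lit 5825118075263) (nat_lit 76) (nat_lit 975991001765) (nat_lit 13) (nat_lit 5) (nat_lit 17) (nat_lit 5) (nat_lit 14) (nat_lit 5) (nat_lit 255) (nat_lit 251) (nat_lit 94)) (XT.lf (nat_lit 0) (nat_lit 656263790890) (nat_lit 304) (nat_lit 3030797370605) (nat_lit 76) (nat_lit 3813169996538) (nat_lit 13) (nat_lit 5) (nat_lit 17) (nat_lit 5) (nat_lit 14) (nat_lit 5) (nat_lit 256) (nat_lit 251) (nat_lit 93))))) (XT.nd (nat_lit 31122) (nat_lit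 0) (nat_lit 0) (XT.nd (nat_lit 30966) (nat_lit 0) (nat_lit 380) (XT.nd (nat_lit 30888) (nat_lit 0) (nat_lit 380) (XT.lf (nat_lit 0) (nat_lit 200523421103) (nat_lit 152) (nat_lit 1083185303688) (nat_lit 228) (nat_lit 6883705666704) (nat_lit 11) (nat_lit 5) (nat_lit 13) (nat_lit 5) (nat_lit 14) (nat_lit 5) (nat_lit 257) (nat_lit 251) (nat_lit 92)) (XT.lf (nat_lit 0) (nat_lit 1314611736415) (nat_lit 0) (nat_lit 1314611736415) (nat_lit 228) (nat_lit 313506942050) (nat_lit 16) (nat_lit 5) (nat_lit 16) (nat_lit 3) (nat_lit 19) (nat_lit 3) (nat_lit 252) (nat_lit 252) (nat_lit 96))) (XT.nd (nat_lit 78) (nat_lit 0) (nat_lit 0) (XT.lf (nat_lit 0) (nat_lit 5476100149002) (nat_lit 0) (nat_lit 176730319130) (nat_lit 228) (nat_lit 674039923609) (nat_lit 16) (nat_lit 5) (nat_lit 16) (nat_lit 3) (nat_lit 19) (nat_lit 3) (nat_lit 253) (nat_lit 252) (nat_lit 95)) (XT.lf (nat_lit 76) (nat_lit 1982549875207)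 (nat_lit 0) (nat_lit 4315382168666) (nat_lit 304) (nat_lit 507825265413) (nat_lit 17) (nat_lit 5) (nat_lit 16) (nat_lit 5) (nat_lit 20) (nat_lit 5) (nat_lit 254) (nat_lit 252) (nat_lit 94)))) (XT.nd (nat_lit 156) (nat_lit 152) (nat_lit 0) (XT.nd (nat_lit 78) (nat_lit 228) (nat_lit 0) (XT.lf (nat_lit 76) (nat_lit 5327244808765) (nat_lit 0) (nat_lit 1765059324162) (nat_lit 304) (nat_lit 256297339995) (nat_lit 17) (nat_lit 5) (nat_lit 16) (nat_lit 5) (nat_lit 20) (nat_lit 5) (nat_lit 255) (nat_lit 252) (nat_lit 93)) (XT.lf (nat_lit 0) (nat_lit 135561675117) (nat_lit 304) (nat_lit 6698885784002) (nat_lit 76) (nat_lit 1122389651708) (nat_lit 13) (nat_lit 5) (nat_lit 17) (nat_lit 5) (nat_lit 14) (nat_lit 5) (nat_lit 256) (nat_lit 252) (nat_lit 92))) (XT.nd (nat_lit 156) (nat_lit 152) (nat_lit 0) (XT.lf (nat_lit 0) (nat_lit 754703361675) (nat_lit 304) (nat_lit 3485416973977) (nat_lit 76)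 (nat_lit 4385145495739) (nat_lit 13) (nat_lit 5) (nat_lit 17) (nat_lit 5) (nat_lit 14) (nat_lit 5) (nat_lit 257) (nat_lit 252) (nat_lit 91)) (XT.lf (nat_lit 0) (nat_lit 2587941981751) (nat_lit 228) (nat_lit 5451499286652) (nat_lit 76) (nat_lit 2193152954584) (nat_lit 11) (nat_lit 5) (nat_lit 14) (nat_lit 5) (nat_lit 12) (nat_lit 5) (nat_lit 259) (nat_lit 252) (nat_lit 89)))))) (XT.nd (nat_lit 31434) (nat_lit 0) (nat_lit 152) (XT.nd (nat_lit 312) (nat_lit 380) (nat_lit 0) (XT.nd (nat_lit 156) (nat_lit 0) (nat_lit 0) (XT.nd (nat_lit 78) (nat_lit 0) (nat_lit 0) (XT.lf (nat_lit 0) (nat_lit 1511803497618) (nat_lit 0) (nat_lit 1511803497618) (nat_lit 228) (nat_lit 360532981633) (nat_lit 16) (nat_lit 5) (nat_lit 16) (nat_lit 3) (nat_lit 19) (nat_lit 3) (nat_lit 253) (nat_lit 253) (nat_lit 94)) (XT.lf (nat_lit 0) (nat_lit 6297515172641) (nat_lit 0) (nat_lit 203239868288) (nat_lit 228) (nat_lit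 775145909151) (nat_lit 16) (nat_lit 5) (nat_lit 16) (nat_lit 3) (nat_lit 19) (nat_lit 3) (nat_lit 254) (nat_lit 253) (nat_lit 93))) (XT.nd (nat_lit 78) (nat_lit 0) (nat_lit 0) (XT.lf (nat_lit 76) (nat_lit 2279932358172) (nat_lit 0) (nat_lit 4962689494546) (nat_lit 304) (nat_lit 583999052589) (nat_lit 17) (nat_lit 5) (nat_lit 16) (nat_lit 5) (nat_lit 20) (nat_lit 5) (nat_lit 255) (nat_lit 253) (nat_lit 92)) (XT.lf (nat_lit 76) (nat_lit 6126331531545) (nat_lit 0) (nat_lit 2029818223291) (nat_lit 304) (nat_lit 294741938702) (nat_lit 17) (nat_lit 5) (nat_lit 16) (nat_lit 5) (nat_lit 20) (nat_lit 5) (nat_lit 256) (nat_lit 253) (nat_lit 91)))) (XT.nd (nat_lit 156) (nat_lit 152) (nat_lit 0) (XT.nd (nat_lit 78) (nat_lit 0) (nat_lit 0) (XT.lf (nat_lit 0) (nat_lit 155895928256) (nat_lit 304) (nat_lit 7703718649673) (nat_lit 76) (nat_lit 1290748099221) (nat_lit 13) (nat_lit 5) (nat_lit 17) (nat_lit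 5) (nat_lit 14) (nat_lit 5) (nat_lit 257) (nat_lit 253) (nat_lit 90)) (XT.lf (nat_lit 0) (nat_lit 867908867554) (nat_lit 304) (nat_lit 4008229518396) (nat_lit 76) (nat_lit 5042917319889) (nat_lit 13) (nat_lit 5) (nat_lit 17) (nat_lit 5) (nat_lit 14) (nat_lit 5) (nat_lit 258) (nat_lit 253) (nat_lit 89))) (XT.nd (nat_lit 30888) (nat_lit 0) (nat_lit 380) (XT.lf (nat_lit 0) (nat_lit 265192228446) (nat_lit 152) (nat_lit 1432512563825) (nat_lit 228) (nat_lit 9103700739883) (nat_lit 11) (nat_lit 5) (nat_lit 13) (nat_lit 5) (nat_lit 14) (nat_lit 5) (nat_lit 259) (nat_lit 253) (nat_lit 88)) (XT.lf (nat_lit 0) (nat_lit 1738574022821) (nat_lit 0) (nat_lit 1738574022821) (nat_lit 228) (nat_lit 414612927574) (nat_lit 16) (nat_lit 5) (nat_lit 16) (nat_lit 3) (nat_lit 19) (nat_lit 3) (nat_lit 254) (nat_lit 254) (nat_lit 92))))) (XT.nd (nat_lit 31278) (nat_lit 0) (nat_lit 228) (XT.nd (nat_lit 156)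 (nat_lit 228) (nat_lit 0) (XT.nd (nat_lit 78) (nat_lit 0) (nat_lit 0) (XT.lf (nat_lit 0) (nat_lit 7242142449511) (nat_lit 0) (nat_lit 233725849506) (nat_lit 228) (nat_lit 891417793255) (nat_lit 16) (nat_lit 5) (nat_lit 16) (nat_lit 3) (nat_lit 19) (nat_lit 3) (nat_lit 255) (nat_lit 254) (nat_lit 91)) (XT.lf (nat_lit 76) (nat_lit 2621922213172) (nat_lit 0) (nat_lit 5707092919167) (nat_lit 304) (nat_lit 671598908485) (nat_lit 17) (nat_lit 5) (nat_lit 16) (nat_lit 5) (nat_lit 20) (nat_lit 5) (nat_lit 256) (nat_lit 254) (nat_lit 90))) (XT.nd (nat_lit 78) (nat_lit 228) (nat_lit 0) (XT.lf (nat_lit 76) (nat_lit 7045281262384) (nat_lit 0) (nat_lit 2334290957167) (nat_lit 304) (nat_lit 338953227775) (nat_lit 17) (nat_lit 5) (nat_lit 16) (nat_lit 5) (nat_lit 20) (nat_lit 5) (nat_lit 257) (nat_lit 254) (nat_lit 89)) (XT.lf (nat_lit 0) (nat_lit 179280318909) (nat_lit 304) (nat_lit 8859276445665)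 (nat_lit 76) (nat_lit 1484360313920) (nat_lit 13) (nat_lit 5) (nat_lit 17) (nat_lit 5) (nat_lit 14) (nat_lit 5) (nat_lit 258) (nat_lit 254) (nat_lit 88)))) (XT.nd (nat_lit 156) (nat_lit 0) (nat_lit 0) (XT.nd (nat_lit 78) (nat_lit 0) (nat_lit 0) (XT.lf (nat_lit 0) (nat_lit 1999360126669) (nat_lit 0) (nat_lit 1999360126669) (nat_lit 228) (nat_lit 476804865723) (nat_lit 16) (nat_lit 5) (nat_lit 16) (nat_lit 3) (nat_lit 19) (nat_lit 3) (nat_lit 255) (nat_lit 255) (nat_lit 90)) (XT.lf (nat_lit 0) (nat_lit 8328463817675) (nat_lit 0) (nat_lit 268784727669) (nat_lit 228) (nat_lit 1025130460528) (nat_lit 16) (nat_lit 5) (nat_lit 16) (nat_lit 3) (nat_lit 19) (nat_lit 3) (nat_lit 256) (nat_lit 255) (nat_lit 89))) (XT.nd (nat_lit 31200) (nat_lit 0) (nat_lit 0) (XT.lf (nat_lit 76) (nat_lit 3015210546111) (nat_lit 0) (nat_lit 6563156857374) (nat_lit 304) (nat_lit 772338743251) (nat_lit 17) (nat_lit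 5) (nat_lit 16) (nat_lit 5) (nat_lit 20) (nat_lit 5) (nat_lit 257) (nat_lit 255) (nat_lit 88)) (XT.lf (nat_lit 0) (nat_lit 2299264145989) (nat_lit 0) (nat_lit 2299264145989) (nat_lit 228) (nat_lit 548325594836) (nat_lit 16) (nat_lit 5) (nat_lit 16) (nat_lit 3) (nat_lit 19) (nat_lit 3) (nat_lit 256) (nat_lit 256) (nat_lit 88))))))))

set_option maxRecDepth 10000000 in
noncomputable def Tp : PT := (PT.nd (nat_lit 3167034) pc0 pc1)

set_option maxRecDepth 10000000 in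
noncomputable def Tx : XT := (XT.nd (nat_lit 4995198) (nat_lit 0) (nat_lit 76) XT.nil (XT.nd (nat_lit 3032016) (nat_lit 0) (nat_lit 0) (XT.nd (nat_lit 1438320) (nat_lit 0) (nat_lit 0) (XT.nd (nat_lit 1027494) (nat_lit 0) (nat_lit 0) (XT.nd (nat_lit 717834) (nat_lit 0) (nat_lit 0) (XT.nd (nat_lit 500448) (nat_lit 0) (nat_lit 0) (XT.nd (nat_lit 374010) (nat_lit 0) (nat_lit 0) (XT.nd (nat_lit 250458) (nat_lit 0) (nat_lit 0) xc0 xc1) (XT.nd (nat_lit 63882) (nat_lit 0) (nat_lit 0) xc2 xc3)) (XT.nd (nat_lit 123396) (nat_lit 0) (nat_lit 0) (XT.nd (nat_lit 61776) (nat_lit 0) (nat_lit 0) xc4 xc5) (XT.nd (nat_lit 61074) (nat_lit 0) (nat_lit 0) xc6 xc7))) (XT.nd (nat_lit 157014) (nat_lit 0) (nat_lit 0) (XT.nd (nat_lit 92820) (nat_lit 0) (nat_lit 0) (XT.nd (nat_lit 60528) (nat_lit 0) (nat_lit 0) xc8 xc9) (XT.nd (nat_lit 32214) (nat_lit 0) (nat_lit 0) xc10 xc11)) (XT.nd (nat_lit 90168) (nat_lit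 0) (nat_lit 0) (XT.nd (nat_lit 31824) (nat_lit 0) (nat_lit 0) xc12 xc13) (XT.nd (nat_lit 31434) (nat_lit 0) (nat_lit 0) xc14 xc15)))) (XT.nd (nat_lit 218790) (nat_lit 0) (nat_lit 0) (XT.nd (nat_lit 97110) (nat_lit 0) (nat_lit 0) (XT.nd (nat_lit 35880) (nat_lit 0) (nat_lit 0) (XT.nd (nat_lit 30732) (nat_lit 0) (nat_lit 0) xc16 xc17) (XT.nd (nat_lit 30498) (nat_lit 0) (nat_lit 0) xc18 xc19)) (XT.nd (nat_lit 60840) (nat_lit 0) (nat_lit 0) (XT.nd (nat_lit 30498) (nat_lit 0) (nat_lit 0) xc20 xc21) (XT.nd (nat_lit 30264) (nat_lit 0) (nat_lit 0) xc22 xc23))) (XT.nd (nat_lit 96018) (nat_lit 0) (nat_lit 0) (XT.nd (nat_lit 35178) (nat_lit 0) (nat_lit 0) (XT.nd (nat_lit 30342) (nat_lit 0) (nat_lit 0) xc24 xc25) (XT.nd (nat_lit 30498) (nat_lit 0) (nat_lit 0) xc26 xc27)) (XT.nd (nat_lit 60684) (nat_lit 0) (nat_lit 0) (XT.nd (nat_lit 30342) (nat_lit 0) (nat_lit 0) xc28 xc29) (XT.nd (nat_lit 30420)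 (nat_lit 0) (nat_lit 0) xc30 xc31))))) (XT.nd (nat_lit 499512) (nat_lit 0) (nat_lit 0) (XT.nd (nat_lit 246480) (nat_lit 0) (nat_lit 0) (XT.nd (nat_lit 122382) (nat_lit 0) (nat_lit 0) (XT.nd (nat_lit 60918) (nat_lit 0) (nat_lit 0) (XT.nd (nat_lit 30342) (nat_lit 0) (nat_lit 0) xc32 xc33) (XT.nd (nat_lit 30654) (nat_lit 0) (nat_lit 0) xc34 xc35)) (XT.nd (nat_lit 61776) (nat_lit 0) (nat_lit 0) (XT.nd (nat_lit 30654) (nat_lit 0) (nat_lit 0) xc36 xc37) (XT.nd (nat_lit 31278) (nat_lit 0) (nat_lit 0) xc38 xc39))) (XT.nd (nat_lit 125736) (nat_lit 0) (nat_lit 0) (XT.nd (nat_lit 62322) (nat_lit 0) (nat_lit 0) (XT.nd (nat_lit 31044) (nat_lit 0) (nat_lit 0) xc40 xc41) (XT.nd (nat_lit 31668) (nat_lit 0) (nat_lit 0) xc42 xc43)) (XT.nd (nat_lit 63726) (nat_lit 0) (nat_lit 0) (XT.nd (nat_lit 31824) (nat_lit 0) (nat_lit 0) xc44 xc45) (XT.nd (nat_lit 31824) (nat_lit 0) (nat_lit 0) xc46 xc47)))) (XT.nd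 (nat_lit 344292) (nat_lit 0) (nat_lit 0) (XT.nd (nat_lit 156000) (nat_lit 0) (nat_lit 0) (XT.nd (nat_lit 91338) (nat_lit 0) (nat_lit 0) (XT.nd (nat_lit 32136) (nat_lit 0) (nat_lit 0) xc48 xc49) (XT.nd (nat_lit 32292) (nat_lit 0) (nat_lit 0) xc50 xc51)) (XT.nd (nat_lit 93912) (nat_lit 0) (nat_lit 0) (XT.nd (nat_lit 60918) (nat_lit 0) (nat_lit 0) xc52 xc53) (XT.nd (nat_lit 61308) (nat_lit 0) (nat_lit 0) xc54 xc55))) (XT.nd (nat_lit 248274) (nat_lit 0) (nat_lit 76) (XT.nd (nat_lit 122850) (nat_lit 0) (nat_lit 0) (XT.nd (nat_lit 61230) (nat_lit 0) (nat_lit 0) xc56 xc57) (XT.nd (nat_lit 33462) (nat_lit 0) (nat_lit 0) xc58 xc59)) (XT.nd (nat_lit 157092) (nat_lit 0) (nat_lit 152) (XT.nd (nat_lit 63804) (nat_lit 0) (nat_lit 76) xc60 xc61) (XT.nd (nat_lit 94068) (nat_lit 0) (nat_lit 152) xc62 xc63)))))) XT.nil))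

set_option maxRecDepth 10000000 in
noncomputable def Te : XT := XT.nil

set_option maxRecDepth 10000000 in
noncomputable def Tz : ZL := (ZL.cons (nat_lit 76) (nat_lit 3) (nat_lit 88784708305885914068) (ZL.cons (nat_lit 152) (nat_lit 6) (nat_lit 167472867737695153290) (ZL.cons (nat_lit 228) (nat_lit 6) (nat_lit 158983327320513351348) (ZL.cons (nat_lit 304) (nat_lit 3) (nat_lit 78765735570022635179) (ZL.cons (nat_lit 380) (nat_lit 6) (nat_lit 149220355840754279116) (ZL.cons (nat_lit 456) (nat_lit 6) (nat_lit 142376913062227355818) (ZL.cons (nat_lit 532) (nat_lit 3) (nat_lit 70557214713518860088) (ZL.cons (nat_lit 608) (nat_lit 6) (nat_lit 134506953866921394030) (ZL.cons (nat_lit 684) (nat_lit 6) (nat_lit 129268652464663894298) (ZL.cons (nat_lit 760) (nat_lit 3) (nat_lit 64085420303988627302) (ZL.cons (nat_lit 836) (nat_lit 6) (nat_lit 125297036714568878594) (ZL.cons (nat_lit 912) (nat_lit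 6) (nat_lit 123244605852067769606) (ZL.cons (nat_lit 988) (nat_lit 6) (nat_lit 122514401091091009652) (ZL.cons (nat_lit 1064) (nat_lit 6) (nat_lit 119631866745272970840) (ZL.cons (nat_lit 1140) (nat_lit 3) (nat_lit 59338623869729250773) (ZL.cons (nat_lit 1216) (nat_lit 6) (nat_lit 116088455254600033884) (ZL.cons (nat_lit 1292) (nat_lit 6) (nat_lit 117261939261590351380) (ZL.cons (nat_lit 1368) (nat_lit 6) (nat_lit 115477216772458952262) (ZL.cons (nat_lit 1444) (nat_lit 3) (nat_lit 56477113078714884825) (ZL.cons (nat_lit 1520) (nat_lit 6) (nat_lit 113581903649540869704) (ZL.cons (nat_lit 1596) (nat_lit 3) (nat_lit 56375900083111969940) (ZL.cons (nat_lit 1672) (nat_lit 6) (nat_lit 111402293558185074764) (ZL.cons (nat_lit 1748) (nat_lit 1) (nat_lit 18446744073709551617) ZL.nil)))))))))))))))))))))))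

noncomputable def vl : XL := ⟨(nat_lit 0), (nat_lit 76), (nat_lit 263310406), (nat_lit 152), (nat_lit 215218051), (nat_lit 152), (nat_lit 215218051), (nat_lit 1), (nat_lit 4), (nat_lit 2), (nat_lit 5), (nat_lit 2), (nat_lit 4), (nat_lit 0), (nat_lit 0), (nat_lit 0)⟩

noncomputable def cp0 : Nat := (nat_lit 675472800709319582675970410597759640485964011162081437543670218752)

noncomputable def cp1 : Nat := (nat_lit 36646416016413224721689819369656781279229779002185974368415123427750700712478266559478091997146170821583525506944770599945454297842000579176163623292168587497812903247053604117899411385413824187187236233419189100334553974433810190020112432043061375629338055159943858739598934744196158176815333514761941250209119070295090420053028241032438501747428040247164714643331813948526919434132006323241634785869938866653800268813779454322640140900153430214619540575100389484760997822595362210656733465882136550160807754433566148264301464386366196382957568)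

noncomputable def rc0 : Nat := (nat_lit 36646416016413224721689819369656781279229779002185974368415123427750700712478266559478091997146170821583525506944770599945454297842000579176163623292168587497812903247053604117899411385413824187187236233419189100334553974433810190020112432043061375629338055159943858739598934744196158176815333514761941250209119070295090420053028241032438501747428040247164714643331813948526919434132006323241634785869938866653800268813779454322640140900153430214619540575100389484760997822595362210656733465882136550160807754433566148264301464386366196382957568)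

end Vale.Agent.Lib.P154.PChain.BU.S0
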