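import Vale.Agent.Lib.P154.PChain.BU.R0_0

set_option linter.all false

namespace Vale.Agent.Lib.P154.PChain.BU.S1

open Vale.Agent.Lib.P154.Chain

noncomputable def pc0 : PT := (PT.nd (nat_lit 3042000) (PT.nd (nat_lit 2948166) (PT.nd (nat_lit 2854488) (PT.nd (nat_lit 2823132) (PT.nd (nat_lit 2791932) (PT.nd (nat_lit 2760732) PT.nil (PT.lf (nat_lit 76) (nat_lit 3) (nat_lit 1) (nat_lit 1) (nat_lit 106) (nat_lit 88) (nat_lit 106))) (PT.nd (nat_lit 78) (PT.lf (nat_lit 152) (nat_lit 6) (nat_lit 2) (nat_lit 3) (nat_lit 105) (nat_lit 89) (nat_lit 106)) (PT.lf (nat_lit 152) (nat_lit 6) (nat_lit 2) (nat_lit 1) (nat_lit 106) (nat_lit 89) (nat_lit 105)))) (PT.nd (nat_lit 156) (PT.nd (nat_lit 78) (PT.lf (nat_lit 228) (nat_lit 6) (nat_lit 3) (nat_lit 3) (nat_lit 104) (nat_lit 90) (nat_lit 106)) (PT.lf (nat_lit 304) (nat_lit 3) (nat_lit 4) (nat_lit 1) (nat_lit 105) (nat_lit 90) (nat_lit 105))) (PT.nd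 (nat_lit 31122) (PT.lf (nat_lit 228) (nat_lit 6) (nat_lit 3) (nat_lit 1) (nat_lit 106) (nat_lit 90) (nat_lit 104)) (PT.lf (nat_lit 380) (nat_lit 6) (nat_lit 5) (nat_lit 3) (nat_lit 104) (nat_lit 91) (nat_lit 105))))) (PT.nd (nat_lit 31278) (PT.nd (nat_lit 31122) (PT.lf (nat_lit 380) (nat_lit 6) (nat_lit 5) (nat_lit 1) (nat_lit 105) (nat_lit 91) (nat_lit 104)) (PT.nd (nat_lit 78) (PT.lf (nat_lit 456) (nat_lit 6) (nat_lit 6) (nat_lit 3) (nat_lit 103) (nat_lit 92) (nat_lit 105)) (PT.lf (nat_lit 532) (nat_lit 3) (nat_lit 7) (nat_lit 1) (nat_lit 104) (nat_lit 92) (nat_lit 104)))) (PT.nd (nat_lit 31200) (PT.nd (nat_lit 31122) (PT.lf (nat_lit 456) (nat_lit 6) (nat_lit 6) (nat_lit 1) (nat_lit 105) (nat_lit 92) (nat_lit 103)) (PT.lf (nat_lit 608) (nat_lit 6) (nat_lit 8) (nat_lit 3) (nat_lit 103) (nat_lit 93) (nat_lit 104))) (PT.nd (nat_lit 31122) (PT.lf (nat_lit 608) (nat_lit 6) (nat_lit 8) (nat_lit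 1) (nat_lit 104) (nat_lit 93) (nat_lit 103)) (PT.lf (nat_lit 684) (nat_lit 6) (nat_lit 9) (nat_lit 3) (nat_lit 102) (nat_lit 94) (nat_lit 104)))))) (PT.nd (nat_lit 62400) (PT.nd (nat_lit 31200) (PT.nd (nat_lit 78) (PT.lf (nat_lit 760) (nat_lit 3) (nat_lit 10) (nat_lit 1) (nat_lit 103) (nat_lit 94) (nat_lit 103)) (PT.nd (nat_lit 31044) (PT.lf (nat_lit 684) (nat_lit 6) (nat_lit 9) (nat_lit 1) (nat_lit 104) (nat_lit 94) (nat_lit 102)) (PT.lf (nat_lit 836) (nat_lit 6) (nat_lit 11) (nat_lit 3) (nat_lit 101) (nat_lit 95) (nat_lit 104)))) (PT.nd (nat_lit 156) (PT.nd (nat_lit 78) (PT.lf (nat_lit 912) (nat_lit 6) (nat_lit 12) (nat_lit 3) (nat_lit 102) (nat_lit 95) (nat_lit 103)) (PT.lf (nat_lit 912) (nat_lit 6) (nat_lit 12) (nat_lit 1) (nat_lit 103) (nat_lit 95) (nat_lit 102))) (PT.nd (nat_lit 30966) (PT.lf (nat_lit 836) (nat_lit 6) (nat_lit 11) (nat_lit 1) (nat_lit 104) (nat_lit 95) (nat_lit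 101)) (PT.lf (nat_lit 988) (nat_lit 6) (nat_lit 13) (nat_lit 3) (nat_lit 100) (nat_lit 96) (nat_lit 104))))) (PT.nd (nat_lit 234) (PT.nd (nat_lit 78) (PT.lf (nat_lit 1064) (nat_lit 6) (nat_lit 14) (nat_lit 3) (nat_lit 101) (nat_lit 96) (nat_lit 103)) (PT.nd (nat_lit 78) (PT.lf (nat_lit 1140) (nat_lit 3) (nat_lit 15) (nat_lit 1) (nat_lit 102) (nat_lit 96) (nat_lit 102)) (PT.lf (nat_lit 1064) (nat_lit 6) (nat_lit 14) (nat_lit 1) (nat_lit 103) (nat_lit 96) (nat_lit 101)))) (PT.nd (nat_lit 31044) (PT.nd (nat_lit 30966) (PT.lf (nat_lit 988) (nat_lit 6) (nat_lit 13) (nat_lit 1) (nat_lit 104) (nat_lit 96) (nat_lit 100)) (PT.lf (nat_lit 1292) (nat_lit 6) (nat_lit 17) (nat_lit 3) (nat_lit 100) (nat_lit 97) (nat_lit 103))) (PT.nd (nat_lit 78) (PT.lf (nat_lit 1368) (nat_lit 6) (nat_lit 18) (nat_lit 3) (nat_lit 101) (nat_lit 97) (nat_lit 102)) (PT.lf (nat_lit 1368) (nat_lit 6) (nat_lit 18) (nat_lit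 1) (nat_lit 102) (nat_lit 97) (nat_lit 101))))))) (PT.nd (nat_lit 93444) (PT.nd (nat_lit 62244) (PT.nd (nat_lit 31122) (PT.nd (nat_lit 30966) (PT.lf (nat_lit 1292) (nat_lit 6) (nat_lit 17) (nat_lit 1) (nat_lit 103) (nat_lit 97) (nat_lit 100)) (PT.nd (nat_lit 78) (PT.lf (nat_lit 1216) (nat_lit 6) (nat_lit 16) (nat_lit 3) (nat_lit 99) (nat_lit 98) (nat_lit 103)) (PT.lf (nat_lit 1520) (nat_lit 6) (nat_lit 20) (nat_lit 3) (nat_lit 100) (nat_lit 98) (nat_lit 102)))) (PT.nd (nat_lit 156) (PT.nd (nat_lit 78) (PT.lf (nat_lit 1596) (nat_lit 3) (nat_lit 21) (nat_lit 1) (nat_lit 101) (nat_lit 98) (nat_lit 101)) (PT.lf (nat_lit 1520) (nat_lit 6) (nat_lit 20) (nat_lit 1) (nat_lit 102) (nat_lit 98) (nat_lit 100))) (PT.nd (nat_lit 30888) (PT.lf (nat_lit 1216) (nat_lit 6) (nat_lit 16) (nat_lit 1) (nat_lit 103) (nat_lit 98) (nat_lit 99)) (PT.lf (nat_lit 1216) (nat_lit 6) (nat_lit 16) (nat_lit 5) (nat_lit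 98) (nat_lit 99) (nat_lit 103))))) (PT.nd (nat_lit 234) (PT.nd (nat_lit 78) (PT.lf (nat_lit 1444) (nat_lit 3) (nat_lit 19) (nat_lit 3) (nat_lit 99) (nat_lit 99) (nat_lit 102)) (PT.nd (nat_lit 78) (PT.lf (nat_lit 1672) (nat_lit 6) (nat_lit 22) (nat_lit 3) (nat_lit 100) (nat_lit 99) (nat_lit 101)) (PT.lf (nat_lit 1672) (nat_lit 6) (nat_lit 22) (nat_lit 1) (nat_lit 101) (nat_lit 99) (nat_lit 100)))) (PT.nd (nat_lit 30810) (PT.nd (nat_lit 78) (PT.lf (nat_lit 1444) (nat_lit 3) (nat_lit 19) (nat_lit 0) (nat_lit 102) (nat_lit 99) (nat_lit 99)) (PT.lf (nat_lit 1216) (nat_lit 6) (nat_lit 16) (nat_lit 0) (nat_lit 103) (nat_lit 99) (nat_lit 98))) (PT.nd (nat_lit 78) (PT.lf (nat_lit 988) (nat_lit 6) (nat_lit 13) (nat_lit 5) (nat_lit 96) (nat_lit 100) (nat_lit 104)) (PT.lf (nat_lit 1292) (nat_lit 6) (nat_lit 17) (nat_lit 5) (nat_lit 97) (nat_lit 100) (nat_lit 103)))))) (PT.nd (nat_lit 31044) (PT.nd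 (nat_lit 234) (PT.nd (nat_lit 78) (PT.lf (nat_lit 1520) (nat_lit 6) (nat_lit 20) (nat_lit 5) (nat_lit 98) (nat_lit 100) (nat_lit 102)) (PT.nd (nat_lit 78) (PT.lf (nat_lit 1672) (nat_lit 6) (nat_lit 22) (nat_lit 5) (nat_lit 99) (nat_lit 100) (nat_lit 101)) (PT.lf (nat_lit 1748) (nat_lit 1) (nat_lit 23) (nat_lit 0) (nat_lit 100) (nat_lit 100) (nat_lit 100)))) (PT.nd (nat_lit 156) (PT.nd (nat_lit 78) (PT.lf (nat_lit 1672) (nat_lit 6) (nat_lit 22) (nat_lit 0) (nat_lit 101) (nat_lit 100) (nat_lit 99)) (PT.lf (nat_lit 1520) (nat_lit 6) (nat_lit 20) (nat_lit 0) (nat_lit 102) (nat_lit 100) (nat_lit 98))) (PT.nd (nat_lit 78) (PT.lf (nat_lit 1292) (nat_lit 6) (nat_lit 17) (nat_lit 0) (nat_lit 103) (nat_lit 100) (nat_lit 97)) (PT.lf (nat_lit 988) (nat_lit 6) (nat_lit 13) (nat_lit 0) (nat_lit 104) (nat_lit 100) (nat_lit 96))))) (PT.nd (nat_lit 234) (PT.nd (nat_lit 78) (PT.lf (nat_lit 836) (nat_lit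 6) (nat_lit 11) (nat_lit 5) (nat_lit 95) (nat_lit 101) (nat_lit 104)) (PT.nd (nat_lit 78) (PT.lf (nat_lit 1064) (nat_lit 6) (nat_lit 14) (nat_lit 5) (nat_lit 96) (nat_lit 101) (nat_lit 103)) (PT.lf (nat_lit 1368) (nat_lit 6) (nat_lit 18) (nat_lit 5) (nat_lit 97) (nat_lit 101) (nat_lit 102)))) (PT.nd (nat_lit 156) (PT.nd (nat_lit 78) (PT.lf (nat_lit 1596) (nat_lit 3) (nat_lit 21) (nat_lit 4) (nat_lit 98) (nat_lit 101) (nat_lit 101)) (PT.lf (nat_lit 1672) (nat_lit 6) (nat_lit 22) (nat_lit 4) (nat_lit 99) (nat_lit 101) (nat_lit 100))) (PT.nd (nat_lit 78) (PT.lf (nat_lit 1672) (nat_lit 6) (nat_lit 22) (nat_lit 2) (nat_lit 100) (nat_lit 101) (nat_lit 99)) (PT.lf (nat_lit 1596) (nat_lit 3) (nat_lit 21) (nat_lit 0) (nat_lit 101) (nat_lit 101) (nat_lit 98))))))))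
noncomputable def pc1 : PT := (PT.nd (nat_lit 92898) (PT.nd (nat_lit 61776) (PT.nd (nat_lit 30966) (PT.nd (nat_lit 30654) (PT.nd (nat_lit 78) (PT.lf (nat_lit 1368) (nat_lit 6) (nat_lit 18) (nat_lit 0) (nat_lit 102) (nat_lit 101) (nat_lit 97)) (PT.nd (nat_lit 78) (PT.lf (nat_lit 1064) (nat_lit 6) (nat_lit 14) (nat_lit 0) (nat_lit 103) (nat_lit 101) (nat_lit 96)) (PT.lf (nat_lit 836) (nat_lit 6) (nat_lit 11) (nat_lit 0) (nat_lit 104) (nat_lit 101) (nat_lit 95)))) (PT.nd (nat_lit 156) (PT.nd (nat_lit 78) (PT.lf (nat_lit 684) (nat_lit 6) (nat_lit 9) (nat_lit 5) (nat_lit 94) (nat_lit 102) (nat_lit 104)) (PT.lf (nat_lit 912) (nat_lit 6) (nat_lit 12) (nat_lit 5) (nat_lit 95) (nat_lit 102) (nat_lit 103))) (PT.nd (nat_lit 78) (PT.lf (nat_lit 1140) (nat_lit 3) (nat_lit 15) (nat_lit 4) (nat_lit 96) (nat_lit 102) (nat_lit 102)) (PT.lf (nat_lit 1368) (nat_lit 6) (nat_lit 18) (nat_lit 4) (nat_lit 97)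 (nat_lit 102) (nat_lit 101))))) (PT.nd (nat_lit 234) (PT.nd (nat_lit 78) (PT.lf (nat_lit 1520) (nat_lit 6) (nat_lit 20) (nat_lit 4) (nat_lit 98) (nat_lit 102) (nat_lit 100)) (PT.nd (nat_lit 78) (PT.lf (nat_lit 1444) (nat_lit 3) (nat_lit 19) (nat_lit 2) (nat_lit 99) (nat_lit 102) (nat_lit 99)) (PT.lf (nat_lit 1520) (nat_lit 6) (nat_lit 20) (nat_lit 2) (nat_lit 100) (nat_lit 102) (nat_lit 98)))) (PT.nd (nat_lit 156) (PT.nd (nat_lit 78) (PT.lf (nat_lit 1368) (nat_lit 6) (nat_lit 18) (nat_lit 2) (nat_lit 101) (nat_lit 102) (nat_lit 97)) (PT.lf (nat_lit 1140) (nat_lit 3) (nat_lit 15) (nat_lit 0) (nat_lit 102) (nat_lit 102) (nat_lit 96))) (PT.nd (nat_lit 78) (PT.lf (nat_lit 912) (nat_lit 6) (nat_lit 12) (nat_lit 0) (nat_lit 103) (nat_lit 102) (nat_lit 95)) (PT.lf (nat_lit 684) (nat_lit 6) (nat_lit 9) (nat_lit 0) (nat_lit 104) (nat_lit 102) (nat_lit 94)))))) (PT.nd (nat_lit 546) (PT.nd (nat_lit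 234) (PT.nd (nat_lit 78) (PT.lf (nat_lit 456) (nat_lit 6) (nat_lit 6) (nat_lit 5) (nat_lit 92) (nat_lit 103) (nat_lit 105)) (PT.nd (nat_lit 78) (PT.lf (nat_lit 608) (nat_lit 6) (nat_lit 8) (nat_lit 5) (nat_lit 93) (nat_lit 103) (nat_lit 104)) (PT.lf (nat_lit 760) (nat_lit 3) (nat_lit 10) (nat_lit 4) (nat_lit 94) (nat_lit 103) (nat_lit 103)))) (PT.nd (nat_lit 156) (PT.nd (nat_lit 78) (PT.lf (nat_lit 912) (nat_lit 6) (nat_lit 12) (nat_lit 4) (nat_lit 95) (nat_lit 103) (nat_lit 102)) (PT.lf (nat_lit 1064) (nat_lit 6) (nat_lit 14) (nat_lit 4) (nat_lit 96) (nat_lit 103) (nat_lit 101))) (PT.nd (nat_lit 78) (PT.lf (nat_lit 1292) (nat_lit 6) (nat_lit 17) (nat_lit 4) (nat_lit 97) (nat_lit 103) (nat_lit 100)) (PT.lf (nat_lit 1216) (nat_lit 6) (nat_lit 16) (nat_lit 4) (nat_lit 98) (nat_lit 103) (nat_lit 99))))) (PT.nd (nat_lit 234) (PT.nd (nat_lit 78) (PT.lf (nat_lit 1216) (nat_lit 6) (nat_lit 16)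 (nat_lit 2) (nat_lit 99) (nat_lit 103) (nat_lit 98)) (PT.nd (nat_lit 78) (PT.lf (nat_lit 1292) (nat_lit 6) (nat_lit 17) (nat_lit 2) (nat_lit 100) (nat_lit 103) (nat_lit 97)) (PT.lf (nat_lit 1064) (nat_lit 6) (nat_lit 14) (nat_lit 2) (nat_lit 101) (nat_lit 103) (nat_lit 96)))) (PT.nd (nat_lit 156) (PT.nd (nat_lit 78) (PT.lf (nat_lit 912) (nat_lit 6) (nat_lit 12) (nat_lit 2) (nat_lit 102) (nat_lit 103) (nat_lit 95)) (PT.lf (nat_lit 760) (nat_lit 3) (nat_lit 10) (nat_lit 0) (nat_lit 103) (nat_lit 103) (nat_lit 94))) (PT.nd (nat_lit 78) (PT.lf (nat_lit 608) (nat_lit 6) (nat_lit 8) (nat_lit 0) (nat_lit 104) (nat_lit 103) (nat_lit 93)) (PT.lf (nat_lit 456) (nat_lit 6) (nat_lit 6) (nat_lit 0) (nat_lit 105) (nat_lit 103) (nat_lit 92))))))) (PT.nd (nat_lit 31200) (PT.nd (nat_lit 780) (PT.nd (nat_lit 234) (PT.nd (nat_lit 78) (PT.lf (nat_lit 228) (nat_lit 6) (nat_lit 3) (nat_lit 5) (nat_lit 90)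 (nat_lit 104) (nat_lit 106)) (PT.nd (nat_lit 78) (PT.lf (nat_lit 380) (nat_lit 6) (nat_lit 5) (nat_lit 5) (nat_lit 91) (nat_lit 104) (nat_lit 105)) (PT.lf (nat_lit 532) (nat_lit 3) (nat_lit 7) (nat_lit 4) (nat_lit 92) (nat_lit 104) (nat_lit 104)))) (PT.nd (nat_lit 156) (PT.nd (nat_lit 78) (PT.lf (nat_lit 608) (nat_lit 6) (nat_lit 8) (nat_lit 4) (nat_lit 93) (nat_lit 104) (nat_lit 103)) (PT.lf (nat_lit 684) (nat_lit 6) (nat_lit 9) (nat_lit 4) (nat_lit 94) (nat_lit 104) (nat_lit 102))) (PT.nd (nat_lit 78) (PT.lf (nat_lit 836) (nat_lit 6) (nat_lit 11) (nat_lit 4) (nat_lit 95) (nat_lit 104) (nat_lit 101)) (PT.lf (nat_lit 988) (nat_lit 6) (nat_lit 13) (nat_lit 4) (nat_lit 96) (nat_lit 104) (nat_lit 100))))) (PT.nd (nat_lit 234) (PT.nd (nat_lit 78) (PT.lf (nat_lit 988) (nat_lit 6) (nat_lit 13) (nat_lit 2) (nat_lit 100) (nat_lit 104) (nat_lit 96)) (PT.nd (nat_lit 78) (PT.lf (nat_lit 836) (nat_lit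 6) (nat_lit 11) (nat_lit 2) (nat_lit 101) (nat_lit 104) (nat_lit 95)) (PT.lf (nat_lit 684) (nat_lit 6) (nat_lit 9) (nat_lit 2) (nat_lit 102) (nat_lit 104) (nat_lit 94)))) (PT.nd (nat_lit 156) (PT.nd (nat_lit 78) (PT.lf (nat_lit 608) (nat_lit 6) (nat_lit 8) (nat_lit 2) (nat_lit 103) (nat_lit 104) (nat_lit 93)) (PT.lf (nat_lit 532) (nat_lit 3) (nat_lit 7) (nat_lit 0) (nat_lit 104) (nat_lit 104) (nat_lit 92))) (PT.nd (nat_lit 78) (PT.lf (nat_lit 380) (nat_lit 6) (nat_lit 5) (nat_lit 0) (nat_lit 105) (nat_lit 104) (nat_lit 91)) (PT.lf (nat_lit 228) (nat_lit 6) (nat_lit 3) (nat_lit 0) (nat_lit 106) (nat_lit 104) (nat_lit 90)))))) (PT.nd (nat_lit 1326) (PT.nd (nat_lit 234) (PT.nd (nat_lit 78) (PT.lf (nat_lit 152) (nat_lit 6) (nat_lit 2) (nat_lit 5) (nat_lit 89) (nat_lit 105) (nat_lit 106)) (PT.nd (nat_lit 78) (PT.lf (nat_lit 304) (nat_lit 3) (nat_lit 4) (nat_lit 4) (nat_lit 90) (nat_lit 105)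 (nat_lit 105)) (PT.lf (nat_lit 380) (nat_lit 6) (nat_lit 5) (nat_lit 4) (nat_lit 91) (nat_lit 105) (nat_lit 104)))) (PT.nd (nat_lit 936) (PT.nd (nat_lit 858) (PT.lf (nat_lit 456) (nat_lit 6) (nat_lit 6) (nat_lit 4) (nat_lit 92) (nat_lit 105) (nat_lit 103)) (PT.lf (nat_lit 456) (nat_lit 6) (nat_lit 6) (nat_lit 2) (nat_lit 103) (nat_lit 105) (nat_lit 92))) (PT.nd (nat_lit 78) (PT.lf (nat_lit 380) (nat_lit 6) (nat_lit 5) (nat_lit 2) (nat_lit 104) (nat_lit 105) (nat_lit 91)) (PT.lf (nat_lit 304) (nat_lit 3) (nat_lit 4) (nat_lit 0) (nat_lit 105) (nat_lit 105) (nat_lit 90))))) (PT.nd (nat_lit 30030) (PT.nd (nat_lit 29874) (PT.lf (nat_lit 152) (nat_lit 6) (nat_lit 2) (nat_lit 0) (nat_lit 106) (nat_lit 105) (nat_lit 89)) (PT.nd (nat_lit 78) (PT.lf (nat_lit 76) (nat_lit 3) (nat_lit 1) (nat_lit 4) (nat_lit 88) (nat_lit 106) (nat_lit 106)) (PT.lf (nat_lit 152) (nat_lit 6) (nat_lit 2) (nat_lit 4)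 (nat_lit 89) (nat_lit 106) (nat_lit 105)))) (PT.nd (nat_lit 1170) (PT.nd (nat_lit 1092) (PT.lf (nat_lit 228) (nat_lit 6) (nat_lit 3) (nat_lit 4) (nat_lit 90) (nat_lit 106) (nat_lit 104)) (PT.lf (nat_lit 228) (nat_lit 6) (nat_lit 3) (nat_lit 2) (nat_lit 104) (nat_lit 106) (nat_lit 90))) (PT.nd (nat_lit 78) (PT.lf (nat_lit 152) (nat_lit 6) (nat_lit 2) (nat_lit 2) (nat_lit 105) (nat_lit 106) (nat_lit 89)) (PT.lf (nat_lit 76) (nat_lit 3) (nat_lit 1) (nat_lit 0) (nat_lit 106) (nat_lit 106) (nat_lit 88))))))))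
noncomputable def xc0 : XT := (XT.nd (nat_lit 124644) (nat_lit 0) (nat_lit 0) (XT.nd (nat_lit 93366) (nat_lit 0) (nat_lit 0) (XT.nd (nat_lit 62244) (nat_lit 0) (nat_lit 0) (XT.nd (nat_lit 31200) (nat_lit 0) (nat_lit 0) (XT.nd (nat_lit 31122) (nat_lit 0) (nat_lit 0) (XT.lf (nat_lit 0) (nat_lit 1009542728635) (nat_lit 152) (nat_lit 1026831742278) (nat_lit 0) (nat_lit 1009542728635) (nat_lit 1) (nat_lit 5) (nat_lit 3) (nat_lit 4) (nat_lit 1) (nat_lit 4) (nat_lit 260) (nat_lit 170) (nat_lit 170)) (XT.lf (nat_lit 0) (nat_lit 763005416806) (nat_lit 152) (nat_lit 777173114821) (nat_lit 0) (nat_lit 763005416806) (nat_lit 1) (nat_lit 5) (nat_lit 3) (nat_lit 4) (nat_lit 1) (nat_lit 4) (nat_lit 258) (nat_lit 171) (nat_lit 171))) (XT.nd (nat_lit 78) (nat_lit 0) (nat_lit 0) (XT.lf (nat_lit 0) (nat_lit 1755375609427) (nat_lit 152) (nat_lit 1786567129722) (nat_lit 0) (nat_lit 1755338934491) (nat_lit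 1) (nat_lit 5) (nat_lit 3) (nat_lit 4) (nat_lit 1) (nat_lit 4) (nat_lit 259) (nat_lit 171) (nat_lit 170)) (XT.lf (nat_lit 0) (nat_lit 2019102158809) (nat_lit 152) (nat_lit 2053700284334) (nat_lit 0) (nat_lit 2019033592625) (nat_lit 1) (nat_lit 5) (nat_lit 3) (nat_lit 4) (nat_lit 1) (nat_lit 4) (nat_lit 260) (nat_lit 171) (nat_lit 169)))) (XT.nd (nat_lit 156) (nat_lit 0) (nat_lit 0) (XT.nd (nat_lit 78) (nat_lit 0) (nat_lit 0) (XT.lf (nat_lit 0) (nat_lit 576534701067) (nat_lit 152) (nat_lit 588506444012) (nat_lit 0) (nat_lit 576534701067) (nat_lit 1) (nat_lit 5) (nat_lit 3) (nat_lit 4) (nat_lit 1) (nat_lit 4) (nat_lit 256) (nat_lit 172) (nat_lit 172)) (XT.lf (nat_lit 0) (nat_lit 1326562435842) (nat_lit 152) (nat_lit 1352494131705) (nat_lit 0) (nat_lit 1326520259667) (nat_lit 1) (nat_lit 5) (nat_lit 3) (nat_lit 4) (nat_lit 1) (nat_lit 4) (nat_lit 257) (nat_lit 172) (nat_lit 171))) (XT.nd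 (nat_lit 78) (nat_lit 0) (nat_lit 0) (XT.lf (nat_lit 0) (nat_lit 1526030040382) (nat_lit 152) (nat_lit 1554388549387) (nat_lit 0) (nat_lit 1525951189271) (nat_lit 1) (nat_lit 5) (nat_lit 3) (nat_lit 4) (nat_lit 1) (nat_lit 4) (nat_lit 258) (nat_lit 172) (nat_lit 170)) (XT.nd (nat_lit 78) (nat_lit 0) (nat_lit 0) (XT.lf (nat_lit 0) (nat_lit 1755374842798) (nat_lit 152) (nat_lit 1786646249243) (nat_lit 0) (nat_lit 1755264100439) (nat_lit 1) (nat_lit 5) (nat_lit 3) (nat_lit 4) (nat_lit 1) (nat_lit 4) (nat_lit 259) (nat_lit 172) (nat_lit 169)) (XT.lf (nat_lit 0) (nat_lit 2019084024009) (nat_lit 152) (nat_lit 2053811403661) (nat_lit 0) (nat_lit 2018945550130) (nat_lit 1) (nat_lit 5) (nat_lit 3) (nat_lit 4) (nat_lit 1) (nat_lit 4) (nat_lit 260) (nat_lit 172) (nat_lit 168)))))) (XT.nd (nat_lit 312) (nat_lit 0) (nat_lit 0) (XT.nd (nat_lit 156) (nat_lit 0) (nat_lit 0) (XT.nd (nat_lit 78) (nat_lit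 0) (nat_lit 0) (XT.lf (nat_lit 0) (nat_lit 435474998280) (nat_lit 152) (nat_lit 445975122877) (nat_lit 0) (nat_lit 435474998280) (nat_lit 1) (nat_lit 5) (nat_lit 3) (nat_lit 4) (nat_lit 1) (nat_lit 4) (nat_lit 254) (nat_lit 173) (nat_lit 173)) (XT.lf (nat_lit 0) (nat_lit 1002205012940) (nat_lit 152) (nat_lit 1024511489665) (nat_lit 0) (nat_lit 1002156510338) (nat_lit 1) (nat_lit 5) (nat_lit 3) (nat_lit 4) (nat_lit 1) (nat_lit 4) (nat_lit 255) (nat_lit 173) (nat_lit 172))) (XT.nd (nat_lit 78) (nat_lit 0) (nat_lit 0) (XT.lf (nat_lit 0) (nat_lit 1153091489918) (nat_lit 152) (nat_lit 1177061555730) (nat_lit 0) (nat_lit 1153000811141) (nat_lit 1) (nat_lit 5) (nat_lit 3) (nat_lit 4) (nat_lit 1) (nat_lit 4) (nat_lit 256) (nat_lit 173) (nat_lit 171)) (XT.lf (nat_lit 0) (nat_lit 1326561554220) (nat_lit 152) (nat_lit 1352585119155) (nat_lit 0) (nat_lit 1326434200507) (nat_lit 1) (nat_lit 5) (nat_lit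 3) (nat_lit 4) (nat_lit 1) (nat_lit 4) (nat_lit 257) (nat_lit 173) (nat_lit 170)))) (XT.nd (nat_lit 156) (nat_lit 0) (nat_lit 0) (XT.nd (nat_lit 78) (nat_lit 0) (nat_lit 0) (XT.lf (nat_lit 0) (nat_lit 1526009185362) (nat_lit 152) (nat_lit 1554516336614) (nat_lit 0) (nat_lit 1525849940401) (nat_lit 1) (nat_lit 5) (nat_lit 3) (nat_lit 4) (nat_lit 1) (nat_lit 4) (nat_lit 258) (nat_lit 173) (nat_lit 169)) (XT.lf (nat_lit 0) (nat_lit 1755336619607) (nat_lit 152) (nat_lit 1786806036277) (nat_lit 0) (nat_lit 1755149643126) (nat_lit 1) (nat_lit 5) (nat_lit 3) (nat_lit 4) (nat_lit 1) (nat_lit 4) (nat_lit 259) (nat_lit 173) (nat_lit 168))) (XT.nd (nat_lit 30654) (nat_lit 0) (nat_lit 0) (XT.lf (nat_lit 0) (nat_lit 2019030698060) (nat_lit 152) (nat_lit 2053999016613) (nat_lit 0) (nat_lit 2018819607214) (nat_lit 1) (nat_lit 5) (nat_lit 3) (nat_lit 4) (nat_lit 1) (nat_lit 4) (nat_lit 260) (nat_lit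 173) (nat_lit 167)) (XT.nd (nat_lit 78) (nat_lit 0) (nat_lit 0) (XT.lf (nat_lit 0) (nat_lit 328743387570) (nat_lit 152) (nat_lit 338347922320) (nat_lit 0) (nat_lit 328743387570) (nat_lit 1) (nat_lit 5) (nat_lit 3) (nat_lit 4) (nat_lit 1) (nat_lit 4) (nat_lit 252) (nat_lit 174) (nat_lit 174)) (XT.lf (nat_lit 0) (nat_lit 756814185842) (nat_lit 152) (nat_lit 776784234441) (nat_lit 0) (nat_lit 756758407850) (nat_lit 1) (nat_lit 5) (nat_lit 3) (nat_lit 4) (nat_lit 1) (nat_lit 4) (nat_lit 253) (nat_lit 174) (nat_lit 173))))))) (XT.nd (nat_lit 31122) (nat_lit 0) (nat_lit 0) (XT.nd (nat_lit 312) (nat_lit 0) (nat_lit 0) (XT.nd (nat_lit 156) (nat_lit 0) (nat_lit 0) (XT.nd (nat_lit 78) (nat_lit 0) (nat_lit 0) (XT.lf (nat_lit 0) (nat_lit 870975397512) (nat_lit 152) (nat_lit 892006213615) (nat_lit 0) (nat_lit 870871116918) (nat_lit 1) (nat_lit 5) (nat_lit 3) (nat_lit 4) (nat_lit 1) (nat_lit 4) (nat_lit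 254) (nat_lit 174) (nat_lit 172)) (XT.lf (nat_lit 0) (nat_lit 1002203999074) (nat_lit 152) (nat_lit 1024616125232) (nat_lit 0) (nat_lit 1002057542304) (nat_lit 1) (nat_lit 5) (nat_lit 3) (nat_lit 4) (nat_lit 1) (nat_lit 4) (nat_lit 255) (nat_lit 174) (nat_lit 171))) (XT.nd (nat_lit 78) (nat_lit 0) (nat_lit 0) (XT.lf (nat_lit 0) (nat_lit 1153067506646) (nat_lit 152) (nat_lit 1177208511041) (nat_lit 0) (nat_lit 1152884374941) (nat_lit 1) (nat_lit 5) (nat_lit 3) (nat_lit 4) (nat_lit 1) (nat_lit 4) (nat_lit 256) (nat_lit 174) (nat_lit 170)) (XT.lf (nat_lit 0) (nat_lit 1326517597550) (nat_lit 152) (nat_lit 1352768874243) (nat_lit 0) (nat_lit 1326302574597) (nat_lit 1) (nat_lit 5) (nat_lit 3) (nat_lit 4) (nat_lit 1) (nat_lit 4) (nat_lit 257) (nat_lit 174) (nat_lit 169)))) (XT.nd (nat_lit 156) (nat_lit 0) (nat_lit 0) (XT.nd (nat_lit 78) (nat_lit 0) (nat_lit 0) (XT.lf (nat_lit 0) (nat_lit 1525947860521)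 (nat_lit 152) (nat_lit 1554732091509) (nat_lit 0) (nat_lit 1525705106048) (nat_lit 1) (nat_lit 5) (nat_lit 3) (nat_lit 4) (nat_lit 1) (nat_lit 4) (nat_lit 258) (nat_lit 174) (nat_lit 168)) (XT.lf (nat_lit 0) (nat_lit 1755260192009) (nat_lit 152) (nat_lit 1787049617090) (nat_lit 0) (nat_lit 1754993323170) (nat_lit 1) (nat_lit 5) (nat_lit 3) (nat_lit 4) (nat_lit 1) (nat_lit 4) (nat_lit 259) (nat_lit 174) (nat_lit 167))) (XT.nd (nat_lit 30498) (nat_lit 0) (nat_lit 0) (XT.lf (nat_lit 0) (nat_lit 2018941137629) (nat_lit 152) (nat_lit 2054266793878) (nat_lit 0) (nat_lit 2018653299777) (nat_lit 1) (nat_lit 5) (nat_lit 3) (nat_lit 4) (nat_lit 1) (nat_lit 4) (nat_lit 260) (nat_lit 174) (nat_lit 166)) (XT.nd (nat_lit 78) (nat_lit 0) (nat_lit 0) (XT.lf (nat_lit 0) (nat_lit 247958214835) (nat_lit 152) (nat_lit 257135294797) (nat_lit 0) (nat_lit 247958214835) (nat_lit 1) (nat_lit 5) (nat_lit 3) (nat_lit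 4) (nat_lit 1) (nat_lit 4) (nat_lit 250) (nat_lit 175) (nat_lit 175)) (XT.lf (nat_lit 0) (nat_lit 571113947716) (nat_lit 152) (nat_lit 589782793106) (nat_lit 0) (nat_lit 571049803024) (nat_lit 1) (nat_lit 5) (nat_lit 3) (nat_lit 4) (nat_lit 1) (nat_lit 4) (nat_lit 251) (nat_lit 175) (nat_lit 174)))))) (XT.nd (nat_lit 390) (nat_lit 0) (nat_lit 0) (XT.nd (nat_lit 156) (nat_lit 0) (nat_lit 0) (XT.nd (nat_lit 78) (nat_lit 0) (nat_lit 0) (XT.lf (nat_lit 0) (nat_lit 657515986235) (nat_lit 152) (nat_lit 676760207680) (nat_lit 0) (nat_lit 657396063552) (nat_lit 1) (nat_lit 5) (nat_lit 3) (nat_lit 4) (nat_lit 1) (nat_lit 4) (nat_lit 252) (nat_lit 175) (nat_lit 173)) (XT.lf (nat_lit 0) (nat_lit 756813019896) (nat_lit 152) (nat_lit 776904565343) (nat_lit 0) (nat_lit 756644594611) (nat_lit 1) (nat_lit 5) (nat_lit 3) (nat_lit 4) (nat_lit 1) (nat_lit 4) (nat_lit 253) (nat_lit 175) (nat_lit 172))) (XT.nd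 (nat_lit 78) (nat_lit 0) (nat_lit 0) (XT.lf (nat_lit 0) (nat_lit 870947816748) (nat_lit 152) (nat_lit 892175212223) (nat_lit 0) (nat_lit 870737215288) (nat_lit 1) (nat_lit 5) (nat_lit 3) (nat_lit 4) (nat_lit 1) (nat_lit 4) (nat_lit 254) (nat_lit 175) (nat_lit 171)) (XT.nd (nat_lit 78) (nat_lit 0) (nat_lit 0) (XT.lf (nat_lit 0) (nat_lit 1002153448904) (nat_lit 152) (nat_lit 1024827443584) (nat_lit 0) (nat_lit 1001906172508) (nat_lit 1) (nat_lit 5) (nat_lit 3) (nat_lit 4) (nat_lit 1) (nat_lit 4) (nat_lit 255) (nat_lit 175) (nat_lit 170)) (XT.lf (nat_lit 0) (nat_lit 1152996983079) (nat_lit 152) (nat_lit 1177456629170) (nat_lit 0) (nat_lit 1152717815434) (nat_lit 1) (nat_lit 5) (nat_lit 3) (nat_lit 4) (nat_lit 1) (nat_lit 4) (nat_lit 256) (nat_lit 175) (nat_lit 169))))) (XT.nd (nat_lit 156) (nat_lit 0) (nat_lit 0) (XT.nd (nat_lit 78) (nat_lit 0) (nat_lit 0) (XT.lf (nat_lit 0) (nat_lit 1326429705811)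 (nat_lit 152) (nat_lit 1353048992179) (nat_lit 0) (nat_lit 1326122806647) (nat_lit 1) (nat_lit 5) (nat_lit 3) (nat_lit 4) (nat_lit 1) (nat_lit 4) (nat_lit 257) (nat_lit 175) (nat_lit 168)) (XT.lf (nat_lit 0) (nat_lit 1525844866025) (nat_lit 152) (nat_lit 1555040035363) (nat_lit 0) (nat_lit 1525513852495) (nat_lit 1) (nat_lit 5) (nat_lit 3) (nat_lit 4) (nat_lit 1) (nat_lit 4) (nat_lit 258) (nat_lit 175) (nat_lit 167))) (XT.nd (nat_lit 78) (nat_lit 0) (nat_lit 0) (XT.lf (nat_lit 0) (nat_lit 1755144064679) (nat_lit 152) (nat_lit 1787381757395) (nat_lit 0) (nat_lit 1754792082136) (nat_lit 1) (nat_lit 5) (nat_lit 3) (nat_lit 4) (nat_lit 1) (nat_lit 4) (nat_lit 259) (nat_lit 175) (nat_lit 166)) (XT.nd (nat_lit 30342) (nat_lit 0) (nat_lit 0) (XT.lf (nat_lit 0) (nat_lit 2018813590445) (nat_lit 152) (nat_lit 2054619974575) (nat_lit 0) (nat_lit 2018443373977) (nat_lit 1) (nat_lit 5) (nat_lit 3)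 (nat_lit 4) (nat_lit 1) (nat_lit 4) (nat_lit 260) (nat_lit 175) (nat_lit 165)) (XT.lf (nat_lit 0) (nat_lit 186780165683) (nat_lit 152) (nat_lit 195921229190) (nat_lit 0) (nat_lit 186780165683) (nat_lit 1) (nat_lit 5) (nat_lit 3) (nat_lit 4) (nat_lit 1) (nat_lit 4) (nat_lit 248) (nat_lit 176) (nat_lit 176))))))))
noncomputable def xc1 : XT := (XT.nd (nat_lit 31590) (nat_lit 0) (nat_lit 0) (XT.nd (nat_lit 702) (nat_lit 0) (nat_lit 0) (XT.nd (nat_lit 312) (nat_lit 0) (nat_lit 0) (XT.nd (nat_lit 156) (nat_lit 0) (nat_lit 0) (XT.nd (nat_lit 78) (nat_lit 0) (nat_lit 0) (XT.lf (nat_lit 0) (nat_lit 430525942706) (nat_lit 152) (nat_lit 448746184471) (nat_lit 0) (nat_lit 430452176312) (nat_lit 1) (nat_lit 5) (nat_lit 3) (nat_lit 4) (nat_lit 1) (nat_lit 4) (nat_lit 249) (nat_lit 176) (nat_lit 175)) (XT.lf (nat_lit 0) (nat_lit 495950022429) (nat_lit 152) (nat_lit 514344607092) (nat_lit 0) (nat_lit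 495812111343) (nat_lit 1) (nat_lit 5) (nat_lit 3) (nat_lit 4) (nat_lit 1) (nat_lit 4) (nat_lit 250) (nat_lit 176) (nat_lit 174))) (XT.nd (nat_lit 78) (nat_lit 0) (nat_lit 0) (XT.lf (nat_lit 0) (nat_lit 571112606878) (nat_lit 152) (nat_lit 589921173643) (nat_lit 0) (nat_lit 570918917800) (nat_lit 1) (nat_lit 5) (nat_lit 3) (nat_lit 4) (nat_lit 1) (nat_lit 4) (nat_lit 251) (nat_lit 176) (nat_lit 173)) (XT.lf (nat_lit 0) (nat_lit 657484268357) (nat_lit 152) (nat_lit 676954556079) (nat_lit 0) (nat_lit 657242076677) (nat_lit 1) (nat_lit 5) (nat_lit 3) (nat_lit 4) (nat_lit 1) (nat_lit 4) (nat_lit 252) (nat_lit 176) (nat_lit 172)))) (XT.nd (nat_lit 156) (nat_lit 0) (nat_lit 0) (XT.nd (nat_lit 78) (nat_lit 0) (nat_lit 0) (XT.lf (nat_lit 0) (nat_lit 756754887201) (nat_lit 152) (nat_lit 777147581448) (nat_lit 0) (nat_lit 756470519345) (nat_lit 1) (nat_lit 5) (nat_lit 3) (nat_lit 4) (nat_lit 1)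 (nat_lit 4) (nat_lit 253) (nat_lit 176) (nat_lit 171)) (XT.lf (nat_lit 0) (nat_lit 870866714646) (nat_lit 152) (nat_lit 892460548071) (nat_lit 0) (nat_lit 870545671855) (nat_lit 1) (nat_lit 5) (nat_lit 3) (nat_lit 4) (nat_lit 1) (nat_lit 4) (nat_lit 254) (nat_lit 176) (nat_lit 170))) (XT.nd (nat_lit 78) (nat_lit 0) (nat_lit 0) (XT.lf (nat_lit 0) (nat_lit 1002052373404) (nat_lit 152) (nat_lit 1025149579210) (nat_lit 0) (nat_lit 1001699439365) (nat_lit 1) (nat_lit 5) (nat_lit 3) (nat_lit 4) (nat_lit 1) (nat_lit 4) (nat_lit 255) (nat_lit 176) (nat_lit 169)) (XT.nd (nat_lit 78) (nat_lit 0) (nat_lit 0) (XT.lf (nat_lit 0) (nat_lit 1152878539408) (nat_lit 152) (nat_lit 1177810764603) (nat_lit 0) (nat_lit 1152497873849) (nat_lit 1) (nat_lit 5) (nat_lit 3) (nat_lit 4) (nat_lit 1) (nat_lit 4) (nat_lit 256) (nat_lit 176) (nat_lit 168)) (XT.lf (nat_lit 0) (nat_lit 1326296159383) (nat_lit 152) (nat_lit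 1353430953530) (nat_lit 0) (nat_lit 1325891379458) (nat_lit 1) (nat_lit 5) (nat_lit 3) (nat_lit 4) (nat_lit 1) (nat_lit 4) (nat_lit 257) (nat_lit 176) (nat_lit 167)))))) (XT.nd (nat_lit 30498) (nat_lit 0) (nat_lit 0) (XT.nd (nat_lit 156) (nat_lit 0) (nat_lit 0) (XT.nd (nat_lit 78) (nat_lit 0) (nat_lit 0) (XT.lf (nat_lit 0) (nat_lit 1525698186763) (nat_lit 152) (nat_lit 1555446193165) (nat_lit 0) (nat_lit 1525272437826) (nat_lit 1) (nat_lit 5) (nat_lit 3) (nat_lit 4) (nat_lit 1) (nat_lit 4) (nat_lit 258) (nat_lit 176) (nat_lit 166)) (XT.lf (nat_lit 0) (nat_lit 1754985965563) (nat_lit 152) (nat_lit 1787808955589) (nat_lit 0) (nat_lit 1754541982701) (nat_lit 1) (nat_lit 5) (nat_lit 3) (nat_lit 4) (nat_lit 1) (nat_lit 4) (nat_lit 259) (nat_lit 176) (nat_lit 165))) (XT.nd (nat_lit 30186) (nat_lit 0) (nat_lit 0) (XT.lf (nat_lit 0) (nat_lit 2018645561020) (nat_lit 152) (nat_lit 2055065468762)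 (nat_lit 0) (nat_lit 2018185722571) (nat_lit 1) (nat_lit 5) (nat_lit 3) (nat_lit 4) (nat_lit 1) (nat_lit 4) (nat_lit 260) (nat_lit 176) (nat_lit 164)) (XT.nd (nat_lit 78) (nat_lit 0) (nat_lit 0) (XT.lf (nat_lit 0) (nat_lit 140413991007) (nat_lit 152) (nat_lit 149858101791) (nat_lit 0) (nat_lit 140413991007) (nat_lit 1) (nat_lit 5) (nat_lit 3) (nat_lit 4) (nat_lit 1) (nat_lit 4) (nat_lit 246) (nat_lit 177) (nat_lit 177)) (XT.lf (nat_lit 0) (nat_lit 324023475196) (nat_lit 152) (nat_lit 342520095052) (nat_lit 0) (nat_lit 323938643842) (nat_lit 1) (nat_lit 5) (nat_lit 3) (nat_lit 4) (nat_lit 1) (nat_lit 4) (nat_lit 247) (nat_lit 177) (nat_lit 176))))) (XT.nd (nat_lit 156) (nat_lit 0) (nat_lit 0) (XT.nd (nat_lit 78) (nat_lit 0) (nat_lit 0) (XT.lf (nat_lit 0) (nat_lit 373598963040) (nat_lit 152) (nat_lit 391927578503) (nat_lit 0) (nat_lit 373440365291) (nat_lit 1) (nat_lit 5) (nat_lit 3) (nat_lit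 4) (nat_lit 1) (nat_lit 4) (nat_lit 248) (nat_lit 177) (nat_lit 175)) (XT.lf (nat_lit 0) (nat_lit 430524400743) (nat_lit 152) (nat_lit 448905322089) (nat_lit 0) (nat_lit 430301658303) (nat_lit 1) (nat_lit 5) (nat_lit 3) (nat_lit 4) (nat_lit 1) (nat_lit 4) (nat_lit 249) (nat_lit 177) (nat_lit 174))) (XT.nd (nat_lit 78) (nat_lit 0) (nat_lit 0) (XT.lf (nat_lit 0) (nat_lit 495913546869) (nat_lit 152) (nat_lit 514568107750) (nat_lit 0) (nat_lit 495635026437) (nat_lit 1) (nat_lit 5) (nat_lit 3) (nat_lit 4) (nat_lit 1) (nat_lit 4) (nat_lit 250) (nat_lit 177) (nat_lit 173)) (XT.nd (nat_lit 78) (nat_lit 0) (nat_lit 0) (XT.lf (nat_lit 0) (nat_lit 571045754278) (nat_lit 152) (nat_lit 590200642163) (nat_lit 0) (nat_lit 570718731244) (nat_lit 1) (nat_lit 5) (nat_lit 3) (nat_lit 4) (nat_lit 1) (nat_lit 4) (nat_lit 251) (nat_lit 177) (nat_lit 172)) (XT.lf (nat_lit 0) (nat_lit 657391000940) (nat_lit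 152) (nat_lit 677282692305) (nat_lit 0) (nat_lit 657021801730) (nat_lit 1) (nat_lit 5) (nat_lit 3) (nat_lit 4) (nat_lit 1) (nat_lit 4) (nat_lit 252) (nat_lit 177) (nat_lit 171))))))) (XT.nd (nat_lit 30654) (nat_lit 0) (nat_lit 0) (XT.nd (nat_lit 312) (nat_lit 0) (nat_lit 0) (XT.nd (nat_lit 156) (nat_lit 0) (nat_lit 0) (XT.nd (nat_lit 78) (nat_lit 0) (nat_lit 0) (XT.lf (nat_lit 0) (nat_lit 756638650376) (nat_lit 152) (nat_lit 777518037417) (nat_lit 0) (nat_lit 756232776231) (nat_lit 1) (nat_lit 5) (nat_lit 3) (nat_lit 4) (nat_lit 1) (nat_lit 4) (nat_lit 253) (nat_lit 177) (nat_lit 170)) (XT.lf (nat_lit 0) (nat_lit 870730504424) (nat_lit 152) (nat_lit 892867803818) (nat_lit 0) (nat_lit 870292739032) (nat_lit 1) (nat_lit 5) (nat_lit 3) (nat_lit 4) (nat_lit 1) (nat_lit 4) (nat_lit 254) (nat_lit 177) (nat_lit 169))) (XT.nd (nat_lit 78) (nat_lit 0) (nat_lit 0) (XT.lf (nat_lit 0) (nat_lit 1001898795011)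 (nat_lit 152) (nat_lit 1025588834763) (nat_lit 0) (nat_lit 1001433298098) (nat_lit 1) (nat_lit 5) (nat_lit 3) (nat_lit 4) (nat_lit 1) (nat_lit 4) (nat_lit 255) (nat_lit 177) (nat_lit 168)) (XT.lf (nat_lit 0) (nat_lit 1152709858257) (nat_lit 152) (nat_lit 1178277846075) (nat_lit 0) (nat_lit 1152220246979) (nat_lit 1) (nat_lit 5) (nat_lit 3) (nat_lit 4) (nat_lit 1) (nat_lit 4) (nat_lit 256) (nat_lit 177) (nat_lit 167)))) (XT.nd (nat_lit 156) (nat_lit 0) (nat_lit 0) (XT.nd (nat_lit 78) (nat_lit 0) (nat_lit 0) (XT.lf (nat_lit 0) (nat_lit 1326114345399) (nat_lit 152) (nat_lit 1353922231453) (nat_lit 0) (nat_lit 1325603765108) (nat_lit 1) (nat_lit 5) (nat_lit 3) (nat_lit 4) (nat_lit 1) (nat_lit 4) (nat_lit 257) (nat_lit 177) (nat_lit 166)) (XT.lf (nat_lit 0) (nat_lit 1525504952925) (nat_lit 152) (nat_lit 1555958511480) (nat_lit 0) (nat_lit 1524976138709) (nat_lit 1) (nat_lit 5) (nat_lit 3)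 (nat_lit 4) (nat_lit 1) (nat_lit 4) (nat_lit 258) (nat_lit 177) (nat_lit 165))) (XT.nd (nat_lit 78) (nat_lit 0) (nat_lit 0) (XT.lf (nat_lit 0) (nat_lit 1754782801417) (nat_lit 152) (nat_lit 1788339569898) (nat_lit 0) (nat_lit 1754238131614) (nat_lit 1) (nat_lit 5) (nat_lit 3) (nat_lit 4) (nat_lit 1) (nat_lit 4) (nat_lit 259) (nat_lit 177) (nat_lit 164)) (XT.nd (nat_lit 30030) (nat_lit 0) (nat_lit 0) (XT.lf (nat_lit 0) (nat_lit 2018433761823) (nat_lit 152) (nat_lit 2055611992630) (nat_lit 0) (nat_lit 2017875304554) (nat_lit 1) (nat_lit 5) (nat_lit 3) (nat_lit 4) (nat_lit 1) (nat_lit 4) (nat_lit 260) (nat_lit 177) (nat_lit 163)) (XT.lf (nat_lit 0) (nat_lit 105231704381) (nat_lit 152) (nat_lit 115284785470) (nat_lit 0) (nat_lit 105231704381) (nat_lit 1) (nat_lit 5) (nat_lit 3) (nat_lit 4) (nat_lit 1) (nat_lit 4) (nat_lit 244) (nat_lit 178) (nat_lit 178)))))) (XT.nd (nat_lit 390) (nat_lit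 0) (nat_lit 0) (XT.nd (nat_lit 156) (nat_lit 0) (nat_lit 0) (XT.nd (nat_lit 78) (nat_lit 0) (nat_lit 0) (XT.lf (nat_lit 0) (nat_lit 243264910339) (nat_lit 152) (nat_lit 262678436653) (nat_lit 0) (nat_lit 243167354282) (nat_lit 1) (nat_lit 5) (nat_lit 3) (nat_lit 4) (nat_lit 1) (nat_lit 4) (nat_lit 245) (nat_lit 178) (nat_lit 177)) (XT.lf (nat_lit 0) (nat_lit 280872408438) (nat_lit 152) (nat_lit 299814091722) (nat_lit 0) (nat_lit 280690021028) (nat_lit 1) (nat_lit 5) (nat_lit 3) (nat_lit 4) (nat_lit 1) (nat_lit 4) (nat_lit 246) (nat_lit 178) (nat_lit 176))) (XT.nd (nat_lit 78) (nat_lit 0) (nat_lit 0) (XT.lf (nat_lit 0) (nat_lit 324021701938) (nat_lit 152) (nat_lit 342703103313) (nat_lit 0) (nat_lit 323765548133) (nat_lit 1) (nat_lit 5) (nat_lit 3) (nat_lit 4) (nat_lit 1) (nat_lit 4) (nat_lit 247) (nat_lit 178) (nat_lit 175)) (XT.nd (nat_lit 78) (nat_lit 0) (nat_lit 0) (XT.lf (nat_lit 0)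 (nat_lit 373557016146) (nat_lit 152) (nat_lit 392184604260) (nat_lit 0) (nat_lit 373236717650) (nat_lit 1) (nat_lit 5) (nat_lit 3) (nat_lit 4) (nat_lit 1) (nat_lit 4) (nat_lit 248) (nat_lit 178) (nat_lit 174)) (XT.lf (nat_lit 0) (nat_lit 430447520253) (nat_lit 152) (nat_lit 449226710887) (nat_lit 0) (nat_lit 430071443764) (nat_lit 1) (nat_lit 5) (nat_lit 3) (nat_lit 4) (nat_lit 1) (nat_lit 4) (nat_lit 249) (nat_lit 178) (nat_lit 173))))) (XT.nd (nat_lit 156) (nat_lit 0) (nat_lit 0) (XT.nd (nat_lit 78) (nat_lit 0) (nat_lit 0) (XT.lf (nat_lit 0) (nat_lit 495806289339) (nat_lit 152) (nat_lit 514945464410) (nat_lit 0) (nat_lit 495381710248) (nat_lit 1) (nat_lit 5) (nat_lit 3) (nat_lit 4) (nat_lit 1) (nat_lit 4) (nat_lit 250) (nat_lit 178) (nat_lit 172)) (XT.lf (nat_lit 0) (nat_lit 570912081930) (nat_lit 152) (nat_lit 590626666528) (nat_lit 0) (nat_lit 570445326663) (nat_lit 1) (nat_lit 5)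 (nat_lit 3) (nat_lit 4) (nat_lit 1) (nat_lit 4) (nat_lit 251) (nat_lit 178) (nat_lit 171))) (XT.nd (nat_lit 78) (nat_lit 0) (nat_lit 0) (XT.lf (nat_lit 0) (nat_lit 657234359185) (nat_lit 152) (nat_lit 677751036414) (nat_lit 0) (nat_lit 656730928983) (nat_lit 1) (nat_lit 5) (nat_lit 3) (nat_lit 4) (nat_lit 1) (nat_lit 4) (nat_lit 252) (nat_lit 178) (nat_lit 170)) (XT.nd (nat_lit 78) (nat_lit 0) (nat_lit 0) (XT.lf (nat_lit 0) (nat_lit 756462035224) (nat_lit 152) (nat_lit 778023181304) (nat_lit 0) (nat_lit 755926713774) (nat_lit 1) (nat_lit 5) (nat_lit 3) (nat_lit 4) (nat_lit 1) (nat_lit 4) (nat_lit 253) (nat_lit 178) (nat_lit 169)) (XT.lf (nat_lit 0) (nat_lit 870536521101) (nat_lit 152) (nat_lit 893404947511) (nat_lit 0) (nat_lit 869973468131) (nat_lit 1) (nat_lit 5) (nat_lit 3) (nat_lit 4) (nat_lit 1) (nat_lit 4) (nat_lit 254) (nat_lit 178) (nat_lit 168))))))))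
noncomputable def xc2 : XT := (XT.nd (nat_lit 31278) (nat_lit 0) (nat_lit 0) (XT.nd (nat_lit 30498) (nat_lit 0) (nat_lit 0) (XT.nd (nat_lit 312) (nat_lit 0) (nat_lit 0) (XT.nd (nat_lit 156) (nat_lit 0) (nat_lit 0) (XT.nd (nat_lit 78) (nat_lit 0) (nat_lit 0) (XT.lf (nat_lit 0) (nat_lit 1001689708930) (nat_lit 152) (nat_lit 1026153804375) (nat_lit 0) (nat_lit 1001102541595) (nat_lit 1) (nat_lit 5) (nat_lit 3) (nat_lit 4) (nat_lit 1) (nat_lit 4) (nat_lit 255) (nat_lit 178) (nat_lit 167)) (XT.lf (nat_lit 0) (nat_lit 1152487639343) (nat_lit 152) (nat_lit 1178867012137) (nat_lit 0) (nat_lit 1151879502995) (nat_lit 1) (nat_lit 5) (nat_lit 3) (nat_lit 4) (nat_lit 1) (nat_lit 4) (nat_lit 256) (nat_lit 178) (nat_lit 166))) (XT.nd (nat_lit 78) (nat_lit 0) (nat_lit 0) (XT.lf (nat_lit 0) (nat_lit 1325880706631) (nat_lit 152) (nat_lit 1354532437907) (nat_lit 0) (nat_lit 1325254336357) (nat_lit 1) (nat_lit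 5) (nat_lit 3) (nat_lit 4) (nat_lit 1) (nat_lit 4) (nat_lit 257) (nat_lit 178) (nat_lit 165)) (XT.lf (nat_lit 0) (nat_lit 1525261383848) (nat_lit 152) (nat_lit 1556587013928) (nat_lit 0) (nat_lit 1524619157988) (nat_lit 1) (nat_lit 5) (nat_lit 3) (nat_lit 4) (nat_lit 1) (nat_lit 4) (nat_lit 258) (nat_lit 178) (nat_lit 164)))) (XT.nd (nat_lit 29952) (nat_lit 0) (nat_lit 0) (XT.nd (nat_lit 78) (nat_lit 0) (nat_lit 0) (XT.lf (nat_lit 0) (nat_lit 1754530597289) (nat_lit 152) (nat_lit 1788983981905) (nat_lit 0) (nat_lit 1753874583963) (nat_lit 1) (nat_lit 5) (nat_lit 3) (nat_lit 4) (nat_lit 1) (nat_lit 4) (nat_lit 259) (nat_lit 178) (nat_lit 163)) (XT.lf (nat_lit 0) (nat_lit 2018174048955) (nat_lit 152) (nat_lit 2056270239037) (nat_lit 0) (nat_lit 2017506046528) (nat_lit 1) (nat_lit 5) (nat_lit 3) (nat_lit 4) (nat_lit 1) (nat_lit 4) (nat_lit 260) (nat_lit 178) (nat_lit 162))) (XT.nd (nat_lit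 78) (nat_lit 0) (nat_lit 0) (XT.lf (nat_lit 0) (nat_lit 78487624291) (nat_lit 152) (nat_lit 89437970897) (nat_lit 0) (nat_lit 78487624291) (nat_lit 1) (nat_lit 5) (nat_lit 3) (nat_lit 4) (nat_lit 1) (nat_lit 4) (nat_lit 242) (nat_lit 179) (nat_lit 179)) (XT.nd (nat_lit 78) (nat_lit 0) (nat_lit 0) (XT.lf (nat_lit 0) (nat_lit 181938324669) (nat_lit 152) (nat_lit 202859277646) (nat_lit 0) (nat_lit 181826135203) (nat_lit 1) (nat_lit 5) (nat_lit 3) (nat_lit 4) (nat_lit 1) (nat_lit 4) (nat_lit 243) (nat_lit 179) (nat_lit 178)) (XT.lf (nat_lit 0) (nat_lit 210514499150) (nat_lit 152) (nat_lit 230682142300) (nat_lit 0) (nat_lit 210304753628) (nat_lit 1) (nat_lit 5) (nat_lit 3) (nat_lit 4) (nat_lit 1) (nat_lit 4) (nat_lit 244) (nat_lit 179) (nat_lit 177)))))) (XT.nd (nat_lit 390) (nat_lit 0) (nat_lit 0) (XT.nd (nat_lit 156) (nat_lit 0) (nat_lit 0) (XT.nd (nat_lit 78) (nat_lit 0) (nat_lit 0) (XT.lf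 (nat_lit 0) (nat_lit 243262871092) (nat_lit 152) (nat_lit 262888896153) (nat_lit 0) (nat_lit 242968294216) (nat_lit 1) (nat_lit 5) (nat_lit 3) (nat_lit 4) (nat_lit 1) (nat_lit 4) (nat_lit 245) (nat_lit 179) (nat_lit 176)) (XT.lf (nat_lit 0) (nat_lit 280824169511) (nat_lit 152) (nat_lit 300109671343) (nat_lit 0) (nat_lit 280455826240) (nat_lit 1) (nat_lit 5) (nat_lit 3) (nat_lit 4) (nat_lit 1) (nat_lit 4) (nat_lit 246) (nat_lit 179) (nat_lit 175))) (XT.nd (nat_lit 78) (nat_lit 0) (nat_lit 0) (XT.lf (nat_lit 0) (nat_lit 323933289375) (nat_lit 152) (nat_lit 343072700431) (nat_lit 0) (nat_lit 323500801413) (nat_lit 1) (nat_lit 5) (nat_lit 3) (nat_lit 4) (nat_lit 1) (nat_lit 4) (nat_lit 247) (nat_lit 179) (nat_lit 174)) (XT.nd (nat_lit 78) (nat_lit 0) (nat_lit 0) (XT.lf (nat_lit 0) (nat_lit 373433669986) (nat_lit 152) (nat_lit 392618564419) (nat_lit 0) (nat_lit 372945404032) (nat_lit 1) (nat_lit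 5) (nat_lit 3) (nat_lit 4) (nat_lit 1) (nat_lit 4) (nat_lit 248) (nat_lit 179) (nat_lit 173)) (XT.lf (nat_lit 0) (nat_lit 430293797053) (nat_lit 152) (nat_lit 449716638907) (nat_lit 0) (nat_lit 429757028496) (nat_lit 1) (nat_lit 5) (nat_lit 3) (nat_lit 4) (nat_lit 1) (nat_lit 4) (nat_lit 249) (nat_lit 179) (nat_lit 172))))) (XT.nd (nat_lit 156) (nat_lit 0) (nat_lit 0) (XT.nd (nat_lit 78) (nat_lit 0) (nat_lit 0) (XT.lf (nat_lit 0) (nat_lit 495626151321) (nat_lit 152) (nat_lit 515484060135) (nat_lit 0) (nat_lit 495047206589) (nat_lit 1) (nat_lit 5) (nat_lit 3) (nat_lit 4) (nat_lit 1) (nat_lit 4) (nat_lit 250) (nat_lit 179) (nat_lit 171)) (XT.lf (nat_lit 0) (nat_lit 570708974505) (nat_lit 152) (nat_lit 591207581998) (nat_lit 0) (nat_lit 570093354838) (nat_lit 1) (nat_lit 5) (nat_lit 3) (nat_lit 4) (nat_lit 1) (nat_lit 4) (nat_lit 251) (nat_lit 179) (nat_lit 170))) (XT.nd (nat_lit 78) (nat_lit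 0) (nat_lit 0) (XT.lf (nat_lit 0) (nat_lit 657011278363) (nat_lit 152) (nat_lit 678368751661) (nat_lit 0) (nat_lit 656363767448) (nat_lit 1) (nat_lit 5) (nat_lit 3) (nat_lit 4) (nat_lit 1) (nat_lit 4) (nat_lit 252) (nat_lit 179) (nat_lit 169)) (XT.nd (nat_lit 78) (nat_lit 0) (nat_lit 0) (XT.lf (nat_lit 0) (nat_lit 756221586231) (nat_lit 152) (nat_lit 778672896357) (nat_lit 0) (nat_lit 755546343796) (nat_lit 1) (nat_lit 5) (nat_lit 3) (nat_lit 4) (nat_lit 1) (nat_lit 4) (nat_lit 253) (nat_lit 179) (nat_lit 168)) (XT.lf (nat_lit 0) (nat_lit 870280969350) (nat_lit 152) (nat_lit 894082488483) (nat_lit 0) (nat_lit 869581612549) (nat_lit 1) (nat_lit 5) (nat_lit 3) (nat_lit 4) (nat_lit 1) (nat_lit 4) (nat_lit 254) (nat_lit 179) (nat_lit 167))))))) (XT.nd (nat_lit 30342) (nat_lit 0) (nat_lit 0) (XT.nd (nat_lit 312) (nat_lit 0) (nat_lit 0) (XT.nd (nat_lit 156) (nat_lit 0) (nat_lit 0) (XT.nd (nat_lit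 78) (nat_lit 0) (nat_lit 0) (XT.lf (nat_lit 0) (nat_lit 1001421024346) (nat_lit 152) (nat_lit 1026855541798) (nat_lit 0) (nat_lit 1000700698532) (nat_lit 1) (nat_lit 5) (nat_lit 3) (nat_lit 4) (nat_lit 1) (nat_lit 4) (nat_lit 255) (nat_lit 179) (nat_lit 166)) (XT.lf (nat_lit 0) (nat_lit 1152207534905) (nat_lit 152) (nat_lit 1179589789953) (nat_lit 0) (nat_lit 1151468975166) (nat_lit 1) (nat_lit 5) (nat_lit 3) (nat_lit 4) (nat_lit 1) (nat_lit 4) (nat_lit 256) (nat_lit 179) (nat_lit 165))) (XT.nd (nat_lit 78) (nat_lit 0) (nat_lit 0) (XT.lf (nat_lit 0) (nat_lit 1325590671884) (nat_lit 152) (nat_lit 1355273511716) (nat_lit 0) (nat_lit 1324836256558) (nat_lit 1) (nat_lit 5) (nat_lit 3) (nat_lit 4) (nat_lit 1) (nat_lit 4) (nat_lit 257) (nat_lit 179) (nat_lit 164)) (XT.lf (nat_lit 0) (nat_lit 1524962714050) (nat_lit 152) (nat_lit 1557343997296) (nat_lit 0) (nat_lit 1524194511258) (nat_lit 1)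 (nat_lit 5) (nat_lit 3) (nat_lit 4) (nat_lit 1) (nat_lit 4) (nat_lit 258) (nat_lit 179) (nat_lit 163)))) (XT.nd (nat_lit 29796) (nat_lit 0) (nat_lit 0) (XT.nd (nat_lit 78) (nat_lit 0) (nat_lit 0) (XT.lf (nat_lit 0) (nat_lit 1754224418752) (nat_lit 152) (nat_lit 1789754799672) (nat_lit 0) (nat_lit 1753444226858) (nat_lit 1) (nat_lit 5) (nat_lit 3) (nat_lit 4) (nat_lit 1) (nat_lit 4) (nat_lit 259) (nat_lit 179) (nat_lit 162)) (XT.lf (nat_lit 0) (nat_lit 2017861341079) (nat_lit 152) (nat_lit 2057053086716) (nat_lit 0) (nat_lit 2017070723880) (nat_lit 1) (nat_lit 5) (nat_lit 3) (nat_lit 4) (nat_lit 1) (nat_lit 4) (nat_lit 260) (nat_lit 179) (nat_lit 161))) (XT.nd (nat_lit 78) (nat_lit 0) (nat_lit 0) (XT.lf (nat_lit 0) (nat_lit 58102858106) (nat_lit 152) (nat_lit 70233982302) (nat_lit 0) (nat_lit 58102858106) (nat_lit 1) (nat_lit 5) (nat_lit 3) (nat_lit 4) (nat_lit 1) (nat_lit 4) (nat_lit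 240) (nat_lit 180) (nat_lit 180)) (XT.nd (nat_lit 78) (nat_lit 0) (nat_lit 0) (XT.lf (nat_lit 0) (nat_lit 135265880764) (nat_lit 152) (nat_lit 158262895566) (nat_lit 0) (nat_lit 135136862878) (nat_lit 1) (nat_lit 5) (nat_lit 3) (nat_lit 4) (nat_lit 1) (nat_lit 4) (nat_lit 241) (nat_lit 180) (nat_lit 179)) (XT.lf (nat_lit 0) (nat_lit 157034002527) (nat_lit 152) (nat_lit 179005398859) (nat_lit 0) (nat_lit 156792795176) (nat_lit 1) (nat_lit 5) (nat_lit 3) (nat_lit 4) (nat_lit 1) (nat_lit 4) (nat_lit 242) (nat_lit 180) (nat_lit 178)))))) (XT.nd (nat_lit 390) (nat_lit 0) (nat_lit 0) (XT.nd (nat_lit 156) (nat_lit 0) (nat_lit 0) (XT.nd (nat_lit 78) (nat_lit 0) (nat_lit 0) (XT.lf (nat_lit 0) (nat_lit 181935979536) (nat_lit 152) (nat_lit 203101306071) (nat_lit 0) (nat_lit 181597216127) (nat_lit 1) (nat_lit 5) (nat_lit 3) (nat_lit 4) (nat_lit 1) (nat_lit 4) (nat_lit 243) (nat_lit 180) (nat_lit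 177)) (XT.lf (nat_lit 0) (nat_lit 210459024384) (nat_lit 152) (nat_lit 231022058865) (nat_lit 0) (nat_lit 210035429622) (nat_lit 1) (nat_lit 5) (nat_lit 3) (nat_lit 4) (nat_lit 1) (nat_lit 4) (nat_lit 244) (nat_lit 180) (nat_lit 176))) (XT.nd (nat_lit 78) (nat_lit 0) (nat_lit 0) (XT.lf (nat_lit 0) (nat_lit 243161196644) (nat_lit 152) (nat_lit 263313932838) (nat_lit 0) (nat_lit 242663835488) (nat_lit 1) (nat_lit 5) (nat_lit 3) (nat_lit 4) (nat_lit 1) (nat_lit 4) (nat_lit 245) (nat_lit 180) (nat_lit 175)) (XT.nd (nat_lit 78) (nat_lit 0) (nat_lit 0) (XT.lf (nat_lit 0) (nat_lit 280682321427) (nat_lit 152) (nat_lit 300608725526) (nat_lit 0) (nat_lit 280120815579) (nat_lit 1) (nat_lit 5) (nat_lit 3) (nat_lit 4) (nat_lit 1) (nat_lit 4) (nat_lit 246) (nat_lit 180) (nat_lit 174)) (XT.lf (nat_lit 0) (nat_lit 323756507695) (nat_lit 152) (nat_lit 343636117654) (nat_lit 0) (nat_lit 323139223855) (nat_lit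 1) (nat_lit 5) (nat_lit 3) (nat_lit 4) (nat_lit 1) (nat_lit 4) (nat_lit 247) (nat_lit 180) (nat_lit 173))))) (XT.nd (nat_lit 156) (nat_lit 0) (nat_lit 0) (XT.nd (nat_lit 78) (nat_lit 0) (nat_lit 0) (XT.lf (nat_lit 0) (nat_lit 373226511266) (nat_lit 152) (nat_lit 393237949503) (nat_lit 0) (nat_lit 372560724824) (nat_lit 1) (nat_lit 5) (nat_lit 3) (nat_lit 4) (nat_lit 1) (nat_lit 4) (nat_lit 248) (nat_lit 180) (nat_lit 172)) (XT.lf (nat_lit 0) (nat_lit 430060223514) (nat_lit 152) (nat_lit 450384691697) (nat_lit 0) (nat_lit 429352260897) (nat_lit 1) (nat_lit 5) (nat_lit 3) (nat_lit 4) (nat_lit 1) (nat_lit 4) (nat_lit 249) (nat_lit 180) (nat_lit 171))) (XT.nd (nat_lit 78) (nat_lit 0) (nat_lit 0) (XT.lf (nat_lit 0) (nat_lit 495369608376) (nat_lit 152) (nat_lit 516194432669) (nat_lit 0) (nat_lit 494624970823) (nat_lit 1) (nat_lit 5) (nat_lit 3) (nat_lit 4) (nat_lit 1) (nat_lit 4) (nat_lit 250)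 (nat_lit 180) (nat_lit 170)) (XT.nd (nat_lit 78) (nat_lit 0) (nat_lit 0) (XT.lf (nat_lit 0) (nat_lit 570432458163) (nat_lit 152) (nat_lit 591954754309) (nat_lit 0) (nat_lit 569655929362) (nat_lit 1) (nat_lit 5) (nat_lit 3) (nat_lit 4) (nat_lit 1) (nat_lit 4) (nat_lit 251) (nat_lit 180) (nat_lit 169)) (XT.lf (nat_lit 0) (nat_lit 656717393849) (nat_lit 152) (nat_lit 679147923779) (nat_lit 0) (nat_lit 655913133528) (nat_lit 1) (nat_lit 5) (nat_lit 3) (nat_lit 4) (nat_lit 1) (nat_lit 4) (nat_lit 252) (nat_lit 180) (nat_lit 168))))))))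
noncomputable def xc3 : XT := (XT.nd (nat_lit 30966) (nat_lit 0) (nat_lit 0) (XT.nd (nat_lit 30186) (nat_lit 0) (nat_lit 0) (XT.nd (nat_lit 312) (nat_lit 0) (nat_lit 0) (XT.nd (nat_lit 156) (nat_lit 0) (nat_lit 0) (XT.nd (nat_lit 78) (nat_lit 0) (nat_lit 0) (XT.lf (nat_lit 0) (nat_lit 755912598960) (nat_lit 152) (nat_lit 779479894394) (nat_lit 0) (nat_lit 755084224273) (nat_lit 1) (nat_lit 5) (nat_lit 3) (nat_lit 4) (nat_lit 1) (nat_lit 4) (nat_lit 253) (nat_lit 180) (nat_lit 167)) (XT.lf (nat_lit 0) (nat_lit 869958849246) (nat_lit 152) (nat_lit 894913682971) (nat_lit 0) (nat_lit 869109505546) (nat_lit 1) (nat_lit 5) (nat_lit 3) (nat_lit 4) (nat_lit 1) (nat_lit 4) (nat_lit 254) (nat_lit 180) (nat_lit 166))) (XT.nd (nat_lit 78) (nat_lit 0) (nat_lit 0) (XT.lf (nat_lit 0) (nat_lit 1001087484388) (nat_lit 152) (nat_lit 1027707776677) (nat_lit 0) (nat_lit 1000219906763) (nat_lit 1) (nat_lit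 5) (nat_lit 3) (nat_lit 4) (nat_lit 1) (nat_lit 4) (nat_lit 255) (nat_lit 180) (nat_lit 165)) (XT.lf (nat_lit 0) (nat_lit 1151864064637) (nat_lit 152) (nat_lit 1180460320825) (nat_lit 0) (nat_lit 1150980631427) (nat_lit 1) (nat_lit 5) (nat_lit 3) (nat_lit 4) (nat_lit 1) (nat_lit 4) (nat_lit 256) (nat_lit 180) (nat_lit 164)))) (XT.nd (nat_lit 156) (nat_lit 0) (nat_lit 0) (XT.nd (nat_lit 78) (nat_lit 0) (nat_lit 0) (XT.lf (nat_lit 0) (nat_lit 1325238566566) (nat_lit 152) (nat_lit 1356159952148) (nat_lit 0) (nat_lit 1324341345888) (nat_lit 1) (nat_lit 5) (nat_lit 3) (nat_lit 4) (nat_lit 1) (nat_lit 4) (nat_lit 257) (nat_lit 180) (nat_lit 163)) (XT.lf (nat_lit 0) (nat_lit 1524603099993) (nat_lit 152) (nat_lit 1558244272128) (nat_lit 0) (nat_lit 1523693890214) (nat_lit 1) (nat_lit 5) (nat_lit 3) (nat_lit 4) (nat_lit 1) (nat_lit 4) (nat_lit 258) (nat_lit 180) (nat_lit 162))) (XT.nd (nat_lit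 78) (nat_lit 0) (nat_lit 0) (XT.lf (nat_lit 0) (nat_lit 1753858275355) (nat_lit 152) (nat_lit 1790667104416) (nat_lit 0) (nat_lit 1752938640270) (nat_lit 1) (nat_lit 5) (nat_lit 3) (nat_lit 4) (nat_lit 1) (nat_lit 4) (nat_lit 259) (nat_lit 180) (nat_lit 161)) (XT.nd (nat_lit 29562) (nat_lit 0) (nat_lit 0) (XT.lf (nat_lit 0) (nat_lit 2017489519996) (nat_lit 152) (nat_lit 2057975852254) (nat_lit 0) (nat_lit 2016560819429) (nat_lit 1) (nat_lit 5) (nat_lit 3) (nat_lit 4) (nat_lit 1) (nat_lit 4) (nat_lit 260) (nat_lit 180) (nat_lit 160)) (XT.lf (nat_lit 0) (nat_lit 42502286951) (nat_lit 152) (nat_lit 56103911988) (nat_lit 0) (nat_lit 42502286951) (nat_lit 1) (nat_lit 5) (nat_lit 3) (nat_lit 4) (nat_lit 1) (nat_lit 4) (nat_lit 238) (nat_lit 181) (nat_lit 181)))))) (XT.nd (nat_lit 390) (nat_lit 0) (nat_lit 0) (XT.nd (nat_lit 156) (nat_lit 0) (nat_lit 0) (XT.nd (nat_lit 78) (nat_lit 0) (nat_lit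 0) (XT.lf (nat_lit 0) (nat_lit 99628963177) (nat_lit 152) (nat_lit 125272444284) (nat_lit 0) (nat_lit 99480592608) (nat_lit 1) (nat_lit 5) (nat_lit 3) (nat_lit 4) (nat_lit 1) (nat_lit 4) (nat_lit 239) (nat_lit 181) (nat_lit 180)) (XT.lf (nat_lit 0) (nat_lit 116273283249) (nat_lit 152) (nat_lit 140616840229) (nat_lit 0) (nat_lit 115995894795) (nat_lit 1) (nat_lit 5) (nat_lit 3) (nat_lit 4) (nat_lit 1) (nat_lit 4) (nat_lit 240) (nat_lit 181) (nat_lit 179))) (XT.nd (nat_lit 78) (nat_lit 0) (nat_lit 0) (XT.lf (nat_lit 0) (nat_lit 135263183860) (nat_lit 152) (nat_lit 158541228254) (nat_lit 0) (nat_lit 134873605941) (nat_lit 1) (nat_lit 5) (nat_lit 3) (nat_lit 4) (nat_lit 1) (nat_lit 4) (nat_lit 241) (nat_lit 181) (nat_lit 178)) (XT.nd (nat_lit 78) (nat_lit 0) (nat_lit 0) (XT.lf (nat_lit 0) (nat_lit 156970206545) (nat_lit 152) (nat_lit 179396302908) (nat_lit 0) (nat_lit 156483072569) (nat_lit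 1) (nat_lit 5) (nat_lit 3) (nat_lit 4) (nat_lit 1) (nat_lit 4) (nat_lit 242) (nat_lit 181) (nat_lit 177)) (XT.lf (nat_lit 0) (nat_lit 181819053920) (nat_lit 152) (nat_lit 203590098259) (nat_lit 0) (nat_lit 181247088590) (nat_lit 1) (nat_lit 5) (nat_lit 3) (nat_lit 4) (nat_lit 1) (nat_lit 4) (nat_lit 243) (nat_lit 181) (nat_lit 176))))) (XT.nd (nat_lit 156) (nat_lit 0) (nat_lit 0) (XT.nd (nat_lit 78) (nat_lit 0) (nat_lit 0) (XT.lf (nat_lit 0) (nat_lit 210295899087) (nat_lit 152) (nat_lit 231595971174) (nat_lit 0) (nat_lit 209650167362) (nat_lit 1) (nat_lit 5) (nat_lit 3) (nat_lit 4) (nat_lit 1) (nat_lit 4) (nat_lit 244) (nat_lit 181) (nat_lit 175)) (XT.lf (nat_lit 0) (nat_lit 242957897712) (nat_lit 152) (nat_lit 263961862645) (nat_lit 0) (nat_lit 242248021296) (nat_lit 1) (nat_lit 5) (nat_lit 3) (nat_lit 4) (nat_lit 1) (nat_lit 4) (nat_lit 245) (nat_lit 181) (nat_lit 174))) (XT.nd (nat_lit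 78) (nat_lit 0) (nat_lit 0) (XT.lf (nat_lit 0) (nat_lit 280444088898) (nat_lit 152) (nat_lit 301321018373) (nat_lit 0) (nat_lit 279678434490) (nat_lit 1) (nat_lit 5) (nat_lit 3) (nat_lit 4) (nat_lit 1) (nat_lit 4) (nat_lit 246) (nat_lit 181) (nat_lit 173)) (XT.nd (nat_lit 78) (nat_lit 0) (nat_lit 0) (XT.lf (nat_lit 0) (nat_lit 323487898126) (nat_lit 152) (nat_lit 344404378362) (nat_lit 0) (nat_lit 322673741115) (nat_lit 1) (nat_lit 5) (nat_lit 3) (nat_lit 4) (nat_lit 1) (nat_lit 4) (nat_lit 247) (nat_lit 181) (nat_lit 172)) (XT.lf (nat_lit 0) (nat_lit 372931486879) (nat_lit 152) (nat_lit 394054877917) (nat_lit 0) (nat_lit 372075153693) (nat_lit 1) (nat_lit 5) (nat_lit 3) (nat_lit 4) (nat_lit 1) (nat_lit 4) (nat_lit 248) (nat_lit 181) (nat_lit 171))))))) (XT.nd (nat_lit 702) (nat_lit 0) (nat_lit 0) (XT.nd (nat_lit 312) (nat_lit 0) (nat_lit 0) (XT.nd (nat_lit 156) (nat_lit 0) (nat_lit 0)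 (XT.nd (nat_lit 78) (nat_lit 0) (nat_lit 0) (XT.lf (nat_lit 0) (nat_lit 429742229721) (nat_lit 152) (nat_lit 451243939855) (nat_lit 0) (nat_lit 428849221600) (nat_lit 1) (nat_lit 5) (nat_lit 3) (nat_lit 4) (nat_lit 1) (nat_lit 4) (nat_lit 249) (nat_lit 181) (nat_lit 170)) (XT.lf (nat_lit 0) (nat_lit 495031641185) (nat_lit 152) (nat_lit 517090480605) (nat_lit 0) (nat_lit 494106741816) (nat_lit 1) (nat_lit 5) (nat_lit 3) (nat_lit 4) (nat_lit 1) (nat_lit 4) (nat_lit 250) (nat_lit 181) (nat_lit 169))) (XT.nd (nat_lit 78) (nat_lit 0) (nat_lit 0) (XT.lf (nat_lit 0) (nat_lit 570077122801) (nat_lit 152) (nat_lit 592882802051) (nat_lit 0) (nat_lit 569124491912) (nat_lit 1) (nat_lit 5) (nat_lit 3) (nat_lit 4) (nat_lit 1) (nat_lit 4) (nat_lit 251) (nat_lit 181) (nat_lit 168)) (XT.lf (nat_lit 0) (nat_lit 656346955730) (nat_lit 152) (nat_lit 680103797439) (nat_lit 0) (nat_lit 655370210475) (nat_lit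 1) (nat_lit 5) (nat_lit 3) (nat_lit 4) (nat_lit 1) (nat_lit 4) (nat_lit 252) (nat_lit 181) (nat_lit 167)))) (XT.nd (nat_lit 156) (nat_lit 0) (nat_lit 0) (XT.nd (nat_lit 78) (nat_lit 0) (nat_lit 0) (XT.lf (nat_lit 0) (nat_lit 755529028007) (nat_lit 152) (nat_lit 780459964505) (nat_lit 0) (nat_lit 754531313739) (nat_lit 1) (nat_lit 5) (nat_lit 3) (nat_lit 4) (nat_lit 1) (nat_lit 4) (nat_lit 253) (nat_lit 181) (nat_lit 166)) (XT.lf (nat_lit 0) (nat_lit 869563858439) (nat_lit 152) (nat_lit 895914793474) (nat_lit 0) (nat_lit 868547910246) (nat_lit 1) (nat_lit 5) (nat_lit 3) (nat_lit 4) (nat_lit 1) (nat_lit 4) (nat_lit 254) (nat_lit 181) (nat_lit 165))) (XT.nd (nat_lit 78) (nat_lit 0) (nat_lit 0) (XT.lf (nat_lit 0) (nat_lit 1000682563272) (nat_lit 152) (nat_lit 1028727183174) (nat_lit 0) (nat_lit 999650759493) (nat_lit 1) (nat_lit 5) (nat_lit 3) (nat_lit 4) (nat_lit 1) (nat_lit 4) (nat_lit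 255) (nat_lit 181) (nat_lit 164)) (XT.nd (nat_lit 78) (nat_lit 0) (nat_lit 0) (XT.lf (nat_lit 0) (nat_lit 1151450508471) (nat_lit 152) (nat_lit 1181495636881) (nat_lit 0) (nat_lit 1150404917225) (nat_lit 1) (nat_lit 5) (nat_lit 3) (nat_lit 4) (nat_lit 1) (nat_lit 4) (nat_lit 256) (nat_lit 181) (nat_lit 163)) (XT.lf (nat_lit 0) (nat_lit 1324817501659) (nat_lit 152) (nat_lit 1357209102603) (nat_lit 0) (nat_lit 1323759921312) (nat_lit 1) (nat_lit 5) (nat_lit 3) (nat_lit 4) (nat_lit 1) (nat_lit 4) (nat_lit 257) (nat_lit 181) (nat_lit 162)))))) (XT.nd (nat_lit 29718) (nat_lit 0) (nat_lit 0) (XT.nd (nat_lit 156) (nat_lit 0) (nat_lit 0) (XT.nd (nat_lit 78) (nat_lit 0) (nat_lit 0) (XT.lf (nat_lit 0) (nat_lit 1524175505747) (nat_lit 152) (nat_lit 1559305452496) (nat_lit 0) (nat_lit 1523107500095) (nat_lit 1) (nat_lit 5) (nat_lit 3) (nat_lit 4) (nat_lit 1) (nat_lit 4) (nat_lit 258) (nat_lit 181)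 (nat_lit 161)) (XT.lf (nat_lit 0) (nat_lit 1753425003423) (nat_lit 152) (nat_lit 1791738745578) (nat_lit 0) (nat_lit 1752347932288) (nat_lit 1) (nat_lit 5) (nat_lit 3) (nat_lit 4) (nat_lit 1) (nat_lit 4) (nat_lit 259) (nat_lit 181) (nat_lit 160))) (XT.nd (nat_lit 29406) (nat_lit 0) (nat_lit 0) (XT.lf (nat_lit 0) (nat_lit 2017051310947) (nat_lit 152) (nat_lit 2059056589758) (nat_lit 0) (nat_lit 2015966356782) (nat_lit 1) (nat_lit 5) (nat_lit 3) (nat_lit 4) (nat_lit 1) (nat_lit 4) (nat_lit 260) (nat_lit 181) (nat_lit 159)) (XT.nd (nat_lit 78) (nat_lit 0) (nat_lit 0) (XT.lf (nat_lit 0) (nat_lit 30491240678) (nat_lit 152) (nat_lit 45869088458) (nat_lit 0) (nat_lit 30491240678) (nat_lit 1) (nat_lit 5) (nat_lit 3) (nat_lit 4) (nat_lit 1) (nat_lit 4) (nat_lit 236) (nat_lit 182) (nat_lit 182)) (XT.lf (nat_lit 0) (nat_lit 72284612227) (nat_lit 152) (nat_lit 101167367172) (nat_lit 0) (nat_lit 72113986073)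 (nat_lit 1) (nat_lit 5) (nat_lit 3) (nat_lit 4) (nat_lit 1) (nat_lit 4) (nat_lit 237) (nat_lit 182) (nat_lit 181))))) (XT.nd (nat_lit 156) (nat_lit 0) (nat_lit 0) (XT.nd (nat_lit 78) (nat_lit 0) (nat_lit 0) (XT.lf (nat_lit 0) (nat_lit 85082275996) (nat_lit 152) (nat_lit 112379030945) (nat_lit 0) (nat_lit 84763279274) (nat_lit 1) (nat_lit 5) (nat_lit 3) (nat_lit 4) (nat_lit 1) (nat_lit 4) (nat_lit 238) (nat_lit 182) (nat_lit 180)) (XT.lf (nat_lit 0) (nat_lit 99625861738) (nat_lit 152) (nat_lit 125592526876) (nat_lit 0) (nat_lit 99177847131) (nat_lit 1) (nat_lit 5) (nat_lit 3) (nat_lit 4) (nat_lit 1) (nat_lit 4) (nat_lit 239) (nat_lit 182) (nat_lit 179))) (XT.nd (nat_lit 78) (nat_lit 0) (nat_lit 0) (XT.lf (nat_lit 0) (nat_lit 116199917870) (nat_lit 152) (nat_lit 141066379885) (nat_lit 0) (nat_lit 115639713797) (nat_lit 1) (nat_lit 5) (nat_lit 3) (nat_lit 4) (nat_lit 1) (nat_lit 4) (nat_lit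 240) (nat_lit 182) (nat_lit 178)) (XT.nd (nat_lit 78) (nat_lit 0) (nat_lit 0) (XT.lf (nat_lit 0) (nat_lit 135128719403) (nat_lit 152) (nat_lit 159103339271) (nat_lit 0) (nat_lit 134470959273) (nat_lit 1) (nat_lit 5) (nat_lit 3) (nat_lit 4) (nat_lit 1) (nat_lit 4) (nat_lit 241) (nat_lit 182) (nat_lit 177)) (XT.lf (nat_lit 0) (nat_lit 156782612454) (nat_lit 152) (nat_lit 180056302064) (nat_lit 0) (nat_lit 156040020970) (nat_lit 1) (nat_lit 5) (nat_lit 3) (nat_lit 4) (nat_lit 1) (nat_lit 4) (nat_lit 242) (nat_lit 182) (nat_lit 176))))))))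
noncomputable def xc4 : XT := (XT.nd (nat_lit 30576) (nat_lit 0) (nat_lit 0) (XT.nd (nat_lit 702) (nat_lit 0) (nat_lit 0) (XT.nd (nat_lit 312) (nat_lit 0) (nat_lit 0) (XT.nd (nat_lit 156) (nat_lit 0) (nat_lit 0) (XT.nd (nat_lit 78) (nat_lit 0) (nat_lit 0) (XT.lf (nat_lit 0) (nat_lit 181585260148) (nat_lit 152) (nat_lit 204335217537) (nat_lit 0) (nat_lit 180768902270) (nat_lit 1) (nat_lit 5) (nat_lit 3) (nat_lit 4) (nat_lit 1) (nat_lit 4) (nat_lit 243) (nat_lit 182) (nat_lit 175)) (XT.lf (nat_lit 0) (nat_lit 210021931679) (nat_lit 152) (nat_lit 232415107948) (nat_lit 0) (nat_lit 209141429110) (nat_lit 1) (nat_lit 5) (nat_lit 3) (nat_lit 4) (nat_lit 1) (nat_lit 4) (nat_lit 244) (nat_lit 182) (nat_lit 174))) (XT.nd (nat_lit 78) (nat_lit 0) (nat_lit 0) (XT.lf (nat_lit 0) (nat_lit 242648996707) (nat_lit 152) (nat_lit 264845362459) (nat_lit 0) (nat_lit 241712716146) (nat_lit 1) (nat_lit 5)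 (nat_lit 3) (nat_lit 4) (nat_lit 1) (nat_lit 4) (nat_lit 245) (nat_lit 182) (nat_lit 173)) (XT.lf (nat_lit 0) (nat_lit 280104810853) (nat_lit 152) (nat_lit 302260486049) (nat_lit 0) (nat_lit 279120027690) (nat_lit 1) (nat_lit 5) (nat_lit 3) (nat_lit 4) (nat_lit 1) (nat_lit 4) (nat_lit 246) (nat_lit 182) (nat_lit 172)))) (XT.nd (nat_lit 156) (nat_lit 0) (nat_lit 0) (XT.nd (nat_lit 78) (nat_lit 0) (nat_lit 0) (XT.lf (nat_lit 0) (nat_lit 323122205263) (nat_lit 152) (nat_lit 345392513744) (nat_lit 0) (nat_lit 322095245924) (nat_lit 1) (nat_lit 5) (nat_lit 3) (nat_lit 4) (nat_lit 1) (nat_lit 4) (nat_lit 247) (nat_lit 182) (nat_lit 171)) (XT.lf (nat_lit 0) (nat_lit 372542824610) (nat_lit 152) (nat_lit 395085333043) (nat_lit 0) (nat_lit 371479190335) (nat_lit 1) (nat_lit 5) (nat_lit 3) (nat_lit 4) (nat_lit 1) (nat_lit 4) (nat_lit 248) (nat_lit 182) (nat_lit 170))) (XT.nd (nat_lit 78) (nat_lit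 0) (nat_lit 0) (XT.lf (nat_lit 0) (nat_lit 429333594054) (nat_lit 152) (nat_lit 452311194758) (nat_lit 0) (nat_lit 428238068532) (nat_lit 1) (nat_lit 5) (nat_lit 3) (nat_lit 4) (nat_lit 1) (nat_lit 4) (nat_lit 249) (nat_lit 182) (nat_lit 169)) (XT.nd (nat_lit 78) (nat_lit 0) (nat_lit 0) (XT.lf (nat_lit 0) (nat_lit 494605637347) (nat_lit 152) (nat_lit 518189735315) (nat_lit 0) (nat_lit 493482380305) (nat_lit 1) (nat_lit 5) (nat_lit 3) (nat_lit 4) (nat_lit 1) (nat_lit 4) (nat_lit 250) (nat_lit 182) (nat_lit 168)) (XT.lf (nat_lit 0) (nat_lit 569636016205) (nat_lit 152) (nat_lit 594009882679) (nat_lit 0) (nat_lit 568488644797) (nat_lit 1) (nat_lit 5) (nat_lit 3) (nat_lit 4) (nat_lit 1) (nat_lit 4) (nat_lit 251) (nat_lit 182) (nat_lit 167)))))) (XT.nd (nat_lit 312) (nat_lit 0) (nat_lit 0) (XT.nd (nat_lit 156) (nat_lit 0) (nat_lit 0) (XT.nd (nat_lit 78) (nat_lit 0) (nat_lit 0) (XT.lf (nat_lit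 0) (nat_lit 655892716301) (nat_lit 152) (nat_lit 681255074519) (nat_lit 0) (nat_lit 654724375880) (nat_lit 1) (nat_lit 5) (nat_lit 3) (nat_lit 4) (nat_lit 1) (nat_lit 4) (nat_lit 252) (nat_lit 182) (nat_lit 166)) (XT.lf (nat_lit 0) (nat_lit 755063368724) (nat_lit 152) (nat_lit 781632281977) (nat_lit 0) (nat_lit 753876794378) (nat_lit 1) (nat_lit 5) (nat_lit 3) (nat_lit 4) (nat_lit 1) (nat_lit 4) (nat_lit 253) (nat_lit 182) (nat_lit 165))) (XT.nd (nat_lit 78) (nat_lit 0) (nat_lit 0) (XT.lf (nat_lit 0) (nat_lit 869088268847) (nat_lit 152) (nat_lit 897105406939) (nat_lit 0) (nat_lit 867885838915) (nat_lit 1) (nat_lit 5) (nat_lit 3) (nat_lit 4) (nat_lit 1) (nat_lit 4) (nat_lit 254) (nat_lit 182) (nat_lit 164)) (XT.lf (nat_lit 0) (nat_lit 1000198338630) (nat_lit 152) (nat_lit 1029933706198) (nat_lit 0) (nat_lit 998982121231) (nat_lit 1) (nat_lit 5) (nat_lit 3) (nat_lit 4) (nat_lit 1) (nat_lit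 4) (nat_lit 255) (nat_lit 182) (nat_lit 163)))) (XT.nd (nat_lit 156) (nat_lit 0) (nat_lit 0) (XT.nd (nat_lit 78) (nat_lit 0) (nat_lit 0) (XT.lf (nat_lit 0) (nat_lit 1150958775089) (nat_lit 152) (nat_lit 1182715994305) (nat_lit 0) (nat_lit 1149730568588) (nat_lit 1) (nat_lit 5) (nat_lit 3) (nat_lit 4) (nat_lit 1) (nat_lit 4) (nat_lit 256) (nat_lit 182) (nat_lit 162)) (XT.lf (nat_lit 0) (nat_lit 1324319238938) (nat_lit 152) (nat_lit 1358441489939) (nat_lit 0) (nat_lit 1323080607132) (nat_lit 1) (nat_lit 5) (nat_lit 3) (nat_lit 4) (nat_lit 1) (nat_lit 4) (nat_lit 257) (nat_lit 182) (nat_lit 161))) (XT.nd (nat_lit 78) (nat_lit 0) (nat_lit 0) (XT.lf (nat_lit 0) (nat_lit 1523671565340) (nat_lit 152) (nat_lit 1560548300625) (nat_lit 0) (nat_lit 1522423868051) (nat_lit 1) (nat_lit 5) (nat_lit 3) (nat_lit 4) (nat_lit 1) (nat_lit 4) (nat_lit 258) (nat_lit 182) (nat_lit 160)) (XT.nd (nat_lit 78)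 (nat_lit 0) (nat_lit 0) (XT.lf (nat_lit 0) (nat_lit 1752916125898) (nat_lit 152) (nat_lit 1792990690049) (nat_lit 0) (nat_lit 1751660545580) (nat_lit 1) (nat_lit 5) (nat_lit 3) (nat_lit 4) (nat_lit 1) (nat_lit 4) (nat_lit 259) (nat_lit 182) (nat_lit 159)) (XT.lf (nat_lit 0) (nat_lit 2016538140275) (nat_lit 152) (nat_lit 2060316444092) (nat_lit 0) (nat_lit 2015275705149) (nat_lit 1) (nat_lit 5) (nat_lit 3) (nat_lit 4) (nat_lit 1) (nat_lit 4) (nat_lit 260) (nat_lit 182) (nat_lit 158))))))) (XT.nd (nat_lit 702) (nat_lit 0) (nat_lit 0) (XT.nd (nat_lit 312) (nat_lit 0) (nat_lit 0) (XT.nd (nat_lit 156) (nat_lit 0) (nat_lit 0) (XT.nd (nat_lit 78) (nat_lit 0) (nat_lit 0) (XT.lf (nat_lit 0) (nat_lit 21162174934) (nat_lit 152) (nat_lit 38647062065) (nat_lit 0) (nat_lit 21162174934) (nat_lit 1) (nat_lit 5) (nat_lit 3) (nat_lit 4) (nat_lit 1) (nat_lit 4) (nat_lit 234) (nat_lit 183) (nat_lit 183))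 (XT.lf (nat_lit 0) (nat_lit 51150974816) (nat_lit 152) (nat_lit 83906976025) (nat_lit 0) (nat_lit 50954754739) (nat_lit 1) (nat_lit 5) (nat_lit 3) (nat_lit 4) (nat_lit 1) (nat_lit 4) (nat_lit 235) (nat_lit 183) (nat_lit 182))) (XT.nd (nat_lit 78) (nat_lit 0) (nat_lit 0) (XT.lf (nat_lit 0) (nat_lit 61071838763) (nat_lit 152) (nat_lit 91935064930) (nat_lit 0) (nat_lit 60704992533) (nat_lit 1) (nat_lit 5) (nat_lit 3) (nat_lit 4) (nat_lit 1) (nat_lit 4) (nat_lit 236) (nat_lit 183) (nat_lit 181)) (XT.lf (nat_lit 0) (nat_lit 72281045572) (nat_lit 152) (nat_lit 101535462153) (nat_lit 0) (nat_lit 71765828774) (nat_lit 1) (nat_lit 5) (nat_lit 3) (nat_lit 4) (nat_lit 1) (nat_lit 4) (nat_lit 237) (nat_lit 183) (nat_lit 180)))) (XT.nd (nat_lit 156) (nat_lit 0) (nat_lit 0) (XT.nd (nat_lit 78) (nat_lit 0) (nat_lit 0) (XT.lf (nat_lit 0) (nat_lit 84997905810) (nat_lit 152) (nat_lit 112896001550) (nat_lit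 0) (nat_lit 84353671126) (nat_lit 1) (nat_lit 5) (nat_lit 3) (nat_lit 4) (nat_lit 1) (nat_lit 4) (nat_lit 238) (nat_lit 183) (nat_lit 179)) (XT.lf (nat_lit 0) (nat_lit 99471227612) (nat_lit 152) (nat_lit 126238954545) (nat_lit 0) (nat_lit 98714803463) (nat_lit 1) (nat_lit 5) (nat_lit 3) (nat_lit 4) (nat_lit 1) (nat_lit 4) (nat_lit 239) (nat_lit 183) (nat_lit 178))) (XT.nd (nat_lit 78) (nat_lit 0) (nat_lit 0) (XT.lf (nat_lit 0) (nat_lit 115984184665) (nat_lit 152) (nat_lit 141825378915) (nat_lit 0) (nat_lit 115130204459) (nat_lit 1) (nat_lit 5) (nat_lit 3) (nat_lit 4) (nat_lit 1) (nat_lit 4) (nat_lit 240) (nat_lit 183) (nat_lit 177)) (XT.nd (nat_lit 78) (nat_lit 0) (nat_lit 0) (XT.lf (nat_lit 0) (nat_lit 134859856565) (nat_lit 152) (nat_lit 159960226440) (nat_lit 0) (nat_lit 133921045005) (nat_lit 1) (nat_lit 5) (nat_lit 3) (nat_lit 4) (nat_lit 1) (nat_lit 4) (nat_lit 241) (nat_lit 183)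 (nat_lit 176)) (XT.lf (nat_lit 0) (nat_lit 156467549935) (nat_lit 152) (nat_lit 180998309354) (nat_lit 0) (nat_lit 155454971980) (nat_lit 1) (nat_lit 5) (nat_lit 3) (nat_lit 4) (nat_lit 1) (nat_lit 4) (nat_lit 242) (nat_lit 183) (nat_lit 175)))))) (XT.nd (nat_lit 390) (nat_lit 0) (nat_lit 0) (XT.nd (nat_lit 156) (nat_lit 0) (nat_lit 0) (XT.nd (nat_lit 78) (nat_lit 0) (nat_lit 0) (XT.lf (nat_lit 0) (nat_lit 181230023993) (nat_lit 152) (nat_lit 205351242324) (nat_lit 0) (nat_lit 180153301347) (nat_lit 1) (nat_lit 5) (nat_lit 3) (nat_lit 4) (nat_lit 1) (nat_lit 4) (nat_lit 243) (nat_lit 183) (nat_lit 174)) (XT.lf (nat_lit 0) (nat_lit 209631761927) (nat_lit 152) (nat_lit 233495495776) (nat_lit 0) (nat_lit 208499261289) (nat_lit 1) (nat_lit 5) (nat_lit 3) (nat_lit 4) (nat_lit 1) (nat_lit 4) (nat_lit 244) (nat_lit 183) (nat_lit 173))) (XT.nd (nat_lit 78) (nat_lit 0) (nat_lit 0) (XT.lf (nat_lit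 0) (nat_lit 242228449915) (nat_lit 152) (nat_lit 265981718148) (nat_lit 0) (nat_lit 241047446675) (nat_lit 1) (nat_lit 5) (nat_lit 3) (nat_lit 4) (nat_lit 1) (nat_lit 4) (nat_lit 245) (nat_lit 183) (nat_lit 172)) (XT.nd (nat_lit 78) (nat_lit 0) (nat_lit 0) (XT.lf (nat_lit 0) (nat_lit 279657849244) (nat_lit 152) (nat_lit 303445509444) (nat_lit 0) (nat_lit 278434669828) (nat_lit 1) (nat_lit 5) (nat_lit 3) (nat_lit 4) (nat_lit 1) (nat_lit 4) (nat_lit 246) (nat_lit 183) (nat_lit 171)) (XT.lf (nat_lit 0) (nat_lit 322652274247) (nat_lit 152) (nat_lit 346619856883) (nat_lit 0) (nat_lit 321392419896) (nat_lit 1) (nat_lit 5) (nat_lit 3) (nat_lit 4) (nat_lit 1) (nat_lit 4) (nat_lit 247) (nat_lit 183) (nat_lit 170))))) (XT.nd (nat_lit 156) (nat_lit 0) (nat_lit 0) (XT.nd (nat_lit 78) (nat_lit 0) (nat_lit 0) (XT.lf (nat_lit 0) (nat_lit 372052920196) (nat_lit 152) (nat_lit 396349475959) (nat_lit 0)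 (nat_lit 370761174597) (nat_lit 1) (nat_lit 5) (nat_lit 3) (nat_lit 4) (nat_lit 1) (nat_lit 4) (nat_lit 248) (nat_lit 183) (nat_lit 169)) (XT.lf (nat_lit 0) (nat_lit 428826321469) (nat_lit 152) (nat_lit 453607337481) (nat_lit 0) (nat_lit 427506844350) (nat_lit 1) (nat_lit 5) (nat_lit 3) (nat_lit 4) (nat_lit 1) (nat_lit 4) (nat_lit 249) (nat_lit 183) (nat_lit 168))) (XT.nd (nat_lit 78) (nat_lit 0) (nat_lit 0) (XT.lf (nat_lit 0) (nat_lit 494083262005) (nat_lit 152) (nat_lit 519513703956) (nat_lit 0) (nat_lit 492739670520) (nat_lit 1) (nat_lit 5) (nat_lit 3) (nat_lit 4) (nat_lit 1) (nat_lit 4) (nat_lit 250) (nat_lit 183) (nat_lit 167)) (XT.nd (nat_lit 78) (nat_lit 0) (nat_lit 0) (XT.lf (nat_lit 0) (nat_lit 569100508030) (nat_lit 152) (nat_lit 595358047772) (nat_lit 0) (nat_lit 567735947532) (nat_lit 1) (nat_lit 5) (nat_lit 3) (nat_lit 4) (nat_lit 1) (nat_lit 4) (nat_lit 251) (nat_lit 183)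 (nat_lit 166)) (XT.lf (nat_lit 0) (nat_lit 655345788271) (nat_lit 152) (nat_lit 682624280003) (nat_lit 0) (nat_lit 653962993849) (nat_lit 1) (nat_lit 5) (nat_lit 3) (nat_lit 4) (nat_lit 1) (nat_lit 4) (nat_lit 252) (nat_lit 183) (nat_lit 165))))))))
noncomputable def xc5 : XT := (XT.nd (nat_lit 30498) (nat_lit 0) (nat_lit 0) (XT.nd (nat_lit 29718) (nat_lit 0) (nat_lit 0) (XT.nd (nat_lit 312) (nat_lit 0) (nat_lit 0) (XT.nd (nat_lit 156) (nat_lit 0) (nat_lit 0) (XT.nd (nat_lit 78) (nat_lit 0) (nat_lit 0) (XT.lf (nat_lit 0) (nat_lit 754506510385) (nat_lit 152) (nat_lit 783019783454) (nat_lit 0) (nat_lit 753107860376) (nat_lit 1) (nat_lit 5) (nat_lit 3) (nat_lit 4) (nat_lit 1) (nat_lit 4) (nat_lit 253) (nat_lit 183) (nat_lit 164)) (XT.lf (nat_lit 0) (nat_lit 868522775458) (nat_lit 152) (nat_lit 898508817976) (nat_lit 0) (nat_lit 867110337982) (nat_lit 1) (nat_lit 5) (nat_lit 3) (nat_lit 4)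 (nat_lit 1) (nat_lit 4) (nat_lit 254) (nat_lit 183) (nat_lit 163))) (XT.nd (nat_lit 78) (nat_lit 0) (nat_lit 0) (XT.lf (nat_lit 0) (nat_lit 999625336500) (nat_lit 152) (nat_lit 1031350951634) (nat_lit 0) (nat_lit 998200909924) (nat_lit 1) (nat_lit 5) (nat_lit 3) (nat_lit 4) (nat_lit 1) (nat_lit 4) (nat_lit 255) (nat_lit 183) (nat_lit 162)) (XT.lf (nat_lit 0) (nat_lit 1150379243621) (nat_lit 152) (nat_lit 1184145269653) (nat_lit 0) (nat_lit 1148944391738) (nat_lit 1) (nat_lit 5) (nat_lit 3) (nat_lit 4) (nat_lit 1) (nat_lit 4) (nat_lit 256) (nat_lit 183) (nat_lit 161)))) (XT.nd (nat_lit 156) (nat_lit 0) (nat_lit 0) (XT.nd (nat_lit 78) (nat_lit 0) (nat_lit 0) (XT.lf (nat_lit 0) (nat_lit 1323734029784) (nat_lit 152) (nat_lit 1359881226081) (nat_lit 0) (nat_lit 1322290112419) (nat_lit 1) (nat_lit 5) (nat_lit 3) (nat_lit 4) (nat_lit 1) (nat_lit 4) (nat_lit 257) (nat_lit 183) (nat_lit 160))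 (XT.lf (nat_lit 0) (nat_lit 1523081419068) (nat_lit 152) (nat_lit 1561997133109) (nat_lit 0) (nat_lit 1521629618673) (nat_lit 1) (nat_lit 5) (nat_lit 3) (nat_lit 4) (nat_lit 1) (nat_lit 4) (nat_lit 258) (nat_lit 183) (nat_lit 159))) (XT.nd (nat_lit 78) (nat_lit 0) (nat_lit 0) (XT.lf (nat_lit 0) (nat_lit 1752321686479) (nat_lit 152) (nat_lit 1794447432396) (nat_lit 0) (nat_lit 1750863031277) (nat_lit 1) (nat_lit 5) (nat_lit 3) (nat_lit 4) (nat_lit 1) (nat_lit 4) (nat_lit 259) (nat_lit 183) (nat_lit 158)) (XT.nd (nat_lit 29094) (nat_lit 0) (nat_lit 0) (XT.lf (nat_lit 0) (nat_lit 2015939967686) (nat_lit 152) (nat_lit 2061780064580) (nat_lit 0) (nat_lit 2014475351781) (nat_lit 1) (nat_lit 5) (nat_lit 3) (nat_lit 4) (nat_lit 1) (nat_lit 4) (nat_lit 260) (nat_lit 183) (nat_lit 157)) (XT.lf (nat_lit 0) (nat_lit 13824023408) (nat_lit 152) (nat_lit 33780688738) (nat_lit 0) (nat_lit 13824023408)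 (nat_lit 1) (nat_lit 5) (nat_lit 3) (nat_lit 4) (nat_lit 1) (nat_lit 4) (nat_lit 232) (nat_lit 184) (nat_lit 184)))))) (XT.nd (nat_lit 390) (nat_lit 0) (nat_lit 0) (XT.nd (nat_lit 156) (nat_lit 0) (nat_lit 0) (XT.nd (nat_lit 78) (nat_lit 0) (nat_lit 0) (XT.lf (nat_lit 0) (nat_lit 34644922176) (nat_lit 152) (nat_lit 71967127364) (nat_lit 0) (nat_lit 34419269088) (nat_lit 1) (nat_lit 5) (nat_lit 3) (nat_lit 4) (nat_lit 1) (nat_lit 4) (nat_lit 233) (nat_lit 184) (nat_lit 183)) (XT.lf (nat_lit 0) (nat_lit 42427110886) (nat_lit 152) (nat_lit 77520545345) (nat_lit 0) (nat_lit 42005237722) (nat_lit 1) (nat_lit 5) (nat_lit 3) (nat_lit 4) (nat_lit 1) (nat_lit 4) (nat_lit 234) (nat_lit 184) (nat_lit 182))) (XT.nd (nat_lit 78) (nat_lit 0) (nat_lit 0) (XT.lf (nat_lit 0) (nat_lit 51146873163) (nat_lit 152) (nat_lit 84330285252) (nat_lit 0) (nat_lit 50554373845) (nat_lit 1) (nat_lit 5) (nat_lit 3)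 (nat_lit 4) (nat_lit 1) (nat_lit 4) (nat_lit 235) (nat_lit 184) (nat_lit 181)) (XT.nd (nat_lit 78) (nat_lit 0) (nat_lit 0) (XT.lf (nat_lit 0) (nat_lit 60974813049) (nat_lit 152) (nat_lit 92529581126) (nat_lit 0) (nat_lit 60233943163) (nat_lit 1) (nat_lit 5) (nat_lit 3) (nat_lit 4) (nat_lit 1) (nat_lit 4) (nat_lit 236) (nat_lit 184) (nat_lit 180)) (XT.lf (nat_lit 0) (nat_lit 72103216327) (nat_lit 152) (nat_lit 102278853972) (nat_lit 0) (nat_lit 71233328555) (nat_lit 1) (nat_lit 5) (nat_lit 3) (nat_lit 4) (nat_lit 1) (nat_lit 4) (nat_lit 237) (nat_lit 184) (nat_lit 179))))) (XT.nd (nat_lit 156) (nat_lit 0) (nat_lit 0) (XT.nd (nat_lit 78) (nat_lit 0) (nat_lit 0) (XT.lf (nat_lit 0) (nat_lit 84749812624) (nat_lit 152) (nat_lit 113768850434) (nat_lit 0) (nat_lit 83767735387) (nat_lit 1) (nat_lit 5) (nat_lit 3) (nat_lit 4) (nat_lit 1) (nat_lit 4) (nat_lit 238) (nat_lit 184) (nat_lit 178)) (XT.lf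 (nat_lit 0) (nat_lit 99162035348) (nat_lit 152) (nat_lit 127224374790) (nat_lit 0) (nat_lit 98082402054) (nat_lit 1) (nat_lit 5) (nat_lit 3) (nat_lit 4) (nat_lit 1) (nat_lit 4) (nat_lit 239) (nat_lit 184) (nat_lit 177))) (XT.nd (nat_lit 78) (nat_lit 0) (nat_lit 0) (XT.lf (nat_lit 0) (nat_lit 115621862768) (nat_lit 152) (nat_lit 142908687299) (nat_lit 0) (nat_lit 114457398120) (nat_lit 1) (nat_lit 5) (nat_lit 3) (nat_lit 4) (nat_lit 1) (nat_lit 4) (nat_lit 240) (nat_lit 184) (nat_lit 176)) (XT.nd (nat_lit 78) (nat_lit 0) (nat_lit 0) (XT.lf (nat_lit 0) (nat_lit 134451334986) (nat_lit 152) (nat_lit 161128654945) (nat_lit 0) (nat_lit 133213103944) (nat_lit 1) (nat_lit 5) (nat_lit 3) (nat_lit 4) (nat_lit 1) (nat_lit 4) (nat_lit 241) (nat_lit 184) (nat_lit 175)) (XT.lf (nat_lit 0) (nat_lit 156018854720) (nat_lit 152) (nat_lit 182240755356) (nat_lit 0) (nat_lit 154716478986) (nat_lit 1) (nat_lit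 5) (nat_lit 3) (nat_lit 4) (nat_lit 1) (nat_lit 4) (nat_lit 242) (nat_lit 184) (nat_lit 174))))))) (XT.nd (nat_lit 702) (nat_lit 0) (nat_lit 0) (XT.nd (nat_lit 312) (nat_lit 0) (nat_lit 0) (XT.nd (nat_lit 156) (nat_lit 0) (nat_lit 0) (XT.nd (nat_lit 78) (nat_lit 0) (nat_lit 0) (XT.lf (nat_lit 0) (nat_lit 180746395182) (nat_lit 152) (nat_lit 206658051366) (nat_lit 0) (nat_lit 179388241456) (nat_lit 1) (nat_lit 5) (nat_lit 3) (nat_lit 4) (nat_lit 1) (nat_lit 4) (nat_lit 243) (nat_lit 184) (nat_lit 173)) (XT.lf (nat_lit 0) (nat_lit 209117756076) (nat_lit 152) (nat_lit 234858272680) (nat_lit 0) (nat_lit 207711099748) (nat_lit 1) (nat_lit 5) (nat_lit 3) (nat_lit 4) (nat_lit 1) (nat_lit 4) (nat_lit 244) (nat_lit 184) (nat_lit 172))) (XT.nd (nat_lit 78) (nat_lit 0) (nat_lit 0) (XT.lf (nat_lit 0) (nat_lit 241688029247) (nat_lit 152) (nat_lit 267393162758) (nat_lit 0) (nat_lit 240239196743) (nat_lit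 1) (nat_lit 5) (nat_lit 3) (nat_lit 4) (nat_lit 1) (nat_lit 4) (nat_lit 245) (nat_lit 184) (nat_lit 171)) (XT.lf (nat_lit 0) (nat_lit 279094459168) (nat_lit 152) (nat_lit 304899273797) (nat_lit 0) (nat_lit 277608951729) (nat_lit 1) (nat_lit 5) (nat_lit 3) (nat_lit 4) (nat_lit 1) (nat_lit 4) (nat_lit 246) (nat_lit 184) (nat_lit 170)))) (XT.nd (nat_lit 156) (nat_lit 0) (nat_lit 0) (XT.nd (nat_lit 78) (nat_lit 0) (nat_lit 0) (XT.lf (nat_lit 0) (nat_lit 322068910774) (nat_lit 152) (nat_lit 348110421014) (nat_lit 0) (nat_lit 320551512087) (nat_lit 1) (nat_lit 5) (nat_lit 3) (nat_lit 4) (nat_lit 1) (nat_lit 4) (nat_lit 247) (nat_lit 184) (nat_lit 169)) (XT.lf (nat_lit 0) (nat_lit 371452188552) (nat_lit 152) (nat_lit 397872039896) (nat_lit 0) (nat_lit 369907058345) (nat_lit 1) (nat_lit 5) (nat_lit 3) (nat_lit 4) (nat_lit 1) (nat_lit 4) (nat_lit 248) (nat_lit 184) (nat_lit 168))) (XT.nd (nat_lit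 78) (nat_lit 0) (nat_lit 0) (XT.lf (nat_lit 0) (nat_lit 428210487068) (nat_lit 152) (nat_lit 455157727337) (nat_lit 0) (nat_lit 426641242495) (nat_lit 1) (nat_lit 5) (nat_lit 3) (nat_lit 4) (nat_lit 1) (nat_lit 4) (nat_lit 249) (nat_lit 184) (nat_lit 167)) (XT.nd (nat_lit 78) (nat_lit 0) (nat_lit 0) (XT.lf (nat_lit 0) (nat_lit 493454294770) (nat_lit 152) (nat_lit 521088290263) (nat_lit 0) (nat_lit 491864081184) (nat_lit 1) (nat_lit 5) (nat_lit 3) (nat_lit 4) (nat_lit 1) (nat_lit 4) (nat_lit 250) (nat_lit 184) (nat_lit 166)) (XT.lf (nat_lit 0) (nat_lit 568460120940) (nat_lit 152) (nat_lit 596953674471) (nat_lit 0) (nat_lit 566851673430) (nat_lit 1) (nat_lit 5) (nat_lit 3) (nat_lit 4) (nat_lit 1) (nat_lit 4) (nat_lit 251) (nat_lit 184) (nat_lit 165)))))) (XT.nd (nat_lit 390) (nat_lit 0) (nat_lit 0) (XT.nd (nat_lit 156) (nat_lit 0) (nat_lit 0) (XT.nd (nat_lit 78) (nat_lit 0) (nat_lit 0)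 (XT.lf (nat_lit 0) (nat_lit 654695470873) (nat_lit 152) (nat_lit 684238202695) (nat_lit 0) (nat_lit 653071167776) (nat_lit 1) (nat_lit 5) (nat_lit 3) (nat_lit 4) (nat_lit 1) (nat_lit 4) (nat_lit 252) (nat_lit 184) (nat_lit 164)) (XT.lf (nat_lit 0) (nat_lit 753847557937) (nat_lit 152) (nat_lit 784649615706) (nat_lit 0) (nat_lit 752209467373) (nat_lit 1) (nat_lit 5) (nat_lit 3) (nat_lit 4) (nat_lit 1) (nat_lit 4) (nat_lit 253) (nat_lit 184) (nat_lit 163))) (XT.nd (nat_lit 78) (nat_lit 0) (nat_lit 0) (XT.lf (nat_lit 0) (nat_lit 867856314269) (nat_lit 152) (nat_lit 900152484627) (nat_lit 0) (nat_lit 866206234605) (nat_lit 1) (nat_lit 5) (nat_lit 3) (nat_lit 4) (nat_lit 1) (nat_lit 4) (nat_lit 254) (nat_lit 184) (nat_lit 162)) (XT.nd (nat_lit 78) (nat_lit 0) (nat_lit 0) (XT.lf (nat_lit 0) (nat_lit 998952345973) (nat_lit 152) (nat_lit 1033006648198) (nat_lit 0) (nat_lit 997291841003) (nat_lit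 1) (nat_lit 5) (nat_lit 3) (nat_lit 4) (nat_lit 1) (nat_lit 4) (nat_lit 255) (nat_lit 184) (nat_lit 161)) (XT.lf (nat_lit 0) (nat_lit 1149700575408) (nat_lit 152) (nat_lit 1185811427010) (nat_lit 0) (nat_lit 1148031004954) (nat_lit 1) (nat_lit 5) (nat_lit 3) (nat_lit 4) (nat_lit 1) (nat_lit 4) (nat_lit 256) (nat_lit 184) (nat_lit 160))))) (XT.nd (nat_lit 156) (nat_lit 0) (nat_lit 0) (XT.nd (nat_lit 78) (nat_lit 0) (nat_lit 0) (XT.lf (nat_lit 0) (nat_lit 1323050424453) (nat_lit 152) (nat_lit 1361556479780) (nat_lit 0) (nat_lit 1321372970970) (nat_lit 1) (nat_lit 5) (nat_lit 3) (nat_lit 4) (nat_lit 1) (nat_lit 4) (nat_lit 257) (nat_lit 184) (nat_lit 159)) (XT.lf (nat_lit 0) (nat_lit 1522393520590) (nat_lit 152) (nat_lit 1563680296671) (nat_lit 0) (nat_lit 1520709212300) (nat_lit 1) (nat_lit 5) (nat_lit 3) (nat_lit 4) (nat_lit 1) (nat_lit 4) (nat_lit 258) (nat_lit 184) (nat_lit 158))) (XT.nd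 (nat_lit 78) (nat_lit 0) (nat_lit 0) (XT.lf (nat_lit 0) (nat_lit 1751630054831) (nat_lit 152) (nat_lit 1796137474099) (nat_lit 0) (nat_lit 1749939785838) (nat_lit 1) (nat_lit 5) (nat_lit 3) (nat_lit 4) (nat_lit 1) (nat_lit 4) (nat_lit 259) (nat_lit 184) (nat_lit 157)) (XT.nd (nat_lit 28938) (nat_lit 0) (nat_lit 0) (XT.lf (nat_lit 0) (nat_lit 2015245089801) (nat_lit 152) (nat_lit 2063476087276) (nat_lit 0) (nat_lit 2013549637590) (nat_lit 1) (nat_lit 5) (nat_lit 3) (nat_lit 4) (nat_lit 1) (nat_lit 4) (nat_lit 260) (nat_lit 184) (nat_lit 156)) (XT.lf (nat_lit 0) (nat_lit 7948683429) (nat_lit 152) (nat_lit 30784704989) (nat_lit 0) (nat_lit 7948683429) (nat_lit 1) (nat_lit 5) (nat_lit 3) (nat_lit 4) (nat_lit 1) (nat_lit 4) (nat_lit 230) (nat_lit 185) (nat_lit 185))))))))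
noncomputable def xc6 : XT := (XT.nd (nat_lit 1482) (nat_lit 0) (nat_lit 0) (XT.nd (nat_lit 702) (nat_lit 0) (nat_lit 0) (XT.nd (nat_lit 312) (nat_lit 0) (nat_lit 0) (XT.nd (nat_lit 156) (nat_lit 0) (nat_lit 0) (XT.nd (nat_lit 78) (nat_lit 0) (nat_lit 0) (XT.lf (nat_lit 0) (nat_lit 21559090474) (nat_lit 152) (nat_lit 64217096230) (nat_lit 0) (nat_lit 21299589423) (nat_lit 1) (nat_lit 5) (nat_lit 3) (nat_lit 4) (nat_lit 1) (nat_lit 4) (nat_lit 231) (nat_lit 185) (nat_lit 184)) (XT.lf (nat_lit 0) (nat_lit 27766221987) (nat_lit 152) (nat_lit 67821761874) (nat_lit 0) (nat_lit 27281067848) (nat_lit 1) (nat_lit 5) (nat_lit 3) (nat_lit 4) (nat_lit 1) (nat_lit 4) (nat_lit 232) (nat_lit 185) (nat_lit 183))) (XT.nd (nat_lit 78) (nat_lit 0) (nat_lit 0) (XT.lf (nat_lit 0) (nat_lit 34640205275) (nat_lit 152) (nat_lit 72453932975) (nat_lit 0) (nat_lit 33958831060) (nat_lit 1) (nat_lit 5) (nat_lit 3)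 (nat_lit 4) (nat_lit 1) (nat_lit 4) (nat_lit 233) (nat_lit 185) (nat_lit 182)) (XT.lf (nat_lit 0) (nat_lit 42315531316) (nat_lit 152) (nat_lit 78204238970) (nat_lit 0) (nat_lit 41463530947) (nat_lit 1) (nat_lit 5) (nat_lit 3) (nat_lit 4) (nat_lit 1) (nat_lit 4) (nat_lit 234) (nat_lit 185) (nat_lit 181)))) (XT.nd (nat_lit 156) (nat_lit 0) (nat_lit 0) (XT.nd (nat_lit 78) (nat_lit 0) (nat_lit 0) (XT.lf (nat_lit 0) (nat_lit 50942369531) (nat_lit 152) (nat_lit 85185185845) (nat_lit 0) (nat_lit 49941998594) (nat_lit 1) (nat_lit 5) (nat_lit 3) (nat_lit 4) (nat_lit 1) (nat_lit 4) (nat_lit 235) (nat_lit 185) (nat_lit 180)) (XT.lf (nat_lit 0) (nat_lit 60689505886) (nat_lit 152) (nat_lit 93533357342) (nat_lit 0) (nat_lit 59560117064) (nat_lit 1) (nat_lit 5) (nat_lit 3) (nat_lit 4) (nat_lit 1) (nat_lit 4) (nat_lit 236) (nat_lit 185) (nat_lit 179))) (XT.nd (nat_lit 78) (nat_lit 0) (nat_lit 0) (XT.lf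 (nat_lit 0) (nat_lit 71747645224) (nat_lit 152) (nat_lit 103412087253) (nat_lit 0) (nat_lit 70506066935) (nat_lit 1) (nat_lit 5) (nat_lit 3) (nat_lit 4) (nat_lit 1) (nat_lit 4) (nat_lit 237) (nat_lit 185) (nat_lit 178)) (XT.nd (nat_lit 78) (nat_lit 0) (nat_lit 0) (XT.lf (nat_lit 0) (nat_lit 84333142443) (nat_lit 152) (nat_lit 115014655075) (nat_lit 0) (nat_lit 82994008097) (nat_lit 1) (nat_lit 5) (nat_lit 3) (nat_lit 4) (nat_lit 1) (nat_lit 4) (nat_lit 238) (nat_lit 185) (nat_lit 177)) (XT.lf (nat_lit 0) (nat_lit 98692235533) (nat_lit 152) (nat_lit 128568067570) (nat_lit 0) (nat_lit 97268269833) (nat_lit 1) (nat_lit 5) (nat_lit 3) (nat_lit 4) (nat_lit 1) (nat_lit 4) (nat_lit 239) (nat_lit 185) (nat_lit 176)))))) (XT.nd (nat_lit 390) (nat_lit 0) (nat_lit 0) (XT.nd (nat_lit 156) (nat_lit 0) (nat_lit 0) (XT.nd (nat_lit 78) (nat_lit 0) (nat_lit 0) (XT.lf (nat_lit 0) (nat_lit 115105863271)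 (nat_lit 152) (nat_lit 144337500201) (nat_lit 0) (nat_lit 113608131178) (nat_lit 1) (nat_lit 5) (nat_lit 3) (nat_lit 4) (nat_lit 1) (nat_lit 4) (nat_lit 240) (nat_lit 185) (nat_lit 175)) (XT.lf (nat_lit 0) (nat_lit 133895161854) (nat_lit 152) (nat_lit 162631485344) (nat_lit 0) (nat_lit 132333285069) (nat_lit 1) (nat_lit 5) (nat_lit 3) (nat_lit 4) (nat_lit 1) (nat_lit 4) (nat_lit 241) (nat_lit 185) (nat_lit 174))) (XT.nd (nat_lit 78) (nat_lit 0) (nat_lit 0) (XT.lf (nat_lit 0) (nat_lit 155427747991) (nat_lit 152) (nat_lit 183807948795) (nat_lit 0) (nat_lit 153810093214) (nat_lit 1) (nat_lit 5) (nat_lit 3) (nat_lit 4) (nat_lit 1) (nat_lit 4) (nat_lit 242) (nat_lit 185) (nat_lit 173)) (XT.nd (nat_lit 78) (nat_lit 0) (nat_lit 0) (XT.lf (nat_lit 0) (nat_lit 180124911413) (nat_lit 152) (nat_lit 208281212667) (nat_lit 0) (nat_lit 178458754034) (nat_lit 1) (nat_lit 5) (nat_lit 3) (nat_lit 4) (nat_lit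 1) (nat_lit 4) (nat_lit 243) (nat_lit 185) (nat_lit 172)) (XT.lf (nat_lit 0) (nat_lit 208469857489) (nat_lit 152) (nat_lit 236530101687) (nat_lit 0) (nat_lit 206761523935) (nat_lit 1) (nat_lit 5) (nat_lit 3) (nat_lit 4) (nat_lit 1) (nat_lit 4) (nat_lit 244) (nat_lit 185) (nat_lit 171))))) (XT.nd (nat_lit 156) (nat_lit 0) (nat_lit 0) (XT.nd (nat_lit 78) (nat_lit 0) (nat_lit 0) (XT.lf (nat_lit 0) (nat_lit 241017161253) (nat_lit 152) (nat_lit 269107311508) (nat_lit 0) (nat_lit 239272152763) (nat_lit 1) (nat_lit 5) (nat_lit 3) (nat_lit 4) (nat_lit 1) (nat_lit 4) (nat_lit 245) (nat_lit 185) (nat_lit 170)) (XT.lf (nat_lit 0) (nat_lit 278403617777) (nat_lit 152) (nat_lit 306650222325) (nat_lit 0) (nat_lit 276626718039) (nat_lit 1) (nat_lit 5) (nat_lit 3) (nat_lit 4) (nat_lit 1) (nat_lit 4) (nat_lit 246) (nat_lit 185) (nat_lit 169))) (XT.nd (nat_lit 78) (nat_lit 0) (nat_lit 0) (XT.lf (nat_lit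 0) (nat_lit 321360701212) (nat_lit 152) (nat_lit 349893369348) (nat_lit 0) (nat_lit 319556069953) (nat_lit 1) (nat_lit 5) (nat_lit 3) (nat_lit 4) (nat_lit 1) (nat_lit 4) (nat_lit 247) (nat_lit 185) (nat_lit 168)) (XT.nd (nat_lit 78) (nat_lit 0) (nat_lit 0) (XT.lf (nat_lit 0) (nat_lit 370728876232) (nat_lit 152) (nat_lit 399682814149) (nat_lit 0) (nat_lit 368900130609) (nat_lit 1) (nat_lit 5) (nat_lit 3) (nat_lit 4) (nat_lit 1) (nat_lit 4) (nat_lit 248) (nat_lit 185) (nat_lit 167)) (XT.lf (nat_lit 0) (nat_lit 427474041915) (nat_lit 152) (nat_lit 456992698041) (nat_lit 0) (nat_lit 425624327278) (nat_lit 1) (nat_lit 5) (nat_lit 3) (nat_lit 4) (nat_lit 1) (nat_lit 4) (nat_lit 249) (nat_lit 185) (nat_lit 166))))))) (XT.nd (nat_lit 702) (nat_lit 0) (nat_lit 0) (XT.nd (nat_lit 312) (nat_lit 0) (nat_lit 0) (XT.nd (nat_lit 156) (nat_lit 0) (nat_lit 0) (XT.nd (nat_lit 78) (nat_lit 0) (nat_lit 0)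 (XT.lf (nat_lit 0) (nat_lit 492706429763) (nat_lit 152) (nat_lit 522944301359) (nat_lit 0) (nat_lit 490838481201) (nat_lit 1) (nat_lit 5) (nat_lit 3) (nat_lit 4) (nat_lit 1) (nat_lit 4) (nat_lit 250) (nat_lit 185) (nat_lit 165)) (XT.lf (nat_lit 0) (nat_lit 567702325625) (nat_lit 152) (nat_lit 598827981560) (nat_lit 0) (nat_lit 565818521477) (nat_lit 1) (nat_lit 5) (nat_lit 3) (nat_lit 4) (nat_lit 1) (nat_lit 4) (nat_lit 251) (nat_lit 185) (nat_lit 164))) (XT.nd (nat_lit 78) (nat_lit 0) (nat_lit 0) (XT.lf (nat_lit 0) (nat_lit 653929040507) (nat_lit 152) (nat_lit 686128419344) (nat_lit 0) (nat_lit 652031448892) (nat_lit 1) (nat_lit 5) (nat_lit 3) (nat_lit 4) (nat_lit 1) (nat_lit 4) (nat_lit 252) (nat_lit 185) (nat_lit 163)) (XT.lf (nat_lit 0) (nat_lit 753073618831) (nat_lit 152) (nat_lit 786553666754) (nat_lit 0) (nat_lit 751164038114) (nat_lit 1) (nat_lit 5) (nat_lit 3) (nat_lit 4) (nat_lit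 1) (nat_lit 4) (nat_lit 253) (nat_lit 185) (nat_lit 162)))) (XT.nd (nat_lit 156) (nat_lit 0) (nat_lit 0) (XT.nd (nat_lit 78) (nat_lit 0) (nat_lit 0) (XT.lf (nat_lit 0) (nat_lit 867075845824) (nat_lit 152) (nat_lit 902068565587) (nat_lit 0) (nat_lit 865155839803) (nat_lit 1) (nat_lit 5) (nat_lit 3) (nat_lit 4) (nat_lit 1) (nat_lit 4) (nat_lit 254) (nat_lit 185) (nat_lit 161)) (XT.lf (nat_lit 0) (nat_lit 998166199842) (nat_lit 152) (nat_lit 1034933189952) (nat_lit 0) (nat_lit 996237128337) (nat_lit 1) (nat_lit 5) (nat_lit 3) (nat_lit 4) (nat_lit 1) (nat_lit 4) (nat_lit 255) (nat_lit 185) (nat_lit 160))) (XT.nd (nat_lit 78) (nat_lit 0) (nat_lit 0) (XT.lf (nat_lit 0) (nat_lit 1148909492158) (nat_lit 152) (nat_lit 1187747065106) (nat_lit 0) (nat_lit 1146972537624) (nat_lit 1) (nat_lit 5) (nat_lit 3) (nat_lit 4) (nat_lit 1) (nat_lit 4) (nat_lit 256) (nat_lit 185) (nat_lit 159)) (XT.nd (nat_lit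 78) (nat_lit 0) (nat_lit 0) (XT.lf (nat_lit 0) (nat_lit 1322255048057) (nat_lit 152) (nat_lit 1363500027739) (nat_lit 0) (nat_lit 1320311238716) (nat_lit 1) (nat_lit 5) (nat_lit 3) (nat_lit 4) (nat_lit 1) (nat_lit 4) (nat_lit 257) (nat_lit 185) (nat_lit 158)) (XT.lf (nat_lit 0) (nat_lit 1521594411023) (nat_lit 152) (nat_lit 1565630722771) (nat_lit 0) (nat_lit 1519644640980) (nat_lit 1) (nat_lit 5) (nat_lit 3) (nat_lit 4) (nat_lit 1) (nat_lit 4) (nat_lit 258) (nat_lit 185) (nat_lit 157)))))) (XT.nd (nat_lit 29094) (nat_lit 0) (nat_lit 0) (XT.nd (nat_lit 28860) (nat_lit 0) (nat_lit 0) (XT.nd (nat_lit 78) (nat_lit 0) (nat_lit 0) (XT.lf (nat_lit 0) (nat_lit 1750827699029) (nat_lit 152) (nat_lit 1798093881192) (nat_lit 0) (nat_lit 1748872745766) (nat_lit 1) (nat_lit 5) (nat_lit 3) (nat_lit 4) (nat_lit 1) (nat_lit 4) (nat_lit 259) (nat_lit 185) (nat_lit 156)) (XT.lf (nat_lit 0) (nat_lit 2014439911186)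 (nat_lit 152) (nat_lit 2065437695232) (nat_lit 0) (nat_lit 2012480450776) (nat_lit 1) (nat_lit 5) (nat_lit 3) (nat_lit 4) (nat_lit 1) (nat_lit 4) (nat_lit 260) (nat_lit 185) (nat_lit 155))) (XT.nd (nat_lit 78) (nat_lit 0) (nat_lit 0) (XT.lf (nat_lit 0) (nat_lit 3130442662) (nat_lit 152) (nat_lit 29305558518) (nat_lit 0) (nat_lit 3130442662) (nat_lit 1) (nat_lit 5) (nat_lit 3) (nat_lit 4) (nat_lit 1) (nat_lit 4) (nat_lit 228) (nat_lit 186) (nat_lit 186)) (XT.nd (nat_lit 78) (nat_lit 0) (nat_lit 0) (XT.lf (nat_lit 0) (nat_lit 10968704497) (nat_lit 152) (nat_lit 59826900560) (nat_lit 0) (nat_lit 10670278288) (nat_lit 1) (nat_lit 5) (nat_lit 3) (nat_lit 4) (nat_lit 1) (nat_lit 4) (nat_lit 229) (nat_lit 186) (nat_lit 185)) (XT.lf (nat_lit 0) (nat_lit 16033268304) (nat_lit 152) (nat_lit 61868852035) (nat_lit 0) (nat_lit 15475341045) (nat_lit 1) (nat_lit 5) (nat_lit 3) (nat_lit 4) (nat_lit 1)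 (nat_lit 4) (nat_lit 230) (nat_lit 186) (nat_lit 184))))) (XT.nd (nat_lit 156) (nat_lit 0) (nat_lit 0) (XT.nd (nat_lit 78) (nat_lit 0) (nat_lit 0) (XT.lf (nat_lit 0) (nat_lit 21553666038) (nat_lit 152) (nat_lit 64776922684) (nat_lit 0) (nat_lit 20770085691) (nat_lit 1) (nat_lit 5) (nat_lit 3) (nat_lit 4) (nat_lit 1) (nat_lit 4) (nat_lit 231) (nat_lit 186) (nat_lit 183)) (XT.lf (nat_lit 0) (nat_lit 27637905481) (nat_lit 152) (nat_lit 68608009542) (nat_lit 0) (nat_lit 26658105056) (nat_lit 1) (nat_lit 5) (nat_lit 3) (nat_lit 4) (nat_lit 1) (nat_lit 4) (nat_lit 232) (nat_lit 186) (nat_lit 182))) (XT.nd (nat_lit 78) (nat_lit 0) (nat_lit 0) (XT.lf (nat_lit 0) (nat_lit 34405026099) (nat_lit 152) (nat_lit 73437068657) (nat_lit 0) (nat_lit 33254599521) (nat_lit 1) (nat_lit 5) (nat_lit 3) (nat_lit 4) (nat_lit 1) (nat_lit 4) (nat_lit 233) (nat_lit 186) (nat_lit 181)) (XT.nd (nat_lit 78) (nat_lit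 0) (nat_lit 0) (XT.lf (nat_lit 0) (nat_lit 41987428078) (nat_lit 152) (nat_lit 79358581619) (nat_lit 0) (nat_lit 40688630932) (nat_lit 1) (nat_lit 5) (nat_lit 3) (nat_lit 4) (nat_lit 1) (nat_lit 4) (nat_lit 234) (nat_lit 186) (nat_lit 180)) (XT.lf (nat_lit 0) (nat_lit 50533462762) (nat_lit 152) (nat_lit 86488404118) (nat_lit 0) (nat_lit 49105647731) (nat_lit 1) (nat_lit 5) (nat_lit 3) (nat_lit 4) (nat_lit 1) (nat_lit 4) (nat_lit 235) (nat_lit 186) (nat_lit 179))))))))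
noncomputable def xc7 : XT := (XT.nd (nat_lit 1482) (nat_lit 0) (nat_lit 0) (XT.nd (nat_lit 702) (nat_lit 0) (nat_lit 0) (XT.nd (nat_lit 312) (nat_lit 0) (nat_lit 0) (XT.nd (nat_lit 156) (nat_lit 0) (nat_lit 0) (XT.nd (nat_lit 78) (nat_lit 0) (nat_lit 0) (XT.lf (nat_lit 0) (nat_lit 60210335177) (nat_lit 152) (nat_lit 94966032680) (nat_lit 0) (nat_lit 58670330680) (nat_lit 1) (nat_lit 5) (nat_lit 3) (nat_lit 4) (nat_lit 1) (nat_lit 4) (nat_lit 236) (nat_lit 186) (nat_lit 178)) (XT.lf (nat_lit 0) (nat_lit 71207375436) (nat_lit 152) (nat_lit 104957333951) (nat_lit 0) (nat_lit 69569814882) (nat_lit 1) (nat_lit 5) (nat_lit 3) (nat_lit 4) (nat_lit 1) (nat_lit 4) (nat_lit 237) (nat_lit 186) (nat_lit 177))) (XT.nd (nat_lit 78) (nat_lit 0) (nat_lit 0) (XT.lf (nat_lit 0) (nat_lit 83739743022) (nat_lit 152) (nat_lit 116657789912) (nat_lit 0) (nat_lit 82017351114) (nat_lit 1) (nat_lit 5) (nat_lit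 3) (nat_lit 4) (nat_lit 1) (nat_lit 4) (nat_lit 238) (nat_lit 186) (nat_lit 176)) (XT.lf (nat_lit 0) (nat_lit 98052636430) (nat_lit 152) (nat_lit 130296322529) (nat_lit 0) (nat_lit 96256478128) (nat_lit 1) (nat_lit 5) (nat_lit 3) (nat_lit 4) (nat_lit 1) (nat_lit 4) (nat_lit 239) (nat_lit 186) (nat_lit 175)))) (XT.nd (nat_lit 156) (nat_lit 0) (nat_lit 0) (XT.nd (nat_lit 78) (nat_lit 0) (nat_lit 0) (XT.lf (nat_lit 0) (nat_lit 114426090533) (nat_lit 152) (nat_lit 146139772656) (nat_lit 0) (nat_lit 112565787540) (nat_lit 1) (nat_lit 5) (nat_lit 3) (nat_lit 4) (nat_lit 1) (nat_lit 4) (nat_lit 240) (nat_lit 186) (nat_lit 174)) (XT.lf (nat_lit 0) (nat_lit 133180455519) (nat_lit 152) (nat_lit 164498120840) (nat_lit 0) (nat_lit 131264374533) (nat_lit 1) (nat_lit 5) (nat_lit 3) (nat_lit 4) (nat_lit 1) (nat_lit 4) (nat_lit 241) (nat_lit 186) (nat_lit 173))) (XT.nd (nat_lit 78) (nat_lit 0) (nat_lit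 0) (XT.lf (nat_lit 0) (nat_lit 154682664617) (nat_lit 152) (nat_lit 185730552153) (nat_lit 0) (nat_lit 152718081029) (nat_lit 1) (nat_lit 5) (nat_lit 3) (nat_lit 4) (nat_lit 1) (nat_lit 4) (nat_lit 242) (nat_lit 186) (nat_lit 172)) (XT.nd (nat_lit 78) (nat_lit 0) (nat_lit 0) (XT.lf (nat_lit 0) (nat_lit 179353413220) (nat_lit 152) (nat_lit 210252483730) (nat_lit 0) (nat_lit 177346653457) (nat_lit 1) (nat_lit 5) (nat_lit 3) (nat_lit 4) (nat_lit 1) (nat_lit 4) (nat_lit 243) (nat_lit 186) (nat_lit 171)) (XT.lf (nat_lit 0) (nat_lit 207675389890) (nat_lit 152) (nat_lit 238543692494) (nat_lit 0) (nat_lit 205631955191) (nat_lit 1) (nat_lit 5) (nat_lit 3) (nat_lit 4) (nat_lit 1) (nat_lit 4) (nat_lit 244) (nat_lit 186) (nat_lit 170)))))) (XT.nd (nat_lit 390) (nat_lit 0) (nat_lit 0) (XT.nd (nat_lit 156) (nat_lit 0) (nat_lit 0) (XT.nd (nat_lit 78) (nat_lit 0) (nat_lit 0) (XT.lf (nat_lit 0) (nat_lit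 240202720256) (nat_lit 152) (nat_lit 271157702093) (nat_lit 0) (nat_lit 238127394310) (nat_lit 1) (nat_lit 5) (nat_lit 3) (nat_lit 4) (nat_lit 1) (nat_lit 4) (nat_lit 245) (nat_lit 186) (nat_lit 169)) (XT.lf (nat_lit 0) (nat_lit 277571808609) (nat_lit 152) (nat_lit 308732612716) (nat_lit 0) (nat_lit 275468751142) (nat_lit 1) (nat_lit 5) (nat_lit 3) (nat_lit 4) (nat_lit 1) (nat_lit 4) (nat_lit 246) (nat_lit 186) (nat_lit 168))) (XT.nd (nat_lit 78) (nat_lit 0) (nat_lit 0) (XT.lf (nat_lit 0) (nat_lit 320513789286) (nat_lit 152) (nat_lit 352003585658) (nat_lit 0) (nat_lit 318386617454) (nat_lit 1) (nat_lit 5) (nat_lit 3) (nat_lit 4) (nat_lit 1) (nat_lit 4) (nat_lit 247) (nat_lit 186) (nat_lit 167)) (XT.nd (nat_lit 78) (nat_lit 0) (nat_lit 0) (XT.lf (nat_lit 0) (nat_lit 369868831474) (nat_lit 152) (nat_lit 401817226910) (nat_lit 0) (nat_lit 367720690628) (nat_lit 1) (nat_lit 5) (nat_lit 3)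 (nat_lit 4) (nat_lit 1) (nat_lit 4) (nat_lit 248) (nat_lit 186) (nat_lit 166)) (XT.lf (nat_lit 0) (nat_lit 426602577302) (nat_lit 152) (nat_lit 459148151193) (nat_lit 0) (nat_lit 424436202532) (nat_lit 1) (nat_lit 5) (nat_lit 3) (nat_lit 4) (nat_lit 1) (nat_lit 4) (nat_lit 249) (nat_lit 186) (nat_lit 165))))) (XT.nd (nat_lit 156) (nat_lit 0) (nat_lit 0) (XT.nd (nat_lit 78) (nat_lit 0) (nat_lit 0) (XT.lf (nat_lit 0) (nat_lit 491825034841) (nat_lit 152) (nat_lit 525118050505) (nat_lit 0) (nat_lit 489642804484) (nat_lit 1) (nat_lit 5) (nat_lit 3) (nat_lit 4) (nat_lit 1) (nat_lit 4) (nat_lit 250) (nat_lit 186) (nat_lit 164)) (XT.lf (nat_lit 0) (nat_lit 566812295652) (nat_lit 152) (nat_lit 601017640265) (nat_lit 0) (nat_lit 564616277829) (nat_lit 1) (nat_lit 5) (nat_lit 3) (nat_lit 4) (nat_lit 1) (nat_lit 4) (nat_lit 251) (nat_lit 186) (nat_lit 163))) (XT.nd (nat_lit 78) (nat_lit 0) (nat_lit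 0) (XT.lf (nat_lit 0) (nat_lit 653031501795) (nat_lit 152) (nat_lit 688331912448) (nat_lit 0) (nat_lit 650823494870) (nat_lit 1) (nat_lit 5) (nat_lit 3) (nat_lit 4) (nat_lit 1) (nat_lit 4) (nat_lit 252) (nat_lit 186) (nat_lit 162)) (XT.nd (nat_lit 78) (nat_lit 0) (nat_lit 0) (XT.lf (nat_lit 0) (nat_lit 752169550779) (nat_lit 152) (nat_lit 788769189771) (nat_lit 0) (nat_lit 749951118549) (nat_lit 1) (nat_lit 5) (nat_lit 3) (nat_lit 4) (nat_lit 1) (nat_lit 4) (nat_lit 253) (nat_lit 186) (nat_lit 161)) (XT.lf (nat_lit 0) (nat_lit 866166100087) (nat_lit 152) (nat_lit 904294549398) (nat_lit 0) (nat_lit 863938602374) (nat_lit 1) (nat_lit 5) (nat_lit 3) (nat_lit 4) (nat_lit 1) (nat_lit 4) (nat_lit 254) (nat_lit 186) (nat_lit 160))))))) (XT.nd (nat_lit 29250) (nat_lit 0) (nat_lit 0) (XT.nd (nat_lit 312) (nat_lit 0) (nat_lit 0) (XT.nd (nat_lit 156) (nat_lit 0) (nat_lit 0) (XT.nd (nat_lit 78) (nat_lit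 0) (nat_lit 0) (XT.lf (nat_lit 0) (nat_lit 997251516987) (nat_lit 152) (nat_lit 1037168270104) (nat_lit 0) (nat_lit 995016136244) (nat_lit 1) (nat_lit 5) (nat_lit 3) (nat_lit 4) (nat_lit 1) (nat_lit 4) (nat_lit 255) (nat_lit 186) (nat_lit 159)) (XT.lf (nat_lit 0) (nat_lit 1147990516156) (nat_lit 152) (nat_lit 1189990055122) (nat_lit 0) (nat_lit 1145748280606) (nat_lit 1) (nat_lit 5) (nat_lit 3) (nat_lit 4) (nat_lit 1) (nat_lit 4) (nat_lit 256) (nat_lit 186) (nat_lit 158))) (XT.nd (nat_lit 78) (nat_lit 0) (nat_lit 0) (XT.lf (nat_lit 0) (nat_lit 1321332338884) (nat_lit 152) (nat_lit 1365749895896) (nat_lit 0) (nat_lit 1319084142632) (nat_lit 1) (nat_lit 5) (nat_lit 3) (nat_lit 4) (nat_lit 1) (nat_lit 4) (nat_lit 257) (nat_lit 186) (nat_lit 157)) (XT.lf (nat_lit 0) (nat_lit 1520668455615) (nat_lit 152) (nat_lit 1567886571921) (nat_lit 0) (nat_lit 1518415076144) (nat_lit 1) (nat_lit 5) (nat_lit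 3) (nat_lit 4) (nat_lit 1) (nat_lit 4) (nat_lit 258) (nat_lit 186) (nat_lit 156)))) (XT.nd (nat_lit 28704) (nat_lit 0) (nat_lit 0) (XT.nd (nat_lit 78) (nat_lit 0) (nat_lit 0) (XT.lf (nat_lit 0) (nat_lit 1749898920807) (nat_lit 152) (nat_lit 1800354931205) (nat_lit 0) (nat_lit 1747641034188) (nat_lit 1) (nat_lit 5) (nat_lit 3) (nat_lit 4) (nat_lit 1) (nat_lit 4) (nat_lit 259) (nat_lit 186) (nat_lit 155)) (XT.lf (nat_lit 0) (nat_lit 2013508678344) (nat_lit 152) (nat_lit 2067703267735) (nat_lit 0) (nat_lit 2011246872467) (nat_lit 1) (nat_lit 5) (nat_lit 3) (nat_lit 4) (nat_lit 1) (nat_lit 4) (nat_lit 260) (nat_lit 186) (nat_lit 154))) (XT.nd (nat_lit 78) (nat_lit 152) (nat_lit 0) (XT.lf (nat_lit 0) (nat_lit 25352463849) (nat_lit 76) (nat_lit 920905553) (nat_lit 76) (nat_lit 920905553) (nat_lit 3) (nat_lit 4) (nat_lit 4) (nat_lit 5) (nat_lit 4) (nat_lit 4) (nat_lit 226) (nat_lit 187) (nat_lit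 187)) (XT.nd (nat_lit 78) (nat_lit 0) (nat_lit 0) (XT.lf (nat_lit 0) (nat_lit 2160891420) (nat_lit 152) (nat_lit 58197714393) (nat_lit 0) (nat_lit 1817701280) (nat_lit 1) (nat_lit 5) (nat_lit 3) (nat_lit 4) (nat_lit 1) (nat_lit 4) (nat_lit 227) (nat_lit 187) (nat_lit 186)) (XT.lf (nat_lit 0) (nat_lit 6417171986) (nat_lit 152) (nat_lit 58955475401) (nat_lit 0) (nat_lit 5775555637) (nat_lit 1) (nat_lit 5) (nat_lit 3) (nat_lit 4) (nat_lit 1) (nat_lit 4) (nat_lit 228) (nat_lit 187) (nat_lit 185)))))) (XT.nd (nat_lit 390) (nat_lit 0) (nat_lit 0) (XT.nd (nat_lit 156) (nat_lit 0) (nat_lit 0) (XT.nd (nat_lit 78) (nat_lit 0) (nat_lit 0) (XT.lf (nat_lit 0) (nat_lit 10962466396) (nat_lit 152) (nat_lit 60470700982) (nat_lit 0) (nat_lit 10061348996) (nat_lit 1) (nat_lit 5) (nat_lit 3) (nat_lit 4) (nat_lit 1) (nat_lit 4) (nat_lit 229) (nat_lit 187) (nat_lit 184)) (XT.lf (nat_lit 0) (nat_lit 15885704322)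 (nat_lit 152) (nat_lit 62773036853) (nat_lit 0) (nat_lit 14758933834) (nat_lit 1) (nat_lit 5) (nat_lit 3) (nat_lit 4) (nat_lit 1) (nat_lit 4) (nat_lit 230) (nat_lit 187) (nat_lit 183))) (XT.nd (nat_lit 78) (nat_lit 0) (nat_lit 0) (XT.lf (nat_lit 0) (nat_lit 21283209985) (nat_lit 152) (nat_lit 65907528717) (nat_lit 0) (nat_lit 19960219421) (nat_lit 1) (nat_lit 5) (nat_lit 3) (nat_lit 4) (nat_lit 1) (nat_lit 4) (nat_lit 231) (nat_lit 187) (nat_lit 182)) (XT.nd (nat_lit 78) (nat_lit 0) (nat_lit 0) (XT.lf (nat_lit 0) (nat_lit 27260586758) (nat_lit 152) (nat_lit 69935503588) (nat_lit 0) (nat_lit 25766970040) (nat_lit 1) (nat_lit 5) (nat_lit 3) (nat_lit 4) (nat_lit 1) (nat_lit 4) (nat_lit 232) (nat_lit 187) (nat_lit 181)) (XT.lf (nat_lit 0) (nat_lit 33934783314) (nat_lit 152) (nat_lit 74935769671) (nat_lit 0) (nat_lit 32292796028) (nat_lit 1) (nat_lit 5) (nat_lit 3) (nat_lit 4) (nat_lit 1)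 (nat_lit 4) (nat_lit 233) (nat_lit 187) (nat_lit 180))))) (XT.nd (nat_lit 156) (nat_lit 0) (nat_lit 0) (XT.nd (nat_lit 78) (nat_lit 0) (nat_lit 0) (XT.lf (nat_lit 0) (nat_lit 41436381763) (nat_lit 152) (nat_lit 81006158257) (nat_lit 0) (nat_lit 39665376591) (nat_lit 1) (nat_lit 5) (nat_lit 3) (nat_lit 4) (nat_lit 1) (nat_lit 4) (nat_lit 234) (nat_lit 187) (nat_lit 179)) (XT.lf (nat_lit 0) (nat_lit 49912152506) (nat_lit 152) (nat_lit 88265437820) (nat_lit 0) (nat_lit 48028957869) (nat_lit 1) (nat_lit 5) (nat_lit 3) (nat_lit 4) (nat_lit 1) (nat_lit 4) (nat_lit 235) (nat_lit 187) (nat_lit 178))) (XT.nd (nat_lit 78) (nat_lit 0) (nat_lit 0) (XT.lf (nat_lit 0) (nat_lit 59527925843) (nat_lit 152) (nat_lit 96855637743) (nat_lit 0) (nat_lit 57547175149) (nat_lit 1) (nat_lit 5) (nat_lit 3) (nat_lit 4) (nat_lit 1) (nat_lit 4) (nat_lit 236) (nat_lit 187) (nat_lit 177)) (XT.nd (nat_lit 78) (nat_lit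 0) (nat_lit 0) (XT.lf (nat_lit 0) (nat_lit 70471836468) (nat_lit 152) (nat_lit 106944827153) (nat_lit 0) (nat_lit 68406254420) (nat_lit 1) (nat_lit 5) (nat_lit 3) (nat_lit 4) (nat_lit 1) (nat_lit 4) (nat_lit 237) (nat_lit 187) (nat_lit 176)) (XT.lf (nat_lit 0) (nat_lit 82958004373) (nat_lit 152) (nat_lit 118730403236) (nat_lit 0) (nat_lit 80818655930) (nat_lit 1) (nat_lit 5) (nat_lit 3) (nat_lit 4) (nat_lit 1) (nat_lit 4) (nat_lit 238) (nat_lit 187) (nat_lit 175))))))))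
noncomputable def xc8 : XT := (XT.nd (nat_lit 1404) (nat_lit 0) (nat_lit 0) (XT.nd (nat_lit 702) (nat_lit 0) (nat_lit 0) (XT.nd (nat_lit 312) (nat_lit 0) (nat_lit 0) (XT.nd (nat_lit 156) (nat_lit 0) (nat_lit 0) (XT.nd (nat_lit 78) (nat_lit 0) (nat_lit 0) (XT.lf (nat_lit 0) (nat_lit 97230724146) (nat_lit 152) (nat_lit 132442953350) (nat_lit 0) (nat_lit 95027231012) (nat_lit 1) (nat_lit 5) (nat_lit 3) (nat_lit 4) (nat_lit 1) (nat_lit 4) (nat_lit 239) (nat_lit 187) (nat_lit 174)) (XT.lf (nat_lit 0) (nat_lit 113569244652) (nat_lit 152) (nat_lit 148350766517) (nat_lit 0) (nat_lit 111309973526) (nat_lit 1) (nat_lit 5) (nat_lit 3) (nat_lit 4) (nat_lit 1) (nat_lit 4) (nat_lit 240) (nat_lit 187) (nat_lit 173))) (XT.nd (nat_lit 78) (nat_lit 0) (nat_lit 0) (XT.lf (nat_lit 0) (nat_lit 132293232598) (nat_lit 152) (nat_lit 166765082562) (nat_lit 0) (nat_lit 129985458870) (nat_lit 1) (nat_lit 5) (nat_lit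 3) (nat_lit 4) (nat_lit 1) (nat_lit 4) (nat_lit 241) (nat_lit 187) (nat_lit 172)) (XT.lf (nat_lit 0) (nat_lit 153769026877) (nat_lit 152) (nat_lit 188046181581) (nat_lit 0) (nat_lit 151419076974) (nat_lit 1) (nat_lit 5) (nat_lit 3) (nat_lit 4) (nat_lit 1) (nat_lit 4) (nat_lit 242) (nat_lit 187) (nat_lit 171)))) (XT.nd (nat_lit 156) (nat_lit 0) (nat_lit 0) (XT.nd (nat_lit 78) (nat_lit 0) (nat_lit 0) (XT.lf (nat_lit 0) (nat_lit 178416806074) (nat_lit 152) (nat_lit 212610432902) (nat_lit 0) (nat_lit 176030181235) (nat_lit 1) (nat_lit 5) (nat_lit 3) (nat_lit 4) (nat_lit 1) (nat_lit 4) (nat_lit 243) (nat_lit 187) (nat_lit 170)) (XT.lf (nat_lit 0) (nat_lit 206718809347) (nat_lit 152) (nat_lit 240938441443) (nat_lit 0) (nat_lit 204300293260) (nat_lit 1) (nat_lit 5) (nat_lit 3) (nat_lit 4) (nat_lit 1) (nat_lit 4) (nat_lit 244) (nat_lit 187) (nat_lit 169))) (XT.nd (nat_lit 78) (nat_lit 0) (nat_lit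 0) (XT.lf (nat_lit 0) (nat_lit 239228771542) (nat_lit 152) (nat_lit 273584450849) (nat_lit 0) (nat_lit 236782523935) (nat_lit 1) (nat_lit 5) (nat_lit 3) (nat_lit 4) (nat_lit 1) (nat_lit 4) (nat_lit 245) (nat_lit 187) (nat_lit 168)) (XT.nd (nat_lit 78) (nat_lit 0) (nat_lit 0) (XT.lf (nat_lit 0) (nat_lit 276582757137) (nat_lit 152) (nat_lit 311187187391) (nat_lit 0) (nat_lit 274112395165) (nat_lit 1) (nat_lit 5) (nat_lit 3) (nat_lit 4) (nat_lit 1) (nat_lit 4) (nat_lit 246) (nat_lit 187) (nat_lit 167)) (XT.lf (nat_lit 0) (nat_lit 319511604981) (nat_lit 152) (nat_lit 354482356783) (nat_lit 0) (nat_lit 317020273995) (nat_lit 1) (nat_lit 5) (nat_lit 3) (nat_lit 4) (nat_lit 1) (nat_lit 4) (nat_lit 247) (nat_lit 187) (nat_lit 166)))))) (XT.nd (nat_lit 312) (nat_lit 0) (nat_lit 0) (XT.nd (nat_lit 156) (nat_lit 0) (nat_lit 0) (XT.nd (nat_lit 78) (nat_lit 0) (nat_lit 0) (XT.lf (nat_lit 0) (nat_lit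 368855227314) (nat_lit 152) (nat_lit 404317038428) (nat_lit 0) (nat_lit 366345662403) (nat_lit 1) (nat_lit 5) (nat_lit 3) (nat_lit 4) (nat_lit 1) (nat_lit 4) (nat_lit 248) (nat_lit 187) (nat_lit 165)) (XT.lf (nat_lit 0) (nat_lit 425579042834) (nat_lit 152) (nat_lit 461666258704) (nat_lit 0) (nat_lit 423053622337) (nat_lit 1) (nat_lit 5) (nat_lit 3) (nat_lit 4) (nat_lit 1) (nat_lit 4) (nat_lit 249) (nat_lit 187) (nat_lit 164))) (XT.nd (nat_lit 78) (nat_lit 0) (nat_lit 0) (XT.lf (nat_lit 0) (nat_lit 490792865322) (nat_lit 152) (nat_lit 527652067575) (nat_lit 0) (nat_lit 488253657359) (nat_lit 1) (nat_lit 5) (nat_lit 3) (nat_lit 4) (nat_lit 1) (nat_lit 4) (nat_lit 250) (nat_lit 187) (nat_lit 163)) (XT.lf (nat_lit 0) (nat_lit 565772617394) (nat_lit 152) (nat_lit 603565491735) (nat_lit 0) (nat_lit 563221420329) (nat_lit 1) (nat_lit 5) (nat_lit 3) (nat_lit 4) (nat_lit 1) (nat_lit 4) (nat_lit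 251) (nat_lit 187) (nat_lit 162)))) (XT.nd (nat_lit 156) (nat_lit 0) (nat_lit 0) (XT.nd (nat_lit 78) (nat_lit 0) (nat_lit 0) (XT.lf (nat_lit 0) (nat_lit 651985294197) (nat_lit 152) (nat_lit 690891793830) (nat_lit 0) (nat_lit 649423671826) (nat_lit 1) (nat_lit 5) (nat_lit 3) (nat_lit 4) (nat_lit 1) (nat_lit 4) (nat_lit 252) (nat_lit 187) (nat_lit 161)) (XT.lf (nat_lit 0) (nat_lit 751117665496) (nat_lit 152) (nat_lit 791339531946) (nat_lit 0) (nat_lit 748546977642) (nat_lit 1) (nat_lit 5) (nat_lit 3) (nat_lit 4) (nat_lit 1) (nat_lit 4) (nat_lit 253) (nat_lit 187) (nat_lit 160))) (XT.nd (nat_lit 78) (nat_lit 0) (nat_lit 0) (XT.lf (nat_lit 0) (nat_lit 865109277685) (nat_lit 152) (nat_lit 906873987916) (nat_lit 0) (nat_lit 862530706803) (nat_lit 1) (nat_lit 5) (nat_lit 3) (nat_lit 4) (nat_lit 1) (nat_lit 4) (nat_lit 254) (nat_lit 187) (nat_lit 159)) (XT.nd (nat_lit 78) (nat_lit 0) (nat_lit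 0) (XT.lf (nat_lit 0) (nat_lit 996190401438) (nat_lit 152) (nat_lit 1039755618485) (nat_lit 0) (nat_lit 993604975748) (nat_lit 1) (nat_lit 5) (nat_lit 3) (nat_lit 4) (nat_lit 1) (nat_lit 4) (nat_lit 255) (nat_lit 187) (nat_lit 158)) (XT.lf (nat_lit 0) (nat_lit 1146925667437) (nat_lit 152) (nat_lit 1192584281644) (nat_lit 0) (nat_lit 1144334281045) (nat_lit 1) (nat_lit 5) (nat_lit 3) (nat_lit 4) (nat_lit 1) (nat_lit 4) (nat_lit 256) (nat_lit 187) (nat_lit 157))))))) (XT.nd (nat_lit 29094) (nat_lit 0) (nat_lit 0) (XT.nd (nat_lit 28704) (nat_lit 0) (nat_lit 0) (XT.nd (nat_lit 156) (nat_lit 0) (nat_lit 0) (XT.nd (nat_lit 78) (nat_lit 0) (nat_lit 0) (XT.lf (nat_lit 0) (nat_lit 1320264243930) (nat_lit 152) (nat_lit 1368350103411) (nat_lit 0) (nat_lit 1317667674318) (nat_lit 1) (nat_lit 5) (nat_lit 3) (nat_lit 4) (nat_lit 1) (nat_lit 4) (nat_lit 257) (nat_lit 187) (nat_lit 156)) (XT.lf (nat_lit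 0) (nat_lit 1519597537847) (nat_lit 152) (nat_lit 1570491980299) (nat_lit 0) (nat_lit 1516996461088) (nat_lit 1) (nat_lit 5) (nat_lit 3) (nat_lit 4) (nat_lit 1) (nat_lit 4) (nat_lit 258) (nat_lit 187) (nat_lit 155))) (XT.nd (nat_lit 78) (nat_lit 0) (nat_lit 0) (XT.lf (nat_lit 0) (nat_lit 1748825548419) (nat_lit 152) (nat_lit 1802964862073) (nat_lit 0) (nat_lit 1746220552402) (nat_lit 1) (nat_lit 5) (nat_lit 3) (nat_lit 4) (nat_lit 1) (nat_lit 4) (nat_lit 259) (nat_lit 187) (nat_lit 154)) (XT.lf (nat_lit 0) (nat_lit 2012433171504) (nat_lit 152) (nat_lit 2070317131202) (nat_lit 0) (nat_lit 2009824767435) (nat_lit 1) (nat_lit 5) (nat_lit 3) (nat_lit 4) (nat_lit 1) (nat_lit 4) (nat_lit 260) (nat_lit 187) (nat_lit 153)))) (XT.nd (nat_lit 156) (nat_lit 152) (nat_lit 0) (XT.nd (nat_lit 78) (nat_lit 0) (nat_lit 0) (XT.lf (nat_lit 0) (nat_lit 12070441016) (nat_lit 76) (nat_lit 4408587809) (nat_lit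 76) (nat_lit 4408587809) (nat_lit 3) (nat_lit 4) (nat_lit 4) (nat_lit 5) (nat_lit 4) (nat_lit 4) (nat_lit 224) (nat_lit 188) (nat_lit 188)) (XT.lf (nat_lit 0) (nat_lit 36684896553) (nat_lit 76) (nat_lit 5687303270) (nat_lit 76) (nat_lit 5261061116) (nat_lit 3) (nat_lit 4) (nat_lit 4) (nat_lit 5) (nat_lit 4) (nat_lit 4) (nat_lit 225) (nat_lit 188) (nat_lit 187))) (XT.nd (nat_lit 78) (nat_lit 152) (nat_lit 0) (XT.lf (nat_lit 0) (nat_lit 50352244606) (nat_lit 76) (nat_lit 2424664731) (nat_lit 76) (nat_lit 1627777226) (nat_lit 3) (nat_lit 4) (nat_lit 4) (nat_lit 5) (nat_lit 4) (nat_lit 4) (nat_lit 226) (nat_lit 188) (nat_lit 186)) (XT.nd (nat_lit 78) (nat_lit 0) (nat_lit 0) (XT.lf (nat_lit 0) (nat_lit 2153717604) (nat_lit 152) (nat_lit 58938084878) (nat_lit 0) (nat_lit 1117432594) (nat_lit 1) (nat_lit 5) (nat_lit 3) (nat_lit 4) (nat_lit 1) (nat_lit 4) (nat_lit 227) (nat_lit 188) (nat_lit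 185)) (XT.lf (nat_lit 0) (nat_lit 6247473406) (nat_lit 152) (nat_lit 59995287943) (nat_lit 0) (nat_lit 4951687345) (nat_lit 1) (nat_lit 5) (nat_lit 3) (nat_lit 4) (nat_lit 1) (nat_lit 4) (nat_lit 228) (nat_lit 188) (nat_lit 184)))))) (XT.nd (nat_lit 390) (nat_lit 0) (nat_lit 0) (XT.nd (nat_lit 156) (nat_lit 0) (nat_lit 0) (XT.nd (nat_lit 78) (nat_lit 0) (nat_lit 0) (XT.lf (nat_lit 0) (nat_lit 10651441935) (nat_lit 152) (nat_lit 61770897920) (nat_lit 0) (nat_lit 9130002786) (nat_lit 1) (nat_lit 5) (nat_lit 3) (nat_lit 4) (nat_lit 1) (nat_lit 4) (nat_lit 229) (nat_lit 188) (nat_lit 183)) (XT.lf (nat_lit 0) (nat_lit 15451787790) (nat_lit 152) (nat_lit 64299655007) (nat_lit 0) (nat_lit 13734128565) (nat_lit 1) (nat_lit 5) (nat_lit 3) (nat_lit 4) (nat_lit 1) (nat_lit 4) (nat_lit 230) (nat_lit 188) (nat_lit 182))) (XT.nd (nat_lit 78) (nat_lit 0) (nat_lit 0) (XT.lf (nat_lit 0) (nat_lit 20742430784)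 (nat_lit 152) (nat_lit 67631034883) (nat_lit 0) (nat_lit 18854145405) (nat_lit 1) (nat_lit 5) (nat_lit 3) (nat_lit 4) (nat_lit 1) (nat_lit 4) (nat_lit 231) (nat_lit 188) (nat_lit 181)) (XT.nd (nat_lit 78) (nat_lit 0) (nat_lit 0) (XT.lf (nat_lit 0) (nat_lit 26626883495) (nat_lit 152) (nat_lit 71830216722) (nat_lit 0) (nat_lit 24590227547) (nat_lit 1) (nat_lit 5) (nat_lit 3) (nat_lit 4) (nat_lit 1) (nat_lit 4) (nat_lit 232) (nat_lit 188) (nat_lit 180)) (XT.lf (nat_lit 0) (nat_lit 33220276520) (nat_lit 152) (nat_lit 76979358429) (nat_lit 0) (nat_lit 31054602688) (nat_lit 1) (nat_lit 5) (nat_lit 3) (nat_lit 4) (nat_lit 1) (nat_lit 4) (nat_lit 233) (nat_lit 188) (nat_lit 179))))) (XT.nd (nat_lit 156) (nat_lit 0) (nat_lit 0) (XT.nd (nat_lit 78) (nat_lit 0) (nat_lit 0) (XT.lf (nat_lit 0) (nat_lit 40651611028) (nat_lit 152) (nat_lit 83179204080) (nat_lit 0) (nat_lit 38373747730) (nat_lit 1) (nat_lit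 5) (nat_lit 3) (nat_lit 4) (nat_lit 1) (nat_lit 4) (nat_lit 234) (nat_lit 188) (nat_lit 178)) (XT.lf (nat_lit 0) (nat_lit 49066282694) (nat_lit 152) (nat_lit 90551055003) (nat_lit 0) (nat_lit 46690863338) (nat_lit 1) (nat_lit 5) (nat_lit 3) (nat_lit 4) (nat_lit 1) (nat_lit 4) (nat_lit 235) (nat_lit 188) (nat_lit 177))) (XT.nd (nat_lit 78) (nat_lit 0) (nat_lit 0) (XT.lf (nat_lit 0) (nat_lit 58628926397) (nat_lit 152) (nat_lit 99239143065) (nat_lit 0) (nat_lit 56168675688) (nat_lit 1) (nat_lit 5) (nat_lit 3) (nat_lit 4) (nat_lit 1) (nat_lit 4) (nat_lit 236) (nat_lit 188) (nat_lit 176)) (XT.nd (nat_lit 78) (nat_lit 0) (nat_lit 0) (XT.lf (nat_lit 0) (nat_lit 69526637341) (nat_lit 152) (nat_lit 109413452597) (nat_lit 0) (nat_lit 66992620237) (nat_lit 1) (nat_lit 5) (nat_lit 3) (nat_lit 4) (nat_lit 1) (nat_lit 4) (nat_lit 237) (nat_lit 188) (nat_lit 175)) (XT.lf (nat_lit 0) (nat_lit 81972631609)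 (nat_lit 152) (nat_lit 121273046176) (nat_lit 0) (nat_lit 79374469814) (nat_lit 1) (nat_lit 5) (nat_lit 3) (nat_lit 4) (nat_lit 1) (nat_lit 4) (nat_lit 238) (nat_lit 188) (nat_lit 174))))))))
noncomputable def xc9 : XT := (XT.nd (nat_lit 1482) (nat_lit 0) (nat_lit 0) (XT.nd (nat_lit 702) (nat_lit 0) (nat_lit 0) (XT.nd (nat_lit 312) (nat_lit 0) (nat_lit 0) (XT.nd (nat_lit 156) (nat_lit 0) (nat_lit 0) (XT.nd (nat_lit 78) (nat_lit 0) (nat_lit 0) (XT.lf (nat_lit 0) (nat_lit 96210417786) (nat_lit 152) (nat_lit 135049959330) (nat_lit 0) (nat_lit 93556477999) (nat_lit 1) (nat_lit 5) (nat_lit 3) (nat_lit 4) (nat_lit 1) (nat_lit 4) (nat_lit 239) (nat_lit 188) (nat_lit 173)) (XT.lf (nat_lit 0) (nat_lit 112518561252) (nat_lit 152) (nat_lit 151013740360) (nat_lit 0) (nat_lit 109816118863) (nat_lit 1) (nat_lit 5) (nat_lit 3) (nat_lit 4) (nat_lit 1) (nat_lit 4) (nat_lit 240) (nat_lit 188) (nat_lit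 172))) (XT.nd (nat_lit 78) (nat_lit 0) (nat_lit 0) (XT.lf (nat_lit 0) (nat_lit 131216134380) (nat_lit 152) (nat_lit 169476724110) (nat_lit 0) (nat_lit 128471515815) (nat_lit 1) (nat_lit 5) (nat_lit 3) (nat_lit 4) (nat_lit 1) (nat_lit 4) (nat_lit 241) (nat_lit 188) (nat_lit 171)) (XT.lf (nat_lit 0) (nat_lit 152668959253) (nat_lit 152) (nat_lit 190800142873) (nat_lit 0) (nat_lit 149887665753) (nat_lit 1) (nat_lit 5) (nat_lit 3) (nat_lit 4) (nat_lit 1) (nat_lit 4) (nat_lit 242) (nat_lit 188) (nat_lit 170)))) (XT.nd (nat_lit 156) (nat_lit 0) (nat_lit 0) (XT.nd (nat_lit 78) (nat_lit 0) (nat_lit 0) (XT.lf (nat_lit 0) (nat_lit 177296765053) (nat_lit 152) (nat_lit 215401193972) (nat_lit 0) (nat_lit 174483580304) (nat_lit 1) (nat_lit 5) (nat_lit 3) (nat_lit 4) (nat_lit 1) (nat_lit 4) (nat_lit 243) (nat_lit 188) (nat_lit 169)) (XT.lf (nat_lit 0) (nat_lit 205581400154) (nat_lit 152) (nat_lit 243761202319)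 (nat_lit 0) (nat_lit 202740483886) (nat_lit 1) (nat_lit 5) (nat_lit 3) (nat_lit 4) (nat_lit 1) (nat_lit 4) (nat_lit 244) (nat_lit 188) (nat_lit 168))) (XT.nd (nat_lit 78) (nat_lit 0) (nat_lit 0) (XT.lf (nat_lit 0) (nat_lit 238076259591) (nat_lit 152) (nat_lit 276435037643) (nat_lit 0) (nat_lit 235211228958) (nat_lit 1) (nat_lit 5) (nat_lit 3) (nat_lit 4) (nat_lit 1) (nat_lit 4) (nat_lit 245) (nat_lit 188) (nat_lit 167)) (XT.nd (nat_lit 78) (nat_lit 0) (nat_lit 0) (XT.lf (nat_lit 0) (nat_lit 275417112353) (nat_lit 152) (nat_lit 314061970636) (nat_lit 0) (nat_lit 272531112707) (nat_lit 1) (nat_lit 5) (nat_lit 3) (nat_lit 4) (nat_lit 1) (nat_lit 4) (nat_lit 246) (nat_lit 188) (nat_lit 166)) (XT.lf (nat_lit 0) (nat_lit 318334540343) (nat_lit 152) (nat_lit 357378180421) (nat_lit 0) (nat_lit 315430306771) (nat_lit 1) (nat_lit 5) (nat_lit 3) (nat_lit 4) (nat_lit 1) (nat_lit 4) (nat_lit 247)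 (nat_lit 188) (nat_lit 165)))))) (XT.nd (nat_lit 390) (nat_lit 0) (nat_lit 0) (XT.nd (nat_lit 156) (nat_lit 0) (nat_lit 0) (XT.nd (nat_lit 78) (nat_lit 0) (nat_lit 0) (XT.lf (nat_lit 0) (nat_lit 367668232367) (nat_lit 152) (nat_lit 407231158059) (nat_lit 0) (nat_lit 364748143209) (nat_lit 1) (nat_lit 5) (nat_lit 3) (nat_lit 4) (nat_lit 1) (nat_lit 4) (nat_lit 248) (nat_lit 188) (nat_lit 164)) (XT.lf (nat_lit 0) (nat_lit 424383412836) (nat_lit 152) (nat_lit 464596287894) (nat_lit 0) (nat_lit 421449536211) (nat_lit 1) (nat_lit 5) (nat_lit 3) (nat_lit 4) (nat_lit 1) (nat_lit 4) (nat_lit 249) (nat_lit 188) (nat_lit 163))) (XT.nd (nat_lit 78) (nat_lit 0) (nat_lit 0) (XT.lf (nat_lit 0) (nat_lit 489589726585) (nat_lit 152) (nat_lit 530595931164) (nat_lit 0) (nat_lit 486643860859) (nat_lit 1) (nat_lit 5) (nat_lit 3) (nat_lit 4) (nat_lit 1) (nat_lit 4) (nat_lit 250) (nat_lit 188) (nat_lit 162))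 (XT.nd (nat_lit 78) (nat_lit 0) (nat_lit 0) (XT.lf (nat_lit 0) (nat_lit 564562949317) (nat_lit 152) (nat_lit 606521385237) (nat_lit 0) (nat_lit 561606658286) (nat_lit 1) (nat_lit 5) (nat_lit 3) (nat_lit 4) (nat_lit 1) (nat_lit 4) (nat_lit 251) (nat_lit 188) (nat_lit 161)) (XT.lf (nat_lit 0) (nat_lit 650769948435) (nat_lit 152) (nat_lit 693858148126) (nat_lit 0) (nat_lit 647804591920) (nat_lit 1) (nat_lit 5) (nat_lit 3) (nat_lit 4) (nat_lit 1) (nat_lit 4) (nat_lit 252) (nat_lit 188) (nat_lit 160))))) (XT.nd (nat_lit 156) (nat_lit 0) (nat_lit 0) (XT.nd (nat_lit 78) (nat_lit 0) (nat_lit 0) (XT.lf (nat_lit 0) (nat_lit 749897382615) (nat_lit 152) (nat_lit 794314982584) (nat_lit 0) (nat_lit 746924143072) (nat_lit 1) (nat_lit 5) (nat_lit 3) (nat_lit 4) (nat_lit 1) (nat_lit 4) (nat_lit 253) (nat_lit 188) (nat_lit 159)) (XT.lf (nat_lit 0) (nat_lit 863884701658) (nat_lit 152) (nat_lit 909857348416)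 (nat_lit 0) (nat_lit 860904607307) (nat_lit 1) (nat_lit 5) (nat_lit 3) (nat_lit 4) (nat_lit 1) (nat_lit 4) (nat_lit 254) (nat_lit 188) (nat_lit 158))) (XT.nd (nat_lit 78) (nat_lit 0) (nat_lit 0) (XT.lf (nat_lit 0) (nat_lit 994962092241) (nat_lit 152) (nat_lit 1042745857127) (nat_lit 0) (nat_lit 991976037187) (nat_lit 1) (nat_lit 5) (nat_lit 3) (nat_lit 4) (nat_lit 1) (nat_lit 4) (nat_lit 255) (nat_lit 188) (nat_lit 157)) (XT.nd (nat_lit 78) (nat_lit 0) (nat_lit 0) (XT.lf (nat_lit 0) (nat_lit 1145694112004) (nat_lit 152) (nat_lit 1195580501278) (nat_lit 0) (nat_lit 1142702873731) (nat_lit 1) (nat_lit 5) (nat_lit 3) (nat_lit 4) (nat_lit 1) (nat_lit 4) (nat_lit 256) (nat_lit 188) (nat_lit 156)) (XT.lf (nat_lit 0) (nat_lit 1319029865683) (nat_lit 152) (nat_lit 1371351523909) (nat_lit 0) (nat_lit 1316034120263) (nat_lit 1) (nat_lit 5) (nat_lit 3) (nat_lit 4) (nat_lit 1) (nat_lit 4) (nat_lit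 257) (nat_lit 188) (nat_lit 155))))))) (XT.nd (nat_lit 28938) (nat_lit 0) (nat_lit 0) (XT.nd (nat_lit 28548) (nat_lit 0) (nat_lit 0) (XT.nd (nat_lit 156) (nat_lit 0) (nat_lit 0) (XT.nd (nat_lit 78) (nat_lit 0) (nat_lit 0) (XT.lf (nat_lit 0) (nat_lit 1518360704981) (nat_lit 152) (nat_lit 1573497923286) (nat_lit 0) (nat_lit 1515361040302) (nat_lit 1) (nat_lit 5) (nat_lit 3) (nat_lit 4) (nat_lit 1) (nat_lit 4) (nat_lit 258) (nat_lit 188) (nat_lit 154)) (XT.lf (nat_lit 0) (nat_lit 1747586581100) (nat_lit 152) (nat_lit 1805974737660) (nat_lit 0) (nat_lit 1744583508370) (nat_lit 1) (nat_lit 5) (nat_lit 3) (nat_lit 4) (nat_lit 1) (nat_lit 4) (nat_lit 259) (nat_lit 188) (nat_lit 153))) (XT.nd (nat_lit 28314) (nat_lit 0) (nat_lit 152) (XT.lf (nat_lit 0) (nat_lit 2011192348139) (nat_lit 152) (nat_lit 2073330426441) (nat_lit 0) (nat_lit 2008186311886) (nat_lit 1) (nat_lit 5) (nat_lit 3) (nat_lit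 4) (nat_lit 1) (nat_lit 4) (nat_lit 260) (nat_lit 188) (nat_lit 152)) (XT.lf (nat_lit 0) (nat_lit 962373966) (nat_lit 76) (nat_lit 7602614297) (nat_lit 76) (nat_lit 7602614297) (nat_lit 3) (nat_lit 4) (nat_lit 4) (nat_lit 5) (nat_lit 4) (nat_lit 4) (nat_lit 222) (nat_lit 189) (nat_lit 189)))) (XT.nd (nat_lit 156) (nat_lit 152) (nat_lit 0) (XT.nd (nat_lit 78) (nat_lit 0) (nat_lit 0) (XT.lf (nat_lit 0) (nat_lit 12474774671) (nat_lit 76) (nat_lit 12365696888) (nat_lit 76) (nat_lit 11875518411) (nat_lit 3) (nat_lit 4) (nat_lit 4) (nat_lit 5) (nat_lit 4) (nat_lit 4) (nat_lit 223) (nat_lit 189) (nat_lit 188)) (XT.lf (nat_lit 0) (nat_lit 23735296477) (nat_lit 76) (nat_lit 9487457288) (nat_lit 76) (nat_lit 8571036657) (nat_lit 3) (nat_lit 4) (nat_lit 4) (nat_lit 5) (nat_lit 4) (nat_lit 4) (nat_lit 224) (nat_lit 189) (nat_lit 187))) (XT.nd (nat_lit 78) (nat_lit 152) (nat_lit 0) (XT.lf (nat_lit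 0) (nat_lit 35926627907) (nat_lit 76) (nat_lit 6514196410) (nat_lit 76) (nat_lit 5227130427) (nat_lit 3) (nat_lit 4) (nat_lit 4) (nat_lit 5) (nat_lit 4) (nat_lit 4) (nat_lit 225) (nat_lit 189) (nat_lit 186)) (XT.nd (nat_lit 78) (nat_lit 152) (nat_lit 0) (XT.lf (nat_lit 0) (nat_lit 49287295010) (nat_lit 76) (nat_lit 3387741759) (nat_lit 76) (nat_lit 1778375471) (nat_lit 3) (nat_lit 4) (nat_lit 4) (nat_lit 5) (nat_lit 4) (nat_lit 4) (nat_lit 226) (nat_lit 189) (nat_lit 185)) (XT.lf (nat_lit 0) (nat_lit 1796039474) (nat_lit 152) (nat_lit 60433311358) (nat_lit 0) (nat_lit 46384452) (nat_lit 1) (nat_lit 5) (nat_lit 3) (nat_lit 4) (nat_lit 1) (nat_lit 4) (nat_lit 227) (nat_lit 189) (nat_lit 184)))))) (XT.nd (nat_lit 390) (nat_lit 0) (nat_lit 0) (XT.nd (nat_lit 156) (nat_lit 0) (nat_lit 0) (XT.nd (nat_lit 78) (nat_lit 0) (nat_lit 0) (XT.lf (nat_lit 0) (nat_lit 5748469395) (nat_lit 152) (nat_lit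 61750898819) (nat_lit 0) (nat_lit 3773161285) (nat_lit 1) (nat_lit 5) (nat_lit 3) (nat_lit 4) (nat_lit 1) (nat_lit 4) (nat_lit 228) (nat_lit 189) (nat_lit 183)) (XT.lf (nat_lit 0) (nat_lit 10029545853) (nat_lit 152) (nat_lit 63752930012) (nat_lit 0) (nat_lit 7858017667) (nat_lit 1) (nat_lit 5) (nat_lit 3) (nat_lit 4) (nat_lit 1) (nat_lit 4) (nat_lit 229) (nat_lit 189) (nat_lit 182))) (XT.nd (nat_lit 78) (nat_lit 0) (nat_lit 0) (XT.lf (nat_lit 0) (nat_lit 14723029038) (nat_lit 152) (nat_lit 66478575111) (nat_lit 0) (nat_lit 12380874699) (nat_lit 1) (nat_lit 5) (nat_lit 3) (nat_lit 4) (nat_lit 1) (nat_lit 4) (nat_lit 230) (nat_lit 189) (nat_lit 181)) (XT.nd (nat_lit 78) (nat_lit 0) (nat_lit 0) (XT.lf (nat_lit 0) (nat_lit 19920747970) (nat_lit 152) (nat_lit 69981161955) (nat_lit 0) (nat_lit 17430223063) (nat_lit 1) (nat_lit 5) (nat_lit 3) (nat_lit 4) (nat_lit 1) (nat_lit 4) (nat_lit 231)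 (nat_lit 189) (nat_lit 180)) (XT.lf (nat_lit 0) (nat_lit 25724397150) (nat_lit 152) (nat_lit 74329219418) (nat_lit 0) (nat_lit 23104854357) (nat_lit 1) (nat_lit 5) (nat_lit 3) (nat_lit 4) (nat_lit 1) (nat_lit 4) (nat_lit 232) (nat_lit 189) (nat_lit 179))))) (XT.nd (nat_lit 156) (nat_lit 0) (nat_lit 0) (XT.nd (nat_lit 78) (nat_lit 0) (nat_lit 0) (XT.lf (nat_lit 0) (nat_lit 32247526236) (nat_lit 152) (nat_lit 79607818189) (nat_lit 0) (nat_lit 29515793977) (nat_lit 1) (nat_lit 5) (nat_lit 3) (nat_lit 4) (nat_lit 1) (nat_lit 4) (nat_lit 233) (nat_lit 189) (nat_lit 178)) (XT.lf (nat_lit 0) (nat_lit 39617761665) (nat_lit 152) (nat_lit 85920235200) (nat_lit 0) (nat_lit 36788473349) (nat_lit 1) (nat_lit 5) (nat_lit 3) (nat_lit 4) (nat_lit 1) (nat_lit 4) (nat_lit 234) (nat_lit 189) (nat_lit 177))) (XT.nd (nat_lit 78) (nat_lit 0) (nat_lit 0) (XT.lf (nat_lit 0) (nat_lit 47979303697) (nat_lit 152)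 (nat_lit 93389974263) (nat_lit 0) (nat_lit 45065184027) (nat_lit 1) (nat_lit 5) (nat_lit 3) (nat_lit 4) (nat_lit 1) (nat_lit 4) (nat_lit 235) (nat_lit 189) (nat_lit 176)) (XT.nd (nat_lit 78) (nat_lit 0) (nat_lit 0) (XT.lf (nat_lit 0) (nat_lit 57495747719) (nat_lit 152) (nat_lit 102163182446) (nat_lit 0) (nat_lit 54507861655) (nat_lit 1) (nat_lit 5) (nat_lit 3) (nat_lit 4) (nat_lit 1) (nat_lit 4) (nat_lit 236) (nat_lit 189) (nat_lit 175)) (XT.lf (nat_lit 0) (nat_lit 68353285027) (nat_lit 152) (nat_lit 112411509475) (nat_lit 0) (nat_lit 65301254272) (nat_lit 1) (nat_lit 5) (nat_lit 3) (nat_lit 4) (nat_lit 1) (nat_lit 4) (nat_lit 237) (nat_lit 189) (nat_lit 174))))))))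
noncomputable def xc10 : XT := (XT.nd (nat_lit 1482) (nat_lit 0) (nat_lit 0) (XT.nd (nat_lit 702) (nat_lit 0) (nat_lit 0) (XT.nd (nat_lit 312) (nat_lit 0) (nat_lit 0) (XT.nd (nat_lit 156) (nat_lit 0) (nat_lit 0) (XT.nd (nat_lit 78) (nat_lit 0) (nat_lit 0) (XT.lf (nat_lit 0) (nat_lit 80764345699) (nat_lit 152) (nat_lit 124335466095) (nat_lit 0) (nat_lit 77656536952) (nat_lit 1) (nat_lit 5) (nat_lit 3) (nat_lit 4) (nat_lit 1) (nat_lit 4) (nat_lit 238) (nat_lit 189) (nat_lit 173)) (XT.lf (nat_lit 0) (nat_lit 94971754835) (nat_lit 152) (nat_lit 138168347111) (nat_lit 0) (nat_lit 91815443486) (nat_lit 1) (nat_lit 5) (nat_lit 3) (nat_lit 4) (nat_lit 1) (nat_lit 4) (nat_lit 239) (nat_lit 189) (nat_lit 172))) (XT.nd (nat_lit 78) (nat_lit 0) (nat_lit 0) (XT.lf (nat_lit 0) (nat_lit 111253483484) (nat_lit 152) (nat_lit 154180795845) (nat_lit 0) (nat_lit 108054995959) (nat_lit 1) (nat_lit 5) (nat_lit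 3) (nat_lit 4) (nat_lit 1) (nat_lit 4) (nat_lit 240) (nat_lit 189) (nat_lit 171)) (XT.lf (nat_lit 0) (nat_lit 129928087205) (nat_lit 152) (nat_lit 172686099340) (nat_lit 0) (nat_lit 126692924745) (nat_lit 1) (nat_lit 5) (nat_lit 3) (nat_lit 4) (nat_lit 1) (nat_lit 4) (nat_lit 241) (nat_lit 189) (nat_lit 170)))) (XT.nd (nat_lit 156) (nat_lit 0) (nat_lit 0) (XT.nd (nat_lit 78) (nat_lit 0) (nat_lit 0) (XT.lf (nat_lit 0) (nat_lit 151360938681) (nat_lit 152) (nat_lit 194046317880) (nat_lit 0) (nat_lit 148093884972) (nat_lit 1) (nat_lit 5) (nat_lit 3) (nat_lit 4) (nat_lit 1) (nat_lit 4) (nat_lit 242) (nat_lit 189) (nat_lit 169)) (XT.lf (nat_lit 0) (nat_lit 175971376309) (nat_lit 152) (nat_lit 218679368785) (nat_lit 0) (nat_lit 172676591080) (nat_lit 1) (nat_lit 5) (nat_lit 3) (nat_lit 4) (nat_lit 1) (nat_lit 4) (nat_lit 243) (nat_lit 189) (nat_lit 168))) (XT.nd (nat_lit 78) (nat_lit 0) (nat_lit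 0) (XT.lf (nat_lit 0) (nat_lit 204240908653) (nat_lit 152) (nat_lit 247067203051) (nat_lit 0) (nat_lit 200922009059) (nat_lit 1) (nat_lit 5) (nat_lit 3) (nat_lit 4) (nat_lit 1) (nat_lit 4) (nat_lit 244) (nat_lit 189) (nat_lit 167)) (XT.nd (nat_lit 78) (nat_lit 0) (nat_lit 0) (XT.lf (nat_lit 0) (nat_lit 236722635257) (nat_lit 152) (nat_lit 279765234827) (nat_lit 0) (nat_lit 233382766650) (nat_lit 1) (nat_lit 5) (nat_lit 3) (nat_lit 4) (nat_lit 1) (nat_lit 4) (nat_lit 245) (nat_lit 189) (nat_lit 166)) (XT.lf (nat_lit 0) (nat_lit 274052068165) (nat_lit 152) (nat_lit 317413208211) (nat_lit 0) (nat_lit 270693965633) (nat_lit 1) (nat_lit 5) (nat_lit 3) (nat_lit 4) (nat_lit 1) (nat_lit 4) (nat_lit 246) (nat_lit 189) (nat_lit 165)))))) (XT.nd (nat_lit 390) (nat_lit 0) (nat_lit 0) (XT.nd (nat_lit 156) (nat_lit 0) (nat_lit 0) (XT.nd (nat_lit 78) (nat_lit 0) (nat_lit 0) (XT.lf (nat_lit 0) (nat_lit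 316959565845) (nat_lit 152) (nat_lit 360747713989) (nat_lit 0) (nat_lit 313585607727) (nat_lit 1) (nat_lit 5) (nat_lit 3) (nat_lit 4) (nat_lit 1) (nat_lit 4) (nat_lit 247) (nat_lit 189) (nat_lit 164)) (XT.lf (nat_lit 0) (nat_lit 366284622819) (nat_lit 152) (nat_lit 410616601186) (nat_lit 0) (nat_lit 362896877234) (nat_lit 1) (nat_lit 5) (nat_lit 3) (nat_lit 4) (nat_lit 1) (nat_lit 4) (nat_lit 248) (nat_lit 189) (nat_lit 163))) (XT.nd (nat_lit 78) (nat_lit 0) (nat_lit 0) (XT.lf (nat_lit 0) (nat_lit 422992294548) (nat_lit 152) (nat_lit 467995565422) (nat_lit 0) (nat_lit 419592559862) (nat_lit 1) (nat_lit 5) (nat_lit 3) (nat_lit 4) (nat_lit 1) (nat_lit 4) (nat_lit 249) (nat_lit 189) (nat_lit 162)) (XT.nd (nat_lit 78) (nat_lit 0) (nat_lit 0) (XT.lf (nat_lit 0) (nat_lit 488192078958) (nat_lit 152) (nat_lit 534007238604) (nat_lit 0) (nat_lit 484781918966) (nat_lit 1) (nat_lit 5) (nat_lit 3)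 (nat_lit 4) (nat_lit 1) (nat_lit 4) (nat_lit 250) (nat_lit 189) (nat_lit 161)) (XT.lf (nat_lit 0) (nat_lit 563159624005) (nat_lit 152) (nat_lit 609943153470) (nat_lit 0) (nat_lit 559740398530) (nat_lit 1) (nat_lit 5) (nat_lit 3) (nat_lit 4) (nat_lit 1) (nat_lit 4) (nat_lit 251) (nat_lit 189) (nat_lit 160))))) (XT.nd (nat_lit 156) (nat_lit 0) (nat_lit 0) (XT.nd (nat_lit 78) (nat_lit 0) (nat_lit 0) (XT.lf (nat_lit 0) (nat_lit 649361686004) (nat_lit 152) (nat_lit 697289012701) (nat_lit 0) (nat_lit 645934577500) (nat_lit 1) (nat_lit 5) (nat_lit 3) (nat_lit 4) (nat_lit 1) (nat_lit 4) (nat_lit 252) (nat_lit 189) (nat_lit 159)) (XT.lf (nat_lit 0) (nat_lit 748484827038) (nat_lit 152) (nat_lit 797753757022) (nat_lit 0) (nat_lit 745050863726) (nat_lit 1) (nat_lit 5) (nat_lit 3) (nat_lit 4) (nat_lit 1) (nat_lit 4) (nat_lit 253) (nat_lit 189) (nat_lit 158))) (XT.nd (nat_lit 78) (nat_lit 0) (nat_lit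 0) (XT.lf (nat_lit 0) (nat_lit 862468412910) (nat_lit 152) (nat_lit 913303000996) (nat_lit 0) (nat_lit 859028488896) (nat_lit 1) (nat_lit 5) (nat_lit 3) (nat_lit 4) (nat_lit 1) (nat_lit 4) (nat_lit 254) (nat_lit 189) (nat_lit 157)) (XT.nd (nat_lit 78) (nat_lit 0) (nat_lit 0) (XT.lf (nat_lit 0) (nat_lit 993542557257) (nat_lit 152) (nat_lit 1046197490699) (nat_lit 0) (nat_lit 990097450024) (nat_lit 1) (nat_lit 5) (nat_lit 3) (nat_lit 4) (nat_lit 1) (nat_lit 4) (nat_lit 255) (nat_lit 189) (nat_lit 156)) (XT.lf (nat_lit 0) (nat_lit 1144271754207) (nat_lit 152) (nat_lit 1199037335714) (nat_lit 0) (nat_lit 1140822139827) (nat_lit 1) (nat_lit 5) (nat_lit 3) (nat_lit 4) (nat_lit 1) (nat_lit 4) (nat_lit 256) (nat_lit 189) (nat_lit 155))))))) (XT.nd (nat_lit 28782) (nat_lit 0) (nat_lit 0) (XT.nd (nat_lit 28392) (nat_lit 0) (nat_lit 152) (XT.nd (nat_lit 156) (nat_lit 0) (nat_lit 0) (XT.nd (nat_lit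 78) (nat_lit 0) (nat_lit 0) (XT.lf (nat_lit 0) (nat_lit 1317605053266) (nat_lit 152) (nat_lit 1374812880834) (nat_lit 0) (nat_lit 1314151519627) (nat_lit 1) (nat_lit 5) (nat_lit 3) (nat_lit 4) (nat_lit 1) (nat_lit 4) (nat_lit 257) (nat_lit 189) (nat_lit 154)) (XT.lf (nat_lit 0) (nat_lit 1516933758111) (nat_lit 152) (nat_lit 1576963212811) (nat_lit 0) (nat_lit 1513476816421) (nat_lit 1) (nat_lit 5) (nat_lit 3) (nat_lit 4) (nat_lit 1) (nat_lit 4) (nat_lit 258) (nat_lit 189) (nat_lit 153))) (XT.nd (nat_lit 78) (nat_lit 0) (nat_lit 0) (XT.lf (nat_lit 0) (nat_lit 1746157778184) (nat_lit 152) (nat_lit 1809443446837) (nat_lit 0) (nat_lit 1742697872972) (nat_lit 1) (nat_lit 5) (nat_lit 3) (nat_lit 4) (nat_lit 1) (nat_lit 4) (nat_lit 259) (nat_lit 189) (nat_lit 152)) (XT.lf (nat_lit 0) (nat_lit 2009761931270) (nat_lit 152) (nat_lit 2076802109228) (nat_lit 0) (nat_lit 2006299449082) (nat_lit 1)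 (nat_lit 5) (nat_lit 3) (nat_lit 4) (nat_lit 1) (nat_lit 4) (nat_lit 260) (nat_lit 189) (nat_lit 151)))) (XT.nd (nat_lit 156) (nat_lit 76) (nat_lit 0) (XT.nd (nat_lit 78) (nat_lit 0) (nat_lit 0) (XT.lf (nat_lit 0) (nat_lit 2204819848) (nat_lit 152) (nat_lit 8228323681) (nat_lit 0) (nat_lit 2204819848) (nat_lit 4) (nat_lit 5) (nat_lit 6) (nat_lit 4) (nat_lit 4) (nat_lit 4) (nat_lit 220) (nat_lit 190) (nat_lit 190)) (XT.lf (nat_lit 0) (nat_lit 10699431396) (nat_lit 152) (nat_lit 7714942125) (nat_lit 0) (nat_lit 10135726147) (nat_lit 4) (nat_lit 5) (nat_lit 6) (nat_lit 4) (nat_lit 4) (nat_lit 4) (nat_lit 221) (nat_lit 190) (nat_lit 189))) (XT.nd (nat_lit 78) (nat_lit 0) (nat_lit 0) (XT.lf (nat_lit 0) (nat_lit 1458324544) (nat_lit 76) (nat_lit 15976052514) (nat_lit 76) (nat_lit 14922168788) (nat_lit 3) (nat_lit 4) (nat_lit 4) (nat_lit 5) (nat_lit 4) (nat_lit 4) (nat_lit 222) (nat_lit 190)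 (nat_lit 188)) (XT.nd (nat_lit 78) (nat_lit 0) (nat_lit 0) (XT.lf (nat_lit 0) (nat_lit 11602765727) (nat_lit 76) (nat_lit 13316623999) (nat_lit 76) (nat_lit 11836498119) (nat_lit 3) (nat_lit 4) (nat_lit 4) (nat_lit 5) (nat_lit 4) (nat_lit 4) (nat_lit 223) (nat_lit 190) (nat_lit 187)) (XT.lf (nat_lit 0) (nat_lit 22510604441) (nat_lit 76) (nat_lit 10594995869) (nat_lit 76) (nat_lit 8744224638) (nat_lit 3) (nat_lit 4) (nat_lit 4) (nat_lit 5) (nat_lit 4) (nat_lit 4) (nat_lit 224) (nat_lit 190) (nat_lit 186)))))) (XT.nd (nat_lit 390) (nat_lit 0) (nat_lit 0) (XT.nd (nat_lit 156) (nat_lit 152) (nat_lit 0) (XT.nd (nat_lit 78) (nat_lit 0) (nat_lit 0) (XT.lf (nat_lit 0) (nat_lit 34395254922) (nat_lit 76) (nat_lit 7757918879) (nat_lit 76) (nat_lit 5584847342) (nat_lit 3) (nat_lit 4) (nat_lit 4) (nat_lit 5) (nat_lit 4) (nat_lit 4) (nat_lit 225) (nat_lit 190) (nat_lit 185)) (XT.lf (nat_lit 0) (nat_lit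 47489242939) (nat_lit 76) (nat_lit 4749885000) (nat_lit 76) (nat_lit 2296552328) (nat_lit 3) (nat_lit 4) (nat_lit 4) (nat_lit 5) (nat_lit 4) (nat_lit 4) (nat_lit 226) (nat_lit 190) (nat_lit 184))) (XT.nd (nat_lit 78) (nat_lit 76) (nat_lit 0) (XT.lf (nat_lit 0) (nat_lit 1125718281) (nat_lit 152) (nat_lit 355543981) (nat_lit 76) (nat_lit 60892257801) (nat_lit 2) (nat_lit 5) (nat_lit 4) (nat_lit 5) (nat_lit 3) (nat_lit 4) (nat_lit 227) (nat_lit 190) (nat_lit 183)) (XT.nd (nat_lit 78) (nat_lit 0) (nat_lit 0) (XT.lf (nat_lit 0) (nat_lit 4910396830) (nat_lit 152) (nat_lit 64256656939) (nat_lit 0) (nat_lit 2216919340) (nat_lit 1) (nat_lit 5) (nat_lit 3) (nat_lit 4) (nat_lit 1) (nat_lit 4) (nat_lit 228) (nat_lit 190) (nat_lit 182)) (XT.lf (nat_lit 0) (nat_lit 9084610618) (nat_lit 152) (nat_lit 66455576144) (nat_lit 0) (nat_lit 6220506974) (nat_lit 1) (nat_lit 5) (nat_lit 3) (nat_lit 4) (nat_lit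 1) (nat_lit 4) (nat_lit 229) (nat_lit 190) (nat_lit 181))))) (XT.nd (nat_lit 156) (nat_lit 0) (nat_lit 0) (XT.nd (nat_lit 78) (nat_lit 0) (nat_lit 0) (XT.lf (nat_lit 0) (nat_lit 13685169742) (nat_lit 152) (nat_lit 69352428211) (nat_lit 0) (nat_lit 10672695530) (nat_lit 1) (nat_lit 5) (nat_lit 3) (nat_lit 4) (nat_lit 1) (nat_lit 4) (nat_lit 230) (nat_lit 190) (nat_lit 180)) (XT.lf (nat_lit 0) (nat_lit 18802085143) (nat_lit 152) (nat_lit 73003890679) (nat_lit 0) (nat_lit 15660593046) (nat_lit 1) (nat_lit 5) (nat_lit 3) (nat_lit 4) (nat_lit 1) (nat_lit 4) (nat_lit 231) (nat_lit 190) (nat_lit 179))) (XT.nd (nat_lit 78) (nat_lit 0) (nat_lit 0) (XT.lf (nat_lit 0) (nat_lit 24535470383) (nat_lit 152) (nat_lit 77481405207) (nat_lit 0) (nat_lit 21281788820) (nat_lit 1) (nat_lit 5) (nat_lit 3) (nat_lit 4) (nat_lit 1) (nat_lit 4) (nat_lit 232) (nat_lit 190) (nat_lit 178)) (XT.nd (nat_lit 78) (nat_lit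 0) (nat_lit 0) (XT.lf (nat_lit 0) (nat_lit 30997500390) (nat_lit 152) (nat_lit 82872575338) (nat_lit 0) (nat_lit 27646262770) (nat_lit 1) (nat_lit 5) (nat_lit 3) (nat_lit 4) (nat_lit 1) (nat_lit 4) (nat_lit 233) (nat_lit 190) (nat_lit 177)) (XT.lf (nat_lit 0) (nat_lit 38314606186) (nat_lit 152) (nat_lit 89282880489) (nat_lit 0) (nat_lit 34878537212) (nat_lit 1) (nat_lit 5) (nat_lit 3) (nat_lit 4) (nat_lit 1) (nat_lit 4) (nat_lit 234) (nat_lit 190) (nat_lit 176))))))))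
noncomputable def xc11 : XT := (XT.nd (nat_lit 1482) (nat_lit 0) (nat_lit 0) (XT.nd (nat_lit 702) (nat_lit 0) (nat_lit 0) (XT.nd (nat_lit 312) (nat_lit 0) (nat_lit 0) (XT.nd (nat_lit 156) (nat_lit 0) (nat_lit 0) (XT.nd (nat_lit 78) (nat_lit 0) (nat_lit 0) (XT.lf (nat_lit 0) (nat_lit 46629948536) (nat_lit 152) (nat_lit 96837739673) (nat_lit 0) (nat_lit 43120113168) (nat_lit 1) (nat_lit 5) (nat_lit 3) (nat_lit 4) (nat_lit 1) (nat_lit 4) (nat_lit 235) (nat_lit 190) (nat_lit 175)) (XT.lf (nat_lit 0) (nat_lit 56106218922) (nat_lit 152) (nat_lit 105684965353) (nat_lit 0) (nat_lit 52532238863) (nat_lit 1) (nat_lit 5) (nat_lit 3) (nat_lit 4) (nat_lit 1) (nat_lit 4) (nat_lit 236) (nat_lit 190) (nat_lit 174))) (XT.nd (nat_lit 78) (nat_lit 0) (nat_lit 0) (XT.lf (nat_lit 0) (nat_lit 66928822634) (nat_lit 152) (nat_lit 115997655422) (nat_lit 0) (nat_lit 63299064582) (nat_lit 1) (nat_lit 5) (nat_lit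 3) (nat_lit 4) (nat_lit 1) (nat_lit 4) (nat_lit 237) (nat_lit 190) (nat_lit 173)) (XT.lf (nat_lit 0) (nat_lit 79309506266) (nat_lit 152) (nat_lit 127977579904) (nat_lit 0) (nat_lit 75631245612) (nat_lit 1) (nat_lit 5) (nat_lit 3) (nat_lit 4) (nat_lit 1) (nat_lit 4) (nat_lit 238) (nat_lit 190) (nat_lit 172)))) (XT.nd (nat_lit 156) (nat_lit 0) (nat_lit 0) (XT.nd (nat_lit 78) (nat_lit 0) (nat_lit 0) (XT.lf (nat_lit 0) (nat_lit 93490500584) (nat_lit 152) (nat_lit 141859128625) (nat_lit 0) (nat_lit 89770063755) (nat_lit 1) (nat_lit 5) (nat_lit 3) (nat_lit 4) (nat_lit 1) (nat_lit 4) (nat_lit 239) (nat_lit 190) (nat_lit 171)) (XT.lf (nat_lit 0) (nat_lit 109749259826) (nat_lit 152) (nat_lit 157913897104) (nat_lit 0) (nat_lit 105992148061) (nat_lit 1) (nat_lit 5) (nat_lit 3) (nat_lit 4) (nat_lit 1) (nat_lit 4) (nat_lit 240) (nat_lit 190) (nat_lit 170))) (XT.nd (nat_lit 78) (nat_lit 0) (nat_lit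 0) (XT.lf (nat_lit 0) (nat_lit 128403890150) (nat_lit 152) (nat_lit 176456000376) (nat_lit 0) (nat_lit 124614887137) (nat_lit 1) (nat_lit 5) (nat_lit 3) (nat_lit 4) (nat_lit 1) (nat_lit 4) (nat_lit 241) (nat_lit 190) (nat_lit 169)) (XT.nd (nat_lit 78) (nat_lit 0) (nat_lit 0) (XT.lf (nat_lit 0) (nat_lit 149819373454) (nat_lit 152) (nat_lit 197848218722) (nat_lit 0) (nat_lit 146002638921) (nat_lit 1) (nat_lit 5) (nat_lit 3) (nat_lit 4) (nat_lit 1) (nat_lit 4) (nat_lit 242) (nat_lit 190) (nat_lit 168)) (XT.lf (nat_lit 0) (nat_lit 174414708325) (nat_lit 152) (nat_lit 222509095546) (nat_lit 0) (nat_lit 170573859427) (nat_lit 1) (nat_lit 5) (nat_lit 3) (nat_lit 4) (nat_lit 1) (nat_lit 4) (nat_lit 243) (nat_lit 190) (nat_lit 167)))))) (XT.nd (nat_lit 390) (nat_lit 0) (nat_lit 0) (XT.nd (nat_lit 156) (nat_lit 0) (nat_lit 0) (XT.nd (nat_lit 78) (nat_lit 0) (nat_lit 0) (XT.lf (nat_lit 0) (nat_lit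 202671107836) (nat_lit 152) (nat_lit 250921126263) (nat_lit 0) (nat_lit 198809289924) (nat_lit 1) (nat_lit 5) (nat_lit 3) (nat_lit 4) (nat_lit 1) (nat_lit 4) (nat_lit 244) (nat_lit 190) (nat_lit 166)) (XT.lf (nat_lit 0) (nat_lit 235141414585) (nat_lit 152) (nat_lit 283640198430) (nat_lit 0) (nat_lit 231261362749) (nat_lit 1) (nat_lit 5) (nat_lit 3) (nat_lit 4) (nat_lit 1) (nat_lit 4) (nat_lit 245) (nat_lit 190) (nat_lit 165))) (XT.nd (nat_lit 78) (nat_lit 0) (nat_lit 0) (XT.lf (nat_lit 0) (nat_lit 272460917185) (nat_lit 152) (nat_lit 321306467808) (nat_lit 0) (nat_lit 268565009762) (nat_lit 1) (nat_lit 5) (nat_lit 3) (nat_lit 4) (nat_lit 1) (nat_lit 4) (nat_lit 246) (nat_lit 190) (nat_lit 164)) (XT.nd (nat_lit 78) (nat_lit 0) (nat_lit 0) (XT.lf (nat_lit 0) (nat_lit 315359779815) (nat_lit 152) (nat_lit 364656883146) (nat_lit 0) (nat_lit 311450084925) (nat_lit 1) (nat_lit 5) (nat_lit 3)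 (nat_lit 4) (nat_lit 1) (nat_lit 4) (nat_lit 247) (nat_lit 190) (nat_lit 163)) (XT.lf (nat_lit 0) (nat_lit 364677328049) (nat_lit 152) (nat_lit 414539604742) (nat_lit 0) (nat_lit 360755644058) (nat_lit 1) (nat_lit 5) (nat_lit 3) (nat_lit 4) (nat_lit 1) (nat_lit 4) (nat_lit 248) (nat_lit 190) (nat_lit 162))))) (XT.nd (nat_lit 156) (nat_lit 0) (nat_lit 0) (XT.nd (nat_lit 78) (nat_lit 0) (nat_lit 0) (XT.lf (nat_lit 0) (nat_lit 421378470439) (nat_lit 152) (nat_lit 471930598890) (nat_lit 0) (nat_lit 417446361143) (nat_lit 1) (nat_lit 5) (nat_lit 3) (nat_lit 4) (nat_lit 1) (nat_lit 4) (nat_lit 249) (nat_lit 190) (nat_lit 161)) (XT.lf (nat_lit 0) (nat_lit 486572577163) (nat_lit 152) (nat_lit 537952732866) (nat_lit 0) (nat_lit 482631402383) (nat_lit 1) (nat_lit 5) (nat_lit 3) (nat_lit 4) (nat_lit 1) (nat_lit 4) (nat_lit 250) (nat_lit 190) (nat_lit 160))) (XT.nd (nat_lit 78) (nat_lit 0) (nat_lit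 0) (XT.lf (nat_lit 0) (nat_lit 561535185091) (nat_lit 152) (nat_lit 613897744074) (nat_lit 0) (nat_lit 557586127283) (nat_lit 1) (nat_lit 5) (nat_lit 3) (nat_lit 4) (nat_lit 1) (nat_lit 4) (nat_lit 251) (nat_lit 190) (nat_lit 159)) (XT.nd (nat_lit 78) (nat_lit 0) (nat_lit 0) (XT.lf (nat_lit 0) (nat_lit 647732953944) (nat_lit 152) (nat_lit 701251513168) (nat_lit 0) (nat_lit 643777041328) (nat_lit 1) (nat_lit 5) (nat_lit 3) (nat_lit 4) (nat_lit 1) (nat_lit 4) (nat_lit 252) (nat_lit 190) (nat_lit 158)) (XT.lf (nat_lit 0) (nat_lit 746852361807) (nat_lit 152) (nat_lit 801723135630) (nat_lit 0) (nat_lit 742890488489) (nat_lit 1) (nat_lit 5) (nat_lit 3) (nat_lit 4) (nat_lit 1) (nat_lit 4) (nat_lit 253) (nat_lit 190) (nat_lit 157))))))) (XT.nd (nat_lit 28626) (nat_lit 0) (nat_lit 0) (XT.nd (nat_lit 312) (nat_lit 0) (nat_lit 0) (XT.nd (nat_lit 156) (nat_lit 0) (nat_lit 0) (XT.nd (nat_lit 78) (nat_lit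 0) (nat_lit 0) (XT.lf (nat_lit 0) (nat_lit 860832701444) (nat_lit 152) (nat_lit 917278360596) (nat_lit 0) (nat_lit 856865644906) (nat_lit 1) (nat_lit 5) (nat_lit 3) (nat_lit 4) (nat_lit 1) (nat_lit 4) (nat_lit 254) (nat_lit 190) (nat_lit 156)) (XT.lf (nat_lit 0) (nat_lit 991904022977) (nat_lit 152) (nat_lit 1050178051163) (nat_lit 0) (nat_lit 987932459292) (nat_lit 1) (nat_lit 5) (nat_lit 3) (nat_lit 4) (nat_lit 1) (nat_lit 4) (nat_lit 255) (nat_lit 190) (nat_lit 155))) (XT.nd (nat_lit 78) (nat_lit 0) (nat_lit 0) (XT.lf (nat_lit 0) (nat_lit 1142630765307) (nat_lit 152) (nat_lit 1203022418667) (nat_lit 0) (nat_lit 1138655282364) (nat_lit 1) (nat_lit 5) (nat_lit 3) (nat_lit 4) (nat_lit 1) (nat_lit 4) (nat_lit 256) (nat_lit 190) (nat_lit 154)) (XT.lf (nat_lit 0) (nat_lit 1315961929913) (nat_lit 152) (nat_lit 1378801896387) (nat_lit 0) (nat_lit 1311983038919) (nat_lit 1) (nat_lit 5) (nat_lit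 3) (nat_lit 4) (nat_lit 1) (nat_lit 4) (nat_lit 257) (nat_lit 190) (nat_lit 153)))) (XT.nd (nat_lit 156) (nat_lit 0) (nat_lit 0) (XT.nd (nat_lit 78) (nat_lit 0) (nat_lit 0) (XT.lf (nat_lit 0) (nat_lit 1515288778713) (nat_lit 152) (nat_lit 1580955648016) (nat_lit 0) (nat_lit 1511306924196) (nat_lit 1) (nat_lit 5) (nat_lit 3) (nat_lit 4) (nat_lit 1) (nat_lit 4) (nat_lit 258) (nat_lit 190) (nat_lit 152)) (XT.lf (nat_lit 0) (nat_lit 1744511184833) (nat_lit 152) (nat_lit 1813438855652) (nat_lit 0) (nat_lit 1740526753340) (nat_lit 1) (nat_lit 5) (nat_lit 3) (nat_lit 4) (nat_lit 1) (nat_lit 4) (nat_lit 259) (nat_lit 190) (nat_lit 151))) (XT.nd (nat_lit 28002) (nat_lit 0) (nat_lit 380) (XT.lf (nat_lit 0) (nat_lit 2008113934482) (nat_lit 152) (nat_lit 2080800103792) (nat_lit 0) (nat_lit 2004127262141) (nat_lit 1) (nat_lit 5) (nat_lit 3) (nat_lit 4) (nat_lit 1) (nat_lit 4) (nat_lit 260) (nat_lit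 190) (nat_lit 150)) (XT.nd (nat_lit 78) (nat_lit 0) (nat_lit 0) (XT.lf (nat_lit 0) (nat_lit 3717537947) (nat_lit 76) (nat_lit 3143341078) (nat_lit 76) (nat_lit 3143341078) (nat_lit 6) (nat_lit 4) (nat_lit 7) (nat_lit 5) (nat_lit 7) (nat_lit 4) (nat_lit 218) (nat_lit 191) (nat_lit 191)) (XT.lf (nat_lit 0) (nat_lit 19989123690) (nat_lit 76) (nat_lit 1586935746) (nat_lit 76) (nat_lit 886813827) (nat_lit 6) (nat_lit 4) (nat_lit 7) (nat_lit 5) (nat_lit 7) (nat_lit 4) (nat_lit 219) (nat_lit 191) (nat_lit 190)))))) (XT.nd (nat_lit 390) (nat_lit 152) (nat_lit 0) (XT.nd (nat_lit 156) (nat_lit 76) (nat_lit 0) (XT.nd (nat_lit 78) (nat_lit 0) (nat_lit 0) (XT.lf (nat_lit 0) (nat_lit 4772600424) (nat_lit 152) (nat_lit 16966202015) (nat_lit 0) (nat_lit 3560634139) (nat_lit 4) (nat_lit 5) (nat_lit 6) (nat_lit 4) (nat_lit 4) (nat_lit 4) (nat_lit 220) (nat_lit 191) (nat_lit 189)) (XT.lf (nat_lit 0) (nat_lit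 10814304899) (nat_lit 152) (nat_lit 8667587779) (nat_lit 0) (nat_lit 9112160137) (nat_lit 4) (nat_lit 5) (nat_lit 6) (nat_lit 4) (nat_lit 4) (nat_lit 4) (nat_lit 221) (nat_lit 191) (nat_lit 188))) (XT.nd (nat_lit 78) (nat_lit 0) (nat_lit 0) (XT.lf (nat_lit 0) (nat_lit 49928703) (nat_lit 76) (nat_lit 17249721883) (nat_lit 76) (nat_lit 15121334967) (nat_lit 3) (nat_lit 4) (nat_lit 4) (nat_lit 5) (nat_lit 4) (nat_lit 4) (nat_lit 222) (nat_lit 191) (nat_lit 187)) (XT.nd (nat_lit 78) (nat_lit 0) (nat_lit 0) (XT.lf (nat_lit 0) (nat_lit 9841686795) (nat_lit 76) (nat_lit 14746904839) (nat_lit 76) (nat_lit 12247872571) (nat_lit 3) (nat_lit 4) (nat_lit 4) (nat_lit 5) (nat_lit 4) (nat_lit 4) (nat_lit 223) (nat_lit 191) (nat_lit 186)) (XT.lf (nat_lit 0) (nat_lit 20442844560) (nat_lit 76) (nat_lit 12161460597) (nat_lit 76) (nat_lit 9340128024) (nat_lit 3) (nat_lit 4) (nat_lit 4) (nat_lit 5) (nat_lit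 4) (nat_lit 4) (nat_lit 224) (nat_lit 191) (nat_lit 185))))) (XT.nd (nat_lit 156) (nat_lit 152) (nat_lit 0) (XT.nd (nat_lit 78) (nat_lit 0) (nat_lit 0) (XT.lf (nat_lit 0) (nat_lit 32060815954) (nat_lit 76) (nat_lit 9442804379) (nat_lit 76) (nat_lit 6341210671) (nat_lit 3) (nat_lit 4) (nat_lit 4) (nat_lit 5) (nat_lit 4) (nat_lit 4) (nat_lit 225) (nat_lit 191) (nat_lit 184)) (XT.lf (nat_lit 0) (nat_lit 44922909114) (nat_lit 76) (nat_lit 6537745084) (nat_lit 76) (nat_lit 3192446041) (nat_lit 3) (nat_lit 4) (nat_lit 4) (nat_lit 5) (nat_lit 4) (nat_lit 4) (nat_lit 226) (nat_lit 191) (nat_lit 183))) (XT.nd (nat_lit 78) (nat_lit 76) (nat_lit 0) (XT.lf (nat_lit 0) (nat_lit 159379487) (nat_lit 152) (nat_lit 3225707390) (nat_lit 76) (nat_lit 59117036482) (nat_lit 2) (nat_lit 5) (nat_lit 4) (nat_lit 5) (nat_lit 3) (nat_lit 4) (nat_lit 227) (nat_lit 191) (nat_lit 182)) (XT.nd (nat_lit 78) (nat_lit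 0) (nat_lit 0) (XT.lf (nat_lit 0) (nat_lit 3716858640) (nat_lit 152) (nat_lit 67561588004) (nat_lit 0) (nat_lit 252513296) (nat_lit 1) (nat_lit 5) (nat_lit 3) (nat_lit 4) (nat_lit 1) (nat_lit 4) (nat_lit 228) (nat_lit 191) (nat_lit 181)) (XT.lf (nat_lit 0) (nat_lit 7798148366) (nat_lit 152) (nat_lit 69931714177) (nat_lit 0) (nat_lit 4185432454) (nat_lit 1) (nat_lit 5) (nat_lit 3) (nat_lit 4) (nat_lit 1) (nat_lit 4) (nat_lit 229) (nat_lit 191) (nat_lit 180))))))))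
noncomputable def xc12 : XT := (XT.nd (nat_lit 1482) (nat_lit 0) (nat_lit 0) (XT.nd (nat_lit 702) (nat_lit 0) (nat_lit 0) (XT.nd (nat_lit 312) (nat_lit 0) (nat_lit 0) (XT.nd (nat_lit 156) (nat_lit 0) (nat_lit 0) (XT.nd (nat_lit 78) (nat_lit 0) (nat_lit 0) (XT.lf (nat_lit 0) (nat_lit 12317903959) (nat_lit 152) (nat_lit 72977441868) (nat_lit 0) (nat_lit 8576170162) (nat_lit 1) (nat_lit 5) (nat_lit 3) (nat_lit 4) (nat_lit 1) (nat_lit 4) (nat_lit 230) (nat_lit 191) (nat_lit 179)) (XT.lf (nat_lit 0) (nat_lit 17364555420) (nat_lit 152) (nat_lit 76758361401) (nat_lit 0) (nat_lit 13510632157) (nat_lit 1) (nat_lit 5) (nat_lit 3) (nat_lit 4) (nat_lit 1) (nat_lit 4) (nat_lit 231) (nat_lit 191) (nat_lit 178))) (XT.nd (nat_lit 78) (nat_lit 0) (nat_lit 0) (XT.lf (nat_lit 0) (nat_lit 23036841581) (nat_lit 152) (nat_lit 81348447289) (nat_lit 0) (nat_lit 19085362261) (nat_lit 1) (nat_lit 5) (nat_lit 3)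 (nat_lit 4) (nat_lit 1) (nat_lit 4) (nat_lit 232) (nat_lit 191) (nat_lit 177)) (XT.lf (nat_lit 0) (nat_lit 29445741955) (nat_lit 152) (nat_lit 86837505559) (nat_lit 0) (nat_lit 25409431281) (nat_lit 1) (nat_lit 5) (nat_lit 3) (nat_lit 4) (nat_lit 1) (nat_lit 4) (nat_lit 233) (nat_lit 191) (nat_lit 176)))) (XT.nd (nat_lit 156) (nat_lit 0) (nat_lit 0) (XT.nd (nat_lit 78) (nat_lit 0) (nat_lit 0) (XT.lf (nat_lit 0) (nat_lit 36716648069) (nat_lit 152) (nat_lit 93332930831) (nat_lit 0) (nat_lit 32606571001) (nat_lit 1) (nat_lit 5) (nat_lit 3) (nat_lit 4) (nat_lit 1) (nat_lit 4) (nat_lit 234) (nat_lit 191) (nat_lit 175)) (XT.lf (nat_lit 0) (nat_lit 44991816784) (nat_lit 152) (nat_lit 100961807512) (nat_lit 0) (nat_lit 40817595024) (nat_lit 1) (nat_lit 5) (nat_lit 3) (nat_lit 4) (nat_lit 1) (nat_lit 4) (nat_lit 235) (nat_lit 191) (nat_lit 174))) (XT.nd (nat_lit 78) (nat_lit 0) (nat_lit 0) (XT.lf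 (nat_lit 0) (nat_lit 54433153574) (nat_lit 152) (nat_lit 109873396233) (nat_lit 0) (nat_lit 50203153822) (nat_lit 1) (nat_lit 5) (nat_lit 3) (nat_lit 4) (nat_lit 1) (nat_lit 4) (nat_lit 236) (nat_lit 191) (nat_lit 173)) (XT.nd (nat_lit 78) (nat_lit 0) (nat_lit 0) (XT.lf (nat_lit 0) (nat_lit 65225380245) (nat_lit 152) (nat_lit 120242054164) (nat_lit 0) (nat_lit 60946877891) (nat_lit 1) (nat_lit 5) (nat_lit 3) (nat_lit 4) (nat_lit 1) (nat_lit 4) (nat_lit 237) (nat_lit 191) (nat_lit 172)) (XT.lf (nat_lit 0) (nat_lit 77579649059) (nat_lit 152) (nat_lit 132270646351) (nat_lit 0) (nat_lit 73258970530) (nat_lit 1) (nat_lit 5) (nat_lit 3) (nat_lit 4) (nat_lit 1) (nat_lit 4) (nat_lit 238) (nat_lit 191) (nat_lit 171)))))) (XT.nd (nat_lit 390) (nat_lit 0) (nat_lit 0) (XT.nd (nat_lit 156) (nat_lit 0) (nat_lit 0) (XT.nd (nat_lit 78) (nat_lit 0) (nat_lit 0) (XT.lf (nat_lit 0) (nat_lit 91737673971)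 (nat_lit 152) (nat_lit 146194514816) (nat_lit 0) (nat_lit 87380320506) (nat_lit 1) (nat_lit 5) (nat_lit 3) (nat_lit 4) (nat_lit 1) (nat_lit 4) (nat_lit 239) (nat_lit 191) (nat_lit 170)) (XT.lf (nat_lit 0) (nat_lit 107976459815) (nat_lit 152) (nat_lit 162286083072) (nat_lit 0) (nat_lit 103587215103) (nat_lit 1) (nat_lit 5) (nat_lit 3) (nat_lit 4) (nat_lit 1) (nat_lit 4) (nat_lit 240) (nat_lit 191) (nat_lit 169))) (XT.nd (nat_lit 78) (nat_lit 0) (nat_lit 0) (XT.lf (nat_lit 0) (nat_lit 126613721968) (nat_lit 152) (nat_lit 180860186151) (nat_lit 0) (nat_lit 122196745735) (nat_lit 1) (nat_lit 5) (nat_lit 3) (nat_lit 4) (nat_lit 1) (nat_lit 4) (nat_lit 241) (nat_lit 191) (nat_lit 168)) (XT.nd (nat_lit 78) (nat_lit 0) (nat_lit 0) (XT.lf (nat_lit 0) (nat_lit 148014102515) (nat_lit 152) (nat_lit 202280230416) (nat_lit 0) (nat_lit 143573011916) (nat_lit 1) (nat_lit 5) (nat_lit 3) (nat_lit 4) (nat_lit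 1) (nat_lit 4) (nat_lit 242) (nat_lit 191) (nat_lit 167)) (XT.lf (nat_lit 0) (nat_lit 172596304553) (nat_lit 152) (nat_lit 226965303691) (nat_lit 0) (nat_lit 168134244941) (nat_lit 1) (nat_lit 5) (nat_lit 3) (nat_lit 4) (nat_lit 1) (nat_lit 4) (nat_lit 243) (nat_lit 191) (nat_lit 166))))) (XT.nd (nat_lit 156) (nat_lit 0) (nat_lit 0) (XT.nd (nat_lit 78) (nat_lit 0) (nat_lit 0) (XT.lf (nat_lit 0) (nat_lit 200841284209) (nat_lit 152) (nat_lit 255398374800) (nat_lit 0) (nat_lit 196360990672) (nat_lit 1) (nat_lit 5) (nat_lit 3) (nat_lit 4) (nat_lit 1) (nat_lit 4) (nat_lit 244) (nat_lit 191) (nat_lit 165)) (XT.lf (nat_lit 0) (nat_lit 233301660650) (nat_lit 152) (nat_lit 288135742960) (nat_lit 0) (nat_lit 228805511527) (nat_lit 1) (nat_lit 5) (nat_lit 3) (nat_lit 4) (nat_lit 1) (nat_lit 4) (nat_lit 245) (nat_lit 191) (nat_lit 164))) (XT.nd (nat_lit 78) (nat_lit 0) (nat_lit 0) (XT.lf (nat_lit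 0) (nat_lit 270612528198) (nat_lit 152) (nat_lit 325817921898) (nat_lit 0) (nat_lit 266102591609) (nat_lit 1) (nat_lit 5) (nat_lit 3) (nat_lit 4) (nat_lit 1) (nat_lit 4) (nat_lit 246) (nat_lit 191) (nat_lit 163)) (XT.nd (nat_lit 78) (nat_lit 0) (nat_lit 0) (XT.lf (nat_lit 0) (nat_lit 313503882089) (nat_lit 152) (nat_lit 369182171634) (nat_lit 0) (nat_lit 308981956398) (nat_lit 1) (nat_lit 5) (nat_lit 3) (nat_lit 4) (nat_lit 1) (nat_lit 4) (nat_lit 247) (nat_lit 191) (nat_lit 162)) (XT.lf (nat_lit 0) (nat_lit 362814900984) (nat_lit 152) (nat_lit 419076923143) (nat_lit 0) (nat_lit 358282549987) (nat_lit 1) (nat_lit 5) (nat_lit 3) (nat_lit 4) (nat_lit 1) (nat_lit 4) (nat_lit 248) (nat_lit 191) (nat_lit 161))))))) (XT.nd (nat_lit 702) (nat_lit 0) (nat_lit 0) (XT.nd (nat_lit 312) (nat_lit 0) (nat_lit 0) (XT.nd (nat_lit 156) (nat_lit 0) (nat_lit 0) (XT.nd (nat_lit 78) (nat_lit 0) (nat_lit 0)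 (XT.lf (nat_lit 0) (nat_lit 419510365688) (nat_lit 152) (nat_lit 476478378084) (nat_lit 0) (nat_lit 414968949208) (nat_lit 1) (nat_lit 5) (nat_lit 3) (nat_lit 4) (nat_lit 1) (nat_lit 4) (nat_lit 249) (nat_lit 191) (nat_lit 160)) (XT.lf (nat_lit 0) (nat_lit 484699535294) (nat_lit 152) (nat_lit 542509608402) (nat_lit 0) (nat_lit 480150235785) (nat_lit 1) (nat_lit 5) (nat_lit 3) (nat_lit 4) (nat_lit 1) (nat_lit 4) (nat_lit 250) (nat_lit 191) (nat_lit 159))) (XT.nd (nat_lit 78) (nat_lit 0) (nat_lit 0) (XT.lf (nat_lit 0) (nat_lit 559657850075) (nat_lit 152) (nat_lit 618462529473) (nat_lit 0) (nat_lit 555101695759) (nat_lit 1) (nat_lit 5) (nat_lit 3) (nat_lit 4) (nat_lit 1) (nat_lit 4) (nat_lit 251) (nat_lit 191) (nat_lit 158)) (XT.lf (nat_lit 0) (nat_lit 645851885757) (nat_lit 152) (nat_lit 705823176709) (nat_lit 0) (nat_lit 641289770739) (nat_lit 1) (nat_lit 5) (nat_lit 3) (nat_lit 4) (nat_lit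 1) (nat_lit 4) (nat_lit 252) (nat_lit 191) (nat_lit 157)))) (XT.nd (nat_lit 156) (nat_lit 0) (nat_lit 0) (XT.nd (nat_lit 78) (nat_lit 0) (nat_lit 0) (XT.lf (nat_lit 0) (nat_lit 744968047385) (nat_lit 152) (nat_lit 806300780164) (nat_lit 0) (nat_lit 740400749148) (nat_lit 1) (nat_lit 5) (nat_lit 3) (nat_lit 4) (nat_lit 1) (nat_lit 4) (nat_lit 253) (nat_lit 191) (nat_lit 156)) (XT.lf (nat_lit 0) (nat_lit 858945564209) (nat_lit 152) (nat_lit 921861205993) (nat_lit 0) (nat_lit 854373758824) (nat_lit 1) (nat_lit 5) (nat_lit 3) (nat_lit 4) (nat_lit 1) (nat_lit 4) (nat_lit 254) (nat_lit 191) (nat_lit 155))) (XT.nd (nat_lit 78) (nat_lit 0) (nat_lit 0) (XT.lf (nat_lit 0) (nat_lit 990014431122) (nat_lit 152) (nat_lit 1054765419049) (nat_lit 0) (nat_lit 985438706478) (nat_lit 1) (nat_lit 5) (nat_lit 3) (nat_lit 4) (nat_lit 1) (nat_lit 4) (nat_lit 255) (nat_lit 191) (nat_lit 154)) (XT.nd (nat_lit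 78) (nat_lit 0) (nat_lit 0) (XT.lf (nat_lit 0) (nat_lit 1140739038999) (nat_lit 152) (nat_lit 1207613719154) (nat_lit 0) (nat_lit 1136159906305) (nat_lit 1) (nat_lit 5) (nat_lit 3) (nat_lit 4) (nat_lit 1) (nat_lit 4) (nat_lit 256) (nat_lit 191) (nat_lit 153)) (XT.lf (nat_lit 0) (nat_lit 1314068347560) (nat_lit 152) (nat_lit 1383396616525) (nat_lit 0) (nat_lit 1309486251343) (nat_lit 1) (nat_lit 5) (nat_lit 3) (nat_lit 4) (nat_lit 1) (nat_lit 4) (nat_lit 257) (nat_lit 191) (nat_lit 152)))))) (XT.nd (nat_lit 28158) (nat_lit 0) (nat_lit 228) (XT.nd (nat_lit 156) (nat_lit 0) (nat_lit 0) (XT.nd (nat_lit 78) (nat_lit 0) (nat_lit 0) (XT.lf (nat_lit 0) (nat_lit 1513393582406) (nat_lit 152) (nat_lit 1585553341765) (nat_lit 0) (nat_lit 1508808909213) (nat_lit 1) (nat_lit 5) (nat_lit 3) (nat_lit 4) (nat_lit 1) (nat_lit 4) (nat_lit 258) (nat_lit 191) (nat_lit 151)) (XT.lf (nat_lit 0) (nat_lit 1742614585090)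 (nat_lit 152) (nat_lit 1818039135149) (nat_lit 0) (nat_lit 1738027671048) (nat_lit 1) (nat_lit 5) (nat_lit 3) (nat_lit 4) (nat_lit 1) (nat_lit 4) (nat_lit 259) (nat_lit 191) (nat_lit 150))) (XT.nd (nat_lit 27846) (nat_lit 0) (nat_lit 456) (XT.lf (nat_lit 0) (nat_lit 2006216114359) (nat_lit 152) (nat_lit 2085402631765) (nat_lit 0) (nat_lit 2001627251753) (nat_lit 1) (nat_lit 5) (nat_lit 3) (nat_lit 4) (nat_lit 1) (nat_lit 4) (nat_lit 260) (nat_lit 191) (nat_lit 149)) (XT.nd (nat_lit 78) (nat_lit 0) (nat_lit 0) (XT.lf (nat_lit 0) (nat_lit 388754223) (nat_lit 152) (nat_lit 7272752588) (nat_lit 0) (nat_lit 388754223) (nat_lit 7) (nat_lit 5) (nat_lit 9) (nat_lit 4) (nat_lit 7) (nat_lit 4) (nat_lit 216) (nat_lit 192) (nat_lit 192)) (XT.lf (nat_lit 0) (nat_lit 7243209488) (nat_lit 152) (nat_lit 4230773169) (nat_lit 0) (nat_lit 6438069282) (nat_lit 7) (nat_lit 5) (nat_lit 9) (nat_lit 4) (nat_lit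 7) (nat_lit 4) (nat_lit 217) (nat_lit 192) (nat_lit 191))))) (XT.nd (nat_lit 156) (nat_lit 152) (nat_lit 0) (XT.nd (nat_lit 78) (nat_lit 0) (nat_lit 0) (XT.lf (nat_lit 0) (nat_lit 6915131058) (nat_lit 76) (nat_lit 7311713661) (nat_lit 76) (nat_lit 5806451535) (nat_lit 6) (nat_lit 4) (nat_lit 7) (nat_lit 5) (nat_lit 7) (nat_lit 4) (nat_lit 218) (nat_lit 192) (nat_lit 190)) (XT.lf (nat_lit 0) (nat_lit 19017052908) (nat_lit 76) (nat_lit 2803177073) (nat_lit 76) (nat_lit 689113278) (nat_lit 6) (nat_lit 4) (nat_lit 7) (nat_lit 5) (nat_lit 7) (nat_lit 4) (nat_lit 219) (nat_lit 192) (nat_lit 189))) (XT.nd (nat_lit 78) (nat_lit 0) (nat_lit 0) (XT.lf (nat_lit 0) (nat_lit 4656617728) (nat_lit 152) (nat_lit 18504835518) (nat_lit 0) (nat_lit 2208972775) (nat_lit 4) (nat_lit 5) (nat_lit 6) (nat_lit 4) (nat_lit 4) (nat_lit 4) (nat_lit 220) (nat_lit 192) (nat_lit 188)) (XT.nd (nat_lit 78) (nat_lit 0)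 (nat_lit 0) (XT.lf (nat_lit 0) (nat_lit 10482594182) (nat_lit 152) (nat_lit 10591517805) (nat_lit 0) (nat_lit 7608707075) (nat_lit 4) (nat_lit 5) (nat_lit 6) (nat_lit 4) (nat_lit 4) (nat_lit 4) (nat_lit 221) (nat_lit 192) (nat_lit 187)) (XT.lf (nat_lit 0) (nat_lit 16779149499) (nat_lit 152) (nat_lit 2211539413) (nat_lit 0) (nat_lit 13534617040) (nat_lit 4) (nat_lit 5) (nat_lit 6) (nat_lit 4) (nat_lit 4) (nat_lit 4) (nat_lit 222) (nat_lit 192) (nat_lit 186))))))))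
noncomputable def xc13 : XT := (XT.nd (nat_lit 1482) (nat_lit 0) (nat_lit 0) (XT.nd (nat_lit 702) (nat_lit 0) (nat_lit 0) (XT.nd (nat_lit 312) (nat_lit 152) (nat_lit 0) (XT.nd (nat_lit 156) (nat_lit 0) (nat_lit 0) (XT.nd (nat_lit 78) (nat_lit 0) (nat_lit 0) (XT.lf (nat_lit 0) (nat_lit 7157081982) (nat_lit 76) (nat_lit 16684523163) (nat_lit 76) (nat_lit 13117690399) (nat_lit 3) (nat_lit 4) (nat_lit 4) (nat_lit 5) (nat_lit 4) (nat_lit 4) (nat_lit 223) (nat_lit 192) (nat_lit 185)) (XT.lf (nat_lit 0) (nat_lit 17491560661) (nat_lit 76) (nat_lit 14217499693) (nat_lit 76) (nat_lit 10370405794) (nat_lit 3) (nat_lit 4) (nat_lit 4) (nat_lit 5) (nat_lit 4) (nat_lit 4) (nat_lit 224) (nat_lit 192) (nat_lit 184))) (XT.nd (nat_lit 78) (nat_lit 0) (nat_lit 0) (XT.lf (nat_lit 0) (nat_lit 28877637198) (nat_lit 76) (nat_lit 11601818059) (nat_lit 76) (nat_lit 7511018825) (nat_lit 3) (nat_lit 4) (nat_lit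 4) (nat_lit 5) (nat_lit 4) (nat_lit 4) (nat_lit 225) (nat_lit 192) (nat_lit 183)) (XT.lf (nat_lit 0) (nat_lit 41538082655) (nat_lit 76) (nat_lit 8786301881) (nat_lit 76) (nat_lit 4483584964) (nat_lit 3) (nat_lit 4) (nat_lit 4) (nat_lit 5) (nat_lit 4) (nat_lit 4) (nat_lit 226) (nat_lit 192) (nat_lit 182)))) (XT.nd (nat_lit 156) (nat_lit 76) (nat_lit 0) (XT.nd (nat_lit 78) (nat_lit 76) (nat_lit 0) (XT.lf (nat_lit 0) (nat_lit 55720601401) (nat_lit 76) (nat_lit 5715864973) (nat_lit 76) (nat_lit 1228871810) (nat_lit 3) (nat_lit 4) (nat_lit 4) (nat_lit 5) (nat_lit 4) (nat_lit 4) (nat_lit 227) (nat_lit 192) (nat_lit 181)) (XT.lf (nat_lit 0) (nat_lit 2200904096) (nat_lit 152) (nat_lit 69352854) (nat_lit 76) (nat_lit 69441596782) (nat_lit 2) (nat_lit 5) (nat_lit 4) (nat_lit 5) (nat_lit 3) (nat_lit 4) (nat_lit 228) (nat_lit 192) (nat_lit 180))) (XT.nd (nat_lit 78) (nat_lit 0) (nat_lit 0) (XT.lf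 (nat_lit 0) (nat_lit 6144989185) (nat_lit 152) (nat_lit 74249355507) (nat_lit 0) (nat_lit 1712977432) (nat_lit 1) (nat_lit 5) (nat_lit 3) (nat_lit 4) (nat_lit 1) (nat_lit 4) (nat_lit 229) (nat_lit 192) (nat_lit 179)) (XT.nd (nat_lit 78) (nat_lit 0) (nat_lit 0) (XT.lf (nat_lit 0) (nat_lit 10594480838) (nat_lit 152) (nat_lit 77424540262) (nat_lit 0) (nat_lit 6050279620) (nat_lit 1) (nat_lit 5) (nat_lit 3) (nat_lit 4) (nat_lit 1) (nat_lit 4) (nat_lit 230) (nat_lit 192) (nat_lit 178)) (XT.lf (nat_lit 0) (nat_lit 15580033220) (nat_lit 152) (nat_lit 81318031155) (nat_lit 0) (nat_lit 10938275945) (nat_lit 1) (nat_lit 5) (nat_lit 3) (nat_lit 4) (nat_lit 1) (nat_lit 4) (nat_lit 231) (nat_lit 192) (nat_lit 177)))))) (XT.nd (nat_lit 390) (nat_lit 0) (nat_lit 0) (XT.nd (nat_lit 156) (nat_lit 0) (nat_lit 0) (XT.nd (nat_lit 78) (nat_lit 0) (nat_lit 0) (XT.lf (nat_lit 0) (nat_lit 21199189748) (nat_lit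 152) (nat_lit 86006005182) (nat_lit 0) (nat_lit 16472601119) (nat_lit 1) (nat_lit 5) (nat_lit 3) (nat_lit 4) (nat_lit 1) (nat_lit 4) (nat_lit 232) (nat_lit 192) (nat_lit 176)) (XT.lf (nat_lit 0) (nat_lit 27561890440) (nat_lit 152) (nat_lit 91580183574) (nat_lit 0) (nat_lit 22761535416) (nat_lit 1) (nat_lit 5) (nat_lit 3) (nat_lit 4) (nat_lit 1) (nat_lit 4) (nat_lit 233) (nat_lit 192) (nat_lit 175))) (XT.nd (nat_lit 78) (nat_lit 0) (nat_lit 0) (XT.lf (nat_lit 0) (nat_lit 34792622919) (nat_lit 152) (nat_lit 98149626343) (nat_lit 0) (nat_lit 29928123204) (nat_lit 1) (nat_lit 5) (nat_lit 3) (nat_lit 4) (nat_lit 1) (nat_lit 4) (nat_lit 234) (nat_lit 192) (nat_lit 174)) (XT.nd (nat_lit 78) (nat_lit 0) (nat_lit 0) (XT.lf (nat_lit 0) (nat_lit 43032858037) (nat_lit 152) (nat_lit 105842866065) (nat_lit 0) (nat_lit 38112580330) (nat_lit 1) (nat_lit 5) (nat_lit 3) (nat_lit 4) (nat_lit 1) (nat_lit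 4) (nat_lit 235) (nat_lit 192) (nat_lit 173)) (XT.lf (nat_lit 0) (nat_lit 52443817786) (nat_lit 152) (nat_lit 114810422647) (nat_lit 0) (nat_lit 47475037477) (nat_lit 1) (nat_lit 5) (nat_lit 3) (nat_lit 4) (nat_lit 1) (nat_lit 4) (nat_lit 236) (nat_lit 192) (nat_lit 172))))) (XT.nd (nat_lit 156) (nat_lit 0) (nat_lit 0) (XT.nd (nat_lit 78) (nat_lit 0) (nat_lit 0) (XT.lf (nat_lit 0) (nat_lit 63209629640) (nat_lit 152) (nat_lit 125227748283) (nat_lit 0) (nat_lit 58198673155) (nat_lit 1) (nat_lit 5) (nat_lit 3) (nat_lit 4) (nat_lit 1) (nat_lit 4) (nat_lit 237) (nat_lit 192) (nat_lit 171)) (XT.lf (nat_lit 0) (nat_lit 75540929047) (nat_lit 152) (nat_lit 137298660215) (nat_lit 0) (nat_lit 70493297627) (nat_lit 1) (nat_lit 5) (nat_lit 3) (nat_lit 4) (nat_lit 1) (nat_lit 4) (nat_lit 238) (nat_lit 192) (nat_lit 170))) (XT.nd (nat_lit 78) (nat_lit 0) (nat_lit 0) (XT.lf (nat_lit 0) (nat_lit 89678980562)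 (nat_lit 152) (nat_lit 151259328457) (nat_lit 0) (nat_lit 84599457894) (nat_lit 1) (nat_lit 5) (nat_lit 3) (nat_lit 4) (nat_lit 1) (nat_lit 4) (nat_lit 239) (nat_lit 192) (nat_lit 169)) (XT.nd (nat_lit 78) (nat_lit 0) (nat_lit 0) (XT.lf (nat_lit 0) (nat_lit 105900398235) (nat_lit 152) (nat_lit 167382896520) (nat_lit 0) (nat_lit 100793144047) (nat_lit 1) (nat_lit 5) (nat_lit 3) (nat_lit 4) (nat_lit 1) (nat_lit 4) (nat_lit 240) (nat_lit 192) (nat_lit 168)) (XT.lf (nat_lit 0) (nat_lit 124522557630) (nat_lit 152) (nat_lit 185984825517) (nat_lit 0) (nat_lit 119391189077) (nat_lit 1) (nat_lit 5) (nat_lit 3) (nat_lit 4) (nat_lit 1) (nat_lit 4) (nat_lit 241) (nat_lit 192) (nat_lit 167))))))) (XT.nd (nat_lit 702) (nat_lit 0) (nat_lit 0) (XT.nd (nat_lit 312) (nat_lit 0) (nat_lit 0) (XT.nd (nat_lit 156) (nat_lit 0) (nat_lit 0) (XT.nd (nat_lit 78) (nat_lit 0) (nat_lit 0) (XT.lf (nat_lit 0) (nat_lit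 145909805344) (nat_lit 152) (nat_lit 207429066233) (nat_lit 0) (nat_lit 140757467777) (nat_lit 1) (nat_lit 5) (nat_lit 3) (nat_lit 4) (nat_lit 1) (nat_lit 4) (nat_lit 242) (nat_lit 192) (nat_lit 166)) (XT.lf (nat_lit 0) (nat_lit 170480587527) (nat_lit 152) (nat_lit 232135179900) (nat_lit 0) (nat_lit 165310016036) (nat_lit 1) (nat_lit 5) (nat_lit 3) (nat_lit 4) (nat_lit 1) (nat_lit 4) (nat_lit 243) (nat_lit 192) (nat_lit 165))) (XT.nd (nat_lit 78) (nat_lit 0) (nat_lit 0) (XT.lf (nat_lit 0) (nat_lit 198715636874) (nat_lit 152) (nat_lit 260586547002) (nat_lit 0) (nat_lit 193529209797) (nat_lit 1) (nat_lit 5) (nat_lit 3) (nat_lit 4) (nat_lit 1) (nat_lit 4) (nat_lit 244) (nat_lit 192) (nat_lit 164)) (XT.lf (nat_lit 0) (nat_lit 231167378265) (nat_lit 152) (nat_lit 293339824722) (nat_lit 0) (nat_lit 225967163721) (nat_lit 1) (nat_lit 5) (nat_lit 3) (nat_lit 4) (nat_lit 1) (nat_lit 4) (nat_lit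 245) (nat_lit 192) (nat_lit 163)))) (XT.nd (nat_lit 156) (nat_lit 0) (nat_lit 0) (XT.nd (nat_lit 78) (nat_lit 0) (nat_lit 0) (XT.lf (nat_lit 0) (nat_lit 268470737074) (nat_lit 152) (nat_lit 331035838059) (nat_lit 0) (nat_lit 263258533428) (nat_lit 1) (nat_lit 5) (nat_lit 3) (nat_lit 4) (nat_lit 1) (nat_lit 4) (nat_lit 246) (nat_lit 192) (nat_lit 162)) (XT.lf (nat_lit 0) (nat_lit 311355561625) (nat_lit 152) (nat_lit 374412117708) (nat_lit 0) (nat_lit 306132932674) (nat_lit 1) (nat_lit 5) (nat_lit 3) (nat_lit 4) (nat_lit 1) (nat_lit 4) (nat_lit 247) (nat_lit 192) (nat_lit 161))) (XT.nd (nat_lit 78) (nat_lit 0) (nat_lit 0) (XT.lf (nat_lit 0) (nat_lit 360660902834) (nat_lit 152) (nat_lit 424317330010) (nat_lit 0) (nat_lit 355429208399) (nat_lit 1) (nat_lit 5) (nat_lit 3) (nat_lit 4) (nat_lit 1) (nat_lit 4) (nat_lit 248) (nat_lit 192) (nat_lit 160)) (XT.nd (nat_lit 78) (nat_lit 0) (nat_lit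 0) (XT.lf (nat_lit 0) (nat_lit 417351430420) (nat_lit 152) (nat_lit 481727881294) (nat_lit 0) (nat_lit 412111852957) (nat_lit 1) (nat_lit 5) (nat_lit 3) (nat_lit 4) (nat_lit 1) (nat_lit 4) (nat_lit 249) (nat_lit 192) (nat_lit 159)) (XT.lf (nat_lit 0) (nat_lit 482536306879) (nat_lit 152) (nat_lit 547767021474) (nat_lit 0) (nat_lit 477289874608) (nat_lit 1) (nat_lit 5) (nat_lit 3) (nat_lit 4) (nat_lit 1) (nat_lit 4) (nat_lit 250) (nat_lit 192) (nat_lit 158)))))) (XT.nd (nat_lit 390) (nat_lit 0) (nat_lit 0) (XT.nd (nat_lit 156) (nat_lit 0) (nat_lit 0) (XT.nd (nat_lit 78) (nat_lit 0) (nat_lit 0) (XT.lf (nat_lit 0) (nat_lit 557490888490) (nat_lit 152) (nat_lit 623726820687) (nat_lit 0) (nat_lit 552238495517) (nat_lit 1) (nat_lit 5) (nat_lit 3) (nat_lit 4) (nat_lit 1) (nat_lit 4) (nat_lit 251) (nat_lit 192) (nat_lit 157)) (XT.lf (nat_lit 0) (nat_lit 643681677937) (nat_lit 152) (nat_lit 711093448915)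 (nat_lit 0) (nat_lit 638424101744) (nat_lit 1) (nat_lit 5) (nat_lit 3) (nat_lit 4) (nat_lit 1) (nat_lit 4) (nat_lit 252) (nat_lit 192) (nat_lit 156))) (XT.nd (nat_lit 78) (nat_lit 0) (nat_lit 0) (XT.lf (nat_lit 0) (nat_lit 742795016751) (nat_lit 152) (nat_lit 811576253233) (nat_lit 0) (nat_lit 737532933411) (nat_lit 1) (nat_lit 5) (nat_lit 3) (nat_lit 4) (nat_lit 1) (nat_lit 4) (nat_lit 253) (nat_lit 192) (nat_lit 155)) (XT.nd (nat_lit 78) (nat_lit 0) (nat_lit 0) (XT.lf (nat_lit 0) (nat_lit 856770078954) (nat_lit 152) (nat_lit 927141201552) (nat_lit 0) (nat_lit 851504076356) (nat_lit 1) (nat_lit 5) (nat_lit 3) (nat_lit 4) (nat_lit 1) (nat_lit 4) (nat_lit 254) (nat_lit 192) (nat_lit 154)) (XT.lf (nat_lit 0) (nat_lit 987836811415) (nat_lit 152) (nat_lit 1060049347208) (nat_lit 0) (nat_lit 982567400766) (nat_lit 1) (nat_lit 5) (nat_lit 3) (nat_lit 4) (nat_lit 1) (nat_lit 4) (nat_lit 255)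 (nat_lit 192) (nat_lit 153))))) (XT.nd (nat_lit 156) (nat_lit 0) (nat_lit 0) (XT.nd (nat_lit 78) (nat_lit 0) (nat_lit 0) (XT.lf (nat_lit 0) (nat_lit 1138559563247) (nat_lit 152) (nat_lit 1212901066964) (nat_lit 0) (nat_lit 1133287189075) (nat_lit 1) (nat_lit 5) (nat_lit 3) (nat_lit 4) (nat_lit 1) (nat_lit 4) (nat_lit 256) (nat_lit 192) (nat_lit 152)) (XT.lf (nat_lit 0) (nat_lit 1311887257855) (nat_lit 152) (nat_lit 1388686937946) (nat_lit 0) (nat_lit 1306612306707) (nat_lit 1) (nat_lit 5) (nat_lit 3) (nat_lit 4) (nat_lit 1) (nat_lit 4) (nat_lit 257) (nat_lit 192) (nat_lit 151))) (XT.nd (nat_lit 78) (nat_lit 0) (nat_lit 0) (XT.lf (nat_lit 0) (nat_lit 1511211089264) (nat_lit 152) (nat_lit 1590846248934) (nat_lit 0) (nat_lit 1505933897267) (nat_lit 1) (nat_lit 5) (nat_lit 3) (nat_lit 4) (nat_lit 1) (nat_lit 4) (nat_lit 258) (nat_lit 192) (nat_lit 150)) (XT.nd (nat_lit 78) (nat_lit 0) (nat_lit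 0) (XT.lf (nat_lit 0) (nat_lit 1740430871567) (nat_lit 152) (nat_lit 1823334290795) (nat_lit 0) (nat_lit 1735151731006) (nat_lit 1) (nat_lit 5) (nat_lit 3) (nat_lit 4) (nat_lit 1) (nat_lit 4) (nat_lit 259) (nat_lit 192) (nat_lit 149)) (XT.lf (nat_lit 0) (nat_lit 2004031339636) (nat_lit 152) (nat_lit 2090699742608) (nat_lit 0) (nat_lit 1998750504672) (nat_lit 1) (nat_lit 5) (nat_lit 3) (nat_lit 4) (nat_lit 1) (nat_lit 4) (nat_lit 260) (nat_lit 192) (nat_lit 148))))))))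
noncomputable def xc14 : XT := (XT.nd (nat_lit 1482) (nat_lit 0) (nat_lit 0) (XT.nd (nat_lit 702) (nat_lit 228) (nat_lit 0) (XT.nd (nat_lit 312) (nat_lit 228) (nat_lit 0) (XT.nd (nat_lit 156) (nat_lit 152) (nat_lit 0) (XT.nd (nat_lit 78) (nat_lit 152) (nat_lit 0) (XT.lf (nat_lit 0) (nat_lit 1664953198) (nat_lit 152) (nat_lit 3262743613) (nat_lit 0) (nat_lit 1664953198) (nat_lit 11) (nat_lit 5) (nat_lit 13) (nat_lit 4) (nat_lit 11) (nat_lit 4) (nat_lit 214) (nat_lit 193) (nat_lit 193)) (XT.lf (nat_lit 0) (nat_lit 4790502359) (nat_lit 152) (nat_lit 5373521590) (nat_lit 152) (nat_lit 4373537453) (nat_lit 9) (nat_lit 4) (nat_lit 11) (nat_lit 5) (nat_lit 11) (nat_lit 4) (nat_lit 215) (nat_lit 193) (nat_lit 192))) (XT.nd (nat_lit 78) (nat_lit 0) (nat_lit 0) (XT.lf (nat_lit 0) (nat_lit 1004628647) (nat_lit 76) (nat_lit 377181067) (nat_lit 152) (nat_lit 14745420677) (nat_lit 7) (nat_lit 5) (nat_lit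 8) (nat_lit 5) (nat_lit 9) (nat_lit 4) (nat_lit 216) (nat_lit 193) (nat_lit 191)) (XT.lf (nat_lit 0) (nat_lit 7550890689) (nat_lit 152) (nat_lit 5292733613) (nat_lit 0) (nat_lit 5119717326) (nat_lit 7) (nat_lit 5) (nat_lit 9) (nat_lit 4) (nat_lit 7) (nat_lit 4) (nat_lit 217) (nat_lit 193) (nat_lit 190)))) (XT.nd (nat_lit 156) (nat_lit 152) (nat_lit 0) (XT.nd (nat_lit 78) (nat_lit 0) (nat_lit 0) (XT.lf (nat_lit 0) (nat_lit 5345123714) (nat_lit 76) (nat_lit 8901601010) (nat_lit 76) (nat_lit 5861625977) (nat_lit 6) (nat_lit 4) (nat_lit 7) (nat_lit 5) (nat_lit 7) (nat_lit 4) (nat_lit 218) (nat_lit 193) (nat_lit 189)) (XT.lf (nat_lit 0) (nat_lit 17053892568) (nat_lit 76) (nat_lit 4559333833) (nat_lit 76) (nat_lit 989966046) (nat_lit 6) (nat_lit 4) (nat_lit 7) (nat_lit 5) (nat_lit 7) (nat_lit 4) (nat_lit 219) (nat_lit 193) (nat_lit 188))) (XT.nd (nat_lit 78) (nat_lit 0) (nat_lit 0) (XT.lf (nat_lit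 0) (nat_lit 4059422382) (nat_lit 152) (nat_lit 21102651571) (nat_lit 0) (nat_lit 328210055) (nat_lit 4) (nat_lit 5) (nat_lit 6) (nat_lit 4) (nat_lit 4) (nat_lit 4) (nat_lit 220) (nat_lit 193) (nat_lit 187)) (XT.nd (nat_lit 78) (nat_lit 0) (nat_lit 0) (XT.lf (nat_lit 0) (nat_lit 9697809252) (nat_lit 152) (nat_lit 13524374314) (nat_lit 0) (nat_lit 5595951573) (nat_lit 4) (nat_lit 5) (nat_lit 6) (nat_lit 4) (nat_lit 4) (nat_lit 4) (nat_lit 221) (nat_lit 193) (nat_lit 186)) (XT.lf (nat_lit 0) (nat_lit 15831243192) (nat_lit 152) (nat_lit 5435735448) (nat_lit 0) (nat_lit 11407085207) (nat_lit 4) (nat_lit 5) (nat_lit 6) (nat_lit 4) (nat_lit 4) (nat_lit 4) (nat_lit 222) (nat_lit 193) (nat_lit 185)))))) (XT.nd (nat_lit 390) (nat_lit 152) (nat_lit 0) (XT.nd (nat_lit 156) (nat_lit 0) (nat_lit 0) (XT.nd (nat_lit 78) (nat_lit 0) (nat_lit 0) (XT.lf (nat_lit 0) (nat_lit 3496426412) (nat_lit 76) (nat_lit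 19167388896) (nat_lit 76) (nat_lit 14462969776) (nat_lit 3) (nat_lit 4) (nat_lit 4) (nat_lit 5) (nat_lit 4) (nat_lit 4) (nat_lit 223) (nat_lit 193) (nat_lit 184)) (XT.lf (nat_lit 0) (nat_lit 13599010233) (nat_lit 76) (nat_lit 16803340010) (nat_lit 76) (nat_lit 11855215556) (nat_lit 3) (nat_lit 4) (nat_lit 4) (nat_lit 5) (nat_lit 4) (nat_lit 4) (nat_lit 224) (nat_lit 193) (nat_lit 183))) (XT.nd (nat_lit 78) (nat_lit 0) (nat_lit 0) (XT.lf (nat_lit 0) (nat_lit 24783439067) (nat_lit 76) (nat_lit 14277201493) (nat_lit 76) (nat_lit 9117159356) (nat_lit 3) (nat_lit 4) (nat_lit 4) (nat_lit 5) (nat_lit 4) (nat_lit 4) (nat_lit 225) (nat_lit 193) (nat_lit 182)) (XT.nd (nat_lit 78) (nat_lit 0) (nat_lit 0) (XT.lf (nat_lit 0) (nat_lit 37268538697) (nat_lit 76) (nat_lit 11539548895) (nat_lit 76) (nat_lit 6195230512) (nat_lit 3) (nat_lit 4) (nat_lit 4) (nat_lit 5) (nat_lit 4) (nat_lit 4) (nat_lit 226)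 (nat_lit 193) (nat_lit 181)) (XT.lf (nat_lit 0) (nat_lit 51298582809) (nat_lit 76) (nat_lit 8536819448) (nat_lit 76) (nat_lit 3032260851) (nat_lit 3) (nat_lit 4) (nat_lit 4) (nat_lit 5) (nat_lit 4) (nat_lit 4) (nat_lit 227) (nat_lit 193) (nat_lit 180))))) (XT.nd (nat_lit 156) (nat_lit 0) (nat_lit 0) (XT.nd (nat_lit 78) (nat_lit 76) (nat_lit 0) (XT.lf (nat_lit 0) (nat_lit 411941695) (nat_lit 152) (nat_lit 4787059185) (nat_lit 76) (nat_lit 66724867357) (nat_lit 2) (nat_lit 5) (nat_lit 4) (nat_lit 5) (nat_lit 3) (nat_lit 4) (nat_lit 228) (nat_lit 193) (nat_lit 179)) (XT.lf (nat_lit 0) (nat_lit 2813509588) (nat_lit 76) (nat_lit 1310803932) (nat_lit 152) (nat_lit 78213696657) (nat_lit 1) (nat_lit 5) (nat_lit 2) (nat_lit 5) (nat_lit 3) (nat_lit 4) (nat_lit 229) (nat_lit 193) (nat_lit 178))) (XT.nd (nat_lit 78) (nat_lit 0) (nat_lit 0) (XT.lf (nat_lit 0) (nat_lit 8481181229) (nat_lit 152) (nat_lit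 82780731840) (nat_lit 0) (nat_lit 3045604306) (nat_lit 1) (nat_lit 5) (nat_lit 3) (nat_lit 4) (nat_lit 1) (nat_lit 4) (nat_lit 230) (nat_lit 193) (nat_lit 177)) (XT.nd (nat_lit 78) (nat_lit 0) (nat_lit 0) (XT.lf (nat_lit 0) (nat_lit 13413603978) (nat_lit 152) (nat_lit 86772110873) (nat_lit 0) (nat_lit 7893195701) (nat_lit 1) (nat_lit 5) (nat_lit 3) (nat_lit 4) (nat_lit 1) (nat_lit 4) (nat_lit 231) (nat_lit 193) (nat_lit 176)) (XT.lf (nat_lit 0) (nat_lit 18986560824) (nat_lit 152) (nat_lit 91545205021) (nat_lit 0) (nat_lit 13392386152) (nat_lit 1) (nat_lit 5) (nat_lit 3) (nat_lit 4) (nat_lit 1) (nat_lit 4) (nat_lit 232) (nat_lit 193) (nat_lit 175))))))) (XT.nd (nat_lit 702) (nat_lit 0) (nat_lit 0) (XT.nd (nat_lit 312) (nat_lit 0) (nat_lit 0) (XT.nd (nat_lit 156) (nat_lit 0) (nat_lit 0) (XT.nd (nat_lit 78) (nat_lit 0) (nat_lit 0) (XT.lf (nat_lit 0) (nat_lit 25309087881) (nat_lit 152) (nat_lit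 97193400910) (nat_lit 0) (nat_lit 19650768517) (nat_lit 1) (nat_lit 5) (nat_lit 3) (nat_lit 4) (nat_lit 1) (nat_lit 4) (nat_lit 233) (nat_lit 193) (nat_lit 174)) (XT.lf (nat_lit 0) (nat_lit 32504886763) (nat_lit 152) (nat_lit 103827206720) (nat_lit 0) (nat_lit 26790789408) (nat_lit 1) (nat_lit 5) (nat_lit 3) (nat_lit 4) (nat_lit 1) (nat_lit 4) (nat_lit 234) (nat_lit 193) (nat_lit 173))) (XT.nd (nat_lit 78) (nat_lit 0) (nat_lit 0) (XT.lf (nat_lit 0) (nat_lit 40714744841) (nat_lit 152) (nat_lit 111576414303) (nat_lit 0) (nat_lit 34952144884) (nat_lit 1) (nat_lit 5) (nat_lit 3) (nat_lit 4) (nat_lit 1) (nat_lit 4) (nat_lit 235) (nat_lit 193) (nat_lit 172)) (XT.lf (nat_lit 0) (nat_lit 50099289773) (nat_lit 152) (nat_lit 120592638590) (nat_lit 0) (nat_lit 44294513640) (nat_lit 1) (nat_lit 5) (nat_lit 3) (nat_lit 4) (nat_lit 1) (nat_lit 4) (nat_lit 236) (nat_lit 193) (nat_lit 171)))) (XT.nd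 (nat_lit 156) (nat_lit 0) (nat_lit 0) (XT.nd (nat_lit 78) (nat_lit 0) (nat_lit 0) (XT.lf (nat_lit 0) (nat_lit 60842132220) (nat_lit 152) (nat_lit 131052283970) (nat_lit 0) (nat_lit 55000681151) (nat_lit 1) (nat_lit 5) (nat_lit 3) (nat_lit 4) (nat_lit 1) (nat_lit 4) (nat_lit 237) (nat_lit 193) (nat_lit 170)) (XT.lf (nat_lit 0) (nat_lit 73153458230) (nat_lit 152) (nat_lit 143159995679) (nat_lit 0) (nat_lit 67280115913) (nat_lit 1) (nat_lit 5) (nat_lit 3) (nat_lit 4) (nat_lit 1) (nat_lit 4) (nat_lit 238) (nat_lit 193) (nat_lit 169))) (XT.nd (nat_lit 78) (nat_lit 0) (nat_lit 0) (XT.lf (nat_lit 0) (nat_lit 87274141573) (nat_lit 152) (nat_lit 157152663728) (nat_lit 0) (nat_lit 81373067736) (nat_lit 1) (nat_lit 5) (nat_lit 3) (nat_lit 4) (nat_lit 1) (nat_lit 4) (nat_lit 239) (nat_lit 193) (nat_lit 168)) (XT.nd (nat_lit 78) (nat_lit 0) (nat_lit 0) (XT.lf (nat_lit 0) (nat_lit 103480456488) (nat_lit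 152) (nat_lit 173304057709) (nat_lit 0) (nat_lit 97555268287) (nat_lit 1) (nat_lit 5) (nat_lit 3) (nat_lit 4) (nat_lit 1) (nat_lit 4) (nat_lit 240) (nat_lit 193) (nat_lit 167)) (XT.lf (nat_lit 0) (nat_lit 122089483050) (nat_lit 152) (nat_lit 191930183157) (nat_lit 0) (nat_lit 116143325835) (nat_lit 1) (nat_lit 5) (nat_lit 3) (nat_lit 4) (nat_lit 1) (nat_lit 4) (nat_lit 241) (nat_lit 193) (nat_lit 166)))))) (XT.nd (nat_lit 390) (nat_lit 0) (nat_lit 0) (XT.nd (nat_lit 156) (nat_lit 0) (nat_lit 0) (XT.nd (nat_lit 78) (nat_lit 0) (nat_lit 0) (XT.lf (nat_lit 0) (nat_lit 143465310909) (nat_lit 152) (nat_lit 213395464266) (nat_lit 0) (nat_lit 137500919770) (nat_lit 1) (nat_lit 5) (nat_lit 3) (nat_lit 4) (nat_lit 1) (nat_lit 4) (nat_lit 242) (nat_lit 193) (nat_lit 165)) (XT.lf (nat_lit 0) (nat_lit 168026162784) (nat_lit 152) (nat_lit 238119873926) (nat_lit 0) (nat_lit 162045916058) (nat_lit 1)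 (nat_lit 5) (nat_lit 3) (nat_lit 4) (nat_lit 1) (nat_lit 4) (nat_lit 243) (nat_lit 193) (nat_lit 164))) (XT.nd (nat_lit 78) (nat_lit 0) (nat_lit 0) (XT.lf (nat_lit 0) (nat_lit 196252577081) (nat_lit 152) (nat_lit 266587150587) (nat_lit 0) (nat_lit 190258542888) (nat_lit 1) (nat_lit 5) (nat_lit 3) (nat_lit 4) (nat_lit 1) (nat_lit 4) (nat_lit 244) (nat_lit 193) (nat_lit 163)) (XT.nd (nat_lit 78) (nat_lit 0) (nat_lit 0) (XT.lf (nat_lit 0) (nat_lit 228696809732) (nat_lit 152) (nat_lit 299354262707) (nat_lit 0) (nat_lit 222690786438) (nat_lit 1) (nat_lit 5) (nat_lit 3) (nat_lit 4) (nat_lit 1) (nat_lit 4) (nat_lit 245) (nat_lit 193) (nat_lit 162)) (XT.lf (nat_lit 0) (nat_lit 265993639202) (nat_lit 152) (nat_lit 337062305956) (nat_lit 0) (nat_lit 259977190602) (nat_lit 1) (nat_lit 5) (nat_lit 3) (nat_lit 4) (nat_lit 1) (nat_lit 4) (nat_lit 246) (nat_lit 193) (nat_lit 161))))) (XT.nd (nat_lit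 156) (nat_lit 0) (nat_lit 0) (XT.nd (nat_lit 78) (nat_lit 0) (nat_lit 0) (XT.lf (nat_lit 0) (nat_lit 308872786067) (nat_lit 152) (nat_lit 380449046398) (nat_lit 0) (nat_lit 302847271984) (nat_lit 1) (nat_lit 5) (nat_lit 3) (nat_lit 4) (nat_lit 1) (nat_lit 4) (nat_lit 247) (nat_lit 193) (nat_lit 160)) (XT.lf (nat_lit 0) (nat_lit 358173190158) (nat_lit 152) (nat_lit 430363355043) (nat_lit 0) (nat_lit 352139793046) (nat_lit 1) (nat_lit 5) (nat_lit 3) (nat_lit 4) (nat_lit 1) (nat_lit 4) (nat_lit 248) (nat_lit 193) (nat_lit 159))) (XT.nd (nat_lit 78) (nat_lit 0) (nat_lit 0) (XT.lf (nat_lit 0) (nat_lit 414859424597) (nat_lit 152) (nat_lit 487781816189) (nat_lit 0) (nat_lit 408819172678) (nat_lit 1) (nat_lit 5) (nat_lit 3) (nat_lit 4) (nat_lit 1) (nat_lit 4) (nat_lit 249) (nat_lit 193) (nat_lit 158)) (XT.nd (nat_lit 78) (nat_lit 0) (nat_lit 0) (XT.lf (nat_lit 0) (nat_lit 480040567886) (nat_lit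 152) (nat_lit 553827834511) (nat_lit 0) (nat_lit 473994355264) (nat_lit 1) (nat_lit 5) (nat_lit 3) (nat_lit 4) (nat_lit 1) (nat_lit 4) (nat_lit 250) (nat_lit 193) (nat_lit 157)) (XT.lf (nat_lit 0) (nat_lit 554991903261) (nat_lit 152) (nat_lit 629793614716) (nat_lit 0) (nat_lit 548940507420) (nat_lit 1) (nat_lit 5) (nat_lit 3) (nat_lit 4) (nat_lit 1) (nat_lit 4) (nat_lit 251) (nat_lit 193) (nat_lit 156))))))))
noncomputable def xc15 : XT := (XT.nd (nat_lit 28938) (nat_lit 0) (nat_lit 0) (XT.nd (nat_lit 28158) (nat_lit 0) (nat_lit 228) (XT.nd (nat_lit 312) (nat_lit 0) (nat_lit 0) (XT.nd (nat_lit 156) (nat_lit 0) (nat_lit 0) (XT.nd (nat_lit 78) (nat_lit 0) (nat_lit 0) (XT.lf (nat_lit 0) (nat_lit 641179869894) (nat_lit 152) (nat_lit 717165443808) (nat_lit 0) (nat_lit 635123966906) (nat_lit 1) (nat_lit 5) (nat_lit 3) (nat_lit 4) (nat_lit 1) (nat_lit 4) (nat_lit 252) (nat_lit 193) (nat_lit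 155)) (XT.lf (nat_lit 0) (nat_lit 740290754089) (nat_lit 152) (nat_lit 817652770616) (nat_lit 0) (nat_lit 734230931842) (nat_lit 1) (nat_lit 5) (nat_lit 3) (nat_lit 4) (nat_lit 1) (nat_lit 4) (nat_lit 253) (nat_lit 193) (nat_lit 154))) (XT.nd (nat_lit 78) (nat_lit 0) (nat_lit 0) (XT.lf (nat_lit 0) (nat_lit 854263681839) (nat_lit 152) (nat_lit 933221651534) (nat_lit 0) (nat_lit 848200451541) (nat_lit 1) (nat_lit 5) (nat_lit 3) (nat_lit 4) (nat_lit 1) (nat_lit 4) (nat_lit 254) (nat_lit 193) (nat_lit 153)) (XT.lf (nat_lit 0) (nat_lit 985328558254) (nat_lit 152) (nat_lit 1066133216842) (nat_lit 0) (nat_lit 979262364434) (nat_lit 1) (nat_lit 5) (nat_lit 3) (nat_lit 4) (nat_lit 1) (nat_lit 4) (nat_lit 255) (nat_lit 193) (nat_lit 152)))) (XT.nd (nat_lit 156) (nat_lit 0) (nat_lit 0) (XT.nd (nat_lit 78) (nat_lit 0) (nat_lit 0) (XT.lf (nat_lit 0) (nat_lit 1136049696133) (nat_lit 152) (nat_lit 1218987910209)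 (nat_lit 0) (nat_lit 1129980925337) (nat_lit 1) (nat_lit 5) (nat_lit 3) (nat_lit 4) (nat_lit 1) (nat_lit 4) (nat_lit 256) (nat_lit 193) (nat_lit 151)) (XT.lf (nat_lit 0) (nat_lit 1309375987304) (nat_lit 152) (nat_lit 1394776366939) (nat_lit 0) (nat_lit 1303304975659) (nat_lit 1) (nat_lit 5) (nat_lit 3) (nat_lit 4) (nat_lit 1) (nat_lit 4) (nat_lit 257) (nat_lit 193) (nat_lit 150))) (XT.nd (nat_lit 78) (nat_lit 0) (nat_lit 0) (XT.lf (nat_lit 0) (nat_lit 1508698598333) (nat_lit 152) (nat_lit 1596937926403) (nat_lit 0) (nat_lit 1502625638124) (nat_lit 1) (nat_lit 5) (nat_lit 3) (nat_lit 4) (nat_lit 1) (nat_lit 4) (nat_lit 258) (nat_lit 193) (nat_lit 149)) (XT.nd (nat_lit 78) (nat_lit 0) (nat_lit 0) (XT.lf (nat_lit 0) (nat_lit 1737917319436) (nat_lit 152) (nat_lit 1829427923461) (nat_lit 0) (nat_lit 1731842664824) (nat_lit 1) (nat_lit 5) (nat_lit 3) (nat_lit 4) (nat_lit 1) (nat_lit 4) (nat_lit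 259) (nat_lit 193) (nat_lit 148)) (XT.lf (nat_lit 0) (nat_lit 2001516864722) (nat_lit 152) (nat_lit 2096795075446) (nat_lit 0) (nat_lit 1995440736715) (nat_lit 1) (nat_lit 5) (nat_lit 3) (nat_lit 4) (nat_lit 1) (nat_lit 4) (nat_lit 260) (nat_lit 193) (nat_lit 147)))))) (XT.nd (nat_lit 390) (nat_lit 304) (nat_lit 0) (XT.nd (nat_lit 156) (nat_lit 380) (nat_lit 0) (XT.nd (nat_lit 78) (nat_lit 152) (nat_lit 0) (XT.lf (nat_lit 0) (nat_lit 1697725161) (nat_lit 152) (nat_lit 2118186660) (nat_lit 0) (nat_lit 1697725161) (nat_lit 15) (nat_lit 5) (nat_lit 17) (nat_lit 4) (nat_lit 15) (nat_lit 4) (nat_lit 212) (nat_lit 194) (nat_lit 194)) (XT.lf (nat_lit 0) (nat_lit 7035829909) (nat_lit 152) (nat_lit 3119964772) (nat_lit 152) (nat_lit 1877984474) (nat_lit 13) (nat_lit 4) (nat_lit 15) (nat_lit 5) (nat_lit 15) (nat_lit 4) (nat_lit 213) (nat_lit 194) (nat_lit 193))) (XT.nd (nat_lit 78) (nat_lit 228)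 (nat_lit 0) (XT.lf (nat_lit 0) (nat_lit 4144915352) (nat_lit 152) (nat_lit 7073449605) (nat_lit 0) (nat_lit 1994949458) (nat_lit 11) (nat_lit 5) (nat_lit 13) (nat_lit 4) (nat_lit 11) (nat_lit 4) (nat_lit 214) (nat_lit 194) (nat_lit 192)) (XT.nd (nat_lit 78) (nat_lit 76) (nat_lit 0) (XT.lf (nat_lit 0) (nat_lit 3712105159) (nat_lit 152) (nat_lit 6949711569) (nat_lit 152) (nat_lit 3930194251) (nat_lit 9) (nat_lit 4) (nat_lit 11) (nat_lit 5) (nat_lit 11) (nat_lit 4) (nat_lit 215) (nat_lit 194) (nat_lit 191)) (XT.lf (nat_lit 0) (nat_lit 1507311372) (nat_lit 228) (nat_lit 640441335) (nat_lit 76) (nat_lit 14057579127) (nat_lit 8) (nat_lit 5) (nat_lit 11) (nat_lit 5) (nat_lit 9) (nat_lit 4) (nat_lit 216) (nat_lit 194) (nat_lit 190))))) (XT.nd (nat_lit 156) (nat_lit 152) (nat_lit 0) (XT.nd (nat_lit 78) (nat_lit 76) (nat_lit 0) (XT.lf (nat_lit 0) (nat_lit 7367132734) (nat_lit 152) (nat_lit 7437431988)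 (nat_lit 0) (nat_lit 3262359779) (nat_lit 7) (nat_lit 5) (nat_lit 9) (nat_lit 4) (nat_lit 7) (nat_lit 4) (nat_lit 217) (nat_lit 194) (nat_lit 189)) (XT.lf (nat_lit 0) (nat_lit 2694336327) (nat_lit 76) (nat_lit 11087450696) (nat_lit 76) (nat_lit 6453284985) (nat_lit 6) (nat_lit 4) (nat_lit 7) (nat_lit 5) (nat_lit 7) (nat_lit 4) (nat_lit 218) (nat_lit 194) (nat_lit 188))) (XT.nd (nat_lit 78) (nat_lit 152) (nat_lit 0) (XT.lf (nat_lit 0) (nat_lit 14061233011) (nat_lit 76) (nat_lit 6889765616) (nat_lit 76) (nat_lit 1795258379) (nat_lit 6) (nat_lit 4) (nat_lit 7) (nat_lit 5) (nat_lit 7) (nat_lit 4) (nat_lit 219) (nat_lit 194) (nat_lit 187)) (XT.nd (nat_lit 78) (nat_lit 0) (nat_lit 0) (XT.lf (nat_lit 0) (nat_lit 792956357) (nat_lit 76) (nat_lit 2230005457) (nat_lit 152) (nat_lit 22634103239) (nat_lit 4) (nat_lit 5) (nat_lit 5) (nat_lit 5) (nat_lit 6) (nat_lit 4) (nat_lit 220) (nat_lit 194) (nat_lit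 186)) (XT.lf (nat_lit 0) (nat_lit 8444595622) (nat_lit 152) (nat_lit 17523539279) (nat_lit 0) (nat_lit 3034513634) (nat_lit 4) (nat_lit 5) (nat_lit 6) (nat_lit 4) (nat_lit 4) (nat_lit 4) (nat_lit 221) (nat_lit 194) (nat_lit 185))))))) (XT.nd (nat_lit 702) (nat_lit 0) (nat_lit 0) (XT.nd (nat_lit 312) (nat_lit 152) (nat_lit 0) (XT.nd (nat_lit 156) (nat_lit 76) (nat_lit 0) (XT.nd (nat_lit 78) (nat_lit 0) (nat_lit 0) (XT.lf (nat_lit 0) (nat_lit 14436184885) (nat_lit 152) (nat_lit 9688239132) (nat_lit 0) (nat_lit 8745841763) (nat_lit 4) (nat_lit 5) (nat_lit 6) (nat_lit 4) (nat_lit 4) (nat_lit 4) (nat_lit 222) (nat_lit 194) (nat_lit 184)) (XT.lf (nat_lit 0) (nat_lit 21061324666) (nat_lit 152) (nat_lit 1151277219) (nat_lit 0) (nat_lit 15127276209) (nat_lit 4) (nat_lit 5) (nat_lit 6) (nat_lit 4) (nat_lit 4) (nat_lit 4) (nat_lit 223) (nat_lit 194) (nat_lit 183))) (XT.nd (nat_lit 78) (nat_lit 0)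 (nat_lit 0) (XT.lf (nat_lit 0) (nat_lit 8689034681) (nat_lit 76) (nat_lit 19969574076) (nat_lit 76) (nat_lit 13823607936) (nat_lit 3) (nat_lit 4) (nat_lit 4) (nat_lit 5) (nat_lit 4) (nat_lit 4) (nat_lit 224) (nat_lit 194) (nat_lit 182)) (XT.lf (nat_lit 0) (nat_lit 19698117687) (nat_lit 76) (nat_lit 17521299139) (nat_lit 76) (nat_lit 11191056753) (nat_lit 3) (nat_lit 4) (nat_lit 4) (nat_lit 5) (nat_lit 4) (nat_lit 4) (nat_lit 225) (nat_lit 194) (nat_lit 181)))) (XT.nd (nat_lit 156) (nat_lit 152) (nat_lit 0) (XT.nd (nat_lit 78) (nat_lit 0) (nat_lit 0) (XT.lf (nat_lit 0) (nat_lit 32030742684) (nat_lit 76) (nat_lit 14851354002) (nat_lit 76) (nat_lit 8360871402) (nat_lit 3) (nat_lit 4) (nat_lit 4) (nat_lit 5) (nat_lit 4) (nat_lit 4) (nat_lit 226) (nat_lit 194) (nat_lit 180)) (XT.lf (nat_lit 0) (nat_lit 45928200159) (nat_lit 76) (nat_lit 11907500607) (nat_lit 76) (nat_lit 5277678691) (nat_lit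 3) (nat_lit 4) (nat_lit 4) (nat_lit 5) (nat_lit 4) (nat_lit 4) (nat_lit 227) (nat_lit 194) (nat_lit 179))) (XT.nd (nat_lit 78) (nat_lit 152) (nat_lit 0) (XT.lf (nat_lit 0) (nat_lit 61662396889) (nat_lit 76) (nat_lit 8632141824) (nat_lit 76) (nat_lit 1881155285) (nat_lit 3) (nat_lit 4) (nat_lit 4) (nat_lit 5) (nat_lit 4) (nat_lit 4) (nat_lit 228) (nat_lit 194) (nat_lit 178)) (XT.nd (nat_lit 78) (nat_lit 76) (nat_lit 0) (XT.lf (nat_lit 0) (nat_lit 1800349329) (nat_lit 152) (nat_lit 3111620475) (nat_lit 76) (nat_lit 77691601785) (nat_lit 2) (nat_lit 5) (nat_lit 4) (nat_lit 5) (nat_lit 3) (nat_lit 4) (nat_lit 229) (nat_lit 194) (nat_lit 177)) (XT.lf (nat_lit 0) (nat_lit 5426435965) (nat_lit 76) (nat_lit 522795240) (nat_lit 152) (nat_lit 88640589652) (nat_lit 1) (nat_lit 5) (nat_lit 2) (nat_lit 5) (nat_lit 3) (nat_lit 4) (nat_lit 230) (nat_lit 194) (nat_lit 176)))))) (XT.nd (nat_lit 390) (nat_lit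 0) (nat_lit 0) (XT.nd (nat_lit 156) (nat_lit 0) (nat_lit 0) (XT.nd (nat_lit 78) (nat_lit 0) (nat_lit 0) (XT.lf (nat_lit 0) (nat_lit 10822881035) (nat_lit 152) (nat_lit 93227310809) (nat_lit 0) (nat_lit 4315813767) (nat_lit 1) (nat_lit 5) (nat_lit 3) (nat_lit 4) (nat_lit 1) (nat_lit 4) (nat_lit 231) (nat_lit 194) (nat_lit 175)) (XT.lf (nat_lit 0) (nat_lit 16355664245) (nat_lit 152) (nat_lit 98074422454) (nat_lit 0) (nat_lit 9784452287) (nat_lit 1) (nat_lit 5) (nat_lit 3) (nat_lit 4) (nat_lit 1) (nat_lit 4) (nat_lit 232) (nat_lit 194) (nat_lit 174))) (XT.nd (nat_lit 78) (nat_lit 0) (nat_lit 0) (XT.lf (nat_lit 0) (nat_lit 22643257705) (nat_lit 152) (nat_lit 103786981383) (nat_lit 0) (nat_lit 16016267754) (nat_lit 1) (nat_lit 5) (nat_lit 3) (nat_lit 4) (nat_lit 1) (nat_lit 4) (nat_lit 233) (nat_lit 194) (nat_lit 173)) (XT.nd (nat_lit 78) (nat_lit 0) (nat_lit 0) (XT.lf (nat_lit 0) (nat_lit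 29808679547) (nat_lit 152) (nat_lit 110476755054) (nat_lit 0) (nat_lit 23133186994) (nat_lit 1) (nat_lit 5) (nat_lit 3) (nat_lit 4) (nat_lit 1) (nat_lit 4) (nat_lit 234) (nat_lit 194) (nat_lit 172)) (XT.lf (nat_lit 0) (nat_lit 37992122807) (nat_lit 152) (nat_lit 118274630343) (nat_lit 0) (nat_lit 31274454079) (nat_lit 1) (nat_lit 5) (nat_lit 3) (nat_lit 4) (nat_lit 1) (nat_lit 4) (nat_lit 235) (nat_lit 194) (nat_lit 171))))) (XT.nd (nat_lit 156) (nat_lit 0) (nat_lit 0) (XT.nd (nat_lit 78) (nat_lit 0) (nat_lit 0) (XT.lf (nat_lit 0) (nat_lit 47353698332) (nat_lit 152) (nat_lit 127333174374) (nat_lit 0) (nat_lit 40599354669) (nat_lit 1) (nat_lit 5) (nat_lit 3) (nat_lit 4) (nat_lit 1) (nat_lit 4) (nat_lit 236) (nat_lit 194) (nat_lit 170)) (XT.lf (nat_lit 0) (nat_lit 58076567382) (nat_lit 152) (nat_lit 137829619532) (nat_lit 0) (nat_lit 51290332470) (nat_lit 1) (nat_lit 5) (nat_lit 3) (nat_lit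 4) (nat_lit 1) (nat_lit 4) (nat_lit 237) (nat_lit 194) (nat_lit 169))) (XT.nd (nat_lit 78) (nat_lit 0) (nat_lit 0) (XT.lf (nat_lit 0) (nat_lit 70370525221) (nat_lit 152) (nat_lit 149969331047) (nat_lit 0) (nat_lit 63556558789) (nat_lit 1) (nat_lit 5) (nat_lit 3) (nat_lit 4) (nat_lit 1) (nat_lit 4) (nat_lit 238) (nat_lit 194) (nat_lit 168)) (XT.nd (nat_lit 78) (nat_lit 0) (nat_lit 0) (XT.lf (nat_lit 0) (nat_lit 84476105806) (nat_lit 152) (nat_lit 163989825015) (nat_lit 0) (nat_lit 77638025009) (nat_lit 1) (nat_lit 5) (nat_lit 3) (nat_lit 4) (nat_lit 1) (nat_lit 4) (nat_lit 239) (nat_lit 194) (nat_lit 167)) (XT.lf (nat_lit 0) (nat_lit 100669287889) (nat_lit 152) (nat_lit 180165415447) (nat_lit 0) (nat_lit 93810238078) (nat_lit 1) (nat_lit 5) (nat_lit 3) (nat_lit 4) (nat_lit 1) (nat_lit 4) (nat_lit 240) (nat_lit 194) (nat_lit 166))))))))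
noncomputable def xc16 : XT := (XT.nd (nat_lit 1404) (nat_lit 0) (nat_lit 0) (XT.nd (nat_lit 702) (nat_lit 0) (nat_lit 0) (XT.nd (nat_lit 312) (nat_lit 0) (nat_lit 0) (XT.nd (nat_lit 156) (nat_lit 0) (nat_lit 0) (XT.nd (nat_lit 78) (nat_lit 0) (nat_lit 0) (XT.lf (nat_lit 0) (nat_lit 119266894596) (nat_lit 152) (nat_lit 198812581287) (nat_lit 0) (nat_lit 112389610861) (nat_lit 1) (nat_lit 5) (nat_lit 3) (nat_lit 4) (nat_lit 1) (nat_lit 4) (nat_lit 241) (nat_lit 194) (nat_lit 165)) (XT.lf (nat_lit 0) (nat_lit 140632792147) (nat_lit 152) (nat_lit 220296158389) (nat_lit 0) (nat_lit 133739652825) (nat_lit 1) (nat_lit 5) (nat_lit 3) (nat_lit 4) (nat_lit 1) (nat_lit 4) (nat_lit 242) (nat_lit 194) (nat_lit 164))) (XT.nd (nat_lit 78) (nat_lit 0) (nat_lit 0) (XT.lf (nat_lit 0) (nat_lit 165185008971) (nat_lit 152) (nat_lit 245036477608) (nat_lit 0) (nat_lit 158278082183) (nat_lit 1) (nat_lit 5)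 (nat_lit 3) (nat_lit 4) (nat_lit 1) (nat_lit 4) (nat_lit 243) (nat_lit 194) (nat_lit 163)) (XT.lf (nat_lit 0) (nat_lit 193403914528) (nat_lit 152) (nat_lit 273517588669) (nat_lit 0) (nat_lit 186484998638) (nat_lit 1) (nat_lit 5) (nat_lit 3) (nat_lit 4) (nat_lit 1) (nat_lit 4) (nat_lit 244) (nat_lit 194) (nat_lit 162)))) (XT.nd (nat_lit 156) (nat_lit 0) (nat_lit 0) (XT.nd (nat_lit 78) (nat_lit 0) (nat_lit 0) (XT.lf (nat_lit 0) (nat_lit 225841617840) (nat_lit 152) (nat_lit 306296730701) (nat_lit 0) (nat_lit 218912276645) (nat_lit 1) (nat_lit 5) (nat_lit 3) (nat_lit 4) (nat_lit 1) (nat_lit 4) (nat_lit 245) (nat_lit 194) (nat_lit 161)) (XT.lf (nat_lit 0) (nat_lit 263132769624) (nat_lit 152) (nat_lit 344015234744) (nat_lit 0) (nat_lit 256194362945) (nat_lit 1) (nat_lit 5) (nat_lit 3) (nat_lit 4) (nat_lit 1) (nat_lit 4) (nat_lit 246) (nat_lit 194) (nat_lit 160))) (XT.nd (nat_lit 78) (nat_lit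 0) (nat_lit 0) (XT.lf (nat_lit 0) (nat_lit 306006979371) (nat_lit 152) (nat_lit 387411071528) (nat_lit 0) (nat_lit 299060689664) (nat_lit 1) (nat_lit 5) (nat_lit 3) (nat_lit 4) (nat_lit 1) (nat_lit 4) (nat_lit 247) (nat_lit 194) (nat_lit 159)) (XT.nd (nat_lit 78) (nat_lit 0) (nat_lit 0) (XT.lf (nat_lit 0) (nat_lit 355303090315) (nat_lit 152) (nat_lit 437333290036) (nat_lit 0) (nat_lit 348349945800) (nat_lit 1) (nat_lit 5) (nat_lit 3) (nat_lit 4) (nat_lit 1) (nat_lit 4) (nat_lit 248) (nat_lit 194) (nat_lit 158)) (XT.lf (nat_lit 0) (nat_lit 411985591584) (nat_lit 152) (nat_lit 494758629323) (nat_lit 0) (nat_lit 405026486367) (nat_lit 1) (nat_lit 5) (nat_lit 3) (nat_lit 4) (nat_lit 1) (nat_lit 4) (nat_lit 249) (nat_lit 194) (nat_lit 157)))))) (XT.nd (nat_lit 312) (nat_lit 0) (nat_lit 0) (XT.nd (nat_lit 156) (nat_lit 0) (nat_lit 0) (XT.nd (nat_lit 78) (nat_lit 0) (nat_lit 0) (XT.lf (nat_lit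 0) (nat_lit 477163488637) (nat_lit 152) (nat_lit 560810628638) (nat_lit 0) (nat_lit 470199200200) (nat_lit 1) (nat_lit 5) (nat_lit 3) (nat_lit 4) (nat_lit 1) (nat_lit 4) (nat_lit 250) (nat_lit 194) (nat_lit 156)) (XT.lf (nat_lit 0) (nat_lit 552112001199) (nat_lit 152) (nat_lit 636781609706) (nat_lit 0) (nat_lit 545143205615) (nat_lit 1) (nat_lit 5) (nat_lit 3) (nat_lit 4) (nat_lit 1) (nat_lit 4) (nat_lit 251) (nat_lit 194) (nat_lit 155))) (XT.nd (nat_lit 78) (nat_lit 0) (nat_lit 0) (XT.lf (nat_lit 0) (nat_lit 638297513212) (nat_lit 152) (nat_lit 724157961287) (nat_lit 0) (nat_lit 631324798369) (nat_lit 1) (nat_lit 5) (nat_lit 3) (nat_lit 4) (nat_lit 1) (nat_lit 4) (nat_lit 252) (nat_lit 194) (nat_lit 154)) (XT.lf (nat_lit 0) (nat_lit 737406262954) (nat_lit 152) (nat_lit 824649220695) (nat_lit 0) (nat_lit 730430140060) (nat_lit 1) (nat_lit 5) (nat_lit 3) (nat_lit 4) (nat_lit 1) (nat_lit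 4) (nat_lit 253) (nat_lit 194) (nat_lit 153)))) (XT.nd (nat_lit 156) (nat_lit 0) (nat_lit 0) (XT.nd (nat_lit 78) (nat_lit 0) (nat_lit 0) (XT.lf (nat_lit 0) (nat_lit 851377334658) (nat_lit 152) (nat_lit 940221521266) (nat_lit 0) (nat_lit 844398248243) (nat_lit 1) (nat_lit 5) (nat_lit 3) (nat_lit 4) (nat_lit 1) (nat_lit 4) (nat_lit 254) (nat_lit 194) (nat_lit 152)) (XT.lf (nat_lit 0) (nat_lit 982440597121) (nat_lit 152) (nat_lit 1073136060184) (nat_lit 0) (nat_lit 975458933729) (nat_lit 1) (nat_lit 5) (nat_lit 3) (nat_lit 4) (nat_lit 1) (nat_lit 4) (nat_lit 255) (nat_lit 194) (nat_lit 151))) (XT.nd (nat_lit 78) (nat_lit 0) (nat_lit 0) (XT.lf (nat_lit 0) (nat_lit 1133160331563) (nat_lit 152) (nat_lit 1225993339299) (nat_lit 0) (nat_lit 1126176427322) (nat_lit 1) (nat_lit 5) (nat_lit 3) (nat_lit 4) (nat_lit 1) (nat_lit 4) (nat_lit 256) (nat_lit 194) (nat_lit 150)) (XT.nd (nat_lit 78) (nat_lit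 0) (nat_lit 0) (XT.lf (nat_lit 0) (nat_lit 1306485402353) (nat_lit 152) (nat_lit 1401784044506) (nat_lit 0) (nat_lit 1299499549549) (nat_lit 1) (nat_lit 5) (nat_lit 3) (nat_lit 4) (nat_lit 1) (nat_lit 4) (nat_lit 257) (nat_lit 194) (nat_lit 149)) (XT.lf (nat_lit 0) (nat_lit 1505806952182) (nat_lit 152) (nat_lit 1603947559167) (nat_lit 0) (nat_lit 1498819404974) (nat_lit 1) (nat_lit 5) (nat_lit 3) (nat_lit 4) (nat_lit 1) (nat_lit 4) (nat_lit 258) (nat_lit 194) (nat_lit 148))))))) (XT.nd (nat_lit 28080) (nat_lit 0) (nat_lit 152) (XT.nd (nat_lit 27690) (nat_lit 0) (nat_lit 456) (XT.nd (nat_lit 27534) (nat_lit 0) (nat_lit 1064) (XT.nd (nat_lit 27456) (nat_lit 0) (nat_lit 1368) (XT.lf (nat_lit 0) (nat_lit 1735024750503) (nat_lit 152) (nat_lit 1836439256396) (nat_lit 0) (nat_lit 1728035729900) (nat_lit 1) (nat_lit 5) (nat_lit 3) (nat_lit 4) (nat_lit 1) (nat_lit 4) (nat_lit 259) (nat_lit 194)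 (nat_lit 147)) (XT.lf (nat_lit 0) (nat_lit 1161817776) (nat_lit 228) (nat_lit 2391823037) (nat_lit 0) (nat_lit 1161817776) (nat_lit 19) (nat_lit 5) (nat_lit 22) (nat_lit 4) (nat_lit 19) (nat_lit 4) (nat_lit 210) (nat_lit 195) (nat_lit 195))) (XT.nd (nat_lit 78) (nat_lit 152) (nat_lit 0) (XT.lf (nat_lit 0) (nat_lit 5770883819) (nat_lit 152) (nat_lit 2974093539) (nat_lit 152) (nat_lit 1431554009) (nat_lit 17) (nat_lit 4) (nat_lit 19) (nat_lit 5) (nat_lit 19) (nat_lit 4) (nat_lit 211) (nat_lit 195) (nat_lit 194)) (XT.lf (nat_lit 0) (nat_lit 4482359835) (nat_lit 152) (nat_lit 4761632344) (nat_lit 0) (nat_lit 1812102194) (nat_lit 15) (nat_lit 5) (nat_lit 17) (nat_lit 4) (nat_lit 15) (nat_lit 4) (nat_lit 212) (nat_lit 195) (nat_lit 193)))) (XT.nd (nat_lit 156) (nat_lit 304) (nat_lit 0) (XT.nd (nat_lit 78) (nat_lit 152) (nat_lit 0) (XT.lf (nat_lit 0) (nat_lit 6002113212) (nat_lit 152) (nat_lit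 4918888477) (nat_lit 152) (nat_lit 1168647969) (nat_lit 13) (nat_lit 4) (nat_lit 15) (nat_lit 5) (nat_lit 15) (nat_lit 4) (nat_lit 213) (nat_lit 195) (nat_lit 192)) (XT.lf (nat_lit 0) (nat_lit 4455922150) (nat_lit 152) (nat_lit 8728057746) (nat_lit 0) (nat_lit 113925812) (nat_lit 11) (nat_lit 5) (nat_lit 13) (nat_lit 4) (nat_lit 11) (nat_lit 4) (nat_lit 214) (nat_lit 195) (nat_lit 191))) (XT.nd (nat_lit 78) (nat_lit 152) (nat_lit 0) (XT.lf (nat_lit 0) (nat_lit 1534211684) (nat_lit 152) (nat_lit 9132945888) (nat_lit 152) (nat_lit 4034817878) (nat_lit 9) (nat_lit 4) (nat_lit 11) (nat_lit 5) (nat_lit 11) (nat_lit 4) (nat_lit 215) (nat_lit 195) (nat_lit 190)) (XT.nd (nat_lit 78) (nat_lit 76) (nat_lit 0) (XT.lf (nat_lit 0) (nat_lit 1171832418) (nat_lit 228) (nat_lit 3318222382) (nat_lit 76) (nat_lit 11845070584) (nat_lit 8) (nat_lit 5) (nat_lit 11) (nat_lit 5) (nat_lit 9) (nat_lit 4) (nat_lit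 216) (nat_lit 195) (nat_lit 189)) (XT.lf (nat_lit 0) (nat_lit 6688340359) (nat_lit 152) (nat_lit 10706829785) (nat_lit 0) (nat_lit 829657036) (nat_lit 7) (nat_lit 5) (nat_lit 9) (nat_lit 4) (nat_lit 7) (nat_lit 4) (nat_lit 217) (nat_lit 195) (nat_lit 188)))))) (XT.nd (nat_lit 390) (nat_lit 76) (nat_lit 0) (XT.nd (nat_lit 156) (nat_lit 152) (nat_lit 0) (XT.nd (nat_lit 78) (nat_lit 76) (nat_lit 0) (XT.lf (nat_lit 0) (nat_lit 12849127755) (nat_lit 152) (nat_lit 1034613423) (nat_lit 0) (nat_lit 6530102906) (nat_lit 7) (nat_lit 5) (nat_lit 9) (nat_lit 4) (nat_lit 7) (nat_lit 4) (nat_lit 218) (nat_lit 195) (nat_lit 187)) (XT.lf (nat_lit 0) (nat_lit 9980522203) (nat_lit 76) (nat_lit 9840067826) (nat_lit 76) (nat_lit 3120745998) (nat_lit 6) (nat_lit 4) (nat_lit 7) (nat_lit 5) (nat_lit 7) (nat_lit 4) (nat_lit 219) (nat_lit 195) (nat_lit 186))) (XT.nd (nat_lit 78) (nat_lit 76) (nat_lit 0) (XT.lf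 (nat_lit 0) (nat_lit 1591253107) (nat_lit 152) (nat_lit 3757599694) (nat_lit 76) (nat_lit 20520035807) (nat_lit 5) (nat_lit 5) (nat_lit 7) (nat_lit 5) (nat_lit 6) (nat_lit 4) (nat_lit 220) (nat_lit 195) (nat_lit 185)) (XT.nd (nat_lit 78) (nat_lit 0) (nat_lit 0) (XT.lf (nat_lit 0) (nat_lit 6569274604) (nat_lit 76) (nat_lit 132342121) (nat_lit 152) (nat_lit 22538097945) (nat_lit 4) (nat_lit 5) (nat_lit 5) (nat_lit 5) (nat_lit 6) (nat_lit 4) (nat_lit 221) (nat_lit 195) (nat_lit 184)) (XT.lf (nat_lit 0) (nat_lit 12566679961) (nat_lit 152) (nat_lit 15052251625) (nat_lit 0) (nat_lit 5498818900) (nat_lit 4) (nat_lit 5) (nat_lit 6) (nat_lit 4) (nat_lit 4) (nat_lit 4) (nat_lit 222) (nat_lit 195) (nat_lit 183))))) (XT.nd (nat_lit 156) (nat_lit 0) (nat_lit 0) (XT.nd (nat_lit 78) (nat_lit 76) (nat_lit 0) (XT.lf (nat_lit 0) (nat_lit 19084564789) (nat_lit 152) (nat_lit 6706850179) (nat_lit 0) (nat_lit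 11804786045) (nat_lit 4) (nat_lit 5) (nat_lit 6) (nat_lit 4) (nat_lit 4) (nat_lit 4) (nat_lit 223) (nat_lit 195) (nat_lit 182)) (XT.lf (nat_lit 0) (nat_lit 2665569266) (nat_lit 76) (nat_lit 23778149949) (nat_lit 76) (nat_lit 16314094959) (nat_lit 3) (nat_lit 4) (nat_lit 4) (nat_lit 5) (nat_lit 4) (nat_lit 4) (nat_lit 224) (nat_lit 195) (nat_lit 181))) (XT.nd (nat_lit 78) (nat_lit 0) (nat_lit 0) (XT.lf (nat_lit 0) (nat_lit 13522177639) (nat_lit 76) (nat_lit 21397582472) (nat_lit 76) (nat_lit 13773287269) (nat_lit 3) (nat_lit 4) (nat_lit 4) (nat_lit 5) (nat_lit 4) (nat_lit 4) (nat_lit 225) (nat_lit 195) (nat_lit 180)) (XT.nd (nat_lit 78) (nat_lit 0) (nat_lit 0) (XT.lf (nat_lit 0) (nat_lit 25722215998) (nat_lit 76) (nat_lit 18786513388) (nat_lit 76) (nat_lit 11022878868) (nat_lit 3) (nat_lit 4) (nat_lit 4) (nat_lit 5) (nat_lit 4) (nat_lit 4) (nat_lit 226) (nat_lit 195) (nat_lit 179)) (XT.lf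 (nat_lit 0) (nat_lit 39504380745) (nat_lit 76) (nat_lit 15893856561) (nat_lit 76) (nat_lit 8009057418) (nat_lit 3) (nat_lit 4) (nat_lit 4) (nat_lit 5) (nat_lit 4) (nat_lit 4) (nat_lit 227) (nat_lit 195) (nat_lit 178))))))))
noncomputable def xc17 : XT := (XT.nd (nat_lit 1482) (nat_lit 0) (nat_lit 0) (XT.nd (nat_lit 702) (nat_lit 0) (nat_lit 0) (XT.nd (nat_lit 312) (nat_lit 0) (nat_lit 0) (XT.nd (nat_lit 156) (nat_lit 152) (nat_lit 0) (XT.nd (nat_lit 78) (nat_lit 0) (nat_lit 0) (XT.lf (nat_lit 0) (nat_lit 55138322929) (nat_lit 76) (nat_lit 12663016532) (nat_lit 76) (nat_lit 4672856848) (nat_lit 3) (nat_lit 4) (nat_lit 4) (nat_lit 5) (nat_lit 4) (nat_lit 4) (nat_lit 228) (nat_lit 195) (nat_lit 177)) (XT.lf (nat_lit 0) (nat_lit 72929924029) (nat_lit 76) (nat_lit 9030781214) (nat_lit 76) (nat_lit 949003667) (nat_lit 3) (nat_lit 4) (nat_lit 4) (nat_lit 5) (nat_lit 4) (nat_lit 4) (nat_lit 229)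 (nat_lit 195) (nat_lit 176))) (XT.nd (nat_lit 78) (nat_lit 76) (nat_lit 0) (XT.lf (nat_lit 0) (nat_lit 3073514303) (nat_lit 152) (nat_lit 1768535502) (nat_lit 76) (nat_lit 90069730956) (nat_lit 2) (nat_lit 5) (nat_lit 4) (nat_lit 5) (nat_lit 3) (nat_lit 4) (nat_lit 230) (nat_lit 195) (nat_lit 175)) (XT.lf (nat_lit 0) (nat_lit 7757176333) (nat_lit 152) (nat_lit 100809928353) (nat_lit 0) (nat_lit 136137889) (nat_lit 1) (nat_lit 5) (nat_lit 3) (nat_lit 4) (nat_lit 1) (nat_lit 4) (nat_lit 231) (nat_lit 195) (nat_lit 174)))) (XT.nd (nat_lit 156) (nat_lit 0) (nat_lit 0) (XT.nd (nat_lit 78) (nat_lit 0) (nat_lit 0) (XT.lf (nat_lit 0) (nat_lit 13255025947) (nat_lit 152) (nat_lit 105721403039) (nat_lit 0) (nat_lit 5578209511) (nat_lit 1) (nat_lit 5) (nat_lit 3) (nat_lit 4) (nat_lit 1) (nat_lit 4) (nat_lit 232) (nat_lit 195) (nat_lit 173)) (XT.lf (nat_lit 0) (nat_lit 19512242367) (nat_lit 152) (nat_lit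 111489929830) (nat_lit 0) (nat_lit 11786923329) (nat_lit 1) (nat_lit 5) (nat_lit 3) (nat_lit 4) (nat_lit 1) (nat_lit 4) (nat_lit 233) (nat_lit 195) (nat_lit 172))) (XT.nd (nat_lit 78) (nat_lit 0) (nat_lit 0) (XT.lf (nat_lit 0) (nat_lit 26651249391) (nat_lit 152) (nat_lit 118228371206) (nat_lit 0) (nat_lit 18883754178) (nat_lit 1) (nat_lit 5) (nat_lit 3) (nat_lit 4) (nat_lit 1) (nat_lit 4) (nat_lit 234) (nat_lit 195) (nat_lit 171)) (XT.nd (nat_lit 78) (nat_lit 0) (nat_lit 0) (XT.lf (nat_lit 0) (nat_lit 34811723245) (nat_lit 152) (nat_lit 126068566239) (nat_lit 0) (nat_lit 27007553096) (nat_lit 1) (nat_lit 5) (nat_lit 3) (nat_lit 4) (nat_lit 1) (nat_lit 4) (nat_lit 235) (nat_lit 195) (nat_lit 170)) (XT.lf (nat_lit 0) (nat_lit 44153325372) (nat_lit 152) (nat_lit 135163910048) (nat_lit 0) (nat_lit 36317263976) (nat_lit 1) (nat_lit 5) (nat_lit 3) (nat_lit 4) (nat_lit 1) (nat_lit 4) (nat_lit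 236) (nat_lit 195) (nat_lit 169)))))) (XT.nd (nat_lit 390) (nat_lit 0) (nat_lit 0) (XT.nd (nat_lit 156) (nat_lit 0) (nat_lit 0) (XT.nd (nat_lit 78) (nat_lit 0) (nat_lit 0) (XT.lf (nat_lit 0) (nat_lit 54858826251) (nat_lit 152) (nat_lit 145692355012) (nat_lit 0) (nat_lit 46995033334) (nat_lit 1) (nat_lit 5) (nat_lit 3) (nat_lit 4) (nat_lit 1) (nat_lit 4) (nat_lit 237) (nat_lit 195) (nat_lit 168)) (XT.lf (nat_lit 0) (nat_lit 67137681332) (nat_lit 152) (nat_lit 157859892446) (nat_lit 0) (nat_lit 59249774050) (nat_lit 1) (nat_lit 5) (nat_lit 3) (nat_lit 4) (nat_lit 1) (nat_lit 4) (nat_lit 238) (nat_lit 195) (nat_lit 167))) (XT.nd (nat_lit 78) (nat_lit 0) (nat_lit 0) (XT.lf (nat_lit 0) (nat_lit 81230129084) (nat_lit 152) (nat_lit 171904582864) (nat_lit 0) (nat_lit 73321252789) (nat_lit 1) (nat_lit 5) (nat_lit 3) (nat_lit 4) (nat_lit 1) (nat_lit 4) (nat_lit 239) (nat_lit 195) (nat_lit 166))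 (XT.nd (nat_lit 78) (nat_lit 0) (nat_lit 0) (XT.lf (nat_lit 0) (nat_lit 97411891312) (nat_lit 152) (nat_lit 188101213688) (nat_lit 0) (nat_lit 89484781092) (nat_lit 1) (nat_lit 5) (nat_lit 3) (nat_lit 4) (nat_lit 1) (nat_lit 4) (nat_lit 240) (nat_lit 195) (nat_lit 165)) (XT.lf (nat_lit 0) (nat_lit 115999567711) (nat_lit 152) (nat_lit 206766675522) (nat_lit 0) (nat_lit 108056601905) (nat_lit 1) (nat_lit 5) (nat_lit 3) (nat_lit 4) (nat_lit 1) (nat_lit 4) (nat_lit 241) (nat_lit 195) (nat_lit 164))))) (XT.nd (nat_lit 156) (nat_lit 0) (nat_lit 0) (XT.nd (nat_lit 78) (nat_lit 0) (nat_lit 0) (XT.lf (nat_lit 0) (nat_lit 137356830211) (nat_lit 152) (nat_lit 228266162183) (nat_lit 0) (nat_lit 129400076938) (nat_lit 1) (nat_lit 5) (nat_lit 3) (nat_lit 4) (nat_lit 1) (nat_lit 4) (nat_lit 242) (nat_lit 195) (nat_lit 163)) (XT.lf (nat_lit 0) (nat_lit 161901538295) (nat_lit 152) (nat_lit 253020315801)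 (nat_lit 0) (nat_lit 153932795921) (nat_lit 1) (nat_lit 5) (nat_lit 3) (nat_lit 4) (nat_lit 1) (nat_lit 4) (nat_lit 243) (nat_lit 195) (nat_lit 162))) (XT.nd (nat_lit 78) (nat_lit 0) (nat_lit 0) (XT.lf (nat_lit 0) (nat_lit 190113914514) (nat_lit 152) (nat_lit 281513456775) (nat_lit 0) (nat_lit 182134746833) (nat_lit 1) (nat_lit 5) (nat_lit 3) (nat_lit 4) (nat_lit 1) (nat_lit 4) (nat_lit 244) (nat_lit 195) (nat_lit 161)) (XT.nd (nat_lit 78) (nat_lit 0) (nat_lit 0) (XT.lf (nat_lit 0) (nat_lit 222545940139) (nat_lit 152) (nat_lit 314303059600) (nat_lit 0) (nat_lit 214557706976) (nat_lit 1) (nat_lit 5) (nat_lit 3) (nat_lit 4) (nat_lit 1) (nat_lit 4) (nat_lit 245) (nat_lit 195) (nat_lit 160)) (XT.lf (nat_lit 0) (nat_lit 259832154805) (nat_lit 152) (nat_lit 352030659985) (nat_lit 0) (nat_lit 251836038613) (nat_lit 1) (nat_lit 5) (nat_lit 3) (nat_lit 4) (nat_lit 1) (nat_lit 4) (nat_lit 246)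 (nat_lit 195) (nat_lit 159))))))) (XT.nd (nat_lit 702) (nat_lit 0) (nat_lit 0) (XT.nd (nat_lit 312) (nat_lit 0) (nat_lit 0) (XT.nd (nat_lit 156) (nat_lit 0) (nat_lit 0) (XT.nd (nat_lit 78) (nat_lit 0) (nat_lit 0) (XT.lf (nat_lit 0) (nat_lit 302702071405) (nat_lit 152) (nat_lit 395434406633) (nat_lit 0) (nat_lit 294699100406) (nat_lit 1) (nat_lit 5) (nat_lit 3) (nat_lit 4) (nat_lit 1) (nat_lit 4) (nat_lit 247) (nat_lit 195) (nat_lit 158)) (XT.lf (nat_lit 0) (nat_lit 351994449179) (nat_lit 152) (nat_lit 445363503281) (nat_lit 0) (nat_lit 343985517477) (nat_lit 1) (nat_lit 5) (nat_lit 3) (nat_lit 4) (nat_lit 1) (nat_lit 4) (nat_lit 248) (nat_lit 195) (nat_lit 157))) (XT.nd (nat_lit 78) (nat_lit 0) (nat_lit 0) (XT.lf (nat_lit 0) (nat_lit 408673704212) (nat_lit 152) (nat_lit 502794823562) (nat_lit 0) (nat_lit 400659589291) (nat_lit 1) (nat_lit 5) (nat_lit 3) (nat_lit 4) (nat_lit 1) (nat_lit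 4) (nat_lit 249) (nat_lit 195) (nat_lit 156)) (XT.lf (nat_lit 0) (nat_lit 473848778452) (nat_lit 152) (nat_lit 568852023740) (nat_lit 0) (nat_lit 465830156383) (nat_lit 1) (nat_lit 5) (nat_lit 3) (nat_lit 4) (nat_lit 1) (nat_lit 4) (nat_lit 250) (nat_lit 195) (nat_lit 155)))) (XT.nd (nat_lit 156) (nat_lit 0) (nat_lit 0) (XT.nd (nat_lit 78) (nat_lit 0) (nat_lit 0) (XT.lf (nat_lit 0) (nat_lit 548794836394) (nat_lit 152) (nat_lit 644827527298) (nat_lit 0) (nat_lit 540772295067) (nat_lit 1) (nat_lit 5) (nat_lit 3) (nat_lit 4) (nat_lit 1) (nat_lit 4) (nat_lit 251) (nat_lit 195) (nat_lit 154)) (XT.lf (nat_lit 0) (nat_lit 634978213954) (nat_lit 152) (nat_lit 732207811478) (nat_lit 0) (nat_lit 626952264576) (nat_lit 1) (nat_lit 5) (nat_lit 3) (nat_lit 4) (nat_lit 1) (nat_lit 4) (nat_lit 252) (nat_lit 195) (nat_lit 153))) (XT.nd (nat_lit 78) (nat_lit 0) (nat_lit 0) (XT.lf (nat_lit 0) (nat_lit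 734085107650) (nat_lit 152) (nat_lit 832702490538) (nat_lit 0) (nat_lit 726056194750) (nat_lit 1) (nat_lit 5) (nat_lit 3) (nat_lit 4) (nat_lit 1) (nat_lit 4) (nat_lit 253) (nat_lit 195) (nat_lit 152)) (XT.nd (nat_lit 78) (nat_lit 0) (nat_lit 0) (XT.lf (nat_lit 0) (nat_lit 848054565402) (nat_lit 152) (nat_lit 948277764719) (nat_lit 0) (nat_lit 840023075526) (nat_lit 1) (nat_lit 5) (nat_lit 3) (nat_lit 4) (nat_lit 1) (nat_lit 4) (nat_lit 254) (nat_lit 195) (nat_lit 151)) (XT.lf (nat_lit 0) (nat_lit 979116424427) (nat_lit 152) (nat_lit 1081194889386) (nat_lit 0) (nat_lit 971082693702) (nat_lit 1) (nat_lit 5) (nat_lit 3) (nat_lit 4) (nat_lit 1) (nat_lit 4) (nat_lit 255) (nat_lit 195) (nat_lit 150)))))) (XT.nd (nat_lit 27612) (nat_lit 0) (nat_lit 912) (XT.nd (nat_lit 156) (nat_lit 0) (nat_lit 0) (XT.nd (nat_lit 78) (nat_lit 0) (nat_lit 0) (XT.lf (nat_lit 0) (nat_lit 1129834938489) (nat_lit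 152) (nat_lit 1234054416977) (nat_lit 0) (nat_lit 1121799259200) (nat_lit 1) (nat_lit 5) (nat_lit 3) (nat_lit 4) (nat_lit 1) (nat_lit 4) (nat_lit 256) (nat_lit 195) (nat_lit 149)) (XT.lf (nat_lit 0) (nat_lit 1303158948080) (nat_lit 152) (nat_lit 1409847077381) (nat_lit 0) (nat_lit 1295121574387) (nat_lit 1) (nat_lit 5) (nat_lit 3) (nat_lit 4) (nat_lit 1) (nat_lit 4) (nat_lit 257) (nat_lit 195) (nat_lit 148))) (XT.nd (nat_lit 78) (nat_lit 0) (nat_lit 0) (XT.lf (nat_lit 0) (nat_lit 1502479575126) (nat_lit 152) (nat_lit 1612012292214) (nat_lit 0) (nat_lit 1494440728038) (nat_lit 1) (nat_lit 5) (nat_lit 3) (nat_lit 4) (nat_lit 1) (nat_lit 4) (nat_lit 258) (nat_lit 195) (nat_lit 147)) (XT.nd (nat_lit 27300) (nat_lit 0) (nat_lit 1824) (XT.lf (nat_lit 0) (nat_lit 1731696571027) (nat_lit 152) (nat_lit 1844505467853) (nat_lit 0) (nat_lit 1723656442727) (nat_lit 1) (nat_lit 5) (nat_lit 3) (nat_lit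 4) (nat_lit 1) (nat_lit 4) (nat_lit 259) (nat_lit 195) (nat_lit 146)) (XT.lf (nat_lit 0) (nat_lit 470201459) (nat_lit 228) (nat_lit 3190709393) (nat_lit 0) (nat_lit 470201459) (nat_lit 25) (nat_lit 5) (nat_lit 28) (nat_lit 4) (nat_lit 25) (nat_lit 4) (nat_lit 208) (nat_lit 196) (nat_lit 196))))) (XT.nd (nat_lit 156) (nat_lit 456) (nat_lit 0) (XT.nd (nat_lit 78) (nat_lit 228) (nat_lit 0) (XT.lf (nat_lit 0) (nat_lit 3138317434) (nat_lit 228) (nat_lit 3791823394) (nat_lit 228) (nat_lit 1875989298) (nat_lit 22) (nat_lit 4) (nat_lit 25) (nat_lit 5) (nat_lit 25) (nat_lit 4) (nat_lit 209) (nat_lit 196) (nat_lit 195)) (XT.lf (nat_lit 0) (nat_lit 3747195692) (nat_lit 228) (nat_lit 5282891248) (nat_lit 0) (nat_lit 430735702) (nat_lit 19) (nat_lit 5) (nat_lit 22) (nat_lit 4) (nat_lit 19) (nat_lit 4) (nat_lit 210) (nat_lit 196) (nat_lit 194))) (XT.nd (nat_lit 78) (nat_lit 304) (nat_lit 0) (XT.lf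 (nat_lit 0) (nat_lit 4788362722) (nat_lit 152) (nat_lit 5051883971) (nat_lit 152) (nat_lit 394085260) (nat_lit 17) (nat_lit 4) (nat_lit 19) (nat_lit 5) (nat_lit 19) (nat_lit 4) (nat_lit 211) (nat_lit 196) (nat_lit 193)) (XT.nd (nat_lit 78) (nat_lit 152) (nat_lit 0) (XT.lf (nat_lit 0) (nat_lit 4787267272) (nat_lit 76) (nat_lit 314390170) (nat_lit 152) (nat_lit 6040857143) (nat_lit 15) (nat_lit 5) (nat_lit 16) (nat_lit 5) (nat_lit 17) (nat_lit 4) (nat_lit 212) (nat_lit 196) (nat_lit 192)) (XT.lf (nat_lit 0) (nat_lit 3914454927) (nat_lit 152) (nat_lit 7309951923) (nat_lit 152) (nat_lit 978076934) (nat_lit 13) (nat_lit 4) (nat_lit 15) (nat_lit 5) (nat_lit 15) (nat_lit 4) (nat_lit 213) (nat_lit 196) (nat_lit 191))))))))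
noncomputable def xc18 : XT := (XT.nd (nat_lit 1482) (nat_lit 0) (nat_lit 0) (XT.nd (nat_lit 702) (nat_lit 228) (nat_lit 0) (XT.nd (nat_lit 312) (nat_lit 228) (nat_lit 0) (XT.nd (nat_lit 156) (nat_lit 304) (nat_lit 0) (XT.nd (nat_lit 78) (nat_lit 0) (nat_lit 0) (XT.lf (nat_lit 0) (nat_lit 1854792261) (nat_lit 76) (nat_lit 2473712285) (nat_lit 152) (nat_lit 9107464970) (nat_lit 11) (nat_lit 5) (nat_lit 12) (nat_lit 5) (nat_lit 13) (nat_lit 4) (nat_lit 214) (nat_lit 196) (nat_lit 190)) (XT.lf (nat_lit 0) (nat_lit 10223099246) (nat_lit 152) (nat_lit 1696456626) (nat_lit 0) (nat_lit 2946614559) (nat_lit 11) (nat_lit 5) (nat_lit 13) (nat_lit 4) (nat_lit 11) (nat_lit 4) (nat_lit 215) (nat_lit 196) (nat_lit 189))) (XT.nd (nat_lit 78) (nat_lit 76) (nat_lit 0) (XT.lf (nat_lit 0) (nat_lit 344647790) (nat_lit 228) (nat_lit 7131361457) (nat_lit 76) (nat_lit 9045074142) (nat_lit 8) (nat_lit 5) (nat_lit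 11) (nat_lit 5) (nat_lit 9) (nat_lit 4) (nat_lit 216) (nat_lit 196) (nat_lit 188)) (XT.lf (nat_lit 0) (nat_lit 3214383146) (nat_lit 76) (nat_lit 2343203804) (nat_lit 152) (nat_lit 12878043784) (nat_lit 7) (nat_lit 5) (nat_lit 8) (nat_lit 5) (nat_lit 9) (nat_lit 4) (nat_lit 217) (nat_lit 196) (nat_lit 187)))) (XT.nd (nat_lit 156) (nat_lit 152) (nat_lit 0) (XT.nd (nat_lit 78) (nat_lit 76) (nat_lit 0) (XT.lf (nat_lit 0) (nat_lit 11497613248) (nat_lit 152) (nat_lit 5775086111) (nat_lit 0) (nat_lit 3370096165) (nat_lit 7) (nat_lit 5) (nat_lit 9) (nat_lit 4) (nat_lit 7) (nat_lit 4) (nat_lit 218) (nat_lit 196) (nat_lit 186)) (XT.lf (nat_lit 0) (nat_lit 4731920148) (nat_lit 76) (nat_lit 13467963767) (nat_lit 76) (nat_lit 4992362355) (nat_lit 6) (nat_lit 4) (nat_lit 7) (nat_lit 5) (nat_lit 7) (nat_lit 4) (nat_lit 219) (nat_lit 196) (nat_lit 185))) (XT.nd (nat_lit 78) (nat_lit 152) (nat_lit 0)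 (XT.lf (nat_lit 0) (nat_lit 16681408039) (nat_lit 76) (nat_lit 9115321498) (nat_lit 76) (nat_lit 337038060) (nat_lit 6) (nat_lit 4) (nat_lit 7) (nat_lit 5) (nat_lit 7) (nat_lit 4) (nat_lit 220) (nat_lit 196) (nat_lit 184)) (XT.nd (nat_lit 78) (nat_lit 0) (nat_lit 0) (XT.lf (nat_lit 0) (nat_lit 370667872) (nat_lit 76) (nat_lit 4154405720) (nat_lit 152) (nat_lit 25001673976) (nat_lit 4) (nat_lit 5) (nat_lit 5) (nat_lit 5) (nat_lit 6) (nat_lit 4) (nat_lit 221) (nat_lit 196) (nat_lit 183)) (XT.lf (nat_lit 0) (nat_lit 10186151148) (nat_lit 152) (nat_lit 21632720997) (nat_lit 0) (nat_lit 1602487910) (nat_lit 4) (nat_lit 5) (nat_lit 6) (nat_lit 4) (nat_lit 4) (nat_lit 4) (nat_lit 222) (nat_lit 196) (nat_lit 182)))))) (XT.nd (nat_lit 390) (nat_lit 152) (nat_lit 0) (XT.nd (nat_lit 156) (nat_lit 76) (nat_lit 0) (XT.nd (nat_lit 78) (nat_lit 0) (nat_lit 0) (XT.lf (nat_lit 0) (nat_lit 16610770799)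 (nat_lit 152) (nat_lit 13453893870) (nat_lit 0) (nat_lit 7842831315) (nat_lit 4) (nat_lit 5) (nat_lit 6) (nat_lit 4) (nat_lit 4) (nat_lit 4) (nat_lit 223) (nat_lit 196) (nat_lit 181)) (XT.lf (nat_lit 0) (nat_lit 23824718067) (nat_lit 152) (nat_lit 4359664229) (nat_lit 0) (nat_lit 14896538369) (nat_lit 4) (nat_lit 5) (nat_lit 6) (nat_lit 4) (nat_lit 4) (nat_lit 4) (nat_lit 224) (nat_lit 196) (nat_lit 180))) (XT.nd (nat_lit 78) (nat_lit 0) (nat_lit 0) (XT.lf (nat_lit 0) (nat_lit 6134785313) (nat_lit 76) (nat_lit 25981891819) (nat_lit 76) (nat_lit 16914372805) (nat_lit 3) (nat_lit 4) (nat_lit 4) (nat_lit 5) (nat_lit 4) (nat_lit 4) (nat_lit 225) (nat_lit 196) (nat_lit 179)) (XT.nd (nat_lit 78) (nat_lit 0) (nat_lit 0) (XT.lf (nat_lit 0) (nat_lit 18219530944) (nat_lit 76) (nat_lit 23422019302) (nat_lit 76) (nat_lit 14233335665) (nat_lit 3) (nat_lit 4) (nat_lit 4) (nat_lit 5) (nat_lit 4) (nat_lit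 4) (nat_lit 226) (nat_lit 196) (nat_lit 178)) (XT.lf (nat_lit 0) (nat_lit 31901441145) (nat_lit 76) (nat_lit 20573881229) (nat_lit 76) (nat_lit 11279837051) (nat_lit 3) (nat_lit 4) (nat_lit 4) (nat_lit 5) (nat_lit 4) (nat_lit 4) (nat_lit 227) (nat_lit 196) (nat_lit 177))))) (XT.nd (nat_lit 156) (nat_lit 152) (nat_lit 0) (XT.nd (nat_lit 78) (nat_lit 0) (nat_lit 0) (XT.lf (nat_lit 0) (nat_lit 47448205463) (nat_lit 76) (nat_lit 17381753161) (nat_lit 76) (nat_lit 7996091121) (nat_lit 3) (nat_lit 4) (nat_lit 4) (nat_lit 5) (nat_lit 4) (nat_lit 4) (nat_lit 228) (nat_lit 196) (nat_lit 176)) (XT.lf (nat_lit 0) (nat_lit 65163999722) (nat_lit 76) (nat_lit 13783180417) (nat_lit 76) (nat_lit 4317850670) (nat_lit 3) (nat_lit 4) (nat_lit 4) (nat_lit 5) (nat_lit 4) (nat_lit 4) (nat_lit 229) (nat_lit 196) (nat_lit 175))) (XT.nd (nat_lit 78) (nat_lit 152) (nat_lit 0) (XT.lf (nat_lit 0) (nat_lit 85395437288)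 (nat_lit 76) (nat_lit 9707756140) (nat_lit 76) (nat_lit 173150127) (nat_lit 3) (nat_lit 4) (nat_lit 4) (nat_lit 5) (nat_lit 4) (nat_lit 4) (nat_lit 230) (nat_lit 196) (nat_lit 174)) (XT.nd (nat_lit 78) (nat_lit 76) (nat_lit 0) (XT.lf (nat_lit 0) (nat_lit 4293038669) (nat_lit 152) (nat_lit 665325812) (nat_lit 76) (nat_lit 104127932681) (nat_lit 2) (nat_lit 5) (nat_lit 4) (nat_lit 5) (nat_lit 3) (nat_lit 4) (nat_lit 231) (nat_lit 196) (nat_lit 173)) (XT.lf (nat_lit 0) (nat_lit 9623981267) (nat_lit 152) (nat_lit 114635761613) (nat_lit 0) (nat_lit 691361772) (nat_lit 1) (nat_lit 5) (nat_lit 3) (nat_lit 4) (nat_lit 1) (nat_lit 4) (nat_lit 232) (nat_lit 196) (nat_lit 172))))))) (XT.nd (nat_lit 702) (nat_lit 0) (nat_lit 0) (XT.nd (nat_lit 312) (nat_lit 0) (nat_lit 0) (XT.nd (nat_lit 156) (nat_lit 0) (nat_lit 0) (XT.nd (nat_lit 78) (nat_lit 0) (nat_lit 0) (XT.lf (nat_lit 0) (nat_lit 15854782869)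 (nat_lit 152) (nat_lit 120452956110) (nat_lit 0) (nat_lit 6879987198) (nat_lit 1) (nat_lit 5) (nat_lit 3) (nat_lit 4) (nat_lit 1) (nat_lit 4) (nat_lit 233) (nat_lit 196) (nat_lit 171)) (XT.lf (nat_lit 0) (nat_lit 22970820487) (nat_lit 152) (nat_lit 127233717230) (nat_lit 0) (nat_lit 13959349881) (nat_lit 1) (nat_lit 5) (nat_lit 3) (nat_lit 4) (nat_lit 1) (nat_lit 4) (nat_lit 234) (nat_lit 196) (nat_lit 170))) (XT.nd (nat_lit 78) (nat_lit 0) (nat_lit 0) (XT.lf (nat_lit 0) (nat_lit 31111320943) (nat_lit 152) (nat_lit 135110712040) (nat_lit 0) (nat_lit 22067959089) (nat_lit 1) (nat_lit 5) (nat_lit 3) (nat_lit 4) (nat_lit 1) (nat_lit 4) (nat_lit 235) (nat_lit 196) (nat_lit 169)) (XT.lf (nat_lit 0) (nat_lit 40435554900) (nat_lit 152) (nat_lit 144238055656) (nat_lit 0) (nat_lit 31364461525) (nat_lit 1) (nat_lit 5) (nat_lit 3) (nat_lit 4) (nat_lit 1) (nat_lit 4) (nat_lit 236) (nat_lit 196) (nat_lit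 168)))) (XT.nd (nat_lit 156) (nat_lit 0) (nat_lit 0) (XT.nd (nat_lit 78) (nat_lit 0) (nat_lit 0) (XT.lf (nat_lit 0) (nat_lit 51125953020) (nat_lit 152) (nat_lit 154794326539) (nat_lit 0) (nat_lit 42030745281) (nat_lit 1) (nat_lit 5) (nat_lit 3) (nat_lit 4) (nat_lit 1) (nat_lit 4) (nat_lit 237) (nat_lit 196) (nat_lit 167)) (XT.lf (nat_lit 0) (nat_lit 63391675268) (nat_lit 152) (nat_lit 166986060423) (nat_lit 0) (nat_lit 54275498516) (nat_lit 1) (nat_lit 5) (nat_lit 3) (nat_lit 4) (nat_lit 1) (nat_lit 4) (nat_lit 238) (nat_lit 196) (nat_lit 166))) (XT.nd (nat_lit 78) (nat_lit 0) (nat_lit 0) (XT.lf (nat_lit 0) (nat_lit 77472703166) (nat_lit 152) (nat_lit 181051791234) (nat_lit 0) (nat_lit 68338292489) (nat_lit 1) (nat_lit 5) (nat_lit 3) (nat_lit 4) (nat_lit 1) (nat_lit 4) (nat_lit 239) (nat_lit 196) (nat_lit 165)) (XT.nd (nat_lit 78) (nat_lit 0) (nat_lit 0) (XT.lf (nat_lit 0) (nat_lit 93644535086)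 (nat_lit 152) (nat_lit 197266718052) (nat_lit 0) (nat_lit 84494268822) (nat_lit 1) (nat_lit 5) (nat_lit 3) (nat_lit 4) (nat_lit 1) (nat_lit 4) (nat_lit 240) (nat_lit 196) (nat_lit 164)) (XT.lf (nat_lit 0) (nat_lit 112223576434) (nat_lit 152) (nat_lit 215948089444) (nat_lit 0) (nat_lit 103059522704) (nat_lit 1) (nat_lit 5) (nat_lit 3) (nat_lit 4) (nat_lit 1) (nat_lit 4) (nat_lit 241) (nat_lit 196) (nat_lit 163)))))) (XT.nd (nat_lit 390) (nat_lit 0) (nat_lit 0) (XT.nd (nat_lit 156) (nat_lit 0) (nat_lit 0) (XT.nd (nat_lit 78) (nat_lit 0) (nat_lit 0) (XT.lf (nat_lit 0) (nat_lit 133573330194) (nat_lit 152) (nat_lit 237461410505) (nat_lit 0) (nat_lit 124397287362) (nat_lit 1) (nat_lit 5) (nat_lit 3) (nat_lit 4) (nat_lit 1) (nat_lit 4) (nat_lit 242) (nat_lit 196) (nat_lit 162)) (XT.lf (nat_lit 0) (nat_lit 158111508940) (nat_lit 152) (nat_lit 262227594036) (nat_lit 0) (nat_lit 148925040802) (nat_lit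 1) (nat_lit 5) (nat_lit 3) (nat_lit 4) (nat_lit 1) (nat_lit 4) (nat_lit 243) (nat_lit 196) (nat_lit 161))) (XT.nd (nat_lit 78) (nat_lit 0) (nat_lit 0) (XT.lf (nat_lit 0) (nat_lit 186318207472) (nat_lit 152) (nat_lit 290731195803) (nat_lit 0) (nat_lit 177122673851) (nat_lit 1) (nat_lit 5) (nat_lit 3) (nat_lit 4) (nat_lit 1) (nat_lit 4) (nat_lit 244) (nat_lit 196) (nat_lit 160)) (XT.nd (nat_lit 78) (nat_lit 0) (nat_lit 0) (XT.lf (nat_lit 0) (nat_lit 218745295979) (nat_lit 152) (nat_lit 323529894970) (nat_lit 0) (nat_lit 209541879330) (nat_lit 1) (nat_lit 5) (nat_lit 3) (nat_lit 4) (nat_lit 1) (nat_lit 4) (nat_lit 245) (nat_lit 196) (nat_lit 159)) (XT.lf (nat_lit 0) (nat_lit 256027217498) (nat_lit 152) (nat_lit 361265405218) (nat_lit 0) (nat_lit 246816946041) (nat_lit 1) (nat_lit 5) (nat_lit 3) (nat_lit 4) (nat_lit 1) (nat_lit 4) (nat_lit 246) (nat_lit 196) (nat_lit 158))))) (XT.nd (nat_lit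 156) (nat_lit 0) (nat_lit 0) (XT.nd (nat_lit 78) (nat_lit 0) (nat_lit 0) (XT.lf (nat_lit 0) (nat_lit 298893400928) (nat_lit 152) (nat_lit 404676030007) (nat_lit 0) (nat_lit 289677168769) (nat_lit 1) (nat_lit 5) (nat_lit 3) (nat_lit 4) (nat_lit 1) (nat_lit 4) (nat_lit 247) (nat_lit 196) (nat_lit 157)) (XT.lf (nat_lit 0) (nat_lit 348182532466) (nat_lit 152) (nat_lit 454611107648) (nat_lit 0) (nat_lit 338961117087) (nat_lit 1) (nat_lit 5) (nat_lit 3) (nat_lit 4) (nat_lit 1) (nat_lit 4) (nat_lit 248) (nat_lit 196) (nat_lit 156))) (XT.nd (nat_lit 78) (nat_lit 0) (nat_lit 0) (XT.lf (nat_lit 0) (nat_lit 404858964686) (nat_lit 152) (nat_lit 512047628792) (nat_lit 0) (nat_lit 395633042160) (nat_lit 1) (nat_lit 5) (nat_lit 3) (nat_lit 4) (nat_lit 1) (nat_lit 4) (nat_lit 249) (nat_lit 196) (nat_lit 155)) (XT.nd (nat_lit 78) (nat_lit 0) (nat_lit 0) (XT.lf (nat_lit 0) (nat_lit 470031584306) (nat_lit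 152) (nat_lit 578109351460) (nat_lit 0) (nat_lit 460801742521) (nat_lit 1) (nat_lit 5) (nat_lit 3) (nat_lit 4) (nat_lit 1) (nat_lit 4) (nat_lit 250) (nat_lit 196) (nat_lit 154)) (XT.lf (nat_lit 0) (nat_lit 544975507795) (nat_lit 152) (nat_lit 654088787617) (nat_lit 0) (nat_lit 535742257959) (nat_lit 1) (nat_lit 5) (nat_lit 3) (nat_lit 4) (nat_lit 1) (nat_lit 4) (nat_lit 251) (nat_lit 196) (nat_lit 153))))))))
noncomputable def xc19 : XT := (XT.nd (nat_lit 28548) (nat_lit 0) (nat_lit 0) (XT.nd (nat_lit 27768) (nat_lit 0) (nat_lit 608) (XT.nd (nat_lit 312) (nat_lit 0) (nat_lit 0) (XT.nd (nat_lit 156) (nat_lit 0) (nat_lit 0) (XT.nd (nat_lit 78) (nat_lit 0) (nat_lit 0) (XT.lf (nat_lit 0) (nat_lit 631157029310) (nat_lit 152) (nat_lit 741472491450) (nat_lit 0) (nat_lit 621920815951) (nat_lit 1) (nat_lit 5) (nat_lit 3) (nat_lit 4) (nat_lit 1) (nat_lit 4) (nat_lit 252) (nat_lit 196) (nat_lit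 152)) (XT.lf (nat_lit 0) (nat_lit 730262309053) (nat_lit 152) (nat_lit 841970144120) (nat_lit 0) (nat_lit 721023518719) (nat_lit 1) (nat_lit 5) (nat_lit 3) (nat_lit 4) (nat_lit 1) (nat_lit 4) (nat_lit 253) (nat_lit 196) (nat_lit 151))) (XT.nd (nat_lit 78) (nat_lit 0) (nat_lit 0) (XT.lf (nat_lit 0) (nat_lit 844230363368) (nat_lit 152) (nat_lit 957548004049) (nat_lit 0) (nat_lit 834989332185) (nat_lit 1) (nat_lit 5) (nat_lit 3) (nat_lit 4) (nat_lit 1) (nat_lit 4) (nat_lit 254) (nat_lit 196) (nat_lit 150)) (XT.lf (nat_lit 0) (nat_lit 975291002013) (nat_lit 152) (nat_lit 1090467377192) (nat_lit 0) (nat_lit 966048022266) (nat_lit 1) (nat_lit 5) (nat_lit 3) (nat_lit 4) (nat_lit 1) (nat_lit 4) (nat_lit 255) (nat_lit 196) (nat_lit 149)))) (XT.nd (nat_lit 156) (nat_lit 0) (nat_lit 0) (XT.nd (nat_lit 78) (nat_lit 0) (nat_lit 0) (XT.lf (nat_lit 0) (nat_lit 1126008454874) (nat_lit 152) (nat_lit 1243328859981)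 (nat_lit 0) (nat_lit 1116763780724) (nat_lit 1) (nat_lit 5) (nat_lit 3) (nat_lit 4) (nat_lit 1) (nat_lit 4) (nat_lit 256) (nat_lit 196) (nat_lit 148)) (XT.lf (nat_lit 0) (nat_lit 1299331541682) (nat_lit 152) (nat_lit 1419123220556) (nat_lit 0) (nat_lit 1290085394137) (nat_lit 1) (nat_lit 5) (nat_lit 3) (nat_lit 4) (nat_lit 1) (nat_lit 4) (nat_lit 257) (nat_lit 196) (nat_lit 147))) (XT.nd (nat_lit 78) (nat_lit 0) (nat_lit 0) (XT.lf (nat_lit 0) (nat_lit 1498651366309) (nat_lit 152) (nat_lit 1621289913799) (nat_lit 0) (nat_lit 1489403937551) (nat_lit 1) (nat_lit 5) (nat_lit 3) (nat_lit 4) (nat_lit 1) (nat_lit 4) (nat_lit 258) (nat_lit 196) (nat_lit 146)) (XT.nd (nat_lit 27144) (nat_lit 0) (nat_lit 2812) (XT.lf (nat_lit 0) (nat_lit 1727867664453) (nat_lit 152) (nat_lit 1853784375012) (nat_lit 0) (nat_lit 1718619121598) (nat_lit 1) (nat_lit 5) (nat_lit 3) (nat_lit 4) (nat_lit 1) (nat_lit 4)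 (nat_lit 259) (nat_lit 196) (nat_lit 145)) (XT.lf (nat_lit 0) (nat_lit 3470810430) (nat_lit 380) (nat_lit 121554235) (nat_lit 380) (nat_lit 121554235) (nat_lit 38) (nat_lit 4) (nat_lit 43) (nat_lit 5) (nat_lit 43) (nat_lit 4) (nat_lit 206) (nat_lit 197) (nat_lit 197)))))) (XT.nd (nat_lit 390) (nat_lit 532) (nat_lit 0) (XT.nd (nat_lit 156) (nat_lit 684) (nat_lit 0) (XT.nd (nat_lit 78) (nat_lit 228) (nat_lit 0) (XT.lf (nat_lit 0) (nat_lit 447112724) (nat_lit 228) (nat_lit 4872736162) (nat_lit 228) (nat_lit 2493270214) (nat_lit 28) (nat_lit 4) (nat_lit 31) (nat_lit 5) (nat_lit 31) (nat_lit 4) (nat_lit 207) (nat_lit 197) (nat_lit 196)) (XT.lf (nat_lit 0) (nat_lit 1406469600) (nat_lit 152) (nat_lit 1408451731) (nat_lit 228) (nat_lit 5475929338) (nat_lit 25) (nat_lit 5) (nat_lit 27) (nat_lit 5) (nat_lit 28) (nat_lit 4) (nat_lit 208) (nat_lit 197) (nat_lit 195))) (XT.nd (nat_lit 78) (nat_lit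 456) (nat_lit 0) (XT.lf (nat_lit 0) (nat_lit 2215144113) (nat_lit 228) (nat_lit 6218166364) (nat_lit 228) (nat_lit 433180365) (nat_lit 22) (nat_lit 4) (nat_lit 25) (nat_lit 5) (nat_lit 25) (nat_lit 4) (nat_lit 209) (nat_lit 197) (nat_lit 194)) (XT.nd (nat_lit 78) (nat_lit 228) (nat_lit 0) (XT.lf (nat_lit 0) (nat_lit 2706906190) (nat_lit 152) (nat_lit 2072198621) (nat_lit 228) (nat_lit 4768032414) (nat_lit 19) (nat_lit 5) (nat_lit 21) (nat_lit 5) (nat_lit 22) (nat_lit 4) (nat_lit 210) (nat_lit 197) (nat_lit 193)) (XT.lf (nat_lit 0) (nat_lit 150676644) (nat_lit 228) (nat_lit 7550781316) (nat_lit 76) (nat_lit 2649300880) (nat_lit 16) (nat_lit 5) (nat_lit 19) (nat_lit 5) (nat_lit 17) (nat_lit 4) (nat_lit 211) (nat_lit 197) (nat_lit 192))))) (XT.nd (nat_lit 156) (nat_lit 304) (nat_lit 0) (XT.nd (nat_lit 78) (nat_lit 152) (nat_lit 0) (XT.lf (nat_lit 0) (nat_lit 2183057773) (nat_lit 76) (nat_lit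 3134966885) (nat_lit 152) (nat_lit 5965995588) (nat_lit 15) (nat_lit 5) (nat_lit 16) (nat_lit 5) (nat_lit 17) (nat_lit 4) (nat_lit 212) (nat_lit 197) (nat_lit 191)) (XT.lf (nat_lit 0) (nat_lit 732009566) (nat_lit 152) (nat_lit 10339936786) (nat_lit 152) (nat_lit 1302542805) (nat_lit 13) (nat_lit 4) (nat_lit 15) (nat_lit 5) (nat_lit 15) (nat_lit 4) (nat_lit 213) (nat_lit 197) (nat_lit 190))) (XT.nd (nat_lit 78) (nat_lit 228) (nat_lit 0) (XT.lf (nat_lit 0) (nat_lit 3766793072) (nat_lit 228) (nat_lit 1912570656) (nat_lit 76) (nat_lit 7950313484) (nat_lit 12) (nat_lit 5) (nat_lit 15) (nat_lit 5) (nat_lit 13) (nat_lit 4) (nat_lit 214) (nat_lit 197) (nat_lit 189)) (XT.nd (nat_lit 78) (nat_lit 152) (nat_lit 0) (XT.lf (nat_lit 0) (nat_lit 9082030353) (nat_lit 76) (nat_lit 267495757) (nat_lit 152) (nat_lit 5735996529) (nat_lit 11) (nat_lit 5) (nat_lit 12) (nat_lit 5) (nat_lit 13) (nat_lit 4) (nat_lit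 215) (nat_lit 197) (nat_lit 188)) (XT.lf (nat_lit 0) (nat_lit 4585300687) (nat_lit 152) (nat_lit 11136956880) (nat_lit 152) (nat_lit 1042580664) (nat_lit 9) (nat_lit 4) (nat_lit 11) (nat_lit 5) (nat_lit 11) (nat_lit 4) (nat_lit 216) (nat_lit 197) (nat_lit 187))))))) (XT.nd (nat_lit 702) (nat_lit 228) (nat_lit 0) (XT.nd (nat_lit 312) (nat_lit 152) (nat_lit 0) (XT.nd (nat_lit 156) (nat_lit 76) (nat_lit 0) (XT.nd (nat_lit 78) (nat_lit 76) (nat_lit 0) (XT.lf (nat_lit 0) (nat_lit 3989974244) (nat_lit 228) (nat_lit 2227550525) (nat_lit 76) (nat_lit 12482956800) (nat_lit 8) (nat_lit 5) (nat_lit 11) (nat_lit 5) (nat_lit 9) (nat_lit 4) (nat_lit 217) (nat_lit 197) (nat_lit 186)) (XT.lf (nat_lit 0) (nat_lit 9164427463) (nat_lit 76) (nat_lit 483195369) (nat_lit 152) (nat_lit 11283037218) (nat_lit 7) (nat_lit 5) (nat_lit 8) (nat_lit 5) (nat_lit 9) (nat_lit 4) (nat_lit 218) (nat_lit 197) (nat_lit 185)))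 (XT.nd (nat_lit 78) (nat_lit 76) (nat_lit 0) (XT.lf (nat_lit 0) (nat_lit 16100154543) (nat_lit 152) (nat_lit 1697857048) (nat_lit 0) (nat_lit 5702446563) (nat_lit 7) (nat_lit 5) (nat_lit 9) (nat_lit 4) (nat_lit 7) (nat_lit 4) (nat_lit 219) (nat_lit 197) (nat_lit 184)) (XT.lf (nat_lit 0) (nat_lit 9966758175) (nat_lit 76) (nat_lit 13574457027) (nat_lit 76) (nat_lit 2913547285) (nat_lit 6) (nat_lit 4) (nat_lit 7) (nat_lit 5) (nat_lit 7) (nat_lit 4) (nat_lit 220) (nat_lit 197) (nat_lit 183)))) (XT.nd (nat_lit 156) (nat_lit 0) (nat_lit 0) (XT.nd (nat_lit 78) (nat_lit 76) (nat_lit 0) (XT.lf (nat_lit 0) (nat_lit 1967636933) (nat_lit 152) (nat_lit 6797096017) (nat_lit 76) (nat_lit 21097009721) (nat_lit 5) (nat_lit 5) (nat_lit 7) (nat_lit 5) (nat_lit 6) (nat_lit 4) (nat_lit 221) (nat_lit 197) (nat_lit 182)) (XT.lf (nat_lit 0) (nat_lit 4146083812) (nat_lit 76) (nat_lit 3178379166) (nat_lit 152)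 (nat_lit 26456456490) (nat_lit 4) (nat_lit 5) (nat_lit 5) (nat_lit 5) (nat_lit 6) (nat_lit 4) (nat_lit 222) (nat_lit 197) (nat_lit 181))) (XT.nd (nat_lit 78) (nat_lit 0) (nat_lit 0) (XT.lf (nat_lit 0) (nat_lit 13591542381) (nat_lit 152) (nat_lit 21524415669) (nat_lit 0) (nat_lit 3163895515) (nat_lit 4) (nat_lit 5) (nat_lit 6) (nat_lit 4) (nat_lit 4) (nat_lit 4) (nat_lit 223) (nat_lit 197) (nat_lit 180)) (XT.nd (nat_lit 78) (nat_lit 0) (nat_lit 0) (XT.lf (nat_lit 0) (nat_lit 20734967775) (nat_lit 152) (nat_lit 12556140145) (nat_lit 0) (nat_lit 10167981593) (nat_lit 4) (nat_lit 5) (nat_lit 6) (nat_lit 4) (nat_lit 4) (nat_lit 4) (nat_lit 224) (nat_lit 197) (nat_lit 179)) (XT.lf (nat_lit 0) (nat_lit 28818061739) (nat_lit 152) (nat_lit 2478102728) (nat_lit 0) (nat_lit 18129910934) (nat_lit 4) (nat_lit 5) (nat_lit 6) (nat_lit 4) (nat_lit 4) (nat_lit 4) (nat_lit 225) (nat_lit 197) (nat_lit 178))))))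 (XT.nd (nat_lit 390) (nat_lit 152) (nat_lit 0) (XT.nd (nat_lit 156) (nat_lit 0) (nat_lit 0) (XT.nd (nat_lit 78) (nat_lit 0) (nat_lit 0) (XT.lf (nat_lit 0) (nat_lit 9375895857) (nat_lit 76) (nat_lit 28848566425) (nat_lit 76) (nat_lit 18055055079) (nat_lit 3) (nat_lit 4) (nat_lit 4) (nat_lit 5) (nat_lit 4) (nat_lit 4) (nat_lit 226) (nat_lit 197) (nat_lit 177)) (XT.lf (nat_lit 0) (nat_lit 22970628191) (nat_lit 76) (nat_lit 26039140313) (nat_lit 76) (nat_lit 15154011105) (nat_lit 3) (nat_lit 4) (nat_lit 4) (nat_lit 5) (nat_lit 4) (nat_lit 4) (nat_lit 227) (nat_lit 197) (nat_lit 176))) (XT.nd (nat_lit 78) (nat_lit 0) (nat_lit 0) (XT.lf (nat_lit 0) (nat_lit 38441585669) (nat_lit 76) (nat_lit 22880674819) (nat_lit 76) (nat_lit 11915877904) (nat_lit 3) (nat_lit 4) (nat_lit 4) (nat_lit 5) (nat_lit 4) (nat_lit 4) (nat_lit 228) (nat_lit 197) (nat_lit 175)) (XT.nd (nat_lit 78) (nat_lit 0) (nat_lit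 0) (XT.lf (nat_lit 0) (nat_lit 56091460937) (nat_lit 76) (nat_lit 19311373879) (nat_lit 76) (nat_lit 8277300698) (nat_lit 3) (nat_lit 4) (nat_lit 4) (nat_lit 5) (nat_lit 4) (nat_lit 4) (nat_lit 229) (nat_lit 197) (nat_lit 174)) (XT.lf (nat_lit 0) (nat_lit 76265577641) (nat_lit 76) (nat_lit 15261403344) (nat_lit 76) (nat_lit 4167089931) (nat_lit 3) (nat_lit 4) (nat_lit 4) (nat_lit 5) (nat_lit 4) (nat_lit 4) (nat_lit 230) (nat_lit 197) (nat_lit 173))))) (XT.nd (nat_lit 156) (nat_lit 0) (nat_lit 0) (XT.nd (nat_lit 78) (nat_lit 76) (nat_lit 0) (XT.lf (nat_lit 0) (nat_lit 470401075) (nat_lit 152) (nat_lit 10168261986) (nat_lit 76) (nat_lit 98875384085) (nat_lit 2) (nat_lit 5) (nat_lit 4) (nat_lit 5) (nat_lit 3) (nat_lit 4) (nat_lit 231) (nat_lit 197) (nat_lit 172)) (XT.lf (nat_lit 0) (nat_lit 283849684) (nat_lit 76) (nat_lit 5233504247) (nat_lit 152) (nat_lit 119884271197) (nat_lit 1) (nat_lit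 5) (nat_lit 2) (nat_lit 5) (nat_lit 3) (nat_lit 4) (nat_lit 232) (nat_lit 197) (nat_lit 171))) (XT.nd (nat_lit 78) (nat_lit 0) (nat_lit 0) (XT.lf (nat_lit 0) (nat_lit 11599320223) (nat_lit 152) (nat_lit 130851423782) (nat_lit 0) (nat_lit 1199454090) (nat_lit 1) (nat_lit 5) (nat_lit 3) (nat_lit 4) (nat_lit 1) (nat_lit 4) (nat_lit 233) (nat_lit 197) (nat_lit 170)) (XT.nd (nat_lit 78) (nat_lit 0) (nat_lit 0) (XT.lf (nat_lit 0) (nat_lit 18695384443) (nat_lit 152) (nat_lit 137668984680) (nat_lit 0) (nat_lit 8263627063) (nat_lit 1) (nat_lit 5) (nat_lit 3) (nat_lit 4) (nat_lit 1) (nat_lit 4) (nat_lit 234) (nat_lit 197) (nat_lit 169)) (XT.lf (nat_lit 0) (nat_lit 26818516728) (nat_lit 152) (nat_lit 145577979296) (nat_lit 0) (nat_lit 16359027828) (nat_lit 1) (nat_lit 5) (nat_lit 3) (nat_lit 4) (nat_lit 1) (nat_lit 4) (nat_lit 235) (nat_lit 197) (nat_lit 168))))))))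
noncomputable def xc20 : XT := (XT.nd (nat_lit 1404) (nat_lit 0) (nat_lit 0) (XT.nd (nat_lit 702) (nat_lit 0) (nat_lit 0) (XT.nd (nat_lit 312) (nat_lit 0) (nat_lit 0) (XT.nd (nat_lit 156) (nat_lit 0) (nat_lit 0) (XT.nd (nat_lit 78) (nat_lit 0) (nat_lit 0) (XT.lf (nat_lit 0) (nat_lit 36127647927) (nat_lit 152) (nat_lit 154733148830) (nat_lit 0) (nat_lit 25644044661) (nat_lit 1) (nat_lit 5) (nat_lit 3) (nat_lit 4) (nat_lit 1) (nat_lit 4) (nat_lit 236) (nat_lit 197) (nat_lit 167)) (XT.lf (nat_lit 0) (nat_lit 46804913215) (nat_lit 152) (nat_lit 165313616164) (nat_lit 0) (nat_lit 36300340936) (nat_lit 1) (nat_lit 5) (nat_lit 3) (nat_lit 4) (nat_lit 1) (nat_lit 4) (nat_lit 237) (nat_lit 197) (nat_lit 166))) (XT.nd (nat_lit 78) (nat_lit 0) (nat_lit 0) (XT.lf (nat_lit 0) (nat_lit 59059215608) (nat_lit 152) (nat_lit 177526390441) (nat_lit 0) (nat_lit 48536409404) (nat_lit 1) (nat_lit 5) (nat_lit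 3) (nat_lit 4) (nat_lit 1) (nat_lit 4) (nat_lit 238) (nat_lit 197) (nat_lit 165)) (XT.lf (nat_lit 0) (nat_lit 73130313198) (nat_lit 152) (nat_lit 191610417245) (nat_lit 0) (nat_lit 62591651407) (nat_lit 1) (nat_lit 5) (nat_lit 3) (nat_lit 4) (nat_lit 1) (nat_lit 4) (nat_lit 239) (nat_lit 197) (nat_lit 164)))) (XT.nd (nat_lit 156) (nat_lit 0) (nat_lit 0) (XT.nd (nat_lit 78) (nat_lit 0) (nat_lit 0) (XT.lf (nat_lit 0) (nat_lit 89293510067) (nat_lit 152) (nat_lit 207841253622) (nat_lit 0) (nat_lit 78741060810) (nat_lit 1) (nat_lit 5) (nat_lit 3) (nat_lit 4) (nat_lit 1) (nat_lit 4) (nat_lit 240) (nat_lit 197) (nat_lit 163)) (XT.lf (nat_lit 0) (nat_lit 107865042675) (nat_lit 152) (nat_lit 226536459414) (nat_lit 0) (nat_lit 97300604317) (nat_lit 1) (nat_lit 5) (nat_lit 3) (nat_lit 4) (nat_lit 1) (nat_lit 4) (nat_lit 241) (nat_lit 197) (nat_lit 162))) (XT.nd (nat_lit 78) (nat_lit 0) (nat_lit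 0) (XT.lf (nat_lit 0) (nat_lit 129208267096) (nat_lit 152) (nat_lit 248061810386) (nat_lit 0) (nat_lit 118633403432) (nat_lit 1) (nat_lit 5) (nat_lit 3) (nat_lit 4) (nat_lit 1) (nat_lit 4) (nat_lit 242) (nat_lit 197) (nat_lit 161)) (XT.nd (nat_lit 78) (nat_lit 0) (nat_lit 0) (XT.lf (nat_lit 0) (nat_lit 153740768155) (nat_lit 152) (nat_lit 272838454711) (nat_lit 0) (nat_lit 143156839008) (nat_lit 1) (nat_lit 5) (nat_lit 3) (nat_lit 4) (nat_lit 1) (nat_lit 4) (nat_lit 243) (nat_lit 197) (nat_lit 160)) (XT.lf (nat_lit 0) (nat_lit 181942529569) (nat_lit 152) (nat_lit 301351152820) (nat_lit 0) (nat_lit 171350717393) (nat_lit 1) (nat_lit 5) (nat_lit 3) (nat_lit 4) (nat_lit 1) (nat_lit 4) (nat_lit 244) (nat_lit 197) (nat_lit 159)))))) (XT.nd (nat_lit 312) (nat_lit 0) (nat_lit 0) (XT.nd (nat_lit 156) (nat_lit 0) (nat_lit 0) (XT.nd (nat_lit 78) (nat_lit 0) (nat_lit 0) (XT.lf (nat_lit 0) (nat_lit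 214365324930) (nat_lit 152) (nat_lit 334157761850) (nat_lit 0) (nat_lit 203766657947) (nat_lit 1) (nat_lit 5) (nat_lit 3) (nat_lit 4) (nat_lit 1) (nat_lit 4) (nat_lit 245) (nat_lit 197) (nat_lit 158)) (XT.lf (nat_lit 0) (nat_lit 251643513279) (nat_lit 152) (nat_lit 371900150240) (nat_lit 0) (nat_lit 241038885593) (nat_lit 1) (nat_lit 5) (nat_lit 3) (nat_lit 4) (nat_lit 1) (nat_lit 4) (nat_lit 246) (nat_lit 197) (nat_lit 157))) (XT.nd (nat_lit 78) (nat_lit 0) (nat_lit 0) (XT.lf (nat_lit 0) (nat_lit 294506450473) (nat_lit 152) (nat_lit 415316756021) (nat_lit 0) (nat_lit 283896639568) (nat_lit 1) (nat_lit 5) (nat_lit 3) (nat_lit 4) (nat_lit 1) (nat_lit 4) (nat_lit 247) (nat_lit 197) (nat_lit 156)) (XT.lf (nat_lit 0) (nat_lit 343792759198) (nat_lit 152) (nat_lit 465257034526) (nat_lit 0) (nat_lit 333178441146) (nat_lit 1) (nat_lit 5) (nat_lit 3) (nat_lit 4) (nat_lit 1) (nat_lit 4) (nat_lit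 248) (nat_lit 197) (nat_lit 155)))) (XT.nd (nat_lit 156) (nat_lit 0) (nat_lit 0) (XT.nd (nat_lit 78) (nat_lit 0) (nat_lit 0) (XT.lf (nat_lit 0) (nat_lit 400466736798) (nat_lit 152) (nat_lit 522698078159) (nat_lit 0) (nat_lit 389848499487) (nat_lit 1) (nat_lit 5) (nat_lit 3) (nat_lit 4) (nat_lit 1) (nat_lit 4) (nat_lit 249) (nat_lit 197) (nat_lit 154)) (XT.lf (nat_lit 0) (nat_lit 465637221964) (nat_lit 152) (nat_lit 588763733427) (nat_lit 0) (nat_lit 455015576603) (nat_lit 1) (nat_lit 5) (nat_lit 3) (nat_lit 4) (nat_lit 1) (nat_lit 4) (nat_lit 250) (nat_lit 197) (nat_lit 153))) (XT.nd (nat_lit 78) (nat_lit 0) (nat_lit 0) (XT.lf (nat_lit 0) (nat_lit 540579289408) (nat_lit 152) (nat_lit 664746589236) (nat_lit 0) (nat_lit 529954680524) (nat_lit 1) (nat_lit 5) (nat_lit 3) (nat_lit 4) (nat_lit 1) (nat_lit 4) (nat_lit 251) (nat_lit 197) (nat_lit 152)) (XT.nd (nat_lit 78) (nat_lit 0) (nat_lit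 0) (XT.lf (nat_lit 0) (nat_lit 626759196970) (nat_lit 152) (nat_lit 752133266679) (nat_lit 0) (nat_lit 616132011110) (nat_lit 1) (nat_lit 5) (nat_lit 3) (nat_lit 4) (nat_lit 1) (nat_lit 4) (nat_lit 252) (nat_lit 197) (nat_lit 151)) (XT.lf (nat_lit 0) (nat_lit 725863073276) (nat_lit 152) (nat_lit 852633505097) (nat_lit 0) (nat_lit 715233646567) (nat_lit 1) (nat_lit 5) (nat_lit 3) (nat_lit 4) (nat_lit 1) (nat_lit 4) (nat_lit 253) (nat_lit 197) (nat_lit 150))))))) (XT.nd (nat_lit 27612) (nat_lit 0) (nat_lit 760) (XT.nd (nat_lit 312) (nat_lit 0) (nat_lit 0) (XT.nd (nat_lit 156) (nat_lit 0) (nat_lit 0) (XT.nd (nat_lit 78) (nat_lit 0) (nat_lit 0) (XT.lf (nat_lit 0) (nat_lit 839829907211) (nat_lit 152) (nat_lit 968213613503) (nat_lit 0) (nat_lit 829198531938) (nat_lit 1) (nat_lit 5) (nat_lit 3) (nat_lit 4) (nat_lit 1) (nat_lit 4) (nat_lit 254) (nat_lit 197) (nat_lit 149)) (XT.lf (nat_lit 0)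 (nat_lit 970889484656) (nat_lit 152) (nat_lit 1101134941843) (nat_lit 0) (nat_lit 960256414979) (nat_lit 1) (nat_lit 5) (nat_lit 3) (nat_lit 4) (nat_lit 1) (nat_lit 4) (nat_lit 255) (nat_lit 197) (nat_lit 148))) (XT.nd (nat_lit 78) (nat_lit 0) (nat_lit 0) (XT.lf (nat_lit 0) (nat_lit 1121606014735) (nat_lit 152) (nat_lit 1253998124803) (nat_lit 0) (nat_lit 1110971471663) (nat_lit 1) (nat_lit 5) (nat_lit 3) (nat_lit 4) (nat_lit 1) (nat_lit 4) (nat_lit 256) (nat_lit 197) (nat_lit 147)) (XT.lf (nat_lit 0) (nat_lit 1294928299123) (nat_lit 152) (nat_lit 1429793963788) (nat_lit 0) (nat_lit 1284292474839) (nat_lit 1) (nat_lit 5) (nat_lit 3) (nat_lit 4) (nat_lit 1) (nat_lit 4) (nat_lit 257) (nat_lit 197) (nat_lit 146)))) (XT.nd (nat_lit 27066) (nat_lit 0) (nat_lit 2736) (XT.nd (nat_lit 78) (nat_lit 0) (nat_lit 0) (XT.lf (nat_lit 0) (nat_lit 1494247425993) (nat_lit 152) (nat_lit 1631961942605)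 (nat_lit 0) (nat_lit 1483610487611) (nat_lit 1) (nat_lit 5) (nat_lit 3) (nat_lit 4) (nat_lit 1) (nat_lit 4) (nat_lit 258) (nat_lit 197) (nat_lit 145)) (XT.lf (nat_lit 0) (nat_lit 1723463117393) (nat_lit 152) (nat_lit 1864457521708) (nat_lit 0) (nat_lit 1712825210230) (nat_lit 1) (nat_lit 5) (nat_lit 3) (nat_lit 4) (nat_lit 1) (nat_lit 4) (nat_lit 259) (nat_lit 197) (nat_lit 144))) (XT.nd (nat_lit 78) (nat_lit 836) (nat_lit 0) (XT.lf (nat_lit 0) (nat_lit 2524131838) (nat_lit 228) (nat_lit 454201314) (nat_lit 228) (nat_lit 454201314) (nat_lit 48) (nat_lit 4) (nat_lit 51) (nat_lit 5) (nat_lit 51) (nat_lit 4) (nat_lit 204) (nat_lit 198) (nat_lit 198)) (XT.nd (nat_lit 78) (nat_lit 456) (nat_lit 0) (XT.lf (nat_lit 0) (nat_lit 4326103868) (nat_lit 380) (nat_lit 1423461743) (nat_lit 0) (nat_lit 1370807161) (nat_lit 43) (nat_lit 5) (nat_lit 48) (nat_lit 4) (nat_lit 43) (nat_lit 4) (nat_lit 205)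 (nat_lit 198) (nat_lit 197)) (XT.lf (nat_lit 0) (nat_lit 2207972230) (nat_lit 456) (nat_lit 932537690) (nat_lit 76) (nat_lit 4314487768) (nat_lit 37) (nat_lit 5) (nat_lit 43) (nat_lit 5) (nat_lit 38) (nat_lit 4) (nat_lit 206) (nat_lit 198) (nat_lit 196)))))) (XT.nd (nat_lit 390) (nat_lit 532) (nat_lit 0) (XT.nd (nat_lit 156) (nat_lit 532) (nat_lit 0) (XT.nd (nat_lit 78) (nat_lit 456) (nat_lit 0) (XT.lf (nat_lit 0) (nat_lit 7337399288) (nat_lit 532) (nat_lit 386192051) (nat_lit 0) (nat_lit 152446677) (nat_lit 31) (nat_lit 5) (nat_lit 38) (nat_lit 4) (nat_lit 31) (nat_lit 4) (nat_lit 207) (nat_lit 198) (nat_lit 195)) (XT.lf (nat_lit 0) (nat_lit 9162431) (nat_lit 152) (nat_lit 4314555429) (nat_lit 228) (nat_lit 4056162290) (nat_lit 25) (nat_lit 5) (nat_lit 27) (nat_lit 5) (nat_lit 28) (nat_lit 4) (nat_lit 208) (nat_lit 198) (nat_lit 194))) (XT.nd (nat_lit 78) (nat_lit 228) (nat_lit 0) (XT.lf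 (nat_lit 0) (nat_lit 330582047) (nat_lit 228) (nat_lit 211071297) (nat_lit 304) (nat_lit 8445247066) (nat_lit 21) (nat_lit 5) (nat_lit 24) (nat_lit 5) (nat_lit 25) (nat_lit 5) (nat_lit 209) (nat_lit 198) (nat_lit 193)) (XT.nd (nat_lit 78) (nat_lit 76) (nat_lit 0) (XT.lf (nat_lit 0) (nat_lit 233385222) (nat_lit 152) (nat_lit 5180268455) (nat_lit 228) (nat_lit 4279967916) (nat_lit 19) (nat_lit 5) (nat_lit 21) (nat_lit 5) (nat_lit 22) (nat_lit 4) (nat_lit 210) (nat_lit 198) (nat_lit 192)) (XT.lf (nat_lit 0) (nat_lit 242682248) (nat_lit 228) (nat_lit 227299506) (nat_lit 76) (nat_lit 10057196450) (nat_lit 18) (nat_lit 5) (nat_lit 21) (nat_lit 5) (nat_lit 19) (nat_lit 5) (nat_lit 211) (nat_lit 198) (nat_lit 191))))) (XT.nd (nat_lit 156) (nat_lit 304) (nat_lit 0) (XT.nd (nat_lit 78) (nat_lit 76) (nat_lit 0) (XT.lf (nat_lit 0) (nat_lit 5126364500) (nat_lit 228) (nat_lit 1443557145) (nat_lit 76)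 (nat_lit 4914204719) (nat_lit 16) (nat_lit 5) (nat_lit 19) (nat_lit 5) (nat_lit 17) (nat_lit 4) (nat_lit 212) (nat_lit 198) (nat_lit 190)) (XT.lf (nat_lit 0) (nat_lit 9137541296) (nat_lit 76) (nat_lit 1444598786) (nat_lit 152) (nat_lit 2017170791) (nat_lit 15) (nat_lit 5) (nat_lit 16) (nat_lit 5) (nat_lit 17) (nat_lit 4) (nat_lit 213) (nat_lit 198) (nat_lit 189))) (XT.nd (nat_lit 78) (nat_lit 76) (nat_lit 0) (XT.lf (nat_lit 0) (nat_lit 2781629812) (nat_lit 228) (nat_lit 6751425251) (nat_lit 76) (nat_lit 4348017098) (nat_lit 12) (nat_lit 5) (nat_lit 15) (nat_lit 5) (nat_lit 13) (nat_lit 4) (nat_lit 214) (nat_lit 198) (nat_lit 188)) (XT.nd (nat_lit 78) (nat_lit 0) (nat_lit 0) (XT.lf (nat_lit 0) (nat_lit 3727349713) (nat_lit 76) (nat_lit 4350298041) (nat_lit 152) (nat_lit 7282811891) (nat_lit 11) (nat_lit 5) (nat_lit 12) (nat_lit 5) (nat_lit 13) (nat_lit 4) (nat_lit 215) (nat_lit 198) (nat_lit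 187)) (XT.lf (nat_lit 0) (nat_lit 14097093140) (nat_lit 152) (nat_lit 1412400035) (nat_lit 0) (nat_lit 1559070905) (nat_lit 11) (nat_lit 5) (nat_lit 13) (nat_lit 4) (nat_lit 11) (nat_lit 4) (nat_lit 216) (nat_lit 198) (nat_lit 186))))))))
noncomputable def xc21 : XT := (XT.nd (nat_lit 1482) (nat_lit 0) (nat_lit 0) (XT.nd (nat_lit 702) (nat_lit 228) (nat_lit 0) (XT.nd (nat_lit 312) (nat_lit 152) (nat_lit 0) (XT.nd (nat_lit 156) (nat_lit 76) (nat_lit 0) (XT.nd (nat_lit 78) (nat_lit 76) (nat_lit 0) (XT.lf (nat_lit 0) (nat_lit 1985904489) (nat_lit 228) (nat_lit 8783271972) (nat_lit 76) (nat_lit 8252899252) (nat_lit 8) (nat_lit 5) (nat_lit 11) (nat_lit 5) (nat_lit 9) (nat_lit 4) (nat_lit 217) (nat_lit 198) (nat_lit 185)) (XT.lf (nat_lit 0) (nat_lit 2058107416) (nat_lit 76) (nat_lit 5297160523) (nat_lit 152) (nat_lit 13920417307) (nat_lit 7) (nat_lit 5) (nat_lit 8) (nat_lit 5) (nat_lit 9) (nat_lit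 4) (nat_lit 218) (nat_lit 198) (nat_lit 184))) (XT.nd (nat_lit 78) (nat_lit 76) (nat_lit 0) (XT.lf (nat_lit 0) (nat_lit 13583923407) (nat_lit 152) (nat_lit 9219114810) (nat_lit 0) (nat_lit 1060675442) (nat_lit 7) (nat_lit 5) (nat_lit 9) (nat_lit 4) (nat_lit 7) (nat_lit 4) (nat_lit 219) (nat_lit 198) (nat_lit 183)) (XT.lf (nat_lit 0) (nat_lit 1879473420) (nat_lit 76) (nat_lit 18857011022) (nat_lit 76) (nat_lit 6104891960) (nat_lit 6) (nat_lit 4) (nat_lit 7) (nat_lit 5) (nat_lit 7) (nat_lit 4) (nat_lit 220) (nat_lit 198) (nat_lit 182)))) (XT.nd (nat_lit 156) (nat_lit 76) (nat_lit 0) (XT.nd (nat_lit 78) (nat_lit 76) (nat_lit 0) (XT.lf (nat_lit 0) (nat_lit 14883359807) (nat_lit 76) (nat_lit 14163592457) (nat_lit 76) (nat_lit 1212455049) (nat_lit 6) (nat_lit 4) (nat_lit 7) (nat_lit 5) (nat_lit 7) (nat_lit 4) (nat_lit 221) (nat_lit 198) (nat_lit 181)) (XT.lf (nat_lit 0) (nat_lit 4029014377)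 (nat_lit 152) (nat_lit 4743846932) (nat_lit 76) (nat_lit 25422331196) (nat_lit 5) (nat_lit 5) (nat_lit 7) (nat_lit 5) (nat_lit 6) (nat_lit 4) (nat_lit 222) (nat_lit 198) (nat_lit 180))) (XT.nd (nat_lit 78) (nat_lit 0) (nat_lit 0) (XT.lf (nat_lit 0) (nat_lit 7580711514) (nat_lit 76) (nat_lit 2445920607) (nat_lit 152) (nat_lit 28689220932) (nat_lit 4) (nat_lit 5) (nat_lit 5) (nat_lit 5) (nat_lit 6) (nat_lit 4) (nat_lit 223) (nat_lit 198) (nat_lit 179)) (XT.nd (nat_lit 78) (nat_lit 0) (nat_lit 0) (XT.lf (nat_lit 0) (nat_lit 17049909700) (nat_lit 152) (nat_lit 22217566884) (nat_lit 0) (nat_lit 4637371651) (nat_lit 4) (nat_lit 5) (nat_lit 6) (nat_lit 4) (nat_lit 4) (nat_lit 4) (nat_lit 224) (nat_lit 198) (nat_lit 178)) (XT.lf (nat_lit 0) (nat_lit 25079678996) (nat_lit 152) (nat_lit 12234768875) (nat_lit 0) (nat_lit 12561780406) (nat_lit 4) (nat_lit 5) (nat_lit 6) (nat_lit 4) (nat_lit 4) (nat_lit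 4) (nat_lit 225) (nat_lit 198) (nat_lit 177)))))) (XT.nd (nat_lit 390) (nat_lit 152) (nat_lit 0) (XT.nd (nat_lit 156) (nat_lit 0) (nat_lit 0) (XT.nd (nat_lit 78) (nat_lit 76) (nat_lit 0) (XT.lf (nat_lit 0) (nat_lit 34214219743) (nat_lit 152) (nat_lit 932607449) (nat_lit 0) (nat_lit 21604703290) (nat_lit 4) (nat_lit 5) (nat_lit 6) (nat_lit 4) (nat_lit 4) (nat_lit 4) (nat_lit 226) (nat_lit 198) (nat_lit 176)) (XT.lf (nat_lit 0) (nat_lit 12537208589) (nat_lit 76) (nat_lit 32396562795) (nat_lit 76) (nat_lit 19707378636) (nat_lit 3) (nat_lit 4) (nat_lit 4) (nat_lit 5) (nat_lit 4) (nat_lit 4) (nat_lit 227) (nat_lit 198) (nat_lit 175))) (XT.nd (nat_lit 78) (nat_lit 0) (nat_lit 0) (XT.lf (nat_lit 0) (nat_lit 27942247075) (nat_lit 76) (nat_lit 29267369104) (nat_lit 76) (nat_lit 16508908679) (nat_lit 3) (nat_lit 4) (nat_lit 4) (nat_lit 5) (nat_lit 4) (nat_lit 4) (nat_lit 228) (nat_lit 198) (nat_lit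 174)) (XT.nd (nat_lit 78) (nat_lit 0) (nat_lit 0) (XT.lf (nat_lit 0) (nat_lit 45534801480) (nat_lit 76) (nat_lit 25723521907) (nat_lit 76) (nat_lit 12904821250) (nat_lit 3) (nat_lit 4) (nat_lit 4) (nat_lit 5) (nat_lit 4) (nat_lit 4) (nat_lit 229) (nat_lit 198) (nat_lit 173)) (XT.lf (nat_lit 0) (nat_lit 65659073956) (nat_lit 76) (nat_lit 21695685061) (nat_lit 76) (nat_lit 8824601594) (nat_lit 3) (nat_lit 4) (nat_lit 4) (nat_lit 5) (nat_lit 4) (nat_lit 4) (nat_lit 230) (nat_lit 198) (nat_lit 172))))) (XT.nd (nat_lit 156) (nat_lit 76) (nat_lit 0) (XT.nd (nat_lit 78) (nat_lit 76) (nat_lit 0) (XT.lf (nat_lit 0) (nat_lit 88708800268) (nat_lit 76) (nat_lit 17105053063) (nat_lit 76) (nat_lit 4188419326) (nat_lit 3) (nat_lit 4) (nat_lit 4) (nat_lit 5) (nat_lit 4) (nat_lit 4) (nat_lit 231) (nat_lit 198) (nat_lit 171)) (XT.lf (nat_lit 0) (nat_lit 1039685471) (nat_lit 152) (nat_lit 10793696885) (nat_lit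 76) (nat_lit 114066841008) (nat_lit 2) (nat_lit 5) (nat_lit 4) (nat_lit 5) (nat_lit 3) (nat_lit 4) (nat_lit 232) (nat_lit 198) (nat_lit 170))) (XT.nd (nat_lit 78) (nat_lit 0) (nat_lit 0) (XT.lf (nat_lit 0) (nat_lit 1150067574) (nat_lit 76) (nat_lit 5648371266) (nat_lit 152) (nat_lit 137376253324) (nat_lit 1) (nat_lit 5) (nat_lit 2) (nat_lit 5) (nat_lit 3) (nat_lit 4) (nat_lit 233) (nat_lit 198) (nat_lit 169)) (XT.nd (nat_lit 78) (nat_lit 0) (nat_lit 0) (XT.lf (nat_lit 0) (nat_lit 13741291425) (nat_lit 152) (nat_lit 149738341830) (nat_lit 0) (nat_lit 1685147669) (nat_lit 1) (nat_lit 5) (nat_lit 3) (nat_lit 4) (nat_lit 1) (nat_lit 4) (nat_lit 234) (nat_lit 198) (nat_lit 168)) (XT.lf (nat_lit 0) (nat_lit 21849320952) (nat_lit 152) (nat_lit 157675162365) (nat_lit 0) (nat_lit 9769062831) (nat_lit 1) (nat_lit 5) (nat_lit 3) (nat_lit 4) (nat_lit 1) (nat_lit 4) (nat_lit 235) (nat_lit 198) (nat_lit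 167))))))) (XT.nd (nat_lit 702) (nat_lit 0) (nat_lit 0) (XT.nd (nat_lit 312) (nat_lit 0) (nat_lit 0) (XT.nd (nat_lit 156) (nat_lit 0) (nat_lit 0) (XT.nd (nat_lit 78) (nat_lit 0) (nat_lit 0) (XT.lf (nat_lit 0) (nat_lit 31145319318) (nat_lit 152) (nat_lit 166854528350) (nat_lit 0) (nat_lit 19044092183) (nat_lit 1) (nat_lit 5) (nat_lit 3) (nat_lit 4) (nat_lit 1) (nat_lit 4) (nat_lit 236) (nat_lit 198) (nat_lit 166)) (XT.lf (nat_lit 0) (nat_lit 41811164751) (nat_lit 152) (nat_lit 177456036076) (nat_lit 0) (nat_lit 29691703692) (nat_lit 1) (nat_lit 5) (nat_lit 3) (nat_lit 4) (nat_lit 1) (nat_lit 4) (nat_lit 237) (nat_lit 198) (nat_lit 165))) (XT.nd (nat_lit 78) (nat_lit 0) (nat_lit 0) (XT.lf (nat_lit 0) (nat_lit 54055536836) (nat_lit 152) (nat_lit 189687106346) (nat_lit 0) (nat_lit 41920220190) (nat_lit 1) (nat_lit 5) (nat_lit 3) (nat_lit 4) (nat_lit 1) (nat_lit 4) (nat_lit 238) (nat_lit 198)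 (nat_lit 164)) (XT.lf (nat_lit 0) (nat_lit 68117999375) (nat_lit 152) (nat_lit 203787042710) (nat_lit 0) (nat_lit 55968895263) (nat_lit 1) (nat_lit 5) (nat_lit 3) (nat_lit 4) (nat_lit 1) (nat_lit 4) (nat_lit 239) (nat_lit 198) (nat_lit 163)))) (XT.nd (nat_lit 156) (nat_lit 0) (nat_lit 0) (XT.nd (nat_lit 78) (nat_lit 0) (nat_lit 0) (XT.lf (nat_lit 0) (nat_lit 84273687504) (nat_lit 152) (nat_lit 220031713486) (nat_lit 0) (nat_lit 72112594290) (nat_lit 1) (nat_lit 5) (nat_lit 3) (nat_lit 4) (nat_lit 1) (nat_lit 4) (nat_lit 240) (nat_lit 198) (nat_lit 162)) (XT.lf (nat_lit 0) (nat_lit 102838690773) (nat_lit 152) (nat_lit 238738949190) (nat_lit 0) (nat_lit 90667172254) (nat_lit 1) (nat_lit 5) (nat_lit 3) (nat_lit 4) (nat_lit 1) (nat_lit 4) (nat_lit 241) (nat_lit 198) (nat_lit 161))) (XT.nd (nat_lit 78) (nat_lit 0) (nat_lit 0) (XT.lf (nat_lit 0) (nat_lit 124176237508) (nat_lit 152) (nat_lit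 260274760957) (nat_lit 0) (nat_lit 111995653506) (nat_lit 1) (nat_lit 5) (nat_lit 3) (nat_lit 4) (nat_lit 1) (nat_lit 4) (nat_lit 242) (nat_lit 198) (nat_lit 160)) (XT.nd (nat_lit 78) (nat_lit 0) (nat_lit 0) (XT.lf (nat_lit 0) (nat_lit 148703801449) (nat_lit 152) (nat_lit 285060501624) (nat_lit 0) (nat_lit 136515334418) (nat_lit 1) (nat_lit 5) (nat_lit 3) (nat_lit 4) (nat_lit 1) (nat_lit 4) (nat_lit 243) (nat_lit 198) (nat_lit 159)) (XT.lf (nat_lit 0) (nat_lit 176901269717) (nat_lit 152) (nat_lit 313581109595) (nat_lit 0) (nat_lit 164705947878) (nat_lit 1) (nat_lit 5) (nat_lit 3) (nat_lit 4) (nat_lit 1) (nat_lit 4) (nat_lit 244) (nat_lit 198) (nat_lit 158)))))) (XT.nd (nat_lit 390) (nat_lit 0) (nat_lit 0) (XT.nd (nat_lit 156) (nat_lit 0) (nat_lit 0) (XT.nd (nat_lit 78) (nat_lit 0) (nat_lit 0) (XT.lf (nat_lit 0) (nat_lit 209320331907) (nat_lit 152) (nat_lit 346394596767) (nat_lit 0) (nat_lit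 197119049366) (nat_lit 1) (nat_lit 5) (nat_lit 3) (nat_lit 4) (nat_lit 1) (nat_lit 4) (nat_lit 245) (nat_lit 198) (nat_lit 157)) (XT.lf (nat_lit 0) (nat_lit 246595274020) (nat_lit 152) (nat_lit 384142966149) (nat_lit 0) (nat_lit 234388808260) (nat_lit 1) (nat_lit 5) (nat_lit 3) (nat_lit 4) (nat_lit 1) (nat_lit 4) (nat_lit 246) (nat_lit 198) (nat_lit 156))) (XT.nd (nat_lit 78) (nat_lit 0) (nat_lit 0) (XT.lf (nat_lit 0) (nat_lit 289455388401) (nat_lit 152) (nat_lit 427564772794) (nat_lit 0) (nat_lit 277244415494) (nat_lit 1) (nat_lit 5) (nat_lit 3) (nat_lit 4) (nat_lit 1) (nat_lit 4) (nat_lit 247) (nat_lit 198) (nat_lit 155)) (XT.nd (nat_lit 78) (nat_lit 0) (nat_lit 0) (XT.lf (nat_lit 0) (nat_lit 338739242506) (nat_lit 152) (nat_lit 477509573788) (nat_lit 0) (nat_lit 326524350339) (nat_lit 1) (nat_lit 5) (nat_lit 3) (nat_lit 4) (nat_lit 1) (nat_lit 4) (nat_lit 248) (nat_lit 198) (nat_lit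 154)) (XT.lf (nat_lit 0) (nat_lit 395411085653) (nat_lit 152) (nat_lit 534954550021) (nat_lit 0) (nat_lit 383192785436) (nat_lit 1) (nat_lit 5) (nat_lit 3) (nat_lit 4) (nat_lit 1) (nat_lit 4) (nat_lit 249) (nat_lit 198) (nat_lit 153))))) (XT.nd (nat_lit 156) (nat_lit 0) (nat_lit 0) (XT.nd (nat_lit 78) (nat_lit 0) (nat_lit 0) (XT.lf (nat_lit 0) (nat_lit 460579714774) (nat_lit 152) (nat_lit 601023624940) (nat_lit 0) (nat_lit 448358451034) (nat_lit 1) (nat_lit 5) (nat_lit 3) (nat_lit 4) (nat_lit 1) (nat_lit 4) (nat_lit 250) (nat_lit 198) (nat_lit 152)) (XT.lf (nat_lit 0) (nat_lit 535520168265) (nat_lit 152) (nat_lit 677009454360) (nat_lit 0) (nat_lit 523296327549) (nat_lit 1) (nat_lit 5) (nat_lit 3) (nat_lit 4) (nat_lit 1) (nat_lit 4) (nat_lit 251) (nat_lit 198) (nat_lit 151))) (XT.nd (nat_lit 78) (nat_lit 0) (nat_lit 0) (XT.lf (nat_lit 0) (nat_lit 621698672390) (nat_lit 152) (nat_lit 764398717551)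 (nat_lit 0) (nat_lit 609472590825) (nat_lit 1) (nat_lit 5) (nat_lit 3) (nat_lit 4) (nat_lit 1) (nat_lit 4) (nat_lit 252) (nat_lit 198) (nat_lit 150)) (XT.nd (nat_lit 78) (nat_lit 0) (nat_lit 0) (XT.lf (nat_lit 0) (nat_lit 720801328316) (nat_lit 152) (nat_lit 864901204446) (nat_lit 0) (nat_lit 708573298187) (nat_lit 1) (nat_lit 5) (nat_lit 3) (nat_lit 4) (nat_lit 1) (nat_lit 4) (nat_lit 253) (nat_lit 198) (nat_lit 149)) (XT.lf (nat_lit 0) (nat_lit 834767101050) (nat_lit 152) (nat_lit 980483268049) (nat_lit 0) (nat_lit 822537376518) (nat_lit 1) (nat_lit 5) (nat_lit 3) (nat_lit 4) (nat_lit 1) (nat_lit 4) (nat_lit 254) (nat_lit 198) (nat_lit 148))))))))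
noncomputable def xc22 : XT := (XT.nd (nat_lit 28236) (nat_lit 0) (nat_lit 0) (XT.nd (nat_lit 27456) (nat_lit 0) (nat_lit 836) (XT.nd (nat_lit 312) (nat_lit 0) (nat_lit 0) (XT.nd (nat_lit 156) (nat_lit 0) (nat_lit 0) (XT.nd (nat_lit 78) (nat_lit 0) (nat_lit 0) (XT.lf (nat_lit 0) (nat_lit 965825755713) (nat_lit 152) (nat_lit 1113406296561) (nat_lit 0) (nat_lit 953594557786) (nat_lit 1) (nat_lit 5) (nat_lit 3) (nat_lit 4) (nat_lit 1) (nat_lit 4) (nat_lit 255) (nat_lit 198) (nat_lit 147)) (XT.lf (nat_lit 0) (nat_lit 1116541483372) (nat_lit 152) (nat_lit 1266270957931) (nat_lit 0) (nat_lit 1104309004232) (nat_lit 1) (nat_lit 5) (nat_lit 3) (nat_lit 4) (nat_lit 1) (nat_lit 4) (nat_lit 256) (nat_lit 198) (nat_lit 146))) (XT.nd (nat_lit 78) (nat_lit 0) (nat_lit 0) (XT.lf (nat_lit 0) (nat_lit 1289863070003) (nat_lit 152) (nat_lit 1442068082490) (nat_lit 0) (nat_lit 1277629476766) (nat_lit 1)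 (nat_lit 5) (nat_lit 3) (nat_lit 4) (nat_lit 1) (nat_lit 4) (nat_lit 257) (nat_lit 198) (nat_lit 145)) (XT.lf (nat_lit 0) (nat_lit 1489181590129) (nat_lit 152) (nat_lit 1644237179197) (nat_lit 0) (nat_lit 1476947028111) (nat_lit 1) (nat_lit 5) (nat_lit 3) (nat_lit 4) (nat_lit 1) (nat_lit 4) (nat_lit 258) (nat_lit 198) (nat_lit 144)))) (XT.nd (nat_lit 26910) (nat_lit 0) (nat_lit 3192) (XT.nd (nat_lit 26832) (nat_lit 0) (nat_lit 4028) (XT.lf (nat_lit 0) (nat_lit 1718396753925) (nat_lit 152) (nat_lit 1876733730378) (nat_lit 0) (nat_lit 1706161349489) (nat_lit 1) (nat_lit 5) (nat_lit 3) (nat_lit 4) (nat_lit 1) (nat_lit 4) (nat_lit 259) (nat_lit 198) (nat_lit 143)) (XT.lf (nat_lit 0) (nat_lit 2394181728) (nat_lit 76) (nat_lit 438823932) (nat_lit 76) (nat_lit 438823932) (nat_lit 54) (nat_lit 4) (nat_lit 55) (nat_lit 5) (nat_lit 55) (nat_lit 4) (nat_lit 202) (nat_lit 199) (nat_lit 199))) (XT.nd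 (nat_lit 78) (nat_lit 608) (nat_lit 0) (XT.lf (nat_lit 0) (nat_lit 4138260836) (nat_lit 228) (nat_lit 2077417141) (nat_lit 0) (nat_lit 467782326) (nat_lit 51) (nat_lit 5) (nat_lit 54) (nat_lit 4) (nat_lit 51) (nat_lit 4) (nat_lit 203) (nat_lit 199) (nat_lit 198)) (XT.nd (nat_lit 78) (nat_lit 304) (nat_lit 0) (XT.lf (nat_lit 0) (nat_lit 2231507536) (nat_lit 304) (nat_lit 2220663276) (nat_lit 76) (nat_lit 2442571115) (nat_lit 47) (nat_lit 5) (nat_lit 51) (nat_lit 5) (nat_lit 48) (nat_lit 4) (nat_lit 204) (nat_lit 199) (nat_lit 197)) (XT.lf (nat_lit 0) (nat_lit 4977401067) (nat_lit 304) (nat_lit 2049045616) (nat_lit 380) (nat_lit 156507766) (nat_lit 43) (nat_lit 5) (nat_lit 47) (nat_lit 5) (nat_lit 48) (nat_lit 4) (nat_lit 205) (nat_lit 199) (nat_lit 196)))))) (XT.nd (nat_lit 390) (nat_lit 684) (nat_lit 0) (XT.nd (nat_lit 156) (nat_lit 684) (nat_lit 0) (XT.nd (nat_lit 78) (nat_lit 532) (nat_lit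 0) (XT.lf (nat_lit 0) (nat_lit 4323717455) (nat_lit 456) (nat_lit 2165007725) (nat_lit 76) (nat_lit 1057501528) (nat_lit 37) (nat_lit 5) (nat_lit 43) (nat_lit 5) (nat_lit 38) (nat_lit 4) (nat_lit 206) (nat_lit 199) (nat_lit 195)) (XT.lf (nat_lit 0) (nat_lit 1080103489) (nat_lit 532) (nat_lit 2129172820) (nat_lit 76) (nat_lit 4783674215) (nat_lit 30) (nat_lit 5) (nat_lit 37) (nat_lit 5) (nat_lit 31) (nat_lit 5) (nat_lit 207) (nat_lit 199) (nat_lit 194))) (XT.nd (nat_lit 78) (nat_lit 456) (nat_lit 0) (XT.lf (nat_lit 0) (nat_lit 5528126266) (nat_lit 304) (nat_lit 2197049284) (nat_lit 76) (nat_lit 803334287) (nat_lit 27) (nat_lit 5) (nat_lit 31) (nat_lit 5) (nat_lit 28) (nat_lit 4) (nat_lit 208) (nat_lit 199) (nat_lit 193)) (XT.nd (nat_lit 78) (nat_lit 228) (nat_lit 0) (XT.lf (nat_lit 0) (nat_lit 1234845481) (nat_lit 228) (nat_lit 2488374515) (nat_lit 76) (nat_lit 5436479570) (nat_lit 24)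 (nat_lit 5) (nat_lit 27) (nat_lit 5) (nat_lit 25) (nat_lit 5) (nat_lit 209) (nat_lit 199) (nat_lit 192)) (XT.lf (nat_lit 0) (nat_lit 5731218703) (nat_lit 304) (nat_lit 3115208068) (nat_lit 76) (nat_lit 1051278066) (nat_lit 21) (nat_lit 5) (nat_lit 25) (nat_lit 5) (nat_lit 22) (nat_lit 4) (nat_lit 210) (nat_lit 199) (nat_lit 191))))) (XT.nd (nat_lit 156) (nat_lit 304) (nat_lit 0) (XT.nd (nat_lit 78) (nat_lit 152) (nat_lit 0) (XT.lf (nat_lit 0) (nat_lit 64797589) (nat_lit 228) (nat_lit 4232990498) (nat_lit 76) (nat_lit 6457103685) (nat_lit 18) (nat_lit 5) (nat_lit 21) (nat_lit 5) (nat_lit 19) (nat_lit 5) (nat_lit 211) (nat_lit 199) (nat_lit 190)) (XT.lf (nat_lit 0) (nat_lit 4566328204) (nat_lit 228) (nat_lit 6073258688) (nat_lit 76) (nat_lit 1103689080) (nat_lit 16) (nat_lit 5) (nat_lit 19) (nat_lit 5) (nat_lit 17) (nat_lit 4) (nat_lit 212) (nat_lit 199) (nat_lit 189))) (XT.nd (nat_lit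 78) (nat_lit 228) (nat_lit 0) (XT.lf (nat_lit 0) (nat_lit 4015122158) (nat_lit 76) (nat_lit 5722005687) (nat_lit 152) (nat_lit 3144881936) (nat_lit 15) (nat_lit 5) (nat_lit 16) (nat_lit 5) (nat_lit 17) (nat_lit 4) (nat_lit 213) (nat_lit 199) (nat_lit 188)) (XT.nd (nat_lit 78) (nat_lit 0) (nat_lit 0) (XT.lf (nat_lit 0) (nat_lit 1309132033) (nat_lit 228) (nat_lit 12849228985) (nat_lit 76) (nat_lit 40280564) (nat_lit 12) (nat_lit 5) (nat_lit 15) (nat_lit 5) (nat_lit 13) (nat_lit 4) (nat_lit 214) (nat_lit 199) (nat_lit 187)) (XT.lf (nat_lit 0) (nat_lit 6378172432) (nat_lit 228) (nat_lit 2772531351) (nat_lit 76) (nat_lit 6546009444) (nat_lit 12) (nat_lit 5) (nat_lit 15) (nat_lit 5) (nat_lit 13) (nat_lit 4) (nat_lit 215) (nat_lit 199) (nat_lit 186))))))) (XT.nd (nat_lit 702) (nat_lit 228) (nat_lit 0) (XT.nd (nat_lit 312) (nat_lit 228) (nat_lit 0) (XT.nd (nat_lit 156) (nat_lit 152) (nat_lit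 0) (XT.nd (nat_lit 78) (nat_lit 152) (nat_lit 0) (XT.lf (nat_lit 0) (nat_lit 8855545128) (nat_lit 76) (nat_lit 3308243671) (nat_lit 152) (nat_lit 5260192539) (nat_lit 11) (nat_lit 5) (nat_lit 12) (nat_lit 5) (nat_lit 13) (nat_lit 4) (nat_lit 216) (nat_lit 199) (nat_lit 185)) (XT.lf (nat_lit 0) (nat_lit 2655431999) (nat_lit 152) (nat_lit 16155087472) (nat_lit 152) (nat_lit 601213499) (nat_lit 9) (nat_lit 4) (nat_lit 11) (nat_lit 5) (nat_lit 11) (nat_lit 4) (nat_lit 217) (nat_lit 199) (nat_lit 184))) (XT.nd (nat_lit 78) (nat_lit 76) (nat_lit 0) (XT.lf (nat_lit 0) (nat_lit 4646659751) (nat_lit 228) (nat_lit 6173079592) (nat_lit 76) (nat_lit 10859205332) (nat_lit 8) (nat_lit 5) (nat_lit 11) (nat_lit 5) (nat_lit 9) (nat_lit 4) (nat_lit 218) (nat_lit 199) (nat_lit 183)) (XT.lf (nat_lit 0) (nat_lit 5962047886) (nat_lit 76) (nat_lit 4637644683) (nat_lit 152) (nat_lit 13689608770) (nat_lit 7)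 (nat_lit 5) (nat_lit 8) (nat_lit 5) (nat_lit 9) (nat_lit 4) (nat_lit 219) (nat_lit 199) (nat_lit 182)))) (XT.nd (nat_lit 156) (nat_lit 152) (nat_lit 0) (XT.nd (nat_lit 78) (nat_lit 76) (nat_lit 0) (XT.lf (nat_lit 0) (nat_lit 17513777428) (nat_lit 152) (nat_lit 7351555810) (nat_lit 0) (nat_lit 2420951064) (nat_lit 7) (nat_lit 5) (nat_lit 9) (nat_lit 4) (nat_lit 7) (nat_lit 4) (nat_lit 220) (nat_lit 199) (nat_lit 181)) (XT.lf (nat_lit 0) (nat_lit 5136688263) (nat_lit 76) (nat_lit 20427273003) (nat_lit 76) (nat_lit 5161387208) (nat_lit 6) (nat_lit 4) (nat_lit 7) (nat_lit 5) (nat_lit 7) (nat_lit 4) (nat_lit 221) (nat_lit 199) (nat_lit 180))) (XT.nd (nat_lit 78) (nat_lit 76) (nat_lit 0) (XT.lf (nat_lit 0) (nat_lit 211280221) (nat_lit 152) (nat_lit 14976909396) (nat_lit 76) (nat_lit 19486018808) (nat_lit 5) (nat_lit 5) (nat_lit 7) (nat_lit 5) (nat_lit 6) (nat_lit 4) (nat_lit 222) (nat_lit 199)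 (nat_lit 179)) (XT.nd (nat_lit 78) (nat_lit 76) (nat_lit 0) (XT.lf (nat_lit 0) (nat_lit 5968891603) (nat_lit 152) (nat_lit 3131935513) (nat_lit 76) (nat_lit 30113389773) (nat_lit 5) (nat_lit 5) (nat_lit 7) (nat_lit 5) (nat_lit 6) (nat_lit 4) (nat_lit 223) (nat_lit 199) (nat_lit 178)) (XT.lf (nat_lit 0) (nat_lit 10844634975) (nat_lit 76) (nat_lit 1898468105) (nat_lit 152) (nat_lit 31680162459) (nat_lit 4) (nat_lit 5) (nat_lit 5) (nat_lit 5) (nat_lit 6) (nat_lit 4) (nat_lit 224) (nat_lit 199) (nat_lit 177)))))) (XT.nd (nat_lit 390) (nat_lit 152) (nat_lit 0) (XT.nd (nat_lit 156) (nat_lit 76) (nat_lit 0) (XT.nd (nat_lit 78) (nat_lit 0) (nat_lit 0) (XT.lf (nat_lit 0) (nat_lit 20680844897) (nat_lit 152) (nat_lit 23632991229) (nat_lit 0) (nat_lit 6088283115) (nat_lit 4) (nat_lit 5) (nat_lit 6) (nat_lit 4) (nat_lit 4) (nat_lit 4) (nat_lit 225) (nat_lit 199) (nat_lit 176)) (XT.lf (nat_lit 0) (nat_lit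 29775064535) (nat_lit 152) (nat_lit 12402844477) (nat_lit 0) (nat_lit 15102835046) (nat_lit 4) (nat_lit 5) (nat_lit 6) (nat_lit 4) (nat_lit 4) (nat_lit 4) (nat_lit 226) (nat_lit 199) (nat_lit 175))) (XT.nd (nat_lit 78) (nat_lit 0) (nat_lit 0) (XT.lf (nat_lit 0) (nat_lit 397050214) (nat_lit 76) (nat_lit 39770533026) (nat_lit 76) (nat_lit 25029027271) (nat_lit 3) (nat_lit 4) (nat_lit 4) (nat_lit 5) (nat_lit 4) (nat_lit 4) (nat_lit 227) (nat_lit 199) (nat_lit 174)) (XT.nd (nat_lit 78) (nat_lit 0) (nat_lit 0) (XT.lf (nat_lit 0) (nat_lit 15744767838) (nat_lit 76) (nat_lit 36666793078) (nat_lit 76) (nat_lit 21865047091) (nat_lit 3) (nat_lit 4) (nat_lit 4) (nat_lit 5) (nat_lit 4) (nat_lit 4) (nat_lit 228) (nat_lit 199) (nat_lit 173)) (XT.lf (nat_lit 0) (nat_lit 33287478015) (nat_lit 76) (nat_lit 33145079569) (nat_lit 76) (nat_lit 18290950773) (nat_lit 3) (nat_lit 4) (nat_lit 4) (nat_lit 5) (nat_lit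 4) (nat_lit 4) (nat_lit 229) (nat_lit 199) (nat_lit 172))))) (XT.nd (nat_lit 156) (nat_lit 152) (nat_lit 0) (XT.nd (nat_lit 78) (nat_lit 0) (nat_lit 0) (XT.lf (nat_lit 0) (nat_lit 53368407684) (nat_lit 76) (nat_lit 29136489409) (nat_lit 76) (nat_lit 14236810343) (nat_lit 3) (nat_lit 4) (nat_lit 4) (nat_lit 5) (nat_lit 4) (nat_lit 4) (nat_lit 230) (nat_lit 199) (nat_lit 171)) (XT.lf (nat_lit 0) (nat_lit 76380444599) (nat_lit 76) (nat_lit 24562593660) (nat_lit 76) (nat_lit 9623305664) (nat_lit 3) (nat_lit 4) (nat_lit 4) (nat_lit 5) (nat_lit 4) (nat_lit 4) (nat_lit 231) (nat_lit 199) (nat_lit 170))) (XT.nd (nat_lit 78) (nat_lit 152) (nat_lit 0) (XT.lf (nat_lit 0) (nat_lit 102773824264) (nat_lit 76) (nat_lit 19333903057) (nat_lit 76) (nat_lit 4360172513) (nat_lit 3) (nat_lit 4) (nat_lit 4) (nat_lit 5) (nat_lit 4) (nat_lit 4) (nat_lit 232) (nat_lit 199) (nat_lit 169)) (XT.nd (nat_lit 78) (nat_lit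 76) (nat_lit 0) (XT.lf (nat_lit 0) (nat_lit 1572745464) (nat_lit 152) (nat_lit 11732370020) (nat_lit 76) (nat_lit 131449191779) (nat_lit 2) (nat_lit 5) (nat_lit 4) (nat_lit 5) (nat_lit 3) (nat_lit 4) (nat_lit 233) (nat_lit 199) (nat_lit 168)) (XT.lf (nat_lit 0) (nat_lit 1945368211) (nat_lit 76) (nat_lit 6215733861) (nat_lit 152) (nat_lit 157611682966) (nat_lit 1) (nat_lit 5) (nat_lit 2) (nat_lit 5) (nat_lit 3) (nat_lit 4) (nat_lit 234) (nat_lit 199) (nat_lit 167))))))))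
noncomputable def xc23 : XT := (XT.nd (nat_lit 1482) (nat_lit 0) (nat_lit 0) (XT.nd (nat_lit 702) (nat_lit 0) (nat_lit 0) (XT.nd (nat_lit 312) (nat_lit 0) (nat_lit 0) (XT.nd (nat_lit 156) (nat_lit 0) (nat_lit 0) (XT.nd (nat_lit 78) (nat_lit 0) (nat_lit 0) (XT.lf (nat_lit 0) (nat_lit 16106510218) (nat_lit 152) (nat_lit 171638945265) (nat_lit 0) (nat_lit 2169130001) (nat_lit 1) (nat_lit 5) (nat_lit 3) (nat_lit 4) (nat_lit 1) (nat_lit 4) (nat_lit 235) (nat_lit 199) (nat_lit 166)) (XT.lf (nat_lit 0) (nat_lit 25391088730) (nat_lit 152) (nat_lit 180839351642) (nat_lit 0) (nat_lit 11435474587) (nat_lit 1) (nat_lit 5) (nat_lit 3) (nat_lit 4) (nat_lit 1) (nat_lit 4) (nat_lit 236) (nat_lit 199) (nat_lit 165))) (XT.nd (nat_lit 78) (nat_lit 0) (nat_lit 0) (XT.lf (nat_lit 0) (nat_lit 36047003854) (nat_lit 152) (nat_lit 191459155361) (nat_lit 0) (nat_lit 22075534125) (nat_lit 1) (nat_lit 5) (nat_lit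 3) (nat_lit 4) (nat_lit 1) (nat_lit 4) (nat_lit 237) (nat_lit 199) (nat_lit 164)) (XT.lf (nat_lit 0) (nat_lit 48282740889) (nat_lit 152) (nat_lit 203706135190) (nat_lit 0) (nat_lit 34297483693) (nat_lit 1) (nat_lit 5) (nat_lit 3) (nat_lit 4) (nat_lit 1) (nat_lit 4) (nat_lit 238) (nat_lit 199) (nat_lit 163)))) (XT.nd (nat_lit 156) (nat_lit 0) (nat_lit 0) (XT.nd (nat_lit 78) (nat_lit 0) (nat_lit 0) (XT.lf (nat_lit 0) (nat_lit 62337694688) (nat_lit 152) (nat_lit 217819905953) (nat_lit 0) (nat_lit 48340448391) (nat_lit 1) (nat_lit 5) (nat_lit 3) (nat_lit 4) (nat_lit 1) (nat_lit 4) (nat_lit 239) (nat_lit 199) (nat_lit 162)) (XT.lf (nat_lit 0) (nat_lit 78486853478) (nat_lit 152) (nat_lit 234076606642) (nat_lit 0) (nat_lit 64479181875) (nat_lit 1) (nat_lit 5) (nat_lit 3) (nat_lit 4) (nat_lit 1) (nat_lit 4) (nat_lit 240) (nat_lit 199) (nat_lit 161))) (XT.nd (nat_lit 78) (nat_lit 0) (nat_lit 0)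 (XT.lf (nat_lit 0) (nat_lit 97046179061) (nat_lit 152) (nat_lit 252794303140) (nat_lit 0) (nat_lit 83029441976) (nat_lit 1) (nat_lit 5) (nat_lit 3) (nat_lit 4) (nat_lit 1) (nat_lit 4) (nat_lit 241) (nat_lit 199) (nat_lit 160)) (XT.nd (nat_lit 78) (nat_lit 0) (nat_lit 0) (XT.lf (nat_lit 0) (nat_lit 118378788678) (nat_lit 152) (nat_lit 274339211248) (nat_lit 0) (nat_lit 104354168564) (nat_lit 1) (nat_lit 5) (nat_lit 3) (nat_lit 4) (nat_lit 1) (nat_lit 4) (nat_lit 242) (nat_lit 199) (nat_lit 159)) (XT.lf (nat_lit 0) (nat_lit 142902059473) (nat_lit 152) (nat_lit 299132861778) (nat_lit 0) (nat_lit 128870584551) (nat_lit 1) (nat_lit 5) (nat_lit 3) (nat_lit 4) (nat_lit 1) (nat_lit 4) (nat_lit 243) (nat_lit 199) (nat_lit 158)))))) (XT.nd (nat_lit 390) (nat_lit 0) (nat_lit 0) (XT.nd (nat_lit 156) (nat_lit 0) (nat_lit 0) (XT.nd (nat_lit 78) (nat_lit 0) (nat_lit 0) (XT.lf (nat_lit 0) (nat_lit 171095794569)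 (nat_lit 152) (nat_lit 327660347891) (nat_lit 0) (nat_lit 157058358945) (nat_lit 1) (nat_lit 5) (nat_lit 3) (nat_lit 4) (nat_lit 1) (nat_lit 4) (nat_lit 244) (nat_lit 199) (nat_lit 157)) (XT.lf (nat_lit 0) (nat_lit 203511610524) (nat_lit 152) (nat_lit 360479816055) (nat_lit 0) (nat_lit 189468991681) (nat_lit 1) (nat_lit 5) (nat_lit 3) (nat_lit 4) (nat_lit 1) (nat_lit 4) (nat_lit 245) (nat_lit 199) (nat_lit 156))) (XT.nd (nat_lit 78) (nat_lit 0) (nat_lit 0) (XT.lf (nat_lit 0) (nat_lit 240783729824) (nat_lit 152) (nat_lit 398233386300) (nat_lit 0) (nat_lit 226736603833) (nat_lit 1) (nat_lit 5) (nat_lit 3) (nat_lit 4) (nat_lit 1) (nat_lit 4) (nat_lit 246) (nat_lit 199) (nat_lit 155)) (XT.nd (nat_lit 78) (nat_lit 0) (nat_lit 0) (XT.lf (nat_lit 0) (nat_lit 283641389585) (nat_lit 152) (nat_lit 441659715435) (nat_lit 0) (nat_lit 269590344335) (nat_lit 1) (nat_lit 5) (nat_lit 3) (nat_lit 4) (nat_lit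 1) (nat_lit 4) (nat_lit 247) (nat_lit 199) (nat_lit 154)) (XT.lf (nat_lit 0) (nat_lit 332923109236) (nat_lit 152) (nat_lit 491608449029) (nat_lit 0) (nat_lit 318868655936) (nat_lit 1) (nat_lit 5) (nat_lit 3) (nat_lit 4) (nat_lit 1) (nat_lit 4) (nat_lit 248) (nat_lit 199) (nat_lit 153))))) (XT.nd (nat_lit 156) (nat_lit 0) (nat_lit 0) (XT.nd (nat_lit 78) (nat_lit 0) (nat_lit 0) (XT.lf (nat_lit 0) (nat_lit 389593096338) (nat_lit 152) (nat_lit 549056844914) (nat_lit 0) (nat_lit 375535679515) (nat_lit 1) (nat_lit 5) (nat_lit 3) (nat_lit 4) (nat_lit 1) (nat_lit 4) (nat_lit 249) (nat_lit 199) (nat_lit 152)) (XT.lf (nat_lit 0) (nat_lit 454760111506) (nat_lit 152) (nat_lit 615128893444) (nat_lit 0) (nat_lit 440700117707) (nat_lit 1) (nat_lit 5) (nat_lit 3) (nat_lit 4) (nat_lit 1) (nat_lit 4) (nat_lit 250) (nat_lit 199) (nat_lit 151))) (XT.nd (nat_lit 78) (nat_lit 0) (nat_lit 0) (XT.lf (nat_lit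 0) (nat_lit 529699161560) (nat_lit 152) (nat_lit 691117308612) (nat_lit 0) (nat_lit 515636926912) (nat_lit 1) (nat_lit 5) (nat_lit 3) (nat_lit 4) (nat_lit 1) (nat_lit 4) (nat_lit 251) (nat_lit 199) (nat_lit 150)) (XT.nd (nat_lit 78) (nat_lit 0) (nat_lit 0) (XT.lf (nat_lit 0) (nat_lit 615876445305) (nat_lit 152) (nat_lit 778508820279) (nat_lit 0) (nat_lit 601812262093) (nat_lit 1) (nat_lit 5) (nat_lit 3) (nat_lit 4) (nat_lit 1) (nat_lit 4) (nat_lit 252) (nat_lit 199) (nat_lit 149)) (XT.lf (nat_lit 0) (nat_lit 714978040031) (nat_lit 152) (nat_lit 879013262371) (nat_lit 0) (nat_lit 700912162415) (nat_lit 1) (nat_lit 5) (nat_lit 3) (nat_lit 4) (nat_lit 1) (nat_lit 4) (nat_lit 253) (nat_lit 199) (nat_lit 148))))))) (XT.nd (nat_lit 27300) (nat_lit 0) (nat_lit 1140) (XT.nd (nat_lit 312) (nat_lit 0) (nat_lit 0) (XT.nd (nat_lit 156) (nat_lit 0) (nat_lit 0) (XT.nd (nat_lit 78) (nat_lit 0) (nat_lit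 0) (XT.lf (nat_lit 0) (nat_lit 828942889983) (nat_lit 152) (nat_lit 994597026146) (nat_lit 0) (nat_lit 814875538973) (nat_lit 1) (nat_lit 5) (nat_lit 3) (nat_lit 4) (nat_lit 1) (nat_lit 4) (nat_lit 254) (nat_lit 199) (nat_lit 147)) (XT.lf (nat_lit 0) (nat_lit 960000742225) (nat_lit 152) (nat_lit 1127521533067) (nat_lit 0) (nat_lit 945932110003) (nat_lit 1) (nat_lit 5) (nat_lit 3) (nat_lit 4) (nat_lit 1) (nat_lit 4) (nat_lit 255) (nat_lit 199) (nat_lit 146))) (XT.nd (nat_lit 78) (nat_lit 0) (nat_lit 0) (XT.lf (nat_lit 0) (nat_lit 1110715772128) (nat_lit 152) (nat_lit 1280387480011) (nat_lit 0) (nat_lit 1096646025808) (nat_lit 1) (nat_lit 5) (nat_lit 3) (nat_lit 4) (nat_lit 1) (nat_lit 4) (nat_lit 256) (nat_lit 199) (nat_lit 145)) (XT.lf (nat_lit 0) (nat_lit 1284036752015) (nat_lit 152) (nat_lit 1456185722460) (nat_lit 0) (nat_lit 1269966036914) (nat_lit 1) (nat_lit 5) (nat_lit 3) (nat_lit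 4) (nat_lit 1) (nat_lit 4) (nat_lit 257) (nat_lit 199) (nat_lit 144)))) (XT.nd (nat_lit 26754) (nat_lit 0) (nat_lit 3952) (XT.nd (nat_lit 78) (nat_lit 0) (nat_lit 0) (XT.lf (nat_lit 0) (nat_lit 1483354744537) (nat_lit 152) (nat_lit 1658355791246) (nat_lit 0) (nat_lit 1469283187018) (nat_lit 1) (nat_lit 5) (nat_lit 3) (nat_lit 4) (nat_lit 1) (nat_lit 4) (nat_lit 258) (nat_lit 199) (nat_lit 143)) (XT.lf (nat_lit 0) (nat_lit 1712569449547) (nat_lit 152) (nat_lit 1890853187713) (nat_lit 0) (nat_lit 1698497159490) (nat_lit 1) (nat_lit 5) (nat_lit 3) (nat_lit 4) (nat_lit 1) (nat_lit 4) (nat_lit 259) (nat_lit 199) (nat_lit 142))) (XT.nd (nat_lit 78) (nat_lit 228) (nat_lit 0) (XT.lf (nat_lit 0) (nat_lit 1073741823) (nat_lit 0) (nat_lit 0) (nat_lit 0) (nat_lit 0) (nat_lit 56) (nat_lit 0) (nat_lit 1) (nat_lit 0) (nat_lit 1) (nat_lit 0) (nat_lit 200) (nat_lit 200) (nat_lit 200)) (XT.nd (nat_lit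 78) (nat_lit 152) (nat_lit 0) (XT.lf (nat_lit 0) (nat_lit 4916920576) (nat_lit 76) (nat_lit 1198940120) (nat_lit 0) (nat_lit 358186267) (nat_lit 55) (nat_lit 5) (nat_lit 56) (nat_lit 0) (nat_lit 55) (nat_lit 4) (nat_lit 201) (nat_lit 200) (nat_lit 199)) (XT.lf (nat_lit 0) (nat_lit 3073996811) (nat_lit 152) (nat_lit 2128937732) (nat_lit 76) (nat_lit 1371943434) (nat_lit 53) (nat_lit 5) (nat_lit 55) (nat_lit 5) (nat_lit 54) (nat_lit 4) (nat_lit 202) (nat_lit 200) (nat_lit 198)))))) (XT.nd (nat_lit 390) (nat_lit 1064) (nat_lit 0) (XT.nd (nat_lit 156) (nat_lit 1292) (nat_lit 0) (XT.nd (nat_lit 78) (nat_lit 228) (nat_lit 0) (XT.lf (nat_lit 0) (nat_lit 856464585) (nat_lit 228) (nat_lit 2827909164) (nat_lit 76) (nat_lit 3062436562) (nat_lit 50) (nat_lit 5) (nat_lit 53) (nat_lit 5) (nat_lit 51) (nat_lit 5) (nat_lit 203) (nat_lit 200) (nat_lit 197)) (XT.lf (nat_lit 0) (nat_lit 3612770839) (nat_lit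 228) (nat_lit 1479339377) (nat_lit 304) (nat_lit 1897310384) (nat_lit 47) (nat_lit 5) (nat_lit 50) (nat_lit 5) (nat_lit 51) (nat_lit 5) (nat_lit 204) (nat_lit 200) (nat_lit 196))) (XT.nd (nat_lit 78) (nat_lit 912) (nat_lit 0) (XT.lf (nat_lit 0) (nat_lit 2099653021) (nat_lit 380) (nat_lit 3833463537) (nat_lit 76) (nat_lit 1372351662) (nat_lit 42) (nat_lit 5) (nat_lit 47) (nat_lit 5) (nat_lit 43) (nat_lit 5) (nat_lit 205) (nat_lit 200) (nat_lit 195)) (XT.nd (nat_lit 78) (nat_lit 532) (nat_lit 0) (XT.lf (nat_lit 0) (nat_lit 3429269421) (nat_lit 380) (nat_lit 2795649507) (nat_lit 456) (nat_lit 1473479753) (nat_lit 37) (nat_lit 5) (nat_lit 42) (nat_lit 5) (nat_lit 43) (nat_lit 5) (nat_lit 206) (nat_lit 200) (nat_lit 194)) (XT.lf (nat_lit 0) (nat_lit 2362818884) (nat_lit 532) (nat_lit 4753033687) (nat_lit 76) (nat_lit 1057972844) (nat_lit 30) (nat_lit 5) (nat_lit 37) (nat_lit 5) (nat_lit 31)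 (nat_lit 5) (nat_lit 207) (nat_lit 200) (nat_lit 193))))) (XT.nd (nat_lit 156) (nat_lit 608) (nat_lit 0) (XT.nd (nat_lit 78) (nat_lit 228) (nat_lit 0) (XT.lf (nat_lit 0) (nat_lit 3335956184) (nat_lit 228) (nat_lit 3158558028) (nat_lit 304) (nat_lit 2241709240) (nat_lit 27) (nat_lit 5) (nat_lit 30) (nat_lit 5) (nat_lit 31) (nat_lit 5) (nat_lit 208) (nat_lit 200) (nat_lit 192)) (XT.lf (nat_lit 0) (nat_lit 1583573087) (nat_lit 228) (nat_lit 6278549194) (nat_lit 76) (nat_lit 1534824709) (nat_lit 24) (nat_lit 5) (nat_lit 27) (nat_lit 5) (nat_lit 25) (nat_lit 5) (nat_lit 209) (nat_lit 200) (nat_lit 191))) (XT.nd (nat_lit 78) (nat_lit 380) (nat_lit 0) (XT.lf (nat_lit 0) (nat_lit 2579916750) (nat_lit 228) (nat_lit 3186581137) (nat_lit 304) (nat_lit 4394603221) (nat_lit 21) (nat_lit 5) (nat_lit 24) (nat_lit 5) (nat_lit 25) (nat_lit 5) (nat_lit 210) (nat_lit 200) (nat_lit 190)) (XT.nd (nat_lit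 78) (nat_lit 228) (nat_lit 0) (XT.lf (nat_lit 0) (nat_lit 1668237054) (nat_lit 152) (nat_lit 8829821563) (nat_lit 228) (nat_lit 550129948) (nat_lit 19) (nat_lit 5) (nat_lit 21) (nat_lit 5) (nat_lit 22) (nat_lit 4) (nat_lit 211) (nat_lit 200) (nat_lit 189)) (XT.lf (nat_lit 0) (nat_lit 71683099) (nat_lit 152) (nat_lit 3589090559) (nat_lit 228) (nat_lit 8403060521) (nat_lit 16) (nat_lit 5) (nat_lit 18) (nat_lit 5) (nat_lit 19) (nat_lit 5) (nat_lit 212) (nat_lit 200) (nat_lit 188))))))))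
noncomputable def xc24 : XT := (XT.nd (nat_lit 1404) (nat_lit 152) (nat_lit 0) (XT.nd (nat_lit 702) (nat_lit 304) (nat_lit 0) (XT.nd (nat_lit 312) (nat_lit 304) (nat_lit 0) (XT.nd (nat_lit 156) (nat_lit 304) (nat_lit 0) (XT.nd (nat_lit 78) (nat_lit 76) (nat_lit 0) (XT.lf (nat_lit 0) (nat_lit 8508012117) (nat_lit 228) (nat_lit 2223934272) (nat_lit 76) (nat_lit 2497159731) (nat_lit 16) (nat_lit 5) (nat_lit 19) (nat_lit 5) (nat_lit 17) (nat_lit 4) (nat_lit 213) (nat_lit 200) (nat_lit 187)) (XT.lf (nat_lit 0) (nat_lit 8974766897) (nat_lit 76) (nat_lit 5159668333) (nat_lit 152) (nat_lit 431786982) (nat_lit 15) (nat_lit 5) (nat_lit 16) (nat_lit 5) (nat_lit 17) (nat_lit 4) (nat_lit 214) (nat_lit 200) (nat_lit 186))) (XT.nd (nat_lit 78) (nat_lit 76) (nat_lit 0) (XT.lf (nat_lit 0) (nat_lit 4270108924) (nat_lit 228) (nat_lit 10436084910) (nat_lit 76) (nat_lit 1390487675) (nat_lit 12) (nat_lit 5)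 (nat_lit 15) (nat_lit 5) (nat_lit 13) (nat_lit 4) (nat_lit 215) (nat_lit 200) (nat_lit 185)) (XT.lf (nat_lit 0) (nat_lit 616817180) (nat_lit 76) (nat_lit 9136921747) (nat_lit 152) (nat_lit 8094767301) (nat_lit 11) (nat_lit 5) (nat_lit 12) (nat_lit 5) (nat_lit 13) (nat_lit 4) (nat_lit 216) (nat_lit 200) (nat_lit 184)))) (XT.nd (nat_lit 156) (nat_lit 76) (nat_lit 0) (XT.nd (nat_lit 78) (nat_lit 228) (nat_lit 0) (XT.lf (nat_lit 0) (nat_lit 13638767603) (nat_lit 76) (nat_lit 2523119861) (nat_lit 152) (nat_lit 3693802792) (nat_lit 11) (nat_lit 5) (nat_lit 12) (nat_lit 5) (nat_lit 13) (nat_lit 4) (nat_lit 217) (nat_lit 200) (nat_lit 183)) (XT.lf (nat_lit 0) (nat_lit 1397860086) (nat_lit 228) (nat_lit 15837741363) (nat_lit 76) (nat_lit 4918402238) (nat_lit 8) (nat_lit 5) (nat_lit 11) (nat_lit 5) (nat_lit 9) (nat_lit 4) (nat_lit 218) (nat_lit 200) (nat_lit 182))) (XT.nd (nat_lit 78) (nat_lit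 76) (nat_lit 0) (XT.lf (nat_lit 0) (nat_lit 7130327589) (nat_lit 228) (nat_lit 4129148770) (nat_lit 76) (nat_lit 13522771343) (nat_lit 8) (nat_lit 5) (nat_lit 11) (nat_lit 5) (nat_lit 9) (nat_lit 4) (nat_lit 219) (nat_lit 200) (nat_lit 181)) (XT.nd (nat_lit 78) (nat_lit 0) (nat_lit 0) (XT.lf (nat_lit 0) (nat_lit 9574861200) (nat_lit 76) (nat_lit 4233790502) (nat_lit 152) (nat_lit 13989650363) (nat_lit 7) (nat_lit 5) (nat_lit 8) (nat_lit 5) (nat_lit 9) (nat_lit 4) (nat_lit 220) (nat_lit 200) (nat_lit 180)) (XT.lf (nat_lit 0) (nat_lit 21571668625) (nat_lit 152) (nat_lit 5996499979) (nat_lit 0) (nat_lit 3692354068) (nat_lit 7) (nat_lit 5) (nat_lit 9) (nat_lit 4) (nat_lit 7) (nat_lit 4) (nat_lit 221) (nat_lit 200) (nat_lit 179)))))) (XT.nd (nat_lit 312) (nat_lit 76) (nat_lit 0) (XT.nd (nat_lit 156) (nat_lit 76) (nat_lit 0) (XT.nd (nat_lit 78) (nat_lit 76) (nat_lit 0) (XT.lf (nat_lit 0) (nat_lit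 8156941092) (nat_lit 76) (nat_lit 22539916186) (nat_lit 76) (nat_lit 4529743837) (nat_lit 6) (nat_lit 4) (nat_lit 7) (nat_lit 5) (nat_lit 7) (nat_lit 4) (nat_lit 222) (nat_lit 200) (nat_lit 178)) (XT.lf (nat_lit 0) (nat_lit 1404298401) (nat_lit 152) (nat_lit 15203021059) (nat_lit 76) (nat_lit 23172146757) (nat_lit 5) (nat_lit 5) (nat_lit 7) (nat_lit 5) (nat_lit 6) (nat_lit 4) (nat_lit 223) (nat_lit 200) (nat_lit 177))) (XT.nd (nat_lit 78) (nat_lit 76) (nat_lit 0) (XT.lf (nat_lit 0) (nat_lit 7874074167) (nat_lit 152) (nat_lit 1844834755) (nat_lit 76) (nat_lit 35294072263) (nat_lit 5) (nat_lit 5) (nat_lit 7) (nat_lit 5) (nat_lit 6) (nat_lit 4) (nat_lit 224) (nat_lit 200) (nat_lit 176)) (XT.lf (nat_lit 0) (nat_lit 14079509226) (nat_lit 76) (nat_lit 1491865472) (nat_lit 152) (nat_lit 35439792414) (nat_lit 4) (nat_lit 5) (nat_lit 5) (nat_lit 5) (nat_lit 6) (nat_lit 4) (nat_lit 225) (nat_lit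 200) (nat_lit 175)))) (XT.nd (nat_lit 156) (nat_lit 76) (nat_lit 0) (XT.nd (nat_lit 78) (nat_lit 0) (nat_lit 0) (XT.lf (nat_lit 0) (nat_lit 24594653101) (nat_lit 152) (nat_lit 25728253192) (nat_lit 0) (nat_lit 7572645216) (nat_lit 4) (nat_lit 5) (nat_lit 6) (nat_lit 4) (nat_lit 4) (nat_lit 4) (nat_lit 226) (nat_lit 200) (nat_lit 174)) (XT.lf (nat_lit 0) (nat_lit 34947134188) (nat_lit 152) (nat_lit 13002674000) (nat_lit 0) (nat_lit 17864886071) (nat_lit 4) (nat_lit 5) (nat_lit 6) (nat_lit 4) (nat_lit 4) (nat_lit 4) (nat_lit 227) (nat_lit 200) (nat_lit 173))) (XT.nd (nat_lit 78) (nat_lit 0) (nat_lit 0) (XT.lf (nat_lit 0) (nat_lit 1610501624) (nat_lit 76) (nat_lit 45223718080) (nat_lit 76) (nat_lit 28089087153) (nat_lit 3) (nat_lit 4) (nat_lit 4) (nat_lit 5) (nat_lit 4) (nat_lit 4) (nat_lit 228) (nat_lit 200) (nat_lit 172)) (XT.nd (nat_lit 78) (nat_lit 0) (nat_lit 0) (XT.lf (nat_lit 0) (nat_lit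 19109868995) (nat_lit 76) (nat_lit 41721251257) (nat_lit 76) (nat_lit 24541070061) (nat_lit 3) (nat_lit 4) (nat_lit 4) (nat_lit 5) (nat_lit 4) (nat_lit 4) (nat_lit 229) (nat_lit 200) (nat_lit 171)) (XT.lf (nat_lit 0) (nat_lit 39153109266) (nat_lit 76) (nat_lit 37729397346) (nat_lit 76) (nat_lit 20509607219) (nat_lit 3) (nat_lit 4) (nat_lit 4) (nat_lit 5) (nat_lit 4) (nat_lit 4) (nat_lit 230) (nat_lit 200) (nat_lit 170))))))) (XT.nd (nat_lit 702) (nat_lit 0) (nat_lit 0) (XT.nd (nat_lit 312) (nat_lit 76) (nat_lit 0) (XT.nd (nat_lit 156) (nat_lit 76) (nat_lit 0) (XT.nd (nat_lit 78) (nat_lit 0) (nat_lit 0) (XT.lf (nat_lit 0) (nat_lit 62132372792) (nat_lit 76) (nat_lit 33170054856) (nat_lit 76) (nat_lit 15915822182) (nat_lit 3) (nat_lit 4) (nat_lit 4) (nat_lit 5) (nat_lit 4) (nat_lit 4) (nat_lit 231) (nat_lit 200) (nat_lit 169)) (XT.lf (nat_lit 0) (nat_lit 88497253859) (nat_lit 76) (nat_lit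 27954019262) (nat_lit 76) (nat_lit 10669836546) (nat_lit 3) (nat_lit 4) (nat_lit 4) (nat_lit 5) (nat_lit 4) (nat_lit 4) (nat_lit 232) (nat_lit 200) (nat_lit 168))) (XT.nd (nat_lit 78) (nat_lit 76) (nat_lit 0) (XT.lf (nat_lit 0) (nat_lit 118763587096) (nat_lit 76) (nat_lit 21979237692) (nat_lit 76) (nat_lit 4669011462) (nat_lit 3) (nat_lit 4) (nat_lit 4) (nat_lit 5) (nat_lit 4) (nat_lit 4) (nat_lit 233) (nat_lit 200) (nat_lit 167)) (XT.lf (nat_lit 0) (nat_lit 2093804483) (nat_lit 152) (nat_lit 12977759438) (nat_lit 76) (nat_lit 151372487083) (nat_lit 2) (nat_lit 5) (nat_lit 4) (nat_lit 5) (nat_lit 3) (nat_lit 4) (nat_lit 234) (nat_lit 200) (nat_lit 166)))) (XT.nd (nat_lit 156) (nat_lit 0) (nat_lit 0) (XT.nd (nat_lit 78) (nat_lit 0) (nat_lit 0) (XT.lf (nat_lit 0) (nat_lit 2708092537) (nat_lit 76) (nat_lit 6936454549) (nat_lit 152) (nat_lit 180972899791) (nat_lit 1) (nat_lit 5) (nat_lit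 2) (nat_lit 5) (nat_lit 3) (nat_lit 4) (nat_lit 235) (nat_lit 200) (nat_lit 165)) (XT.lf (nat_lit 0) (nat_lit 18752373390) (nat_lit 152) (nat_lit 196961234812) (nat_lit 0) (nat_lit 2669327615) (nat_lit 1) (nat_lit 5) (nat_lit 3) (nat_lit 4) (nat_lit 1) (nat_lit 4) (nat_lit 236) (nat_lit 200) (nat_lit 164))) (XT.nd (nat_lit 78) (nat_lit 0) (nat_lit 0) (XT.lf (nat_lit 0) (nat_lit 29399653464) (nat_lit 152) (nat_lit 207596948091) (nat_lit 0) (nat_lit 13302820223) (nat_lit 1) (nat_lit 5) (nat_lit 3) (nat_lit 4) (nat_lit 1) (nat_lit 4) (nat_lit 237) (nat_lit 200) (nat_lit 163)) (XT.nd (nat_lit 78) (nat_lit 0) (nat_lit 0) (XT.lf (nat_lit 0) (nat_lit 41627881759) (nat_lit 152) (nat_lit 219857762319) (nat_lit 0) (nat_lit 25519059416) (nat_lit 1) (nat_lit 5) (nat_lit 3) (nat_lit 4) (nat_lit 1) (nat_lit 4) (nat_lit 238) (nat_lit 200) (nat_lit 162)) (XT.lf (nat_lit 0) (nat_lit 55676306219) (nat_lit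 152) (nat_lit 233983562994) (nat_lit 0) (nat_lit 39557058570) (nat_lit 1) (nat_lit 5) (nat_lit 3) (nat_lit 4) (nat_lit 1) (nat_lit 4) (nat_lit 239) (nat_lit 200) (nat_lit 161)))))) (XT.nd (nat_lit 390) (nat_lit 0) (nat_lit 0) (XT.nd (nat_lit 156) (nat_lit 0) (nat_lit 0) (XT.nd (nat_lit 78) (nat_lit 0) (nat_lit 0) (XT.lf (nat_lit 0) (nat_lit 71819787323) (nat_lit 152) (nat_lit 250250724477) (nat_lit 0) (nat_lit 55691474191) (nat_lit 1) (nat_lit 5) (nat_lit 3) (nat_lit 4) (nat_lit 1) (nat_lit 4) (nat_lit 240) (nat_lit 200) (nat_lit 160)) (XT.lf (nat_lit 0) (nat_lit 90374175788) (nat_lit 152) (nat_lit 268977517317) (nat_lit 0) (nat_lit 74237979628) (nat_lit 1) (nat_lit 5) (nat_lit 3) (nat_lit 4) (nat_lit 1) (nat_lit 4) (nat_lit 241) (nat_lit 200) (nat_lit 159))) (XT.nd (nat_lit 78) (nat_lit 0) (nat_lit 0) (XT.lf (nat_lit 0) (nat_lit 111702492259) (nat_lit 152) (nat_lit 290530335288) (nat_lit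 0) (nat_lit 95559441291) (nat_lit 1) (nat_lit 5) (nat_lit 3) (nat_lit 4) (nat_lit 1) (nat_lit 4) (nat_lit 242) (nat_lit 200) (nat_lit 158)) (XT.nd (nat_lit 78) (nat_lit 0) (nat_lit 0) (XT.lf (nat_lit 0) (nat_lit 136222029882) (nat_lit 152) (nat_lit 315330863959) (nat_lit 0) (nat_lit 120073018212) (nat_lit 1) (nat_lit 5) (nat_lit 3) (nat_lit 4) (nat_lit 1) (nat_lit 4) (nat_lit 243) (nat_lit 200) (nat_lit 157)) (XT.lf (nat_lit 0) (nat_lit 164412518744) (nat_lit 152) (nat_lit 343864331065) (nat_lit 0) (nat_lit 148258323854) (nat_lit 1) (nat_lit 5) (nat_lit 3) (nat_lit 4) (nat_lit 1) (nat_lit 4) (nat_lit 244) (nat_lit 200) (nat_lit 156))))) (XT.nd (nat_lit 156) (nat_lit 0) (nat_lit 0) (XT.nd (nat_lit 78) (nat_lit 0) (nat_lit 0) (XT.lf (nat_lit 0) (nat_lit 196825511885) (nat_lit 152) (nat_lit 376689000093) (nat_lit 0) (nat_lit 180666809848) (nat_lit 1) (nat_lit 5) (nat_lit 3) (nat_lit 4) (nat_lit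 1) (nat_lit 4) (nat_lit 245) (nat_lit 200) (nat_lit 155)) (XT.lf (nat_lit 0) (nat_lit 234095176565) (nat_lit 152) (nat_lit 414447092827) (nat_lit 0) (nat_lit 217932555269) (nat_lit 1) (nat_lit 5) (nat_lit 3) (nat_lit 4) (nat_lit 1) (nat_lit 4) (nat_lit 246) (nat_lit 200) (nat_lit 154))) (XT.nd (nat_lit 78) (nat_lit 0) (nat_lit 0) (XT.lf (nat_lit 0) (nat_lit 276950701873) (nat_lit 152) (nat_lit 457877354561) (nat_lit 0) (nat_lit 260784672526) (nat_lit 1) (nat_lit 5) (nat_lit 3) (nat_lit 4) (nat_lit 1) (nat_lit 4) (nat_lit 247) (nat_lit 200) (nat_lit 153)) (XT.nd (nat_lit 78) (nat_lit 0) (nat_lit 0) (XT.lf (nat_lit 0) (nat_lit 326230565479) (nat_lit 152) (nat_lit 507829507807) (nat_lit 0) (nat_lit 310061572610) (nat_lit 1) (nat_lit 5) (nat_lit 3) (nat_lit 4) (nat_lit 1) (nat_lit 4) (nat_lit 248) (nat_lit 200) (nat_lit 152)) (XT.lf (nat_lit 0) (nat_lit 382898938628) (nat_lit 152) (nat_lit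 565280877303) (nat_lit 0) (nat_lit 366727368783) (nat_lit 1) (nat_lit 5) (nat_lit 3) (nat_lit 4) (nat_lit 1) (nat_lit 4) (nat_lit 249) (nat_lit 200) (nat_lit 151))))))))
noncomputable def xc25 : XT := (XT.nd (nat_lit 28158) (nat_lit 0) (nat_lit 228) (XT.nd (nat_lit 702) (nat_lit 0) (nat_lit 0) (XT.nd (nat_lit 312) (nat_lit 0) (nat_lit 0) (XT.nd (nat_lit 156) (nat_lit 0) (nat_lit 0) (XT.nd (nat_lit 78) (nat_lit 0) (nat_lit 0) (XT.lf (nat_lit 0) (nat_lit 448064550359) (nat_lit 152) (nat_lit 631355511581) (nat_lit 0) (nat_lit 431890739665) (nat_lit 1) (nat_lit 5) (nat_lit 3) (nat_lit 4) (nat_lit 1) (nat_lit 4) (nat_lit 250) (nat_lit 200) (nat_lit 150)) (XT.lf (nat_lit 0) (nat_lit 523002380033) (nat_lit 152) (nat_lit 707346175225) (nat_lit 0) (nat_lit 506826620775) (nat_lit 1) (nat_lit 5) (nat_lit 3) (nat_lit 4) (nat_lit 1) (nat_lit 4) (nat_lit 251) (nat_lit 200) (nat_lit 149))) (XT.nd (nat_lit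 78) (nat_lit 0) (nat_lit 0) (XT.lf (nat_lit 0) (nat_lit 609178602577) (nat_lit 152) (nat_lit 794739642090) (nat_lit 0) (nat_lit 593001148916) (nat_lit 1) (nat_lit 5) (nat_lit 3) (nat_lit 4) (nat_lit 1) (nat_lit 4) (nat_lit 252) (nat_lit 200) (nat_lit 148)) (XT.lf (nat_lit 0) (nat_lit 708279274520) (nat_lit 152) (nat_lit 895245784354) (nat_lit 0) (nat_lit 692100347464) (nat_lit 1) (nat_lit 5) (nat_lit 3) (nat_lit 4) (nat_lit 1) (nat_lit 4) (nat_lit 253) (nat_lit 200) (nat_lit 147)))) (XT.nd (nat_lit 156) (nat_lit 0) (nat_lit 0) (XT.nd (nat_lit 78) (nat_lit 0) (nat_lit 0) (XT.lf (nat_lit 0) (nat_lit 822243322053) (nat_lit 152) (nat_lit 1010831026538) (nat_lit 0) (nat_lit 806063113784) (nat_lit 1) (nat_lit 5) (nat_lit 3) (nat_lit 4) (nat_lit 1) (nat_lit 4) (nat_lit 254) (nat_lit 200) (nat_lit 146)) (XT.lf (nat_lit 0) (nat_lit 953300476539) (nat_lit 152) (nat_lit 1143756819033) (nat_lit 0)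 (nat_lit 937119154172) (nat_lit 1) (nat_lit 5) (nat_lit 3) (nat_lit 4) (nat_lit 1) (nat_lit 4) (nat_lit 255) (nat_lit 200) (nat_lit 145))) (XT.nd (nat_lit 78) (nat_lit 0) (nat_lit 0) (XT.lf (nat_lit 0) (nat_lit 1104014899697) (nat_lit 152) (nat_lit 1296623883867) (nat_lit 0) (nat_lit 1087832608550) (nat_lit 1) (nat_lit 5) (nat_lit 3) (nat_lit 4) (nat_lit 1) (nat_lit 4) (nat_lit 256) (nat_lit 200) (nat_lit 144)) (XT.nd (nat_lit 78) (nat_lit 0) (nat_lit 0) (XT.lf (nat_lit 0) (nat_lit 1277335351980) (nat_lit 152) (nat_lit 1472423098395) (nat_lit 0) (nat_lit 1261152218415) (nat_lit 1) (nat_lit 5) (nat_lit 3) (nat_lit 4) (nat_lit 1) (nat_lit 4) (nat_lit 257) (nat_lit 200) (nat_lit 143)) (XT.lf (nat_lit 0) (nat_lit 1476652885716) (nat_lit 152) (nat_lit 1674594012466) (nat_lit 0) (nat_lit 1460469019613) (nat_lit 1) (nat_lit 5) (nat_lit 3) (nat_lit 4) (nat_lit 1) (nat_lit 4) (nat_lit 258) (nat_lit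 200) (nat_lit 142)))))) (XT.nd (nat_lit 27066) (nat_lit 0) (nat_lit 1900) (XT.nd (nat_lit 26832) (nat_lit 0) (nat_lit 3420) (XT.nd (nat_lit 26754) (nat_lit 0) (nat_lit 3876) (XT.lf (nat_lit 0) (nat_lit 1705867191781) (nat_lit 152) (nat_lit 1907092143965) (nat_lit 0) (nat_lit 1689682688689) (nat_lit 1) (nat_lit 5) (nat_lit 3) (nat_lit 4) (nat_lit 1) (nat_lit 4) (nat_lit 259) (nat_lit 200) (nat_lit 141)) (XT.lf (nat_lit 0) (nat_lit 1360757595) (nat_lit 228) (nat_lit 954351310) (nat_lit 228) (nat_lit 954351310) (nat_lit 52) (nat_lit 3) (nat_lit 55) (nat_lit 3) (nat_lit 55) (nat_lit 5) (nat_lit 201) (nat_lit 201) (nat_lit 198))) (XT.nd (nat_lit 78) (nat_lit 228) (nat_lit 0) (XT.lf (nat_lit 0) (nat_lit 175335312) (nat_lit 228) (nat_lit 3201706789) (nat_lit 304) (nat_lit 3296540441) (nat_lit 49) (nat_lit 5) (nat_lit 52) (nat_lit 3) (nat_lit 53) (nat_lit 5) (nat_lit 202) (nat_lit 201) (nat_lit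 197)) (XT.nd (nat_lit 78) (nat_lit 228) (nat_lit 0) (XT.lf (nat_lit 76) (nat_lit 2532766436) (nat_lit 0) (nat_lit 1412758684) (nat_lit 304) (nat_lit 2929342689) (nat_lit 50) (nat_lit 5) (nat_lit 49) (nat_lit 5) (nat_lit 53) (nat_lit 5) (nat_lit 203) (nat_lit 201) (nat_lit 196)) (XT.lf (nat_lit 0) (nat_lit 628410435) (nat_lit 304) (nat_lit 5337916863) (nat_lit 76) (nat_lit 1182187263) (nat_lit 46) (nat_lit 5) (nat_lit 50) (nat_lit 5) (nat_lit 47) (nat_lit 5) (nat_lit 204) (nat_lit 201) (nat_lit 195))))) (XT.nd (nat_lit 156) (nat_lit 760) (nat_lit 0) (XT.nd (nat_lit 78) (nat_lit 456) (nat_lit 0) (XT.lf (nat_lit 0) (nat_lit 1172132743) (nat_lit 304) (nat_lit 2998880777) (nat_lit 380) (nat_lit 3320843075) (nat_lit 42) (nat_lit 5) (nat_lit 46) (nat_lit 5) (nat_lit 47) (nat_lit 5) (nat_lit 205) (nat_lit 201) (nat_lit 194)) (XT.lf (nat_lit 0) (nat_lit 3443707) (nat_lit 456) (nat_lit 7257769912)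 (nat_lit 76) (nat_lit 655541264) (nat_lit 36) (nat_lit 5) (nat_lit 42) (nat_lit 5) (nat_lit 37) (nat_lit 5) (nat_lit 206) (nat_lit 201) (nat_lit 193))) (XT.nd (nat_lit 78) (nat_lit 304) (nat_lit 0) (XT.lf (nat_lit 0) (nat_lit 43146633) (nat_lit 456) (nat_lit 3396119415) (nat_lit 532) (nat_lit 4977754469) (nat_lit 30) (nat_lit 5) (nat_lit 36) (nat_lit 5) (nat_lit 37) (nat_lit 5) (nat_lit 207) (nat_lit 201) (nat_lit 192)) (XT.nd (nat_lit 78) (nat_lit 304) (nat_lit 0) (XT.lf (nat_lit 0) (nat_lit 7214776823) (nat_lit 532) (nat_lit 581095793) (nat_lit 76) (nat_lit 1213373336) (nat_lit 30) (nat_lit 5) (nat_lit 37) (nat_lit 5) (nat_lit 31) (nat_lit 5) (nat_lit 208) (nat_lit 201) (nat_lit 191)) (XT.lf (nat_lit 0) (nat_lit 1699291817) (nat_lit 304) (nat_lit 1433614813) (nat_lit 76) (nat_lit 6562007233) (nat_lit 26) (nat_lit 5) (nat_lit 30) (nat_lit 5) (nat_lit 27) (nat_lit 5) (nat_lit 209) (nat_lit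 201) (nat_lit 190))))))) (XT.nd (nat_lit 702) (nat_lit 532) (nat_lit 0) (XT.nd (nat_lit 312) (nat_lit 380) (nat_lit 0) (XT.nd (nat_lit 156) (nat_lit 380) (nat_lit 0) (XT.nd (nat_lit 78) (nat_lit 228) (nat_lit 0) (XT.lf (nat_lit 0) (nat_lit 5546655594) (nat_lit 228) (nat_lit 2600775435) (nat_lit 76) (nat_lit 2339414856) (nat_lit 24) (nat_lit 5) (nat_lit 27) (nat_lit 5) (nat_lit 25) (nat_lit 5) (nat_lit 210) (nat_lit 201) (nat_lit 189)) (XT.lf (nat_lit 0) (nat_lit 7195437983) (nat_lit 228) (nat_lit 2777336616) (nat_lit 304) (nat_lit 1426405401) (nat_lit 21) (nat_lit 5) (nat_lit 24) (nat_lit 5) (nat_lit 25) (nat_lit 5) (nat_lit 211) (nat_lit 201) (nat_lit 188))) (XT.nd (nat_lit 78) (nat_lit 152) (nat_lit 0) (XT.lf (nat_lit 0) (nat_lit 2515982985) (nat_lit 228) (nat_lit 6479523531) (nat_lit 76) (nat_lit 3446646298) (nat_lit 18) (nat_lit 5) (nat_lit 21) (nat_lit 5) (nat_lit 19) (nat_lit 5)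 (nat_lit 212) (nat_lit 201) (nat_lit 187)) (XT.lf (nat_lit 0) (nat_lit 4011327221) (nat_lit 152) (nat_lit 3003473936) (nat_lit 228) (nat_lit 6621065254) (nat_lit 16) (nat_lit 5) (nat_lit 18) (nat_lit 5) (nat_lit 19) (nat_lit 5) (nat_lit 213) (nat_lit 201) (nat_lit 186)))) (XT.nd (nat_lit 156) (nat_lit 228) (nat_lit 0) (XT.nd (nat_lit 78) (nat_lit 76) (nat_lit 0) (XT.lf (nat_lit 0) (nat_lit 1096823854) (nat_lit 76) (nat_lit 11176328026) (nat_lit 152) (nat_lit 2729770359) (nat_lit 15) (nat_lit 5) (nat_lit 16) (nat_lit 5) (nat_lit 17) (nat_lit 4) (nat_lit 214) (nat_lit 201) (nat_lit 185)) (XT.lf (nat_lit 0) (nat_lit 1816004351) (nat_lit 152) (nat_lit 2993754872) (nat_lit 76) (nat_lit 11750127387) (nat_lit 14) (nat_lit 5) (nat_lit 16) (nat_lit 5) (nat_lit 15) (nat_lit 5) (nat_lit 215) (nat_lit 201) (nat_lit 184))) (XT.nd (nat_lit 78) (nat_lit 76) (nat_lit 0) (XT.lf (nat_lit 0) (nat_lit 7001065404)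 (nat_lit 228) (nat_lit 8719434566) (nat_lit 76) (nat_lit 2615442699) (nat_lit 12) (nat_lit 5) (nat_lit 15) (nat_lit 5) (nat_lit 13) (nat_lit 4) (nat_lit 216) (nat_lit 201) (nat_lit 183)) (XT.nd (nat_lit 78) (nat_lit 0) (nat_lit 0) (XT.lf (nat_lit 0) (nat_lit 3713592545) (nat_lit 76) (nat_lit 9393233608) (nat_lit 152) (nat_lit 7260792285) (nat_lit 11) (nat_lit 5) (nat_lit 12) (nat_lit 5) (nat_lit 13) (nat_lit 4) (nat_lit 217) (nat_lit 201) (nat_lit 182)) (XT.lf (nat_lit 0) (nat_lit 18296976471) (nat_lit 76) (nat_lit 1932695319) (nat_lit 152) (nat_lit 2466838331) (nat_lit 11) (nat_lit 5) (nat_lit 12) (nat_lit 5) (nat_lit 13) (nat_lit 4) (nat_lit 218) (nat_lit 201) (nat_lit 181)))))) (XT.nd (nat_lit 390) (nat_lit 152) (nat_lit 0) (XT.nd (nat_lit 156) (nat_lit 152) (nat_lit 0) (XT.nd (nat_lit 78) (nat_lit 0) (nat_lit 0) (XT.lf (nat_lit 0) (nat_lit 3161164209) (nat_lit 228) (nat_lit 15630887123)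 (nat_lit 76) (nat_lit 6555888844) (nat_lit 8) (nat_lit 5) (nat_lit 11) (nat_lit 5) (nat_lit 9) (nat_lit 4) (nat_lit 219) (nat_lit 201) (nat_lit 180)) (XT.lf (nat_lit 0) (nat_lit 9550855084) (nat_lit 228) (nat_lit 2502855482) (nat_lit 76) (nat_lit 16333557715) (nat_lit 8) (nat_lit 5) (nat_lit 11) (nat_lit 5) (nat_lit 9) (nat_lit 4) (nat_lit 220) (nat_lit 201) (nat_lit 179))) (XT.nd (nat_lit 78) (nat_lit 76) (nat_lit 0) (XT.lf (nat_lit 0) (nat_lit 13066671576) (nat_lit 76) (nat_lit 4037478447) (nat_lit 152) (nat_lit 14762275822) (nat_lit 7) (nat_lit 5) (nat_lit 8) (nat_lit 5) (nat_lit 9) (nat_lit 4) (nat_lit 221) (nat_lit 201) (nat_lit 178)) (XT.nd (nat_lit 78) (nat_lit 76) (nat_lit 0) (XT.lf (nat_lit 0) (nat_lit 25889327866) (nat_lit 152) (nat_lit 5037533234) (nat_lit 0) (nat_lit 4932982487) (nat_lit 7) (nat_lit 5) (nat_lit 9) (nat_lit 4) (nat_lit 7) (nat_lit 4) (nat_lit 222) (nat_lit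 201) (nat_lit 177)) (XT.lf (nat_lit 0) (nat_lit 11081616160) (nat_lit 76) (nat_lit 25201472409) (nat_lit 76) (nat_lit 4146179739) (nat_lit 6) (nat_lit 4) (nat_lit 7) (nat_lit 5) (nat_lit 7) (nat_lit 4) (nat_lit 223) (nat_lit 201) (nat_lit 176))))) (XT.nd (nat_lit 156) (nat_lit 76) (nat_lit 0) (XT.nd (nat_lit 78) (nat_lit 0) (nat_lit 0) (XT.lf (nat_lit 0) (nat_lit 2493072573) (nat_lit 152) (nat_lit 15955742840) (nat_lit 76) (nat_lit 27225076618) (nat_lit 5) (nat_lit 5) (nat_lit 7) (nat_lit 5) (nat_lit 6) (nat_lit 4) (nat_lit 224) (nat_lit 201) (nat_lit 175)) (XT.lf (nat_lit 0) (nat_lit 9818776085) (nat_lit 152) (nat_lit 793097901) (nat_lit 76) (nat_lit 41090016013) (nat_lit 5) (nat_lit 5) (nat_lit 7) (nat_lit 5) (nat_lit 6) (nat_lit 4) (nat_lit 225) (nat_lit 201) (nat_lit 174))) (XT.nd (nat_lit 78) (nat_lit 0) (nat_lit 0) (XT.lf (nat_lit 0) (nat_lit 17407449981) (nat_lit 76) (nat_lit 1192868091)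 (nat_lit 152) (nat_lit 40005368525) (nat_lit 4) (nat_lit 5) (nat_lit 5) (nat_lit 5) (nat_lit 6) (nat_lit 4) (nat_lit 226) (nat_lit 201) (nat_lit 173)) (XT.nd (nat_lit 78) (nat_lit 0) (nat_lit 0) (XT.lf (nat_lit 0) (nat_lit 28897598869) (nat_lit 152) (nat_lit 28491319737) (nat_lit 0) (nat_lit 9140390493) (nat_lit 4) (nat_lit 5) (nat_lit 6) (nat_lit 4) (nat_lit 4) (nat_lit 4) (nat_lit 227) (nat_lit 201) (nat_lit 172)) (XT.lf (nat_lit 0) (nat_lit 40722898057) (nat_lit 152) (nat_lit 13999882549) (nat_lit 0) (nat_lit 20920139412) (nat_lit 4) (nat_lit 5) (nat_lit 6) (nat_lit 4) (nat_lit 4) (nat_lit 4) (nat_lit 228) (nat_lit 201) (nat_lit 171))))))))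
noncomputable def xc26 : XT := (XT.nd (nat_lit 1482) (nat_lit 0) (nat_lit 0) (XT.nd (nat_lit 702) (nat_lit 0) (nat_lit 0) (XT.nd (nat_lit 312) (nat_lit 152) (nat_lit 0) (XT.nd (nat_lit 156) (nat_lit 0) (nat_lit 0) (XT.nd (nat_lit 78) (nat_lit 0) (nat_lit 0) (XT.lf (nat_lit 0) (nat_lit 2724586417) (nat_lit 76) (nat_lit 51619831632) (nat_lit 76) (nat_lit 31777464057) (nat_lit 3) (nat_lit 4) (nat_lit 4) (nat_lit 5) (nat_lit 4) (nat_lit 4) (nat_lit 229) (nat_lit 201) (nat_lit 170)) (XT.lf (nat_lit 0) (nat_lit 22735053300) (nat_lit 76) (nat_lit 47642530981) (nat_lit 76) (nat_lit 27765720858) (nat_lit 3) (nat_lit 4) (nat_lit 4) (nat_lit 5) (nat_lit 4) (nat_lit 4) (nat_lit 230) (nat_lit 201) (nat_lit 169))) (XT.nd (nat_lit 78) (nat_lit 0) (nat_lit 0) (XT.lf (nat_lit 0) (nat_lit 45685818227) (nat_lit 76) (nat_lit 43095843500) (nat_lit 76) (nat_lit 23189083335) (nat_lit 3) (nat_lit 4) (nat_lit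 4) (nat_lit 5) (nat_lit 4) (nat_lit 4) (nat_lit 231) (nat_lit 201) (nat_lit 168)) (XT.lf (nat_lit 0) (nat_lit 72025917903) (nat_lit 76) (nat_lit 37890812261) (nat_lit 76) (nat_lit 17958008582) (nat_lit 3) (nat_lit 4) (nat_lit 4) (nat_lit 5) (nat_lit 4) (nat_lit 4) (nat_lit 232) (nat_lit 201) (nat_lit 167)))) (XT.nd (nat_lit 156) (nat_lit 152) (nat_lit 0) (XT.nd (nat_lit 78) (nat_lit 0) (nat_lit 0) (XT.lf (nat_lit 0) (nat_lit 102270702104) (nat_lit 76) (nat_lit 31925599696) (nat_lit 76) (nat_lit 11970149482) (nat_lit 3) (nat_lit 4) (nat_lit 4) (nat_lit 5) (nat_lit 4) (nat_lit 4) (nat_lit 233) (nat_lit 201) (nat_lit 166)) (XT.lf (nat_lit 0) (nat_lit 137011916609) (nat_lit 76) (nat_lit 25083495124) (nat_lit 76) (nat_lit 5108352272) (nat_lit 3) (nat_lit 4) (nat_lit 4) (nat_lit 5) (nat_lit 4) (nat_lit 4) (nat_lit 234) (nat_lit 201) (nat_lit 165))) (XT.nd (nat_lit 78) (nat_lit 76) (nat_lit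 0) (XT.lf (nat_lit 0) (nat_lit 2623487405) (nat_lit 152) (nat_lit 14535413081) (nat_lit 76) (nat_lit 174234062631) (nat_lit 2) (nat_lit 5) (nat_lit 4) (nat_lit 5) (nat_lit 3) (nat_lit 4) (nat_lit 235) (nat_lit 201) (nat_lit 164)) (XT.nd (nat_lit 78) (nat_lit 0) (nat_lit 0) (XT.lf (nat_lit 0) (nat_lit 3470388908) (nat_lit 76) (nat_lit 7816892946) (nat_lit 152) (nat_lit 207906709527) (nat_lit 1) (nat_lit 5) (nat_lit 2) (nat_lit 5) (nat_lit 3) (nat_lit 4) (nat_lit 236) (nat_lit 201) (nat_lit 163)) (XT.lf (nat_lit 0) (nat_lit 21739056725) (nat_lit 152) (nat_lit 226185153688) (nat_lit 0) (nat_lit 3201921929) (nat_lit 1) (nat_lit 5) (nat_lit 3) (nat_lit 4) (nat_lit 1) (nat_lit 4) (nat_lit 237) (nat_lit 201) (nat_lit 162)))))) (XT.nd (nat_lit 390) (nat_lit 0) (nat_lit 0) (XT.nd (nat_lit 156) (nat_lit 0) (nat_lit 0) (XT.nd (nat_lit 78) (nat_lit 0) (nat_lit 0) (XT.lf (nat_lit 0) (nat_lit 33960755681)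 (nat_lit 152) (nat_lit 238457997830) (nat_lit 0) (nat_lit 15413195579) (nat_lit 1) (nat_lit 5) (nat_lit 3) (nat_lit 4) (nat_lit 1) (nat_lit 4) (nat_lit 238) (nat_lit 201) (nat_lit 161)) (XT.lf (nat_lit 0) (nat_lit 48003502455) (nat_lit 152) (nat_lit 252594259298) (nat_lit 0) (nat_lit 29446876870) (nat_lit 1) (nat_lit 5) (nat_lit 3) (nat_lit 4) (nat_lit 1) (nat_lit 4) (nat_lit 239) (nat_lit 201) (nat_lit 160))) (XT.nd (nat_lit 78) (nat_lit 0) (nat_lit 0) (XT.lf (nat_lit 0) (nat_lit 64142046440) (nat_lit 152) (nat_lit 268870517123) (nat_lit 0) (nat_lit 45577537827) (nat_lit 1) (nat_lit 5) (nat_lit 3) (nat_lit 4) (nat_lit 1) (nat_lit 4) (nat_lit 240) (nat_lit 201) (nat_lit 159)) (XT.nd (nat_lit 78) (nat_lit 0) (nat_lit 0) (XT.lf (nat_lit 0) (nat_lit 82692141759) (nat_lit 152) (nat_lit 287605219826) (nat_lit 0) (nat_lit 64120778339) (nat_lit 1) (nat_lit 5) (nat_lit 3) (nat_lit 4) (nat_lit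 1) (nat_lit 4) (nat_lit 241) (nat_lit 201) (nat_lit 158)) (XT.lf (nat_lit 0) (nat_lit 104016725059) (nat_lit 152) (nat_lit 309164915938) (nat_lit 0) (nat_lit 85439400936) (nat_lit 1) (nat_lit 5) (nat_lit 3) (nat_lit 4) (nat_lit 1) (nat_lit 4) (nat_lit 242) (nat_lit 201) (nat_lit 157))))) (XT.nd (nat_lit 156) (nat_lit 0) (nat_lit 0) (XT.nd (nat_lit 78) (nat_lit 0) (nat_lit 0) (XT.lf (nat_lit 0) (nat_lit 128533016447) (nat_lit 152) (nat_lit 333971425602) (nat_lit 0) (nat_lit 109950509105) (nat_lit 1) (nat_lit 5) (nat_lit 3) (nat_lit 4) (nat_lit 1) (nat_lit 4) (nat_lit 243) (nat_lit 201) (nat_lit 156)) (XT.lf (nat_lit 0) (nat_lit 156720682495) (nat_lit 152) (nat_lit 362510093571) (nat_lit 0) (nat_lit 138133668006) (nat_lit 1) (nat_lit 5) (nat_lit 3) (nat_lit 4) (nat_lit 1) (nat_lit 4) (nat_lit 244) (nat_lit 201) (nat_lit 155))) (XT.nd (nat_lit 78) (nat_lit 0) (nat_lit 0) (XT.lf (nat_lit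 0) (nat_lit 189131221017) (nat_lit 152) (nat_lit 395339285088) (nat_lit 0) (nat_lit 170540287268) (nat_lit 1) (nat_lit 5) (nat_lit 3) (nat_lit 4) (nat_lit 1) (nat_lit 4) (nat_lit 245) (nat_lit 201) (nat_lit 154)) (XT.nd (nat_lit 78) (nat_lit 0) (nat_lit 0) (XT.lf (nat_lit 0) (nat_lit 226398751243) (nat_lit 152) (nat_lit 433101310423) (nat_lit 0) (nat_lit 207804409444) (nat_lit 1) (nat_lit 5) (nat_lit 3) (nat_lit 4) (nat_lit 1) (nat_lit 4) (nat_lit 246) (nat_lit 201) (nat_lit 153)) (XT.lf (nat_lit 0) (nat_lit 269252420506) (nat_lit 152) (nat_lit 476534991809) (nat_lit 0) (nat_lit 250655115184) (nat_lit 1) (nat_lit 5) (nat_lit 3) (nat_lit 4) (nat_lit 1) (nat_lit 4) (nat_lit 247) (nat_lit 201) (nat_lit 152))))))) (XT.nd (nat_lit 702) (nat_lit 0) (nat_lit 0) (XT.nd (nat_lit 312) (nat_lit 0) (nat_lit 0) (XT.nd (nat_lit 156) (nat_lit 0) (nat_lit 0) (XT.nd (nat_lit 78) (nat_lit 0) (nat_lit 0)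 (XT.lf (nat_lit 0) (nat_lit 318530670159) (nat_lit 152) (nat_lit 526490118665) (nat_lit 0) (nat_lit 299930787862) (nat_lit 1) (nat_lit 5) (nat_lit 3) (nat_lit 4) (nat_lit 1) (nat_lit 4) (nat_lit 248) (nat_lit 201) (nat_lit 151)) (XT.lf (nat_lit 0) (nat_lit 375197639871) (nat_lit 152) (nat_lit 583944073909) (nat_lit 0) (nat_lit 356595516724) (nat_lit 1) (nat_lit 5) (nat_lit 3) (nat_lit 4) (nat_lit 1) (nat_lit 4) (nat_lit 249) (nat_lit 201) (nat_lit 150))) (XT.nd (nat_lit 78) (nat_lit 0) (nat_lit 0) (XT.lf (nat_lit 0) (nat_lit 440362031222) (nat_lit 152) (nat_lit 650020956663) (nat_lit 0) (nat_lit 421757959511) (nat_lit 1) (nat_lit 5) (nat_lit 3) (nat_lit 4) (nat_lit 1) (nat_lit 4) (nat_lit 250) (nat_lit 201) (nat_lit 149)) (XT.lf (nat_lit 0) (nat_lit 515298799696) (nat_lit 152) (nat_lit 726013575505) (nat_lit 0) (nat_lit 496693033581) (nat_lit 1) (nat_lit 5) (nat_lit 3) (nat_lit 4) (nat_lit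 1) (nat_lit 4) (nat_lit 251) (nat_lit 201) (nat_lit 148)))) (XT.nd (nat_lit 156) (nat_lit 0) (nat_lit 0) (XT.nd (nat_lit 78) (nat_lit 0) (nat_lit 0) (XT.lf (nat_lit 0) (nat_lit 601474099457) (nat_lit 152) (nat_lit 813408742542) (nat_lit 0) (nat_lit 582866859949) (nat_lit 1) (nat_lit 5) (nat_lit 3) (nat_lit 4) (nat_lit 1) (nat_lit 4) (nat_lit 252) (nat_lit 201) (nat_lit 147)) (XT.lf (nat_lit 0) (nat_lit 700573968981) (nat_lit 152) (nat_lit 913916363215) (nat_lit 0) (nat_lit 681965448260) (nat_lit 1) (nat_lit 5) (nat_lit 3) (nat_lit 4) (nat_lit 1) (nat_lit 4) (nat_lit 253) (nat_lit 201) (nat_lit 146))) (XT.nd (nat_lit 78) (nat_lit 0) (nat_lit 0) (XT.lf (nat_lit 0) (nat_lit 814537318757) (nat_lit 152) (nat_lit 1029502890973) (nat_lit 0) (nat_lit 795927683938) (nat_lit 1) (nat_lit 5) (nat_lit 3) (nat_lit 4) (nat_lit 1) (nat_lit 4) (nat_lit 254) (nat_lit 201) (nat_lit 145)) (XT.nd (nat_lit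 78) (nat_lit 0) (nat_lit 0) (XT.lf (nat_lit 0) (nat_lit 945593866498) (nat_lit 152) (nat_lit 1162429801359) (nat_lit 0) (nat_lit 926983262898) (nat_lit 1) (nat_lit 5) (nat_lit 3) (nat_lit 4) (nat_lit 1) (nat_lit 4) (nat_lit 255) (nat_lit 201) (nat_lit 144)) (XT.lf (nat_lit 0) (nat_lit 1096307762053) (nat_lit 152) (nat_lit 1315297838271) (nat_lit 0) (nat_lit 1077696316034) (nat_lit 1) (nat_lit 5) (nat_lit 3) (nat_lit 4) (nat_lit 1) (nat_lit 4) (nat_lit 256) (nat_lit 201) (nat_lit 143)))))) (XT.nd (nat_lit 27144) (nat_lit 0) (nat_lit 2204) (XT.nd (nat_lit 156) (nat_lit 0) (nat_lit 0) (XT.nd (nat_lit 78) (nat_lit 0) (nat_lit 0) (XT.lf (nat_lit 0) (nat_lit 1269627755550) (nat_lit 152) (nat_lit 1491097898084) (nat_lit 0) (nat_lit 1251015576994) (nat_lit 1) (nat_lit 5) (nat_lit 3) (nat_lit 4) (nat_lit 1) (nat_lit 4) (nat_lit 257) (nat_lit 201) (nat_lit 142)) (XT.lf (nat_lit 0) (nat_lit 1468944890341)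 (nat_lit 152) (nat_lit 1693269547187) (nat_lit 0) (nat_lit 1450332074796) (nat_lit 1) (nat_lit 5) (nat_lit 3) (nat_lit 4) (nat_lit 1) (nat_lit 4) (nat_lit 258) (nat_lit 201) (nat_lit 141))) (XT.nd (nat_lit 26832) (nat_lit 0) (nat_lit 3648) (XT.lf (nat_lit 0) (nat_lit 1698158849498) (nat_lit 152) (nat_lit 1925768317842) (nat_lit 0) (nat_lit 1679545480050) (nat_lit 1) (nat_lit 5) (nat_lit 3) (nat_lit 4) (nat_lit 1) (nat_lit 4) (nat_lit 259) (nat_lit 201) (nat_lit 140)) (XT.nd (nat_lit 78) (nat_lit 0) (nat_lit 0) (XT.lf (nat_lit 0) (nat_lit 891415573) (nat_lit 0) (nat_lit 891415573) (nat_lit 228) (nat_lit 1635640102) (nat_lit 49) (nat_lit 5) (nat_lit 49) (nat_lit 3) (nat_lit 52) (nat_lit 3) (nat_lit 202) (nat_lit 202) (nat_lit 196)) (XT.lf (nat_lit 76) (nat_lit 441459705) (nat_lit 0) (nat_lit 6510104329) (nat_lit 304) (nat_lit 120125404) (nat_lit 50) (nat_lit 5) (nat_lit 49) (nat_lit 5)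 (nat_lit 53) (nat_lit 5) (nat_lit 203) (nat_lit 202) (nat_lit 195))))) (XT.nd (nat_lit 156) (nat_lit 1140) (nat_lit 0) (XT.nd (nat_lit 78) (nat_lit 0) (nat_lit 0) (XT.lf (nat_lit 0) (nat_lit 2956882413) (nat_lit 304) (nat_lit 783321514) (nat_lit 380) (nat_lit 3629133583) (nat_lit 45) (nat_lit 5) (nat_lit 49) (nat_lit 5) (nat_lit 50) (nat_lit 5) (nat_lit 204) (nat_lit 202) (nat_lit 194)) (XT.lf (nat_lit 76) (nat_lit 5898929826) (nat_lit 0) (nat_lit 234230039) (nat_lit 380) (nat_lit 1610729131) (nat_lit 46) (nat_lit 5) (nat_lit 45) (nat_lit 5) (nat_lit 50) (nat_lit 5) (nat_lit 205) (nat_lit 202) (nat_lit 193))) (XT.nd (nat_lit 78) (nat_lit 836) (nat_lit 0) (XT.lf (nat_lit 0) (nat_lit 1327522530) (nat_lit 380) (nat_lit 2944046827) (nat_lit 76) (nat_lit 3919499257) (nat_lit 41) (nat_lit 5) (nat_lit 46) (nat_lit 5) (nat_lit 42) (nat_lit 5) (nat_lit 206) (nat_lit 202) (nat_lit 192)) (XT.nd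 (nat_lit 78) (nat_lit 456) (nat_lit 0) (XT.lf (nat_lit 0) (nat_lit 4393494394) (nat_lit 456) (nat_lit 4077101392) (nat_lit 76) (nat_lit 251659134) (nat_lit 36) (nat_lit 5) (nat_lit 42) (nat_lit 5) (nat_lit 37) (nat_lit 5) (nat_lit 207) (nat_lit 202) (nat_lit 191)) (XT.lf (nat_lit 0) (nat_lit 3957574776) (nat_lit 456) (nat_lit 3908553820) (nat_lit 532) (nat_lit 1473740697) (nat_lit 30) (nat_lit 5) (nat_lit 36) (nat_lit 5) (nat_lit 37) (nat_lit 5) (nat_lit 208) (nat_lit 202) (nat_lit 190))))))))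
noncomputable def xc27 : XT := (XT.nd (nat_lit 1482) (nat_lit 228) (nat_lit 0) (XT.nd (nat_lit 702) (nat_lit 608) (nat_lit 0) (XT.nd (nat_lit 312) (nat_lit 608) (nat_lit 0) (XT.nd (nat_lit 156) (nat_lit 304) (nat_lit 0) (XT.nd (nat_lit 78) (nat_lit 152) (nat_lit 0) (XT.lf (nat_lit 0) (nat_lit 1629449622) (nat_lit 304) (nat_lit 6915633305) (nat_lit 76) (nat_lit 1510732333) (nat_lit 26) (nat_lit 5) (nat_lit 30) (nat_lit 5) (nat_lit 27) (nat_lit 5) (nat_lit 209) (nat_lit 202) (nat_lit 189)) (XT.lf (nat_lit 0) (nat_lit 2017238198) (nat_lit 152) (nat_lit 3122170648) (nat_lit 228) (nat_lit 5736142123) (nat_lit 24) (nat_lit 5) (nat_lit 26) (nat_lit 5) (nat_lit 27) (nat_lit 5) (nat_lit 210) (nat_lit 202) (nat_lit 188))) (XT.nd (nat_lit 78) (nat_lit 76) (nat_lit 0) (XT.lf (nat_lit 0) (nat_lit 528599032) (nat_lit 228) (nat_lit 8679816146) (nat_lit 304) (nat_lit 2608744418) (nat_lit 21) (nat_lit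 5) (nat_lit 24) (nat_lit 5) (nat_lit 25) (nat_lit 5) (nat_lit 211) (nat_lit 202) (nat_lit 187)) (XT.lf (nat_lit 0) (nat_lit 1047310943) (nat_lit 304) (nat_lit 1447116203) (nat_lit 76) (nat_lit 10396186393) (nat_lit 20) (nat_lit 5) (nat_lit 24) (nat_lit 5) (nat_lit 21) (nat_lit 5) (nat_lit 212) (nat_lit 202) (nat_lit 186)))) (XT.nd (nat_lit 156) (nat_lit 304) (nat_lit 0) (XT.nd (nat_lit 78) (nat_lit 152) (nat_lit 0) (XT.lf (nat_lit 0) (nat_lit 5250268705) (nat_lit 228) (nat_lit 4205928074) (nat_lit 76) (nat_lit 4652293133) (nat_lit 18) (nat_lit 5) (nat_lit 21) (nat_lit 5) (nat_lit 19) (nat_lit 5) (nat_lit 213) (nat_lit 202) (nat_lit 185)) (XT.lf (nat_lit 0) (nat_lit 7583832851) (nat_lit 152) (nat_lit 2604104511) (nat_lit 228) (nat_lit 5313692457) (nat_lit 16) (nat_lit 5) (nat_lit 18) (nat_lit 5) (nat_lit 19) (nat_lit 5) (nat_lit 214) (nat_lit 202) (nat_lit 184))) (XT.nd (nat_lit 78) (nat_lit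 228) (nat_lit 0) (XT.lf (nat_lit 0) (nat_lit 4126393156) (nat_lit 76) (nat_lit 11918684549) (nat_lit 152) (nat_lit 1045160302) (nat_lit 15) (nat_lit 5) (nat_lit 16) (nat_lit 5) (nat_lit 17) (nat_lit 4) (nat_lit 215) (nat_lit 202) (nat_lit 183)) (XT.nd (nat_lit 78) (nat_lit 152) (nat_lit 0) (XT.lf (nat_lit 0) (nat_lit 3818249758) (nat_lit 152) (nat_lit 853421822) (nat_lit 76) (nat_lit 14226848828) (nat_lit 14) (nat_lit 5) (nat_lit 16) (nat_lit 5) (nat_lit 15) (nat_lit 5) (nat_lit 216) (nat_lit 202) (nat_lit 182)) (XT.lf (nat_lit 0) (nat_lit 9631898288) (nat_lit 228) (nat_lit 7545638538) (nat_lit 76) (nat_lit 3776289821) (nat_lit 12) (nat_lit 5) (nat_lit 15) (nat_lit 5) (nat_lit 13) (nat_lit 4) (nat_lit 217) (nat_lit 202) (nat_lit 181)))))) (XT.nd (nat_lit 390) (nat_lit 228) (nat_lit 0) (XT.nd (nat_lit 156) (nat_lit 304) (nat_lit 0) (XT.nd (nat_lit 78) (nat_lit 0) (nat_lit 0) (XT.lf (nat_lit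 0) (nat_lit 6542278146) (nat_lit 76) (nat_lit 9959703413) (nat_lit 152) (nat_lit 6801185146) (nat_lit 11) (nat_lit 5) (nat_lit 12) (nat_lit 5) (nat_lit 13) (nat_lit 4) (nat_lit 218) (nat_lit 202) (nat_lit 180)) (XT.lf (nat_lit 0) (nat_lit 23016867916) (nat_lit 76) (nat_lit 1489977672) (nat_lit 152) (nat_lit 1490145836) (nat_lit 11) (nat_lit 5) (nat_lit 12) (nat_lit 5) (nat_lit 13) (nat_lit 4) (nat_lit 219) (nat_lit 202) (nat_lit 179))) (XT.nd (nat_lit 78) (nat_lit 76) (nat_lit 0) (XT.lf (nat_lit 0) (nat_lit 4810102628) (nat_lit 228) (nat_lit 16022767493) (nat_lit 76) (nat_lit 8219594493) (nat_lit 8) (nat_lit 5) (nat_lit 11) (nat_lit 5) (nat_lit 9) (nat_lit 4) (nat_lit 220) (nat_lit 202) (nat_lit 178)) (XT.nd (nat_lit 78) (nat_lit 76) (nat_lit 0) (XT.lf (nat_lit 0) (nat_lit 12005017075) (nat_lit 228) (nat_lit 1180237979) (nat_lit 76) (nat_lit 19375176000) (nat_lit 8) (nat_lit 5) (nat_lit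 11) (nat_lit 5) (nat_lit 9) (nat_lit 4) (nat_lit 221) (nat_lit 202) (nat_lit 177)) (XT.lf (nat_lit 0) (nat_lit 16580987016) (nat_lit 76) (nat_lit 4014457015) (nat_lit 152) (nat_lit 15974105213) (nat_lit 7) (nat_lit 5) (nat_lit 8) (nat_lit 5) (nat_lit 9) (nat_lit 4) (nat_lit 222) (nat_lit 202) (nat_lit 176))))) (XT.nd (nat_lit 156) (nat_lit 152) (nat_lit 0) (XT.nd (nat_lit 78) (nat_lit 76) (nat_lit 0) (XT.lf (nat_lit 0) (nat_lit 30590805644) (nat_lit 152) (nat_lit 4387914266) (nat_lit 0) (nat_lit 6192230660) (nat_lit 7) (nat_lit 5) (nat_lit 9) (nat_lit 4) (nat_lit 7) (nat_lit 4) (nat_lit 223) (nat_lit 202) (nat_lit 175)) (XT.lf (nat_lit 0) (nat_lit 14030160213) (nat_lit 76) (nat_lit 28437699922) (nat_lit 76) (nat_lit 3964306569) (nat_lit 6) (nat_lit 4) (nat_lit 7) (nat_lit 5) (nat_lit 7) (nat_lit 4) (nat_lit 224) (nat_lit 202) (nat_lit 174))) (XT.nd (nat_lit 78) (nat_lit 76) (nat_lit 0)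 (XT.lf (nat_lit 0) (nat_lit 3531025453) (nat_lit 152) (nat_lit 17193919859) (nat_lit 76) (nat_lit 31745214555) (nat_lit 5) (nat_lit 5) (nat_lit 7) (nat_lit 5) (nat_lit 6) (nat_lit 4) (nat_lit 225) (nat_lit 202) (nat_lit 173)) (XT.nd (nat_lit 78) (nat_lit 0) (nat_lit 0) (XT.lf (nat_lit 0) (nat_lit 97313613) (nat_lit 76) (nat_lit 11774003622) (nat_lit 152) (nat_lit 47538002974) (nat_lit 4) (nat_lit 5) (nat_lit 5) (nat_lit 5) (nat_lit 6) (nat_lit 4) (nat_lit 226) (nat_lit 202) (nat_lit 172)) (XT.lf (nat_lit 0) (nat_lit 20938049043) (nat_lit 76) (nat_lit 976503635) (nat_lit 152) (nat_lit 45438769077) (nat_lit 4) (nat_lit 5) (nat_lit 5) (nat_lit 5) (nat_lit 6) (nat_lit 4) (nat_lit 227) (nat_lit 202) (nat_lit 171))))))) (XT.nd (nat_lit 702) (nat_lit 76) (nat_lit 0) (XT.nd (nat_lit 312) (nat_lit 76) (nat_lit 0) (XT.nd (nat_lit 156) (nat_lit 76) (nat_lit 0) (XT.nd (nat_lit 78) (nat_lit 0) (nat_lit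 0) (XT.lf (nat_lit 0) (nat_lit 33696320213) (nat_lit 152) (nat_lit 31936154610) (nat_lit 0) (nat_lit 10837988572) (nat_lit 4) (nat_lit 5) (nat_lit 6) (nat_lit 4) (nat_lit 4) (nat_lit 4) (nat_lit 228) (nat_lit 202) (nat_lit 170)) (XT.lf (nat_lit 0) (nat_lit 47234881909) (nat_lit 152) (nat_lit 15379114421) (nat_lit 0) (nat_lit 24342107719) (nat_lit 4) (nat_lit 5) (nat_lit 6) (nat_lit 4) (nat_lit 4) (nat_lit 4) (nat_lit 229) (nat_lit 202) (nat_lit 169))) (XT.nd (nat_lit 78) (nat_lit 0) (nat_lit 0) (XT.lf (nat_lit 0) (nat_lit 3793016950) (nat_lit 76) (nat_lit 59069842930) (nat_lit 76) (nat_lit 36147118698) (nat_lit 3) (nat_lit 4) (nat_lit 4) (nat_lit 5) (nat_lit 4) (nat_lit 4) (nat_lit 230) (nat_lit 202) (nat_lit 168)) (XT.lf (nat_lit 0) (nat_lit 26719000486) (nat_lit 76) (nat_lit 54534159804) (nat_lit 76) (nat_lit 31585392058) (nat_lit 3) (nat_lit 4) (nat_lit 4) (nat_lit 5) (nat_lit 4) (nat_lit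 4) (nat_lit 231) (nat_lit 202) (nat_lit 167)))) (XT.nd (nat_lit 156) (nat_lit 76) (nat_lit 0) (XT.nd (nat_lit 78) (nat_lit 0) (nat_lit 0) (XT.lf (nat_lit 0) (nat_lit 53037551127) (nat_lit 76) (nat_lit 49338697570) (nat_lit 76) (nat_lit 26367283289) (nat_lit 3) (nat_lit 4) (nat_lit 4) (nat_lit 5) (nat_lit 4) (nat_lit 4) (nat_lit 232) (nat_lit 202) (nat_lit 166)) (XT.lf (nat_lit 0) (nat_lit 83263597037) (nat_lit 76) (nat_lit 43381805878) (nat_lit 76) (nat_lit 20390698959) (nat_lit 3) (nat_lit 4) (nat_lit 4) (nat_lit 5) (nat_lit 4) (nat_lit 4) (nat_lit 233) (nat_lit 202) (nat_lit 165))) (XT.nd (nat_lit 78) (nat_lit 76) (nat_lit 0) (XT.lf (nat_lit 0) (nat_lit 117988517376) (nat_lit 76) (nat_lit 36546936848) (nat_lit 76) (nat_lit 13538705896) (nat_lit 3) (nat_lit 4) (nat_lit 4) (nat_lit 5) (nat_lit 4) (nat_lit 4) (nat_lit 234) (nat_lit 202) (nat_lit 164)) (XT.nd (nat_lit 78) (nat_lit 76) (nat_lit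 0) (XT.lf (nat_lit 0) (nat_lit 157891712758) (nat_lit 76) (nat_lit 28700364782) (nat_lit 76) (nat_lit 5677243366) (nat_lit 3) (nat_lit 4) (nat_lit 4) (nat_lit 5) (nat_lit 4) (nat_lit 4) (nat_lit 235) (nat_lit 202) (nat_lit 163)) (XT.lf (nat_lit 0) (nat_lit 3180044353) (nat_lit 152) (nat_lit 16421577390) (nat_lit 76) (nat_lit 200486905474) (nat_lit 2) (nat_lit 5) (nat_lit 4) (nat_lit 5) (nat_lit 3) (nat_lit 4) (nat_lit 236) (nat_lit 202) (nat_lit 162)))))) (XT.nd (nat_lit 390) (nat_lit 0) (nat_lit 0) (XT.nd (nat_lit 156) (nat_lit 0) (nat_lit 0) (XT.nd (nat_lit 78) (nat_lit 0) (nat_lit 0) (XT.lf (nat_lit 0) (nat_lit 4260196764) (nat_lit 76) (nat_lit 8868421379) (nat_lit 152) (nat_lit 238932318805) (nat_lit 1) (nat_lit 5) (nat_lit 2) (nat_lit 5) (nat_lit 3) (nat_lit 4) (nat_lit 237) (nat_lit 202) (nat_lit 161)) (XT.lf (nat_lit 0) (nat_lit 25131353666) (nat_lit 152) (nat_lit 259870759373)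 (nat_lit 0) (nat_lit 3782168761) (nat_lit 1) (nat_lit 5) (nat_lit 3) (nat_lit 4) (nat_lit 1) (nat_lit 4) (nat_lit 238) (nat_lit 202) (nat_lit 160))) (XT.nd (nat_lit 78) (nat_lit 0) (nat_lit 0) (XT.lf (nat_lit 0) (nat_lit 39169163322) (nat_lit 152) (nat_lit 274016117183) (nat_lit 0) (nat_lit 17812095388) (nat_lit 1) (nat_lit 5) (nat_lit 3) (nat_lit 4) (nat_lit 1) (nat_lit 4) (nat_lit 239) (nat_lit 202) (nat_lit 159)) (XT.nd (nat_lit 78) (nat_lit 0) (nat_lit 0) (XT.lf (nat_lit 0) (nat_lit 55303414161) (nat_lit 152) (nat_lit 290300284870) (nat_lit 0) (nat_lit 33939491419) (nat_lit 1) (nat_lit 5) (nat_lit 3) (nat_lit 4) (nat_lit 1) (nat_lit 4) (nat_lit 240) (nat_lit 202) (nat_lit 158)) (XT.lf (nat_lit 0) (nat_lit 73849776309) (nat_lit 152) (nat_lit 309041865715) (nat_lit 0) (nat_lit 52479892865) (nat_lit 1) (nat_lit 5) (nat_lit 3) (nat_lit 4) (nat_lit 1) (nat_lit 4) (nat_lit 241) (nat_lit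 202) (nat_lit 157))))) (XT.nd (nat_lit 156) (nat_lit 0) (nat_lit 0) (XT.nd (nat_lit 78) (nat_lit 0) (nat_lit 0) (XT.lf (nat_lit 0) (nat_lit 95171113373) (nat_lit 152) (nat_lit 330607542820) (nat_lit 0) (nat_lit 73796046710) (nat_lit 1) (nat_lit 5) (nat_lit 3) (nat_lit 4) (nat_lit 1) (nat_lit 4) (nat_lit 242) (nat_lit 202) (nat_lit 156)) (XT.lf (nat_lit 0) (nat_lit 119684581948) (nat_lit 152) (nat_lit 355419253347) (nat_lit 0) (nat_lit 98305008138) (nat_lit 1) (nat_lit 5) (nat_lit 3) (nat_lit 4) (nat_lit 1) (nat_lit 4) (nat_lit 243) (nat_lit 202) (nat_lit 155))) (XT.nd (nat_lit 78) (nat_lit 0) (nat_lit 0) (XT.lf (nat_lit 0) (nat_lit 147869793376) (nat_lit 152) (nat_lit 383962443806) (nat_lit 0) (nat_lit 126486300307) (nat_lit 1) (nat_lit 5) (nat_lit 3) (nat_lit 4) (nat_lit 1) (nat_lit 4) (nat_lit 244) (nat_lit 202) (nat_lit 154)) (XT.nd (nat_lit 78) (nat_lit 0) (nat_lit 0) (XT.lf (nat_lit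 0) (nat_lit 180278197445) (nat_lit 152) (nat_lit 416795567923) (nat_lit 0) (nat_lit 158891296325) (nat_lit 1) (nat_lit 5) (nat_lit 3) (nat_lit 4) (nat_lit 1) (nat_lit 4) (nat_lit 245) (nat_lit 202) (nat_lit 153)) (XT.lf (nat_lit 0) (nat_lit 217543871626) (nat_lit 152) (nat_lit 454561012909) (nat_lit 0) (nat_lit 196154006983) (nat_lit 1) (nat_lit 5) (nat_lit 3) (nat_lit 4) (nat_lit 1) (nat_lit 4) (nat_lit 246) (nat_lit 202) (nat_lit 152))))))))
noncomputable def xc28 : XT := (XT.nd (nat_lit 28314) (nat_lit 0) (nat_lit 228) (XT.nd (nat_lit 702) (nat_lit 0) (nat_lit 0) (XT.nd (nat_lit 312) (nat_lit 0) (nat_lit 0) (XT.nd (nat_lit 156) (nat_lit 0) (nat_lit 0) (XT.nd (nat_lit 78) (nat_lit 0) (nat_lit 0) (XT.lf (nat_lit 0) (nat_lit 260395926936) (nat_lit 152) (nat_lit 497997667906) (nat_lit 0) (nat_lit 239003485317) (nat_lit 1) (nat_lit 5) (nat_lit 3) (nat_lit 4) (nat_lit 1) (nat_lit 4) (nat_lit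 247) (nat_lit 202) (nat_lit 151)) (XT.lf (nat_lit 0) (nat_lit 309672773152) (nat_lit 152) (nat_lit 547955380510) (nat_lit 0) (nat_lit 288278090685) (nat_lit 1) (nat_lit 5) (nat_lit 3) (nat_lit 4) (nat_lit 1) (nat_lit 4) (nat_lit 248) (nat_lit 202) (nat_lit 150))) (XT.nd (nat_lit 78) (nat_lit 0) (nat_lit 0) (XT.lf (nat_lit 0) (nat_lit 366338522483) (nat_lit 152) (nat_lit 605411584230) (nat_lit 0) (nat_lit 344941891452) (nat_lit 1) (nat_lit 5) (nat_lit 3) (nat_lit 4) (nat_lit 1) (nat_lit 4) (nat_lit 249) (nat_lit 202) (nat_lit 149)) (XT.lf (nat_lit 0) (nat_lit 431501852634) (nat_lit 152) (nat_lit 671490422182) (nat_lit 0) (nat_lit 410103527199) (nat_lit 1) (nat_lit 5) (nat_lit 3) (nat_lit 4) (nat_lit 1) (nat_lit 4) (nat_lit 250) (nat_lit 202) (nat_lit 148)))) (XT.nd (nat_lit 156) (nat_lit 0) (nat_lit 0) (XT.nd (nat_lit 78) (nat_lit 0) (nat_lit 0) (XT.lf (nat_lit 0) (nat_lit 506437698325)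 (nat_lit 152) (nat_lit 747484741195) (nat_lit 0) (nat_lit 485037899496) (nat_lit 1) (nat_lit 5) (nat_lit 3) (nat_lit 4) (nat_lit 1) (nat_lit 4) (nat_lit 251) (nat_lit 202) (nat_lit 147)) (XT.lf (nat_lit 0) (nat_lit 592612195667) (nat_lit 152) (nat_lit 834881386642) (nat_lit 0) (nat_lit 571211115625) (nat_lit 1) (nat_lit 5) (nat_lit 3) (nat_lit 4) (nat_lit 1) (nat_lit 4) (nat_lit 252) (nat_lit 202) (nat_lit 146))) (XT.nd (nat_lit 78) (nat_lit 0) (nat_lit 0) (XT.lf (nat_lit 0) (nat_lit 691711367435) (nat_lit 152) (nat_lit 935390292889) (nat_lit 0) (nat_lit 670309173294) (nat_lit 1) (nat_lit 5) (nat_lit 3) (nat_lit 4) (nat_lit 1) (nat_lit 4) (nat_lit 253) (nat_lit 202) (nat_lit 145)) (XT.nd (nat_lit 78) (nat_lit 0) (nat_lit 0) (XT.lf (nat_lit 0) (nat_lit 805674110466) (nat_lit 152) (nat_lit 1050977938537) (nat_lit 0) (nat_lit 784270947545) (nat_lit 1) (nat_lit 5) (nat_lit 3) (nat_lit 4)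 (nat_lit 1) (nat_lit 4) (nat_lit 254) (nat_lit 202) (nat_lit 144)) (XT.lf (nat_lit 0) (nat_lit 936730130603) (nat_lit 152) (nat_lit 1183905821001) (nat_lit 0) (nat_lit 915326125265) (nat_lit 1) (nat_lit 5) (nat_lit 3) (nat_lit 4) (nat_lit 1) (nat_lit 4) (nat_lit 255) (nat_lit 202) (nat_lit 143)))))) (XT.nd (nat_lit 27222) (nat_lit 0) (nat_lit 2660) (XT.nd (nat_lit 156) (nat_lit 0) (nat_lit 0) (XT.nd (nat_lit 78) (nat_lit 0) (nat_lit 0) (XT.lf (nat_lit 0) (nat_lit 1087443567371) (nat_lit 152) (nat_lit 1336774703199) (nat_lit 0) (nat_lit 1066038829495) (nat_lit 1) (nat_lit 5) (nat_lit 3) (nat_lit 4) (nat_lit 1) (nat_lit 4) (nat_lit 256) (nat_lit 202) (nat_lit 142)) (XT.lf (nat_lit 0) (nat_lit 1260763161924) (nat_lit 152) (nat_lit 1512575498044) (nat_lit 0) (nat_lit 1239357787059) (nat_lit 1) (nat_lit 5) (nat_lit 3) (nat_lit 4) (nat_lit 1) (nat_lit 4) (nat_lit 257) (nat_lit 202) (nat_lit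 141))) (XT.nd (nat_lit 78) (nat_lit 0) (nat_lit 0) (XT.lf (nat_lit 0) (nat_lit 1460079949807) (nat_lit 152) (nat_lit 1714747786303) (nat_lit 0) (nat_lit 1438674021038) (nat_lit 1) (nat_lit 5) (nat_lit 3) (nat_lit 4) (nat_lit 1) (nat_lit 4) (nat_lit 258) (nat_lit 202) (nat_lit 140)) (XT.nd (nat_lit 26910) (nat_lit 0) (nat_lit 3268) (XT.lf (nat_lit 0) (nat_lit 1689293607305) (nat_lit 152) (nat_lit 1947247112748) (nat_lit 0) (nat_lit 1667887196881) (nat_lit 1) (nat_lit 5) (nat_lit 3) (nat_lit 4) (nat_lit 1) (nat_lit 4) (nat_lit 259) (nat_lit 202) (nat_lit 139)) (XT.lf (nat_lit 0) (nat_lit 1281936024) (nat_lit 380) (nat_lit 1191041043) (nat_lit 380) (nat_lit 1191041043) (nat_lit 44) (nat_lit 3) (nat_lit 49) (nat_lit 3) (nat_lit 49) (nat_lit 5) (nat_lit 203) (nat_lit 203) (nat_lit 194))))) (XT.nd (nat_lit 156) (nat_lit 304) (nat_lit 0) (XT.nd (nat_lit 78) (nat_lit 304) (nat_lit 0) (XT.lf (nat_lit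 76) (nat_lit 3585817902) (nat_lit 0) (nat_lit 1677294594) (nat_lit 380) (nat_lit 2393984733) (nat_lit 45) (nat_lit 5) (nat_lit 44) (nat_lit 3) (nat_lit 49) (nat_lit 5) (nat_lit 204) (nat_lit 203) (nat_lit 193)) (XT.lf (nat_lit 0) (nat_lit 50196560) (nat_lit 380) (nat_lit 5722412946) (nat_lit 456) (nat_lit 2286759066) (nat_lit 40) (nat_lit 5) (nat_lit 45) (nat_lit 5) (nat_lit 46) (nat_lit 5) (nat_lit 205) (nat_lit 203) (nat_lit 192))) (XT.nd (nat_lit 78) (nat_lit 304) (nat_lit 0) (XT.lf (nat_lit 76) (nat_lit 1090231352) (nat_lit 0) (nat_lit 1432033131) (nat_lit 456) (nat_lit 6013365979) (nat_lit 41) (nat_lit 5) (nat_lit 40) (nat_lit 5) (nat_lit 46) (nat_lit 5) (nat_lit 206) (nat_lit 203) (nat_lit 191)) (XT.nd (nat_lit 78) (nat_lit 380) (nat_lit 0) (XT.lf (nat_lit 0) (nat_lit 5273684365) (nat_lit 380) (nat_lit 185813174) (nat_lit 76) (nat_lit 3633642199) (nat_lit 41) (nat_lit 5) (nat_lit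 46) (nat_lit 5) (nat_lit 42) (nat_lit 5) (nat_lit 207) (nat_lit 203) (nat_lit 190)) (XT.lf (nat_lit 0) (nat_lit 8278829586) (nat_lit 380) (nat_lit 95094425) (nat_lit 456) (nat_lit 1367629326) (nat_lit 36) (nat_lit 5) (nat_lit 41) (nat_lit 5) (nat_lit 42) (nat_lit 5) (nat_lit 208) (nat_lit 203) (nat_lit 189))))))) (XT.nd (nat_lit 702) (nat_lit 608) (nat_lit 0) (XT.nd (nat_lit 312) (nat_lit 684) (nat_lit 0) (XT.nd (nat_lit 156) (nat_lit 380) (nat_lit 0) (XT.nd (nat_lit 78) (nat_lit 228) (nat_lit 0) (XT.lf (nat_lit 0) (nat_lit 1443318078) (nat_lit 532) (nat_lit 3014336842) (nat_lit 76) (nat_lit 6023406333) (nat_lit 29) (nat_lit 5) (nat_lit 36) (nat_lit 5) (nat_lit 30) (nat_lit 5) (nat_lit 209) (nat_lit 203) (nat_lit 188)) (XT.lf (nat_lit 0) (nat_lit 4601439788) (nat_lit 304) (nat_lit 4852991510) (nat_lit 76) (nat_lit 1875218163) (nat_lit 26) (nat_lit 5) (nat_lit 30) (nat_lit 5) (nat_lit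 27) (nat_lit 5) (nat_lit 210) (nat_lit 203) (nat_lit 187))) (XT.nd (nat_lit 78) (nat_lit 228) (nat_lit 0) (XT.lf (nat_lit 0) (nat_lit 5157412277) (nat_lit 152) (nat_lit 3192954331) (nat_lit 228) (nat_lit 3947111316) (nat_lit 24) (nat_lit 5) (nat_lit 26) (nat_lit 5) (nat_lit 27) (nat_lit 5) (nat_lit 211) (nat_lit 203) (nat_lit 186)) (XT.lf (nat_lit 0) (nat_lit 3388218447) (nat_lit 228) (nat_lit 9398419329) (nat_lit 304) (nat_lit 614989390) (nat_lit 21) (nat_lit 5) (nat_lit 24) (nat_lit 5) (nat_lit 25) (nat_lit 5) (nat_lit 212) (nat_lit 203) (nat_lit 185)))) (XT.nd (nat_lit 156) (nat_lit 456) (nat_lit 0) (XT.nd (nat_lit 78) (nat_lit 0) (nat_lit 0) (XT.lf (nat_lit 0) (nat_lit 912850422) (nat_lit 152) (nat_lit 2283733841) (nat_lit 228) (nat_lit 11458303900) (nat_lit 18) (nat_lit 5) (nat_lit 20) (nat_lit 5) (nat_lit 21) (nat_lit 5) (nat_lit 213) (nat_lit 203) (nat_lit 184)) (XT.lf (nat_lit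 0) (nat_lit 7819955151) (nat_lit 228) (nat_lit 2382734876) (nat_lit 76) (nat_lit 5870855357) (nat_lit 18) (nat_lit 5) (nat_lit 21) (nat_lit 5) (nat_lit 19) (nat_lit 5) (nat_lit 214) (nat_lit 203) (nat_lit 183))) (XT.nd (nat_lit 78) (nat_lit 304) (nat_lit 0) (XT.lf (nat_lit 0) (nat_lit 10967764335) (nat_lit 152) (nat_lit 2352080857) (nat_lit 228) (nat_lit 4371213179) (nat_lit 16) (nat_lit 5) (nat_lit 18) (nat_lit 5) (nat_lit 19) (nat_lit 5) (nat_lit 215) (nat_lit 203) (nat_lit 182)) (XT.nd (nat_lit 78) (nat_lit 152) (nat_lit 0) (XT.lf (nat_lit 0) (nat_lit 362404105) (nat_lit 152) (nat_lit 12627866090) (nat_lit 76) (nat_lit 6539425435) (nat_lit 14) (nat_lit 5) (nat_lit 16) (nat_lit 5) (nat_lit 15) (nat_lit 5) (nat_lit 216) (nat_lit 203) (nat_lit 181)) (XT.lf (nat_lit 0) (nat_lit 1027942343) (nat_lit 152) (nat_lit 4695778073) (nat_lit 228) (nat_lit 15897695418) (nat_lit 12) (nat_lit 5) (nat_lit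 14) (nat_lit 5) (nat_lit 15) (nat_lit 5) (nat_lit 217) (nat_lit 203) (nat_lit 180)))))) (XT.nd (nat_lit 390) (nat_lit 304) (nat_lit 0) (XT.nd (nat_lit 156) (nat_lit 228) (nat_lit 0) (XT.nd (nat_lit 78) (nat_lit 76) (nat_lit 0) (XT.lf (nat_lit 0) (nat_lit 12271898967) (nat_lit 228) (nat_lit 6800954100) (nat_lit 76) (nat_lit 4923852929) (nat_lit 12) (nat_lit 5) (nat_lit 15) (nat_lit 5) (nat_lit 13) (nat_lit 4) (nat_lit 218) (nat_lit 203) (nat_lit 179)) (XT.lf (nat_lit 0) (nat_lit 9241311150) (nat_lit 76) (nat_lit 10816596365) (nat_lit 152) (nat_lit 6650303574) (nat_lit 11) (nat_lit 5) (nat_lit 12) (nat_lit 5) (nat_lit 13) (nat_lit 4) (nat_lit 219) (nat_lit 203) (nat_lit 178))) (XT.nd (nat_lit 78) (nat_lit 228) (nat_lit 0) (XT.lf (nat_lit 0) (nat_lit 27963042696) (nat_lit 76) (nat_lit 1159506878) (nat_lit 152) (nat_lit 695355239) (nat_lit 11) (nat_lit 5) (nat_lit 12) (nat_lit 5) (nat_lit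 13) (nat_lit 4) (nat_lit 220) (nat_lit 203) (nat_lit 177)) (XT.nd (nat_lit 78) (nat_lit 0) (nat_lit 0) (XT.lf (nat_lit 0) (nat_lit 6419908221) (nat_lit 228) (nat_lit 16949621030) (nat_lit 76) (nat_lit 9966955083) (nat_lit 8) (nat_lit 5) (nat_lit 11) (nat_lit 5) (nat_lit 9) (nat_lit 4) (nat_lit 221) (nat_lit 203) (nat_lit 176)) (XT.lf (nat_lit 0) (nat_lit 14578195896) (nat_lit 228) (nat_lit 73307078) (nat_lit 76) (nat_lit 22728775370) (nat_lit 8) (nat_lit 5) (nat_lit 11) (nat_lit 5) (nat_lit 9) (nat_lit 4) (nat_lit 222) (nat_lit 203) (nat_lit 175))))) (XT.nd (nat_lit 156) (nat_lit 228) (nat_lit 0) (XT.nd (nat_lit 78) (nat_lit 0) (nat_lit 0) (XT.lf (nat_lit 0) (nat_lit 20243420289) (nat_lit 76) (nat_lit 4141280994) (nat_lit 152) (nat_lit 17612177908) (nat_lit 7) (nat_lit 5) (nat_lit 8) (nat_lit 5) (nat_lit 9) (nat_lit 4) (nat_lit 223) (nat_lit 203) (nat_lit 174)) (XT.lf (nat_lit 0) (nat_lit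 35798011443) (nat_lit 152) (nat_lit 3983531308) (nat_lit 0) (nat_lit 7513731270) (nat_lit 7) (nat_lit 5) (nat_lit 9) (nat_lit 4) (nat_lit 7) (nat_lit 4) (nat_lit 224) (nat_lit 203) (nat_lit 173))) (XT.nd (nat_lit 78) (nat_lit 152) (nat_lit 0) (XT.lf (nat_lit 0) (nat_lit 17107313076) (nat_lit 76) (nat_lit 32292017784) (nat_lit 76) (nat_lit 3951164176) (nat_lit 6) (nat_lit 4) (nat_lit 7) (nat_lit 5) (nat_lit 7) (nat_lit 4) (nat_lit 225) (nat_lit 203) (nat_lit 172)) (XT.nd (nat_lit 78) (nat_lit 76) (nat_lit 0) (XT.lf (nat_lit 0) (nat_lit 4562752612) (nat_lit 152) (nat_lit 18899522465) (nat_lit 76) (nat_lit 36836960023) (nat_lit 5) (nat_lit 5) (nat_lit 7) (nat_lit 5) (nat_lit 6) (nat_lit 4) (nat_lit 226) (nat_lit 203) (nat_lit 171)) (XT.lf (nat_lit 0) (nat_lit 911459842) (nat_lit 76) (nat_lit 13196369669) (nat_lit 152) (nat_lit 54175308005) (nat_lit 4) (nat_lit 5) (nat_lit 5) (nat_lit 5)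 (nat_lit 6) (nat_lit 4) (nat_lit 227) (nat_lit 203) (nat_lit 170))))))))
noncomputable def xc29 : XT := (XT.nd (nat_lit 1482) (nat_lit 0) (nat_lit 0) (XT.nd (nat_lit 702) (nat_lit 152) (nat_lit 0) (XT.nd (nat_lit 312) (nat_lit 0) (nat_lit 0) (XT.nd (nat_lit 156) (nat_lit 76) (nat_lit 0) (XT.nd (nat_lit 78) (nat_lit 0) (nat_lit 0) (XT.lf (nat_lit 0) (nat_lit 24774016563) (nat_lit 76) (nat_lit 824079618) (nat_lit 152) (nat_lit 51825544948) (nat_lit 4) (nat_lit 5) (nat_lit 5) (nat_lit 5) (nat_lit 6) (nat_lit 4) (nat_lit 228) (nat_lit 203) (nat_lit 169)) (XT.lf (nat_lit 0) (nat_lit 39101680544) (nat_lit 152) (nat_lit 36099838227) (nat_lit 0) (nat_lit 12710597636) (nat_lit 4) (nat_lit 5) (nat_lit 6) (nat_lit 4) (nat_lit 4) (nat_lit 4) (nat_lit 229) (nat_lit 203) (nat_lit 168))) (XT.nd (nat_lit 78) (nat_lit 76) (nat_lit 0) (XT.lf (nat_lit 0) (nat_lit 54625255324) (nat_lit 152) (nat_lit 17140990649)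 (nat_lit 0) (nat_lit 28208128902) (nat_lit 4) (nat_lit 5) (nat_lit 6) (nat_lit 4) (nat_lit 4) (nat_lit 4) (nat_lit 230) (nat_lit 203) (nat_lit 167)) (XT.lf (nat_lit 0) (nat_lit 4860829659) (nat_lit 76) (nat_lit 67708796914) (nat_lit 76) (nat_lit 41269023957) (nat_lit 3) (nat_lit 4) (nat_lit 4) (nat_lit 5) (nat_lit 4) (nat_lit 4) (nat_lit 231) (nat_lit 203) (nat_lit 166)))) (XT.nd (nat_lit 156) (nat_lit 0) (nat_lit 0) (XT.nd (nat_lit 78) (nat_lit 0) (nat_lit 0) (XT.lf (nat_lit 0) (nat_lit 31160642009) (nat_lit 76) (nat_lit 62521655553) (nat_lit 76) (nat_lit 36062189957) (nat_lit 3) (nat_lit 4) (nat_lit 4) (nat_lit 5) (nat_lit 4) (nat_lit 4) (nat_lit 232) (nat_lit 203) (nat_lit 165)) (XT.lf (nat_lit 0) (nat_lit 61370393752) (nat_lit 76) (nat_lit 56571999403) (nat_lit 76) (nat_lit 30095409774) (nat_lit 3) (nat_lit 4) (nat_lit 4) (nat_lit 5) (nat_lit 4) (nat_lit 4) (nat_lit 233) (nat_lit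 203) (nat_lit 164))) (XT.nd (nat_lit 78) (nat_lit 0) (nat_lit 0) (XT.lf (nat_lit 0) (nat_lit 96081145250) (nat_lit 76) (nat_lit 49743422149) (nat_lit 76) (nat_lit 23251942057) (nat_lit 3) (nat_lit 4) (nat_lit 4) (nat_lit 5) (nat_lit 4) (nat_lit 4) (nat_lit 234) (nat_lit 203) (nat_lit 163)) (XT.nd (nat_lit 78) (nat_lit 0) (nat_lit 0) (XT.lf (nat_lit 0) (nat_lit 135972019902) (nat_lit 76) (nat_lit 41902321193) (nat_lit 76) (nat_lit 15397892871) (nat_lit 3) (nat_lit 4) (nat_lit 4) (nat_lit 5) (nat_lit 4) (nat_lit 4) (nat_lit 235) (nat_lit 203) (nat_lit 162)) (XT.lf (nat_lit 0) (nat_lit 181823491341) (nat_lit 76) (nat_lit 32895283688) (nat_lit 76) (nat_lit 6379596036) (nat_lit 3) (nat_lit 4) (nat_lit 4) (nat_lit 5) (nat_lit 4) (nat_lit 4) (nat_lit 236) (nat_lit 203) (nat_lit 161)))))) (XT.nd (nat_lit 390) (nat_lit 0) (nat_lit 0) (XT.nd (nat_lit 156) (nat_lit 0) (nat_lit 0) (XT.nd (nat_lit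 78) (nat_lit 76) (nat_lit 0) (XT.lf (nat_lit 0) (nat_lit 3780328010) (nat_lit 152) (nat_lit 18662396112) (nat_lit 76) (nat_lit 230648964697) (nat_lit 2) (nat_lit 5) (nat_lit 4) (nat_lit 5) (nat_lit 3) (nat_lit 4) (nat_lit 237) (nat_lit 203) (nat_lit 160)) (XT.lf (nat_lit 0) (nat_lit 5102817598) (nat_lit 76) (nat_lit 10107187037) (nat_lit 152) (nat_lit 274650883336) (nat_lit 1) (nat_lit 5) (nat_lit 2) (nat_lit 5) (nat_lit 3) (nat_lit 4) (nat_lit 238) (nat_lit 203) (nat_lit 159))) (XT.nd (nat_lit 78) (nat_lit 0) (nat_lit 0) (XT.lf (nat_lit 0) (nat_lit 29000443054) (nat_lit 152) (nat_lit 298668259956) (nat_lit 0) (nat_lit 4425077093) (nat_lit 1) (nat_lit 5) (nat_lit 3) (nat_lit 4) (nat_lit 1) (nat_lit 4) (nat_lit 239) (nat_lit 203) (nat_lit 158)) (XT.nd (nat_lit 78) (nat_lit 0) (nat_lit 0) (XT.lf (nat_lit 0) (nat_lit 45130960723) (nat_lit 152) (nat_lit 314959305785) (nat_lit 0) (nat_lit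 20549634060) (nat_lit 1) (nat_lit 5) (nat_lit 3) (nat_lit 4) (nat_lit 1) (nat_lit 4) (nat_lit 240) (nat_lit 203) (nat_lit 157)) (XT.lf (nat_lit 0) (nat_lit 63674076635) (nat_lit 152) (nat_lit 333706867622) (nat_lit 0) (nat_lit 39087566753) (nat_lit 1) (nat_lit 5) (nat_lit 3) (nat_lit 4) (nat_lit 1) (nat_lit 4) (nat_lit 241) (nat_lit 203) (nat_lit 156))))) (XT.nd (nat_lit 156) (nat_lit 0) (nat_lit 0) (XT.nd (nat_lit 78) (nat_lit 0) (nat_lit 0) (XT.lf (nat_lit 0) (nat_lit 84992590886) (nat_lit 152) (nat_lit 355277745590) (nat_lit 0) (nat_lit 60401573857) (nat_lit 1) (nat_lit 5) (nat_lit 3) (nat_lit 4) (nat_lit 1) (nat_lit 4) (nat_lit 242) (nat_lit 203) (nat_lit 155)) (XT.lf (nat_lit 0) (nat_lit 109503604841) (nat_lit 152) (nat_lit 380093978607) (nat_lit 0) (nat_lit 84908668553) (nat_lit 1) (nat_lit 5) (nat_lit 3) (nat_lit 4) (nat_lit 1) (nat_lit 4) (nat_lit 243) (nat_lit 203) (nat_lit 154)))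 (XT.nd (nat_lit 78) (nat_lit 0) (nat_lit 0) (XT.lf (nat_lit 0) (nat_lit 137686681816) (nat_lit 152) (nat_lit 408641101665) (nat_lit 0) (nat_lit 113088337477) (nat_lit 1) (nat_lit 5) (nat_lit 3) (nat_lit 4) (nat_lit 1) (nat_lit 4) (nat_lit 244) (nat_lit 203) (nat_lit 153)) (XT.nd (nat_lit 78) (nat_lit 0) (nat_lit 0) (XT.lf (nat_lit 0) (nat_lit 170093229839) (nat_lit 152) (nat_lit 441477645434) (nat_lit 0) (nat_lit 145491921978) (nat_lit 1) (nat_lit 5) (nat_lit 3) (nat_lit 4) (nat_lit 1) (nat_lit 4) (nat_lit 245) (nat_lit 203) (nat_lit 152)) (XT.lf (nat_lit 0) (nat_lit 207357290067) (nat_lit 152) (nat_lit 479246064031) (nat_lit 0) (nat_lit 182753405230) (nat_lit 1) (nat_lit 5) (nat_lit 3) (nat_lit 4) (nat_lit 1) (nat_lit 4) (nat_lit 246) (nat_lit 203) (nat_lit 151))))))) (XT.nd (nat_lit 702) (nat_lit 0) (nat_lit 0) (XT.nd (nat_lit 312) (nat_lit 0) (nat_lit 0) (XT.nd (nat_lit 156) (nat_lit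 0) (nat_lit 0) (XT.nd (nat_lit 78) (nat_lit 0) (nat_lit 0) (XT.lf (nat_lit 0) (nat_lit 250207941940) (nat_lit 152) (nat_lit 522685304776) (nat_lit 0) (nat_lit 225601816254) (nat_lit 1) (nat_lit 5) (nat_lit 3) (nat_lit 4) (nat_lit 1) (nat_lit 4) (nat_lit 247) (nat_lit 203) (nat_lit 150)) (XT.lf (nat_lit 0) (nat_lit 299483567776) (nat_lit 152) (nat_lit 572645265857) (nat_lit 0) (nat_lit 274875493526) (nat_lit 1) (nat_lit 5) (nat_lit 3) (nat_lit 4) (nat_lit 1) (nat_lit 4) (nat_lit 248) (nat_lit 203) (nat_lit 149))) (XT.nd (nat_lit 78) (nat_lit 0) (nat_lit 0) (XT.lf (nat_lit 0) (nat_lit 356148255908) (nat_lit 152) (nat_lit 630103424774) (nat_lit 0) (nat_lit 331538487254) (nat_lit 1) (nat_lit 5) (nat_lit 3) (nat_lit 4) (nat_lit 1) (nat_lit 4) (nat_lit 249) (nat_lit 203) (nat_lit 148)) (XT.lf (nat_lit 0) (nat_lit 421310663276) (nat_lit 152) (nat_lit 696183962897) (nat_lit 0) (nat_lit 396699421227)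 (nat_lit 1) (nat_lit 5) (nat_lit 3) (nat_lit 4) (nat_lit 1) (nat_lit 4) (nat_lit 250) (nat_lit 203) (nat_lit 147)))) (XT.nd (nat_lit 156) (nat_lit 0) (nat_lit 0) (XT.nd (nat_lit 78) (nat_lit 0) (nat_lit 0) (XT.lf (nat_lit 0) (nat_lit 496245706547) (nat_lit 152) (nat_lit 772179760320) (nat_lit 0) (nat_lit 471633183286) (nat_lit 1) (nat_lit 5) (nat_lit 3) (nat_lit 4) (nat_lit 1) (nat_lit 4) (nat_lit 251) (nat_lit 203) (nat_lit 146)) (XT.lf (nat_lit 0) (nat_lit 582419506133) (nat_lit 152) (nat_lit 859577691340) (nat_lit 0) (nat_lit 557805868774) (nat_lit 1) (nat_lit 5) (nat_lit 3) (nat_lit 4) (nat_lit 1) (nat_lit 4) (nat_lit 252) (nat_lit 203) (nat_lit 145))) (XT.nd (nat_lit 78) (nat_lit 0) (nat_lit 0) (XT.lf (nat_lit 0) (nat_lit 681518071155) (nat_lit 152) (nat_lit 960087715478) (nat_lit 0) (nat_lit 656903465016) (nat_lit 1) (nat_lit 5) (nat_lit 3) (nat_lit 4) (nat_lit 1) (nat_lit 4) (nat_lit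 253) (nat_lit 203) (nat_lit 144)) (XT.nd (nat_lit 78) (nat_lit 0) (nat_lit 0) (XT.lf (nat_lit 0) (nat_lit 795480286583) (nat_lit 152) (nat_lit 1075676333205) (nat_lit 0) (nat_lit 770864838025) (nat_lit 1) (nat_lit 5) (nat_lit 3) (nat_lit 4) (nat_lit 1) (nat_lit 4) (nat_lit 254) (nat_lit 203) (nat_lit 143)) (XT.lf (nat_lit 0) (nat_lit 926535847934) (nat_lit 152) (nat_lit 1208605060955) (nat_lit 0) (nat_lit 901919666839) (nat_lit 1) (nat_lit 5) (nat_lit 3) (nat_lit 4) (nat_lit 1) (nat_lit 4) (nat_lit 255) (nat_lit 203) (nat_lit 142)))))) (XT.nd (nat_lit 27300) (nat_lit 0) (nat_lit 2128) (XT.nd (nat_lit 156) (nat_lit 0) (nat_lit 0) (XT.nd (nat_lit 78) (nat_lit 0) (nat_lit 0) (XT.lf (nat_lit 0) (nat_lit 1077248885758) (nat_lit 152) (nat_lit 1361474678184) (nat_lit 0) (nat_lit 1052632067673) (nat_lit 1) (nat_lit 5) (nat_lit 3) (nat_lit 4) (nat_lit 1) (nat_lit 4) (nat_lit 256) (nat_lit 203)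 (nat_lit 141)) (XT.lf (nat_lit 0) (nat_lit 1250568133402) (nat_lit 152) (nat_lit 1537276112186) (nat_lit 0) (nat_lit 1225950761414) (nat_lit 1) (nat_lit 5) (nat_lit 3) (nat_lit 4) (nat_lit 1) (nat_lit 4) (nat_lit 257) (nat_lit 203) (nat_lit 140))) (XT.nd (nat_lit 78) (nat_lit 0) (nat_lit 0) (XT.lf (nat_lit 0) (nat_lit 1449884619626) (nat_lit 152) (nat_lit 1739448956234) (nat_lit 0) (nat_lit 1425266765983) (nat_lit 1) (nat_lit 5) (nat_lit 3) (nat_lit 4) (nat_lit 1) (nat_lit 4) (nat_lit 258) (nat_lit 203) (nat_lit 139)) (XT.nd (nat_lit 26988) (nat_lit 0) (nat_lit 3268) (XT.lf (nat_lit 0) (nat_lit 1679098014811) (nat_lit 152) (nat_lit 1971948765974) (nat_lit 0) (nat_lit 1654479742337) (nat_lit 1) (nat_lit 5) (nat_lit 3) (nat_lit 4) (nat_lit 1) (nat_lit 4) (nat_lit 259) (nat_lit 203) (nat_lit 138)) (XT.lf (nat_lit 0) (nat_lit 3794700983) (nat_lit 380) (nat_lit 107061870) (nat_lit 380) (nat_lit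 107061870) (nat_lit 44) (nat_lit 3) (nat_lit 49) (nat_lit 3) (nat_lit 49) (nat_lit 5) (nat_lit 204) (nat_lit 204) (nat_lit 192))))) (XT.nd (nat_lit 156) (nat_lit 760) (nat_lit 0) (XT.nd (nat_lit 78) (nat_lit 0) (nat_lit 76) (XT.lf (nat_lit 0) (nat_lit 1613754613) (nat_lit 380) (nat_lit 2050692195) (nat_lit 456) (nat_lit 4777332138) (nat_lit 39) (nat_lit 5) (nat_lit 44) (nat_lit 3) (nat_lit 45) (nat_lit 5) (nat_lit 205) (nat_lit 204) (nat_lit 191)) (XT.lf (nat_lit 0) (nat_lit 3758353367) (nat_lit 380) (nat_lit 3873950692) (nat_lit 456) (nat_lit 1313093122) (nat_lit 40) (nat_lit 5) (nat_lit 45) (nat_lit 5) (nat_lit 46) (nat_lit 5) (nat_lit 206) (nat_lit 204) (nat_lit 190))) (XT.nd (nat_lit 78) (nat_lit 836) (nat_lit 0) (XT.lf (nat_lit 76) (nat_lit 3731471064) (nat_lit 0) (nat_lit 2446658758) (nat_lit 456) (nat_lit 3352315771) (nat_lit 41) (nat_lit 5) (nat_lit 40) (nat_lit 5) (nat_lit 46)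 (nat_lit 5) (nat_lit 207) (nat_lit 204) (nat_lit 189)) (XT.nd (nat_lit 78) (nat_lit 532) (nat_lit 0) (XT.lf (nat_lit 0) (nat_lit 2322010481) (nat_lit 380) (nat_lit 6631866564) (nat_lit 456) (nat_lit 1251817770) (nat_lit 36) (nat_lit 5) (nat_lit 41) (nat_lit 5) (nat_lit 42) (nat_lit 5) (nat_lit 208) (nat_lit 204) (nat_lit 188)) (XT.lf (nat_lit 0) (nat_lit 761733233) (nat_lit 456) (nat_lit 361622165) (nat_lit 532) (nat_lit 9856728478) (nat_lit 29) (nat_lit 5) (nat_lit 35) (nat_lit 5) (nat_lit 36) (nat_lit 5) (nat_lit 209) (nat_lit 204) (nat_lit 187))))))))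
noncomputable def xc30 : XT := (XT.nd (nat_lit 1482) (nat_lit 228) (nat_lit 0) (XT.nd (nat_lit 702) (nat_lit 608) (nat_lit 0) (XT.nd (nat_lit 312) (nat_lit 608) (nat_lit 0) (XT.nd (nat_lit 156) (nat_lit 456) (nat_lit 0) (XT.nd (nat_lit 78) (nat_lit 228) (nat_lit 0) (XT.lf (nat_lit 0) (nat_lit 3968578761) (nat_lit 532) (nat_lit 1096323416) (nat_lit 76) (nat_lit 6789415252) (nat_lit 29) (nat_lit 5) (nat_lit 36) (nat_lit 5) (nat_lit 30) (nat_lit 5) (nat_lit 210) (nat_lit 204) (nat_lit 186)) (XT.lf (nat_lit 0) (nat_lit 7354092596) (nat_lit 304) (nat_lit 3236904856) (nat_lit 76) (nat_lit 2260754936) (nat_lit 26) (nat_lit 5) (nat_lit 30) (nat_lit 5) (nat_lit 27) (nat_lit 5) (nat_lit 211) (nat_lit 204) (nat_lit 185))) (XT.nd (nat_lit 78) (nat_lit 304) (nat_lit 0) (XT.lf (nat_lit 0) (nat_lit 8076648580) (nat_lit 152) (nat_lit 3371298679) (nat_lit 228) (nat_lit 2535811567) (nat_lit 24) (nat_lit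 5) (nat_lit 26) (nat_lit 5) (nat_lit 27) (nat_lit 5) (nat_lit 212) (nat_lit 204) (nat_lit 184)) (XT.lf (nat_lit 0) (nat_lit 1041378147) (nat_lit 304) (nat_lit 9297220001) (nat_lit 76) (nat_lit 4928928533) (nat_lit 20) (nat_lit 5) (nat_lit 24) (nat_lit 5) (nat_lit 21) (nat_lit 5) (nat_lit 213) (nat_lit 204) (nat_lit 183)))) (XT.nd (nat_lit 156) (nat_lit 456) (nat_lit 0) (XT.nd (nat_lit 78) (nat_lit 0) (nat_lit 0) (XT.lf (nat_lit 0) (nat_lit 3064649077) (nat_lit 152) (nat_lit 2149651870) (nat_lit 228) (nat_lit 11508243576) (nat_lit 18) (nat_lit 5) (nat_lit 20) (nat_lit 5) (nat_lit 21) (nat_lit 5) (nat_lit 214) (nat_lit 204) (nat_lit 182)) (XT.lf (nat_lit 0) (nat_lit 10340506943) (nat_lit 228) (nat_lit 884506234) (nat_lit 76) (nat_lit 7145221471) (nat_lit 18) (nat_lit 5) (nat_lit 21) (nat_lit 5) (nat_lit 19) (nat_lit 5) (nat_lit 215) (nat_lit 204) (nat_lit 181))) (XT.nd (nat_lit 78) (nat_lit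 304) (nat_lit 0) (XT.lf (nat_lit 0) (nat_lit 14311497271) (nat_lit 152) (nat_lit 2218965325) (nat_lit 228) (nat_lit 3711558184) (nat_lit 16) (nat_lit 5) (nat_lit 18) (nat_lit 5) (nat_lit 19) (nat_lit 5) (nat_lit 216) (nat_lit 204) (nat_lit 180)) (XT.nd (nat_lit 78) (nat_lit 152) (nat_lit 0) (XT.lf (nat_lit 0) (nat_lit 1554165726) (nat_lit 152) (nat_lit 12819475917) (nat_lit 76) (nat_lit 7989938878) (nat_lit 14) (nat_lit 5) (nat_lit 16) (nat_lit 5) (nat_lit 15) (nat_lit 5) (nat_lit 217) (nat_lit 204) (nat_lit 179)) (XT.lf (nat_lit 0) (nat_lit 2740589703) (nat_lit 152) (nat_lit 4868214032) (nat_lit 228) (nat_lit 17169722128) (nat_lit 12) (nat_lit 5) (nat_lit 14) (nat_lit 5) (nat_lit 15) (nat_lit 5) (nat_lit 218) (nat_lit 204) (nat_lit 178)))))) (XT.nd (nat_lit 390) (nat_lit 228) (nat_lit 0) (XT.nd (nat_lit 156) (nat_lit 304) (nat_lit 0) (XT.nd (nat_lit 78) (nat_lit 76) (nat_lit 0) (XT.lf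 (nat_lit 0) (nat_lit 15016438772) (nat_lit 228) (nat_lit 6402170774) (nat_lit 76) (nat_lit 6101840800) (nat_lit 12) (nat_lit 5) (nat_lit 15) (nat_lit 5) (nat_lit 13) (nat_lit 4) (nat_lit 219) (nat_lit 204) (nat_lit 177)) (XT.lf (nat_lit 0) (nat_lit 11926329208) (nat_lit 76) (nat_lit 11957374999) (nat_lit 152) (nat_lit 6762360003) (nat_lit 11) (nat_lit 5) (nat_lit 12) (nat_lit 5) (nat_lit 13) (nat_lit 4) (nat_lit 220) (nat_lit 204) (nat_lit 176))) (XT.nd (nat_lit 78) (nat_lit 304) (nat_lit 0) (XT.lf (nat_lit 0) (nat_lit 33286909001) (nat_lit 76) (nat_lit 914553936) (nat_lit 152) (nat_lit 29667997) (nat_lit 11) (nat_lit 5) (nat_lit 12) (nat_lit 5) (nat_lit 13) (nat_lit 4) (nat_lit 221) (nat_lit 204) (nat_lit 175)) (XT.nd (nat_lit 78) (nat_lit 76) (nat_lit 0) (XT.lf (nat_lit 0) (nat_lit 8054569462) (nat_lit 228) (nat_lit 18375571491) (nat_lit 76) (nat_lit 11850974841) (nat_lit 8) (nat_lit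 5) (nat_lit 11) (nat_lit 5) (nat_lit 9) (nat_lit 4) (nat_lit 222) (nat_lit 204) (nat_lit 174)) (XT.lf (nat_lit 0) (nat_lit 933244753) (nat_lit 76) (nat_lit 16438190311) (nat_lit 152) (nat_lit 25565531912) (nat_lit 7) (nat_lit 5) (nat_lit 8) (nat_lit 5) (nat_lit 9) (nat_lit 4) (nat_lit 223) (nat_lit 204) (nat_lit 173))))) (XT.nd (nat_lit 156) (nat_lit 228) (nat_lit 0) (XT.nd (nat_lit 78) (nat_lit 0) (nat_lit 0) (XT.lf (nat_lit 0) (nat_lit 24168617808) (nat_lit 76) (nat_lit 4403044354) (nat_lit 152) (nat_lit 19680815115) (nat_lit 7) (nat_lit 5) (nat_lit 8) (nat_lit 5) (nat_lit 9) (nat_lit 4) (nat_lit 224) (nat_lit 204) (nat_lit 172)) (XT.lf (nat_lit 0) (nat_lit 41635452254) (nat_lit 152) (nat_lit 3777605355) (nat_lit 0) (nat_lit 8937702879) (nat_lit 7) (nat_lit 5) (nat_lit 9) (nat_lit 4) (nat_lit 7) (nat_lit 4) (nat_lit 225) (nat_lit 204) (nat_lit 171))) (XT.nd (nat_lit 78) (nat_lit 152)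 (nat_lit 0) (XT.lf (nat_lit 0) (nat_lit 20408857168) (nat_lit 76) (nat_lit 36824790489) (nat_lit 76) (nat_lit 4084263469) (nat_lit 6) (nat_lit 4) (nat_lit 7) (nat_lit 5) (nat_lit 7) (nat_lit 4) (nat_lit 226) (nat_lit 204) (nat_lit 170)) (XT.nd (nat_lit 78) (nat_lit 76) (nat_lit 0) (XT.lf (nat_lit 0) (nat_lit 5626805081) (nat_lit 152) (nat_lit 21073970401) (nat_lit 76) (nat_lit 42612003675) (nat_lit 5) (nat_lit 5) (nat_lit 7) (nat_lit 5) (nat_lit 6) (nat_lit 4) (nat_lit 227) (nat_lit 204) (nat_lit 169)) (XT.lf (nat_lit 0) (nat_lit 1652752874) (nat_lit 76) (nat_lit 14915912457) (nat_lit 152) (nat_lit 61928526388) (nat_lit 4) (nat_lit 5) (nat_lit 5) (nat_lit 5) (nat_lit 6) (nat_lit 4) (nat_lit 228) (nat_lit 204) (nat_lit 168))))))) (XT.nd (nat_lit 702) (nat_lit 152) (nat_lit 0) (XT.nd (nat_lit 312) (nat_lit 0) (nat_lit 0) (XT.nd (nat_lit 156) (nat_lit 76) (nat_lit 0) (XT.nd (nat_lit 78)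 (nat_lit 0) (nat_lit 0) (XT.lf (nat_lit 0) (nat_lit 29015835616) (nat_lit 76) (nat_lit 721680550) (nat_lit 152) (nat_lit 59274961196) (nat_lit 4) (nat_lit 5) (nat_lit 5) (nat_lit 5) (nat_lit 6) (nat_lit 4) (nat_lit 229) (nat_lit 204) (nat_lit 167)) (XT.lf (nat_lit 0) (nat_lit 45232272737) (nat_lit 152) (nat_lit 41040908800) (nat_lit 0) (nat_lit 14803887303) (nat_lit 4) (nat_lit 5) (nat_lit 6) (nat_lit 4) (nat_lit 4) (nat_lit 4) (nat_lit 230) (nat_lit 204) (nat_lit 166))) (XT.nd (nat_lit 78) (nat_lit 76) (nat_lit 0) (XT.lf (nat_lit 0) (nat_lit 63049774155) (nat_lit 152) (nat_lit 19300047803) (nat_lit 0) (nat_lit 32601696082) (nat_lit 4) (nat_lit 5) (nat_lit 6) (nat_lit 4) (nat_lit 4) (nat_lit 4) (nat_lit 231) (nat_lit 204) (nat_lit 165)) (XT.lf (nat_lit 0) (nat_lit 5967164064) (nat_lit 76) (nat_lit 77697613649) (nat_lit 76) (nat_lit 47232411542) (nat_lit 3) (nat_lit 4) (nat_lit 4) (nat_lit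 5) (nat_lit 4) (nat_lit 4) (nat_lit 232) (nat_lit 204) (nat_lit 164)))) (XT.nd (nat_lit 156) (nat_lit 0) (nat_lit 0) (XT.nd (nat_lit 78) (nat_lit 0) (nat_lit 0) (XT.lf (nat_lit 0) (nat_lit 36162746967) (nat_lit 76) (nat_lit 71754249275) (nat_lit 76) (nat_lit 41274156705) (nat_lit 3) (nat_lit 4) (nat_lit 4) (nat_lit 5) (nat_lit 4) (nat_lit 4) (nat_lit 233) (nat_lit 204) (nat_lit 163)) (XT.lf (nat_lit 0) (nat_lit 70861177734) (nat_lit 76) (nat_lit 64931143131) (nat_lit 76) (nat_lit 34438102331) (nat_lit 3) (nat_lit 4) (nat_lit 4) (nat_lit 5) (nat_lit 4) (nat_lit 4) (nat_lit 234) (nat_lit 204) (nat_lit 162))) (XT.nd (nat_lit 78) (nat_lit 0) (nat_lit 0) (XT.lf (nat_lit 0) (nat_lit 110741338707) (nat_lit 76) (nat_lit 57094799661) (nat_lit 76) (nat_lit 26590499531) (nat_lit 3) (nat_lit 4) (nat_lit 4) (nat_lit 5) (nat_lit 4) (nat_lit 4) (nat_lit 235) (nat_lit 204) (nat_lit 161)) (XT.nd (nat_lit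 78) (nat_lit 0) (nat_lit 0) (XT.lf (nat_lit 0) (nat_lit 156583493903) (nat_lit 76) (nat_lit 48091899101) (nat_lit 76) (nat_lit 17577808249) (nat_lit 3) (nat_lit 4) (nat_lit 4) (nat_lit 5) (nat_lit 4) (nat_lit 4) (nat_lit 236) (nat_lit 204) (nat_lit 160)) (XT.lf (nat_lit 0) (nat_lit 209284555056) (nat_lit 76) (nat_lit 37746297746) (nat_lit 76) (nat_lit 7223693223) (nat_lit 3) (nat_lit 4) (nat_lit 4) (nat_lit 5) (nat_lit 4) (nat_lit 4) (nat_lit 237) (nat_lit 204) (nat_lit 159)))))) (XT.nd (nat_lit 390) (nat_lit 0) (nat_lit 0) (XT.nd (nat_lit 156) (nat_lit 0) (nat_lit 0) (XT.nd (nat_lit 78) (nat_lit 76) (nat_lit 0) (XT.lf (nat_lit 0) (nat_lit 4440592337) (nat_lit 152) (nat_lit 21293575654) (nat_lit 76) (nat_lit 265313623883) (nat_lit 2) (nat_lit 5) (nat_lit 4) (nat_lit 5) (nat_lit 3) (nat_lit 4) (nat_lit 238) (nat_lit 204) (nat_lit 158)) (XT.lf (nat_lit 0) (nat_lit 6022184525) (nat_lit 76)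 (nat_lit 11554079801) (nat_lit 152) (nat_lit 315756808245) (nat_lit 1) (nat_lit 5) (nat_lit 2) (nat_lit 5) (nat_lit 3) (nat_lit 4) (nat_lit 239) (nat_lit 204) (nat_lit 157))) (XT.nd (nat_lit 78) (nat_lit 0) (nat_lit 0) (XT.lf (nat_lit 0) (nat_lit 33425659862) (nat_lit 152) (nat_lit 343330038970) (nat_lit 0) (nat_lit 5145990278) (nat_lit 1) (nat_lit 5) (nat_lit 3) (nat_lit 4) (nat_lit 1) (nat_lit 4) (nat_lit 240) (nat_lit 204) (nat_lit 156)) (XT.nd (nat_lit 78) (nat_lit 0) (nat_lit 0) (XT.lf (nat_lit 0) (nat_lit 51965952961) (nat_lit 152) (nat_lit 362082801670) (nat_lit 0) (nat_lit 23681776230) (nat_lit 1) (nat_lit 5) (nat_lit 3) (nat_lit 4) (nat_lit 1) (nat_lit 4) (nat_lit 241) (nat_lit 204) (nat_lit 155)) (XT.lf (nat_lit 0) (nat_lit 73282012592) (nat_lit 152) (nat_lit 383658202129) (nat_lit 0) (nat_lit 44993916602) (nat_lit 1) (nat_lit 5) (nat_lit 3) (nat_lit 4) (nat_lit 1) (nat_lit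 4) (nat_lit 242) (nat_lit 204) (nat_lit 154))))) (XT.nd (nat_lit 156) (nat_lit 0) (nat_lit 0) (XT.nd (nat_lit 78) (nat_lit 0) (nat_lit 0) (XT.lf (nat_lit 0) (nat_lit 97790892094) (nat_lit 152) (nat_lit 408478367745) (nat_lit 0) (nat_lit 69499388054) (nat_lit 1) (nat_lit 5) (nat_lit 3) (nat_lit 4) (nat_lit 1) (nat_lit 4) (nat_lit 243) (nat_lit 204) (nat_lit 153)) (XT.lf (nat_lit 0) (nat_lit 125972113024) (nat_lit 152) (nat_lit 437028910455) (nat_lit 0) (nat_lit 97677645460) (nat_lit 1) (nat_lit 5) (nat_lit 3) (nat_lit 4) (nat_lit 1) (nat_lit 4) (nat_lit 244) (nat_lit 204) (nat_lit 152))) (XT.nd (nat_lit 78) (nat_lit 0) (nat_lit 0) (XT.lf (nat_lit 0) (nat_lit 158377047094) (nat_lit 152) (nat_lit 469868427835) (nat_lit 0) (nat_lit 130080002555) (nat_lit 1) (nat_lit 5) (nat_lit 3) (nat_lit 4) (nat_lit 1) (nat_lit 4) (nat_lit 245) (nat_lit 204) (nat_lit 151)) (XT.nd (nat_lit 78) (nat_lit 0)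 (nat_lit 0) (XT.lf (nat_lit 0) (nat_lit 195639703885) (nat_lit 152) (nat_lit 507639432180) (nat_lit 0) (nat_lit 167340418497) (nat_lit 1) (nat_lit 5) (nat_lit 3) (nat_lit 4) (nat_lit 1) (nat_lit 4) (nat_lit 246) (nat_lit 204) (nat_lit 150)) (XT.lf (nat_lit 0) (nat_lit 238489135378) (nat_lit 152) (nat_lit 551080921401) (nat_lit 0) (nat_lit 210187901425) (nat_lit 1) (nat_lit 5) (nat_lit 3) (nat_lit 4) (nat_lit 1) (nat_lit 4) (nat_lit 247) (nat_lit 204) (nat_lit 149))))))))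
noncomputable def xc31 : XT := (XT.nd (nat_lit 28548) (nat_lit 0) (nat_lit 228) (XT.nd (nat_lit 702) (nat_lit 0) (nat_lit 0) (XT.nd (nat_lit 312) (nat_lit 0) (nat_lit 0) (XT.nd (nat_lit 156) (nat_lit 0) (nat_lit 0) (XT.nd (nat_lit 78) (nat_lit 0) (nat_lit 0) (XT.lf (nat_lit 0) (nat_lit 287763700014) (nat_lit 152) (nat_lit 601042837679) (nat_lit 0) (nat_lit 259460771658) (nat_lit 1) (nat_lit 5) (nat_lit 3) (nat_lit 4) (nat_lit 1) (nat_lit 4) (nat_lit 248) (nat_lit 204) (nat_lit 148)) (XT.lf (nat_lit 0) (nat_lit 344427465362) (nat_lit 152) (nat_lit 658502696768) (nat_lit 0) (nat_lit 316123063612) (nat_lit 1) (nat_lit 5) (nat_lit 3) (nat_lit 4) (nat_lit 1) (nat_lit 4) (nat_lit 249) (nat_lit 204) (nat_lit 147))) (XT.nd (nat_lit 78) (nat_lit 0) (nat_lit 0) (XT.lf (nat_lit 0) (nat_lit 409589070311) (nat_lit 152) (nat_lit 724584713301) (nat_lit 0) (nat_lit 381283387348) (nat_lit 1) (nat_lit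 5) (nat_lit 3) (nat_lit 4) (nat_lit 1) (nat_lit 4) (nat_lit 250) (nat_lit 204) (nat_lit 146)) (XT.lf (nat_lit 0) (nat_lit 484523415826) (nat_lit 152) (nat_lit 800581796298) (nat_lit 0) (nat_lit 456216618765) (nat_lit 1) (nat_lit 5) (nat_lit 3) (nat_lit 4) (nat_lit 1) (nat_lit 4) (nat_lit 251) (nat_lit 204) (nat_lit 145)))) (XT.nd (nat_lit 156) (nat_lit 0) (nat_lit 0) (XT.nd (nat_lit 78) (nat_lit 0) (nat_lit 0) (XT.lf (nat_lit 0) (nat_lit 570696608667) (nat_lit 152) (nat_lit 887980845208) (nat_lit 0) (nat_lit 542388842825) (nat_lit 1) (nat_lit 5) (nat_lit 3) (nat_lit 4) (nat_lit 1) (nat_lit 4) (nat_lit 252) (nat_lit 204) (nat_lit 144)) (XT.lf (nat_lit 0) (nat_lit 669794646085) (nat_lit 152) (nat_lit 988491841424) (nat_lit 0) (nat_lit 641486037826) (nat_lit 1) (nat_lit 5) (nat_lit 3) (nat_lit 4) (nat_lit 1) (nat_lit 4) (nat_lit 253) (nat_lit 204) (nat_lit 143))) (XT.nd (nat_lit 78) (nat_lit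 0) (nat_lit 0) (XT.lf (nat_lit 0) (nat_lit 783756402727) (nat_lit 152) (nat_lit 1104081304437) (nat_lit 0) (nat_lit 755447061930) (nat_lit 1) (nat_lit 5) (nat_lit 3) (nat_lit 4) (nat_lit 1) (nat_lit 4) (nat_lit 254) (nat_lit 204) (nat_lit 142)) (XT.nd (nat_lit 78) (nat_lit 0) (nat_lit 0) (XT.lf (nat_lit 0) (nat_lit 914811565134) (nat_lit 152) (nat_lit 1237010767217) (nat_lit 0) (nat_lit 886501587348) (nat_lit 1) (nat_lit 5) (nat_lit 3) (nat_lit 4) (nat_lit 1) (nat_lit 4) (nat_lit 255) (nat_lit 204) (nat_lit 141)) (XT.lf (nat_lit 0) (nat_lit 1065524256049) (nat_lit 152) (nat_lit 1389881023604) (nat_lit 0) (nat_lit 1037213724360) (nat_lit 1) (nat_lit 5) (nat_lit 3) (nat_lit 4) (nat_lit 1) (nat_lit 4) (nat_lit 256) (nat_lit 204) (nat_lit 140)))))) (XT.nd (nat_lit 27456) (nat_lit 0) (nat_lit 1900) (XT.nd (nat_lit 27222) (nat_lit 0) (nat_lit 2888) (XT.nd (nat_lit 78) (nat_lit 0) (nat_lit 0)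 (XT.lf (nat_lit 0) (nat_lit 1238843202034) (nat_lit 152) (nat_lit 1565683013395) (nat_lit 0) (nat_lit 1210532188689) (nat_lit 1) (nat_lit 5) (nat_lit 3) (nat_lit 4) (nat_lit 1) (nat_lit 4) (nat_lit 257) (nat_lit 204) (nat_lit 139)) (XT.lf (nat_lit 0) (nat_lit 1438159425945) (nat_lit 152) (nat_lit 1767856340738) (nat_lit 0) (nat_lit 1409847993770) (nat_lit 1) (nat_lit 5) (nat_lit 3) (nat_lit 4) (nat_lit 1) (nat_lit 4) (nat_lit 258) (nat_lit 204) (nat_lit 138))) (XT.nd (nat_lit 78) (nat_lit 0) (nat_lit 0) (XT.lf (nat_lit 0) (nat_lit 810559075) (nat_lit 0) (nat_lit 810559075) (nat_lit 380) (nat_lit 2827687414) (nat_lit 39) (nat_lit 5) (nat_lit 39) (nat_lit 3) (nat_lit 44) (nat_lit 3) (nat_lit 205) (nat_lit 205) (nat_lit 190)) (XT.nd (nat_lit 78) (nat_lit 0) (nat_lit 76) (XT.lf (nat_lit 0) (nat_lit 5053637633) (nat_lit 380) (nat_lit 418736605) (nat_lit 456) (nat_lit 3956518580) (nat_lit 39)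 (nat_lit 5) (nat_lit 44) (nat_lit 3) (nat_lit 45) (nat_lit 5) (nat_lit 206) (nat_lit 205) (nat_lit 189)) (XT.lf (nat_lit 0) (nat_lit 7120312287) (nat_lit 380) (nat_lit 2408295322) (nat_lit 456) (nat_lit 514457994) (nat_lit 40) (nat_lit 5) (nat_lit 45) (nat_lit 5) (nat_lit 46) (nat_lit 5) (nat_lit 207) (nat_lit 205) (nat_lit 188))))) (XT.nd (nat_lit 156) (nat_lit 684) (nat_lit 0) (XT.nd (nat_lit 78) (nat_lit 380) (nat_lit 0) (XT.lf (nat_lit 76) (nat_lit 6164692676) (nat_lit 0) (nat_lit 3418436897) (nat_lit 456) (nat_lit 1160981583) (nat_lit 41) (nat_lit 5) (nat_lit 40) (nat_lit 5) (nat_lit 46) (nat_lit 5) (nat_lit 208) (nat_lit 205) (nat_lit 187)) (XT.lf (nat_lit 0) (nat_lit 892539283) (nat_lit 456) (nat_lit 6972540608) (nat_lit 76) (nat_lit 3679227700) (nat_lit 35) (nat_lit 5) (nat_lit 41) (nat_lit 5) (nat_lit 36) (nat_lit 5) (nat_lit 209) (nat_lit 205) (nat_lit 186))) (XT.nd (nat_lit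 78) (nat_lit 228) (nat_lit 0) (XT.lf (nat_lit 0) (nat_lit 2760777036) (nat_lit 456) (nat_lit 541728660) (nat_lit 532) (nat_lit 9151389459) (nat_lit 29) (nat_lit 5) (nat_lit 35) (nat_lit 5) (nat_lit 36) (nat_lit 5) (nat_lit 210) (nat_lit 205) (nat_lit 185)) (XT.nd (nat_lit 78) (nat_lit 0) (nat_lit 0) (XT.lf (nat_lit 0) (nat_lit 559395777) (nat_lit 228) (nat_lit 5763679780) (nat_lit 304) (nat_lit 7157913953) (nat_lit 26) (nat_lit 5) (nat_lit 29) (nat_lit 5) (nat_lit 30) (nat_lit 5) (nat_lit 211) (nat_lit 205) (nat_lit 184)) (XT.lf (nat_lit 0) (nat_lit 10016705042) (nat_lit 304) (nat_lit 1950013075) (nat_lit 76) (nat_lit 2678699216) (nat_lit 26) (nat_lit 5) (nat_lit 30) (nat_lit 5) (nat_lit 27) (nat_lit 5) (nat_lit 212) (nat_lit 205) (nat_lit 183))))))) (XT.nd (nat_lit 702) (nat_lit 532) (nat_lit 0) (XT.nd (nat_lit 312) (nat_lit 380) (nat_lit 0) (XT.nd (nat_lit 156) (nat_lit 304) (nat_lit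 0) (XT.nd (nat_lit 78) (nat_lit 304) (nat_lit 0) (XT.lf (nat_lit 0) (nat_lit 10910546216) (nat_lit 152) (nat_lit 3649697601) (nat_lit 228) (nat_lit 1401350451) (nat_lit 24) (nat_lit 5) (nat_lit 26) (nat_lit 5) (nat_lit 27) (nat_lit 5) (nat_lit 213) (nat_lit 205) (nat_lit 182)) (XT.lf (nat_lit 0) (nat_lit 2493038213) (nat_lit 304) (nat_lit 9027386411) (nat_lit 76) (nat_lit 5927056928) (nat_lit 20) (nat_lit 5) (nat_lit 24) (nat_lit 5) (nat_lit 21) (nat_lit 5) (nat_lit 214) (nat_lit 205) (nat_lit 181))) (XT.nd (nat_lit 78) (nat_lit 152) (nat_lit 0) (XT.lf (nat_lit 0) (nat_lit 5047878454) (nat_lit 152) (nat_lit 2111689786) (nat_lit 228) (nat_lit 11972623092) (nat_lit 18) (nat_lit 5) (nat_lit 20) (nat_lit 5) (nat_lit 21) (nat_lit 5) (nat_lit 215) (nat_lit 205) (nat_lit 180)) (XT.lf (nat_lit 0) (nat_lit 406270719) (nat_lit 152) (nat_lit 12514030925) (nat_lit 228) (nat_lit 8118227144) (nat_lit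 16) (nat_lit 5) (nat_lit 18) (nat_lit 5) (nat_lit 19) (nat_lit 5) (nat_lit 216) (nat_lit 205) (nat_lit 179)))) (XT.nd (nat_lit 156) (nat_lit 228) (nat_lit 0) (XT.nd (nat_lit 78) (nat_lit 152) (nat_lit 0) (XT.lf (nat_lit 0) (nat_lit 17742583513) (nat_lit 152) (nat_lit 2184379001) (nat_lit 228) (nat_lit 3273708189) (nat_lit 16) (nat_lit 5) (nat_lit 18) (nat_lit 5) (nat_lit 19) (nat_lit 5) (nat_lit 217) (nat_lit 205) (nat_lit 178)) (XT.lf (nat_lit 0) (nat_lit 2647329153) (nat_lit 152) (nat_lit 13455009715) (nat_lit 76) (nat_lit 9543514494) (nat_lit 14) (nat_lit 5) (nat_lit 16) (nat_lit 5) (nat_lit 15) (nat_lit 5) (nat_lit 218) (nat_lit 205) (nat_lit 177))) (XT.nd (nat_lit 78) (nat_lit 76) (nat_lit 0) (XT.lf (nat_lit 0) (nat_lit 4330094800) (nat_lit 152) (nat_lit 5196230067) (nat_lit 228) (nat_lit 18903874132) (nat_lit 12) (nat_lit 5) (nat_lit 14) (nat_lit 5) (nat_lit 15) (nat_lit 5) (nat_lit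 219) (nat_lit 205) (nat_lit 176)) (XT.nd (nat_lit 78) (nat_lit 76) (nat_lit 0) (XT.lf (nat_lit 0) (nat_lit 17952273178) (nat_lit 228) (nat_lit 6289584148) (nat_lit 76) (nat_lit 7349373957) (nat_lit 12) (nat_lit 5) (nat_lit 15) (nat_lit 5) (nat_lit 13) (nat_lit 4) (nat_lit 220) (nat_lit 205) (nat_lit 175)) (XT.lf (nat_lit 0) (nat_lit 14697374154) (nat_lit 76) (nat_lit 13386738662) (nat_lit 152) (nat_lit 7107157023) (nat_lit 11) (nat_lit 5) (nat_lit 12) (nat_lit 5) (nat_lit 13) (nat_lit 4) (nat_lit 221) (nat_lit 205) (nat_lit 174)))))) (XT.nd (nat_lit 390) (nat_lit 228) (nat_lit 0) (XT.nd (nat_lit 156) (nat_lit 76) (nat_lit 0) (XT.nd (nat_lit 78) (nat_lit 152) (nat_lit 0) (XT.lf (nat_lit 0) (nat_lit 520686819) (nat_lit 152) (nat_lit 200081022) (nat_lit 76) (nat_lit 38599018175) (nat_lit 10) (nat_lit 5) (nat_lit 12) (nat_lit 5) (nat_lit 11) (nat_lit 5) (nat_lit 222) (nat_lit 205) (nat_lit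 173)) (XT.lf (nat_lit 0) (nat_lit 9770637686) (nat_lit 228) (nat_lit 20287678335) (nat_lit 76) (nat_lit 13922743181) (nat_lit 8) (nat_lit 5) (nat_lit 11) (nat_lit 5) (nat_lit 9) (nat_lit 4) (nat_lit 223) (nat_lit 205) (nat_lit 172))) (XT.nd (nat_lit 78) (nat_lit 0) (nat_lit 0) (XT.lf (nat_lit 0) (nat_lit 1846000576) (nat_lit 76) (nat_lit 18591372084) (nat_lit 152) (nat_lit 28901936064) (nat_lit 7) (nat_lit 5) (nat_lit 8) (nat_lit 5) (nat_lit 9) (nat_lit 4) (nat_lit 224) (nat_lit 205) (nat_lit 171)) (XT.nd (nat_lit 78) (nat_lit 0) (nat_lit 0) (XT.lf (nat_lit 0) (nat_lit 28465883619) (nat_lit 76) (nat_lit 4791721204) (nat_lit 152) (nat_lit 22199523788) (nat_lit 7) (nat_lit 5) (nat_lit 8) (nat_lit 5) (nat_lit 9) (nat_lit 4) (nat_lit 225) (nat_lit 205) (nat_lit 170)) (XT.lf (nat_lit 0) (nat_lit 48234448046) (nat_lit 152) (nat_lit 3736718256) (nat_lit 0) (nat_lit 10502866377) (nat_lit 7) (nat_lit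 5) (nat_lit 9) (nat_lit 4) (nat_lit 7) (nat_lit 4) (nat_lit 226) (nat_lit 205) (nat_lit 169))))) (XT.nd (nat_lit 156) (nat_lit 76) (nat_lit 0) (XT.nd (nat_lit 78) (nat_lit 76) (nat_lit 0) (XT.lf (nat_lit 0) (nat_lit 24026289435) (nat_lit 76) (nat_lit 42113325725) (nat_lit 76) (nat_lit 4349398011) (nat_lit 6) (nat_lit 4) (nat_lit 7) (nat_lit 5) (nat_lit 7) (nat_lit 4) (nat_lit 227) (nat_lit 205) (nat_lit 168)) (XT.lf (nat_lit 0) (nat_lit 6757887906) (nat_lit 152) (nat_lit 23735647863) (nat_lit 76) (nat_lit 49192461805) (nat_lit 5) (nat_lit 5) (nat_lit 7) (nat_lit 5) (nat_lit 6) (nat_lit 4) (nat_lit 228) (nat_lit 205) (nat_lit 167))) (XT.nd (nat_lit 78) (nat_lit 0) (nat_lit 0) (XT.lf (nat_lit 0) (nat_lit 2357810648) (nat_lit 76) (nat_lit 16956768012) (nat_lit 152) (nat_lit 70935704916) (nat_lit 4) (nat_lit 5) (nat_lit 5) (nat_lit 5) (nat_lit 6) (nat_lit 4) (nat_lit 229) (nat_lit 205) (nat_lit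 166)) (XT.nd (nat_lit 78) (nat_lit 0) (nat_lit 0) (XT.lf (nat_lit 0) (nat_lit 33765728214) (nat_lit 76) (nat_lit 659035839) (nat_lit 152) (nat_lit 67920900654) (nat_lit 4) (nat_lit 5) (nat_lit 5) (nat_lit 5) (nat_lit 6) (nat_lit 4) (nat_lit 230) (nat_lit 205) (nat_lit 165)) (XT.lf (nat_lit 0) (nat_lit 52217748893) (nat_lit 152) (nat_lit 46838704734) (nat_lit 0) (nat_lit 17165642437) (nat_lit 4) (nat_lit 5) (nat_lit 6) (nat_lit 4) (nat_lit 4) (nat_lit 4) (nat_lit 231) (nat_lit 205) (nat_lit 164))))))))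
noncomputable def xc32 : XT := (XT.nd (nat_lit 1404) (nat_lit 0) (nat_lit 0) (XT.nd (nat_lit 702) (nat_lit 0) (nat_lit 0) (XT.nd (nat_lit 312) (nat_lit 152) (nat_lit 0) (XT.nd (nat_lit 156) (nat_lit 0) (nat_lit 0) (XT.nd (nat_lit 78) (nat_lit 76) (nat_lit 0) (XT.lf (nat_lit 0) (nat_lit 72681705709) (nat_lit 152) (nat_lit 21883454637) (nat_lit 0) (nat_lit 37614708789) (nat_lit 4) (nat_lit 5) (nat_lit 6) (nat_lit 4) (nat_lit 4) (nat_lit 4) (nat_lit 232) (nat_lit 205) (nat_lit 163)) (XT.lf (nat_lit 0) (nat_lit 7147463593) (nat_lit 76) (nat_lit 89225599513) (nat_lit 76) (nat_lit 54145654364) (nat_lit 3) (nat_lit 4) (nat_lit 4) (nat_lit 5) (nat_lit 4) (nat_lit 4) (nat_lit 233) (nat_lit 205) (nat_lit 162))) (XT.nd (nat_lit 78) (nat_lit 0) (nat_lit 0) (XT.lf (nat_lit 0) (nat_lit 41835180681) (nat_lit 76) (nat_lit 82407250855) (nat_lit 76) (nat_lit 47316046376) (nat_lit 3) (nat_lit 4) (nat_lit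 4) (nat_lit 5) (nat_lit 4) (nat_lit 4) (nat_lit 234) (nat_lit 205) (nat_lit 161)) (XT.lf (nat_lit 0) (nat_lit 81706025411) (nat_lit 76) (nat_lit 74575044330) (nat_lit 76) (nat_lit 39474049129) (nat_lit 3) (nat_lit 4) (nat_lit 4) (nat_lit 5) (nat_lit 4) (nat_lit 4) (nat_lit 235) (nat_lit 205) (nat_lit 160)))) (XT.nd (nat_lit 156) (nat_lit 152) (nat_lit 0) (XT.nd (nat_lit 78) (nat_lit 0) (nat_lit 0) (XT.lf (nat_lit 0) (nat_lit 127540079527) (nat_lit 76) (nat_lit 65575741114) (nat_lit 76) (nat_lit 30466232241) (nat_lit 3) (nat_lit 4) (nat_lit 4) (nat_lit 5) (nat_lit 4) (nat_lit 4) (nat_lit 236) (nat_lit 205) (nat_lit 159)) (XT.lf (nat_lit 0) (nat_lit 180234096262) (nat_lit 76) (nat_lit 55233267883) (nat_lit 76) (nat_lit 20116355818) (nat_lit 3) (nat_lit 4) (nat_lit 4) (nat_lit 5) (nat_lit 4) (nat_lit 4) (nat_lit 237) (nat_lit 205) (nat_lit 158))) (XT.nd (nat_lit 78) (nat_lit 152) (nat_lit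 0) (XT.lf (nat_lit 0) (nat_lit 240819045509) (nat_lit 76) (nat_lit 43345271900) (nat_lit 76) (nat_lit 8221922277) (nat_lit 3) (nat_lit 4) (nat_lit 4) (nat_lit 5) (nat_lit 4) (nat_lit 4) (nat_lit 238) (nat_lit 205) (nat_lit 157)) (XT.nd (nat_lit 78) (nat_lit 76) (nat_lit 0) (XT.lf (nat_lit 0) (nat_lit 5177165214) (nat_lit 152) (nat_lit 24360443854) (nat_lit 76) (nat_lit 305161566884) (nat_lit 2) (nat_lit 5) (nat_lit 4) (nat_lit 5) (nat_lit 3) (nat_lit 4) (nat_lit 239) (nat_lit 205) (nat_lit 156)) (XT.lf (nat_lit 0) (nat_lit 7041916202) (nat_lit 76) (nat_lit 13234877750) (nat_lit 152) (nat_lit 363050985367) (nat_lit 1) (nat_lit 5) (nat_lit 2) (nat_lit 5) (nat_lit 3) (nat_lit 4) (nat_lit 240) (nat_lit 205) (nat_lit 155)))))) (XT.nd (nat_lit 312) (nat_lit 0) (nat_lit 0) (XT.nd (nat_lit 156) (nat_lit 0) (nat_lit 0) (XT.nd (nat_lit 78) (nat_lit 0) (nat_lit 0) (XT.lf (nat_lit 0) (nat_lit 38496333303)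 (nat_lit 152) (nat_lit 394724849179) (nat_lit 0) (nat_lit 5961103656) (nat_lit 1) (nat_lit 5) (nat_lit 3) (nat_lit 4) (nat_lit 1) (nat_lit 4) (nat_lit 241) (nat_lit 205) (nat_lit 154)) (XT.lf (nat_lit 0) (nat_lit 59810258481) (nat_lit 152) (nat_lit 416304182237) (nat_lit 0) (nat_lit 27271620783) (nat_lit 1) (nat_lit 5) (nat_lit 3) (nat_lit 4) (nat_lit 1) (nat_lit 4) (nat_lit 242) (nat_lit 205) (nat_lit 153))) (XT.nd (nat_lit 78) (nat_lit 0) (nat_lit 0) (XT.lf (nat_lit 0) (nat_lit 84317281937) (nat_lit 152) (nat_lit 441127767505) (nat_lit 0) (nat_lit 51775680717) (nat_lit 1) (nat_lit 5) (nat_lit 3) (nat_lit 4) (nat_lit 1) (nat_lit 4) (nat_lit 243) (nat_lit 205) (nat_lit 152)) (XT.lf (nat_lit 0) (nat_lit 112496888914) (nat_lit 152) (nat_lit 469681283826) (nat_lit 0) (nat_lit 79952710718) (nat_lit 1) (nat_lit 5) (nat_lit 3) (nat_lit 4) (nat_lit 1) (nat_lit 4) (nat_lit 244) (nat_lit 205)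 (nat_lit 151)))) (XT.nd (nat_lit 156) (nat_lit 0) (nat_lit 0) (XT.nd (nat_lit 78) (nat_lit 0) (nat_lit 0) (XT.lf (nat_lit 0) (nat_lit 144900419547) (nat_lit 152) (nat_lit 502523386954) (nat_lit 0) (nat_lit 112354000502) (nat_lit 1) (nat_lit 5) (nat_lit 3) (nat_lit 4) (nat_lit 1) (nat_lit 4) (nat_lit 245) (nat_lit 205) (nat_lit 150)) (XT.lf (nat_lit 0) (nat_lit 182161855958) (nat_lit 152) (nat_lit 540296639775) (nat_lit 0) (nat_lit 149613488349) (nat_lit 1) (nat_lit 5) (nat_lit 3) (nat_lit 4) (nat_lit 1) (nat_lit 4) (nat_lit 246) (nat_lit 205) (nat_lit 149))) (XT.nd (nat_lit 78) (nat_lit 0) (nat_lit 0) (XT.lf (nat_lit 0) (nat_lit 225010226251) (nat_lit 152) (nat_lit 583740084194) (nat_lit 0) (nat_lit 192460164238) (nat_lit 1) (nat_lit 5) (nat_lit 3) (nat_lit 4) (nat_lit 1) (nat_lit 4) (nat_lit 247) (nat_lit 205) (nat_lit 148)) (XT.nd (nat_lit 78) (nat_lit 0) (nat_lit 0) (XT.lf (nat_lit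 0) (nat_lit 274283868104) (nat_lit 152) (nat_lit 633703700643) (nat_lit 0) (nat_lit 241732332697) (nat_lit 1) (nat_lit 5) (nat_lit 3) (nat_lit 4) (nat_lit 1) (nat_lit 4) (nat_lit 248) (nat_lit 205) (nat_lit 147)) (XT.lf (nat_lit 0) (nat_lit 330946831033) (nat_lit 152) (nat_lit 691165038142) (nat_lit 0) (nat_lit 298394014413) (nat_lit 1) (nat_lit 5) (nat_lit 3) (nat_lit 4) (nat_lit 1) (nat_lit 4) (nat_lit 249) (nat_lit 205) (nat_lit 146))))))) (XT.nd (nat_lit 27846) (nat_lit 0) (nat_lit 1444) (XT.nd (nat_lit 312) (nat_lit 0) (nat_lit 0) (XT.nd (nat_lit 156) (nat_lit 0) (nat_lit 0) (XT.nd (nat_lit 78) (nat_lit 0) (nat_lit 0) (XT.lf (nat_lit 0) (nat_lit 396107738225) (nat_lit 152) (nat_lit 757248340249) (nat_lit 0) (nat_lit 363553807508) (nat_lit 1) (nat_lit 5) (nat_lit 3) (nat_lit 4) (nat_lit 1) (nat_lit 4) (nat_lit 250) (nat_lit 205) (nat_lit 145)) (XT.lf (nat_lit 0) (nat_lit 471041476995)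 (nat_lit 152) (nat_lit 833246541136) (nat_lit 0) (nat_lit 438486577497) (nat_lit 1) (nat_lit 5) (nat_lit 3) (nat_lit 4) (nat_lit 1) (nat_lit 4) (nat_lit 251) (nat_lit 205) (nat_lit 144))) (XT.nd (nat_lit 78) (nat_lit 0) (nat_lit 0) (XT.lf (nat_lit 0) (nat_lit 557214142232) (nat_lit 152) (nat_lit 920646562125) (nat_lit 0) (nat_lit 524658400316) (nat_lit 1) (nat_lit 5) (nat_lit 3) (nat_lit 4) (nat_lit 1) (nat_lit 4) (nat_lit 252) (nat_lit 205) (nat_lit 143)) (XT.lf (nat_lit 0) (nat_lit 656311720865) (nat_lit 152) (nat_lit 1021158403627) (nat_lit 0) (nat_lit 623755246411) (nat_lit 1) (nat_lit 5) (nat_lit 3) (nat_lit 4) (nat_lit 1) (nat_lit 4) (nat_lit 253) (nat_lit 205) (nat_lit 142)))) (XT.nd (nat_lit 156) (nat_lit 0) (nat_lit 0) (XT.nd (nat_lit 78) (nat_lit 0) (nat_lit 0) (XT.lf (nat_lit 0) (nat_lit 770273078562) (nat_lit 152) (nat_lit 1136748601670) (nat_lit 0) (nat_lit 737715967119)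 (nat_lit 1) (nat_lit 5) (nat_lit 3) (nat_lit 4) (nat_lit 1) (nat_lit 4) (nat_lit 254) (nat_lit 205) (nat_lit 141)) (XT.lf (nat_lit 0) (nat_lit 901327894061) (nat_lit 152) (nat_lit 1269678703608) (nat_lit 0) (nat_lit 868770228714) (nat_lit 1) (nat_lit 5) (nat_lit 3) (nat_lit 4) (nat_lit 1) (nat_lit 4) (nat_lit 255) (nat_lit 205) (nat_lit 140))) (XT.nd (nat_lit 78) (nat_lit 0) (nat_lit 0) (XT.lf (nat_lit 0) (nat_lit 1052040283317) (nat_lit 152) (nat_lit 1422549515784) (nat_lit 0) (nat_lit 1019482136315) (nat_lit 1) (nat_lit 5) (nat_lit 3) (nat_lit 4) (nat_lit 1) (nat_lit 4) (nat_lit 256) (nat_lit 205) (nat_lit 139)) (XT.nd (nat_lit 78) (nat_lit 0) (nat_lit 0) (XT.lf (nat_lit 0) (nat_lit 1225358966989) (nat_lit 152) (nat_lit 1598351988870) (nat_lit 0) (nat_lit 1192800401157) (nat_lit 1) (nat_lit 5) (nat_lit 3) (nat_lit 4) (nat_lit 1) (nat_lit 4) (nat_lit 257) (nat_lit 205) (nat_lit 138))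 (XT.lf (nat_lit 0) (nat_lit 1424674962803) (nat_lit 152) (nat_lit 1800525736469) (nat_lit 0) (nat_lit 1392116032770) (nat_lit 1) (nat_lit 5) (nat_lit 3) (nat_lit 4) (nat_lit 1) (nat_lit 4) (nat_lit 258) (nat_lit 205) (nat_lit 137)))))) (XT.nd (nat_lit 390) (nat_lit 1064) (nat_lit 0) (XT.nd (nat_lit 156) (nat_lit 380) (nat_lit 0) (XT.nd (nat_lit 78) (nat_lit 0) (nat_lit 0) (XT.lf (nat_lit 0) (nat_lit 1635782433) (nat_lit 0) (nat_lit 1635782433) (nat_lit 380) (nat_lit 1721836871) (nat_lit 39) (nat_lit 5) (nat_lit 39) (nat_lit 3) (nat_lit 44) (nat_lit 3) (nat_lit 206) (nat_lit 206) (nat_lit 188)) (XT.lf (nat_lit 76) (nat_lit 1036908857) (nat_lit 0) (nat_lit 7217723316) (nat_lit 456) (nat_lit 2375519802) (nat_lit 40) (nat_lit 5) (nat_lit 39) (nat_lit 5) (nat_lit 45) (nat_lit 5) (nat_lit 207) (nat_lit 206) (nat_lit 187))) (XT.nd (nat_lit 78) (nat_lit 380) (nat_lit 0) (XT.lf (nat_lit 76) (nat_lit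 10138608354) (nat_lit 0) (nat_lit 169677198) (nat_lit 456) (nat_lit 1056307643) (nat_lit 40) (nat_lit 5) (nat_lit 39) (nat_lit 5) (nat_lit 45) (nat_lit 5) (nat_lit 208) (nat_lit 206) (nat_lit 186)) (XT.nd (nat_lit 78) (nat_lit 0) (nat_lit 76) (XT.lf (nat_lit 0) (nat_lit 666939639) (nat_lit 456) (nat_lit 3703327537) (nat_lit 532) (nat_lit 7820857508) (nat_lit 34) (nat_lit 5) (nat_lit 40) (nat_lit 5) (nat_lit 41) (nat_lit 5) (nat_lit 209) (nat_lit 206) (nat_lit 185)) (XT.lf (nat_lit 0) (nat_lit 2735392255) (nat_lit 456) (nat_lit 6461465787) (nat_lit 76) (nat_lit 3931639187) (nat_lit 35) (nat_lit 5) (nat_lit 41) (nat_lit 5) (nat_lit 36) (nat_lit 5) (nat_lit 210) (nat_lit 206) (nat_lit 184))))) (XT.nd (nat_lit 156) (nat_lit 456) (nat_lit 0) (XT.nd (nat_lit 78) (nat_lit 228) (nat_lit 0) (XT.lf (nat_lit 0) (nat_lit 4600060940) (nat_lit 456) (nat_lit 718158598) (nat_lit 532) (nat_lit 8872794823)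 (nat_lit 29) (nat_lit 5) (nat_lit 35) (nat_lit 5) (nat_lit 36) (nat_lit 5) (nat_lit 211) (nat_lit 206) (nat_lit 183)) (XT.lf (nat_lit 0) (nat_lit 2069813818) (nat_lit 228) (nat_lit 6556073363) (nat_lit 304) (nat_lit 6760782707) (nat_lit 26) (nat_lit 5) (nat_lit 29) (nat_lit 5) (nat_lit 30) (nat_lit 5) (nat_lit 212) (nat_lit 206) (nat_lit 182))) (XT.nd (nat_lit 78) (nat_lit 456) (nat_lit 0) (XT.lf (nat_lit 0) (nat_lit 12698415756) (nat_lit 304) (nat_lit 902305200) (nat_lit 76) (nat_lit 3140111689) (nat_lit 26) (nat_lit 5) (nat_lit 30) (nat_lit 5) (nat_lit 27) (nat_lit 5) (nat_lit 213) (nat_lit 206) (nat_lit 181)) (XT.nd (nat_lit 78) (nat_lit 304) (nat_lit 0) (XT.lf (nat_lit 0) (nat_lit 13773895897) (nat_lit 152) (nat_lit 4025283901) (nat_lit 228) (nat_lit 466121751) (nat_lit 24) (nat_lit 5) (nat_lit 26) (nat_lit 5) (nat_lit 27) (nat_lit 5) (nat_lit 214) (nat_lit 206) (nat_lit 180)) (XT.lf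 (nat_lit 0) (nat_lit 3846542788) (nat_lit 304) (nat_lit 9122956308) (nat_lit 76) (nat_lit 7011797219) (nat_lit 20) (nat_lit 5) (nat_lit 24) (nat_lit 5) (nat_lit 21) (nat_lit 5) (nat_lit 215) (nat_lit 206) (nat_lit 179))))))))
noncomputable def xc33 : XT := (XT.nd (nat_lit 1482) (nat_lit 152) (nat_lit 0) (XT.nd (nat_lit 702) (nat_lit 380) (nat_lit 0) (XT.nd (nat_lit 312) (nat_lit 456) (nat_lit 0) (XT.nd (nat_lit 156) (nat_lit 152) (nat_lit 0) (XT.nd (nat_lit 78) (nat_lit 152) (nat_lit 0) (XT.lf (nat_lit 0) (nat_lit 6957069308) (nat_lit 152) (nat_lit 2155921616) (nat_lit 228) (nat_lit 12814371360) (nat_lit 18) (nat_lit 5) (nat_lit 20) (nat_lit 5) (nat_lit 21) (nat_lit 5) (nat_lit 216) (nat_lit 206) (nat_lit 178)) (XT.lf (nat_lit 0) (nat_lit 1584047546) (nat_lit 152) (nat_lit 14071630240) (nat_lit 228) (nat_lit 8471105805) (nat_lit 16) (nat_lit 5) (nat_lit 18) (nat_lit 5) (nat_lit 19) (nat_lit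 5) (nat_lit 217) (nat_lit 206) (nat_lit 177))) (XT.nd (nat_lit 78) (nat_lit 152) (nat_lit 0) (XT.lf (nat_lit 0) (nat_lit 21375132970) (nat_lit 152) (nat_lit 2234205134) (nat_lit 228) (nat_lit 3012716235) (nat_lit 16) (nat_lit 5) (nat_lit 18) (nat_lit 5) (nat_lit 19) (nat_lit 5) (nat_lit 218) (nat_lit 206) (nat_lit 176)) (XT.lf (nat_lit 0) (nat_lit 3694741242) (nat_lit 152) (nat_lit 14499811200) (nat_lit 76) (nat_lit 11243536779) (nat_lit 14) (nat_lit 5) (nat_lit 16) (nat_lit 5) (nat_lit 15) (nat_lit 5) (nat_lit 219) (nat_lit 206) (nat_lit 175)))) (XT.nd (nat_lit 156) (nat_lit 304) (nat_lit 0) (XT.nd (nat_lit 78) (nat_lit 0) (nat_lit 0) (XT.lf (nat_lit 0) (nat_lit 5870661302) (nat_lit 152) (nat_lit 5671531443) (nat_lit 228) (nat_lit 21103306809) (nat_lit 12) (nat_lit 5) (nat_lit 14) (nat_lit 5) (nat_lit 15) (nat_lit 5) (nat_lit 220) (nat_lit 206) (nat_lit 174)) (XT.lf (nat_lit 0) (nat_lit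 21161838987) (nat_lit 228) (nat_lit 6421745972) (nat_lit 76) (nat_lit 8703014105) (nat_lit 12) (nat_lit 5) (nat_lit 15) (nat_lit 5) (nat_lit 13) (nat_lit 4) (nat_lit 221) (nat_lit 206) (nat_lit 173))) (XT.nd (nat_lit 78) (nat_lit 228) (nat_lit 0) (XT.lf (nat_lit 0) (nat_lit 17644585620) (nat_lit 76) (nat_lit 15119329736) (nat_lit 152) (nat_lit 7666949306) (nat_lit 11) (nat_lit 5) (nat_lit 12) (nat_lit 5) (nat_lit 13) (nat_lit 4) (nat_lit 222) (nat_lit 206) (nat_lit 172)) (XT.nd (nat_lit 78) (nat_lit 0) (nat_lit 0) (XT.lf (nat_lit 0) (nat_lit 462178992) (nat_lit 152) (nat_lit 565948031) (nat_lit 228) (nat_lit 44153894410) (nat_lit 8) (nat_lit 5) (nat_lit 10) (nat_lit 5) (nat_lit 11) (nat_lit 5) (nat_lit 223) (nat_lit 206) (nat_lit 171)) (XT.lf (nat_lit 0) (nat_lit 11620265705) (nat_lit 228) (nat_lit 22692471765) (nat_lit 76) (nat_lit 16233553232) (nat_lit 8) (nat_lit 5) (nat_lit 11) (nat_lit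 5) (nat_lit 9) (nat_lit 4) (nat_lit 224) (nat_lit 206) (nat_lit 170)))))) (XT.nd (nat_lit 390) (nat_lit 152) (nat_lit 0) (XT.nd (nat_lit 156) (nat_lit 152) (nat_lit 0) (XT.nd (nat_lit 78) (nat_lit 0) (nat_lit 0) (XT.lf (nat_lit 0) (nat_lit 2707225131) (nat_lit 76) (nat_lit 21143747634) (nat_lit 152) (nat_lit 32860345087) (nat_lit 7) (nat_lit 5) (nat_lit 8) (nat_lit 5) (nat_lit 9) (nat_lit 4) (nat_lit 225) (nat_lit 206) (nat_lit 169)) (XT.lf (nat_lit 0) (nat_lit 33243874395) (nat_lit 76) (nat_lit 5304974808) (nat_lit 152) (nat_lit 25201729411) (nat_lit 7) (nat_lit 5) (nat_lit 8) (nat_lit 5) (nat_lit 9) (nat_lit 4) (nat_lit 226) (nat_lit 206) (nat_lit 168))) (XT.nd (nat_lit 78) (nat_lit 152) (nat_lit 0) (XT.lf (nat_lit 0) (nat_lit 55737046598) (nat_lit 152) (nat_lit 3837847619) (nat_lit 0) (nat_lit 12248056686) (nat_lit 7) (nat_lit 5) (nat_lit 9) (nat_lit 4) (nat_lit 7) (nat_lit 4) (nat_lit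 227) (nat_lit 206) (nat_lit 167)) (XT.nd (nat_lit 78) (nat_lit 76) (nat_lit 0) (XT.lf (nat_lit 0) (nat_lit 28050727134) (nat_lit 76) (nat_lit 48252492193) (nat_lit 76) (nat_lit 4739044024) (nat_lit 6) (nat_lit 4) (nat_lit 7) (nat_lit 5) (nat_lit 7) (nat_lit 4) (nat_lit 228) (nat_lit 206) (nat_lit 166)) (XT.lf (nat_lit 0) (nat_lit 7988631253) (nat_lit 152) (nat_lit 26918363211) (nat_lit 76) (nat_lit 56713983309) (nat_lit 5) (nat_lit 5) (nat_lit 7) (nat_lit 5) (nat_lit 6) (nat_lit 4) (nat_lit 229) (nat_lit 206) (nat_lit 165))))) (XT.nd (nat_lit 156) (nat_lit 76) (nat_lit 0) (XT.nd (nat_lit 78) (nat_lit 0) (nat_lit 0) (XT.lf (nat_lit 0) (nat_lit 3057149423) (nat_lit 76) (nat_lit 19351677306) (nat_lit 152) (nat_lit 81362752200) (nat_lit 4) (nat_lit 5) (nat_lit 5) (nat_lit 5) (nat_lit 6) (nat_lit 4) (nat_lit 230) (nat_lit 206) (nat_lit 164)) (XT.lf (nat_lit 0) (nat_lit 39131167600) (nat_lit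 76) (nat_lit 628668685) (nat_lit 152) (nat_lit 77923550140) (nat_lit 4) (nat_lit 5) (nat_lit 5) (nat_lit 5) (nat_lit 6) (nat_lit 4) (nat_lit 231) (nat_lit 206) (nat_lit 163))) (XT.nd (nat_lit 78) (nat_lit 76) (nat_lit 0) (XT.lf (nat_lit 0) (nat_lit 60202120298) (nat_lit 152) (nat_lit 53593553630) (nat_lit 0) (nat_lit 19847235146) (nat_lit 4) (nat_lit 5) (nat_lit 6) (nat_lit 4) (nat_lit 4) (nat_lit 4) (nat_lit 232) (nat_lit 206) (nat_lit 162)) (XT.nd (nat_lit 78) (nat_lit 76) (nat_lit 0) (XT.lf (nat_lit 0) (nat_lit 83715882496) (nat_lit 152) (nat_lit 24930358212) (nat_lit 0) (nat_lit 43349738014) (nat_lit 4) (nat_lit 5) (nat_lit 6) (nat_lit 4) (nat_lit 4) (nat_lit 4) (nat_lit 233) (nat_lit 206) (nat_lit 161)) (XT.lf (nat_lit 0) (nat_lit 8435254149) (nat_lit 76) (nat_lit 102513669170) (nat_lit 76) (nat_lit 62137733966) (nat_lit 3) (nat_lit 4) (nat_lit 4) (nat_lit 5) (nat_lit 4) (nat_lit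 4) (nat_lit 234) (nat_lit 206) (nat_lit 160))))))) (XT.nd (nat_lit 702) (nat_lit 0) (nat_lit 0) (XT.nd (nat_lit 312) (nat_lit 152) (nat_lit 0) (XT.nd (nat_lit 156) (nat_lit 0) (nat_lit 0) (XT.nd (nat_lit 78) (nat_lit 0) (nat_lit 0) (XT.lf (nat_lit 0) (nat_lit 48297997798) (nat_lit 76) (nat_lit 94685059988) (nat_lit 76) (nat_lit 54300611113) (nat_lit 3) (nat_lit 4) (nat_lit 4) (nat_lit 5) (nat_lit 4) (nat_lit 4) (nat_lit 235) (nat_lit 206) (nat_lit 159)) (XT.lf (nat_lit 0) (nat_lit 94125007496) (nat_lit 76) (nat_lit 85688884896) (nat_lit 76) (nat_lit 45297032829) (nat_lit 3) (nat_lit 4) (nat_lit 4) (nat_lit 5) (nat_lit 4) (nat_lit 4) (nat_lit 236) (nat_lit 206) (nat_lit 158))) (XT.nd (nat_lit 78) (nat_lit 0) (nat_lit 0) (XT.lf (nat_lit 0) (nat_lit 146812898651) (nat_lit 76) (nat_lit 75349131773) (nat_lit 76) (nat_lit 34950842148) (nat_lit 3) (nat_lit 4) (nat_lit 4) (nat_lit 5) (nat_lit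 4) (nat_lit 4) (nat_lit 237) (nat_lit 206) (nat_lit 157)) (XT.lf (nat_lit 0) (nat_lit 207392521305) (nat_lit 76) (nat_lit 63463501102) (nat_lit 76) (nat_lit 23059613600) (nat_lit 3) (nat_lit 4) (nat_lit 4) (nat_lit 5) (nat_lit 4) (nat_lit 4) (nat_lit 238) (nat_lit 206) (nat_lit 156)))) (XT.nd (nat_lit 156) (nat_lit 76) (nat_lit 0) (XT.nd (nat_lit 78) (nat_lit 76) (nat_lit 0) (XT.lf (nat_lit 0) (nat_lit 277049128947) (nat_lit 76) (nat_lit 49799447934) (nat_lit 76) (nat_lit 9390692713) (nat_lit 3) (nat_lit 4) (nat_lit 4) (nat_lit 5) (nat_lit 4) (nat_lit 4) (nat_lit 239) (nat_lit 206) (nat_lit 155)) (XT.lf (nat_lit 0) (nat_lit 6007036047) (nat_lit 152) (nat_lit 27918353042) (nat_lit 76) (nat_lit 350974289190) (nat_lit 2) (nat_lit 5) (nat_lit 4) (nat_lit 5) (nat_lit 3) (nat_lit 4) (nat_lit 240) (nat_lit 206) (nat_lit 154))) (XT.nd (nat_lit 78) (nat_lit 0) (nat_lit 0) (XT.lf (nat_lit 0) (nat_lit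 8186221778) (nat_lit 76) (nat_lit 15180552497) (nat_lit 152) (nat_lit 417456199059) (nat_lit 1) (nat_lit 5) (nat_lit 2) (nat_lit 5) (nat_lit 3) (nat_lit 4) (nat_lit 241) (nat_lit 206) (nat_lit 153)) (XT.nd (nat_lit 78) (nat_lit 0) (nat_lit 0) (XT.lf (nat_lit 0) (nat_lit 44313750755) (nat_lit 152) (nat_lit 453854411614) (nat_lit 0) (nat_lit 6887945829) (nat_lit 1) (nat_lit 5) (nat_lit 3) (nat_lit 4) (nat_lit 1) (nat_lit 4) (nat_lit 242) (nat_lit 206) (nat_lit 152)) (XT.lf (nat_lit 0) (nat_lit 68819160259) (nat_lit 152) (nat_lit 478680970492) (nat_lit 0) (nat_lit 31390778357) (nat_lit 1) (nat_lit 5) (nat_lit 3) (nat_lit 4) (nat_lit 1) (nat_lit 4) (nat_lit 243) (nat_lit 206) (nat_lit 151)))))) (XT.nd (nat_lit 390) (nat_lit 0) (nat_lit 0) (XT.nd (nat_lit 156) (nat_lit 0) (nat_lit 0) (XT.nd (nat_lit 78) (nat_lit 0) (nat_lit 0) (XT.lf (nat_lit 0) (nat_lit 96997363798) (nat_lit 152) (nat_lit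 507237072561) (nat_lit 0) (nat_lit 59566741048) (nat_lit 1) (nat_lit 5) (nat_lit 3) (nat_lit 4) (nat_lit 1) (nat_lit 4) (nat_lit 244) (nat_lit 206) (nat_lit 150)) (XT.lf (nat_lit 0) (nat_lit 129399674051) (nat_lit 152) (nat_lit 540081424166) (nat_lit 0) (nat_lit 91967102737) (nat_lit 1) (nat_lit 5) (nat_lit 3) (nat_lit 4) (nat_lit 1) (nat_lit 4) (nat_lit 245) (nat_lit 206) (nat_lit 149))) (XT.nd (nat_lit 78) (nat_lit 0) (nat_lit 0) (XT.lf (nat_lit 0) (nat_lit 166660049262) (nat_lit 152) (nat_lit 577856632184) (nat_lit 0) (nat_lit 129225783544) (nat_lit 1) (nat_lit 5) (nat_lit 3) (nat_lit 4) (nat_lit 1) (nat_lit 4) (nat_lit 246) (nat_lit 206) (nat_lit 148)) (XT.nd (nat_lit 78) (nat_lit 0) (nat_lit 0) (XT.lf (nat_lit 0) (nat_lit 209507496772) (nat_lit 152) (nat_lit 621301776774) (nat_lit 0) (nat_lit 172071757659) (nat_lit 1) (nat_lit 5) (nat_lit 3) (nat_lit 4) (nat_lit 1) (nat_lit 4) (nat_lit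 247) (nat_lit 206) (nat_lit 147)) (XT.lf (nat_lit 0) (nat_lit 258780336206) (nat_lit 152) (nat_lit 671266871634) (nat_lit 0) (nat_lit 221343315880) (nat_lit 1) (nat_lit 5) (nat_lit 3) (nat_lit 4) (nat_lit 1) (nat_lit 4) (nat_lit 248) (nat_lit 206) (nat_lit 146))))) (XT.nd (nat_lit 156) (nat_lit 0) (nat_lit 0) (XT.nd (nat_lit 78) (nat_lit 0) (nat_lit 0) (XT.lf (nat_lit 0) (nat_lit 315442601378) (nat_lit 152) (nat_lit 728729494706) (nat_lit 0) (nat_lit 278004466955) (nat_lit 1) (nat_lit 5) (nat_lit 3) (nat_lit 4) (nat_lit 1) (nat_lit 4) (nat_lit 249) (nat_lit 206) (nat_lit 145)) (XT.lf (nat_lit 0) (nat_lit 380602901826) (nat_lit 152) (nat_lit 794813914703) (nat_lit 0) (nat_lit 343163798622) (nat_lit 1) (nat_lit 5) (nat_lit 3) (nat_lit 4) (nat_lit 1) (nat_lit 4) (nat_lit 250) (nat_lit 206) (nat_lit 144))) (XT.nd (nat_lit 78) (nat_lit 0) (nat_lit 0) (XT.lf (nat_lit 0) (nat_lit 455536112992)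 (nat_lit 152) (nat_lit 870813087669) (nat_lit 0) (nat_lit 418096167370) (nat_lit 1) (nat_lit 5) (nat_lit 3) (nat_lit 4) (nat_lit 1) (nat_lit 4) (nat_lit 251) (nat_lit 206) (nat_lit 143)) (XT.nd (nat_lit 78) (nat_lit 0) (nat_lit 0) (XT.lf (nat_lit 0) (nat_lit 541708319443) (nat_lit 152) (nat_lit 958213953943) (nat_lit 0) (nat_lit 504267641284) (nat_lit 1) (nat_lit 5) (nat_lit 3) (nat_lit 4) (nat_lit 1) (nat_lit 4) (nat_lit 252) (nat_lit 206) (nat_lit 142)) (XT.lf (nat_lit 0) (nat_lit 640805499131) (nat_lit 152) (nat_lit 1058726530476) (nat_lit 0) (nat_lit 603364183983) (nat_lit 1) (nat_lit 5) (nat_lit 3) (nat_lit 4) (nat_lit 1) (nat_lit 4) (nat_lit 253) (nat_lit 206) (nat_lit 141))))))))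
noncomputable def xc34 : XT := (XT.nd (nat_lit 28704) (nat_lit 0) (nat_lit 152) (XT.nd (nat_lit 27924) (nat_lit 0) (nat_lit 988) (XT.nd (nat_lit 312) (nat_lit 0) (nat_lit 0) (XT.nd (nat_lit 156) (nat_lit 0) (nat_lit 0) (XT.nd (nat_lit 78) (nat_lit 0) (nat_lit 0) (XT.lf (nat_lit 0) (nat_lit 754766509920) (nat_lit 152) (nat_lit 1174317367677) (nat_lit 0) (nat_lit 717324640868) (nat_lit 1) (nat_lit 5) (nat_lit 3) (nat_lit 4) (nat_lit 1) (nat_lit 4) (nat_lit 254) (nat_lit 206) (nat_lit 140)) (XT.lf (nat_lit 0) (nat_lit 885821023759) (nat_lit 152) (nat_lit 1307248025404) (nat_lit 0) (nat_lit 848378673052) (nat_lit 1) (nat_lit 5) (nat_lit 3) (nat_lit 4) (nat_lit 1) (nat_lit 4) (nat_lit 255) (nat_lit 206) (nat_lit 139))) (XT.nd (nat_lit 78) (nat_lit 0) (nat_lit 0) (XT.lf (nat_lit 0) (nat_lit 1036533150703) (nat_lit 152) (nat_lit 1460119320875) (nat_lit 0) (nat_lit 999090381165) (nat_lit 1) (nat_lit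 5) (nat_lit 3) (nat_lit 4) (nat_lit 1) (nat_lit 4) (nat_lit 256) (nat_lit 206) (nat_lit 138)) (XT.lf (nat_lit 0) (nat_lit 1209851606278) (nat_lit 152) (nat_lit 1635922214217) (nat_lit 0) (nat_lit 1172408472539) (nat_lit 1) (nat_lit 5) (nat_lit 3) (nat_lit 4) (nat_lit 1) (nat_lit 4) (nat_lit 257) (nat_lit 206) (nat_lit 137)))) (XT.nd (nat_lit 27378) (nat_lit 0) (nat_lit 2432) (XT.nd (nat_lit 27300) (nat_lit 0) (nat_lit 2888) (XT.lf (nat_lit 0) (nat_lit 1409167403745) (nat_lit 152) (nat_lit 1838096327257) (nat_lit 0) (nat_lit 1371723953311) (nat_lit 1) (nat_lit 5) (nat_lit 3) (nat_lit 4) (nat_lit 1) (nat_lit 4) (nat_lit 258) (nat_lit 206) (nat_lit 136)) (XT.lf (nat_lit 0) (nat_lit 2413202347) (nat_lit 0) (nat_lit 2413202347) (nat_lit 380) (nat_lit 823209828) (nat_lit 39) (nat_lit 5) (nat_lit 39) (nat_lit 3) (nat_lit 44) (nat_lit 3) (nat_lit 207) (nat_lit 207) (nat_lit 186))) (XT.nd (nat_lit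 78) (nat_lit 456) (nat_lit 0) (XT.lf (nat_lit 76) (nat_lit 2359789889) (nat_lit 0) (nat_lit 8989475644) (nat_lit 456) (nat_lit 713556648) (nat_lit 40) (nat_lit 5) (nat_lit 39) (nat_lit 5) (nat_lit 45) (nat_lit 5) (nat_lit 208) (nat_lit 207) (nat_lit 185)) (XT.nd (nat_lit 78) (nat_lit 0) (nat_lit 76) (XT.lf (nat_lit 0) (nat_lit 513254877) (nat_lit 456) (nat_lit 267052629) (nat_lit 532) (nat_lit 12147193783) (nat_lit 33) (nat_lit 5) (nat_lit 39) (nat_lit 5) (nat_lit 40) (nat_lit 5) (nat_lit 209) (nat_lit 207) (nat_lit 184)) (XT.lf (nat_lit 0) (nat_lit 2230330233) (nat_lit 456) (nat_lit 3101250989) (nat_lit 532) (nat_lit 8561806163) (nat_lit 34) (nat_lit 5) (nat_lit 40) (nat_lit 5) (nat_lit 41) (nat_lit 5) (nat_lit 210) (nat_lit 207) (nat_lit 183)))))) (XT.nd (nat_lit 390) (nat_lit 684) (nat_lit 0) (XT.nd (nat_lit 156) (nat_lit 456) (nat_lit 0) (XT.nd (nat_lit 78) (nat_lit 456) (nat_lit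 0) (XT.lf (nat_lit 0) (nat_lit 4437929508) (nat_lit 456) (nat_lit 6253403303) (nat_lit 76) (nat_lit 4294940703) (nat_lit 35) (nat_lit 5) (nat_lit 41) (nat_lit 5) (nat_lit 36) (nat_lit 5) (nat_lit 211) (nat_lit 207) (nat_lit 182)) (XT.lf (nat_lit 0) (nat_lit 6367701346) (nat_lit 456) (nat_lit 897845063) (nat_lit 532) (nat_lit 8955091698) (nat_lit 29) (nat_lit 5) (nat_lit 35) (nat_lit 5) (nat_lit 36) (nat_lit 5) (nat_lit 212) (nat_lit 207) (nat_lit 181))) (XT.nd (nat_lit 78) (nat_lit 228) (nat_lit 0) (XT.lf (nat_lit 0) (nat_lit 3458931391) (nat_lit 228) (nat_lit 7484922262) (nat_lit 304) (nat_lit 6662750140) (nat_lit 26) (nat_lit 5) (nat_lit 29) (nat_lit 5) (nat_lit 30) (nat_lit 5) (nat_lit 213) (nat_lit 207) (nat_lit 180)) (XT.nd (nat_lit 78) (nat_lit 228) (nat_lit 0) (XT.lf (nat_lit 0) (nat_lit 15494826481) (nat_lit 304) (nat_lit 24259799) (nat_lit 76) (nat_lit 3656200344) (nat_lit 26)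 (nat_lit 5) (nat_lit 30) (nat_lit 5) (nat_lit 27) (nat_lit 5) (nat_lit 214) (nat_lit 207) (nat_lit 179)) (XT.lf (nat_lit 0) (nat_lit 313559117) (nat_lit 228) (nat_lit 4176986950) (nat_lit 76) (nat_lit 16445460567) (nat_lit 23) (nat_lit 5) (nat_lit 26) (nat_lit 5) (nat_lit 24) (nat_lit 5) (nat_lit 215) (nat_lit 207) (nat_lit 178))))) (XT.nd (nat_lit 156) (nat_lit 304) (nat_lit 0) (XT.nd (nat_lit 78) (nat_lit 152) (nat_lit 0) (XT.lf (nat_lit 0) (nat_lit 5164203860) (nat_lit 304) (nat_lit 9539764167) (nat_lit 76) (nat_lit 8211530318) (nat_lit 20) (nat_lit 5) (nat_lit 24) (nat_lit 5) (nat_lit 21) (nat_lit 5) (nat_lit 216) (nat_lit 207) (nat_lit 177)) (XT.lf (nat_lit 0) (nat_lit 8871714079) (nat_lit 152) (nat_lit 2273244348) (nat_lit 228) (nat_lit 14015056218) (nat_lit 18) (nat_lit 5) (nat_lit 20) (nat_lit 5) (nat_lit 21) (nat_lit 5) (nat_lit 217) (nat_lit 207) (nat_lit 176))) (XT.nd (nat_lit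 78) (nat_lit 152) (nat_lit 0) (XT.lf (nat_lit 0) (nat_lit 2666143313) (nat_lit 152) (nat_lit 15940782848) (nat_lit 228) (nat_lit 9087816734) (nat_lit 16) (nat_lit 5) (nat_lit 18) (nat_lit 5) (nat_lit 19) (nat_lit 5) (nat_lit 218) (nat_lit 207) (nat_lit 175)) (XT.nd (nat_lit 78) (nat_lit 152) (nat_lit 0) (XT.lf (nat_lit 0) (nat_lit 25315740859) (nat_lit 152) (nat_lit 2359255967) (nat_lit 228) (nat_lit 2895967199) (nat_lit 16) (nat_lit 5) (nat_lit 18) (nat_lit 5) (nat_lit 19) (nat_lit 5) (nat_lit 219) (nat_lit 207) (nat_lit 174)) (XT.lf (nat_lit 0) (nat_lit 4740682271) (nat_lit 152) (nat_lit 15938714847) (nat_lit 76) (nat_lit 13133088173) (nat_lit 14) (nat_lit 5) (nat_lit 16) (nat_lit 5) (nat_lit 15) (nat_lit 5) (nat_lit 220) (nat_lit 207) (nat_lit 173))))))) (XT.nd (nat_lit 702) (nat_lit 228) (nat_lit 0) (XT.nd (nat_lit 312) (nat_lit 152) (nat_lit 0) (XT.nd (nat_lit 156) (nat_lit 304)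 (nat_lit 0) (XT.nd (nat_lit 78) (nat_lit 0) (nat_lit 0) (XT.lf (nat_lit 0) (nat_lit 7425024037) (nat_lit 152) (nat_lit 6292292817) (nat_lit 228) (nat_lit 23787783213) (nat_lit 12) (nat_lit 5) (nat_lit 14) (nat_lit 5) (nat_lit 15) (nat_lit 5) (nat_lit 221) (nat_lit 207) (nat_lit 172)) (XT.lf (nat_lit 0) (nat_lit 24726833045) (nat_lit 228) (nat_lit 6771566811) (nat_lit 76) (nat_lit 10198435260) (nat_lit 12) (nat_lit 5) (nat_lit 15) (nat_lit 5) (nat_lit 13) (nat_lit 4) (nat_lit 222) (nat_lit 207) (nat_lit 171))) (XT.nd (nat_lit 78) (nat_lit 228) (nat_lit 0) (XT.lf (nat_lit 0) (nat_lit 20852789790) (nat_lit 76) (nat_lit 17178972315) (nat_lit 152) (nat_lit 8434170325) (nat_lit 11) (nat_lit 5) (nat_lit 12) (nat_lit 5) (nat_lit 13) (nat_lit 4) (nat_lit 223) (nat_lit 207) (nat_lit 170)) (XT.lf (nat_lit 0) (nat_lit 1064124720) (nat_lit 152) (nat_lit 447266594) (nat_lit 228) (nat_lit 50420562071)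 (nat_lit 8) (nat_lit 5) (nat_lit 10) (nat_lit 5) (nat_lit 11) (nat_lit 5) (nat_lit 224) (nat_lit 207) (nat_lit 169)))) (XT.nd (nat_lit 156) (nat_lit 76) (nat_lit 0) (XT.nd (nat_lit 78) (nat_lit 76) (nat_lit 0) (XT.lf (nat_lit 0) (nat_lit 13653689203) (nat_lit 228) (nat_lit 25613651927) (nat_lit 76) (nat_lit 18836751490) (nat_lit 8) (nat_lit 5) (nat_lit 11) (nat_lit 5) (nat_lit 9) (nat_lit 4) (nat_lit 225) (nat_lit 207) (nat_lit 168)) (XT.lf (nat_lit 0) (nat_lit 3555142147) (nat_lit 76) (nat_lit 24136610147) (nat_lit 152) (nat_lit 37504420376) (nat_lit 7) (nat_lit 5) (nat_lit 8) (nat_lit 5) (nat_lit 9) (nat_lit 4) (nat_lit 226) (nat_lit 207) (nat_lit 167))) (XT.nd (nat_lit 78) (nat_lit 76) (nat_lit 0) (XT.lf (nat_lit 0) (nat_lit 38614658378) (nat_lit 76) (nat_lit 5945330045) (nat_lit 152) (nat_lit 28734183193) (nat_lit 7) (nat_lit 5) (nat_lit 8) (nat_lit 5) (nat_lit 9) (nat_lit 4) (nat_lit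 227) (nat_lit 207) (nat_lit 166)) (XT.nd (nat_lit 78) (nat_lit 76) (nat_lit 0) (XT.lf (nat_lit 0) (nat_lit 64299820106) (nat_lit 152) (nat_lit 4066168712) (nat_lit 0) (nat_lit 14213628405) (nat_lit 7) (nat_lit 5) (nat_lit 9) (nat_lit 4) (nat_lit 7) (nat_lit 4) (nat_lit 228) (nat_lit 207) (nat_lit 165)) (XT.lf (nat_lit 0) (nat_lit 32576290295) (nat_lit 76) (nat_lit 55355899186) (nat_lit 76) (nat_lit 5251213529) (nat_lit 6) (nat_lit 4) (nat_lit 7) (nat_lit 5) (nat_lit 7) (nat_lit 4) (nat_lit 229) (nat_lit 207) (nat_lit 164)))))) (XT.nd (nat_lit 390) (nat_lit 76) (nat_lit 0) (XT.nd (nat_lit 156) (nat_lit 0) (nat_lit 0) (XT.nd (nat_lit 78) (nat_lit 76) (nat_lit 0) (XT.lf (nat_lit 0) (nat_lit 9351054607) (nat_lit 152) (nat_lit 30670573775) (nat_lit 76) (nat_lit 65328946389) (nat_lit 5) (nat_lit 5) (nat_lit 7) (nat_lit 5) (nat_lit 6) (nat_lit 4) (nat_lit 230) (nat_lit 207) (nat_lit 163)) (XT.lf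 (nat_lit 0) (nat_lit 3777095884) (nat_lit 76) (nat_lit 22142061486) (nat_lit 152) (nat_lit 93405873194) (nat_lit 4) (nat_lit 5) (nat_lit 5) (nat_lit 5) (nat_lit 6) (nat_lit 4) (nat_lit 231) (nat_lit 207) (nat_lit 162))) (XT.nd (nat_lit 78) (nat_lit 0) (nat_lit 0) (XT.lf (nat_lit 0) (nat_lit 45228124521) (nat_lit 76) (nat_lit 625258191) (nat_lit 152) (nat_lit 89471828891) (nat_lit 4) (nat_lit 5) (nat_lit 5) (nat_lit 5) (nat_lit 6) (nat_lit 4) (nat_lit 232) (nat_lit 207) (nat_lit 161)) (XT.nd (nat_lit 78) (nat_lit 0) (nat_lit 0) (XT.lf (nat_lit 0) (nat_lit 69347152195) (nat_lit 152) (nat_lit 61427704396) (nat_lit 0) (nat_lit 22905035989) (nat_lit 4) (nat_lit 5) (nat_lit 6) (nat_lit 4) (nat_lit 4) (nat_lit 4) (nat_lit 233) (nat_lit 207) (nat_lit 160)) (XT.lf (nat_lit 0) (nat_lit 96373016047) (nat_lit 152) (nat_lit 28491753441) (nat_lit 0) (nat_lit 49922386170) (nat_lit 4) (nat_lit 5) (nat_lit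 6) (nat_lit 4) (nat_lit 4) (nat_lit 4) (nat_lit 234) (nat_lit 207) (nat_lit 159))))) (XT.nd (nat_lit 156) (nat_lit 0) (nat_lit 0) (XT.nd (nat_lit 78) (nat_lit 0) (nat_lit 0) (XT.lf (nat_lit 0) (nat_lit 9863620545) (nat_lit 76) (nat_lit 117818303462) (nat_lit 76) (nat_lit 71360270393) (nat_lit 3) (nat_lit 4) (nat_lit 4) (nat_lit 5) (nat_lit 4) (nat_lit 4) (nat_lit 235) (nat_lit 207) (nat_lit 158)) (XT.lf (nat_lit 0) (nat_lit 55684504662) (nat_lit 76) (nat_lit 108824848478) (nat_lit 76) (nat_lit 62360377851) (nat_lit 3) (nat_lit 4) (nat_lit 4) (nat_lit 5) (nat_lit 4) (nat_lit 4) (nat_lit 236) (nat_lit 207) (nat_lit 157))) (XT.nd (nat_lit 78) (nat_lit 0) (nat_lit 0) (XT.lf (nat_lit 0) (nat_lit 108367069224) (nat_lit 76) (nat_lit 98487460667) (nat_lit 76) (nat_lit 52017392163) (nat_lit 3) (nat_lit 4) (nat_lit 4) (nat_lit 5) (nat_lit 4) (nat_lit 4) (nat_lit 237) (nat_lit 207) (nat_lit 156))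 (XT.nd (nat_lit 78) (nat_lit 0) (nat_lit 0) (XT.lf (nat_lit 0) (nat_lit 168942060060) (nat_lit 76) (nat_lit 86603886789) (nat_lit 76) (nat_lit 40128950565) (nat_lit 3) (nat_lit 4) (nat_lit 4) (nat_lit 5) (nat_lit 4) (nat_lit 4) (nat_lit 238) (nat_lit 207) (nat_lit 155)) (XT.lf (nat_lit 0) (nat_lit 238594640033) (nat_lit 76) (nat_lit 72941622137) (nat_lit 76) (nat_lit 26462453114) (nat_lit 3) (nat_lit 4) (nat_lit 4) (nat_lit 5) (nat_lit 4) (nat_lit 4) (nat_lit 239) (nat_lit 207) (nat_lit 154))))))))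
noncomputable def xc35 : XT := (XT.nd (nat_lit 28782) (nat_lit 0) (nat_lit 532) (XT.nd (nat_lit 702) (nat_lit 0) (nat_lit 0) (XT.nd (nat_lit 312) (nat_lit 0) (nat_lit 0) (XT.nd (nat_lit 156) (nat_lit 76) (nat_lit 0) (XT.nd (nat_lit 78) (nat_lit 76) (nat_lit 0) (XT.lf (nat_lit 0) (nat_lit 318687577013) (nat_lit 76) (nat_lit 57233361533) (nat_lit 76) (nat_lit 10750511815) (nat_lit 3) (nat_lit 4) (nat_lit 4) (nat_lit 5) (nat_lit 4) (nat_lit 4) (nat_lit 240) (nat_lit 207) (nat_lit 153)) (XT.lf (nat_lit 0) (nat_lit 6948390925) (nat_lit 152) (nat_lit 32033397197) (nat_lit 76) (nat_lit 403649534476) (nat_lit 2) (nat_lit 5) (nat_lit 4) (nat_lit 5) (nat_lit 3) (nat_lit 4) (nat_lit 241) (nat_lit 207) (nat_lit 152))) (XT.nd (nat_lit 78) (nat_lit 0) (nat_lit 0) (XT.lf (nat_lit 0) (nat_lit 9480709408) (nat_lit 76) (nat_lit 17427724661) (nat_lit 152) (nat_lit 480034981195) (nat_lit 1) (nat_lit 5) (nat_lit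 2) (nat_lit 5) (nat_lit 3) (nat_lit 4) (nat_lit 242) (nat_lit 207) (nat_lit 151)) (XT.lf (nat_lit 0) (nat_lit 50993302938) (nat_lit 152) (nat_lit 521872713286) (nat_lit 0) (nat_lit 7945845927) (nat_lit 1) (nat_lit 5) (nat_lit 3) (nat_lit 4) (nat_lit 1) (nat_lit 4) (nat_lit 243) (nat_lit 207) (nat_lit 150)))) (XT.nd (nat_lit 156) (nat_lit 0) (nat_lit 0) (XT.nd (nat_lit 78) (nat_lit 0) (nat_lit 0) (XT.lf (nat_lit 0) (nat_lit 79170286098) (nat_lit 152) (nat_lit 550431063831) (nat_lit 0) (nat_lit 36120880522) (nat_lit 1) (nat_lit 5) (nat_lit 3) (nat_lit 4) (nat_lit 1) (nat_lit 4) (nat_lit 244) (nat_lit 207) (nat_lit 149)) (XT.lf (nat_lit 0) (nat_lit 111571535151) (nat_lit 152) (nat_lit 583277370633) (nat_lit 0) (nat_lit 68520435171) (nat_lit 1) (nat_lit 5) (nat_lit 3) (nat_lit 4) (nat_lit 1) (nat_lit 4) (nat_lit 245) (nat_lit 207) (nat_lit 148))) (XT.nd (nat_lit 78) (nat_lit 0) (nat_lit 0)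 (XT.lf (nat_lit 0) (nat_lit 148830987579) (nat_lit 152) (nat_lit 621054278823) (nat_lit 0) (nat_lit 105778414205) (nat_lit 1) (nat_lit 5) (nat_lit 3) (nat_lit 4) (nat_lit 1) (nat_lit 4) (nat_lit 246) (nat_lit 207) (nat_lit 147)) (XT.nd (nat_lit 78) (nat_lit 0) (nat_lit 0) (XT.lf (nat_lit 0) (nat_lit 191677632669) (nat_lit 152) (nat_lit 664500901822) (nat_lit 0) (nat_lit 148623778082) (nat_lit 1) (nat_lit 5) (nat_lit 3) (nat_lit 4) (nat_lit 1) (nat_lit 4) (nat_lit 247) (nat_lit 207) (nat_lit 146)) (XT.lf (nat_lit 0) (nat_lit 240949774346) (nat_lit 152) (nat_lit 714467282256) (nat_lit 0) (nat_lit 197894805662) (nat_lit 1) (nat_lit 5) (nat_lit 3) (nat_lit 4) (nat_lit 1) (nat_lit 4) (nat_lit 248) (nat_lit 207) (nat_lit 145)))))) (XT.nd (nat_lit 390) (nat_lit 0) (nat_lit 0) (XT.nd (nat_lit 156) (nat_lit 0) (nat_lit 0) (XT.nd (nat_lit 78) (nat_lit 0) (nat_lit 0) (XT.lf (nat_lit 0) (nat_lit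 297611432774) (nat_lit 152) (nat_lit 771931023219) (nat_lit 0) (nat_lit 254555495309) (nat_lit 1) (nat_lit 5) (nat_lit 3) (nat_lit 4) (nat_lit 1) (nat_lit 4) (nat_lit 249) (nat_lit 207) (nat_lit 144)) (XT.lf (nat_lit 0) (nat_lit 362771205618) (nat_lit 152) (nat_lit 838016415294) (nat_lit 0) (nat_lit 319714425735) (nat_lit 1) (nat_lit 5) (nat_lit 3) (nat_lit 4) (nat_lit 1) (nat_lit 4) (nat_lit 250) (nat_lit 207) (nat_lit 143))) (XT.nd (nat_lit 78) (nat_lit 0) (nat_lit 0) (XT.lf (nat_lit 0) (nat_lit 437703957998) (nat_lit 152) (nat_lit 914016433546) (nat_lit 0) (nat_lit 394646445577) (nat_lit 1) (nat_lit 5) (nat_lit 3) (nat_lit 4) (nat_lit 1) (nat_lit 4) (nat_lit 251) (nat_lit 207) (nat_lit 142)) (XT.nd (nat_lit 78) (nat_lit 0) (nat_lit 0) (XT.lf (nat_lit 0) (nat_lit 523875765504) (nat_lit 152) (nat_lit 1001418034851) (nat_lit 0) (nat_lit 480817616095) (nat_lit 1) (nat_lit 5) (nat_lit 3)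 (nat_lit 4) (nat_lit 1) (nat_lit 4) (nat_lit 252) (nat_lit 207) (nat_lit 141)) (XT.lf (nat_lit 0) (nat_lit 622972598284) (nat_lit 152) (nat_lit 1101931250541) (nat_lit 0) (nat_lit 579913894971) (nat_lit 1) (nat_lit 5) (nat_lit 3) (nat_lit 4) (nat_lit 1) (nat_lit 4) (nat_lit 253) (nat_lit 207) (nat_lit 140))))) (XT.nd (nat_lit 156) (nat_lit 0) (nat_lit 0) (XT.nd (nat_lit 78) (nat_lit 0) (nat_lit 0) (XT.lf (nat_lit 0) (nat_lit 736933307414) (nat_lit 152) (nat_lit 1217522643531) (nat_lit 0) (nat_lit 693874122445) (nat_lit 1) (nat_lit 5) (nat_lit 3) (nat_lit 4) (nat_lit 1) (nat_lit 4) (nat_lit 254) (nat_lit 207) (nat_lit 139)) (XT.lf (nat_lit 0) (nat_lit 867987558941) (nat_lit 152) (nat_lit 1350453784553) (nat_lit 0) (nat_lit 824927955141) (nat_lit 1) (nat_lit 5) (nat_lit 3) (nat_lit 4) (nat_lit 1) (nat_lit 4) (nat_lit 255) (nat_lit 207) (nat_lit 138))) (XT.nd (nat_lit 78) (nat_lit 0) (nat_lit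 0) (XT.lf (nat_lit 0) (nat_lit 1018699457787) (nat_lit 152) (nat_lit 1503325500280) (nat_lit 0) (nat_lit 975639489787) (nat_lit 1) (nat_lit 5) (nat_lit 3) (nat_lit 4) (nat_lit 1) (nat_lit 4) (nat_lit 256) (nat_lit 207) (nat_lit 137)) (XT.nd (nat_lit 78) (nat_lit 0) (nat_lit 0) (XT.lf (nat_lit 0) (nat_lit 1192017715016) (nat_lit 152) (nat_lit 1679128759062) (nat_lit 0) (nat_lit 1148957430320) (nat_lit 1) (nat_lit 5) (nat_lit 3) (nat_lit 4) (nat_lit 1) (nat_lit 4) (nat_lit 257) (nat_lit 207) (nat_lit 136)) (XT.lf (nat_lit 0) (nat_lit 1391333340008) (nat_lit 152) (nat_lit 1881303189877) (nat_lit 0) (nat_lit 1348272779925) (nat_lit 1) (nat_lit 5) (nat_lit 3) (nat_lit 4) (nat_lit 1) (nat_lit 4) (nat_lit 258) (nat_lit 207) (nat_lit 135))))))) (XT.nd (nat_lit 702) (nat_lit 1140) (nat_lit 0) (XT.nd (nat_lit 312) (nat_lit 760) (nat_lit 0) (XT.nd (nat_lit 156) (nat_lit 0) (nat_lit 0) (XT.nd (nat_lit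 78) (nat_lit 456) (nat_lit 0) (XT.lf (nat_lit 0) (nat_lit 3177490866) (nat_lit 0) (nat_lit 3177490866) (nat_lit 380) (nat_lit 71906747) (nat_lit 39) (nat_lit 5) (nat_lit 39) (nat_lit 3) (nat_lit 44) (nat_lit 3) (nat_lit 208) (nat_lit 208) (nat_lit 184)) (XT.lf (nat_lit 0) (nat_lit 670234542) (nat_lit 456) (nat_lit 10170390984) (nat_lit 532) (nat_lit 2907878734) (nat_lit 33) (nat_lit 5) (nat_lit 39) (nat_lit 5) (nat_lit 40) (nat_lit 5) (nat_lit 209) (nat_lit 208) (nat_lit 183))) (XT.nd (nat_lit 78) (nat_lit 0) (nat_lit 76) (XT.lf (nat_lit 76) (nat_lit 563111590) (nat_lit 0) (nat_lit 1301348667) (nat_lit 532) (nat_lit 12892108828) (nat_lit 34) (nat_lit 5) (nat_lit 33) (nat_lit 5) (nat_lit 40) (nat_lit 5) (nat_lit 210) (nat_lit 208) (nat_lit 182)) (XT.lf (nat_lit 0) (nat_lit 3671382338) (nat_lit 456) (nat_lit 2691145118) (nat_lit 532) (nat_lit 9519286940) (nat_lit 34) (nat_lit 5) (nat_lit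 40) (nat_lit 5) (nat_lit 41) (nat_lit 5) (nat_lit 211) (nat_lit 208) (nat_lit 181)))) (XT.nd (nat_lit 156) (nat_lit 456) (nat_lit 0) (XT.nd (nat_lit 78) (nat_lit 456) (nat_lit 0) (XT.lf (nat_lit 0) (nat_lit 6080729268) (nat_lit 456) (nat_lit 6301219203) (nat_lit 76) (nat_lit 4767957338) (nat_lit 35) (nat_lit 5) (nat_lit 41) (nat_lit 5) (nat_lit 36) (nat_lit 5) (nat_lit 212) (nat_lit 208) (nat_lit 180)) (XT.lf (nat_lit 0) (nat_lit 8137700605) (nat_lit 456) (nat_lit 1086935944) (nat_lit 532) (nat_lit 9354217571) (nat_lit 29) (nat_lit 5) (nat_lit 35) (nat_lit 5) (nat_lit 36) (nat_lit 5) (nat_lit 213) (nat_lit 208) (nat_lit 179))) (XT.nd (nat_lit 78) (nat_lit 228) (nat_lit 0) (XT.lf (nat_lit 0) (nat_lit 4793382064) (nat_lit 228) (nat_lit 8566403811) (nat_lit 304) (nat_lit 6821217502) (nat_lit 26) (nat_lit 5) (nat_lit 29) (nat_lit 5) (nat_lit 30) (nat_lit 5) (nat_lit 214) (nat_lit 208) (nat_lit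 178)) (XT.nd (nat_lit 78) (nat_lit 76) (nat_lit 0) (XT.lf (nat_lit 0) (nat_lit 777251839) (nat_lit 152) (nat_lit 17734705800) (nat_lit 228) (nat_lit 3480152316) (nat_lit 24) (nat_lit 5) (nat_lit 26) (nat_lit 5) (nat_lit 27) (nat_lit 5) (nat_lit 215) (nat_lit 208) (nat_lit 177)) (XT.lf (nat_lit 0) (nat_lit 982736077) (nat_lit 228) (nat_lit 4066115124) (nat_lit 76) (nat_lit 18974534507) (nat_lit 23) (nat_lit 5) (nat_lit 26) (nat_lit 5) (nat_lit 24) (nat_lit 5) (nat_lit 216) (nat_lit 208) (nat_lit 176)))))) (XT.nd (nat_lit 390) (nat_lit 456) (nat_lit 0) (XT.nd (nat_lit 156) (nat_lit 304) (nat_lit 0) (XT.nd (nat_lit 78) (nat_lit 152) (nat_lit 0) (XT.lf (nat_lit 0) (nat_lit 6498894669) (nat_lit 304) (nat_lit 10251155569) (nat_lit 76) (nat_lit 9555141542) (nat_lit 20) (nat_lit 5) (nat_lit 24) (nat_lit 5) (nat_lit 21) (nat_lit 5) (nat_lit 217) (nat_lit 208) (nat_lit 175)) (XT.lf (nat_lit 0)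 (nat_lit 10861136124) (nat_lit 152) (nat_lit 2458415870) (nat_lit 228) (nat_lit 15571779038) (nat_lit 18) (nat_lit 5) (nat_lit 20) (nat_lit 5) (nat_lit 21) (nat_lit 5) (nat_lit 218) (nat_lit 208) (nat_lit 174))) (XT.nd (nat_lit 78) (nat_lit 152) (nat_lit 0) (XT.lf (nat_lit 0) (nat_lit 3704619543) (nat_lit 152) (nat_lit 18149222069) (nat_lit 228) (nat_lit 9956505356) (nat_lit 16) (nat_lit 5) (nat_lit 18) (nat_lit 5) (nat_lit 19) (nat_lit 5) (nat_lit 219) (nat_lit 208) (nat_lit 173)) (XT.nd (nat_lit 78) (nat_lit 152) (nat_lit 0) (XT.lf (nat_lit 0) (nat_lit 29668366973) (nat_lit 152) (nat_lit 2554293748) (nat_lit 228) (nat_lit 2900376289) (nat_lit 16) (nat_lit 5) (nat_lit 18) (nat_lit 5) (nat_lit 19) (nat_lit 5) (nat_lit 220) (nat_lit 208) (nat_lit 172)) (XT.lf (nat_lit 0) (nat_lit 5823603018) (nat_lit 152) (nat_lit 17772948893) (nat_lit 76) (nat_lit 15256564350) (nat_lit 14) (nat_lit 5)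 (nat_lit 16) (nat_lit 5) (nat_lit 15) (nat_lit 5) (nat_lit 221) (nat_lit 208) (nat_lit 171))))) (XT.nd (nat_lit 156) (nat_lit 304) (nat_lit 0) (XT.nd (nat_lit 78) (nat_lit 0) (nat_lit 0) (XT.lf (nat_lit 0) (nat_lit 9048239676) (nat_lit 152) (nat_lit 7062247633) (nat_lit 228) (nat_lit 26992230759) (nat_lit 12) (nat_lit 5) (nat_lit 14) (nat_lit 5) (nat_lit 15) (nat_lit 5) (nat_lit 222) (nat_lit 208) (nat_lit 170)) (XT.lf (nat_lit 0) (nat_lit 28731297101) (nat_lit 228) (nat_lit 7323452262) (nat_lit 76) (nat_lit 11871844435) (nat_lit 12) (nat_lit 5) (nat_lit 15) (nat_lit 5) (nat_lit 13) (nat_lit 4) (nat_lit 223) (nat_lit 208) (nat_lit 169))) (XT.nd (nat_lit 78) (nat_lit 228) (nat_lit 0) (XT.lf (nat_lit 0) (nat_lit 24405295273) (nat_lit 76) (nat_lit 19598346041) (nat_lit 152) (nat_lit 9409827914) (nat_lit 11) (nat_lit 5) (nat_lit 12) (nat_lit 5) (nat_lit 13) (nat_lit 4) (nat_lit 224) (nat_lit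 208) (nat_lit 168)) (XT.nd (nat_lit 78) (nat_lit 0) (nat_lit 0) (XT.lf (nat_lit 0) (nat_lit 1626479821) (nat_lit 152) (nat_lit 360425662) (nat_lit 228) (nat_lit 57714144301) (nat_lit 8) (nat_lit 5) (nat_lit 10) (nat_lit 5) (nat_lit 11) (nat_lit 5) (nat_lit 225) (nat_lit 208) (nat_lit 167)) (XT.lf (nat_lit 0) (nat_lit 15921314335) (nat_lit 228) (nat_lit 29090716275) (nat_lit 76) (nat_lit 21789421320) (nat_lit 8) (nat_lit 5) (nat_lit 11) (nat_lit 5) (nat_lit 9) (nat_lit 4) (nat_lit 226) (nat_lit 208) (nat_lit 166))))))))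
noncomputable def xc36 : XT := (XT.nd (nat_lit 1404) (nat_lit 0) (nat_lit 0) (XT.nd (nat_lit 702) (nat_lit 228) (nat_lit 0) (XT.nd (nat_lit 312) (nat_lit 152) (nat_lit 0) (XT.nd (nat_lit 156) (nat_lit 76) (nat_lit 0) (XT.nd (nat_lit 78) (nat_lit 0) (nat_lit 0) (XT.lf (nat_lit 0) (nat_lit 4422502881) (nat_lit 76) (nat_lit 27621979074) (nat_lit 152) (nat_lit 42914600276) (nat_lit 7) (nat_lit 5) (nat_lit 8) (nat_lit 5) (nat_lit 9) (nat_lit 4) (nat_lit 227) (nat_lit 208) (nat_lit 165)) (XT.lf (nat_lit 0) (nat_lit 44697369666) (nat_lit 76) (nat_lit 6719631643) (nat_lit 152) (nat_lit 32856934014) (nat_lit 7) (nat_lit 5) (nat_lit 8) (nat_lit 5) (nat_lit 9) (nat_lit 4) (nat_lit 228) (nat_lit 208) (nat_lit 164))) (XT.nd (nat_lit 78) (nat_lit 76) (nat_lit 0) (XT.lf (nat_lit 0) (nat_lit 74097697861) (nat_lit 152) (nat_lit 4413442942) (nat_lit 0) (nat_lit 16442733698) (nat_lit 7) (nat_lit 5) (nat_lit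 9) (nat_lit 4) (nat_lit 7) (nat_lit 4) (nat_lit 229) (nat_lit 208) (nat_lit 163)) (XT.lf (nat_lit 0) (nat_lit 37703152811) (nat_lit 76) (nat_lit 63557607818) (nat_lit 76) (nat_lit 5888659567) (nat_lit 6) (nat_lit 4) (nat_lit 7) (nat_lit 5) (nat_lit 7) (nat_lit 4) (nat_lit 230) (nat_lit 208) (nat_lit 162)))) (XT.nd (nat_lit 156) (nat_lit 0) (nat_lit 0) (XT.nd (nat_lit 78) (nat_lit 76) (nat_lit 0) (XT.lf (nat_lit 0) (nat_lit 10877817649) (nat_lit 152) (nat_lit 35055247616) (nat_lit 76) (nat_lit 75209850225) (nat_lit 5) (nat_lit 5) (nat_lit 7) (nat_lit 5) (nat_lit 6) (nat_lit 4) (nat_lit 231) (nat_lit 208) (nat_lit 161)) (XT.lf (nat_lit 0) (nat_lit 4541296597) (nat_lit 76) (nat_lit 25378404798) (nat_lit 152) (nat_lit 107294794373) (nat_lit 4) (nat_lit 5) (nat_lit 5) (nat_lit 5) (nat_lit 6) (nat_lit 4) (nat_lit 232) (nat_lit 208) (nat_lit 160))) (XT.nd (nat_lit 78) (nat_lit 0) (nat_lit 0)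 (XT.lf (nat_lit 0) (nat_lit 52184200878) (nat_lit 76) (nat_lit 645163520) (nat_lit 152) (nat_lit 102786551224) (nat_lit 4) (nat_lit 5) (nat_lit 5) (nat_lit 5) (nat_lit 6) (nat_lit 4) (nat_lit 233) (nat_lit 208) (nat_lit 159)) (XT.nd (nat_lit 78) (nat_lit 0) (nat_lit 0) (XT.lf (nat_lit 0) (nat_lit 79835965178) (nat_lit 152) (nat_lit 70486939618) (nat_lit 0) (nat_lit 26401823956) (nat_lit 4) (nat_lit 5) (nat_lit 6) (nat_lit 4) (nat_lit 4) (nat_lit 4) (nat_lit 234) (nat_lit 208) (nat_lit 158)) (XT.lf (nat_lit 0) (nat_lit 110904394674) (nat_lit 152) (nat_lit 32630803033) (nat_lit 0) (nat_lit 57463815894) (nat_lit 4) (nat_lit 5) (nat_lit 6) (nat_lit 4) (nat_lit 4) (nat_lit 4) (nat_lit 235) (nat_lit 208) (nat_lit 157)))))) (XT.nd (nat_lit 312) (nat_lit 152) (nat_lit 0) (XT.nd (nat_lit 156) (nat_lit 0) (nat_lit 0) (XT.nd (nat_lit 78) (nat_lit 0) (nat_lit 0) (XT.lf (nat_lit 0) (nat_lit 11466474230)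 (nat_lit 76) (nat_lit 135436292018) (nat_lit 76) (nat_lit 81990115361) (nat_lit 3) (nat_lit 4) (nat_lit 4) (nat_lit 5) (nat_lit 4) (nat_lit 4) (nat_lit 236) (nat_lit 208) (nat_lit 156)) (XT.lf (nat_lit 0) (nat_lit 64144406973) (nat_lit 76) (nat_lit 125100960999) (nat_lit 76) (nat_lit 71649916623) (nat_lit 3) (nat_lit 4) (nat_lit 4) (nat_lit 5) (nat_lit 4) (nat_lit 4) (nat_lit 237) (nat_lit 208) (nat_lit 155))) (XT.nd (nat_lit 78) (nat_lit 0) (nat_lit 0) (XT.lf (nat_lit 0) (nat_lit 124715370140) (nat_lit 76) (nat_lit 113219175636) (nat_lit 76) (nat_lit 59763898461) (nat_lit 3) (nat_lit 4) (nat_lit 4) (nat_lit 5) (nat_lit 4) (nat_lit 4) (nat_lit 238) (nat_lit 208) (nat_lit 154)) (XT.lf (nat_lit 0) (nat_lit 194364447793) (nat_lit 76) (nat_lit 99558466215) (nat_lit 76) (nat_lit 46099508345) (nat_lit 3) (nat_lit 4) (nat_lit 4) (nat_lit 5) (nat_lit 4) (nat_lit 4) (nat_lit 239) (nat_lit 208)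 (nat_lit 153)))) (XT.nd (nat_lit 156) (nat_lit 152) (nat_lit 0) (XT.nd (nat_lit 78) (nat_lit 0) (nat_lit 0) (XT.lf (nat_lit 0) (nat_lit 274454339276) (nat_lit 76) (nat_lit 83851557986) (nat_lit 76) (nat_lit 30389399511) (nat_lit 3) (nat_lit 4) (nat_lit 4) (nat_lit 5) (nat_lit 4) (nat_lit 4) (nat_lit 240) (nat_lit 208) (nat_lit 152)) (XT.lf (nat_lit 0) (nat_lit 366552020728) (nat_lit 76) (nat_lit 65791141875) (nat_lit 76) (nat_lit 12326200266) (nat_lit 3) (nat_lit 4) (nat_lit 4) (nat_lit 5) (nat_lit 4) (nat_lit 4) (nat_lit 241) (nat_lit 208) (nat_lit 151))) (XT.nd (nat_lit 78) (nat_lit 76) (nat_lit 0) (XT.lf (nat_lit 0) (nat_lit 8021121753) (nat_lit 152) (nat_lit 36783428477) (nat_lit 76) (nat_lit 464218969871) (nat_lit 2) (nat_lit 5) (nat_lit 4) (nat_lit 5) (nat_lit 3) (nat_lit 4) (nat_lit 242) (nat_lit 208) (nat_lit 150)) (XT.nd (nat_lit 78) (nat_lit 0) (nat_lit 0) (XT.lf (nat_lit 0)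 (nat_lit 10953140480) (nat_lit 76) (nat_lit 20019266565) (nat_lit 152) (nat_lit 552010249000) (nat_lit 1) (nat_lit 5) (nat_lit 2) (nat_lit 5) (nat_lit 3) (nat_lit 4) (nat_lit 243) (nat_lit 208) (nat_lit 149)) (XT.lf (nat_lit 0) (nat_lit 58666865162) (nat_lit 152) (nat_lit 600108357466) (nat_lit 0) (nat_lit 9156405782) (nat_lit 1) (nat_lit 5) (nat_lit 3) (nat_lit 4) (nat_lit 1) (nat_lit 4) (nat_lit 244) (nat_lit 208) (nat_lit 148))))))) (XT.nd (nat_lit 702) (nat_lit 0) (nat_lit 0) (XT.nd (nat_lit 312) (nat_lit 0) (nat_lit 0) (XT.nd (nat_lit 156) (nat_lit 0) (nat_lit 0) (XT.nd (nat_lit 78) (nat_lit 0) (nat_lit 0) (XT.lf (nat_lit 0) (nat_lit 91067191432) (nat_lit 152) (nat_lit 632956364439) (nat_lit 0) (nat_lit 41555258658) (nat_lit 1) (nat_lit 5) (nat_lit 3) (nat_lit 4) (nat_lit 1) (nat_lit 4) (nat_lit 245) (nat_lit 208) (nat_lit 147)) (XT.lf (nat_lit 0) (nat_lit 128325841441) (nat_lit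 152) (nat_lit 670734751038) (nat_lit 0) (nat_lit 78812627454) (nat_lit 1) (nat_lit 5) (nat_lit 3) (nat_lit 4) (nat_lit 1) (nat_lit 4) (nat_lit 246) (nat_lit 208) (nat_lit 146))) (XT.nd (nat_lit 78) (nat_lit 0) (nat_lit 0) (XT.lf (nat_lit 0) (nat_lit 171171788774) (nat_lit 152) (nat_lit 714182659612) (nat_lit 0) (nat_lit 121657460689) (nat_lit 1) (nat_lit 5) (nat_lit 3) (nat_lit 4) (nat_lit 1) (nat_lit 4) (nat_lit 247) (nat_lit 208) (nat_lit 145)) (XT.lf (nat_lit 0) (nat_lit 220443323707) (nat_lit 152) (nat_lit 764150157936) (nat_lit 0) (nat_lit 170928026841) (nat_lit 1) (nat_lit 5) (nat_lit 3) (nat_lit 4) (nat_lit 1) (nat_lit 4) (nat_lit 248) (nat_lit 208) (nat_lit 144)))) (XT.nd (nat_lit 156) (nat_lit 0) (nat_lit 0) (XT.nd (nat_lit 78) (nat_lit 0) (nat_lit 0) (XT.lf (nat_lit 0) (nat_lit 277104454531) (nat_lit 152) (nat_lit 821614870977) (nat_lit 0) (nat_lit 227588315247) (nat_lit 1)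 (nat_lit 5) (nat_lit 3) (nat_lit 4) (nat_lit 1) (nat_lit 4) (nat_lit 249) (nat_lit 208) (nat_lit 143)) (XT.lf (nat_lit 0) (nat_lit 342263768589) (nat_lit 152) (nat_lit 887701108338) (nat_lit 0) (nat_lit 292746896767) (nat_lit 1) (nat_lit 5) (nat_lit 3) (nat_lit 4) (nat_lit 1) (nat_lit 4) (nat_lit 250) (nat_lit 208) (nat_lit 142))) (XT.nd (nat_lit 78) (nat_lit 0) (nat_lit 0) (XT.lf (nat_lit 0) (nat_lit 417196122024) (nat_lit 152) (nat_lit 963701861621) (nat_lit 0) (nat_lit 367678613214) (nat_lit 1) (nat_lit 5) (nat_lit 3) (nat_lit 4) (nat_lit 1) (nat_lit 4) (nat_lit 251) (nat_lit 208) (nat_lit 141)) (XT.nd (nat_lit 78) (nat_lit 0) (nat_lit 0) (XT.lf (nat_lit 0) (nat_lit 503367582623) (nat_lit 152) (nat_lit 1051104102084) (nat_lit 0) (nat_lit 453849519909) (nat_lit 1) (nat_lit 5) (nat_lit 3) (nat_lit 4) (nat_lit 1) (nat_lit 4) (nat_lit 252) (nat_lit 208) (nat_lit 140)) (XT.lf (nat_lit 0)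 (nat_lit 602464113743) (nat_lit 152) (nat_lit 1151617873563) (nat_lit 0) (nat_lit 552945569374) (nat_lit 1) (nat_lit 5) (nat_lit 3) (nat_lit 4) (nat_lit 1) (nat_lit 4) (nat_lit 253) (nat_lit 208) (nat_lit 139)))))) (XT.nd (nat_lit 27768) (nat_lit 0) (nat_lit 2356) (XT.nd (nat_lit 156) (nat_lit 0) (nat_lit 0) (XT.nd (nat_lit 78) (nat_lit 0) (nat_lit 0) (XT.lf (nat_lit 0) (nat_lit 716424560560) (nat_lit 152) (nat_lit 1267209749847) (nat_lit 0) (nat_lit 666905597360) (nat_lit 1) (nat_lit 5) (nat_lit 3) (nat_lit 4) (nat_lit 1) (nat_lit 4) (nat_lit 254) (nat_lit 208) (nat_lit 138)) (XT.lf (nat_lit 0) (nat_lit 847478583989) (nat_lit 152) (nat_lit 1400141311126) (nat_lit 0) (nat_lit 797959256589) (nat_lit 1) (nat_lit 5) (nat_lit 3) (nat_lit 4) (nat_lit 1) (nat_lit 4) (nat_lit 255) (nat_lit 208) (nat_lit 137))) (XT.nd (nat_lit 78) (nat_lit 0) (nat_lit 0) (XT.lf (nat_lit 0) (nat_lit 998190284489)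 (nat_lit 152) (nat_lit 1553013392293) (nat_lit 0) (nat_lit 948670640393) (nat_lit 1) (nat_lit 5) (nat_lit 3) (nat_lit 4) (nat_lit 1) (nat_lit 4) (nat_lit 256) (nat_lit 208) (nat_lit 136)) (XT.nd (nat_lit 78) (nat_lit 0) (nat_lit 0) (XT.lf (nat_lit 0) (nat_lit 1171508369244) (nat_lit 152) (nat_lit 1728816968850) (nat_lit 0) (nat_lit 1121988449759) (nat_lit 1) (nat_lit 5) (nat_lit 3) (nat_lit 4) (nat_lit 1) (nat_lit 4) (nat_lit 257) (nat_lit 208) (nat_lit 135)) (XT.lf (nat_lit 0) (nat_lit 1370823844258) (nat_lit 152) (nat_lit 1930991675989) (nat_lit 0) (nat_lit 1321303685306) (nat_lit 1) (nat_lit 5) (nat_lit 3) (nat_lit 4) (nat_lit 1) (nat_lit 4) (nat_lit 258) (nat_lit 208) (nat_lit 134))))) (XT.nd (nat_lit 156) (nat_lit 0) (nat_lit 76) (XT.nd (nat_lit 78) (nat_lit 0) (nat_lit 76) (XT.lf (nat_lit 0) (nat_lit 549817620) (nat_lit 532) (nat_lit 3393466659) (nat_lit 532) (nat_lit 3393466659)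 (nat_lit 32) (nat_lit 3) (nat_lit 39) (nat_lit 3) (nat_lit 39) (nat_lit 5) (nat_lit 209) (nat_lit 209) (nat_lit 182)) (XT.lf (nat_lit 0) (nat_lit 1867008247) (nat_lit 456) (nat_lit 10963729639) (nat_lit 532) (nat_lit 2885282040) (nat_lit 33) (nat_lit 5) (nat_lit 39) (nat_lit 5) (nat_lit 40) (nat_lit 5) (nat_lit 210) (nat_lit 209) (nat_lit 181))) (XT.nd (nat_lit 78) (nat_lit 0) (nat_lit 76) (XT.lf (nat_lit 76) (nat_lit 1317819546) (nat_lit 0) (nat_lit 1795679957) (nat_lit 532) (nat_lit 13772865423) (nat_lit 34) (nat_lit 5) (nat_lit 33) (nat_lit 5) (nat_lit 40) (nat_lit 5) (nat_lit 211) (nat_lit 209) (nat_lit 180)) (XT.nd (nat_lit 78) (nat_lit 0) (nat_lit 76) (XT.lf (nat_lit 0) (nat_lit 5058764600) (nat_lit 456) (nat_lit 2432969234) (nat_lit 532) (nat_lit 10700079680) (nat_lit 34) (nat_lit 5) (nat_lit 40) (nat_lit 5) (nat_lit 41) (nat_lit 5) (nat_lit 212) (nat_lit 209) (nat_lit 179)) (XT.lf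 (nat_lit 0) (nat_lit 7731674448) (nat_lit 456) (nat_lit 6573287078) (nat_lit 76) (nat_lit 5353680640) (nat_lit 35) (nat_lit 5) (nat_lit 41) (nat_lit 5) (nat_lit 36) (nat_lit 5) (nat_lit 213) (nat_lit 209) (nat_lit 178))))))))
noncomputable def xc37 : XT := (XT.nd (nat_lit 1482) (nat_lit 304) (nat_lit 0) (XT.nd (nat_lit 702) (nat_lit 684) (nat_lit 0) (XT.nd (nat_lit 312) (nat_lit 684) (nat_lit 0) (XT.nd (nat_lit 156) (nat_lit 228) (nat_lit 0) (XT.nd (nat_lit 78) (nat_lit 228) (nat_lit 0) (XT.lf (nat_lit 0) (nat_lit 9974494869) (nat_lit 456) (nat_lit 1291121229) (nat_lit 532) (nat_lit 10043446327) (nat_lit 29) (nat_lit 5) (nat_lit 35) (nat_lit 5) (nat_lit 36) (nat_lit 5) (nat_lit 214) (nat_lit 209) (nat_lit 177)) (XT.lf (nat_lit 0) (nat_lit 6129108439) (nat_lit 228) (nat_lit 9820168322) (nat_lit 304) (nat_lit 7208524771) (nat_lit 26) (nat_lit 5) (nat_lit 29) (nat_lit 5) (nat_lit 30) (nat_lit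 5) (nat_lit 215) (nat_lit 209) (nat_lit 176))) (XT.nd (nat_lit 78) (nat_lit 76) (nat_lit 0) (XT.lf (nat_lit 0) (nat_lit 1503760000) (nat_lit 152) (nat_lit 20309462730) (nat_lit 228) (nat_lit 3432693385) (nat_lit 24) (nat_lit 5) (nat_lit 26) (nat_lit 5) (nat_lit 27) (nat_lit 5) (nat_lit 216) (nat_lit 209) (nat_lit 175)) (XT.lf (nat_lit 0) (nat_lit 1600576048) (nat_lit 228) (nat_lit 4118437029) (nat_lit 76) (nat_lit 21867788298) (nat_lit 23) (nat_lit 5) (nat_lit 26) (nat_lit 5) (nat_lit 24) (nat_lit 5) (nat_lit 217) (nat_lit 209) (nat_lit 174)))) (XT.nd (nat_lit 156) (nat_lit 304) (nat_lit 0) (XT.nd (nat_lit 78) (nat_lit 152) (nat_lit 0) (XT.lf (nat_lit 0) (nat_lit 7897214865) (nat_lit 304) (nat_lit 11244728169) (nat_lit 76) (nat_lit 11073011395) (nat_lit 20) (nat_lit 5) (nat_lit 24) (nat_lit 5) (nat_lit 21) (nat_lit 5) (nat_lit 218) (nat_lit 209) (nat_lit 173)) (XT.lf (nat_lit 0) (nat_lit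 12988351862) (nat_lit 152) (nat_lit 2709359626) (nat_lit 228) (nat_lit 17495042596) (nat_lit 18) (nat_lit 5) (nat_lit 20) (nat_lit 5) (nat_lit 21) (nat_lit 5) (nat_lit 219) (nat_lit 209) (nat_lit 172))) (XT.nd (nat_lit 78) (nat_lit 152) (nat_lit 0) (XT.lf (nat_lit 0) (nat_lit 4743151592) (nat_lit 152) (nat_lit 20733474410) (nat_lit 228) (nat_lit 11076080299) (nat_lit 16) (nat_lit 5) (nat_lit 18) (nat_lit 5) (nat_lit 19) (nat_lit 5) (nat_lit 220) (nat_lit 209) (nat_lit 171)) (XT.nd (nat_lit 78) (nat_lit 152) (nat_lit 0) (XT.lf (nat_lit 0) (nat_lit 34538482121) (nat_lit 152) (nat_lit 2817323924) (nat_lit 228) (nat_lit 3010301550) (nat_lit 16) (nat_lit 5) (nat_lit 18) (nat_lit 5) (nat_lit 19) (nat_lit 5) (nat_lit 221) (nat_lit 209) (nat_lit 170)) (XT.lf (nat_lit 0) (nat_lit 6978291603) (nat_lit 152) (nat_lit 20018041940) (nat_lit 76) (nat_lit 17661126849) (nat_lit 14) (nat_lit 5) (nat_lit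 16) (nat_lit 5) (nat_lit 15) (nat_lit 5) (nat_lit 222) (nat_lit 209) (nat_lit 169)))))) (XT.nd (nat_lit 390) (nat_lit 228) (nat_lit 0) (XT.nd (nat_lit 156) (nat_lit 304) (nat_lit 0) (XT.nd (nat_lit 78) (nat_lit 0) (nat_lit 0) (XT.lf (nat_lit 0) (nat_lit 10790702118) (nat_lit 152) (nat_lit 7990099631) (nat_lit 228) (nat_lit 30766040845) (nat_lit 12) (nat_lit 5) (nat_lit 14) (nat_lit 5) (nat_lit 15) (nat_lit 5) (nat_lit 223) (nat_lit 209) (nat_lit 168)) (XT.lf (nat_lit 0) (nat_lit 33264386071) (nat_lit 228) (nat_lit 8071233187) (nat_lit 76) (nat_lit 13761236515) (nat_lit 12) (nat_lit 5) (nat_lit 15) (nat_lit 5) (nat_lit 13) (nat_lit 4) (nat_lit 224) (nat_lit 209) (nat_lit 167))) (XT.nd (nat_lit 78) (nat_lit 228) (nat_lit 0) (XT.lf (nat_lit 0) (nat_lit 28387138347) (nat_lit 76) (nat_lit 22419026399) (nat_lit 152) (nat_lit 10602422737) (nat_lit 11) (nat_lit 5) (nat_lit 12) (nat_lit 5) (nat_lit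 13) (nat_lit 4) (nat_lit 225) (nat_lit 209) (nat_lit 166)) (XT.nd (nat_lit 78) (nat_lit 0) (nat_lit 0) (XT.lf (nat_lit 0) (nat_lit 2174978367) (nat_lit 152) (nat_lit 298095621) (nat_lit 228) (nat_lit 66167483655) (nat_lit 8) (nat_lit 5) (nat_lit 10) (nat_lit 5) (nat_lit 11) (nat_lit 5) (nat_lit 226) (nat_lit 209) (nat_lit 165)) (XT.lf (nat_lit 0) (nat_lit 18475539275) (nat_lit 228) (nat_lit 33178343797) (nat_lit 76) (nat_lit 25153983559) (nat_lit 8) (nat_lit 5) (nat_lit 11) (nat_lit 5) (nat_lit 9) (nat_lit 4) (nat_lit 227) (nat_lit 209) (nat_lit 164))))) (XT.nd (nat_lit 156) (nat_lit 152) (nat_lit 0) (XT.nd (nat_lit 78) (nat_lit 0) (nat_lit 0) (XT.lf (nat_lit 0) (nat_lit 5338497906) (nat_lit 76) (nat_lit 31663103840) (nat_lit 152) (nat_lit 49188854093) (nat_lit 7) (nat_lit 5) (nat_lit 8) (nat_lit 5) (nat_lit 9) (nat_lit 4) (nat_lit 228) (nat_lit 209) (nat_lit 163)) (XT.lf (nat_lit 0)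 (nat_lit 51621644327) (nat_lit 76) (nat_lit 7638731090) (nat_lit 152) (nat_lit 37643790443) (nat_lit 7) (nat_lit 5) (nat_lit 8) (nat_lit 5) (nat_lit 9) (nat_lit 4) (nat_lit 229) (nat_lit 209) (nat_lit 162))) (XT.nd (nat_lit 78) (nat_lit 152) (nat_lit 0) (XT.lf (nat_lit 0) (nat_lit 85327970491) (nat_lit 152) (nat_lit 4876857434) (nat_lit 0) (nat_lit 18982535838) (nat_lit 7) (nat_lit 5) (nat_lit 9) (nat_lit 4) (nat_lit 7) (nat_lit 4) (nat_lit 230) (nat_lit 209) (nat_lit 161)) (XT.nd (nat_lit 78) (nat_lit 76) (nat_lit 0) (XT.lf (nat_lit 0) (nat_lit 43540417015) (nat_lit 76) (nat_lit 73014367140) (nat_lit 76) (nat_lit 6658358508) (nat_lit 6) (nat_lit 4) (nat_lit 7) (nat_lit 5) (nat_lit 7) (nat_lit 4) (nat_lit 231) (nat_lit 209) (nat_lit 160)) (XT.lf (nat_lit 0) (nat_lit 12603331394) (nat_lit 152) (nat_lit 40150274097) (nat_lit 76) (nat_lit 86553000256) (nat_lit 5) (nat_lit 5) (nat_lit 7)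 (nat_lit 5) (nat_lit 6) (nat_lit 4) (nat_lit 232) (nat_lit 209) (nat_lit 159))))))) (XT.nd (nat_lit 702) (nat_lit 152) (nat_lit 0) (XT.nd (nat_lit 312) (nat_lit 76) (nat_lit 0) (XT.nd (nat_lit 156) (nat_lit 0) (nat_lit 0) (XT.nd (nat_lit 78) (nat_lit 0) (nat_lit 0) (XT.lf (nat_lit 0) (nat_lit 5371932547) (nat_lit 76) (nat_lit 29120919083) (nat_lit 152) (nat_lit 123296794398) (nat_lit 4) (nat_lit 5) (nat_lit 5) (nat_lit 5) (nat_lit 6) (nat_lit 4) (nat_lit 233) (nat_lit 209) (nat_lit 158)) (XT.lf (nat_lit 0) (nat_lit 60141780106) (nat_lit 76) (nat_lit 686071583) (nat_lit 152) (nat_lit 118124343359) (nat_lit 4) (nat_lit 5) (nat_lit 5) (nat_lit 5) (nat_lit 6) (nat_lit 4) (nat_lit 234) (nat_lit 209) (nat_lit 157))) (XT.nd (nat_lit 78) (nat_lit 0) (nat_lit 0) (XT.lf (nat_lit 0) (nat_lit 91876947972) (nat_lit 152) (nat_lit 80942838453) (nat_lit 0) (nat_lit 30408246939) (nat_lit 4) (nat_lit 5)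 (nat_lit 6) (nat_lit 4) (nat_lit 4) (nat_lit 4) (nat_lit 235) (nat_lit 209) (nat_lit 156)) (XT.lf (nat_lit 0) (nat_lit 127597086934) (nat_lit 152) (nat_lit 37423560786) (nat_lit 0) (nat_lit 66123518183) (nat_lit 4) (nat_lit 5) (nat_lit 6) (nat_lit 4) (nat_lit 4) (nat_lit 4) (nat_lit 236) (nat_lit 209) (nat_lit 155)))) (XT.nd (nat_lit 156) (nat_lit 0) (nat_lit 0) (XT.nd (nat_lit 78) (nat_lit 0) (nat_lit 0) (XT.lf (nat_lit 0) (nat_lit 13279685897) (nat_lit 76) (nat_lit 155710331690) (nat_lit 76) (nat_lit 94232530139) (nat_lit 3) (nat_lit 4) (nat_lit 4) (nat_lit 5) (nat_lit 4) (nat_lit 4) (nat_lit 237) (nat_lit 209) (nat_lit 154)) (XT.lf (nat_lit 0) (nat_lit 73847146743) (nat_lit 76) (nat_lit 143830101557) (nat_lit 76) (nat_lit 82348619312) (nat_lit 3) (nat_lit 4) (nat_lit 4) (nat_lit 5) (nat_lit 4) (nat_lit 4) (nat_lit 238) (nat_lit 209) (nat_lit 153))) (XT.nd (nat_lit 78) (nat_lit 0) (nat_lit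 0) (XT.lf (nat_lit 0) (nat_lit 143493178899) (nat_lit 76) (nat_lit 130170744511) (nat_lit 76) (nat_lit 68686061661) (nat_lit 3) (nat_lit 4) (nat_lit 4) (nat_lit 5) (nat_lit 4) (nat_lit 4) (nat_lit 239) (nat_lit 209) (nat_lit 152)) (XT.nd (nat_lit 78) (nat_lit 0) (nat_lit 0) (XT.lf (nat_lit 0) (nat_lit 223580422125) (nat_lit 76) (nat_lit 114465012259) (nat_lit 76) (nat_lit 52977546275) (nat_lit 3) (nat_lit 4) (nat_lit 4) (nat_lit 5) (nat_lit 4) (nat_lit 4) (nat_lit 240) (nat_lit 209) (nat_lit 151)) (XT.lf (nat_lit 0) (nat_lit 315675800745) (nat_lit 76) (nat_lit 96405618737) (nat_lit 76) (nat_lit 34915732637) (nat_lit 3) (nat_lit 4) (nat_lit 4) (nat_lit 5) (nat_lit 4) (nat_lit 4) (nat_lit 241) (nat_lit 209) (nat_lit 150)))))) (XT.nd (nat_lit 390) (nat_lit 0) (nat_lit 0) (XT.nd (nat_lit 156) (nat_lit 76) (nat_lit 0) (XT.nd (nat_lit 78) (nat_lit 76) (nat_lit 0) (XT.lf (nat_lit 0) (nat_lit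 421581180861) (nat_lit 76) (nat_lit 75639227985) (nat_lit 76) (nat_lit 14147237435) (nat_lit 3) (nat_lit 4) (nat_lit 4) (nat_lit 5) (nat_lit 4) (nat_lit 4) (nat_lit 242) (nat_lit 209) (nat_lit 149)) (XT.lf (nat_lit 0) (nat_lit 9247331370) (nat_lit 152) (nat_lit 42259371255) (nat_lit 76) (nat_lit 533868454462) (nat_lit 2) (nat_lit 5) (nat_lit 4) (nat_lit 5) (nat_lit 3) (nat_lit 4) (nat_lit 243) (nat_lit 209) (nat_lit 148))) (XT.nd (nat_lit 78) (nat_lit 0) (nat_lit 0) (XT.lf (nat_lit 0) (nat_lit 12634164225) (nat_lit 76) (nat_lit 23005055004) (nat_lit 152) (nat_lit 634789117636) (nat_lit 1) (nat_lit 5) (nat_lit 2) (nat_lit 5) (nat_lit 3) (nat_lit 4) (nat_lit 244) (nat_lit 209) (nat_lit 147)) (XT.nd (nat_lit 78) (nat_lit 0) (nat_lit 0) (XT.lf (nat_lit 0) (nat_lit 67485470954) (nat_lit 152) (nat_lit 690090385897) (nat_lit 0) (nat_lit 10543993656) (nat_lit 1) (nat_lit 5) (nat_lit 3) (nat_lit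 4) (nat_lit 1) (nat_lit 4) (nat_lit 245) (nat_lit 209) (nat_lit 146)) (XT.lf (nat_lit 0) (nat_lit 104743423206) (nat_lit 152) (nat_lit 727870058070) (nat_lit 0) (nat_lit 47800831810) (nat_lit 1) (nat_lit 5) (nat_lit 3) (nat_lit 4) (nat_lit 1) (nat_lit 4) (nat_lit 246) (nat_lit 209) (nat_lit 145))))) (XT.nd (nat_lit 156) (nat_lit 0) (nat_lit 0) (XT.nd (nat_lit 78) (nat_lit 0) (nat_lit 0) (XT.lf (nat_lit 0) (nat_lit 147588763795) (nat_lit 152) (nat_lit 771319084534) (nat_lit 0) (nat_lit 90645203618) (nat_lit 1) (nat_lit 5) (nat_lit 3) (nat_lit 4) (nat_lit 1) (nat_lit 4) (nat_lit 247) (nat_lit 209) (nat_lit 144)) (XT.lf (nat_lit 0) (nat_lit 196859771123) (nat_lit 152) (nat_lit 821287554936) (nat_lit 0) (nat_lit 139915368529) (nat_lit 1) (nat_lit 5) (nat_lit 3) (nat_lit 4) (nat_lit 1) (nat_lit 4) (nat_lit 248) (nat_lit 209) (nat_lit 143))) (XT.nd (nat_lit 78) (nat_lit 0) (nat_lit 0) (XT.lf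 (nat_lit 0) (nat_lit 253520443161) (nat_lit 152) (nat_lit 878753113263) (nat_lit 0) (nat_lit 196575308029) (nat_lit 1) (nat_lit 5) (nat_lit 3) (nat_lit 4) (nat_lit 1) (nat_lit 4) (nat_lit 249) (nat_lit 209) (nat_lit 142)) (XT.nd (nat_lit 78) (nat_lit 0) (nat_lit 0) (XT.lf (nat_lit 0) (nat_lit 318679358274) (nat_lit 152) (nat_lit 944840085656) (nat_lit 0) (nat_lit 261733586153) (nat_lit 1) (nat_lit 5) (nat_lit 3) (nat_lit 4) (nat_lit 1) (nat_lit 4) (nat_lit 250) (nat_lit 209) (nat_lit 141)) (XT.lf (nat_lit 0) (nat_lit 393611364802) (nat_lit 152) (nat_lit 1020841478095) (nat_lit 0) (nat_lit 336665038777) (nat_lit 1) (nat_lit 5) (nat_lit 3) (nat_lit 4) (nat_lit 1) (nat_lit 4) (nat_lit 251) (nat_lit 209) (nat_lit 140))))))))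
noncomputable def xc38 : XT := (XT.nd (nat_lit 28938) (nat_lit 0) (nat_lit 152) (XT.nd (nat_lit 28158) (nat_lit 0) (nat_lit 1140) (XT.nd (nat_lit 312) (nat_lit 0) (nat_lit 0) (XT.nd (nat_lit 156) (nat_lit 0) (nat_lit 0) (XT.nd (nat_lit 78) (nat_lit 0) (nat_lit 0) (XT.lf (nat_lit 0) (nat_lit 479782523741) (nat_lit 152) (nat_lit 1108244274347) (nat_lit 0) (nat_lit 422835716061) (nat_lit 1) (nat_lit 5) (nat_lit 3) (nat_lit 4) (nat_lit 1) (nat_lit 4) (nat_lit 252) (nat_lit 209) (nat_lit 139)) (XT.lf (nat_lit 0) (nat_lit 578878792549) (nat_lit 152) (nat_lit 1208758529121) (nat_lit 0) (nat_lit 521931566039) (nat_lit 1) (nat_lit 5) (nat_lit 3) (nat_lit 4) (nat_lit 1) (nat_lit 4) (nat_lit 253) (nat_lit 209) (nat_lit 138))) (XT.nd (nat_lit 78) (nat_lit 0) (nat_lit 0) (XT.lf (nat_lit 0) (nat_lit 692839011268) (nat_lit 152) (nat_lit 1324350825662) (nat_lit 0) (nat_lit 635891420557) (nat_lit 1) (nat_lit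 5) (nat_lit 3) (nat_lit 4) (nat_lit 1) (nat_lit 4) (nat_lit 254) (nat_lit 209) (nat_lit 137)) (XT.lf (nat_lit 0) (nat_lit 823892836351) (nat_lit 152) (nat_lit 1457282752381) (nat_lit 0) (nat_lit 766944928944) (nat_lit 1) (nat_lit 5) (nat_lit 3) (nat_lit 4) (nat_lit 1) (nat_lit 4) (nat_lit 255) (nat_lit 209) (nat_lit 136)))) (XT.nd (nat_lit 156) (nat_lit 0) (nat_lit 0) (XT.nd (nat_lit 78) (nat_lit 0) (nat_lit 0) (XT.lf (nat_lit 0) (nat_lit 974604364377) (nat_lit 152) (nat_lit 1610155151322) (nat_lit 0) (nat_lit 917656181582) (nat_lit 1) (nat_lit 5) (nat_lit 3) (nat_lit 4) (nat_lit 1) (nat_lit 4) (nat_lit 256) (nat_lit 209) (nat_lit 135)) (XT.lf (nat_lit 0) (nat_lit 1147922299153) (nat_lit 152) (nat_lit 1785959004204) (nat_lit 0) (nat_lit 1090973876890) (nat_lit 1) (nat_lit 5) (nat_lit 3) (nat_lit 4) (nat_lit 1) (nat_lit 4) (nat_lit 257) (nat_lit 209) (nat_lit 134))) (XT.nd (nat_lit 27534)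 (nat_lit 0) (nat_lit 2356) (XT.lf (nat_lit 0) (nat_lit 1347237643752) (nat_lit 152) (nat_lit 1988133951627) (nat_lit 0) (nat_lit 1290289013257) (nat_lit 1) (nat_lit 5) (nat_lit 3) (nat_lit 4) (nat_lit 1) (nat_lit 4) (nat_lit 258) (nat_lit 209) (nat_lit 133)) (XT.nd (nat_lit 78) (nat_lit 0) (nat_lit 76) (XT.lf (nat_lit 0) (nat_lit 1107431098) (nat_lit 532) (nat_lit 3644375631) (nat_lit 532) (nat_lit 3644375631) (nat_lit 32) (nat_lit 3) (nat_lit 39) (nat_lit 3) (nat_lit 39) (nat_lit 5) (nat_lit 210) (nat_lit 210) (nat_lit 180)) (XT.lf (nat_lit 0) (nat_lit 2975973301) (nat_lit 456) (nat_lit 12054625574) (nat_lit 532) (nat_lit 2971171886) (nat_lit 33) (nat_lit 5) (nat_lit 39) (nat_lit 5) (nat_lit 40) (nat_lit 5) (nat_lit 211) (nat_lit 210) (nat_lit 179)))))) (XT.nd (nat_lit 390) (nat_lit 760) (nat_lit 0) (XT.nd (nat_lit 156) (nat_lit 532) (nat_lit 0) (XT.nd (nat_lit 78) (nat_lit 0) (nat_lit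 76) (XT.lf (nat_lit 76) (nat_lit 2022291129) (nat_lit 0) (nat_lit 2291216441) (nat_lit 532) (nat_lit 15042530790) (nat_lit 34) (nat_lit 5) (nat_lit 33) (nat_lit 5) (nat_lit 40) (nat_lit 5) (nat_lit 212) (nat_lit 210) (nat_lit 178)) (XT.lf (nat_lit 0) (nat_lit 6450225725) (nat_lit 456) (nat_lit 2297462709) (nat_lit 532) (nat_lit 12118248304) (nat_lit 34) (nat_lit 5) (nat_lit 40) (nat_lit 5) (nat_lit 41) (nat_lit 5) (nat_lit 213) (nat_lit 210) (nat_lit 177))) (XT.nd (nat_lit 78) (nat_lit 684) (nat_lit 0) (XT.lf (nat_lit 0) (nat_lit 9450091620) (nat_lit 456) (nat_lit 7050308490) (nat_lit 76) (nat_lit 6058834589) (nat_lit 35) (nat_lit 5) (nat_lit 41) (nat_lit 5) (nat_lit 36) (nat_lit 5) (nat_lit 214) (nat_lit 210) (nat_lit 176)) (XT.nd (nat_lit 78) (nat_lit 228) (nat_lit 0) (XT.lf (nat_lit 0) (nat_lit 11936558834) (nat_lit 456) (nat_lit 1515900864) (nat_lit 532) (nat_lit 11010149378) (nat_lit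 29) (nat_lit 5) (nat_lit 35) (nat_lit 5) (nat_lit 36) (nat_lit 5) (nat_lit 215) (nat_lit 210) (nat_lit 175)) (XT.lf (nat_lit 0) (nat_lit 7514802921) (nat_lit 228) (nat_lit 11269604867) (nat_lit 304) (nat_lit 7808990363) (nat_lit 26) (nat_lit 5) (nat_lit 29) (nat_lit 5) (nat_lit 30) (nat_lit 5) (nat_lit 216) (nat_lit 210) (nat_lit 174))))) (XT.nd (nat_lit 156) (nat_lit 532) (nat_lit 0) (XT.nd (nat_lit 78) (nat_lit 76) (nat_lit 0) (XT.lf (nat_lit 0) (nat_lit 2190511436) (nat_lit 152) (nat_lit 23291270464) (nat_lit 228) (nat_lit 3516987352) (nat_lit 24) (nat_lit 5) (nat_lit 26) (nat_lit 5) (nat_lit 27) (nat_lit 5) (nat_lit 217) (nat_lit 210) (nat_lit 173)) (XT.lf (nat_lit 0) (nat_lit 2196374788) (nat_lit 228) (nat_lit 4314580380) (nat_lit 76) (nat_lit 25183550958) (nat_lit 23) (nat_lit 5) (nat_lit 26) (nat_lit 5) (nat_lit 24) (nat_lit 5) (nat_lit 218) (nat_lit 210) (nat_lit 172))) (XT.nd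 (nat_lit 78) (nat_lit 304) (nat_lit 0) (XT.lf (nat_lit 0) (nat_lit 9402013349) (nat_lit 304) (nat_lit 12520019069) (nat_lit 76) (nat_lit 12797931816) (nat_lit 20) (nat_lit 5) (nat_lit 24) (nat_lit 5) (nat_lit 21) (nat_lit 5) (nat_lit 219) (nat_lit 210) (nat_lit 171)) (XT.nd (nat_lit 78) (nat_lit 152) (nat_lit 0) (XT.lf (nat_lit 0) (nat_lit 15313198454) (nat_lit 152) (nat_lit 3026675764) (nat_lit 228) (nat_lit 19807387228) (nat_lit 18) (nat_lit 5) (nat_lit 20) (nat_lit 5) (nat_lit 21) (nat_lit 5) (nat_lit 220) (nat_lit 210) (nat_lit 170)) (XT.lf (nat_lit 0) (nat_lit 5819720072) (nat_lit 152) (nat_lit 23739048715) (nat_lit 228) (nat_lit 12454769576) (nat_lit 16) (nat_lit 5) (nat_lit 18) (nat_lit 5) (nat_lit 19) (nat_lit 5) (nat_lit 221) (nat_lit 210) (nat_lit 169))))))) (XT.nd (nat_lit 702) (nat_lit 304) (nat_lit 0) (XT.nd (nat_lit 312) (nat_lit 380) (nat_lit 0) (XT.nd (nat_lit 156) (nat_lit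 152) (nat_lit 0) (XT.nd (nat_lit 78) (nat_lit 152) (nat_lit 0) (XT.lf (nat_lit 0) (nat_lit 40036728997) (nat_lit 152) (nat_lit 3149099159) (nat_lit 228) (nat_lit 3216000897) (nat_lit 16) (nat_lit 5) (nat_lit 18) (nat_lit 5) (nat_lit 19) (nat_lit 5) (nat_lit 222) (nat_lit 210) (nat_lit 168)) (XT.lf (nat_lit 0) (nat_lit 8237623725) (nat_lit 152) (nat_lit 22702525708) (nat_lit 76) (nat_lit 20398067404) (nat_lit 14) (nat_lit 5) (nat_lit 16) (nat_lit 5) (nat_lit 15) (nat_lit 5) (nat_lit 223) (nat_lit 210) (nat_lit 167))) (XT.nd (nat_lit 78) (nat_lit 0) (nat_lit 0) (XT.lf (nat_lit 0) (nat_lit 12700594007) (nat_lit 152) (nat_lit 9089192915) (nat_lit 228) (nat_lit 35172988918) (nat_lit 12) (nat_lit 5) (nat_lit 14) (nat_lit 5) (nat_lit 15) (nat_lit 5) (nat_lit 224) (nat_lit 210) (nat_lit 166)) (XT.lf (nat_lit 0) (nat_lit 38422962245) (nat_lit 228) (nat_lit 9016710667) (nat_lit 76) (nat_lit 15907550851)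 (nat_lit 12) (nat_lit 5) (nat_lit 15) (nat_lit 5) (nat_lit 13) (nat_lit 4) (nat_lit 225) (nat_lit 210) (nat_lit 165)))) (XT.nd (nat_lit 156) (nat_lit 76) (nat_lit 0) (XT.nd (nat_lit 78) (nat_lit 228) (nat_lit 0) (XT.lf (nat_lit 0) (nat_lit 32887968103) (nat_lit 76) (nat_lit 25691845162) (nat_lit 152) (nat_lit 12027281902) (nat_lit 11) (nat_lit 5) (nat_lit 12) (nat_lit 5) (nat_lit 13) (nat_lit 4) (nat_lit 226) (nat_lit 210) (nat_lit 164)) (XT.lf (nat_lit 0) (nat_lit 2731490962) (nat_lit 152) (nat_lit 254799461) (nat_lit 228) (nat_lit 75938517514) (nat_lit 8) (nat_lit 5) (nat_lit 10) (nat_lit 5) (nat_lit 11) (nat_lit 5) (nat_lit 227) (nat_lit 210) (nat_lit 163))) (XT.nd (nat_lit 78) (nat_lit 76) (nat_lit 0) (XT.lf (nat_lit 0) (nat_lit 21372411028) (nat_lit 228) (nat_lit 37946414900) (nat_lit 76) (nat_lit 28999783581) (nat_lit 8) (nat_lit 5) (nat_lit 11) (nat_lit 5) (nat_lit 9) (nat_lit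 4) (nat_lit 228) (nat_lit 210) (nat_lit 162)) (XT.nd (nat_lit 78) (nat_lit 0) (nat_lit 0) (XT.lf (nat_lit 0) (nat_lit 6330289297) (nat_lit 76) (nat_lit 36335312634) (nat_lit 152) (nat_lit 56443979013) (nat_lit 7) (nat_lit 5) (nat_lit 8) (nat_lit 5) (nat_lit 9) (nat_lit 4) (nat_lit 229) (nat_lit 210) (nat_lit 161)) (XT.lf (nat_lit 0) (nat_lit 59530992460) (nat_lit 76) (nat_lit 8717360943) (nat_lit 152) (nat_lit 43183225797) (nat_lit 7) (nat_lit 5) (nat_lit 8) (nat_lit 5) (nat_lit 9) (nat_lit 4) (nat_lit 230) (nat_lit 210) (nat_lit 160)))))) (XT.nd (nat_lit 390) (nat_lit 76) (nat_lit 0) (XT.nd (nat_lit 156) (nat_lit 152) (nat_lit 0) (XT.nd (nat_lit 78) (nat_lit 76) (nat_lit 0) (XT.lf (nat_lit 0) (nat_lit 98214589846) (nat_lit 152) (nat_lit 5458214443) (nat_lit 0) (nat_lit 21885411174) (nat_lit 7) (nat_lit 5) (nat_lit 9) (nat_lit 4) (nat_lit 7) (nat_lit 4) (nat_lit 231) (nat_lit 210) (nat_lit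 159)) (XT.lf (nat_lit 0) (nat_lit 50208939895) (nat_lit 76) (nat_lit 83908388487) (nat_lit 76) (nat_lit 7571214368) (nat_lit 6) (nat_lit 4) (nat_lit 7) (nat_lit 5) (nat_lit 7) (nat_lit 4) (nat_lit 232) (nat_lit 210) (nat_lit 158))) (XT.nd (nat_lit 78) (nat_lit 76) (nat_lit 0) (XT.lf (nat_lit 0) (nat_lit 14564788454) (nat_lit 152) (nat_lit 46049366696) (nat_lit 76) (nat_lit 99582583563) (nat_lit 5) (nat_lit 5) (nat_lit 7) (nat_lit 5) (nat_lit 6) (nat_lit 4) (nat_lit 233) (nat_lit 210) (nat_lit 157)) (XT.nd (nat_lit 78) (nat_lit 0) (nat_lit 0) (XT.lf (nat_lit 0) (nat_lit 6290721643) (nat_lit 76) (nat_lit 33440477410) (nat_lit 152) (nat_lit 141721582646) (nat_lit 4) (nat_lit 5) (nat_lit 5) (nat_lit 5) (nat_lit 6) (nat_lit 4) (nat_lit 234) (nat_lit 210) (nat_lit 156)) (XT.lf (nat_lit 0) (nat_lit 69261307308) (nat_lit 76) (nat_lit 746739246) (nat_lit 152) (nat_lit 135782359287) (nat_lit 4)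 (nat_lit 5) (nat_lit 5) (nat_lit 5) (nat_lit 6) (nat_lit 4) (nat_lit 235) (nat_lit 210) (nat_lit 155))))) (XT.nd (nat_lit 156) (nat_lit 76) (nat_lit 0) (XT.nd (nat_lit 78) (nat_lit 0) (nat_lit 0) (XT.lf (nat_lit 0) (nat_lit 105708084132) (nat_lit 152) (nat_lit 92995687958) (nat_lit 0) (nat_lit 35004379549) (nat_lit 4) (nat_lit 5) (nat_lit 6) (nat_lit 4) (nat_lit 4) (nat_lit 4) (nat_lit 236) (nat_lit 210) (nat_lit 154)) (XT.lf (nat_lit 0) (nat_lit 146779775161) (nat_lit 152) (nat_lit 42960072067) (nat_lit 0) (nat_lit 76072389883) (nat_lit 4) (nat_lit 5) (nat_lit 6) (nat_lit 4) (nat_lit 4) (nat_lit 4) (nat_lit 237) (nat_lit 210) (nat_lit 153))) (XT.nd (nat_lit 78) (nat_lit 0) (nat_lit 0) (XT.lf (nat_lit 0) (nat_lit 15342142019) (nat_lit 76) (nat_lit 179035573972) (nat_lit 76) (nat_lit 108324988090) (nat_lit 3) (nat_lit 4) (nat_lit 4) (nat_lit 5) (nat_lit 4) (nat_lit 4) (nat_lit 238) (nat_lit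 210) (nat_lit 152)) (XT.nd (nat_lit 78) (nat_lit 0) (nat_lit 0) (XT.lf (nat_lit 0) (nat_lit 84985525918) (nat_lit 76) (nat_lit 165377392903) (nat_lit 76) (nat_lit 94664023887) (nat_lit 3) (nat_lit 4) (nat_lit 4) (nat_lit 5) (nat_lit 4) (nat_lit 4) (nat_lit 239) (nat_lit 210) (nat_lit 151)) (XT.lf (nat_lit 0) (nat_lit 165070466311) (nat_lit 76) (nat_lit 149672683241) (nat_lit 76) (nat_lit 78956894108) (nat_lit 3) (nat_lit 4) (nat_lit 4) (nat_lit 5) (nat_lit 4) (nat_lit 4) (nat_lit 240) (nat_lit 210) (nat_lit 150))))))))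
noncomputable def xc39 : XT := (XT.nd (nat_lit 29016) (nat_lit 0) (nat_lit 456) (XT.nd (nat_lit 702) (nat_lit 0) (nat_lit 0) (XT.nd (nat_lit 312) (nat_lit 76) (nat_lit 0) (XT.nd (nat_lit 156) (nat_lit 76) (nat_lit 0) (XT.nd (nat_lit 78) (nat_lit 0) (nat_lit 0) (XT.lf (nat_lit 0) (nat_lit 257163842467) (nat_lit 76) (nat_lit 131614178928) (nat_lit 76) (nat_lit 60896285346) (nat_lit 3) (nat_lit 4) (nat_lit 4) (nat_lit 5) (nat_lit 4) (nat_lit 4) (nat_lit 241) (nat_lit 210) (nat_lit 149)) (XT.lf (nat_lit 0) (nat_lit 363067481311) (nat_lit 76) (nat_lit 110848561400) (nat_lit 76) (nat_lit 40128837862) (nat_lit 3) (nat_lit 4) (nat_lit 4) (nat_lit 5) (nat_lit 4) (nat_lit 4) (nat_lit 242) (nat_lit 210) (nat_lit 148))) (XT.nd (nat_lit 78) (nat_lit 76) (nat_lit 0) (XT.lf (nat_lit 0) (nat_lit 484853410560) (nat_lit 76) (nat_lit 86969546837) (nat_lit 76) (nat_lit 16248232033) (nat_lit 3) (nat_lit 4)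 (nat_lit 4) (nat_lit 5) (nat_lit 4) (nat_lit 4) (nat_lit 243) (nat_lit 210) (nat_lit 147)) (XT.lf (nat_lit 0) (nat_lit 10651853649) (nat_lit 152) (nat_lit 48566842922) (nat_lit 76) (nat_lit 613961304189) (nat_lit 2) (nat_lit 5) (nat_lit 4) (nat_lit 5) (nat_lit 3) (nat_lit 4) (nat_lit 244) (nat_lit 210) (nat_lit 146)))) (XT.nd (nat_lit 156) (nat_lit 0) (nat_lit 0) (XT.nd (nat_lit 78) (nat_lit 0) (nat_lit 0) (XT.lf (nat_lit 0) (nat_lit 14558062147) (nat_lit 76) (nat_lit 26442882028) (nat_lit 152) (nat_lit 729990344477) (nat_lit 1) (nat_lit 5) (nat_lit 2) (nat_lit 5) (nat_lit 3) (nat_lit 4) (nat_lit 245) (nat_lit 210) (nat_lit 145)) (XT.lf (nat_lit 0) (nat_lit 77622337734) (nat_lit 152) (nat_lit 793578064621) (nat_lit 0) (nat_lit 12136274751) (nat_lit 1) (nat_lit 5) (nat_lit 3) (nat_lit 4) (nat_lit 1) (nat_lit 4) (nat_lit 246) (nat_lit 210) (nat_lit 144))) (XT.nd (nat_lit 78) (nat_lit 0)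 (nat_lit 0) (XT.lf (nat_lit 0) (nat_lit 120467150719) (nat_lit 152) (nat_lit 837028063163) (nat_lit 0) (nat_lit 54980245318) (nat_lit 1) (nat_lit 5) (nat_lit 3) (nat_lit 4) (nat_lit 1) (nat_lit 4) (nat_lit 247) (nat_lit 210) (nat_lit 143)) (XT.nd (nat_lit 78) (nat_lit 0) (nat_lit 0) (XT.lf (nat_lit 0) (nat_lit 169737699262) (nat_lit 152) (nat_lit 886997378851) (nat_lit 0) (nat_lit 104250061323) (nat_lit 1) (nat_lit 5) (nat_lit 3) (nat_lit 4) (nat_lit 1) (nat_lit 4) (nat_lit 248) (nat_lit 210) (nat_lit 142)) (XT.lf (nat_lit 0) (nat_lit 226397972356) (nat_lit 152) (nat_lit 944463672209) (nat_lit 0) (nat_lit 160909697427) (nat_lit 1) (nat_lit 5) (nat_lit 3) (nat_lit 4) (nat_lit 1) (nat_lit 4) (nat_lit 249) (nat_lit 210) (nat_lit 141)))))) (XT.nd (nat_lit 390) (nat_lit 0) (nat_lit 0) (XT.nd (nat_lit 156) (nat_lit 0) (nat_lit 0) (XT.nd (nat_lit 78) (nat_lit 0) (nat_lit 0) (XT.lf (nat_lit 0)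 (nat_lit 291556540560) (nat_lit 152) (nat_lit 1010551283759) (nat_lit 0) (nat_lit 226067711729) (nat_lit 1) (nat_lit 5) (nat_lit 3) (nat_lit 4) (nat_lit 1) (nat_lit 4) (nat_lit 250) (nat_lit 210) (nat_lit 140)) (XT.lf (nat_lit 0) (nat_lit 366488245429) (nat_lit 152) (nat_lit 1086553231988) (nat_lit 0) (nat_lit 300998934942) (nat_lit 1) (nat_lit 5) (nat_lit 3) (nat_lit 4) (nat_lit 1) (nat_lit 4) (nat_lit 251) (nat_lit 210) (nat_lit 139))) (XT.nd (nat_lit 78) (nat_lit 0) (nat_lit 0) (XT.lf (nat_lit 0) (nat_lit 452659142055) (nat_lit 152) (nat_lit 1173956511535) (nat_lit 0) (nat_lit 387169412737) (nat_lit 1) (nat_lit 5) (nat_lit 3) (nat_lit 4) (nat_lit 1) (nat_lit 4) (nat_lit 252) (nat_lit 210) (nat_lit 138)) (XT.nd (nat_lit 78) (nat_lit 0) (nat_lit 0) (XT.lf (nat_lit 0) (nat_lit 551755182765) (nat_lit 152) (nat_lit 1274471186565) (nat_lit 0) (nat_lit 486265089247) (nat_lit 1) (nat_lit 5)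 (nat_lit 3) (nat_lit 4) (nat_lit 1) (nat_lit 4) (nat_lit 253) (nat_lit 210) (nat_lit 137)) (XT.lf (nat_lit 0) (nat_lit 665715203139) (nat_lit 152) (nat_lit 1390063848546) (nat_lit 0) (nat_lit 600224792924) (nat_lit 1) (nat_lit 5) (nat_lit 3) (nat_lit 4) (nat_lit 1) (nat_lit 4) (nat_lit 254) (nat_lit 210) (nat_lit 136))))) (XT.nd (nat_lit 156) (nat_lit 0) (nat_lit 0) (XT.nd (nat_lit 78) (nat_lit 0) (nat_lit 0) (XT.lf (nat_lit 0) (nat_lit 796768855747) (nat_lit 152) (nat_lit 1522996093039) (nat_lit 0) (nat_lit 731278170145) (nat_lit 1) (nat_lit 5) (nat_lit 3) (nat_lit 4) (nat_lit 1) (nat_lit 4) (nat_lit 255) (nat_lit 210) (nat_lit 135)) (XT.lf (nat_lit 0) (nat_lit 947480233795) (nat_lit 152) (nat_lit 1675868768306) (nat_lit 0) (nat_lit 881989308725) (nat_lit 1) (nat_lit 5) (nat_lit 3) (nat_lit 4) (nat_lit 1) (nat_lit 4) (nat_lit 256) (nat_lit 210) (nat_lit 134))) (XT.nd (nat_lit 78) (nat_lit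 0) (nat_lit 0) (XT.lf (nat_lit 0) (nat_lit 1120798038155) (nat_lit 152) (nat_lit 1851672861471) (nat_lit 0) (nat_lit 1055306904852) (nat_lit 1) (nat_lit 5) (nat_lit 3) (nat_lit 4) (nat_lit 1) (nat_lit 4) (nat_lit 257) (nat_lit 210) (nat_lit 133)) (XT.nd (nat_lit 27612) (nat_lit 0) (nat_lit 2356) (XT.lf (nat_lit 0) (nat_lit 1320113269350) (nat_lit 152) (nat_lit 2053848017835) (nat_lit 0) (nat_lit 1254621954975) (nat_lit 1) (nat_lit 5) (nat_lit 3) (nat_lit 4) (nat_lit 1) (nat_lit 4) (nat_lit 258) (nat_lit 210) (nat_lit 132)) (XT.lf (nat_lit 0) (nat_lit 1632820495) (nat_lit 532) (nat_lit 3995862957) (nat_lit 532) (nat_lit 3995862957) (nat_lit 32) (nat_lit 3) (nat_lit 39) (nat_lit 3) (nat_lit 39) (nat_lit 5) (nat_lit 211) (nat_lit 211) (nat_lit 178))))))) (XT.nd (nat_lit 702) (nat_lit 988) (nat_lit 0) (XT.nd (nat_lit 312) (nat_lit 988) (nat_lit 0) (XT.nd (nat_lit 156) (nat_lit 0) (nat_lit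 76) (XT.nd (nat_lit 78) (nat_lit 0) (nat_lit 0) (XT.lf (nat_lit 0) (nat_lit 4049147229) (nat_lit 456) (nat_lit 13444170253) (nat_lit 532) (nat_lit 3154539570) (nat_lit 33) (nat_lit 5) (nat_lit 39) (nat_lit 5) (nat_lit 40) (nat_lit 5) (nat_lit 212) (nat_lit 211) (nat_lit 177)) (XT.lf (nat_lit 76) (nat_lit 2708847390) (nat_lit 0) (nat_lit 2805926878) (nat_lit 532) (nat_lit 16696820091) (nat_lit 34) (nat_lit 5) (nat_lit 33) (nat_lit 5) (nat_lit 40) (nat_lit 5) (nat_lit 213) (nat_lit 211) (nat_lit 176))) (XT.nd (nat_lit 78) (nat_lit 0) (nat_lit 76) (XT.lf (nat_lit 0) (nat_lit 7896131180) (nat_lit 456) (nat_lit 2263668572) (nat_lit 532) (nat_lit 13794705151) (nat_lit 34) (nat_lit 5) (nat_lit 40) (nat_lit 5) (nat_lit 41) (nat_lit 5) (nat_lit 214) (nat_lit 211) (nat_lit 175)) (XT.lf (nat_lit 0) (nat_lit 11290037124) (nat_lit 456) (nat_lit 7722999075) (nat_lit 76) (nat_lit 6893634714) (nat_lit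 35) (nat_lit 5) (nat_lit 41) (nat_lit 5) (nat_lit 36) (nat_lit 5) (nat_lit 215) (nat_lit 211) (nat_lit 174)))) (XT.nd (nat_lit 156) (nat_lit 456) (nat_lit 0) (XT.nd (nat_lit 78) (nat_lit 228) (nat_lit 0) (XT.lf (nat_lit 0) (nat_lit 14079322231) (nat_lit 456) (nat_lit 1766810720) (nat_lit 532) (nat_lit 12253494925) (nat_lit 29) (nat_lit 5) (nat_lit 35) (nat_lit 5) (nat_lit 36) (nat_lit 5) (nat_lit 216) (nat_lit 211) (nat_lit 173)) (XT.lf (nat_lit 0) (nat_lit 8994634487) (nat_lit 228) (nat_lit 12942209148) (nat_lit 304) (nat_lit 8616775119) (nat_lit 26) (nat_lit 5) (nat_lit 29) (nat_lit 5) (nat_lit 30) (nat_lit 5) (nat_lit 217) (nat_lit 211) (nat_lit 172))) (XT.nd (nat_lit 78) (nat_lit 304) (nat_lit 0) (XT.lf (nat_lit 0) (nat_lit 2867812111) (nat_lit 152) (nat_lit 26736105325) (nat_lit 228) (nat_lit 3718932400) (nat_lit 24) (nat_lit 5) (nat_lit 26) (nat_lit 5) (nat_lit 27) (nat_lit 5) (nat_lit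 218) (nat_lit 211) (nat_lit 171)) (XT.nd (nat_lit 78) (nat_lit 228) (nat_lit 0) (XT.lf (nat_lit 0) (nat_lit 2794800634) (nat_lit 228) (nat_lit 4642960479) (nat_lit 76) (nat_lit 28987998094) (nat_lit 23) (nat_lit 5) (nat_lit 26) (nat_lit 5) (nat_lit 24) (nat_lit 5) (nat_lit 219) (nat_lit 211) (nat_lit 170)) (XT.lf (nat_lit 0) (nat_lit 11054444845) (nat_lit 304) (nat_lit 14086930568) (nat_lit 76) (nat_lit 14765991124) (nat_lit 20) (nat_lit 5) (nat_lit 24) (nat_lit 5) (nat_lit 21) (nat_lit 5) (nat_lit 220) (nat_lit 211) (nat_lit 169)))))) (XT.nd (nat_lit 390) (nat_lit 380) (nat_lit 0) (XT.nd (nat_lit 156) (nat_lit 304) (nat_lit 0) (XT.nd (nat_lit 78) (nat_lit 152) (nat_lit 0) (XT.lf (nat_lit 0) (nat_lit 17894937250) (nat_lit 152) (nat_lit 3413313948) (nat_lit 228) (nat_lit 22542645213) (nat_lit 18) (nat_lit 5) (nat_lit 20) (nat_lit 5) (nat_lit 21) (nat_lit 5) (nat_lit 221) (nat_lit 211)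 (nat_lit 168)) (XT.lf (nat_lit 0) (nat_lit 6968742916) (nat_lit 152) (nat_lit 27220929192) (nat_lit 228) (nat_lit 14109205982) (nat_lit 16) (nat_lit 5) (nat_lit 18) (nat_lit 5) (nat_lit 19) (nat_lit 5) (nat_lit 222) (nat_lit 211) (nat_lit 167))) (XT.nd (nat_lit 78) (nat_lit 304) (nat_lit 0) (XT.lf (nat_lit 0) (nat_lit 46282294723) (nat_lit 152) (nat_lit 3552788528) (nat_lit 228) (nat_lit 3512506223) (nat_lit 16) (nat_lit 5) (nat_lit 18) (nat_lit 5) (nat_lit 19) (nat_lit 5) (nat_lit 223) (nat_lit 211) (nat_lit 166)) (XT.nd (nat_lit 78) (nat_lit 152) (nat_lit 0) (XT.lf (nat_lit 0) (nat_lit 9634014641) (nat_lit 152) (nat_lit 25867282619) (nat_lit 76) (nat_lit 23524145400) (nat_lit 14) (nat_lit 5) (nat_lit 16) (nat_lit 5) (nat_lit 15) (nat_lit 5) (nat_lit 224) (nat_lit 211) (nat_lit 165)) (XT.lf (nat_lit 0) (nat_lit 14825937605) (nat_lit 152) (nat_lit 10377394793) (nat_lit 228) (nat_lit 40291691090)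 (nat_lit 12) (nat_lit 5) (nat_lit 14) (nat_lit 5) (nat_lit 15) (nat_lit 5) (nat_lit 225) (nat_lit 211) (nat_lit 164))))) (XT.nd (nat_lit 156) (nat_lit 304) (nat_lit 0) (XT.nd (nat_lit 78) (nat_lit 76) (nat_lit 0) (XT.lf (nat_lit 0) (nat_lit 44314133058) (nat_lit 228) (nat_lit 10168682298) (nat_lit 76) (nat_lit 18355784694) (nat_lit 12) (nat_lit 5) (nat_lit 15) (nat_lit 5) (nat_lit 13) (nat_lit 4) (nat_lit 226) (nat_lit 211) (nat_lit 163)) (XT.lf (nat_lit 0) (nat_lit 38004724001) (nat_lit 76) (nat_lit 29477542393) (nat_lit 152) (nat_lit 13706229200) (nat_lit 11) (nat_lit 5) (nat_lit 12) (nat_lit 5) (nat_lit 13) (nat_lit 4) (nat_lit 227) (nat_lit 211) (nat_lit 162))) (XT.nd (nat_lit 78) (nat_lit 76) (nat_lit 0) (XT.lf (nat_lit 0) (nat_lit 3315328663) (nat_lit 152) (nat_lit 226470795) (nat_lit 228) (nat_lit 87212781955) (nat_lit 8) (nat_lit 5) (nat_lit 10) (nat_lit 5) (nat_lit 11) (nat_lit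 5) (nat_lit 228) (nat_lit 211) (nat_lit 161)) (XT.nd (nat_lit 78) (nat_lit 76) (nat_lit 0) (XT.lf (nat_lit 0) (nat_lit 24673199609) (nat_lit 228) (nat_lit 43480584721) (nat_lit 76) (nat_lit 33404724644) (nat_lit 8) (nat_lit 5) (nat_lit 11) (nat_lit 5) (nat_lit 9) (nat_lit 4) (nat_lit 229) (nat_lit 211) (nat_lit 160)) (XT.lf (nat_lit 0) (nat_lit 7424268764) (nat_lit 76) (nat_lit 41727192302) (nat_lit 152) (nat_lit 64817416550) (nat_lit 7) (nat_lit 5) (nat_lit 8) (nat_lit 5) (nat_lit 9) (nat_lit 4) (nat_lit 230) (nat_lit 211) (nat_lit 159))))))))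
noncomputable def xc40 : XT := (XT.nd (nat_lit 1404) (nat_lit 0) (nat_lit 0) (XT.nd (nat_lit 702) (nat_lit 152) (nat_lit 0) (XT.nd (nat_lit 312) (nat_lit 152) (nat_lit 0) (XT.nd (nat_lit 156) (nat_lit 152) (nat_lit 0) (XT.nd (nat_lit 78) (nat_lit 0) (nat_lit 0) (XT.lf (nat_lit 0) (nat_lit 68586237913) (nat_lit 76) (nat_lit 9974167496) (nat_lit 152) (nat_lit 49579701567) (nat_lit 7) (nat_lit 5) (nat_lit 8) (nat_lit 5) (nat_lit 9) (nat_lit 4) (nat_lit 231) (nat_lit 211) (nat_lit 158)) (XT.lf (nat_lit 0) (nat_lit 113012883261) (nat_lit 152) (nat_lit 6163395301) (nat_lit 0) (nat_lit 25210185014) (nat_lit 7) (nat_lit 5) (nat_lit 9) (nat_lit 4) (nat_lit 7) (nat_lit 4) (nat_lit 232) (nat_lit 211) (nat_lit 157))) (XT.nd (nat_lit 78) (nat_lit 76) (nat_lit 0) (XT.lf (nat_lit 0) (nat_lit 57844220635) (nat_lit 76) (nat_lit 96450689313) (nat_lit 76) (nat_lit 8641945359) (nat_lit 6) (nat_lit 4) (nat_lit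 7) (nat_lit 5) (nat_lit 7) (nat_lit 4) (nat_lit 233) (nat_lit 211) (nat_lit 156)) (XT.lf (nat_lit 0) (nat_lit 16803160675) (nat_lit 152) (nat_lit 52863426887) (nat_lit 76) (nat_lit 114555232548) (nat_lit 5) (nat_lit 5) (nat_lit 7) (nat_lit 5) (nat_lit 6) (nat_lit 4) (nat_lit 234) (nat_lit 211) (nat_lit 155)))) (XT.nd (nat_lit 156) (nat_lit 76) (nat_lit 0) (XT.nd (nat_lit 78) (nat_lit 0) (nat_lit 0) (XT.lf (nat_lit 0) (nat_lit 7319773529) (nat_lit 76) (nat_lit 38419815914) (nat_lit 152) (nat_lit 162927093456) (nat_lit 4) (nat_lit 5) (nat_lit 5) (nat_lit 5) (nat_lit 6) (nat_lit 4) (nat_lit 235) (nat_lit 211) (nat_lit 154)) (XT.lf (nat_lit 0) (nat_lit 79724802221) (nat_lit 76) (nat_lit 826808300) (nat_lit 152) (nat_lit 156103863974) (nat_lit 4) (nat_lit 5) (nat_lit 5) (nat_lit 5) (nat_lit 6) (nat_lit 4) (nat_lit 236) (nat_lit 211) (nat_lit 153))) (XT.nd (nat_lit 78) (nat_lit 76) (nat_lit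 0) (XT.lf (nat_lit 0) (nat_lit 121601796914) (nat_lit 152) (nat_lit 106878064772) (nat_lit 0) (nat_lit 40281422545) (nat_lit 4) (nat_lit 5) (nat_lit 6) (nat_lit 4) (nat_lit 4) (nat_lit 4) (nat_lit 237) (nat_lit 211) (nat_lit 152)) (XT.nd (nat_lit 78) (nat_lit 76) (nat_lit 0) (XT.lf (nat_lit 0) (nat_lit 168829350271) (nat_lit 152) (nat_lit 49345842546) (nat_lit 0) (nat_lit 87506192769) (nat_lit 4) (nat_lit 5) (nat_lit 6) (nat_lit 4) (nat_lit 4) (nat_lit 4) (nat_lit 238) (nat_lit 211) (nat_lit 151)) (XT.lf (nat_lit 0) (nat_lit 17696773899) (nat_lit 76) (nat_lit 205867237122) (nat_lit 76) (nat_lit 124541659502) (nat_lit 3) (nat_lit 4) (nat_lit 4) (nat_lit 5) (nat_lit 4) (nat_lit 4) (nat_lit 239) (nat_lit 211) (nat_lit 150)))))) (XT.nd (nat_lit 312) (nat_lit 152) (nat_lit 0) (XT.nd (nat_lit 156) (nat_lit 0) (nat_lit 0) (XT.nd (nat_lit 78) (nat_lit 0) (nat_lit 0) (XT.lf (nat_lit 0) (nat_lit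 97779711829) (nat_lit 76) (nat_lit 190163416668) (nat_lit 76) (nat_lit 108835734599) (nat_lit 3) (nat_lit 4) (nat_lit 4) (nat_lit 5) (nat_lit 4) (nat_lit 4) (nat_lit 240) (nat_lit 211) (nat_lit 149)) (XT.lf (nat_lit 0) (nat_lit 189871346713) (nat_lit 76) (nat_lit 172105685579) (nat_lit 76) (nat_lit 90776173555) (nat_lit 3) (nat_lit 4) (nat_lit 4) (nat_lit 5) (nat_lit 4) (nat_lit 4) (nat_lit 241) (nat_lit 211) (nat_lit 148))) (XT.nd (nat_lit 78) (nat_lit 0) (nat_lit 0) (XT.lf (nat_lit 0) (nat_lit 295773471407) (nat_lit 76) (nat_lit 151340740420) (nat_lit 76) (nat_lit 70009637130) (nat_lit 3) (nat_lit 4) (nat_lit 4) (nat_lit 5) (nat_lit 4) (nat_lit 4) (nat_lit 242) (nat_lit 211) (nat_lit 147)) (XT.lf (nat_lit 0) (nat_lit 417558084003) (nat_lit 76) (nat_lit 127462310526) (nat_lit 76) (nat_lit 46129823526) (nat_lit 3) (nat_lit 4) (nat_lit 4) (nat_lit 5) (nat_lit 4) (nat_lit 4) (nat_lit 243)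 (nat_lit 211) (nat_lit 146)))) (XT.nd (nat_lit 156) (nat_lit 76) (nat_lit 0) (XT.nd (nat_lit 78) (nat_lit 76) (nat_lit 0) (XT.lf (nat_lit 0) (nat_lit 557607926922) (nat_lit 76) (nat_lit 100003209224) (nat_lit 76) (nat_lit 18669518998) (nat_lit 3) (nat_lit 4) (nat_lit 4) (nat_lit 5) (nat_lit 4) (nat_lit 4) (nat_lit 244) (nat_lit 211) (nat_lit 145)) (XT.lf (nat_lit 0) (nat_lit 12262805665) (nat_lit 152) (nat_lit 55828100724) (nat_lit 76) (nat_lit 706065013282) (nat_lit 2) (nat_lit 5) (nat_lit 4) (nat_lit 5) (nat_lit 3) (nat_lit 4) (nat_lit 245) (nat_lit 211) (nat_lit 144))) (XT.nd (nat_lit 78) (nat_lit 0) (nat_lit 0) (XT.lf (nat_lit 0) (nat_lit 16763528208) (nat_lit 76) (nat_lit 30399536468) (nat_lit 152) (nat_lit 839475935238) (nat_lit 1) (nat_lit 5) (nat_lit 2) (nat_lit 5) (nat_lit 3) (nat_lit 4) (nat_lit 246) (nat_lit 211) (nat_lit 143)) (XT.nd (nat_lit 78) (nat_lit 0) (nat_lit 0) (XT.lf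 (nat_lit 0) (nat_lit 89276309293) (nat_lit 152) (nat_lit 912595205951) (nat_lit 0) (nat_lit 13964793125) (nat_lit 1) (nat_lit 5) (nat_lit 3) (nat_lit 4) (nat_lit 1) (nat_lit 4) (nat_lit 247) (nat_lit 211) (nat_lit 142)) (XT.lf (nat_lit 0) (nat_lit 138546458891) (nat_lit 152) (nat_lit 962565256670) (nat_lit 0) (nat_lit 63234305734) (nat_lit 1) (nat_lit 5) (nat_lit 3) (nat_lit 4) (nat_lit 1) (nat_lit 4) (nat_lit 248) (nat_lit 211) (nat_lit 141))))))) (XT.nd (nat_lit 702) (nat_lit 0) (nat_lit 0) (XT.nd (nat_lit 312) (nat_lit 0) (nat_lit 0) (XT.nd (nat_lit 156) (nat_lit 0) (nat_lit 0) (XT.nd (nat_lit 78) (nat_lit 0) (nat_lit 0) (XT.lf (nat_lit 0) (nat_lit 195206385076) (nat_lit 152) (nat_lit 1020032189185) (nat_lit 0) (nat_lit 119893678016) (nat_lit 1) (nat_lit 5) (nat_lit 3) (nat_lit 4) (nat_lit 1) (nat_lit 4) (nat_lit 249) (nat_lit 211) (nat_lit 140)) (XT.lf (nat_lit 0) (nat_lit 260364651622)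 (nat_lit 152) (nat_lit 1086120356524) (nat_lit 0) (nat_lit 185051462907) (nat_lit 1) (nat_lit 5) (nat_lit 3) (nat_lit 4) (nat_lit 1) (nat_lit 4) (nat_lit 250) (nat_lit 211) (nat_lit 139))) (XT.nd (nat_lit 78) (nat_lit 0) (nat_lit 0) (XT.lf (nat_lit 0) (nat_lit 335296094177) (nat_lit 152) (nat_lit 1162122788048) (nat_lit 0) (nat_lit 259982486632) (nat_lit 1) (nat_lit 5) (nat_lit 3) (nat_lit 4) (nat_lit 1) (nat_lit 4) (nat_lit 251) (nat_lit 211) (nat_lit 138)) (XT.lf (nat_lit 0) (nat_lit 421466762706) (nat_lit 152) (nat_lit 1249526487851) (nat_lit 0) (nat_lit 346152790960) (nat_lit 1) (nat_lit 5) (nat_lit 3) (nat_lit 4) (nat_lit 1) (nat_lit 4) (nat_lit 252) (nat_lit 211) (nat_lit 137)))) (XT.nd (nat_lit 156) (nat_lit 0) (nat_lit 0) (XT.nd (nat_lit 78) (nat_lit 0) (nat_lit 0) (XT.lf (nat_lit 0) (nat_lit 520562605071) (nat_lit 152) (nat_lit 1350041528322) (nat_lit 0) (nat_lit 445248316628)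 (nat_lit 1) (nat_lit 5) (nat_lit 3) (nat_lit 4) (nat_lit 1) (nat_lit 4) (nat_lit 253) (nat_lit 211) (nat_lit 136)) (XT.lf (nat_lit 0) (nat_lit 634522452969) (nat_lit 152) (nat_lit 1465634508077) (nat_lit 0) (nat_lit 559207889139) (nat_lit 1) (nat_lit 5) (nat_lit 3) (nat_lit 4) (nat_lit 1) (nat_lit 4) (nat_lit 254) (nat_lit 211) (nat_lit 135))) (XT.nd (nat_lit 78) (nat_lit 0) (nat_lit 0) (XT.lf (nat_lit 0) (nat_lit 765575955600) (nat_lit 152) (nat_lit 1598567028896) (nat_lit 0) (nat_lit 690261152302) (nat_lit 1) (nat_lit 5) (nat_lit 3) (nat_lit 4) (nat_lit 1) (nat_lit 4) (nat_lit 255) (nat_lit 211) (nat_lit 134)) (XT.nd (nat_lit 78) (nat_lit 0) (nat_lit 0) (XT.lf (nat_lit 0) (nat_lit 916287203232) (nat_lit 152) (nat_lit 1751439944445) (nat_lit 0) (nat_lit 840972191700) (nat_lit 1) (nat_lit 5) (nat_lit 3) (nat_lit 4) (nat_lit 1) (nat_lit 4) (nat_lit 256) (nat_lit 211) (nat_lit 133)) (XT.lf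 (nat_lit 0) (nat_lit 1089604894188) (nat_lit 152) (nat_lit 1927244246552) (nat_lit 0) (nat_lit 1014289701584) (nat_lit 1) (nat_lit 5) (nat_lit 3) (nat_lit 4) (nat_lit 1) (nat_lit 4) (nat_lit 257) (nat_lit 211) (nat_lit 132)))))) (XT.nd (nat_lit 28002) (nat_lit 0) (nat_lit 1672) (XT.nd (nat_lit 27768) (nat_lit 0) (nat_lit 2432) (XT.nd (nat_lit 27690) (nat_lit 0) (nat_lit 2356) (XT.lf (nat_lit 0) (nat_lit 1288920026769) (nat_lit 152) (nat_lit 2129419584604) (nat_lit 0) (nat_lit 1213604676712) (nat_lit 1) (nat_lit 5) (nat_lit 3) (nat_lit 4) (nat_lit 1) (nat_lit 4) (nat_lit 258) (nat_lit 211) (nat_lit 131)) (XT.lf (nat_lit 0) (nat_lit 2149406884) (nat_lit 532) (nat_lit 4447666583) (nat_lit 532) (nat_lit 4447666583) (nat_lit 32) (nat_lit 3) (nat_lit 39) (nat_lit 3) (nat_lit 39) (nat_lit 5) (nat_lit 212) (nat_lit 212) (nat_lit 176))) (XT.nd (nat_lit 78) (nat_lit 0) (nat_lit 0) (XT.lf (nat_lit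 0) (nat_lit 5130453479) (nat_lit 456) (nat_lit 15144236882) (nat_lit 532) (nat_lit 3429377898) (nat_lit 33) (nat_lit 5) (nat_lit 39) (nat_lit 5) (nat_lit 40) (nat_lit 5) (nat_lit 213) (nat_lit 212) (nat_lit 175)) (XT.nd (nat_lit 78) (nat_lit 0) (nat_lit 76) (XT.lf (nat_lit 76) (nat_lit 3404938273) (nat_lit 0) (nat_lit 3356137627) (nat_lit 532) (nat_lit 18746076323) (nat_lit 34) (nat_lit 5) (nat_lit 33) (nat_lit 5) (nat_lit 40) (nat_lit 5) (nat_lit 214) (nat_lit 212) (nat_lit 174)) (XT.lf (nat_lit 0) (nat_lit 9442268510) (nat_lit 456) (nat_lit 2317083854) (nat_lit 532) (nat_lit 15757082644) (nat_lit 34) (nat_lit 5) (nat_lit 40) (nat_lit 5) (nat_lit 41) (nat_lit 5) (nat_lit 215) (nat_lit 212) (nat_lit 173))))) (XT.nd (nat_lit 156) (nat_lit 456) (nat_lit 0) (XT.nd (nat_lit 78) (nat_lit 456) (nat_lit 0) (XT.lf (nat_lit 0) (nat_lit 13302961794) (nat_lit 456) (nat_lit 8590442743) (nat_lit 76)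 (nat_lit 7871706338) (nat_lit 35) (nat_lit 5) (nat_lit 41) (nat_lit 5) (nat_lit 36) (nat_lit 5) (nat_lit 216) (nat_lit 212) (nat_lit 172)) (XT.lf (nat_lit 0) (nat_lit 16457594533) (nat_lit 456) (nat_lit 2049620401) (nat_lit 532) (nat_lit 13782878815) (nat_lit 29) (nat_lit 5) (nat_lit 35) (nat_lit 5) (nat_lit 36) (nat_lit 5) (nat_lit 217) (nat_lit 212) (nat_lit 171))) (XT.nd (nat_lit 78) (nat_lit 228) (nat_lit 0) (XT.lf (nat_lit 0) (nat_lit 10610454331) (nat_lit 228) (nat_lit 14870053602) (nat_lit 304) (nat_lit 9634384922) (nat_lit 26) (nat_lit 5) (nat_lit 29) (nat_lit 5) (nat_lit 30) (nat_lit 5) (nat_lit 218) (nat_lit 212) (nat_lit 170)) (XT.nd (nat_lit 78) (nat_lit 76) (nat_lit 0) (XT.lf (nat_lit 0) (nat_lit 3561669341) (nat_lit 152) (nat_lit 30709579189) (nat_lit 228) (nat_lit 4030569572) (nat_lit 24) (nat_lit 5) (nat_lit 26) (nat_lit 5) (nat_lit 27) (nat_lit 5) (nat_lit 219) (nat_lit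 212) (nat_lit 169)) (XT.lf (nat_lit 0) (nat_lit 3417400409) (nat_lit 228) (nat_lit 5098340687) (nat_lit 76) (nat_lit 33356549031) (nat_lit 23) (nat_lit 5) (nat_lit 26) (nat_lit 5) (nat_lit 24) (nat_lit 5) (nat_lit 220) (nat_lit 212) (nat_lit 168))))))))
noncomputable def xc41 : XT := (XT.nd (nat_lit 1482) (nat_lit 228) (nat_lit 0) (XT.nd (nat_lit 702) (nat_lit 304) (nat_lit 0) (XT.nd (nat_lit 312) (nat_lit 608) (nat_lit 0) (XT.nd (nat_lit 156) (nat_lit 152) (nat_lit 0) (XT.nd (nat_lit 78) (nat_lit 152) (nat_lit 0) (XT.lf (nat_lit 0) (nat_lit 12895696254) (nat_lit 304) (nat_lit 15964740390) (nat_lit 76) (nat_lit 17017464111) (nat_lit 20) (nat_lit 5) (nat_lit 24) (nat_lit 5) (nat_lit 21) (nat_lit 5) (nat_lit 221) (nat_lit 212) (nat_lit 167)) (XT.lf (nat_lit 0) (nat_lit 20794496573) (nat_lit 152) (nat_lit 3874374797) (nat_lit 228) (nat_lit 25745705436) (nat_lit 18) (nat_lit 5) (nat_lit 20)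 (nat_lit 5) (nat_lit 21) (nat_lit 5) (nat_lit 222) (nat_lit 212) (nat_lit 166))) (XT.nd (nat_lit 78) (nat_lit 0) (nat_lit 0) (XT.lf (nat_lit 0) (nat_lit 8222799028) (nat_lit 152) (nat_lit 31244350741) (nat_lit 228) (nat_lit 16063939219) (nat_lit 16) (nat_lit 5) (nat_lit 18) (nat_lit 5) (nat_lit 19) (nat_lit 5) (nat_lit 223) (nat_lit 212) (nat_lit 165)) (XT.lf (nat_lit 0) (nat_lit 53406156040) (nat_lit 152) (nat_lit 4033778260) (nat_lit 228) (nat_lit 3898818974) (nat_lit 16) (nat_lit 5) (nat_lit 18) (nat_lit 5) (nat_lit 19) (nat_lit 5) (nat_lit 224) (nat_lit 212) (nat_lit 164)))) (XT.nd (nat_lit 156) (nat_lit 304) (nat_lit 0) (XT.nd (nat_lit 78) (nat_lit 152) (nat_lit 0) (XT.lf (nat_lit 0) (nat_lit 11200664934) (nat_lit 152) (nat_lit 29565430252) (nat_lit 76) (nat_lit 27102950866) (nat_lit 14) (nat_lit 5) (nat_lit 16) (nat_lit 5) (nat_lit 15) (nat_lit 5) (nat_lit 225) (nat_lit 212) (nat_lit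 163)) (XT.lf (nat_lit 0) (nat_lit 17216372288) (nat_lit 152) (nat_lit 11877159355) (nat_lit 228) (nat_lit 46216544061) (nat_lit 12) (nat_lit 5) (nat_lit 14) (nat_lit 5) (nat_lit 15) (nat_lit 5) (nat_lit 226) (nat_lit 212) (nat_lit 162))) (XT.nd (nat_lit 78) (nat_lit 304) (nat_lit 0) (XT.lf (nat_lit 0) (nat_lit 51057832582) (nat_lit 228) (nat_lit 11542351395) (nat_lit 76) (nat_lit 21156109840) (nat_lit 12) (nat_lit 5) (nat_lit 15) (nat_lit 5) (nat_lit 13) (nat_lit 4) (nat_lit 227) (nat_lit 212) (nat_lit 161)) (XT.nd (nat_lit 78) (nat_lit 228) (nat_lit 0) (XT.lf (nat_lit 0) (nat_lit 43844230850) (nat_lit 76) (nat_lit 33847695836) (nat_lit 152) (nat_lit 15667535991) (nat_lit 11) (nat_lit 5) (nat_lit 12) (nat_lit 5) (nat_lit 13) (nat_lit 4) (nat_lit 228) (nat_lit 212) (nat_lit 160)) (XT.lf (nat_lit 0) (nat_lit 3944283203) (nat_lit 152) (nat_lit 210121124) (nat_lit 228) (nat_lit 100206598541)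 (nat_lit 8) (nat_lit 5) (nat_lit 10) (nat_lit 5) (nat_lit 11) (nat_lit 5) (nat_lit 229) (nat_lit 212) (nat_lit 159)))))) (XT.nd (nat_lit 390) (nat_lit 152) (nat_lit 0) (XT.nd (nat_lit 156) (nat_lit 76) (nat_lit 0) (XT.nd (nat_lit 78) (nat_lit 76) (nat_lit 0) (XT.lf (nat_lit 0) (nat_lit 28445957946) (nat_lit 228) (nat_lit 49883358694) (nat_lit 76) (nat_lit 38457001224) (nat_lit 8) (nat_lit 5) (nat_lit 11) (nat_lit 5) (nat_lit 9) (nat_lit 4) (nat_lit 230) (nat_lit 212) (nat_lit 158)) (XT.lf (nat_lit 0) (nat_lit 8647123500) (nat_lit 76) (nat_lit 47942099332) (nat_lit 152) (nat_lit 74469587207) (nat_lit 7) (nat_lit 5) (nat_lit 8) (nat_lit 5) (nat_lit 9) (nat_lit 4) (nat_lit 231) (nat_lit 212) (nat_lit 157))) (XT.nd (nat_lit 78) (nat_lit 76) (nat_lit 0) (XT.lf (nat_lit 0) (nat_lit 78969142662) (nat_lit 76) (nat_lit 11431882346) (nat_lit 152) (nat_lit 56955403041) (nat_lit 7) (nat_lit 5) (nat_lit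 8) (nat_lit 5) (nat_lit 9) (nat_lit 4) (nat_lit 232) (nat_lit 212) (nat_lit 156)) (XT.nd (nat_lit 78) (nat_lit 76) (nat_lit 0) (XT.lf (nat_lit 0) (nat_lit 130014800581) (nat_lit 152) (nat_lit 7002043493) (nat_lit 0) (nat_lit 29023442189) (nat_lit 7) (nat_lit 5) (nat_lit 9) (nat_lit 4) (nat_lit 7) (nat_lit 4) (nat_lit 233) (nat_lit 212) (nat_lit 155)) (XT.lf (nat_lit 0) (nat_lit 66599447119) (nat_lit 76) (nat_lit 110885054565) (nat_lit 76) (nat_lit 9889124750) (nat_lit 6) (nat_lit 4) (nat_lit 7) (nat_lit 5) (nat_lit 7) (nat_lit 4) (nat_lit 234) (nat_lit 212) (nat_lit 154))))) (XT.nd (nat_lit 156) (nat_lit 0) (nat_lit 0) (XT.nd (nat_lit 78) (nat_lit 76) (nat_lit 0) (XT.lf (nat_lit 0) (nat_lit 19364204872) (nat_lit 152) (nat_lit 60722358830) (nat_lit 76) (nat_lit 131765180152) (nat_lit 5) (nat_lit 5) (nat_lit 7) (nat_lit 5) (nat_lit 6) (nat_lit 4) (nat_lit 235) (nat_lit 212) (nat_lit 153))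 (XT.lf (nat_lit 0) (nat_lit 8482347226) (nat_lit 76) (nat_lit 44155012795) (nat_lit 152) (nat_lit 187326288599) (nat_lit 4) (nat_lit 5) (nat_lit 5) (nat_lit 5) (nat_lit 6) (nat_lit 4) (nat_lit 236) (nat_lit 212) (nat_lit 152))) (XT.nd (nat_lit 78) (nat_lit 0) (nat_lit 0) (XT.lf (nat_lit 0) (nat_lit 91739703135) (nat_lit 76) (nat_lit 926676931) (nat_lit 152) (nat_lit 179484774983) (nat_lit 4) (nat_lit 5) (nat_lit 5) (nat_lit 5) (nat_lit 6) (nat_lit 4) (nat_lit 237) (nat_lit 212) (nat_lit 151)) (XT.nd (nat_lit 78) (nat_lit 0) (nat_lit 0) (XT.lf (nat_lit 0) (nat_lit 139870421961) (nat_lit 152) (nat_lit 122859130722) (nat_lit 0) (nat_lit 46343587582) (nat_lit 4) (nat_lit 5) (nat_lit 6) (nat_lit 4) (nat_lit 4) (nat_lit 4) (nat_lit 238) (nat_lit 212) (nat_lit 150)) (XT.lf (nat_lit 0) (nat_lit 194178409777) (nat_lit 152) (nat_lit 56703680870) (nat_lit 0) (nat_lit 100649470949) (nat_lit 4) (nat_lit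 5) (nat_lit 6) (nat_lit 4) (nat_lit 4) (nat_lit 4) (nat_lit 239) (nat_lit 212) (nat_lit 149))))))) (XT.nd (nat_lit 702) (nat_lit 0) (nat_lit 0) (XT.nd (nat_lit 312) (nat_lit 152) (nat_lit 0) (XT.nd (nat_lit 156) (nat_lit 0) (nat_lit 0) (XT.nd (nat_lit 78) (nat_lit 0) (nat_lit 0) (XT.lf (nat_lit 0) (nat_lit 20391600439) (nat_lit 76) (nat_lit 236729422542) (nat_lit 76) (nat_lit 143198653758) (nat_lit 3) (nat_lit 4) (nat_lit 4) (nat_lit 5) (nat_lit 4) (nat_lit 4) (nat_lit 240) (nat_lit 212) (nat_lit 148)) (XT.lf (nat_lit 0) (nat_lit 112481721173) (nat_lit 76) (nat_lit 218672363822) (nat_lit 76) (nat_lit 125140003772) (nat_lit 3) (nat_lit 4) (nat_lit 4) (nat_lit 5) (nat_lit 4) (nat_lit 4) (nat_lit 241) (nat_lit 212) (nat_lit 147))) (XT.nd (nat_lit 78) (nat_lit 0) (nat_lit 0) (XT.lf (nat_lit 0) (nat_lit 218382529215) (nat_lit 76) (nat_lit 197908003332) (nat_lit 76) (nat_lit 104374259572) (nat_lit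 3) (nat_lit 4) (nat_lit 4) (nat_lit 5) (nat_lit 4) (nat_lit 4) (nat_lit 242) (nat_lit 212) (nat_lit 146)) (XT.lf (nat_lit 0) (nat_lit 340165996897) (nat_lit 76) (nat_lit 174030081845) (nat_lit 76) (nat_lit 80495134860) (nat_lit 3) (nat_lit 4) (nat_lit 4) (nat_lit 5) (nat_lit 4) (nat_lit 4) (nat_lit 243) (nat_lit 212) (nat_lit 145)))) (XT.nd (nat_lit 156) (nat_lit 152) (nat_lit 0) (XT.nd (nat_lit 78) (nat_lit 0) (nat_lit 0) (XT.lf (nat_lit 0) (nat_lit 480214844238) (nat_lit 76) (nat_lit 146571422637) (nat_lit 76) (nat_lit 53035429369) (nat_lit 3) (nat_lit 4) (nat_lit 4) (nat_lit 5) (nat_lit 4) (nat_lit 4) (nat_lit 244) (nat_lit 212) (nat_lit 144)) (XT.lf (nat_lit 0) (nat_lit 641269157381) (nat_lit 76) (nat_lit 114994791070) (nat_lit 76) (nat_lit 21457887990) (nat_lit 3) (nat_lit 4) (nat_lit 4) (nat_lit 5) (nat_lit 4) (nat_lit 4) (nat_lit 245) (nat_lit 212) (nat_lit 143))) (XT.nd (nat_lit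 78) (nat_lit 76) (nat_lit 0) (XT.lf (nat_lit 0) (nat_lit 14112187928) (nat_lit 152) (nat_lit 64184343329) (nat_lit 76) (nat_lit 811981958821) (nat_lit 2) (nat_lit 5) (nat_lit 4) (nat_lit 5) (nat_lit 3) (nat_lit 4) (nat_lit 246) (nat_lit 212) (nat_lit 142)) (XT.nd (nat_lit 78) (nat_lit 0) (nat_lit 0) (XT.lf (nat_lit 0) (nat_lit 19294508661) (nat_lit 76) (nat_lit 34952073468) (nat_lit 152) (nat_lit 965387525213) (nat_lit 1) (nat_lit 5) (nat_lit 2) (nat_lit 5) (nat_lit 3) (nat_lit 4) (nat_lit 247) (nat_lit 212) (nat_lit 141)) (XT.lf (nat_lit 0) (nat_lit 102675786612) (nat_lit 152) (nat_lit 1049469690350) (nat_lit 0) (nat_lit 16065619589) (nat_lit 1) (nat_lit 5) (nat_lit 3) (nat_lit 4) (nat_lit 1) (nat_lit 4) (nat_lit 248) (nat_lit 212) (nat_lit 140)))))) (XT.nd (nat_lit 390) (nat_lit 0) (nat_lit 0) (XT.nd (nat_lit 156) (nat_lit 0) (nat_lit 0) (XT.nd (nat_lit 78) (nat_lit 0) (nat_lit 0) (XT.lf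 (nat_lit 0) (nat_lit 159335411138) (nat_lit 152) (nat_lit 1106937178654) (nat_lit 0) (nat_lit 72724762460) (nat_lit 1) (nat_lit 5) (nat_lit 3) (nat_lit 4) (nat_lit 1) (nat_lit 4) (nat_lit 249) (nat_lit 212) (nat_lit 139)) (XT.lf (nat_lit 0) (nat_lit 224493415371) (nat_lit 152) (nat_lit 1173025829288) (nat_lit 0) (nat_lit 137882347862) (nat_lit 1) (nat_lit 5) (nat_lit 3) (nat_lit 4) (nat_lit 1) (nat_lit 4) (nat_lit 250) (nat_lit 212) (nat_lit 138))) (XT.nd (nat_lit 78) (nat_lit 0) (nat_lit 0) (XT.lf (nat_lit 0) (nat_lit 299424629829) (nat_lit 152) (nat_lit 1249028681068) (nat_lit 0) (nat_lit 212813198120) (nat_lit 1) (nat_lit 5) (nat_lit 3) (nat_lit 4) (nat_lit 1) (nat_lit 4) (nat_lit 251) (nat_lit 212) (nat_lit 137)) (XT.nd (nat_lit 78) (nat_lit 0) (nat_lit 0) (XT.lf (nat_lit 0) (nat_lit 385595100012) (nat_lit 152) (nat_lit 1336432746312) (nat_lit 0) (nat_lit 298983351606) (nat_lit 1)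 (nat_lit 5) (nat_lit 3) (nat_lit 4) (nat_lit 1) (nat_lit 4) (nat_lit 252) (nat_lit 212) (nat_lit 136)) (XT.lf (nat_lit 0) (nat_lit 484690769901) (nat_lit 152) (nat_lit 1436948104556) (nat_lit 0) (nat_lit 398078746108) (nat_lit 1) (nat_lit 5) (nat_lit 3) (nat_lit 4) (nat_lit 1) (nat_lit 4) (nat_lit 253) (nat_lit 212) (nat_lit 135))))) (XT.nd (nat_lit 156) (nat_lit 0) (nat_lit 0) (XT.nd (nat_lit 78) (nat_lit 0) (nat_lit 0) (XT.lf (nat_lit 0) (nat_lit 598650467822) (nat_lit 152) (nat_lit 1552541360637) (nat_lit 0) (nat_lit 512038204561) (nat_lit 1) (nat_lit 5) (nat_lit 3) (nat_lit 4) (nat_lit 1) (nat_lit 4) (nat_lit 254) (nat_lit 212) (nat_lit 134)) (XT.lf (nat_lit 0) (nat_lit 729703840037) (nat_lit 152) (nat_lit 1685474121739) (nat_lit 0) (nat_lit 643091368543) (nat_lit 1) (nat_lit 5) (nat_lit 3) (nat_lit 4) (nat_lit 1) (nat_lit 4) (nat_lit 255) (nat_lit 212) (nat_lit 133))) (XT.nd (nat_lit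 78) (nat_lit 0) (nat_lit 0) (XT.lf (nat_lit 0) (nat_lit 880414974264) (nat_lit 152) (nat_lit 1838347246230) (nat_lit 0) (nat_lit 793802321698) (nat_lit 1) (nat_lit 5) (nat_lit 3) (nat_lit 4) (nat_lit 1) (nat_lit 4) (nat_lit 256) (nat_lit 212) (nat_lit 132)) (XT.nd (nat_lit 27846) (nat_lit 0) (nat_lit 2356) (XT.lf (nat_lit 0) (nat_lit 1053732566607) (nat_lit 152) (nat_lit 2014151730025) (nat_lit 0) (nat_lit 967119756587) (nat_lit 1) (nat_lit 5) (nat_lit 3) (nat_lit 4) (nat_lit 1) (nat_lit 4) (nat_lit 257) (nat_lit 212) (nat_lit 131)) (XT.lf (nat_lit 0) (nat_lit 2677234411) (nat_lit 532) (nat_lit 5003228051) (nat_lit 532) (nat_lit 5003228051) (nat_lit 32) (nat_lit 3) (nat_lit 39) (nat_lit 3) (nat_lit 39) (nat_lit 5) (nat_lit 213) (nat_lit 213) (nat_lit 174))))))))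
noncomputable def xc42 : XT := (XT.nd (nat_lit 1482) (nat_lit 456) (nat_lit 0) (XT.nd (nat_lit 702) (nat_lit 988) (nat_lit 0) (XT.nd (nat_lit 312) (nat_lit 988) (nat_lit 0) (XT.nd (nat_lit 156) (nat_lit 0) (nat_lit 76) (XT.nd (nat_lit 78) (nat_lit 0) (nat_lit 0) (XT.lf (nat_lit 0) (nat_lit 6258383818) (nat_lit 456) (nat_lit 17176508400) (nat_lit 532) (nat_lit 3793809075) (nat_lit 33) (nat_lit 5) (nat_lit 39) (nat_lit 5) (nat_lit 40) (nat_lit 5) (nat_lit 214) (nat_lit 213) (nat_lit 173)) (XT.lf (nat_lit 76) (nat_lit 4134782057) (nat_lit 0) (nat_lit 3957344069) (nat_lit 532) (nat_lit 21213740678) (nat_lit 34) (nat_lit 5) (nat_lit 33) (nat_lit 5) (nat_lit 40) (nat_lit 5) (nat_lit 215) (nat_lit 213) (nat_lit 172))) (XT.nd (nat_lit 78) (nat_lit 0) (nat_lit 76) (XT.lf (nat_lit 0) (nat_lit 11132119299) (nat_lit 456) (nat_lit 2448287261) (nat_lit 532) (nat_lit 18039867514) (nat_lit 34) (nat_lit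 5) (nat_lit 40) (nat_lit 5) (nat_lit 41) (nat_lit 5) (nat_lit 216) (nat_lit 213) (nat_lit 171)) (XT.lf (nat_lit 0) (nat_lit 15539932794) (nat_lit 456) (nat_lit 9658966666) (nat_lit 76) (nat_lit 9010138219) (nat_lit 35) (nat_lit 5) (nat_lit 41) (nat_lit 5) (nat_lit 36) (nat_lit 5) (nat_lit 217) (nat_lit 213) (nat_lit 170)))) (XT.nd (nat_lit 156) (nat_lit 456) (nat_lit 0) (XT.nd (nat_lit 78) (nat_lit 228) (nat_lit 0) (XT.lf (nat_lit 0) (nat_lit 19127650702) (nat_lit 456) (nat_lit 2370513800) (nat_lit 532) (nat_lit 15616934193) (nat_lit 29) (nat_lit 5) (nat_lit 35) (nat_lit 5) (nat_lit 36) (nat_lit 5) (nat_lit 218) (nat_lit 213) (nat_lit 169)) (XT.lf (nat_lit 0) (nat_lit 12403629037) (nat_lit 228) (nat_lit 17090363595) (nat_lit 304) (nat_lit 10871673879) (nat_lit 26) (nat_lit 5) (nat_lit 29) (nat_lit 5) (nat_lit 30) (nat_lit 5) (nat_lit 219) (nat_lit 213) (nat_lit 168))) (XT.nd (nat_lit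 78) (nat_lit 304) (nat_lit 0) (XT.lf (nat_lit 0) (nat_lit 4295303798) (nat_lit 152) (nat_lit 35288082657) (nat_lit 228) (nat_lit 4448990405) (nat_lit 24) (nat_lit 5) (nat_lit 26) (nat_lit 5) (nat_lit 27) (nat_lit 5) (nat_lit 220) (nat_lit 213) (nat_lit 167)) (XT.nd (nat_lit 78) (nat_lit 228) (nat_lit 0) (XT.lf (nat_lit 0) (nat_lit 4083794728) (nat_lit 228) (nat_lit 5680812877) (nat_lit 76) (nat_lit 38375419834) (nat_lit 23) (nat_lit 5) (nat_lit 26) (nat_lit 5) (nat_lit 24) (nat_lit 5) (nat_lit 221) (nat_lit 213) (nat_lit 166)) (XT.lf (nat_lit 0) (nat_lit 14968489016) (nat_lit 304) (nat_lit 18181583953) (nat_lit 76) (nat_lit 19597739167) (nat_lit 20) (nat_lit 5) (nat_lit 24) (nat_lit 5) (nat_lit 21) (nat_lit 5) (nat_lit 222) (nat_lit 213) (nat_lit 165)))))) (XT.nd (nat_lit 390) (nat_lit 380) (nat_lit 0) (XT.nd (nat_lit 156) (nat_lit 304) (nat_lit 0) (XT.nd (nat_lit 78) (nat_lit 152) (nat_lit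 0) (XT.lf (nat_lit 0) (nat_lit 24076482957) (nat_lit 152) (nat_lit 4417015899) (nat_lit 228) (nat_lit 29472713191) (nat_lit 18) (nat_lit 5) (nat_lit 20) (nat_lit 5) (nat_lit 21) (nat_lit 5) (nat_lit 223) (nat_lit 213) (nat_lit 164)) (XT.lf (nat_lit 0) (nat_lit 9614059847) (nat_lit 152) (nat_lit 35885848094) (nat_lit 228) (nat_lit 18351301248) (nat_lit 16) (nat_lit 5) (nat_lit 18) (nat_lit 5) (nat_lit 19) (nat_lit 5) (nat_lit 224) (nat_lit 213) (nat_lit 163))) (XT.nd (nat_lit 78) (nat_lit 304) (nat_lit 0) (XT.lf (nat_lit 0) (nat_lit 61554332459) (nat_lit 152) (nat_lit 4599579557) (nat_lit 228) (nat_lit 4377355859) (nat_lit 16) (nat_lit 5) (nat_lit 18) (nat_lit 5) (nat_lit 19) (nat_lit 5) (nat_lit 225) (nat_lit 213) (nat_lit 162)) (XT.nd (nat_lit 78) (nat_lit 152) (nat_lit 0) (XT.lf (nat_lit 0) (nat_lit 12972672498) (nat_lit 152) (nat_lit 33862668412) (nat_lit 76) (nat_lit 31206339550)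 (nat_lit 14) (nat_lit 5) (nat_lit 16) (nat_lit 5) (nat_lit 15) (nat_lit 5) (nat_lit 226) (nat_lit 213) (nat_lit 161)) (XT.lf (nat_lit 0) (nat_lit 19924759355) (nat_lit 152) (nat_lit 13615750531) (nat_lit 228) (nat_lit 53059119664) (nat_lit 12) (nat_lit 5) (nat_lit 14) (nat_lit 5) (nat_lit 15) (nat_lit 5) (nat_lit 227) (nat_lit 213) (nat_lit 160))))) (XT.nd (nat_lit 156) (nat_lit 304) (nat_lit 0) (XT.nd (nat_lit 78) (nat_lit 76) (nat_lit 0) (XT.lf (nat_lit 0) (nat_lit 58789535497) (nat_lit 228) (nat_lit 13159047585) (nat_lit 76) (nat_lit 24365032888) (nat_lit 12) (nat_lit 5) (nat_lit 15) (nat_lit 5) (nat_lit 13) (nat_lit 4) (nat_lit 228) (nat_lit 213) (nat_lit 159)) (XT.lf (nat_lit 0) (nat_lit 50525816894) (nat_lit 76) (nat_lit 38885925511) (nat_lit 152) (nat_lit 17946114337) (nat_lit 11) (nat_lit 5) (nat_lit 12) (nat_lit 5) (nat_lit 13) (nat_lit 4) (nat_lit 229) (nat_lit 213) (nat_lit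 158))) (XT.nd (nat_lit 78) (nat_lit 76) (nat_lit 0) (XT.lf (nat_lit 0) (nat_lit 4635475961) (nat_lit 152) (nat_lit 203589923) (nat_lit 228) (nat_lit 115170971529) (nat_lit 8) (nat_lit 5) (nat_lit 10) (nat_lit 5) (nat_lit 11) (nat_lit 5) (nat_lit 230) (nat_lit 213) (nat_lit 157)) (XT.nd (nat_lit 78) (nat_lit 76) (nat_lit 0) (XT.lf (nat_lit 0) (nat_lit 32767126417) (nat_lit 228) (nat_lit 57275644174) (nat_lit 76) (nat_lit 44256982700) (nat_lit 8) (nat_lit 5) (nat_lit 11) (nat_lit 5) (nat_lit 9) (nat_lit 4) (nat_lit 231) (nat_lit 213) (nat_lit 156)) (XT.lf (nat_lit 0) (nat_lit 10026773818) (nat_lit 76) (nat_lit 55100013993) (nat_lit 152) (nat_lit 85586761147) (nat_lit 7) (nat_lit 5) (nat_lit 8) (nat_lit 5) (nat_lit 9) (nat_lit 4) (nat_lit 232) (nat_lit 213) (nat_lit 155))))))) (XT.nd (nat_lit 702) (nat_lit 152) (nat_lit 0) (XT.nd (nat_lit 312) (nat_lit 152) (nat_lit 0) (XT.nd (nat_lit 156)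 (nat_lit 152) (nat_lit 0) (XT.nd (nat_lit 78) (nat_lit 0) (nat_lit 0) (XT.lf (nat_lit 0) (nat_lit 90886324316) (nat_lit 76) (nat_lit 13117621012) (nat_lit 152) (nat_lit 65452396853) (nat_lit 7) (nat_lit 5) (nat_lit 8) (nat_lit 5) (nat_lit 9) (nat_lit 4) (nat_lit 233) (nat_lit 213) (nat_lit 154)) (XT.lf (nat_lit 0) (nat_lit 149554816382) (nat_lit 152) (nat_lit 7987426688) (nat_lit 0) (nat_lit 33400950521) (nat_lit 7) (nat_lit 5) (nat_lit 9) (nat_lit 4) (nat_lit 7) (nat_lit 4) (nat_lit 234) (nat_lit 213) (nat_lit 153))) (XT.nd (nat_lit 78) (nat_lit 76) (nat_lit 0) (XT.lf (nat_lit 0) (nat_lit 76648792080) (nat_lit 76) (nat_lit 127492679937) (nat_lit 76) (nat_lit 11335357423) (nat_lit 6) (nat_lit 4) (nat_lit 7) (nat_lit 5) (nat_lit 7) (nat_lit 4) (nat_lit 235) (nat_lit 213) (nat_lit 152)) (XT.lf (nat_lit 0) (nat_lit 22299512424) (nat_lit 152) (nat_lit 69777342455) (nat_lit 76) (nat_lit 151550118024)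 (nat_lit 5) (nat_lit 5) (nat_lit 7) (nat_lit 5) (nat_lit 6) (nat_lit 4) (nat_lit 236) (nat_lit 213) (nat_lit 151)))) (XT.nd (nat_lit 156) (nat_lit 76) (nat_lit 0) (XT.nd (nat_lit 78) (nat_lit 0) (nat_lit 0) (XT.lf (nat_lit 0) (nat_lit 9803551988) (nat_lit 76) (nat_lit 50757262440) (nat_lit 152) (nat_lit 215395085291) (nat_lit 4) (nat_lit 5) (nat_lit 5) (nat_lit 5) (nat_lit 6) (nat_lit 4) (nat_lit 237) (nat_lit 213) (nat_lit 150)) (XT.lf (nat_lit 0) (nat_lit 105543139195) (nat_lit 76) (nat_lit 1047415624) (nat_lit 152) (nat_lit 206381276798) (nat_lit 4) (nat_lit 5) (nat_lit 5) (nat_lit 5) (nat_lit 6) (nat_lit 4) (nat_lit 238) (nat_lit 213) (nat_lit 149))) (XT.nd (nat_lit 78) (nat_lit 76) (nat_lit 0) (XT.lf (nat_lit 0) (nat_lit 160872426094) (nat_lit 152) (nat_lit 141249706367) (nat_lit 0) (nat_lit 53310212037) (nat_lit 4) (nat_lit 5) (nat_lit 6) (nat_lit 4) (nat_lit 4) (nat_lit 4) (nat_lit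 239) (nat_lit 213) (nat_lit 148)) (XT.nd (nat_lit 78) (nat_lit 76) (nat_lit 0) (XT.lf (nat_lit 0) (nat_lit 223323815452) (nat_lit 152) (nat_lit 65175933903) (nat_lit 0) (nat_lit 115760010128) (nat_lit 4) (nat_lit 5) (nat_lit 6) (nat_lit 4) (nat_lit 4) (nat_lit 4) (nat_lit 240) (nat_lit 213) (nat_lit 147)) (XT.lf (nat_lit 0) (nat_lit 23480821000) (nat_lit 76) (nat_lit 272225300839) (nat_lit 76) (nat_lit 164660111806) (nat_lit 3) (nat_lit 4) (nat_lit 4) (nat_lit 5) (nat_lit 4) (nat_lit 4) (nat_lit 241) (nat_lit 213) (nat_lit 146)))))) (XT.nd (nat_lit 390) (nat_lit 152) (nat_lit 0) (XT.nd (nat_lit 156) (nat_lit 0) (nat_lit 0) (XT.nd (nat_lit 78) (nat_lit 0) (nat_lit 0) (XT.lf (nat_lit 0) (nat_lit 129380484128) (nat_lit 76) (nat_lit 251461448757) (nat_lit 76) (nat_lit 143895056498) (nat_lit 3) (nat_lit 4) (nat_lit 4) (nat_lit 5) (nat_lit 4) (nat_lit 4) (nat_lit 242) (nat_lit 213) (nat_lit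 145)) (XT.lf (nat_lit 0) (nat_lit 251162956231) (nat_lit 76) (nat_lit 227583969364) (nat_lit 76) (nat_lit 120016530822) (nat_lit 3) (nat_lit 4) (nat_lit 4) (nat_lit 5) (nat_lit 4) (nat_lit 4) (nat_lit 243) (nat_lit 213) (nat_lit 144))) (XT.nd (nat_lit 78) (nat_lit 0) (nat_lit 0) (XT.lf (nat_lit 0) (nat_lit 391210937852) (nat_lit 76) (nat_lit 200125694585) (nat_lit 76) (nat_lit 92557346231) (nat_lit 3) (nat_lit 4) (nat_lit 4) (nat_lit 5) (nat_lit 4) (nat_lit 4) (nat_lit 244) (nat_lit 213) (nat_lit 143)) (XT.nd (nat_lit 78) (nat_lit 0) (nat_lit 0) (XT.lf (nat_lit 0) (nat_lit 552264498195) (nat_lit 76) (nat_lit 168549397305) (nat_lit 76) (nat_lit 60980257811) (nat_lit 3) (nat_lit 4) (nat_lit 4) (nat_lit 5) (nat_lit 4) (nat_lit 4) (nat_lit 245) (nat_lit 213) (nat_lit 142)) (XT.lf (nat_lit 0) (nat_lit 737474685182) (nat_lit 76) (nat_lit 132237280402) (nat_lit 76) (nat_lit 24667452960) (nat_lit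 3) (nat_lit 4) (nat_lit 4) (nat_lit 5) (nat_lit 4) (nat_lit 4) (nat_lit 246) (nat_lit 213) (nat_lit 141))))) (XT.nd (nat_lit 156) (nat_lit 0) (nat_lit 0) (XT.nd (nat_lit 78) (nat_lit 76) (nat_lit 0) (XT.lf (nat_lit 0) (nat_lit 16236548376) (nat_lit 152) (nat_lit 73798405034) (nat_lit 76) (nat_lit 933784691999) (nat_lit 2) (nat_lit 5) (nat_lit 4) (nat_lit 5) (nat_lit 3) (nat_lit 4) (nat_lit 247) (nat_lit 213) (nat_lit 140)) (XT.lf (nat_lit 0) (nat_lit 22201124446) (nat_lit 76) (nat_lit 40189293963) (nat_lit 152) (nat_lit 1110188243552) (nat_lit 1) (nat_lit 5) (nat_lit 2) (nat_lit 5) (nat_lit 3) (nat_lit 4) (nat_lit 248) (nat_lit 213) (nat_lit 139))) (XT.nd (nat_lit 78) (nat_lit 0) (nat_lit 0) (XT.lf (nat_lit 0) (nat_lit 118083227136) (nat_lit 152) (nat_lit 1206878955628) (nat_lit 0) (nat_lit 18480080671) (nat_lit 1) (nat_lit 5) (nat_lit 3) (nat_lit 4) (nat_lit 1) (nat_lit 4) (nat_lit 249)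 (nat_lit 213) (nat_lit 138)) (XT.nd (nat_lit 78) (nat_lit 0) (nat_lit 0) (XT.lf (nat_lit 0) (nat_lit 183241003272) (nat_lit 152) (nat_lit 1272968026518) (nat_lit 0) (nat_lit 83637492606) (nat_lit 1) (nat_lit 5) (nat_lit 3) (nat_lit 4) (nat_lit 1) (nat_lit 4) (nat_lit 250) (nat_lit 213) (nat_lit 137)) (XT.lf (nat_lit 0) (nat_lit 258172019384) (nat_lit 152) (nat_lit 1348971243738) (nat_lit 0) (nat_lit 158568192022) (nat_lit 1) (nat_lit 5) (nat_lit 3) (nat_lit 4) (nat_lit 1) (nat_lit 4) (nat_lit 251) (nat_lit 213) (nat_lit 136))))))))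
noncomputable def xc43 : XT := (XT.nd (nat_lit 29328) (nat_lit 0) (nat_lit 152) (XT.nd (nat_lit 28548) (nat_lit 0) (nat_lit 1140) (XT.nd (nat_lit 312) (nat_lit 0) (nat_lit 0) (XT.nd (nat_lit 156) (nat_lit 0) (nat_lit 0) (XT.nd (nat_lit 78) (nat_lit 0) (nat_lit 0) (XT.lf (nat_lit 0) (nat_lit 344342317092) (nat_lit 152) (nat_lit 1436375626756) (nat_lit 0) (nat_lit 244738214342) (nat_lit 1) (nat_lit 5) (nat_lit 3) (nat_lit 4) (nat_lit 1) (nat_lit 4) (nat_lit 252) (nat_lit 213) (nat_lit 135)) (XT.lf (nat_lit 0) (nat_lit 443437837004) (nat_lit 152) (nat_lit 1536891261326) (nat_lit 0) (nat_lit 343833494786) (nat_lit 1) (nat_lit 5) (nat_lit 3) (nat_lit 4) (nat_lit 1) (nat_lit 4) (nat_lit 253) (nat_lit 213) (nat_lit 134))) (XT.nd (nat_lit 78) (nat_lit 0) (nat_lit 0) (XT.lf (nat_lit 0) (nat_lit 557397404509) (nat_lit 152) (nat_lit 1652484757690) (nat_lit 0) (nat_lit 457792854058) (nat_lit 1) (nat_lit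 5) (nat_lit 3) (nat_lit 4) (nat_lit 1) (nat_lit 4) (nat_lit 254) (nat_lit 213) (nat_lit 133)) (XT.lf (nat_lit 0) (nat_lit 688450663319) (nat_lit 152) (nat_lit 1785417727733) (nat_lit 0) (nat_lit 588845931796) (nat_lit 1) (nat_lit 5) (nat_lit 3) (nat_lit 4) (nat_lit 1) (nat_lit 4) (nat_lit 255) (nat_lit 213) (nat_lit 132)))) (XT.nd (nat_lit 28002) (nat_lit 0) (nat_lit 2356) (XT.nd (nat_lit 78) (nat_lit 0) (nat_lit 0) (XT.lf (nat_lit 0) (nat_lit 839161698933) (nat_lit 152) (nat_lit 1938291033912) (nat_lit 0) (nat_lit 739556809956) (nat_lit 1) (nat_lit 5) (nat_lit 3) (nat_lit 4) (nat_lit 1) (nat_lit 4) (nat_lit 256) (nat_lit 213) (nat_lit 131)) (XT.lf (nat_lit 0) (nat_lit 1012479205525) (nat_lit 152) (nat_lit 2114095675697) (nat_lit 0) (nat_lit 912874179632) (nat_lit 1) (nat_lit 5) (nat_lit 3) (nat_lit 4) (nat_lit 1) (nat_lit 4) (nat_lit 257) (nat_lit 213) (nat_lit 130))) (XT.nd (nat_lit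 78) (nat_lit 0) (nat_lit 76) (XT.lf (nat_lit 0) (nat_lit 3234143954) (nat_lit 532) (nat_lit 5669335306) (nat_lit 532) (nat_lit 5669335306) (nat_lit 32) (nat_lit 3) (nat_lit 39) (nat_lit 3) (nat_lit 39) (nat_lit 5) (nat_lit 214) (nat_lit 214) (nat_lit 172)) (XT.nd (nat_lit 78) (nat_lit 0) (nat_lit 0) (XT.lf (nat_lit 0) (nat_lit 7468114788) (nat_lit 456) (nat_lit 19571991076) (nat_lit 532) (nat_lit 4249477407) (nat_lit 33) (nat_lit 5) (nat_lit 39) (nat_lit 5) (nat_lit 40) (nat_lit 5) (nat_lit 215) (nat_lit 214) (nat_lit 171)) (XT.lf (nat_lit 76) (nat_lit 4920672744) (nat_lit 0) (nat_lit 4624885791) (nat_lit 532) (nat_lit 24135501521) (nat_lit 34) (nat_lit 5) (nat_lit 33) (nat_lit 5) (nat_lit 40) (nat_lit 5) (nat_lit 216) (nat_lit 214) (nat_lit 170)))))) (XT.nd (nat_lit 390) (nat_lit 608) (nat_lit 0) (XT.nd (nat_lit 156) (nat_lit 760) (nat_lit 0) (XT.nd (nat_lit 78) (nat_lit 0) (nat_lit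 76) (XT.lf (nat_lit 0) (nat_lit 13008750436) (nat_lit 456) (nat_lit 2651931733) (nat_lit 532) (nat_lit 20684768226) (nat_lit 34) (nat_lit 5) (nat_lit 40) (nat_lit 5) (nat_lit 41) (nat_lit 5) (nat_lit 217) (nat_lit 214) (nat_lit 169)) (XT.lf (nat_lit 0) (nat_lit 18053551621) (nat_lit 456) (nat_lit 10941427931) (nat_lit 76) (nat_lit 10329655874) (nat_lit 35) (nat_lit 5) (nat_lit 41) (nat_lit 5) (nat_lit 36) (nat_lit 5) (nat_lit 218) (nat_lit 214) (nat_lit 168))) (XT.nd (nat_lit 78) (nat_lit 380) (nat_lit 0) (XT.lf (nat_lit 0) (nat_lit 22149098488) (nat_lit 456) (nat_lit 2736261259) (nat_lit 532) (nat_lit 17783008201) (nat_lit 29) (nat_lit 5) (nat_lit 35) (nat_lit 5) (nat_lit 36) (nat_lit 5) (nat_lit 219) (nat_lit 214) (nat_lit 167)) (XT.nd (nat_lit 78) (nat_lit 152) (nat_lit 0) (XT.lf (nat_lit 0) (nat_lit 14416616914) (nat_lit 228) (nat_lit 19646206945) (nat_lit 304) (nat_lit 12345246297)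 (nat_lit 26) (nat_lit 5) (nat_lit 29) (nat_lit 5) (nat_lit 30) (nat_lit 5) (nat_lit 220) (nat_lit 214) (nat_lit 166)) (XT.lf (nat_lit 0) (nat_lit 5090362359) (nat_lit 152) (nat_lit 40560173385) (nat_lit 228) (nat_lit 4975571779) (nat_lit 24) (nat_lit 5) (nat_lit 26) (nat_lit 5) (nat_lit 27) (nat_lit 5) (nat_lit 221) (nat_lit 214) (nat_lit 165))))) (XT.nd (nat_lit 156) (nat_lit 304) (nat_lit 0) (XT.nd (nat_lit 78) (nat_lit 228) (nat_lit 0) (XT.lf (nat_lit 0) (nat_lit 4812646930) (nat_lit 228) (nat_lit 6395105763) (nat_lit 76) (nat_lit 44143368687) (nat_lit 23) (nat_lit 5) (nat_lit 26) (nat_lit 5) (nat_lit 24) (nat_lit 5) (nat_lit 222) (nat_lit 214) (nat_lit 164)) (XT.lf (nat_lit 0) (nat_lit 17318441630) (nat_lit 304) (nat_lit 20774328166) (nat_lit 76) (nat_lit 22558311527) (nat_lit 20) (nat_lit 5) (nat_lit 24) (nat_lit 5) (nat_lit 21) (nat_lit 5) (nat_lit 223) (nat_lit 214) (nat_lit 163)))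 (XT.nd (nat_lit 78) (nat_lit 152) (nat_lit 0) (XT.lf (nat_lit 0) (nat_lit 27811064586) (nat_lit 152) (nat_lit 5050445322) (nat_lit 228) (nat_lit 33791655663) (nat_lit 18) (nat_lit 5) (nat_lit 20) (nat_lit 5) (nat_lit 21) (nat_lit 5) (nat_lit 224) (nat_lit 214) (nat_lit 162)) (XT.nd (nat_lit 78) (nat_lit 0) (nat_lit 0) (XT.lf (nat_lit 0) (nat_lit 11175519269) (nat_lit 152) (nat_lit 41234581445) (nat_lit 228) (nat_lit 21011573861) (nat_lit 16) (nat_lit 5) (nat_lit 18) (nat_lit 5) (nat_lit 19) (nat_lit 5) (nat_lit 225) (nat_lit 214) (nat_lit 161)) (XT.lf (nat_lit 0) (nat_lit 70891265324) (nat_lit 152) (nat_lit 5259826175) (nat_lit 228) (nat_lit 4953591782) (nat_lit 16) (nat_lit 5) (nat_lit 18) (nat_lit 5) (nat_lit 19) (nat_lit 5) (nat_lit 226) (nat_lit 214) (nat_lit 160))))))) (XT.nd (nat_lit 702) (nat_lit 304) (nat_lit 0) (XT.nd (nat_lit 312) (nat_lit 304) (nat_lit 0) (XT.nd (nat_lit 156)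 (nat_lit 76) (nat_lit 0) (XT.nd (nat_lit 78) (nat_lit 152) (nat_lit 0) (XT.lf (nat_lit 0) (nat_lit 14988068891) (nat_lit 152) (nat_lit 38838041166) (nat_lit 76) (nat_lit 35915983151) (nat_lit 14) (nat_lit 5) (nat_lit 16) (nat_lit 5) (nat_lit 15) (nat_lit 5) (nat_lit 227) (nat_lit 214) (nat_lit 159)) (XT.lf (nat_lit 0) (nat_lit 23008695355) (nat_lit 152) (nat_lit 15625611993) (nat_lit 228) (nat_lit 60950005757) (nat_lit 12) (nat_lit 5) (nat_lit 14) (nat_lit 5) (nat_lit 15) (nat_lit 5) (nat_lit 228) (nat_lit 214) (nat_lit 158))) (XT.nd (nat_lit 78) (nat_lit 76) (nat_lit 0) (XT.lf (nat_lit 0) (nat_lit 67663185502) (nat_lit 228) (nat_lit 15046207921) (nat_lit 76) (nat_lit 28046635890) (nat_lit 12) (nat_lit 5) (nat_lit 15) (nat_lit 5) (nat_lit 13) (nat_lit 4) (nat_lit 229) (nat_lit 214) (nat_lit 157)) (XT.lf (nat_lit 0) (nat_lit 58184047777) (nat_lit 76) (nat_lit 44689381672) (nat_lit 152)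 (nat_lit 20583927856) (nat_lit 11) (nat_lit 5) (nat_lit 12) (nat_lit 5) (nat_lit 13) (nat_lit 4) (nat_lit 230) (nat_lit 214) (nat_lit 156)))) (XT.nd (nat_lit 156) (nat_lit 76) (nat_lit 0) (XT.nd (nat_lit 78) (nat_lit 0) (nat_lit 0) (XT.lf (nat_lit 0) (nat_lit 5406071666) (nat_lit 152) (nat_lit 205357622) (nat_lit 228) (nat_lit 132396245393) (nat_lit 8) (nat_lit 5) (nat_lit 10) (nat_lit 5) (nat_lit 11) (nat_lit 5) (nat_lit 231) (nat_lit 214) (nat_lit 155)) (XT.lf (nat_lit 0) (nat_lit 37723234910) (nat_lit 228) (nat_lit 65798772785) (nat_lit 76) (nat_lit 50919296678) (nat_lit 8) (nat_lit 5) (nat_lit 11) (nat_lit 5) (nat_lit 9) (nat_lit 4) (nat_lit 232) (nat_lit 214) (nat_lit 154))) (XT.nd (nat_lit 78) (nat_lit 0) (nat_lit 0) (XT.lf (nat_lit 0) (nat_lit 11593233591) (nat_lit 76) (nat_lit 63339760713) (nat_lit 152) (nat_lit 98384499977) (nat_lit 7) (nat_lit 5) (nat_lit 8) (nat_lit 5) (nat_lit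 9) (nat_lit 4) (nat_lit 233) (nat_lit 214) (nat_lit 153)) (XT.nd (nat_lit 78) (nat_lit 0) (nat_lit 0) (XT.lf (nat_lit 0) (nat_lit 104573571833) (nat_lit 76) (nat_lit 15063302964) (nat_lit 152) (nat_lit 75235234344) (nat_lit 7) (nat_lit 5) (nat_lit 8) (nat_lit 5) (nat_lit 9) (nat_lit 4) (nat_lit 234) (nat_lit 214) (nat_lit 152)) (XT.lf (nat_lit 0) (nat_lit 172016617828) (nat_lit 152) (nat_lit 9136449327) (nat_lit 0) (nat_lit 38429234500) (nat_lit 7) (nat_lit 5) (nat_lit 9) (nat_lit 4) (nat_lit 7) (nat_lit 4) (nat_lit 235) (nat_lit 214) (nat_lit 151)))))) (XT.nd (nat_lit 390) (nat_lit 76) (nat_lit 0) (XT.nd (nat_lit 156) (nat_lit 76) (nat_lit 0) (XT.nd (nat_lit 78) (nat_lit 76) (nat_lit 0) (XT.lf (nat_lit 0) (nat_lit 88191046917) (nat_lit 76) (nat_lit 146597577910) (nat_lit 76) (nat_lit 13007580856) (nat_lit 6) (nat_lit 4) (nat_lit 7) (nat_lit 5) (nat_lit 7) (nat_lit 4) (nat_lit 236) (nat_lit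 214) (nat_lit 150)) (XT.lf (nat_lit 0) (nat_lit 25667635372) (nat_lit 152) (nat_lit 80203588285) (nat_lit 76) (nat_lit 174297880226) (nat_lit 5) (nat_lit 5) (nat_lit 7) (nat_lit 5) (nat_lit 6) (nat_lit 4) (nat_lit 237) (nat_lit 214) (nat_lit 149))) (XT.nd (nat_lit 78) (nat_lit 0) (nat_lit 0) (XT.lf (nat_lit 0) (nat_lit 11311024430) (nat_lit 76) (nat_lit 58354971070) (nat_lit 152) (nat_lit 247681552926) (nat_lit 4) (nat_lit 5) (nat_lit 5) (nat_lit 5) (nat_lit 6) (nat_lit 4) (nat_lit 238) (nat_lit 214) (nat_lit 148)) (XT.nd (nat_lit 78) (nat_lit 0) (nat_lit 0) (XT.lf (nat_lit 0) (nat_lit 121406731503) (nat_lit 76) (nat_lit 1190718632) (nat_lit 152) (nat_lit 237318646440) (nat_lit 4) (nat_lit 5) (nat_lit 5) (nat_lit 5) (nat_lit 6) (nat_lit 4) (nat_lit 239) (nat_lit 214) (nat_lit 147)) (XT.lf (nat_lit 0) (nat_lit 185019502363) (nat_lit 152) (nat_lit 162408206585) (nat_lit 0) (nat_lit 61318151266)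 (nat_lit 4) (nat_lit 5) (nat_lit 6) (nat_lit 4) (nat_lit 4) (nat_lit 4) (nat_lit 240) (nat_lit 214) (nat_lit 146))))) (XT.nd (nat_lit 156) (nat_lit 0) (nat_lit 0) (XT.nd (nat_lit 78) (nat_lit 76) (nat_lit 0) (XT.lf (nat_lit 0) (nat_lit 256836485470) (nat_lit 152) (nat_lit 74927145086) (nat_lit 0) (nat_lit 133133931146) (nat_lit 4) (nat_lit 5) (nat_lit 6) (nat_lit 4) (nat_lit 4) (nat_lit 4) (nat_lit 241) (nat_lit 214) (nat_lit 145)) (XT.lf (nat_lit 0) (nat_lit 27025991784) (nat_lit 76) (nat_lit 313048861497) (nat_lit 76) (nat_lit 189345260891) (nat_lit 3) (nat_lit 4) (nat_lit 4) (nat_lit 5) (nat_lit 4) (nat_lit 4) (nat_lit 242) (nat_lit 214) (nat_lit 144))) (XT.nd (nat_lit 78) (nat_lit 0) (nat_lit 0) (XT.lf (nat_lit 0) (nat_lit 148807598167) (nat_lit 76) (nat_lit 289171766533) (nat_lit 76) (nat_lit 165467256115) (nat_lit 3) (nat_lit 4) (nat_lit 4) (nat_lit 5) (nat_lit 4) (nat_lit 4) (nat_lit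 243) (nat_lit 214) (nat_lit 143)) (XT.nd (nat_lit 78) (nat_lit 0) (nat_lit 0) (XT.lf (nat_lit 0) (nat_lit 288854826988) (nat_lit 76) (nat_lit 261713826041) (nat_lit 76) (nat_lit 138008524482) (nat_lit 3) (nat_lit 4) (nat_lit 4) (nat_lit 5) (nat_lit 4) (nat_lit 4) (nat_lit 244) (nat_lit 214) (nat_lit 142)) (XT.lf (nat_lit 0) (nat_lit 449907732723) (nat_lit 76) (nat_lit 230137819444) (nat_lit 76) (nat_lit 106431829937) (nat_lit 3) (nat_lit 4) (nat_lit 4) (nat_lit 5) (nat_lit 4) (nat_lit 4) (nat_lit 245) (nat_lit 214) (nat_lit 141))))))))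
noncomputable def xc44 : XT := (XT.nd (nat_lit 29406) (nat_lit 0) (nat_lit 228) (XT.nd (nat_lit 702) (nat_lit 0) (nat_lit 0) (XT.nd (nat_lit 312) (nat_lit 0) (nat_lit 0) (XT.nd (nat_lit 156) (nat_lit 152) (nat_lit 0) (XT.nd (nat_lit 78) (nat_lit 0) (nat_lit 0) (XT.lf (nat_lit 0) (nat_lit 635117350484) (nat_lit 76) (nat_lit 193825955310) (nat_lit 76) (nat_lit 70119367588) (nat_lit 3) (nat_lit 4) (nat_lit 4) (nat_lit 5) (nat_lit 4) (nat_lit 4) (nat_lit 246) (nat_lit 214) (nat_lit 140)) (XT.lf (nat_lit 0) (nat_lit 848107346706) (nat_lit 76) (nat_lit 152067784123) (nat_lit 76) (nat_lit 28360676213) (nat_lit 3) (nat_lit 4) (nat_lit 4) (nat_lit 5) (nat_lit 4) (nat_lit 4) (nat_lit 247) (nat_lit 214) (nat_lit 139))) (XT.nd (nat_lit 78) (nat_lit 76) (nat_lit 0) (XT.lf (nat_lit 0) (nat_lit 18677726103) (nat_lit 152) (nat_lit 84857889952) (nat_lit 76) (nat_lit 1073856508733) (nat_lit 2) (nat_lit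 5) (nat_lit 4) (nat_lit 5) (nat_lit 3) (nat_lit 4) (nat_lit 248) (nat_lit 214) (nat_lit 138)) (XT.lf (nat_lit 0) (nat_lit 25540699152) (nat_lit 76) (nat_lit 46213460816) (nat_lit 152) (nat_lit 1276710876725) (nat_lit 1) (nat_lit 5) (nat_lit 2) (nat_lit 5) (nat_lit 3) (nat_lit 4) (nat_lit 249) (nat_lit 214) (nat_lit 137)))) (XT.nd (nat_lit 156) (nat_lit 0) (nat_lit 0) (XT.nd (nat_lit 78) (nat_lit 0) (nat_lit 0) (XT.lf (nat_lit 0) (nat_lit 135800302914) (nat_lit 152) (nat_lit 1387902339029) (nat_lit 0) (nat_lit 21255584752) (nat_lit 1) (nat_lit 5) (nat_lit 3) (nat_lit 4) (nat_lit 1) (nat_lit 4) (nat_lit 250) (nat_lit 214) (nat_lit 136)) (XT.lf (nat_lit 0) (nat_lit 210731146552) (nat_lit 152) (nat_lit 1463905874023) (nat_lit 0) (nat_lit 96186153001) (nat_lit 1) (nat_lit 5) (nat_lit 3) (nat_lit 4) (nat_lit 1) (nat_lit 4) (nat_lit 251) (nat_lit 214) (nat_lit 135))) (XT.nd (nat_lit 78) (nat_lit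 0) (nat_lit 0) (XT.lf (nat_lit 0) (nat_lit 296901294282) (nat_lit 152) (nat_lit 1551310533366) (nat_lit 0) (nat_lit 182356061263) (nat_lit 1) (nat_lit 5) (nat_lit 3) (nat_lit 4) (nat_lit 1) (nat_lit 4) (nat_lit 252) (nat_lit 214) (nat_lit 134)) (XT.nd (nat_lit 78) (nat_lit 0) (nat_lit 0) (XT.lf (nat_lit 0) (nat_lit 395996683778) (nat_lit 152) (nat_lit 1651826408219) (nat_lit 0) (nat_lit 281451242527) (nat_lit 1) (nat_lit 5) (nat_lit 3) (nat_lit 4) (nat_lit 1) (nat_lit 4) (nat_lit 253) (nat_lit 214) (nat_lit 133)) (XT.lf (nat_lit 0) (nat_lit 509956137878) (nat_lit 152) (nat_lit 1767420113525) (nat_lit 0) (nat_lit 395410515555) (nat_lit 1) (nat_lit 5) (nat_lit 3) (nat_lit 4) (nat_lit 1) (nat_lit 4) (nat_lit 254) (nat_lit 214) (nat_lit 132)))))) (XT.nd (nat_lit 28314) (nat_lit 0) (nat_lit 1900) (XT.nd (nat_lit 156) (nat_lit 0) (nat_lit 0) (XT.nd (nat_lit 78) (nat_lit 0) (nat_lit 0) (XT.lf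 (nat_lit 0) (nat_lit 641009298075) (nat_lit 152) (nat_lit 1900353265256) (nat_lit 0) (nat_lit 526463518298) (nat_lit 1) (nat_lit 5) (nat_lit 3) (nat_lit 4) (nat_lit 1) (nat_lit 4) (nat_lit 255) (nat_lit 214) (nat_lit 131)) (XT.lf (nat_lit 0) (nat_lit 791720247939) (nat_lit 152) (nat_lit 2053226729426) (nat_lit 0) (nat_lit 677174331245) (nat_lit 1) (nat_lit 5) (nat_lit 3) (nat_lit 4) (nat_lit 1) (nat_lit 4) (nat_lit 256) (nat_lit 214) (nat_lit 130))) (XT.nd (nat_lit 28002) (nat_lit 0) (nat_lit 2356) (XT.lf (nat_lit 0) (nat_lit 965037679965) (nat_lit 152) (nat_lit 2229031508593) (nat_lit 0) (nat_lit 850491644214) (nat_lit 1) (nat_lit 5) (nat_lit 3) (nat_lit 4) (nat_lit 1) (nat_lit 4) (nat_lit 257) (nat_lit 214) (nat_lit 129)) (XT.nd (nat_lit 78) (nat_lit 0) (nat_lit 76) (XT.lf (nat_lit 0) (nat_lit 3836713095) (nat_lit 532) (nat_lit 6455934504) (nat_lit 532) (nat_lit 6455934504) (nat_lit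 32) (nat_lit 3) (nat_lit 39) (nat_lit 3) (nat_lit 39) (nat_lit 5) (nat_lit 215) (nat_lit 215) (nat_lit 170)) (XT.lf (nat_lit 0) (nat_lit 8793226825) (nat_lit 456) (nat_lit 22370932586) (nat_lit 532) (nat_lit 4801150036) (nat_lit 33) (nat_lit 5) (nat_lit 39) (nat_lit 5) (nat_lit 40) (nat_lit 5) (nat_lit 216) (nat_lit 215) (nat_lit 169))))) (XT.nd (nat_lit 156) (nat_lit 532) (nat_lit 0) (XT.nd (nat_lit 78) (nat_lit 0) (nat_lit 76) (XT.lf (nat_lit 76) (nat_lit 5784046531) (nat_lit 0) (nat_lit 5374528006) (nat_lit 532) (nat_lit 27559002356) (nat_lit 34) (nat_lit 5) (nat_lit 33) (nat_lit 5) (nat_lit 40) (nat_lit 5) (nat_lit 217) (nat_lit 215) (nat_lit 168)) (XT.lf (nat_lit 0) (nat_lit 15116443524) (nat_lit 456) (nat_lit 2926017435) (nat_lit 532) (nat_lit 23741298647) (nat_lit 34) (nat_lit 5) (nat_lit 40) (nat_lit 5) (nat_lit 41) (nat_lit 5) (nat_lit 218) (nat_lit 215) (nat_lit 167))) (XT.nd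 (nat_lit 78) (nat_lit 684) (nat_lit 0) (XT.lf (nat_lit 0) (nat_lit 20899678056) (nat_lit 456) (nat_lit 12456832113) (nat_lit 76) (nat_lit 11854905331) (nat_lit 35) (nat_lit 5) (nat_lit 41) (nat_lit 5) (nat_lit 36) (nat_lit 5) (nat_lit 219) (nat_lit 215) (nat_lit 166)) (XT.nd (nat_lit 78) (nat_lit 228) (nat_lit 0) (XT.lf (nat_lit 0) (nat_lit 25586624078) (nat_lit 456) (nat_lit 3154390722) (nat_lit 532) (nat_lit 20317025692) (nat_lit 29) (nat_lit 5) (nat_lit 35) (nat_lit 5) (nat_lit 36) (nat_lit 5) (nat_lit 220) (nat_lit 215) (nat_lit 165)) (XT.lf (nat_lit 0) (nat_lit 16694378654) (nat_lit 228) (nat_lit 22587307220) (nat_lit 304) (nat_lit 14078183591) (nat_lit 26) (nat_lit 5) (nat_lit 29) (nat_lit 5) (nat_lit 30) (nat_lit 5) (nat_lit 221) (nat_lit 215) (nat_lit 164))))))) (XT.nd (nat_lit 702) (nat_lit 608) (nat_lit 0) (XT.nd (nat_lit 312) (nat_lit 456) (nat_lit 0) (XT.nd (nat_lit 156) (nat_lit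 380) (nat_lit 0) (XT.nd (nat_lit 78) (nat_lit 76) (nat_lit 0) (XT.lf (nat_lit 0) (nat_lit 5967915193) (nat_lit 152) (nat_lit 46628228375) (nat_lit 228) (nat_lit 5615467330) (nat_lit 24) (nat_lit 5) (nat_lit 26) (nat_lit 5) (nat_lit 27) (nat_lit 5) (nat_lit 222) (nat_lit 215) (nat_lit 163)) (XT.lf (nat_lit 0) (nat_lit 5622470618) (nat_lit 228) (nat_lit 7250153067) (nat_lit 76) (nat_lit 50773672385) (nat_lit 23) (nat_lit 5) (nat_lit 26) (nat_lit 5) (nat_lit 24) (nat_lit 5) (nat_lit 223) (nat_lit 215) (nat_lit 162))) (XT.nd (nat_lit 78) (nat_lit 152) (nat_lit 0) (XT.lf (nat_lit 0) (nat_lit 19995360435) (nat_lit 304) (nat_lit 23788781073) (nat_lit 76) (nat_lit 25957870344) (nat_lit 20) (nat_lit 5) (nat_lit 24) (nat_lit 5) (nat_lit 21) (nat_lit 5) (nat_lit 224) (nat_lit 215) (nat_lit 161)) (XT.lf (nat_lit 0) (nat_lit 32075812505) (nat_lit 152) (nat_lit 5785990978) (nat_lit 228) (nat_lit 38783304197)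 (nat_lit 18) (nat_lit 5) (nat_lit 20) (nat_lit 5) (nat_lit 21) (nat_lit 5) (nat_lit 225) (nat_lit 215) (nat_lit 160)))) (XT.nd (nat_lit 156) (nat_lit 304) (nat_lit 0) (XT.nd (nat_lit 78) (nat_lit 0) (nat_lit 0) (XT.lf (nat_lit 0) (nat_lit 12942093243) (nat_lit 152) (nat_lit 47393950996) (nat_lit 228) (nat_lit 24093425196) (nat_lit 16) (nat_lit 5) (nat_lit 18) (nat_lit 5) (nat_lit 19) (nat_lit 5) (nat_lit 226) (nat_lit 215) (nat_lit 159)) (XT.lf (nat_lit 0) (nat_lit 81603429977) (nat_lit 152) (nat_lit 6026349957) (nat_lit 228) (nat_lit 5635861207) (nat_lit 16) (nat_lit 5) (nat_lit 18) (nat_lit 5) (nat_lit 19) (nat_lit 5) (nat_lit 227) (nat_lit 215) (nat_lit 158))) (XT.nd (nat_lit 78) (nat_lit 152) (nat_lit 0) (XT.lf (nat_lit 0) (nat_lit 17288827821) (nat_lit 152) (nat_lit 44585087600) (nat_lit 76) (nat_lit 41325076403) (nat_lit 14) (nat_lit 5) (nat_lit 16) (nat_lit 5) (nat_lit 15) (nat_lit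 5) (nat_lit 228) (nat_lit 215) (nat_lit 157)) (XT.nd (nat_lit 78) (nat_lit 0) (nat_lit 0) (XT.lf (nat_lit 0) (nat_lit 26532001243) (nat_lit 152) (nat_lit 17944878278) (nat_lit 228) (nat_lit 70041102570) (nat_lit 12) (nat_lit 5) (nat_lit 14) (nat_lit 5) (nat_lit 15) (nat_lit 5) (nat_lit 229) (nat_lit 215) (nat_lit 156)) (XT.lf (nat_lit 0) (nat_lit 77854417339) (nat_lit 228) (nat_lit 17237583872) (nat_lit 76) (nat_lit 32273932271) (nat_lit 12) (nat_lit 5) (nat_lit 15) (nat_lit 5) (nat_lit 13) (nat_lit 4) (nat_lit 230) (nat_lit 215) (nat_lit 155)))))) (XT.nd (nat_lit 390) (nat_lit 228) (nat_lit 0) (XT.nd (nat_lit 156) (nat_lit 76) (nat_lit 0) (XT.nd (nat_lit 78) (nat_lit 228) (nat_lit 0) (XT.lf (nat_lit 0) (nat_lit 66971661256) (nat_lit 76) (nat_lit 51370533600) (nat_lit 152) (nat_lit 23630606916) (nat_lit 11) (nat_lit 5) (nat_lit 12) (nat_lit 5) (nat_lit 13) (nat_lit 4) (nat_lit 231) (nat_lit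 215) (nat_lit 154)) (XT.lf (nat_lit 0) (nat_lit 6273900610) (nat_lit 152) (nat_lit 214406415) (nat_lit 228) (nat_lit 152217593835) (nat_lit 8) (nat_lit 5) (nat_lit 10) (nat_lit 5) (nat_lit 11) (nat_lit 5) (nat_lit 232) (nat_lit 215) (nat_lit 153))) (XT.nd (nat_lit 78) (nat_lit 76) (nat_lit 0) (XT.lf (nat_lit 0) (nat_lit 43412751928) (nat_lit 228) (nat_lit 75617006082) (nat_lit 76) (nat_lit 58575162122) (nat_lit 8) (nat_lit 5) (nat_lit 11) (nat_lit 5) (nat_lit 9) (nat_lit 4) (nat_lit 233) (nat_lit 215) (nat_lit 152)) (XT.nd (nat_lit 78) (nat_lit 0) (nat_lit 0) (XT.lf (nat_lit 0) (nat_lit 13379435038) (nat_lit 76) (nat_lit 72821628125) (nat_lit 152) (nat_lit 113111721028) (nat_lit 7) (nat_lit 5) (nat_lit 8) (nat_lit 5) (nat_lit 9) (nat_lit 4) (nat_lit 234) (nat_lit 215) (nat_lit 151)) (XT.lf (nat_lit 0) (nat_lit 120300665354) (nat_lit 76) (nat_lit 17306192587) (nat_lit 152) (nat_lit 86494037804)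 (nat_lit 7) (nat_lit 5) (nat_lit 8) (nat_lit 5) (nat_lit 9) (nat_lit 4) (nat_lit 235) (nat_lit 215) (nat_lit 150))))) (XT.nd (nat_lit 156) (nat_lit 152) (nat_lit 0) (XT.nd (nat_lit 78) (nat_lit 76) (nat_lit 0) (XT.lf (nat_lit 0) (nat_lit 197840720324) (nat_lit 152) (nat_lit 10469796602) (nat_lit 0) (nat_lit 44207337181) (nat_lit 7) (nat_lit 5) (nat_lit 9) (nat_lit 4) (nat_lit 7) (nat_lit 4) (nat_lit 236) (nat_lit 215) (nat_lit 149)) (XT.lf (nat_lit 0) (nat_lit 101453682045) (nat_lit 76) (nat_lit 168572844829) (nat_lit 76) (nat_lit 14937485333) (nat_lit 6) (nat_lit 4) (nat_lit 7) (nat_lit 5) (nat_lit 7) (nat_lit 4) (nat_lit 237) (nat_lit 215) (nat_lit 148))) (XT.nd (nat_lit 78) (nat_lit 76) (nat_lit 0) (XT.lf (nat_lit 0) (nat_lit 29535320250) (nat_lit 152) (nat_lit 92203611942) (nat_lit 76) (nat_lit 200454089290) (nat_lit 5) (nat_lit 5) (nat_lit 7) (nat_lit 5) (nat_lit 6) (nat_lit 4) (nat_lit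 238) (nat_lit 215) (nat_lit 147)) (XT.nd (nat_lit 78) (nat_lit 0) (nat_lit 0) (XT.lf (nat_lit 0) (nat_lit 13035609772) (nat_lit 76) (nat_lit 67096208613) (nat_lit 152) (nat_lit 284816549450) (nat_lit 4) (nat_lit 5) (nat_lit 5) (nat_lit 5) (nat_lit 6) (nat_lit 4) (nat_lit 239) (nat_lit 215) (nat_lit 146)) (XT.lf (nat_lit 0) (nat_lit 139642029644) (nat_lit 76) (nat_lit 1358884585) (nat_lit 152) (nat_lit 272901455220) (nat_lit 4) (nat_lit 5) (nat_lit 5) (nat_lit 5) (nat_lit 6) (nat_lit 4) (nat_lit 240) (nat_lit 215) (nat_lit 145))))))))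
noncomputable def xc45 : XT := (XT.nd (nat_lit 29484) (nat_lit 0) (nat_lit 456) (XT.nd (nat_lit 702) (nat_lit 76) (nat_lit 0) (XT.nd (nat_lit 312) (nat_lit 76) (nat_lit 0) (XT.nd (nat_lit 156) (nat_lit 76) (nat_lit 0) (XT.nd (nat_lit 78) (nat_lit 0) (nat_lit 0) (XT.lf (nat_lit 0) (nat_lit 212784686587) (nat_lit 152) (nat_lit 186747542875) (nat_lit 0) (nat_lit 70524499607) (nat_lit 4) (nat_lit 5) (nat_lit 6) (nat_lit 4) (nat_lit 4) (nat_lit 4) (nat_lit 241) (nat_lit 215) (nat_lit 144)) (XT.lf (nat_lit 0) (nat_lit 295372618177) (nat_lit 152) (nat_lit 86147177982) (nat_lit 0) (nat_lit 153111521384) (nat_lit 4) (nat_lit 5) (nat_lit 6) (nat_lit 4) (nat_lit 4) (nat_lit 4) (nat_lit 242) (nat_lit 215) (nat_lit 143))) (XT.nd (nat_lit 78) (nat_lit 0) (nat_lit 0) (XT.lf (nat_lit 0) (nat_lit 31097317874) (nat_lit 76) (nat_lit 359998451993) (nat_lit 76) (nat_lit 217736564061) (nat_lit 3) (nat_lit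 4) (nat_lit 4) (nat_lit 5) (nat_lit 4) (nat_lit 4) (nat_lit 243) (nat_lit 215) (nat_lit 142)) (XT.lf (nat_lit 0) (nat_lit 171143892085) (nat_lit 76) (nat_lit 332540802185) (nat_lit 76) (nat_lit 190278226304) (nat_lit 3) (nat_lit 4) (nat_lit 4) (nat_lit 5) (nat_lit 4) (nat_lit 4) (nat_lit 244) (nat_lit 215) (nat_lit 141)))) (XT.nd (nat_lit 156) (nat_lit 76) (nat_lit 0) (XT.nd (nat_lit 78) (nat_lit 0) (nat_lit 0) (XT.lf (nat_lit 0) (nat_lit 332196228595) (nat_lit 76) (nat_lit 300965048356) (nat_lit 76) (nat_lit 158701874260) (nat_lit 3) (nat_lit 4) (nat_lit 4) (nat_lit 5) (nat_lit 4) (nat_lit 4) (nat_lit 245) (nat_lit 215) (nat_lit 140)) (XT.lf (nat_lit 0) (nat_lit 517405351378) (nat_lit 76) (nat_lit 264653404021) (nat_lit 76) (nat_lit 122389709737) (nat_lit 3) (nat_lit 4) (nat_lit 4) (nat_lit 5) (nat_lit 4) (nat_lit 4) (nat_lit 246) (nat_lit 215) (nat_lit 139))) (XT.nd (nat_lit 78) (nat_lit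 76) (nat_lit 0) (XT.lf (nat_lit 0) (nat_lit 730394917185) (nat_lit 76) (nat_lit 222895423964) (nat_lit 76) (nat_lit 80631277342) (nat_lit 3) (nat_lit 4) (nat_lit 4) (nat_lit 5) (nat_lit 4) (nat_lit 4) (nat_lit 247) (nat_lit 215) (nat_lit 138)) (XT.nd (nat_lit 78) (nat_lit 76) (nat_lit 0) (XT.lf (nat_lit 0) (nat_lit 975332113171) (nat_lit 76) (nat_lit 174874104226) (nat_lit 76) (nat_lit 32609564268) (nat_lit 3) (nat_lit 4) (nat_lit 4) (nat_lit 5) (nat_lit 4) (nat_lit 4) (nat_lit 248) (nat_lit 215) (nat_lit 137)) (XT.lf (nat_lit 0) (nat_lit 21483691612) (nat_lit 152) (nat_lit 97578803435) (nat_lit 76) (nat_lit 1234938095011) (nat_lit 2) (nat_lit 5) (nat_lit 4) (nat_lit 5) (nat_lit 3) (nat_lit 4) (nat_lit 249) (nat_lit 215) (nat_lit 136)))))) (XT.nd (nat_lit 390) (nat_lit 0) (nat_lit 0) (XT.nd (nat_lit 156) (nat_lit 0) (nat_lit 0) (XT.nd (nat_lit 78) (nat_lit 0) (nat_lit 0) (XT.lf (nat_lit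 0) (nat_lit 29378916342) (nat_lit 76) (nat_lit 53142283538) (nat_lit 152) (nat_lit 1468213271289) (nat_lit 1) (nat_lit 5) (nat_lit 2) (nat_lit 5) (nat_lit 3) (nat_lit 4) (nat_lit 250) (nat_lit 215) (nat_lit 135)) (XT.lf (nat_lit 0) (nat_lit 156173820342) (nat_lit 152) (nat_lit 1596081292950) (nat_lit 0) (nat_lit 24446562903) (nat_lit 1) (nat_lit 5) (nat_lit 3) (nat_lit 4) (nat_lit 1) (nat_lit 4) (nat_lit 251) (nat_lit 215) (nat_lit 134))) (XT.nd (nat_lit 78) (nat_lit 0) (nat_lit 0) (XT.lf (nat_lit 0) (nat_lit 242343837657) (nat_lit 152) (nat_lit 1683486192576) (nat_lit 0) (nat_lit 110616371985) (nat_lit 1) (nat_lit 5) (nat_lit 3) (nat_lit 4) (nat_lit 1) (nat_lit 4) (nat_lit 252) (nat_lit 215) (nat_lit 133)) (XT.nd (nat_lit 78) (nat_lit 0) (nat_lit 0) (XT.lf (nat_lit 0) (nat_lit 341439113748) (nat_lit 152) (nat_lit 1784002276371) (nat_lit 0) (nat_lit 209711467004) (nat_lit 1) (nat_lit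 5) (nat_lit 3) (nat_lit 4) (nat_lit 1) (nat_lit 4) (nat_lit 253) (nat_lit 215) (nat_lit 132)) (XT.lf (nat_lit 0) (nat_lit 455398469235) (nat_lit 152) (nat_lit 1899596163365) (nat_lit 0) (nat_lit 323670665037) (nat_lit 1) (nat_lit 5) (nat_lit 3) (nat_lit 4) (nat_lit 1) (nat_lit 4) (nat_lit 254) (nat_lit 215) (nat_lit 131))))) (XT.nd (nat_lit 156) (nat_lit 0) (nat_lit 0) (XT.nd (nat_lit 78) (nat_lit 0) (nat_lit 0) (XT.lf (nat_lit 0) (nat_lit 586451543682) (nat_lit 152) (nat_lit 2032529473087) (nat_lit 0) (nat_lit 454723602567) (nat_lit 1) (nat_lit 5) (nat_lit 3) (nat_lit 4) (nat_lit 1) (nat_lit 4) (nat_lit 255) (nat_lit 215) (nat_lit 130)) (XT.lf (nat_lit 0) (nat_lit 737162418979) (nat_lit 152) (nat_lit 2185403074639) (nat_lit 0) (nat_lit 605434358807) (nat_lit 1) (nat_lit 5) (nat_lit 3) (nat_lit 4) (nat_lit 1) (nat_lit 4) (nat_lit 256) (nat_lit 215) (nat_lit 129))) (XT.nd (nat_lit 28080)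 (nat_lit 0) (nat_lit 2356) (XT.lf (nat_lit 0) (nat_lit 910479786167) (nat_lit 152) (nat_lit 2361207973269) (nat_lit 0) (nat_lit 778751622466) (nat_lit 1) (nat_lit 5) (nat_lit 3) (nat_lit 4) (nat_lit 1) (nat_lit 4) (nat_lit 257) (nat_lit 215) (nat_lit 128)) (XT.nd (nat_lit 78) (nat_lit 0) (nat_lit 76) (XT.lf (nat_lit 0) (nat_lit 4501027278) (nat_lit 532) (nat_lit 7376081883) (nat_lit 532) (nat_lit 7376081883) (nat_lit 32) (nat_lit 3) (nat_lit 39) (nat_lit 3) (nat_lit 39) (nat_lit 5) (nat_lit 216) (nat_lit 216) (nat_lit 168)) (XT.lf (nat_lit 0) (nat_lit 10267140768) (nat_lit 456) (nat_lit 25623088805) (nat_lit 532) (nat_lit 5456483991) (nat_lit 33) (nat_lit 5) (nat_lit 39) (nat_lit 5) (nat_lit 40) (nat_lit 5) (nat_lit 217) (nat_lit 216) (nat_lit 167))))))) (XT.nd (nat_lit 702) (nat_lit 836) (nat_lit 0) (XT.nd (nat_lit 312) (nat_lit 836) (nat_lit 0) (XT.nd (nat_lit 156) (nat_lit 304) (nat_lit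 0) (XT.nd (nat_lit 78) (nat_lit 0) (nat_lit 76) (XT.lf (nat_lit 76) (nat_lit 6746377803) (nat_lit 0) (nat_lit 6222982706) (nat_lit 532) (nat_lit 31544025191) (nat_lit 34) (nat_lit 5) (nat_lit 33) (nat_lit 5) (nat_lit 40) (nat_lit 5) (nat_lit 218) (nat_lit 216) (nat_lit 166)) (XT.lf (nat_lit 0) (nat_lit 17502156195) (nat_lit 456) (nat_lit 3271382010) (nat_lit 532) (nat_lit 27267571090) (nat_lit 34) (nat_lit 5) (nat_lit 40) (nat_lit 5) (nat_lit 41) (nat_lit 5) (nat_lit 219) (nat_lit 216) (nat_lit 165))) (XT.nd (nat_lit 78) (nat_lit 456) (nat_lit 0) (XT.lf (nat_lit 0) (nat_lit 24139048435) (nat_lit 456) (nat_lit 14230226489) (nat_lit 76) (nat_lit 13614843267) (nat_lit 35) (nat_lit 5) (nat_lit 41) (nat_lit 5) (nat_lit 36) (nat_lit 5) (nat_lit 220) (nat_lit 216) (nat_lit 164)) (XT.lf (nat_lit 0) (nat_lit 29511695813) (nat_lit 456) (nat_lit 3633364283) (nat_lit 532) (nat_lit 23263684468) (nat_lit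 29) (nat_lit 5) (nat_lit 35) (nat_lit 5) (nat_lit 36) (nat_lit 5) (nat_lit 221) (nat_lit 216) (nat_lit 163)))) (XT.nd (nat_lit 156) (nat_lit 456) (nat_lit 0) (XT.nd (nat_lit 78) (nat_lit 152) (nat_lit 0) (XT.lf (nat_lit 0) (nat_lit 19285695530) (nat_lit 228) (nat_lit 25970994406) (nat_lit 304) (nat_lit 16100043719) (nat_lit 26) (nat_lit 5) (nat_lit 29) (nat_lit 5) (nat_lit 30) (nat_lit 5) (nat_lit 222) (nat_lit 216) (nat_lit 162)) (XT.lf (nat_lit 0) (nat_lit 6949301702) (nat_lit 152) (nat_lit 53610386247) (nat_lit 228) (nat_lit 6377303334) (nat_lit 24) (nat_lit 5) (nat_lit 26) (nat_lit 5) (nat_lit 27) (nat_lit 5) (nat_lit 223) (nat_lit 216) (nat_lit 161))) (XT.nd (nat_lit 78) (nat_lit 380) (nat_lit 0) (XT.lf (nat_lit 0) (nat_lit 6532326389) (nat_lit 228) (nat_lit 8258871823) (nat_lit 76) (nat_lit 58396376093) (nat_lit 23) (nat_lit 5) (nat_lit 26) (nat_lit 5) (nat_lit 24) (nat_lit 5) (nat_lit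 224) (nat_lit 216) (nat_lit 160)) (XT.nd (nat_lit 78) (nat_lit 152) (nat_lit 0) (XT.lf (nat_lit 0) (nat_lit 23054515208) (nat_lit 304) (nat_lit 27280201207) (nat_lit 76) (nat_lit 29863507105) (nat_lit 20) (nat_lit 5) (nat_lit 24) (nat_lit 5) (nat_lit 21) (nat_lit 5) (nat_lit 225) (nat_lit 216) (nat_lit 159)) (XT.lf (nat_lit 0) (nat_lit 36957572458) (nat_lit 152) (nat_lit 6637238476) (nat_lit 228) (nat_lit 44542501289) (nat_lit 18) (nat_lit 5) (nat_lit 20) (nat_lit 5) (nat_lit 21) (nat_lit 5) (nat_lit 226) (nat_lit 216) (nat_lit 158)))))) (XT.nd (nat_lit 390) (nat_lit 380) (nat_lit 0) (XT.nd (nat_lit 156) (nat_lit 304) (nat_lit 0) (XT.nd (nat_lit 78) (nat_lit 0) (nat_lit 0) (XT.lf (nat_lit 0) (nat_lit 14951646234) (nat_lit 152) (nat_lit 54483521781) (nat_lit 228) (nat_lit 27654596068) (nat_lit 16) (nat_lit 5) (nat_lit 18) (nat_lit 5) (nat_lit 19) (nat_lit 5) (nat_lit 227) (nat_lit 216)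 (nat_lit 157)) (XT.lf (nat_lit 0) (nat_lit 93903282739) (nat_lit 152) (nat_lit 6913326916) (nat_lit 228) (nat_lit 6435290034) (nat_lit 16) (nat_lit 5) (nat_lit 18) (nat_lit 5) (nat_lit 19) (nat_lit 5) (nat_lit 228) (nat_lit 216) (nat_lit 156))) (XT.nd (nat_lit 78) (nat_lit 152) (nat_lit 0) (XT.lf (nat_lit 0) (nat_lit 19921886283) (nat_lit 152) (nat_lit 51213372676) (nat_lit 76) (nat_lit 47540242989) (nat_lit 14) (nat_lit 5) (nat_lit 16) (nat_lit 5) (nat_lit 15) (nat_lit 5) (nat_lit 229) (nat_lit 216) (nat_lit 155)) (XT.nd (nat_lit 78) (nat_lit 0) (nat_lit 0) (XT.lf (nat_lit 0) (nat_lit 30566244973) (nat_lit 152) (nat_lit 20618027401) (nat_lit 228) (nat_lit 80508399108) (nat_lit 12) (nat_lit 5) (nat_lit 14) (nat_lit 5) (nat_lit 15) (nat_lit 5) (nat_lit 230) (nat_lit 216) (nat_lit 154)) (XT.lf (nat_lit 0) (nat_lit 89564151971) (nat_lit 228) (nat_lit 19773652275) (nat_lit 76) (nat_lit 37130372583)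 (nat_lit 12) (nat_lit 5) (nat_lit 15) (nat_lit 5) (nat_lit 13) (nat_lit 4) (nat_lit 231) (nat_lit 216) (nat_lit 153))))) (XT.nd (nat_lit 156) (nat_lit 76) (nat_lit 0) (XT.nd (nat_lit 78) (nat_lit 228) (nat_lit 0) (XT.lf (nat_lit 0) (nat_lit 77062783839) (nat_lit 76) (nat_lit 59059285418) (nat_lit 152) (nat_lit 27144264027) (nat_lit 11) (nat_lit 5) (nat_lit 12) (nat_lit 5) (nat_lit 13) (nat_lit 4) (nat_lit 232) (nat_lit 216) (nat_lit 152)) (XT.lf (nat_lit 0) (nat_lit 7258024034) (nat_lit 152) (nat_lit 230117585) (nat_lit 228) (nat_lit 175021432632) (nat_lit 8) (nat_lit 5) (nat_lit 10) (nat_lit 5) (nat_lit 11) (nat_lit 5) (nat_lit 233) (nat_lit 216) (nat_lit 151))) (XT.nd (nat_lit 78) (nat_lit 76) (nat_lit 0) (XT.lf (nat_lit 0) (nat_lit 49948129202) (nat_lit 228) (nat_lit 86920553123) (nat_lit 76) (nat_lit 67375025056) (nat_lit 8) (nat_lit 5) (nat_lit 11) (nat_lit 5) (nat_lit 9) (nat_lit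 4) (nat_lit 234) (nat_lit 216) (nat_lit 150)) (XT.nd (nat_lit 78) (nat_lit 0) (nat_lit 0) (XT.lf (nat_lit 0) (nat_lit 15422052681) (nat_lit 76) (nat_lit 83730432498) (nat_lit 152) (nat_lit 130055451625) (nat_lit 7) (nat_lit 5) (nat_lit 8) (nat_lit 5) (nat_lit 9) (nat_lit 4) (nat_lit 235) (nat_lit 216) (nat_lit 149)) (XT.lf (nat_lit 0) (nat_lit 138376810712) (nat_lit 76) (nat_lit 19889565088) (nat_lit 152) (nat_lit 99448119511) (nat_lit 7) (nat_lit 5) (nat_lit 8) (nat_lit 5) (nat_lit 9) (nat_lit 4) (nat_lit 236) (nat_lit 216) (nat_lit 148))))))))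
noncomputable def xc46 : XT := (XT.nd (nat_lit 1482) (nat_lit 0) (nat_lit 0) (XT.nd (nat_lit 702) (nat_lit 152) (nat_lit 0) (XT.nd (nat_lit 312) (nat_lit 76) (nat_lit 0) (XT.nd (nat_lit 156) (nat_lit 152) (nat_lit 0) (XT.nd (nat_lit 78) (nat_lit 76) (nat_lit 0) (XT.lf (nat_lit 0) (nat_lit 227533168502) (nat_lit 152) (nat_lit 12012197946) (nat_lit 0) (nat_lit 50848810163) (nat_lit 7) (nat_lit 5) (nat_lit 9) (nat_lit 4) (nat_lit 7) (nat_lit 4) (nat_lit 237) (nat_lit 216) (nat_lit 147)) (XT.lf (nat_lit 0) (nat_lit 116697426670) (nat_lit 76) (nat_lit 193847905945) (nat_lit 76) (nat_lit 17162053199) (nat_lit 6) (nat_lit 4) (nat_lit 7) (nat_lit 5) (nat_lit 7) (nat_lit 4) (nat_lit 238) (nat_lit 216) (nat_lit 146))) (XT.nd (nat_lit 78) (nat_lit 76) (nat_lit 0) (XT.lf (nat_lit 0) (nat_lit 33978880724) (nat_lit 152) (nat_lit 106011080324) (nat_lit 76) (nat_lit 230530918775) (nat_lit 5) (nat_lit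 5) (nat_lit 7) (nat_lit 5) (nat_lit 6) (nat_lit 4) (nat_lit 239) (nat_lit 216) (nat_lit 145)) (XT.lf (nat_lit 0) (nat_lit 15012071599) (nat_lit 76) (nat_lit 77151560042) (nat_lit 152) (nat_lit 327525998662) (nat_lit 4) (nat_lit 5) (nat_lit 5) (nat_lit 5) (nat_lit 6) (nat_lit 4) (nat_lit 240) (nat_lit 216) (nat_lit 144)))) (XT.nd (nat_lit 156) (nat_lit 76) (nat_lit 0) (XT.nd (nat_lit 78) (nat_lit 0) (nat_lit 0) (XT.lf (nat_lit 0) (nat_lit 160606699622) (nat_lit 76) (nat_lit 1554821740) (nat_lit 152) (nat_lit 313825340280) (nat_lit 4) (nat_lit 5) (nat_lit 5) (nat_lit 5) (nat_lit 6) (nat_lit 4) (nat_lit 241) (nat_lit 216) (nat_lit 143)) (XT.lf (nat_lit 0) (nat_lit 244711659042) (nat_lit 152) (nat_lit 214743118769) (nat_lit 0) (nat_lit 81109696779) (nat_lit 4) (nat_lit 5) (nat_lit 6) (nat_lit 4) (nat_lit 4) (nat_lit 4) (nat_lit 242) (nat_lit 216) (nat_lit 142))) (XT.nd (nat_lit 78) (nat_lit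 76) (nat_lit 0) (XT.lf (nat_lit 0) (nat_lit 339686571309) (nat_lit 152) (nat_lit 99054858560) (nat_lit 0) (nat_lit 176083921098) (nat_lit 4) (nat_lit 5) (nat_lit 6) (nat_lit 4) (nat_lit 4) (nat_lit 4) (nat_lit 243) (nat_lit 216) (nat_lit 141)) (XT.nd (nat_lit 78) (nat_lit 0) (nat_lit 0) (XT.lf (nat_lit 0) (nat_lit 35775093114) (nat_lit 76) (nat_lit 413992368202) (nat_lit 76) (nat_lit 250389119775) (nat_lit 3) (nat_lit 4) (nat_lit 4) (nat_lit 5) (nat_lit 4) (nat_lit 4) (nat_lit 244) (nat_lit 216) (nat_lit 140)) (XT.lf (nat_lit 0) (nat_lit 196826934646) (nat_lit 76) (nat_lit 382416834173) (nat_lit 76) (nat_lit 218813065558) (nat_lit 3) (nat_lit 4) (nat_lit 4) (nat_lit 5) (nat_lit 4) (nat_lit 4) (nat_lit 245) (nat_lit 216) (nat_lit 139)))))) (XT.nd (nat_lit 390) (nat_lit 76) (nat_lit 0) (XT.nd (nat_lit 156) (nat_lit 76) (nat_lit 0) (XT.nd (nat_lit 78) (nat_lit 0) (nat_lit 0) (XT.lf (nat_lit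 0) (nat_lit 382035627013) (nat_lit 76) (nat_lit 346105380967) (nat_lit 76) (nat_lit 182501160015) (nat_lit 3) (nat_lit 4) (nat_lit 4) (nat_lit 5) (nat_lit 4) (nat_lit 4) (nat_lit 246) (nat_lit 216) (nat_lit 138)) (XT.lf (nat_lit 0) (nat_lit 595024818544) (nat_lit 76) (nat_lit 304347567109) (nat_lit 76) (nat_lit 140742952821) (nat_lit 3) (nat_lit 4) (nat_lit 4) (nat_lit 5) (nat_lit 4) (nat_lit 4) (nat_lit 247) (nat_lit 216) (nat_lit 137))) (XT.nd (nat_lit 78) (nat_lit 76) (nat_lit 0) (XT.lf (nat_lit 0) (nat_lit 839961689075) (nat_lit 76) (nat_lit 256326391893) (nat_lit 76) (nat_lit 92721435572) (nat_lit 3) (nat_lit 4) (nat_lit 4) (nat_lit 5) (nat_lit 4) (nat_lit 4) (nat_lit 248) (nat_lit 216) (nat_lit 136)) (XT.nd (nat_lit 78) (nat_lit 76) (nat_lit 0) (XT.lf (nat_lit 0) (nat_lit 1121638481723) (nat_lit 76) (nat_lit 201102310586) (nat_lit 76) (nat_lit 37497056847) (nat_lit 3) (nat_lit 4)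 (nat_lit 4) (nat_lit 5) (nat_lit 4) (nat_lit 4) (nat_lit 249) (nat_lit 216) (nat_lit 135)) (XT.lf (nat_lit 0) (nat_lit 24709501758) (nat_lit 152) (nat_lit 112209748707) (nat_lit 76) (nat_lit 1420181160846) (nat_lit 2) (nat_lit 5) (nat_lit 4) (nat_lit 5) (nat_lit 3) (nat_lit 4) (nat_lit 250) (nat_lit 216) (nat_lit 134))))) (XT.nd (nat_lit 156) (nat_lit 0) (nat_lit 0) (XT.nd (nat_lit 78) (nat_lit 0) (nat_lit 0) (XT.lf (nat_lit 0) (nat_lit 33791131726) (nat_lit 76) (nat_lit 61111209130) (nat_lit 152) (nat_lit 1688442058244) (nat_lit 1) (nat_lit 5) (nat_lit 2) (nat_lit 5) (nat_lit 3) (nat_lit 4) (nat_lit 251) (nat_lit 216) (nat_lit 133)) (XT.lf (nat_lit 0) (nat_lit 179602518717) (nat_lit 152) (nat_lit 1835488649893) (nat_lit 0) (nat_lit 28115543889) (nat_lit 1) (nat_lit 5) (nat_lit 3) (nat_lit 4) (nat_lit 1) (nat_lit 4) (nat_lit 252) (nat_lit 216) (nat_lit 132))) (XT.nd (nat_lit 78) (nat_lit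 0) (nat_lit 0) (XT.lf (nat_lit 0) (nat_lit 278697696195) (nat_lit 152) (nat_lit 1936004915376) (nat_lit 0) (nat_lit 127210563914) (nat_lit 1) (nat_lit 5) (nat_lit 3) (nat_lit 4) (nat_lit 1) (nat_lit 4) (nat_lit 253) (nat_lit 216) (nat_lit 131)) (XT.nd (nat_lit 78) (nat_lit 0) (nat_lit 0) (XT.lf (nat_lit 0) (nat_lit 392656965932) (nat_lit 152) (nat_lit 2051598960360) (nat_lit 0) (nat_lit 241169696734) (nat_lit 1) (nat_lit 5) (nat_lit 3) (nat_lit 4) (nat_lit 1) (nat_lit 4) (nat_lit 254) (nat_lit 216) (nat_lit 130)) (XT.lf (nat_lit 0) (nat_lit 523709965813) (nat_lit 152) (nat_lit 2184532407464) (nat_lit 0) (nat_lit 372222577557) (nat_lit 1) (nat_lit 5) (nat_lit 3) (nat_lit 4) (nat_lit 1) (nat_lit 4) (nat_lit 255) (nat_lit 216) (nat_lit 129))))))) (XT.nd (nat_lit 28782) (nat_lit 0) (nat_lit 760) (XT.nd (nat_lit 28392) (nat_lit 0) (nat_lit 1900) (XT.nd (nat_lit 28236) (nat_lit 0) (nat_lit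 2356) (XT.nd (nat_lit 78) (nat_lit 0) (nat_lit 0) (XT.lf (nat_lit 0) (nat_lit 674420776271) (nat_lit 152) (nat_lit 2337406128479) (nat_lit 0) (nat_lit 522933284487) (nat_lit 1) (nat_lit 5) (nat_lit 3) (nat_lit 4) (nat_lit 1) (nat_lit 4) (nat_lit 256) (nat_lit 216) (nat_lit 128)) (XT.lf (nat_lit 0) (nat_lit 847738087076) (nat_lit 152) (nat_lit 2513211130991) (nat_lit 0) (nat_lit 696250505267) (nat_lit 1) (nat_lit 5) (nat_lit 3) (nat_lit 4) (nat_lit 1) (nat_lit 4) (nat_lit 257) (nat_lit 216) (nat_lit 127))) (XT.nd (nat_lit 78) (nat_lit 0) (nat_lit 76) (XT.lf (nat_lit 0) (nat_lit 5243332387) (nat_lit 532) (nat_lit 8446015680) (nat_lit 532) (nat_lit 8446015680) (nat_lit 32) (nat_lit 3) (nat_lit 39) (nat_lit 3) (nat_lit 39) (nat_lit 5) (nat_lit 217) (nat_lit 217) (nat_lit 166)) (XT.lf (nat_lit 0) (nat_lit 11924361161) (nat_lit 456) (nat_lit 29388303604) (nat_lit 532) (nat_lit 6225929330) (nat_lit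 33) (nat_lit 5) (nat_lit 39) (nat_lit 5) (nat_lit 40) (nat_lit 5) (nat_lit 218) (nat_lit 217) (nat_lit 165)))) (XT.nd (nat_lit 156) (nat_lit 532) (nat_lit 0) (XT.nd (nat_lit 78) (nat_lit 0) (nat_lit 76) (XT.lf (nat_lit 76) (nat_lit 7829959646) (nat_lit 0) (nat_lit 7188396462) (nat_lit 532) (nat_lit 36163093984) (nat_lit 34) (nat_lit 5) (nat_lit 33) (nat_lit 5) (nat_lit 40) (nat_lit 5) (nat_lit 219) (nat_lit 217) (nat_lit 164)) (XT.lf (nat_lit 0) (nat_lit 20216890696) (nat_lit 456) (nat_lit 3691361114) (nat_lit 532) (nat_lit 31331300437) (nat_lit 34) (nat_lit 5) (nat_lit 40) (nat_lit 5) (nat_lit 41) (nat_lit 5) (nat_lit 220) (nat_lit 217) (nat_lit 163))) (XT.nd (nat_lit 78) (nat_lit 684) (nat_lit 0) (XT.lf (nat_lit 0) (nat_lit 27838861217) (nat_lit 456) (nat_lit 16292828182) (nat_lit 76) (nat_lit 15643233943) (nat_lit 35) (nat_lit 5) (nat_lit 41) (nat_lit 5) (nat_lit 36) (nat_lit 5) (nat_lit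 221) (nat_lit 217) (nat_lit 162)) (XT.nd (nat_lit 78) (nat_lit 228) (nat_lit 0) (XT.lf (nat_lit 0) (nat_lit 34004293756) (nat_lit 456) (nat_lit 4182765865) (nat_lit 532) (nat_lit 26676945965) (nat_lit 29) (nat_lit 5) (nat_lit 35) (nat_lit 5) (nat_lit 36) (nat_lit 5) (nat_lit 222) (nat_lit 217) (nat_lit 161)) (XT.lf (nat_lit 0) (nat_lit 22244455401) (nat_lit 228) (nat_lit 29863309807) (nat_lit 304) (nat_lit 18447097604) (nat_lit 26) (nat_lit 5) (nat_lit 29) (nat_lit 5) (nat_lit 30) (nat_lit 5) (nat_lit 223) (nat_lit 217) (nat_lit 160)))))) (XT.nd (nat_lit 390) (nat_lit 380) (nat_lit 0) (XT.nd (nat_lit 156) (nat_lit 532) (nat_lit 0) (XT.nd (nat_lit 78) (nat_lit 76) (nat_lit 0) (XT.lf (nat_lit 0) (nat_lit 8056875959) (nat_lit 152) (nat_lit 61642812703) (nat_lit 228) (nat_lit 7273041295) (nat_lit 24) (nat_lit 5) (nat_lit 26) (nat_lit 5) (nat_lit 27) (nat_lit 5) (nat_lit 224) (nat_lit 217)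 (nat_lit 159)) (XT.lf (nat_lit 0) (nat_lit 7562447694) (nat_lit 228) (nat_lit 9438115296) (nat_lit 76) (nat_lit 67160863018) (nat_lit 23) (nat_lit 5) (nat_lit 26) (nat_lit 5) (nat_lit 24) (nat_lit 5) (nat_lit 225) (nat_lit 217) (nat_lit 158))) (XT.nd (nat_lit 78) (nat_lit 304) (nat_lit 0) (XT.lf (nat_lit 0) (nat_lit 26557948222) (nat_lit 304) (nat_lit 31314086188) (nat_lit 76) (nat_lit 34352073783) (nat_lit 20) (nat_lit 5) (nat_lit 24) (nat_lit 5) (nat_lit 21) (nat_lit 5) (nat_lit 226) (nat_lit 217) (nat_lit 157)) (XT.nd (nat_lit 78) (nat_lit 152) (nat_lit 0) (XT.lf (nat_lit 0) (nat_lit 42554431825) (nat_lit 152) (nat_lit 7620233588) (nat_lit 228) (nat_lit 51179794412) (nat_lit 18) (nat_lit 5) (nat_lit 20) (nat_lit 5) (nat_lit 21) (nat_lit 5) (nat_lit 227) (nat_lit 217) (nat_lit 156)) (XT.lf (nat_lit 0) (nat_lit 17245991661) (nat_lit 152) (nat_lit 62641288714) (nat_lit 228) (nat_lit 31762828649)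 (nat_lit 16) (nat_lit 5) (nat_lit 18) (nat_lit 5) (nat_lit 19) (nat_lit 5) (nat_lit 228) (nat_lit 217) (nat_lit 155))))) (XT.nd (nat_lit 156) (nat_lit 228) (nat_lit 0) (XT.nd (nat_lit 78) (nat_lit 152) (nat_lit 0) (XT.lf (nat_lit 0) (nat_lit 108033643403) (nat_lit 152) (nat_lit 7937490011) (nat_lit 228) (nat_lit 7365838470) (nat_lit 16) (nat_lit 5) (nat_lit 18) (nat_lit 5) (nat_lit 19) (nat_lit 5) (nat_lit 229) (nat_lit 217) (nat_lit 154)) (XT.lf (nat_lit 0) (nat_lit 22940214056) (nat_lit 152) (nat_lit 58850404615) (nat_lit 76) (nat_lit 54683684070) (nat_lit 14) (nat_lit 5) (nat_lit 16) (nat_lit 5) (nat_lit 15) (nat_lit 5) (nat_lit 230) (nat_lit 217) (nat_lit 153))) (XT.nd (nat_lit 78) (nat_lit 76) (nat_lit 0) (XT.lf (nat_lit 0) (nat_lit 35192348859) (nat_lit 152) (nat_lit 23696680381) (nat_lit 228) (nat_lit 92555268542) (nat_lit 12) (nat_lit 5) (nat_lit 14) (nat_lit 5) (nat_lit 15) (nat_lit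 5) (nat_lit 231) (nat_lit 217) (nat_lit 152)) (XT.nd (nat_lit 78) (nat_lit 76) (nat_lit 0) (XT.lf (nat_lit 0) (nat_lit 103022647758) (nat_lit 228) (nat_lit 22702218697) (nat_lit 76) (nat_lit 42711535632) (nat_lit 12) (nat_lit 5) (nat_lit 15) (nat_lit 5) (nat_lit 13) (nat_lit 4) (nat_lit 232) (nat_lit 217) (nat_lit 151)) (XT.lf (nat_lit 0) (nat_lit 88656510219) (nat_lit 76) (nat_lit 67905453677) (nat_lit 152) (nat_lit 31192513138) (nat_lit 11) (nat_lit 5) (nat_lit 12) (nat_lit 5) (nat_lit 13) (nat_lit 4) (nat_lit 233) (nat_lit 217) (nat_lit 150))))))))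
noncomputable def xc47 : XT := (XT.nd (nat_lit 1482) (nat_lit 0) (nat_lit 0) (XT.nd (nat_lit 702) (nat_lit 228) (nat_lit 0) (XT.nd (nat_lit 312) (nat_lit 228) (nat_lit 0) (XT.nd (nat_lit 156) (nat_lit 76) (nat_lit 0) (XT.nd (nat_lit 78) (nat_lit 0) (nat_lit 0) (XT.lf (nat_lit 0) (nat_lit 8379270801) (nat_lit 152) (nat_lit 252196817) (nat_lit 228) (nat_lit 201252870380) (nat_lit 8) (nat_lit 5) (nat_lit 10) (nat_lit 5) (nat_lit 11) (nat_lit 5) (nat_lit 234) (nat_lit 217) (nat_lit 149)) (XT.lf (nat_lit 0) (nat_lit 57458091103) (nat_lit 228) (nat_lit 99929143562) (nat_lit 76) (nat_lit 77491553759) (nat_lit 8) (nat_lit 5) (nat_lit 11) (nat_lit 5) (nat_lit 9) (nat_lit 4) (nat_lit 235) (nat_lit 217) (nat_lit 148))) (XT.nd (nat_lit 78) (nat_lit 0) (nat_lit 0) (XT.lf (nat_lit 0) (nat_lit 17762356718) (nat_lit 76) (nat_lit 96279078776) (nat_lit 152) (nat_lit 149546357227) (nat_lit 7) (nat_lit 5)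 (nat_lit 8) (nat_lit 5) (nat_lit 9) (nat_lit 4) (nat_lit 236) (nat_lit 217) (nat_lit 147)) (XT.lf (nat_lit 0) (nat_lit 159156807219) (nat_lit 76) (nat_lit 22863505419) (nat_lit 152) (nat_lit 114350196445) (nat_lit 7) (nat_lit 5) (nat_lit 8) (nat_lit 5) (nat_lit 9) (nat_lit 4) (nat_lit 237) (nat_lit 217) (nat_lit 146)))) (XT.nd (nat_lit 156) (nat_lit 152) (nat_lit 0) (XT.nd (nat_lit 78) (nat_lit 76) (nat_lit 0) (XT.lf (nat_lit 0) (nat_lit 261675499264) (nat_lit 152) (nat_lit 13792804086) (nat_lit 0) (nat_lit 58483974715) (nat_lit 7) (nat_lit 5) (nat_lit 9) (nat_lit 4) (nat_lit 7) (nat_lit 4) (nat_lit 238) (nat_lit 217) (nat_lit 145)) (XT.lf (nat_lit 0) (nat_lit 134221467754) (nat_lit 76) (nat_lit 222916875875) (nat_lit 76) (nat_lit 19724221341) (nat_lit 6) (nat_lit 4) (nat_lit 7) (nat_lit 5) (nat_lit 7) (nat_lit 4) (nat_lit 239) (nat_lit 217) (nat_lit 144))) (XT.nd (nat_lit 78) (nat_lit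 76) (nat_lit 0) (XT.lf (nat_lit 0) (nat_lit 39085741139) (nat_lit 152) (nat_lit 121895295559) (nat_lit 76) (nat_lit 265117147209) (nat_lit 5) (nat_lit 5) (nat_lit 7) (nat_lit 5) (nat_lit 6) (nat_lit 4) (nat_lit 240) (nat_lit 217) (nat_lit 143)) (XT.nd (nat_lit 78) (nat_lit 0) (nat_lit 0) (XT.lf (nat_lit 0) (nat_lit 17279852366) (nat_lit 76) (nat_lit 88717428368) (nat_lit 152) (nat_lit 376645043485) (nat_lit 4) (nat_lit 5) (nat_lit 5) (nat_lit 5) (nat_lit 6) (nat_lit 4) (nat_lit 241) (nat_lit 217) (nat_lit 142)) (XT.lf (nat_lit 0) (nat_lit 184711591545) (nat_lit 76) (nat_lit 1782074844) (nat_lit 152) (nat_lit 360890571778) (nat_lit 4) (nat_lit 5) (nat_lit 5) (nat_lit 5) (nat_lit 6) (nat_lit 4) (nat_lit 242) (nat_lit 217) (nat_lit 141)))))) (XT.nd (nat_lit 390) (nat_lit 152) (nat_lit 0) (XT.nd (nat_lit 156) (nat_lit 76) (nat_lit 0) (XT.nd (nat_lit 78) (nat_lit 0) (nat_lit 0) (XT.lf (nat_lit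 0) (nat_lit 281425416947) (nat_lit 152) (nat_lit 246942068220) (nat_lit 0) (nat_lit 93281083040) (nat_lit 4) (nat_lit 5) (nat_lit 6) (nat_lit 4) (nat_lit 4) (nat_lit 4) (nat_lit 243) (nat_lit 217) (nat_lit 140)) (XT.lf (nat_lit 0) (nat_lit 390645651830) (nat_lit 152) (nat_lit 113902201810) (nat_lit 0) (nat_lit 202500797735) (nat_lit 4) (nat_lit 5) (nat_lit 6) (nat_lit 4) (nat_lit 4) (nat_lit 4) (nat_lit 244) (nat_lit 217) (nat_lit 139))) (XT.nd (nat_lit 78) (nat_lit 0) (nat_lit 0) (XT.lf (nat_lit 0) (nat_lit 41151321209) (nat_lit 76) (nat_lit 476086798790) (nat_lit 76) (nat_lit 287941492358) (nat_lit 3) (nat_lit 4) (nat_lit 4) (nat_lit 5) (nat_lit 4) (nat_lit 4) (nat_lit 245) (nat_lit 217) (nat_lit 138)) (XT.nd (nat_lit 78) (nat_lit 0) (nat_lit 0) (XT.lf (nat_lit 0) (nat_lit 226359639302) (nat_lit 76) (nat_lit 439775511783) (nat_lit 76) (nat_lit 251629812015) (nat_lit 3) (nat_lit 4) (nat_lit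 4) (nat_lit 5) (nat_lit 4) (nat_lit 4) (nat_lit 246) (nat_lit 217) (nat_lit 137)) (XT.lf (nat_lit 0) (nat_lit 439348505377) (nat_lit 76) (nat_lit 398017842446) (nat_lit 76) (nat_lit 209871800646) (nat_lit 3) (nat_lit 4) (nat_lit 4) (nat_lit 5) (nat_lit 4) (nat_lit 4) (nat_lit 247) (nat_lit 217) (nat_lit 136))))) (XT.nd (nat_lit 156) (nat_lit 152) (nat_lit 0) (XT.nd (nat_lit 78) (nat_lit 0) (nat_lit 0) (XT.lf (nat_lit 0) (nat_lit 684285092902) (nat_lit 76) (nat_lit 349996792901) (nat_lit 76) (nat_lit 161850453682) (nat_lit 3) (nat_lit 4) (nat_lit 4) (nat_lit 5) (nat_lit 4) (nat_lit 4) (nat_lit 248) (nat_lit 217) (nat_lit 135)) (XT.lf (nat_lit 0) (nat_lit 965961639459) (nat_lit 76) (nat_lit 294772820873) (nat_lit 76) (nat_lit 106626223028) (nat_lit 3) (nat_lit 4) (nat_lit 4) (nat_lit 5) (nat_lit 4) (nat_lit 4) (nat_lit 249) (nat_lit 217) (nat_lit 134))) (XT.nd (nat_lit 78) (nat_lit 152)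 (nat_lit 0) (XT.lf (nat_lit 0) (nat_lit 1289889207914) (nat_lit 76) (nat_lit 231265457344) (nat_lit 76) (nat_lit 43118634608) (nat_lit 3) (nat_lit 4) (nat_lit 4) (nat_lit 5) (nat_lit 4) (nat_lit 4) (nat_lit 250) (nat_lit 217) (nat_lit 133)) (XT.nd (nat_lit 78) (nat_lit 76) (nat_lit 0) (XT.lf (nat_lit 0) (nat_lit 28418389330) (nat_lit 152) (nat_lit 129036768485) (nat_lit 76) (nat_lit 1633210113108) (nat_lit 2) (nat_lit 5) (nat_lit 4) (nat_lit 5) (nat_lit 3) (nat_lit 4) (nat_lit 251) (nat_lit 217) (nat_lit 132)) (XT.lf (nat_lit 0) (nat_lit 38863867975) (nat_lit 76) (nat_lit 70276062947) (nat_lit 152) (nat_lit 1941705944494) (nat_lit 1) (nat_lit 5) (nat_lit 2) (nat_lit 5) (nat_lit 3) (nat_lit 4) (nat_lit 252) (nat_lit 217) (nat_lit 131))))))) (XT.nd (nat_lit 28860) (nat_lit 0) (nat_lit 988) (XT.nd (nat_lit 312) (nat_lit 0) (nat_lit 0) (XT.nd (nat_lit 156) (nat_lit 0) (nat_lit 0) (XT.nd (nat_lit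 78) (nat_lit 0) (nat_lit 0) (XT.lf (nat_lit 0) (nat_lit 206544881646) (nat_lit 152) (nat_lit 2110808289910) (nat_lit 0) (nat_lit 32334385152) (nat_lit 1) (nat_lit 5) (nat_lit 3) (nat_lit 4) (nat_lit 1) (nat_lit 4) (nat_lit 253) (nat_lit 217) (nat_lit 130)) (XT.lf (nat_lit 0) (nat_lit 320504076817) (nat_lit 152) (nat_lit 2226402472276) (nat_lit 0) (nat_lit 146293461265) (nat_lit 1) (nat_lit 5) (nat_lit 3) (nat_lit 4) (nat_lit 1) (nat_lit 4) (nat_lit 254) (nat_lit 217) (nat_lit 129))) (XT.nd (nat_lit 78) (nat_lit 0) (nat_lit 0) (XT.lf (nat_lit 0) (nat_lit 451557011859) (nat_lit 152) (nat_lit 2359336038843) (nat_lit 0) (nat_lit 277346292778) (nat_lit 1) (nat_lit 5) (nat_lit 3) (nat_lit 4) (nat_lit 1) (nat_lit 4) (nat_lit 255) (nat_lit 217) (nat_lit 128)) (XT.lf (nat_lit 0) (nat_lit 602267765935) (nat_lit 152) (nat_lit 2512209863740) (nat_lit 0) (nat_lit 428056956830) (nat_lit 1) (nat_lit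 5) (nat_lit 3) (nat_lit 4) (nat_lit 1) (nat_lit 4) (nat_lit 256) (nat_lit 217) (nat_lit 127)))) (XT.nd (nat_lit 28314) (nat_lit 0) (nat_lit 2432) (XT.nd (nat_lit 28236) (nat_lit 0) (nat_lit 2356) (XT.lf (nat_lit 0) (nat_lit 775585027712) (nat_lit 152) (nat_lit 2688014956582) (nat_lit 0) (nat_lit 601374140324) (nat_lit 1) (nat_lit 5) (nat_lit 3) (nat_lit 4) (nat_lit 1) (nat_lit 4) (nat_lit 257) (nat_lit 217) (nat_lit 126)) (XT.lf (nat_lit 0) (nat_lit 6080608061) (nat_lit 532) (nat_lit 9685335057) (nat_lit 532) (nat_lit 9685335057) (nat_lit 32) (nat_lit 3) (nat_lit 39) (nat_lit 3) (nat_lit 39) (nat_lit 5) (nat_lit 218) (nat_lit 218) (nat_lit 164))) (XT.nd (nat_lit 78) (nat_lit 0) (nat_lit 0) (XT.lf (nat_lit 0) (nat_lit 13801597019) (nat_lit 456) (nat_lit 33737382022) (nat_lit 532) (nat_lit 7122747078) (nat_lit 33) (nat_lit 5) (nat_lit 39) (nat_lit 5) (nat_lit 40) (nat_lit 5) (nat_lit 219)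 (nat_lit 218) (nat_lit 163)) (XT.nd (nat_lit 78) (nat_lit 0) (nat_lit 76) (XT.lf (nat_lit 76) (nat_lit 9058612515) (nat_lit 0) (nat_lit 8290827085) (nat_lit 532) (nat_lit 41502465465) (nat_lit 34) (nat_lit 5) (nat_lit 33) (nat_lit 5) (nat_lit 40) (nat_lit 5) (nat_lit 220) (nat_lit 218) (nat_lit 162)) (XT.lf (nat_lit 0) (nat_lit 23317031916) (nat_lit 456) (nat_lit 4191584603) (nat_lit 532) (nat_lit 36011028533) (nat_lit 34) (nat_lit 5) (nat_lit 40) (nat_lit 5) (nat_lit 41) (nat_lit 5) (nat_lit 221) (nat_lit 218) (nat_lit 161)))))) (XT.nd (nat_lit 390) (nat_lit 684) (nat_lit 0) (XT.nd (nat_lit 156) (nat_lit 456) (nat_lit 0) (XT.nd (nat_lit 78) (nat_lit 456) (nat_lit 0) (XT.lf (nat_lit 0) (nat_lit 32074392114) (nat_lit 456) (nat_lit 18682361272) (nat_lit 76) (nat_lit 17979257172) (nat_lit 35) (nat_lit 5) (nat_lit 41) (nat_lit 5) (nat_lit 36) (nat_lit 5) (nat_lit 222) (nat_lit 218) (nat_lit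 160)) (XT.lf (nat_lit 0) (nat_lit 39154725018) (nat_lit 456) (nat_lit 4813505463) (nat_lit 532) (nat_lit 30620800772) (nat_lit 29) (nat_lit 5) (nat_lit 35) (nat_lit 5) (nat_lit 36) (nat_lit 5) (nat_lit 223) (nat_lit 218) (nat_lit 159))) (XT.nd (nat_lit 78) (nat_lit 228) (nat_lit 0) (XT.lf (nat_lit 0) (nat_lit 25630957769) (nat_lit 228) (nat_lit 34340285477) (nat_lit 304) (nat_lit 21162780261) (nat_lit 26) (nat_lit 5) (nat_lit 29) (nat_lit 5) (nat_lit 30) (nat_lit 5) (nat_lit 224) (nat_lit 218) (nat_lit 158)) (XT.nd (nat_lit 78) (nat_lit 76) (nat_lit 0) (XT.lf (nat_lit 0) (nat_lit 9314692042) (nat_lit 152) (nat_lit 70882329897) (nat_lit 228) (nat_lit 8317980447) (nat_lit 24) (nat_lit 5) (nat_lit 26) (nat_lit 5) (nat_lit 27) (nat_lit 5) (nat_lit 225) (nat_lit 218) (nat_lit 157)) (XT.lf (nat_lit 0) (nat_lit 8734827964) (nat_lit 228) (nat_lit 10808776031) (nat_lit 76) (nat_lit 77238796260)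 (nat_lit 23) (nat_lit 5) (nat_lit 26) (nat_lit 5) (nat_lit 24) (nat_lit 5) (nat_lit 226) (nat_lit 218) (nat_lit 156))))) (XT.nd (nat_lit 156) (nat_lit 304) (nat_lit 0) (XT.nd (nat_lit 78) (nat_lit 152) (nat_lit 0) (XT.lf (nat_lit 0) (nat_lit 30575860292) (nat_lit 304) (nat_lit 35967232992) (nat_lit 76) (nat_lit 39511720852) (nat_lit 20) (nat_lit 5) (nat_lit 24) (nat_lit 5) (nat_lit 21) (nat_lit 5) (nat_lit 227) (nat_lit 218) (nat_lit 155)) (XT.lf (nat_lit 0) (nat_lit 48977841210) (nat_lit 152) (nat_lit 8753748278) (nat_lit 228) (nat_lit 58823431196) (nat_lit 18) (nat_lit 5) (nat_lit 20) (nat_lit 5) (nat_lit 21) (nat_lit 5) (nat_lit 228) (nat_lit 218) (nat_lit 154))) (XT.nd (nat_lit 78) (nat_lit 152) (nat_lit 0) (XT.lf (nat_lit 0) (nat_lit 19871906282) (nat_lit 152) (nat_lit 72026320332) (nat_lit 228) (nat_lit 36497039843) (nat_lit 16) (nat_lit 5) (nat_lit 18) (nat_lit 5) (nat_lit 19)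 (nat_lit 5) (nat_lit 229) (nat_lit 218) (nat_lit 153)) (XT.nd (nat_lit 78) (nat_lit 152) (nat_lit 0) (XT.lf (nat_lit 0) (nat_lit 124272616759) (nat_lit 152) (nat_lit 9118407696) (nat_lit 228) (nat_lit 8444441977) (nat_lit 16) (nat_lit 5) (nat_lit 18) (nat_lit 5) (nat_lit 19) (nat_lit 5) (nat_lit 230) (nat_lit 218) (nat_lit 152)) (XT.lf (nat_lit 0) (nat_lit 26403964372) (nat_lit 152) (nat_lit 67643958530) (nat_lit 76) (nat_lit 62895616365) (nat_lit 14) (nat_lit 5) (nat_lit 16) (nat_lit 5) (nat_lit 15) (nat_lit 5) (nat_lit 231) (nat_lit 218) (nat_lit 151))))))))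
noncomputable def xc48 : XT := (XT.nd (nat_lit 1404) (nat_lit 152) (nat_lit 0) (XT.nd (nat_lit 702) (nat_lit 228) (nat_lit 0) (XT.nd (nat_lit 312) (nat_lit 152) (nat_lit 0) (XT.nd (nat_lit 156) (nat_lit 304) (nat_lit 0) (XT.nd (nat_lit 78) (nat_lit 0) (nat_lit 0) (XT.lf (nat_lit 0) (nat_lit 40502329461) (nat_lit 152) (nat_lit 27240557765) (nat_lit 228) (nat_lit 106416335434) (nat_lit 12) (nat_lit 5) (nat_lit 14) (nat_lit 5) (nat_lit 15) (nat_lit 5) (nat_lit 232) (nat_lit 218) (nat_lit 150)) (XT.lf (nat_lit 0) (nat_lit 118494096333) (nat_lit 228) (nat_lit 26079210164) (nat_lit 76) (nat_lit 49127042658) (nat_lit 12) (nat_lit 5) (nat_lit 15) (nat_lit 5) (nat_lit 13) (nat_lit 4) (nat_lit 233) (nat_lit 218) (nat_lit 149))) (XT.nd (nat_lit 78) (nat_lit 228) (nat_lit 0) (XT.lf (nat_lit 0) (nat_lit 101980929137) (nat_lit 76) (nat_lit 78081650138) (nat_lit 152) (nat_lit 35853703536) (nat_lit 11)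 (nat_lit 5) (nat_lit 12) (nat_lit 5) (nat_lit 13) (nat_lit 4) (nat_lit 234) (nat_lit 218) (nat_lit 148)) (XT.lf (nat_lit 0) (nat_lit 9660768727) (nat_lit 152) (nat_lit 280621117) (nat_lit 228) (nat_lit 231424334284) (nat_lit 8) (nat_lit 5) (nat_lit 10) (nat_lit 5) (nat_lit 11) (nat_lit 5) (nat_lit 235) (nat_lit 218) (nat_lit 147)))) (XT.nd (nat_lit 156) (nat_lit 76) (nat_lit 0) (XT.nd (nat_lit 78) (nat_lit 76) (nat_lit 0) (XT.lf (nat_lit 0) (nat_lit 66090220664) (nat_lit 228) (nat_lit 114896214506) (nat_lit 76) (nat_lit 89123056158) (nat_lit 8) (nat_lit 5) (nat_lit 11) (nat_lit 5) (nat_lit 9) (nat_lit 4) (nat_lit 236) (nat_lit 218) (nat_lit 146)) (XT.lf (nat_lit 0) (nat_lit 20447123182) (nat_lit 76) (nat_lit 110712684564) (nat_lit 152) (nat_lit 171965144730) (nat_lit 7) (nat_lit 5) (nat_lit 8) (nat_lit 5) (nat_lit 9) (nat_lit 4) (nat_lit 237) (nat_lit 218) (nat_lit 145))) (XT.nd (nat_lit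 78) (nat_lit 76) (nat_lit 0) (XT.lf (nat_lit 0) (nat_lit 183048078698) (nat_lit 76) (nat_lit 26285852077) (nat_lit 152) (nat_lit 131491277145) (nat_lit 7) (nat_lit 5) (nat_lit 8) (nat_lit 5) (nat_lit 9) (nat_lit 4) (nat_lit 238) (nat_lit 218) (nat_lit 144)) (XT.nd (nat_lit 78) (nat_lit 76) (nat_lit 0) (XT.lf (nat_lit 0) (nat_lit 300936166675) (nat_lit 152) (nat_lit 15845676645) (nat_lit 0) (nat_lit 67262501379) (nat_lit 7) (nat_lit 5) (nat_lit 9) (nat_lit 4) (nat_lit 7) (nat_lit 4) (nat_lit 239) (nat_lit 218) (nat_lit 143)) (XT.lf (nat_lit 0) (nat_lit 154369377583) (nat_lit 76) (nat_lit 256348194810) (nat_lit 76) (nat_lit 22673675082) (nat_lit 6) (nat_lit 4) (nat_lit 7) (nat_lit 5) (nat_lit 7) (nat_lit 4) (nat_lit 240) (nat_lit 218) (nat_lit 142)))))) (XT.nd (nat_lit 312) (nat_lit 76) (nat_lit 0) (XT.nd (nat_lit 156) (nat_lit 0) (nat_lit 0) (XT.nd (nat_lit 78) (nat_lit 76) (nat_lit 0)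 (XT.lf (nat_lit 0) (nat_lit 44956185151) (nat_lit 152) (nat_lit 140166397596) (nat_lit 76) (nat_lit 304889702744) (nat_lit 5) (nat_lit 5) (nat_lit 7) (nat_lit 5) (nat_lit 6) (nat_lit 4) (nat_lit 241) (nat_lit 218) (nat_lit 141)) (XT.lf (nat_lit 0) (nat_lit 19883905856) (nat_lit 76) (nat_lit 102019851183) (nat_lit 152) (nat_lit 433134348230) (nat_lit 4) (nat_lit 5) (nat_lit 5) (nat_lit 5) (nat_lit 6) (nat_lit 4) (nat_lit 242) (nat_lit 218) (nat_lit 140))) (XT.nd (nat_lit 78) (nat_lit 0) (nat_lit 0) (XT.lf (nat_lit 0) (nat_lit 212428830829) (nat_lit 76) (nat_lit 2044871775) (nat_lit 152) (nat_lit 415017677737) (nat_lit 4) (nat_lit 5) (nat_lit 5) (nat_lit 5) (nat_lit 6) (nat_lit 4) (nat_lit 243) (nat_lit 218) (nat_lit 139)) (XT.lf (nat_lit 0) (nat_lit 323644529337) (nat_lit 152) (nat_lit 283973912772) (nat_lit 0) (nat_lit 107276974603) (nat_lit 4) (nat_lit 5) (nat_lit 6) (nat_lit 4) (nat_lit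 4) (nat_lit 4) (nat_lit 244) (nat_lit 218) (nat_lit 138)))) (XT.nd (nat_lit 156) (nat_lit 0) (nat_lit 0) (XT.nd (nat_lit 78) (nat_lit 76) (nat_lit 0) (XT.lf (nat_lit 0) (nat_lit 449247108167) (nat_lit 152) (nat_lit 130979301054) (nat_lit 0) (nat_lit 232879160097) (nat_lit 4) (nat_lit 5) (nat_lit 6) (nat_lit 4) (nat_lit 4) (nat_lit 4) (nat_lit 245) (nat_lit 218) (nat_lit 137)) (XT.lf (nat_lit 0) (nat_lit 47331553703) (nat_lit 76) (nat_lit 547496472943) (nat_lit 76) (nat_lit 331128182841) (nat_lit 3) (nat_lit 4) (nat_lit 4) (nat_lit 5) (nat_lit 4) (nat_lit 4) (nat_lit 246) (nat_lit 218) (nat_lit 136))) (XT.nd (nat_lit 78) (nat_lit 0) (nat_lit 0) (XT.lf (nat_lit 0) (nat_lit 260320136773) (nat_lit 76) (nat_lit 505738929276) (nat_lit 76) (nat_lit 289370341755) (nat_lit 3) (nat_lit 4) (nat_lit 4) (nat_lit 5) (nat_lit 4) (nat_lit 4) (nat_lit 247) (nat_lit 218) (nat_lit 135)) (XT.nd (nat_lit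 78) (nat_lit 0) (nat_lit 0) (XT.lf (nat_lit 0) (nat_lit 505256478206) (nat_lit 76) (nat_lit 457717989010) (nat_lit 76) (nat_lit 241349142863) (nat_lit 3) (nat_lit 4) (nat_lit 4) (nat_lit 5) (nat_lit 4) (nat_lit 4) (nat_lit 248) (nat_lit 218) (nat_lit 134)) (XT.lf (nat_lit 0) (nat_lit 786932810770) (nat_lit 76) (nat_lit 402494112006) (nat_lit 76) (nat_lit 186125040969) (nat_lit 3) (nat_lit 4) (nat_lit 4) (nat_lit 5) (nat_lit 4) (nat_lit 4) (nat_lit 249) (nat_lit 218) (nat_lit 133))))))) (XT.nd (nat_lit 29016) (nat_lit 0) (nat_lit 1140) (XT.nd (nat_lit 312) (nat_lit 0) (nat_lit 0) (XT.nd (nat_lit 156) (nat_lit 152) (nat_lit 0) (XT.nd (nat_lit 78) (nat_lit 0) (nat_lit 0) (XT.lf (nat_lit 0) (nat_lit 1110860193145) (nat_lit 76) (nat_lit 338986831108) (nat_lit 76) (nat_lit 122617564513) (nat_lit 3) (nat_lit 4) (nat_lit 4) (nat_lit 5) (nat_lit 4) (nat_lit 4) (nat_lit 250) (nat_lit 218) (nat_lit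 132)) (XT.lf (nat_lit 0) (nat_lit 1483376334986) (nat_lit 76) (nat_lit 265953612559) (nat_lit 76) (nat_lit 49584175913) (nat_lit 3) (nat_lit 4) (nat_lit 4) (nat_lit 5) (nat_lit 4) (nat_lit 4) (nat_lit 251) (nat_lit 218) (nat_lit 131))) (XT.nd (nat_lit 78) (nat_lit 76) (nat_lit 0) (XT.lf (nat_lit 0) (nat_lit 32683009589) (nat_lit 152) (nat_lit 148388924569) (nat_lit 76) (nat_lit 1878192974600) (nat_lit 2) (nat_lit 5) (nat_lit 4) (nat_lit 5) (nat_lit 3) (nat_lit 4) (nat_lit 252) (nat_lit 218) (nat_lit 130)) (XT.lf (nat_lit 0) (nat_lit 44696523022) (nat_lit 76) (nat_lit 80816090496) (nat_lit 152) (nat_lit 2232960004420) (nat_lit 1) (nat_lit 5) (nat_lit 2) (nat_lit 5) (nat_lit 3) (nat_lit 4) (nat_lit 253) (nat_lit 218) (nat_lit 129)))) (XT.nd (nat_lit 156) (nat_lit 0) (nat_lit 0) (XT.nd (nat_lit 78) (nat_lit 0) (nat_lit 0) (XT.lf (nat_lit 0) (nat_lit 237528114931) (nat_lit 152) (nat_lit 2427426767826)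 (nat_lit 0) (nat_lit 37185684459) (nat_lit 1) (nat_lit 5) (nat_lit 3) (nat_lit 4) (nat_lit 1) (nat_lit 4) (nat_lit 254) (nat_lit 218) (nat_lit 128)) (XT.lf (nat_lit 0) (nat_lit 368580993590) (nat_lit 152) (nat_lit 2560360438274) (nat_lit 0) (nat_lit 168238473094) (nat_lit 1) (nat_lit 5) (nat_lit 3) (nat_lit 4) (nat_lit 1) (nat_lit 4) (nat_lit 255) (nat_lit 218) (nat_lit 127))) (XT.nd (nat_lit 28392) (nat_lit 0) (nat_lit 2356) (XT.lf (nat_lit 0) (nat_lit 519291698638) (nat_lit 152) (nat_lit 2713234353501) (nat_lit 0) (nat_lit 318949099859) (nat_lit 1) (nat_lit 5) (nat_lit 3) (nat_lit 4) (nat_lit 1) (nat_lit 4) (nat_lit 256) (nat_lit 218) (nat_lit 126)) (XT.nd (nat_lit 78) (nat_lit 0) (nat_lit 76) (XT.lf (nat_lit 0) (nat_lit 7031093081) (nat_lit 532) (nat_lit 11117278623) (nat_lit 532) (nat_lit 11117278623) (nat_lit 32) (nat_lit 3) (nat_lit 39) (nat_lit 3) (nat_lit 39) (nat_lit 5) (nat_lit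 219) (nat_lit 219) (nat_lit 162)) (XT.lf (nat_lit 0) (nat_lit 15938817052) (nat_lit 456) (nat_lit 38753250479) (nat_lit 532) (nat_lit 8163127645) (nat_lit 33) (nat_lit 5) (nat_lit 39) (nat_lit 5) (nat_lit 40) (nat_lit 5) (nat_lit 220) (nat_lit 219) (nat_lit 161)))))) (XT.nd (nat_lit 390) (nat_lit 760) (nat_lit 0) (XT.nd (nat_lit 156) (nat_lit 532) (nat_lit 0) (XT.nd (nat_lit 78) (nat_lit 0) (nat_lit 76) (XT.lf (nat_lit 76) (nat_lit 10458356317) (nat_lit 0) (nat_lit 9552728013) (nat_lit 532) (nat_lit 47663493042) (nat_lit 34) (nat_lit 5) (nat_lit 33) (nat_lit 5) (nat_lit 40) (nat_lit 5) (nat_lit 221) (nat_lit 219) (nat_lit 160)) (XT.lf (nat_lit 0) (nat_lit 26865707774) (nat_lit 456) (nat_lit 4779883218) (nat_lit 532) (nat_lit 41397584916) (nat_lit 34) (nat_lit 5) (nat_lit 40) (nat_lit 5) (nat_lit 41) (nat_lit 5) (nat_lit 222) (nat_lit 219) (nat_lit 159))) (XT.nd (nat_lit 78) (nat_lit 684)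 (nat_lit 0) (XT.lf (nat_lit 0) (nat_lit 36930694004) (nat_lit 456) (nat_lit 21443587948) (nat_lit 76) (nat_lit 20668235076) (nat_lit 35) (nat_lit 5) (nat_lit 41) (nat_lit 5) (nat_lit 36) (nat_lit 5) (nat_lit 223) (nat_lit 219) (nat_lit 158)) (XT.nd (nat_lit 78) (nat_lit 228) (nat_lit 0) (XT.lf (nat_lit 0) (nat_lit 45065580046) (nat_lit 456) (nat_lit 5538045247) (nat_lit 532) (nat_lit 35170301161) (nat_lit 29) (nat_lit 5) (nat_lit 35) (nat_lit 5) (nat_lit 36) (nat_lit 5) (nat_lit 224) (nat_lit 219) (nat_lit 157)) (XT.lf (nat_lit 0) (nat_lit 29513283141) (nat_lit 228) (nat_lit 39489422211) (nat_lit 304) (nat_lit 24298345138) (nat_lit 26) (nat_lit 5) (nat_lit 29) (nat_lit 5) (nat_lit 30) (nat_lit 5) (nat_lit 225) (nat_lit 219) (nat_lit 156))))) (XT.nd (nat_lit 156) (nat_lit 532) (nat_lit 0) (XT.nd (nat_lit 78) (nat_lit 76) (nat_lit 0) (XT.lf (nat_lit 0) (nat_lit 10749162154) (nat_lit 152)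 (nat_lit 81509458427) (nat_lit 228) (nat_lit 9530882019) (nat_lit 24) (nat_lit 5) (nat_lit 26) (nat_lit 5) (nat_lit 27) (nat_lit 5) (nat_lit 226) (nat_lit 219) (nat_lit 155)) (XT.lf (nat_lit 0) (nat_lit 10073795536) (nat_lit 228) (nat_lit 12396023203) (nat_lit 76) (nat_lit 88827491910) (nat_lit 23) (nat_lit 5) (nat_lit 26) (nat_lit 5) (nat_lit 24) (nat_lit 5) (nat_lit 227) (nat_lit 219) (nat_lit 154))) (XT.nd (nat_lit 78) (nat_lit 304) (nat_lit 0) (XT.lf (nat_lit 0) (nat_lit 35188114448) (nat_lit 304) (nat_lit 41329073234) (nat_lit 76) (nat_lit 45443647979) (nat_lit 20) (nat_lit 5) (nat_lit 24) (nat_lit 5) (nat_lit 21) (nat_lit 5) (nat_lit 228) (nat_lit 219) (nat_lit 153)) (XT.nd (nat_lit 78) (nat_lit 152) (nat_lit 0) (XT.lf (nat_lit 0) (nat_lit 56354948099) (nat_lit 152) (nat_lit 10059611769) (nat_lit 228) (nat_lit 67621741809) (nat_lit 18) (nat_lit 5) (nat_lit 20) (nat_lit 5) (nat_lit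 21) (nat_lit 5) (nat_lit 229) (nat_lit 219) (nat_lit 152)) (XT.lf (nat_lit 0) (nat_lit 22882193829) (nat_lit 152) (nat_lit 82821828541) (nat_lit 228) (nat_lit 41948750373) (nat_lit 16) (nat_lit 5) (nat_lit 18) (nat_lit 5) (nat_lit 19) (nat_lit 5) (nat_lit 230) (nat_lit 219) (nat_lit 151))))))))
noncomputable def xc49 : XT := (XT.nd (nat_lit 1482) (nat_lit 152) (nat_lit 0) (XT.nd (nat_lit 702) (nat_lit 304) (nat_lit 0) (XT.nd (nat_lit 312) (nat_lit 380) (nat_lit 0) (XT.nd (nat_lit 156) (nat_lit 152) (nat_lit 0) (XT.nd (nat_lit 78) (nat_lit 152) (nat_lit 0) (XT.lf (nat_lit 0) (nat_lit 142939162842) (nat_lit 152) (nat_lit 10478829859) (nat_lit 228) (nat_lit 9691242668) (nat_lit 16) (nat_lit 5) (nat_lit 18) (nat_lit 5) (nat_lit 19) (nat_lit 5) (nat_lit 231) (nat_lit 219) (nat_lit 150)) (XT.lf (nat_lit 0) (nat_lit 30381737258) (nat_lit 152) (nat_lit 77764838301) (nat_lit 76) (nat_lit 72337051208)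 (nat_lit 14) (nat_lit 5) (nat_lit 16) (nat_lit 5) (nat_lit 15) (nat_lit 5) (nat_lit 232) (nat_lit 219) (nat_lit 149))) (XT.nd (nat_lit 78) (nat_lit 0) (nat_lit 0) (XT.lf (nat_lit 0) (nat_lit 46601216326) (nat_lit 152) (nat_lit 31318607651) (nat_lit 228) (nat_lit 122361981674) (nat_lit 12) (nat_lit 5) (nat_lit 14) (nat_lit 5) (nat_lit 15) (nat_lit 5) (nat_lit 233) (nat_lit 219) (nat_lit 148)) (XT.lf (nat_lit 0) (nat_lit 136281860244) (nat_lit 228) (nat_lit 29969661565) (nat_lit 76) (nat_lit 56502735489) (nat_lit 12) (nat_lit 5) (nat_lit 15) (nat_lit 5) (nat_lit 13) (nat_lit 4) (nat_lit 234) (nat_lit 219) (nat_lit 147)))) (XT.nd (nat_lit 156) (nat_lit 76) (nat_lit 0) (XT.nd (nat_lit 78) (nat_lit 228) (nat_lit 0) (XT.lf (nat_lit 0) (nat_lit 117297684677) (nat_lit 76) (nat_lit 89786622354) (nat_lit 152) (nat_lit 41218385476) (nat_lit 11) (nat_lit 5) (nat_lit 12) (nat_lit 5) (nat_lit 13) (nat_lit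 4) (nat_lit 235) (nat_lit 219) (nat_lit 146)) (XT.lf (nat_lit 0) (nat_lit 11128490694) (nat_lit 152) (nat_lit 315602585) (nat_lit 228) (nat_lit 266125533272) (nat_lit 8) (nat_lit 5) (nat_lit 10) (nat_lit 5) (nat_lit 11) (nat_lit 5) (nat_lit 236) (nat_lit 219) (nat_lit 145))) (XT.nd (nat_lit 78) (nat_lit 76) (nat_lit 0) (XT.lf (nat_lit 0) (nat_lit 76013898108) (nat_lit 228) (nat_lit 132113784232) (nat_lit 76) (nat_lit 102497389315) (nat_lit 8) (nat_lit 5) (nat_lit 11) (nat_lit 5) (nat_lit 9) (nat_lit 4) (nat_lit 237) (nat_lit 219) (nat_lit 144)) (XT.nd (nat_lit 78) (nat_lit 0) (nat_lit 0) (XT.lf (nat_lit 0) (nat_lit 23529626787) (nat_lit 76) (nat_lit 127313344505) (nat_lit 152) (nat_lit 197749960991) (nat_lit 7) (nat_lit 5) (nat_lit 8) (nat_lit 5) (nat_lit 9) (nat_lit 4) (nat_lit 238) (nat_lit 219) (nat_lit 143)) (XT.lf (nat_lit 0) (nat_lit 210518712353) (nat_lit 76) (nat_lit 30223301416)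 (nat_lit 152) (nat_lit 151206311805) (nat_lit 7) (nat_lit 5) (nat_lit 8) (nat_lit 5) (nat_lit 9) (nat_lit 4) (nat_lit 239) (nat_lit 219) (nat_lit 142)))))) (XT.nd (nat_lit 390) (nat_lit 76) (nat_lit 0) (XT.nd (nat_lit 156) (nat_lit 152) (nat_lit 0) (XT.nd (nat_lit 78) (nat_lit 76) (nat_lit 0) (XT.lf (nat_lit 0) (nat_lit 346083655966) (nat_lit 152) (nat_lit 18210393507) (nat_lit 0) (nat_lit 77356360863) (nat_lit 7) (nat_lit 5) (nat_lit 9) (nat_lit 4) (nat_lit 7) (nat_lit 4) (nat_lit 240) (nat_lit 219) (nat_lit 141)) (XT.lf (nat_lit 0) (nat_lit 177535891719) (nat_lit 76) (nat_lit 294795726529) (nat_lit 76) (nat_lit 26067785353) (nat_lit 6) (nat_lit 4) (nat_lit 7) (nat_lit 5) (nat_lit 7) (nat_lit 4) (nat_lit 241) (nat_lit 219) (nat_lit 140))) (XT.nd (nat_lit 78) (nat_lit 76) (nat_lit 0) (XT.lf (nat_lit 0) (nat_lit 51705346641) (nat_lit 152) (nat_lit 161181381963) (nat_lit 76) (nat_lit 350626926362)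 (nat_lit 5) (nat_lit 5) (nat_lit 7) (nat_lit 5) (nat_lit 6) (nat_lit 4) (nat_lit 242) (nat_lit 219) (nat_lit 139)) (XT.nd (nat_lit 78) (nat_lit 0) (nat_lit 0) (XT.lf (nat_lit 0) (nat_lit 22875622649) (nat_lit 76) (nat_lit 117318903385) (nat_lit 152) (nat_lit 498098865850) (nat_lit 4) (nat_lit 5) (nat_lit 5) (nat_lit 5) (nat_lit 6) (nat_lit 4) (nat_lit 243) (nat_lit 219) (nat_lit 138)) (XT.lf (nat_lit 0) (nat_lit 244301095379) (nat_lit 76) (nat_lit 2348189084) (nat_lit 152) (nat_lit 477265429733) (nat_lit 4) (nat_lit 5) (nat_lit 5) (nat_lit 5) (nat_lit 6) (nat_lit 4) (nat_lit 244) (nat_lit 219) (nat_lit 137))))) (XT.nd (nat_lit 156) (nat_lit 76) (nat_lit 0) (XT.nd (nat_lit 78) (nat_lit 0) (nat_lit 0) (XT.lf (nat_lit 0) (nat_lit 372195216183) (nat_lit 152) (nat_lit 326562842272) (nat_lit 0) (nat_lit 123371340534) (nat_lit 4) (nat_lit 5) (nat_lit 6) (nat_lit 4) (nat_lit 4) (nat_lit 4) (nat_lit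 245) (nat_lit 219) (nat_lit 136)) (XT.lf (nat_lit 0) (nat_lit 516637659128) (nat_lit 152) (nat_lit 150619972373) (nat_lit 0) (nat_lit 267813486060) (nat_lit 4) (nat_lit 5) (nat_lit 6) (nat_lit 4) (nat_lit 4) (nat_lit 4) (nat_lit 246) (nat_lit 219) (nat_lit 135))) (XT.nd (nat_lit 78) (nat_lit 0) (nat_lit 0) (XT.lf (nat_lit 0) (nat_lit 54436983781) (nat_lit 76) (nat_lit 629618414080) (nat_lit 76) (nat_lit 380793982387) (nat_lit 3) (nat_lit 4) (nat_lit 4) (nat_lit 5) (nat_lit 4) (nat_lit 4) (nat_lit 247) (nat_lit 219) (nat_lit 134)) (XT.nd (nat_lit 78) (nat_lit 0) (nat_lit 0) (XT.lf (nat_lit 0) (nat_lit 299373111221) (nat_lit 76) (nat_lit 581597568838) (nat_lit 76) (nat_lit 332772912254) (nat_lit 3) (nat_lit 4) (nat_lit 4) (nat_lit 5) (nat_lit 4) (nat_lit 4) (nat_lit 248) (nat_lit 219) (nat_lit 133)) (XT.lf (nat_lit 0) (nat_lit 581049257705) (nat_lit 76) (nat_lit 526373774466) (nat_lit 76)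 (nat_lit 277548922323) (nat_lit 3) (nat_lit 4) (nat_lit 4) (nat_lit 5) (nat_lit 4) (nat_lit 4) (nat_lit 249) (nat_lit 219) (nat_lit 132))))))) (XT.nd (nat_lit 29094) (nat_lit 0) (nat_lit 1140) (XT.nd (nat_lit 312) (nat_lit 76) (nat_lit 0) (XT.nd (nat_lit 156) (nat_lit 76) (nat_lit 0) (XT.nd (nat_lit 78) (nat_lit 0) (nat_lit 0) (XT.lf (nat_lit 0) (nat_lit 904976478270) (nat_lit 76) (nat_lit 462866565420) (nat_lit 76) (nat_lit 214041543228) (nat_lit 3) (nat_lit 4) (nat_lit 4) (nat_lit 5) (nat_lit 4) (nat_lit 4) (nat_lit 250) (nat_lit 219) (nat_lit 131)) (XT.lf (nat_lit 0) (nat_lit 1277492479408) (nat_lit 76) (nat_lit 389833409351) (nat_lit 76) (nat_lit 141008239289) (nat_lit 3) (nat_lit 4) (nat_lit 4) (nat_lit 5) (nat_lit 4) (nat_lit 4) (nat_lit 251) (nat_lit 219) (nat_lit 130))) (XT.nd (nat_lit 78) (nat_lit 76) (nat_lit 0) (XT.lf (nat_lit 0) (nat_lit 1705885617661) (nat_lit 76) (nat_lit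 305845396683) (nat_lit 76) (nat_lit 57020098038) (nat_lit 3) (nat_lit 4) (nat_lit 4) (nat_lit 5) (nat_lit 4) (nat_lit 4) (nat_lit 252) (nat_lit 219) (nat_lit 129)) (XT.lf (nat_lit 0) (nat_lit 37586868861) (nat_lit 152) (nat_lit 170644723224) (nat_lit 76) (nat_lit 2159922937444) (nat_lit 2) (nat_lit 5) (nat_lit 4) (nat_lit 5) (nat_lit 3) (nat_lit 4) (nat_lit 253) (nat_lit 219) (nat_lit 128)))) (XT.nd (nat_lit 156) (nat_lit 0) (nat_lit 0) (XT.nd (nat_lit 78) (nat_lit 0) (nat_lit 0) (XT.lf (nat_lit 0) (nat_lit 51403326505) (nat_lit 76) (nat_lit 92937459161) (nat_lit 152) (nat_lit 2567902620018) (nat_lit 1) (nat_lit 5) (nat_lit 2) (nat_lit 5) (nat_lit 3) (nat_lit 4) (nat_lit 254) (nat_lit 219) (nat_lit 127)) (XT.lf (nat_lit 0) (nat_lit 273158467170) (nat_lit 152) (nat_lit 2791538691831) (nat_lit 0) (nat_lit 42764400293) (nat_lit 1) (nat_lit 5) (nat_lit 3) (nat_lit 4) (nat_lit 1) (nat_lit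 4) (nat_lit 255) (nat_lit 219) (nat_lit 126))) (XT.nd (nat_lit 28470) (nat_lit 0) (nat_lit 2356) (XT.lf (nat_lit 0) (nat_lit 423869129585) (nat_lit 152) (nat_lit 2944412685608) (nat_lit 0) (nat_lit 193474994636) (nat_lit 1) (nat_lit 5) (nat_lit 3) (nat_lit 4) (nat_lit 1) (nat_lit 4) (nat_lit 256) (nat_lit 219) (nat_lit 125)) (XT.nd (nat_lit 78) (nat_lit 0) (nat_lit 76) (XT.lf (nat_lit 0) (nat_lit 8114788281) (nat_lit 532) (nat_lit 12769099761) (nat_lit 532) (nat_lit 12769099761) (nat_lit 32) (nat_lit 3) (nat_lit 39) (nat_lit 3) (nat_lit 39) (nat_lit 5) (nat_lit 220) (nat_lit 220) (nat_lit 160)) (XT.lf (nat_lit 0) (nat_lit 18380286475) (nat_lit 456) (nat_lit 44532409056) (nat_lit 532) (nat_lit 9366400955) (nat_lit 33) (nat_lit 5) (nat_lit 39) (nat_lit 5) (nat_lit 40) (nat_lit 5) (nat_lit 221) (nat_lit 220) (nat_lit 159)))))) (XT.nd (nat_lit 390) (nat_lit 760) (nat_lit 0) (XT.nd (nat_lit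 156) (nat_lit 532) (nat_lit 0) (XT.nd (nat_lit 78) (nat_lit 0) (nat_lit 76) (XT.lf (nat_lit 76) (nat_lit 12058075304) (nat_lit 0) (nat_lit 10999457151) (nat_lit 532) (nat_lit 54764365018) (nat_lit 34) (nat_lit 5) (nat_lit 33) (nat_lit 5) (nat_lit 40) (nat_lit 5) (nat_lit 222) (nat_lit 220) (nat_lit 158)) (XT.lf (nat_lit 0) (nat_lit 30934218814) (nat_lit 456) (nat_lit 5466287949) (nat_lit 532) (nat_lit 47595806474) (nat_lit 34) (nat_lit 5) (nat_lit 40) (nat_lit 5) (nat_lit 41) (nat_lit 5) (nat_lit 223) (nat_lit 220) (nat_lit 157))) (XT.nd (nat_lit 78) (nat_lit 684) (nat_lit 0) (XT.lf (nat_lit 0) (nat_lit 42504432753) (nat_lit 456) (nat_lit 24629027831) (nat_lit 76) (nat_lit 23762488734) (nat_lit 35) (nat_lit 5) (nat_lit 41) (nat_lit 5) (nat_lit 36) (nat_lit 5) (nat_lit 224) (nat_lit 220) (nat_lit 156)) (XT.nd (nat_lit 78) (nat_lit 228) (nat_lit 0) (XT.lf (nat_lit 0) (nat_lit 51853883046)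 (nat_lit 456) (nat_lit 6370652953) (nat_lit 532) (nat_lit 40412863556) (nat_lit 29) (nat_lit 5) (nat_lit 35) (nat_lit 5) (nat_lit 36) (nat_lit 5) (nat_lit 225) (nat_lit 220) (nat_lit 155)) (XT.lf (nat_lit 0) (nat_lit 33968768396) (nat_lit 228) (nat_lit 45411394266) (nat_lit 304) (nat_lit 27913719093) (nat_lit 26) (nat_lit 5) (nat_lit 29) (nat_lit 5) (nat_lit 30) (nat_lit 5) (nat_lit 226) (nat_lit 220) (nat_lit 154))))) (XT.nd (nat_lit 156) (nat_lit 532) (nat_lit 0) (XT.nd (nat_lit 78) (nat_lit 76) (nat_lit 0) (XT.lf (nat_lit 0) (nat_lit 12389715158) (nat_lit 152) (nat_lit 93731929400) (nat_lit 228) (nat_lit 10934203928) (nat_lit 24) (nat_lit 5) (nat_lit 26) (nat_lit 5) (nat_lit 27) (nat_lit 5) (nat_lit 227) (nat_lit 220) (nat_lit 153)) (XT.lf (nat_lit 0) (nat_lit 11606598990) (nat_lit 228) (nat_lit 14229665449) (nat_lit 76) (nat_lit 102153790526) (nat_lit 23) (nat_lit 5) (nat_lit 26)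 (nat_lit 5) (nat_lit 24) (nat_lit 5) (nat_lit 228) (nat_lit 220) (nat_lit 152))) (XT.nd (nat_lit 78) (nat_lit 304) (nat_lit 0) (XT.lf (nat_lit 0) (nat_lit 40485896918) (nat_lit 304) (nat_lit 47503296444) (nat_lit 76) (nat_lit 52264103683) (nat_lit 20) (nat_lit 5) (nat_lit 24) (nat_lit 5) (nat_lit 21) (nat_lit 5) (nat_lit 229) (nat_lit 220) (nat_lit 151)) (XT.nd (nat_lit 78) (nat_lit 152) (nat_lit 0) (XT.lf (nat_lit 0) (nat_lit 64831200301) (nat_lit 152) (nat_lit 11563110244) (nat_lit 228) (nat_lit 77745945185) (nat_lit 18) (nat_lit 5) (nat_lit 20) (nat_lit 5) (nat_lit 21) (nat_lit 5) (nat_lit 230) (nat_lit 220) (nat_lit 150)) (XT.lf (nat_lit 0) (nat_lit 26336830355) (nat_lit 152) (nat_lit 95238721091) (nat_lit 228) (nat_lit 48223788489) (nat_lit 16) (nat_lit 5) (nat_lit 18) (nat_lit 5) (nat_lit 19) (nat_lit 5) (nat_lit 231) (nat_lit 220) (nat_lit 149))))))))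
noncomputable def xc50 : XT := (XT.nd (nat_lit 1482) (nat_lit 152) (nat_lit 0) (XT.nd (nat_lit 702) (nat_lit 304) (nat_lit 0) (XT.nd (nat_lit 312) (nat_lit 380) (nat_lit 0) (XT.nd (nat_lit 156) (nat_lit 152) (nat_lit 0) (XT.nd (nat_lit 78) (nat_lit 152) (nat_lit 0) (XT.lf (nat_lit 0) (nat_lit 164399435053) (nat_lit 152) (nat_lit 12045105005) (nat_lit 228) (nat_lit 11129907816) (nat_lit 16) (nat_lit 5) (nat_lit 18) (nat_lit 5) (nat_lit 19) (nat_lit 5) (nat_lit 232) (nat_lit 220) (nat_lit 148)) (XT.lf (nat_lit 0) (nat_lit 34951987056) (nat_lit 152) (nat_lit 89410120562) (nat_lit 76) (nat_lit 83192971754) (nat_lit 14) (nat_lit 5) (nat_lit 16) (nat_lit 5) (nat_lit 15) (nat_lit 5) (nat_lit 233) (nat_lit 220) (nat_lit 147))) (XT.nd (nat_lit 78) (nat_lit 0) (nat_lit 0) (XT.lf (nat_lit 0) (nat_lit 53609196465) (nat_lit 152) (nat_lit 36010324108) (nat_lit 228) (nat_lit 140703572630) (nat_lit 12)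 (nat_lit 5) (nat_lit 14) (nat_lit 5) (nat_lit 15) (nat_lit 5) (nat_lit 234) (nat_lit 220) (nat_lit 146)) (XT.lf (nat_lit 0) (nat_lit 156734460233) (nat_lit 228) (nat_lit 34448906548) (nat_lit 76) (nat_lit 64983163909) (nat_lit 12) (nat_lit 5) (nat_lit 15) (nat_lit 5) (nat_lit 13) (nat_lit 4) (nat_lit 235) (nat_lit 220) (nat_lit 145)))) (XT.nd (nat_lit 156) (nat_lit 76) (nat_lit 0) (XT.nd (nat_lit 78) (nat_lit 228) (nat_lit 0) (XT.lf (nat_lit 0) (nat_lit 134907170022) (nat_lit 76) (nat_lit 103249114531) (nat_lit 152) (nat_lit 47391030942) (nat_lit 11) (nat_lit 5) (nat_lit 12) (nat_lit 5) (nat_lit 13) (nat_lit 4) (nat_lit 236) (nat_lit 220) (nat_lit 144)) (XT.lf (nat_lit 0) (nat_lit 12811833606) (nat_lit 152) (nat_lit 357565507) (nat_lit 228) (nat_lit 306034948401) (nat_lit 8) (nat_lit 5) (nat_lit 10) (nat_lit 5) (nat_lit 11) (nat_lit 5) (nat_lit 237) (nat_lit 220) (nat_lit 143))) (XT.nd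 (nat_lit 78) (nat_lit 76) (nat_lit 0) (XT.lf (nat_lit 0) (nat_lit 87423653406) (nat_lit 228) (nat_lit 151918101432) (nat_lit 76) (nat_lit 117876439855) (nat_lit 8) (nat_lit 5) (nat_lit 11) (nat_lit 5) (nat_lit 9) (nat_lit 4) (nat_lit 238) (nat_lit 220) (nat_lit 142)) (XT.nd (nat_lit 78) (nat_lit 0) (nat_lit 0) (XT.lf (nat_lit 0) (nat_lit 27070741979) (nat_lit 76) (nat_lit 146405625770) (nat_lit 152) (nat_lit 227404927390) (nat_lit 7) (nat_lit 5) (nat_lit 8) (nat_lit 5) (nat_lit 9) (nat_lit 4) (nat_lit 239) (nat_lit 220) (nat_lit 141)) (XT.lf (nat_lit 0) (nat_lit 242106668053) (nat_lit 76) (nat_lit 34752691923) (nat_lit 152) (nat_lit 173880712707) (nat_lit 7) (nat_lit 5) (nat_lit 8) (nat_lit 5) (nat_lit 9) (nat_lit 4) (nat_lit 240) (nat_lit 220) (nat_lit 140)))))) (XT.nd (nat_lit 390) (nat_lit 76) (nat_lit 0) (XT.nd (nat_lit 156) (nat_lit 152) (nat_lit 0) (XT.nd (nat_lit 78) (nat_lit 76)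 (nat_lit 0) (XT.lf (nat_lit 0) (nat_lit 398001545978) (nat_lit 152) (nat_lit 20932777006) (nat_lit 0) (nat_lit 88963205750) (nat_lit 7) (nat_lit 5) (nat_lit 9) (nat_lit 4) (nat_lit 7) (nat_lit 4) (nat_lit 241) (nat_lit 220) (nat_lit 139)) (XT.lf (nat_lit 0) (nat_lit 204174674342) (nat_lit 76) (nat_lit 339011533521) (nat_lit 76) (nat_lit 29972704769) (nat_lit 6) (nat_lit 4) (nat_lit 7) (nat_lit 5) (nat_lit 7) (nat_lit 4) (nat_lit 242) (nat_lit 220) (nat_lit 138))) (XT.nd (nat_lit 78) (nat_lit 76) (nat_lit 0) (XT.lf (nat_lit 0) (nat_lit 59465484152) (nat_lit 152) (nat_lit 185351046519) (nat_lit 76) (nat_lit 403223814622) (nat_lit 5) (nat_lit 5) (nat_lit 7) (nat_lit 5) (nat_lit 6) (nat_lit 4) (nat_lit 243) (nat_lit 220) (nat_lit 137)) (XT.nd (nat_lit 78) (nat_lit 0) (nat_lit 0) (XT.lf (nat_lit 0) (nat_lit 26313870330) (nat_lit 76) (nat_lit 134913770670) (nat_lit 152) (nat_lit 572809435149)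 (nat_lit 4) (nat_lit 5) (nat_lit 5) (nat_lit 5) (nat_lit 6) (nat_lit 4) (nat_lit 244) (nat_lit 220) (nat_lit 136)) (XT.lf (nat_lit 0) (nat_lit 280952263411) (nat_lit 76) (nat_lit 2697836383) (nat_lit 152) (nat_lit 548851539343) (nat_lit 4) (nat_lit 5) (nat_lit 5) (nat_lit 5) (nat_lit 6) (nat_lit 4) (nat_lit 245) (nat_lit 220) (nat_lit 135))))) (XT.nd (nat_lit 156) (nat_lit 76) (nat_lit 0) (XT.nd (nat_lit 78) (nat_lit 0) (nat_lit 0) (XT.lf (nat_lit 0) (nat_lit 428027528816) (nat_lit 152) (nat_lit 375541856578) (nat_lit 0) (nat_lit 141879173743) (nat_lit 4) (nat_lit 5) (nat_lit 6) (nat_lit 4) (nat_lit 4) (nat_lit 4) (nat_lit 246) (nat_lit 220) (nat_lit 134)) (XT.lf (nat_lit 0) (nat_lit 594135942959) (nat_lit 152) (nat_lit 173208262112) (nat_lit 0) (nat_lit 307987362995) (nat_lit 4) (nat_lit 5) (nat_lit 6) (nat_lit 4) (nat_lit 4) (nat_lit 4) (nat_lit 247) (nat_lit 220) (nat_lit 133))) (XT.nd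 (nat_lit 78) (nat_lit 0) (nat_lit 0) (XT.lf (nat_lit 0) (nat_lit 62606839116) (nat_lit 76) (nat_lit 724059263297) (nat_lit 76) (nat_lit 437910487775) (nat_lit 3) (nat_lit 4) (nat_lit 4) (nat_lit 5) (nat_lit 4) (nat_lit 4) (nat_lit 248) (nat_lit 220) (nat_lit 132)) (XT.nd (nat_lit 78) (nat_lit 0) (nat_lit 0) (XT.lf (nat_lit 0) (nat_lit 344282823790) (nat_lit 76) (nat_lit 668835540777) (nat_lit 76) (nat_lit 382686595205) (nat_lit 3) (nat_lit 4) (nat_lit 4) (nat_lit 5) (nat_lit 4) (nat_lit 4) (nat_lit 249) (nat_lit 220) (nat_lit 131)) (XT.lf (nat_lit 0) (nat_lit 668209903651) (nat_lit 76) (nat_lit 605328394212) (nat_lit 76) (nat_lit 319179300770) (nat_lit 3) (nat_lit 4) (nat_lit 4) (nat_lit 5) (nat_lit 4) (nat_lit 4) (nat_lit 250) (nat_lit 220) (nat_lit 130))))))) (XT.nd (nat_lit 29172) (nat_lit 0) (nat_lit 1140) (XT.nd (nat_lit 312) (nat_lit 76) (nat_lit 0) (XT.nd (nat_lit 156) (nat_lit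 76) (nat_lit 0) (XT.nd (nat_lit 78) (nat_lit 0) (nat_lit 0) (XT.lf (nat_lit 0) (nat_lit 1040725782438) (nat_lit 76) (nat_lit 532295292474) (nat_lit 76) (nat_lit 246146070450) (nat_lit 3) (nat_lit 4) (nat_lit 4) (nat_lit 5) (nat_lit 4) (nat_lit 4) (nat_lit 251) (nat_lit 220) (nat_lit 129)) (XT.lf (nat_lit 0) (nat_lit 1469118814299) (nat_lit 76) (nat_lit 448307327050) (nat_lit 76) (nat_lit 162157993215) (nat_lit 3) (nat_lit 4) (nat_lit 4) (nat_lit 5) (nat_lit 4) (nat_lit 4) (nat_lit 252) (nat_lit 220) (nat_lit 128))) (XT.nd (nat_lit 78) (nat_lit 76) (nat_lit 0) (XT.lf (nat_lit 0) (nat_lit 1961770602032) (nat_lit 76) (nat_lit 351721255138) (nat_lit 76) (nat_lit 65571824077) (nat_lit 3) (nat_lit 4) (nat_lit 4) (nat_lit 5) (nat_lit 4) (nat_lit 4) (nat_lit 253) (nat_lit 220) (nat_lit 127)) (XT.lf (nat_lit 0) (nat_lit 43225963714) (nat_lit 152) (nat_lit 196239511080) (nat_lit 76) (nat_lit 2483912146797)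 (nat_lit 2) (nat_lit 5) (nat_lit 4) (nat_lit 5) (nat_lit 3) (nat_lit 4) (nat_lit 254) (nat_lit 220) (nat_lit 126)))) (XT.nd (nat_lit 28626) (nat_lit 0) (nat_lit 2356) (XT.nd (nat_lit 78) (nat_lit 0) (nat_lit 0) (XT.lf (nat_lit 0) (nat_lit 59115583537) (nat_lit 76) (nat_lit 106877287934) (nat_lit 152) (nat_lit 2953086965713) (nat_lit 1) (nat_lit 5) (nat_lit 2) (nat_lit 5) (nat_lit 3) (nat_lit 4) (nat_lit 255) (nat_lit 220) (nat_lit 125)) (XT.lf (nat_lit 0) (nat_lit 314133095469) (nat_lit 152) (nat_lit 3210267914382) (nat_lit 0) (nat_lit 49179713013) (nat_lit 1) (nat_lit 5) (nat_lit 3) (nat_lit 4) (nat_lit 1) (nat_lit 4) (nat_lit 256) (nat_lit 220) (nat_lit 124))) (XT.nd (nat_lit 78) (nat_lit 0) (nat_lit 76) (XT.lf (nat_lit 0) (nat_lit 9353958310) (nat_lit 532) (nat_lit 14672539844) (nat_lit 532) (nat_lit 14672539844) (nat_lit 32) (nat_lit 3) (nat_lit 39) (nat_lit 3) (nat_lit 39) (nat_lit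 5) (nat_lit 221) (nat_lit 221) (nat_lit 158)) (XT.nd (nat_lit 78) (nat_lit 0) (nat_lit 0) (XT.lf (nat_lit 0) (nat_lit 21175625753) (nat_lit 456) (nat_lit 51186690834) (nat_lit 532) (nat_lit 10755334000) (nat_lit 33) (nat_lit 5) (nat_lit 39) (nat_lit 5) (nat_lit 40) (nat_lit 5) (nat_lit 222) (nat_lit 221) (nat_lit 157)) (XT.lf (nat_lit 76) (nat_lit 13890200996) (nat_lit 0) (nat_lit 12659825580) (nat_lit 532) (nat_lit 62942231885) (nat_lit 34) (nat_lit 5) (nat_lit 33) (nat_lit 5) (nat_lit 40) (nat_lit 5) (nat_lit 223) (nat_lit 221) (nat_lit 156)))))) (XT.nd (nat_lit 390) (nat_lit 608) (nat_lit 0) (XT.nd (nat_lit 156) (nat_lit 760) (nat_lit 0) (XT.nd (nat_lit 78) (nat_lit 0) (nat_lit 76) (XT.lf (nat_lit 0) (nat_lit 35603580275) (nat_lit 456) (nat_lit 6263109968) (nat_lit 532) (nat_lit 54726545174) (nat_lit 34) (nat_lit 5) (nat_lit 40) (nat_lit 5) (nat_lit 41) (nat_lit 5) (nat_lit 224) (nat_lit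 221) (nat_lit 155)) (XT.lf (nat_lit 0) (nat_lit 48905908365) (nat_lit 456) (nat_lit 28299867215) (nat_lit 76) (nat_lit 27322339092) (nat_lit 35) (nat_lit 5) (nat_lit 41) (nat_lit 5) (nat_lit 36) (nat_lit 5) (nat_lit 225) (nat_lit 221) (nat_lit 154))) (XT.nd (nat_lit 78) (nat_lit 380) (nat_lit 0) (XT.lf (nat_lit 0) (nat_lit 59653489883) (nat_lit 456) (nat_lit 7327688263) (nat_lit 532) (nat_lit 46449853369) (nat_lit 29) (nat_lit 5) (nat_lit 35) (nat_lit 5) (nat_lit 36) (nat_lit 5) (nat_lit 226) (nat_lit 221) (nat_lit 153)) (XT.nd (nat_lit 78) (nat_lit 152) (nat_lit 0) (XT.lf (nat_lit 0) (nat_lit 39085628294) (nat_lit 228) (nat_lit 52222013594) (nat_lit 304) (nat_lit 32078563107) (nat_lit 26) (nat_lit 5) (nat_lit 29) (nat_lit 5) (nat_lit 30) (nat_lit 5) (nat_lit 227) (nat_lit 221) (nat_lit 152)) (XT.lf (nat_lit 0) (nat_lit 14269479563) (nat_lit 152) (nat_lit 107788733713) (nat_lit 228) (nat_lit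 12554440080) (nat_lit 24) (nat_lit 5) (nat_lit 26) (nat_lit 5) (nat_lit 27) (nat_lit 5) (nat_lit 228) (nat_lit 221) (nat_lit 151))))) (XT.nd (nat_lit 156) (nat_lit 304) (nat_lit 0) (XT.nd (nat_lit 78) (nat_lit 228) (nat_lit 0) (XT.lf (nat_lit 0) (nat_lit 13364022957) (nat_lit 228) (nat_lit 16344636073) (nat_lit 76) (nat_lit 117478503588) (nat_lit 23) (nat_lit 5) (nat_lit 26) (nat_lit 5) (nat_lit 24) (nat_lit 5) (nat_lit 229) (nat_lit 221) (nat_lit 150)) (XT.lf (nat_lit 0) (nat_lit 46573575635) (nat_lit 304) (nat_lit 54609783142) (nat_lit 76) (nat_lit 60106674627) (nat_lit 20) (nat_lit 5) (nat_lit 24) (nat_lit 5) (nat_lit 21) (nat_lit 5) (nat_lit 230) (nat_lit 221) (nat_lit 149))) (XT.nd (nat_lit 78) (nat_lit 152) (nat_lit 0) (XT.lf (nat_lit 0) (nat_lit 74573279202) (nat_lit 152) (nat_lit 13293460872) (nat_lit 228) (nat_lit 89393426456) (nat_lit 18) (nat_lit 5) (nat_lit 20) (nat_lit 5)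 (nat_lit 21) (nat_lit 5) (nat_lit 231) (nat_lit 221) (nat_lit 148)) (XT.nd (nat_lit 78) (nat_lit 0) (nat_lit 0) (XT.lf (nat_lit 0) (nat_lit 30304222547) (nat_lit 152) (nat_lit 109519703748) (nat_lit 228) (nat_lit 55444294804) (nat_lit 16) (nat_lit 5) (nat_lit 18) (nat_lit 5) (nat_lit 19) (nat_lit 5) (nat_lit 232) (nat_lit 221) (nat_lit 147)) (XT.lf (nat_lit 0) (nat_lit 189074017822) (nat_lit 152) (nat_lit 13847674664) (nat_lit 228) (nat_lit 12788035763) (nat_lit 16) (nat_lit 5) (nat_lit 18) (nat_lit 5) (nat_lit 19) (nat_lit 5) (nat_lit 233) (nat_lit 221) (nat_lit 146))))))))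
noncomputable def xc51 : XT := (XT.nd (nat_lit 1482) (nat_lit 152) (nat_lit 0) (XT.nd (nat_lit 702) (nat_lit 304) (nat_lit 0) (XT.nd (nat_lit 312) (nat_lit 304) (nat_lit 0) (XT.nd (nat_lit 156) (nat_lit 76) (nat_lit 0) (XT.nd (nat_lit 78) (nat_lit 152) (nat_lit 0) (XT.lf (nat_lit 0) (nat_lit 40204606823) (nat_lit 152) (nat_lit 102806936578) (nat_lit 76) (nat_lit 95675972614) (nat_lit 14) (nat_lit 5) (nat_lit 16) (nat_lit 5) (nat_lit 15) (nat_lit 5) (nat_lit 234) (nat_lit 221) (nat_lit 145)) (XT.lf (nat_lit 0) (nat_lit 61664033546) (nat_lit 152) (nat_lit 41407279384) (nat_lit 228) (nat_lit 161799500740) (nat_lit 12) (nat_lit 5) (nat_lit 14) (nat_lit 5) (nat_lit 15) (nat_lit 5) (nat_lit 235) (nat_lit 221) (nat_lit 144))) (XT.nd (nat_lit 78) (nat_lit 76) (nat_lit 0) (XT.lf (nat_lit 0) (nat_lit 180252433392) (nat_lit 228) (nat_lit 39603989787) (nat_lit 76) (nat_lit 74734432897) (nat_lit 12)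 (nat_lit 5) (nat_lit 15) (nat_lit 5) (nat_lit 13) (nat_lit 4) (nat_lit 236) (nat_lit 221) (nat_lit 143)) (XT.lf (nat_lit 0) (nat_lit 155154461134) (nat_lit 76) (nat_lit 118732322032) (nat_lit 152) (nat_lit 54492039190) (nat_lit 11) (nat_lit 5) (nat_lit 12) (nat_lit 5) (nat_lit 13) (nat_lit 4) (nat_lit 237) (nat_lit 221) (nat_lit 142)))) (XT.nd (nat_lit 156) (nat_lit 76) (nat_lit 0) (XT.nd (nat_lit 78) (nat_lit 0) (nat_lit 0) (XT.lf (nat_lit 0) (nat_lit 14744247064) (nat_lit 152) (nat_lit 407134196) (nat_lit 228) (nat_lit 351933071673) (nat_lit 8) (nat_lit 5) (nat_lit 10) (nat_lit 5) (nat_lit 11) (nat_lit 5) (nat_lit 238) (nat_lit 221) (nat_lit 141)) (XT.lf (nat_lit 0) (nat_lit 100543001479) (nat_lit 228) (nat_lit 174696175486) (nat_lit 76) (nat_lit 135561264731) (nat_lit 8) (nat_lit 5) (nat_lit 11) (nat_lit 5) (nat_lit 9) (nat_lit 4) (nat_lit 239) (nat_lit 221) (nat_lit 140))) (XT.nd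 (nat_lit 78) (nat_lit 0) (nat_lit 0) (XT.lf (nat_lit 0) (nat_lit 31140178361) (nat_lit 76) (nat_lit 168362900327) (nat_lit 152) (nat_lit 261509974438) (nat_lit 7) (nat_lit 5) (nat_lit 8) (nat_lit 5) (nat_lit 9) (nat_lit 4) (nat_lit 240) (nat_lit 221) (nat_lit 139)) (XT.nd (nat_lit 78) (nat_lit 0) (nat_lit 0) (XT.lf (nat_lit 0) (nat_lit 278430342248) (nat_lit 76) (nat_lit 39962491965) (nat_lit 152) (nat_lit 199957869996) (nat_lit 7) (nat_lit 5) (nat_lit 8) (nat_lit 5) (nat_lit 9) (nat_lit 4) (nat_lit 241) (nat_lit 221) (nat_lit 138)) (XT.lf (nat_lit 0) (nat_lit 457705816905) (nat_lit 152) (nat_lit 24065755541) (nat_lit 0) (nat_lit 102310250512) (nat_lit 7) (nat_lit 5) (nat_lit 9) (nat_lit 4) (nat_lit 7) (nat_lit 4) (nat_lit 242) (nat_lit 221) (nat_lit 137)))))) (XT.nd (nat_lit 390) (nat_lit 76) (nat_lit 0) (XT.nd (nat_lit 156) (nat_lit 76) (nat_lit 0) (XT.nd (nat_lit 78) (nat_lit 76) (nat_lit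 0) (XT.lf (nat_lit 0) (nat_lit 234807226241) (nat_lit 76) (nat_lit 389860577737) (nat_lit 76) (nat_lit 34464641950) (nat_lit 6) (nat_lit 4) (nat_lit 7) (nat_lit 5) (nat_lit 7) (nat_lit 4) (nat_lit 243) (nat_lit 221) (nat_lit 136)) (XT.lf (nat_lit 0) (nat_lit 68388585046) (nat_lit 152) (nat_lit 213148000103) (nat_lit 76) (nat_lit 463709541300) (nat_lit 5) (nat_lit 5) (nat_lit 7) (nat_lit 5) (nat_lit 6) (nat_lit 4) (nat_lit 244) (nat_lit 221) (nat_lit 135))) (XT.nd (nat_lit 78) (nat_lit 0) (nat_lit 0) (XT.lf (nat_lit 0) (nat_lit 30266171510) (nat_lit 76) (nat_lit 155148591867) (nat_lit 152) (nat_lit 658727628813) (nat_lit 4) (nat_lit 5) (nat_lit 5) (nat_lit 5) (nat_lit 6) (nat_lit 4) (nat_lit 245) (nat_lit 221) (nat_lit 134)) (XT.nd (nat_lit 78) (nat_lit 0) (nat_lit 0) (XT.lf (nat_lit 0) (nat_lit 323099642601) (nat_lit 76) (nat_lit 3100560186) (nat_lit 152) (nat_lit 631176468845) (nat_lit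 4) (nat_lit 5) (nat_lit 5) (nat_lit 5) (nat_lit 6) (nat_lit 4) (nat_lit 246) (nat_lit 221) (nat_lit 133)) (XT.lf (nat_lit 0) (nat_lit 492233949409) (nat_lit 152) (nat_lit 431869042790) (nat_lit 0) (nat_lit 163162662001) (nat_lit 4) (nat_lit 5) (nat_lit 6) (nat_lit 4) (nat_lit 4) (nat_lit 4) (nat_lit 247) (nat_lit 221) (nat_lit 132))))) (XT.nd (nat_lit 156) (nat_lit 0) (nat_lit 0) (XT.nd (nat_lit 78) (nat_lit 76) (nat_lit 0) (XT.lf (nat_lit 0) (nat_lit 683258326812) (nat_lit 152) (nat_lit 199185942928) (nat_lit 0) (nat_lit 354186869354) (nat_lit 4) (nat_lit 5) (nat_lit 6) (nat_lit 4) (nat_lit 4) (nat_lit 4) (nat_lit 248) (nat_lit 221) (nat_lit 131)) (XT.lf (nat_lit 0) (nat_lit 72001122274) (nat_lit 76) (nat_lit 832666706368) (nat_lit 76) (nat_lit 503595101040) (nat_lit 3) (nat_lit 4) (nat_lit 4) (nat_lit 5) (nat_lit 4) (nat_lit 4) (nat_lit 249) (nat_lit 221) (nat_lit 130))) (XT.nd (nat_lit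 78) (nat_lit 0) (nat_lit 0) (XT.lf (nat_lit 0) (nat_lit 395928079785) (nat_lit 76) (nat_lit 769159614134) (nat_lit 76) (nat_lit 440087880224) (nat_lit 3) (nat_lit 4) (nat_lit 4) (nat_lit 5) (nat_lit 4) (nat_lit 4) (nat_lit 250) (nat_lit 221) (nat_lit 129)) (XT.nd (nat_lit 78) (nat_lit 0) (nat_lit 0) (XT.lf (nat_lit 0) (nat_lit 768443852179) (nat_lit 76) (nat_lit 696126559640) (nat_lit 76) (nat_lit 367054713919) (nat_lit 3) (nat_lit 4) (nat_lit 4) (nat_lit 5) (nat_lit 4) (nat_lit 4) (nat_lit 251) (nat_lit 221) (nat_lit 128)) (XT.lf (nat_lit 0) (nat_lit 1196836791526) (nat_lit 76) (nat_lit 612138635298) (nat_lit 76) (nat_lit 283066692350) (nat_lit 3) (nat_lit 4) (nat_lit 4) (nat_lit 5) (nat_lit 4) (nat_lit 4) (nat_lit 252) (nat_lit 221) (nat_lit 127))))))) (XT.nd (nat_lit 29250) (nat_lit 0) (nat_lit 836) (XT.nd (nat_lit 28860) (nat_lit 0) (nat_lit 2356) (XT.nd (nat_lit 156) (nat_lit 152)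 (nat_lit 0) (XT.nd (nat_lit 78) (nat_lit 0) (nat_lit 0) (XT.lf (nat_lit 0) (nat_lit 1689488498811) (nat_lit 76) (nat_lit 515552599110) (nat_lit 76) (nat_lit 186480571617) (nat_lit 3) (nat_lit 4) (nat_lit 4) (nat_lit 5) (nat_lit 4) (nat_lit 4) (nat_lit 253) (nat_lit 221) (nat_lit 126)) (XT.lf (nat_lit 0) (nat_lit 2256037811787) (nat_lit 76) (nat_lit 404478724281) (nat_lit 76) (nat_lit 75406623271) (nat_lit 3) (nat_lit 4) (nat_lit 4) (nat_lit 5) (nat_lit 4) (nat_lit 4) (nat_lit 254) (nat_lit 221) (nat_lit 125))) (XT.nd (nat_lit 78) (nat_lit 76) (nat_lit 0) (XT.lf (nat_lit 0) (nat_lit 49710663204) (nat_lit 152) (nat_lit 225673985472) (nat_lit 76) (nat_lit 2856499550092) (nat_lit 2) (nat_lit 5) (nat_lit 4) (nat_lit 5) (nat_lit 3) (nat_lit 4) (nat_lit 255) (nat_lit 221) (nat_lit 124)) (XT.lf (nat_lit 0) (nat_lit 67984250410) (nat_lit 76) (nat_lit 122908283694) (nat_lit 152) (nat_lit 3396049218655)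 (nat_lit 1) (nat_lit 5) (nat_lit 2) (nat_lit 5) (nat_lit 3) (nat_lit 4) (nat_lit 256) (nat_lit 221) (nat_lit 123)))) (XT.nd (nat_lit 156) (nat_lit 0) (nat_lit 76) (XT.nd (nat_lit 78) (nat_lit 0) (nat_lit 76) (XT.lf (nat_lit 0) (nat_lit 10773650761) (nat_lit 532) (nat_lit 16864403897) (nat_lit 532) (nat_lit 16864403897) (nat_lit 32) (nat_lit 3) (nat_lit 39) (nat_lit 3) (nat_lit 39) (nat_lit 5) (nat_lit 222) (nat_lit 222) (nat_lit 156)) (XT.lf (nat_lit 0) (nat_lit 24380927125) (nat_lit 456) (nat_lit 58845352622) (nat_lit 532) (nat_lit 12356515312) (nat_lit 33) (nat_lit 5) (nat_lit 39) (nat_lit 5) (nat_lit 40) (nat_lit 5) (nat_lit 223) (nat_lit 222) (nat_lit 155))) (XT.nd (nat_lit 78) (nat_lit 0) (nat_lit 76) (XT.lf (nat_lit 76) (nat_lit 15991435793) (nat_lit 0) (nat_lit 14566701010) (nat_lit 532) (nat_lit 72355749740) (nat_lit 34) (nat_lit 5) (nat_lit 33) (nat_lit 5) (nat_lit 40) (nat_lit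 5) (nat_lit 224) (nat_lit 222) (nat_lit 154)) (XT.nd (nat_lit 78) (nat_lit 0) (nat_lit 76) (XT.lf (nat_lit 0) (nat_lit 40966218365) (nat_lit 456) (nat_lit 7185093535) (nat_lit 532) (nat_lit 62928999712) (nat_lit 34) (nat_lit 5) (nat_lit 40) (nat_lit 5) (nat_lit 41) (nat_lit 5) (nat_lit 225) (nat_lit 222) (nat_lit 153)) (XT.lf (nat_lit 0) (nat_lit 56261311216) (nat_lit 456) (nat_lit 32527066738) (nat_lit 76) (nat_lit 31417269954) (nat_lit 35) (nat_lit 5) (nat_lit 41) (nat_lit 5) (nat_lit 36) (nat_lit 5) (nat_lit 226) (nat_lit 222) (nat_lit 152)))))) (XT.nd (nat_lit 390) (nat_lit 608) (nat_lit 0) (XT.nd (nat_lit 156) (nat_lit 456) (nat_lit 0) (XT.nd (nat_lit 78) (nat_lit 228) (nat_lit 0) (XT.lf (nat_lit 0) (nat_lit 68617788889) (nat_lit 456) (nat_lit 8427928359) (nat_lit 532) (nat_lit 53398473363) (nat_lit 29) (nat_lit 5) (nat_lit 35) (nat_lit 5) (nat_lit 36) (nat_lit 5) (nat_lit 227) (nat_lit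 222) (nat_lit 151)) (XT.lf (nat_lit 0) (nat_lit 44964763380) (nat_lit 228) (nat_lit 60054491579) (nat_lit 304) (nat_lit 36873550712) (nat_lit 26) (nat_lit 5) (nat_lit 29) (nat_lit 5) (nat_lit 30) (nat_lit 5) (nat_lit 228) (nat_lit 222) (nat_lit 150))) (XT.nd (nat_lit 78) (nat_lit 304) (nat_lit 0) (XT.lf (nat_lit 0) (nat_lit 16426012750) (nat_lit 152) (nat_lit 123954786607) (nat_lit 228) (nat_lit 14422563039) (nat_lit 24) (nat_lit 5) (nat_lit 26) (nat_lit 5) (nat_lit 27) (nat_lit 5) (nat_lit 229) (nat_lit 222) (nat_lit 149)) (XT.nd (nat_lit 78) (nat_lit 228) (nat_lit 0) (XT.lf (nat_lit 0) (nat_lit 15381052956) (nat_lit 228) (nat_lit 18781602414) (nat_lit 76) (nat_lit 135101522591) (nat_lit 23) (nat_lit 5) (nat_lit 26) (nat_lit 5) (nat_lit 24) (nat_lit 5) (nat_lit 230) (nat_lit 222) (nat_lit 148)) (XT.lf (nat_lit 0) (nat_lit 53570798506) (nat_lit 304) (nat_lit 62786878010) (nat_lit 76)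 (nat_lit 69124910522) (nat_lit 20) (nat_lit 5) (nat_lit 24) (nat_lit 5) (nat_lit 21) (nat_lit 5) (nat_lit 231) (nat_lit 222) (nat_lit 147))))) (XT.nd (nat_lit 156) (nat_lit 304) (nat_lit 0) (XT.nd (nat_lit 78) (nat_lit 152) (nat_lit 0) (XT.lf (nat_lit 0) (nat_lit 85772427117) (nat_lit 152) (nat_lit 15284367784) (nat_lit 228) (nat_lit 102791544011) (nat_lit 18) (nat_lit 5) (nat_lit 20) (nat_lit 5) (nat_lit 21) (nat_lit 5) (nat_lit 232) (nat_lit 222) (nat_lit 146)) (XT.lf (nat_lit 0) (nat_lit 34862610287) (nat_lit 152) (nat_lit 125944010534) (nat_lit 228) (nat_lit 63751062308) (nat_lit 16) (nat_lit 5) (nat_lit 18) (nat_lit 5) (nat_lit 19) (nat_lit 5) (nat_lit 233) (nat_lit 222) (nat_lit 145))) (XT.nd (nat_lit 78) (nat_lit 304) (nat_lit 0) (XT.lf (nat_lit 0) (nat_lit 217446211242) (nat_lit 152) (nat_lit 15921653015) (nat_lit 228) (nat_lit 14697652678) (nat_lit 16) (nat_lit 5) (nat_lit 18)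 (nat_lit 5) (nat_lit 19) (nat_lit 5) (nat_lit 234) (nat_lit 222) (nat_lit 144)) (XT.nd (nat_lit 78) (nat_lit 152) (nat_lit 0) (XT.lf (nat_lit 0) (nat_lit 46242724469) (nat_lit 152) (nat_lit 118216860189) (nat_lit 76) (nat_lit 110030434741) (nat_lit 14) (nat_lit 5) (nat_lit 16) (nat_lit 5) (nat_lit 15) (nat_lit 5) (nat_lit 235) (nat_lit 222) (nat_lit 143)) (XT.lf (nat_lit 0) (nat_lit 70923814466) (nat_lit 152) (nat_lit 47614898068) (nat_lit 228) (nat_lit 186062160985) (nat_lit 12) (nat_lit 5) (nat_lit 14) (nat_lit 5) (nat_lit 15) (nat_lit 5) (nat_lit 236) (nat_lit 222) (nat_lit 142))))))))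
noncomputable def xc52 : XT := (XT.nd (nat_lit 1404) (nat_lit 76) (nat_lit 0) (XT.nd (nat_lit 702) (nat_lit 152) (nat_lit 0) (XT.nd (nat_lit 312) (nat_lit 228) (nat_lit 0) (XT.nd (nat_lit 156) (nat_lit 228) (nat_lit 0) (XT.nd (nat_lit 78) (nat_lit 76) (nat_lit 0) (XT.lf (nat_lit 0) (nat_lit 207296199439) (nat_lit 228) (nat_lit 45535323422) (nat_lit 76) (nat_lit 85947466944) (nat_lit 12) (nat_lit 5) (nat_lit 15) (nat_lit 5) (nat_lit 13) (nat_lit 4) (nat_lit 237) (nat_lit 222) (nat_lit 141)) (XT.lf (nat_lit 0) (nat_lit 178436110916) (nat_lit 76) (nat_lit 136539025022) (nat_lit 152) (nat_lit 62660063296) (nat_lit 11) (nat_lit 5) (nat_lit 12) (nat_lit 5) (nat_lit 13) (nat_lit 4) (nat_lit 238) (nat_lit 222) (nat_lit 140))) (XT.nd (nat_lit 78) (nat_lit 0) (nat_lit 0) (XT.lf (nat_lit 0) (nat_lit 16963928296) (nat_lit 152) (nat_lit 465129742) (nat_lit 228) (nat_lit 404717649446) (nat_lit 8) (nat_lit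 5) (nat_lit 10) (nat_lit 5) (nat_lit 11) (nat_lit 5) (nat_lit 239) (nat_lit 222) (nat_lit 139)) (XT.lf (nat_lit 0) (nat_lit 115628837381) (nat_lit 228) (nat_lit 200893311707) (nat_lit 76) (nat_lit 155897994250) (nat_lit 8) (nat_lit 5) (nat_lit 11) (nat_lit 5) (nat_lit 9) (nat_lit 4) (nat_lit 240) (nat_lit 222) (nat_lit 138)))) (XT.nd (nat_lit 156) (nat_lit 152) (nat_lit 0) (XT.nd (nat_lit 78) (nat_lit 0) (nat_lit 0) (XT.lf (nat_lit 0) (nat_lit 35817878146) (nat_lit 76) (nat_lit 193614636466) (nat_lit 152) (nat_lit 300732166589) (nat_lit 7) (nat_lit 5) (nat_lit 8) (nat_lit 5) (nat_lit 9) (nat_lit 4) (nat_lit 241) (nat_lit 222) (nat_lit 137)) (XT.lf (nat_lit 0) (nat_lit 320200696221) (nat_lit 76) (nat_lit 45954518882) (nat_lit 152) (nat_lit 229947807873) (nat_lit 7) (nat_lit 5) (nat_lit 8) (nat_lit 5) (nat_lit 9) (nat_lit 4) (nat_lit 242) (nat_lit 222) (nat_lit 136))) (XT.nd (nat_lit 78)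 (nat_lit 152) (nat_lit 0) (XT.lf (nat_lit 0) (nat_lit 526364743528) (nat_lit 152) (nat_lit 27670372735) (nat_lit 0) (nat_lit 117658726766) (nat_lit 7) (nat_lit 5) (nat_lit 9) (nat_lit 4) (nat_lit 7) (nat_lit 4) (nat_lit 243) (nat_lit 222) (nat_lit 135)) (XT.nd (nat_lit 78) (nat_lit 76) (nat_lit 0) (XT.lf (nat_lit 0) (nat_lit 270033112255) (nat_lit 76) (nat_lit 448337633538) (nat_lit 76) (nat_lit 39631337460) (nat_lit 6) (nat_lit 4) (nat_lit 7) (nat_lit 5) (nat_lit 7) (nat_lit 4) (nat_lit 244) (nat_lit 222) (nat_lit 134)) (XT.lf (nat_lit 0) (nat_lit 78649351647) (nat_lit 152) (nat_lit 245115887533) (nat_lit 76) (nat_lit 533267601595) (nat_lit 5) (nat_lit 5) (nat_lit 7) (nat_lit 5) (nat_lit 6) (nat_lit 4) (nat_lit 245) (nat_lit 222) (nat_lit 133)))))) (XT.nd (nat_lit 312) (nat_lit 76) (nat_lit 0) (XT.nd (nat_lit 156) (nat_lit 0) (nat_lit 0) (XT.nd (nat_lit 78) (nat_lit 0) (nat_lit 0) (XT.lf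 (nat_lit 0) (nat_lit 34810044783) (nat_lit 76) (nat_lit 178419183556) (nat_lit 152) (nat_lit 757534337135) (nat_lit 4) (nat_lit 5) (nat_lit 5) (nat_lit 5) (nat_lit 6) (nat_lit 4) (nat_lit 246) (nat_lit 222) (nat_lit 132)) (XT.lf (nat_lit 0) (nat_lit 371568021641) (nat_lit 76) (nat_lit 3564168482) (nat_lit 152) (nat_lit 725850820911) (nat_lit 4) (nat_lit 5) (nat_lit 5) (nat_lit 5) (nat_lit 6) (nat_lit 4) (nat_lit 247) (nat_lit 222) (nat_lit 131))) (XT.nd (nat_lit 78) (nat_lit 0) (nat_lit 0) (XT.lf (nat_lit 0) (nat_lit 566070774350) (nat_lit 152) (nat_lit 496646304860) (nat_lit 0) (nat_lit 187638280353) (nat_lit 4) (nat_lit 5) (nat_lit 6) (nat_lit 4) (nat_lit 4) (nat_lit 4) (nat_lit 248) (nat_lit 222) (nat_lit 130)) (XT.lf (nat_lit 0) (nat_lit 785748582381) (nat_lit 152) (nat_lit 229061143630) (nat_lit 0) (nat_lit 407315959802) (nat_lit 4) (nat_lit 5) (nat_lit 6) (nat_lit 4) (nat_lit 4)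 (nat_lit 4) (nat_lit 249) (nat_lit 222) (nat_lit 129)))) (XT.nd (nat_lit 156) (nat_lit 0) (nat_lit 0) (XT.nd (nat_lit 78) (nat_lit 0) (nat_lit 0) (XT.lf (nat_lit 0) (nat_lit 82803753595) (nat_lit 76) (nat_lit 957565618619) (nat_lit 76) (nat_lit 579132884229) (nat_lit 3) (nat_lit 4) (nat_lit 4) (nat_lit 5) (nat_lit 4) (nat_lit 4) (nat_lit 250) (nat_lit 222) (nat_lit 128)) (XT.lf (nat_lit 0) (nat_lit 455319433475) (nat_lit 76) (nat_lit 884532605207) (nat_lit 76) (nat_lit 506099773590) (nat_lit 3) (nat_lit 4) (nat_lit 4) (nat_lit 5) (nat_lit 4) (nat_lit 4) (nat_lit 251) (nat_lit 222) (nat_lit 127))) (XT.nd (nat_lit 78) (nat_lit 0) (nat_lit 0) (XT.lf (nat_lit 0) (nat_lit 883712292373) (nat_lit 76) (nat_lit 800544716589) (nat_lit 76) (nat_lit 422111800427) (nat_lit 3) (nat_lit 4) (nat_lit 4) (nat_lit 5) (nat_lit 4) (nat_lit 4) (nat_lit 252) (nat_lit 222) (nat_lit 126)) (XT.nd (nat_lit 78)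 (nat_lit 0) (nat_lit 0) (XT.lf (nat_lit 0) (nat_lit 1376363929704) (nat_lit 76) (nat_lit 703958711465) (nat_lit 76) (nat_lit 325525721785) (nat_lit 3) (nat_lit 4) (nat_lit 4) (nat_lit 5) (nat_lit 4) (nat_lit 4) (nat_lit 253) (nat_lit 222) (nat_lit 125)) (XT.lf (nat_lit 0) (nat_lit 1942913181849) (nat_lit 76) (nat_lit 592884863648) (nat_lit 76) (nat_lit 214451810040) (nat_lit 3) (nat_lit 4) (nat_lit 4) (nat_lit 5) (nat_lit 4) (nat_lit 4) (nat_lit 254) (nat_lit 222) (nat_lit 124))))))) (XT.nd (nat_lit 29328) (nat_lit 0) (nat_lit 684) (XT.nd (nat_lit 28938) (nat_lit 0) (nat_lit 1824) (XT.nd (nat_lit 28782) (nat_lit 0) (nat_lit 2280) (XT.nd (nat_lit 78) (nat_lit 76) (nat_lit 0) (XT.lf (nat_lit 0) (nat_lit 2594444708091) (nat_lit 76) (nat_lit 465149989159) (nat_lit 76) (nat_lit 86716879962) (nat_lit 3) (nat_lit 4) (nat_lit 4) (nat_lit 5) (nat_lit 4) (nat_lit 4) (nat_lit 255) (nat_lit 222)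 (nat_lit 123)) (XT.lf (nat_lit 0) (nat_lit 57167871330) (nat_lit 152) (nat_lit 259523985168) (nat_lit 76) (nat_lit 3284974922134) (nat_lit 2) (nat_lit 5) (nat_lit 4) (nat_lit 5) (nat_lit 3) (nat_lit 4) (nat_lit 256) (nat_lit 222) (nat_lit 122))) (XT.nd (nat_lit 78) (nat_lit 0) (nat_lit 76) (XT.lf (nat_lit 0) (nat_lit 12402249380) (nat_lit 532) (nat_lit 19387246392) (nat_lit 532) (nat_lit 19387246392) (nat_lit 32) (nat_lit 3) (nat_lit 39) (nat_lit 3) (nat_lit 39) (nat_lit 5) (nat_lit 223) (nat_lit 223) (nat_lit 154)) (XT.lf (nat_lit 0) (nat_lit 28059962232) (nat_lit 456) (nat_lit 67657530307) (nat_lit 532) (nat_lit 14200829063) (nat_lit 33) (nat_lit 5) (nat_lit 39) (nat_lit 5) (nat_lit 40) (nat_lit 5) (nat_lit 224) (nat_lit 223) (nat_lit 153)))) (XT.nd (nat_lit 156) (nat_lit 532) (nat_lit 0) (XT.nd (nat_lit 78) (nat_lit 0) (nat_lit 76) (XT.lf (nat_lit 76) (nat_lit 18403538419) (nat_lit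 0) (nat_lit 16757680901) (nat_lit 532) (nat_lit 83188078608) (nat_lit 34) (nat_lit 5) (nat_lit 33) (nat_lit 5) (nat_lit 40) (nat_lit 5) (nat_lit 225) (nat_lit 223) (nat_lit 152)) (XT.lf (nat_lit 0) (nat_lit 47127862689) (nat_lit 456) (nat_lit 8249637960) (nat_lit 532) (nat_lit 72363414140) (nat_lit 34) (nat_lit 5) (nat_lit 40) (nat_lit 5) (nat_lit 41) (nat_lit 5) (nat_lit 226) (nat_lit 223) (nat_lit 151))) (XT.nd (nat_lit 78) (nat_lit 684) (nat_lit 0) (XT.lf (nat_lit 0) (nat_lit 64715265249) (nat_lit 456) (nat_lit 37392682091) (nat_lit 76) (nat_lit 36127274435) (nat_lit 35) (nat_lit 5) (nat_lit 41) (nat_lit 5) (nat_lit 36) (nat_lit 5) (nat_lit 227) (nat_lit 223) (nat_lit 150)) (XT.nd (nat_lit 78) (nat_lit 228) (nat_lit 0) (XT.lf (nat_lit 0) (nat_lit 78922763857) (nat_lit 456) (nat_lit 9692939432) (nat_lit 532) (nat_lit 61393985002) (nat_lit 29) (nat_lit 5) (nat_lit 35) (nat_lit 5) (nat_lit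 36) (nat_lit 5) (nat_lit 228) (nat_lit 223) (nat_lit 149)) (XT.lf (nat_lit 0) (nat_lit 51721796104) (nat_lit 228) (nat_lit 69062042212) (nat_lit 304) (nat_lit 42391882478) (nat_lit 26) (nat_lit 5) (nat_lit 29) (nat_lit 5) (nat_lit 30) (nat_lit 5) (nat_lit 229) (nat_lit 223) (nat_lit 148)))))) (XT.nd (nat_lit 390) (nat_lit 380) (nat_lit 0) (XT.nd (nat_lit 156) (nat_lit 532) (nat_lit 0) (XT.nd (nat_lit 78) (nat_lit 76) (nat_lit 0) (XT.lf (nat_lit 0) (nat_lit 18902097084) (nat_lit 152) (nat_lit 142546297859) (nat_lit 228) (nat_lit 16574572786) (nat_lit 24) (nat_lit 5) (nat_lit 26) (nat_lit 5) (nat_lit 27) (nat_lit 5) (nat_lit 230) (nat_lit 223) (nat_lit 147)) (XT.lf (nat_lit 0) (nat_lit 17697607161) (nat_lit 228) (nat_lit 21587705484) (nat_lit 76) (nat_lit 155367691218) (nat_lit 23) (nat_lit 5) (nat_lit 26) (nat_lit 5) (nat_lit 24) (nat_lit 5) (nat_lit 231) (nat_lit 223) (nat_lit 146)))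 (XT.nd (nat_lit 78) (nat_lit 304) (nat_lit 0) (XT.lf (nat_lit 0) (nat_lit 61614876902) (nat_lit 304) (nat_lit 72194041957) (nat_lit 76) (nat_lit 79495336856) (nat_lit 20) (nat_lit 5) (nat_lit 24) (nat_lit 5) (nat_lit 21) (nat_lit 5) (nat_lit 232) (nat_lit 223) (nat_lit 145)) (XT.nd (nat_lit 78) (nat_lit 152) (nat_lit 0) (XT.lf (nat_lit 0) (nat_lit 98648239037) (nat_lit 152) (nat_lit 17574669667) (nat_lit 228) (nat_lit 118202036359) (nat_lit 18) (nat_lit 5) (nat_lit 20) (nat_lit 5) (nat_lit 21) (nat_lit 5) (nat_lit 233) (nat_lit 223) (nat_lit 144)) (XT.lf (nat_lit 0) (nat_lit 40101645957) (nat_lit 152) (nat_lit 144832853116) (nat_lit 228) (nat_lit 73306253437) (nat_lit 16) (nat_lit 5) (nat_lit 18) (nat_lit 5) (nat_lit 19) (nat_lit 5) (nat_lit 234) (nat_lit 223) (nat_lit 143))))) (XT.nd (nat_lit 156) (nat_lit 228) (nat_lit 0) (XT.nd (nat_lit 78) (nat_lit 152) (nat_lit 0) (XT.lf (nat_lit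 0) (nat_lit 250071529125) (nat_lit 152) (nat_lit 18307501837) (nat_lit 228) (nat_lit 16895806478) (nat_lit 16) (nat_lit 5) (nat_lit 18) (nat_lit 5) (nat_lit 19) (nat_lit 5) (nat_lit 235) (nat_lit 223) (nat_lit 142)) (XT.lf (nat_lit 0) (nat_lit 53184748733) (nat_lit 152) (nat_lit 135940983263) (nat_lit 76) (nat_lit 126537318467) (nat_lit 14) (nat_lit 5) (nat_lit 16) (nat_lit 5) (nat_lit 15) (nat_lit 5) (nat_lit 236) (nat_lit 223) (nat_lit 141))) (XT.nd (nat_lit 78) (nat_lit 76) (nat_lit 0) (XT.lf (nat_lit 0) (nat_lit 81570081069) (nat_lit 152) (nat_lit 54754506521) (nat_lit 228) (nat_lit 213965991851) (nat_lit 12) (nat_lit 5) (nat_lit 14) (nat_lit 5) (nat_lit 15) (nat_lit 5) (nat_lit 237) (nat_lit 223) (nat_lit 140)) (XT.nd (nat_lit 78) (nat_lit 76) (nat_lit 0) (XT.lf (nat_lit 0) (nat_lit 238395091388) (nat_lit 228) (nat_lit 52358616390) (nat_lit 76) (nat_lit 98841756447) (nat_lit 12)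 (nat_lit 5) (nat_lit 15) (nat_lit 5) (nat_lit 13) (nat_lit 4) (nat_lit 238) (nat_lit 223) (nat_lit 139)) (XT.lf (nat_lit 0) (nat_lit 205207940114) (nat_lit 76) (nat_lit 157017500465) (nat_lit 152) (nat_lit 72054700940) (nat_lit 11) (nat_lit 5) (nat_lit 12) (nat_lit 5) (nat_lit 13) (nat_lit 4) (nat_lit 239) (nat_lit 223) (nat_lit 138))))))))
noncomputable def xc53 : XT := (XT.nd (nat_lit 30264) (nat_lit 0) (nat_lit 304) (XT.nd (nat_lit 702) (nat_lit 76) (nat_lit 0) (XT.nd (nat_lit 312) (nat_lit 228) (nat_lit 0) (XT.nd (nat_lit 156) (nat_lit 76) (nat_lit 0) (XT.nd (nat_lit 78) (nat_lit 0) (nat_lit 0) (XT.lf (nat_lit 0) (nat_lit 19514600090) (nat_lit 152) (nat_lit 532574376) (nat_lit 228) (nat_lit 465421226559) (nat_lit 8) (nat_lit 5) (nat_lit 10) (nat_lit 5) (nat_lit 11) (nat_lit 5) (nat_lit 240) (nat_lit 223) (nat_lit 137)) (XT.lf (nat_lit 0) (nat_lit 132976479192) (nat_lit 228) (nat_lit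 231021796098) (nat_lit 76) (nat_lit 179284613848) (nat_lit 8) (nat_lit 5) (nat_lit 11) (nat_lit 5) (nat_lit 9) (nat_lit 4) (nat_lit 241) (nat_lit 223) (nat_lit 136))) (XT.nd (nat_lit 78) (nat_lit 0) (nat_lit 0) (XT.lf (nat_lit 0) (nat_lit 41195605639) (nat_lit 76) (nat_lit 222654791172) (nat_lit 152) (nat_lit 345838737123) (nat_lit 7) (nat_lit 5) (nat_lit 8) (nat_lit 5) (nat_lit 9) (nat_lit 4) (nat_lit 242) (nat_lit 223) (nat_lit 135)) (XT.lf (nat_lit 0) (nat_lit 368235188281) (nat_lit 76) (nat_lit 52845922137) (nat_lit 152) (nat_lit 264437149094) (nat_lit 7) (nat_lit 5) (nat_lit 8) (nat_lit 5) (nat_lit 9) (nat_lit 4) (nat_lit 243) (nat_lit 223) (nat_lit 134)))) (XT.nd (nat_lit 156) (nat_lit 152) (nat_lit 0) (XT.nd (nat_lit 78) (nat_lit 76) (nat_lit 0) (XT.lf (nat_lit 0) (nat_lit 605321764386) (nat_lit 152) (nat_lit 31816961811) (nat_lit 0) (nat_lit 135309001699) (nat_lit 7) (nat_lit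 5) (nat_lit 9) (nat_lit 4) (nat_lit 7) (nat_lit 4) (nat_lit 244) (nat_lit 223) (nat_lit 133)) (XT.lf (nat_lit 0) (nat_lit 310541710154) (nat_lit 76) (nat_lit 515586742947) (nat_lit 76) (nat_lit 45573769057) (nat_lit 6) (nat_lit 4) (nat_lit 7) (nat_lit 5) (nat_lit 7) (nat_lit 4) (nat_lit 245) (nat_lit 223) (nat_lit 132))) (XT.nd (nat_lit 78) (nat_lit 76) (nat_lit 0) (XT.lf (nat_lit 0) (nat_lit 90448628757) (nat_lit 152) (nat_lit 281880009729) (nat_lit 76) (nat_lit 613258973668) (nat_lit 5) (nat_lit 5) (nat_lit 7) (nat_lit 5) (nat_lit 6) (nat_lit 4) (nat_lit 246) (nat_lit 223) (nat_lit 131)) (XT.nd (nat_lit 78) (nat_lit 0) (nat_lit 0) (XT.lf (nat_lit 0) (nat_lit 40034536412) (nat_lit 76) (nat_lit 205180777845) (nat_lit 152) (nat_lit 871162645740) (nat_lit 4) (nat_lit 5) (nat_lit 5) (nat_lit 5) (nat_lit 6) (nat_lit 4) (nat_lit 247) (nat_lit 223) (nat_lit 130)) (XT.lf (nat_lit 0) (nat_lit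 427305820463) (nat_lit 76) (nat_lit 4097677890) (nat_lit 152) (nat_lit 834726842339) (nat_lit 4) (nat_lit 5) (nat_lit 5) (nat_lit 5) (nat_lit 6) (nat_lit 4) (nat_lit 248) (nat_lit 223) (nat_lit 129)))))) (XT.nd (nat_lit 390) (nat_lit 0) (nat_lit 0) (XT.nd (nat_lit 156) (nat_lit 76) (nat_lit 0) (XT.nd (nat_lit 78) (nat_lit 0) (nat_lit 0) (XT.lf (nat_lit 0) (nat_lit 650982700543) (nat_lit 152) (nat_lit 571140910817) (nat_lit 0) (nat_lit 215784944184) (nat_lit 4) (nat_lit 5) (nat_lit 6) (nat_lit 4) (nat_lit 4) (nat_lit 4) (nat_lit 249) (nat_lit 223) (nat_lit 128)) (XT.lf (nat_lit 0) (nat_lit 903612008904) (nat_lit 152) (nat_lit 263418280590) (nat_lit 0) (nat_lit 468414155318) (nat_lit 4) (nat_lit 5) (nat_lit 6) (nat_lit 4) (nat_lit 4) (nat_lit 4) (nat_lit 250) (nat_lit 223) (nat_lit 127))) (XT.nd (nat_lit 78) (nat_lit 0) (nat_lit 0) (XT.lf (nat_lit 0) (nat_lit 95226179002) (nat_lit 76) (nat_lit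 1101199634415) (nat_lit 76) (nat_lit 666001696284) (nat_lit 3) (nat_lit 4) (nat_lit 4) (nat_lit 5) (nat_lit 4) (nat_lit 4) (nat_lit 251) (nat_lit 223) (nat_lit 126)) (XT.nd (nat_lit 78) (nat_lit 0) (nat_lit 0) (XT.lf (nat_lit 0) (nat_lit 523618967945) (nat_lit 76) (nat_lit 1017211776860) (nat_lit 76) (nat_lit 582013765211) (nat_lit 3) (nat_lit 4) (nat_lit 4) (nat_lit 5) (nat_lit 4) (nat_lit 4) (nat_lit 252) (nat_lit 223) (nat_lit 125)) (XT.lf (nat_lit 0) (nat_lit 1016270544446) (nat_lit 76) (nat_lit 920625798748) (nat_lit 76) (nat_lit 485427723171) (nat_lit 3) (nat_lit 4) (nat_lit 4) (nat_lit 5) (nat_lit 4) (nat_lit 4) (nat_lit 253) (nat_lit 223) (nat_lit 124))))) (XT.nd (nat_lit 28938) (nat_lit 0) (nat_lit 2204) (XT.nd (nat_lit 78) (nat_lit 0) (nat_lit 0) (XT.lf (nat_lit 0) (nat_lit 1582819743696) (nat_lit 76) (nat_lit 809551974420) (nat_lit 76) (nat_lit 374353843253) (nat_lit 3) (nat_lit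 4) (nat_lit 4) (nat_lit 5) (nat_lit 4) (nat_lit 4) (nat_lit 254) (nat_lit 223) (nat_lit 123)) (XT.lf (nat_lit 0) (nat_lit 2234351223941) (nat_lit 76) (nat_lit 681817120357) (nat_lit 76) (nat_lit 246618940851) (nat_lit 3) (nat_lit 4) (nat_lit 4) (nat_lit 5) (nat_lit 4) (nat_lit 4) (nat_lit 255) (nat_lit 223) (nat_lit 122))) (XT.nd (nat_lit 78) (nat_lit 0) (nat_lit 76) (XT.lf (nat_lit 0) (nat_lit 14272077150) (nat_lit 532) (nat_lit 22290177896) (nat_lit 532) (nat_lit 22290177896) (nat_lit 32) (nat_lit 3) (nat_lit 39) (nat_lit 3) (nat_lit 39) (nat_lit 5) (nat_lit 224) (nat_lit 224) (nat_lit 152)) (XT.nd (nat_lit 78) (nat_lit 0) (nat_lit 0) (XT.lf (nat_lit 0) (nat_lit 32285513117) (nat_lit 456) (nat_lit 77795101095) (nat_lit 532) (nat_lit 16324024466) (nat_lit 33) (nat_lit 5) (nat_lit 39) (nat_lit 5) (nat_lit 40) (nat_lit 5) (nat_lit 225) (nat_lit 224) (nat_lit 151)) (XT.lf (nat_lit 76) (nat_lit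 21174191871) (nat_lit 0) (nat_lit 19275850798) (nat_lit 532) (nat_lit 95650385980) (nat_lit 34) (nat_lit 5) (nat_lit 33) (nat_lit 5) (nat_lit 40) (nat_lit 5) (nat_lit 226) (nat_lit 224) (nat_lit 150))))))) (XT.nd (nat_lit 702) (nat_lit 684) (nat_lit 0) (XT.nd (nat_lit 312) (nat_lit 760) (nat_lit 0) (XT.nd (nat_lit 156) (nat_lit 608) (nat_lit 0) (XT.nd (nat_lit 78) (nat_lit 0) (nat_lit 76) (XT.lf (nat_lit 0) (nat_lit 54209678439) (nat_lit 456) (nat_lit 9477087733) (nat_lit 532) (nat_lit 83214194291) (nat_lit 34) (nat_lit 5) (nat_lit 40) (nat_lit 5) (nat_lit 41) (nat_lit 5) (nat_lit 227) (nat_lit 224) (nat_lit 149)) (XT.lf (nat_lit 0) (nat_lit 74433713714) (nat_lit 456) (nat_lit 42991418313) (nat_lit 76) (nat_lit 41544410203) (nat_lit 35) (nat_lit 5) (nat_lit 41) (nat_lit 5) (nat_lit 36) (nat_lit 5) (nat_lit 228) (nat_lit 224) (nat_lit 148))) (XT.nd (nat_lit 78) (nat_lit 228) (nat_lit 0)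 (XT.lf (nat_lit 0) (nat_lit 90770484019) (nat_lit 456) (nat_lit 11147501761) (nat_lit 532) (nat_lit 70592300623) (nat_lit 29) (nat_lit 5) (nat_lit 35) (nat_lit 5) (nat_lit 36) (nat_lit 5) (nat_lit 229) (nat_lit 224) (nat_lit 147)) (XT.lf (nat_lit 0) (nat_lit 59489379861) (nat_lit 228) (nat_lit 79420877388) (nat_lit 304) (nat_lit 48741061190) (nat_lit 26) (nat_lit 5) (nat_lit 29) (nat_lit 5) (nat_lit 30) (nat_lit 5) (nat_lit 230) (nat_lit 224) (nat_lit 146)))) (XT.nd (nat_lit 156) (nat_lit 532) (nat_lit 0) (XT.nd (nat_lit 78) (nat_lit 76) (nat_lit 0) (XT.lf (nat_lit 0) (nat_lit 21746623307) (nat_lit 152) (nat_lit 163926951998) (nat_lit 228) (nat_lit 19052157789) (nat_lit 24) (nat_lit 5) (nat_lit 26) (nat_lit 5) (nat_lit 27) (nat_lit 5) (nat_lit 231) (nat_lit 224) (nat_lit 145)) (XT.lf (nat_lit 0) (nat_lit 20359353158) (nat_lit 228) (nat_lit 24817439914) (nat_lit 76) (nat_lit 178673555857)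 (nat_lit 23) (nat_lit 5) (nat_lit 26) (nat_lit 5) (nat_lit 24) (nat_lit 5) (nat_lit 232) (nat_lit 224) (nat_lit 144))) (XT.nd (nat_lit 78) (nat_lit 304) (nat_lit 0) (XT.lf (nat_lit 0) (nat_lit 70863504369) (nat_lit 304) (nat_lit 83014930668) (nat_lit 76) (nat_lit 91420915082) (nat_lit 20) (nat_lit 5) (nat_lit 24) (nat_lit 5) (nat_lit 21) (nat_lit 5) (nat_lit 233) (nat_lit 224) (nat_lit 143)) (XT.nd (nat_lit 78) (nat_lit 152) (nat_lit 0) (XT.lf (nat_lit 0) (nat_lit 113452996899) (nat_lit 152) (nat_lit 20209090697) (nat_lit 228) (nat_lit 135926111753) (nat_lit 18) (nat_lit 5) (nat_lit 20) (nat_lit 5) (nat_lit 21) (nat_lit 5) (nat_lit 234) (nat_lit 224) (nat_lit 142)) (XT.lf (nat_lit 0) (nat_lit 46124185196) (nat_lit 152) (nat_lit 166555694883) (nat_lit 228) (nat_lit 84296544407) (nat_lit 16) (nat_lit 5) (nat_lit 18) (nat_lit 5) (nat_lit 19) (nat_lit 5) (nat_lit 235) (nat_lit 224) (nat_lit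 141)))))) (XT.nd (nat_lit 390) (nat_lit 304) (nat_lit 0) (XT.nd (nat_lit 156) (nat_lit 228) (nat_lit 0) (XT.nd (nat_lit 78) (nat_lit 152) (nat_lit 0) (XT.lf (nat_lit 0) (nat_lit 287588599664) (nat_lit 152) (nat_lit 21051813027) (nat_lit 228) (nat_lit 19425266976) (nat_lit 16) (nat_lit 5) (nat_lit 18) (nat_lit 5) (nat_lit 19) (nat_lit 5) (nat_lit 236) (nat_lit 224) (nat_lit 140)) (XT.lf (nat_lit 0) (nat_lit 61166707238) (nat_lit 152) (nat_lit 156325774642) (nat_lit 76) (nat_lit 145519669367) (nat_lit 14) (nat_lit 5) (nat_lit 16) (nat_lit 5) (nat_lit 15) (nat_lit 5) (nat_lit 237) (nat_lit 224) (nat_lit 139))) (XT.nd (nat_lit 78) (nat_lit 76) (nat_lit 0) (XT.lf (nat_lit 0) (nat_lit 93811411326) (nat_lit 152) (nat_lit 62965696672) (nat_lit 228) (nat_lit 246056736918) (nat_lit 12) (nat_lit 5) (nat_lit 14) (nat_lit 5) (nat_lit 15) (nat_lit 5) (nat_lit 238) (nat_lit 224) (nat_lit 138)) (XT.nd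 (nat_lit 78) (nat_lit 76) (nat_lit 0) (XT.lf (nat_lit 0) (nat_lit 274157729034) (nat_lit 228) (nat_lit 60207111649) (nat_lit 76) (nat_lit 113669660339) (nat_lit 12) (nat_lit 5) (nat_lit 15) (nat_lit 5) (nat_lit 13) (nat_lit 4) (nat_lit 239) (nat_lit 224) (nat_lit 137)) (XT.lf (nat_lit 0) (nat_lit 235993979949) (nat_lit 76) (nat_lit 180568327191) (nat_lit 152) (nat_lit 82859600334) (nat_lit 11) (nat_lit 5) (nat_lit 12) (nat_lit 5) (nat_lit 13) (nat_lit 4) (nat_lit 240) (nat_lit 224) (nat_lit 136))))) (XT.nd (nat_lit 156) (nat_lit 76) (nat_lit 0) (XT.nd (nat_lit 78) (nat_lit 0) (nat_lit 0) (XT.lf (nat_lit 0) (nat_lit 22446389385) (nat_lit 152) (nat_lit 610702629) (nat_lit 228) (nat_lit 535231332808) (nat_lit 8) (nat_lit 5) (nat_lit 10) (nat_lit 5) (nat_lit 11) (nat_lit 5) (nat_lit 241) (nat_lit 224) (nat_lit 135)) (XT.lf (nat_lit 0) (nat_lit 152925458598) (nat_lit 228) (nat_lit 265670897373)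 (nat_lit 76) (nat_lit 206178758069) (nat_lit 8) (nat_lit 5) (nat_lit 11) (nat_lit 5) (nat_lit 9) (nat_lit 4) (nat_lit 242) (nat_lit 224) (nat_lit 134))) (XT.nd (nat_lit 78) (nat_lit 0) (nat_lit 0) (XT.lf (nat_lit 0) (nat_lit 47378761812) (nat_lit 76) (nat_lit 256051466737) (nat_lit 152) (nat_lit 397712086857) (nat_lit 7) (nat_lit 5) (nat_lit 8) (nat_lit 5) (nat_lit 9) (nat_lit 4) (nat_lit 243) (nat_lit 224) (nat_lit 133)) (XT.nd (nat_lit 78) (nat_lit 0) (nat_lit 0) (XT.lf (nat_lit 0) (nat_lit 423473784199) (nat_lit 76) (nat_lit 60771468622) (nat_lit 152) (nat_lit 304100581602) (nat_lit 7) (nat_lit 5) (nat_lit 8) (nat_lit 5) (nat_lit 9) (nat_lit 4) (nat_lit 244) (nat_lit 224) (nat_lit 132)) (XT.lf (nat_lit 0) (nat_lit 696121775228) (nat_lit 152) (nat_lit 36586506587) (nat_lit 0) (nat_lit 155606460398) (nat_lit 7) (nat_lit 5) (nat_lit 9) (nat_lit 4) (nat_lit 7) (nat_lit 4) (nat_lit 245)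 (nat_lit 224) (nat_lit 131))))))))
noncomputable def xc54 : XT := (XT.nd (nat_lit 30342) (nat_lit 0) (nat_lit 76) (XT.nd (nat_lit 702) (nat_lit 0) (nat_lit 0) (XT.nd (nat_lit 312) (nat_lit 76) (nat_lit 0) (XT.nd (nat_lit 156) (nat_lit 76) (nat_lit 0) (XT.nd (nat_lit 78) (nat_lit 76) (nat_lit 0) (XT.lf (nat_lit 0) (nat_lit 357125712281) (nat_lit 76) (nat_lit 592923593238) (nat_lit 76) (nat_lit 52408118709) (nat_lit 6) (nat_lit 4) (nat_lit 7) (nat_lit 5) (nat_lit 7) (nat_lit 4) (nat_lit 246) (nat_lit 224) (nat_lit 130)) (XT.lf (nat_lit 0) (nat_lit 104017340357) (nat_lit 152) (nat_lit 324159545454) (nat_lit 76) (nat_lit 705248751161) (nat_lit 5) (nat_lit 5) (nat_lit 7) (nat_lit 5) (nat_lit 6) (nat_lit 4) (nat_lit 247) (nat_lit 224) (nat_lit 129))) (XT.nd (nat_lit 78) (nat_lit 0) (nat_lit 0) (XT.lf (nat_lit 0) (nat_lit 46041973897) (nat_lit 76) (nat_lit 235956924204) (nat_lit 152) (nat_lit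 1001835649811) (nat_lit 4) (nat_lit 5) (nat_lit 5) (nat_lit 5) (nat_lit 6) (nat_lit 4) (nat_lit 248) (nat_lit 224) (nat_lit 128)) (XT.lf (nat_lit 0) (nat_lit 491403656161) (nat_lit 76) (nat_lit 4711485819) (nat_lit 152) (nat_lit 959934657568) (nat_lit 4) (nat_lit 5) (nat_lit 5) (nat_lit 5) (nat_lit 6) (nat_lit 4) (nat_lit 249) (nat_lit 224) (nat_lit 127)))) (XT.nd (nat_lit 156) (nat_lit 76) (nat_lit 0) (XT.nd (nat_lit 78) (nat_lit 0) (nat_lit 0) (XT.lf (nat_lit 0) (nat_lit 748631096204) (nat_lit 152) (nat_lit 656810278236) (nat_lit 0) (nat_lit 248153382808) (nat_lit 4) (nat_lit 5) (nat_lit 6) (nat_lit 4) (nat_lit 4) (nat_lit 4) (nat_lit 250) (nat_lit 224) (nat_lit 126)) (XT.lf (nat_lit 0) (nat_lit 1039154671614) (nat_lit 152) (nat_lit 302929484241) (nat_lit 0) (nat_lit 538676884700) (nat_lit 4) (nat_lit 5) (nat_lit 6) (nat_lit 4) (nat_lit 4) (nat_lit 4) (nat_lit 251) (nat_lit 224) (nat_lit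 125))) (XT.nd (nat_lit 78) (nat_lit 0) (nat_lit 0) (XT.lf (nat_lit 0) (nat_lit 109511514069) (nat_lit 76) (nat_lit 1266378954248) (nat_lit 76) (nat_lit 765901103407) (nat_lit 3) (nat_lit 4) (nat_lit 4) (nat_lit 5) (nat_lit 4) (nat_lit 4) (nat_lit 252) (nat_lit 224) (nat_lit 124)) (XT.nd (nat_lit 78) (nat_lit 0) (nat_lit 0) (XT.lf (nat_lit 0) (nat_lit 602163037674) (nat_lit 76) (nat_lit 1169792999625) (nat_lit 76) (nat_lit 669315093194) (nat_lit 3) (nat_lit 4) (nat_lit 4) (nat_lit 5) (nat_lit 4) (nat_lit 4) (nat_lit 253) (nat_lit 224) (nat_lit 123)) (XT.lf (nat_lit 0) (nat_lit 1168712190927) (nat_lit 76) (nat_lit 1058719195722) (nat_lit 76) (nat_lit 558241240952) (nat_lit 3) (nat_lit 4) (nat_lit 4) (nat_lit 5) (nat_lit 4) (nat_lit 4) (nat_lit 254) (nat_lit 224) (nat_lit 122)))))) (XT.nd (nat_lit 29250) (nat_lit 0) (nat_lit 1520) (XT.nd (nat_lit 29016) (nat_lit 0) (nat_lit 2280) (XT.nd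 (nat_lit 28938) (nat_lit 0) (nat_lit 2204) (XT.lf (nat_lit 0) (nat_lit 1820243631176) (nat_lit 76) (nat_lit 930984359419) (nat_lit 76) (nat_lit 430506362615) (nat_lit 3) (nat_lit 4) (nat_lit 4) (nat_lit 5) (nat_lit 4) (nat_lit 4) (nat_lit 255) (nat_lit 224) (nat_lit 121)) (XT.lf (nat_lit 0) (nat_lit 16420064801) (nat_lit 532) (nat_lit 25629806315) (nat_lit 532) (nat_lit 25629806315) (nat_lit 32) (nat_lit 3) (nat_lit 39) (nat_lit 3) (nat_lit 39) (nat_lit 5) (nat_lit 225) (nat_lit 225) (nat_lit 150))) (XT.nd (nat_lit 78) (nat_lit 0) (nat_lit 0) (XT.lf (nat_lit 0) (nat_lit 37140859215) (nat_lit 456) (nat_lit 89456004249) (nat_lit 532) (nat_lit 18767388850) (nat_lit 33) (nat_lit 5) (nat_lit 39) (nat_lit 5) (nat_lit 40) (nat_lit 5) (nat_lit 226) (nat_lit 225) (nat_lit 149)) (XT.nd (nat_lit 78) (nat_lit 0) (nat_lit 76) (XT.lf (nat_lit 76) (nat_lit 24357974860) (nat_lit 0) (nat_lit 22170644494)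 (nat_lit 532) (nat_lit 109985917852) (nat_lit 34) (nat_lit 5) (nat_lit 33) (nat_lit 5) (nat_lit 40) (nat_lit 5) (nat_lit 227) (nat_lit 225) (nat_lit 148)) (XT.lf (nat_lit 0) (nat_lit 62350685098) (nat_lit 456) (nat_lit 10891092540) (nat_lit 532) (nat_lit 95693501530) (nat_lit 34) (nat_lit 5) (nat_lit 40) (nat_lit 5) (nat_lit 41) (nat_lit 5) (nat_lit 228) (nat_lit 225) (nat_lit 147))))) (XT.nd (nat_lit 156) (nat_lit 456) (nat_lit 0) (XT.nd (nat_lit 78) (nat_lit 456) (nat_lit 0) (XT.lf (nat_lit 0) (nat_lit 85607208334) (nat_lit 456) (nat_lit 49432444033) (nat_lit 76) (nat_lit 47774593173) (nat_lit 35) (nat_lit 5) (nat_lit 41) (nat_lit 5) (nat_lit 36) (nat_lit 5) (nat_lit 229) (nat_lit 225) (nat_lit 146)) (XT.lf (nat_lit 0) (nat_lit 104393092980) (nat_lit 456) (nat_lit 12820096903) (nat_lit 532) (nat_lit 81172992878) (nat_lit 29) (nat_lit 5) (nat_lit 35) (nat_lit 5) (nat_lit 36) (nat_lit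 5) (nat_lit 230) (nat_lit 225) (nat_lit 145))) (XT.nd (nat_lit 78) (nat_lit 228) (nat_lit 0) (XT.lf (nat_lit 0) (nat_lit 68419829821) (nat_lit 228) (nat_lit 91333652735) (nat_lit 304) (nat_lit 56044958622) (nat_lit 26) (nat_lit 5) (nat_lit 29) (nat_lit 5) (nat_lit 30) (nat_lit 5) (nat_lit 231) (nat_lit 225) (nat_lit 144)) (XT.nd (nat_lit 78) (nat_lit 76) (nat_lit 0) (XT.lf (nat_lit 0) (nat_lit 25015582142) (nat_lit 152) (nat_lit 188515018964) (nat_lit 228) (nat_lit 21903477931) (nat_lit 24) (nat_lit 5) (nat_lit 26) (nat_lit 5) (nat_lit 27) (nat_lit 5) (nat_lit 232) (nat_lit 225) (nat_lit 143)) (XT.lf (nat_lit 0) (nat_lit 23418628475) (nat_lit 228) (nat_lit 28533688118) (nat_lit 76) (nat_lit 205475126820) (nat_lit 23) (nat_lit 5) (nat_lit 26) (nat_lit 5) (nat_lit 24) (nat_lit 5) (nat_lit 233) (nat_lit 225) (nat_lit 142))))))) (XT.nd (nat_lit 702) (nat_lit 304) (nat_lit 0) (XT.nd (nat_lit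 312) (nat_lit 608) (nat_lit 0) (XT.nd (nat_lit 156) (nat_lit 152) (nat_lit 0) (XT.nd (nat_lit 78) (nat_lit 152) (nat_lit 0) (XT.lf (nat_lit 0) (nat_lit 81497866268) (nat_lit 304) (nat_lit 95460956595) (nat_lit 76) (nat_lit 105135018467) (nat_lit 20) (nat_lit 5) (nat_lit 24) (nat_lit 5) (nat_lit 21) (nat_lit 5) (nat_lit 234) (nat_lit 225) (nat_lit 141)) (XT.lf (nat_lit 0) (nat_lit 130476634150) (nat_lit 152) (nat_lit 23239108803) (nat_lit 228) (nat_lit 156310317696) (nat_lit 18) (nat_lit 5) (nat_lit 20) (nat_lit 5) (nat_lit 21) (nat_lit 5) (nat_lit 235) (nat_lit 225) (nat_lit 140))) (XT.nd (nat_lit 78) (nat_lit 0) (nat_lit 0) (XT.lf (nat_lit 0) (nat_lit 53048327037) (nat_lit 152) (nat_lit 191537471649) (nat_lit 228) (nat_lit 96936756091) (nat_lit 16) (nat_lit 5) (nat_lit 18) (nat_lit 5) (nat_lit 19) (nat_lit 5) (nat_lit 236) (nat_lit 225) (nat_lit 139)) (XT.lf (nat_lit 0) (nat_lit 330731684450)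 (nat_lit 152) (nat_lit 24208213271) (nat_lit 228) (nat_lit 22335343999) (nat_lit 16) (nat_lit 5) (nat_lit 18) (nat_lit 5) (nat_lit 19) (nat_lit 5) (nat_lit 237) (nat_lit 225) (nat_lit 138)))) (XT.nd (nat_lit 156) (nat_lit 304) (nat_lit 0) (XT.nd (nat_lit 78) (nat_lit 152) (nat_lit 0) (XT.lf (nat_lit 0) (nat_lit 70344924058) (nat_lit 152) (nat_lit 179769834707) (nat_lit 76) (nat_lit 167348945391) (nat_lit 14) (nat_lit 5) (nat_lit 16) (nat_lit 5) (nat_lit 15) (nat_lit 5) (nat_lit 238) (nat_lit 225) (nat_lit 137)) (XT.lf (nat_lit 0) (nat_lit 107887522342) (nat_lit 152) (nat_lit 72409049602) (nat_lit 228) (nat_lit 282962106654) (nat_lit 12) (nat_lit 5) (nat_lit 14) (nat_lit 5) (nat_lit 15) (nat_lit 5) (nat_lit 239) (nat_lit 225) (nat_lit 136))) (XT.nd (nat_lit 78) (nat_lit 304) (nat_lit 0) (XT.lf (nat_lit 0) (nat_lit 315283939571) (nat_lit 228) (nat_lit 69234172953) (nat_lit 76) (nat_lit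 130721349786) (nat_lit 12) (nat_lit 5) (nat_lit 15) (nat_lit 5) (nat_lit 13) (nat_lit 4) (nat_lit 240) (nat_lit 225) (nat_lit 135)) (XT.nd (nat_lit 78) (nat_lit 228) (nat_lit 0) (XT.lf (nat_lit 0) (nat_lit 271396743343) (nat_lit 76) (nat_lit 207652216463) (nat_lit 152) (nat_lit 95286040765) (nat_lit 11) (nat_lit 5) (nat_lit 12) (nat_lit 5) (nat_lit 13) (nat_lit 4) (nat_lit 241) (nat_lit 225) (nat_lit 134)) (XT.lf (nat_lit 0) (nat_lit 25816825510) (nat_lit 152) (nat_lit 700978796) (nat_lit 228) (nat_lit 615513705519) (nat_lit 8) (nat_lit 5) (nat_lit 10) (nat_lit 5) (nat_lit 11) (nat_lit 5) (nat_lit 242) (nat_lit 225) (nat_lit 133)))))) (XT.nd (nat_lit 390) (nat_lit 152) (nat_lit 0) (XT.nd (nat_lit 156) (nat_lit 76) (nat_lit 0) (XT.nd (nat_lit 78) (nat_lit 76) (nat_lit 0) (XT.lf (nat_lit 0) (nat_lit 175866173438) (nat_lit 228) (nat_lit 305518380267) (nat_lit 76) (nat_lit 237106669810) (nat_lit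 8) (nat_lit 5) (nat_lit 11) (nat_lit 5) (nat_lit 9) (nat_lit 4) (nat_lit 243) (nat_lit 225) (nat_lit 132)) (XT.lf (nat_lit 0) (nat_lit 54488461020) (nat_lit 76) (nat_lit 294458019934) (nat_lit 152) (nat_lit 457367039141) (nat_lit 7) (nat_lit 5) (nat_lit 8) (nat_lit 5) (nat_lit 9) (nat_lit 4) (nat_lit 244) (nat_lit 225) (nat_lit 131))) (XT.nd (nat_lit 78) (nat_lit 76) (nat_lit 0) (XT.lf (nat_lit 0) (nat_lit 486997360469) (nat_lit 76) (nat_lit 69886174295) (nat_lit 152) (nat_lit 349714050804) (nat_lit 7) (nat_lit 5) (nat_lit 8) (nat_lit 5) (nat_lit 9) (nat_lit 4) (nat_lit 245) (nat_lit 225) (nat_lit 130)) (XT.nd (nat_lit 78) (nat_lit 76) (nat_lit 0) (XT.lf (nat_lit 0) (nat_lit 800541361879) (nat_lit 152) (nat_lit 42072214525) (nat_lit 0) (nat_lit 178948267601) (nat_lit 7) (nat_lit 5) (nat_lit 9) (nat_lit 4) (nat_lit 7) (nat_lit 4) (nat_lit 246) (nat_lit 225) (nat_lit 129)) (XT.lf (nat_lit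 0) (nat_lit 410696645194) (nat_lit 76) (nat_lit 681861254227) (nat_lit 76) (nat_lit 60268039195) (nat_lit 6) (nat_lit 4) (nat_lit 7) (nat_lit 5) (nat_lit 7) (nat_lit 4) (nat_lit 247) (nat_lit 225) (nat_lit 128))))) (XT.nd (nat_lit 156) (nat_lit 0) (nat_lit 0) (XT.nd (nat_lit 78) (nat_lit 76) (nat_lit 0) (XT.lf (nat_lit 0) (nat_lit 119621013084) (nat_lit 152) (nat_lit 372781612822) (nat_lit 76) (nat_lit 811036768141) (nat_lit 5) (nat_lit 5) (nat_lit 7) (nat_lit 5) (nat_lit 6) (nat_lit 4) (nat_lit 248) (nat_lit 225) (nat_lit 127)) (XT.lf (nat_lit 0) (nat_lit 52949976615) (nat_lit 76) (nat_lit 271349729135) (nat_lit 152) (nat_lit 1152109944133) (nat_lit 4) (nat_lit 5) (nat_lit 5) (nat_lit 5) (nat_lit 6) (nat_lit 4) (nat_lit 249) (nat_lit 225) (nat_lit 126))) (XT.nd (nat_lit 78) (nat_lit 0) (nat_lit 0) (XT.lf (nat_lit 0) (nat_lit 565115688614) (nat_lit 76) (nat_lit 5417570693) (nat_lit 152)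 (nat_lit 1103923940420) (nat_lit 4) (nat_lit 5) (nat_lit 5) (nat_lit 5) (nat_lit 6) (nat_lit 4) (nat_lit 250) (nat_lit 225) (nat_lit 125)) (XT.nd (nat_lit 78) (nat_lit 0) (nat_lit 0) (XT.lf (nat_lit 0) (nat_lit 860926509656) (nat_lit 152) (nat_lit 755330482200) (nat_lit 0) (nat_lit 285376917259) (nat_lit 4) (nat_lit 5) (nat_lit 6) (nat_lit 4) (nat_lit 4) (nat_lit 4) (nat_lit 251) (nat_lit 225) (nat_lit 124)) (XT.lf (nat_lit 0) (nat_lit 1195028523678) (nat_lit 152) (nat_lit 348367743597) (nat_lit 0) (nat_lit 619478875692) (nat_lit 4) (nat_lit 5) (nat_lit 6) (nat_lit 4) (nat_lit 4) (nat_lit 4) (nat_lit 252) (nat_lit 225) (nat_lit 123))))))))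
noncomputable def xc55 : XT := (XT.nd (nat_lit 30420) (nat_lit 0) (nat_lit 0) (XT.nd (nat_lit 29640) (nat_lit 0) (nat_lit 684) (XT.nd (nat_lit 29250) (nat_lit 0) (nat_lit 1976) (XT.nd (nat_lit 156) (nat_lit 0) (nat_lit 0) (XT.nd (nat_lit 78) (nat_lit 0) (nat_lit 0) (XT.lf (nat_lit 0) (nat_lit 125939305993) (nat_lit 76) (nat_lit 1456335324547) (nat_lit 76) (nat_lit 880785628223) (nat_lit 3) (nat_lit 4) (nat_lit 4) (nat_lit 5) (nat_lit 4) (nat_lit 4) (nat_lit 253) (nat_lit 225) (nat_lit 122)) (XT.lf (nat_lit 0) (nat_lit 692488419250) (nat_lit 76) (nat_lit 1345261538405) (nat_lit 76) (nat_lit 769711800046) (nat_lit 3) (nat_lit 4) (nat_lit 4) (nat_lit 5) (nat_lit 4) (nat_lit 4) (nat_lit 254) (nat_lit 225) (nat_lit 121))) (XT.nd (nat_lit 29016) (nat_lit 0) (nat_lit 2204) (XT.lf (nat_lit 0) (nat_lit 1344019824719) (nat_lit 76) (nat_lit 1217526717547) (nat_lit 76) (nat_lit 641976942637) (nat_lit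 3) (nat_lit 4) (nat_lit 4) (nat_lit 5) (nat_lit 4) (nat_lit 4) (nat_lit 255) (nat_lit 225) (nat_lit 120)) (XT.lf (nat_lit 0) (nat_lit 18888500667) (nat_lit 532) (nat_lit 29471329614) (nat_lit 532) (nat_lit 29471329614) (nat_lit 32) (nat_lit 3) (nat_lit 39) (nat_lit 3) (nat_lit 39) (nat_lit 5) (nat_lit 226) (nat_lit 226) (nat_lit 148)))) (XT.nd (nat_lit 156) (nat_lit 304) (nat_lit 0) (XT.nd (nat_lit 78) (nat_lit 0) (nat_lit 0) (XT.lf (nat_lit 0) (nat_lit 42721454358) (nat_lit 456) (nat_lit 102868082006) (nat_lit 532) (nat_lit 21578535524) (nat_lit 33) (nat_lit 5) (nat_lit 39) (nat_lit 5) (nat_lit 40) (nat_lit 5) (nat_lit 227) (nat_lit 226) (nat_lit 147)) (XT.lf (nat_lit 76) (nat_lit 28017458770) (nat_lit 0) (nat_lit 25498824213) (nat_lit 532) (nat_lit 126474712127) (nat_lit 34) (nat_lit 5) (nat_lit 33) (nat_lit 5) (nat_lit 40) (nat_lit 5) (nat_lit 228) (nat_lit 226) (nat_lit 146))) (XT.nd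 (nat_lit 78) (nat_lit 380) (nat_lit 0) (XT.lf (nat_lit 0) (nat_lit 71710512735) (nat_lit 456) (nat_lit 12519041221) (nat_lit 532) (nat_lit 110045392994) (nat_lit 34) (nat_lit 5) (nat_lit 40) (nat_lit 5) (nat_lit 41) (nat_lit 5) (nat_lit 229) (nat_lit 226) (nat_lit 145)) (XT.nd (nat_lit 78) (nat_lit 456) (nat_lit 0) (XT.lf (nat_lit 0) (nat_lit 98454669594) (nat_lit 456) (nat_lit 56841498141) (nat_lit 76) (nat_lit 54939664144) (nat_lit 35) (nat_lit 5) (nat_lit 41) (nat_lit 5) (nat_lit 36) (nat_lit 5) (nat_lit 230) (nat_lit 226) (nat_lit 144)) (XT.lf (nat_lit 0) (nat_lit 120057377425) (nat_lit 456) (nat_lit 14743466734) (nat_lit 532) (nat_lit 93342777092) (nat_lit 29) (nat_lit 5) (nat_lit 35) (nat_lit 5) (nat_lit 36) (nat_lit 5) (nat_lit 231) (nat_lit 226) (nat_lit 143)))))) (XT.nd (nat_lit 390) (nat_lit 456) (nat_lit 0) (XT.nd (nat_lit 156) (nat_lit 456) (nat_lit 0) (XT.nd (nat_lit 78)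 (nat_lit 152) (nat_lit 0) (XT.lf (nat_lit 0) (nat_lit 78688129799) (nat_lit 228) (nat_lit 105033431261) (nat_lit 304) (nat_lit 64446211491) (nat_lit 26) (nat_lit 5) (nat_lit 29) (nat_lit 5) (nat_lit 30) (nat_lit 5) (nat_lit 232) (nat_lit 226) (nat_lit 142)) (XT.lf (nat_lit 0) (nat_lit 28773186261) (nat_lit 152) (nat_lit 216791533938) (nat_lit 228) (nat_lit 25184082020) (nat_lit 24) (nat_lit 5) (nat_lit 26) (nat_lit 5) (nat_lit 27) (nat_lit 5) (nat_lit 233) (nat_lit 226) (nat_lit 141))) (XT.nd (nat_lit 78) (nat_lit 380) (nat_lit 0) (XT.lf (nat_lit 0) (nat_lit 26935485009) (nat_lit 228) (nat_lit 32808926377) (nat_lit 76) (nat_lit 236296802334) (nat_lit 23) (nat_lit 5) (nat_lit 26) (nat_lit 5) (nat_lit 24) (nat_lit 5) (nat_lit 234) (nat_lit 226) (nat_lit 140)) (XT.nd (nat_lit 78) (nat_lit 152) (nat_lit 0) (XT.lf (nat_lit 0) (nat_lit 93726203104) (nat_lit 304) (nat_lit 109775401654) (nat_lit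 76) (nat_lit 120906001765) (nat_lit 20) (nat_lit 5) (nat_lit 24) (nat_lit 5) (nat_lit 21) (nat_lit 5) (nat_lit 235) (nat_lit 226) (nat_lit 139)) (XT.lf (nat_lit 0) (nat_lit 150052430004) (nat_lit 152) (nat_lit 26723957734) (nat_lit 228) (nat_lit 179753303294) (nat_lit 18) (nat_lit 5) (nat_lit 20) (nat_lit 5) (nat_lit 21) (nat_lit 5) (nat_lit 236) (nat_lit 226) (nat_lit 138))))) (XT.nd (nat_lit 156) (nat_lit 304) (nat_lit 0) (XT.nd (nat_lit 78) (nat_lit 0) (nat_lit 0) (XT.lf (nat_lit 0) (nat_lit 61009745514) (nat_lit 152) (nat_lit 220266899605) (nat_lit 228) (nat_lit 111474040788) (nat_lit 16) (nat_lit 5) (nat_lit 18) (nat_lit 5) (nat_lit 19) (nat_lit 5) (nat_lit 237) (nat_lit 226) (nat_lit 137)) (XT.lf (nat_lit 0) (nat_lit 380345062702) (nat_lit 152) (nat_lit 27838408051) (nat_lit 228) (nat_lit 25682838019) (nat_lit 16) (nat_lit 5) (nat_lit 18) (nat_lit 5) (nat_lit 19) (nat_lit 5) (nat_lit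 238) (nat_lit 226) (nat_lit 136))) (XT.nd (nat_lit 78) (nat_lit 152) (nat_lit 0) (XT.lf (nat_lit 0) (nat_lit 80899090443) (nat_lit 152) (nat_lit 206731675786) (nat_lit 76) (nat_lit 192452289557) (nat_lit 14) (nat_lit 5) (nat_lit 16) (nat_lit 5) (nat_lit 15) (nat_lit 5) (nat_lit 239) (nat_lit 226) (nat_lit 135)) (XT.nd (nat_lit 78) (nat_lit 0) (nat_lit 0) (XT.lf (nat_lit 0) (nat_lit 124073977209) (nat_lit 152) (nat_lit 83269271640) (nat_lit 228) (nat_lit 325404047755) (nat_lit 12) (nat_lit 5) (nat_lit 14) (nat_lit 5) (nat_lit 15) (nat_lit 5) (nat_lit 240) (nat_lit 226) (nat_lit 134)) (XT.lf (nat_lit 0) (nat_lit 362578459566) (nat_lit 228) (nat_lit 79616270206) (nat_lit 76) (nat_lit 150330490173) (nat_lit 12) (nat_lit 5) (nat_lit 15) (nat_lit 5) (nat_lit 13) (nat_lit 4) (nat_lit 241) (nat_lit 226) (nat_lit 133))))))) (XT.nd (nat_lit 702) (nat_lit 76) (nat_lit 0) (XT.nd (nat_lit 312) (nat_lit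 228) (nat_lit 0) (XT.nd (nat_lit 156) (nat_lit 76) (nat_lit 0) (XT.nd (nat_lit 78) (nat_lit 228) (nat_lit 0) (XT.lf (nat_lit 0) (nat_lit 312109027172) (nat_lit 76) (nat_lit 238799020723) (nat_lit 152) (nat_lit 109577056808) (nat_lit 11) (nat_lit 5) (nat_lit 12) (nat_lit 5) (nat_lit 13) (nat_lit 4) (nat_lit 242) (nat_lit 226) (nat_lit 132)) (XT.lf (nat_lit 0) (nat_lit 29691978991) (nat_lit 152) (nat_lit 805120529) (nat_lit 228) (nat_lit 707839001642) (nat_lit 8) (nat_lit 5) (nat_lit 10) (nat_lit 5) (nat_lit 11) (nat_lit 5) (nat_lit 243) (nat_lit 226) (nat_lit 131))) (XT.nd (nat_lit 78) (nat_lit 76) (nat_lit 0) (XT.lf (nat_lit 0) (nat_lit 202247533140) (nat_lit 228) (nat_lit 351343754159) (nat_lit 76) (nat_lit 272673500549) (nat_lit 8) (nat_lit 5) (nat_lit 11) (nat_lit 5) (nat_lit 9) (nat_lit 4) (nat_lit 244) (nat_lit 226) (nat_lit 130)) (XT.lf (nat_lit 0) (nat_lit 62663911599) (nat_lit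 76) (nat_lit 338625840645) (nat_lit 152) (nat_lit 525970688022) (nat_lit 7) (nat_lit 5) (nat_lit 8) (nat_lit 5) (nat_lit 9) (nat_lit 4) (nat_lit 245) (nat_lit 226) (nat_lit 129)))) (XT.nd (nat_lit 156) (nat_lit 228) (nat_lit 0) (XT.nd (nat_lit 78) (nat_lit 0) (nat_lit 0) (XT.lf (nat_lit 0) (nat_lit 560048861431) (nat_lit 76) (nat_lit 80368333240) (nat_lit 152) (nat_lit 402169934955) (nat_lit 7) (nat_lit 5) (nat_lit 8) (nat_lit 5) (nat_lit 9) (nat_lit 4) (nat_lit 246) (nat_lit 226) (nat_lit 128)) (XT.lf (nat_lit 0) (nat_lit 920623564547) (nat_lit 152) (nat_lit 48381331733) (nat_lit 0) (nat_lit 205791141499) (nat_lit 7) (nat_lit 5) (nat_lit 9) (nat_lit 4) (nat_lit 7) (nat_lit 4) (nat_lit 247) (nat_lit 226) (nat_lit 127))) (XT.nd (nat_lit 78) (nat_lit 152) (nat_lit 0) (XT.lf (nat_lit 0) (nat_lit 472302711781) (nat_lit 76) (nat_lit 784139778470) (nat_lit 76) (nat_lit 69307264113) (nat_lit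 6) (nat_lit 4) (nat_lit 7) (nat_lit 5) (nat_lit 7) (nat_lit 4) (nat_lit 248) (nat_lit 226) (nat_lit 126)) (XT.nd (nat_lit 78) (nat_lit 76) (nat_lit 0) (XT.lf (nat_lit 0) (nat_lit 137564975385) (nat_lit 152) (nat_lit 428697444954) (nat_lit 76) (nat_lit 932692815917) (nat_lit 5) (nat_lit 5) (nat_lit 7) (nat_lit 5) (nat_lit 6) (nat_lit 4) (nat_lit 249) (nat_lit 226) (nat_lit 125)) (XT.lf (nat_lit 0) (nat_lit 60893763567) (nat_lit 76) (nat_lit 312051633723) (nat_lit 152) (nat_lit 1324925639420) (nat_lit 4) (nat_lit 5) (nat_lit 5) (nat_lit 5) (nat_lit 6) (nat_lit 4) (nat_lit 250) (nat_lit 226) (nat_lit 124)))))) (XT.nd (nat_lit 29406) (nat_lit 0) (nat_lit 2204) (XT.nd (nat_lit 156) (nat_lit 76) (nat_lit 0) (XT.nd (nat_lit 78) (nat_lit 0) (nat_lit 0) (XT.lf (nat_lit 0) (nat_lit 649884164045) (nat_lit 76) (nat_lit 6229723877) (nat_lit 152) (nat_lit 1269511839021) (nat_lit 4) (nat_lit 5) (nat_lit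 5) (nat_lit 5) (nat_lit 6) (nat_lit 4) (nat_lit 251) (nat_lit 226) (nat_lit 123)) (XT.lf (nat_lit 0) (nat_lit 990066052471) (nat_lit 152) (nat_lit 868629042982) (nat_lit 0) (nat_lit 328183853359) (nat_lit 4) (nat_lit 5) (nat_lit 6) (nat_lit 4) (nat_lit 4) (nat_lit 4) (nat_lit 252) (nat_lit 226) (nat_lit 122))) (XT.nd (nat_lit 78) (nat_lit 76) (nat_lit 0) (XT.lf (nat_lit 0) (nat_lit 1374283294722) (nat_lit 152) (nat_lit 400622025530) (nat_lit 0) (nat_lit 712401053576) (nat_lit 4) (nat_lit 5) (nat_lit 6) (nat_lit 4) (nat_lit 4) (nat_lit 4) (nat_lit 253) (nat_lit 226) (nat_lit 121)) (XT.nd (nat_lit 78) (nat_lit 0) (nat_lit 0) (XT.lf (nat_lit 0) (nat_lit 144831007045) (nat_lit 76) (nat_lit 1674785265696) (nat_lit 76) (nat_lit 1012902987998) (nat_lit 3) (nat_lit 4) (nat_lit 4) (nat_lit 5) (nat_lit 4) (nat_lit 4) (nat_lit 254) (nat_lit 226) (nat_lit 120)) (XT.lf (nat_lit 0) (nat_lit 796362382270)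 (nat_lit 76) (nat_lit 1547050458267) (nat_lit 76) (nat_lit 885168148786) (nat_lit 3) (nat_lit 4) (nat_lit 4) (nat_lit 5) (nat_lit 4) (nat_lit 4) (nat_lit 255) (nat_lit 226) (nat_lit 119))))) (XT.nd (nat_lit 156) (nat_lit 0) (nat_lit 76) (XT.nd (nat_lit 78) (nat_lit 0) (nat_lit 76) (XT.lf (nat_lit 0) (nat_lit 21725878713) (nat_lit 532) (nat_lit 33889800211) (nat_lit 532) (nat_lit 33889800211) (nat_lit 32) (nat_lit 3) (nat_lit 39) (nat_lit 3) (nat_lit 39) (nat_lit 5) (nat_lit 227) (nat_lit 227) (nat_lit 146)) (XT.lf (nat_lit 0) (nat_lit 49136830366) (nat_lit 456) (nat_lit 118293513300) (nat_lit 532) (nat_lit 24812320273) (nat_lit 33) (nat_lit 5) (nat_lit 39) (nat_lit 5) (nat_lit 40) (nat_lit 5) (nat_lit 228) (nat_lit 227) (nat_lit 145))) (XT.nd (nat_lit 78) (nat_lit 0) (nat_lit 76) (XT.lf (nat_lit 76) (nat_lit 32224453903) (nat_lit 0) (nat_lit 29325600998) (nat_lit 532) (nat_lit 145439043027)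 (nat_lit 34) (nat_lit 5) (nat_lit 33) (nat_lit 5) (nat_lit 40) (nat_lit 5) (nat_lit 229) (nat_lit 227) (nat_lit 144)) (XT.nd (nat_lit 78) (nat_lit 0) (nat_lit 76) (XT.lf (nat_lit 0) (nat_lit 82472552687) (nat_lit 456) (nat_lit 14392575892) (nat_lit 532) (nat_lit 126550588510) (nat_lit 34) (nat_lit 5) (nat_lit 40) (nat_lit 5) (nat_lit 41) (nat_lit 5) (nat_lit 230) (nat_lit 227) (nat_lit 143)) (XT.lf (nat_lit 0) (nat_lit 113227694237) (nat_lit 456) (nat_lit 65363327780) (nat_lit 76) (nat_lit 63179768394) (nat_lit 35) (nat_lit 5) (nat_lit 41) (nat_lit 5) (nat_lit 36) (nat_lit 5) (nat_lit 231) (nat_lit 227) (nat_lit 142))))))))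
noncomputable def xc56 : XT := (XT.nd (nat_lit 1404) (nat_lit 152) (nat_lit 0) (XT.nd (nat_lit 702) (nat_lit 608) (nat_lit 0) (XT.nd (nat_lit 312) (nat_lit 684) (nat_lit 0) (XT.nd (nat_lit 156) (nat_lit 228) (nat_lit 0) (XT.nd (nat_lit 78) (nat_lit 228) (nat_lit 0) (XT.lf (nat_lit 0) (nat_lit 138070007099) (nat_lit 456) (nat_lit 16955255398) (nat_lit 532) (nat_lit 107339532244) (nat_lit 29) (nat_lit 5) (nat_lit 35) (nat_lit 5) (nat_lit 36) (nat_lit 5) (nat_lit 232) (nat_lit 227) (nat_lit 141)) (XT.lf (nat_lit 0) (nat_lit 90495376116) (nat_lit 228) (nat_lit 120788242256) (nat_lit 304) (nat_lit 74108991288) (nat_lit 26) (nat_lit 5) (nat_lit 29) (nat_lit 5) (nat_lit 30) (nat_lit 5) (nat_lit 233) (nat_lit 227) (nat_lit 140))) (XT.nd (nat_lit 78) (nat_lit 76) (nat_lit 0) (XT.lf (nat_lit 0) (nat_lit 33093146655) (nat_lit 152) (nat_lit 249309706093) (nat_lit 228) (nat_lit 28957975910) (nat_lit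 24) (nat_lit 5) (nat_lit 26) (nat_lit 5) (nat_lit 27) (nat_lit 5) (nat_lit 234) (nat_lit 227) (nat_lit 139)) (XT.lf (nat_lit 0) (nat_lit 30978879415) (nat_lit 228) (nat_lit 37726624533) (nat_lit 76) (nat_lit 271741630049) (nat_lit 23) (nat_lit 5) (nat_lit 26) (nat_lit 5) (nat_lit 24) (nat_lit 5) (nat_lit 235) (nat_lit 227) (nat_lit 138)))) (XT.nd (nat_lit 156) (nat_lit 304) (nat_lit 0) (XT.nd (nat_lit 78) (nat_lit 152) (nat_lit 0) (XT.lf (nat_lit 0) (nat_lit 107787898707) (nat_lit 304) (nat_lit 126238159215) (nat_lit 76) (nat_lit 139042454414) (nat_lit 20) (nat_lit 5) (nat_lit 24) (nat_lit 5) (nat_lit 21) (nat_lit 5) (nat_lit 236) (nat_lit 227) (nat_lit 137)) (XT.lf (nat_lit 0) (nat_lit 172563546475) (nat_lit 152) (nat_lit 30731782101) (nat_lit 228) (nat_lit 206713605361) (nat_lit 18) (nat_lit 5) (nat_lit 20) (nat_lit 5) (nat_lit 21) (nat_lit 5) (nat_lit 237) (nat_lit 227) (nat_lit 136)))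 (XT.nd (nat_lit 78) (nat_lit 152) (nat_lit 0) (XT.lf (nat_lit 0) (nat_lit 70164360024) (nat_lit 152) (nat_lit 253306032625) (nat_lit 228) (nat_lit 128192705533) (nat_lit 16) (nat_lit 5) (nat_lit 18) (nat_lit 5) (nat_lit 19) (nat_lit 5) (nat_lit 238) (nat_lit 227) (nat_lit 135)) (XT.nd (nat_lit 78) (nat_lit 152) (nat_lit 0) (XT.lf (nat_lit 0) (nat_lit 437399563570) (nat_lit 152) (nat_lit 32013384979) (nat_lit 228) (nat_lit 29533140789) (nat_lit 16) (nat_lit 5) (nat_lit 18) (nat_lit 5) (nat_lit 19) (nat_lit 5) (nat_lit 239) (nat_lit 227) (nat_lit 134)) (XT.lf (nat_lit 0) (nat_lit 93035789757) (nat_lit 152) (nat_lit 237738679233) (nat_lit 76) (nat_lit 221320890917) (nat_lit 14) (nat_lit 5) (nat_lit 16) (nat_lit 5) (nat_lit 15) (nat_lit 5) (nat_lit 240) (nat_lit 227) (nat_lit 133)))))) (XT.nd (nat_lit 312) (nat_lit 152) (nat_lit 0) (XT.nd (nat_lit 156) (nat_lit 304) (nat_lit 0) (XT.nd (nat_lit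 78) (nat_lit 0) (nat_lit 0) (XT.lf (nat_lit 0) (nat_lit 142687589114) (nat_lit 152) (nat_lit 95758803858) (nat_lit 228) (nat_lit 374212859155) (nat_lit 12) (nat_lit 5) (nat_lit 14) (nat_lit 5) (nat_lit 15) (nat_lit 5) (nat_lit 241) (nat_lit 227) (nat_lit 132)) (XT.lf (nat_lit 0) (nat_lit 416966687148) (nat_lit 228) (nat_lit 91556420612) (nat_lit 76) (nat_lit 172880772899) (nat_lit 12) (nat_lit 5) (nat_lit 15) (nat_lit 5) (nat_lit 13) (nat_lit 4) (nat_lit 242) (nat_lit 227) (nat_lit 131))) (XT.nd (nat_lit 78) (nat_lit 228) (nat_lit 0) (XT.lf (nat_lit 0) (nat_lit 358927477525) (nat_lit 76) (nat_lit 274618096358) (nat_lit 152) (nat_lit 126012186164) (nat_lit 11) (nat_lit 5) (nat_lit 12) (nat_lit 5) (nat_lit 13) (nat_lit 4) (nat_lit 243) (nat_lit 227) (nat_lit 130)) (XT.lf (nat_lit 0) (nat_lit 34147764236) (nat_lit 152) (nat_lit 925128618) (nat_lit 228) (nat_lit 814013521299) (nat_lit 8)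 (nat_lit 5) (nat_lit 10) (nat_lit 5) (nat_lit 11) (nat_lit 5) (nat_lit 244) (nat_lit 227) (nat_lit 129)))) (XT.nd (nat_lit 156) (nat_lit 76) (nat_lit 0) (XT.nd (nat_lit 78) (nat_lit 76) (nat_lit 0) (XT.lf (nat_lit 0) (nat_lit 232585747184) (nat_lit 228) (nat_lit 404043515281) (nat_lit 76) (nat_lit 313575153434) (nat_lit 8) (nat_lit 5) (nat_lit 11) (nat_lit 5) (nat_lit 9) (nat_lit 4) (nat_lit 245) (nat_lit 227) (nat_lit 128)) (XT.lf (nat_lit 0) (nat_lit 72065147810) (nat_lit 76) (nat_lit 389419049613) (nat_lit 152) (nat_lit 604865227339) (nat_lit 7) (nat_lit 5) (nat_lit 8) (nat_lit 5) (nat_lit 9) (nat_lit 4) (nat_lit 246) (nat_lit 227) (nat_lit 127))) (XT.nd (nat_lit 78) (nat_lit 76) (nat_lit 0) (XT.lf (nat_lit 0) (nat_lit 644057624969) (nat_lit 76) (nat_lit 92423003114) (nat_lit 152) (nat_lit 462494500079) (nat_lit 7) (nat_lit 5) (nat_lit 8) (nat_lit 5) (nat_lit 9) (nat_lit 4) (nat_lit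 247) (nat_lit 227) (nat_lit 126)) (XT.nd (nat_lit 78) (nat_lit 76) (nat_lit 0) (XT.lf (nat_lit 0) (nat_lit 1058717854153) (nat_lit 152) (nat_lit 55637234728) (nat_lit 0) (nat_lit 236660291935) (nat_lit 7) (nat_lit 5) (nat_lit 9) (nat_lit 4) (nat_lit 7) (nat_lit 4) (nat_lit 248) (nat_lit 227) (nat_lit 125)) (XT.lf (nat_lit 0) (nat_lit 543149305549) (nat_lit 76) (nat_lit 901760243243) (nat_lit 76) (nat_lit 79702611982) (nat_lit 6) (nat_lit 4) (nat_lit 7) (nat_lit 5) (nat_lit 7) (nat_lit 4) (nat_lit 249) (nat_lit 227) (nat_lit 124))))))) (XT.nd (nat_lit 29874) (nat_lit 0) (nat_lit 760) (XT.nd (nat_lit 312) (nat_lit 0) (nat_lit 0) (XT.nd (nat_lit 156) (nat_lit 0) (nat_lit 0) (XT.nd (nat_lit 78) (nat_lit 76) (nat_lit 0) (XT.lf (nat_lit 0) (nat_lit 158200334425) (nat_lit 152) (nat_lit 493000995692) (nat_lit 76) (nat_lit 1072597140993) (nat_lit 5) (nat_lit 5) (nat_lit 7) (nat_lit 5) (nat_lit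 6) (nat_lit 4) (nat_lit 250) (nat_lit 227) (nat_lit 123)) (XT.lf (nat_lit 0) (nat_lit 70028803875) (nat_lit 76) (nat_lit 358858959287) (nat_lit 152) (nat_lit 1523663883191) (nat_lit 4) (nat_lit 5) (nat_lit 5) (nat_lit 5) (nat_lit 6) (nat_lit 4) (nat_lit 251) (nat_lit 227) (nat_lit 122))) (XT.nd (nat_lit 78) (nat_lit 0) (nat_lit 0) (XT.lf (nat_lit 0) (nat_lit 747367637150) (nat_lit 76) (nat_lit 7163817681) (nat_lit 152) (nat_lit 1459938091272) (nat_lit 4) (nat_lit 5) (nat_lit 5) (nat_lit 5) (nat_lit 6) (nat_lit 4) (nat_lit 252) (nat_lit 227) (nat_lit 121)) (XT.lf (nat_lit 0) (nat_lit 1138576388596) (nat_lit 152) (nat_lit 998922634554) (nat_lit 0) (nat_lit 377411732693) (nat_lit 4) (nat_lit 5) (nat_lit 6) (nat_lit 4) (nat_lit 4) (nat_lit 4) (nat_lit 253) (nat_lit 227) (nat_lit 120)))) (XT.nd (nat_lit 29328) (nat_lit 0) (nat_lit 2204) (XT.nd (nat_lit 29250) (nat_lit 0) (nat_lit 2128) (XT.lf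 (nat_lit 0) (nat_lit 1580426161326) (nat_lit 152) (nat_lit 460714664250) (nat_lit 0) (nat_lit 819261473640) (nat_lit 4) (nat_lit 5) (nat_lit 6) (nat_lit 4) (nat_lit 4) (nat_lit 4) (nat_lit 254) (nat_lit 227) (nat_lit 119)) (XT.lf (nat_lit 0) (nat_lit 24987862936) (nat_lit 532) (nat_lit 38971584915) (nat_lit 532) (nat_lit 38971584915) (nat_lit 32) (nat_lit 3) (nat_lit 39) (nat_lit 3) (nat_lit 39) (nat_lit 5) (nat_lit 228) (nat_lit 228) (nat_lit 144))) (XT.nd (nat_lit 78) (nat_lit 0) (nat_lit 0) (XT.lf (nat_lit 0) (nat_lit 56512767286) (nat_lit 456) (nat_lit 136033925167) (nat_lit 532) (nat_lit 28531903226) (nat_lit 33) (nat_lit 5) (nat_lit 39) (nat_lit 5) (nat_lit 40) (nat_lit 5) (nat_lit 229) (nat_lit 228) (nat_lit 143)) (XT.nd (nat_lit 78) (nat_lit 0) (nat_lit 76) (XT.lf (nat_lit 76) (nat_lit 37061431114) (nat_lit 0) (nat_lit 33725918012) (nat_lit 532) (nat_lit 167249700299) (nat_lit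 34) (nat_lit 5) (nat_lit 33) (nat_lit 5) (nat_lit 40) (nat_lit 5) (nat_lit 230) (nat_lit 228) (nat_lit 142)) (XT.lf (nat_lit 0) (nat_lit 94847566435) (nat_lit 456) (nat_lit 16548194591) (nat_lit 532) (nat_lit 145531956799) (nat_lit 34) (nat_lit 5) (nat_lit 40) (nat_lit 5) (nat_lit 41) (nat_lit 5) (nat_lit 231) (nat_lit 228) (nat_lit 141)))))) (XT.nd (nat_lit 390) (nat_lit 684) (nat_lit 0) (XT.nd (nat_lit 156) (nat_lit 456) (nat_lit 0) (XT.nd (nat_lit 78) (nat_lit 456) (nat_lit 0) (XT.lf (nat_lit 0) (nat_lit 130215496164) (nat_lit 456) (nat_lit 75164503634) (nat_lit 76) (nat_lit 72656094430) (nat_lit 35) (nat_lit 5) (nat_lit 41) (nat_lit 5) (nat_lit 36) (nat_lit 5) (nat_lit 232) (nat_lit 228) (nat_lit 140)) (XT.lf (nat_lit 0) (nat_lit 158783550176) (nat_lit 456) (nat_lit 19498746849) (nat_lit 532) (nat_lit 123436937384) (nat_lit 29) (nat_lit 5) (nat_lit 35) (nat_lit 5) (nat_lit 36) (nat_lit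 5) (nat_lit 233) (nat_lit 228) (nat_lit 139))) (XT.nd (nat_lit 78) (nat_lit 228) (nat_lit 0) (XT.lf (nat_lit 0) (nat_lit 104072727409) (nat_lit 228) (nat_lit 138906324573) (nat_lit 304) (nat_lit 85222200527) (nat_lit 26) (nat_lit 5) (nat_lit 29) (nat_lit 5) (nat_lit 30) (nat_lit 5) (nat_lit 234) (nat_lit 228) (nat_lit 138)) (XT.nd (nat_lit 78) (nat_lit 76) (nat_lit 0) (XT.lf (nat_lit 0) (nat_lit 38060129962) (nat_lit 152) (nat_lit 286705740127) (nat_lit 228) (nat_lit 33298860642) (nat_lit 24) (nat_lit 5) (nat_lit 26) (nat_lit 5) (nat_lit 27) (nat_lit 5) (nat_lit 235) (nat_lit 228) (nat_lit 137)) (XT.lf (nat_lit 0) (nat_lit 35628033939) (nat_lit 228) (nat_lit 43382865244) (nat_lit 76) (nat_lit 312503106969) (nat_lit 23) (nat_lit 5) (nat_lit 26) (nat_lit 5) (nat_lit 24) (nat_lit 5) (nat_lit 236) (nat_lit 228) (nat_lit 136))))) (XT.nd (nat_lit 156) (nat_lit 304) (nat_lit 0) (XT.nd (nat_lit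 78) (nat_lit 152) (nat_lit 0) (XT.lf (nat_lit 0) (nat_lit 123958174355) (nat_lit 304) (nat_lit 145171196755) (nat_lit 76) (nat_lit 159899240257) (nat_lit 20) (nat_lit 5) (nat_lit 24) (nat_lit 5) (nat_lit 21) (nat_lit 5) (nat_lit 237) (nat_lit 228) (nat_lit 135)) (XT.lf (nat_lit 0) (nat_lit 198450537404) (nat_lit 152) (nat_lit 35340967721) (nat_lit 228) (nat_lit 237718609548) (nat_lit 18) (nat_lit 5) (nat_lit 20) (nat_lit 5) (nat_lit 21) (nat_lit 5) (nat_lit 238) (nat_lit 228) (nat_lit 134))) (XT.nd (nat_lit 78) (nat_lit 152) (nat_lit 0) (XT.lf (nat_lit 0) (nat_lit 80691397908) (nat_lit 152) (nat_lit 291301255536) (nat_lit 228) (nat_lit 147419765334) (nat_lit 16) (nat_lit 5) (nat_lit 18) (nat_lit 5) (nat_lit 19) (nat_lit 5) (nat_lit 239) (nat_lit 228) (nat_lit 133)) (XT.nd (nat_lit 78) (nat_lit 152) (nat_lit 0) (XT.lf (nat_lit 0) (nat_lit 503011571045) (nat_lit 152) (nat_lit 36814799698)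 (nat_lit 228) (nat_lit 33961506664) (nat_lit 16) (nat_lit 5) (nat_lit 18) (nat_lit 5) (nat_lit 19) (nat_lit 5) (nat_lit 240) (nat_lit 228) (nat_lit 132)) (XT.lf (nat_lit 0) (nat_lit 106992546310) (nat_lit 152) (nat_lit 273397403294) (nat_lit 76) (nat_lit 254519597656) (nat_lit 14) (nat_lit 5) (nat_lit 16) (nat_lit 5) (nat_lit 15) (nat_lit 5) (nat_lit 241) (nat_lit 228) (nat_lit 131))))))))
noncomputable def xc57 : XT := (XT.nd (nat_lit 30732) (nat_lit 0) (nat_lit 0) (XT.nd (nat_lit 702) (nat_lit 152) (nat_lit 0) (XT.nd (nat_lit 312) (nat_lit 152) (nat_lit 0) (XT.nd (nat_lit 156) (nat_lit 304) (nat_lit 0) (XT.nd (nat_lit 78) (nat_lit 0) (nat_lit 0) (XT.lf (nat_lit 0) (nat_lit 164092629427) (nat_lit 152) (nat_lit 110121975266) (nat_lit 228) (nat_lit 430343430173) (nat_lit 12) (nat_lit 5) (nat_lit 14) (nat_lit 5) (nat_lit 15) (nat_lit 5) (nat_lit 242) (nat_lit 228) (nat_lit 130)) (XT.lf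 (nat_lit 0) (nat_lit 479512793166) (nat_lit 228) (nat_lit 105288152040) (nat_lit 76) (nat_lit 198813425092) (nat_lit 12) (nat_lit 5) (nat_lit 15) (nat_lit 5) (nat_lit 13) (nat_lit 4) (nat_lit 243) (nat_lit 228) (nat_lit 129))) (XT.nd (nat_lit 78) (nat_lit 228) (nat_lit 0) (XT.lf (nat_lit 0) (nat_lit 412768184241) (nat_lit 76) (nat_lit 315810222930) (nat_lit 152) (nat_lit 144912933434) (nat_lit 11) (nat_lit 5) (nat_lit 12) (nat_lit 5) (nat_lit 13) (nat_lit 4) (nat_lit 244) (nat_lit 228) (nat_lit 128)) (XT.lf (nat_lit 0) (nat_lit 39271432385) (nat_lit 152) (nat_lit 1063323249) (nat_lit 228) (nat_lit 936114543376) (nat_lit 8) (nat_lit 5) (nat_lit 10) (nat_lit 5) (nat_lit 11) (nat_lit 5) (nat_lit 245) (nat_lit 228) (nat_lit 127)))) (XT.nd (nat_lit 156) (nat_lit 76) (nat_lit 0) (XT.nd (nat_lit 78) (nat_lit 76) (nat_lit 0) (XT.lf (nat_lit 0) (nat_lit 267474428977) (nat_lit 228) (nat_lit 464648680001)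 (nat_lit 76) (nat_lit 360611901157) (nat_lit 8) (nat_lit 5) (nat_lit 11) (nat_lit 5) (nat_lit 9) (nat_lit 4) (nat_lit 246) (nat_lit 228) (nat_lit 126)) (XT.lf (nat_lit 0) (nat_lit 82876167219) (nat_lit 76) (nat_lit 447831402609) (nat_lit 152) (nat_lit 695594206988) (nat_lit 7) (nat_lit 5) (nat_lit 8) (nat_lit 5) (nat_lit 9) (nat_lit 4) (nat_lit 247) (nat_lit 228) (nat_lit 125))) (XT.nd (nat_lit 78) (nat_lit 76) (nat_lit 0) (XT.lf (nat_lit 0) (nat_lit 740667353269) (nat_lit 76) (nat_lit 106286014933) (nat_lit 152) (nat_lit 531867975568) (nat_lit 7) (nat_lit 5) (nat_lit 8) (nat_lit 5) (nat_lit 9) (nat_lit 4) (nat_lit 248) (nat_lit 228) (nat_lit 124)) (XT.nd (nat_lit 78) (nat_lit 76) (nat_lit 0) (XT.lf (nat_lit 0) (nat_lit 1217526103107) (nat_lit 152) (nat_lit 63981839396) (nat_lit 0) (nat_lit 272159698077) (nat_lit 7) (nat_lit 5) (nat_lit 9) (nat_lit 4) (nat_lit 7) (nat_lit 4) (nat_lit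 249) (nat_lit 228) (nat_lit 123)) (XT.lf (nat_lit 0) (nat_lit 624622598924) (nat_lit 76) (nat_lit 1037023900147) (nat_lit 76) (nat_lit 91657442912) (nat_lit 6) (nat_lit 4) (nat_lit 7) (nat_lit 5) (nat_lit 7) (nat_lit 4) (nat_lit 250) (nat_lit 228) (nat_lit 122)))))) (XT.nd (nat_lit 29640) (nat_lit 0) (nat_lit 1900) (XT.nd (nat_lit 156) (nat_lit 0) (nat_lit 0) (XT.nd (nat_lit 78) (nat_lit 76) (nat_lit 0) (XT.lf (nat_lit 0) (nat_lit 181930847903) (nat_lit 152) (nat_lit 566950338993) (nat_lit 76) (nat_lit 1233487016633) (nat_lit 5) (nat_lit 5) (nat_lit 7) (nat_lit 5) (nat_lit 6) (nat_lit 4) (nat_lit 251) (nat_lit 228) (nat_lit 121)) (XT.lf (nat_lit 0) (nat_lit 80533862281) (nat_lit 76) (nat_lit 412687485982) (nat_lit 152) (nat_lit 1752213010365) (nat_lit 4) (nat_lit 5) (nat_lit 5) (nat_lit 5) (nat_lit 6) (nat_lit 4) (nat_lit 252) (nat_lit 228) (nat_lit 120))) (XT.nd (nat_lit 78) (nat_lit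 0) (nat_lit 0) (XT.lf (nat_lit 0) (nat_lit 859473424309) (nat_lit 76) (nat_lit 8238114508) (nat_lit 152) (nat_lit 1678928409045) (nat_lit 4) (nat_lit 5) (nat_lit 5) (nat_lit 5) (nat_lit 6) (nat_lit 4) (nat_lit 253) (nat_lit 228) (nat_lit 119)) (XT.nd (nat_lit 29328) (nat_lit 0) (nat_lit 2128) (XT.lf (nat_lit 0) (nat_lit 1309363170708) (nat_lit 152) (nat_lit 1148760451381) (nat_lit 0) (nat_lit 434023720447) (nat_lit 4) (nat_lit 5) (nat_lit 6) (nat_lit 4) (nat_lit 4) (nat_lit 4) (nat_lit 254) (nat_lit 228) (nat_lit 118)) (XT.lf (nat_lit 0) (nat_lit 28738388249) (nat_lit 532) (nat_lit 44816048303) (nat_lit 532) (nat_lit 44816048303) (nat_lit 32) (nat_lit 3) (nat_lit 39) (nat_lit 3) (nat_lit 39) (nat_lit 5) (nat_lit 229) (nat_lit 229) (nat_lit 142))))) (XT.nd (nat_lit 156) (nat_lit 304) (nat_lit 0) (XT.nd (nat_lit 78) (nat_lit 0) (nat_lit 0) (XT.lf (nat_lit 0) (nat_lit 64993774905) (nat_lit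 456) (nat_lit 156436280386) (nat_lit 532) (nat_lit 32809975978) (nat_lit 33) (nat_lit 5) (nat_lit 39) (nat_lit 5) (nat_lit 40) (nat_lit 5) (nat_lit 230) (nat_lit 229) (nat_lit 141)) (XT.lf (nat_lit 76) (nat_lit 42623147955) (nat_lit 0) (nat_lit 38785922435) (nat_lit 532) (nat_lit 192333224015) (nat_lit 34) (nat_lit 5) (nat_lit 33) (nat_lit 5) (nat_lit 40) (nat_lit 5) (nat_lit 231) (nat_lit 229) (nat_lit 140))) (XT.nd (nat_lit 78) (nat_lit 380) (nat_lit 0) (XT.lf (nat_lit 0) (nat_lit 109077824912) (nat_lit 456) (nat_lit 19027952941) (nat_lit 532) (nat_lit 167360827834) (nat_lit 34) (nat_lit 5) (nat_lit 40) (nat_lit 5) (nat_lit 41) (nat_lit 5) (nat_lit 232) (nat_lit 229) (nat_lit 139)) (XT.nd (nat_lit 78) (nat_lit 456) (nat_lit 0) (XT.lf (nat_lit 0) (nat_lit 149750578843) (nat_lit 456) (nat_lit 86436666276) (nat_lit 76) (nat_lit 83554025250) (nat_lit 35) (nat_lit 5) (nat_lit 41) (nat_lit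 5) (nat_lit 36) (nat_lit 5) (nat_lit 233) (nat_lit 229) (nat_lit 138)) (XT.lf (nat_lit 0) (nat_lit 182603382900) (nat_lit 456) (nat_lit 22423712480) (nat_lit 532) (nat_lit 141949812814) (nat_lit 29) (nat_lit 5) (nat_lit 35) (nat_lit 5) (nat_lit 36) (nat_lit 5) (nat_lit 234) (nat_lit 229) (nat_lit 137))))))) (XT.nd (nat_lit 702) (nat_lit 608) (nat_lit 0) (XT.nd (nat_lit 312) (nat_lit 608) (nat_lit 0) (XT.nd (nat_lit 156) (nat_lit 304) (nat_lit 0) (XT.nd (nat_lit 78) (nat_lit 152) (nat_lit 0) (XT.lf (nat_lit 0) (nat_lit 119685938883) (nat_lit 228) (nat_lit 159742156797) (nat_lit 304) (nat_lit 98003156729) (nat_lit 26) (nat_lit 5) (nat_lit 29) (nat_lit 5) (nat_lit 30) (nat_lit 5) (nat_lit 235) (nat_lit 229) (nat_lit 136)) (XT.lf (nat_lit 0) (nat_lit 43771426438) (nat_lit 152) (nat_lit 329711282145) (nat_lit 228) (nat_lit 38291563724) (nat_lit 24) (nat_lit 5) (nat_lit 26) (nat_lit 5) (nat_lit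 27) (nat_lit 5) (nat_lit 236) (nat_lit 229) (nat_lit 135))) (XT.nd (nat_lit 78) (nat_lit 228) (nat_lit 0) (XT.lf (nat_lit 0) (nat_lit 40973995259) (nat_lit 228) (nat_lit 49888213391) (nat_lit 76) (nat_lit 359378748752) (nat_lit 23) (nat_lit 5) (nat_lit 26) (nat_lit 5) (nat_lit 24) (nat_lit 5) (nat_lit 237) (nat_lit 229) (nat_lit 134)) (XT.lf (nat_lit 0) (nat_lit 142553481485) (nat_lit 304) (nat_lit 166944845007) (nat_lit 76) (nat_lit 183884442123) (nat_lit 20) (nat_lit 5) (nat_lit 24) (nat_lit 5) (nat_lit 21) (nat_lit 5) (nat_lit 238) (nat_lit 229) (nat_lit 133)))) (XT.nd (nat_lit 156) (nat_lit 304) (nat_lit 0) (XT.nd (nat_lit 78) (nat_lit 152) (nat_lit 0) (XT.lf (nat_lit 0) (nat_lit 228219977339) (nat_lit 152) (nat_lit 40641673033) (nat_lit 228) (nat_lit 273374861004) (nat_lit 18) (nat_lit 5) (nat_lit 20) (nat_lit 5) (nat_lit 21) (nat_lit 5) (nat_lit 239) (nat_lit 229) (nat_lit 132))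 (XT.lf (nat_lit 0) (nat_lit 92796910151) (nat_lit 152) (nat_lit 334995928190) (nat_lit 228) (nat_lit 169531334271) (nat_lit 16) (nat_lit 5) (nat_lit 18) (nat_lit 5) (nat_lit 19) (nat_lit 5) (nat_lit 240) (nat_lit 229) (nat_lit 131))) (XT.nd (nat_lit 78) (nat_lit 304) (nat_lit 0) (XT.lf (nat_lit 0) (nat_lit 578464874142) (nat_lit 152) (nat_lit 42336571239) (nat_lit 228) (nat_lit 39054518870) (nat_lit 16) (nat_lit 5) (nat_lit 18) (nat_lit 5) (nat_lit 19) (nat_lit 5) (nat_lit 241) (nat_lit 229) (nat_lit 130)) (XT.nd (nat_lit 78) (nat_lit 152) (nat_lit 0) (XT.lf (nat_lit 0) (nat_lit 123042477851) (nat_lit 152) (nat_lit 314405442655) (nat_lit 76) (nat_lit 292697970652) (nat_lit 14) (nat_lit 5) (nat_lit 16) (nat_lit 5) (nat_lit 15) (nat_lit 5) (nat_lit 242) (nat_lit 229) (nat_lit 129)) (XT.lf (nat_lit 0) (nat_lit 188707961986) (nat_lit 152) (nat_lit 126639780690) (nat_lit 228) (nat_lit 494893917965)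 (nat_lit 12) (nat_lit 5) (nat_lit 14) (nat_lit 5) (nat_lit 15) (nat_lit 5) (nat_lit 243) (nat_lit 229) (nat_lit 128)))))) (XT.nd (nat_lit 390) (nat_lit 228) (nat_lit 0) (XT.nd (nat_lit 156) (nat_lit 304) (nat_lit 0) (XT.nd (nat_lit 78) (nat_lit 76) (nat_lit 0) (XT.lf (nat_lit 0) (nat_lit 551440546127) (nat_lit 228) (nat_lit 121080065459) (nat_lit 76) (nat_lit 228635844344) (nat_lit 12) (nat_lit 5) (nat_lit 15) (nat_lit 5) (nat_lit 13) (nat_lit 4) (nat_lit 244) (nat_lit 229) (nat_lit 127)) (XT.lf (nat_lit 0) (nat_lit 474684610431) (nat_lit 76) (nat_lit 363181311847) (nat_lit 152) (nat_lit 166649056319) (nat_lit 11) (nat_lit 5) (nat_lit 12) (nat_lit 5) (nat_lit 13) (nat_lit 4) (nat_lit 245) (nat_lit 229) (nat_lit 126))) (XT.nd (nat_lit 78) (nat_lit 76) (nat_lit 0) (XT.lf (nat_lit 0) (nat_lit 45163284114) (nat_lit 152) (nat_lit 1222387210) (nat_lit 228) (nat_lit 1076530964114) (nat_lit 8)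 (nat_lit 5) (nat_lit 10) (nat_lit 5) (nat_lit 11) (nat_lit 5) (nat_lit 246) (nat_lit 229) (nat_lit 125)) (XT.nd (nat_lit 78) (nat_lit 76) (nat_lit 0) (XT.lf (nat_lit 0) (nat_lit 307596213146) (nat_lit 228) (nat_lit 534344951701) (nat_lit 76) (nat_lit 414704045279) (nat_lit 8) (nat_lit 5) (nat_lit 11) (nat_lit 5) (nat_lit 9) (nat_lit 4) (nat_lit 247) (nat_lit 229) (nat_lit 124)) (XT.lf (nat_lit 0) (nat_lit 95308535393) (nat_lit 76) (nat_lit 515005731567) (nat_lit 152) (nat_lit 799932729756) (nat_lit 7) (nat_lit 5) (nat_lit 8) (nat_lit 5) (nat_lit 9) (nat_lit 4) (nat_lit 248) (nat_lit 229) (nat_lit 123))))) (XT.nd (nat_lit 156) (nat_lit 228) (nat_lit 0) (XT.nd (nat_lit 78) (nat_lit 0) (nat_lit 0) (XT.lf (nat_lit 0) (nat_lit 851768276338) (nat_lit 76) (nat_lit 122228585491) (nat_lit 152) (nat_lit 611647642964) (nat_lit 7) (nat_lit 5) (nat_lit 8) (nat_lit 5) (nat_lit 9) (nat_lit 4) (nat_lit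 249) (nat_lit 229) (nat_lit 122)) (XT.lf (nat_lit 0) (nat_lit 1400155450203) (nat_lit 152) (nat_lit 73578373876) (nat_lit 0) (nat_lit 312983926780) (nat_lit 7) (nat_lit 5) (nat_lit 9) (nat_lit 4) (nat_lit 7) (nat_lit 4) (nat_lit 250) (nat_lit 229) (nat_lit 121))) (XT.nd (nat_lit 78) (nat_lit 152) (nat_lit 0) (XT.lf (nat_lit 0) (nat_lit 718316667434) (nat_lit 76) (nat_lit 1192577198151) (nat_lit 76) (nat_lit 105405635253) (nat_lit 6) (nat_lit 4) (nat_lit 7) (nat_lit 5) (nat_lit 7) (nat_lit 4) (nat_lit 251) (nat_lit 229) (nat_lit 120)) (XT.nd (nat_lit 78) (nat_lit 76) (nat_lit 0) (XT.lf (nat_lit 0) (nat_lit 209220825420) (nat_lit 152) (nat_lit 651992280350) (nat_lit 76) (nat_lit 1418510299366) (nat_lit 5) (nat_lit 5) (nat_lit 7) (nat_lit 5) (nat_lit 6) (nat_lit 4) (nat_lit 252) (nat_lit 229) (nat_lit 119)) (XT.lf (nat_lit 0) (nat_lit 92614499525) (nat_lit 76) (nat_lit 474590369031) (nat_lit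 152) (nat_lit 2015044617643) (nat_lit 4) (nat_lit 5) (nat_lit 5) (nat_lit 5) (nat_lit 6) (nat_lit 4) (nat_lit 253) (nat_lit 229) (nat_lit 118))))))))
noncomputable def xc58 : XT := (XT.nd (nat_lit 30810) (nat_lit 0) (nat_lit 0) (XT.nd (nat_lit 30030) (nat_lit 0) (nat_lit 304) (XT.nd (nat_lit 29640) (nat_lit 0) (nat_lit 1520) (XT.nd (nat_lit 29484) (nat_lit 0) (nat_lit 2204) (XT.nd (nat_lit 29406) (nat_lit 0) (nat_lit 2128) (XT.lf (nat_lit 0) (nat_lit 988394923088) (nat_lit 76) (nat_lit 9473623122) (nat_lit 152) (nat_lit 1930767371031) (nat_lit 4) (nat_lit 5) (nat_lit 5) (nat_lit 5) (nat_lit 6) (nat_lit 4) (nat_lit 254) (nat_lit 229) (nat_lit 117)) (XT.lf (nat_lit 0) (nat_lit 33050920303) (nat_lit 532) (nat_lit 51537491957) (nat_lit 532) (nat_lit 51537491957) (nat_lit 32) (nat_lit 3) (nat_lit 39) (nat_lit 3) (nat_lit 39) (nat_lit 5) (nat_lit 230) (nat_lit 230) (nat_lit 140))) (XT.nd (nat_lit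 78) (nat_lit 0) (nat_lit 0) (XT.lf (nat_lit 0) (nat_lit 74745935679) (nat_lit 456) (nat_lit 179899655483) (nat_lit 532) (nat_lit 37730177303) (nat_lit 33) (nat_lit 5) (nat_lit 39) (nat_lit 5) (nat_lit 40) (nat_lit 5) (nat_lit 231) (nat_lit 230) (nat_lit 139)) (XT.lf (nat_lit 76) (nat_lit 49018512152) (nat_lit 0) (nat_lit 44604655203) (nat_lit 532) (nat_lit 221180234967) (nat_lit 34) (nat_lit 5) (nat_lit 33) (nat_lit 5) (nat_lit 40) (nat_lit 5) (nat_lit 232) (nat_lit 230) (nat_lit 138)))) (XT.nd (nat_lit 156) (nat_lit 760) (nat_lit 0) (XT.nd (nat_lit 78) (nat_lit 0) (nat_lit 76) (XT.lf (nat_lit 0) (nat_lit 125441860472) (nat_lit 456) (nat_lit 21880277573) (nat_lit 532) (nat_lit 192464254477) (nat_lit 34) (nat_lit 5) (nat_lit 40) (nat_lit 5) (nat_lit 41) (nat_lit 5) (nat_lit 233) (nat_lit 230) (nat_lit 137)) (XT.lf (nat_lit 0) (nat_lit 172215251306) (nat_lit 456) (nat_lit 99400266102) (nat_lit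 76) (nat_lit 96086763560) (nat_lit 35) (nat_lit 5) (nat_lit 41) (nat_lit 5) (nat_lit 36) (nat_lit 5) (nat_lit 234) (nat_lit 230) (nat_lit 136))) (XT.nd (nat_lit 78) (nat_lit 380) (nat_lit 0) (XT.lf (nat_lit 0) (nat_lit 209995629616) (nat_lit 456) (nat_lit 25787385499) (nat_lit 532) (nat_lit 163240269479) (nat_lit 29) (nat_lit 5) (nat_lit 35) (nat_lit 5) (nat_lit 36) (nat_lit 5) (nat_lit 235) (nat_lit 230) (nat_lit 135)) (XT.nd (nat_lit 78) (nat_lit 152) (nat_lit 0) (XT.lf (nat_lit 0) (nat_lit 137640570632) (nat_lit 228) (nat_lit 183703392254) (nat_lit 304) (nat_lit 112701835245) (nat_lit 26) (nat_lit 5) (nat_lit 29) (nat_lit 5) (nat_lit 30) (nat_lit 5) (nat_lit 236) (nat_lit 230) (nat_lit 134)) (XT.lf (nat_lit 0) (nat_lit 50338862129) (nat_lit 152) (nat_lit 379167733255) (nat_lit 228) (nat_lit 44033690711) (nat_lit 24) (nat_lit 5) (nat_lit 26) (nat_lit 5) (nat_lit 27) (nat_lit 5) (nat_lit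 237) (nat_lit 230) (nat_lit 133)))))) (XT.nd (nat_lit 390) (nat_lit 608) (nat_lit 0) (XT.nd (nat_lit 156) (nat_lit 304) (nat_lit 0) (XT.nd (nat_lit 78) (nat_lit 228) (nat_lit 0) (XT.lf (nat_lit 0) (nat_lit 47121422508) (nat_lit 228) (nat_lit 57369871381) (nat_lit 76) (nat_lit 413285693948) (nat_lit 23) (nat_lit 5) (nat_lit 26) (nat_lit 5) (nat_lit 24) (nat_lit 5) (nat_lit 238) (nat_lit 230) (nat_lit 132)) (XT.lf (nat_lit 0) (nat_lit 163937699153) (nat_lit 304) (nat_lit 191985035833) (nat_lit 76) (nat_lit 211467347253) (nat_lit 20) (nat_lit 5) (nat_lit 24) (nat_lit 5) (nat_lit 21) (nat_lit 5) (nat_lit 239) (nat_lit 230) (nat_lit 131))) (XT.nd (nat_lit 78) (nat_lit 152) (nat_lit 0) (XT.lf (nat_lit 0) (nat_lit 262454379857) (nat_lit 152) (nat_lit 46737591401) (nat_lit 228) (nat_lit 314379925712) (nat_lit 18) (nat_lit 5) (nat_lit 20) (nat_lit 5) (nat_lit 21) (nat_lit 5) (nat_lit 240) (nat_lit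 230) (nat_lit 130)) (XT.nd (nat_lit 78) (nat_lit 0) (nat_lit 0) (XT.lf (nat_lit 0) (nat_lit 106717809665) (nat_lit 152) (nat_lit 385244927493) (nat_lit 228) (nat_lit 194959978939) (nat_lit 16) (nat_lit 5) (nat_lit 18) (nat_lit 5) (nat_lit 19) (nat_lit 5) (nat_lit 241) (nat_lit 230) (nat_lit 129)) (XT.lf (nat_lit 0) (nat_lit 665235790473) (nat_lit 152) (nat_lit 48686717859) (nat_lit 228) (nat_lit 44911778898) (nat_lit 16) (nat_lit 5) (nat_lit 18) (nat_lit 5) (nat_lit 19) (nat_lit 5) (nat_lit 242) (nat_lit 230) (nat_lit 128))))) (XT.nd (nat_lit 156) (nat_lit 304) (nat_lit 0) (XT.nd (nat_lit 78) (nat_lit 152) (nat_lit 0) (XT.lf (nat_lit 0) (nat_lit 141499643173) (nat_lit 152) (nat_lit 361565071051) (nat_lit 76) (nat_lit 336602993922) (nat_lit 14) (nat_lit 5) (nat_lit 16) (nat_lit 5) (nat_lit 15) (nat_lit 5) (nat_lit 243) (nat_lit 230) (nat_lit 127)) (XT.lf (nat_lit 0) (nat_lit 217015243728)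 (nat_lit 152) (nat_lit 145635376628) (nat_lit 228) (nat_lit 569127229301) (nat_lit 12) (nat_lit 5) (nat_lit 14) (nat_lit 5) (nat_lit 15) (nat_lit 5) (nat_lit 244) (nat_lit 230) (nat_lit 126))) (XT.nd (nat_lit 78) (nat_lit 304) (nat_lit 0) (XT.lf (nat_lit 0) (nat_lit 634157258659) (nat_lit 228) (nat_lit 139241085194) (nat_lit 76) (nat_lit 262931527602) (nat_lit 12) (nat_lit 5) (nat_lit 15) (nat_lit 5) (nat_lit 13) (nat_lit 4) (nat_lit 245) (nat_lit 230) (nat_lit 125)) (XT.nd (nat_lit 78) (nat_lit 228) (nat_lit 0) (XT.lf (nat_lit 0) (nat_lit 545888208274) (nat_lit 76) (nat_lit 417658172500) (nat_lit 152) (nat_lit 191645796899) (nat_lit 11) (nat_lit 5) (nat_lit 12) (nat_lit 5) (nat_lit 13) (nat_lit 4) (nat_lit 246) (nat_lit 230) (nat_lit 124)) (XT.lf (nat_lit 0) (nat_lit 51938636370) (nat_lit 152) (nat_lit 1405416727) (nat_lit 228) (nat_lit 1238010033480) (nat_lit 8) (nat_lit 5) (nat_lit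 10) (nat_lit 5) (nat_lit 11) (nat_lit 5) (nat_lit 247) (nat_lit 230) (nat_lit 123))))))) (XT.nd (nat_lit 30108) (nat_lit 0) (nat_lit 912) (XT.nd (nat_lit 312) (nat_lit 228) (nat_lit 0) (XT.nd (nat_lit 156) (nat_lit 0) (nat_lit 0) (XT.nd (nat_lit 78) (nat_lit 76) (nat_lit 0) (XT.lf (nat_lit 0) (nat_lit 353736113793) (nat_lit 228) (nat_lit 614495915401) (nat_lit 76) (nat_lit 476909923487) (nat_lit 8) (nat_lit 5) (nat_lit 11) (nat_lit 5) (nat_lit 9) (nat_lit 4) (nat_lit 248) (nat_lit 230) (nat_lit 122)) (XT.lf (nat_lit 0) (nat_lit 109605528814) (nat_lit 76) (nat_lit 592256302884) (nat_lit 152) (nat_lit 919922179272) (nat_lit 7) (nat_lit 5) (nat_lit 8) (nat_lit 5) (nat_lit 9) (nat_lit 4) (nat_lit 249) (nat_lit 230) (nat_lit 121))) (XT.nd (nat_lit 78) (nat_lit 0) (nat_lit 0) (XT.lf (nat_lit 0) (nat_lit 979534137886) (nat_lit 76) (nat_lit 140562622517) (nat_lit 152) (nat_lit 703394389454) (nat_lit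 7) (nat_lit 5) (nat_lit 8) (nat_lit 5) (nat_lit 9) (nat_lit 4) (nat_lit 250) (nat_lit 230) (nat_lit 120)) (XT.lf (nat_lit 0) (nat_lit 1610179094107) (nat_lit 152) (nat_lit 84614569330) (nat_lit 0) (nat_lit 359931722973) (nat_lit 7) (nat_lit 5) (nat_lit 9) (nat_lit 4) (nat_lit 7) (nat_lit 4) (nat_lit 251) (nat_lit 230) (nat_lit 119)))) (XT.nd (nat_lit 156) (nat_lit 76) (nat_lit 0) (XT.nd (nat_lit 78) (nat_lit 76) (nat_lit 0) (XT.lf (nat_lit 0) (nat_lit 826064680722) (nat_lit 76) (nat_lit 1371463560846) (nat_lit 76) (nat_lit 121216159863) (nat_lit 6) (nat_lit 4) (nat_lit 7) (nat_lit 5) (nat_lit 7) (nat_lit 4) (nat_lit 252) (nat_lit 230) (nat_lit 118)) (XT.lf (nat_lit 0) (nat_lit 240604214134) (nat_lit 152) (nat_lit 749790661539) (nat_lit 76) (nat_lit 1631287018365) (nat_lit 5) (nat_lit 5) (nat_lit 7) (nat_lit 5) (nat_lit 6) (nat_lit 4) (nat_lit 253) (nat_lit 230) (nat_lit 117))) (XT.nd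 (nat_lit 29484) (nat_lit 0) (nat_lit 2128) (XT.lf (nat_lit 0) (nat_lit 106507096307) (nat_lit 76) (nat_lit 545778743027) (nat_lit 152) (nat_lit 2317301049967) (nat_lit 4) (nat_lit 5) (nat_lit 5) (nat_lit 5) (nat_lit 6) (nat_lit 4) (nat_lit 254) (nat_lit 230) (nat_lit 116)) (XT.nd (nat_lit 78) (nat_lit 0) (nat_lit 76) (XT.lf (nat_lit 0) (nat_lit 38009899609) (nat_lit 532) (nat_lit 59267387137) (nat_lit 532) (nat_lit 59267387137) (nat_lit 32) (nat_lit 3) (nat_lit 39) (nat_lit 3) (nat_lit 39) (nat_lit 5) (nat_lit 231) (nat_lit 231) (nat_lit 138)) (XT.lf (nat_lit 0) (nat_lit 85960165946) (nat_lit 456) (nat_lit 206883040887) (nat_lit 532) (nat_lit 43388724638) (nat_lit 33) (nat_lit 5) (nat_lit 39) (nat_lit 5) (nat_lit 40) (nat_lit 5) (nat_lit 232) (nat_lit 231) (nat_lit 137)))))) (XT.nd (nat_lit 390) (nat_lit 760) (nat_lit 0) (XT.nd (nat_lit 156) (nat_lit 532) (nat_lit 0) (XT.nd (nat_lit 78)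 (nat_lit 0) (nat_lit 76) (XT.lf (nat_lit 76) (nat_lit 56372719601) (nat_lit 0) (nat_lit 51295991972) (nat_lit 532) (nat_lit 254355022463) (nat_lit 34) (nat_lit 5) (nat_lit 33) (nat_lit 5) (nat_lit 40) (nat_lit 5) (nat_lit 233) (nat_lit 231) (nat_lit 136)) (XT.lf (nat_lit 0) (nat_lit 144259925421) (nat_lit 456) (nat_lit 25160906499) (nat_lit 532) (nat_lit 221333365214) (nat_lit 34) (nat_lit 5) (nat_lit 40) (nat_lit 5) (nat_lit 41) (nat_lit 5) (nat_lit 234) (nat_lit 231) (nat_lit 135))) (XT.nd (nat_lit 78) (nat_lit 684) (nat_lit 0) (XT.lf (nat_lit 0) (nat_lit 198049116043) (nat_lit 456) (nat_lit 114308869258) (nat_lit 76) (nat_lit 110499501741) (nat_lit 35) (nat_lit 5) (nat_lit 41) (nat_lit 5) (nat_lit 36) (nat_lit 5) (nat_lit 235) (nat_lit 231) (nat_lit 134)) (XT.nd (nat_lit 78) (nat_lit 228) (nat_lit 0) (XT.lf (nat_lit 0) (nat_lit 241496289204) (nat_lit 456) (nat_lit 29655581147) (nat_lit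 532) (nat_lit 187724786077) (nat_lit 29) (nat_lit 5) (nat_lit 35) (nat_lit 5) (nat_lit 36) (nat_lit 5) (nat_lit 236) (nat_lit 231) (nat_lit 133)) (XT.lf (nat_lit 0) (nat_lit 158287972611) (nat_lit 228) (nat_lit 211258834504) (nat_lit 304) (nat_lit 129605753260) (nat_lit 26) (nat_lit 5) (nat_lit 29) (nat_lit 5) (nat_lit 30) (nat_lit 5) (nat_lit 237) (nat_lit 231) (nat_lit 132))))) (XT.nd (nat_lit 156) (nat_lit 532) (nat_lit 0) (XT.nd (nat_lit 78) (nat_lit 76) (nat_lit 0) (XT.lf (nat_lit 0) (nat_lit 57890993320) (nat_lit 152) (nat_lit 436042710853) (nat_lit 228) (nat_lit 50637528762) (nat_lit 24) (nat_lit 5) (nat_lit 26) (nat_lit 5) (nat_lit 27) (nat_lit 5) (nat_lit 238) (nat_lit 231) (nat_lit 131)) (XT.lf (nat_lit 0) (nat_lit 54190640014) (nat_lit 228) (nat_lit 65974161905) (nat_lit 76) (nat_lit 475278648518) (nat_lit 23) (nat_lit 5) (nat_lit 26) (nat_lit 5) (nat_lit 24) (nat_lit 5) (nat_lit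 239) (nat_lit 231) (nat_lit 130))) (XT.nd (nat_lit 78) (nat_lit 304) (nat_lit 0) (XT.lf (nat_lit 0) (nat_lit 188529257954) (nat_lit 304) (nat_lit 220781629828) (nat_lit 76) (nat_lit 243187629916) (nat_lit 20) (nat_lit 5) (nat_lit 24) (nat_lit 5) (nat_lit 21) (nat_lit 5) (nat_lit 240) (nat_lit 231) (nat_lit 129)) (XT.nd (nat_lit 78) (nat_lit 152) (nat_lit 0) (XT.lf (nat_lit 0) (nat_lit 301823599910) (nat_lit 152) (nat_lit 53747978629) (nat_lit 228) (nat_lit 361536034083) (nat_lit 18) (nat_lit 5) (nat_lit 20) (nat_lit 5) (nat_lit 21) (nat_lit 5) (nat_lit 241) (nat_lit 231) (nat_lit 128)) (XT.lf (nat_lit 0) (nat_lit 122726511732) (nat_lit 152) (nat_lit 443031371777) (nat_lit 228) (nat_lit 224203177691) (nat_lit 16) (nat_lit 5) (nat_lit 18) (nat_lit 5) (nat_lit 19) (nat_lit 5) (nat_lit 242) (nat_lit 231) (nat_lit 127))))))))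
noncomputable def xc59 : XT := (XT.nd (nat_lit 31044) (nat_lit 0) (nat_lit 76) (XT.nd (nat_lit 702) (nat_lit 76) (nat_lit 0) (XT.nd (nat_lit 312) (nat_lit 380) (nat_lit 0) (XT.nd (nat_lit 156) (nat_lit 152) (nat_lit 0) (XT.nd (nat_lit 78) (nat_lit 152) (nat_lit 0) (XT.lf (nat_lit 0) (nat_lit 765022055233) (nat_lit 152) (nat_lit 55989469155) (nat_lit 228) (nat_lit 51647851742) (nat_lit 16) (nat_lit 5) (nat_lit 18) (nat_lit 5) (nat_lit 19) (nat_lit 5) (nat_lit 243) (nat_lit 231) (nat_lit 126)) (XT.lf (nat_lit 0) (nat_lit 162725189758) (nat_lit 152) (nat_lit 415798933409) (nat_lit 76) (nat_lit 387093690778) (nat_lit 14) (nat_lit 5) (nat_lit 16) (nat_lit 5) (nat_lit 15) (nat_lit 5) (nat_lit 244) (nat_lit 231) (nat_lit 125))) (XT.nd (nat_lit 78) (nat_lit 0) (nat_lit 0) (XT.lf (nat_lit 0) (nat_lit 249568352551) (nat_lit 152) (nat_lit 167480402468) (nat_lit 228) (nat_lit 654495726658) (nat_lit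 12) (nat_lit 5) (nat_lit 14) (nat_lit 5) (nat_lit 15) (nat_lit 5) (nat_lit 245) (nat_lit 231) (nat_lit 124)) (XT.lf (nat_lit 0) (nat_lit 729281324293) (nat_lit 228) (nat_lit 160126499327) (nat_lit 76) (nat_lit 302371488582) (nat_lit 12) (nat_lit 5) (nat_lit 15) (nat_lit 5) (nat_lit 13) (nat_lit 4) (nat_lit 246) (nat_lit 231) (nat_lit 123)))) (XT.nd (nat_lit 156) (nat_lit 76) (nat_lit 0) (XT.nd (nat_lit 78) (nat_lit 228) (nat_lit 0) (XT.lf (nat_lit 0) (nat_lit 627772124793) (nat_lit 76) (nat_lit 480306644218) (nat_lit 152) (nat_lit 220392199238) (nat_lit 11) (nat_lit 5) (nat_lit 12) (nat_lit 5) (nat_lit 13) (nat_lit 4) (nat_lit 247) (nat_lit 231) (nat_lit 122)) (XT.lf (nat_lit 0) (nat_lit 59730081836) (nat_lit 152) (nat_lit 1615980794) (nat_lit 228) (nat_lit 1423711103530) (nat_lit 8) (nat_lit 5) (nat_lit 10) (nat_lit 5) (nat_lit 11) (nat_lit 5) (nat_lit 248) (nat_lit 231) (nat_lit 121)))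 (XT.nd (nat_lit 78) (nat_lit 76) (nat_lit 0) (XT.lf (nat_lit 0) (nat_lit 406796885247) (nat_lit 228) (nat_lit 706669713634) (nat_lit 76) (nat_lit 548446617240) (nat_lit 8) (nat_lit 5) (nat_lit 11) (nat_lit 5) (nat_lit 9) (nat_lit 4) (nat_lit 249) (nat_lit 231) (nat_lit 120)) (XT.nd (nat_lit 78) (nat_lit 0) (nat_lit 0) (XT.lf (nat_lit 0) (nat_lit 126046897351) (nat_lit 76) (nat_lit 681094530231) (nat_lit 152) (nat_lit 1057910158376) (nat_lit 7) (nat_lit 5) (nat_lit 8) (nat_lit 5) (nat_lit 9) (nat_lit 4) (nat_lit 250) (nat_lit 231) (nat_lit 119)) (XT.lf (nat_lit 0) (nat_lit 1126464727452) (nat_lit 76) (nat_lit 161646826254) (nat_lit 152) (nat_lit 808903245449) (nat_lit 7) (nat_lit 5) (nat_lit 8) (nat_lit 5) (nat_lit 9) (nat_lit 4) (nat_lit 251) (nat_lit 231) (nat_lit 118)))))) (XT.nd (nat_lit 29952) (nat_lit 0) (nat_lit 1368) (XT.nd (nat_lit 29718) (nat_lit 0) (nat_lit 1976) (XT.nd (nat_lit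 78) (nat_lit 76) (nat_lit 0) (XT.lf (nat_lit 0) (nat_lit 1851706205009) (nat_lit 152) (nat_lit 97306330815) (nat_lit 0) (nat_lit 413921638074) (nat_lit 7) (nat_lit 5) (nat_lit 9) (nat_lit 4) (nat_lit 7) (nat_lit 4) (nat_lit 252) (nat_lit 231) (nat_lit 117)) (XT.lf (nat_lit 0) (nat_lit 949974770862) (nat_lit 76) (nat_lit 1577182930869) (nat_lit 76) (nat_lit 139398341363) (nat_lit 6) (nat_lit 4) (nat_lit 7) (nat_lit 5) (nat_lit 7) (nat_lit 4) (nat_lit 253) (nat_lit 231) (nat_lit 116))) (XT.nd (nat_lit 78) (nat_lit 0) (nat_lit 76) (XT.lf (nat_lit 0) (nat_lit 43712398736) (nat_lit 532) (nat_lit 68156944271) (nat_lit 532) (nat_lit 68156944271) (nat_lit 32) (nat_lit 3) (nat_lit 39) (nat_lit 3) (nat_lit 39) (nat_lit 5) (nat_lit 232) (nat_lit 232) (nat_lit 136)) (XT.nd (nat_lit 78) (nat_lit 0) (nat_lit 0) (XT.lf (nat_lit 0) (nat_lit 98855960149) (nat_lit 456) (nat_lit 237914315228) (nat_lit 532)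 (nat_lit 49896292872) (nat_lit 33) (nat_lit 5) (nat_lit 39) (nat_lit 5) (nat_lit 40) (nat_lit 5) (nat_lit 233) (nat_lit 232) (nat_lit 135)) (XT.lf (nat_lit 76) (nat_lit 64829709300) (nat_lit 0) (nat_lit 58990873558) (nat_lit 532) (nat_lit 292506576210) (nat_lit 34) (nat_lit 5) (nat_lit 33) (nat_lit 5) (nat_lit 40) (nat_lit 5) (nat_lit 234) (nat_lit 232) (nat_lit 134))))) (XT.nd (nat_lit 156) (nat_lit 760) (nat_lit 0) (XT.nd (nat_lit 78) (nat_lit 0) (nat_lit 76) (XT.lf (nat_lit 0) (nat_lit 165900264614) (nat_lit 456) (nat_lit 28933974262) (nat_lit 532) (nat_lit 254532971181) (nat_lit 34) (nat_lit 5) (nat_lit 40) (nat_lit 5) (nat_lit 41) (nat_lit 5) (nat_lit 235) (nat_lit 232) (nat_lit 133)) (XT.lf (nat_lit 0) (nat_lit 227757675919) (nat_lit 456) (nat_lit 131454113249) (nat_lit 76) (nat_lit 127074218039) (nat_lit 35) (nat_lit 5) (nat_lit 41) (nat_lit 5) (nat_lit 36) (nat_lit 5) (nat_lit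 236) (nat_lit 232) (nat_lit 132))) (XT.nd (nat_lit 78) (nat_lit 380) (nat_lit 0) (XT.lf (nat_lit 0) (nat_lit 277721727023) (nat_lit 456) (nat_lit 34103984727) (nat_lit 532) (nat_lit 215882351759) (nat_lit 29) (nat_lit 5) (nat_lit 35) (nat_lit 5) (nat_lit 36) (nat_lit 5) (nat_lit 237) (nat_lit 232) (nat_lit 131)) (XT.nd (nat_lit 78) (nat_lit 152) (nat_lit 0) (XT.lf (nat_lit 0) (nat_lit 182032163877) (nat_lit 228) (nat_lit 242947609330) (nat_lit 304) (nat_lit 149045589956) (nat_lit 26) (nat_lit 5) (nat_lit 29) (nat_lit 5) (nat_lit 30) (nat_lit 5) (nat_lit 238) (nat_lit 232) (nat_lit 130)) (XT.lf (nat_lit 0) (nat_lit 66575626720) (nat_lit 152) (nat_lit 501448979568) (nat_lit 228) (nat_lit 58232238941) (nat_lit 24) (nat_lit 5) (nat_lit 26) (nat_lit 5) (nat_lit 27) (nat_lit 5) (nat_lit 239) (nat_lit 232) (nat_lit 129))))))) (XT.nd (nat_lit 702) (nat_lit 304) (nat_lit 0) (XT.nd (nat_lit 312)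 (nat_lit 380) (nat_lit 0) (XT.nd (nat_lit 156) (nat_lit 304) (nat_lit 0) (XT.nd (nat_lit 78) (nat_lit 228) (nat_lit 0) (XT.lf (nat_lit 0) (nat_lit 62319995282) (nat_lit 228) (nat_lit 75869386240) (nat_lit 76) (nat_lit 546570521772) (nat_lit 23) (nat_lit 5) (nat_lit 26) (nat_lit 5) (nat_lit 24) (nat_lit 5) (nat_lit 240) (nat_lit 232) (nat_lit 128)) (XT.lf (nat_lit 0) (nat_lit 216809330147) (nat_lit 304) (nat_lit 253897996132) (nat_lit 76) (nat_lit 279665910945) (nat_lit 20) (nat_lit 5) (nat_lit 24) (nat_lit 5) (nat_lit 21) (nat_lit 5) (nat_lit 241) (nat_lit 232) (nat_lit 127))) (XT.nd (nat_lit 78) (nat_lit 152) (nat_lit 0) (XT.lf (nat_lit 0) (nat_lit 347097943734) (nat_lit 152) (nat_lit 61809985266) (nat_lit 228) (nat_lit 415765773422) (nat_lit 18) (nat_lit 5) (nat_lit 20) (nat_lit 5) (nat_lit 21) (nat_lit 5) (nat_lit 242) (nat_lit 232) (nat_lit 126)) (XT.lf (nat_lit 0) (nat_lit 141136267787)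 (nat_lit 152) (nat_lit 509485854603) (nat_lit 228) (nat_lit 257833050874) (nat_lit 16) (nat_lit 5) (nat_lit 18) (nat_lit 5) (nat_lit 19) (nat_lit 5) (nat_lit 243) (nat_lit 232) (nat_lit 125)))) (XT.nd (nat_lit 156) (nat_lit 228) (nat_lit 0) (XT.nd (nat_lit 78) (nat_lit 152) (nat_lit 0) (XT.lf (nat_lit 0) (nat_lit 879776041166) (nat_lit 152) (nat_lit 64387695667) (nat_lit 228) (nat_lit 59394504747) (nat_lit 16) (nat_lit 5) (nat_lit 18) (nat_lit 5) (nat_lit 19) (nat_lit 5) (nat_lit 244) (nat_lit 232) (nat_lit 124)) (XT.lf (nat_lit 0) (nat_lit 187134421990) (nat_lit 152) (nat_lit 478168094176) (nat_lit 76) (nat_lit 445157931743) (nat_lit 14) (nat_lit 5) (nat_lit 16) (nat_lit 5) (nat_lit 15) (nat_lit 5) (nat_lit 245) (nat_lit 232) (nat_lit 123))) (XT.nd (nat_lit 78) (nat_lit 76) (nat_lit 0) (XT.lf (nat_lit 0) (nat_lit 287004227183) (nat_lit 152) (nat_lit 192602250623) (nat_lit 228) (nat_lit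 752669641772) (nat_lit 12) (nat_lit 5) (nat_lit 14) (nat_lit 5) (nat_lit 15) (nat_lit 5) (nat_lit 246) (nat_lit 232) (nat_lit 122)) (XT.nd (nat_lit 78) (nat_lit 76) (nat_lit 0) (XT.lf (nat_lit 0) (nat_lit 838673883492) (nat_lit 228) (nat_lit 184144908143) (nat_lit 76) (nat_lit 347727387173) (nat_lit 12) (nat_lit 5) (nat_lit 15) (nat_lit 5) (nat_lit 13) (nat_lit 4) (nat_lit 247) (nat_lit 232) (nat_lit 121)) (XT.lf (nat_lit 0) (nat_lit 721938461679) (nat_lit 76) (nat_lit 552352448671) (nat_lit 152) (nat_lit 253450675855) (nat_lit 11) (nat_lit 5) (nat_lit 12) (nat_lit 5) (nat_lit 13) (nat_lit 4) (nat_lit 248) (nat_lit 232) (nat_lit 120)))))) (XT.nd (nat_lit 30030) (nat_lit 0) (nat_lit 1900) (XT.nd (nat_lit 156) (nat_lit 76) (nat_lit 0) (XT.nd (nat_lit 78) (nat_lit 0) (nat_lit 0) (XT.lf (nat_lit 0) (nat_lit 68690085613) (nat_lit 152) (nat_lit 1858190055) (nat_lit 228) (nat_lit 1637267440159)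 (nat_lit 8) (nat_lit 5) (nat_lit 10) (nat_lit 5) (nat_lit 11) (nat_lit 5) (nat_lit 249) (nat_lit 232) (nat_lit 119)) (XT.lf (nat_lit 0) (nat_lit 467816686000) (nat_lit 228) (nat_lit 812669725252) (nat_lit 76) (nat_lit 630713765009) (nat_lit 8) (nat_lit 5) (nat_lit 11) (nat_lit 5) (nat_lit 9) (nat_lit 4) (nat_lit 250) (nat_lit 232) (nat_lit 118))) (XT.nd (nat_lit 78) (nat_lit 0) (nat_lit 0) (XT.lf (nat_lit 0) (nat_lit 144954339678) (nat_lit 76) (nat_lit 783258544862) (nat_lit 152) (nat_lit 1216596419156) (nat_lit 7) (nat_lit 5) (nat_lit 8) (nat_lit 5) (nat_lit 9) (nat_lit 4) (nat_lit 251) (nat_lit 232) (nat_lit 117)) (XT.nd (nat_lit 78) (nat_lit 0) (nat_lit 0) (XT.lf (nat_lit 0) (nat_lit 1295434791112) (nat_lit 76) (nat_lit 185893706798) (nat_lit 152) (nat_lit 930238503592) (nat_lit 7) (nat_lit 5) (nat_lit 8) (nat_lit 5) (nat_lit 9) (nat_lit 4) (nat_lit 252) (nat_lit 232) (nat_lit 116))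 (XT.lf (nat_lit 0) (nat_lit 2129462322367) (nat_lit 152) (nat_lit 111901959897) (nat_lit 0) (nat_lit 476010002239) (nat_lit 7) (nat_lit 5) (nat_lit 9) (nat_lit 4) (nat_lit 7) (nat_lit 4) (nat_lit 253) (nat_lit 232) (nat_lit 115))))) (XT.nd (nat_lit 156) (nat_lit 0) (nat_lit 76) (XT.nd (nat_lit 78) (nat_lit 0) (nat_lit 76) (XT.lf (nat_lit 0) (nat_lit 50270025417) (nat_lit 532) (nat_lit 78380069324) (nat_lit 532) (nat_lit 78380069324) (nat_lit 32) (nat_lit 3) (nat_lit 39) (nat_lit 3) (nat_lit 39) (nat_lit 5) (nat_lit 233) (nat_lit 233) (nat_lit 134)) (XT.lf (nat_lit 0) (nat_lit 113685692026) (nat_lit 456) (nat_lit 273600568908) (nat_lit 532) (nat_lit 57380176908) (nat_lit 33) (nat_lit 5) (nat_lit 39) (nat_lit 5) (nat_lit 40) (nat_lit 5) (nat_lit 234) (nat_lit 233) (nat_lit 133))) (XT.nd (nat_lit 78) (nat_lit 0) (nat_lit 76) (XT.lf (nat_lit 76) (nat_lit 74554983660) (nat_lit 0) (nat_lit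 67839869650) (nat_lit 532) (nat_lit 336381277483) (nat_lit 34) (nat_lit 5) (nat_lit 33) (nat_lit 5) (nat_lit 40) (nat_lit 5) (nat_lit 235) (nat_lit 233) (nat_lit 132)) (XT.nd (nat_lit 78) (nat_lit 0) (nat_lit 76) (XT.lf (nat_lit 0) (nat_lit 190786325388) (nat_lit 456) (nat_lit 33273262680) (nat_lit 532) (nat_lit 292712615296) (nat_lit 34) (nat_lit 5) (nat_lit 40) (nat_lit 5) (nat_lit 41) (nat_lit 5) (nat_lit 236) (nat_lit 233) (nat_lit 131)) (XT.lf (nat_lit 0) (nat_lit 261922228985) (nat_lit 456) (nat_lit 151171408764) (nat_lit 76) (nat_lit 146135192739) (nat_lit 35) (nat_lit 5) (nat_lit 41) (nat_lit 5) (nat_lit 36) (nat_lit 5) (nat_lit 237) (nat_lit 233) (nat_lit 130))))))))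
noncomputable def xc60 : XT := (XT.nd (nat_lit 31200) (nat_lit 0) (nat_lit 76) (XT.nd (nat_lit 702) (nat_lit 532) (nat_lit 0) (XT.nd (nat_lit 312) (nat_lit 684) (nat_lit 0) (XT.nd (nat_lit 156) (nat_lit 228) (nat_lit 0) (XT.nd (nat_lit 78) (nat_lit 228) (nat_lit 0) (XT.lf (nat_lit 0) (nat_lit 319380738016) (nat_lit 456) (nat_lit 39219632649) (nat_lit 532) (nat_lit 248263833272) (nat_lit 29) (nat_lit 5) (nat_lit 35) (nat_lit 5) (nat_lit 36) (nat_lit 5) (nat_lit 238) (nat_lit 233) (nat_lit 129)) (XT.lf (nat_lit 0) (nat_lit 209337741105) (nat_lit 228) (nat_lit 279389712658) (nat_lit 304) (nat_lit 171401652424) (nat_lit 26) (nat_lit 5) (nat_lit 29) (nat_lit 5) (nat_lit 30) (nat_lit 5) (nat_lit 239) (nat_lit 233) (nat_lit 128))) (XT.nd (nat_lit 78) (nat_lit 76) (nat_lit 0) (XT.lf (nat_lit 0) (nat_lit 76562715078) (nat_lit 152) (nat_lit 576666222221) (nat_lit 228) (nat_lit 66966379785) (nat_lit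 24) (nat_lit 5) (nat_lit 26) (nat_lit 5) (nat_lit 27) (nat_lit 5) (nat_lit 240) (nat_lit 233) (nat_lit 127)) (XT.lf (nat_lit 0) (nat_lit 71668568689) (nat_lit 228) (nat_lit 87249113684) (nat_lit 76) (nat_lit 628556157487) (nat_lit 23) (nat_lit 5) (nat_lit 26) (nat_lit 5) (nat_lit 24) (nat_lit 5) (nat_lit 241) (nat_lit 233) (nat_lit 126)))) (XT.nd (nat_lit 156) (nat_lit 304) (nat_lit 0) (XT.nd (nat_lit 78) (nat_lit 152) (nat_lit 0) (XT.lf (nat_lit 0) (nat_lit 249331246494) (nat_lit 304) (nat_lit 291982031529) (nat_lit 76) (nat_lit 321615900831) (nat_lit 20) (nat_lit 5) (nat_lit 24) (nat_lit 5) (nat_lit 21) (nat_lit 5) (nat_lit 242) (nat_lit 233) (nat_lit 125)) (XT.lf (nat_lit 0) (nat_lit 399163243111) (nat_lit 152) (nat_lit 71081339269) (nat_lit 228) (nat_lit 478130136015) (nat_lit 18) (nat_lit 5) (nat_lit 20) (nat_lit 5) (nat_lit 21) (nat_lit 5) (nat_lit 243) (nat_lit 233) (nat_lit 124)))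 (XT.nd (nat_lit 78) (nat_lit 152) (nat_lit 0) (XT.lf (nat_lit 0) (nat_lit 162307297214) (nat_lit 152) (nat_lit 585908564218) (nat_lit 228) (nat_lit 296507552195) (nat_lit 16) (nat_lit 5) (nat_lit 18) (nat_lit 5) (nat_lit 19) (nat_lit 5) (nat_lit 244) (nat_lit 233) (nat_lit 123)) (XT.nd (nat_lit 78) (nat_lit 152) (nat_lit 0) (XT.lf (nat_lit 0) (nat_lit 1011742959740) (nat_lit 152) (nat_lit 74045703429) (nat_lit 228) (nat_lit 68303283667) (nat_lit 16) (nat_lit 5) (nat_lit 18) (nat_lit 5) (nat_lit 19) (nat_lit 5) (nat_lit 245) (nat_lit 233) (nat_lit 122)) (XT.lf (nat_lit 0) (nat_lit 215204928403) (nat_lit 152) (nat_lit 549892794696) (nat_lit 76) (nat_lit 511931763166) (nat_lit 14) (nat_lit 5) (nat_lit 16) (nat_lit 5) (nat_lit 15) (nat_lit 5) (nat_lit 246) (nat_lit 233) (nat_lit 121)))))) (XT.nd (nat_lit 390) (nat_lit 76) (nat_lit 0) (XT.nd (nat_lit 156) (nat_lit 304) (nat_lit 0) (XT.nd (nat_lit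 78) (nat_lit 0) (nat_lit 0) (XT.lf (nat_lit 0) (nat_lit 330055331392) (nat_lit 152) (nat_lit 221492427752) (nat_lit 228) (nat_lit 865569752397) (nat_lit 12) (nat_lit 5) (nat_lit 14) (nat_lit 5) (nat_lit 15) (nat_lit 5) (nat_lit 247) (nat_lit 233) (nat_lit 120)) (XT.lf (nat_lit 0) (nat_lit 964475238647) (nat_lit 228) (nat_lit 211766216323) (nat_lit 76) (nat_lit 399886627803) (nat_lit 12) (nat_lit 5) (nat_lit 15) (nat_lit 5) (nat_lit 13) (nat_lit 4) (nat_lit 248) (nat_lit 233) (nat_lit 119))) (XT.nd (nat_lit 78) (nat_lit 228) (nat_lit 0) (XT.lf (nat_lit 0) (nat_lit 830229622740) (nat_lit 76) (nat_lit 635205170656) (nat_lit 152) (nat_lit 291468010112) (nat_lit 11) (nat_lit 5) (nat_lit 12) (nat_lit 5) (nat_lit 13) (nat_lit 4) (nat_lit 249) (nat_lit 233) (nat_lit 118)) (XT.nd (nat_lit 78) (nat_lit 0) (nat_lit 0) (XT.lf (nat_lit 0) (nat_lit 78993970100) (nat_lit 152) (nat_lit 2136776516) (nat_lit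 228) (nat_lit 1882857307486) (nat_lit 8) (nat_lit 5) (nat_lit 10) (nat_lit 5) (nat_lit 11) (nat_lit 5) (nat_lit 250) (nat_lit 233) (nat_lit 117)) (XT.lf (nat_lit 0) (nat_lit 537989391521) (nat_lit 228) (nat_lit 934569847233) (nat_lit 76) (nat_lit 725320947101) (nat_lit 8) (nat_lit 5) (nat_lit 11) (nat_lit 5) (nat_lit 9) (nat_lit 4) (nat_lit 251) (nat_lit 233) (nat_lit 116))))) (XT.nd (nat_lit 29874) (nat_lit 0) (nat_lit 1900) (XT.nd (nat_lit 78) (nat_lit 0) (nat_lit 0) (XT.lf (nat_lit 0) (nat_lit 166697798928) (nat_lit 76) (nat_lit 900747201900) (nat_lit 152) (nat_lit 1399085683182) (nat_lit 7) (nat_lit 5) (nat_lit 8) (nat_lit 5) (nat_lit 9) (nat_lit 4) (nat_lit 252) (nat_lit 233) (nat_lit 115)) (XT.lf (nat_lit 0) (nat_lit 1489750277864) (nat_lit 76) (nat_lit 213777654390) (nat_lit 152) (nat_lit 1069774106219) (nat_lit 7) (nat_lit 5) (nat_lit 8) (nat_lit 5) (nat_lit 9) (nat_lit 4) (nat_lit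 253) (nat_lit 233) (nat_lit 114))) (XT.nd (nat_lit 78) (nat_lit 0) (nat_lit 76) (XT.lf (nat_lit 0) (nat_lit 57811109093) (nat_lit 532) (nat_lit 90136764723) (nat_lit 532) (nat_lit 90136764723) (nat_lit 32) (nat_lit 3) (nat_lit 39) (nat_lit 3) (nat_lit 39) (nat_lit 5) (nat_lit 234) (nat_lit 234) (nat_lit 132)) (XT.nd (nat_lit 78) (nat_lit 0) (nat_lit 0) (XT.lf (nat_lit 0) (nat_lit 130739557440) (nat_lit 456) (nat_lit 314639978551) (nat_lit 532) (nat_lit 65986780083) (nat_lit 33) (nat_lit 5) (nat_lit 39) (nat_lit 5) (nat_lit 40) (nat_lit 5) (nat_lit 235) (nat_lit 234) (nat_lit 131)) (XT.lf (nat_lit 76) (nat_lit 85738849708) (nat_lit 0) (nat_lit 78016126134) (nat_lit 532) (nat_lit 386837497341) (nat_lit 34) (nat_lit 5) (nat_lit 33) (nat_lit 5) (nat_lit 40) (nat_lit 5) (nat_lit 236) (nat_lit 234) (nat_lit 130))))))) (XT.nd (nat_lit 702) (nat_lit 608) (nat_lit 0) (XT.nd (nat_lit 312) (nat_lit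 760) (nat_lit 0) (XT.nd (nat_lit 156) (nat_lit 608) (nat_lit 0) (XT.nd (nat_lit 78) (nat_lit 0) (nat_lit 76) (XT.lf (nat_lit 0) (nat_lit 219405046281) (nat_lit 456) (nat_lit 38263641328) (nat_lit 532) (nat_lit 336619279566) (nat_lit 34) (nat_lit 5) (nat_lit 40) (nat_lit 5) (nat_lit 41) (nat_lit 5) (nat_lit 237) (nat_lit 234) (nat_lit 129)) (XT.lf (nat_lit 0) (nat_lit 301211245132) (nat_lit 456) (nat_lit 173846498928) (nat_lit 76) (nat_lit 168055352175) (nat_lit 35) (nat_lit 5) (nat_lit 41) (nat_lit 5) (nat_lit 36) (nat_lit 5) (nat_lit 238) (nat_lit 234) (nat_lit 128))) (XT.nd (nat_lit 78) (nat_lit 228) (nat_lit 0) (XT.lf (nat_lit 0) (nat_lit 367288417292) (nat_lit 456) (nat_lit 45102615515) (nat_lit 532) (nat_lit 285502749472) (nat_lit 29) (nat_lit 5) (nat_lit 35) (nat_lit 5) (nat_lit 36) (nat_lit 5) (nat_lit 239) (nat_lit 234) (nat_lit 127)) (XT.lf (nat_lit 0) (nat_lit 240738971380)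 (nat_lit 228) (nat_lit 321298140769) (nat_lit 304) (nat_lit 197111313502) (nat_lit 26) (nat_lit 5) (nat_lit 29) (nat_lit 5) (nat_lit 30) (nat_lit 5) (nat_lit 240) (nat_lit 234) (nat_lit 126)))) (XT.nd (nat_lit 156) (nat_lit 532) (nat_lit 0) (XT.nd (nat_lit 78) (nat_lit 76) (nat_lit 0) (XT.lf (nat_lit 0) (nat_lit 88047685174) (nat_lit 152) (nat_lit 663166076702) (nat_lit 228) (nat_lit 77010811234) (nat_lit 24) (nat_lit 5) (nat_lit 26) (nat_lit 5) (nat_lit 27) (nat_lit 5) (nat_lit 241) (nat_lit 234) (nat_lit 125)) (XT.lf (nat_lit 0) (nat_lit 82419288105) (nat_lit 228) (nat_lit 100335966188) (nat_lit 76) (nat_lit 722839624550) (nat_lit 23) (nat_lit 5) (nat_lit 26) (nat_lit 5) (nat_lit 24) (nat_lit 5) (nat_lit 242) (nat_lit 234) (nat_lit 124))) (XT.nd (nat_lit 78) (nat_lit 304) (nat_lit 0) (XT.lf (nat_lit 0) (nat_lit 286731324261) (nat_lit 304) (nat_lit 335778834162) (nat_lit 76) (nat_lit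 369858364023) (nat_lit 20) (nat_lit 5) (nat_lit 24) (nat_lit 5) (nat_lit 21) (nat_lit 5) (nat_lit 243) (nat_lit 234) (nat_lit 123)) (XT.nd (nat_lit 78) (nat_lit 152) (nat_lit 0) (XT.lf (nat_lit 0) (nat_lit 459038189174) (nat_lit 152) (nat_lit 81743431436) (nat_lit 228) (nat_lit 549849275758) (nat_lit 18) (nat_lit 5) (nat_lit 20) (nat_lit 5) (nat_lit 21) (nat_lit 5) (nat_lit 244) (nat_lit 234) (nat_lit 122)) (XT.lf (nat_lit 0) (nat_lit 186653837361) (nat_lit 152) (nat_lit 673794721383) (nat_lit 228) (nat_lit 340983339989) (nat_lit 16) (nat_lit 5) (nat_lit 18) (nat_lit 5) (nat_lit 19) (nat_lit 5) (nat_lit 245) (nat_lit 234) (nat_lit 121)))))) (XT.nd (nat_lit 390) (nat_lit 228) (nat_lit 0) (XT.nd (nat_lit 156) (nat_lit 228) (nat_lit 0) (XT.nd (nat_lit 78) (nat_lit 152) (nat_lit 0) (XT.lf (nat_lit 0) (nat_lit 1163504791149) (nat_lit 152) (nat_lit 85152448103) (nat_lit 228) (nat_lit 78548476186)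 (nat_lit 16) (nat_lit 5) (nat_lit 18) (nat_lit 5) (nat_lit 19) (nat_lit 5) (nat_lit 246) (nat_lit 234) (nat_lit 120)) (XT.lf (nat_lit 0) (nat_lit 247485927107) (nat_lit 152) (nat_lit 632376325541) (nat_lit 76) (nat_lit 588721634758) (nat_lit 14) (nat_lit 5) (nat_lit 16) (nat_lit 5) (nat_lit 15) (nat_lit 5) (nat_lit 247) (nat_lit 234) (nat_lit 119))) (XT.nd (nat_lit 78) (nat_lit 76) (nat_lit 0) (XT.lf (nat_lit 0) (nat_lit 379563986589) (nat_lit 152) (nat_lit 254716170580) (nat_lit 228) (nat_lit 995404961463) (nat_lit 12) (nat_lit 5) (nat_lit 14) (nat_lit 5) (nat_lit 15) (nat_lit 5) (nat_lit 248) (nat_lit 234) (nat_lit 118)) (XT.nd (nat_lit 78) (nat_lit 76) (nat_lit 0) (XT.lf (nat_lit 0) (nat_lit 1109146730592) (nat_lit 228) (nat_lit 243530825112) (nat_lit 76) (nat_lit 459869722204) (nat_lit 12) (nat_lit 5) (nat_lit 15) (nat_lit 5) (nat_lit 13) (nat_lit 4) (nat_lit 249) (nat_lit 234) (nat_lit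 117)) (XT.lf (nat_lit 0) (nat_lit 954764362416) (nat_lit 76) (nat_lit 730485836375) (nat_lit 152) (nat_lit 335188009647) (nat_lit 11) (nat_lit 5) (nat_lit 12) (nat_lit 5) (nat_lit 13) (nat_lit 4) (nat_lit 250) (nat_lit 234) (nat_lit 116))))) (XT.nd (nat_lit 30030) (nat_lit 0) (nat_lit 1824) (XT.nd (nat_lit 78) (nat_lit 0) (nat_lit 0) (XT.lf (nat_lit 0) (nat_lit 90843346632) (nat_lit 152) (nat_lit 2457185585) (nat_lit 228) (nat_lit 2165285715558) (nat_lit 8) (nat_lit 5) (nat_lit 10) (nat_lit 5) (nat_lit 11) (nat_lit 5) (nat_lit 251) (nat_lit 234) (nat_lit 115)) (XT.lf (nat_lit 0) (nat_lit 618687953460) (nat_lit 228) (nat_lit 1074755069643) (nat_lit 76) (nat_lit 834119177892) (nat_lit 8) (nat_lit 5) (nat_lit 11) (nat_lit 5) (nat_lit 9) (nat_lit 4) (nat_lit 252) (nat_lit 234) (nat_lit 114))) (XT.nd (nat_lit 78) (nat_lit 0) (nat_lit 76) (XT.lf (nat_lit 0) (nat_lit 66483213918) (nat_lit 532)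 (nat_lit 103657041246) (nat_lit 532) (nat_lit 103657041246) (nat_lit 32) (nat_lit 3) (nat_lit 39) (nat_lit 3) (nat_lit 39) (nat_lit 5) (nat_lit 235) (nat_lit 235) (nat_lit 130)) (XT.nd (nat_lit 78) (nat_lit 0) (nat_lit 0) (XT.lf (nat_lit 0) (nat_lit 150351255978) (nat_lit 456) (nat_lit 361835464413) (nat_lit 532) (nat_lit 75884476974) (nat_lit 33) (nat_lit 5) (nat_lit 39) (nat_lit 5) (nat_lit 40) (nat_lit 5) (nat_lit 236) (nat_lit 235) (nat_lit 129)) (XT.lf (nat_lit 76) (nat_lit 98600144838) (nat_lit 0) (nat_lit 89718753777) (nat_lit 532) (nat_lit 444862387149) (nat_lit 34) (nat_lit 5) (nat_lit 33) (nat_lit 5) (nat_lit 40) (nat_lit 5) (nat_lit 237) (nat_lit 235) (nat_lit 128))))))))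
noncomputable def xc61 : XT := (XT.nd (nat_lit 31434) (nat_lit 0) (nat_lit 228) (XT.nd (nat_lit 702) (nat_lit 608) (nat_lit 0) (XT.nd (nat_lit 312) (nat_lit 760) (nat_lit 0) (XT.nd (nat_lit 156) (nat_lit 608) (nat_lit 0) (XT.nd (nat_lit 78) (nat_lit 0) (nat_lit 76) (XT.lf (nat_lit 0) (nat_lit 252316387029) (nat_lit 456) (nat_lit 44002725710) (nat_lit 532) (nat_lit 387111999081) (nat_lit 34) (nat_lit 5) (nat_lit 40) (nat_lit 5) (nat_lit 41) (nat_lit 5) (nat_lit 238) (nat_lit 235) (nat_lit 127)) (XT.lf (nat_lit 0) (nat_lit 346393447439) (nat_lit 456) (nat_lit 199923004088) (nat_lit 76) (nat_lit 193263564660) (nat_lit 35) (nat_lit 5) (nat_lit 41) (nat_lit 5) (nat_lit 36) (nat_lit 5) (nat_lit 239) (nat_lit 235) (nat_lit 126))) (XT.nd (nat_lit 78) (nat_lit 228) (nat_lit 0) (XT.lf (nat_lit 0) (nat_lit 422382109809) (nat_lit 456) (nat_lit 51868036553) (nat_lit 532) (nat_lit 328327663752) (nat_lit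 29) (nat_lit 5) (nat_lit 35) (nat_lit 5) (nat_lit 36) (nat_lit 5) (nat_lit 240) (nat_lit 235) (nat_lit 125)) (XT.lf (nat_lit 0) (nat_lit 276850247415) (nat_lit 228) (nat_lit 369492840116) (nat_lit 304) (nat_lit 226677566832) (nat_lit 26) (nat_lit 5) (nat_lit 29) (nat_lit 5) (nat_lit 30) (nat_lit 5) (nat_lit 241) (nat_lit 235) (nat_lit 124)))) (XT.nd (nat_lit 156) (nat_lit 532) (nat_lit 0) (XT.nd (nat_lit 78) (nat_lit 76) (nat_lit 0) (XT.lf (nat_lit 0) (nat_lit 101255263535) (nat_lit 152) (nat_lit 762640928584) (nat_lit 228) (nat_lit 88562035552) (nat_lit 24) (nat_lit 5) (nat_lit 26) (nat_lit 5) (nat_lit 27) (nat_lit 5) (nat_lit 242) (nat_lit 235) (nat_lit 123)) (XT.lf (nat_lit 0) (nat_lit 94782509572) (nat_lit 228) (nat_lit 115385972043) (nat_lit 76) (nat_lit 831265601079) (nat_lit 23) (nat_lit 5) (nat_lit 26) (nat_lit 5) (nat_lit 24) (nat_lit 5) (nat_lit 243) (nat_lit 235) (nat_lit 122)))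 (XT.nd (nat_lit 78) (nat_lit 304) (nat_lit 0) (XT.lf (nat_lit 0) (nat_lit 329741318396) (nat_lit 304) (nat_lit 386145279630) (nat_lit 76) (nat_lit 425337177657) (nat_lit 20) (nat_lit 5) (nat_lit 24) (nat_lit 5) (nat_lit 21) (nat_lit 5) (nat_lit 244) (nat_lit 235) (nat_lit 121)) (XT.nd (nat_lit 78) (nat_lit 152) (nat_lit 0) (XT.lf (nat_lit 0) (nat_lit 527894265072) (nat_lit 152) (nat_lit 94004863942) (nat_lit 228) (nat_lit 632326379290) (nat_lit 18) (nat_lit 5) (nat_lit 20) (nat_lit 5) (nat_lit 21) (nat_lit 5) (nat_lit 245) (nat_lit 235) (nat_lit 120)) (XT.lf (nat_lit 0) (nat_lit 214652249875) (nat_lit 152) (nat_lit 774863833207) (nat_lit 228) (nat_lit 392130580090) (nat_lit 16) (nat_lit 5) (nat_lit 18) (nat_lit 5) (nat_lit 19) (nat_lit 5) (nat_lit 246) (nat_lit 235) (nat_lit 119)))))) (XT.nd (nat_lit 390) (nat_lit 228) (nat_lit 0) (XT.nd (nat_lit 156) (nat_lit 228) (nat_lit 0) (XT.nd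 (nat_lit 78) (nat_lit 152) (nat_lit 0) (XT.lf (nat_lit 0) (nat_lit 1338030802787) (nat_lit 152) (nat_lit 97925231506) (nat_lit 228) (nat_lit 90330520748) (nat_lit 16) (nat_lit 5) (nat_lit 18) (nat_lit 5) (nat_lit 19) (nat_lit 5) (nat_lit 247) (nat_lit 235) (nat_lit 118)) (XT.lf (nat_lit 0) (nat_lit 284609012350) (nat_lit 152) (nat_lit 727232480716) (nat_lit 76) (nat_lit 677029960967) (nat_lit 14) (nat_lit 5) (nat_lit 16) (nat_lit 5) (nat_lit 15) (nat_lit 5) (nat_lit 248) (nat_lit 235) (nat_lit 117))) (XT.nd (nat_lit 78) (nat_lit 76) (nat_lit 0) (XT.lf (nat_lit 0) (nat_lit 436498853377) (nat_lit 152) (nat_lit 292923504421) (nat_lit 228) (nat_lit 1144715513779) (nat_lit 12) (nat_lit 5) (nat_lit 14) (nat_lit 5) (nat_lit 15) (nat_lit 5) (nat_lit 249) (nat_lit 235) (nat_lit 116)) (XT.nd (nat_lit 78) (nat_lit 76) (nat_lit 0) (XT.lf (nat_lit 0) (nat_lit 1275518896059) (nat_lit 228) (nat_lit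 280060204145) (nat_lit 76) (nat_lit 528850256324) (nat_lit 12) (nat_lit 5) (nat_lit 15) (nat_lit 5) (nat_lit 13) (nat_lit 4) (nat_lit 250) (nat_lit 235) (nat_lit 115)) (XT.lf (nat_lit 0) (nat_lit 1097979240796) (nat_lit 76) (nat_lit 840058628747) (nat_lit 152) (nat_lit 385466058367) (nat_lit 11) (nat_lit 5) (nat_lit 12) (nat_lit 5) (nat_lit 13) (nat_lit 4) (nat_lit 251) (nat_lit 235) (nat_lit 114))))) (XT.nd (nat_lit 30108) (nat_lit 0) (nat_lit 1900) (XT.nd (nat_lit 30030) (nat_lit 0) (nat_lit 1824) (XT.lf (nat_lit 0) (nat_lit 104470061117) (nat_lit 152) (nat_lit 2825682206) (nat_lit 228) (nat_lit 2490078430699) (nat_lit 8) (nat_lit 5) (nat_lit 10) (nat_lit 5) (nat_lit 11) (nat_lit 5) (nat_lit 252) (nat_lit 235) (nat_lit 113)) (XT.lf (nat_lit 0) (nat_lit 76456027544) (nat_lit 532) (nat_lit 119205417331) (nat_lit 532) (nat_lit 119205417331) (nat_lit 32) (nat_lit 3) (nat_lit 39) (nat_lit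 3) (nat_lit 39) (nat_lit 5) (nat_lit 236) (nat_lit 236) (nat_lit 128))) (XT.nd (nat_lit 78) (nat_lit 0) (nat_lit 0) (XT.lf (nat_lit 0) (nat_lit 172904522766) (nat_lit 456) (nat_lit 416110397745) (nat_lit 532) (nat_lit 87266906462) (nat_lit 33) (nat_lit 5) (nat_lit 39) (nat_lit 5) (nat_lit 40) (nat_lit 5) (nat_lit 237) (nat_lit 236) (nat_lit 127)) (XT.nd (nat_lit 78) (nat_lit 0) (nat_lit 76) (XT.lf (nat_lit 76) (nat_lit 113390520193) (nat_lit 0) (nat_lit 103176724669) (nat_lit 532) (nat_lit 511591189612) (nat_lit 34) (nat_lit 5) (nat_lit 33) (nat_lit 5) (nat_lit 40) (nat_lit 5) (nat_lit 238) (nat_lit 236) (nat_lit 126)) (XT.lf (nat_lit 0) (nat_lit 290164286526) (nat_lit 456) (nat_lit 50602785366) (nat_lit 532) (nat_lit 445178668570) (nat_lit 34) (nat_lit 5) (nat_lit 40) (nat_lit 5) (nat_lit 41) (nat_lit 5) (nat_lit 239) (nat_lit 236) (nat_lit 125))))))) (XT.nd (nat_lit 702) (nat_lit 380)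 (nat_lit 0) (XT.nd (nat_lit 312) (nat_lit 608) (nat_lit 0) (XT.nd (nat_lit 156) (nat_lit 380) (nat_lit 0) (XT.nd (nat_lit 78) (nat_lit 456) (nat_lit 0) (XT.lf (nat_lit 0) (nat_lit 398352854375) (nat_lit 456) (nat_lit 229911099556) (nat_lit 76) (nat_lit 222253031049) (nat_lit 35) (nat_lit 5) (nat_lit 41) (nat_lit 5) (nat_lit 36) (nat_lit 5) (nat_lit 240) (nat_lit 236) (nat_lit 124)) (XT.lf (nat_lit 0) (nat_lit 485739751365) (nat_lit 456) (nat_lit 59648263744) (nat_lit 532) (nat_lit 377576436649) (nat_lit 29) (nat_lit 5) (nat_lit 35) (nat_lit 5) (nat_lit 36) (nat_lit 5) (nat_lit 241) (nat_lit 236) (nat_lit 123))) (XT.nd (nat_lit 78) (nat_lit 152) (nat_lit 0) (XT.lf (nat_lit 0) (nat_lit 318378109918) (nat_lit 228) (nat_lit 424916749674) (nat_lit 304) (nat_lit 260678866360) (nat_lit 26) (nat_lit 5) (nat_lit 29) (nat_lit 5) (nat_lit 30) (nat_lit 5) (nat_lit 242) (nat_lit 236) (nat_lit 122))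 (XT.lf (nat_lit 0) (nat_lit 116443874868) (nat_lit 152) (nat_lit 877037022787) (nat_lit 228) (nat_lit 101846040418) (nat_lit 24) (nat_lit 5) (nat_lit 26) (nat_lit 5) (nat_lit 27) (nat_lit 5) (nat_lit 243) (nat_lit 236) (nat_lit 121)))) (XT.nd (nat_lit 156) (nat_lit 304) (nat_lit 0) (XT.nd (nat_lit 78) (nat_lit 228) (nat_lit 0) (XT.lf (nat_lit 0) (nat_lit 109000134214) (nat_lit 228) (nat_lit 132693573654) (nat_lit 76) (nat_lit 955955466078) (nat_lit 23) (nat_lit 5) (nat_lit 26) (nat_lit 5) (nat_lit 24) (nat_lit 5) (nat_lit 244) (nat_lit 236) (nat_lit 120)) (XT.lf (nat_lit 0) (nat_lit 379202739593) (nat_lit 304) (nat_lit 444066784499) (nat_lit 76) (nat_lit 489137798941) (nat_lit 20) (nat_lit 5) (nat_lit 24) (nat_lit 5) (nat_lit 21) (nat_lit 5) (nat_lit 245) (nat_lit 236) (nat_lit 119))) (XT.nd (nat_lit 78) (nat_lit 152) (nat_lit 0) (XT.lf (nat_lit 0) (nat_lit 607078667608) (nat_lit 152)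 (nat_lit 108105531370) (nat_lit 228) (nat_lit 727175118541) (nat_lit 18) (nat_lit 5) (nat_lit 20) (nat_lit 5) (nat_lit 21) (nat_lit 5) (nat_lit 246) (nat_lit 236) (nat_lit 118)) (XT.nd (nat_lit 78) (nat_lit 0) (nat_lit 0) (XT.lf (nat_lit 0) (nat_lit 246850342110) (nat_lit 152) (nat_lit 891093335308) (nat_lit 228) (nat_lit 450949969828) (nat_lit 16) (nat_lit 5) (nat_lit 18) (nat_lit 5) (nat_lit 19) (nat_lit 5) (nat_lit 247) (nat_lit 236) (nat_lit 117)) (XT.lf (nat_lit 0) (nat_lit 1538735644729) (nat_lit 152) (nat_lit 112613952858) (nat_lit 228) (nat_lit 103879927316) (nat_lit 16) (nat_lit 5) (nat_lit 18) (nat_lit 5) (nat_lit 19) (nat_lit 5) (nat_lit 248) (nat_lit 236) (nat_lit 116)))))) (XT.nd (nat_lit 30420) (nat_lit 0) (nat_lit 1368) (XT.nd (nat_lit 156) (nat_lit 76) (nat_lit 0) (XT.nd (nat_lit 78) (nat_lit 152) (nat_lit 0) (XT.lf (nat_lit 0) (nat_lit 327300512541) (nat_lit 152) (nat_lit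 836317130777) (nat_lit 76) (nat_lit 778584516357) (nat_lit 14) (nat_lit 5) (nat_lit 16) (nat_lit 5) (nat_lit 15) (nat_lit 5) (nat_lit 249) (nat_lit 236) (nat_lit 115)) (XT.lf (nat_lit 0) (nat_lit 501973884634) (nat_lit 152) (nat_lit 336861960711) (nat_lit 228) (nat_lit 1316422695739) (nat_lit 12) (nat_lit 5) (nat_lit 14) (nat_lit 5) (nat_lit 15) (nat_lit 5) (nat_lit 250) (nat_lit 236) (nat_lit 114))) (XT.nd (nat_lit 78) (nat_lit 76) (nat_lit 0) (XT.lf (nat_lit 0) (nat_lit 1466846848334) (nat_lit 228) (nat_lit 322069049713) (nat_lit 76) (nat_lit 608177852079) (nat_lit 12) (nat_lit 5) (nat_lit 15) (nat_lit 5) (nat_lit 13) (nat_lit 4) (nat_lit 251) (nat_lit 236) (nat_lit 113)) (XT.nd (nat_lit 30108) (nat_lit 0) (nat_lit 1596) (XT.lf (nat_lit 0) (nat_lit 1262676296306) (nat_lit 76) (nat_lit 966067360235) (nat_lit 152) (nat_lit 443285851638) (nat_lit 11) (nat_lit 5) (nat_lit 12) (nat_lit 5)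 (nat_lit 13) (nat_lit 4) (nat_lit 252) (nat_lit 236) (nat_lit 112)) (XT.lf (nat_lit 0) (nat_lit 87924682367) (nat_lit 532) (nat_lit 137086093748) (nat_lit 532) (nat_lit 137086093748) (nat_lit 32) (nat_lit 3) (nat_lit 39) (nat_lit 3) (nat_lit 39) (nat_lit 5) (nat_lit 237) (nat_lit 237) (nat_lit 126))))) (XT.nd (nat_lit 156) (nat_lit 304) (nat_lit 0) (XT.nd (nat_lit 78) (nat_lit 0) (nat_lit 0) (XT.lf (nat_lit 0) (nat_lit 198840638528) (nat_lit 456) (nat_lit 478526665286) (nat_lit 532) (nat_lit 100356759401) (nat_lit 33) (nat_lit 5) (nat_lit 39) (nat_lit 5) (nat_lit 40) (nat_lit 5) (nat_lit 238) (nat_lit 237) (nat_lit 125)) (XT.lf (nat_lit 76) (nat_lit 130399365617) (nat_lit 0) (nat_lit 118653352707) (nat_lit 532) (nat_lit 588329447933) (nat_lit 34) (nat_lit 5) (nat_lit 33) (nat_lit 5) (nat_lit 40) (nat_lit 5) (nat_lit 239) (nat_lit 237) (nat_lit 124))) (XT.nd (nat_lit 78) (nat_lit 380)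 (nat_lit 0) (XT.lf (nat_lit 0) (nat_lit 333689263298) (nat_lit 456) (nat_lit 58192939126) (nat_lit 532) (nat_lit 511955370274) (nat_lit 34) (nat_lit 5) (nat_lit 40) (nat_lit 5) (nat_lit 41) (nat_lit 5) (nat_lit 240) (nat_lit 237) (nat_lit 123)) (XT.nd (nat_lit 78) (nat_lit 456) (nat_lit 0) (XT.lf (nat_lit 0) (nat_lit 458106077292) (nat_lit 456) (nat_lit 264397495949) (nat_lit 76) (nat_lit 255590934054) (nat_lit 35) (nat_lit 5) (nat_lit 41) (nat_lit 5) (nat_lit 36) (nat_lit 5) (nat_lit 241) (nat_lit 237) (nat_lit 122)) (XT.lf (nat_lit 0) (nat_lit 558600959880) (nat_lit 456) (nat_lit 68595519721) (nat_lit 532) (nat_lit 434212617332) (nat_lit 29) (nat_lit 5) (nat_lit 35) (nat_lit 5) (nat_lit 36) (nat_lit 5) (nat_lit 242) (nat_lit 237) (nat_lit 121))))))))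
noncomputable def xc62 : XT := (XT.nd (nat_lit 31668) (nat_lit 0) (nat_lit 152) (XT.nd (nat_lit 30888) (nat_lit 0) (nat_lit 608) (XT.nd (nat_lit 312) (nat_lit 608) (nat_lit 0) (XT.nd (nat_lit 156) (nat_lit 304) (nat_lit 0) (XT.nd (nat_lit 78) (nat_lit 152) (nat_lit 0) (XT.lf (nat_lit 0) (nat_lit 366135072447) (nat_lit 228) (nat_lit 488654249680) (nat_lit 304) (nat_lit 299780442630) (nat_lit 26) (nat_lit 5) (nat_lit 29) (nat_lit 5) (nat_lit 30) (nat_lit 5) (nat_lit 243) (nat_lit 237) (nat_lit 120)) (XT.lf (nat_lit 0) (nat_lit 133910699427) (nat_lit 152) (nat_lit 1008592542115) (nat_lit 228) (nat_lit 117122719285) (nat_lit 24) (nat_lit 5) (nat_lit 26) (nat_lit 5) (nat_lit 27) (nat_lit 5) (nat_lit 244) (nat_lit 237) (nat_lit 119))) (XT.nd (nat_lit 78) (nat_lit 228) (nat_lit 0) (XT.lf (nat_lit 0) (nat_lit 125350342025) (nat_lit 228) (nat_lit 152597387248) (nat_lit 76) (nat_lit 1099348804769)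 (nat_lit 23) (nat_lit 5) (nat_lit 26) (nat_lit 5) (nat_lit 24) (nat_lit 5) (nat_lit 245) (nat_lit 237) (nat_lit 118)) (XT.lf (nat_lit 0) (nat_lit 436083319483) (nat_lit 304) (nat_lit 510676585103) (nat_lit 76) (nat_lit 562508502533) (nat_lit 20) (nat_lit 5) (nat_lit 24) (nat_lit 5) (nat_lit 21) (nat_lit 5) (nat_lit 246) (nat_lit 237) (nat_lit 117)))) (XT.nd (nat_lit 156) (nat_lit 304) (nat_lit 0) (XT.nd (nat_lit 78) (nat_lit 152) (nat_lit 0) (XT.lf (nat_lit 0) (nat_lit 698140666446) (nat_lit 152) (nat_lit 124321314072) (nat_lit 228) (nat_lit 836251221753) (nat_lit 18) (nat_lit 5) (nat_lit 20) (nat_lit 5) (nat_lit 21) (nat_lit 5) (nat_lit 247) (nat_lit 237) (nat_lit 116)) (XT.lf (nat_lit 0) (nat_lit 283878086056) (nat_lit 152) (nat_lit 1024757280497) (nat_lit 228) (nat_lit 518592316134) (nat_lit 16) (nat_lit 5) (nat_lit 18) (nat_lit 5) (nat_lit 19) (nat_lit 5) (nat_lit 248) (nat_lit 237)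 (nat_lit 115))) (XT.nd (nat_lit 78) (nat_lit 304) (nat_lit 0) (XT.lf (nat_lit 0) (nat_lit 1769546158943) (nat_lit 152) (nat_lit 129505997867) (nat_lit 228) (nat_lit 119461786702) (nat_lit 16) (nat_lit 5) (nat_lit 18) (nat_lit 5) (nat_lit 19) (nat_lit 5) (nat_lit 249) (nat_lit 237) (nat_lit 114)) (XT.nd (nat_lit 78) (nat_lit 152) (nat_lit 0) (XT.lf (nat_lit 0) (nat_lit 376395701587) (nat_lit 152) (nat_lit 961764532495) (nat_lit 76) (nat_lit 895372240120) (nat_lit 14) (nat_lit 5) (nat_lit 16) (nat_lit 5) (nat_lit 15) (nat_lit 5) (nat_lit 250) (nat_lit 237) (nat_lit 113)) (XT.lf (nat_lit 0) (nat_lit 577270121016) (nat_lit 152) (nat_lit 387391202361) (nat_lit 228) (nat_lit 1513885990379) (nat_lit 12) (nat_lit 5) (nat_lit 14) (nat_lit 5) (nat_lit 15) (nat_lit 5) (nat_lit 251) (nat_lit 237) (nat_lit 112)))))) (XT.nd (nat_lit 390) (nat_lit 912) (nat_lit 0) (XT.nd (nat_lit 156) (nat_lit 0) (nat_lit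 76) (XT.nd (nat_lit 78) (nat_lit 0) (nat_lit 76) (XT.lf (nat_lit 0) (nat_lit 101113574281) (nat_lit 532) (nat_lit 157648904836) (nat_lit 532) (nat_lit 157648904836) (nat_lit 32) (nat_lit 3) (nat_lit 39) (nat_lit 3) (nat_lit 39) (nat_lit 5) (nat_lit 238) (nat_lit 238) (nat_lit 124)) (XT.lf (nat_lit 0) (nat_lit 228667065004) (nat_lit 456) (nat_lit 550305444193) (nat_lit 532) (nat_lit 115410134914) (nat_lit 33) (nat_lit 5) (nat_lit 39) (nat_lit 5) (nat_lit 40) (nat_lit 5) (nat_lit 239) (nat_lit 238) (nat_lit 123))) (XT.nd (nat_lit 78) (nat_lit 0) (nat_lit 76) (XT.lf (nat_lit 76) (nat_lit 149959472648) (nat_lit 0) (nat_lit 136451445851) (nat_lit 532) (nat_lit 676578547452) (nat_lit 34) (nat_lit 5) (nat_lit 33) (nat_lit 5) (nat_lit 40) (nat_lit 5) (nat_lit 240) (nat_lit 238) (nat_lit 122)) (XT.nd (nat_lit 78) (nat_lit 0) (nat_lit 76) (XT.lf (nat_lit 0) (nat_lit 383742905188) (nat_lit 456)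 (nat_lit 66921680338) (nat_lit 532) (nat_lit 588748601274) (nat_lit 34) (nat_lit 5) (nat_lit 40) (nat_lit 5) (nat_lit 41) (nat_lit 5) (nat_lit 241) (nat_lit 238) (nat_lit 121)) (XT.lf (nat_lit 0) (nat_lit 526822211767) (nat_lit 456) (nat_lit 304056917286) (nat_lit 76) (nat_lit 293929535105) (nat_lit 35) (nat_lit 5) (nat_lit 41) (nat_lit 5) (nat_lit 36) (nat_lit 5) (nat_lit 242) (nat_lit 238) (nat_lit 120))))) (XT.nd (nat_lit 156) (nat_lit 456) (nat_lit 0) (XT.nd (nat_lit 78) (nat_lit 228) (nat_lit 0) (XT.lf (nat_lit 0) (nat_lit 642391289729) (nat_lit 456) (nat_lit 78884860091) (nat_lit 532) (nat_lit 499344294572) (nat_lit 29) (nat_lit 5) (nat_lit 35) (nat_lit 5) (nat_lit 36) (nat_lit 5) (nat_lit 243) (nat_lit 238) (nat_lit 119)) (XT.lf (nat_lit 0) (nat_lit 421055519357) (nat_lit 228) (nat_lit 561952377721) (nat_lit 304) (nat_lit 344747317203) (nat_lit 26) (nat_lit 5) (nat_lit 29) (nat_lit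 5) (nat_lit 30) (nat_lit 5) (nat_lit 244) (nat_lit 238) (nat_lit 118))) (XT.nd (nat_lit 78) (nat_lit 304) (nat_lit 0) (XT.lf (nat_lit 0) (nat_lit 153997488333) (nat_lit 152) (nat_lit 1159881397656) (nat_lit 228) (nat_lit 134690955385) (nat_lit 24) (nat_lit 5) (nat_lit 26) (nat_lit 5) (nat_lit 27) (nat_lit 5) (nat_lit 245) (nat_lit 238) (nat_lit 117)) (XT.nd (nat_lit 78) (nat_lit 228) (nat_lit 0) (XT.lf (nat_lit 0) (nat_lit 144153035241) (nat_lit 228) (nat_lit 175486827128) (nat_lit 76) (nat_lit 1264251139685) (nat_lit 23) (nat_lit 5) (nat_lit 26) (nat_lit 5) (nat_lit 24) (nat_lit 5) (nat_lit 246) (nat_lit 238) (nat_lit 116)) (XT.lf (nat_lit 0) (nat_lit 501495945156) (nat_lit 304) (nat_lit 587277908733) (nat_lit 76) (nat_lit 646884803434) (nat_lit 20) (nat_lit 5) (nat_lit 24) (nat_lit 5) (nat_lit 21) (nat_lit 5) (nat_lit 247) (nat_lit 238) (nat_lit 115))))))) (XT.nd (nat_lit 30966) (nat_lit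 0) (nat_lit 152) (XT.nd (nat_lit 30576) (nat_lit 0) (nat_lit 1368) (XT.nd (nat_lit 156) (nat_lit 152) (nat_lit 0) (XT.nd (nat_lit 78) (nat_lit 152) (nat_lit 0) (XT.lf (nat_lit 0) (nat_lit 802861916656) (nat_lit 152) (nat_lit 142969475641) (nat_lit 228) (nat_lit 961688780578) (nat_lit 18) (nat_lit 5) (nat_lit 20) (nat_lit 5) (nat_lit 21) (nat_lit 5) (nat_lit 248) (nat_lit 238) (nat_lit 114)) (XT.lf (nat_lit 0) (nat_lit 326459944620) (nat_lit 152) (nat_lit 1178470830902) (nat_lit 228) (nat_lit 596381050761) (nat_lit 16) (nat_lit 5) (nat_lit 18) (nat_lit 5) (nat_lit 19) (nat_lit 5) (nat_lit 249) (nat_lit 238) (nat_lit 113))) (XT.nd (nat_lit 78) (nat_lit 152) (nat_lit 0) (XT.lf (nat_lit 0) (nat_lit 2034978209441) (nat_lit 152) (nat_lit 148931861314) (nat_lit 228) (nat_lit 137380956626) (nat_lit 16) (nat_lit 5) (nat_lit 18) (nat_lit 5) (nat_lit 19) (nat_lit 5) (nat_lit 250) (nat_lit 238) (nat_lit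 112)) (XT.lf (nat_lit 0) (nat_lit 432855141637) (nat_lit 152) (nat_lit 1106029085414) (nat_lit 76) (nat_lit 1029678111154) (nat_lit 14) (nat_lit 5) (nat_lit 16) (nat_lit 5) (nat_lit 15) (nat_lit 5) (nat_lit 251) (nat_lit 238) (nat_lit 111)))) (XT.nd (nat_lit 156) (nat_lit 0) (nat_lit 76) (XT.nd (nat_lit 78) (nat_lit 0) (nat_lit 76) (XT.lf (nat_lit 0) (nat_lit 116280753757) (nat_lit 532) (nat_lit 181296162699) (nat_lit 532) (nat_lit 181296162699) (nat_lit 32) (nat_lit 3) (nat_lit 39) (nat_lit 3) (nat_lit 39) (nat_lit 5) (nat_lit 239) (nat_lit 239) (nat_lit 122)) (XT.lf (nat_lit 0) (nat_lit 262967374810) (nat_lit 456) (nat_lit 632851093801) (nat_lit 532) (nat_lit 132721550502) (nat_lit 33) (nat_lit 5) (nat_lit 39) (nat_lit 5) (nat_lit 40) (nat_lit 5) (nat_lit 240) (nat_lit 239) (nat_lit 121))) (XT.nd (nat_lit 78) (nat_lit 0) (nat_lit 76) (XT.lf (nat_lit 76) (nat_lit 172453546428) (nat_lit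 0) (nat_lit 156919230960) (nat_lit 532) (nat_lit 778065089365) (nat_lit 34) (nat_lit 5) (nat_lit 33) (nat_lit 5) (nat_lit 40) (nat_lit 5) (nat_lit 241) (nat_lit 239) (nat_lit 120)) (XT.nd (nat_lit 78) (nat_lit 0) (nat_lit 76) (XT.lf (nat_lit 0) (nat_lit 441304531814) (nat_lit 456) (nat_lit 76959781420) (nat_lit 532) (nat_lit 677060835101) (nat_lit 34) (nat_lit 5) (nat_lit 40) (nat_lit 5) (nat_lit 41) (nat_lit 5) (nat_lit 242) (nat_lit 239) (nat_lit 119)) (XT.lf (nat_lit 0) (nat_lit 605845712062) (nat_lit 456) (nat_lit 349665301340) (nat_lit 76) (nat_lit 338018935839) (nat_lit 35) (nat_lit 5) (nat_lit 41) (nat_lit 5) (nat_lit 36) (nat_lit 5) (nat_lit 243) (nat_lit 239) (nat_lit 118)))))) (XT.nd (nat_lit 390) (nat_lit 304) (nat_lit 0) (XT.nd (nat_lit 156) (nat_lit 456) (nat_lit 0) (XT.nd (nat_lit 78) (nat_lit 228) (nat_lit 0) (XT.lf (nat_lit 0) (nat_lit 738750123732) (nat_lit 456) (nat_lit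 90717598490) (nat_lit 532) (nat_lit 574245775915) (nat_lit 29) (nat_lit 5) (nat_lit 35) (nat_lit 5) (nat_lit 36) (nat_lit 5) (nat_lit 244) (nat_lit 239) (nat_lit 117)) (XT.lf (nat_lit 0) (nat_lit 484213987935) (nat_lit 228) (nat_lit 646245227264) (nat_lit 304) (nat_lit 396459269739) (nat_lit 26) (nat_lit 5) (nat_lit 29) (nat_lit 5) (nat_lit 30) (nat_lit 5) (nat_lit 245) (nat_lit 239) (nat_lit 116))) (XT.nd (nat_lit 78) (nat_lit 304) (nat_lit 0) (XT.lf (nat_lit 0) (nat_lit 177097250707) (nat_lit 152) (nat_lit 1333863587813) (nat_lit 228) (nat_lit 154894468793) (nat_lit 24) (nat_lit 5) (nat_lit 26) (nat_lit 5) (nat_lit 27) (nat_lit 5) (nat_lit 246) (nat_lit 239) (nat_lit 115)) (XT.nd (nat_lit 78) (nat_lit 228) (nat_lit 0) (XT.lf (nat_lit 0) (nat_lit 165776097833) (nat_lit 228) (nat_lit 201809724009) (nat_lit 76) (nat_lit 1453888821376) (nat_lit 23) (nat_lit 5) (nat_lit 26) (nat_lit 5) (nat_lit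 24) (nat_lit 5) (nat_lit 247) (nat_lit 239) (nat_lit 114)) (XT.lf (nat_lit 0) (nat_lit 576720433528) (nat_lit 304) (nat_lit 675369470932) (nat_lit 76) (nat_lit 743917543246) (nat_lit 20) (nat_lit 5) (nat_lit 24) (nat_lit 5) (nat_lit 21) (nat_lit 5) (nat_lit 248) (nat_lit 239) (nat_lit 113))))) (XT.nd (nat_lit 30576) (nat_lit 0) (nat_lit 1216) (XT.nd (nat_lit 156) (nat_lit 152) (nat_lit 0) (XT.lf (nat_lit 0) (nat_lit 923291317760) (nat_lit 152) (nat_lit 164414870112) (nat_lit 228) (nat_lit 1105942003572) (nat_lit 18) (nat_lit 5) (nat_lit 20) (nat_lit 5) (nat_lit 21) (nat_lit 5) (nat_lit 249) (nat_lit 239) (nat_lit 112)) (XT.lf (nat_lit 0) (nat_lit 2340225036629) (nat_lit 152) (nat_lit 171271613112) (nat_lit 228) (nat_lit 157988025957) (nat_lit 16) (nat_lit 5) (nat_lit 18) (nat_lit 5) (nat_lit 19) (nat_lit 5) (nat_lit 251) (nat_lit 239) (nat_lit 110))) (XT.nd (nat_lit 78) (nat_lit 0) (nat_lit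 76) (XT.lf (nat_lit 0) (nat_lit 133722975201) (nat_lit 532) (nat_lit 208490528228) (nat_lit 532) (nat_lit 208490528228) (nat_lit 32) (nat_lit 3) (nat_lit 39) (nat_lit 3) (nat_lit 39) (nat_lit 5) (nat_lit 240) (nat_lit 240) (nat_lit 120)) (XT.nd (nat_lit 78) (nat_lit 0) (nat_lit 0) (XT.lf (nat_lit 0) (nat_lit 302412670108) (nat_lit 456) (nat_lit 727778631580) (nat_lit 532) (nat_lit 152629703948) (nat_lit 33) (nat_lit 5) (nat_lit 39) (nat_lit 5) (nat_lit 40) (nat_lit 5) (nat_lit 241) (nat_lit 240) (nat_lit 119)) (XT.lf (nat_lit 76) (nat_lit 198321693995) (nat_lit 0) (nat_lit 180457167197) (nat_lit 532) (nat_lit 894774671140) (nat_lit 34) (nat_lit 5) (nat_lit 33) (nat_lit 5) (nat_lit 40) (nat_lit 5) (nat_lit 242) (nat_lit 240) (nat_lit 118))))))))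
noncomputable def xc63 : XT := (XT.nd (nat_lit 62712) (nat_lit 0) (nat_lit 456) (XT.nd (nat_lit 31278) (nat_lit 0) (nat_lit 0) (XT.nd (nat_lit 312) (nat_lit 456) (nat_lit 0) (XT.nd (nat_lit 156) (nat_lit 608) (nat_lit 0) (XT.nd (nat_lit 78) (nat_lit 0) (nat_lit 76) (XT.lf (nat_lit 0) (nat_lit 507500355894) (nat_lit 456) (nat_lit 88503634479) (nat_lit 532) (nat_lit 778619917747) (nat_lit 34) (nat_lit 5) (nat_lit 40) (nat_lit 5) (nat_lit 41) (nat_lit 5) (nat_lit 243) (nat_lit 240) (nat_lit 117)) (XT.lf (nat_lit 0) (nat_lit 696722696304) (nat_lit 456) (nat_lit 402114980443) (nat_lit 76) (nat_lit 388721753884) (nat_lit 35) (nat_lit 5) (nat_lit 41) (nat_lit 5) (nat_lit 36) (nat_lit 5) (nat_lit 244) (nat_lit 240) (nat_lit 116))) (XT.nd (nat_lit 78) (nat_lit 228) (nat_lit 0) (XT.lf (nat_lit 0) (nat_lit 849562748562) (nat_lit 456) (nat_lit 104325245360) (nat_lit 532) (nat_lit 660382519170) (nat_lit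 29) (nat_lit 5) (nat_lit 35) (nat_lit 5) (nat_lit 36) (nat_lit 5) (nat_lit 245) (nat_lit 240) (nat_lit 115)) (XT.lf (nat_lit 0) (nat_lit 556846192496) (nat_lit 228) (nat_lit 743182005973) (nat_lit 304) (nat_lit 455928050526) (nat_lit 26) (nat_lit 5) (nat_lit 29) (nat_lit 5) (nat_lit 30) (nat_lit 5) (nat_lit 246) (nat_lit 240) (nat_lit 114)))) (XT.nd (nat_lit 156) (nat_lit 228) (nat_lit 0) (XT.nd (nat_lit 78) (nat_lit 76) (nat_lit 0) (XT.lf (nat_lit 0) (nat_lit 203661943511) (nat_lit 152) (nat_lit 1533943111247) (nat_lit 228) (nat_lit 178128540889) (nat_lit 24) (nat_lit 5) (nat_lit 26) (nat_lit 5) (nat_lit 27) (nat_lit 5) (nat_lit 247) (nat_lit 240) (nat_lit 113)) (XT.lf (nat_lit 0) (nat_lit 190642593647) (nat_lit 228) (nat_lit 232081086437) (nat_lit 76) (nat_lit 1671972152701) (nat_lit 23) (nat_lit 5) (nat_lit 26) (nat_lit 5) (nat_lit 24) (nat_lit 5) (nat_lit 248) (nat_lit 240) (nat_lit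 112))) (XT.nd (nat_lit 30654) (nat_lit 0) (nat_lit 912) (XT.lf (nat_lit 0) (nat_lit 663228571599) (nat_lit 304) (nat_lit 776674797727) (nat_lit 76) (nat_lit 855505189324) (nat_lit 20) (nat_lit 5) (nat_lit 24) (nat_lit 5) (nat_lit 21) (nat_lit 5) (nat_lit 249) (nat_lit 240) (nat_lit 111)) (XT.nd (nat_lit 78) (nat_lit 0) (nat_lit 76) (XT.lf (nat_lit 0) (nat_lit 153781503432) (nat_lit 532) (nat_lit 239764062944) (nat_lit 532) (nat_lit 239764062944) (nat_lit 32) (nat_lit 3) (nat_lit 39) (nat_lit 3) (nat_lit 39) (nat_lit 5) (nat_lit 241) (nat_lit 241) (nat_lit 118)) (XT.lf (nat_lit 0) (nat_lit 347774713594) (nat_lit 456) (nat_lit 836945330822) (nat_lit 532) (nat_lit 175524099708) (nat_lit 33) (nat_lit 5) (nat_lit 39) (nat_lit 5) (nat_lit 40) (nat_lit 5) (nat_lit 242) (nat_lit 241) (nat_lit 117)))))) (XT.nd (nat_lit 390) (nat_lit 456) (nat_lit 0) (XT.nd (nat_lit 156) (nat_lit 532) (nat_lit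 0) (XT.nd (nat_lit 78) (nat_lit 0) (nat_lit 76) (XT.lf (nat_lit 76) (nat_lit 228070035505) (nat_lit 0) (nat_lit 207525781289) (nat_lit 532) (nat_lit 1028990734472) (nat_lit 34) (nat_lit 5) (nat_lit 33) (nat_lit 5) (nat_lit 40) (nat_lit 5) (nat_lit 243) (nat_lit 241) (nat_lit 116)) (XT.lf (nat_lit 0) (nat_lit 583625518396) (nat_lit 456) (nat_lit 101779093334) (nat_lit 532) (nat_lit 895412873183) (nat_lit 34) (nat_lit 5) (nat_lit 40) (nat_lit 5) (nat_lit 41) (nat_lit 5) (nat_lit 244) (nat_lit 241) (nat_lit 115))) (XT.nd (nat_lit 78) (nat_lit 684) (nat_lit 0) (XT.lf (nat_lit 0) (nat_lit 801231197107) (nat_lit 456) (nat_lit 462432139723) (nat_lit 76) (nat_lit 447030000081) (nat_lit 35) (nat_lit 5) (nat_lit 41) (nat_lit 5) (nat_lit 36) (nat_lit 5) (nat_lit 245) (nat_lit 241) (nat_lit 114)) (XT.nd (nat_lit 78) (nat_lit 228) (nat_lit 0) (XT.lf (nat_lit 0) (nat_lit 976997241202) (nat_lit 456)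 (nat_lit 119974037530) (nat_lit 532) (nat_lit 759439803939) (nat_lit 29) (nat_lit 5) (nat_lit 35) (nat_lit 5) (nat_lit 36) (nat_lit 5) (nat_lit 246) (nat_lit 241) (nat_lit 113)) (XT.lf (nat_lit 0) (nat_lit 640373201802) (nat_lit 228) (nat_lit 854659302800) (nat_lit 304) (nat_lit 524317175175) (nat_lit 26) (nat_lit 5) (nat_lit 29) (nat_lit 5) (nat_lit 30) (nat_lit 5) (nat_lit 247) (nat_lit 241) (nat_lit 112))))) (XT.nd (nat_lit 30810) (nat_lit 0) (nat_lit 912) (XT.nd (nat_lit 156) (nat_lit 304) (nat_lit 0) (XT.lf (nat_lit 0) (nat_lit 234211314583) (nat_lit 152) (nat_lit 1764034566790) (nat_lit 228) (nat_lit 204847747751) (nat_lit 24) (nat_lit 5) (nat_lit 26) (nat_lit 5) (nat_lit 27) (nat_lit 5) (nat_lit 248) (nat_lit 241) (nat_lit 111)) (XT.lf (nat_lit 0) (nat_lit 762712912569) (nat_lit 304) (nat_lit 893175946425) (nat_lit 76) (nat_lit 983830978756) (nat_lit 20) (nat_lit 5) (nat_lit 24)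 (nat_lit 5) (nat_lit 21) (nat_lit 5) (nat_lit 250) (nat_lit 241) (nat_lit 109))) (XT.nd (nat_lit 78) (nat_lit 0) (nat_lit 76) (XT.lf (nat_lit 0) (nat_lit 176848790914) (nat_lit 532) (nat_lit 275728638723) (nat_lit 532) (nat_lit 275728638723) (nat_lit 32) (nat_lit 3) (nat_lit 39) (nat_lit 3) (nat_lit 39) (nat_lit 5) (nat_lit 242) (nat_lit 242) (nat_lit 116)) (XT.nd (nat_lit 78) (nat_lit 0) (nat_lit 0) (XT.lf (nat_lit 0) (nat_lit 399941028739) (nat_lit 456) (nat_lit 962487058238) (nat_lit 532) (nat_lit 201852669421) (nat_lit 33) (nat_lit 5) (nat_lit 39) (nat_lit 5) (nat_lit 40) (nat_lit 5) (nat_lit 243) (nat_lit 242) (nat_lit 115)) (XT.lf (nat_lit 76) (nat_lit 262280606927) (nat_lit 0) (nat_lit 238654677981) (nat_lit 532) (nat_lit 1183339240796) (nat_lit 34) (nat_lit 5) (nat_lit 33) (nat_lit 5) (nat_lit 40) (nat_lit 5) (nat_lit 244) (nat_lit 242) (nat_lit 114))))))) (XT.nd (nat_lit 31512)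 (nat_lit 0) (nat_lit 228) (XT.nd (nat_lit 31122) (nat_lit 0) (nat_lit 456) (XT.nd (nat_lit 156) (nat_lit 608) (nat_lit 0) (XT.nd (nat_lit 78) (nat_lit 0) (nat_lit 76) (XT.lf (nat_lit 0) (nat_lit 671169428664) (nat_lit 456) (nat_lit 117045892066) (nat_lit 532) (nat_lit 1029724779792) (nat_lit 34) (nat_lit 5) (nat_lit 40) (nat_lit 5) (nat_lit 41) (nat_lit 5) (nat_lit 245) (nat_lit 242) (nat_lit 113)) (XT.lf (nat_lit 0) (nat_lit 921415949534) (nat_lit 456) (nat_lit 531796894303) (nat_lit 76) (nat_lit 514084487326) (nat_lit 35) (nat_lit 5) (nat_lit 41) (nat_lit 5) (nat_lit 36) (nat_lit 5) (nat_lit 246) (nat_lit 242) (nat_lit 112))) (XT.nd (nat_lit 78) (nat_lit 228) (nat_lit 0) (XT.lf (nat_lit 0) (nat_lit 1123546888143) (nat_lit 456) (nat_lit 137970147217) (nat_lit 532) (nat_lit 873355704128) (nat_lit 29) (nat_lit 5) (nat_lit 35) (nat_lit 5) (nat_lit 36) (nat_lit 5) (nat_lit 247) (nat_lit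 242) (nat_lit 111)) (XT.lf (nat_lit 0) (nat_lit 736429242890) (nat_lit 228) (nat_lit 982858195144) (nat_lit 304) (nat_lit 602964688745) (nat_lit 26) (nat_lit 5) (nat_lit 29) (nat_lit 5) (nat_lit 30) (nat_lit 5) (nat_lit 248) (nat_lit 242) (nat_lit 110)))) (XT.nd (nat_lit 156) (nat_lit 0) (nat_lit 76) (XT.nd (nat_lit 78) (nat_lit 0) (nat_lit 76) (XT.lf (nat_lit 0) (nat_lit 203376156407) (nat_lit 532) (nat_lit 317087909078) (nat_lit 532) (nat_lit 317087909078) (nat_lit 32) (nat_lit 3) (nat_lit 39) (nat_lit 3) (nat_lit 39) (nat_lit 5) (nat_lit 243) (nat_lit 243) (nat_lit 114)) (XT.lf (nat_lit 0) (nat_lit 459932264793) (nat_lit 456) (nat_lit 1106860062374) (nat_lit 532) (nat_lit 232130535625) (nat_lit 33) (nat_lit 5) (nat_lit 39) (nat_lit 5) (nat_lit 40) (nat_lit 5) (nat_lit 244) (nat_lit 243) (nat_lit 113))) (XT.nd (nat_lit 78) (nat_lit 0) (nat_lit 76) (XT.lf (nat_lit 76) (nat_lit 301622747944)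 (nat_lit 0) (nat_lit 274452901983) (nat_lit 532) (nat_lit 1360840048392) (nat_lit 34) (nat_lit 5) (nat_lit 33) (nat_lit 5) (nat_lit 40) (nat_lit 5) (nat_lit 245) (nat_lit 243) (nat_lit 112)) (XT.nd (nat_lit 78) (nat_lit 0) (nat_lit 76) (XT.lf (nat_lit 0) (nat_lit 771844905352) (nat_lit 456) (nat_lit 134602726524) (nat_lit 532) (nat_lit 1184183478336) (nat_lit 34) (nat_lit 5) (nat_lit 40) (nat_lit 5) (nat_lit 41) (nat_lit 5) (nat_lit 246) (nat_lit 243) (nat_lit 111)) (XT.lf (nat_lit 0) (nat_lit 1059628397057) (nat_lit 456) (nat_lit 611566378256) (nat_lit 76) (nat_lit 591197150771) (nat_lit 35) (nat_lit 5) (nat_lit 41) (nat_lit 5) (nat_lit 36) (nat_lit 5) (nat_lit 247) (nat_lit 243) (nat_lit 110)))))) (XT.nd (nat_lit 31356) (nat_lit 0) (nat_lit 0) (XT.nd (nat_lit 31044) (nat_lit 0) (nat_lit 304) (XT.nd (nat_lit 30966) (nat_lit 0) (nat_lit 228) (XT.lf (nat_lit 0) (nat_lit 1292078967308)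 (nat_lit 456) (nat_lit 158665672368) (nat_lit 532) (nat_lit 1004359006514) (nat_lit 29) (nat_lit 5) (nat_lit 35) (nat_lit 5) (nat_lit 36) (nat_lit 5) (nat_lit 248) (nat_lit 243) (nat_lit 109)) (XT.lf (nat_lit 0) (nat_lit 233882615298) (nat_lit 532) (nat_lit 364651076193) (nat_lit 532) (nat_lit 364651076193) (nat_lit 32) (nat_lit 3) (nat_lit 39) (nat_lit 3) (nat_lit 39) (nat_lit 5) (nat_lit 244) (nat_lit 244) (nat_lit 112))) (XT.nd (nat_lit 78) (nat_lit 0) (nat_lit 0) (XT.lf (nat_lit 0) (nat_lit 528922166321) (nat_lit 456) (nat_lit 1272889030445) (nat_lit 532) (nat_lit 266950090101) (nat_lit 33) (nat_lit 5) (nat_lit 39) (nat_lit 5) (nat_lit 40) (nat_lit 5) (nat_lit 245) (nat_lit 244) (nat_lit 111)) (XT.nd (nat_lit 78) (nat_lit 0) (nat_lit 76) (XT.lf (nat_lit 76) (nat_lit 346866197926) (nat_lit 0) (nat_lit 315620854147) (nat_lit 532) (nat_lit 1564965996276) (nat_lit 34) (nat_lit 5) (nat_lit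 33) (nat_lit 5) (nat_lit 40) (nat_lit 5) (nat_lit 246) (nat_lit 244) (nat_lit 110)) (XT.lf (nat_lit 0) (nat_lit 887621688330) (nat_lit 456) (nat_lit 154793098185) (nat_lit 532) (nat_lit 1361810986154) (nat_lit 34) (nat_lit 5) (nat_lit 40) (nat_lit 5) (nat_lit 41) (nat_lit 5) (nat_lit 247) (nat_lit 244) (nat_lit 109))))) (XT.nd (nat_lit 31044) (nat_lit 0) (nat_lit 304) (XT.nd (nat_lit 30966) (nat_lit 0) (nat_lit 228) (XT.lf (nat_lit 0) (nat_lit 1485890847145) (nat_lit 456) (nat_lit 182465525543) (nat_lit 532) (nat_lit 1155012817239) (nat_lit 29) (nat_lit 5) (nat_lit 35) (nat_lit 5) (nat_lit 36) (nat_lit 5) (nat_lit 249) (nat_lit 244) (nat_lit 107)) (XT.lf (nat_lit 0) (nat_lit 268965034383) (nat_lit 532) (nat_lit 419348723069) (nat_lit 532) (nat_lit 419348723069) (nat_lit 32) (nat_lit 3) (nat_lit 39) (nat_lit 3) (nat_lit 39) (nat_lit 5) (nat_lit 245) (nat_lit 245) (nat_lit 110))) (XT.nd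 (nat_lit 156) (nat_lit 0) (nat_lit 0) (XT.lf (nat_lit 0) (nat_lit 608260538007) (nat_lit 456) (nat_lit 1463822353794) (nat_lit 532) (nat_lit 306992584057) (nat_lit 33) (nat_lit 5) (nat_lit 39) (nat_lit 5) (nat_lit 40) (nat_lit 5) (nat_lit 246) (nat_lit 245) (nat_lit 109)) (XT.nd (nat_lit 31278) (nat_lit 76) (nat_lit 0) (XT.lf (nat_lit 0) (nat_lit 1020764977250) (nat_lit 456) (nat_lit 178012034696) (nat_lit 532) (nat_lit 1566082623542) (nat_lit 34) (nat_lit 5) (nat_lit 40) (nat_lit 5) (nat_lit 41) (nat_lit 5) (nat_lit 248) (nat_lit 245) (nat_lit 107)) (XT.lf (nat_lit 76) (nat_lit 458730601226) (nat_lit 0) (nat_lit 417408603919) (nat_lit 532) (nat_lit 2069667444496) (nat_lit 34) (nat_lit 5) (nat_lit 33) (nat_lit 5) (nat_lit 40) (nat_lit 5) (nat_lit 248) (nat_lit 246) (nat_lit 106))))))))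

set_option maxRecDepth 10000000 in
noncomputable def Tp : PT := (PT.nd (nat_lit 3167034) pc0 pc1)

set_option maxRecDepth 10000000 in
noncomputable def Tx : XT := (XT.nd (nat_lit 5337540) (nat_lit 0) (nat_lit 76) XT.nil (XT.nd (nat_lit 2376270) (nat_lit 0) (nat_lit 0) (XT.nd (nat_lit 1092546) (nat_lit 0) (nat_lit 0) (XT.nd (nat_lit 749190) (nat_lit 0) (nat_lit 0) (XT.nd (nat_lit 530088) (nat_lit 0) (nat_lit 0) (XT.nd (nat_lit 374010) (nat_lit 0) (nat_lit 0) (XT.nd (nat_lit 249834) (nat_lit 0) (nat_lit 0) (XT.nd (nat_lit 186810) (nat_lit 0) (nat_lit 0) xc0 xc1) (XT.nd (nat_lit 62400) (nat_lit 0) (nat_lit 0) xc2 xc3)) (XT.nd (nat_lit 92898) (nat_lit 0) (nat_lit 0) (XT.nd (nat_lit 32058) (nat_lit 0) (nat_lit 0) xc4 xc5) (XT.nd (nat_lit 31668) (nat_lit 0) (nat_lit 0) xc6 xc7))) (XT.nd (nat_lit 124410) (nat_lit 0) (nat_lit 0) (XT.nd (nat_lit 62478) (nat_lit 0) (nat_lit 0) (XT.nd (nat_lit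 31278) (nat_lit 0) (nat_lit 0) xc8 xc9) (XT.nd (nat_lit 31044) (nat_lit 0) (nat_lit 0) xc10 xc11)) (XT.nd (nat_lit 61308) (nat_lit 0) (nat_lit 0) (XT.nd (nat_lit 30732) (nat_lit 0) (nat_lit 0) xc12 xc13) (XT.nd (nat_lit 2964) (nat_lit 0) (nat_lit 0) xc14 xc15)))) (XT.nd (nat_lit 185484) (nat_lit 0) (nat_lit 0) (XT.nd (nat_lit 93444) (nat_lit 0) (nat_lit 0) (XT.nd (nat_lit 60450) (nat_lit 0) (nat_lit 0) (XT.nd (nat_lit 30264) (nat_lit 0) (nat_lit 0) xc16 xc17) (XT.nd (nat_lit 2964) (nat_lit 0) (nat_lit 0) xc18 xc19)) (XT.nd (nat_lit 32760) (nat_lit 0) (nat_lit 0) (XT.nd (nat_lit 29796) (nat_lit 0) (nat_lit 0) xc20 xc21) (XT.nd (nat_lit 29718) (nat_lit 0) (nat_lit 0) xc22 xc23))) (XT.nd (nat_lit 65208) (nat_lit 0) (nat_lit 0) (XT.nd (nat_lit 32526) (nat_lit 0) (nat_lit 0) (XT.nd (nat_lit 2886) (nat_lit 0) (nat_lit 0) xc24 xc25) (XT.nd (nat_lit 29718) (nat_lit 0) (nat_lit 0) xc26 xc27))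 (XT.nd (nat_lit 59670) (nat_lit 0) (nat_lit 0) (XT.nd (nat_lit 29796) (nat_lit 0) (nat_lit 0) xc28 xc29) (XT.nd (nat_lit 2964) (nat_lit 0) (nat_lit 0) xc30 xc31))))) (XT.nd (nat_lit 406614) (nat_lit 0) (nat_lit 0) (XT.nd (nat_lit 187590) (nat_lit 0) (nat_lit 0) (XT.nd (nat_lit 93444) (nat_lit 0) (nat_lit 0) (XT.nd (nat_lit 32994) (nat_lit 0) (nat_lit 0) (XT.nd (nat_lit 30030) (nat_lit 0) (nat_lit 0) xc32 xc33) (XT.nd (nat_lit 30186) (nat_lit 0) (nat_lit 0) xc34 xc35)) (XT.nd (nat_lit 33228) (nat_lit 0) (nat_lit 0) (XT.nd (nat_lit 30264) (nat_lit 0) (nat_lit 0) xc36 xc37) (XT.nd (nat_lit 30420) (nat_lit 0) (nat_lit 0) xc38 xc39))) (XT.nd (nat_lit 95004) (nat_lit 0) (nat_lit 0) (XT.nd (nat_lit 61230) (nat_lit 0) (nat_lit 0) (XT.nd (nat_lit 30498) (nat_lit 0) (nat_lit 0) xc40 xc41) (XT.nd (nat_lit 2964) (nat_lit 0) (nat_lit 0) xc42 xc43)) (XT.nd (nat_lit 61854) (nat_lit 0) (nat_lit 0) (XT.nd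 (nat_lit 30888) (nat_lit 0) (nat_lit 0) xc44 xc45) (XT.nd (nat_lit 31044) (nat_lit 0) (nat_lit 0) xc46 xc47)))) (XT.nd (nat_lit 281502) (nat_lit 0) (nat_lit 228) (XT.nd (nat_lit 125502) (nat_lit 0) (nat_lit 76) (XT.nd (nat_lit 62556) (nat_lit 0) (nat_lit 0) (XT.nd (nat_lit 31200) (nat_lit 0) (nat_lit 0) xc48 xc49) (XT.nd (nat_lit 31434) (nat_lit 0) (nat_lit 0) xc50 xc51)) (XT.nd (nat_lit 63258) (nat_lit 0) (nat_lit 76) (XT.nd (nat_lit 31512) (nat_lit 0) (nat_lit 76) xc52 xc53) (XT.nd (nat_lit 31824) (nat_lit 0) (nat_lit 0) xc54 xc55))) (XT.nd (nat_lit 188136) (nat_lit 0) (nat_lit 228) (XT.nd (nat_lit 64272) (nat_lit 0) (nat_lit 0) (XT.nd (nat_lit 32058) (nat_lit 0) (nat_lit 0) xc56 xc57) (XT.nd (nat_lit 61698) (nat_lit 0) (nat_lit 152) xc58 xc59)) (XT.nd (nat_lit 125502) (nat_lit 0) (nat_lit 380) (XT.nd (nat_lit 62556) (nat_lit 0) (nat_lit 76) xc60 xc61) (XT.nd (nat_lit 93834) (nat_lit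 0) (nat_lit 608) xc62 xc63)))))) XT.nil))

set_option maxRecDepth 10000000 in
noncomputable def Te : XT := XT.nil

set_option maxRecDepth 10000000 in
noncomputable def Tz : ZL := (ZL.cons (nat_lit 76) (nat_lit 3) (nat_lit 88784708305885914068) (ZL.cons (nat_lit 152) (nat_lit 6) (nat_lit 167472867737695153290) (ZL.cons (nat_lit 228) (nat_lit 6) (nat_lit 158983327320513351348) (ZL.cons (nat_lit 304) (nat_lit 3) (nat_lit 78765735570022635179) (ZL.cons (nat_lit 380) (nat_lit 6) (nat_lit 149220355840754279116) (ZL.cons (nat_lit 456) (nat_lit 6) (nat_lit 142376913062227355818) (ZL.cons (nat_lit 532) (nat_lit 3) (nat_lit 70557214713518860088) (ZL.cons (nat_lit 608) (nat_lit 6) (nat_lit 134506953866921394030) (ZL.cons (nat_lit 684) (nat_lit 6) (nat_lit 129268652464663894298) (ZL.cons (nat_lit 760) (nat_lit 3) (nat_lit 64085420303988627302) (ZL.cons (nat_lit 836) (nat_lit 6) (nat_lit 125297036714568878594)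 (ZL.cons (nat_lit 912) (nat_lit 6) (nat_lit 123244605852067769606) (ZL.cons (nat_lit 988) (nat_lit 6) (nat_lit 122514401091091009652) (ZL.cons (nat_lit 1064) (nat_lit 6) (nat_lit 119631866745272970840) (ZL.cons (nat_lit 1140) (nat_lit 3) (nat_lit 59338623869729250773) (ZL.cons (nat_lit 1216) (nat_lit 6) (nat_lit 116088455254600033884) (ZL.cons (nat_lit 1292) (nat_lit 6) (nat_lit 117261939261590351380) (ZL.cons (nat_lit 1368) (nat_lit 6) (nat_lit 115477216772458952262) (ZL.cons (nat_lit 1444) (nat_lit 3) (nat_lit 56477113078714884825) (ZL.cons (nat_lit 1520) (nat_lit 6) (nat_lit 113581903649540869704) (ZL.cons (nat_lit 1596) (nat_lit 3) (nat_lit 56375900083111969940) (ZL.cons (nat_lit 1672) (nat_lit 6) (nat_lit 111402293558185074764) (ZL.cons (nat_lit 1748) (nat_lit 1) (nat_lit 18446744073709551617) ZL.nil)))))))))))))))))))))))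

noncomputable def vl : XL := ⟨(nat_lit 0), (nat_lit 76), (nat_lit 230483948), (nat_lit 228), (nat_lit 233793603), (nat_lit 76), (nat_lit 230483948), (nat_lit 1), (nat_lit 5), (nat_lit 3), (nat_lit 4), (nat_lit 1), (nat_lit 4), (nat_lit 0), (nat_lit 0), (nat_lit 0)⟩

noncomputable def cp0 : Nat := (nat_lit 36646416016413224721689819369656781279229779002185974368415123427750700712478266559478091997146170821583525506944770599945454297842000579176163623292168587497812903247053604117899411385413824187187236233419189100334553974433810190020112432043061375629338055159943858739598934744196158176815333514761941250209119070295090420053028241032438501747428040247164714643331813948526919434132006323241634785869938866653800268813779454322640140900153430214619540575100389484760997822595362210656733465882136550160807754433566148264301464386366196382957568)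

noncomputable def cp1 : Nat := (nat_lit 2898198184420845944998637626682799096731102093138001718017529289279278087607857748041676316041361386079361644967824583694912343829807143256632669798301490771167030999695958878645980083169582483002824545009438279226449641798753225606053859737293098843801676404560464771829520833608688007898578593066758668083377682178906973765305198488684043874284691704768829430691629403953374219553778699040430003271118290317991506394797861884032202069308861172968290156496047872143809902695103839285182030549746315801096784420720559791958892220059386359093591584188728029000255466724634458653243333721919332756303495944382915429161683890083271822809723698185390455583573191604759755140658501771922573475844247444185672846118293427631224712329345474537472803269622551786377741661036987264122589233698223783575976162756556029390389210846487270916905193920529259264107779135708373624535194653608319285504965506668982247309240153334350661601795494692915592419807560153489925334304376514183072500326526594093978020014662311018410860054626821634232010122870450666142975233613692418846325080575607389367624500846563309126947808669702258598948940375667658478254982791450573347157872330204278835566054842925500799179170742913452540178636178889116477958006083494948273301536744110793209189751060411298959131655894838796091392)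

noncomputable def rc0 : Nat := (nat_lit 2898198184420845944998637626682799096731102093138001718017529289279278087607857748041676316041361386079361644967824583694912343829807143256632669798301490771167030999695958878645980083169582483002824545009438279226449641798753225606053859737293098843801676404560464771829520833608688007898578593066758668083377682178906973765305198488684043874284691704768829430691629403953374219553778699040430003271118290317991506394797861884032202069308861172968290156496047872143809902695103839285182030549746315801096784420720559791958892220059386359093591584188728029000255466724634458653243333721919332756303495944382915429161683890083271822809723698185390455583573191604759755140658501771922573475844247444185672846118293427631224712329345474537472803269622551786377741661036987264122589233698223783575976162756556029390389210846487270916905193920529259264107779135708373624535194653608319285504965506668982247309240153334350661601795494692915592419807560153489925334304376514183072500326526594093978020014662311018410860054626821634232010122870450666142975233613692418846325080575607389367624500846563309126947808669702258598948940375667658478254982791450573347157872330204278835566054842925500799179170742913452540178636178889116477958006083494948273301536744110793209189751060411298959131655894838796091392)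

end Vale.Agent.Lib.P154.PChain.BU.S1
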