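import Vale.Agent.Lib.P154.PChain.BU.R1_0

set_option linter.all false

namespace Vale.Agent.Lib.P154.PChain.BU.S2

open Vale.Agent.Lib.P154.Chain

noncomputable def pc0 : PT := (PT.nd (nat_lit 3949452) (PT.nd (nat_lit 3836976) (PT.nd (nat_lit 3762018) (PT.nd (nat_lit 3761862) (PT.nd (nat_lit 3724500) (PT.nd (nat_lit 3724422) PT.nil (PT.lf (nat_lit 76) (nat_lit 6) (nat_lit 1) (nat_lit 3) (nat_lit 130) (nat_lit 99) (nat_lit 131))) (PT.lf (nat_lit 76) (nat_lit 6) (nat_lit 1) (nat_lit 1) (nat_lit 131) (nat_lit 99) (nat_lit 130))) (PT.nd (nat_lit 78) (PT.lf (nat_lit 152) (nat_lit 6) (nat_lit 2) (nat_lit 3) (nat_lit 129) (nat_lit 100) (nat_lit 131)) (PT.lf (nat_lit 228) (nat_lit 3) (nat_lit 3) (nat_lit 1) (nat_lit 130) (nat_lit 100) (nat_lit 130)))) (PT.nd (nat_lit 37440) (PT.nd (nat_lit 37362) (PT.lf (nat_lit 152) (nat_lit 6) (nat_lit 2) (nat_lit 1) (nat_lit 131) (nat_lit 100) (nat_lit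 129)) (PT.lf (nat_lit 304) (nat_lit 6) (nat_lit 4) (nat_lit 3) (nat_lit 129) (nat_lit 101) (nat_lit 130))) (PT.nd (nat_lit 37362) (PT.lf (nat_lit 304) (nat_lit 6) (nat_lit 4) (nat_lit 1) (nat_lit 130) (nat_lit 101) (nat_lit 129)) (PT.nd (nat_lit 78) (PT.lf (nat_lit 380) (nat_lit 6) (nat_lit 5) (nat_lit 3) (nat_lit 128) (nat_lit 102) (nat_lit 130)) (PT.lf (nat_lit 456) (nat_lit 3) (nat_lit 6) (nat_lit 1) (nat_lit 129) (nat_lit 102) (nat_lit 129)))))) (PT.nd (nat_lit 74880) (PT.nd (nat_lit 37440) (PT.nd (nat_lit 37362) (PT.lf (nat_lit 380) (nat_lit 6) (nat_lit 5) (nat_lit 1) (nat_lit 130) (nat_lit 102) (nat_lit 128)) (PT.lf (nat_lit 532) (nat_lit 6) (nat_lit 7) (nat_lit 3) (nat_lit 128) (nat_lit 103) (nat_lit 129))) (PT.nd (nat_lit 37362) (PT.lf (nat_lit 532) (nat_lit 6) (nat_lit 7) (nat_lit 1) (nat_lit 129) (nat_lit 103) (nat_lit 128)) (PT.lf (nat_lit 608) (nat_lit 6) (nat_lit 8) (nat_lit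 3) (nat_lit 127) (nat_lit 104) (nat_lit 129)))) (PT.nd (nat_lit 37362) (PT.nd (nat_lit 78) (PT.lf (nat_lit 684) (nat_lit 3) (nat_lit 9) (nat_lit 1) (nat_lit 128) (nat_lit 104) (nat_lit 128)) (PT.lf (nat_lit 608) (nat_lit 6) (nat_lit 8) (nat_lit 1) (nat_lit 129) (nat_lit 104) (nat_lit 127))) (PT.nd (nat_lit 78) (PT.lf (nat_lit 760) (nat_lit 6) (nat_lit 10) (nat_lit 3) (nat_lit 126) (nat_lit 105) (nat_lit 129)) (PT.nd (nat_lit 78) (PT.lf (nat_lit 836) (nat_lit 6) (nat_lit 11) (nat_lit 3) (nat_lit 127) (nat_lit 105) (nat_lit 128)) (PT.lf (nat_lit 836) (nat_lit 6) (nat_lit 11) (nat_lit 1) (nat_lit 128) (nat_lit 105) (nat_lit 127))))))) (PT.nd (nat_lit 112320) (PT.nd (nat_lit 74724) (PT.nd (nat_lit 37362) (PT.nd (nat_lit 37284) (PT.lf (nat_lit 760) (nat_lit 6) (nat_lit 10) (nat_lit 1) (nat_lit 129) (nat_lit 105) (nat_lit 126)) (PT.lf (nat_lit 912) (nat_lit 6) (nat_lit 12) (nat_lit 3) (nat_lit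 126) (nat_lit 106) (nat_lit 128))) (PT.nd (nat_lit 78) (PT.lf (nat_lit 988) (nat_lit 3) (nat_lit 13) (nat_lit 1) (nat_lit 127) (nat_lit 106) (nat_lit 127)) (PT.lf (nat_lit 912) (nat_lit 6) (nat_lit 12) (nat_lit 1) (nat_lit 128) (nat_lit 106) (nat_lit 126)))) (PT.nd (nat_lit 156) (PT.nd (nat_lit 78) (PT.lf (nat_lit 1064) (nat_lit 6) (nat_lit 14) (nat_lit 3) (nat_lit 125) (nat_lit 107) (nat_lit 128)) (PT.lf (nat_lit 1140) (nat_lit 6) (nat_lit 15) (nat_lit 3) (nat_lit 126) (nat_lit 107) (nat_lit 127))) (PT.nd (nat_lit 78) (PT.lf (nat_lit 1140) (nat_lit 6) (nat_lit 15) (nat_lit 1) (nat_lit 127) (nat_lit 107) (nat_lit 126)) (PT.nd (nat_lit 37284) (PT.lf (nat_lit 1064) (nat_lit 6) (nat_lit 14) (nat_lit 1) (nat_lit 128) (nat_lit 107) (nat_lit 125)) (PT.lf (nat_lit 1216) (nat_lit 6) (nat_lit 16) (nat_lit 3) (nat_lit 125) (nat_lit 108) (nat_lit 127)))))) (PT.nd (nat_lit 37518) (PT.nd (nat_lit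 37362) (PT.nd (nat_lit 78) (PT.lf (nat_lit 1292) (nat_lit 3) (nat_lit 17) (nat_lit 1) (nat_lit 126) (nat_lit 108) (nat_lit 126)) (PT.lf (nat_lit 1216) (nat_lit 6) (nat_lit 16) (nat_lit 1) (nat_lit 127) (nat_lit 108) (nat_lit 125))) (PT.nd (nat_lit 78) (PT.lf (nat_lit 1368) (nat_lit 6) (nat_lit 18) (nat_lit 3) (nat_lit 124) (nat_lit 109) (nat_lit 127)) (PT.lf (nat_lit 1444) (nat_lit 6) (nat_lit 19) (nat_lit 3) (nat_lit 125) (nat_lit 109) (nat_lit 126)))) (PT.nd (nat_lit 37284) (PT.nd (nat_lit 78) (PT.lf (nat_lit 1444) (nat_lit 6) (nat_lit 19) (nat_lit 1) (nat_lit 126) (nat_lit 109) (nat_lit 125)) (PT.lf (nat_lit 1368) (nat_lit 6) (nat_lit 18) (nat_lit 1) (nat_lit 127) (nat_lit 109) (nat_lit 124))) (PT.nd (nat_lit 78) (PT.lf (nat_lit 1520) (nat_lit 6) (nat_lit 20) (nat_lit 3) (nat_lit 123) (nat_lit 110) (nat_lit 127)) (PT.nd (nat_lit 78) (PT.lf (nat_lit 1596) (nat_lit 6) (nat_lit 21)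 (nat_lit 3) (nat_lit 124) (nat_lit 110) (nat_lit 126)) (PT.lf (nat_lit 1672) (nat_lit 3) (nat_lit 22) (nat_lit 1) (nat_lit 125) (nat_lit 110) (nat_lit 125))))))))
noncomputable def pc1 : PT := (PT.nd (nat_lit 112554) (PT.nd (nat_lit 74802) (PT.nd (nat_lit 37362) (PT.nd (nat_lit 37206) (PT.nd (nat_lit 78) (PT.lf (nat_lit 1596) (nat_lit 6) (nat_lit 21) (nat_lit 1) (nat_lit 126) (nat_lit 110) (nat_lit 124)) (PT.lf (nat_lit 1520) (nat_lit 6) (nat_lit 20) (nat_lit 1) (nat_lit 127) (nat_lit 110) (nat_lit 123))) (PT.nd (nat_lit 78) (PT.lf (nat_lit 1748) (nat_lit 6) (nat_lit 23) (nat_lit 3) (nat_lit 122) (nat_lit 111) (nat_lit 127)) (PT.lf (nat_lit 1824) (nat_lit 6) (nat_lit 24) (nat_lit 3) (nat_lit 123) (nat_lit 111) (nat_lit 126)))) (PT.nd (nat_lit 156) (PT.nd (nat_lit 78) (PT.lf (nat_lit 1900) (nat_lit 6) (nat_lit 25) (nat_lit 3) (nat_lit 124) (nat_lit 111) (nat_lit 125)) (PT.lf (nat_lit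 1900) (nat_lit 6) (nat_lit 25) (nat_lit 1) (nat_lit 125) (nat_lit 111) (nat_lit 124))) (PT.nd (nat_lit 78) (PT.lf (nat_lit 1824) (nat_lit 6) (nat_lit 24) (nat_lit 1) (nat_lit 126) (nat_lit 111) (nat_lit 123)) (PT.nd (nat_lit 37128) (PT.lf (nat_lit 1748) (nat_lit 6) (nat_lit 23) (nat_lit 1) (nat_lit 127) (nat_lit 111) (nat_lit 122)) (PT.lf (nat_lit 1976) (nat_lit 6) (nat_lit 26) (nat_lit 3) (nat_lit 122) (nat_lit 112) (nat_lit 126)))))) (PT.nd (nat_lit 37362) (PT.nd (nat_lit 156) (PT.nd (nat_lit 78) (PT.lf (nat_lit 2052) (nat_lit 6) (nat_lit 27) (nat_lit 3) (nat_lit 123) (nat_lit 112) (nat_lit 125)) (PT.lf (nat_lit 2128) (nat_lit 3) (nat_lit 28) (nat_lit 1) (nat_lit 124) (nat_lit 112) (nat_lit 124))) (PT.nd (nat_lit 78) (PT.lf (nat_lit 2052) (nat_lit 6) (nat_lit 27) (nat_lit 1) (nat_lit 125) (nat_lit 112) (nat_lit 123)) (PT.lf (nat_lit 1976) (nat_lit 6) (nat_lit 26) (nat_lit 1) (nat_lit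 126) (nat_lit 112) (nat_lit 122)))) (PT.nd (nat_lit 156) (PT.nd (nat_lit 78) (PT.lf (nat_lit 2204) (nat_lit 6) (nat_lit 29) (nat_lit 3) (nat_lit 121) (nat_lit 113) (nat_lit 126)) (PT.lf (nat_lit 2280) (nat_lit 6) (nat_lit 30) (nat_lit 3) (nat_lit 122) (nat_lit 113) (nat_lit 125))) (PT.nd (nat_lit 78) (PT.lf (nat_lit 2356) (nat_lit 6) (nat_lit 31) (nat_lit 3) (nat_lit 123) (nat_lit 113) (nat_lit 124)) (PT.nd (nat_lit 78) (PT.lf (nat_lit 2356) (nat_lit 6) (nat_lit 31) (nat_lit 1) (nat_lit 124) (nat_lit 113) (nat_lit 123)) (PT.lf (nat_lit 2280) (nat_lit 6) (nat_lit 30) (nat_lit 1) (nat_lit 125) (nat_lit 113) (nat_lit 122))))))) (PT.nd (nat_lit 74568) (PT.nd (nat_lit 37284) (PT.nd (nat_lit 37128) (PT.nd (nat_lit 37050) (PT.lf (nat_lit 2204) (nat_lit 6) (nat_lit 29) (nat_lit 1) (nat_lit 126) (nat_lit 113) (nat_lit 121)) (PT.lf (nat_lit 2660) (nat_lit 6) (nat_lit 35) (nat_lit 3) (nat_lit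 120) (nat_lit 114) (nat_lit 126))) (PT.nd (nat_lit 78) (PT.lf (nat_lit 2736) (nat_lit 6) (nat_lit 36) (nat_lit 3) (nat_lit 121) (nat_lit 114) (nat_lit 125)) (PT.lf (nat_lit 2812) (nat_lit 6) (nat_lit 37) (nat_lit 3) (nat_lit 122) (nat_lit 114) (nat_lit 124)))) (PT.nd (nat_lit 156) (PT.nd (nat_lit 78) (PT.lf (nat_lit 2888) (nat_lit 3) (nat_lit 38) (nat_lit 1) (nat_lit 123) (nat_lit 114) (nat_lit 123)) (PT.lf (nat_lit 2812) (nat_lit 6) (nat_lit 37) (nat_lit 1) (nat_lit 124) (nat_lit 114) (nat_lit 122))) (PT.nd (nat_lit 78) (PT.lf (nat_lit 2736) (nat_lit 6) (nat_lit 36) (nat_lit 1) (nat_lit 125) (nat_lit 114) (nat_lit 121)) (PT.nd (nat_lit 36972) (PT.lf (nat_lit 2660) (nat_lit 6) (nat_lit 35) (nat_lit 1) (nat_lit 126) (nat_lit 114) (nat_lit 120)) (PT.lf (nat_lit 2584) (nat_lit 6) (nat_lit 34) (nat_lit 3) (nat_lit 119) (nat_lit 115) (nat_lit 126)))))) (PT.nd (nat_lit 390) (PT.nd (nat_lit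 156) (PT.nd (nat_lit 78) (PT.lf (nat_lit 3116) (nat_lit 6) (nat_lit 41) (nat_lit 3) (nat_lit 120) (nat_lit 115) (nat_lit 125)) (PT.lf (nat_lit 3192) (nat_lit 6) (nat_lit 42) (nat_lit 3) (nat_lit 121) (nat_lit 115) (nat_lit 124))) (PT.nd (nat_lit 78) (PT.lf (nat_lit 3268) (nat_lit 6) (nat_lit 43) (nat_lit 3) (nat_lit 122) (nat_lit 115) (nat_lit 123)) (PT.nd (nat_lit 78) (PT.lf (nat_lit 3268) (nat_lit 6) (nat_lit 43) (nat_lit 1) (nat_lit 123) (nat_lit 115) (nat_lit 122)) (PT.lf (nat_lit 3192) (nat_lit 6) (nat_lit 42) (nat_lit 1) (nat_lit 124) (nat_lit 115) (nat_lit 121))))) (PT.nd (nat_lit 36972) (PT.nd (nat_lit 78) (PT.lf (nat_lit 3116) (nat_lit 6) (nat_lit 41) (nat_lit 1) (nat_lit 125) (nat_lit 115) (nat_lit 120)) (PT.lf (nat_lit 2584) (nat_lit 6) (nat_lit 34) (nat_lit 1) (nat_lit 126) (nat_lit 115) (nat_lit 119))) (PT.nd (nat_lit 78) (PT.lf (nat_lit 2508) (nat_lit 6) (nat_lit 33)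 (nat_lit 3) (nat_lit 118) (nat_lit 116) (nat_lit 126)) (PT.nd (nat_lit 78) (PT.lf (nat_lit 3040) (nat_lit 6) (nat_lit 40) (nat_lit 3) (nat_lit 119) (nat_lit 116) (nat_lit 125)) (PT.lf (nat_lit 3496) (nat_lit 6) (nat_lit 46) (nat_lit 3) (nat_lit 120) (nat_lit 116) (nat_lit 124))))))))
noncomputable def pc2 : PT := (PT.nd (nat_lit 74802) (PT.nd (nat_lit 37440) (PT.nd (nat_lit 312) (PT.nd (nat_lit 156) (PT.nd (nat_lit 78) (PT.lf (nat_lit 3572) (nat_lit 6) (nat_lit 47) (nat_lit 3) (nat_lit 121) (nat_lit 116) (nat_lit 123)) (PT.lf (nat_lit 3648) (nat_lit 3) (nat_lit 48) (nat_lit 1) (nat_lit 122) (nat_lit 116) (nat_lit 122))) (PT.nd (nat_lit 78) (PT.lf (nat_lit 3572) (nat_lit 6) (nat_lit 47) (nat_lit 1) (nat_lit 123) (nat_lit 116) (nat_lit 121)) (PT.lf (nat_lit 3496) (nat_lit 6) (nat_lit 46) (nat_lit 1) (nat_lit 124) (nat_lit 116) (nat_lit 120)))) (PT.nd (nat_lit 36894) (PT.nd (nat_lit 78)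 (PT.lf (nat_lit 3040) (nat_lit 6) (nat_lit 40) (nat_lit 1) (nat_lit 125) (nat_lit 116) (nat_lit 119)) (PT.lf (nat_lit 2508) (nat_lit 6) (nat_lit 33) (nat_lit 1) (nat_lit 126) (nat_lit 116) (nat_lit 118))) (PT.nd (nat_lit 78) (PT.lf (nat_lit 2432) (nat_lit 3) (nat_lit 32) (nat_lit 3) (nat_lit 117) (nat_lit 117) (nat_lit 126)) (PT.nd (nat_lit 78) (PT.lf (nat_lit 2964) (nat_lit 6) (nat_lit 39) (nat_lit 3) (nat_lit 118) (nat_lit 117) (nat_lit 125)) (PT.lf (nat_lit 3420) (nat_lit 6) (nat_lit 45) (nat_lit 3) (nat_lit 119) (nat_lit 117) (nat_lit 124)))))) (PT.nd (nat_lit 312) (PT.nd (nat_lit 156) (PT.nd (nat_lit 78) (PT.lf (nat_lit 3800) (nat_lit 6) (nat_lit 50) (nat_lit 3) (nat_lit 120) (nat_lit 117) (nat_lit 123)) (PT.lf (nat_lit 3876) (nat_lit 6) (nat_lit 51) (nat_lit 3) (nat_lit 121) (nat_lit 117) (nat_lit 122))) (PT.nd (nat_lit 78) (PT.lf (nat_lit 3876) (nat_lit 6) (nat_lit 51) (nat_lit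 1) (nat_lit 122) (nat_lit 117) (nat_lit 121)) (PT.lf (nat_lit 3800) (nat_lit 6) (nat_lit 50) (nat_lit 1) (nat_lit 123) (nat_lit 117) (nat_lit 120)))) (PT.nd (nat_lit 156) (PT.nd (nat_lit 78) (PT.lf (nat_lit 3420) (nat_lit 6) (nat_lit 45) (nat_lit 1) (nat_lit 124) (nat_lit 117) (nat_lit 119)) (PT.lf (nat_lit 2964) (nat_lit 6) (nat_lit 39) (nat_lit 1) (nat_lit 125) (nat_lit 117) (nat_lit 118))) (PT.nd (nat_lit 36738) (PT.lf (nat_lit 2432) (nat_lit 3) (nat_lit 32) (nat_lit 0) (nat_lit 126) (nat_lit 117) (nat_lit 117)) (PT.nd (nat_lit 78) (PT.lf (nat_lit 2508) (nat_lit 6) (nat_lit 33) (nat_lit 5) (nat_lit 116) (nat_lit 118) (nat_lit 126)) (PT.lf (nat_lit 2964) (nat_lit 6) (nat_lit 39) (nat_lit 5) (nat_lit 117) (nat_lit 118) (nat_lit 125))))))) (PT.nd (nat_lit 37284) (PT.nd (nat_lit 312) (PT.nd (nat_lit 156) (PT.nd (nat_lit 78) (PT.lf (nat_lit 3344) (nat_lit 3) (nat_lit 44) (nat_lit 3)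 (nat_lit 118) (nat_lit 118) (nat_lit 124)) (PT.lf (nat_lit 3724) (nat_lit 6) (nat_lit 49) (nat_lit 3) (nat_lit 119) (nat_lit 118) (nat_lit 123))) (PT.nd (nat_lit 78) (PT.lf (nat_lit 4028) (nat_lit 6) (nat_lit 53) (nat_lit 3) (nat_lit 120) (nat_lit 118) (nat_lit 122)) (PT.lf (nat_lit 4104) (nat_lit 3) (nat_lit 54) (nat_lit 1) (nat_lit 121) (nat_lit 118) (nat_lit 121)))) (PT.nd (nat_lit 156) (PT.nd (nat_lit 78) (PT.lf (nat_lit 4028) (nat_lit 6) (nat_lit 53) (nat_lit 1) (nat_lit 122) (nat_lit 118) (nat_lit 120)) (PT.lf (nat_lit 3724) (nat_lit 6) (nat_lit 49) (nat_lit 1) (nat_lit 123) (nat_lit 118) (nat_lit 119))) (PT.nd (nat_lit 78) (PT.lf (nat_lit 3344) (nat_lit 3) (nat_lit 44) (nat_lit 0) (nat_lit 124) (nat_lit 118) (nat_lit 118)) (PT.nd (nat_lit 78) (PT.lf (nat_lit 2964) (nat_lit 6) (nat_lit 39) (nat_lit 0) (nat_lit 125) (nat_lit 118) (nat_lit 117)) (PT.lf (nat_lit 2508) (nat_lit 6)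 (nat_lit 33) (nat_lit 0) (nat_lit 126) (nat_lit 118) (nat_lit 116)))))) (PT.nd (nat_lit 312) (PT.nd (nat_lit 156) (PT.nd (nat_lit 78) (PT.lf (nat_lit 2584) (nat_lit 6) (nat_lit 34) (nat_lit 5) (nat_lit 115) (nat_lit 119) (nat_lit 126)) (PT.lf (nat_lit 3040) (nat_lit 6) (nat_lit 40) (nat_lit 5) (nat_lit 116) (nat_lit 119) (nat_lit 125))) (PT.nd (nat_lit 78) (PT.lf (nat_lit 3420) (nat_lit 6) (nat_lit 45) (nat_lit 5) (nat_lit 117) (nat_lit 119) (nat_lit 124)) (PT.lf (nat_lit 3724) (nat_lit 6) (nat_lit 49) (nat_lit 5) (nat_lit 118) (nat_lit 119) (nat_lit 123)))) (PT.nd (nat_lit 156) (PT.nd (nat_lit 78) (PT.lf (nat_lit 3952) (nat_lit 3) (nat_lit 52) (nat_lit 3) (nat_lit 119) (nat_lit 119) (nat_lit 122)) (PT.lf (nat_lit 4180) (nat_lit 6) (nat_lit 55) (nat_lit 3) (nat_lit 120) (nat_lit 119) (nat_lit 121))) (PT.nd (nat_lit 78) (PT.lf (nat_lit 4180) (nat_lit 6) (nat_lit 55) (nat_lit 1) (nat_lit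 121) (nat_lit 119) (nat_lit 120)) (PT.nd (nat_lit 78) (PT.lf (nat_lit 3952) (nat_lit 3) (nat_lit 52) (nat_lit 0) (nat_lit 122) (nat_lit 119) (nat_lit 119)) (PT.lf (nat_lit 3724) (nat_lit 6) (nat_lit 49) (nat_lit 0) (nat_lit 123) (nat_lit 119) (nat_lit 118))))))))
noncomputable def pc3 : PT := (PT.nd (nat_lit 74334) (PT.nd (nat_lit 37206) (PT.nd (nat_lit 36816) (PT.nd (nat_lit 156) (PT.nd (nat_lit 78) (PT.lf (nat_lit 3420) (nat_lit 6) (nat_lit 45) (nat_lit 0) (nat_lit 124) (nat_lit 119) (nat_lit 117)) (PT.lf (nat_lit 3040) (nat_lit 6) (nat_lit 40) (nat_lit 0) (nat_lit 125) (nat_lit 119) (nat_lit 116))) (PT.nd (nat_lit 36582) (PT.lf (nat_lit 2584) (nat_lit 6) (nat_lit 34) (nat_lit 0) (nat_lit 126) (nat_lit 119) (nat_lit 115)) (PT.lf (nat_lit 2660) (nat_lit 6) (nat_lit 35) (nat_lit 5) (nat_lit 114) (nat_lit 120) (nat_lit 126)))) (PT.nd (nat_lit 156) (PT.nd (nat_lit 78) (PT.lf (nat_lit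 3116) (nat_lit 6) (nat_lit 41) (nat_lit 5) (nat_lit 115) (nat_lit 120) (nat_lit 125)) (PT.lf (nat_lit 3496) (nat_lit 6) (nat_lit 46) (nat_lit 5) (nat_lit 116) (nat_lit 120) (nat_lit 124))) (PT.nd (nat_lit 78) (PT.lf (nat_lit 3800) (nat_lit 6) (nat_lit 50) (nat_lit 5) (nat_lit 117) (nat_lit 120) (nat_lit 123)) (PT.nd (nat_lit 78) (PT.lf (nat_lit 4028) (nat_lit 6) (nat_lit 53) (nat_lit 5) (nat_lit 118) (nat_lit 120) (nat_lit 122)) (PT.lf (nat_lit 4180) (nat_lit 6) (nat_lit 55) (nat_lit 5) (nat_lit 119) (nat_lit 120) (nat_lit 121)))))) (PT.nd (nat_lit 312) (PT.nd (nat_lit 156) (PT.nd (nat_lit 78) (PT.lf (nat_lit 4256) (nat_lit 1) (nat_lit 56) (nat_lit 0) (nat_lit 120) (nat_lit 120) (nat_lit 120)) (PT.lf (nat_lit 4180) (nat_lit 6) (nat_lit 55) (nat_lit 0) (nat_lit 121) (nat_lit 120) (nat_lit 119))) (PT.nd (nat_lit 78) (PT.lf (nat_lit 4028) (nat_lit 6) (nat_lit 53) (nat_lit 0) (nat_lit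 122) (nat_lit 120) (nat_lit 118)) (PT.lf (nat_lit 3800) (nat_lit 6) (nat_lit 50) (nat_lit 0) (nat_lit 123) (nat_lit 120) (nat_lit 117)))) (PT.nd (nat_lit 156) (PT.nd (nat_lit 78) (PT.lf (nat_lit 3496) (nat_lit 6) (nat_lit 46) (nat_lit 0) (nat_lit 124) (nat_lit 120) (nat_lit 116)) (PT.lf (nat_lit 3116) (nat_lit 6) (nat_lit 41) (nat_lit 0) (nat_lit 125) (nat_lit 120) (nat_lit 115))) (PT.nd (nat_lit 36504) (PT.lf (nat_lit 2660) (nat_lit 6) (nat_lit 35) (nat_lit 0) (nat_lit 126) (nat_lit 120) (nat_lit 114)) (PT.nd (nat_lit 78) (PT.lf (nat_lit 2204) (nat_lit 6) (nat_lit 29) (nat_lit 5) (nat_lit 113) (nat_lit 121) (nat_lit 126)) (PT.lf (nat_lit 2736) (nat_lit 6) (nat_lit 36) (nat_lit 5) (nat_lit 114) (nat_lit 121) (nat_lit 125))))))) (PT.nd (nat_lit 702) (PT.nd (nat_lit 312) (PT.nd (nat_lit 156) (PT.nd (nat_lit 78) (PT.lf (nat_lit 3192) (nat_lit 6) (nat_lit 42) (nat_lit 5) (nat_lit 115)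 (nat_lit 121) (nat_lit 124)) (PT.lf (nat_lit 3572) (nat_lit 6) (nat_lit 47) (nat_lit 5) (nat_lit 116) (nat_lit 121) (nat_lit 123))) (PT.nd (nat_lit 78) (PT.lf (nat_lit 3876) (nat_lit 6) (nat_lit 51) (nat_lit 5) (nat_lit 117) (nat_lit 121) (nat_lit 122)) (PT.lf (nat_lit 4104) (nat_lit 3) (nat_lit 54) (nat_lit 4) (nat_lit 118) (nat_lit 121) (nat_lit 121)))) (PT.nd (nat_lit 156) (PT.nd (nat_lit 78) (PT.lf (nat_lit 4180) (nat_lit 6) (nat_lit 55) (nat_lit 4) (nat_lit 119) (nat_lit 121) (nat_lit 120)) (PT.lf (nat_lit 4180) (nat_lit 6) (nat_lit 55) (nat_lit 2) (nat_lit 120) (nat_lit 121) (nat_lit 119))) (PT.nd (nat_lit 78) (PT.lf (nat_lit 4104) (nat_lit 3) (nat_lit 54) (nat_lit 0) (nat_lit 121) (nat_lit 121) (nat_lit 118)) (PT.nd (nat_lit 78) (PT.lf (nat_lit 3876) (nat_lit 6) (nat_lit 51) (nat_lit 0) (nat_lit 122) (nat_lit 121) (nat_lit 117)) (PT.lf (nat_lit 3572) (nat_lit 6) (nat_lit 47)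 (nat_lit 0) (nat_lit 123) (nat_lit 121) (nat_lit 116)))))) (PT.nd (nat_lit 36660) (PT.nd (nat_lit 156) (PT.nd (nat_lit 78) (PT.lf (nat_lit 3192) (nat_lit 6) (nat_lit 42) (nat_lit 0) (nat_lit 124) (nat_lit 121) (nat_lit 115)) (PT.lf (nat_lit 2736) (nat_lit 6) (nat_lit 36) (nat_lit 0) (nat_lit 125) (nat_lit 121) (nat_lit 114))) (PT.nd (nat_lit 36348) (PT.lf (nat_lit 2204) (nat_lit 6) (nat_lit 29) (nat_lit 0) (nat_lit 126) (nat_lit 121) (nat_lit 113)) (PT.nd (nat_lit 78) (PT.lf (nat_lit 1748) (nat_lit 6) (nat_lit 23) (nat_lit 5) (nat_lit 111) (nat_lit 122) (nat_lit 127)) (PT.lf (nat_lit 1976) (nat_lit 6) (nat_lit 26) (nat_lit 5) (nat_lit 112) (nat_lit 122) (nat_lit 126))))) (PT.nd (nat_lit 156) (PT.nd (nat_lit 78) (PT.lf (nat_lit 2280) (nat_lit 6) (nat_lit 30) (nat_lit 5) (nat_lit 113) (nat_lit 122) (nat_lit 125)) (PT.lf (nat_lit 2812) (nat_lit 6) (nat_lit 37) (nat_lit 5) (nat_lit 114)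 (nat_lit 122) (nat_lit 124))) (PT.nd (nat_lit 78) (PT.lf (nat_lit 3268) (nat_lit 6) (nat_lit 43) (nat_lit 5) (nat_lit 115) (nat_lit 122) (nat_lit 123)) (PT.nd (nat_lit 78) (PT.lf (nat_lit 3648) (nat_lit 3) (nat_lit 48) (nat_lit 4) (nat_lit 116) (nat_lit 122) (nat_lit 122)) (PT.lf (nat_lit 3876) (nat_lit 6) (nat_lit 51) (nat_lit 4) (nat_lit 117) (nat_lit 122) (nat_lit 121))))))))
noncomputable def pc4 : PT := (PT.nd (nat_lit 37518) (PT.nd (nat_lit 702) (PT.nd (nat_lit 312) (PT.nd (nat_lit 156) (PT.nd (nat_lit 78) (PT.lf (nat_lit 4028) (nat_lit 6) (nat_lit 53) (nat_lit 4) (nat_lit 118) (nat_lit 122) (nat_lit 120)) (PT.lf (nat_lit 3952) (nat_lit 3) (nat_lit 52) (nat_lit 2) (nat_lit 119) (nat_lit 122) (nat_lit 119))) (PT.nd (nat_lit 78) (PT.lf (nat_lit 4028) (nat_lit 6) (nat_lit 53) (nat_lit 2) (nat_lit 120) (nat_lit 122) (nat_lit 118)) (PT.lf (nat_lit 3876) (nat_lit 6) (nat_lit 51) (nat_lit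 2) (nat_lit 121) (nat_lit 122) (nat_lit 117)))) (PT.nd (nat_lit 156) (PT.nd (nat_lit 78) (PT.lf (nat_lit 3648) (nat_lit 3) (nat_lit 48) (nat_lit 0) (nat_lit 122) (nat_lit 122) (nat_lit 116)) (PT.lf (nat_lit 3268) (nat_lit 6) (nat_lit 43) (nat_lit 0) (nat_lit 123) (nat_lit 122) (nat_lit 115))) (PT.nd (nat_lit 78) (PT.lf (nat_lit 2812) (nat_lit 6) (nat_lit 37) (nat_lit 0) (nat_lit 124) (nat_lit 122) (nat_lit 114)) (PT.nd (nat_lit 78) (PT.lf (nat_lit 2280) (nat_lit 6) (nat_lit 30) (nat_lit 0) (nat_lit 125) (nat_lit 122) (nat_lit 113)) (PT.lf (nat_lit 1976) (nat_lit 6) (nat_lit 26) (nat_lit 0) (nat_lit 126) (nat_lit 122) (nat_lit 112)))))) (PT.nd (nat_lit 36426) (PT.nd (nat_lit 36270) (PT.nd (nat_lit 36192) (PT.lf (nat_lit 1748) (nat_lit 6) (nat_lit 23) (nat_lit 0) (nat_lit 127) (nat_lit 122) (nat_lit 111)) (PT.lf (nat_lit 1520) (nat_lit 6) (nat_lit 20) (nat_lit 5) (nat_lit 110) (nat_lit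 123) (nat_lit 127))) (PT.nd (nat_lit 78) (PT.lf (nat_lit 1824) (nat_lit 6) (nat_lit 24) (nat_lit 5) (nat_lit 111) (nat_lit 123) (nat_lit 126)) (PT.lf (nat_lit 2052) (nat_lit 6) (nat_lit 27) (nat_lit 5) (nat_lit 112) (nat_lit 123) (nat_lit 125)))) (PT.nd (nat_lit 156) (PT.nd (nat_lit 78) (PT.lf (nat_lit 2356) (nat_lit 6) (nat_lit 31) (nat_lit 5) (nat_lit 113) (nat_lit 123) (nat_lit 124)) (PT.lf (nat_lit 2888) (nat_lit 3) (nat_lit 38) (nat_lit 4) (nat_lit 114) (nat_lit 123) (nat_lit 123))) (PT.nd (nat_lit 78) (PT.lf (nat_lit 3268) (nat_lit 6) (nat_lit 43) (nat_lit 4) (nat_lit 115) (nat_lit 123) (nat_lit 122)) (PT.nd (nat_lit 78) (PT.lf (nat_lit 3572) (nat_lit 6) (nat_lit 47) (nat_lit 4) (nat_lit 116) (nat_lit 123) (nat_lit 121)) (PT.lf (nat_lit 3800) (nat_lit 6) (nat_lit 50) (nat_lit 4) (nat_lit 117) (nat_lit 123) (nat_lit 120))))))) (PT.nd (nat_lit 702) (PT.nd (nat_lit 312) (PT.nd (nat_lit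 156) (PT.nd (nat_lit 78) (PT.lf (nat_lit 3724) (nat_lit 6) (nat_lit 49) (nat_lit 4) (nat_lit 118) (nat_lit 123) (nat_lit 119)) (PT.lf (nat_lit 3724) (nat_lit 6) (nat_lit 49) (nat_lit 2) (nat_lit 119) (nat_lit 123) (nat_lit 118))) (PT.nd (nat_lit 78) (PT.lf (nat_lit 3800) (nat_lit 6) (nat_lit 50) (nat_lit 2) (nat_lit 120) (nat_lit 123) (nat_lit 117)) (PT.lf (nat_lit 3572) (nat_lit 6) (nat_lit 47) (nat_lit 2) (nat_lit 121) (nat_lit 123) (nat_lit 116)))) (PT.nd (nat_lit 156) (PT.nd (nat_lit 78) (PT.lf (nat_lit 3268) (nat_lit 6) (nat_lit 43) (nat_lit 2) (nat_lit 122) (nat_lit 123) (nat_lit 115)) (PT.lf (nat_lit 2888) (nat_lit 3) (nat_lit 38) (nat_lit 0) (nat_lit 123) (nat_lit 123) (nat_lit 114))) (PT.nd (nat_lit 78) (PT.lf (nat_lit 2356) (nat_lit 6) (nat_lit 31) (nat_lit 0) (nat_lit 124) (nat_lit 123) (nat_lit 113)) (PT.nd (nat_lit 78) (PT.lf (nat_lit 2052) (nat_lit 6) (nat_lit 27) (nat_lit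 0) (nat_lit 125) (nat_lit 123) (nat_lit 112)) (PT.lf (nat_lit 1824) (nat_lit 6) (nat_lit 24) (nat_lit 0) (nat_lit 126) (nat_lit 123) (nat_lit 111)))))) (PT.nd (nat_lit 36348) (PT.nd (nat_lit 36192) (PT.nd (nat_lit 36114) (PT.lf (nat_lit 1520) (nat_lit 6) (nat_lit 20) (nat_lit 0) (nat_lit 127) (nat_lit 123) (nat_lit 110)) (PT.lf (nat_lit 1368) (nat_lit 6) (nat_lit 18) (nat_lit 5) (nat_lit 109) (nat_lit 124) (nat_lit 127))) (PT.nd (nat_lit 78) (PT.lf (nat_lit 1596) (nat_lit 6) (nat_lit 21) (nat_lit 5) (nat_lit 110) (nat_lit 124) (nat_lit 126)) (PT.lf (nat_lit 1900) (nat_lit 6) (nat_lit 25) (nat_lit 5) (nat_lit 111) (nat_lit 124) (nat_lit 125)))) (PT.nd (nat_lit 156) (PT.nd (nat_lit 78) (PT.lf (nat_lit 2128) (nat_lit 3) (nat_lit 28) (nat_lit 4) (nat_lit 112) (nat_lit 124) (nat_lit 124)) (PT.lf (nat_lit 2356) (nat_lit 6) (nat_lit 31) (nat_lit 4) (nat_lit 113) (nat_lit 124) (nat_lit 123)))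 (PT.nd (nat_lit 78) (PT.lf (nat_lit 2812) (nat_lit 6) (nat_lit 37) (nat_lit 4) (nat_lit 114) (nat_lit 124) (nat_lit 122)) (PT.nd (nat_lit 78) (PT.lf (nat_lit 3192) (nat_lit 6) (nat_lit 42) (nat_lit 4) (nat_lit 115) (nat_lit 124) (nat_lit 121)) (PT.lf (nat_lit 3496) (nat_lit 6) (nat_lit 46) (nat_lit 4) (nat_lit 116) (nat_lit 124) (nat_lit 120))))))))
noncomputable def pc5 : PT := (PT.nd (nat_lit 37284) (PT.nd (nat_lit 702) (PT.nd (nat_lit 312) (PT.nd (nat_lit 156) (PT.nd (nat_lit 78) (PT.lf (nat_lit 3420) (nat_lit 6) (nat_lit 45) (nat_lit 4) (nat_lit 117) (nat_lit 124) (nat_lit 119)) (PT.lf (nat_lit 3344) (nat_lit 3) (nat_lit 44) (nat_lit 2) (nat_lit 118) (nat_lit 124) (nat_lit 118))) (PT.nd (nat_lit 78) (PT.lf (nat_lit 3420) (nat_lit 6) (nat_lit 45) (nat_lit 2) (nat_lit 119) (nat_lit 124) (nat_lit 117)) (PT.lf (nat_lit 3496) (nat_lit 6) (nat_lit 46) (nat_lit 2) (nat_lit 120) (nat_lit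 124) (nat_lit 116)))) (PT.nd (nat_lit 156) (PT.nd (nat_lit 78) (PT.lf (nat_lit 3192) (nat_lit 6) (nat_lit 42) (nat_lit 2) (nat_lit 121) (nat_lit 124) (nat_lit 115)) (PT.lf (nat_lit 2812) (nat_lit 6) (nat_lit 37) (nat_lit 2) (nat_lit 122) (nat_lit 124) (nat_lit 114))) (PT.nd (nat_lit 78) (PT.lf (nat_lit 2356) (nat_lit 6) (nat_lit 31) (nat_lit 2) (nat_lit 123) (nat_lit 124) (nat_lit 113)) (PT.nd (nat_lit 78) (PT.lf (nat_lit 2128) (nat_lit 3) (nat_lit 28) (nat_lit 0) (nat_lit 124) (nat_lit 124) (nat_lit 112)) (PT.lf (nat_lit 1900) (nat_lit 6) (nat_lit 25) (nat_lit 0) (nat_lit 125) (nat_lit 124) (nat_lit 111)))))) (PT.nd (nat_lit 36192) (PT.nd (nat_lit 36036) (PT.nd (nat_lit 78) (PT.lf (nat_lit 1596) (nat_lit 6) (nat_lit 21) (nat_lit 0) (nat_lit 126) (nat_lit 124) (nat_lit 110)) (PT.lf (nat_lit 1368) (nat_lit 6) (nat_lit 18) (nat_lit 0) (nat_lit 127) (nat_lit 124) (nat_lit 109))) (PT.nd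 (nat_lit 78) (PT.lf (nat_lit 1064) (nat_lit 6) (nat_lit 14) (nat_lit 5) (nat_lit 107) (nat_lit 125) (nat_lit 128)) (PT.lf (nat_lit 1216) (nat_lit 6) (nat_lit 16) (nat_lit 5) (nat_lit 108) (nat_lit 125) (nat_lit 127)))) (PT.nd (nat_lit 156) (PT.nd (nat_lit 78) (PT.lf (nat_lit 1444) (nat_lit 6) (nat_lit 19) (nat_lit 5) (nat_lit 109) (nat_lit 125) (nat_lit 126)) (PT.lf (nat_lit 1672) (nat_lit 3) (nat_lit 22) (nat_lit 4) (nat_lit 110) (nat_lit 125) (nat_lit 125))) (PT.nd (nat_lit 78) (PT.lf (nat_lit 1900) (nat_lit 6) (nat_lit 25) (nat_lit 4) (nat_lit 111) (nat_lit 125) (nat_lit 124)) (PT.nd (nat_lit 78) (PT.lf (nat_lit 2052) (nat_lit 6) (nat_lit 27) (nat_lit 4) (nat_lit 112) (nat_lit 125) (nat_lit 123)) (PT.lf (nat_lit 2280) (nat_lit 6) (nat_lit 30) (nat_lit 4) (nat_lit 113) (nat_lit 125) (nat_lit 122))))))) (PT.nd (nat_lit 702) (PT.nd (nat_lit 312) (PT.nd (nat_lit 156) (PT.nd (nat_lit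 78) (PT.lf (nat_lit 2736) (nat_lit 6) (nat_lit 36) (nat_lit 4) (nat_lit 114) (nat_lit 125) (nat_lit 121)) (PT.lf (nat_lit 3116) (nat_lit 6) (nat_lit 41) (nat_lit 4) (nat_lit 115) (nat_lit 125) (nat_lit 120))) (PT.nd (nat_lit 78) (PT.lf (nat_lit 3040) (nat_lit 6) (nat_lit 40) (nat_lit 4) (nat_lit 116) (nat_lit 125) (nat_lit 119)) (PT.lf (nat_lit 2964) (nat_lit 6) (nat_lit 39) (nat_lit 4) (nat_lit 117) (nat_lit 125) (nat_lit 118)))) (PT.nd (nat_lit 156) (PT.nd (nat_lit 78) (PT.lf (nat_lit 2964) (nat_lit 6) (nat_lit 39) (nat_lit 2) (nat_lit 118) (nat_lit 125) (nat_lit 117)) (PT.lf (nat_lit 3040) (nat_lit 6) (nat_lit 40) (nat_lit 2) (nat_lit 119) (nat_lit 125) (nat_lit 116))) (PT.nd (nat_lit 78) (PT.lf (nat_lit 3116) (nat_lit 6) (nat_lit 41) (nat_lit 2) (nat_lit 120) (nat_lit 125) (nat_lit 115)) (PT.nd (nat_lit 78) (PT.lf (nat_lit 2736) (nat_lit 6) (nat_lit 36) (nat_lit 2) (nat_lit 121)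 (nat_lit 125) (nat_lit 114)) (PT.lf (nat_lit 2280) (nat_lit 6) (nat_lit 30) (nat_lit 2) (nat_lit 122) (nat_lit 125) (nat_lit 113)))))) (PT.nd (nat_lit 390) (PT.nd (nat_lit 156) (PT.nd (nat_lit 78) (PT.lf (nat_lit 2052) (nat_lit 6) (nat_lit 27) (nat_lit 2) (nat_lit 123) (nat_lit 125) (nat_lit 112)) (PT.lf (nat_lit 1900) (nat_lit 6) (nat_lit 25) (nat_lit 2) (nat_lit 124) (nat_lit 125) (nat_lit 111))) (PT.nd (nat_lit 78) (PT.lf (nat_lit 1672) (nat_lit 3) (nat_lit 22) (nat_lit 0) (nat_lit 125) (nat_lit 125) (nat_lit 110)) (PT.nd (nat_lit 78) (PT.lf (nat_lit 1444) (nat_lit 6) (nat_lit 19) (nat_lit 0) (nat_lit 126) (nat_lit 125) (nat_lit 109)) (PT.lf (nat_lit 1216) (nat_lit 6) (nat_lit 16) (nat_lit 0) (nat_lit 127) (nat_lit 125) (nat_lit 108))))) (PT.nd (nat_lit 35802) (PT.nd (nat_lit 35724) (PT.lf (nat_lit 1064) (nat_lit 6) (nat_lit 14) (nat_lit 0) (nat_lit 128) (nat_lit 125) (nat_lit 107))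 (PT.lf (nat_lit 760) (nat_lit 6) (nat_lit 10) (nat_lit 5) (nat_lit 105) (nat_lit 126) (nat_lit 129))) (PT.nd (nat_lit 78) (PT.lf (nat_lit 912) (nat_lit 6) (nat_lit 12) (nat_lit 5) (nat_lit 106) (nat_lit 126) (nat_lit 128)) (PT.nd (nat_lit 78) (PT.lf (nat_lit 1140) (nat_lit 6) (nat_lit 15) (nat_lit 5) (nat_lit 107) (nat_lit 126) (nat_lit 127)) (PT.lf (nat_lit 1292) (nat_lit 3) (nat_lit 17) (nat_lit 4) (nat_lit 108) (nat_lit 126) (nat_lit 126))))))))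
noncomputable def pc6 : PT := (PT.nd (nat_lit 1404) (PT.nd (nat_lit 702) (PT.nd (nat_lit 312) (PT.nd (nat_lit 156) (PT.nd (nat_lit 78) (PT.lf (nat_lit 1444) (nat_lit 6) (nat_lit 19) (nat_lit 4) (nat_lit 109) (nat_lit 126) (nat_lit 125)) (PT.lf (nat_lit 1596) (nat_lit 6) (nat_lit 21) (nat_lit 4) (nat_lit 110) (nat_lit 126) (nat_lit 124))) (PT.nd (nat_lit 78) (PT.lf (nat_lit 1824) (nat_lit 6) (nat_lit 24) (nat_lit 4) (nat_lit 111) (nat_lit 126) (nat_lit 123)) (PT.lf (nat_lit 1976) (nat_lit 6) (nat_lit 26) (nat_lit 4) (nat_lit 112) (nat_lit 126) (nat_lit 122)))) (PT.nd (nat_lit 156) (PT.nd (nat_lit 78) (PT.lf (nat_lit 2204) (nat_lit 6) (nat_lit 29) (nat_lit 4) (nat_lit 113) (nat_lit 126) (nat_lit 121)) (PT.lf (nat_lit 2660) (nat_lit 6) (nat_lit 35) (nat_lit 4) (nat_lit 114) (nat_lit 126) (nat_lit 120))) (PT.nd (nat_lit 78) (PT.lf (nat_lit 2584) (nat_lit 6) (nat_lit 34) (nat_lit 4) (nat_lit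 115) (nat_lit 126) (nat_lit 119)) (PT.nd (nat_lit 78) (PT.lf (nat_lit 2508) (nat_lit 6) (nat_lit 33) (nat_lit 4) (nat_lit 116) (nat_lit 126) (nat_lit 118)) (PT.lf (nat_lit 2432) (nat_lit 3) (nat_lit 32) (nat_lit 2) (nat_lit 117) (nat_lit 126) (nat_lit 117)))))) (PT.nd (nat_lit 312) (PT.nd (nat_lit 156) (PT.nd (nat_lit 78) (PT.lf (nat_lit 2508) (nat_lit 6) (nat_lit 33) (nat_lit 2) (nat_lit 118) (nat_lit 126) (nat_lit 116)) (PT.lf (nat_lit 2584) (nat_lit 6) (nat_lit 34) (nat_lit 2) (nat_lit 119) (nat_lit 126) (nat_lit 115))) (PT.nd (nat_lit 78) (PT.lf (nat_lit 2660) (nat_lit 6) (nat_lit 35) (nat_lit 2) (nat_lit 120) (nat_lit 126) (nat_lit 114)) (PT.lf (nat_lit 2204) (nat_lit 6) (nat_lit 29) (nat_lit 2) (nat_lit 121) (nat_lit 126) (nat_lit 113)))) (PT.nd (nat_lit 156) (PT.nd (nat_lit 78) (PT.lf (nat_lit 1976) (nat_lit 6) (nat_lit 26) (nat_lit 2) (nat_lit 122) (nat_lit 126) (nat_lit 112))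 (PT.lf (nat_lit 1824) (nat_lit 6) (nat_lit 24) (nat_lit 2) (nat_lit 123) (nat_lit 126) (nat_lit 111))) (PT.nd (nat_lit 78) (PT.lf (nat_lit 1596) (nat_lit 6) (nat_lit 21) (nat_lit 2) (nat_lit 124) (nat_lit 126) (nat_lit 110)) (PT.nd (nat_lit 78) (PT.lf (nat_lit 1444) (nat_lit 6) (nat_lit 19) (nat_lit 2) (nat_lit 125) (nat_lit 126) (nat_lit 109)) (PT.lf (nat_lit 1292) (nat_lit 3) (nat_lit 17) (nat_lit 0) (nat_lit 126) (nat_lit 126) (nat_lit 108))))))) (PT.nd (nat_lit 36192) (PT.nd (nat_lit 35802) (PT.nd (nat_lit 156) (PT.nd (nat_lit 78) (PT.lf (nat_lit 1140) (nat_lit 6) (nat_lit 15) (nat_lit 0) (nat_lit 127) (nat_lit 126) (nat_lit 107)) (PT.lf (nat_lit 912) (nat_lit 6) (nat_lit 12) (nat_lit 0) (nat_lit 128) (nat_lit 126) (nat_lit 106))) (PT.nd (nat_lit 35568) (PT.lf (nat_lit 760) (nat_lit 6) (nat_lit 10) (nat_lit 0) (nat_lit 129) (nat_lit 126) (nat_lit 105)) (PT.lf (nat_lit 608) (nat_lit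 6) (nat_lit 8) (nat_lit 5) (nat_lit 104) (nat_lit 127) (nat_lit 129)))) (PT.nd (nat_lit 156) (PT.nd (nat_lit 78) (PT.lf (nat_lit 836) (nat_lit 6) (nat_lit 11) (nat_lit 5) (nat_lit 105) (nat_lit 127) (nat_lit 128)) (PT.lf (nat_lit 988) (nat_lit 3) (nat_lit 13) (nat_lit 4) (nat_lit 106) (nat_lit 127) (nat_lit 127))) (PT.nd (nat_lit 78) (PT.lf (nat_lit 1140) (nat_lit 6) (nat_lit 15) (nat_lit 4) (nat_lit 107) (nat_lit 127) (nat_lit 126)) (PT.nd (nat_lit 78) (PT.lf (nat_lit 1216) (nat_lit 6) (nat_lit 16) (nat_lit 4) (nat_lit 108) (nat_lit 127) (nat_lit 125)) (PT.lf (nat_lit 1368) (nat_lit 6) (nat_lit 18) (nat_lit 4) (nat_lit 109) (nat_lit 127) (nat_lit 124)))))) (PT.nd (nat_lit 1092) (PT.nd (nat_lit 936) (PT.nd (nat_lit 78) (PT.lf (nat_lit 1520) (nat_lit 6) (nat_lit 20) (nat_lit 4) (nat_lit 110) (nat_lit 127) (nat_lit 123)) (PT.lf (nat_lit 1748) (nat_lit 6) (nat_lit 23) (nat_lit 4) (nat_lit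 111) (nat_lit 127) (nat_lit 122))) (PT.nd (nat_lit 78) (PT.lf (nat_lit 1748) (nat_lit 6) (nat_lit 23) (nat_lit 2) (nat_lit 122) (nat_lit 127) (nat_lit 111)) (PT.lf (nat_lit 1520) (nat_lit 6) (nat_lit 20) (nat_lit 2) (nat_lit 123) (nat_lit 127) (nat_lit 110)))) (PT.nd (nat_lit 156) (PT.nd (nat_lit 78) (PT.lf (nat_lit 1368) (nat_lit 6) (nat_lit 18) (nat_lit 2) (nat_lit 124) (nat_lit 127) (nat_lit 109)) (PT.lf (nat_lit 1216) (nat_lit 6) (nat_lit 16) (nat_lit 2) (nat_lit 125) (nat_lit 127) (nat_lit 108))) (PT.nd (nat_lit 78) (PT.lf (nat_lit 1140) (nat_lit 6) (nat_lit 15) (nat_lit 2) (nat_lit 126) (nat_lit 127) (nat_lit 107)) (PT.nd (nat_lit 78) (PT.lf (nat_lit 988) (nat_lit 3) (nat_lit 13) (nat_lit 0) (nat_lit 127) (nat_lit 127) (nat_lit 106)) (PT.lf (nat_lit 836) (nat_lit 6) (nat_lit 11) (nat_lit 0) (nat_lit 128) (nat_lit 127) (nat_lit 105))))))))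
noncomputable def pc7 : PT := (PT.nd (nat_lit 73164) (PT.nd (nat_lit 37362) (PT.nd (nat_lit 35646) (PT.nd (nat_lit 35490) (PT.nd (nat_lit 35412) (PT.lf (nat_lit 608) (nat_lit 6) (nat_lit 8) (nat_lit 0) (nat_lit 129) (nat_lit 127) (nat_lit 104)) (PT.lf (nat_lit 380) (nat_lit 6) (nat_lit 5) (nat_lit 5) (nat_lit 102) (nat_lit 128) (nat_lit 130))) (PT.nd (nat_lit 78) (PT.lf (nat_lit 532) (nat_lit 6) (nat_lit 7) (nat_lit 5) (nat_lit 103) (nat_lit 128) (nat_lit 129)) (PT.lf (nat_lit 684) (nat_lit 3) (nat_lit 9) (nat_lit 4) (nat_lit 104) (nat_lit 128) (nat_lit 128)))) (PT.nd (nat_lit 156) (PT.nd (nat_lit 78) (PT.lf (nat_lit 836) (nat_lit 6) (nat_lit 11) (nat_lit 4) (nat_lit 105) (nat_lit 128) (nat_lit 127)) (PT.lf (nat_lit 912) (nat_lit 6) (nat_lit 12) (nat_lit 4) (nat_lit 106) (nat_lit 128) (nat_lit 126))) (PT.nd (nat_lit 1404) (PT.lf (nat_lit 1064) (nat_lit 6) (nat_lit 14) (nat_lit 4) (nat_lit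 107) (nat_lit 128) (nat_lit 125)) (PT.nd (nat_lit 78) (PT.lf (nat_lit 1064) (nat_lit 6) (nat_lit 14) (nat_lit 2) (nat_lit 125) (nat_lit 128) (nat_lit 107)) (PT.lf (nat_lit 912) (nat_lit 6) (nat_lit 12) (nat_lit 2) (nat_lit 126) (nat_lit 128) (nat_lit 106)))))) (PT.nd (nat_lit 35412) (PT.nd (nat_lit 156) (PT.nd (nat_lit 78) (PT.lf (nat_lit 836) (nat_lit 6) (nat_lit 11) (nat_lit 2) (nat_lit 127) (nat_lit 128) (nat_lit 105)) (PT.lf (nat_lit 684) (nat_lit 3) (nat_lit 9) (nat_lit 0) (nat_lit 128) (nat_lit 128) (nat_lit 104))) (PT.nd (nat_lit 78) (PT.lf (nat_lit 532) (nat_lit 6) (nat_lit 7) (nat_lit 0) (nat_lit 129) (nat_lit 128) (nat_lit 103)) (PT.lf (nat_lit 380) (nat_lit 6) (nat_lit 5) (nat_lit 0) (nat_lit 130) (nat_lit 128) (nat_lit 102)))) (PT.nd (nat_lit 156) (PT.nd (nat_lit 78) (PT.lf (nat_lit 152) (nat_lit 6) (nat_lit 2) (nat_lit 5) (nat_lit 100) (nat_lit 129) (nat_lit 131)) (PT.lf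 (nat_lit 304) (nat_lit 6) (nat_lit 4) (nat_lit 5) (nat_lit 101) (nat_lit 129) (nat_lit 130))) (PT.nd (nat_lit 78) (PT.lf (nat_lit 456) (nat_lit 3) (nat_lit 6) (nat_lit 4) (nat_lit 102) (nat_lit 129) (nat_lit 129)) (PT.nd (nat_lit 78) (PT.lf (nat_lit 532) (nat_lit 6) (nat_lit 7) (nat_lit 4) (nat_lit 103) (nat_lit 129) (nat_lit 128)) (PT.lf (nat_lit 608) (nat_lit 6) (nat_lit 8) (nat_lit 4) (nat_lit 104) (nat_lit 129) (nat_lit 127))))))) (PT.nd (nat_lit 37206) (PT.nd (nat_lit 1872) (PT.nd (nat_lit 1716) (PT.nd (nat_lit 1638) (PT.lf (nat_lit 760) (nat_lit 6) (nat_lit 10) (nat_lit 4) (nat_lit 105) (nat_lit 129) (nat_lit 126)) (PT.lf (nat_lit 760) (nat_lit 6) (nat_lit 10) (nat_lit 2) (nat_lit 126) (nat_lit 129) (nat_lit 105))) (PT.nd (nat_lit 78) (PT.lf (nat_lit 608) (nat_lit 6) (nat_lit 8) (nat_lit 2) (nat_lit 127) (nat_lit 129) (nat_lit 104)) (PT.lf (nat_lit 532) (nat_lit 6) (nat_lit 7)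 (nat_lit 2) (nat_lit 128) (nat_lit 129) (nat_lit 103)))) (PT.nd (nat_lit 156) (PT.nd (nat_lit 78) (PT.lf (nat_lit 456) (nat_lit 3) (nat_lit 6) (nat_lit 0) (nat_lit 129) (nat_lit 129) (nat_lit 102)) (PT.lf (nat_lit 304) (nat_lit 6) (nat_lit 4) (nat_lit 0) (nat_lit 130) (nat_lit 129) (nat_lit 101))) (PT.nd (nat_lit 35022) (PT.lf (nat_lit 152) (nat_lit 6) (nat_lit 2) (nat_lit 0) (nat_lit 131) (nat_lit 129) (nat_lit 100)) (PT.nd (nat_lit 78) (PT.lf (nat_lit 76) (nat_lit 6) (nat_lit 1) (nat_lit 5) (nat_lit 99) (nat_lit 130) (nat_lit 131)) (PT.lf (nat_lit 228) (nat_lit 3) (nat_lit 3) (nat_lit 4) (nat_lit 100) (nat_lit 130) (nat_lit 130)))))) (PT.nd (nat_lit 2340) (PT.nd (nat_lit 2106) (PT.nd (nat_lit 78) (PT.lf (nat_lit 304) (nat_lit 6) (nat_lit 4) (nat_lit 4) (nat_lit 101) (nat_lit 130) (nat_lit 129)) (PT.lf (nat_lit 380) (nat_lit 6) (nat_lit 5) (nat_lit 4) (nat_lit 102) (nat_lit 130) (nat_lit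 128))) (PT.nd (nat_lit 78) (PT.lf (nat_lit 380) (nat_lit 6) (nat_lit 5) (nat_lit 2) (nat_lit 128) (nat_lit 130) (nat_lit 102)) (PT.nd (nat_lit 78) (PT.lf (nat_lit 304) (nat_lit 6) (nat_lit 4) (nat_lit 2) (nat_lit 129) (nat_lit 130) (nat_lit 101)) (PT.lf (nat_lit 228) (nat_lit 3) (nat_lit 3) (nat_lit 0) (nat_lit 130) (nat_lit 130) (nat_lit 100))))) (PT.nd (nat_lit 35100) (PT.nd (nat_lit 35022) (PT.lf (nat_lit 76) (nat_lit 6) (nat_lit 1) (nat_lit 0) (nat_lit 131) (nat_lit 130) (nat_lit 99)) (PT.lf (nat_lit 76) (nat_lit 6) (nat_lit 1) (nat_lit 4) (nat_lit 99) (nat_lit 131) (nat_lit 130))) (PT.nd (nat_lit 2262) (PT.lf (nat_lit 152) (nat_lit 6) (nat_lit 2) (nat_lit 4) (nat_lit 100) (nat_lit 131) (nat_lit 129)) (PT.nd (nat_lit 78) (PT.lf (nat_lit 152) (nat_lit 6) (nat_lit 2) (nat_lit 2) (nat_lit 129) (nat_lit 131) (nat_lit 100)) (PT.lf (nat_lit 76) (nat_lit 6) (nat_lit 1) (nat_lit 2) (nat_lit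 130) (nat_lit 131) (nat_lit 99))))))))
noncomputable def xc0 : XT := (XT.nd (nat_lit 149760) (nat_lit 0) (nat_lit 0) (XT.nd (nat_lit 112086) (nat_lit 0) (nat_lit 0) (XT.nd (nat_lit 74724) (nat_lit 0) (nat_lit 0) (XT.nd (nat_lit 37440) (nat_lit 0) (nat_lit 0) (XT.nd (nat_lit 78) (nat_lit 0) (nat_lit 0) (XT.lf (nat_lit 0) (nat_lit 433308990828) (nat_lit 152) (nat_lit 443788563866) (nat_lit 0) (nat_lit 433308990828) (nat_lit 1) (nat_lit 5) (nat_lit 3) (nat_lit 4) (nat_lit 1) (nat_lit 4) (nat_lit 338) (nat_lit 191) (nat_lit 191)) (XT.nd (nat_lit 37284) (nat_lit 0) (nat_lit 0) (XT.lf (nat_lit 0) (nat_lit 936281925358) (nat_lit 152) (nat_lit 957912046837) (nat_lit 0) (nat_lit 936254312236) (nat_lit 1) (nat_lit 5) (nat_lit 3) (nat_lit 4) (nat_lit 1) (nat_lit 4) (nat_lit 339) (nat_lit 191) (nat_lit 190)) (XT.lf (nat_lit 0) (nat_lit 371187556914) (nat_lit 152) (nat_lit 381115686317) (nat_lit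 0) (nat_lit 371187556914) (nat_lit 1) (nat_lit 5) (nat_lit 3) (nat_lit 4) (nat_lit 1) (nat_lit 4) (nat_lit 336) (nat_lit 192) (nat_lit 192)))) (XT.nd (nat_lit 78) (nat_lit 0) (nat_lit 0) (XT.lf (nat_lit 0) (nat_lit 802126388519) (nat_lit 152) (nat_lit 822484931241) (nat_lit 0) (nat_lit 802096566347) (nat_lit 1) (nat_lit 5) (nat_lit 3) (nat_lit 4) (nat_lit 1) (nat_lit 4) (nat_lit 337) (nat_lit 192) (nat_lit 191)) (XT.nd (nat_lit 78) (nat_lit 0) (nat_lit 0) (XT.lf (nat_lit 0) (nat_lit 866638580352) (nat_lit 152) (nat_lit 887594121431) (nat_lit 0) (nat_lit 866581145057) (nat_lit 1) (nat_lit 5) (nat_lit 3) (nat_lit 4) (nat_lit 1) (nat_lit 4) (nat_lit 338) (nat_lit 192) (nat_lit 190)) (XT.lf (nat_lit 0) (nat_lit 936293983797) (nat_lit 152) (nat_lit 957944775442) (nat_lit 0) (nat_lit 936210980796) (nat_lit 1) (nat_lit 5) (nat_lit 3) (nat_lit 4) (nat_lit 1) (nat_lit 4) (nat_lit 339) (nat_lit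 192) (nat_lit 189))))) (XT.nd (nat_lit 234) (nat_lit 0) (nat_lit 0) (XT.nd (nat_lit 78) (nat_lit 0) (nat_lit 0) (XT.lf (nat_lit 0) (nat_lit 317904035079) (nat_lit 152) (nat_lit 327434877215) (nat_lit 0) (nat_lit 317904035079) (nat_lit 1) (nat_lit 5) (nat_lit 3) (nat_lit 4) (nat_lit 1) (nat_lit 4) (nat_lit 334) (nat_lit 193) (nat_lit 193)) (XT.nd (nat_lit 78) (nat_lit 0) (nat_lit 0) (XT.lf (nat_lit 0) (nat_lit 687062882601) (nat_lit 152) (nat_lit 706476387484) (nat_lit 0) (nat_lit 687030674655) (nat_lit 1) (nat_lit 5) (nat_lit 3) (nat_lit 4) (nat_lit 1) (nat_lit 4) (nat_lit 335) (nat_lit 193) (nat_lit 192)) (XT.lf (nat_lit 0) (nat_lit 742397360420) (nat_lit 152) (nat_lit 762249725829) (nat_lit 0) (nat_lit 742335330302) (nat_lit 1) (nat_lit 5) (nat_lit 3) (nat_lit 4) (nat_lit 1) (nat_lit 4) (nat_lit 336) (nat_lit 193) (nat_lit 191)))) (XT.nd (nat_lit 78) (nat_lit 0) (nat_lit 0) (XT.lf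 (nat_lit 0) (nat_lit 802139411633) (nat_lit 152) (nat_lit 822520278135) (nat_lit 0) (nat_lit 802049768392) (nat_lit 1) (nat_lit 5) (nat_lit 3) (nat_lit 4) (nat_lit 1) (nat_lit 4) (nat_lit 337) (nat_lit 193) (nat_lit 190)) (XT.nd (nat_lit 78) (nat_lit 0) (nat_lit 0) (XT.lf (nat_lit 0) (nat_lit 866643063209) (nat_lit 152) (nat_lit 887645203232) (nat_lit 0) (nat_lit 866527852262) (nat_lit 1) (nat_lit 5) (nat_lit 3) (nat_lit 4) (nat_lit 1) (nat_lit 4) (nat_lit 338) (nat_lit 193) (nat_lit 189)) (XT.lf (nat_lit 0) (nat_lit 936290559010) (nat_lit 152) (nat_lit 958010426601) (nat_lit 0) (nat_lit 936151674261) (nat_lit 1) (nat_lit 5) (nat_lit 3) (nat_lit 4) (nat_lit 1) (nat_lit 4) (nat_lit 339) (nat_lit 193) (nat_lit 188)))))) (XT.nd (nat_lit 468) (nat_lit 0) (nat_lit 0) (XT.nd (nat_lit 234) (nat_lit 0) (nat_lit 0) (XT.nd (nat_lit 78) (nat_lit 0) (nat_lit 0) (XT.lf (nat_lit 0) (nat_lit 272195645961)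 (nat_lit 152) (nat_lit 281467404011) (nat_lit 0) (nat_lit 272195645961) (nat_lit 1) (nat_lit 5) (nat_lit 3) (nat_lit 4) (nat_lit 1) (nat_lit 4) (nat_lit 332) (nat_lit 194) (nat_lit 194)) (XT.nd (nat_lit 78) (nat_lit 0) (nat_lit 0) (XT.lf (nat_lit 0) (nat_lit 588363975453) (nat_lit 152) (nat_lit 607124009580) (nat_lit 0) (nat_lit 588329190871) (nat_lit 1) (nat_lit 5) (nat_lit 3) (nat_lit 4) (nat_lit 1) (nat_lit 4) (nat_lit 333) (nat_lit 194) (nat_lit 193)) (XT.lf (nat_lit 0) (nat_lit 635832096477) (nat_lit 152) (nat_lit 654889575880) (nat_lit 0) (nat_lit 635765103949) (nat_lit 1) (nat_lit 5) (nat_lit 3) (nat_lit 4) (nat_lit 1) (nat_lit 4) (nat_lit 334) (nat_lit 194) (nat_lit 192)))) (XT.nd (nat_lit 78) (nat_lit 0) (nat_lit 0) (XT.lf (nat_lit 0) (nat_lit 687076947564) (nat_lit 152) (nat_lit 706514562130) (nat_lit 0) (nat_lit 686980132864) (nat_lit 1) (nat_lit 5) (nat_lit 3) (nat_lit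 4) (nat_lit 1) (nat_lit 4) (nat_lit 335) (nat_lit 194) (nat_lit 191)) (XT.nd (nat_lit 78) (nat_lit 0) (nat_lit 0) (XT.lf (nat_lit 0) (nat_lit 742402201907) (nat_lit 152) (nat_lit 762304894174) (nat_lit 0) (nat_lit 742277774084) (nat_lit 1) (nat_lit 5) (nat_lit 3) (nat_lit 4) (nat_lit 1) (nat_lit 4) (nat_lit 336) (nat_lit 194) (nat_lit 190)) (XT.lf (nat_lit 0) (nat_lit 802135712863) (nat_lit 152) (nat_lit 822591181387) (nat_lit 0) (nat_lit 801985717334) (nat_lit 1) (nat_lit 5) (nat_lit 3) (nat_lit 4) (nat_lit 1) (nat_lit 4) (nat_lit 337) (nat_lit 194) (nat_lit 189))))) (XT.nd (nat_lit 36972) (nat_lit 0) (nat_lit 0) (XT.nd (nat_lit 78) (nat_lit 0) (nat_lit 0) (XT.lf (nat_lit 0) (nat_lit 866631456794) (nat_lit 152) (nat_lit 887730675841) (nat_lit 0) (nat_lit 866457787463) (nat_lit 1) (nat_lit 5) (nat_lit 3) (nat_lit 4) (nat_lit 1) (nat_lit 4) (nat_lit 338) (nat_lit 194) (nat_lit 188))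 (XT.nd (nat_lit 36816) (nat_lit 0) (nat_lit 0) (XT.lf (nat_lit 0) (nat_lit 936271630701) (nat_lit 152) (nat_lit 958109389356) (nat_lit 0) (nat_lit 936076041183) (nat_lit 1) (nat_lit 5) (nat_lit 3) (nat_lit 4) (nat_lit 1) (nat_lit 4) (nat_lit 339) (nat_lit 194) (nat_lit 187)) (XT.lf (nat_lit 0) (nat_lit 232979603601) (nat_lit 152) (nat_lit 242117286574) (nat_lit 0) (nat_lit 232979603601) (nat_lit 1) (nat_lit 5) (nat_lit 3) (nat_lit 4) (nat_lit 1) (nat_lit 4) (nat_lit 330) (nat_lit 195) (nat_lit 195)))) (XT.nd (nat_lit 78) (nat_lit 0) (nat_lit 0) (XT.lf (nat_lit 0) (nat_lit 503691034370) (nat_lit 152) (nat_lit 522060109271) (nat_lit 0) (nat_lit 503653467021) (nat_lit 1) (nat_lit 5) (nat_lit 3) (nat_lit 4) (nat_lit 1) (nat_lit 4) (nat_lit 331) (nat_lit 195) (nat_lit 194)) (XT.nd (nat_lit 78) (nat_lit 0) (nat_lit 0) (XT.lf (nat_lit 0) (nat_lit 544417240346) (nat_lit 152) (nat_lit 562956215189)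 (nat_lit 0) (nat_lit 544344888416) (nat_lit 1) (nat_lit 5) (nat_lit 3) (nat_lit 4) (nat_lit 1) (nat_lit 4) (nat_lit 332) (nat_lit 195) (nat_lit 193)) (XT.lf (nat_lit 0) (nat_lit 588379165613) (nat_lit 152) (nat_lit 607165238198) (nat_lit 0) (nat_lit 588274605736) (nat_lit 1) (nat_lit 5) (nat_lit 3) (nat_lit 4) (nat_lit 1) (nat_lit 4) (nat_lit 333) (nat_lit 195) (nat_lit 192))))))) (XT.nd (nat_lit 37518) (nat_lit 0) (nat_lit 0) (XT.nd (nat_lit 37050) (nat_lit 0) (nat_lit 0) (XT.nd (nat_lit 234) (nat_lit 0) (nat_lit 0) (XT.nd (nat_lit 78) (nat_lit 0) (nat_lit 0) (XT.lf (nat_lit 0) (nat_lit 635837325282) (nat_lit 152) (nat_lit 654949157693) (nat_lit 0) (nat_lit 635702943233) (nat_lit 1) (nat_lit 5) (nat_lit 3) (nat_lit 4) (nat_lit 1) (nat_lit 4) (nat_lit 334) (nat_lit 195) (nat_lit 191)) (XT.nd (nat_lit 78) (nat_lit 0) (nat_lit 0) (XT.lf (nat_lit 0) (nat_lit 687072952892) (nat_lit 152)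 (nat_lit 706591137641) (nat_lit 0) (nat_lit 686910957721) (nat_lit 1) (nat_lit 5) (nat_lit 3) (nat_lit 4) (nat_lit 1) (nat_lit 4) (nat_lit 335) (nat_lit 195) (nat_lit 190)) (XT.lf (nat_lit 0) (nat_lit 742389666978) (nat_lit 152) (nat_lit 762397204592) (nat_lit 0) (nat_lit 742202104101) (nat_lit 1) (nat_lit 5) (nat_lit 3) (nat_lit 4) (nat_lit 1) (nat_lit 4) (nat_lit 336) (nat_lit 195) (nat_lit 189)))) (XT.nd (nat_lit 78) (nat_lit 0) (nat_lit 0) (XT.lf (nat_lit 0) (nat_lit 802115270289) (nat_lit 152) (nat_lit 822698061163) (nat_lit 0) (nat_lit 801904033610) (nat_lit 1) (nat_lit 5) (nat_lit 3) (nat_lit 4) (nat_lit 1) (nat_lit 4) (nat_lit 337) (nat_lit 195) (nat_lit 188)) (XT.nd (nat_lit 78) (nat_lit 0) (nat_lit 0) (XT.lf (nat_lit 0) (nat_lit 866603692327) (nat_lit 152) (nat_lit 887851045763) (nat_lit 0) (nat_lit 866370535461) (nat_lit 1) (nat_lit 5) (nat_lit 3) (nat_lit 4) (nat_lit 1)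 (nat_lit 4) (nat_lit 338) (nat_lit 195) (nat_lit 187)) (XT.lf (nat_lit 0) (nat_lit 936237086703) (nat_lit 152) (nat_lit 958242250155) (nat_lit 0) (nat_lit 935983633368) (nat_lit 1) (nat_lit 5) (nat_lit 3) (nat_lit 4) (nat_lit 1) (nat_lit 4) (nat_lit 339) (nat_lit 195) (nat_lit 186))))) (XT.nd (nat_lit 234) (nat_lit 0) (nat_lit 0) (XT.nd (nat_lit 78) (nat_lit 0) (nat_lit 0) (XT.lf (nat_lit 0) (nat_lit 199327424876) (nat_lit 152) (nat_lit 208445251670) (nat_lit 0) (nat_lit 199327424876) (nat_lit 1) (nat_lit 5) (nat_lit 3) (nat_lit 4) (nat_lit 1) (nat_lit 4) (nat_lit 328) (nat_lit 196) (nat_lit 196)) (XT.nd (nat_lit 78) (nat_lit 0) (nat_lit 0) (XT.lf (nat_lit 0) (nat_lit 431038735570) (nat_lit 152) (nat_lit 449255455499) (nat_lit 0) (nat_lit 430998162834) (nat_lit 1) (nat_lit 5) (nat_lit 3) (nat_lit 4) (nat_lit 1) (nat_lit 4) (nat_lit 329) (nat_lit 196) (nat_lit 195)) (XT.lf (nat_lit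 0) (nat_lit 465987231501) (nat_lit 152) (nat_lit 484257692889) (nat_lit 0) (nat_lit 465909091416) (nat_lit 1) (nat_lit 5) (nat_lit 3) (nat_lit 4) (nat_lit 1) (nat_lit 4) (nat_lit 330) (nat_lit 196) (nat_lit 194)))) (XT.nd (nat_lit 78) (nat_lit 0) (nat_lit 0) (XT.lf (nat_lit 0) (nat_lit 503707439743) (nat_lit 152) (nat_lit 522104636178) (nat_lit 0) (nat_lit 503594515076) (nat_lit 1) (nat_lit 5) (nat_lit 3) (nat_lit 4) (nat_lit 1) (nat_lit 4) (nat_lit 331) (nat_lit 196) (nat_lit 193)) (XT.nd (nat_lit 78) (nat_lit 0) (nat_lit 0) (XT.lf (nat_lit 0) (nat_lit 544422887456) (nat_lit 152) (nat_lit 563020563546) (nat_lit 0) (nat_lit 544277754843) (nat_lit 1) (nat_lit 5) (nat_lit 3) (nat_lit 4) (nat_lit 1) (nat_lit 4) (nat_lit 332) (nat_lit 196) (nat_lit 192)) (XT.lf (nat_lit 0) (nat_lit 588374851367) (nat_lit 152) (nat_lit 607247939750) (nat_lit 0) (nat_lit 588199896582) (nat_lit 1) (nat_lit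 5) (nat_lit 3) (nat_lit 4) (nat_lit 1) (nat_lit 4) (nat_lit 333) (nat_lit 196) (nat_lit 191)))))) (XT.nd (nat_lit 36894) (nat_lit 0) (nat_lit 0) (XT.nd (nat_lit 234) (nat_lit 0) (nat_lit 0) (XT.nd (nat_lit 78) (nat_lit 0) (nat_lit 0) (XT.lf (nat_lit 0) (nat_lit 635823787559) (nat_lit 152) (nat_lit 655048852944) (nat_lit 0) (nat_lit 635621219651) (nat_lit 1) (nat_lit 5) (nat_lit 3) (nat_lit 4) (nat_lit 1) (nat_lit 4) (nat_lit 334) (nat_lit 196) (nat_lit 190)) (XT.nd (nat_lit 78) (nat_lit 0) (nat_lit 0) (XT.lf (nat_lit 0) (nat_lit 687050874913) (nat_lit 152) (nat_lit 706706567799) (nat_lit 0) (nat_lit 686822739299) (nat_lit 1) (nat_lit 5) (nat_lit 3) (nat_lit 4) (nat_lit 1) (nat_lit 4) (nat_lit 335) (nat_lit 196) (nat_lit 189)) (XT.lf (nat_lit 0) (nat_lit 742359681354) (nat_lit 152) (nat_lit 762527204108) (nat_lit 0) (nat_lit 742107871938) (nat_lit 1) (nat_lit 5) (nat_lit 3) (nat_lit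 4) (nat_lit 1) (nat_lit 4) (nat_lit 336) (nat_lit 196) (nat_lit 188)))) (XT.nd (nat_lit 78) (nat_lit 0) (nat_lit 0) (XT.lf (nat_lit 0) (nat_lit 802077962772) (nat_lit 152) (nat_lit 822841550825) (nat_lit 0) (nat_lit 801804233169) (nat_lit 1) (nat_lit 5) (nat_lit 3) (nat_lit 4) (nat_lit 1) (nat_lit 4) (nat_lit 337) (nat_lit 196) (nat_lit 187)) (XT.nd (nat_lit 78) (nat_lit 0) (nat_lit 0) (XT.lf (nat_lit 0) (nat_lit 866559605278) (nat_lit 152) (nat_lit 888007026302) (nat_lit 0) (nat_lit 866265579206) (nat_lit 1) (nat_lit 5) (nat_lit 3) (nat_lit 4) (nat_lit 1) (nat_lit 4) (nat_lit 338) (nat_lit 196) (nat_lit 186)) (XT.lf (nat_lit 0) (nat_lit 936186722311) (nat_lit 152) (nat_lit 958409796319) (nat_lit 0) (nat_lit 935873903212) (nat_lit 1) (nat_lit 5) (nat_lit 3) (nat_lit 4) (nat_lit 1) (nat_lit 4) (nat_lit 339) (nat_lit 196) (nat_lit 185))))) (XT.nd (nat_lit 234) (nat_lit 0) (nat_lit 0)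 (XT.nd (nat_lit 78) (nat_lit 0) (nat_lit 0) (XT.lf (nat_lit 0) (nat_lit 170442902976) (nat_lit 152) (nat_lit 179646405214) (nat_lit 0) (nat_lit 170442902976) (nat_lit 1) (nat_lit 5) (nat_lit 3) (nat_lit 4) (nat_lit 1) (nat_lit 4) (nat_lit 326) (nat_lit 197) (nat_lit 197)) (XT.nd (nat_lit 78) (nat_lit 0) (nat_lit 0) (XT.lf (nat_lit 0) (nat_lit 368687488094) (nat_lit 152) (nat_lit 386971044105) (nat_lit 0) (nat_lit 368643669539) (nat_lit 1) (nat_lit 5) (nat_lit 3) (nat_lit 4) (nat_lit 1) (nat_lit 4) (nat_lit 327) (nat_lit 197) (nat_lit 196)) (XT.lf (nat_lit 0) (nat_lit 398685115994) (nat_lit 152) (nat_lit 416915472660) (nat_lit 0) (nat_lit 398600724702) (nat_lit 1) (nat_lit 5) (nat_lit 3) (nat_lit 4) (nat_lit 1) (nat_lit 4) (nat_lit 328) (nat_lit 197) (nat_lit 195)))) (XT.nd (nat_lit 78) (nat_lit 0) (nat_lit 0) (XT.lf (nat_lit 0) (nat_lit 431056453373) (nat_lit 152) (nat_lit 449303544558)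 (nat_lit 0) (nat_lit 430934494733) (nat_lit 1) (nat_lit 5) (nat_lit 3) (nat_lit 4) (nat_lit 1) (nat_lit 4) (nat_lit 329) (nat_lit 197) (nat_lit 194)) (XT.nd (nat_lit 78) (nat_lit 0) (nat_lit 0) (XT.lf (nat_lit 0) (nat_lit 465993330379) (nat_lit 152) (nat_lit 484327189115) (nat_lit 0) (nat_lit 465836587157) (nat_lit 1) (nat_lit 5) (nat_lit 3) (nat_lit 4) (nat_lit 1) (nat_lit 4) (nat_lit 330) (nat_lit 197) (nat_lit 193)) (XT.lf (nat_lit 0) (nat_lit 503702780357) (nat_lit 152) (nat_lit 522193953854) (nat_lit 0) (nat_lit 503513829189) (nat_lit 1) (nat_lit 5) (nat_lit 3) (nat_lit 4) (nat_lit 1) (nat_lit 4) (nat_lit 331) (nat_lit 197) (nat_lit 192))))))))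
noncomputable def xc1 : XT := (XT.nd (nat_lit 74256) (nat_lit 0) (nat_lit 0) (XT.nd (nat_lit 37206) (nat_lit 0) (nat_lit 0) (XT.nd (nat_lit 468) (nat_lit 0) (nat_lit 0) (XT.nd (nat_lit 234) (nat_lit 0) (nat_lit 0) (XT.nd (nat_lit 78) (nat_lit 0) (nat_lit 0) (XT.lf (nat_lit 0) (nat_lit 544408266715) (nat_lit 152) (nat_lit 563128234418) (nat_lit 0) (nat_lit 544189493375) (nat_lit 1) (nat_lit 5) (nat_lit 3) (nat_lit 4) (nat_lit 1) (nat_lit 4) (nat_lit 332) (nat_lit 197) (nat_lit 191)) (XT.nd (nat_lit 78) (nat_lit 0) (nat_lit 0) (XT.lf (nat_lit 0) (nat_lit 588351007149) (nat_lit 152) (nat_lit 607372604321) (nat_lit 0) (nat_lit 588104620687) (nat_lit 1) (nat_lit 5) (nat_lit 3) (nat_lit 4) (nat_lit 1) (nat_lit 4) (nat_lit 333) (nat_lit 197) (nat_lit 190)) (XT.lf (nat_lit 0) (nat_lit 635791403085) (nat_lit 152) (nat_lit 655189252421) (nat_lit 0) (nat_lit 635519448916) (nat_lit 1) (nat_lit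 5) (nat_lit 3) (nat_lit 4) (nat_lit 1) (nat_lit 4) (nat_lit 334) (nat_lit 197) (nat_lit 189)))) (XT.nd (nat_lit 78) (nat_lit 0) (nat_lit 0) (XT.lf (nat_lit 0) (nat_lit 687010582794) (nat_lit 152) (nat_lit 706861536635) (nat_lit 0) (nat_lit 686714954823) (nat_lit 1) (nat_lit 5) (nat_lit 3) (nat_lit 4) (nat_lit 1) (nat_lit 4) (nat_lit 335) (nat_lit 197) (nat_lit 188)) (XT.nd (nat_lit 78) (nat_lit 0) (nat_lit 0) (XT.lf (nat_lit 0) (nat_lit 742312067341) (nat_lit 152) (nat_lit 762695663089) (nat_lit 0) (nat_lit 741994519184) (nat_lit 1) (nat_lit 5) (nat_lit 3) (nat_lit 4) (nat_lit 1) (nat_lit 4) (nat_lit 336) (nat_lit 197) (nat_lit 187)) (XT.lf (nat_lit 0) (nat_lit 802023569228) (nat_lit 152) (nat_lit 823022500682) (nat_lit 0) (nat_lit 801685724601) (nat_lit 1) (nat_lit 5) (nat_lit 3) (nat_lit 4) (nat_lit 1) (nat_lit 4) (nat_lit 337) (nat_lit 197) (nat_lit 186))))) (XT.nd (nat_lit 36504)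 (nat_lit 0) (nat_lit 0) (XT.nd (nat_lit 78) (nat_lit 0) (nat_lit 0) (XT.lf (nat_lit 0) (nat_lit 866498934391) (nat_lit 152) (nat_lit 888199541785) (nat_lit 0) (nat_lit 866142296737) (nat_lit 1) (nat_lit 5) (nat_lit 3) (nat_lit 4) (nat_lit 1) (nat_lit 4) (nat_lit 338) (nat_lit 197) (nat_lit 185)) (XT.nd (nat_lit 36348) (nat_lit 0) (nat_lit 0) (XT.lf (nat_lit 0) (nat_lit 936120239069) (nat_lit 152) (nat_lit 958613020716) (nat_lit 0) (nat_lit 935746200464) (nat_lit 1) (nat_lit 5) (nat_lit 3) (nat_lit 4) (nat_lit 1) (nat_lit 4) (nat_lit 339) (nat_lit 197) (nat_lit 184)) (XT.lf (nat_lit 0) (nat_lit 145643222141) (nat_lit 152) (nat_lit 155031092091) (nat_lit 0) (nat_lit 145643222141) (nat_lit 1) (nat_lit 5) (nat_lit 3) (nat_lit 4) (nat_lit 1) (nat_lit 4) (nat_lit 324) (nat_lit 198) (nat_lit 198)))) (XT.nd (nat_lit 78) (nat_lit 0) (nat_lit 0) (XT.lf (nat_lit 0) (nat_lit 315162642902) (nat_lit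 152) (nat_lit 333716752467) (nat_lit 0) (nat_lit 315115318862) (nat_lit 1) (nat_lit 5) (nat_lit 3) (nat_lit 4) (nat_lit 1) (nat_lit 4) (nat_lit 325) (nat_lit 198) (nat_lit 197)) (XT.nd (nat_lit 78) (nat_lit 0) (nat_lit 0) (XT.lf (nat_lit 0) (nat_lit 340918493494) (nat_lit 152) (nat_lit 359319777293) (nat_lit 0) (nat_lit 340827350899) (nat_lit 1) (nat_lit 5) (nat_lit 3) (nat_lit 4) (nat_lit 1) (nat_lit 4) (nat_lit 326) (nat_lit 198) (nat_lit 196)) (XT.lf (nat_lit 0) (nat_lit 368706623321) (nat_lit 152) (nat_lit 387022980289) (nat_lit 0) (nat_lit 368574907990) (nat_lit 1) (nat_lit 5) (nat_lit 3) (nat_lit 4) (nat_lit 1) (nat_lit 4) (nat_lit 327) (nat_lit 198) (nat_lit 195)))))) (XT.nd (nat_lit 468) (nat_lit 0) (nat_lit 0) (XT.nd (nat_lit 234) (nat_lit 0) (nat_lit 0) (XT.nd (nat_lit 78) (nat_lit 0) (nat_lit 0) (XT.lf (nat_lit 0) (nat_lit 398691702782) (nat_lit 152) (nat_lit 416990528584)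 (nat_lit 0) (nat_lit 398522420103) (nat_lit 1) (nat_lit 5) (nat_lit 3) (nat_lit 4) (nat_lit 1) (nat_lit 4) (nat_lit 328) (nat_lit 198) (nat_lit 194)) (XT.nd (nat_lit 78) (nat_lit 0) (nat_lit 0) (XT.lf (nat_lit 0) (nat_lit 431051421236) (nat_lit 152) (nat_lit 449400007649) (nat_lit 0) (nat_lit 430847353975) (nat_lit 1) (nat_lit 5) (nat_lit 3) (nat_lit 4) (nat_lit 1) (nat_lit 4) (nat_lit 329) (nat_lit 198) (nat_lit 193)) (XT.lf (nat_lit 0) (nat_lit 465977539979) (nat_lit 152) (nat_lit 484443473657) (nat_lit 0) (nat_lit 465741264772) (nat_lit 1) (nat_lit 5) (nat_lit 3) (nat_lit 4) (nat_lit 1) (nat_lit 4) (nat_lit 330) (nat_lit 198) (nat_lit 192)))) (XT.nd (nat_lit 78) (nat_lit 0) (nat_lit 0) (XT.lf (nat_lit 0) (nat_lit 503677028602) (nat_lit 152) (nat_lit 522328591591) (nat_lit 0) (nat_lit 503410931222) (nat_lit 1) (nat_lit 5) (nat_lit 3) (nat_lit 4) (nat_lit 1) (nat_lit 4) (nat_lit 331)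 (nat_lit 198) (nat_lit 191)) (XT.nd (nat_lit 78) (nat_lit 0) (nat_lit 0) (XT.lf (nat_lit 0) (nat_lit 544373291483) (nat_lit 152) (nat_lit 563279865853) (nat_lit 0) (nat_lit 544079580981) (nat_lit 1) (nat_lit 5) (nat_lit 3) (nat_lit 4) (nat_lit 1) (nat_lit 4) (nat_lit 332) (nat_lit 198) (nat_lit 190)) (XT.lf (nat_lit 0) (nat_lit 588307491661) (nat_lit 152) (nat_lit 607539970663) (nat_lit 0) (nat_lit 587988213452) (nat_lit 1) (nat_lit 5) (nat_lit 3) (nat_lit 4) (nat_lit 1) (nat_lit 4) (nat_lit 333) (nat_lit 198) (nat_lit 189))))) (XT.nd (nat_lit 234) (nat_lit 0) (nat_lit 0) (XT.nd (nat_lit 78) (nat_lit 0) (nat_lit 0) (XT.lf (nat_lit 0) (nat_lit 635739979951) (nat_lit 152) (nat_lit 655371188121) (nat_lit 0) (nat_lit 635397027941) (nat_lit 1) (nat_lit 5) (nat_lit 3) (nat_lit 4) (nat_lit 1) (nat_lit 4) (nat_lit 334) (nat_lit 198) (nat_lit 188)) (XT.nd (nat_lit 78) (nat_lit 0) (nat_lit 0)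 (XT.lf (nat_lit 0) (nat_lit 686951837767) (nat_lit 152) (nat_lit 707056962481) (nat_lit 0) (nat_lit 686586965570) (nat_lit 1) (nat_lit 5) (nat_lit 3) (nat_lit 4) (nat_lit 1) (nat_lit 4) (nat_lit 335) (nat_lit 198) (nat_lit 187)) (XT.lf (nat_lit 0) (nat_lit 742246542783) (nat_lit 152) (nat_lit 762903579811) (nat_lit 0) (nat_lit 741861374117) (nat_lit 1) (nat_lit 5) (nat_lit 3) (nat_lit 4) (nat_lit 1) (nat_lit 4) (nat_lit 336) (nat_lit 198) (nat_lit 186)))) (XT.nd (nat_lit 78) (nat_lit 0) (nat_lit 0) (XT.lf (nat_lit 0) (nat_lit 801951767327) (nat_lit 152) (nat_lit 823241983031) (nat_lit 0) (nat_lit 801547805633) (nat_lit 1) (nat_lit 5) (nat_lit 3) (nat_lit 4) (nat_lit 1) (nat_lit 4) (nat_lit 337) (nat_lit 198) (nat_lit 185)) (XT.nd (nat_lit 78) (nat_lit 0) (nat_lit 0) (XT.lf (nat_lit 0) (nat_lit 866421320135) (nat_lit 152) (nat_lit 888429733047) (nat_lit 0) (nat_lit 865999957490) (nat_lit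 1) (nat_lit 5) (nat_lit 3) (nat_lit 4) (nat_lit 1) (nat_lit 4) (nat_lit 338) (nat_lit 198) (nat_lit 184)) (XT.lf (nat_lit 0) (nat_lit 936037243003) (nat_lit 152) (nat_lit 958853127637) (nat_lit 0) (nat_lit 935599768366) (nat_lit 1) (nat_lit 5) (nat_lit 3) (nat_lit 4) (nat_lit 1) (nat_lit 4) (nat_lit 339) (nat_lit 198) (nat_lit 183))))))) (XT.nd (nat_lit 936) (nat_lit 0) (nat_lit 0) (XT.nd (nat_lit 468) (nat_lit 0) (nat_lit 0) (XT.nd (nat_lit 234) (nat_lit 0) (nat_lit 0) (XT.nd (nat_lit 78) (nat_lit 0) (nat_lit 0) (XT.lf (nat_lit 0) (nat_lit 124342765411) (nat_lit 152) (nat_lit 134008488975) (nat_lit 0) (nat_lit 124342765411) (nat_lit 1) (nat_lit 5) (nat_lit 3) (nat_lit 4) (nat_lit 1) (nat_lit 4) (nat_lit 322) (nat_lit 199) (nat_lit 199)) (XT.nd (nat_lit 78) (nat_lit 0) (nat_lit 0) (XT.lf (nat_lit 0) (nat_lit 269199519012) (nat_lit 152) (nat_lit 288215897220) (nat_lit 0) (nat_lit 269148409049)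 (nat_lit 1) (nat_lit 5) (nat_lit 3) (nat_lit 4) (nat_lit 1) (nat_lit 4) (nat_lit 323) (nat_lit 199) (nat_lit 198)) (XT.lf (nat_lit 0) (nat_lit 291321746826) (nat_lit 152) (nat_lit 310091308397) (nat_lit 0) (nat_lit 291223312823) (nat_lit 1) (nat_lit 5) (nat_lit 3) (nat_lit 4) (nat_lit 1) (nat_lit 4) (nat_lit 324) (nat_lit 199) (nat_lit 197)))) (XT.nd (nat_lit 78) (nat_lit 0) (nat_lit 0) (XT.lf (nat_lit 0) (nat_lit 315183308947) (nat_lit 152) (nat_lit 333772843546) (nat_lit 0) (nat_lit 315041056389) (nat_lit 1) (nat_lit 5) (nat_lit 3) (nat_lit 4) (nat_lit 1) (nat_lit 4) (nat_lit 325) (nat_lit 199) (nat_lit 196)) (XT.nd (nat_lit 78) (nat_lit 0) (nat_lit 0) (XT.lf (nat_lit 0) (nat_lit 340925607226) (nat_lit 152) (nat_lit 359400837691) (nat_lit 0) (nat_lit 340742781932) (nat_lit 1) (nat_lit 5) (nat_lit 3) (nat_lit 4) (nat_lit 1) (nat_lit 4) (nat_lit 326) (nat_lit 199) (nat_lit 195)) (XT.lf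 (nat_lit 0) (nat_lit 368701188614) (nat_lit 152) (nat_lit 387127160427) (nat_lit 0) (nat_lit 368480795972) (nat_lit 1) (nat_lit 5) (nat_lit 3) (nat_lit 4) (nat_lit 1) (nat_lit 4) (nat_lit 327) (nat_lit 199) (nat_lit 194))))) (XT.nd (nat_lit 234) (nat_lit 0) (nat_lit 0) (XT.nd (nat_lit 78) (nat_lit 0) (nat_lit 0) (XT.lf (nat_lit 0) (nat_lit 398674649150) (nat_lit 152) (nat_lit 417116115888) (nat_lit 0) (nat_lit 398419471926) (nat_lit 1) (nat_lit 5) (nat_lit 3) (nat_lit 4) (nat_lit 1) (nat_lit 4) (nat_lit 328) (nat_lit 199) (nat_lit 193)) (XT.nd (nat_lit 78) (nat_lit 0) (nat_lit 0) (XT.lf (nat_lit 0) (nat_lit 431023609341) (nat_lit 152) (nat_lit 449545416404) (nat_lit 0) (nat_lit 430736224171) (nat_lit 1) (nat_lit 5) (nat_lit 3) (nat_lit 4) (nat_lit 1) (nat_lit 4) (nat_lit 329) (nat_lit 199) (nat_lit 192)) (XT.lf (nat_lit 0) (nat_lit 465939766728) (nat_lit 152) (nat_lit 484607235607)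 (nat_lit 0) (nat_lit 465622559386) (nat_lit 1) (nat_lit 5) (nat_lit 3) (nat_lit 4) (nat_lit 1) (nat_lit 4) (nat_lit 330) (nat_lit 199) (nat_lit 191)))) (XT.nd (nat_lit 78) (nat_lit 0) (nat_lit 0) (XT.lf (nat_lit 0) (nat_lit 503630031875) (nat_lit 152) (nat_lit 522509347240) (nat_lit 0) (nat_lit 503285211409) (nat_lit 1) (nat_lit 5) (nat_lit 3) (nat_lit 4) (nat_lit 1) (nat_lit 4) (nat_lit 331) (nat_lit 199) (nat_lit 190)) (XT.nd (nat_lit 78) (nat_lit 0) (nat_lit 0) (XT.lf (nat_lit 0) (nat_lit 544317754499) (nat_lit 152) (nat_lit 563476356409) (nat_lit 0) (nat_lit 543947366328) (nat_lit 1) (nat_lit 5) (nat_lit 3) (nat_lit 4) (nat_lit 1) (nat_lit 4) (nat_lit 332) (nat_lit 199) (nat_lit 189)) (XT.lf (nat_lit 0) (nat_lit 588244047032) (nat_lit 152) (nat_lit 607751030576) (nat_lit 0) (nat_lit 587849985059) (nat_lit 1) (nat_lit 5) (nat_lit 3) (nat_lit 4) (nat_lit 1) (nat_lit 4) (nat_lit 333)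 (nat_lit 199) (nat_lit 188)))))) (XT.nd (nat_lit 36426) (nat_lit 0) (nat_lit 0) (XT.nd (nat_lit 234) (nat_lit 0) (nat_lit 0) (XT.nd (nat_lit 78) (nat_lit 0) (nat_lit 0) (XT.lf (nat_lit 0) (nat_lit 635669213429) (nat_lit 152) (nat_lit 655595738181) (nat_lit 0) (nat_lit 635253231269) (nat_lit 1) (nat_lit 5) (nat_lit 3) (nat_lit 4) (nat_lit 1) (nat_lit 4) (nat_lit 334) (nat_lit 199) (nat_lit 187)) (XT.nd (nat_lit 78) (nat_lit 0) (nat_lit 0) (XT.lf (nat_lit 0) (nat_lit 686874291714) (nat_lit 152) (nat_lit 707294003417) (nat_lit 0) (nat_lit 686438013084) (nat_lit 1) (nat_lit 5) (nat_lit 3) (nat_lit 4) (nat_lit 1) (nat_lit 4) (nat_lit 335) (nat_lit 199) (nat_lit 186)) (XT.lf (nat_lit 0) (nat_lit 742162719387) (nat_lit 152) (nat_lit 763152186374) (nat_lit 0) (nat_lit 741707647730) (nat_lit 1) (nat_lit 5) (nat_lit 3) (nat_lit 4) (nat_lit 1) (nat_lit 4) (nat_lit 336) (nat_lit 199) (nat_lit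 185)))) (XT.nd (nat_lit 78) (nat_lit 0) (nat_lit 0) (XT.lf (nat_lit 0) (nat_lit 801862131575) (nat_lit 152) (nat_lit 823501298506) (nat_lit 0) (nat_lit 801389658967) (nat_lit 1) (nat_lit 5) (nat_lit 3) (nat_lit 4) (nat_lit 1) (nat_lit 4) (nat_lit 337) (nat_lit 199) (nat_lit 184)) (XT.nd (nat_lit 78) (nat_lit 0) (nat_lit 0) (XT.lf (nat_lit 0) (nat_lit 866326302573) (nat_lit 152) (nat_lit 888698964182) (nat_lit 0) (nat_lit 865837717973) (nat_lit 1) (nat_lit 5) (nat_lit 3) (nat_lit 4) (nat_lit 1) (nat_lit 4) (nat_lit 338) (nat_lit 199) (nat_lit 183)) (XT.lf (nat_lit 0) (nat_lit 935937242283) (nat_lit 152) (nat_lit 959131539940) (nat_lit 0) (nat_lit 935433739172) (nat_lit 1) (nat_lit 5) (nat_lit 3) (nat_lit 4) (nat_lit 1) (nat_lit 4) (nat_lit 339) (nat_lit 199) (nat_lit 182))))) (XT.nd (nat_lit 234) (nat_lit 0) (nat_lit 0) (XT.nd (nat_lit 78) (nat_lit 0) (nat_lit 0) (XT.lf (nat_lit 0)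 (nat_lit 106039231139) (nat_lit 152) (nat_lit 116072540449) (nat_lit 0) (nat_lit 106039231139) (nat_lit 1) (nat_lit 5) (nat_lit 3) (nat_lit 4) (nat_lit 1) (nat_lit 4) (nat_lit 320) (nat_lit 200) (nat_lit 200)) (XT.nd (nat_lit 78) (nat_lit 0) (nat_lit 0) (XT.lf (nat_lit 0) (nat_lit 229713416642) (nat_lit 152) (nat_lit 249374853288) (nat_lit 0) (nat_lit 229658217882) (nat_lit 1) (nat_lit 5) (nat_lit 3) (nat_lit 4) (nat_lit 1) (nat_lit 4) (nat_lit 321) (nat_lit 200) (nat_lit 199)) (XT.lf (nat_lit 0) (nat_lit 248723657569) (nat_lit 152) (nat_lit 268048432101) (nat_lit 0) (nat_lit 248617348847) (nat_lit 1) (nat_lit 5) (nat_lit 3) (nat_lit 4) (nat_lit 1) (nat_lit 4) (nat_lit 322) (nat_lit 200) (nat_lit 198)))) (XT.nd (nat_lit 156) (nat_lit 0) (nat_lit 0) (XT.nd (nat_lit 78) (nat_lit 0) (nat_lit 0) (XT.lf (nat_lit 0) (nat_lit 269221838340) (nat_lit 152) (nat_lit 288276475585) (nat_lit 0)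 (nat_lit 269068205578) (nat_lit 1) (nat_lit 5) (nat_lit 3) (nat_lit 4) (nat_lit 1) (nat_lit 4) (nat_lit 323) (nat_lit 200) (nat_lit 197)) (XT.lf (nat_lit 0) (nat_lit 291329429655) (nat_lit 152) (nat_lit 310178853626) (nat_lit 0) (nat_lit 291131978338) (nat_lit 1) (nat_lit 5) (nat_lit 3) (nat_lit 4) (nat_lit 1) (nat_lit 4) (nat_lit 324) (nat_lit 200) (nat_lit 196))) (XT.nd (nat_lit 78) (nat_lit 0) (nat_lit 0) (XT.lf (nat_lit 0) (nat_lit 315177439463) (nat_lit 152) (nat_lit 333885358095) (nat_lit 0) (nat_lit 314939415410) (nat_lit 1) (nat_lit 5) (nat_lit 3) (nat_lit 4) (nat_lit 1) (nat_lit 4) (nat_lit 325) (nat_lit 200) (nat_lit 195)) (XT.lf (nat_lit 0) (nat_lit 340907189303) (nat_lit 152) (nat_lit 359536471980) (nat_lit 0) (nat_lit 340631597901) (nat_lit 1) (nat_lit 5) (nat_lit 3) (nat_lit 4) (nat_lit 1) (nat_lit 4) (nat_lit 326) (nat_lit 200) (nat_lit 194))))))))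
noncomputable def xc2 : XT := (XT.nd (nat_lit 37674) (nat_lit 0) (nat_lit 0) (XT.nd (nat_lit 936) (nat_lit 0) (nat_lit 0) (XT.nd (nat_lit 468) (nat_lit 0) (nat_lit 0) (XT.nd (nat_lit 234) (nat_lit 0) (nat_lit 0) (XT.nd (nat_lit 78) (nat_lit 0) (nat_lit 0) (XT.lf (nat_lit 0) (nat_lit 368671151767) (nat_lit 152) (nat_lit 387284201883) (nat_lit 0) (nat_lit 368360775783) (nat_lit 1) (nat_lit 5) (nat_lit 3) (nat_lit 4) (nat_lit 1) (nat_lit 4) (nat_lit 327) (nat_lit 200) (nat_lit 193)) (XT.nd (nat_lit 78) (nat_lit 0) (nat_lit 0) (XT.lf (nat_lit 0) (nat_lit 398633854039) (nat_lit 152) (nat_lit 417292978795) (nat_lit 0) (nat_lit 398291270109) (nat_lit 1) (nat_lit 5) (nat_lit 3) (nat_lit 4) (nat_lit 1) (nat_lit 4) (nat_lit 328) (nat_lit 200) (nat_lit 192)) (XT.lf (nat_lit 0) (nat_lit 430972852875) (nat_lit 152) (nat_lit 449740632505) (nat_lit 0) (nat_lit 430600446773) (nat_lit 1) (nat_lit 5)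 (nat_lit 3) (nat_lit 4) (nat_lit 1) (nat_lit 4) (nat_lit 329) (nat_lit 200) (nat_lit 191)))) (XT.nd (nat_lit 78) (nat_lit 0) (nat_lit 0) (XT.lf (nat_lit 0) (nat_lit 465879786785) (nat_lit 152) (nat_lit 484819445407) (nat_lit 0) (nat_lit 465479767561) (nat_lit 1) (nat_lit 5) (nat_lit 3) (nat_lit 4) (nat_lit 1) (nat_lit 4) (nat_lit 330) (nat_lit 200) (nat_lit 190)) (XT.nd (nat_lit 78) (nat_lit 0) (nat_lit 0) (XT.lf (nat_lit 0) (nat_lit 503561511675) (nat_lit 152) (nat_lit 522737291947) (nat_lit 0) (nat_lit 503135924744) (nat_lit 1) (nat_lit 5) (nat_lit 3) (nat_lit 4) (nat_lit 1) (nat_lit 4) (nat_lit 331) (nat_lit 200) (nat_lit 189)) (XT.lf (nat_lit 0) (nat_lit 544241326655) (nat_lit 152) (nat_lit 563718870474) (nat_lit 0) (nat_lit 543792065922) (nat_lit 1) (nat_lit 5) (nat_lit 3) (nat_lit 4) (nat_lit 1) (nat_lit 4) (nat_lit 332) (nat_lit 200) (nat_lit 188))))) (XT.nd (nat_lit 234) (nat_lit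 0) (nat_lit 0) (XT.nd (nat_lit 78) (nat_lit 0) (nat_lit 0) (XT.lf (nat_lit 0) (nat_lit 588160297294) (nat_lit 152) (nat_lit 608007034788) (nat_lit 0) (nat_lit 587689116374) (nat_lit 1) (nat_lit 5) (nat_lit 3) (nat_lit 4) (nat_lit 1) (nat_lit 4) (nat_lit 333) (nat_lit 200) (nat_lit 187)) (XT.nd (nat_lit 78) (nat_lit 0) (nat_lit 0) (XT.lf (nat_lit 0) (nat_lit 635578684160) (nat_lit 152) (nat_lit 655864233269) (nat_lit 0) (nat_lit 635087206771) (nat_lit 1) (nat_lit 5) (nat_lit 3) (nat_lit 4) (nat_lit 1) (nat_lit 4) (nat_lit 334) (nat_lit 200) (nat_lit 186)) (XT.lf (nat_lit 0) (nat_lit 686777485101) (nat_lit 152) (nat_lit 707574064130) (nat_lit 0) (nat_lit 686267214685) (nat_lit 1) (nat_lit 5) (nat_lit 3) (nat_lit 4) (nat_lit 1) (nat_lit 4) (nat_lit 335) (nat_lit 200) (nat_lit 185)))) (XT.nd (nat_lit 78) (nat_lit 0) (nat_lit 0) (XT.lf (nat_lit 0) (nat_lit 742060100419) (nat_lit 152) (nat_lit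 763442956000) (nat_lit 0) (nat_lit 741532429052) (nat_lit 1) (nat_lit 5) (nat_lit 3) (nat_lit 4) (nat_lit 1) (nat_lit 4) (nat_lit 336) (nat_lit 200) (nat_lit 184)) (XT.nd (nat_lit 78) (nat_lit 0) (nat_lit 0) (XT.lf (nat_lit 0) (nat_lit 801754130797) (nat_lit 152) (nat_lit 823801983793) (nat_lit 0) (nat_lit 801210347438) (nat_lit 1) (nat_lit 5) (nat_lit 3) (nat_lit 4) (nat_lit 1) (nat_lit 4) (nat_lit 337) (nat_lit 200) (nat_lit 183)) (XT.lf (nat_lit 0) (nat_lit 866213318638) (nat_lit 152) (nat_lit 889008830636) (nat_lit 0) (nat_lit 865654616767) (nat_lit 1) (nat_lit 5) (nat_lit 3) (nat_lit 4) (nat_lit 1) (nat_lit 4) (nat_lit 338) (nat_lit 200) (nat_lit 182)))))) (XT.nd (nat_lit 36270) (nat_lit 0) (nat_lit 0) (XT.nd (nat_lit 36036) (nat_lit 0) (nat_lit 0) (XT.nd (nat_lit 35880) (nat_lit 0) (nat_lit 0) (XT.lf (nat_lit 0) (nat_lit 935819644313) (nat_lit 152) (nat_lit 959449907473) (nat_lit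 0) (nat_lit 935247129006) (nat_lit 1) (nat_lit 5) (nat_lit 3) (nat_lit 4) (nat_lit 1) (nat_lit 4) (nat_lit 339) (nat_lit 200) (nat_lit 181)) (XT.nd (nat_lit 78) (nat_lit 0) (nat_lit 0) (XT.lf (nat_lit 0) (nat_lit 90301728765) (nat_lit 152) (nat_lit 100789904348) (nat_lit 0) (nat_lit 90301728765) (nat_lit 1) (nat_lit 5) (nat_lit 3) (nat_lit 4) (nat_lit 1) (nat_lit 4) (nat_lit 318) (nat_lit 201) (nat_lit 201)) (XT.lf (nat_lit 0) (nat_lit 195773905704) (nat_lit 152) (nat_lit 216257012581) (nat_lit 0) (nat_lit 195714291044) (nat_lit 1) (nat_lit 5) (nat_lit 3) (nat_lit 4) (nat_lit 1) (nat_lit 4) (nat_lit 319) (nat_lit 201) (nat_lit 200)))) (XT.nd (nat_lit 78) (nat_lit 0) (nat_lit 0) (XT.lf (nat_lit 0) (nat_lit 212119639165) (nat_lit 152) (nat_lit 232179051382) (nat_lit 0) (nat_lit 212004825745) (nat_lit 1) (nat_lit 5) (nat_lit 3) (nat_lit 4) (nat_lit 1) (nat_lit 4) (nat_lit 320) (nat_lit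 201) (nat_lit 199)) (XT.nd (nat_lit 78) (nat_lit 0) (nat_lit 0) (XT.lf (nat_lit 0) (nat_lit 229737521517) (nat_lit 152) (nat_lit 249440277922) (nat_lit 0) (nat_lit 229571598134) (nat_lit 1) (nat_lit 5) (nat_lit 3) (nat_lit 4) (nat_lit 1) (nat_lit 4) (nat_lit 321) (nat_lit 201) (nat_lit 198)) (XT.lf (nat_lit 0) (nat_lit 248731955026) (nat_lit 152) (nat_lit 268142980950) (nat_lit 0) (nat_lit 248518707603) (nat_lit 1) (nat_lit 5) (nat_lit 3) (nat_lit 4) (nat_lit 1) (nat_lit 4) (nat_lit 322) (nat_lit 201) (nat_lit 197))))) (XT.nd (nat_lit 234) (nat_lit 0) (nat_lit 0) (XT.nd (nat_lit 78) (nat_lit 0) (nat_lit 0) (XT.lf (nat_lit 0) (nat_lit 269215499298) (nat_lit 152) (nat_lit 288397991298) (nat_lit 0) (nat_lit 268958433320) (nat_lit 1) (nat_lit 5) (nat_lit 3) (nat_lit 4) (nat_lit 1) (nat_lit 4) (nat_lit 323) (nat_lit 201) (nat_lit 196)) (XT.nd (nat_lit 78) (nat_lit 0) (nat_lit 0) (XT.lf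 (nat_lit 0) (nat_lit 291309538299) (nat_lit 152) (nat_lit 310325338658) (nat_lit 0) (nat_lit 291011899585) (nat_lit 1) (nat_lit 5) (nat_lit 3) (nat_lit 4) (nat_lit 1) (nat_lit 4) (nat_lit 324) (nat_lit 201) (nat_lit 195)) (XT.lf (nat_lit 0) (nat_lit 315144999668) (nat_lit 152) (nat_lit 334054962867) (nat_lit 0) (nat_lit 314809793606) (nat_lit 1) (nat_lit 5) (nat_lit 3) (nat_lit 4) (nat_lit 1) (nat_lit 4) (nat_lit 325) (nat_lit 201) (nat_lit 194)))) (XT.nd (nat_lit 78) (nat_lit 0) (nat_lit 0) (XT.lf (nat_lit 0) (nat_lit 340863130584) (nat_lit 152) (nat_lit 359727483919) (nat_lit 0) (nat_lit 340493139939) (nat_lit 1) (nat_lit 5) (nat_lit 3) (nat_lit 4) (nat_lit 1) (nat_lit 4) (nat_lit 326) (nat_lit 201) (nat_lit 193)) (XT.nd (nat_lit 78) (nat_lit 0) (nat_lit 0) (XT.lf (nat_lit 0) (nat_lit 368616334784) (nat_lit 152) (nat_lit 387495035272) (nat_lit 0) (nat_lit 368214136193) (nat_lit 1)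 (nat_lit 5) (nat_lit 3) (nat_lit 4) (nat_lit 1) (nat_lit 4) (nat_lit 327) (nat_lit 201) (nat_lit 192)) (XT.lf (nat_lit 0) (nat_lit 398569075701) (nat_lit 152) (nat_lit 417522165379) (nat_lit 0) (nat_lit 398137054938) (nat_lit 1) (nat_lit 5) (nat_lit 3) (nat_lit 4) (nat_lit 1) (nat_lit 4) (nat_lit 328) (nat_lit 201) (nat_lit 191))))))) (XT.nd (nat_lit 36582) (nat_lit 0) (nat_lit 0) (XT.nd (nat_lit 468) (nat_lit 0) (nat_lit 0) (XT.nd (nat_lit 234) (nat_lit 0) (nat_lit 0) (XT.nd (nat_lit 78) (nat_lit 0) (nat_lit 0) (XT.lf (nat_lit 0) (nat_lit 430898851060) (nat_lit 152) (nat_lit 449986812789) (nat_lit 0) (nat_lit 430439217174) (nat_lit 1) (nat_lit 5) (nat_lit 3) (nat_lit 4) (nat_lit 1) (nat_lit 4) (nat_lit 329) (nat_lit 201) (nat_lit 190)) (XT.nd (nat_lit 78) (nat_lit 0) (nat_lit 0) (XT.lf (nat_lit 0) (nat_lit 465797244714) (nat_lit 152) (nat_lit 485081360597) (nat_lit 0) (nat_lit 465312043122)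 (nat_lit 1) (nat_lit 5) (nat_lit 3) (nat_lit 4) (nat_lit 1) (nat_lit 4) (nat_lit 330) (nat_lit 201) (nat_lit 189)) (XT.lf (nat_lit 0) (nat_lit 503471061958) (nat_lit 152) (nat_lit 523013776495) (nat_lit 0) (nat_lit 502962186565) (nat_lit 1) (nat_lit 5) (nat_lit 3) (nat_lit 4) (nat_lit 1) (nat_lit 4) (nat_lit 331) (nat_lit 201) (nat_lit 188)))) (XT.nd (nat_lit 78) (nat_lit 0) (nat_lit 0) (XT.lf (nat_lit 0) (nat_lit 544143555044) (nat_lit 152) (nat_lit 564008845168) (nat_lit 0) (nat_lit 543612759464) (nat_lit 1) (nat_lit 5) (nat_lit 3) (nat_lit 4) (nat_lit 1) (nat_lit 4) (nat_lit 332) (nat_lit 201) (nat_lit 187)) (XT.nd (nat_lit 78) (nat_lit 0) (nat_lit 0) (XT.lf (nat_lit 0) (nat_lit 588055746153) (nat_lit 152) (nat_lit 608309500358) (nat_lit 0) (nat_lit 587504654103) (nat_lit 1) (nat_lit 5) (nat_lit 3) (nat_lit 4) (nat_lit 1) (nat_lit 4) (nat_lit 333) (nat_lit 201) (nat_lit 186)) (XT.lf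 (nat_lit 0) (nat_lit 635467855676) (nat_lit 152) (nat_lit 656178264465) (nat_lit 0) (nat_lit 634897970599) (nat_lit 1) (nat_lit 5) (nat_lit 3) (nat_lit 4) (nat_lit 1) (nat_lit 4) (nat_lit 334) (nat_lit 201) (nat_lit 185))))) (XT.nd (nat_lit 234) (nat_lit 0) (nat_lit 0) (XT.nd (nat_lit 78) (nat_lit 0) (nat_lit 0) (XT.lf (nat_lit 0) (nat_lit 686660844262) (nat_lit 152) (nat_lit 707898804240) (nat_lit 0) (nat_lit 686073558234) (nat_lit 1) (nat_lit 5) (nat_lit 3) (nat_lit 4) (nat_lit 1) (nat_lit 4) (nat_lit 335) (nat_lit 201) (nat_lit 184)) (XT.nd (nat_lit 78) (nat_lit 0) (nat_lit 0) (XT.lf (nat_lit 0) (nat_lit 741938077769) (nat_lit 152) (nat_lit 763777611770) (nat_lit 0) (nat_lit 741334679749) (nat_lit 1) (nat_lit 5) (nat_lit 3) (nat_lit 4) (nat_lit 1) (nat_lit 4) (nat_lit 336) (nat_lit 201) (nat_lit 183)) (XT.lf (nat_lit 0) (nat_lit 801627124990) (nat_lit 152) (nat_lit 824145820729)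 (nat_lit 0) (nat_lit 801008808459) (nat_lit 1) (nat_lit 5) (nat_lit 3) (nat_lit 4) (nat_lit 1) (nat_lit 4) (nat_lit 337) (nat_lit 201) (nat_lit 182)))) (XT.nd (nat_lit 78) (nat_lit 0) (nat_lit 0) (XT.lf (nat_lit 0) (nat_lit 866081698795) (nat_lit 152) (nat_lit 889361168653) (nat_lit 0) (nat_lit 865449568828) (nat_lit 1) (nat_lit 5) (nat_lit 3) (nat_lit 4) (nat_lit 1) (nat_lit 4) (nat_lit 338) (nat_lit 201) (nat_lit 181)) (XT.nd (nat_lit 35724) (nat_lit 0) (nat_lit 0) (XT.lf (nat_lit 0) (nat_lit 935683752216) (nat_lit 152) (nat_lit 959810116861) (nat_lit 0) (nat_lit 935038832030) (nat_lit 1) (nat_lit 5) (nat_lit 3) (nat_lit 4) (nat_lit 1) (nat_lit 4) (nat_lit 339) (nat_lit 201) (nat_lit 180)) (XT.lf (nat_lit 0) (nat_lit 76760571400) (nat_lit 152) (nat_lit 87789619897) (nat_lit 0) (nat_lit 76760571400) (nat_lit 1) (nat_lit 5) (nat_lit 3) (nat_lit 4) (nat_lit 1) (nat_lit 4) (nat_lit 316)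 (nat_lit 202) (nat_lit 202)))))) (XT.nd (nat_lit 468) (nat_lit 0) (nat_lit 0) (XT.nd (nat_lit 234) (nat_lit 0) (nat_lit 0) (XT.nd (nat_lit 78) (nat_lit 0) (nat_lit 0) (XT.lf (nat_lit 0) (nat_lit 166582779522) (nat_lit 152) (nat_lit 188060463703) (nat_lit 0) (nat_lit 166518395688) (nat_lit 1) (nat_lit 5) (nat_lit 3) (nat_lit 4) (nat_lit 1) (nat_lit 4) (nat_lit 317) (nat_lit 202) (nat_lit 201)) (XT.nd (nat_lit 78) (nat_lit 0) (nat_lit 0) (XT.lf (nat_lit 0) (nat_lit 180647928568) (nat_lit 152) (nat_lit 201616496817) (nat_lit 0) (nat_lit 180523930074) (nat_lit 1) (nat_lit 5) (nat_lit 3) (nat_lit 4) (nat_lit 1) (nat_lit 4) (nat_lit 318) (nat_lit 202) (nat_lit 200)) (XT.lf (nat_lit 0) (nat_lit 195799938970) (nat_lit 152) (nat_lit 216327671186) (nat_lit 0) (nat_lit 195620741716) (nat_lit 1) (nat_lit 5) (nat_lit 3) (nat_lit 4) (nat_lit 1) (nat_lit 4) (nat_lit 319) (nat_lit 202) (nat_lit 199))))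 (XT.nd (nat_lit 78) (nat_lit 0) (nat_lit 0) (XT.lf (nat_lit 0) (nat_lit 212128600418) (nat_lit 152) (nat_lit 232281164138) (nat_lit 0) (nat_lit 211898293201) (nat_lit 1) (nat_lit 5) (nat_lit 3) (nat_lit 4) (nat_lit 1) (nat_lit 4) (nat_lit 320) (nat_lit 202) (nat_lit 198)) (XT.nd (nat_lit 78) (nat_lit 0) (nat_lit 0) (XT.lf (nat_lit 0) (nat_lit 229730675351) (nat_lit 152) (nat_lit 249571514892) (nat_lit 0) (nat_lit 229453044095) (nat_lit 1) (nat_lit 5) (nat_lit 3) (nat_lit 4) (nat_lit 1) (nat_lit 4) (nat_lit 321) (nat_lit 202) (nat_lit 197)) (XT.lf (nat_lit 0) (nat_lit 248710472361) (nat_lit 152) (nat_lit 268301184784) (nat_lit 0) (nat_lit 248389022550) (nat_lit 1) (nat_lit 5) (nat_lit 3) (nat_lit 4) (nat_lit 1) (nat_lit 4) (nat_lit 322) (nat_lit 202) (nat_lit 196))))) (XT.nd (nat_lit 234) (nat_lit 0) (nat_lit 0) (XT.nd (nat_lit 78) (nat_lit 0) (nat_lit 0) (XT.lf (nat_lit 0) (nat_lit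 269180464319) (nat_lit 152) (nat_lit 288581164452) (nat_lit 0) (nat_lit 268818441772) (nat_lit 1) (nat_lit 5) (nat_lit 3) (nat_lit 4) (nat_lit 1) (nat_lit 4) (nat_lit 323) (nat_lit 202) (nat_lit 195)) (XT.nd (nat_lit 78) (nat_lit 0) (nat_lit 0) (XT.lf (nat_lit 0) (nat_lit 291261954882) (nat_lit 152) (nat_lit 310531631552) (nat_lit 0) (nat_lit 290862364986) (nat_lit 1) (nat_lit 5) (nat_lit 3) (nat_lit 4) (nat_lit 1) (nat_lit 4) (nat_lit 324) (nat_lit 202) (nat_lit 194)) (XT.lf (nat_lit 0) (nat_lit 315085797326) (nat_lit 152) (nat_lit 334282662927) (nat_lit 0) (nat_lit 314651422849) (nat_lit 1) (nat_lit 5) (nat_lit 3) (nat_lit 4) (nat_lit 1) (nat_lit 4) (nat_lit 325) (nat_lit 202) (nat_lit 193)))) (XT.nd (nat_lit 78) (nat_lit 0) (nat_lit 0) (XT.lf (nat_lit 0) (nat_lit 340793169978) (nat_lit 152) (nat_lit 359975005430) (nat_lit 0) (nat_lit 340326587554) (nat_lit 1) (nat_lit 5) (nat_lit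 3) (nat_lit 4) (nat_lit 1) (nat_lit 4) (nat_lit 326) (nat_lit 202) (nat_lit 192)) (XT.nd (nat_lit 78) (nat_lit 0) (nat_lit 0) (XT.lf (nat_lit 0) (nat_lit 368536412823) (nat_lit 152) (nat_lit 387760909978) (nat_lit 0) (nat_lit 368040008227) (nat_lit 1) (nat_lit 5) (nat_lit 3) (nat_lit 4) (nat_lit 1) (nat_lit 4) (nat_lit 327) (nat_lit 202) (nat_lit 191)) (XT.lf (nat_lit 0) (nat_lit 398479930264) (nat_lit 152) (nat_lit 417805033784) (nat_lit 0) (nat_lit 397955912545) (nat_lit 1) (nat_lit 5) (nat_lit 3) (nat_lit 4) (nat_lit 1) (nat_lit 4) (nat_lit 328) (nat_lit 202) (nat_lit 190))))))))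
noncomputable def xc3 : XT := (XT.nd (nat_lit 37362) (nat_lit 0) (nat_lit 0) (XT.nd (nat_lit 36426) (nat_lit 0) (nat_lit 0) (XT.nd (nat_lit 468) (nat_lit 0) (nat_lit 0) (XT.nd (nat_lit 234) (nat_lit 0) (nat_lit 0) (XT.nd (nat_lit 78) (nat_lit 0) (nat_lit 0) (XT.lf (nat_lit 0) (nat_lit 430801165366) (nat_lit 152) (nat_lit 450285416101) (nat_lit 0) (nat_lit 430251579941) (nat_lit 1) (nat_lit 5) (nat_lit 3) (nat_lit 4) (nat_lit 1) (nat_lit 4) (nat_lit 329) (nat_lit 202) (nat_lit 189)) (XT.nd (nat_lit 78) (nat_lit 0) (nat_lit 0) (XT.lf (nat_lit 0) (nat_lit 465691651375) (nat_lit 152) (nat_lit 485394533267) (nat_lit 0) (nat_lit 465118392148) (nat_lit 1) (nat_lit 5) (nat_lit 3) (nat_lit 4) (nat_lit 1) (nat_lit 4) (nat_lit 330) (nat_lit 202) (nat_lit 188)) (XT.lf (nat_lit 0) (nat_lit 503358146726) (nat_lit 152) (nat_lit 523340439311) (nat_lit 0) (nat_lit 502762967312) (nat_lit 1) (nat_lit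 5) (nat_lit 3) (nat_lit 4) (nat_lit 1) (nat_lit 4) (nat_lit 331) (nat_lit 202) (nat_lit 187)))) (XT.nd (nat_lit 78) (nat_lit 0) (nat_lit 0) (XT.lf (nat_lit 0) (nat_lit 544023860281) (nat_lit 152) (nat_lit 564347998860) (nat_lit 0) (nat_lit 543408384398) (nat_lit 1) (nat_lit 5) (nat_lit 3) (nat_lit 4) (nat_lit 1) (nat_lit 4) (nat_lit 332) (nat_lit 202) (nat_lit 186)) (XT.nd (nat_lit 78) (nat_lit 0) (nat_lit 0) (XT.lf (nat_lit 0) (nat_lit 587929774046) (nat_lit 152) (nat_lit 608660219676) (nat_lit 0) (nat_lit 587295505136) (nat_lit 1) (nat_lit 5) (nat_lit 3) (nat_lit 4) (nat_lit 1) (nat_lit 4) (nat_lit 333) (nat_lit 202) (nat_lit 185)) (XT.lf (nat_lit 0) (nat_lit 635336071214) (nat_lit 152) (nat_lit 656539692696) (nat_lit 0) (nat_lit 634684401352) (nat_lit 1) (nat_lit 5) (nat_lit 3) (nat_lit 4) (nat_lit 1) (nat_lit 4) (nat_lit 334) (nat_lit 202) (nat_lit 184))))) (XT.nd (nat_lit 234)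 (nat_lit 0) (nat_lit 0) (XT.nd (nat_lit 78) (nat_lit 0) (nat_lit 0) (XT.lf (nat_lit 0) (nat_lit 686523677990) (nat_lit 152) (nat_lit 708270148131) (nat_lit 0) (nat_lit 685855896136) (nat_lit 1) (nat_lit 5) (nat_lit 3) (nat_lit 4) (nat_lit 1) (nat_lit 4) (nat_lit 335) (nat_lit 202) (nat_lit 183)) (XT.nd (nat_lit 78) (nat_lit 0) (nat_lit 0) (XT.lf (nat_lit 0) (nat_lit 741795928340) (nat_lit 152) (nat_lit 764158136828) (nat_lit 0) (nat_lit 741113227975) (nat_lit 1) (nat_lit 5) (nat_lit 3) (nat_lit 4) (nat_lit 1) (nat_lit 4) (nat_lit 336) (nat_lit 202) (nat_lit 182)) (XT.lf (nat_lit 0) (nat_lit 801480361525) (nat_lit 152) (nat_lit 824534846868) (nat_lit 0) (nat_lit 800783847725) (nat_lit 1) (nat_lit 5) (nat_lit 3) (nat_lit 4) (nat_lit 1) (nat_lit 4) (nat_lit 337) (nat_lit 202) (nat_lit 181)))) (XT.nd (nat_lit 78) (nat_lit 0) (nat_lit 0) (XT.lf (nat_lit 0) (nat_lit 865930663076) (nat_lit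 152) (nat_lit 889758066162) (nat_lit 0) (nat_lit 865221359057) (nat_lit 1) (nat_lit 5) (nat_lit 3) (nat_lit 4) (nat_lit 1) (nat_lit 4) (nat_lit 338) (nat_lit 202) (nat_lit 180)) (XT.nd (nat_lit 35568) (nat_lit 0) (nat_lit 0) (XT.lf (nat_lit 0) (nat_lit 935528760706) (nat_lit 152) (nat_lit 960214302677) (nat_lit 0) (nat_lit 934807613892) (nat_lit 1) (nat_lit 5) (nat_lit 3) (nat_lit 4) (nat_lit 1) (nat_lit 4) (nat_lit 339) (nat_lit 202) (nat_lit 179)) (XT.lf (nat_lit 0) (nat_lit 65098523022) (nat_lit 152) (nat_lit 76754253139) (nat_lit 0) (nat_lit 65098523022) (nat_lit 1) (nat_lit 5) (nat_lit 3) (nat_lit 4) (nat_lit 1) (nat_lit 4) (nat_lit 314) (nat_lit 203) (nat_lit 203)))))) (XT.nd (nat_lit 468) (nat_lit 0) (nat_lit 0) (XT.nd (nat_lit 234) (nat_lit 0) (nat_lit 0) (XT.nd (nat_lit 78) (nat_lit 0) (nat_lit 0) (XT.lf (nat_lit 0) (nat_lit 141455150650) (nat_lit 152) (nat_lit 164098862283)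 (nat_lit 0) (nat_lit 141385616110) (nat_lit 1) (nat_lit 5) (nat_lit 3) (nat_lit 4) (nat_lit 1) (nat_lit 4) (nat_lit 315) (nat_lit 203) (nat_lit 202)) (XT.nd (nat_lit 78) (nat_lit 0) (nat_lit 0) (XT.lf (nat_lit 0) (nat_lit 153569171521) (nat_lit 152) (nat_lit 175618862966) (nat_lit 0) (nat_lit 153435253148) (nat_lit 1) (nat_lit 5) (nat_lit 3) (nat_lit 4) (nat_lit 1) (nat_lit 4) (nat_lit 316) (nat_lit 203) (nat_lit 201)) (XT.lf (nat_lit 0) (nat_lit 166610895448) (nat_lit 152) (nat_lit 188136774996) (nat_lit 0) (nat_lit 166417362414) (nat_lit 1) (nat_lit 5) (nat_lit 3) (nat_lit 4) (nat_lit 1) (nat_lit 4) (nat_lit 317) (nat_lit 203) (nat_lit 200)))) (XT.nd (nat_lit 78) (nat_lit 0) (nat_lit 0) (XT.lf (nat_lit 0) (nat_lit 180657606721) (nat_lit 152) (nat_lit 201726778594) (nat_lit 0) (nat_lit 180408874927) (nat_lit 1) (nat_lit 5) (nat_lit 3) (nat_lit 4) (nat_lit 1) (nat_lit 4) (nat_lit 318)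 (nat_lit 203) (nat_lit 199)) (XT.nd (nat_lit 78) (nat_lit 0) (nat_lit 0) (XT.lf (nat_lit 0) (nat_lit 195792545110) (nat_lit 152) (nat_lit 216469407114) (nat_lit 0) (nat_lit 195492703354) (nat_lit 1) (nat_lit 5) (nat_lit 3) (nat_lit 4) (nat_lit 1) (nat_lit 4) (nat_lit 319) (nat_lit 203) (nat_lit 198)) (XT.lf (nat_lit 0) (nat_lit 212105399140) (nat_lit 152) (nat_lit 232452024280) (nat_lit 0) (nat_lit 211758233344) (nat_lit 1) (nat_lit 5) (nat_lit 3) (nat_lit 4) (nat_lit 1) (nat_lit 4) (nat_lit 320) (nat_lit 203) (nat_lit 197))))) (XT.nd (nat_lit 234) (nat_lit 0) (nat_lit 0) (XT.nd (nat_lit 78) (nat_lit 0) (nat_lit 0) (XT.lf (nat_lit 0) (nat_lit 229692837574) (nat_lit 152) (nat_lit 249769341898) (nat_lit 0) (nat_lit 229301853223) (nat_lit 1) (nat_lit 5) (nat_lit 3) (nat_lit 4) (nat_lit 1) (nat_lit 4) (nat_lit 321) (nat_lit 203) (nat_lit 196)) (XT.nd (nat_lit 78) (nat_lit 0) (nat_lit 0)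 (XT.lf (nat_lit 0) (nat_lit 248659082271) (nat_lit 152) (nat_lit 268523981110) (nat_lit 0) (nat_lit 248227525183) (nat_lit 1) (nat_lit 5) (nat_lit 3) (nat_lit 4) (nat_lit 1) (nat_lit 4) (nat_lit 322) (nat_lit 203) (nat_lit 195)) (XT.lf (nat_lit 0) (nat_lit 269116525790) (nat_lit 152) (nat_lit 288827080517) (nat_lit 0) (nat_lit 268647401354) (nat_lit 1) (nat_lit 5) (nat_lit 3) (nat_lit 4) (nat_lit 1) (nat_lit 4) (nat_lit 323) (nat_lit 203) (nat_lit 194)))) (XT.nd (nat_lit 78) (nat_lit 0) (nat_lit 0) (XT.lf (nat_lit 0) (nat_lit 291186397428) (nat_lit 152) (nat_lit 310798954784) (nat_lit 0) (nat_lit 290682488410) (nat_lit 1) (nat_lit 5) (nat_lit 3) (nat_lit 4) (nat_lit 1) (nat_lit 4) (nat_lit 324) (nat_lit 203) (nat_lit 193)) (XT.nd (nat_lit 78) (nat_lit 0) (nat_lit 0) (XT.lf (nat_lit 0) (nat_lit 314999481609) (nat_lit 152) (nat_lit 334569807610) (nat_lit 0) (nat_lit 314463364645) (nat_lit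 1) (nat_lit 5) (nat_lit 3) (nat_lit 4) (nat_lit 1) (nat_lit 4) (nat_lit 325) (nat_lit 203) (nat_lit 192)) (XT.lf (nat_lit 0) (nat_lit 340696892906) (nat_lit 152) (nat_lit 360280503308) (nat_lit 0) (nat_lit 340130953769) (nat_lit 1) (nat_lit 5) (nat_lit 3) (nat_lit 4) (nat_lit 1) (nat_lit 4) (nat_lit 326) (nat_lit 203) (nat_lit 191))))))) (XT.nd (nat_lit 936) (nat_lit 0) (nat_lit 0) (XT.nd (nat_lit 468) (nat_lit 0) (nat_lit 0) (XT.nd (nat_lit 234) (nat_lit 0) (nat_lit 0) (XT.nd (nat_lit 78) (nat_lit 0) (nat_lit 0) (XT.lf (nat_lit 0) (nat_lit 368430912274) (nat_lit 152) (nat_lit 388083401555) (nat_lit 0) (nat_lit 367837360015) (nat_lit 1) (nat_lit 5) (nat_lit 3) (nat_lit 4) (nat_lit 1) (nat_lit 4) (nat_lit 327) (nat_lit 203) (nat_lit 190)) (XT.nd (nat_lit 78) (nat_lit 0) (nat_lit 0) (XT.lf (nat_lit 0) (nat_lit 398365889458) (nat_lit 152) (nat_lit 418143260268) (nat_lit 0) (nat_lit 397746769492)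 (nat_lit 1) (nat_lit 5) (nat_lit 3) (nat_lit 4) (nat_lit 1) (nat_lit 4) (nat_lit 328) (nat_lit 203) (nat_lit 189)) (XT.lf (nat_lit 0) (nat_lit 430679216915) (nat_lit 152) (nat_lit 450638211942) (nat_lit 0) (nat_lit 430036423148) (nat_lit 1) (nat_lit 5) (nat_lit 3) (nat_lit 4) (nat_lit 1) (nat_lit 4) (nat_lit 329) (nat_lit 203) (nat_lit 188)))) (XT.nd (nat_lit 78) (nat_lit 0) (nat_lit 0) (XT.lf (nat_lit 0) (nat_lit 465562381030) (nat_lit 152) (nat_lit 485760819255) (nat_lit 0) (nat_lit 464897667076) (nat_lit 1) (nat_lit 5) (nat_lit 3) (nat_lit 4) (nat_lit 1) (nat_lit 4) (nat_lit 330) (nat_lit 203) (nat_lit 187)) (XT.nd (nat_lit 78) (nat_lit 0) (nat_lit 0) (XT.lf (nat_lit 0) (nat_lit 503222096851) (nat_lit 152) (nat_lit 523719216174) (nat_lit 0) (nat_lit 502537086427) (nat_lit 1) (nat_lit 5) (nat_lit 3) (nat_lit 4) (nat_lit 1) (nat_lit 4) (nat_lit 331) (nat_lit 203) (nat_lit 186)) (XT.lf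 (nat_lit 0) (nat_lit 543881533062) (nat_lit 152) (nat_lit 564738341350) (nat_lit 0) (nat_lit 543177729612) (nat_lit 1) (nat_lit 5) (nat_lit 3) (nat_lit 4) (nat_lit 1) (nat_lit 4) (nat_lit 332) (nat_lit 203) (nat_lit 185))))) (XT.nd (nat_lit 234) (nat_lit 0) (nat_lit 0) (XT.nd (nat_lit 78) (nat_lit 0) (nat_lit 0) (XT.lf (nat_lit 0) (nat_lit 587781634472) (nat_lit 152) (nat_lit 609061271079) (nat_lit 0) (nat_lit 587060430071) (nat_lit 1) (nat_lit 5) (nat_lit 3) (nat_lit 4) (nat_lit 1) (nat_lit 4) (nat_lit 333) (nat_lit 203) (nat_lit 184)) (XT.nd (nat_lit 78) (nat_lit 0) (nat_lit 0) (XT.lf (nat_lit 0) (nat_lit 635182549830) (nat_lit 152) (nat_lit 656950659759) (nat_lit 0) (nat_lit 634445233436) (nat_lit 1) (nat_lit 5) (nat_lit 3) (nat_lit 4) (nat_lit 1) (nat_lit 4) (nat_lit 334) (nat_lit 203) (nat_lit 183)) (XT.lf (nat_lit 0) (nat_lit 686365173448) (nat_lit 152) (nat_lit 708690296361)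 (nat_lit 0) (nat_lit 685612938543) (nat_lit 1) (nat_lit 5) (nat_lit 3) (nat_lit 4) (nat_lit 1) (nat_lit 4) (nat_lit 335) (nat_lit 203) (nat_lit 182)))) (XT.nd (nat_lit 78) (nat_lit 0) (nat_lit 0) (XT.lf (nat_lit 0) (nat_lit 741632809763) (nat_lit 152) (nat_lit 764586786138) (nat_lit 0) (nat_lit 740866761423) (nat_lit 1) (nat_lit 5) (nat_lit 3) (nat_lit 4) (nat_lit 1) (nat_lit 4) (nat_lit 336) (nat_lit 203) (nat_lit 181)) (XT.nd (nat_lit 78) (nat_lit 0) (nat_lit 0) (XT.lf (nat_lit 0) (nat_lit 801312970694) (nat_lit 152) (nat_lit 824971367549) (nat_lit 0) (nat_lit 800534132135) (nat_lit 1) (nat_lit 5) (nat_lit 3) (nat_lit 4) (nat_lit 1) (nat_lit 4) (nat_lit 337) (nat_lit 203) (nat_lit 180)) (XT.lf (nat_lit 0) (nat_lit 865759316454) (nat_lit 152) (nat_lit 890201875149) (nat_lit 0) (nat_lit 864968635100) (nat_lit 1) (nat_lit 5) (nat_lit 3) (nat_lit 4) (nat_lit 1) (nat_lit 4) (nat_lit 338)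 (nat_lit 203) (nat_lit 179)))))) (XT.nd (nat_lit 35802) (nat_lit 0) (nat_lit 0) (XT.nd (nat_lit 35568) (nat_lit 0) (nat_lit 0) (XT.nd (nat_lit 35412) (nat_lit 0) (nat_lit 0) (XT.lf (nat_lit 0) (nat_lit 935353751314) (nat_lit 152) (nat_lit 960664860096) (nat_lit 0) (nat_lit 934552104409) (nat_lit 1) (nat_lit 5) (nat_lit 3) (nat_lit 4) (nat_lit 1) (nat_lit 4) (nat_lit 339) (nat_lit 203) (nat_lit 178)) (XT.nd (nat_lit 78) (nat_lit 0) (nat_lit 0) (XT.lf (nat_lit 0) (nat_lit 55043292647) (nat_lit 152) (nat_lit 67412309139) (nat_lit 0) (nat_lit 55043292647) (nat_lit 1) (nat_lit 5) (nat_lit 3) (nat_lit 4) (nat_lit 1) (nat_lit 4) (nat_lit 312) (nat_lit 204) (nat_lit 204)) (XT.lf (nat_lit 0) (nat_lit 119803240314) (nat_lit 152) (nat_lit 143785037285) (nat_lit 0) (nat_lit 119728143010) (nat_lit 1) (nat_lit 5) (nat_lit 3) (nat_lit 4) (nat_lit 1) (nat_lit 4) (nat_lit 313) (nat_lit 204) (nat_lit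 203)))) (XT.nd (nat_lit 78) (nat_lit 0) (nat_lit 0) (XT.lf (nat_lit 0) (nat_lit 130248917063) (nat_lit 152) (nat_lit 153551299303) (nat_lit 0) (nat_lit 130104285220) (nat_lit 1) (nat_lit 5) (nat_lit 3) (nat_lit 4) (nat_lit 1) (nat_lit 4) (nat_lit 314) (nat_lit 204) (nat_lit 202)) (XT.nd (nat_lit 78) (nat_lit 0) (nat_lit 0) (XT.lf (nat_lit 0) (nat_lit 141485515850) (nat_lit 152) (nat_lit 164181278480) (nat_lit 0) (nat_lit 141276500174) (nat_lit 1) (nat_lit 5) (nat_lit 3) (nat_lit 4) (nat_lit 1) (nat_lit 4) (nat_lit 315) (nat_lit 204) (nat_lit 201)) (XT.lf (nat_lit 0) (nat_lit 153579623926) (nat_lit 152) (nat_lit 175737967284) (nat_lit 0) (nat_lit 153310993589) (nat_lit 1) (nat_lit 5) (nat_lit 3) (nat_lit 4) (nat_lit 1) (nat_lit 4) (nat_lit 316) (nat_lit 204) (nat_lit 200))))) (XT.nd (nat_lit 234) (nat_lit 0) (nat_lit 0) (XT.nd (nat_lit 78) (nat_lit 0) (nat_lit 0) (XT.lf (nat_lit 0)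 (nat_lit 166602910080) (nat_lit 152) (nat_lit 188289849798) (nat_lit 0) (nat_lit 166279080983) (nat_lit 1) (nat_lit 5) (nat_lit 3) (nat_lit 4) (nat_lit 1) (nat_lit 4) (nat_lit 317) (nat_lit 204) (nat_lit 199)) (XT.nd (nat_lit 78) (nat_lit 0) (nat_lit 0) (XT.lf (nat_lit 0) (nat_lit 180632549341) (nat_lit 152) (nat_lit 201911307547) (nat_lit 0) (nat_lit 180257610281) (nat_lit 1) (nat_lit 5) (nat_lit 3) (nat_lit 4) (nat_lit 1) (nat_lit 4) (nat_lit 318) (nat_lit 204) (nat_lit 198)) (XT.lf (nat_lit 0) (nat_lit 195751680312) (nat_lit 152) (nat_lit 216683060280) (nat_lit 0) (nat_lit 195329417212) (nat_lit 1) (nat_lit 5) (nat_lit 3) (nat_lit 4) (nat_lit 1) (nat_lit 4) (nat_lit 319) (nat_lit 204) (nat_lit 197)))) (XT.nd (nat_lit 156) (nat_lit 0) (nat_lit 0) (XT.nd (nat_lit 78) (nat_lit 0) (nat_lit 0) (XT.lf (nat_lit 0) (nat_lit 212049897842) (nat_lit 152) (nat_lit 232692644311) (nat_lit 0)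 (nat_lit 211583816188) (nat_lit 1) (nat_lit 5) (nat_lit 3) (nat_lit 4) (nat_lit 1) (nat_lit 4) (nat_lit 320) (nat_lit 204) (nat_lit 196)) (XT.lf (nat_lit 0) (nat_lit 229623783963) (nat_lit 152) (nat_lit 250034931249) (nat_lit 0) (nat_lit 229117129572) (nat_lit 1) (nat_lit 5) (nat_lit 3) (nat_lit 4) (nat_lit 1) (nat_lit 4) (nat_lit 321) (nat_lit 204) (nat_lit 195))) (XT.nd (nat_lit 78) (nat_lit 0) (nat_lit 0) (XT.lf (nat_lit 0) (nat_lit 248577480220) (nat_lit 152) (nat_lit 268812690200) (nat_lit 0) (nat_lit 248033258481) (nat_lit 1) (nat_lit 5) (nat_lit 3) (nat_lit 4) (nat_lit 1) (nat_lit 4) (nat_lit 322) (nat_lit 204) (nat_lit 194)) (XT.lf (nat_lit 0) (nat_lit 269023304816) (nat_lit 152) (nat_lit 289137196775) (nat_lit 0) (nat_lit 268444298494) (nat_lit 1) (nat_lit 5) (nat_lit 3) (nat_lit 4) (nat_lit 1) (nat_lit 4) (nat_lit 323) (nat_lit 204) (nat_lit 193))))))))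
noncomputable def xc4 : XT := (XT.nd (nat_lit 37050) (nat_lit 0) (nat_lit 0) (XT.nd (nat_lit 936) (nat_lit 0) (nat_lit 0) (XT.nd (nat_lit 468) (nat_lit 0) (nat_lit 0) (XT.nd (nat_lit 234) (nat_lit 0) (nat_lit 0) (XT.nd (nat_lit 78) (nat_lit 0) (nat_lit 0) (XT.lf (nat_lit 0) (nat_lit 291082418190) (nat_lit 152) (nat_lit 311128892492) (nat_lit 0) (nat_lit 290471203923) (nat_lit 1) (nat_lit 5) (nat_lit 3) (nat_lit 4) (nat_lit 1) (nat_lit 4) (nat_lit 324) (nat_lit 204) (nat_lit 192)) (XT.nd (nat_lit 78) (nat_lit 0) (nat_lit 0) (XT.lf (nat_lit 0) (nat_lit 314885541016) (nat_lit 152) (nat_lit 334918098513) (nat_lit 0) (nat_lit 314244504576) (nat_lit 1) (nat_lit 5) (nat_lit 3) (nat_lit 4) (nat_lit 1) (nat_lit 4) (nat_lit 325) (nat_lit 204) (nat_lit 191)) (XT.lf (nat_lit 0) (nat_lit 340573728835) (nat_lit 152) (nat_lit 360645787910) (nat_lit 0) (nat_lit 339905079273) (nat_lit 1) (nat_lit 5)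 (nat_lit 3) (nat_lit 4) (nat_lit 1) (nat_lit 4) (nat_lit 326) (nat_lit 204) (nat_lit 190)))) (XT.nd (nat_lit 78) (nat_lit 0) (nat_lit 0) (XT.lf (nat_lit 0) (nat_lit 368299207947) (nat_lit 152) (nat_lit 388464421064) (nat_lit 0) (nat_lit 367604990678) (nat_lit 1) (nat_lit 5) (nat_lit 3) (nat_lit 4) (nat_lit 1) (nat_lit 4) (nat_lit 327) (nat_lit 204) (nat_lit 189)) (XT.nd (nat_lit 78) (nat_lit 0) (nat_lit 0) (XT.lf (nat_lit 0) (nat_lit 398226277486) (nat_lit 152) (nat_lit 418538849134) (nat_lit 0) (nat_lit 397508386415) (nat_lit 1) (nat_lit 5) (nat_lit 3) (nat_lit 4) (nat_lit 1) (nat_lit 4) (nat_lit 328) (nat_lit 204) (nat_lit 188)) (XT.lf (nat_lit 0) (nat_lit 430532283049) (nat_lit 152) (nat_lit 451047290955) (nat_lit 0) (nat_lit 429792471792) (nat_lit 1) (nat_lit 5) (nat_lit 3) (nat_lit 4) (nat_lit 1) (nat_lit 4) (nat_lit 329) (nat_lit 204) (nat_lit 187))))) (XT.nd (nat_lit 234) (nat_lit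 0) (nat_lit 0) (XT.nd (nat_lit 78) (nat_lit 0) (nat_lit 0) (XT.lf (nat_lit 0) (nat_lit 465408667634) (nat_lit 152) (nat_lit 486182389144) (nat_lit 0) (nat_lit 464648559907) (nat_lit 1) (nat_lit 5) (nat_lit 3) (nat_lit 4) (nat_lit 1) (nat_lit 4) (nat_lit 330) (nat_lit 204) (nat_lit 186)) (XT.nd (nat_lit 78) (nat_lit 0) (nat_lit 0) (XT.lf (nat_lit 0) (nat_lit 503062106111) (nat_lit 152) (nat_lit 524152351689) (nat_lit 0) (nat_lit 502283205357) (nat_lit 1) (nat_lit 5) (nat_lit 3) (nat_lit 4) (nat_lit 1) (nat_lit 4) (nat_lit 331) (nat_lit 204) (nat_lit 185)) (XT.lf (nat_lit 0) (nat_lit 543715729967) (nat_lit 152) (nat_lit 565182185778) (nat_lit 0) (nat_lit 542919428262) (nat_lit 1) (nat_lit 5) (nat_lit 3) (nat_lit 4) (nat_lit 1) (nat_lit 4) (nat_lit 332) (nat_lit 204) (nat_lit 184)))) (XT.nd (nat_lit 78) (nat_lit 0) (nat_lit 0) (XT.lf (nat_lit 0) (nat_lit 587610449567) (nat_lit 152) (nat_lit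 609515031167) (nat_lit 0) (nat_lit 586798035870) (nat_lit 1) (nat_lit 5) (nat_lit 3) (nat_lit 4) (nat_lit 1) (nat_lit 4) (nat_lit 333) (nat_lit 204) (nat_lit 183)) (XT.nd (nat_lit 78) (nat_lit 0) (nat_lit 0) (XT.lf (nat_lit 0) (nat_lit 635006381767) (nat_lit 152) (nat_lit 657413601014) (nat_lit 0) (nat_lit 634179049559) (nat_lit 1) (nat_lit 5) (nat_lit 3) (nat_lit 4) (nat_lit 1) (nat_lit 4) (nat_lit 334) (nat_lit 204) (nat_lit 182)) (XT.lf (nat_lit 0) (nat_lit 686184391350) (nat_lit 152) (nat_lit 709161738697) (nat_lit 0) (nat_lit 685343245707) (nat_lit 1) (nat_lit 5) (nat_lit 3) (nat_lit 4) (nat_lit 1) (nat_lit 4) (nat_lit 335) (nat_lit 204) (nat_lit 181)))))) (XT.nd (nat_lit 35646) (nat_lit 0) (nat_lit 0) (XT.nd (nat_lit 234) (nat_lit 0) (nat_lit 0) (XT.nd (nat_lit 78) (nat_lit 0) (nat_lit 0) (XT.lf (nat_lit 0) (nat_lit 741447755411) (nat_lit 152) (nat_lit 765066099845) (nat_lit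 0) (nat_lit 740593819549) (nat_lit 1) (nat_lit 5) (nat_lit 3) (nat_lit 4) (nat_lit 1) (nat_lit 4) (nat_lit 336) (nat_lit 204) (nat_lit 180)) (XT.nd (nat_lit 78) (nat_lit 0) (nat_lit 0) (XT.lf (nat_lit 0) (nat_lit 801123960551) (nat_lit 152) (nat_lit 825457969561) (nat_lit 0) (nat_lit 800258181894) (nat_lit 1) (nat_lit 5) (nat_lit 3) (nat_lit 4) (nat_lit 1) (nat_lit 4) (nat_lit 337) (nat_lit 204) (nat_lit 179)) (XT.lf (nat_lit 0) (nat_lit 865566643541) (nat_lit 152) (nat_lit 890695225594) (nat_lit 0) (nat_lit 864689899333) (nat_lit 1) (nat_lit 5) (nat_lit 3) (nat_lit 4) (nat_lit 1) (nat_lit 4) (nat_lit 338) (nat_lit 204) (nat_lit 178)))) (XT.nd (nat_lit 35256) (nat_lit 0) (nat_lit 0) (XT.lf (nat_lit 0) (nat_lit 935157686947) (nat_lit 152) (nat_lit 961164459088) (nat_lit 0) (nat_lit 934270789451) (nat_lit 1) (nat_lit 5) (nat_lit 3) (nat_lit 4) (nat_lit 1) (nat_lit 4) (nat_lit 339) (nat_lit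 204) (nat_lit 177)) (XT.nd (nat_lit 78) (nat_lit 0) (nat_lit 0) (XT.lf (nat_lit 0) (nat_lit 46361097437) (nat_lit 152) (nat_lit 59531730556) (nat_lit 0) (nat_lit 46361097437) (nat_lit 1) (nat_lit 5) (nat_lit 3) (nat_lit 4) (nat_lit 1) (nat_lit 4) (nat_lit 310) (nat_lit 205) (nat_lit 205)) (XT.lf (nat_lit 0) (nat_lit 101122476915) (nat_lit 152) (nat_lit 126616943507) (nat_lit 0) (nat_lit 101041371827) (nat_lit 1) (nat_lit 5) (nat_lit 3) (nat_lit 4) (nat_lit 1) (nat_lit 4) (nat_lit 311) (nat_lit 205) (nat_lit 204))))) (XT.nd (nat_lit 234) (nat_lit 0) (nat_lit 0) (XT.nd (nat_lit 78) (nat_lit 0) (nat_lit 0) (XT.lf (nat_lit 0) (nat_lit 110142605995) (nat_lit 152) (nat_lit 134870834746) (nat_lit 0) (nat_lit 109986403604) (nat_lit 1) (nat_lit 5) (nat_lit 3) (nat_lit 4) (nat_lit 1) (nat_lit 4) (nat_lit 312) (nat_lit 205) (nat_lit 203)) (XT.nd (nat_lit 78) (nat_lit 0) (nat_lit 0) (XT.lf (nat_lit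 0) (nat_lit 119836034730) (nat_lit 152) (nat_lit 143874046777) (nat_lit 0) (nat_lit 119610297799) (nat_lit 1) (nat_lit 5) (nat_lit 3) (nat_lit 4) (nat_lit 1) (nat_lit 4) (nat_lit 313) (nat_lit 205) (nat_lit 202)) (XT.lf (nat_lit 0) (nat_lit 130260205661) (nat_lit 152) (nat_lit 153679931967) (nat_lit 0) (nat_lit 129970084897) (nat_lit 1) (nat_lit 5) (nat_lit 3) (nat_lit 4) (nat_lit 1) (nat_lit 4) (nat_lit 314) (nat_lit 205) (nat_lit 201)))) (XT.nd (nat_lit 78) (nat_lit 0) (nat_lit 0) (XT.lf (nat_lit 0) (nat_lit 141476891653) (nat_lit 152) (nat_lit 164346599266) (nat_lit 0) (nat_lit 141127156228) (nat_lit 1) (nat_lit 5) (nat_lit 3) (nat_lit 4) (nat_lit 1) (nat_lit 4) (nat_lit 315) (nat_lit 205) (nat_lit 200)) (XT.nd (nat_lit 78) (nat_lit 0) (nat_lit 0) (XT.lf (nat_lit 0) (nat_lit 153552561956) (nat_lit 152) (nat_lit 175937258553) (nat_lit 0) (nat_lit 153147627771) (nat_lit 1) (nat_lit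 5) (nat_lit 3) (nat_lit 4) (nat_lit 1) (nat_lit 4) (nat_lit 316) (nat_lit 205) (nat_lit 199)) (XT.lf (nat_lit 0) (nat_lit 166558776097) (nat_lit 152) (nat_lit 188520595218) (nat_lit 0) (nat_lit 166102731950) (nat_lit 1) (nat_lit 5) (nat_lit 3) (nat_lit 4) (nat_lit 1) (nat_lit 4) (nat_lit 317) (nat_lit 205) (nat_lit 198))))))) (XT.nd (nat_lit 936) (nat_lit 0) (nat_lit 0) (XT.nd (nat_lit 468) (nat_lit 0) (nat_lit 0) (XT.nd (nat_lit 234) (nat_lit 0) (nat_lit 0) (XT.nd (nat_lit 78) (nat_lit 0) (nat_lit 0) (XT.lf (nat_lit 0) (nat_lit 180572607939) (nat_lit 152) (nat_lit 202171177180) (nat_lit 0) (nat_lit 180069239752) (nat_lit 1) (nat_lit 5) (nat_lit 3) (nat_lit 4) (nat_lit 1) (nat_lit 4) (nat_lit 318) (nat_lit 205) (nat_lit 197)) (XT.nd (nat_lit 78) (nat_lit 0) (nat_lit 0) (XT.lf (nat_lit 0) (nat_lit 195677102411) (nat_lit 152) (nat_lit 216969896779) (nat_lit 0) (nat_lit 195129915669)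 (nat_lit 1) (nat_lit 5) (nat_lit 3) (nat_lit 4) (nat_lit 1) (nat_lit 4) (nat_lit 319) (nat_lit 205) (nat_lit 196)) (XT.lf (nat_lit 0) (nat_lit 211961767628) (nat_lit 152) (nat_lit 233004450129) (nat_lit 0) (nat_lit 211374008150) (nat_lit 1) (nat_lit 5) (nat_lit 3) (nat_lit 4) (nat_lit 1) (nat_lit 4) (nat_lit 320) (nat_lit 205) (nat_lit 195)))) (XT.nd (nat_lit 78) (nat_lit 0) (nat_lit 0) (XT.lf (nat_lit 0) (nat_lit 229523105310) (nat_lit 152) (nat_lit 250369856806) (nat_lit 0) (nat_lit 228897778483) (nat_lit 1) (nat_lit 5) (nat_lit 3) (nat_lit 4) (nat_lit 1) (nat_lit 4) (nat_lit 321) (nat_lit 205) (nat_lit 194)) (XT.nd (nat_lit 78) (nat_lit 0) (nat_lit 0) (XT.lf (nat_lit 0) (nat_lit 248465182643) (nat_lit 152) (nat_lit 269169022925) (nat_lit 0) (nat_lit 247805071234) (nat_lit 1) (nat_lit 5) (nat_lit 3) (nat_lit 4) (nat_lit 1) (nat_lit 4) (nat_lit 322) (nat_lit 205) (nat_lit 193)) (XT.lf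 (nat_lit 0) (nat_lit 268900248974) (nat_lit 152) (nat_lit 289513350950) (nat_lit 0) (nat_lit 268207929620) (nat_lit 1) (nat_lit 5) (nat_lit 3) (nat_lit 4) (nat_lit 1) (nat_lit 4) (nat_lit 323) (nat_lit 205) (nat_lit 192))))) (XT.nd (nat_lit 234) (nat_lit 0) (nat_lit 0) (XT.nd (nat_lit 78) (nat_lit 0) (nat_lit 0) (XT.lf (nat_lit 0) (nat_lit 290949400994) (nat_lit 152) (nat_lit 311523399862) (nat_lit 0) (nat_lit 290227259466) (nat_lit 1) (nat_lit 5) (nat_lit 3) (nat_lit 4) (nat_lit 1) (nat_lit 4) (nat_lit 324) (nat_lit 205) (nat_lit 191)) (XT.nd (nat_lit 78) (nat_lit 0) (nat_lit 0) (XT.lf (nat_lit 0) (nat_lit 314743300342) (nat_lit 152) (nat_lit 335329599582) (nat_lit 0) (nat_lit 313993545693) (nat_lit 1) (nat_lit 5) (nat_lit 3) (nat_lit 4) (nat_lit 1) (nat_lit 4) (nat_lit 325) (nat_lit 205) (nat_lit 190)) (XT.lf (nat_lit 0) (nat_lit 340422947905) (nat_lit 152) (nat_lit 361073023885)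 (nat_lit 0) (nat_lit 339647625549) (nat_lit 1) (nat_lit 5) (nat_lit 3) (nat_lit 4) (nat_lit 1) (nat_lit 4) (nat_lit 326) (nat_lit 205) (nat_lit 189)))) (XT.nd (nat_lit 78) (nat_lit 0) (nat_lit 0) (XT.lf (nat_lit 0) (nat_lit 368140519372) (nat_lit 152) (nat_lit 388906226397) (nat_lit 0) (nat_lit 367341523214) (nat_lit 1) (nat_lit 5) (nat_lit 3) (nat_lit 4) (nat_lit 1) (nat_lit 4) (nat_lit 327) (nat_lit 205) (nat_lit 188)) (XT.nd (nat_lit 78) (nat_lit 0) (nat_lit 0) (XT.lf (nat_lit 0) (nat_lit 398060267018) (nat_lit 152) (nat_lit 418994144614) (nat_lit 0) (nat_lit 397239350673) (nat_lit 1) (nat_lit 5) (nat_lit 3) (nat_lit 4) (nat_lit 1) (nat_lit 4) (nat_lit 328) (nat_lit 205) (nat_lit 187)) (XT.lf (nat_lit 0) (nat_lit 430359493050) (nat_lit 152) (nat_lit 451515077311) (nat_lit 0) (nat_lit 429518280236) (nat_lit 1) (nat_lit 5) (nat_lit 3) (nat_lit 4) (nat_lit 1) (nat_lit 4) (nat_lit 329)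 (nat_lit 205) (nat_lit 186)))))) (XT.nd (nat_lit 468) (nat_lit 0) (nat_lit 0) (XT.nd (nat_lit 234) (nat_lit 0) (nat_lit 0) (XT.nd (nat_lit 78) (nat_lit 0) (nat_lit 0) (XT.lf (nat_lit 0) (nat_lit 465229600292) (nat_lit 152) (nat_lit 486661741126) (nat_lit 0) (nat_lit 464369594450) (nat_lit 1) (nat_lit 5) (nat_lit 3) (nat_lit 4) (nat_lit 1) (nat_lit 4) (nat_lit 330) (nat_lit 205) (nat_lit 185)) (XT.nd (nat_lit 78) (nat_lit 0) (nat_lit 0) (XT.lf (nat_lit 0) (nat_lit 502877226413) (nat_lit 152) (nat_lit 524642412585) (nat_lit 0) (nat_lit 501999819621) (nat_lit 1) (nat_lit 5) (nat_lit 3) (nat_lit 4) (nat_lit 1) (nat_lit 4) (nat_lit 331) (nat_lit 205) (nat_lit 184)) (XT.lf (nat_lit 0) (nat_lit 543525468460) (nat_lit 152) (nat_lit 565682162334) (nat_lit 0) (nat_lit 542631949675) (nat_lit 1) (nat_lit 5) (nat_lit 3) (nat_lit 4) (nat_lit 1) (nat_lit 4) (nat_lit 332) (nat_lit 205) (nat_lit 183))))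 (XT.nd (nat_lit 78) (nat_lit 0) (nat_lit 0) (XT.lf (nat_lit 0) (nat_lit 587415204902) (nat_lit 152) (nat_lit 610024188889) (nat_lit 0) (nat_lit 586506767606) (nat_lit 1) (nat_lit 5) (nat_lit 3) (nat_lit 4) (nat_lit 1) (nat_lit 4) (nat_lit 333) (nat_lit 205) (nat_lit 182)) (XT.nd (nat_lit 78) (nat_lit 0) (nat_lit 0) (XT.lf (nat_lit 0) (nat_lit 634806523067) (nat_lit 152) (nat_lit 657931259817) (nat_lit 0) (nat_lit 633884272335) (nat_lit 1) (nat_lit 5) (nat_lit 3) (nat_lit 4) (nat_lit 1) (nat_lit 4) (nat_lit 334) (nat_lit 205) (nat_lit 181)) (XT.lf (nat_lit 0) (nat_lit 685980260396) (nat_lit 152) (nat_lit 709687268870) (nat_lit 0) (nat_lit 685045219446) (nat_lit 1) (nat_lit 5) (nat_lit 3) (nat_lit 4) (nat_lit 1) (nat_lit 4) (nat_lit 335) (nat_lit 205) (nat_lit 180))))) (XT.nd (nat_lit 234) (nat_lit 0) (nat_lit 0) (XT.nd (nat_lit 78) (nat_lit 0) (nat_lit 0) (XT.lf (nat_lit 0) (nat_lit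 741239668665) (nat_lit 152) (nat_lit 765598918324) (nat_lit 0) (nat_lit 740292784920) (nat_lit 1) (nat_lit 5) (nat_lit 3) (nat_lit 4) (nat_lit 1) (nat_lit 4) (nat_lit 336) (nat_lit 205) (nat_lit 179)) (XT.nd (nat_lit 78) (nat_lit 0) (nat_lit 0) (XT.lf (nat_lit 0) (nat_lit 800912211035) (nat_lit 152) (nat_lit 825997536473) (nat_lit 0) (nat_lit 799954361740) (nat_lit 1) (nat_lit 5) (nat_lit 3) (nat_lit 4) (nat_lit 1) (nat_lit 4) (nat_lit 337) (nat_lit 205) (nat_lit 178)) (XT.lf (nat_lit 0) (nat_lit 865351502572) (nat_lit 152) (nat_lit 891241041053) (nat_lit 0) (nat_lit 864383499989) (nat_lit 1) (nat_lit 5) (nat_lit 3) (nat_lit 4) (nat_lit 1) (nat_lit 4) (nat_lit 338) (nat_lit 205) (nat_lit 177)))) (XT.nd (nat_lit 35100) (nat_lit 0) (nat_lit 0) (XT.lf (nat_lit 0) (nat_lit 934939405744) (nat_lit 152) (nat_lit 961716060240) (nat_lit 0) (nat_lit 933962001968) (nat_lit 1) (nat_lit 5) (nat_lit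 3) (nat_lit 4) (nat_lit 1) (nat_lit 4) (nat_lit 339) (nat_lit 205) (nat_lit 176)) (XT.nd (nat_lit 78) (nat_lit 0) (nat_lit 0) (XT.lf (nat_lit 0) (nat_lit 38851142106) (nat_lit 152) (nat_lit 52914327886) (nat_lit 0) (nat_lit 38851142106) (nat_lit 1) (nat_lit 5) (nat_lit 3) (nat_lit 4) (nat_lit 1) (nat_lit 4) (nat_lit 308) (nat_lit 206) (nat_lit 206)) (XT.lf (nat_lit 0) (nat_lit 84979573916) (nat_lit 152) (nat_lit 112165626182) (nat_lit 0) (nat_lit 84891980422) (nat_lit 1) (nat_lit 5) (nat_lit 3) (nat_lit 4) (nat_lit 1) (nat_lit 4) (nat_lit 309) (nat_lit 206) (nat_lit 205))))))))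
noncomputable def xc5 : XT := (XT.nd (nat_lit 1872) (nat_lit 0) (nat_lit 0) (XT.nd (nat_lit 936) (nat_lit 0) (nat_lit 0) (XT.nd (nat_lit 468) (nat_lit 0) (nat_lit 0) (XT.nd (nat_lit 234) (nat_lit 0) (nat_lit 0) (XT.nd (nat_lit 78) (nat_lit 0) (nat_lit 0) (XT.lf (nat_lit 0) (nat_lit 92782697230) (nat_lit 152) (nat_lit 119113374896) (nat_lit 0) (nat_lit 92613998648) (nat_lit 1) (nat_lit 5) (nat_lit 3) (nat_lit 4) (nat_lit 1) (nat_lit 4) (nat_lit 310) (nat_lit 206) (nat_lit 204)) (XT.nd (nat_lit 78) (nat_lit 0) (nat_lit 0) (XT.lf (nat_lit 0) (nat_lit 101157894885) (nat_lit 152) (nat_lit 126713073759) (nat_lit 0) (nat_lit 100914098999) (nat_lit 1) (nat_lit 5) (nat_lit 3) (nat_lit 4) (nat_lit 1) (nat_lit 4) (nat_lit 311) (nat_lit 206) (nat_lit 203)) (XT.lf (nat_lit 0) (nat_lit 110154797680) (nat_lit 152) (nat_lit 135009758024) (nat_lit 0) (nat_lit 109841467255) (nat_lit 1) (nat_lit 5) (nat_lit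 3) (nat_lit 4) (nat_lit 1) (nat_lit 4) (nat_lit 312) (nat_lit 206) (nat_lit 202)))) (XT.nd (nat_lit 78) (nat_lit 0) (nat_lit 0) (XT.lf (nat_lit 0) (nat_lit 119826720597) (nat_lit 152) (nat_lit 144052593226) (nat_lit 0) (nat_lit 119449006338) (nat_lit 1) (nat_lit 5) (nat_lit 3) (nat_lit 4) (nat_lit 1) (nat_lit 4) (nat_lit 313) (nat_lit 206) (nat_lit 201)) (XT.nd (nat_lit 78) (nat_lit 0) (nat_lit 0) (XT.lf (nat_lit 0) (nat_lit 130230978733) (nat_lit 152) (nat_lit 153895166538) (nat_lit 0) (nat_lit 129793649813) (nat_lit 1) (nat_lit 5) (nat_lit 3) (nat_lit 4) (nat_lit 1) (nat_lit 4) (nat_lit 314) (nat_lit 206) (nat_lit 200)) (XT.lf (nat_lit 0) (nat_lit 141429226952) (nat_lit 152) (nat_lit 164595804319) (nat_lit 0) (nat_lit 140936699272) (nat_lit 1) (nat_lit 5) (nat_lit 3) (nat_lit 4) (nat_lit 1) (nat_lit 4) (nat_lit 315) (nat_lit 206) (nat_lit 199))))) (XT.nd (nat_lit 234) (nat_lit 0)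 (nat_lit 0) (XT.nd (nat_lit 78) (nat_lit 0) (nat_lit 0) (XT.lf (nat_lit 0) (nat_lit 153487825242) (nat_lit 152) (nat_lit 176217917758) (nat_lit 0) (nat_lit 152944187600) (nat_lit 1) (nat_lit 5) (nat_lit 3) (nat_lit 4) (nat_lit 1) (nat_lit 4) (nat_lit 316) (nat_lit 206) (nat_lit 198)) (XT.nd (nat_lit 78) (nat_lit 0) (nat_lit 0) (XT.lf (nat_lit 0) (nat_lit 166478231965) (nat_lit 152) (nat_lit 188830378636) (nat_lit 0) (nat_lit 165887270283) (nat_lit 1) (nat_lit 5) (nat_lit 3) (nat_lit 4) (nat_lit 1) (nat_lit 4) (nat_lit 317) (nat_lit 206) (nat_lit 197)) (XT.lf (nat_lit 0) (nat_lit 180477427308) (nat_lit 152) (nat_lit 202507927464) (nat_lit 0) (nat_lit 179842647071) (nat_lit 1) (nat_lit 5) (nat_lit 3) (nat_lit 4) (nat_lit 1) (nat_lit 4) (nat_lit 318) (nat_lit 206) (nat_lit 196)))) (XT.nd (nat_lit 78) (nat_lit 0) (nat_lit 0) (XT.lf (nat_lit 0) (nat_lit 195568369466) (nat_lit 152) (nat_lit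 217331616381) (nat_lit 0) (nat_lit 194893016493) (nat_lit 1) (nat_lit 5) (nat_lit 3) (nat_lit 4) (nat_lit 1) (nat_lit 4) (nat_lit 319) (nat_lit 206) (nat_lit 195)) (XT.nd (nat_lit 78) (nat_lit 0) (nat_lit 0) (XT.lf (nat_lit 0) (nat_lit 211840486244) (nat_lit 152) (nat_lit 233389289471) (nat_lit 0) (nat_lit 211127565923) (nat_lit 1) (nat_lit 5) (nat_lit 3) (nat_lit 4) (nat_lit 1) (nat_lit 4) (nat_lit 320) (nat_lit 206) (nat_lit 194)) (XT.lf (nat_lit 0) (nat_lit 229390205002) (nat_lit 152) (nat_lit 250776103316) (nat_lit 0) (nat_lit 228642500098) (nat_lit 1) (nat_lit 5) (nat_lit 3) (nat_lit 4) (nat_lit 1) (nat_lit 4) (nat_lit 321) (nat_lit 206) (nat_lit 193)))))) (XT.nd (nat_lit 468) (nat_lit 0) (nat_lit 0) (XT.nd (nat_lit 234) (nat_lit 0) (nat_lit 0) (XT.nd (nat_lit 78) (nat_lit 0) (nat_lit 0) (XT.lf (nat_lit 0) (nat_lit 248321524071) (nat_lit 152) (nat_lit 269595090885) (nat_lit 0)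 (nat_lit 247541611222) (nat_lit 1) (nat_lit 5) (nat_lit 3) (nat_lit 4) (nat_lit 1) (nat_lit 4) (nat_lit 322) (nat_lit 206) (nat_lit 192)) (XT.nd (nat_lit 78) (nat_lit 0) (nat_lit 0) (XT.lf (nat_lit 0) (nat_lit 268746629047) (nat_lit 152) (nat_lit 289957772105) (nat_lit 0) (nat_lit 267936894026) (nat_lit 1) (nat_lit 5) (nat_lit 3) (nat_lit 4) (nat_lit 1) (nat_lit 4) (nat_lit 323) (nat_lit 206) (nat_lit 191)) (XT.lf (nat_lit 0) (nat_lit 290786557590) (nat_lit 152) (nat_lit 311984814716) (nat_lit 0) (nat_lit 289949209445) (nat_lit 1) (nat_lit 5) (nat_lit 3) (nat_lit 4) (nat_lit 1) (nat_lit 4) (nat_lit 324) (nat_lit 206) (nat_lit 190)))) (XT.nd (nat_lit 78) (nat_lit 0) (nat_lit 0) (XT.lf (nat_lit 0) (nat_lit 314571916682) (nat_lit 152) (nat_lit 335806749343) (nat_lit 0) (nat_lit 313709000831) (nat_lit 1) (nat_lit 5) (nat_lit 3) (nat_lit 4) (nat_lit 1) (nat_lit 4) (nat_lit 325) (nat_lit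 206) (nat_lit 189)) (XT.nd (nat_lit 78) (nat_lit 0) (nat_lit 0) (XT.lf (nat_lit 0) (nat_lit 340243656600) (nat_lit 152) (nat_lit 361564743004) (nat_lit 0) (nat_lit 339357066947) (nat_lit 1) (nat_lit 5) (nat_lit 3) (nat_lit 4) (nat_lit 1) (nat_lit 4) (nat_lit 326) (nat_lit 206) (nat_lit 188)) (XT.lf (nat_lit 0) (nat_lit 367953906173) (nat_lit 152) (nat_lit 389411435662) (nat_lit 0) (nat_lit 367045396334) (nat_lit 1) (nat_lit 5) (nat_lit 3) (nat_lit 4) (nat_lit 1) (nat_lit 4) (nat_lit 327) (nat_lit 206) (nat_lit 187))))) (XT.nd (nat_lit 234) (nat_lit 0) (nat_lit 0) (XT.nd (nat_lit 78) (nat_lit 0) (nat_lit 0) (XT.lf (nat_lit 0) (nat_lit 397866874288) (nat_lit 152) (nat_lit 419511844755) (nat_lit 0) (nat_lit 396938067979) (nat_lit 1) (nat_lit 5) (nat_lit 3) (nat_lit 4) (nat_lit 1) (nat_lit 4) (nat_lit 328) (nat_lit 206) (nat_lit 186)) (XT.nd (nat_lit 78) (nat_lit 0) (nat_lit 0) (XT.lf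 (nat_lit 0) (nat_lit 430159822977) (nat_lit 152) (nat_lit 452044343078) (nat_lit 0) (nat_lit 429212223641) (nat_lit 1) (nat_lit 5) (nat_lit 3) (nat_lit 4) (nat_lit 1) (nat_lit 4) (nat_lit 329) (nat_lit 206) (nat_lit 185)) (XT.lf (nat_lit 0) (nat_lit 465024117863) (nat_lit 152) (nat_lit 487201715806) (nat_lit 0) (nat_lit 464059117576) (nat_lit 1) (nat_lit 5) (nat_lit 3) (nat_lit 4) (nat_lit 1) (nat_lit 4) (nat_lit 330) (nat_lit 206) (nat_lit 184)))) (XT.nd (nat_lit 78) (nat_lit 0) (nat_lit 0) (XT.lf (nat_lit 0) (nat_lit 502666362175) (nat_lit 152) (nat_lit 525192302925) (nat_lit 0) (nat_lit 501685249896) (nat_lit 1) (nat_lit 5) (nat_lit 3) (nat_lit 4) (nat_lit 1) (nat_lit 4) (nat_lit 331) (nat_lit 206) (nat_lit 183)) (XT.nd (nat_lit 78) (nat_lit 0) (nat_lit 0) (XT.lf (nat_lit 0) (nat_lit 543309621063) (nat_lit 152) (nat_lit 566241233841) (nat_lit 0) (nat_lit 542313590274) (nat_lit 1)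 (nat_lit 5) (nat_lit 3) (nat_lit 4) (nat_lit 1) (nat_lit 4) (nat_lit 332) (nat_lit 206) (nat_lit 182)) (XT.lf (nat_lit 0) (nat_lit 587194743471) (nat_lit 152) (nat_lit 610591761477) (nat_lit 0) (nat_lit 586184899245) (nat_lit 1) (nat_lit 5) (nat_lit 3) (nat_lit 4) (nat_lit 1) (nat_lit 4) (nat_lit 333) (nat_lit 206) (nat_lit 181))))))) (XT.nd (nat_lit 35802) (nat_lit 0) (nat_lit 0) (XT.nd (nat_lit 35334) (nat_lit 0) (nat_lit 0) (XT.nd (nat_lit 234) (nat_lit 0) (nat_lit 0) (XT.nd (nat_lit 78) (nat_lit 0) (nat_lit 0) (XT.lf (nat_lit 0) (nat_lit 634581789381) (nat_lit 152) (nat_lit 658506703775) (nat_lit 0) (nat_lit 633559154937) (nat_lit 1) (nat_lit 5) (nat_lit 3) (nat_lit 4) (nat_lit 1) (nat_lit 4) (nat_lit 334) (nat_lit 206) (nat_lit 180)) (XT.nd (nat_lit 78) (nat_lit 0) (nat_lit 0) (XT.lf (nat_lit 0) (nat_lit 685751570919) (nat_lit 152) (nat_lit 710270001134) (nat_lit 0) (nat_lit 684717093679)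 (nat_lit 1) (nat_lit 5) (nat_lit 3) (nat_lit 4) (nat_lit 1) (nat_lit 4) (nat_lit 335) (nat_lit 206) (nat_lit 179)) (XT.lf (nat_lit 0) (nat_lit 741007316419) (nat_lit 152) (nat_lit 766188399020) (nat_lit 0) (nat_lit 739961873628) (nat_lit 1) (nat_lit 5) (nat_lit 3) (nat_lit 4) (nat_lit 1) (nat_lit 4) (nat_lit 336) (nat_lit 206) (nat_lit 178)))) (XT.nd (nat_lit 78) (nat_lit 0) (nat_lit 0) (XT.lf (nat_lit 0) (nat_lit 800676467335) (nat_lit 152) (nat_lit 826593265717) (nat_lit 0) (nat_lit 799620871257) (nat_lit 1) (nat_lit 5) (nat_lit 3) (nat_lit 4) (nat_lit 1) (nat_lit 4) (nat_lit 337) (nat_lit 206) (nat_lit 177)) (XT.nd (nat_lit 78) (nat_lit 0) (nat_lit 0) (XT.lf (nat_lit 0) (nat_lit 865112618638) (nat_lit 152) (nat_lit 891842555989) (nat_lit 0) (nat_lit 864047621367) (nat_lit 1) (nat_lit 5) (nat_lit 3) (nat_lit 4) (nat_lit 1) (nat_lit 4) (nat_lit 338) (nat_lit 206) (nat_lit 176)) (XT.lf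 (nat_lit 0) (nat_lit 934697614185) (nat_lit 152) (nat_lit 962322932299) (nat_lit 0) (nat_lit 933623912107) (nat_lit 1) (nat_lit 5) (nat_lit 3) (nat_lit 4) (nat_lit 1) (nat_lit 4) (nat_lit 339) (nat_lit 206) (nat_lit 175))))) (XT.nd (nat_lit 234) (nat_lit 0) (nat_lit 0) (XT.nd (nat_lit 78) (nat_lit 0) (nat_lit 0) (XT.lf (nat_lit 0) (nat_lit 32340883743) (nat_lit 152) (nat_lit 47391008828) (nat_lit 0) (nat_lit 32340883743) (nat_lit 1) (nat_lit 5) (nat_lit 3) (nat_lit 4) (nat_lit 1) (nat_lit 4) (nat_lit 306) (nat_lit 207) (nat_lit 207)) (XT.nd (nat_lit 78) (nat_lit 0) (nat_lit 0) (XT.lf (nat_lit 0) (nat_lit 71002304411) (nat_lit 152) (nat_lit 100064911252) (nat_lit 0) (nat_lit 70907703437) (nat_lit 1) (nat_lit 5) (nat_lit 3) (nat_lit 4) (nat_lit 1) (nat_lit 4) (nat_lit 307) (nat_lit 207) (nat_lit 206)) (XT.lf (nat_lit 0) (nat_lit 77767626757) (nat_lit 152) (nat_lit 105882562661) (nat_lit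 0) (nat_lit 77585432288) (nat_lit 1) (nat_lit 5) (nat_lit 3) (nat_lit 4) (nat_lit 1) (nat_lit 4) (nat_lit 308) (nat_lit 207) (nat_lit 205)))) (XT.nd (nat_lit 78) (nat_lit 0) (nat_lit 0) (XT.lf (nat_lit 0) (nat_lit 85017825323) (nat_lit 152) (nat_lit 112269446854) (nat_lit 0) (nat_lit 84754525767) (nat_lit 1) (nat_lit 5) (nat_lit 3) (nat_lit 4) (nat_lit 1) (nat_lit 4) (nat_lit 309) (nat_lit 207) (nat_lit 204)) (XT.nd (nat_lit 78) (nat_lit 0) (nat_lit 0) (XT.lf (nat_lit 0) (nat_lit 92795864251) (nat_lit 152) (nat_lit 119263412035) (nat_lit 0) (nat_lit 92457467391) (nat_lit 1) (nat_lit 5) (nat_lit 3) (nat_lit 4) (nat_lit 1) (nat_lit 4) (nat_lit 310) (nat_lit 207) (nat_lit 203)) (XT.lf (nat_lit 0) (nat_lit 101147835621) (nat_lit 152) (nat_lit 126905903924) (nat_lit 0) (nat_lit 100739904221) (nat_lit 1) (nat_lit 5) (nat_lit 3) (nat_lit 4) (nat_lit 1) (nat_lit 4) (nat_lit 311) (nat_lit 207)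 (nat_lit 202)))))) (XT.nd (nat_lit 468) (nat_lit 0) (nat_lit 0) (XT.nd (nat_lit 234) (nat_lit 0) (nat_lit 0) (XT.nd (nat_lit 78) (nat_lit 0) (nat_lit 0) (XT.lf (nat_lit 0) (nat_lit 110123232598) (nat_lit 152) (nat_lit 135242211360) (nat_lit 0) (nat_lit 109650917365) (nat_lit 1) (nat_lit 5) (nat_lit 3) (nat_lit 4) (nat_lit 1) (nat_lit 4) (nat_lit 312) (nat_lit 207) (nat_lit 201)) (XT.nd (nat_lit 78) (nat_lit 0) (nat_lit 0) (XT.lf (nat_lit 0) (nat_lit 119775242719) (nat_lit 152) (nat_lit 144321734684) (nat_lit 0) (nat_lit 119243312826) (nat_lit 1) (nat_lit 5) (nat_lit 3) (nat_lit 4) (nat_lit 1) (nat_lit 4) (nat_lit 313) (nat_lit 207) (nat_lit 200)) (XT.lf (nat_lit 0) (nat_lit 130161063082) (nat_lit 152) (nat_lit 154198278479) (nat_lit 0) (nat_lit 129573934429) (nat_lit 1) (nat_lit 5) (nat_lit 3) (nat_lit 4) (nat_lit 1) (nat_lit 4) (nat_lit 314) (nat_lit 207) (nat_lit 199)))) (XT.nd (nat_lit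 78) (nat_lit 0) (nat_lit 0) (XT.lf (nat_lit 0) (nat_lit 141342239289) (nat_lit 152) (nat_lit 164930370411) (nat_lit 0) (nat_lit 140704000672) (nat_lit 1) (nat_lit 5) (nat_lit 3) (nat_lit 4) (nat_lit 1) (nat_lit 4) (nat_lit 315) (nat_lit 207) (nat_lit 198)) (XT.nd (nat_lit 78) (nat_lit 0) (nat_lit 0) (XT.lf (nat_lit 0) (nat_lit 153385030160) (nat_lit 152) (nat_lit 176581608064) (nat_lit 0) (nat_lit 152699467505) (nat_lit 1) (nat_lit 5) (nat_lit 3) (nat_lit 4) (nat_lit 1) (nat_lit 4) (nat_lit 316) (nat_lit 207) (nat_lit 197)) (XT.lf (nat_lit 0) (nat_lit 166360800384) (nat_lit 152) (nat_lit 189221035807) (nat_lit 0) (nat_lit 165631419174) (nat_lit 1) (nat_lit 5) (nat_lit 3) (nat_lit 4) (nat_lit 1) (nat_lit 4) (nat_lit 317) (nat_lit 207) (nat_lit 196))))) (XT.nd (nat_lit 234) (nat_lit 0) (nat_lit 0) (XT.nd (nat_lit 78) (nat_lit 0) (nat_lit 0) (XT.lf (nat_lit 0) (nat_lit 180346443414) (nat_lit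 152) (nat_lit 202923553954) (nat_lit 0) (nat_lit 179576489467) (nat_lit 1) (nat_lit 5) (nat_lit 3) (nat_lit 4) (nat_lit 1) (nat_lit 4) (nat_lit 318) (nat_lit 207) (nat_lit 195)) (XT.nd (nat_lit 78) (nat_lit 0) (nat_lit 0) (XT.lf (nat_lit 0) (nat_lit 195424837133) (nat_lit 152) (nat_lit 217770362611) (nat_lit 0) (nat_lit 194617315838) (nat_lit 1) (nat_lit 5) (nat_lit 3) (nat_lit 4) (nat_lit 1) (nat_lit 4) (nat_lit 319) (nat_lit 207) (nat_lit 194)) (XT.lf (nat_lit 0) (nat_lit 211685334987) (nat_lit 152) (nat_lit 233849442868) (nat_lit 0) (nat_lit 210843029109) (nat_lit 1) (nat_lit 5) (nat_lit 3) (nat_lit 4) (nat_lit 1) (nat_lit 4) (nat_lit 320) (nat_lit 207) (nat_lit 193)))) (XT.nd (nat_lit 156) (nat_lit 0) (nat_lit 0) (XT.nd (nat_lit 78) (nat_lit 0) (nat_lit 0) (XT.lf (nat_lit 0) (nat_lit 229224295480) (nat_lit 152) (nat_lit 251256078163) (nat_lit 0) (nat_lit 228349781657) (nat_lit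 1) (nat_lit 5) (nat_lit 3) (nat_lit 4) (nat_lit 1) (nat_lit 4) (nat_lit 321) (nat_lit 207) (nat_lit 192)) (XT.lf (nat_lit 0) (nat_lit 248145653195) (nat_lit 152) (nat_lit 270093418927) (nat_lit 0) (nat_lit 247241317199) (nat_lit 1) (nat_lit 5) (nat_lit 3) (nat_lit 4) (nat_lit 1) (nat_lit 4) (nat_lit 322) (nat_lit 207) (nat_lit 191))) (XT.nd (nat_lit 78) (nat_lit 0) (nat_lit 0) (XT.lf (nat_lit 0) (nat_lit 268561534694) (nat_lit 152) (nat_lit 290473093846) (nat_lit 0) (nat_lit 267629585576) (nat_lit 1) (nat_lit 5) (nat_lit 3) (nat_lit 4) (nat_lit 1) (nat_lit 4) (nat_lit 323) (nat_lit 207) (nat_lit 190)) (XT.lf (nat_lit 0) (nat_lit 290592922980) (nat_lit 152) (nat_lit 312515871364) (nat_lit 0) (nat_lit 289635406155) (nat_lit 1) (nat_lit 5) (nat_lit 3) (nat_lit 4) (nat_lit 1) (nat_lit 4) (nat_lit 324) (nat_lit 207) (nat_lit 189))))))))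
noncomputable def xc6 : XT := (XT.nd (nat_lit 36660) (nat_lit 0) (nat_lit 0) (XT.nd (nat_lit 936) (nat_lit 0) (nat_lit 0) (XT.nd (nat_lit 468) (nat_lit 0) (nat_lit 0) (XT.nd (nat_lit 234) (nat_lit 0) (nat_lit 0) (XT.nd (nat_lit 78) (nat_lit 0) (nat_lit 0) (XT.lf (nat_lit 0) (nat_lit 314370374427) (nat_lit 152) (nat_lit 336352375349) (nat_lit 0) (nat_lit 313389183800) (nat_lit 1) (nat_lit 5) (nat_lit 3) (nat_lit 4) (nat_lit 1) (nat_lit 4) (nat_lit 325) (nat_lit 207) (nat_lit 188)) (XT.nd (nat_lit 78) (nat_lit 0) (nat_lit 0) (XT.lf (nat_lit 0) (nat_lit 340034792452) (nat_lit 152) (nat_lit 362123859156) (nat_lit 0) (nat_lit 339031681638) (nat_lit 1) (nat_lit 5) (nat_lit 3) (nat_lit 4) (nat_lit 1) (nat_lit 4) (nat_lit 326) (nat_lit 207) (nat_lit 187)) (XT.lf (nat_lit 0) (nat_lit 367738262494) (nat_lit 152) (nat_lit 389983042690) (nat_lit 0) (nat_lit 366714855211) (nat_lit 1) (nat_lit 5)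 (nat_lit 3) (nat_lit 4) (nat_lit 1) (nat_lit 4) (nat_lit 327) (nat_lit 207) (nat_lit 186)))) (XT.nd (nat_lit 78) (nat_lit 0) (nat_lit 0) (XT.lf (nat_lit 0) (nat_lit 397644953265) (nat_lit 152) (nat_lit 420095017409) (nat_lit 0) (nat_lit 396602752955) (nat_lit 1) (nat_lit 5) (nat_lit 3) (nat_lit 4) (nat_lit 1) (nat_lit 4) (nat_lit 328) (nat_lit 207) (nat_lit 185)) (XT.nd (nat_lit 78) (nat_lit 0) (nat_lit 0) (XT.lf (nat_lit 0) (nat_lit 429932089599) (nat_lit 152) (nat_lit 452638224645) (nat_lit 0) (nat_lit 428872488338) (nat_lit 1) (nat_lit 5) (nat_lit 3) (nat_lit 4) (nat_lit 1) (nat_lit 4) (nat_lit 329) (nat_lit 207) (nat_lit 184)) (XT.lf (nat_lit 0) (nat_lit 464791002675) (nat_lit 152) (nat_lit 487805513033) (nat_lit 0) (nat_lit 463715289422) (nat_lit 1) (nat_lit 5) (nat_lit 3) (nat_lit 4) (nat_lit 1) (nat_lit 4) (nat_lit 330) (nat_lit 207) (nat_lit 183))))) (XT.nd (nat_lit 234) (nat_lit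 0) (nat_lit 0) (XT.nd (nat_lit 78) (nat_lit 0) (nat_lit 0) (XT.lf (nat_lit 0) (nat_lit 502428263829) (nat_lit 152) (nat_lit 525805281319) (nat_lit 0) (nat_lit 501337632065) (nat_lit 1) (nat_lit 5) (nat_lit 3) (nat_lit 4) (nat_lit 1) (nat_lit 4) (nat_lit 331) (nat_lit 207) (nat_lit 182)) (XT.nd (nat_lit 78) (nat_lit 0) (nat_lit 0) (XT.lf (nat_lit 0) (nat_lit 543066908683) (nat_lit 152) (nat_lit 566862713315) (nat_lit 0) (nat_lit 541962463483) (nat_lit 1) (nat_lit 5) (nat_lit 3) (nat_lit 4) (nat_lit 1) (nat_lit 4) (nat_lit 332) (nat_lit 207) (nat_lit 181)) (XT.lf (nat_lit 0) (nat_lit 586947758836) (nat_lit 152) (nat_lit 611221112322) (nat_lit 0) (nat_lit 585830523417) (nat_lit 1) (nat_lit 5) (nat_lit 3) (nat_lit 4) (nat_lit 1) (nat_lit 4) (nat_lit 333) (nat_lit 207) (nat_lit 180)))) (XT.nd (nat_lit 78) (nat_lit 0) (nat_lit 0) (XT.lf (nat_lit 0) (nat_lit 634330848955) (nat_lit 152) (nat_lit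 659143342927) (nat_lit 0) (nat_lit 633201770741) (nat_lit 1) (nat_lit 5) (nat_lit 3) (nat_lit 4) (nat_lit 1) (nat_lit 4) (nat_lit 334) (nat_lit 207) (nat_lit 179)) (XT.nd (nat_lit 78) (nat_lit 0) (nat_lit 0) (XT.lf (nat_lit 0) (nat_lit 685496967723) (nat_lit 152) (nat_lit 710913388718) (nat_lit 0) (nat_lit 684356923959) (nat_lit 1) (nat_lit 5) (nat_lit 3) (nat_lit 4) (nat_lit 1) (nat_lit 4) (nat_lit 335) (nat_lit 207) (nat_lit 178)) (XT.lf (nat_lit 0) (nat_lit 740749321769) (nat_lit 152) (nat_lit 766838035152) (nat_lit 0) (nat_lit 739599124717) (nat_lit 1) (nat_lit 5) (nat_lit 3) (nat_lit 4) (nat_lit 1) (nat_lit 4) (nat_lit 336) (nat_lit 207) (nat_lit 177)))))) (XT.nd (nat_lit 35256) (nat_lit 0) (nat_lit 0) (XT.nd (nat_lit 35022) (nat_lit 0) (nat_lit 0) (XT.nd (nat_lit 78) (nat_lit 0) (nat_lit 0) (XT.lf (nat_lit 0) (nat_lit 800415332452) (nat_lit 152) (nat_lit 827248687541) (nat_lit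 0) (nat_lit 799255734207) (nat_lit 1) (nat_lit 5) (nat_lit 3) (nat_lit 4) (nat_lit 1) (nat_lit 4) (nat_lit 337) (nat_lit 207) (nat_lit 176)) (XT.nd (nat_lit 34866) (nat_lit 0) (nat_lit 0) (XT.lf (nat_lit 0) (nat_lit 864848576129) (nat_lit 152) (nat_lit 892503334936) (nat_lit 0) (nat_lit 863680273077) (nat_lit 1) (nat_lit 5) (nat_lit 3) (nat_lit 4) (nat_lit 1) (nat_lit 4) (nat_lit 338) (nat_lit 207) (nat_lit 175)) (XT.lf (nat_lit 0) (nat_lit 26681969831) (nat_lit 152) (nat_lit 42817693092) (nat_lit 0) (nat_lit 26681969831) (nat_lit 1) (nat_lit 5) (nat_lit 3) (nat_lit 4) (nat_lit 1) (nat_lit 4) (nat_lit 304) (nat_lit 208) (nat_lit 208)))) (XT.nd (nat_lit 78) (nat_lit 0) (nat_lit 0) (XT.lf (nat_lit 0) (nat_lit 58870730003) (nat_lit 152) (nat_lit 90002575838) (nat_lit 0) (nat_lit 58768560951) (nat_lit 1) (nat_lit 5) (nat_lit 3) (nat_lit 4) (nat_lit 1) (nat_lit 4) (nat_lit 305) (nat_lit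 208) (nat_lit 207)) (XT.nd (nat_lit 78) (nat_lit 0) (nat_lit 0) (XT.lf (nat_lit 0) (nat_lit 64752337436) (nat_lit 152) (nat_lit 94840237094) (nat_lit 0) (nat_lit 64555567410) (nat_lit 1) (nat_lit 5) (nat_lit 3) (nat_lit 4) (nat_lit 1) (nat_lit 4) (nat_lit 306) (nat_lit 208) (nat_lit 206)) (XT.lf (nat_lit 0) (nat_lit 71043615931) (nat_lit 152) (nat_lit 100177037577) (nat_lit 0) (nat_lit 70759252410) (nat_lit 1) (nat_lit 5) (nat_lit 3) (nat_lit 4) (nat_lit 1) (nat_lit 4) (nat_lit 307) (nat_lit 208) (nat_lit 205))))) (XT.nd (nat_lit 234) (nat_lit 0) (nat_lit 0) (XT.nd (nat_lit 78) (nat_lit 0) (nat_lit 0) (XT.lf (nat_lit 0) (nat_lit 77781847139) (nat_lit 152) (nat_lit 106044602771) (nat_lit 0) (nat_lit 77416378531) (nat_lit 1) (nat_lit 5) (nat_lit 3) (nat_lit 4) (nat_lit 1) (nat_lit 4) (nat_lit 308) (nat_lit 208) (nat_lit 204)) (XT.nd (nat_lit 78) (nat_lit 0) (nat_lit 0) (XT.lf (nat_lit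 0) (nat_lit 85006961319) (nat_lit 152) (nat_lit 112477703432) (nat_lit 0) (nat_lit 84566395407) (nat_lit 1) (nat_lit 5) (nat_lit 3) (nat_lit 4) (nat_lit 1) (nat_lit 4) (nat_lit 309) (nat_lit 208) (nat_lit 203)) (XT.lf (nat_lit 0) (nat_lit 92761773962) (nat_lit 152) (nat_lit 119514461638) (nat_lit 0) (nat_lit 92251673510) (nat_lit 1) (nat_lit 5) (nat_lit 3) (nat_lit 4) (nat_lit 1) (nat_lit 4) (nat_lit 310) (nat_lit 208) (nat_lit 202)))) (XT.nd (nat_lit 78) (nat_lit 0) (nat_lit 0) (XT.lf (nat_lit 0) (nat_lit 101092239513) (nat_lit 152) (nat_lit 127196576698) (nat_lit 0) (nat_lit 100517755228) (nat_lit 1) (nat_lit 5) (nat_lit 3) (nat_lit 4) (nat_lit 1) (nat_lit 4) (nat_lit 311) (nat_lit 208) (nat_lit 201)) (XT.nd (nat_lit 78) (nat_lit 0) (nat_lit 0) (XT.lf (nat_lit 0) (nat_lit 110047723695) (nat_lit 152) (nat_lit 135569572256) (nat_lit 0) (nat_lit 109413624750) (nat_lit 1) (nat_lit 5)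 (nat_lit 3) (nat_lit 4) (nat_lit 1) (nat_lit 4) (nat_lit 312) (nat_lit 208) (nat_lit 200)) (XT.lf (nat_lit 0) (nat_lit 119681296043) (nat_lit 152) (nat_lit 144683066063) (nat_lit 0) (nat_lit 118991998338) (nat_lit 1) (nat_lit 5) (nat_lit 3) (nat_lit 4) (nat_lit 1) (nat_lit 4) (nat_lit 313) (nat_lit 208) (nat_lit 199))))))) (XT.nd (nat_lit 936) (nat_lit 0) (nat_lit 0) (XT.nd (nat_lit 468) (nat_lit 0) (nat_lit 0) (XT.nd (nat_lit 234) (nat_lit 0) (nat_lit 0) (XT.nd (nat_lit 78) (nat_lit 0) (nat_lit 0) (XT.lf (nat_lit 0) (nat_lit 130050044394) (nat_lit 152) (nat_lit 154591064009) (nat_lit 0) (nat_lit 129309636726) (nat_lit 1) (nat_lit 5) (nat_lit 3) (nat_lit 4) (nat_lit 1) (nat_lit 4) (nat_lit 314) (nat_lit 208) (nat_lit 198)) (XT.nd (nat_lit 78) (nat_lit 0) (nat_lit 0) (XT.lf (nat_lit 0) (nat_lit 141215413181) (nat_lit 152) (nat_lit 165352280156) (nat_lit 0) (nat_lit 140427681474) (nat_lit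 1) (nat_lit 5) (nat_lit 3) (nat_lit 4) (nat_lit 1) (nat_lit 4) (nat_lit 315) (nat_lit 208) (nat_lit 197)) (XT.lf (nat_lit 0) (nat_lit 153243567554) (nat_lit 152) (nat_lit 177030484673) (nat_lit 0) (nat_lit 152412017292) (nat_lit 1) (nat_lit 5) (nat_lit 3) (nat_lit 4) (nat_lit 1) (nat_lit 4) (nat_lit 316) (nat_lit 208) (nat_lit 196)))) (XT.nd (nat_lit 78) (nat_lit 0) (nat_lit 0) (XT.lf (nat_lit 0) (nat_lit 166205785465) (nat_lit 152) (nat_lit 189694881735) (nat_lit 0) (nat_lit 165333662466) (nat_lit 1) (nat_lit 5) (nat_lit 3) (nat_lit 4) (nat_lit 1) (nat_lit 4) (nat_lit 317) (nat_lit 208) (nat_lit 195)) (XT.nd (nat_lit 78) (nat_lit 0) (nat_lit 0) (XT.lf (nat_lit 0) (nat_lit 180178880056) (nat_lit 152) (nat_lit 203420519622) (nat_lit 0) (nat_lit 179269189708) (nat_lit 1) (nat_lit 5) (nat_lit 3) (nat_lit 4) (nat_lit 1) (nat_lit 4) (nat_lit 318) (nat_lit 208) (nat_lit 194)) (XT.lf (nat_lit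 0) (nat_lit 195245654850) (nat_lit 152) (nat_lit 218288735446) (nat_lit 0) (nat_lit 194301179921) (nat_lit 1) (nat_lit 5) (nat_lit 3) (nat_lit 4) (nat_lit 1) (nat_lit 4) (nat_lit 319) (nat_lit 208) (nat_lit 193))))) (XT.nd (nat_lit 234) (nat_lit 0) (nat_lit 0) (XT.nd (nat_lit 78) (nat_lit 0) (nat_lit 0) (XT.lf (nat_lit 0) (nat_lit 211495394440) (nat_lit 152) (nat_lit 234387637154) (nat_lit 0) (nat_lit 210518711565) (nat_lit 1) (nat_lit 5) (nat_lit 3) (nat_lit 4) (nat_lit 1) (nat_lit 4) (nat_lit 320) (nat_lit 208) (nat_lit 192)) (XT.nd (nat_lit 78) (nat_lit 0) (nat_lit 0) (XT.lf (nat_lit 0) (nat_lit 229024393579) (nat_lit 152) (nat_lit 251812625643) (nat_lit 0) (nat_lit 228017888531) (nat_lit 1) (nat_lit 5) (nat_lit 3) (nat_lit 4) (nat_lit 1) (nat_lit 4) (nat_lit 321) (nat_lit 208) (nat_lit 191)) (XT.lf (nat_lit 0) (nat_lit 247936527816) (nat_lit 152) (nat_lit 270666960107) (nat_lit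 0) (nat_lit 246902409645) (nat_lit 1) (nat_lit 5) (nat_lit 3) (nat_lit 4) (nat_lit 1) (nat_lit 4) (nat_lit 322) (nat_lit 208) (nat_lit 190)))) (XT.nd (nat_lit 78) (nat_lit 0) (nat_lit 0) (XT.lf (nat_lit 0) (nat_lit 268343869059) (nat_lit 152) (nat_lit 291062369932) (nat_lit 0) (nat_lit 267284183182) (nat_lit 1) (nat_lit 5) (nat_lit 3) (nat_lit 4) (nat_lit 1) (nat_lit 4) (nat_lit 323) (nat_lit 208) (nat_lit 189)) (XT.nd (nat_lit 78) (nat_lit 0) (nat_lit 0) (XT.lf (nat_lit 0) (nat_lit 290367349700) (nat_lit 152) (nat_lit 313119716809) (nat_lit 0) (nat_lit 289283990021) (nat_lit 1) (nat_lit 5) (nat_lit 3) (nat_lit 4) (nat_lit 1) (nat_lit 4) (nat_lit 324) (nat_lit 208) (nat_lit 188)) (XT.lf (nat_lit 0) (nat_lit 314137479253) (nat_lit 152) (nat_lit 336969710939) (nat_lit 0) (nat_lit 313032199388) (nat_lit 1) (nat_lit 5) (nat_lit 3) (nat_lit 4) (nat_lit 1) (nat_lit 4) (nat_lit 325) (nat_lit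 208) (nat_lit 187)))))) (XT.nd (nat_lit 468) (nat_lit 0) (nat_lit 0) (XT.nd (nat_lit 234) (nat_lit 0) (nat_lit 0) (XT.nd (nat_lit 78) (nat_lit 0) (nat_lit 0) (XT.lf (nat_lit 0) (nat_lit 339795117747) (nat_lit 152) (nat_lit 362753685623) (nat_lit 0) (nat_lit 338669541412) (nat_lit 1) (nat_lit 5) (nat_lit 3) (nat_lit 4) (nat_lit 1) (nat_lit 4) (nat_lit 326) (nat_lit 208) (nat_lit 186)) (XT.nd (nat_lit 78) (nat_lit 0) (nat_lit 0) (XT.lf (nat_lit 0) (nat_lit 367492310446) (nat_lit 152) (nat_lit 390624434783) (nat_lit 0) (nat_lit 366347941084) (nat_lit 1) (nat_lit 5) (nat_lit 3) (nat_lit 4) (nat_lit 1) (nat_lit 4) (nat_lit 327) (nat_lit 208) (nat_lit 185)) (XT.lf (nat_lit 0) (nat_lit 397393188862) (nat_lit 152) (nat_lit 420747118415) (nat_lit 0) (nat_lit 396231418549) (nat_lit 1) (nat_lit 5) (nat_lit 3) (nat_lit 4) (nat_lit 1) (nat_lit 4) (nat_lit 328) (nat_lit 208) (nat_lit 184)))) (XT.nd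 (nat_lit 78) (nat_lit 0) (nat_lit 0) (XT.lf (nat_lit 0) (nat_lit 429674943386) (nat_lit 152) (nat_lit 453300241311) (nat_lit 0) (nat_lit 428497061081) (nat_lit 1) (nat_lit 5) (nat_lit 3) (nat_lit 4) (nat_lit 1) (nat_lit 4) (nat_lit 329) (nat_lit 208) (nat_lit 183)) (XT.nd (nat_lit 78) (nat_lit 0) (nat_lit 0) (XT.lf (nat_lit 0) (nat_lit 464528873304) (nat_lit 152) (nat_lit 488476710866) (nat_lit 0) (nat_lit 463336072488) (nat_lit 1) (nat_lit 5) (nat_lit 3) (nat_lit 4) (nat_lit 1) (nat_lit 4) (nat_lit 330) (nat_lit 208) (nat_lit 182)) (XT.lf (nat_lit 0) (nat_lit 502161520423) (nat_lit 152) (nat_lit 526484980232) (nat_lit 0) (nat_lit 500954906171) (nat_lit 1) (nat_lit 5) (nat_lit 3) (nat_lit 4) (nat_lit 1) (nat_lit 4) (nat_lit 331) (nat_lit 208) (nat_lit 181))))) (XT.nd (nat_lit 234) (nat_lit 0) (nat_lit 0) (XT.nd (nat_lit 78) (nat_lit 0) (nat_lit 0) (XT.lf (nat_lit 0) (nat_lit 542795893023)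 (nat_lit 152) (nat_lit 567550283599) (nat_lit 0) (nat_lit 541576488552) (nat_lit 1) (nat_lit 5) (nat_lit 3) (nat_lit 4) (nat_lit 1) (nat_lit 4) (nat_lit 332) (nat_lit 208) (nat_lit 180)) (XT.nd (nat_lit 78) (nat_lit 0) (nat_lit 0) (XT.lf (nat_lit 0) (nat_lit 586672787384) (nat_lit 152) (nat_lit 611915970913) (nat_lit 0) (nat_lit 585441540119) (nat_lit 1) (nat_lit 5) (nat_lit 3) (nat_lit 4) (nat_lit 1) (nat_lit 4) (nat_lit 333) (nat_lit 208) (nat_lit 179)) (XT.lf (nat_lit 0) (nat_lit 634052214734) (nat_lit 152) (nat_lit 659844949949) (nat_lit 0) (nat_lit 632810001917) (nat_lit 1) (nat_lit 5) (nat_lit 3) (nat_lit 4) (nat_lit 1) (nat_lit 4) (nat_lit 334) (nat_lit 208) (nat_lit 178)))) (XT.nd (nat_lit 78) (nat_lit 0) (nat_lit 0) (XT.lf (nat_lit 0) (nat_lit 685214942049) (nat_lit 152) (nat_lit 711621244288) (nat_lit 0) (nat_lit 683962575944) (nat_lit 1) (nat_lit 5) (nat_lit 3) (nat_lit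 4) (nat_lit 1) (nat_lit 4) (nat_lit 335) (nat_lit 208) (nat_lit 177)) (XT.nd (nat_lit 78) (nat_lit 0) (nat_lit 0) (XT.lf (nat_lit 0) (nat_lit 740464155860) (nat_lit 152) (nat_lit 767551676414) (nat_lit 0) (nat_lit 739202388564) (nat_lit 1) (nat_lit 5) (nat_lit 3) (nat_lit 4) (nat_lit 1) (nat_lit 4) (nat_lit 336) (nat_lit 208) (nat_lit 176)) (XT.lf (nat_lit 0) (nat_lit 800127258918) (nat_lit 152) (nat_lit 827967685926) (nat_lit 0) (nat_lit 798856786814) (nat_lit 1) (nat_lit 5) (nat_lit 3) (nat_lit 4) (nat_lit 1) (nat_lit 4) (nat_lit 337) (nat_lit 208) (nat_lit 175))))))))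
noncomputable def xc7 : XT := (XT.nd (nat_lit 36504) (nat_lit 0) (nat_lit 0) (XT.nd (nat_lit 35568) (nat_lit 0) (nat_lit 0) (XT.nd (nat_lit 35100) (nat_lit 0) (nat_lit 0) (XT.nd (nat_lit 34866) (nat_lit 0) (nat_lit 0) (XT.nd (nat_lit 34710) (nat_lit 0) (nat_lit 0) (XT.lf (nat_lit 0) (nat_lit 864557810351) (nat_lit 152) (nat_lit 893227293620) (nat_lit 0) (nat_lit 863279278239) (nat_lit 1) (nat_lit 5) (nat_lit 3) (nat_lit 4) (nat_lit 1) (nat_lit 4) (nat_lit 338) (nat_lit 208) (nat_lit 174)) (XT.nd (nat_lit 78) (nat_lit 0) (nat_lit 0) (XT.lf (nat_lit 0) (nat_lit 21746753231) (nat_lit 152) (nat_lit 39071815294) (nat_lit 0) (nat_lit 21746753231) (nat_lit 1) (nat_lit 5) (nat_lit 3) (nat_lit 4) (nat_lit 1) (nat_lit 4) (nat_lit 302) (nat_lit 209) (nat_lit 209)) (XT.lf (nat_lit 0) (nat_lit 48309676160) (nat_lit 152) (nat_lit 81712788495) (nat_lit 0) (nat_lit 48199333584) (nat_lit 1) (nat_lit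 5) (nat_lit 3) (nat_lit 4) (nat_lit 1) (nat_lit 4) (nat_lit 303) (nat_lit 209) (nat_lit 208)))) (XT.nd (nat_lit 78) (nat_lit 0) (nat_lit 0) (XT.lf (nat_lit 0) (nat_lit 53440155208) (nat_lit 152) (nat_lit 85698263179) (nat_lit 0) (nat_lit 53227643580) (nat_lit 1) (nat_lit 5) (nat_lit 3) (nat_lit 4) (nat_lit 1) (nat_lit 4) (nat_lit 304) (nat_lit 209) (nat_lit 207)) (XT.nd (nat_lit 78) (nat_lit 0) (nat_lit 0) (XT.lf (nat_lit 0) (nat_lit 58915346445) (nat_lit 152) (nat_lit 90123672270) (nat_lit 0) (nat_lit 58608233842) (nat_lit 1) (nat_lit 5) (nat_lit 3) (nat_lit 4) (nat_lit 1) (nat_lit 4) (nat_lit 305) (nat_lit 209) (nat_lit 206)) (XT.lf (nat_lit 0) (nat_lit 64767695448) (nat_lit 152) (nat_lit 95015240414) (nat_lit 0) (nat_lit 64372989352) (nat_lit 1) (nat_lit 5) (nat_lit 3) (nat_lit 4) (nat_lit 1) (nat_lit 4) (nat_lit 306) (nat_lit 209) (nat_lit 205))))) (XT.nd (nat_lit 234) (nat_lit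 0) (nat_lit 0) (XT.nd (nat_lit 78) (nat_lit 0) (nat_lit 0) (XT.lf (nat_lit 0) (nat_lit 71031882806) (nat_lit 152) (nat_lit 100401954681) (nat_lit 0) (nat_lit 70556071621) (nat_lit 1) (nat_lit 5) (nat_lit 3) (nat_lit 4) (nat_lit 1) (nat_lit 4) (nat_lit 307) (nat_lit 209) (nat_lit 204)) (XT.nd (nat_lit 78) (nat_lit 0) (nat_lit 0) (XT.lf (nat_lit 0) (nat_lit 77745029627) (nat_lit 152) (nat_lit 106315736342) (nat_lit 0) (nat_lit 77194121139) (nat_lit 1) (nat_lit 5) (nat_lit 3) (nat_lit 4) (nat_lit 1) (nat_lit 4) (nat_lit 308) (nat_lit 209) (nat_lit 203)) (XT.lf (nat_lit 0) (nat_lit 84946917522) (nat_lit 152) (nat_lit 112791630028) (nat_lit 0) (nat_lit 84326474494) (nat_lit 1) (nat_lit 5) (nat_lit 3) (nat_lit 4) (nat_lit 1) (nat_lit 4) (nat_lit 309) (nat_lit 209) (nat_lit 202)))) (XT.nd (nat_lit 78) (nat_lit 0) (nat_lit 0) (XT.lf (nat_lit 0) (nat_lit 92680224347) (nat_lit 152) (nat_lit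 119868011406) (nat_lit 0) (nat_lit 91995397485) (nat_lit 1) (nat_lit 5) (nat_lit 3) (nat_lit 4) (nat_lit 1) (nat_lit 4) (nat_lit 310) (nat_lit 209) (nat_lit 201)) (XT.nd (nat_lit 78) (nat_lit 0) (nat_lit 0) (XT.lf (nat_lit 0) (nat_lit 100990777103) (nat_lit 152) (nat_lit 127586814588) (nat_lit 0) (nat_lit 100246335581) (nat_lit 1) (nat_lit 5) (nat_lit 3) (nat_lit 4) (nat_lit 1) (nat_lit 4) (nat_lit 311) (nat_lit 209) (nat_lit 200)) (XT.lf (nat_lit 0) (nat_lit 109927823512) (nat_lit 152) (nat_lit 135993780629) (nat_lit 0) (nat_lit 109128183230) (nat_lit 1) (nat_lit 5) (nat_lit 3) (nat_lit 4) (nat_lit 1) (nat_lit 4) (nat_lit 312) (nat_lit 209) (nat_lit 199)))))) (XT.nd (nat_lit 468) (nat_lit 0) (nat_lit 0) (XT.nd (nat_lit 234) (nat_lit 0) (nat_lit 0) (XT.nd (nat_lit 78) (nat_lit 0) (nat_lit 0) (XT.lf (nat_lit 0) (nat_lit 119544323848) (nat_lit 152) (nat_lit 145138728587) (nat_lit 0)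 (nat_lit 118693573603) (nat_lit 1) (nat_lit 5) (nat_lit 3) (nat_lit 4) (nat_lit 1) (nat_lit 4) (nat_lit 313) (nat_lit 209) (nat_lit 198)) (XT.nd (nat_lit 78) (nat_lit 0) (nat_lit 0) (XT.lf (nat_lit 0) (nat_lit 129897264779) (nat_lit 152) (nat_lit 155075850747) (nat_lit 0) (nat_lit 128999190496) (nat_lit 1) (nat_lit 5) (nat_lit 3) (nat_lit 4) (nat_lit 1) (nat_lit 4) (nat_lit 314) (nat_lit 209) (nat_lit 197)) (XT.lf (nat_lit 0) (nat_lit 141047997068) (nat_lit 152) (nat_lit 165864033758) (nat_lit 0) (nat_lit 140106104229) (nat_lit 1) (nat_lit 5) (nat_lit 3) (nat_lit 4) (nat_lit 1) (nat_lit 4) (nat_lit 315) (nat_lit 209) (nat_lit 196)))) (XT.nd (nat_lit 78) (nat_lit 0) (nat_lit 0) (XT.lf (nat_lit 0) (nat_lit 153062599128) (nat_lit 152) (nat_lit 177567207595) (nat_lit 0) (nat_lit 152080133552) (nat_lit 1) (nat_lit 5) (nat_lit 3) (nat_lit 4) (nat_lit 1) (nat_lit 4) (nat_lit 316) (nat_lit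 209) (nat_lit 195)) (XT.nd (nat_lit 78) (nat_lit 0) (nat_lit 0) (XT.lf (nat_lit 0) (nat_lit 166012268599) (nat_lit 152) (nat_lit 190254724397) (nat_lit 0) (nat_lit 164992235675) (nat_lit 1) (nat_lit 5) (nat_lit 3) (nat_lit 4) (nat_lit 1) (nat_lit 4) (nat_lit 317) (nat_lit 209) (nat_lit 194)) (XT.lf (nat_lit 0) (nat_lit 179973744265) (nat_lit 152) (nat_lit 204001769450) (nat_lit 0) (nat_lit 178918926760) (nat_lit 1) (nat_lit 5) (nat_lit 3) (nat_lit 4) (nat_lit 1) (nat_lit 4) (nat_lit 318) (nat_lit 209) (nat_lit 193))))) (XT.nd (nat_lit 234) (nat_lit 0) (nat_lit 0) (XT.nd (nat_lit 78) (nat_lit 0) (nat_lit 0) (XT.lf (nat_lit 0) (nat_lit 195029760796) (nat_lit 152) (nat_lit 218889806725) (nat_lit 0) (nat_lit 193942735345) (nat_lit 1) (nat_lit 5) (nat_lit 3) (nat_lit 4) (nat_lit 1) (nat_lit 4) (nat_lit 319) (nat_lit 209) (nat_lit 192)) (XT.nd (nat_lit 78) (nat_lit 0) (nat_lit 0) (XT.lf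 (nat_lit 0) (nat_lit 211269539031) (nat_lit 152) (nat_lit 235007061628) (nat_lit 0) (nat_lit 210152691407) (nat_lit 1) (nat_lit 5) (nat_lit 3) (nat_lit 4) (nat_lit 1) (nat_lit 4) (nat_lit 320) (nat_lit 209) (nat_lit 191)) (XT.lf (nat_lit 0) (nat_lit 228789314693) (nat_lit 152) (nat_lit 252449043817) (nat_lit 0) (nat_lit 227644853946) (nat_lit 1) (nat_lit 5) (nat_lit 3) (nat_lit 4) (nat_lit 1) (nat_lit 4) (nat_lit 321) (nat_lit 209) (nat_lit 190)))) (XT.nd (nat_lit 78) (nat_lit 0) (nat_lit 0) (XT.lf (nat_lit 0) (nat_lit 247692908673) (nat_lit 152) (nat_lit 271319113186) (nat_lit 0) (nat_lit 246522880221) (nat_lit 1) (nat_lit 5) (nat_lit 3) (nat_lit 4) (nat_lit 1) (nat_lit 4) (nat_lit 322) (nat_lit 209) (nat_lit 189)) (XT.nd (nat_lit 78) (nat_lit 0) (nat_lit 0) (XT.lf (nat_lit 0) (nat_lit 268092342271) (nat_lit 152) (nat_lit 291729092370) (nat_lit 0) (nat_lit 266898640017) (nat_lit 1)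 (nat_lit 5) (nat_lit 3) (nat_lit 4) (nat_lit 1) (nat_lit 4) (nat_lit 323) (nat_lit 209) (nat_lit 188)) (XT.lf (nat_lit 0) (nat_lit 290108501019) (nat_lit 152) (nat_lit 313799929393) (nat_lit 0) (nat_lit 288892878577) (nat_lit 1) (nat_lit 5) (nat_lit 3) (nat_lit 4) (nat_lit 1) (nat_lit 4) (nat_lit 324) (nat_lit 209) (nat_lit 187))))))) (XT.nd (nat_lit 936) (nat_lit 0) (nat_lit 0) (XT.nd (nat_lit 468) (nat_lit 0) (nat_lit 0) (XT.nd (nat_lit 234) (nat_lit 0) (nat_lit 0) (XT.nd (nat_lit 78) (nat_lit 0) (nat_lit 0) (XT.lf (nat_lit 0) (nat_lit 313871851042) (nat_lit 152) (nat_lit 337662414399) (nat_lit 0) (nat_lit 312635932130) (nat_lit 1) (nat_lit 5) (nat_lit 3) (nat_lit 4) (nat_lit 1) (nat_lit 4) (nat_lit 325) (nat_lit 209) (nat_lit 186)) (XT.nd (nat_lit 78) (nat_lit 0) (nat_lit 0) (XT.lf (nat_lit 0) (nat_lit 339523212192) (nat_lit 152) (nat_lit 363457954709) (nat_lit 0) (nat_lit 338268500253)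 (nat_lit 1) (nat_lit 5) (nat_lit 3) (nat_lit 4) (nat_lit 1) (nat_lit 4) (nat_lit 326) (nat_lit 209) (nat_lit 185)) (XT.lf (nat_lit 0) (nat_lit 367214592535) (nat_lit 152) (nat_lit 391339412782) (nat_lit 0) (nat_lit 365942479646) (nat_lit 1) (nat_lit 5) (nat_lit 3) (nat_lit 4) (nat_lit 1) (nat_lit 4) (nat_lit 327) (nat_lit 209) (nat_lit 184)))) (XT.nd (nat_lit 78) (nat_lit 0) (nat_lit 0) (XT.lf (nat_lit 0) (nat_lit 397110089141) (nat_lit 152) (nat_lit 421472012075) (nat_lit 0) (nat_lit 395821864260) (nat_lit 1) (nat_lit 5) (nat_lit 3) (nat_lit 4) (nat_lit 1) (nat_lit 4) (nat_lit 328) (nat_lit 209) (nat_lit 183)) (XT.nd (nat_lit 78) (nat_lit 0) (nat_lit 0) (XT.lf (nat_lit 0) (nat_lit 429386860508) (nat_lit 152) (nat_lit 454034316137) (nat_lit 0) (nat_lit 428083717116) (nat_lit 1) (nat_lit 5) (nat_lit 3) (nat_lit 4) (nat_lit 1) (nat_lit 4) (nat_lit 329) (nat_lit 209) (nat_lit 182)) (XT.lf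 (nat_lit 0) (nat_lit 464236176391) (nat_lit 152) (nat_lit 489219286773) (nat_lit 0) (nat_lit 462919219563) (nat_lit 1) (nat_lit 5) (nat_lit 3) (nat_lit 4) (nat_lit 1) (nat_lit 4) (nat_lit 330) (nat_lit 209) (nat_lit 181))))) (XT.nd (nat_lit 234) (nat_lit 0) (nat_lit 0) (XT.nd (nat_lit 78) (nat_lit 0) (nat_lit 0) (XT.lf (nat_lit 0) (nat_lit 501864551256) (nat_lit 152) (nat_lit 527235427510) (nat_lit 0) (nat_lit 500534804209) (nat_lit 1) (nat_lit 5) (nat_lit 3) (nat_lit 4) (nat_lit 1) (nat_lit 4) (nat_lit 331) (nat_lit 209) (nat_lit 180)) (XT.nd (nat_lit 78) (nat_lit 0) (nat_lit 0) (XT.lf (nat_lit 0) (nat_lit 542494968064) (nat_lit 152) (nat_lit 568308019183) (nat_lit 0) (nat_lit 541153378222) (nat_lit 1) (nat_lit 5) (nat_lit 3) (nat_lit 4) (nat_lit 1) (nat_lit 4) (nat_lit 332) (nat_lit 209) (nat_lit 179)) (XT.lf (nat_lit 0) (nat_lit 586368199656) (nat_lit 152) (nat_lit 612680454928)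 (nat_lit 0) (nat_lit 585015644263) (nat_lit 1) (nat_lit 5) (nat_lit 3) (nat_lit 4) (nat_lit 1) (nat_lit 4) (nat_lit 333) (nat_lit 209) (nat_lit 178)))) (XT.nd (nat_lit 78) (nat_lit 0) (nat_lit 0) (XT.lf (nat_lit 0) (nat_lit 633744235552) (nat_lit 152) (nat_lit 660615682512) (nat_lit 0) (nat_lit 632381526872) (nat_lit 1) (nat_lit 5) (nat_lit 3) (nat_lit 4) (nat_lit 1) (nat_lit 4) (nat_lit 334) (nat_lit 209) (nat_lit 177)) (XT.nd (nat_lit 78) (nat_lit 0) (nat_lit 0) (XT.lf (nat_lit 0) (nat_lit 684903822632) (nat_lit 152) (nat_lit 712397762544) (nat_lit 0) (nat_lit 683531712759) (nat_lit 1) (nat_lit 5) (nat_lit 3) (nat_lit 4) (nat_lit 1) (nat_lit 4) (nat_lit 335) (nat_lit 209) (nat_lit 176)) (XT.lf (nat_lit 0) (nat_lit 740150128820) (nat_lit 152) (nat_lit 768333551793) (nat_lit 0) (nat_lit 738769314139) (nat_lit 1) (nat_lit 5) (nat_lit 3) (nat_lit 4) (nat_lit 1) (nat_lit 4) (nat_lit 336)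 (nat_lit 209) (nat_lit 175)))))) (XT.nd (nat_lit 34944) (nat_lit 0) (nat_lit 0) (XT.nd (nat_lit 34710) (nat_lit 0) (nat_lit 0) (XT.nd (nat_lit 78) (nat_lit 0) (nat_lit 0) (XT.lf (nat_lit 0) (nat_lit 799810539632) (nat_lit 152) (nat_lit 828754521603) (nat_lit 0) (nat_lit 798421664944) (nat_lit 1) (nat_lit 5) (nat_lit 3) (nat_lit 4) (nat_lit 1) (nat_lit 4) (nat_lit 337) (nat_lit 209) (nat_lit 174)) (XT.nd (nat_lit 34554) (nat_lit 0) (nat_lit 0) (XT.lf (nat_lit 0) (nat_lit 864238598245) (nat_lit 152) (nat_lit 894018722166) (nat_lit 0) (nat_lit 862842260588) (nat_lit 1) (nat_lit 5) (nat_lit 3) (nat_lit 4) (nat_lit 1) (nat_lit 4) (nat_lit 338) (nat_lit 209) (nat_lit 173)) (XT.lf (nat_lit 0) (nat_lit 17425301629) (nat_lit 152) (nat_lit 36049332427) (nat_lit 0) (nat_lit 17425301629) (nat_lit 1) (nat_lit 5) (nat_lit 3) (nat_lit 4) (nat_lit 1) (nat_lit 4) (nat_lit 300) (nat_lit 210) (nat_lit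 210)))) (XT.nd (nat_lit 78) (nat_lit 0) (nat_lit 0) (XT.lf (nat_lit 0) (nat_lit 39082275833) (nat_lit 152) (nat_lit 74969638897) (nat_lit 0) (nat_lit 38963105851) (nat_lit 1) (nat_lit 5) (nat_lit 3) (nat_lit 4) (nat_lit 1) (nat_lit 4) (nat_lit 301) (nat_lit 210) (nat_lit 209)) (XT.nd (nat_lit 78) (nat_lit 0) (nat_lit 0) (XT.lf (nat_lit 0) (nat_lit 43575819251) (nat_lit 152) (nat_lit 78211537742) (nat_lit 0) (nat_lit 43346306693) (nat_lit 1) (nat_lit 5) (nat_lit 3) (nat_lit 4) (nat_lit 1) (nat_lit 4) (nat_lit 302) (nat_lit 210) (nat_lit 208)) (XT.lf (nat_lit 0) (nat_lit 48357861917) (nat_lit 152) (nat_lit 81843572641) (nat_lit 0) (nat_lit 48026180307) (nat_lit 1) (nat_lit 5) (nat_lit 3) (nat_lit 4) (nat_lit 1) (nat_lit 4) (nat_lit 303) (nat_lit 210) (nat_lit 207))))) (XT.nd (nat_lit 234) (nat_lit 0) (nat_lit 0) (XT.nd (nat_lit 78) (nat_lit 0) (nat_lit 0) (XT.lf (nat_lit 0) (nat_lit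 53456741862) (nat_lit 152) (nat_lit 85887266764) (nat_lit 0) (nat_lit 53030459277) (nat_lit 1) (nat_lit 5) (nat_lit 3) (nat_lit 4) (nat_lit 1) (nat_lit 4) (nat_lit 304) (nat_lit 210) (nat_lit 206)) (XT.nd (nat_lit 78) (nat_lit 0) (nat_lit 0) (XT.lf (nat_lit 0) (nat_lit 58902674670) (nat_lit 152) (nat_lit 90366582742) (nat_lit 0) (nat_lit 58388798590) (nat_lit 1) (nat_lit 5) (nat_lit 3) (nat_lit 4) (nat_lit 1) (nat_lit 4) (nat_lit 305) (nat_lit 210) (nat_lit 205)) (XT.lf (nat_lit 0) (nat_lit 64727932535) (nat_lit 152) (nat_lit 95308064671) (nat_lit 0) (nat_lit 64132951369) (nat_lit 1) (nat_lit 5) (nat_lit 3) (nat_lit 4) (nat_lit 1) (nat_lit 4) (nat_lit 306) (nat_lit 210) (nat_lit 204)))) (XT.nd (nat_lit 156) (nat_lit 0) (nat_lit 0) (XT.nd (nat_lit 78) (nat_lit 0) (nat_lit 0) (XT.lf (nat_lit 0) (nat_lit 70967035506) (nat_lit 152) (nat_lit 100740995405) (nat_lit 0) (nat_lit 70296957036)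 (nat_lit 1) (nat_lit 5) (nat_lit 3) (nat_lit 4) (nat_lit 1) (nat_lit 4) (nat_lit 307) (nat_lit 210) (nat_lit 203)) (XT.lf (nat_lit 0) (nat_lit 77656956042) (nat_lit 152) (nat_lit 106697570092) (nat_lit 0) (nat_lit 76917343032) (nat_lit 1) (nat_lit 5) (nat_lit 3) (nat_lit 4) (nat_lit 1) (nat_lit 4) (nat_lit 308) (nat_lit 210) (nat_lit 202))) (XT.nd (nat_lit 78) (nat_lit 0) (nat_lit 0) (XT.lf (nat_lit 0) (nat_lit 84837338119) (nat_lit 152) (nat_lit 113213086949) (nat_lit 0) (nat_lit 84033341276) (nat_lit 1) (nat_lit 5) (nat_lit 3) (nat_lit 4) (nat_lit 1) (nat_lit 4) (nat_lit 309) (nat_lit 210) (nat_lit 201)) (XT.lf (nat_lit 0) (nat_lit 92550732149) (nat_lit 152) (nat_lit 120326156449) (nat_lit 0) (nat_lit 91687120644) (nat_lit 1) (nat_lit 5) (nat_lit 3) (nat_lit 4) (nat_lit 1) (nat_lit 4) (nat_lit 310) (nat_lit 210) (nat_lit 200))))))))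
noncomputable def xc8 : XT := (XT.nd (nat_lit 1872) (nat_lit 0) (nat_lit 0) (XT.nd (nat_lit 936) (nat_lit 0) (nat_lit 0) (XT.nd (nat_lit 468) (nat_lit 0) (nat_lit 0) (XT.nd (nat_lit 234) (nat_lit 0) (nat_lit 0) (XT.nd (nat_lit 78) (nat_lit 0) (nat_lit 0) (XT.lf (nat_lit 0) (nat_lit 100842847132) (nat_lit 152) (nat_lit 128078930114) (nat_lit 0) (nat_lit 99924036868) (nat_lit 1) (nat_lit 5) (nat_lit 3) (nat_lit 4) (nat_lit 1) (nat_lit 4) (nat_lit 311) (nat_lit 210) (nat_lit 199)) (XT.nd (nat_lit 78) (nat_lit 0) (nat_lit 0) (XT.lf (nat_lit 0) (nat_lit 109762821528) (nat_lit 152) (nat_lit 136517350306) (nat_lit 0) (nat_lit 108792901302) (nat_lit 1) (nat_lit 5) (nat_lit 3) (nat_lit 4) (nat_lit 1) (nat_lit 4) (nat_lit 312) (nat_lit 210) (nat_lit 198)) (XT.lf (nat_lit 0) (nat_lit 119363514445) (nat_lit 152) (nat_lit 145691422478) (nat_lit 0) (nat_lit 118346270179) (nat_lit 1) (nat_lit 5)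 (nat_lit 3) (nat_lit 4) (nat_lit 1) (nat_lit 4) (nat_lit 313) (nat_lit 210) (nat_lit 197)))) (XT.nd (nat_lit 78) (nat_lit 0) (nat_lit 0) (XT.lf (nat_lit 0) (nat_lit 129701818878) (nat_lit 152) (nat_lit 155655511503) (nat_lit 0) (nat_lit 128640756057) (nat_lit 1) (nat_lit 5) (nat_lit 3) (nat_lit 4) (nat_lit 1) (nat_lit 4) (nat_lit 314) (nat_lit 210) (nat_lit 196)) (XT.nd (nat_lit 78) (nat_lit 0) (nat_lit 0) (XT.lf (nat_lit 0) (nat_lit 140838998853) (nat_lit 152) (nat_lit 166468663833) (nat_lit 0) (nat_lit 139737363296) (nat_lit 1) (nat_lit 5) (nat_lit 3) (nat_lit 4) (nat_lit 1) (nat_lit 4) (nat_lit 315) (nat_lit 210) (nat_lit 195)) (XT.lf (nat_lit 0) (nat_lit 152841052474) (nat_lit 152) (nat_lit 178194957409) (nat_lit 0) (nat_lit 151701849568) (nat_lit 1) (nat_lit 5) (nat_lit 3) (nat_lit 4) (nat_lit 1) (nat_lit 4) (nat_lit 316) (nat_lit 210) (nat_lit 194))))) (XT.nd (nat_lit 234) (nat_lit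 0) (nat_lit 0) (XT.nd (nat_lit 78) (nat_lit 0) (nat_lit 0) (XT.lf (nat_lit 0) (nat_lit 165779103021) (nat_lit 152) (nat_lit 190903881379) (nat_lit 0) (nat_lit 164605115533) (nat_lit 1) (nat_lit 5) (nat_lit 3) (nat_lit 4) (nat_lit 1) (nat_lit 4) (nat_lit 317) (nat_lit 210) (nat_lit 193)) (XT.nd (nat_lit 78) (nat_lit 0) (nat_lit 0) (XT.lf (nat_lit 0) (nat_lit 179729820424) (nat_lit 152) (nat_lit 204670747883) (nat_lit 0) (nat_lit 178523624989) (nat_lit 1) (nat_lit 5) (nat_lit 3) (nat_lit 4) (nat_lit 1) (nat_lit 4) (nat_lit 318) (nat_lit 210) (nat_lit 192)) (XT.lf (nat_lit 0) (nat_lit 194775875599) (nat_lit 152) (nat_lit 219577138352) (nat_lit 0) (nat_lit 193539857993) (nat_lit 1) (nat_lit 5) (nat_lit 3) (nat_lit 4) (nat_lit 1) (nat_lit 4) (nat_lit 319) (nat_lit 210) (nat_lit 191)))) (XT.nd (nat_lit 78) (nat_lit 0) (nat_lit 0) (XT.lf (nat_lit 0) (nat_lit 211006430357) (nat_lit 152) (nat_lit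 235711386954) (nat_lit 0) (nat_lit 209742799628) (nat_lit 1) (nat_lit 5) (nat_lit 3) (nat_lit 4) (nat_lit 1) (nat_lit 4) (nat_lit 320) (nat_lit 210) (nat_lit 190)) (XT.nd (nat_lit 78) (nat_lit 0) (nat_lit 0) (XT.lf (nat_lit 0) (nat_lit 228517665762) (nat_lit 152) (nat_lit 253169104049) (nat_lit 0) (nat_lit 227228467327) (nat_lit 1) (nat_lit 5) (nat_lit 3) (nat_lit 4) (nat_lit 1) (nat_lit 4) (nat_lit 321) (nat_lit 210) (nat_lit 189)) (XT.lf (nat_lit 0) (nat_lit 247413352098) (nat_lit 152) (nat_lit 272053742777) (nat_lit 0) (nat_lit 246100479861) (nat_lit 1) (nat_lit 5) (nat_lit 3) (nat_lit 4) (nat_lit 1) (nat_lit 4) (nat_lit 322) (nat_lit 210) (nat_lit 188)))))) (XT.nd (nat_lit 468) (nat_lit 0) (nat_lit 0) (XT.nd (nat_lit 234) (nat_lit 0) (nat_lit 0) (XT.nd (nat_lit 78) (nat_lit 0) (nat_lit 0) (XT.lf (nat_lit 0) (nat_lit 267805463803) (nat_lit 152) (nat_lit 292477212107) (nat_lit 0)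 (nat_lit 266470671379) (nat_lit 1) (nat_lit 5) (nat_lit 3) (nat_lit 4) (nat_lit 1) (nat_lit 4) (nat_lit 323) (nat_lit 210) (nat_lit 187)) (XT.nd (nat_lit 78) (nat_lit 0) (nat_lit 0) (XT.lf (nat_lit 0) (nat_lit 289814843019) (nat_lit 152) (nat_lit 314560540006) (nat_lit 0) (nat_lit 288459754126) (nat_lit 1) (nat_lit 5) (nat_lit 3) (nat_lit 4) (nat_lit 1) (nat_lit 4) (nat_lit 324) (nat_lit 210) (nat_lit 186)) (XT.lf (nat_lit 0) (nat_lit 313571915698) (nat_lit 152) (nat_lit 338434590638) (nat_lit 0) (nat_lit 312198033778) (nat_lit 1) (nat_lit 5) (nat_lit 3) (nat_lit 4) (nat_lit 1) (nat_lit 4) (nat_lit 325) (nat_lit 210) (nat_lit 185)))) (XT.nd (nat_lit 78) (nat_lit 0) (nat_lit 0) (XT.lf (nat_lit 0) (nat_lit 339217464494) (nat_lit 152) (nat_lit 364240839861) (nat_lit 0) (nat_lit 337826181622) (nat_lit 1) (nat_lit 5) (nat_lit 3) (nat_lit 4) (nat_lit 1) (nat_lit 4) (nat_lit 326) (nat_lit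 210) (nat_lit 184)) (XT.nd (nat_lit 78) (nat_lit 0) (nat_lit 0) (XT.lf (nat_lit 0) (nat_lit 366903463027) (nat_lit 152) (nat_lit 392132213595) (nat_lit 0) (nat_lit 365496068163) (nat_lit 1) (nat_lit 5) (nat_lit 3) (nat_lit 4) (nat_lit 1) (nat_lit 4) (nat_lit 327) (nat_lit 210) (nat_lit 183)) (XT.lf (nat_lit 0) (nat_lit 396793976475) (nat_lit 152) (nat_lit 422273994054) (nat_lit 0) (nat_lit 395371663101) (nat_lit 1) (nat_lit 5) (nat_lit 3) (nat_lit 4) (nat_lit 1) (nat_lit 4) (nat_lit 328) (nat_lit 210) (nat_lit 182))))) (XT.nd (nat_lit 234) (nat_lit 0) (nat_lit 0) (XT.nd (nat_lit 78) (nat_lit 0) (nat_lit 0) (XT.lf (nat_lit 0) (nat_lit 429066133807) (nat_lit 152) (nat_lit 454844799197) (nat_lit 0) (nat_lit 427630006996) (nat_lit 1) (nat_lit 5) (nat_lit 3) (nat_lit 4) (nat_lit 1) (nat_lit 4) (nat_lit 329) (nat_lit 210) (nat_lit 181)) (XT.nd (nat_lit 78) (nat_lit 0) (nat_lit 0) (XT.lf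 (nat_lit 0) (nat_lit 463911177436) (nat_lit 152) (nat_lit 490037641203) (nat_lit 0) (nat_lit 462462260407) (nat_lit 1) (nat_lit 5) (nat_lit 3) (nat_lit 4) (nat_lit 1) (nat_lit 4) (nat_lit 330) (nat_lit 210) (nat_lit 180)) (XT.lf (nat_lit 0) (nat_lit 501535596509) (nat_lit 152) (nat_lit 528061070247) (nat_lit 0) (nat_lit 500074836685) (nat_lit 1) (nat_lit 5) (nat_lit 3) (nat_lit 4) (nat_lit 1) (nat_lit 4) (nat_lit 331) (nat_lit 210) (nat_lit 179)))) (XT.nd (nat_lit 78) (nat_lit 0) (nat_lit 0) (XT.lf (nat_lit 0) (nat_lit 542162350548) (nat_lit 152) (nat_lit 569140410351) (nat_lit 0) (nat_lit 540690625173) (nat_lit 1) (nat_lit 5) (nat_lit 3) (nat_lit 4) (nat_lit 1) (nat_lit 4) (nat_lit 332) (nat_lit 210) (nat_lit 178)) (XT.nd (nat_lit 78) (nat_lit 0) (nat_lit 0) (XT.lf (nat_lit 0) (nat_lit 586032190686) (nat_lit 152) (nat_lit 613519094644) (nat_lit 0) (nat_lit 584550312023) (nat_lit 1)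 (nat_lit 5) (nat_lit 3) (nat_lit 4) (nat_lit 1) (nat_lit 4) (nat_lit 333) (nat_lit 210) (nat_lit 177)) (XT.lf (nat_lit 0) (nat_lit 633405086348) (nat_lit 152) (nat_lit 661460107921) (nat_lit 0) (nat_lit 631913806493) (nat_lit 1) (nat_lit 5) (nat_lit 3) (nat_lit 4) (nat_lit 1) (nat_lit 4) (nat_lit 334) (nat_lit 210) (nat_lit 176))))))) (XT.nd (nat_lit 35256) (nat_lit 0) (nat_lit 0) (XT.nd (nat_lit 34788) (nat_lit 0) (nat_lit 0) (XT.nd (nat_lit 234) (nat_lit 0) (nat_lit 0) (XT.nd (nat_lit 78) (nat_lit 0) (nat_lit 0) (XT.lf (nat_lit 0) (nat_lit 684561765803) (nat_lit 152) (nat_lit 713247545075) (nat_lit 0) (nat_lit 683061781140) (nat_lit 1) (nat_lit 5) (nat_lit 3) (nat_lit 4) (nat_lit 1) (nat_lit 4) (nat_lit 335) (nat_lit 210) (nat_lit 175)) (XT.nd (nat_lit 78) (nat_lit 0) (nat_lit 0) (XT.lf (nat_lit 0) (nat_lit 739805379746) (nat_lit 152) (nat_lit 769188294623) (nat_lit 0) (nat_lit 738297335075)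 (nat_lit 1) (nat_lit 5) (nat_lit 3) (nat_lit 4) (nat_lit 1) (nat_lit 4) (nat_lit 336) (nat_lit 210) (nat_lit 174)) (XT.lf (nat_lit 0) (nat_lit 799463297739) (nat_lit 152) (nat_lit 829613857303) (nat_lit 0) (nat_lit 797947790099) (nat_lit 1) (nat_lit 5) (nat_lit 3) (nat_lit 4) (nat_lit 1) (nat_lit 4) (nat_lit 337) (nat_lit 210) (nat_lit 173)))) (XT.nd (nat_lit 34398) (nat_lit 0) (nat_lit 0) (XT.lf (nat_lit 0) (nat_lit 863889048186) (nat_lit 152) (nat_lit 894882310522) (nat_lit 0) (nat_lit 862366630389) (nat_lit 1) (nat_lit 5) (nat_lit 3) (nat_lit 4) (nat_lit 1) (nat_lit 4) (nat_lit 338) (nat_lit 210) (nat_lit 172)) (XT.nd (nat_lit 78) (nat_lit 0) (nat_lit 0) (XT.lf (nat_lit 0) (nat_lit 13622830679) (nat_lit 152) (nat_lit 33662164402) (nat_lit 0) (nat_lit 13622830679) (nat_lit 1) (nat_lit 5) (nat_lit 3) (nat_lit 4) (nat_lit 1) (nat_lit 4) (nat_lit 298) (nat_lit 211) (nat_lit 211)) (XT.lf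 (nat_lit 0) (nat_lit 30984428528) (nat_lit 152) (nat_lit 69581602433) (nat_lit 0) (nat_lit 30855724947) (nat_lit 1) (nat_lit 5) (nat_lit 3) (nat_lit 4) (nat_lit 1) (nat_lit 4) (nat_lit 299) (nat_lit 211) (nat_lit 210))))) (XT.nd (nat_lit 234) (nat_lit 0) (nat_lit 0) (XT.nd (nat_lit 78) (nat_lit 0) (nat_lit 0) (XT.lf (nat_lit 0) (nat_lit 34939501069) (nat_lit 152) (nat_lit 72172004579) (nat_lit 0) (nat_lit 34691627506) (nat_lit 1) (nat_lit 5) (nat_lit 3) (nat_lit 4) (nat_lit 1) (nat_lit 4) (nat_lit 300) (nat_lit 211) (nat_lit 209)) (XT.nd (nat_lit 78) (nat_lit 0) (nat_lit 0) (XT.lf (nat_lit 0) (nat_lit 39134316451) (nat_lit 152) (nat_lit 75110885775) (nat_lit 0) (nat_lit 38776100311) (nat_lit 1) (nat_lit 5) (nat_lit 3) (nat_lit 4) (nat_lit 1) (nat_lit 4) (nat_lit 301) (nat_lit 211) (nat_lit 208)) (XT.lf (nat_lit 0) (nat_lit 43593732837) (nat_lit 152) (nat_lit 78415661614) (nat_lit 0)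 (nat_lit 43133347646) (nat_lit 1) (nat_lit 5) (nat_lit 3) (nat_lit 4) (nat_lit 1) (nat_lit 4) (nat_lit 302) (nat_lit 211) (nat_lit 207)))) (XT.nd (nat_lit 78) (nat_lit 0) (nat_lit 0) (XT.lf (nat_lit 0) (nat_lit 48344176400) (nat_lit 152) (nat_lit 82105915951) (nat_lit 0) (nat_lit 47789190234) (nat_lit 1) (nat_lit 5) (nat_lit 3) (nat_lit 4) (nat_lit 1) (nat_lit 4) (nat_lit 303) (nat_lit 211) (nat_lit 206)) (XT.nd (nat_lit 78) (nat_lit 0) (nat_lit 0) (XT.lf (nat_lit 0) (nat_lit 53413797915) (nat_lit 152) (nat_lit 86203516961) (nat_lit 0) (nat_lit 52771218255) (nat_lit 1) (nat_lit 5) (nat_lit 3) (nat_lit 4) (nat_lit 1) (nat_lit 4) (nat_lit 304) (nat_lit 211) (nat_lit 205)) (XT.lf (nat_lit 0) (nat_lit 58832639585) (nat_lit 152) (nat_lit 90732746724) (nat_lit 0) (nat_lit 58108954838) (nat_lit 1) (nat_lit 5) (nat_lit 3) (nat_lit 4) (nat_lit 1) (nat_lit 4) (nat_lit 305) (nat_lit 211) (nat_lit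 204)))))) (XT.nd (nat_lit 468) (nat_lit 0) (nat_lit 0) (XT.nd (nat_lit 234) (nat_lit 0) (nat_lit 0) (XT.nd (nat_lit 78) (nat_lit 0) (nat_lit 0) (XT.lf (nat_lit 0) (nat_lit 64632813064) (nat_lit 152) (nat_lit 95720445120) (nat_lit 0) (nat_lit 63834031013) (nat_lit 1) (nat_lit 5) (nat_lit 3) (nat_lit 4) (nat_lit 1) (nat_lit 4) (nat_lit 306) (nat_lit 211) (nat_lit 203)) (XT.nd (nat_lit 78) (nat_lit 0) (nat_lit 0) (XT.lf (nat_lit 0) (nat_lit 70848689750) (nat_lit 152) (nat_lit 101196168880) (nat_lit 0) (nat_lit 69980373159) (nat_lit 1) (nat_lit 5) (nat_lit 3) (nat_lit 4) (nat_lit 1) (nat_lit 4) (nat_lit 307) (nat_lit 211) (nat_lit 202)) (XT.lf (nat_lit 0) (nat_lit 77517104469) (nat_lit 152) (nat_lit 107192366738) (nat_lit 0) (nat_lit 76584404044) (nat_lit 1) (nat_lit 5) (nat_lit 3) (nat_lit 4) (nat_lit 1) (nat_lit 4) (nat_lit 308) (nat_lit 211) (nat_lit 201)))) (XT.nd (nat_lit 78) (nat_lit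 0) (nat_lit 0) (XT.lf (nat_lit 0) (nat_lit 84677573750) (nat_lit 152) (nat_lit 113744571717) (nat_lit 0) (nat_lit 83685258665) (nat_lit 1) (nat_lit 5) (nat_lit 3) (nat_lit 4) (nat_lit 1) (nat_lit 4) (nat_lit 309) (nat_lit 211) (nat_lit 200)) (XT.nd (nat_lit 78) (nat_lit 0) (nat_lit 0) (XT.lf (nat_lit 0) (nat_lit 92372530006) (nat_lit 152) (nat_lit 120891611700) (nat_lit 0) (nat_lit 91325016162) (nat_lit 1) (nat_lit 5) (nat_lit 3) (nat_lit 4) (nat_lit 1) (nat_lit 4) (nat_lit 310) (nat_lit 211) (nat_lit 199)) (XT.lf (nat_lit 0) (nat_lit 100647572977) (nat_lit 152) (nat_lit 128675839516) (nat_lit 0) (nat_lit 99548949170) (nat_lit 1) (nat_lit 5) (nat_lit 3) (nat_lit 4) (nat_lit 1) (nat_lit 4) (nat_lit 311) (nat_lit 211) (nat_lit 198))))) (XT.nd (nat_lit 234) (nat_lit 0) (nat_lit 0) (XT.nd (nat_lit 78) (nat_lit 0) (nat_lit 0) (XT.lf (nat_lit 0) (nat_lit 109551739955) (nat_lit 152) (nat_lit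 137143383922) (nat_lit 0) (nat_lit 108405792108) (nat_lit 1) (nat_lit 5) (nat_lit 3) (nat_lit 4) (nat_lit 1) (nat_lit 4) (nat_lit 312) (nat_lit 211) (nat_lit 197)) (XT.nd (nat_lit 78) (nat_lit 0) (nat_lit 0) (XT.lf (nat_lit 0) (nat_lit 119137796373) (nat_lit 152) (nat_lit 146344422959) (nat_lit 0) (nat_lit 117948029971) (nat_lit 1) (nat_lit 5) (nat_lit 3) (nat_lit 4) (nat_lit 1) (nat_lit 4) (nat_lit 313) (nat_lit 211) (nat_lit 196)) (XT.lf (nat_lit 0) (nat_lit 129462548493) (nat_lit 152) (nat_lit 156333481302) (nat_lit 0) (nat_lit 128232209354) (nat_lit 1) (nat_lit 5) (nat_lit 3) (nat_lit 4) (nat_lit 1) (nat_lit 4) (nat_lit 314) (nat_lit 211) (nat_lit 195)))) (XT.nd (nat_lit 78) (nat_lit 0) (nat_lit 0) (XT.lf (nat_lit 0) (nat_lit 140587180029) (nat_lit 152) (nat_lit 167169753373) (nat_lit 0) (nat_lit 139319273542) (nat_lit 1) (nat_lit 5) (nat_lit 3) (nat_lit 4) (nat_lit 1) (nat_lit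 4) (nat_lit 315) (nat_lit 211) (nat_lit 194)) (XT.nd (nat_lit 78) (nat_lit 0) (nat_lit 0) (XT.lf (nat_lit 0) (nat_lit 152577614725) (nat_lit 152) (nat_lit 178917454116) (nat_lit 0) (nat_lit 151274923656) (nat_lit 1) (nat_lit 5) (nat_lit 3) (nat_lit 4) (nat_lit 1) (nat_lit 4) (nat_lit 316) (nat_lit 211) (nat_lit 193)) (XT.lf (nat_lit 0) (nat_lit 165504907008) (nat_lit 152) (nat_lit 191646199536) (nat_lit 0) (nat_lit 164170007993) (nat_lit 1) (nat_lit 5) (nat_lit 3) (nat_lit 4) (nat_lit 1) (nat_lit 4) (nat_lit 317) (nat_lit 211) (nat_lit 192))))))))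
noncomputable def xc9 : XT := (XT.nd (nat_lit 36036) (nat_lit 0) (nat_lit 0) (XT.nd (nat_lit 936) (nat_lit 0) (nat_lit 0) (XT.nd (nat_lit 468) (nat_lit 0) (nat_lit 0) (XT.nd (nat_lit 234) (nat_lit 0) (nat_lit 0) (XT.nd (nat_lit 78) (nat_lit 0) (nat_lit 0) (XT.lf (nat_lit 0) (nat_lit 179445663056) (nat_lit 152) (nat_lit 205431419235) (nat_lit 0) (nat_lit 178080941868) (nat_lit 1) (nat_lit 5) (nat_lit 3) (nat_lit 4) (nat_lit 1) (nat_lit 4) (nat_lit 318) (nat_lit 211) (nat_lit 191)) (XT.nd (nat_lit 78) (nat_lit 0) (nat_lit 0) (XT.lf (nat_lit 0) (nat_lit 194482494755) (nat_lit 152) (nat_lit 220354803404) (nat_lit 0) (nat_lit 193090160445) (nat_lit 1) (nat_lit 5) (nat_lit 3) (nat_lit 4) (nat_lit 1) (nat_lit 4) (nat_lit 319) (nat_lit 211) (nat_lit 190)) (XT.lf (nat_lit 0) (nat_lit 210704509256) (nat_lit 152) (nat_lit 236504786912) (nat_lit 0) (nat_lit 209286607240) (nat_lit 1) (nat_lit 5)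 (nat_lit 3) (nat_lit 4) (nat_lit 1) (nat_lit 4) (nat_lit 320) (nat_lit 211) (nat_lit 189)))) (XT.nd (nat_lit 78) (nat_lit 0) (nat_lit 0) (XT.lf (nat_lit 0) (nat_lit 228207837016) (nat_lit 152) (nat_lit 253977073365) (nat_lit 0) (nat_lit 226766261198) (nat_lit 1) (nat_lit 5) (nat_lit 3) (nat_lit 4) (nat_lit 1) (nat_lit 4) (nat_lit 321) (nat_lit 211) (nat_lit 188)) (XT.nd (nat_lit 78) (nat_lit 0) (nat_lit 0) (XT.lf (nat_lit 0) (nat_lit 247096201458) (nat_lit 152) (nat_lit 272875202239) (nat_lit 0) (nat_lit 245632705454) (nat_lit 1) (nat_lit 5) (nat_lit 3) (nat_lit 4) (nat_lit 1) (nat_lit 4) (nat_lit 322) (nat_lit 211) (nat_lit 187)) (XT.lf (nat_lit 0) (nat_lit 267481533632) (nat_lit 152) (nat_lit 293311162445) (nat_lit 0) (nat_lit 265997741158) (nat_lit 1) (nat_lit 5) (nat_lit 3) (nat_lit 4) (nat_lit 1) (nat_lit 4) (nat_lit 323) (nat_lit 211) (nat_lit 186))))) (XT.nd (nat_lit 234) (nat_lit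 0) (nat_lit 0) (XT.nd (nat_lit 78) (nat_lit 0) (nat_lit 0) (XT.lf (nat_lit 0) (nat_lit 289484635505) (nat_lit 152) (nat_lit 315406055970) (nat_lit 0) (nat_lit 287982050003) (nat_lit 1) (nat_lit 5) (nat_lit 3) (nat_lit 4) (nat_lit 1) (nat_lit 4) (nat_lit 324) (nat_lit 211) (nat_lit 185)) (XT.nd (nat_lit 78) (nat_lit 0) (nat_lit 0) (XT.lf (nat_lit 0) (nat_lit 313235895829) (nat_lit 152) (nat_lit 339290815516) (nat_lit 0) (nat_lit 311715909377) (nat_lit 1) (nat_lit 5) (nat_lit 3) (nat_lit 4) (nat_lit 1) (nat_lit 4) (nat_lit 325) (nat_lit 211) (nat_lit 184)) (XT.lf (nat_lit 0) (nat_lit 338876062814) (nat_lit 152) (nat_lit 365106980399) (nat_lit 0) (nat_lit 337339964370) (nat_lit 1) (nat_lit 5) (nat_lit 3) (nat_lit 4) (nat_lit 1) (nat_lit 4) (nat_lit 326) (nat_lit 211) (nat_lit 183)))) (XT.nd (nat_lit 78) (nat_lit 0) (nat_lit 0) (XT.lf (nat_lit 0) (nat_lit 366557078190) (nat_lit 152) (nat_lit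 393007535299) (nat_lit 0) (nat_lit 365006061235) (nat_lit 1) (nat_lit 5) (nat_lit 3) (nat_lit 4) (nat_lit 1) (nat_lit 4) (nat_lit 327) (nat_lit 211) (nat_lit 182)) (XT.nd (nat_lit 78) (nat_lit 0) (nat_lit 0) (XT.lf (nat_lit 0) (nat_lit 396442977603) (nat_lit 152) (nat_lit 423157816839) (nat_lit 0) (nat_lit 394878147212) (nat_lit 1) (nat_lit 5) (nat_lit 3) (nat_lit 4) (nat_lit 1) (nat_lit 4) (nat_lit 328) (nat_lit 211) (nat_lit 181)) (XT.lf (nat_lit 0) (nat_lit 428710862681) (nat_lit 152) (nat_lit 455736493353) (nat_lit 0) (nat_lit 427133242071) (nat_lit 1) (nat_lit 5) (nat_lit 3) (nat_lit 4) (nat_lit 1) (nat_lit 4) (nat_lit 329) (nat_lit 211) (nat_lit 180)))))) (XT.nd (nat_lit 468) (nat_lit 0) (nat_lit 0) (XT.nd (nat_lit 234) (nat_lit 0) (nat_lit 0) (XT.nd (nat_lit 78) (nat_lit 0) (nat_lit 0) (XT.lf (nat_lit 0) (nat_lit 463551950518) (nat_lit 152) (nat_lit 490936623665) (nat_lit 0)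 (nat_lit 461962487113) (nat_lit 1) (nat_lit 5) (nat_lit 3) (nat_lit 4) (nat_lit 1) (nat_lit 4) (nat_lit 330) (nat_lit 211) (nat_lit 179)) (XT.nd (nat_lit 78) (nat_lit 0) (nat_lit 0) (XT.lf (nat_lit 0) (nat_lit 501172706822) (nat_lit 152) (nat_lit 528966801140) (nat_lit 0) (nat_lit 499572277866) (nat_lit 1) (nat_lit 5) (nat_lit 3) (nat_lit 4) (nat_lit 1) (nat_lit 4) (nat_lit 331) (nat_lit 211) (nat_lit 178)) (XT.lf (nat_lit 0) (nat_lit 541796069407) (nat_lit 152) (nat_lit 570052389793) (nat_lit 0) (nat_lit 540185487163) (nat_lit 1) (nat_lit 5) (nat_lit 3) (nat_lit 4) (nat_lit 1) (nat_lit 4) (nat_lit 332) (nat_lit 211) (nat_lit 177)))) (XT.nd (nat_lit 78) (nat_lit 0) (nat_lit 0) (XT.lf (nat_lit 0) (nat_lit 585662769311) (nat_lit 152) (nat_lit 614436859778) (nat_lit 0) (nat_lit 584042785875) (nat_lit 1) (nat_lit 5) (nat_lit 3) (nat_lit 4) (nat_lit 1) (nat_lit 4) (nat_lit 333) (nat_lit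 211) (nat_lit 176)) (XT.nd (nat_lit 78) (nat_lit 0) (nat_lit 0) (XT.lf (nat_lit 0) (nat_lit 633032757348) (nat_lit 152) (nat_lit 662383230178) (nat_lit 0) (nat_lit 631404069104) (nat_lit 1) (nat_lit 5) (nat_lit 3) (nat_lit 4) (nat_lit 1) (nat_lit 4) (nat_lit 334) (nat_lit 211) (nat_lit 175)) (XT.lf (nat_lit 0) (nat_lit 684186744559) (nat_lit 152) (nat_lit 714175627630) (nat_lit 0) (nat_lit 682549996307) (nat_lit 1) (nat_lit 5) (nat_lit 3) (nat_lit 4) (nat_lit 1) (nat_lit 4) (nat_lit 335) (nat_lit 211) (nat_lit 174))))) (XT.nd (nat_lit 34398) (nat_lit 0) (nat_lit 0) (XT.nd (nat_lit 78) (nat_lit 0) (nat_lit 0) (XT.lf (nat_lit 0) (nat_lit 739427865681) (nat_lit 152) (nat_lit 770120970048) (nat_lit 0) (nat_lit 737783654461) (nat_lit 1) (nat_lit 5) (nat_lit 3) (nat_lit 4) (nat_lit 1) (nat_lit 4) (nat_lit 336) (nat_lit 211) (nat_lit 173)) (XT.nd (nat_lit 78) (nat_lit 0) (nat_lit 0) (XT.lf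 (nat_lit 0) (nat_lit 799083475508) (nat_lit 152) (nat_lit 830550785384) (nat_lit 0) (nat_lit 797432354130) (nat_lit 1) (nat_lit 5) (nat_lit 3) (nat_lit 4) (nat_lit 1) (nat_lit 4) (nat_lit 337) (nat_lit 211) (nat_lit 172)) (XT.lf (nat_lit 0) (nat_lit 863507088765) (nat_lit 152) (nat_lit 895823176249) (nat_lit 0) (nat_lit 861849569093) (nat_lit 1) (nat_lit 5) (nat_lit 3) (nat_lit 4) (nat_lit 1) (nat_lit 4) (nat_lit 338) (nat_lit 211) (nat_lit 171)))) (XT.nd (nat_lit 78) (nat_lit 0) (nat_lit 0) (XT.lf (nat_lit 0) (nat_lit 10257500172) (nat_lit 152) (nat_lit 31836006366) (nat_lit 0) (nat_lit 10257500172) (nat_lit 1) (nat_lit 5) (nat_lit 3) (nat_lit 4) (nat_lit 1) (nat_lit 4) (nat_lit 296) (nat_lit 212) (nat_lit 212)) (XT.nd (nat_lit 78) (nat_lit 0) (nat_lit 0) (XT.lf (nat_lit 0) (nat_lit 23840043773) (nat_lit 152) (nat_lit 65386807260) (nat_lit 0) (nat_lit 23701043906) (nat_lit 1) (nat_lit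 5) (nat_lit 3) (nat_lit 4) (nat_lit 1) (nat_lit 4) (nat_lit 297) (nat_lit 212) (nat_lit 211)) (XT.lf (nat_lit 0) (nat_lit 27341670995) (nat_lit 152) (nat_lit 67403535708) (nat_lit 0) (nat_lit 27073967547) (nat_lit 1) (nat_lit 5) (nat_lit 3) (nat_lit 4) (nat_lit 1) (nat_lit 4) (nat_lit 298) (nat_lit 212) (nat_lit 210))))))) (XT.nd (nat_lit 936) (nat_lit 0) (nat_lit 0) (XT.nd (nat_lit 468) (nat_lit 0) (nat_lit 0) (XT.nd (nat_lit 234) (nat_lit 0) (nat_lit 0) (XT.nd (nat_lit 78) (nat_lit 0) (nat_lit 0) (XT.lf (nat_lit 0) (nat_lit 31040632394) (nat_lit 152) (nat_lit 69734149061) (nat_lit 0) (nat_lit 30653758964) (nat_lit 1) (nat_lit 5) (nat_lit 3) (nat_lit 4) (nat_lit 1) (nat_lit 4) (nat_lit 299) (nat_lit 212) (nat_lit 209)) (XT.nd (nat_lit 78) (nat_lit 0) (nat_lit 0) (XT.lf (nat_lit 0) (nat_lit 34958847742) (nat_lit 152) (nat_lit 72392458360) (nat_lit 0) (nat_lit 34461631735) (nat_lit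 1) (nat_lit 5) (nat_lit 3) (nat_lit 4) (nat_lit 1) (nat_lit 4) (nat_lit 300) (nat_lit 212) (nat_lit 208)) (XT.lf (nat_lit 0) (nat_lit 39119536092) (nat_lit 152) (nat_lit 75394216550) (nat_lit 0) (nat_lit 38520151033) (nat_lit 1) (nat_lit 5) (nat_lit 3) (nat_lit 4) (nat_lit 1) (nat_lit 4) (nat_lit 301) (nat_lit 212) (nat_lit 207)))) (XT.nd (nat_lit 78) (nat_lit 0) (nat_lit 0) (XT.lf (nat_lit 0) (nat_lit 43547353375) (nat_lit 152) (nat_lit 78757211827) (nat_lit 0) (nat_lit 42853367342) (nat_lit 1) (nat_lit 5) (nat_lit 3) (nat_lit 4) (nat_lit 1) (nat_lit 4) (nat_lit 302) (nat_lit 212) (nat_lit 206)) (XT.nd (nat_lit 78) (nat_lit 0) (nat_lit 0) (XT.lf (nat_lit 0) (nat_lit 48268538509) (nat_lit 152) (nat_lit 82501373052) (nat_lit 0) (nat_lit 47486958982) (nat_lit 1) (nat_lit 5) (nat_lit 3) (nat_lit 4) (nat_lit 1) (nat_lit 4) (nat_lit 303) (nat_lit 212) (nat_lit 205)) (XT.lf (nat_lit 0) (nat_lit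 53311068887) (nat_lit 152) (nat_lit 86648887846) (nat_lit 0) (nat_lit 52448384272) (nat_lit 1) (nat_lit 5) (nat_lit 3) (nat_lit 4) (nat_lit 1) (nat_lit 4) (nat_lit 304) (nat_lit 212) (nat_lit 204))))) (XT.nd (nat_lit 234) (nat_lit 0) (nat_lit 0) (XT.nd (nat_lit 78) (nat_lit 0) (nat_lit 0) (XT.lf (nat_lit 0) (nat_lit 58704826170) (nat_lit 152) (nat_lit 91224334077) (nat_lit 0) (nat_lit 57767044252) (nat_lit 1) (nat_lit 5) (nat_lit 3) (nat_lit 4) (nat_lit 1) (nat_lit 4) (nat_lit 305) (nat_lit 212) (nat_lit 203)) (XT.nd (nat_lit 78) (nat_lit 0) (nat_lit 0) (XT.lf (nat_lit 0) (nat_lit 64481773365) (nat_lit 152) (nat_lit 96254825498) (nat_lit 0) (nat_lit 63474456906) (nat_lit 1) (nat_lit 5) (nat_lit 3) (nat_lit 4) (nat_lit 1) (nat_lit 4) (nat_lit 306) (nat_lit 212) (nat_lit 202)) (XT.lf (nat_lit 0) (nat_lit 70676144232) (nat_lit 152) (nat_lit 101770172429) (nat_lit 0) (nat_lit 69604443940)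 (nat_lit 1) (nat_lit 5) (nat_lit 3) (nat_lit 4) (nat_lit 1) (nat_lit 4) (nat_lit 307) (nat_lit 212) (nat_lit 201)))) (XT.nd (nat_lit 78) (nat_lit 0) (nat_lit 0) (XT.lf (nat_lit 0) (nat_lit 77324646155) (nat_lit 152) (nat_lit 107803058409) (nat_lit 0) (nat_lit 76193331203) (nat_lit 1) (nat_lit 5) (nat_lit 3) (nat_lit 4) (nat_lit 1) (nat_lit 4) (nat_lit 308) (nat_lit 212) (nat_lit 200)) (XT.nd (nat_lit 78) (nat_lit 0) (nat_lit 0) (XT.lf (nat_lit 0) (nat_lit 84466677664) (nat_lit 152) (nat_lit 114389233871) (nat_lit 0) (nat_lit 83280163951) (nat_lit 1) (nat_lit 5) (nat_lit 3) (nat_lit 4) (nat_lit 1) (nat_lit 4) (nat_lit 309) (nat_lit 212) (nat_lit 199)) (XT.lf (nat_lit 0) (nat_lit 92144561907) (nat_lit 152) (nat_lit 121567728005) (nat_lit 0) (nat_lit 90906938232) (nat_lit 1) (nat_lit 5) (nat_lit 3) (nat_lit 4) (nat_lit 1) (nat_lit 4) (nat_lit 310) (nat_lit 212) (nat_lit 198)))))) (XT.nd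 (nat_lit 468) (nat_lit 0) (nat_lit 0) (XT.nd (nat_lit 234) (nat_lit 0) (nat_lit 0) (XT.nd (nat_lit 78) (nat_lit 0) (nat_lit 0) (XT.lf (nat_lit 0) (nat_lit 100403797460) (nat_lit 152) (nat_lit 129381080035) (nat_lit 0) (nat_lit 99118849745) (nat_lit 1) (nat_lit 5) (nat_lit 3) (nat_lit 4) (nat_lit 1) (nat_lit 4) (nat_lit 311) (nat_lit 212) (nat_lit 197)) (XT.nd (nat_lit 78) (nat_lit 0) (nat_lit 0) (XT.lf (nat_lit 0) (nat_lit 109293327938) (nat_lit 152) (nat_lit 137875591306) (nat_lit 0) (nat_lit 107964561669) (nat_lit 1) (nat_lit 5) (nat_lit 3) (nat_lit 4) (nat_lit 1) (nat_lit 4) (nat_lit 312) (nat_lit 212) (nat_lit 196)) (XT.lf (nat_lit 0) (nat_lit 118865832043) (nat_lit 152) (nat_lit 147101599662) (nat_lit 0) (nat_lit 117496493037) (nat_lit 1) (nat_lit 5) (nat_lit 3) (nat_lit 4) (nat_lit 1) (nat_lit 4) (nat_lit 313) (nat_lit 212) (nat_lit 195)))) (XT.nd (nat_lit 78) (nat_lit 0) (nat_lit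 0) (XT.lf (nat_lit 0) (nat_lit 129178035724) (nat_lit 152) (nat_lit 157113777746) (nat_lit 0) (nat_lit 127771129369) (nat_lit 1) (nat_lit 5) (nat_lit 3) (nat_lit 4) (nat_lit 1) (nat_lit 4) (nat_lit 314) (nat_lit 212) (nat_lit 194)) (XT.nd (nat_lit 78) (nat_lit 0) (nat_lit 0) (XT.lf (nat_lit 0) (nat_lit 140291048335) (nat_lit 152) (nat_lit 167971456983) (nat_lit 0) (nat_lit 138849357399) (nat_lit 1) (nat_lit 5) (nat_lit 3) (nat_lit 4) (nat_lit 1) (nat_lit 4) (nat_lit 315) (nat_lit 212) (nat_lit 193)) (XT.lf (nat_lit 0) (nat_lit 152270724768) (nat_lit 152) (nat_lit 179738979177) (nat_lit 0) (nat_lit 150796825885) (nat_lit 1) (nat_lit 5) (nat_lit 3) (nat_lit 4) (nat_lit 1) (nat_lit 4) (nat_lit 316) (nat_lit 212) (nat_lit 192))))) (XT.nd (nat_lit 234) (nat_lit 0) (nat_lit 0) (XT.nd (nat_lit 78) (nat_lit 0) (nat_lit 0) (XT.lf (nat_lit 0) (nat_lit 165188055696) (nat_lit 152) (nat_lit 192486077791)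 (nat_lit 0) (nat_lit 163684334641) (nat_lit 1) (nat_lit 5) (nat_lit 3) (nat_lit 4) (nat_lit 1) (nat_lit 4) (nat_lit 317) (nat_lit 212) (nat_lit 191)) (XT.nd (nat_lit 78) (nat_lit 0) (nat_lit 0) (XT.lf (nat_lit 0) (nat_lit 179119588266) (nat_lit 152) (nat_lit 206288291189) (nat_lit 0) (nat_lit 177588254089) (nat_lit 1) (nat_lit 5) (nat_lit 3) (nat_lit 4) (nat_lit 1) (nat_lit 4) (nat_lit 318) (nat_lit 212) (nat_lit 190)) (XT.lf (nat_lit 0) (nat_lit 194147879709) (nat_lit 152) (nat_lit 221227410265) (nat_lit 0) (nat_lit 192590977825) (nat_lit 1) (nat_lit 5) (nat_lit 3) (nat_lit 4) (nat_lit 1) (nat_lit 4) (nat_lit 319) (nat_lit 212) (nat_lit 189)))) (XT.nd (nat_lit 156) (nat_lit 0) (nat_lit 0) (XT.nd (nat_lit 78) (nat_lit 0) (nat_lit 0) (XT.lf (nat_lit 0) (nat_lit 210361986565) (nat_lit 152) (nat_lit 237391963131) (nat_lit 0) (nat_lit 208781410880) (nat_lit 1) (nat_lit 5) (nat_lit 3) (nat_lit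 4) (nat_lit 1) (nat_lit 4) (nat_lit 320) (nat_lit 212) (nat_lit 188)) (XT.lf (nat_lit 0) (nat_lit 227857992432) (nat_lit 152) (nat_lit 254877739731) (nat_lit 0) (nat_lit 226255496559) (nat_lit 1) (nat_lit 5) (nat_lit 3) (nat_lit 4) (nat_lit 1) (nat_lit 4) (nat_lit 321) (nat_lit 212) (nat_lit 187))) (XT.nd (nat_lit 78) (nat_lit 0) (nat_lit 0) (XT.lf (nat_lit 0) (nat_lit 246739577343) (nat_lit 152) (nat_lit 273788359481) (nat_lit 0) (nat_lit 245116785002) (nat_lit 1) (nat_lit 5) (nat_lit 3) (nat_lit 4) (nat_lit 1) (nat_lit 4) (nat_lit 322) (nat_lit 212) (nat_lit 186)) (XT.lf (nat_lit 0) (nat_lit 267118632173) (nat_lit 152) (nat_lit 294235885313) (nat_lit 0) (nat_lit 265477046804) (nat_lit 1) (nat_lit 5) (nat_lit 3) (nat_lit 4) (nat_lit 1) (nat_lit 4) (nat_lit 323) (nat_lit 212) (nat_lit 185))))))))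
noncomputable def xc10 : XT := (XT.nd (nat_lit 35880) (nat_lit 0) (nat_lit 0) (XT.nd (nat_lit 936) (nat_lit 0) (nat_lit 0) (XT.nd (nat_lit 468) (nat_lit 0) (nat_lit 0) (XT.nd (nat_lit 234) (nat_lit 0) (nat_lit 0) (XT.nd (nat_lit 78) (nat_lit 0) (nat_lit 0) (XT.lf (nat_lit 0) (nat_lit 289115921691) (nat_lit 152) (nat_lit 316341487751) (nat_lit 0) (nat_lit 287456935371) (nat_lit 1) (nat_lit 5) (nat_lit 3) (nat_lit 4) (nat_lit 1) (nat_lit 4) (nat_lit 324) (nat_lit 212) (nat_lit 184)) (XT.nd (nat_lit 78) (nat_lit 0) (nat_lit 0) (XT.lf (nat_lit 0) (nat_lit 312861800205) (nat_lit 152) (nat_lit 340236162957) (nat_lit 0) (nat_lit 311186701893) (nat_lit 1) (nat_lit 5) (nat_lit 3) (nat_lit 4) (nat_lit 1) (nat_lit 4) (nat_lit 325) (nat_lit 212) (nat_lit 183)) (XT.lf (nat_lit 0) (nat_lit 338496984033) (nat_lit 152) (nat_lit 366061509006) (nat_lit 0) (nat_lit 336806967210) (nat_lit 1) (nat_lit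 5) (nat_lit 3) (nat_lit 4) (nat_lit 1) (nat_lit 4) (nat_lit 326) (nat_lit 212) (nat_lit 182)))) (XT.nd (nat_lit 78) (nat_lit 0) (nat_lit 0) (XT.lf (nat_lit 0) (nat_lit 366173385373) (nat_lit 152) (nat_lit 393970564987) (nat_lit 0) (nat_lit 364469555115) (nat_lit 1) (nat_lit 5) (nat_lit 3) (nat_lit 4) (nat_lit 1) (nat_lit 4) (nat_lit 327) (nat_lit 212) (nat_lit 181)) (XT.nd (nat_lit 78) (nat_lit 0) (nat_lit 0) (XT.lf (nat_lit 0) (nat_lit 396055012532) (nat_lit 152) (nat_lit 424128717897) (nat_lit 0) (nat_lit 394338392055) (nat_lit 1) (nat_lit 5) (nat_lit 3) (nat_lit 4) (nat_lit 1) (nat_lit 4) (nat_lit 328) (nat_lit 212) (nat_lit 180)) (XT.lf (nat_lit 0) (nat_lit 428318941818) (nat_lit 152) (nat_lit 456714682718) (nat_lit 0) (nat_lit 426590478546) (nat_lit 1) (nat_lit 5) (nat_lit 3) (nat_lit 4) (nat_lit 1) (nat_lit 4) (nat_lit 329) (nat_lit 212) (nat_lit 179))))) (XT.nd (nat_lit 234)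 (nat_lit 0) (nat_lit 0) (XT.nd (nat_lit 78) (nat_lit 0) (nat_lit 0) (XT.lf (nat_lit 0) (nat_lit 463156366886) (nat_lit 152) (nat_lit 491921561462) (nat_lit 0) (nat_lit 461416938063) (nat_lit 1) (nat_lit 5) (nat_lit 3) (nat_lit 4) (nat_lit 1) (nat_lit 4) (nat_lit 330) (nat_lit 212) (nat_lit 178)) (XT.nd (nat_lit 78) (nat_lit 0) (nat_lit 0) (XT.lf (nat_lit 0) (nat_lit 500773731737) (nat_lit 152) (nat_lit 529957987485) (nat_lit 0) (nat_lit 499024149626) (nat_lit 1) (nat_lit 5) (nat_lit 3) (nat_lit 4) (nat_lit 1) (nat_lit 4) (nat_lit 331) (nat_lit 212) (nat_lit 177)) (XT.lf (nat_lit 0) (nat_lit 541393954087) (nat_lit 152) (nat_lit 571049361830) (nat_lit 0) (nat_lit 539634970784) (nat_lit 1) (nat_lit 5) (nat_lit 3) (nat_lit 4) (nat_lit 1) (nat_lit 4) (nat_lit 332) (nat_lit 212) (nat_lit 176)))) (XT.nd (nat_lit 78) (nat_lit 0) (nat_lit 0) (XT.lf (nat_lit 0) (nat_lit 585257746367) (nat_lit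 152) (nat_lit 615439188938) (nat_lit 0) (nat_lit 583490058255) (nat_lit 1) (nat_lit 5) (nat_lit 3) (nat_lit 4) (nat_lit 1) (nat_lit 4) (nat_lit 333) (nat_lit 212) (nat_lit 175)) (XT.nd (nat_lit 78) (nat_lit 0) (nat_lit 0) (XT.lf (nat_lit 0) (nat_lit 632625042159) (nat_lit 152) (nat_lit 663390519636) (nat_lit 0) (nat_lit 630849294040) (nat_lit 1) (nat_lit 5) (nat_lit 3) (nat_lit 4) (nat_lit 1) (nat_lit 4) (nat_lit 334) (nat_lit 212) (nat_lit 174)) (XT.lf (nat_lit 0) (nat_lit 683776536550) (nat_lit 152) (nat_lit 715187509958) (nat_lit 0) (nat_lit 681993325462) (nat_lit 1) (nat_lit 5) (nat_lit 3) (nat_lit 4) (nat_lit 1) (nat_lit 4) (nat_lit 335) (nat_lit 212) (nat_lit 173)))))) (XT.nd (nat_lit 34476) (nat_lit 0) (nat_lit 0) (XT.nd (nat_lit 34242) (nat_lit 0) (nat_lit 0) (XT.nd (nat_lit 78) (nat_lit 0) (nat_lit 0) (XT.lf (nat_lit 0) (nat_lit 739015349506) (nat_lit 152) (nat_lit 771137105032)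 (nat_lit 0) (nat_lit 737225228261) (nat_lit 1) (nat_lit 5) (nat_lit 3) (nat_lit 4) (nat_lit 1) (nat_lit 4) (nat_lit 336) (nat_lit 212) (nat_lit 172)) (XT.nd (nat_lit 78) (nat_lit 0) (nat_lit 0) (XT.lf (nat_lit 0) (nat_lit 798668822143) (nat_lit 152) (nat_lit 831570858014) (nat_lit 0) (nat_lit 796872302604) (nat_lit 1) (nat_lit 5) (nat_lit 3) (nat_lit 4) (nat_lit 1) (nat_lit 4) (nat_lit 337) (nat_lit 212) (nat_lit 171)) (XT.lf (nat_lit 0) (nat_lit 863090456518) (nat_lit 152) (nat_lit 896846894846) (nat_lit 0) (nat_lit 861288012633) (nat_lit 1) (nat_lit 5) (nat_lit 3) (nat_lit 4) (nat_lit 1) (nat_lit 4) (nat_lit 338) (nat_lit 212) (nat_lit 170)))) (XT.nd (nat_lit 78) (nat_lit 0) (nat_lit 0) (XT.lf (nat_lit 0) (nat_lit 7258521172) (nat_lit 152) (nat_lit 30508460273) (nat_lit 0) (nat_lit 7258521172) (nat_lit 1) (nat_lit 5) (nat_lit 3) (nat_lit 4) (nat_lit 1) (nat_lit 4) (nat_lit 294) (nat_lit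 213) (nat_lit 213)) (XT.nd (nat_lit 78) (nat_lit 0) (nat_lit 0) (XT.lf (nat_lit 0) (nat_lit 17496956606) (nat_lit 152) (nat_lit 62248990380) (nat_lit 0) (nat_lit 17346836749) (nat_lit 1) (nat_lit 5) (nat_lit 3) (nat_lit 4) (nat_lit 1) (nat_lit 4) (nat_lit 295) (nat_lit 213) (nat_lit 212)) (XT.lf (nat_lit 0) (nat_lit 20618690752) (nat_lit 152) (nat_lit 63757556187) (nat_lit 0) (nat_lit 20329571028) (nat_lit 1) (nat_lit 5) (nat_lit 3) (nat_lit 4) (nat_lit 1) (nat_lit 4) (nat_lit 296) (nat_lit 213) (nat_lit 211))))) (XT.nd (nat_lit 234) (nat_lit 0) (nat_lit 0) (XT.nd (nat_lit 78) (nat_lit 0) (nat_lit 0) (XT.lf (nat_lit 0) (nat_lit 23900743949) (nat_lit 152) (nat_lit 65551557618) (nat_lit 0) (nat_lit 23482920644) (nat_lit 1) (nat_lit 5) (nat_lit 3) (nat_lit 4) (nat_lit 1) (nat_lit 4) (nat_lit 297) (nat_lit 213) (nat_lit 210)) (XT.nd (nat_lit 78) (nat_lit 0) (nat_lit 0) (XT.lf (nat_lit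 0) (nat_lit 27362565402) (nat_lit 152) (nat_lit 67641625792) (nat_lit 0) (nat_lit 26825572115) (nat_lit 1) (nat_lit 5) (nat_lit 3) (nat_lit 4) (nat_lit 1) (nat_lit 4) (nat_lit 298) (nat_lit 213) (nat_lit 209)) (XT.lf (nat_lit 0) (nat_lit 31024669607) (nat_lit 152) (nat_lit 70040146298) (nat_lit 0) (nat_lit 30377333743) (nat_lit 1) (nat_lit 5) (nat_lit 3) (nat_lit 4) (nat_lit 1) (nat_lit 4) (nat_lit 299) (nat_lit 213) (nat_lit 208)))) (XT.nd (nat_lit 78) (nat_lit 0) (nat_lit 0) (XT.lf (nat_lit 0) (nat_lit 34908757923) (nat_lit 152) (nat_lit 72761332591) (nat_lit 0) (nat_lit 34159253008) (nat_lit 1) (nat_lit 5) (nat_lit 3) (nat_lit 4) (nat_lit 1) (nat_lit 4) (nat_lit 300) (nat_lit 213) (nat_lit 207)) (XT.nd (nat_lit 78) (nat_lit 0) (nat_lit 0) (XT.lf (nat_lit 0) (nat_lit 39037847170) (nat_lit 152) (nat_lit 75821310219) (nat_lit 0) (nat_lit 38193741280) (nat_lit 1) (nat_lit 5) (nat_lit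 3) (nat_lit 4) (nat_lit 1) (nat_lit 4) (nat_lit 301) (nat_lit 213) (nat_lit 206)) (XT.lf (nat_lit 0) (nat_lit 43436406024) (nat_lit 152) (nat_lit 79238212383) (nat_lit 0) (nat_lit 42504706640) (nat_lit 1) (nat_lit 5) (nat_lit 3) (nat_lit 4) (nat_lit 1) (nat_lit 4) (nat_lit 302) (nat_lit 213) (nat_lit 205))))))) (XT.nd (nat_lit 936) (nat_lit 0) (nat_lit 0) (XT.nd (nat_lit 468) (nat_lit 0) (nat_lit 0) (XT.nd (nat_lit 234) (nat_lit 0) (nat_lit 0) (XT.nd (nat_lit 78) (nat_lit 0) (nat_lit 0) (XT.lf (nat_lit 0) (nat_lit 48130500020) (nat_lit 152) (nat_lit 83032287392) (nat_lit 0) (nat_lit 47117695548) (nat_lit 1) (nat_lit 5) (nat_lit 3) (nat_lit 4) (nat_lit 1) (nat_lit 4) (nat_lit 303) (nat_lit 213) (nat_lit 204)) (XT.nd (nat_lit 78) (nat_lit 0) (nat_lit 0) (XT.lf (nat_lit 0) (nat_lit 53147946011) (nat_lit 152) (nat_lit 87226018654) (nat_lit 0) (nat_lit 52060044236) (nat_lit 1) (nat_lit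 5) (nat_lit 3) (nat_lit 4) (nat_lit 1) (nat_lit 4) (nat_lit 304) (nat_lit 213) (nat_lit 203)) (XT.lf (nat_lit 0) (nat_lit 58518477010) (nat_lit 152) (nat_lit 91844257910) (nat_lit 0) (nat_lit 57361040695) (nat_lit 1) (nat_lit 5) (nat_lit 3) (nat_lit 4) (nat_lit 1) (nat_lit 4) (nat_lit 305) (nat_lit 213) (nat_lit 202)))) (XT.nd (nat_lit 78) (nat_lit 0) (nat_lit 0) (XT.lf (nat_lit 0) (nat_lit 64273918386) (nat_lit 152) (nat_lit 96914372503) (nat_lit 0) (nat_lit 63052098237) (nat_lit 1) (nat_lit 5) (nat_lit 3) (nat_lit 4) (nat_lit 1) (nat_lit 4) (nat_lit 306) (nat_lit 213) (nat_lit 201)) (XT.nd (nat_lit 78) (nat_lit 0) (nat_lit 0) (XT.lf (nat_lit 0) (nat_lit 70448376458) (nat_lit 152) (nat_lit 102466407556) (nat_lit 0) (nat_lit 69166941649) (nat_lit 1) (nat_lit 5) (nat_lit 3) (nat_lit 4) (nat_lit 1) (nat_lit 4) (nat_lit 307) (nat_lit 213) (nat_lit 200)) (XT.lf (nat_lit 0) (nat_lit 77078440608)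 (nat_lit 152) (nat_lit 108533264018) (nat_lit 0) (nat_lit 75741807039) (nat_lit 1) (nat_lit 5) (nat_lit 3) (nat_lit 4) (nat_lit 1) (nat_lit 4) (nat_lit 308) (nat_lit 213) (nat_lit 199))))) (XT.nd (nat_lit 234) (nat_lit 0) (nat_lit 0) (XT.nd (nat_lit 78) (nat_lit 0) (nat_lit 0) (XT.lf (nat_lit 0) (nat_lit 84203400104) (nat_lit 152) (nat_lit 115150893632) (nat_lit 0) (nat_lit 82815656573) (nat_lit 1) (nat_lit 5) (nat_lit 3) (nat_lit 4) (nat_lit 1) (nat_lit 4) (nat_lit 309) (nat_lit 213) (nat_lit 198)) (XT.nd (nat_lit 78) (nat_lit 0) (nat_lit 0) (XT.lf (nat_lit 0) (nat_lit 91865476929) (nat_lit 152) (nat_lit 122358511980) (nat_lit 0) (nat_lit 90430409358) (nat_lit 1) (nat_lit 5) (nat_lit 3) (nat_lit 4) (nat_lit 1) (nat_lit 4) (nat_lit 310) (nat_lit 213) (nat_lit 197)) (XT.lf (nat_lit 0) (nat_lit 100110075983) (nat_lit 152) (nat_lit 130198830874) (nat_lit 0) (nat_lit 98631189856) (nat_lit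 1) (nat_lit 5) (nat_lit 3) (nat_lit 4) (nat_lit 1) (nat_lit 4) (nat_lit 311) (nat_lit 213) (nat_lit 196)))) (XT.nd (nat_lit 78) (nat_lit 0) (nat_lit 0) (XT.lf (nat_lit 0) (nat_lit 108986054148) (nat_lit 152) (nat_lit 138718311464) (nat_lit 0) (nat_lit 107466595285) (nat_lit 1) (nat_lit 5) (nat_lit 3) (nat_lit 4) (nat_lit 1) (nat_lit 4) (nat_lit 312) (nat_lit 213) (nat_lit 195)) (XT.nd (nat_lit 78) (nat_lit 0) (nat_lit 0) (XT.lf (nat_lit 0) (nat_lit 118546009814) (nat_lit 152) (nat_lit 147967439560) (nat_lit 0) (nat_lit 116988983603) (nat_lit 1) (nat_lit 5) (nat_lit 3) (nat_lit 4) (nat_lit 1) (nat_lit 4) (nat_lit 313) (nat_lit 213) (nat_lit 194)) (XT.lf (nat_lit 0) (nat_lit 128846594570) (nat_lit 152) (nat_lit 158001024811) (nat_lit 0) (nat_lit 127254783777) (nat_lit 1) (nat_lit 5) (nat_lit 3) (nat_lit 4) (nat_lit 1) (nat_lit 4) (nat_lit 314) (nat_lit 213) (nat_lit 193)))))) (XT.nd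 (nat_lit 468) (nat_lit 0) (nat_lit 0) (XT.nd (nat_lit 234) (nat_lit 0) (nat_lit 0) (XT.nd (nat_lit 78) (nat_lit 0) (nat_lit 0) (XT.lf (nat_lit 0) (nat_lit 139948848918) (nat_lit 152) (nat_lit 168878525499) (nat_lit 0) (nat_lit 138324830179) (nat_lit 1) (nat_lit 5) (nat_lit 3) (nat_lit 4) (nat_lit 1) (nat_lit 4) (nat_lit 315) (nat_lit 213) (nat_lit 192)) (XT.nd (nat_lit 78) (nat_lit 0) (nat_lit 0) (XT.lf (nat_lit 0) (nat_lit 151918563995) (nat_lit 152) (nat_lit 180664400888) (nat_lit 0) (nat_lit 150264723084) (nat_lit 1) (nat_lit 5) (nat_lit 3) (nat_lit 4) (nat_lit 1) (nat_lit 4) (nat_lit 316) (nat_lit 213) (nat_lit 191)) (XT.lf (nat_lit 0) (nat_lit 164826671446) (nat_lit 152) (nat_lit 193428493201) (nat_lit 0) (nat_lit 163145217412) (nat_lit 1) (nat_lit 5) (nat_lit 3) (nat_lit 4) (nat_lit 1) (nat_lit 4) (nat_lit 317) (nat_lit 213) (nat_lit 190)))) (XT.nd (nat_lit 78) (nat_lit 0) (nat_lit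 0) (XT.lf (nat_lit 0) (nat_lit 178749663760) (nat_lit 152) (nat_lit 207246441506) (nat_lit 0) (nat_lit 177042642020) (nat_lit 1) (nat_lit 5) (nat_lit 3) (nat_lit 4) (nat_lit 1) (nat_lit 4) (nat_lit 318) (nat_lit 213) (nat_lit 189)) (XT.nd (nat_lit 78) (nat_lit 0) (nat_lit 0) (XT.lf (nat_lit 0) (nat_lit 193770047558) (nat_lit 152) (nat_lit 222200129940) (nat_lit 0) (nat_lit 192039352016) (nat_lit 1) (nat_lit 5) (nat_lit 3) (nat_lit 4) (nat_lit 1) (nat_lit 4) (nat_lit 319) (nat_lit 213) (nat_lit 188)) (XT.lf (nat_lit 0) (nat_lit 209976832521) (nat_lit 152) (nat_lit 238378172952) (nat_lit 0) (nat_lit 208224216792) (nat_lit 1) (nat_lit 5) (nat_lit 3) (nat_lit 4) (nat_lit 1) (nat_lit 4) (nat_lit 320) (nat_lit 213) (nat_lit 187))))) (XT.nd (nat_lit 234) (nat_lit 0) (nat_lit 0) (XT.nd (nat_lit 78) (nat_lit 0) (nat_lit 0) (XT.lf (nat_lit 0) (nat_lit 227466058856) (nat_lit 152) (nat_lit 255876440428)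 (nat_lit 0) (nat_lit 225693146658) (nat_lit 1) (nat_lit 5) (nat_lit 3) (nat_lit 4) (nat_lit 1) (nat_lit 4) (nat_lit 321) (nat_lit 213) (nat_lit 186)) (XT.nd (nat_lit 78) (nat_lit 0) (nat_lit 0) (XT.lf (nat_lit 0) (nat_lit 246341366424) (nat_lit 152) (nat_lit 274798625804) (nat_lit 0) (nat_lit 244549661199) (nat_lit 1) (nat_lit 5) (nat_lit 3) (nat_lit 4) (nat_lit 1) (nat_lit 4) (nat_lit 322) (nat_lit 213) (nat_lit 185)) (XT.lf (nat_lit 0) (nat_lit 266714608899) (nat_lit 152) (nat_lit 295256860549) (nat_lit 0) (nat_lit 264905502723) (nat_lit 1) (nat_lit 5) (nat_lit 3) (nat_lit 4) (nat_lit 1) (nat_lit 4) (nat_lit 323) (nat_lit 213) (nat_lit 184)))) (XT.nd (nat_lit 78) (nat_lit 0) (nat_lit 0) (XT.lf (nat_lit 0) (nat_lit 288706516607) (nat_lit 152) (nat_lit 317372378647) (nat_lit 0) (nat_lit 286881298438) (nat_lit 1) (nat_lit 5) (nat_lit 3) (nat_lit 4) (nat_lit 1) (nat_lit 4) (nat_lit 324)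 (nat_lit 213) (nat_lit 183)) (XT.nd (nat_lit 78) (nat_lit 0) (nat_lit 0) (XT.lf (nat_lit 0) (nat_lit 312447411963) (nat_lit 152) (nat_lit 341276235020) (nat_lit 0) (nat_lit 310607275284) (nat_lit 1) (nat_lit 5) (nat_lit 3) (nat_lit 4) (nat_lit 1) (nat_lit 4) (nat_lit 325) (nat_lit 213) (nat_lit 182)) (XT.lf (nat_lit 0) (nat_lit 338077981756) (nat_lit 152) (nat_lit 367110082150) (nat_lit 0) (nat_lit 336224031640) (nat_lit 1) (nat_lit 5) (nat_lit 3) (nat_lit 4) (nat_lit 1) (nat_lit 4) (nat_lit 326) (nat_lit 213) (nat_lit 181))))))))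
noncomputable def xc11 : XT := (XT.nd (nat_lit 35724) (nat_lit 0) (nat_lit 0) (XT.nd (nat_lit 34788) (nat_lit 0) (nat_lit 0) (XT.nd (nat_lit 468) (nat_lit 0) (nat_lit 0) (XT.nd (nat_lit 234) (nat_lit 0) (nat_lit 0) (XT.nd (nat_lit 78) (nat_lit 0) (nat_lit 0) (XT.lf (nat_lit 0) (nat_lit 365750110842) (nat_lit 152) (nat_lit 395027009501) (nat_lit 0) (nat_lit 363883370508) (nat_lit 1) (nat_lit 5) (nat_lit 3) (nat_lit 4) (nat_lit 1) (nat_lit 4) (nat_lit 327) (nat_lit 213) (nat_lit 180)) (XT.nd (nat_lit 78) (nat_lit 0) (nat_lit 0) (XT.lf (nat_lit 0) (nat_lit 395627782210) (nat_lit 152) (nat_lit 425192450718) (nat_lit 0) (nat_lit 393749199081) (nat_lit 1) (nat_lit 5) (nat_lit 3) (nat_lit 4) (nat_lit 1) (nat_lit 4) (nat_lit 328) (nat_lit 213) (nat_lit 179)) (XT.lf (nat_lit 0) (nat_lit 427888048726) (nat_lit 152) (nat_lit 457785163970) (nat_lit 0) (nat_lit 425998500046) (nat_lit 1) (nat_lit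 5) (nat_lit 3) (nat_lit 4) (nat_lit 1) (nat_lit 4) (nat_lit 329) (nat_lit 213) (nat_lit 178)))) (XT.nd (nat_lit 78) (nat_lit 0) (nat_lit 0) (XT.lf (nat_lit 0) (nat_lit 462722082341) (nat_lit 152) (nat_lit 492998291262) (nat_lit 0) (nat_lit 460822380373) (nat_lit 1) (nat_lit 5) (nat_lit 3) (nat_lit 4) (nat_lit 1) (nat_lit 4) (nat_lit 330) (nat_lit 213) (nat_lit 177)) (XT.nd (nat_lit 78) (nat_lit 0) (nat_lit 0) (XT.lf (nat_lit 0) (nat_lit 500336306957) (nat_lit 152) (nat_lit 531040502977) (nat_lit 0) (nat_lit 498427203797) (nat_lit 1) (nat_lit 5) (nat_lit 3) (nat_lit 4) (nat_lit 1) (nat_lit 4) (nat_lit 331) (nat_lit 213) (nat_lit 176)) (XT.lf (nat_lit 0) (nat_lit 540953621683) (nat_lit 152) (nat_lit 572137234445) (nat_lit 0) (nat_lit 539035813715) (nat_lit 1) (nat_lit 5) (nat_lit 3) (nat_lit 4) (nat_lit 1) (nat_lit 4) (nat_lit 332) (nat_lit 213) (nat_lit 175))))) (XT.nd (nat_lit 234)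 (nat_lit 0) (nat_lit 0) (XT.nd (nat_lit 78) (nat_lit 0) (nat_lit 0) (XT.lf (nat_lit 0) (nat_lit 584814721717) (nat_lit 152) (nat_lit 616532021852) (nat_lit 0) (nat_lit 582888853742) (nat_lit 1) (nat_lit 5) (nat_lit 3) (nat_lit 4) (nat_lit 1) (nat_lit 4) (nat_lit 333) (nat_lit 213) (nat_lit 174)) (XT.nd (nat_lit 78) (nat_lit 0) (nat_lit 0) (XT.lf (nat_lit 0) (nat_lit 632179524690) (nat_lit 152) (nat_lit 664487945420) (nat_lit 0) (nat_lit 630246193745) (nat_lit 1) (nat_lit 5) (nat_lit 3) (nat_lit 4) (nat_lit 1) (nat_lit 4) (nat_lit 334) (nat_lit 213) (nat_lit 173)) (XT.lf (nat_lit 0) (nat_lit 683328710915) (nat_lit 152) (nat_lit 716289188398) (nat_lit 0) (nat_lit 681388469812) (nat_lit 1) (nat_lit 5) (nat_lit 3) (nat_lit 4) (nat_lit 1) (nat_lit 4) (nat_lit 335) (nat_lit 213) (nat_lit 172)))) (XT.nd (nat_lit 78) (nat_lit 0) (nat_lit 0) (XT.lf (nat_lit 0) (nat_lit 738565386680) (nat_lit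 152) (nat_lit 772242721117) (nat_lit 0) (nat_lit 736618747285) (nat_lit 1) (nat_lit 5) (nat_lit 3) (nat_lit 4) (nat_lit 1) (nat_lit 4) (nat_lit 336) (nat_lit 213) (nat_lit 171)) (XT.nd (nat_lit 78) (nat_lit 0) (nat_lit 0) (XT.lf (nat_lit 0) (nat_lit 798216880436) (nat_lit 152) (nat_lit 832680120066) (nat_lit 0) (nat_lit 796264316694) (nat_lit 1) (nat_lit 5) (nat_lit 3) (nat_lit 4) (nat_lit 1) (nat_lit 4) (nat_lit 337) (nat_lit 213) (nat_lit 170)) (XT.lf (nat_lit 0) (nat_lit 862636682515) (nat_lit 152) (nat_lit 897959532795) (nat_lit 0) (nat_lit 860678633268) (nat_lit 1) (nat_lit 5) (nat_lit 3) (nat_lit 4) (nat_lit 1) (nat_lit 4) (nat_lit 338) (nat_lit 213) (nat_lit 169)))))) (XT.nd (nat_lit 468) (nat_lit 0) (nat_lit 0) (XT.nd (nat_lit 234) (nat_lit 0) (nat_lit 0) (XT.nd (nat_lit 78) (nat_lit 0) (nat_lit 0) (XT.lf (nat_lit 0) (nat_lit 4564529501) (nat_lit 152) (nat_lit 29627440762)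 (nat_lit 0) (nat_lit 4564529501) (nat_lit 1) (nat_lit 5) (nat_lit 3) (nat_lit 4) (nat_lit 1) (nat_lit 4) (nat_lit 292) (nat_lit 214) (nat_lit 214)) (XT.nd (nat_lit 78) (nat_lit 0) (nat_lit 0) (XT.lf (nat_lit 0) (nat_lit 11823418665) (nat_lit 152) (nat_lit 60054045532) (nat_lit 0) (nat_lit 11661289220) (nat_lit 1) (nat_lit 5) (nat_lit 3) (nat_lit 4) (nat_lit 1) (nat_lit 4) (nat_lit 293) (nat_lit 214) (nat_lit 213)) (XT.lf (nat_lit 0) (nat_lit 14629027985) (nat_lit 152) (nat_lit 61109307478) (nat_lit 0) (nat_lit 14316778683) (nat_lit 1) (nat_lit 5) (nat_lit 3) (nat_lit 4) (nat_lit 1) (nat_lit 4) (nat_lit 294) (nat_lit 214) (nat_lit 212)))) (XT.nd (nat_lit 78) (nat_lit 0) (nat_lit 0) (XT.lf (nat_lit 0) (nat_lit 17562512796) (nat_lit 152) (nat_lit 62426920767) (nat_lit 0) (nat_lit 17111263627) (nat_lit 1) (nat_lit 5) (nat_lit 3) (nat_lit 4) (nat_lit 1) (nat_lit 4) (nat_lit 295) (nat_lit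 214) (nat_lit 211)) (XT.nd (nat_lit 78) (nat_lit 0) (nat_lit 0) (XT.lf (nat_lit 0) (nat_lit 20641256711) (nat_lit 152) (nat_lit 64014693478) (nat_lit 0) (nat_lit 20061303961) (nat_lit 1) (nat_lit 5) (nat_lit 3) (nat_lit 4) (nat_lit 1) (nat_lit 4) (nat_lit 296) (nat_lit 214) (nat_lit 210)) (XT.lf (nat_lit 0) (nat_lit 23883504139) (nat_lit 152) (nat_lit 65882034634) (nat_lit 0) (nat_lit 23184381406) (nat_lit 1) (nat_lit 5) (nat_lit 3) (nat_lit 4) (nat_lit 1) (nat_lit 4) (nat_lit 297) (nat_lit 214) (nat_lit 209))))) (XT.nd (nat_lit 234) (nat_lit 0) (nat_lit 0) (XT.nd (nat_lit 78) (nat_lit 0) (nat_lit 0) (XT.lf (nat_lit 0) (nat_lit 27308468397) (nat_lit 152) (nat_lit 68040009961) (nat_lit 0) (nat_lit 26499003089) (nat_lit 1) (nat_lit 5) (nat_lit 3) (nat_lit 4) (nat_lit 1) (nat_lit 4) (nat_lit 298) (nat_lit 214) (nat_lit 208)) (XT.nd (nat_lit 78) (nat_lit 0) (nat_lit 0) (XT.lf (nat_lit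 0) (nat_lit 30936445571) (nat_lit 152) (nat_lit 70501407460) (nat_lit 0) (nat_lit 30024811210) (nat_lit 1) (nat_lit 5) (nat_lit 3) (nat_lit 4) (nat_lit 1) (nat_lit 4) (nat_lit 299) (nat_lit 214) (nat_lit 207)) (XT.lf (nat_lit 0) (nat_lit 34788934784) (nat_lit 152) (nat_lit 73280813191) (nat_lit 0) (nat_lit 33782699449) (nat_lit 1) (nat_lit 5) (nat_lit 3) (nat_lit 4) (nat_lit 1) (nat_lit 4) (nat_lit 300) (nat_lit 214) (nat_lit 206)))) (XT.nd (nat_lit 78) (nat_lit 0) (nat_lit 0) (XT.lf (nat_lit 0) (nat_lit 38888765602) (nat_lit 152) (nat_lit 76394697707) (nat_lit 0) (nat_lit 37794936772) (nat_lit 1) (nat_lit 5) (nat_lit 3) (nat_lit 4) (nat_lit 1) (nat_lit 4) (nat_lit 301) (nat_lit 214) (nat_lit 205)) (XT.nd (nat_lit 78) (nat_lit 0) (nat_lit 0) (XT.lf (nat_lit 0) (nat_lit 43260233318) (nat_lit 152) (nat_lit 79861513656) (nat_lit 0) (nat_lit 42085299401) (nat_lit 1) (nat_lit 5) (nat_lit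 3) (nat_lit 4) (nat_lit 1) (nat_lit 4) (nat_lit 302) (nat_lit 214) (nat_lit 204)) (XT.lf (nat_lit 0) (nat_lit 47929242927) (nat_lit 152) (nat_lit 83701805132) (nat_lit 0) (nat_lit 46679211707) (nat_lit 1) (nat_lit 5) (nat_lit 3) (nat_lit 4) (nat_lit 1) (nat_lit 4) (nat_lit 303) (nat_lit 214) (nat_lit 203))))))) (XT.nd (nat_lit 936) (nat_lit 0) (nat_lit 0) (XT.nd (nat_lit 468) (nat_lit 0) (nat_lit 0) (XT.nd (nat_lit 234) (nat_lit 0) (nat_lit 0) (XT.nd (nat_lit 78) (nat_lit 0) (nat_lit 0) (XT.lf (nat_lit 0) (nat_lit 52923462634) (nat_lit 152) (nat_lit 87938329420) (nat_lit 0) (nat_lit 51603896874) (nat_lit 1) (nat_lit 5) (nat_lit 3) (nat_lit 4) (nat_lit 1) (nat_lit 4) (nat_lit 304) (nat_lit 214) (nat_lit 202)) (XT.nd (nat_lit 78) (nat_lit 0) (nat_lit 0) (XT.lf (nat_lit 0) (nat_lit 58272487814) (nat_lit 152) (nat_lit 92596191847) (nat_lit 0) (nat_lit 56888538221) (nat_lit 1) (nat_lit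 5) (nat_lit 3) (nat_lit 4) (nat_lit 1) (nat_lit 4) (nat_lit 305) (nat_lit 214) (nat_lit 201)) (XT.lf (nat_lit 0) (nat_lit 64008016395) (nat_lit 152) (nat_lit 97702994561) (nat_lit 0) (nat_lit 62564452141) (nat_lit 1) (nat_lit 5) (nat_lit 3) (nat_lit 4) (nat_lit 1) (nat_lit 4) (nat_lit 306) (nat_lit 214) (nat_lit 200)))) (XT.nd (nat_lit 78) (nat_lit 0) (nat_lit 0) (XT.lf (nat_lit 0) (nat_lit 70164036694) (nat_lit 152) (nat_lit 103289000098) (nat_lit 0) (nat_lit 68665273680) (nat_lit 1) (nat_lit 5) (nat_lit 3) (nat_lit 4) (nat_lit 1) (nat_lit 4) (nat_lit 307) (nat_lit 214) (nat_lit 199)) (XT.nd (nat_lit 78) (nat_lit 0) (nat_lit 0) (XT.lf (nat_lit 0) (nat_lit 76777028832) (nat_lit 152) (nat_lit 109387310711) (nat_lit 0) (nat_lit 75227155855) (nat_lit 1) (nat_lit 5) (nat_lit 3) (nat_lit 4) (nat_lit 1) (nat_lit 4) (nat_lit 308) (nat_lit 214) (nat_lit 198)) (XT.lf (nat_lit 0) (nat_lit 83886180909)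 (nat_lit 152) (nat_lit 116034064539) (nat_lit 0) (nat_lit 82288983893) (nat_lit 1) (nat_lit 5) (nat_lit 3) (nat_lit 4) (nat_lit 1) (nat_lit 4) (nat_lit 309) (nat_lit 214) (nat_lit 197))))) (XT.nd (nat_lit 234) (nat_lit 0) (nat_lit 0) (XT.nd (nat_lit 78) (nat_lit 0) (nat_lit 0) (XT.lf (nat_lit 0) (nat_lit 91533621236) (nat_lit 152) (nat_lit 123268649751) (nat_lit 0) (nat_lit 89892605664) (nat_lit 1) (nat_lit 5) (nat_lit 3) (nat_lit 4) (nat_lit 1) (nat_lit 4) (nat_lit 310) (nat_lit 214) (nat_lit 196)) (XT.nd (nat_lit 78) (nat_lit 0) (nat_lit 0) (XT.lf (nat_lit 0) (nat_lit 99764667975) (nat_lit 152) (nat_lit 131133937965) (nat_lit 0) (nat_lit 98083079667) (nat_lit 1) (nat_lit 5) (nat_lit 3) (nat_lit 4) (nat_lit 1) (nat_lit 4) (nat_lit 311) (nat_lit 214) (nat_lit 195)) (XT.lf (nat_lit 0) (nat_lit 108628097702) (nat_lit 152) (nat_lit 139676538295) (nat_lit 0) (nat_lit 106908942045) (nat_lit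 1) (nat_lit 5) (nat_lit 3) (nat_lit 4) (nat_lit 1) (nat_lit 4) (nat_lit 312) (nat_lit 214) (nat_lit 194)))) (XT.nd (nat_lit 78) (nat_lit 0) (nat_lit 0) (XT.lf (nat_lit 0) (nat_lit 118176434443) (nat_lit 152) (nat_lit 148947073558) (nat_lit 0) (nat_lit 116422494205) (nat_lit 1) (nat_lit 5) (nat_lit 3) (nat_lit 4) (nat_lit 1) (nat_lit 4) (nat_lit 313) (nat_lit 214) (nat_lit 193)) (XT.nd (nat_lit 78) (nat_lit 0) (nat_lit 0) (XT.lf (nat_lit 0) (nat_lit 128466260935) (nat_lit 152) (nat_lit 159000480259) (nat_lit 0) (nat_lit 126680112751) (nat_lit 1) (nat_lit 5) (nat_lit 3) (nat_lit 4) (nat_lit 1) (nat_lit 4) (nat_lit 314) (nat_lit 214) (nat_lit 192)) (XT.lf (nat_lit 0) (nat_lit 139558553928) (nat_lit 152) (nat_lit 169896334142) (nat_lit 0) (nat_lit 137742583572) (nat_lit 1) (nat_lit 5) (nat_lit 3) (nat_lit 4) (nat_lit 1) (nat_lit 4) (nat_lit 315) (nat_lit 214) (nat_lit 191)))))) (XT.nd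 (nat_lit 468) (nat_lit 0) (nat_lit 0) (XT.nd (nat_lit 234) (nat_lit 0) (nat_lit 0) (XT.nd (nat_lit 78) (nat_lit 0) (nat_lit 0) (XT.lf (nat_lit 0) (nat_lit 151519045529) (nat_lit 152) (nat_lit 181699203229) (nat_lit 0) (nat_lit 149675462049) (nat_lit 1) (nat_lit 5) (nat_lit 3) (nat_lit 4) (nat_lit 1) (nat_lit 4) (nat_lit 316) (nat_lit 214) (nat_lit 190)) (XT.nd (nat_lit 78) (nat_lit 0) (nat_lit 0) (XT.lf (nat_lit 0) (nat_lit 164418612723) (nat_lit 152) (nat_lit 194479030450) (nat_lit 0) (nat_lit 162549461538) (nat_lit 1) (nat_lit 5) (nat_lit 3) (nat_lit 4) (nat_lit 1) (nat_lit 4) (nat_lit 317) (nat_lit 214) (nat_lit 189)) (XT.lf (nat_lit 0) (nat_lit 178333697392) (nat_lit 152) (nat_lit 208311548112) (nat_lit 0) (nat_lit 176440872405) (nat_lit 1) (nat_lit 5) (nat_lit 3) (nat_lit 4) (nat_lit 1) (nat_lit 4) (nat_lit 318) (nat_lit 214) (nat_lit 188)))) (XT.nd (nat_lit 78) (nat_lit 0) (nat_lit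 0) (XT.lf (nat_lit 0) (nat_lit 193346759296) (nat_lit 152) (nat_lit 223278726692) (nat_lit 0) (nat_lit 191432014122) (nat_lit 1) (nat_lit 5) (nat_lit 3) (nat_lit 4) (nat_lit 1) (nat_lit 4) (nat_lit 319) (nat_lit 214) (nat_lit 187)) (XT.nd (nat_lit 78) (nat_lit 0) (nat_lit 0) (XT.lf (nat_lit 0) (nat_lit 209546764728) (nat_lit 152) (nat_lit 239469260581) (nat_lit 0) (nat_lit 207611723085) (nat_lit 1) (nat_lit 5) (nat_lit 3) (nat_lit 4) (nat_lit 1) (nat_lit 4) (nat_lit 320) (nat_lit 214) (nat_lit 186)) (XT.lf (nat_lit 0) (nat_lit 227029713720) (nat_lit 152) (nat_lit 256979093683) (nat_lit 0) (nat_lit 225075879050) (nat_lit 1) (nat_lit 5) (nat_lit 3) (nat_lit 4) (nat_lit 1) (nat_lit 4) (nat_lit 321) (nat_lit 214) (nat_lit 185))))) (XT.nd (nat_lit 234) (nat_lit 0) (nat_lit 0) (XT.nd (nat_lit 78) (nat_lit 0) (nat_lit 0) (XT.lf (nat_lit 0) (nat_lit 245899208933) (nat_lit 152) (nat_lit 275911987972)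 (nat_lit 0) (nat_lit 243927973311) (nat_lit 1) (nat_lit 5) (nat_lit 3) (nat_lit 4) (nat_lit 1) (nat_lit 4) (nat_lit 322) (nat_lit 214) (nat_lit 184)) (XT.nd (nat_lit 78) (nat_lit 0) (nat_lit 0) (XT.lf (nat_lit 0) (nat_lit 266267069598) (nat_lit 152) (nat_lit 296380138377) (nat_lit 0) (nat_lit 264279721984) (nat_lit 1) (nat_lit 5) (nat_lit 3) (nat_lit 4) (nat_lit 1) (nat_lit 4) (nat_lit 323) (nat_lit 214) (nat_lit 183)) (XT.lf (nat_lit 0) (nat_lit 288253994148) (nat_lit 152) (nat_lit 318504837642) (nat_lit 0) (nat_lit 286251728023) (nat_lit 1) (nat_lit 5) (nat_lit 3) (nat_lit 4) (nat_lit 1) (nat_lit 4) (nat_lit 324) (nat_lit 214) (nat_lit 182)))) (XT.nd (nat_lit 156) (nat_lit 0) (nat_lit 0) (XT.nd (nat_lit 78) (nat_lit 0) (nat_lit 0) (XT.lf (nat_lit 0) (nat_lit 311990275470) (nat_lit 152) (nat_lit 342417195095) (nat_lit 0) (nat_lit 309974195909) (nat_lit 1) (nat_lit 5) (nat_lit 3) (nat_lit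 4) (nat_lit 1) (nat_lit 4) (nat_lit 325) (nat_lit 214) (nat_lit 181)) (XT.lf (nat_lit 0) (nat_lit 337616573008) (nat_lit 152) (nat_lit 368258913596) (nat_lit 0) (nat_lit 335587703228) (nat_lit 1) (nat_lit 5) (nat_lit 3) (nat_lit 4) (nat_lit 1) (nat_lit 4) (nat_lit 326) (nat_lit 214) (nat_lit 180))) (XT.nd (nat_lit 78) (nat_lit 0) (nat_lit 0) (XT.lf (nat_lit 0) (nat_lit 365284746303) (nat_lit 152) (nat_lit 396183129254) (nat_lit 0) (nat_lit 363244033729) (nat_lit 1) (nat_lit 5) (nat_lit 3) (nat_lit 4) (nat_lit 1) (nat_lit 4) (nat_lit 327) (nat_lit 214) (nat_lit 179)) (XT.lf (nat_lit 0) (nat_lit 395158754901) (nat_lit 152) (nat_lit 426355318902) (nat_lit 0) (nat_lit 393107076776) (nat_lit 1) (nat_lit 5) (nat_lit 3) (nat_lit 4) (nat_lit 1) (nat_lit 4) (nat_lit 328) (nat_lit 214) (nat_lit 178))))))))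
noncomputable def xc12 : XT := (XT.nd (nat_lit 35568) (nat_lit 0) (nat_lit 0) (XT.nd (nat_lit 34632) (nat_lit 0) (nat_lit 0) (XT.nd (nat_lit 468) (nat_lit 0) (nat_lit 0) (XT.nd (nat_lit 234) (nat_lit 0) (nat_lit 0) (XT.nd (nat_lit 78) (nat_lit 0) (nat_lit 0) (XT.lf (nat_lit 0) (nat_lit 427415629964) (nat_lit 152) (nat_lit 458954280702) (nat_lit 0) (nat_lit 425353798551) (nat_lit 1) (nat_lit 5) (nat_lit 3) (nat_lit 4) (nat_lit 1) (nat_lit 4) (nat_lit 329) (nat_lit 214) (nat_lit 177)) (XT.nd (nat_lit 78) (nat_lit 0) (nat_lit 0) (XT.lf (nat_lit 0) (nat_lit 462246523344) (nat_lit 152) (nat_lit 494173193686) (nat_lit 0) (nat_lit 460175290739) (nat_lit 1) (nat_lit 5) (nat_lit 3) (nat_lit 4) (nat_lit 1) (nat_lit 4) (nat_lit 330) (nat_lit 214) (nat_lit 176)) (XT.lf (nat_lit 0) (nat_lit 499857840335) (nat_lit 152) (nat_lit 532220762525) (nat_lit 0) (nat_lit 497777902922) (nat_lit 1) (nat_lit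 5) (nat_lit 3) (nat_lit 4) (nat_lit 1) (nat_lit 4) (nat_lit 331) (nat_lit 214) (nat_lit 175)))) (XT.nd (nat_lit 78) (nat_lit 0) (nat_lit 0) (XT.lf (nat_lit 0) (nat_lit 540472462816) (nat_lit 152) (nat_lit 573322454291) (nat_lit 0) (nat_lit 538384465396) (nat_lit 1) (nat_lit 5) (nat_lit 3) (nat_lit 4) (nat_lit 1) (nat_lit 4) (nat_lit 332) (nat_lit 214) (nat_lit 174)) (XT.nd (nat_lit 78) (nat_lit 0) (nat_lit 0) (XT.lf (nat_lit 0) (nat_lit 584331070031) (nat_lit 152) (nat_lit 617721834567) (nat_lit 0) (nat_lit 582235609641) (nat_lit 1) (nat_lit 5) (nat_lit 3) (nat_lit 4) (nat_lit 1) (nat_lit 4) (nat_lit 333) (nat_lit 214) (nat_lit 173)) (XT.lf (nat_lit 0) (nat_lit 631693564838) (nat_lit 152) (nat_lit 665682010792) (nat_lit 0) (nat_lit 629591194290) (nat_lit 1) (nat_lit 5) (nat_lit 3) (nat_lit 4) (nat_lit 1) (nat_lit 4) (nat_lit 334) (nat_lit 214) (nat_lit 172))))) (XT.nd (nat_lit 234)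 (nat_lit 0) (nat_lit 0) (XT.nd (nat_lit 78) (nat_lit 0) (nat_lit 0) (XT.lf (nat_lit 0) (nat_lit 682840613872) (nat_lit 152) (nat_lit 717487191415) (nat_lit 0) (nat_lit 680731845031) (nat_lit 1) (nat_lit 5) (nat_lit 3) (nat_lit 4) (nat_lit 1) (nat_lit 4) (nat_lit 335) (nat_lit 214) (nat_lit 171)) (XT.nd (nat_lit 78) (nat_lit 0) (nat_lit 0) (XT.lf (nat_lit 0) (nat_lit 738075310757) (nat_lit 152) (nat_lit 773444370102) (nat_lit 0) (nat_lit 735960617570) (nat_lit 1) (nat_lit 5) (nat_lit 3) (nat_lit 4) (nat_lit 1) (nat_lit 4) (nat_lit 336) (nat_lit 214) (nat_lit 170)) (XT.lf (nat_lit 0) (nat_lit 797724972216) (nat_lit 152) (nat_lit 833885144947) (nat_lit 0) (nat_lit 795604793523) (nat_lit 1) (nat_lit 5) (nat_lit 3) (nat_lit 4) (nat_lit 1) (nat_lit 4) (nat_lit 337) (nat_lit 214) (nat_lit 169)))) (XT.nd (nat_lit 33774) (nat_lit 0) (nat_lit 0) (XT.lf (nat_lit 0) (nat_lit 862143077724) (nat_lit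 152) (nat_lit 899167683505) (nat_lit 0) (nat_lit 860017819859) (nat_lit 1) (nat_lit 5) (nat_lit 3) (nat_lit 4) (nat_lit 1) (nat_lit 4) (nat_lit 338) (nat_lit 214) (nat_lit 168)) (XT.nd (nat_lit 78) (nat_lit 0) (nat_lit 0) (XT.lf (nat_lit 0) (nat_lit 2122187261) (nat_lit 152) (nat_lit 29149816808) (nat_lit 0) (nat_lit 2122187261) (nat_lit 1) (nat_lit 5) (nat_lit 3) (nat_lit 4) (nat_lit 1) (nat_lit 4) (nat_lit 290) (nat_lit 215) (nat_lit 215)) (XT.lf (nat_lit 0) (nat_lit 6705082222) (nat_lit 152) (nat_lit 58707079670) (nat_lit 0) (nat_lit 6529982421) (nat_lit 1) (nat_lit 5) (nat_lit 3) (nat_lit 4) (nat_lit 1) (nat_lit 4) (nat_lit 291) (nat_lit 215) (nat_lit 214)))))) (XT.nd (nat_lit 468) (nat_lit 0) (nat_lit 0) (XT.nd (nat_lit 234) (nat_lit 0) (nat_lit 0) (XT.nd (nat_lit 78) (nat_lit 0) (nat_lit 0) (XT.lf (nat_lit 0) (nat_lit 9250003493) (nat_lit 152) (nat_lit 59354659411) (nat_lit 0)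 (nat_lit 8912774247) (nat_lit 1) (nat_lit 5) (nat_lit 3) (nat_lit 4) (nat_lit 1) (nat_lit 4) (nat_lit 292) (nat_lit 215) (nat_lit 213)) (XT.nd (nat_lit 78) (nat_lit 0) (nat_lit 0) (XT.lf (nat_lit 0) (nat_lit 11894219350) (nat_lit 152) (nat_lit 60246210350) (nat_lit 0) (nat_lit 11406870247) (nat_lit 1) (nat_lit 5) (nat_lit 3) (nat_lit 4) (nat_lit 1) (nat_lit 4) (nat_lit 293) (nat_lit 215) (nat_lit 212)) (XT.lf (nat_lit 0) (nat_lit 14653399221) (nat_lit 152) (nat_lit 61387015752) (nat_lit 0) (nat_lit 14027050251) (nat_lit 1) (nat_lit 5) (nat_lit 3) (nat_lit 4) (nat_lit 1) (nat_lit 4) (nat_lit 294) (nat_lit 215) (nat_lit 211)))) (XT.nd (nat_lit 78) (nat_lit 0) (nat_lit 0) (XT.lf (nat_lit 0) (nat_lit 17543893801) (nat_lit 152) (nat_lit 62783835944) (nat_lit 0) (nat_lit 16788841250) (nat_lit 1) (nat_lit 5) (nat_lit 3) (nat_lit 4) (nat_lit 1) (nat_lit 4) (nat_lit 295) (nat_lit 215) (nat_lit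 210)) (XT.nd (nat_lit 78) (nat_lit 0) (nat_lit 0) (XT.lf (nat_lit 0) (nat_lit 20582831946) (nat_lit 152) (nat_lit 64444948380) (nat_lit 0) (nat_lit 19708609413) (nat_lit 1) (nat_lit 5) (nat_lit 3) (nat_lit 4) (nat_lit 1) (nat_lit 4) (nat_lit 296) (nat_lit 215) (nat_lit 209)) (XT.lf (nat_lit 0) (nat_lit 23788222180) (nat_lit 152) (nat_lit 66380196689) (nat_lit 0) (nat_lit 22803657071) (nat_lit 1) (nat_lit 5) (nat_lit 3) (nat_lit 4) (nat_lit 1) (nat_lit 4) (nat_lit 297) (nat_lit 215) (nat_lit 208))))) (XT.nd (nat_lit 234) (nat_lit 0) (nat_lit 0) (XT.nd (nat_lit 78) (nat_lit 0) (nat_lit 0) (XT.lf (nat_lit 0) (nat_lit 27179059407) (nat_lit 152) (nat_lit 68601049009) (nat_lit 0) (nat_lit 26092325246) (nat_lit 1) (nat_lit 5) (nat_lit 3) (nat_lit 4) (nat_lit 1) (nat_lit 4) (nat_lit 298) (nat_lit 215) (nat_lit 207)) (XT.nd (nat_lit 78) (nat_lit 0) (nat_lit 0) (XT.lf (nat_lit 0) (nat_lit 30775437478)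 (nat_lit 152) (nat_lit 71120665947) (nat_lit 0) (nat_lit 29594102342) (nat_lit 1) (nat_lit 5) (nat_lit 3) (nat_lit 4) (nat_lit 1) (nat_lit 4) (nat_lit 299) (nat_lit 215) (nat_lit 206)) (XT.lf (nat_lit 0) (nat_lit 34598668262) (nat_lit 152) (nat_lit 73953978566) (nat_lit 0) (nat_lit 33329739631) (nat_lit 1) (nat_lit 5) (nat_lit 3) (nat_lit 4) (nat_lit 1) (nat_lit 4) (nat_lit 300) (nat_lit 215) (nat_lit 205)))) (XT.nd (nat_lit 78) (nat_lit 0) (nat_lit 0) (XT.lf (nat_lit 0) (nat_lit 38671407942) (nat_lit 152) (nat_lit 77117776866) (nat_lit 0) (nat_lit 37321374224) (nat_lit 1) (nat_lit 5) (nat_lit 3) (nat_lit 4) (nat_lit 1) (nat_lit 4) (nat_lit 301) (nat_lit 215) (nat_lit 204)) (XT.nd (nat_lit 78) (nat_lit 0) (nat_lit 0) (XT.lf (nat_lit 0) (nat_lit 43017791271) (nat_lit 152) (nat_lit 80630809282) (nat_lit 0) (nat_lit 41592660250) (nat_lit 1) (nat_lit 5) (nat_lit 3) (nat_lit 4) (nat_lit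 1) (nat_lit 4) (nat_lit 302) (nat_lit 215) (nat_lit 203)) (XT.lf (nat_lit 0) (nat_lit 47663574596) (nat_lit 152) (nat_lit 84513893784) (nat_lit 0) (nat_lit 46168909035) (nat_lit 1) (nat_lit 5) (nat_lit 3) (nat_lit 4) (nat_lit 1) (nat_lit 4) (nat_lit 303) (nat_lit 215) (nat_lit 202))))))) (XT.nd (nat_lit 936) (nat_lit 0) (nat_lit 0) (XT.nd (nat_lit 468) (nat_lit 0) (nat_lit 0) (XT.nd (nat_lit 234) (nat_lit 0) (nat_lit 0) (XT.nd (nat_lit 78) (nat_lit 0) (nat_lit 0) (XT.lf (nat_lit 0) (nat_lit 52636288484) (nat_lit 152) (nat_lit 88790041243) (nat_lit 0) (nat_lit 51077239089) (nat_lit 1) (nat_lit 5) (nat_lit 3) (nat_lit 4) (nat_lit 1) (nat_lit 4) (nat_lit 304) (nat_lit 215) (nat_lit 201)) (XT.nd (nat_lit 78) (nat_lit 0) (nat_lit 0) (XT.lf (nat_lit 0) (nat_lit 57965400869) (nat_lit 152) (nat_lit 93484591791) (nat_lit 0) (nat_lit 56346736814) (nat_lit 1) (nat_lit 5) (nat_lit 3) (nat_lit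 4) (nat_lit 1) (nat_lit 4) (nat_lit 305) (nat_lit 215) (nat_lit 200)) (XT.lf (nat_lit 0) (nat_lit 63682491677) (nat_lit 152) (nat_lit 98625364989) (nat_lit 0) (nat_lit 62008628862) (nat_lit 1) (nat_lit 5) (nat_lit 3) (nat_lit 4) (nat_lit 1) (nat_lit 4) (nat_lit 306) (nat_lit 215) (nat_lit 199)))) (XT.nd (nat_lit 78) (nat_lit 0) (nat_lit 0) (XT.lf (nat_lit 0) (nat_lit 69821439964) (nat_lit 152) (nat_lit 104242824677) (nat_lit 0) (nat_lit 68096467186) (nat_lit 1) (nat_lit 5) (nat_lit 3) (nat_lit 4) (nat_lit 1) (nat_lit 4) (nat_lit 307) (nat_lit 215) (nat_lit 198)) (XT.nd (nat_lit 78) (nat_lit 0) (nat_lit 0) (XT.lf (nat_lit 0) (nat_lit 76418624683) (nat_lit 152) (nat_lit 110370259504) (nat_lit 0) (nat_lit 74646327865) (nat_lit 1) (nat_lit 5) (nat_lit 3) (nat_lit 4) (nat_lit 1) (nat_lit 4) (nat_lit 308) (nat_lit 215) (nat_lit 197)) (XT.lf (nat_lit 0) (nat_lit 83513140261) (nat_lit 152)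 (nat_lit 117043980197) (nat_lit 0) (nat_lit 81697024889) (nat_lit 1) (nat_lit 5) (nat_lit 3) (nat_lit 4) (nat_lit 1) (nat_lit 4) (nat_lit 309) (nat_lit 215) (nat_lit 196))))) (XT.nd (nat_lit 234) (nat_lit 0) (nat_lit 0) (XT.nd (nat_lit 78) (nat_lit 0) (nat_lit 0) (XT.lf (nat_lit 0) (nat_lit 91147028274) (nat_lit 152) (nat_lit 124303534728) (nat_lit 0) (nat_lit 89290340165) (nat_lit 1) (nat_lit 5) (nat_lit 3) (nat_lit 4) (nat_lit 1) (nat_lit 4) (nat_lit 310) (nat_lit 215) (nat_lit 195)) (XT.nd (nat_lit 78) (nat_lit 0) (nat_lit 0) (XT.lf (nat_lit 0) (nat_lit 99365526575) (nat_lit 152) (nat_lit 132191942682) (nat_lit 0) (nat_lit 97471271118) (nat_lit 1) (nat_lit 5) (nat_lit 3) (nat_lit 4) (nat_lit 1) (nat_lit 4) (nat_lit 311) (nat_lit 215) (nat_lit 194)) (XT.lf (nat_lit 0) (nat_lit 108217337377) (nat_lit 152) (nat_lit 140755950178) (nat_lit 0) (nat_lit 106288297338) (nat_lit 1) (nat_lit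 5) (nat_lit 3) (nat_lit 4) (nat_lit 1) (nat_lit 4) (nat_lit 312) (nat_lit 215) (nat_lit 193)))) (XT.nd (nat_lit 78) (nat_lit 0) (nat_lit 0) (XT.lf (nat_lit 0) (nat_lit 117754915854) (nat_lit 152) (nat_lit 150046306892) (nat_lit 0) (nat_lit 115793667869) (nat_lit 1) (nat_lit 5) (nat_lit 3) (nat_lit 4) (nat_lit 1) (nat_lit 4) (nat_lit 313) (nat_lit 215) (nat_lit 192)) (XT.nd (nat_lit 78) (nat_lit 0) (nat_lit 0) (XT.lf (nat_lit 0) (nat_lit 128034780991) (nat_lit 152) (nat_lit 160118066788) (nat_lit 0) (nat_lit 126043710834) (nat_lit 1) (nat_lit 5) (nat_lit 3) (nat_lit 4) (nat_lit 1) (nat_lit 4) (nat_lit 314) (nat_lit 215) (nat_lit 191)) (XT.lf (nat_lit 0) (nat_lit 139117850507) (nat_lit 152) (nat_lit 171030914370) (nat_lit 0) (nat_lit 137099167227) (nat_lit 1) (nat_lit 5) (nat_lit 3) (nat_lit 4) (nat_lit 1) (nat_lit 4) (nat_lit 315) (nat_lit 215) (nat_lit 190)))))) (XT.nd (nat_lit 468)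 (nat_lit 0) (nat_lit 0) (XT.nd (nat_lit 234) (nat_lit 0) (nat_lit 0) (XT.nd (nat_lit 78) (nat_lit 0) (nat_lit 0) (XT.lf (nat_lit 0) (nat_lit 151069801851) (nat_lit 152) (nat_lit 182849518364) (nat_lit 0) (nat_lit 149025550865) (nat_lit 1) (nat_lit 5) (nat_lit 3) (nat_lit 4) (nat_lit 1) (nat_lit 4) (nat_lit 316) (nat_lit 215) (nat_lit 189)) (XT.nd (nat_lit 78) (nat_lit 0) (nat_lit 0) (XT.lf (nat_lit 0) (nat_lit 163961461401) (nat_lit 152) (nat_lit 195643914943) (nat_lit 0) (nat_lit 161893536613) (nat_lit 1) (nat_lit 5) (nat_lit 3) (nat_lit 4) (nat_lit 1) (nat_lit 4) (nat_lit 317) (nat_lit 215) (nat_lit 188)) (XT.lf (nat_lit 0) (nat_lit 177869224176) (nat_lit 152) (nat_lit 209489922752) (nat_lit 0) (nat_lit 175779379201) (nat_lit 1) (nat_lit 5) (nat_lit 3) (nat_lit 4) (nat_lit 1) (nat_lit 4) (nat_lit 318) (nat_lit 215) (nat_lit 187)))) (XT.nd (nat_lit 78) (nat_lit 0) (nat_lit 0) (XT.lf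 (nat_lit 0) (nat_lit 192875506550) (nat_lit 152) (nat_lit 224469592207) (nat_lit 0) (nat_lit 190765365105) (nat_lit 1) (nat_lit 5) (nat_lit 3) (nat_lit 4) (nat_lit 1) (nat_lit 4) (nat_lit 319) (nat_lit 215) (nat_lit 186)) (XT.nd (nat_lit 78) (nat_lit 0) (nat_lit 0) (XT.lf (nat_lit 0) (nat_lit 209069234638) (nat_lit 152) (nat_lit 240671691722) (nat_lit 0) (nat_lit 206940300166) (nat_lit 1) (nat_lit 5) (nat_lit 3) (nat_lit 4) (nat_lit 1) (nat_lit 4) (nat_lit 320) (nat_lit 215) (nat_lit 185)) (XT.lf (nat_lit 0) (nat_lit 226546371275) (nat_lit 152) (nat_lit 258192233737) (nat_lit 0) (nat_lit 224400035852) (nat_lit 1) (nat_lit 5) (nat_lit 3) (nat_lit 4) (nat_lit 1) (nat_lit 4) (nat_lit 321) (nat_lit 215) (nat_lit 184))))) (XT.nd (nat_lit 234) (nat_lit 0) (nat_lit 0) (XT.nd (nat_lit 78) (nat_lit 0) (nat_lit 0) (XT.lf (nat_lit 0) (nat_lit 245410484678) (nat_lit 152) (nat_lit 277135043686)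 (nat_lit 0) (nat_lit 243248037263) (nat_lit 1) (nat_lit 5) (nat_lit 3) (nat_lit 4) (nat_lit 1) (nat_lit 4) (nat_lit 322) (nat_lit 215) (nat_lit 183)) (XT.nd (nat_lit 78) (nat_lit 0) (nat_lit 0) (XT.lf (nat_lit 0) (nat_lit 265773362185) (nat_lit 152) (nat_lit 297612375258) (nat_lit 0) (nat_lit 263595996259) (nat_lit 1) (nat_lit 5) (nat_lit 3) (nat_lit 4) (nat_lit 1) (nat_lit 4) (nat_lit 323) (nat_lit 215) (nat_lit 182)) (XT.lf (nat_lit 0) (nat_lit 287755672700) (nat_lit 152) (nat_lit 319745575604) (nat_lit 0) (nat_lit 285564493339) (nat_lit 1) (nat_lit 5) (nat_lit 3) (nat_lit 4) (nat_lit 1) (nat_lit 4) (nat_lit 324) (nat_lit 215) (nat_lit 181)))) (XT.nd (nat_lit 78) (nat_lit 0) (nat_lit 0) (XT.lf (nat_lit 0) (nat_lit 311487681767) (nat_lit 152) (nat_lit 343665804428) (nat_lit 0) (nat_lit 309283712187) (nat_lit 1) (nat_lit 5) (nat_lit 3) (nat_lit 4) (nat_lit 1) (nat_lit 4) (nat_lit 325)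 (nat_lit 215) (nat_lit 180)) (XT.nd (nat_lit 78) (nat_lit 0) (nat_lit 0) (XT.lf (nat_lit 0) (nat_lit 337110023514) (nat_lit 152) (nat_lit 369514811235) (nat_lit 0) (nat_lit 334894211139) (nat_lit 1) (nat_lit 5) (nat_lit 3) (nat_lit 4) (nat_lit 1) (nat_lit 4) (nat_lit 326) (nat_lit 215) (nat_lit 179)) (XT.lf (nat_lit 0) (nat_lit 364774534040) (nat_lit 152) (nat_lit 397445775324) (nat_lit 0) (nat_lit 362547756114) (nat_lit 1) (nat_lit 5) (nat_lit 3) (nat_lit 4) (nat_lit 1) (nat_lit 4) (nat_lit 327) (nat_lit 215) (nat_lit 178))))))))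
noncomputable def xc13 : XT := (XT.nd (nat_lit 35412) (nat_lit 0) (nat_lit 0) (XT.nd (nat_lit 34476) (nat_lit 0) (nat_lit 0) (XT.nd (nat_lit 468) (nat_lit 0) (nat_lit 0) (XT.nd (nat_lit 234) (nat_lit 0) (nat_lit 0) (XT.nd (nat_lit 78) (nat_lit 0) (nat_lit 0) (XT.lf (nat_lit 0) (nat_lit 394645151184) (nat_lit 152) (nat_lit 427624213521) (nat_lit 0) (nat_lit 392408219970) (nat_lit 1) (nat_lit 5) (nat_lit 3) (nat_lit 4) (nat_lit 1) (nat_lit 4) (nat_lit 328) (nat_lit 215) (nat_lit 177)) (XT.nd (nat_lit 78) (nat_lit 0) (nat_lit 0) (XT.lf (nat_lit 0) (nat_lit 426898886013) (nat_lit 152) (nat_lit 460228961013) (nat_lit 0) (nat_lit 424652553606) (nat_lit 1) (nat_lit 5) (nat_lit 3) (nat_lit 4) (nat_lit 1) (nat_lit 4) (nat_lit 329) (nat_lit 215) (nat_lit 176)) (XT.lf (nat_lit 0) (nat_lit 461726871768) (nat_lit 152) (nat_lit 495453231120) (nat_lit 0) (nat_lit 459471834554) (nat_lit 1) (nat_lit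 5) (nat_lit 3) (nat_lit 4) (nat_lit 1) (nat_lit 4) (nat_lit 330) (nat_lit 215) (nat_lit 175)))) (XT.nd (nat_lit 78) (nat_lit 0) (nat_lit 0) (XT.lf (nat_lit 0) (nat_lit 499335496515) (nat_lit 152) (nat_lit 533505760257) (nat_lit 0) (nat_lit 497072399293) (nat_lit 1) (nat_lit 5) (nat_lit 3) (nat_lit 4) (nat_lit 1) (nat_lit 4) (nat_lit 331) (nat_lit 215) (nat_lit 174)) (XT.nd (nat_lit 78) (nat_lit 0) (nat_lit 0) (XT.lf (nat_lit 0) (nat_lit 539947626176) (nat_lit 152) (nat_lit 574612044893) (nat_lit 0) (nat_lit 537677065985) (nat_lit 1) (nat_lit 5) (nat_lit 3) (nat_lit 4) (nat_lit 1) (nat_lit 4) (nat_lit 332) (nat_lit 215) (nat_lit 173)) (XT.lf (nat_lit 0) (nat_lit 583803925225) (nat_lit 152) (nat_lit 619015677826) (nat_lit 0) (nat_lit 581526454876) (nat_lit 1) (nat_lit 5) (nat_lit 3) (nat_lit 4) (nat_lit 1) (nat_lit 4) (nat_lit 333) (nat_lit 215) (nat_lit 172))))) (XT.nd (nat_lit 234)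 (nat_lit 0) (nat_lit 0) (XT.nd (nat_lit 78) (nat_lit 0) (nat_lit 0) (XT.lf (nat_lit 0) (nat_lit 631164282840) (nat_lit 152) (nat_lit 666979791695) (nat_lit 0) (nat_lit 628880414198) (nat_lit 1) (nat_lit 5) (nat_lit 3) (nat_lit 4) (nat_lit 1) (nat_lit 4) (nat_lit 334) (nat_lit 215) (nat_lit 171)) (XT.nd (nat_lit 78) (nat_lit 0) (nat_lit 0) (XT.lf (nat_lit 0) (nat_lit 682309352994) (nat_lit 152) (nat_lit 718788618286) (nat_lit 0) (nat_lit 680019560006) (nat_lit 1) (nat_lit 5) (nat_lit 3) (nat_lit 4) (nat_lit 1) (nat_lit 4) (nat_lit 335) (nat_lit 215) (nat_lit 170)) (XT.lf (nat_lit 0) (nat_lit 737542217582) (nat_lit 152) (nat_lit 774749172869) (nat_lit 0) (nat_lit 735246939089) (nat_lit 1) (nat_lit 5) (nat_lit 3) (nat_lit 4) (nat_lit 1) (nat_lit 4) (nat_lit 336) (nat_lit 215) (nat_lit 169)))) (XT.nd (nat_lit 78) (nat_lit 0) (nat_lit 0) (XT.lf (nat_lit 0) (nat_lit 797190182470) (nat_lit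 152) (nat_lit 835193073544) (nat_lit 0) (nat_lit 794889824805) (nat_lit 1) (nat_lit 5) (nat_lit 3) (nat_lit 4) (nat_lit 1) (nat_lit 4) (nat_lit 337) (nat_lit 215) (nat_lit 168)) (XT.nd (nat_lit 33618) (nat_lit 0) (nat_lit 152) (XT.lf (nat_lit 0) (nat_lit 861606717079) (nat_lit 152) (nat_lit 900478506389) (nat_lit 0) (nat_lit 859301656477) (nat_lit 1) (nat_lit 5) (nat_lit 3) (nat_lit 4) (nat_lit 1) (nat_lit 4) (nat_lit 338) (nat_lit 215) (nat_lit 167)) (XT.lf (nat_lit 0) (nat_lit 28585100948) (nat_lit 76) (nat_lit 112108529) (nat_lit 76) (nat_lit 112108529) (nat_lit 3) (nat_lit 4) (nat_lit 4) (nat_lit 5) (nat_lit 4) (nat_lit 4) (nat_lit 288) (nat_lit 216) (nat_lit 216)))))) (XT.nd (nat_lit 468) (nat_lit 0) (nat_lit 0) (XT.nd (nat_lit 234) (nat_lit 0) (nat_lit 0) (XT.nd (nat_lit 78) (nat_lit 0) (nat_lit 0) (XT.lf (nat_lit 0) (nat_lit 2042406207) (nat_lit 152) (nat_lit 58129906756) (nat_lit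 0) (nat_lit 1853298422) (nat_lit 1) (nat_lit 5) (nat_lit 3) (nat_lit 4) (nat_lit 1) (nat_lit 4) (nat_lit 289) (nat_lit 216) (nat_lit 215)) (XT.nd (nat_lit 78) (nat_lit 0) (nat_lit 0) (XT.lf (nat_lit 0) (nat_lit 4374994572) (nat_lit 152) (nat_lit 58407393734) (nat_lit 0) (nat_lit 4010786986) (nat_lit 1) (nat_lit 5) (nat_lit 3) (nat_lit 4) (nat_lit 1) (nat_lit 4) (nat_lit 290) (nat_lit 216) (nat_lit 214)) (XT.lf (nat_lit 0) (nat_lit 6781546962) (nat_lit 152) (nat_lit 58914617674) (nat_lit 0) (nat_lit 6255209931) (nat_lit 1) (nat_lit 5) (nat_lit 3) (nat_lit 4) (nat_lit 1) (nat_lit 4) (nat_lit 291) (nat_lit 216) (nat_lit 213)))) (XT.nd (nat_lit 78) (nat_lit 0) (nat_lit 0) (XT.lf (nat_lit 0) (nat_lit 9276324428) (nat_lit 152) (nat_lit 59654584347) (nat_lit 0) (nat_lit 8599867540) (nat_lit 1) (nat_lit 5) (nat_lit 3) (nat_lit 4) (nat_lit 1) (nat_lit 4) (nat_lit 292) (nat_lit 216) (nat_lit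 212)) (XT.nd (nat_lit 78) (nat_lit 0) (nat_lit 0) (XT.lf (nat_lit 0) (nat_lit 11874110835) (nat_lit 152) (nat_lit 60631678741) (nat_lit 0) (nat_lit 11058654080) (nat_lit 1) (nat_lit 5) (nat_lit 3) (nat_lit 4) (nat_lit 1) (nat_lit 4) (nat_lit 293) (nat_lit 216) (nat_lit 211)) (XT.lf (nat_lit 0) (nat_lit 14590300475) (nat_lit 152) (nat_lit 61851691046) (nat_lit 0) (nat_lit 13646140139) (nat_lit 1) (nat_lit 5) (nat_lit 3) (nat_lit 4) (nat_lit 1) (nat_lit 4) (nat_lit 294) (nat_lit 216) (nat_lit 210))))) (XT.nd (nat_lit 234) (nat_lit 0) (nat_lit 0) (XT.nd (nat_lit 78) (nat_lit 0) (nat_lit 0) (XT.lf (nat_lit 0) (nat_lit 17440989285) (nat_lit 152) (nat_lit 63321850964) (nat_lit 0) (nat_lit 16377658967) (nat_lit 1) (nat_lit 5) (nat_lit 3) (nat_lit 4) (nat_lit 1) (nat_lit 4) (nat_lit 295) (nat_lit 216) (nat_lit 209)) (XT.nd (nat_lit 78) (nat_lit 0) (nat_lit 0) (XT.lf (nat_lit 0) (nat_lit 20443070237)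 (nat_lit 152) (nat_lit 65050870553) (nat_lit 0) (nat_lit 19269397342) (nat_lit 1) (nat_lit 5) (nat_lit 3) (nat_lit 4) (nat_lit 1) (nat_lit 4) (nat_lit 296) (nat_lit 216) (nat_lit 208)) (XT.lf (nat_lit 0) (nat_lit 23614333439) (nat_lit 152) (nat_lit 67048995855) (nat_lit 0) (nat_lit 22338491493) (nat_lit 1) (nat_lit 5) (nat_lit 3) (nat_lit 4) (nat_lit 1) (nat_lit 4) (nat_lit 297) (nat_lit 216) (nat_lit 207)))) (XT.nd (nat_lit 78) (nat_lit 0) (nat_lit 0) (XT.lf (nat_lit 0) (nat_lit 26973571563) (nat_lit 152) (nat_lit 69328067614) (nat_lit 0) (nat_lit 25603128642) (nat_lit 1) (nat_lit 5) (nat_lit 3) (nat_lit 4) (nat_lit 1) (nat_lit 4) (nat_lit 298) (nat_lit 216) (nat_lit 206)) (XT.nd (nat_lit 78) (nat_lit 0) (nat_lit 0) (XT.lf (nat_lit 0) (nat_lit 30540691205) (nat_lit 152) (nat_lit 71901591439) (nat_lit 0) (nat_lit 29082654789) (nat_lit 1) (nat_lit 5) (nat_lit 3) (nat_lit 4) (nat_lit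 1) (nat_lit 4) (nat_lit 299) (nat_lit 216) (nat_lit 205)) (XT.lf (nat_lit 0) (nat_lit 34336830851) (nat_lit 152) (nat_lit 74784817842) (nat_lit 0) (nat_lit 32797689348) (nat_lit 1) (nat_lit 5) (nat_lit 3) (nat_lit 4) (nat_lit 1) (nat_lit 4) (nat_lit 300) (nat_lit 216) (nat_lit 204))))))) (XT.nd (nat_lit 936) (nat_lit 0) (nat_lit 0) (XT.nd (nat_lit 468) (nat_lit 0) (nat_lit 0) (XT.nd (nat_lit 234) (nat_lit 0) (nat_lit 0) (XT.nd (nat_lit 78) (nat_lit 0) (nat_lit 0) (XT.lf (nat_lit 0) (nat_lit 38384486144) (nat_lit 152) (nat_lit 77994832610) (nat_lit 0) (nat_lit 36770247338) (nat_lit 1) (nat_lit 5) (nat_lit 3) (nat_lit 4) (nat_lit 1) (nat_lit 4) (nat_lit 301) (nat_lit 216) (nat_lit 203)) (XT.nd (nat_lit 78) (nat_lit 0) (nat_lit 0) (XT.lf (nat_lit 0) (nat_lit 42707643189) (nat_lit 152) (nat_lit 81550658051) (nat_lit 0) (nat_lit 41023869843) (nat_lit 1) (nat_lit 5) (nat_lit 3) (nat_lit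 4) (nat_lit 1) (nat_lit 4) (nat_lit 302) (nat_lit 216) (nat_lit 202)) (XT.lf (nat_lit 0) (nat_lit 47331920695) (nat_lit 152) (nat_lit 85473365724) (nat_lit 0) (nat_lit 45583763516) (nat_lit 1) (nat_lit 5) (nat_lit 3) (nat_lit 4) (nat_lit 1) (nat_lit 4) (nat_lit 303) (nat_lit 216) (nat_lit 201)))) (XT.nd (nat_lit 78) (nat_lit 0) (nat_lit 0) (XT.lf (nat_lit 0) (nat_lit 52284721788) (nat_lit 152) (nat_lit 89786201305) (nat_lit 0) (nat_lit 50476949948) (nat_lit 1) (nat_lit 5) (nat_lit 3) (nat_lit 4) (nat_lit 1) (nat_lit 4) (nat_lit 304) (nat_lit 216) (nat_lit 200)) (XT.nd (nat_lit 78) (nat_lit 0) (nat_lit 0) (XT.lf (nat_lit 0) (nat_lit 57595396400) (nat_lit 152) (nat_lit 94514722337) (nat_lit 0) (nat_lit 55732425800) (nat_lit 1) (nat_lit 5) (nat_lit 3) (nat_lit 4) (nat_lit 1) (nat_lit 4) (nat_lit 305) (nat_lit 216) (nat_lit 199)) (XT.lf (nat_lit 0) (nat_lit 63295415196) (nat_lit 152) (nat_lit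 99686949685) (nat_lit 0) (nat_lit 61381334633) (nat_lit 1) (nat_lit 5) (nat_lit 3) (nat_lit 4) (nat_lit 1) (nat_lit 4) (nat_lit 306) (nat_lit 216) (nat_lit 198))))) (XT.nd (nat_lit 234) (nat_lit 0) (nat_lit 0) (XT.nd (nat_lit 78) (nat_lit 0) (nat_lit 0) (XT.lf (nat_lit 0) (nat_lit 69418556064) (nat_lit 152) (nat_lit 105333533587) (nat_lit 0) (nat_lit 67457151461) (nat_lit 1) (nat_lit 5) (nat_lit 3) (nat_lit 4) (nat_lit 1) (nat_lit 4) (nat_lit 307) (nat_lit 216) (nat_lit 197)) (XT.nd (nat_lit 78) (nat_lit 0) (nat_lit 0) (XT.lf (nat_lit 0) (nat_lit 76001104284) (nat_lit 152) (nat_lit 111487935279) (nat_lit 0) (nat_lit 73995881126) (nat_lit 1) (nat_lit 5) (nat_lit 3) (nat_lit 4) (nat_lit 1) (nat_lit 4) (nat_lit 308) (nat_lit 216) (nat_lit 196)) (XT.lf (nat_lit 0) (nat_lit 83082067549) (nat_lit 152) (nat_lit 118186625291) (nat_lit 0) (nat_lit 81036271655) (nat_lit 1) (nat_lit 5) (nat_lit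 3) (nat_lit 4) (nat_lit 1) (nat_lit 4) (nat_lit 309) (nat_lit 216) (nat_lit 195)))) (XT.nd (nat_lit 78) (nat_lit 0) (nat_lit 0) (XT.lf (nat_lit 0) (nat_lit 90703407123) (nat_lit 152) (nat_lit 125469299563) (nat_lit 0) (nat_lit 88620043880) (nat_lit 1) (nat_lit 5) (nat_lit 3) (nat_lit 4) (nat_lit 1) (nat_lit 4) (nat_lit 310) (nat_lit 216) (nat_lit 194)) (XT.nd (nat_lit 78) (nat_lit 0) (nat_lit 0) (XT.lf (nat_lit 0) (nat_lit 98910286499) (nat_lit 152) (nat_lit 133379114683) (nat_lit 0) (nat_lit 96792138675) (nat_lit 1) (nat_lit 5) (nat_lit 3) (nat_lit 4) (nat_lit 1) (nat_lit 4) (nat_lit 311) (nat_lit 216) (nat_lit 193)) (XT.lf (nat_lit 0) (nat_lit 107751339037) (nat_lit 152) (nat_lit 141962943630) (nat_lit 0) (nat_lit 105600983267) (nat_lit 1) (nat_lit 5) (nat_lit 3) (nat_lit 4) (nat_lit 1) (nat_lit 4) (nat_lit 312) (nat_lit 216) (nat_lit 192)))))) (XT.nd (nat_lit 468) (nat_lit 0) (nat_lit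 0) (XT.nd (nat_lit 234) (nat_lit 0) (nat_lit 0) (XT.nd (nat_lit 78) (nat_lit 0) (nat_lit 0) (XT.lf (nat_lit 0) (nat_lit 117278956160) (nat_lit 152) (nat_lit 151271653538) (nat_lit 0) (nat_lit 115098778217) (nat_lit 1) (nat_lit 5) (nat_lit 3) (nat_lit 4) (nat_lit 1) (nat_lit 4) (nat_lit 313) (nat_lit 216) (nat_lit 191)) (XT.nd (nat_lit 78) (nat_lit 0) (nat_lit 0) (XT.lf (nat_lit 0) (nat_lit 127549597820) (nat_lit 152) (nat_lit 161360407134) (nat_lit 0) (nat_lit 125341806755) (nat_lit 1) (nat_lit 5) (nat_lit 3) (nat_lit 4) (nat_lit 1) (nat_lit 4) (nat_lit 314) (nat_lit 216) (nat_lit 190)) (XT.lf (nat_lit 0) (nat_lit 138624127079) (nat_lit 152) (nat_lit 172288989622) (nat_lit 0) (nat_lit 136390768308) (nat_lit 1) (nat_lit 5) (nat_lit 3) (nat_lit 4) (nat_lit 1) (nat_lit 4) (nat_lit 315) (nat_lit 216) (nat_lit 189)))) (XT.nd (nat_lit 78) (nat_lit 0) (nat_lit 0) (XT.lf (nat_lit 0) (nat_lit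 150568170778) (nat_lit 152) (nat_lit 184122162975) (nat_lit 0) (nat_lit 148311138205) (nat_lit 1) (nat_lit 5) (nat_lit 3) (nat_lit 4) (nat_lit 1) (nat_lit 4) (nat_lit 316) (nat_lit 216) (nat_lit 188)) (XT.nd (nat_lit 78) (nat_lit 0) (nat_lit 0) (XT.lf (nat_lit 0) (nat_lit 163452508435) (nat_lit 152) (nat_lit 196930049699) (nat_lit 0) (nat_lit 161173555674) (nat_lit 1) (nat_lit 5) (nat_lit 3) (nat_lit 4) (nat_lit 1) (nat_lit 4) (nat_lit 317) (nat_lit 216) (nat_lit 187)) (XT.lf (nat_lit 0) (nat_lit 177353491679) (nat_lit 152) (nat_lit 210788548384) (nat_lit 0) (nat_lit 175054242449) (nat_lit 1) (nat_lit 5) (nat_lit 3) (nat_lit 4) (nat_lit 1) (nat_lit 4) (nat_lit 318) (nat_lit 216) (nat_lit 186))))) (XT.nd (nat_lit 234) (nat_lit 0) (nat_lit 0) (XT.nd (nat_lit 78) (nat_lit 0) (nat_lit 0) (XT.lf (nat_lit 0) (nat_lit 192353496709) (nat_lit 152) (nat_lit 225779783466) (nat_lit 0) (nat_lit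 190035454452) (nat_lit 1) (nat_lit 5) (nat_lit 3) (nat_lit 4) (nat_lit 1) (nat_lit 4) (nat_lit 319) (nat_lit 216) (nat_lit 185)) (XT.nd (nat_lit 78) (nat_lit 0) (nat_lit 0) (XT.lf (nat_lit 0) (nat_lit 208541412442) (nat_lit 152) (nat_lit 241992591894) (nat_lit 0) (nat_lit 206205969234) (nat_lit 1) (nat_lit 5) (nat_lit 3) (nat_lit 4) (nat_lit 1) (nat_lit 4) (nat_lit 320) (nat_lit 216) (nat_lit 184)) (XT.lf (nat_lit 0) (nat_lit 226013167269) (nat_lit 152) (nat_lit 259523049569) (nat_lit 0) (nat_lit 223661612069) (nat_lit 1) (nat_lit 5) (nat_lit 3) (nat_lit 4) (nat_lit 1) (nat_lit 4) (nat_lit 321) (nat_lit 216) (nat_lit 183)))) (XT.nd (nat_lit 156) (nat_lit 0) (nat_lit 0) (XT.nd (nat_lit 78) (nat_lit 0) (nat_lit 0) (XT.lf (nat_lit 0) (nat_lit 244872297514) (nat_lit 152) (nat_lit 278475040685) (nat_lit 0) (nat_lit 242505823804) (nat_lit 1) (nat_lit 5) (nat_lit 3) (nat_lit 4) (nat_lit 1)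 (nat_lit 4) (nat_lit 322) (nat_lit 216) (nat_lit 182)) (XT.lf (nat_lit 0) (nat_lit 265230560986) (nat_lit 152) (nat_lit 298960873338) (nat_lit 0) (nat_lit 262850273840) (nat_lit 1) (nat_lit 5) (nat_lit 3) (nat_lit 4) (nat_lit 1) (nat_lit 4) (nat_lit 323) (nat_lit 216) (nat_lit 181))) (XT.nd (nat_lit 78) (nat_lit 0) (nat_lit 0) (XT.lf (nat_lit 0) (nat_lit 287208599247) (nat_lit 152) (nat_lit 321101945054) (nat_lit 0) (nat_lit 284815521882) (nat_lit 1) (nat_lit 5) (nat_lit 3) (nat_lit 4) (nat_lit 1) (nat_lit 4) (nat_lit 324) (nat_lit 216) (nat_lit 180)) (XT.lf (nat_lit 0) (nat_lit 310936652523) (nat_lit 152) (nat_lit 345029462184) (nat_lit 0) (nat_lit 308531732363) (nat_lit 1) (nat_lit 5) (nat_lit 3) (nat_lit 4) (nat_lit 1) (nat_lit 4) (nat_lit 325) (nat_lit 216) (nat_lit 179))))))))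
noncomputable def xc14 : XT := (XT.nd (nat_lit 35256) (nat_lit 0) (nat_lit 0) (XT.nd (nat_lit 936) (nat_lit 0) (nat_lit 0) (XT.nd (nat_lit 468) (nat_lit 0) (nat_lit 0) (XT.nd (nat_lit 234) (nat_lit 0) (nat_lit 0) (XT.nd (nat_lit 78) (nat_lit 0) (nat_lit 0) (XT.lf (nat_lit 0) (nat_lit 336555331500) (nat_lit 152) (nat_lit 370885217423) (nat_lit 0) (nat_lit 334139445789) (nat_lit 1) (nat_lit 5) (nat_lit 3) (nat_lit 4) (nat_lit 1) (nat_lit 4) (nat_lit 326) (nat_lit 216) (nat_lit 178)) (XT.nd (nat_lit 78) (nat_lit 0) (nat_lit 0) (XT.lf (nat_lit 0) (nat_lit 364216450572) (nat_lit 152) (nat_lit 398822430060) (nat_lit 0) (nat_lit 361790411573) (nat_lit 1) (nat_lit 5) (nat_lit 3) (nat_lit 4) (nat_lit 1) (nat_lit 4) (nat_lit 327) (nat_lit 216) (nat_lit 177)) (XT.lf (nat_lit 0) (nat_lit 394083927483) (nat_lit 152) (nat_lit 429006653949) (nat_lit 0) (nat_lit 391648487291) (nat_lit 1) (nat_lit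 5) (nat_lit 3) (nat_lit 4) (nat_lit 1) (nat_lit 4) (nat_lit 328) (nat_lit 216) (nat_lit 176)))) (XT.nd (nat_lit 78) (nat_lit 0) (nat_lit 0) (XT.lf (nat_lit 0) (nat_lit 426334754686) (nat_lit 152) (nat_lit 461616758564) (nat_lit 0) (nat_lit 423890609687) (nat_lit 1) (nat_lit 5) (nat_lit 3) (nat_lit 4) (nat_lit 1) (nat_lit 4) (nat_lit 329) (nat_lit 216) (nat_lit 175)) (XT.nd (nat_lit 78) (nat_lit 0) (nat_lit 0) (XT.lf (nat_lit 0) (nat_lit 461160048197) (nat_lit 152) (nat_lit 496845988970) (nat_lit 0) (nat_lit 458707843190) (nat_lit 1) (nat_lit 5) (nat_lit 3) (nat_lit 4) (nat_lit 1) (nat_lit 4) (nat_lit 330) (nat_lit 216) (nat_lit 174)) (XT.lf (nat_lit 0) (nat_lit 498766180124) (nat_lit 152) (nat_lit 534903110976) (nat_lit 0) (nat_lit 496306512147) (nat_lit 1) (nat_lit 5) (nat_lit 3) (nat_lit 4) (nat_lit 1) (nat_lit 4) (nat_lit 331) (nat_lit 216) (nat_lit 173))))) (XT.nd (nat_lit 234)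 (nat_lit 0) (nat_lit 0) (XT.nd (nat_lit 78) (nat_lit 0) (nat_lit 0) (XT.lf (nat_lit 0) (nat_lit 539376001619) (nat_lit 152) (nat_lit 576013648269) (nat_lit 0) (nat_lit 536909423485) (nat_lit 1) (nat_lit 5) (nat_lit 3) (nat_lit 4) (nat_lit 1) (nat_lit 4) (nat_lit 332) (nat_lit 216) (nat_lit 172)) (XT.nd (nat_lit 78) (nat_lit 0) (nat_lit 0) (XT.lf (nat_lit 0) (nat_lit 583230163477) (nat_lit 152) (nat_lit 620421218847) (nat_lit 0) (nat_lit 580757187050) (nat_lit 1) (nat_lit 5) (nat_lit 3) (nat_lit 4) (nat_lit 1) (nat_lit 4) (nat_lit 333) (nat_lit 216) (nat_lit 171)) (XT.lf (nat_lit 0) (nat_lit 630588542212) (nat_lit 152) (nat_lit 668388978683) (nat_lit 0) (nat_lit 628109641439) (nat_lit 1) (nat_lit 5) (nat_lit 3) (nat_lit 4) (nat_lit 1) (nat_lit 4) (nat_lit 334) (nat_lit 216) (nat_lit 170)))) (XT.nd (nat_lit 78) (nat_lit 0) (nat_lit 0) (XT.lf (nat_lit 0) (nat_lit 681731780068) (nat_lit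 152) (nat_lit 720201181171) (nat_lit 0) (nat_lit 679247393790) (nat_lit 1) (nat_lit 5) (nat_lit 3) (nat_lit 4) (nat_lit 1) (nat_lit 4) (nat_lit 335) (nat_lit 216) (nat_lit 169)) (XT.nd (nat_lit 78) (nat_lit 0) (nat_lit 0) (XT.lf (nat_lit 0) (nat_lit 736962948086) (nat_lit 152) (nat_lit 776164861583) (nat_lit 0) (nat_lit 734473482636) (nat_lit 1) (nat_lit 5) (nat_lit 3) (nat_lit 4) (nat_lit 1) (nat_lit 4) (nat_lit 336) (nat_lit 216) (nat_lit 168)) (XT.lf (nat_lit 0) (nat_lit 796609342075) (nat_lit 152) (nat_lit 836611656545) (nat_lit 0) (nat_lit 794115173688) (nat_lit 1) (nat_lit 5) (nat_lit 3) (nat_lit 4) (nat_lit 1) (nat_lit 4) (nat_lit 337) (nat_lit 216) (nat_lit 167)))))) (XT.nd (nat_lit 33852) (nat_lit 0) (nat_lit 0) (XT.nd (nat_lit 33618) (nat_lit 0) (nat_lit 0) (XT.nd (nat_lit 33462) (nat_lit 0) (nat_lit 152) (XT.lf (nat_lit 0) (nat_lit 861024422147) (nat_lit 152) (nat_lit 901899769285)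 (nat_lit 0) (nat_lit 858525899189) (nat_lit 1) (nat_lit 5) (nat_lit 3) (nat_lit 4) (nat_lit 1) (nat_lit 4) (nat_lit 338) (nat_lit 216) (nat_lit 166)) (XT.nd (nat_lit 78) (nat_lit 0) (nat_lit 0) (XT.lf (nat_lit 0) (nat_lit 20612665581) (nat_lit 76) (nat_lit 2132433874) (nat_lit 76) (nat_lit 2132433874) (nat_lit 3) (nat_lit 4) (nat_lit 4) (nat_lit 5) (nat_lit 4) (nat_lit 4) (nat_lit 286) (nat_lit 217) (nat_lit 217)) (XT.lf (nat_lit 0) (nat_lit 48944951265) (nat_lit 76) (nat_lit 2404395285) (nat_lit 76) (nat_lit 2183819965) (nat_lit 3) (nat_lit 4) (nat_lit 4) (nat_lit 5) (nat_lit 4) (nat_lit 4) (nat_lit 287) (nat_lit 217) (nat_lit 216)))) (XT.nd (nat_lit 78) (nat_lit 152) (nat_lit 0) (XT.lf (nat_lit 0) (nat_lit 57066554601) (nat_lit 76) (nat_lit 490817709) (nat_lit 76) (nat_lit 66005980) (nat_lit 3) (nat_lit 4) (nat_lit 4) (nat_lit 5) (nat_lit 4) (nat_lit 4) (nat_lit 288) (nat_lit 217)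 (nat_lit 215)) (XT.nd (nat_lit 78) (nat_lit 0) (nat_lit 0) (XT.lf (nat_lit 0) (nat_lit 2124988126) (nat_lit 152) (nat_lit 58354047800) (nat_lit 0) (nat_lit 1556544133) (nat_lit 1) (nat_lit 5) (nat_lit 3) (nat_lit 4) (nat_lit 1) (nat_lit 4) (nat_lit 289) (nat_lit 217) (nat_lit 214)) (XT.lf (nat_lit 0) (nat_lit 4403421182) (nat_lit 152) (nat_lit 58731312664) (nat_lit 0) (nat_lit 3672847743) (nat_lit 1) (nat_lit 5) (nat_lit 3) (nat_lit 4) (nat_lit 1) (nat_lit 4) (nat_lit 290) (nat_lit 217) (nat_lit 213))))) (XT.nd (nat_lit 234) (nat_lit 0) (nat_lit 0) (XT.nd (nat_lit 78) (nat_lit 0) (nat_lit 0) (XT.lf (nat_lit 0) (nat_lit 6759829766) (nat_lit 152) (nat_lit 59330923536) (nat_lit 0) (nat_lit 5879136470) (nat_lit 1) (nat_lit 5) (nat_lit 3) (nat_lit 4) (nat_lit 1) (nat_lit 4) (nat_lit 291) (nat_lit 217) (nat_lit 212)) (XT.nd (nat_lit 78) (nat_lit 0) (nat_lit 0) (XT.lf (nat_lit 0) (nat_lit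 9208177782) (nat_lit 152) (nat_lit 60156433665) (nat_lit 0) (nat_lit 8188484619) (nat_lit 1) (nat_lit 5) (nat_lit 3) (nat_lit 4) (nat_lit 1) (nat_lit 4) (nat_lit 292) (nat_lit 217) (nat_lit 211)) (XT.lf (nat_lit 0) (nat_lit 11762973959) (nat_lit 152) (nat_lit 61212734962) (nat_lit 0) (nat_lit 10614577215) (nat_lit 1) (nat_lit 5) (nat_lit 3) (nat_lit 4) (nat_lit 1) (nat_lit 4) (nat_lit 293) (nat_lit 217) (nat_lit 210)))) (XT.nd (nat_lit 78) (nat_lit 0) (nat_lit 0) (XT.lf (nat_lit 0) (nat_lit 14439357829) (nat_lit 152) (nat_lit 62506086992) (nat_lit 0) (nat_lit 13171791103) (nat_lit 1) (nat_lit 5) (nat_lit 3) (nat_lit 4) (nat_lit 1) (nat_lit 4) (nat_lit 294) (nat_lit 217) (nat_lit 209)) (XT.nd (nat_lit 78) (nat_lit 0) (nat_lit 0) (XT.lf (nat_lit 0) (nat_lit 17253189445) (nat_lit 152) (nat_lit 64044154063) (nat_lit 0) (nat_lit 15875280143) (nat_lit 1) (nat_lit 5) (nat_lit 3) (nat_lit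 4) (nat_lit 1) (nat_lit 4) (nat_lit 295) (nat_lit 217) (nat_lit 208)) (XT.lf (nat_lit 0) (nat_lit 20221143365) (nat_lit 152) (nat_lit 65836050645) (nat_lit 0) (nat_lit 18741065011) (nat_lit 1) (nat_lit 5) (nat_lit 3) (nat_lit 4) (nat_lit 1) (nat_lit 4) (nat_lit 296) (nat_lit 217) (nat_lit 207))))))) (XT.nd (nat_lit 936) (nat_lit 0) (nat_lit 0) (XT.nd (nat_lit 468) (nat_lit 0) (nat_lit 0) (XT.nd (nat_lit 234) (nat_lit 0) (nat_lit 0) (XT.nd (nat_lit 78) (nat_lit 0) (nat_lit 0) (XT.lf (nat_lit 0) (nat_lit 23360807465) (nat_lit 152) (nat_lit 67892395386) (nat_lit 0) (nat_lit 21786128136) (nat_lit 1) (nat_lit 5) (nat_lit 3) (nat_lit 4) (nat_lit 1) (nat_lit 4) (nat_lit 297) (nat_lit 217) (nat_lit 206)) (XT.nd (nat_lit 78) (nat_lit 0) (nat_lit 0) (XT.lf (nat_lit 0) (nat_lit 26690787159) (nat_lit 152) (nat_lit 70225374032) (nat_lit 0) (nat_lit 25028514336) (nat_lit 1) (nat_lit 5) (nat_lit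 3) (nat_lit 4) (nat_lit 1) (nat_lit 4) (nat_lit 298) (nat_lit 217) (nat_lit 205)) (XT.lf (nat_lit 0) (nat_lit 30230815663) (nat_lit 152) (nat_lit 72848811642) (nat_lit 0) (nat_lit 28487437752) (nat_lit 1) (nat_lit 5) (nat_lit 3) (nat_lit 4) (nat_lit 1) (nat_lit 4) (nat_lit 299) (nat_lit 217) (nat_lit 204)))) (XT.nd (nat_lit 78) (nat_lit 0) (nat_lit 0) (XT.lf (nat_lit 0) (nat_lit 34001870922) (nat_lit 152) (nat_lit 75778254513) (nat_lit 0) (nat_lit 32183395708) (nat_lit 1) (nat_lit 5) (nat_lit 3) (nat_lit 4) (nat_lit 1) (nat_lit 4) (nat_lit 300) (nat_lit 217) (nat_lit 203)) (XT.nd (nat_lit 78) (nat_lit 0) (nat_lit 0) (XT.lf (nat_lit 0) (nat_lit 38026299931) (nat_lit 152) (nat_lit 79031062305) (nat_lit 0) (nat_lit 36138290177) (nat_lit 1) (nat_lit 5) (nat_lit 3) (nat_lit 4) (nat_lit 1) (nat_lit 4) (nat_lit 301) (nat_lit 217) (nat_lit 202)) (XT.lf (nat_lit 0) (nat_lit 42327951158) (nat_lit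 152) (nat_lit 82626510918) (nat_lit 0) (nat_lit 40375557570) (nat_lit 1) (nat_lit 5) (nat_lit 3) (nat_lit 4) (nat_lit 1) (nat_lit 4) (nat_lit 302) (nat_lit 217) (nat_lit 201))))) (XT.nd (nat_lit 234) (nat_lit 0) (nat_lit 0) (XT.nd (nat_lit 78) (nat_lit 0) (nat_lit 0) (XT.lf (nat_lit 0) (nat_lit 46932315869) (nat_lit 152) (nat_lit 86585906713) (nat_lit 0) (nat_lit 44920307621) (nat_lit 1) (nat_lit 5) (nat_lit 3) (nat_lit 4) (nat_lit 1) (nat_lit 4) (nat_lit 303) (nat_lit 217) (nat_lit 200)) (XT.nd (nat_lit 78) (nat_lit 0) (nat_lit 0) (XT.lf (nat_lit 0) (nat_lit 51866679189) (nat_lit 152) (nat_lit 90932712777) (nat_lit 0) (nat_lit 49799472181) (nat_lit 1) (nat_lit 5) (nat_lit 3) (nat_lit 4) (nat_lit 1) (nat_lit 4) (nat_lit 304) (nat_lit 217) (nat_lit 199)) (XT.lf (nat_lit 0) (nat_lit 57160281788) (nat_lit 152) (nat_lit 95692687960) (nat_lit 0) (nat_lit 55041964818) (nat_lit 1) (nat_lit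 5) (nat_lit 3) (nat_lit 4) (nat_lit 1) (nat_lit 4) (nat_lit 305) (nat_lit 217) (nat_lit 198)))) (XT.nd (nat_lit 78) (nat_lit 0) (nat_lit 0) (XT.lf (nat_lit 0) (nat_lit 62844493165) (nat_lit 152) (nat_lit 100894039523) (nat_lit 0) (nat_lit 60678852155) (nat_lit 1) (nat_lit 5) (nat_lit 3) (nat_lit 4) (nat_lit 1) (nat_lit 4) (nat_lit 306) (nat_lit 217) (nat_lit 197)) (XT.nd (nat_lit 78) (nat_lit 0) (nat_lit 0) (XT.lf (nat_lit 0) (nat_lit 68952997534) (nat_lit 152) (nat_lit 106567590289) (nat_lit 0) (nat_lit 66743537969) (nat_lit 1) (nat_lit 5) (nat_lit 3) (nat_lit 4) (nat_lit 1) (nat_lit 4) (nat_lit 307) (nat_lit 217) (nat_lit 196)) (XT.lf (nat_lit 0) (nat_lit 75521993441) (nat_lit 152) (nat_lit 112746961300) (nat_lit 0) (nat_lit 73271961139) (nat_lit 1) (nat_lit 5) (nat_lit 3) (nat_lit 4) (nat_lit 1) (nat_lit 4) (nat_lit 308) (nat_lit 217) (nat_lit 195)))))) (XT.nd (nat_lit 468) (nat_lit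 0) (nat_lit 0) (XT.nd (nat_lit 234) (nat_lit 0) (nat_lit 0) (XT.nd (nat_lit 78) (nat_lit 0) (nat_lit 0) (XT.lf (nat_lit 0) (nat_lit 82590408267) (nat_lit 152) (nat_lit 119468771052) (nat_lit 0) (nat_lit 80302808617) (nat_lit 1) (nat_lit 5) (nat_lit 3) (nat_lit 4) (nat_lit 1) (nat_lit 4) (nat_lit 309) (nat_lit 217) (nat_lit 194)) (XT.nd (nat_lit 78) (nat_lit 0) (nat_lit 0) (XT.lf (nat_lit 0) (nat_lit 90200128916) (nat_lit 152) (nat_lit 126772852490) (nat_lit 0) (nat_lit 87877744684) (nat_lit 1) (nat_lit 5) (nat_lit 3) (nat_lit 4) (nat_lit 1) (nat_lit 4) (nat_lit 310) (nat_lit 217) (nat_lit 193)) (XT.lf (nat_lit 0) (nat_lit 98396250029) (nat_lit 152) (nat_lit 134702489061) (nat_lit 0) (nat_lit 96041657851) (nat_lit 1) (nat_lit 5) (nat_lit 3) (nat_lit 4) (nat_lit 1) (nat_lit 4) (nat_lit 311) (nat_lit 217) (nat_lit 192)))) (XT.nd (nat_lit 78) (nat_lit 0) (nat_lit 0) (XT.lf (nat_lit 0)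 (nat_lit 107227341212) (nat_lit 152) (nat_lit 143304671203) (nat_lit 0) (nat_lit 104842926861) (nat_lit 1) (nat_lit 5) (nat_lit 3) (nat_lit 4) (nat_lit 1) (nat_lit 4) (nat_lit 312) (nat_lit 217) (nat_lit 191)) (XT.nd (nat_lit 78) (nat_lit 0) (nat_lit 0) (XT.lf (nat_lit 0) (nat_lit 116745734857) (nat_lit 152) (nat_lit 152630374811) (nat_lit 0) (nat_lit 114333707384) (nat_lit 1) (nat_lit 5) (nat_lit 3) (nat_lit 4) (nat_lit 1) (nat_lit 4) (nat_lit 313) (nat_lit 217) (nat_lit 190)) (XT.lf (nat_lit 0) (nat_lit 127007836261) (nat_lit 152) (nat_lit 162734863313) (nat_lit 0) (nat_lit 124570241082) (nat_lit 1) (nat_lit 5) (nat_lit 3) (nat_lit 4) (nat_lit 1) (nat_lit 4) (nat_lit 314) (nat_lit 217) (nat_lit 189))))) (XT.nd (nat_lit 234) (nat_lit 0) (nat_lit 0) (XT.nd (nat_lit 78) (nat_lit 0) (nat_lit 0) (XT.lf (nat_lit 0) (nat_lit 138074457876) (nat_lit 152) (nat_lit 173678015160) (nat_lit 0)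 (nat_lit 135613188895) (nat_lit 1) (nat_lit 5) (nat_lit 3) (nat_lit 4) (nat_lit 1) (nat_lit 4) (nat_lit 315) (nat_lit 217) (nat_lit 188)) (XT.nd (nat_lit 78) (nat_lit 0) (nat_lit 0) (XT.lf (nat_lit 0) (nat_lit 150011179681) (nat_lit 152) (nat_lit 185524678658) (nat_lit 0) (nat_lit 147527990513) (nat_lit 1) (nat_lit 5) (nat_lit 3) (nat_lit 4) (nat_lit 1) (nat_lit 4) (nat_lit 316) (nat_lit 217) (nat_lit 187)) (XT.lf (nat_lit 0) (nat_lit 162888737806) (nat_lit 152) (nat_lit 198345056259) (nat_lit 0) (nat_lit 160385252169) (nat_lit 1) (nat_lit 5) (nat_lit 3) (nat_lit 4) (nat_lit 1) (nat_lit 4) (nat_lit 317) (nat_lit 217) (nat_lit 186)))) (XT.nd (nat_lit 156) (nat_lit 0) (nat_lit 0) (XT.nd (nat_lit 78) (nat_lit 0) (nat_lit 0) (XT.lf (nat_lit 0) (nat_lit 176783443707) (nat_lit 152) (nat_lit 212215120570) (nat_lit 0) (nat_lit 174261165043) (nat_lit 1) (nat_lit 5) (nat_lit 3) (nat_lit 4) (nat_lit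 1) (nat_lit 4) (nat_lit 318) (nat_lit 217) (nat_lit 185)) (XT.lf (nat_lit 0) (nat_lit 191777636382) (nat_lit 152) (nat_lit 227217064565) (nat_lit 0) (nat_lit 189237956766) (nat_lit 1) (nat_lit 5) (nat_lit 3) (nat_lit 4) (nat_lit 1) (nat_lit 4) (nat_lit 319) (nat_lit 217) (nat_lit 184))) (XT.nd (nat_lit 78) (nat_lit 0) (nat_lit 0) (XT.lf (nat_lit 0) (nat_lit 207960170305) (nat_lit 152) (nat_lit 243439788653) (nat_lit 0) (nat_lit 205404378698) (nat_lit 1) (nat_lit 5) (nat_lit 3) (nat_lit 4) (nat_lit 1) (nat_lit 4) (nat_lit 320) (nat_lit 217) (nat_lit 183)) (XT.lf (nat_lit 0) (nat_lit 225426941975) (nat_lit 152) (nat_lit 260979427494) (nat_lit 0) (nat_lit 222856231856) (nat_lit 1) (nat_lit 5) (nat_lit 3) (nat_lit 4) (nat_lit 1) (nat_lit 4) (nat_lit 321) (nat_lit 217) (nat_lit 182))))))))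
noncomputable def xc15 : XT := (XT.nd (nat_lit 35100) (nat_lit 0) (nat_lit 0) (XT.nd (nat_lit 936) (nat_lit 0) (nat_lit 0) (XT.nd (nat_lit 468) (nat_lit 0) (nat_lit 0) (XT.nd (nat_lit 234) (nat_lit 0) (nat_lit 0) (XT.nd (nat_lit 78) (nat_lit 0) (nat_lit 0) (XT.lf (nat_lit 0) (nat_lit 244281458185) (nat_lit 152) (nat_lit 279939919691) (nat_lit 0) (nat_lit 241696934630) (nat_lit 1) (nat_lit 5) (nat_lit 3) (nat_lit 4) (nat_lit 1) (nat_lit 4) (nat_lit 322) (nat_lit 217) (nat_lit 181)) (XT.nd (nat_lit 78) (nat_lit 0) (nat_lit 0) (XT.lf (nat_lit 0) (nat_lit 264635449403) (nat_lit 152) (nat_lit 300433623714) (nat_lit 0) (nat_lit 262038135630) (nat_lit 1) (nat_lit 5) (nat_lit 3) (nat_lit 4) (nat_lit 1) (nat_lit 4) (nat_lit 323) (nat_lit 217) (nat_lit 180)) (XT.lf (nat_lit 0) (nat_lit 286609531872) (nat_lit 152) (nat_lit 322581983737) (nat_lit 0) (nat_lit 284000375304) (nat_lit 1) (nat_lit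 5) (nat_lit 3) (nat_lit 4) (nat_lit 1) (nat_lit 4) (nat_lit 324) (nat_lit 217) (nat_lit 179)))) (XT.nd (nat_lit 78) (nat_lit 0) (nat_lit 0) (XT.lf (nat_lit 0) (nat_lit 310333922378) (nat_lit 152) (nat_lit 346516249299) (nat_lit 0) (nat_lit 307713800259) (nat_lit 1) (nat_lit 5) (nat_lit 3) (nat_lit 4) (nat_lit 1) (nat_lit 4) (nat_lit 325) (nat_lit 217) (nat_lit 178)) (XT.nd (nat_lit 78) (nat_lit 0) (nat_lit 0) (XT.lf (nat_lit 0) (nat_lit 335949209902) (nat_lit 152) (nat_lit 372378253085) (nat_lit 0) (nat_lit 333318934495) (nat_lit 1) (nat_lit 5) (nat_lit 3) (nat_lit 4) (nat_lit 1) (nat_lit 4) (nat_lit 326) (nat_lit 217) (nat_lit 177)) (XT.lf (nat_lit 0) (nat_lit 363607188740) (nat_lit 152) (nat_lit 400321251415) (nat_lit 0) (nat_lit 360967512141) (nat_lit 1) (nat_lit 5) (nat_lit 3) (nat_lit 4) (nat_lit 1) (nat_lit 4) (nat_lit 327) (nat_lit 217) (nat_lit 176))))) (XT.nd (nat_lit 234)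 (nat_lit 0) (nat_lit 0) (XT.nd (nat_lit 78) (nat_lit 0) (nat_lit 0) (XT.lf (nat_lit 0) (nat_lit 393471758025) (nat_lit 152) (nat_lit 430510832427) (nat_lit 0) (nat_lit 390823376618) (nat_lit 1) (nat_lit 5) (nat_lit 3) (nat_lit 4) (nat_lit 1) (nat_lit 4) (nat_lit 328) (nat_lit 217) (nat_lit 175)) (XT.nd (nat_lit 78) (nat_lit 0) (nat_lit 0) (XT.lf (nat_lit 0) (nat_lit 425719892984) (nat_lit 152) (nat_lit 463125897341) (nat_lit 0) (nat_lit 423063451570) (nat_lit 1) (nat_lit 5) (nat_lit 3) (nat_lit 4) (nat_lit 1) (nat_lit 4) (nat_lit 329) (nat_lit 217) (nat_lit 174)) (XT.lf (nat_lit 0) (nat_lit 460542693675) (nat_lit 152) (nat_lit 498359720616) (nat_lit 0) (nat_lit 457878789291) (nat_lit 1) (nat_lit 5) (nat_lit 3) (nat_lit 4) (nat_lit 1) (nat_lit 4) (nat_lit 330) (nat_lit 217) (nat_lit 173)))) (XT.nd (nat_lit 78) (nat_lit 0) (nat_lit 0) (XT.lf (nat_lit 0) (nat_lit 498146517436) (nat_lit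 152) (nat_lit 536421095279) (nat_lit 0) (nat_lit 495475702894) (nat_lit 1) (nat_lit 5) (nat_lit 3) (nat_lit 4) (nat_lit 1) (nat_lit 4) (nat_lit 331) (nat_lit 217) (nat_lit 172)) (XT.nd (nat_lit 78) (nat_lit 0) (nat_lit 0) (XT.lf (nat_lit 0) (nat_lit 538754201740) (nat_lit 152) (nat_lit 577535570216) (nat_lit 0) (nat_lit 536076988905) (nat_lit 1) (nat_lit 5) (nat_lit 3) (nat_lit 4) (nat_lit 1) (nat_lit 4) (nat_lit 332) (nat_lit 217) (nat_lit 171)) (XT.lf (nat_lit 0) (nat_lit 582606384717) (nat_lit 152) (nat_lit 621946786762) (nat_lit 0) (nat_lit 579923247537) (nat_lit 1) (nat_lit 5) (nat_lit 3) (nat_lit 4) (nat_lit 1) (nat_lit 4) (nat_lit 333) (nat_lit 217) (nat_lit 170)))))) (XT.nd (nat_lit 33696) (nat_lit 0) (nat_lit 0) (XT.nd (nat_lit 234) (nat_lit 0) (nat_lit 0) (XT.nd (nat_lit 78) (nat_lit 0) (nat_lit 0) (XT.lf (nat_lit 0) (nat_lit 629962931156) (nat_lit 152) (nat_lit 669917922495)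 (nat_lit 0) (nat_lit 627274308470) (nat_lit 1) (nat_lit 5) (nat_lit 3) (nat_lit 4) (nat_lit 1) (nat_lit 4) (nat_lit 334) (nat_lit 217) (nat_lit 169)) (XT.nd (nat_lit 78) (nat_lit 0) (nat_lit 0) (XT.lf (nat_lit 0) (nat_lit 681104472441) (nat_lit 152) (nat_lit 721733250812) (nat_lit 0) (nat_lit 678410770584) (nat_lit 1) (nat_lit 5) (nat_lit 3) (nat_lit 4) (nat_lit 1) (nat_lit 4) (nat_lit 335) (nat_lit 217) (nat_lit 168)) (XT.lf (nat_lit 0) (nat_lit 736334069560) (nat_lit 152) (nat_lit 777699825511) (nat_lit 0) (nat_lit 733635664765) (nat_lit 1) (nat_lit 5) (nat_lit 3) (nat_lit 4) (nat_lit 1) (nat_lit 4) (nat_lit 336) (nat_lit 217) (nat_lit 167)))) (XT.nd (nat_lit 78) (nat_lit 0) (nat_lit 0) (XT.lf (nat_lit 0) (nat_lit 795979009012) (nat_lit 152) (nat_lit 838149300367) (nat_lit 0) (nat_lit 793276249647) (nat_lit 1) (nat_lit 5) (nat_lit 3) (nat_lit 4) (nat_lit 1) (nat_lit 4) (nat_lit 337)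 (nat_lit 217) (nat_lit 166)) (XT.nd (nat_lit 33306) (nat_lit 0) (nat_lit 152) (XT.lf (nat_lit 0) (nat_lit 860392742292) (nat_lit 152) (nat_lit 903439894492) (nat_lit 0) (nat_lit 857685950916) (nat_lit 1) (nat_lit 5) (nat_lit 3) (nat_lit 4) (nat_lit 1) (nat_lit 4) (nat_lit 338) (nat_lit 217) (nat_lit 165)) (XT.lf (nat_lit 0) (nat_lit 13466031157) (nat_lit 76) (nat_lit 4027442733) (nat_lit 76) (nat_lit 4027442733) (nat_lit 3) (nat_lit 4) (nat_lit 4) (nat_lit 5) (nat_lit 4) (nat_lit 4) (nat_lit 284) (nat_lit 218) (nat_lit 218))))) (XT.nd (nat_lit 234) (nat_lit 152) (nat_lit 0) (XT.nd (nat_lit 78) (nat_lit 0) (nat_lit 0) (XT.lf (nat_lit 0) (nat_lit 33861948398) (nat_lit 76) (nat_lit 6321481469) (nat_lit 76) (nat_lit 6083260123) (nat_lit 3) (nat_lit 4) (nat_lit 4) (nat_lit 5) (nat_lit 4) (nat_lit 4) (nat_lit 285) (nat_lit 218) (nat_lit 217)) (XT.nd (nat_lit 78) (nat_lit 0) (nat_lit 0) (XT.lf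 (nat_lit 0) (nat_lit 41113392084) (nat_lit 76) (nat_lit 4552796451) (nat_lit 76) (nat_lit 4093999784) (nat_lit 3) (nat_lit 4) (nat_lit 4) (nat_lit 5) (nat_lit 4) (nat_lit 4) (nat_lit 286) (nat_lit 218) (nat_lit 216)) (XT.lf (nat_lit 0) (nat_lit 48729364891) (nat_lit 76) (nat_lit 2738349316) (nat_lit 76) (nat_lit 2075316241) (nat_lit 3) (nat_lit 4) (nat_lit 4) (nat_lit 5) (nat_lit 4) (nat_lit 4) (nat_lit 287) (nat_lit 218) (nat_lit 215)))) (XT.nd (nat_lit 78) (nat_lit 152) (nat_lit 0) (XT.lf (nat_lit 0) (nat_lit 56754998510) (nat_lit 76) (nat_lit 867387784) (nat_lit 76) (nat_lit 15246925) (nat_lit 3) (nat_lit 4) (nat_lit 4) (nat_lit 5) (nat_lit 4) (nat_lit 4) (nat_lit 288) (nat_lit 218) (nat_lit 214)) (XT.nd (nat_lit 78) (nat_lit 0) (nat_lit 0) (XT.lf (nat_lit 0) (nat_lit 2101533555) (nat_lit 152) (nat_lit 58803658132) (nat_lit 0) (nat_lit 1150384795) (nat_lit 1) (nat_lit 5) (nat_lit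 3) (nat_lit 4) (nat_lit 1) (nat_lit 4) (nat_lit 289) (nat_lit 218) (nat_lit 213)) (XT.lf (nat_lit 0) (nat_lit 4329822805) (nat_lit 152) (nat_lit 59273309928) (nat_lit 0) (nat_lit 3228554188) (nat_lit 1) (nat_lit 5) (nat_lit 3) (nat_lit 4) (nat_lit 1) (nat_lit 4) (nat_lit 290) (nat_lit 218) (nat_lit 212))))))) (XT.nd (nat_lit 936) (nat_lit 0) (nat_lit 0) (XT.nd (nat_lit 468) (nat_lit 0) (nat_lit 0) (XT.nd (nat_lit 234) (nat_lit 0) (nat_lit 0) (XT.nd (nat_lit 78) (nat_lit 0) (nat_lit 0) (XT.lf (nat_lit 0) (nat_lit 6639801939) (nat_lit 152) (nat_lit 59958464255) (nat_lit 0) (nat_lit 5399533456) (nat_lit 1) (nat_lit 5) (nat_lit 3) (nat_lit 4) (nat_lit 1) (nat_lit 4) (nat_lit 291) (nat_lit 218) (nat_lit 211)) (XT.nd (nat_lit 78) (nat_lit 0) (nat_lit 0) (XT.lf (nat_lit 0) (nat_lit 9045159724) (nat_lit 152) (nat_lit 60863181287) (nat_lit 0) (nat_lit 7676187660) (nat_lit 1) (nat_lit 5) (nat_lit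 3) (nat_lit 4) (nat_lit 1) (nat_lit 4) (nat_lit 292) (nat_lit 218) (nat_lit 210)) (XT.lf (nat_lit 0) (nat_lit 11560150131) (nat_lit 152) (nat_lit 61992822310) (nat_lit 0) (nat_lit 10072008085) (nat_lit 1) (nat_lit 5) (nat_lit 3) (nat_lit 4) (nat_lit 1) (nat_lit 4) (nat_lit 293) (nat_lit 218) (nat_lit 209)))) (XT.nd (nat_lit 78) (nat_lit 0) (nat_lit 0) (XT.lf (nat_lit 0) (nat_lit 14199676808) (nat_lit 152) (nat_lit 63354081493) (nat_lit 0) (nat_lit 12601192185) (nat_lit 1) (nat_lit 5) (nat_lit 3) (nat_lit 4) (nat_lit 1) (nat_lit 4) (nat_lit 294) (nat_lit 218) (nat_lit 208)) (XT.nd (nat_lit 78) (nat_lit 0) (nat_lit 0) (XT.lf (nat_lit 0) (nat_lit 16979381393) (nat_lit 152) (nat_lit 64955025557) (nat_lit 0) (nat_lit 15278727718) (nat_lit 1) (nat_lit 5) (nat_lit 3) (nat_lit 4) (nat_lit 1) (nat_lit 4) (nat_lit 295) (nat_lit 218) (nat_lit 207)) (XT.lf (nat_lit 0) (nat_lit 19915736209) (nat_lit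 152) (nat_lit 66805141577) (nat_lit 0) (nat_lit 18120481560) (nat_lit 1) (nat_lit 5) (nat_lit 3) (nat_lit 4) (nat_lit 1) (nat_lit 4) (nat_lit 296) (nat_lit 218) (nat_lit 206))))) (XT.nd (nat_lit 234) (nat_lit 0) (nat_lit 0) (XT.nd (nat_lit 78) (nat_lit 0) (nat_lit 0) (XT.lf (nat_lit 0) (nat_lit 23026141880) (nat_lit 152) (nat_lit 68915393206) (nat_lit 0) (nat_lit 21143293736) (nat_lit 1) (nat_lit 5) (nat_lit 3) (nat_lit 4) (nat_lit 1) (nat_lit 4) (nat_lit 297) (nat_lit 218) (nat_lit 205)) (XT.nd (nat_lit 78) (nat_lit 0) (nat_lit 0) (XT.lf (nat_lit 0) (nat_lit 26329030437) (nat_lit 152) (nat_lit 71298285637) (nat_lit 0) (nat_lit 24365077206) (nat_lit 1) (nat_lit 5) (nat_lit 3) (nat_lit 4) (nat_lit 1) (nat_lit 4) (nat_lit 298) (nat_lit 218) (nat_lit 204)) (XT.lf (nat_lit 0) (nat_lit 29843974553) (nat_lit 152) (nat_lit 73967939714) (nat_lit 0) (nat_lit 27804924019) (nat_lit 1) (nat_lit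 5) (nat_lit 3) (nat_lit 4) (nat_lit 1) (nat_lit 4) (nat_lit 299) (nat_lit 218) (nat_lit 203)))) (XT.nd (nat_lit 78) (nat_lit 0) (nat_lit 0) (XT.lf (nat_lit 0) (nat_lit 33591803529) (nat_lit 152) (nat_lit 76940175609) (nat_lit 0) (nat_lit 31483218454) (nat_lit 1) (nat_lit 5) (nat_lit 3) (nat_lit 4) (nat_lit 1) (nat_lit 4) (nat_lit 300) (nat_lit 218) (nat_lit 202)) (XT.nd (nat_lit 78) (nat_lit 0) (nat_lit 0) (XT.lf (nat_lit 0) (nat_lit 37594726719) (nat_lit 152) (nat_lit 80232606574) (nat_lit 0) (nat_lit 35421757811) (nat_lit 1) (nat_lit 5) (nat_lit 3) (nat_lit 4) (nat_lit 1) (nat_lit 4) (nat_lit 301) (nat_lit 218) (nat_lit 201)) (XT.lf (nat_lit 0) (nat_lit 41876465150) (nat_lit 152) (nat_lit 83864743308) (nat_lit 0) (nat_lit 39643881582) (nat_lit 1) (nat_lit 5) (nat_lit 3) (nat_lit 4) (nat_lit 1) (nat_lit 4) (nat_lit 302) (nat_lit 218) (nat_lit 200)))))) (XT.nd (nat_lit 468) (nat_lit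 0) (nat_lit 0) (XT.nd (nat_lit 234) (nat_lit 0) (nat_lit 0) (XT.nd (nat_lit 78) (nat_lit 0) (nat_lit 0) (XT.lf (nat_lit 0) (nat_lit 46462392088) (nat_lit 152) (nat_lit 87858109587) (nat_lit 0) (nat_lit 44174609760) (nat_lit 1) (nat_lit 5) (nat_lit 3) (nat_lit 4) (nat_lit 1) (nat_lit 4) (nat_lit 303) (nat_lit 218) (nat_lit 199)) (XT.nd (nat_lit 78) (nat_lit 0) (nat_lit 0) (XT.lf (nat_lit 0) (nat_lit 51379683395) (nat_lit 152) (nat_lit 92236369801) (nat_lit 0) (nat_lit 49040791105) (nat_lit 1) (nat_lit 5) (nat_lit 3) (nat_lit 4) (nat_lit 1) (nat_lit 4) (nat_lit 304) (nat_lit 218) (nat_lit 198)) (XT.lf (nat_lit 0) (nat_lit 56657478576) (nat_lit 152) (nat_lit 97025469198) (nat_lit 0) (nat_lit 54271262246) (nat_lit 1) (nat_lit 5) (nat_lit 3) (nat_lit 4) (nat_lit 1) (nat_lit 4) (nat_lit 305) (nat_lit 218) (nat_lit 197)))) (XT.nd (nat_lit 78) (nat_lit 0) (nat_lit 0) (XT.lf (nat_lit 0) (nat_lit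 62327053454) (nat_lit 152) (nat_lit 102253787625) (nat_lit 0) (nat_lit 59897018569) (nat_lit 1) (nat_lit 5) (nat_lit 3) (nat_lit 4) (nat_lit 1) (nat_lit 4) (nat_lit 306) (nat_lit 218) (nat_lit 196)) (XT.nd (nat_lit 78) (nat_lit 0) (nat_lit 0) (XT.lf (nat_lit 0) (nat_lit 68422005510) (nat_lit 152) (nat_lit 107952307711) (nat_lit 0) (nat_lit 65951397888) (nat_lit 1) (nat_lit 5) (nat_lit 3) (nat_lit 4) (nat_lit 1) (nat_lit 4) (nat_lit 307) (nat_lit 218) (nat_lit 195)) (XT.lf (nat_lit 0) (nat_lit 74978452977) (nat_lit 152) (nat_lit 114154798462) (nat_lit 0) (nat_lit 72470278007) (nat_lit 1) (nat_lit 5) (nat_lit 3) (nat_lit 4) (nat_lit 1) (nat_lit 4) (nat_lit 308) (nat_lit 218) (nat_lit 194))))) (XT.nd (nat_lit 234) (nat_lit 0) (nat_lit 0) (XT.nd (nat_lit 78) (nat_lit 0) (nat_lit 0) (XT.lf (nat_lit 0) (nat_lit 82035248879) (nat_lit 152) (nat_lit 120898015381) (nat_lit 0) (nat_lit 79492289327)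 (nat_lit 1) (nat_lit 5) (nat_lit 3) (nat_lit 4) (nat_lit 1) (nat_lit 4) (nat_lit 309) (nat_lit 218) (nat_lit 193)) (XT.nd (nat_lit 78) (nat_lit 0) (nat_lit 0) (XT.lf (nat_lit 0) (nat_lit 89634211265) (nat_lit 152) (nat_lit 128221918270) (nat_lit 0) (nat_lit 87059043766) (nat_lit 1) (nat_lit 5) (nat_lit 3) (nat_lit 4) (nat_lit 1) (nat_lit 4) (nat_lit 310) (nat_lit 218) (nat_lit 192)) (XT.lf (nat_lit 0) (nat_lit 97820371022) (nat_lit 152) (nat_lit 136169908036) (nat_lit 0) (nat_lit 95215381351) (nat_lit 1) (nat_lit 5) (nat_lit 3) (nat_lit 4) (nat_lit 1) (nat_lit 4) (nat_lit 311) (nat_lit 218) (nat_lit 191)))) (XT.nd (nat_lit 156) (nat_lit 0) (nat_lit 0) (XT.nd (nat_lit 78) (nat_lit 0) (nat_lit 0) (XT.lf (nat_lit 0) (nat_lit 106642238728) (nat_lit 152) (nat_lit 144789083877) (nat_lit 0) (nat_lit 104009635935) (nat_lit 1) (nat_lit 5) (nat_lit 3) (nat_lit 4) (nat_lit 1) (nat_lit 4) (nat_lit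 312) (nat_lit 218) (nat_lit 190)) (XT.lf (nat_lit 0) (nat_lit 116152092117) (nat_lit 152) (nat_lit 154130522391) (nat_lit 0) (nat_lit 113493921618) (nat_lit 1) (nat_lit 5) (nat_lit 3) (nat_lit 4) (nat_lit 1) (nat_lit 4) (nat_lit 313) (nat_lit 218) (nat_lit 189))) (XT.nd (nat_lit 78) (nat_lit 0) (nat_lit 0) (XT.lf (nat_lit 0) (nat_lit 126406285876) (nat_lit 152) (nat_lit 164249580251) (nat_lit 0) (nat_lit 123724441575) (nat_lit 1) (nat_lit 5) (nat_lit 3) (nat_lit 4) (nat_lit 1) (nat_lit 4) (nat_lit 314) (nat_lit 218) (nat_lit 188)) (XT.lf (nat_lit 0) (nat_lit 137465585597) (nat_lit 152) (nat_lit 175206222244) (nat_lit 0) (nat_lit 134761821109) (nat_lit 1) (nat_lit 5) (nat_lit 3) (nat_lit 4) (nat_lit 1) (nat_lit 4) (nat_lit 315) (nat_lit 218) (nat_lit 187))))))))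
noncomputable def xc16 : XT := (XT.nd (nat_lit 34944) (nat_lit 0) (nat_lit 0) (XT.nd (nat_lit 936) (nat_lit 0) (nat_lit 0) (XT.nd (nat_lit 468) (nat_lit 0) (nat_lit 0) (XT.nd (nat_lit 234) (nat_lit 0) (nat_lit 0) (XT.nd (nat_lit 78) (nat_lit 0) (nat_lit 0) (XT.lf (nat_lit 0) (nat_lit 149395527872) (nat_lit 152) (nat_lit 187065376618) (nat_lit 0) (nat_lit 146671466914) (nat_lit 1) (nat_lit 5) (nat_lit 3) (nat_lit 4) (nat_lit 1) (nat_lit 4) (nat_lit 316) (nat_lit 218) (nat_lit 186)) (XT.nd (nat_lit 78) (nat_lit 0) (nat_lit 0) (XT.lf (nat_lit 0) (nat_lit 162266808654) (nat_lit 152) (nat_lit 199897319845) (nat_lit 0) (nat_lit 159523954669) (nat_lit 1) (nat_lit 5) (nat_lit 3) (nat_lit 4) (nat_lit 1) (nat_lit 4) (nat_lit 317) (nat_lit 218) (nat_lit 185)) (XT.lf (nat_lit 0) (nat_lit 176155702200) (nat_lit 152) (nat_lit 213778093069) (nat_lit 0) (nat_lit 173395447263) (nat_lit 1) (nat_lit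 5) (nat_lit 3) (nat_lit 4) (nat_lit 1) (nat_lit 4) (nat_lit 318) (nat_lit 218) (nat_lit 184)))) (XT.nd (nat_lit 78) (nat_lit 0) (nat_lit 0) (XT.lf (nat_lit 0) (nat_lit 191144513064) (nat_lit 152) (nat_lit 228789952724) (nat_lit 0) (nat_lit 188368146136) (nat_lit 1) (nat_lit 5) (nat_lit 3) (nat_lit 4) (nat_lit 1) (nat_lit 4) (nat_lit 319) (nat_lit 218) (nat_lit 183)) (XT.nd (nat_lit 78) (nat_lit 0) (nat_lit 0) (XT.lf (nat_lit 0) (nat_lit 207322063830) (nat_lit 152) (nat_lit 245021857979) (nat_lit 0) (nat_lit 204530778391) (nat_lit 1) (nat_lit 5) (nat_lit 3) (nat_lit 4) (nat_lit 1) (nat_lit 4) (nat_lit 320) (nat_lit 218) (nat_lit 182)) (XT.lf (nat_lit 0) (nat_lit 224784221464) (nat_lit 152) (nat_lit 262569997901) (nat_lit 0) (nat_lit 221979122589) (nat_lit 1) (nat_lit 5) (nat_lit 3) (nat_lit 4) (nat_lit 1) (nat_lit 4) (nat_lit 321) (nat_lit 218) (nat_lit 181))))) (XT.nd (nat_lit 234)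 (nat_lit 0) (nat_lit 0) (XT.nd (nat_lit 78) (nat_lit 0) (nat_lit 0) (XT.lf (nat_lit 0) (nat_lit 243634465420) (nat_lit 152) (nat_lit 281538361469) (nat_lit 0) (nat_lit 240816576326) (nat_lit 1) (nat_lit 5) (nat_lit 3) (nat_lit 4) (nat_lit 1) (nat_lit 4) (nat_lit 322) (nat_lit 218) (nat_lit 180)) (XT.nd (nat_lit 78) (nat_lit 0) (nat_lit 0) (XT.lf (nat_lit 0) (nat_lit 263984500846) (nat_lit 152) (nat_lit 302039353798) (nat_lit 0) (nat_lit 261154768958) (nat_lit 1) (nat_lit 5) (nat_lit 3) (nat_lit 4) (nat_lit 1) (nat_lit 4) (nat_lit 323) (nat_lit 218) (nat_lit 179)) (XT.lf (nat_lit 0) (nat_lit 285954920546) (nat_lit 152) (nat_lit 324194462252) (nat_lit 0) (nat_lit 283114223107) (nat_lit 1) (nat_lit 5) (nat_lit 3) (nat_lit 4) (nat_lit 1) (nat_lit 4) (nat_lit 324) (nat_lit 218) (nat_lit 178)))) (XT.nd (nat_lit 78) (nat_lit 0) (nat_lit 0) (XT.lf (nat_lit 0) (nat_lit 309675919599) (nat_lit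 152) (nat_lit 348134976362) (nat_lit 0) (nat_lit 306825068872) (nat_lit 1) (nat_lit 5) (nat_lit 3) (nat_lit 4) (nat_lit 1) (nat_lit 4) (nat_lit 325) (nat_lit 218) (nat_lit 177)) (XT.nd (nat_lit 78) (nat_lit 0) (nat_lit 0) (XT.lf (nat_lit 0) (nat_lit 335288066888) (nat_lit 152) (nat_lit 374002765841) (nat_lit 0) (nat_lit 332427814969) (nat_lit 1) (nat_lit 5) (nat_lit 3) (nat_lit 4) (nat_lit 1) (nat_lit 4) (nat_lit 326) (nat_lit 218) (nat_lit 176)) (XT.lf (nat_lit 0) (nat_lit 362943138101) (nat_lit 152) (nat_lit 401951121294) (nat_lit 0) (nat_lit 360074181374) (nat_lit 1) (nat_lit 5) (nat_lit 3) (nat_lit 4) (nat_lit 1) (nat_lit 4) (nat_lit 327) (nat_lit 218) (nat_lit 175)))))) (XT.nd (nat_lit 468) (nat_lit 0) (nat_lit 0) (XT.nd (nat_lit 234) (nat_lit 0) (nat_lit 0) (XT.nd (nat_lit 78) (nat_lit 0) (nat_lit 0) (XT.lf (nat_lit 0) (nat_lit 392805015142) (nat_lit 152) (nat_lit 432145662604)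 (nat_lit 0) (nat_lit 389927998407) (nat_lit 1) (nat_lit 5) (nat_lit 3) (nat_lit 4) (nat_lit 1) (nat_lit 4) (nat_lit 328) (nat_lit 218) (nat_lit 174)) (XT.nd (nat_lit 78) (nat_lit 0) (nat_lit 0) (XT.lf (nat_lit 0) (nat_lit 425050657281) (nat_lit 152) (nat_lit 464765320387) (nat_lit 0) (nat_lit 422166177577) (nat_lit 1) (nat_lit 5) (nat_lit 3) (nat_lit 4) (nat_lit 1) (nat_lit 4) (nat_lit 329) (nat_lit 218) (nat_lit 173)) (XT.lf (nat_lit 0) (nat_lit 459871149806) (nat_lit 152) (nat_lit 500003396319) (nat_lit 0) (nat_lit 456979759944) (nat_lit 1) (nat_lit 5) (nat_lit 3) (nat_lit 4) (nat_lit 1) (nat_lit 4) (nat_lit 330) (nat_lit 218) (nat_lit 172)))) (XT.nd (nat_lit 78) (nat_lit 0) (nat_lit 0) (XT.lf (nat_lit 0) (nat_lit 497472836376) (nat_lit 152) (nat_lit 538068708627) (nat_lit 0) (nat_lit 494575048220) (nat_lit 1) (nat_lit 5) (nat_lit 3) (nat_lit 4) (nat_lit 1) (nat_lit 4) (nat_lit 331)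 (nat_lit 218) (nat_lit 171)) (XT.nd (nat_lit 78) (nat_lit 0) (nat_lit 0) (XT.lf (nat_lit 0) (nat_lit 538078541799) (nat_lit 152) (nat_lit 579186829532) (nat_lit 0) (nat_lit 535174829298) (nat_lit 1) (nat_lit 5) (nat_lit 3) (nat_lit 4) (nat_lit 1) (nat_lit 4) (nat_lit 332) (nat_lit 218) (nat_lit 170)) (XT.lf (nat_lit 0) (nat_lit 581928892480) (nat_lit 152) (nat_lit 623601421974) (nat_lit 0) (nat_lit 579019694474) (nat_lit 1) (nat_lit 5) (nat_lit 3) (nat_lit 4) (nat_lit 1) (nat_lit 4) (nat_lit 333) (nat_lit 218) (nat_lit 169))))) (XT.nd (nat_lit 234) (nat_lit 0) (nat_lit 0) (XT.nd (nat_lit 78) (nat_lit 0) (nat_lit 0) (XT.lf (nat_lit 0) (nat_lit 629283742348) (nat_lit 152) (nat_lit 671575683537) (nat_lit 0) (nat_lit 626369465169) (nat_lit 1) (nat_lit 5) (nat_lit 3) (nat_lit 4) (nat_lit 1) (nat_lit 4) (nat_lit 334) (nat_lit 218) (nat_lit 168)) (XT.nd (nat_lit 78) (nat_lit 0) (nat_lit 0)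 (XT.lf (nat_lit 0) (nat_lit 680423712734) (nat_lit 152) (nat_lit 723393906140) (nat_lit 0) (nat_lit 677504732619) (nat_lit 1) (nat_lit 5) (nat_lit 3) (nat_lit 4) (nat_lit 1) (nat_lit 4) (nat_lit 335) (nat_lit 218) (nat_lit 167)) (XT.lf (nat_lit 0) (nat_lit 735651855316) (nat_lit 152) (nat_lit 779363160734) (nat_lit 0) (nat_lit 732728520630) (nat_lit 1) (nat_lit 5) (nat_lit 3) (nat_lit 4) (nat_lit 1) (nat_lit 4) (nat_lit 336) (nat_lit 218) (nat_lit 166)))) (XT.nd (nat_lit 78) (nat_lit 0) (nat_lit 0) (XT.lf (nat_lit 0) (nat_lit 795295447976) (nat_lit 152) (nat_lit 839815116975) (nat_lit 0) (nat_lit 792368081279) (nat_lit 1) (nat_lit 5) (nat_lit 3) (nat_lit 4) (nat_lit 1) (nat_lit 4) (nat_lit 337) (nat_lit 218) (nat_lit 165)) (XT.nd (nat_lit 33150) (nat_lit 0) (nat_lit 152) (XT.lf (nat_lit 0) (nat_lit 859707934225) (nat_lit 152) (nat_lit 905108008678) (nat_lit 0) (nat_lit 856776834186)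 (nat_lit 1) (nat_lit 5) (nat_lit 3) (nat_lit 4) (nat_lit 1) (nat_lit 4) (nat_lit 338) (nat_lit 218) (nat_lit 164)) (XT.lf (nat_lit 0) (nat_lit 7002463452) (nat_lit 76) (nat_lit 5828045343) (nat_lit 76) (nat_lit 5828045343) (nat_lit 3) (nat_lit 4) (nat_lit 4) (nat_lit 5) (nat_lit 4) (nat_lit 4) (nat_lit 282) (nat_lit 219) (nat_lit 219))))))) (XT.nd (nat_lit 936) (nat_lit 0) (nat_lit 0) (XT.nd (nat_lit 468) (nat_lit 152) (nat_lit 0) (XT.nd (nat_lit 234) (nat_lit 0) (nat_lit 0) (XT.nd (nat_lit 78) (nat_lit 0) (nat_lit 0) (XT.lf (nat_lit 0) (nat_lit 20282667843) (nat_lit 76) (nat_lit 10020559520) (nat_lit 76) (nat_lit 9763280467) (nat_lit 3) (nat_lit 4) (nat_lit 4) (nat_lit 5) (nat_lit 4) (nat_lit 4) (nat_lit 283) (nat_lit 219) (nat_lit 218)) (XT.nd (nat_lit 78) (nat_lit 0) (nat_lit 0) (XT.lf (nat_lit 0) (nat_lit 26811168110) (nat_lit 76) (nat_lit 8365848464) (nat_lit 76) (nat_lit 7870348064)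 (nat_lit 3) (nat_lit 4) (nat_lit 4) (nat_lit 5) (nat_lit 4) (nat_lit 4) (nat_lit 284) (nat_lit 219) (nat_lit 217)) (XT.lf (nat_lit 0) (nat_lit 33629115114) (nat_lit 76) (nat_lit 6682151822) (nat_lit 76) (nat_lit 5966076101) (nat_lit 3) (nat_lit 4) (nat_lit 4) (nat_lit 5) (nat_lit 4) (nat_lit 4) (nat_lit 285) (nat_lit 219) (nat_lit 216)))) (XT.nd (nat_lit 78) (nat_lit 0) (nat_lit 0) (XT.lf (nat_lit 0) (nat_lit 40776911505) (nat_lit 76) (nat_lit 4959492133) (nat_lit 76) (nat_lit 4039180005) (nat_lit 3) (nat_lit 4) (nat_lit 4) (nat_lit 5) (nat_lit 4) (nat_lit 4) (nat_lit 286) (nat_lit 219) (nat_lit 215)) (XT.nd (nat_lit 78) (nat_lit 0) (nat_lit 0) (XT.lf (nat_lit 0) (nat_lit 48296914594) (nat_lit 76) (nat_lit 3187661043) (nat_lit 76) (nat_lit 2078241130) (nat_lit 3) (nat_lit 4) (nat_lit 4) (nat_lit 5) (nat_lit 4) (nat_lit 4) (nat_lit 287) (nat_lit 219) (nat_lit 214)) (XT.lf (nat_lit 0)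 (nat_lit 56233687364) (nat_lit 76) (nat_lit 1356158813) (nat_lit 76) (nat_lit 71639099) (nat_lit 3) (nat_lit 4) (nat_lit 4) (nat_lit 5) (nat_lit 4) (nat_lit 4) (nat_lit 288) (nat_lit 219) (nat_lit 213))))) (XT.nd (nat_lit 234) (nat_lit 0) (nat_lit 0) (XT.nd (nat_lit 78) (nat_lit 0) (nat_lit 0) (XT.lf (nat_lit 0) (nat_lit 1971903502) (nat_lit 152) (nat_lit 59481402108) (nat_lit 0) (nat_lit 632413540) (nat_lit 1) (nat_lit 5) (nat_lit 3) (nat_lit 4) (nat_lit 1) (nat_lit 4) (nat_lit 289) (nat_lit 219) (nat_lit 212)) (XT.nd (nat_lit 78) (nat_lit 0) (nat_lit 0) (XT.lf (nat_lit 0) (nat_lit 4153763302) (nat_lit 152) (nat_lit 60036597360) (nat_lit 0) (nat_lit 2675273473) (nat_lit 1) (nat_lit 5) (nat_lit 3) (nat_lit 4) (nat_lit 1) (nat_lit 4) (nat_lit 290) (nat_lit 219) (nat_lit 211)) (XT.lf (nat_lit 0) (nat_lit 6420752206) (nat_lit 152) (nat_lit 60800958590) (nat_lit 0) (nat_lit 4813558795)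 (nat_lit 1) (nat_lit 5) (nat_lit 3) (nat_lit 4) (nat_lit 1) (nat_lit 4) (nat_lit 291) (nat_lit 219) (nat_lit 210)))) (XT.nd (nat_lit 78) (nat_lit 0) (nat_lit 0) (XT.lf (nat_lit 0) (nat_lit 8786304221) (nat_lit 152) (nat_lit 61779015347) (nat_lit 0) (nat_lit 7059940829) (nat_lit 1) (nat_lit 5) (nat_lit 3) (nat_lit 4) (nat_lit 1) (nat_lit 4) (nat_lit 292) (nat_lit 219) (nat_lit 209)) (XT.nd (nat_lit 78) (nat_lit 0) (nat_lit 0) (XT.lf (nat_lit 0) (nat_lit 11264437434) (nat_lit 152) (nat_lit 62976563523) (nat_lit 0) (nat_lit 9427731466) (nat_lit 1) (nat_lit 5) (nat_lit 3) (nat_lit 4) (nat_lit 1) (nat_lit 4) (nat_lit 293) (nat_lit 219) (nat_lit 208)) (XT.lf (nat_lit 0) (nat_lit 13869837079) (nat_lit 152) (nat_lit 64400699699) (nat_lit 0) (nat_lit 11930962058) (nat_lit 1) (nat_lit 5) (nat_lit 3) (nat_lit 4) (nat_lit 1) (nat_lit 4) (nat_lit 294) (nat_lit 219) (nat_lit 207)))))) (XT.nd (nat_lit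 468) (nat_lit 0) (nat_lit 0) (XT.nd (nat_lit 234) (nat_lit 0) (nat_lit 0) (XT.nd (nat_lit 78) (nat_lit 0) (nat_lit 0) (XT.lf (nat_lit 0) (nat_lit 16617942561) (nat_lit 152) (nat_lit 66059863202) (nat_lit 0) (nat_lit 14584466566) (nat_lit 1) (nat_lit 5) (nat_lit 3) (nat_lit 4) (nat_lit 1) (nat_lit 4) (nat_lit 295) (nat_lit 219) (nat_lit 206)) (XT.nd (nat_lit 78) (nat_lit 0) (nat_lit 0) (XT.lf (nat_lit 0) (nat_lit 19525038949) (nat_lit 152) (nat_lit 67963886110) (nat_lit 0) (nat_lit 17403969459) (nat_lit 1) (nat_lit 5) (nat_lit 3) (nat_lit 4) (nat_lit 1) (nat_lit 4) (nat_lit 296) (nat_lit 219) (nat_lit 205)) (XT.lf (nat_lit 0) (nat_lit 22608353481) (nat_lit 152) (nat_lit 70124051523) (nat_lit 0) (nat_lit 20406178904) (nat_lit 1) (nat_lit 5) (nat_lit 3) (nat_lit 4) (nat_lit 1) (nat_lit 4) (nat_lit 297) (nat_lit 219) (nat_lit 204)))) (XT.nd (nat_lit 78) (nat_lit 0) (nat_lit 0) (XT.lf (nat_lit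 0) (nat_lit 25886157651) (nat_lit 152) (nat_lit 72553160421) (nat_lit 0) (nat_lit 23608885771) (nat_lit 1) (nat_lit 5) (nat_lit 3) (nat_lit 4) (nat_lit 1) (nat_lit 4) (nat_lit 298) (nat_lit 219) (nat_lit 203)) (XT.nd (nat_lit 78) (nat_lit 0) (nat_lit 0) (XT.lf (nat_lit 0) (nat_lit 29377875484) (nat_lit 152) (nat_lit 75265607523) (nat_lit 0) (nat_lit 27031069063) (nat_lit 1) (nat_lit 5) (nat_lit 3) (nat_lit 4) (nat_lit 1) (nat_lit 4) (nat_lit 299) (nat_lit 219) (nat_lit 202)) (XT.lf (nat_lit 0) (nat_lit 33104198640) (nat_lit 152) (nat_lit 78277466591) (nat_lit 0) (nat_lit 30693008386) (nat_lit 1) (nat_lit 5) (nat_lit 3) (nat_lit 4) (nat_lit 1) (nat_lit 4) (nat_lit 300) (nat_lit 219) (nat_lit 201))))) (XT.nd (nat_lit 234) (nat_lit 0) (nat_lit 0) (XT.nd (nat_lit 78) (nat_lit 0) (nat_lit 0) (XT.lf (nat_lit 0) (nat_lit 37087209035) (nat_lit 152) (nat_lit 81606585677) (nat_lit 0) (nat_lit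 34616404121) (nat_lit 1) (nat_lit 5) (nat_lit 3) (nat_lit 4) (nat_lit 1) (nat_lit 4) (nat_lit 301) (nat_lit 219) (nat_lit 200)) (XT.nd (nat_lit 78) (nat_lit 0) (nat_lit 0) (XT.lf (nat_lit 0) (nat_lit 41350509694) (nat_lit 152) (nat_lit 85272692894) (nat_lit 0) (nat_lit 38824506019) (nat_lit 1) (nat_lit 5) (nat_lit 3) (nat_lit 4) (nat_lit 1) (nat_lit 4) (nat_lit 302) (nat_lit 219) (nat_lit 199)) (XT.lf (nat_lit 0) (nat_lit 45919364619) (nat_lit 152) (nat_lit 89297513324) (nat_lit 0) (nat_lit 43342250982) (nat_lit 1) (nat_lit 5) (nat_lit 3) (nat_lit 4) (nat_lit 1) (nat_lit 4) (nat_lit 303) (nat_lit 219) (nat_lit 198)))) (XT.nd (nat_lit 78) (nat_lit 0) (nat_lit 0) (XT.lf (nat_lit 0) (nat_lit 50820848508) (nat_lit 152) (nat_lit 93704897752) (nat_lit 0) (nat_lit 48196410831) (nat_lit 1) (nat_lit 5) (nat_lit 3) (nat_lit 4) (nat_lit 1) (nat_lit 4) (nat_lit 304) (nat_lit 219) (nat_lit 197))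 (XT.nd (nat_lit 78) (nat_lit 0) (nat_lit 0) (XT.lf (nat_lit 0) (nat_lit 56084007190) (nat_lit 152) (nat_lit 98520964014) (nat_lit 0) (nat_lit 53415750958) (nat_lit 1) (nat_lit 5) (nat_lit 3) (nat_lit 4) (nat_lit 1) (nat_lit 4) (nat_lit 305) (nat_lit 219) (nat_lit 196)) (XT.lf (nat_lit 0) (nat_lit 61740029754) (nat_lit 152) (nat_lit 103774251760) (nat_lit 0) (nat_lit 59031200786) (nat_lit 1) (nat_lit 5) (nat_lit 3) (nat_lit 4) (nat_lit 1) (nat_lit 4) (nat_lit 306) (nat_lit 219) (nat_lit 195))))))))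
noncomputable def xc17 : XT := (XT.nd (nat_lit 1872) (nat_lit 0) (nat_lit 0) (XT.nd (nat_lit 936) (nat_lit 0) (nat_lit 0) (XT.nd (nat_lit 468) (nat_lit 0) (nat_lit 0) (XT.nd (nat_lit 234) (nat_lit 0) (nat_lit 0) (XT.nd (nat_lit 78) (nat_lit 0) (nat_lit 0) (XT.lf (nat_lit 0) (nat_lit 67822433371) (nat_lit 152) (nat_lit 109495891586) (nat_lit 0) (nat_lit 65076037055) (nat_lit 1) (nat_lit 5) (nat_lit 3) (nat_lit 4) (nat_lit 1) (nat_lit 4) (nat_lit 307) (nat_lit 219) (nat_lit 194)) (XT.nd (nat_lit 78) (nat_lit 0) (nat_lit 0) (XT.lf (nat_lit 0) (nat_lit 74367261914) (nat_lit 152) (nat_lit 115719789504) (nat_lit 0) (nat_lit 71586081016) (nat_lit 1) (nat_lit 5) (nat_lit 3) (nat_lit 4) (nat_lit 1) (nat_lit 4) (nat_lit 308) (nat_lit 219) (nat_lit 193)) (XT.lf (nat_lit 0) (nat_lit 81413299552) (nat_lit 152) (nat_lit 122482827873) (nat_lit 0) (nat_lit 78599910708) (nat_lit 1) (nat_lit 5) (nat_lit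 3) (nat_lit 4) (nat_lit 1) (nat_lit 4) (nat_lit 309) (nat_lit 219) (nat_lit 192)))) (XT.nd (nat_lit 78) (nat_lit 0) (nat_lit 0) (XT.lf (nat_lit 0) (nat_lit 89002300582) (nat_lit 152) (nat_lit 129825083957) (nat_lit 0) (nat_lit 86159089566) (nat_lit 1) (nat_lit 5) (nat_lit 3) (nat_lit 4) (nat_lit 1) (nat_lit 4) (nat_lit 310) (nat_lit 219) (nat_lit 191)) (XT.nd (nat_lit 78) (nat_lit 0) (nat_lit 0) (XT.lf (nat_lit 0) (nat_lit 97179236863) (nat_lit 152) (nat_lit 137790067422) (nat_lit 0) (nat_lit 94308412724) (nat_lit 1) (nat_lit 5) (nat_lit 3) (nat_lit 4) (nat_lit 1) (nat_lit 4) (nat_lit 311) (nat_lit 219) (nat_lit 190)) (XT.lf (nat_lit 0) (nat_lit 105992564313) (nat_lit 152) (nat_lit 146424978170) (nat_lit 0) (nat_lit 103096172467) (nat_lit 1) (nat_lit 5) (nat_lit 3) (nat_lit 4) (nat_lit 1) (nat_lit 4) (nat_lit 312) (nat_lit 219) (nat_lit 189))))) (XT.nd (nat_lit 234) (nat_lit 0) (nat_lit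 0) (XT.nd (nat_lit 78) (nat_lit 0) (nat_lit 0) (XT.lf (nat_lit 0) (nat_lit 115494510057) (nat_lit 152) (nat_lit 155780986042) (nat_lit 0) (nat_lit 112574444409) (nat_lit 1) (nat_lit 5) (nat_lit 3) (nat_lit 4) (nat_lit 1) (nat_lit 4) (nat_lit 313) (nat_lit 219) (nat_lit 188)) (XT.nd (nat_lit 78) (nat_lit 0) (nat_lit 0) (XT.lf (nat_lit 0) (nat_lit 125741381922) (nat_lit 152) (nat_lit 165913534048) (nat_lit 0) (nat_lit 122799396088) (nat_lit 1) (nat_lit 5) (nat_lit 3) (nat_lit 4) (nat_lit 1) (nat_lit 4) (nat_lit 314) (nat_lit 219) (nat_lit 187)) (XT.lf (nat_lit 0) (nat_lit 136793902112) (nat_lit 152) (nat_lit 176882666917) (nat_lit 0) (nat_lit 133831619808) (nat_lit 1) (nat_lit 5) (nat_lit 3) (nat_lit 4) (nat_lit 1) (nat_lit 4) (nat_lit 315) (nat_lit 219) (nat_lit 186)))) (XT.nd (nat_lit 78) (nat_lit 0) (nat_lit 0) (XT.lf (nat_lit 0) (nat_lit 148717567043) (nat_lit 152) (nat_lit 188753386918)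 (nat_lit 0) (nat_lit 145736491712) (nat_lit 1) (nat_lit 5) (nat_lit 3) (nat_lit 4) (nat_lit 1) (nat_lit 4) (nat_lit 316) (nat_lit 219) (nat_lit 185)) (XT.nd (nat_lit 78) (nat_lit 0) (nat_lit 0) (XT.lf (nat_lit 0) (nat_lit 161583035470) (nat_lit 152) (nat_lit 201596039057) (nat_lit 0) (nat_lit 158584559188) (nat_lit 1) (nat_lit 5) (nat_lit 3) (nat_lit 4) (nat_lit 1) (nat_lit 4) (nat_lit 317) (nat_lit 219) (nat_lit 184)) (XT.lf (nat_lit 0) (nat_lit 175466547206) (nat_lit 152) (nat_lit 215486727942) (nat_lit 0) (nat_lit 172451958932) (nat_lit 1) (nat_lit 5) (nat_lit 3) (nat_lit 4) (nat_lit 1) (nat_lit 4) (nat_lit 318) (nat_lit 219) (nat_lit 183)))))) (XT.nd (nat_lit 468) (nat_lit 0) (nat_lit 0) (XT.nd (nat_lit 234) (nat_lit 0) (nat_lit 0) (XT.nd (nat_lit 78) (nat_lit 0) (nat_lit 0) (XT.lf (nat_lit 0) (nat_lit 190450374912) (nat_lit 152) (nat_lit 230507768764) (nat_lit 0) (nat_lit 187420868128)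 (nat_lit 1) (nat_lit 5) (nat_lit 3) (nat_lit 4) (nat_lit 1) (nat_lit 4) (nat_lit 319) (nat_lit 219) (nat_lit 182)) (XT.nd (nat_lit 78) (nat_lit 0) (nat_lit 0) (XT.lf (nat_lit 0) (nat_lit 206623311643) (nat_lit 152) (nat_lit 246748175099) (nat_lit 0) (nat_lit 203579991422) (nat_lit 1) (nat_lit 5) (nat_lit 3) (nat_lit 4) (nat_lit 1) (nat_lit 4) (nat_lit 320) (nat_lit 219) (nat_lit 181)) (XT.lf (nat_lit 0) (nat_lit 224081197023) (nat_lit 152) (nat_lit 264304186392) (nat_lit 0) (nat_lit 221025086584) (nat_lit 1) (nat_lit 5) (nat_lit 3) (nat_lit 4) (nat_lit 1) (nat_lit 4) (nat_lit 321) (nat_lit 219) (nat_lit 180)))) (XT.nd (nat_lit 78) (nat_lit 0) (nat_lit 0) (XT.lf (nat_lit 0) (nat_lit 242927485188) (nat_lit 152) (nat_lit 283279838265) (nat_lit 0) (nat_lit 239859531953) (nat_lit 1) (nat_lit 5) (nat_lit 3) (nat_lit 4) (nat_lit 1) (nat_lit 4) (nat_lit 322) (nat_lit 219) (nat_lit 179)) (XT.nd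 (nat_lit 78) (nat_lit 0) (nat_lit 0) (XT.lf (nat_lit 0) (nat_lit 263273857845) (nat_lit 152) (nat_lit 303787579027) (nat_lit 0) (nat_lit 260194939059) (nat_lit 1) (nat_lit 5) (nat_lit 3) (nat_lit 4) (nat_lit 1) (nat_lit 4) (nat_lit 323) (nat_lit 219) (nat_lit 178)) (XT.lf (nat_lit 0) (nat_lit 285240886091) (nat_lit 152) (nat_lit 325948936029) (nat_lit 0) (nat_lit 282151814018) (nat_lit 1) (nat_lit 5) (nat_lit 3) (nat_lit 4) (nat_lit 1) (nat_lit 4) (nat_lit 324) (nat_lit 219) (nat_lit 177))))) (XT.nd (nat_lit 234) (nat_lit 0) (nat_lit 0) (XT.nd (nat_lit 78) (nat_lit 0) (nat_lit 0) (XT.lf (nat_lit 0) (nat_lit 308958744909) (nat_lit 152) (nat_lit 349895235831) (nat_lit 0) (nat_lit 305860271644) (nat_lit 1) (nat_lit 5) (nat_lit 3) (nat_lit 4) (nat_lit 1) (nat_lit 4) (nat_lit 325) (nat_lit 219) (nat_lit 176)) (XT.nd (nat_lit 78) (nat_lit 0) (nat_lit 0) (XT.lf (nat_lit 0) (nat_lit 334567984574)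 (nat_lit 152) (nat_lit 375768382433) (nat_lit 0) (nat_lit 331460806501) (nat_lit 1) (nat_lit 5) (nat_lit 3) (nat_lit 4) (nat_lit 1) (nat_lit 4) (nat_lit 326) (nat_lit 219) (nat_lit 175)) (XT.lf (nat_lit 0) (nat_lit 362220363542) (nat_lit 152) (nat_lit 403721698184) (nat_lit 0) (nat_lit 359105125461) (nat_lit 1) (nat_lit 5) (nat_lit 3) (nat_lit 4) (nat_lit 1) (nat_lit 4) (nat_lit 327) (nat_lit 219) (nat_lit 174)))) (XT.nd (nat_lit 78) (nat_lit 0) (nat_lit 0) (XT.lf (nat_lit 0) (nat_lit 392079747763) (nat_lit 152) (nat_lit 433920832364) (nat_lit 0) (nat_lit 388957046713) (nat_lit 1) (nat_lit 5) (nat_lit 3) (nat_lit 4) (nat_lit 1) (nat_lit 4) (nat_lit 328) (nat_lit 219) (nat_lit 173)) (XT.nd (nat_lit 78) (nat_lit 0) (nat_lit 0) (XT.lf (nat_lit 0) (nat_lit 424323081736) (nat_lit 152) (nat_lit 466544742804) (nat_lit 0) (nat_lit 421193470529) (nat_lit 1) (nat_lit 5) (nat_lit 3) (nat_lit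 4) (nat_lit 1) (nat_lit 4) (nat_lit 329) (nat_lit 219) (nat_lit 172)) (XT.lf (nat_lit 0) (nat_lit 459141437070) (nat_lit 152) (nat_lit 501786756380) (nat_lit 0) (nat_lit 456005427569) (nat_lit 1) (nat_lit 5) (nat_lit 3) (nat_lit 4) (nat_lit 1) (nat_lit 4) (nat_lit 330) (nat_lit 219) (nat_lit 171))))))) (XT.nd (nat_lit 33852) (nat_lit 0) (nat_lit 0) (XT.nd (nat_lit 468) (nat_lit 0) (nat_lit 0) (XT.nd (nat_lit 234) (nat_lit 0) (nat_lit 0) (XT.nd (nat_lit 78) (nat_lit 0) (nat_lit 0) (XT.lf (nat_lit 0) (nat_lit 496741144759) (nat_lit 152) (nat_lit 539855714656) (nat_lit 0) (nat_lit 493599210912) (nat_lit 1) (nat_lit 5) (nat_lit 3) (nat_lit 4) (nat_lit 1) (nat_lit 4) (nat_lit 331) (nat_lit 219) (nat_lit 170)) (XT.nd (nat_lit 78) (nat_lit 0) (nat_lit 0) (XT.lf (nat_lit 0) (nat_lit 537345017887) (nat_lit 152) (nat_lit 580977211458) (nat_lit 0) (nat_lit 534197598534) (nat_lit 1) (nat_lit 5)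 (nat_lit 3) (nat_lit 4) (nat_lit 1) (nat_lit 4) (nat_lit 332) (nat_lit 219) (nat_lit 169)) (XT.lf (nat_lit 0) (nat_lit 581193671996) (nat_lit 152) (nat_lit 625394929729) (nat_lit 0) (nat_lit 578041173472) (nat_lit 1) (nat_lit 5) (nat_lit 3) (nat_lit 4) (nat_lit 1) (nat_lit 4) (nat_lit 333) (nat_lit 219) (nat_lit 168)))) (XT.nd (nat_lit 78) (nat_lit 0) (nat_lit 0) (XT.lf (nat_lit 0) (nat_lit 628546950964) (nat_lit 152) (nat_lit 673372085578) (nat_lit 0) (nat_lit 625389749503) (nat_lit 1) (nat_lit 5) (nat_lit 3) (nat_lit 4) (nat_lit 1) (nat_lit 4) (nat_lit 334) (nat_lit 219) (nat_lit 167)) (XT.nd (nat_lit 78) (nat_lit 0) (nat_lit 0) (XT.lf (nat_lit 0) (nat_lit 679685466815) (nat_lit 152) (nat_lit 725192988077) (nat_lit 0) (nat_lit 676523910783) (nat_lit 1) (nat_lit 5) (nat_lit 3) (nat_lit 4) (nat_lit 1) (nat_lit 4) (nat_lit 335) (nat_lit 219) (nat_lit 166)) (XT.lf (nat_lit 0) (nat_lit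 734912262604) (nat_lit 152) (nat_lit 781164724055) (nat_lit 0) (nat_lit 731746674562) (nat_lit 1) (nat_lit 5) (nat_lit 3) (nat_lit 4) (nat_lit 1) (nat_lit 4) (nat_lit 336) (nat_lit 219) (nat_lit 165))))) (XT.nd (nat_lit 33150) (nat_lit 0) (nat_lit 152) (XT.nd (nat_lit 78) (nat_lit 0) (nat_lit 0) (XT.lf (nat_lit 0) (nat_lit 794554608234) (nat_lit 152) (nat_lit 841618977874) (nat_lit 0) (nat_lit 791385286848) (nat_lit 1) (nat_lit 5) (nat_lit 3) (nat_lit 4) (nat_lit 1) (nat_lit 4) (nat_lit 337) (nat_lit 219) (nat_lit 164)) (XT.nd (nat_lit 32994) (nat_lit 0) (nat_lit 152) (XT.lf (nat_lit 0) (nat_lit 858965939825) (nat_lit 152) (nat_lit 906913996964) (nat_lit 0) (nat_lit 855793161641) (nat_lit 1) (nat_lit 5) (nat_lit 3) (nat_lit 4) (nat_lit 1) (nat_lit 4) (nat_lit 338) (nat_lit 219) (nat_lit 163)) (XT.lf (nat_lit 0) (nat_lit 1097596916) (nat_lit 76) (nat_lit 7561784848) (nat_lit 76) (nat_lit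 7561784848) (nat_lit 3) (nat_lit 4) (nat_lit 4) (nat_lit 5) (nat_lit 4) (nat_lit 4) (nat_lit 280) (nat_lit 220) (nat_lit 220)))) (XT.nd (nat_lit 78) (nat_lit 0) (nat_lit 0) (XT.lf (nat_lit 0) (nat_lit 7940743868) (nat_lit 76) (nat_lit 13559995378) (nat_lit 76) (nat_lit 13282134000) (nat_lit 3) (nat_lit 4) (nat_lit 4) (nat_lit 5) (nat_lit 4) (nat_lit 4) (nat_lit 281) (nat_lit 220) (nat_lit 219)) (XT.nd (nat_lit 78) (nat_lit 0) (nat_lit 0) (XT.lf (nat_lit 0) (nat_lit 13874361164) (nat_lit 76) (nat_lit 11991930724) (nat_lit 76) (nat_lit 11456790292) (nat_lit 3) (nat_lit 4) (nat_lit 4) (nat_lit 5) (nat_lit 4) (nat_lit 4) (nat_lit 282) (nat_lit 220) (nat_lit 218)) (XT.lf (nat_lit 0) (nat_lit 20031207897) (nat_lit 76) (nat_lit 10410083501) (nat_lit 76) (nat_lit 9636721724) (nat_lit 3) (nat_lit 4) (nat_lit 4) (nat_lit 5) (nat_lit 4) (nat_lit 4) (nat_lit 283) (nat_lit 220) (nat_lit 217))))))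 (XT.nd (nat_lit 468) (nat_lit 0) (nat_lit 0) (XT.nd (nat_lit 234) (nat_lit 152) (nat_lit 0) (XT.nd (nat_lit 78) (nat_lit 0) (nat_lit 0) (XT.lf (nat_lit 0) (nat_lit 26447769085) (nat_lit 76) (nat_lit 8805079800) (nat_lit 76) (nat_lit 7811142702) (nat_lit 3) (nat_lit 4) (nat_lit 4) (nat_lit 5) (nat_lit 4) (nat_lit 4) (nat_lit 284) (nat_lit 220) (nat_lit 216)) (XT.nd (nat_lit 78) (nat_lit 0) (nat_lit 0) (XT.lf (nat_lit 0) (nat_lit 33162068794) (nat_lit 76) (nat_lit 7167408487) (nat_lit 76) (nat_lit 5969234981) (nat_lit 3) (nat_lit 4) (nat_lit 4) (nat_lit 5) (nat_lit 4) (nat_lit 4) (nat_lit 285) (nat_lit 220) (nat_lit 215)) (XT.lf (nat_lit 0) (nat_lit 40213895467) (nat_lit 76) (nat_lit 5487364844) (nat_lit 76) (nat_lit 4100083553) (nat_lit 3) (nat_lit 4) (nat_lit 4) (nat_lit 5) (nat_lit 4) (nat_lit 4) (nat_lit 286) (nat_lit 220) (nat_lit 214)))) (XT.nd (nat_lit 78) (nat_lit 152) (nat_lit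 0) (XT.lf (nat_lit 0) (nat_lit 47645037707) (nat_lit 76) (nat_lit 3754993056) (nat_lit 76) (nat_lit 2192611964) (nat_lit 3) (nat_lit 4) (nat_lit 4) (nat_lit 5) (nat_lit 4) (nat_lit 4) (nat_lit 287) (nat_lit 220) (nat_lit 213)) (XT.nd (nat_lit 78) (nat_lit 152) (nat_lit 0) (XT.lf (nat_lit 0) (nat_lit 55499531911) (nat_lit 76) (nat_lit 1960027216) (nat_lit 76) (nat_lit 235516679) (nat_lit 3) (nat_lit 4) (nat_lit 4) (nat_lit 5) (nat_lit 4) (nat_lit 4) (nat_lit 288) (nat_lit 220) (nat_lit 212)) (XT.lf (nat_lit 0) (nat_lit 1734878691) (nat_lit 76) (nat_lit 462214) (nat_lit 152) (nat_lit 60390844891) (nat_lit 1) (nat_lit 5) (nat_lit 2) (nat_lit 5) (nat_lit 3) (nat_lit 4) (nat_lit 289) (nat_lit 220) (nat_lit 211))))) (XT.nd (nat_lit 234) (nat_lit 0) (nat_lit 0) (XT.nd (nat_lit 78) (nat_lit 0) (nat_lit 0) (XT.lf (nat_lit 0) (nat_lit 3874199359) (nat_lit 152) (nat_lit 61025698145) (nat_lit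 0) (nat_lit 2009726895) (nat_lit 1) (nat_lit 5) (nat_lit 3) (nat_lit 4) (nat_lit 1) (nat_lit 4) (nat_lit 290) (nat_lit 220) (nat_lit 210)) (XT.nd (nat_lit 78) (nat_lit 0) (nat_lit 0) (XT.lf (nat_lit 0) (nat_lit 6101382493) (nat_lit 152) (nat_lit 61863399100) (nat_lit 0) (nat_lit 4117740047) (nat_lit 1) (nat_lit 5) (nat_lit 3) (nat_lit 4) (nat_lit 1) (nat_lit 4) (nat_lit 291) (nat_lit 220) (nat_lit 209)) (XT.lf (nat_lit 0) (nat_lit 8430077314) (nat_lit 152) (nat_lit 62909363010) (nat_lit 0) (nat_lit 6336092292) (nat_lit 1) (nat_lit 5) (nat_lit 3) (nat_lit 4) (nat_lit 1) (nat_lit 4) (nat_lit 292) (nat_lit 220) (nat_lit 208)))) (XT.nd (nat_lit 156) (nat_lit 0) (nat_lit 0) (XT.nd (nat_lit 78) (nat_lit 0) (nat_lit 0) (XT.lf (nat_lit 0) (nat_lit 10874083496) (nat_lit 152) (nat_lit 64169788180) (nat_lit 0) (nat_lit 8677929422) (nat_lit 1) (nat_lit 5) (nat_lit 3) (nat_lit 4) (nat_lit 1) (nat_lit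 4) (nat_lit 293) (nat_lit 220) (nat_lit 207)) (XT.lf (nat_lit 0) (nat_lit 13447884038) (nat_lit 152) (nat_lit 65652143794) (nat_lit 0) (nat_lit 11157128989) (nat_lit 1) (nat_lit 5) (nat_lit 3) (nat_lit 4) (nat_lit 1) (nat_lit 4) (nat_lit 294) (nat_lit 220) (nat_lit 206))) (XT.nd (nat_lit 78) (nat_lit 0) (nat_lit 0) (XT.lf (nat_lit 0) (nat_lit 16166731090) (nat_lit 152) (nat_lit 67365214184) (nat_lit 0) (nat_lit 13788382547) (nat_lit 1) (nat_lit 5) (nat_lit 3) (nat_lit 4) (nat_lit 1) (nat_lit 4) (nat_lit 295) (nat_lit 220) (nat_lit 205)) (XT.lf (nat_lit 0) (nat_lit 19046736341) (nat_lit 152) (nat_lit 69319150877) (nat_lit 0) (nat_lit 16587282710) (nat_lit 1) (nat_lit 5) (nat_lit 3) (nat_lit 4) (nat_lit 1) (nat_lit 4) (nat_lit 296) (nat_lit 220) (nat_lit 204))))))))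
noncomputable def xc18 : XT := (XT.nd (nat_lit 1872) (nat_lit 0) (nat_lit 0) (XT.nd (nat_lit 936) (nat_lit 0) (nat_lit 0) (XT.nd (nat_lit 468) (nat_lit 0) (nat_lit 0) (XT.nd (nat_lit 234) (nat_lit 0) (nat_lit 0) (XT.nd (nat_lit 78) (nat_lit 0) (nat_lit 0) (XT.lf (nat_lit 0) (nat_lit 22104966486) (nat_lit 152) (nat_lit 71525532757) (nat_lit 0) (nat_lit 19570415552) (nat_lit 1) (nat_lit 5) (nat_lit 3) (nat_lit 4) (nat_lit 1) (nat_lit 4) (nat_lit 297) (nat_lit 220) (nat_lit 203)) (XT.nd (nat_lit 78) (nat_lit 0) (nat_lit 0) (XT.lf (nat_lit 0) (nat_lit 25359544372) (nat_lit 152) (nat_lit 73997434681) (nat_lit 0) (nat_lit 22755458898) (nat_lit 1) (nat_lit 5) (nat_lit 3) (nat_lit 4) (nat_lit 1) (nat_lit 4) (nat_lit 298) (nat_lit 220) (nat_lit 202)) (XT.lf (nat_lit 0) (nat_lit 28829756386) (nat_lit 152) (nat_lit 76749504954) (nat_lit 0) (nat_lit 26161287078) (nat_lit 1) (nat_lit 5) (nat_lit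 3) (nat_lit 4) (nat_lit 1) (nat_lit 4) (nat_lit 299) (nat_lit 220) (nat_lit 201)))) (XT.nd (nat_lit 78) (nat_lit 0) (nat_lit 0) (XT.lf (nat_lit 0) (nat_lit 32536166747) (nat_lit 152) (nat_lit 79798052143) (nat_lit 0) (nat_lit 29808082779) (nat_lit 1) (nat_lit 5) (nat_lit 3) (nat_lit 4) (nat_lit 1) (nat_lit 4) (nat_lit 300) (nat_lit 220) (nat_lit 200)) (XT.nd (nat_lit 78) (nat_lit 0) (nat_lit 0) (XT.lf (nat_lit 0) (nat_lit 36500739369) (nat_lit 152) (nat_lit 83161141713) (nat_lit 0) (nat_lit 33717456641) (nat_lit 1) (nat_lit 5) (nat_lit 3) (nat_lit 4) (nat_lit 1) (nat_lit 4) (nat_lit 301) (nat_lit 220) (nat_lit 199)) (XT.lf (nat_lit 0) (nat_lit 40746968015) (nat_lit 152) (nat_lit 86858703081) (nat_lit 0) (nat_lit 37912575324) (nat_lit 1) (nat_lit 5) (nat_lit 3) (nat_lit 4) (nat_lit 1) (nat_lit 4) (nat_lit 302) (nat_lit 220) (nat_lit 198))))) (XT.nd (nat_lit 234) (nat_lit 0) (nat_lit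 0) (XT.nd (nat_lit 78) (nat_lit 0) (nat_lit 0) (XT.lf (nat_lit 0) (nat_lit 45300015522) (nat_lit 152) (nat_lit 90912647725) (nat_lit 0) (nat_lit 42418298792) (nat_lit 1) (nat_lit 5) (nat_lit 3) (nat_lit 4) (nat_lit 1) (nat_lit 4) (nat_lit 303) (nat_lit 220) (nat_lit 197)) (XT.nd (nat_lit 78) (nat_lit 0) (nat_lit 0) (XT.lf (nat_lit 0) (nat_lit 50186862912) (nat_lit 152) (nat_lit 95346999018) (nat_lit 0) (nat_lit 47261327626) (nat_lit 1) (nat_lit 5) (nat_lit 3) (nat_lit 4) (nat_lit 1) (nat_lit 4) (nat_lit 304) (nat_lit 220) (nat_lit 196)) (XT.lf (nat_lit 0) (nat_lit 55436469280) (nat_lit 152) (nat_lit 100188034599) (nat_lit 0) (nat_lit 52470361258) (nat_lit 1) (nat_lit 5) (nat_lit 3) (nat_lit 4) (nat_lit 1) (nat_lit 4) (nat_lit 305) (nat_lit 220) (nat_lit 195)))) (XT.nd (nat_lit 78) (nat_lit 0) (nat_lit 0) (XT.lf (nat_lit 0) (nat_lit 61079943406) (nat_lit 152) (nat_lit 105464442085)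 (nat_lit 0) (nat_lit 58076268035) (nat_lit 1) (nat_lit 5) (nat_lit 3) (nat_lit 4) (nat_lit 1) (nat_lit 4) (nat_lit 306) (nat_lit 220) (nat_lit 194)) (XT.nd (nat_lit 78) (nat_lit 0) (nat_lit 0) (XT.lf (nat_lit 0) (nat_lit 67150728098) (nat_lit 152) (nat_lit 111207489077) (nat_lit 0) (nat_lit 64112268146) (nat_lit 1) (nat_lit 5) (nat_lit 3) (nat_lit 4) (nat_lit 1) (nat_lit 4) (nat_lit 307) (nat_lit 220) (nat_lit 193)) (XT.lf (nat_lit 0) (nat_lit 73684798377) (nat_lit 152) (nat_lit 117451208446) (nat_lit 0) (nat_lit 70614130479) (nat_lit 1) (nat_lit 5) (nat_lit 3) (nat_lit 4) (nat_lit 1) (nat_lit 4) (nat_lit 308) (nat_lit 220) (nat_lit 192)))))) (XT.nd (nat_lit 468) (nat_lit 0) (nat_lit 0) (XT.nd (nat_lit 234) (nat_lit 0) (nat_lit 0) (XT.nd (nat_lit 78) (nat_lit 0) (nat_lit 0) (XT.lf (nat_lit 0) (nat_lit 80720874660) (nat_lit 152) (nat_lit 124232600010) (nat_lit 0) (nat_lit 77620384589)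 (nat_lit 1) (nat_lit 5) (nat_lit 3) (nat_lit 4) (nat_lit 1) (nat_lit 4) (nat_lit 309) (nat_lit 220) (nat_lit 191)) (XT.nd (nat_lit 78) (nat_lit 0) (nat_lit 0) (XT.lf (nat_lit 0) (nat_lit 88300652213) (nat_lit 152) (nat_lit 131591849793) (nat_lit 0) (nat_lit 85172549020) (nat_lit 1) (nat_lit 5) (nat_lit 3) (nat_lit 4) (nat_lit 1) (nat_lit 4) (nat_lit 310) (nat_lit 220) (nat_lit 190)) (XT.lf (nat_lit 0) (nat_lit 96469048237) (nat_lit 152) (nat_lit 139572568165) (nat_lit 0) (nat_lit 93315377338) (nat_lit 1) (nat_lit 5) (nat_lit 3) (nat_lit 4) (nat_lit 1) (nat_lit 4) (nat_lit 311) (nat_lit 220) (nat_lit 189)))) (XT.nd (nat_lit 78) (nat_lit 0) (nat_lit 0) (XT.lf (nat_lit 0) (nat_lit 105274468042) (nat_lit 152) (nat_lit 148222048271) (nat_lit 0) (nat_lit 102097123341) (nat_lit 1) (nat_lit 5) (nat_lit 3) (nat_lit 4) (nat_lit 1) (nat_lit 4) (nat_lit 312) (nat_lit 220) (nat_lit 188)) (XT.nd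 (nat_lit 78) (nat_lit 0) (nat_lit 0) (XT.lf (nat_lit 0) (nat_lit 114769091893) (nat_lit 152) (nat_lit 157591546289) (nat_lit 0) (nat_lit 111569827005) (nat_lit 1) (nat_lit 5) (nat_lit 3) (nat_lit 4) (nat_lit 1) (nat_lit 4) (nat_lit 313) (nat_lit 220) (nat_lit 187)) (XT.lf (nat_lit 0) (nat_lit 125009184227) (nat_lit 152) (nat_lit 167736585171) (nat_lit 0) (nat_lit 121789622870) (nat_lit 1) (nat_lit 5) (nat_lit 3) (nat_lit 4) (nat_lit 1) (nat_lit 4) (nat_lit 314) (nat_lit 220) (nat_lit 186))))) (XT.nd (nat_lit 234) (nat_lit 0) (nat_lit 0) (XT.nd (nat_lit 78) (nat_lit 0) (nat_lit 0) (XT.lf (nat_lit 0) (nat_lit 136055427074) (nat_lit 152) (nat_lit 178717283666) (nat_lit 0) (nat_lit 132817072689) (nat_lit 1) (nat_lit 5) (nat_lit 3) (nat_lit 4) (nat_lit 1) (nat_lit 4) (nat_lit 315) (nat_lit 220) (nat_lit 185)) (XT.nd (nat_lit 78) (nat_lit 0) (nat_lit 0) (XT.lf (nat_lit 0) (nat_lit 147973279650)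 (nat_lit 152) (nat_lit 190598712580) (nat_lit 0) (nat_lit 144717524314) (nat_lit 1) (nat_lit 5) (nat_lit 3) (nat_lit 4) (nat_lit 1) (nat_lit 4) (nat_lit 316) (nat_lit 220) (nat_lit 184)) (XT.lf (nat_lit 0) (nat_lit 160833366266) (nat_lit 152) (nat_lit 203451280380) (nat_lit 0) (nat_lit 157561498939) (nat_lit 1) (nat_lit 5) (nat_lit 3) (nat_lit 4) (nat_lit 1) (nat_lit 4) (nat_lit 317) (nat_lit 220) (nat_lit 183)))) (XT.nd (nat_lit 78) (nat_lit 0) (nat_lit 0) (XT.lf (nat_lit 0) (nat_lit 174711894845) (nat_lit 152) (nat_lit 217351150431) (nat_lit 0) (nat_lit 171425109006) (nat_lit 1) (nat_lit 5) (nat_lit 3) (nat_lit 4) (nat_lit 1) (nat_lit 4) (nat_lit 318) (nat_lit 220) (nat_lit 182)) (XT.nd (nat_lit 78) (nat_lit 0) (nat_lit 0) (XT.lf (nat_lit 0) (nat_lit 189691108516) (nat_lit 152) (nat_lit 232380692334) (nat_lit 0) (nat_lit 186390509242) (nat_lit 1) (nat_lit 5) (nat_lit 3) (nat_lit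 4) (nat_lit 1) (nat_lit 4) (nat_lit 319) (nat_lit 220) (nat_lit 181)) (XT.lf (nat_lit 0) (nat_lit 205859772993) (nat_lit 152) (nat_lit 248628970039) (nat_lit 0) (nat_lit 202546383500) (nat_lit 1) (nat_lit 5) (nat_lit 3) (nat_lit 4) (nat_lit 1) (nat_lit 4) (nat_lit 320) (nat_lit 220) (nat_lit 180))))))) (XT.nd (nat_lit 936) (nat_lit 0) (nat_lit 0) (XT.nd (nat_lit 468) (nat_lit 0) (nat_lit 0) (XT.nd (nat_lit 234) (nat_lit 0) (nat_lit 0) (XT.nd (nat_lit 78) (nat_lit 0) (nat_lit 0) (XT.lf (nat_lit 0) (nat_lit 223313702581) (nat_lit 152) (nat_lit 266192269639) (nat_lit 0) (nat_lit 219988470293) (nat_lit 1) (nat_lit 5) (nat_lit 3) (nat_lit 4) (nat_lit 1) (nat_lit 4) (nat_lit 321) (nat_lit 220) (nat_lit 179)) (XT.nd (nat_lit 78) (nat_lit 0) (nat_lit 0) (XT.lf (nat_lit 0) (nat_lit 242156327976) (nat_lit 152) (nat_lit 285174669944) (nat_lit 0) (nat_lit 238820130137) (nat_lit 1) (nat_lit 5)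 (nat_lit 3) (nat_lit 4) (nat_lit 1) (nat_lit 4) (nat_lit 322) (nat_lit 220) (nat_lit 178)) (XT.lf (nat_lit 0) (nat_lit 262499309180) (nat_lit 152) (nat_lit 305688659253) (nat_lit 0) (nat_lit 259152958053) (nat_lit 1) (nat_lit 5) (nat_lit 3) (nat_lit 4) (nat_lit 1) (nat_lit 4) (nat_lit 323) (nat_lit 220) (nat_lit 177)))) (XT.nd (nat_lit 78) (nat_lit 0) (nat_lit 0) (XT.lf (nat_lit 0) (nat_lit 284463197192) (nat_lit 152) (nat_lit 327855801948) (nat_lit 0) (nat_lit 281107444873) (nat_lit 1) (nat_lit 5) (nat_lit 3) (nat_lit 4) (nat_lit 1) (nat_lit 4) (nat_lit 324) (nat_lit 220) (nat_lit 176)) (XT.nd (nat_lit 78) (nat_lit 0) (nat_lit 0) (XT.lf (nat_lit 0) (nat_lit 308178148386) (nat_lit 152) (nat_lit 351807458873) (nat_lit 0) (nat_lit 304813691258) (nat_lit 1) (nat_lit 5) (nat_lit 3) (nat_lit 4) (nat_lit 1) (nat_lit 4) (nat_lit 325) (nat_lit 220) (nat_lit 175)) (XT.lf (nat_lit 0) (nat_lit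 333784695805) (nat_lit 152) (nat_lit 377685565773) (nat_lit 0) (nat_lit 330412178671) (nat_lit 1) (nat_lit 5) (nat_lit 3) (nat_lit 4) (nat_lit 1) (nat_lit 4) (nat_lit 326) (nat_lit 220) (nat_lit 174))))) (XT.nd (nat_lit 234) (nat_lit 0) (nat_lit 0) (XT.nd (nat_lit 78) (nat_lit 0) (nat_lit 0) (XT.lf (nat_lit 0) (nat_lit 361434581954) (nat_lit 152) (nat_lit 405643474394) (nat_lit 0) (nat_lit 358054601850) (nat_lit 1) (nat_lit 5) (nat_lit 3) (nat_lit 4) (nat_lit 1) (nat_lit 4) (nat_lit 327) (nat_lit 220) (nat_lit 173)) (XT.nd (nat_lit 78) (nat_lit 0) (nat_lit 0) (XT.lf (nat_lit 0) (nat_lit 391291658009) (nat_lit 152) (nat_lit 435846861230) (nat_lit 0) (nat_lit 387904767747) (nat_lit 1) (nat_lit 5) (nat_lit 3) (nat_lit 4) (nat_lit 1) (nat_lit 4) (nat_lit 328) (nat_lit 220) (nat_lit 172)) (XT.lf (nat_lit 0) (nat_lit 423532854791) (nat_lit 152) (nat_lit 468474709315) (nat_lit 0) (nat_lit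 420139566236) (nat_lit 1) (nat_lit 5) (nat_lit 3) (nat_lit 4) (nat_lit 1) (nat_lit 4) (nat_lit 329) (nat_lit 220) (nat_lit 171)))) (XT.nd (nat_lit 78) (nat_lit 0) (nat_lit 0) (XT.lf (nat_lit 0) (nat_lit 458349231244) (nat_lit 152) (nat_lit 503720368860) (nat_lit 0) (nat_lit 454950018343) (nat_lit 1) (nat_lit 5) (nat_lit 3) (nat_lit 4) (nat_lit 1) (nat_lit 4) (nat_lit 330) (nat_lit 220) (nat_lit 170)) (XT.nd (nat_lit 78) (nat_lit 0) (nat_lit 0) (XT.lf (nat_lit 0) (nat_lit 495947106637) (nat_lit 152) (nat_lit 541792703031) (nat_lit 0) (nat_lit 492542408230) (nat_lit 1) (nat_lit 5) (nat_lit 3) (nat_lit 4) (nat_lit 1) (nat_lit 4) (nat_lit 331) (nat_lit 220) (nat_lit 169)) (XT.lf (nat_lit 0) (nat_lit 536549283193) (nat_lit 152) (nat_lit 582917325662) (nat_lit 0) (nat_lit 533139505615) (nat_lit 1) (nat_lit 5) (nat_lit 3) (nat_lit 4) (nat_lit 1) (nat_lit 4) (nat_lit 332) (nat_lit 220) (nat_lit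 168)))))) (XT.nd (nat_lit 33228) (nat_lit 0) (nat_lit 152) (XT.nd (nat_lit 234) (nat_lit 0) (nat_lit 0) (XT.nd (nat_lit 78) (nat_lit 0) (nat_lit 0) (XT.lf (nat_lit 0) (nat_lit 580396366403) (nat_lit 152) (nat_lit 627337938220) (nat_lit 0) (nat_lit 576981885889) (nat_lit 1) (nat_lit 5) (nat_lit 3) (nat_lit 4) (nat_lit 1) (nat_lit 4) (nat_lit 333) (nat_lit 220) (nat_lit 167)) (XT.nd (nat_lit 78) (nat_lit 0) (nat_lit 0) (XT.lf (nat_lit 0) (nat_lit 627748190835) (nat_lit 152) (nat_lit 675317773965) (nat_lit 0) (nat_lit 624329355749) (nat_lit 1) (nat_lit 5) (nat_lit 3) (nat_lit 4) (nat_lit 1) (nat_lit 4) (nat_lit 334) (nat_lit 220) (nat_lit 166)) (XT.lf (nat_lit 0) (nat_lit 678885359893) (nat_lit 152) (nat_lit 727141157848) (nat_lit 0) (nat_lit 675462492797) (nat_lit 1) (nat_lit 5) (nat_lit 3) (nat_lit 4) (nat_lit 1) (nat_lit 4) (nat_lit 335) (nat_lit 220) (nat_lit 165)))) (XT.nd (nat_lit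 78) (nat_lit 0) (nat_lit 0) (XT.lf (nat_lit 0) (nat_lit 734110908652) (nat_lit 152) (nat_lit 783115191404) (nat_lit 0) (nat_lit 730684308213) (nat_lit 1) (nat_lit 5) (nat_lit 3) (nat_lit 4) (nat_lit 1) (nat_lit 4) (nat_lit 336) (nat_lit 220) (nat_lit 164)) (XT.nd (nat_lit 78) (nat_lit 0) (nat_lit 0) (XT.lf (nat_lit 0) (nat_lit 793752099624) (nat_lit 152) (nat_lit 843571572610) (nat_lit 0) (nat_lit 790322042386) (nat_lit 1) (nat_lit 5) (nat_lit 3) (nat_lit 4) (nat_lit 1) (nat_lit 4) (nat_lit 337) (nat_lit 220) (nat_lit 163)) (XT.lf (nat_lit 0) (nat_lit 858162362088) (nat_lit 152) (nat_lit 908868561503) (nat_lit 0) (nat_lit 854729104110) (nat_lit 1) (nat_lit 5) (nat_lit 3) (nat_lit 4) (nat_lit 1) (nat_lit 4) (nat_lit 338) (nat_lit 220) (nat_lit 162))))) (XT.nd (nat_lit 234) (nat_lit 0) (nat_lit 0) (XT.nd (nat_lit 78) (nat_lit 76) (nat_lit 0) (XT.lf (nat_lit 0) (nat_lit 5000849976) (nat_lit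 152) (nat_lit 4139373279) (nat_lit 0) (nat_lit 5000849976) (nat_lit 4) (nat_lit 5) (nat_lit 6) (nat_lit 4) (nat_lit 4) (nat_lit 4) (nat_lit 278) (nat_lit 221) (nat_lit 221)) (XT.nd (nat_lit 78) (nat_lit 76) (nat_lit 0) (XT.lf (nat_lit 0) (nat_lit 13677354929) (nat_lit 152) (nat_lit 3226438130) (nat_lit 0) (nat_lit 13377264641) (nat_lit 4) (nat_lit 5) (nat_lit 6) (nat_lit 4) (nat_lit 4) (nat_lit 4) (nat_lit 279) (nat_lit 221) (nat_lit 220)) (XT.lf (nat_lit 0) (nat_lit 2054182832) (nat_lit 76) (nat_lit 15486276937) (nat_lit 76) (nat_lit 14908325271) (nat_lit 3) (nat_lit 4) (nat_lit 4) (nat_lit 5) (nat_lit 4) (nat_lit 4) (nat_lit 280) (nat_lit 221) (nat_lit 219)))) (XT.nd (nat_lit 78) (nat_lit 0) (nat_lit 0) (XT.lf (nat_lit 0) (nat_lit 7669167126) (nat_lit 76) (nat_lit 13980681277) (nat_lit 76) (nat_lit 13145450557) (nat_lit 3) (nat_lit 4) (nat_lit 4) (nat_lit 5) (nat_lit 4) (nat_lit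 4) (nat_lit 281) (nat_lit 221) (nat_lit 218)) (XT.nd (nat_lit 78) (nat_lit 0) (nat_lit 0) (XT.lf (nat_lit 0) (nat_lit 13481890217) (nat_lit 76) (nat_lit 12466300568) (nat_lit 76) (nat_lit 11392848502) (nat_lit 3) (nat_lit 4) (nat_lit 4) (nat_lit 5) (nat_lit 4) (nat_lit 4) (nat_lit 282) (nat_lit 221) (nat_lit 217)) (XT.lf (nat_lit 0) (nat_lit 19526797871) (nat_lit 76) (nat_lit 10934160700) (nat_lit 76) (nat_lit 9640133314) (nat_lit 3) (nat_lit 4) (nat_lit 4) (nat_lit 5) (nat_lit 4) (nat_lit 4) (nat_lit 283) (nat_lit 221) (nat_lit 216))))))))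
noncomputable def xc19 : XT := (XT.nd (nat_lit 1872) (nat_lit 0) (nat_lit 0) (XT.nd (nat_lit 936) (nat_lit 0) (nat_lit 0) (XT.nd (nat_lit 468) (nat_lit 0) (nat_lit 0) (XT.nd (nat_lit 234) (nat_lit 152) (nat_lit 0) (XT.nd (nat_lit 78) (nat_lit 0) (nat_lit 0) (XT.lf (nat_lit 0) (nat_lit 25839711764) (nat_lit 76) (nat_lit 9375182328) (nat_lit 76) (nat_lit 7876918534) (nat_lit 3) (nat_lit 4) (nat_lit 4) (nat_lit 5) (nat_lit 4) (nat_lit 4) (nat_lit 284) (nat_lit 221) (nat_lit 215)) (XT.nd (nat_lit 78) (nat_lit 0) (nat_lit 0) (XT.lf (nat_lit 0) (nat_lit 32458041755) (nat_lit 76) (nat_lit 7780127061) (nat_lit 76) (nat_lit 6092755481) (nat_lit 3) (nat_lit 4) (nat_lit 4) (nat_lit 5) (nat_lit 4) (nat_lit 4) (nat_lit 285) (nat_lit 221) (nat_lit 214)) (XT.lf (nat_lit 0) (nat_lit 39421007579) (nat_lit 76) (nat_lit 6139542718) (nat_lit 76) (nat_lit 4277071338) (nat_lit 3) (nat_lit 4) (nat_lit 4)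 (nat_lit 5) (nat_lit 4) (nat_lit 4) (nat_lit 286) (nat_lit 221) (nat_lit 213)))) (XT.nd (nat_lit 78) (nat_lit 152) (nat_lit 0) (XT.lf (nat_lit 0) (nat_lit 46769871254) (nat_lit 76) (nat_lit 4443707320) (nat_lit 76) (nat_lit 2419106495) (nat_lit 3) (nat_lit 4) (nat_lit 4) (nat_lit 5) (nat_lit 4) (nat_lit 4) (nat_lit 287) (nat_lit 221) (nat_lit 212)) (XT.nd (nat_lit 78) (nat_lit 152) (nat_lit 0) (XT.lf (nat_lit 0) (nat_lit 54548181602) (nat_lit 76) (nat_lit 2682571471) (nat_lit 76) (nat_lit 507850789) (nat_lit 3) (nat_lit 4) (nat_lit 4) (nat_lit 5) (nat_lit 4) (nat_lit 4) (nat_lit 288) (nat_lit 221) (nat_lit 211)) (XT.lf (nat_lit 0) (nat_lit 617928241) (nat_lit 76) (nat_lit 791518292) (nat_lit 152) (nat_lit 60766249483) (nat_lit 1) (nat_lit 5) (nat_lit 2) (nat_lit 5) (nat_lit 3) (nat_lit 4) (nat_lit 289) (nat_lit 221) (nat_lit 210))))) (XT.nd (nat_lit 234) (nat_lit 0) (nat_lit 0) (XT.nd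 (nat_lit 78) (nat_lit 0) (nat_lit 0) (XT.lf (nat_lit 0) (nat_lit 3489474300) (nat_lit 152) (nat_lit 62246473621) (nat_lit 0) (nat_lit 1227970475) (nat_lit 1) (nat_lit 5) (nat_lit 3) (nat_lit 4) (nat_lit 1) (nat_lit 4) (nat_lit 290) (nat_lit 221) (nat_lit 209)) (XT.nd (nat_lit 78) (nat_lit 0) (nat_lit 0) (XT.lf (nat_lit 0) (nat_lit 5679800240) (nat_lit 152) (nat_lit 63152081729) (nat_lit 0) (nat_lit 3307953839) (nat_lit 1) (nat_lit 5) (nat_lit 3) (nat_lit 4) (nat_lit 1) (nat_lit 4) (nat_lit 291) (nat_lit 221) (nat_lit 208)) (XT.lf (nat_lit 0) (nat_lit 7974368030) (nat_lit 152) (nat_lit 64260922633) (nat_lit 0) (nat_lit 5500352577) (nat_lit 1) (nat_lit 5) (nat_lit 3) (nat_lit 4) (nat_lit 1) (nat_lit 4) (nat_lit 292) (nat_lit 221) (nat_lit 207)))) (XT.nd (nat_lit 78) (nat_lit 0) (nat_lit 0) (XT.lf (nat_lit 0) (nat_lit 10386775108) (nat_lit 152) (nat_lit 65579567241) (nat_lit 0) (nat_lit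 7818158681) (nat_lit 1) (nat_lit 5) (nat_lit 3) (nat_lit 4) (nat_lit 1) (nat_lit 4) (nat_lit 293) (nat_lit 221) (nat_lit 206)) (XT.nd (nat_lit 78) (nat_lit 0) (nat_lit 0) (XT.lf (nat_lit 0) (nat_lit 12931317221) (nat_lit 152) (nat_lit 67115829743) (nat_lit 0) (nat_lit 10275107299) (nat_lit 1) (nat_lit 5) (nat_lit 3) (nat_lit 4) (nat_lit 1) (nat_lit 4) (nat_lit 294) (nat_lit 221) (nat_lit 205)) (XT.lf (nat_lit 0) (nat_lit 15623073136) (nat_lit 152) (nat_lit 68878813917) (nat_lit 0) (nat_lit 12885758127) (nat_lit 1) (nat_lit 5) (nat_lit 3) (nat_lit 4) (nat_lit 1) (nat_lit 4) (nat_lit 295) (nat_lit 221) (nat_lit 204)))))) (XT.nd (nat_lit 468) (nat_lit 0) (nat_lit 0) (XT.nd (nat_lit 234) (nat_lit 0) (nat_lit 0) (XT.nd (nat_lit 78) (nat_lit 0) (nat_lit 0) (XT.lf (nat_lit 0) (nat_lit 18477993999) (nat_lit 152) (nat_lit 70878967077) (nat_lit 0) (nat_lit 15665581687) (nat_lit 1) (nat_lit 5)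 (nat_lit 3) (nat_lit 4) (nat_lit 1) (nat_lit 4) (nat_lit 296) (nat_lit 221) (nat_lit 203)) (XT.nd (nat_lit 78) (nat_lit 0) (nat_lit 0) (XT.lf (nat_lit 0) (nat_lit 21512997860) (nat_lit 152) (nat_lit 73128141983) (nat_lit 0) (nat_lit 18631051008) (nat_lit 1) (nat_lit 5) (nat_lit 3) (nat_lit 4) (nat_lit 1) (nat_lit 4) (nat_lit 297) (nat_lit 221) (nat_lit 202)) (XT.lf (nat_lit 0) (nat_lit 24746069927) (nat_lit 152) (nat_lit 75639667078) (nat_lit 0) (nat_lit 21799739242) (nat_lit 1) (nat_lit 5) (nat_lit 3) (nat_lit 4) (nat_lit 1) (nat_lit 4) (nat_lit 298) (nat_lit 221) (nat_lit 201)))) (XT.nd (nat_lit 78) (nat_lit 0) (nat_lit 0) (XT.lf (nat_lit 0) (nat_lit 28196369146) (nat_lit 152) (nat_lit 78428425473) (nat_lit 0) (nat_lit 25190423800) (nat_lit 1) (nat_lit 5) (nat_lit 3) (nat_lit 4) (nat_lit 1) (nat_lit 4) (nat_lit 299) (nat_lit 221) (nat_lit 200)) (XT.nd (nat_lit 78) (nat_lit 0) (nat_lit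 0) (XT.lf (nat_lit 0) (nat_lit 31884341734) (nat_lit 152) (nat_lit 81510943146) (nat_lit 0) (nat_lit 28823197628) (nat_lit 1) (nat_lit 5) (nat_lit 3) (nat_lit 4) (nat_lit 1) (nat_lit 4) (nat_lit 300) (nat_lit 221) (nat_lit 199)) (XT.lf (nat_lit 0) (nat_lit 35831842344) (nat_lit 152) (nat_lit 84905486866) (nat_lit 0) (nat_lit 32719588275) (nat_lit 1) (nat_lit 5) (nat_lit 3) (nat_lit 4) (nat_lit 1) (nat_lit 4) (nat_lit 301) (nat_lit 221) (nat_lit 198))))) (XT.nd (nat_lit 234) (nat_lit 0) (nat_lit 0) (XT.nd (nat_lit 78) (nat_lit 0) (nat_lit 0) (XT.lf (nat_lit 0) (nat_lit 40062263571) (nat_lit 152) (nat_lit 88632172448) (nat_lit 0) (nat_lit 36902685463) (nat_lit 1) (nat_lit 5) (nat_lit 3) (nat_lit 4) (nat_lit 1) (nat_lit 4) (nat_lit 302) (nat_lit 221) (nat_lit 197)) (XT.nd (nat_lit 78) (nat_lit 0) (nat_lit 0) (XT.lf (nat_lit 0) (nat_lit 44600674579) (nat_lit 152) (nat_lit 92713083956)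 (nat_lit 0) (nat_lit 41397277916) (nat_lit 1) (nat_lit 5) (nat_lit 3) (nat_lit 4) (nat_lit 1) (nat_lit 4) (nat_lit 303) (nat_lit 221) (nat_lit 196)) (XT.lf (nat_lit 0) (nat_lit 49473969655) (nat_lit 152) (nat_lit 97172404569) (nat_lit 0) (nat_lit 46230000256) (nat_lit 1) (nat_lit 5) (nat_lit 3) (nat_lit 4) (nat_lit 1) (nat_lit 4) (nat_lit 304) (nat_lit 221) (nat_lit 195)))) (XT.nd (nat_lit 78) (nat_lit 0) (nat_lit 0) (XT.lf (nat_lit 0) (nat_lit 54711027585) (nat_lit 152) (nat_lit 102036559890) (nat_lit 0) (nat_lit 51429490837) (nat_lit 1) (nat_lit 5) (nat_lit 3) (nat_lit 4) (nat_lit 1) (nat_lit 4) (nat_lit 305) (nat_lit 221) (nat_lit 194)) (XT.nd (nat_lit 78) (nat_lit 0) (nat_lit 0) (XT.lf (nat_lit 0) (nat_lit 60342882786) (nat_lit 152) (nat_lit 107334374543) (nat_lit 0) (nat_lit 57026561456) (nat_lit 1) (nat_lit 5) (nat_lit 3) (nat_lit 4) (nat_lit 1) (nat_lit 4) (nat_lit 306) (nat_lit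 221) (nat_lit 193)) (XT.lf (nat_lit 0) (nat_lit 66402909214) (nat_lit 152) (nat_lit 113097242986) (nat_lit 0) (nat_lit 63054379938) (nat_lit 1) (nat_lit 5) (nat_lit 3) (nat_lit 4) (nat_lit 1) (nat_lit 4) (nat_lit 307) (nat_lit 221) (nat_lit 192))))))) (XT.nd (nat_lit 936) (nat_lit 0) (nat_lit 0) (XT.nd (nat_lit 468) (nat_lit 0) (nat_lit 0) (XT.nd (nat_lit 234) (nat_lit 0) (nat_lit 0) (XT.nd (nat_lit 78) (nat_lit 0) (nat_lit 0) (XT.lf (nat_lit 0) (nat_lit 72927018139) (nat_lit 152) (nat_lit 119359315550) (nat_lit 0) (nat_lit 69548666690) (nat_lit 1) (nat_lit 5) (nat_lit 3) (nat_lit 4) (nat_lit 1) (nat_lit 4) (nat_lit 308) (nat_lit 221) (nat_lit 191)) (XT.nd (nat_lit 78) (nat_lit 0) (nat_lit 0) (XT.lf (nat_lit 0) (nat_lit 79953870944) (nat_lit 152) (nat_lit 126157700813) (nat_lit 0) (nat_lit 76547906373) (nat_lit 1) (nat_lit 5) (nat_lit 3) (nat_lit 4) (nat_lit 1) (nat_lit 4) (nat_lit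 309) (nat_lit 221) (nat_lit 190)) (XT.lf (nat_lit 0) (nat_lit 87525108241) (nat_lit 152) (nat_lit 133532685502) (nat_lit 0) (nat_lit 84093575964) (nat_lit 1) (nat_lit 5) (nat_lit 3) (nat_lit 4) (nat_lit 1) (nat_lit 4) (nat_lit 310) (nat_lit 221) (nat_lit 189)))) (XT.nd (nat_lit 78) (nat_lit 0) (nat_lit 0) (XT.lf (nat_lit 0) (nat_lit 95685596621) (nat_lit 152) (nat_lit 141527973232) (nat_lit 0) (nat_lit 92230390541) (nat_lit 1) (nat_lit 5) (nat_lit 3) (nat_lit 4) (nat_lit 1) (nat_lit 4) (nat_lit 311) (nat_lit 221) (nat_lit 188)) (XT.nd (nat_lit 78) (nat_lit 0) (nat_lit 0) (XT.lf (nat_lit 0) (nat_lit 104483694532) (nat_lit 152) (nat_lit 150190943484) (nat_lit 0) (nat_lit 101006568266) (nat_lit 1) (nat_lit 5) (nat_lit 3) (nat_lit 4) (nat_lit 1) (nat_lit 4) (nat_lit 312) (nat_lit 221) (nat_lit 187)) (XT.lf (nat_lit 0) (nat_lit 113971538852) (nat_lit 152) (nat_lit 159572932378) (nat_lit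 0) (nat_lit 110474116116) (nat_lit 1) (nat_lit 5) (nat_lit 3) (nat_lit 4) (nat_lit 1) (nat_lit 4) (nat_lit 313) (nat_lit 221) (nat_lit 186))))) (XT.nd (nat_lit 234) (nat_lit 0) (nat_lit 0) (XT.nd (nat_lit 78) (nat_lit 0) (nat_lit 0) (XT.lf (nat_lit 0) (nat_lit 124205353842) (nat_lit 152) (nat_lit 169729536887) (nat_lit 0) (nat_lit 120689138080) (nat_lit 1) (nat_lit 5) (nat_lit 3) (nat_lit 4) (nat_lit 1) (nat_lit 4) (nat_lit 314) (nat_lit 221) (nat_lit 185)) (XT.nd (nat_lit 78) (nat_lit 0) (nat_lit 0) (XT.lf (nat_lit 0) (nat_lit 135245784334) (nat_lit 152) (nat_lit 180720944295) (nat_lit 0) (nat_lit 131712167620) (nat_lit 1) (nat_lit 5) (nat_lit 3) (nat_lit 4) (nat_lit 1) (nat_lit 4) (nat_lit 315) (nat_lit 221) (nat_lit 184)) (XT.lf (nat_lit 0) (nat_lit 147158255100) (nat_lit 152) (nat_lit 192612288869) (nat_lit 0) (nat_lit 143608526394) (nat_lit 1) (nat_lit 5) (nat_lit 3) (nat_lit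 4) (nat_lit 1) (nat_lit 4) (nat_lit 316) (nat_lit 221) (nat_lit 183)))) (XT.nd (nat_lit 78) (nat_lit 0) (nat_lit 0) (XT.lf (nat_lit 0) (nat_lit 160013358559) (nat_lit 152) (nat_lit 205474037836) (nat_lit 0) (nat_lit 156448711342) (nat_lit 1) (nat_lit 5) (nat_lit 3) (nat_lit 4) (nat_lit 1) (nat_lit 4) (nat_lit 317) (nat_lit 221) (nat_lit 182)) (XT.nd (nat_lit 78) (nat_lit 0) (nat_lit 0) (XT.lf (nat_lit 0) (nat_lit 173887273102) (nat_lit 152) (nat_lit 219382408967) (nat_lit 0) (nat_lit 170308812449) (nat_lit 1) (nat_lit 5) (nat_lit 3) (nat_lit 4) (nat_lit 1) (nat_lit 4) (nat_lit 318) (nat_lit 221) (nat_lit 181)) (XT.lf (nat_lit 0) (nat_lit 188862214519) (nat_lit 152) (nat_lit 234419822240) (nat_lit 0) (nat_lit 185270963648) (nat_lit 1) (nat_lit 5) (nat_lit 3) (nat_lit 4) (nat_lit 1) (nat_lit 4) (nat_lit 319) (nat_lit 221) (nat_lit 180)))))) (XT.nd (nat_lit 468) (nat_lit 0) (nat_lit 0)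 (XT.nd (nat_lit 234) (nat_lit 0) (nat_lit 0) (XT.nd (nat_lit 78) (nat_lit 0) (nat_lit 0) (XT.lf (nat_lit 0) (nat_lit 205026923204) (nat_lit 152) (nat_lit 250675388252) (nat_lit 0) (nat_lit 201423829538) (nat_lit 1) (nat_lit 5) (nat_lit 3) (nat_lit 4) (nat_lit 1) (nat_lit 4) (nat_lit 320) (nat_lit 221) (nat_lit 179)) (XT.nd (nat_lit 78) (nat_lit 0) (nat_lit 0) (XT.lf (nat_lit 0) (nat_lit 222477190023) (nat_lit 152) (nat_lit 268245436283) (nat_lit 0) (nat_lit 218863130806) (nat_lit 1) (nat_lit 5) (nat_lit 3) (nat_lit 4) (nat_lit 1) (nat_lit 4) (nat_lit 321) (nat_lit 221) (nat_lit 178)) (XT.lf (nat_lit 0) (nat_lit 241316423965) (nat_lit 152) (nat_lit 287234085136) (nat_lit 0) (nat_lit 237692211460) (nat_lit 1) (nat_lit 5) (nat_lit 3) (nat_lit 4) (nat_lit 1) (nat_lit 4) (nat_lit 322) (nat_lit 221) (nat_lit 177)))) (XT.nd (nat_lit 78) (nat_lit 0) (nat_lit 0) (XT.lf (nat_lit 0) (nat_lit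 261656264934) (nat_lit 152) (nat_lit 307753860138) (nat_lit 0) (nat_lit 258022651237) (nat_lit 1) (nat_lit 5) (nat_lit 3) (nat_lit 4) (nat_lit 1) (nat_lit 4) (nat_lit 323) (nat_lit 221) (nat_lit 176)) (XT.nd (nat_lit 78) (nat_lit 0) (nat_lit 0) (XT.lf (nat_lit 0) (nat_lit 283617245321) (nat_lit 152) (nat_lit 329926359955) (nat_lit 0) (nat_lit 279974926816) (nat_lit 1) (nat_lit 5) (nat_lit 3) (nat_lit 4) (nat_lit 1) (nat_lit 4) (nat_lit 324) (nat_lit 221) (nat_lit 175)) (XT.lf (nat_lit 0) (nat_lit 307329504270) (nat_lit 152) (nat_lit 353882977179) (nat_lit 0) (nat_lit 303679125758) (nat_lit 1) (nat_lit 5) (nat_lit 3) (nat_lit 4) (nat_lit 1) (nat_lit 4) (nat_lit 325) (nat_lit 221) (nat_lit 174))))) (XT.nd (nat_lit 234) (nat_lit 0) (nat_lit 0) (XT.nd (nat_lit 78) (nat_lit 0) (nat_lit 0) (XT.lf (nat_lit 0) (nat_lit 332933558870) (nat_lit 152) (nat_lit 379765676949) (nat_lit 0) (nat_lit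 329275717388) (nat_lit 1) (nat_lit 5) (nat_lit 3) (nat_lit 4) (nat_lit 1) (nat_lit 4) (nat_lit 326) (nat_lit 221) (nat_lit 173)) (XT.nd (nat_lit 78) (nat_lit 0) (nat_lit 0) (XT.lf (nat_lit 0) (nat_lit 360581136853) (nat_lit 152) (nat_lit 407727838226) (nat_lit 0) (nat_lit 356916385213) (nat_lit 1) (nat_lit 5) (nat_lit 3) (nat_lit 4) (nat_lit 1) (nat_lit 4) (nat_lit 327) (nat_lit 221) (nat_lit 172)) (XT.lf (nat_lit 0) (nat_lit 390436075717) (nat_lit 152) (nat_lit 437935162708) (nat_lit 0) (nat_lit 386764925784) (nat_lit 1) (nat_lit 5) (nat_lit 3) (nat_lit 4) (nat_lit 1) (nat_lit 4) (nat_lit 328) (nat_lit 221) (nat_lit 171)))) (XT.nd (nat_lit 156) (nat_lit 0) (nat_lit 0) (XT.nd (nat_lit 78) (nat_lit 0) (nat_lit 0) (XT.lf (nat_lit 0) (nat_lit 422675293618) (nat_lit 152) (nat_lit 470566656760) (nat_lit 0) (nat_lit 418998219340) (nat_lit 1) (nat_lit 5) (nat_lit 3) (nat_lit 4) (nat_lit 1)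 (nat_lit 4) (nat_lit 329) (nat_lit 221) (nat_lit 170)) (XT.lf (nat_lit 0) (nat_lit 457489837775) (nat_lit 152) (nat_lit 505815692201) (nat_lit 0) (nat_lit 453807277991) (nat_lit 1) (nat_lit 5) (nat_lit 3) (nat_lit 4) (nat_lit 1) (nat_lit 4) (nat_lit 330) (nat_lit 221) (nat_lit 169))) (XT.nd (nat_lit 78) (nat_lit 0) (nat_lit 0) (XT.lf (nat_lit 0) (nat_lit 495086016597) (nat_lit 152) (nat_lit 543891152202) (nat_lit 0) (nat_lit 491398377640) (nat_lit 1) (nat_lit 5) (nat_lit 3) (nat_lit 4) (nat_lit 1) (nat_lit 4) (nat_lit 331) (nat_lit 221) (nat_lit 168)) (XT.lf (nat_lit 0) (nat_lit 535686622254) (nat_lit 152) (nat_lit 585018669120) (nat_lit 0) (nat_lit 531994280361) (nat_lit 1) (nat_lit 5) (nat_lit 3) (nat_lit 4) (nat_lit 1) (nat_lit 4) (nat_lit 332) (nat_lit 221) (nat_lit 167))))))))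
noncomputable def xc20 : XT := (XT.nd (nat_lit 34476) (nat_lit 0) (nat_lit 0) (XT.nd (nat_lit 33540) (nat_lit 0) (nat_lit 0) (XT.nd (nat_lit 33072) (nat_lit 0) (nat_lit 152) (XT.nd (nat_lit 234) (nat_lit 0) (nat_lit 0) (XT.nd (nat_lit 78) (nat_lit 0) (nat_lit 0) (XT.lf (nat_lit 0) (nat_lit 579532250928) (nat_lit 152) (nat_lit 629441961573) (nat_lit 0) (nat_lit 575835554464) (nat_lit 1) (nat_lit 5) (nat_lit 3) (nat_lit 4) (nat_lit 1) (nat_lit 4) (nat_lit 333) (nat_lit 221) (nat_lit 166)) (XT.nd (nat_lit 78) (nat_lit 0) (nat_lit 0) (XT.lf (nat_lit 0) (nat_lit 626882728567) (nat_lit 152) (nat_lit 677424278701) (nat_lit 0) (nat_lit 623182000093) (nat_lit 1) (nat_lit 5) (nat_lit 3) (nat_lit 4) (nat_lit 1) (nat_lit 4) (nat_lit 334) (nat_lit 221) (nat_lit 165)) (XT.lf (nat_lit 0) (nat_lit 678018650594) (nat_lit 152) (nat_lit 729249960163) (nat_lit 0) (nat_lit 674314188777) (nat_lit 1) (nat_lit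 5) (nat_lit 3) (nat_lit 4) (nat_lit 1) (nat_lit 4) (nat_lit 335) (nat_lit 221) (nat_lit 164)))) (XT.nd (nat_lit 78) (nat_lit 0) (nat_lit 0) (XT.lf (nat_lit 0) (nat_lit 733243044696) (nat_lit 152) (nat_lit 785226121106) (nat_lit 0) (nat_lit 729535126079) (nat_lit 1) (nat_lit 5) (nat_lit 3) (nat_lit 4) (nat_lit 1) (nat_lit 4) (nat_lit 336) (nat_lit 221) (nat_lit 163)) (XT.nd (nat_lit 78) (nat_lit 0) (nat_lit 0) (XT.lf (nat_lit 0) (nat_lit 792883166540) (nat_lit 152) (nat_lit 845684472115) (nat_lit 0) (nat_lit 789172047184) (nat_lit 1) (nat_lit 5) (nat_lit 3) (nat_lit 4) (nat_lit 1) (nat_lit 4) (nat_lit 337) (nat_lit 221) (nat_lit 162)) (XT.lf (nat_lit 0) (nat_lit 857292439071) (nat_lit 152) (nat_lit 910983284899) (nat_lit 0) (nat_lit 853578356067) (nat_lit 1) (nat_lit 5) (nat_lit 3) (nat_lit 4) (nat_lit 1) (nat_lit 4) (nat_lit 338) (nat_lit 221) (nat_lit 161))))) (XT.nd (nat_lit 234)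 (nat_lit 76) (nat_lit 0) (XT.nd (nat_lit 78) (nat_lit 0) (nat_lit 0) (XT.lf (nat_lit 0) (nat_lit 1694836597) (nat_lit 152) (nat_lit 8984822873) (nat_lit 0) (nat_lit 1694836597) (nat_lit 4) (nat_lit 5) (nat_lit 6) (nat_lit 4) (nat_lit 4) (nat_lit 4) (nat_lit 276) (nat_lit 222) (nat_lit 222)) (XT.nd (nat_lit 78) (nat_lit 0) (nat_lit 0) (XT.lf (nat_lit 0) (nat_lit 6766407547) (nat_lit 152) (nat_lit 13235440601) (nat_lit 0) (nat_lit 6442310036) (nat_lit 4) (nat_lit 5) (nat_lit 6) (nat_lit 4) (nat_lit 4) (nat_lit 4) (nat_lit 277) (nat_lit 222) (nat_lit 221)) (XT.lf (nat_lit 0) (nat_lit 10244794515) (nat_lit 152) (nat_lit 8423420182) (nat_lit 0) (nat_lit 9620606716) (nat_lit 4) (nat_lit 5) (nat_lit 6) (nat_lit 4) (nat_lit 4) (nat_lit 4) (nat_lit 278) (nat_lit 222) (nat_lit 220)))) (XT.nd (nat_lit 78) (nat_lit 76) (nat_lit 0) (XT.lf (nat_lit 0) (nat_lit 13845446761) (nat_lit 152) (nat_lit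 3505068814) (nat_lit 0) (nat_lit 12943397583) (nat_lit 4) (nat_lit 5) (nat_lit 6) (nat_lit 4) (nat_lit 4) (nat_lit 4) (nat_lit 279) (nat_lit 222) (nat_lit 219)) (XT.nd (nat_lit 78) (nat_lit 0) (nat_lit 0) (XT.lf (nat_lit 0) (nat_lit 1630314209) (nat_lit 76) (nat_lit 15998596368) (nat_lit 76) (nat_lit 14839268137) (nat_lit 3) (nat_lit 4) (nat_lit 4) (nat_lit 5) (nat_lit 4) (nat_lit 4) (nat_lit 280) (nat_lit 222) (nat_lit 218)) (XT.lf (nat_lit 0) (nat_lit 7124404298) (nat_lit 76) (nat_lit 14546684652) (nat_lit 76) (nat_lit 13149135075) (nat_lit 3) (nat_lit 4) (nat_lit 4) (nat_lit 5) (nat_lit 4) (nat_lit 4) (nat_lit 281) (nat_lit 222) (nat_lit 217)))))) (XT.nd (nat_lit 468) (nat_lit 152) (nat_lit 0) (XT.nd (nat_lit 234) (nat_lit 0) (nat_lit 0) (XT.nd (nat_lit 78) (nat_lit 0) (nat_lit 0) (XT.lf (nat_lit 0) (nat_lit 12825188310) (nat_lit 76) (nat_lit 13082011298) (nat_lit 76) (nat_lit 11463886400)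 (nat_lit 3) (nat_lit 4) (nat_lit 4) (nat_lit 5) (nat_lit 4) (nat_lit 4) (nat_lit 282) (nat_lit 222) (nat_lit 216)) (XT.nd (nat_lit 78) (nat_lit 0) (nat_lit 0) (XT.lf (nat_lit 0) (nat_lit 18766448669) (nat_lit 76) (nat_lit 11595896760) (nat_lit 76) (nat_lit 9773535454) (nat_lit 3) (nat_lit 4) (nat_lit 4) (nat_lit 5) (nat_lit 4) (nat_lit 4) (nat_lit 283) (nat_lit 222) (nat_lit 215)) (XT.lf (nat_lit 0) (nat_lit 24983392844) (nat_lit 76) (nat_lit 10079534433) (nat_lit 76) (nat_lit 8068065342) (nat_lit 3) (nat_lit 4) (nat_lit 4) (nat_lit 5) (nat_lit 4) (nat_lit 4) (nat_lit 284) (nat_lit 222) (nat_lit 214)))) (XT.nd (nat_lit 78) (nat_lit 0) (nat_lit 0) (XT.lf (nat_lit 0) (nat_lit 31512861986) (nat_lit 76) (nat_lit 8523938467) (nat_lit 76) (nat_lit 6337369575) (nat_lit 3) (nat_lit 4) (nat_lit 4) (nat_lit 5) (nat_lit 4) (nat_lit 4) (nat_lit 285) (nat_lit 222) (nat_lit 213)) (XT.nd (nat_lit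 78) (nat_lit 0) (nat_lit 0) (XT.lf (nat_lit 0) (nat_lit 38393549245) (nat_lit 76) (nat_lit 6919890515) (nat_lit 76) (nat_lit 4571192178) (nat_lit 3) (nat_lit 4) (nat_lit 4) (nat_lit 5) (nat_lit 4) (nat_lit 4) (nat_lit 286) (nat_lit 222) (nat_lit 212)) (XT.lf (nat_lit 0) (nat_lit 45666229064) (nat_lit 76) (nat_lit 5257885107) (nat_lit 76) (nat_lit 2759066914) (nat_lit 3) (nat_lit 4) (nat_lit 4) (nat_lit 5) (nat_lit 4) (nat_lit 4) (nat_lit 287) (nat_lit 222) (nat_lit 211))))) (XT.nd (nat_lit 234) (nat_lit 0) (nat_lit 0) (XT.nd (nat_lit 78) (nat_lit 152) (nat_lit 0) (XT.lf (nat_lit 0) (nat_lit 53373998805) (nat_lit 76) (nat_lit 3528073324) (nat_lit 76) (nat_lit 890255263) (nat_lit 3) (nat_lit 4) (nat_lit 4) (nat_lit 5) (nat_lit 4) (nat_lit 4) (nat_lit 288) (nat_lit 222) (nat_lit 210)) (XT.nd (nat_lit 78) (nat_lit 76) (nat_lit 0) (XT.lf (nat_lit 0) (nat_lit 993976188) (nat_lit 152) (nat_lit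 699051169) (nat_lit 76) (nat_lit 60541380882) (nat_lit 2) (nat_lit 5) (nat_lit 4) (nat_lit 5) (nat_lit 3) (nat_lit 4) (nat_lit 289) (nat_lit 222) (nat_lit 209)) (XT.lf (nat_lit 0) (nat_lit 2997308272) (nat_lit 152) (nat_lit 63706158013) (nat_lit 0) (nat_lit 325371583) (nat_lit 1) (nat_lit 5) (nat_lit 3) (nat_lit 4) (nat_lit 1) (nat_lit 4) (nat_lit 290) (nat_lit 222) (nat_lit 208)))) (XT.nd (nat_lit 78) (nat_lit 0) (nat_lit 0) (XT.lf (nat_lit 0) (nat_lit 5153507181) (nat_lit 152) (nat_lit 64674643115) (nat_lit 0) (nat_lit 2379401440) (nat_lit 1) (nat_lit 5) (nat_lit 3) (nat_lit 4) (nat_lit 1) (nat_lit 4) (nat_lit 291) (nat_lit 222) (nat_lit 207)) (XT.nd (nat_lit 78) (nat_lit 0) (nat_lit 0) (XT.lf (nat_lit 0) (nat_lit 7416475867) (nat_lit 152) (nat_lit 65841703457) (nat_lit 0) (nat_lit 4547769152) (nat_lit 1) (nat_lit 5) (nat_lit 3) (nat_lit 4) (nat_lit 1) (nat_lit 4) (nat_lit 292) (nat_lit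 222) (nat_lit 206)) (XT.lf (nat_lit 0) (nat_lit 9799624517) (nat_lit 152) (nat_lit 67214254952) (nat_lit 0) (nat_lit 6843324307) (nat_lit 1) (nat_lit 5) (nat_lit 3) (nat_lit 4) (nat_lit 1) (nat_lit 4) (nat_lit 293) (nat_lit 222) (nat_lit 205))))))) (XT.nd (nat_lit 936) (nat_lit 0) (nat_lit 0) (XT.nd (nat_lit 468) (nat_lit 0) (nat_lit 0) (XT.nd (nat_lit 234) (nat_lit 0) (nat_lit 0) (XT.nd (nat_lit 78) (nat_lit 0) (nat_lit 0) (XT.lf (nat_lit 0) (nat_lit 12317075492) (nat_lit 152) (nat_lit 68800431239) (nat_lit 0) (nat_lit 9279670195) (nat_lit 1) (nat_lit 5) (nat_lit 3) (nat_lit 4) (nat_lit 1) (nat_lit 4) (nat_lit 294) (nat_lit 222) (nat_lit 204)) (XT.nd (nat_lit 78) (nat_lit 0) (nat_lit 0) (XT.lf (nat_lit 0) (nat_lit 14983747020) (nat_lit 152) (nat_lit 70609631881) (nat_lit 0) (nat_lit 11871244419) (nat_lit 1) (nat_lit 5) (nat_lit 3) (nat_lit 4) (nat_lit 1) (nat_lit 4) (nat_lit 295)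 (nat_lit 222) (nat_lit 203)) (XT.lf (nat_lit 0) (nat_lit 17815441599) (nat_lit 152) (nat_lit 72652578066) (nat_lit 0) (nat_lit 14633404458) (nat_lit 1) (nat_lit 5) (nat_lit 3) (nat_lit 4) (nat_lit 1) (nat_lit 4) (nat_lit 296) (nat_lit 222) (nat_lit 202)))) (XT.nd (nat_lit 78) (nat_lit 0) (nat_lit 0) (XT.lf (nat_lit 0) (nat_lit 20828939641) (nat_lit 152) (nat_lit 74941376143) (nat_lit 0) (nat_lit 17582518667) (nat_lit 1) (nat_lit 5) (nat_lit 3) (nat_lit 4) (nat_lit 1) (nat_lit 4) (nat_lit 297) (nat_lit 222) (nat_lit 201)) (XT.nd (nat_lit 78) (nat_lit 0) (nat_lit 0) (XT.lf (nat_lit 0) (nat_lit 24042098913) (nat_lit 152) (nat_lit 77489589360) (nat_lit 0) (nat_lit 20736063279) (nat_lit 1) (nat_lit 5) (nat_lit 3) (nat_lit 4) (nat_lit 1) (nat_lit 4) (nat_lit 298) (nat_lit 222) (nat_lit 200)) (XT.lf (nat_lit 0) (nat_lit 27473960359) (nat_lit 152) (nat_lit 80312318239) (nat_lit 0) (nat_lit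 24112725965) (nat_lit 1) (nat_lit 5) (nat_lit 3) (nat_lit 4) (nat_lit 1) (nat_lit 4) (nat_lit 299) (nat_lit 222) (nat_lit 199))))) (XT.nd (nat_lit 234) (nat_lit 0) (nat_lit 0) (XT.nd (nat_lit 78) (nat_lit 0) (nat_lit 0) (XT.lf (nat_lit 0) (nat_lit 31144860935) (nat_lit 152) (nat_lit 83426290062) (nat_lit 0) (nat_lit 27732516578) (nat_lit 1) (nat_lit 5) (nat_lit 3) (nat_lit 4) (nat_lit 1) (nat_lit 4) (nat_lit 300) (nat_lit 222) (nat_lit 198)) (XT.nd (nat_lit 78) (nat_lit 0) (nat_lit 0) (XT.lf (nat_lit 0) (nat_lit 35076554126) (nat_lit 152) (nat_lit 86849957996) (nat_lit 0) (nat_lit 31616885729) (nat_lit 1) (nat_lit 5) (nat_lit 3) (nat_lit 4) (nat_lit 1) (nat_lit 4) (nat_lit 301) (nat_lit 222) (nat_lit 197)) (XT.lf (nat_lit 0) (nat_lit 39292338854) (nat_lit 152) (nat_lit 90603610443) (nat_lit 0) (nat_lit 35788851903) (nat_lit 1) (nat_lit 5) (nat_lit 3) (nat_lit 4) (nat_lit 1) (nat_lit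 4) (nat_lit 302) (nat_lit 222) (nat_lit 196)))) (XT.nd (nat_lit 78) (nat_lit 0) (nat_lit 0) (XT.lf (nat_lit 0) (nat_lit 43817197549) (nat_lit 152) (nat_lit 94709491271) (nat_lit 0) (nat_lit 40273137861) (nat_lit 1) (nat_lit 5) (nat_lit 3) (nat_lit 4) (nat_lit 1) (nat_lit 4) (nat_lit 303) (nat_lit 222) (nat_lit 195)) (XT.nd (nat_lit 78) (nat_lit 0) (nat_lit 0) (XT.lf (nat_lit 0) (nat_lit 48677944186) (nat_lit 152) (nat_lit 99191931623) (nat_lit 0) (nat_lit 45096317150) (nat_lit 1) (nat_lit 5) (nat_lit 3) (nat_lit 4) (nat_lit 1) (nat_lit 4) (nat_lit 304) (nat_lit 222) (nat_lit 194)) (XT.lf (nat_lit 0) (nat_lit 53903383191) (nat_lit 152) (nat_lit 104077494111) (nat_lit 0) (nat_lit 50286971573) (nat_lit 1) (nat_lit 5) (nat_lit 3) (nat_lit 4) (nat_lit 1) (nat_lit 4) (nat_lit 305) (nat_lit 222) (nat_lit 193)))))) (XT.nd (nat_lit 468) (nat_lit 0) (nat_lit 0) (XT.nd (nat_lit 234) (nat_lit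 0) (nat_lit 0) (XT.nd (nat_lit 78) (nat_lit 0) (nat_lit 0) (XT.lf (nat_lit 0) (nat_lit 59524480128) (nat_lit 152) (nat_lit 109395130215) (nat_lit 0) (nat_lit 55875860564) (nat_lit 1) (nat_lit 5) (nat_lit 3) (nat_lit 4) (nat_lit 1) (nat_lit 4) (nat_lit 306) (nat_lit 222) (nat_lit 192)) (XT.nd (nat_lit 78) (nat_lit 0) (nat_lit 0) (XT.lf (nat_lit 0) (nat_lit 65574545202) (nat_lit 152) (nat_lit 115176351852) (nat_lit 0) (nat_lit 61896103465) (nat_lit 1) (nat_lit 5) (nat_lit 3) (nat_lit 4) (nat_lit 1) (nat_lit 4) (nat_lit 307) (nat_lit 222) (nat_lit 191)) (XT.lf (nat_lit 0) (nat_lit 72089430649) (nat_lit 152) (nat_lit 121455418115) (nat_lit 0) (nat_lit 68383375789) (nat_lit 1) (nat_lit 5) (nat_lit 3) (nat_lit 4) (nat_lit 1) (nat_lit 4) (nat_lit 308) (nat_lit 222) (nat_lit 190)))) (XT.nd (nat_lit 78) (nat_lit 0) (nat_lit 0) (XT.lf (nat_lit 0) (nat_lit 79107743198) (nat_lit 152) (nat_lit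 128269538285) (nat_lit 0) (nat_lit 75376120633) (nat_lit 1) (nat_lit 5) (nat_lit 3) (nat_lit 4) (nat_lit 1) (nat_lit 4) (nat_lit 309) (nat_lit 222) (nat_lit 189)) (XT.nd (nat_lit 78) (nat_lit 0) (nat_lit 0) (XT.lf (nat_lit 0) (nat_lit 86671072850) (nat_lit 152) (nat_lit 135659092333) (nat_lit 0) (nat_lit 82915776483) (nat_lit 1) (nat_lit 5) (nat_lit 3) (nat_lit 4) (nat_lit 1) (nat_lit 4) (nat_lit 310) (nat_lit 222) (nat_lit 188)) (XT.lf (nat_lit 0) (nat_lit 94824239336) (nat_lit 152) (nat_lit 143667870208) (nat_lit 0) (nat_lit 91047022782) (nat_lit 1) (nat_lit 5) (nat_lit 3) (nat_lit 4) (nat_lit 1) (nat_lit 4) (nat_lit 311) (nat_lit 222) (nat_lit 187))))) (XT.nd (nat_lit 234) (nat_lit 0) (nat_lit 0) (XT.nd (nat_lit 78) (nat_lit 0) (nat_lit 0) (XT.lf (nat_lit 0) (nat_lit 103615557716) (nat_lit 152) (nat_lit 152343331336) (nat_lit 0) (nat_lit 99818044692) (nat_lit 1) (nat_lit 5) (nat_lit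 3) (nat_lit 4) (nat_lit 1) (nat_lit 4) (nat_lit 312) (nat_lit 222) (nat_lit 186)) (XT.nd (nat_lit 78) (nat_lit 0) (nat_lit 0) (XT.lf (nat_lit 0) (nat_lit 113097124692) (nat_lit 152) (nat_lit 161736885857) (nat_lit 0) (nat_lit 109280818641) (nat_lit 1) (nat_lit 5) (nat_lit 3) (nat_lit 4) (nat_lit 1) (nat_lit 4) (nat_lit 313) (nat_lit 222) (nat_lit 185)) (XT.lf (nat_lit 0) (nat_lit 123325127328) (nat_lit 152) (nat_lit 171904199278) (nat_lit 0) (nat_lit 119491420326) (nat_lit 1) (nat_lit 5) (nat_lit 3) (nat_lit 4) (nat_lit 1) (nat_lit 4) (nat_lit 314) (nat_lit 222) (nat_lit 184)))) (XT.nd (nat_lit 78) (nat_lit 0) (nat_lit 0) (XT.lf (nat_lit 0) (nat_lit 134360176010) (nat_lit 152) (nat_lit 182905522347) (nat_lit 0) (nat_lit 130510357016) (nat_lit 1) (nat_lit 5) (nat_lit 3) (nat_lit 4) (nat_lit 1) (nat_lit 4) (nat_lit 315) (nat_lit 222) (nat_lit 183)) (XT.nd (nat_lit 78) (nat_lit 0) (nat_lit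 0) (XT.lf (nat_lit 0) (nat_lit 146267663618) (nat_lit 152) (nat_lit 194806048087) (nat_lit 0) (nat_lit 142402926113) (nat_lit 1) (nat_lit 5) (nat_lit 3) (nat_lit 4) (nat_lit 1) (nat_lit 4) (nat_lit 316) (nat_lit 222) (nat_lit 182)) (XT.lf (nat_lit 0) (nat_lit 159118153042) (nat_lit 152) (nat_lit 207676298135) (nat_lit 0) (nat_lit 155239602101) (nat_lit 1) (nat_lit 5) (nat_lit 3) (nat_lit 4) (nat_lit 1) (nat_lit 4) (nat_lit 317) (nat_lit 222) (nat_lit 181))))))))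
noncomputable def xc21 : XT := (XT.nd (nat_lit 34320) (nat_lit 0) (nat_lit 0) (XT.nd (nat_lit 936) (nat_lit 0) (nat_lit 0) (XT.nd (nat_lit 468) (nat_lit 0) (nat_lit 0) (XT.nd (nat_lit 234) (nat_lit 0) (nat_lit 0) (XT.nd (nat_lit 78) (nat_lit 0) (nat_lit 0) (XT.lf (nat_lit 0) (nat_lit 172987795331) (nat_lit 152) (nat_lit 221592540637) (nat_lit 0) (nat_lit 169096454171) (nat_lit 1) (nat_lit 5) (nat_lit 3) (nat_lit 4) (nat_lit 1) (nat_lit 4) (nat_lit 318) (nat_lit 222) (nat_lit 180)) (XT.nd (nat_lit 78) (nat_lit 0) (nat_lit 0) (XT.lf (nat_lit 0) (nat_lit 187958780957) (nat_lit 152) (nat_lit 236637242216) (nat_lit 0) (nat_lit 184055597002) (nat_lit 1) (nat_lit 5) (nat_lit 3) (nat_lit 4) (nat_lit 1) (nat_lit 4) (nat_lit 319) (nat_lit 222) (nat_lit 179)) (XT.lf (nat_lit 0) (nat_lit 204119826872) (nat_lit 152) (nat_lit 252899556660) (nat_lit 0) (nat_lit 200205677367) (nat_lit 1) (nat_lit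 5) (nat_lit 3) (nat_lit 4) (nat_lit 1) (nat_lit 4) (nat_lit 320) (nat_lit 222) (nat_lit 178)))) (XT.nd (nat_lit 78) (nat_lit 0) (nat_lit 0) (XT.lf (nat_lit 0) (nat_lit 221566702238) (nat_lit 152) (nat_lit 270475853239) (nat_lit 0) (nat_lit 217642399445) (nat_lit 1) (nat_lit 5) (nat_lit 3) (nat_lit 4) (nat_lit 1) (nat_lit 4) (nat_lit 321) (nat_lit 222) (nat_lit 177)) (XT.nd (nat_lit 78) (nat_lit 0) (nat_lit 0) (XT.lf (nat_lit 0) (nat_lit 240402795945) (nat_lit 152) (nat_lit 289470287785) (nat_lit 0) (nat_lit 236469091959) (nat_lit 1) (nat_lit 5) (nat_lit 3) (nat_lit 4) (nat_lit 1) (nat_lit 4) (nat_lit 322) (nat_lit 222) (nat_lit 176)) (XT.lf (nat_lit 0) (nat_lit 260739729289) (nat_lit 152) (nat_lit 309995419909) (nat_lit 0) (nat_lit 256797320496) (nat_lit 1) (nat_lit 5) (nat_lit 3) (nat_lit 4) (nat_lit 1) (nat_lit 4) (nat_lit 323) (nat_lit 222) (nat_lit 175))))) (XT.nd (nat_lit 234)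 (nat_lit 0) (nat_lit 0) (XT.nd (nat_lit 78) (nat_lit 0) (nat_lit 0) (XT.lf (nat_lit 0) (nat_lit 282698017432) (nat_lit 152) (nat_lit 332172880025) (nat_lit 0) (nat_lit 278747548631) (nat_lit 1) (nat_lit 5) (nat_lit 3) (nat_lit 4) (nat_lit 1) (nat_lit 4) (nat_lit 324) (nat_lit 222) (nat_lit 174)) (XT.nd (nat_lit 78) (nat_lit 0) (nat_lit 0) (XT.lf (nat_lit 0) (nat_lit 306407783561) (nat_lit 152) (nat_lit 356134090118) (nat_lit 0) (nat_lit 302449851790) (nat_lit 1) (nat_lit 5) (nat_lit 3) (nat_lit 4) (nat_lit 1) (nat_lit 4) (nat_lit 325) (nat_lit 222) (nat_lit 173)) (XT.lf (nat_lit 0) (nat_lit 332009529995) (nat_lit 152) (nat_lit 382021042545) (nat_lit 0) (nat_lit 328044688067) (nat_lit 1) (nat_lit 5) (nat_lit 3) (nat_lit 4) (nat_lit 1) (nat_lit 4) (nat_lit 326) (nat_lit 222) (nat_lit 172)))) (XT.nd (nat_lit 78) (nat_lit 0) (nat_lit 0) (XT.lf (nat_lit 0) (nat_lit 359654970786) (nat_lit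 152) (nat_lit 409987141467) (nat_lit 0) (nat_lit 355683730565) (nat_lit 1) (nat_lit 5) (nat_lit 3) (nat_lit 4) (nat_lit 1) (nat_lit 4) (nat_lit 327) (nat_lit 222) (nat_lit 171)) (XT.nd (nat_lit 78) (nat_lit 0) (nat_lit 0) (XT.lf (nat_lit 0) (nat_lit 389507930770) (nat_lit 152) (nat_lit 440198111916) (nat_lit 0) (nat_lit 385530766203) (nat_lit 1) (nat_lit 5) (nat_lit 3) (nat_lit 4) (nat_lit 1) (nat_lit 4) (nat_lit 328) (nat_lit 222) (nat_lit 170)) (XT.lf (nat_lit 0) (nat_lit 421745316375) (nat_lit 152) (nat_lit 472832981865) (nat_lit 0) (nat_lit 417762666302) (nat_lit 1) (nat_lit 5) (nat_lit 3) (nat_lit 4) (nat_lit 1) (nat_lit 4) (nat_lit 329) (nat_lit 222) (nat_lit 169)))))) (XT.nd (nat_lit 468) (nat_lit 0) (nat_lit 0) (XT.nd (nat_lit 234) (nat_lit 0) (nat_lit 0) (XT.nd (nat_lit 78) (nat_lit 0) (nat_lit 0) (XT.lf (nat_lit 0) (nat_lit 456558163961) (nat_lit 152) (nat_lit 508085143135)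 (nat_lit 0) (nat_lit 452570434716) (nat_lit 1) (nat_lit 5) (nat_lit 3) (nat_lit 4) (nat_lit 1) (nat_lit 4) (nat_lit 330) (nat_lit 222) (nat_lit 168)) (XT.nd (nat_lit 78) (nat_lit 0) (nat_lit 0) (XT.lf (nat_lit 0) (nat_lit 494152771883) (nat_lit 152) (nat_lit 546163497423) (nat_lit 0) (nat_lit 490160339702) (nat_lit 1) (nat_lit 5) (nat_lit 3) (nat_lit 4) (nat_lit 1) (nat_lit 4) (nat_lit 331) (nat_lit 222) (nat_lit 167)) (XT.lf (nat_lit 0) (nat_lit 534751923004) (nat_lit 152) (nat_lit 587293694236) (nat_lit 0) (nat_lit 530755136251) (nat_lit 1) (nat_lit 5) (nat_lit 3) (nat_lit 4) (nat_lit 1) (nat_lit 4) (nat_lit 332) (nat_lit 222) (nat_lit 166)))) (XT.nd (nat_lit 78) (nat_lit 0) (nat_lit 0) (XT.lf (nat_lit 0) (nat_lit 578596204885) (nat_lit 152) (nat_lit 631719468073) (nat_lit 0) (nat_lit 574595386123) (nat_lit 1) (nat_lit 5) (nat_lit 3) (nat_lit 4) (nat_lit 1) (nat_lit 4) (nat_lit 333)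 (nat_lit 222) (nat_lit 165)) (XT.nd (nat_lit 78) (nat_lit 0) (nat_lit 0) (XT.lf (nat_lit 0) (nat_lit 625945435494) (nat_lit 152) (nat_lit 679704082780) (nat_lit 0) (nat_lit 621940883389) (nat_lit 1) (nat_lit 5) (nat_lit 3) (nat_lit 4) (nat_lit 1) (nat_lit 4) (nat_lit 334) (nat_lit 222) (nat_lit 164)) (XT.lf (nat_lit 0) (nat_lit 677080202864) (nat_lit 152) (nat_lit 731531891628) (nat_lit 0) (nat_lit 673072193959) (nat_lit 1) (nat_lit 5) (nat_lit 3) (nat_lit 4) (nat_lit 1) (nat_lit 4) (nat_lit 335) (nat_lit 222) (nat_lit 163))))) (XT.nd (nat_lit 32682) (nat_lit 0) (nat_lit 228) (XT.nd (nat_lit 78) (nat_lit 0) (nat_lit 0) (XT.lf (nat_lit 0) (nat_lit 732303527837) (nat_lit 152) (nat_lit 787510022375) (nat_lit 0) (nat_lit 728292318193) (nat_lit 1) (nat_lit 5) (nat_lit 3) (nat_lit 4) (nat_lit 1) (nat_lit 4) (nat_lit 336) (nat_lit 222) (nat_lit 162)) (XT.nd (nat_lit 78) (nat_lit 0) (nat_lit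 0) (XT.lf (nat_lit 0) (nat_lit 791942659749) (nat_lit 152) (nat_lit 847970197275) (nat_lit 0) (nat_lit 787928486457) (nat_lit 1) (nat_lit 5) (nat_lit 3) (nat_lit 4) (nat_lit 1) (nat_lit 4) (nat_lit 337) (nat_lit 222) (nat_lit 161)) (XT.lf (nat_lit 0) (nat_lit 856351015675) (nat_lit 152) (nat_lit 913270698848) (nat_lit 0) (nat_lit 852334098265) (nat_lit 1) (nat_lit 5) (nat_lit 3) (nat_lit 4) (nat_lit 1) (nat_lit 4) (nat_lit 338) (nat_lit 222) (nat_lit 160)))) (XT.nd (nat_lit 78) (nat_lit 152) (nat_lit 0) (XT.lf (nat_lit 0) (nat_lit 8243809350) (nat_lit 76) (nat_lit 1312844065) (nat_lit 76) (nat_lit 1312844065) (nat_lit 6) (nat_lit 4) (nat_lit 7) (nat_lit 5) (nat_lit 7) (nat_lit 4) (nat_lit 274) (nat_lit 223) (nat_lit 223)) (XT.nd (nat_lit 78) (nat_lit 0) (nat_lit 0) (XT.lf (nat_lit 0) (nat_lit 444606489) (nat_lit 152) (nat_lit 22654090167) (nat_lit 0) (nat_lit 94581176) (nat_lit 4)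 (nat_lit 5) (nat_lit 6) (nat_lit 4) (nat_lit 4) (nat_lit 4) (nat_lit 275) (nat_lit 223) (nat_lit 222)) (XT.lf (nat_lit 0) (nat_lit 3652215321) (nat_lit 152) (nat_lit 18125893260) (nat_lit 0) (nat_lit 2978092497) (nat_lit 4) (nat_lit 5) (nat_lit 6) (nat_lit 4) (nat_lit 4) (nat_lit 4) (nat_lit 276) (nat_lit 223) (nat_lit 221))))))) (XT.nd (nat_lit 936) (nat_lit 152) (nat_lit 0) (XT.nd (nat_lit 468) (nat_lit 0) (nat_lit 0) (XT.nd (nat_lit 234) (nat_lit 76) (nat_lit 0) (XT.nd (nat_lit 78) (nat_lit 0) (nat_lit 0) (XT.lf (nat_lit 0) (nat_lit 6947946725) (nat_lit 152) (nat_lit 13536361739) (nat_lit 0) (nat_lit 5973733614) (nat_lit 4) (nat_lit 5) (nat_lit 6) (nat_lit 4) (nat_lit 4) (nat_lit 4) (nat_lit 277) (nat_lit 223) (nat_lit 220)) (XT.nd (nat_lit 78) (nat_lit 0) (nat_lit 0) (XT.lf (nat_lit 0) (nat_lit 10351330963) (nat_lit 152) (nat_lit 8858298380) (nat_lit 0) (nat_lit 9099256473) (nat_lit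 4) (nat_lit 5) (nat_lit 6) (nat_lit 4) (nat_lit 4) (nat_lit 4) (nat_lit 278) (nat_lit 223) (nat_lit 219)) (XT.lf (nat_lit 0) (nat_lit 13882536235) (nat_lit 152) (nat_lit 4063981326) (nat_lit 0) (nat_lit 12373182692) (nat_lit 4) (nat_lit 5) (nat_lit 6) (nat_lit 4) (nat_lit 4) (nat_lit 4) (nat_lit 279) (nat_lit 223) (nat_lit 218)))) (XT.nd (nat_lit 78) (nat_lit 0) (nat_lit 0) (XT.lf (nat_lit 0) (nat_lit 921076150) (nat_lit 76) (nat_lit 16663563957) (nat_lit 76) (nat_lit 14915989067) (nat_lit 3) (nat_lit 4) (nat_lit 4) (nat_lit 5) (nat_lit 4) (nat_lit 4) (nat_lit 280) (nat_lit 223) (nat_lit 217)) (XT.nd (nat_lit 78) (nat_lit 0) (nat_lit 0) (XT.lf (nat_lit 0) (nat_lit 6303227160) (nat_lit 76) (nat_lit 15261359596) (nat_lit 76) (nat_lit 13293209386) (nat_lit 3) (nat_lit 4) (nat_lit 4) (nat_lit 5) (nat_lit 4) (nat_lit 4) (nat_lit 281) (nat_lit 223) (nat_lit 216)) (XT.lf (nat_lit 0) (nat_lit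 11900363877) (nat_lit 76) (nat_lit 13842711571) (nat_lit 76) (nat_lit 11670324953) (nat_lit 3) (nat_lit 4) (nat_lit 4) (nat_lit 5) (nat_lit 4) (nat_lit 4) (nat_lit 282) (nat_lit 223) (nat_lit 215))))) (XT.nd (nat_lit 234) (nat_lit 0) (nat_lit 0) (XT.nd (nat_lit 78) (nat_lit 0) (nat_lit 0) (XT.lf (nat_lit 0) (nat_lit 17745654519) (nat_lit 76) (nat_lit 12399213078) (nat_lit 76) (nat_lit 10037718675) (nat_lit 3) (nat_lit 4) (nat_lit 4) (nat_lit 5) (nat_lit 4) (nat_lit 4) (nat_lit 283) (nat_lit 223) (nat_lit 214)) (XT.nd (nat_lit 78) (nat_lit 0) (nat_lit 0) (XT.lf (nat_lit 0) (nat_lit 23873737844) (nat_lit 76) (nat_lit 10922310053) (nat_lit 76) (nat_lit 8385715849) (nat_lit 3) (nat_lit 4) (nat_lit 4) (nat_lit 5) (nat_lit 4) (nat_lit 4) (nat_lit 284) (nat_lit 223) (nat_lit 213)) (XT.lf (nat_lit 0) (nat_lit 30320928421) (nat_lit 76) (nat_lit 9403250477) (nat_lit 76) (nat_lit 6704526828)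 (nat_lit 3) (nat_lit 4) (nat_lit 4) (nat_lit 5) (nat_lit 4) (nat_lit 4) (nat_lit 285) (nat_lit 223) (nat_lit 212)))) (XT.nd (nat_lit 78) (nat_lit 0) (nat_lit 0) (XT.lf (nat_lit 0) (nat_lit 37125431824) (nat_lit 76) (nat_lit 7833032515) (nat_lit 76) (nat_lit 4984189010) (nat_lit 3) (nat_lit 4) (nat_lit 4) (nat_lit 5) (nat_lit 4) (nat_lit 4) (nat_lit 286) (nat_lit 223) (nat_lit 211)) (XT.nd (nat_lit 78) (nat_lit 0) (nat_lit 0) (XT.lf (nat_lit 0) (nat_lit 44327571036) (nat_lit 76) (nat_lit 6202351174) (nat_lit 76) (nat_lit 3214507801) (nat_lit 3) (nat_lit 4) (nat_lit 4) (nat_lit 5) (nat_lit 4) (nat_lit 4) (nat_lit 287) (nat_lit 223) (nat_lit 210)) (XT.lf (nat_lit 0) (nat_lit 51970025399) (nat_lit 76) (nat_lit 4501543155) (nat_lit 76) (nat_lit 1384996201) (nat_lit 3) (nat_lit 4) (nat_lit 4) (nat_lit 5) (nat_lit 4) (nat_lit 4) (nat_lit 288) (nat_lit 223) (nat_lit 209)))))) (XT.nd (nat_lit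 468) (nat_lit 0) (nat_lit 0) (XT.nd (nat_lit 234) (nat_lit 0) (nat_lit 0) (XT.nd (nat_lit 78) (nat_lit 76) (nat_lit 0) (XT.lf (nat_lit 0) (nat_lit 489415582) (nat_lit 152) (nat_lit 2217732525) (nat_lit 76) (nat_lit 59595286462) (nat_lit 2) (nat_lit 5) (nat_lit 4) (nat_lit 5) (nat_lit 3) (nat_lit 4) (nat_lit 289) (nat_lit 223) (nat_lit 208)) (XT.nd (nat_lit 78) (nat_lit 0) (nat_lit 0) (XT.lf (nat_lit 0) (nat_lit 1672133513) (nat_lit 76) (nat_lit 740459287) (nat_lit 152) (nat_lit 64690750080) (nat_lit 1) (nat_lit 5) (nat_lit 2) (nat_lit 5) (nat_lit 3) (nat_lit 4) (nat_lit 290) (nat_lit 223) (nat_lit 207)) (XT.lf (nat_lit 0) (nat_lit 4519384542) (nat_lit 152) (nat_lit 66440105844) (nat_lit 0) (nat_lit 1326580316) (nat_lit 1) (nat_lit 5) (nat_lit 3) (nat_lit 4) (nat_lit 1) (nat_lit 4) (nat_lit 291) (nat_lit 223) (nat_lit 206)))) (XT.nd (nat_lit 78) (nat_lit 0) (nat_lit 0) (XT.lf (nat_lit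 0) (nat_lit 6753094800) (nat_lit 152) (nat_lit 67661073073) (nat_lit 0) (nat_lit 3472697079) (nat_lit 1) (nat_lit 5) (nat_lit 3) (nat_lit 4) (nat_lit 1) (nat_lit 4) (nat_lit 292) (nat_lit 223) (nat_lit 205)) (XT.nd (nat_lit 78) (nat_lit 0) (nat_lit 0) (XT.lf (nat_lit 0) (nat_lit 9109152312) (nat_lit 152) (nat_lit 69083538353) (nat_lit 0) (nat_lit 5747649503) (nat_lit 1) (nat_lit 5) (nat_lit 3) (nat_lit 4) (nat_lit 1) (nat_lit 4) (nat_lit 293) (nat_lit 223) (nat_lit 204)) (XT.lf (nat_lit 0) (nat_lit 11601518900) (nat_lit 152) (nat_lit 70715931107) (nat_lit 0) (nat_lit 8164918788) (nat_lit 1) (nat_lit 5) (nat_lit 3) (nat_lit 4) (nat_lit 1) (nat_lit 4) (nat_lit 294) (nat_lit 223) (nat_lit 203))))) (XT.nd (nat_lit 234) (nat_lit 0) (nat_lit 0) (XT.nd (nat_lit 78) (nat_lit 0) (nat_lit 0) (XT.lf (nat_lit 0) (nat_lit 14244964143) (nat_lit 152) (nat_lit 72567924774) (nat_lit 0) (nat_lit 10738829492)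 (nat_lit 1) (nat_lit 5) (nat_lit 3) (nat_lit 4) (nat_lit 1) (nat_lit 4) (nat_lit 295) (nat_lit 223) (nat_lit 202)) (XT.nd (nat_lit 78) (nat_lit 0) (nat_lit 0) (XT.lf (nat_lit 0) (nat_lit 17055152904) (nat_lit 152) (nat_lit 74650494131) (nat_lit 0) (nat_lit 13484634419) (nat_lit 1) (nat_lit 5) (nat_lit 3) (nat_lit 4) (nat_lit 1) (nat_lit 4) (nat_lit 296) (nat_lit 223) (nat_lit 201)) (XT.lf (nat_lit 0) (nat_lit 20048738151) (nat_lit 152) (nat_lit 76975980330) (nat_lit 0) (nat_lit 16418605005) (nat_lit 1) (nat_lit 5) (nat_lit 3) (nat_lit 4) (nat_lit 1) (nat_lit 4) (nat_lit 297) (nat_lit 223) (nat_lit 200)))) (XT.nd (nat_lit 156) (nat_lit 0) (nat_lit 0) (XT.nd (nat_lit 78) (nat_lit 0) (nat_lit 0) (XT.lf (nat_lit 0) (nat_lit 23243459650) (nat_lit 152) (nat_lit 79558164030) (nat_lit 0) (nat_lit 19558127745) (nat_lit 1) (nat_lit 5) (nat_lit 3) (nat_lit 4) (nat_lit 1) (nat_lit 4) (nat_lit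 298) (nat_lit 223) (nat_lit 199)) (XT.lf (nat_lit 0) (nat_lit 26658249083) (nat_lit 152) (nat_lit 82412347059) (nat_lit 0) (nat_lit 22921807215) (nat_lit 1) (nat_lit 5) (nat_lit 3) (nat_lit 4) (nat_lit 1) (nat_lit 4) (nat_lit 299) (nat_lit 223) (nat_lit 198))) (XT.nd (nat_lit 78) (nat_lit 0) (nat_lit 0) (XT.lf (nat_lit 0) (nat_lit 30313342241) (nat_lit 152) (nat_lit 85555443097) (nat_lit 0) (nat_lit 26529576333) (nat_lit 1) (nat_lit 5) (nat_lit 3) (nat_lit 4) (nat_lit 1) (nat_lit 4) (nat_lit 300) (nat_lit 223) (nat_lit 197)) (XT.lf (nat_lit 0) (nat_lit 34230398933) (nat_lit 152) (nat_lit 89006077895) (nat_lit 0) (nat_lit 30402814469) (nat_lit 1) (nat_lit 5) (nat_lit 3) (nat_lit 4) (nat_lit 1) (nat_lit 4) (nat_lit 301) (nat_lit 223) (nat_lit 196))))))))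
noncomputable def xc22 : XT := (XT.nd (nat_lit 1872) (nat_lit 0) (nat_lit 0) (XT.nd (nat_lit 936) (nat_lit 0) (nat_lit 0) (XT.nd (nat_lit 468) (nat_lit 0) (nat_lit 0) (XT.nd (nat_lit 234) (nat_lit 0) (nat_lit 0) (XT.nd (nat_lit 78) (nat_lit 0) (nat_lit 0) (XT.lf (nat_lit 0) (nat_lit 38432631347) (nat_lit 152) (nat_lit 92784699662) (nat_lit 0) (nat_lit 34564474148) (nat_lit 1) (nat_lit 5) (nat_lit 3) (nat_lit 4) (nat_lit 1) (nat_lit 4) (nat_lit 302) (nat_lit 223) (nat_lit 195)) (XT.nd (nat_lit 78) (nat_lit 0) (nat_lit 0) (XT.lf (nat_lit 0) (nat_lit 42944941603) (nat_lit 152) (nat_lit 96913700229) (nat_lit 0) (nat_lit 39039217055) (nat_lit 1) (nat_lit 5) (nat_lit 3) (nat_lit 4) (nat_lit 1) (nat_lit 4) (nat_lit 303) (nat_lit 223) (nat_lit 194)) (XT.lf (nat_lit 0) (nat_lit 47794069316) (nat_lit 152) (nat_lit 101417547749) (nat_lit 0) (nat_lit 43853560186) (nat_lit 1) (nat_lit 5) (nat_lit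 3) (nat_lit 4) (nat_lit 1) (nat_lit 4) (nat_lit 304) (nat_lit 223) (nat_lit 193)))) (XT.nd (nat_lit 78) (nat_lit 0) (nat_lit 0) (XT.lf (nat_lit 0) (nat_lit 53008750057) (nat_lit 152) (nat_lit 106322931687) (nat_lit 0) (nat_lit 49036032981) (nat_lit 1) (nat_lit 5) (nat_lit 3) (nat_lit 4) (nat_lit 1) (nat_lit 4) (nat_lit 305) (nat_lit 223) (nat_lit 192)) (XT.nd (nat_lit 78) (nat_lit 0) (nat_lit 0) (XT.lf (nat_lit 0) (nat_lit 58619885639) (nat_lit 152) (nat_lit 111658920986) (nat_lit 0) (nat_lit 54617346391) (nat_lit 1) (nat_lit 5) (nat_lit 3) (nat_lit 4) (nat_lit 1) (nat_lit 4) (nat_lit 306) (nat_lit 223) (nat_lit 191)) (XT.lf (nat_lit 0) (nat_lit 64660727236) (nat_lit 152) (nat_lit 117457136322) (nat_lit 0) (nat_lit 60630574865) (nat_lit 1) (nat_lit 5) (nat_lit 3) (nat_lit 4) (nat_lit 1) (nat_lit 4) (nat_lit 307) (nat_lit 223) (nat_lit 190))))) (XT.nd (nat_lit 234) (nat_lit 0) (nat_lit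 0) (XT.nd (nat_lit 78) (nat_lit 0) (nat_lit 0) (XT.lf (nat_lit 0) (nat_lit 71167072426) (nat_lit 152) (nat_lit 123751937492) (nat_lit 0) (nat_lit 67111352350) (nat_lit 1) (nat_lit 5) (nat_lit 3) (nat_lit 4) (nat_lit 1) (nat_lit 4) (nat_lit 308) (nat_lit 223) (nat_lit 189)) (XT.nd (nat_lit 78) (nat_lit 0) (nat_lit 0) (XT.lf (nat_lit 0) (nat_lit 78177477331) (nat_lit 152) (nat_lit 130580627019) (nat_lit 0) (nat_lit 74098083452) (nat_lit 1) (nat_lit 5) (nat_lit 3) (nat_lit 4) (nat_lit 1) (nat_lit 4) (nat_lit 309) (nat_lit 223) (nat_lit 188)) (XT.lf (nat_lit 0) (nat_lit 85733485089) (nat_lit 152) (nat_lit 137983671213) (nat_lit 0) (nat_lit 81632171024) (nat_lit 1) (nat_lit 5) (nat_lit 3) (nat_lit 4) (nat_lit 1) (nat_lit 4) (nat_lit 310) (nat_lit 223) (nat_lit 187)))) (XT.nd (nat_lit 78) (nat_lit 0) (nat_lit 0) (XT.lf (nat_lit 0) (nat_lit 93879872044) (nat_lit 152) (nat_lit 146004939965)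 (nat_lit 0) (nat_lit 89758261509) (nat_lit 1) (nat_lit 5) (nat_lit 3) (nat_lit 4) (nat_lit 1) (nat_lit 4) (nat_lit 311) (nat_lit 223) (nat_lit 186)) (XT.nd (nat_lit 78) (nat_lit 0) (nat_lit 0) (XT.lf (nat_lit 0) (nat_lit 102664913081) (nat_lit 152) (nat_lit 154691966719) (nat_lit 0) (nat_lit 98524509519) (nat_lit 1) (nat_lit 5) (nat_lit 3) (nat_lit 4) (nat_lit 1) (nat_lit 4) (nat_lit 312) (nat_lit 223) (nat_lit 185)) (XT.lf (nat_lit 0) (nat_lit 112140667702) (nat_lit 152) (nat_lit 164096230153) (nat_lit 0) (nat_lit 107982863189) (nat_lit 1) (nat_lit 5) (nat_lit 3) (nat_lit 4) (nat_lit 1) (nat_lit 4) (nat_lit 313) (nat_lit 223) (nat_lit 184)))))) (XT.nd (nat_lit 468) (nat_lit 0) (nat_lit 0) (XT.nd (nat_lit 234) (nat_lit 0) (nat_lit 0) (XT.nd (nat_lit 78) (nat_lit 0) (nat_lit 0) (XT.lf (nat_lit 0) (nat_lit 122363288528) (nat_lit 152) (nat_lit 174273459235) (nat_lit 0) (nat_lit 118189372023)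 (nat_lit 1) (nat_lit 5) (nat_lit 3) (nat_lit 4) (nat_lit 1) (nat_lit 4) (nat_lit 314) (nat_lit 223) (nat_lit 183)) (XT.nd (nat_lit 78) (nat_lit 0) (nat_lit 0) (XT.lf (nat_lit 0) (nat_lit 133393354052) (nat_lit 152) (nat_lit 185283963470) (nat_lit 0) (nat_lit 129204519035) (nat_lit 1) (nat_lit 5) (nat_lit 3) (nat_lit 4) (nat_lit 1) (nat_lit 4) (nat_lit 315) (nat_lit 223) (nat_lit 182)) (XT.lf (nat_lit 0) (nat_lit 145296227625) (nat_lit 152) (nat_lit 197192990291) (nat_lit 0) (nat_lit 141093579172) (nat_lit 1) (nat_lit 5) (nat_lit 3) (nat_lit 4) (nat_lit 1) (nat_lit 4) (nat_lit 316) (nat_lit 223) (nat_lit 181)))) (XT.nd (nat_lit 78) (nat_lit 0) (nat_lit 0) (XT.lf (nat_lit 0) (nat_lit 158142444794) (nat_lit 152) (nat_lit 210071111709) (nat_lit 0) (nat_lit 153927006124) (nat_lit 1) (nat_lit 5) (nat_lit 3) (nat_lit 4) (nat_lit 1) (nat_lit 4) (nat_lit 317) (nat_lit 223) (nat_lit 180)) (XT.nd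 (nat_lit 78) (nat_lit 0) (nat_lit 0) (XT.lf (nat_lit 0) (nat_lit 172008131292) (nat_lit 152) (nat_lit 223994642517) (nat_lit 0) (nat_lit 167780849826) (nat_lit 1) (nat_lit 5) (nat_lit 3) (nat_lit 4) (nat_lit 1) (nat_lit 4) (nat_lit 318) (nat_lit 223) (nat_lit 179)) (XT.lf (nat_lit 0) (nat_lit 186975454148) (nat_lit 152) (nat_lit 239046092529) (nat_lit 0) (nat_lit 182737207132) (nat_lit 1) (nat_lit 5) (nat_lit 3) (nat_lit 4) (nat_lit 1) (nat_lit 4) (nat_lit 319) (nat_lit 223) (nat_lit 178))))) (XT.nd (nat_lit 234) (nat_lit 0) (nat_lit 0) (XT.nd (nat_lit 78) (nat_lit 0) (nat_lit 0) (XT.lf (nat_lit 0) (nat_lit 203133108611) (nat_lit 152) (nat_lit 255314655520) (nat_lit 0) (nat_lit 198884708306) (nat_lit 1) (nat_lit 5) (nat_lit 3) (nat_lit 4) (nat_lit 1) (nat_lit 4) (nat_lit 320) (nat_lit 223) (nat_lit 177)) (XT.nd (nat_lit 78) (nat_lit 0) (nat_lit 0) (XT.lf (nat_lit 0) (nat_lit 220576843742)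 (nat_lit 152) (nat_lit 272896737792) (nat_lit 0) (nat_lit 216319042245) (nat_lit 1) (nat_lit 5) (nat_lit 3) (nat_lit 4) (nat_lit 1) (nat_lit 4) (nat_lit 321) (nat_lit 223) (nat_lit 176)) (XT.lf (nat_lit 0) (nat_lit 239410029824) (nat_lit 152) (nat_lit 291896529460) (nat_lit 0) (nat_lit 235143523519) (nat_lit 1) (nat_lit 5) (nat_lit 3) (nat_lit 4) (nat_lit 1) (nat_lit 4) (nat_lit 322) (nat_lit 223) (nat_lit 175)))) (XT.nd (nat_lit 78) (nat_lit 0) (nat_lit 0) (XT.lf (nat_lit 0) (nat_lit 259744270923) (nat_lit 152) (nat_lit 312426621883) (nat_lit 0) (nat_lit 255469704611) (nat_lit 1) (nat_lit 5) (nat_lit 3) (nat_lit 4) (nat_lit 1) (nat_lit 4) (nat_lit 323) (nat_lit 223) (nat_lit 174)) (XT.nd (nat_lit 78) (nat_lit 0) (nat_lit 0) (XT.lf (nat_lit 0) (nat_lit 281700066246) (nat_lit 152) (nat_lit 334608674868) (nat_lit 0) (nat_lit 277418036965) (nat_lit 1) (nat_lit 5) (nat_lit 3) (nat_lit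 4) (nat_lit 1) (nat_lit 4) (nat_lit 324) (nat_lit 223) (nat_lit 173)) (XT.lf (nat_lit 0) (nat_lit 305407524209) (nat_lit 152) (nat_lit 358574137618) (nat_lit 0) (nat_lit 301118584770) (nat_lit 1) (nat_lit 5) (nat_lit 3) (nat_lit 4) (nat_lit 1) (nat_lit 4) (nat_lit 325) (nat_lit 223) (nat_lit 172))))))) (XT.nd (nat_lit 936) (nat_lit 0) (nat_lit 0) (XT.nd (nat_lit 468) (nat_lit 0) (nat_lit 0) (XT.nd (nat_lit 234) (nat_lit 0) (nat_lit 0) (XT.nd (nat_lit 78) (nat_lit 0) (nat_lit 0) (XT.lf (nat_lit 0) (nat_lit 331007133452) (nat_lit 152) (nat_lit 384465027690) (nat_lit 0) (nat_lit 326711795720) (nat_lit 1) (nat_lit 5) (nat_lit 3) (nat_lit 4) (nat_lit 1) (nat_lit 4) (nat_lit 326) (nat_lit 223) (nat_lit 171)) (XT.nd (nat_lit 78) (nat_lit 0) (nat_lit 0) (XT.lf (nat_lit 0) (nat_lit 358650595363) (nat_lit 152) (nat_lit 412434772580) (nat_lit 0) (nat_lit 354349333285) (nat_lit 1) (nat_lit 5)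 (nat_lit 3) (nat_lit 4) (nat_lit 1) (nat_lit 4) (nat_lit 327) (nat_lit 223) (nat_lit 170)) (XT.lf (nat_lit 0) (nat_lit 388501723050) (nat_lit 152) (nat_lit 442649118925) (nat_lit 0) (nat_lit 384194975466) (nat_lit 1) (nat_lit 5) (nat_lit 3) (nat_lit 4) (nat_lit 1) (nat_lit 4) (nat_lit 328) (nat_lit 223) (nat_lit 169)))) (XT.nd (nat_lit 78) (nat_lit 0) (nat_lit 0) (XT.lf (nat_lit 0) (nat_lit 420737412084) (nat_lit 152) (nat_lit 475287114703) (nat_lit 0) (nat_lit 416425585329) (nat_lit 1) (nat_lit 5) (nat_lit 3) (nat_lit 4) (nat_lit 1) (nat_lit 4) (nat_lit 329) (nat_lit 223) (nat_lit 168)) (XT.nd (nat_lit 78) (nat_lit 0) (nat_lit 0) (XT.lf (nat_lit 0) (nat_lit 455548688771) (nat_lit 152) (nat_lit 510542170260) (nat_lit 0) (nat_lit 451232159078) (nat_lit 1) (nat_lit 5) (nat_lit 3) (nat_lit 4) (nat_lit 1) (nat_lit 4) (nat_lit 330) (nat_lit 223) (nat_lit 167)) (XT.lf (nat_lit 0) (nat_lit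 493141842157) (nat_lit 152) (nat_lit 548623204443) (nat_lit 0) (nat_lit 488820957893) (nat_lit 1) (nat_lit 5) (nat_lit 3) (nat_lit 4) (nat_lit 1) (nat_lit 4) (nat_lit 331) (nat_lit 223) (nat_lit 166))))) (XT.nd (nat_lit 234) (nat_lit 0) (nat_lit 0) (XT.nd (nat_lit 78) (nat_lit 0) (nat_lit 0) (XT.lf (nat_lit 0) (nat_lit 533739646485) (nat_lit 152) (nat_lit 589755882640) (nat_lit 0) (nat_lit 529414730211) (nat_lit 1) (nat_lit 5) (nat_lit 3) (nat_lit 4) (nat_lit 1) (nat_lit 4) (nat_lit 332) (nat_lit 223) (nat_lit 165)) (XT.nd (nat_lit 78) (nat_lit 0) (nat_lit 0) (XT.lf (nat_lit 0) (nat_lit 577582681336) (nat_lit 152) (nat_lit 634183954056) (nat_lit 0) (nat_lit 573254031719) (nat_lit 1) (nat_lit 5) (nat_lit 3) (nat_lit 4) (nat_lit 1) (nat_lit 4) (nat_lit 333) (nat_lit 223) (nat_lit 164)) (XT.lf (nat_lit 0) (nat_lit 624930757287) (nat_lit 152) (nat_lit 682170696149) (nat_lit 0) (nat_lit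 620598650872) (nat_lit 1) (nat_lit 5) (nat_lit 3) (nat_lit 4) (nat_lit 1) (nat_lit 4) (nat_lit 334) (nat_lit 223) (nat_lit 163)))) (XT.nd (nat_lit 78) (nat_lit 0) (nat_lit 0) (XT.lf (nat_lit 0) (nat_lit 676064455529) (nat_lit 152) (nat_lit 734000474801) (nat_lit 0) (nat_lit 671729148374) (nat_lit 1) (nat_lit 5) (nat_lit 3) (nat_lit 4) (nat_lit 1) (nat_lit 4) (nat_lit 335) (nat_lit 223) (nat_lit 162)) (XT.nd (nat_lit 78) (nat_lit 0) (nat_lit 0) (XT.lf (nat_lit 0) (nat_lit 731286790570) (nat_lit 152) (nat_lit 789980429439) (nat_lit 0) (nat_lit 726948519767) (nat_lit 1) (nat_lit 5) (nat_lit 3) (nat_lit 4) (nat_lit 1) (nat_lit 4) (nat_lit 336) (nat_lit 223) (nat_lit 161)) (XT.lf (nat_lit 0) (nat_lit 790925005877) (nat_lit 152) (nat_lit 850442293128) (nat_lit 0) (nat_lit 786583990955) (nat_lit 1) (nat_lit 5) (nat_lit 3) (nat_lit 4) (nat_lit 1) (nat_lit 4) (nat_lit 337) (nat_lit 223) (nat_lit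 160)))))) (XT.nd (nat_lit 32760) (nat_lit 0) (nat_lit 152) (XT.nd (nat_lit 32526) (nat_lit 0) (nat_lit 228) (XT.nd (nat_lit 32370) (nat_lit 0) (nat_lit 380) (XT.lf (nat_lit 0) (nat_lit 855332513096) (nat_lit 152) (nat_lit 915744358393) (nat_lit 0) (nat_lit 850988957323) (nat_lit 1) (nat_lit 5) (nat_lit 3) (nat_lit 4) (nat_lit 1) (nat_lit 4) (nat_lit 338) (nat_lit 223) (nat_lit 159)) (XT.nd (nat_lit 78) (nat_lit 0) (nat_lit 0) (XT.lf (nat_lit 0) (nat_lit 1441814343) (nat_lit 76) (nat_lit 4072987978) (nat_lit 76) (nat_lit 4072987978) (nat_lit 6) (nat_lit 4) (nat_lit 7) (nat_lit 5) (nat_lit 7) (nat_lit 4) (nat_lit 272) (nat_lit 224) (nat_lit 224)) (XT.lf (nat_lit 0) (nat_lit 9501752334) (nat_lit 76) (nat_lit 5655395992) (nat_lit 76) (nat_lit 5247126468) (nat_lit 6) (nat_lit 4) (nat_lit 7) (nat_lit 5) (nat_lit 7) (nat_lit 4) (nat_lit 273) (nat_lit 224) (nat_lit 223)))) (XT.nd (nat_lit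 78) (nat_lit 152) (nat_lit 0) (XT.lf (nat_lit 0) (nat_lit 16337889836) (nat_lit 76) (nat_lit 3097279900) (nat_lit 76) (nat_lit 2310983038) (nat_lit 6) (nat_lit 4) (nat_lit 7) (nat_lit 5) (nat_lit 7) (nat_lit 4) (nat_lit 274) (nat_lit 224) (nat_lit 222)) (XT.nd (nat_lit 78) (nat_lit 0) (nat_lit 0) (XT.lf (nat_lit 0) (nat_lit 217936812) (nat_lit 76) (nat_lit 433149238) (nat_lit 152) (nat_lit 22556353007) (nat_lit 4) (nat_lit 5) (nat_lit 5) (nat_lit 5) (nat_lit 6) (nat_lit 4) (nat_lit 275) (nat_lit 224) (nat_lit 221)) (XT.lf (nat_lit 0) (nat_lit 3767274684) (nat_lit 152) (nat_lit 18595561713) (nat_lit 0) (nat_lit 2415034235) (nat_lit 4) (nat_lit 5) (nat_lit 6) (nat_lit 4) (nat_lit 4) (nat_lit 4) (nat_lit 276) (nat_lit 224) (nat_lit 220))))) (XT.nd (nat_lit 234) (nat_lit 76) (nat_lit 0) (XT.nd (nat_lit 78) (nat_lit 0) (nat_lit 0) (XT.lf (nat_lit 0) (nat_lit 6988003358) (nat_lit 152) (nat_lit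 14139987252) (nat_lit 0) (nat_lit 5357901531) (nat_lit 4) (nat_lit 5) (nat_lit 6) (nat_lit 4) (nat_lit 4) (nat_lit 4) (nat_lit 277) (nat_lit 224) (nat_lit 219)) (XT.nd (nat_lit 78) (nat_lit 0) (nat_lit 0) (XT.lf (nat_lit 0) (nat_lit 10321940622) (nat_lit 152) (nat_lit 9585958207) (nat_lit 0) (nat_lit 8434559741) (nat_lit 4) (nat_lit 5) (nat_lit 6) (nat_lit 4) (nat_lit 4) (nat_lit 4) (nat_lit 278) (nat_lit 224) (nat_lit 218)) (XT.lf (nat_lit 0) (nat_lit 13788843142) (nat_lit 152) (nat_lit 4906487740) (nat_lit 0) (nat_lit 11663240915) (nat_lit 4) (nat_lit 5) (nat_lit 6) (nat_lit 4) (nat_lit 4) (nat_lit 4) (nat_lit 279) (nat_lit 224) (nat_lit 217)))) (XT.nd (nat_lit 78) (nat_lit 76) (nat_lit 0) (XT.lf (nat_lit 0) (nat_lit 17409255525) (nat_lit 152) (nat_lit 73845655) (nat_lit 0) (nat_lit 15063077978) (nat_lit 4) (nat_lit 5) (nat_lit 6) (nat_lit 4) (nat_lit 4) (nat_lit 4) (nat_lit 280)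 (nat_lit 224) (nat_lit 216)) (XT.nd (nat_lit 78) (nat_lit 0) (nat_lit 0) (XT.lf (nat_lit 0) (nat_lit 5200769477) (nat_lit 76) (nat_lit 16128941220) (nat_lit 76) (nat_lit 13578527265) (nat_lit 3) (nat_lit 4) (nat_lit 4) (nat_lit 5) (nat_lit 4) (nat_lit 4) (nat_lit 281) (nat_lit 224) (nat_lit 215)) (XT.lf (nat_lit 0) (nat_lit 10701936477) (nat_lit 76) (nat_lit 14752909240) (nat_lit 76) (nat_lit 12013387500) (nat_lit 3) (nat_lit 4) (nat_lit 4) (nat_lit 5) (nat_lit 4) (nat_lit 4) (nat_lit 282) (nat_lit 224) (nat_lit 214))))))))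
noncomputable def xc23 : XT := (XT.nd (nat_lit 1872) (nat_lit 0) (nat_lit 0) (XT.nd (nat_lit 936) (nat_lit 0) (nat_lit 0) (XT.nd (nat_lit 468) (nat_lit 152) (nat_lit 0) (XT.nd (nat_lit 234) (nat_lit 0) (nat_lit 0) (XT.nd (nat_lit 78) (nat_lit 0) (nat_lit 0) (XT.lf (nat_lit 0) (nat_lit 16458366268) (nat_lit 76) (nat_lit 13348870049) (nat_lit 76) (nat_lit 10434248508) (nat_lit 3) (nat_lit 4) (nat_lit 4) (nat_lit 5) (nat_lit 4) (nat_lit 4) (nat_lit 283) (nat_lit 224) (nat_lit 213)) (XT.nd (nat_lit 78) (nat_lit 0) (nat_lit 0) (XT.lf (nat_lit 0) (nat_lit 22504171029) (nat_lit 76) (nat_lit 11908503413) (nat_lit 76) (nat_lit 8831752427) (nat_lit 3) (nat_lit 4) (nat_lit 4) (nat_lit 5) (nat_lit 4) (nat_lit 4) (nat_lit 284) (nat_lit 224) (nat_lit 212)) (XT.lf (nat_lit 0) (nat_lit 28875177751) (nat_lit 76) (nat_lit 10423273828) (nat_lit 76) (nat_lit 7196402985) (nat_lit 3) (nat_lit 4) (nat_lit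 4) (nat_lit 5) (nat_lit 4) (nat_lit 4) (nat_lit 285) (nat_lit 224) (nat_lit 211)))) (XT.nd (nat_lit 78) (nat_lit 0) (nat_lit 0) (XT.lf (nat_lit 0) (nat_lit 35609140546) (nat_lit 76) (nat_lit 8884379933) (nat_lit 76) (nat_lit 5518509222) (nat_lit 3) (nat_lit 4) (nat_lit 4) (nat_lit 5) (nat_lit 4) (nat_lit 4) (nat_lit 286) (nat_lit 224) (nat_lit 210)) (XT.nd (nat_lit 78) (nat_lit 0) (nat_lit 0) (XT.lf (nat_lit 0) (nat_lit 42745964380) (nat_lit 76) (nat_lit 7282702355) (nat_lit 76) (nat_lit 3788128064) (nat_lit 3) (nat_lit 4) (nat_lit 4) (nat_lit 5) (nat_lit 4) (nat_lit 4) (nat_lit 287) (nat_lit 224) (nat_lit 209)) (XT.lf (nat_lit 0) (nat_lit 50327941543) (nat_lit 76) (nat_lit 5608749674) (nat_lit 76) (nat_lit 1995005401) (nat_lit 3) (nat_lit 4) (nat_lit 4) (nat_lit 5) (nat_lit 4) (nat_lit 4) (nat_lit 288) (nat_lit 224) (nat_lit 208))))) (XT.nd (nat_lit 234) (nat_lit 0) (nat_lit 0) (XT.nd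 (nat_lit 78) (nat_lit 152) (nat_lit 0) (XT.lf (nat_lit 0) (nat_lit 58400002269) (nat_lit 76) (nat_lit 3852602169) (nat_lit 76) (nat_lit 128515319) (nat_lit 3) (nat_lit 4) (nat_lit 4) (nat_lit 5) (nat_lit 4) (nat_lit 4) (nat_lit 289) (nat_lit 224) (nat_lit 207)) (XT.nd (nat_lit 78) (nat_lit 76) (nat_lit 0) (XT.lf (nat_lit 0) (nat_lit 1731238889) (nat_lit 152) (nat_lit 225279010) (nat_lit 76) (nat_lit 65231406963) (nat_lit 2) (nat_lit 5) (nat_lit 4) (nat_lit 5) (nat_lit 3) (nat_lit 4) (nat_lit 290) (nat_lit 224) (nat_lit 206)) (XT.lf (nat_lit 0) (nat_lit 3773674561) (nat_lit 152) (nat_lit 68458931917) (nat_lit 0) (nat_lit 143251527) (nat_lit 1) (nat_lit 5) (nat_lit 3) (nat_lit 4) (nat_lit 1) (nat_lit 4) (nat_lit 291) (nat_lit 224) (nat_lit 205)))) (XT.nd (nat_lit 78) (nat_lit 0) (nat_lit 0) (XT.lf (nat_lit 0) (nat_lit 5980293681) (nat_lit 152) (nat_lit 69729812931) (nat_lit 0) (nat_lit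 2268765560) (nat_lit 1) (nat_lit 5) (nat_lit 3) (nat_lit 4) (nat_lit 1) (nat_lit 4) (nat_lit 292) (nat_lit 224) (nat_lit 204)) (XT.nd (nat_lit 78) (nat_lit 0) (nat_lit 0) (XT.lf (nat_lit 0) (nat_lit 8311266805) (nat_lit 152) (nat_lit 71198494678) (nat_lit 0) (nat_lit 4524641381) (nat_lit 1) (nat_lit 5) (nat_lit 3) (nat_lit 4) (nat_lit 1) (nat_lit 4) (nat_lit 293) (nat_lit 224) (nat_lit 203)) (XT.lf (nat_lit 0) (nat_lit 10780407109) (nat_lit 152) (nat_lit 72873680457) (nat_lit 0) (nat_lit 6924247145) (nat_lit 1) (nat_lit 5) (nat_lit 3) (nat_lit 4) (nat_lit 1) (nat_lit 4) (nat_lit 294) (nat_lit 224) (nat_lit 202)))))) (XT.nd (nat_lit 468) (nat_lit 0) (nat_lit 0) (XT.nd (nat_lit 234) (nat_lit 0) (nat_lit 0) (XT.nd (nat_lit 78) (nat_lit 0) (nat_lit 0) (XT.lf (nat_lit 0) (nat_lit 13402346534) (nat_lit 152) (nat_lit 74765297296) (nat_lit 0) (nat_lit 9481802737) (nat_lit 1) (nat_lit 5) (nat_lit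 3) (nat_lit 4) (nat_lit 1) (nat_lit 4) (nat_lit 295) (nat_lit 224) (nat_lit 201)) (XT.nd (nat_lit 78) (nat_lit 0) (nat_lit 0) (XT.lf (nat_lit 0) (nat_lit 16192622499) (nat_lit 152) (nat_lit 76884554774) (nat_lit 0) (nat_lit 12212464041) (nat_lit 1) (nat_lit 5) (nat_lit 3) (nat_lit 4) (nat_lit 1) (nat_lit 4) (nat_lit 296) (nat_lit 224) (nat_lit 200)) (XT.lf (nat_lit 0) (nat_lit 19167769974) (nat_lit 152) (nat_lit 79244011456) (nat_lit 0) (nat_lit 15132412756) (nat_lit 1) (nat_lit 5) (nat_lit 3) (nat_lit 4) (nat_lit 1) (nat_lit 4) (nat_lit 297) (nat_lit 224) (nat_lit 199)))) (XT.nd (nat_lit 78) (nat_lit 0) (nat_lit 0) (XT.lf (nat_lit 0) (nat_lit 22345419460) (nat_lit 152) (nat_lit 81857649307) (nat_lit 0) (nat_lit 18258952280) (nat_lit 1) (nat_lit 5) (nat_lit 3) (nat_lit 4) (nat_lit 1) (nat_lit 4) (nat_lit 298) (nat_lit 224) (nat_lit 198)) (XT.nd (nat_lit 78) (nat_lit 0) (nat_lit 0)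 (XT.lf (nat_lit 0) (nat_lit 25744401475) (nat_lit 152) (nat_lit 84740956551) (nat_lit 0) (nat_lit 21610610255) (nat_lit 1) (nat_lit 5) (nat_lit 3) (nat_lit 4) (nat_lit 1) (nat_lit 4) (nat_lit 299) (nat_lit 224) (nat_lit 197)) (XT.lf (nat_lit 0) (nat_lit 29384858133) (nat_lit 152) (nat_lit 87911019453) (nat_lit 0) (nat_lit 25207248358) (nat_lit 1) (nat_lit 5) (nat_lit 3) (nat_lit 4) (nat_lit 1) (nat_lit 4) (nat_lit 300) (nat_lit 224) (nat_lit 196))))) (XT.nd (nat_lit 234) (nat_lit 0) (nat_lit 0) (XT.nd (nat_lit 78) (nat_lit 0) (nat_lit 0) (XT.lf (nat_lit 0) (nat_lit 33288362511) (nat_lit 152) (nat_lit 91386623571) (nat_lit 0) (nat_lit 29070180000) (nat_lit 1) (nat_lit 5) (nat_lit 3) (nat_lit 4) (nat_lit 1) (nat_lit 4) (nat_lit 301) (nat_lit 224) (nat_lit 195)) (XT.nd (nat_lit 78) (nat_lit 0) (nat_lit 0) (XT.lf (nat_lit 0) (nat_lit 37478046488) (nat_lit 152) (nat_lit 95188365077) (nat_lit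 0) (nat_lit 33222296628) (nat_lit 1) (nat_lit 5) (nat_lit 3) (nat_lit 4) (nat_lit 1) (nat_lit 4) (nat_lit 302) (nat_lit 224) (nat_lit 194)) (XT.lf (nat_lit 0) (nat_lit 41978737818) (nat_lit 152) (nat_lit 99338772811) (nat_lit 0) (nat_lit 37688203377) (nat_lit 1) (nat_lit 5) (nat_lit 3) (nat_lit 4) (nat_lit 1) (nat_lit 4) (nat_lit 303) (nat_lit 224) (nat_lit 193)))) (XT.nd (nat_lit 78) (nat_lit 0) (nat_lit 0) (XT.lf (nat_lit 0) (nat_lit 46817107268) (nat_lit 152) (nat_lit 103862441781) (nat_lit 0) (nat_lit 42494364880) (nat_lit 1) (nat_lit 5) (nat_lit 3) (nat_lit 4) (nat_lit 1) (nat_lit 4) (nat_lit 304) (nat_lit 224) (nat_lit 192)) (XT.nd (nat_lit 78) (nat_lit 0) (nat_lit 0) (XT.lf (nat_lit 0) (nat_lit 52021826654) (nat_lit 152) (nat_lit 108786178914) (nat_lit 0) (nat_lit 47669262094) (nat_lit 1) (nat_lit 5) (nat_lit 3) (nat_lit 4) (nat_lit 1) (nat_lit 4) (nat_lit 305) (nat_lit 224)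 (nat_lit 191)) (XT.lf (nat_lit 0) (nat_lit 57623738759) (nat_lit 152) (nat_lit 114139161912) (nat_lit 0) (nat_lit 53243561076) (nat_lit 1) (nat_lit 5) (nat_lit 3) (nat_lit 4) (nat_lit 1) (nat_lit 4) (nat_lit 306) (nat_lit 224) (nat_lit 190))))))) (XT.nd (nat_lit 936) (nat_lit 0) (nat_lit 0) (XT.nd (nat_lit 468) (nat_lit 0) (nat_lit 0) (XT.nd (nat_lit 234) (nat_lit 0) (nat_lit 0) (XT.nd (nat_lit 78) (nat_lit 0) (nat_lit 0) (XT.lf (nat_lit 0) (nat_lit 63656040099) (nat_lit 152) (nat_lit 119953112156) (nat_lit 0) (nat_lit 59250294710) (nat_lit 1) (nat_lit 5) (nat_lit 3) (nat_lit 4) (nat_lit 1) (nat_lit 4) (nat_lit 307) (nat_lit 224) (nat_lit 189)) (XT.nd (nat_lit 78) (nat_lit 0) (nat_lit 0) (XT.lf (nat_lit 0) (nat_lit 70154477645) (nat_lit 152) (nat_lit 126262482683) (nat_lit 0) (nat_lit 65725058454) (nat_lit 1) (nat_lit 5) (nat_lit 3) (nat_lit 4) (nat_lit 1) (nat_lit 4) (nat_lit 308)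 (nat_lit 224) (nat_lit 188)) (XT.lf (nat_lit 0) (nat_lit 77157560656) (nat_lit 152) (nat_lit 133104662357) (nat_lit 0) (nat_lit 72706221278) (nat_lit 1) (nat_lit 5) (nat_lit 3) (nat_lit 4) (nat_lit 1) (nat_lit 4) (nat_lit 309) (nat_lit 224) (nat_lit 187)))) (XT.nd (nat_lit 78) (nat_lit 0) (nat_lit 0) (XT.lf (nat_lit 0) (nat_lit 84706788883) (nat_lit 152) (nat_lit 140520197427) (nat_lit 0) (nat_lit 80235153036) (nat_lit 1) (nat_lit 5) (nat_lit 3) (nat_lit 4) (nat_lit 1) (nat_lit 4) (nat_lit 310) (nat_lit 224) (nat_lit 186)) (XT.nd (nat_lit 78) (nat_lit 0) (nat_lit 0) (XT.lf (nat_lit 0) (nat_lit 92846898495) (nat_lit 152) (nat_lit 148553031805) (nat_lit 0) (nat_lit 88356469620) (nat_lit 1) (nat_lit 5) (nat_lit 3) (nat_lit 4) (nat_lit 1) (nat_lit 4) (nat_lit 311) (nat_lit 224) (nat_lit 185)) (XT.lf (nat_lit 0) (nat_lit 101626127176) (nat_lit 152) (nat_lit 157250767472) (nat_lit 0) (nat_lit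 97118297351) (nat_lit 1) (nat_lit 5) (nat_lit 3) (nat_lit 4) (nat_lit 1) (nat_lit 4) (nat_lit 312) (nat_lit 224) (nat_lit 184))))) (XT.nd (nat_lit 234) (nat_lit 0) (nat_lit 0) (XT.nd (nat_lit 78) (nat_lit 0) (nat_lit 0) (XT.lf (nat_lit 0) (nat_lit 111096499987) (nat_lit 152) (nat_lit 166664946566) (nat_lit 0) (nat_lit 106572558170) (nat_lit 1) (nat_lit 5) (nat_lit 3) (nat_lit 4) (nat_lit 1) (nat_lit 4) (nat_lit 313) (nat_lit 224) (nat_lit 183)) (XT.nd (nat_lit 78) (nat_lit 0) (nat_lit 0) (XT.lf (nat_lit 0) (nat_lit 121314137655) (nat_lit 152) (nat_lit 176851356814) (nat_lit 0) (nat_lit 116775277327) (nat_lit 1) (nat_lit 5) (nat_lit 3) (nat_lit 4) (nat_lit 1) (nat_lit 4) (nat_lit 314) (nat_lit 224) (nat_lit 182)) (XT.lf (nat_lit 0) (nat_lit 132339589144) (nat_lit 152) (nat_lit 187870362130) (nat_lit 0) (nat_lit 127786915380) (nat_lit 1) (nat_lit 5) (nat_lit 3) (nat_lit 4) (nat_lit 1)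 (nat_lit 4) (nat_lit 315) (nat_lit 224) (nat_lit 181)))) (XT.nd (nat_lit 78) (nat_lit 0) (nat_lit 0) (XT.lf (nat_lit 0) (nat_lit 144238190463) (nat_lit 152) (nat_lit 199787260322) (nat_lit 0) (nat_lit 139672726480) (nat_lit 1) (nat_lit 5) (nat_lit 3) (nat_lit 4) (nat_lit 1) (nat_lit 4) (nat_lit 316) (nat_lit 224) (nat_lit 180)) (XT.nd (nat_lit 78) (nat_lit 0) (nat_lit 0) (XT.lf (nat_lit 0) (nat_lit 157080451841) (nat_lit 152) (nat_lit 212672670046) (nat_lit 0) (nat_lit 152503145063) (nat_lit 1) (nat_lit 5) (nat_lit 3) (nat_lit 4) (nat_lit 1) (nat_lit 4) (nat_lit 317) (nat_lit 224) (nat_lit 179)) (XT.lf (nat_lit 0) (nat_lit 170942475569) (nat_lit 152) (nat_lit 226602949286) (nat_lit 0) (nat_lit 166354203240) (nat_lit 1) (nat_lit 5) (nat_lit 3) (nat_lit 4) (nat_lit 1) (nat_lit 4) (nat_lit 318) (nat_lit 224) (nat_lit 178)))))) (XT.nd (nat_lit 468) (nat_lit 0) (nat_lit 0) (XT.nd (nat_lit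 234) (nat_lit 0) (nat_lit 0) (XT.nd (nat_lit 78) (nat_lit 0) (nat_lit 0) (XT.lf (nat_lit 0) (nat_lit 185906406972) (nat_lit 152) (nat_lit 241660647846) (nat_lit 0) (nat_lit 181307981356) (nat_lit 1) (nat_lit 5) (nat_lit 3) (nat_lit 4) (nat_lit 1) (nat_lit 4) (nat_lit 319) (nat_lit 224) (nat_lit 177)) (XT.nd (nat_lit 78) (nat_lit 0) (nat_lit 0) (XT.lf (nat_lit 0) (nat_lit 202060921200) (nat_lit 152) (nat_lit 257934996530) (nat_lit 0) (nat_lit 197453094391) (nat_lit 1) (nat_lit 5) (nat_lit 3) (nat_lit 4) (nat_lit 1) (nat_lit 4) (nat_lit 320) (nat_lit 224) (nat_lit 176)) (XT.lf (nat_lit 0) (nat_lit 219501748706) (nat_lit 152) (nat_lit 275522435924) (nat_lit 0) (nat_lit 214885217089) (nat_lit 1) (nat_lit 5) (nat_lit 3) (nat_lit 4) (nat_lit 1) (nat_lit 4) (nat_lit 321) (nat_lit 224) (nat_lit 175)))) (XT.nd (nat_lit 78) (nat_lit 0) (nat_lit 0) (XT.lf (nat_lit 0) (nat_lit 238332242544) (nat_lit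 152) (nat_lit 294527187891) (nat_lit 0) (nat_lit 233707650920) (nat_lit 1) (nat_lit 5) (nat_lit 3) (nat_lit 4) (nat_lit 1) (nat_lit 4) (nat_lit 322) (nat_lit 224) (nat_lit 174)) (XT.nd (nat_lit 78) (nat_lit 0) (nat_lit 0) (XT.lf (nat_lit 0) (nat_lit 258663990824) (nat_lit 152) (nat_lit 315061873183) (nat_lit 0) (nat_lit 254031936230) (nat_lit 1) (nat_lit 5) (nat_lit 3) (nat_lit 4) (nat_lit 1) (nat_lit 4) (nat_lit 323) (nat_lit 224) (nat_lit 173)) (XT.lf (nat_lit 0) (nat_lit 280617477980) (nat_lit 152) (nat_lit 337248178825) (nat_lit 0) (nat_lit 275978513229) (nat_lit 1) (nat_lit 5) (nat_lit 3) (nat_lit 4) (nat_lit 1) (nat_lit 4) (nat_lit 324) (nat_lit 224) (nat_lit 172))))) (XT.nd (nat_lit 234) (nat_lit 0) (nat_lit 0) (XT.nd (nat_lit 78) (nat_lit 0) (nat_lit 0) (XT.lf (nat_lit 0) (nat_lit 304322798753) (nat_lit 152) (nat_lit 361217579220) (nat_lit 0) (nat_lit 299677435708) (nat_lit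 1) (nat_lit 5) (nat_lit 3) (nat_lit 4) (nat_lit 1) (nat_lit 4) (nat_lit 325) (nat_lit 224) (nat_lit 171)) (XT.nd (nat_lit 78) (nat_lit 0) (nat_lit 0) (XT.lf (nat_lit 0) (nat_lit 329920429115) (nat_lit 152) (nat_lit 387112115259) (nat_lit 0) (nat_lit 325269141725) (nat_lit 1) (nat_lit 5) (nat_lit 3) (nat_lit 4) (nat_lit 1) (nat_lit 4) (nat_lit 326) (nat_lit 224) (nat_lit 170)) (XT.lf (nat_lit 0) (nat_lit 357562058730) (nat_lit 152) (nat_lit 415085236045) (nat_lit 0) (nat_lit 352905285833) (nat_lit 1) (nat_lit 5) (nat_lit 3) (nat_lit 4) (nat_lit 1) (nat_lit 4) (nat_lit 327) (nat_lit 224) (nat_lit 169)))) (XT.nd (nat_lit 156) (nat_lit 0) (nat_lit 0) (XT.nd (nat_lit 78) (nat_lit 0) (nat_lit 0) (XT.lf (nat_lit 0) (nat_lit 387411489845) (nat_lit 152) (nat_lit 445302708220) (nat_lit 0) (nat_lit 382749637777) (nat_lit 1) (nat_lit 5) (nat_lit 3) (nat_lit 4) (nat_lit 1) (nat_lit 4) (nat_lit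 328) (nat_lit 224) (nat_lit 168)) (XT.lf (nat_lit 0) (nat_lit 419645607980) (nat_lit 152) (nat_lit 477943598285) (nat_lit 0) (nat_lit 414979052975) (nat_lit 1) (nat_lit 5) (nat_lit 3) (nat_lit 4) (nat_lit 1) (nat_lit 4) (nat_lit 329) (nat_lit 224) (nat_lit 167))) (XT.nd (nat_lit 78) (nat_lit 0) (nat_lit 0) (XT.lf (nat_lit 0) (nat_lit 454455430131) (nat_lit 152) (nat_lit 513201333737) (nat_lit 0) (nat_lit 449784520555) (nat_lit 1) (nat_lit 5) (nat_lit 3) (nat_lit 4) (nat_lit 1) (nat_lit 4) (nat_lit 330) (nat_lit 224) (nat_lit 166)) (XT.lf (nat_lit 0) (nat_lit 492047236724) (nat_lit 152) (nat_lit 551284849304) (nat_lit 0) (nat_lit 487372295138) (nat_lit 1) (nat_lit 5) (nat_lit 3) (nat_lit 4) (nat_lit 1) (nat_lit 4) (nat_lit 331) (nat_lit 224) (nat_lit 165))))))))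
noncomputable def xc24 : XT := (XT.nd (nat_lit 34008) (nat_lit 0) (nat_lit 0) (XT.nd (nat_lit 33072) (nat_lit 0) (nat_lit 152) (XT.nd (nat_lit 468) (nat_lit 0) (nat_lit 0) (XT.nd (nat_lit 234) (nat_lit 0) (nat_lit 0) (XT.nd (nat_lit 78) (nat_lit 0) (nat_lit 0) (XT.lf (nat_lit 0) (nat_lit 532643794022) (nat_lit 152) (nat_lit 592419825080) (nat_lit 0) (nat_lit 527965119093) (nat_lit 1) (nat_lit 5) (nat_lit 3) (nat_lit 4) (nat_lit 1) (nat_lit 4) (nat_lit 332) (nat_lit 224) (nat_lit 164)) (XT.nd (nat_lit 78) (nat_lit 0) (nat_lit 0) (XT.lf (nat_lit 0) (nat_lit 576485674215) (nat_lit 152) (nat_lit 636850023882) (nat_lit 0) (nat_lit 571803542487) (nat_lit 1) (nat_lit 5) (nat_lit 3) (nat_lit 4) (nat_lit 1) (nat_lit 4) (nat_lit 333) (nat_lit 224) (nat_lit 163)) (XT.lf (nat_lit 0) (nat_lit 623832681039) (nat_lit 152) (nat_lit 684838735779) (nat_lit 0) (nat_lit 619147348571) (nat_lit 1) (nat_lit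 5) (nat_lit 3) (nat_lit 4) (nat_lit 1) (nat_lit 4) (nat_lit 334) (nat_lit 224) (nat_lit 162)))) (XT.nd (nat_lit 78) (nat_lit 0) (nat_lit 0) (XT.lf (nat_lit 0) (nat_lit 674965389348) (nat_lit 152) (nat_lit 736670338322) (nat_lit 0) (nat_lit 670277093232) (nat_lit 1) (nat_lit 5) (nat_lit 3) (nat_lit 4) (nat_lit 1) (nat_lit 4) (nat_lit 335) (nat_lit 224) (nat_lit 161)) (XT.nd (nat_lit 78) (nat_lit 0) (nat_lit 0) (XT.lf (nat_lit 0) (nat_lit 730186807784) (nat_lit 152) (nat_lit 792651981748) (nat_lit 0) (nat_lit 725495767550) (nat_lit 1) (nat_lit 5) (nat_lit 3) (nat_lit 4) (nat_lit 1) (nat_lit 4) (nat_lit 336) (nat_lit 224) (nat_lit 160)) (XT.lf (nat_lit 0) (nat_lit 789824174383) (nat_lit 152) (nat_lit 853115409130) (nat_lit 0) (nat_lit 785130593298) (nat_lit 1) (nat_lit 5) (nat_lit 3) (nat_lit 4) (nat_lit 1) (nat_lit 4) (nat_lit 337) (nat_lit 224) (nat_lit 159))))) (XT.nd (nat_lit 32370)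 (nat_lit 0) (nat_lit 380) (XT.nd (nat_lit 32214) (nat_lit 0) (nat_lit 456) (XT.lf (nat_lit 0) (nat_lit 854230895761) (nat_lit 152) (nat_lit 918418922260) (nat_lit 0) (nat_lit 849534962037) (nat_lit 1) (nat_lit 5) (nat_lit 3) (nat_lit 4) (nat_lit 1) (nat_lit 4) (nat_lit 338) (nat_lit 224) (nat_lit 158)) (XT.nd (nat_lit 78) (nat_lit 0) (nat_lit 0) (XT.lf (nat_lit 0) (nat_lit 1951686545) (nat_lit 152) (nat_lit 4597763812) (nat_lit 0) (nat_lit 1951686545) (nat_lit 7) (nat_lit 5) (nat_lit 9) (nat_lit 4) (nat_lit 7) (nat_lit 4) (nat_lit 270) (nat_lit 225) (nat_lit 225)) (XT.lf (nat_lit 0) (nat_lit 7554524915) (nat_lit 152) (nat_lit 3377829121) (nat_lit 0) (nat_lit 7113593829) (nat_lit 7) (nat_lit 5) (nat_lit 9) (nat_lit 4) (nat_lit 7) (nat_lit 4) (nat_lit 271) (nat_lit 225) (nat_lit 224)))) (XT.nd (nat_lit 78) (nat_lit 0) (nat_lit 0) (XT.lf (nat_lit 0) (nat_lit 2721921513) (nat_lit 76) (nat_lit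 8655295067) (nat_lit 76) (nat_lit 7806094457) (nat_lit 6) (nat_lit 4) (nat_lit 7) (nat_lit 5) (nat_lit 7) (nat_lit 4) (nat_lit 272) (nat_lit 225) (nat_lit 223)) (XT.nd (nat_lit 78) (nat_lit 0) (nat_lit 0) (XT.lf (nat_lit 0) (nat_lit 9190316297) (nat_lit 76) (nat_lit 6228037347) (nat_lit 76) (nat_lit 5000809400) (nat_lit 6) (nat_lit 4) (nat_lit 7) (nat_lit 5) (nat_lit 7) (nat_lit 4) (nat_lit 273) (nat_lit 225) (nat_lit 222)) (XT.lf (nat_lit 0) (nat_lit 15887815961) (nat_lit 76) (nat_lit 3728552962) (nat_lit 76) (nat_lit 2151299703) (nat_lit 6) (nat_lit 4) (nat_lit 7) (nat_lit 5) (nat_lit 7) (nat_lit 4) (nat_lit 274) (nat_lit 225) (nat_lit 221)))))) (XT.nd (nat_lit 468) (nat_lit 76) (nat_lit 0) (XT.nd (nat_lit 234) (nat_lit 0) (nat_lit 0) (XT.nd (nat_lit 78) (nat_lit 76) (nat_lit 0) (XT.lf (nat_lit 0) (nat_lit 721336324) (nat_lit 152) (nat_lit 400971216) (nat_lit 76) (nat_lit 22113050456)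 (nat_lit 5) (nat_lit 5) (nat_lit 7) (nat_lit 5) (nat_lit 6) (nat_lit 4) (nat_lit 275) (nat_lit 225) (nat_lit 220)) (XT.nd (nat_lit 78) (nat_lit 0) (nat_lit 0) (XT.lf (nat_lit 0) (nat_lit 3735533116) (nat_lit 152) (nat_lit 19381434327) (nat_lit 0) (nat_lit 1697161765) (nat_lit 4) (nat_lit 5) (nat_lit 6) (nat_lit 4) (nat_lit 4) (nat_lit 4) (nat_lit 276) (nat_lit 225) (nat_lit 219)) (XT.lf (nat_lit 0) (nat_lit 6886814817) (nat_lit 152) (nat_lit 15049894179) (nat_lit 0) (nat_lit 4591164412) (nat_lit 4) (nat_lit 5) (nat_lit 6) (nat_lit 4) (nat_lit 4) (nat_lit 4) (nat_lit 277) (nat_lit 225) (nat_lit 218)))) (XT.nd (nat_lit 78) (nat_lit 0) (nat_lit 0) (XT.lf (nat_lit 0) (nat_lit 10156449329) (nat_lit 152) (nat_lit 10610711721) (nat_lit 0) (nat_lit 7622577578) (nat_lit 4) (nat_lit 5) (nat_lit 6) (nat_lit 4) (nat_lit 4) (nat_lit 4) (nat_lit 278) (nat_lit 225) (nat_lit 217)) (XT.nd (nat_lit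 78) (nat_lit 0) (nat_lit 0) (XT.lf (nat_lit 0) (nat_lit 13563812263) (nat_lit 152) (nat_lit 6037580687) (nat_lit 0) (nat_lit 10809365192) (nat_lit 4) (nat_lit 5) (nat_lit 6) (nat_lit 4) (nat_lit 4) (nat_lit 4) (nat_lit 279) (nat_lit 225) (nat_lit 216)) (XT.lf (nat_lit 0) (nat_lit 17129095400) (nat_lit 152) (nat_lit 1303401040) (nat_lit 0) (nat_lit 14170411921) (nat_lit 4) (nat_lit 5) (nat_lit 6) (nat_lit 4) (nat_lit 4) (nat_lit 4) (nat_lit 280) (nat_lit 225) (nat_lit 215))))) (XT.nd (nat_lit 234) (nat_lit 0) (nat_lit 0) (XT.nd (nat_lit 78) (nat_lit 0) (nat_lit 0) (XT.lf (nat_lit 0) (nat_lit 3810498167) (nat_lit 76) (nat_lit 17154570748) (nat_lit 76) (nat_lit 14006779484) (nat_lit 3) (nat_lit 4) (nat_lit 4) (nat_lit 5) (nat_lit 4) (nat_lit 4) (nat_lit 281) (nat_lit 225) (nat_lit 214)) (XT.nd (nat_lit 78) (nat_lit 0) (nat_lit 0) (XT.lf (nat_lit 0) (nat_lit 9222804317) (nat_lit 76) (nat_lit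 15817998070) (nat_lit 76) (nat_lit 12495107005) (nat_lit 3) (nat_lit 4) (nat_lit 4) (nat_lit 5) (nat_lit 4) (nat_lit 4) (nat_lit 282) (nat_lit 225) (nat_lit 213)) (XT.lf (nat_lit 0) (nat_lit 14896955544) (nat_lit 76) (nat_lit 14450495269) (nat_lit 76) (nat_lit 10965474758) (nat_lit 3) (nat_lit 4) (nat_lit 4) (nat_lit 5) (nat_lit 4) (nat_lit 4) (nat_lit 283) (nat_lit 225) (nat_lit 212)))) (XT.nd (nat_lit 78) (nat_lit 0) (nat_lit 0) (XT.lf (nat_lit 0) (nat_lit 20866576449) (nat_lit 76) (nat_lit 13043958624) (nat_lit 76) (nat_lit 9408818257) (nat_lit 3) (nat_lit 4) (nat_lit 4) (nat_lit 5) (nat_lit 4) (nat_lit 4) (nat_lit 284) (nat_lit 225) (nat_lit 211)) (XT.nd (nat_lit 78) (nat_lit 0) (nat_lit 0) (XT.lf (nat_lit 0) (nat_lit 27167042563) (nat_lit 76) (nat_lit 11590053104) (nat_lit 76) (nat_lit 7815912870) (nat_lit 3) (nat_lit 4) (nat_lit 4) (nat_lit 5) (nat_lit 4) (nat_lit 4) (nat_lit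 285) (nat_lit 225) (nat_lit 210)) (XT.lf (nat_lit 0) (nat_lit 33835689981) (nat_lit 76) (nat_lit 10080162973) (nat_lit 76) (nat_lit 6177319158) (nat_lit 3) (nat_lit 4) (nat_lit 4) (nat_lit 5) (nat_lit 4) (nat_lit 4) (nat_lit 286) (nat_lit 225) (nat_lit 209))))))) (XT.nd (nat_lit 936) (nat_lit 0) (nat_lit 0) (XT.nd (nat_lit 468) (nat_lit 0) (nat_lit 0) (XT.nd (nat_lit 234) (nat_lit 152) (nat_lit 0) (XT.nd (nat_lit 78) (nat_lit 0) (nat_lit 0) (XT.lf (nat_lit 0) (nat_lit 40912036614) (nat_lit 76) (nat_lit 8505340734) (nat_lit 76) (nat_lit 4483326936) (nat_lit 3) (nat_lit 4) (nat_lit 4) (nat_lit 5) (nat_lit 4) (nat_lit 4) (nat_lit 287) (nat_lit 225) (nat_lit 208)) (XT.nd (nat_lit 78) (nat_lit 0) (nat_lit 0) (XT.lf (nat_lit 0) (nat_lit 48438016368) (nat_lit 76) (nat_lit 6856254105) (nat_lit 76) (nat_lit 2723897731) (nat_lit 3) (nat_lit 4) (nat_lit 4) (nat_lit 5) (nat_lit 4) (nat_lit 4)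 (nat_lit 288) (nat_lit 225) (nat_lit 207)) (XT.lf (nat_lit 0) (nat_lit 56458227641) (nat_lit 76) (nat_lit 5123130723) (nat_lit 76) (nat_lit 888605297) (nat_lit 3) (nat_lit 4) (nat_lit 4) (nat_lit 5) (nat_lit 4) (nat_lit 4) (nat_lit 289) (nat_lit 225) (nat_lit 206)))) (XT.nd (nat_lit 78) (nat_lit 76) (nat_lit 0) (XT.lf (nat_lit 0) (nat_lit 981730010) (nat_lit 152) (nat_lit 2287127978) (nat_lit 76) (nat_lit 64011625364) (nat_lit 2) (nat_lit 5) (nat_lit 4) (nat_lit 5) (nat_lit 3) (nat_lit 4) (nat_lit 290) (nat_lit 225) (nat_lit 205)) (XT.nd (nat_lit 78) (nat_lit 0) (nat_lit 0) (XT.lf (nat_lit 0) (nat_lit 1702163374) (nat_lit 76) (nat_lit 1239607427) (nat_lit 152) (nat_lit 69533289908) (nat_lit 1) (nat_lit 5) (nat_lit 2) (nat_lit 5) (nat_lit 3) (nat_lit 4) (nat_lit 291) (nat_lit 225) (nat_lit 204)) (XT.lf (nat_lit 0) (nat_lit 5093492947) (nat_lit 152) (nat_lit 72060182229) (nat_lit 0)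 (nat_lit 928840186) (nat_lit 1) (nat_lit 5) (nat_lit 3) (nat_lit 4) (nat_lit 1) (nat_lit 4) (nat_lit 292) (nat_lit 225) (nat_lit 203))))) (XT.nd (nat_lit 234) (nat_lit 0) (nat_lit 0) (XT.nd (nat_lit 78) (nat_lit 0) (nat_lit 0) (XT.lf (nat_lit 0) (nat_lit 7401239787) (nat_lit 152) (nat_lit 73571657001) (nat_lit 0) (nat_lit 3167052486) (nat_lit 1) (nat_lit 5) (nat_lit 3) (nat_lit 4) (nat_lit 1) (nat_lit 4) (nat_lit 293) (nat_lit 225) (nat_lit 202)) (XT.nd (nat_lit 78) (nat_lit 0) (nat_lit 0) (XT.lf (nat_lit 0) (nat_lit 9848874272) (nat_lit 152) (nat_lit 75286465952) (nat_lit 0) (nat_lit 5550303138) (nat_lit 1) (nat_lit 5) (nat_lit 3) (nat_lit 4) (nat_lit 1) (nat_lit 4) (nat_lit 294) (nat_lit 225) (nat_lit 201)) (XT.lf (nat_lit 0) (nat_lit 12450900902) (nat_lit 152) (nat_lit 77214770912) (nat_lit 0) (nat_lit 8092715107) (nat_lit 1) (nat_lit 5) (nat_lit 3) (nat_lit 4) (nat_lit 1) (nat_lit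 4) (nat_lit 295) (nat_lit 225) (nat_lit 200)))) (XT.nd (nat_lit 78) (nat_lit 0) (nat_lit 0) (XT.lf (nat_lit 0) (nat_lit 15222739094) (nat_lit 152) (nat_lit 79367998874) (nat_lit 0) (nat_lit 10809354539) (nat_lit 1) (nat_lit 5) (nat_lit 3) (nat_lit 4) (nat_lit 1) (nat_lit 4) (nat_lit 296) (nat_lit 225) (nat_lit 199)) (XT.nd (nat_lit 78) (nat_lit 0) (nat_lit 0) (XT.lf (nat_lit 0) (nat_lit 18180814556) (nat_lit 152) (nat_lit 81758909707) (nat_lit 0) (nat_lit 13716320039) (nat_lit 1) (nat_lit 5) (nat_lit 3) (nat_lit 4) (nat_lit 1) (nat_lit 4) (nat_lit 297) (nat_lit 225) (nat_lit 198)) (XT.lf (nat_lit 0) (nat_lit 21342656624) (nat_lit 152) (nat_lit 84401671772) (nat_lit 0) (nat_lit 16830838067) (nat_lit 1) (nat_lit 5) (nat_lit 3) (nat_lit 4) (nat_lit 1) (nat_lit 4) (nat_lit 298) (nat_lit 225) (nat_lit 197)))))) (XT.nd (nat_lit 468) (nat_lit 0) (nat_lit 0) (XT.nd (nat_lit 234) (nat_lit 0)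 (nat_lit 0) (XT.nd (nat_lit 78) (nat_lit 0) (nat_lit 0) (XT.lf (nat_lit 0) (nat_lit 24727002140) (nat_lit 152) (nat_lit 87311945880) (nat_lit 0) (nat_lit 20171365028) (nat_lit 1) (nat_lit 5) (nat_lit 3) (nat_lit 4) (nat_lit 1) (nat_lit 4) (nat_lit 299) (nat_lit 225) (nat_lit 196)) (XT.nd (nat_lit 78) (nat_lit 0) (nat_lit 0) (XT.lf (nat_lit 0) (nat_lit 28353906484) (nat_lit 152) (nat_lit 90506978101) (nat_lit 0) (nat_lit 23757696636) (nat_lit 1) (nat_lit 5) (nat_lit 3) (nat_lit 4) (nat_lit 1) (nat_lit 4) (nat_lit 300) (nat_lit 225) (nat_lit 195)) (XT.lf (nat_lit 0) (nat_lit 32244862424) (nat_lit 152) (nat_lit 94005701959) (nat_lit 0) (nat_lit 27611085227) (nat_lit 1) (nat_lit 5) (nat_lit 3) (nat_lit 4) (nat_lit 1) (nat_lit 4) (nat_lit 301) (nat_lit 225) (nat_lit 194)))) (XT.nd (nat_lit 78) (nat_lit 0) (nat_lit 0) (XT.lf (nat_lit 0) (nat_lit 36422927476) (nat_lit 152) (nat_lit 97828850633)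 (nat_lit 0) (nat_lit 31754365697) (nat_lit 1) (nat_lit 5) (nat_lit 3) (nat_lit 4) (nat_lit 1) (nat_lit 4) (nat_lit 302) (nat_lit 225) (nat_lit 193)) (XT.nd (nat_lit 78) (nat_lit 0) (nat_lit 0) (XT.lf (nat_lit 0) (nat_lit 40912860543) (nat_lit 152) (nat_lit 101999079817) (nat_lit 0) (nat_lit 36212090818) (nat_lit 1) (nat_lit 5) (nat_lit 3) (nat_lit 4) (nat_lit 1) (nat_lit 4) (nat_lit 303) (nat_lit 225) (nat_lit 192)) (XT.lf (nat_lit 0) (nat_lit 45741268637) (nat_lit 152) (nat_lit 106541101982) (nat_lit 0) (nat_lit 41010676739) (nat_lit 1) (nat_lit 5) (nat_lit 3) (nat_lit 4) (nat_lit 1) (nat_lit 4) (nat_lit 304) (nat_lit 225) (nat_lit 191))))) (XT.nd (nat_lit 234) (nat_lit 0) (nat_lit 0) (XT.nd (nat_lit 78) (nat_lit 0) (nat_lit 0) (XT.lf (nat_lit 0) (nat_lit 50936764546) (nat_lit 152) (nat_lit 111481832814) (nat_lit 0) (nat_lit 46178559526) (nat_lit 1) (nat_lit 5) (nat_lit 3) (nat_lit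 4) (nat_lit 1) (nat_lit 4) (nat_lit 305) (nat_lit 225) (nat_lit 190)) (XT.nd (nat_lit 78) (nat_lit 0) (nat_lit 0) (XT.lf (nat_lit 0) (nat_lit 56530136395) (nat_lit 152) (nat_lit 116850550719) (nat_lit 0) (nat_lit 51746363669) (nat_lit 1) (nat_lit 5) (nat_lit 3) (nat_lit 4) (nat_lit 1) (nat_lit 4) (nat_lit 306) (nat_lit 225) (nat_lit 189)) (XT.lf (nat_lit 0) (nat_lit 62554530090) (nat_lit 152) (nat_lit 122679070320) (nat_lit 0) (nat_lit 57747083562) (nat_lit 1) (nat_lit 5) (nat_lit 3) (nat_lit 4) (nat_lit 1) (nat_lit 4) (nat_lit 307) (nat_lit 225) (nat_lit 188)))) (XT.nd (nat_lit 78) (nat_lit 0) (nat_lit 0) (XT.lf (nat_lit 0) (nat_lit 69045645742) (nat_lit 152) (nat_lit 129001930994) (nat_lit 0) (nat_lit 64216279027) (nat_lit 1) (nat_lit 5) (nat_lit 3) (nat_lit 4) (nat_lit 1) (nat_lit 4) (nat_lit 308) (nat_lit 225) (nat_lit 187)) (XT.nd (nat_lit 78) (nat_lit 0) (nat_lit 0) (XT.lf (nat_lit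 0) (nat_lit 76041949222) (nat_lit 152) (nat_lit 135856601544) (nat_lit 0) (nat_lit 71192286038) (nat_lit 1) (nat_lit 5) (nat_lit 3) (nat_lit 4) (nat_lit 1) (nat_lit 4) (nat_lit 309) (nat_lit 225) (nat_lit 186)) (XT.lf (nat_lit 0) (nat_lit 83584900106) (nat_lit 152) (nat_lit 143283702240) (nat_lit 0) (nat_lit 78716443895) (nat_lit 1) (nat_lit 5) (nat_lit 3) (nat_lit 4) (nat_lit 1) (nat_lit 4) (nat_lit 310) (nat_lit 225) (nat_lit 185))))))))
noncomputable def xc25 : XT := (XT.nd (nat_lit 1872) (nat_lit 0) (nat_lit 0) (XT.nd (nat_lit 936) (nat_lit 0) (nat_lit 0) (XT.nd (nat_lit 468) (nat_lit 0) (nat_lit 0) (XT.nd (nat_lit 234) (nat_lit 0) (nat_lit 0) (XT.nd (nat_lit 78) (nat_lit 0) (nat_lit 0) (XT.lf (nat_lit 0) (nat_lit 91719197363) (nat_lit 152) (nat_lit 151327245531) (nat_lit 0) (nat_lit 86833340200) (nat_lit 1) (nat_lit 5) (nat_lit 3) (nat_lit 4) (nat_lit 1) (nat_lit 4) (nat_lit 311)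 (nat_lit 225) (nat_lit 184)) (XT.nd (nat_lit 78) (nat_lit 0) (nat_lit 0) (XT.lf (nat_lit 0) (nat_lit 100493044234) (nat_lit 152) (nat_lit 160034896858) (nat_lit 0) (nat_lit 95591075079) (nat_lit 1) (nat_lit 5) (nat_lit 3) (nat_lit 4) (nat_lit 1) (nat_lit 4) (nat_lit 312) (nat_lit 225) (nat_lit 183)) (XT.lf (nat_lit 0) (nat_lit 109958433887) (nat_lit 152) (nat_lit 169458257119) (nat_lit 0) (nat_lit 105041546222) (nat_lit 1) (nat_lit 5) (nat_lit 3) (nat_lit 4) (nat_lit 1) (nat_lit 4) (nat_lit 313) (nat_lit 225) (nat_lit 182)))) (XT.nd (nat_lit 78) (nat_lit 0) (nat_lit 0) (XT.lf (nat_lit 0) (nat_lit 120171457521) (nat_lit 152) (nat_lit 179653168448) (nat_lit 0) (nat_lit 115240756419) (nat_lit 1) (nat_lit 5) (nat_lit 3) (nat_lit 4) (nat_lit 1) (nat_lit 4) (nat_lit 314) (nat_lit 225) (nat_lit 181)) (XT.nd (nat_lit 78) (nat_lit 0) (nat_lit 0) (XT.lf (nat_lit 0) (nat_lit 131192636755) (nat_lit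 152) (nat_lit 190680045134) (nat_lit 0) (nat_lit 126249145435) (nat_lit 1) (nat_lit 5) (nat_lit 3) (nat_lit 4) (nat_lit 1) (nat_lit 4) (nat_lit 315) (nat_lit 225) (nat_lit 180)) (XT.lf (nat_lit 0) (nat_lit 143087282282) (nat_lit 152) (nat_lit 202604231632) (nat_lit 0) (nat_lit 138131948167) (nat_lit 1) (nat_lit 5) (nat_lit 3) (nat_lit 4) (nat_lit 1) (nat_lit 4) (nat_lit 316) (nat_lit 225) (nat_lit 179))))) (XT.nd (nat_lit 234) (nat_lit 0) (nat_lit 0) (XT.nd (nat_lit 78) (nat_lit 0) (nat_lit 0) (XT.lf (nat_lit 0) (nat_lit 155925880891) (nat_lit 152) (nat_lit 215496389788) (nat_lit 0) (nat_lit 150959581225) (nat_lit 1) (nat_lit 5) (nat_lit 3) (nat_lit 4) (nat_lit 1) (nat_lit 4) (nat_lit 317) (nat_lit 225) (nat_lit 178)) (XT.nd (nat_lit 78) (nat_lit 0) (nat_lit 0) (XT.lf (nat_lit 0) (nat_lit 169784513166) (nat_lit 152) (nat_lit 229432917577) (nat_lit 0) (nat_lit 164808060212) (nat_lit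 1) (nat_lit 5) (nat_lit 3) (nat_lit 4) (nat_lit 1) (nat_lit 4) (nat_lit 318) (nat_lit 225) (nat_lit 177)) (XT.lf (nat_lit 0) (nat_lit 184745304334) (nat_lit 152) (nat_lit 244496401828) (nat_lit 0) (nat_lit 179759450188) (nat_lit 1) (nat_lit 5) (nat_lit 3) (nat_lit 4) (nat_lit 1) (nat_lit 4) (nat_lit 319) (nat_lit 225) (nat_lit 176)))) (XT.nd (nat_lit 78) (nat_lit 0) (nat_lit 0) (XT.lf (nat_lit 0) (nat_lit 200896910937) (nat_lit 152) (nat_lit 260776107635) (nat_lit 0) (nat_lit 195902351983) (nat_lit 1) (nat_lit 5) (nat_lit 3) (nat_lit 4) (nat_lit 1) (nat_lit 4) (nat_lit 320) (nat_lit 225) (nat_lit 175)) (XT.nd (nat_lit 78) (nat_lit 0) (nat_lit 0) (XT.lf (nat_lit 0) (nat_lit 218335046199) (nat_lit 152) (nat_lit 278368507328) (nat_lit 0) (nat_lit 213332427237) (nat_lit 1) (nat_lit 5) (nat_lit 3) (nat_lit 4) (nat_lit 1) (nat_lit 4) (nat_lit 321) (nat_lit 225) (nat_lit 174)) (XT.lf (nat_lit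 0) (nat_lit 237163047217) (nat_lit 152) (nat_lit 297377852164) (nat_lit 0) (nat_lit 232152965286) (nat_lit 1) (nat_lit 5) (nat_lit 3) (nat_lit 4) (nat_lit 1) (nat_lit 4) (nat_lit 322) (nat_lit 225) (nat_lit 173)))))) (XT.nd (nat_lit 468) (nat_lit 0) (nat_lit 0) (XT.nd (nat_lit 234) (nat_lit 0) (nat_lit 0) (XT.nd (nat_lit 78) (nat_lit 0) (nat_lit 0) (XT.lf (nat_lit 0) (nat_lit 257492487331) (nat_lit 152) (nat_lit 317916790113) (nat_lit 0) (nat_lit 252475495242) (nat_lit 1) (nat_lit 5) (nat_lit 3) (nat_lit 4) (nat_lit 1) (nat_lit 4) (nat_lit 323) (nat_lit 225) (nat_lit 172)) (XT.nd (nat_lit 78) (nat_lit 0) (nat_lit 0) (XT.lf (nat_lit 0) (nat_lit 279443837296) (nat_lit 152) (nat_lit 340107033400) (nat_lit 0) (nat_lit 274420446914) (nat_lit 1) (nat_lit 5) (nat_lit 3) (nat_lit 4) (nat_lit 1) (nat_lit 4) (nat_lit 324) (nat_lit 225) (nat_lit 171)) (XT.lf (nat_lit 0) (nat_lit 303147179188)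 (nat_lit 152) (nat_lit 364080079763) (nat_lit 0) (nat_lit 298117864460) (nat_lit 1) (nat_lit 5) (nat_lit 3) (nat_lit 4) (nat_lit 1) (nat_lit 4) (nat_lit 325) (nat_lit 225) (nat_lit 170)))) (XT.nd (nat_lit 78) (nat_lit 0) (nat_lit 0) (XT.lf (nat_lit 0) (nat_lit 328742977254) (nat_lit 152) (nat_lit 389977991698) (nat_lit 0) (nat_lit 323708177020) (nat_lit 1) (nat_lit 5) (nat_lit 3) (nat_lit 4) (nat_lit 1) (nat_lit 4) (nat_lit 326) (nat_lit 225) (nat_lit 169)) (XT.nd (nat_lit 78) (nat_lit 0) (nat_lit 0) (XT.lf (nat_lit 0) (nat_lit 356382910297) (nat_lit 152) (nat_lit 417954238314) (nat_lit 0) (nat_lit 351343030892) (nat_lit 1) (nat_lit 5) (nat_lit 3) (nat_lit 4) (nat_lit 1) (nat_lit 4) (nat_lit 327) (nat_lit 225) (nat_lit 168)) (XT.lf (nat_lit 0) (nat_lit 386230770514) (nat_lit 152) (nat_lit 448174604775) (nat_lit 0) (nat_lit 381186188172) (nat_lit 1) (nat_lit 5) (nat_lit 3) (nat_lit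 4) (nat_lit 1) (nat_lit 4) (nat_lit 328) (nat_lit 225) (nat_lit 167))))) (XT.nd (nat_lit 234) (nat_lit 0) (nat_lit 0) (XT.nd (nat_lit 78) (nat_lit 0) (nat_lit 0) (XT.lf (nat_lit 0) (nat_lit 418463434112) (nat_lit 152) (nat_lit 480818174735) (nat_lit 0) (nat_lit 413414497199) (nat_lit 1) (nat_lit 5) (nat_lit 3) (nat_lit 4) (nat_lit 1) (nat_lit 4) (nat_lit 329) (nat_lit 225) (nat_lit 166)) (XT.nd (nat_lit 78) (nat_lit 0) (nat_lit 0) (XT.lf (nat_lit 0) (nat_lit 453271909470) (nat_lit 152) (nat_lit 516078391571) (nat_lit 0) (nat_lit 448218940547) (nat_lit 1) (nat_lit 5) (nat_lit 3) (nat_lit 4) (nat_lit 1) (nat_lit 4) (nat_lit 330) (nat_lit 225) (nat_lit 165)) (XT.lf (nat_lit 0) (nat_lit 490862469033) (nat_lit 152) (nat_lit 554164204717) (nat_lit 0) (nat_lit 485805766767) (nat_lit 1) (nat_lit 5) (nat_lit 3) (nat_lit 4) (nat_lit 1) (nat_lit 4) (nat_lit 331) (nat_lit 225) (nat_lit 164))))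 (XT.nd (nat_lit 78) (nat_lit 0) (nat_lit 0) (XT.lf (nat_lit 0) (nat_lit 531457871673) (nat_lit 152) (nat_lit 595301307879) (nat_lit 0) (nat_lit 526397712608) (nat_lit 1) (nat_lit 5) (nat_lit 3) (nat_lit 4) (nat_lit 1) (nat_lit 4) (nat_lit 332) (nat_lit 225) (nat_lit 163)) (XT.nd (nat_lit 78) (nat_lit 0) (nat_lit 0) (XT.lf (nat_lit 0) (nat_lit 575298682739) (nat_lit 152) (nat_lit 639733476485) (nat_lit 0) (nat_lit 570235322934) (nat_lit 1) (nat_lit 5) (nat_lit 3) (nat_lit 4) (nat_lit 1) (nat_lit 4) (nat_lit 333) (nat_lit 225) (nat_lit 162)) (XT.lf (nat_lit 0) (nat_lit 622644699630) (nat_lit 152) (nat_lit 687724012273) (nat_lit 0) (nat_lit 617578376177) (nat_lit 1) (nat_lit 5) (nat_lit 3) (nat_lit 4) (nat_lit 1) (nat_lit 4) (nat_lit 334) (nat_lit 225) (nat_lit 161))))))) (XT.nd (nat_lit 32916) (nat_lit 0) (nat_lit 152) (XT.nd (nat_lit 32448) (nat_lit 0) (nat_lit 304) (XT.nd (nat_lit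 234) (nat_lit 0) (nat_lit 0) (XT.nd (nat_lit 78) (nat_lit 0) (nat_lit 0) (XT.lf (nat_lit 0) (nat_lit 673776491334) (nat_lit 152) (nat_lit 739557303604) (nat_lit 0) (nat_lit 668707423763) (nat_lit 1) (nat_lit 5) (nat_lit 3) (nat_lit 4) (nat_lit 1) (nat_lit 4) (nat_lit 335) (nat_lit 225) (nat_lit 160)) (XT.nd (nat_lit 78) (nat_lit 0) (nat_lit 0) (XT.lf (nat_lit 0) (nat_lit 728997061062) (nat_lit 152) (nat_lit 795540510724) (nat_lit 0) (nat_lit 723925452641) (nat_lit 1) (nat_lit 5) (nat_lit 3) (nat_lit 4) (nat_lit 1) (nat_lit 4) (nat_lit 336) (nat_lit 225) (nat_lit 159)) (XT.lf (nat_lit 0) (nat_lit 788633641821) (nat_lit 152) (nat_lit 856005385970) (nat_lit 0) (nat_lit 783559680760) (nat_lit 1) (nat_lit 5) (nat_lit 3) (nat_lit 4) (nat_lit 1) (nat_lit 4) (nat_lit 337) (nat_lit 225) (nat_lit 158)))) (XT.nd (nat_lit 32058) (nat_lit 0) (nat_lit 456) (XT.lf (nat_lit 0) (nat_lit 853039635568)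 (nat_lit 152) (nat_lit 921310239714) (nat_lit 0) (nat_lit 847963496138) (nat_lit 1) (nat_lit 5) (nat_lit 3) (nat_lit 4) (nat_lit 1) (nat_lit 4) (nat_lit 338) (nat_lit 225) (nat_lit 157)) (XT.nd (nat_lit 78) (nat_lit 152) (nat_lit 0) (XT.lf (nat_lit 0) (nat_lit 5058590116) (nat_lit 152) (nat_lit 1260376191) (nat_lit 152) (nat_lit 1260376191) (nat_lit 9) (nat_lit 4) (nat_lit 11) (nat_lit 5) (nat_lit 11) (nat_lit 4) (nat_lit 268) (nat_lit 226) (nat_lit 226)) (XT.lf (nat_lit 0) (nat_lit 812867946) (nat_lit 152) (nat_lit 14901810783) (nat_lit 0) (nat_lit 336662373) (nat_lit 7) (nat_lit 5) (nat_lit 9) (nat_lit 4) (nat_lit 7) (nat_lit 4) (nat_lit 269) (nat_lit 226) (nat_lit 225))))) (XT.nd (nat_lit 234) (nat_lit 76) (nat_lit 0) (XT.nd (nat_lit 78) (nat_lit 76) (nat_lit 0) (XT.lf (nat_lit 0) (nat_lit 4282994168) (nat_lit 152) (nat_lit 9361434984) (nat_lit 0) (nat_lit 3365857509) (nat_lit 7)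 (nat_lit 5) (nat_lit 9) (nat_lit 4) (nat_lit 7) (nat_lit 4) (nat_lit 270) (nat_lit 226) (nat_lit 224)) (XT.nd (nat_lit 78) (nat_lit 76) (nat_lit 0) (XT.lf (nat_lit 0) (nat_lit 7844715905) (nat_lit 152) (nat_lit 3697354407) (nat_lit 0) (nat_lit 6519309722) (nat_lit 7) (nat_lit 5) (nat_lit 9) (nat_lit 4) (nat_lit 7) (nat_lit 4) (nat_lit 271) (nat_lit 226) (nat_lit 223)) (XT.lf (nat_lit 0) (nat_lit 2235841728) (nat_lit 76) (nat_lit 9337069975) (nat_lit 76) (nat_lit 7633636454) (nat_lit 6) (nat_lit 4) (nat_lit 7) (nat_lit 5) (nat_lit 7) (nat_lit 4) (nat_lit 272) (nat_lit 226) (nat_lit 222)))) (XT.nd (nat_lit 78) (nat_lit 76) (nat_lit 0) (XT.lf (nat_lit 0) (nat_lit 8565598674) (nat_lit 76) (nat_lit 6968443963) (nat_lit 76) (nat_lit 4914985130) (nat_lit 6) (nat_lit 4) (nat_lit 7) (nat_lit 5) (nat_lit 7) (nat_lit 4) (nat_lit 273) (nat_lit 226) (nat_lit 221)) (XT.nd (nat_lit 78) (nat_lit 76)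 (nat_lit 0) (XT.lf (nat_lit 0) (nat_lit 15134729971) (nat_lit 76) (nat_lit 4523248197) (nat_lit 76) (nat_lit 2145691853) (nat_lit 6) (nat_lit 4) (nat_lit 7) (nat_lit 5) (nat_lit 7) (nat_lit 4) (nat_lit 274) (nat_lit 226) (nat_lit 220)) (XT.lf (nat_lit 0) (nat_lit 656104694) (nat_lit 152) (nat_lit 1312948868) (nat_lit 76) (nat_lit 21308120044) (nat_lit 5) (nat_lit 5) (nat_lit 7) (nat_lit 5) (nat_lit 6) (nat_lit 4) (nat_lit 275) (nat_lit 226) (nat_lit 219)))))) (XT.nd (nat_lit 468) (nat_lit 0) (nat_lit 0) (XT.nd (nat_lit 234) (nat_lit 76) (nat_lit 0) (XT.nd (nat_lit 78) (nat_lit 0) (nat_lit 0) (XT.lf (nat_lit 0) (nat_lit 3556802520) (nat_lit 152) (nat_lit 20488168122) (nat_lit 0) (nat_lit 820221029) (nat_lit 4) (nat_lit 5) (nat_lit 6) (nat_lit 4) (nat_lit 4) (nat_lit 4) (nat_lit 276) (nat_lit 226) (nat_lit 218)) (XT.nd (nat_lit 78) (nat_lit 0) (nat_lit 0) (XT.lf (nat_lit 0) (nat_lit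 6643781468) (nat_lit 152) (nat_lit 16271474562) (nat_lit 0) (nat_lit 3668978631) (nat_lit 4) (nat_lit 5) (nat_lit 6) (nat_lit 4) (nat_lit 4) (nat_lit 4) (nat_lit 277) (nat_lit 226) (nat_lit 217)) (XT.lf (nat_lit 0) (nat_lit 9853876394) (nat_lit 152) (nat_lit 11938631537) (nat_lit 0) (nat_lit 6658498236) (nat_lit 4) (nat_lit 5) (nat_lit 6) (nat_lit 4) (nat_lit 4) (nat_lit 4) (nat_lit 278) (nat_lit 226) (nat_lit 216)))) (XT.nd (nat_lit 78) (nat_lit 76) (nat_lit 0) (XT.lf (nat_lit 0) (nat_lit 13206110082) (nat_lit 152) (nat_lit 7463962940) (nat_lit 0) (nat_lit 9806495517) (nat_lit 4) (nat_lit 5) (nat_lit 6) (nat_lit 4) (nat_lit 4) (nat_lit 4) (nat_lit 279) (nat_lit 226) (nat_lit 215)) (XT.nd (nat_lit 78) (nat_lit 76) (nat_lit 0) (XT.lf (nat_lit 0) (nat_lit 16720347621) (nat_lit 152) (nat_lit 2820952217) (nat_lit 0) (nat_lit 13131625270) (nat_lit 4) (nat_lit 5) (nat_lit 6) (nat_lit 4)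 (nat_lit 4) (nat_lit 4) (nat_lit 280) (nat_lit 226) (nat_lit 214)) (XT.lf (nat_lit 0) (nat_lit 2124174585) (nat_lit 76) (nat_lit 18344325986) (nat_lit 76) (nat_lit 14580503835) (nat_lit 3) (nat_lit 4) (nat_lit 4) (nat_lit 5) (nat_lit 4) (nat_lit 4) (nat_lit 281) (nat_lit 226) (nat_lit 213))))) (XT.nd (nat_lit 234) (nat_lit 0) (nat_lit 0) (XT.nd (nat_lit 78) (nat_lit 0) (nat_lit 0) (XT.lf (nat_lit 0) (nat_lit 7454202170) (nat_lit 76) (nat_lit 17044289697) (nat_lit 76) (nat_lit 13118338101) (nat_lit 3) (nat_lit 4) (nat_lit 4) (nat_lit 5) (nat_lit 4) (nat_lit 4) (nat_lit 282) (nat_lit 226) (nat_lit 212)) (XT.nd (nat_lit 78) (nat_lit 0) (nat_lit 0) (XT.lf (nat_lit 0) (nat_lit 13052169541) (nat_lit 76) (nat_lit 15710616887) (nat_lit 76) (nat_lit 11634545434) (nat_lit 3) (nat_lit 4) (nat_lit 4) (nat_lit 5) (nat_lit 4) (nat_lit 4) (nat_lit 283) (nat_lit 226) (nat_lit 211)) (XT.lf (nat_lit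 0) (nat_lit 18951249839) (nat_lit 76) (nat_lit 14335404308) (nat_lit 76) (nat_lit 10120332988) (nat_lit 3) (nat_lit 4) (nat_lit 4) (nat_lit 5) (nat_lit 4) (nat_lit 4) (nat_lit 284) (nat_lit 226) (nat_lit 210)))) (XT.nd (nat_lit 156) (nat_lit 0) (nat_lit 0) (XT.nd (nat_lit 78) (nat_lit 0) (nat_lit 0) (XT.lf (nat_lit 0) (nat_lit 25186400575) (nat_lit 76) (nat_lit 12910502553) (nat_lit 76) (nat_lit 8566727651) (nat_lit 3) (nat_lit 4) (nat_lit 4) (nat_lit 5) (nat_lit 4) (nat_lit 4) (nat_lit 285) (nat_lit 226) (nat_lit 209)) (XT.lf (nat_lit 0) (nat_lit 31794570792) (nat_lit 76) (nat_lit 11427467759) (nat_lit 76) (nat_lit 6964522875) (nat_lit 3) (nat_lit 4) (nat_lit 4) (nat_lit 5) (nat_lit 4) (nat_lit 4) (nat_lit 286) (nat_lit 226) (nat_lit 208))) (XT.nd (nat_lit 78) (nat_lit 0) (nat_lit 0) (XT.lf (nat_lit 0) (nat_lit 38814920017) (nat_lit 76) (nat_lit 9877511573) (nat_lit 76) (nat_lit 5304224113)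 (nat_lit 3) (nat_lit 4) (nat_lit 4) (nat_lit 5) (nat_lit 4) (nat_lit 4) (nat_lit 287) (nat_lit 226) (nat_lit 207)) (XT.lf (nat_lit 0) (nat_lit 46289050318) (nat_lit 76) (nat_lit 8251449068) (nat_lit 76) (nat_lit 3575992556) (nat_lit 3) (nat_lit 4) (nat_lit 4) (nat_lit 5) (nat_lit 4) (nat_lit 4) (nat_lit 288) (nat_lit 226) (nat_lit 206))))))))
noncomputable def xc26 : XT := (XT.nd (nat_lit 1872) (nat_lit 0) (nat_lit 0) (XT.nd (nat_lit 936) (nat_lit 0) (nat_lit 0) (XT.nd (nat_lit 468) (nat_lit 0) (nat_lit 0) (XT.nd (nat_lit 234) (nat_lit 76) (nat_lit 0) (XT.nd (nat_lit 78) (nat_lit 76) (nat_lit 0) (XT.lf (nat_lit 0) (nat_lit 54261252840) (nat_lit 76) (nat_lit 6539644318) (nat_lit 76) (nat_lit 1769586832) (nat_lit 3) (nat_lit 4) (nat_lit 4) (nat_lit 5) (nat_lit 4) (nat_lit 4) (nat_lit 289) (nat_lit 226) (nat_lit 205)) (XT.nd (nat_lit 78) (nat_lit 0) (nat_lit 0) (XT.lf (nat_lit 0) (nat_lit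 119409776) (nat_lit 152) (nat_lit 4609278645) (nat_lit 76) (nat_lit 62656095611) (nat_lit 2) (nat_lit 5) (nat_lit 4) (nat_lit 5) (nat_lit 3) (nat_lit 4) (nat_lit 290) (nat_lit 226) (nat_lit 204)) (XT.lf (nat_lit 0) (nat_lit 2014986680) (nat_lit 152) (nat_lit 747583772) (nat_lit 76) (nat_lit 69821996776) (nat_lit 2) (nat_lit 5) (nat_lit 4) (nat_lit 5) (nat_lit 3) (nat_lit 4) (nat_lit 291) (nat_lit 226) (nat_lit 203)))) (XT.nd (nat_lit 78) (nat_lit 0) (nat_lit 0) (XT.lf (nat_lit 0) (nat_lit 3517242929) (nat_lit 76) (nat_lit 584245676) (nat_lit 152) (nat_lit 74095796009) (nat_lit 1) (nat_lit 5) (nat_lit 2) (nat_lit 5) (nat_lit 3) (nat_lit 4) (nat_lit 292) (nat_lit 226) (nat_lit 202)) (XT.nd (nat_lit 78) (nat_lit 0) (nat_lit 0) (XT.lf (nat_lit 0) (nat_lit 6373678505) (nat_lit 152) (nat_lit 76217088507) (nat_lit 0) (nat_lit 1666837846) (nat_lit 1) (nat_lit 5) (nat_lit 3) (nat_lit 4) (nat_lit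 1) (nat_lit 4) (nat_lit 293) (nat_lit 226) (nat_lit 201)) (XT.lf (nat_lit 0) (nat_lit 8801400195) (nat_lit 152) (nat_lit 77968585580) (nat_lit 0) (nat_lit 4034944875) (nat_lit 1) (nat_lit 5) (nat_lit 3) (nat_lit 4) (nat_lit 1) (nat_lit 4) (nat_lit 294) (nat_lit 226) (nat_lit 200))))) (XT.nd (nat_lit 234) (nat_lit 0) (nat_lit 0) (XT.nd (nat_lit 78) (nat_lit 0) (nat_lit 0) (XT.lf (nat_lit 0) (nat_lit 11384989052) (nat_lit 152) (nat_lit 79930861023) (nat_lit 0) (nat_lit 6563334972) (nat_lit 1) (nat_lit 5) (nat_lit 3) (nat_lit 4) (nat_lit 1) (nat_lit 4) (nat_lit 295) (nat_lit 226) (nat_lit 199)) (XT.nd (nat_lit 78) (nat_lit 0) (nat_lit 0) (XT.lf (nat_lit 0) (nat_lit 14139755231) (nat_lit 152) (nat_lit 82115543136) (nat_lit 0) (nat_lit 9266991189) (nat_lit 1) (nat_lit 5) (nat_lit 3) (nat_lit 4) (nat_lit 1) (nat_lit 4) (nat_lit 296) (nat_lit 226) (nat_lit 198)) (XT.lf (nat_lit 0) (nat_lit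 17082023275) (nat_lit 152) (nat_lit 84535578183) (nat_lit 0) (nat_lit 12161935193) (nat_lit 1) (nat_lit 5) (nat_lit 3) (nat_lit 4) (nat_lit 1) (nat_lit 4) (nat_lit 297) (nat_lit 226) (nat_lit 197)))) (XT.nd (nat_lit 78) (nat_lit 0) (nat_lit 0) (XT.lf (nat_lit 0) (nat_lit 20229228844) (nat_lit 152) (nat_lit 87205307112) (nat_lit 0) (nat_lit 15265322207) (nat_lit 1) (nat_lit 5) (nat_lit 3) (nat_lit 4) (nat_lit 1) (nat_lit 4) (nat_lit 298) (nat_lit 226) (nat_lit 196)) (XT.nd (nat_lit 78) (nat_lit 0) (nat_lit 0) (XT.lf (nat_lit 0) (nat_lit 23600022046) (nat_lit 152) (nat_lit 90140550540) (nat_lit 0) (nat_lit 18595542673) (nat_lit 1) (nat_lit 5) (nat_lit 3) (nat_lit 4) (nat_lit 1) (nat_lit 4) (nat_lit 299) (nat_lit 226) (nat_lit 195)) (XT.lf (nat_lit 0) (nat_lit 27214377952) (nat_lit 152) (nat_lit 93358702501) (nat_lit 0) (nat_lit 22172331230) (nat_lit 1) (nat_lit 5) (nat_lit 3) (nat_lit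 4) (nat_lit 1) (nat_lit 4) (nat_lit 300) (nat_lit 226) (nat_lit 194)))))) (XT.nd (nat_lit 468) (nat_lit 0) (nat_lit 0) (XT.nd (nat_lit 234) (nat_lit 0) (nat_lit 0) (XT.nd (nat_lit 78) (nat_lit 0) (nat_lit 0) (XT.lf (nat_lit 0) (nat_lit 31093714966) (nat_lit 152) (nat_lit 96878833526) (nat_lit 0) (nat_lit 26016883663) (nat_lit 1) (nat_lit 5) (nat_lit 3) (nat_lit 4) (nat_lit 1) (nat_lit 4) (nat_lit 301) (nat_lit 226) (nat_lit 193)) (XT.nd (nat_lit 78) (nat_lit 0) (nat_lit 0) (XT.lf (nat_lit 0) (nat_lit 35261021754) (nat_lit 152) (nat_lit 100721803650) (nat_lit 0) (nat_lit 30151982505) (nat_lit 1) (nat_lit 5) (nat_lit 3) (nat_lit 4) (nat_lit 1) (nat_lit 4) (nat_lit 302) (nat_lit 226) (nat_lit 192)) (XT.lf (nat_lit 0) (nat_lit 39740993467) (nat_lit 152) (nat_lit 104910386029) (nat_lit 0) (nat_lit 34602132045) (nat_lit 1) (nat_lit 5) (nat_lit 3) (nat_lit 4) (nat_lit 1) (nat_lit 4) (nat_lit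 303) (nat_lit 226) (nat_lit 191)))) (XT.nd (nat_lit 78) (nat_lit 0) (nat_lit 0) (XT.lf (nat_lit 0) (nat_lit 44560178084) (nat_lit 152) (nat_lit 109469401893) (nat_lit 0) (nat_lit 39393703539) (nat_lit 1) (nat_lit 5) (nat_lit 3) (nat_lit 4) (nat_lit 1) (nat_lit 4) (nat_lit 304) (nat_lit 226) (nat_lit 190)) (XT.nd (nat_lit 78) (nat_lit 0) (nat_lit 0) (XT.lf (nat_lit 0) (nat_lit 49747133736) (nat_lit 152) (nat_lit 114425867632) (nat_lit 0) (nat_lit 44555091486) (nat_lit 1) (nat_lit 5) (nat_lit 3) (nat_lit 4) (nat_lit 1) (nat_lit 4) (nat_lit 305) (nat_lit 226) (nat_lit 189)) (XT.lf (nat_lit 0) (nat_lit 55332597940) (nat_lit 152) (nat_lit 119809154895) (nat_lit 0) (nat_lit 50116881888) (nat_lit 1) (nat_lit 5) (nat_lit 3) (nat_lit 4) (nat_lit 1) (nat_lit 4) (nat_lit 306) (nat_lit 226) (nat_lit 188))))) (XT.nd (nat_lit 234) (nat_lit 0) (nat_lit 0) (XT.nd (nat_lit 78) (nat_lit 0) (nat_lit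 0) (XT.lf (nat_lit 0) (nat_lit 61349669742) (nat_lit 152) (nat_lit 125651164642) (nat_lit 0) (nat_lit 56112033502) (nat_lit 1) (nat_lit 5) (nat_lit 3) (nat_lit 4) (nat_lit 1) (nat_lit 4) (nat_lit 307) (nat_lit 226) (nat_lit 187)) (XT.nd (nat_lit 78) (nat_lit 0) (nat_lit 0) (XT.lf (nat_lit 0) (nat_lit 67834005863) (nat_lit 152) (nat_lit 131986516192) (nat_lit 0) (nat_lit 62576073154) (nat_lit 1) (nat_lit 5) (nat_lit 3) (nat_lit 4) (nat_lit 1) (nat_lit 4) (nat_lit 308) (nat_lit 226) (nat_lit 186)) (XT.lf (nat_lit 0) (nat_lit 74824032000) (nat_lit 152) (nat_lit 138852752368) (nat_lit 0) (nat_lit 69547306264) (nat_lit 1) (nat_lit 5) (nat_lit 3) (nat_lit 4) (nat_lit 1) (nat_lit 4) (nat_lit 309) (nat_lit 226) (nat_lit 185)))) (XT.nd (nat_lit 78) (nat_lit 0) (nat_lit 0) (XT.lf (nat_lit 0) (nat_lit 82361170529) (nat_lit 152) (nat_lit 146290561977) (nat_lit 0) (nat_lit 77067043842) (nat_lit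 1) (nat_lit 5) (nat_lit 3) (nat_lit 4) (nat_lit 1) (nat_lit 4) (nat_lit 310) (nat_lit 226) (nat_lit 184)) (XT.nd (nat_lit 78) (nat_lit 0) (nat_lit 0) (XT.lf (nat_lit 0) (nat_lit 90490085975) (nat_lit 152) (nat_lit 154344020928) (nat_lit 0) (nat_lit 85179847296) (nat_lit 1) (nat_lit 5) (nat_lit 3) (nat_lit 4) (nat_lit 1) (nat_lit 4) (nat_lit 311) (nat_lit 226) (nat_lit 183)) (XT.lf (nat_lit 0) (nat_lit 99258949689) (nat_lit 152) (nat_lit 163060853423) (nat_lit 0) (nat_lit 93933792499) (nat_lit 1) (nat_lit 5) (nat_lit 3) (nat_lit 4) (nat_lit 1) (nat_lit 4) (nat_lit 312) (nat_lit 226) (nat_lit 182))))))) (XT.nd (nat_lit 936) (nat_lit 0) (nat_lit 0) (XT.nd (nat_lit 468) (nat_lit 0) (nat_lit 0) (XT.nd (nat_lit 234) (nat_lit 0) (nat_lit 0) (XT.nd (nat_lit 78) (nat_lit 0) (nat_lit 0) (XT.lf (nat_lit 0) (nat_lit 108719725307) (nat_lit 152) (nat_lit 172492714764) (nat_lit 0) (nat_lit 103380754681)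 (nat_lit 1) (nat_lit 5) (nat_lit 3) (nat_lit 4) (nat_lit 1) (nat_lit 4) (nat_lit 313) (nat_lit 226) (nat_lit 181)) (XT.nd (nat_lit 78) (nat_lit 0) (nat_lit 0) (XT.lf (nat_lit 0) (nat_lit 118928476686) (nat_lit 152) (nat_lit 182695497463) (nat_lit 0) (nat_lit 113576715841) (nat_lit 1) (nat_lit 5) (nat_lit 3) (nat_lit 4) (nat_lit 1) (nat_lit 4) (nat_lit 314) (nat_lit 226) (nat_lit 180)) (XT.lf (nat_lit 0) (nat_lit 129945700129) (nat_lit 152) (nat_lit 193729662456) (nat_lit 0) (nat_lit 124582096490) (nat_lit 1) (nat_lit 5) (nat_lit 3) (nat_lit 4) (nat_lit 1) (nat_lit 4) (nat_lit 315) (nat_lit 226) (nat_lit 179)))) (XT.nd (nat_lit 78) (nat_lit 0) (nat_lit 0) (XT.lf (nat_lit 0) (nat_lit 141836682887) (nat_lit 152) (nat_lit 205660597386) (nat_lit 0) (nat_lit 136462113696) (nat_lit 1) (nat_lit 5) (nat_lit 3) (nat_lit 4) (nat_lit 1) (nat_lit 4) (nat_lit 316) (nat_lit 226) (nat_lit 178)) (XT.nd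 (nat_lit 78) (nat_lit 0) (nat_lit 0) (XT.lf (nat_lit 0) (nat_lit 154671890042) (nat_lit 152) (nat_lit 218559004090) (nat_lit 0) (nat_lit 149287167564) (nat_lit 1) (nat_lit 5) (nat_lit 3) (nat_lit 4) (nat_lit 1) (nat_lit 4) (nat_lit 317) (nat_lit 226) (nat_lit 177)) (XT.lf (nat_lit 0) (nat_lit 168527382082) (nat_lit 152) (nat_lit 232501317570) (nat_lit 0) (nat_lit 163133258412) (nat_lit 1) (nat_lit 5) (nat_lit 3) (nat_lit 4) (nat_lit 1) (nat_lit 4) (nat_lit 318) (nat_lit 226) (nat_lit 176))))) (XT.nd (nat_lit 234) (nat_lit 0) (nat_lit 0) (XT.nd (nat_lit 78) (nat_lit 0) (nat_lit 0) (XT.lf (nat_lit 0) (nat_lit 183485265626) (nat_lit 152) (nat_lit 247570158944) (nat_lit 0) (nat_lit 178082437148) (nat_lit 1) (nat_lit 5) (nat_lit 3) (nat_lit 4) (nat_lit 1) (nat_lit 4) (nat_lit 319) (nat_lit 226) (nat_lit 175)) (XT.nd (nat_lit 78) (nat_lit 0) (nat_lit 0) (XT.lf (nat_lit 0) (nat_lit 199634179984)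 (nat_lit 152) (nat_lit 263854825050) (nat_lit 0) (nat_lit 194223291498) (nat_lit 1) (nat_lit 5) (nat_lit 3) (nat_lit 4) (nat_lit 1) (nat_lit 4) (nat_lit 320) (nat_lit 226) (nat_lit 174)) (XT.lf (nat_lit 0) (nat_lit 217069822426) (nat_lit 152) (nat_lit 281451817612) (nat_lit 0) (nat_lit 211651470971) (nat_lit 1) (nat_lit 5) (nat_lit 3) (nat_lit 4) (nat_lit 1) (nat_lit 4) (nat_lit 321) (nat_lit 226) (nat_lit 173)))) (XT.nd (nat_lit 78) (nat_lit 0) (nat_lit 0) (XT.lf (nat_lit 0) (nat_lit 235895515278) (nat_lit 152) (nat_lit 300465415105) (nat_lit 0) (nat_lit 230470253665) (nat_lit 1) (nat_lit 5) (nat_lit 3) (nat_lit 4) (nat_lit 1) (nat_lit 4) (nat_lit 322) (nat_lit 226) (nat_lit 172)) (XT.nd (nat_lit 78) (nat_lit 0) (nat_lit 0) (XT.lf (nat_lit 0) (nat_lit 256222818201) (nat_lit 152) (nat_lit 321008290699) (nat_lit 0) (nat_lit 250791158295) (nat_lit 1) (nat_lit 5) (nat_lit 3) (nat_lit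 4) (nat_lit 1) (nat_lit 4) (nat_lit 323) (nat_lit 226) (nat_lit 171)) (XT.lf (nat_lit 0) (nat_lit 278172189286) (nat_lit 152) (nat_lit 343202179954) (nat_lit 0) (nat_lit 272734605034) (nat_lit 1) (nat_lit 5) (nat_lit 3) (nat_lit 4) (nat_lit 1) (nat_lit 4) (nat_lit 324) (nat_lit 226) (nat_lit 170)))))) (XT.nd (nat_lit 468) (nat_lit 0) (nat_lit 0) (XT.nd (nat_lit 234) (nat_lit 0) (nat_lit 0) (XT.nd (nat_lit 78) (nat_lit 0) (nat_lit 0) (XT.lf (nat_lit 0) (nat_lit 301873698881) (nat_lit 152) (nat_lit 367178602213) (nat_lit 0) (nat_lit 296430629123) (nat_lit 1) (nat_lit 5) (nat_lit 3) (nat_lit 4) (nat_lit 1) (nat_lit 4) (nat_lit 325) (nat_lit 226) (nat_lit 169)) (XT.nd (nat_lit 78) (nat_lit 0) (nat_lit 0) (XT.lf (nat_lit 0) (nat_lit 327467800376) (nat_lit 152) (nat_lit 393079639978) (nat_lit 0) (nat_lit 322019651446) (nat_lit 1) (nat_lit 5) (nat_lit 3) (nat_lit 4) (nat_lit 1) (nat_lit 4)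 (nat_lit 326) (nat_lit 226) (nat_lit 168)) (XT.lf (nat_lit 0) (nat_lit 355106162520) (nat_lit 152) (nat_lit 421058780880) (nat_lit 0) (nat_lit 349653310654) (nat_lit 1) (nat_lit 5) (nat_lit 3) (nat_lit 4) (nat_lit 1) (nat_lit 4) (nat_lit 327) (nat_lit 226) (nat_lit 167)))) (XT.nd (nat_lit 78) (nat_lit 0) (nat_lit 0) (XT.lf (nat_lit 0) (nat_lit 384952568200) (nat_lit 152) (nat_lit 451281827236) (nat_lit 0) (nat_lit 379495361763) (nat_lit 1) (nat_lit 5) (nat_lit 3) (nat_lit 4) (nat_lit 1) (nat_lit 4) (nat_lit 328) (nat_lit 226) (nat_lit 166)) (XT.nd (nat_lit 78) (nat_lit 0) (nat_lit 0) (XT.lf (nat_lit 0) (nat_lit 417183885006) (nat_lit 152) (nat_lit 483927878581) (nat_lit 0) (nat_lit 411722646559) (nat_lit 1) (nat_lit 5) (nat_lit 3) (nat_lit 4) (nat_lit 1) (nat_lit 4) (nat_lit 329) (nat_lit 226) (nat_lit 165)) (XT.lf (nat_lit 0) (nat_lit 451991113334) (nat_lit 152) (nat_lit 519190392995)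 (nat_lit 0) (nat_lit 446526141543) (nat_lit 1) (nat_lit 5) (nat_lit 3) (nat_lit 4) (nat_lit 1) (nat_lit 4) (nat_lit 330) (nat_lit 226) (nat_lit 164))))) (XT.nd (nat_lit 234) (nat_lit 0) (nat_lit 0) (XT.nd (nat_lit 78) (nat_lit 0) (nat_lit 0) (XT.lf (nat_lit 0) (nat_lit 489580518239) (nat_lit 152) (nat_lit 557278333528) (nat_lit 0) (nat_lit 484112089649) (nat_lit 1) (nat_lit 5) (nat_lit 3) (nat_lit 4) (nat_lit 1) (nat_lit 4) (nat_lit 331) (nat_lit 226) (nat_lit 163)) (XT.nd (nat_lit 78) (nat_lit 0) (nat_lit 0) (XT.lf (nat_lit 0) (nat_lit 530174851751) (nat_lit 152) (nat_lit 598417406493) (nat_lit 0) (nat_lit 524703222422) (nat_lit 1) (nat_lit 5) (nat_lit 3) (nat_lit 4) (nat_lit 1) (nat_lit 4) (nat_lit 332) (nat_lit 226) (nat_lit 162)) (XT.lf (nat_lit 0) (nat_lit 574014672884) (nat_lit 152) (nat_lit 642851398990) (nat_lit 0) (nat_lit 568540079907) (nat_lit 1) (nat_lit 5) (nat_lit 3)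 (nat_lit 4) (nat_lit 1) (nat_lit 4) (nat_lit 333) (nat_lit 226) (nat_lit 161)))) (XT.nd (nat_lit 78) (nat_lit 0) (nat_lit 0) (XT.lf (nat_lit 0) (nat_lit 621359773170) (nat_lit 152) (nat_lit 690843623567) (nat_lit 0) (nat_lit 615882436075) (nat_lit 1) (nat_lit 5) (nat_lit 3) (nat_lit 4) (nat_lit 1) (nat_lit 4) (nat_lit 334) (nat_lit 226) (nat_lit 160)) (XT.nd (nat_lit 78) (nat_lit 0) (nat_lit 0) (XT.lf (nat_lit 0) (nat_lit 672490716167) (nat_lit 152) (nat_lit 742678478591) (nat_lit 0) (nat_lit 667010838221) (nat_lit 1) (nat_lit 5) (nat_lit 3) (nat_lit 4) (nat_lit 1) (nat_lit 4) (nat_lit 335) (nat_lit 226) (nat_lit 159)) (XT.lf (nat_lit 0) (nat_lit 727710500055) (nat_lit 152) (nat_lit 798663133575) (nat_lit 0) (nat_lit 722228269469) (nat_lit 1) (nat_lit 5) (nat_lit 3) (nat_lit 4) (nat_lit 1) (nat_lit 4) (nat_lit 336) (nat_lit 226) (nat_lit 158))))))))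
noncomputable def xc27 : XT := (XT.nd (nat_lit 33696) (nat_lit 0) (nat_lit 0) (XT.nd (nat_lit 32760) (nat_lit 0) (nat_lit 152) (XT.nd (nat_lit 32292) (nat_lit 0) (nat_lit 304) (XT.nd (nat_lit 32058) (nat_lit 0) (nat_lit 456) (XT.nd (nat_lit 78) (nat_lit 0) (nat_lit 0) (XT.lf (nat_lit 0) (nat_lit 787346353183) (nat_lit 152) (nat_lit 859129349435) (nat_lit 0) (nat_lit 781861944228) (nat_lit 1) (nat_lit 5) (nat_lit 3) (nat_lit 4) (nat_lit 1) (nat_lit 4) (nat_lit 337) (nat_lit 226) (nat_lit 157)) (XT.nd (nat_lit 31902) (nat_lit 0) (nat_lit 760) (XT.lf (nat_lit 0) (nat_lit 851751673199) (nat_lit 152) (nat_lit 924435444490) (nat_lit 0) (nat_lit 846265247235) (nat_lit 1) (nat_lit 5) (nat_lit 3) (nat_lit 4) (nat_lit 1) (nat_lit 4) (nat_lit 338) (nat_lit 226) (nat_lit 156)) (XT.lf (nat_lit 0) (nat_lit 2633764289) (nat_lit 152) (nat_lit 1527611206) (nat_lit 0) (nat_lit 2633764289) (nat_lit 11)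 (nat_lit 5) (nat_lit 13) (nat_lit 4) (nat_lit 11) (nat_lit 4) (nat_lit 266) (nat_lit 227) (nat_lit 227)))) (XT.nd (nat_lit 78) (nat_lit 152) (nat_lit 0) (XT.lf (nat_lit 0) (nat_lit 3276281085) (nat_lit 152) (nat_lit 5811275318) (nat_lit 152) (nat_lit 5255829137) (nat_lit 9) (nat_lit 4) (nat_lit 11) (nat_lit 5) (nat_lit 11) (nat_lit 4) (nat_lit 267) (nat_lit 227) (nat_lit 226)) (XT.nd (nat_lit 78) (nat_lit 152) (nat_lit 0) (XT.lf (nat_lit 0) (nat_lit 9958960015) (nat_lit 152) (nat_lit 3138730956) (nat_lit 152) (nat_lit 2068982757) (nat_lit 9) (nat_lit 4) (nat_lit 11) (nat_lit 5) (nat_lit 11) (nat_lit 4) (nat_lit 268) (nat_lit 227) (nat_lit 225)) (XT.lf (nat_lit 0) (nat_lit 812766017) (nat_lit 76) (nat_lit 321233881) (nat_lit 152) (nat_lit 14933389892) (nat_lit 7) (nat_lit 5) (nat_lit 8) (nat_lit 5) (nat_lit 9) (nat_lit 4) (nat_lit 269) (nat_lit 227) (nat_lit 224))))) (XT.nd (nat_lit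 234) (nat_lit 76) (nat_lit 0) (XT.nd (nat_lit 78) (nat_lit 76) (nat_lit 0) (XT.lf (nat_lit 0) (nat_lit 4506970350) (nat_lit 152) (nat_lit 9860140218) (nat_lit 0) (nat_lit 2667262148) (nat_lit 7) (nat_lit 5) (nat_lit 9) (nat_lit 4) (nat_lit 7) (nat_lit 4) (nat_lit 270) (nat_lit 227) (nat_lit 223)) (XT.nd (nat_lit 78) (nat_lit 76) (nat_lit 0) (XT.lf (nat_lit 0) (nat_lit 7985886449) (nat_lit 152) (nat_lit 4338298461) (nat_lit 0) (nat_lit 5768150910) (nat_lit 7) (nat_lit 5) (nat_lit 9) (nat_lit 4) (nat_lit 7) (nat_lit 4) (nat_lit 271) (nat_lit 227) (nat_lit 222)) (XT.lf (nat_lit 0) (nat_lit 1422508858) (nat_lit 76) (nat_lit 10195340828) (nat_lit 76) (nat_lit 7627579976) (nat_lit 6) (nat_lit 4) (nat_lit 7) (nat_lit 5) (nat_lit 7) (nat_lit 4) (nat_lit 272) (nat_lit 227) (nat_lit 221)))) (XT.nd (nat_lit 78) (nat_lit 76) (nat_lit 0) (XT.lf (nat_lit 0) (nat_lit 7623897436) (nat_lit 76) (nat_lit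 7881003435) (nat_lit 76) (nat_lit 4989145072) (nat_lit 6) (nat_lit 4) (nat_lit 7) (nat_lit 5) (nat_lit 7) (nat_lit 4) (nat_lit 273) (nat_lit 227) (nat_lit 220)) (XT.nd (nat_lit 78) (nat_lit 76) (nat_lit 0) (XT.lf (nat_lit 0) (nat_lit 14074169133) (nat_lit 76) (nat_lit 5486074908) (nat_lit 76) (nat_lit 2294126257) (nat_lit 6) (nat_lit 4) (nat_lit 7) (nat_lit 5) (nat_lit 7) (nat_lit 4) (nat_lit 274) (nat_lit 227) (nat_lit 219)) (XT.lf (nat_lit 0) (nat_lit 449763216) (nat_lit 152) (nat_lit 2534302538) (nat_lit 76) (nat_lit 20349487241) (nat_lit 5) (nat_lit 5) (nat_lit 7) (nat_lit 5) (nat_lit 6) (nat_lit 4) (nat_lit 275) (nat_lit 227) (nat_lit 218)))))) (XT.nd (nat_lit 468) (nat_lit 0) (nat_lit 0) (XT.nd (nat_lit 234) (nat_lit 76) (nat_lit 0) (XT.nd (nat_lit 78) (nat_lit 0) (nat_lit 0) (XT.lf (nat_lit 0) (nat_lit 3002996978) (nat_lit 76) (nat_lit 232621320) (nat_lit 152) (nat_lit 21695294751)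 (nat_lit 4) (nat_lit 5) (nat_lit 5) (nat_lit 5) (nat_lit 6) (nat_lit 4) (nat_lit 276) (nat_lit 227) (nat_lit 217)) (XT.nd (nat_lit 78) (nat_lit 0) (nat_lit 0) (XT.lf (nat_lit 0) (nat_lit 6257463112) (nat_lit 152) (nat_lit 17811967396) (nat_lit 0) (nat_lit 2585879382) (nat_lit 4) (nat_lit 5) (nat_lit 6) (nat_lit 4) (nat_lit 4) (nat_lit 4) (nat_lit 277) (nat_lit 227) (nat_lit 216)) (XT.lf (nat_lit 0) (nat_lit 9412428792) (nat_lit 152) (nat_lit 13577586808) (nat_lit 0) (nat_lit 5536608654) (nat_lit 4) (nat_lit 5) (nat_lit 6) (nat_lit 4) (nat_lit 4) (nat_lit 4) (nat_lit 278) (nat_lit 227) (nat_lit 215)))) (XT.nd (nat_lit 78) (nat_lit 76) (nat_lit 0) (XT.lf (nat_lit 0) (nat_lit 12713616882) (nat_lit 152) (nat_lit 9194087135) (nat_lit 0) (nat_lit 8648688959) (nat_lit 4) (nat_lit 5) (nat_lit 6) (nat_lit 4) (nat_lit 4) (nat_lit 4) (nat_lit 279) (nat_lit 227) (nat_lit 214)) (XT.nd (nat_lit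 78) (nat_lit 76) (nat_lit 0) (XT.lf (nat_lit 0) (nat_lit 16180589978) (nat_lit 152) (nat_lit 4635492082) (nat_lit 0) (nat_lit 11940562254) (nat_lit 4) (nat_lit 5) (nat_lit 6) (nat_lit 4) (nat_lit 4) (nat_lit 4) (nat_lit 280) (nat_lit 227) (nat_lit 213)) (XT.lf (nat_lit 0) (nat_lit 131805702) (nat_lit 76) (nat_lit 19705257334) (nat_lit 76) (nat_lit 15303100164) (nat_lit 3) (nat_lit 4) (nat_lit 4) (nat_lit 5) (nat_lit 4) (nat_lit 4) (nat_lit 281) (nat_lit 227) (nat_lit 212))))) (XT.nd (nat_lit 234) (nat_lit 0) (nat_lit 0) (XT.nd (nat_lit 78) (nat_lit 0) (nat_lit 0) (XT.lf (nat_lit 0) (nat_lit 5385649431) (nat_lit 76) (nat_lit 18439051036) (nat_lit 76) (nat_lit 13886774010) (nat_lit 3) (nat_lit 4) (nat_lit 4) (nat_lit 5) (nat_lit 4) (nat_lit 4) (nat_lit 282) (nat_lit 227) (nat_lit 211)) (XT.nd (nat_lit 78) (nat_lit 0) (nat_lit 0) (XT.lf (nat_lit 0) (nat_lit 10913076194) (nat_lit 76) (nat_lit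 17136702291) (nat_lit 76) (nat_lit 12445425398) (nat_lit 3) (nat_lit 4) (nat_lit 4) (nat_lit 5) (nat_lit 4) (nat_lit 4) (nat_lit 283) (nat_lit 227) (nat_lit 210)) (XT.lf (nat_lit 0) (nat_lit 16746841115) (nat_lit 76) (nat_lit 15790493477) (nat_lit 76) (nat_lit 10970513002) (nat_lit 3) (nat_lit 4) (nat_lit 4) (nat_lit 5) (nat_lit 4) (nat_lit 4) (nat_lit 284) (nat_lit 227) (nat_lit 209)))) (XT.nd (nat_lit 78) (nat_lit 0) (nat_lit 0) (XT.lf (nat_lit 0) (nat_lit 22921514650) (nat_lit 76) (nat_lit 14392447059) (nat_lit 76) (nat_lit 9453296602) (nat_lit 3) (nat_lit 4) (nat_lit 4) (nat_lit 5) (nat_lit 4) (nat_lit 4) (nat_lit 285) (nat_lit 227) (nat_lit 208)) (XT.nd (nat_lit 78) (nat_lit 0) (nat_lit 0) (XT.lf (nat_lit 0) (nat_lit 29473687458) (nat_lit 76) (nat_lit 12934278319) (nat_lit 76) (nat_lit 7884785286) (nat_lit 3) (nat_lit 4) (nat_lit 4) (nat_lit 5) (nat_lit 4) (nat_lit 4) (nat_lit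 286) (nat_lit 227) (nat_lit 207)) (XT.lf (nat_lit 0) (nat_lit 36442187231) (nat_lit 76) (nat_lit 11407346255) (nat_lit 76) (nat_lit 6255684170) (nat_lit 3) (nat_lit 4) (nat_lit 4) (nat_lit 5) (nat_lit 4) (nat_lit 4) (nat_lit 287) (nat_lit 227) (nat_lit 206))))))) (XT.nd (nat_lit 936) (nat_lit 0) (nat_lit 0) (XT.nd (nat_lit 468) (nat_lit 0) (nat_lit 0) (XT.nd (nat_lit 234) (nat_lit 152) (nat_lit 0) (XT.nd (nat_lit 78) (nat_lit 0) (nat_lit 0) (XT.lf (nat_lit 0) (nat_lit 43868308780) (nat_lit 76) (nat_lit 9802602383) (nat_lit 76) (nat_lit 4556339324) (nat_lit 3) (nat_lit 4) (nat_lit 4) (nat_lit 5) (nat_lit 4) (nat_lit 4) (nat_lit 288) (nat_lit 227) (nat_lit 205)) (XT.nd (nat_lit 78) (nat_lit 0) (nat_lit 0) (XT.lf (nat_lit 0) (nat_lit 51796058753) (nat_lit 76) (nat_lit 8110537108) (nat_lit 76) (nat_lit 2776680555) (nat_lit 3) (nat_lit 4) (nat_lit 4) (nat_lit 5) (nat_lit 4) (nat_lit 4)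 (nat_lit 289) (nat_lit 227) (nat_lit 204)) (XT.lf (nat_lit 0) (nat_lit 60272416409) (nat_lit 76) (nat_lit 6321123378) (nat_lit 76) (nat_lit 906161737) (nat_lit 3) (nat_lit 4) (nat_lit 4) (nat_lit 5) (nat_lit 4) (nat_lit 4) (nat_lit 290) (nat_lit 227) (nat_lit 203)))) (XT.nd (nat_lit 78) (nat_lit 76) (nat_lit 0) (XT.lf (nat_lit 0) (nat_lit 1012960956) (nat_lit 152) (nat_lit 3383100155) (nat_lit 76) (nat_lit 68306954911) (nat_lit 2) (nat_lit 5) (nat_lit 4) (nat_lit 5) (nat_lit 3) (nat_lit 4) (nat_lit 291) (nat_lit 227) (nat_lit 202)) (XT.nd (nat_lit 78) (nat_lit 0) (nat_lit 0) (XT.lf (nat_lit 0) (nat_lit 704636815) (nat_lit 76) (nat_lit 2307012367) (nat_lit 152) (nat_lit 75311151097) (nat_lit 1) (nat_lit 5) (nat_lit 2) (nat_lit 5) (nat_lit 3) (nat_lit 4) (nat_lit 292) (nat_lit 227) (nat_lit 201)) (XT.lf (nat_lit 0) (nat_lit 5222493706) (nat_lit 152) (nat_lit 79150465827) (nat_lit 0)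 (nat_lit 15107301) (nat_lit 1) (nat_lit 5) (nat_lit 3) (nat_lit 4) (nat_lit 1) (nat_lit 4) (nat_lit 293) (nat_lit 227) (nat_lit 200))))) (XT.nd (nat_lit 234) (nat_lit 0) (nat_lit 0) (XT.nd (nat_lit 78) (nat_lit 0) (nat_lit 0) (XT.lf (nat_lit 0) (nat_lit 7631777623) (nat_lit 152) (nat_lit 80935933382) (nat_lit 0) (nat_lit 2369192458) (nat_lit 1) (nat_lit 5) (nat_lit 3) (nat_lit 4) (nat_lit 1) (nat_lit 4) (nat_lit 294) (nat_lit 227) (nat_lit 199)) (XT.nd (nat_lit 78) (nat_lit 0) (nat_lit 0) (XT.lf (nat_lit 0) (nat_lit 10198294467) (nat_lit 152) (nat_lit 82929662977) (nat_lit 0) (nat_lit 4884599339) (nat_lit 1) (nat_lit 5) (nat_lit 3) (nat_lit 4) (nat_lit 1) (nat_lit 4) (nat_lit 295) (nat_lit 227) (nat_lit 198)) (XT.lf (nat_lit 0) (nat_lit 12937253228) (nat_lit 152) (nat_lit 85143469303) (nat_lit 0) (nat_lit 7576234061) (nat_lit 1) (nat_lit 5) (nat_lit 3) (nat_lit 4) (nat_lit 1) (nat_lit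 4) (nat_lit 296) (nat_lit 227) (nat_lit 197)))) (XT.nd (nat_lit 78) (nat_lit 0) (nat_lit 0) (XT.lf (nat_lit 0) (nat_lit 15864884773) (nat_lit 152) (nat_lit 87590471215) (nat_lit 0) (nat_lit 10460047050) (nat_lit 1) (nat_lit 5) (nat_lit 3) (nat_lit 4) (nat_lit 1) (nat_lit 4) (nat_lit 297) (nat_lit 227) (nat_lit 196)) (XT.nd (nat_lit 78) (nat_lit 0) (nat_lit 0) (XT.lf (nat_lit 0) (nat_lit 18998538028) (nat_lit 152) (nat_lit 90285169464) (nat_lit 0) (nat_lit 13553127569) (nat_lit 1) (nat_lit 5) (nat_lit 3) (nat_lit 4) (nat_lit 1) (nat_lit 4) (nat_lit 298) (nat_lit 227) (nat_lit 195)) (XT.lf (nat_lit 0) (nat_lit 22356782792) (nat_lit 152) (nat_lit 93243532631) (nat_lit 0) (nat_lit 16873804984) (nat_lit 1) (nat_lit 5) (nat_lit 3) (nat_lit 4) (nat_lit 1) (nat_lit 4) (nat_lit 299) (nat_lit 227) (nat_lit 194)))))) (XT.nd (nat_lit 468) (nat_lit 0) (nat_lit 0) (XT.nd (nat_lit 234) (nat_lit 0)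 (nat_lit 0) (XT.nd (nat_lit 78) (nat_lit 0) (nat_lit 0) (XT.lf (nat_lit 0) (nat_lit 25959519773) (nat_lit 152) (nat_lit 96483091759) (nat_lit 0) (nat_lit 20441757383) (nat_lit 1) (nat_lit 5) (nat_lit 3) (nat_lit 4) (nat_lit 1) (nat_lit 4) (nat_lit 300) (nat_lit 227) (nat_lit 193)) (XT.nd (nat_lit 78) (nat_lit 0) (nat_lit 0) (XT.lf (nat_lit 0) (nat_lit 29828098524) (nat_lit 152) (nat_lit 100023044235) (nat_lit 0) (nat_lit 24278128189) (nat_lit 1) (nat_lit 5) (nat_lit 3) (nat_lit 4) (nat_lit 1) (nat_lit 4) (nat_lit 301) (nat_lit 227) (nat_lit 192)) (XT.lf (nat_lit 0) (nat_lit 33985443957) (nat_lit 152) (nat_lit 103884367554) (nat_lit 0) (nat_lit 28405651449) (nat_lit 1) (nat_lit 5) (nat_lit 3) (nat_lit 4) (nat_lit 1) (nat_lit 4) (nat_lit 302) (nat_lit 227) (nat_lit 191)))) (XT.nd (nat_lit 78) (nat_lit 0) (nat_lit 0) (XT.lf (nat_lit 0) (nat_lit 38456192192) (nat_lit 152) (nat_lit 108089943632)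 (nat_lit 0) (nat_lit 32848786562) (nat_lit 1) (nat_lit 5) (nat_lit 3) (nat_lit 4) (nat_lit 1) (nat_lit 4) (nat_lit 303) (nat_lit 227) (nat_lit 190)) (XT.nd (nat_lit 78) (nat_lit 0) (nat_lit 0) (XT.lf (nat_lit 0) (nat_lit 43266836552) (nat_lit 152) (nat_lit 112664694403) (nat_lit 0) (nat_lit 37633863216) (nat_lit 1) (nat_lit 5) (nat_lit 3) (nat_lit 4) (nat_lit 1) (nat_lit 4) (nat_lit 304) (nat_lit 227) (nat_lit 189)) (XT.lf (nat_lit 0) (nat_lit 48445884560) (nat_lit 152) (nat_lit 117635729500) (nat_lit 0) (nat_lit 42789237422) (nat_lit 1) (nat_lit 5) (nat_lit 3) (nat_lit 4) (nat_lit 1) (nat_lit 4) (nat_lit 305) (nat_lit 227) (nat_lit 188))))) (XT.nd (nat_lit 234) (nat_lit 0) (nat_lit 0) (XT.nd (nat_lit 78) (nat_lit 0) (nat_lit 0) (XT.lf (nat_lit 0) (nat_lit 54024026871) (nat_lit 152) (nat_lit 123032506908) (nat_lit 0) (nat_lit 48345459545) (nat_lit 1) (nat_lit 5) (nat_lit 3) (nat_lit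 4) (nat_lit 1) (nat_lit 4) (nat_lit 306) (nat_lit 227) (nat_lit 187)) (XT.nd (nat_lit 78) (nat_lit 0) (nat_lit 0) (XT.lf (nat_lit 0) (nat_lit 60034319141) (nat_lit 152) (nat_lit 128887007532) (nat_lit 0) (nat_lit 54335455346) (nat_lit 1) (nat_lit 5) (nat_lit 3) (nat_lit 4) (nat_lit 1) (nat_lit 4) (nat_lit 307) (nat_lit 227) (nat_lit 186)) (XT.lf (nat_lit 0) (nat_lit 66512377919) (nat_lit 152) (nat_lit 135233924708) (nat_lit 0) (nat_lit 60794721097) (nat_lit 1) (nat_lit 5) (nat_lit 3) (nat_lit 4) (nat_lit 1) (nat_lit 4) (nat_lit 308) (nat_lit 227) (nat_lit 185)))) (XT.nd (nat_lit 156) (nat_lit 0) (nat_lit 0) (XT.nd (nat_lit 78) (nat_lit 0) (nat_lit 0) (XT.lf (nat_lit 0) (nat_lit 73496591701) (nat_lit 152) (nat_lit 142110869797) (nat_lit 0) (nat_lit 67761533928) (nat_lit 1) (nat_lit 5) (nat_lit 3) (nat_lit 4) (nat_lit 1) (nat_lit 4) (nat_lit 309) (nat_lit 227) (nat_lit 184)) (XT.lf (nat_lit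 0) (nat_lit 81028348419) (nat_lit 152) (nat_lit 149558595066) (nat_lit 0) (nat_lit 75277178655) (nat_lit 1) (nat_lit 5) (nat_lit 3) (nat_lit 4) (nat_lit 1) (nat_lit 4) (nat_lit 310) (nat_lit 227) (nat_lit 183))) (XT.nd (nat_lit 78) (nat_lit 0) (nat_lit 0) (XT.lf (nat_lit 0) (nat_lit 89152280708) (nat_lit 152) (nat_lit 157621235184) (nat_lit 0) (nat_lit 83386192432) (nat_lit 1) (nat_lit 5) (nat_lit 3) (nat_lit 4) (nat_lit 1) (nat_lit 4) (nat_lit 311) (nat_lit 227) (nat_lit 182)) (XT.lf (nat_lit 0) (nat_lit 97916530387) (nat_lit 152) (nat_lit 166346568759) (nat_lit 0) (nat_lit 92136628675) (nat_lit 1) (nat_lit 5) (nat_lit 3) (nat_lit 4) (nat_lit 1) (nat_lit 4) (nat_lit 312) (nat_lit 227) (nat_lit 181))))))))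
noncomputable def xc28 : XT := (XT.nd (nat_lit 1872) (nat_lit 0) (nat_lit 0) (XT.nd (nat_lit 936) (nat_lit 0) (nat_lit 0) (XT.nd (nat_lit 468) (nat_lit 0) (nat_lit 0) (XT.nd (nat_lit 234) (nat_lit 0) (nat_lit 0) (XT.nd (nat_lit 78) (nat_lit 0) (nat_lit 0) (XT.lf (nat_lit 0) (nat_lit 107373033751) (nat_lit 152) (nat_lit 175786301471) (nat_lit 0) (nat_lit 101580341820) (nat_lit 1) (nat_lit 5) (nat_lit 3) (nat_lit 4) (nat_lit 1) (nat_lit 4) (nat_lit 313) (nat_lit 227) (nat_lit 180)) (XT.nd (nat_lit 78) (nat_lit 0) (nat_lit 0) (XT.lf (nat_lit 0) (nat_lit 117577829338) (nat_lit 152) (nat_lit 185996372477) (nat_lit 0) (nat_lit 111773294613) (nat_lit 1) (nat_lit 5) (nat_lit 3) (nat_lit 4) (nat_lit 1) (nat_lit 4) (nat_lit 314) (nat_lit 227) (nat_lit 179)) (XT.lf (nat_lit 0) (nat_lit 128591390012) (nat_lit 152) (nat_lit 197037285901) (nat_lit 0) (nat_lit 122775889736) (nat_lit 1) (nat_lit 5)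 (nat_lit 3) (nat_lit 4) (nat_lit 1) (nat_lit 4) (nat_lit 315) (nat_lit 227) (nat_lit 178)))) (XT.nd (nat_lit 78) (nat_lit 0) (nat_lit 0) (XT.lf (nat_lit 0) (nat_lit 140478981316) (nat_lit 152) (nat_lit 208974469379) (nat_lit 0) (nat_lit 134653327752) (nat_lit 1) (nat_lit 5) (nat_lit 3) (nat_lit 4) (nat_lit 1) (nat_lit 4) (nat_lit 316) (nat_lit 227) (nat_lit 177)) (XT.nd (nat_lit 78) (nat_lit 0) (nat_lit 0) (XT.lf (nat_lit 0) (nat_lit 153311048237) (nat_lit 152) (nat_lit 221878661775) (nat_lit 0) (nat_lit 147475993481) (nat_lit 1) (nat_lit 5) (nat_lit 3) (nat_lit 4) (nat_lit 1) (nat_lit 4) (nat_lit 317) (nat_lit 227) (nat_lit 176)) (XT.lf (nat_lit 0) (nat_lit 167163632653) (nat_lit 152) (nat_lit 235826332379) (nat_lit 0) (nat_lit 161319873088) (nat_lit 1) (nat_lit 5) (nat_lit 3) (nat_lit 4) (nat_lit 1) (nat_lit 4) (nat_lit 318) (nat_lit 227) (nat_lit 175))))) (XT.nd (nat_lit 234) (nat_lit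 0) (nat_lit 0) (XT.nd (nat_lit 78) (nat_lit 0) (nat_lit 0) (XT.lf (nat_lit 0) (nat_lit 182118823952) (nat_lit 152) (nat_lit 250900134052) (nat_lit 0) (nat_lit 176267004380) (nat_lit 1) (nat_lit 5) (nat_lit 3) (nat_lit 4) (nat_lit 1) (nat_lit 4) (nat_lit 319) (nat_lit 227) (nat_lit 174)) (XT.nd (nat_lit 78) (nat_lit 0) (nat_lit 0) (XT.lf (nat_lit 0) (nat_lit 198265245490) (nat_lit 152) (nat_lit 267189393026) (nat_lit 0) (nat_lit 192405962949) (nat_lit 1) (nat_lit 5) (nat_lit 3) (nat_lit 4) (nat_lit 1) (nat_lit 4) (nat_lit 320) (nat_lit 227) (nat_lit 173)) (XT.lf (nat_lit 0) (nat_lit 215698579766) (nat_lit 152) (nat_lit 284790638245) (nat_lit 0) (nat_lit 209832387067) (nat_lit 1) (nat_lit 5) (nat_lit 3) (nat_lit 4) (nat_lit 1) (nat_lit 4) (nat_lit 321) (nat_lit 227) (nat_lit 172)))) (XT.nd (nat_lit 78) (nat_lit 0) (nat_lit 0) (XT.lf (nat_lit 0) (nat_lit 234522135427) (nat_lit 152) (nat_lit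 303808173383) (nat_lit 0) (nat_lit 228649544435) (nat_lit 1) (nat_lit 5) (nat_lit 3) (nat_lit 4) (nat_lit 1) (nat_lit 4) (nat_lit 322) (nat_lit 227) (nat_lit 171)) (XT.nd (nat_lit 78) (nat_lit 0) (nat_lit 0) (XT.lf (nat_lit 0) (nat_lit 254847459469) (nat_lit 152) (nat_lit 324354694945) (nat_lit 0) (nat_lit 248968944131) (nat_lit 1) (nat_lit 5) (nat_lit 3) (nat_lit 4) (nat_lit 1) (nat_lit 4) (nat_lit 323) (nat_lit 227) (nat_lit 170)) (XT.lf (nat_lit 0) (nat_lit 276794998258) (nat_lit 152) (nat_lit 346551960096) (nat_lit 0) (nat_lit 270910997414) (nat_lit 1) (nat_lit 5) (nat_lit 3) (nat_lit 4) (nat_lit 1) (nat_lit 4) (nat_lit 324) (nat_lit 227) (nat_lit 169)))))) (XT.nd (nat_lit 468) (nat_lit 0) (nat_lit 0) (XT.nd (nat_lit 234) (nat_lit 0) (nat_lit 0) (XT.nd (nat_lit 78) (nat_lit 0) (nat_lit 0) (XT.lf (nat_lit 0) (nat_lit 300494811282) (nat_lit 152) (nat_lit 370531508184) (nat_lit 0)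 (nat_lit 294605731266) (nat_lit 1) (nat_lit 5) (nat_lit 3) (nat_lit 4) (nat_lit 1) (nat_lit 4) (nat_lit 325) (nat_lit 227) (nat_lit 168)) (XT.nd (nat_lit 78) (nat_lit 0) (nat_lit 0) (XT.lf (nat_lit 0) (nat_lit 326087341877) (nat_lit 152) (nat_lit 396435440236) (nat_lit 0) (nat_lit 320193558925) (nat_lit 1) (nat_lit 5) (nat_lit 3) (nat_lit 4) (nat_lit 1) (nat_lit 4) (nat_lit 326) (nat_lit 227) (nat_lit 167)) (XT.lf (nat_lit 0) (nat_lit 353724249485) (nat_lit 152) (nat_lit 424417261033) (nat_lit 0) (nat_lit 347826111962) (nat_lit 1) (nat_lit 5) (nat_lit 3) (nat_lit 4) (nat_lit 1) (nat_lit 4) (nat_lit 327) (nat_lit 227) (nat_lit 166)))) (XT.nd (nat_lit 78) (nat_lit 0) (nat_lit 0) (XT.lf (nat_lit 0) (nat_lit 383569308373) (nat_lit 152) (nat_lit 454642788774) (nat_lit 0) (nat_lit 377667138839) (nat_lit 1) (nat_lit 5) (nat_lit 3) (nat_lit 4) (nat_lit 1) (nat_lit 4) (nat_lit 328) (nat_lit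 227) (nat_lit 165)) (XT.nd (nat_lit 78) (nat_lit 0) (nat_lit 0) (XT.lf (nat_lit 0) (nat_lit 415799378149) (nat_lit 152) (nat_lit 487291137696) (nat_lit 0) (nat_lit 409893475272) (nat_lit 1) (nat_lit 5) (nat_lit 3) (nat_lit 4) (nat_lit 1) (nat_lit 4) (nat_lit 329) (nat_lit 227) (nat_lit 164)) (XT.lf (nat_lit 0) (nat_lit 450605451818) (nat_lit 152) (nat_lit 522555779498) (nat_lit 0) (nat_lit 444696092143) (nat_lit 1) (nat_lit 5) (nat_lit 3) (nat_lit 4) (nat_lit 1) (nat_lit 4) (nat_lit 330) (nat_lit 227) (nat_lit 163))))) (XT.nd (nat_lit 234) (nat_lit 0) (nat_lit 0) (XT.nd (nat_lit 78) (nat_lit 0) (nat_lit 0) (XT.lf (nat_lit 0) (nat_lit 488193787596) (nat_lit 152) (nat_lit 560645689833) (nat_lit 0) (nat_lit 482281227180) (nat_lit 1) (nat_lit 5) (nat_lit 3) (nat_lit 4) (nat_lit 1) (nat_lit 4) (nat_lit 331) (nat_lit 227) (nat_lit 162)) (XT.nd (nat_lit 78) (nat_lit 0) (nat_lit 0) (XT.lf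 (nat_lit 0) (nat_lit 528787131175) (nat_lit 152) (nat_lit 601786586690) (nat_lit 0) (nat_lit 522871607112) (nat_lit 1) (nat_lit 5) (nat_lit 3) (nat_lit 4) (nat_lit 1) (nat_lit 4) (nat_lit 332) (nat_lit 227) (nat_lit 161)) (XT.lf (nat_lit 0) (nat_lit 572626035704) (nat_lit 152) (nat_lit 646222267976) (nat_lit 0) (nat_lit 566707767522) (nat_lit 1) (nat_lit 5) (nat_lit 3) (nat_lit 4) (nat_lit 1) (nat_lit 4) (nat_lit 333) (nat_lit 227) (nat_lit 160)))) (XT.nd (nat_lit 78) (nat_lit 0) (nat_lit 0) (XT.lf (nat_lit 0) (nat_lit 619970287282) (nat_lit 152) (nat_lit 694216056245) (nat_lit 0) (nat_lit 614049478250) (nat_lit 1) (nat_lit 5) (nat_lit 3) (nat_lit 4) (nat_lit 1) (nat_lit 4) (nat_lit 334) (nat_lit 227) (nat_lit 159)) (XT.nd (nat_lit 78) (nat_lit 0) (nat_lit 0) (XT.lf (nat_lit 0) (nat_lit 671100444438) (nat_lit 152) (nat_lit 746052359134) (nat_lit 0) (nat_lit 665177282766) (nat_lit 1)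 (nat_lit 5) (nat_lit 3) (nat_lit 4) (nat_lit 1) (nat_lit 4) (nat_lit 335) (nat_lit 227) (nat_lit 158)) (XT.lf (nat_lit 0) (nat_lit 726319500695) (nat_lit 152) (nat_lit 802038354732) (nat_lit 0) (nat_lit 720394160654) (nat_lit 1) (nat_lit 5) (nat_lit 3) (nat_lit 4) (nat_lit 1) (nat_lit 4) (nat_lit 336) (nat_lit 227) (nat_lit 157))))))) (XT.nd (nat_lit 32682) (nat_lit 0) (nat_lit 152) (XT.nd (nat_lit 32214) (nat_lit 0) (nat_lit 380) (XT.nd (nat_lit 31980) (nat_lit 0) (nat_lit 608) (XT.nd (nat_lit 31824) (nat_lit 0) (nat_lit 760) (XT.lf (nat_lit 0) (nat_lit 785954680092) (nat_lit 152) (nat_lit 862505811903) (nat_lit 0) (nat_lit 780027323041) (nat_lit 1) (nat_lit 5) (nat_lit 3) (nat_lit 4) (nat_lit 1) (nat_lit 4) (nat_lit 337) (nat_lit 227) (nat_lit 156)) (XT.nd (nat_lit 78) (nat_lit 152) (nat_lit 0) (XT.lf (nat_lit 0) (nat_lit 4893289964) (nat_lit 152) (nat_lit 619658482) (nat_lit 152)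 (nat_lit 619658482) (nat_lit 13) (nat_lit 4) (nat_lit 15) (nat_lit 5) (nat_lit 15) (nat_lit 4) (nat_lit 264) (nat_lit 228) (nat_lit 228)) (XT.lf (nat_lit 0) (nat_lit 2212189794) (nat_lit 152) (nat_lit 9078608250) (nat_lit 0) (nat_lit 1612307919) (nat_lit 11) (nat_lit 5) (nat_lit 13) (nat_lit 4) (nat_lit 11) (nat_lit 4) (nat_lit 265) (nat_lit 228) (nat_lit 227)))) (XT.nd (nat_lit 78) (nat_lit 152) (nat_lit 0) (XT.lf (nat_lit 0) (nat_lit 5768177219) (nat_lit 152) (nat_lit 3217552247) (nat_lit 0) (nat_lit 4612849164) (nat_lit 11) (nat_lit 5) (nat_lit 13) (nat_lit 4) (nat_lit 11) (nat_lit 4) (nat_lit 266) (nat_lit 228) (nat_lit 226)) (XT.nd (nat_lit 78) (nat_lit 0) (nat_lit 0) (XT.lf (nat_lit 0) (nat_lit 2947183031) (nat_lit 152) (nat_lit 6541224570) (nat_lit 152) (nat_lit 4871594496) (nat_lit 9) (nat_lit 4) (nat_lit 11) (nat_lit 5) (nat_lit 11) (nat_lit 4) (nat_lit 267) (nat_lit 228)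 (nat_lit 225)) (XT.lf (nat_lit 0) (nat_lit 9483361760) (nat_lit 152) (nat_lit 3926580572) (nat_lit 152) (nat_lit 1780744925) (nat_lit 9) (nat_lit 4) (nat_lit 11) (nat_lit 5) (nat_lit 11) (nat_lit 4) (nat_lit 268) (nat_lit 228) (nat_lit 224))))) (XT.nd (nat_lit 234) (nat_lit 76) (nat_lit 0) (XT.nd (nat_lit 78) (nat_lit 0) (nat_lit 0) (XT.lf (nat_lit 0) (nat_lit 131797634) (nat_lit 76) (nat_lit 1175204465) (nat_lit 152) (nat_lit 14792176900) (nat_lit 7) (nat_lit 5) (nat_lit 8) (nat_lit 5) (nat_lit 9) (nat_lit 4) (nat_lit 269) (nat_lit 228) (nat_lit 223)) (XT.nd (nat_lit 78) (nat_lit 0) (nat_lit 0) (XT.lf (nat_lit 0) (nat_lit 4576628901) (nat_lit 152) (nat_lit 10694598617) (nat_lit 0) (nat_lit 1803447181) (nat_lit 7) (nat_lit 5) (nat_lit 9) (nat_lit 4) (nat_lit 7) (nat_lit 4) (nat_lit 270) (nat_lit 228) (nat_lit 222)) (XT.lf (nat_lit 0) (nat_lit 7978873114) (nat_lit 152) (nat_lit 5304459471)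 (nat_lit 0) (nat_lit 4855666083) (nat_lit 7) (nat_lit 5) (nat_lit 9) (nat_lit 4) (nat_lit 7) (nat_lit 4) (nat_lit 271) (nat_lit 228) (nat_lit 221)))) (XT.nd (nat_lit 78) (nat_lit 0) (nat_lit 0) (XT.lf (nat_lit 0) (nat_lit 277103153) (nat_lit 76) (nat_lit 11235193676) (nat_lit 76) (nat_lit 7787889132) (nat_lit 6) (nat_lit 4) (nat_lit 7) (nat_lit 5) (nat_lit 7) (nat_lit 4) (nat_lit 272) (nat_lit 228) (nat_lit 220)) (XT.nd (nat_lit 78) (nat_lit 0) (nat_lit 0) (XT.lf (nat_lit 0) (nat_lit 6359632132) (nat_lit 76) (nat_lit 8971123522) (nat_lit 76) (nat_lit 5223728690) (nat_lit 6) (nat_lit 4) (nat_lit 7) (nat_lit 5) (nat_lit 7) (nat_lit 4) (nat_lit 273) (nat_lit 228) (nat_lit 219)) (XT.lf (nat_lit 0) (nat_lit 12699848644) (nat_lit 76) (nat_lit 6622738735) (nat_lit 76) (nat_lit 2597482525) (nat_lit 6) (nat_lit 4) (nat_lit 7) (nat_lit 5) (nat_lit 7) (nat_lit 4) (nat_lit 274) (nat_lit 228) (nat_lit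 218)))))) (XT.nd (nat_lit 468) (nat_lit 76) (nat_lit 0) (XT.nd (nat_lit 234) (nat_lit 0) (nat_lit 0) (XT.nd (nat_lit 78) (nat_lit 76) (nat_lit 0) (XT.lf (nat_lit 0) (nat_lit 101089127) (nat_lit 152) (nat_lit 4072269878) (nat_lit 76) (nat_lit 19231471259) (nat_lit 5) (nat_lit 5) (nat_lit 7) (nat_lit 5) (nat_lit 6) (nat_lit 4) (nat_lit 275) (nat_lit 228) (nat_lit 217)) (XT.nd (nat_lit 78) (nat_lit 0) (nat_lit 0) (XT.lf (nat_lit 0) (nat_lit 1281464413) (nat_lit 76) (nat_lit 1508064924) (nat_lit 152) (nat_lit 22220597290) (nat_lit 4) (nat_lit 5) (nat_lit 5) (nat_lit 5) (nat_lit 6) (nat_lit 4) (nat_lit 276) (nat_lit 228) (nat_lit 216)) (XT.lf (nat_lit 0) (nat_lit 5725570456) (nat_lit 152) (nat_lit 19680501526) (nat_lit 0) (nat_lit 1335448299) (nat_lit 4) (nat_lit 5) (nat_lit 6) (nat_lit 4) (nat_lit 4) (nat_lit 4) (nat_lit 277) (nat_lit 228) (nat_lit 215)))) (XT.nd (nat_lit 78) (nat_lit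 0) (nat_lit 0) (XT.lf (nat_lit 0) (nat_lit 8829490538) (nat_lit 152) (nat_lit 15537289862) (nat_lit 0) (nat_lit 4250260596) (nat_lit 4) (nat_lit 5) (nat_lit 6) (nat_lit 4) (nat_lit 4) (nat_lit 4) (nat_lit 278) (nat_lit 228) (nat_lit 214)) (XT.nd (nat_lit 78) (nat_lit 0) (nat_lit 0) (XT.lf (nat_lit 0) (nat_lit 12083414185) (nat_lit 152) (nat_lit 11238205859) (nat_lit 0) (nat_lit 7329084442) (nat_lit 4) (nat_lit 5) (nat_lit 6) (nat_lit 4) (nat_lit 4) (nat_lit 4) (nat_lit 279) (nat_lit 228) (nat_lit 213)) (XT.lf (nat_lit 0) (nat_lit 15506623908) (nat_lit 152) (nat_lit 6757773464) (nat_lit 0) (nat_lit 10590164720) (nat_lit 4) (nat_lit 5) (nat_lit 6) (nat_lit 4) (nat_lit 4) (nat_lit 4) (nat_lit 280) (nat_lit 228) (nat_lit 212))))) (XT.nd (nat_lit 234) (nat_lit 0) (nat_lit 0) (XT.nd (nat_lit 78) (nat_lit 76) (nat_lit 0) (XT.lf (nat_lit 0) (nat_lit 19119405394) (nat_lit 152) (nat_lit 2069441965)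 (nat_lit 0) (nat_lit 14052826349) (nat_lit 4) (nat_lit 5) (nat_lit 6) (nat_lit 4) (nat_lit 4) (nat_lit 4) (nat_lit 281) (nat_lit 228) (nat_lit 211)) (XT.nd (nat_lit 78) (nat_lit 0) (nat_lit 0) (XT.lf (nat_lit 0) (nat_lit 3004888009) (nat_lit 76) (nat_lit 20010547338) (nat_lit 76) (nat_lit 14804968426) (nat_lit 3) (nat_lit 4) (nat_lit 4) (nat_lit 5) (nat_lit 4) (nat_lit 4) (nat_lit 282) (nat_lit 228) (nat_lit 210)) (XT.lf (nat_lit 0) (nat_lit 8466999395) (nat_lit 76) (nat_lit 18737202358) (nat_lit 76) (nat_lit 13402919865) (nat_lit 3) (nat_lit 4) (nat_lit 4) (nat_lit 5) (nat_lit 4) (nat_lit 4) (nat_lit 283) (nat_lit 228) (nat_lit 209)))) (XT.nd (nat_lit 78) (nat_lit 0) (nat_lit 0) (XT.lf (nat_lit 0) (nat_lit 14240287114) (nat_lit 76) (nat_lit 17417848881) (nat_lit 76) (nat_lit 11964396405) (nat_lit 3) (nat_lit 4) (nat_lit 4) (nat_lit 5) (nat_lit 4) (nat_lit 4) (nat_lit 284) (nat_lit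 228) (nat_lit 208)) (XT.nd (nat_lit 78) (nat_lit 0) (nat_lit 0) (XT.lf (nat_lit 0) (nat_lit 20358963241) (nat_lit 76) (nat_lit 16044668516) (nat_lit 76) (nat_lit 10480873465) (nat_lit 3) (nat_lit 4) (nat_lit 4) (nat_lit 5) (nat_lit 4) (nat_lit 4) (nat_lit 285) (nat_lit 228) (nat_lit 207)) (XT.lf (nat_lit 0) (nat_lit 26859286597) (nat_lit 76) (nat_lit 14609523899) (nat_lit 76) (nat_lit 8943559795) (nat_lit 3) (nat_lit 4) (nat_lit 4) (nat_lit 5) (nat_lit 4) (nat_lit 4) (nat_lit 286) (nat_lit 228) (nat_lit 206))))))))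
noncomputable def xc29 : XT := (XT.nd (nat_lit 1872) (nat_lit 0) (nat_lit 0) (XT.nd (nat_lit 936) (nat_lit 0) (nat_lit 0) (XT.nd (nat_lit 468) (nat_lit 76) (nat_lit 0) (XT.nd (nat_lit 234) (nat_lit 76) (nat_lit 0) (XT.nd (nat_lit 78) (nat_lit 0) (nat_lit 0) (XT.lf (nat_lit 0) (nat_lit 33779777617) (nat_lit 76) (nat_lit 13103910469) (nat_lit 76) (nat_lit 7343345391) (nat_lit 3) (nat_lit 4) (nat_lit 4) (nat_lit 5) (nat_lit 4) (nat_lit 4) (nat_lit 287) (nat_lit 228) (nat_lit 205)) (XT.nd (nat_lit 78) (nat_lit 0) (nat_lit 0) (XT.lf (nat_lit 0) (nat_lit 41161446618) (nat_lit 76) (nat_lit 11518906071) (nat_lit 76) (nat_lit 5670747499) (nat_lit 3) (nat_lit 4) (nat_lit 4) (nat_lit 5) (nat_lit 4) (nat_lit 4) (nat_lit 288) (nat_lit 228) (nat_lit 204)) (XT.lf (nat_lit 0) (nat_lit 49048036825) (nat_lit 76) (nat_lit 9845118088) (nat_lit 76) (nat_lit 3915854428) (nat_lit 3) (nat_lit 4) (nat_lit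 4) (nat_lit 5) (nat_lit 4) (nat_lit 4) (nat_lit 289) (nat_lit 228) (nat_lit 203)))) (XT.nd (nat_lit 78) (nat_lit 76) (nat_lit 0) (XT.lf (nat_lit 0) (nat_lit 57486283585) (nat_lit 76) (nat_lit 8072627776) (nat_lit 76) (nat_lit 2068266812) (nat_lit 3) (nat_lit 4) (nat_lit 4) (nat_lit 5) (nat_lit 4) (nat_lit 4) (nat_lit 290) (nat_lit 228) (nat_lit 202)) (XT.nd (nat_lit 78) (nat_lit 76) (nat_lit 0) (XT.lf (nat_lit 0) (nat_lit 66526191325) (nat_lit 76) (nat_lit 6190931488) (nat_lit 76) (nat_lit 117035984) (nat_lit 3) (nat_lit 4) (nat_lit 4) (nat_lit 5) (nat_lit 4) (nat_lit 4) (nat_lit 291) (nat_lit 228) (nat_lit 201)) (XT.lf (nat_lit 0) (nat_lit 1851883976) (nat_lit 152) (nat_lit 2286360665) (nat_lit 76) (nat_lit 74318812102) (nat_lit 2) (nat_lit 5) (nat_lit 4) (nat_lit 5) (nat_lit 3) (nat_lit 4) (nat_lit 292) (nat_lit 228) (nat_lit 200))))) (XT.nd (nat_lit 234) (nat_lit 0) (nat_lit 0)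 (XT.nd (nat_lit 78) (nat_lit 0) (nat_lit 0) (XT.lf (nat_lit 0) (nat_lit 2093777857) (nat_lit 76) (nat_lit 1892602841) (nat_lit 152) (nat_lit 80542086239) (nat_lit 1) (nat_lit 5) (nat_lit 2) (nat_lit 5) (nat_lit 3) (nat_lit 4) (nat_lit 293) (nat_lit 228) (nat_lit 199)) (XT.nd (nat_lit 78) (nat_lit 0) (nat_lit 0) (XT.lf (nat_lit 0) (nat_lit 6333075460) (nat_lit 152) (nat_lit 84206093643) (nat_lit 0) (nat_lit 543174759) (nat_lit 1) (nat_lit 5) (nat_lit 3) (nat_lit 4) (nat_lit 1) (nat_lit 4) (nat_lit 294) (nat_lit 228) (nat_lit 198)) (XT.lf (nat_lit 0) (nat_lit 8883784885) (nat_lit 152) (nat_lit 86228947452) (nat_lit 0) (nat_lit 3046560145) (nat_lit 1) (nat_lit 5) (nat_lit 3) (nat_lit 4) (nat_lit 1) (nat_lit 4) (nat_lit 295) (nat_lit 228) (nat_lit 197)))) (XT.nd (nat_lit 78) (nat_lit 0) (nat_lit 0) (XT.lf (nat_lit 0) (nat_lit 11608107148) (nat_lit 152) (nat_lit 88469720643) (nat_lit 0)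 (nat_lit 5727063852) (nat_lit 1) (nat_lit 5) (nat_lit 3) (nat_lit 4) (nat_lit 1) (nat_lit 4) (nat_lit 296) (nat_lit 228) (nat_lit 196)) (XT.nd (nat_lit 78) (nat_lit 0) (nat_lit 0) (XT.lf (nat_lit 0) (nat_lit 14522186378) (nat_lit 152) (nat_lit 90941691874) (nat_lit 0) (nat_lit 8600570346) (nat_lit 1) (nat_lit 5) (nat_lit 3) (nat_lit 4) (nat_lit 1) (nat_lit 4) (nat_lit 297) (nat_lit 228) (nat_lit 195)) (XT.lf (nat_lit 0) (nat_lit 17643291195) (nat_lit 152) (nat_lit 93659509863) (nat_lit 0) (nat_lit 11684107815) (nat_lit 1) (nat_lit 5) (nat_lit 3) (nat_lit 4) (nat_lit 1) (nat_lit 4) (nat_lit 298) (nat_lit 228) (nat_lit 194)))))) (XT.nd (nat_lit 468) (nat_lit 0) (nat_lit 0) (XT.nd (nat_lit 234) (nat_lit 0) (nat_lit 0) (XT.nd (nat_lit 78) (nat_lit 0) (nat_lit 0) (XT.lf (nat_lit 0) (nat_lit 20989917034) (nat_lit 152) (nat_lit 96639280197) (nat_lit 0) (nat_lit 14995949071) (nat_lit 1) (nat_lit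 5) (nat_lit 3) (nat_lit 4) (nat_lit 1) (nat_lit 4) (nat_lit 299) (nat_lit 228) (nat_lit 193)) (XT.nd (nat_lit 78) (nat_lit 0) (nat_lit 0) (XT.lf (nat_lit 0) (nat_lit 24581895751) (nat_lit 152) (nat_lit 99898660776) (nat_lit 0) (nat_lit 18555719843) (nat_lit 1) (nat_lit 5) (nat_lit 3) (nat_lit 4) (nat_lit 1) (nat_lit 4) (nat_lit 300) (nat_lit 228) (nat_lit 192)) (XT.lf (nat_lit 0) (nat_lit 28440513147) (nat_lit 152) (nat_lit 103456966446) (nat_lit 0) (nat_lit 22384515067) (nat_lit 1) (nat_lit 5) (nat_lit 3) (nat_lit 4) (nat_lit 1) (nat_lit 4) (nat_lit 301) (nat_lit 228) (nat_lit 191)))) (XT.nd (nat_lit 78) (nat_lit 0) (nat_lit 0) (XT.lf (nat_lit 0) (nat_lit 32588635103) (nat_lit 152) (nat_lit 107335283464) (nat_lit 0) (nat_lit 26505023900) (nat_lit 1) (nat_lit 5) (nat_lit 3) (nat_lit 4) (nat_lit 1) (nat_lit 4) (nat_lit 302) (nat_lit 228) (nat_lit 190)) (XT.nd (nat_lit 78) (nat_lit 0)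 (nat_lit 0) (XT.lf (nat_lit 0) (nat_lit 37050843082) (nat_lit 152) (nat_lit 111556594449) (nat_lit 0) (nat_lit 30941664172) (nat_lit 1) (nat_lit 5) (nat_lit 3) (nat_lit 4) (nat_lit 1) (nat_lit 4) (nat_lit 303) (nat_lit 228) (nat_lit 189)) (XT.lf (nat_lit 0) (nat_lit 41853579797) (nat_lit 152) (nat_lit 116145914578) (nat_lit 0) (nat_lit 35720727086) (nat_lit 1) (nat_lit 5) (nat_lit 3) (nat_lit 4) (nat_lit 1) (nat_lit 4) (nat_lit 304) (nat_lit 228) (nat_lit 188))))) (XT.nd (nat_lit 234) (nat_lit 0) (nat_lit 0) (XT.nd (nat_lit 78) (nat_lit 0) (nat_lit 0) (XT.lf (nat_lit 0) (nat_lit 47025305912) (nat_lit 152) (nat_lit 121130439821) (nat_lit 0) (nat_lit 40870533014) (nat_lit 1) (nat_lit 5) (nat_lit 3) (nat_lit 4) (nat_lit 1) (nat_lit 4) (nat_lit 305) (nat_lit 228) (nat_lit 187)) (XT.nd (nat_lit 78) (nat_lit 0) (nat_lit 0) (XT.lf (nat_lit 0) (nat_lit 52596668691) (nat_lit 152) (nat_lit 126539708106)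 (nat_lit 0) (nat_lit 46421599323) (nat_lit 1) (nat_lit 5) (nat_lit 3) (nat_lit 4) (nat_lit 1) (nat_lit 4) (nat_lit 306) (nat_lit 228) (nat_lit 186)) (XT.lf (nat_lit 0) (nat_lit 58600683618) (nat_lit 152) (nat_lit 132405774356) (nat_lit 0) (nat_lit 52406821223) (nat_lit 1) (nat_lit 5) (nat_lit 3) (nat_lit 4) (nat_lit 1) (nat_lit 4) (nat_lit 307) (nat_lit 228) (nat_lit 185)))) (XT.nd (nat_lit 78) (nat_lit 0) (nat_lit 0) (XT.lf (nat_lit 0) (nat_lit 65072930041) (nat_lit 152) (nat_lit 138763400444) (nat_lit 0) (nat_lit 58861666695) (nat_lit 1) (nat_lit 5) (nat_lit 3) (nat_lit 4) (nat_lit 1) (nat_lit 4) (nat_lit 308) (nat_lit 228) (nat_lit 184)) (XT.nd (nat_lit 78) (nat_lit 0) (nat_lit 0) (XT.lf (nat_lit 0) (nat_lit 72051762012) (nat_lit 152) (nat_lit 145650261194) (nat_lit 0) (nat_lit 65824386675) (nat_lit 1) (nat_lit 5) (nat_lit 3) (nat_lit 4) (nat_lit 1) (nat_lit 4) (nat_lit 309) (nat_lit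 228) (nat_lit 183)) (XT.lf (nat_lit 0) (nat_lit 79578535574) (nat_lit 152) (nat_lit 153107167630) (nat_lit 0) (nat_lit 73336241725) (nat_lit 1) (nat_lit 5) (nat_lit 3) (nat_lit 4) (nat_lit 1) (nat_lit 4) (nat_lit 310) (nat_lit 228) (nat_lit 182))))))) (XT.nd (nat_lit 936) (nat_lit 0) (nat_lit 0) (XT.nd (nat_lit 468) (nat_lit 0) (nat_lit 0) (XT.nd (nat_lit 234) (nat_lit 0) (nat_lit 0) (XT.nd (nat_lit 78) (nat_lit 0) (nat_lit 0) (XT.lf (nat_lit 0) (nat_lit 87697853827) (nat_lit 152) (nat_lit 161178308828) (nat_lit 0) (nat_lit 81441746542) (nat_lit 1) (nat_lit 5) (nat_lit 3) (nat_lit 4) (nat_lit 1) (nat_lit 4) (nat_lit 311) (nat_lit 228) (nat_lit 181)) (XT.nd (nat_lit 78) (nat_lit 0) (nat_lit 0) (XT.lf (nat_lit 0) (nat_lit 96457831252) (nat_lit 152) (nat_lit 169911513774) (nat_lit 0) (nat_lit 90188933748) (nat_lit 1) (nat_lit 5) (nat_lit 3) (nat_lit 4) (nat_lit 1) (nat_lit 4) (nat_lit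 312) (nat_lit 228) (nat_lit 180)) (XT.lf (nat_lit 0) (nat_lit 105910378825) (nat_lit 152) (nat_lit 179358534792) (nat_lit 0) (nat_lit 99629638526) (nat_lit 1) (nat_lit 5) (nat_lit 3) (nat_lit 4) (nat_lit 1) (nat_lit 4) (nat_lit 313) (nat_lit 228) (nat_lit 179)))) (XT.nd (nat_lit 78) (nat_lit 0) (nat_lit 0) (XT.lf (nat_lit 0) (nat_lit 116111511642) (nat_lit 152) (nat_lit 189575354229) (nat_lit 0) (nat_lit 109819805793) (nat_lit 1) (nat_lit 5) (nat_lit 3) (nat_lit 4) (nat_lit 1) (nat_lit 4) (nat_lit 314) (nat_lit 228) (nat_lit 178)) (XT.nd (nat_lit 78) (nat_lit 0) (nat_lit 0) (XT.lf (nat_lit 0) (nat_lit 127121680863) (nat_lit 152) (nat_lit 200622516202) (nat_lit 0) (nat_lit 120819821725) (nat_lit 1) (nat_lit 5) (nat_lit 3) (nat_lit 4) (nat_lit 1) (nat_lit 4) (nat_lit 315) (nat_lit 228) (nat_lit 177)) (XT.lf (nat_lit 0) (nat_lit 139006131932) (nat_lit 152) (nat_lit 212565485372) (nat_lit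 0) (nat_lit 132694871603) (nat_lit 1) (nat_lit 5) (nat_lit 3) (nat_lit 4) (nat_lit 1) (nat_lit 4) (nat_lit 316) (nat_lit 228) (nat_lit 176))))) (XT.nd (nat_lit 234) (nat_lit 0) (nat_lit 0) (XT.nd (nat_lit 78) (nat_lit 0) (nat_lit 0) (XT.lf (nat_lit 0) (nat_lit 151835291229) (nat_lit 152) (nat_lit 225475034891) (nat_lit 0) (nat_lit 145515326091) (nat_lit 1) (nat_lit 5) (nat_lit 3) (nat_lit 4) (nat_lit 1) (nat_lit 4) (nat_lit 317) (nat_lit 228) (nat_lit 175)) (XT.nd (nat_lit 78) (nat_lit 0) (nat_lit 0) (XT.lf (nat_lit 0) (nat_lit 165685183399) (nat_lit 152) (nat_lit 239427665793) (nat_lit 0) (nat_lit 159357158254) (nat_lit 1) (nat_lit 5) (nat_lit 3) (nat_lit 4) (nat_lit 1) (nat_lit 4) (nat_lit 318) (nat_lit 228) (nat_lit 174)) (XT.lf (nat_lit 0) (nat_lit 180637881879) (nat_lit 152) (nat_lit 254506060335) (nat_lit 0) (nat_lit 174302393764) (nat_lit 1) (nat_lit 5) (nat_lit 3) (nat_lit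 4) (nat_lit 1) (nat_lit 4) (nat_lit 319) (nat_lit 228) (nat_lit 173)))) (XT.nd (nat_lit 78) (nat_lit 0) (nat_lit 0) (XT.lf (nat_lit 0) (nat_lit 196781995251) (nat_lit 152) (nat_lit 270799571967) (nat_lit 0) (nat_lit 190439596979) (nat_lit 1) (nat_lit 5) (nat_lit 3) (nat_lit 4) (nat_lit 1) (nat_lit 4) (nat_lit 320) (nat_lit 228) (nat_lit 172)) (XT.nd (nat_lit 78) (nat_lit 0) (nat_lit 0) (XT.lf (nat_lit 0) (nat_lit 214213192336) (nat_lit 152) (nat_lit 288404754831) (nat_lit 0) (nat_lit 207864395771) (nat_lit 1) (nat_lit 5) (nat_lit 3) (nat_lit 4) (nat_lit 1) (nat_lit 4) (nat_lit 321) (nat_lit 228) (nat_lit 171)) (XT.lf (nat_lit 0) (nat_lit 233034769116) (nat_lit 152) (nat_lit 307425935937) (nat_lit 0) (nat_lit 226680048205) (nat_lit 1) (nat_lit 5) (nat_lit 3) (nat_lit 4) (nat_lit 1) (nat_lit 4) (nat_lit 322) (nat_lit 228) (nat_lit 170)))))) (XT.nd (nat_lit 468) (nat_lit 0) (nat_lit 0)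 (XT.nd (nat_lit 234) (nat_lit 0) (nat_lit 0) (XT.nd (nat_lit 78) (nat_lit 0) (nat_lit 0) (XT.lf (nat_lit 0) (nat_lit 253358260862) (nat_lit 152) (nat_lit 327975833394) (nat_lit 0) (nat_lit 246998054445) (nat_lit 1) (nat_lit 5) (nat_lit 3) (nat_lit 4) (nat_lit 1) (nat_lit 4) (nat_lit 323) (nat_lit 228) (nat_lit 169)) (XT.nd (nat_lit 78) (nat_lit 0) (nat_lit 0) (XT.lf (nat_lit 0) (nat_lit 275304103079) (nat_lit 152) (nat_lit 350176224375) (nat_lit 0) (nat_lit 268938817491) (nat_lit 1) (nat_lit 5) (nat_lit 3) (nat_lit 4) (nat_lit 1) (nat_lit 4) (nat_lit 324) (nat_lit 228) (nat_lit 168)) (XT.lf (nat_lit 0) (nat_lit 299002345204) (nat_lit 152) (nat_lit 374158666750) (nat_lit 0) (nat_lit 292632356679) (nat_lit 1) (nat_lit 5) (nat_lit 3) (nat_lit 4) (nat_lit 1) (nat_lit 4) (nat_lit 325) (nat_lit 228) (nat_lit 167)))) (XT.nd (nat_lit 78) (nat_lit 0) (nat_lit 0) (XT.lf (nat_lit 0) (nat_lit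 324593421264) (nat_lit 152) (nat_lit 400065278696) (nat_lit 0) (nat_lit 318219078167) (nat_lit 1) (nat_lit 5) (nat_lit 3) (nat_lit 4) (nat_lit 1) (nat_lit 4) (nat_lit 326) (nat_lit 228) (nat_lit 166)) (XT.nd (nat_lit 78) (nat_lit 0) (nat_lit 0) (XT.lf (nat_lit 0) (nat_lit 352228982079) (nat_lit 152) (nat_lit 428049580878) (nat_lit 0) (nat_lit 345850606972) (nat_lit 1) (nat_lit 5) (nat_lit 3) (nat_lit 4) (nat_lit 1) (nat_lit 4) (nat_lit 327) (nat_lit 228) (nat_lit 165)) (XT.lf (nat_lit 0) (nat_lit 382072793936) (nat_lit 152) (nat_lit 458277406197) (nat_lit 0) (nat_lit 375690685487) (nat_lit 1) (nat_lit 5) (nat_lit 3) (nat_lit 4) (nat_lit 1) (nat_lit 4) (nat_lit 328) (nat_lit 228) (nat_lit 164))))) (XT.nd (nat_lit 234) (nat_lit 0) (nat_lit 0) (XT.nd (nat_lit 78) (nat_lit 0) (nat_lit 0) (XT.lf (nat_lit 0) (nat_lit 414301709054) (nat_lit 152) (nat_lit 490927882506) (nat_lit 0) (nat_lit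 407916143806) (nat_lit 1) (nat_lit 5) (nat_lit 3) (nat_lit 4) (nat_lit 1) (nat_lit 4) (nat_lit 329) (nat_lit 228) (nat_lit 163)) (XT.nd (nat_lit 78) (nat_lit 0) (nat_lit 0) (XT.lf (nat_lit 0) (nat_lit 449106713596) (nat_lit 152) (nat_lit 526194494111) (nat_lit 0) (nat_lit 442717947608) (nat_lit 1) (nat_lit 5) (nat_lit 3) (nat_lit 4) (nat_lit 1) (nat_lit 4) (nat_lit 330) (nat_lit 228) (nat_lit 162)) (XT.lf (nat_lit 0) (nat_lit 486694059441) (nat_lit 152) (nat_lit 564286228338) (nat_lit 0) (nat_lit 480302329805) (nat_lit 1) (nat_lit 5) (nat_lit 3) (nat_lit 4) (nat_lit 1) (nat_lit 4) (nat_lit 331) (nat_lit 228) (nat_lit 161)))) (XT.nd (nat_lit 156) (nat_lit 0) (nat_lit 0) (XT.nd (nat_lit 78) (nat_lit 0) (nat_lit 0) (XT.lf (nat_lit 0) (nat_lit 527286486416) (nat_lit 152) (nat_lit 605428813983) (nat_lit 0) (nat_lit 520892012661) (nat_lit 1) (nat_lit 5) (nat_lit 3) (nat_lit 4) (nat_lit 1)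 (nat_lit 4) (nat_lit 332) (nat_lit 228) (nat_lit 160)) (XT.lf (nat_lit 0) (nat_lit 571124542236) (nat_lit 152) (nat_lit 649866058962) (nat_lit 0) (nat_lit 564727527631) (nat_lit 1) (nat_lit 5) (nat_lit 3) (nat_lit 4) (nat_lit 1) (nat_lit 4) (nat_lit 333) (nat_lit 228) (nat_lit 159))) (XT.nd (nat_lit 78) (nat_lit 0) (nat_lit 0) (XT.lf (nat_lit 0) (nat_lit 618468007974) (nat_lit 152) (nat_lit 697861295096) (nat_lit 0) (nat_lit 612068640730) (nat_lit 1) (nat_lit 5) (nat_lit 3) (nat_lit 4) (nat_lit 1) (nat_lit 4) (nat_lit 334) (nat_lit 228) (nat_lit 158)) (XT.lf (nat_lit 0) (nat_lit 669597437500) (nat_lit 152) (nat_lit 749698938599) (nat_lit 0) (nat_lit 663195891886) (nat_lit 1) (nat_lit 5) (nat_lit 3) (nat_lit 4) (nat_lit 1) (nat_lit 4) (nat_lit 335) (nat_lit 228) (nat_lit 157))))))))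
noncomputable def xc30 : XT := (XT.nd (nat_lit 33462) (nat_lit 0) (nat_lit 0) (XT.nd (nat_lit 32526) (nat_lit 0) (nat_lit 152) (XT.nd (nat_lit 32058) (nat_lit 0) (nat_lit 456) (XT.nd (nat_lit 31824) (nat_lit 0) (nat_lit 760) (XT.nd (nat_lit 78) (nat_lit 0) (nat_lit 0) (XT.lf (nat_lit 0) (nat_lit 724815820025) (nat_lit 152) (nat_lit 805686175507) (nat_lit 0) (nat_lit 718412257402) (nat_lit 1) (nat_lit 5) (nat_lit 3) (nat_lit 4) (nat_lit 1) (nat_lit 4) (nat_lit 336) (nat_lit 228) (nat_lit 156)) (XT.nd (nat_lit 31668) (nat_lit 0) (nat_lit 1064) (XT.lf (nat_lit 0) (nat_lit 784450375596) (nat_lit 152) (nat_lit 866154782038) (nat_lit 0) (nat_lit 778044945372) (nat_lit 1) (nat_lit 5) (nat_lit 3) (nat_lit 4) (nat_lit 1) (nat_lit 4) (nat_lit 337) (nat_lit 228) (nat_lit 155)) (XT.lf (nat_lit 0) (nat_lit 2030808856) (nat_lit 152) (nat_lit 1505450045) (nat_lit 0) (nat_lit 2030808856) (nat_lit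 15) (nat_lit 5) (nat_lit 17) (nat_lit 4) (nat_lit 15) (nat_lit 4) (nat_lit 262) (nat_lit 229) (nat_lit 229)))) (XT.nd (nat_lit 78) (nat_lit 152) (nat_lit 0) (XT.lf (nat_lit 0) (nat_lit 3139283243) (nat_lit 152) (nat_lit 4618595749) (nat_lit 152) (nat_lit 3918893531) (nat_lit 13) (nat_lit 4) (nat_lit 15) (nat_lit 5) (nat_lit 15) (nat_lit 4) (nat_lit 263) (nat_lit 229) (nat_lit 228)) (XT.nd (nat_lit 78) (nat_lit 152) (nat_lit 0) (XT.lf (nat_lit 0) (nat_lit 9632752271) (nat_lit 152) (nat_lit 1994175167) (nat_lit 152) (nat_lit 646600523) (nat_lit 13) (nat_lit 4) (nat_lit 15) (nat_lit 5) (nat_lit 15) (nat_lit 4) (nat_lit 264) (nat_lit 229) (nat_lit 227)) (XT.lf (nat_lit 0) (nat_lit 2653657090) (nat_lit 152) (nat_lit 9416254304) (nat_lit 0) (nat_lit 850456610) (nat_lit 11) (nat_lit 5) (nat_lit 13) (nat_lit 4) (nat_lit 11) (nat_lit 4) (nat_lit 265) (nat_lit 229) (nat_lit 226))))) (XT.nd (nat_lit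 234) (nat_lit 152) (nat_lit 0) (XT.nd (nat_lit 78) (nat_lit 152) (nat_lit 0) (XT.lf (nat_lit 0) (nat_lit 6117761891) (nat_lit 152) (nat_lit 3705503703) (nat_lit 0) (nat_lit 3800259392) (nat_lit 11) (nat_lit 5) (nat_lit 13) (nat_lit 4) (nat_lit 11) (nat_lit 4) (nat_lit 266) (nat_lit 229) (nat_lit 225)) (XT.nd (nat_lit 78) (nat_lit 0) (nat_lit 0) (XT.lf (nat_lit 0) (nat_lit 2287036714) (nat_lit 152) (nat_lit 7450002520) (nat_lit 152) (nat_lit 4656294448) (nat_lit 9) (nat_lit 4) (nat_lit 11) (nat_lit 5) (nat_lit 11) (nat_lit 4) (nat_lit 267) (nat_lit 229) (nat_lit 224)) (XT.lf (nat_lit 0) (nat_lit 8687567108) (nat_lit 152) (nat_lit 4888969970) (nat_lit 152) (nat_lit 1654330812) (nat_lit 9) (nat_lit 4) (nat_lit 11) (nat_lit 5) (nat_lit 11) (nat_lit 4) (nat_lit 268) (nat_lit 229) (nat_lit 223)))) (XT.nd (nat_lit 78) (nat_lit 76) (nat_lit 0) (XT.lf (nat_lit 0) (nat_lit 1345738008) (nat_lit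 228) (nat_lit 843773625) (nat_lit 76) (nat_lit 13956358418) (nat_lit 8) (nat_lit 5) (nat_lit 11) (nat_lit 5) (nat_lit 9) (nat_lit 4) (nat_lit 269) (nat_lit 229) (nat_lit 222)) (XT.nd (nat_lit 78) (nat_lit 0) (nat_lit 0) (XT.lf (nat_lit 0) (nat_lit 4492382613) (nat_lit 152) (nat_lit 11869755119) (nat_lit 0) (nat_lit 769293706) (nat_lit 7) (nat_lit 5) (nat_lit 9) (nat_lit 4) (nat_lit 7) (nat_lit 4) (nat_lit 270) (nat_lit 229) (nat_lit 221)) (XT.lf (nat_lit 0) (nat_lit 7823634339) (nat_lit 152) (nat_lit 6601562836) (nat_lit 0) (nat_lit 3776447921) (nat_lit 7) (nat_lit 5) (nat_lit 9) (nat_lit 4) (nat_lit 7) (nat_lit 4) (nat_lit 271) (nat_lit 229) (nat_lit 220)))))) (XT.nd (nat_lit 468) (nat_lit 76) (nat_lit 0) (XT.nd (nat_lit 234) (nat_lit 152) (nat_lit 0) (XT.nd (nat_lit 78) (nat_lit 76) (nat_lit 0) (XT.lf (nat_lit 0) (nat_lit 11284659933) (nat_lit 152) (nat_lit 1146775793) (nat_lit 0)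 (nat_lit 6937383226) (nat_lit 7) (nat_lit 5) (nat_lit 9) (nat_lit 4) (nat_lit 7) (nat_lit 4) (nat_lit 272) (nat_lit 229) (nat_lit 219)) (XT.nd (nat_lit 78) (nat_lit 0) (nat_lit 0) (XT.lf (nat_lit 0) (nat_lit 4765310818) (nat_lit 76) (nat_lit 10245264195) (nat_lit 76) (nat_lit 5620126111) (nat_lit 6) (nat_lit 4) (nat_lit 7) (nat_lit 5) (nat_lit 7) (nat_lit 4) (nat_lit 273) (nat_lit 229) (nat_lit 218)) (XT.lf (nat_lit 0) (nat_lit 11003624380) (nat_lit 76) (nat_lit 7939975464) (nat_lit 76) (nat_lit 3057558326) (nat_lit 6) (nat_lit 4) (nat_lit 7) (nat_lit 5) (nat_lit 7) (nat_lit 4) (nat_lit 274) (nat_lit 229) (nat_lit 217)))) (XT.nd (nat_lit 78) (nat_lit 152) (nat_lit 0) (XT.lf (nat_lit 0) (nat_lit 17544745496) (nat_lit 76) (nat_lit 5533263446) (nat_lit 76) (nat_lit 412624962) (nat_lit 6) (nat_lit 4) (nat_lit 7) (nat_lit 5) (nat_lit 7) (nat_lit 4) (nat_lit 275) (nat_lit 229) (nat_lit 216))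 (XT.nd (nat_lit 78) (nat_lit 76) (nat_lit 0) (XT.lf (nat_lit 0) (nat_lit 2213774233) (nat_lit 152) (nat_lit 736563398) (nat_lit 76) (nat_lit 22153133620) (nat_lit 5) (nat_lit 5) (nat_lit 7) (nat_lit 5) (nat_lit 6) (nat_lit 4) (nat_lit 276) (nat_lit 229) (nat_lit 215)) (XT.lf (nat_lit 0) (nat_lit 4952773736) (nat_lit 76) (nat_lit 94449315) (nat_lit 152) (nat_lit 21795971941) (nat_lit 4) (nat_lit 5) (nat_lit 5) (nat_lit 5) (nat_lit 6) (nat_lit 4) (nat_lit 277) (nat_lit 229) (nat_lit 214))))) (XT.nd (nat_lit 234) (nat_lit 76) (nat_lit 0) (XT.nd (nat_lit 78) (nat_lit 0) (nat_lit 0) (XT.lf (nat_lit 0) (nat_lit 8101607182) (nat_lit 152) (nat_lit 17829353755) (nat_lit 0) (nat_lit 2791831259) (nat_lit 4) (nat_lit 5) (nat_lit 6) (nat_lit 4) (nat_lit 4) (nat_lit 4) (nat_lit 278) (nat_lit 229) (nat_lit 213)) (XT.nd (nat_lit 78) (nat_lit 0) (nat_lit 0) (XT.lf (nat_lit 0) (nat_lit 11311767456)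 (nat_lit 152) (nat_lit 13608432409) (nat_lit 0) (nat_lit 5839862088) (nat_lit 4) (nat_lit 5) (nat_lit 6) (nat_lit 4) (nat_lit 4) (nat_lit 4) (nat_lit 279) (nat_lit 229) (nat_lit 212)) (XT.lf (nat_lit 0) (nat_lit 14694455537) (nat_lit 152) (nat_lit 9200372845) (nat_lit 0) (nat_lit 9072430312) (nat_lit 4) (nat_lit 5) (nat_lit 6) (nat_lit 4) (nat_lit 4) (nat_lit 4) (nat_lit 280) (nat_lit 229) (nat_lit 211)))) (XT.nd (nat_lit 78) (nat_lit 76) (nat_lit 0) (XT.lf (nat_lit 0) (nat_lit 18269716985) (nat_lit 152) (nat_lit 4579053227) (nat_lit 0) (nat_lit 12508691892) (nat_lit 4) (nat_lit 5) (nat_lit 6) (nat_lit 4) (nat_lit 4) (nat_lit 4) (nat_lit 281) (nat_lit 229) (nat_lit 210)) (XT.nd (nat_lit 78) (nat_lit 0) (nat_lit 0) (XT.lf (nat_lit 0) (nat_lit 297809688) (nat_lit 76) (nat_lit 21768091175) (nat_lit 76) (nat_lit 15878362501) (nat_lit 3) (nat_lit 4) (nat_lit 4) (nat_lit 5) (nat_lit 4) (nat_lit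 4) (nat_lit 282) (nat_lit 229) (nat_lit 209)) (XT.lf (nat_lit 0) (nat_lit 5699443874) (nat_lit 76) (nat_lit 20521601532) (nat_lit 76) (nat_lit 14512702876) (nat_lit 3) (nat_lit 4) (nat_lit 4) (nat_lit 5) (nat_lit 4) (nat_lit 4) (nat_lit 283) (nat_lit 229) (nat_lit 208))))))) (XT.nd (nat_lit 936) (nat_lit 0) (nat_lit 0) (XT.nd (nat_lit 468) (nat_lit 152) (nat_lit 0) (XT.nd (nat_lit 234) (nat_lit 0) (nat_lit 0) (XT.nd (nat_lit 78) (nat_lit 0) (nat_lit 0) (XT.lf (nat_lit 0) (nat_lit 11416734184) (nat_lit 76) (nat_lit 19227114108) (nat_lit 76) (nat_lit 13107872876) (nat_lit 3) (nat_lit 4) (nat_lit 4) (nat_lit 5) (nat_lit 4) (nat_lit 4) (nat_lit 284) (nat_lit 229) (nat_lit 207)) (XT.nd (nat_lit 78) (nat_lit 0) (nat_lit 0) (XT.lf (nat_lit 0) (nat_lit 17483560859) (nat_lit 76) (nat_lit 17876957867) (nat_lit 76) (nat_lit 11655547583) (nat_lit 3) (nat_lit 4) (nat_lit 4) (nat_lit 5) (nat_lit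 4) (nat_lit 4) (nat_lit 285) (nat_lit 229) (nat_lit 206)) (XT.lf (nat_lit 0) (nat_lit 23935875462) (nat_lit 76) (nat_lit 16463131882) (nat_lit 76) (nat_lit 10147120624) (nat_lit 3) (nat_lit 4) (nat_lit 4) (nat_lit 5) (nat_lit 4) (nat_lit 4) (nat_lit 286) (nat_lit 229) (nat_lit 205)))) (XT.nd (nat_lit 78) (nat_lit 0) (nat_lit 0) (XT.lf (nat_lit 0) (nat_lit 30811913934) (nat_lit 76) (nat_lit 14977257927) (nat_lit 76) (nat_lit 8573653174) (nat_lit 3) (nat_lit 4) (nat_lit 4) (nat_lit 5) (nat_lit 4) (nat_lit 4) (nat_lit 287) (nat_lit 229) (nat_lit 204)) (XT.nd (nat_lit 78) (nat_lit 0) (nat_lit 0) (XT.lf (nat_lit 0) (nat_lit 38152423169) (nat_lit 76) (nat_lit 13410530820) (nat_lit 76) (nat_lit 6925820980) (nat_lit 3) (nat_lit 4) (nat_lit 4) (nat_lit 5) (nat_lit 4) (nat_lit 4) (nat_lit 288) (nat_lit 229) (nat_lit 203)) (XT.lf (nat_lit 0) (nat_lit 46000902480) (nat_lit 76) (nat_lit 11753666255)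 (nat_lit 76) (nat_lit 5193859112) (nat_lit 3) (nat_lit 4) (nat_lit 4) (nat_lit 5) (nat_lit 4) (nat_lit 4) (nat_lit 289) (nat_lit 229) (nat_lit 202))))) (XT.nd (nat_lit 234) (nat_lit 76) (nat_lit 0) (XT.nd (nat_lit 78) (nat_lit 76) (nat_lit 0) (XT.lf (nat_lit 0) (nat_lit 54403861374) (nat_lit 76) (nat_lit 9996845774) (nat_lit 76) (nat_lit 3367504091) (nat_lit 3) (nat_lit 4) (nat_lit 4) (nat_lit 5) (nat_lit 4) (nat_lit 4) (nat_lit 290) (nat_lit 229) (nat_lit 201)) (XT.nd (nat_lit 78) (nat_lit 76) (nat_lit 0) (XT.lf (nat_lit 0) (nat_lit 63411095164) (nat_lit 76) (nat_lit 8129658590) (nat_lit 76) (nat_lit 1435933072) (nat_lit 3) (nat_lit 4) (nat_lit 4) (nat_lit 5) (nat_lit 4) (nat_lit 4) (nat_lit 291) (nat_lit 229) (nat_lit 200)) (XT.lf (nat_lit 0) (nat_lit 581670548) (nat_lit 152) (nat_lit 5543465436) (nat_lit 76) (nat_lit 72478405597) (nat_lit 2) (nat_lit 5) (nat_lit 4) (nat_lit 5) (nat_lit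 3) (nat_lit 4) (nat_lit 292) (nat_lit 229) (nat_lit 199)))) (XT.nd (nat_lit 78) (nat_lit 76) (nat_lit 0) (XT.lf (nat_lit 0) (nat_lit 2649799907) (nat_lit 152) (nat_lit 1296955130) (nat_lit 76) (nat_lit 80733539290) (nat_lit 2) (nat_lit 5) (nat_lit 4) (nat_lit 5) (nat_lit 3) (nat_lit 4) (nat_lit 293) (nat_lit 229) (nat_lit 198)) (XT.nd (nat_lit 78) (nat_lit 0) (nat_lit 0) (XT.lf (nat_lit 0) (nat_lit 3403915629) (nat_lit 76) (nat_lit 1530490394) (nat_lit 152) (nat_lit 86304763027) (nat_lit 1) (nat_lit 5) (nat_lit 2) (nat_lit 5) (nat_lit 3) (nat_lit 4) (nat_lit 294) (nat_lit 229) (nat_lit 197)) (XT.lf (nat_lit 0) (nat_lit 7433670619) (nat_lit 152) (nat_lit 89848265763) (nat_lit 0) (nat_lit 1038325305) (nat_lit 1) (nat_lit 5) (nat_lit 3) (nat_lit 4) (nat_lit 1) (nat_lit 4) (nat_lit 295) (nat_lit 229) (nat_lit 196)))))) (XT.nd (nat_lit 468) (nat_lit 0) (nat_lit 0) (XT.nd (nat_lit 234) (nat_lit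 0) (nat_lit 0) (XT.nd (nat_lit 78) (nat_lit 0) (nat_lit 0) (XT.lf (nat_lit 0) (nat_lit 10144440568) (nat_lit 152) (nat_lit 92114008274) (nat_lit 0) (nat_lit 3708522517) (nat_lit 1) (nat_lit 5) (nat_lit 3) (nat_lit 4) (nat_lit 1) (nat_lit 4) (nat_lit 296) (nat_lit 229) (nat_lit 195)) (XT.nd (nat_lit 78) (nat_lit 0) (nat_lit 0) (XT.lf (nat_lit 0) (nat_lit 13045971360) (nat_lit 152) (nat_lit 94609099245) (nat_lit 0) (nat_lit 6572485961) (nat_lit 1) (nat_lit 5) (nat_lit 3) (nat_lit 4) (nat_lit 1) (nat_lit 4) (nat_lit 297) (nat_lit 229) (nat_lit 194)) (XT.lf (nat_lit 0) (nat_lit 16155457252) (nat_lit 152) (nat_lit 97348324400) (nat_lit 0) (nat_lit 9647187271) (nat_lit 1) (nat_lit 5) (nat_lit 3) (nat_lit 4) (nat_lit 1) (nat_lit 4) (nat_lit 298) (nat_lit 229) (nat_lit 193)))) (XT.nd (nat_lit 78) (nat_lit 0) (nat_lit 0) (XT.lf (nat_lit 0) (nat_lit 19491324827) (nat_lit 152) (nat_lit 100347916185)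 (nat_lit 0) (nat_lit 12950846900) (nat_lit 1) (nat_lit 5) (nat_lit 3) (nat_lit 4) (nat_lit 1) (nat_lit 4) (nat_lit 299) (nat_lit 229) (nat_lit 192)) (XT.nd (nat_lit 78) (nat_lit 0) (nat_lit 0) (XT.lf (nat_lit 0) (nat_lit 23073342189) (nat_lit 152) (nat_lit 103625649959) (nat_lit 0) (nat_lit 16503042090) (nat_lit 1) (nat_lit 5) (nat_lit 3) (nat_lit 4) (nat_lit 1) (nat_lit 4) (nat_lit 300) (nat_lit 229) (nat_lit 191)) (XT.lf (nat_lit 0) (nat_lit 26922736109) (nat_lit 152) (nat_lit 107200949328) (nat_lit 0) (nat_lit 20324822886) (nat_lit 1) (nat_lit 5) (nat_lit 3) (nat_lit 4) (nat_lit 1) (nat_lit 4) (nat_lit 301) (nat_lit 229) (nat_lit 190))))) (XT.nd (nat_lit 234) (nat_lit 0) (nat_lit 0) (XT.nd (nat_lit 78) (nat_lit 0) (nat_lit 0) (XT.lf (nat_lit 0) (nat_lit 31062317808) (nat_lit 152) (nat_lit 111095001253) (nat_lit 0) (nat_lit 24438836879) (nat_lit 1) (nat_lit 5) (nat_lit 3) (nat_lit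 4) (nat_lit 1) (nat_lit 4) (nat_lit 302) (nat_lit 229) (nat_lit 189)) (XT.nd (nat_lit 78) (nat_lit 0) (nat_lit 0) (XT.lf (nat_lit 0) (nat_lit 35516618142) (nat_lit 152) (nat_lit 115330881596) (nat_lit 0) (nat_lit 28869463411) (nat_lit 1) (nat_lit 5) (nat_lit 3) (nat_lit 4) (nat_lit 1) (nat_lit 4) (nat_lit 303) (nat_lit 229) (nat_lit 188)) (XT.lf (nat_lit 0) (nat_lit 40312032964) (nat_lit 152) (nat_lit 119933691871) (nat_lit 0) (nat_lit 33642958046) (nat_lit 1) (nat_lit 5) (nat_lit 3) (nat_lit 4) (nat_lit 1) (nat_lit 4) (nat_lit 304) (nat_lit 229) (nat_lit 187)))) (XT.nd (nat_lit 156) (nat_lit 0) (nat_lit 0) (XT.nd (nat_lit 78) (nat_lit 0) (nat_lit 0) (XT.lf (nat_lit 0) (nat_lit 45476979547) (nat_lit 152) (nat_lit 124930707990) (nat_lit 0) (nat_lit 38787608161) (nat_lit 1) (nat_lit 5) (nat_lit 3) (nat_lit 4) (nat_lit 1) (nat_lit 4) (nat_lit 305) (nat_lit 229) (nat_lit 186)) (XT.lf (nat_lit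 0) (nat_lit 51042064983) (nat_lit 152) (nat_lit 130351541901) (nat_lit 0) (nat_lit 44333900569) (nat_lit 1) (nat_lit 5) (nat_lit 3) (nat_lit 4) (nat_lit 1) (nat_lit 4) (nat_lit 306) (nat_lit 229) (nat_lit 185))) (XT.nd (nat_lit 78) (nat_lit 0) (nat_lit 0) (XT.lf (nat_lit 0) (nat_lit 57040267555) (nat_lit 152) (nat_lit 136228317064) (nat_lit 0) (nat_lit 50314702190) (nat_lit 1) (nat_lit 5) (nat_lit 3) (nat_lit 4) (nat_lit 1) (nat_lit 4) (nat_lit 307) (nat_lit 229) (nat_lit 184)) (XT.lf (nat_lit 0) (nat_lit 63507132168) (nat_lit 152) (nat_lit 142595858813) (nat_lit 0) (nat_lit 56765454811) (nat_lit 1) (nat_lit 5) (nat_lit 3) (nat_lit 4) (nat_lit 1) (nat_lit 4) (nat_lit 308) (nat_lit 229) (nat_lit 183))))))))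
noncomputable def xc31 : XT := (XT.nd (nat_lit 1872) (nat_lit 0) (nat_lit 0) (XT.nd (nat_lit 936) (nat_lit 0) (nat_lit 0) (XT.nd (nat_lit 468) (nat_lit 0) (nat_lit 0) (XT.nd (nat_lit 234) (nat_lit 0) (nat_lit 0) (XT.nd (nat_lit 78) (nat_lit 0) (nat_lit 0) (XT.lf (nat_lit 0) (nat_lit 70480980981) (nat_lit 152) (nat_lit 149491900729) (nat_lit 0) (nat_lit 63724385114) (nat_lit 1) (nat_lit 5) (nat_lit 3) (nat_lit 4) (nat_lit 1) (nat_lit 4) (nat_lit 309) (nat_lit 229) (nat_lit 182)) (XT.nd (nat_lit 78) (nat_lit 0) (nat_lit 0) (XT.lf (nat_lit 0) (nat_lit 78003140508) (nat_lit 152) (nat_lit 156957308246) (nat_lit 0) (nat_lit 71232731204) (nat_lit 1) (nat_lit 5) (nat_lit 3) (nat_lit 4) (nat_lit 1) (nat_lit 4) (nat_lit 310) (nat_lit 229) (nat_lit 181)) (XT.lf (nat_lit 0) (nat_lit 86118186507) (nat_lit 152) (nat_lit 165036320815) (nat_lit 0) (nat_lit 79334986984) (nat_lit 1) (nat_lit 5) (nat_lit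 3) (nat_lit 4) (nat_lit 1) (nat_lit 4) (nat_lit 311) (nat_lit 229) (nat_lit 180)))) (XT.nd (nat_lit 78) (nat_lit 0) (nat_lit 0) (XT.lf (nat_lit 0) (nat_lit 94874208140) (nat_lit 152) (nat_lit 173776814067) (nat_lit 0) (nat_lit 88079165823) (nat_lit 1) (nat_lit 5) (nat_lit 3) (nat_lit 4) (nat_lit 1) (nat_lit 4) (nat_lit 312) (nat_lit 229) (nat_lit 179)) (XT.nd (nat_lit 78) (nat_lit 0) (nat_lit 0) (XT.lf (nat_lit 0) (nat_lit 104323092943) (nat_lit 152) (nat_lit 183230583516) (nat_lit 0) (nat_lit 97517085075) (nat_lit 1) (nat_lit 5) (nat_lit 3) (nat_lit 4) (nat_lit 1) (nat_lit 4) (nat_lit 313) (nat_lit 229) (nat_lit 178)) (XT.lf (nat_lit 0) (nat_lit 114520834308) (nat_lit 152) (nat_lit 193453651502) (nat_lit 0) (nat_lit 107704673152) (nat_lit 1) (nat_lit 5) (nat_lit 3) (nat_lit 4) (nat_lit 1) (nat_lit 4) (nat_lit 314) (nat_lit 229) (nat_lit 177))))) (XT.nd (nat_lit 234) (nat_lit 0) (nat_lit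 0) (XT.nd (nat_lit 78) (nat_lit 0) (nat_lit 0) (XT.lf (nat_lit 0) (nat_lit 125527863293) (nat_lit 152) (nat_lit 204506599166) (nat_lit 0) (nat_lit 118702300945) (nat_lit 1) (nat_lit 5) (nat_lit 3) (nat_lit 4) (nat_lit 1) (nat_lit 4) (nat_lit 315) (nat_lit 229) (nat_lit 176)) (XT.nd (nat_lit 78) (nat_lit 0) (nat_lit 0) (XT.lf (nat_lit 0) (nat_lit 137409406739) (nat_lit 152) (nat_lit 216454925459) (nat_lit 0) (nat_lit 130575139582) (nat_lit 1) (nat_lit 5) (nat_lit 3) (nat_lit 4) (nat_lit 1) (nat_lit 4) (nat_lit 316) (nat_lit 229) (nat_lit 175)) (XT.lf (nat_lit 0) (nat_lit 150235873790) (nat_lit 152) (nat_lit 229369435277) (nat_lit 0) (nat_lit 143393546626) (nat_lit 1) (nat_lit 5) (nat_lit 3) (nat_lit 4) (nat_lit 1) (nat_lit 4) (nat_lit 317) (nat_lit 229) (nat_lit 174)))) (XT.nd (nat_lit 78) (nat_lit 0) (nat_lit 0) (XT.lf (nat_lit 0) (nat_lit 164083273141) (nat_lit 152) (nat_lit 243326659049)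 (nat_lit 0) (nat_lit 157233483008) (nat_lit 1) (nat_lit 5) (nat_lit 3) (nat_lit 4) (nat_lit 1) (nat_lit 4) (nat_lit 318) (nat_lit 229) (nat_lit 173)) (XT.nd (nat_lit 78) (nat_lit 0) (nat_lit 0) (XT.lf (nat_lit 0) (nat_lit 179033663454) (nat_lit 152) (nat_lit 258409306248) (nat_lit 0) (nat_lit 172176963164) (nat_lit 1) (nat_lit 5) (nat_lit 3) (nat_lit 4) (nat_lit 1) (nat_lit 4) (nat_lit 319) (nat_lit 229) (nat_lit 172)) (XT.lf (nat_lit 0) (nat_lit 195175639635) (nat_lit 152) (nat_lit 274706755524) (nat_lit 0) (nat_lit 188312541052) (nat_lit 1) (nat_lit 5) (nat_lit 3) (nat_lit 4) (nat_lit 1) (nat_lit 4) (nat_lit 320) (nat_lit 229) (nat_lit 171)))))) (XT.nd (nat_lit 468) (nat_lit 0) (nat_lit 0) (XT.nd (nat_lit 234) (nat_lit 0) (nat_lit 0) (XT.nd (nat_lit 78) (nat_lit 0) (nat_lit 0) (XT.lf (nat_lit 0) (nat_lit 212604857840) (nat_lit 152) (nat_lit 292315584356) (nat_lit 0) (nat_lit 205735834910)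 (nat_lit 1) (nat_lit 5) (nat_lit 3) (nat_lit 4) (nat_lit 1) (nat_lit 4) (nat_lit 321) (nat_lit 229) (nat_lit 170)) (XT.nd (nat_lit 78) (nat_lit 0) (nat_lit 0) (XT.lf (nat_lit 0) (nat_lit 231424602324) (nat_lit 152) (nat_lit 311340141358) (nat_lit 0) (nat_lit 224550093888) (nat_lit 1) (nat_lit 5) (nat_lit 3) (nat_lit 4) (nat_lit 1) (nat_lit 4) (nat_lit 322) (nat_lit 229) (nat_lit 169)) (XT.lf (nat_lit 0) (nat_lit 251746397498) (nat_lit 152) (nat_lit 331893164645) (nat_lit 0) (nat_lit 244866809891) (nat_lit 1) (nat_lit 5) (nat_lit 3) (nat_lit 4) (nat_lit 1) (nat_lit 4) (nat_lit 323) (nat_lit 229) (nat_lit 168)))) (XT.nd (nat_lit 78) (nat_lit 0) (nat_lit 0) (XT.lf (nat_lit 0) (nat_lit 273690668817) (nat_lit 152) (nat_lit 354096449912) (nat_lit 0) (nat_lit 266806378273) (nat_lit 1) (nat_lit 5) (nat_lit 3) (nat_lit 4) (nat_lit 1) (nat_lit 4) (nat_lit 324) (nat_lit 229) (nat_lit 167)) (XT.nd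 (nat_lit 78) (nat_lit 0) (nat_lit 0) (XT.lf (nat_lit 0) (nat_lit 297387456405) (nat_lit 152) (nat_lit 378081572182) (nat_lit 0) (nat_lit 290498811290) (nat_lit 1) (nat_lit 5) (nat_lit 3) (nat_lit 4) (nat_lit 1) (nat_lit 4) (nat_lit 325) (nat_lit 229) (nat_lit 166)) (XT.lf (nat_lit 0) (nat_lit 322977185672) (nat_lit 152) (nat_lit 403990665513) (nat_lit 0) (nat_lit 316084508547) (nat_lit 1) (nat_lit 5) (nat_lit 3) (nat_lit 4) (nat_lit 1) (nat_lit 4) (nat_lit 326) (nat_lit 229) (nat_lit 165))))) (XT.nd (nat_lit 234) (nat_lit 0) (nat_lit 0) (XT.nd (nat_lit 78) (nat_lit 0) (nat_lit 0) (XT.lf (nat_lit 0) (nat_lit 350611499457) (nat_lit 152) (nat_lit 431977265273) (nat_lit 0) (nat_lit 343715088989) (nat_lit 1) (nat_lit 5) (nat_lit 3) (nat_lit 4) (nat_lit 1) (nat_lit 4) (nat_lit 327) (nat_lit 229) (nat_lit 164)) (XT.nd (nat_lit 78) (nat_lit 0) (nat_lit 0) (XT.lf (nat_lit 0) (nat_lit 380454156656)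 (nat_lit 152) (nat_lit 462207217979) (nat_lit 0) (nat_lit 373554289389) (nat_lit 1) (nat_lit 5) (nat_lit 3) (nat_lit 4) (nat_lit 1) (nat_lit 4) (nat_lit 328) (nat_lit 229) (nat_lit 163)) (XT.lf (nat_lit 0) (nat_lit 412682002647) (nat_lit 152) (nat_lit 494859664091) (nat_lit 0) (nat_lit 405778934640) (nat_lit 1) (nat_lit 5) (nat_lit 3) (nat_lit 4) (nat_lit 1) (nat_lit 4) (nat_lit 329) (nat_lit 229) (nat_lit 162)))) (XT.nd (nat_lit 78) (nat_lit 0) (nat_lit 0) (XT.lf (nat_lit 0) (nat_lit 447486017256) (nat_lit 152) (nat_lit 530128099587) (nat_lit 0) (nat_lit 440579985601) (nat_lit 1) (nat_lit 5) (nat_lit 3) (nat_lit 4) (nat_lit 1) (nat_lit 4) (nat_lit 330) (nat_lit 229) (nat_lit 161)) (XT.nd (nat_lit 78) (nat_lit 0) (nat_lit 0) (XT.lf (nat_lit 0) (nat_lit 485072446496) (nat_lit 152) (nat_lit 568221522603) (nat_lit 0) (nat_lit 478163670723) (nat_lit 1) (nat_lit 5) (nat_lit 3) (nat_lit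 4) (nat_lit 1) (nat_lit 4) (nat_lit 331) (nat_lit 229) (nat_lit 160)) (XT.lf (nat_lit 0) (nat_lit 525664024763) (nat_lit 152) (nat_lit 609365671941) (nat_lit 0) (nat_lit 518752708139) (nat_lit 1) (nat_lit 5) (nat_lit 3) (nat_lit 4) (nat_lit 1) (nat_lit 4) (nat_lit 332) (nat_lit 229) (nat_lit 159))))))) (XT.nd (nat_lit 32370) (nat_lit 0) (nat_lit 228) (XT.nd (nat_lit 31902) (nat_lit 0) (nat_lit 760) (XT.nd (nat_lit 234) (nat_lit 0) (nat_lit 0) (XT.nd (nat_lit 78) (nat_lit 0) (nat_lit 0) (XT.lf (nat_lit 0) (nat_lit 569501294743) (nat_lit 152) (nat_lit 653804364784) (nat_lit 0) (nat_lit 562587625480) (nat_lit 1) (nat_lit 5) (nat_lit 3) (nat_lit 4) (nat_lit 1) (nat_lit 4) (nat_lit 333) (nat_lit 229) (nat_lit 158)) (XT.nd (nat_lit 78) (nat_lit 0) (nat_lit 0) (XT.lf (nat_lit 0) (nat_lit 616844032850) (nat_lit 152) (nat_lit 701800941532) (nat_lit 0) (nat_lit 609928185217) (nat_lit 1) (nat_lit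 5) (nat_lit 3) (nat_lit 4) (nat_lit 1) (nat_lit 4) (nat_lit 334) (nat_lit 229) (nat_lit 157)) (XT.lf (nat_lit 0) (nat_lit 667972788644) (nat_lit 152) (nat_lit 753639826345) (nat_lit 0) (nat_lit 661054924002) (nat_lit 1) (nat_lit 5) (nat_lit 3) (nat_lit 4) (nat_lit 1) (nat_lit 4) (nat_lit 335) (nat_lit 229) (nat_lit 156)))) (XT.nd (nat_lit 78) (nat_lit 0) (nat_lit 0) (XT.lf (nat_lit 0) (nat_lit 723190547344) (nat_lit 152) (nat_lit 809628212614) (nat_lit 0) (nat_lit 716270815102) (nat_lit 1) (nat_lit 5) (nat_lit 3) (nat_lit 4) (nat_lit 1) (nat_lit 4) (nat_lit 336) (nat_lit 229) (nat_lit 155)) (XT.nd (nat_lit 31512) (nat_lit 0) (nat_lit 1216) (XT.lf (nat_lit 0) (nat_lit 782824525299) (nat_lit 152) (nat_lit 870097883369) (nat_lit 0) (nat_lit 775903063796) (nat_lit 1) (nat_lit 5) (nat_lit 3) (nat_lit 4) (nat_lit 1) (nat_lit 4) (nat_lit 337) (nat_lit 229) (nat_lit 154)) (XT.lf (nat_lit 0)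 (nat_lit 3021193314) (nat_lit 152) (nat_lit 1034383528) (nat_lit 152) (nat_lit 1034383528) (nat_lit 17) (nat_lit 4) (nat_lit 19) (nat_lit 5) (nat_lit 19) (nat_lit 4) (nat_lit 260) (nat_lit 230) (nat_lit 230))))) (XT.nd (nat_lit 234) (nat_lit 152) (nat_lit 0) (XT.nd (nat_lit 78) (nat_lit 152) (nat_lit 0) (XT.lf (nat_lit 0) (nat_lit 1267197218) (nat_lit 152) (nat_lit 8864062951) (nat_lit 0) (nat_lit 511518822) (nat_lit 15) (nat_lit 5) (nat_lit 17) (nat_lit 4) (nat_lit 15) (nat_lit 4) (nat_lit 261) (nat_lit 230) (nat_lit 229)) (XT.nd (nat_lit 78) (nat_lit 152) (nat_lit 0) (XT.lf (nat_lit 0) (nat_lit 4714726225) (nat_lit 152) (nat_lit 3168723272) (nat_lit 0) (nat_lit 3259345610) (nat_lit 15) (nat_lit 5) (nat_lit 17) (nat_lit 4) (nat_lit 15) (nat_lit 4) (nat_lit 262) (nat_lit 230) (nat_lit 228)) (XT.lf (nat_lit 0) (nat_lit 2819321714) (nat_lit 152) (nat_lit 5488998593) (nat_lit 152) (nat_lit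 3385745553) (nat_lit 13) (nat_lit 4) (nat_lit 15) (nat_lit 5) (nat_lit 15) (nat_lit 4) (nat_lit 263) (nat_lit 230) (nat_lit 227)))) (XT.nd (nat_lit 78) (nat_lit 152) (nat_lit 0) (XT.lf (nat_lit 0) (nat_lit 9170357725) (nat_lit 152) (nat_lit 2915648366) (nat_lit 152) (nat_lit 212513452) (nat_lit 13) (nat_lit 4) (nat_lit 15) (nat_lit 5) (nat_lit 15) (nat_lit 4) (nat_lit 264) (nat_lit 230) (nat_lit 226)) (XT.nd (nat_lit 78) (nat_lit 0) (nat_lit 0) (XT.lf (nat_lit 0) (nat_lit 2859317760) (nat_lit 76) (nat_lit 81979766) (nat_lit 152) (nat_lit 10013539128) (nat_lit 11) (nat_lit 5) (nat_lit 12) (nat_lit 5) (nat_lit 13) (nat_lit 4) (nat_lit 265) (nat_lit 230) (nat_lit 225)) (XT.lf (nat_lit 0) (nat_lit 6318354207) (nat_lit 152) (nat_lit 4521968346) (nat_lit 0) (nat_lit 2824943916) (nat_lit 11) (nat_lit 5) (nat_lit 13) (nat_lit 4) (nat_lit 11) (nat_lit 4) (nat_lit 266) (nat_lit 230) (nat_lit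 224)))))) (XT.nd (nat_lit 468) (nat_lit 228) (nat_lit 0) (XT.nd (nat_lit 234) (nat_lit 76) (nat_lit 0) (XT.nd (nat_lit 78) (nat_lit 76) (nat_lit 0) (XT.lf (nat_lit 0) (nat_lit 1291930155) (nat_lit 152) (nat_lit 8542994517) (nat_lit 152) (nat_lit 4608653141) (nat_lit 9) (nat_lit 4) (nat_lit 11) (nat_lit 5) (nat_lit 11) (nat_lit 4) (nat_lit 267) (nat_lit 230) (nat_lit 223)) (XT.nd (nat_lit 78) (nat_lit 76) (nat_lit 0) (XT.lf (nat_lit 0) (nat_lit 7566860238) (nat_lit 152) (nat_lit 6031602198) (nat_lit 152) (nat_lit 1688991297) (nat_lit 9) (nat_lit 4) (nat_lit 11) (nat_lit 5) (nat_lit 11) (nat_lit 4) (nat_lit 268) (nat_lit 230) (nat_lit 222)) (XT.lf (nat_lit 0) (nat_lit 1240418119) (nat_lit 228) (nat_lit 2140568549) (nat_lit 76) (nat_lit 12827554486) (nat_lit 8) (nat_lit 5) (nat_lit 11) (nat_lit 5) (nat_lit 9) (nat_lit 4) (nat_lit 269) (nat_lit 230) (nat_lit 221)))) (XT.nd (nat_lit 78)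 (nat_lit 0) (nat_lit 0) (XT.lf (nat_lit 0) (nat_lit 3800339004) (nat_lit 76) (nat_lit 464566069) (nat_lit 152) (nat_lit 12939180370) (nat_lit 7) (nat_lit 5) (nat_lit 8) (nat_lit 5) (nat_lit 9) (nat_lit 4) (nat_lit 270) (nat_lit 230) (nat_lit 220)) (XT.nd (nat_lit 78) (nat_lit 0) (nat_lit 0) (XT.lf (nat_lit 0) (nat_lit 7519250191) (nat_lit 152) (nat_lit 8237295093) (nat_lit 0) (nat_lit 2524101060) (nat_lit 7) (nat_lit 5) (nat_lit 9) (nat_lit 4) (nat_lit 7) (nat_lit 4) (nat_lit 271) (nat_lit 230) (nat_lit 219)) (XT.lf (nat_lit 0) (nat_lit 10919411169) (nat_lit 152) (nat_lit 2887057829) (nat_lit 0) (nat_lit 5646400660) (nat_lit 7) (nat_lit 5) (nat_lit 9) (nat_lit 4) (nat_lit 7) (nat_lit 4) (nat_lit 272) (nat_lit 230) (nat_lit 218))))) (XT.nd (nat_lit 234) (nat_lit 152) (nat_lit 0) (XT.nd (nat_lit 78) (nat_lit 0) (nat_lit 0) (XT.lf (nat_lit 0) (nat_lit 2831485665) (nat_lit 76) (nat_lit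 11710975918) (nat_lit 76) (nat_lit 6180686356) (nat_lit 6) (nat_lit 4) (nat_lit 7) (nat_lit 5) (nat_lit 7) (nat_lit 4) (nat_lit 273) (nat_lit 230) (nat_lit 217)) (XT.nd (nat_lit 78) (nat_lit 0) (nat_lit 0) (XT.lf (nat_lit 0) (nat_lit 8975444644) (nat_lit 76) (nat_lit 9445590943) (nat_lit 76) (nat_lit 3677080034) (nat_lit 6) (nat_lit 4) (nat_lit 7) (nat_lit 5) (nat_lit 7) (nat_lit 4) (nat_lit 274) (nat_lit 230) (nat_lit 216)) (XT.lf (nat_lit 0) (nat_lit 15429200406) (nat_lit 76) (nat_lit 7075826846) (nat_lit 76) (nat_lit 1086740616) (nat_lit 6) (nat_lit 4) (nat_lit 7) (nat_lit 5) (nat_lit 7) (nat_lit 4) (nat_lit 275) (nat_lit 230) (nat_lit 215)))) (XT.nd (nat_lit 156) (nat_lit 0) (nat_lit 0) (XT.nd (nat_lit 78) (nat_lit 76) (nat_lit 0) (XT.lf (nat_lit 0) (nat_lit 1525359336) (nat_lit 152) (nat_lit 3020575217) (nat_lit 76) (nat_lit 20663932064) (nat_lit 5) (nat_lit 5) (nat_lit 7) (nat_lit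 5) (nat_lit 6) (nat_lit 4) (nat_lit 276) (nat_lit 230) (nat_lit 214)) (XT.lf (nat_lit 0) (nat_lit 2467059710) (nat_lit 76) (nat_lit 1787502853) (nat_lit 152) (nat_lit 22703481056) (nat_lit 4) (nat_lit 5) (nat_lit 5) (nat_lit 5) (nat_lit 6) (nat_lit 4) (nat_lit 277) (nat_lit 230) (nat_lit 213))) (XT.nd (nat_lit 78) (nat_lit 0) (nat_lit 0) (XT.lf (nat_lit 0) (nat_lit 7224465342) (nat_lit 152) (nat_lit 20467361086) (nat_lit 0) (nat_lit 1152678099) (nat_lit 4) (nat_lit 5) (nat_lit 6) (nat_lit 4) (nat_lit 4) (nat_lit 4) (nat_lit 278) (nat_lit 230) (nat_lit 212)) (XT.lf (nat_lit 0) (nat_lit 10394103975) (nat_lit 152) (nat_lit 16318812572) (nat_lit 0) (nat_lit 4172196875) (nat_lit 4) (nat_lit 5) (nat_lit 6) (nat_lit 4) (nat_lit 4) (nat_lit 4) (nat_lit 279) (nat_lit 230) (nat_lit 211))))))))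
noncomputable def xc32 : XT := (XT.nd (nat_lit 1872) (nat_lit 0) (nat_lit 0) (XT.nd (nat_lit 936) (nat_lit 152) (nat_lit 0) (XT.nd (nat_lit 468) (nat_lit 0) (nat_lit 0) (XT.nd (nat_lit 234) (nat_lit 76) (nat_lit 0) (XT.nd (nat_lit 78) (nat_lit 0) (nat_lit 0) (XT.lf (nat_lit 0) (nat_lit 13739272017) (nat_lit 152) (nat_lit 11977764888) (nat_lit 0) (nat_lit 7378365050) (nat_lit 4) (nat_lit 5) (nat_lit 6) (nat_lit 4) (nat_lit 4) (nat_lit 4) (nat_lit 280) (nat_lit 230) (nat_lit 210)) (XT.nd (nat_lit 78) (nat_lit 0) (nat_lit 0) (XT.lf (nat_lit 0) (nat_lit 17279792689) (nat_lit 152) (nat_lit 7418493307) (nat_lit 0) (nat_lit 10790182140) (nat_lit 4) (nat_lit 5) (nat_lit 6) (nat_lit 4) (nat_lit 4) (nat_lit 4) (nat_lit 281) (nat_lit 230) (nat_lit 209)) (XT.lf (nat_lit 0) (nat_lit 21036646851) (nat_lit 152) (nat_lit 2613979925) (nat_lit 0) (nat_lit 14427866321) (nat_lit 4) (nat_lit 5) (nat_lit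 6) (nat_lit 4) (nat_lit 4) (nat_lit 4) (nat_lit 282) (nat_lit 230) (nat_lit 208)))) (XT.nd (nat_lit 78) (nat_lit 0) (nat_lit 0) (XT.lf (nat_lit 0) (nat_lit 2594009301) (nat_lit 76) (nat_lit 22500474030) (nat_lit 76) (nat_lit 15781350923) (nat_lit 3) (nat_lit 4) (nat_lit 4) (nat_lit 5) (nat_lit 4) (nat_lit 4) (nat_lit 283) (nat_lit 230) (nat_lit 207)) (XT.nd (nat_lit 78) (nat_lit 0) (nat_lit 0) (XT.lf (nat_lit 0) (nat_lit 8259450159) (nat_lit 76) (nat_lit 21229010730) (nat_lit 76) (nat_lit 14407718571) (nat_lit 3) (nat_lit 4) (nat_lit 4) (nat_lit 5) (nat_lit 4) (nat_lit 4) (nat_lit 284) (nat_lit 230) (nat_lit 206)) (XT.lf (nat_lit 0) (nat_lit 14278268081) (nat_lit 76) (nat_lit 19900173121) (nat_lit 76) (nat_lit 12984279988) (nat_lit 3) (nat_lit 4) (nat_lit 4) (nat_lit 5) (nat_lit 4) (nat_lit 4) (nat_lit 285) (nat_lit 230) (nat_lit 205))))) (XT.nd (nat_lit 234) (nat_lit 0) (nat_lit 0)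 (XT.nd (nat_lit 78) (nat_lit 0) (nat_lit 0) (XT.lf (nat_lit 0) (nat_lit 20686130137) (nat_lit 76) (nat_lit 18506086612) (nat_lit 76) (nat_lit 11502599984) (nat_lit 3) (nat_lit 4) (nat_lit 4) (nat_lit 5) (nat_lit 4) (nat_lit 4) (nat_lit 286) (nat_lit 230) (nat_lit 204)) (XT.nd (nat_lit 78) (nat_lit 0) (nat_lit 0) (XT.lf (nat_lit 0) (nat_lit 27521008842) (nat_lit 76) (nat_lit 17038489947) (nat_lit 76) (nat_lit 9953898232) (nat_lit 3) (nat_lit 4) (nat_lit 4) (nat_lit 5) (nat_lit 4) (nat_lit 4) (nat_lit 287) (nat_lit 230) (nat_lit 203)) (XT.lf (nat_lit 0) (nat_lit 34823407181) (nat_lit 76) (nat_lit 15488686259) (nat_lit 76) (nat_lit 8328997241) (nat_lit 3) (nat_lit 4) (nat_lit 4) (nat_lit 5) (nat_lit 4) (nat_lit 4) (nat_lit 288) (nat_lit 230) (nat_lit 202)))) (XT.nd (nat_lit 78) (nat_lit 0) (nat_lit 0) (XT.lf (nat_lit 0) (nat_lit 42636598625) (nat_lit 76) (nat_lit 13847491525) (nat_lit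 76) (nat_lit 6618267967) (nat_lit 3) (nat_lit 4) (nat_lit 4) (nat_lit 5) (nat_lit 4) (nat_lit 4) (nat_lit 289) (nat_lit 230) (nat_lit 201)) (XT.nd (nat_lit 78) (nat_lit 0) (nat_lit 0) (XT.lf (nat_lit 0) (nat_lit 51006883570) (nat_lit 76) (nat_lit 12105180148) (nat_lit 76) (nat_lit 4811572756) (nat_lit 3) (nat_lit 4) (nat_lit 4) (nat_lit 5) (nat_lit 4) (nat_lit 4) (nat_lit 290) (nat_lit 230) (nat_lit 200)) (XT.lf (nat_lit 0) (nat_lit 59983863702) (nat_lit 76) (nat_lit 10251427318) (nat_lit 76) (nat_lit 2898205265) (nat_lit 3) (nat_lit 4) (nat_lit 4) (nat_lit 5) (nat_lit 4) (nat_lit 4) (nat_lit 291) (nat_lit 230) (nat_lit 199)))))) (XT.nd (nat_lit 468) (nat_lit 0) (nat_lit 0) (XT.nd (nat_lit 234) (nat_lit 76) (nat_lit 0) (XT.nd (nat_lit 78) (nat_lit 76) (nat_lit 0) (XT.lf (nat_lit 0) (nat_lit 69620735942) (nat_lit 76) (nat_lit 8275247834) (nat_lit 76) (nat_lit 866827021) (nat_lit 3)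 (nat_lit 4) (nat_lit 4) (nat_lit 5) (nat_lit 4) (nat_lit 4) (nat_lit 292) (nat_lit 230) (nat_lit 198)) (XT.nd (nat_lit 78) (nat_lit 0) (nat_lit 0) (XT.lf (nat_lit 0) (nat_lit 1229838648) (nat_lit 152) (nat_lit 4901466385) (nat_lit 76) (nat_lit 78711143064) (nat_lit 2) (nat_lit 5) (nat_lit 4) (nat_lit 5) (nat_lit 3) (nat_lit 4) (nat_lit 293) (nat_lit 230) (nat_lit 197)) (XT.lf (nat_lit 0) (nat_lit 3418852840) (nat_lit 152) (nat_lit 395640906) (nat_lit 76) (nat_lit 87594504859) (nat_lit 2) (nat_lit 5) (nat_lit 4) (nat_lit 5) (nat_lit 3) (nat_lit 4) (nat_lit 294) (nat_lit 230) (nat_lit 196)))) (XT.nd (nat_lit 78) (nat_lit 0) (nat_lit 0) (XT.lf (nat_lit 0) (nat_lit 4655854687) (nat_lit 76) (nat_lit 1212668416) (nat_lit 152) (nat_lit 92625562012) (nat_lit 1) (nat_lit 5) (nat_lit 2) (nat_lit 5) (nat_lit 3) (nat_lit 4) (nat_lit 295) (nat_lit 230) (nat_lit 195)) (XT.nd (nat_lit 78) (nat_lit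 0) (nat_lit 0) (XT.lf (nat_lit 0) (nat_lit 8537579909) (nat_lit 152) (nat_lit 96097927975) (nat_lit 0) (nat_lit 1508648330) (nat_lit 1) (nat_lit 5) (nat_lit 3) (nat_lit 4) (nat_lit 1) (nat_lit 4) (nat_lit 296) (nat_lit 230) (nat_lit 194)) (XT.lf (nat_lit 0) (nat_lit 11427491777) (nat_lit 152) (nat_lit 98614426112) (nat_lit 0) (nat_lit 4363775615) (nat_lit 1) (nat_lit 5) (nat_lit 3) (nat_lit 4) (nat_lit 1) (nat_lit 4) (nat_lit 297) (nat_lit 230) (nat_lit 193))))) (XT.nd (nat_lit 234) (nat_lit 0) (nat_lit 0) (XT.nd (nat_lit 78) (nat_lit 0) (nat_lit 0) (XT.lf (nat_lit 0) (nat_lit 14526219405) (nat_lit 152) (nat_lit 101373472718) (nat_lit 0) (nat_lit 7430295297) (nat_lit 1) (nat_lit 5) (nat_lit 3) (nat_lit 4) (nat_lit 1) (nat_lit 4) (nat_lit 298) (nat_lit 230) (nat_lit 192)) (XT.nd (nat_lit 78) (nat_lit 0) (nat_lit 0) (XT.lf (nat_lit 0) (nat_lit 17852125625) (nat_lit 152) (nat_lit 104391417698)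 (nat_lit 0) (nat_lit 10726379345) (nat_lit 1) (nat_lit 5) (nat_lit 3) (nat_lit 4) (nat_lit 1) (nat_lit 4) (nat_lit 299) (nat_lit 230) (nat_lit 191)) (XT.lf (nat_lit 0) (nat_lit 21424919510) (nat_lit 152) (nat_lit 107686145171) (nat_lit 0) (nat_lit 14271560108) (nat_lit 1) (nat_lit 5) (nat_lit 3) (nat_lit 4) (nat_lit 1) (nat_lit 4) (nat_lit 300) (nat_lit 230) (nat_lit 190)))) (XT.nd (nat_lit 78) (nat_lit 0) (nat_lit 0) (XT.lf (nat_lit 0) (nat_lit 25265773173) (nat_lit 152) (nat_lit 111277179447) (nat_lit 0) (nat_lit 18086846064) (nat_lit 1) (nat_lit 5) (nat_lit 3) (nat_lit 4) (nat_lit 1) (nat_lit 4) (nat_lit 301) (nat_lit 230) (nat_lit 189)) (XT.nd (nat_lit 78) (nat_lit 0) (nat_lit 0) (XT.lf (nat_lit 0) (nat_lit 29397447227) (nat_lit 152) (nat_lit 115185800730) (nat_lit 0) (nat_lit 22194846317) (nat_lit 1) (nat_lit 5) (nat_lit 3) (nat_lit 4) (nat_lit 1) (nat_lit 4) (nat_lit 302) (nat_lit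 230) (nat_lit 188)) (XT.lf (nat_lit 0) (nat_lit 33844425668) (nat_lit 152) (nat_lit 119435171219) (nat_lit 0) (nat_lit 26619904570) (nat_lit 1) (nat_lit 5) (nat_lit 3) (nat_lit 4) (nat_lit 1) (nat_lit 4) (nat_lit 303) (nat_lit 230) (nat_lit 187))))))) (XT.nd (nat_lit 936) (nat_lit 0) (nat_lit 0) (XT.nd (nat_lit 468) (nat_lit 0) (nat_lit 0) (XT.nd (nat_lit 234) (nat_lit 0) (nat_lit 0) (XT.nd (nat_lit 78) (nat_lit 0) (nat_lit 0) (XT.lf (nat_lit 0) (nat_lit 38633060959) (nat_lit 152) (nat_lit 124050472370) (nat_lit 0) (nat_lit 31388243392) (nat_lit 1) (nat_lit 5) (nat_lit 3) (nat_lit 4) (nat_lit 1) (nat_lit 4) (nat_lit 304) (nat_lit 230) (nat_lit 186)) (XT.nd (nat_lit 78) (nat_lit 0) (nat_lit 0) (XT.lf (nat_lit 0) (nat_lit 43791730199) (nat_lit 152) (nat_lit 129059054115) (nat_lit 0) (nat_lit 36528119605) (nat_lit 1) (nat_lit 5) (nat_lit 3) (nat_lit 4) (nat_lit 1) (nat_lit 4) (nat_lit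 305) (nat_lit 230) (nat_lit 185)) (XT.lf (nat_lit 0) (nat_lit 49351003280) (nat_lit 152) (nat_lit 134490596939) (nat_lit 0) (nat_lit 42069991734) (nat_lit 1) (nat_lit 5) (nat_lit 3) (nat_lit 4) (nat_lit 1) (nat_lit 4) (nat_lit 306) (nat_lit 230) (nat_lit 184)))) (XT.nd (nat_lit 78) (nat_lit 0) (nat_lit 0) (XT.lf (nat_lit 0) (nat_lit 55343824042) (nat_lit 152) (nat_lit 140377287762) (nat_lit 0) (nat_lit 48046700504) (nat_lit 1) (nat_lit 5) (nat_lit 3) (nat_lit 4) (nat_lit 1) (nat_lit 4) (nat_lit 307) (nat_lit 230) (nat_lit 183)) (XT.nd (nat_lit 78) (nat_lit 0) (nat_lit 0) (XT.lf (nat_lit 0) (nat_lit 61805705496) (nat_lit 152) (nat_lit 146754010678) (nat_lit 0) (nat_lit 54493663448) (nat_lit 1) (nat_lit 5) (nat_lit 3) (nat_lit 4) (nat_lit 1) (nat_lit 4) (nat_lit 308) (nat_lit 230) (nat_lit 182)) (XT.lf (nat_lit 0) (nat_lit 68774940275) (nat_lit 152) (nat_lit 153658553675) (nat_lit 0)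 (nat_lit 61449084791) (nat_lit 1) (nat_lit 5) (nat_lit 3) (nat_lit 4) (nat_lit 1) (nat_lit 4) (nat_lit 309) (nat_lit 230) (nat_lit 181))))) (XT.nd (nat_lit 234) (nat_lit 0) (nat_lit 0) (XT.nd (nat_lit 78) (nat_lit 0) (nat_lit 0) (XT.lf (nat_lit 0) (nat_lit 76292827547) (nat_lit 152) (nat_lit 161131832562) (nat_lit 0) (nat_lit 68954181844) (nat_lit 1) (nat_lit 5) (nat_lit 3) (nat_lit 4) (nat_lit 1) (nat_lit 4) (nat_lit 310) (nat_lit 230) (nat_lit 180)) (XT.nd (nat_lit 78) (nat_lit 0) (nat_lit 0) (XT.lf (nat_lit 0) (nat_lit 84403917755) (nat_lit 152) (nat_lit 169218133437) (nat_lit 0) (nat_lit 77053429257) (nat_lit 1) (nat_lit 5) (nat_lit 3) (nat_lit 4) (nat_lit 1) (nat_lit 4) (nat_lit 311) (nat_lit 230) (nat_lit 179)) (XT.lf (nat_lit 0) (nat_lit 93156276619) (nat_lit 152) (nat_lit 177965375121) (nat_lit 0) (nat_lit 85794822570) (nat_lit 1) (nat_lit 5) (nat_lit 3) (nat_lit 4) (nat_lit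 1) (nat_lit 4) (nat_lit 312) (nat_lit 230) (nat_lit 178)))) (XT.nd (nat_lit 78) (nat_lit 0) (nat_lit 0) (XT.lf (nat_lit 0) (nat_lit 102601769968) (nat_lit 152) (nat_lit 187425393119) (nat_lit 0) (nat_lit 95230162632) (nat_lit 1) (nat_lit 5) (nat_lit 3) (nat_lit 4) (nat_lit 1) (nat_lit 4) (nat_lit 313) (nat_lit 230) (nat_lit 177)) (XT.nd (nat_lit 78) (nat_lit 0) (nat_lit 0) (XT.lf (nat_lit 0) (nat_lit 112796371098) (nat_lit 152) (nat_lit 197654246796) (nat_lit 0) (nat_lit 105415362570) (nat_lit 1) (nat_lit 5) (nat_lit 3) (nat_lit 4) (nat_lit 1) (nat_lit 4) (nat_lit 314) (nat_lit 230) (nat_lit 176)) (XT.lf (nat_lit 0) (nat_lit 123800492459) (nat_lit 152) (nat_lit 208712551584) (nat_lit 0) (nat_lit 116410779123) (nat_lit 1) (nat_lit 5) (nat_lit 3) (nat_lit 4) (nat_lit 1) (nat_lit 4) (nat_lit 315) (nat_lit 230) (nat_lit 175)))))) (XT.nd (nat_lit 468) (nat_lit 0) (nat_lit 0) (XT.nd (nat_lit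 234) (nat_lit 0) (nat_lit 0) (XT.nd (nat_lit 78) (nat_lit 0) (nat_lit 0) (XT.lf (nat_lit 0) (nat_lit 135679343660) (nat_lit 152) (nat_lit 220665838176) (nat_lit 0) (nat_lit 128281570316) (nat_lit 1) (nat_lit 5) (nat_lit 3) (nat_lit 4) (nat_lit 1) (nat_lit 4) (nat_lit 316) (nat_lit 230) (nat_lit 174)) (XT.nd (nat_lit 78) (nat_lit 0) (nat_lit 0) (XT.lf (nat_lit 0) (nat_lit 148503317891) (nat_lit 152) (nat_lit 233584940863) (nat_lit 0) (nat_lit 141098081578) (nat_lit 1) (nat_lit 5) (nat_lit 3) (nat_lit 4) (nat_lit 1) (nat_lit 4) (nat_lit 317) (nat_lit 230) (nat_lit 173)) (XT.lf (nat_lit 0) (nat_lit 162348409076) (nat_lit 152) (nat_lit 247546417291) (nat_lit 0) (nat_lit 154936262606) (nat_lit 1) (nat_lit 5) (nat_lit 3) (nat_lit 4) (nat_lit 1) (nat_lit 4) (nat_lit 318) (nat_lit 230) (nat_lit 172)))) (XT.nd (nat_lit 78) (nat_lit 0) (nat_lit 0) (XT.lf (nat_lit 0) (nat_lit 177296662199) (nat_lit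 152) (nat_lit 262633002135) (nat_lit 0) (nat_lit 169878117434) (nat_lit 1) (nat_lit 5) (nat_lit 3) (nat_lit 4) (nat_lit 1) (nat_lit 4) (nat_lit 319) (nat_lit 230) (nat_lit 171)) (XT.nd (nat_lit 78) (nat_lit 0) (nat_lit 0) (XT.lf (nat_lit 0) (nat_lit 193436659500) (nat_lit 152) (nat_lit 278934097379) (nat_lit 0) (nat_lit 186012190389) (nat_lit 1) (nat_lit 5) (nat_lit 3) (nat_lit 4) (nat_lit 1) (nat_lit 4) (nat_lit 320) (nat_lit 230) (nat_lit 170)) (XT.lf (nat_lit 0) (nat_lit 210864045407) (nat_lit 152) (nat_lit 296546302107) (nat_lit 0) (nat_lit 203434090792) (nat_lit 1) (nat_lit 5) (nat_lit 3) (nat_lit 4) (nat_lit 1) (nat_lit 4) (nat_lit 321) (nat_lit 230) (nat_lit 169))))) (XT.nd (nat_lit 234) (nat_lit 0) (nat_lit 0) (XT.nd (nat_lit 78) (nat_lit 0) (nat_lit 0) (XT.lf (nat_lit 0) (nat_lit 229682093320) (nat_lit 152) (nat_lit 315573984938) (nat_lit 0) (nat_lit 222247059532) (nat_lit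 1) (nat_lit 5) (nat_lit 3) (nat_lit 4) (nat_lit 1) (nat_lit 4) (nat_lit 322) (nat_lit 230) (nat_lit 168)) (XT.nd (nat_lit 78) (nat_lit 0) (nat_lit 0) (XT.lf (nat_lit 0) (nat_lit 250002317595) (nat_lit 152) (nat_lit 336129902512) (nat_lit 0) (nat_lit 242562580871) (nat_lit 1) (nat_lit 5) (nat_lit 3) (nat_lit 4) (nat_lit 1) (nat_lit 4) (nat_lit 323) (nat_lit 230) (nat_lit 167)) (XT.lf (nat_lit 0) (nat_lit 271945134378) (nat_lit 152) (nat_lit 358335867674) (nat_lit 0) (nat_lit 264501043082) (nat_lit 1) (nat_lit 5) (nat_lit 3) (nat_lit 4) (nat_lit 1) (nat_lit 4) (nat_lit 324) (nat_lit 230) (nat_lit 166)))) (XT.nd (nat_lit 78) (nat_lit 0) (nat_lit 0) (XT.lf (nat_lit 0) (nat_lit 295640575174) (nat_lit 152) (nat_lit 382323471329) (nat_lit 0) (nat_lit 288192451868) (nat_lit 1) (nat_lit 5) (nat_lit 3) (nat_lit 4) (nat_lit 1) (nat_lit 4) (nat_lit 325) (nat_lit 230) (nat_lit 165)) (XT.nd (nat_lit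 78) (nat_lit 0) (nat_lit 0) (XT.lf (nat_lit 0) (nat_lit 321229057410) (nat_lit 152) (nat_lit 408234862238) (nat_lit 0) (nat_lit 313777200761) (nat_lit 1) (nat_lit 5) (nat_lit 3) (nat_lit 4) (nat_lit 1) (nat_lit 4) (nat_lit 326) (nat_lit 230) (nat_lit 164)) (XT.lf (nat_lit 0) (nat_lit 348862216537) (nat_lit 152) (nat_lit 436223589385) (nat_lit 0) (nat_lit 341406903089) (nat_lit 1) (nat_lit 5) (nat_lit 3) (nat_lit 4) (nat_lit 1) (nat_lit 4) (nat_lit 327) (nat_lit 230) (nat_lit 163))))))))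
noncomputable def xc33 : XT := (XT.nd (nat_lit 33150) (nat_lit 0) (nat_lit 0) (XT.nd (nat_lit 32214) (nat_lit 0) (nat_lit 456) (XT.nd (nat_lit 468) (nat_lit 0) (nat_lit 0) (XT.nd (nat_lit 234) (nat_lit 0) (nat_lit 0) (XT.nd (nat_lit 78) (nat_lit 0) (nat_lit 0) (XT.lf (nat_lit 0) (nat_lit 378703804609) (nat_lit 152) (nat_lit 466455511894) (nat_lit 0) (nat_lit 371245290422) (nat_lit 1) (nat_lit 5) (nat_lit 3) (nat_lit 4) (nat_lit 1) (nat_lit 4) (nat_lit 328) (nat_lit 230) (nat_lit 162)) (XT.nd (nat_lit 78) (nat_lit 0) (nat_lit 0) (XT.lf (nat_lit 0) (nat_lit 410930660666) (nat_lit 152) (nat_lit 499109781898) (nat_lit 0) (nat_lit 403469182831) (nat_lit 1) (nat_lit 5) (nat_lit 3) (nat_lit 4) (nat_lit 1) (nat_lit 4) (nat_lit 329) (nat_lit 230) (nat_lit 161)) (XT.lf (nat_lit 0) (nat_lit 445733758671) (nat_lit 152) (nat_lit 534379906182) (nat_lit 0) (nat_lit 438269536717) (nat_lit 1) (nat_lit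 5) (nat_lit 3) (nat_lit 4) (nat_lit 1) (nat_lit 4) (nat_lit 330) (nat_lit 230) (nat_lit 160)))) (XT.nd (nat_lit 78) (nat_lit 0) (nat_lit 0) (XT.lf (nat_lit 0) (nat_lit 483319339203) (nat_lit 152) (nat_lit 572474892891) (nat_lit 0) (nat_lit 475852576399) (nat_lit 1) (nat_lit 5) (nat_lit 3) (nat_lit 4) (nat_lit 1) (nat_lit 4) (nat_lit 331) (nat_lit 230) (nat_lit 159)) (XT.nd (nat_lit 78) (nat_lit 0) (nat_lit 0) (XT.lf (nat_lit 0) (nat_lit 523910131630) (nat_lit 152) (nat_lit 613620490093) (nat_lit 0) (nat_lit 516441016186) (nat_lit 1) (nat_lit 5) (nat_lit 3) (nat_lit 4) (nat_lit 1) (nat_lit 4) (nat_lit 332) (nat_lit 230) (nat_lit 158)) (XT.lf (nat_lit 0) (nat_lit 567746673979) (nat_lit 152) (nat_lit 658060523550) (nat_lit 0) (nat_lit 560275380166) (nat_lit 1) (nat_lit 5) (nat_lit 3) (nat_lit 4) (nat_lit 1) (nat_lit 4) (nat_lit 333) (nat_lit 230) (nat_lit 157))))) (XT.nd (nat_lit 234)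 (nat_lit 0) (nat_lit 0) (XT.nd (nat_lit 78) (nat_lit 0) (nat_lit 0) (XT.lf (nat_lit 0) (nat_lit 615088738355) (nat_lit 152) (nat_lit 706058341609) (nat_lit 0) (nat_lit 607615427533) (nat_lit 1) (nat_lit 5) (nat_lit 3) (nat_lit 4) (nat_lit 1) (nat_lit 4) (nat_lit 334) (nat_lit 230) (nat_lit 156)) (XT.nd (nat_lit 78) (nat_lit 0) (nat_lit 0) (XT.lf (nat_lit 0) (nat_lit 666216870323) (nat_lit 152) (nat_lit 757898375783) (nat_lit 0) (nat_lit 658741691900) (nat_lit 1) (nat_lit 5) (nat_lit 3) (nat_lit 4) (nat_lit 1) (nat_lit 4) (nat_lit 335) (nat_lit 230) (nat_lit 155)) (XT.lf (nat_lit 0) (nat_lit 721434051407) (nat_lit 152) (nat_lit 813887826275) (nat_lit 0) (nat_lit 713957143724) (nat_lit 1) (nat_lit 5) (nat_lit 3) (nat_lit 4) (nat_lit 1) (nat_lit 4) (nat_lit 336) (nat_lit 230) (nat_lit 154)))) (XT.nd (nat_lit 31356) (nat_lit 0) (nat_lit 1368) (XT.lf (nat_lit 0) (nat_lit 781067494531) (nat_lit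 152) (nat_lit 874358482422) (nat_lit 0) (nat_lit 773588985681) (nat_lit 1) (nat_lit 5) (nat_lit 3) (nat_lit 4) (nat_lit 1) (nat_lit 4) (nat_lit 337) (nat_lit 230) (nat_lit 153)) (XT.nd (nat_lit 78) (nat_lit 0) (nat_lit 0) (XT.lf (nat_lit 0) (nat_lit 926603987) (nat_lit 228) (nat_lit 2832671178) (nat_lit 0) (nat_lit 926603987) (nat_lit 19) (nat_lit 5) (nat_lit 22) (nat_lit 4) (nat_lit 19) (nat_lit 4) (nat_lit 258) (nat_lit 231) (nat_lit 231)) (XT.lf (nat_lit 0) (nat_lit 5267064969) (nat_lit 228) (nat_lit 108798880) (nat_lit 0) (nat_lit 4385641688) (nat_lit 19) (nat_lit 5) (nat_lit 22) (nat_lit 4) (nat_lit 19) (nat_lit 4) (nat_lit 259) (nat_lit 231) (nat_lit 230)))))) (XT.nd (nat_lit 468) (nat_lit 304) (nat_lit 0) (XT.nd (nat_lit 234) (nat_lit 304) (nat_lit 0) (XT.nd (nat_lit 78) (nat_lit 152) (nat_lit 0) (XT.lf (nat_lit 0) (nat_lit 5894092330) (nat_lit 152) (nat_lit 2996054173) (nat_lit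 152) (nat_lit 1298498223) (nat_lit 17) (nat_lit 4) (nat_lit 19) (nat_lit 5) (nat_lit 19) (nat_lit 4) (nat_lit 260) (nat_lit 231) (nat_lit 229)) (XT.nd (nat_lit 78) (nat_lit 0) (nat_lit 0) (XT.lf (nat_lit 0) (nat_lit 1457477265) (nat_lit 76) (nat_lit 422672547) (nat_lit 152) (nat_lit 8779827907) (nat_lit 15) (nat_lit 5) (nat_lit 16) (nat_lit 5) (nat_lit 17) (nat_lit 4) (nat_lit 261) (nat_lit 231) (nat_lit 228)) (XT.lf (nat_lit 0) (nat_lit 5222541419) (nat_lit 152) (nat_lit 3643128066) (nat_lit 0) (nat_lit 2303155711) (nat_lit 15) (nat_lit 5) (nat_lit 17) (nat_lit 4) (nat_lit 15) (nat_lit 4) (nat_lit 262) (nat_lit 231) (nat_lit 227)))) (XT.nd (nat_lit 78) (nat_lit 152) (nat_lit 0) (XT.lf (nat_lit 0) (nat_lit 2177502588) (nat_lit 152) (nat_lit 6535260005) (nat_lit 152) (nat_lit 3015992422) (nat_lit 13) (nat_lit 4) (nat_lit 15) (nat_lit 5) (nat_lit 15) (nat_lit 4) (nat_lit 263) (nat_lit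 231) (nat_lit 226)) (XT.nd (nat_lit 78) (nat_lit 76) (nat_lit 0) (XT.lf (nat_lit 0) (nat_lit 62239211) (nat_lit 228) (nat_lit 3945256203) (nat_lit 76) (nat_lit 8332715234) (nat_lit 12) (nat_lit 5) (nat_lit 15) (nat_lit 5) (nat_lit 13) (nat_lit 4) (nat_lit 264) (nat_lit 231) (nat_lit 225)) (XT.lf (nat_lit 0) (nat_lit 1860475465) (nat_lit 76) (nat_lit 1240241480) (nat_lit 152) (nat_lit 9904087119) (nat_lit 11) (nat_lit 5) (nat_lit 12) (nat_lit 5) (nat_lit 13) (nat_lit 4) (nat_lit 265) (nat_lit 231) (nat_lit 224))))) (XT.nd (nat_lit 234) (nat_lit 152) (nat_lit 0) (XT.nd (nat_lit 78) (nat_lit 152) (nat_lit 0) (XT.lf (nat_lit 0) (nat_lit 6371142863) (nat_lit 152) (nat_lit 5671784485) (nat_lit 0) (nat_lit 1681123090) (nat_lit 11) (nat_lit 5) (nat_lit 13) (nat_lit 4) (nat_lit 11) (nat_lit 4) (nat_lit 266) (nat_lit 231) (nat_lit 223)) (XT.nd (nat_lit 78) (nat_lit 152) (nat_lit 0) (XT.lf (nat_lit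 0) (nat_lit 9783702987) (nat_lit 152) (nat_lit 41830836) (nat_lit 0) (nat_lit 4685413690) (nat_lit 11) (nat_lit 5) (nat_lit 13) (nat_lit 4) (nat_lit 11) (nat_lit 4) (nat_lit 267) (nat_lit 231) (nat_lit 222)) (XT.lf (nat_lit 0) (nat_lit 6114599925) (nat_lit 152) (nat_lit 7361248409) (nat_lit 152) (nat_lit 1884931775) (nat_lit 9) (nat_lit 4) (nat_lit 11) (nat_lit 5) (nat_lit 11) (nat_lit 4) (nat_lit 268) (nat_lit 231) (nat_lit 221)))) (XT.nd (nat_lit 78) (nat_lit 76) (nat_lit 0) (XT.lf (nat_lit 0) (nat_lit 987248579) (nat_lit 228) (nat_lit 3772864900) (nat_lit 76) (nat_lit 11527703794) (nat_lit 8) (nat_lit 5) (nat_lit 11) (nat_lit 5) (nat_lit 9) (nat_lit 4) (nat_lit 269) (nat_lit 231) (nat_lit 220)) (XT.nd (nat_lit 78) (nat_lit 0) (nat_lit 0) (XT.lf (nat_lit 0) (nat_lit 1973487597) (nat_lit 76) (nat_lit 1932246563) (nat_lit 152) (nat_lit 13386302227) (nat_lit 7) (nat_lit 5) (nat_lit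 8) (nat_lit 5) (nat_lit 9) (nat_lit 4) (nat_lit 270) (nat_lit 231) (nat_lit 219)) (XT.lf (nat_lit 0) (nat_lit 7063916911) (nat_lit 152) (nat_lit 10221349471) (nat_lit 0) (nat_lit 1091204184) (nat_lit 7) (nat_lit 5) (nat_lit 9) (nat_lit 4) (nat_lit 7) (nat_lit 4) (nat_lit 271) (nat_lit 231) (nat_lit 218))))))) (XT.nd (nat_lit 936) (nat_lit 228) (nat_lit 0) (XT.nd (nat_lit 468) (nat_lit 76) (nat_lit 0) (XT.nd (nat_lit 234) (nat_lit 76) (nat_lit 0) (XT.nd (nat_lit 78) (nat_lit 76) (nat_lit 0) (XT.lf (nat_lit 0) (nat_lit 10407721764) (nat_lit 152) (nat_lit 4967917559) (nat_lit 0) (nat_lit 4177729983) (nat_lit 7) (nat_lit 5) (nat_lit 9) (nat_lit 4) (nat_lit 7) (nat_lit 4) (nat_lit 272) (nat_lit 231) (nat_lit 217)) (XT.nd (nat_lit 78) (nat_lit 0) (nat_lit 0) (XT.lf (nat_lit 0) (nat_lit 546696967) (nat_lit 76) (nat_lit 13376944390) (nat_lit 76) (nat_lit 6908731263) (nat_lit 6) (nat_lit 4)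 (nat_lit 7) (nat_lit 5) (nat_lit 7) (nat_lit 4) (nat_lit 273) (nat_lit 231) (nat_lit 216)) (XT.lf (nat_lit 0) (nat_lit 6603290593) (nat_lit 76) (nat_lit 11148507336) (nat_lit 76) (nat_lit 4459718888) (nat_lit 6) (nat_lit 4) (nat_lit 7) (nat_lit 5) (nat_lit 7) (nat_lit 4) (nat_lit 274) (nat_lit 231) (nat_lit 215)))) (XT.nd (nat_lit 78) (nat_lit 76) (nat_lit 0) (XT.lf (nat_lit 0) (nat_lit 12976152508) (nat_lit 76) (nat_lit 8812954278) (nat_lit 76) (nat_lit 1919929422) (nat_lit 6) (nat_lit 4) (nat_lit 7) (nat_lit 5) (nat_lit 7) (nat_lit 4) (nat_lit 275) (nat_lit 231) (nat_lit 214)) (XT.nd (nat_lit 78) (nat_lit 0) (nat_lit 0) (XT.lf (nat_lit 0) (nat_lit 689385900) (nat_lit 152) (nat_lit 5648209968) (nat_lit 76) (nat_lit 18994812887) (nat_lit 5) (nat_lit 5) (nat_lit 7) (nat_lit 5) (nat_lit 6) (nat_lit 4) (nat_lit 276) (nat_lit 231) (nat_lit 213)) (XT.lf (nat_lit 0) (nat_lit 3318085810)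 (nat_lit 152) (nat_lit 355613954) (nat_lit 76) (nat_lit 23415031455) (nat_lit 5) (nat_lit 5) (nat_lit 7) (nat_lit 5) (nat_lit 6) (nat_lit 4) (nat_lit 277) (nat_lit 231) (nat_lit 212))))) (XT.nd (nat_lit 234) (nat_lit 0) (nat_lit 0) (XT.nd (nat_lit 78) (nat_lit 0) (nat_lit 0) (XT.lf (nat_lit 0) (nat_lit 5497446773) (nat_lit 76) (nat_lit 712557390) (nat_lit 152) (nat_lit 22771524125) (nat_lit 4) (nat_lit 5) (nat_lit 5) (nat_lit 5) (nat_lit 6) (nat_lit 4) (nat_lit 278) (nat_lit 231) (nat_lit 211)) (XT.nd (nat_lit 78) (nat_lit 0) (nat_lit 0) (XT.lf (nat_lit 0) (nat_lit 9324985734) (nat_lit 152) (nat_lit 19385407859) (nat_lit 0) (nat_lit 2316206342) (nat_lit 4) (nat_lit 5) (nat_lit 6) (nat_lit 4) (nat_lit 4) (nat_lit 4) (nat_lit 279) (nat_lit 231) (nat_lit 210)) (XT.lf (nat_lit 0) (nat_lit 12635413001) (nat_lit 152) (nat_lit 15106408212) (nat_lit 0) (nat_lit 5497930028) (nat_lit 4) (nat_lit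 5) (nat_lit 6) (nat_lit 4) (nat_lit 4) (nat_lit 4) (nat_lit 280) (nat_lit 231) (nat_lit 209)))) (XT.nd (nat_lit 78) (nat_lit 0) (nat_lit 0) (XT.lf (nat_lit 0) (nat_lit 16143766286) (nat_lit 152) (nat_lit 10604588519) (nat_lit 0) (nat_lit 8887113331) (nat_lit 4) (nat_lit 5) (nat_lit 6) (nat_lit 4) (nat_lit 4) (nat_lit 4) (nat_lit 281) (nat_lit 231) (nat_lit 208)) (XT.nd (nat_lit 78) (nat_lit 0) (nat_lit 0) (XT.lf (nat_lit 0) (nat_lit 19870835833) (nat_lit 152) (nat_lit 5853271327) (nat_lit 0) (nat_lit 12503840301) (nat_lit 4) (nat_lit 5) (nat_lit 6) (nat_lit 4) (nat_lit 4) (nat_lit 4) (nat_lit 282) (nat_lit 231) (nat_lit 207)) (XT.lf (nat_lit 0) (nat_lit 23838707978) (nat_lit 152) (nat_lit 824300685) (nat_lit 0) (nat_lit 16369543395) (nat_lit 4) (nat_lit 5) (nat_lit 6) (nat_lit 4) (nat_lit 4) (nat_lit 4) (nat_lit 283) (nat_lit 231) (nat_lit 206)))))) (XT.nd (nat_lit 468) (nat_lit 152)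 (nat_lit 0) (XT.nd (nat_lit 234) (nat_lit 0) (nat_lit 0) (XT.nd (nat_lit 78) (nat_lit 0) (nat_lit 0) (XT.lf (nat_lit 0) (nat_lit 4749725207) (nat_lit 76) (nat_lit 23435401837) (nat_lit 76) (nat_lit 15871636280) (nat_lit 3) (nat_lit 4) (nat_lit 4) (nat_lit 5) (nat_lit 4) (nat_lit 4) (nat_lit 284) (nat_lit 231) (nat_lit 205)) (XT.nd (nat_lit 78) (nat_lit 0) (nat_lit 0) (XT.lf (nat_lit 0) (nat_lit 10724090581) (nat_lit 76) (nat_lit 22126303704) (nat_lit 76) (nat_lit 14474944651) (nat_lit 3) (nat_lit 4) (nat_lit 4) (nat_lit 5) (nat_lit 4) (nat_lit 4) (nat_lit 285) (nat_lit 231) (nat_lit 204)) (XT.lf (nat_lit 0) (nat_lit 17090792870) (nat_lit 76) (nat_lit 20750494485) (nat_lit 76) (nat_lit 13018030345) (nat_lit 3) (nat_lit 4) (nat_lit 4) (nat_lit 5) (nat_lit 4) (nat_lit 4) (nat_lit 286) (nat_lit 231) (nat_lit 203)))) (XT.nd (nat_lit 78) (nat_lit 0) (nat_lit 0) (XT.lf (nat_lit 0) (nat_lit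 23887560679) (nat_lit 76) (nat_lit 19299821239) (nat_lit 76) (nat_lit 11492259796) (nat_lit 3) (nat_lit 4) (nat_lit 4) (nat_lit 5) (nat_lit 4) (nat_lit 4) (nat_lit 287) (nat_lit 231) (nat_lit 202)) (XT.nd (nat_lit 78) (nat_lit 0) (nat_lit 0) (XT.lf (nat_lit 0) (nat_lit 31154671152) (nat_lit 76) (nat_lit 17765687382) (nat_lit 76) (nat_lit 9888591399) (nat_lit 3) (nat_lit 4) (nat_lit 4) (nat_lit 5) (nat_lit 4) (nat_lit 4) (nat_lit 288) (nat_lit 231) (nat_lit 201)) (XT.lf (nat_lit 0) (nat_lit 38935188647) (nat_lit 76) (nat_lit 16139001752) (nat_lit 76) (nat_lit 8197521935) (nat_lit 3) (nat_lit 4) (nat_lit 4) (nat_lit 5) (nat_lit 4) (nat_lit 4) (nat_lit 289) (nat_lit 231) (nat_lit 200))))) (XT.nd (nat_lit 234) (nat_lit 152) (nat_lit 0) (XT.nd (nat_lit 78) (nat_lit 0) (nat_lit 0) (XT.lf (nat_lit 0) (nat_lit 47275219934) (nat_lit 76) (nat_lit 14410124729) (nat_lit 76) (nat_lit 6409030252)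 (nat_lit 3) (nat_lit 4) (nat_lit 4) (nat_lit 5) (nat_lit 4) (nat_lit 4) (nat_lit 290) (nat_lit 231) (nat_lit 199)) (XT.nd (nat_lit 78) (nat_lit 0) (nat_lit 0) (XT.lf (nat_lit 0) (nat_lit 56224187421) (nat_lit 76) (nat_lit 12568811116) (nat_lit 76) (nat_lit 4512517879) (nat_lit 3) (nat_lit 4) (nat_lit 4) (nat_lit 5) (nat_lit 4) (nat_lit 4) (nat_lit 291) (nat_lit 231) (nat_lit 198)) (XT.lf (nat_lit 0) (nat_lit 65835122026) (nat_lit 76) (nat_lit 10604149426) (nat_lit 76) (nat_lit 2496746226) (nat_lit 3) (nat_lit 4) (nat_lit 4) (nat_lit 5) (nat_lit 4) (nat_lit 4) (nat_lit 292) (nat_lit 231) (nat_lit 197)))) (XT.nd (nat_lit 156) (nat_lit 76) (nat_lit 0) (XT.nd (nat_lit 78) (nat_lit 76) (nat_lit 0) (XT.lf (nat_lit 0) (nat_lit 76164977435) (nat_lit 76) (nat_lit 8504497219) (nat_lit 76) (nat_lit 349769979) (nat_lit 3) (nat_lit 4) (nat_lit 4) (nat_lit 5) (nat_lit 4) (nat_lit 4) (nat_lit 293)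 (nat_lit 231) (nat_lit 196)) (XT.lf (nat_lit 0) (nat_lit 1844030315) (nat_lit 152) (nat_lit 4362962739) (nat_lit 76) (nat_lit 85380518236) (nat_lit 2) (nat_lit 5) (nat_lit 4) (nat_lit 5) (nat_lit 3) (nat_lit 4) (nat_lit 294) (nat_lit 231) (nat_lit 195))) (XT.nd (nat_lit 78) (nat_lit 0) (nat_lit 0) (XT.lf (nat_lit 0) (nat_lit 457268305) (nat_lit 76) (nat_lit 3723686904) (nat_lit 152) (nat_lit 94500686596) (nat_lit 1) (nat_lit 5) (nat_lit 2) (nat_lit 5) (nat_lit 3) (nat_lit 4) (nat_lit 295) (nat_lit 231) (nat_lit 194)) (XT.lf (nat_lit 0) (nat_lit 5868194297) (nat_lit 76) (nat_lit 932228864) (nat_lit 152) (nat_lit 99535279420) (nat_lit 1) (nat_lit 5) (nat_lit 2) (nat_lit 5) (nat_lit 3) (nat_lit 4) (nat_lit 296) (nat_lit 231) (nat_lit 193))))))))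
noncomputable def xc34 : XT := (XT.nd (nat_lit 1872) (nat_lit 0) (nat_lit 0) (XT.nd (nat_lit 936) (nat_lit 0) (nat_lit 0) (XT.nd (nat_lit 468) (nat_lit 0) (nat_lit 0) (XT.nd (nat_lit 234) (nat_lit 0) (nat_lit 0) (XT.nd (nat_lit 78) (nat_lit 0) (nat_lit 0) (XT.lf (nat_lit 0) (nat_lit 9657156638) (nat_lit 152) (nat_lit 102981407746) (nat_lit 0) (nat_lit 1961350656) (nat_lit 1) (nat_lit 5) (nat_lit 3) (nat_lit 4) (nat_lit 1) (nat_lit 4) (nat_lit 297) (nat_lit 231) (nat_lit 192)) (XT.nd (nat_lit 78) (nat_lit 0) (nat_lit 0) (XT.lf (nat_lit 0) (nat_lit 12745922912) (nat_lit 152) (nat_lit 105758807547) (nat_lit 0) (nat_lit 5020294757) (nat_lit 1) (nat_lit 5) (nat_lit 3) (nat_lit 4) (nat_lit 1) (nat_lit 4) (nat_lit 298) (nat_lit 231) (nat_lit 191)) (XT.lf (nat_lit 0) (nat_lit 16062605655) (nat_lit 152) (nat_lit 108793746226) (nat_lit 0) (nat_lit 8309364377) (nat_lit 1) (nat_lit 5) (nat_lit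 3) (nat_lit 4) (nat_lit 1) (nat_lit 4) (nat_lit 299) (nat_lit 231) (nat_lit 190)))) (XT.nd (nat_lit 78) (nat_lit 0) (nat_lit 0) (XT.lf (nat_lit 0) (nat_lit 19626859283) (nat_lit 152) (nat_lit 112104208606) (nat_lit 0) (nat_lit 11848050300) (nat_lit 1) (nat_lit 5) (nat_lit 3) (nat_lit 4) (nat_lit 1) (nat_lit 4) (nat_lit 300) (nat_lit 231) (nat_lit 189)) (XT.nd (nat_lit 78) (nat_lit 0) (nat_lit 0) (XT.lf (nat_lit 0) (nat_lit 23459805301) (nat_lit 152) (nat_lit 115709812240) (nat_lit 0) (nat_lit 15657322516) (nat_lit 1) (nat_lit 5) (nat_lit 3) (nat_lit 4) (nat_lit 1) (nat_lit 4) (nat_lit 301) (nat_lit 231) (nat_lit 188)) (XT.lf (nat_lit 0) (nat_lit 27584157462) (nat_lit 152) (nat_lit 119631923668) (nat_lit 0) (nat_lit 19759754490) (nat_lit 1) (nat_lit 5) (nat_lit 3) (nat_lit 4) (nat_lit 1) (nat_lit 4) (nat_lit 302) (nat_lit 231) (nat_lit 187))))) (XT.nd (nat_lit 234) (nat_lit 0) (nat_lit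 0) (XT.nd (nat_lit 78) (nat_lit 0) (nat_lit 0) (XT.lf (nat_lit 0) (nat_lit 32024356372) (nat_lit 152) (nat_lit 123893785034) (nat_lit 0) (nat_lit 24179656930) (nat_lit 1) (nat_lit 5) (nat_lit 3) (nat_lit 4) (nat_lit 1) (nat_lit 4) (nat_lit 303) (nat_lit 231) (nat_lit 186)) (XT.nd (nat_lit 78) (nat_lit 0) (nat_lit 0) (XT.lf (nat_lit 0) (nat_lit 36806714319) (nat_lit 152) (nat_lit 128520651811) (nat_lit 0) (nat_lit 28943221850) (nat_lit 1) (nat_lit 5) (nat_lit 3) (nat_lit 4) (nat_lit 1) (nat_lit 4) (nat_lit 304) (nat_lit 231) (nat_lit 185)) (XT.lf (nat_lit 0) (nat_lit 41959571204) (nat_lit 152) (nat_lit 133539942469) (nat_lit 0) (nat_lit 34078677784) (nat_lit 1) (nat_lit 5) (nat_lit 3) (nat_lit 4) (nat_lit 1) (nat_lit 4) (nat_lit 305) (nat_lit 231) (nat_lit 184)))) (XT.nd (nat_lit 78) (nat_lit 0) (nat_lit 0) (XT.lf (nat_lit 0) (nat_lit 47513462475) (nat_lit 152) (nat_lit 138981400953)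 (nat_lit 0) (nat_lit 39616457063) (nat_lit 1) (nat_lit 5) (nat_lit 3) (nat_lit 4) (nat_lit 1) (nat_lit 4) (nat_lit 306) (nat_lit 231) (nat_lit 183)) (XT.nd (nat_lit 78) (nat_lit 0) (nat_lit 0) (XT.lf (nat_lit 0) (nat_lit 53501300079) (nat_lit 152) (nat_lit 144877272943) (nat_lit 0) (nat_lit 45589376156) (nat_lit 1) (nat_lit 5) (nat_lit 3) (nat_lit 4) (nat_lit 1) (nat_lit 4) (nat_lit 307) (nat_lit 231) (nat_lit 182)) (XT.lf (nat_lit 0) (nat_lit 59958567499) (nat_lit 152) (nat_lit 151262496940) (nat_lit 0) (nat_lit 52032830140) (nat_lit 1) (nat_lit 5) (nat_lit 3) (nat_lit 4) (nat_lit 1) (nat_lit 4) (nat_lit 308) (nat_lit 231) (nat_lit 181)))))) (XT.nd (nat_lit 468) (nat_lit 0) (nat_lit 0) (XT.nd (nat_lit 234) (nat_lit 0) (nat_lit 0) (XT.nd (nat_lit 78) (nat_lit 0) (nat_lit 0) (XT.lf (nat_lit 0) (nat_lit 66923530023) (nat_lit 152) (nat_lit 158174911307) (nat_lit 0) (nat_lit 58985002446)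 (nat_lit 1) (nat_lit 5) (nat_lit 3) (nat_lit 4) (nat_lit 1) (nat_lit 4) (nat_lit 309) (nat_lit 231) (nat_lit 180)) (XT.nd (nat_lit 78) (nat_lit 0) (nat_lit 0) (XT.lf (nat_lit 0) (nat_lit 74437461504) (nat_lit 152) (nat_lit 165655478501) (nat_lit 0) (nat_lit 66487091132) (nat_lit 1) (nat_lit 5) (nat_lit 3) (nat_lit 4) (nat_lit 1) (nat_lit 4) (nat_lit 310) (nat_lit 231) (nat_lit 179)) (XT.lf (nat_lit 0) (nat_lit 82544888942) (nat_lit 152) (nat_lit 173748527808) (nat_lit 0) (nat_lit 74583553019) (nat_lit 1) (nat_lit 5) (nat_lit 3) (nat_lit 4) (nat_lit 1) (nat_lit 4) (nat_lit 311) (nat_lit 231) (nat_lit 178)))) (XT.nd (nat_lit 78) (nat_lit 0) (nat_lit 0) (XT.lf (nat_lit 0) (nat_lit 91293856353) (nat_lit 152) (nat_lit 182502018039) (nat_lit 0) (nat_lit 83322367141) (nat_lit 1) (nat_lit 5) (nat_lit 3) (nat_lit 4) (nat_lit 1) (nat_lit 4) (nat_lit 312) (nat_lit 231) (nat_lit 177)) (XT.nd (nat_lit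 78) (nat_lit 0) (nat_lit 0) (XT.lf (nat_lit 0) (nat_lit 100736209468) (nat_lit 152) (nat_lit 191967821729) (nat_lit 0) (nat_lit 92755319064) (nat_lit 1) (nat_lit 5) (nat_lit 3) (nat_lit 4) (nat_lit 1) (nat_lit 4) (nat_lit 313) (nat_lit 231) (nat_lit 176)) (XT.lf (nat_lit 0) (nat_lit 110927902973) (nat_lit 152) (nat_lit 202202032530) (nat_lit 0) (nat_lit 102938307762) (nat_lit 1) (nat_lit 5) (nat_lit 3) (nat_lit 4) (nat_lit 1) (nat_lit 4) (nat_lit 314) (nat_lit 231) (nat_lit 175))))) (XT.nd (nat_lit 234) (nat_lit 0) (nat_lit 0) (XT.nd (nat_lit 78) (nat_lit 0) (nat_lit 0) (XT.lf (nat_lit 0) (nat_lit 121929332089) (nat_lit 152) (nat_lit 213265297616) (nat_lit 0) (nat_lit 113931676870) (nat_lit 1) (nat_lit 5) (nat_lit 3) (nat_lit 4) (nat_lit 1) (nat_lit 4) (nat_lit 315) (nat_lit 231) (nat_lit 174)) (XT.nd (nat_lit 78) (nat_lit 0) (nat_lit 0) (XT.lf (nat_lit 0) (nat_lit 133805690470) (nat_lit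 152) (nat_lit 225223177077) (nat_lit 0) (nat_lit 125800572282) (nat_lit 1) (nat_lit 5) (nat_lit 3) (nat_lit 4) (nat_lit 1) (nat_lit 4) (nat_lit 316) (nat_lit 231) (nat_lit 173)) (XT.lf (nat_lit 0) (nat_lit 146627356536) (nat_lit 152) (nat_lit 238146532421) (nat_lit 0) (nat_lit 138615328190) (nat_lit 1) (nat_lit 5) (nat_lit 3) (nat_lit 4) (nat_lit 1) (nat_lit 4) (nat_lit 317) (nat_lit 231) (nat_lit 172)))) (XT.nd (nat_lit 78) (nat_lit 0) (nat_lit 0) (XT.lf (nat_lit 0) (nat_lit 160470310529) (nat_lit 152) (nat_lit 252111946494) (nat_lit 0) (nat_lit 152451883890) (nat_lit 1) (nat_lit 5) (nat_lit 3) (nat_lit 4) (nat_lit 1) (nat_lit 4) (nat_lit 318) (nat_lit 231) (nat_lit 171)) (XT.nd (nat_lit 78) (nat_lit 0) (nat_lit 0) (XT.lf (nat_lit 0) (nat_lit 175416584771) (nat_lit 152) (nat_lit 267202177306) (nat_lit 0) (nat_lit 167392233786) (nat_lit 1) (nat_lit 5) (nat_lit 3) (nat_lit 4) (nat_lit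 1) (nat_lit 4) (nat_lit 319) (nat_lit 231) (nat_lit 170)) (XT.lf (nat_lit 0) (nat_lit 191554749776) (nat_lit 152) (nat_lit 283506648446) (nat_lit 0) (nat_lit 183524913285) (nat_lit 1) (nat_lit 5) (nat_lit 3) (nat_lit 4) (nat_lit 1) (nat_lit 4) (nat_lit 320) (nat_lit 231) (nat_lit 169))))))) (XT.nd (nat_lit 936) (nat_lit 0) (nat_lit 0) (XT.nd (nat_lit 468) (nat_lit 0) (nat_lit 0) (XT.nd (nat_lit 234) (nat_lit 0) (nat_lit 0) (XT.nd (nat_lit 78) (nat_lit 0) (nat_lit 0) (XT.lf (nat_lit 0) (nat_lit 208980439112) (nat_lit 152) (nat_lit 301121979003) (nat_lit 0) (nat_lit 200945523450) (nat_lit 1) (nat_lit 5) (nat_lit 3) (nat_lit 4) (nat_lit 1) (nat_lit 4) (nat_lit 321) (nat_lit 231) (nat_lit 168)) (XT.nd (nat_lit 78) (nat_lit 0) (nat_lit 0) (XT.lf (nat_lit 0) (nat_lit 227796916126) (nat_lit 152) (nat_lit 320152556121) (nat_lit 0) (nat_lit 219757297527) (nat_lit 1) (nat_lit 5) (nat_lit 3)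 (nat_lit 4) (nat_lit 1) (nat_lit 4) (nat_lit 322) (nat_lit 231) (nat_lit 167)) (XT.lf (nat_lit 0) (nat_lit 248115685865) (nat_lit 152) (nat_lit 340711153591) (nat_lit 0) (nat_lit 240071712695) (nat_lit 1) (nat_lit 5) (nat_lit 3) (nat_lit 4) (nat_lit 1) (nat_lit 4) (nat_lit 323) (nat_lit 231) (nat_lit 166)))) (XT.nd (nat_lit 78) (nat_lit 0) (nat_lit 0) (XT.lf (nat_lit 0) (nat_lit 270057155855) (nat_lit 152) (nat_lit 362919600137) (nat_lit 0) (nat_lit 262009150674) (nat_lit 1) (nat_lit 5) (nat_lit 3) (nat_lit 4) (nat_lit 1) (nat_lit 4) (nat_lit 324) (nat_lit 231) (nat_lit 165)) (XT.nd (nat_lit 78) (nat_lit 0) (nat_lit 0) (XT.lf (nat_lit 0) (nat_lit 293751349620) (nat_lit 152) (nat_lit 386909501369) (nat_lit 0) (nat_lit 285699611097) (nat_lit 1) (nat_lit 5) (nat_lit 3) (nat_lit 4) (nat_lit 1) (nat_lit 4) (nat_lit 325) (nat_lit 231) (nat_lit 164)) (XT.lf (nat_lit 0) (nat_lit 319338677199)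 (nat_lit 152) (nat_lit 412823019666) (nat_lit 0) (nat_lit 311283481876) (nat_lit 1) (nat_lit 5) (nat_lit 3) (nat_lit 4) (nat_lit 1) (nat_lit 4) (nat_lit 326) (nat_lit 231) (nat_lit 163))))) (XT.nd (nat_lit 234) (nat_lit 0) (nat_lit 0) (XT.nd (nat_lit 78) (nat_lit 0) (nat_lit 0) (XT.lf (nat_lit 0) (nat_lit 346970767198) (nat_lit 152) (nat_lit 440813716615) (nat_lit 0) (nat_lit 338912371136) (nat_lit 1) (nat_lit 5) (nat_lit 3) (nat_lit 4) (nat_lit 1) (nat_lit 4) (nat_lit 327) (nat_lit 231) (nat_lit 162)) (XT.nd (nat_lit 78) (nat_lit 0) (nat_lit 0) (XT.lf (nat_lit 0) (nat_lit 376811365337) (nat_lit 152) (nat_lit 471047463016) (nat_lit 0) (nat_lit 368750005627) (nat_lit 1) (nat_lit 5) (nat_lit 3) (nat_lit 4) (nat_lit 1) (nat_lit 4) (nat_lit 328) (nat_lit 231) (nat_lit 161)) (XT.lf (nat_lit 0) (nat_lit 409037304790) (nat_lit 152) (nat_lit 503703421808) (nat_lit 0) (nat_lit 400973200961)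 (nat_lit 1) (nat_lit 5) (nat_lit 3) (nat_lit 4) (nat_lit 1) (nat_lit 4) (nat_lit 329) (nat_lit 231) (nat_lit 160)))) (XT.nd (nat_lit 78) (nat_lit 0) (nat_lit 0) (XT.lf (nat_lit 0) (nat_lit 443839554087) (nat_lit 152) (nat_lit 538975109786) (nat_lit 0) (nat_lit 435772909408) (nat_lit 1) (nat_lit 5) (nat_lit 3) (nat_lit 4) (nat_lit 1) (nat_lit 4) (nat_lit 330) (nat_lit 231) (nat_lit 159)) (XT.nd (nat_lit 78) (nat_lit 0) (nat_lit 0) (XT.lf (nat_lit 0) (nat_lit 481424348778) (nat_lit 152) (nat_lit 577071544358) (nat_lit 0) (nat_lit 473355351460) (nat_lit 1) (nat_lit 5) (nat_lit 3) (nat_lit 4) (nat_lit 1) (nat_lit 4) (nat_lit 331) (nat_lit 231) (nat_lit 158)) (XT.lf (nat_lit 0) (nat_lit 522014413575) (nat_lit 152) (nat_lit 618218482175) (nat_lit 0) (nat_lit 513943237887) (nat_lit 1) (nat_lit 5) (nat_lit 3) (nat_lit 4) (nat_lit 1) (nat_lit 4) (nat_lit 332) (nat_lit 231) (nat_lit 157))))))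 (XT.nd (nat_lit 31590) (nat_lit 0) (nat_lit 1064) (XT.nd (nat_lit 234) (nat_lit 0) (nat_lit 0) (XT.nd (nat_lit 78) (nat_lit 0) (nat_lit 0) (XT.lf (nat_lit 0) (nat_lit 565850282192) (nat_lit 152) (nat_lit 662659756943) (nat_lit 0) (nat_lit 557777089495) (nat_lit 1) (nat_lit 5) (nat_lit 3) (nat_lit 4) (nat_lit 1) (nat_lit 4) (nat_lit 333) (nat_lit 231) (nat_lit 156)) (XT.nd (nat_lit 78) (nat_lit 0) (nat_lit 0) (XT.lf (nat_lit 0) (nat_lit 613191722742) (nat_lit 152) (nat_lit 710658724362) (nat_lit 0) (nat_lit 605116662445) (nat_lit 1) (nat_lit 5) (nat_lit 3) (nat_lit 4) (nat_lit 1) (nat_lit 4) (nat_lit 334) (nat_lit 231) (nat_lit 155)) (XT.lf (nat_lit 0) (nat_lit 664319277094) (nat_lit 152) (nat_lit 762499822759) (nat_lit 0) (nat_lit 656242487536) (nat_lit 1) (nat_lit 5) (nat_lit 3) (nat_lit 4) (nat_lit 1) (nat_lit 4) (nat_lit 335) (nat_lit 231) (nat_lit 154)))) (XT.nd (nat_lit 78) (nat_lit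 0) (nat_lit 0) (XT.lf (nat_lit 0) (nat_lit 719535923348) (nat_lit 152) (nat_lit 818490258644) (nat_lit 0) (nat_lit 711457532624) (nat_lit 1) (nat_lit 5) (nat_lit 3) (nat_lit 4) (nat_lit 1) (nat_lit 4) (nat_lit 336) (nat_lit 231) (nat_lit 153)) (XT.nd (nat_lit 31200) (nat_lit 0) (nat_lit 1596) (XT.lf (nat_lit 0) (nat_lit 779168871260) (nat_lit 152) (nat_lit 878961827190) (nat_lit 0) (nat_lit 771088997973) (nat_lit 1) (nat_lit 5) (nat_lit 3) (nat_lit 4) (nat_lit 1) (nat_lit 4) (nat_lit 337) (nat_lit 231) (nat_lit 152)) (XT.lf (nat_lit 0) (nat_lit 655415781) (nat_lit 228) (nat_lit 1844822825) (nat_lit 228) (nat_lit 1844822825) (nat_lit 22) (nat_lit 4) (nat_lit 25) (nat_lit 5) (nat_lit 25) (nat_lit 4) (nat_lit 256) (nat_lit 232) (nat_lit 232))))) (XT.nd (nat_lit 234) (nat_lit 304) (nat_lit 0) (XT.nd (nat_lit 78) (nat_lit 228) (nat_lit 0) (XT.lf (nat_lit 0) (nat_lit 6997990465) (nat_lit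 228) (nat_lit 1525221010) (nat_lit 228) (nat_lit 497128895) (nat_lit 22) (nat_lit 4) (nat_lit 25) (nat_lit 5) (nat_lit 25) (nat_lit 4) (nat_lit 257) (nat_lit 232) (nat_lit 231)) (XT.nd (nat_lit 78) (nat_lit 0) (nat_lit 0) (XT.lf (nat_lit 0) (nat_lit 2698372016) (nat_lit 228) (nat_lit 5817488455) (nat_lit 0) (nat_lit 865011591) (nat_lit 19) (nat_lit 5) (nat_lit 22) (nat_lit 4) (nat_lit 19) (nat_lit 4) (nat_lit 258) (nat_lit 232) (nat_lit 230)) (XT.lf (nat_lit 0) (nat_lit 6013365029) (nat_lit 228) (nat_lit 401820994) (nat_lit 0) (nat_lit 3363871936) (nat_lit 19) (nat_lit 5) (nat_lit 22) (nat_lit 4) (nat_lit 19) (nat_lit 4) (nat_lit 259) (nat_lit 232) (nat_lit 229)))) (XT.nd (nat_lit 78) (nat_lit 152) (nat_lit 0) (XT.lf (nat_lit 0) (nat_lit 5448330655) (nat_lit 152) (nat_lit 4085854604) (nat_lit 152) (nat_lit 680683114) (nat_lit 17) (nat_lit 4) (nat_lit 19) (nat_lit 5) (nat_lit 19) (nat_lit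 4) (nat_lit 260) (nat_lit 232) (nat_lit 228)) (XT.nd (nat_lit 78) (nat_lit 0) (nat_lit 0) (XT.lf (nat_lit 0) (nat_lit 805703120) (nat_lit 76) (nat_lit 1555151123) (nat_lit 152) (nat_lit 8333075220) (nat_lit 15) (nat_lit 5) (nat_lit 16) (nat_lit 5) (nat_lit 17) (nat_lit 4) (nat_lit 261) (nat_lit 232) (nat_lit 227)) (XT.lf (nat_lit 0) (nat_lit 5588072570) (nat_lit 152) (nat_lit 4436925759) (nat_lit 0) (nat_lit 1187381706) (nat_lit 15) (nat_lit 5) (nat_lit 17) (nat_lit 4) (nat_lit 15) (nat_lit 4) (nat_lit 262) (nat_lit 232) (nat_lit 226))))))))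
noncomputable def xc35 : XT := (XT.nd (nat_lit 1872) (nat_lit 152) (nat_lit 0) (XT.nd (nat_lit 936) (nat_lit 228) (nat_lit 0) (XT.nd (nat_lit 468) (nat_lit 228) (nat_lit 0) (XT.nd (nat_lit 234) (nat_lit 152) (nat_lit 0) (XT.nd (nat_lit 78) (nat_lit 152) (nat_lit 0) (XT.lf (nat_lit 0) (nat_lit 1210022492) (nat_lit 152) (nat_lit 7763580051) (nat_lit 152) (nat_lit 2807443007) (nat_lit 13) (nat_lit 4) (nat_lit 15) (nat_lit 5) (nat_lit 15) (nat_lit 4) (nat_lit 263) (nat_lit 232) (nat_lit 225)) (XT.nd (nat_lit 78) (nat_lit 76) (nat_lit 0) (XT.lf (nat_lit 0) (nat_lit 179675859) (nat_lit 228) (nat_lit 5096713274) (nat_lit 76) (nat_lit 7122474209) (nat_lit 12) (nat_lit 5) (nat_lit 15) (nat_lit 5) (nat_lit 13) (nat_lit 4) (nat_lit 264) (nat_lit 232) (nat_lit 224)) (XT.lf (nat_lit 0) (nat_lit 524920741) (nat_lit 76) (nat_lit 2586408766) (nat_lit 152) (nat_lit 9960959274) (nat_lit 11) (nat_lit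 5) (nat_lit 12) (nat_lit 5) (nat_lit 13) (nat_lit 4) (nat_lit 265) (nat_lit 232) (nat_lit 223)))) (XT.nd (nat_lit 78) (nat_lit 152) (nat_lit 0) (XT.lf (nat_lit 0) (nat_lit 6276440680) (nat_lit 152) (nat_lit 7161765845) (nat_lit 0) (nat_lit 362018715) (nat_lit 11) (nat_lit 5) (nat_lit 13) (nat_lit 4) (nat_lit 11) (nat_lit 4) (nat_lit 266) (nat_lit 232) (nat_lit 222)) (XT.nd (nat_lit 78) (nat_lit 152) (nat_lit 0) (XT.lf (nat_lit 0) (nat_lit 9621464332) (nat_lit 152) (nat_lit 1642291153) (nat_lit 0) (nat_lit 3329015030) (nat_lit 11) (nat_lit 5) (nat_lit 13) (nat_lit 4) (nat_lit 11) (nat_lit 4) (nat_lit 267) (nat_lit 232) (nat_lit 221)) (XT.lf (nat_lit 0) (nat_lit 4322180182) (nat_lit 152) (nat_lit 8885787989) (nat_lit 152) (nat_lit 2243313375) (nat_lit 9) (nat_lit 4) (nat_lit 11) (nat_lit 5) (nat_lit 11) (nat_lit 4) (nat_lit 268) (nat_lit 232) (nat_lit 220))))) (XT.nd (nat_lit 234) (nat_lit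 76) (nat_lit 0) (XT.nd (nat_lit 78) (nat_lit 76) (nat_lit 0) (XT.lf (nat_lit 0) (nat_lit 584729125) (nat_lit 228) (nat_lit 5750335544) (nat_lit 76) (nat_lit 10049103525) (nat_lit 8) (nat_lit 5) (nat_lit 11) (nat_lit 5) (nat_lit 9) (nat_lit 4) (nat_lit 269) (nat_lit 232) (nat_lit 219)) (XT.nd (nat_lit 78) (nat_lit 76) (nat_lit 0) (XT.lf (nat_lit 0) (nat_lit 3398284177) (nat_lit 228) (nat_lit 198231325) (nat_lit 76) (nat_lit 13800446538) (nat_lit 8) (nat_lit 5) (nat_lit 11) (nat_lit 5) (nat_lit 9) (nat_lit 4) (nat_lit 270) (nat_lit 232) (nat_lit 218)) (XT.lf (nat_lit 0) (nat_lit 5909691074) (nat_lit 76) (nat_lit 558681457) (nat_lit 152) (nat_lit 12020238174) (nat_lit 7) (nat_lit 5) (nat_lit 8) (nat_lit 5) (nat_lit 9) (nat_lit 4) (nat_lit 271) (nat_lit 232) (nat_lit 217)))) (XT.nd (nat_lit 78) (nat_lit 76) (nat_lit 0) (XT.lf (nat_lit 0) (nat_lit 9746559484) (nat_lit 152) (nat_lit 7401686001)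 (nat_lit 0) (nat_lit 2522667961) (nat_lit 7) (nat_lit 5) (nat_lit 9) (nat_lit 4) (nat_lit 7) (nat_lit 4) (nat_lit 272) (nat_lit 232) (nat_lit 216)) (XT.nd (nat_lit 78) (nat_lit 76) (nat_lit 0) (XT.lf (nat_lit 0) (nat_lit 13201014709) (nat_lit 152) (nat_lit 1997414456) (nat_lit 0) (nat_lit 5756547865) (nat_lit 7) (nat_lit 5) (nat_lit 9) (nat_lit 4) (nat_lit 7) (nat_lit 4) (nat_lit 273) (nat_lit 232) (nat_lit 215)) (XT.lf (nat_lit 0) (nat_lit 3873105016) (nat_lit 76) (nat_lit 13058816001) (nat_lit 76) (nat_lit 5410112749) (nat_lit 6) (nat_lit 4) (nat_lit 7) (nat_lit 5) (nat_lit 7) (nat_lit 4) (nat_lit 274) (nat_lit 232) (nat_lit 214)))))) (XT.nd (nat_lit 468) (nat_lit 76) (nat_lit 0) (XT.nd (nat_lit 234) (nat_lit 76) (nat_lit 0) (XT.nd (nat_lit 78) (nat_lit 76) (nat_lit 0) (XT.lf (nat_lit 0) (nat_lit 10171065222) (nat_lit 76) (nat_lit 10754939830) (nat_lit 76) (nat_lit 2917128793) (nat_lit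 6) (nat_lit 4) (nat_lit 7) (nat_lit 5) (nat_lit 7) (nat_lit 4) (nat_lit 275) (nat_lit 232) (nat_lit 213)) (XT.nd (nat_lit 78) (nat_lit 76) (nat_lit 0) (XT.lf (nat_lit 0) (nat_lit 16828607098) (nat_lit 76) (nat_lit 8327760904) (nat_lit 76) (nat_lit 314850066) (nat_lit 6) (nat_lit 4) (nat_lit 7) (nat_lit 5) (nat_lit 7) (nat_lit 4) (nat_lit 276) (nat_lit 232) (nat_lit 212)) (XT.lf (nat_lit 0) (nat_lit 2291479112) (nat_lit 152) (nat_lit 3408763728) (nat_lit 76) (nat_lit 21531050535) (nat_lit 5) (nat_lit 5) (nat_lit 7) (nat_lit 5) (nat_lit 6) (nat_lit 4) (nat_lit 277) (nat_lit 232) (nat_lit 211)))) (XT.nd (nat_lit 78) (nat_lit 0) (nat_lit 0) (XT.lf (nat_lit 0) (nat_lit 2218881631) (nat_lit 76) (nat_lit 2850369220) (nat_lit 152) (nat_lit 24064061511) (nat_lit 4) (nat_lit 5) (nat_lit 5) (nat_lit 5) (nat_lit 6) (nat_lit 4) (nat_lit 278) (nat_lit 232) (nat_lit 210)) (XT.nd (nat_lit 78) (nat_lit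 0) (nat_lit 0) (XT.lf (nat_lit 0) (nat_lit 8098077220) (nat_lit 152) (nat_lit 22826390687) (nat_lit 0) (nat_lit 260892028) (nat_lit 4) (nat_lit 5) (nat_lit 6) (nat_lit 4) (nat_lit 4) (nat_lit 4) (nat_lit 279) (nat_lit 232) (nat_lit 209)) (XT.lf (nat_lit 0) (nat_lit 11376337101) (nat_lit 152) (nat_lit 18604842927) (nat_lit 0) (nat_lit 3419981927) (nat_lit 4) (nat_lit 5) (nat_lit 6) (nat_lit 4) (nat_lit 4) (nat_lit 4) (nat_lit 280) (nat_lit 232) (nat_lit 208))))) (XT.nd (nat_lit 234) (nat_lit 76) (nat_lit 0) (XT.nd (nat_lit 78) (nat_lit 0) (nat_lit 0) (XT.lf (nat_lit 0) (nat_lit 14854905770) (nat_lit 152) (nat_lit 14156219425) (nat_lit 0) (nat_lit 6788208020) (nat_lit 4) (nat_lit 5) (nat_lit 6) (nat_lit 4) (nat_lit 4) (nat_lit 4) (nat_lit 281) (nat_lit 232) (nat_lit 207)) (XT.nd (nat_lit 78) (nat_lit 0) (nat_lit 0) (XT.lf (nat_lit 0) (nat_lit 18554396968) (nat_lit 152) (nat_lit 9454157966)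 (nat_lit 0) (nat_lit 10385530166) (nat_lit 4) (nat_lit 5) (nat_lit 6) (nat_lit 4) (nat_lit 4) (nat_lit 4) (nat_lit 282) (nat_lit 232) (nat_lit 206)) (XT.lf (nat_lit 0) (nat_lit 22496733606) (nat_lit 152) (nat_lit 4470794484) (nat_lit 0) (nat_lit 14233265829) (nat_lit 4) (nat_lit 5) (nat_lit 6) (nat_lit 4) (nat_lit 4) (nat_lit 4) (nat_lit 283) (nat_lit 232) (nat_lit 205)))) (XT.nd (nat_lit 78) (nat_lit 0) (nat_lit 0) (XT.lf (nat_lit 0) (nat_lit 866760958) (nat_lit 76) (nat_lit 25859362341) (nat_lit 76) (nat_lit 17508301070) (nat_lit 3) (nat_lit 4) (nat_lit 4) (nat_lit 5) (nat_lit 4) (nat_lit 4) (nat_lit 284) (nat_lit 232) (nat_lit 204)) (XT.nd (nat_lit 78) (nat_lit 0) (nat_lit 0) (XT.lf (nat_lit 0) (nat_lit 6799966566) (nat_lit 76) (nat_lit 24568541499) (nat_lit 76) (nat_lit 16136375140) (nat_lit 3) (nat_lit 4) (nat_lit 4) (nat_lit 5) (nat_lit 4) (nat_lit 4) (nat_lit 285) (nat_lit 232)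 (nat_lit 203)) (XT.lf (nat_lit 0) (nat_lit 13128557959) (nat_lit 76) (nat_lit 23209655698) (nat_lit 76) (nat_lit 14702392036) (nat_lit 3) (nat_lit 4) (nat_lit 4) (nat_lit 5) (nat_lit 4) (nat_lit 4) (nat_lit 286) (nat_lit 232) (nat_lit 202))))))) (XT.nd (nat_lit 936) (nat_lit 0) (nat_lit 0) (XT.nd (nat_lit 468) (nat_lit 152) (nat_lit 0) (XT.nd (nat_lit 234) (nat_lit 0) (nat_lit 0) (XT.nd (nat_lit 78) (nat_lit 0) (nat_lit 0) (XT.lf (nat_lit 0) (nat_lit 19890037903) (nat_lit 76) (nat_lit 21774652283) (nat_lit 76) (nat_lit 13197854081) (nat_lit 3) (nat_lit 4) (nat_lit 4) (nat_lit 5) (nat_lit 4) (nat_lit 4) (nat_lit 287) (nat_lit 232) (nat_lit 201)) (XT.nd (nat_lit 78) (nat_lit 0) (nat_lit 0) (XT.lf (nat_lit 0) (nat_lit 27124474426) (nat_lit 76) (nat_lit 20255027530) (nat_lit 76) (nat_lit 11613845495) (nat_lit 3) (nat_lit 4) (nat_lit 4) (nat_lit 5) (nat_lit 4) (nat_lit 4) (nat_lit 288)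 (nat_lit 232) (nat_lit 200)) (XT.lf (nat_lit 0) (nat_lit 34874738263) (nat_lit 76) (nat_lit 18641776254) (nat_lit 76) (nat_lit 9940979558) (nat_lit 3) (nat_lit 4) (nat_lit 4) (nat_lit 5) (nat_lit 4) (nat_lit 4) (nat_lit 289) (nat_lit 232) (nat_lit 199)))) (XT.nd (nat_lit 78) (nat_lit 0) (nat_lit 0) (XT.lf (nat_lit 0) (nat_lit 43186756904) (nat_lit 76) (nat_lit 16925338449) (nat_lit 76) (nat_lit 8169342993) (nat_lit 3) (nat_lit 4) (nat_lit 4) (nat_lit 5) (nat_lit 4) (nat_lit 4) (nat_lit 290) (nat_lit 232) (nat_lit 198)) (XT.nd (nat_lit 78) (nat_lit 0) (nat_lit 0) (XT.lf (nat_lit 0) (nat_lit 52109786756) (nat_lit 76) (nat_lit 15095542630) (nat_lit 76) (nat_lit 6288437212) (nat_lit 3) (nat_lit 4) (nat_lit 4) (nat_lit 5) (nat_lit 4) (nat_lit 4) (nat_lit 291) (nat_lit 232) (nat_lit 197)) (XT.lf (nat_lit 0) (nat_lit 61696705032) (nat_lit 76) (nat_lit 13141545564) (nat_lit 76) (nat_lit 4287116106)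 (nat_lit 3) (nat_lit 4) (nat_lit 4) (nat_lit 5) (nat_lit 4) (nat_lit 4) (nat_lit 292) (nat_lit 232) (nat_lit 196))))) (XT.nd (nat_lit 234) (nat_lit 76) (nat_lit 0) (XT.nd (nat_lit 78) (nat_lit 76) (nat_lit 0) (XT.lf (nat_lit 0) (nat_lit 72004323100) (nat_lit 76) (nat_lit 11051768008) (nat_lit 76) (nat_lit 2153519995) (nat_lit 3) (nat_lit 4) (nat_lit 4) (nat_lit 5) (nat_lit 4) (nat_lit 4) (nat_lit 293) (nat_lit 232) (nat_lit 195)) (XT.nd (nat_lit 78) (nat_lit 0) (nat_lit 0) (XT.lf (nat_lit 0) (nat_lit 118741913) (nat_lit 152) (nat_lit 8691837568) (nat_lit 76) (nat_lit 82971734614) (nat_lit 2) (nat_lit 5) (nat_lit 4) (nat_lit 5) (nat_lit 3) (nat_lit 4) (nat_lit 294) (nat_lit 232) (nat_lit 194)) (XT.lf (nat_lit 0) (nat_lit 2433772025) (nat_lit 152) (nat_lit 3914142284) (nat_lit 76) (nat_lit 92530304454) (nat_lit 2) (nat_lit 5) (nat_lit 4) (nat_lit 5) (nat_lit 3) (nat_lit 4) (nat_lit 295)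 (nat_lit 232) (nat_lit 193)))) (XT.nd (nat_lit 78) (nat_lit 0) (nat_lit 0) (XT.lf (nat_lit 0) (nat_lit 1271508320) (nat_lit 76) (nat_lit 3672088314) (nat_lit 152) (nat_lit 101597475271) (nat_lit 1) (nat_lit 5) (nat_lit 2) (nat_lit 5) (nat_lit 3) (nat_lit 4) (nat_lit 296) (nat_lit 232) (nat_lit 192)) (XT.nd (nat_lit 78) (nat_lit 0) (nat_lit 0) (XT.lf (nat_lit 0) (nat_lit 7057704054) (nat_lit 76) (nat_lit 683202041) (nat_lit 152) (nat_lit 107069151541) (nat_lit 1) (nat_lit 5) (nat_lit 2) (nat_lit 5) (nat_lit 3) (nat_lit 4) (nat_lit 297) (nat_lit 232) (nat_lit 191)) (XT.lf (nat_lit 0) (nat_lit 10804017867) (nat_lit 152) (nat_lit 110530316057) (nat_lit 0) (nat_lit 2402904165) (nat_lit 1) (nat_lit 5) (nat_lit 3) (nat_lit 4) (nat_lit 1) (nat_lit 4) (nat_lit 298) (nat_lit 232) (nat_lit 190)))))) (XT.nd (nat_lit 468) (nat_lit 0) (nat_lit 0) (XT.nd (nat_lit 234) (nat_lit 0) (nat_lit 0) (XT.nd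 (nat_lit 78) (nat_lit 0) (nat_lit 0) (XT.lf (nat_lit 0) (nat_lit 14112160353) (nat_lit 152) (nat_lit 113580989642) (nat_lit 0) (nat_lit 5685478945) (nat_lit 1) (nat_lit 5) (nat_lit 3) (nat_lit 4) (nat_lit 1) (nat_lit 4) (nat_lit 299) (nat_lit 232) (nat_lit 189)) (XT.nd (nat_lit 78) (nat_lit 0) (nat_lit 0) (XT.lf (nat_lit 0) (nat_lit 17668506337) (nat_lit 152) (nat_lit 116906021380) (nat_lit 0) (nat_lit 9218151127) (nat_lit 1) (nat_lit 5) (nat_lit 3) (nat_lit 4) (nat_lit 1) (nat_lit 4) (nat_lit 300) (nat_lit 232) (nat_lit 188)) (XT.lf (nat_lit 0) (nat_lit 21494130461) (nat_lit 152) (nat_lit 120525115160) (nat_lit 0) (nat_lit 13021855064) (nat_lit 1) (nat_lit 5) (nat_lit 3) (nat_lit 4) (nat_lit 1) (nat_lit 4) (nat_lit 301) (nat_lit 232) (nat_lit 187)))) (XT.nd (nat_lit 78) (nat_lit 0) (nat_lit 0) (XT.lf (nat_lit 0) (nat_lit 25611703091) (nat_lit 152) (nat_lit 124459717465) (nat_lit 0)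 (nat_lit 17119131225) (nat_lit 1) (nat_lit 5) (nat_lit 3) (nat_lit 4) (nat_lit 1) (nat_lit 4) (nat_lit 302) (nat_lit 232) (nat_lit 186)) (XT.nd (nat_lit 78) (nat_lit 0) (nat_lit 0) (XT.lf (nat_lit 0) (nat_lit 30045624657) (nat_lit 152) (nat_lit 128733144456) (nat_lit 0) (nat_lit 21534259764) (nat_lit 1) (nat_lit 5) (nat_lit 3) (nat_lit 4) (nat_lit 1) (nat_lit 4) (nat_lit 303) (nat_lit 232) (nat_lit 185)) (XT.lf (nat_lit 0) (nat_lit 34822170250) (nat_lit 152) (nat_lit 133370720146) (nat_lit 0) (nat_lit 26293404405) (nat_lit 1) (nat_lit 5) (nat_lit 3) (nat_lit 4) (nat_lit 1) (nat_lit 4) (nat_lit 304) (nat_lit 232) (nat_lit 184))))) (XT.nd (nat_lit 234) (nat_lit 0) (nat_lit 0) (XT.nd (nat_lit 78) (nat_lit 0) (nat_lit 0) (XT.lf (nat_lit 0) (nat_lit 39969645325) (nat_lit 152) (nat_lit 138399926465) (nat_lit 0) (nat_lit 31424767488) (nat_lit 1) (nat_lit 5) (nat_lit 3) (nat_lit 4) (nat_lit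 1) (nat_lit 4) (nat_lit 305) (nat_lit 232) (nat_lit 183)) (XT.nd (nat_lit 78) (nat_lit 0) (nat_lit 0) (XT.lf (nat_lit 0) (nat_lit 45518553437) (nat_lit 152) (nat_lit 143850566116) (nat_lit 0) (nat_lit 36958757090) (nat_lit 1) (nat_lit 5) (nat_lit 3) (nat_lit 4) (nat_lit 1) (nat_lit 4) (nat_lit 306) (nat_lit 232) (nat_lit 182)) (XT.lf (nat_lit 0) (nat_lit 51501777007) (nat_lit 152) (nat_lit 149754939186) (nat_lit 0) (nat_lit 42928167223) (nat_lit 1) (nat_lit 5) (nat_lit 3) (nat_lit 4) (nat_lit 1) (nat_lit 4) (nat_lit 307) (nat_lit 232) (nat_lit 181)))) (XT.nd (nat_lit 156) (nat_lit 0) (nat_lit 0) (XT.nd (nat_lit 78) (nat_lit 0) (nat_lit 0) (XT.lf (nat_lit 0) (nat_lit 57954772172) (nat_lit 152) (nat_lit 156148034553) (nat_lit 0) (nat_lit 49368372170) (nat_lit 1) (nat_lit 5) (nat_lit 3) (nat_lit 4) (nat_lit 1) (nat_lit 4) (nat_lit 308) (nat_lit 232) (nat_lit 180)) (XT.lf (nat_lit 0) (nat_lit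 64915778906) (nat_lit 152) (nat_lit 163067737227) (nat_lit 0) (nat_lit 56317536109) (nat_lit 1) (nat_lit 5) (nat_lit 3) (nat_lit 4) (nat_lit 1) (nat_lit 4) (nat_lit 309) (nat_lit 232) (nat_lit 179))) (XT.nd (nat_lit 78) (nat_lit 0) (nat_lit 0) (XT.lf (nat_lit 0) (nat_lit 72426047617) (nat_lit 152) (nat_lit 170555052852) (nat_lit 0) (nat_lit 63816839269) (nat_lit 1) (nat_lit 5) (nat_lit 3) (nat_lit 4) (nat_lit 1) (nat_lit 4) (nat_lit 310) (nat_lit 232) (nat_lit 178)) (XT.lf (nat_lit 0) (nat_lit 80530083602) (nat_lit 152) (nat_lit 178654350707) (nat_lit 0) (nat_lit 71910721966) (nat_lit 1) (nat_lit 5) (nat_lit 3) (nat_lit 4) (nat_lit 1) (nat_lit 4) (nat_lit 311) (nat_lit 232) (nat_lit 177))))))))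
noncomputable def xc36 : XT := (XT.nd (nat_lit 1872) (nat_lit 0) (nat_lit 0) (XT.nd (nat_lit 936) (nat_lit 0) (nat_lit 0) (XT.nd (nat_lit 468) (nat_lit 0) (nat_lit 0) (XT.nd (nat_lit 234) (nat_lit 0) (nat_lit 0) (XT.nd (nat_lit 78) (nat_lit 0) (nat_lit 0) (XT.lf (nat_lit 0) (nat_lit 89275910777) (nat_lit 152) (nat_lit 187413626631) (nat_lit 0) (nat_lit 80647147949) (nat_lit 1) (nat_lit 5) (nat_lit 3) (nat_lit 4) (nat_lit 1) (nat_lit 4) (nat_lit 312) (nat_lit 232) (nat_lit 176)) (XT.nd (nat_lit 78) (nat_lit 0) (nat_lit 0) (XT.lf (nat_lit 0) (nat_lit 98715356268) (nat_lit 152) (nat_lit 196884787444) (nat_lit 0) (nat_lit 90077888632) (nat_lit 1) (nat_lit 5) (nat_lit 3) (nat_lit 4) (nat_lit 1) (nat_lit 4) (nat_lit 313) (nat_lit 232) (nat_lit 175)) (XT.lf (nat_lit 0) (nat_lit 108904357528) (nat_lit 152) (nat_lit 207123958543) (nat_lit 0) (nat_lit 100258829885) (nat_lit 1) (nat_lit 5) (nat_lit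 3) (nat_lit 4) (nat_lit 1) (nat_lit 4) (nat_lit 314) (nat_lit 232) (nat_lit 174)))) (XT.nd (nat_lit 78) (nat_lit 0) (nat_lit 0) (XT.lf (nat_lit 0) (nat_lit 119903293825) (nat_lit 152) (nat_lit 218191816499) (nat_lit 0) (nat_lit 111250303212) (nat_lit 1) (nat_lit 5) (nat_lit 3) (nat_lit 4) (nat_lit 1) (nat_lit 4) (nat_lit 315) (nat_lit 232) (nat_lit 173)) (XT.nd (nat_lit 78) (nat_lit 0) (nat_lit 0) (XT.lf (nat_lit 0) (nat_lit 131777344039) (nat_lit 152) (nat_lit 230153948616) (nat_lit 0) (nat_lit 123117443269) (nat_lit 1) (nat_lit 5) (nat_lit 3) (nat_lit 4) (nat_lit 1) (nat_lit 4) (nat_lit 316) (nat_lit 232) (nat_lit 172)) (XT.lf (nat_lit 0) (nat_lit 144596872914) (nat_lit 152) (nat_lit 243081241605) (nat_lit 0) (nat_lit 135930573850) (nat_lit 1) (nat_lit 5) (nat_lit 3) (nat_lit 4) (nat_lit 1) (nat_lit 4) (nat_lit 317) (nat_lit 232) (nat_lit 171))))) (XT.nd (nat_lit 234) (nat_lit 0)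 (nat_lit 0) (XT.nd (nat_lit 78) (nat_lit 0) (nat_lit 0) (XT.lf (nat_lit 0) (nat_lit 158437848027) (nat_lit 152) (nat_lit 257050301646) (nat_lit 0) (nat_lit 149765624618) (nat_lit 1) (nat_lit 5) (nat_lit 3) (nat_lit 4) (nat_lit 1) (nat_lit 4) (nat_lit 318) (nat_lit 232) (nat_lit 170)) (XT.nd (nat_lit 78) (nat_lit 0) (nat_lit 0) (XT.lf (nat_lit 0) (nat_lit 173382289973) (nat_lit 152) (nat_lit 272143908354) (nat_lit 0) (nat_lit 164704581057) (nat_lit 1) (nat_lit 5) (nat_lit 3) (nat_lit 4) (nat_lit 1) (nat_lit 4) (nat_lit 319) (nat_lit 232) (nat_lit 169)) (XT.lf (nat_lit 0) (nat_lit 189518758406) (nat_lit 152) (nat_lit 288451505324) (nat_lit 0) (nat_lit 180835970319) (nat_lit 1) (nat_lit 5) (nat_lit 3) (nat_lit 4) (nat_lit 1) (nat_lit 4) (nat_lit 320) (nat_lit 232) (nat_lit 168)))) (XT.nd (nat_lit 78) (nat_lit 0) (nat_lit 0) (XT.lf (nat_lit 0) (nat_lit 206942876843) (nat_lit 152) (nat_lit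 306069730168) (nat_lit 0) (nat_lit 198255385820) (nat_lit 1) (nat_lit 5) (nat_lit 3) (nat_lit 4) (nat_lit 1) (nat_lit 4) (nat_lit 321) (nat_lit 232) (nat_lit 167)) (XT.nd (nat_lit 78) (nat_lit 0) (nat_lit 0) (XT.lf (nat_lit 0) (nat_lit 225757899321) (nat_lit 152) (nat_lit 325102987181) (nat_lit 0) (nat_lit 217066053726) (nat_lit 1) (nat_lit 5) (nat_lit 3) (nat_lit 4) (nat_lit 1) (nat_lit 4) (nat_lit 322) (nat_lit 232) (nat_lit 166)) (XT.lf (nat_lit 0) (nat_lit 246075322267) (nat_lit 152) (nat_lit 345664066034) (nat_lit 0) (nat_lit 237379444662) (nat_lit 1) (nat_lit 5) (nat_lit 3) (nat_lit 4) (nat_lit 1) (nat_lit 4) (nat_lit 323) (nat_lit 232) (nat_lit 165)))))) (XT.nd (nat_lit 468) (nat_lit 0) (nat_lit 0) (XT.nd (nat_lit 234) (nat_lit 0) (nat_lit 0) (XT.nd (nat_lit 78) (nat_lit 0) (nat_lit 0) (XT.lf (nat_lit 0) (nat_lit 268015545226) (nat_lit 152) (nat_lit 367874810159) (nat_lit 0)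 (nat_lit 259315934278) (nat_lit 1) (nat_lit 5) (nat_lit 3) (nat_lit 4) (nat_lit 1) (nat_lit 4) (nat_lit 324) (nat_lit 232) (nat_lit 164)) (XT.nd (nat_lit 78) (nat_lit 0) (nat_lit 0) (XT.lf (nat_lit 0) (nat_lit 291708584334) (nat_lit 152) (nat_lit 391866838778) (nat_lit 0) (nat_lit 283005516587) (nat_lit 1) (nat_lit 5) (nat_lit 3) (nat_lit 4) (nat_lit 1) (nat_lit 4) (nat_lit 325) (nat_lit 232) (nat_lit 163)) (XT.lf (nat_lit 0) (nat_lit 317294842785) (nat_lit 152) (nat_lit 417782326878) (nat_lit 0) (nat_lit 308588574298) (nat_lit 1) (nat_lit 5) (nat_lit 3) (nat_lit 4) (nat_lit 1) (nat_lit 4) (nat_lit 326) (nat_lit 232) (nat_lit 162)))) (XT.nd (nat_lit 78) (nat_lit 0) (nat_lit 0) (XT.lf (nat_lit 0) (nat_lit 344925942852) (nat_lit 152) (nat_lit 445774847719) (nat_lit 0) (nat_lit 336216710717) (nat_lit 1) (nat_lit 5) (nat_lit 3) (nat_lit 4) (nat_lit 1) (nat_lit 4) (nat_lit 327) (nat_lit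 232) (nat_lit 161)) (XT.nd (nat_lit 78) (nat_lit 0) (nat_lit 0) (XT.lf (nat_lit 0) (nat_lit 374765624386) (nat_lit 152) (nat_lit 476010282908) (nat_lit 0) (nat_lit 366053648133) (nat_lit 1) (nat_lit 5) (nat_lit 3) (nat_lit 4) (nat_lit 1) (nat_lit 4) (nat_lit 328) (nat_lit 232) (nat_lit 160)) (XT.lf (nat_lit 0) (nat_lit 406990715131) (nat_lit 152) (nat_lit 508667805393) (nat_lit 0) (nat_lit 398276198028) (nat_lit 1) (nat_lit 5) (nat_lit 3) (nat_lit 4) (nat_lit 1) (nat_lit 4) (nat_lit 329) (nat_lit 232) (nat_lit 159))))) (XT.nd (nat_lit 234) (nat_lit 0) (nat_lit 0) (XT.nd (nat_lit 78) (nat_lit 0) (nat_lit 0) (XT.lf (nat_lit 0) (nat_lit 441792178587) (nat_lit 152) (nat_lit 543940941235) (nat_lit 0) (nat_lit 433075308844) (nat_lit 1) (nat_lit 5) (nat_lit 3) (nat_lit 4) (nat_lit 1) (nat_lit 4) (nat_lit 330) (nat_lit 232) (nat_lit 158)) (XT.nd (nat_lit 78) (nat_lit 0) (nat_lit 0) (XT.lf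 (nat_lit 0) (nat_lit 479376245649) (nat_lit 152) (nat_lit 582038716422) (nat_lit 0) (nat_lit 470657197536) (nat_lit 1) (nat_lit 5) (nat_lit 3) (nat_lit 4) (nat_lit 1) (nat_lit 4) (nat_lit 331) (nat_lit 232) (nat_lit 157)) (XT.lf (nat_lit 0) (nat_lit 519965636713) (nat_lit 152) (nat_lit 623186895549) (nat_lit 0) (nat_lit 511244571591) (nat_lit 1) (nat_lit 5) (nat_lit 3) (nat_lit 4) (nat_lit 1) (nat_lit 4) (nat_lit 332) (nat_lit 232) (nat_lit 156)))) (XT.nd (nat_lit 78) (nat_lit 0) (nat_lit 0) (XT.lf (nat_lit 0) (nat_lit 563800881505) (nat_lit 152) (nat_lit 667629319677) (nat_lit 0) (nat_lit 555077948783) (nat_lit 1) (nat_lit 5) (nat_lit 3) (nat_lit 4) (nat_lit 1) (nat_lit 4) (nat_lit 333) (nat_lit 232) (nat_lit 155)) (XT.nd (nat_lit 78) (nat_lit 0) (nat_lit 0) (XT.lf (nat_lit 0) (nat_lit 611141744439) (nat_lit 152) (nat_lit 715629351320) (nat_lit 0) (nat_lit 602417082456) (nat_lit 1)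 (nat_lit 5) (nat_lit 3) (nat_lit 4) (nat_lit 1) (nat_lit 4) (nat_lit 334) (nat_lit 232) (nat_lit 154)) (XT.lf (nat_lit 0) (nat_lit 662268763961) (nat_lit 152) (nat_lit 767471435109) (nat_lit 0) (nat_lit 653542500812) (nat_lit 1) (nat_lit 5) (nat_lit 3) (nat_lit 4) (nat_lit 1) (nat_lit 4) (nat_lit 335) (nat_lit 232) (nat_lit 153))))))) (XT.nd (nat_lit 31902) (nat_lit 0) (nat_lit 380) (XT.nd (nat_lit 31434) (nat_lit 0) (nat_lit 1064) (XT.nd (nat_lit 31200) (nat_lit 0) (nat_lit 1520) (XT.nd (nat_lit 78) (nat_lit 0) (nat_lit 0) (XT.lf (nat_lit 0) (nat_lit 717484915002) (nat_lit 152) (nat_lit 823462783393) (nat_lit 0) (nat_lit 708757169291) (nat_lit 1) (nat_lit 5) (nat_lit 3) (nat_lit 4) (nat_lit 1) (nat_lit 4) (nat_lit 336) (nat_lit 232) (nat_lit 152)) (XT.nd (nat_lit 31044) (nat_lit 0) (nat_lit 2052) (XT.lf (nat_lit 0) (nat_lit 777117404383) (nat_lit 152) (nat_lit 883935196755) (nat_lit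 0) (nat_lit 768388285929) (nat_lit 1) (nat_lit 5) (nat_lit 3) (nat_lit 4) (nat_lit 1) (nat_lit 4) (nat_lit 337) (nat_lit 232) (nat_lit 151)) (XT.lf (nat_lit 0) (nat_lit 3625407397) (nat_lit 228) (nat_lit 218048919) (nat_lit 228) (nat_lit 218048919) (nat_lit 28) (nat_lit 4) (nat_lit 31) (nat_lit 5) (nat_lit 31) (nat_lit 4) (nat_lit 254) (nat_lit 233) (nat_lit 233)))) (XT.nd (nat_lit 78) (nat_lit 304) (nat_lit 0) (XT.lf (nat_lit 0) (nat_lit 2744298102) (nat_lit 228) (nat_lit 4015772144) (nat_lit 0) (nat_lit 1633958618) (nat_lit 25) (nat_lit 5) (nat_lit 28) (nat_lit 4) (nat_lit 25) (nat_lit 4) (nat_lit 255) (nat_lit 233) (nat_lit 232)) (XT.nd (nat_lit 78) (nat_lit 76) (nat_lit 0) (XT.lf (nat_lit 0) (nat_lit 1169507706) (nat_lit 228) (nat_lit 4834143536) (nat_lit 228) (nat_lit 2695711936) (nat_lit 22) (nat_lit 4) (nat_lit 25) (nat_lit 5) (nat_lit 25) (nat_lit 4) (nat_lit 256) (nat_lit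 233) (nat_lit 231)) (XT.lf (nat_lit 0) (nat_lit 369561259) (nat_lit 304) (nat_lit 2321681324) (nat_lit 76) (nat_lit 6346145464) (nat_lit 21) (nat_lit 5) (nat_lit 25) (nat_lit 5) (nat_lit 22) (nat_lit 4) (nat_lit 257) (nat_lit 233) (nat_lit 230))))) (XT.nd (nat_lit 234) (nat_lit 152) (nat_lit 0) (XT.nd (nat_lit 78) (nat_lit 152) (nat_lit 0) (XT.lf (nat_lit 0) (nat_lit 3126000028) (nat_lit 152) (nat_lit 286399997) (nat_lit 228) (nat_lit 5995316284) (nat_lit 19) (nat_lit 5) (nat_lit 21) (nat_lit 5) (nat_lit 22) (nat_lit 4) (nat_lit 258) (nat_lit 233) (nat_lit 229)) (XT.nd (nat_lit 78) (nat_lit 152) (nat_lit 0) (XT.lf (nat_lit 0) (nat_lit 6628964386) (nat_lit 228) (nat_lit 989601650) (nat_lit 0) (nat_lit 2195700782) (nat_lit 19) (nat_lit 5) (nat_lit 22) (nat_lit 4) (nat_lit 19) (nat_lit 4) (nat_lit 259) (nat_lit 233) (nat_lit 228)) (XT.lf (nat_lit 0) (nat_lit 4702460052) (nat_lit 152)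 (nat_lit 5344626427) (nat_lit 152) (nat_lit 211660603) (nat_lit 17) (nat_lit 4) (nat_lit 19) (nat_lit 5) (nat_lit 19) (nat_lit 4) (nat_lit 260) (nat_lit 233) (nat_lit 227)))) (XT.nd (nat_lit 78) (nat_lit 76) (nat_lit 0) (XT.lf (nat_lit 0) (nat_lit 2703213207) (nat_lit 228) (nat_lit 158154776) (nat_lit 76) (nat_lit 7884183115) (nat_lit 16) (nat_lit 5) (nat_lit 19) (nat_lit 5) (nat_lit 17) (nat_lit 4) (nat_lit 261) (nat_lit 233) (nat_lit 226)) (XT.nd (nat_lit 78) (nat_lit 0) (nat_lit 0) (XT.lf (nat_lit 0) (nat_lit 5716311176) (nat_lit 76) (nat_lit 99569255) (nat_lit 152) (nat_lit 5457645726) (nat_lit 15) (nat_lit 5) (nat_lit 16) (nat_lit 5) (nat_lit 17) (nat_lit 4) (nat_lit 262) (nat_lit 233) (nat_lit 225)) (XT.lf (nat_lit 0) (nat_lit 9094522766) (nat_lit 152) (nat_lit 84407063) (nat_lit 0) (nat_lit 2672146559) (nat_lit 15) (nat_lit 5) (nat_lit 17) (nat_lit 4) (nat_lit 15) (nat_lit 4)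 (nat_lit 263) (nat_lit 233) (nat_lit 224)))))) (XT.nd (nat_lit 468) (nat_lit 152) (nat_lit 0) (XT.nd (nat_lit 234) (nat_lit 228) (nat_lit 0) (XT.nd (nat_lit 78) (nat_lit 76) (nat_lit 0) (XT.lf (nat_lit 0) (nat_lit 151123198) (nat_lit 228) (nat_lit 6584245527) (nat_lit 76) (nat_lit 5739865348) (nat_lit 12) (nat_lit 5) (nat_lit 15) (nat_lit 5) (nat_lit 13) (nat_lit 4) (nat_lit 264) (nat_lit 233) (nat_lit 223)) (XT.nd (nat_lit 78) (nat_lit 76) (nat_lit 0) (XT.lf (nat_lit 0) (nat_lit 3000982154) (nat_lit 228) (nat_lit 1097469984) (nat_lit 76) (nat_lit 9057015855) (nat_lit 12) (nat_lit 5) (nat_lit 15) (nat_lit 5) (nat_lit 13) (nat_lit 4) (nat_lit 265) (nat_lit 233) (nat_lit 222)) (XT.lf (nat_lit 0) (nat_lit 4862325629) (nat_lit 76) (nat_lit 1200226302) (nat_lit 152) (nat_lit 7829381114) (nat_lit 11) (nat_lit 5) (nat_lit 12) (nat_lit 5) (nat_lit 13) (nat_lit 4) (nat_lit 266) (nat_lit 233)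 (nat_lit 221)))) (XT.nd (nat_lit 78) (nat_lit 228) (nat_lit 0) (XT.lf (nat_lit 0) (nat_lit 9316176342) (nat_lit 152) (nat_lit 3583562584) (nat_lit 0) (nat_lit 1792278447) (nat_lit 11) (nat_lit 5) (nat_lit 13) (nat_lit 4) (nat_lit 11) (nat_lit 4) (nat_lit 267) (nat_lit 233) (nat_lit 220)) (XT.nd (nat_lit 78) (nat_lit 76) (nat_lit 0) (XT.lf (nat_lit 0) (nat_lit 2178979262) (nat_lit 152) (nat_lit 10614255246) (nat_lit 152) (nat_lit 2766259839) (nat_lit 9) (nat_lit 4) (nat_lit 11) (nat_lit 5) (nat_lit 11) (nat_lit 4) (nat_lit 268) (nat_lit 233) (nat_lit 219)) (XT.lf (nat_lit 0) (nat_lit 30474456) (nat_lit 228) (nat_lit 8084698826) (nat_lit 76) (nat_lit 8382991602) (nat_lit 8) (nat_lit 5) (nat_lit 11) (nat_lit 5) (nat_lit 9) (nat_lit 4) (nat_lit 269) (nat_lit 233) (nat_lit 218))))) (XT.nd (nat_lit 234) (nat_lit 76) (nat_lit 0) (XT.nd (nat_lit 78) (nat_lit 76) (nat_lit 0) (XT.lf (nat_lit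 0) (nat_lit 2790818299) (nat_lit 228) (nat_lit 2621045010) (nat_lit 76) (nat_lit 12103519252) (nat_lit 8) (nat_lit 5) (nat_lit 11) (nat_lit 5) (nat_lit 9) (nat_lit 4) (nat_lit 270) (nat_lit 233) (nat_lit 217)) (XT.nd (nat_lit 78) (nat_lit 0) (nat_lit 0) (XT.lf (nat_lit 0) (nat_lit 3273085160) (nat_lit 76) (nat_lit 2475141419) (nat_lit 152) (nat_lit 12867973622) (nat_lit 7) (nat_lit 5) (nat_lit 8) (nat_lit 5) (nat_lit 9) (nat_lit 4) (nat_lit 271) (nat_lit 233) (nat_lit 216)) (XT.lf (nat_lit 0) (nat_lit 8932006331) (nat_lit 152) (nat_lit 10202785489) (nat_lit 0) (nat_lit 671406819) (nat_lit 7) (nat_lit 5) (nat_lit 9) (nat_lit 4) (nat_lit 7) (nat_lit 4) (nat_lit 272) (nat_lit 233) (nat_lit 215)))) (XT.nd (nat_lit 78) (nat_lit 76) (nat_lit 0) (XT.lf (nat_lit 0) (nat_lit 12341724247) (nat_lit 152) (nat_lit 4875361152) (nat_lit 0) (nat_lit 3876888327) (nat_lit 7) (nat_lit 5) (nat_lit 9)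 (nat_lit 4) (nat_lit 7) (nat_lit 4) (nat_lit 273) (nat_lit 233) (nat_lit 214)) (XT.nd (nat_lit 78) (nat_lit 0) (nat_lit 0) (XT.lf (nat_lit 0) (nat_lit 768709037) (nat_lit 76) (nat_lit 15187837285) (nat_lit 76) (nat_lit 6533893581) (nat_lit 6) (nat_lit 4) (nat_lit 7) (nat_lit 5) (nat_lit 7) (nat_lit 4) (nat_lit 274) (nat_lit 233) (nat_lit 213)) (XT.lf (nat_lit 0) (nat_lit 6997315808) (nat_lit 76) (nat_lit 12913291565) (nat_lit 76) (nat_lit 4084248060) (nat_lit 6) (nat_lit 4) (nat_lit 7) (nat_lit 5) (nat_lit 7) (nat_lit 4) (nat_lit 275) (nat_lit 233) (nat_lit 212))))))))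
noncomputable def xc37 : XT := (XT.nd (nat_lit 1872) (nat_lit 0) (nat_lit 0) (XT.nd (nat_lit 936) (nat_lit 152) (nat_lit 0) (XT.nd (nat_lit 468) (nat_lit 76) (nat_lit 0) (XT.nd (nat_lit 234) (nat_lit 76) (nat_lit 0) (XT.nd (nat_lit 78) (nat_lit 76) (nat_lit 0) (XT.lf (nat_lit 0) (nat_lit 13590641541) (nat_lit 76) (nat_lit 10513270465) (nat_lit 76) (nat_lit 1522097514) (nat_lit 6) (nat_lit 4) (nat_lit 7) (nat_lit 5) (nat_lit 7) (nat_lit 4) (nat_lit 276) (nat_lit 233) (nat_lit 211)) (XT.nd (nat_lit 78) (nat_lit 0) (nat_lit 0) (XT.lf (nat_lit 0) (nat_lit 1109326028) (nat_lit 152) (nat_lit 6833894668) (nat_lit 76) (nat_lit 19448100830) (nat_lit 5) (nat_lit 5) (nat_lit 7) (nat_lit 5) (nat_lit 6) (nat_lit 4) (nat_lit 277) (nat_lit 233) (nat_lit 210)) (XT.lf (nat_lit 0) (nat_lit 3801051163) (nat_lit 152) (nat_lit 1374106255) (nat_lit 76) (nat_lit 24125150332) (nat_lit 5) (nat_lit 5) (nat_lit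 7) (nat_lit 5) (nat_lit 6) (nat_lit 4) (nat_lit 278) (nat_lit 233) (nat_lit 209)))) (XT.nd (nat_lit 78) (nat_lit 0) (nat_lit 0) (XT.lf (nat_lit 0) (nat_lit 4645336591) (nat_lit 76) (nat_lit 2111554200) (nat_lit 152) (nat_lit 24601380795) (nat_lit 4) (nat_lit 5) (nat_lit 5) (nat_lit 5) (nat_lit 6) (nat_lit 4) (nat_lit 279) (nat_lit 233) (nat_lit 208)) (XT.nd (nat_lit 78) (nat_lit 0) (nat_lit 0) (XT.lf (nat_lit 0) (nat_lit 9954583127) (nat_lit 152) (nat_lit 22493800497) (nat_lit 0) (nat_lit 1132206980) (nat_lit 4) (nat_lit 5) (nat_lit 6) (nat_lit 4) (nat_lit 4) (nat_lit 4) (nat_lit 280) (nat_lit 233) (nat_lit 207)) (XT.lf (nat_lit 0) (nat_lit 13405573448) (nat_lit 152) (nat_lit 18094432728) (nat_lit 0) (nat_lit 4481028249) (nat_lit 4) (nat_lit 5) (nat_lit 6) (nat_lit 4) (nat_lit 4) (nat_lit 4) (nat_lit 281) (nat_lit 233) (nat_lit 206))))) (XT.nd (nat_lit 234) (nat_lit 76) (nat_lit 0)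 (XT.nd (nat_lit 78) (nat_lit 0) (nat_lit 0) (XT.lf (nat_lit 0) (nat_lit 17079529138) (nat_lit 152) (nat_lit 13437978429) (nat_lit 0) (nat_lit 8060382965) (nat_lit 4) (nat_lit 5) (nat_lit 6) (nat_lit 4) (nat_lit 4) (nat_lit 4) (nat_lit 282) (nat_lit 233) (nat_lit 205)) (XT.nd (nat_lit 78) (nat_lit 0) (nat_lit 0) (XT.lf (nat_lit 0) (nat_lit 20998221787) (nat_lit 152) (nat_lit 8496843798) (nat_lit 0) (nat_lit 11891482120) (nat_lit 4) (nat_lit 5) (nat_lit 6) (nat_lit 4) (nat_lit 4) (nat_lit 4) (nat_lit 283) (nat_lit 233) (nat_lit 204)) (XT.lf (nat_lit 0) (nat_lit 25184873277) (nat_lit 152) (nat_lit 3241748037) (nat_lit 0) (nat_lit 15997028522) (nat_lit 4) (nat_lit 5) (nat_lit 6) (nat_lit 4) (nat_lit 4) (nat_lit 4) (nat_lit 284) (nat_lit 233) (nat_lit 203)))) (XT.nd (nat_lit 78) (nat_lit 0) (nat_lit 0) (XT.lf (nat_lit 0) (nat_lit 2482641967) (nat_lit 76) (nat_lit 27241359027) (nat_lit 76)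 (nat_lit 17978416969) (nat_lit 3) (nat_lit 4) (nat_lit 4) (nat_lit 5) (nat_lit 4) (nat_lit 4) (nat_lit 285) (nat_lit 233) (nat_lit 202)) (XT.nd (nat_lit 78) (nat_lit 0) (nat_lit 0) (XT.lf (nat_lit 0) (nat_lit 8775945494) (nat_lit 76) (nat_lit 25898143058) (nat_lit 76) (nat_lit 16565666460) (nat_lit 3) (nat_lit 4) (nat_lit 4) (nat_lit 5) (nat_lit 4) (nat_lit 4) (nat_lit 286) (nat_lit 233) (nat_lit 201)) (XT.lf (nat_lit 0) (nat_lit 15504751488) (nat_lit 76) (nat_lit 24477648746) (nat_lit 76) (nat_lit 15080788315) (nat_lit 3) (nat_lit 4) (nat_lit 4) (nat_lit 5) (nat_lit 4) (nat_lit 4) (nat_lit 287) (nat_lit 233) (nat_lit 200)))))) (XT.nd (nat_lit 468) (nat_lit 152) (nat_lit 0) (XT.nd (nat_lit 234) (nat_lit 0) (nat_lit 0) (XT.nd (nat_lit 78) (nat_lit 0) (nat_lit 0) (XT.lf (nat_lit 0) (nat_lit 22708934353) (nat_lit 76) (nat_lit 22971458347) (nat_lit 76) (nat_lit 13514983255) (nat_lit 3)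 (nat_lit 4) (nat_lit 4) (nat_lit 5) (nat_lit 4) (nat_lit 4) (nat_lit 288) (nat_lit 233) (nat_lit 199)) (XT.nd (nat_lit 78) (nat_lit 0) (nat_lit 0) (XT.lf (nat_lit 0) (nat_lit 30431185545) (nat_lit 76) (nat_lit 21370646289) (nat_lit 76) (nat_lit 11858972437) (nat_lit 3) (nat_lit 4) (nat_lit 4) (nat_lit 5) (nat_lit 4) (nat_lit 4) (nat_lit 289) (nat_lit 233) (nat_lit 198)) (XT.lf (nat_lit 0) (nat_lit 38717266551) (nat_lit 76) (nat_lit 19665726278) (nat_lit 76) (nat_lit 10102942463) (nat_lit 3) (nat_lit 4) (nat_lit 4) (nat_lit 5) (nat_lit 4) (nat_lit 4) (nat_lit 290) (nat_lit 233) (nat_lit 197)))) (XT.nd (nat_lit 78) (nat_lit 0) (nat_lit 0) (XT.lf (nat_lit 0) (nat_lit 47616280074) (nat_lit 76) (nat_lit 17846595083) (nat_lit 76) (nat_lit 8236487229) (nat_lit 3) (nat_lit 4) (nat_lit 4) (nat_lit 5) (nat_lit 4) (nat_lit 4) (nat_lit 291) (nat_lit 233) (nat_lit 196)) (XT.nd (nat_lit 78) (nat_lit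 0) (nat_lit 0) (XT.lf (nat_lit 0) (nat_lit 57180961009) (nat_lit 76) (nat_lit 15902472669) (nat_lit 76) (nat_lit 6248546259) (nat_lit 3) (nat_lit 4) (nat_lit 4) (nat_lit 5) (nat_lit 4) (nat_lit 4) (nat_lit 292) (nat_lit 233) (nat_lit 195)) (XT.lf (nat_lit 0) (nat_lit 67467988946) (nat_lit 76) (nat_lit 13821838309) (nat_lit 76) (nat_lit 4127339163) (nat_lit 3) (nat_lit 4) (nat_lit 4) (nat_lit 5) (nat_lit 4) (nat_lit 4) (nat_lit 293) (nat_lit 233) (nat_lit 194))))) (XT.nd (nat_lit 234) (nat_lit 76) (nat_lit 0) (XT.nd (nat_lit 78) (nat_lit 76) (nat_lit 0) (XT.lf (nat_lit 0) (nat_lit 78538324052) (nat_lit 76) (nat_lit 11592362319) (nat_lit 76) (nat_lit 1860295825) (nat_lit 3) (nat_lit 4) (nat_lit 4) (nat_lit 5) (nat_lit 4) (nat_lit 4) (nat_lit 294) (nat_lit 233) (nat_lit 193)) (XT.nd (nat_lit 78) (nat_lit 0) (nat_lit 0) (XT.lf (nat_lit 0) (nat_lit 537703568) (nat_lit 152) (nat_lit 8648427653)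 (nat_lit 76) (nat_lit 89905162974) (nat_lit 2) (nat_lit 5) (nat_lit 4) (nat_lit 5) (nat_lit 3) (nat_lit 4) (nat_lit 295) (nat_lit 233) (nat_lit 192)) (XT.lf (nat_lit 0) (nat_lit 3007605548) (nat_lit 152) (nat_lit 3543239481) (nat_lit 76) (nat_lit 100206515469) (nat_lit 2) (nat_lit 5) (nat_lit 4) (nat_lit 5) (nat_lit 3) (nat_lit 4) (nat_lit 296) (nat_lit 233) (nat_lit 191)))) (XT.nd (nat_lit 78) (nat_lit 0) (nat_lit 0) (XT.lf (nat_lit 0) (nat_lit 2039945850) (nat_lit 76) (nat_lit 3666220998) (nat_lit 152) (nat_lit 109328097151) (nat_lit 1) (nat_lit 5) (nat_lit 2) (nat_lit 5) (nat_lit 3) (nat_lit 4) (nat_lit 297) (nat_lit 233) (nat_lit 190)) (XT.nd (nat_lit 78) (nat_lit 0) (nat_lit 0) (XT.lf (nat_lit 0) (nat_lit 8239650808) (nat_lit 76) (nat_lit 460418963) (nat_lit 152) (nat_lit 115266927977) (nat_lit 1) (nat_lit 5) (nat_lit 2) (nat_lit 5) (nat_lit 3) (nat_lit 4) (nat_lit 298) (nat_lit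 233) (nat_lit 189)) (XT.lf (nat_lit 0) (nat_lit 11989231526) (nat_lit 152) (nat_lit 118781516796) (nat_lit 0) (nat_lit 2839174097) (nat_lit 1) (nat_lit 5) (nat_lit 3) (nat_lit 4) (nat_lit 1) (nat_lit 4) (nat_lit 299) (nat_lit 233) (nat_lit 188))))))) (XT.nd (nat_lit 936) (nat_lit 0) (nat_lit 0) (XT.nd (nat_lit 468) (nat_lit 0) (nat_lit 0) (XT.nd (nat_lit 234) (nat_lit 0) (nat_lit 0) (XT.nd (nat_lit 78) (nat_lit 0) (nat_lit 0) (XT.lf (nat_lit 0) (nat_lit 15538255617) (nat_lit 152) (nat_lit 122120038680) (nat_lit 0) (nat_lit 6366278001) (nat_lit 1) (nat_lit 5) (nat_lit 3) (nat_lit 4) (nat_lit 1) (nat_lit 4) (nat_lit 300) (nat_lit 233) (nat_lit 187)) (XT.nd (nat_lit 78) (nat_lit 0) (nat_lit 0) (XT.lf (nat_lit 0) (nat_lit 19357100210) (nat_lit 152) (nat_lit 125751623336) (nat_lit 0) (nat_lit 10164826125) (nat_lit 1) (nat_lit 5) (nat_lit 3) (nat_lit 4) (nat_lit 1) (nat_lit 4) (nat_lit 301)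 (nat_lit 233) (nat_lit 186)) (XT.lf (nat_lit 0) (nat_lit 23468395496) (nat_lit 152) (nat_lit 129697791267) (nat_lit 0) (nat_lit 14257328384) (nat_lit 1) (nat_lit 5) (nat_lit 3) (nat_lit 4) (nat_lit 1) (nat_lit 4) (nat_lit 302) (nat_lit 233) (nat_lit 185)))) (XT.nd (nat_lit 78) (nat_lit 0) (nat_lit 0) (XT.lf (nat_lit 0) (nat_lit 27896504707) (nat_lit 152) (nat_lit 133981927172) (nat_lit 0) (nat_lit 18668036644) (nat_lit 1) (nat_lit 5) (nat_lit 3) (nat_lit 4) (nat_lit 1) (nat_lit 4) (nat_lit 303) (nat_lit 233) (nat_lit 184)) (XT.nd (nat_lit 78) (nat_lit 0) (nat_lit 0) (XT.lf (nat_lit 0) (nat_lit 32667668490) (nat_lit 152) (nat_lit 138629418522) (nat_lit 0) (nat_lit 23423088434) (nat_lit 1) (nat_lit 5) (nat_lit 3) (nat_lit 4) (nat_lit 1) (nat_lit 4) (nat_lit 304) (nat_lit 233) (nat_lit 183)) (XT.lf (nat_lit 0) (nat_lit 37810160407) (nat_lit 152) (nat_lit 143667806007) (nat_lit 0) (nat_lit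 28550661841) (nat_lit 1) (nat_lit 5) (nat_lit 3) (nat_lit 4) (nat_lit 1) (nat_lit 4) (nat_lit 305) (nat_lit 233) (nat_lit 182))))) (XT.nd (nat_lit 234) (nat_lit 0) (nat_lit 0) (XT.nd (nat_lit 78) (nat_lit 0) (nat_lit 0) (XT.lf (nat_lit 0) (nat_lit 43354454485) (nat_lit 152) (nat_lit 149126946739) (nat_lit 0) (nat_lit 34081142482) (nat_lit 1) (nat_lit 5) (nat_lit 3) (nat_lit 4) (nat_lit 1) (nat_lit 4) (nat_lit 306) (nat_lit 233) (nat_lit 181)) (XT.nd (nat_lit 78) (nat_lit 0) (nat_lit 0) (XT.lf (nat_lit 0) (nat_lit 49333405800) (nat_lit 152) (nat_lit 155039191180) (nat_lit 0) (nat_lit 40047303579) (nat_lit 1) (nat_lit 5) (nat_lit 3) (nat_lit 4) (nat_lit 1) (nat_lit 4) (nat_lit 307) (nat_lit 233) (nat_lit 180)) (XT.lf (nat_lit 0) (nat_lit 55782445174) (nat_lit 152) (nat_lit 161439574853) (nat_lit 0) (nat_lit 46484500158) (nat_lit 1) (nat_lit 5) (nat_lit 3) (nat_lit 4) (nat_lit 1) (nat_lit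 4) (nat_lit 308) (nat_lit 233) (nat_lit 179)))) (XT.nd (nat_lit 78) (nat_lit 0) (nat_lit 0) (XT.lf (nat_lit 0) (nat_lit 62739789138) (nat_lit 152) (nat_lit 168366025958) (nat_lit 0) (nat_lit 53430878571) (nat_lit 1) (nat_lit 5) (nat_lit 3) (nat_lit 4) (nat_lit 1) (nat_lit 4) (nat_lit 309) (nat_lit 233) (nat_lit 178)) (XT.nd (nat_lit 78) (nat_lit 0) (nat_lit 0) (XT.lf (nat_lit 0) (nat_lit 70246666395) (nat_lit 152) (nat_lit 175859590132) (nat_lit 0) (nat_lit 60927602541) (nat_lit 1) (nat_lit 5) (nat_lit 3) (nat_lit 4) (nat_lit 1) (nat_lit 4) (nat_lit 310) (nat_lit 233) (nat_lit 177)) (XT.lf (nat_lit 0) (nat_lit 78347562146) (nat_lit 152) (nat_lit 183964673679) (nat_lit 0) (nat_lit 69019097099) (nat_lit 1) (nat_lit 5) (nat_lit 3) (nat_lit 4) (nat_lit 1) (nat_lit 4) (nat_lit 311) (nat_lit 233) (nat_lit 176)))))) (XT.nd (nat_lit 468) (nat_lit 0) (nat_lit 0) (XT.nd (nat_lit 234) (nat_lit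 0) (nat_lit 0) (XT.nd (nat_lit 78) (nat_lit 0) (nat_lit 0) (XT.lf (nat_lit 0) (nat_lit 87090481697) (nat_lit 152) (nat_lit 192729306726) (nat_lit 0) (nat_lit 77753311842) (nat_lit 1) (nat_lit 5) (nat_lit 3) (nat_lit 4) (nat_lit 1) (nat_lit 4) (nat_lit 312) (nat_lit 233) (nat_lit 175)) (XT.nd (nat_lit 78) (nat_lit 0) (nat_lit 0) (XT.lf (nat_lit 0) (nat_lit 96527234942) (nat_lit 152) (nat_lit 202205427837) (nat_lit 0) (nat_lit 87182005080) (nat_lit 1) (nat_lit 5) (nat_lit 3) (nat_lit 4) (nat_lit 1) (nat_lit 4) (nat_lit 313) (nat_lit 233) (nat_lit 174)) (XT.lf (nat_lit 0) (nat_lit 106713743383) (nat_lit 152) (nat_lit 212449191806) (nat_lit 0) (nat_lit 97361050551) (nat_lit 1) (nat_lit 5) (nat_lit 3) (nat_lit 4) (nat_lit 1) (nat_lit 4) (nat_lit 314) (nat_lit 233) (nat_lit 173)))) (XT.nd (nat_lit 78) (nat_lit 0) (nat_lit 0) (XT.lf (nat_lit 0) (nat_lit 117710371513) (nat_lit 152) (nat_lit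 223521302418) (nat_lit 0) (nat_lit 108350768525) (nat_lit 1) (nat_lit 5) (nat_lit 3) (nat_lit 4) (nat_lit 1) (nat_lit 4) (nat_lit 315) (nat_lit 233) (nat_lit 172)) (XT.nd (nat_lit 78) (nat_lit 0) (nat_lit 0) (XT.lf (nat_lit 0) (nat_lit 129582284537) (nat_lit 152) (nat_lit 235487372181) (nat_lit 0) (nat_lit 120216283255) (nat_lit 1) (nat_lit 5) (nat_lit 3) (nat_lit 4) (nat_lit 1) (nat_lit 4) (nat_lit 316) (nat_lit 233) (nat_lit 171)) (XT.lf (nat_lit 0) (nat_lit 142399834532) (nat_lit 152) (nat_lit 248418311137) (nat_lit 0) (nat_lit 133027908903) (nat_lit 1) (nat_lit 5) (nat_lit 3) (nat_lit 4) (nat_lit 1) (nat_lit 4) (nat_lit 317) (nat_lit 233) (nat_lit 170))))) (XT.nd (nat_lit 234) (nat_lit 0) (nat_lit 0) (XT.nd (nat_lit 78) (nat_lit 0) (nat_lit 0) (XT.lf (nat_lit 0) (nat_lit 156238977348) (nat_lit 152) (nat_lit 262390747074) (nat_lit 0) (nat_lit 146861566214) (nat_lit 1) (nat_lit 5)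 (nat_lit 3) (nat_lit 4) (nat_lit 1) (nat_lit 4) (nat_lit 318) (nat_lit 233) (nat_lit 169)) (XT.nd (nat_lit 78) (nat_lit 0) (nat_lit 0) (XT.lf (nat_lit 0) (nat_lit 171181722722) (nat_lit 152) (nat_lit 277487479611) (nat_lit 0) (nat_lit 161799232417) (nat_lit 1) (nat_lit 5) (nat_lit 3) (nat_lit 4) (nat_lit 1) (nat_lit 4) (nat_lit 319) (nat_lit 233) (nat_lit 168)) (XT.lf (nat_lit 0) (nat_lit 187316620256) (nat_lit 152) (nat_lit 293797970868) (nat_lit 0) (nat_lit 177929427014) (nat_lit 1) (nat_lit 5) (nat_lit 3) (nat_lit 4) (nat_lit 1) (nat_lit 4) (nat_lit 320) (nat_lit 233) (nat_lit 167)))) (XT.nd (nat_lit 156) (nat_lit 0) (nat_lit 0) (XT.nd (nat_lit 78) (nat_lit 0) (nat_lit 0) (XT.lf (nat_lit 0) (nat_lit 204739284158) (nat_lit 152) (nat_lit 311418875607) (nat_lit 0) (nat_lit 195347736344) (nat_lit 1) (nat_lit 5) (nat_lit 3) (nat_lit 4) (nat_lit 1) (nat_lit 4) (nat_lit 321) (nat_lit 233)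 (nat_lit 166)) (XT.lf (nat_lit 0) (nat_lit 223552959842) (nat_lit 152) (nat_lit 330454614005) (nat_lit 0) (nat_lit 214157380018) (nat_lit 1) (nat_lit 5) (nat_lit 3) (nat_lit 4) (nat_lit 1) (nat_lit 4) (nat_lit 322) (nat_lit 233) (nat_lit 165))) (XT.nd (nat_lit 78) (nat_lit 0) (nat_lit 0) (XT.lf (nat_lit 0) (nat_lit 243869135759) (nat_lit 152) (nat_lit 351017990436) (nat_lit 0) (nat_lit 234469822592) (nat_lit 1) (nat_lit 5) (nat_lit 3) (nat_lit 4) (nat_lit 1) (nat_lit 4) (nat_lit 323) (nat_lit 233) (nat_lit 164)) (XT.lf (nat_lit 0) (nat_lit 265808204060) (nat_lit 152) (nat_lit 373230861948) (nat_lit 0) (nat_lit 256405434094) (nat_lit 1) (nat_lit 5) (nat_lit 3) (nat_lit 4) (nat_lit 1) (nat_lit 4) (nat_lit 324) (nat_lit 233) (nat_lit 163))))))))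
noncomputable def xc38 : XT := (XT.nd (nat_lit 32682) (nat_lit 0) (nat_lit 152) (XT.nd (nat_lit 936) (nat_lit 0) (nat_lit 0) (XT.nd (nat_lit 468) (nat_lit 0) (nat_lit 0) (XT.nd (nat_lit 234) (nat_lit 0) (nat_lit 0) (XT.nd (nat_lit 78) (nat_lit 0) (nat_lit 0) (XT.lf (nat_lit 0) (nat_lit 289500174040) (nat_lit 152) (nat_lit 397224860370) (nat_lit 0) (nat_lit 280094203334) (nat_lit 1) (nat_lit 5) (nat_lit 3) (nat_lit 4) (nat_lit 1) (nat_lit 4) (nat_lit 325) (nat_lit 233) (nat_lit 162)) (XT.nd (nat_lit 78) (nat_lit 0) (nat_lit 0) (XT.lf (nat_lit 0) (nat_lit 315085442558) (nat_lit 152) (nat_lit 423142172361) (nat_lit 0) (nat_lit 305676508205) (nat_lit 1) (nat_lit 5) (nat_lit 3) (nat_lit 4) (nat_lit 1) (nat_lit 4) (nat_lit 326) (nat_lit 233) (nat_lit 161)) (XT.lf (nat_lit 0) (nat_lit 342715626020) (nat_lit 152) (nat_lit 451136381991) (nat_lit 0) (nat_lit 333303947548) (nat_lit 1) (nat_lit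 5) (nat_lit 3) (nat_lit 4) (nat_lit 1) (nat_lit 4) (nat_lit 327) (nat_lit 233) (nat_lit 160)))) (XT.nd (nat_lit 78) (nat_lit 0) (nat_lit 0) (XT.lf (nat_lit 0) (nat_lit 372554458847) (nat_lit 152) (nat_lit 481373380873) (nat_lit 0) (nat_lit 363140239524) (nat_lit 1) (nat_lit 5) (nat_lit 3) (nat_lit 4) (nat_lit 1) (nat_lit 4) (nat_lit 328) (nat_lit 233) (nat_lit 159)) (XT.nd (nat_lit 78) (nat_lit 0) (nat_lit 0) (XT.lf (nat_lit 0) (nat_lit 404778763751) (nat_lit 152) (nat_lit 514032351222) (nat_lit 0) (nat_lit 395362191789) (nat_lit 1) (nat_lit 5) (nat_lit 3) (nat_lit 4) (nat_lit 1) (nat_lit 4) (nat_lit 329) (nat_lit 233) (nat_lit 158)) (XT.lf (nat_lit 0) (nat_lit 439579499577) (nat_lit 152) (nat_lit 549306827679) (nat_lit 0) (nat_lit 430160749245) (nat_lit 1) (nat_lit 5) (nat_lit 3) (nat_lit 4) (nat_lit 1) (nat_lit 4) (nat_lit 330) (nat_lit 233) (nat_lit 157))))) (XT.nd (nat_lit 234)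 (nat_lit 0) (nat_lit 0) (XT.nd (nat_lit 78) (nat_lit 0) (nat_lit 0) (XT.lf (nat_lit 0) (nat_lit 477162892907) (nat_lit 152) (nat_lit 587405844176) (nat_lit 0) (nat_lit 467742125566) (nat_lit 1) (nat_lit 5) (nat_lit 3) (nat_lit 4) (nat_lit 1) (nat_lit 4) (nat_lit 331) (nat_lit 233) (nat_lit 156)) (XT.nd (nat_lit 78) (nat_lit 0) (nat_lit 0) (XT.lf (nat_lit 0) (nat_lit 517751660145) (nat_lit 152) (nat_lit 628555172664) (nat_lit 0) (nat_lit 508329025204) (nat_lit 1) (nat_lit 5) (nat_lit 3) (nat_lit 4) (nat_lit 1) (nat_lit 4) (nat_lit 332) (nat_lit 233) (nat_lit 155)) (XT.lf (nat_lit 0) (nat_lit 561586327321) (nat_lit 152) (nat_lit 672998661015) (nat_lit 0) (nat_lit 552161963120) (nat_lit 1) (nat_lit 5) (nat_lit 3) (nat_lit 4) (nat_lit 1) (nat_lit 4) (nat_lit 333) (nat_lit 233) (nat_lit 154)))) (XT.nd (nat_lit 78) (nat_lit 0) (nat_lit 0) (XT.lf (nat_lit 0) (nat_lit 608926655425) (nat_lit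 152) (nat_lit 720999678050) (nat_lit 0) (nat_lit 599500690057) (nat_lit 1) (nat_lit 5) (nat_lit 3) (nat_lit 4) (nat_lit 1) (nat_lit 4) (nat_lit 334) (nat_lit 233) (nat_lit 153)) (XT.nd (nat_lit 78) (nat_lit 0) (nat_lit 0) (XT.lf (nat_lit 0) (nat_lit 660053179734) (nat_lit 152) (nat_lit 772842674239) (nat_lit 0) (nat_lit 650625731804) (nat_lit 1) (nat_lit 5) (nat_lit 3) (nat_lit 4) (nat_lit 1) (nat_lit 4) (nat_lit 335) (nat_lit 233) (nat_lit 152)) (XT.lf (nat_lit 0) (nat_lit 715268872245) (nat_lit 152) (nat_lit 828834867338) (nat_lit 0) (nat_lit 705840051572) (nat_lit 1) (nat_lit 5) (nat_lit 3) (nat_lit 4) (nat_lit 1) (nat_lit 4) (nat_lit 336) (nat_lit 233) (nat_lit 151)))))) (XT.nd (nat_lit 31278) (nat_lit 0) (nat_lit 1064) (XT.nd (nat_lit 31044) (nat_lit 0) (nat_lit 1596) (XT.nd (nat_lit 30888) (nat_lit 0) (nat_lit 2052) (XT.lf (nat_lit 0) (nat_lit 774900937060) (nat_lit 152) (nat_lit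 889308062935) (nat_lit 0) (nat_lit 765470845330) (nat_lit 1) (nat_lit 5) (nat_lit 3) (nat_lit 4) (nat_lit 1) (nat_lit 4) (nat_lit 337) (nat_lit 233) (nat_lit 150)) (XT.nd (nat_lit 78) (nat_lit 228) (nat_lit 0) (XT.lf (nat_lit 0) (nat_lit 1197705750) (nat_lit 532) (nat_lit 1427889449) (nat_lit 0) (nat_lit 1197705750) (nat_lit 31) (nat_lit 5) (nat_lit 38) (nat_lit 4) (nat_lit 31) (nat_lit 4) (nat_lit 252) (nat_lit 234) (nat_lit 234)) (XT.lf (nat_lit 0) (nat_lit 1988800970) (nat_lit 228) (nat_lit 3590095741) (nat_lit 228) (nat_lit 2294995766) (nat_lit 28) (nat_lit 4) (nat_lit 31) (nat_lit 5) (nat_lit 31) (nat_lit 4) (nat_lit 253) (nat_lit 234) (nat_lit 233)))) (XT.nd (nat_lit 78) (nat_lit 380) (nat_lit 0) (XT.lf (nat_lit 0) (nat_lit 707821260) (nat_lit 304) (nat_lit 1021998395) (nat_lit 76) (nat_lit 6400915344) (nat_lit 27) (nat_lit 5) (nat_lit 31) (nat_lit 5) (nat_lit 28) (nat_lit 4)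 (nat_lit 254) (nat_lit 234) (nat_lit 232)) (XT.nd (nat_lit 78) (nat_lit 228) (nat_lit 0) (XT.lf (nat_lit 0) (nat_lit 3727630186) (nat_lit 228) (nat_lit 4295021017) (nat_lit 0) (nat_lit 390031943) (nat_lit 25) (nat_lit 5) (nat_lit 28) (nat_lit 4) (nat_lit 25) (nat_lit 4) (nat_lit 255) (nat_lit 234) (nat_lit 231)) (XT.lf (nat_lit 0) (nat_lit 744698658) (nat_lit 228) (nat_lit 6135987800) (nat_lit 228) (nat_lit 1846452413) (nat_lit 22) (nat_lit 4) (nat_lit 25) (nat_lit 5) (nat_lit 25) (nat_lit 4) (nat_lit 256) (nat_lit 234) (nat_lit 230))))) (XT.nd (nat_lit 234) (nat_lit 304) (nat_lit 0) (XT.nd (nat_lit 78) (nat_lit 152) (nat_lit 0) (XT.lf (nat_lit 0) (nat_lit 1081530555) (nat_lit 304) (nat_lit 2921375112) (nat_lit 76) (nat_lit 5068738189) (nat_lit 21) (nat_lit 5) (nat_lit 25) (nat_lit 5) (nat_lit 22) (nat_lit 4) (nat_lit 257) (nat_lit 234) (nat_lit 229)) (XT.nd (nat_lit 78) (nat_lit 0)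 (nat_lit 0) (XT.lf (nat_lit 0) (nat_lit 2371250291) (nat_lit 152) (nat_lit 1647183183) (nat_lit 228) (nat_lit 5432503832) (nat_lit 19) (nat_lit 5) (nat_lit 21) (nat_lit 5) (nat_lit 22) (nat_lit 4) (nat_lit 258) (nat_lit 234) (nat_lit 228)) (XT.lf (nat_lit 0) (nat_lit 7117511037) (nat_lit 228) (nat_lit 1875623993) (nat_lit 0) (nat_lit 874205729) (nat_lit 19) (nat_lit 5) (nat_lit 22) (nat_lit 4) (nat_lit 19) (nat_lit 4) (nat_lit 259) (nat_lit 234) (nat_lit 227)))) (XT.nd (nat_lit 78) (nat_lit 76) (nat_lit 0) (XT.lf (nat_lit 0) (nat_lit 105778587) (nat_lit 228) (nat_lit 6671158269) (nat_lit 76) (nat_lit 3543389787) (nat_lit 16) (nat_lit 5) (nat_lit 19) (nat_lit 5) (nat_lit 17) (nat_lit 4) (nat_lit 260) (nat_lit 234) (nat_lit 226)) (XT.nd (nat_lit 78) (nat_lit 76) (nat_lit 0) (XT.lf (nat_lit 0) (nat_lit 2932449498) (nat_lit 228) (nat_lit 1391564649) (nat_lit 76) (nat_lit 6489278858) (nat_lit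 16) (nat_lit 5) (nat_lit 19) (nat_lit 5) (nat_lit 17) (nat_lit 4) (nat_lit 261) (nat_lit 234) (nat_lit 225)) (XT.lf (nat_lit 0) (nat_lit 4307376038) (nat_lit 76) (nat_lit 1631990224) (nat_lit 152) (nat_lit 5410695544) (nat_lit 15) (nat_lit 5) (nat_lit 16) (nat_lit 5) (nat_lit 17) (nat_lit 4) (nat_lit 262) (nat_lit 234) (nat_lit 224))))))) (XT.nd (nat_lit 936) (nat_lit 304) (nat_lit 0) (XT.nd (nat_lit 468) (nat_lit 304) (nat_lit 0) (XT.nd (nat_lit 234) (nat_lit 76) (nat_lit 0) (XT.nd (nat_lit 78) (nat_lit 228) (nat_lit 0) (XT.lf (nat_lit 0) (nat_lit 9111346495) (nat_lit 152) (nat_lit 1640434894) (nat_lit 0) (nat_lit 1184672600) (nat_lit 15) (nat_lit 5) (nat_lit 17) (nat_lit 4) (nat_lit 15) (nat_lit 4) (nat_lit 263) (nat_lit 234) (nat_lit 223)) (XT.nd (nat_lit 78) (nat_lit 76) (nat_lit 0) (XT.lf (nat_lit 0) (nat_lit 4152462504) (nat_lit 152) (nat_lit 8392435056) (nat_lit 152) (nat_lit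 24830075) (nat_lit 13) (nat_lit 4) (nat_lit 15) (nat_lit 5) (nat_lit 15) (nat_lit 4) (nat_lit 264) (nat_lit 234) (nat_lit 222)) (XT.lf (nat_lit 0) (nat_lit 2762224374) (nat_lit 228) (nat_lit 3030447806) (nat_lit 76) (nat_lit 7462706159) (nat_lit 12) (nat_lit 5) (nat_lit 15) (nat_lit 5) (nat_lit 13) (nat_lit 4) (nat_lit 265) (nat_lit 234) (nat_lit 221)))) (XT.nd (nat_lit 78) (nat_lit 0) (nat_lit 0) (XT.lf (nat_lit 0) (nat_lit 2729550945) (nat_lit 76) (nat_lit 2983647510) (nat_lit 152) (nat_lit 8287719706) (nat_lit 11) (nat_lit 5) (nat_lit 12) (nat_lit 5) (nat_lit 13) (nat_lit 4) (nat_lit 266) (nat_lit 234) (nat_lit 220)) (XT.nd (nat_lit 78) (nat_lit 0) (nat_lit 0) (XT.lf (nat_lit 0) (nat_lit 8866029903) (nat_lit 152) (nat_lit 5877148960) (nat_lit 0) (nat_lit 66097353) (nat_lit 11) (nat_lit 5) (nat_lit 13) (nat_lit 4) (nat_lit 11) (nat_lit 4) (nat_lit 267) (nat_lit 234) (nat_lit 219))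 (XT.lf (nat_lit 0) (nat_lit 12237070937) (nat_lit 152) (nat_lit 311310238) (nat_lit 0) (nat_lit 3137048098) (nat_lit 11) (nat_lit 5) (nat_lit 13) (nat_lit 4) (nat_lit 11) (nat_lit 4) (nat_lit 268) (nat_lit 234) (nat_lit 218))))) (XT.nd (nat_lit 234) (nat_lit 0) (nat_lit 0) (XT.nd (nat_lit 78) (nat_lit 152) (nat_lit 0) (XT.lf (nat_lit 0) (nat_lit 5822135276) (nat_lit 152) (nat_lit 10092428517) (nat_lit 152) (nat_lit 714544300) (nat_lit 9) (nat_lit 4) (nat_lit 11) (nat_lit 5) (nat_lit 11) (nat_lit 4) (nat_lit 269) (nat_lit 234) (nat_lit 217)) (XT.nd (nat_lit 78) (nat_lit 76) (nat_lit 0) (XT.lf (nat_lit 0) (nat_lit 2032274304) (nat_lit 228) (nat_lit 5408032717) (nat_lit 76) (nat_lit 10211489675) (nat_lit 8) (nat_lit 5) (nat_lit 11) (nat_lit 5) (nat_lit 9) (nat_lit 4) (nat_lit 270) (nat_lit 234) (nat_lit 216)) (XT.lf (nat_lit 0) (nat_lit 259514479) (nat_lit 76) (nat_lit 4612071624) (nat_lit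 152) (nat_lit 13890619072) (nat_lit 7) (nat_lit 5) (nat_lit 8) (nat_lit 5) (nat_lit 9) (nat_lit 4) (nat_lit 271) (nat_lit 234) (nat_lit 215)))) (XT.nd (nat_lit 78) (nat_lit 0) (nat_lit 0) (XT.lf (nat_lit 0) (nat_lit 6534287754) (nat_lit 76) (nat_lit 1460062097) (nat_lit 152) (nat_lit 11962867560) (nat_lit 7) (nat_lit 5) (nat_lit 8) (nat_lit 5) (nat_lit 9) (nat_lit 4) (nat_lit 272) (nat_lit 234) (nat_lit 214)) (XT.nd (nat_lit 78) (nat_lit 0) (nat_lit 0) (XT.lf (nat_lit 0) (nat_lit 11327529804) (nat_lit 152) (nat_lit 8131545616) (nat_lit 0) (nat_lit 1792162818) (nat_lit 7) (nat_lit 5) (nat_lit 9) (nat_lit 4) (nat_lit 7) (nat_lit 4) (nat_lit 273) (nat_lit 234) (nat_lit 213)) (XT.lf (nat_lit 0) (nat_lit 14885509378) (nat_lit 152) (nat_lit 2591813460) (nat_lit 0) (nat_lit 5175042591) (nat_lit 7) (nat_lit 5) (nat_lit 9) (nat_lit 4) (nat_lit 7) (nat_lit 4) (nat_lit 274) (nat_lit 234) (nat_lit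 212)))))) (XT.nd (nat_lit 468) (nat_lit 76) (nat_lit 0) (XT.nd (nat_lit 234) (nat_lit 152) (nat_lit 0) (XT.nd (nat_lit 78) (nat_lit 0) (nat_lit 0) (XT.lf (nat_lit 0) (nat_lit 3436096862) (nat_lit 76) (nat_lit 15300799716) (nat_lit 76) (nat_lit 5428203484) (nat_lit 6) (nat_lit 4) (nat_lit 7) (nat_lit 5) (nat_lit 7) (nat_lit 4) (nat_lit 275) (nat_lit 234) (nat_lit 211)) (XT.nd (nat_lit 78) (nat_lit 0) (nat_lit 0) (XT.lf (nat_lit 0) (nat_lit 9969963204) (nat_lit 76) (nat_lit 12925924750) (nat_lit 76) (nat_lit 2903208661) (nat_lit 6) (nat_lit 4) (nat_lit 7) (nat_lit 5) (nat_lit 7) (nat_lit 4) (nat_lit 276) (nat_lit 234) (nat_lit 210)) (XT.lf (nat_lit 0) (nat_lit 16912024468) (nat_lit 76) (nat_lit 10409489379) (nat_lit 76) (nat_lit 247773423) (nat_lit 6) (nat_lit 4) (nat_lit 7) (nat_lit 5) (nat_lit 7) (nat_lit 4) (nat_lit 277) (nat_lit 234) (nat_lit 209)))) (XT.nd (nat_lit 78) (nat_lit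 76) (nat_lit 0) (XT.lf (nat_lit 0) (nat_lit 2426084815) (nat_lit 152) (nat_lit 5244163120) (nat_lit 76) (nat_lit 21811000521) (nat_lit 5) (nat_lit 5) (nat_lit 7) (nat_lit 5) (nat_lit 6) (nat_lit 4) (nat_lit 278) (nat_lit 234) (nat_lit 208)) (XT.nd (nat_lit 78) (nat_lit 0) (nat_lit 0) (XT.lf (nat_lit 0) (nat_lit 520174557) (nat_lit 76) (nat_lit 4734519710) (nat_lit 152) (nat_lit 26294768035) (nat_lit 4) (nat_lit 5) (nat_lit 5) (nat_lit 5) (nat_lit 6) (nat_lit 4) (nat_lit 279) (nat_lit 234) (nat_lit 207)) (XT.lf (nat_lit 0) (nat_lit 6945070883) (nat_lit 76) (nat_lit 1451565164) (nat_lit 152) (nat_lit 25379671610) (nat_lit 4) (nat_lit 5) (nat_lit 5) (nat_lit 5) (nat_lit 6) (nat_lit 4) (nat_lit 280) (nat_lit 234) (nat_lit 206))))) (XT.nd (nat_lit 234) (nat_lit 76) (nat_lit 0) (XT.nd (nat_lit 78) (nat_lit 0) (nat_lit 0) (XT.lf (nat_lit 0) (nat_lit 11787180683) (nat_lit 152) (nat_lit 22442565987)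 (nat_lit 0) (nat_lit 1951901843) (nat_lit 4) (nat_lit 5) (nat_lit 6) (nat_lit 4) (nat_lit 4) (nat_lit 4) (nat_lit 281) (nat_lit 234) (nat_lit 205)) (XT.nd (nat_lit 78) (nat_lit 0) (nat_lit 0) (XT.lf (nat_lit 0) (nat_lit 15437492385) (nat_lit 152) (nat_lit 17828340540) (nat_lit 0) (nat_lit 5514620050) (nat_lit 4) (nat_lit 5) (nat_lit 6) (nat_lit 4) (nat_lit 4) (nat_lit 4) (nat_lit 282) (nat_lit 234) (nat_lit 204)) (XT.lf (nat_lit 0) (nat_lit 19334292452) (nat_lit 152) (nat_lit 12926306698) (nat_lit 0) (nat_lit 9330315029) (nat_lit 4) (nat_lit 5) (nat_lit 6) (nat_lit 4) (nat_lit 4) (nat_lit 4) (nat_lit 283) (nat_lit 234) (nat_lit 203)))) (XT.nd (nat_lit 78) (nat_lit 76) (nat_lit 0) (XT.lf (nat_lit 0) (nat_lit 23500673033) (nat_lit 152) (nat_lit 7707415371) (nat_lit 0) (nat_lit 13421598307) (nat_lit 4) (nat_lit 5) (nat_lit 6) (nat_lit 4) (nat_lit 4) (nat_lit 4) (nat_lit 284) (nat_lit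 234) (nat_lit 202)) (XT.nd (nat_lit 78) (nat_lit 76) (nat_lit 0) (XT.lf (nat_lit 0) (nat_lit 27961323790) (nat_lit 152) (nat_lit 2140739796) (nat_lit 0) (nat_lit 17812714524) (nat_lit 4) (nat_lit 5) (nat_lit 6) (nat_lit 4) (nat_lit 4) (nat_lit 4) (nat_lit 285) (nat_lit 234) (nat_lit 201)) (XT.lf (nat_lit 0) (nat_lit 4007162216) (nat_lit 76) (nat_lit 28831888341) (nat_lit 76) (nat_lit 18618895241) (nat_lit 3) (nat_lit 4) (nat_lit 4) (nat_lit 5) (nat_lit 4) (nat_lit 4) (nat_lit 286) (nat_lit 234) (nat_lit 200))))))))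
noncomputable def xc39 : XT := (XT.nd (nat_lit 1872) (nat_lit 0) (nat_lit 0) (XT.nd (nat_lit 936) (nat_lit 0) (nat_lit 0) (XT.nd (nat_lit 468) (nat_lit 152) (nat_lit 0) (XT.nd (nat_lit 234) (nat_lit 0) (nat_lit 0) (XT.nd (nat_lit 78) (nat_lit 0) (nat_lit 0) (XT.lf (nat_lit 0) (nat_lit 10705714552) (nat_lit 76) (nat_lit 27424828384) (nat_lit 76) (nat_lit 17152220624) (nat_lit 3) (nat_lit 4) (nat_lit 4) (nat_lit 5) (nat_lit 4) (nat_lit 4) (nat_lit 287) (nat_lit 234) (nat_lit 199)) (XT.nd (nat_lit 78) (nat_lit 0) (nat_lit 0) (XT.lf (nat_lit 0) (nat_lit 17881884772) (nat_lit 76) (nat_lit 25931077203) (nat_lit 76) (nat_lit 15603270683) (nat_lit 3) (nat_lit 4) (nat_lit 4) (nat_lit 5) (nat_lit 4) (nat_lit 4) (nat_lit 288) (nat_lit 234) (nat_lit 198)) (XT.lf (nat_lit 0) (nat_lit 25578198329) (nat_lit 76) (nat_lit 24341782938) (nat_lit 76) (nat_lit 13962866456) (nat_lit 3) (nat_lit 4) (nat_lit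 4) (nat_lit 5) (nat_lit 4) (nat_lit 4) (nat_lit 289) (nat_lit 234) (nat_lit 197)))) (XT.nd (nat_lit 78) (nat_lit 0) (nat_lit 0) (XT.lf (nat_lit 0) (nat_lit 33840263006) (nat_lit 76) (nat_lit 22647527551) (nat_lit 76) (nat_lit 12221287028) (nat_lit 3) (nat_lit 4) (nat_lit 4) (nat_lit 5) (nat_lit 4) (nat_lit 4) (nat_lit 290) (nat_lit 234) (nat_lit 196)) (XT.nd (nat_lit 78) (nat_lit 0) (nat_lit 0) (XT.lf (nat_lit 0) (nat_lit 42717039188) (nat_lit 76) (nat_lit 20838271008) (nat_lit 76) (nat_lit 10368211931) (nat_lit 3) (nat_lit 4) (nat_lit 4) (nat_lit 5) (nat_lit 4) (nat_lit 4) (nat_lit 291) (nat_lit 234) (nat_lit 195)) (XT.lf (nat_lit 0) (nat_lit 52261129992) (nat_lit 76) (nat_lit 18903291790) (nat_lit 76) (nat_lit 8392659976) (nat_lit 3) (nat_lit 4) (nat_lit 4) (nat_lit 5) (nat_lit 4) (nat_lit 4) (nat_lit 292) (nat_lit 234) (nat_lit 194))))) (XT.nd (nat_lit 234) (nat_lit 152) (nat_lit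 0) (XT.nd (nat_lit 78) (nat_lit 0) (nat_lit 0) (XT.lf (nat_lit 0) (nat_lit 62529092993) (nat_lit 76) (nat_lit 16831123353) (nat_lit 76) (nat_lit 6282924191) (nat_lit 3) (nat_lit 4) (nat_lit 4) (nat_lit 5) (nat_lit 4) (nat_lit 4) (nat_lit 293) (nat_lit 234) (nat_lit 193)) (XT.nd (nat_lit 78) (nat_lit 0) (nat_lit 0) (XT.lf (nat_lit 0) (nat_lit 73581775380) (nat_lit 76) (nat_lit 14609486180) (nat_lit 76) (nat_lit 4026502436) (nat_lit 3) (nat_lit 4) (nat_lit 4) (nat_lit 5) (nat_lit 4) (nat_lit 4) (nat_lit 294) (nat_lit 234) (nat_lit 192)) (XT.lf (nat_lit 0) (nat_lit 85484674530) (nat_lit 76) (nat_lit 12225215014) (nat_lit 76) (nat_lit 1610023324) (nat_lit 3) (nat_lit 4) (nat_lit 4) (nat_lit 5) (nat_lit 4) (nat_lit 4) (nat_lit 295) (nat_lit 234) (nat_lit 191)))) (XT.nd (nat_lit 78) (nat_lit 76) (nat_lit 0) (XT.lf (nat_lit 0) (nat_lit 931767780) (nat_lit 152) (nat_lit 8706936879) (nat_lit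 76) (nat_lit 97351082178) (nat_lit 2) (nat_lit 5) (nat_lit 4) (nat_lit 5) (nat_lit 3) (nat_lit 4) (nat_lit 296) (nat_lit 234) (nat_lit 190)) (XT.nd (nat_lit 78) (nat_lit 76) (nat_lit 0) (XT.lf (nat_lit 0) (nat_lit 3573258368) (nat_lit 152) (nat_lit 3240249578) (nat_lit 76) (nat_lit 108457764638) (nat_lit 2) (nat_lit 5) (nat_lit 4) (nat_lit 5) (nat_lit 3) (nat_lit 4) (nat_lit 297) (nat_lit 234) (nat_lit 189)) (XT.lf (nat_lit 0) (nat_lit 2774743768) (nat_lit 76) (nat_lit 3702630491) (nat_lit 152) (nat_lit 117733830398) (nat_lit 1) (nat_lit 5) (nat_lit 2) (nat_lit 5) (nat_lit 3) (nat_lit 4) (nat_lit 298) (nat_lit 234) (nat_lit 188)))))) (XT.nd (nat_lit 468) (nat_lit 0) (nat_lit 0) (XT.nd (nat_lit 234) (nat_lit 0) (nat_lit 0) (XT.nd (nat_lit 78) (nat_lit 0) (nat_lit 0) (XT.lf (nat_lit 0) (nat_lit 9428084216) (nat_lit 76) (nat_lit 259393047) (nat_lit 152) (nat_lit 124172990988) (nat_lit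 1) (nat_lit 5) (nat_lit 2) (nat_lit 5) (nat_lit 3) (nat_lit 4) (nat_lit 299) (nat_lit 234) (nat_lit 187)) (XT.nd (nat_lit 78) (nat_lit 0) (nat_lit 0) (XT.lf (nat_lit 0) (nat_lit 13223483414) (nat_lit 152) (nat_lit 127777158386) (nat_lit 0) (nat_lit 3275530933) (nat_lit 1) (nat_lit 5) (nat_lit 3) (nat_lit 4) (nat_lit 1) (nat_lit 4) (nat_lit 300) (nat_lit 234) (nat_lit 186)) (XT.lf (nat_lit 0) (nat_lit 17036050664) (nat_lit 152) (nat_lit 131420308668) (nat_lit 0) (nat_lit 7069305155) (nat_lit 1) (nat_lit 5) (nat_lit 3) (nat_lit 4) (nat_lit 1) (nat_lit 4) (nat_lit 301) (nat_lit 234) (nat_lit 185)))) (XT.nd (nat_lit 78) (nat_lit 0) (nat_lit 0) (XT.lf (nat_lit 0) (nat_lit 21141533595) (nat_lit 152) (nat_lit 135377185513) (nat_lit 0) (nat_lit 11157387136) (nat_lit 1) (nat_lit 5) (nat_lit 3) (nat_lit 4) (nat_lit 1) (nat_lit 4) (nat_lit 302) (nat_lit 234) (nat_lit 184)) (XT.nd (nat_lit 78)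 (nat_lit 0) (nat_lit 0) (XT.lf (nat_lit 0) (nat_lit 25564260996) (nat_lit 152) (nat_lit 139671237077) (nat_lit 0) (nat_lit 15564002544) (nat_lit 1) (nat_lit 5) (nat_lit 3) (nat_lit 4) (nat_lit 1) (nat_lit 4) (nat_lit 303) (nat_lit 234) (nat_lit 183)) (XT.lf (nat_lit 0) (nat_lit 30330441621) (nat_lit 152) (nat_lit 144327909594) (nat_lit 0) (nat_lit 20315264658) (nat_lit 1) (nat_lit 5) (nat_lit 3) (nat_lit 4) (nat_lit 1) (nat_lit 4) (nat_lit 304) (nat_lit 234) (nat_lit 182))))) (XT.nd (nat_lit 234) (nat_lit 0) (nat_lit 0) (XT.nd (nat_lit 78) (nat_lit 0) (nat_lit 0) (XT.lf (nat_lit 0) (nat_lit 35468319503) (nat_lit 152) (nat_lit 149374798160) (nat_lit 0) (nat_lit 25439329105) (nat_lit 1) (nat_lit 5) (nat_lit 3) (nat_lit 4) (nat_lit 1) (nat_lit 4) (nat_lit 305) (nat_lit 234) (nat_lit 181)) (XT.nd (nat_lit 78) (nat_lit 0) (nat_lit 0) (XT.lf (nat_lit 0) (nat_lit 41008341327) (nat_lit 152)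 (nat_lit 154841810262) (nat_lit 0) (nat_lit 30966560709) (nat_lit 1) (nat_lit 5) (nat_lit 3) (nat_lit 4) (nat_lit 1) (nat_lit 4) (nat_lit 306) (nat_lit 234) (nat_lit 180)) (XT.lf (nat_lit 0) (nat_lit 46983336850) (nat_lit 152) (nat_lit 160761343010) (nat_lit 0) (nat_lit 36929713438) (nat_lit 1) (nat_lit 5) (nat_lit 3) (nat_lit 4) (nat_lit 1) (nat_lit 4) (nat_lit 307) (nat_lit 234) (nat_lit 179)))) (XT.nd (nat_lit 78) (nat_lit 0) (nat_lit 0) (XT.lf (nat_lit 0) (nat_lit 53428713455) (nat_lit 152) (nat_lit 167168475115) (nat_lit 0) (nat_lit 43364124492) (nat_lit 1) (nat_lit 5) (nat_lit 3) (nat_lit 4) (nat_lit 1) (nat_lit 4) (nat_lit 308) (nat_lit 234) (nat_lit 178)) (XT.nd (nat_lit 78) (nat_lit 0) (nat_lit 0) (XT.lf (nat_lit 0) (nat_lit 60382665965) (nat_lit 152) (nat_lit 174101174768) (nat_lit 0) (nat_lit 50307923714) (nat_lit 1) (nat_lit 5) (nat_lit 3) (nat_lit 4) (nat_lit 1) (nat_lit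 4) (nat_lit 309) (nat_lit 234) (nat_lit 177)) (XT.lf (nat_lit 0) (nat_lit 67886402988) (nat_lit 152) (nat_lit 181600524634) (nat_lit 0) (nat_lit 57802259545) (nat_lit 1) (nat_lit 5) (nat_lit 3) (nat_lit 4) (nat_lit 1) (nat_lit 4) (nat_lit 310) (nat_lit 234) (nat_lit 176))))))) (XT.nd (nat_lit 936) (nat_lit 0) (nat_lit 0) (XT.nd (nat_lit 468) (nat_lit 0) (nat_lit 0) (XT.nd (nat_lit 234) (nat_lit 0) (nat_lit 0) (XT.nd (nat_lit 78) (nat_lit 0) (nat_lit 0) (XT.lf (nat_lit 0) (nat_lit 75984391114) (nat_lit 152) (nat_lit 189710965304) (nat_lit 0) (nat_lit 65891542863) (nat_lit 1) (nat_lit 5) (nat_lit 3) (nat_lit 4) (nat_lit 1) (nat_lit 4) (nat_lit 311) (nat_lit 234) (nat_lit 175)) (XT.nd (nat_lit 78) (nat_lit 0) (nat_lit 0) (XT.lf (nat_lit 0) (nat_lit 84724618420) (nat_lit 152) (nat_lit 198480558649) (nat_lit 0) (nat_lit 74623710162) (nat_lit 1) (nat_lit 5) (nat_lit 3) (nat_lit 4) (nat_lit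 1) (nat_lit 4) (nat_lit 312) (nat_lit 234) (nat_lit 174)) (XT.lf (nat_lit 0) (nat_lit 94158878846) (nat_lit 152) (nat_lit 207961272630) (nat_lit 0) (nat_lit 84050507618) (nat_lit 1) (nat_lit 5) (nat_lit 3) (nat_lit 4) (nat_lit 1) (nat_lit 4) (nat_lit 313) (nat_lit 234) (nat_lit 173)))) (XT.nd (nat_lit 78) (nat_lit 0) (nat_lit 0) (XT.lf (nat_lit 0) (nat_lit 104343079121) (nat_lit 152) (nat_lit 218209289255) (nat_lit 0) (nat_lit 94227797736) (nat_lit 1) (nat_lit 5) (nat_lit 3) (nat_lit 4) (nat_lit 1) (nat_lit 4) (nat_lit 314) (nat_lit 234) (nat_lit 172)) (XT.nd (nat_lit 78) (nat_lit 0) (nat_lit 0) (XT.lf (nat_lit 0) (nat_lit 115337570060) (nat_lit 152) (nat_lit 229285337513) (nat_lit 0) (nat_lit 105215890382) (nat_lit 1) (nat_lit 5) (nat_lit 3) (nat_lit 4) (nat_lit 1) (nat_lit 4) (nat_lit 315) (nat_lit 234) (nat_lit 171)) (XT.lf (nat_lit 0) (nat_lit 127207504204) (nat_lit 152) (nat_lit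 241255053243) (nat_lit 0) (nat_lit 117079900179) (nat_lit 1) (nat_lit 5) (nat_lit 3) (nat_lit 4) (nat_lit 1) (nat_lit 4) (nat_lit 316) (nat_lit 234) (nat_lit 170))))) (XT.nd (nat_lit 234) (nat_lit 0) (nat_lit 0) (XT.nd (nat_lit 78) (nat_lit 0) (nat_lit 0) (XT.lf (nat_lit 0) (nat_lit 140023221901) (nat_lit 152) (nat_lit 254189368096) (nat_lit 0) (nat_lit 129890132371) (nat_lit 1) (nat_lit 5) (nat_lit 3) (nat_lit 4) (nat_lit 1) (nat_lit 4) (nat_lit 317) (nat_lit 234) (nat_lit 169)) (XT.nd (nat_lit 78) (nat_lit 0) (nat_lit 0) (XT.lf (nat_lit 0) (nat_lit 153860668147) (nat_lit 152) (nat_lit 268164929862) (nat_lit 0) (nat_lit 143722499445) (nat_lit 1) (nat_lit 5) (nat_lit 3) (nat_lit 4) (nat_lit 1) (nat_lit 4) (nat_lit 318) (nat_lit 234) (nat_lit 168)) (XT.lf (nat_lit 0) (nat_lit 168801842622) (nat_lit 152) (nat_lit 283264556686) (nat_lit 0) (nat_lit 158658970983) (nat_lit 1) (nat_lit 5)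 (nat_lit 3) (nat_lit 4) (nat_lit 1) (nat_lit 4) (nat_lit 319) (nat_lit 234) (nat_lit 167)))) (XT.nd (nat_lit 78) (nat_lit 0) (nat_lit 0) (XT.lf (nat_lit 0) (nat_lit 184935285620) (nat_lit 152) (nat_lit 299577727838) (nat_lit 0) (nat_lit 174788059410) (nat_lit 1) (nat_lit 5) (nat_lit 3) (nat_lit 4) (nat_lit 1) (nat_lit 4) (nat_lit 320) (nat_lit 234) (nat_lit 166)) (XT.nd (nat_lit 78) (nat_lit 0) (nat_lit 0) (XT.lf (nat_lit 0) (nat_lit 202356602728) (nat_lit 152) (nat_lit 317201113961) (nat_lit 0) (nat_lit 192205344508) (nat_lit 1) (nat_lit 5) (nat_lit 3) (nat_lit 4) (nat_lit 1) (nat_lit 4) (nat_lit 321) (nat_lit 234) (nat_lit 165)) (XT.lf (nat_lit 0) (nat_lit 221169031383) (nat_lit 152) (nat_lit 336239149937) (nat_lit 0) (nat_lit 211014039819) (nat_lit 1) (nat_lit 5) (nat_lit 3) (nat_lit 4) (nat_lit 1) (nat_lit 4) (nat_lit 322) (nat_lit 234) (nat_lit 164)))))) (XT.nd (nat_lit 468) (nat_lit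 0) (nat_lit 0) (XT.nd (nat_lit 234) (nat_lit 0) (nat_lit 0) (XT.nd (nat_lit 78) (nat_lit 0) (nat_lit 0) (XT.lf (nat_lit 0) (nat_lit 241484052641) (nat_lit 152) (nat_lit 356804653756) (nat_lit 0) (nat_lit 231325604279) (nat_lit 1) (nat_lit 5) (nat_lit 3) (nat_lit 4) (nat_lit 1) (nat_lit 4) (nat_lit 323) (nat_lit 234) (nat_lit 163)) (XT.nd (nat_lit 78) (nat_lit 0) (nat_lit 0) (XT.lf (nat_lit 0) (nat_lit 263422051815) (nat_lit 152) (nat_lit 379019495070) (nat_lit 0) (nat_lit 253260402713) (nat_lit 1) (nat_lit 5) (nat_lit 3) (nat_lit 4) (nat_lit 1) (nat_lit 4) (nat_lit 324) (nat_lit 234) (nat_lit 162)) (XT.lf (nat_lit 0) (nat_lit 287113031862) (nat_lit 152) (nat_lit 403015317384) (nat_lit 0) (nat_lit 276948419112) (nat_lit 1) (nat_lit 5) (nat_lit 3) (nat_lit 4) (nat_lit 1) (nat_lit 4) (nat_lit 325) (nat_lit 234) (nat_lit 161)))) (XT.nd (nat_lit 78) (nat_lit 0) (nat_lit 0) (XT.lf (nat_lit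 0) (nat_lit 312697383776) (nat_lit 152) (nat_lit 428934318163) (nat_lit 0) (nat_lit 302530026907) (nat_lit 1) (nat_lit 5) (nat_lit 3) (nat_lit 4) (nat_lit 1) (nat_lit 4) (nat_lit 326) (nat_lit 234) (nat_lit 160)) (XT.nd (nat_lit 78) (nat_lit 0) (nat_lit 0) (XT.lf (nat_lit 0) (nat_lit 340326718530) (nat_lit 152) (nat_lit 456930091486) (nat_lit 0) (nat_lit 330156820811) (nat_lit 1) (nat_lit 5) (nat_lit 3) (nat_lit 4) (nat_lit 1) (nat_lit 4) (nat_lit 327) (nat_lit 234) (nat_lit 159)) (XT.lf (nat_lit 0) (nat_lit 370164765516) (nat_lit 152) (nat_lit 487168538232) (nat_lit 0) (nat_lit 359992515158) (nat_lit 1) (nat_lit 5) (nat_lit 3) (nat_lit 4) (nat_lit 1) (nat_lit 4) (nat_lit 328) (nat_lit 234) (nat_lit 158))))) (XT.nd (nat_lit 234) (nat_lit 0) (nat_lit 0) (XT.nd (nat_lit 78) (nat_lit 0) (nat_lit 0) (XT.lf (nat_lit 0) (nat_lit 402388342790) (nat_lit 152) (nat_lit 519828849196) (nat_lit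 0) (nat_lit 392213914062) (nat_lit 1) (nat_lit 5) (nat_lit 3) (nat_lit 4) (nat_lit 1) (nat_lit 4) (nat_lit 329) (nat_lit 234) (nat_lit 157)) (XT.nd (nat_lit 78) (nat_lit 0) (nat_lit 0) (XT.lf (nat_lit 0) (nat_lit 437188404884) (nat_lit 152) (nat_lit 555104566962) (nat_lit 0) (nat_lit 427011959147) (nat_lit 1) (nat_lit 5) (nat_lit 3) (nat_lit 4) (nat_lit 1) (nat_lit 4) (nat_lit 330) (nat_lit 234) (nat_lit 156)) (XT.lf (nat_lit 0) (nat_lit 474771174388) (nat_lit 152) (nat_lit 593204732821) (nat_lit 0) (nat_lit 464592861050) (nat_lit 1) (nat_lit 5) (nat_lit 3) (nat_lit 4) (nat_lit 1) (nat_lit 4) (nat_lit 331) (nat_lit 234) (nat_lit 155)))) (XT.nd (nat_lit 156) (nat_lit 0) (nat_lit 0) (XT.nd (nat_lit 78) (nat_lit 0) (nat_lit 0) (XT.lf (nat_lit 0) (nat_lit 515359364010) (nat_lit 152) (nat_lit 634355125532) (nat_lit 0) (nat_lit 505179321413) (nat_lit 1) (nat_lit 5) (nat_lit 3) (nat_lit 4)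 (nat_lit 1) (nat_lit 4) (nat_lit 332) (nat_lit 234) (nat_lit 154)) (XT.lf (nat_lit 0) (nat_lit 559193496356) (nat_lit 152) (nat_lit 678799599275) (nat_lit 0) (nat_lit 549011852592) (nat_lit 1) (nat_lit 5) (nat_lit 3) (nat_lit 4) (nat_lit 1) (nat_lit 4) (nat_lit 333) (nat_lit 234) (nat_lit 153))) (XT.nd (nat_lit 78) (nat_lit 0) (nat_lit 0) (XT.lf (nat_lit 0) (nat_lit 606533329247) (nat_lit 152) (nat_lit 726801528710) (nat_lit 0) (nat_lit 596350202921) (nat_lit 1) (nat_lit 5) (nat_lit 3) (nat_lit 4) (nat_lit 1) (nat_lit 4) (nat_lit 334) (nat_lit 234) (nat_lit 152)) (XT.lf (nat_lit 0) (nat_lit 657659395026) (nat_lit 152) (nat_lit 778645369714) (nat_lit 0) (nat_lit 647474895957) (nat_lit 1) (nat_lit 5) (nat_lit 3) (nat_lit 4) (nat_lit 1) (nat_lit 4) (nat_lit 335) (nat_lit 234) (nat_lit 151))))))))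
noncomputable def xc40 : XT := (XT.nd (nat_lit 32526) (nat_lit 0) (nat_lit 152) (XT.nd (nat_lit 31590) (nat_lit 0) (nat_lit 532) (XT.nd (nat_lit 31122) (nat_lit 0) (nat_lit 1368) (XT.nd (nat_lit 30888) (nat_lit 0) (nat_lit 2052) (XT.nd (nat_lit 78) (nat_lit 0) (nat_lit 0) (XT.lf (nat_lit 0) (nat_lit 712874662971) (nat_lit 152) (nat_lit 834638345048) (nat_lit 0) (nat_lit 702688892845) (nat_lit 1) (nat_lit 5) (nat_lit 3) (nat_lit 4) (nat_lit 1) (nat_lit 4) (nat_lit 336) (nat_lit 234) (nat_lit 150)) (XT.nd (nat_lit 30732) (nat_lit 0) (nat_lit 2812) (XT.lf (nat_lit 0) (nat_lit 772506334671) (nat_lit 152) (nat_lit 895112264938) (nat_lit 0) (nat_lit 762319387639) (nat_lit 1) (nat_lit 5) (nat_lit 3) (nat_lit 4) (nat_lit 1) (nat_lit 4) (nat_lit 337) (nat_lit 234) (nat_lit 149)) (XT.lf (nat_lit 0) (nat_lit 1374179415) (nat_lit 380) (nat_lit 1128353584) (nat_lit 380) (nat_lit 1128353584) (nat_lit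 38) (nat_lit 4) (nat_lit 43) (nat_lit 5) (nat_lit 43) (nat_lit 4) (nat_lit 250) (nat_lit 235) (nat_lit 235)))) (XT.nd (nat_lit 78) (nat_lit 684) (nat_lit 0) (XT.lf (nat_lit 0) (nat_lit 698667675) (nat_lit 456) (nat_lit 57375845) (nat_lit 76) (nat_lit 6693544969) (nat_lit 37) (nat_lit 5) (nat_lit 43) (nat_lit 5) (nat_lit 38) (nat_lit 4) (nat_lit 251) (nat_lit 235) (nat_lit 234)) (XT.nd (nat_lit 78) (nat_lit 228) (nat_lit 0) (XT.lf (nat_lit 0) (nat_lit 3684176954) (nat_lit 532) (nat_lit 2981691666) (nat_lit 0) (nat_lit 990369006) (nat_lit 31) (nat_lit 5) (nat_lit 38) (nat_lit 4) (nat_lit 31) (nat_lit 4) (nat_lit 252) (nat_lit 235) (nat_lit 233)) (XT.lf (nat_lit 0) (nat_lit 1733532757) (nat_lit 228) (nat_lit 5026191569) (nat_lit 228) (nat_lit 1133216978) (nat_lit 28) (nat_lit 4) (nat_lit 31) (nat_lit 5) (nat_lit 31) (nat_lit 4) (nat_lit 253) (nat_lit 235) (nat_lit 232))))) (XT.nd (nat_lit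 234) (nat_lit 228) (nat_lit 0) (XT.nd (nat_lit 78) (nat_lit 380) (nat_lit 0) (XT.lf (nat_lit 0) (nat_lit 1711288622) (nat_lit 304) (nat_lit 1443833740) (nat_lit 76) (nat_lit 5001108840) (nat_lit 27) (nat_lit 5) (nat_lit 31) (nat_lit 5) (nat_lit 28) (nat_lit 4) (nat_lit 254) (nat_lit 235) (nat_lit 231)) (XT.nd (nat_lit 78) (nat_lit 228) (nat_lit 0) (XT.lf (nat_lit 0) (nat_lit 3567727629) (nat_lit 152) (nat_lit 1047240553) (nat_lit 228) (nat_lit 3833119178) (nat_lit 25) (nat_lit 5) (nat_lit 27) (nat_lit 5) (nat_lit 28) (nat_lit 4) (nat_lit 255) (nat_lit 235) (nat_lit 230)) (XT.lf (nat_lit 0) (nat_lit 33887034) (nat_lit 228) (nat_lit 7602893076) (nat_lit 228) (nat_lit 1136834433) (nat_lit 22) (nat_lit 4) (nat_lit 25) (nat_lit 5) (nat_lit 25) (nat_lit 4) (nat_lit 256) (nat_lit 235) (nat_lit 229)))) (XT.nd (nat_lit 78) (nat_lit 152) (nat_lit 0) (XT.lf (nat_lit 0) (nat_lit 1667866472) (nat_lit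 304) (nat_lit 3813029048) (nat_lit 76) (nat_lit 3643371749) (nat_lit 21) (nat_lit 5) (nat_lit 25) (nat_lit 5) (nat_lit 22) (nat_lit 4) (nat_lit 257) (nat_lit 235) (nat_lit 228)) (XT.nd (nat_lit 78) (nat_lit 0) (nat_lit 0) (XT.lf (nat_lit 0) (nat_lit 1318312758) (nat_lit 152) (nat_lit 3179851888) (nat_lit 228) (nat_lit 5014378453) (nat_lit 19) (nat_lit 5) (nat_lit 21) (nat_lit 5) (nat_lit 22) (nat_lit 4) (nat_lit 258) (nat_lit 235) (nat_lit 227)) (XT.lf (nat_lit 0) (nat_lit 6856819825) (nat_lit 152) (nat_lit 640483901) (nat_lit 228) (nat_lit 2440058277) (nat_lit 19) (nat_lit 5) (nat_lit 21) (nat_lit 5) (nat_lit 22) (nat_lit 4) (nat_lit 259) (nat_lit 235) (nat_lit 226)))))) (XT.nd (nat_lit 468) (nat_lit 304) (nat_lit 0) (XT.nd (nat_lit 234) (nat_lit 228) (nat_lit 0) (XT.nd (nat_lit 78) (nat_lit 76) (nat_lit 0) (XT.lf (nat_lit 0) (nat_lit 275739002) (nat_lit 228) (nat_lit 8116689126)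 (nat_lit 76) (nat_lit 2007629359) (nat_lit 16) (nat_lit 5) (nat_lit 19) (nat_lit 5) (nat_lit 17) (nat_lit 4) (nat_lit 260) (nat_lit 235) (nat_lit 225)) (XT.nd (nat_lit 78) (nat_lit 76) (nat_lit 0) (XT.lf (nat_lit 0) (nat_lit 3030544375) (nat_lit 228) (nat_lit 2942140129) (nat_lit 76) (nat_lit 4926422290) (nat_lit 16) (nat_lit 5) (nat_lit 19) (nat_lit 5) (nat_lit 17) (nat_lit 4) (nat_lit 261) (nat_lit 235) (nat_lit 224)) (XT.lf (nat_lit 0) (nat_lit 2572764736) (nat_lit 76) (nat_lit 3356436795) (nat_lit 152) (nat_lit 5515643818) (nat_lit 15) (nat_lit 5) (nat_lit 16) (nat_lit 5) (nat_lit 17) (nat_lit 4) (nat_lit 262) (nat_lit 235) (nat_lit 223)))) (XT.nd (nat_lit 78) (nat_lit 228) (nat_lit 0) (XT.lf (nat_lit 0) (nat_lit 8498997670) (nat_lit 76) (nat_lit 508299297) (nat_lit 152) (nat_lit 3031737446) (nat_lit 15) (nat_lit 5) (nat_lit 16) (nat_lit 5) (nat_lit 17) (nat_lit 4) (nat_lit 263)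 (nat_lit 235) (nat_lit 222)) (XT.nd (nat_lit 78) (nat_lit 76) (nat_lit 0) (XT.lf (nat_lit 0) (nat_lit 2068761806) (nat_lit 152) (nat_lit 10249900022) (nat_lit 152) (nat_lit 363686032) (nat_lit 13) (nat_lit 4) (nat_lit 15) (nat_lit 5) (nat_lit 15) (nat_lit 4) (nat_lit 264) (nat_lit 235) (nat_lit 221)) (XT.lf (nat_lit 0) (nat_lit 2381016950) (nat_lit 228) (nat_lit 5311726070) (nat_lit 76) (nat_lit 5680878811) (nat_lit 12) (nat_lit 5) (nat_lit 15) (nat_lit 5) (nat_lit 13) (nat_lit 4) (nat_lit 265) (nat_lit 235) (nat_lit 220))))) (XT.nd (nat_lit 234) (nat_lit 228) (nat_lit 0) (XT.nd (nat_lit 78) (nat_lit 0) (nat_lit 0) (XT.lf (nat_lit 0) (nat_lit 237394912) (nat_lit 76) (nat_lit 4979750064) (nat_lit 152) (nat_lit 8911414650) (nat_lit 11) (nat_lit 5) (nat_lit 12) (nat_lit 5) (nat_lit 13) (nat_lit 4) (nat_lit 266) (nat_lit 235) (nat_lit 219)) (XT.nd (nat_lit 78) (nat_lit 0) (nat_lit 0) (XT.lf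 (nat_lit 0) (nat_lit 6357750943) (nat_lit 76) (nat_lit 1957689005) (nat_lit 152) (nat_lit 6626035364) (nat_lit 11) (nat_lit 5) (nat_lit 12) (nat_lit 5) (nat_lit 13) (nat_lit 4) (nat_lit 267) (nat_lit 235) (nat_lit 218)) (XT.lf (nat_lit 0) (nat_lit 11589757191) (nat_lit 152) (nat_lit 3052008513) (nat_lit 0) (nat_lit 1183780858) (nat_lit 11) (nat_lit 5) (nat_lit 13) (nat_lit 4) (nat_lit 11) (nat_lit 4) (nat_lit 268) (nat_lit 235) (nat_lit 217)))) (XT.nd (nat_lit 78) (nat_lit 76) (nat_lit 0) (XT.lf (nat_lit 0) (nat_lit 2857967187) (nat_lit 152) (nat_lit 12292030359) (nat_lit 152) (nat_lit 1628774973) (nat_lit 9) (nat_lit 4) (nat_lit 11) (nat_lit 5) (nat_lit 11) (nat_lit 4) (nat_lit 269) (nat_lit 235) (nat_lit 216)) (XT.nd (nat_lit 78) (nat_lit 0) (nat_lit 0) (XT.lf (nat_lit 0) (nat_lit 1118157118) (nat_lit 228) (nat_lit 8575709926) (nat_lit 76) (nat_lit 8113145781) (nat_lit 8) (nat_lit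 5) (nat_lit 11) (nat_lit 5) (nat_lit 9) (nat_lit 4) (nat_lit 270) (nat_lit 235) (nat_lit 215)) (XT.lf (nat_lit 0) (nat_lit 3908986815) (nat_lit 228) (nat_lit 2991359477) (nat_lit 76) (nat_lit 12021086099) (nat_lit 8) (nat_lit 5) (nat_lit 11) (nat_lit 5) (nat_lit 9) (nat_lit 4) (nat_lit 271) (nat_lit 235) (nat_lit 214))))))) (XT.nd (nat_lit 936) (nat_lit 76) (nat_lit 0) (XT.nd (nat_lit 468) (nat_lit 152) (nat_lit 0) (XT.nd (nat_lit 234) (nat_lit 76) (nat_lit 0) (XT.nd (nat_lit 78) (nat_lit 0) (nat_lit 0) (XT.lf (nat_lit 0) (nat_lit 3057456915) (nat_lit 76) (nat_lit 3857805284) (nat_lit 152) (nat_lit 13210624199) (nat_lit 7) (nat_lit 5) (nat_lit 8) (nat_lit 5) (nat_lit 9) (nat_lit 4) (nat_lit 272) (nat_lit 235) (nat_lit 213)) (XT.nd (nat_lit 78) (nat_lit 0) (nat_lit 0) (XT.lf (nat_lit 0) (nat_lit 9628494921) (nat_lit 76) (nat_lit 536837370) (nat_lit 152) (nat_lit 11261337336) (nat_lit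 7) (nat_lit 5) (nat_lit 8) (nat_lit 5) (nat_lit 9) (nat_lit 4) (nat_lit 273) (nat_lit 235) (nat_lit 212)) (XT.lf (nat_lit 0) (nat_lit 13674886995) (nat_lit 152) (nat_lit 6306535390) (nat_lit 0) (nat_lit 2850353619) (nat_lit 7) (nat_lit 5) (nat_lit 9) (nat_lit 4) (nat_lit 7) (nat_lit 4) (nat_lit 274) (nat_lit 235) (nat_lit 211)))) (XT.nd (nat_lit 78) (nat_lit 76) (nat_lit 0) (XT.lf (nat_lit 0) (nat_lit 17410752727) (nat_lit 152) (nat_lit 506997541) (nat_lit 0) (nat_lit 6436099494) (nat_lit 7) (nat_lit 5) (nat_lit 9) (nat_lit 4) (nat_lit 7) (nat_lit 4) (nat_lit 275) (nat_lit 235) (nat_lit 210)) (XT.nd (nat_lit 78) (nat_lit 0) (nat_lit 0) (XT.lf (nat_lit 0) (nat_lit 5945116214) (nat_lit 76) (nat_lit 15580020971) (nat_lit 76) (nat_lit 4466367871) (nat_lit 6) (nat_lit 4) (nat_lit 7) (nat_lit 5) (nat_lit 7) (nat_lit 4) (nat_lit 276) (nat_lit 235) (nat_lit 209)) (XT.lf (nat_lit 0) (nat_lit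 12836200633) (nat_lit 76) (nat_lit 13085144358) (nat_lit 76) (nat_lit 1842787676) (nat_lit 6) (nat_lit 4) (nat_lit 7) (nat_lit 5) (nat_lit 7) (nat_lit 4) (nat_lit 277) (nat_lit 235) (nat_lit 208))))) (XT.nd (nat_lit 234) (nat_lit 0) (nat_lit 0) (XT.nd (nat_lit 78) (nat_lit 76) (nat_lit 0) (XT.lf (nat_lit 0) (nat_lit 882839704) (nat_lit 152) (nat_lit 9525220078) (nat_lit 76) (nat_lit 19273416072) (nat_lit 5) (nat_lit 5) (nat_lit 7) (nat_lit 5) (nat_lit 6) (nat_lit 4) (nat_lit 278) (nat_lit 235) (nat_lit 207)) (XT.nd (nat_lit 78) (nat_lit 76) (nat_lit 0) (XT.lf (nat_lit 0) (nat_lit 3672994564) (nat_lit 152) (nat_lit 3832040544) (nat_lit 76) (nat_lit 24247797250) (nat_lit 5) (nat_lit 5) (nat_lit 7) (nat_lit 5) (nat_lit 6) (nat_lit 4) (nat_lit 279) (nat_lit 235) (nat_lit 206)) (XT.lf (nat_lit 0) (nat_lit 2347073118) (nat_lit 76) (nat_lit 4345768905) (nat_lit 152) (nat_lit 27296664618)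 (nat_lit 4) (nat_lit 5) (nat_lit 5) (nat_lit 5) (nat_lit 6) (nat_lit 4) (nat_lit 280) (nat_lit 235) (nat_lit 205)))) (XT.nd (nat_lit 78) (nat_lit 0) (nat_lit 0) (XT.lf (nat_lit 0) (nat_lit 9153717847) (nat_lit 76) (nat_lit 857030764) (nat_lit 152) (nat_lit 26389966765) (nat_lit 4) (nat_lit 5) (nat_lit 5) (nat_lit 5) (nat_lit 6) (nat_lit 4) (nat_lit 281) (nat_lit 235) (nat_lit 204)) (XT.nd (nat_lit 78) (nat_lit 0) (nat_lit 0) (XT.lf (nat_lit 0) (nat_lit 13618556121) (nat_lit 152) (nat_lit 22651261261) (nat_lit 0) (nat_lit 2733155417) (nat_lit 4) (nat_lit 5) (nat_lit 6) (nat_lit 4) (nat_lit 4) (nat_lit 4) (nat_lit 282) (nat_lit 235) (nat_lit 203)) (XT.lf (nat_lit 0) (nat_lit 17495085278) (nat_lit 152) (nat_lit 17785431853) (nat_lit 0) (nat_lit 6534587271) (nat_lit 4) (nat_lit 5) (nat_lit 6) (nat_lit 4) (nat_lit 4) (nat_lit 4) (nat_lit 283) (nat_lit 235) (nat_lit 202)))))) (XT.nd (nat_lit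 468) (nat_lit 0) (nat_lit 0) (XT.nd (nat_lit 234) (nat_lit 76) (nat_lit 0) (XT.nd (nat_lit 78) (nat_lit 0) (nat_lit 0) (XT.lf (nat_lit 0) (nat_lit 21642696499) (nat_lit 152) (nat_lit 12600063150) (nat_lit 0) (nat_lit 10612663951) (nat_lit 4) (nat_lit 5) (nat_lit 6) (nat_lit 4) (nat_lit 4) (nat_lit 4) (nat_lit 284) (nat_lit 235) (nat_lit 201)) (XT.nd (nat_lit 78) (nat_lit 0) (nat_lit 0) (XT.lf (nat_lit 0) (nat_lit 26085968218) (nat_lit 152) (nat_lit 7064427042) (nat_lit 0) (nat_lit 14991551837) (nat_lit 4) (nat_lit 5) (nat_lit 6) (nat_lit 4) (nat_lit 4) (nat_lit 4) (nat_lit 285) (nat_lit 235) (nat_lit 200)) (XT.lf (nat_lit 0) (nat_lit 30851230937) (nat_lit 152) (nat_lit 1145719759) (nat_lit 0) (nat_lit 19697199895) (nat_lit 4) (nat_lit 5) (nat_lit 6) (nat_lit 4) (nat_lit 4) (nat_lit 4) (nat_lit 286) (nat_lit 235) (nat_lit 199)))) (XT.nd (nat_lit 78) (nat_lit 0) (nat_lit 0) (XT.lf (nat_lit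 0) (nat_lit 5464488359) (nat_lit 76) (nat_lit 30633655965) (nat_lit 76) (nat_lit 19424426164) (nat_lit 3) (nat_lit 4) (nat_lit 4) (nat_lit 5) (nat_lit 4) (nat_lit 4) (nat_lit 287) (nat_lit 235) (nat_lit 198)) (XT.nd (nat_lit 78) (nat_lit 0) (nat_lit 0) (XT.lf (nat_lit 0) (nat_lit 12614720944) (nat_lit 76) (nat_lit 29151422578) (nat_lit 76) (nat_lit 17891082814) (nat_lit 3) (nat_lit 4) (nat_lit 4) (nat_lit 5) (nat_lit 4) (nat_lit 4) (nat_lit 288) (nat_lit 235) (nat_lit 197)) (XT.lf (nat_lit 0) (nat_lit 20287018172) (nat_lit 76) (nat_lit 27572792937) (nat_lit 76) (nat_lit 16265129134) (nat_lit 3) (nat_lit 4) (nat_lit 4) (nat_lit 5) (nat_lit 4) (nat_lit 4) (nat_lit 289) (nat_lit 235) (nat_lit 196))))) (XT.nd (nat_lit 234) (nat_lit 0) (nat_lit 0) (XT.nd (nat_lit 78) (nat_lit 0) (nat_lit 0) (XT.lf (nat_lit 0) (nat_lit 28526845508) (nat_lit 76) (nat_lit 25888412201) (nat_lit 76) (nat_lit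 14536929843) (nat_lit 3) (nat_lit 4) (nat_lit 4) (nat_lit 5) (nat_lit 4) (nat_lit 4) (nat_lit 290) (nat_lit 235) (nat_lit 195)) (XT.nd (nat_lit 78) (nat_lit 0) (nat_lit 0) (XT.lf (nat_lit 0) (nat_lit 37383031558) (nat_lit 76) (nat_lit 24088298855) (nat_lit 76) (nat_lit 12696243760) (nat_lit 3) (nat_lit 4) (nat_lit 4) (nat_lit 5) (nat_lit 4) (nat_lit 4) (nat_lit 291) (nat_lit 235) (nat_lit 194)) (XT.lf (nat_lit 0) (nat_lit 46908057426) (nat_lit 76) (nat_lit 22161785559) (nat_lit 76) (nat_lit 10732163116) (nat_lit 3) (nat_lit 4) (nat_lit 4) (nat_lit 5) (nat_lit 4) (nat_lit 4) (nat_lit 292) (nat_lit 235) (nat_lit 193)))) (XT.nd (nat_lit 78) (nat_lit 0) (nat_lit 0) (XT.lf (nat_lit 0) (nat_lit 57158367709) (nat_lit 76) (nat_lit 20097455939) (nat_lit 76) (nat_lit 8633048914) (nat_lit 3) (nat_lit 4) (nat_lit 4) (nat_lit 5) (nat_lit 4) (nat_lit 4) (nat_lit 293) (nat_lit 235) (nat_lit 192))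 (XT.nd (nat_lit 78) (nat_lit 0) (nat_lit 0) (XT.lf (nat_lit 0) (nat_lit 68194704986) (nat_lit 76) (nat_lit 17883076930) (nat_lit 76) (nat_lit 6386461959) (nat_lit 3) (nat_lit 4) (nat_lit 4) (nat_lit 5) (nat_lit 4) (nat_lit 4) (nat_lit 294) (nat_lit 235) (nat_lit 191)) (XT.lf (nat_lit 0) (nat_lit 80082469775) (nat_lit 76) (nat_lit 15505526287) (nat_lit 76) (nat_lit 3979089143) (nat_lit 3) (nat_lit 4) (nat_lit 4) (nat_lit 5) (nat_lit 4) (nat_lit 4) (nat_lit 295) (nat_lit 235) (nat_lit 190))))))))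
noncomputable def xc41 : XT := (XT.nd (nat_lit 1872) (nat_lit 0) (nat_lit 0) (XT.nd (nat_lit 936) (nat_lit 0) (nat_lit 0) (XT.nd (nat_lit 468) (nat_lit 0) (nat_lit 0) (XT.nd (nat_lit 234) (nat_lit 76) (nat_lit 0) (XT.nd (nat_lit 78) (nat_lit 76) (nat_lit 0) (XT.lf (nat_lit 0) (nat_lit 92892108089) (nat_lit 76) (nat_lit 12950714819) (nat_lit 76) (nat_lit 1396664553) (nat_lit 3) (nat_lit 4) (nat_lit 4) (nat_lit 5) (nat_lit 4) (nat_lit 4) (nat_lit 296) (nat_lit 235) (nat_lit 189)) (XT.nd (nat_lit 78) (nat_lit 0) (nat_lit 0) (XT.lf (nat_lit 0) (nat_lit 1307276218) (nat_lit 152) (nat_lit 8860483438) (nat_lit 76) (nat_lit 105356509429) (nat_lit 2) (nat_lit 5) (nat_lit 4) (nat_lit 5) (nat_lit 3) (nat_lit 4) (nat_lit 297) (nat_lit 235) (nat_lit 188)) (XT.lf (nat_lit 0) (nat_lit 4137792200) (nat_lit 152) (nat_lit 2996683997) (nat_lit 76) (nat_lit 117335627176) (nat_lit 2) (nat_lit 5) (nat_lit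 4) (nat_lit 5) (nat_lit 3) (nat_lit 4) (nat_lit 298) (nat_lit 235) (nat_lit 187)))) (XT.nd (nat_lit 78) (nat_lit 0) (nat_lit 0) (XT.lf (nat_lit 0) (nat_lit 3486780068) (nat_lit 76) (nat_lit 3778600715) (nat_lit 152) (nat_lit 126860600509) (nat_lit 1) (nat_lit 5) (nat_lit 2) (nat_lit 5) (nat_lit 3) (nat_lit 4) (nat_lit 299) (nat_lit 235) (nat_lit 186)) (XT.nd (nat_lit 78) (nat_lit 0) (nat_lit 0) (XT.lf (nat_lit 0) (nat_lit 10636087248) (nat_lit 76) (nat_lit 76218366) (nat_lit 152) (nat_lit 133836518858) (nat_lit 1) (nat_lit 5) (nat_lit 2) (nat_lit 5) (nat_lit 3) (nat_lit 4) (nat_lit 300) (nat_lit 235) (nat_lit 185)) (XT.lf (nat_lit 0) (nat_lit 14517227456) (nat_lit 152) (nat_lit 137564763367) (nat_lit 0) (nat_lit 3716948328) (nat_lit 1) (nat_lit 5) (nat_lit 3) (nat_lit 4) (nat_lit 1) (nat_lit 4) (nat_lit 301) (nat_lit 235) (nat_lit 184))))) (XT.nd (nat_lit 234) (nat_lit 0) (nat_lit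 0) (XT.nd (nat_lit 78) (nat_lit 0) (nat_lit 0) (XT.lf (nat_lit 0) (nat_lit 18617328577) (nat_lit 152) (nat_lit 141531555871) (nat_lit 0) (nat_lit 7800937458) (nat_lit 1) (nat_lit 5) (nat_lit 3) (nat_lit 4) (nat_lit 1) (nat_lit 4) (nat_lit 302) (nat_lit 235) (nat_lit 183)) (XT.nd (nat_lit 78) (nat_lit 0) (nat_lit 0) (XT.lf (nat_lit 0) (nat_lit 23035072820) (nat_lit 152) (nat_lit 145834788603) (nat_lit 0) (nat_lit 12203763190) (nat_lit 1) (nat_lit 5) (nat_lit 3) (nat_lit 4) (nat_lit 1) (nat_lit 4) (nat_lit 303) (nat_lit 235) (nat_lit 182)) (XT.lf (nat_lit 0) (nat_lit 27796639410) (nat_lit 152) (nat_lit 150499962200) (nat_lit 0) (nat_lit 16951516343) (nat_lit 1) (nat_lit 5) (nat_lit 3) (nat_lit 4) (nat_lit 1) (nat_lit 4) (nat_lit 304) (nat_lit 235) (nat_lit 181)))) (XT.nd (nat_lit 78) (nat_lit 0) (nat_lit 0) (XT.lf (nat_lit 0) (nat_lit 32930245038) (nat_lit 152) (nat_lit 155554722137)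 (nat_lit 0) (nat_lit 22072331753) (nat_lit 1) (nat_lit 5) (nat_lit 3) (nat_lit 4) (nat_lit 1) (nat_lit 4) (nat_lit 305) (nat_lit 235) (nat_lit 180)) (XT.nd (nat_lit 78) (nat_lit 0) (nat_lit 0) (XT.lf (nat_lit 0) (nat_lit 38466311070) (nat_lit 152) (nat_lit 161029022545) (nat_lit 0) (nat_lit 27596554990) (nat_lit 1) (nat_lit 5) (nat_lit 3) (nat_lit 4) (nat_lit 1) (nat_lit 4) (nat_lit 306) (nat_lit 235) (nat_lit 179)) (XT.lf (nat_lit 0) (nat_lit 44437643824) (nat_lit 152) (nat_lit 166955303724) (nat_lit 0) (nat_lit 33556922193) (nat_lit 1) (nat_lit 5) (nat_lit 3) (nat_lit 4) (nat_lit 1) (nat_lit 4) (nat_lit 307) (nat_lit 235) (nat_lit 178)))))) (XT.nd (nat_lit 468) (nat_lit 0) (nat_lit 0) (XT.nd (nat_lit 234) (nat_lit 0) (nat_lit 0) (XT.nd (nat_lit 78) (nat_lit 0) (nat_lit 0) (XT.lf (nat_lit 0) (nat_lit 50879628976) (nat_lit 152) (nat_lit 173368684377) (nat_lit 0) (nat_lit 39988754057)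 (nat_lit 1) (nat_lit 5) (nat_lit 3) (nat_lit 4) (nat_lit 1) (nat_lit 4) (nat_lit 308) (nat_lit 235) (nat_lit 177)) (XT.nd (nat_lit 78) (nat_lit 0) (nat_lit 0) (XT.lf (nat_lit 0) (nat_lit 57830441251) (nat_lit 152) (nat_lit 180307169723) (nat_lit 0) (nat_lit 46930165140) (nat_lit 1) (nat_lit 5) (nat_lit 3) (nat_lit 4) (nat_lit 1) (nat_lit 4) (nat_lit 309) (nat_lit 235) (nat_lit 176)) (XT.lf (nat_lit 0) (nat_lit 65331270650) (nat_lit 152) (nat_lit 187811876711) (nat_lit 0) (nat_lit 54422289731) (nat_lit 1) (nat_lit 5) (nat_lit 3) (nat_lit 4) (nat_lit 1) (nat_lit 4) (nat_lit 310) (nat_lit 235) (nat_lit 175)))) (XT.nd (nat_lit 78) (nat_lit 0) (nat_lit 0) (XT.lf (nat_lit 0) (nat_lit 73426566530) (nat_lit 152) (nat_lit 195927277680) (nat_lit 0) (nat_lit 62509525604) (nat_lit 1) (nat_lit 5) (nat_lit 3) (nat_lit 4) (nat_lit 1) (nat_lit 4) (nat_lit 311) (nat_lit 235) (nat_lit 174)) (XT.nd (nat_lit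 78) (nat_lit 0) (nat_lit 0) (XT.lf (nat_lit 0) (nat_lit 82164301017) (nat_lit 152) (nat_lit 204701463895) (nat_lit 0) (nat_lit 71239797121) (nat_lit 1) (nat_lit 5) (nat_lit 3) (nat_lit 4) (nat_lit 1) (nat_lit 4) (nat_lit 312) (nat_lit 235) (nat_lit 173)) (XT.lf (nat_lit 0) (nat_lit 91596253277) (nat_lit 152) (nat_lit 214186430532) (nat_lit 0) (nat_lit 80664839224) (nat_lit 1) (nat_lit 5) (nat_lit 3) (nat_lit 4) (nat_lit 1) (nat_lit 4) (nat_lit 313) (nat_lit 235) (nat_lit 172))))) (XT.nd (nat_lit 234) (nat_lit 0) (nat_lit 0) (XT.nd (nat_lit 78) (nat_lit 0) (nat_lit 0) (XT.lf (nat_lit 0) (nat_lit 101778316361) (nat_lit 152) (nat_lit 224438384803) (nat_lit 0) (nat_lit 90840504014) (nat_lit 1) (nat_lit 5) (nat_lit 3) (nat_lit 4) (nat_lit 1) (nat_lit 4) (nat_lit 314) (nat_lit 235) (nat_lit 171)) (XT.nd (nat_lit 78) (nat_lit 0) (nat_lit 0) (XT.lf (nat_lit 0) (nat_lit 112770828420) (nat_lit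 152) (nat_lit 235518079027) (nat_lit 0) (nat_lit 101827091727) (nat_lit 1) (nat_lit 5) (nat_lit 3) (nat_lit 4) (nat_lit 1) (nat_lit 4) (nat_lit 315) (nat_lit 235) (nat_lit 170)) (XT.lf (nat_lit 0) (nat_lit 124638930266) (nat_lit 152) (nat_lit 247491170654) (nat_lit 0) (nat_lit 113689708068) (nat_lit 1) (nat_lit 5) (nat_lit 3) (nat_lit 4) (nat_lit 1) (nat_lit 4) (nat_lit 316) (nat_lit 235) (nat_lit 169)))) (XT.nd (nat_lit 78) (nat_lit 0) (nat_lit 0) (XT.lf (nat_lit 0) (nat_lit 137452951393) (nat_lit 152) (nat_lit 260428611336) (nat_lit 0) (nat_lit 126498650023) (nat_lit 1) (nat_lit 5) (nat_lit 3) (nat_lit 4) (nat_lit 1) (nat_lit 4) (nat_lit 317) (nat_lit 235) (nat_lit 168)) (XT.nd (nat_lit 78) (nat_lit 0) (nat_lit 0) (XT.lf (nat_lit 0) (nat_lit 151288826739) (nat_lit 152) (nat_lit 274407067389) (nat_lit 0) (nat_lit 140329822432) (nat_lit 1) (nat_lit 5) (nat_lit 3) (nat_lit 4) (nat_lit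 1) (nat_lit 4) (nat_lit 318) (nat_lit 235) (nat_lit 167)) (XT.lf (nat_lit 0) (nat_lit 166228546678) (nat_lit 152) (nat_lit 289509374108) (nat_lit 0) (nat_lit 155265187800) (nat_lit 1) (nat_lit 5) (nat_lit 3) (nat_lit 4) (nat_lit 1) (nat_lit 4) (nat_lit 319) (nat_lit 235) (nat_lit 166))))))) (XT.nd (nat_lit 936) (nat_lit 0) (nat_lit 0) (XT.nd (nat_lit 468) (nat_lit 0) (nat_lit 0) (XT.nd (nat_lit 234) (nat_lit 0) (nat_lit 0) (XT.nd (nat_lit 78) (nat_lit 0) (nat_lit 0) (XT.lf (nat_lit 0) (nat_lit 182360642883) (nat_lit 152) (nat_lit 305825026644) (nat_lit 0) (nat_lit 171393251995) (nat_lit 1) (nat_lit 5) (nat_lit 3) (nat_lit 4) (nat_lit 1) (nat_lit 4) (nat_lit 320) (nat_lit 235) (nat_lit 165)) (XT.nd (nat_lit 78) (nat_lit 0) (nat_lit 0) (XT.lf (nat_lit 0) (nat_lit 199780712961) (nat_lit 152) (nat_lit 323450710346) (nat_lit 0) (nat_lit 188809588730) (nat_lit 1) (nat_lit 5) (nat_lit 3)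 (nat_lit 4) (nat_lit 1) (nat_lit 4) (nat_lit 321) (nat_lit 235) (nat_lit 164)) (XT.lf (nat_lit 0) (nat_lit 218591986958) (nat_lit 152) (nat_lit 342490873709) (nat_lit 0) (nat_lit 207617405928) (nat_lit 1) (nat_lit 5) (nat_lit 3) (nat_lit 4) (nat_lit 1) (nat_lit 4) (nat_lit 322) (nat_lit 235) (nat_lit 163)))) (XT.nd (nat_lit 78) (nat_lit 0) (nat_lit 0) (XT.lf (nat_lit 0) (nat_lit 238905939089) (nat_lit 152) (nat_lit 363058347330) (nat_lit 0) (nat_lit 227928157319) (nat_lit 1) (nat_lit 5) (nat_lit 3) (nat_lit 4) (nat_lit 1) (nat_lit 4) (nat_lit 323) (nat_lit 235) (nat_lit 162)) (XT.nd (nat_lit 78) (nat_lit 0) (nat_lit 0) (XT.lf (nat_lit 0) (nat_lit 260842948330) (nat_lit 152) (nat_lit 385275012536) (nat_lit 0) (nat_lit 249862202912) (nat_lit 1) (nat_lit 5) (nat_lit 3) (nat_lit 4) (nat_lit 1) (nat_lit 4) (nat_lit 324) (nat_lit 235) (nat_lit 161)) (XT.lf (nat_lit 0) (nat_lit 284533011772)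 (nat_lit 152) (nat_lit 409272523639) (nat_lit 0) (nat_lit 273549522236) (nat_lit 1) (nat_lit 5) (nat_lit 3) (nat_lit 4) (nat_lit 1) (nat_lit 4) (nat_lit 325) (nat_lit 235) (nat_lit 160))))) (XT.nd (nat_lit 234) (nat_lit 0) (nat_lit 0) (XT.nd (nat_lit 78) (nat_lit 0) (nat_lit 0) (XT.lf (nat_lit 0) (nat_lit 310116514978) (nat_lit 152) (nat_lit 435193088111) (nat_lit 0) (nat_lit 299130484591) (nat_lit 1) (nat_lit 5) (nat_lit 3) (nat_lit 4) (nat_lit 1) (nat_lit 4) (nat_lit 326) (nat_lit 235) (nat_lit 159)) (XT.nd (nat_lit 78) (nat_lit 0) (nat_lit 0) (XT.lf (nat_lit 0) (nat_lit 337745063892) (nat_lit 152) (nat_lit 463190309298) (nat_lit 0) (nat_lit 326756680866) (nat_lit 1) (nat_lit 5) (nat_lit 3) (nat_lit 4) (nat_lit 1) (nat_lit 4) (nat_lit 327) (nat_lit 235) (nat_lit 158)) (XT.lf (nat_lit 0) (nat_lit 367582383247) (nat_lit 152) (nat_lit 493430096659) (nat_lit 0) (nat_lit 356591821852)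 (nat_lit 1) (nat_lit 5) (nat_lit 3) (nat_lit 4) (nat_lit 1) (nat_lit 4) (nat_lit 328) (nat_lit 235) (nat_lit 157)))) (XT.nd (nat_lit 78) (nat_lit 0) (nat_lit 0) (XT.lf (nat_lit 0) (nat_lit 399805286790) (nat_lit 152) (nat_lit 526091648933) (nat_lit 0) (nat_lit 388812708385) (nat_lit 1) (nat_lit 5) (nat_lit 3) (nat_lit 4) (nat_lit 1) (nat_lit 4) (nat_lit 329) (nat_lit 235) (nat_lit 156)) (XT.nd (nat_lit 78) (nat_lit 0) (nat_lit 0) (XT.lf (nat_lit 0) (nat_lit 434604725058) (nat_lit 152) (nat_lit 561368516060) (nat_lit 0) (nat_lit 423610279052) (nat_lit 1) (nat_lit 5) (nat_lit 3) (nat_lit 4) (nat_lit 1) (nat_lit 4) (nat_lit 330) (nat_lit 235) (nat_lit 155)) (XT.lf (nat_lit 0) (nat_lit 472186916946) (nat_lit 152) (nat_lit 599469746142) (nat_lit 0) (nat_lit 461190741680) (nat_lit 1) (nat_lit 5) (nat_lit 3) (nat_lit 4) (nat_lit 1) (nat_lit 4) (nat_lit 331) (nat_lit 235) (nat_lit 154))))))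 (XT.nd (nat_lit 30966) (nat_lit 0) (nat_lit 1976) (XT.nd (nat_lit 234) (nat_lit 0) (nat_lit 0) (XT.nd (nat_lit 78) (nat_lit 0) (nat_lit 0) (XT.lf (nat_lit 0) (nat_lit 512774571738) (nat_lit 152) (nat_lit 640621124245) (nat_lit 0) (nat_lit 501776795306) (nat_lit 1) (nat_lit 5) (nat_lit 3) (nat_lit 4) (nat_lit 1) (nat_lit 4) (nat_lit 332) (nat_lit 235) (nat_lit 153)) (XT.nd (nat_lit 78) (nat_lit 0) (nat_lit 0) (XT.lf (nat_lit 0) (nat_lit 556608208871) (nat_lit 152) (nat_lit 685066510388) (nat_lit 0) (nat_lit 545608949877) (nat_lit 1) (nat_lit 5) (nat_lit 3) (nat_lit 4) (nat_lit 1) (nat_lit 4) (nat_lit 333) (nat_lit 235) (nat_lit 152)) (XT.lf (nat_lit 0) (nat_lit 603947583232) (nat_lit 152) (nat_lit 733069284637) (nat_lit 0) (nat_lit 592946951495) (nat_lit 1) (nat_lit 5) (nat_lit 3) (nat_lit 4) (nat_lit 1) (nat_lit 4) (nat_lit 334) (nat_lit 235) (nat_lit 151)))) (XT.nd (nat_lit 78) (nat_lit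 0) (nat_lit 0) (XT.lf (nat_lit 0) (nat_lit 655073224445) (nat_lit 152) (nat_lit 784913907877) (nat_lit 0) (nat_lit 644071321651) (nat_lit 1) (nat_lit 5) (nat_lit 3) (nat_lit 4) (nat_lit 1) (nat_lit 4) (nat_lit 335) (nat_lit 235) (nat_lit 150)) (XT.nd (nat_lit 78) (nat_lit 0) (nat_lit 0) (XT.lf (nat_lit 0) (nat_lit 710288099274) (nat_lit 152) (nat_lit 840907607504) (nat_lit 0) (nat_lit 699285019574) (nat_lit 1) (nat_lit 5) (nat_lit 3) (nat_lit 4) (nat_lit 1) (nat_lit 4) (nat_lit 336) (nat_lit 235) (nat_lit 149)) (XT.lf (nat_lit 0) (nat_lit 769919406978) (nat_lit 152) (nat_lit 901382198034) (nat_lit 0) (nat_lit 758915237551) (nat_lit 1) (nat_lit 5) (nat_lit 3) (nat_lit 4) (nat_lit 1) (nat_lit 4) (nat_lit 337) (nat_lit 235) (nat_lit 148))))) (XT.nd (nat_lit 234) (nat_lit 836) (nat_lit 0) (XT.nd (nat_lit 78) (nat_lit 380) (nat_lit 0) (XT.lf (nat_lit 0) (nat_lit 291910294) (nat_lit 380)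 (nat_lit 2895827056) (nat_lit 0) (nat_lit 291910294) (nat_lit 43) (nat_lit 5) (nat_lit 48) (nat_lit 4) (nat_lit 43) (nat_lit 4) (nat_lit 248) (nat_lit 236) (nat_lit 236)) (XT.nd (nat_lit 78) (nat_lit 380) (nat_lit 0) (XT.lf (nat_lit 0) (nat_lit 3518591106) (nat_lit 380) (nat_lit 1696493639) (nat_lit 0) (nat_lit 1887138126) (nat_lit 43) (nat_lit 5) (nat_lit 48) (nat_lit 4) (nat_lit 43) (nat_lit 4) (nat_lit 249) (nat_lit 236) (nat_lit 235)) (XT.lf (nat_lit 0) (nat_lit 2635875591) (nat_lit 380) (nat_lit 3888935957) (nat_lit 380) (nat_lit 746878367) (nat_lit 38) (nat_lit 4) (nat_lit 43) (nat_lit 5) (nat_lit 43) (nat_lit 4) (nat_lit 250) (nat_lit 236) (nat_lit 234)))) (XT.nd (nat_lit 156) (nat_lit 304) (nat_lit 0) (XT.nd (nat_lit 78) (nat_lit 456) (nat_lit 0) (XT.lf (nat_lit 0) (nat_lit 2025987204) (nat_lit 456) (nat_lit 326712176) (nat_lit 76) (nat_lit 5113299787) (nat_lit 37) (nat_lit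 5) (nat_lit 43) (nat_lit 5) (nat_lit 38) (nat_lit 4) (nat_lit 251) (nat_lit 236) (nat_lit 233)) (XT.lf (nat_lit 0) (nat_lit 4310281002) (nat_lit 456) (nat_lit 567674064) (nat_lit 532) (nat_lit 2806154627) (nat_lit 31) (nat_lit 5) (nat_lit 37) (nat_lit 5) (nat_lit 38) (nat_lit 4) (nat_lit 252) (nat_lit 236) (nat_lit 232))) (XT.nd (nat_lit 78) (nat_lit 76) (nat_lit 0) (XT.lf (nat_lit 0) (nat_lit 1221483632) (nat_lit 228) (nat_lit 6611793449) (nat_lit 228) (nat_lit 97874763) (nat_lit 28) (nat_lit 4) (nat_lit 31) (nat_lit 5) (nat_lit 31) (nat_lit 4) (nat_lit 253) (nat_lit 236) (nat_lit 231)) (XT.lf (nat_lit 0) (nat_lit 2602066099) (nat_lit 304) (nat_lit 2129713313) (nat_lit 76) (nat_lit 3468709808) (nat_lit 27) (nat_lit 5) (nat_lit 31) (nat_lit 5) (nat_lit 28) (nat_lit 4) (nat_lit 254) (nat_lit 236) (nat_lit 230))))))))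
noncomputable def xc42 : XT := (XT.nd (nat_lit 1872) (nat_lit 380) (nat_lit 0) (XT.nd (nat_lit 936) (nat_lit 456) (nat_lit 0) (XT.nd (nat_lit 468) (nat_lit 304) (nat_lit 0) (XT.nd (nat_lit 234) (nat_lit 380) (nat_lit 0) (XT.nd (nat_lit 78) (nat_lit 304) (nat_lit 0) (XT.lf (nat_lit 0) (nat_lit 2737813984) (nat_lit 152) (nat_lit 2662071558) (nat_lit 228) (nat_lit 3101500555) (nat_lit 25) (nat_lit 5) (nat_lit 27) (nat_lit 5) (nat_lit 28) (nat_lit 4) (nat_lit 255) (nat_lit 236) (nat_lit 229)) (XT.nd (nat_lit 78) (nat_lit 304) (nat_lit 0) (XT.lf (nat_lit 0) (nat_lit 7908022255) (nat_lit 152) (nat_lit 401301534) (nat_lit 228) (nat_lit 527108932) (nat_lit 25) (nat_lit 5) (nat_lit 27) (nat_lit 5) (nat_lit 28) (nat_lit 4) (nat_lit 256) (nat_lit 236) (nat_lit 228)) (XT.lf (nat_lit 0) (nat_lit 2132043593) (nat_lit 304) (nat_lit 5001927006) (nat_lit 76) (nat_lit 2061599531) (nat_lit 21) (nat_lit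 5) (nat_lit 25) (nat_lit 5) (nat_lit 22) (nat_lit 4) (nat_lit 257) (nat_lit 236) (nat_lit 227)))) (XT.nd (nat_lit 78) (nat_lit 380) (nat_lit 0) (XT.lf (nat_lit 0) (nat_lit 4855375599) (nat_lit 304) (nat_lit 37098653) (nat_lit 76) (nat_lit 4700349373) (nat_lit 21) (nat_lit 5) (nat_lit 25) (nat_lit 5) (nat_lit 22) (nat_lit 4) (nat_lit 258) (nat_lit 236) (nat_lit 226)) (XT.nd (nat_lit 78) (nat_lit 228) (nat_lit 0) (XT.lf (nat_lit 0) (nat_lit 5401434732) (nat_lit 152) (nat_lit 2380097506) (nat_lit 228) (nat_lit 2242338117) (nat_lit 19) (nat_lit 5) (nat_lit 21) (nat_lit 5) (nat_lit 22) (nat_lit 4) (nat_lit 259) (nat_lit 236) (nat_lit 225)) (XT.lf (nat_lit 0) (nat_lit 309815932) (nat_lit 228) (nat_lit 9896355267) (nat_lit 76) (nat_lit 292648127) (nat_lit 16) (nat_lit 5) (nat_lit 19) (nat_lit 5) (nat_lit 17) (nat_lit 4) (nat_lit 260) (nat_lit 236) (nat_lit 224))))) (XT.nd (nat_lit 234) (nat_lit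 228) (nat_lit 0) (XT.nd (nat_lit 78) (nat_lit 76) (nat_lit 0) (XT.lf (nat_lit 0) (nat_lit 2998079141) (nat_lit 228) (nat_lit 4819069810) (nat_lit 76) (nat_lit 3186352041) (nat_lit 16) (nat_lit 5) (nat_lit 19) (nat_lit 5) (nat_lit 17) (nat_lit 4) (nat_lit 261) (nat_lit 236) (nat_lit 223)) (XT.nd (nat_lit 78) (nat_lit 0) (nat_lit 0) (XT.lf (nat_lit 0) (nat_lit 502198092) (nat_lit 76) (nat_lit 5283127912) (nat_lit 152) (nat_lit 5773112463) (nat_lit 15) (nat_lit 5) (nat_lit 16) (nat_lit 5) (nat_lit 17) (nat_lit 4) (nat_lit 262) (nat_lit 236) (nat_lit 222)) (XT.lf (nat_lit 0) (nat_lit 6340652163) (nat_lit 76) (nat_lit 2463609012) (nat_lit 152) (nat_lit 3353364081) (nat_lit 15) (nat_lit 5) (nat_lit 16) (nat_lit 5) (nat_lit 17) (nat_lit 4) (nat_lit 263) (nat_lit 236) (nat_lit 221)))) (XT.nd (nat_lit 78) (nat_lit 228) (nat_lit 0) (XT.lf (nat_lit 0) (nat_lit 11963431704) (nat_lit 152) (nat_lit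 349904096) (nat_lit 0) (nat_lit 500023733) (nat_lit 15) (nat_lit 5) (nat_lit 17) (nat_lit 4) (nat_lit 15) (nat_lit 4) (nat_lit 264) (nat_lit 236) (nat_lit 220)) (XT.nd (nat_lit 78) (nat_lit 0) (nat_lit 0) (XT.lf (nat_lit 0) (nat_lit 1855100875) (nat_lit 228) (nat_lit 7954823460) (nat_lit 76) (nat_lit 3700974833) (nat_lit 12) (nat_lit 5) (nat_lit 15) (nat_lit 5) (nat_lit 13) (nat_lit 4) (nat_lit 265) (nat_lit 236) (nat_lit 219)) (XT.lf (nat_lit 0) (nat_lit 4634677287) (nat_lit 228) (nat_lit 2497402036) (nat_lit 76) (nat_lit 7138476484) (nat_lit 12) (nat_lit 5) (nat_lit 15) (nat_lit 5) (nat_lit 13) (nat_lit 4) (nat_lit 266) (nat_lit 236) (nat_lit 218)))))) (XT.nd (nat_lit 468) (nat_lit 152) (nat_lit 0) (XT.nd (nat_lit 234) (nat_lit 228) (nat_lit 0) (XT.nd (nat_lit 78) (nat_lit 0) (nat_lit 0) (XT.lf (nat_lit 0) (nat_lit 3413641988) (nat_lit 76) (nat_lit 4207157564) (nat_lit 152) (nat_lit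 7471826047) (nat_lit 11) (nat_lit 5) (nat_lit 12) (nat_lit 5) (nat_lit 13) (nat_lit 4) (nat_lit 267) (nat_lit 236) (nat_lit 217)) (XT.nd (nat_lit 78) (nat_lit 0) (nat_lit 0) (XT.lf (nat_lit 0) (nat_lit 9789755725) (nat_lit 76) (nat_lit 1030070325) (nat_lit 152) (nat_lit 5163060994) (nat_lit 11) (nat_lit 5) (nat_lit 12) (nat_lit 5) (nat_lit 13) (nat_lit 4) (nat_lit 268) (nat_lit 236) (nat_lit 216)) (XT.lf (nat_lit 0) (nat_lit 14243999576) (nat_lit 152) (nat_lit 470969979) (nat_lit 0) (nat_lit 2232183360) (nat_lit 11) (nat_lit 5) (nat_lit 13) (nat_lit 4) (nat_lit 11) (nat_lit 4) (nat_lit 269) (nat_lit 236) (nat_lit 215)))) (XT.nd (nat_lit 78) (nat_lit 0) (nat_lit 0) (XT.lf (nat_lit 0) (nat_lit 43049749) (nat_lit 228) (nat_lit 12142848058) (nat_lit 76) (nat_lit 5796052940) (nat_lit 8) (nat_lit 5) (nat_lit 11) (nat_lit 5) (nat_lit 9) (nat_lit 4) (nat_lit 270) (nat_lit 236) (nat_lit 214))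 (XT.nd (nat_lit 78) (nat_lit 0) (nat_lit 0) (XT.lf (nat_lit 0) (nat_lit 2794767619) (nat_lit 228) (nat_lit 6623511296) (nat_lit 76) (nat_lit 9681343046) (nat_lit 8) (nat_lit 5) (nat_lit 11) (nat_lit 5) (nat_lit 9) (nat_lit 4) (nat_lit 271) (nat_lit 236) (nat_lit 213)) (XT.lf (nat_lit 0) (nat_lit 5691296437) (nat_lit 228) (nat_lit 787839139) (nat_lit 76) (nat_lit 13833833730) (nat_lit 8) (nat_lit 5) (nat_lit 11) (nat_lit 5) (nat_lit 9) (nat_lit 4) (nat_lit 272) (nat_lit 236) (nat_lit 212))))) (XT.nd (nat_lit 234) (nat_lit 76) (nat_lit 0) (XT.nd (nat_lit 78) (nat_lit 0) (nat_lit 0) (XT.lf (nat_lit 0) (nat_lit 5683038790) (nat_lit 76) (nat_lit 3203439248) (nat_lit 152) (nat_lit 12731770774) (nat_lit 7) (nat_lit 5) (nat_lit 8) (nat_lit 5) (nat_lit 9) (nat_lit 4) (nat_lit 273) (nat_lit 236) (nat_lit 211)) (XT.nd (nat_lit 78) (nat_lit 0) (nat_lit 0) (XT.lf (nat_lit 0) (nat_lit 12299017645)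 (nat_lit 152) (nat_lit 10435923860) (nat_lit 0) (nat_lit 296272297) (nat_lit 7) (nat_lit 5) (nat_lit 9) (nat_lit 4) (nat_lit 7) (nat_lit 4) (nat_lit 274) (nat_lit 236) (nat_lit 210)) (XT.lf (nat_lit 0) (nat_lit 16004435916) (nat_lit 152) (nat_lit 4688686930) (nat_lit 0) (nat_lit 3862690700) (nat_lit 7) (nat_lit 5) (nat_lit 9) (nat_lit 4) (nat_lit 7) (nat_lit 4) (nat_lit 275) (nat_lit 236) (nat_lit 209)))) (XT.nd (nat_lit 78) (nat_lit 0) (nat_lit 0) (XT.lf (nat_lit 0) (nat_lit 1492249628) (nat_lit 76) (nat_lit 18491287105) (nat_lit 76) (nat_lit 6220838308) (nat_lit 6) (nat_lit 4) (nat_lit 7) (nat_lit 5) (nat_lit 7) (nat_lit 4) (nat_lit 276) (nat_lit 236) (nat_lit 208)) (XT.nd (nat_lit 78) (nat_lit 0) (nat_lit 0) (XT.lf (nat_lit 0) (nat_lit 8336133265) (nat_lit 76) (nat_lit 16016372304) (nat_lit 76) (nat_lit 3626753525) (nat_lit 6) (nat_lit 4) (nat_lit 7) (nat_lit 5) (nat_lit 7) (nat_lit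 4) (nat_lit 277) (nat_lit 236) (nat_lit 207)) (XT.lf (nat_lit 0) (nat_lit 15636622381) (nat_lit 76) (nat_lit 13381909290) (nat_lit 76) (nat_lit 881947935) (nat_lit 6) (nat_lit 4) (nat_lit 7) (nat_lit 5) (nat_lit 7) (nat_lit 4) (nat_lit 278) (nat_lit 236) (nat_lit 206))))))) (XT.nd (nat_lit 936) (nat_lit 152) (nat_lit 0) (XT.nd (nat_lit 468) (nat_lit 76) (nat_lit 0) (XT.nd (nat_lit 234) (nat_lit 0) (nat_lit 0) (XT.nd (nat_lit 78) (nat_lit 76) (nat_lit 0) (XT.lf (nat_lit 0) (nat_lit 1928302957) (nat_lit 152) (nat_lit 8591260254) (nat_lit 76) (nat_lit 21455952958) (nat_lit 5) (nat_lit 5) (nat_lit 7) (nat_lit 5) (nat_lit 6) (nat_lit 4) (nat_lit 279) (nat_lit 236) (nat_lit 205)) (XT.nd (nat_lit 78) (nat_lit 76) (nat_lit 0) (XT.lf (nat_lit 0) (nat_lit 4869460127) (nat_lit 152) (nat_lit 2568254315) (nat_lit 76) (nat_lit 26780828067) (nat_lit 5) (nat_lit 5) (nat_lit 7) (nat_lit 5) (nat_lit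 6) (nat_lit 4) (nat_lit 280) (nat_lit 236) (nat_lit 204)) (XT.lf (nat_lit 0) (nat_lit 4065432758) (nat_lit 76) (nat_lit 4035412258) (nat_lit 152) (nat_lit 28535880590) (nat_lit 4) (nat_lit 5) (nat_lit 5) (nat_lit 5) (nat_lit 6) (nat_lit 4) (nat_lit 281) (nat_lit 236) (nat_lit 203)))) (XT.nd (nat_lit 78) (nat_lit 0) (nat_lit 0) (XT.lf (nat_lit 0) (nat_lit 11303231747) (nat_lit 76) (nat_lit 316317151) (nat_lit 152) (nat_lit 27626611146) (nat_lit 4) (nat_lit 5) (nat_lit 5) (nat_lit 5) (nat_lit 6) (nat_lit 4) (nat_lit 282) (nat_lit 236) (nat_lit 202)) (XT.nd (nat_lit 78) (nat_lit 0) (nat_lit 0) (XT.lf (nat_lit 0) (nat_lit 15469701261) (nat_lit 152) (nat_lit 23103014078) (nat_lit 0) (nat_lit 3487731570) (nat_lit 4) (nat_lit 5) (nat_lit 6) (nat_lit 4) (nat_lit 4) (nat_lit 4) (nat_lit 283) (nat_lit 236) (nat_lit 201)) (XT.lf (nat_lit 0) (nat_lit 19599933444) (nat_lit 152) (nat_lit 17948684842)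 (nat_lit 0) (nat_lit 7553579919) (nat_lit 4) (nat_lit 5) (nat_lit 6) (nat_lit 4) (nat_lit 4) (nat_lit 4) (nat_lit 284) (nat_lit 236) (nat_lit 200))))) (XT.nd (nat_lit 234) (nat_lit 76) (nat_lit 0) (XT.nd (nat_lit 78) (nat_lit 0) (nat_lit 0) (XT.lf (nat_lit 0) (nat_lit 24027113462) (nat_lit 152) (nat_lit 12441788981) (nat_lit 0) (nat_lit 11921145277) (nat_lit 4) (nat_lit 5) (nat_lit 6) (nat_lit 4) (nat_lit 4) (nat_lit 4) (nat_lit 285) (nat_lit 236) (nat_lit 199)) (XT.nd (nat_lit 78) (nat_lit 0) (nat_lit 0) (XT.lf (nat_lit 0) (nat_lit 28777476457) (nat_lit 152) (nat_lit 6549693037) (nat_lit 0) (nat_lit 16616309512) (nat_lit 4) (nat_lit 5) (nat_lit 6) (nat_lit 4) (nat_lit 4) (nat_lit 4) (nat_lit 286) (nat_lit 236) (nat_lit 198)) (XT.lf (nat_lit 0) (nat_lit 33879172727) (nat_lit 152) (nat_lit 237480887) (nat_lit 0) (nat_lit 21666895820) (nat_lit 4) (nat_lit 5) (nat_lit 6) (nat_lit 4) (nat_lit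 4) (nat_lit 4) (nat_lit 287) (nat_lit 236) (nat_lit 197)))) (XT.nd (nat_lit 78) (nat_lit 0) (nat_lit 0) (XT.lf (nat_lit 0) (nat_lit 6876230045) (nat_lit 76) (nat_lit 32651578000) (nat_lit 76) (nat_lit 20391977053) (nat_lit 3) (nat_lit 4) (nat_lit 4) (nat_lit 5) (nat_lit 4) (nat_lit 4) (nat_lit 288) (nat_lit 236) (nat_lit 196)) (XT.nd (nat_lit 78) (nat_lit 0) (nat_lit 0) (XT.lf (nat_lit 0) (nat_lit 14526289932) (nat_lit 76) (nat_lit 31082823012) (nat_lit 76) (nat_lit 18779403509) (nat_lit 3) (nat_lit 4) (nat_lit 4) (nat_lit 5) (nat_lit 4) (nat_lit 4) (nat_lit 289) (nat_lit 236) (nat_lit 195)) (XT.lf (nat_lit 0) (nat_lit 22745527137) (nat_lit 76) (nat_lit 29407585472) (nat_lit 76) (nat_lit 17063593233) (nat_lit 3) (nat_lit 4) (nat_lit 4) (nat_lit 5) (nat_lit 4) (nat_lit 4) (nat_lit 290) (nat_lit 236) (nat_lit 194)))))) (XT.nd (nat_lit 468) (nat_lit 152) (nat_lit 0) (XT.nd (nat_lit 234)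 (nat_lit 0) (nat_lit 0) (XT.nd (nat_lit 78) (nat_lit 0) (nat_lit 0) (XT.lf (nat_lit 0) (nat_lit 31582648252) (nat_lit 76) (nat_lit 27615938048) (nat_lit 76) (nat_lit 15234378461) (nat_lit 3) (nat_lit 4) (nat_lit 4) (nat_lit 5) (nat_lit 4) (nat_lit 4) (nat_lit 291) (nat_lit 236) (nat_lit 193)) (XT.nd (nat_lit 78) (nat_lit 0) (nat_lit 0) (XT.lf (nat_lit 0) (nat_lit 41090021401) (nat_lit 76) (nat_lit 25697263569) (nat_lit 76) (nat_lit 13280919400) (nat_lit 3) (nat_lit 4) (nat_lit 4) (nat_lit 5) (nat_lit 4) (nat_lit 4) (nat_lit 292) (nat_lit 236) (nat_lit 192)) (XT.lf (nat_lit 0) (nat_lit 51323986574) (nat_lit 76) (nat_lit 23640192113) (nat_lit 76) (nat_lit 11191639998) (nat_lit 3) (nat_lit 4) (nat_lit 4) (nat_lit 5) (nat_lit 4) (nat_lit 4) (nat_lit 293) (nat_lit 236) (nat_lit 191)))) (XT.nd (nat_lit 78) (nat_lit 0) (nat_lit 0) (XT.lf (nat_lit 0) (nat_lit 62345189491) (nat_lit 76) (nat_lit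 21432533626) (nat_lit 76) (nat_lit 8954159339) (nat_lit 3) (nat_lit 4) (nat_lit 4) (nat_lit 5) (nat_lit 4) (nat_lit 4) (nat_lit 294) (nat_lit 236) (nat_lit 190)) (XT.nd (nat_lit 78) (nat_lit 0) (nat_lit 0) (XT.lf (nat_lit 0) (nat_lit 74218940982) (nat_lit 76) (nat_lit 19061205688) (nat_lit 76) (nat_lit 6555218278) (nat_lit 3) (nat_lit 4) (nat_lit 4) (nat_lit 5) (nat_lit 4) (nat_lit 4) (nat_lit 295) (nat_lit 236) (nat_lit 189)) (XT.lf (nat_lit 0) (nat_lit 87015604021) (nat_lit 76) (nat_lit 16512155986) (nat_lit 76) (nat_lit 3980600869) (nat_lit 3) (nat_lit 4) (nat_lit 4) (nat_lit 5) (nat_lit 4) (nat_lit 4) (nat_lit 296) (nat_lit 236) (nat_lit 188))))) (XT.nd (nat_lit 234) (nat_lit 76) (nat_lit 0) (XT.nd (nat_lit 78) (nat_lit 76) (nat_lit 0) (XT.lf (nat_lit 0) (nat_lit 100811010684) (nat_lit 76) (nat_lit 13770279038) (nat_lit 76) (nat_lit 1215050120) (nat_lit 3) (nat_lit 4) (nat_lit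 4) (nat_lit 5) (nat_lit 4) (nat_lit 4) (nat_lit 297) (nat_lit 236) (nat_lit 187)) (XT.nd (nat_lit 78) (nat_lit 0) (nat_lit 0) (XT.lf (nat_lit 0) (nat_lit 1669889021) (nat_lit 152) (nat_lit 9103779941) (nat_lit 76) (nat_lit 113971364783) (nat_lit 2) (nat_lit 5) (nat_lit 4) (nat_lit 5) (nat_lit 3) (nat_lit 4) (nat_lit 298) (nat_lit 236) (nat_lit 186)) (XT.lf (nat_lit 0) (nat_lit 4707732896) (nat_lit 152) (nat_lit 2805361149) (nat_lit 76) (nat_lit 126895009387) (nat_lit 2) (nat_lit 5) (nat_lit 4) (nat_lit 5) (nat_lit 3) (nat_lit 4) (nat_lit 299) (nat_lit 236) (nat_lit 185)))) (XT.nd (nat_lit 78) (nat_lit 0) (nat_lit 0) (XT.lf (nat_lit 0) (nat_lit 4185867191) (nat_lit 76) (nat_lit 3892068286) (nat_lit 152) (nat_lit 136759160208) (nat_lit 1) (nat_lit 5) (nat_lit 2) (nat_lit 5) (nat_lit 3) (nat_lit 4) (nat_lit 300) (nat_lit 236) (nat_lit 184)) (XT.nd (nat_lit 78) (nat_lit 0) (nat_lit 0)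 (XT.lf (nat_lit 0) (nat_lit 11785704226) (nat_lit 152) (nat_lit 144221399014) (nat_lit 0) (nat_lit 87889825) (nat_lit 1) (nat_lit 5) (nat_lit 3) (nat_lit 4) (nat_lit 1) (nat_lit 4) (nat_lit 301) (nat_lit 236) (nat_lit 183)) (XT.lf (nat_lit 0) (nat_lit 15880822189) (nat_lit 152) (nat_lit 148197372685) (nat_lit 0) (nat_lit 4168089277) (nat_lit 1) (nat_lit 5) (nat_lit 3) (nat_lit 4) (nat_lit 1) (nat_lit 4) (nat_lit 302) (nat_lit 236) (nat_lit 182))))))))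
noncomputable def xc43 : XT := (XT.nd (nat_lit 1872) (nat_lit 0) (nat_lit 0) (XT.nd (nat_lit 936) (nat_lit 0) (nat_lit 0) (XT.nd (nat_lit 468) (nat_lit 0) (nat_lit 0) (XT.nd (nat_lit 234) (nat_lit 0) (nat_lit 0) (XT.nd (nat_lit 78) (nat_lit 0) (nat_lit 0) (XT.lf (nat_lit 0) (nat_lit 20293952397) (nat_lit 152) (nat_lit 152509106497) (nat_lit 0) (nat_lit 8567406050) (nat_lit 1) (nat_lit 5) (nat_lit 3) (nat_lit 4) (nat_lit 1) (nat_lit 4) (nat_lit 303) (nat_lit 236) (nat_lit 181)) (XT.nd (nat_lit 78) (nat_lit 0) (nat_lit 0) (XT.lf (nat_lit 0) (nat_lit 25051246733) (nat_lit 152) (nat_lit 157182151465) (nat_lit 0) (nat_lit 13311910166) (nat_lit 1) (nat_lit 5) (nat_lit 3) (nat_lit 4) (nat_lit 1) (nat_lit 4) (nat_lit 304) (nat_lit 236) (nat_lit 180)) (XT.lf (nat_lit 0) (nat_lit 30180896569) (nat_lit 152) (nat_lit 162244199708) (nat_lit 0) (nat_lit 18429717208) (nat_lit 1) (nat_lit 5) (nat_lit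 3) (nat_lit 4) (nat_lit 1) (nat_lit 4) (nat_lit 305) (nat_lit 236) (nat_lit 179)))) (XT.nd (nat_lit 78) (nat_lit 0) (nat_lit 0) (XT.lf (nat_lit 0) (nat_lit 35713299832) (nat_lit 152) (nat_lit 167725248548) (nat_lit 0) (nat_lit 23951154920) (nat_lit 1) (nat_lit 5) (nat_lit 3) (nat_lit 4) (nat_lit 1) (nat_lit 4) (nat_lit 306) (nat_lit 236) (nat_lit 178)) (XT.nd (nat_lit 78) (nat_lit 0) (nat_lit 0) (XT.lf (nat_lit 0) (nat_lit 41681241133) (nat_lit 152) (nat_lit 173657778275) (nat_lit 0) (nat_lit 29908942933) (nat_lit 1) (nat_lit 5) (nat_lit 3) (nat_lit 4) (nat_lit 1) (nat_lit 4) (nat_lit 307) (nat_lit 236) (nat_lit 177)) (XT.lf (nat_lit 0) (nat_lit 48120086050) (nat_lit 152) (nat_lit 180076944621) (nat_lit 0) (nat_lit 36338386657) (nat_lit 1) (nat_lit 5) (nat_lit 3) (nat_lit 4) (nat_lit 1) (nat_lit 4) (nat_lit 308) (nat_lit 236) (nat_lit 176))))) (XT.nd (nat_lit 234) (nat_lit 0) (nat_lit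 0) (XT.nd (nat_lit 78) (nat_lit 0) (nat_lit 0) (XT.lf (nat_lit 0) (nat_lit 55067990701) (nat_lit 152) (nat_lit 187020787089) (nat_lit 0) (nat_lit 43277586500) (nat_lit 1) (nat_lit 5) (nat_lit 3) (nat_lit 4) (nat_lit 1) (nat_lit 4) (nat_lit 309) (nat_lit 236) (nat_lit 175)) (XT.nd (nat_lit 78) (nat_lit 0) (nat_lit 0) (XT.lf (nat_lit 0) (nat_lit 62566127854) (nat_lit 152) (nat_lit 194530454376) (nat_lit 0) (nat_lit 50767663646) (nat_lit 1) (nat_lit 5) (nat_lit 3) (nat_lit 4) (nat_lit 1) (nat_lit 4) (nat_lit 310) (nat_lit 236) (nat_lit 174)) (XT.lf (nat_lit 0) (nat_lit 70658930915) (nat_lit 152) (nat_lit 202650448214) (nat_lit 0) (nat_lit 58853003738) (nat_lit 1) (nat_lit 5) (nat_lit 3) (nat_lit 4) (nat_lit 1) (nat_lit 4) (nat_lit 311) (nat_lit 236) (nat_lit 173)))) (XT.nd (nat_lit 78) (nat_lit 0) (nat_lit 0) (XT.lf (nat_lit 0) (nat_lit 79394357236) (nat_lit 152) (nat_lit 211428887086)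 (nat_lit 0) (nat_lit 67581519901) (nat_lit 1) (nat_lit 5) (nat_lit 3) (nat_lit 4) (nat_lit 1) (nat_lit 4) (nat_lit 312) (nat_lit 236) (nat_lit 172)) (XT.nd (nat_lit 78) (nat_lit 0) (nat_lit 0) (XT.lf (nat_lit 0) (nat_lit 88824172305) (nat_lit 152) (nat_lit 220917791368) (nat_lit 0) (nat_lit 77004936677) (nat_lit 1) (nat_lit 5) (nat_lit 3) (nat_lit 4) (nat_lit 1) (nat_lit 4) (nat_lit 313) (nat_lit 236) (nat_lit 171)) (XT.lf (nat_lit 0) (nat_lit 99004256508) (nat_lit 152) (nat_lit 231173391606) (nat_lit 0) (nat_lit 87179096534) (nat_lit 1) (nat_lit 5) (nat_lit 3) (nat_lit 4) (nat_lit 1) (nat_lit 4) (nat_lit 314) (nat_lit 236) (nat_lit 170)))))) (XT.nd (nat_lit 468) (nat_lit 0) (nat_lit 0) (XT.nd (nat_lit 234) (nat_lit 0) (nat_lit 0) (XT.nd (nat_lit 78) (nat_lit 0) (nat_lit 0) (XT.lf (nat_lit 0) (nat_lit 109994936270) (nat_lit 152) (nat_lit 242256461727) (nat_lit 0) (nat_lit 98164290791)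 (nat_lit 1) (nat_lit 5) (nat_lit 3) (nat_lit 4) (nat_lit 1) (nat_lit 4) (nat_lit 315) (nat_lit 236) (nat_lit 169)) (XT.nd (nat_lit 78) (nat_lit 0) (nat_lit 0) (XT.lf (nat_lit 0) (nat_lit 121861341546) (nat_lit 152) (nat_lit 254232679183) (nat_lit 0) (nat_lit 110025616895) (nat_lit 1) (nat_lit 5) (nat_lit 3) (nat_lit 4) (nat_lit 1) (nat_lit 4) (nat_lit 316) (nat_lit 236) (nat_lit 168)) (XT.lf (nat_lit 0) (nat_lit 134673791773) (nat_lit 152) (nat_lit 267173014152) (nat_lit 0) (nat_lit 122833364185) (nat_lit 1) (nat_lit 5) (nat_lit 3) (nat_lit 4) (nat_lit 1) (nat_lit 4) (nat_lit 317) (nat_lit 236) (nat_lit 167)))) (XT.nd (nat_lit 78) (nat_lit 0) (nat_lit 0) (XT.lf (nat_lit 0) (nat_lit 148508212584) (nat_lit 152) (nat_lit 281154150100) (nat_lit 0) (nat_lit 136663430424) (nat_lit 1) (nat_lit 5) (nat_lit 3) (nat_lit 4) (nat_lit 1) (nat_lit 4) (nat_lit 318) (nat_lit 236) (nat_lit 166)) (XT.nd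 (nat_lit 78) (nat_lit 0) (nat_lit 0) (XT.lf (nat_lit 0) (nat_lit 163446585730) (nat_lit 152) (nat_lit 296258938204) (nat_lit 0) (nat_lit 151597771560) (nat_lit 1) (nat_lit 5) (nat_lit 3) (nat_lit 4) (nat_lit 1) (nat_lit 4) (nat_lit 319) (nat_lit 236) (nat_lit 165)) (XT.lf (nat_lit 0) (nat_lit 179577434904) (nat_lit 152) (nat_lit 312576888318) (nat_lit 0) (nat_lit 167724887392) (nat_lit 1) (nat_lit 5) (nat_lit 3) (nat_lit 4) (nat_lit 1) (nat_lit 4) (nat_lit 320) (nat_lit 236) (nat_lit 164))))) (XT.nd (nat_lit 234) (nat_lit 0) (nat_lit 0) (XT.nd (nat_lit 78) (nat_lit 0) (nat_lit 0) (XT.lf (nat_lit 0) (nat_lit 196996350325) (nat_lit 152) (nat_lit 330204699407) (nat_lit 0) (nat_lit 185140346014) (nat_lit 1) (nat_lit 5) (nat_lit 3) (nat_lit 4) (nat_lit 1) (nat_lit 4) (nat_lit 321) (nat_lit 236) (nat_lit 163)) (XT.nd (nat_lit 78) (nat_lit 0) (nat_lit 0) (XT.lf (nat_lit 0) (nat_lit 215806555194)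 (nat_lit 152) (nat_lit 349246832572) (nat_lit 0) (nat_lit 203947350143) (nat_lit 1) (nat_lit 5) (nat_lit 3) (nat_lit 4) (nat_lit 1) (nat_lit 4) (nat_lit 322) (nat_lit 236) (nat_lit 162)) (XT.lf (nat_lit 0) (nat_lit 236119517392) (nat_lit 152) (nat_lit 369816130086) (nat_lit 0) (nat_lit 224257348693) (nat_lit 1) (nat_lit 5) (nat_lit 3) (nat_lit 4) (nat_lit 1) (nat_lit 4) (nat_lit 323) (nat_lit 236) (nat_lit 161)))) (XT.nd (nat_lit 78) (nat_lit 0) (nat_lit 0) (XT.lf (nat_lit 0) (nat_lit 258055610028) (nat_lit 152) (nat_lit 392034484080) (nat_lit 0) (nat_lit 246190697211) (nat_lit 1) (nat_lit 5) (nat_lit 3) (nat_lit 4) (nat_lit 1) (nat_lit 4) (nat_lit 324) (nat_lit 236) (nat_lit 160)) (XT.nd (nat_lit 78) (nat_lit 0) (nat_lit 0) (XT.lf (nat_lit 0) (nat_lit 281744824763) (nat_lit 152) (nat_lit 416033558876) (nat_lit 0) (nat_lit 269877371095) (nat_lit 1) (nat_lit 5) (nat_lit 3) (nat_lit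 4) (nat_lit 1) (nat_lit 4) (nat_lit 325) (nat_lit 236) (nat_lit 159)) (XT.lf (nat_lit 0) (nat_lit 307327542128) (nat_lit 152) (nat_lit 441955571212) (nat_lit 0) (nat_lit 295457735821) (nat_lit 1) (nat_lit 5) (nat_lit 3) (nat_lit 4) (nat_lit 1) (nat_lit 4) (nat_lit 326) (nat_lit 236) (nat_lit 158))))))) (XT.nd (nat_lit 31278) (nat_lit 0) (nat_lit 1368) (XT.nd (nat_lit 468) (nat_lit 0) (nat_lit 0) (XT.nd (nat_lit 234) (nat_lit 0) (nat_lit 0) (XT.nd (nat_lit 78) (nat_lit 0) (nat_lit 0) (XT.lf (nat_lit 0) (nat_lit 334955363411) (nat_lit 152) (nat_lit 469954133014) (nat_lit 0) (nat_lit 323083378734) (nat_lit 1) (nat_lit 5) (nat_lit 3) (nat_lit 4) (nat_lit 1) (nat_lit 4) (nat_lit 327) (nat_lit 236) (nat_lit 157)) (XT.nd (nat_lit 78) (nat_lit 0) (nat_lit 0) (XT.lf (nat_lit 0) (nat_lit 364792009035) (nat_lit 152) (nat_lit 500195161684) (nat_lit 0) (nat_lit 352918007349) (nat_lit 1) (nat_lit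 5) (nat_lit 3) (nat_lit 4) (nat_lit 1) (nat_lit 4) (nat_lit 328) (nat_lit 236) (nat_lit 156)) (XT.lf (nat_lit 0) (nat_lit 397014288752) (nat_lit 152) (nat_lit 532857863319) (nat_lit 0) (nat_lit 385138419465) (nat_lit 1) (nat_lit 5) (nat_lit 3) (nat_lit 4) (nat_lit 1) (nat_lit 4) (nat_lit 329) (nat_lit 236) (nat_lit 155)))) (XT.nd (nat_lit 78) (nat_lit 0) (nat_lit 0) (XT.lf (nat_lit 0) (nat_lit 431813149404) (nat_lit 152) (nat_lit 568135794670) (nat_lit 0) (nat_lit 419935550857) (nat_lit 1) (nat_lit 5) (nat_lit 3) (nat_lit 4) (nat_lit 1) (nat_lit 4) (nat_lit 330) (nat_lit 236) (nat_lit 154)) (XT.nd (nat_lit 78) (nat_lit 0) (nat_lit 0) (XT.lf (nat_lit 0) (nat_lit 469394806462) (nat_lit 152) (nat_lit 606238010143) (nat_lit 0) (nat_lit 457515606748) (nat_lit 1) (nat_lit 5) (nat_lit 3) (nat_lit 4) (nat_lit 1) (nat_lit 4) (nat_lit 331) (nat_lit 236) (nat_lit 153)) (XT.lf (nat_lit 0) (nat_lit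 509981966041) (nat_lit 152) (nat_lit 647390300646) (nat_lit 0) (nat_lit 498101283766) (nat_lit 1) (nat_lit 5) (nat_lit 3) (nat_lit 4) (nat_lit 1) (nat_lit 4) (nat_lit 332) (nat_lit 236) (nat_lit 152))))) (XT.nd (nat_lit 234) (nat_lit 0) (nat_lit 0) (XT.nd (nat_lit 78) (nat_lit 0) (nat_lit 0) (XT.lf (nat_lit 0) (nat_lit 553815144644) (nat_lit 152) (nat_lit 691836531604) (nat_lit 0) (nat_lit 541933089626) (nat_lit 1) (nat_lit 5) (nat_lit 3) (nat_lit 4) (nat_lit 1) (nat_lit 4) (nat_lit 333) (nat_lit 236) (nat_lit 151)) (XT.nd (nat_lit 78) (nat_lit 0) (nat_lit 0) (XT.lf (nat_lit 0) (nat_lit 601154094439) (nat_lit 152) (nat_lit 739840088089) (nat_lit 0) (nat_lit 589270768363) (nat_lit 1) (nat_lit 5) (nat_lit 3) (nat_lit 4) (nat_lit 1) (nat_lit 4) (nat_lit 334) (nat_lit 236) (nat_lit 150)) (XT.lf (nat_lit 0) (nat_lit 652279342537) (nat_lit 152) (nat_lit 791685435621) (nat_lit 0) (nat_lit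 640394839555) (nat_lit 1) (nat_lit 5) (nat_lit 3) (nat_lit 4) (nat_lit 1) (nat_lit 4) (nat_lit 335) (nat_lit 236) (nat_lit 149)))) (XT.nd (nat_lit 78) (nat_lit 0) (nat_lit 0) (XT.lf (nat_lit 0) (nat_lit 707493853370) (nat_lit 152) (nat_lit 847679805889) (nat_lit 0) (nat_lit 695608260661) (nat_lit 1) (nat_lit 5) (nat_lit 3) (nat_lit 4) (nat_lit 1) (nat_lit 4) (nat_lit 336) (nat_lit 236) (nat_lit 148)) (XT.nd (nat_lit 30420) (nat_lit 0) (nat_lit 3572) (XT.lf (nat_lit 0) (nat_lit 767124824039) (nat_lit 152) (nat_lit 908155017384) (nat_lit 0) (nat_lit 755238222324) (nat_lit 1) (nat_lit 5) (nat_lit 3) (nat_lit 4) (nat_lit 1) (nat_lit 4) (nat_lit 337) (nat_lit 236) (nat_lit 147)) (XT.lf (nat_lit 0) (nat_lit 8530852) (nat_lit 228) (nat_lit 1677459688) (nat_lit 228) (nat_lit 1677459688) (nat_lit 48) (nat_lit 4) (nat_lit 51) (nat_lit 5) (nat_lit 51) (nat_lit 4) (nat_lit 246) (nat_lit 237) (nat_lit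 237)))))) (XT.nd (nat_lit 468) (nat_lit 912) (nat_lit 0) (XT.nd (nat_lit 234) (nat_lit 912) (nat_lit 0) (XT.nd (nat_lit 78) (nat_lit 380) (nat_lit 0) (XT.lf (nat_lit 0) (nat_lit 3951893520) (nat_lit 228) (nat_lit 2393312257) (nat_lit 228) (nat_lit 490385501) (nat_lit 48) (nat_lit 4) (nat_lit 51) (nat_lit 5) (nat_lit 51) (nat_lit 4) (nat_lit 247) (nat_lit 237) (nat_lit 236)) (XT.nd (nat_lit 78) (nat_lit 0) (nat_lit 0) (XT.lf (nat_lit 0) (nat_lit 1030849785) (nat_lit 304) (nat_lit 1226720290) (nat_lit 380) (nat_lit 4709841355) (nat_lit 43) (nat_lit 5) (nat_lit 47) (nat_lit 5) (nat_lit 48) (nat_lit 4) (nat_lit 248) (nat_lit 237) (nat_lit 235)) (XT.lf (nat_lit 0) (nat_lit 5053835736) (nat_lit 380) (nat_lit 1918754891) (nat_lit 0) (nat_lit 149808928) (nat_lit 43) (nat_lit 5) (nat_lit 48) (nat_lit 4) (nat_lit 43) (nat_lit 4) (nat_lit 249) (nat_lit 237) (nat_lit 234)))) (XT.nd (nat_lit 78)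 (nat_lit 456) (nat_lit 0) (XT.lf (nat_lit 0) (nat_lit 617007083) (nat_lit 456) (nat_lit 5019360047) (nat_lit 76) (nat_lit 1663882158) (nat_lit 37) (nat_lit 5) (nat_lit 43) (nat_lit 5) (nat_lit 38) (nat_lit 4) (nat_lit 250) (nat_lit 237) (nat_lit 233)) (XT.nd (nat_lit 78) (nat_lit 456) (nat_lit 0) (XT.lf (nat_lit 0) (nat_lit 3253453810) (nat_lit 456) (nat_lit 830650830) (nat_lit 76) (nat_lit 3417719539) (nat_lit 37) (nat_lit 5) (nat_lit 43) (nat_lit 5) (nat_lit 38) (nat_lit 4) (nat_lit 251) (nat_lit 237) (nat_lit 232)) (XT.lf (nat_lit 0) (nat_lit 3679968522) (nat_lit 456) (nat_lit 2318574709) (nat_lit 532) (nat_lit 1730662191) (nat_lit 31) (nat_lit 5) (nat_lit 37) (nat_lit 5) (nat_lit 38) (nat_lit 4) (nat_lit 252) (nat_lit 237) (nat_lit 231))))) (XT.nd (nat_lit 234) (nat_lit 456) (nat_lit 0) (XT.nd (nat_lit 78) (nat_lit 152) (nat_lit 0) (XT.lf (nat_lit 0) (nat_lit 418882088) (nat_lit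 228) (nat_lit 366213634) (nat_lit 304) (nat_lit 7201377977) (nat_lit 27) (nat_lit 5) (nat_lit 30) (nat_lit 5) (nat_lit 31) (nat_lit 5) (nat_lit 253) (nat_lit 237) (nat_lit 230)) (XT.nd (nat_lit 78) (nat_lit 152) (nat_lit 0) (XT.lf (nat_lit 0) (nat_lit 3385432374) (nat_lit 304) (nat_lit 3083701587) (nat_lit 76) (nat_lit 1794637365) (nat_lit 27) (nat_lit 5) (nat_lit 31) (nat_lit 5) (nat_lit 28) (nat_lit 4) (nat_lit 254) (nat_lit 237) (nat_lit 229)) (XT.lf (nat_lit 0) (nat_lit 1633667353) (nat_lit 152) (nat_lit 4443492050) (nat_lit 228) (nat_lit 2496525739) (nat_lit 25) (nat_lit 5) (nat_lit 27) (nat_lit 5) (nat_lit 28) (nat_lit 4) (nat_lit 255) (nat_lit 237) (nat_lit 228)))) (XT.nd (nat_lit 156) (nat_lit 152) (nat_lit 0) (XT.nd (nat_lit 78) (nat_lit 304) (nat_lit 0) (XT.lf (nat_lit 0) (nat_lit 6711354303) (nat_lit 152) (nat_lit 2199372224) (nat_lit 228) (nat_lit 4565248) (nat_lit 25)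 (nat_lit 5) (nat_lit 27) (nat_lit 5) (nat_lit 28) (nat_lit 4) (nat_lit 256) (nat_lit 237) (nat_lit 227)) (XT.lf (nat_lit 0) (nat_lit 2476812596) (nat_lit 304) (nat_lit 6495114309) (nat_lit 76) (nat_lit 314048069) (nat_lit 21) (nat_lit 5) (nat_lit 25) (nat_lit 5) (nat_lit 22) (nat_lit 4) (nat_lit 257) (nat_lit 237) (nat_lit 226))) (XT.nd (nat_lit 78) (nat_lit 152) (nat_lit 0) (XT.lf (nat_lit 0) (nat_lit 5130458755) (nat_lit 304) (nat_lit 1623402723) (nat_lit 76) (nat_lit 2935331090) (nat_lit 21) (nat_lit 5) (nat_lit 25) (nat_lit 5) (nat_lit 22) (nat_lit 4) (nat_lit 258) (nat_lit 237) (nat_lit 225)) (XT.lf (nat_lit 0) (nat_lit 3640839319) (nat_lit 152) (nat_lit 4308909781) (nat_lit 228) (nat_lit 2179399902) (nat_lit 19) (nat_lit 5) (nat_lit 21) (nat_lit 5) (nat_lit 22) (nat_lit 4) (nat_lit 259) (nat_lit 237) (nat_lit 224))))))))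
noncomputable def xc44 : XT := (XT.nd (nat_lit 1872) (nat_lit 228) (nat_lit 0) (XT.nd (nat_lit 936) (nat_lit 304) (nat_lit 0) (XT.nd (nat_lit 468) (nat_lit 304) (nat_lit 0) (XT.nd (nat_lit 234) (nat_lit 304) (nat_lit 0) (XT.nd (nat_lit 78) (nat_lit 152) (nat_lit 0) (XT.lf (nat_lit 0) (nat_lit 283828427) (nat_lit 228) (nat_lit 1375159190) (nat_lit 76) (nat_lit 8952160431) (nat_lit 18) (nat_lit 5) (nat_lit 21) (nat_lit 5) (nat_lit 19) (nat_lit 5) (nat_lit 260) (nat_lit 237) (nat_lit 223)) (XT.nd (nat_lit 78) (nat_lit 0) (nat_lit 0) (XT.lf (nat_lit 0) (nat_lit 2834861409) (nat_lit 228) (nat_lit 7033476238) (nat_lit 76) (nat_lit 1258756583) (nat_lit 16) (nat_lit 5) (nat_lit 19) (nat_lit 5) (nat_lit 17) (nat_lit 4) (nat_lit 261) (nat_lit 237) (nat_lit 222)) (XT.lf (nat_lit 0) (nat_lit 5552981216) (nat_lit 228) (nat_lit 1820718126) (nat_lit 76) (nat_lit 4314127432) (nat_lit 16) (nat_lit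 5) (nat_lit 19) (nat_lit 5) (nat_lit 17) (nat_lit 4) (nat_lit 262) (nat_lit 237) (nat_lit 221)))) (XT.nd (nat_lit 78) (nat_lit 228) (nat_lit 0) (XT.lf (nat_lit 0) (nat_lit 3840583429) (nat_lit 76) (nat_lit 4630460806) (nat_lit 152) (nat_lit 3824284383) (nat_lit 15) (nat_lit 5) (nat_lit 16) (nat_lit 5) (nat_lit 17) (nat_lit 4) (nat_lit 263) (nat_lit 237) (nat_lit 220)) (XT.nd (nat_lit 78) (nat_lit 228) (nat_lit 0) (XT.lf (nat_lit 0) (nat_lit 9901802012) (nat_lit 76) (nat_lit 1665033531) (nat_lit 152) (nat_lit 1389524803) (nat_lit 15) (nat_lit 5) (nat_lit 16) (nat_lit 5) (nat_lit 17) (nat_lit 4) (nat_lit 264) (nat_lit 237) (nat_lit 219)) (XT.lf (nat_lit 0) (nat_lit 1181359611) (nat_lit 228) (nat_lit 10975402778) (nat_lit 76) (nat_lit 1511261461) (nat_lit 12) (nat_lit 5) (nat_lit 15) (nat_lit 5) (nat_lit 13) (nat_lit 4) (nat_lit 265) (nat_lit 237) (nat_lit 218))))) (XT.nd (nat_lit 234)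 (nat_lit 228) (nat_lit 0) (XT.nd (nat_lit 78) (nat_lit 76) (nat_lit 0) (XT.lf (nat_lit 0) (nat_lit 3913859854) (nat_lit 228) (nat_lit 5591892560) (nat_lit 76) (nat_lit 4925874456) (nat_lit 12) (nat_lit 5) (nat_lit 15) (nat_lit 5) (nat_lit 13) (nat_lit 4) (nat_lit 266) (nat_lit 237) (nat_lit 217)) (XT.nd (nat_lit 78) (nat_lit 0) (nat_lit 0) (XT.lf (nat_lit 0) (nat_lit 84161040) (nat_lit 76) (nat_lit 6692157938) (nat_lit 152) (nat_lit 8487437671) (nat_lit 11) (nat_lit 5) (nat_lit 12) (nat_lit 5) (nat_lit 13) (nat_lit 4) (nat_lit 267) (nat_lit 237) (nat_lit 216)) (XT.lf (nat_lit 0) (nat_lit 6393571038) (nat_lit 76) (nat_lit 3539809984) (nat_lit 152) (nat_lit 6224148797) (nat_lit 11) (nat_lit 5) (nat_lit 12) (nat_lit 5) (nat_lit 13) (nat_lit 4) (nat_lit 268) (nat_lit 237) (nat_lit 215)))) (XT.nd (nat_lit 78) (nat_lit 228) (nat_lit 0) (XT.lf (nat_lit 0) (nat_lit 13079267378) (nat_lit 76)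 (nat_lit 182920223) (nat_lit 152) (nat_lit 3867380565) (nat_lit 11) (nat_lit 5) (nat_lit 12) (nat_lit 5) (nat_lit 13) (nat_lit 4) (nat_lit 269) (nat_lit 237) (nat_lit 214)) (XT.nd (nat_lit 78) (nat_lit 76) (nat_lit 0) (XT.lf (nat_lit 0) (nat_lit 2014267185) (nat_lit 152) (nat_lit 14898372666) (nat_lit 152) (nat_lit 1262578077) (nat_lit 9) (nat_lit 4) (nat_lit 11) (nat_lit 5) (nat_lit 11) (nat_lit 4) (nat_lit 270) (nat_lit 237) (nat_lit 213)) (XT.lf (nat_lit 0) (nat_lit 1516084406) (nat_lit 228) (nat_lit 10671446807) (nat_lit 76) (nat_lit 7110797918) (nat_lit 8) (nat_lit 5) (nat_lit 11) (nat_lit 5) (nat_lit 9) (nat_lit 4) (nat_lit 271) (nat_lit 237) (nat_lit 212)))))) (XT.nd (nat_lit 468) (nat_lit 152) (nat_lit 0) (XT.nd (nat_lit 234) (nat_lit 76) (nat_lit 0) (XT.nd (nat_lit 78) (nat_lit 76) (nat_lit 0) (XT.lf (nat_lit 0) (nat_lit 4379081137) (nat_lit 228) (nat_lit 4891513408) (nat_lit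 76) (nat_lit 11243869696) (nat_lit 8) (nat_lit 5) (nat_lit 11) (nat_lit 5) (nat_lit 9) (nat_lit 4) (nat_lit 272) (nat_lit 237) (nat_lit 211)) (XT.nd (nat_lit 78) (nat_lit 0) (nat_lit 0) (XT.lf (nat_lit 0) (nat_lit 1308944656) (nat_lit 76) (nat_lit 6129072783) (nat_lit 152) (nat_lit 14392723335) (nat_lit 7) (nat_lit 5) (nat_lit 8) (nat_lit 5) (nat_lit 9) (nat_lit 4) (nat_lit 273) (nat_lit 237) (nat_lit 210)) (XT.lf (nat_lit 0) (nat_lit 8178993039) (nat_lit 76) (nat_lit 2634105285) (nat_lit 152) (nat_lit 12433694328) (nat_lit 7) (nat_lit 5) (nat_lit 8) (nat_lit 5) (nat_lit 9) (nat_lit 4) (nat_lit 274) (nat_lit 237) (nat_lit 209)))) (XT.nd (nat_lit 78) (nat_lit 76) (nat_lit 0) (XT.lf (nat_lit 0) (nat_lit 14426974207) (nat_lit 152) (nat_lit 9305639165) (nat_lit 0) (nat_lit 1046185925) (nat_lit 7) (nat_lit 5) (nat_lit 9) (nat_lit 4) (nat_lit 7) (nat_lit 4) (nat_lit 275) (nat_lit 237) (nat_lit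 208)) (XT.nd (nat_lit 78) (nat_lit 76) (nat_lit 0) (XT.lf (nat_lit 0) (nat_lit 18344082595) (nat_lit 152) (nat_lit 3244190584) (nat_lit 0) (nat_lit 4844124331) (nat_lit 7) (nat_lit 5) (nat_lit 9) (nat_lit 4) (nat_lit 7) (nat_lit 4) (nat_lit 276) (nat_lit 237) (nat_lit 207)) (XT.lf (nat_lit 0) (nat_lit 3385155296) (nat_lit 76) (nat_lit 19220543458) (nat_lit 76) (nat_lit 5610242618) (nat_lit 6) (nat_lit 4) (nat_lit 7) (nat_lit 5) (nat_lit 7) (nat_lit 4) (nat_lit 277) (nat_lit 237) (nat_lit 206))))) (XT.nd (nat_lit 234) (nat_lit 76) (nat_lit 0) (XT.nd (nat_lit 78) (nat_lit 76) (nat_lit 0) (XT.lf (nat_lit 0) (nat_lit 10645177349) (nat_lit 76) (nat_lit 16603194481) (nat_lit 76) (nat_lit 2890724589) (nat_lit 6) (nat_lit 4) (nat_lit 7) (nat_lit 5) (nat_lit 7) (nat_lit 4) (nat_lit 278) (nat_lit 237) (nat_lit 205)) (XT.nd (nat_lit 78) (nat_lit 76) (nat_lit 0) (XT.lf (nat_lit 0) (nat_lit 18408064601)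 (nat_lit 76) (nat_lit 13809417953) (nat_lit 76) (nat_lit 2347087) (nat_lit 6) (nat_lit 4) (nat_lit 7) (nat_lit 5) (nat_lit 7) (nat_lit 4) (nat_lit 279) (nat_lit 237) (nat_lit 204)) (XT.lf (nat_lit 0) (nat_lit 2918332007) (nat_lit 152) (nat_lit 7824533785) (nat_lit 76) (nat_lit 23721694969) (nat_lit 5) (nat_lit 5) (nat_lit 7) (nat_lit 5) (nat_lit 6) (nat_lit 4) (nat_lit 280) (nat_lit 237) (nat_lit 203)))) (XT.nd (nat_lit 78) (nat_lit 76) (nat_lit 0) (XT.lf (nat_lit 0) (nat_lit 6032873246) (nat_lit 152) (nat_lit 1427393096) (nat_lit 76) (nat_lit 29431873734) (nat_lit 5) (nat_lit 5) (nat_lit 7) (nat_lit 5) (nat_lit 6) (nat_lit 4) (nat_lit 281) (nat_lit 237) (nat_lit 202)) (XT.nd (nat_lit 78) (nat_lit 0) (nat_lit 0) (XT.lf (nat_lit 0) (nat_lit 5702904853) (nat_lit 76) (nat_lit 3794100725) (nat_lit 152) (nat_lit 30008979777) (nat_lit 4) (nat_lit 5) (nat_lit 5) (nat_lit 5) (nat_lit 6) (nat_lit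 4) (nat_lit 282) (nat_lit 237) (nat_lit 201)) (XT.lf (nat_lit 0) (nat_lit 13246138124) (nat_lit 152) (nat_lit 28910564972) (nat_lit 0) (nat_lit 171692484) (nat_lit 4) (nat_lit 5) (nat_lit 6) (nat_lit 4) (nat_lit 4) (nat_lit 4) (nat_lit 283) (nat_lit 237) (nat_lit 200))))))) (XT.nd (nat_lit 936) (nat_lit 152) (nat_lit 0) (XT.nd (nat_lit 468) (nat_lit 0) (nat_lit 0) (XT.nd (nat_lit 234) (nat_lit 76) (nat_lit 0) (XT.nd (nat_lit 78) (nat_lit 0) (nat_lit 0) (XT.lf (nat_lit 0) (nat_lit 17360278606) (nat_lit 152) (nat_lit 23784975983) (nat_lit 0) (nat_lit 4226218305) (nat_lit 4) (nat_lit 5) (nat_lit 6) (nat_lit 4) (nat_lit 4) (nat_lit 4) (nat_lit 284) (nat_lit 237) (nat_lit 199)) (XT.nd (nat_lit 78) (nat_lit 0) (nat_lit 0) (XT.lf (nat_lit 0) (nat_lit 21772558900) (nat_lit 152) (nat_lit 18304691461) (nat_lit 0) (nat_lit 8583299840) (nat_lit 4) (nat_lit 5) (nat_lit 6) (nat_lit 4) (nat_lit 4)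 (nat_lit 4) (nat_lit 285) (nat_lit 237) (nat_lit 198)) (XT.lf (nat_lit 0) (nat_lit 26509125855) (nat_lit 152) (nat_lit 12437235647) (nat_lit 0) (nat_lit 13268756832) (nat_lit 4) (nat_lit 5) (nat_lit 6) (nat_lit 4) (nat_lit 4) (nat_lit 4) (nat_lit 286) (nat_lit 237) (nat_lit 197)))) (XT.nd (nat_lit 78) (nat_lit 76) (nat_lit 0) (XT.lf (nat_lit 0) (nat_lit 31598048014) (nat_lit 152) (nat_lit 6147838432) (nat_lit 0) (nat_lit 18310354951) (nat_lit 4) (nat_lit 5) (nat_lit 6) (nat_lit 4) (nat_lit 4) (nat_lit 4) (nat_lit 287) (nat_lit 237) (nat_lit 196)) (XT.nd (nat_lit 78) (nat_lit 0) (nat_lit 0) (XT.lf (nat_lit 0) (nat_lit 632406205) (nat_lit 76) (nat_lit 36452285133) (nat_lit 76) (nat_lit 23120773515) (nat_lit 3) (nat_lit 4) (nat_lit 4) (nat_lit 5) (nat_lit 4) (nat_lit 4) (nat_lit 288) (nat_lit 237) (nat_lit 195)) (XT.lf (nat_lit 0) (nat_lit 8261875960) (nat_lit 76) (nat_lit 34892673340)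 (nat_lit 76) (nat_lit 21520588986) (nat_lit 3) (nat_lit 4) (nat_lit 4) (nat_lit 5) (nat_lit 4) (nat_lit 4) (nat_lit 289) (nat_lit 237) (nat_lit 194))))) (XT.nd (nat_lit 234) (nat_lit 0) (nat_lit 0) (XT.nd (nat_lit 78) (nat_lit 0) (nat_lit 0) (XT.lf (nat_lit 0) (nat_lit 16462048230) (nat_lit 76) (nat_lit 33225901723) (nat_lit 76) (nat_lit 19816250021) (nat_lit 3) (nat_lit 4) (nat_lit 4) (nat_lit 5) (nat_lit 4) (nat_lit 4) (nat_lit 290) (nat_lit 237) (nat_lit 193)) (XT.nd (nat_lit 78) (nat_lit 0) (nat_lit 0) (XT.lf (nat_lit 0) (nat_lit 25281516626) (nat_lit 76) (nat_lit 31442093116) (nat_lit 76) (nat_lit 17997656832) (nat_lit 3) (nat_lit 4) (nat_lit 4) (nat_lit 5) (nat_lit 4) (nat_lit 4) (nat_lit 291) (nat_lit 237) (nat_lit 192)) (XT.lf (nat_lit 0) (nat_lit 34772544666) (nat_lit 76) (nat_lit 29530676801) (nat_lit 76) (nat_lit 16054032570) (nat_lit 3) (nat_lit 4) (nat_lit 4) (nat_lit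 5) (nat_lit 4) (nat_lit 4) (nat_lit 292) (nat_lit 237) (nat_lit 191)))) (XT.nd (nat_lit 78) (nat_lit 0) (nat_lit 0) (XT.lf (nat_lit 0) (nat_lit 44991375478) (nat_lit 76) (nat_lit 27480325867) (nat_lit 76) (nat_lit 13973859464) (nat_lit 3) (nat_lit 4) (nat_lit 4) (nat_lit 5) (nat_lit 4) (nat_lit 4) (nat_lit 293) (nat_lit 237) (nat_lit 190)) (XT.nd (nat_lit 78) (nat_lit 0) (nat_lit 0) (XT.lf (nat_lit 0) (nat_lit 55998565097) (nat_lit 76) (nat_lit 25278890086) (nat_lit 76) (nat_lit 11744810560) (nat_lit 3) (nat_lit 4) (nat_lit 4) (nat_lit 5) (nat_lit 4) (nat_lit 4) (nat_lit 294) (nat_lit 237) (nat_lit 189)) (XT.lf (nat_lit 0) (nat_lit 67859341314) (nat_lit 76) (nat_lit 22913323913) (nat_lit 76) (nat_lit 9353676681) (nat_lit 3) (nat_lit 4) (nat_lit 4) (nat_lit 5) (nat_lit 4) (nat_lit 4) (nat_lit 295) (nat_lit 237) (nat_lit 188)))))) (XT.nd (nat_lit 468) (nat_lit 0) (nat_lit 0) (XT.nd (nat_lit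 234) (nat_lit 152) (nat_lit 0) (XT.nd (nat_lit 78) (nat_lit 0) (nat_lit 0) (XT.lf (nat_lit 0) (nat_lit 80643990209) (nat_lit 76) (nat_lit 20369609177) (nat_lit 76) (nat_lit 6786288144) (nat_lit 3) (nat_lit 4) (nat_lit 4) (nat_lit 5) (nat_lit 4) (nat_lit 4) (nat_lit 296) (nat_lit 237) (nat_lit 187)) (XT.nd (nat_lit 78) (nat_lit 0) (nat_lit 0) (XT.lf (nat_lit 0) (nat_lit 94428272665) (nat_lit 76) (nat_lit 17632672014) (nat_lit 76) (nat_lit 4027430794) (nat_lit 3) (nat_lit 4) (nat_lit 4) (nat_lit 5) (nat_lit 4) (nat_lit 4) (nat_lit 297) (nat_lit 237) (nat_lit 186)) (XT.lf (nat_lit 0) (nat_lit 109293873319) (nat_lit 76) (nat_lit 14686293537) (nat_lit 76) (nat_lit 1060755847) (nat_lit 3) (nat_lit 4) (nat_lit 4) (nat_lit 5) (nat_lit 4) (nat_lit 4) (nat_lit 298) (nat_lit 237) (nat_lit 185)))) (XT.nd (nat_lit 78) (nat_lit 76) (nat_lit 0) (XT.lf (nat_lit 0) (nat_lit 2024699883) (nat_lit 152)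 (nat_lit 9432954959) (nat_lit 76) (nat_lit 123248825852) (nat_lit 2) (nat_lit 5) (nat_lit 4) (nat_lit 5) (nat_lit 3) (nat_lit 4) (nat_lit 299) (nat_lit 237) (nat_lit 184)) (XT.nd (nat_lit 78) (nat_lit 76) (nat_lit 0) (XT.lf (nat_lit 0) (nat_lit 5289184621) (nat_lit 152) (nat_lit 2660227655) (nat_lit 76) (nat_lit 137194528551) (nat_lit 2) (nat_lit 5) (nat_lit 4) (nat_lit 5) (nat_lit 3) (nat_lit 4) (nat_lit 300) (nat_lit 237) (nat_lit 183)) (XT.lf (nat_lit 0) (nat_lit 4880942943) (nat_lit 76) (nat_lit 4041550615) (nat_lit 152) (nat_lit 147485311114) (nat_lit 1) (nat_lit 5) (nat_lit 2) (nat_lit 5) (nat_lit 3) (nat_lit 4) (nat_lit 301) (nat_lit 237) (nat_lit 182))))) (XT.nd (nat_lit 234) (nat_lit 0) (nat_lit 0) (XT.nd (nat_lit 78) (nat_lit 0) (nat_lit 0) (XT.lf (nat_lit 0) (nat_lit 12915798098) (nat_lit 152) (nat_lit 155414137092) (nat_lit 0) (nat_lit 237314606) (nat_lit 1) (nat_lit 5)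 (nat_lit 3) (nat_lit 4) (nat_lit 1) (nat_lit 4) (nat_lit 302) (nat_lit 237) (nat_lit 181)) (XT.nd (nat_lit 78) (nat_lit 0) (nat_lit 0) (XT.lf (nat_lit 0) (nat_lit 17324656052) (nat_lit 152) (nat_lit 159733742274) (nat_lit 0) (nat_lit 4633382341) (nat_lit 1) (nat_lit 5) (nat_lit 3) (nat_lit 4) (nat_lit 1) (nat_lit 4) (nat_lit 303) (nat_lit 237) (nat_lit 180)) (XT.lf (nat_lit 0) (nat_lit 22077994596) (nat_lit 152) (nat_lit 164414075549) (nat_lit 0) (nat_lit 9374878091) (nat_lit 1) (nat_lit 5) (nat_lit 3) (nat_lit 4) (nat_lit 1) (nat_lit 4) (nat_lit 304) (nat_lit 237) (nat_lit 179)))) (XT.nd (nat_lit 78) (nat_lit 0) (nat_lit 0) (XT.lf (nat_lit 0) (nat_lit 27203981663) (nat_lit 152) (nat_lit 169482872223) (nat_lit 0) (nat_lit 14489899607) (nat_lit 1) (nat_lit 5) (nat_lit 3) (nat_lit 4) (nat_lit 1) (nat_lit 4) (nat_lit 305) (nat_lit 237) (nat_lit 178)) (XT.nd (nat_lit 78) (nat_lit 0) (nat_lit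 0) (XT.lf (nat_lit 0) (nat_lit 32732993472) (nat_lit 152) (nat_lit 174970169611) (nat_lit 0) (nat_lit 20008758128) (nat_lit 1) (nat_lit 5) (nat_lit 3) (nat_lit 4) (nat_lit 1) (nat_lit 4) (nat_lit 306) (nat_lit 237) (nat_lit 177)) (XT.lf (nat_lit 0) (nat_lit 38697794538) (nat_lit 152) (nat_lit 180908485031) (nat_lit 0) (nat_lit 25964158002) (nat_lit 1) (nat_lit 5) (nat_lit 3) (nat_lit 4) (nat_lit 1) (nat_lit 4) (nat_lit 307) (nat_lit 237) (nat_lit 176))))))))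
noncomputable def xc45 : XT := (XT.nd (nat_lit 1872) (nat_lit 0) (nat_lit 0) (XT.nd (nat_lit 936) (nat_lit 0) (nat_lit 0) (XT.nd (nat_lit 468) (nat_lit 0) (nat_lit 0) (XT.nd (nat_lit 234) (nat_lit 0) (nat_lit 0) (XT.nd (nat_lit 78) (nat_lit 0) (nat_lit 0) (XT.lf (nat_lit 0) (nat_lit 45133731831) (nat_lit 152) (nat_lit 187333008499) (nat_lit 0) (nat_lit 32391390486) (nat_lit 1) (nat_lit 5) (nat_lit 3) (nat_lit 4) (nat_lit 1) (nat_lit 4) (nat_lit 308) (nat_lit 237) (nat_lit 175)) (XT.nd (nat_lit 78) (nat_lit 0) (nat_lit 0) (XT.lf (nat_lit 0) (nat_lit 52078944236) (nat_lit 152) (nat_lit 194281811266) (nat_lit 0) (nat_lit 39328542885) (nat_lit 1) (nat_lit 5) (nat_lit 3) (nat_lit 4) (nat_lit 1) (nat_lit 4) (nat_lit 309) (nat_lit 237) (nat_lit 174)) (XT.lf (nat_lit 0) (nat_lit 59574588570) (nat_lit 152) (nat_lit 201796071423) (nat_lit 0) (nat_lit 46816724249) (nat_lit 1) (nat_lit 5) (nat_lit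 3) (nat_lit 4) (nat_lit 1) (nat_lit 4) (nat_lit 310) (nat_lit 237) (nat_lit 173)))) (XT.nd (nat_lit 78) (nat_lit 0) (nat_lit 0) (XT.lf (nat_lit 0) (nat_lit 67665083466) (nat_lit 152) (nat_lit 209920317918) (nat_lit 0) (nat_lit 54900308987) (nat_lit 1) (nat_lit 5) (nat_lit 3) (nat_lit 4) (nat_lit 1) (nat_lit 4) (nat_lit 311) (nat_lit 237) (nat_lit 172)) (XT.nd (nat_lit 78) (nat_lit 0) (nat_lit 0) (XT.lf (nat_lit 0) (nat_lit 76398372595) (nat_lit 152) (nat_lit 218702694434) (nat_lit 0) (nat_lit 63627199823) (nat_lit 1) (nat_lit 5) (nat_lit 3) (nat_lit 4) (nat_lit 1) (nat_lit 4) (nat_lit 312) (nat_lit 237) (nat_lit 171)) (XT.lf (nat_lit 0) (nat_lit 85826208784) (nat_lit 152) (nat_lit 228195244684) (nat_lit 0) (nat_lit 73049111666) (nat_lit 1) (nat_lit 5) (nat_lit 3) (nat_lit 4) (nat_lit 1) (nat_lit 4) (nat_lit 313) (nat_lit 237) (nat_lit 170))))) (XT.nd (nat_lit 234) (nat_lit 0) (nat_lit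 0) (XT.nd (nat_lit 78) (nat_lit 0) (nat_lit 0) (XT.lf (nat_lit 0) (nat_lit 96004460690) (nat_lit 152) (nat_lit 238454220818) (nat_lit 0) (nat_lit 83221878067) (nat_lit 1) (nat_lit 5) (nat_lit 3) (nat_lit 4) (nat_lit 1) (nat_lit 4) (nat_lit 314) (nat_lit 237) (nat_lit 169)) (XT.nd (nat_lit 78) (nat_lit 0) (nat_lit 0) (XT.lf (nat_lit 0) (nat_lit 106993443881) (nat_lit 152) (nat_lit 249540416769) (nat_lit 0) (nat_lit 94205782086) (nat_lit 1) (nat_lit 5) (nat_lit 3) (nat_lit 4) (nat_lit 1) (nat_lit 4) (nat_lit 315) (nat_lit 237) (nat_lit 168)) (XT.lf (nat_lit 0) (nat_lit 118858278258) (nat_lit 152) (nat_lit 261519528512) (nat_lit 0) (nat_lit 106065913526) (nat_lit 1) (nat_lit 5) (nat_lit 3) (nat_lit 4) (nat_lit 1) (nat_lit 4) (nat_lit 316) (nat_lit 237) (nat_lit 167)))) (XT.nd (nat_lit 78) (nat_lit 0) (nat_lit 0) (XT.lf (nat_lit 0) (nat_lit 131669273949) (nat_lit 152) (nat_lit 274462543376)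 (nat_lit 0) (nat_lit 118872554646) (nat_lit 1) (nat_lit 5) (nat_lit 3) (nat_lit 4) (nat_lit 1) (nat_lit 4) (nat_lit 317) (nat_lit 237) (nat_lit 166)) (XT.nd (nat_lit 78) (nat_lit 0) (nat_lit 0) (XT.lf (nat_lit 0) (nat_lit 145502347967) (nat_lit 152) (nat_lit 288446160708) (nat_lit 0) (nat_lit 132701596653) (nat_lit 1) (nat_lit 5) (nat_lit 3) (nat_lit 4) (nat_lit 1) (nat_lit 4) (nat_lit 318) (nat_lit 237) (nat_lit 165)) (XT.lf (nat_lit 0) (nat_lit 160439474082) (nat_lit 152) (nat_lit 303553246390) (nat_lit 0) (nat_lit 147634989426) (nat_lit 1) (nat_lit 5) (nat_lit 3) (nat_lit 4) (nat_lit 1) (nat_lit 4) (nat_lit 319) (nat_lit 237) (nat_lit 164)))))) (XT.nd (nat_lit 468) (nat_lit 0) (nat_lit 0) (XT.nd (nat_lit 234) (nat_lit 0) (nat_lit 0) (XT.nd (nat_lit 78) (nat_lit 0) (nat_lit 0) (XT.lf (nat_lit 0) (nat_lit 176569168599) (nat_lit 152) (nat_lit 319873323891) (nat_lit 0) (nat_lit 163761227144)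 (nat_lit 1) (nat_lit 5) (nat_lit 3) (nat_lit 4) (nat_lit 1) (nat_lit 4) (nat_lit 320) (nat_lit 237) (nat_lit 163)) (XT.nd (nat_lit 78) (nat_lit 0) (nat_lit 0) (XT.lf (nat_lit 0) (nat_lit 193987014892) (nat_lit 152) (nat_lit 337503104782) (nat_lit 0) (nat_lit 181175872697) (nat_lit 1) (nat_lit 5) (nat_lit 3) (nat_lit 4) (nat_lit 1) (nat_lit 4) (nat_lit 321) (nat_lit 237) (nat_lit 162)) (XT.lf (nat_lit 0) (nat_lit 212796229828) (nat_lit 152) (nat_lit 356547061840) (nat_lit 0) (nat_lit 199982123985) (nat_lit 1) (nat_lit 5) (nat_lit 3) (nat_lit 4) (nat_lit 1) (nat_lit 4) (nat_lit 322) (nat_lit 237) (nat_lit 161)))) (XT.nd (nat_lit 78) (nat_lit 0) (nat_lit 0) (XT.lf (nat_lit 0) (nat_lit 233108275422) (nat_lit 152) (nat_lit 377118048141) (nat_lit 0) (nat_lit 220291425460) (nat_lit 1) (nat_lit 5) (nat_lit 3) (nat_lit 4) (nat_lit 1) (nat_lit 4) (nat_lit 323) (nat_lit 237) (nat_lit 160)) (XT.nd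 (nat_lit 78) (nat_lit 0) (nat_lit 0) (XT.lf (nat_lit 0) (nat_lit 255043519350) (nat_lit 152) (nat_lit 399337965829) (nat_lit 0) (nat_lit 242224128538) (nat_lit 1) (nat_lit 5) (nat_lit 3) (nat_lit 4) (nat_lit 1) (nat_lit 4) (nat_lit 324) (nat_lit 237) (nat_lit 159)) (XT.lf (nat_lit 0) (nat_lit 278731948244) (nat_lit 152) (nat_lit 423338488488) (nat_lit 0) (nat_lit 265910204793) (nat_lit 1) (nat_lit 5) (nat_lit 3) (nat_lit 4) (nat_lit 1) (nat_lit 4) (nat_lit 325) (nat_lit 237) (nat_lit 158))))) (XT.nd (nat_lit 234) (nat_lit 0) (nat_lit 0) (XT.nd (nat_lit 78) (nat_lit 0) (nat_lit 0) (XT.lf (nat_lit 0) (nat_lit 304313937979) (nat_lit 152) (nat_lit 449261841439) (nat_lit 0) (nat_lit 291490016158) (nat_lit 1) (nat_lit 5) (nat_lit 3) (nat_lit 4) (nat_lit 1) (nat_lit 4) (nat_lit 326) (nat_lit 237) (nat_lit 157)) (XT.nd (nat_lit 78) (nat_lit 0) (nat_lit 0) (XT.lf (nat_lit 0) (nat_lit 331941085531)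 (nat_lit 152) (nat_lit 477261644551) (nat_lit 0) (nat_lit 319115146701) (nat_lit 1) (nat_lit 5) (nat_lit 3) (nat_lit 4) (nat_lit 1) (nat_lit 4) (nat_lit 327) (nat_lit 237) (nat_lit 156)) (XT.lf (nat_lit 0) (nat_lit 361777107329) (nat_lit 152) (nat_lit 507503822583) (nat_lit 0) (nat_lit 348949300898) (nat_lit 1) (nat_lit 5) (nat_lit 3) (nat_lit 4) (nat_lit 1) (nat_lit 4) (nat_lit 328) (nat_lit 237) (nat_lit 155)))) (XT.nd (nat_lit 78) (nat_lit 0) (nat_lit 0) (XT.lf (nat_lit 0) (nat_lit 393998809429) (nat_lit 152) (nat_lit 540167588441) (nat_lit 0) (nat_lit 381169273739) (nat_lit 1) (nat_lit 5) (nat_lit 3) (nat_lit 4) (nat_lit 1) (nat_lit 4) (nat_lit 329) (nat_lit 237) (nat_lit 154)) (XT.nd (nat_lit 78) (nat_lit 0) (nat_lit 0) (XT.lf (nat_lit 0) (nat_lit 428797135251) (nat_lit 152) (nat_lit 575446505183) (nat_lit 0) (nat_lit 415965998394) (nat_lit 1) (nat_lit 5) (nat_lit 3) (nat_lit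 4) (nat_lit 1) (nat_lit 4) (nat_lit 330) (nat_lit 237) (nat_lit 153)) (XT.lf (nat_lit 0) (nat_lit 466378297096) (nat_lit 152) (nat_lit 613549633056) (nat_lit 0) (nat_lit 453545677677) (nat_lit 1) (nat_lit 5) (nat_lit 3) (nat_lit 4) (nat_lit 1) (nat_lit 4) (nat_lit 331) (nat_lit 237) (nat_lit 152))))))) (XT.nd (nat_lit 31122) (nat_lit 0) (nat_lit 1140) (XT.nd (nat_lit 30654) (nat_lit 0) (nat_lit 3192) (XT.nd (nat_lit 234) (nat_lit 0) (nat_lit 0) (XT.nd (nat_lit 78) (nat_lit 0) (nat_lit 0) (XT.lf (nat_lit 0) (nat_lit 506964998146) (nat_lit 152) (nat_lit 654702768374) (nat_lit 0) (nat_lit 494131005984) (nat_lit 1) (nat_lit 5) (nat_lit 3) (nat_lit 4) (nat_lit 1) (nat_lit 4) (nat_lit 332) (nat_lit 237) (nat_lit 151)) (XT.nd (nat_lit 78) (nat_lit 0) (nat_lit 0) (XT.lf (nat_lit 0) (nat_lit 550797752183) (nat_lit 152) (nat_lit 699149781568) (nat_lit 0) (nat_lit 537962488963) (nat_lit 1) (nat_lit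 5) (nat_lit 3) (nat_lit 4) (nat_lit 1) (nat_lit 4) (nat_lit 333) (nat_lit 237) (nat_lit 150)) (XT.lf (nat_lit 0) (nat_lit 598136308862) (nat_lit 152) (nat_lit 747154062345) (nat_lit 0) (nat_lit 585299868737) (nat_lit 1) (nat_lit 5) (nat_lit 3) (nat_lit 4) (nat_lit 1) (nat_lit 4) (nat_lit 334) (nat_lit 237) (nat_lit 149)))) (XT.nd (nat_lit 78) (nat_lit 0) (nat_lit 0) (XT.lf (nat_lit 0) (nat_lit 649261192963) (nat_lit 152) (nat_lit 799000080518) (nat_lit 0) (nat_lit 636423663111) (nat_lit 1) (nat_lit 5) (nat_lit 3) (nat_lit 4) (nat_lit 1) (nat_lit 4) (nat_lit 335) (nat_lit 237) (nat_lit 148)) (XT.nd (nat_lit 78) (nat_lit 0) (nat_lit 0) (XT.lf (nat_lit 0) (nat_lit 704475366763) (nat_lit 152) (nat_lit 854995071751) (nat_lit 0) (nat_lit 691636827904) (nat_lit 1) (nat_lit 5) (nat_lit 3) (nat_lit 4) (nat_lit 1) (nat_lit 4) (nat_lit 336) (nat_lit 237) (nat_lit 147)) (XT.lf (nat_lit 0) (nat_lit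 764106025364) (nat_lit 152) (nat_lit 915470858212) (nat_lit 0) (nat_lit 751266552240) (nat_lit 1) (nat_lit 5) (nat_lit 3) (nat_lit 4) (nat_lit 1) (nat_lit 4) (nat_lit 337) (nat_lit 237) (nat_lit 146))))) (XT.nd (nat_lit 234) (nat_lit 608) (nat_lit 0) (XT.nd (nat_lit 78) (nat_lit 228) (nat_lit 0) (XT.lf (nat_lit 0) (nat_lit 3027971949) (nat_lit 76) (nat_lit 127978482) (nat_lit 76) (nat_lit 127978482) (nat_lit 54) (nat_lit 4) (nat_lit 55) (nat_lit 5) (nat_lit 55) (nat_lit 4) (nat_lit 244) (nat_lit 238) (nat_lit 238)) (XT.nd (nat_lit 78) (nat_lit 0) (nat_lit 0) (XT.lf (nat_lit 0) (nat_lit 2533961922) (nat_lit 228) (nat_lit 3627091360) (nat_lit 0) (nat_lit 478801026) (nat_lit 51) (nat_lit 5) (nat_lit 54) (nat_lit 4) (nat_lit 51) (nat_lit 4) (nat_lit 245) (nat_lit 238) (nat_lit 237)) (XT.lf (nat_lit 0) (nat_lit 5308655007) (nat_lit 228) (nat_lit 78391763) (nat_lit 0) (nat_lit 1350567356)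 (nat_lit 51) (nat_lit 5) (nat_lit 54) (nat_lit 4) (nat_lit 51) (nat_lit 4) (nat_lit 246) (nat_lit 238) (nat_lit 236)))) (XT.nd (nat_lit 78) (nat_lit 304) (nat_lit 0) (XT.lf (nat_lit 0) (nat_lit 1246194186) (nat_lit 304) (nat_lit 3127972961) (nat_lit 76) (nat_lit 2479839700) (nat_lit 47) (nat_lit 5) (nat_lit 51) (nat_lit 5) (nat_lit 48) (nat_lit 4) (nat_lit 247) (nat_lit 238) (nat_lit 235)) (XT.nd (nat_lit 78) (nat_lit 0) (nat_lit 0) (XT.lf (nat_lit 0) (nat_lit 664464513) (nat_lit 304) (nat_lit 3189369314) (nat_lit 380) (nat_lit 3141292612) (nat_lit 43) (nat_lit 5) (nat_lit 47) (nat_lit 5) (nat_lit 48) (nat_lit 4) (nat_lit 248) (nat_lit 238) (nat_lit 234)) (XT.lf (nat_lit 0) (nat_lit 4751696038) (nat_lit 304) (nat_lit 1793405162) (nat_lit 380) (nat_lit 614320775) (nat_lit 43) (nat_lit 5) (nat_lit 47) (nat_lit 5) (nat_lit 48) (nat_lit 4) (nat_lit 249) (nat_lit 238) (nat_lit 233))))))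 (XT.nd (nat_lit 468) (nat_lit 684) (nat_lit 0) (XT.nd (nat_lit 234) (nat_lit 456) (nat_lit 0) (XT.nd (nat_lit 78) (nat_lit 456) (nat_lit 0) (XT.lf (nat_lit 0) (nat_lit 1677168865) (nat_lit 380) (nat_lit 170546842) (nat_lit 456) (nat_lit 5499599094) (nat_lit 37) (nat_lit 5) (nat_lit 42) (nat_lit 5) (nat_lit 43) (nat_lit 5) (nat_lit 250) (nat_lit 238) (nat_lit 232)) (XT.nd (nat_lit 78) (nat_lit 456) (nat_lit 0) (XT.lf (nat_lit 0) (nat_lit 4388341368) (nat_lit 456) (nat_lit 1572178107) (nat_lit 76) (nat_lit 1596756343) (nat_lit 37) (nat_lit 5) (nat_lit 43) (nat_lit 5) (nat_lit 38) (nat_lit 4) (nat_lit 251) (nat_lit 238) (nat_lit 231)) (XT.lf (nat_lit 0) (nat_lit 2806951777) (nat_lit 456) (nat_lit 4220557557) (nat_lit 532) (nat_lit 766288520) (nat_lit 31) (nat_lit 5) (nat_lit 37) (nat_lit 5) (nat_lit 38) (nat_lit 4) (nat_lit 252) (nat_lit 238) (nat_lit 230)))) (XT.nd (nat_lit 78) (nat_lit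 380) (nat_lit 0) (XT.lf (nat_lit 0) (nat_lit 1607777543) (nat_lit 532) (nat_lit 653431213) (nat_lit 76) (nat_lit 5796049826) (nat_lit 30) (nat_lit 5) (nat_lit 37) (nat_lit 5) (nat_lit 31) (nat_lit 5) (nat_lit 253) (nat_lit 238) (nat_lit 229)) (XT.nd (nat_lit 78) (nat_lit 152) (nat_lit 0) (XT.lf (nat_lit 0) (nat_lit 4034152312) (nat_lit 228) (nat_lit 32662845) (nat_lit 304) (nat_lit 4279574520) (nat_lit 27) (nat_lit 5) (nat_lit 30) (nat_lit 5) (nat_lit 31) (nat_lit 5) (nat_lit 254) (nat_lit 238) (nat_lit 228)) (XT.lf (nat_lit 0) (nat_lit 248744643) (nat_lit 152) (nat_lit 6402058594) (nat_lit 228) (nat_lit 2014609692) (nat_lit 25) (nat_lit 5) (nat_lit 27) (nat_lit 5) (nat_lit 28) (nat_lit 4) (nat_lit 255) (nat_lit 238) (nat_lit 227))))) (XT.nd (nat_lit 234) (nat_lit 380) (nat_lit 0) (XT.nd (nat_lit 78) (nat_lit 228) (nat_lit 0) (XT.lf (nat_lit 0) (nat_lit 380964747) (nat_lit 228) (nat_lit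 3781974620) (nat_lit 76) (nat_lit 4849382705) (nat_lit 24) (nat_lit 5) (nat_lit 27) (nat_lit 5) (nat_lit 25) (nat_lit 5) (nat_lit 256) (nat_lit 238) (nat_lit 226)) (XT.nd (nat_lit 78) (nat_lit 0) (nat_lit 0) (XT.lf (nat_lit 0) (nat_lit 1050567691) (nat_lit 228) (nat_lit 1694399208) (nat_lit 304) (nat_lit 6647790607) (nat_lit 21) (nat_lit 5) (nat_lit 24) (nat_lit 5) (nat_lit 25) (nat_lit 5) (nat_lit 257) (nat_lit 238) (nat_lit 225)) (XT.lf (nat_lit 0) (nat_lit 5293338784) (nat_lit 304) (nat_lit 3515947117) (nat_lit 76) (nat_lit 995471540) (nat_lit 21) (nat_lit 5) (nat_lit 25) (nat_lit 5) (nat_lit 22) (nat_lit 4) (nat_lit 258) (nat_lit 238) (nat_lit 224)))) (XT.nd (nat_lit 156) (nat_lit 152) (nat_lit 0) (XT.nd (nat_lit 78) (nat_lit 76) (nat_lit 0) (XT.lf (nat_lit 0) (nat_lit 1564600427) (nat_lit 152) (nat_lit 6438350724) (nat_lit 228) (nat_lit 2250870666) (nat_lit 19) (nat_lit 5) (nat_lit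 21) (nat_lit 5) (nat_lit 22) (nat_lit 4) (nat_lit 259) (nat_lit 238) (nat_lit 223)) (XT.lf (nat_lit 0) (nat_lit 156963690) (nat_lit 228) (nat_lit 3655554877) (nat_lit 76) (nat_lit 6928443442) (nat_lit 18) (nat_lit 5) (nat_lit 21) (nat_lit 5) (nat_lit 19) (nat_lit 5) (nat_lit 260) (nat_lit 238) (nat_lit 222))) (XT.nd (nat_lit 78) (nat_lit 0) (nat_lit 0) (XT.lf (nat_lit 0) (nat_lit 1648410260) (nat_lit 152) (nat_lit 913482990) (nat_lit 228) (nat_lit 8706968119) (nat_lit 16) (nat_lit 5) (nat_lit 18) (nat_lit 5) (nat_lit 19) (nat_lit 5) (nat_lit 261) (nat_lit 238) (nat_lit 221)) (XT.lf (nat_lit 0) (nat_lit 5205220455) (nat_lit 228) (nat_lit 4462934644) (nat_lit 76) (nat_lit 2167667506) (nat_lit 16) (nat_lit 5) (nat_lit 19) (nat_lit 5) (nat_lit 17) (nat_lit 4) (nat_lit 262) (nat_lit 238) (nat_lit 220))))))))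
noncomputable def xc46 : XT := (XT.nd (nat_lit 1872) (nat_lit 228) (nat_lit 0) (XT.nd (nat_lit 936) (nat_lit 228) (nat_lit 0) (XT.nd (nat_lit 468) (nat_lit 304) (nat_lit 0) (XT.nd (nat_lit 234) (nat_lit 228) (nat_lit 0) (XT.nd (nat_lit 78) (nat_lit 76) (nat_lit 0) (XT.lf (nat_lit 0) (nat_lit 983976245) (nat_lit 76) (nat_lit 7021695280) (nat_lit 152) (nat_lit 4447288992) (nat_lit 15) (nat_lit 5) (nat_lit 16) (nat_lit 5) (nat_lit 17) (nat_lit 4) (nat_lit 263) (nat_lit 238) (nat_lit 219)) (XT.nd (nat_lit 78) (nat_lit 76) (nat_lit 0) (XT.lf (nat_lit 0) (nat_lit 6975513137) (nat_lit 76) (nat_lit 4078986371) (nat_lit 152) (nat_lit 2063460093) (nat_lit 15) (nat_lit 5) (nat_lit 16) (nat_lit 5) (nat_lit 17) (nat_lit 4) (nat_lit 264) (nat_lit 238) (nat_lit 218)) (XT.lf (nat_lit 0) (nat_lit 392327145) (nat_lit 152) (nat_lit 541560575) (nat_lit 76) (nat_lit 12909117139) (nat_lit 14) (nat_lit 5)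 (nat_lit 16) (nat_lit 5) (nat_lit 15) (nat_lit 5) (nat_lit 265) (nat_lit 238) (nat_lit 217)))) (XT.nd (nat_lit 78) (nat_lit 76) (nat_lit 0) (XT.lf (nat_lit 0) (nat_lit 3044711813) (nat_lit 228) (nat_lit 9076289836) (nat_lit 76) (nat_lit 2492182412) (nat_lit 12) (nat_lit 5) (nat_lit 15) (nat_lit 5) (nat_lit 13) (nat_lit 4) (nat_lit 266) (nat_lit 238) (nat_lit 216)) (XT.nd (nat_lit 78) (nat_lit 76) (nat_lit 0) (XT.lf (nat_lit 0) (nat_lit 5864786636) (nat_lit 228) (nat_lit 3467813258) (nat_lit 76) (nat_lit 6116259260) (nat_lit 12) (nat_lit 5) (nat_lit 15) (nat_lit 5) (nat_lit 13) (nat_lit 4) (nat_lit 267) (nat_lit 238) (nat_lit 215)) (XT.lf (nat_lit 0) (nat_lit 2597225119) (nat_lit 76) (nat_lit 6297974845) (nat_lit 152) (nat_lit 7457707377) (nat_lit 11) (nat_lit 5) (nat_lit 12) (nat_lit 5) (nat_lit 13) (nat_lit 4) (nat_lit 268) (nat_lit 238) (nat_lit 214))))) (XT.nd (nat_lit 234) (nat_lit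 76) (nat_lit 0) (XT.nd (nat_lit 78) (nat_lit 228) (nat_lit 0) (XT.lf (nat_lit 0) (nat_lit 9225733755) (nat_lit 76) (nat_lit 2962295035) (nat_lit 152) (nat_lit 5139927638) (nat_lit 11) (nat_lit 5) (nat_lit 12) (nat_lit 5) (nat_lit 13) (nat_lit 4) (nat_lit 269) (nat_lit 238) (nat_lit 213)) (XT.nd (nat_lit 78) (nat_lit 228) (nat_lit 0) (XT.lf (nat_lit 0) (nat_lit 15689408783) (nat_lit 152) (nat_lit 2126839453) (nat_lit 0) (nat_lit 569406435) (nat_lit 11) (nat_lit 5) (nat_lit 13) (nat_lit 4) (nat_lit 11) (nat_lit 4) (nat_lit 270) (nat_lit 238) (nat_lit 212)) (XT.lf (nat_lit 0) (nat_lit 65359794) (nat_lit 228) (nat_lit 15159153775) (nat_lit 76) (nat_lit 4294217855) (nat_lit 8) (nat_lit 5) (nat_lit 11) (nat_lit 5) (nat_lit 9) (nat_lit 4) (nat_lit 271) (nat_lit 238) (nat_lit 211)))) (XT.nd (nat_lit 78) (nat_lit 76) (nat_lit 0) (XT.lf (nat_lit 0) (nat_lit 2897308296) (nat_lit 228) (nat_lit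 9430830337) (nat_lit 76) (nat_lit 8409309164) (nat_lit 8) (nat_lit 5) (nat_lit 11) (nat_lit 5) (nat_lit 9) (nat_lit 4) (nat_lit 272) (nat_lit 238) (nat_lit 210)) (XT.nd (nat_lit 78) (nat_lit 76) (nat_lit 0) (XT.lf (nat_lit 0) (nat_lit 5896016089) (nat_lit 228) (nat_lit 3343637985) (nat_lit 76) (nat_lit 12818978728) (nat_lit 8) (nat_lit 5) (nat_lit 11) (nat_lit 5) (nat_lit 9) (nat_lit 4) (nat_lit 273) (nat_lit 238) (nat_lit 209)) (XT.lf (nat_lit 0) (nat_lit 3303763142) (nat_lit 76) (nat_lit 5854945732) (nat_lit 152) (nat_lit 14325050362) (nat_lit 7) (nat_lit 5) (nat_lit 8) (nat_lit 5) (nat_lit 9) (nat_lit 4) (nat_lit 274) (nat_lit 238) (nat_lit 208)))))) (XT.nd (nat_lit 468) (nat_lit 76) (nat_lit 0) (XT.nd (nat_lit 234) (nat_lit 152) (nat_lit 0) (XT.nd (nat_lit 78) (nat_lit 0) (nat_lit 0) (XT.lf (nat_lit 0) (nat_lit 10583407773) (nat_lit 76) (nat_lit 2137006973) (nat_lit 152) (nat_lit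 12299602060) (nat_lit 7) (nat_lit 5) (nat_lit 8) (nat_lit 5) (nat_lit 9) (nat_lit 4) (nat_lit 275) (nat_lit 238) (nat_lit 207)) (XT.nd (nat_lit 78) (nat_lit 0) (nat_lit 0) (XT.lf (nat_lit 0) (nat_lit 16561957889) (nat_lit 152) (nat_lit 8365283539) (nat_lit 0) (nat_lit 1752490406) (nat_lit 7) (nat_lit 5) (nat_lit 9) (nat_lit 4) (nat_lit 7) (nat_lit 4) (nat_lit 276) (nat_lit 238) (nat_lit 206)) (XT.lf (nat_lit 0) (nat_lit 20719781189) (nat_lit 152) (nat_lit 1943719573) (nat_lit 0) (nat_lit 5808144654) (nat_lit 7) (nat_lit 5) (nat_lit 9) (nat_lit 4) (nat_lit 7) (nat_lit 4) (nat_lit 277) (nat_lit 238) (nat_lit 205)))) (XT.nd (nat_lit 78) (nat_lit 76) (nat_lit 0) (XT.lf (nat_lit 0) (nat_lit 5176480149) (nat_lit 76) (nat_lit 20115142853) (nat_lit 76) (nat_lit 5108905344) (nat_lit 6) (nat_lit 4) (nat_lit 7) (nat_lit 5) (nat_lit 7) (nat_lit 4) (nat_lit 278) (nat_lit 238) (nat_lit 204)) (XT.nd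 (nat_lit 78) (nat_lit 76) (nat_lit 0) (XT.lf (nat_lit 0) (nat_lit 12904673416) (nat_lit 76) (nat_lit 17336038853) (nat_lit 76) (nat_lit 2242207850) (nat_lit 6) (nat_lit 4) (nat_lit 7) (nat_lit 5) (nat_lit 7) (nat_lit 4) (nat_lit 279) (nat_lit 238) (nat_lit 203)) (XT.lf (nat_lit 0) (nat_lit 771448257) (nat_lit 152) (nat_lit 13570323716) (nat_lit 76) (nat_lit 20391763081) (nat_lit 5) (nat_lit 5) (nat_lit 7) (nat_lit 5) (nat_lit 6) (nat_lit 4) (nat_lit 280) (nat_lit 238) (nat_lit 202))))) (XT.nd (nat_lit 234) (nat_lit 0) (nat_lit 0) (XT.nd (nat_lit 78) (nat_lit 76) (nat_lit 0) (XT.lf (nat_lit 0) (nat_lit 3868332186) (nat_lit 152) (nat_lit 7203902446) (nat_lit 76) (nat_lit 26090337438) (nat_lit 5) (nat_lit 5) (nat_lit 7) (nat_lit 5) (nat_lit 6) (nat_lit 4) (nat_lit 281) (nat_lit 238) (nat_lit 201)) (XT.nd (nat_lit 78) (nat_lit 76) (nat_lit 0) (XT.lf (nat_lit 0) (nat_lit 7178960160) (nat_lit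 152) (nat_lit 387330801) (nat_lit 76) (nat_lit 32222448514) (nat_lit 5) (nat_lit 5) (nat_lit 7) (nat_lit 5) (nat_lit 6) (nat_lit 4) (nat_lit 282) (nat_lit 238) (nat_lit 200)) (XT.lf (nat_lit 0) (nat_lit 7284169369) (nat_lit 76) (nat_lit 3613965792) (nat_lit 152) (nat_lit 31715449823) (nat_lit 4) (nat_lit 5) (nat_lit 5) (nat_lit 5) (nat_lit 6) (nat_lit 4) (nat_lit 283) (nat_lit 238) (nat_lit 199)))) (XT.nd (nat_lit 78) (nat_lit 0) (nat_lit 0) (XT.lf (nat_lit 0) (nat_lit 14910459955) (nat_lit 152) (nat_lit 30143522002) (nat_lit 0) (nat_lit 610861410) (nat_lit 4) (nat_lit 5) (nat_lit 6) (nat_lit 4) (nat_lit 4) (nat_lit 4) (nat_lit 284) (nat_lit 238) (nat_lit 198)) (XT.nd (nat_lit 78) (nat_lit 0) (nat_lit 0) (XT.lf (nat_lit 0) (nat_lit 19308944210) (nat_lit 152) (nat_lit 24687877610) (nat_lit 0) (nat_lit 4958235702) (nat_lit 4) (nat_lit 5) (nat_lit 6) (nat_lit 4) (nat_lit 4) (nat_lit 4)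 (nat_lit 285) (nat_lit 238) (nat_lit 197)) (XT.lf (nat_lit 0) (nat_lit 24032737053) (nat_lit 152) (nat_lit 18843236730) (nat_lit 0) (nat_lit 9634704506) (nat_lit 4) (nat_lit 5) (nat_lit 6) (nat_lit 4) (nat_lit 4) (nat_lit 4) (nat_lit 286) (nat_lit 238) (nat_lit 196))))))) (XT.nd (nat_lit 936) (nat_lit 152) (nat_lit 0) (XT.nd (nat_lit 468) (nat_lit 0) (nat_lit 0) (XT.nd (nat_lit 234) (nat_lit 0) (nat_lit 0) (XT.nd (nat_lit 78) (nat_lit 76) (nat_lit 0) (XT.lf (nat_lit 0) (nat_lit 29109831331) (nat_lit 152) (nat_lit 12574964455) (nat_lit 0) (nat_lit 14667980229) (nat_lit 4) (nat_lit 5) (nat_lit 6) (nat_lit 4) (nat_lit 4) (nat_lit 4) (nat_lit 287) (nat_lit 238) (nat_lit 195)) (XT.nd (nat_lit 78) (nat_lit 76) (nat_lit 0) (XT.lf (nat_lit 0) (nat_lit 34570313529) (nat_lit 152) (nat_lit 5845915465) (nat_lit 0) (nat_lit 20087889690) (nat_lit 4) (nat_lit 5) (nat_lit 6) (nat_lit 4) (nat_lit 4)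 (nat_lit 4) (nat_lit 288) (nat_lit 238) (nat_lit 194)) (XT.lf (nat_lit 0) (nat_lit 1456653805) (nat_lit 76) (nat_lit 39024920814) (nat_lit 76) (nat_lit 24504929627) (nat_lit 3) (nat_lit 4) (nat_lit 4) (nat_lit 5) (nat_lit 4) (nat_lit 4) (nat_lit 289) (nat_lit 238) (nat_lit 193)))) (XT.nd (nat_lit 78) (nat_lit 0) (nat_lit 0) (XT.lf (nat_lit 0) (nat_lit 9639173355) (nat_lit 76) (nat_lit 37365988014) (nat_lit 76) (nat_lit 22811212245) (nat_lit 3) (nat_lit 4) (nat_lit 4) (nat_lit 5) (nat_lit 4) (nat_lit 4) (nat_lit 290) (nat_lit 238) (nat_lit 192)) (XT.nd (nat_lit 78) (nat_lit 0) (nat_lit 0) (XT.lf (nat_lit 0) (nat_lit 18442296642) (nat_lit 76) (nat_lit 35589437570) (nat_lit 76) (nat_lit 21002453855) (nat_lit 3) (nat_lit 4) (nat_lit 4) (nat_lit 5) (nat_lit 4) (nat_lit 4) (nat_lit 291) (nat_lit 238) (nat_lit 191)) (XT.lf (nat_lit 0) (nat_lit 27918190321) (nat_lit 76) (nat_lit 33684741778)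 (nat_lit 76) (nat_lit 19067935890) (nat_lit 3) (nat_lit 4) (nat_lit 4) (nat_lit 5) (nat_lit 4) (nat_lit 4) (nat_lit 292) (nat_lit 238) (nat_lit 190))))) (XT.nd (nat_lit 234) (nat_lit 0) (nat_lit 0) (XT.nd (nat_lit 78) (nat_lit 0) (nat_lit 0) (XT.lf (nat_lit 0) (nat_lit 38123007836) (nat_lit 76) (nat_lit 31640613549) (nat_lit 76) (nat_lit 16996194539) (nat_lit 3) (nat_lit 4) (nat_lit 4) (nat_lit 5) (nat_lit 4) (nat_lit 4) (nat_lit 293) (nat_lit 238) (nat_lit 189)) (XT.nd (nat_lit 78) (nat_lit 0) (nat_lit 0) (XT.lf (nat_lit 0) (nat_lit 49117222180) (nat_lit 76) (nat_lit 29444939533) (nat_lit 76) (nat_lit 14774952816) (nat_lit 3) (nat_lit 4) (nat_lit 4) (nat_lit 5) (nat_lit 4) (nat_lit 4) (nat_lit 294) (nat_lit 238) (nat_lit 188)) (XT.lf (nat_lit 0) (nat_lit 60965984253) (nat_lit 76) (nat_lit 27084708326) (nat_lit 76) (nat_lit 12391047808) (nat_lit 3) (nat_lit 4) (nat_lit 4) (nat_lit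 5) (nat_lit 4) (nat_lit 4) (nat_lit 295) (nat_lit 238) (nat_lit 187)))) (XT.nd (nat_lit 78) (nat_lit 0) (nat_lit 0) (XT.lf (nat_lit 0) (nat_lit 73739508941) (nat_lit 76) (nat_lit 24545933375) (nat_lit 76) (nat_lit 9830352670) (nat_lit 3) (nat_lit 4) (nat_lit 4) (nat_lit 5) (nat_lit 4) (nat_lit 4) (nat_lit 296) (nat_lit 238) (nat_lit 186)) (XT.nd (nat_lit 78) (nat_lit 0) (nat_lit 0) (XT.lf (nat_lit 0) (nat_lit 87513491205) (nat_lit 76) (nat_lit 21813570087) (nat_lit 76) (nat_lit 7077692912) (nat_lit 3) (nat_lit 4) (nat_lit 4) (nat_lit 5) (nat_lit 4) (nat_lit 4) (nat_lit 297) (nat_lit 238) (nat_lit 185)) (XT.lf (nat_lit 0) (nat_lit 102369554644) (nat_lit 76) (nat_lit 18871426679) (nat_lit 76) (nat_lit 4116756477) (nat_lit 3) (nat_lit 4) (nat_lit 4) (nat_lit 5) (nat_lit 4) (nat_lit 4) (nat_lit 298) (nat_lit 238) (nat_lit 184)))))) (XT.nd (nat_lit 468) (nat_lit 0) (nat_lit 0) (XT.nd (nat_lit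 234) (nat_lit 76) (nat_lit 0) (XT.nd (nat_lit 78) (nat_lit 76) (nat_lit 0) (XT.lf (nat_lit 0) (nat_lit 118395735190) (nat_lit 76) (nat_lit 15702068227) (nat_lit 76) (nat_lit 929997074) (nat_lit 3) (nat_lit 4) (nat_lit 4) (nat_lit 5) (nat_lit 4) (nat_lit 4) (nat_lit 299) (nat_lit 238) (nat_lit 183)) (XT.nd (nat_lit 78) (nat_lit 0) (nat_lit 0) (XT.lf (nat_lit 0) (nat_lit 2376336146) (nat_lit 152) (nat_lit 9845403961) (nat_lit 76) (nat_lit 133245693413) (nat_lit 2) (nat_lit 5) (nat_lit 4) (nat_lit 5) (nat_lit 3) (nat_lit 4) (nat_lit 300) (nat_lit 238) (nat_lit 182)) (XT.lf (nat_lit 0) (nat_lit 5887930753) (nat_lit 152) (nat_lit 2556205687) (nat_lit 76) (nat_lit 148296907033) (nat_lit 2) (nat_lit 5) (nat_lit 4) (nat_lit 5) (nat_lit 3) (nat_lit 4) (nat_lit 301) (nat_lit 238) (nat_lit 181)))) (XT.nd (nat_lit 78) (nat_lit 0) (nat_lit 0) (XT.lf (nat_lit 0) (nat_lit 5580237288) (nat_lit 76)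 (nat_lit 4226085971) (nat_lit 152) (nat_lit 159100166600) (nat_lit 1) (nat_lit 5) (nat_lit 2) (nat_lit 5) (nat_lit 3) (nat_lit 4) (nat_lit 302) (nat_lit 238) (nat_lit 180)) (XT.nd (nat_lit 78) (nat_lit 0) (nat_lit 0) (XT.lf (nat_lit 0) (nat_lit 14109587953) (nat_lit 152) (nat_lit 167551508591) (nat_lit 0) (nat_lit 378379332) (nat_lit 1) (nat_lit 5) (nat_lit 3) (nat_lit 4) (nat_lit 1) (nat_lit 4) (nat_lit 303) (nat_lit 238) (nat_lit 179)) (XT.lf (nat_lit 0) (nat_lit 18859263727) (nat_lit 152) (nat_lit 172238590297) (nat_lit 0) (nat_lit 5117089556) (nat_lit 1) (nat_lit 5) (nat_lit 3) (nat_lit 4) (nat_lit 1) (nat_lit 4) (nat_lit 304) (nat_lit 238) (nat_lit 178))))) (XT.nd (nat_lit 234) (nat_lit 0) (nat_lit 0) (XT.nd (nat_lit 78) (nat_lit 0) (nat_lit 0) (XT.lf (nat_lit 0) (nat_lit 23981859341) (nat_lit 152) (nat_lit 177313635520) (nat_lit 0) (nat_lit 10229531881) (nat_lit 1) (nat_lit 5)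 (nat_lit 3) (nat_lit 4) (nat_lit 1) (nat_lit 4) (nat_lit 305) (nat_lit 238) (nat_lit 177)) (XT.nd (nat_lit 78) (nat_lit 0) (nat_lit 0) (XT.lf (nat_lit 0) (nat_lit 29507730916) (nat_lit 152) (nat_lit 182806718600) (nat_lit 0) (nat_lit 15746002264) (nat_lit 1) (nat_lit 5) (nat_lit 3) (nat_lit 4) (nat_lit 1) (nat_lit 4) (nat_lit 306) (nat_lit 238) (nat_lit 176)) (XT.lf (nat_lit 0) (nat_lit 35469624357) (nat_lit 152) (nat_lit 188750391142) (nat_lit 0) (nat_lit 21699190897) (nat_lit 1) (nat_lit 5) (nat_lit 3) (nat_lit 4) (nat_lit 1) (nat_lit 4) (nat_lit 307) (nat_lit 238) (nat_lit 175)))) (XT.nd (nat_lit 156) (nat_lit 0) (nat_lit 0) (XT.nd (nat_lit 78) (nat_lit 0) (nat_lit 0) (XT.lf (nat_lit 0) (nat_lit 41902869404) (nat_lit 152) (nat_lit 195179874909) (nat_lit 0) (nat_lit 28124375937) (nat_lit 1) (nat_lit 5) (nat_lit 3) (nat_lit 4) (nat_lit 1) (nat_lit 4) (nat_lit 308) (nat_lit 238) (nat_lit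 174)) (XT.lf (nat_lit 0) (nat_lit 48845588991) (nat_lit 152) (nat_lit 202133270545) (nat_lit 0) (nat_lit 35059632554) (nat_lit 1) (nat_lit 5) (nat_lit 3) (nat_lit 4) (nat_lit 1) (nat_lit 4) (nat_lit 309) (nat_lit 238) (nat_lit 173))) (XT.nd (nat_lit 78) (nat_lit 0) (nat_lit 0) (XT.lf (nat_lit 0) (nat_lit 56338925159) (nat_lit 152) (nat_lit 209651783359) (nat_lit 0) (nat_lit 42546058565) (nat_lit 1) (nat_lit 5) (nat_lit 3) (nat_lit 4) (nat_lit 1) (nat_lit 4) (nat_lit 310) (nat_lit 238) (nat_lit 172)) (XT.lf (nat_lit 0) (nat_lit 64427282863) (nat_lit 152) (nat_lit 217779967499) (nat_lit 0) (nat_lit 50628017975) (nat_lit 1) (nat_lit 5) (nat_lit 3) (nat_lit 4) (nat_lit 1) (nat_lit 4) (nat_lit 311) (nat_lit 238) (nat_lit 171))))))))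
noncomputable def xc47 : XT := (XT.nd (nat_lit 1872) (nat_lit 0) (nat_lit 0) (XT.nd (nat_lit 936) (nat_lit 0) (nat_lit 0) (XT.nd (nat_lit 468) (nat_lit 0) (nat_lit 0) (XT.nd (nat_lit 234) (nat_lit 0) (nat_lit 0) (XT.nd (nat_lit 78) (nat_lit 0) (nat_lit 0) (XT.lf (nat_lit 0) (nat_lit 73158593112) (nat_lit 152) (nat_lit 226565989983) (nat_lit 0) (nat_lit 59353403879) (nat_lit 1) (nat_lit 5) (nat_lit 3) (nat_lit 4) (nat_lit 1) (nat_lit 4) (nat_lit 312) (nat_lit 238) (nat_lit 170)) (XT.nd (nat_lit 78) (nat_lit 0) (nat_lit 0) (XT.lf (nat_lit 0) (nat_lit 82584597004) (nat_lit 152) (nat_lit 236061916129) (nat_lit 0) (nat_lit 68773922265) (nat_lit 1) (nat_lit 5) (nat_lit 3) (nat_lit 4) (nat_lit 1) (nat_lit 4) (nat_lit 313) (nat_lit 238) (nat_lit 169)) (XT.lf (nat_lit 0) (nat_lit 92761152339) (nat_lit 152) (nat_lit 246324018093) (nat_lit 0) (nat_lit 78945398429) (nat_lit 1) (nat_lit 5) (nat_lit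 3) (nat_lit 4) (nat_lit 1) (nat_lit 4) (nat_lit 314) (nat_lit 238) (nat_lit 168)))) (XT.nd (nat_lit 78) (nat_lit 0) (nat_lit 0) (XT.lf (nat_lit 0) (nat_lit 103748564631) (nat_lit 152) (nat_lit 257413108330) (nat_lit 0) (nat_lit 89928107784) (nat_lit 1) (nat_lit 5) (nat_lit 3) (nat_lit 4) (nat_lit 1) (nat_lit 4) (nat_lit 315) (nat_lit 238) (nat_lit 167)) (XT.nd (nat_lit 78) (nat_lit 0) (nat_lit 0) (XT.lf (nat_lit 0) (nat_lit 115611944472) (nat_lit 152) (nat_lit 269394899968) (nat_lit 0) (nat_lit 101787133053) (nat_lit 1) (nat_lit 5) (nat_lit 3) (nat_lit 4) (nat_lit 1) (nat_lit 4) (nat_lit 316) (nat_lit 238) (nat_lit 166)) (XT.lf (nat_lit 0) (nat_lit 128421593370) (nat_lit 152) (nat_lit 282340396216) (nat_lit 0) (nat_lit 114592749941) (nat_lit 1) (nat_lit 5) (nat_lit 3) (nat_lit 4) (nat_lit 1) (nat_lit 4) (nat_lit 317) (nat_lit 238) (nat_lit 165))))) (XT.nd (nat_lit 234) (nat_lit 0)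 (nat_lit 0) (XT.nd (nat_lit 78) (nat_lit 0) (nat_lit 0) (XT.lf (nat_lit 0) (nat_lit 142253420357) (nat_lit 152) (nat_lit 296326311127) (nat_lit 0) (nat_lit 128420843585) (nat_lit 1) (nat_lit 5) (nat_lit 3) (nat_lit 4) (nat_lit 1) (nat_lit 4) (nat_lit 318) (nat_lit 238) (nat_lit 164)) (XT.nd (nat_lit 78) (nat_lit 0) (nat_lit 0) (XT.lf (nat_lit 0) (nat_lit 157189391815) (nat_lit 152) (nat_lit 311435524195) (nat_lit 0) (nat_lit 143353358244) (nat_lit 1) (nat_lit 5) (nat_lit 3) (nat_lit 4) (nat_lit 1) (nat_lit 4) (nat_lit 319) (nat_lit 238) (nat_lit 163)) (XT.lf (nat_lit 0) (nat_lit 173318017205) (nat_lit 152) (nat_lit 327757571500) (nat_lit 0) (nat_lit 159478782894) (nat_lit 1) (nat_lit 5) (nat_lit 3) (nat_lit 4) (nat_lit 1) (nat_lit 4) (nat_lit 320) (nat_lit 238) (nat_lit 162)))) (XT.nd (nat_lit 78) (nat_lit 0) (nat_lit 0) (XT.lf (nat_lit 0) (nat_lit 190734873565) (nat_lit 152) (nat_lit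 345389176283) (nat_lit 0) (nat_lit 176892675606) (nat_lit 1) (nat_lit 5) (nat_lit 3) (nat_lit 4) (nat_lit 1) (nat_lit 4) (nat_lit 321) (nat_lit 238) (nat_lit 161)) (XT.nd (nat_lit 78) (nat_lit 0) (nat_lit 0) (XT.lf (nat_lit 0) (nat_lit 209543171896) (nat_lit 152) (nat_lit 364434822128) (nat_lit 0) (nat_lit 195698229819) (nat_lit 1) (nat_lit 5) (nat_lit 3) (nat_lit 4) (nat_lit 1) (nat_lit 4) (nat_lit 322) (nat_lit 238) (nat_lit 160)) (XT.lf (nat_lit 0) (nat_lit 229854368782) (nat_lit 152) (nat_lit 385007372123) (nat_lit 0) (nat_lit 216006885854) (nat_lit 1) (nat_lit 5) (nat_lit 3) (nat_lit 4) (nat_lit 1) (nat_lit 4) (nat_lit 323) (nat_lit 238) (nat_lit 159)))))) (XT.nd (nat_lit 468) (nat_lit 0) (nat_lit 0) (XT.nd (nat_lit 234) (nat_lit 0) (nat_lit 0) (XT.nd (nat_lit 78) (nat_lit 0) (nat_lit 0) (XT.lf (nat_lit 0) (nat_lit 251788826869) (nat_lit 152) (nat_lit 407228737674) (nat_lit 0)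 (nat_lit 237938991303) (nat_lit 1) (nat_lit 5) (nat_lit 3) (nat_lit 4) (nat_lit 1) (nat_lit 4) (nat_lit 324) (nat_lit 238) (nat_lit 158)) (XT.nd (nat_lit 78) (nat_lit 0) (nat_lit 0) (XT.lf (nat_lit 0) (nat_lit 275476528133) (nat_lit 152) (nat_lit 431230600949) (nat_lit 0) (nat_lit 261624514197) (nat_lit 1) (nat_lit 5) (nat_lit 3) (nat_lit 4) (nat_lit 1) (nat_lit 4) (nat_lit 325) (nat_lit 238) (nat_lit 157)) (XT.lf (nat_lit 0) (nat_lit 301057844136) (nat_lit 152) (nat_lit 457155195210) (nat_lit 0) (nat_lit 287203813191) (nat_lit 1) (nat_lit 5) (nat_lit 3) (nat_lit 4) (nat_lit 1) (nat_lit 4) (nat_lit 326) (nat_lit 238) (nat_lit 156)))) (XT.nd (nat_lit 78) (nat_lit 0) (nat_lit 0) (XT.lf (nat_lit 0) (nat_lit 328684367862) (nat_lit 152) (nat_lit 485156147682) (nat_lit 0) (nat_lit 314828469316) (nat_lit 1) (nat_lit 5) (nat_lit 3) (nat_lit 4) (nat_lit 1) (nat_lit 4) (nat_lit 327) (nat_lit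 238) (nat_lit 155)) (XT.nd (nat_lit 78) (nat_lit 0) (nat_lit 0) (XT.lf (nat_lit 0) (nat_lit 358519812044) (nat_lit 152) (nat_lit 515399389937) (nat_lit 0) (nat_lit 344662184238) (nat_lit 1) (nat_lit 5) (nat_lit 3) (nat_lit 4) (nat_lit 1) (nat_lit 4) (nat_lit 328) (nat_lit 238) (nat_lit 154)) (XT.lf (nat_lit 0) (nat_lit 390740979315) (nat_lit 152) (nat_lit 548064141187) (nat_lit 0) (nat_lit 376881750342) (nat_lit 1) (nat_lit 5) (nat_lit 3) (nat_lit 4) (nat_lit 1) (nat_lit 4) (nat_lit 329) (nat_lit 238) (nat_lit 153))))) (XT.nd (nat_lit 234) (nat_lit 0) (nat_lit 0) (XT.nd (nat_lit 78) (nat_lit 0) (nat_lit 0) (XT.lf (nat_lit 0) (nat_lit 425538809924) (nat_lit 152) (nat_lit 583343970330) (nat_lit 0) (nat_lit 411678098389) (nat_lit 1) (nat_lit 5) (nat_lit 3) (nat_lit 4) (nat_lit 1) (nat_lit 4) (nat_lit 330) (nat_lit 238) (nat_lit 152)) (XT.nd (nat_lit 78) (nat_lit 0) (nat_lit 0) (XT.lf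 (nat_lit 0) (nat_lit 463119513238) (nat_lit 152) (nat_lit 621447943017) (nat_lit 0) (nat_lit 449257428961) (nat_lit 1) (nat_lit 5) (nat_lit 3) (nat_lit 4) (nat_lit 1) (nat_lit 4) (nat_lit 331) (nat_lit 238) (nat_lit 151)) (XT.lf (nat_lit 0) (nat_lit 503705789722) (nat_lit 152) (nat_lit 662601860571) (nat_lit 0) (nat_lit 489842434387) (nat_lit 1) (nat_lit 5) (nat_lit 3) (nat_lit 4) (nat_lit 1) (nat_lit 4) (nat_lit 332) (nat_lit 238) (nat_lit 150)))) (XT.nd (nat_lit 78) (nat_lit 0) (nat_lit 0) (XT.lf (nat_lit 0) (nat_lit 547538150644) (nat_lit 152) (nat_lit 707049598057) (nat_lit 0) (nat_lit 533673618403) (nat_lit 1) (nat_lit 5) (nat_lit 3) (nat_lit 4) (nat_lit 1) (nat_lit 4) (nat_lit 333) (nat_lit 238) (nat_lit 149)) (XT.nd (nat_lit 78) (nat_lit 0) (nat_lit 0) (XT.lf (nat_lit 0) (nat_lit 594876343326) (nat_lit 152) (nat_lit 755054549476) (nat_lit 0) (nat_lit 581010721359) (nat_lit 1)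 (nat_lit 5) (nat_lit 3) (nat_lit 4) (nat_lit 1) (nat_lit 4) (nat_lit 334) (nat_lit 238) (nat_lit 148)) (XT.lf (nat_lit 0) (nat_lit 646000890394) (nat_lit 152) (nat_lit 806901188613) (nat_lit 0) (nat_lit 632134259420) (nat_lit 1) (nat_lit 5) (nat_lit 3) (nat_lit 4) (nat_lit 1) (nat_lit 4) (nat_lit 335) (nat_lit 238) (nat_lit 147))))))) (XT.nd (nat_lit 30966) (nat_lit 0) (nat_lit 1064) (XT.nd (nat_lit 30498) (nat_lit 0) (nat_lit 2736) (XT.nd (nat_lit 30264) (nat_lit 0) (nat_lit 3800) (XT.nd (nat_lit 78) (nat_lit 0) (nat_lit 0) (XT.lf (nat_lit 0) (nat_lit 701214752125) (nat_lit 152) (nat_lit 862896754812) (nat_lit 0) (nat_lit 687347186885) (nat_lit 1) (nat_lit 5) (nat_lit 3) (nat_lit 4) (nat_lit 1) (nat_lit 4) (nat_lit 336) (nat_lit 238) (nat_lit 146)) (XT.nd (nat_lit 30108) (nat_lit 0) (nat_lit 4104) (XT.lf (nat_lit 0) (nat_lit 760845121775) (nat_lit 152) (nat_lit 923373073650) (nat_lit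 0) (nat_lit 746976691475) (nat_lit 1) (nat_lit 5) (nat_lit 3) (nat_lit 4) (nat_lit 1) (nat_lit 4) (nat_lit 337) (nat_lit 238) (nat_lit 145)) (XT.lf (nat_lit 0) (nat_lit 1473540806) (nat_lit 76) (nat_lit 287920238) (nat_lit 0) (nat_lit 1473540806) (nat_lit 55) (nat_lit 5) (nat_lit 56) (nat_lit 0) (nat_lit 55) (nat_lit 4) (nat_lit 242) (nat_lit 239) (nat_lit 239)))) (XT.nd (nat_lit 78) (nat_lit 228) (nat_lit 0) (XT.lf (nat_lit 0) (nat_lit 2636834862) (nat_lit 76) (nat_lit 3136076696) (nat_lit 76) (nat_lit 738937027) (nat_lit 54) (nat_lit 4) (nat_lit 55) (nat_lit 5) (nat_lit 55) (nat_lit 4) (nat_lit 243) (nat_lit 239) (nat_lit 238)) (XT.nd (nat_lit 78) (nat_lit 152) (nat_lit 0) (XT.lf (nat_lit 0) (nat_lit 1907770840) (nat_lit 152) (nat_lit 648550088) (nat_lit 76) (nat_lit 4018854844) (nat_lit 53) (nat_lit 5) (nat_lit 55) (nat_lit 5) (nat_lit 54) (nat_lit 4) (nat_lit 244) (nat_lit 239)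 (nat_lit 237)) (XT.lf (nat_lit 0) (nat_lit 2792557909) (nat_lit 152) (nat_lit 1757649898) (nat_lit 228) (nat_lit 2108480928) (nat_lit 51) (nat_lit 5) (nat_lit 53) (nat_lit 5) (nat_lit 54) (nat_lit 4) (nat_lit 245) (nat_lit 239) (nat_lit 236))))) (XT.nd (nat_lit 234) (nat_lit 456) (nat_lit 0) (XT.nd (nat_lit 78) (nat_lit 532) (nat_lit 0) (XT.lf (nat_lit 0) (nat_lit 403295256) (nat_lit 228) (nat_lit 392363078) (nat_lit 76) (nat_lit 5971692744) (nat_lit 50) (nat_lit 5) (nat_lit 53) (nat_lit 5) (nat_lit 51) (nat_lit 5) (nat_lit 246) (nat_lit 239) (nat_lit 235)) (XT.nd (nat_lit 78) (nat_lit 304) (nat_lit 0) (XT.lf (nat_lit 0) (nat_lit 2872702245) (nat_lit 304) (nat_lit 3595862945) (nat_lit 76) (nat_lit 424150561) (nat_lit 47) (nat_lit 5) (nat_lit 51) (nat_lit 5) (nat_lit 48) (nat_lit 4) (nat_lit 247) (nat_lit 239) (nat_lit 234)) (XT.lf (nat_lit 0) (nat_lit 82276876) (nat_lit 304) (nat_lit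 5285014038) (nat_lit 380) (nat_lit 1676496056) (nat_lit 43) (nat_lit 5) (nat_lit 47) (nat_lit 5) (nat_lit 48) (nat_lit 4) (nat_lit 248) (nat_lit 239) (nat_lit 233)))) (XT.nd (nat_lit 78) (nat_lit 380) (nat_lit 0) (XT.lf (nat_lit 0) (nat_lit 710990311) (nat_lit 380) (nat_lit 3147928857) (nat_lit 76) (nat_lit 3356060396) (nat_lit 42) (nat_lit 5) (nat_lit 47) (nat_lit 5) (nat_lit 43) (nat_lit 5) (nat_lit 249) (nat_lit 239) (nat_lit 232)) (XT.nd (nat_lit 78) (nat_lit 0) (nat_lit 0) (XT.lf (nat_lit 0) (nat_lit 795785611) (nat_lit 380) (nat_lit 2235552688) (nat_lit 456) (nat_lit 4379949193) (nat_lit 37) (nat_lit 5) (nat_lit 42) (nat_lit 5) (nat_lit 43) (nat_lit 5) (nat_lit 250) (nat_lit 239) (nat_lit 231)) (XT.lf (nat_lit 0) (nat_lit 5067140998) (nat_lit 380) (nat_lit 379357701) (nat_lit 456) (nat_lit 2185454106) (nat_lit 37) (nat_lit 5) (nat_lit 42) (nat_lit 5) (nat_lit 43) (nat_lit 5)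 (nat_lit 251) (nat_lit 239) (nat_lit 230)))))) (XT.nd (nat_lit 468) (nat_lit 684) (nat_lit 0) (XT.nd (nat_lit 234) (nat_lit 228) (nat_lit 0) (XT.nd (nat_lit 78) (nat_lit 228) (nat_lit 0) (XT.lf (nat_lit 0) (nat_lit 88044904) (nat_lit 532) (nat_lit 6194441411) (nat_lit 76) (nat_lit 1595605127) (nat_lit 30) (nat_lit 5) (nat_lit 37) (nat_lit 5) (nat_lit 31) (nat_lit 5) (nat_lit 252) (nat_lit 239) (nat_lit 229)) (XT.nd (nat_lit 78) (nat_lit 228) (nat_lit 0) (XT.lf (nat_lit 0) (nat_lit 2346578251) (nat_lit 532) (nat_lit 1963304634) (nat_lit 76) (nat_lit 3836900479) (nat_lit 30) (nat_lit 5) (nat_lit 37) (nat_lit 5) (nat_lit 31) (nat_lit 5) (nat_lit 253) (nat_lit 239) (nat_lit 228)) (XT.lf (nat_lit 0) (nat_lit 2573577203) (nat_lit 228) (nat_lit 2125430442) (nat_lit 304) (nat_lit 3745925791) (nat_lit 27) (nat_lit 5) (nat_lit 30) (nat_lit 5) (nat_lit 31) (nat_lit 5) (nat_lit 254) (nat_lit 239)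 (nat_lit 227)))) (XT.nd (nat_lit 78) (nat_lit 228) (nat_lit 0) (XT.lf (nat_lit 0) (nat_lit 7158491577) (nat_lit 304) (nat_lit 1353868762) (nat_lit 76) (nat_lit 262010682) (nat_lit 27) (nat_lit 5) (nat_lit 31) (nat_lit 5) (nat_lit 28) (nat_lit 4) (nat_lit 255) (nat_lit 239) (nat_lit 226)) (XT.nd (nat_lit 78) (nat_lit 0) (nat_lit 0) (XT.lf (nat_lit 0) (nat_lit 657447330) (nat_lit 228) (nat_lit 5659526292) (nat_lit 76) (nat_lit 2812112741) (nat_lit 24) (nat_lit 5) (nat_lit 27) (nat_lit 5) (nat_lit 25) (nat_lit 5) (nat_lit 256) (nat_lit 239) (nat_lit 225)) (XT.lf (nat_lit 0) (nat_lit 2934020211) (nat_lit 228) (nat_lit 956617837) (nat_lit 76) (nat_lit 5626238491) (nat_lit 24) (nat_lit 5) (nat_lit 27) (nat_lit 5) (nat_lit 25) (nat_lit 5) (nat_lit 257) (nat_lit 239) (nat_lit 224))))) (XT.nd (nat_lit 234) (nat_lit 304) (nat_lit 0) (XT.nd (nat_lit 78) (nat_lit 152) (nat_lit 0) (XT.lf (nat_lit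 0) (nat_lit 4183340144) (nat_lit 228) (nat_lit 1190266699) (nat_lit 304) (nat_lit 4564306156) (nat_lit 21) (nat_lit 5) (nat_lit 24) (nat_lit 5) (nat_lit 25) (nat_lit 5) (nat_lit 258) (nat_lit 239) (nat_lit 223)) (XT.nd (nat_lit 78) (nat_lit 152) (nat_lit 0) (XT.lf (nat_lit 0) (nat_lit 7961645718) (nat_lit 304) (nat_lit 797586110) (nat_lit 76) (nat_lit 1637780411) (nat_lit 21) (nat_lit 5) (nat_lit 25) (nat_lit 5) (nat_lit 22) (nat_lit 4) (nat_lit 259) (nat_lit 239) (nat_lit 222)) (XT.lf (nat_lit 0) (nat_lit 4613465066) (nat_lit 152) (nat_lit 6178592551) (nat_lit 228) (nat_lit 98550491) (nat_lit 19) (nat_lit 5) (nat_lit 21) (nat_lit 5) (nat_lit 22) (nat_lit 4) (nat_lit 260) (nat_lit 239) (nat_lit 221)))) (XT.nd (nat_lit 156) (nat_lit 76) (nat_lit 0) (XT.nd (nat_lit 78) (nat_lit 152) (nat_lit 0) (XT.lf (nat_lit 0) (nat_lit 2221108047) (nat_lit 228) (nat_lit 1122886278) (nat_lit 76) (nat_lit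 8082164110) (nat_lit 18) (nat_lit 5) (nat_lit 21) (nat_lit 5) (nat_lit 19) (nat_lit 5) (nat_lit 261) (nat_lit 239) (nat_lit 220)) (XT.lf (nat_lit 0) (nat_lit 4533874223) (nat_lit 152) (nat_lit 198812257) (nat_lit 228) (nat_lit 7271200205) (nat_lit 16) (nat_lit 5) (nat_lit 18) (nat_lit 5) (nat_lit 19) (nat_lit 5) (nat_lit 262) (nat_lit 239) (nat_lit 219))) (XT.nd (nat_lit 78) (nat_lit 76) (nat_lit 0) (XT.lf (nat_lit 0) (nat_lit 7459403980) (nat_lit 228) (nat_lit 2133738540) (nat_lit 76) (nat_lit 3033991053) (nat_lit 16) (nat_lit 5) (nat_lit 19) (nat_lit 5) (nat_lit 17) (nat_lit 4) (nat_lit 263) (nat_lit 239) (nat_lit 218)) (XT.lf (nat_lit 0) (nat_lit 3680919376) (nat_lit 76) (nat_lit 6729809329) (nat_lit 152) (nat_lit 2889398926) (nat_lit 15) (nat_lit 5) (nat_lit 16) (nat_lit 5) (nat_lit 17) (nat_lit 4) (nat_lit 264) (nat_lit 239) (nat_lit 217))))))))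
noncomputable def xc48 : XT := (XT.nd (nat_lit 1872) (nat_lit 228) (nat_lit 0) (XT.nd (nat_lit 936) (nat_lit 228) (nat_lit 0) (XT.nd (nat_lit 468) (nat_lit 304) (nat_lit 0) (XT.nd (nat_lit 234) (nat_lit 76) (nat_lit 0) (XT.nd (nat_lit 78) (nat_lit 228) (nat_lit 0) (XT.lf (nat_lit 0) (nat_lit 9957836624) (nat_lit 76) (nat_lit 3614914935) (nat_lit 152) (nat_lit 456617284) (nat_lit 15) (nat_lit 5) (nat_lit 16) (nat_lit 5) (nat_lit 17) (nat_lit 4) (nat_lit 265) (nat_lit 239) (nat_lit 216)) (XT.nd (nat_lit 78) (nat_lit 0) (nat_lit 0) (XT.lf (nat_lit 0) (nat_lit 1840221048) (nat_lit 152) (nat_lit 186343167) (nat_lit 228) (nat_lit 12789380534) (nat_lit 12) (nat_lit 5) (nat_lit 14) (nat_lit 5) (nat_lit 15) (nat_lit 5) (nat_lit 266) (nat_lit 239) (nat_lit 215)) (XT.lf (nat_lit 0) (nat_lit 4804786900) (nat_lit 228) (nat_lit 7421438664) (nat_lit 76) (nat_lit 3428885567) (nat_lit 12) (nat_lit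 5) (nat_lit 15) (nat_lit 5) (nat_lit 13) (nat_lit 4) (nat_lit 267) (nat_lit 239) (nat_lit 214)))) (XT.nd (nat_lit 78) (nat_lit 76) (nat_lit 0) (XT.lf (nat_lit 0) (nat_lit 7738134513) (nat_lit 228) (nat_lit 1540650950) (nat_lit 76) (nat_lit 7288271632) (nat_lit 12) (nat_lit 5) (nat_lit 15) (nat_lit 5) (nat_lit 13) (nat_lit 4) (nat_lit 268) (nat_lit 239) (nat_lit 213)) (XT.nd (nat_lit 78) (nat_lit 0) (nat_lit 0) (XT.lf (nat_lit 0) (nat_lit 4953778159) (nat_lit 76) (nat_lit 6004868622) (nat_lit 152) (nat_lit 6589367427) (nat_lit 11) (nat_lit 5) (nat_lit 12) (nat_lit 5) (nat_lit 13) (nat_lit 4) (nat_lit 269) (nat_lit 239) (nat_lit 212)) (XT.lf (nat_lit 0) (nat_lit 11953398965) (nat_lit 76) (nat_lit 2461367331) (nat_lit 152) (nat_lit 4194680608) (nat_lit 11) (nat_lit 5) (nat_lit 12) (nat_lit 5) (nat_lit 13) (nat_lit 4) (nat_lit 270) (nat_lit 239) (nat_lit 211))))) (XT.nd (nat_lit 234) (nat_lit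 76) (nat_lit 0) (XT.nd (nat_lit 78) (nat_lit 228) (nat_lit 0) (XT.lf (nat_lit 0) (nat_lit 18119970734) (nat_lit 152) (nat_lit 374203496) (nat_lit 0) (nat_lit 1264031167) (nat_lit 11) (nat_lit 5) (nat_lit 13) (nat_lit 4) (nat_lit 11) (nat_lit 4) (nat_lit 271) (nat_lit 239) (nat_lit 210)) (XT.nd (nat_lit 78) (nat_lit 0) (nat_lit 0) (XT.lf (nat_lit 0) (nat_lit 1237197039) (nat_lit 228) (nat_lit 14432689582) (nat_lit 76) (nat_lit 5313354740) (nat_lit 8) (nat_lit 5) (nat_lit 11) (nat_lit 5) (nat_lit 9) (nat_lit 4) (nat_lit 272) (nat_lit 239) (nat_lit 209)) (XT.lf (nat_lit 0) (nat_lit 4209285979) (nat_lit 228) (nat_lit 8389744453) (nat_lit 76) (nat_lit 9707608950) (nat_lit 8) (nat_lit 5) (nat_lit 11) (nat_lit 5) (nat_lit 9) (nat_lit 4) (nat_lit 273) (nat_lit 239) (nat_lit 208)))) (XT.nd (nat_lit 78) (nat_lit 76) (nat_lit 0) (XT.lf (nat_lit 0) (nat_lit 7367876097) (nat_lit 228) (nat_lit 1948580588)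 (nat_lit 76) (nat_lit 14423714668) (nat_lit 8) (nat_lit 5) (nat_lit 11) (nat_lit 5) (nat_lit 9) (nat_lit 4) (nat_lit 274) (nat_lit 239) (nat_lit 207)) (XT.nd (nat_lit 78) (nat_lit 0) (nat_lit 0) (XT.lf (nat_lit 0) (nat_lit 5188522796) (nat_lit 76) (nat_lit 5667946266) (nat_lit 152) (nat_lit 14425880488) (nat_lit 7) (nat_lit 5) (nat_lit 8) (nat_lit 5) (nat_lit 9) (nat_lit 4) (nat_lit 275) (nat_lit 239) (nat_lit 206)) (XT.lf (nat_lit 0) (nat_lit 12930505026) (nat_lit 76) (nat_lit 1701120193) (nat_lit 152) (nat_lit 12315816611) (nat_lit 7) (nat_lit 5) (nat_lit 8) (nat_lit 5) (nat_lit 9) (nat_lit 4) (nat_lit 276) (nat_lit 239) (nat_lit 205)))))) (XT.nd (nat_lit 468) (nat_lit 76) (nat_lit 0) (XT.nd (nat_lit 234) (nat_lit 76) (nat_lit 0) (XT.nd (nat_lit 78) (nat_lit 76) (nat_lit 0) (XT.lf (nat_lit 0) (nat_lit 18727814508) (nat_lit 152) (nat_lit 7590055983) (nat_lit 0) (nat_lit 2426477024)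 (nat_lit 7) (nat_lit 5) (nat_lit 9) (nat_lit 4) (nat_lit 7) (nat_lit 4) (nat_lit 277) (nat_lit 239) (nat_lit 204)) (XT.nd (nat_lit 78) (nat_lit 76) (nat_lit 0) (XT.lf (nat_lit 0) (nat_lit 23155974784) (nat_lit 152) (nat_lit 761763213) (nat_lit 0) (nat_lit 6767043805) (nat_lit 7) (nat_lit 5) (nat_lit 9) (nat_lit 4) (nat_lit 7) (nat_lit 4) (nat_lit 278) (nat_lit 239) (nat_lit 203)) (XT.lf (nat_lit 0) (nat_lit 6894192893) (nat_lit 76) (nat_lit 21173047628) (nat_lit 76) (nat_lit 4703011562) (nat_lit 6) (nat_lit 4) (nat_lit 7) (nat_lit 5) (nat_lit 7) (nat_lit 4) (nat_lit 279) (nat_lit 239) (nat_lit 202)))) (XT.nd (nat_lit 78) (nat_lit 76) (nat_lit 0) (XT.lf (nat_lit 0) (nat_lit 15144079078) (nat_lit 76) (nat_lit 18212452838) (nat_lit 76) (nat_lit 1667319468) (nat_lit 6) (nat_lit 4) (nat_lit 7) (nat_lit 5) (nat_lit 7) (nat_lit 4) (nat_lit 280) (nat_lit 239) (nat_lit 201)) (XT.nd (nat_lit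 78) (nat_lit 0) (nat_lit 0) (XT.lf (nat_lit 0) (nat_lit 1496621172) (nat_lit 152) (nat_lit 13501695871) (nat_lit 76) (nat_lit 22459129009) (nat_lit 5) (nat_lit 5) (nat_lit 7) (nat_lit 5) (nat_lit 6) (nat_lit 4) (nat_lit 281) (nat_lit 239) (nat_lit 200)) (XT.lf (nat_lit 0) (nat_lit 4792110848) (nat_lit 152) (nat_lit 6711461177) (nat_lit 76) (nat_lit 28581291175) (nat_lit 5) (nat_lit 5) (nat_lit 7) (nat_lit 5) (nat_lit 6) (nat_lit 4) (nat_lit 282) (nat_lit 239) (nat_lit 199))))) (XT.nd (nat_lit 234) (nat_lit 0) (nat_lit 0) (XT.nd (nat_lit 78) (nat_lit 0) (nat_lit 0) (XT.lf (nat_lit 0) (nat_lit 601351303) (nat_lit 76) (nat_lit 7735195671) (nat_lit 152) (nat_lit 34587176662) (nat_lit 4) (nat_lit 5) (nat_lit 5) (nat_lit 5) (nat_lit 6) (nat_lit 4) (nat_lit 283) (nat_lit 239) (nat_lit 198)) (XT.nd (nat_lit 78) (nat_lit 0) (nat_lit 0) (XT.lf (nat_lit 0) (nat_lit 8831436636) (nat_lit 76) (nat_lit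 3488419997) (nat_lit 152) (nat_lit 33657479758) (nat_lit 4) (nat_lit 5) (nat_lit 5) (nat_lit 5) (nat_lit 6) (nat_lit 4) (nat_lit 284) (nat_lit 239) (nat_lit 197)) (XT.lf (nat_lit 0) (nat_lit 16621670192) (nat_lit 152) (nat_lit 31629173714) (nat_lit 0) (nat_lit 1024471002) (nat_lit 4) (nat_lit 5) (nat_lit 6) (nat_lit 4) (nat_lit 4) (nat_lit 4) (nat_lit 285) (nat_lit 239) (nat_lit 196)))) (XT.nd (nat_lit 78) (nat_lit 0) (nat_lit 0) (XT.lf (nat_lit 0) (nat_lit 21333635155) (nat_lit 152) (nat_lit 25805657774) (nat_lit 0) (nat_lit 5692617409) (nat_lit 4) (nat_lit 5) (nat_lit 6) (nat_lit 4) (nat_lit 4) (nat_lit 4) (nat_lit 286) (nat_lit 239) (nat_lit 195)) (XT.nd (nat_lit 78) (nat_lit 0) (nat_lit 0) (XT.lf (nat_lit 0) (nat_lit 26399777691) (nat_lit 152) (nat_lit 19556945627) (nat_lit 0) (nat_lit 10718187209) (nat_lit 4) (nat_lit 5) (nat_lit 6) (nat_lit 4) (nat_lit 4) (nat_lit 4) (nat_lit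 287) (nat_lit 239) (nat_lit 194)) (XT.lf (nat_lit 0) (nat_lit 31850119388) (nat_lit 152) (nat_lit 12846007869) (nat_lit 0) (nat_lit 16130961557) (nat_lit 4) (nat_lit 5) (nat_lit 6) (nat_lit 4) (nat_lit 4) (nat_lit 4) (nat_lit 288) (nat_lit 239) (nat_lit 193))))))) (XT.nd (nat_lit 936) (nat_lit 152) (nat_lit 0) (XT.nd (nat_lit 468) (nat_lit 0) (nat_lit 0) (XT.nd (nat_lit 234) (nat_lit 0) (nat_lit 0) (XT.nd (nat_lit 78) (nat_lit 76) (nat_lit 0) (XT.lf (nat_lit 0) (nat_lit 37716958565) (nat_lit 152) (nat_lit 5633075979) (nat_lit 0) (nat_lit 21963016153) (nat_lit 4) (nat_lit 5) (nat_lit 6) (nat_lit 4) (nat_lit 4) (nat_lit 4) (nat_lit 289) (nat_lit 239) (nat_lit 192)) (XT.nd (nat_lit 78) (nat_lit 0) (nat_lit 0) (XT.lf (nat_lit 0) (nat_lit 2236470663) (nat_lit 76) (nat_lit 41852378188) (nat_lit 76) (nat_lit 26066227830) (nat_lit 3) (nat_lit 4) (nat_lit 4) (nat_lit 5) (nat_lit 4) (nat_lit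 4) (nat_lit 290) (nat_lit 239) (nat_lit 191)) (XT.lf (nat_lit 0) (nat_lit 11024459588) (nat_lit 76) (nat_lit 40082548267) (nat_lit 76) (nat_lit 24266575736) (nat_lit 3) (nat_lit 4) (nat_lit 4) (nat_lit 5) (nat_lit 4) (nat_lit 4) (nat_lit 291) (nat_lit 239) (nat_lit 190)))) (XT.nd (nat_lit 78) (nat_lit 0) (nat_lit 0) (XT.lf (nat_lit 0) (nat_lit 20486339970) (nat_lit 76) (nat_lit 38184075180) (nat_lit 76) (nat_lit 22340489526) (nat_lit 3) (nat_lit 4) (nat_lit 4) (nat_lit 5) (nat_lit 4) (nat_lit 4) (nat_lit 292) (nat_lit 239) (nat_lit 189)) (XT.nd (nat_lit 78) (nat_lit 0) (nat_lit 0) (XT.lf (nat_lit 0) (nat_lit 30678182210) (nat_lit 76) (nat_lit 36145708716) (nat_lit 76) (nat_lit 20276555356) (nat_lit 3) (nat_lit 4) (nat_lit 4) (nat_lit 5) (nat_lit 4) (nat_lit 4) (nat_lit 293) (nat_lit 239) (nat_lit 188)) (XT.lf (nat_lit 0) (nat_lit 41660382411) (nat_lit 76) (nat_lit 33955369667) (nat_lit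 76) (nat_lit 18062542505) (nat_lit 3) (nat_lit 4) (nat_lit 4) (nat_lit 5) (nat_lit 4) (nat_lit 4) (nat_lit 294) (nat_lit 239) (nat_lit 187))))) (XT.nd (nat_lit 234) (nat_lit 0) (nat_lit 0) (XT.nd (nat_lit 78) (nat_lit 0) (nat_lit 0) (XT.lf (nat_lit 0) (nat_lit 53498020276) (nat_lit 76) (nat_lit 31600078245) (nat_lit 76) (nat_lit 15685330896) (nat_lit 3) (nat_lit 4) (nat_lit 4) (nat_lit 5) (nat_lit 4) (nat_lit 4) (nat_lit 295) (nat_lit 239) (nat_lit 186)) (XT.nd (nat_lit 78) (nat_lit 0) (nat_lit 0) (XT.lf (nat_lit 0) (nat_lit 66261244773) (nat_lit 76) (nat_lit 29065877168) (nat_lit 76) (nat_lit 13130833350) (nat_lit 3) (nat_lit 4) (nat_lit 4) (nat_lit 5) (nat_lit 4) (nat_lit 4) (nat_lit 296) (nat_lit 239) (nat_lit 185)) (XT.lf (nat_lit 0) (nat_lit 80025689823) (nat_lit 76) (nat_lit 26337748949) (nat_lit 76) (nat_lit 10383912103) (nat_lit 3) (nat_lit 4) (nat_lit 4) (nat_lit 5) (nat_lit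 4) (nat_lit 4) (nat_lit 297) (nat_lit 239) (nat_lit 184)))) (XT.nd (nat_lit 78) (nat_lit 0) (nat_lit 0) (XT.lf (nat_lit 0) (nat_lit 94872922508) (nat_lit 76) (nat_lit 23399526901) (nat_lit 76) (nat_lit 7428289104) (nat_lit 3) (nat_lit 4) (nat_lit 4) (nat_lit 5) (nat_lit 4) (nat_lit 4) (nat_lit 298) (nat_lit 239) (nat_lit 183)) (XT.nd (nat_lit 78) (nat_lit 0) (nat_lit 0) (XT.lf (nat_lit 0) (nat_lit 110890926429) (nat_lit 76) (nat_lit 20233799338) (nat_lit 76) (nat_lit 4246449550) (nat_lit 3) (nat_lit 4) (nat_lit 4) (nat_lit 5) (nat_lit 4) (nat_lit 4) (nat_lit 299) (nat_lit 239) (nat_lit 182)) (XT.lf (nat_lit 0) (nat_lit 128174623091) (nat_lit 76) (nat_lit 16821806393) (nat_lit 76) (nat_lit 819538094) (nat_lit 3) (nat_lit 4) (nat_lit 4) (nat_lit 5) (nat_lit 4) (nat_lit 4) (nat_lit 300) (nat_lit 239) (nat_lit 181)))))) (XT.nd (nat_lit 468) (nat_lit 0) (nat_lit 0) (XT.nd (nat_lit 234)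 (nat_lit 0) (nat_lit 0) (XT.nd (nat_lit 78) (nat_lit 76) (nat_lit 0) (XT.lf (nat_lit 0) (nat_lit 2729046151) (nat_lit 152) (nat_lit 10339665740) (nat_lit 76) (nat_lit 144022771292) (nat_lit 2) (nat_lit 5) (nat_lit 4) (nat_lit 5) (nat_lit 3) (nat_lit 4) (nat_lit 301) (nat_lit 239) (nat_lit 180)) (XT.nd (nat_lit 78) (nat_lit 76) (nat_lit 0) (XT.lf (nat_lit 0) (nat_lit 6509523652) (nat_lit 152) (nat_lit 2489062756) (nat_lit 76) (nat_lit 160269384045) (nat_lit 2) (nat_lit 5) (nat_lit 4) (nat_lit 5) (nat_lit 3) (nat_lit 4) (nat_lit 302) (nat_lit 239) (nat_lit 179)) (XT.lf (nat_lit 0) (nat_lit 6291418711) (nat_lit 76) (nat_lit 4445183913) (nat_lit 152) (nat_lit 171670455817) (nat_lit 1) (nat_lit 5) (nat_lit 2) (nat_lit 5) (nat_lit 3) (nat_lit 4) (nat_lit 303) (nat_lit 239) (nat_lit 178)))) (XT.nd (nat_lit 78) (nat_lit 0) (nat_lit 0) (XT.lf (nat_lit 0) (nat_lit 15375980166) (nat_lit 152)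 (nat_lit 180702063205) (nat_lit 0) (nat_lit 513313222) (nat_lit 1) (nat_lit 5) (nat_lit 3) (nat_lit 4) (nat_lit 1) (nat_lit 4) (nat_lit 304) (nat_lit 239) (nat_lit 177)) (XT.nd (nat_lit 78) (nat_lit 0) (nat_lit 0) (XT.lf (nat_lit 0) (nat_lit 20495435545) (nat_lit 152) (nat_lit 185782894120) (nat_lit 0) (nat_lit 5623367409) (nat_lit 1) (nat_lit 5) (nat_lit 3) (nat_lit 4) (nat_lit 1) (nat_lit 4) (nat_lit 305) (nat_lit 239) (nat_lit 176)) (XT.lf (nat_lit 0) (nat_lit 26018399495) (nat_lit 152) (nat_lit 191281334323) (nat_lit 0) (nat_lit 11137626551) (nat_lit 1) (nat_lit 5) (nat_lit 3) (nat_lit 4) (nat_lit 1) (nat_lit 4) (nat_lit 306) (nat_lit 239) (nat_lit 175))))) (XT.nd (nat_lit 234) (nat_lit 0) (nat_lit 0) (XT.nd (nat_lit 78) (nat_lit 0) (nat_lit 0) (XT.lf (nat_lit 0) (nat_lit 31977600692) (nat_lit 152) (nat_lit 197229967164) (nat_lit 0) (nat_lit 17088767740) (nat_lit 1) (nat_lit 5)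 (nat_lit 3) (nat_lit 4) (nat_lit 1) (nat_lit 4) (nat_lit 307) (nat_lit 239) (nat_lit 174)) (XT.nd (nat_lit 78) (nat_lit 0) (nat_lit 0) (XT.lf (nat_lit 0) (nat_lit 38408352919) (nat_lit 152) (nat_lit 203664043800) (nat_lit 0) (nat_lit 23512056998) (nat_lit 1) (nat_lit 5) (nat_lit 3) (nat_lit 4) (nat_lit 1) (nat_lit 4) (nat_lit 308) (nat_lit 239) (nat_lit 173)) (XT.lf (nat_lit 0) (nat_lit 45348764340) (nat_lit 152) (nat_lit 210621692093) (nat_lit 0) (nat_lit 30445558261) (nat_lit 1) (nat_lit 5) (nat_lit 3) (nat_lit 4) (nat_lit 1) (nat_lit 4) (nat_lit 309) (nat_lit 239) (nat_lit 172)))) (XT.nd (nat_lit 78) (nat_lit 0) (nat_lit 0) (XT.lf (nat_lit 0) (nat_lit 52839963317) (nat_lit 152) (nat_lit 218144142551) (nat_lit 0) (nat_lit 37930358945) (nat_lit 1) (nat_lit 5) (nat_lit 3) (nat_lit 4) (nat_lit 1) (nat_lit 4) (nat_lit 310) (nat_lit 239) (nat_lit 171)) (XT.nd (nat_lit 78) (nat_lit 0)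 (nat_lit 0) (XT.lf (nat_lit 0) (nat_lit 60926342140) (nat_lit 152) (nat_lit 226275972659) (nat_lit 0) (nat_lit 46010813422) (nat_lit 1) (nat_lit 5) (nat_lit 3) (nat_lit 4) (nat_lit 1) (nat_lit 4) (nat_lit 311) (nat_lit 239) (nat_lit 170)) (XT.lf (nat_lit 0) (nat_lit 69655820093) (nat_lit 152) (nat_lit 235065371039) (nat_lit 0) (nat_lit 54734805869) (nat_lit 1) (nat_lit 5) (nat_lit 3) (nat_lit 4) (nat_lit 1) (nat_lit 4) (nat_lit 312) (nat_lit 239) (nat_lit 169))))))))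
noncomputable def xc49 : XT := (XT.nd (nat_lit 31824) (nat_lit 0) (nat_lit 1140) (XT.nd (nat_lit 936) (nat_lit 0) (nat_lit 0) (XT.nd (nat_lit 468) (nat_lit 0) (nat_lit 0) (XT.nd (nat_lit 234) (nat_lit 0) (nat_lit 0) (XT.nd (nat_lit 78) (nat_lit 0) (nat_lit 0) (XT.lf (nat_lit 0) (nat_lit 79080127414) (nat_lit 152) (nat_lit 244564423015) (nat_lit 0) (nat_lit 64154034018) (nat_lit 1) (nat_lit 5) (nat_lit 3) (nat_lit 4) (nat_lit 1) (nat_lit 4) (nat_lit 313) (nat_lit 239) (nat_lit 168)) (XT.nd (nat_lit 78) (nat_lit 0) (nat_lit 0) (XT.lf (nat_lit 0) (nat_lit 89255111850) (nat_lit 152) (nat_lit 254829419265) (nat_lit 0) (nat_lit 74324315518) (nat_lit 1) (nat_lit 5) (nat_lit 3) (nat_lit 4) (nat_lit 1) (nat_lit 4) (nat_lit 314) (nat_lit 239) (nat_lit 167)) (XT.lf (nat_lit 0) (nat_lit 100241069606) (nat_lit 152) (nat_lit 265921189398) (nat_lit 0) (nat_lit 85305918703) (nat_lit 1) (nat_lit 5)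 (nat_lit 3) (nat_lit 4) (nat_lit 1) (nat_lit 4) (nat_lit 315) (nat_lit 239) (nat_lit 166)))) (XT.nd (nat_lit 78) (nat_lit 0) (nat_lit 0) (XT.lf (nat_lit 0) (nat_lit 112103102653) (nat_lit 152) (nat_lit 277905462420) (nat_lit 0) (nat_lit 97163919740) (nat_lit 1) (nat_lit 5) (nat_lit 3) (nat_lit 4) (nat_lit 1) (nat_lit 4) (nat_lit 316) (nat_lit 239) (nat_lit 165)) (XT.nd (nat_lit 78) (nat_lit 0) (nat_lit 0) (XT.lf (nat_lit 0) (nat_lit 124911504521) (nat_lit 152) (nat_lit 290853256246) (nat_lit 0) (nat_lit 109968588265) (nat_lit 1) (nat_lit 5) (nat_lit 3) (nat_lit 4) (nat_lit 1) (nat_lit 4) (nat_lit 317) (nat_lit 239) (nat_lit 164)) (XT.lf (nat_lit 0) (nat_lit 138742176851) (nat_lit 152) (nat_lit 304841298544) (nat_lit 0) (nat_lit 123795803795) (nat_lit 1) (nat_lit 5) (nat_lit 3) (nat_lit 4) (nat_lit 1) (nat_lit 4) (nat_lit 318) (nat_lit 239) (nat_lit 163))))) (XT.nd (nat_lit 234) (nat_lit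 0) (nat_lit 0) (XT.nd (nat_lit 78) (nat_lit 0) (nat_lit 0) (XT.lf (nat_lit 0) (nat_lit 153677079181) (nat_lit 152) (nat_lit 319952481415) (nat_lit 0) (nat_lit 138727505386) (nat_lit 1) (nat_lit 5) (nat_lit 3) (nat_lit 4) (nat_lit 1) (nat_lit 4) (nat_lit 319) (nat_lit 239) (nat_lit 162)) (XT.nd (nat_lit 78) (nat_lit 0) (nat_lit 0) (XT.lf (nat_lit 0) (nat_lit 169804714638) (nat_lit 152) (nat_lit 336276352611) (nat_lit 0) (nat_lit 154852177195) (nat_lit 1) (nat_lit 5) (nat_lit 3) (nat_lit 4) (nat_lit 1) (nat_lit 4) (nat_lit 320) (nat_lit 239) (nat_lit 161)) (XT.lf (nat_lit 0) (nat_lit 187220654393) (nat_lit 152) (nat_lit 353909646183) (nat_lit 0) (nat_lit 172265372832) (nat_lit 1) (nat_lit 5) (nat_lit 3) (nat_lit 4) (nat_lit 1) (nat_lit 4) (nat_lit 321) (nat_lit 239) (nat_lit 160)))) (XT.nd (nat_lit 78) (nat_lit 0) (nat_lit 0) (XT.lf (nat_lit 0) (nat_lit 206028104017) (nat_lit 152) (nat_lit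 372956855721) (nat_lit 0) (nat_lit 191070281605) (nat_lit 1) (nat_lit 5) (nat_lit 3) (nat_lit 4) (nat_lit 1) (nat_lit 4) (nat_lit 322) (nat_lit 239) (nat_lit 159)) (XT.nd (nat_lit 78) (nat_lit 0) (nat_lit 0) (XT.lf (nat_lit 0) (nat_lit 226338515062) (nat_lit 152) (nat_lit 393530853580) (nat_lit 0) (nat_lit 211378340010) (nat_lit 1) (nat_lit 5) (nat_lit 3) (nat_lit 4) (nat_lit 1) (nat_lit 4) (nat_lit 323) (nat_lit 239) (nat_lit 158)) (XT.lf (nat_lit 0) (nat_lit 248272245519) (nat_lit 152) (nat_lit 415753559746) (nat_lit 0) (nat_lit 233309892098) (nat_lit 1) (nat_lit 5) (nat_lit 3) (nat_lit 4) (nat_lit 1) (nat_lit 4) (nat_lit 324) (nat_lit 239) (nat_lit 157)))))) (XT.nd (nat_lit 468) (nat_lit 0) (nat_lit 0) (XT.nd (nat_lit 234) (nat_lit 0) (nat_lit 0) (XT.nd (nat_lit 78) (nat_lit 0) (nat_lit 0) (XT.lf (nat_lit 0) (nat_lit 271959273051) (nat_lit 152) (nat_lit 439756664331) (nat_lit 0)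 (nat_lit 256994902622) (nat_lit 1) (nat_lit 5) (nat_lit 3) (nat_lit 4) (nat_lit 1) (nat_lit 4) (nat_lit 325) (nat_lit 239) (nat_lit 156)) (XT.nd (nat_lit 78) (nat_lit 0) (nat_lit 0) (XT.lf (nat_lit 0) (nat_lit 297539965229) (nat_lit 152) (nat_lit 465682407953) (nat_lit 0) (nat_lit 282573727198) (nat_lit 1) (nat_lit 5) (nat_lit 3) (nat_lit 4) (nat_lit 1) (nat_lit 4) (nat_lit 326) (nat_lit 239) (nat_lit 155)) (XT.lf (nat_lit 0) (nat_lit 325165911338) (nat_lit 152) (nat_lit 493684424648) (nat_lit 0) (nat_lit 310197944048) (nat_lit 1) (nat_lit 5) (nat_lit 3) (nat_lit 4) (nat_lit 1) (nat_lit 4) (nat_lit 327) (nat_lit 239) (nat_lit 154)))) (XT.nd (nat_lit 78) (nat_lit 0) (nat_lit 0) (XT.lf (nat_lit 0) (nat_lit 355000820691) (nat_lit 152) (nat_lit 523928652295) (nat_lit 0) (nat_lit 340031252233) (nat_lit 1) (nat_lit 5) (nat_lit 3) (nat_lit 4) (nat_lit 1) (nat_lit 4) (nat_lit 328) (nat_lit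 239) (nat_lit 153)) (XT.nd (nat_lit 78) (nat_lit 0) (nat_lit 0) (XT.lf (nat_lit 0) (nat_lit 387221492748) (nat_lit 152) (nat_lit 556594315945) (nat_lit 0) (nat_lit 372250441729) (nat_lit 1) (nat_lit 5) (nat_lit 3) (nat_lit 4) (nat_lit 1) (nat_lit 4) (nat_lit 329) (nat_lit 239) (nat_lit 152)) (XT.lf (nat_lit 0) (nat_lit 422018864827) (nat_lit 152) (nat_lit 591874989902) (nat_lit 0) (nat_lit 407046441065) (nat_lit 1) (nat_lit 5) (nat_lit 3) (nat_lit 4) (nat_lit 1) (nat_lit 4) (nat_lit 330) (nat_lit 239) (nat_lit 151))))) (XT.nd (nat_lit 234) (nat_lit 0) (nat_lit 0) (XT.nd (nat_lit 78) (nat_lit 0) (nat_lit 0) (XT.lf (nat_lit 0) (nat_lit 459599143576) (nat_lit 152) (nat_lit 629979744826) (nat_lit 0) (nat_lit 444625448756) (nat_lit 1) (nat_lit 5) (nat_lit 3) (nat_lit 4) (nat_lit 1) (nat_lit 4) (nat_lit 331) (nat_lit 239) (nat_lit 150)) (XT.nd (nat_lit 78) (nat_lit 0) (nat_lit 0) (XT.lf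 (nat_lit 0) (nat_lit 500185026944) (nat_lit 152) (nat_lit 671134386672) (nat_lit 0) (nat_lit 485210155219) (nat_lit 1) (nat_lit 5) (nat_lit 3) (nat_lit 4) (nat_lit 1) (nat_lit 4) (nat_lit 332) (nat_lit 239) (nat_lit 149)) (XT.lf (nat_lit 0) (nat_lit 544017023869) (nat_lit 152) (nat_lit 715582794799) (nat_lit 0) (nat_lit 529041062417) (nat_lit 1) (nat_lit 5) (nat_lit 3) (nat_lit 4) (nat_lit 1) (nat_lit 4) (nat_lit 333) (nat_lit 239) (nat_lit 148)))) (XT.nd (nat_lit 78) (nat_lit 0) (nat_lit 0) (XT.lf (nat_lit 0) (nat_lit 591354879518) (nat_lit 152) (nat_lit 763588367182) (nat_lit 0) (nat_lit 576377909059) (nat_lit 1) (nat_lit 5) (nat_lit 3) (nat_lit 4) (nat_lit 1) (nat_lit 4) (nat_lit 334) (nat_lit 239) (nat_lit 147)) (XT.nd (nat_lit 78) (nat_lit 0) (nat_lit 0) (XT.lf (nat_lit 0) (nat_lit 642479114518) (nat_lit 152) (nat_lit 815435581286) (nat_lit 0) (nat_lit 627501209793) (nat_lit 1)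 (nat_lit 5) (nat_lit 3) (nat_lit 4) (nat_lit 1) (nat_lit 4) (nat_lit 335) (nat_lit 239) (nat_lit 146)) (XT.lf (nat_lit 0) (nat_lit 697692687297) (nat_lit 152) (nat_lit 871431679861) (nat_lit 0) (nat_lit 682713917512) (nat_lit 1) (nat_lit 5) (nat_lit 3) (nat_lit 4) (nat_lit 1) (nat_lit 4) (nat_lit 336) (nat_lit 239) (nat_lit 145))))))) (XT.nd (nat_lit 936) (nat_lit 1596) (nat_lit 0) (XT.nd (nat_lit 468) (nat_lit 1064) (nat_lit 0) (XT.nd (nat_lit 234) (nat_lit 304) (nat_lit 0) (XT.nd (nat_lit 78) (nat_lit 76) (nat_lit 0) (XT.lf (nat_lit 0) (nat_lit 1073741823) (nat_lit 0) (nat_lit 0) (nat_lit 0) (nat_lit 0) (nat_lit 56) (nat_lit 0) (nat_lit 1) (nat_lit 0) (nat_lit 1) (nat_lit 0) (nat_lit 240) (nat_lit 240) (nat_lit 240)) (XT.nd (nat_lit 78) (nat_lit 0) (nat_lit 0) (XT.lf (nat_lit 0) (nat_lit 2728779272) (nat_lit 76) (nat_lit 3580862606) (nat_lit 0) (nat_lit 139868429) (nat_lit 55) (nat_lit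 5) (nat_lit 56) (nat_lit 0) (nat_lit 55) (nat_lit 4) (nat_lit 241) (nat_lit 240) (nat_lit 239)) (XT.lf (nat_lit 0) (nat_lit 5406484650) (nat_lit 76) (nat_lit 655000918) (nat_lit 0) (nat_lit 420434139) (nat_lit 55) (nat_lit 5) (nat_lit 56) (nat_lit 0) (nat_lit 55) (nat_lit 4) (nat_lit 242) (nat_lit 240) (nat_lit 238)))) (XT.nd (nat_lit 78) (nat_lit 152) (nat_lit 0) (XT.lf (nat_lit 0) (nat_lit 1494724065) (nat_lit 152) (nat_lit 4096598222) (nat_lit 76) (nat_lit 940757123) (nat_lit 53) (nat_lit 5) (nat_lit 55) (nat_lit 5) (nat_lit 54) (nat_lit 4) (nat_lit 243) (nat_lit 240) (nat_lit 237)) (XT.nd (nat_lit 78) (nat_lit 152) (nat_lit 0) (XT.lf (nat_lit 0) (nat_lit 3987521723) (nat_lit 152) (nat_lit 966739989) (nat_lit 76) (nat_lit 1650313525) (nat_lit 53) (nat_lit 5) (nat_lit 55) (nat_lit 5) (nat_lit 54) (nat_lit 4) (nat_lit 244) (nat_lit 240) (nat_lit 236)) (XT.lf (nat_lit 0) (nat_lit 2380774539)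 (nat_lit 152) (nat_lit 4130997801) (nat_lit 228) (nat_lit 186914019) (nat_lit 51) (nat_lit 5) (nat_lit 53) (nat_lit 5) (nat_lit 54) (nat_lit 4) (nat_lit 245) (nat_lit 240) (nat_lit 235))))) (XT.nd (nat_lit 234) (nat_lit 760) (nat_lit 0) (XT.nd (nat_lit 78) (nat_lit 228) (nat_lit 0) (XT.lf (nat_lit 0) (nat_lit 2123110278) (nat_lit 228) (nat_lit 968046541) (nat_lit 76) (nat_lit 3721925123) (nat_lit 50) (nat_lit 5) (nat_lit 53) (nat_lit 5) (nat_lit 51) (nat_lit 5) (nat_lit 246) (nat_lit 240) (nat_lit 234)) (XT.nd (nat_lit 78) (nat_lit 0) (nat_lit 0) (XT.lf (nat_lit 0) (nat_lit 2626729965) (nat_lit 228) (nat_lit 1840850852) (nat_lit 304) (nat_lit 2481768263) (nat_lit 47) (nat_lit 5) (nat_lit 50) (nat_lit 5) (nat_lit 51) (nat_lit 5) (nat_lit 247) (nat_lit 240) (nat_lit 233)) (XT.lf (nat_lit 0) (nat_lit 6418307420) (nat_lit 228) (nat_lit 415900868) (nat_lit 304) (nat_lit 277289230) (nat_lit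 47) (nat_lit 5) (nat_lit 50) (nat_lit 5) (nat_lit 51) (nat_lit 5) (nat_lit 248) (nat_lit 240) (nat_lit 232)))) (XT.nd (nat_lit 78) (nat_lit 380) (nat_lit 0) (XT.lf (nat_lit 0) (nat_lit 1922435387) (nat_lit 380) (nat_lit 4134520728) (nat_lit 76) (nat_lit 1233183782) (nat_lit 42) (nat_lit 5) (nat_lit 47) (nat_lit 5) (nat_lit 43) (nat_lit 5) (nat_lit 249) (nat_lit 240) (nat_lit 231)) (XT.nd (nat_lit 78) (nat_lit 380) (nat_lit 0) (XT.lf (nat_lit 0) (nat_lit 4140533236) (nat_lit 380) (nat_lit 306832775) (nat_lit 76) (nat_lit 3047928900) (nat_lit 42) (nat_lit 5) (nat_lit 47) (nat_lit 5) (nat_lit 43) (nat_lit 5) (nat_lit 250) (nat_lit 240) (nat_lit 230)) (XT.lf (nat_lit 0) (nat_lit 3874076815) (nat_lit 380) (nat_lit 2595107191) (nat_lit 456) (nat_lit 1254314651) (nat_lit 37) (nat_lit 5) (nat_lit 42) (nat_lit 5) (nat_lit 43) (nat_lit 5) (nat_lit 251) (nat_lit 240) (nat_lit 229)))))) (XT.nd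 (nat_lit 468) (nat_lit 608) (nat_lit 0) (XT.nd (nat_lit 234) (nat_lit 228) (nat_lit 0) (XT.nd (nat_lit 78) (nat_lit 228) (nat_lit 0) (XT.lf (nat_lit 0) (nat_lit 274306480) (nat_lit 456) (nat_lit 547613444) (nat_lit 532) (nat_lit 7158510208) (nat_lit 30) (nat_lit 5) (nat_lit 36) (nat_lit 5) (nat_lit 37) (nat_lit 5) (nat_lit 252) (nat_lit 240) (nat_lit 228)) (XT.nd (nat_lit 78) (nat_lit 228) (nat_lit 0) (XT.lf (nat_lit 0) (nat_lit 2995801802) (nat_lit 532) (nat_lit 3539454564) (nat_lit 76) (nat_lit 1721128126) (nat_lit 30) (nat_lit 5) (nat_lit 37) (nat_lit 5) (nat_lit 31) (nat_lit 5) (nat_lit 253) (nat_lit 240) (nat_lit 227)) (XT.lf (nat_lit 0) (nat_lit 838757719) (nat_lit 228) (nat_lit 4401564589) (nat_lit 304) (nat_lit 3323298968) (nat_lit 27) (nat_lit 5) (nat_lit 30) (nat_lit 5) (nat_lit 31) (nat_lit 5) (nat_lit 254) (nat_lit 240) (nat_lit 226)))) (XT.nd (nat_lit 78) (nat_lit 228)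 (nat_lit 0) (XT.lf (nat_lit 0) (nat_lit 5622779675) (nat_lit 228) (nat_lit 2007424532) (nat_lit 304) (nat_lit 1268843187) (nat_lit 27) (nat_lit 5) (nat_lit 30) (nat_lit 5) (nat_lit 31) (nat_lit 5) (nat_lit 255) (nat_lit 240) (nat_lit 225)) (XT.nd (nat_lit 78) (nat_lit 0) (nat_lit 0) (XT.lf (nat_lit 0) (nat_lit 826749287) (nat_lit 228) (nat_lit 7847608926) (nat_lit 76) (nat_lit 591927155) (nat_lit 24) (nat_lit 5) (nat_lit 27) (nat_lit 5) (nat_lit 25) (nat_lit 5) (nat_lit 256) (nat_lit 240) (nat_lit 224)) (XT.lf (nat_lit 0) (nat_lit 3045763750) (nat_lit 228) (nat_lit 3216071031) (nat_lit 76) (nat_lit 3397179140) (nat_lit 24) (nat_lit 5) (nat_lit 27) (nat_lit 5) (nat_lit 25) (nat_lit 5) (nat_lit 257) (nat_lit 240) (nat_lit 223))))) (XT.nd (nat_lit 234) (nat_lit 228) (nat_lit 0) (XT.nd (nat_lit 78) (nat_lit 152) (nat_lit 0) (XT.lf (nat_lit 0) (nat_lit 1735344437) (nat_lit 228) (nat_lit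 3637836757) (nat_lit 304) (nat_lit 4716151707) (nat_lit 21) (nat_lit 5) (nat_lit 24) (nat_lit 5) (nat_lit 25) (nat_lit 5) (nat_lit 258) (nat_lit 240) (nat_lit 222)) (XT.nd (nat_lit 78) (nat_lit 152) (nat_lit 0) (XT.lf (nat_lit 0) (nat_lit 7131799397) (nat_lit 228) (nat_lit 737061727) (nat_lit 304) (nat_lit 2687245830) (nat_lit 21) (nat_lit 5) (nat_lit 24) (nat_lit 5) (nat_lit 25) (nat_lit 5) (nat_lit 259) (nat_lit 240) (nat_lit 221)) (XT.lf (nat_lit 0) (nat_lit 1800374058) (nat_lit 152) (nat_lit 8766090691) (nat_lit 228) (nat_lit 494127642) (nat_lit 19) (nat_lit 5) (nat_lit 21) (nat_lit 5) (nat_lit 22) (nat_lit 4) (nat_lit 260) (nat_lit 240) (nat_lit 220)))) (XT.nd (nat_lit 156) (nat_lit 0) (nat_lit 0) (XT.nd (nat_lit 78) (nat_lit 152) (nat_lit 0) (XT.lf (nat_lit 0) (nat_lit 1798507591) (nat_lit 228) (nat_lit 4160909372) (nat_lit 76) (nat_lit 5641458894) (nat_lit 18) (nat_lit 5) (nat_lit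 21) (nat_lit 5) (nat_lit 19) (nat_lit 5) (nat_lit 261) (nat_lit 240) (nat_lit 219)) (XT.lf (nat_lit 0) (nat_lit 1273044709) (nat_lit 152) (nat_lit 2915274141) (nat_lit 228) (nat_lit 8000236920) (nat_lit 16) (nat_lit 5) (nat_lit 18) (nat_lit 5) (nat_lit 19) (nat_lit 5) (nat_lit 262) (nat_lit 240) (nat_lit 218))) (XT.nd (nat_lit 78) (nat_lit 0) (nat_lit 0) (XT.lf (nat_lit 0) (nat_lit 6807772526) (nat_lit 228) (nat_lit 5575198694) (nat_lit 76) (nat_lit 437607257) (nat_lit 16) (nat_lit 5) (nat_lit 19) (nat_lit 5) (nat_lit 17) (nat_lit 4) (nat_lit 263) (nat_lit 240) (nat_lit 217)) (XT.lf (nat_lit 0) (nat_lit 9631744338) (nat_lit 228) (nat_lit 1427613) (nat_lit 76) (nat_lit 3870769106) (nat_lit 16) (nat_lit 5) (nat_lit 19) (nat_lit 5) (nat_lit 17) (nat_lit 4) (nat_lit 264) (nat_lit 240) (nat_lit 216))))))))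
noncomputable def xc50 : XT := (XT.nd (nat_lit 1872) (nat_lit 228) (nat_lit 0) (XT.nd (nat_lit 936) (nat_lit 228) (nat_lit 0) (XT.nd (nat_lit 468) (nat_lit 304) (nat_lit 0) (XT.nd (nat_lit 234) (nat_lit 76) (nat_lit 0) (XT.nd (nat_lit 78) (nat_lit 228) (nat_lit 0) (XT.lf (nat_lit 0) (nat_lit 6220098885) (nat_lit 76) (nat_lit 6536351163) (nat_lit 152) (nat_lit 1479884528) (nat_lit 15) (nat_lit 5) (nat_lit 16) (nat_lit 5) (nat_lit 17) (nat_lit 4) (nat_lit 265) (nat_lit 240) (nat_lit 215)) (XT.nd (nat_lit 78) (nat_lit 152) (nat_lit 0) (XT.lf (nat_lit 0) (nat_lit 974664690) (nat_lit 152) (nat_lit 2225162053) (nat_lit 76) (nat_lit 11831581246) (nat_lit 14) (nat_lit 5) (nat_lit 16) (nat_lit 5) (nat_lit 15) (nat_lit 5) (nat_lit 266) (nat_lit 240) (nat_lit 214)) (XT.lf (nat_lit 0) (nat_lit 3588014217) (nat_lit 228) (nat_lit 11804354146) (nat_lit 76) (nat_lit 491528381) (nat_lit 12) (nat_lit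 5) (nat_lit 15) (nat_lit 5) (nat_lit 13) (nat_lit 4) (nat_lit 267) (nat_lit 240) (nat_lit 213)))) (XT.nd (nat_lit 78) (nat_lit 76) (nat_lit 0) (XT.lf (nat_lit 0) (nat_lit 6489322581) (nat_lit 228) (nat_lit 5973869156) (nat_lit 76) (nat_lit 4335336811) (nat_lit 12) (nat_lit 5) (nat_lit 15) (nat_lit 5) (nat_lit 13) (nat_lit 4) (nat_lit 268) (nat_lit 240) (nat_lit 212)) (XT.nd (nat_lit 78) (nat_lit 0) (nat_lit 0) (XT.lf (nat_lit 0) (nat_lit 238085299) (nat_lit 76) (nat_lit 9328671052) (nat_lit 152) (nat_lit 8224289205) (nat_lit 11) (nat_lit 5) (nat_lit 12) (nat_lit 5) (nat_lit 13) (nat_lit 4) (nat_lit 269) (nat_lit 240) (nat_lit 211)) (XT.lf (nat_lit 0) (nat_lit 7192308661) (nat_lit 76) (nat_lit 5802006902) (nat_lit 152) (nat_lit 5860552709) (nat_lit 11) (nat_lit 5) (nat_lit 12) (nat_lit 5) (nat_lit 13) (nat_lit 4) (nat_lit 270) (nat_lit 240) (nat_lit 210))))) (XT.nd (nat_lit 234) (nat_lit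 76) (nat_lit 0) (XT.nd (nat_lit 78) (nat_lit 228) (nat_lit 0) (XT.lf (nat_lit 0) (nat_lit 14615437780) (nat_lit 76) (nat_lit 2025636708) (nat_lit 152) (nat_lit 3367325323) (nat_lit 11) (nat_lit 5) (nat_lit 12) (nat_lit 5) (nat_lit 13) (nat_lit 4) (nat_lit 271) (nat_lit 240) (nat_lit 209)) (XT.nd (nat_lit 78) (nat_lit 76) (nat_lit 0) (XT.lf (nat_lit 0) (nat_lit 1309861402) (nat_lit 152) (nat_lit 19298933167) (nat_lit 152) (nat_lit 643269265) (nat_lit 9) (nat_lit 4) (nat_lit 11) (nat_lit 5) (nat_lit 11) (nat_lit 4) (nat_lit 272) (nat_lit 240) (nat_lit 208)) (XT.lf (nat_lit 0) (nat_lit 2336351523) (nat_lit 228) (nat_lit 13924756313) (nat_lit 76) (nat_lit 6317640760) (nat_lit 8) (nat_lit 5) (nat_lit 11) (nat_lit 5) (nat_lit 9) (nat_lit 4) (nat_lit 273) (nat_lit 240) (nat_lit 207)))) (XT.nd (nat_lit 78) (nat_lit 76) (nat_lit 0) (XT.lf (nat_lit 0) (nat_lit 5472120266) (nat_lit 228) (nat_lit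 7521527310) (nat_lit 76) (nat_lit 11020530297) (nat_lit 8) (nat_lit 5) (nat_lit 11) (nat_lit 5) (nat_lit 9) (nat_lit 4) (nat_lit 274) (nat_lit 240) (nat_lit 206)) (XT.nd (nat_lit 78) (nat_lit 76) (nat_lit 0) (XT.lf (nat_lit 0) (nat_lit 8814798230) (nat_lit 228) (nat_lit 679099721) (nat_lit 76) (nat_lit 16074197611) (nat_lit 8) (nat_lit 5) (nat_lit 11) (nat_lit 5) (nat_lit 9) (nat_lit 4) (nat_lit 275) (nat_lit 240) (nat_lit 205)) (XT.lf (nat_lit 0) (nat_lit 6992886685) (nat_lit 76) (nat_lit 5559486284) (nat_lit 152) (nat_lit 14683882767) (nat_lit 7) (nat_lit 5) (nat_lit 8) (nat_lit 5) (nat_lit 9) (nat_lit 4) (nat_lit 276) (nat_lit 240) (nat_lit 204)))))) (XT.nd (nat_lit 468) (nat_lit 76) (nat_lit 0) (XT.nd (nat_lit 234) (nat_lit 76) (nat_lit 0) (XT.nd (nat_lit 78) (nat_lit 76) (nat_lit 0) (XT.lf (nat_lit 0) (nat_lit 15251317711) (nat_lit 76) (nat_lit 1316936028) (nat_lit 152) (nat_lit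 12471389198) (nat_lit 7) (nat_lit 5) (nat_lit 8) (nat_lit 5) (nat_lit 9) (nat_lit 4) (nat_lit 277) (nat_lit 240) (nat_lit 203)) (XT.nd (nat_lit 78) (nat_lit 76) (nat_lit 0) (XT.lf (nat_lit 0) (nat_lit 20946975872) (nat_lit 152) (nat_lit 6958877198) (nat_lit 0) (nat_lit 3078231833) (nat_lit 7) (nat_lit 5) (nat_lit 9) (nat_lit 4) (nat_lit 7) (nat_lit 4) (nat_lit 278) (nat_lit 240) (nat_lit 202)) (XT.lf (nat_lit 0) (nat_lit 341005369) (nat_lit 76) (nat_lit 25343182107) (nat_lit 76) (nat_lit 7399340764) (nat_lit 6) (nat_lit 4) (nat_lit 7) (nat_lit 5) (nat_lit 7) (nat_lit 4) (nat_lit 279) (nat_lit 240) (nat_lit 201)))) (XT.nd (nat_lit 78) (nat_lit 76) (nat_lit 0) (XT.lf (nat_lit 0) (nat_lit 8563350351) (nat_lit 76) (nat_lit 22394234842) (nat_lit 76) (nat_lit 4380858960) (nat_lit 6) (nat_lit 4) (nat_lit 7) (nat_lit 5) (nat_lit 7) (nat_lit 4) (nat_lit 280) (nat_lit 240) (nat_lit 200)) (XT.nd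 (nat_lit 78) (nat_lit 76) (nat_lit 0) (XT.lf (nat_lit 0) (nat_lit 17390440615) (nat_lit 76) (nat_lit 19231804069) (nat_lit 76) (nat_lit 1154044353) (nat_lit 6) (nat_lit 4) (nat_lit 7) (nat_lit 5) (nat_lit 7) (nat_lit 4) (nat_lit 281) (nat_lit 240) (nat_lit 199)) (XT.lf (nat_lit 0) (nat_lit 2185158354) (nat_lit 152) (nat_lit 13592244999) (nat_lit 76) (nat_lit 24629680387) (nat_lit 5) (nat_lit 5) (nat_lit 7) (nat_lit 5) (nat_lit 6) (nat_lit 4) (nat_lit 282) (nat_lit 240) (nat_lit 198))))) (XT.nd (nat_lit 234) (nat_lit 0) (nat_lit 0) (XT.nd (nat_lit 78) (nat_lit 76) (nat_lit 0) (XT.lf (nat_lit 0) (nat_lit 5702153316) (nat_lit 152) (nat_lit 6332094236) (nat_lit 76) (nat_lit 31213925077) (nat_lit 5) (nat_lit 5) (nat_lit 7) (nat_lit 5) (nat_lit 6) (nat_lit 4) (nat_lit 283) (nat_lit 240) (nat_lit 197)) (XT.nd (nat_lit 78) (nat_lit 0) (nat_lit 0) (XT.lf (nat_lit 0) (nat_lit 1542546183) (nat_lit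 76) (nat_lit 7970064048) (nat_lit 152) (nat_lit 36803034082) (nat_lit 4) (nat_lit 5) (nat_lit 5) (nat_lit 5) (nat_lit 6) (nat_lit 4) (nat_lit 284) (nat_lit 240) (nat_lit 196)) (XT.lf (nat_lit 0) (nat_lit 10364883767) (nat_lit 76) (nat_lit 3411986860) (nat_lit 152) (nat_lit 35839784886) (nat_lit 4) (nat_lit 5) (nat_lit 5) (nat_lit 5) (nat_lit 6) (nat_lit 4) (nat_lit 285) (nat_lit 240) (nat_lit 195)))) (XT.nd (nat_lit 78) (nat_lit 0) (nat_lit 0) (XT.lf (nat_lit 0) (nat_lit 18395825482) (nat_lit 152) (nat_lit 33365757570) (nat_lit 0) (nat_lit 1419135025) (nat_lit 4) (nat_lit 5) (nat_lit 6) (nat_lit 4) (nat_lit 4) (nat_lit 4) (nat_lit 286) (nat_lit 240) (nat_lit 194)) (XT.nd (nat_lit 78) (nat_lit 0) (nat_lit 0) (XT.lf (nat_lit 0) (nat_lit 23451827517) (nat_lit 152) (nat_lit 27135156654) (nat_lit 0) (nat_lit 6437569712) (nat_lit 4) (nat_lit 5) (nat_lit 6) (nat_lit 4) (nat_lit 4) (nat_lit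 4) (nat_lit 287) (nat_lit 240) (nat_lit 193)) (XT.lf (nat_lit 0) (nat_lit 28892779860) (nat_lit 152) (nat_lit 20440988554) (nat_lit 0) (nat_lit 11843737473) (nat_lit 4) (nat_lit 5) (nat_lit 6) (nat_lit 4) (nat_lit 4) (nat_lit 4) (nat_lit 288) (nat_lit 240) (nat_lit 192))))))) (XT.nd (nat_lit 936) (nat_lit 152) (nat_lit 0) (XT.nd (nat_lit 468) (nat_lit 0) (nat_lit 0) (XT.nd (nat_lit 234) (nat_lit 0) (nat_lit 0) (XT.nd (nat_lit 78) (nat_lit 76) (nat_lit 0) (XT.lf (nat_lit 0) (nat_lit 34750925192) (nat_lit 152) (nat_lit 13243584125) (nat_lit 0) (nat_lit 17669674859) (nat_lit 4) (nat_lit 5) (nat_lit 6) (nat_lit 4) (nat_lit 4) (nat_lit 4) (nat_lit 289) (nat_lit 240) (nat_lit 191)) (XT.nd (nat_lit 78) (nat_lit 76) (nat_lit 0) (XT.lf (nat_lit 0) (nat_lit 41060978448) (nat_lit 152) (nat_lit 5500292081) (nat_lit 0) (nat_lit 23949905942) (nat_lit 4) (nat_lit 5) (nat_lit 6) (nat_lit 4) (nat_lit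 4) (nat_lit 4) (nat_lit 290) (nat_lit 240) (nat_lit 190)) (XT.lf (nat_lit 0) (nat_lit 2984047913) (nat_lit 76) (nat_lit 44948051047) (nat_lit 76) (nat_lit 27809365419) (nat_lit 3) (nat_lit 4) (nat_lit 4) (nat_lit 5) (nat_lit 4) (nat_lit 4) (nat_lit 291) (nat_lit 240) (nat_lit 189)))) (XT.nd (nat_lit 78) (nat_lit 0) (nat_lit 0) (XT.lf (nat_lit 0) (nat_lit 12432953019) (nat_lit 76) (nat_lit 43055339725) (nat_lit 76) (nat_lit 25891086390) (nat_lit 3) (nat_lit 4) (nat_lit 4) (nat_lit 5) (nat_lit 4) (nat_lit 4) (nat_lit 292) (nat_lit 240) (nat_lit 188)) (XT.nd (nat_lit 78) (nat_lit 0) (nat_lit 0) (XT.lf (nat_lit 0) (nat_lit 22612781116) (nat_lit 76) (nat_lit 41022308228) (nat_lit 76) (nat_lit 23834381092) (nat_lit 3) (nat_lit 4) (nat_lit 4) (nat_lit 5) (nat_lit 4) (nat_lit 4) (nat_lit 293) (nat_lit 240) (nat_lit 187)) (XT.lf (nat_lit 0) (nat_lit 33583857109) (nat_lit 76) (nat_lit 38836908963)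 (nat_lit 76) (nat_lit 21627061640) (nat_lit 3) (nat_lit 4) (nat_lit 4) (nat_lit 5) (nat_lit 4) (nat_lit 4) (nat_lit 294) (nat_lit 240) (nat_lit 186))))) (XT.nd (nat_lit 234) (nat_lit 0) (nat_lit 0) (XT.nd (nat_lit 78) (nat_lit 0) (nat_lit 0) (XT.lf (nat_lit 0) (nat_lit 45411194783) (nat_lit 76) (nat_lit 36486191416) (nat_lit 76) (nat_lit 19256047623) (nat_lit 3) (nat_lit 4) (nat_lit 4) (nat_lit 5) (nat_lit 4) (nat_lit 4) (nat_lit 295) (nat_lit 240) (nat_lit 185)) (XT.nd (nat_lit 78) (nat_lit 0) (nat_lit 0) (XT.lf (nat_lit 0) (nat_lit 58164882065) (nat_lit 76) (nat_lit 33956225408) (nat_lit 76) (nat_lit 16707288588) (nat_lit 3) (nat_lit 4) (nat_lit 4) (nat_lit 5) (nat_lit 4) (nat_lit 4) (nat_lit 296) (nat_lit 240) (nat_lit 184)) (XT.lf (nat_lit 0) (nat_lit 71920496361) (nat_lit 76) (nat_lit 31232018548) (nat_lit 76) (nat_lit 13965680777) (nat_lit 3) (nat_lit 4) (nat_lit 4) (nat_lit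 5) (nat_lit 4) (nat_lit 4) (nat_lit 297) (nat_lit 240) (nat_lit 183)))) (XT.nd (nat_lit 78) (nat_lit 0) (nat_lit 0) (XT.lf (nat_lit 0) (nat_lit 86759552421) (nat_lit 76) (nat_lit 28297427389) (nat_lit 76) (nat_lit 11014977626) (nat_lit 3) (nat_lit 4) (nat_lit 4) (nat_lit 5) (nat_lit 4) (nat_lit 4) (nat_lit 298) (nat_lit 240) (nat_lit 182)) (XT.nd (nat_lit 78) (nat_lit 0) (nat_lit 0) (XT.lf (nat_lit 0) (nat_lit 102769985394) (nat_lit 76) (nat_lit 25135061761) (nat_lit 76) (nat_lit 7837693487) (nat_lit 3) (nat_lit 4) (nat_lit 4) (nat_lit 5) (nat_lit 4) (nat_lit 4) (nat_lit 299) (nat_lit 240) (nat_lit 181)) (XT.lf (nat_lit 0) (nat_lit 120046671919) (nat_lit 76) (nat_lit 21726181718) (nat_lit 76) (nat_lit 4415000008) (nat_lit 3) (nat_lit 4) (nat_lit 4) (nat_lit 5) (nat_lit 4) (nat_lit 4) (nat_lit 300) (nat_lit 240) (nat_lit 180)))))) (XT.nd (nat_lit 468) (nat_lit 0) (nat_lit 0) (XT.nd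 (nat_lit 234) (nat_lit 76) (nat_lit 0) (XT.nd (nat_lit 78) (nat_lit 76) (nat_lit 0) (XT.lf (nat_lit 0) (nat_lit 138691992361) (nat_lit 76) (nat_lit 18050586491) (nat_lit 76) (nat_lit 726614563) (nat_lit 3) (nat_lit 4) (nat_lit 4) (nat_lit 5) (nat_lit 4) (nat_lit 4) (nat_lit 301) (nat_lit 240) (nat_lit 179)) (XT.nd (nat_lit 78) (nat_lit 0) (nat_lit 0) (XT.lf (nat_lit 0) (nat_lit 3086775804) (nat_lit 152) (nat_lit 10915321049) (nat_lit 76) (nat_lit 155645263781) (nat_lit 2) (nat_lit 5) (nat_lit 4) (nat_lit 5) (nat_lit 3) (nat_lit 4) (nat_lit 302) (nat_lit 240) (nat_lit 178)) (XT.lf (nat_lit 0) (nat_lit 7159365138) (nat_lit 152) (nat_lit 2455300785) (nat_lit 76) (nat_lit 173184148459) (nat_lit 2) (nat_lit 5) (nat_lit 4) (nat_lit 5) (nat_lit 3) (nat_lit 4) (nat_lit 303) (nat_lit 240) (nat_lit 177)))) (XT.nd (nat_lit 78) (nat_lit 0) (nat_lit 0) (XT.lf (nat_lit 0) (nat_lit 7021723326) (nat_lit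 76) (nat_lit 4698784792) (nat_lit 152) (nat_lit 185268869280) (nat_lit 1) (nat_lit 5) (nat_lit 2) (nat_lit 5) (nat_lit 3) (nat_lit 4) (nat_lit 304) (nat_lit 240) (nat_lit 176)) (XT.nd (nat_lit 78) (nat_lit 0) (nat_lit 0) (XT.lf (nat_lit 0) (nat_lit 16724049986) (nat_lit 152) (nat_lit 194940836223) (nat_lit 0) (nat_lit 644110399) (nat_lit 1) (nat_lit 5) (nat_lit 3) (nat_lit 4) (nat_lit 1) (nat_lit 4) (nat_lit 305) (nat_lit 240) (nat_lit 175)) (XT.lf (nat_lit 0) (nat_lit 22244321691) (nat_lit 152) (nat_lit 200444236725) (nat_lit 0) (nat_lit 6156322097) (nat_lit 1) (nat_lit 5) (nat_lit 3) (nat_lit 4) (nat_lit 1) (nat_lit 4) (nat_lit 306) (nat_lit 240) (nat_lit 174))))) (XT.nd (nat_lit 234) (nat_lit 0) (nat_lit 0) (XT.nd (nat_lit 78) (nat_lit 0) (nat_lit 0) (XT.lf (nat_lit 0) (nat_lit 28201030068) (nat_lit 152) (nat_lit 206397462435) (nat_lit 0) (nat_lit 12105567504) (nat_lit 1) (nat_lit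 5) (nat_lit 3) (nat_lit 4) (nat_lit 1) (nat_lit 4) (nat_lit 307) (nat_lit 240) (nat_lit 173)) (XT.nd (nat_lit 78) (nat_lit 0) (nat_lit 0) (XT.lf (nat_lit 0) (nat_lit 34629474130) (nat_lit 152) (nat_lit 212835791728) (nat_lit 0) (nat_lit 18527101408) (nat_lit 1) (nat_lit 5) (nat_lit 3) (nat_lit 4) (nat_lit 1) (nat_lit 4) (nat_lit 308) (nat_lit 240) (nat_lit 172)) (XT.lf (nat_lit 0) (nat_lit 41567748359) (nat_lit 152) (nat_lit 219797377666) (nat_lit 0) (nat_lit 25458977344) (nat_lit 1) (nat_lit 5) (nat_lit 3) (nat_lit 4) (nat_lit 1) (nat_lit 4) (nat_lit 309) (nat_lit 240) (nat_lit 171)))) (XT.nd (nat_lit 78) (nat_lit 0) (nat_lit 0) (XT.lf (nat_lit 0) (nat_lit 49056968456) (nat_lit 152) (nat_lit 227323474092) (nat_lit 0) (nat_lit 32942273095) (nat_lit 1) (nat_lit 5) (nat_lit 3) (nat_lit 4) (nat_lit 1) (nat_lit 4) (nat_lit 310) (nat_lit 240) (nat_lit 170)) (XT.nd (nat_lit 78) (nat_lit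 0) (nat_lit 0) (XT.lf (nat_lit 0) (nat_lit 57141514983) (nat_lit 152) (nat_lit 235458680096) (nat_lit 0) (nat_lit 41021334116) (nat_lit 1) (nat_lit 5) (nat_lit 3) (nat_lit 4) (nat_lit 1) (nat_lit 4) (nat_lit 311) (nat_lit 240) (nat_lit 169)) (XT.lf (nat_lit 0) (nat_lit 65869296364) (nat_lit 152) (nat_lit 244251204305) (nat_lit 0) (nat_lit 49744036326) (nat_lit 1) (nat_lit 5) (nat_lit 3) (nat_lit 4) (nat_lit 1) (nat_lit 4) (nat_lit 312) (nat_lit 240) (nat_lit 168))))))))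
noncomputable def xc51 : XT := (XT.nd (nat_lit 31902) (nat_lit 0) (nat_lit 1064) (XT.nd (nat_lit 936) (nat_lit 0) (nat_lit 0) (XT.nd (nat_lit 468) (nat_lit 0) (nat_lit 0) (XT.nd (nat_lit 234) (nat_lit 0) (nat_lit 0) (XT.nd (nat_lit 78) (nat_lit 0) (nat_lit 0) (XT.lf (nat_lit 0) (nat_lit 75292032786) (nat_lit 152) (nat_lit 253753150568) (nat_lit 0) (nat_lit 59162069811) (nat_lit 1) (nat_lit 5) (nat_lit 3) (nat_lit 4) (nat_lit 1) (nat_lit 4) (nat_lit 313) (nat_lit 240) (nat_lit 167)) (XT.nd (nat_lit 78) (nat_lit 0) (nat_lit 0) (XT.lf (nat_lit 0) (nat_lit 85465562686) (nat_lit 152) (nat_lit 264020826714) (nat_lit 0) (nat_lit 69331245140) (nat_lit 1) (nat_lit 5) (nat_lit 3) (nat_lit 4) (nat_lit 1) (nat_lit 4) (nat_lit 314) (nat_lit 240) (nat_lit 166)) (XT.lf (nat_lit 0) (nat_lit 96450173649) (nat_lit 152) (nat_lit 275115078230) (nat_lit 0) (nat_lit 80311824093) (nat_lit 1) (nat_lit 5)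 (nat_lit 3) (nat_lit 4) (nat_lit 1) (nat_lit 4) (nat_lit 315) (nat_lit 240) (nat_lit 165)))) (XT.nd (nat_lit 78) (nat_lit 0) (nat_lit 0) (XT.lf (nat_lit 0) (nat_lit 108310959666) (nat_lit 152) (nat_lit 287101648830) (nat_lit 0) (nat_lit 92168876767) (nat_lit 1) (nat_lit 5) (nat_lit 3) (nat_lit 4) (nat_lit 1) (nat_lit 4) (nat_lit 316) (nat_lit 240) (nat_lit 164)) (XT.nd (nat_lit 78) (nat_lit 0) (nat_lit 0) (XT.lf (nat_lit 0) (nat_lit 121118206877) (nat_lit 152) (nat_lit 300051570044) (nat_lit 0) (nat_lit 104972667178) (nat_lit 1) (nat_lit 5) (nat_lit 3) (nat_lit 4) (nat_lit 1) (nat_lit 4) (nat_lit 317) (nat_lit 240) (nat_lit 163)) (XT.lf (nat_lit 0) (nat_lit 134947810079) (nat_lit 152) (nat_lit 314041582145) (nat_lit 0) (nat_lit 118799069640) (nat_lit 1) (nat_lit 5) (nat_lit 3) (nat_lit 4) (nat_lit 1) (nat_lit 4) (nat_lit 318) (nat_lit 240) (nat_lit 162))))) (XT.nd (nat_lit 234) (nat_lit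 0) (nat_lit 0) (XT.nd (nat_lit 78) (nat_lit 0) (nat_lit 0) (XT.lf (nat_lit 0) (nat_lit 149881722476) (nat_lit 152) (nat_lit 329154588908) (nat_lit 0) (nat_lit 133730018390) (nat_lit 1) (nat_lit 5) (nat_lit 3) (nat_lit 4) (nat_lit 1) (nat_lit 4) (nat_lit 319) (nat_lit 240) (nat_lit 161)) (XT.nd (nat_lit 78) (nat_lit 0) (nat_lit 0) (XT.lf (nat_lit 0) (nat_lit 166008441328) (nat_lit 152) (nat_lit 345480148892) (nat_lit 0) (nat_lit 149853993123) (nat_lit 1) (nat_lit 5) (nat_lit 3) (nat_lit 4) (nat_lit 1) (nat_lit 4) (nat_lit 320) (nat_lit 240) (nat_lit 160)) (XT.lf (nat_lit 0) (nat_lit 183423532376) (nat_lit 152) (nat_lit 363115006157) (nat_lit 0) (nat_lit 167266543320) (nat_lit 1) (nat_lit 5) (nat_lit 3) (nat_lit 4) (nat_lit 1) (nat_lit 4) (nat_lit 321) (nat_lit 240) (nat_lit 159)))) (XT.nd (nat_lit 78) (nat_lit 0) (nat_lit 0) (XT.lf (nat_lit 0) (nat_lit 202230196159) (nat_lit 152) (nat_lit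 382163663559) (nat_lit 0) (nat_lit 186070854464) (nat_lit 1) (nat_lit 5) (nat_lit 3) (nat_lit 4) (nat_lit 1) (nat_lit 4) (nat_lit 322) (nat_lit 240) (nat_lit 158)) (XT.nd (nat_lit 78) (nat_lit 0) (nat_lit 0) (XT.lf (nat_lit 0) (nat_lit 222539879573) (nat_lit 152) (nat_lit 402739002033) (nat_lit 0) (nat_lit 206378359509) (nat_lit 1) (nat_lit 5) (nat_lit 3) (nat_lit 4) (nat_lit 1) (nat_lit 4) (nat_lit 323) (nat_lit 240) (nat_lit 157)) (XT.lf (nat_lit 0) (nat_lit 244472936299) (nat_lit 152) (nat_lit 424962949509) (nat_lit 0) (nat_lit 228309399226) (nat_lit 1) (nat_lit 5) (nat_lit 3) (nat_lit 4) (nat_lit 1) (nat_lit 4) (nat_lit 324) (nat_lit 240) (nat_lit 156)))))) (XT.nd (nat_lit 468) (nat_lit 0) (nat_lit 0) (XT.nd (nat_lit 234) (nat_lit 0) (nat_lit 0) (XT.nd (nat_lit 78) (nat_lit 0) (nat_lit 0) (XT.lf (nat_lit 0) (nat_lit 268159340006) (nat_lit 152) (nat_lit 448967203454) (nat_lit 0)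 (nat_lit 251993935331) (nat_lit 1) (nat_lit 5) (nat_lit 3) (nat_lit 4) (nat_lit 1) (nat_lit 4) (nat_lit 325) (nat_lit 240) (nat_lit 155)) (XT.nd (nat_lit 78) (nat_lit 0) (nat_lit 0) (XT.lf (nat_lit 0) (nat_lit 293739454567) (nat_lit 152) (nat_lit 474894011299) (nat_lit 0) (nat_lit 277572320632) (nat_lit 1) (nat_lit 5) (nat_lit 3) (nat_lit 4) (nat_lit 1) (nat_lit 4) (nat_lit 326) (nat_lit 240) (nat_lit 154)) (XT.lf (nat_lit 0) (nat_lit 321364865846) (nat_lit 152) (nat_lit 502897013387) (nat_lit 0) (nat_lit 305196130745) (nat_lit 1) (nat_lit 5) (nat_lit 3) (nat_lit 4) (nat_lit 1) (nat_lit 4) (nat_lit 327) (nat_lit 240) (nat_lit 153)))) (XT.nd (nat_lit 78) (nat_lit 0) (nat_lit 0) (XT.lf (nat_lit 0) (nat_lit 351199279986) (nat_lit 152) (nat_lit 533142153434) (nat_lit 0) (nat_lit 335029062323) (nat_lit 1) (nat_lit 5) (nat_lit 3) (nat_lit 4) (nat_lit 1) (nat_lit 4) (nat_lit 328) (nat_lit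 240) (nat_lit 152)) (XT.nd (nat_lit 78) (nat_lit 0) (nat_lit 0) (XT.lf (nat_lit 0) (nat_lit 383419493513) (nat_lit 152) (nat_lit 565808661898) (nat_lit 0) (nat_lit 367247903107) (nat_lit 1) (nat_lit 5) (nat_lit 3) (nat_lit 4) (nat_lit 1) (nat_lit 4) (nat_lit 329) (nat_lit 240) (nat_lit 151)) (XT.lf (nat_lit 0) (nat_lit 418216441026) (nat_lit 152) (nat_lit 601090118091) (nat_lit 0) (nat_lit 402043579563) (nat_lit 1) (nat_lit 5) (nat_lit 3) (nat_lit 4) (nat_lit 1) (nat_lit 4) (nat_lit 330) (nat_lit 240) (nat_lit 150))))) (XT.nd (nat_lit 234) (nat_lit 0) (nat_lit 0) (XT.nd (nat_lit 78) (nat_lit 0) (nat_lit 0) (XT.lf (nat_lit 0) (nat_lit 455796326659) (nat_lit 152) (nat_lit 639195597307) (nat_lit 0) (nat_lit 439622288291) (nat_lit 1) (nat_lit 5) (nat_lit 3) (nat_lit 4) (nat_lit 1) (nat_lit 4) (nat_lit 331) (nat_lit 240) (nat_lit 149)) (XT.nd (nat_lit 78) (nat_lit 0) (nat_lit 0) (XT.lf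 (nat_lit 0) (nat_lit 496381846031) (nat_lit 152) (nat_lit 680350909794) (nat_lit 0) (nat_lit 480206717935) (nat_lit 1) (nat_lit 5) (nat_lit 3) (nat_lit 4) (nat_lit 1) (nat_lit 4) (nat_lit 332) (nat_lit 240) (nat_lit 148)) (XT.lf (nat_lit 0) (nat_lit 540213505922) (nat_lit 152) (nat_lit 724799938886) (nat_lit 0) (nat_lit 524037368820) (nat_lit 1) (nat_lit 5) (nat_lit 3) (nat_lit 4) (nat_lit 1) (nat_lit 4) (nat_lit 333) (nat_lit 240) (nat_lit 147)))) (XT.nd (nat_lit 78) (nat_lit 0) (nat_lit 0) (XT.lf (nat_lit 0) (nat_lit 587551049503) (nat_lit 152) (nat_lit 772806086235) (nat_lit 0) (nat_lit 571373978136) (nat_lit 1) (nat_lit 5) (nat_lit 3) (nat_lit 4) (nat_lit 1) (nat_lit 4) (nat_lit 334) (nat_lit 240) (nat_lit 146)) (XT.nd (nat_lit 78) (nat_lit 0) (nat_lit 0) (XT.lf (nat_lit 0) (nat_lit 638674995551) (nat_lit 152) (nat_lit 824653832715) (nat_lit 0) (nat_lit 622497059123) (nat_lit 1)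 (nat_lit 5) (nat_lit 3) (nat_lit 4) (nat_lit 1) (nat_lit 4) (nat_lit 335) (nat_lit 240) (nat_lit 145)) (XT.lf (nat_lit 0) (nat_lit 693888300782) (nat_lit 152) (nat_lit 880650424232) (nat_lit 0) (nat_lit 677709563372) (nat_lit 1) (nat_lit 5) (nat_lit 3) (nat_lit 4) (nat_lit 1) (nat_lit 4) (nat_lit 336) (nat_lit 240) (nat_lit 144))))))) (XT.nd (nat_lit 936) (nat_lit 1596) (nat_lit 0) (XT.nd (nat_lit 468) (nat_lit 1064) (nat_lit 0) (XT.nd (nat_lit 234) (nat_lit 152) (nat_lit 0) (XT.nd (nat_lit 78) (nat_lit 228) (nat_lit 0) (XT.lf (nat_lit 0) (nat_lit 1329848126) (nat_lit 0) (nat_lit 1329848126) (nat_lit 76) (nat_lit 574892914) (nat_lit 55) (nat_lit 5) (nat_lit 55) (nat_lit 3) (nat_lit 56) (nat_lit 0) (nat_lit 241) (nat_lit 241) (nat_lit 238)) (XT.nd (nat_lit 78) (nat_lit 0) (nat_lit 0) (XT.lf (nat_lit 0) (nat_lit 1287516393) (nat_lit 228) (nat_lit 980949996) (nat_lit 228) (nat_lit 4242232051)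 (nat_lit 52) (nat_lit 3) (nat_lit 55) (nat_lit 3) (nat_lit 55) (nat_lit 5) (nat_lit 242) (nat_lit 241) (nat_lit 237)) (XT.lf (nat_lit 76) (nat_lit 2012456565) (nat_lit 0) (nat_lit 1651163385) (nat_lit 228) (nat_lit 2907624399) (nat_lit 53) (nat_lit 5) (nat_lit 52) (nat_lit 3) (nat_lit 55) (nat_lit 5) (nat_lit 243) (nat_lit 241) (nat_lit 236)))) (XT.nd (nat_lit 78) (nat_lit 152) (nat_lit 0) (XT.lf (nat_lit 76) (nat_lit 5172255605) (nat_lit 0) (nat_lit 856773967) (nat_lit 228) (nat_lit 626044896) (nat_lit 53) (nat_lit 5) (nat_lit 52) (nat_lit 3) (nat_lit 55) (nat_lit 5) (nat_lit 244) (nat_lit 241) (nat_lit 235)) (XT.nd (nat_lit 78) (nat_lit 0) (nat_lit 0) (XT.lf (nat_lit 0) (nat_lit 1574209072) (nat_lit 228) (nat_lit 5012843413) (nat_lit 76) (nat_lit 170813169) (nat_lit 50) (nat_lit 5) (nat_lit 53) (nat_lit 5) (nat_lit 51) (nat_lit 5) (nat_lit 245) (nat_lit 241) (nat_lit 234)) (XT.lf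 (nat_lit 0) (nat_lit 3777080093) (nat_lit 228) (nat_lit 1739407437) (nat_lit 76) (nat_lit 1364145879) (nat_lit 50) (nat_lit 5) (nat_lit 53) (nat_lit 5) (nat_lit 51) (nat_lit 5) (nat_lit 246) (nat_lit 241) (nat_lit 233))))) (XT.nd (nat_lit 234) (nat_lit 456) (nat_lit 0) (XT.nd (nat_lit 78) (nat_lit 380) (nat_lit 0) (XT.lf (nat_lit 0) (nat_lit 1744637668) (nat_lit 228) (nat_lit 4265140215) (nat_lit 304) (nat_lit 1016904807) (nat_lit 47) (nat_lit 5) (nat_lit 50) (nat_lit 5) (nat_lit 51) (nat_lit 5) (nat_lit 247) (nat_lit 241) (nat_lit 232)) (XT.nd (nat_lit 78) (nat_lit 304) (nat_lit 0) (XT.lf (nat_lit 0) (nat_lit 1039797623) (nat_lit 304) (nat_lit 1751470362) (nat_lit 76) (nat_lit 4403068235) (nat_lit 46) (nat_lit 5) (nat_lit 50) (nat_lit 5) (nat_lit 47) (nat_lit 5) (nat_lit 248) (nat_lit 241) (nat_lit 231)) (XT.lf (nat_lit 0) (nat_lit 1999795598) (nat_lit 304) (nat_lit 1084203727) (nat_lit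 380) (nat_lit 4300444989) (nat_lit 42) (nat_lit 5) (nat_lit 46) (nat_lit 5) (nat_lit 47) (nat_lit 5) (nat_lit 249) (nat_lit 241) (nat_lit 230)))) (XT.nd (nat_lit 78) (nat_lit 456) (nat_lit 0) (XT.lf (nat_lit 0) (nat_lit 5199066978) (nat_lit 380) (nat_lit 1601457950) (nat_lit 76) (nat_lit 797934478) (nat_lit 42) (nat_lit 5) (nat_lit 47) (nat_lit 5) (nat_lit 43) (nat_lit 5) (nat_lit 250) (nat_lit 241) (nat_lit 229)) (XT.nd (nat_lit 78) (nat_lit 76) (nat_lit 0) (XT.lf (nat_lit 0) (nat_lit 2442493301) (nat_lit 380) (nat_lit 4979540134) (nat_lit 456) (nat_lit 413656372) (nat_lit 37) (nat_lit 5) (nat_lit 42) (nat_lit 5) (nat_lit 43) (nat_lit 5) (nat_lit 251) (nat_lit 241) (nat_lit 228)) (XT.lf (nat_lit 0) (nat_lit 1544163149) (nat_lit 456) (nat_lit 1371262406) (nat_lit 76) (nat_lit 5182177572) (nat_lit 36) (nat_lit 5) (nat_lit 42) (nat_lit 5) (nat_lit 37) (nat_lit 5) (nat_lit 252) (nat_lit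 241) (nat_lit 227)))))) (XT.nd (nat_lit 468) (nat_lit 684) (nat_lit 0) (XT.nd (nat_lit 234) (nat_lit 228) (nat_lit 0) (XT.nd (nat_lit 78) (nat_lit 228) (nat_lit 0) (XT.lf (nat_lit 0) (nat_lit 2980074871) (nat_lit 456) (nat_lit 593494122) (nat_lit 532) (nat_lit 4812000577) (nat_lit 30) (nat_lit 5) (nat_lit 36) (nat_lit 5) (nat_lit 37) (nat_lit 5) (nat_lit 253) (nat_lit 241) (nat_lit 226)) (XT.nd (nat_lit 78) (nat_lit 228) (nat_lit 0) (XT.lf (nat_lit 0) (nat_lit 5722360070) (nat_lit 532) (nat_lit 1121528831) (nat_lit 76) (nat_lit 1856996179) (nat_lit 30) (nat_lit 5) (nat_lit 37) (nat_lit 5) (nat_lit 31) (nat_lit 5) (nat_lit 254) (nat_lit 241) (nat_lit 225)) (XT.lf (nat_lit 0) (nat_lit 3538558610) (nat_lit 228) (nat_lit 4486985732) (nat_lit 304) (nat_lit 1018091898) (nat_lit 27) (nat_lit 5) (nat_lit 30) (nat_lit 5) (nat_lit 31) (nat_lit 5) (nat_lit 255) (nat_lit 241) (nat_lit 224))))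 (XT.nd (nat_lit 78) (nat_lit 152) (nat_lit 0) (XT.lf (nat_lit 0) (nat_lit 959732813) (nat_lit 304) (nat_lit 935096715) (nat_lit 76) (nat_lit 7524313878) (nat_lit 26) (nat_lit 5) (nat_lit 30) (nat_lit 5) (nat_lit 27) (nat_lit 5) (nat_lit 256) (nat_lit 241) (nat_lit 223)) (XT.nd (nat_lit 78) (nat_lit 0) (nat_lit 0) (XT.lf (nat_lit 0) (nat_lit 3055593521) (nat_lit 228) (nat_lit 5793734895) (nat_lit 76) (nat_lit 972704827) (nat_lit 24) (nat_lit 5) (nat_lit 27) (nat_lit 5) (nat_lit 25) (nat_lit 5) (nat_lit 257) (nat_lit 241) (nat_lit 222)) (XT.lf (nat_lit 0) (nat_lit 5291928823) (nat_lit 228) (nat_lit 990317136) (nat_lit 76) (nat_lit 3977678933) (nat_lit 24) (nat_lit 5) (nat_lit 27) (nat_lit 5) (nat_lit 25) (nat_lit 5) (nat_lit 258) (nat_lit 241) (nat_lit 221))))) (XT.nd (nat_lit 234) (nat_lit 228) (nat_lit 0) (XT.nd (nat_lit 78) (nat_lit 228) (nat_lit 0) (XT.lf (nat_lit 0) (nat_lit 4294349808)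 (nat_lit 228) (nat_lit 3421061561) (nat_lit 304) (nat_lit 3017328272) (nat_lit 21) (nat_lit 5) (nat_lit 24) (nat_lit 5) (nat_lit 25) (nat_lit 5) (nat_lit 259) (nat_lit 241) (nat_lit 220)) (XT.nd (nat_lit 78) (nat_lit 228) (nat_lit 0) (XT.lf (nat_lit 0) (nat_lit 9943248735) (nat_lit 228) (nat_lit 325839502) (nat_lit 304) (nat_lit 979896263) (nat_lit 21) (nat_lit 5) (nat_lit 24) (nat_lit 5) (nat_lit 25) (nat_lit 5) (nat_lit 260) (nat_lit 241) (nat_lit 219)) (XT.lf (nat_lit 0) (nat_lit 1251943276) (nat_lit 228) (nat_lit 7566122278) (nat_lit 76) (nat_lit 2979154986) (nat_lit 18) (nat_lit 5) (nat_lit 21) (nat_lit 5) (nat_lit 19) (nat_lit 5) (nat_lit 261) (nat_lit 241) (nat_lit 218)))) (XT.nd (nat_lit 156) (nat_lit 76) (nat_lit 0) (XT.nd (nat_lit 78) (nat_lit 152) (nat_lit 0) (XT.lf (nat_lit 0) (nat_lit 3571004312) (nat_lit 228) (nat_lit 2251116346) (nat_lit 76) (nat_lit 6568634526) (nat_lit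 18) (nat_lit 5) (nat_lit 21) (nat_lit 5) (nat_lit 19) (nat_lit 5) (nat_lit 262) (nat_lit 241) (nat_lit 217)) (XT.lf (nat_lit 0) (nat_lit 3560777713) (nat_lit 152) (nat_lit 2523155222) (nat_lit 228) (nat_lit 6947547251) (nat_lit 16) (nat_lit 5) (nat_lit 18) (nat_lit 5) (nat_lit 19) (nat_lit 5) (nat_lit 263) (nat_lit 241) (nat_lit 216))) (XT.nd (nat_lit 78) (nat_lit 76) (nat_lit 0) (XT.lf (nat_lit 0) (nat_lit 8811272143) (nat_lit 228) (nat_lit 3888797913) (nat_lit 76) (nat_lit 1022670253) (nat_lit 16) (nat_lit 5) (nat_lit 19) (nat_lit 5) (nat_lit 17) (nat_lit 4) (nat_lit 264) (nat_lit 241) (nat_lit 215)) (XT.lf (nat_lit 0) (nat_lit 2076808430) (nat_lit 76) (nat_lit 9726235538) (nat_lit 152) (nat_lit 2662879140) (nat_lit 15) (nat_lit 5) (nat_lit 16) (nat_lit 5) (nat_lit 17) (nat_lit 4) (nat_lit 265) (nat_lit 241) (nat_lit 214))))))))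
noncomputable def xc52 : XT := (XT.nd (nat_lit 1872) (nat_lit 228) (nat_lit 0) (XT.nd (nat_lit 936) (nat_lit 228) (nat_lit 0) (XT.nd (nat_lit 468) (nat_lit 304) (nat_lit 0) (XT.nd (nat_lit 234) (nat_lit 76) (nat_lit 0) (XT.nd (nat_lit 78) (nat_lit 228) (nat_lit 0) (XT.lf (nat_lit 0) (nat_lit 8642180354) (nat_lit 76) (nat_lit 6431821917) (nat_lit 152) (nat_lit 191668371) (nat_lit 15) (nat_lit 5) (nat_lit 16) (nat_lit 5) (nat_lit 17) (nat_lit 4) (nat_lit 266) (nat_lit 241) (nat_lit 213)) (XT.nd (nat_lit 78) (nat_lit 152) (nat_lit 0) (XT.lf (nat_lit 0) (nat_lit 2289899667) (nat_lit 152) (nat_lit 551123786) (nat_lit 76) (nat_lit 13288936977) (nat_lit 14) (nat_lit 5) (nat_lit 16) (nat_lit 5) (nat_lit 15) (nat_lit 5) (nat_lit 267) (nat_lit 241) (nat_lit 212)) (XT.lf (nat_lit 0) (nat_lit 5078900473) (nat_lit 228) (nat_lit 10858624143) (nat_lit 76) (nat_lit 1116165836) (nat_lit 12) (nat_lit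 5) (nat_lit 15) (nat_lit 5) (nat_lit 13) (nat_lit 4) (nat_lit 268) (nat_lit 241) (nat_lit 211)))) (XT.nd (nat_lit 78) (nat_lit 76) (nat_lit 0) (XT.lf (nat_lit 0) (nat_lit 8123139794) (nat_lit 228) (nat_lit 4701706157) (nat_lit 76) (nat_lit 5224122261) (nat_lit 12) (nat_lit 5) (nat_lit 15) (nat_lit 5) (nat_lit 13) (nat_lit 4) (nat_lit 269) (nat_lit 241) (nat_lit 210)) (XT.nd (nat_lit 78) (nat_lit 0) (nat_lit 0) (XT.lf (nat_lit 0) (nat_lit 1962899021) (nat_lit 76) (nat_lit 9442324727) (nat_lit 152) (nat_lit 7719302608) (nat_lit 11) (nat_lit 5) (nat_lit 12) (nat_lit 5) (nat_lit 13) (nat_lit 4) (nat_lit 270) (nat_lit 241) (nat_lit 209)) (XT.lf (nat_lit 0) (nat_lit 9347107149) (nat_lit 76) (nat_lit 5680389668) (nat_lit 152) (nat_lit 5252610135) (nat_lit 11) (nat_lit 5) (nat_lit 12) (nat_lit 5) (nat_lit 13) (nat_lit 4) (nat_lit 271) (nat_lit 241) (nat_lit 208))))) (XT.nd (nat_lit 234) (nat_lit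 76) (nat_lit 0) (XT.nd (nat_lit 78) (nat_lit 228) (nat_lit 0) (XT.lf (nat_lit 0) (nat_lit 17247092982) (nat_lit 76) (nat_lit 1645300806) (nat_lit 152) (nat_lit 2639686543) (nat_lit 11) (nat_lit 5) (nat_lit 12) (nat_lit 5) (nat_lit 13) (nat_lit 4) (nat_lit 272) (nat_lit 241) (nat_lit 207)) (XT.nd (nat_lit 78) (nat_lit 0) (nat_lit 0) (XT.lf (nat_lit 0) (nat_lit 266113851) (nat_lit 228) (nat_lit 19981473634) (nat_lit 76) (nat_lit 2628985459) (nat_lit 8) (nat_lit 5) (nat_lit 11) (nat_lit 5) (nat_lit 9) (nat_lit 4) (nat_lit 273) (nat_lit 241) (nat_lit 206)) (XT.lf (nat_lit 0) (nat_lit 3380751690) (nat_lit 228) (nat_lit 13613369503) (nat_lit 76) (nat_lit 7319637790) (nat_lit 8) (nat_lit 5) (nat_lit 11) (nat_lit 5) (nat_lit 9) (nat_lit 4) (nat_lit 274) (nat_lit 241) (nat_lit 205)))) (XT.nd (nat_lit 78) (nat_lit 76) (nat_lit 0) (XT.lf (nat_lit 0) (nat_lit 6703864003) (nat_lit 228) (nat_lit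 6803464944) (nat_lit 76) (nat_lit 12361974359) (nat_lit 8) (nat_lit 5) (nat_lit 11) (nat_lit 5) (nat_lit 9) (nat_lit 4) (nat_lit 275) (nat_lit 241) (nat_lit 204)) (XT.nd (nat_lit 78) (nat_lit 0) (nat_lit 0) (XT.lf (nat_lit 0) (nat_lit 514323581) (nat_lit 76) (nat_lit 9753189220) (nat_lit 152) (nat_lit 17283921590) (nat_lit 7) (nat_lit 5) (nat_lit 8) (nat_lit 5) (nat_lit 9) (nat_lit 4) (nat_lit 276) (nat_lit 241) (nat_lit 203)) (XT.lf (nat_lit 0) (nat_lit 8743403068) (nat_lit 76) (nat_lit 5522510205) (nat_lit 152) (nat_lit 15090359368) (nat_lit 7) (nat_lit 5) (nat_lit 8) (nat_lit 5) (nat_lit 9) (nat_lit 4) (nat_lit 277) (nat_lit 241) (nat_lit 202)))))) (XT.nd (nat_lit 468) (nat_lit 76) (nat_lit 0) (XT.nd (nat_lit 234) (nat_lit 76) (nat_lit 0) (XT.nd (nat_lit 78) (nat_lit 76) (nat_lit 0) (XT.lf (nat_lit 0) (nat_lit 17574280024) (nat_lit 76) (nat_lit 976240001) (nat_lit 152) (nat_lit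 12757772538) (nat_lit 7) (nat_lit 5) (nat_lit 8) (nat_lit 5) (nat_lit 9) (nat_lit 4) (nat_lit 278) (nat_lit 241) (nat_lit 201)) (XT.nd (nat_lit 78) (nat_lit 76) (nat_lit 0) (XT.lf (nat_lit 0) (nat_lit 23240820536) (nat_lit 152) (nat_lit 6453873327) (nat_lit 0) (nat_lit 3716840043) (nat_lit 7) (nat_lit 5) (nat_lit 9) (nat_lit 4) (nat_lit 7) (nat_lit 4) (nat_lit 279) (nat_lit 241) (nat_lit 200)) (XT.lf (nat_lit 0) (nat_lit 1403121008) (nat_lit 76) (nat_lit 26932991679) (nat_lit 76) (nat_lit 7344627352) (nat_lit 6) (nat_lit 4) (nat_lit 7) (nat_lit 5) (nat_lit 7) (nat_lit 4) (nat_lit 280) (nat_lit 241) (nat_lit 199)))) (XT.nd (nat_lit 78) (nat_lit 76) (nat_lit 0) (XT.lf (nat_lit 0) (nat_lit 10206599129) (nat_lit 76) (nat_lit 23780546781) (nat_lit 76) (nat_lit 4132567794) (nat_lit 6) (nat_lit 4) (nat_lit 7) (nat_lit 5) (nat_lit 7) (nat_lit 4) (nat_lit 281) (nat_lit 241) (nat_lit 198)) (XT.nd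 (nat_lit 78) (nat_lit 76) (nat_lit 0) (XT.lf (nat_lit 0) (nat_lit 19668880262) (nat_lit 76) (nat_lit 20395138349) (nat_lit 76) (nat_lit 691960602) (nat_lit 6) (nat_lit 4) (nat_lit 7) (nat_lit 5) (nat_lit 7) (nat_lit 4) (nat_lit 282) (nat_lit 241) (nat_lit 197)) (XT.lf (nat_lit 0) (nat_lit 2847631763) (nat_lit 152) (nat_lit 13831213641) (nat_lit 76) (nat_lit 26920546122) (nat_lit 5) (nat_lit 5) (nat_lit 7) (nat_lit 5) (nat_lit 6) (nat_lit 4) (nat_lit 283) (nat_lit 241) (nat_lit 196))))) (XT.nd (nat_lit 234) (nat_lit 0) (nat_lit 0) (XT.nd (nat_lit 78) (nat_lit 76) (nat_lit 0) (XT.lf (nat_lit 0) (nat_lit 6609863305) (nat_lit 152) (nat_lit 6053096073) (nat_lit 76) (nat_lit 34007790291) (nat_lit 5) (nat_lit 5) (nat_lit 7) (nat_lit 5) (nat_lit 6) (nat_lit 4) (nat_lit 284) (nat_lit 241) (nat_lit 195)) (XT.nd (nat_lit 78) (nat_lit 0) (nat_lit 0) (XT.lf (nat_lit 0) (nat_lit 2431627840) (nat_lit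 76) (nat_lit 8278496267) (nat_lit 152) (nat_lit 39274783056) (nat_lit 4) (nat_lit 5) (nat_lit 5) (nat_lit 5) (nat_lit 6) (nat_lit 4) (nat_lit 285) (nat_lit 241) (nat_lit 194)) (XT.lf (nat_lit 0) (nat_lit 11903035545) (nat_lit 76) (nat_lit 3380156082) (nat_lit 152) (nat_lit 38269473462) (nat_lit 4) (nat_lit 5) (nat_lit 5) (nat_lit 5) (nat_lit 6) (nat_lit 4) (nat_lit 286) (nat_lit 241) (nat_lit 193)))) (XT.nd (nat_lit 78) (nat_lit 0) (nat_lit 0) (XT.lf (nat_lit 0) (nat_lit 20248511474) (nat_lit 152) (nat_lit 35354505451) (nat_lit 0) (nat_lit 1800761114) (nat_lit 4) (nat_lit 5) (nat_lit 6) (nat_lit 4) (nat_lit 4) (nat_lit 4) (nat_lit 287) (nat_lit 241) (nat_lit 192)) (XT.nd (nat_lit 78) (nat_lit 0) (nat_lit 0) (XT.lf (nat_lit 0) (nat_lit 25680769972) (nat_lit 152) (nat_lit 28675864812) (nat_lit 0) (nat_lit 7200811666) (nat_lit 4) (nat_lit 5) (nat_lit 6) (nat_lit 4) (nat_lit 4) (nat_lit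 4) (nat_lit 288) (nat_lit 241) (nat_lit 191)) (XT.lf (nat_lit 0) (nat_lit 31530865447) (nat_lit 152) (nat_lit 21492837662) (nat_lit 0) (nat_lit 13021084968) (nat_lit 4) (nat_lit 5) (nat_lit 6) (nat_lit 4) (nat_lit 4) (nat_lit 4) (nat_lit 289) (nat_lit 241) (nat_lit 190))))))) (XT.nd (nat_lit 936) (nat_lit 152) (nat_lit 0) (XT.nd (nat_lit 468) (nat_lit 0) (nat_lit 0) (XT.nd (nat_lit 234) (nat_lit 0) (nat_lit 0) (XT.nd (nat_lit 78) (nat_lit 76) (nat_lit 0) (XT.lf (nat_lit 0) (nat_lit 37833465132) (nat_lit 152) (nat_lit 13762857914) (nat_lit 0) (nat_lit 19296071530) (nat_lit 4) (nat_lit 5) (nat_lit 6) (nat_lit 4) (nat_lit 4) (nat_lit 4) (nat_lit 290) (nat_lit 241) (nat_lit 189)) (XT.nd (nat_lit 78) (nat_lit 76) (nat_lit 0) (XT.lf (nat_lit 0) (nat_lit 44625917765) (nat_lit 152) (nat_lit 5440118280) (nat_lit 0) (nat_lit 26062956457) (nat_lit 4) (nat_lit 5) (nat_lit 6) (nat_lit 4) (nat_lit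 4) (nat_lit 4) (nat_lit 291) (nat_lit 241) (nat_lit 188)) (XT.lf (nat_lit 0) (nat_lit 3710305694) (nat_lit 76) (nat_lit 48327402165) (nat_lit 76) (nat_lit 29740767055) (nat_lit 3) (nat_lit 4) (nat_lit 4) (nat_lit 5) (nat_lit 4) (nat_lit 4) (nat_lit 292) (nat_lit 241) (nat_lit 187)))) (XT.nd (nat_lit 78) (nat_lit 0) (nat_lit 0) (XT.lf (nat_lit 0) (nat_lit 13879009583) (nat_lit 76) (nat_lit 46299310452) (nat_lit 76) (nat_lit 27690755156) (nat_lit 3) (nat_lit 4) (nat_lit 4) (nat_lit 5) (nat_lit 4) (nat_lit 4) (nat_lit 293) (nat_lit 241) (nat_lit 186)) (XT.nd (nat_lit 78) (nat_lit 0) (nat_lit 0) (XT.lf (nat_lit 0) (nat_lit 24839785385) (nat_lit 76) (nat_lit 44118485062) (nat_lit 76) (nat_lit 25489633296) (nat_lit 3) (nat_lit 4) (nat_lit 4) (nat_lit 5) (nat_lit 4) (nat_lit 4) (nat_lit 294) (nat_lit 241) (nat_lit 185)) (XT.lf (nat_lit 0) (nat_lit 36657585844) (nat_lit 76) (nat_lit 41772002583)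 (nat_lit 76) (nat_lit 23124357790) (nat_lit 3) (nat_lit 4) (nat_lit 4) (nat_lit 5) (nat_lit 4) (nat_lit 4) (nat_lit 295) (nat_lit 241) (nat_lit 184))))) (XT.nd (nat_lit 234) (nat_lit 0) (nat_lit 0) (XT.nd (nat_lit 78) (nat_lit 0) (nat_lit 0) (XT.lf (nat_lit 0) (nat_lit 49402442372) (nat_lit 76) (nat_lit 39245957936) (nat_lit 76) (nat_lit 20580912192) (nat_lit 3) (nat_lit 4) (nat_lit 4) (nat_lit 5) (nat_lit 4) (nat_lit 4) (nat_lit 296) (nat_lit 241) (nat_lit 183)) (XT.nd (nat_lit 78) (nat_lit 0) (nat_lit 0) (XT.lf (nat_lit 0) (nat_lit 63149880043) (nat_lit 76) (nat_lit 36525381965) (nat_lit 76) (nat_lit 17844224229) (nat_lit 3) (nat_lit 4) (nat_lit 4) (nat_lit 5) (nat_lit 4) (nat_lit 4) (nat_lit 297) (nat_lit 241) (nat_lit 182)) (XT.lf (nat_lit 0) (nat_lit 77981365155) (nat_lit 76) (nat_lit 33594152740) (nat_lit 76) (nat_lit 14898076494) (nat_lit 3) (nat_lit 4) (nat_lit 4) (nat_lit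 5) (nat_lit 4) (nat_lit 4) (nat_lit 298) (nat_lit 241) (nat_lit 181)))) (XT.nd (nat_lit 78) (nat_lit 0) (nat_lit 0) (XT.lf (nat_lit 0) (nat_lit 93984787991) (nat_lit 76) (nat_lit 30434900014) (nat_lit 76) (nat_lit 11725010331) (nat_lit 3) (nat_lit 4) (nat_lit 4) (nat_lit 5) (nat_lit 4) (nat_lit 4) (nat_lit 299) (nat_lit 241) (nat_lit 180)) (XT.nd (nat_lit 78) (nat_lit 0) (nat_lit 0) (XT.lf (nat_lit 0) (nat_lit 111254983648) (nat_lit 76) (nat_lit 27028902288) (nat_lit 76) (nat_lit 8306222387) (nat_lit 3) (nat_lit 4) (nat_lit 4) (nat_lit 5) (nat_lit 4) (nat_lit 4) (nat_lit 300) (nat_lit 241) (nat_lit 179)) (XT.lf (nat_lit 0) (nat_lit 129894294027) (nat_lit 76) (nat_lit 23355975873) (nat_lit 76) (nat_lit 4621453177) (nat_lit 3) (nat_lit 4) (nat_lit 4) (nat_lit 5) (nat_lit 4) (nat_lit 4) (nat_lit 301) (nat_lit 241) (nat_lit 178)))))) (XT.nd (nat_lit 468) (nat_lit 0) (nat_lit 0) (XT.nd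 (nat_lit 234) (nat_lit 76) (nat_lit 0) (XT.nd (nat_lit 78) (nat_lit 76) (nat_lit 0) (XT.lf (nat_lit 0) (nat_lit 150013174300) (nat_lit 76) (nat_lit 19394355278) (nat_lit 76) (nat_lit 648867031) (nat_lit 3) (nat_lit 4) (nat_lit 4) (nat_lit 5) (nat_lit 4) (nat_lit 4) (nat_lit 302) (nat_lit 241) (nat_lit 177)) (XT.nd (nat_lit 78) (nat_lit 0) (nat_lit 0) (XT.lf (nat_lit 0) (nat_lit 3453236011) (nat_lit 152) (nat_lit 11572910630) (nat_lit 76) (nat_lit 168183193857) (nat_lit 2) (nat_lit 5) (nat_lit 4) (nat_lit 5) (nat_lit 3) (nat_lit 4) (nat_lit 303) (nat_lit 241) (nat_lit 176)) (XT.lf (nat_lit 0) (nat_lit 7842779296) (nat_lit 152) (nat_lit 2452061790) (nat_lit 76) (nat_lit 187118796052) (nat_lit 2) (nat_lit 5) (nat_lit 4) (nat_lit 5) (nat_lit 3) (nat_lit 4) (nat_lit 304) (nat_lit 241) (nat_lit 175)))) (XT.nd (nat_lit 78) (nat_lit 0) (nat_lit 0) (XT.lf (nat_lit 0) (nat_lit 7778069490) (nat_lit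 76) (nat_lit 4987227156) (nat_lit 152) (nat_lit 199974446893) (nat_lit 1) (nat_lit 5) (nat_lit 2) (nat_lit 5) (nat_lit 3) (nat_lit 4) (nat_lit 305) (nat_lit 241) (nat_lit 174)) (XT.nd (nat_lit 78) (nat_lit 0) (nat_lit 0) (XT.lf (nat_lit 0) (nat_lit 18163132599) (nat_lit 152) (nat_lit 210349724487) (nat_lit 0) (nat_lit 772570060) (nat_lit 1) (nat_lit 5) (nat_lit 3) (nat_lit 4) (nat_lit 1) (nat_lit 4) (nat_lit 306) (nat_lit 241) (nat_lit 173)) (XT.lf (nat_lit 0) (nat_lit 24117532810) (nat_lit 152) (nat_lit 216307202854) (nat_lit 0) (nat_lit 6720060113) (nat_lit 1) (nat_lit 5) (nat_lit 3) (nat_lit 4) (nat_lit 1) (nat_lit 4) (nat_lit 307) (nat_lit 241) (nat_lit 172))))) (XT.nd (nat_lit 234) (nat_lit 0) (nat_lit 0) (XT.nd (nat_lit 78) (nat_lit 0) (nat_lit 0) (XT.lf (nat_lit 0) (nat_lit 30543839681) (nat_lit 152) (nat_lit 222749469792) (nat_lit 0) (nat_lit 13139968690) (nat_lit 1) (nat_lit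 5) (nat_lit 3) (nat_lit 4) (nat_lit 1) (nat_lit 4) (nat_lit 308) (nat_lit 241) (nat_lit 171)) (XT.nd (nat_lit 78) (nat_lit 0) (nat_lit 0) (XT.lf (nat_lit 0) (nat_lit 37480135030) (nat_lit 152) (nat_lit 229714701698) (nat_lit 0) (nat_lit 20070339693) (nat_lit 1) (nat_lit 5) (nat_lit 3) (nat_lit 4) (nat_lit 1) (nat_lit 4) (nat_lit 309) (nat_lit 241) (nat_lit 170)) (XT.lf (nat_lit 0) (nat_lit 44967522829) (nat_lit 152) (nat_lit 237244174020) (nat_lit 0) (nat_lit 27552241988) (nat_lit 1) (nat_lit 5) (nat_lit 3) (nat_lit 4) (nat_lit 1) (nat_lit 4) (nat_lit 310) (nat_lit 241) (nat_lit 169)))) (XT.nd (nat_lit 78) (nat_lit 0) (nat_lit 0) (XT.lf (nat_lit 0) (nat_lit 53050372785) (nat_lit 152) (nat_lit 245382505853) (nat_lit 0) (nat_lit 35630012772) (nat_lit 1) (nat_lit 5) (nat_lit 3) (nat_lit 4) (nat_lit 1) (nat_lit 4) (nat_lit 311) (nat_lit 241) (nat_lit 168)) (XT.nd (nat_lit 78) (nat_lit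 0) (nat_lit 0) (XT.lf (nat_lit 0) (nat_lit 61776583267) (nat_lit 152) (nat_lit 254177924349) (nat_lit 0) (nat_lit 44351520317) (nat_lit 1) (nat_lit 5) (nat_lit 3) (nat_lit 4) (nat_lit 1) (nat_lit 4) (nat_lit 312) (nat_lit 241) (nat_lit 167)) (XT.lf (nat_lit 0) (nat_lit 71197865153) (nat_lit 152) (nat_lit 263682550507) (nat_lit 0) (nat_lit 53768447632) (nat_lit 1) (nat_lit 5) (nat_lit 3) (nat_lit 4) (nat_lit 1) (nat_lit 4) (nat_lit 313) (nat_lit 241) (nat_lit 166))))))))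
noncomputable def xc53 : XT := (XT.nd (nat_lit 31980) (nat_lit 0) (nat_lit 988) (XT.nd (nat_lit 936) (nat_lit 0) (nat_lit 0) (XT.nd (nat_lit 468) (nat_lit 0) (nat_lit 0) (XT.nd (nat_lit 234) (nat_lit 0) (nat_lit 0) (XT.nd (nat_lit 78) (nat_lit 0) (nat_lit 0) (XT.lf (nat_lit 0) (nat_lit 81370048260) (nat_lit 152) (nat_lit 273952708037) (nat_lit 0) (nat_lit 63936598729) (nat_lit 1) (nat_lit 5) (nat_lit 3) (nat_lit 4) (nat_lit 1) (nat_lit 4) (nat_lit 314) (nat_lit 241) (nat_lit 165)) (XT.nd (nat_lit 78) (nat_lit 0) (nat_lit 0) (XT.lf (nat_lit 0) (nat_lit 92353412193) (nat_lit 152) (nat_lit 285049257132) (nat_lit 0) (nat_lit 74916229319) (nat_lit 1) (nat_lit 5) (nat_lit 3) (nat_lit 4) (nat_lit 1) (nat_lit 4) (nat_lit 315) (nat_lit 241) (nat_lit 164)) (XT.lf (nat_lit 0) (nat_lit 104213043552) (nat_lit 152) (nat_lit 297037955119) (nat_lit 0) (nat_lit 86772403879) (nat_lit 1) (nat_lit 5)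 (nat_lit 3) (nat_lit 4) (nat_lit 1) (nat_lit 4) (nat_lit 316) (nat_lit 241) (nat_lit 163)))) (XT.nd (nat_lit 78) (nat_lit 0) (nat_lit 0) (XT.lf (nat_lit 0) (nat_lit 117019221635) (nat_lit 152) (nat_lit 309989846136) (nat_lit 0) (nat_lit 99575381222) (nat_lit 1) (nat_lit 5) (nat_lit 3) (nat_lit 4) (nat_lit 1) (nat_lit 4) (nat_lit 317) (nat_lit 241) (nat_lit 162)) (XT.nd (nat_lit 78) (nat_lit 0) (nat_lit 0) (XT.lf (nat_lit 0) (nat_lit 130847834904) (nat_lit 152) (nat_lit 323981682128) (nat_lit 0) (nat_lit 113401030843) (nat_lit 1) (nat_lit 5) (nat_lit 3) (nat_lit 4) (nat_lit 1) (nat_lit 4) (nat_lit 318) (nat_lit 241) (nat_lit 161)) (XT.lf (nat_lit 0) (nat_lit 145780830697) (nat_lit 152) (nat_lit 339096377679) (nat_lit 0) (nat_lit 128331282518) (nat_lit 1) (nat_lit 5) (nat_lit 3) (nat_lit 4) (nat_lit 1) (nat_lit 4) (nat_lit 319) (nat_lit 241) (nat_lit 160))))) (XT.nd (nat_lit 234) (nat_lit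 0) (nat_lit 0) (XT.nd (nat_lit 78) (nat_lit 0) (nat_lit 0) (XT.lf (nat_lit 0) (nat_lit 161906700841) (nat_lit 152) (nat_lit 355423501357) (nat_lit 0) (nat_lit 144454611811) (nat_lit 1) (nat_lit 5) (nat_lit 3) (nat_lit 4) (nat_lit 1) (nat_lit 4) (nat_lit 320) (nat_lit 241) (nat_lit 159)) (XT.nd (nat_lit 78) (nat_lit 0) (nat_lit 0) (XT.lf (nat_lit 0) (nat_lit 179321006048) (nat_lit 152) (nat_lit 373059806485) (nat_lit 0) (nat_lit 161866564379) (nat_lit 1) (nat_lit 5) (nat_lit 3) (nat_lit 4) (nat_lit 1) (nat_lit 4) (nat_lit 321) (nat_lit 241) (nat_lit 158)) (XT.lf (nat_lit 0) (nat_lit 198126942201) (nat_lit 152) (nat_lit 392109804503) (nat_lit 0) (nat_lit 180670322162) (nat_lit 1) (nat_lit 5) (nat_lit 3) (nat_lit 4) (nat_lit 1) (nat_lit 4) (nat_lit 322) (nat_lit 241) (nat_lit 157)))) (XT.nd (nat_lit 78) (nat_lit 0) (nat_lit 0) (XT.lf (nat_lit 0) (nat_lit 218435951884) (nat_lit 152) (nat_lit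 412686384286) (nat_lit 0) (nat_lit 200977314836) (nat_lit 1) (nat_lit 5) (nat_lit 3) (nat_lit 4) (nat_lit 1) (nat_lit 4) (nat_lit 323) (nat_lit 241) (nat_lit 156)) (XT.nd (nat_lit 78) (nat_lit 0) (nat_lit 0) (XT.lf (nat_lit 0) (nat_lit 240368384784) (nat_lit 152) (nat_lit 434911481123) (nat_lit 0) (nat_lit 222907880135) (nat_lit 1) (nat_lit 5) (nat_lit 3) (nat_lit 4) (nat_lit 1) (nat_lit 4) (nat_lit 324) (nat_lit 241) (nat_lit 155)) (XT.lf (nat_lit 0) (nat_lit 264054210874) (nat_lit 152) (nat_lit 458916799292) (nat_lit 0) (nat_lit 246591976965) (nat_lit 1) (nat_lit 5) (nat_lit 3) (nat_lit 4) (nat_lit 1) (nat_lit 4) (nat_lit 325) (nat_lit 241) (nat_lit 154)))))) (XT.nd (nat_lit 468) (nat_lit 0) (nat_lit 0) (XT.nd (nat_lit 234) (nat_lit 0) (nat_lit 0) (XT.nd (nat_lit 78) (nat_lit 0) (nat_lit 0) (XT.lf (nat_lit 0) (nat_lit 289633790605) (nat_lit 152) (nat_lit 484844592529) (nat_lit 0)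 (nat_lit 272169955529) (nat_lit 1) (nat_lit 5) (nat_lit 3) (nat_lit 4) (nat_lit 1) (nat_lit 4) (nat_lit 326) (nat_lit 241) (nat_lit 153)) (XT.nd (nat_lit 78) (nat_lit 0) (nat_lit 0) (XT.lf (nat_lit 0) (nat_lit 317258706672) (nat_lit 152) (nat_lit 512848507016) (nat_lit 0) (nat_lit 299793389034) (nat_lit 1) (nat_lit 5) (nat_lit 3) (nat_lit 4) (nat_lit 1) (nat_lit 4) (nat_lit 327) (nat_lit 241) (nat_lit 152)) (XT.lf (nat_lit 0) (nat_lit 347092662281) (nat_lit 152) (nat_lit 543094491878) (nat_lit 0) (nat_lit 329625971901) (nat_lit 1) (nat_lit 5) (nat_lit 3) (nat_lit 4) (nat_lit 1) (nat_lit 4) (nat_lit 328) (nat_lit 241) (nat_lit 151)))) (XT.nd (nat_lit 78) (nat_lit 0) (nat_lit 0) (XT.lf (nat_lit 0) (nat_lit 379312451243) (nat_lit 152) (nat_lit 575761782578) (nat_lit 0) (nat_lit 361844489805) (nat_lit 1) (nat_lit 5) (nat_lit 3) (nat_lit 4) (nat_lit 1) (nat_lit 4) (nat_lit 329) (nat_lit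 241) (nat_lit 150)) (XT.nd (nat_lit 78) (nat_lit 0) (nat_lit 0) (XT.lf (nat_lit 0) (nat_lit 414109005640) (nat_lit 152) (nat_lit 611043963063) (nat_lit 0) (nat_lit 396639867297) (nat_lit 1) (nat_lit 5) (nat_lit 3) (nat_lit 4) (nat_lit 1) (nat_lit 4) (nat_lit 330) (nat_lit 241) (nat_lit 149)) (XT.lf (nat_lit 0) (nat_lit 451688527277) (nat_lit 152) (nat_lit 649150112921) (nat_lit 0) (nat_lit 434218299206) (nat_lit 1) (nat_lit 5) (nat_lit 3) (nat_lit 4) (nat_lit 1) (nat_lit 4) (nat_lit 331) (nat_lit 241) (nat_lit 148))))) (XT.nd (nat_lit 234) (nat_lit 0) (nat_lit 0) (XT.nd (nat_lit 78) (nat_lit 0) (nat_lit 0) (XT.lf (nat_lit 0) (nat_lit 492273709615) (nat_lit 152) (nat_lit 690306046372) (nat_lit 0) (nat_lit 474802472538) (nat_lit 1) (nat_lit 5) (nat_lit 3) (nat_lit 4) (nat_lit 1) (nat_lit 4) (nat_lit 332) (nat_lit 241) (nat_lit 147)) (XT.nd (nat_lit 78) (nat_lit 0) (nat_lit 0) (XT.lf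 (nat_lit 0) (nat_lit 536105057438) (nat_lit 152) (nat_lit 734755650430) (nat_lit 0) (nat_lit 518632886096) (nat_lit 1) (nat_lit 5) (nat_lit 3) (nat_lit 4) (nat_lit 1) (nat_lit 4) (nat_lit 333) (nat_lit 241) (nat_lit 146)) (XT.lf (nat_lit 0) (nat_lit 583442312067) (nat_lit 152) (nat_lit 782762330156) (nat_lit 0) (nat_lit 565969275664) (nat_lit 1) (nat_lit 5) (nat_lit 3) (nat_lit 4) (nat_lit 1) (nat_lit 4) (nat_lit 334) (nat_lit 241) (nat_lit 145)))) (XT.nd (nat_lit 78) (nat_lit 0) (nat_lit 0) (XT.lf (nat_lit 0) (nat_lit 634565990567) (nat_lit 152) (nat_lit 834610569577) (nat_lit 0) (nat_lit 617092153182) (nat_lit 1) (nat_lit 5) (nat_lit 3) (nat_lit 4) (nat_lit 1) (nat_lit 4) (nat_lit 335) (nat_lit 241) (nat_lit 144)) (XT.nd (nat_lit 30186) (nat_lit 0) (nat_lit 3876) (XT.lf (nat_lit 0) (nat_lit 689779048068) (nat_lit 152) (nat_lit 890607617521) (nat_lit 0) (nat_lit 672304469033) (nat_lit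 1) (nat_lit 5) (nat_lit 3) (nat_lit 4) (nat_lit 1) (nat_lit 4) (nat_lit 336) (nat_lit 241) (nat_lit 143)) (XT.lf (nat_lit 0) (nat_lit 1775366179) (nat_lit 228) (nat_lit 752458563) (nat_lit 228) (nat_lit 752458563) (nat_lit 52) (nat_lit 3) (nat_lit 55) (nat_lit 3) (nat_lit 55) (nat_lit 5) (nat_lit 242) (nat_lit 242) (nat_lit 236))))))) (XT.nd (nat_lit 936) (nat_lit 1216) (nat_lit 0) (XT.nd (nat_lit 468) (nat_lit 1216) (nat_lit 0) (XT.nd (nat_lit 234) (nat_lit 228) (nat_lit 0) (XT.nd (nat_lit 78) (nat_lit 228) (nat_lit 0) (XT.lf (nat_lit 76) (nat_lit 1398942705) (nat_lit 0) (nat_lit 4405203637) (nat_lit 228) (nat_lit 827924593) (nat_lit 53) (nat_lit 5) (nat_lit 52) (nat_lit 3) (nat_lit 55) (nat_lit 5) (nat_lit 243) (nat_lit 242) (nat_lit 235)) (XT.nd (nat_lit 78) (nat_lit 0) (nat_lit 0) (XT.lf (nat_lit 0) (nat_lit 1275980870) (nat_lit 228) (nat_lit 2255992963) (nat_lit 304) (nat_lit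 3190507047) (nat_lit 49) (nat_lit 5) (nat_lit 52) (nat_lit 3) (nat_lit 53) (nat_lit 5) (nat_lit 244) (nat_lit 242) (nat_lit 234)) (XT.lf (nat_lit 76) (nat_lit 857699088) (nat_lit 0) (nat_lit 2464259811) (nat_lit 304) (nat_lit 3512852894) (nat_lit 50) (nat_lit 5) (nat_lit 49) (nat_lit 5) (nat_lit 53) (nat_lit 5) (nat_lit 245) (nat_lit 242) (nat_lit 233)))) (XT.nd (nat_lit 78) (nat_lit 228) (nat_lit 0) (XT.lf (nat_lit 76) (nat_lit 4228886046) (nat_lit 0) (nat_lit 1174363427) (nat_lit 304) (nat_lit 1564896835) (nat_lit 50) (nat_lit 5) (nat_lit 49) (nat_lit 5) (nat_lit 53) (nat_lit 5) (nat_lit 246) (nat_lit 242) (nat_lit 232)) (XT.nd (nat_lit 78) (nat_lit 0) (nat_lit 0) (XT.lf (nat_lit 0) (nat_lit 353068541) (nat_lit 304) (nat_lit 6478026609) (nat_lit 76) (nat_lit 294223670) (nat_lit 46) (nat_lit 5) (nat_lit 50) (nat_lit 5) (nat_lit 47) (nat_lit 5) (nat_lit 247) (nat_lit 242) (nat_lit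 231)) (XT.lf (nat_lit 0) (nat_lit 2277077821) (nat_lit 304) (nat_lit 3036994801) (nat_lit 76) (nat_lit 1984156152) (nat_lit 46) (nat_lit 5) (nat_lit 50) (nat_lit 5) (nat_lit 47) (nat_lit 5) (nat_lit 248) (nat_lit 242) (nat_lit 230))))) (XT.nd (nat_lit 234) (nat_lit 456) (nat_lit 0) (XT.nd (nat_lit 78) (nat_lit 456) (nat_lit 0) (XT.lf (nat_lit 0) (nat_lit 583139207) (nat_lit 304) (nat_lit 3628307238) (nat_lit 380) (nat_lit 3286294730) (nat_lit 42) (nat_lit 5) (nat_lit 46) (nat_lit 5) (nat_lit 47) (nat_lit 5) (nat_lit 249) (nat_lit 242) (nat_lit 229)) (XT.nd (nat_lit 78) (nat_lit 456) (nat_lit 0) (XT.lf (nat_lit 0) (nat_lit 4543422645) (nat_lit 304) (nat_lit 1691327475) (nat_lit 380) (nat_lit 1484919177) (nat_lit 42) (nat_lit 5) (nat_lit 46) (nat_lit 5) (nat_lit 47) (nat_lit 5) (nat_lit 250) (nat_lit 242) (nat_lit 228)) (XT.lf (nat_lit 0) (nat_lit 324419076) (nat_lit 456) (nat_lit 7213497234)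 (nat_lit 76) (nat_lit 430617728) (nat_lit 36) (nat_lit 5) (nat_lit 42) (nat_lit 5) (nat_lit 37) (nat_lit 5) (nat_lit 251) (nat_lit 242) (nat_lit 227)))) (XT.nd (nat_lit 78) (nat_lit 456) (nat_lit 0) (XT.lf (nat_lit 0) (nat_lit 2196948753) (nat_lit 456) (nat_lit 3264339773) (nat_lit 76) (nat_lit 2773984723) (nat_lit 36) (nat_lit 5) (nat_lit 42) (nat_lit 5) (nat_lit 37) (nat_lit 5) (nat_lit 252) (nat_lit 242) (nat_lit 226)) (XT.nd (nat_lit 78) (nat_lit 0) (nat_lit 0) (XT.lf (nat_lit 0) (nat_lit 926073797) (nat_lit 456) (nat_lit 3191069915) (nat_lit 532) (nat_lit 4415253222) (nat_lit 30) (nat_lit 5) (nat_lit 36) (nat_lit 5) (nat_lit 37) (nat_lit 5) (nat_lit 253) (nat_lit 242) (nat_lit 225)) (XT.lf (nat_lit 0) (nat_lit 5519427254) (nat_lit 456) (nat_lit 642749718) (nat_lit 532) (nat_lit 2694225329) (nat_lit 30) (nat_lit 5) (nat_lit 36) (nat_lit 5) (nat_lit 37) (nat_lit 5) (nat_lit 254)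 (nat_lit 242) (nat_lit 224)))))) (XT.nd (nat_lit 468) (nat_lit 532) (nat_lit 0) (XT.nd (nat_lit 234) (nat_lit 228) (nat_lit 0) (XT.nd (nat_lit 78) (nat_lit 228) (nat_lit 0) (XT.lf (nat_lit 0) (nat_lit 1162651962) (nat_lit 228) (nat_lit 7177569596) (nat_lit 304) (nat_lit 869303478) (nat_lit 27) (nat_lit 5) (nat_lit 30) (nat_lit 5) (nat_lit 31) (nat_lit 5) (nat_lit 255) (nat_lit 242) (nat_lit 223)) (XT.nd (nat_lit 78) (nat_lit 152) (nat_lit 0) (XT.lf (nat_lit 0) (nat_lit 1049476163) (nat_lit 304) (nat_lit 3539118176) (nat_lit 76) (nat_lit 5000588744) (nat_lit 26) (nat_lit 5) (nat_lit 30) (nat_lit 5) (nat_lit 27) (nat_lit 5) (nat_lit 256) (nat_lit 242) (nat_lit 222)) (XT.lf (nat_lit 0) (nat_lit 1256586305) (nat_lit 152) (nat_lit 1749046070) (nat_lit 228) (nat_lit 6997903004) (nat_lit 24) (nat_lit 5) (nat_lit 26) (nat_lit 5) (nat_lit 27) (nat_lit 5) (nat_lit 257) (nat_lit 242) (nat_lit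 221)))) (XT.nd (nat_lit 78) (nat_lit 228) (nat_lit 0) (XT.lf (nat_lit 0) (nat_lit 5154211348) (nat_lit 228) (nat_lit 3958122966) (nat_lit 76) (nat_lit 1336378123) (nat_lit 24) (nat_lit 5) (nat_lit 27) (nat_lit 5) (nat_lit 25) (nat_lit 5) (nat_lit 258) (nat_lit 242) (nat_lit 220)) (XT.nd (nat_lit 78) (nat_lit 0) (nat_lit 0) (XT.lf (nat_lit 0) (nat_lit 1115042665) (nat_lit 228) (nat_lit 6343881660) (nat_lit 304) (nat_lit 3472349709) (nat_lit 21) (nat_lit 5) (nat_lit 24) (nat_lit 5) (nat_lit 25) (nat_lit 5) (nat_lit 259) (nat_lit 242) (nat_lit 219)) (XT.lf (nat_lit 0) (nat_lit 6712810187) (nat_lit 228) (nat_lit 3259388001) (nat_lit 304) (nat_lit 1478780058) (nat_lit 21) (nat_lit 5) (nat_lit 24) (nat_lit 5) (nat_lit 25) (nat_lit 5) (nat_lit 260) (nat_lit 242) (nat_lit 218))))) (XT.nd (nat_lit 234) (nat_lit 304) (nat_lit 0) (XT.nd (nat_lit 78) (nat_lit 0) (nat_lit 0) (XT.lf (nat_lit 0)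 (nat_lit 578176204) (nat_lit 228) (nat_lit 11358704035) (nat_lit 76) (nat_lit 79475771) (nat_lit 18) (nat_lit 5) (nat_lit 21) (nat_lit 5) (nat_lit 19) (nat_lit 5) (nat_lit 261) (nat_lit 242) (nat_lit 217)) (XT.nd (nat_lit 78) (nat_lit 0) (nat_lit 0) (XT.lf (nat_lit 0) (nat_lit 2860076622) (nat_lit 228) (nat_lit 6094869675) (nat_lit 76) (nat_lit 3658097497) (nat_lit 18) (nat_lit 5) (nat_lit 21) (nat_lit 5) (nat_lit 19) (nat_lit 5) (nat_lit 262) (nat_lit 242) (nat_lit 216)) (XT.lf (nat_lit 0) (nat_lit 5252960475) (nat_lit 228) (nat_lit 508481223) (nat_lit 76) (nat_lit 7502097614) (nat_lit 18) (nat_lit 5) (nat_lit 21) (nat_lit 5) (nat_lit 19) (nat_lit 5) (nat_lit 263) (nat_lit 242) (nat_lit 215)))) (XT.nd (nat_lit 156) (nat_lit 152) (nat_lit 0) (XT.nd (nat_lit 78) (nat_lit 0) (nat_lit 0) (XT.lf (nat_lit 0) (nat_lit 5719687793) (nat_lit 152) (nat_lit 2188878653) (nat_lit 228) (nat_lit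 6052126218) (nat_lit 16) (nat_lit 5) (nat_lit 18) (nat_lit 5) (nat_lit 19) (nat_lit 5) (nat_lit 264) (nat_lit 242) (nat_lit 214)) (XT.lf (nat_lit 0) (nat_lit 10766926498) (nat_lit 228) (nat_lit 2371698149) (nat_lit 76) (nat_lit 1576066877) (nat_lit 16) (nat_lit 5) (nat_lit 19) (nat_lit 5) (nat_lit 17) (nat_lit 4) (nat_lit 265) (nat_lit 242) (nat_lit 213))) (XT.nd (nat_lit 78) (nat_lit 76) (nat_lit 0) (XT.lf (nat_lit 0) (nat_lit 4024873067) (nat_lit 76) (nat_lit 9923373882) (nat_lit 152) (nat_lit 1573495656) (nat_lit 15) (nat_lit 5) (nat_lit 16) (nat_lit 5) (nat_lit 17) (nat_lit 4) (nat_lit 266) (nat_lit 242) (nat_lit 212)) (XT.lf (nat_lit 0) (nat_lit 948966008) (nat_lit 152) (nat_lit 5433528861) (nat_lit 76) (nat_lit 10008568253) (nat_lit 14) (nat_lit 5) (nat_lit 16) (nat_lit 5) (nat_lit 15) (nat_lit 5) (nat_lit 267) (nat_lit 242) (nat_lit 211))))))))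
noncomputable def xc54 : XT := (XT.nd (nat_lit 1872) (nat_lit 228) (nat_lit 0) (XT.nd (nat_lit 936) (nat_lit 228) (nat_lit 0) (XT.nd (nat_lit 468) (nat_lit 304) (nat_lit 0) (XT.nd (nat_lit 234) (nat_lit 76) (nat_lit 0) (XT.nd (nat_lit 78) (nat_lit 0) (nat_lit 0) (XT.lf (nat_lit 0) (nat_lit 1044891428) (nat_lit 152) (nat_lit 2514082448) (nat_lit 228) (nat_lit 13770243900) (nat_lit 12) (nat_lit 5) (nat_lit 14) (nat_lit 5) (nat_lit 15) (nat_lit 5) (nat_lit 268) (nat_lit 242) (nat_lit 210)) (XT.nd (nat_lit 78) (nat_lit 0) (nat_lit 0) (XT.lf (nat_lit 0) (nat_lit 6517315665) (nat_lit 228) (nat_lit 10106876545) (nat_lit 76) (nat_lit 1707272533) (nat_lit 12) (nat_lit 5) (nat_lit 15) (nat_lit 5) (nat_lit 13) (nat_lit 4) (nat_lit 269) (nat_lit 242) (nat_lit 209)) (XT.lf (nat_lit 0) (nat_lit 9728642046) (nat_lit 228) (nat_lit 3577437530) (nat_lit 76) (nat_lit 6106694106) (nat_lit 12) (nat_lit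 5) (nat_lit 15) (nat_lit 5) (nat_lit 13) (nat_lit 4) (nat_lit 270) (nat_lit 242) (nat_lit 208)))) (XT.nd (nat_lit 78) (nat_lit 0) (nat_lit 0) (XT.lf (nat_lit 0) (nat_lit 3582351122) (nat_lit 76) (nat_lit 9655323866) (nat_lit 152) (nat_lit 7339822011) (nat_lit 11) (nat_lit 5) (nat_lit 12) (nat_lit 5) (nat_lit 13) (nat_lit 4) (nat_lit 271) (nat_lit 242) (nat_lit 207)) (XT.nd (nat_lit 78) (nat_lit 0) (nat_lit 0) (XT.lf (nat_lit 0) (nat_lit 11448968480) (nat_lit 76) (nat_lit 5632610806) (nat_lit 152) (nat_lit 4749647830) (nat_lit 11) (nat_lit 5) (nat_lit 12) (nat_lit 5) (nat_lit 13) (nat_lit 4) (nat_lit 272) (nat_lit 242) (nat_lit 206)) (XT.lf (nat_lit 0) (nat_lit 19880650013) (nat_lit 76) (nat_lit 1311915578) (nat_lit 152) (nat_lit 1996073396) (nat_lit 11) (nat_lit 5) (nat_lit 12) (nat_lit 5) (nat_lit 13) (nat_lit 4) (nat_lit 273) (nat_lit 242) (nat_lit 205))))) (XT.nd (nat_lit 234) (nat_lit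 76) (nat_lit 0) (XT.nd (nat_lit 78) (nat_lit 0) (nat_lit 0) (XT.lf (nat_lit 0) (nat_lit 1081377075) (nat_lit 228) (nat_lit 20260206974) (nat_lit 76) (nat_lit 3299105933) (nat_lit 8) (nat_lit 5) (nat_lit 11) (nat_lit 5) (nat_lit 9) (nat_lit 4) (nat_lit 274) (nat_lit 242) (nat_lit 204)) (XT.nd (nat_lit 78) (nat_lit 0) (nat_lit 0) (XT.lf (nat_lit 0) (nat_lit 4386373044) (nat_lit 228) (nat_lit 13480416332) (nat_lit 76) (nat_lit 8330951071) (nat_lit 8) (nat_lit 5) (nat_lit 11) (nat_lit 5) (nat_lit 9) (nat_lit 4) (nat_lit 275) (nat_lit 242) (nat_lit 203)) (XT.lf (nat_lit 0) (nat_lit 7920877956) (nat_lit 228) (nat_lit 6216239610) (nat_lit 76) (nat_lit 13745138102) (nat_lit 8) (nat_lit 5) (nat_lit 11) (nat_lit 5) (nat_lit 9) (nat_lit 4) (nat_lit 276) (nat_lit 242) (nat_lit 202)))) (XT.nd (nat_lit 78) (nat_lit 0) (nat_lit 0) (XT.lf (nat_lit 0) (nat_lit 1658326363) (nat_lit 76) (nat_lit 10087393449)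 (nat_lit 152) (nat_lit 17955307521) (nat_lit 7) (nat_lit 5) (nat_lit 8) (nat_lit 5) (nat_lit 9) (nat_lit 4) (nat_lit 277) (nat_lit 242) (nat_lit 201)) (XT.nd (nat_lit 78) (nat_lit 0) (nat_lit 0) (XT.lf (nat_lit 0) (nat_lit 10464039106) (nat_lit 76) (nat_lit 5551300920) (nat_lit 152) (nat_lit 15638951269) (nat_lit 7) (nat_lit 5) (nat_lit 8) (nat_lit 5) (nat_lit 9) (nat_lit 4) (nat_lit 278) (nat_lit 242) (nat_lit 200)) (XT.lf (nat_lit 0) (nat_lit 19925744456) (nat_lit 76) (nat_lit 671922440) (nat_lit 152) (nat_lit 13168545407) (nat_lit 7) (nat_lit 5) (nat_lit 8) (nat_lit 5) (nat_lit 9) (nat_lit 4) (nat_lit 279) (nat_lit 242) (nat_lit 199)))))) (XT.nd (nat_lit 468) (nat_lit 76) (nat_lit 0) (XT.nd (nat_lit 234) (nat_lit 76) (nat_lit 0) (XT.nd (nat_lit 78) (nat_lit 76) (nat_lit 0) (XT.lf (nat_lit 0) (nat_lit 25629995810) (nat_lit 152) (nat_lit 6059934525) (nat_lit 0) (nat_lit 4350563844)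 (nat_lit 7) (nat_lit 5) (nat_lit 9) (nat_lit 4) (nat_lit 7) (nat_lit 4) (nat_lit 280) (nat_lit 242) (nat_lit 198)) (XT.nd (nat_lit 78) (nat_lit 0) (nat_lit 0) (XT.lf (nat_lit 0) (nat_lit 2402575087) (nat_lit 76) (nat_lit 28712420968) (nat_lit 76) (nat_lit 7377790242) (nat_lit 6) (nat_lit 4) (nat_lit 7) (nat_lit 5) (nat_lit 7) (nat_lit 4) (nat_lit 281) (nat_lit 242) (nat_lit 197)) (XT.lf (nat_lit 0) (nat_lit 11844612614) (nat_lit 76) (nat_lit 25335573815) (nat_lit 76) (nat_lit 3949833126) (nat_lit 6) (nat_lit 4) (nat_lit 7) (nat_lit 5) (nat_lit 7) (nat_lit 4) (nat_lit 282) (nat_lit 242) (nat_lit 196)))) (XT.nd (nat_lit 78) (nat_lit 76) (nat_lit 0) (XT.lf (nat_lit 0) (nat_lit 22003025455) (nat_lit 76) (nat_lit 21705067280) (nat_lit 76) (nat_lit 272002551) (nat_lit 6) (nat_lit 4) (nat_lit 7) (nat_lit 5) (nat_lit 7) (nat_lit 4) (nat_lit 283) (nat_lit 242) (nat_lit 195)) (XT.nd (nat_lit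 78) (nat_lit 0) (nat_lit 0) (XT.lf (nat_lit 0) (nat_lit 3493532788) (nat_lit 152) (nat_lit 14210335082) (nat_lit 76) (nat_lit 29348959448) (nat_lit 5) (nat_lit 5) (nat_lit 7) (nat_lit 5) (nat_lit 6) (nat_lit 4) (nat_lit 284) (nat_lit 242) (nat_lit 194)) (XT.lf (nat_lit 0) (nat_lit 7525773188) (nat_lit 152) (nat_lit 5863847787) (nat_lit 76) (nat_lit 36982829845) (nat_lit 5) (nat_lit 5) (nat_lit 7) (nat_lit 5) (nat_lit 6) (nat_lit 4) (nat_lit 285) (nat_lit 242) (nat_lit 193))))) (XT.nd (nat_lit 234) (nat_lit 0) (nat_lit 0) (XT.nd (nat_lit 78) (nat_lit 0) (nat_lit 0) (XT.lf (nat_lit 0) (nat_lit 3282603508) (nat_lit 76) (nat_lit 8658563259) (nat_lit 152) (nat_lit 42011678464) (nat_lit 4) (nat_lit 5) (nat_lit 5) (nat_lit 5) (nat_lit 6) (nat_lit 4) (nat_lit 286) (nat_lit 242) (nat_lit 192)) (XT.nd (nat_lit 78) (nat_lit 0) (nat_lit 0) (XT.lf (nat_lit 0) (nat_lit 13463098241) (nat_lit 76)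 (nat_lit 3389260504) (nat_lit 152) (nat_lit 40955950564) (nat_lit 4) (nat_lit 5) (nat_lit 5) (nat_lit 5) (nat_lit 6) (nat_lit 4) (nat_lit 287) (nat_lit 242) (nat_lit 191)) (XT.lf (nat_lit 0) (nat_lit 22195055590) (nat_lit 152) (nat_lit 37599435912) (nat_lit 0) (nat_lit 2174670501) (nat_lit 4) (nat_lit 5) (nat_lit 6) (nat_lit 4) (nat_lit 4) (nat_lit 4) (nat_lit 288) (nat_lit 242) (nat_lit 190)))) (XT.nd (nat_lit 78) (nat_lit 0) (nat_lit 0) (XT.lf (nat_lit 0) (nat_lit 28037697493) (nat_lit 152) (nat_lit 30429721057) (nat_lit 0) (nat_lit 7989699282) (nat_lit 4) (nat_lit 5) (nat_lit 6) (nat_lit 4) (nat_lit 4) (nat_lit 4) (nat_lit 289) (nat_lit 242) (nat_lit 189)) (XT.nd (nat_lit 78) (nat_lit 0) (nat_lit 0) (XT.lf (nat_lit 0) (nat_lit 34333395723) (nat_lit 152) (nat_lit 22712067508) (nat_lit 0) (nat_lit 14259829805) (nat_lit 4) (nat_lit 5) (nat_lit 6) (nat_lit 4) (nat_lit 4) (nat_lit 4)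 (nat_lit 290) (nat_lit 242) (nat_lit 188)) (XT.lf (nat_lit 0) (nat_lit 41119458120) (nat_lit 152) (nat_lit 14400741022) (nat_lit 0) (nat_lit 21022218400) (nat_lit 4) (nat_lit 5) (nat_lit 6) (nat_lit 4) (nat_lit 4) (nat_lit 4) (nat_lit 291) (nat_lit 242) (nat_lit 187))))))) (XT.nd (nat_lit 936) (nat_lit 152) (nat_lit 0) (XT.nd (nat_lit 468) (nat_lit 0) (nat_lit 0) (XT.nd (nat_lit 234) (nat_lit 0) (nat_lit 0) (XT.nd (nat_lit 78) (nat_lit 76) (nat_lit 0) (XT.lf (nat_lit 0) (nat_lit 48436098388) (nat_lit 152) (nat_lit 5446489294) (nat_lit 0) (nat_lit 28316938481) (nat_lit 4) (nat_lit 5) (nat_lit 6) (nat_lit 4) (nat_lit 4) (nat_lit 4) (nat_lit 292) (nat_lit 242) (nat_lit 186)) (XT.nd (nat_lit 78) (nat_lit 0) (nat_lit 0) (XT.lf (nat_lit 0) (nat_lit 4425111929) (nat_lit 76) (nat_lit 52007986513) (nat_lit 76) (nat_lit 31868530137) (nat_lit 3) (nat_lit 4) (nat_lit 4) (nat_lit 5) (nat_lit 4)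 (nat_lit 4) (nat_lit 293) (nat_lit 242) (nat_lit 185)) (XT.lf (nat_lit 0) (nat_lit 15376350516) (nat_lit 76) (nat_lit 49831396192) (nat_lit 76) (nat_lit 29673146788) (nat_lit 3) (nat_lit 4) (nat_lit 4) (nat_lit 5) (nat_lit 4) (nat_lit 4) (nat_lit 294) (nat_lit 242) (nat_lit 184)))) (XT.nd (nat_lit 78) (nat_lit 0) (nat_lit 0) (XT.lf (nat_lit 0) (nat_lit 27185320221) (nat_lit 76) (nat_lit 47488835073) (nat_lit 76) (nat_lit 27313184719) (nat_lit 3) (nat_lit 4) (nat_lit 4) (nat_lit 5) (nat_lit 4) (nat_lit 4) (nat_lit 295) (nat_lit 242) (nat_lit 183)) (XT.nd (nat_lit 78) (nat_lit 0) (nat_lit 0) (XT.lf (nat_lit 0) (nat_lit 39922000125) (nat_lit 76) (nat_lit 44966421315) (nat_lit 76) (nat_lit 24774658968) (nat_lit 3) (nat_lit 4) (nat_lit 4) (nat_lit 5) (nat_lit 4) (nat_lit 4) (nat_lit 296) (nat_lit 242) (nat_lit 182)) (XT.lf (nat_lit 0) (nat_lit 53661866848) (nat_lit 76) (nat_lit 42249207279)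 (nat_lit 76) (nat_lit 22042526421) (nat_lit 3) (nat_lit 4) (nat_lit 4) (nat_lit 5) (nat_lit 4) (nat_lit 4) (nat_lit 297) (nat_lit 242) (nat_lit 181))))) (XT.nd (nat_lit 234) (nat_lit 0) (nat_lit 0) (XT.nd (nat_lit 78) (nat_lit 0) (nat_lit 0) (XT.lf (nat_lit 0) (nat_lit 68486341823) (nat_lit 76) (nat_lit 39321090956) (nat_lit 76) (nat_lit 19100596662) (nat_lit 3) (nat_lit 4) (nat_lit 4) (nat_lit 5) (nat_lit 4) (nat_lit 4) (nat_lit 298) (nat_lit 242) (nat_lit 180)) (XT.nd (nat_lit 78) (nat_lit 0) (nat_lit 0) (XT.lf (nat_lit 0) (nat_lit 84483273790) (nat_lit 76) (nat_lit 36164720546) (nat_lit 76) (nat_lit 15931436034) (nat_lit 3) (nat_lit 4) (nat_lit 4) (nat_lit 5) (nat_lit 4) (nat_lit 4) (nat_lit 299) (nat_lit 242) (nat_lit 179)) (XT.lf (nat_lit 0) (nat_lit 101747459384) (nat_lit 76) (nat_lit 32761391632) (nat_lit 76) (nat_lit 12516264325) (nat_lit 3) (nat_lit 4) (nat_lit 4) (nat_lit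 5) (nat_lit 4) (nat_lit 4) (nat_lit 300) (nat_lit 242) (nat_lit 178)))) (XT.nd (nat_lit 78) (nat_lit 0) (nat_lit 0) (XT.lf (nat_lit 0) (nat_lit 120381204890) (nat_lit 76) (nat_lit 29090936339) (nat_lit 76) (nat_lit 8834843481) (nat_lit 3) (nat_lit 4) (nat_lit 4) (nat_lit 5) (nat_lit 4) (nat_lit 4) (nat_lit 301) (nat_lit 242) (nat_lit 177)) (XT.nd (nat_lit 78) (nat_lit 0) (nat_lit 0) (XT.lf (nat_lit 0) (nat_lit 140494932502) (nat_lit 76) (nat_lit 25131603820) (nat_lit 76) (nat_lit 4865357675) (nat_lit 3) (nat_lit 4) (nat_lit 4) (nat_lit 5) (nat_lit 4) (nat_lit 4) (nat_lit 302) (nat_lit 242) (nat_lit 176)) (XT.lf (nat_lit 0) (nat_lit 162207834682) (nat_lit 76) (nat_lit 20859931365) (nat_lit 76) (nat_lit 584284027) (nat_lit 3) (nat_lit 4) (nat_lit 4) (nat_lit 5) (nat_lit 4) (nat_lit 4) (nat_lit 303) (nat_lit 242) (nat_lit 175)))))) (XT.nd (nat_lit 468) (nat_lit 0) (nat_lit 0) (XT.nd (nat_lit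 234) (nat_lit 0) (nat_lit 0) (XT.nd (nat_lit 78) (nat_lit 76) (nat_lit 0) (XT.lf (nat_lit 0) (nat_lit 3831962436) (nat_lit 152) (nat_lit 12313870278) (nat_lit 76) (nat_lit 181711845399) (nat_lit 2) (nat_lit 5) (nat_lit 4) (nat_lit 5) (nat_lit 3) (nat_lit 4) (nat_lit 304) (nat_lit 242) (nat_lit 174)) (XT.nd (nat_lit 78) (nat_lit 76) (nat_lit 0) (XT.lf (nat_lit 0) (nat_lit 8565078995) (nat_lit 152) (nat_lit 2477047842) (nat_lit 76) (nat_lit 202156814582) (nat_lit 2) (nat_lit 5) (nat_lit 4) (nat_lit 5) (nat_lit 3) (nat_lit 4) (nat_lit 305) (nat_lit 242) (nat_lit 173)) (XT.lf (nat_lit 0) (nat_lit 8567160297) (nat_lit 76) (nat_lit 5311222116) (nat_lit 152) (nat_lit 215873009700) (nat_lit 1) (nat_lit 5) (nat_lit 2) (nat_lit 5) (nat_lit 3) (nat_lit 4) (nat_lit 306) (nat_lit 242) (nat_lit 172)))) (XT.nd (nat_lit 78) (nat_lit 0) (nat_lit 0) (XT.lf (nat_lit 0) (nat_lit 19702910414) (nat_lit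 152) (nat_lit 227017912809) (nat_lit 0) (nat_lit 900331451) (nat_lit 1) (nat_lit 5) (nat_lit 3) (nat_lit 4) (nat_lit 1) (nat_lit 4) (nat_lit 307) (nat_lit 242) (nat_lit 171)) (XT.nd (nat_lit 78) (nat_lit 0) (nat_lit 0) (XT.lf (nat_lit 0) (nat_lit 26127238404) (nat_lit 152) (nat_lit 233463825714) (nat_lit 0) (nat_lit 7318735095) (nat_lit 1) (nat_lit 5) (nat_lit 3) (nat_lit 4) (nat_lit 1) (nat_lit 4) (nat_lit 308) (nat_lit 242) (nat_lit 170)) (XT.lf (nat_lit 0) (nat_lit 33061701456) (nat_lit 152) (nat_lit 240432433516) (nat_lit 0) (nat_lit 14247712642) (nat_lit 1) (nat_lit 5) (nat_lit 3) (nat_lit 4) (nat_lit 1) (nat_lit 4) (nat_lit 309) (nat_lit 242) (nat_lit 169))))) (XT.nd (nat_lit 234) (nat_lit 0) (nat_lit 0) (XT.nd (nat_lit 78) (nat_lit 0) (nat_lit 0) (XT.lf (nat_lit 0) (nat_lit 40547392685) (nat_lit 152) (nat_lit 247965031668) (nat_lit 0) (nat_lit 21728324698) (nat_lit 1) (nat_lit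 5) (nat_lit 3) (nat_lit 4) (nat_lit 1) (nat_lit 4) (nat_lit 310) (nat_lit 242) (nat_lit 168)) (XT.nd (nat_lit 78) (nat_lit 0) (nat_lit 0) (XT.lf (nat_lit 0) (nat_lit 48628671741) (nat_lit 152) (nat_lit 256106257788) (nat_lit 0) (nat_lit 29804900818) (nat_lit 1) (nat_lit 5) (nat_lit 3) (nat_lit 4) (nat_lit 1) (nat_lit 4) (nat_lit 311) (nat_lit 242) (nat_lit 167)) (XT.lf (nat_lit 0) (nat_lit 57353427688) (nat_lit 152) (nat_lit 264904356179) (nat_lit 0) (nat_lit 38525302193) (nat_lit 1) (nat_lit 5) (nat_lit 3) (nat_lit 4) (nat_lit 1) (nat_lit 4) (nat_lit 312) (nat_lit 242) (nat_lit 166)))) (XT.nd (nat_lit 156) (nat_lit 0) (nat_lit 0) (XT.nd (nat_lit 78) (nat_lit 0) (nat_lit 0) (XT.lf (nat_lit 0) (nat_lit 66773362780) (nat_lit 152) (nat_lit 274411463721) (nat_lit 0) (nat_lit 47941205276) (nat_lit 1) (nat_lit 5) (nat_lit 3) (nat_lit 4) (nat_lit 1) (nat_lit 4) (nat_lit 313) (nat_lit 242)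 (nat_lit 165)) (XT.lf (nat_lit 0) (nat_lit 76944298857) (nat_lit 152) (nat_lit 284683918829) (nat_lit 0) (nat_lit 58108408010) (nat_lit 1) (nat_lit 5) (nat_lit 3) (nat_lit 4) (nat_lit 1) (nat_lit 4) (nat_lit 314) (nat_lit 242) (nat_lit 164))) (XT.nd (nat_lit 78) (nat_lit 0) (nat_lit 0) (XT.lf (nat_lit 0) (nat_lit 87926508132) (nat_lit 152) (nat_lit 295782595311) (nat_lit 0) (nat_lit 69087160486) (nat_lit 1) (nat_lit 5) (nat_lit 3) (nat_lit 4) (nat_lit 1) (nat_lit 4) (nat_lit 315) (nat_lit 242) (nat_lit 163)) (XT.lf (nat_lit 0) (nat_lit 99785070364) (nat_lit 152) (nat_lit 307773263101) (nat_lit 0) (nat_lit 80942521978) (nat_lit 1) (nat_lit 5) (nat_lit 3) (nat_lit 4) (nat_lit 1) (nat_lit 4) (nat_lit 316) (nat_lit 242) (nat_lit 162))))))))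
noncomputable def xc55 : XT := (XT.nd (nat_lit 32058) (nat_lit 0) (nat_lit 836) (XT.nd (nat_lit 936) (nat_lit 0) (nat_lit 0) (XT.nd (nat_lit 468) (nat_lit 0) (nat_lit 0) (XT.nd (nat_lit 234) (nat_lit 0) (nat_lit 0) (XT.nd (nat_lit 78) (nat_lit 0) (nat_lit 0) (XT.lf (nat_lit 0) (nat_lit 112590258514) (nat_lit 152) (nat_lit 320726978009) (nat_lit 0) (nat_lit 93744746480) (nat_lit 1) (nat_lit 5) (nat_lit 3) (nat_lit 4) (nat_lit 1) (nat_lit 4) (nat_lit 317) (nat_lit 242) (nat_lit 161)) (XT.nd (nat_lit 78) (nat_lit 0) (nat_lit 0) (XT.lf (nat_lit 0) (nat_lit 126417955178) (nat_lit 152) (nat_lit 334720502790) (nat_lit 0) (nat_lit 107569699026) (nat_lit 1) (nat_lit 5) (nat_lit 3) (nat_lit 4) (nat_lit 1) (nat_lit 4) (nat_lit 318) (nat_lit 242) (nat_lit 160)) (XT.lf (nat_lit 0) (nat_lit 141350102264) (nat_lit 152) (nat_lit 349836762034) (nat_lit 0) (nat_lit 122499305261) (nat_lit 1) (nat_lit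 5) (nat_lit 3) (nat_lit 4) (nat_lit 1) (nat_lit 4) (nat_lit 319) (nat_lit 242) (nat_lit 159)))) (XT.nd (nat_lit 78) (nat_lit 0) (nat_lit 0) (XT.lf (nat_lit 0) (nat_lit 157475186567) (nat_lit 152) (nat_lit 366165333576) (nat_lit 0) (nat_lit 138622036925) (nat_lit 1) (nat_lit 5) (nat_lit 3) (nat_lit 4) (nat_lit 1) (nat_lit 4) (nat_lit 320) (nat_lit 242) (nat_lit 158)) (XT.nd (nat_lit 78) (nat_lit 0) (nat_lit 0) (XT.lf (nat_lit 0) (nat_lit 174888764144) (nat_lit 152) (nat_lit 383802979319) (nat_lit 0) (nat_lit 156033436132) (nat_lit 1) (nat_lit 5) (nat_lit 3) (nat_lit 4) (nat_lit 1) (nat_lit 4) (nat_lit 321) (nat_lit 242) (nat_lit 157)) (XT.lf (nat_lit 0) (nat_lit 193694026565) (nat_lit 152) (nat_lit 402854218646) (nat_lit 0) (nat_lit 174836681544) (nat_lit 1) (nat_lit 5) (nat_lit 3) (nat_lit 4) (nat_lit 1) (nat_lit 4) (nat_lit 322) (nat_lit 242) (nat_lit 156))))) (XT.nd (nat_lit 234)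 (nat_lit 0) (nat_lit 0) (XT.nd (nat_lit 78) (nat_lit 0) (nat_lit 0) (XT.lf (nat_lit 0) (nat_lit 214002412422) (nat_lit 152) (nat_lit 423431947791) (nat_lit 0) (nat_lit 195143199800) (nat_lit 1) (nat_lit 5) (nat_lit 3) (nat_lit 4) (nat_lit 1) (nat_lit 4) (nat_lit 323) (nat_lit 242) (nat_lit 155)) (XT.nd (nat_lit 78) (nat_lit 0) (nat_lit 0) (XT.lf (nat_lit 0) (nat_lit 235934267706) (nat_lit 152) (nat_lit 445658108851) (nat_lit 0) (nat_lit 217073325824) (nat_lit 1) (nat_lit 5) (nat_lit 3) (nat_lit 4) (nat_lit 1) (nat_lit 4) (nat_lit 324) (nat_lit 242) (nat_lit 154)) (XT.lf (nat_lit 0) (nat_lit 259619558966) (nat_lit 152) (nat_lit 469664412411) (nat_lit 0) (nat_lit 240757015917) (nat_lit 1) (nat_lit 5) (nat_lit 3) (nat_lit 4) (nat_lit 1) (nat_lit 4) (nat_lit 325) (nat_lit 242) (nat_lit 153)))) (XT.nd (nat_lit 78) (nat_lit 0) (nat_lit 0) (XT.lf (nat_lit 0) (nat_lit 285198643484) (nat_lit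 152) (nat_lit 495593118048) (nat_lit 0) (nat_lit 266334617874) (nat_lit 1) (nat_lit 5) (nat_lit 3) (nat_lit 4) (nat_lit 1) (nat_lit 4) (nat_lit 326) (nat_lit 242) (nat_lit 152)) (XT.nd (nat_lit 78) (nat_lit 0) (nat_lit 0) (XT.lf (nat_lit 0) (nat_lit 312823101021) (nat_lit 152) (nat_lit 523597877351) (nat_lit 0) (nat_lit 293957702668) (nat_lit 1) (nat_lit 5) (nat_lit 3) (nat_lit 4) (nat_lit 1) (nat_lit 4) (nat_lit 327) (nat_lit 242) (nat_lit 151)) (XT.lf (nat_lit 0) (nat_lit 342656632064) (nat_lit 152) (nat_lit 553844644448) (nat_lit 0) (nat_lit 323789962653) (nat_lit 1) (nat_lit 5) (nat_lit 3) (nat_lit 4) (nat_lit 1) (nat_lit 4) (nat_lit 328) (nat_lit 242) (nat_lit 150)))))) (XT.nd (nat_lit 468) (nat_lit 0) (nat_lit 0) (XT.nd (nat_lit 234) (nat_lit 0) (nat_lit 0) (XT.nd (nat_lit 78) (nat_lit 0) (nat_lit 0) (XT.lf (nat_lit 0) (nat_lit 374876027910) (nat_lit 152) (nat_lit 586512659441)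 (nat_lit 0) (nat_lit 356008181594) (nat_lit 1) (nat_lit 5) (nat_lit 3) (nat_lit 4) (nat_lit 1) (nat_lit 4) (nat_lit 329) (nat_lit 242) (nat_lit 149)) (XT.nd (nat_lit 78) (nat_lit 0) (nat_lit 0) (XT.lf (nat_lit 0) (nat_lit 409672218311) (nat_lit 152) (nat_lit 621795510567) (nat_lit 0) (nat_lit 390803282268) (nat_lit 1) (nat_lit 5) (nat_lit 3) (nat_lit 4) (nat_lit 1) (nat_lit 4) (nat_lit 330) (nat_lit 242) (nat_lit 148)) (XT.lf (nat_lit 0) (nat_lit 447251402914) (nat_lit 152) (nat_lit 659902281388) (nat_lit 0) (nat_lit 428381457864) (nat_lit 1) (nat_lit 5) (nat_lit 3) (nat_lit 4) (nat_lit 1) (nat_lit 4) (nat_lit 331) (nat_lit 242) (nat_lit 147)))) (XT.nd (nat_lit 78) (nat_lit 0) (nat_lit 0) (XT.lf (nat_lit 0) (nat_lit 487836273184) (nat_lit 152) (nat_lit 701058789806) (nat_lit 0) (nat_lit 468965393869) (nat_lit 1) (nat_lit 5) (nat_lit 3) (nat_lit 4) (nat_lit 1) (nat_lit 4) (nat_lit 332)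 (nat_lit 242) (nat_lit 146)) (XT.nd (nat_lit 78) (nat_lit 0) (nat_lit 0) (XT.lf (nat_lit 0) (nat_lit 531667332055) (nat_lit 152) (nat_lit 745508926241) (nat_lit 0) (nat_lit 512795587679) (nat_lit 1) (nat_lit 5) (nat_lit 3) (nat_lit 4) (nat_lit 1) (nat_lit 4) (nat_lit 333) (nat_lit 242) (nat_lit 145)) (XT.lf (nat_lit 0) (nat_lit 579004319136) (nat_lit 152) (nat_lit 793516098908) (nat_lit 0) (nat_lit 560131773778) (nat_lit 1) (nat_lit 5) (nat_lit 3) (nat_lit 4) (nat_lit 1) (nat_lit 4) (nat_lit 334) (nat_lit 242) (nat_lit 144))))) (XT.nd (nat_lit 30420) (nat_lit 0) (nat_lit 3648) (XT.nd (nat_lit 78) (nat_lit 0) (nat_lit 0) (XT.lf (nat_lit 0) (nat_lit 630127749906) (nat_lit 152) (nat_lit 845364794757) (nat_lit 0) (nat_lit 611254462898) (nat_lit 1) (nat_lit 5) (nat_lit 3) (nat_lit 4) (nat_lit 1) (nat_lit 4) (nat_lit 335) (nat_lit 242) (nat_lit 143)) (XT.nd (nat_lit 30264) (nat_lit 0) (nat_lit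 3648) (XT.lf (nat_lit 0) (nat_lit 685340578028) (nat_lit 152) (nat_lit 901362265318) (nat_lit 0) (nat_lit 666466604307) (nat_lit 1) (nat_lit 5) (nat_lit 3) (nat_lit 4) (nat_lit 1) (nat_lit 4) (nat_lit 336) (nat_lit 242) (nat_lit 142)) (XT.lf (nat_lit 0) (nat_lit 285660156) (nat_lit 0) (nat_lit 285660156) (nat_lit 228) (nat_lit 2785399364) (nat_lit 49) (nat_lit 5) (nat_lit 49) (nat_lit 3) (nat_lit 52) (nat_lit 3) (nat_lit 243) (nat_lit 243) (nat_lit 234)))) (XT.nd (nat_lit 78) (nat_lit 0) (nat_lit 0) (XT.lf (nat_lit 0) (nat_lit 3094207891) (nat_lit 228) (nat_lit 3230296980) (nat_lit 304) (nat_lit 487532811) (nat_lit 49) (nat_lit 5) (nat_lit 52) (nat_lit 3) (nat_lit 53) (nat_lit 5) (nat_lit 244) (nat_lit 243) (nat_lit 233)) (XT.nd (nat_lit 78) (nat_lit 0) (nat_lit 0) (XT.lf (nat_lit 0) (nat_lit 5029575099) (nat_lit 228) (nat_lit 214271498) (nat_lit 304) (nat_lit 1690211188) (nat_lit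 49) (nat_lit 5) (nat_lit 52) (nat_lit 3) (nat_lit 53) (nat_lit 5) (nat_lit 245) (nat_lit 243) (nat_lit 232)) (XT.lf (nat_lit 76) (nat_lit 3092257667) (nat_lit 0) (nat_lit 3928582028) (nat_lit 304) (nat_lit 54532760) (nat_lit 50) (nat_lit 5) (nat_lit 49) (nat_lit 5) (nat_lit 53) (nat_lit 5) (nat_lit 246) (nat_lit 243) (nat_lit 231))))))) (XT.nd (nat_lit 936) (nat_lit 912) (nat_lit 0) (XT.nd (nat_lit 468) (nat_lit 912) (nat_lit 0) (XT.nd (nat_lit 234) (nat_lit 684) (nat_lit 0) (XT.nd (nat_lit 78) (nat_lit 0) (nat_lit 0) (XT.lf (nat_lit 0) (nat_lit 1683614841) (nat_lit 304) (nat_lit 711980787) (nat_lit 380) (nat_lit 4843051529) (nat_lit 45) (nat_lit 5) (nat_lit 49) (nat_lit 5) (nat_lit 50) (nat_lit 5) (nat_lit 247) (nat_lit 243) (nat_lit 230)) (XT.nd (nat_lit 78) (nat_lit 0) (nat_lit 76) (XT.lf (nat_lit 76) (nat_lit 2857695007) (nat_lit 0) (nat_lit 612797307) (nat_lit 380) (nat_lit 3952653005)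 (nat_lit 46) (nat_lit 5) (nat_lit 45) (nat_lit 5) (nat_lit 50) (nat_lit 5) (nat_lit 248) (nat_lit 243) (nat_lit 229)) (XT.lf (nat_lit 0) (nat_lit 5305948215) (nat_lit 304) (nat_lit 1015550482) (nat_lit 76) (nat_lit 1309643952) (nat_lit 46) (nat_lit 5) (nat_lit 50) (nat_lit 5) (nat_lit 47) (nat_lit 5) (nat_lit 249) (nat_lit 243) (nat_lit 228)))) (XT.nd (nat_lit 78) (nat_lit 456) (nat_lit 0) (XT.lf (nat_lit 0) (nat_lit 2836867565) (nat_lit 304) (nat_lit 4400412048) (nat_lit 380) (nat_lit 623678484) (nat_lit 42) (nat_lit 5) (nat_lit 46) (nat_lit 5) (nat_lit 47) (nat_lit 5) (nat_lit 250) (nat_lit 243) (nat_lit 227)) (XT.nd (nat_lit 78) (nat_lit 380) (nat_lit 0) (XT.lf (nat_lit 0) (nat_lit 1049820265) (nat_lit 380) (nat_lit 1194257822) (nat_lit 76) (nat_lit 5871962264) (nat_lit 41) (nat_lit 5) (nat_lit 46) (nat_lit 5) (nat_lit 42) (nat_lit 5) (nat_lit 251) (nat_lit 243) (nat_lit 226)) (XT.lf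 (nat_lit 0) (nat_lit 2777548017) (nat_lit 456) (nat_lit 5429865778) (nat_lit 76) (nat_lit 187370291) (nat_lit 36) (nat_lit 5) (nat_lit 42) (nat_lit 5) (nat_lit 37) (nat_lit 5) (nat_lit 252) (nat_lit 243) (nat_lit 225))))) (XT.nd (nat_lit 234) (nat_lit 456) (nat_lit 0) (XT.nd (nat_lit 78) (nat_lit 456) (nat_lit 0) (XT.lf (nat_lit 0) (nat_lit 4620089296) (nat_lit 456) (nat_lit 1339643219) (nat_lit 76) (nat_lit 2738776783) (nat_lit 36) (nat_lit 5) (nat_lit 42) (nat_lit 5) (nat_lit 37) (nat_lit 5) (nat_lit 253) (nat_lit 243) (nat_lit 224)) (XT.nd (nat_lit 78) (nat_lit 0) (nat_lit 0) (XT.lf (nat_lit 0) (nat_lit 3130665620) (nat_lit 456) (nat_lit 3448000013) (nat_lit 532) (nat_lit 2451125985) (nat_lit 30) (nat_lit 5) (nat_lit 36) (nat_lit 5) (nat_lit 37) (nat_lit 5) (nat_lit 254) (nat_lit 243) (nat_lit 223)) (XT.lf (nat_lit 0) (nat_lit 7933672100) (nat_lit 456) (nat_lit 695692385) (nat_lit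 532) (nat_lit 764071230) (nat_lit 30) (nat_lit 5) (nat_lit 36) (nat_lit 5) (nat_lit 37) (nat_lit 5) (nat_lit 255) (nat_lit 243) (nat_lit 222)))) (XT.nd (nat_lit 78) (nat_lit 152) (nat_lit 0) (XT.lf (nat_lit 0) (nat_lit 1047017216) (nat_lit 304) (nat_lit 6464412388) (nat_lit 76) (nat_lit 2269941954) (nat_lit 26) (nat_lit 5) (nat_lit 30) (nat_lit 5) (nat_lit 27) (nat_lit 5) (nat_lit 256) (nat_lit 243) (nat_lit 221)) (XT.nd (nat_lit 78) (nat_lit 152) (nat_lit 0) (XT.lf (nat_lit 0) (nat_lit 2928712039) (nat_lit 304) (nat_lit 1781848351) (nat_lit 76) (nat_lit 5491385278) (nat_lit 26) (nat_lit 5) (nat_lit 30) (nat_lit 5) (nat_lit 27) (nat_lit 5) (nat_lit 257) (nat_lit 243) (nat_lit 220)) (XT.lf (nat_lit 0) (nat_lit 3345856810) (nat_lit 152) (nat_lit 1610349729) (nat_lit 228) (nat_lit 5700848229) (nat_lit 24) (nat_lit 5) (nat_lit 26) (nat_lit 5) (nat_lit 27) (nat_lit 5) (nat_lit 258) (nat_lit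 243) (nat_lit 219)))))) (XT.nd (nat_lit 468) (nat_lit 304) (nat_lit 0) (XT.nd (nat_lit 234) (nat_lit 380) (nat_lit 0) (XT.nd (nat_lit 78) (nat_lit 228) (nat_lit 0) (XT.lf (nat_lit 0) (nat_lit 7156200472) (nat_lit 228) (nat_lit 2303655931) (nat_lit 76) (nat_lit 1688364599) (nat_lit 24) (nat_lit 5) (nat_lit 27) (nat_lit 5) (nat_lit 25) (nat_lit 5) (nat_lit 259) (nat_lit 243) (nat_lit 218)) (XT.nd (nat_lit 78) (nat_lit 0) (nat_lit 0) (XT.lf (nat_lit 0) (nat_lit 3125461258) (nat_lit 228) (nat_lit 6448282484) (nat_lit 304) (nat_lit 2102050209) (nat_lit 21) (nat_lit 5) (nat_lit 24) (nat_lit 5) (nat_lit 25) (nat_lit 5) (nat_lit 260) (nat_lit 243) (nat_lit 217)) (XT.lf (nat_lit 0) (nat_lit 9028737947) (nat_lit 228) (nat_lit 3146889311) (nat_lit 304) (nat_lit 71075539) (nat_lit 21) (nat_lit 5) (nat_lit 24) (nat_lit 5) (nat_lit 25) (nat_lit 5) (nat_lit 261) (nat_lit 243) (nat_lit 216)))) (XT.nd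 (nat_lit 78) (nat_lit 152) (nat_lit 0) (XT.lf (nat_lit 0) (nat_lit 2020706118) (nat_lit 228) (nat_lit 10344675927) (nat_lit 76) (nat_lit 493806159) (nat_lit 18) (nat_lit 5) (nat_lit 21) (nat_lit 5) (nat_lit 19) (nat_lit 5) (nat_lit 262) (nat_lit 243) (nat_lit 215)) (XT.nd (nat_lit 78) (nat_lit 152) (nat_lit 0) (XT.lf (nat_lit 0) (nat_lit 4381730731) (nat_lit 228) (nat_lit 4802158850) (nat_lit 76) (nat_lit 4328497450) (nat_lit 18) (nat_lit 5) (nat_lit 21) (nat_lit 5) (nat_lit 19) (nat_lit 5) (nat_lit 263) (nat_lit 243) (nat_lit 214)) (XT.lf (nat_lit 0) (nat_lit 1157152003) (nat_lit 152) (nat_lit 5740956306) (nat_lit 228) (nat_lit 7322713465) (nat_lit 16) (nat_lit 5) (nat_lit 18) (nat_lit 5) (nat_lit 19) (nat_lit 5) (nat_lit 264) (nat_lit 243) (nat_lit 213))))) (XT.nd (nat_lit 234) (nat_lit 228) (nat_lit 0) (XT.nd (nat_lit 78) (nat_lit 76) (nat_lit 0) (XT.lf (nat_lit 0) (nat_lit 7783956800)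 (nat_lit 152) (nat_lit 1904344752) (nat_lit 228) (nat_lit 5292104946) (nat_lit 16) (nat_lit 5) (nat_lit 18) (nat_lit 5) (nat_lit 19) (nat_lit 5) (nat_lit 265) (nat_lit 243) (nat_lit 212)) (XT.nd (nat_lit 78) (nat_lit 76) (nat_lit 0) (XT.lf (nat_lit 0) (nat_lit 12700599363) (nat_lit 228) (nat_lit 994044086) (nat_lit 76) (nat_lit 2106458643) (nat_lit 16) (nat_lit 5) (nat_lit 19) (nat_lit 5) (nat_lit 17) (nat_lit 4) (nat_lit 266) (nat_lit 243) (nat_lit 211)) (XT.lf (nat_lit 0) (nat_lit 5874572070) (nat_lit 76) (nat_lit 10219163803) (nat_lit 152) (nat_lit 582765385) (nat_lit 15) (nat_lit 5) (nat_lit 16) (nat_lit 5) (nat_lit 17) (nat_lit 4) (nat_lit 267) (nat_lit 243) (nat_lit 210)))) (XT.nd (nat_lit 156) (nat_lit 0) (nat_lit 0) (XT.nd (nat_lit 78) (nat_lit 152) (nat_lit 0) (XT.lf (nat_lit 0) (nat_lit 2007061597) (nat_lit 152) (nat_lit 4397993191) (nat_lit 76) (nat_lit 11214766426) (nat_lit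 14) (nat_lit 5) (nat_lit 16) (nat_lit 5) (nat_lit 15) (nat_lit 5) (nat_lit 268) (nat_lit 243) (nat_lit 209)) (XT.lf (nat_lit 0) (nat_lit 2561480013) (nat_lit 152) (nat_lit 2226099752) (nat_lit 228) (nat_lit 13848804494) (nat_lit 12) (nat_lit 5) (nat_lit 14) (nat_lit 5) (nat_lit 15) (nat_lit 5) (nat_lit 269) (nat_lit 243) (nat_lit 208))) (XT.nd (nat_lit 78) (nat_lit 0) (nat_lit 0) (XT.lf (nat_lit 0) (nat_lit 7923563019) (nat_lit 228) (nat_lit 9526162669) (nat_lit 76) (nat_lit 2274078469) (nat_lit 12) (nat_lit 5) (nat_lit 15) (nat_lit 5) (nat_lit 13) (nat_lit 4) (nat_lit 270) (nat_lit 243) (nat_lit 207)) (XT.lf (nat_lit 0) (nat_lit 11326250170) (nat_lit 228) (nat_lit 2577276977) (nat_lit 76) (nat_lit 6993585314) (nat_lit 12) (nat_lit 5) (nat_lit 15) (nat_lit 5) (nat_lit 13) (nat_lit 4) (nat_lit 271) (nat_lit 243) (nat_lit 206))))))))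
noncomputable def xc56 : XT := (XT.nd (nat_lit 1872) (nat_lit 152) (nat_lit 0) (XT.nd (nat_lit 936) (nat_lit 228) (nat_lit 0) (XT.nd (nat_lit 468) (nat_lit 152) (nat_lit 0) (XT.nd (nat_lit 234) (nat_lit 228) (nat_lit 0) (XT.nd (nat_lit 78) (nat_lit 0) (nat_lit 0) (XT.lf (nat_lit 0) (nat_lit 5122728804) (nat_lit 76) (nat_lit 9962740483) (nat_lit 152) (nat_lit 7072219701) (nat_lit 11) (nat_lit 5) (nat_lit 12) (nat_lit 5) (nat_lit 13) (nat_lit 4) (nat_lit 272) (nat_lit 243) (nat_lit 205)) (XT.nd (nat_lit 78) (nat_lit 0) (nat_lit 0) (XT.lf (nat_lit 0) (nat_lit 13525802247) (nat_lit 76) (nat_lit 5652655510) (nat_lit 152) (nat_lit 4338149220) (nat_lit 11) (nat_lit 5) (nat_lit 12) (nat_lit 5) (nat_lit 13) (nat_lit 4) (nat_lit 273) (nat_lit 243) (nat_lit 204)) (XT.lf (nat_lit 0) (nat_lit 22546024504) (nat_lit 76) (nat_lit 1018198306) (nat_lit 152) (nat_lit 1422916272) (nat_lit 11) (nat_lit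 5) (nat_lit 12) (nat_lit 5) (nat_lit 13) (nat_lit 4) (nat_lit 274) (nat_lit 243) (nat_lit 203)))) (XT.nd (nat_lit 78) (nat_lit 0) (nat_lit 0) (XT.lf (nat_lit 0) (nat_lit 1848592072) (nat_lit 228) (nat_lit 20749521003) (nat_lit 76) (nat_lit 3957240202) (nat_lit 8) (nat_lit 5) (nat_lit 11) (nat_lit 5) (nat_lit 9) (nat_lit 4) (nat_lit 275) (nat_lit 243) (nat_lit 202)) (XT.nd (nat_lit 78) (nat_lit 0) (nat_lit 0) (XT.lf (nat_lit 0) (nat_lit 5367565139) (nat_lit 228) (nat_lit 13511162111) (nat_lit 76) (nat_lit 9362432522) (nat_lit 8) (nat_lit 5) (nat_lit 11) (nat_lit 5) (nat_lit 9) (nat_lit 4) (nat_lit 276) (nat_lit 243) (nat_lit 201)) (XT.lf (nat_lit 0) (nat_lit 9138142870) (nat_lit 228) (nat_lit 5743457735) (nat_lit 76) (nat_lit 15182717080) (nat_lit 8) (nat_lit 5) (nat_lit 11) (nat_lit 5) (nat_lit 9) (nat_lit 4) (nat_lit 277) (nat_lit 243) (nat_lit 200))))) (XT.nd (nat_lit 234) (nat_lit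 76) (nat_lit 0) (XT.nd (nat_lit 78) (nat_lit 0) (nat_lit 0) (XT.lf (nat_lit 0) (nat_lit 2736514502) (nat_lit 76) (nat_lit 10511968164) (nat_lit 152) (nat_lit 18781883189) (nat_lit 7) (nat_lit 5) (nat_lit 8) (nat_lit 5) (nat_lit 9) (nat_lit 4) (nat_lit 278) (nat_lit 243) (nat_lit 199)) (XT.nd (nat_lit 78) (nat_lit 0) (nat_lit 0) (XT.lf (nat_lit 0) (nat_lit 12176645595) (nat_lit 76) (nat_lit 5641315401) (nat_lit 152) (nat_lit 16325392432) (nat_lit 7) (nat_lit 5) (nat_lit 8) (nat_lit 5) (nat_lit 9) (nat_lit 4) (nat_lit 279) (nat_lit 243) (nat_lit 198)) (XT.lf (nat_lit 0) (nat_lit 22330436755) (nat_lit 76) (nat_lit 397815502) (nat_lit 152) (nat_lit 13699181875) (nat_lit 7) (nat_lit 5) (nat_lit 8) (nat_lit 5) (nat_lit 9) (nat_lit 4) (nat_lit 280) (nat_lit 243) (nat_lit 197)))) (XT.nd (nat_lit 78) (nat_lit 76) (nat_lit 0) (XT.lf (nat_lit 0) (nat_lit 28134707573) (nat_lit 152) (nat_lit 5764337767)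 (nat_lit 0) (nat_lit 4986997666) (nat_lit 7) (nat_lit 5) (nat_lit 9) (nat_lit 4) (nat_lit 7) (nat_lit 4) (nat_lit 281) (nat_lit 243) (nat_lit 196)) (XT.nd (nat_lit 78) (nat_lit 0) (nat_lit 0) (XT.lf (nat_lit 0) (nat_lit 3355415866) (nat_lit 76) (nat_lit 30687732508) (nat_lit 76) (nat_lit 7492698562) (nat_lit 6) (nat_lit 4) (nat_lit 7) (nat_lit 5) (nat_lit 7) (nat_lit 4) (nat_lit 282) (nat_lit 243) (nat_lit 195)) (XT.lf (nat_lit 0) (nat_lit 13496473078) (nat_lit 76) (nat_lit 27064565890) (nat_lit 76) (nat_lit 3825713388) (nat_lit 6) (nat_lit 4) (nat_lit 7) (nat_lit 5) (nat_lit 7) (nat_lit 4) (nat_lit 283) (nat_lit 243) (nat_lit 194)))))) (XT.nd (nat_lit 468) (nat_lit 76) (nat_lit 0) (XT.nd (nat_lit 234) (nat_lit 76) (nat_lit 0) (XT.nd (nat_lit 78) (nat_lit 0) (nat_lit 0) (XT.lf (nat_lit 0) (nat_lit 108053265) (nat_lit 152) (nat_lit 23054674445) (nat_lit 76) (nat_lit 24304381576) (nat_lit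 5) (nat_lit 5) (nat_lit 7) (nat_lit 5) (nat_lit 6) (nat_lit 4) (nat_lit 284) (nat_lit 243) (nat_lit 193)) (XT.nd (nat_lit 78) (nat_lit 0) (nat_lit 0) (XT.lf (nat_lit 0) (nat_lit 4131460614) (nat_lit 152) (nat_lit 14723554507) (nat_lit 76) (nat_lit 31932446880) (nat_lit 5) (nat_lit 5) (nat_lit 7) (nat_lit 5) (nat_lit 6) (nat_lit 4) (nat_lit 285) (nat_lit 243) (nat_lit 192)) (XT.lf (nat_lit 0) (nat_lit 8459728749) (nat_lit 152) (nat_lit 5755541368) (nat_lit 76) (nat_lit 40159577229) (nat_lit 5) (nat_lit 5) (nat_lit 7) (nat_lit 5) (nat_lit 6) (nat_lit 4) (nat_lit 286) (nat_lit 243) (nat_lit 191)))) (XT.nd (nat_lit 78) (nat_lit 0) (nat_lit 0) (XT.lf (nat_lit 0) (nat_lit 4108007949) (nat_lit 76) (nat_lit 9109296408) (nat_lit 152) (nat_lit 45025315728) (nat_lit 4) (nat_lit 5) (nat_lit 5) (nat_lit 5) (nat_lit 6) (nat_lit 4) (nat_lit 287) (nat_lit 243) (nat_lit 190)) (XT.nd (nat_lit 78) (nat_lit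 0) (nat_lit 0) (XT.lf (nat_lit 0) (nat_lit 15061253657) (nat_lit 76) (nat_lit 3436371796) (nat_lit 152) (nat_lit 43910855301) (nat_lit 4) (nat_lit 5) (nat_lit 5) (nat_lit 5) (nat_lit 6) (nat_lit 4) (nat_lit 288) (nat_lit 243) (nat_lit 189)) (XT.lf (nat_lit 0) (nat_lit 24250721078) (nat_lit 152) (nat_lit 40107193617) (nat_lit 0) (nat_lit 2545702180) (nat_lit 4) (nat_lit 5) (nat_lit 6) (nat_lit 4) (nat_lit 4) (nat_lit 4) (nat_lit 289) (nat_lit 243) (nat_lit 188))))) (XT.nd (nat_lit 234) (nat_lit 76) (nat_lit 0) (XT.nd (nat_lit 78) (nat_lit 0) (nat_lit 0) (XT.lf (nat_lit 0) (nat_lit 30540029071) (nat_lit 152) (nat_lit 32400953216) (nat_lit 0) (nat_lit 8811336372) (nat_lit 4) (nat_lit 5) (nat_lit 6) (nat_lit 4) (nat_lit 4) (nat_lit 4) (nat_lit 290) (nat_lit 243) (nat_lit 187)) (XT.nd (nat_lit 78) (nat_lit 0) (nat_lit 0) (XT.lf (nat_lit 0) (nat_lit 37320174583) (nat_lit 152) (nat_lit 24100194459)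 (nat_lit 0) (nat_lit 15569561697) (nat_lit 4) (nat_lit 5) (nat_lit 6) (nat_lit 4) (nat_lit 4) (nat_lit 4) (nat_lit 291) (nat_lit 243) (nat_lit 186)) (XT.lf (nat_lit 0) (nat_lit 44631336253) (nat_lit 152) (nat_lit 15155727665) (nat_lit 0) (nat_lit 22860426898) (nat_lit 4) (nat_lit 5) (nat_lit 6) (nat_lit 4) (nat_lit 4) (nat_lit 4) (nat_lit 292) (nat_lit 243) (nat_lit 185)))) (XT.nd (nat_lit 78) (nat_lit 76) (nat_lit 0) (XT.lf (nat_lit 0) (nat_lit 52516839484) (nat_lit 152) (nat_lit 5514548587) (nat_lit 0) (nat_lit 30727137101) (nat_lit 4) (nat_lit 5) (nat_lit 6) (nat_lit 4) (nat_lit 4) (nat_lit 4) (nat_lit 293) (nat_lit 243) (nat_lit 184)) (XT.nd (nat_lit 78) (nat_lit 0) (nat_lit 0) (XT.lf (nat_lit 0) (nat_lit 5137472889) (nat_lit 76) (nat_lit 56009496641) (nat_lit 76) (nat_lit 34202393307) (nat_lit 3) (nat_lit 4) (nat_lit 4) (nat_lit 5) (nat_lit 4) (nat_lit 4) (nat_lit 294) (nat_lit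 243) (nat_lit 183)) (XT.lf (nat_lit 0) (nat_lit 16938265970) (nat_lit 76) (nat_lit 53670566412) (nat_lit 76) (nat_lit 31847351086) (nat_lit 3) (nat_lit 4) (nat_lit 4) (nat_lit 5) (nat_lit 4) (nat_lit 4) (nat_lit 295) (nat_lit 243) (nat_lit 182))))))) (XT.nd (nat_lit 936) (nat_lit 0) (nat_lit 0) (XT.nd (nat_lit 468) (nat_lit 152) (nat_lit 0) (XT.nd (nat_lit 234) (nat_lit 0) (nat_lit 0) (XT.nd (nat_lit 78) (nat_lit 0) (nat_lit 0) (XT.lf (nat_lit 0) (nat_lit 29667374925) (nat_lit 76) (nat_lit 51151514587) (nat_lit 76) (nat_lit 29313380751) (nat_lit 3) (nat_lit 4) (nat_lit 4) (nat_lit 5) (nat_lit 4) (nat_lit 4) (nat_lit 296) (nat_lit 243) (nat_lit 181)) (XT.nd (nat_lit 78) (nat_lit 0) (nat_lit 0) (XT.lf (nat_lit 0) (nat_lit 43400231511) (nat_lit 76) (nat_lit 48437413453) (nat_lit 76) (nat_lit 26585466180) (nat_lit 3) (nat_lit 4) (nat_lit 4) (nat_lit 5) (nat_lit 4) (nat_lit 4) (nat_lit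 297) (nat_lit 243) (nat_lit 180)) (XT.lf (nat_lit 0) (nat_lit 58218215618) (nat_lit 76) (nat_lit 45512179447) (nat_lit 76) (nat_lit 23647441956) (nat_lit 3) (nat_lit 4) (nat_lit 4) (nat_lit 5) (nat_lit 4) (nat_lit 4) (nat_lit 298) (nat_lit 243) (nat_lit 179)))) (XT.nd (nat_lit 78) (nat_lit 0) (nat_lit 0) (XT.lf (nat_lit 0) (nat_lit 74209137522) (nat_lit 76) (nat_lit 42358477849) (nat_lit 76) (nat_lit 20481897563) (nat_lit 3) (nat_lit 4) (nat_lit 4) (nat_lit 5) (nat_lit 4) (nat_lit 4) (nat_lit 299) (nat_lit 243) (nat_lit 178)) (XT.nd (nat_lit 78) (nat_lit 0) (nat_lit 0) (XT.lf (nat_lit 0) (nat_lit 91467758243) (nat_lit 76) (nat_lit 38957620058) (nat_lit 76) (nat_lit 17070074220) (nat_lit 3) (nat_lit 4) (nat_lit 4) (nat_lit 5) (nat_lit 4) (nat_lit 4) (nat_lit 300) (nat_lit 243) (nat_lit 177)) (XT.lf (nat_lit 0) (nat_lit 110096351089) (nat_lit 76) (nat_lit 35289452840) (nat_lit 76) (nat_lit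 13391753715) (nat_lit 3) (nat_lit 4) (nat_lit 4) (nat_lit 5) (nat_lit 4) (nat_lit 4) (nat_lit 301) (nat_lit 243) (nat_lit 176))))) (XT.nd (nat_lit 234) (nat_lit 152) (nat_lit 0) (XT.nd (nat_lit 78) (nat_lit 0) (nat_lit 0) (XT.lf (nat_lit 0) (nat_lit 130205307719) (nat_lit 76) (nat_lit 31332238910) (nat_lit 76) (nat_lit 9425138593) (nat_lit 3) (nat_lit 4) (nat_lit 4) (nat_lit 5) (nat_lit 4) (nat_lit 4) (nat_lit 302) (nat_lit 243) (nat_lit 175)) (XT.nd (nat_lit 78) (nat_lit 0) (nat_lit 0) (XT.lf (nat_lit 0) (nat_lit 151913792324) (nat_lit 76) (nat_lit 27062528111) (nat_lit 76) (nat_lit 5146722986) (nat_lit 3) (nat_lit 4) (nat_lit 4) (nat_lit 5) (nat_lit 4) (nat_lit 4) (nat_lit 303) (nat_lit 243) (nat_lit 174)) (XT.lf (nat_lit 0) (nat_lit 175350447772) (nat_lit 76) (nat_lit 22455018453) (nat_lit 76) (nat_lit 531153320) (nat_lit 3) (nat_lit 4) (nat_lit 4) (nat_lit 5) (nat_lit 4) (nat_lit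 4) (nat_lit 304) (nat_lit 243) (nat_lit 173)))) (XT.nd (nat_lit 78) (nat_lit 76) (nat_lit 0) (XT.lf (nat_lit 0) (nat_lit 4226368833) (nat_lit 152) (nat_lit 13140480928) (nat_lit 76) (nat_lit 196312232703) (nat_lit 2) (nat_lit 5) (nat_lit 4) (nat_lit 5) (nat_lit 3) (nat_lit 4) (nat_lit 305) (nat_lit 243) (nat_lit 172)) (XT.nd (nat_lit 78) (nat_lit 76) (nat_lit 0) (XT.lf (nat_lit 0) (nat_lit 9331627354) (nat_lit 152) (nat_lit 2528453361) (nat_lit 76) (nat_lit 218388100185) (nat_lit 2) (nat_lit 5) (nat_lit 4) (nat_lit 5) (nat_lit 3) (nat_lit 4) (nat_lit 306) (nat_lit 243) (nat_lit 171)) (XT.lf (nat_lit 0) (nat_lit 9395576029) (nat_lit 76) (nat_lit 5671833866) (nat_lit 152) (nat_lit 233057637047) (nat_lit 1) (nat_lit 5) (nat_lit 2) (nat_lit 5) (nat_lit 3) (nat_lit 4) (nat_lit 307) (nat_lit 243) (nat_lit 170)))))) (XT.nd (nat_lit 468) (nat_lit 0) (nat_lit 0) (XT.nd (nat_lit 234) (nat_lit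 0) (nat_lit 0) (XT.nd (nat_lit 78) (nat_lit 0) (nat_lit 0) (XT.lf (nat_lit 0) (nat_lit 21353497848) (nat_lit 152) (nat_lit 245042351974) (nat_lit 0) (nat_lit 1028904422) (nat_lit 1) (nat_lit 5) (nat_lit 3) (nat_lit 4) (nat_lit 1) (nat_lit 4) (nat_lit 308) (nat_lit 243) (nat_lit 169)) (XT.nd (nat_lit 78) (nat_lit 0) (nat_lit 0) (XT.lf (nat_lit 0) (nat_lit 28286264329) (nat_lit 152) (nat_lit 252014085605) (nat_lit 0) (nat_lit 7956591732) (nat_lit 1) (nat_lit 5) (nat_lit 3) (nat_lit 4) (nat_lit 1) (nat_lit 4) (nat_lit 309) (nat_lit 243) (nat_lit 168)) (XT.lf (nat_lit 0) (nat_lit 35770384658) (nat_lit 152) (nat_lit 259549578043) (nat_lit 0) (nat_lit 15436009125) (nat_lit 1) (nat_lit 5) (nat_lit 3) (nat_lit 4) (nat_lit 1) (nat_lit 4) (nat_lit 310) (nat_lit 243) (nat_lit 167)))) (XT.nd (nat_lit 78) (nat_lit 0) (nat_lit 0) (XT.lf (nat_lit 0) (nat_lit 43850209179) (nat_lit 152) (nat_lit 267693484058)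 (nat_lit 0) (nat_lit 23511479074) (nat_lit 1) (nat_lit 5) (nat_lit 3) (nat_lit 4) (nat_lit 1) (nat_lit 4) (nat_lit 311) (nat_lit 243) (nat_lit 166)) (XT.nd (nat_lit 78) (nat_lit 0) (nat_lit 0) (XT.lf (nat_lit 0) (nat_lit 52573618332) (nat_lit 152) (nat_lit 276494063834) (nat_lit 0) (nat_lit 32230856217) (nat_lit 1) (nat_lit 5) (nat_lit 3) (nat_lit 4) (nat_lit 1) (nat_lit 4) (nat_lit 312) (nat_lit 243) (nat_lit 165)) (XT.lf (nat_lit 0) (nat_lit 61992306395) (nat_lit 152) (nat_lit 286003468954) (nat_lit 0) (nat_lit 41645810937) (nat_lit 1) (nat_lit 5) (nat_lit 3) (nat_lit 4) (nat_lit 1) (nat_lit 4) (nat_lit 313) (nat_lit 243) (nat_lit 164))))) (XT.nd (nat_lit 234) (nat_lit 0) (nat_lit 0) (XT.nd (nat_lit 78) (nat_lit 0) (nat_lit 0) (XT.lf (nat_lit 0) (nat_lit 72162087814) (nat_lit 152) (nat_lit 296278051449) (nat_lit 0) (nat_lit 51812135557) (nat_lit 1) (nat_lit 5) (nat_lit 3) (nat_lit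 4) (nat_lit 1) (nat_lit 4) (nat_lit 314) (nat_lit 243) (nat_lit 163)) (XT.nd (nat_lit 78) (nat_lit 0) (nat_lit 0) (XT.lf (nat_lit 0) (nat_lit 83143227961) (nat_lit 152) (nat_lit 307378697734) (nat_lit 0) (nat_lit 62790074965) (nat_lit 1) (nat_lit 5) (nat_lit 3) (nat_lit 4) (nat_lit 1) (nat_lit 4) (nat_lit 315) (nat_lit 243) (nat_lit 162)) (XT.lf (nat_lit 0) (nat_lit 95000800260) (nat_lit 152) (nat_lit 319371189416) (nat_lit 0) (nat_lit 74644683616) (nat_lit 1) (nat_lit 5) (nat_lit 3) (nat_lit 4) (nat_lit 1) (nat_lit 4) (nat_lit 316) (nat_lit 243) (nat_lit 161)))) (XT.nd (nat_lit 78) (nat_lit 0) (nat_lit 0) (XT.lf (nat_lit 0) (nat_lit 107805071806) (nat_lit 152) (nat_lit 332326593112) (nat_lit 0) (nat_lit 87446211042) (nat_lit 1) (nat_lit 5) (nat_lit 3) (nat_lit 4) (nat_lit 1) (nat_lit 4) (nat_lit 317) (nat_lit 243) (nat_lit 160)) (XT.nd (nat_lit 78) (nat_lit 0) (nat_lit 0) (XT.lf (nat_lit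 0) (nat_lit 121631919762) (nat_lit 152) (nat_lit 346321681586) (nat_lit 0) (nat_lit 101270518149) (nat_lit 1) (nat_lit 5) (nat_lit 3) (nat_lit 4) (nat_lit 1) (nat_lit 4) (nat_lit 318) (nat_lit 243) (nat_lit 159)) (XT.lf (nat_lit 0) (nat_lit 136563281007) (nat_lit 152) (nat_lit 361439388695) (nat_lit 0) (nat_lit 116199526754) (nat_lit 1) (nat_lit 5) (nat_lit 3) (nat_lit 4) (nat_lit 1) (nat_lit 4) (nat_lit 319) (nat_lit 243) (nat_lit 158))))))))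
noncomputable def xc57 : XT := (XT.nd (nat_lit 32136) (nat_lit 0) (nat_lit 760) (XT.nd (nat_lit 936) (nat_lit 0) (nat_lit 0) (XT.nd (nat_lit 468) (nat_lit 0) (nat_lit 0) (XT.nd (nat_lit 234) (nat_lit 0) (nat_lit 0) (XT.nd (nat_lit 78) (nat_lit 0) (nat_lit 0) (XT.lf (nat_lit 0) (nat_lit 152687637680) (nat_lit 152) (nat_lit 377769300851) (nat_lit 0) (nat_lit 132321705057) (nat_lit 1) (nat_lit 5) (nat_lit 3) (nat_lit 4) (nat_lit 1) (nat_lit 4) (nat_lit 320) (nat_lit 243) (nat_lit 157)) (XT.nd (nat_lit 78) (nat_lit 0) (nat_lit 0) (XT.lf (nat_lit 0) (nat_lit 170100541525) (nat_lit 152) (nat_lit 395408187904) (nat_lit 0) (nat_lit 149732591893) (nat_lit 1) (nat_lit 5) (nat_lit 3) (nat_lit 4) (nat_lit 1) (nat_lit 4) (nat_lit 321) (nat_lit 243) (nat_lit 156)) (XT.lf (nat_lit 0) (nat_lit 188905180120) (nat_lit 152) (nat_lit 414460576592) (nat_lit 0) (nat_lit 168535362888) (nat_lit 1) (nat_lit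 5) (nat_lit 3) (nat_lit 4) (nat_lit 1) (nat_lit 4) (nat_lit 322) (nat_lit 243) (nat_lit 155)))) (XT.nd (nat_lit 78) (nat_lit 0) (nat_lit 0) (XT.lf (nat_lit 0) (nat_lit 209212988361) (nat_lit 152) (nat_lit 435039369960) (nat_lit 0) (nat_lit 188841441868) (nat_lit 1) (nat_lit 5) (nat_lit 3) (nat_lit 4) (nat_lit 1) (nat_lit 4) (nat_lit 323) (nat_lit 243) (nat_lit 154)) (XT.nd (nat_lit 78) (nat_lit 0) (nat_lit 0) (XT.lf (nat_lit 0) (nat_lit 231144308815) (nat_lit 152) (nat_lit 457266516412) (nat_lit 0) (nat_lit 210771161155) (nat_lit 1) (nat_lit 5) (nat_lit 3) (nat_lit 4) (nat_lit 1) (nat_lit 4) (nat_lit 324) (nat_lit 243) (nat_lit 153)) (XT.lf (nat_lit 0) (nat_lit 254829104862) (nat_lit 152) (nat_lit 481273732372) (nat_lit 0) (nat_lit 234454474641) (nat_lit 1) (nat_lit 5) (nat_lit 3) (nat_lit 4) (nat_lit 1) (nat_lit 4) (nat_lit 325) (nat_lit 243) (nat_lit 152))))) (XT.nd (nat_lit 234)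 (nat_lit 0) (nat_lit 0) (XT.nd (nat_lit 78) (nat_lit 0) (nat_lit 0) (XT.lf (nat_lit 0) (nat_lit 280407730850) (nat_lit 152) (nat_lit 507203282824) (nat_lit 0) (nat_lit 260031727886) (nat_lit 1) (nat_lit 5) (nat_lit 3) (nat_lit 4) (nat_lit 1) (nat_lit 4) (nat_lit 326) (nat_lit 243) (nat_lit 151)) (XT.nd (nat_lit 78) (nat_lit 0) (nat_lit 0) (XT.lf (nat_lit 0) (nat_lit 308031763821) (nat_lit 152) (nat_lit 535208824362) (nat_lit 0) (nat_lit 287654489800) (nat_lit 1) (nat_lit 5) (nat_lit 3) (nat_lit 4) (nat_lit 1) (nat_lit 4) (nat_lit 327) (nat_lit 243) (nat_lit 150)) (XT.lf (nat_lit 0) (nat_lit 337864901749) (nat_lit 152) (nat_lit 565456315752) (nat_lit 0) (nat_lit 317486450822) (nat_lit 1) (nat_lit 5) (nat_lit 3) (nat_lit 4) (nat_lit 1) (nat_lit 4) (nat_lit 328) (nat_lit 243) (nat_lit 149)))) (XT.nd (nat_lit 78) (nat_lit 0) (nat_lit 0) (XT.lf (nat_lit 0) (nat_lit 370083933598) (nat_lit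 152) (nat_lit 598125001386) (nat_lit 0) (nat_lit 349704392944) (nat_lit 1) (nat_lit 5) (nat_lit 3) (nat_lit 4) (nat_lit 1) (nat_lit 4) (nat_lit 329) (nat_lit 243) (nat_lit 148)) (XT.nd (nat_lit 78) (nat_lit 0) (nat_lit 0) (XT.lf (nat_lit 0) (nat_lit 404879786966) (nat_lit 152) (nat_lit 633408473476) (nat_lit 0) (nat_lit 384499237305) (nat_lit 1) (nat_lit 5) (nat_lit 3) (nat_lit 4) (nat_lit 1) (nat_lit 4) (nat_lit 330) (nat_lit 243) (nat_lit 147)) (XT.lf (nat_lit 0) (nat_lit 442458659501) (nat_lit 152) (nat_lit 671515819264) (nat_lit 0) (nat_lit 422077175575) (nat_lit 1) (nat_lit 5) (nat_lit 3) (nat_lit 4) (nat_lit 1) (nat_lit 4) (nat_lit 331) (nat_lit 243) (nat_lit 146)))))) (XT.nd (nat_lit 30732) (nat_lit 0) (nat_lit 3040) (XT.nd (nat_lit 234) (nat_lit 0) (nat_lit 0) (XT.nd (nat_lit 78) (nat_lit 0) (nat_lit 0) (XT.lf (nat_lit 0) (nat_lit 483043240819) (nat_lit 152) (nat_lit 712672860059)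 (nat_lit 0) (nat_lit 462660891832) (nat_lit 1) (nat_lit 5) (nat_lit 3) (nat_lit 4) (nat_lit 1) (nat_lit 4) (nat_lit 332) (nat_lit 243) (nat_lit 145)) (XT.nd (nat_lit 78) (nat_lit 0) (nat_lit 0) (XT.lf (nat_lit 0) (nat_lit 526874032142) (nat_lit 152) (nat_lit 757123489435) (nat_lit 0) (nat_lit 506490882173) (nat_lit 1) (nat_lit 5) (nat_lit 3) (nat_lit 4) (nat_lit 1) (nat_lit 4) (nat_lit 333) (nat_lit 243) (nat_lit 144)) (XT.lf (nat_lit 0) (nat_lit 574210771493) (nat_lit 152) (nat_lit 805131118529) (nat_lit 0) (nat_lit 553826879874) (nat_lit 1) (nat_lit 5) (nat_lit 3) (nat_lit 4) (nat_lit 1) (nat_lit 4) (nat_lit 334) (nat_lit 243) (nat_lit 143)))) (XT.nd (nat_lit 78) (nat_lit 0) (nat_lit 0) (XT.lf (nat_lit 0) (nat_lit 625333972883) (nat_lit 152) (nat_lit 856980236995) (nat_lit 0) (nat_lit 604949394552) (nat_lit 1) (nat_lit 5) (nat_lit 3) (nat_lit 4) (nat_lit 1) (nat_lit 4) (nat_lit 335)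 (nat_lit 243) (nat_lit 142)) (XT.nd (nat_lit 30342) (nat_lit 0) (nat_lit 3648) (XT.lf (nat_lit 0) (nat_lit 680546588617) (nat_lit 152) (nat_lit 912978098869) (nat_lit 0) (nat_lit 660161374440) (nat_lit 1) (nat_lit 5) (nat_lit 3) (nat_lit 4) (nat_lit 1) (nat_lit 4) (nat_lit 336) (nat_lit 243) (nat_lit 141)) (XT.lf (nat_lit 0) (nat_lit 1232502898) (nat_lit 0) (nat_lit 1232502898) (nat_lit 228) (nat_lit 995362913) (nat_lit 49) (nat_lit 5) (nat_lit 49) (nat_lit 3) (nat_lit 52) (nat_lit 3) (nat_lit 244) (nat_lit 244) (nat_lit 232))))) (XT.nd (nat_lit 234) (nat_lit 304) (nat_lit 0) (XT.nd (nat_lit 78) (nat_lit 304) (nat_lit 0) (XT.lf (nat_lit 0) (nat_lit 5593768834) (nat_lit 0) (nat_lit 1156830602) (nat_lit 228) (nat_lit 302118512) (nat_lit 49) (nat_lit 5) (nat_lit 49) (nat_lit 3) (nat_lit 52) (nat_lit 3) (nat_lit 245) (nat_lit 244) (nat_lit 231)) (XT.nd (nat_lit 78) (nat_lit 0) (nat_lit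 0) (XT.lf (nat_lit 0) (nat_lit 1329197845) (nat_lit 304) (nat_lit 5477457244) (nat_lit 380) (nat_lit 396362956) (nat_lit 45) (nat_lit 5) (nat_lit 49) (nat_lit 5) (nat_lit 50) (nat_lit 5) (nat_lit 246) (nat_lit 244) (nat_lit 230)) (XT.lf (nat_lit 0) (nat_lit 2989567793) (nat_lit 304) (nat_lit 2257964549) (nat_lit 380) (nat_lit 2125277122) (nat_lit 45) (nat_lit 5) (nat_lit 49) (nat_lit 5) (nat_lit 50) (nat_lit 5) (nat_lit 247) (nat_lit 244) (nat_lit 229)))) (XT.nd (nat_lit 78) (nat_lit 304) (nat_lit 0) (XT.lf (nat_lit 76) (nat_lit 1181246859) (nat_lit 0) (nat_lit 3485389322) (nat_lit 380) (nat_lit 2900028082) (nat_lit 46) (nat_lit 5) (nat_lit 45) (nat_lit 5) (nat_lit 50) (nat_lit 5) (nat_lit 248) (nat_lit 244) (nat_lit 228)) (XT.nd (nat_lit 78) (nat_lit 304) (nat_lit 0) (XT.lf (nat_lit 76) (nat_lit 4929530134) (nat_lit 0) (nat_lit 1473970982) (nat_lit 380) (nat_lit 1379577299) (nat_lit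 46) (nat_lit 5) (nat_lit 45) (nat_lit 5) (nat_lit 50) (nat_lit 5) (nat_lit 249) (nat_lit 244) (nat_lit 227)) (XT.lf (nat_lit 0) (nat_lit 159231508) (nat_lit 380) (nat_lit 7139770081) (nat_lit 76) (nat_lit 725455063) (nat_lit 41) (nat_lit 5) (nat_lit 46) (nat_lit 5) (nat_lit 42) (nat_lit 5) (nat_lit 250) (nat_lit 244) (nat_lit 226))))))) (XT.nd (nat_lit 936) (nat_lit 684) (nat_lit 0) (XT.nd (nat_lit 468) (nat_lit 456) (nat_lit 0) (XT.nd (nat_lit 234) (nat_lit 760) (nat_lit 0) (XT.nd (nat_lit 78) (nat_lit 380) (nat_lit 0) (XT.lf (nat_lit 0) (nat_lit 1742815383) (nat_lit 380) (nat_lit 3375078303) (nat_lit 76) (nat_lit 3165562908) (nat_lit 41) (nat_lit 5) (nat_lit 46) (nat_lit 5) (nat_lit 42) (nat_lit 5) (nat_lit 251) (nat_lit 244) (nat_lit 225)) (XT.nd (nat_lit 78) (nat_lit 0) (nat_lit 0) (XT.lf (nat_lit 0) (nat_lit 625510676) (nat_lit 380) (nat_lit 2729536265) (nat_lit 456) (nat_lit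 5216782315) (nat_lit 36) (nat_lit 5) (nat_lit 41) (nat_lit 5) (nat_lit 42) (nat_lit 5) (nat_lit 252) (nat_lit 244) (nat_lit 224)) (XT.lf (nat_lit 0) (nat_lit 5043966527) (nat_lit 380) (nat_lit 37601350) (nat_lit 456) (nat_lit 3803628618) (nat_lit 36) (nat_lit 5) (nat_lit 41) (nat_lit 5) (nat_lit 42) (nat_lit 5) (nat_lit 253) (nat_lit 244) (nat_lit 223)))) (XT.nd (nat_lit 78) (nat_lit 304) (nat_lit 0) (XT.lf (nat_lit 0) (nat_lit 449689291) (nat_lit 456) (nat_lit 6477592284) (nat_lit 532) (nat_lit 2298559955) (nat_lit 30) (nat_lit 5) (nat_lit 36) (nat_lit 5) (nat_lit 37) (nat_lit 5) (nat_lit 254) (nat_lit 244) (nat_lit 222)) (XT.nd (nat_lit 78) (nat_lit 304) (nat_lit 0) (XT.lf (nat_lit 0) (nat_lit 5207684302) (nat_lit 456) (nat_lit 3725249913) (nat_lit 532) (nat_lit 660464096) (nat_lit 30) (nat_lit 5) (nat_lit 36) (nat_lit 5) (nat_lit 37) (nat_lit 5) (nat_lit 255) (nat_lit 244) (nat_lit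 221)) (XT.lf (nat_lit 0) (nat_lit 249836773) (nat_lit 228) (nat_lit 719816225) (nat_lit 304) (nat_lit 9025809799) (nat_lit 26) (nat_lit 5) (nat_lit 29) (nat_lit 5) (nat_lit 30) (nat_lit 5) (nat_lit 256) (nat_lit 244) (nat_lit 220))))) (XT.nd (nat_lit 234) (nat_lit 304) (nat_lit 0) (XT.nd (nat_lit 78) (nat_lit 152) (nat_lit 0) (XT.lf (nat_lit 0) (nat_lit 2793072837) (nat_lit 304) (nat_lit 5092306787) (nat_lit 76) (nat_lit 2535564565) (nat_lit 26) (nat_lit 5) (nat_lit 30) (nat_lit 5) (nat_lit 27) (nat_lit 5) (nat_lit 257) (nat_lit 244) (nat_lit 219)) (XT.nd (nat_lit 78) (nat_lit 152) (nat_lit 0) (XT.lf (nat_lit 0) (nat_lit 4702170339) (nat_lit 304) (nat_lit 175082708) (nat_lit 76) (nat_lit 6008499114) (nat_lit 26) (nat_lit 5) (nat_lit 30) (nat_lit 5) (nat_lit 27) (nat_lit 5) (nat_lit 258) (nat_lit 244) (nat_lit 218)) (XT.lf (nat_lit 0) (nat_lit 5318552448) (nat_lit 152) (nat_lit 1500305944)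 (nat_lit 228) (nat_lit 4564934764) (nat_lit 24) (nat_lit 5) (nat_lit 26) (nat_lit 5) (nat_lit 27) (nat_lit 5) (nat_lit 259) (nat_lit 244) (nat_lit 217)))) (XT.nd (nat_lit 78) (nat_lit 304) (nat_lit 0) (XT.lf (nat_lit 0) (nat_lit 9091567066) (nat_lit 228) (nat_lit 798033391) (nat_lit 76) (nat_lit 2033547129) (nat_lit 24) (nat_lit 5) (nat_lit 27) (nat_lit 5) (nat_lit 25) (nat_lit 5) (nat_lit 260) (nat_lit 244) (nat_lit 216)) (XT.nd (nat_lit 78) (nat_lit 76) (nat_lit 0) (XT.lf (nat_lit 0) (nat_lit 5022630515) (nat_lit 228) (nat_lit 6618543481) (nat_lit 304) (nat_lit 857244852) (nat_lit 21) (nat_lit 5) (nat_lit 24) (nat_lit 5) (nat_lit 25) (nat_lit 5) (nat_lit 261) (nat_lit 244) (nat_lit 215)) (XT.lf (nat_lit 0) (nat_lit 1169936604) (nat_lit 304) (nat_lit 1876714228) (nat_lit 76) (nat_lit 10074234789) (nat_lit 20) (nat_lit 5) (nat_lit 24) (nat_lit 5) (nat_lit 21) (nat_lit 5) (nat_lit 262)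 (nat_lit 244) (nat_lit 214)))))) (XT.nd (nat_lit 468) (nat_lit 228) (nat_lit 0) (XT.nd (nat_lit 234) (nat_lit 152) (nat_lit 0) (XT.nd (nat_lit 78) (nat_lit 152) (nat_lit 0) (XT.lf (nat_lit 0) (nat_lit 3379444070) (nat_lit 228) (nat_lit 9523823706) (nat_lit 76) (nat_lit 883081164) (nat_lit 18) (nat_lit 5) (nat_lit 21) (nat_lit 5) (nat_lit 19) (nat_lit 5) (nat_lit 263) (nat_lit 244) (nat_lit 213)) (XT.nd (nat_lit 78) (nat_lit 152) (nat_lit 0) (XT.lf (nat_lit 0) (nat_lit 5840677952) (nat_lit 228) (nat_lit 3660010915) (nat_lit 76) (nat_lit 4998638831) (nat_lit 18) (nat_lit 5) (nat_lit 21) (nat_lit 5) (nat_lit 19) (nat_lit 5) (nat_lit 264) (nat_lit 244) (nat_lit 212)) (XT.lf (nat_lit 0) (nat_lit 2737403778) (nat_lit 152) (nat_lit 5774636336) (nat_lit 228) (nat_lit 6756501496) (nat_lit 16) (nat_lit 5) (nat_lit 18) (nat_lit 5) (nat_lit 19) (nat_lit 5) (nat_lit 265) (nat_lit 244) (nat_lit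 211)))) (XT.nd (nat_lit 78) (nat_lit 152) (nat_lit 0) (XT.lf (nat_lit 0) (nat_lit 9784154468) (nat_lit 152) (nat_lit 1662621522) (nat_lit 228) (nat_lit 4648779781) (nat_lit 16) (nat_lit 5) (nat_lit 18) (nat_lit 5) (nat_lit 19) (nat_lit 5) (nat_lit 266) (nat_lit 244) (nat_lit 210)) (XT.nd (nat_lit 78) (nat_lit 76) (nat_lit 0) (XT.lf (nat_lit 0) (nat_lit 284445735) (nat_lit 76) (nat_lit 14358382991) (nat_lit 152) (nat_lit 2343998111) (nat_lit 15) (nat_lit 5) (nat_lit 16) (nat_lit 5) (nat_lit 17) (nat_lit 4) (nat_lit 267) (nat_lit 244) (nat_lit 209)) (XT.lf (nat_lit 0) (nat_lit 311522210) (nat_lit 152) (nat_lit 10289633817) (nat_lit 76) (nat_lit 7334262423) (nat_lit 14) (nat_lit 5) (nat_lit 16) (nat_lit 5) (nat_lit 15) (nat_lit 5) (nat_lit 268) (nat_lit 244) (nat_lit 208))))) (XT.nd (nat_lit 234) (nat_lit 76) (nat_lit 0) (XT.nd (nat_lit 78) (nat_lit 152) (nat_lit 0) (XT.lf (nat_lit 0)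 (nat_lit 3009686117) (nat_lit 152) (nat_lit 3489357698) (nat_lit 76) (nat_lit 12459609531) (nat_lit 14) (nat_lit 5) (nat_lit 16) (nat_lit 5) (nat_lit 15) (nat_lit 5) (nat_lit 269) (nat_lit 244) (nat_lit 207)) (XT.nd (nat_lit 78) (nat_lit 0) (nat_lit 0) (XT.lf (nat_lit 0) (nat_lit 3994962604) (nat_lit 152) (nat_lit 1984855349) (nat_lit 228) (nat_lit 14079600728) (nat_lit 12) (nat_lit 5) (nat_lit 14) (nat_lit 5) (nat_lit 15) (nat_lit 5) (nat_lit 270) (nat_lit 244) (nat_lit 206)) (XT.lf (nat_lit 0) (nat_lit 9316074690) (nat_lit 228) (nat_lit 9097185724) (nat_lit 76) (nat_lit 2824852598) (nat_lit 12) (nat_lit 5) (nat_lit 15) (nat_lit 5) (nat_lit 13) (nat_lit 4) (nat_lit 271) (nat_lit 244) (nat_lit 205)))) (XT.nd (nat_lit 156) (nat_lit 0) (nat_lit 0) (XT.nd (nat_lit 78) (nat_lit 76) (nat_lit 0) (XT.lf (nat_lit 0) (nat_lit 12934782247) (nat_lit 228) (nat_lit 1680616581) (nat_lit 76) (nat_lit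 7894597928) (nat_lit 12) (nat_lit 5) (nat_lit 15) (nat_lit 5) (nat_lit 13) (nat_lit 4) (nat_lit 272) (nat_lit 244) (nat_lit 204)) (XT.lf (nat_lit 0) (nat_lit 6607469598) (nat_lit 76) (nat_lit 10361089203) (nat_lit 152) (nat_lit 6905154281) (nat_lit 11) (nat_lit 5) (nat_lit 12) (nat_lit 5) (nat_lit 13) (nat_lit 4) (nat_lit 273) (nat_lit 244) (nat_lit 203))) (XT.nd (nat_lit 78) (nat_lit 0) (nat_lit 0) (XT.lf (nat_lit 0) (nat_lit 15603165029) (nat_lit 76) (nat_lit 5735728582) (nat_lit 152) (nat_lit 4006642828) (nat_lit 11) (nat_lit 5) (nat_lit 12) (nat_lit 5) (nat_lit 13) (nat_lit 4) (nat_lit 274) (nat_lit 244) (nat_lit 202)) (XT.lf (nat_lit 0) (nat_lit 25271279243) (nat_lit 76) (nat_lit 757858458) (nat_lit 152) (nat_lit 908454824) (nat_lit 11) (nat_lit 5) (nat_lit 12) (nat_lit 5) (nat_lit 13) (nat_lit 4) (nat_lit 275) (nat_lit 244) (nat_lit 201))))))))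
noncomputable def xc58 : XT := (XT.nd (nat_lit 1872) (nat_lit 152) (nat_lit 0) (XT.nd (nat_lit 936) (nat_lit 152) (nat_lit 0) (XT.nd (nat_lit 468) (nat_lit 152) (nat_lit 0) (XT.nd (nat_lit 234) (nat_lit 76) (nat_lit 0) (XT.nd (nat_lit 78) (nat_lit 0) (nat_lit 0) (XT.lf (nat_lit 0) (nat_lit 2580074116) (nat_lit 228) (nat_lit 21439401639) (nat_lit 76) (nat_lit 4611787349) (nat_lit 8) (nat_lit 5) (nat_lit 11) (nat_lit 5) (nat_lit 9) (nat_lit 4) (nat_lit 276) (nat_lit 244) (nat_lit 200)) (XT.nd (nat_lit 78) (nat_lit 0) (nat_lit 0) (XT.lf (nat_lit 0) (nat_lit 6337335793) (nat_lit 228) (nat_lit 13693831891) (nat_lit 76) (nat_lit 10424360393) (nat_lit 8) (nat_lit 5) (nat_lit 11) (nat_lit 5) (nat_lit 9) (nat_lit 4) (nat_lit 277) (nat_lit 244) (nat_lit 199)) (XT.lf (nat_lit 0) (nat_lit 10369532672) (nat_lit 228) (nat_lit 5371246216) (nat_lit 76) (nat_lit 16687087474) (nat_lit 8) (nat_lit 5)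 (nat_lit 11) (nat_lit 5) (nat_lit 9) (nat_lit 4) (nat_lit 278) (nat_lit 244) (nat_lit 198)))) (XT.nd (nat_lit 78) (nat_lit 0) (nat_lit 0) (XT.lf (nat_lit 0) (nat_lit 3766068404) (nat_lit 76) (nat_lit 11025064883) (nat_lit 152) (nat_lit 19761586679) (nat_lit 7) (nat_lit 5) (nat_lit 8) (nat_lit 5) (nat_lit 9) (nat_lit 4) (nat_lit 279) (nat_lit 244) (nat_lit 197)) (XT.nd (nat_lit 78) (nat_lit 0) (nat_lit 0) (XT.lf (nat_lit 0) (nat_lit 13901363115) (nat_lit 76) (nat_lit 5789045879) (nat_lit 152) (nat_lit 17147306081) (nat_lit 7) (nat_lit 5) (nat_lit 8) (nat_lit 5) (nat_lit 9) (nat_lit 4) (nat_lit 280) (nat_lit 244) (nat_lit 196)) (XT.lf (nat_lit 0) (nat_lit 24811858614) (nat_lit 76) (nat_lit 148553007) (nat_lit 152) (nat_lit 14346859253) (nat_lit 7) (nat_lit 5) (nat_lit 8) (nat_lit 5) (nat_lit 9) (nat_lit 4) (nat_lit 281) (nat_lit 244) (nat_lit 195))))) (XT.nd (nat_lit 234) (nat_lit 76)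 (nat_lit 0) (XT.nd (nat_lit 78) (nat_lit 76) (nat_lit 0) (XT.lf (nat_lit 0) (nat_lit 30774983578) (nat_lit 152) (nat_lit 5556424844) (nat_lit 0) (nat_lit 5633204321) (nat_lit 7) (nat_lit 5) (nat_lit 9) (nat_lit 4) (nat_lit 7) (nat_lit 4) (nat_lit 282) (nat_lit 244) (nat_lit 194)) (XT.nd (nat_lit 78) (nat_lit 0) (nat_lit 0) (XT.lf (nat_lit 0) (nat_lit 4275970854) (nat_lit 76) (nat_lit 32866960525) (nat_lit 76) (nat_lit 7684608532) (nat_lit 6) (nat_lit 4) (nat_lit 7) (nat_lit 5) (nat_lit 7) (nat_lit 4) (nat_lit 283) (nat_lit 244) (nat_lit 193)) (XT.lf (nat_lit 0) (nat_lit 15180007330) (nat_lit 76) (nat_lit 28974369509) (nat_lit 76) (nat_lit 3754450167) (nat_lit 6) (nat_lit 4) (nat_lit 7) (nat_lit 5) (nat_lit 7) (nat_lit 4) (nat_lit 284) (nat_lit 244) (nat_lit 192)))) (XT.nd (nat_lit 78) (nat_lit 0) (nat_lit 0) (XT.lf (nat_lit 0) (nat_lit 448591233) (nat_lit 152) (nat_lit 24321634158)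 (nat_lit 76) (nat_lit 26466853099) (nat_lit 5) (nat_lit 5) (nat_lit 7) (nat_lit 5) (nat_lit 6) (nat_lit 4) (nat_lit 285) (nat_lit 244) (nat_lit 191)) (XT.nd (nat_lit 78) (nat_lit 0) (nat_lit 0) (XT.lf (nat_lit 0) (nat_lit 4769286450) (nat_lit 152) (nat_lit 15366796051) (nat_lit 76) (nat_lit 34689006516) (nat_lit 5) (nat_lit 5) (nat_lit 7) (nat_lit 5) (nat_lit 6) (nat_lit 4) (nat_lit 286) (nat_lit 244) (nat_lit 190)) (XT.lf (nat_lit 0) (nat_lit 9421052408) (nat_lit 152) (nat_lit 5720945032) (nat_lit 76) (nat_lit 43559347005) (nat_lit 5) (nat_lit 5) (nat_lit 7) (nat_lit 5) (nat_lit 6) (nat_lit 4) (nat_lit 287) (nat_lit 244) (nat_lit 189)))))) (XT.nd (nat_lit 468) (nat_lit 76) (nat_lit 0) (XT.nd (nat_lit 234) (nat_lit 0) (nat_lit 0) (XT.nd (nat_lit 78) (nat_lit 0) (nat_lit 0) (XT.lf (nat_lit 0) (nat_lit 4919155581) (nat_lit 76) (nat_lit 9630605354) (nat_lit 152) (nat_lit 48329589774)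 (nat_lit 4) (nat_lit 5) (nat_lit 5) (nat_lit 5) (nat_lit 6) (nat_lit 4) (nat_lit 288) (nat_lit 244) (nat_lit 188)) (XT.nd (nat_lit 78) (nat_lit 0) (nat_lit 0) (XT.lf (nat_lit 0) (nat_lit 16712919686) (nat_lit 76) (nat_lit 3519212312) (nat_lit 152) (nat_lit 47148028158) (nat_lit 4) (nat_lit 5) (nat_lit 5) (nat_lit 5) (nat_lit 6) (nat_lit 4) (nat_lit 289) (nat_lit 244) (nat_lit 187)) (XT.lf (nat_lit 0) (nat_lit 26430885966) (nat_lit 152) (nat_lit 42886930657) (nat_lit 0) (nat_lit 2918303862) (nat_lit 4) (nat_lit 5) (nat_lit 6) (nat_lit 4) (nat_lit 4) (nat_lit 4) (nat_lit 290) (nat_lit 244) (nat_lit 186)))) (XT.nd (nat_lit 78) (nat_lit 0) (nat_lit 0) (XT.lf (nat_lit 0) (nat_lit 33205552880) (nat_lit 152) (nat_lit 34595956835) (nat_lit 0) (nat_lit 9672674307) (nat_lit 4) (nat_lit 5) (nat_lit 6) (nat_lit 4) (nat_lit 4) (nat_lit 4) (nat_lit 291) (nat_lit 244) (nat_lit 185)) (XT.nd (nat_lit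 78) (nat_lit 0) (nat_lit 0) (XT.lf (nat_lit 0) (nat_lit 40511641775) (nat_lit 152) (nat_lit 25660550166) (nat_lit 0) (nat_lit 16959970174) (nat_lit 4) (nat_lit 5) (nat_lit 6) (nat_lit 4) (nat_lit 4) (nat_lit 4) (nat_lit 292) (nat_lit 244) (nat_lit 184)) (XT.lf (nat_lit 0) (nat_lit 48392447992) (nat_lit 152) (nat_lit 16027760091) (nat_lit 0) (nat_lit 24823375440) (nat_lit 4) (nat_lit 5) (nat_lit 6) (nat_lit 4) (nat_lit 4) (nat_lit 4) (nat_lit 293) (nat_lit 244) (nat_lit 183))))) (XT.nd (nat_lit 234) (nat_lit 0) (nat_lit 0) (XT.nd (nat_lit 78) (nat_lit 76) (nat_lit 0) (XT.lf (nat_lit 0) (nat_lit 56894672605) (nat_lit 152) (nat_lit 5640503412) (nat_lit 0) (nat_lit 33309488061) (nat_lit 4) (nat_lit 5) (nat_lit 6) (nat_lit 4) (nat_lit 4) (nat_lit 4) (nat_lit 294) (nat_lit 244) (nat_lit 182)) (XT.nd (nat_lit 78) (nat_lit 0) (nat_lit 0) (XT.lf (nat_lit 0) (nat_lit 5855699806) (nat_lit 76)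 (nat_lit 60353829081) (nat_lit 76) (nat_lit 36753726026) (nat_lit 3) (nat_lit 4) (nat_lit 4) (nat_lit 5) (nat_lit 4) (nat_lit 4) (nat_lit 295) (nat_lit 244) (nat_lit 181)) (XT.lf (nat_lit 0) (nat_lit 18577798624) (nat_lit 76) (nat_lit 57837890158) (nat_lit 76) (nat_lit 34223973668) (nat_lit 3) (nat_lit 4) (nat_lit 4) (nat_lit 5) (nat_lit 4) (nat_lit 4) (nat_lit 296) (nat_lit 244) (nat_lit 180)))) (XT.nd (nat_lit 78) (nat_lit 0) (nat_lit 0) (XT.lf (nat_lit 0) (nat_lit 32304164341) (nat_lit 76) (nat_lit 55126671341) (nat_lit 76) (nat_lit 31499964632) (nat_lit 3) (nat_lit 4) (nat_lit 4) (nat_lit 5) (nat_lit 4) (nat_lit 4) (nat_lit 297) (nat_lit 244) (nat_lit 179)) (XT.nd (nat_lit 78) (nat_lit 0) (nat_lit 0) (XT.lf (nat_lit 0) (nat_lit 47116138385) (nat_lit 76) (nat_lit 52204106147) (nat_lit 76) (nat_lit 28565556643) (nat_lit 3) (nat_lit 4) (nat_lit 4) (nat_lit 5) (nat_lit 4) (nat_lit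 4) (nat_lit 298) (nat_lit 244) (nat_lit 178)) (XT.lf (nat_lit 0) (nat_lit 63101495417) (nat_lit 76) (nat_lit 49052875671) (nat_lit 76) (nat_lit 25403360616) (nat_lit 3) (nat_lit 4) (nat_lit 4) (nat_lit 5) (nat_lit 4) (nat_lit 4) (nat_lit 299) (nat_lit 244) (nat_lit 177))))))) (XT.nd (nat_lit 936) (nat_lit 0) (nat_lit 0) (XT.nd (nat_lit 468) (nat_lit 152) (nat_lit 0) (XT.nd (nat_lit 234) (nat_lit 0) (nat_lit 0) (XT.nd (nat_lit 78) (nat_lit 0) (nat_lit 0) (XT.lf (nat_lit 0) (nat_lit 80354963478) (nat_lit 76) (nat_lit 45654305955) (nat_lit 76) (nat_lit 21994637612) (nat_lit 3) (nat_lit 4) (nat_lit 4) (nat_lit 5) (nat_lit 4) (nat_lit 4) (nat_lit 300) (nat_lit 244) (nat_lit 176)) (XT.nd (nat_lit 78) (nat_lit 0) (nat_lit 0) (XT.lf (nat_lit 0) (nat_lit 98978785341) (nat_lit 76) (nat_lit 41988257327) (nat_lit 76) (nat_lit 18319187791) (nat_lit 3) (nat_lit 4) (nat_lit 4) (nat_lit 5) (nat_lit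 4) (nat_lit 4) (nat_lit 301) (nat_lit 244) (nat_lit 175)) (XT.lf (nat_lit 0) (nat_lit 119083324397) (nat_lit 76) (nat_lit 38033005053) (nat_lit 76) (nat_lit 14355230710) (nat_lit 3) (nat_lit 4) (nat_lit 4) (nat_lit 5) (nat_lit 4) (nat_lit 4) (nat_lit 302) (nat_lit 244) (nat_lit 174)))) (XT.nd (nat_lit 78) (nat_lit 0) (nat_lit 0) (XT.lf (nat_lit 0) (nat_lit 140787718653) (nat_lit 76) (nat_lit 33765110603) (nat_lit 76) (nat_lit 10079276252) (nat_lit 3) (nat_lit 4) (nat_lit 4) (nat_lit 5) (nat_lit 4) (nat_lit 4) (nat_lit 303) (nat_lit 244) (nat_lit 173)) (XT.nd (nat_lit 78) (nat_lit 0) (nat_lit 0) (XT.lf (nat_lit 0) (nat_lit 164220586742) (nat_lit 76) (nat_lit 29159282748) (nat_lit 76) (nat_lit 5465985428) (nat_lit 3) (nat_lit 4) (nat_lit 4) (nat_lit 5) (nat_lit 4) (nat_lit 4) (nat_lit 304) (nat_lit 244) (nat_lit 172)) (XT.lf (nat_lit 0) (nat_lit 189520790106) (nat_lit 76) (nat_lit 24188227696)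 (nat_lit 76) (nat_lit 488020219) (nat_lit 3) (nat_lit 4) (nat_lit 4) (nat_lit 5) (nat_lit 4) (nat_lit 4) (nat_lit 305) (nat_lit 244) (nat_lit 171))))) (XT.nd (nat_lit 234) (nat_lit 0) (nat_lit 0) (XT.nd (nat_lit 78) (nat_lit 76) (nat_lit 0) (XT.lf (nat_lit 0) (nat_lit 4639795043) (nat_lit 152) (nat_lit 14055832079) (nat_lit 76) (nat_lit 212071600612) (nat_lit 2) (nat_lit 5) (nat_lit 4) (nat_lit 5) (nat_lit 3) (nat_lit 4) (nat_lit 306) (nat_lit 244) (nat_lit 170)) (XT.nd (nat_lit 78) (nat_lit 76) (nat_lit 0) (XT.lf (nat_lit 0) (nat_lit 10147895231) (nat_lit 152) (nat_lit 2604908035) (nat_lit 76) (nat_lit 235909508657) (nat_lit 2) (nat_lit 5) (nat_lit 4) (nat_lit 5) (nat_lit 3) (nat_lit 4) (nat_lit 307) (nat_lit 244) (nat_lit 169)) (XT.lf (nat_lit 0) (nat_lit 10269858349) (nat_lit 76) (nat_lit 6070465675) (nat_lit 152) (nat_lit 251629191230) (nat_lit 1) (nat_lit 5) (nat_lit 2) (nat_lit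 5) (nat_lit 3) (nat_lit 4) (nat_lit 308) (nat_lit 244) (nat_lit 168)))) (XT.nd (nat_lit 78) (nat_lit 0) (nat_lit 0) (XT.lf (nat_lit 0) (nat_lit 23125524761) (nat_lit 152) (nat_lit 264528289978) (nat_lit 0) (nat_lit 1159696248) (nat_lit 1) (nat_lit 5) (nat_lit 3) (nat_lit 4) (nat_lit 1) (nat_lit 4) (nat_lit 309) (nat_lit 244) (nat_lit 167)) (XT.nd (nat_lit 78) (nat_lit 0) (nat_lit 0) (XT.lf (nat_lit 0) (nat_lit 30608190555) (nat_lit 152) (nat_lit 272066462311) (nat_lit 0) (nat_lit 8638007470) (nat_lit 1) (nat_lit 5) (nat_lit 3) (nat_lit 4) (nat_lit 1) (nat_lit 4) (nat_lit 310) (nat_lit 244) (nat_lit 166)) (XT.lf (nat_lit 0) (nat_lit 38686668282) (nat_lit 152) (nat_lit 280212849710) (nat_lit 0) (nat_lit 16712453188) (nat_lit 1) (nat_lit 5) (nat_lit 3) (nat_lit 4) (nat_lit 1) (nat_lit 4) (nat_lit 311) (nat_lit 244) (nat_lit 165)))))) (XT.nd (nat_lit 468) (nat_lit 0) (nat_lit 0) (XT.nd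 (nat_lit 234) (nat_lit 0) (nat_lit 0) (XT.nd (nat_lit 78) (nat_lit 0) (nat_lit 0) (XT.lf (nat_lit 0) (nat_lit 47408830405) (nat_lit 152) (nat_lit 289015727064) (nat_lit 0) (nat_lit 25430881968) (nat_lit 1) (nat_lit 5) (nat_lit 3) (nat_lit 4) (nat_lit 1) (nat_lit 4) (nat_lit 312) (nat_lit 244) (nat_lit 164)) (XT.nd (nat_lit 78) (nat_lit 0) (nat_lit 0) (XT.lf (nat_lit 0) (nat_lit 56826363810) (nat_lit 152) (nat_lit 298527259571) (nat_lit 0) (nat_lit 34844958573) (nat_lit 1) (nat_lit 5) (nat_lit 3) (nat_lit 4) (nat_lit 1) (nat_lit 4) (nat_lit 313) (nat_lit 244) (nat_lit 163)) (XT.lf (nat_lit 0) (nat_lit 66995076102) (nat_lit 152) (nat_lit 308803811869) (nat_lit 0) (nat_lit 45010470125) (nat_lit 1) (nat_lit 5) (nat_lit 3) (nat_lit 4) (nat_lit 1) (nat_lit 4) (nat_lit 314) (nat_lit 244) (nat_lit 162)))) (XT.nd (nat_lit 78) (nat_lit 0) (nat_lit 0) (XT.lf (nat_lit 0) (nat_lit 77975226316)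 (nat_lit 152) (nat_lit 319906282046) (nat_lit 0) (nat_lit 55987656692) (nat_lit 1) (nat_lit 5) (nat_lit 3) (nat_lit 4) (nat_lit 1) (nat_lit 4) (nat_lit 315) (nat_lit 244) (nat_lit 161)) (XT.nd (nat_lit 78) (nat_lit 0) (nat_lit 0) (XT.lf (nat_lit 0) (nat_lit 89831882011) (nat_lit 152) (nat_lit 331900462516) (nat_lit 0) (nat_lit 67841568268) (nat_lit 1) (nat_lit 5) (nat_lit 3) (nat_lit 4) (nat_lit 1) (nat_lit 4) (nat_lit 316) (nat_lit 244) (nat_lit 160)) (XT.lf (nat_lit 0) (nat_lit 102635304848) (nat_lit 152) (nat_lit 344857429905) (nat_lit 0) (nat_lit 80642450255) (nat_lit 1) (nat_lit 5) (nat_lit 3) (nat_lit 4) (nat_lit 1) (nat_lit 4) (nat_lit 317) (nat_lit 244) (nat_lit 159))))) (XT.nd (nat_lit 234) (nat_lit 0) (nat_lit 0) (XT.nd (nat_lit 78) (nat_lit 0) (nat_lit 0) (XT.lf (nat_lit 0) (nat_lit 116461366964) (nat_lit 152) (nat_lit 358853966243) (nat_lit 0) (nat_lit 94466159732) (nat_lit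 1) (nat_lit 5) (nat_lit 3) (nat_lit 4) (nat_lit 1) (nat_lit 4) (nat_lit 318) (nat_lit 244) (nat_lit 158)) (XT.nd (nat_lit 78) (nat_lit 0) (nat_lit 0) (XT.lf (nat_lit 0) (nat_lit 131392000578) (nat_lit 152) (nat_lit 373973013967) (nat_lit 0) (nat_lit 109394614976) (nat_lit 1) (nat_lit 5) (nat_lit 3) (nat_lit 4) (nat_lit 1) (nat_lit 4) (nat_lit 319) (nat_lit 244) (nat_lit 157)) (XT.lf (nat_lit 0) (nat_lit 147515683520) (nat_lit 152) (nat_lit 390304167432) (nat_lit 0) (nat_lit 125516280909) (nat_lit 1) (nat_lit 5) (nat_lit 3) (nat_lit 4) (nat_lit 1) (nat_lit 4) (nat_lit 320) (nat_lit 244) (nat_lit 156)))) (XT.nd (nat_lit 78) (nat_lit 0) (nat_lit 0) (XT.lf (nat_lit 0) (nat_lit 164927963539) (nat_lit 152) (nat_lit 407944203847) (nat_lit 0) (nat_lit 142926693327) (nat_lit 1) (nat_lit 5) (nat_lit 3) (nat_lit 4) (nat_lit 1) (nat_lit 4) (nat_lit 321) (nat_lit 244) (nat_lit 155)) (XT.nd (nat_lit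 78) (nat_lit 0) (nat_lit 0) (XT.lf (nat_lit 0) (nat_lit 183732024518) (nat_lit 152) (nat_lit 426997656758) (nat_lit 0) (nat_lit 161729025046) (nat_lit 1) (nat_lit 5) (nat_lit 3) (nat_lit 4) (nat_lit 1) (nat_lit 4) (nat_lit 322) (nat_lit 244) (nat_lit 154)) (XT.lf (nat_lit 0) (nat_lit 204039297929) (nat_lit 152) (nat_lit 447577435518) (nat_lit 0) (nat_lit 182034697290) (nat_lit 1) (nat_lit 5) (nat_lit 3) (nat_lit 4) (nat_lit 1) (nat_lit 4) (nat_lit 323) (nat_lit 244) (nat_lit 153))))))))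
noncomputable def xc59 : XT := (XT.nd (nat_lit 32214) (nat_lit 0) (nat_lit 456) (XT.nd (nat_lit 936) (nat_lit 0) (nat_lit 0) (XT.nd (nat_lit 468) (nat_lit 0) (nat_lit 0) (XT.nd (nat_lit 234) (nat_lit 0) (nat_lit 0) (XT.nd (nat_lit 78) (nat_lit 0) (nat_lit 0) (XT.lf (nat_lit 0) (nat_lit 225970123170) (nat_lit 152) (nat_lit 469805494370) (nat_lit 0) (nat_lit 203964039969) (nat_lit 1) (nat_lit 5) (nat_lit 3) (nat_lit 4) (nat_lit 1) (nat_lit 4) (nat_lit 324) (nat_lit 244) (nat_lit 152)) (XT.nd (nat_lit 78) (nat_lit 0) (nat_lit 0) (XT.lf (nat_lit 0) (nat_lit 249654460687) (nat_lit 152) (nat_lit 493813555145) (nat_lit 0) (nat_lit 227647004744) (nat_lit 1) (nat_lit 5) (nat_lit 3) (nat_lit 4) (nat_lit 1) (nat_lit 4) (nat_lit 325) (nat_lit 244) (nat_lit 151)) (XT.lf (nat_lit 0) (nat_lit 275232662109) (nat_lit 152) (nat_lit 519743887832) (nat_lit 0) (nat_lit 253223935108) (nat_lit 1) (nat_lit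 5) (nat_lit 3) (nat_lit 4) (nat_lit 1) (nat_lit 4) (nat_lit 326) (nat_lit 244) (nat_lit 150)))) (XT.nd (nat_lit 78) (nat_lit 0) (nat_lit 0) (XT.lf (nat_lit 0) (nat_lit 302856301964) (nat_lit 152) (nat_lit 547750153663) (nat_lit 0) (nat_lit 280846398058) (nat_lit 1) (nat_lit 5) (nat_lit 3) (nat_lit 4) (nat_lit 1) (nat_lit 4) (nat_lit 327) (nat_lit 244) (nat_lit 149)) (XT.nd (nat_lit 78) (nat_lit 0) (nat_lit 0) (XT.lf (nat_lit 0) (nat_lit 332689075896) (nat_lit 152) (nat_lit 577998315694) (nat_lit 0) (nat_lit 310678082262) (nat_lit 1) (nat_lit 5) (nat_lit 3) (nat_lit 4) (nat_lit 1) (nat_lit 4) (nat_lit 328) (nat_lit 244) (nat_lit 148)) (XT.lf (nat_lit 0) (nat_lit 364907770711) (nat_lit 152) (nat_lit 610667622292) (nat_lit 0) (nat_lit 342895768071) (nat_lit 1) (nat_lit 5) (nat_lit 3) (nat_lit 4) (nat_lit 1) (nat_lit 4) (nat_lit 329) (nat_lit 244) (nat_lit 147))))) (XT.nd (nat_lit 234)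 (nat_lit 0) (nat_lit 0) (XT.nd (nat_lit 78) (nat_lit 0) (nat_lit 0) (XT.lf (nat_lit 0) (nat_lit 399703312011) (nat_lit 152) (nat_lit 645951669349) (nat_lit 0) (nat_lit 377690375105) (nat_lit 1) (nat_lit 5) (nat_lit 3) (nat_lit 4) (nat_lit 1) (nat_lit 4) (nat_lit 330) (nat_lit 244) (nat_lit 146)) (XT.nd (nat_lit 78) (nat_lit 0) (nat_lit 0) (XT.lf (nat_lit 0) (nat_lit 437281895594) (nat_lit 152) (nat_lit 684059547513) (nat_lit 0) (nat_lit 415268093628) (nat_lit 1) (nat_lit 5) (nat_lit 3) (nat_lit 4) (nat_lit 1) (nat_lit 4) (nat_lit 331) (nat_lit 244) (nat_lit 145)) (XT.lf (nat_lit 0) (nat_lit 477866209364) (nat_lit 152) (nat_lit 725217081249) (nat_lit 0) (nat_lit 455851606416) (nat_lit 1) (nat_lit 5) (nat_lit 3) (nat_lit 4) (nat_lit 1) (nat_lit 4) (nat_lit 332) (nat_lit 244) (nat_lit 144)))) (XT.nd (nat_lit 78) (nat_lit 0) (nat_lit 0) (XT.lf (nat_lit 0) (nat_lit 521696752957) (nat_lit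 152) (nat_lit 769668167052) (nat_lit 0) (nat_lit 499681408359) (nat_lit 1) (nat_lit 5) (nat_lit 3) (nat_lit 4) (nat_lit 1) (nat_lit 4) (nat_lit 333) (nat_lit 244) (nat_lit 143)) (XT.nd (nat_lit 78) (nat_lit 0) (nat_lit 0) (XT.lf (nat_lit 0) (nat_lit 569033262929) (nat_lit 152) (nat_lit 817676218764) (nat_lit 0) (nat_lit 547017231618) (nat_lit 1) (nat_lit 5) (nat_lit 3) (nat_lit 4) (nat_lit 1) (nat_lit 4) (nat_lit 334) (nat_lit 244) (nat_lit 142)) (XT.lf (nat_lit 0) (nat_lit 620156251931) (nat_lit 152) (nat_lit 869525728543) (nat_lit 0) (nat_lit 598139584775) (nat_lit 1) (nat_lit 5) (nat_lit 3) (nat_lit 4) (nat_lit 1) (nat_lit 4) (nat_lit 335) (nat_lit 244) (nat_lit 141)))))) (XT.nd (nat_lit 30810) (nat_lit 0) (nat_lit 2204) (XT.nd (nat_lit 30576) (nat_lit 0) (nat_lit 3268) (XT.nd (nat_lit 30420) (nat_lit 0) (nat_lit 3268) (XT.lf (nat_lit 0) (nat_lit 675368671009) (nat_lit 152) (nat_lit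 925523952744) (nat_lit 0) (nat_lit 653351415107) (nat_lit 1) (nat_lit 5) (nat_lit 3) (nat_lit 4) (nat_lit 1) (nat_lit 4) (nat_lit 336) (nat_lit 244) (nat_lit 140)) (XT.nd (nat_lit 78) (nat_lit 0) (nat_lit 0) (XT.lf (nat_lit 0) (nat_lit 618166710) (nat_lit 380) (nat_lit 1488207083) (nat_lit 380) (nat_lit 1488207083) (nat_lit 44) (nat_lit 3) (nat_lit 49) (nat_lit 3) (nat_lit 49) (nat_lit 5) (nat_lit 245) (nat_lit 245) (nat_lit 230)) (XT.lf (nat_lit 76) (nat_lit 88526205) (nat_lit 0) (nat_lit 2639531930) (nat_lit 380) (nat_lit 4621398376) (nat_lit 45) (nat_lit 5) (nat_lit 44) (nat_lit 3) (nat_lit 49) (nat_lit 5) (nat_lit 246) (nat_lit 245) (nat_lit 229)))) (XT.nd (nat_lit 78) (nat_lit 0) (nat_lit 76) (XT.lf (nat_lit 76) (nat_lit 3485404841) (nat_lit 0) (nat_lit 789028114) (nat_lit 380) (nat_lit 3254506496) (nat_lit 45) (nat_lit 5) (nat_lit 44) (nat_lit 3) (nat_lit 49) (nat_lit 5) (nat_lit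 247) (nat_lit 245) (nat_lit 228)) (XT.nd (nat_lit 78) (nat_lit 0) (nat_lit 0) (XT.lf (nat_lit 0) (nat_lit 5839773159) (nat_lit 304) (nat_lit 687587493) (nat_lit 380) (nat_lit 1204901398) (nat_lit 45) (nat_lit 5) (nat_lit 49) (nat_lit 5) (nat_lit 50) (nat_lit 5) (nat_lit 248) (nat_lit 245) (nat_lit 227)) (XT.lf (nat_lit 76) (nat_lit 2982431354) (nat_lit 0) (nat_lit 4516211107) (nat_lit 380) (nat_lit 456763712) (nat_lit 46) (nat_lit 5) (nat_lit 45) (nat_lit 5) (nat_lit 50) (nat_lit 5) (nat_lit 249) (nat_lit 245) (nat_lit 226))))) (XT.nd (nat_lit 234) (nat_lit 760) (nat_lit 0) (XT.nd (nat_lit 78) (nat_lit 0) (nat_lit 76) (XT.lf (nat_lit 0) (nat_lit 937773732) (nat_lit 380) (nat_lit 1324762161) (nat_lit 456) (nat_lit 5940742071) (nat_lit 40) (nat_lit 5) (nat_lit 45) (nat_lit 5) (nat_lit 46) (nat_lit 5) (nat_lit 250) (nat_lit 245) (nat_lit 225)) (XT.nd (nat_lit 78) (nat_lit 0) (nat_lit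 0) (XT.lf (nat_lit 0) (nat_lit 2378167536) (nat_lit 380) (nat_lit 5826933141) (nat_lit 76) (nat_lit 269021668) (nat_lit 41) (nat_lit 5) (nat_lit 46) (nat_lit 5) (nat_lit 42) (nat_lit 5) (nat_lit 251) (nat_lit 245) (nat_lit 224)) (XT.lf (nat_lit 0) (nat_lit 3925016083) (nat_lit 380) (nat_lit 1900622950) (nat_lit 76) (nat_lit 2942447014) (nat_lit 41) (nat_lit 5) (nat_lit 46) (nat_lit 5) (nat_lit 42) (nat_lit 5) (nat_lit 252) (nat_lit 245) (nat_lit 223)))) (XT.nd (nat_lit 78) (nat_lit 456) (nat_lit 0) (XT.lf (nat_lit 0) (nat_lit 2375849562) (nat_lit 380) (nat_lit 3179952111) (nat_lit 456) (nat_lit 3533644145) (nat_lit 36) (nat_lit 5) (nat_lit 41) (nat_lit 5) (nat_lit 42) (nat_lit 5) (nat_lit 253) (nat_lit 245) (nat_lit 222)) (XT.nd (nat_lit 78) (nat_lit 456) (nat_lit 0) (XT.lf (nat_lit 0) (nat_lit 7021833879) (nat_lit 380) (nat_lit 255473296) (nat_lit 456) (nat_lit 2163029320) (nat_lit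 36) (nat_lit 5) (nat_lit 41) (nat_lit 5) (nat_lit 42) (nat_lit 5) (nat_lit 254) (nat_lit 245) (nat_lit 221)) (XT.lf (nat_lit 0) (nat_lit 2176928723) (nat_lit 456) (nat_lit 6997105129) (nat_lit 532) (nat_lit 642859597) (nat_lit 30) (nat_lit 5) (nat_lit 36) (nat_lit 5) (nat_lit 37) (nat_lit 5) (nat_lit 255) (nat_lit 245) (nat_lit 220))))))) (XT.nd (nat_lit 936) (nat_lit 684) (nat_lit 0) (XT.nd (nat_lit 468) (nat_lit 380) (nat_lit 0) (XT.nd (nat_lit 234) (nat_lit 380) (nat_lit 0) (XT.nd (nat_lit 78) (nat_lit 228) (nat_lit 0) (XT.lf (nat_lit 0) (nat_lit 940493635) (nat_lit 532) (nat_lit 3058270268) (nat_lit 76) (nat_lit 6224076100) (nat_lit 29) (nat_lit 5) (nat_lit 36) (nat_lit 5) (nat_lit 30) (nat_lit 5) (nat_lit 256) (nat_lit 245) (nat_lit 219)) (XT.nd (nat_lit 78) (nat_lit 0) (nat_lit 0) (XT.lf (nat_lit 0) (nat_lit 1888915338) (nat_lit 228) (nat_lit 695501541) (nat_lit 304) (nat_lit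 8078491358) (nat_lit 26) (nat_lit 5) (nat_lit 29) (nat_lit 5) (nat_lit 30) (nat_lit 5) (nat_lit 257) (nat_lit 245) (nat_lit 218)) (XT.lf (nat_lit 0) (nat_lit 4441668050) (nat_lit 304) (nat_lit 3879956598) (nat_lit 76) (nat_lit 2810449557) (nat_lit 26) (nat_lit 5) (nat_lit 30) (nat_lit 5) (nat_lit 27) (nat_lit 5) (nat_lit 258) (nat_lit 245) (nat_lit 217)))) (XT.nd (nat_lit 78) (nat_lit 228) (nat_lit 0) (XT.lf (nat_lit 0) (nat_lit 1379682355) (nat_lit 152) (nat_lit 5051425770) (nat_lit 228) (nat_lit 5209381626) (nat_lit 24) (nat_lit 5) (nat_lit 26) (nat_lit 5) (nat_lit 27) (nat_lit 5) (nat_lit 259) (nat_lit 245) (nat_lit 216)) (XT.nd (nat_lit 78) (nat_lit 228) (nat_lit 0) (XT.lf (nat_lit 0) (nat_lit 7205822560) (nat_lit 152) (nat_lit 1415536383) (nat_lit 228) (nat_lit 3565262156) (nat_lit 24) (nat_lit 5) (nat_lit 26) (nat_lit 5) (nat_lit 27) (nat_lit 5) (nat_lit 260) (nat_lit 245) (nat_lit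 215)) (XT.lf (nat_lit 0) (nat_lit 617861622) (nat_lit 228) (nat_lit 10384332230) (nat_lit 304) (nat_lit 1773367205) (nat_lit 21) (nat_lit 5) (nat_lit 24) (nat_lit 5) (nat_lit 25) (nat_lit 5) (nat_lit 261) (nat_lit 245) (nat_lit 214))))) (XT.nd (nat_lit 234) (nat_lit 152) (nat_lit 0) (XT.nd (nat_lit 78) (nat_lit 152) (nat_lit 0) (XT.lf (nat_lit 0) (nat_lit 271283734) (nat_lit 304) (nat_lit 6573028177) (nat_lit 76) (nat_lit 6557890354) (nat_lit 20) (nat_lit 5) (nat_lit 24) (nat_lit 5) (nat_lit 21) (nat_lit 5) (nat_lit 262) (nat_lit 245) (nat_lit 213)) (XT.nd (nat_lit 78) (nat_lit 152) (nat_lit 0) (XT.lf (nat_lit 0) (nat_lit 2329082169) (nat_lit 304) (nat_lit 657816994) (nat_lit 76) (nat_lit 11093035663) (nat_lit 20) (nat_lit 5) (nat_lit 24) (nat_lit 5) (nat_lit 21) (nat_lit 5) (nat_lit 263) (nat_lit 245) (nat_lit 212)) (XT.lf (nat_lit 0) (nat_lit 4676104005) (nat_lit 228) (nat_lit 8872469748)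 (nat_lit 76) (nat_lit 1253599495) (nat_lit 18) (nat_lit 5) (nat_lit 21) (nat_lit 5) (nat_lit 19) (nat_lit 5) (nat_lit 264) (nat_lit 245) (nat_lit 211)))) (XT.nd (nat_lit 78) (nat_lit 152) (nat_lit 0) (XT.lf (nat_lit 0) (nat_lit 7258214048) (nat_lit 228) (nat_lit 2644237848) (nat_lit 76) (nat_lit 5676189047) (nat_lit 18) (nat_lit 5) (nat_lit 21) (nat_lit 5) (nat_lit 19) (nat_lit 5) (nat_lit 265) (nat_lit 245) (nat_lit 210)) (XT.nd (nat_lit 78) (nat_lit 0) (nat_lit 0) (XT.lf (nat_lit 0) (nat_lit 4231841566) (nat_lit 152) (nat_lit 5871726863) (nat_lit 228) (nat_lit 6309342393) (nat_lit 16) (nat_lit 5) (nat_lit 18) (nat_lit 5) (nat_lit 19) (nat_lit 5) (nat_lit 266) (nat_lit 245) (nat_lit 209)) (XT.lf (nat_lit 0) (nat_lit 11747854868) (nat_lit 152) (nat_lit 1457779040) (nat_lit 228) (nat_lit 4106164364) (nat_lit 16) (nat_lit 5) (nat_lit 18) (nat_lit 5) (nat_lit 19) (nat_lit 5) (nat_lit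 267) (nat_lit 245) (nat_lit 208)))))) (XT.nd (nat_lit 468) (nat_lit 380) (nat_lit 0) (XT.nd (nat_lit 234) (nat_lit 152) (nat_lit 0) (XT.nd (nat_lit 78) (nat_lit 76) (nat_lit 0) (XT.lf (nat_lit 0) (nat_lit 1519946178) (nat_lit 76) (nat_lit 15111661677) (nat_lit 152) (nat_lit 1645117002) (nat_lit 15) (nat_lit 5) (nat_lit 16) (nat_lit 5) (nat_lit 17) (nat_lit 4) (nat_lit 268) (nat_lit 245) (nat_lit 207)) (XT.nd (nat_lit 78) (nat_lit 0) (nat_lit 0) (XT.lf (nat_lit 0) (nat_lit 1116128795) (nat_lit 152) (nat_lit 9945698089) (nat_lit 76) (nat_lit 8242912482) (nat_lit 14) (nat_lit 5) (nat_lit 16) (nat_lit 5) (nat_lit 15) (nat_lit 5) (nat_lit 269) (nat_lit 245) (nat_lit 206)) (XT.lf (nat_lit 0) (nat_lit 3972391384) (nat_lit 152) (nat_lit 2687852210) (nat_lit 76) (nat_lit 13754442243) (nat_lit 14) (nat_lit 5) (nat_lit 16) (nat_lit 5) (nat_lit 15) (nat_lit 5) (nat_lit 270) (nat_lit 245) (nat_lit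 205)))) (XT.nd (nat_lit 78) (nat_lit 0) (nat_lit 0) (XT.lf (nat_lit 0) (nat_lit 5367855385) (nat_lit 152) (nat_lit 1784133845) (nat_lit 228) (nat_lit 14453989941) (nat_lit 12) (nat_lit 5) (nat_lit 14) (nat_lit 5) (nat_lit 15) (nat_lit 5) (nat_lit 271) (nat_lit 245) (nat_lit 204)) (XT.nd (nat_lit 78) (nat_lit 0) (nat_lit 0) (XT.lf (nat_lit 0) (nat_lit 10711760725) (nat_lit 228) (nat_lit 8803810069) (nat_lit 76) (nat_lit 3367068388) (nat_lit 12) (nat_lit 5) (nat_lit 15) (nat_lit 5) (nat_lit 13) (nat_lit 4) (nat_lit 272) (nat_lit 245) (nat_lit 203)) (XT.lf (nat_lit 0) (nat_lit 14571787105) (nat_lit 228) (nat_lit 869556173) (nat_lit 76) (nat_lit 8818969078) (nat_lit 12) (nat_lit 5) (nat_lit 15) (nat_lit 5) (nat_lit 13) (nat_lit 4) (nat_lit 273) (nat_lit 245) (nat_lit 202))))) (XT.nd (nat_lit 234) (nat_lit 304) (nat_lit 0) (XT.nd (nat_lit 78) (nat_lit 0) (nat_lit 0) (XT.lf (nat_lit 0) (nat_lit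 8057639945) (nat_lit 76) (nat_lit 10848180627) (nat_lit 152) (nat_lit 6829271873) (nat_lit 11) (nat_lit 5) (nat_lit 12) (nat_lit 5) (nat_lit 13) (nat_lit 4) (nat_lit 274) (nat_lit 245) (nat_lit 201)) (XT.nd (nat_lit 78) (nat_lit 0) (nat_lit 0) (XT.lf (nat_lit 0) (nat_lit 17704726360) (nat_lit 76) (nat_lit 5878109358) (nat_lit 152) (nat_lit 3745419857) (nat_lit 11) (nat_lit 5) (nat_lit 12) (nat_lit 5) (nat_lit 13) (nat_lit 4) (nat_lit 275) (nat_lit 245) (nat_lit 200)) (XT.lf (nat_lit 0) (nat_lit 28083081702) (nat_lit 76) (nat_lit 525452403) (nat_lit 152) (nat_lit 442469730) (nat_lit 11) (nat_lit 5) (nat_lit 12) (nat_lit 5) (nat_lit 13) (nat_lit 4) (nat_lit 276) (nat_lit 245) (nat_lit 199)))) (XT.nd (nat_lit 156) (nat_lit 76) (nat_lit 0) (XT.nd (nat_lit 78) (nat_lit 0) (nat_lit 0) (XT.lf (nat_lit 0) (nat_lit 3286818417) (nat_lit 228) (nat_lit 22322865632) (nat_lit 76) (nat_lit 5270483364)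 (nat_lit 8) (nat_lit 5) (nat_lit 11) (nat_lit 5) (nat_lit 9) (nat_lit 4) (nat_lit 277) (nat_lit 245) (nat_lit 198)) (XT.lf (nat_lit 0) (nat_lit 7307598927) (nat_lit 228) (nat_lit 14019256833) (nat_lit 76) (nat_lit 11526599064) (nat_lit 8) (nat_lit 5) (nat_lit 11) (nat_lit 5) (nat_lit 9) (nat_lit 4) (nat_lit 278) (nat_lit 245) (nat_lit 197))) (XT.nd (nat_lit 78) (nat_lit 76) (nat_lit 0) (XT.lf (nat_lit 0) (nat_lit 11628054795) (nat_lit 228) (nat_lit 5087907387) (nat_lit 76) (nat_lit 18270470990) (nat_lit 8) (nat_lit 5) (nat_lit 11) (nat_lit 5) (nat_lit 9) (nat_lit 4) (nat_lit 279) (nat_lit 245) (nat_lit 196)) (XT.lf (nat_lit 0) (nat_lit 4762340796) (nat_lit 76) (nat_lit 11625982339) (nat_lit 152) (nat_lit 20894256442) (nat_lit 7) (nat_lit 5) (nat_lit 8) (nat_lit 5) (nat_lit 9) (nat_lit 4) (nat_lit 280) (nat_lit 245) (nat_lit 195))))))))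
noncomputable def xc60 : XT := (XT.nd (nat_lit 1872) (nat_lit 152) (nat_lit 0) (XT.nd (nat_lit 936) (nat_lit 76) (nat_lit 0) (XT.nd (nat_lit 468) (nat_lit 76) (nat_lit 0) (XT.nd (nat_lit 234) (nat_lit 152) (nat_lit 0) (XT.nd (nat_lit 78) (nat_lit 0) (nat_lit 0) (XT.lf (nat_lit 0) (nat_lit 15656978571) (nat_lit 76) (nat_lit 5991903128) (nat_lit 152) (nat_lit 18104037631) (nat_lit 7) (nat_lit 5) (nat_lit 8) (nat_lit 5) (nat_lit 9) (nat_lit 4) (nat_lit 281) (nat_lit 245) (nat_lit 194)) (XT.nd (nat_lit 78) (nat_lit 0) (nat_lit 0) (XT.lf (nat_lit 0) (nat_lit 27314033622) (nat_lit 152) (nat_lit 15031686772) (nat_lit 0) (nat_lit 76520733) (nat_lit 7) (nat_lit 5) (nat_lit 9) (nat_lit 4) (nat_lit 7) (nat_lit 4) (nat_lit 282) (nat_lit 245) (nat_lit 193)) (XT.lf (nat_lit 0) (nat_lit 33570915219) (nat_lit 152) (nat_lit 5427327768) (nat_lit 0) (nat_lit 6295834981) (nat_lit 7) (nat_lit 5) (nat_lit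 9) (nat_lit 4) (nat_lit 7) (nat_lit 4) (nat_lit 283) (nat_lit 245) (nat_lit 192)))) (XT.nd (nat_lit 78) (nat_lit 76) (nat_lit 0) (XT.lf (nat_lit 0) (nat_lit 5177137787) (nat_lit 76) (nat_lit 35259871393) (nat_lit 76) (nat_lit 7950006574) (nat_lit 6) (nat_lit 4) (nat_lit 7) (nat_lit 5) (nat_lit 7) (nat_lit 4) (nat_lit 284) (nat_lit 245) (nat_lit 191)) (XT.nd (nat_lit 78) (nat_lit 76) (nat_lit 0) (XT.lf (nat_lit 0) (nat_lit 16912083162) (nat_lit 76) (nat_lit 31073387612) (nat_lit 76) (nat_lit 3731314847) (nat_lit 6) (nat_lit 4) (nat_lit 7) (nat_lit 5) (nat_lit 7) (nat_lit 4) (nat_lit 285) (nat_lit 245) (nat_lit 190)) (XT.lf (nat_lit 0) (nat_lit 769023890) (nat_lit 152) (nat_lit 25772325245) (nat_lit 76) (nat_lit 28771204945) (nat_lit 5) (nat_lit 5) (nat_lit 7) (nat_lit 5) (nat_lit 6) (nat_lit 4) (nat_lit 286) (nat_lit 245) (nat_lit 189))))) (XT.nd (nat_lit 234) (nat_lit 0) (nat_lit 0)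 (XT.nd (nat_lit 78) (nat_lit 76) (nat_lit 0) (XT.lf (nat_lit 0) (nat_lit 5414297291) (nat_lit 152) (nat_lit 16137769693) (nat_lit 76) (nat_lit 37637278517) (nat_lit 5) (nat_lit 5) (nat_lit 7) (nat_lit 5) (nat_lit 6) (nat_lit 4) (nat_lit 287) (nat_lit 245) (nat_lit 188)) (XT.nd (nat_lit 78) (nat_lit 76) (nat_lit 0) (XT.lf (nat_lit 0) (nat_lit 10418688382) (nat_lit 152) (nat_lit 5754203929) (nat_lit 76) (nat_lit 47204420209) (nat_lit 5) (nat_lit 5) (nat_lit 7) (nat_lit 5) (nat_lit 6) (nat_lit 4) (nat_lit 288) (nat_lit 245) (nat_lit 187)) (XT.lf (nat_lit 0) (nat_lit 5726360006) (nat_lit 76) (nat_lit 10223211904) (nat_lit 152) (nat_lit 51940683283) (nat_lit 4) (nat_lit 5) (nat_lit 5) (nat_lit 5) (nat_lit 6) (nat_lit 4) (nat_lit 289) (nat_lit 245) (nat_lit 186)))) (XT.nd (nat_lit 78) (nat_lit 0) (nat_lit 0) (XT.lf (nat_lit 0) (nat_lit 18432982871) (nat_lit 76) (nat_lit 3636080891) (nat_lit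 152) (nat_lit 50683505899) (nat_lit 4) (nat_lit 5) (nat_lit 5) (nat_lit 5) (nat_lit 6) (nat_lit 4) (nat_lit 290) (nat_lit 245) (nat_lit 185)) (XT.nd (nat_lit 78) (nat_lit 0) (nat_lit 0) (XT.lf (nat_lit 0) (nat_lit 28751210069) (nat_lit 152) (nat_lit 45950225260) (nat_lit 0) (nat_lit 3296611712) (nat_lit 4) (nat_lit 5) (nat_lit 6) (nat_lit 4) (nat_lit 4) (nat_lit 4) (nat_lit 291) (nat_lit 245) (nat_lit 184)) (XT.lf (nat_lit 0) (nat_lit 36052601949) (nat_lit 152) (nat_lit 37023207595) (nat_lit 0) (nat_lit 10580602642) (nat_lit 4) (nat_lit 5) (nat_lit 6) (nat_lit 4) (nat_lit 4) (nat_lit 4) (nat_lit 292) (nat_lit 245) (nat_lit 183)))))) (XT.nd (nat_lit 468) (nat_lit 0) (nat_lit 0) (XT.nd (nat_lit 234) (nat_lit 76) (nat_lit 0) (XT.nd (nat_lit 78) (nat_lit 0) (nat_lit 0) (XT.lf (nat_lit 0) (nat_lit 43929059079) (nat_lit 152) (nat_lit 27398185117) (nat_lit 0) (nat_lit 18440947780) (nat_lit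 4) (nat_lit 5) (nat_lit 6) (nat_lit 4) (nat_lit 4) (nat_lit 4) (nat_lit 293) (nat_lit 245) (nat_lit 182)) (XT.nd (nat_lit 78) (nat_lit 0) (nat_lit 0) (XT.lf (nat_lit 0) (nat_lit 52427256759) (nat_lit 152) (nat_lit 17018120656) (nat_lit 0) (nat_lit 26924226949) (nat_lit 4) (nat_lit 5) (nat_lit 6) (nat_lit 4) (nat_lit 4) (nat_lit 4) (nat_lit 294) (nat_lit 245) (nat_lit 181)) (XT.lf (nat_lit 0) (nat_lit 61597554679) (nat_lit 152) (nat_lit 5821502719) (nat_lit 0) (nat_lit 36080711433) (nat_lit 4) (nat_lit 5) (nat_lit 6) (nat_lit 4) (nat_lit 4) (nat_lit 4) (nat_lit 295) (nat_lit 245) (nat_lit 180)))) (XT.nd (nat_lit 78) (nat_lit 0) (nat_lit 0) (XT.lf (nat_lit 0) (nat_lit 6587555213) (nat_lit 76) (nat_lit 65065170994) (nat_lit 76) (nat_lit 39535537529) (nat_lit 3) (nat_lit 4) (nat_lit 4) (nat_lit 5) (nat_lit 4) (nat_lit 4) (nat_lit 296) (nat_lit 245) (nat_lit 179)) (XT.nd (nat_lit 78) (nat_lit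 0) (nat_lit 0) (XT.lf (nat_lit 0) (nat_lit 20307910868) (nat_lit 76) (nat_lit 62356620988) (nat_lit 76) (nat_lit 36815144729) (nat_lit 3) (nat_lit 4) (nat_lit 4) (nat_lit 5) (nat_lit 4) (nat_lit 4) (nat_lit 297) (nat_lit 245) (nat_lit 178)) (XT.lf (nat_lit 0) (nat_lit 35114320039) (nat_lit 76) (nat_lit 59436526916) (nat_lit 76) (nat_lit 33884085106) (nat_lit 3) (nat_lit 4) (nat_lit 4) (nat_lit 5) (nat_lit 4) (nat_lit 4) (nat_lit 298) (nat_lit 245) (nat_lit 177))))) (XT.nd (nat_lit 234) (nat_lit 0) (nat_lit 0) (XT.nd (nat_lit 78) (nat_lit 0) (nat_lit 0) (XT.lf (nat_lit 0) (nat_lit 51094524410) (nat_lit 76) (nat_lit 56287584516) (nat_lit 76) (nat_lit 30724989418) (nat_lit 3) (nat_lit 4) (nat_lit 4) (nat_lit 5) (nat_lit 4) (nat_lit 4) (nat_lit 299) (nat_lit 245) (nat_lit 176)) (XT.nd (nat_lit 78) (nat_lit 0) (nat_lit 0) (XT.lf (nat_lit 0) (nat_lit 68343221489) (nat_lit 76) (nat_lit 52891133389)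 (nat_lit 76) (nat_lit 27319137098) (nat_lit 3) (nat_lit 4) (nat_lit 4) (nat_lit 5) (nat_lit 4) (nat_lit 4) (nat_lit 300) (nat_lit 245) (nat_lit 175)) (XT.lf (nat_lit 0) (nat_lit 86962625777) (nat_lit 76) (nat_lit 49227046417) (nat_lit 76) (nat_lit 23646345318) (nat_lit 3) (nat_lit 4) (nat_lit 4) (nat_lit 5) (nat_lit 4) (nat_lit 4) (nat_lit 301) (nat_lit 245) (nat_lit 174)))) (XT.nd (nat_lit 78) (nat_lit 0) (nat_lit 0) (XT.lf (nat_lit 0) (nat_lit 107063074484) (nat_lit 76) (nat_lit 45273610492) (nat_lit 76) (nat_lit 19684849386) (nat_lit 3) (nat_lit 4) (nat_lit 4) (nat_lit 5) (nat_lit 4) (nat_lit 4) (nat_lit 302) (nat_lit 245) (nat_lit 173)) (XT.nd (nat_lit 78) (nat_lit 0) (nat_lit 0) (XT.lf (nat_lit 0) (nat_lit 128763681381) (nat_lit 76) (nat_lit 41007397845) (nat_lit 76) (nat_lit 15411173770) (nat_lit 3) (nat_lit 4) (nat_lit 4) (nat_lit 5) (nat_lit 4) (nat_lit 4) (nat_lit 303) (nat_lit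 245) (nat_lit 172)) (XT.lf (nat_lit 0) (nat_lit 152193042657) (nat_lit 76) (nat_lit 36403127218) (nat_lit 76) (nat_lit 10799992985) (nat_lit 3) (nat_lit 4) (nat_lit 4) (nat_lit 5) (nat_lit 4) (nat_lit 4) (nat_lit 304) (nat_lit 245) (nat_lit 171))))))) (XT.nd (nat_lit 936) (nat_lit 0) (nat_lit 0) (XT.nd (nat_lit 468) (nat_lit 0) (nat_lit 0) (XT.nd (nat_lit 234) (nat_lit 76) (nat_lit 0) (XT.nd (nat_lit 78) (nat_lit 76) (nat_lit 0) (XT.lf (nat_lit 0) (nat_lit 177489998971) (nat_lit 76) (nat_lit 31433514041) (nat_lit 76) (nat_lit 5823981515) (nat_lit 3) (nat_lit 4) (nat_lit 4) (nat_lit 5) (nat_lit 4) (nat_lit 4) (nat_lit 305) (nat_lit 245) (nat_lit 170)) (XT.nd (nat_lit 78) (nat_lit 76) (nat_lit 0) (XT.lf (nat_lit 0) (nat_lit 204804458212) (nat_lit 76) (nat_lit 26069108757) (nat_lit 76) (nat_lit 453651885) (nat_lit 3) (nat_lit 4) (nat_lit 4) (nat_lit 5) (nat_lit 4) (nat_lit 4) (nat_lit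 306) (nat_lit 245) (nat_lit 169)) (XT.lf (nat_lit 0) (nat_lit 5075550580) (nat_lit 152) (nat_lit 15063797169) (nat_lit 76) (nat_lit 229083958714) (nat_lit 2) (nat_lit 5) (nat_lit 4) (nat_lit 5) (nat_lit 3) (nat_lit 4) (nat_lit 307) (nat_lit 245) (nat_lit 168)))) (XT.nd (nat_lit 78) (nat_lit 76) (nat_lit 0) (XT.lf (nat_lit 0) (nat_lit 11019515677) (nat_lit 152) (nat_lit 2705428940) (nat_lit 76) (nat_lit 254825445324) (nat_lit 2) (nat_lit 5) (nat_lit 4) (nat_lit 5) (nat_lit 3) (nat_lit 4) (nat_lit 308) (nat_lit 245) (nat_lit 167)) (XT.nd (nat_lit 78) (nat_lit 0) (nat_lit 0) (XT.lf (nat_lit 0) (nat_lit 11196587825) (nat_lit 76) (nat_lit 6508850785) (nat_lit 152) (nat_lit 271696892114) (nat_lit 1) (nat_lit 5) (nat_lit 2) (nat_lit 5) (nat_lit 3) (nat_lit 4) (nat_lit 309) (nat_lit 245) (nat_lit 166)) (XT.lf (nat_lit 0) (nat_lit 25030219594) (nat_lit 152) (nat_lit 285589858599) (nat_lit 0)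 (nat_lit 1294035281) (nat_lit 1) (nat_lit 5) (nat_lit 3) (nat_lit 4) (nat_lit 1) (nat_lit 4) (nat_lit 310) (nat_lit 245) (nat_lit 165))))) (XT.nd (nat_lit 234) (nat_lit 0) (nat_lit 0) (XT.nd (nat_lit 78) (nat_lit 0) (nat_lit 0) (XT.lf (nat_lit 0) (nat_lit 33107450291) (nat_lit 152) (nat_lit 293738543577) (nat_lit 0) (nat_lit 9367532636) (nat_lit 1) (nat_lit 5) (nat_lit 3) (nat_lit 4) (nat_lit 1) (nat_lit 4) (nat_lit 311) (nat_lit 245) (nat_lit 164)) (XT.nd (nat_lit 78) (nat_lit 0) (nat_lit 0) (XT.lf (nat_lit 0) (nat_lit 41828457756) (nat_lit 152) (nat_lit 302543548318) (nat_lit 0) (nat_lit 18085083302) (nat_lit 1) (nat_lit 5) (nat_lit 3) (nat_lit 4) (nat_lit 1) (nat_lit 4) (nat_lit 312) (nat_lit 245) (nat_lit 163)) (XT.lf (nat_lit 0) (nat_lit 51244922033) (nat_lit 152) (nat_lit 312057050628) (nat_lit 0) (nat_lit 27498346839) (nat_lit 1) (nat_lit 5) (nat_lit 3) (nat_lit 4) (nat_lit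 1) (nat_lit 4) (nat_lit 313) (nat_lit 245) (nat_lit 162)))) (XT.nd (nat_lit 78) (nat_lit 0) (nat_lit 0) (XT.lf (nat_lit 0) (nat_lit 61412644392) (nat_lit 152) (nat_lit 322335426817) (nat_lit 0) (nat_lit 37663105550) (nat_lit 1) (nat_lit 5) (nat_lit 3) (nat_lit 4) (nat_lit 1) (nat_lit 4) (nat_lit 314) (nat_lit 245) (nat_lit 161)) (XT.nd (nat_lit 78) (nat_lit 0) (nat_lit 0) (XT.lf (nat_lit 0) (nat_lit 72391878002) (nat_lit 152) (nat_lit 333439585782) (nat_lit 0) (nat_lit 48639595042) (nat_lit 1) (nat_lit 5) (nat_lit 3) (nat_lit 4) (nat_lit 1) (nat_lit 4) (nat_lit 315) (nat_lit 245) (nat_lit 160)) (XT.lf (nat_lit 0) (nat_lit 84247684989) (nat_lit 152) (nat_lit 345435329946) (nat_lit 0) (nat_lit 60492861178) (nat_lit 1) (nat_lit 5) (nat_lit 3) (nat_lit 4) (nat_lit 1) (nat_lit 4) (nat_lit 316) (nat_lit 245) (nat_lit 159)))))) (XT.nd (nat_lit 468) (nat_lit 0) (nat_lit 0) (XT.nd (nat_lit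 234) (nat_lit 0) (nat_lit 0) (XT.nd (nat_lit 78) (nat_lit 0) (nat_lit 0) (XT.lf (nat_lit 0) (nat_lit 97050321985) (nat_lit 152) (nat_lit 358393745199) (nat_lit 0) (nat_lit 73293145535) (nat_lit 1) (nat_lit 5) (nat_lit 3) (nat_lit 4) (nat_lit 1) (nat_lit 4) (nat_lit 317) (nat_lit 245) (nat_lit 158)) (XT.nd (nat_lit 78) (nat_lit 0) (nat_lit 0) (XT.lf (nat_lit 0) (nat_lit 110875656471) (nat_lit 152) (nat_lit 372391622151) (nat_lit 0) (nat_lit 87116301651) (nat_lit 1) (nat_lit 5) (nat_lit 3) (nat_lit 4) (nat_lit 1) (nat_lit 4) (nat_lit 318) (nat_lit 245) (nat_lit 157)) (XT.lf (nat_lit 0) (nat_lit 125805616354) (nat_lit 152) (nat_lit 387511911185) (nat_lit 0) (nat_lit 102044244525) (nat_lit 1) (nat_lit 5) (nat_lit 3) (nat_lit 4) (nat_lit 1) (nat_lit 4) (nat_lit 319) (nat_lit 245) (nat_lit 156)))) (XT.nd (nat_lit 78) (nat_lit 0) (nat_lit 0) (XT.lf (nat_lit 0) (nat_lit 141928675469) (nat_lit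 152) (nat_lit 403844214012) (nat_lit 0) (nat_lit 118165436039) (nat_lit 1) (nat_lit 5) (nat_lit 3) (nat_lit 4) (nat_lit 1) (nat_lit 4) (nat_lit 320) (nat_lit 245) (nat_lit 155)) (XT.nd (nat_lit 78) (nat_lit 0) (nat_lit 0) (XT.lf (nat_lit 0) (nat_lit 159340377872) (nat_lit 152) (nat_lit 421485314649) (nat_lit 0) (nat_lit 135575409182) (nat_lit 1) (nat_lit 5) (nat_lit 3) (nat_lit 4) (nat_lit 1) (nat_lit 4) (nat_lit 321) (nat_lit 245) (nat_lit 154)) (XT.lf (nat_lit 0) (nat_lit 178143904021) (nat_lit 152) (nat_lit 440539752953) (nat_lit 0) (nat_lit 154377334165) (nat_lit 1) (nat_lit 5) (nat_lit 3) (nat_lit 4) (nat_lit 1) (nat_lit 4) (nat_lit 322) (nat_lit 245) (nat_lit 153))))) (XT.nd (nat_lit 234) (nat_lit 0) (nat_lit 0) (XT.nd (nat_lit 78) (nat_lit 0) (nat_lit 0) (XT.lf (nat_lit 0) (nat_lit 198450682219) (nat_lit 152) (nat_lit 461120444112) (nat_lit 0) (nat_lit 174682629801) (nat_lit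 1) (nat_lit 5) (nat_lit 3) (nat_lit 4) (nat_lit 1) (nat_lit 4) (nat_lit 323) (nat_lit 245) (nat_lit 152)) (XT.nd (nat_lit 78) (nat_lit 0) (nat_lit 0) (XT.lf (nat_lit 0) (nat_lit 220381048930) (nat_lit 152) (nat_lit 483349347779) (nat_lit 0) (nat_lit 196611623769) (nat_lit 1) (nat_lit 5) (nat_lit 3) (nat_lit 4) (nat_lit 1) (nat_lit 4) (nat_lit 324) (nat_lit 245) (nat_lit 151)) (XT.lf (nat_lit 0) (nat_lit 244064961882) (nat_lit 152) (nat_lit 507358190790) (nat_lit 0) (nat_lit 220294265663) (nat_lit 1) (nat_lit 5) (nat_lit 3) (nat_lit 4) (nat_lit 1) (nat_lit 4) (nat_lit 325) (nat_lit 245) (nat_lit 150)))) (XT.nd (nat_lit 78) (nat_lit 0) (nat_lit 0) (XT.lf (nat_lit 0) (nat_lit 269642770188) (nat_lit 152) (nat_lit 533289247770) (nat_lit 0) (nat_lit 245870897064) (nat_lit 1) (nat_lit 5) (nat_lit 3) (nat_lit 4) (nat_lit 1) (nat_lit 4) (nat_lit 326) (nat_lit 245) (nat_lit 149)) (XT.nd (nat_lit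 78) (nat_lit 0) (nat_lit 0) (XT.lf (nat_lit 0) (nat_lit 297266046047) (nat_lit 152) (nat_lit 561296184241) (nat_lit 0) (nat_lit 273493083196) (nat_lit 1) (nat_lit 5) (nat_lit 3) (nat_lit 4) (nat_lit 1) (nat_lit 4) (nat_lit 327) (nat_lit 245) (nat_lit 148)) (XT.lf (nat_lit 0) (nat_lit 327098482945) (nat_lit 152) (nat_lit 591544967236) (nat_lit 0) (nat_lit 303324511087) (nat_lit 1) (nat_lit 5) (nat_lit 3) (nat_lit 4) (nat_lit 1) (nat_lit 4) (nat_lit 328) (nat_lit 245) (nat_lit 147))))))))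
noncomputable def xc61 : XT := (XT.nd (nat_lit 32292) (nat_lit 0) (nat_lit 380) (XT.nd (nat_lit 31356) (nat_lit 0) (nat_lit 1748) (XT.nd (nat_lit 468) (nat_lit 0) (nat_lit 0) (XT.nd (nat_lit 234) (nat_lit 0) (nat_lit 0) (XT.nd (nat_lit 78) (nat_lit 0) (nat_lit 0) (XT.lf (nat_lit 0) (nat_lit 359316865692) (nat_lit 152) (nat_lit 624214848801) (nat_lit 0) (nat_lit 335541959569) (nat_lit 1) (nat_lit 5) (nat_lit 3) (nat_lit 4) (nat_lit 1) (nat_lit 4) (nat_lit 329) (nat_lit 245) (nat_lit 146)) (XT.nd (nat_lit 78) (nat_lit 0) (nat_lit 0) (XT.lf (nat_lit 0) (nat_lit 394112118040) (nat_lit 152) (nat_lit 659499428234) (nat_lit 0) (nat_lit 370336346856) (nat_lit 1) (nat_lit 5) (nat_lit 3) (nat_lit 4) (nat_lit 1) (nat_lit 4) (nat_lit 330) (nat_lit 245) (nat_lit 145)) (XT.lf (nat_lit 0) (nat_lit 431690434075) (nat_lit 152) (nat_lit 697607799340) (nat_lit 0) (nat_lit 407913861909) (nat_lit 1) (nat_lit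 5) (nat_lit 3) (nat_lit 4) (nat_lit 1) (nat_lit 4) (nat_lit 331) (nat_lit 245) (nat_lit 144)))) (XT.nd (nat_lit 78) (nat_lit 0) (nat_lit 0) (XT.lf (nat_lit 0) (nat_lit 472274500115) (nat_lit 152) (nat_lit 738765789503) (nat_lit 0) (nat_lit 448497186299) (nat_lit 1) (nat_lit 5) (nat_lit 3) (nat_lit 4) (nat_lit 1) (nat_lit 4) (nat_lit 332) (nat_lit 245) (nat_lit 143)) (XT.nd (nat_lit 78) (nat_lit 0) (nat_lit 0) (XT.lf (nat_lit 0) (nat_lit 516104814329) (nat_lit 152) (nat_lit 783217297924) (nat_lit 0) (nat_lit 492326813800) (nat_lit 1) (nat_lit 5) (nat_lit 3) (nat_lit 4) (nat_lit 1) (nat_lit 4) (nat_lit 333) (nat_lit 245) (nat_lit 142)) (XT.lf (nat_lit 0) (nat_lit 563441111912) (nat_lit 152) (nat_lit 831225740948) (nat_lit 0) (nat_lit 539662475538) (nat_lit 1) (nat_lit 5) (nat_lit 3) (nat_lit 4) (nat_lit 1) (nat_lit 4) (nat_lit 334) (nat_lit 245) (nat_lit 141))))) (XT.nd (nat_lit 30654)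 (nat_lit 0) (nat_lit 2964) (XT.nd (nat_lit 78) (nat_lit 0) (nat_lit 0) (XT.lf (nat_lit 0) (nat_lit 614563904258) (nat_lit 152) (nat_lit 883075613054) (nat_lit 0) (nat_lit 590784679138) (nat_lit 1) (nat_lit 5) (nat_lit 3) (nat_lit 4) (nat_lit 1) (nat_lit 4) (nat_lit 335) (nat_lit 245) (nat_lit 140)) (XT.nd (nat_lit 30498) (nat_lit 0) (nat_lit 3268) (XT.lf (nat_lit 0) (nat_lit 669776141248) (nat_lit 152) (nat_lit 939074172742) (nat_lit 0) (nat_lit 645996370992) (nat_lit 1) (nat_lit 5) (nat_lit 3) (nat_lit 4) (nat_lit 1) (nat_lit 4) (nat_lit 336) (nat_lit 245) (nat_lit 139)) (XT.lf (nat_lit 0) (nat_lit 2073126910) (nat_lit 380) (nat_lit 842487920) (nat_lit 380) (nat_lit 842487920) (nat_lit 44) (nat_lit 3) (nat_lit 49) (nat_lit 3) (nat_lit 49) (nat_lit 5) (nat_lit 246) (nat_lit 246) (nat_lit 228)))) (XT.nd (nat_lit 78) (nat_lit 304) (nat_lit 0) (XT.lf (nat_lit 76) (nat_lit 1586436939)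 (nat_lit 0) (nat_lit 3998510799) (nat_lit 380) (nat_lit 2119884721) (nat_lit 45) (nat_lit 5) (nat_lit 44) (nat_lit 3) (nat_lit 49) (nat_lit 5) (nat_lit 247) (nat_lit 246) (nat_lit 227)) (XT.nd (nat_lit 78) (nat_lit 304) (nat_lit 0) (XT.lf (nat_lit 76) (nat_lit 5144634115) (nat_lit 0) (nat_lit 1914943247) (nat_lit 380) (nat_lit 856324863) (nat_lit 45) (nat_lit 5) (nat_lit 44) (nat_lit 3) (nat_lit 49) (nat_lit 5) (nat_lit 248) (nat_lit 246) (nat_lit 226)) (XT.lf (nat_lit 0) (nat_lit 392251592) (nat_lit 380) (nat_lit 7363164537) (nat_lit 456) (nat_lit 395589005) (nat_lit 40) (nat_lit 5) (nat_lit 45) (nat_lit 5) (nat_lit 46) (nat_lit 5) (nat_lit 249) (nat_lit 246) (nat_lit 225)))))) (XT.nd (nat_lit 468) (nat_lit 912) (nat_lit 0) (XT.nd (nat_lit 234) (nat_lit 304) (nat_lit 0) (XT.nd (nat_lit 78) (nat_lit 0) (nat_lit 0) (XT.lf (nat_lit 0) (nat_lit 1710246562) (nat_lit 380) (nat_lit 3765211029)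 (nat_lit 456) (nat_lit 2927225215) (nat_lit 40) (nat_lit 5) (nat_lit 45) (nat_lit 5) (nat_lit 46) (nat_lit 5) (nat_lit 250) (nat_lit 246) (nat_lit 224)) (XT.nd (nat_lit 78) (nat_lit 0) (nat_lit 0) (XT.lf (nat_lit 76) (nat_lit 47306459) (nat_lit 0) (nat_lit 2984103067) (nat_lit 456) (nat_lit 5652016528) (nat_lit 41) (nat_lit 5) (nat_lit 40) (nat_lit 5) (nat_lit 46) (nat_lit 5) (nat_lit 251) (nat_lit 246) (nat_lit 223)) (XT.lf (nat_lit 76) (nat_lit 4305232378) (nat_lit 0) (nat_lit 158458253) (nat_lit 456) (nat_lit 4523198224) (nat_lit 41) (nat_lit 5) (nat_lit 40) (nat_lit 5) (nat_lit 46) (nat_lit 5) (nat_lit 252) (nat_lit 246) (nat_lit 222)))) (XT.nd (nat_lit 78) (nat_lit 380) (nat_lit 0) (XT.lf (nat_lit 0) (nat_lit 5990368082) (nat_lit 380) (nat_lit 557078121) (nat_lit 76) (nat_lit 2769440061) (nat_lit 41) (nat_lit 5) (nat_lit 46) (nat_lit 5) (nat_lit 42) (nat_lit 5) (nat_lit 253) (nat_lit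 246) (nat_lit 221)) (XT.nd (nat_lit 78) (nat_lit 0) (nat_lit 0) (XT.lf (nat_lit 0) (nat_lit 4023649036) (nat_lit 380) (nat_lit 3633296278) (nat_lit 456) (nat_lit 2015511984) (nat_lit 36) (nat_lit 5) (nat_lit 41) (nat_lit 5) (nat_lit 42) (nat_lit 5) (nat_lit 254) (nat_lit 246) (nat_lit 220)) (XT.lf (nat_lit 0) (nat_lit 8933331987) (nat_lit 380) (nat_lit 460122269) (nat_lit 456) (nat_lit 668642320) (nat_lit 36) (nat_lit 5) (nat_lit 41) (nat_lit 5) (nat_lit 42) (nat_lit 5) (nat_lit 255) (nat_lit 246) (nat_lit 219))))) (XT.nd (nat_lit 234) (nat_lit 152) (nat_lit 0) (XT.nd (nat_lit 78) (nat_lit 228) (nat_lit 0) (XT.lf (nat_lit 0) (nat_lit 838695198) (nat_lit 532) (nat_lit 6696366150) (nat_lit 76) (nat_lit 2939442939) (nat_lit 29) (nat_lit 5) (nat_lit 36) (nat_lit 5) (nat_lit 30) (nat_lit 5) (nat_lit 256) (nat_lit 246) (nat_lit 218)) (XT.nd (nat_lit 78) (nat_lit 228) (nat_lit 0) (XT.lf (nat_lit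 0) (nat_lit 2403003911) (nat_lit 532) (nat_lit 1878766980) (nat_lit 76) (nat_lit 6639381081) (nat_lit 29) (nat_lit 5) (nat_lit 36) (nat_lit 5) (nat_lit 30) (nat_lit 5) (nat_lit 257) (nat_lit 246) (nat_lit 217)) (XT.lf (nat_lit 0) (nat_lit 3428138666) (nat_lit 228) (nat_lit 680925630) (nat_lit 304) (nat_lit 7293543621) (nat_lit 26) (nat_lit 5) (nat_lit 29) (nat_lit 5) (nat_lit 30) (nat_lit 5) (nat_lit 258) (nat_lit 246) (nat_lit 216)))) (XT.nd (nat_lit 78) (nat_lit 152) (nat_lit 0) (XT.lf (nat_lit 0) (nat_lit 6018837387) (nat_lit 304) (nat_lit 2801691661) (nat_lit 76) (nat_lit 3097048062) (nat_lit 26) (nat_lit 5) (nat_lit 30) (nat_lit 5) (nat_lit 27) (nat_lit 5) (nat_lit 259) (nat_lit 246) (nat_lit 215)) (XT.nd (nat_lit 78) (nat_lit 0) (nat_lit 0) (XT.lf (nat_lit 0) (nat_lit 2843562421) (nat_lit 152) (nat_lit 5265915723) (nat_lit 228) (nat_lit 4362366054) (nat_lit 24) (nat_lit 5) (nat_lit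 26) (nat_lit 5) (nat_lit 27) (nat_lit 5) (nat_lit 260) (nat_lit 246) (nat_lit 214)) (XT.lf (nat_lit 0) (nat_lit 9035534178) (nat_lit 152) (nat_lit 1353201416) (nat_lit 228) (nat_lit 2680329331) (nat_lit 24) (nat_lit 5) (nat_lit 26) (nat_lit 5) (nat_lit 27) (nat_lit 5) (nat_lit 261) (nat_lit 246) (nat_lit 213))))))) (XT.nd (nat_lit 936) (nat_lit 456) (nat_lit 0) (XT.nd (nat_lit 468) (nat_lit 304) (nat_lit 0) (XT.nd (nat_lit 234) (nat_lit 152) (nat_lit 0) (XT.nd (nat_lit 78) (nat_lit 228) (nat_lit 0) (XT.lf (nat_lit 0) (nat_lit 1974837321) (nat_lit 228) (nat_lit 10940729114) (nat_lit 304) (nat_lit 793575937) (nat_lit 21) (nat_lit 5) (nat_lit 24) (nat_lit 5) (nat_lit 25) (nat_lit 5) (nat_lit 262) (nat_lit 246) (nat_lit 212)) (XT.nd (nat_lit 78) (nat_lit 152) (nat_lit 0) (XT.lf (nat_lit 0) (nat_lit 1279607393) (nat_lit 304) (nat_lit 5831246012) (nat_lit 76) (nat_lit 7279616110) (nat_lit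 20) (nat_lit 5) (nat_lit 24) (nat_lit 5) (nat_lit 21) (nat_lit 5) (nat_lit 263) (nat_lit 246) (nat_lit 211)) (XT.lf (nat_lit 0) (nat_lit 487679672) (nat_lit 152) (nat_lit 2952995703) (nat_lit 228) (nat_lit 11687022484) (nat_lit 18) (nat_lit 5) (nat_lit 20) (nat_lit 5) (nat_lit 21) (nat_lit 5) (nat_lit 264) (nat_lit 246) (nat_lit 210)))) (XT.nd (nat_lit 78) (nat_lit 152) (nat_lit 0) (XT.lf (nat_lit 0) (nat_lit 5930082937) (nat_lit 228) (nat_lit 8370624791) (nat_lit 76) (nat_lit 1610979223) (nat_lit 18) (nat_lit 5) (nat_lit 21) (nat_lit 5) (nat_lit 19) (nat_lit 5) (nat_lit 265) (nat_lit 246) (nat_lit 209)) (XT.nd (nat_lit 78) (nat_lit 152) (nat_lit 0) (XT.lf (nat_lit 0) (nat_lit 8653584701) (nat_lit 228) (nat_lit 1733885638) (nat_lit 76) (nat_lit 6368332105) (nat_lit 18) (nat_lit 5) (nat_lit 21) (nat_lit 5) (nat_lit 19) (nat_lit 5) (nat_lit 266) (nat_lit 246) (nat_lit 208)) (XT.lf (nat_lit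 0) (nat_lit 5663877819) (nat_lit 152) (nat_lit 6028638897) (nat_lit 228) (nat_lit 5967314045) (nat_lit 16) (nat_lit 5) (nat_lit 18) (nat_lit 5) (nat_lit 19) (nat_lit 5) (nat_lit 267) (nat_lit 246) (nat_lit 207))))) (XT.nd (nat_lit 234) (nat_lit 152) (nat_lit 0) (XT.nd (nat_lit 78) (nat_lit 152) (nat_lit 0) (XT.lf (nat_lit 0) (nat_lit 13700173006) (nat_lit 152) (nat_lit 1284747554) (nat_lit 228) (nat_lit 3650605903) (nat_lit 16) (nat_lit 5) (nat_lit 18) (nat_lit 5) (nat_lit 19) (nat_lit 5) (nat_lit 268) (nat_lit 246) (nat_lit 206)) (XT.nd (nat_lit 78) (nat_lit 76) (nat_lit 0) (XT.lf (nat_lit 0) (nat_lit 2681275055) (nat_lit 76) (nat_lit 15981609740) (nat_lit 152) (nat_lit 1016780410) (nat_lit 15) (nat_lit 5) (nat_lit 16) (nat_lit 5) (nat_lit 17) (nat_lit 4) (nat_lit 269) (nat_lit 246) (nat_lit 205)) (XT.lf (nat_lit 0) (nat_lit 1873873152) (nat_lit 152) (nat_lit 9740748284) (nat_lit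 76) (nat_lit 9178330619) (nat_lit 14) (nat_lit 5) (nat_lit 16) (nat_lit 5) (nat_lit 15) (nat_lit 5) (nat_lit 270) (nat_lit 246) (nat_lit 204)))) (XT.nd (nat_lit 78) (nat_lit 152) (nat_lit 0) (XT.lf (nat_lit 0) (nat_lit 4909121633) (nat_lit 152) (nat_lit 1976393671) (nat_lit 76) (nat_lit 15110339417) (nat_lit 14) (nat_lit 5) (nat_lit 16) (nat_lit 5) (nat_lit 15) (nat_lit 5) (nat_lit 271) (nat_lit 246) (nat_lit 203)) (XT.nd (nat_lit 78) (nat_lit 0) (nat_lit 0) (XT.lf (nat_lit 0) (nat_lit 6700315171) (nat_lit 152) (nat_lit 1618642733) (nat_lit 228) (nat_lit 14965608480) (nat_lit 12) (nat_lit 5) (nat_lit 14) (nat_lit 5) (nat_lit 15) (nat_lit 5) (nat_lit 272) (nat_lit 246) (nat_lit 202)) (XT.lf (nat_lit 0) (nat_lit 12126314803) (nat_lit 228) (nat_lit 8632642898) (nat_lit 76) (nat_lit 3907548041) (nat_lit 12) (nat_lit 5) (nat_lit 15) (nat_lit 5) (nat_lit 13) (nat_lit 4) (nat_lit 273) (nat_lit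 246) (nat_lit 201)))))) (XT.nd (nat_lit 468) (nat_lit 152) (nat_lit 0) (XT.nd (nat_lit 234) (nat_lit 228) (nat_lit 0) (XT.nd (nat_lit 78) (nat_lit 76) (nat_lit 0) (XT.lf (nat_lit 0) (nat_lit 16253838610) (nat_lit 228) (nat_lit 128498467) (nat_lit 76) (nat_lit 9775518255) (nat_lit 12) (nat_lit 5) (nat_lit 15) (nat_lit 5) (nat_lit 13) (nat_lit 4) (nat_lit 274) (nat_lit 246) (nat_lit 200)) (XT.nd (nat_lit 78) (nat_lit 0) (nat_lit 0) (XT.lf (nat_lit 0) (nat_lit 9492351260) (nat_lit 76) (nat_lit 11423000345) (nat_lit 152) (nat_lit 6836952144) (nat_lit 11) (nat_lit 5) (nat_lit 12) (nat_lit 5) (nat_lit 13) (nat_lit 4) (nat_lit 275) (nat_lit 246) (nat_lit 199)) (XT.lf (nat_lit 0) (nat_lit 19852678653) (nat_lit 76) (nat_lit 6077029650) (nat_lit 152) (nat_lit 3546292816) (nat_lit 11) (nat_lit 5) (nat_lit 12) (nat_lit 5) (nat_lit 13) (nat_lit 4) (nat_lit 276) (nat_lit 246) (nat_lit 198)))) (XT.nd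 (nat_lit 78) (nat_lit 228) (nat_lit 0) (XT.lf (nat_lit 0) (nat_lit 31007111743) (nat_lit 76) (nat_lit 316258543) (nat_lit 152) (nat_lit 16051911) (nat_lit 11) (nat_lit 5) (nat_lit 12) (nat_lit 5) (nat_lit 13) (nat_lit 4) (nat_lit 277) (nat_lit 246) (nat_lit 197)) (XT.nd (nat_lit 78) (nat_lit 0) (nat_lit 0) (XT.lf (nat_lit 0) (nat_lit 3978723401) (nat_lit 228) (nat_lit 23395656356) (nat_lit 76) (nat_lit 5940538551) (nat_lit 8) (nat_lit 5) (nat_lit 11) (nat_lit 5) (nat_lit 9) (nat_lit 4) (nat_lit 278) (nat_lit 246) (nat_lit 196)) (XT.lf (nat_lit 0) (nat_lit 8289391573) (nat_lit 228) (nat_lit 14480576522) (nat_lit 76) (nat_lit 12678742283) (nat_lit 8) (nat_lit 5) (nat_lit 11) (nat_lit 5) (nat_lit 9) (nat_lit 4) (nat_lit 279) (nat_lit 246) (nat_lit 195))))) (XT.nd (nat_lit 234) (nat_lit 76) (nat_lit 0) (XT.nd (nat_lit 78) (nat_lit 76) (nat_lit 0) (XT.lf (nat_lit 0) (nat_lit 12926062819)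 (nat_lit 228) (nat_lit 4883624368) (nat_lit 76) (nat_lit 19945085793) (nat_lit 8) (nat_lit 5) (nat_lit 11) (nat_lit 5) (nat_lit 9) (nat_lit 4) (nat_lit 280) (nat_lit 246) (nat_lit 194)) (XT.nd (nat_lit 78) (nat_lit 0) (nat_lit 0) (XT.lf (nat_lit 0) (nat_lit 5739167324) (nat_lit 76) (nat_lit 12315073499) (nat_lit 152) (nat_lit 22181488682) (nat_lit 7) (nat_lit 5) (nat_lit 8) (nat_lit 5) (nat_lit 9) (nat_lit 4) (nat_lit 281) (nat_lit 246) (nat_lit 193)) (XT.lf (nat_lit 0) (nat_lit 17461239879) (nat_lit 76) (nat_lit 6248118872) (nat_lit 152) (nat_lit 19196519646) (nat_lit 7) (nat_lit 5) (nat_lit 8) (nat_lit 5) (nat_lit 9) (nat_lit 4) (nat_lit 282) (nat_lit 246) (nat_lit 192)))) (XT.nd (nat_lit 156) (nat_lit 76) (nat_lit 0) (XT.nd (nat_lit 78) (nat_lit 0) (nat_lit 0) (XT.lf (nat_lit 0) (nat_lit 29808353492) (nat_lit 152) (nat_lit 15703100359) (nat_lit 0) (nat_lit 278914905) (nat_lit 7)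 (nat_lit 5) (nat_lit 9) (nat_lit 4) (nat_lit 7) (nat_lit 4) (nat_lit 283) (nat_lit 246) (nat_lit 191)) (XT.lf (nat_lit 0) (nat_lit 36542882122) (nat_lit 152) (nat_lit 5369734957) (nat_lit 0) (nat_lit 6981235589) (nat_lit 7) (nat_lit 5) (nat_lit 9) (nat_lit 4) (nat_lit 7) (nat_lit 4) (nat_lit 284) (nat_lit 246) (nat_lit 190))) (XT.nd (nat_lit 78) (nat_lit 0) (nat_lit 0) (XT.lf (nat_lit 0) (nat_lit 6070637740) (nat_lit 76) (nat_lit 37877946792) (nat_lit 76) (nat_lit 8286478087) (nat_lit 6) (nat_lit 4) (nat_lit 7) (nat_lit 5) (nat_lit 7) (nat_lit 4) (nat_lit 285) (nat_lit 246) (nat_lit 189)) (XT.lf (nat_lit 0) (nat_lit 18708872899) (nat_lit 76) (nat_lit 33371560184) (nat_lit 76) (nat_lit 3752478356) (nat_lit 6) (nat_lit 4) (nat_lit 7) (nat_lit 5) (nat_lit 7) (nat_lit 4) (nat_lit 286) (nat_lit 246) (nat_lit 188))))))))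
noncomputable def xc62 : XT := (XT.nd (nat_lit 1872) (nat_lit 0) (nat_lit 0) (XT.nd (nat_lit 936) (nat_lit 152) (nat_lit 0) (XT.nd (nat_lit 468) (nat_lit 76) (nat_lit 0) (XT.nd (nat_lit 234) (nat_lit 76) (nat_lit 0) (XT.nd (nat_lit 78) (nat_lit 0) (nat_lit 0) (XT.lf (nat_lit 0) (nat_lit 1074497583) (nat_lit 152) (nat_lit 27409694560) (nat_lit 76) (nat_lit 31233226784) (nat_lit 5) (nat_lit 5) (nat_lit 7) (nat_lit 5) (nat_lit 6) (nat_lit 4) (nat_lit 287) (nat_lit 246) (nat_lit 187)) (XT.nd (nat_lit 78) (nat_lit 0) (nat_lit 0) (XT.lf (nat_lit 0) (nat_lit 6073322354) (nat_lit 152) (nat_lit 17035812838) (nat_lit 76) (nat_lit 40796710283) (nat_lit 5) (nat_lit 5) (nat_lit 7) (nat_lit 5) (nat_lit 6) (nat_lit 4) (nat_lit 288) (nat_lit 246) (nat_lit 186)) (XT.lf (nat_lit 0) (nat_lit 11461332786) (nat_lit 152) (nat_lit 5850671326) (nat_lit 76) (nat_lit 51118227052) (nat_lit 5) (nat_lit 5) (nat_lit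 7) (nat_lit 5) (nat_lit 6) (nat_lit 4) (nat_lit 289) (nat_lit 246) (nat_lit 185)))) (XT.nd (nat_lit 78) (nat_lit 0) (nat_lit 0) (XT.lf (nat_lit 0) (nat_lit 6539125853) (nat_lit 76) (nat_lit 10888598110) (nat_lit 152) (nat_lit 55877081917) (nat_lit 4) (nat_lit 5) (nat_lit 5) (nat_lit 5) (nat_lit 6) (nat_lit 4) (nat_lit 290) (nat_lit 246) (nat_lit 184)) (XT.nd (nat_lit 78) (nat_lit 0) (nat_lit 0) (XT.lf (nat_lit 0) (nat_lit 20236007655) (nat_lit 76) (nat_lit 3785790746) (nat_lit 152) (nat_lit 54535541900) (nat_lit 4) (nat_lit 5) (nat_lit 5) (nat_lit 5) (nat_lit 6) (nat_lit 4) (nat_lit 291) (nat_lit 246) (nat_lit 183)) (XT.lf (nat_lit 0) (nat_lit 31227792836) (nat_lit 152) (nat_lit 49311034218) (nat_lit 0) (nat_lit 3684520641) (nat_lit 4) (nat_lit 5) (nat_lit 6) (nat_lit 4) (nat_lit 4) (nat_lit 4) (nat_lit 292) (nat_lit 246) (nat_lit 182))))) (XT.nd (nat_lit 234) (nat_lit 76) (nat_lit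 0) (XT.nd (nat_lit 78) (nat_lit 0) (nat_lit 0) (XT.lf (nat_lit 0) (nat_lit 39100223032) (nat_lit 152) (nat_lit 39693203959) (nat_lit 0) (nat_lit 11542032327) (nat_lit 4) (nat_lit 5) (nat_lit 6) (nat_lit 4) (nat_lit 4) (nat_lit 4) (nat_lit 293) (nat_lit 246) (nat_lit 181)) (XT.nd (nat_lit 78) (nat_lit 0) (nat_lit 0) (XT.lf (nat_lit 0) (nat_lit 47594692071) (nat_lit 152) (nat_lit 29319798960) (nat_lit 0) (nat_lit 20022687929) (nat_lit 4) (nat_lit 5) (nat_lit 6) (nat_lit 4) (nat_lit 4) (nat_lit 4) (nat_lit 294) (nat_lit 246) (nat_lit 180)) (XT.lf (nat_lit 0) (nat_lit 56761537546) (nat_lit 152) (nat_lit 18129347192) (nat_lit 0) (nat_lit 29176743185) (nat_lit 4) (nat_lit 5) (nat_lit 6) (nat_lit 4) (nat_lit 4) (nat_lit 4) (nat_lit 295) (nat_lit 246) (nat_lit 179)))) (XT.nd (nat_lit 78) (nat_lit 76) (nat_lit 0) (XT.lf (nat_lit 0) (nat_lit 66655081504) (nat_lit 152) (nat_lit 6055534866) (nat_lit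 0) (nat_lit 39058444348) (nat_lit 4) (nat_lit 5) (nat_lit 6) (nat_lit 4) (nat_lit 4) (nat_lit 4) (nat_lit 296) (nat_lit 246) (nat_lit 178)) (XT.nd (nat_lit 78) (nat_lit 0) (nat_lit 0) (XT.lf (nat_lit 0) (nat_lit 7340382180) (nat_lit 76) (nat_lit 70170106541) (nat_lit 76) (nat_lit 42562503835) (nat_lit 3) (nat_lit 4) (nat_lit 4) (nat_lit 5) (nat_lit 4) (nat_lit 4) (nat_lit 297) (nat_lit 246) (nat_lit 177)) (XT.lf (nat_lit 0) (nat_lit 22141638691) (nat_lit 76) (nat_lit 67252300545) (nat_lit 76) (nat_lit 39634544551) (nat_lit 3) (nat_lit 4) (nat_lit 4) (nat_lit 5) (nat_lit 4) (nat_lit 4) (nat_lit 298) (nat_lit 246) (nat_lit 176)))))) (XT.nd (nat_lit 468) (nat_lit 152) (nat_lit 0) (XT.nd (nat_lit 234) (nat_lit 0) (nat_lit 0) (XT.nd (nat_lit 78) (nat_lit 0) (nat_lit 0) (XT.lf (nat_lit 0) (nat_lit 38117072080) (nat_lit 76) (nat_lit 64105476734) (nat_lit 76) (nat_lit 36478319547) (nat_lit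 3) (nat_lit 4) (nat_lit 4) (nat_lit 5) (nat_lit 4) (nat_lit 4) (nat_lit 299) (nat_lit 246) (nat_lit 175)) (XT.nd (nat_lit 78) (nat_lit 0) (nat_lit 0) (XT.lf (nat_lit 0) (nat_lit 55361351583) (nat_lit 76) (nat_lit 60710987263) (nat_lit 76) (nat_lit 33075125269) (nat_lit 3) (nat_lit 4) (nat_lit 4) (nat_lit 5) (nat_lit 4) (nat_lit 4) (nat_lit 300) (nat_lit 246) (nat_lit 174)) (XT.lf (nat_lit 0) (nat_lit 73976665524) (nat_lit 76) (nat_lit 57048716639) (nat_lit 76) (nat_lit 29404794638) (nat_lit 3) (nat_lit 4) (nat_lit 4) (nat_lit 5) (nat_lit 4) (nat_lit 4) (nat_lit 301) (nat_lit 246) (nat_lit 173)))) (XT.nd (nat_lit 78) (nat_lit 0) (nat_lit 0) (XT.lf (nat_lit 0) (nat_lit 94073326872) (nat_lit 76) (nat_lit 53096962519) (nat_lit 76) (nat_lit 25445577547) (nat_lit 3) (nat_lit 4) (nat_lit 4) (nat_lit 5) (nat_lit 4) (nat_lit 4) (nat_lit 302) (nat_lit 246) (nat_lit 172)) (XT.nd (nat_lit 78)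 (nat_lit 0) (nat_lit 0) (XT.lf (nat_lit 0) (nat_lit 115770426955) (nat_lit 76) (nat_lit 48832307098) (nat_lit 76) (nat_lit 21174011970) (nat_lit 3) (nat_lit 4) (nat_lit 4) (nat_lit 5) (nat_lit 4) (nat_lit 4) (nat_lit 303) (nat_lit 246) (nat_lit 171)) (XT.lf (nat_lit 0) (nat_lit 139196541181) (nat_lit 76) (nat_lit 44229478346) (nat_lit 76) (nat_lit 16564784924) (nat_lit 3) (nat_lit 4) (nat_lit 4) (nat_lit 5) (nat_lit 4) (nat_lit 4) (nat_lit 304) (nat_lit 246) (nat_lit 170))))) (XT.nd (nat_lit 234) (nat_lit 152) (nat_lit 0) (XT.nd (nat_lit 78) (nat_lit 0) (nat_lit 0) (XT.lf (nat_lit 0) (nat_lit 164490490967) (nat_lit 76) (nat_lit 39261200240) (nat_lit 76) (nat_lit 11590582472) (nat_lit 3) (nat_lit 4) (nat_lit 4) (nat_lit 5) (nat_lit 4) (nat_lit 4) (nat_lit 305) (nat_lit 246) (nat_lit 169)) (XT.nd (nat_lit 78) (nat_lit 0) (nat_lit 0) (XT.lf (nat_lit 0) (nat_lit 191802166386) (nat_lit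 76) (nat_lit 33898031133) (nat_lit 76) (nat_lit 6221927859) (nat_lit 3) (nat_lit 4) (nat_lit 4) (nat_lit 5) (nat_lit 4) (nat_lit 4) (nat_lit 306) (nat_lit 246) (nat_lit 168)) (XT.lf (nat_lit 0) (nat_lit 221293414403) (nat_lit 76) (nat_lit 28108189280) (nat_lit 76) (nat_lit 427006835) (nat_lit 3) (nat_lit 4) (nat_lit 4) (nat_lit 5) (nat_lit 4) (nat_lit 4) (nat_lit 307) (nat_lit 246) (nat_lit 167)))) (XT.nd (nat_lit 78) (nat_lit 76) (nat_lit 0) (XT.lf (nat_lit 0) (nat_lit 5536954652) (nat_lit 152) (nat_lit 16169019704) (nat_lit 76) (nat_lit 247450653165) (nat_lit 2) (nat_lit 5) (nat_lit 4) (nat_lit 5) (nat_lit 3) (nat_lit 4) (nat_lit 308) (nat_lit 246) (nat_lit 166)) (XT.nd (nat_lit 78) (nat_lit 76) (nat_lit 0) (XT.lf (nat_lit 0) (nat_lit 11952336214) (nat_lit 152) (nat_lit 2829380627) (nat_lit 76) (nat_lit 275248497389) (nat_lit 2) (nat_lit 5) (nat_lit 4) (nat_lit 5) (nat_lit 3) (nat_lit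 4) (nat_lit 309) (nat_lit 246) (nat_lit 165)) (XT.lf (nat_lit 0) (nat_lit 12182456147) (nat_lit 76) (nat_lit 6989047752) (nat_lit 152) (nat_lit 293378944568) (nat_lit 1) (nat_lit 5) (nat_lit 2) (nat_lit 5) (nat_lit 3) (nat_lit 4) (nat_lit 310) (nat_lit 246) (nat_lit 164))))))) (XT.nd (nat_lit 936) (nat_lit 0) (nat_lit 0) (XT.nd (nat_lit 468) (nat_lit 0) (nat_lit 0) (XT.nd (nat_lit 234) (nat_lit 0) (nat_lit 0) (XT.nd (nat_lit 78) (nat_lit 0) (nat_lit 0) (XT.lf (nat_lit 0) (nat_lit 27079493172) (nat_lit 152) (nat_lit 308350717918) (nat_lit 0) (nat_lit 1433191963) (nat_lit 1) (nat_lit 5) (nat_lit 3) (nat_lit 4) (nat_lit 1) (nat_lit 4) (nat_lit 311) (nat_lit 246) (nat_lit 163)) (XT.nd (nat_lit 78) (nat_lit 0) (nat_lit 0) (XT.lf (nat_lit 0) (nat_lit 35799431510) (nat_lit 152) (nat_lit 317157692462) (nat_lit 0) (nat_lit 10149929560) (nat_lit 1) (nat_lit 5) (nat_lit 3) (nat_lit 4) (nat_lit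 1) (nat_lit 4) (nat_lit 312) (nat_lit 246) (nat_lit 162)) (XT.lf (nat_lit 0) (nat_lit 45214905854) (nat_lit 152) (nat_lit 326673018663) (nat_lit 0) (nat_lit 19562440257) (nat_lit 1) (nat_lit 5) (nat_lit 3) (nat_lit 4) (nat_lit 1) (nat_lit 4) (nat_lit 313) (nat_lit 246) (nat_lit 161)))) (XT.nd (nat_lit 78) (nat_lit 0) (nat_lit 0) (XT.lf (nat_lit 0) (nat_lit 55381711608) (nat_lit 152) (nat_lit 336953083641) (nat_lit 0) (nat_lit 29726501892) (nat_lit 1) (nat_lit 5) (nat_lit 3) (nat_lit 4) (nat_lit 1) (nat_lit 4) (nat_lit 314) (nat_lit 246) (nat_lit 160)) (XT.nd (nat_lit 78) (nat_lit 0) (nat_lit 0) (XT.lf (nat_lit 0) (nat_lit 66360096511) (nat_lit 152) (nat_lit 348058806299) (nat_lit 0) (nat_lit 40702345944) (nat_lit 1) (nat_lit 5) (nat_lit 3) (nat_lit 4) (nat_lit 1) (nat_lit 4) (nat_lit 315) (nat_lit 246) (nat_lit 159)) (XT.lf (nat_lit 0) (nat_lit 78215117656) (nat_lit 152) (nat_lit 360055998327)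 (nat_lit 0) (nat_lit 52555014451) (nat_lit 1) (nat_lit 5) (nat_lit 3) (nat_lit 4) (nat_lit 1) (nat_lit 4) (nat_lit 316) (nat_lit 246) (nat_lit 158))))) (XT.nd (nat_lit 234) (nat_lit 0) (nat_lit 0) (XT.nd (nat_lit 78) (nat_lit 0) (nat_lit 0) (XT.lf (nat_lit 0) (nat_lit 91017027023) (nat_lit 152) (nat_lit 373015754195) (nat_lit 0) (nat_lit 65354745448) (nat_lit 1) (nat_lit 5) (nat_lit 3) (nat_lit 4) (nat_lit 1) (nat_lit 4) (nat_lit 317) (nat_lit 246) (nat_lit 157)) (XT.nd (nat_lit 78) (nat_lit 0) (nat_lit 0) (XT.lf (nat_lit 0) (nat_lit 104841687777) (nat_lit 152) (nat_lit 387014872457) (nat_lit 0) (nat_lit 79177389192) (nat_lit 1) (nat_lit 5) (nat_lit 3) (nat_lit 4) (nat_lit 1) (nat_lit 4) (nat_lit 318) (nat_lit 246) (nat_lit 156)) (XT.lf (nat_lit 0) (nat_lit 119771023834) (nat_lit 152) (nat_lit 402136310852) (nat_lit 0) (nat_lit 94104857648) (nat_lit 1) (nat_lit 5) (nat_lit 3) (nat_lit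 4) (nat_lit 1) (nat_lit 4) (nat_lit 319) (nat_lit 246) (nat_lit 155)))) (XT.nd (nat_lit 78) (nat_lit 0) (nat_lit 0) (XT.lf (nat_lit 0) (nat_lit 135893505333) (nat_lit 152) (nat_lit 418469677902) (nat_lit 0) (nat_lit 110225609888) (nat_lit 1) (nat_lit 5) (nat_lit 3) (nat_lit 4) (nat_lit 1) (nat_lit 4) (nat_lit 320) (nat_lit 246) (nat_lit 154)) (XT.nd (nat_lit 78) (nat_lit 0) (nat_lit 0) (XT.lf (nat_lit 0) (nat_lit 153304672906) (nat_lit 152) (nat_lit 436111763931) (nat_lit 0) (nat_lit 127635176294) (nat_lit 1) (nat_lit 5) (nat_lit 3) (nat_lit 4) (nat_lit 1) (nat_lit 4) (nat_lit 321) (nat_lit 246) (nat_lit 153)) (XT.lf (nat_lit 0) (nat_lit 172107703842) (nat_lit 152) (nat_lit 455167114634) (nat_lit 0) (nat_lit 146436724668) (nat_lit 1) (nat_lit 5) (nat_lit 3) (nat_lit 4) (nat_lit 1) (nat_lit 4) (nat_lit 322) (nat_lit 246) (nat_lit 152)))))) (XT.nd (nat_lit 468) (nat_lit 0) (nat_lit 0)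 (XT.nd (nat_lit 234) (nat_lit 0) (nat_lit 0) (XT.nd (nat_lit 78) (nat_lit 0) (nat_lit 0) (XT.lf (nat_lit 0) (nat_lit 192414023510) (nat_lit 152) (nat_lit 475748650609) (nat_lit 0) (nat_lit 166741671594) (nat_lit 1) (nat_lit 5) (nat_lit 3) (nat_lit 4) (nat_lit 1) (nat_lit 4) (nat_lit 323) (nat_lit 246) (nat_lit 151)) (XT.nd (nat_lit 78) (nat_lit 0) (nat_lit 0) (XT.lf (nat_lit 0) (nat_lit 214343965655) (nat_lit 152) (nat_lit 497978336511) (nat_lit 0) (nat_lit 188670342681) (nat_lit 1) (nat_lit 5) (nat_lit 3) (nat_lit 4) (nat_lit 1) (nat_lit 4) (nat_lit 324) (nat_lit 246) (nat_lit 150)) (XT.lf (nat_lit 0) (nat_lit 238027485491) (nat_lit 152) (nat_lit 521987903814) (nat_lit 0) (nat_lit 212352685611) (nat_lit 1) (nat_lit 5) (nat_lit 3) (nat_lit 4) (nat_lit 1) (nat_lit 4) (nat_lit 325) (nat_lit 246) (nat_lit 149)))) (XT.nd (nat_lit 78) (nat_lit 0) (nat_lit 0) (XT.lf (nat_lit 0) (nat_lit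 263604929801) (nat_lit 152) (nat_lit 547919631435) (nat_lit 0) (nat_lit 237929040194) (nat_lit 1) (nat_lit 5) (nat_lit 3) (nat_lit 4) (nat_lit 1) (nat_lit 4) (nat_lit 326) (nat_lit 246) (nat_lit 148)) (XT.nd (nat_lit 78) (nat_lit 0) (nat_lit 0) (XT.lf (nat_lit 0) (nat_lit 291227868626) (nat_lit 152) (nat_lit 575927188871) (nat_lit 0) (nat_lit 265550970013) (nat_lit 1) (nat_lit 5) (nat_lit 3) (nat_lit 4) (nat_lit 1) (nat_lit 4) (nat_lit 327) (nat_lit 246) (nat_lit 147)) (XT.lf (nat_lit 0) (nat_lit 321059993456) (nat_lit 152) (nat_lit 606176546833) (nat_lit 0) (nat_lit 295382160577) (nat_lit 1) (nat_lit 5) (nat_lit 3) (nat_lit 4) (nat_lit 1) (nat_lit 4) (nat_lit 328) (nat_lit 246) (nat_lit 146))))) (XT.nd (nat_lit 234) (nat_lit 0) (nat_lit 0) (XT.nd (nat_lit 78) (nat_lit 0) (nat_lit 0) (XT.lf (nat_lit 0) (nat_lit 353278087251) (nat_lit 152) (nat_lit 638846960774) (nat_lit 0) (nat_lit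 327599389312) (nat_lit 1) (nat_lit 5) (nat_lit 3) (nat_lit 4) (nat_lit 1) (nat_lit 4) (nat_lit 329) (nat_lit 246) (nat_lit 145)) (XT.nd (nat_lit 78) (nat_lit 0) (nat_lit 0) (XT.lf (nat_lit 0) (nat_lit 388073072051) (nat_lit 152) (nat_lit 674132033149) (nat_lit 0) (nat_lit 362393573129) (nat_lit 1) (nat_lit 5) (nat_lit 3) (nat_lit 4) (nat_lit 1) (nat_lit 4) (nat_lit 330) (nat_lit 246) (nat_lit 144)) (XT.lf (nat_lit 0) (nat_lit 425651140356) (nat_lit 152) (nat_lit 712240860682) (nat_lit 0) (nat_lit 399970899785) (nat_lit 1) (nat_lit 5) (nat_lit 3) (nat_lit 4) (nat_lit 1) (nat_lit 4) (nat_lit 331) (nat_lit 246) (nat_lit 143)))) (XT.nd (nat_lit 156) (nat_lit 0) (nat_lit 0) (XT.nd (nat_lit 78) (nat_lit 0) (nat_lit 0) (XT.lf (nat_lit 0) (nat_lit 466234977017) (nat_lit 152) (nat_lit 753399273462) (nat_lit 0) (nat_lit 440554049732) (nat_lit 1) (nat_lit 5) (nat_lit 3) (nat_lit 4) (nat_lit 1)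 (nat_lit 4) (nat_lit 332) (nat_lit 246) (nat_lit 142)) (XT.lf (nat_lit 0) (nat_lit 510065078843) (nat_lit 152) (nat_lit 797851173195) (nat_lit 0) (nat_lit 484383515713) (nat_lit 1) (nat_lit 5) (nat_lit 3) (nat_lit 4) (nat_lit 1) (nat_lit 4) (nat_lit 333) (nat_lit 246) (nat_lit 141))) (XT.nd (nat_lit 78) (nat_lit 0) (nat_lit 0) (XT.lf (nat_lit 0) (nat_lit 557401179770) (nat_lit 152) (nat_lit 845859978547) (nat_lit 0) (nat_lit 531719027895) (nat_lit 1) (nat_lit 5) (nat_lit 3) (nat_lit 4) (nat_lit 1) (nat_lit 4) (nat_lit 334) (nat_lit 246) (nat_lit 140)) (XT.lf (nat_lit 0) (nat_lit 608523790027) (nat_lit 152) (nat_lit 897710186140) (nat_lit 0) (nat_lit 582841093017) (nat_lit 1) (nat_lit 5) (nat_lit 3) (nat_lit 4) (nat_lit 1) (nat_lit 4) (nat_lit 335) (nat_lit 246) (nat_lit 139))))))))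
noncomputable def xc63 : XT := (XT.nd (nat_lit 32370) (nat_lit 0) (nat_lit 228) (XT.nd (nat_lit 31434) (nat_lit 0) (nat_lit 1140) (XT.nd (nat_lit 30966) (nat_lit 0) (nat_lit 2128) (XT.nd (nat_lit 30732) (nat_lit 0) (nat_lit 2888) (XT.nd (nat_lit 30576) (nat_lit 0) (nat_lit 2888) (XT.lf (nat_lit 0) (nat_lit 663735858416) (nat_lit 152) (nat_lit 953709056465) (nat_lit 0) (nat_lit 638052656651) (nat_lit 1) (nat_lit 5) (nat_lit 3) (nat_lit 4) (nat_lit 1) (nat_lit 4) (nat_lit 336) (nat_lit 246) (nat_lit 138)) (XT.nd (nat_lit 78) (nat_lit 380) (nat_lit 0) (XT.lf (nat_lit 0) (nat_lit 3443972659) (nat_lit 380) (nat_lit 254215031) (nat_lit 380) (nat_lit 254215031) (nat_lit 44) (nat_lit 3) (nat_lit 49) (nat_lit 3) (nat_lit 49) (nat_lit 5) (nat_lit 247) (nat_lit 247) (nat_lit 226)) (XT.lf (nat_lit 0) (nat_lit 163526585) (nat_lit 380) (nat_lit 5134461456) (nat_lit 456) (nat_lit 2823499468) (nat_lit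 39) (nat_lit 5) (nat_lit 44) (nat_lit 3) (nat_lit 45) (nat_lit 5) (nat_lit 248) (nat_lit 247) (nat_lit 225)))) (XT.nd (nat_lit 78) (nat_lit 0) (nat_lit 0) (XT.lf (nat_lit 0) (nat_lit 1286685939) (nat_lit 380) (nat_lit 1657446091) (nat_lit 456) (nat_lit 5417806470) (nat_lit 39) (nat_lit 5) (nat_lit 44) (nat_lit 3) (nat_lit 45) (nat_lit 5) (nat_lit 249) (nat_lit 247) (nat_lit 224)) (XT.nd (nat_lit 78) (nat_lit 0) (nat_lit 76) (XT.lf (nat_lit 76) (nat_lit 2142582875) (nat_lit 0) (nat_lit 305881475) (nat_lit 456) (nat_lit 6178009548) (nat_lit 40) (nat_lit 5) (nat_lit 39) (nat_lit 5) (nat_lit 45) (nat_lit 5) (nat_lit 250) (nat_lit 247) (nat_lit 223)) (XT.lf (nat_lit 0) (nat_lit 3715099781) (nat_lit 380) (nat_lit 2700054640) (nat_lit 456) (nat_lit 2496758630) (nat_lit 40) (nat_lit 5) (nat_lit 45) (nat_lit 5) (nat_lit 46) (nat_lit 5) (nat_lit 251) (nat_lit 247) (nat_lit 222))))) (XT.nd (nat_lit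 234) (nat_lit 532) (nat_lit 0) (XT.nd (nat_lit 78) (nat_lit 304) (nat_lit 0) (XT.lf (nat_lit 76) (nat_lit 1382872519) (nat_lit 0) (nat_lit 3652739790) (nat_lit 456) (nat_lit 4189014017) (nat_lit 41) (nat_lit 5) (nat_lit 40) (nat_lit 5) (nat_lit 46) (nat_lit 5) (nat_lit 252) (nat_lit 247) (nat_lit 221)) (XT.nd (nat_lit 78) (nat_lit 304) (nat_lit 0) (XT.lf (nat_lit 76) (nat_lit 5882782027) (nat_lit 0) (nat_lit 569198319) (nat_lit 456) (nat_lit 3111754236) (nat_lit 41) (nat_lit 5) (nat_lit 40) (nat_lit 5) (nat_lit 46) (nat_lit 5) (nat_lit 253) (nat_lit 247) (nat_lit 220)) (XT.lf (nat_lit 0) (nat_lit 716425500) (nat_lit 380) (nat_lit 7271903032) (nat_lit 456) (nat_lit 1941660315) (nat_lit 36) (nat_lit 5) (nat_lit 41) (nat_lit 5) (nat_lit 42) (nat_lit 5) (nat_lit 254) (nat_lit 247) (nat_lit 219)))) (XT.nd (nat_lit 78) (nat_lit 532) (nat_lit 0) (XT.lf (nat_lit 0) (nat_lit 5595310771) (nat_lit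 380) (nat_lit 4094525823) (nat_lit 456) (nat_lit 632836882) (nat_lit 36) (nat_lit 5) (nat_lit 41) (nat_lit 5) (nat_lit 42) (nat_lit 5) (nat_lit 255) (nat_lit 247) (nat_lit 218)) (XT.nd (nat_lit 78) (nat_lit 0) (nat_lit 0) (XT.lf (nat_lit 0) (nat_lit 37412937) (nat_lit 456) (nat_lit 635517122) (nat_lit 532) (nat_lit 10078274884) (nat_lit 29) (nat_lit 5) (nat_lit 35) (nat_lit 5) (nat_lit 36) (nat_lit 5) (nat_lit 256) (nat_lit 247) (nat_lit 217)) (XT.lf (nat_lit 0) (nat_lit 2190300801) (nat_lit 532) (nat_lit 5913404229) (nat_lit 76) (nat_lit 3098097350) (nat_lit 29) (nat_lit 5) (nat_lit 36) (nat_lit 5) (nat_lit 30) (nat_lit 5) (nat_lit 257) (nat_lit 247) (nat_lit 216)))))) (XT.nd (nat_lit 468) (nat_lit 304) (nat_lit 0) (XT.nd (nat_lit 234) (nat_lit 456) (nat_lit 0) (XT.nd (nat_lit 78) (nat_lit 228) (nat_lit 0) (XT.lf (nat_lit 0) (nat_lit 3784605322) (nat_lit 532) (nat_lit 808076475) (nat_lit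 76) (nat_lit 7099697286) (nat_lit 29) (nat_lit 5) (nat_lit 36) (nat_lit 5) (nat_lit 30) (nat_lit 5) (nat_lit 258) (nat_lit 247) (nat_lit 215)) (XT.nd (nat_lit 78) (nat_lit 0) (nat_lit 0) (XT.lf (nat_lit 0) (nat_lit 4892470437) (nat_lit 228) (nat_lit 675200748) (nat_lit 304) (nat_lit 6649980605) (nat_lit 26) (nat_lit 5) (nat_lit 29) (nat_lit 5) (nat_lit 30) (nat_lit 5) (nat_lit 259) (nat_lit 247) (nat_lit 214)) (XT.lf (nat_lit 0) (nat_lit 7547871722) (nat_lit 304) (nat_lit 1835273612) (nat_lit 76) (nat_lit 3397763331) (nat_lit 26) (nat_lit 5) (nat_lit 30) (nat_lit 5) (nat_lit 27) (nat_lit 5) (nat_lit 260) (nat_lit 247) (nat_lit 213)))) (XT.nd (nat_lit 78) (nat_lit 304) (nat_lit 0) (XT.lf (nat_lit 0) (nat_lit 4231460205) (nat_lit 152) (nat_lit 5524616872) (nat_lit 228) (nat_lit 3627879600) (nat_lit 24) (nat_lit 5) (nat_lit 26) (nat_lit 5) (nat_lit 27) (nat_lit 5) (nat_lit 261) (nat_lit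 247) (nat_lit 212)) (XT.nd (nat_lit 78) (nat_lit 304) (nat_lit 0) (XT.lf (nat_lit 0) (nat_lit 10832833199) (nat_lit 152) (nat_lit 1310927798) (nat_lit 228) (nat_lit 1891537401) (nat_lit 24) (nat_lit 5) (nat_lit 26) (nat_lit 5) (nat_lit 27) (nat_lit 5) (nat_lit 262) (nat_lit 247) (nat_lit 211)) (XT.lf (nat_lit 0) (nat_lit 99349625) (nat_lit 304) (nat_lit 11478710780) (nat_lit 76) (nat_lit 3151768891) (nat_lit 20) (nat_lit 5) (nat_lit 24) (nat_lit 5) (nat_lit 21) (nat_lit 5) (nat_lit 263) (nat_lit 247) (nat_lit 210))))) (XT.nd (nat_lit 234) (nat_lit 152) (nat_lit 0) (XT.nd (nat_lit 78) (nat_lit 152) (nat_lit 0) (XT.lf (nat_lit 0) (nat_lit 2227844434) (nat_lit 304) (nat_lit 5210962069) (nat_lit 76) (nat_lit 8030962189) (nat_lit 20) (nat_lit 5) (nat_lit 24) (nat_lit 5) (nat_lit 21) (nat_lit 5) (nat_lit 264) (nat_lit 247) (nat_lit 209)) (XT.nd (nat_lit 78) (nat_lit 0) (nat_lit 0) (XT.lf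 (nat_lit 0) (nat_lit 1585964161) (nat_lit 152) (nat_lit 2938652243) (nat_lit 228) (nat_lit 11744649631) (nat_lit 18) (nat_lit 5) (nat_lit 20) (nat_lit 5) (nat_lit 21) (nat_lit 5) (nat_lit 265) (nat_lit 247) (nat_lit 208)) (XT.lf (nat_lit 0) (nat_lit 7158853951) (nat_lit 228) (nat_lit 8001486591) (nat_lit 76) (nat_lit 1960272314) (nat_lit 18) (nat_lit 5) (nat_lit 21) (nat_lit 5) (nat_lit 19) (nat_lit 5) (nat_lit 266) (nat_lit 247) (nat_lit 207)))) (XT.nd (nat_lit 78) (nat_lit 152) (nat_lit 0) (XT.lf (nat_lit 0) (nat_lit 10044357013) (nat_lit 228) (nat_lit 910755579) (nat_lit 76) (nat_lit 7081886407) (nat_lit 18) (nat_lit 5) (nat_lit 21) (nat_lit 5) (nat_lit 19) (nat_lit 5) (nat_lit 267) (nat_lit 247) (nat_lit 206)) (XT.nd (nat_lit 78) (nat_lit 0) (nat_lit 0) (XT.lf (nat_lit 0) (nat_lit 7054478553) (nat_lit 152) (nat_lit 6242732037) (nat_lit 228) (nat_lit 5718725454) (nat_lit 16) (nat_lit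 5) (nat_lit 18) (nat_lit 5) (nat_lit 19) (nat_lit 5) (nat_lit 268) (nat_lit 247) (nat_lit 205)) (XT.lf (nat_lit 0) (nat_lit 15664233613) (nat_lit 152) (nat_lit 1139195903) (nat_lit 228) (nat_lit 3270456492) (nat_lit 16) (nat_lit 5) (nat_lit 18) (nat_lit 5) (nat_lit 19) (nat_lit 5) (nat_lit 269) (nat_lit 247) (nat_lit 204))))))) (XT.nd (nat_lit 936) (nat_lit 304) (nat_lit 0) (XT.nd (nat_lit 468) (nat_lit 228) (nat_lit 0) (XT.nd (nat_lit 234) (nat_lit 228) (nat_lit 0) (XT.nd (nat_lit 78) (nat_lit 76) (nat_lit 0) (XT.lf (nat_lit 0) (nat_lit 3787180680) (nat_lit 76) (nat_lit 16969513629) (nat_lit 152) (nat_lit 446591678) (nat_lit 15) (nat_lit 5) (nat_lit 16) (nat_lit 5) (nat_lit 17) (nat_lit 4) (nat_lit 270) (nat_lit 247) (nat_lit 203)) (XT.nd (nat_lit 78) (nat_lit 0) (nat_lit 0) (XT.lf (nat_lit 0) (nat_lit 2596874613) (nat_lit 152) (nat_lit 9662150077) (nat_lit 76) (nat_lit 10149209842)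 (nat_lit 14) (nat_lit 5) (nat_lit 16) (nat_lit 5) (nat_lit 15) (nat_lit 5) (nat_lit 271) (nat_lit 247) (nat_lit 202)) (XT.lf (nat_lit 0) (nat_lit 5832491742) (nat_lit 152) (nat_lit 1340192137) (nat_lit 76) (nat_lit 16538252471) (nat_lit 14) (nat_lit 5) (nat_lit 16) (nat_lit 5) (nat_lit 15) (nat_lit 5) (nat_lit 272) (nat_lit 247) (nat_lit 201)))) (XT.nd (nat_lit 78) (nat_lit 76) (nat_lit 0) (XT.lf (nat_lit 0) (nat_lit 8010544222) (nat_lit 152) (nat_lit 1483883620) (nat_lit 228) (nat_lit 15610130258) (nat_lit 12) (nat_lit 5) (nat_lit 14) (nat_lit 5) (nat_lit 15) (nat_lit 5) (nat_lit 273) (nat_lit 247) (nat_lit 200)) (XT.nd (nat_lit 78) (nat_lit 76) (nat_lit 0) (XT.lf (nat_lit 0) (nat_lit 13574483447) (nat_lit 228) (nat_lit 8572678218) (nat_lit 76) (nat_lit 4452588597) (nat_lit 12) (nat_lit 5) (nat_lit 15) (nat_lit 5) (nat_lit 13) (nat_lit 4) (nat_lit 274) (nat_lit 247) (nat_lit 199))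 (XT.lf (nat_lit 0) (nat_lit 585488018) (nat_lit 76) (nat_lit 17425390033) (nat_lit 152) (nat_lit 10201371876) (nat_lit 11) (nat_lit 5) (nat_lit 12) (nat_lit 5) (nat_lit 13) (nat_lit 4) (nat_lit 275) (nat_lit 247) (nat_lit 198))))) (XT.nd (nat_lit 234) (nat_lit 0) (nat_lit 0) (XT.nd (nat_lit 78) (nat_lit 228) (nat_lit 0) (XT.lf (nat_lit 0) (nat_lit 10929122865) (nat_lit 76) (nat_lit 12085610321) (nat_lit 152) (nat_lit 6922092918) (nat_lit 11) (nat_lit 5) (nat_lit 12) (nat_lit 5) (nat_lit 13) (nat_lit 4) (nat_lit 276) (nat_lit 247) (nat_lit 197)) (XT.nd (nat_lit 78) (nat_lit 228) (nat_lit 0) (XT.lf (nat_lit 0) (nat_lit 22068099894) (nat_lit 76) (nat_lit 6330571604) (nat_lit 152) (nat_lit 3402389392) (nat_lit 11) (nat_lit 5) (nat_lit 12) (nat_lit 5) (nat_lit 13) (nat_lit 4) (nat_lit 277) (nat_lit 247) (nat_lit 196)) (XT.lf (nat_lit 0) (nat_lit 256133858) (nat_lit 152) (nat_lit 109683455)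 (nat_lit 228) (nat_lit 33448963068) (nat_lit 8) (nat_lit 5) (nat_lit 10) (nat_lit 5) (nat_lit 11) (nat_lit 5) (nat_lit 278) (nat_lit 247) (nat_lit 195)))) (XT.nd (nat_lit 78) (nat_lit 0) (nat_lit 0) (XT.lf (nat_lit 0) (nat_lit 4664784913) (nat_lit 228) (nat_lit 24655993255) (nat_lit 76) (nat_lit 6628758760) (nat_lit 8) (nat_lit 5) (nat_lit 11) (nat_lit 5) (nat_lit 9) (nat_lit 4) (nat_lit 279) (nat_lit 247) (nat_lit 194)) (XT.nd (nat_lit 78) (nat_lit 0) (nat_lit 0) (XT.lf (nat_lit 0) (nat_lit 9293064787) (nat_lit 228) (nat_lit 15072989672) (nat_lit 76) (nat_lit 13890242707) (nat_lit 8) (nat_lit 5) (nat_lit 11) (nat_lit 5) (nat_lit 9) (nat_lit 4) (nat_lit 280) (nat_lit 247) (nat_lit 193)) (XT.lf (nat_lit 0) (nat_lit 14275445890) (nat_lit 228) (nat_lit 4750209714) (nat_lit 76) (nat_lit 21723286214) (nat_lit 8) (nat_lit 5) (nat_lit 11) (nat_lit 5) (nat_lit 9) (nat_lit 4) (nat_lit 281)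 (nat_lit 247) (nat_lit 192)))))) (XT.nd (nat_lit 468) (nat_lit 152) (nat_lit 0) (XT.nd (nat_lit 234) (nat_lit 76) (nat_lit 0) (XT.nd (nat_lit 78) (nat_lit 0) (nat_lit 0) (XT.lf (nat_lit 0) (nat_lit 6709136843) (nat_lit 76) (nat_lit 13093671502) (nat_lit 152) (nat_lit 23626525374) (nat_lit 7) (nat_lit 5) (nat_lit 8) (nat_lit 5) (nat_lit 9) (nat_lit 4) (nat_lit 282) (nat_lit 247) (nat_lit 191)) (XT.nd (nat_lit 78) (nat_lit 0) (nat_lit 0) (XT.lf (nat_lit 0) (nat_lit 19331135489) (nat_lit 76) (nat_lit 6556664792) (nat_lit 152) (nat_lit 20427164918) (nat_lit 7) (nat_lit 5) (nat_lit 8) (nat_lit 5) (nat_lit 9) (nat_lit 4) (nat_lit 283) (nat_lit 247) (nat_lit 190)) (XT.lf (nat_lit 0) (nat_lit 32458108517) (nat_lit 152) (nat_lit 16503997432) (nat_lit 0) (nat_lit 469500143) (nat_lit 7) (nat_lit 5) (nat_lit 9) (nat_lit 4) (nat_lit 7) (nat_lit 4) (nat_lit 284) (nat_lit 247) (nat_lit 189)))) (XT.nd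 (nat_lit 78) (nat_lit 76) (nat_lit 0) (XT.lf (nat_lit 0) (nat_lit 39711763382) (nat_lit 152) (nat_lit 5377692498) (nat_lit 0) (nat_lit 7695541885) (nat_lit 7) (nat_lit 5) (nat_lit 9) (nat_lit 4) (nat_lit 7) (nat_lit 4) (nat_lit 285) (nat_lit 247) (nat_lit 188)) (XT.nd (nat_lit 78) (nat_lit 0) (nat_lit 0) (XT.lf (nat_lit 0) (nat_lit 6967236060) (nat_lit 76) (nat_lit 40734387686) (nat_lit 76) (nat_lit 8692598483) (nat_lit 6) (nat_lit 4) (nat_lit 7) (nat_lit 5) (nat_lit 7) (nat_lit 4) (nat_lit 286) (nat_lit 247) (nat_lit 187)) (XT.lf (nat_lit 0) (nat_lit 20586089490) (nat_lit 76) (nat_lit 35880363842) (nat_lit 76) (nat_lit 3814900837) (nat_lit 6) (nat_lit 4) (nat_lit 7) (nat_lit 5) (nat_lit 7) (nat_lit 4) (nat_lit 287) (nat_lit 247) (nat_lit 186))))) (XT.nd (nat_lit 234) (nat_lit 76) (nat_lit 0) (XT.nd (nat_lit 78) (nat_lit 0) (nat_lit 0) (XT.lf (nat_lit 0) (nat_lit 1369606723) (nat_lit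 152) (nat_lit 29238601207) (nat_lit 76) (nat_lit 33869338154) (nat_lit 5) (nat_lit 5) (nat_lit 7) (nat_lit 5) (nat_lit 6) (nat_lit 4) (nat_lit 288) (nat_lit 247) (nat_lit 185)) (XT.nd (nat_lit 78) (nat_lit 0) (nat_lit 0) (XT.lf (nat_lit 0) (nat_lit 6752844932) (nat_lit 152) (nat_lit 18061762201) (nat_lit 76) (nat_lit 44187718612) (nat_lit 5) (nat_lit 5) (nat_lit 7) (nat_lit 5) (nat_lit 6) (nat_lit 4) (nat_lit 289) (nat_lit 247) (nat_lit 184)) (XT.lf (nat_lit 0) (nat_lit 12557551251) (nat_lit 152) (nat_lit 6006766084) (nat_lit 76) (nat_lit 55325529204) (nat_lit 5) (nat_lit 5) (nat_lit 7) (nat_lit 5) (nat_lit 6) (nat_lit 4) (nat_lit 290) (nat_lit 247) (nat_lit 183)))) (XT.nd (nat_lit 156) (nat_lit 0) (nat_lit 0) (XT.nd (nat_lit 78) (nat_lit 0) (nat_lit 0) (XT.lf (nat_lit 0) (nat_lit 7366317175) (nat_lit 76) (nat_lit 11628966870) (nat_lit 152) (nat_lit 60159614700) (nat_lit 4) (nat_lit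 5) (nat_lit 5) (nat_lit 5) (nat_lit 6) (nat_lit 4) (nat_lit 291) (nat_lit 247) (nat_lit 182)) (XT.lf (nat_lit 0) (nat_lit 22136426465) (nat_lit 76) (nat_lit 3967617811) (nat_lit 152) (nat_lit 58724650279) (nat_lit 4) (nat_lit 5) (nat_lit 5) (nat_lit 5) (nat_lit 6) (nat_lit 4) (nat_lit 292) (nat_lit 247) (nat_lit 181))) (XT.nd (nat_lit 78) (nat_lit 0) (nat_lit 0) (XT.lf (nat_lit 0) (nat_lit 33877324528) (nat_lit 152) (nat_lit 52985675990) (nat_lit 0) (nat_lit 4085746619) (nat_lit 4) (nat_lit 5) (nat_lit 6) (nat_lit 4) (nat_lit 4) (nat_lit 4) (nat_lit 293) (nat_lit 247) (nat_lit 180)) (XT.lf (nat_lit 0) (nat_lit 42368341121) (nat_lit 152) (nat_lit 42618437160) (nat_lit 0) (nat_lit 12563972993) (nat_lit 4) (nat_lit 5) (nat_lit 6) (nat_lit 4) (nat_lit 4) (nat_lit 4) (nat_lit 294) (nat_lit 247) (nat_lit 179))))))))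
noncomputable def xc64 : XT := (XT.nd (nat_lit 1872) (nat_lit 0) (nat_lit 0) (XT.nd (nat_lit 936) (nat_lit 152) (nat_lit 0) (XT.nd (nat_lit 468) (nat_lit 0) (nat_lit 0) (XT.nd (nat_lit 234) (nat_lit 76) (nat_lit 0) (XT.nd (nat_lit 78) (nat_lit 0) (nat_lit 0) (XT.lf (nat_lit 0) (nat_lit 51531989887) (nat_lit 152) (nat_lit 31433694807) (nat_lit 0) (nat_lit 21715778964) (nat_lit 4) (nat_lit 5) (nat_lit 6) (nat_lit 4) (nat_lit 4) (nat_lit 4) (nat_lit 295) (nat_lit 247) (nat_lit 178)) (XT.nd (nat_lit 78) (nat_lit 0) (nat_lit 0) (XT.lf (nat_lit 0) (nat_lit 61422573929) (nat_lit 152) (nat_lit 19365168976) (nat_lit 0) (nat_lit 31595397455) (nat_lit 4) (nat_lit 5) (nat_lit 6) (nat_lit 4) (nat_lit 4) (nat_lit 4) (nat_lit 296) (nat_lit 247) (nat_lit 177)) (XT.lf (nat_lit 0) (nat_lit 72098704116) (nat_lit 152) (nat_lit 6341342478) (nat_lit 0) (nat_lit 42261374355) (nat_lit 4) (nat_lit 5) (nat_lit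 6) (nat_lit 4) (nat_lit 4) (nat_lit 4) (nat_lit 297) (nat_lit 247) (nat_lit 176)))) (XT.nd (nat_lit 78) (nat_lit 0) (nat_lit 0) (XT.lf (nat_lit 0) (nat_lit 8121219193) (nat_lit 76) (nat_lit 75697742729) (nat_lit 76) (nat_lit 45851011775) (nat_lit 3) (nat_lit 4) (nat_lit 4) (nat_lit 5) (nat_lit 4) (nat_lit 4) (nat_lit 298) (nat_lit 247) (nat_lit 175)) (XT.nd (nat_lit 78) (nat_lit 0) (nat_lit 0) (XT.lf (nat_lit 0) (nat_lit 24092235007) (nat_lit 76) (nat_lit 72552880574) (nat_lit 76) (nat_lit 42697444812) (nat_lit 3) (nat_lit 4) (nat_lit 4) (nat_lit 5) (nat_lit 4) (nat_lit 4) (nat_lit 299) (nat_lit 247) (nat_lit 174)) (XT.lf (nat_lit 0) (nat_lit 41332424162) (nat_lit 76) (nat_lit 69160207452) (nat_lit 76) (nat_lit 39296711683) (nat_lit 3) (nat_lit 4) (nat_lit 4) (nat_lit 5) (nat_lit 4) (nat_lit 4) (nat_lit 300) (nat_lit 247) (nat_lit 173))))) (XT.nd (nat_lit 234) (nat_lit 0) (nat_lit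 0) (XT.nd (nat_lit 78) (nat_lit 0) (nat_lit 0) (XT.lf (nat_lit 0) (nat_lit 59943950743) (nat_lit 76) (nat_lit 65499618632) (nat_lit 76) (nat_lit 35628659893) (nat_lit 3) (nat_lit 4) (nat_lit 4) (nat_lit 5) (nat_lit 4) (nat_lit 4) (nat_lit 301) (nat_lit 247) (nat_lit 172)) (XT.nd (nat_lit 78) (nat_lit 0) (nat_lit 0) (XT.lf (nat_lit 0) (nat_lit 80037105277) (nat_lit 76) (nat_lit 61549421737) (nat_lit 76) (nat_lit 31671552842) (nat_lit 3) (nat_lit 4) (nat_lit 4) (nat_lit 5) (nat_lit 4) (nat_lit 4) (nat_lit 302) (nat_lit 247) (nat_lit 171)) (XT.lf (nat_lit 0) (nat_lit 101730958311) (nat_lit 76) (nat_lit 57286208193) (nat_lit 76) (nat_lit 27401941003) (nat_lit 3) (nat_lit 4) (nat_lit 4) (nat_lit 5) (nat_lit 4) (nat_lit 4) (nat_lit 303) (nat_lit 247) (nat_lit 170)))) (XT.nd (nat_lit 78) (nat_lit 0) (nat_lit 0) (XT.lf (nat_lit 0) (nat_lit 125154066008) (nat_lit 76) (nat_lit 52684714511) (nat_lit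 76) (nat_lit 22794522976) (nat_lit 3) (nat_lit 4) (nat_lit 4) (nat_lit 5) (nat_lit 4) (nat_lit 4) (nat_lit 304) (nat_lit 247) (nat_lit 169)) (XT.nd (nat_lit 78) (nat_lit 0) (nat_lit 0) (XT.lf (nat_lit 0) (nat_lit 150445231972) (nat_lit 76) (nat_lit 47717672582) (nat_lit 76) (nat_lit 17821995541) (nat_lit 3) (nat_lit 4) (nat_lit 4) (nat_lit 5) (nat_lit 4) (nat_lit 4) (nat_lit 305) (nat_lit 247) (nat_lit 168)) (XT.lf (nat_lit 0) (nat_lit 177754329779) (nat_lit 76) (nat_lit 42355648082) (nat_lit 76) (nat_lit 12454891869) (nat_lit 3) (nat_lit 4) (nat_lit 4) (nat_lit 5) (nat_lit 4) (nat_lit 4) (nat_lit 306) (nat_lit 247) (nat_lit 167)))))) (XT.nd (nat_lit 468) (nat_lit 0) (nat_lit 0) (XT.nd (nat_lit 234) (nat_lit 76) (nat_lit 0) (XT.nd (nat_lit 78) (nat_lit 76) (nat_lit 0) (XT.lf (nat_lit 0) (nat_lit 207243191118) (nat_lit 76) (nat_lit 36566866051) (nat_lit 76) (nat_lit 6661406902) (nat_lit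 3) (nat_lit 4) (nat_lit 4) (nat_lit 5) (nat_lit 4) (nat_lit 4) (nat_lit 307) (nat_lit 247) (nat_lit 166)) (XT.nd (nat_lit 78) (nat_lit 76) (nat_lit 0) (XT.lf (nat_lit 0) (nat_lit 239086564797) (nat_lit 76) (nat_lit 30317022597) (nat_lit 76) (nat_lit 407208876) (nat_lit 3) (nat_lit 4) (nat_lit 4) (nat_lit 5) (nat_lit 4) (nat_lit 4) (nat_lit 308) (nat_lit 247) (nat_lit 165)) (XT.lf (nat_lit 0) (nat_lit 6027373323) (nat_lit 152) (nat_lit 17376909217) (nat_lit 76) (nat_lit 267280979899) (nat_lit 2) (nat_lit 5) (nat_lit 4) (nat_lit 5) (nat_lit 3) (nat_lit 4) (nat_lit 309) (nat_lit 247) (nat_lit 164)))) (XT.nd (nat_lit 78) (nat_lit 76) (nat_lit 0) (XT.lf (nat_lit 0) (nat_lit 12952469684) (nat_lit 152) (nat_lit 2976442130) (nat_lit 76) (nat_lit 297300112811) (nat_lit 2) (nat_lit 5) (nat_lit 4) (nat_lit 5) (nat_lit 3) (nat_lit 4) (nat_lit 310) (nat_lit 247) (nat_lit 163)) (XT.nd (nat_lit 78)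 (nat_lit 0) (nat_lit 0) (XT.lf (nat_lit 0) (nat_lit 13234334271) (nat_lit 76) (nat_lit 7513439836) (nat_lit 152) (nat_lit 316803221969) (nat_lit 1) (nat_lit 5) (nat_lit 2) (nat_lit 5) (nat_lit 3) (nat_lit 4) (nat_lit 311) (nat_lit 247) (nat_lit 162)) (XT.lf (nat_lit 0) (nat_lit 29286024103) (nat_lit 152) (nat_lit 332944761832) (nat_lit 0) (nat_lit 1578397610) (nat_lit 1) (nat_lit 5) (nat_lit 3) (nat_lit 4) (nat_lit 1) (nat_lit 4) (nat_lit 312) (nat_lit 247) (nat_lit 161))))) (XT.nd (nat_lit 234) (nat_lit 0) (nat_lit 0) (XT.nd (nat_lit 78) (nat_lit 0) (nat_lit 0) (XT.lf (nat_lit 0) (nat_lit 38700581843) (nat_lit 152) (nat_lit 342461776822) (nat_lit 0) (nat_lit 10990211231) (nat_lit 1) (nat_lit 5) (nat_lit 3) (nat_lit 4) (nat_lit 1) (nat_lit 4) (nat_lit 313) (nat_lit 247) (nat_lit 160)) (XT.nd (nat_lit 78) (nat_lit 0) (nat_lit 0) (XT.lf (nat_lit 0) (nat_lit 48866538889) (nat_lit 152)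 (nat_lit 352743405493) (nat_lit 0) (nat_lit 21153627427) (nat_lit 1) (nat_lit 5) (nat_lit 3) (nat_lit 4) (nat_lit 1) (nat_lit 4) (nat_lit 314) (nat_lit 247) (nat_lit 159)) (XT.lf (nat_lit 0) (nat_lit 59844137951) (nat_lit 152) (nat_lit 363850576015) (nat_lit 0) (nat_lit 32128873850) (nat_lit 1) (nat_lit 5) (nat_lit 3) (nat_lit 4) (nat_lit 1) (nat_lit 4) (nat_lit 315) (nat_lit 247) (nat_lit 158)))) (XT.nd (nat_lit 78) (nat_lit 0) (nat_lit 0) (XT.lf (nat_lit 0) (nat_lit 71698431466) (nat_lit 152) (nat_lit 375849108657) (nat_lit 0) (nat_lit 43980988995) (nat_lit 1) (nat_lit 5) (nat_lit 3) (nat_lit 4) (nat_lit 1) (nat_lit 4) (nat_lit 316) (nat_lit 247) (nat_lit 157)) (XT.nd (nat_lit 78) (nat_lit 0) (nat_lit 0) (XT.lf (nat_lit 0) (nat_lit 84499667101) (nat_lit 152) (nat_lit 388810105835) (nat_lit 0) (nat_lit 56780207621) (nat_lit 1) (nat_lit 5) (nat_lit 3) (nat_lit 4) (nat_lit 1) (nat_lit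 4) (nat_lit 317) (nat_lit 247) (nat_lit 156)) (XT.lf (nat_lit 0) (nat_lit 98323704030) (nat_lit 152) (nat_lit 402810373458) (nat_lit 0) (nat_lit 70602376949) (nat_lit 1) (nat_lit 5) (nat_lit 3) (nat_lit 4) (nat_lit 1) (nat_lit 4) (nat_lit 318) (nat_lit 247) (nat_lit 155))))))) (XT.nd (nat_lit 936) (nat_lit 0) (nat_lit 0) (XT.nd (nat_lit 468) (nat_lit 0) (nat_lit 0) (XT.nd (nat_lit 234) (nat_lit 0) (nat_lit 0) (XT.nd (nat_lit 78) (nat_lit 0) (nat_lit 0) (XT.lf (nat_lit 0) (nat_lit 113252462470) (nat_lit 152) (nat_lit 417932876076) (nat_lit 0) (nat_lit 85529406129) (nat_lit 1) (nat_lit 5) (nat_lit 3) (nat_lit 4) (nat_lit 1) (nat_lit 4) (nat_lit 319) (nat_lit 247) (nat_lit 154)) (XT.nd (nat_lit 78) (nat_lit 0) (nat_lit 0) (XT.lf (nat_lit 0) (nat_lit 129374409140) (nat_lit 152) (nat_lit 434267228518) (nat_lit 0) (nat_lit 101649751632) (nat_lit 1) (nat_lit 5) (nat_lit 3) (nat_lit 4) (nat_lit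 1) (nat_lit 4) (nat_lit 320) (nat_lit 247) (nat_lit 153)) (XT.lf (nat_lit 0) (nat_lit 146785081500) (nat_lit 152) (nat_lit 451910226947) (nat_lit 0) (nat_lit 119058941430) (nat_lit 1) (nat_lit 5) (nat_lit 3) (nat_lit 4) (nat_lit 1) (nat_lit 4) (nat_lit 321) (nat_lit 247) (nat_lit 152)))) (XT.nd (nat_lit 78) (nat_lit 0) (nat_lit 0) (XT.lf (nat_lit 0) (nat_lit 165587653905) (nat_lit 152) (nat_lit 470966422465) (nat_lit 0) (nat_lit 137860141093) (nat_lit 1) (nat_lit 5) (nat_lit 3) (nat_lit 4) (nat_lit 1) (nat_lit 4) (nat_lit 322) (nat_lit 247) (nat_lit 151)) (XT.nd (nat_lit 78) (nat_lit 0) (nat_lit 0) (XT.lf (nat_lit 0) (nat_lit 185893549008) (nat_lit 152) (nat_lit 491548740675) (nat_lit 0) (nat_lit 158164765138) (nat_lit 1) (nat_lit 5) (nat_lit 3) (nat_lit 4) (nat_lit 1) (nat_lit 4) (nat_lit 323) (nat_lit 247) (nat_lit 150)) (XT.lf (nat_lit 0) (nat_lit 207823098037) (nat_lit 152) (nat_lit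 513779150870) (nat_lit 0) (nat_lit 180093137262) (nat_lit 1) (nat_lit 5) (nat_lit 3) (nat_lit 4) (nat_lit 1) (nat_lit 4) (nat_lit 324) (nat_lit 247) (nat_lit 149))))) (XT.nd (nat_lit 234) (nat_lit 0) (nat_lit 0) (XT.nd (nat_lit 78) (nat_lit 0) (nat_lit 0) (XT.lf (nat_lit 0) (nat_lit 231506253876) (nat_lit 152) (nat_lit 537789388815) (nat_lit 0) (nat_lit 203775203374) (nat_lit 1) (nat_lit 5) (nat_lit 3) (nat_lit 4) (nat_lit 1) (nat_lit 4) (nat_lit 325) (nat_lit 247) (nat_lit 148)) (XT.nd (nat_lit 78) (nat_lit 0) (nat_lit 0) (XT.lf (nat_lit 0) (nat_lit 257083361153) (nat_lit 152) (nat_lit 563721737400) (nat_lit 0) (nat_lit 229351301644) (nat_lit 1) (nat_lit 5) (nat_lit 3) (nat_lit 4) (nat_lit 1) (nat_lit 4) (nat_lit 326) (nat_lit 247) (nat_lit 147)) (XT.lf (nat_lit 0) (nat_lit 284705987910) (nat_lit 152) (nat_lit 591729869802) (nat_lit 0) (nat_lit 256972994136) (nat_lit 1) (nat_lit 5)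 (nat_lit 3) (nat_lit 4) (nat_lit 1) (nat_lit 4) (nat_lit 327) (nat_lit 247) (nat_lit 146)))) (XT.nd (nat_lit 78) (nat_lit 0) (nat_lit 0) (XT.lf (nat_lit 0) (nat_lit 314537823788) (nat_lit 152) (nat_lit 621979760140) (nat_lit 0) (nat_lit 286803964953) (nat_lit 1) (nat_lit 5) (nat_lit 3) (nat_lit 4) (nat_lit 1) (nat_lit 4) (nat_lit 328) (nat_lit 247) (nat_lit 145)) (XT.nd (nat_lit 78) (nat_lit 0) (nat_lit 0) (XT.lf (nat_lit 0) (nat_lit 346755650035) (nat_lit 152) (nat_lit 654650667023) (nat_lit 0) (nat_lit 319020990218) (nat_lit 1) (nat_lit 5) (nat_lit 3) (nat_lit 4) (nat_lit 1) (nat_lit 4) (nat_lit 329) (nat_lit 247) (nat_lit 144)) (XT.lf (nat_lit 0) (nat_lit 381550387105) (nat_lit 152) (nat_lit 689936195825) (nat_lit 0) (nat_lit 353814985638) (nat_lit 1) (nat_lit 5) (nat_lit 3) (nat_lit 4) (nat_lit 1) (nat_lit 4) (nat_lit 330) (nat_lit 247) (nat_lit 143)))))) (XT.nd (nat_lit 31044)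 (nat_lit 0) (nat_lit 2888) (XT.nd (nat_lit 234) (nat_lit 0) (nat_lit 0) (XT.nd (nat_lit 78) (nat_lit 0) (nat_lit 0) (XT.lf (nat_lit 0) (nat_lit 419128226031) (nat_lit 152) (nat_lit 728045445975) (nat_lit 0) (nat_lit 391392137851) (nat_lit 1) (nat_lit 5) (nat_lit 3) (nat_lit 4) (nat_lit 1) (nat_lit 4) (nat_lit 331) (nat_lit 247) (nat_lit 142)) (XT.nd (nat_lit 78) (nat_lit 0) (nat_lit 0) (XT.lf (nat_lit 0) (nat_lit 459711850303) (nat_lit 152) (nat_lit 769204250068) (nat_lit 0) (nat_lit 431975126278) (nat_lit 1) (nat_lit 5) (nat_lit 3) (nat_lit 4) (nat_lit 1) (nat_lit 4) (nat_lit 332) (nat_lit 247) (nat_lit 141)) (XT.lf (nat_lit 0) (nat_lit 503541755473) (nat_lit 152) (nat_lit 813656512128) (nat_lit 0) (nat_lit 475804442702) (nat_lit 1) (nat_lit 5) (nat_lit 3) (nat_lit 4) (nat_lit 1) (nat_lit 4) (nat_lit 333) (nat_lit 247) (nat_lit 140)))) (XT.nd (nat_lit 78) (nat_lit 0) (nat_lit 0) (XT.lf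 (nat_lit 0) (nat_lit 550877674312) (nat_lit 152) (nat_lit 861665652967) (nat_lit 0) (nat_lit 523139816406) (nat_lit 1) (nat_lit 5) (nat_lit 3) (nat_lit 4) (nat_lit 1) (nat_lit 4) (nat_lit 334) (nat_lit 247) (nat_lit 139)) (XT.nd (nat_lit 78) (nat_lit 0) (nat_lit 0) (XT.lf (nat_lit 0) (nat_lit 602000115968) (nat_lit 152) (nat_lit 913516171197) (nat_lit 0) (nat_lit 574261753308) (nat_lit 1) (nat_lit 5) (nat_lit 3) (nat_lit 4) (nat_lit 1) (nat_lit 4) (nat_lit 335) (nat_lit 247) (nat_lit 138)) (XT.lf (nat_lit 0) (nat_lit 657212028245) (nat_lit 152) (nat_lit 969515329148) (nat_lit 0) (nat_lit 629473198219) (nat_lit 1) (nat_lit 5) (nat_lit 3) (nat_lit 4) (nat_lit 1) (nat_lit 4) (nat_lit 336) (nat_lit 247) (nat_lit 137))))) (XT.nd (nat_lit 234) (nat_lit 0) (nat_lit 0) (XT.nd (nat_lit 78) (nat_lit 0) (nat_lit 0) (XT.lf (nat_lit 0) (nat_lit 280300232) (nat_lit 0) (nat_lit 280300232) (nat_lit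 380) (nat_lit 3614574514) (nat_lit 39) (nat_lit 5) (nat_lit 39) (nat_lit 3) (nat_lit 44) (nat_lit 3) (nat_lit 248) (nat_lit 248) (nat_lit 224)) (XT.nd (nat_lit 78) (nat_lit 0) (nat_lit 0) (XT.lf (nat_lit 0) (nat_lit 2181472607) (nat_lit 380) (nat_lit 4329217203) (nat_lit 456) (nat_lit 2085502553) (nat_lit 39) (nat_lit 5) (nat_lit 44) (nat_lit 3) (nat_lit 45) (nat_lit 5) (nat_lit 249) (nat_lit 248) (nat_lit 223)) (XT.lf (nat_lit 0) (nat_lit 3245976273) (nat_lit 380) (nat_lit 664114769) (nat_lit 456) (nat_lit 4958752402) (nat_lit 39) (nat_lit 5) (nat_lit 44) (nat_lit 3) (nat_lit 45) (nat_lit 5) (nat_lit 250) (nat_lit 248) (nat_lit 222)))) (XT.nd (nat_lit 78) (nat_lit 0) (nat_lit 76) (XT.lf (nat_lit 76) (nat_lit 3411412033) (nat_lit 0) (nat_lit 978170150) (nat_lit 456) (nat_lit 4774851761) (nat_lit 40) (nat_lit 5) (nat_lit 39) (nat_lit 5) (nat_lit 45) (nat_lit 5) (nat_lit 251) (nat_lit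 248) (nat_lit 221)) (XT.nd (nat_lit 78) (nat_lit 0) (nat_lit 0) (XT.lf (nat_lit 0) (nat_lit 5613845396) (nat_lit 380) (nat_lit 1744614162) (nat_lit 456) (nat_lit 2126673701) (nat_lit 40) (nat_lit 5) (nat_lit 45) (nat_lit 5) (nat_lit 46) (nat_lit 5) (nat_lit 252) (nat_lit 248) (nat_lit 220)) (XT.lf (nat_lit 76) (nat_lit 2635290337) (nat_lit 0) (nat_lit 4313536200) (nat_lit 456) (nat_lit 2882190836) (nat_lit 41) (nat_lit 5) (nat_lit 40) (nat_lit 5) (nat_lit 46) (nat_lit 5) (nat_lit 253) (nat_lit 248) (nat_lit 219))))))))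
noncomputable def xc65 : XT := (XT.nd (nat_lit 1872) (nat_lit 608) (nat_lit 0) (XT.nd (nat_lit 936) (nat_lit 684) (nat_lit 0) (XT.nd (nat_lit 468) (nat_lit 456) (nat_lit 0) (XT.nd (nat_lit 234) (nat_lit 684) (nat_lit 0) (XT.nd (nat_lit 78) (nat_lit 380) (nat_lit 0) (XT.lf (nat_lit 76) (nat_lit 7410615716) (nat_lit 0) (nat_lit 956009395) (nat_lit 456) (nat_lit 1840375777) (nat_lit 41) (nat_lit 5) (nat_lit 40) (nat_lit 5) (nat_lit 46) (nat_lit 5) (nat_lit 254) (nat_lit 248) (nat_lit 218)) (XT.nd (nat_lit 78) (nat_lit 76) (nat_lit 0) (XT.lf (nat_lit 0) (nat_lit 1930933811) (nat_lit 380) (nat_lit 8011586609) (nat_lit 456) (nat_lit 667441232) (nat_lit 36) (nat_lit 5) (nat_lit 41) (nat_lit 5) (nat_lit 42) (nat_lit 5) (nat_lit 255) (nat_lit 248) (nat_lit 217)) (XT.lf (nat_lit 0) (nat_lit 608170177) (nat_lit 456) (nat_lit 3943521979) (nat_lit 76) (nat_lit 6489613182) (nat_lit 35) (nat_lit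 5) (nat_lit 41) (nat_lit 5) (nat_lit 36) (nat_lit 5) (nat_lit 256) (nat_lit 248) (nat_lit 216)))) (XT.nd (nat_lit 78) (nat_lit 228) (nat_lit 0) (XT.lf (nat_lit 0) (nat_lit 1156996054) (nat_lit 456) (nat_lit 760922782) (nat_lit 532) (nat_lit 9590773994) (nat_lit 29) (nat_lit 5) (nat_lit 35) (nat_lit 5) (nat_lit 36) (nat_lit 5) (nat_lit 257) (nat_lit 248) (nat_lit 215)) (XT.nd (nat_lit 78) (nat_lit 228) (nat_lit 0) (XT.lf (nat_lit 0) (nat_lit 3466785141) (nat_lit 532) (nat_lit 5255928546) (nat_lit 76) (nat_lit 3280357839) (nat_lit 29) (nat_lit 5) (nat_lit 36) (nat_lit 5) (nat_lit 30) (nat_lit 5) (nat_lit 258) (nat_lit 248) (nat_lit 214)) (XT.lf (nat_lit 0) (nat_lit 183247933) (nat_lit 228) (nat_lit 4928218372) (nat_lit 304) (nat_lit 7428103272) (nat_lit 26) (nat_lit 5) (nat_lit 29) (nat_lit 5) (nat_lit 30) (nat_lit 5) (nat_lit 259) (nat_lit 248) (nat_lit 213))))) (XT.nd (nat_lit 234)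 (nat_lit 304) (nat_lit 0) (XT.nd (nat_lit 78) (nat_lit 152) (nat_lit 0) (XT.lf (nat_lit 0) (nat_lit 6304170435) (nat_lit 228) (nat_lit 677605927) (nat_lit 304) (nat_lit 6129984449) (nat_lit 26) (nat_lit 5) (nat_lit 29) (nat_lit 5) (nat_lit 30) (nat_lit 5) (nat_lit 260) (nat_lit 248) (nat_lit 212)) (XT.nd (nat_lit 78) (nat_lit 152) (nat_lit 0) (XT.lf (nat_lit 0) (nat_lit 9049787317) (nat_lit 304) (nat_lit 961387869) (nat_lit 76) (nat_lit 3714981708) (nat_lit 26) (nat_lit 5) (nat_lit 30) (nat_lit 5) (nat_lit 27) (nat_lit 5) (nat_lit 261) (nat_lit 248) (nat_lit 211)) (XT.lf (nat_lit 0) (nat_lit 5564843954) (nat_lit 152) (nat_lit 5827206842) (nat_lit 228) (nat_lit 2989204157) (nat_lit 24) (nat_lit 5) (nat_lit 26) (nat_lit 5) (nat_lit 27) (nat_lit 5) (nat_lit 262) (nat_lit 248) (nat_lit 210)))) (XT.nd (nat_lit 78) (nat_lit 304) (nat_lit 0) (XT.lf (nat_lit 0) (nat_lit 12620632941) (nat_lit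 152) (nat_lit 1286747041) (nat_lit 228) (nat_lit 1182762420) (nat_lit 24) (nat_lit 5) (nat_lit 26) (nat_lit 5) (nat_lit 27) (nat_lit 5) (nat_lit 263) (nat_lit 248) (nat_lit 209)) (XT.nd (nat_lit 78) (nat_lit 0) (nat_lit 0) (XT.lf (nat_lit 0) (nat_lit 890509122) (nat_lit 304) (nat_lit 11390726509) (nat_lit 76) (nat_lit 3560370394) (nat_lit 20) (nat_lit 5) (nat_lit 24) (nat_lit 5) (nat_lit 21) (nat_lit 5) (nat_lit 264) (nat_lit 248) (nat_lit 208)) (XT.lf (nat_lit 0) (nat_lit 3131267847) (nat_lit 304) (nat_lit 4696097244) (nat_lit 76) (nat_lit 8818309527) (nat_lit 20) (nat_lit 5) (nat_lit 24) (nat_lit 5) (nat_lit 21) (nat_lit 5) (nat_lit 265) (nat_lit 248) (nat_lit 207)))))) (XT.nd (nat_lit 468) (nat_lit 228) (nat_lit 0) (XT.nd (nat_lit 234) (nat_lit 304) (nat_lit 0) (XT.nd (nat_lit 78) (nat_lit 0) (nat_lit 0) (XT.lf (nat_lit 0) (nat_lit 2620994685) (nat_lit 152) (nat_lit 2958909790)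 (nat_lit 228) (nat_lit 11932048546) (nat_lit 18) (nat_lit 5) (nat_lit 20) (nat_lit 5) (nat_lit 21) (nat_lit 5) (nat_lit 266) (nat_lit 248) (nat_lit 206)) (XT.nd (nat_lit 78) (nat_lit 0) (nat_lit 0) (XT.lf (nat_lit 0) (nat_lit 8378308133) (nat_lit 228) (nat_lit 7751012082) (nat_lit 76) (nat_lit 2306064224) (nat_lit 18) (nat_lit 5) (nat_lit 21) (nat_lit 5) (nat_lit 19) (nat_lit 5) (nat_lit 267) (nat_lit 248) (nat_lit 205)) (XT.lf (nat_lit 0) (nat_lit 11446744339) (nat_lit 228) (nat_lit 158992473) (nat_lit 76) (nat_lit 7823409658) (nat_lit 18) (nat_lit 5) (nat_lit 21) (nat_lit 5) (nat_lit 19) (nat_lit 5) (nat_lit 268) (nat_lit 248) (nat_lit 204)))) (XT.nd (nat_lit 78) (nat_lit 152) (nat_lit 0) (XT.lf (nat_lit 0) (nat_lit 8422583843) (nat_lit 152) (nat_lit 6512214067) (nat_lit 228) (nat_lit 5553818043) (nat_lit 16) (nat_lit 5) (nat_lit 18) (nat_lit 5) (nat_lit 19) (nat_lit 5) (nat_lit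 269) (nat_lit 248) (nat_lit 203)) (XT.nd (nat_lit 78) (nat_lit 152) (nat_lit 0) (XT.lf (nat_lit 0) (nat_lit 17661582493) (nat_lit 152) (nat_lit 1017427378) (nat_lit 228) (nat_lit 2955791671) (nat_lit 16) (nat_lit 5) (nat_lit 18) (nat_lit 5) (nat_lit 19) (nat_lit 5) (nat_lit 270) (nat_lit 248) (nat_lit 202)) (XT.lf (nat_lit 0) (nat_lit 72448917) (nat_lit 152) (nat_lit 18003480920) (nat_lit 76) (nat_lit 4779960264) (nat_lit 14) (nat_lit 5) (nat_lit 16) (nat_lit 5) (nat_lit 15) (nat_lit 5) (nat_lit 271) (nat_lit 248) (nat_lit 201))))) (XT.nd (nat_lit 234) (nat_lit 76) (nat_lit 0) (XT.nd (nat_lit 78) (nat_lit 152) (nat_lit 0) (XT.lf (nat_lit 0) (nat_lit 3295958266) (nat_lit 152) (nat_lit 9699647058) (nat_lit 76) (nat_lit 11164003945) (nat_lit 14) (nat_lit 5) (nat_lit 16) (nat_lit 5) (nat_lit 15) (nat_lit 5) (nat_lit 272) (nat_lit 248) (nat_lit 200)) (XT.nd (nat_lit 78) (nat_lit 152) (nat_lit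 0) (XT.lf (nat_lit 0) (nat_lit 6754029678) (nat_lit 152) (nat_lit 766412115) (nat_lit 76) (nat_lit 18049143517) (nat_lit 14) (nat_lit 5) (nat_lit 16) (nat_lit 5) (nat_lit 15) (nat_lit 5) (nat_lit 273) (nat_lit 248) (nat_lit 199)) (XT.lf (nat_lit 0) (nat_lit 9315142764) (nat_lit 152) (nat_lit 1376042070) (nat_lit 228) (nat_lit 16385066450) (nat_lit 12) (nat_lit 5) (nat_lit 14) (nat_lit 5) (nat_lit 15) (nat_lit 5) (nat_lit 274) (nat_lit 248) (nat_lit 198)))) (XT.nd (nat_lit 78) (nat_lit 76) (nat_lit 0) (XT.lf (nat_lit 0) (nat_lit 15070304486) (nat_lit 228) (nat_lit 8614994438) (nat_lit 76) (nat_lit 5008072702) (nat_lit 12) (nat_lit 5) (nat_lit 15) (nat_lit 5) (nat_lit 13) (nat_lit 4) (nat_lit 275) (nat_lit 248) (nat_lit 197)) (XT.nd (nat_lit 78) (nat_lit 0) (nat_lit 0) (XT.lf (nat_lit 0) (nat_lit 1259534008) (nat_lit 76) (nat_lit 18586800817) (nat_lit 152) (nat_lit 10589874777) (nat_lit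 11) (nat_lit 5) (nat_lit 12) (nat_lit 5) (nat_lit 13) (nat_lit 4) (nat_lit 276) (nat_lit 248) (nat_lit 196)) (XT.lf (nat_lit 0) (nat_lit 12384199869) (nat_lit 76) (nat_lit 12837069870) (nat_lit 152) (nat_lit 7079928083) (nat_lit 11) (nat_lit 5) (nat_lit 12) (nat_lit 5) (nat_lit 13) (nat_lit 4) (nat_lit 277) (nat_lit 248) (nat_lit 195))))))) (XT.nd (nat_lit 936) (nat_lit 152) (nat_lit 0) (XT.nd (nat_lit 468) (nat_lit 152) (nat_lit 0) (XT.nd (nat_lit 234) (nat_lit 76) (nat_lit 0) (XT.nd (nat_lit 78) (nat_lit 228) (nat_lit 0) (XT.lf (nat_lit 0) (nat_lit 24371276751) (nat_lit 76) (nat_lit 6637582817) (nat_lit 152) (nat_lit 3307976591) (nat_lit 11) (nat_lit 5) (nat_lit 12) (nat_lit 5) (nat_lit 13) (nat_lit 4) (nat_lit 278) (nat_lit 248) (nat_lit 194)) (XT.nd (nat_lit 78) (nat_lit 0) (nat_lit 0) (XT.lf (nat_lit 0) (nat_lit 732755666) (nat_lit 228) (nat_lit 35674456353) (nat_lit 76) (nat_lit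 84668664) (nat_lit 8) (nat_lit 5) (nat_lit 11) (nat_lit 5) (nat_lit 9) (nat_lit 4) (nat_lit 279) (nat_lit 248) (nat_lit 193)) (XT.lf (nat_lit 0) (nat_lit 5353265752) (nat_lit 228) (nat_lit 26104368112) (nat_lit 76) (nat_lit 7341653017) (nat_lit 8) (nat_lit 5) (nat_lit 11) (nat_lit 5) (nat_lit 9) (nat_lit 4) (nat_lit 280) (nat_lit 248) (nat_lit 192)))) (XT.nd (nat_lit 78) (nat_lit 76) (nat_lit 0) (XT.lf (nat_lit 0) (nat_lit 10328452605) (nat_lit 228) (nat_lit 15793546805) (nat_lit 76) (nat_lit 15170530232) (nat_lit 8) (nat_lit 5) (nat_lit 11) (nat_lit 5) (nat_lit 9) (nat_lit 4) (nat_lit 281) (nat_lit 248) (nat_lit 191)) (XT.nd (nat_lit 78) (nat_lit 76) (nat_lit 0) (XT.lf (nat_lit 0) (nat_lit 15687798816) (nat_lit 228) (nat_lit 4680891269) (nat_lit 76) (nat_lit 23617693655) (nat_lit 8) (nat_lit 5) (nat_lit 11) (nat_lit 5) (nat_lit 9) (nat_lit 4) (nat_lit 282) (nat_lit 248) (nat_lit 190))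 (XT.lf (nat_lit 0) (nat_lit 7683827437) (nat_lit 76) (nat_lit 13964032269) (nat_lit 152) (nat_lit 25234169349) (nat_lit 7) (nat_lit 5) (nat_lit 8) (nat_lit 5) (nat_lit 9) (nat_lit 4) (nat_lit 283) (nat_lit 248) (nat_lit 189))))) (XT.nd (nat_lit 234) (nat_lit 152) (nat_lit 0) (XT.nd (nat_lit 78) (nat_lit 0) (nat_lit 0) (XT.lf (nat_lit 0) (nat_lit 21283144520) (nat_lit 76) (nat_lit 6917185982) (nat_lit 152) (nat_lit 21799784357) (nat_lit 7) (nat_lit 5) (nat_lit 8) (nat_lit 5) (nat_lit 9) (nat_lit 4) (nat_lit 284) (nat_lit 248) (nat_lit 188)) (XT.nd (nat_lit 78) (nat_lit 0) (nat_lit 0) (XT.lf (nat_lit 0) (nat_lit 35282026357) (nat_lit 152) (nat_lit 17433927174) (nat_lit 0) (nat_lit 651326312) (nat_lit 7) (nat_lit 5) (nat_lit 9) (nat_lit 4) (nat_lit 7) (nat_lit 4) (nat_lit 285) (nat_lit 248) (nat_lit 187)) (XT.lf (nat_lit 0) (nat_lit 43099138858) (nat_lit 152) (nat_lit 5446435627) (nat_lit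 0) (nat_lit 8444765011) (nat_lit 7) (nat_lit 5) (nat_lit 9) (nat_lit 4) (nat_lit 7) (nat_lit 4) (nat_lit 286) (nat_lit 248) (nat_lit 186)))) (XT.nd (nat_lit 78) (nat_lit 76) (nat_lit 0) (XT.lf (nat_lit 0) (nat_lit 7876936018) (nat_lit 76) (nat_lit 43844137630) (nat_lit 76) (nat_lit 9167843596) (nat_lit 6) (nat_lit 4) (nat_lit 7) (nat_lit 5) (nat_lit 7) (nat_lit 4) (nat_lit 287) (nat_lit 248) (nat_lit 185)) (XT.nd (nat_lit 78) (nat_lit 76) (nat_lit 0) (XT.lf (nat_lit 0) (nat_lit 22559199865) (nat_lit 76) (nat_lit 38612828994) (nat_lit 76) (nat_lit 3916238491) (nat_lit 6) (nat_lit 4) (nat_lit 7) (nat_lit 5) (nat_lit 7) (nat_lit 4) (nat_lit 288) (nat_lit 248) (nat_lit 184)) (XT.lf (nat_lit 0) (nat_lit 1658487103) (nat_lit 152) (nat_lit 31265730355) (nat_lit 76) (nat_lit 36696729193) (nat_lit 5) (nat_lit 5) (nat_lit 7) (nat_lit 5) (nat_lit 6) (nat_lit 4) (nat_lit 289) (nat_lit 248) (nat_lit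 183)))))) (XT.nd (nat_lit 468) (nat_lit 76) (nat_lit 0) (XT.nd (nat_lit 234) (nat_lit 0) (nat_lit 0) (XT.nd (nat_lit 78) (nat_lit 76) (nat_lit 0) (XT.lf (nat_lit 0) (nat_lit 7459102010) (nat_lit 152) (nat_lit 19217852298) (nat_lit 76) (nat_lit 47831850904) (nat_lit 5) (nat_lit 5) (nat_lit 7) (nat_lit 5) (nat_lit 6) (nat_lit 4) (nat_lit 290) (nat_lit 248) (nat_lit 182)) (XT.nd (nat_lit 78) (nat_lit 76) (nat_lit 0) (XT.lf (nat_lit 0) (nat_lit 13715886355) (nat_lit 152) (nat_lit 6219852854) (nat_lit 76) (nat_lit 59852603766) (nat_lit 5) (nat_lit 5) (nat_lit 7) (nat_lit 5) (nat_lit 6) (nat_lit 4) (nat_lit 291) (nat_lit 248) (nat_lit 181)) (XT.lf (nat_lit 0) (nat_lit 8216306066) (nat_lit 76) (nat_lit 12447213669) (nat_lit 152) (nat_lit 64811518161) (nat_lit 4) (nat_lit 5) (nat_lit 5) (nat_lit 5) (nat_lit 6) (nat_lit 4) (nat_lit 292) (nat_lit 248) (nat_lit 180)))) (XT.nd (nat_lit 78) (nat_lit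 0) (nat_lit 0) (XT.lf (nat_lit 0) (nat_lit 24148714209) (nat_lit 76) (nat_lit 4181258208) (nat_lit 152) (nat_lit 63273672566) (nat_lit 4) (nat_lit 5) (nat_lit 5) (nat_lit 5) (nat_lit 6) (nat_lit 4) (nat_lit 293) (nat_lit 248) (nat_lit 179)) (XT.nd (nat_lit 78) (nat_lit 0) (nat_lit 0) (XT.lf (nat_lit 0) (nat_lit 36717232941) (nat_lit 152) (nat_lit 56992841999) (nat_lit 0) (nat_lit 4503882349) (nat_lit 4) (nat_lit 5) (nat_lit 6) (nat_lit 4) (nat_lit 4) (nat_lit 4) (nat_lit 294) (nat_lit 248) (nat_lit 178)) (XT.lf (nat_lit 0) (nat_lit 45877921791) (nat_lit 152) (nat_lit 45813386141) (nat_lit 0) (nat_lit 13653605648) (nat_lit 4) (nat_lit 5) (nat_lit 6) (nat_lit 4) (nat_lit 4) (nat_lit 4) (nat_lit 295) (nat_lit 248) (nat_lit 177))))) (XT.nd (nat_lit 234) (nat_lit 76) (nat_lit 0) (XT.nd (nat_lit 78) (nat_lit 0) (nat_lit 0) (XT.lf (nat_lit 0) (nat_lit 55765765170) (nat_lit 152) (nat_lit 33749755214)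 (nat_lit 0) (nat_lit 23531295740) (nat_lit 4) (nat_lit 5) (nat_lit 6) (nat_lit 4) (nat_lit 4) (nat_lit 4) (nat_lit 296) (nat_lit 248) (nat_lit 176)) (XT.nd (nat_lit 78) (nat_lit 0) (nat_lit 0) (XT.lf (nat_lit 0) (nat_lit 66439357707) (nat_lit 152) (nat_lit 20730461034) (nat_lit 0) (nat_lit 34195487084) (nat_lit 4) (nat_lit 5) (nat_lit 6) (nat_lit 4) (nat_lit 4) (nat_lit 4) (nat_lit 297) (nat_lit 248) (nat_lit 175)) (XT.lf (nat_lit 0) (nat_lit 77961950319) (nat_lit 152) (nat_lit 6678352228) (nat_lit 0) (nat_lit 45709374889) (nat_lit 4) (nat_lit 5) (nat_lit 6) (nat_lit 4) (nat_lit 4) (nat_lit 4) (nat_lit 298) (nat_lit 248) (nat_lit 174)))) (XT.nd (nat_lit 156) (nat_lit 0) (nat_lit 0) (XT.nd (nat_lit 78) (nat_lit 0) (nat_lit 0) (XT.lf (nat_lit 0) (nat_lit 8936903044) (nat_lit 76) (nat_lit 81679854726) (nat_lit 76) (nat_lit 49419219288) (nat_lit 3) (nat_lit 4) (nat_lit 4) (nat_lit 5) (nat_lit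 4) (nat_lit 4) (nat_lit 299) (nat_lit 248) (nat_lit 173)) (XT.lf (nat_lit 0) (nat_lit 26173304840) (nat_lit 76) (nat_lit 78288863408) (nat_lit 76) (nat_lit 46020765001) (nat_lit 3) (nat_lit 4) (nat_lit 4) (nat_lit 5) (nat_lit 4) (nat_lit 4) (nat_lit 300) (nat_lit 248) (nat_lit 172))) (XT.nd (nat_lit 78) (nat_lit 0) (nat_lit 0) (XT.lf (nat_lit 0) (nat_lit 44781324607) (nat_lit 76) (nat_lit 74629831815) (nat_lit 76) (nat_lit 42354823250) (nat_lit 3) (nat_lit 4) (nat_lit 4) (nat_lit 5) (nat_lit 4) (nat_lit 4) (nat_lit 301) (nat_lit 248) (nat_lit 171)) (XT.lf (nat_lit 0) (nat_lit 64871232092) (nat_lit 76) (nat_lit 70681076796) (nat_lit 76) (nat_lit 38399669938) (nat_lit 3) (nat_lit 4) (nat_lit 4) (nat_lit 5) (nat_lit 4) (nat_lit 4) (nat_lit 302) (nat_lit 248) (nat_lit 170))))))))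
noncomputable def xc66 : XT := (XT.nd (nat_lit 1872) (nat_lit 0) (nat_lit 0) (XT.nd (nat_lit 936) (nat_lit 0) (nat_lit 0) (XT.nd (nat_lit 468) (nat_lit 152) (nat_lit 0) (XT.nd (nat_lit 234) (nat_lit 0) (nat_lit 0) (XT.nd (nat_lit 78) (nat_lit 0) (nat_lit 0) (XT.lf (nat_lit 0) (nat_lit 86562078597) (nat_lit 76) (nat_lit 66419198322) (nat_lit 76) (nat_lit 34131867118) (nat_lit 3) (nat_lit 4) (nat_lit 4) (nat_lit 5) (nat_lit 4) (nat_lit 4) (nat_lit 303) (nat_lit 248) (nat_lit 169)) (XT.nd (nat_lit 78) (nat_lit 0) (nat_lit 0) (XT.lf (nat_lit 0) (nat_lit 109982402473) (nat_lit 76) (nat_lit 61818940816) (nat_lit 76) (nat_lit 29526124107) (nat_lit 3) (nat_lit 4) (nat_lit 4) (nat_lit 5) (nat_lit 4) (nat_lit 4) (nat_lit 304) (nat_lit 248) (nat_lit 168)) (XT.lf (nat_lit 0) (nat_lit 135270990824) (nat_lit 76) (nat_lit 56853043494) (nat_lit 76) (nat_lit 24555147613) (nat_lit 3) (nat_lit 4) (nat_lit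 4) (nat_lit 5) (nat_lit 4) (nat_lit 4) (nat_lit 305) (nat_lit 248) (nat_lit 167)))) (XT.nd (nat_lit 78) (nat_lit 0) (nat_lit 0) (XT.lf (nat_lit 0) (nat_lit 162577701951) (nat_lit 76) (nat_lit 51492078816) (nat_lit 76) (nat_lit 19189479998) (nat_lit 3) (nat_lit 4) (nat_lit 4) (nat_lit 5) (nat_lit 4) (nat_lit 4) (nat_lit 306) (nat_lit 248) (nat_lit 166)) (XT.nd (nat_lit 78) (nat_lit 0) (nat_lit 0) (XT.lf (nat_lit 0) (nat_lit 192064353402) (nat_lit 76) (nat_lit 45704278102) (nat_lit 76) (nat_lit 13397324713) (nat_lit 3) (nat_lit 4) (nat_lit 4) (nat_lit 5) (nat_lit 4) (nat_lit 4) (nat_lit 307) (nat_lit 248) (nat_lit 165)) (XT.lf (nat_lit 0) (nat_lit 223905680890) (nat_lit 76) (nat_lit 39455343274) (nat_lit 76) (nat_lit 7144357874) (nat_lit 3) (nat_lit 4) (nat_lit 4) (nat_lit 5) (nat_lit 4) (nat_lit 4) (nat_lit 308) (nat_lit 248) (nat_lit 164))))) (XT.nd (nat_lit 234) (nat_lit 76) (nat_lit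 0) (XT.nd (nat_lit 78) (nat_lit 76) (nat_lit 0) (XT.lf (nat_lit 0) (nat_lit 258290373762) (nat_lit 76) (nat_lit 32708243607) (nat_lit 76) (nat_lit 393524864) (nat_lit 3) (nat_lit 4) (nat_lit 4) (nat_lit 5) (nat_lit 4) (nat_lit 4) (nat_lit 309) (nat_lit 248) (nat_lit 163)) (XT.nd (nat_lit 78) (nat_lit 0) (nat_lit 0) (XT.lf (nat_lit 0) (nat_lit 6550254461) (nat_lit 152) (nat_lit 18693646262) (nat_lit 76) (nat_lit 288692843134) (nat_lit 2) (nat_lit 5) (nat_lit 4) (nat_lit 5) (nat_lit 3) (nat_lit 4) (nat_lit 310) (nat_lit 248) (nat_lit 162)) (XT.lf (nat_lit 0) (nat_lit 14026344362) (nat_lit 152) (nat_lit 3146580007) (nat_lit 76) (nat_lit 321111330024) (nat_lit 2) (nat_lit 5) (nat_lit 4) (nat_lit 5) (nat_lit 3) (nat_lit 4) (nat_lit 311) (nat_lit 248) (nat_lit 161)))) (XT.nd (nat_lit 78) (nat_lit 0) (nat_lit 0) (XT.lf (nat_lit 0) (nat_lit 14359337557) (nat_lit 76) (nat_lit 8084738157) (nat_lit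 152) (nat_lit 342108009421) (nat_lit 1) (nat_lit 5) (nat_lit 2) (nat_lit 5) (nat_lit 3) (nat_lit 4) (nat_lit 312) (nat_lit 248) (nat_lit 160)) (XT.nd (nat_lit 78) (nat_lit 0) (nat_lit 0) (XT.lf (nat_lit 0) (nat_lit 31663346599) (nat_lit 152) (nat_lit 359516888115) (nat_lit 0) (nat_lit 1730861369) (nat_lit 1) (nat_lit 5) (nat_lit 3) (nat_lit 4) (nat_lit 1) (nat_lit 4) (nat_lit 313) (nat_lit 248) (nat_lit 159)) (XT.lf (nat_lit 0) (nat_lit 41828517804) (nat_lit 152) (nat_lit 369799964649) (nat_lit 0) (nat_lit 11893679936) (nat_lit 1) (nat_lit 5) (nat_lit 3) (nat_lit 4) (nat_lit 1) (nat_lit 4) (nat_lit 314) (nat_lit 248) (nat_lit 158)))))) (XT.nd (nat_lit 468) (nat_lit 0) (nat_lit 0) (XT.nd (nat_lit 234) (nat_lit 0) (nat_lit 0) (XT.nd (nat_lit 78) (nat_lit 0) (nat_lit 0) (XT.lf (nat_lit 0) (nat_lit 52805389236) (nat_lit 152) (nat_lit 380908475786) (nat_lit 0) (nat_lit 22868372997) (nat_lit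 1) (nat_lit 5) (nat_lit 3) (nat_lit 4) (nat_lit 1) (nat_lit 4) (nat_lit 315) (nat_lit 248) (nat_lit 157)) (XT.nd (nat_lit 78) (nat_lit 0) (nat_lit 0) (XT.lf (nat_lit 0) (nat_lit 64659009019) (nat_lit 152) (nat_lit 392908249738) (nat_lit 0) (nat_lit 34719975772) (nat_lit 1) (nat_lit 5) (nat_lit 3) (nat_lit 4) (nat_lit 1) (nat_lit 4) (nat_lit 316) (nat_lit 248) (nat_lit 156)) (XT.lf (nat_lit 0) (nat_lit 77459620829) (nat_lit 152) (nat_lit 405870396277) (nat_lit 0) (nat_lit 47518719980) (nat_lit 1) (nat_lit 5) (nat_lit 3) (nat_lit 4) (nat_lit 1) (nat_lit 4) (nat_lit 317) (nat_lit 248) (nat_lit 155)))) (XT.nd (nat_lit 78) (nat_lit 0) (nat_lit 0) (XT.lf (nat_lit 0) (nat_lit 91283080141) (nat_lit 152) (nat_lit 419871728124) (nat_lit 0) (nat_lit 61340450032) (nat_lit 1) (nat_lit 5) (nat_lit 3) (nat_lit 4) (nat_lit 1) (nat_lit 4) (nat_lit 318) (nat_lit 248) (nat_lit 154)) (XT.nd (nat_lit 78)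 (nat_lit 0) (nat_lit 0) (XT.lf (nat_lit 0) (nat_lit 106211303751) (nat_lit 152) (nat_lit 434995216133) (nat_lit 0) (nat_lit 76267072476) (nat_lit 1) (nat_lit 5) (nat_lit 3) (nat_lit 4) (nat_lit 1) (nat_lit 4) (nat_lit 319) (nat_lit 248) (nat_lit 153)) (XT.lf (nat_lit 0) (nat_lit 122332755208) (nat_lit 152) (nat_lit 451330480975) (nat_lit 0) (nat_lit 92387041371) (nat_lit 1) (nat_lit 5) (nat_lit 3) (nat_lit 4) (nat_lit 1) (nat_lit 4) (nat_lit 320) (nat_lit 248) (nat_lit 152))))) (XT.nd (nat_lit 234) (nat_lit 0) (nat_lit 0) (XT.nd (nat_lit 78) (nat_lit 0) (nat_lit 0) (XT.lf (nat_lit 0) (nat_lit 139742969037) (nat_lit 152) (nat_lit 468974324219) (nat_lit 0) (nat_lit 109795882458) (nat_lit 1) (nat_lit 5) (nat_lit 3) (nat_lit 4) (nat_lit 1) (nat_lit 4) (nat_lit 321) (nat_lit 248) (nat_lit 151)) (XT.nd (nat_lit 78) (nat_lit 0) (nat_lit 0) (XT.lf (nat_lit 0) (nat_lit 158545116878) (nat_lit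 152) (nat_lit 488031301973) (nat_lit 0) (nat_lit 128596759241) (nat_lit 1) (nat_lit 5) (nat_lit 3) (nat_lit 4) (nat_lit 1) (nat_lit 4) (nat_lit 322) (nat_lit 248) (nat_lit 150)) (XT.lf (nat_lit 0) (nat_lit 178850618864) (nat_lit 152) (nat_lit 508614344475) (nat_lit 0) (nat_lit 148901084322) (nat_lit 1) (nat_lit 5) (nat_lit 3) (nat_lit 4) (nat_lit 1) (nat_lit 4) (nat_lit 323) (nat_lit 248) (nat_lit 149)))) (XT.nd (nat_lit 78) (nat_lit 0) (nat_lit 0) (XT.lf (nat_lit 0) (nat_lit 200779803897) (nat_lit 152) (nat_lit 530845425312) (nat_lit 0) (nat_lit 170829179627) (nat_lit 1) (nat_lit 5) (nat_lit 3) (nat_lit 4) (nat_lit 1) (nat_lit 4) (nat_lit 324) (nat_lit 248) (nat_lit 148)) (XT.nd (nat_lit 78) (nat_lit 0) (nat_lit 0) (XT.lf (nat_lit 0) (nat_lit 224462622703) (nat_lit 152) (nat_lit 554856284220) (nat_lit 0) (nat_lit 194510989427) (nat_lit 1) (nat_lit 5) (nat_lit 3) (nat_lit 4) (nat_lit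 1) (nat_lit 4) (nat_lit 325) (nat_lit 248) (nat_lit 147)) (XT.lf (nat_lit 0) (nat_lit 250039417912) (nat_lit 152) (nat_lit 580789207772) (nat_lit 0) (nat_lit 220086850370) (nat_lit 1) (nat_lit 5) (nat_lit 3) (nat_lit 4) (nat_lit 1) (nat_lit 4) (nat_lit 326) (nat_lit 248) (nat_lit 146))))))) (XT.nd (nat_lit 31668) (nat_lit 0) (nat_lit 1748) (XT.nd (nat_lit 468) (nat_lit 0) (nat_lit 0) (XT.nd (nat_lit 234) (nat_lit 0) (nat_lit 0) (XT.nd (nat_lit 78) (nat_lit 0) (nat_lit 0) (XT.lf (nat_lit 0) (nat_lit 277661755717) (nat_lit 152) (nat_lit 608797872551) (nat_lit 0) (nat_lit 247708323114) (nat_lit 1) (nat_lit 5) (nat_lit 3) (nat_lit 4) (nat_lit 1) (nat_lit 4) (nat_lit 327) (nat_lit 248) (nat_lit 145)) (XT.nd (nat_lit 78) (nat_lit 0) (nat_lit 0) (XT.lf (nat_lit 0) (nat_lit 307493324046) (nat_lit 152) (nat_lit 639048255830) (nat_lit 0) (nat_lit 277539090462) (nat_lit 1) (nat_lit 5) (nat_lit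 3) (nat_lit 4) (nat_lit 1) (nat_lit 4) (nat_lit 328) (nat_lit 248) (nat_lit 144)) (XT.lf (nat_lit 0) (nat_lit 339710902564) (nat_lit 152) (nat_lit 671719619140) (nat_lit 0) (nat_lit 309755927329) (nat_lit 1) (nat_lit 5) (nat_lit 3) (nat_lit 4) (nat_lit 1) (nat_lit 4) (nat_lit 329) (nat_lit 248) (nat_lit 143)))) (XT.nd (nat_lit 78) (nat_lit 0) (nat_lit 0) (XT.lf (nat_lit 0) (nat_lit 374505410254) (nat_lit 152) (nat_lit 707005570559) (nat_lit 0) (nat_lit 344549748307) (nat_lit 1) (nat_lit 5) (nat_lit 3) (nat_lit 4) (nat_lit 1) (nat_lit 4) (nat_lit 330) (nat_lit 248) (nat_lit 142)) (XT.nd (nat_lit 78) (nat_lit 0) (nat_lit 0) (XT.lf (nat_lit 0) (nat_lit 412083036792) (nat_lit 152) (nat_lit 745115212023) (nat_lit 0) (nat_lit 382126738999) (nat_lit 1) (nat_lit 5) (nat_lit 3) (nat_lit 4) (nat_lit 1) (nat_lit 4) (nat_lit 331) (nat_lit 248) (nat_lit 141)) (XT.lf (nat_lit 0) (nat_lit 452666464408)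 (nat_lit 152) (nat_lit 786274378442) (nat_lit 0) (nat_lit 422709577870) (nat_lit 1) (nat_lit 5) (nat_lit 3) (nat_lit 4) (nat_lit 1) (nat_lit 4) (nat_lit 332) (nat_lit 248) (nat_lit 140))))) (XT.nd (nat_lit 30966) (nat_lit 0) (nat_lit 2888) (XT.nd (nat_lit 78) (nat_lit 0) (nat_lit 0) (XT.lf (nat_lit 0) (nat_lit 496496187489) (nat_lit 152) (nat_lit 830726975990) (nat_lit 0) (nat_lit 466538755816) (nat_lit 1) (nat_lit 5) (nat_lit 3) (nat_lit 4) (nat_lit 1) (nat_lit 4) (nat_lit 333) (nat_lit 248) (nat_lit 139)) (XT.nd (nat_lit 78) (nat_lit 0) (nat_lit 0) (XT.lf (nat_lit 0) (nat_lit 543831937727) (nat_lit 152) (nat_lit 878736427465) (nat_lit 0) (nat_lit 513874001299) (nat_lit 1) (nat_lit 5) (nat_lit 3) (nat_lit 4) (nat_lit 1) (nat_lit 4) (nat_lit 334) (nat_lit 248) (nat_lit 138)) (XT.lf (nat_lit 0) (nat_lit 594954223272) (nat_lit 152) (nat_lit 930587233321) (nat_lit 0) (nat_lit 564995819479)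 (nat_lit 1) (nat_lit 5) (nat_lit 3) (nat_lit 4) (nat_lit 1) (nat_lit 4) (nat_lit 335) (nat_lit 248) (nat_lit 137)))) (XT.nd (nat_lit 78) (nat_lit 0) (nat_lit 0) (XT.lf (nat_lit 0) (nat_lit 772461714) (nat_lit 0) (nat_lit 772461714) (nat_lit 380) (nat_lit 2882336704) (nat_lit 39) (nat_lit 5) (nat_lit 39) (nat_lit 3) (nat_lit 44) (nat_lit 3) (nat_lit 249) (nat_lit 249) (nat_lit 222)) (XT.nd (nat_lit 78) (nat_lit 0) (nat_lit 0) (XT.lf (nat_lit 0) (nat_lit 4074838062) (nat_lit 380) (nat_lit 3633029570) (nat_lit 456) (nat_lit 1425973696) (nat_lit 39) (nat_lit 5) (nat_lit 44) (nat_lit 3) (nat_lit 45) (nat_lit 5) (nat_lit 250) (nat_lit 249) (nat_lit 221)) (XT.lf (nat_lit 76) (nat_lit 261119224) (nat_lit 0) (nat_lit 4842340673) (nat_lit 456) (nat_lit 4335456755) (nat_lit 40) (nat_lit 5) (nat_lit 39) (nat_lit 5) (nat_lit 45) (nat_lit 5) (nat_lit 251) (nat_lit 249) (nat_lit 220)))))) (XT.nd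 (nat_lit 468) (nat_lit 836) (nat_lit 0) (XT.nd (nat_lit 234) (nat_lit 304) (nat_lit 0) (XT.nd (nat_lit 78) (nat_lit 0) (nat_lit 76) (XT.lf (nat_lit 76) (nat_lit 4625187931) (nat_lit 0) (nat_lit 1611823416) (nat_lit 456) (nat_lit 3530126467) (nat_lit 40) (nat_lit 5) (nat_lit 39) (nat_lit 5) (nat_lit 45) (nat_lit 5) (nat_lit 252) (nat_lit 249) (nat_lit 219)) (XT.nd (nat_lit 78) (nat_lit 0) (nat_lit 0) (XT.lf (nat_lit 0) (nat_lit 7436013412) (nat_lit 380) (nat_lit 879858151) (nat_lit 456) (nat_lit 1808273973) (nat_lit 40) (nat_lit 5) (nat_lit 45) (nat_lit 5) (nat_lit 46) (nat_lit 5) (nat_lit 253) (nat_lit 249) (nat_lit 218)) (XT.lf (nat_lit 76) (nat_lit 3825012756) (nat_lit 0) (nat_lit 4974614661) (nat_lit 456) (nat_lit 1705063512) (nat_lit 41) (nat_lit 5) (nat_lit 40) (nat_lit 5) (nat_lit 46) (nat_lit 5) (nat_lit 254) (nat_lit 249) (nat_lit 217)))) (XT.nd (nat_lit 78) (nat_lit 380) (nat_lit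 0) (XT.lf (nat_lit 76) (nat_lit 8909853114) (nat_lit 0) (nat_lit 1325078633) (nat_lit 456) (nat_lit 684177514) (nat_lit 41) (nat_lit 5) (nat_lit 40) (nat_lit 5) (nat_lit 46) (nat_lit 5) (nat_lit 255) (nat_lit 249) (nat_lit 216)) (XT.nd (nat_lit 78) (nat_lit 0) (nat_lit 0) (XT.lf (nat_lit 0) (nat_lit 479522984) (nat_lit 456) (nat_lit 8295280210) (nat_lit 76) (nat_lit 2584882094) (nat_lit 35) (nat_lit 5) (nat_lit 41) (nat_lit 5) (nat_lit 36) (nat_lit 5) (nat_lit 256) (nat_lit 249) (nat_lit 215)) (XT.lf (nat_lit 0) (nat_lit 1734879673) (nat_lit 456) (nat_lit 3276842882) (nat_lit 76) (nat_lit 6819868517) (nat_lit 35) (nat_lit 5) (nat_lit 41) (nat_lit 5) (nat_lit 36) (nat_lit 5) (nat_lit 257) (nat_lit 249) (nat_lit 214))))) (XT.nd (nat_lit 234) (nat_lit 152) (nat_lit 0) (XT.nd (nat_lit 78) (nat_lit 228) (nat_lit 0) (XT.lf (nat_lit 0) (nat_lit 2206851761) (nat_lit 456) (nat_lit 885723465)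 (nat_lit 532) (nat_lit 9248842772) (nat_lit 29) (nat_lit 5) (nat_lit 35) (nat_lit 5) (nat_lit 36) (nat_lit 5) (nat_lit 258) (nat_lit 249) (nat_lit 213)) (XT.nd (nat_lit 78) (nat_lit 228) (nat_lit 0) (XT.lf (nat_lit 0) (nat_lit 4688281138) (nat_lit 532) (nat_lit 4707140122) (nat_lit 76) (nat_lit 3486555930) (nat_lit 29) (nat_lit 5) (nat_lit 36) (nat_lit 5) (nat_lit 30) (nat_lit 5) (nat_lit 259) (nat_lit 249) (nat_lit 212)) (XT.lf (nat_lit 0) (nat_lit 1142632179) (nat_lit 228) (nat_lit 5274687989) (nat_lit 304) (nat_lit 7048282456) (nat_lit 26) (nat_lit 5) (nat_lit 29) (nat_lit 5) (nat_lit 30) (nat_lit 5) (nat_lit 260) (nat_lit 249) (nat_lit 211)))) (XT.nd (nat_lit 78) (nat_lit 152) (nat_lit 0) (XT.lf (nat_lit 0) (nat_lit 7683248895) (nat_lit 228) (nat_lit 687566389) (nat_lit 304) (nat_lit 5718467392) (nat_lit 26) (nat_lit 5) (nat_lit 29) (nat_lit 5) (nat_lit 30) (nat_lit 5) (nat_lit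 261) (nat_lit 249) (nat_lit 210)) (XT.nd (nat_lit 78) (nat_lit 152) (nat_lit 0) (XT.lf (nat_lit 0) (nat_lit 10543734171) (nat_lit 304) (nat_lit 163206622) (nat_lit 76) (nat_lit 4051101122) (nat_lit 26) (nat_lit 5) (nat_lit 30) (nat_lit 5) (nat_lit 27) (nat_lit 5) (nat_lit 262) (nat_lit 249) (nat_lit 209)) (XT.lf (nat_lit 0) (nat_lit 6862969512) (nat_lit 152) (nat_lit 6173888036) (nat_lit 228) (nat_lit 2431953477) (nat_lit 24) (nat_lit 5) (nat_lit 26) (nat_lit 5) (nat_lit 27) (nat_lit 5) (nat_lit 263) (nat_lit 249) (nat_lit 208))))))))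
noncomputable def xc67 : XT := (XT.nd (nat_lit 1872) (nat_lit 380) (nat_lit 0) (XT.nd (nat_lit 936) (nat_lit 380) (nat_lit 0) (XT.nd (nat_lit 468) (nat_lit 304) (nat_lit 0) (XT.nd (nat_lit 234) (nat_lit 304) (nat_lit 0) (XT.nd (nat_lit 78) (nat_lit 304) (nat_lit 0) (XT.lf (nat_lit 0) (nat_lit 14420041022) (nat_lit 152) (nat_lit 1279042958) (nat_lit 228) (nat_lit 539988031) (nat_lit 24) (nat_lit 5) (nat_lit 26) (nat_lit 5) (nat_lit 27) (nat_lit 5) (nat_lit 264) (nat_lit 249) (nat_lit 207)) (XT.nd (nat_lit 78) (nat_lit 0) (nat_lit 0) (XT.lf (nat_lit 0) (nat_lit 1633227499) (nat_lit 304) (nat_lit 11439260750) (nat_lit 76) (nat_lit 3979339249) (nat_lit 20) (nat_lit 5) (nat_lit 24) (nat_lit 5) (nat_lit 21) (nat_lit 5) (nat_lit 265) (nat_lit 249) (nat_lit 206)) (XT.lf (nat_lit 0) (nat_lit 4003507837) (nat_lit 304) (nat_lit 4272966616) (nat_lit 76) (nat_lit 9647977274) (nat_lit 20) (nat_lit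 5) (nat_lit 24) (nat_lit 5) (nat_lit 21) (nat_lit 5) (nat_lit 266) (nat_lit 249) (nat_lit 205)))) (XT.nd (nat_lit 78) (nat_lit 152) (nat_lit 0) (XT.lf (nat_lit 0) (nat_lit 3609269416) (nat_lit 152) (nat_lit 3011436502) (nat_lit 228) (nat_lit 12241745269) (nat_lit 18) (nat_lit 5) (nat_lit 20) (nat_lit 5) (nat_lit 21) (nat_lit 5) (nat_lit 267) (nat_lit 249) (nat_lit 204)) (XT.nd (nat_lit 78) (nat_lit 152) (nat_lit 0) (XT.lf (nat_lit 0) (nat_lit 9603053122) (nat_lit 228) (nat_lit 7607552723) (nat_lit 76) (nat_lit 2652560785) (nat_lit 18) (nat_lit 5) (nat_lit 21) (nat_lit 5) (nat_lit 19) (nat_lit 5) (nat_lit 268) (nat_lit 249) (nat_lit 203)) (XT.lf (nat_lit 0) (nat_lit 563456275) (nat_lit 152) (nat_lit 12325986468) (nat_lit 228) (nat_lit 8049387869) (nat_lit 16) (nat_lit 5) (nat_lit 18) (nat_lit 5) (nat_lit 19) (nat_lit 5) (nat_lit 269) (nat_lit 249) (nat_lit 202))))) (XT.nd (nat_lit 234)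 (nat_lit 152) (nat_lit 0) (XT.nd (nat_lit 78) (nat_lit 152) (nat_lit 0) (XT.lf (nat_lit 0) (nat_lit 9785474060) (nat_lit 152) (nat_lit 6836057677) (nat_lit 228) (nat_lit 5464511135) (nat_lit 16) (nat_lit 5) (nat_lit 18) (nat_lit 5) (nat_lit 19) (nat_lit 5) (nat_lit 270) (nat_lit 249) (nat_lit 201)) (XT.nd (nat_lit 78) (nat_lit 152) (nat_lit 0) (XT.lf (nat_lit 0) (nat_lit 19712549379) (nat_lit 152) (nat_lit 916290535) (nat_lit 228) (nat_lit 2698169493) (nat_lit 16) (nat_lit 5) (nat_lit 18) (nat_lit 5) (nat_lit 19) (nat_lit 5) (nat_lit 271) (nat_lit 249) (nat_lit 200)) (XT.lf (nat_lit 0) (nat_lit 533183427) (nat_lit 152) (nat_lit 18762764000) (nat_lit 76) (nat_lit 5350187933) (nat_lit 14) (nat_lit 5) (nat_lit 16) (nat_lit 5) (nat_lit 15) (nat_lit 5) (nat_lit 272) (nat_lit 249) (nat_lit 199)))) (XT.nd (nat_lit 78) (nat_lit 152) (nat_lit 0) (XT.lf (nat_lit 0) (nat_lit 3980874369) (nat_lit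 152) (nat_lit 9845067531) (nat_lit 76) (nat_lit 12231041713) (nat_lit 14) (nat_lit 5) (nat_lit 16) (nat_lit 5) (nat_lit 15) (nat_lit 5) (nat_lit 273) (nat_lit 249) (nat_lit 198)) (XT.nd (nat_lit 78) (nat_lit 152) (nat_lit 0) (XT.lf (nat_lit 0) (nat_lit 7684388572) (nat_lit 152) (nat_lit 243881296) (nat_lit 76) (nat_lit 19654109676) (nat_lit 14) (nat_lit 5) (nat_lit 16) (nat_lit 5) (nat_lit 15) (nat_lit 5) (nat_lit 274) (nat_lit 249) (nat_lit 197)) (XT.lf (nat_lit 0) (nat_lit 10629417117) (nat_lit 152) (nat_lit 1291893407) (nat_lit 228) (nat_lit 17289600994) (nat_lit 12) (nat_lit 5) (nat_lit 14) (nat_lit 5) (nat_lit 15) (nat_lit 5) (nat_lit 275) (nat_lit 249) (nat_lit 196)))))) (XT.nd (nat_lit 468) (nat_lit 76) (nat_lit 0) (XT.nd (nat_lit 234) (nat_lit 228) (nat_lit 0) (XT.nd (nat_lit 78) (nat_lit 76) (nat_lit 0) (XT.lf (nat_lit 0) (nat_lit 16627319759) (nat_lit 228) (nat_lit 8752498144)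 (nat_lit 76) (nat_lit 5579566441) (nat_lit 12) (nat_lit 5) (nat_lit 15) (nat_lit 5) (nat_lit 13) (nat_lit 4) (nat_lit 276) (nat_lit 249) (nat_lit 195)) (XT.nd (nat_lit 78) (nat_lit 0) (nat_lit 0) (XT.lf (nat_lit 0) (nat_lit 1898025594) (nat_lit 76) (nat_lit 19874310368) (nat_lit 152) (nat_lit 11070460807) (nat_lit 11) (nat_lit 5) (nat_lit 12) (nat_lit 5) (nat_lit 13) (nat_lit 4) (nat_lit 277) (nat_lit 249) (nat_lit 194)) (XT.lf (nat_lit 0) (nat_lit 13872832956) (nat_lit 76) (nat_lit 13679373872) (nat_lit 152) (nat_lit 7306874226) (nat_lit 11) (nat_lit 5) (nat_lit 12) (nat_lit 5) (nat_lit 13) (nat_lit 4) (nat_lit 278) (nat_lit 249) (nat_lit 193)))) (XT.nd (nat_lit 78) (nat_lit 228) (nat_lit 0) (XT.lf (nat_lit 0) (nat_lit 26781994722) (nat_lit 76) (nat_lit 6997606491) (nat_lit 152) (nat_lit 3258310919) (nat_lit 11) (nat_lit 5) (nat_lit 12) (nat_lit 5) (nat_lit 13) (nat_lit 4) (nat_lit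 279) (nat_lit 249) (nat_lit 192)) (XT.nd (nat_lit 78) (nat_lit 0) (nat_lit 0) (XT.lf (nat_lit 0) (nat_lit 1083318754) (nat_lit 228) (nat_lit 38043130821) (nat_lit 76) (nat_lit 260510265) (nat_lit 8) (nat_lit 5) (nat_lit 11) (nat_lit 5) (nat_lit 9) (nat_lit 4) (nat_lit 280) (nat_lit 249) (nat_lit 191)) (XT.lf (nat_lit 0) (nat_lit 6051844266) (nat_lit 228) (nat_lit 27743382339) (nat_lit 76) (nat_lit 8085529803) (nat_lit 8) (nat_lit 5) (nat_lit 11) (nat_lit 5) (nat_lit 9) (nat_lit 4) (nat_lit 281) (nat_lit 249) (nat_lit 190))))) (XT.nd (nat_lit 234) (nat_lit 0) (nat_lit 0) (XT.nd (nat_lit 78) (nat_lit 76) (nat_lit 0) (XT.lf (nat_lit 0) (nat_lit 11405022568) (nat_lit 228) (nat_lit 16640979418) (nat_lit 76) (nat_lit 16529121303) (nat_lit 8) (nat_lit 5) (nat_lit 11) (nat_lit 5) (nat_lit 9) (nat_lit 4) (nat_lit 282) (nat_lit 249) (nat_lit 189)) (XT.nd (nat_lit 78) (nat_lit 76) (nat_lit 0)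 (XT.lf (nat_lit 0) (nat_lit 17174576197) (nat_lit 228) (nat_lit 4670130041) (nat_lit 76) (nat_lit 25641320863) (nat_lit 8) (nat_lit 5) (nat_lit 11) (nat_lit 5) (nat_lit 9) (nat_lit 4) (nat_lit 283) (nat_lit 249) (nat_lit 188)) (XT.lf (nat_lit 0) (nat_lit 8674013439) (nat_lit 76) (nat_lit 14929291894) (nat_lit 152) (nat_lit 27010723495) (nat_lit 7) (nat_lit 5) (nat_lit 8) (nat_lit 5) (nat_lit 9) (nat_lit 4) (nat_lit 284) (nat_lit 249) (nat_lit 187)))) (XT.nd (nat_lit 78) (nat_lit 0) (nat_lit 0) (XT.lf (nat_lit 0) (nat_lit 23333462570) (nat_lit 76) (nat_lit 7329947012) (nat_lit 152) (nat_lit 23319526919) (nat_lit 7) (nat_lit 5) (nat_lit 8) (nat_lit 5) (nat_lit 9) (nat_lit 4) (nat_lit 285) (nat_lit 249) (nat_lit 186)) (XT.nd (nat_lit 78) (nat_lit 0) (nat_lit 0) (XT.lf (nat_lit 0) (nat_lit 38299435137) (nat_lit 152) (nat_lit 18493944802) (nat_lit 0) (nat_lit 827117393) (nat_lit 7) (nat_lit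 5) (nat_lit 9) (nat_lit 4) (nat_lit 7) (nat_lit 4) (nat_lit 286) (nat_lit 249) (nat_lit 185)) (XT.lf (nat_lit 0) (nat_lit 46727483552) (nat_lit 152) (nat_lit 5572246268) (nat_lit 0) (nat_lit 9234869339) (nat_lit 7) (nat_lit 5) (nat_lit 9) (nat_lit 4) (nat_lit 7) (nat_lit 4) (nat_lit 287) (nat_lit 249) (nat_lit 184))))))) (XT.nd (nat_lit 936) (nat_lit 152) (nat_lit 0) (XT.nd (nat_lit 468) (nat_lit 0) (nat_lit 0) (XT.nd (nat_lit 234) (nat_lit 76) (nat_lit 0) (XT.nd (nat_lit 78) (nat_lit 76) (nat_lit 0) (XT.lf (nat_lit 0) (nat_lit 8809149432) (nat_lit 76) (nat_lit 47223924237) (nat_lit 76) (nat_lit 9712516997) (nat_lit 6) (nat_lit 4) (nat_lit 7) (nat_lit 5) (nat_lit 7) (nat_lit 4) (nat_lit 288) (nat_lit 249) (nat_lit 183)) (XT.nd (nat_lit 78) (nat_lit 76) (nat_lit 0) (XT.lf (nat_lit 0) (nat_lit 24643619681) (nat_lit 76) (nat_lit 41583573460) (nat_lit 76) (nat_lit 4054765269) (nat_lit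 6) (nat_lit 4) (nat_lit 7) (nat_lit 5) (nat_lit 7) (nat_lit 4) (nat_lit 289) (nat_lit 249) (nat_lit 182)) (XT.lf (nat_lit 0) (nat_lit 1944897075) (nat_lit 152) (nat_lit 33499534266) (nat_lit 76) (nat_lit 39733499754) (nat_lit 5) (nat_lit 5) (nat_lit 7) (nat_lit 5) (nat_lit 6) (nat_lit 4) (nat_lit 290) (nat_lit 249) (nat_lit 181)))) (XT.nd (nat_lit 78) (nat_lit 76) (nat_lit 0) (XT.lf (nat_lit 0) (nat_lit 8198173693) (nat_lit 152) (nat_lit 20507637411) (nat_lit 76) (nat_lit 51751947333) (nat_lit 5) (nat_lit 5) (nat_lit 7) (nat_lit 5) (nat_lit 6) (nat_lit 4) (nat_lit 291) (nat_lit 249) (nat_lit 180)) (XT.nd (nat_lit 78) (nat_lit 76) (nat_lit 0) (XT.lf (nat_lit 0) (nat_lit 14944956820) (nat_lit 152) (nat_lit 6488141942) (nat_lit 76) (nat_lit 64727430916) (nat_lit 5) (nat_lit 5) (nat_lit 7) (nat_lit 5) (nat_lit 6) (nat_lit 4) (nat_lit 292) (nat_lit 249) (nat_lit 179)) (XT.lf (nat_lit 0)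 (nat_lit 9097104649) (nat_lit 76) (nat_lit 13346908330) (nat_lit 152) (nat_lit 69858523192) (nat_lit 4) (nat_lit 5) (nat_lit 5) (nat_lit 5) (nat_lit 6) (nat_lit 4) (nat_lit 293) (nat_lit 249) (nat_lit 178))))) (XT.nd (nat_lit 234) (nat_lit 0) (nat_lit 0) (XT.nd (nat_lit 78) (nat_lit 0) (nat_lit 0) (XT.lf (nat_lit 0) (nat_lit 26287550325) (nat_lit 76) (nat_lit 4426793649) (nat_lit 152) (nat_lit 68207865980) (nat_lit 4) (nat_lit 5) (nat_lit 5) (nat_lit 5) (nat_lit 6) (nat_lit 4) (nat_lit 294) (nat_lit 249) (nat_lit 177)) (XT.nd (nat_lit 78) (nat_lit 0) (nat_lit 0) (XT.lf (nat_lit 0) (nat_lit 39765827669) (nat_lit 152) (nat_lit 61353634182) (nat_lit 0) (nat_lit 4942447396) (nat_lit 4) (nat_lit 5) (nat_lit 6) (nat_lit 4) (nat_lit 4) (nat_lit 4) (nat_lit 295) (nat_lit 249) (nat_lit 176)) (XT.lf (nat_lit 0) (nat_lit 49651133398) (nat_lit 152) (nat_lit 49294535572) (nat_lit 0) (nat_lit 14818351932)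 (nat_lit 4) (nat_lit 5) (nat_lit 6) (nat_lit 4) (nat_lit 4) (nat_lit 4) (nat_lit 296) (nat_lit 249) (nat_lit 175)))) (XT.nd (nat_lit 78) (nat_lit 0) (nat_lit 0) (XT.lf (nat_lit 0) (nat_lit 60322376258) (nat_lit 152) (nat_lit 36279437983) (nat_lit 0) (nat_lit 25480889985) (nat_lit 4) (nat_lit 5) (nat_lit 6) (nat_lit 4) (nat_lit 4) (nat_lit 4) (nat_lit 297) (nat_lit 249) (nat_lit 174)) (XT.nd (nat_lit 78) (nat_lit 0) (nat_lit 0) (XT.lf (nat_lit 0) (nat_lit 71842793243) (nat_lit 152) (nat_lit 22231214909) (nat_lit 0) (nat_lit 36993246963) (nat_lit 4) (nat_lit 5) (nat_lit 6) (nat_lit 4) (nat_lit 4) (nat_lit 4) (nat_lit 298) (nat_lit 249) (nat_lit 173)) (XT.lf (nat_lit 0) (nat_lit 84280653493) (nat_lit 152) (nat_lit 7066617621) (nat_lit 0) (nat_lit 49423644243) (nat_lit 4) (nat_lit 5) (nat_lit 6) (nat_lit 4) (nat_lit 4) (nat_lit 4) (nat_lit 299) (nat_lit 249) (nat_lit 172)))))) (XT.nd (nat_lit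 468) (nat_lit 76) (nat_lit 0) (XT.nd (nat_lit 234) (nat_lit 0) (nat_lit 0) (XT.nd (nat_lit 78) (nat_lit 0) (nat_lit 0) (XT.lf (nat_lit 0) (nat_lit 9794161799) (nat_lit 76) (nat_lit 88151050871) (nat_lit 76) (nat_lit 53287131464) (nat_lit 3) (nat_lit 4) (nat_lit 4) (nat_lit 5) (nat_lit 4) (nat_lit 4) (nat_lit 300) (nat_lit 249) (nat_lit 171)) (XT.nd (nat_lit 78) (nat_lit 0) (nat_lit 0) (XT.lf (nat_lit 0) (nat_lit 28398934516) (nat_lit 76) (nat_lit 84493461154) (nat_lit 76) (nat_lit 49623143453) (nat_lit 3) (nat_lit 4) (nat_lit 4) (nat_lit 5) (nat_lit 4) (nat_lit 4) (nat_lit 301) (nat_lit 249) (nat_lit 170)) (XT.lf (nat_lit 0) (nat_lit 48485835473) (nat_lit 76) (nat_lit 80546041205) (nat_lit 76) (nat_lit 45669799159) (nat_lit 3) (nat_lit 4) (nat_lit 4) (nat_lit 5) (nat_lit 4) (nat_lit 4) (nat_lit 302) (nat_lit 249) (nat_lit 169)))) (XT.nd (nat_lit 78) (nat_lit 0) (nat_lit 0) (XT.lf (nat_lit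 0) (nat_lit 70173898156) (nat_lit 76) (nat_lit 76285398907) (nat_lit 76) (nat_lit 41403671355) (nat_lit 3) (nat_lit 4) (nat_lit 4) (nat_lit 5) (nat_lit 4) (nat_lit 4) (nat_lit 303) (nat_lit 249) (nat_lit 168)) (XT.nd (nat_lit 78) (nat_lit 0) (nat_lit 0) (XT.lf (nat_lit 0) (nat_lit 93591644419) (nat_lit 76) (nat_lit 71686286010) (nat_lit 76) (nat_lit 36799479286) (nat_lit 3) (nat_lit 4) (nat_lit 4) (nat_lit 5) (nat_lit 4) (nat_lit 4) (nat_lit 304) (nat_lit 249) (nat_lit 167)) (XT.lf (nat_lit 0) (nat_lit 118877846092) (nat_lit 76) (nat_lit 66721448510) (nat_lit 76) (nat_lit 31829938849) (nat_lit 3) (nat_lit 4) (nat_lit 4) (nat_lit 5) (nat_lit 4) (nat_lit 4) (nat_lit 305) (nat_lit 249) (nat_lit 166))))) (XT.nd (nat_lit 234) (nat_lit 76) (nat_lit 0) (XT.nd (nat_lit 78) (nat_lit 0) (nat_lit 0) (XT.lf (nat_lit 0) (nat_lit 146182347331) (nat_lit 76) (nat_lit 61361465148) (nat_lit 76) (nat_lit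 26465600916) (nat_lit 3) (nat_lit 4) (nat_lit 4) (nat_lit 5) (nat_lit 4) (nat_lit 4) (nat_lit 306) (nat_lit 249) (nat_lit 165)) (XT.nd (nat_lit 78) (nat_lit 0) (nat_lit 0) (XT.lf (nat_lit 0) (nat_lit 175666952590) (nat_lit 76) (nat_lit 55574573060) (nat_lit 76) (nat_lit 20674676818) (nat_lit 3) (nat_lit 4) (nat_lit 4) (nat_lit 5) (nat_lit 4) (nat_lit 4) (nat_lit 307) (nat_lit 249) (nat_lit 164)) (XT.lf (nat_lit 0) (nat_lit 207506385455) (nat_lit 76) (nat_lit 49326479553) (nat_lit 76) (nat_lit 14422849968) (nat_lit 3) (nat_lit 4) (nat_lit 4) (nat_lit 5) (nat_lit 4) (nat_lit 4) (nat_lit 308) (nat_lit 249) (nat_lit 163)))) (XT.nd (nat_lit 156) (nat_lit 76) (nat_lit 0) (XT.nd (nat_lit 78) (nat_lit 0) (nat_lit 0) (XT.lf (nat_lit 0) (nat_lit 241889324047) (nat_lit 76) (nat_lit 42580158887) (nat_lit 76) (nat_lit 7673072503) (nat_lit 3) (nat_lit 4) (nat_lit 4) (nat_lit 5) (nat_lit 4) (nat_lit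 4) (nat_lit 309) (nat_lit 249) (nat_lit 162)) (XT.lf (nat_lit 0) (nat_lit 279019519112) (nat_lit 76) (nat_lit 35295632865) (nat_lit 76) (nat_lit 385345741) (nat_lit 3) (nat_lit 4) (nat_lit 4) (nat_lit 5) (nat_lit 4) (nat_lit 4) (nat_lit 310) (nat_lit 249) (nat_lit 161))) (XT.nd (nat_lit 78) (nat_lit 0) (nat_lit 0) (XT.lf (nat_lit 0) (nat_lit 7109161024) (nat_lit 152) (nat_lit 20126195840) (nat_lit 76) (nat_lit 311813463352) (nat_lit 2) (nat_lit 5) (nat_lit 4) (nat_lit 5) (nat_lit 3) (nat_lit 4) (nat_lit 311) (nat_lit 249) (nat_lit 160)) (XT.lf (nat_lit 0) (nat_lit 15180753954) (nat_lit 152) (nat_lit 3340026665) (nat_lit 76) (nat_lit 346823563061) (nat_lit 2) (nat_lit 5) (nat_lit 4) (nat_lit 5) (nat_lit 3) (nat_lit 4) (nat_lit 312) (nat_lit 249) (nat_lit 159))))))))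
noncomputable def xc68 : XT := (XT.nd (nat_lit 32682) (nat_lit 0) (nat_lit 988) (XT.nd (nat_lit 936) (nat_lit 0) (nat_lit 0) (XT.nd (nat_lit 468) (nat_lit 0) (nat_lit 0) (XT.nd (nat_lit 234) (nat_lit 0) (nat_lit 0) (XT.nd (nat_lit 78) (nat_lit 0) (nat_lit 0) (XT.lf (nat_lit 0) (nat_lit 15564888868) (nat_lit 76) (nat_lit 8705988347) (nat_lit 152) (nat_lit 369442810749) (nat_lit 1) (nat_lit 5) (nat_lit 2) (nat_lit 5) (nat_lit 3) (nat_lit 4) (nat_lit 313) (nat_lit 249) (nat_lit 158)) (XT.nd (nat_lit 78) (nat_lit 0) (nat_lit 0) (XT.lf (nat_lit 0) (nat_lit 34225941562) (nat_lit 152) (nat_lit 388223837017) (nat_lit 0) (nat_lit 1891785655) (nat_lit 1) (nat_lit 5) (nat_lit 3) (nat_lit 4) (nat_lit 1) (nat_lit 4) (nat_lit 314) (nat_lit 249) (nat_lit 157)) (XT.lf (nat_lit 0) (nat_lit 45202139261) (nat_lit 152) (nat_lit 399333589464) (nat_lit 0) (nat_lit 12865966345) (nat_lit 1) (nat_lit 5) (nat_lit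 3) (nat_lit 4) (nat_lit 1) (nat_lit 4) (nat_lit 315) (nat_lit 249) (nat_lit 156)))) (XT.nd (nat_lit 78) (nat_lit 0) (nat_lit 0) (XT.lf (nat_lit 0) (nat_lit 57055135219) (nat_lit 152) (nat_lit 411334512777) (nat_lit 0) (nat_lit 24717094702) (nat_lit 1) (nat_lit 5) (nat_lit 3) (nat_lit 4) (nat_lit 1) (nat_lit 4) (nat_lit 316) (nat_lit 249) (nat_lit 155)) (XT.nd (nat_lit 78) (nat_lit 0) (nat_lit 0) (XT.lf (nat_lit 0) (nat_lit 69855169412) (nat_lit 152) (nat_lit 424297723539) (nat_lit 0) (nat_lit 37515399635) (nat_lit 1) (nat_lit 5) (nat_lit 3) (nat_lit 4) (nat_lit 1) (nat_lit 4) (nat_lit 317) (nat_lit 249) (nat_lit 154)) (XT.lf (nat_lit 0) (nat_lit 83678093894) (nat_lit 152) (nat_lit 438300040778) (nat_lit 0) (nat_lit 51336722950) (nat_lit 1) (nat_lit 5) (nat_lit 3) (nat_lit 4) (nat_lit 1) (nat_lit 4) (nat_lit 318) (nat_lit 249) (nat_lit 153))))) (XT.nd (nat_lit 234) (nat_lit 0) (nat_lit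 0) (XT.nd (nat_lit 78) (nat_lit 0) (nat_lit 0) (XT.lf (nat_lit 0) (nat_lit 98605822292) (nat_lit 152) (nat_lit 453424441187) (nat_lit 0) (nat_lit 66262968786) (nat_lit 1) (nat_lit 5) (nat_lit 3) (nat_lit 4) (nat_lit 1) (nat_lit 4) (nat_lit 319) (nat_lit 249) (nat_lit 152)) (XT.nd (nat_lit 78) (nat_lit 0) (nat_lit 0) (XT.lf (nat_lit 0) (nat_lit 114726815218) (nat_lit 152) (nat_lit 469760550844) (nat_lit 0) (nat_lit 82382588970) (nat_lit 1) (nat_lit 5) (nat_lit 3) (nat_lit 4) (nat_lit 1) (nat_lit 4) (nat_lit 320) (nat_lit 249) (nat_lit 151)) (XT.lf (nat_lit 0) (nat_lit 132136604482) (nat_lit 152) (nat_lit 487405176323) (nat_lit 0) (nat_lit 99791107176) (nat_lit 1) (nat_lit 5) (nat_lit 3) (nat_lit 4) (nat_lit 1) (nat_lit 4) (nat_lit 321) (nat_lit 249) (nat_lit 150)))) (XT.nd (nat_lit 78) (nat_lit 0) (nat_lit 0) (XT.lf (nat_lit 0) (nat_lit 150938359207) (nat_lit 152) (nat_lit 506462878370)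 (nat_lit 0) (nat_lit 118591684995) (nat_lit 1) (nat_lit 5) (nat_lit 3) (nat_lit 4) (nat_lit 1) (nat_lit 4) (nat_lit 322) (nat_lit 249) (nat_lit 149)) (XT.nd (nat_lit 78) (nat_lit 0) (nat_lit 0) (XT.lf (nat_lit 0) (nat_lit 171243497197) (nat_lit 152) (nat_lit 527046591513) (nat_lit 0) (nat_lit 138895733258) (nat_lit 1) (nat_lit 5) (nat_lit 3) (nat_lit 4) (nat_lit 1) (nat_lit 4) (nat_lit 323) (nat_lit 249) (nat_lit 148)) (XT.lf (nat_lit 0) (nat_lit 193172345196) (nat_lit 152) (nat_lit 549278293313) (nat_lit 0) (nat_lit 160823572251) (nat_lit 1) (nat_lit 5) (nat_lit 3) (nat_lit 4) (nat_lit 1) (nat_lit 4) (nat_lit 324) (nat_lit 249) (nat_lit 147)))))) (XT.nd (nat_lit 468) (nat_lit 0) (nat_lit 0) (XT.nd (nat_lit 234) (nat_lit 0) (nat_lit 0) (XT.nd (nat_lit 78) (nat_lit 0) (nat_lit 0) (XT.lf (nat_lit 0) (nat_lit 216854851934) (nat_lit 152) (nat_lit 573289727188) (nat_lit 0) (nat_lit 184505144723)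 (nat_lit 1) (nat_lit 5) (nat_lit 3) (nat_lit 4) (nat_lit 1) (nat_lit 4) (nat_lit 325) (nat_lit 249) (nat_lit 146)) (XT.nd (nat_lit 78) (nat_lit 0) (nat_lit 0) (XT.lf (nat_lit 0) (nat_lit 242431358191) (nat_lit 152) (nat_lit 599223183117) (nat_lit 0) (nat_lit 210080785919) (nat_lit 1) (nat_lit 5) (nat_lit 3) (nat_lit 4) (nat_lit 1) (nat_lit 4) (nat_lit 326) (nat_lit 249) (nat_lit 145)) (XT.lf (nat_lit 0) (nat_lit 270053428448) (nat_lit 152) (nat_lit 627232340837) (nat_lit 0) (nat_lit 237702055194) (nat_lit 1) (nat_lit 5) (nat_lit 3) (nat_lit 4) (nat_lit 1) (nat_lit 4) (nat_lit 327) (nat_lit 249) (nat_lit 144)))) (XT.nd (nat_lit 78) (nat_lit 0) (nat_lit 0) (XT.lf (nat_lit 0) (nat_lit 299884749047) (nat_lit 152) (nat_lit 657483180543) (nat_lit 0) (nat_lit 267532634144) (nat_lit 1) (nat_lit 5) (nat_lit 3) (nat_lit 4) (nat_lit 1) (nat_lit 4) (nat_lit 328) (nat_lit 249) (nat_lit 143)) (XT.nd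 (nat_lit 78) (nat_lit 0) (nat_lit 0) (XT.lf (nat_lit 0) (nat_lit 332102098186) (nat_lit 152) (nat_lit 690154966471) (nat_lit 0) (nat_lit 299749296569) (nat_lit 1) (nat_lit 5) (nat_lit 3) (nat_lit 4) (nat_lit 1) (nat_lit 4) (nat_lit 329) (nat_lit 249) (nat_lit 142)) (XT.lf (nat_lit 0) (nat_lit 366896393487) (nat_lit 152) (nat_lit 725441309203) (nat_lit 0) (nat_lit 334542956026) (nat_lit 1) (nat_lit 5) (nat_lit 3) (nat_lit 4) (nat_lit 1) (nat_lit 4) (nat_lit 330) (nat_lit 249) (nat_lit 141))))) (XT.nd (nat_lit 234) (nat_lit 0) (nat_lit 0) (XT.nd (nat_lit 78) (nat_lit 0) (nat_lit 0) (XT.lf (nat_lit 0) (nat_lit 404473823369) (nat_lit 152) (nat_lit 763551312993) (nat_lit 0) (nat_lit 372119797162) (nat_lit 1) (nat_lit 5) (nat_lit 3) (nat_lit 4) (nat_lit 1) (nat_lit 4) (nat_lit 331) (nat_lit 249) (nat_lit 140)) (XT.nd (nat_lit 78) (nat_lit 0) (nat_lit 0) (XT.lf (nat_lit 0) (nat_lit 445057068897)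 (nat_lit 152) (nat_lit 804710814900) (nat_lit 0) (nat_lit 412702497555) (nat_lit 1) (nat_lit 5) (nat_lit 3) (nat_lit 4) (nat_lit 1) (nat_lit 4) (nat_lit 332) (nat_lit 249) (nat_lit 139)) (XT.lf (nat_lit 0) (nat_lit 488886623377) (nat_lit 152) (nat_lit 849163723084) (nat_lit 0) (nat_lit 456531547281) (nat_lit 1) (nat_lit 5) (nat_lit 3) (nat_lit 4) (nat_lit 1) (nat_lit 4) (nat_lit 333) (nat_lit 249) (nat_lit 138)))) (XT.nd (nat_lit 78) (nat_lit 0) (nat_lit 0) (XT.lf (nat_lit 0) (nat_lit 536222217504) (nat_lit 152) (nat_lit 897173462186) (nat_lit 0) (nat_lit 503866674042) (nat_lit 1) (nat_lit 5) (nat_lit 3) (nat_lit 4) (nat_lit 1) (nat_lit 4) (nat_lit 334) (nat_lit 249) (nat_lit 137)) (XT.nd (nat_lit 30888) (nat_lit 0) (nat_lit 2888) (XT.lf (nat_lit 0) (nat_lit 587344358501) (nat_lit 152) (nat_lit 949024534363) (nat_lit 0) (nat_lit 554988382293) (nat_lit 1) (nat_lit 5) (nat_lit 3) (nat_lit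 4) (nat_lit 1) (nat_lit 4) (nat_lit 335) (nat_lit 249) (nat_lit 136)) (XT.lf (nat_lit 0) (nat_lit 1236982814) (nat_lit 0) (nat_lit 1236982814) (nat_lit 380) (nat_lit 2237234537) (nat_lit 39) (nat_lit 5) (nat_lit 39) (nat_lit 3) (nat_lit 44) (nat_lit 3) (nat_lit 250) (nat_lit 250) (nat_lit 220))))))) (XT.nd (nat_lit 936) (nat_lit 912) (nat_lit 0) (XT.nd (nat_lit 468) (nat_lit 608) (nat_lit 0) (XT.nd (nat_lit 234) (nat_lit 380) (nat_lit 0) (XT.nd (nat_lit 78) (nat_lit 0) (nat_lit 0) (XT.lf (nat_lit 0) (nat_lit 5874459921) (nat_lit 380) (nat_lit 3029874774) (nat_lit 456) (nat_lit 831573316) (nat_lit 39) (nat_lit 5) (nat_lit 44) (nat_lit 3) (nat_lit 45) (nat_lit 5) (nat_lit 251) (nat_lit 250) (nat_lit 219)) (XT.nd (nat_lit 78) (nat_lit 0) (nat_lit 0) (XT.lf (nat_lit 76) (nat_lit 1153178147) (nat_lit 0) (nat_lit 5743986866) (nat_lit 456) (nat_lit 3176077152) (nat_lit 40) (nat_lit 5) (nat_lit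 39) (nat_lit 5) (nat_lit 45) (nat_lit 5) (nat_lit 252) (nat_lit 250) (nat_lit 218)) (XT.lf (nat_lit 76) (nat_lit 5801841285) (nat_lit 0) (nat_lit 2216934974) (nat_lit 456) (nat_lit 2417892006) (nat_lit 40) (nat_lit 5) (nat_lit 39) (nat_lit 5) (nat_lit 45) (nat_lit 5) (nat_lit 253) (nat_lit 250) (nat_lit 217)))) (XT.nd (nat_lit 78) (nat_lit 456) (nat_lit 0) (XT.lf (nat_lit 0) (nat_lit 9208072455) (nat_lit 380) (nat_lit 89199868) (nat_lit 456) (nat_lit 1534097050) (nat_lit 40) (nat_lit 5) (nat_lit 45) (nat_lit 5) (nat_lit 46) (nat_lit 5) (nat_lit 254) (nat_lit 250) (nat_lit 216)) (XT.nd (nat_lit 78) (nat_lit 456) (nat_lit 0) (XT.lf (nat_lit 76) (nat_lit 4970262054) (nat_lit 0) (nat_lit 5643499099) (nat_lit 456) (nat_lit 634590515) (nat_lit 41) (nat_lit 5) (nat_lit 40) (nat_lit 5) (nat_lit 46) (nat_lit 5) (nat_lit 255) (nat_lit 250) (nat_lit 215)) (XT.lf (nat_lit 0) (nat_lit 359630482)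 (nat_lit 456) (nat_lit 1312468974) (nat_lit 532) (nat_lit 10030259685) (nat_lit 34) (nat_lit 5) (nat_lit 40) (nat_lit 5) (nat_lit 41) (nat_lit 5) (nat_lit 256) (nat_lit 250) (nat_lit 214))))) (XT.nd (nat_lit 234) (nat_lit 228) (nat_lit 0) (XT.nd (nat_lit 78) (nat_lit 456) (nat_lit 0) (XT.lf (nat_lit 0) (nat_lit 1516084714) (nat_lit 456) (nat_lit 8049494427) (nat_lit 76) (nat_lit 2616752550) (nat_lit 35) (nat_lit 5) (nat_lit 41) (nat_lit 5) (nat_lit 36) (nat_lit 5) (nat_lit 257) (nat_lit 250) (nat_lit 213)) (XT.nd (nat_lit 78) (nat_lit 456) (nat_lit 0) (XT.lf (nat_lit 0) (nat_lit 2797929206) (nat_lit 456) (nat_lit 2696945684) (nat_lit 76) (nat_lit 7203494933) (nat_lit 35) (nat_lit 5) (nat_lit 41) (nat_lit 5) (nat_lit 36) (nat_lit 5) (nat_lit 258) (nat_lit 250) (nat_lit 212)) (XT.lf (nat_lit 0) (nat_lit 3204126945) (nat_lit 456) (nat_lit 1011388321) (nat_lit 532) (nat_lit 9037795855)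 (nat_lit 29) (nat_lit 5) (nat_lit 35) (nat_lit 5) (nat_lit 36) (nat_lit 5) (nat_lit 259) (nat_lit 250) (nat_lit 211)))) (XT.nd (nat_lit 78) (nat_lit 228) (nat_lit 0) (XT.lf (nat_lit 0) (nat_lit 5872802808) (nat_lit 532) (nat_lit 4252724786) (nat_lit 76) (nat_lit 3717271782) (nat_lit 29) (nat_lit 5) (nat_lit 36) (nat_lit 5) (nat_lit 30) (nat_lit 5) (nat_lit 260) (nat_lit 250) (nat_lit 210)) (XT.nd (nat_lit 78) (nat_lit 0) (nat_lit 0) (XT.lf (nat_lit 0) (nat_lit 2043991665) (nat_lit 228) (nat_lit 5655692647) (nat_lit 304) (nat_lit 6777037818) (nat_lit 26) (nat_lit 5) (nat_lit 29) (nat_lit 5) (nat_lit 30) (nat_lit 5) (nat_lit 261) (nat_lit 250) (nat_lit 209)) (XT.lf (nat_lit 0) (nat_lit 9047861503) (nat_lit 228) (nat_lit 704636162) (nat_lit 304) (nat_lit 5402697345) (nat_lit 26) (nat_lit 5) (nat_lit 29) (nat_lit 5) (nat_lit 30) (nat_lit 5) (nat_lit 262) (nat_lit 250) (nat_lit 208))))))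 (XT.nd (nat_lit 468) (nat_lit 304) (nat_lit 0) (XT.nd (nat_lit 234) (nat_lit 380) (nat_lit 0) (XT.nd (nat_lit 78) (nat_lit 76) (nat_lit 0) (XT.lf (nat_lit 0) (nat_lit 604212588) (nat_lit 152) (nat_lit 11457671558) (nat_lit 228) (nat_lit 3818876329) (nat_lit 24) (nat_lit 5) (nat_lit 26) (nat_lit 5) (nat_lit 27) (nat_lit 5) (nat_lit 263) (nat_lit 250) (nat_lit 207)) (XT.nd (nat_lit 78) (nat_lit 76) (nat_lit 0) (XT.lf (nat_lit 0) (nat_lit 8143263968) (nat_lit 152) (nat_lit 6565351074) (nat_lit 228) (nat_lit 1943736253) (nat_lit 24) (nat_lit 5) (nat_lit 26) (nat_lit 5) (nat_lit 27) (nat_lit 5) (nat_lit 264) (nat_lit 250) (nat_lit 206)) (XT.lf (nat_lit 0) (nat_lit 46558903) (nat_lit 228) (nat_lit 1238675224) (nat_lit 76) (nat_lit 16202902115) (nat_lit 23) (nat_lit 5) (nat_lit 26) (nat_lit 5) (nat_lit 24) (nat_lit 5) (nat_lit 265) (nat_lit 250) (nat_lit 205)))) (XT.nd (nat_lit 78) (nat_lit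 152) (nat_lit 0) (XT.lf (nat_lit 0) (nat_lit 2339569553) (nat_lit 304) (nat_lit 11614754936) (nat_lit 76) (nat_lit 4412689153) (nat_lit 20) (nat_lit 5) (nat_lit 24) (nat_lit 5) (nat_lit 21) (nat_lit 5) (nat_lit 266) (nat_lit 250) (nat_lit 204)) (XT.nd (nat_lit 78) (nat_lit 152) (nat_lit 0) (XT.lf (nat_lit 0) (nat_lit 4856829069) (nat_lit 304) (nat_lit 3929945915) (nat_lit 76) (nat_lit 10526299497) (nat_lit 20) (nat_lit 5) (nat_lit 24) (nat_lit 5) (nat_lit 21) (nat_lit 5) (nat_lit 267) (nat_lit 250) (nat_lit 203)) (XT.lf (nat_lit 0) (nat_lit 4565530822) (nat_lit 152) (nat_lit 3094441554) (nat_lit 228) (nat_lit 12668215241) (nat_lit 18) (nat_lit 5) (nat_lit 20) (nat_lit 5) (nat_lit 21) (nat_lit 5) (nat_lit 268) (nat_lit 250) (nat_lit 202))))) (XT.nd (nat_lit 234) (nat_lit 152) (nat_lit 0) (XT.nd (nat_lit 78) (nat_lit 152) (nat_lit 0) (XT.lf (nat_lit 0) (nat_lit 10846674891) (nat_lit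 228) (nat_lit 7561544180) (nat_lit 76) (nat_lit 3003664331) (nat_lit 18) (nat_lit 5) (nat_lit 21) (nat_lit 5) (nat_lit 19) (nat_lit 5) (nat_lit 269) (nat_lit 250) (nat_lit 201)) (XT.nd (nat_lit 78) (nat_lit 0) (nat_lit 0) (XT.lf (nat_lit 0) (nat_lit 1246573064) (nat_lit 152) (nat_lit 13129534352) (nat_lit 228) (nat_lit 8199253387) (nat_lit 16) (nat_lit 5) (nat_lit 18) (nat_lit 5) (nat_lit 19) (nat_lit 5) (nat_lit 270) (nat_lit 250) (nat_lit 200)) (XT.lf (nat_lit 0) (nat_lit 11159090028) (nat_lit 152) (nat_lit 7213932075) (nat_lit 228) (nat_lit 5444185441) (nat_lit 16) (nat_lit 5) (nat_lit 18) (nat_lit 5) (nat_lit 19) (nat_lit 5) (nat_lit 271) (nat_lit 250) (nat_lit 199)))) (XT.nd (nat_lit 78) (nat_lit 152) (nat_lit 0) (XT.lf (nat_lit 0) (nat_lit 21836570036) (nat_lit 152) (nat_lit 833102837) (nat_lit 228) (nat_lit 2490424363) (nat_lit 16) (nat_lit 5) (nat_lit 18) (nat_lit 5) (nat_lit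 19) (nat_lit 5) (nat_lit 272) (nat_lit 250) (nat_lit 198)) (XT.nd (nat_lit 78) (nat_lit 0) (nat_lit 0) (XT.lf (nat_lit 0) (nat_lit 965874620) (nat_lit 152) (nat_lit 19679941332) (nat_lit 76) (nat_lit 5939237645) (nat_lit 14) (nat_lit 5) (nat_lit 16) (nat_lit 5) (nat_lit 15) (nat_lit 5) (nat_lit 273) (nat_lit 250) (nat_lit 197)) (XT.lf (nat_lit 0) (nat_lit 4660489244) (nat_lit 152) (nat_lit 10092076834) (nat_lit 76) (nat_lit 13358631233) (nat_lit 14) (nat_lit 5) (nat_lit 16) (nat_lit 5) (nat_lit 15) (nat_lit 5) (nat_lit 274) (nat_lit 250) (nat_lit 196))))))))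
noncomputable def xc69 : XT := (XT.nd (nat_lit 1872) (nat_lit 228) (nat_lit 0) (XT.nd (nat_lit 936) (nat_lit 228) (nat_lit 0) (XT.nd (nat_lit 468) (nat_lit 304) (nat_lit 0) (XT.nd (nat_lit 234) (nat_lit 76) (nat_lit 0) (XT.nd (nat_lit 78) (nat_lit 0) (nat_lit 0) (XT.lf (nat_lit 0) (nat_lit 249648576) (nat_lit 152) (nat_lit 8389888585) (nat_lit 228) (nat_lit 21120855208) (nat_lit 12) (nat_lit 5) (nat_lit 14) (nat_lit 5) (nat_lit 15) (nat_lit 5) (nat_lit 275) (nat_lit 250) (nat_lit 195)) (XT.nd (nat_lit 78) (nat_lit 0) (nat_lit 0) (XT.lf (nat_lit 0) (nat_lit 11967650230) (nat_lit 152) (nat_lit 1228722220) (nat_lit 228) (nat_lit 18324457369) (nat_lit 12) (nat_lit 5) (nat_lit 14) (nat_lit 5) (nat_lit 15) (nat_lit 5) (nat_lit 276) (nat_lit 250) (nat_lit 194)) (XT.lf (nat_lit 0) (nat_lit 18258766412) (nat_lit 228) (nat_lit 8979707728) (nat_lit 76) (nat_lit 6172406313) (nat_lit 12) (nat_lit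 5) (nat_lit 15) (nat_lit 5) (nat_lit 13) (nat_lit 4) (nat_lit 277) (nat_lit 250) (nat_lit 193)))) (XT.nd (nat_lit 78) (nat_lit 0) (nat_lit 0) (XT.lf (nat_lit 0) (nat_lit 2510883472) (nat_lit 76) (nat_lit 21293272245) (nat_lit 152) (nat_lit 11641793872) (nat_lit 11) (nat_lit 5) (nat_lit 12) (nat_lit 5) (nat_lit 13) (nat_lit 4) (nat_lit 278) (nat_lit 250) (nat_lit 192)) (XT.nd (nat_lit 78) (nat_lit 0) (nat_lit 0) (XT.lf (nat_lit 0) (nat_lit 15409526103) (nat_lit 76) (nat_lit 14615406233) (nat_lit 152) (nat_lit 7600402128) (nat_lit 11) (nat_lit 5) (nat_lit 12) (nat_lit 5) (nat_lit 13) (nat_lit 4) (nat_lit 279) (nat_lit 250) (nat_lit 191)) (XT.lf (nat_lit 0) (nat_lit 29319801068) (nat_lit 76) (nat_lit 7410824688) (nat_lit 152) (nat_lit 3249510944) (nat_lit 11) (nat_lit 5) (nat_lit 12) (nat_lit 5) (nat_lit 13) (nat_lit 4) (nat_lit 280) (nat_lit 250) (nat_lit 190))))) (XT.nd (nat_lit 234)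 (nat_lit 76) (nat_lit 0) (XT.nd (nat_lit 78) (nat_lit 0) (nat_lit 0) (XT.lf (nat_lit 0) (nat_lit 1420278009) (nat_lit 228) (nat_lit 40670530155) (nat_lit 76) (nat_lit 426299739) (nat_lit 8) (nat_lit 5) (nat_lit 11) (nat_lit 5) (nat_lit 9) (nat_lit 4) (nat_lit 281) (nat_lit 250) (nat_lit 189)) (XT.nd (nat_lit 78) (nat_lit 0) (nat_lit 0) (XT.lf (nat_lit 0) (nat_lit 6767745283) (nat_lit 228) (nat_lit 29577620396) (nat_lit 76) (nat_lit 8866583902) (nat_lit 8) (nat_lit 5) (nat_lit 11) (nat_lit 5) (nat_lit 9) (nat_lit 4) (nat_lit 282) (nat_lit 250) (nat_lit 188)) (XT.lf (nat_lit 0) (nat_lit 12532010925) (nat_lit 228) (nat_lit 17615560985) (nat_lit 76) (nat_lit 17975721114) (nat_lit 8) (nat_lit 5) (nat_lit 11) (nat_lit 5) (nat_lit 9) (nat_lit 4) (nat_lit 283) (nat_lit 250) (nat_lit 187)))) (XT.nd (nat_lit 78) (nat_lit 76) (nat_lit 0) (XT.lf (nat_lit 0) (nat_lit 18747233544) (nat_lit 228)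 (nat_lit 4713465642) (nat_lit 76) (nat_lit 27807691446) (nat_lit 8) (nat_lit 5) (nat_lit 11) (nat_lit 5) (nat_lit 9) (nat_lit 4) (nat_lit 284) (nat_lit 250) (nat_lit 186)) (XT.nd (nat_lit 78) (nat_lit 0) (nat_lit 0) (XT.lf (nat_lit 0) (nat_lit 9689847930) (nat_lit 76) (nat_lit 15993437237) (nat_lit 152) (nat_lit 28963951571) (nat_lit 7) (nat_lit 5) (nat_lit 8) (nat_lit 5) (nat_lit 9) (nat_lit 4) (nat_lit 285) (nat_lit 250) (nat_lit 185)) (XT.lf (nat_lit 0) (nat_lit 25498207552) (nat_lit 76) (nat_lit 7795789061) (nat_lit 152) (nat_lit 24992839255) (nat_lit 7) (nat_lit 5) (nat_lit 8) (nat_lit 5) (nat_lit 9) (nat_lit 4) (nat_lit 286) (nat_lit 250) (nat_lit 184)))))) (XT.nd (nat_lit 468) (nat_lit 76) (nat_lit 0) (XT.nd (nat_lit 234) (nat_lit 76) (nat_lit 0) (XT.nd (nat_lit 78) (nat_lit 76) (nat_lit 0) (XT.lf (nat_lit 0) (nat_lit 41530439564) (nat_lit 152) (nat_lit 19686512044) (nat_lit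 0) (nat_lit 999326717) (nat_lit 7) (nat_lit 5) (nat_lit 9) (nat_lit 4) (nat_lit 7) (nat_lit 4) (nat_lit 287) (nat_lit 250) (nat_lit 183)) (XT.nd (nat_lit 78) (nat_lit 76) (nat_lit 0) (XT.lf (nat_lit 0) (nat_lit 50620357806) (nat_lit 152) (nat_lit 5752333060) (nat_lit 0) (nat_lit 10071844008) (nat_lit 7) (nat_lit 5) (nat_lit 9) (nat_lit 4) (nat_lit 7) (nat_lit 4) (nat_lit 288) (nat_lit 250) (nat_lit 182)) (XT.lf (nat_lit 0) (nat_lit 9772847894) (nat_lit 76) (nat_lit 50892317941) (nat_lit 76) (nat_lit 10327692152) (nat_lit 6) (nat_lit 4) (nat_lit 7) (nat_lit 5) (nat_lit 7) (nat_lit 4) (nat_lit 289) (nat_lit 250) (nat_lit 181)))) (XT.nd (nat_lit 78) (nat_lit 76) (nat_lit 0) (XT.lf (nat_lit 0) (nat_lit 26854893058) (nat_lit 76) (nat_lit 44808851711) (nat_lit 76) (nat_lit 4229307411) (nat_lit 6) (nat_lit 4) (nat_lit 7) (nat_lit 5) (nat_lit 7) (nat_lit 4) (nat_lit 290) (nat_lit 250) (nat_lit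 180)) (XT.nd (nat_lit 78) (nat_lit 0) (nat_lit 0) (XT.lf (nat_lit 0) (nat_lit 2232288398) (nat_lit 152) (nat_lit 35950197868) (nat_lit 76) (nat_lit 42998798583) (nat_lit 5) (nat_lit 5) (nat_lit 7) (nat_lit 5) (nat_lit 6) (nat_lit 4) (nat_lit 291) (nat_lit 250) (nat_lit 179)) (XT.lf (nat_lit 0) (nat_lit 8976064215) (nat_lit 152) (nat_lit 21935934385) (nat_lit 76) (nat_lit 55972305758) (nat_lit 5) (nat_lit 5) (nat_lit 7) (nat_lit 5) (nat_lit 6) (nat_lit 4) (nat_lit 292) (nat_lit 250) (nat_lit 178))))) (XT.nd (nat_lit 234) (nat_lit 0) (nat_lit 0) (XT.nd (nat_lit 78) (nat_lit 76) (nat_lit 0) (XT.lf (nat_lit 0) (nat_lit 16253550243) (nat_lit 152) (nat_lit 6810606243) (nat_lit 76) (nat_lit 69979887090) (nat_lit 5) (nat_lit 5) (nat_lit 7) (nat_lit 5) (nat_lit 6) (nat_lit 4) (nat_lit 293) (nat_lit 250) (nat_lit 177)) (XT.nd (nat_lit 78) (nat_lit 0) (nat_lit 0) (XT.lf (nat_lit 0) (nat_lit 10016483188)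 (nat_lit 76) (nat_lit 14332285796) (nat_lit 152) (nat_lit 75328963944) (nat_lit 4) (nat_lit 5) (nat_lit 5) (nat_lit 5) (nat_lit 6) (nat_lit 4) (nat_lit 294) (nat_lit 250) (nat_lit 176)) (XT.lf (nat_lit 0) (nat_lit 28567971172) (nat_lit 76) (nat_lit 4704663808) (nat_lit 152) (nat_lit 73555012756) (nat_lit 4) (nat_lit 5) (nat_lit 5) (nat_lit 5) (nat_lit 6) (nat_lit 4) (nat_lit 295) (nat_lit 250) (nat_lit 175)))) (XT.nd (nat_lit 78) (nat_lit 0) (nat_lit 0) (XT.lf (nat_lit 0) (nat_lit 43042443756) (nat_lit 152) (nat_lit 66091627268) (nat_lit 0) (nat_lit 5404933773) (nat_lit 4) (nat_lit 5) (nat_lit 6) (nat_lit 4) (nat_lit 4) (nat_lit 4) (nat_lit 296) (nat_lit 250) (nat_lit 174)) (XT.nd (nat_lit 78) (nat_lit 0) (nat_lit 0) (XT.lf (nat_lit 0) (nat_lit 53711510989) (nat_lit 152) (nat_lit 53080415410) (nat_lit 0) (nat_lit 16065940999) (nat_lit 4) (nat_lit 5) (nat_lit 6) (nat_lit 4) (nat_lit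 4) (nat_lit 4) (nat_lit 297) (nat_lit 250) (nat_lit 173)) (XT.lf (nat_lit 0) (nat_lit 65229913506) (nat_lit 152) (nat_lit 39035790236) (nat_lit 0) (nat_lit 27576880547) (nat_lit 4) (nat_lit 5) (nat_lit 6) (nat_lit 4) (nat_lit 4) (nat_lit 4) (nat_lit 298) (nat_lit 250) (nat_lit 172))))))) (XT.nd (nat_lit 936) (nat_lit 152) (nat_lit 0) (XT.nd (nat_lit 468) (nat_lit 0) (nat_lit 0) (XT.nd (nat_lit 234) (nat_lit 0) (nat_lit 0) (XT.nd (nat_lit 78) (nat_lit 76) (nat_lit 0) (XT.lf (nat_lit 0) (nat_lit 77665908507) (nat_lit 152) (nat_lit 23874524338) (nat_lit 0) (nat_lit 40005965390) (nat_lit 4) (nat_lit 5) (nat_lit 6) (nat_lit 4) (nat_lit 4) (nat_lit 4) (nat_lit 299) (nat_lit 250) (nat_lit 171)) (XT.nd (nat_lit 78) (nat_lit 76) (nat_lit 0) (XT.lf (nat_lit 0) (nat_lit 91093190776) (nat_lit 152) (nat_lit 7506773175) (nat_lit 0) (nat_lit 53426849366) (nat_lit 4) (nat_lit 5) (nat_lit 6) (nat_lit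 4) (nat_lit 4) (nat_lit 4) (nat_lit 300) (nat_lit 250) (nat_lit 170)) (XT.lf (nat_lit 0) (nat_lit 10699699641) (nat_lit 76) (nat_lit 95148957786) (nat_lit 76) (nat_lit 57476692030) (nat_lit 3) (nat_lit 4) (nat_lit 4) (nat_lit 5) (nat_lit 4) (nat_lit 4) (nat_lit 301) (nat_lit 250) (nat_lit 169)))) (XT.nd (nat_lit 78) (nat_lit 0) (nat_lit 0) (XT.lf (nat_lit 0) (nat_lit 30783816775) (nat_lit 76) (nat_lit 91202774014) (nat_lit 76) (nat_lit 53525022752) (nat_lit 3) (nat_lit 4) (nat_lit 4) (nat_lit 5) (nat_lit 4) (nat_lit 4) (nat_lit 302) (nat_lit 250) (nat_lit 168)) (XT.nd (nat_lit 78) (nat_lit 0) (nat_lit 0) (XT.lf (nat_lit 0) (nat_lit 52469301845) (nat_lit 76) (nat_lit 86943276324) (nat_lit 76) (nat_lit 49260445890) (nat_lit 3) (nat_lit 4) (nat_lit 4) (nat_lit 5) (nat_lit 4) (nat_lit 4) (nat_lit 303) (nat_lit 250) (nat_lit 167)) (XT.lf (nat_lit 0) (nat_lit 75884661430) (nat_lit 76) (nat_lit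 82345223248) (nat_lit 76) (nat_lit 44657689878) (nat_lit 3) (nat_lit 4) (nat_lit 4) (nat_lit 5) (nat_lit 4) (nat_lit 4) (nat_lit 304) (nat_lit 250) (nat_lit 166))))) (XT.nd (nat_lit 234) (nat_lit 0) (nat_lit 0) (XT.nd (nat_lit 78) (nat_lit 0) (nat_lit 0) (XT.lf (nat_lit 0) (nat_lit 101168653214) (nat_lit 76) (nat_lit 77381367064) (nat_lit 76) (nat_lit 39689479123) (nat_lit 3) (nat_lit 4) (nat_lit 4) (nat_lit 5) (nat_lit 4) (nat_lit 4) (nat_lit 305) (nat_lit 250) (nat_lit 165)) (XT.nd (nat_lit 78) (nat_lit 0) (nat_lit 0) (XT.lf (nat_lit 0) (nat_lit 128471108262) (nat_lit 76) (nat_lit 72022292329) (nat_lit 76) (nat_lit 34326372378) (nat_lit 3) (nat_lit 4) (nat_lit 4) (nat_lit 5) (nat_lit 4) (nat_lit 4) (nat_lit 306) (nat_lit 250) (nat_lit 164)) (XT.lf (nat_lit 0) (nat_lit 157953818898) (nat_lit 76) (nat_lit 66236241563) (nat_lit 76) (nat_lit 28536588268) (nat_lit 3) (nat_lit 4) (nat_lit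 4) (nat_lit 5) (nat_lit 4) (nat_lit 4) (nat_lit 307) (nat_lit 250) (nat_lit 163)))) (XT.nd (nat_lit 78) (nat_lit 0) (nat_lit 0) (XT.lf (nat_lit 0) (nat_lit 189791497483) (nat_lit 76) (nat_lit 59988927056) (nat_lit 76) (nat_lit 22285816962) (nat_lit 3) (nat_lit 4) (nat_lit 4) (nat_lit 5) (nat_lit 4) (nat_lit 4) (nat_lit 308) (nat_lit 250) (nat_lit 162)) (XT.nd (nat_lit 78) (nat_lit 0) (nat_lit 0) (XT.lf (nat_lit 0) (nat_lit 224172811741) (nat_lit 76) (nat_lit 53243327687) (nat_lit 76) (nat_lit 15537016853) (nat_lit 3) (nat_lit 4) (nat_lit 4) (nat_lit 5) (nat_lit 4) (nat_lit 4) (nat_lit 309) (nat_lit 250) (nat_lit 161)) (XT.lf (nat_lit 0) (nat_lit 261301502794) (nat_lit 76) (nat_lit 45959469532) (nat_lit 76) (nat_lit 8250195051) (nat_lit 3) (nat_lit 4) (nat_lit 4) (nat_lit 5) (nat_lit 4) (nat_lit 4) (nat_lit 310) (nat_lit 250) (nat_lit 160)))))) (XT.nd (nat_lit 468) (nat_lit 0) (nat_lit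 0) (XT.nd (nat_lit 234) (nat_lit 76) (nat_lit 0) (XT.nd (nat_lit 78) (nat_lit 76) (nat_lit 0) (XT.lf (nat_lit 0) (nat_lit 301397592515) (nat_lit 76) (nat_lit 38094188989) (nat_lit 76) (nat_lit 382170389) (nat_lit 3) (nat_lit 4) (nat_lit 4) (nat_lit 5) (nat_lit 4) (nat_lit 4) (nat_lit 311) (nat_lit 250) (nat_lit 159)) (XT.nd (nat_lit 78) (nat_lit 0) (nat_lit 0) (XT.lf (nat_lit 0) (nat_lit 7707803205) (nat_lit 152) (nat_lit 21682328782) (nat_lit 76) (nat_lit 336780139156) (nat_lit 2) (nat_lit 5) (nat_lit 4) (nat_lit 5) (nat_lit 3) (nat_lit 4) (nat_lit 312) (nat_lit 250) (nat_lit 158)) (XT.lf (nat_lit 0) (nat_lit 16422908066) (nat_lit 152) (nat_lit 3557263311) (nat_lit 76) (nat_lit 374589446937) (nat_lit 2) (nat_lit 5) (nat_lit 4) (nat_lit 5) (nat_lit 3) (nat_lit 4) (nat_lit 313) (nat_lit 250) (nat_lit 157)))) (XT.nd (nat_lit 78) (nat_lit 0) (nat_lit 0) (XT.lf (nat_lit 0) (nat_lit 16858780515)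 (nat_lit 76) (nat_lit 9380580530) (nat_lit 152) (nat_lit 398969223756) (nat_lit 1) (nat_lit 5) (nat_lit 2) (nat_lit 5) (nat_lit 3) (nat_lit 4) (nat_lit 314) (nat_lit 250) (nat_lit 156)) (XT.nd (nat_lit 78) (nat_lit 0) (nat_lit 0) (XT.lf (nat_lit 0) (nat_lit 36989331732) (nat_lit 152) (nat_lit 419235102907) (nat_lit 0) (nat_lit 2062380372) (nat_lit 1) (nat_lit 5) (nat_lit 3) (nat_lit 4) (nat_lit 1) (nat_lit 4) (nat_lit 315) (nat_lit 250) (nat_lit 155)) (XT.lf (nat_lit 0) (nat_lit 48841750073) (nat_lit 152) (nat_lit 431237090443) (nat_lit 0) (nat_lit 13913069454) (nat_lit 1) (nat_lit 5) (nat_lit 3) (nat_lit 4) (nat_lit 1) (nat_lit 4) (nat_lit 316) (nat_lit 250) (nat_lit 154))))) (XT.nd (nat_lit 234) (nat_lit 0) (nat_lit 0) (XT.nd (nat_lit 78) (nat_lit 0) (nat_lit 0) (XT.lf (nat_lit 0) (nat_lit 61641249436) (nat_lit 152) (nat_lit 444201286597) (nat_lit 0) (nat_lit 26710967650) (nat_lit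 1) (nat_lit 5) (nat_lit 3) (nat_lit 4) (nat_lit 1) (nat_lit 4) (nat_lit 317) (nat_lit 250) (nat_lit 153)) (XT.nd (nat_lit 78) (nat_lit 0) (nat_lit 0) (XT.lf (nat_lit 0) (nat_lit 75463678705) (nat_lit 152) (nat_lit 458204516236) (nat_lit 0) (nat_lit 40531914357) (nat_lit 1) (nat_lit 5) (nat_lit 3) (nat_lit 4) (nat_lit 1) (nat_lit 4) (nat_lit 318) (nat_lit 250) (nat_lit 152)) (XT.lf (nat_lit 0) (nat_lit 90390948573) (nat_lit 152) (nat_lit 473329761460) (nat_lit 0) (nat_lit 55457811482) (nat_lit 1) (nat_lit 5) (nat_lit 3) (nat_lit 4) (nat_lit 1) (nat_lit 4) (nat_lit 319) (nat_lit 250) (nat_lit 151)))) (XT.nd (nat_lit 156) (nat_lit 0) (nat_lit 0) (XT.nd (nat_lit 78) (nat_lit 0) (nat_lit 0) (XT.lf (nat_lit 0) (nat_lit 106511516933) (nat_lit 152) (nat_lit 489666653352) (nat_lit 0) (nat_lit 71577108785) (nat_lit 1) (nat_lit 5) (nat_lit 3) (nat_lit 4) (nat_lit 1) (nat_lit 4) (nat_lit 320)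 (nat_lit 250) (nat_lit 150)) (XT.lf (nat_lit 0) (nat_lit 123920913082) (nat_lit 152) (nat_lit 507312003124) (nat_lit 0) (nat_lit 88985328028) (nat_lit 1) (nat_lit 5) (nat_lit 3) (nat_lit 4) (nat_lit 1) (nat_lit 4) (nat_lit 321) (nat_lit 250) (nat_lit 149))) (XT.nd (nat_lit 78) (nat_lit 0) (nat_lit 0) (XT.lf (nat_lit 0) (nat_lit 142722303810) (nat_lit 152) (nat_lit 526370375812) (nat_lit 0) (nat_lit 107785629029) (nat_lit 1) (nat_lit 5) (nat_lit 3) (nat_lit 4) (nat_lit 1) (nat_lit 4) (nat_lit 322) (nat_lit 250) (nat_lit 148)) (XT.lf (nat_lit 0) (nat_lit 163027104766) (nat_lit 152) (nat_lit 546954709919) (nat_lit 0) (nat_lit 128089420979) (nat_lit 1) (nat_lit 5) (nat_lit 3) (nat_lit 4) (nat_lit 1) (nat_lit 4) (nat_lit 323) (nat_lit 250) (nat_lit 147))))))))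
noncomputable def xc70 : XT := (XT.nd (nat_lit 32760) (nat_lit 0) (nat_lit 456) (XT.nd (nat_lit 31824) (nat_lit 0) (nat_lit 1900) (XT.nd (nat_lit 468) (nat_lit 0) (nat_lit 0) (XT.nd (nat_lit 234) (nat_lit 0) (nat_lit 0) (XT.nd (nat_lit 78) (nat_lit 0) (nat_lit 0) (XT.lf (nat_lit 0) (nat_lit 184955640698) (nat_lit 152) (nat_lit 569186986686) (nat_lit 0) (nat_lit 150017022645) (nat_lit 1) (nat_lit 5) (nat_lit 3) (nat_lit 4) (nat_lit 1) (nat_lit 4) (nat_lit 324) (nat_lit 250) (nat_lit 146)) (XT.nd (nat_lit 78) (nat_lit 0) (nat_lit 0) (XT.lf (nat_lit 0) (nat_lit 208637858483) (nat_lit 152) (nat_lit 593198952938) (nat_lit 0) (nat_lit 173698375370) (nat_lit 1) (nat_lit 5) (nat_lit 3) (nat_lit 4) (nat_lit 1) (nat_lit 4) (nat_lit 325) (nat_lit 250) (nat_lit 145)) (XT.lf (nat_lit 0) (nat_lit 234214097192) (nat_lit 152) (nat_lit 619132901807) (nat_lit 0) (nat_lit 199273813096) (nat_lit 1) (nat_lit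 5) (nat_lit 3) (nat_lit 4) (nat_lit 1) (nat_lit 4) (nat_lit 326) (nat_lit 250) (nat_lit 144)))) (XT.nd (nat_lit 78) (nat_lit 0) (nat_lit 0) (XT.lf (nat_lit 0) (nat_lit 261835919719) (nat_lit 152) (nat_lit 647142515955) (nat_lit 0) (nat_lit 226894893973) (nat_lit 1) (nat_lit 5) (nat_lit 3) (nat_lit 4) (nat_lit 1) (nat_lit 4) (nat_lit 327) (nat_lit 250) (nat_lit 143)) (XT.nd (nat_lit 78) (nat_lit 0) (nat_lit 0) (XT.lf (nat_lit 0) (nat_lit 291667010939) (nat_lit 152) (nat_lit 677393778279) (nat_lit 0) (nat_lit 256725298481) (nat_lit 1) (nat_lit 5) (nat_lit 3) (nat_lit 4) (nat_lit 1) (nat_lit 4) (nat_lit 328) (nat_lit 250) (nat_lit 142)) (XT.lf (nat_lit 0) (nat_lit 323884147689) (nat_lit 152) (nat_lit 710065955519) (nat_lit 0) (nat_lit 288941799386) (nat_lit 1) (nat_lit 5) (nat_lit 3) (nat_lit 4) (nat_lit 1) (nat_lit 4) (nat_lit 329) (nat_lit 250) (nat_lit 141))))) (XT.nd (nat_lit 234)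 (nat_lit 0) (nat_lit 0) (XT.nd (nat_lit 78) (nat_lit 0) (nat_lit 0) (XT.lf (nat_lit 0) (nat_lit 358678246335) (nat_lit 152) (nat_lit 745352660578) (nat_lit 0) (nat_lit 323735309286) (nat_lit 1) (nat_lit 5) (nat_lit 3) (nat_lit 4) (nat_lit 1) (nat_lit 4) (nat_lit 330) (nat_lit 250) (nat_lit 140)) (XT.nd (nat_lit 78) (nat_lit 0) (nat_lit 0) (XT.lf (nat_lit 0) (nat_lit 396255494128) (nat_lit 152) (nat_lit 783462999855) (nat_lit 0) (nat_lit 361312011944) (nat_lit 1) (nat_lit 5) (nat_lit 3) (nat_lit 4) (nat_lit 1) (nat_lit 4) (nat_lit 331) (nat_lit 250) (nat_lit 139)) (XT.lf (nat_lit 0) (nat_lit 436838571055) (nat_lit 152) (nat_lit 824622812399) (nat_lit 0) (nat_lit 401894584116) (nat_lit 1) (nat_lit 5) (nat_lit 3) (nat_lit 4) (nat_lit 1) (nat_lit 4) (nat_lit 332) (nat_lit 250) (nat_lit 138)))) (XT.nd (nat_lit 78) (nat_lit 0) (nat_lit 0) (XT.lf (nat_lit 0) (nat_lit 480667969424) (nat_lit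 152) (nat_lit 869076008209) (nat_lit 0) (nat_lit 445723515120) (nat_lit 1) (nat_lit 5) (nat_lit 3) (nat_lit 4) (nat_lit 1) (nat_lit 4) (nat_lit 333) (nat_lit 250) (nat_lit 137)) (XT.nd (nat_lit 78) (nat_lit 0) (nat_lit 0) (XT.lf (nat_lit 0) (nat_lit 528003419003) (nat_lit 152) (nat_lit 917086013632) (nat_lit 0) (nat_lit 493058531953) (nat_lit 1) (nat_lit 5) (nat_lit 3) (nat_lit 4) (nat_lit 1) (nat_lit 4) (nat_lit 334) (nat_lit 250) (nat_lit 136)) (XT.lf (nat_lit 0) (nat_lit 579125426159) (nat_lit 152) (nat_lit 968937332402) (nat_lit 0) (nat_lit 544180138418) (nat_lit 1) (nat_lit 5) (nat_lit 3) (nat_lit 4) (nat_lit 1) (nat_lit 4) (nat_lit 335) (nat_lit 250) (nat_lit 135)))))) (XT.nd (nat_lit 468) (nat_lit 608) (nat_lit 0) (XT.nd (nat_lit 234) (nat_lit 380) (nat_lit 0) (XT.nd (nat_lit 78) (nat_lit 0) (nat_lit 0) (XT.lf (nat_lit 0) (nat_lit 1681212497) (nat_lit 0) (nat_lit 1681212497)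 (nat_lit 380) (nat_lit 1665451037) (nat_lit 39) (nat_lit 5) (nat_lit 39) (nat_lit 3) (nat_lit 44) (nat_lit 3) (nat_lit 251) (nat_lit 251) (nat_lit 218)) (XT.nd (nat_lit 78) (nat_lit 0) (nat_lit 0) (XT.lf (nat_lit 0) (nat_lit 7607821048) (nat_lit 380) (nat_lit 2505977753) (nat_lit 456) (nat_lit 290693252) (nat_lit 39) (nat_lit 5) (nat_lit 44) (nat_lit 3) (nat_lit 45) (nat_lit 5) (nat_lit 252) (nat_lit 251) (nat_lit 217)) (XT.lf (nat_lit 76) (nat_lit 1992319731) (nat_lit 0) (nat_lit 6644399967) (nat_lit 456) (nat_lit 2138825752) (nat_lit 40) (nat_lit 5) (nat_lit 39) (nat_lit 5) (nat_lit 45) (nat_lit 5) (nat_lit 253) (nat_lit 251) (nat_lit 216)))) (XT.nd (nat_lit 78) (nat_lit 380) (nat_lit 0) (XT.lf (nat_lit 76) (nat_lit 6957550933) (nat_lit 0) (nat_lit 2802525098) (nat_lit 456) (nat_lit 1415640430) (nat_lit 40) (nat_lit 5) (nat_lit 39) (nat_lit 5) (nat_lit 45) (nat_lit 5) (nat_lit 254)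 (nat_lit 251) (nat_lit 215)) (XT.nd (nat_lit 78) (nat_lit 456) (nat_lit 0) (XT.lf (nat_lit 76) (nat_lit 675673005) (nat_lit 0) (nat_lit 10294535570) (nat_lit 456) (nat_lit 638314963) (nat_lit 41) (nat_lit 5) (nat_lit 40) (nat_lit 5) (nat_lit 46) (nat_lit 5) (nat_lit 255) (nat_lit 251) (nat_lit 214)) (XT.lf (nat_lit 0) (nat_lit 331869986) (nat_lit 456) (nat_lit 5986301301) (nat_lit 532) (nat_lit 5746459248) (nat_lit 34) (nat_lit 5) (nat_lit 40) (nat_lit 5) (nat_lit 41) (nat_lit 5) (nat_lit 256) (nat_lit 251) (nat_lit 213))))) (XT.nd (nat_lit 234) (nat_lit 608) (nat_lit 0) (XT.nd (nat_lit 78) (nat_lit 0) (nat_lit 76) (XT.lf (nat_lit 0) (nat_lit 1298533672) (nat_lit 456) (nat_lit 697510370) (nat_lit 532) (nat_lit 10563885407) (nat_lit 34) (nat_lit 5) (nat_lit 40) (nat_lit 5) (nat_lit 41) (nat_lit 5) (nat_lit 257) (nat_lit 251) (nat_lit 212)) (XT.nd (nat_lit 78) (nat_lit 0) (nat_lit 0)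 (XT.lf (nat_lit 0) (nat_lit 2493167008) (nat_lit 456) (nat_lit 7913783029) (nat_lit 76) (nat_lit 2676126953) (nat_lit 35) (nat_lit 5) (nat_lit 41) (nat_lit 5) (nat_lit 36) (nat_lit 5) (nat_lit 258) (nat_lit 251) (nat_lit 211)) (XT.lf (nat_lit 0) (nat_lit 3814166799) (nat_lit 456) (nat_lit 2190783790) (nat_lit 76) (nat_lit 7640917305) (nat_lit 35) (nat_lit 5) (nat_lit 41) (nat_lit 5) (nat_lit 36) (nat_lit 5) (nat_lit 259) (nat_lit 251) (nat_lit 210)))) (XT.nd (nat_lit 78) (nat_lit 228) (nat_lit 0) (XT.lf (nat_lit 0) (nat_lit 4164098256) (nat_lit 456) (nat_lit 1139287537) (nat_lit 532) (nat_lit 8945529451) (nat_lit 29) (nat_lit 5) (nat_lit 35) (nat_lit 5) (nat_lit 36) (nat_lit 5) (nat_lit 260) (nat_lit 251) (nat_lit 209)) (XT.nd (nat_lit 78) (nat_lit 228) (nat_lit 0) (XT.lf (nat_lit 0) (nat_lit 7036607810) (nat_lit 532) (nat_lit 3880505744) (nat_lit 76) (nat_lit 3973322401) (nat_lit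 29) (nat_lit 5) (nat_lit 36) (nat_lit 5) (nat_lit 30) (nat_lit 5) (nat_lit 261) (nat_lit 251) (nat_lit 208)) (XT.lf (nat_lit 0) (nat_lit 2901911643) (nat_lit 228) (nat_lit 6073022560) (nat_lit 304) (nat_lit 6603230993) (nat_lit 26) (nat_lit 5) (nat_lit 29) (nat_lit 5) (nat_lit 30) (nat_lit 5) (nat_lit 262) (nat_lit 251) (nat_lit 207))))))) (XT.nd (nat_lit 936) (nat_lit 532) (nat_lit 0) (XT.nd (nat_lit 468) (nat_lit 456) (nat_lit 0) (XT.nd (nat_lit 234) (nat_lit 304) (nat_lit 0) (XT.nd (nat_lit 78) (nat_lit 152) (nat_lit 0) (XT.lf (nat_lit 0) (nat_lit 10414653983) (nat_lit 228) (nat_lit 728483445) (nat_lit 304) (nat_lit 5171978085) (nat_lit 26) (nat_lit 5) (nat_lit 29) (nat_lit 5) (nat_lit 30) (nat_lit 5) (nat_lit 263) (nat_lit 251) (nat_lit 206)) (XT.nd (nat_lit 78) (nat_lit 0) (nat_lit 0) (XT.lf (nat_lit 0) (nat_lit 1329639313) (nat_lit 152) (nat_lit 12279426019) (nat_lit 228) (nat_lit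 3492188749) (nat_lit 24) (nat_lit 5) (nat_lit 26) (nat_lit 5) (nat_lit 27) (nat_lit 5) (nat_lit 264) (nat_lit 251) (nat_lit 205)) (XT.lf (nat_lit 0) (nat_lit 9421660009) (nat_lit 152) (nat_lit 7002746508) (nat_lit 228) (nat_lit 1513866925) (nat_lit 24) (nat_lit 5) (nat_lit 26) (nat_lit 5) (nat_lit 27) (nat_lit 5) (nat_lit 265) (nat_lit 251) (nat_lit 204)))) (XT.nd (nat_lit 78) (nat_lit 228) (nat_lit 0) (XT.lf (nat_lit 0) (nat_lit 565177818) (nat_lit 228) (nat_lit 727470390) (nat_lit 76) (nat_lit 17550657261) (nat_lit 23) (nat_lit 5) (nat_lit 26) (nat_lit 5) (nat_lit 24) (nat_lit 5) (nat_lit 266) (nat_lit 251) (nat_lit 203)) (XT.nd (nat_lit 78) (nat_lit 0) (nat_lit 0) (XT.lf (nat_lit 0) (nat_lit 3020291233) (nat_lit 304) (nat_lit 11909807525) (nat_lit 76) (nat_lit 4864300620) (nat_lit 20) (nat_lit 5) (nat_lit 24) (nat_lit 5) (nat_lit 21) (nat_lit 5) (nat_lit 267) (nat_lit 251) (nat_lit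 202)) (XT.lf (nat_lit 0) (nat_lit 5702371798) (nat_lit 304) (nat_lit 3657186212) (nat_lit 76) (nat_lit 11459696358) (nat_lit 20) (nat_lit 5) (nat_lit 24) (nat_lit 5) (nat_lit 21) (nat_lit 5) (nat_lit 268) (nat_lit 251) (nat_lit 201))))) (XT.nd (nat_lit 234) (nat_lit 152) (nat_lit 0) (XT.nd (nat_lit 78) (nat_lit 152) (nat_lit 0) (XT.lf (nat_lit 0) (nat_lit 5503063971) (nat_lit 152) (nat_lit 3206614618) (nat_lit 228) (nat_lit 13207675846) (nat_lit 18) (nat_lit 5) (nat_lit 20) (nat_lit 5) (nat_lit 21) (nat_lit 5) (nat_lit 269) (nat_lit 251) (nat_lit 200)) (XT.nd (nat_lit 78) (nat_lit 152) (nat_lit 0) (XT.lf (nat_lit 0) (nat_lit 12121968484) (nat_lit 228) (nat_lit 7605242781) (nat_lit 76) (nat_lit 3363040710) (nat_lit 18) (nat_lit 5) (nat_lit 21) (nat_lit 5) (nat_lit 19) (nat_lit 5) (nat_lit 270) (nat_lit 251) (nat_lit 199)) (XT.lf (nat_lit 0) (nat_lit 1893315617) (nat_lit 152) (nat_lit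 14023406160) (nat_lit 228) (nat_lit 8431594969) (nat_lit 16) (nat_lit 5) (nat_lit 18) (nat_lit 5) (nat_lit 19) (nat_lit 5) (nat_lit 271) (nat_lit 251) (nat_lit 198)))) (XT.nd (nat_lit 78) (nat_lit 152) (nat_lit 0) (XT.lf (nat_lit 0) (nat_lit 12558314182) (nat_lit 152) (nat_lit 7646147622) (nat_lit 228) (nat_lit 5487499268) (nat_lit 16) (nat_lit 5) (nat_lit 18) (nat_lit 5) (nat_lit 19) (nat_lit 5) (nat_lit 272) (nat_lit 251) (nat_lit 197)) (XT.nd (nat_lit 78) (nat_lit 152) (nat_lit 0) (XT.lf (nat_lit 0) (nat_lit 24052474297) (nat_lit 152) (nat_lit 765585306) (nat_lit 228) (nat_lit 2326490712) (nat_lit 16) (nat_lit 5) (nat_lit 18) (nat_lit 5) (nat_lit 19) (nat_lit 5) (nat_lit 273) (nat_lit 251) (nat_lit 196)) (XT.lf (nat_lit 0) (nat_lit 1377538040) (nat_lit 152) (nat_lit 20753784695) (nat_lit 76) (nat_lit 6552437938) (nat_lit 14) (nat_lit 5) (nat_lit 16) (nat_lit 5) (nat_lit 15) (nat_lit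 5) (nat_lit 274) (nat_lit 251) (nat_lit 195)))))) (XT.nd (nat_lit 468) (nat_lit 304) (nat_lit 0) (XT.nd (nat_lit 234) (nat_lit 76) (nat_lit 0) (XT.nd (nat_lit 78) (nat_lit 152) (nat_lit 0) (XT.lf (nat_lit 0) (nat_lit 5342951948) (nat_lit 152) (nat_lit 10435968959) (nat_lit 76) (nat_lit 14555156250) (nat_lit 14) (nat_lit 5) (nat_lit 16) (nat_lit 5) (nat_lit 15) (nat_lit 5) (nat_lit 275) (nat_lit 251) (nat_lit 194)) (XT.nd (nat_lit 78) (nat_lit 0) (nat_lit 0) (XT.lf (nat_lit 0) (nat_lit 721360965) (nat_lit 152) (nat_lit 8906892025) (nat_lit 228) (nat_lit 22488012788) (nat_lit 12) (nat_lit 5) (nat_lit 14) (nat_lit 5) (nat_lit 15) (nat_lit 5) (nat_lit 276) (nat_lit 251) (nat_lit 193)) (XT.lf (nat_lit 0) (nat_lit 13343340491) (nat_lit 152) (nat_lit 1184253658) (nat_lit 228) (nat_lit 19491792813) (nat_lit 12) (nat_lit 5) (nat_lit 14) (nat_lit 5) (nat_lit 15) (nat_lit 5) (nat_lit 277) (nat_lit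 251) (nat_lit 192)))) (XT.nd (nat_lit 78) (nat_lit 76) (nat_lit 0) (XT.lf (nat_lit 0) (nat_lit 19977750537) (nat_lit 228) (nat_lit 9292571427) (nat_lit 76) (nat_lit 6791777142) (nat_lit 12) (nat_lit 5) (nat_lit 15) (nat_lit 5) (nat_lit 13) (nat_lit 4) (nat_lit 278) (nat_lit 251) (nat_lit 191)) (XT.nd (nat_lit 78) (nat_lit 0) (nat_lit 0) (XT.lf (nat_lit 0) (nat_lit 3107000918) (nat_lit 76) (nat_lit 22850143703) (nat_lit 152) (nat_lit 12303672533) (nat_lit 11) (nat_lit 5) (nat_lit 12) (nat_lit 5) (nat_lit 13) (nat_lit 4) (nat_lit 279) (nat_lit 251) (nat_lit 190)) (XT.lf (nat_lit 0) (nat_lit 17008257421) (nat_lit 76) (nat_lit 15648906952) (nat_lit 152) (nat_lit 7958929809) (nat_lit 11) (nat_lit 5) (nat_lit 12) (nat_lit 5) (nat_lit 13) (nat_lit 4) (nat_lit 280) (nat_lit 251) (nat_lit 189))))) (XT.nd (nat_lit 234) (nat_lit 76) (nat_lit 0) (XT.nd (nat_lit 78) (nat_lit 228) (nat_lit 0) (XT.lf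 (nat_lit 0) (nat_lit 32004245552) (nat_lit 76) (nat_lit 7878013089) (nat_lit 152) (nat_lit 3278449144) (nat_lit 11) (nat_lit 5) (nat_lit 12) (nat_lit 5) (nat_lit 13) (nat_lit 4) (nat_lit 281) (nat_lit 251) (nat_lit 188)) (XT.nd (nat_lit 78) (nat_lit 0) (nat_lit 0) (XT.lf (nat_lit 0) (nat_lit 1748486801) (nat_lit 228) (nat_lit 43567475781) (nat_lit 76) (nat_lit 584673825) (nat_lit 8) (nat_lit 5) (nat_lit 11) (nat_lit 5) (nat_lit 9) (nat_lit 4) (nat_lit 282) (nat_lit 251) (nat_lit 187)) (XT.lf (nat_lit 0) (nat_lit 7507856158) (nat_lit 228) (nat_lit 31613555226) (nat_lit 76) (nat_lit 9690975528) (nat_lit 8) (nat_lit 5) (nat_lit 11) (nat_lit 5) (nat_lit 9) (nat_lit 4) (nat_lit 283) (nat_lit 251) (nat_lit 186)))) (XT.nd (nat_lit 78) (nat_lit 76) (nat_lit 0) (XT.lf (nat_lit 0) (nat_lit 13718545180) (nat_lit 228) (nat_lit 18718995861) (nat_lit 76) (nat_lit 19520320390) (nat_lit 8) (nat_lit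 5) (nat_lit 11) (nat_lit 5) (nat_lit 9) (nat_lit 4) (nat_lit 284) (nat_lit 251) (nat_lit 185)) (XT.nd (nat_lit 78) (nat_lit 76) (nat_lit 0) (XT.lf (nat_lit 0) (nat_lit 20417357951) (nat_lit 228) (nat_lit 4807385484) (nat_lit 76) (nat_lit 30130956378) (nat_lit 8) (nat_lit 5) (nat_lit 11) (nat_lit 5) (nat_lit 9) (nat_lit 4) (nat_lit 285) (nat_lit 251) (nat_lit 184)) (XT.lf (nat_lit 0) (nat_lit 10741024632) (nat_lit 76) (nat_lit 17161288409) (nat_lit 152) (nat_lit 31103058606) (nat_lit 7) (nat_lit 5) (nat_lit 8) (nat_lit 5) (nat_lit 9) (nat_lit 4) (nat_lit 286) (nat_lit 251) (nat_lit 183))))))))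
noncomputable def xc71 : XT := (XT.nd (nat_lit 1872) (nat_lit 152) (nat_lit 0) (XT.nd (nat_lit 936) (nat_lit 76) (nat_lit 0) (XT.nd (nat_lit 468) (nat_lit 76) (nat_lit 0) (XT.nd (nat_lit 234) (nat_lit 152) (nat_lit 0) (XT.nd (nat_lit 78) (nat_lit 0) (nat_lit 0) (XT.lf (nat_lit 0) (nat_lit 27793609404) (nat_lit 76) (nat_lit 8316096809) (nat_lit 152) (nat_lit 26827443163) (nat_lit 7) (nat_lit 5) (nat_lit 8) (nat_lit 5) (nat_lit 9) (nat_lit 4) (nat_lit 287) (nat_lit 251) (nat_lit 182)) (XT.nd (nat_lit 78) (nat_lit 0) (nat_lit 0) (XT.lf (nat_lit 0) (nat_lit 44996092849) (nat_lit 152) (nat_lit 21015421055) (nat_lit 0) (nat_lit 1170185005) (nat_lit 7) (nat_lit 5) (nat_lit 9) (nat_lit 4) (nat_lit 7) (nat_lit 4) (nat_lit 288) (nat_lit 251) (nat_lit 181)) (XT.lf (nat_lit 0) (nat_lit 54802595801) (nat_lit 152) (nat_lit 5984730860) (nat_lit 0) (nat_lit 10961769446) (nat_lit 7) (nat_lit 5) (nat_lit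 9) (nat_lit 4) (nat_lit 7) (nat_lit 4) (nat_lit 289) (nat_lit 251) (nat_lit 180)))) (XT.nd (nat_lit 78) (nat_lit 76) (nat_lit 0) (XT.lf (nat_lit 0) (nat_lit 10776697764) (nat_lit 76) (nat_lit 54869807427) (nat_lit 76) (nat_lit 11015167636) (nat_lit 6) (nat_lit 4) (nat_lit 7) (nat_lit 5) (nat_lit 7) (nat_lit 4) (nat_lit 290) (nat_lit 251) (nat_lit 179)) (XT.nd (nat_lit 78) (nat_lit 76) (nat_lit 0) (XT.lf (nat_lit 0) (nat_lit 29208860465) (nat_lit 76) (nat_lit 48306619154) (nat_lit 76) (nat_lit 4439189144) (nat_lit 6) (nat_lit 4) (nat_lit 7) (nat_lit 5) (nat_lit 7) (nat_lit 4) (nat_lit 291) (nat_lit 251) (nat_lit 178)) (XT.lf (nat_lit 0) (nat_lit 2523868346) (nat_lit 152) (nat_lit 38629626643) (nat_lit 76) (nat_lit 46512964171) (nat_lit 5) (nat_lit 5) (nat_lit 7) (nat_lit 5) (nat_lit 6) (nat_lit 4) (nat_lit 292) (nat_lit 251) (nat_lit 177))))) (XT.nd (nat_lit 234) (nat_lit 0) (nat_lit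 0) (XT.nd (nat_lit 78) (nat_lit 76) (nat_lit 0) (XT.lf (nat_lit 0) (nat_lit 9798776090) (nat_lit 152) (nat_lit 23508784086) (nat_lit 76) (nat_lit 60518851053) (nat_lit 5) (nat_lit 5) (nat_lit 7) (nat_lit 5) (nat_lit 6) (nat_lit 4) (nat_lit 293) (nat_lit 251) (nat_lit 176)) (XT.nd (nat_lit 78) (nat_lit 76) (nat_lit 0) (XT.lf (nat_lit 0) (nat_lit 17650710871) (nat_lit 152) (nat_lit 7186913030) (nat_lit 76) (nat_lit 75641945497) (nat_lit 5) (nat_lit 5) (nat_lit 7) (nat_lit 5) (nat_lit 6) (nat_lit 4) (nat_lit 294) (nat_lit 251) (nat_lit 175)) (XT.lf (nat_lit 0) (nat_lit 10982076678) (nat_lit 76) (nat_lit 15408245203) (nat_lit 152) (nat_lit 81253908372) (nat_lit 4) (nat_lit 5) (nat_lit 5) (nat_lit 5) (nat_lit 6) (nat_lit 4) (nat_lit 295) (nat_lit 251) (nat_lit 174)))) (XT.nd (nat_lit 78) (nat_lit 0) (nat_lit 0) (XT.lf (nat_lit 0) (nat_lit 31005515194) (nat_lit 76) (nat_lit 5015644823) (nat_lit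 152) (nat_lit 79345550176) (nat_lit 4) (nat_lit 5) (nat_lit 5) (nat_lit 5) (nat_lit 6) (nat_lit 4) (nat_lit 296) (nat_lit 251) (nat_lit 173)) (XT.nd (nat_lit 78) (nat_lit 0) (nat_lit 0) (XT.lf (nat_lit 0) (nat_lit 46567586404) (nat_lit 152) (nat_lit 71232954664) (nat_lit 0) (nat_lit 5894847838) (nat_lit 4) (nat_lit 5) (nat_lit 6) (nat_lit 4) (nat_lit 4) (nat_lit 4) (nat_lit 297) (nat_lit 251) (nat_lit 172)) (XT.lf (nat_lit 0) (nat_lit 58084123672) (nat_lit 152) (nat_lit 57191660879) (nat_lit 0) (nat_lit 17404474949) (nat_lit 4) (nat_lit 5) (nat_lit 6) (nat_lit 4) (nat_lit 4) (nat_lit 4) (nat_lit 298) (nat_lit 251) (nat_lit 171)))))) (XT.nd (nat_lit 468) (nat_lit 0) (nat_lit 0) (XT.nd (nat_lit 234) (nat_lit 76) (nat_lit 0) (XT.nd (nat_lit 78) (nat_lit 0) (nat_lit 0) (XT.lf (nat_lit 0) (nat_lit 70518391590) (nat_lit 152) (nat_lit 42033479600) (nat_lit 0) (nat_lit 29832344574) (nat_lit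 4) (nat_lit 5) (nat_lit 6) (nat_lit 4) (nat_lit 4) (nat_lit 4) (nat_lit 299) (nat_lit 251) (nat_lit 170)) (XT.nd (nat_lit 78) (nat_lit 0) (nat_lit 0) (XT.lf (nat_lit 0) (nat_lit 83944074709) (nat_lit 152) (nat_lit 25668584567) (nat_lit 0) (nat_lit 43252103346) (nat_lit 4) (nat_lit 5) (nat_lit 6) (nat_lit 4) (nat_lit 4) (nat_lit 4) (nat_lit 300) (nat_lit 251) (nat_lit 169)) (XT.lf (nat_lit 0) (nat_lit 98440732632) (nat_lit 152) (nat_lit 7999998624) (nat_lit 0) (nat_lit 57743275764) (nat_lit 4) (nat_lit 5) (nat_lit 6) (nat_lit 4) (nat_lit 4) (nat_lit 4) (nat_lit 301) (nat_lit 251) (nat_lit 168)))) (XT.nd (nat_lit 78) (nat_lit 0) (nat_lit 0) (XT.lf (nat_lit 0) (nat_lit 11660275146) (nat_lit 76) (nat_lit 102714426231) (nat_lit 76) (nat_lit 62011890191) (nat_lit 3) (nat_lit 4) (nat_lit 4) (nat_lit 5) (nat_lit 4) (nat_lit 4) (nat_lit 302) (nat_lit 251) (nat_lit 167)) (XT.nd (nat_lit 78)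 (nat_lit 0) (nat_lit 0) (XT.lf (nat_lit 0) (nat_lit 33343373538) (nat_lit 76) (nat_lit 98455988363) (nat_lit 76) (nat_lit 57748749386) (nat_lit 3) (nat_lit 4) (nat_lit 4) (nat_lit 5) (nat_lit 4) (nat_lit 4) (nat_lit 303) (nat_lit 251) (nat_lit 166)) (XT.lf (nat_lit 0) (nat_lit 56756523235) (nat_lit 76) (nat_lit 93858916604) (nat_lit 76) (nat_lit 53147323056) (nat_lit 3) (nat_lit 4) (nat_lit 4) (nat_lit 5) (nat_lit 4) (nat_lit 4) (nat_lit 304) (nat_lit 251) (nat_lit 165))))) (XT.nd (nat_lit 234) (nat_lit 0) (nat_lit 0) (XT.nd (nat_lit 78) (nat_lit 0) (nat_lit 0) (XT.lf (nat_lit 0) (nat_lit 82038468827) (nat_lit 76) (nat_lit 88895969047) (nat_lit 76) (nat_lit 48180343489) (nat_lit 3) (nat_lit 4) (nat_lit 4) (nat_lit 5) (nat_lit 4) (nat_lit 4) (nat_lit 305) (nat_lit 251) (nat_lit 164)) (XT.nd (nat_lit 78) (nat_lit 0) (nat_lit 0) (XT.lf (nat_lit 0) (nat_lit 109339029252) (nat_lit 76) (nat_lit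 83537735632) (nat_lit 76) (nat_lit 42818376731) (nat_lit 3) (nat_lit 4) (nat_lit 4) (nat_lit 5) (nat_lit 4) (nat_lit 4) (nat_lit 306) (nat_lit 251) (nat_lit 163)) (XT.lf (nat_lit 0) (nat_lit 138819985608) (nat_lit 76) (nat_lit 77752463866) (nat_lit 76) (nat_lit 37029648166) (nat_lit 3) (nat_lit 4) (nat_lit 4) (nat_lit 5) (nat_lit 4) (nat_lit 4) (nat_lit 307) (nat_lit 251) (nat_lit 162)))) (XT.nd (nat_lit 78) (nat_lit 0) (nat_lit 0) (XT.lf (nat_lit 0) (nat_lit 170656039860) (nat_lit 76) (nat_lit 71505870657) (nat_lit 76) (nat_lit 30779854217) (nat_lit 3) (nat_lit 4) (nat_lit 4) (nat_lit 5) (nat_lit 4) (nat_lit 4) (nat_lit 308) (nat_lit 251) (nat_lit 161)) (XT.nd (nat_lit 78) (nat_lit 0) (nat_lit 0) (XT.lf (nat_lit 0) (nat_lit 205035850106) (nat_lit 76) (nat_lit 64760939155) (nat_lit 76) (nat_lit 24031959067) (nat_lit 3) (nat_lit 4) (nat_lit 4) (nat_lit 5) (nat_lit 4) (nat_lit 4) (nat_lit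 309) (nat_lit 251) (nat_lit 160)) (XT.lf (nat_lit 0) (nat_lit 242163148555) (nat_lit 76) (nat_lit 57477699396) (nat_lit 76) (nat_lit 16745975190) (nat_lit 3) (nat_lit 4) (nat_lit 4) (nat_lit 5) (nat_lit 4) (nat_lit 4) (nat_lit 310) (nat_lit 251) (nat_lit 159))))))) (XT.nd (nat_lit 936) (nat_lit 0) (nat_lit 0) (XT.nd (nat_lit 468) (nat_lit 0) (nat_lit 0) (XT.nd (nat_lit 234) (nat_lit 76) (nat_lit 0) (XT.nd (nat_lit 78) (nat_lit 76) (nat_lit 0) (XT.lf (nat_lit 0) (nat_lit 282257948827) (nat_lit 76) (nat_lit 49612991442) (nat_lit 76) (nat_lit 8878726385) (nat_lit 3) (nat_lit 4) (nat_lit 4) (nat_lit 5) (nat_lit 4) (nat_lit 4) (nat_lit 311) (nat_lit 251) (nat_lit 158)) (XT.nd (nat_lit 78) (nat_lit 76) (nat_lit 0) (XT.lf (nat_lit 0) (nat_lit 325557849740) (nat_lit 76) (nat_lit 41120209614) (nat_lit 76) (nat_lit 383591918) (nat_lit 3) (nat_lit 4) (nat_lit 4) (nat_lit 5) (nat_lit 4) (nat_lit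 4) (nat_lit 312) (nat_lit 251) (nat_lit 157)) (XT.lf (nat_lit 0) (nat_lit 8350069865) (nat_lit 152) (nat_lit 23370650745) (nat_lit 76) (nat_lit 363741067725) (nat_lit 2) (nat_lit 5) (nat_lit 4) (nat_lit 5) (nat_lit 3) (nat_lit 4) (nat_lit 313) (nat_lit 251) (nat_lit 156)))) (XT.nd (nat_lit 78) (nat_lit 76) (nat_lit 0) (XT.lf (nat_lit 0) (nat_lit 17760483677) (nat_lit 152) (nat_lit 3799007025) (nat_lit 76) (nat_lit 404573748465) (nat_lit 2) (nat_lit 5) (nat_lit 4) (nat_lit 5) (nat_lit 3) (nat_lit 4) (nat_lit 314) (nat_lit 251) (nat_lit 155)) (XT.nd (nat_lit 78) (nat_lit 0) (nat_lit 0) (XT.lf (nat_lit 0) (nat_lit 18249235818) (nat_lit 76) (nat_lit 10112262496) (nat_lit 152) (nat_lit 430861888669) (nat_lit 1) (nat_lit 5) (nat_lit 2) (nat_lit 5) (nat_lit 3) (nat_lit 4) (nat_lit 315) (nat_lit 251) (nat_lit 154)) (XT.lf (nat_lit 0) (nat_lit 39970181669) (nat_lit 152) (nat_lit 452733923937)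 (nat_lit 0) (nat_lit 2243876173) (nat_lit 1) (nat_lit 5) (nat_lit 3) (nat_lit 4) (nat_lit 1) (nat_lit 4) (nat_lit 316) (nat_lit 251) (nat_lit 153))))) (XT.nd (nat_lit 234) (nat_lit 0) (nat_lit 0) (XT.nd (nat_lit 78) (nat_lit 0) (nat_lit 0) (XT.lf (nat_lit 0) (nat_lit 52769185819) (nat_lit 152) (nat_lit 465699032492) (nat_lit 0) (nat_lit 15041397762) (nat_lit 1) (nat_lit 5) (nat_lit 3) (nat_lit 4) (nat_lit 1) (nat_lit 4) (nat_lit 317) (nat_lit 251) (nat_lit 152)) (XT.nd (nat_lit 78) (nat_lit 0) (nat_lit 0) (XT.lf (nat_lit 0) (nat_lit 66591156558) (nat_lit 152) (nat_lit 479703106945) (nat_lit 0) (nat_lit 28861995758) (nat_lit 1) (nat_lit 5) (nat_lit 3) (nat_lit 4) (nat_lit 1) (nat_lit 4) (nat_lit 318) (nat_lit 251) (nat_lit 151)) (XT.lf (nat_lit 0) (nat_lit 81518001860) (nat_lit 152) (nat_lit 494829134404) (nat_lit 0) (nat_lit 43787570002) (nat_lit 1) (nat_lit 5) (nat_lit 3) (nat_lit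 4) (nat_lit 1) (nat_lit 4) (nat_lit 319) (nat_lit 251) (nat_lit 150)))) (XT.nd (nat_lit 78) (nat_lit 0) (nat_lit 0) (XT.lf (nat_lit 0) (nat_lit 97638177105) (nat_lit 152) (nat_lit 511166750589) (nat_lit 0) (nat_lit 59906568341) (nat_lit 1) (nat_lit 5) (nat_lit 3) (nat_lit 4) (nat_lit 1) (nat_lit 4) (nat_lit 320) (nat_lit 251) (nat_lit 149)) (XT.nd (nat_lit 78) (nat_lit 0) (nat_lit 0) (XT.lf (nat_lit 0) (nat_lit 115047209257) (nat_lit 152) (nat_lit 528812771003) (nat_lit 0) (nat_lit 77314510766) (nat_lit 1) (nat_lit 5) (nat_lit 3) (nat_lit 4) (nat_lit 1) (nat_lit 4) (nat_lit 321) (nat_lit 251) (nat_lit 148)) (XT.lf (nat_lit 0) (nat_lit 133848262951) (nat_lit 152) (nat_lit 547871764654) (nat_lit 0) (nat_lit 96114555454) (nat_lit 1) (nat_lit 5) (nat_lit 3) (nat_lit 4) (nat_lit 1) (nat_lit 4) (nat_lit 322) (nat_lit 251) (nat_lit 147)))))) (XT.nd (nat_lit 468) (nat_lit 0) (nat_lit 0) (XT.nd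 (nat_lit 234) (nat_lit 0) (nat_lit 0) (XT.nd (nat_lit 78) (nat_lit 0) (nat_lit 0) (XT.lf (nat_lit 0) (nat_lit 154152751840) (nat_lit 152) (nat_lit 568456673728) (nat_lit 0) (nat_lit 116418110077) (nat_lit 1) (nat_lit 5) (nat_lit 3) (nat_lit 4) (nat_lit 1) (nat_lit 4) (nat_lit 323) (nat_lit 251) (nat_lit 146)) (XT.nd (nat_lit 78) (nat_lit 0) (nat_lit 0) (XT.lf (nat_lit 0) (nat_lit 176080998819) (nat_lit 152) (nat_lit 590689482872) (nat_lit 0) (nat_lit 138345491996) (nat_lit 1) (nat_lit 5) (nat_lit 3) (nat_lit 4) (nat_lit 1) (nat_lit 4) (nat_lit 324) (nat_lit 251) (nat_lit 145)) (XT.lf (nat_lit 0) (nat_lit 199762949057) (nat_lit 152) (nat_lit 614701942065) (nat_lit 0) (nat_lit 162026641251) (nat_lit 1) (nat_lit 5) (nat_lit 3) (nat_lit 4) (nat_lit 1) (nat_lit 4) (nat_lit 325) (nat_lit 251) (nat_lit 144)))) (XT.nd (nat_lit 78) (nat_lit 0) (nat_lit 0) (XT.lf (nat_lit 0) (nat_lit 225338940035)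 (nat_lit 152) (nat_lit 640636347361) (nat_lit 0) (nat_lit 187601890580) (nat_lit 1) (nat_lit 5) (nat_lit 3) (nat_lit 4) (nat_lit 1) (nat_lit 4) (nat_lit 326) (nat_lit 251) (nat_lit 143)) (XT.nd (nat_lit 78) (nat_lit 0) (nat_lit 0) (XT.lf (nat_lit 0) (nat_lit 252960533183) (nat_lit 152) (nat_lit 668646384126) (nat_lit 0) (nat_lit 215222797015) (nat_lit 1) (nat_lit 5) (nat_lit 3) (nat_lit 4) (nat_lit 1) (nat_lit 4) (nat_lit 327) (nat_lit 251) (nat_lit 142)) (XT.lf (nat_lit 0) (nat_lit 282791412015) (nat_lit 152) (nat_lit 698898037763) (nat_lit 0) (nat_lit 245053040001) (nat_lit 1) (nat_lit 5) (nat_lit 3) (nat_lit 4) (nat_lit 1) (nat_lit 4) (nat_lit 328) (nat_lit 251) (nat_lit 141))))) (XT.nd (nat_lit 234) (nat_lit 0) (nat_lit 0) (XT.nd (nat_lit 78) (nat_lit 0) (nat_lit 0) (XT.lf (nat_lit 0) (nat_lit 315008352109) (nat_lit 152) (nat_lit 731570577330) (nat_lit 0) (nat_lit 277269391350)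 (nat_lit 1) (nat_lit 5) (nat_lit 3) (nat_lit 4) (nat_lit 1) (nat_lit 4) (nat_lit 329) (nat_lit 251) (nat_lit 140)) (XT.nd (nat_lit 78) (nat_lit 0) (nat_lit 0) (XT.lf (nat_lit 0) (nat_lit 349802268667) (nat_lit 152) (nat_lit 766857617876) (nat_lit 0) (nat_lit 312062762772) (nat_lit 1) (nat_lit 5) (nat_lit 3) (nat_lit 4) (nat_lit 1) (nat_lit 4) (nat_lit 330) (nat_lit 251) (nat_lit 139)) (XT.lf (nat_lit 0) (nat_lit 387379347859) (nat_lit 152) (nat_lit 804968267790) (nat_lit 0) (nat_lit 349639337210) (nat_lit 1) (nat_lit 5) (nat_lit 3) (nat_lit 4) (nat_lit 1) (nat_lit 4) (nat_lit 331) (nat_lit 251) (nat_lit 138)))) (XT.nd (nat_lit 156) (nat_lit 0) (nat_lit 0) (XT.nd (nat_lit 78) (nat_lit 0) (nat_lit 0) (XT.lf (nat_lit 0) (nat_lit 427962268674) (nat_lit 152) (nat_lit 846128367960) (nat_lit 0) (nat_lit 390221790660) (nat_lit 1) (nat_lit 5) (nat_lit 3) (nat_lit 4) (nat_lit 1) (nat_lit 4)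 (nat_lit 332) (nat_lit 251) (nat_lit 137)) (XT.lf (nat_lit 0) (nat_lit 471791522495) (nat_lit 152) (nat_lit 890581830092) (nat_lit 0) (nat_lit 434050611735) (nat_lit 1) (nat_lit 5) (nat_lit 3) (nat_lit 4) (nat_lit 1) (nat_lit 4) (nat_lit 333) (nat_lit 251) (nat_lit 136))) (XT.nd (nat_lit 78) (nat_lit 0) (nat_lit 0) (XT.lf (nat_lit 0) (nat_lit 519126838233) (nat_lit 152) (nat_lit 938592082108) (nat_lit 0) (nat_lit 481385526783) (nat_lit 1) (nat_lit 5) (nat_lit 3) (nat_lit 4) (nat_lit 1) (nat_lit 4) (nat_lit 334) (nat_lit 251) (nat_lit 135)) (XT.lf (nat_lit 0) (nat_lit 570248721462) (nat_lit 152) (nat_lit 990443629205) (nat_lit 0) (nat_lit 532507039002) (nat_lit 1) (nat_lit 5) (nat_lit 3) (nat_lit 4) (nat_lit 1) (nat_lit 4) (nat_lit 335) (nat_lit 251) (nat_lit 134))))))))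
noncomputable def xc72 : XT := (XT.nd (nat_lit 1872) (nat_lit 760) (nat_lit 0) (XT.nd (nat_lit 936) (nat_lit 912) (nat_lit 0) (XT.nd (nat_lit 468) (nat_lit 608) (nat_lit 0) (XT.nd (nat_lit 234) (nat_lit 380) (nat_lit 0) (XT.nd (nat_lit 78) (nat_lit 0) (nat_lit 0) (XT.lf (nat_lit 0) (nat_lit 2111723779) (nat_lit 0) (nat_lit 2111723779) (nat_lit 380) (nat_lit 1155029486) (nat_lit 39) (nat_lit 5) (nat_lit 39) (nat_lit 3) (nat_lit 44) (nat_lit 3) (nat_lit 252) (nat_lit 252) (nat_lit 216)) (XT.nd (nat_lit 78) (nat_lit 0) (nat_lit 0) (XT.lf (nat_lit 0) (nat_lit 9087153955) (nat_lit 0) (nat_lit 217693900) (nat_lit 380) (nat_lit 1837030020) (nat_lit 39) (nat_lit 5) (nat_lit 39) (nat_lit 3) (nat_lit 44) (nat_lit 3) (nat_lit 253) (nat_lit 252) (nat_lit 215)) (XT.lf (nat_lit 76) (nat_lit 2792040815) (nat_lit 0) (nat_lit 7553947637) (nat_lit 456) (nat_lit 1202817982) (nat_lit 40) (nat_lit 5) (nat_lit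 39) (nat_lit 5) (nat_lit 45) (nat_lit 5) (nat_lit 254) (nat_lit 252) (nat_lit 214)))) (XT.nd (nat_lit 78) (nat_lit 380) (nat_lit 0) (XT.lf (nat_lit 76) (nat_lit 8107058253) (nat_lit 0) (nat_lit 3376723098) (nat_lit 456) (nat_lit 503786266) (nat_lit 40) (nat_lit 5) (nat_lit 39) (nat_lit 5) (nat_lit 45) (nat_lit 5) (nat_lit 255) (nat_lit 252) (nat_lit 213)) (XT.nd (nat_lit 78) (nat_lit 0) (nat_lit 0) (XT.lf (nat_lit 0) (nat_lit 255238179) (nat_lit 456) (nat_lit 11070942845) (nat_lit 532) (nat_lit 1133732343) (nat_lit 34) (nat_lit 5) (nat_lit 40) (nat_lit 5) (nat_lit 41) (nat_lit 5) (nat_lit 256) (nat_lit 252) (nat_lit 212)) (XT.lf (nat_lit 0) (nat_lit 1201135096) (nat_lit 456) (nat_lit 5798579366) (nat_lit 532) (nat_lit 5957291679) (nat_lit 34) (nat_lit 5) (nat_lit 40) (nat_lit 5) (nat_lit 41) (nat_lit 5) (nat_lit 257) (nat_lit 252) (nat_lit 211))))) (XT.nd (nat_lit 234) (nat_lit 608)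 (nat_lit 0) (XT.nd (nat_lit 78) (nat_lit 0) (nat_lit 76) (XT.lf (nat_lit 0) (nat_lit 2182708506) (nat_lit 456) (nat_lit 136064867) (nat_lit 532) (nat_lit 11178547806) (nat_lit 34) (nat_lit 5) (nat_lit 40) (nat_lit 5) (nat_lit 41) (nat_lit 5) (nat_lit 258) (nat_lit 252) (nat_lit 210)) (XT.nd (nat_lit 78) (nat_lit 0) (nat_lit 0) (XT.lf (nat_lit 0) (nat_lit 3426327088) (nat_lit 456) (nat_lit 7878443497) (nat_lit 76) (nat_lit 2761645606) (nat_lit 35) (nat_lit 5) (nat_lit 41) (nat_lit 5) (nat_lit 36) (nat_lit 5) (nat_lit 259) (nat_lit 252) (nat_lit 209)) (XT.lf (nat_lit 0) (nat_lit 4798658216) (nat_lit 456) (nat_lit 1747118553) (nat_lit 76) (nat_lit 8133143001) (nat_lit 35) (nat_lit 5) (nat_lit 41) (nat_lit 5) (nat_lit 36) (nat_lit 5) (nat_lit 260) (nat_lit 252) (nat_lit 208)))) (XT.nd (nat_lit 78) (nat_lit 228) (nat_lit 0) (XT.lf (nat_lit 0) (nat_lit 5100484994) (nat_lit 456) (nat_lit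 1270715306) (nat_lit 532) (nat_lit 8962191979) (nat_lit 29) (nat_lit 5) (nat_lit 35) (nat_lit 5) (nat_lit 36) (nat_lit 5) (nat_lit 261) (nat_lit 252) (nat_lit 207)) (XT.nd (nat_lit 78) (nat_lit 228) (nat_lit 0) (XT.lf (nat_lit 0) (nat_lit 8194513096) (nat_lit 532) (nat_lit 3580146285) (nat_lit 76) (nat_lit 4255753417) (nat_lit 29) (nat_lit 5) (nat_lit 36) (nat_lit 5) (nat_lit 30) (nat_lit 5) (nat_lit 262) (nat_lit 252) (nat_lit 206)) (XT.lf (nat_lit 0) (nat_lit 3729401204) (nat_lit 228) (nat_lit 6528749912) (nat_lit 304) (nat_lit 6517660725) (nat_lit 26) (nat_lit 5) (nat_lit 29) (nat_lit 5) (nat_lit 30) (nat_lit 5) (nat_lit 263) (nat_lit 252) (nat_lit 205)))))) (XT.nd (nat_lit 468) (nat_lit 456) (nat_lit 0) (XT.nd (nat_lit 234) (nat_lit 304) (nat_lit 0) (XT.nd (nat_lit 78) (nat_lit 152) (nat_lit 0) (XT.lf (nat_lit 0) (nat_lit 11799063921) (nat_lit 228) (nat_lit 758878368) (nat_lit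 304) (nat_lit 5017376381) (nat_lit 26) (nat_lit 5) (nat_lit 29) (nat_lit 5) (nat_lit 30) (nat_lit 5) (nat_lit 264) (nat_lit 252) (nat_lit 204)) (XT.nd (nat_lit 78) (nat_lit 0) (nat_lit 0) (XT.lf (nat_lit 0) (nat_lit 2016505758) (nat_lit 152) (nat_lit 13180453571) (nat_lit 228) (nat_lit 3229556230) (nat_lit 24) (nat_lit 5) (nat_lit 26) (nat_lit 5) (nat_lit 27) (nat_lit 5) (nat_lit 265) (nat_lit 252) (nat_lit 203)) (XT.lf (nat_lit 0) (nat_lit 10712888458) (nat_lit 152) (nat_lit 7487663886) (nat_lit 228) (nat_lit 1133117372) (nat_lit 24) (nat_lit 5) (nat_lit 26) (nat_lit 5) (nat_lit 27) (nat_lit 5) (nat_lit 266) (nat_lit 252) (nat_lit 202)))) (XT.nd (nat_lit 78) (nat_lit 228) (nat_lit 0) (XT.lf (nat_lit 0) (nat_lit 1051830832) (nat_lit 228) (nat_lit 262435123) (nat_lit 76) (nat_lit 18998882490) (nat_lit 23) (nat_lit 5) (nat_lit 26) (nat_lit 5) (nat_lit 24) (nat_lit 5) (nat_lit 267) (nat_lit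 252) (nat_lit 201)) (XT.nd (nat_lit 78) (nat_lit 0) (nat_lit 0) (XT.lf (nat_lit 0) (nat_lit 3685059350) (nat_lit 304) (nat_lit 12318929741) (nat_lit 76) (nat_lit 5337975134) (nat_lit 20) (nat_lit 5) (nat_lit 24) (nat_lit 5) (nat_lit 21) (nat_lit 5) (nat_lit 268) (nat_lit 252) (nat_lit 200)) (XT.lf (nat_lit 0) (nat_lit 6550362299) (nat_lit 304) (nat_lit 3446370011) (nat_lit 76) (nat_lit 12454741016) (nat_lit 20) (nat_lit 5) (nat_lit 24) (nat_lit 5) (nat_lit 21) (nat_lit 5) (nat_lit 269) (nat_lit 252) (nat_lit 199))))) (XT.nd (nat_lit 234) (nat_lit 152) (nat_lit 0) (XT.nd (nat_lit 78) (nat_lit 152) (nat_lit 0) (XT.lf (nat_lit 0) (nat_lit 6433956109) (nat_lit 152) (nat_lit 3347075320) (nat_lit 228) (nat_lit 13857914216) (nat_lit 18) (nat_lit 5) (nat_lit 20) (nat_lit 5) (nat_lit 21) (nat_lit 5) (nat_lit 270) (nat_lit 252) (nat_lit 198)) (XT.nd (nat_lit 78) (nat_lit 152) (nat_lit 0) (XT.lf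 (nat_lit 0) (nat_lit 13441142630) (nat_lit 228) (nat_lit 7732502281) (nat_lit 76) (nat_lit 3734178645) (nat_lit 18) (nat_lit 5) (nat_lit 21) (nat_lit 5) (nat_lit 19) (nat_lit 5) (nat_lit 271) (nat_lit 252) (nat_lit 197)) (XT.lf (nat_lit 0) (nat_lit 2513759524) (nat_lit 152) (nat_lit 15011112894) (nat_lit 228) (nat_lit 8742954966) (nat_lit 16) (nat_lit 5) (nat_lit 18) (nat_lit 5) (nat_lit 19) (nat_lit 5) (nat_lit 272) (nat_lit 252) (nat_lit 196)))) (XT.nd (nat_lit 78) (nat_lit 152) (nat_lit 0) (XT.lf (nat_lit 0) (nat_lit 13997218814) (nat_lit 152) (nat_lit 8133611878) (nat_lit 228) (nat_lit 5590232913) (nat_lit 16) (nat_lit 5) (nat_lit 18) (nat_lit 5) (nat_lit 19) (nat_lit 5) (nat_lit 273) (nat_lit 252) (nat_lit 195)) (XT.nd (nat_lit 78) (nat_lit 152) (nat_lit 0) (XT.lf (nat_lit 0) (nat_lit 26378745851) (nat_lit 152) (nat_lit 711806617) (nat_lit 228) (nat_lit 2201252287) (nat_lit 16)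 (nat_lit 5) (nat_lit 18) (nat_lit 5) (nat_lit 19) (nat_lit 5) (nat_lit 274) (nat_lit 252) (nat_lit 194)) (XT.lf (nat_lit 0) (nat_lit 1774429569) (nat_lit 152) (nat_lit 21984944857) (nat_lit 76) (nat_lit 7194998268) (nat_lit 14) (nat_lit 5) (nat_lit 16) (nat_lit 5) (nat_lit 15) (nat_lit 5) (nat_lit 275) (nat_lit 252) (nat_lit 193))))))) (XT.nd (nat_lit 936) (nat_lit 228) (nat_lit 0) (XT.nd (nat_lit 468) (nat_lit 304) (nat_lit 0) (XT.nd (nat_lit 234) (nat_lit 76) (nat_lit 0) (XT.nd (nat_lit 78) (nat_lit 152) (nat_lit 0) (XT.lf (nat_lit 0) (nat_lit 6035840406) (nat_lit 152) (nat_lit 10873492204) (nat_lit 76) (nat_lit 15829166246) (nat_lit 14) (nat_lit 5) (nat_lit 16) (nat_lit 5) (nat_lit 15) (nat_lit 5) (nat_lit 276) (nat_lit 252) (nat_lit 192)) (XT.nd (nat_lit 78) (nat_lit 0) (nat_lit 0) (XT.lf (nat_lit 0) (nat_lit 1166364512) (nat_lit 152) (nat_lit 9487252331) (nat_lit 228) (nat_lit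 24010552750) (nat_lit 12) (nat_lit 5) (nat_lit 14) (nat_lit 5) (nat_lit 15) (nat_lit 5) (nat_lit 277) (nat_lit 252) (nat_lit 191)) (XT.lf (nat_lit 0) (nat_lit 14769413906) (nat_lit 152) (nat_lit 1156594825) (nat_lit 228) (nat_lit 20795116737) (nat_lit 12) (nat_lit 5) (nat_lit 14) (nat_lit 5) (nat_lit 15) (nat_lit 5) (nat_lit 278) (nat_lit 252) (nat_lit 190)))) (XT.nd (nat_lit 78) (nat_lit 76) (nat_lit 0) (XT.lf (nat_lit 0) (nat_lit 21797406462) (nat_lit 228) (nat_lit 9688315174) (nat_lit 76) (nat_lit 7442782485) (nat_lit 12) (nat_lit 5) (nat_lit 15) (nat_lit 5) (nat_lit 13) (nat_lit 4) (nat_lit 279) (nat_lit 252) (nat_lit 189)) (XT.nd (nat_lit 78) (nat_lit 0) (nat_lit 0) (XT.lf (nat_lit 0) (nat_lit 3694421390) (nat_lit 76) (nat_lit 24552477625) (nat_lit 152) (nat_lit 13056943660) (nat_lit 11) (nat_lit 5) (nat_lit 12) (nat_lit 5) (nat_lit 13) (nat_lit 4) (nat_lit 280) (nat_lit 252)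 (nat_lit 188)) (XT.lf (nat_lit 0) (nat_lit 18682677643) (nat_lit 76) (nat_lit 16784451384) (nat_lit 152) (nat_lit 8381734309) (nat_lit 11) (nat_lit 5) (nat_lit 12) (nat_lit 5) (nat_lit 13) (nat_lit 4) (nat_lit 281) (nat_lit 252) (nat_lit 187))))) (XT.nd (nat_lit 234) (nat_lit 76) (nat_lit 0) (XT.nd (nat_lit 78) (nat_lit 228) (nat_lit 0) (XT.lf (nat_lit 0) (nat_lit 34855103370) (nat_lit 76) (nat_lit 8400505873) (nat_lit 152) (nat_lit 3342660367) (nat_lit 11) (nat_lit 5) (nat_lit 12) (nat_lit 5) (nat_lit 13) (nat_lit 4) (nat_lit 282) (nat_lit 252) (nat_lit 186)) (XT.nd (nat_lit 78) (nat_lit 0) (nat_lit 0) (XT.lf (nat_lit 0) (nat_lit 2072339127) (nat_lit 228) (nat_lit 46747063841) (nat_lit 76) (nat_lit 737989318) (nat_lit 8) (nat_lit 5) (nat_lit 11) (nat_lit 5) (nat_lit 9) (nat_lit 4) (nat_lit 283) (nat_lit 252) (nat_lit 185)) (XT.lf (nat_lit 0) (nat_lit 8278830374) (nat_lit 228) (nat_lit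 33859482234) (nat_lit 76) (nat_lit 10564903188) (nat_lit 8) (nat_lit 5) (nat_lit 11) (nat_lit 5) (nat_lit 9) (nat_lit 4) (nat_lit 284) (nat_lit 252) (nat_lit 184)))) (XT.nd (nat_lit 78) (nat_lit 76) (nat_lit 0) (XT.lf (nat_lit 0) (nat_lit 14973756316) (nat_lit 228) (nat_lit 19954332744) (nat_lit 76) (nat_lit 21173288259) (nat_lit 8) (nat_lit 5) (nat_lit 11) (nat_lit 5) (nat_lit 9) (nat_lit 4) (nat_lit 285) (nat_lit 252) (nat_lit 183)) (XT.nd (nat_lit 78) (nat_lit 76) (nat_lit 0) (XT.lf (nat_lit 0) (nat_lit 22196790589) (nat_lit 228) (nat_lit 4949214483) (nat_lit 76) (nat_lit 32626009035) (nat_lit 8) (nat_lit 5) (nat_lit 11) (nat_lit 5) (nat_lit 9) (nat_lit 4) (nat_lit 286) (nat_lit 252) (nat_lit 182)) (XT.lf (nat_lit 0) (nat_lit 11836922572) (nat_lit 76) (nat_lit 18438492058) (nat_lit 152) (nat_lit 33438689191) (nat_lit 7) (nat_lit 5) (nat_lit 8) (nat_lit 5) (nat_lit 9) (nat_lit 4)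 (nat_lit 287) (nat_lit 252) (nat_lit 181)))))) (XT.nd (nat_lit 468) (nat_lit 76) (nat_lit 0) (XT.nd (nat_lit 234) (nat_lit 152) (nat_lit 0) (XT.nd (nat_lit 78) (nat_lit 0) (nat_lit 0) (XT.lf (nat_lit 0) (nat_lit 30236187017) (nat_lit 76) (nat_lit 8892773977) (nat_lit 152) (nat_lit 28832329261) (nat_lit 7) (nat_lit 5) (nat_lit 8) (nat_lit 5) (nat_lit 9) (nat_lit 4) (nat_lit 288) (nat_lit 252) (nat_lit 180)) (XT.nd (nat_lit 78) (nat_lit 0) (nat_lit 0) (XT.lf (nat_lit 0) (nat_lit 48718566732) (nat_lit 152) (nat_lit 22485739141) (nat_lit 0) (nat_lit 1341742321) (nat_lit 7) (nat_lit 5) (nat_lit 9) (nat_lit 4) (nat_lit 7) (nat_lit 4) (nat_lit 289) (nat_lit 252) (nat_lit 179)) (XT.lf (nat_lit 0) (nat_lit 59300494627) (nat_lit 152) (nat_lit 6268217108) (nat_lit 0) (nat_lit 11910879998) (nat_lit 7) (nat_lit 5) (nat_lit 9) (nat_lit 4) (nat_lit 7) (nat_lit 4) (nat_lit 290) (nat_lit 252) (nat_lit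 178)))) (XT.nd (nat_lit 78) (nat_lit 76) (nat_lit 0) (XT.lf (nat_lit 0) (nat_lit 11829181699) (nat_lit 76) (nat_lit 59178891379) (nat_lit 76) (nat_lit 11777433954) (nat_lit 6) (nat_lit 4) (nat_lit 7) (nat_lit 5) (nat_lit 7) (nat_lit 4) (nat_lit 291) (nat_lit 252) (nat_lit 177)) (XT.nd (nat_lit 78) (nat_lit 76) (nat_lit 0) (XT.lf (nat_lit 0) (nat_lit 31721817556) (nat_lit 76) (nat_lit 52096611055) (nat_lit 76) (nat_lit 4684188079) (nat_lit 6) (nat_lit 4) (nat_lit 7) (nat_lit 5) (nat_lit 7) (nat_lit 4) (nat_lit 292) (nat_lit 252) (nat_lit 176)) (XT.lf (nat_lit 0) (nat_lit 2822654423) (nat_lit 152) (nat_lit 41551455061) (nat_lit 76) (nat_lit 50297668745) (nat_lit 5) (nat_lit 5) (nat_lit 7) (nat_lit 5) (nat_lit 6) (nat_lit 4) (nat_lit 293) (nat_lit 252) (nat_lit 175))))) (XT.nd (nat_lit 234) (nat_lit 0) (nat_lit 0) (XT.nd (nat_lit 78) (nat_lit 76) (nat_lit 0) (XT.lf (nat_lit 0) (nat_lit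 10672378742) (nat_lit 152) (nat_lit 25233429671) (nat_lit 76) (nat_lit 65419310470) (nat_lit 5) (nat_lit 5) (nat_lit 7) (nat_lit 5) (nat_lit 6) (nat_lit 4) (nat_lit 294) (nat_lit 252) (nat_lit 174)) (XT.nd (nat_lit 78) (nat_lit 76) (nat_lit 0) (XT.lf (nat_lit 0) (nat_lit 19145823819) (nat_lit 152) (nat_lit 7617368718) (nat_lit 76) (nat_lit 81747885705) (nat_lit 5) (nat_lit 5) (nat_lit 7) (nat_lit 5) (nat_lit 6) (nat_lit 4) (nat_lit 295) (nat_lit 252) (nat_lit 173)) (XT.lf (nat_lit 0) (nat_lit 12001482004) (nat_lit 76) (nat_lit 16580356589) (nat_lit 152) (nat_lit 87667310302) (nat_lit 4) (nat_lit 5) (nat_lit 5) (nat_lit 5) (nat_lit 6) (nat_lit 4) (nat_lit 296) (nat_lit 252) (nat_lit 172)))) (XT.nd (nat_lit 78) (nat_lit 0) (nat_lit 0) (XT.lf (nat_lit 0) (nat_lit 33616363070) (nat_lit 76) (nat_lit 5360833232) (nat_lit 152) (nat_lit 85612721283) (nat_lit 4) (nat_lit 5) (nat_lit 5) (nat_lit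 5) (nat_lit 6) (nat_lit 4) (nat_lit 297) (nat_lit 252) (nat_lit 171)) (XT.nd (nat_lit 78) (nat_lit 0) (nat_lit 0) (XT.lf (nat_lit 0) (nat_lit 50363078320) (nat_lit 152) (nat_lit 76806417182) (nat_lit 0) (nat_lit 6415749248) (nat_lit 4) (nat_lit 5) (nat_lit 6) (nat_lit 4) (nat_lit 4) (nat_lit 4) (nat_lit 298) (nat_lit 252) (nat_lit 170)) (XT.lf (nat_lit 0) (nat_lit 62795747088) (nat_lit 152) (nat_lit 61651092032) (nat_lit 0) (nat_lit 18842493670) (nat_lit 4) (nat_lit 5) (nat_lit 6) (nat_lit 4) (nat_lit 4) (nat_lit 4) (nat_lit 299) (nat_lit 252) (nat_lit 169))))))))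
noncomputable def xc73 : XT := (XT.nd (nat_lit 1872) (nat_lit 0) (nat_lit 0) (XT.nd (nat_lit 936) (nat_lit 152) (nat_lit 0) (XT.nd (nat_lit 468) (nat_lit 0) (nat_lit 0) (XT.nd (nat_lit 234) (nat_lit 76) (nat_lit 0) (XT.nd (nat_lit 78) (nat_lit 0) (nat_lit 0) (XT.lf (nat_lit 0) (nat_lit 76219949512) (nat_lit 152) (nat_lit 45288841562) (nat_lit 0) (nat_lit 32261210589) (nat_lit 4) (nat_lit 5) (nat_lit 6) (nat_lit 4) (nat_lit 4) (nat_lit 4) (nat_lit 300) (nat_lit 252) (nat_lit 168)) (XT.nd (nat_lit 78) (nat_lit 0) (nat_lit 0) (XT.lf (nat_lit 0) (nat_lit 90715236421) (nat_lit 152) (nat_lit 27622704290) (nat_lit 0) (nat_lit 46751418326) (nat_lit 4) (nat_lit 5) (nat_lit 6) (nat_lit 4) (nat_lit 4) (nat_lit 4) (nat_lit 301) (nat_lit 252) (nat_lit 167)) (XT.lf (nat_lit 0) (nat_lit 106367505812) (nat_lit 152) (nat_lit 8547991993) (nat_lit 0) (nat_lit 62398984781) (nat_lit 4) (nat_lit 5) (nat_lit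 6) (nat_lit 4) (nat_lit 4) (nat_lit 4) (nat_lit 302) (nat_lit 252) (nat_lit 166)))) (XT.nd (nat_lit 78) (nat_lit 0) (nat_lit 0) (XT.lf (nat_lit 0) (nat_lit 12682774400) (nat_lit 76) (nat_lit 110891758504) (nat_lit 76) (nat_lit 66918882901) (nat_lit 3) (nat_lit 4) (nat_lit 4) (nat_lit 5) (nat_lit 4) (nat_lit 4) (nat_lit 303) (nat_lit 252) (nat_lit 165)) (XT.nd (nat_lit 78) (nat_lit 0) (nat_lit 0) (XT.lf (nat_lit 0) (nat_lit 36093877904) (nat_lit 76) (nat_lit 106295595371) (nat_lit 76) (nat_lit 62318687758) (nat_lit 3) (nat_lit 4) (nat_lit 4) (nat_lit 5) (nat_lit 4) (nat_lit 4) (nat_lit 304) (nat_lit 252) (nat_lit 164)) (XT.lf (nat_lit 0) (nat_lit 61373928874) (nat_lit 76) (nat_lit 101333489135) (nat_lit 76) (nat_lit 57352848179) (nat_lit 3) (nat_lit 4) (nat_lit 4) (nat_lit 5) (nat_lit 4) (nat_lit 4) (nat_lit 305) (nat_lit 252) (nat_lit 163))))) (XT.nd (nat_lit 234) (nat_lit 0) (nat_lit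 0) (XT.nd (nat_lit 78) (nat_lit 0) (nat_lit 0) (XT.lf (nat_lit 0) (nat_lit 88672735019) (nat_lit 76) (nat_lit 95976034721) (nat_lit 76) (nat_lit 51991936966) (nat_lit 3) (nat_lit 4) (nat_lit 4) (nat_lit 5) (nat_lit 4) (nat_lit 4) (nat_lit 306) (nat_lit 252) (nat_lit 162)) (XT.nd (nat_lit 78) (nat_lit 0) (nat_lit 0) (XT.lf (nat_lit 0) (nat_lit 118152067042) (nat_lit 76) (nat_lit 90191484252) (nat_lit 76) (nat_lit 46204185757) (nat_lit 3) (nat_lit 4) (nat_lit 4) (nat_lit 5) (nat_lit 4) (nat_lit 4) (nat_lit 307) (nat_lit 252) (nat_lit 161)) (XT.lf (nat_lit 0) (nat_lit 149986617281) (nat_lit 76) (nat_lit 83945558910) (nat_lit 76) (nat_lit 39955296767) (nat_lit 3) (nat_lit 4) (nat_lit 4) (nat_lit 5) (nat_lit 4) (nat_lit 4) (nat_lit 308) (nat_lit 252) (nat_lit 160)))) (XT.nd (nat_lit 78) (nat_lit 0) (nat_lit 0) (XT.lf (nat_lit 0) (nat_lit 184365034923) (nat_lit 76) (nat_lit 77201245804)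 (nat_lit 76) (nat_lit 33208239543) (nat_lit 3) (nat_lit 4) (nat_lit 4) (nat_lit 5) (nat_lit 4) (nat_lit 4) (nat_lit 309) (nat_lit 252) (nat_lit 159)) (XT.nd (nat_lit 78) (nat_lit 0) (nat_lit 0) (XT.lf (nat_lit 0) (nat_lit 221491043923) (nat_lit 76) (nat_lit 69918578634) (nat_lit 76) (nat_lit 25923031523) (nat_lit 3) (nat_lit 4) (nat_lit 4) (nat_lit 5) (nat_lit 4) (nat_lit 4) (nat_lit 310) (nat_lit 252) (nat_lit 158)) (XT.lf (nat_lit 0) (nat_lit 261584650262) (nat_lit 76) (nat_lit 62054400854) (nat_lit 76) (nat_lit 18056501104) (nat_lit 3) (nat_lit 4) (nat_lit 4) (nat_lit 5) (nat_lit 4) (nat_lit 4) (nat_lit 311) (nat_lit 252) (nat_lit 157)))))) (XT.nd (nat_lit 468) (nat_lit 0) (nat_lit 0) (XT.nd (nat_lit 234) (nat_lit 76) (nat_lit 0) (XT.nd (nat_lit 78) (nat_lit 76) (nat_lit 0) (XT.lf (nat_lit 0) (nat_lit 304883445681) (nat_lit 76) (nat_lit 53562109930) (nat_lit 76) (nat_lit 9562031809)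 (nat_lit 3) (nat_lit 4) (nat_lit 4) (nat_lit 5) (nat_lit 4) (nat_lit 4) (nat_lit 312) (nat_lit 252) (nat_lit 156)) (XT.nd (nat_lit 78) (nat_lit 76) (nat_lit 0) (XT.lf (nat_lit 0) (nat_lit 351644015633) (nat_lit 76) (nat_lit 44391381173) (nat_lit 76) (nat_lit 389286044) (nat_lit 3) (nat_lit 4) (nat_lit 4) (nat_lit 5) (nat_lit 4) (nat_lit 4) (nat_lit 313) (nat_lit 252) (nat_lit 155)) (XT.lf (nat_lit 0) (nat_lit 9040059682) (nat_lit 152) (nat_lit 25200638591) (nat_lit 76) (nat_lit 392856228859) (nat_lit 2) (nat_lit 5) (nat_lit 4) (nat_lit 5) (nat_lit 3) (nat_lit 4) (nat_lit 314) (nat_lit 252) (nat_lit 154)))) (XT.nd (nat_lit 78) (nat_lit 76) (nat_lit 0) (XT.lf (nat_lit 0) (nat_lit 19201678138) (nat_lit 152) (nat_lit 4066201463) (nat_lit 76) (nat_lit 436954348080) (nat_lit 2) (nat_lit 5) (nat_lit 4) (nat_lit 5) (nat_lit 3) (nat_lit 4) (nat_lit 315) (nat_lit 252) (nat_lit 153)) (XT.nd (nat_lit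 78) (nat_lit 0) (nat_lit 0) (XT.lf (nat_lit 0) (nat_lit 19744971032) (nat_lit 76) (nat_lit 10905155981) (nat_lit 152) (nat_lit 465309515185) (nat_lit 1) (nat_lit 5) (nat_lit 2) (nat_lit 5) (nat_lit 3) (nat_lit 4) (nat_lit 316) (nat_lit 252) (nat_lit 152)) (XT.lf (nat_lit 0) (nat_lit 43186403370) (nat_lit 152) (nat_lit 488918355272) (nat_lit 0) (nat_lit 2437536963) (nat_lit 1) (nat_lit 5) (nat_lit 3) (nat_lit 4) (nat_lit 1) (nat_lit 4) (nat_lit 317) (nat_lit 252) (nat_lit 151))))) (XT.nd (nat_lit 234) (nat_lit 0) (nat_lit 0) (XT.nd (nat_lit 78) (nat_lit 0) (nat_lit 0) (XT.lf (nat_lit 0) (nat_lit 57007949543) (nat_lit 152) (nat_lit 502923211961) (nat_lit 0) (nat_lit 16257812079) (nat_lit 1) (nat_lit 5) (nat_lit 3) (nat_lit 4) (nat_lit 1) (nat_lit 4) (nat_lit 318) (nat_lit 252) (nat_lit 150)) (XT.nd (nat_lit 78) (nat_lit 0) (nat_lit 0) (XT.lf (nat_lit 0) (nat_lit 71934401729) (nat_lit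 152) (nat_lit 518049963713) (nat_lit 0) (nat_lit 31183087359) (nat_lit 1) (nat_lit 5) (nat_lit 3) (nat_lit 4) (nat_lit 1) (nat_lit 4) (nat_lit 319) (nat_lit 252) (nat_lit 149)) (XT.lf (nat_lit 0) (nat_lit 88054212978) (nat_lit 152) (nat_lit 534388250539) (nat_lit 0) (nat_lit 47301808881) (nat_lit 1) (nat_lit 5) (nat_lit 3) (nat_lit 4) (nat_lit 1) (nat_lit 4) (nat_lit 320) (nat_lit 252) (nat_lit 148)))) (XT.nd (nat_lit 78) (nat_lit 0) (nat_lit 0) (XT.lf (nat_lit 0) (nat_lit 105462908096) (nat_lit 152) (nat_lit 552034891917) (nat_lit 0) (nat_lit 64709494992) (nat_lit 1) (nat_lit 5) (nat_lit 3) (nat_lit 4) (nat_lit 1) (nat_lit 4) (nat_lit 321) (nat_lit 252) (nat_lit 147)) (XT.nd (nat_lit 78) (nat_lit 0) (nat_lit 0) (XT.lf (nat_lit 0) (nat_lit 124263649723) (nat_lit 152) (nat_lit 571094460535) (nat_lit 0) (nat_lit 83509302353) (nat_lit 1) (nat_lit 5) (nat_lit 3) (nat_lit 4) (nat_lit 1)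 (nat_lit 4) (nat_lit 322) (nat_lit 252) (nat_lit 146)) (XT.lf (nat_lit 0) (nat_lit 144567849659) (nat_lit 152) (nat_lit 591679901986) (nat_lit 0) (nat_lit 103812637229) (nat_lit 1) (nat_lit 5) (nat_lit 3) (nat_lit 4) (nat_lit 1) (nat_lit 4) (nat_lit 323) (nat_lit 252) (nat_lit 145))))))) (XT.nd (nat_lit 31980) (nat_lit 0) (nat_lit 1900) (XT.nd (nat_lit 468) (nat_lit 0) (nat_lit 0) (XT.nd (nat_lit 234) (nat_lit 0) (nat_lit 0) (XT.nd (nat_lit 78) (nat_lit 0) (nat_lit 0) (XT.lf (nat_lit 0) (nat_lit 166495829090) (nat_lit 152) (nat_lit 613913204070) (nat_lit 0) (nat_lit 125739815678) (nat_lit 1) (nat_lit 5) (nat_lit 3) (nat_lit 4) (nat_lit 1) (nat_lit 4) (nat_lit 324) (nat_lit 252) (nat_lit 144)) (XT.nd (nat_lit 78) (nat_lit 0) (nat_lit 0) (XT.lf (nat_lit 0) (nat_lit 190177531598) (nat_lit 152) (nat_lit 637926119690) (nat_lit 0) (nat_lit 149420776536) (nat_lit 1) (nat_lit 5) (nat_lit 3)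 (nat_lit 4) (nat_lit 1) (nat_lit 4) (nat_lit 325) (nat_lit 252) (nat_lit 143)) (XT.lf (nat_lit 0) (nat_lit 215753293197) (nat_lit 152) (nat_lit 663860947605) (nat_lit 0) (nat_lit 174995851422) (nat_lit 1) (nat_lit 5) (nat_lit 3) (nat_lit 4) (nat_lit 1) (nat_lit 4) (nat_lit 326) (nat_lit 252) (nat_lit 142)))) (XT.nd (nat_lit 78) (nat_lit 0) (nat_lit 0) (XT.lf (nat_lit 0) (nat_lit 243374673957) (nat_lit 152) (nat_lit 691871375682) (nat_lit 0) (nat_lit 202616596337) (nat_lit 1) (nat_lit 5) (nat_lit 3) (nat_lit 4) (nat_lit 1) (nat_lit 4) (nat_lit 327) (nat_lit 252) (nat_lit 141)) (XT.nd (nat_lit 78) (nat_lit 0) (nat_lit 0) (XT.lf (nat_lit 0) (nat_lit 273205356133) (nat_lit 152) (nat_lit 722123391645) (nat_lit 0) (nat_lit 232446689767) (nat_lit 1) (nat_lit 5) (nat_lit 3) (nat_lit 4) (nat_lit 1) (nat_lit 4) (nat_lit 328) (nat_lit 252) (nat_lit 140)) (XT.lf (nat_lit 0) (nat_lit 305422114138)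 (nat_lit 152) (nat_lit 754796266700) (nat_lit 0) (nat_lit 264662902638) (nat_lit 1) (nat_lit 5) (nat_lit 3) (nat_lit 4) (nat_lit 1) (nat_lit 4) (nat_lit 329) (nat_lit 252) (nat_lit 139))))) (XT.nd (nat_lit 234) (nat_lit 0) (nat_lit 0) (XT.nd (nat_lit 78) (nat_lit 0) (nat_lit 0) (XT.lf (nat_lit 0) (nat_lit 340215862095) (nat_lit 152) (nat_lit 790083617883) (nat_lit 0) (nat_lit 299456145840) (nat_lit 1) (nat_lit 5) (nat_lit 3) (nat_lit 4) (nat_lit 1) (nat_lit 4) (nat_lit 330) (nat_lit 252) (nat_lit 138)) (XT.nd (nat_lit 78) (nat_lit 0) (nat_lit 0) (XT.lf (nat_lit 0) (nat_lit 377792785175) (nat_lit 152) (nat_lit 828194555423) (nat_lit 0) (nat_lit 337032601555) (nat_lit 1) (nat_lit 5) (nat_lit 3) (nat_lit 4) (nat_lit 1) (nat_lit 4) (nat_lit 331) (nat_lit 252) (nat_lit 137)) (XT.lf (nat_lit 0) (nat_lit 418375561443) (nat_lit 152) (nat_lit 869354921914) (nat_lit 0) (nat_lit 377614945076)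 (nat_lit 1) (nat_lit 5) (nat_lit 3) (nat_lit 4) (nat_lit 1) (nat_lit 4) (nat_lit 332) (nat_lit 252) (nat_lit 136)))) (XT.nd (nat_lit 78) (nat_lit 0) (nat_lit 0) (XT.lf (nat_lit 0) (nat_lit 462204681423) (nat_lit 152) (nat_lit 913808630639) (nat_lit 0) (nat_lit 421443664366) (nat_lit 1) (nat_lit 5) (nat_lit 3) (nat_lit 4) (nat_lit 1) (nat_lit 4) (nat_lit 333) (nat_lit 252) (nat_lit 135)) (XT.nd (nat_lit 78) (nat_lit 0) (nat_lit 0) (XT.lf (nat_lit 0) (nat_lit 509539873234) (nat_lit 152) (nat_lit 961819110982) (nat_lit 0) (nat_lit 468778485168) (nat_lit 1) (nat_lit 5) (nat_lit 3) (nat_lit 4) (nat_lit 1) (nat_lit 4) (nat_lit 334) (nat_lit 252) (nat_lit 134)) (XT.lf (nat_lit 0) (nat_lit 560661641717) (nat_lit 152) (nat_lit 1013670869494) (nat_lit 0) (nat_lit 519899910123) (nat_lit 1) (nat_lit 5) (nat_lit 3) (nat_lit 4) (nat_lit 1) (nat_lit 4) (nat_lit 335) (nat_lit 252) (nat_lit 133))))))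 (XT.nd (nat_lit 468) (nat_lit 532) (nat_lit 0) (XT.nd (nat_lit 234) (nat_lit 456) (nat_lit 0) (XT.nd (nat_lit 78) (nat_lit 0) (nat_lit 0) (XT.lf (nat_lit 0) (nat_lit 2534446217) (nat_lit 0) (nat_lit 2534446217) (nat_lit 380) (nat_lit 695599170) (nat_lit 39) (nat_lit 5) (nat_lit 39) (nat_lit 3) (nat_lit 44) (nat_lit 3) (nat_lit 253) (nat_lit 253) (nat_lit 214)) (XT.nd (nat_lit 78) (nat_lit 0) (nat_lit 0) (XT.lf (nat_lit 0) (nat_lit 10284097633) (nat_lit 0) (nat_lit 705080774) (nat_lit 380) (nat_lit 962080059) (nat_lit 39) (nat_lit 5) (nat_lit 39) (nat_lit 3) (nat_lit 44) (nat_lit 3) (nat_lit 254) (nat_lit 253) (nat_lit 213)) (XT.lf (nat_lit 76) (nat_lit 3564388566) (nat_lit 0) (nat_lit 8482333812) (nat_lit 456) (nat_lit 349871755) (nat_lit 40) (nat_lit 5) (nat_lit 39) (nat_lit 5) (nat_lit 45) (nat_lit 5) (nat_lit 255) (nat_lit 253) (nat_lit 212)))) (XT.nd (nat_lit 78) (nat_lit 0) (nat_lit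 76) (XT.lf (nat_lit 0) (nat_lit 318026760) (nat_lit 456) (nat_lit 3620203923) (nat_lit 532) (nat_lit 8937219707) (nat_lit 33) (nat_lit 5) (nat_lit 39) (nat_lit 5) (nat_lit 40) (nat_lit 5) (nat_lit 256) (nat_lit 253) (nat_lit 211)) (XT.nd (nat_lit 78) (nat_lit 0) (nat_lit 0) (XT.lf (nat_lit 0) (nat_lit 1055949373) (nat_lit 456) (nat_lit 11339371940) (nat_lit 532) (nat_lit 993982497) (nat_lit 34) (nat_lit 5) (nat_lit 40) (nat_lit 5) (nat_lit 41) (nat_lit 5) (nat_lit 257) (nat_lit 253) (nat_lit 210)) (XT.lf (nat_lit 0) (nat_lit 2019718625) (nat_lit 456) (nat_lit 5690941334) (nat_lit 532) (nat_lit 6220496835) (nat_lit 34) (nat_lit 5) (nat_lit 40) (nat_lit 5) (nat_lit 41) (nat_lit 5) (nat_lit 258) (nat_lit 253) (nat_lit 209))))) (XT.nd (nat_lit 234) (nat_lit 608) (nat_lit 0) (XT.nd (nat_lit 78) (nat_lit 0) (nat_lit 76) (XT.lf (nat_lit 76) (nat_lit 402367224) (nat_lit 0) (nat_lit 2633609647)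 (nat_lit 532) (nat_lit 11482568960) (nat_lit 35) (nat_lit 5) (nat_lit 34) (nat_lit 5) (nat_lit 41) (nat_lit 5) (nat_lit 259) (nat_lit 253) (nat_lit 208)) (XT.nd (nat_lit 78) (nat_lit 0) (nat_lit 0) (XT.lf (nat_lit 0) (nat_lit 4329468508) (nat_lit 456) (nat_lit 7935637551) (nat_lit 76) (nat_lit 2872347914) (nat_lit 35) (nat_lit 5) (nat_lit 41) (nat_lit 5) (nat_lit 36) (nat_lit 5) (nat_lit 260) (nat_lit 253) (nat_lit 207)) (XT.lf (nat_lit 0) (nat_lit 5764990922) (nat_lit 456) (nat_lit 1356257088) (nat_lit 76) (nat_lit 8681730236) (nat_lit 35) (nat_lit 5) (nat_lit 41) (nat_lit 5) (nat_lit 36) (nat_lit 5) (nat_lit 261) (nat_lit 253) (nat_lit 206)))) (XT.nd (nat_lit 156) (nat_lit 228) (nat_lit 0) (XT.nd (nat_lit 78) (nat_lit 0) (nat_lit 0) (XT.lf (nat_lit 0) (nat_lit 6025721049) (nat_lit 456) (nat_lit 1406910224) (nat_lit 532) (nat_lit 9079904797) (nat_lit 29) (nat_lit 5) (nat_lit 35) (nat_lit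 5) (nat_lit 36) (nat_lit 5) (nat_lit 262) (nat_lit 253) (nat_lit 205)) (XT.lf (nat_lit 0) (nat_lit 9360170732) (nat_lit 532) (nat_lit 3342895506) (nat_lit 76) (nat_lit 4565834081) (nat_lit 29) (nat_lit 5) (nat_lit 36) (nat_lit 5) (nat_lit 30) (nat_lit 5) (nat_lit 263) (nat_lit 253) (nat_lit 204))) (XT.nd (nat_lit 78) (nat_lit 0) (nat_lit 0) (XT.lf (nat_lit 0) (nat_lit 4538158504) (nat_lit 228) (nat_lit 7025231614) (nat_lit 304) (nat_lit 6512814369) (nat_lit 26) (nat_lit 5) (nat_lit 29) (nat_lit 5) (nat_lit 30) (nat_lit 5) (nat_lit 264) (nat_lit 253) (nat_lit 203)) (XT.lf (nat_lit 0) (nat_lit 13215586446) (nat_lit 228) (nat_lit 795682813) (nat_lit 304) (nat_lit 4931489441) (nat_lit 26) (nat_lit 5) (nat_lit 29) (nat_lit 5) (nat_lit 30) (nat_lit 5) (nat_lit 265) (nat_lit 253) (nat_lit 202))))))))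
noncomputable def xc74 : XT := (XT.nd (nat_lit 1872) (nat_lit 304) (nat_lit 0) (XT.nd (nat_lit 936) (nat_lit 532) (nat_lit 0) (XT.nd (nat_lit 468) (nat_lit 304) (nat_lit 0) (XT.nd (nat_lit 234) (nat_lit 152) (nat_lit 0) (XT.nd (nat_lit 78) (nat_lit 304) (nat_lit 0) (XT.lf (nat_lit 0) (nat_lit 2675507374) (nat_lit 152) (nat_lit 14165165466) (nat_lit 228) (nat_lit 3023236555) (nat_lit 24) (nat_lit 5) (nat_lit 26) (nat_lit 5) (nat_lit 27) (nat_lit 5) (nat_lit 266) (nat_lit 253) (nat_lit 201)) (XT.nd (nat_lit 78) (nat_lit 304) (nat_lit 0) (XT.lf (nat_lit 0) (nat_lit 12030735419) (nat_lit 152) (nat_lit 8022117376) (nat_lit 228) (nat_lit 793503639) (nat_lit 24) (nat_lit 5) (nat_lit 26) (nat_lit 5) (nat_lit 27) (nat_lit 5) (nat_lit 267) (nat_lit 253) (nat_lit 200)) (XT.lf (nat_lit 0) (nat_lit 173854866) (nat_lit 228) (nat_lit 1344766256) (nat_lit 304) (nat_lit 20386990363) (nat_lit 20) (nat_lit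 5) (nat_lit 23) (nat_lit 5) (nat_lit 24) (nat_lit 5) (nat_lit 268) (nat_lit 253) (nat_lit 199)))) (XT.nd (nat_lit 78) (nat_lit 152) (nat_lit 0) (XT.lf (nat_lit 0) (nat_lit 4342642577) (nat_lit 304) (nat_lit 12838341252) (nat_lit 76) (nat_lit 5837484394) (nat_lit 20) (nat_lit 5) (nat_lit 24) (nat_lit 5) (nat_lit 21) (nat_lit 5) (nat_lit 269) (nat_lit 253) (nat_lit 198)) (XT.nd (nat_lit 78) (nat_lit 152) (nat_lit 0) (XT.lf (nat_lit 0) (nat_lit 7410297283) (nat_lit 304) (nat_lit 3290502882) (nat_lit 76) (nat_lit 13518223306) (nat_lit 20) (nat_lit 5) (nat_lit 24) (nat_lit 5) (nat_lit 21) (nat_lit 5) (nat_lit 270) (nat_lit 253) (nat_lit 197)) (XT.lf (nat_lit 0) (nat_lit 7369323334) (nat_lit 152) (nat_lit 3515331342) (nat_lit 228) (nat_lit 14618145692) (nat_lit 18) (nat_lit 5) (nat_lit 20) (nat_lit 5) (nat_lit 21) (nat_lit 5) (nat_lit 271) (nat_lit 253) (nat_lit 196))))) (XT.nd (nat_lit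 234) (nat_lit 152) (nat_lit 0) (XT.nd (nat_lit 78) (nat_lit 152) (nat_lit 0) (XT.lf (nat_lit 0) (nat_lit 14816002514) (nat_lit 228) (nat_lit 7938585384) (nat_lit 76) (nat_lit 4120442668) (nat_lit 18) (nat_lit 5) (nat_lit 21) (nat_lit 5) (nat_lit 19) (nat_lit 5) (nat_lit 272) (nat_lit 253) (nat_lit 195)) (XT.nd (nat_lit 78) (nat_lit 0) (nat_lit 0) (XT.lf (nat_lit 0) (nat_lit 3116933896) (nat_lit 152) (nat_lit 16096976413) (nat_lit 228) (nat_lit 9131033681) (nat_lit 16) (nat_lit 5) (nat_lit 18) (nat_lit 5) (nat_lit 19) (nat_lit 5) (nat_lit 273) (nat_lit 253) (nat_lit 194)) (XT.lf (nat_lit 0) (nat_lit 15489286699) (nat_lit 152) (nat_lit 8677795723) (nat_lit 228) (nat_lit 5749157396) (nat_lit 16) (nat_lit 5) (nat_lit 18) (nat_lit 5) (nat_lit 19) (nat_lit 5) (nat_lit 274) (nat_lit 253) (nat_lit 193)))) (XT.nd (nat_lit 78) (nat_lit 152) (nat_lit 0) (XT.lf (nat_lit 0) (nat_lit 28833758833)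 (nat_lit 152) (nat_lit 670135309) (nat_lit 228) (nat_lit 2110413442) (nat_lit 16) (nat_lit 5) (nat_lit 18) (nat_lit 5) (nat_lit 19) (nat_lit 5) (nat_lit 275) (nat_lit 253) (nat_lit 192)) (XT.nd (nat_lit 78) (nat_lit 0) (nat_lit 0) (XT.lf (nat_lit 0) (nat_lit 2162173102) (nat_lit 152) (nat_lit 23375819824) (nat_lit 76) (nat_lit 7872077292) (nat_lit 14) (nat_lit 5) (nat_lit 16) (nat_lit 5) (nat_lit 15) (nat_lit 5) (nat_lit 276) (nat_lit 253) (nat_lit 191)) (XT.lf (nat_lit 0) (nat_lit 6746290201) (nat_lit 152) (nat_lit 11402704338) (nat_lit 76) (nat_lit 17189461734) (nat_lit 14) (nat_lit 5) (nat_lit 16) (nat_lit 5) (nat_lit 15) (nat_lit 5) (nat_lit 277) (nat_lit 253) (nat_lit 190)))))) (XT.nd (nat_lit 468) (nat_lit 304) (nat_lit 0) (XT.nd (nat_lit 234) (nat_lit 76) (nat_lit 0) (XT.nd (nat_lit 78) (nat_lit 0) (nat_lit 0) (XT.lf (nat_lit 0) (nat_lit 1591716428) (nat_lit 152) (nat_lit 10132899994)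 (nat_lit 228) (nat_lit 25694341876) (nat_lit 12) (nat_lit 5) (nat_lit 14) (nat_lit 5) (nat_lit 15) (nat_lit 5) (nat_lit 278) (nat_lit 253) (nat_lit 189)) (XT.nd (nat_lit 78) (nat_lit 0) (nat_lit 0) (XT.lf (nat_lit 0) (nat_lit 16258414015) (nat_lit 152) (nat_lit 1144184889) (nat_lit 228) (nat_lit 22239230619) (nat_lit 12) (nat_lit 5) (nat_lit 14) (nat_lit 5) (nat_lit 15) (nat_lit 5) (nat_lit 279) (nat_lit 253) (nat_lit 188)) (XT.lf (nat_lit 0) (nat_lit 23731044557) (nat_lit 228) (nat_lit 10165316288) (nat_lit 76) (nat_lit 8130508901) (nat_lit 12) (nat_lit 5) (nat_lit 15) (nat_lit 5) (nat_lit 13) (nat_lit 4) (nat_lit 280) (nat_lit 253) (nat_lit 187)))) (XT.nd (nat_lit 78) (nat_lit 0) (nat_lit 0) (XT.lf (nat_lit 0) (nat_lit 4280493276) (nat_lit 76) (nat_lit 26408927572) (nat_lit 152) (nat_lit 13903434445) (nat_lit 11) (nat_lit 5) (nat_lit 12) (nat_lit 5) (nat_lit 13) (nat_lit 4) (nat_lit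 281) (nat_lit 253) (nat_lit 186)) (XT.nd (nat_lit 78) (nat_lit 0) (nat_lit 0) (XT.lf (nat_lit 0) (nat_lit 20446290164) (nat_lit 76) (nat_lit 18027440585) (nat_lit 152) (nat_lit 8868879805) (nat_lit 11) (nat_lit 5) (nat_lit 12) (nat_lit 5) (nat_lit 13) (nat_lit 4) (nat_lit 282) (nat_lit 253) (nat_lit 185)) (XT.lf (nat_lit 0) (nat_lit 37892584149) (nat_lit 76) (nat_lit 8980169575) (nat_lit 152) (nat_lit 3440264634) (nat_lit 11) (nat_lit 5) (nat_lit 12) (nat_lit 5) (nat_lit 13) (nat_lit 4) (nat_lit 283) (nat_lit 253) (nat_lit 184))))) (XT.nd (nat_lit 234) (nat_lit 76) (nat_lit 0) (XT.nd (nat_lit 78) (nat_lit 0) (nat_lit 0) (XT.lf (nat_lit 0) (nat_lit 2395853778) (nat_lit 228) (nat_lit 50224646162) (nat_lit 76) (nat_lit 888370701) (nat_lit 8) (nat_lit 5) (nat_lit 11) (nat_lit 5) (nat_lit 9) (nat_lit 4) (nat_lit 284) (nat_lit 253) (nat_lit 183)) (XT.nd (nat_lit 78) (nat_lit 0) (nat_lit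 0) (XT.lf (nat_lit 0) (nat_lit 9087180805) (nat_lit 228) (nat_lit 36325478974) (nat_lit 76) (nat_lit 11494671589) (nat_lit 8) (nat_lit 5) (nat_lit 11) (nat_lit 5) (nat_lit 9) (nat_lit 4) (nat_lit 285) (nat_lit 253) (nat_lit 182)) (XT.lf (nat_lit 0) (nat_lit 16306882749) (nat_lit 228) (nat_lit 21325899882) (nat_lit 76) (nat_lit 22945462566) (nat_lit 8) (nat_lit 5) (nat_lit 11) (nat_lit 5) (nat_lit 9) (nat_lit 4) (nat_lit 286) (nat_lit 253) (nat_lit 181)))) (XT.nd (nat_lit 78) (nat_lit 76) (nat_lit 0) (XT.lf (nat_lit 0) (nat_lit 24097743028) (nat_lit 228) (nat_lit 5137022493) (nat_lit 76) (nat_lit 35308600172) (nat_lit 8) (nat_lit 5) (nat_lit 11) (nat_lit 5) (nat_lit 9) (nat_lit 4) (nat_lit 287) (nat_lit 253) (nat_lit 180)) (XT.nd (nat_lit 78) (nat_lit 0) (nat_lit 0) (XT.lf (nat_lit 0) (nat_lit 12986736435) (nat_lit 76) (nat_lit 19831524593) (nat_lit 152) (nat_lit 35982942331) (nat_lit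 7) (nat_lit 5) (nat_lit 8) (nat_lit 5) (nat_lit 9) (nat_lit 4) (nat_lit 288) (nat_lit 253) (nat_lit 179)) (XT.lf (nat_lit 0) (nat_lit 32842915365) (nat_lit 76) (nat_lit 9528226608) (nat_lit 152) (nat_lit 31017765606) (nat_lit 7) (nat_lit 5) (nat_lit 8) (nat_lit 5) (nat_lit 9) (nat_lit 4) (nat_lit 289) (nat_lit 253) (nat_lit 178))))))) (XT.nd (nat_lit 936) (nat_lit 76) (nat_lit 0) (XT.nd (nat_lit 468) (nat_lit 76) (nat_lit 0) (XT.nd (nat_lit 234) (nat_lit 76) (nat_lit 0) (XT.nd (nat_lit 78) (nat_lit 76) (nat_lit 0) (XT.lf (nat_lit 0) (nat_lit 52721321664) (nat_lit 152) (nat_lit 24103772143) (nat_lit 0) (nat_lit 1515904851) (nat_lit 7) (nat_lit 5) (nat_lit 9) (nat_lit 4) (nat_lit 7) (nat_lit 4) (nat_lit 290) (nat_lit 253) (nat_lit 177)) (XT.nd (nat_lit 78) (nat_lit 76) (nat_lit 0) (XT.lf (nat_lit 0) (nat_lit 64142006043) (nat_lit 152) (nat_lit 6602242876) (nat_lit 0) (nat_lit 12925623679)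 (nat_lit 7) (nat_lit 5) (nat_lit 9) (nat_lit 4) (nat_lit 7) (nat_lit 4) (nat_lit 291) (nat_lit 253) (nat_lit 176)) (XT.lf (nat_lit 0) (nat_lit 12938709062) (nat_lit 76) (nat_lit 63844186363) (nat_lit 76) (nat_lit 12617650711) (nat_lit 6) (nat_lit 4) (nat_lit 7) (nat_lit 5) (nat_lit 7) (nat_lit 4) (nat_lit 292) (nat_lit 253) (nat_lit 175)))) (XT.nd (nat_lit 78) (nat_lit 76) (nat_lit 0) (XT.lf (nat_lit 0) (nat_lit 34410667429) (nat_lit 76) (nat_lit 56200435934) (nat_lit 76) (nat_lit 4964499089) (nat_lit 6) (nat_lit 4) (nat_lit 7) (nat_lit 5) (nat_lit 7) (nat_lit 4) (nat_lit 293) (nat_lit 253) (nat_lit 174)) (XT.nd (nat_lit 78) (nat_lit 0) (nat_lit 0) (XT.lf (nat_lit 0) (nat_lit 3131522855) (nat_lit 152) (nat_lit 44731074113) (nat_lit 76) (nat_lit 54376066812) (nat_lit 5) (nat_lit 5) (nat_lit 7) (nat_lit 5) (nat_lit 6) (nat_lit 4) (nat_lit 294) (nat_lit 253) (nat_lit 173)) (XT.lf (nat_lit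 0) (nat_lit 11603072817) (nat_lit 152) (nat_lit 27118310199) (nat_lit 76) (nat_lit 70703396574) (nat_lit 5) (nat_lit 5) (nat_lit 7) (nat_lit 5) (nat_lit 6) (nat_lit 4) (nat_lit 295) (nat_lit 253) (nat_lit 172))))) (XT.nd (nat_lit 234) (nat_lit 0) (nat_lit 0) (XT.nd (nat_lit 78) (nat_lit 76) (nat_lit 0) (XT.lf (nat_lit 0) (nat_lit 20748696924) (nat_lit 152) (nat_lit 8102875025) (nat_lit 76) (nat_lit 88334514030) (nat_lit 5) (nat_lit 5) (nat_lit 7) (nat_lit 5) (nat_lit 6) (nat_lit 4) (nat_lit 296) (nat_lit 253) (nat_lit 171)) (XT.nd (nat_lit 78) (nat_lit 0) (nat_lit 0) (XT.lf (nat_lit 0) (nat_lit 13082347472) (nat_lit 76) (nat_lit 17854874767) (nat_lit 152) (nat_lit 94606183174) (nat_lit 4) (nat_lit 5) (nat_lit 5) (nat_lit 5) (nat_lit 6) (nat_lit 4) (nat_lit 297) (nat_lit 253) (nat_lit 170)) (XT.lf (nat_lit 0) (nat_lit 36417474807) (nat_lit 76) (nat_lit 5741634753) (nat_lit 152) (nat_lit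 92392746438) (nat_lit 4) (nat_lit 5) (nat_lit 5) (nat_lit 5) (nat_lit 6) (nat_lit 4) (nat_lit 298) (nat_lit 253) (nat_lit 169)))) (XT.nd (nat_lit 78) (nat_lit 0) (nat_lit 0) (XT.lf (nat_lit 0) (nat_lit 54452211180) (nat_lit 152) (nat_lit 82843614151) (nat_lit 0) (nat_lit 6971287637) (nat_lit 4) (nat_lit 5) (nat_lit 6) (nat_lit 4) (nat_lit 4) (nat_lit 4) (nat_lit 299) (nat_lit 253) (nat_lit 168)) (XT.nd (nat_lit 78) (nat_lit 0) (nat_lit 0) (XT.lf (nat_lit 0) (nat_lit 67875042590) (nat_lit 152) (nat_lit 66483812352) (nat_lit 0) (nat_lit 20389039876) (nat_lit 4) (nat_lit 5) (nat_lit 6) (nat_lit 4) (nat_lit 4) (nat_lit 4) (nat_lit 300) (nat_lit 253) (nat_lit 167)) (XT.lf (nat_lit 0) (nat_lit 82369060042) (nat_lit 152) (nat_lit 48819942367) (nat_lit 0) (nat_lit 34878354391) (nat_lit 4) (nat_lit 5) (nat_lit 6) (nat_lit 4) (nat_lit 4) (nat_lit 4) (nat_lit 301) (nat_lit 253) (nat_lit 166))))))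 (XT.nd (nat_lit 468) (nat_lit 0) (nat_lit 0) (XT.nd (nat_lit 234) (nat_lit 0) (nat_lit 0) (XT.nd (nat_lit 78) (nat_lit 76) (nat_lit 0) (XT.lf (nat_lit 0) (nat_lit 98020154011) (nat_lit 152) (nat_lit 29747329410) (nat_lit 0) (nat_lit 50525093788) (nat_lit 4) (nat_lit 5) (nat_lit 6) (nat_lit 4) (nat_lit 4) (nat_lit 4) (nat_lit 302) (nat_lit 253) (nat_lit 165)) (XT.nd (nat_lit 78) (nat_lit 76) (nat_lit 0) (XT.lf (nat_lit 0) (nat_lit 114921071718) (nat_lit 152) (nat_lit 9152950591) (nat_lit 0) (nat_lit 67421979486) (nat_lit 4) (nat_lit 5) (nat_lit 6) (nat_lit 4) (nat_lit 4) (nat_lit 4) (nat_lit 303) (nat_lit 253) (nat_lit 164)) (XT.lf (nat_lit 0) (nat_lit 13774280132) (nat_lit 76) (nat_lit 119728958387) (nat_lit 76) (nat_lit 72226132812) (nat_lit 3) (nat_lit 4) (nat_lit 4) (nat_lit 5) (nat_lit 4) (nat_lit 4) (nat_lit 304) (nat_lit 253) (nat_lit 163)))) (XT.nd (nat_lit 78) (nat_lit 0) (nat_lit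 0) (XT.lf (nat_lit 0) (nat_lit 39052576822) (nat_lit 76) (nat_lit 114767631151) (nat_lit 76) (nat_lit 67261348777) (nat_lit 3) (nat_lit 4) (nat_lit 4) (nat_lit 5) (nat_lit 4) (nat_lit 4) (nat_lit 305) (nat_lit 253) (nat_lit 162)) (XT.nd (nat_lit 78) (nat_lit 0) (nat_lit 0) (XT.lf (nat_lit 0) (nat_lit 66349758634) (nat_lit 76) (nat_lit 109410898035) (nat_lit 76) (nat_lit 61901414921) (nat_lit 3) (nat_lit 4) (nat_lit 4) (nat_lit 5) (nat_lit 4) (nat_lit 4) (nat_lit 306) (nat_lit 253) (nat_lit 161)) (XT.lf (nat_lit 0) (nat_lit 95827586644) (nat_lit 76) (nat_lit 103627015433) (nat_lit 76) (nat_lit 56114568671) (nat_lit 3) (nat_lit 4) (nat_lit 4) (nat_lit 5) (nat_lit 4) (nat_lit 4) (nat_lit 307) (nat_lit 253) (nat_lit 160))))) (XT.nd (nat_lit 234) (nat_lit 0) (nat_lit 0) (XT.nd (nat_lit 78) (nat_lit 0) (nat_lit 0) (XT.lf (nat_lit 0) (nat_lit 127660744279) (nat_lit 76) (nat_lit 97381708487)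 (nat_lit 76) (nat_lit 49866517607) (nat_lit 3) (nat_lit 4) (nat_lit 4) (nat_lit 5) (nat_lit 4) (nat_lit 4) (nat_lit 308) (nat_lit 253) (nat_lit 159)) (XT.nd (nat_lit 78) (nat_lit 0) (nat_lit 0) (XT.lf (nat_lit 0) (nat_lit 162037872473) (nat_lit 76) (nat_lit 90637967970) (nat_lit 76) (nat_lit 43120236239) (nat_lit 3) (nat_lit 4) (nat_lit 4) (nat_lit 5) (nat_lit 4) (nat_lit 4) (nat_lit 309) (nat_lit 253) (nat_lit 158)) (XT.lf (nat_lit 0) (nat_lit 199162687540) (nat_lit 76) (nat_lit 83355830975) (nat_lit 76) (nat_lit 35835746605) (nat_lit 3) (nat_lit 4) (nat_lit 4) (nat_lit 5) (nat_lit 4) (nat_lit 4) (nat_lit 310) (nat_lit 253) (nat_lit 157)))) (XT.nd (nat_lit 78) (nat_lit 0) (nat_lit 0) (XT.lf (nat_lit 0) (nat_lit 239255188385) (nat_lit 76) (nat_lit 75492144098) (nat_lit 76) (nat_lit 27969881358) (nat_lit 3) (nat_lit 4) (nat_lit 4) (nat_lit 5) (nat_lit 4) (nat_lit 4) (nat_lit 311) (nat_lit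 253) (nat_lit 156)) (XT.nd (nat_lit 78) (nat_lit 0) (nat_lit 0) (XT.lf (nat_lit 0) (nat_lit 282552960198) (nat_lit 76) (nat_lit 67000307712) (nat_lit 76) (nat_lit 19476027963) (nat_lit 3) (nat_lit 4) (nat_lit 4) (nat_lit 5) (nat_lit 4) (nat_lit 4) (nat_lit 312) (nat_lit 253) (nat_lit 155)) (XT.lf (nat_lit 0) (nat_lit 329312582367) (nat_lit 76) (nat_lit 57829999826) (nat_lit 76) (nat_lit 10303852476) (nat_lit 3) (nat_lit 4) (nat_lit 4) (nat_lit 5) (nat_lit 4) (nat_lit 4) (nat_lit 313) (nat_lit 253) (nat_lit 154))))))))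
noncomputable def xc75 : XT := (XT.nd (nat_lit 32994) (nat_lit 0) (nat_lit 836) (XT.nd (nat_lit 936) (nat_lit 0) (nat_lit 0) (XT.nd (nat_lit 468) (nat_lit 0) (nat_lit 0) (XT.nd (nat_lit 234) (nat_lit 76) (nat_lit 0) (XT.nd (nat_lit 78) (nat_lit 76) (nat_lit 0) (XT.lf (nat_lit 0) (nat_lit 379811148950) (nat_lit 76) (nat_lit 47926877872) (nat_lit 76) (nat_lit 399001262) (nat_lit 3) (nat_lit 4) (nat_lit 4) (nat_lit 5) (nat_lit 4) (nat_lit 4) (nat_lit 314) (nat_lit 253) (nat_lit 153)) (XT.nd (nat_lit 78) (nat_lit 0) (nat_lit 0) (XT.lf (nat_lit 0) (nat_lit 9782112388) (nat_lit 152) (nat_lit 27182684007) (nat_lit 76) (nat_lit 424298338035) (nat_lit 2) (nat_lit 5) (nat_lit 4) (nat_lit 5) (nat_lit 3) (nat_lit 4) (nat_lit 315) (nat_lit 253) (nat_lit 152)) (XT.lf (nat_lit 0) (nat_lit 20755264177) (nat_lit 152) (nat_lit 4360010848) (nat_lit 76) (nat_lit 471923298582) (nat_lit 2) (nat_lit 5) (nat_lit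 4) (nat_lit 5) (nat_lit 3) (nat_lit 4) (nat_lit 316) (nat_lit 253) (nat_lit 151)))) (XT.nd (nat_lit 78) (nat_lit 0) (nat_lit 0) (XT.lf (nat_lit 0) (nat_lit 21355258314) (nat_lit 76) (nat_lit 11763776010) (nat_lit 152) (nat_lit 502515994011) (nat_lit 1) (nat_lit 5) (nat_lit 2) (nat_lit 5) (nat_lit 3) (nat_lit 4) (nat_lit 317) (nat_lit 253) (nat_lit 150)) (XT.nd (nat_lit 78) (nat_lit 0) (nat_lit 0) (XT.lf (nat_lit 0) (nat_lit 46657268286) (nat_lit 152) (nat_lit 528002431907) (nat_lit 0) (nat_lit 2644671861) (nat_lit 1) (nat_lit 5) (nat_lit 3) (nat_lit 4) (nat_lit 1) (nat_lit 4) (nat_lit 318) (nat_lit 253) (nat_lit 149)) (XT.lf (nat_lit 0) (nat_lit 61583356475) (nat_lit 152) (nat_lit 543129854300) (nat_lit 0) (nat_lit 17569670323) (nat_lit 1) (nat_lit 5) (nat_lit 3) (nat_lit 4) (nat_lit 1) (nat_lit 4) (nat_lit 319) (nat_lit 253) (nat_lit 148))))) (XT.nd (nat_lit 234) (nat_lit 0) (nat_lit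 0) (XT.nd (nat_lit 78) (nat_lit 0) (nat_lit 0) (XT.lf (nat_lit 0) (nat_lit 77702830690) (nat_lit 152) (nat_lit 559468762090) (nat_lit 0) (nat_lit 33688135532) (nat_lit 1) (nat_lit 5) (nat_lit 3) (nat_lit 4) (nat_lit 1) (nat_lit 4) (nat_lit 320) (nat_lit 253) (nat_lit 147)) (XT.nd (nat_lit 78) (nat_lit 0) (nat_lit 0) (XT.lf (nat_lit 0) (nat_lit 95111213741) (nat_lit 152) (nat_lit 577115978434) (nat_lit 0) (nat_lit 51095584317) (nat_lit 1) (nat_lit 5) (nat_lit 3) (nat_lit 4) (nat_lit 1) (nat_lit 4) (nat_lit 321) (nat_lit 253) (nat_lit 146)) (XT.lf (nat_lit 0) (nat_lit 113911666415) (nat_lit 152) (nat_lit 596176079429) (nat_lit 0) (nat_lit 69895171931) (nat_lit 1) (nat_lit 5) (nat_lit 3) (nat_lit 4) (nat_lit 1) (nat_lit 4) (nat_lit 322) (nat_lit 253) (nat_lit 145)))) (XT.nd (nat_lit 78) (nat_lit 0) (nat_lit 0) (XT.lf (nat_lit 0) (nat_lit 134215598803) (nat_lit 152) (nat_lit 616762013821)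 (nat_lit 0) (nat_lit 90198303337) (nat_lit 1) (nat_lit 5) (nat_lit 3) (nat_lit 4) (nat_lit 1) (nat_lit 4) (nat_lit 323) (nat_lit 253) (nat_lit 144)) (XT.nd (nat_lit 78) (nat_lit 0) (nat_lit 0) (XT.lf (nat_lit 0) (nat_lit 156143330505) (nat_lit 152) (nat_lit 638995772333) (nat_lit 0) (nat_lit 112125293388) (nat_lit 1) (nat_lit 5) (nat_lit 3) (nat_lit 4) (nat_lit 1) (nat_lit 4) (nat_lit 324) (nat_lit 253) (nat_lit 143)) (XT.lf (nat_lit 0) (nat_lit 179824803633) (nat_lit 152) (nat_lit 663009110571) (nat_lit 0) (nat_lit 135806079804) (nat_lit 1) (nat_lit 5) (nat_lit 3) (nat_lit 4) (nat_lit 1) (nat_lit 4) (nat_lit 325) (nat_lit 253) (nat_lit 142)))))) (XT.nd (nat_lit 468) (nat_lit 0) (nat_lit 0) (XT.nd (nat_lit 234) (nat_lit 0) (nat_lit 0) (XT.nd (nat_lit 78) (nat_lit 0) (nat_lit 0) (XT.lf (nat_lit 0) (nat_lit 205400352844) (nat_lit 152) (nat_lit 688944329798) (nat_lit 0) (nat_lit 161380993169)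 (nat_lit 1) (nat_lit 5) (nat_lit 3) (nat_lit 4) (nat_lit 1) (nat_lit 4) (nat_lit 326) (nat_lit 253) (nat_lit 141)) (XT.nd (nat_lit 78) (nat_lit 0) (nat_lit 0) (XT.lf (nat_lit 0) (nat_lit 233021536948) (nat_lit 152) (nat_lit 716955120202) (nat_lit 0) (nat_lit 189001588527) (nat_lit 1) (nat_lit 5) (nat_lit 3) (nat_lit 4) (nat_lit 1) (nat_lit 4) (nat_lit 327) (nat_lit 253) (nat_lit 140)) (XT.lf (nat_lit 0) (nat_lit 262852037035) (nat_lit 152) (nat_lit 747207471653) (nat_lit 0) (nat_lit 218831543480) (nat_lit 1) (nat_lit 5) (nat_lit 3) (nat_lit 4) (nat_lit 1) (nat_lit 4) (nat_lit 328) (nat_lit 253) (nat_lit 139)))) (XT.nd (nat_lit 78) (nat_lit 0) (nat_lit 0) (XT.lf (nat_lit 0) (nat_lit 295068626440) (nat_lit 152) (nat_lit 779880657344) (nat_lit 0) (nat_lit 251047628130) (nat_lit 1) (nat_lit 5) (nat_lit 3) (nat_lit 4) (nat_lit 1) (nat_lit 4) (nat_lit 329) (nat_lit 253) (nat_lit 138)) (XT.nd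 (nat_lit 78) (nat_lit 0) (nat_lit 0) (XT.lf (nat_lit 0) (nat_lit 329862218285) (nat_lit 152) (nat_lit 815168296153) (nat_lit 0) (nat_lit 285840752609) (nat_lit 1) (nat_lit 5) (nat_lit 3) (nat_lit 4) (nat_lit 1) (nat_lit 4) (nat_lit 330) (nat_lit 253) (nat_lit 137)) (XT.lf (nat_lit 0) (nat_lit 367438996817) (nat_lit 152) (nat_lit 853279500014) (nat_lit 0) (nat_lit 323417098396) (nat_lit 1) (nat_lit 5) (nat_lit 3) (nat_lit 4) (nat_lit 1) (nat_lit 4) (nat_lit 331) (nat_lit 253) (nat_lit 136))))) (XT.nd (nat_lit 234) (nat_lit 0) (nat_lit 0) (XT.nd (nat_lit 78) (nat_lit 0) (nat_lit 0) (XT.lf (nat_lit 0) (nat_lit 408021639244) (nat_lit 152) (nat_lit 894440113099) (nat_lit 0) (nat_lit 363999340132) (nat_lit 1) (nat_lit 5) (nat_lit 3) (nat_lit 4) (nat_lit 1) (nat_lit 4) (nat_lit 332) (nat_lit 253) (nat_lit 135)) (XT.nd (nat_lit 78) (nat_lit 0) (nat_lit 0) (XT.lf (nat_lit 0) (nat_lit 451850635297)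 (nat_lit 152) (nat_lit 938894050150) (nat_lit 0) (nat_lit 407827965176) (nat_lit 1) (nat_lit 5) (nat_lit 3) (nat_lit 4) (nat_lit 1) (nat_lit 4) (nat_lit 333) (nat_lit 253) (nat_lit 134)) (XT.lf (nat_lit 0) (nat_lit 499185712362) (nat_lit 152) (nat_lit 986904741908) (nat_lit 0) (nat_lit 455162698713) (nat_lit 1) (nat_lit 5) (nat_lit 3) (nat_lit 4) (nat_lit 1) (nat_lit 4) (nat_lit 334) (nat_lit 253) (nat_lit 133)))) (XT.nd (nat_lit 31200) (nat_lit 0) (nat_lit 2888) (XT.lf (nat_lit 0) (nat_lit 550307374598) (nat_lit 152) (nat_lit 1038756696173) (nat_lit 0) (nat_lit 506284042868) (nat_lit 1) (nat_lit 5) (nat_lit 3) (nat_lit 4) (nat_lit 1) (nat_lit 4) (nat_lit 335) (nat_lit 253) (nat_lit 132)) (XT.nd (nat_lit 78) (nat_lit 0) (nat_lit 0) (XT.lf (nat_lit 0) (nat_lit 2954781248) (nat_lit 0) (nat_lit 2954781248) (nat_lit 380) (nat_lit 278139528) (nat_lit 39) (nat_lit 5) (nat_lit 39) (nat_lit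 3) (nat_lit 44) (nat_lit 3) (nat_lit 254) (nat_lit 254) (nat_lit 212)) (XT.lf (nat_lit 0) (nat_lit 11509750136) (nat_lit 0) (nat_lit 1164411929) (nat_lit 380) (nat_lit 162921324) (nat_lit 39) (nat_lit 5) (nat_lit 39) (nat_lit 3) (nat_lit 44) (nat_lit 3) (nat_lit 255) (nat_lit 254) (nat_lit 211))))))) (XT.nd (nat_lit 936) (nat_lit 912) (nat_lit 0) (XT.nd (nat_lit 468) (nat_lit 684) (nat_lit 0) (XT.nd (nat_lit 234) (nat_lit 0) (nat_lit 76) (XT.nd (nat_lit 78) (nat_lit 0) (nat_lit 0) (XT.lf (nat_lit 0) (nat_lit 414094725) (nat_lit 456) (nat_lit 9013341811) (nat_lit 532) (nat_lit 3894788554) (nat_lit 33) (nat_lit 5) (nat_lit 39) (nat_lit 5) (nat_lit 40) (nat_lit 5) (nat_lit 256) (nat_lit 254) (nat_lit 210)) (XT.nd (nat_lit 78) (nat_lit 0) (nat_lit 76) (XT.lf (nat_lit 0) (nat_lit 1059259696) (nat_lit 456) (nat_lit 3431715955) (nat_lit 532) (nat_lit 9352637084) (nat_lit 33) (nat_lit 5) (nat_lit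 39) (nat_lit 5) (nat_lit 40) (nat_lit 5) (nat_lit 257) (nat_lit 254) (nat_lit 209)) (XT.lf (nat_lit 0) (nat_lit 1809400065) (nat_lit 456) (nat_lit 11717332452) (nat_lit 532) (nat_lit 875928709) (nat_lit 34) (nat_lit 5) (nat_lit 40) (nat_lit 5) (nat_lit 41) (nat_lit 5) (nat_lit 258) (nat_lit 254) (nat_lit 208)))) (XT.nd (nat_lit 78) (nat_lit 0) (nat_lit 0) (XT.lf (nat_lit 0) (nat_lit 2800717174) (nat_lit 456) (nat_lit 5656226601) (nat_lit 532) (nat_lit 6535199185) (nat_lit 34) (nat_lit 5) (nat_lit 40) (nat_lit 5) (nat_lit 41) (nat_lit 5) (nat_lit 259) (nat_lit 254) (nat_lit 207)) (XT.nd (nat_lit 78) (nat_lit 0) (nat_lit 76) (XT.lf (nat_lit 76) (nat_lit 912141830) (nat_lit 0) (nat_lit 2951737143) (nat_lit 532) (nat_lit 11765688706) (nat_lit 35) (nat_lit 5) (nat_lit 34) (nat_lit 5) (nat_lit 41) (nat_lit 5) (nat_lit 260) (nat_lit 254) (nat_lit 206)) (XT.lf (nat_lit 0) (nat_lit 5215122330)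 (nat_lit 456) (nat_lit 8079163602) (nat_lit 76) (nat_lit 3007631854) (nat_lit 35) (nat_lit 5) (nat_lit 41) (nat_lit 5) (nat_lit 36) (nat_lit 5) (nat_lit 261) (nat_lit 254) (nat_lit 205))))) (XT.nd (nat_lit 234) (nat_lit 380) (nat_lit 0) (XT.nd (nat_lit 78) (nat_lit 456) (nat_lit 0) (XT.lf (nat_lit 0) (nat_lit 6725538660) (nat_lit 456) (nat_lit 1009827143) (nat_lit 76) (nat_lit 9288765051) (nat_lit 35) (nat_lit 5) (nat_lit 41) (nat_lit 5) (nat_lit 36) (nat_lit 5) (nat_lit 262) (nat_lit 254) (nat_lit 204)) (XT.nd (nat_lit 78) (nat_lit 0) (nat_lit 0) (XT.lf (nat_lit 0) (nat_lit 6951192017) (nat_lit 456) (nat_lit 1549073548) (nat_lit 532) (nat_lit 9292526140) (nat_lit 29) (nat_lit 5) (nat_lit 35) (nat_lit 5) (nat_lit 36) (nat_lit 5) (nat_lit 263) (nat_lit 254) (nat_lit 203)) (XT.lf (nat_lit 0) (nat_lit 10546309999) (nat_lit 532) (nat_lit 3161370973) (nat_lit 76) (nat_lit 4905055189) (nat_lit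 29) (nat_lit 5) (nat_lit 36) (nat_lit 5) (nat_lit 30) (nat_lit 5) (nat_lit 264) (nat_lit 254) (nat_lit 202)))) (XT.nd (nat_lit 78) (nat_lit 152) (nat_lit 0) (XT.lf (nat_lit 0) (nat_lit 5338801380) (nat_lit 228) (nat_lit 7565115121) (nat_lit 304) (nat_lit 6582657065) (nat_lit 26) (nat_lit 5) (nat_lit 29) (nat_lit 5) (nat_lit 30) (nat_lit 5) (nat_lit 265) (nat_lit 254) (nat_lit 201)) (XT.nd (nat_lit 78) (nat_lit 152) (nat_lit 0) (XT.lf (nat_lit 0) (nat_lit 14678009468) (nat_lit 228) (nat_lit 838842047) (nat_lit 304) (nat_lit 4908247065) (nat_lit 26) (nat_lit 5) (nat_lit 29) (nat_lit 5) (nat_lit 30) (nat_lit 5) (nat_lit 266) (nat_lit 254) (nat_lit 200)) (XT.lf (nat_lit 0) (nat_lit 3316229338) (nat_lit 152) (nat_lit 15238601276) (nat_lit 228) (nat_lit 2866703699) (nat_lit 24) (nat_lit 5) (nat_lit 26) (nat_lit 5) (nat_lit 27) (nat_lit 5) (nat_lit 267) (nat_lit 254) (nat_lit 199)))))) (XT.nd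 (nat_lit 468) (nat_lit 456) (nat_lit 0) (XT.nd (nat_lit 234) (nat_lit 152) (nat_lit 0) (XT.nd (nat_lit 78) (nat_lit 304) (nat_lit 0) (XT.lf (nat_lit 0) (nat_lit 13388269599) (nat_lit 152) (nat_lit 8608537297) (nat_lit 228) (nat_lit 488102652) (nat_lit 24) (nat_lit 5) (nat_lit 26) (nat_lit 5) (nat_lit 27) (nat_lit 5) (nat_lit 268) (nat_lit 254) (nat_lit 198)) (XT.nd (nat_lit 78) (nat_lit 0) (nat_lit 0) (XT.lf (nat_lit 0) (nat_lit 592606978) (nat_lit 228) (nat_lit 1381711022) (nat_lit 304) (nat_lit 21655310585) (nat_lit 20) (nat_lit 5) (nat_lit 23) (nat_lit 5) (nat_lit 24) (nat_lit 5) (nat_lit 269) (nat_lit 254) (nat_lit 197)) (XT.lf (nat_lit 0) (nat_lit 5001078056) (nat_lit 304) (nat_lit 13465800469) (nat_lit 76) (nat_lit 6366615560) (nat_lit 20) (nat_lit 5) (nat_lit 24) (nat_lit 5) (nat_lit 21) (nat_lit 5) (nat_lit 270) (nat_lit 254) (nat_lit 196)))) (XT.nd (nat_lit 78) (nat_lit 152)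 (nat_lit 0) (XT.lf (nat_lit 0) (nat_lit 8291106318) (nat_lit 304) (nat_lit 3183735628) (nat_lit 76) (nat_lit 14657211184) (nat_lit 20) (nat_lit 5) (nat_lit 24) (nat_lit 5) (nat_lit 21) (nat_lit 5) (nat_lit 271) (nat_lit 254) (nat_lit 195)) (XT.nd (nat_lit 78) (nat_lit 0) (nat_lit 0) (XT.lf (nat_lit 0) (nat_lit 8319509407) (nat_lit 152) (nat_lit 3711244061) (nat_lit 228) (nat_lit 15488899078) (nat_lit 18) (nat_lit 5) (nat_lit 20) (nat_lit 5) (nat_lit 21) (nat_lit 5) (nat_lit 272) (nat_lit 254) (nat_lit 194)) (XT.lf (nat_lit 0) (nat_lit 16258114398) (nat_lit 228) (nat_lit 8220005308) (nat_lit 76) (nat_lit 4525120718) (nat_lit 18) (nat_lit 5) (nat_lit 21) (nat_lit 5) (nat_lit 19) (nat_lit 5) (nat_lit 273) (nat_lit 254) (nat_lit 193))))) (XT.nd (nat_lit 234) (nat_lit 304) (nat_lit 0) (XT.nd (nat_lit 78) (nat_lit 0) (nat_lit 0) (XT.lf (nat_lit 0) (nat_lit 3711001921) (nat_lit 152) (nat_lit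 17286118688) (nat_lit 228) (nat_lit 9594577347) (nat_lit 16) (nat_lit 5) (nat_lit 18) (nat_lit 5) (nat_lit 19) (nat_lit 5) (nat_lit 274) (nat_lit 254) (nat_lit 192)) (XT.nd (nat_lit 78) (nat_lit 0) (nat_lit 0) (XT.lf (nat_lit 0) (nat_lit 17047608629) (nat_lit 152) (nat_lit 9280708420) (nat_lit 228) (nat_lit 5961924221) (nat_lit 16) (nat_lit 5) (nat_lit 18) (nat_lit 5) (nat_lit 19) (nat_lit 5) (nat_lit 275) (nat_lit 254) (nat_lit 191)) (XT.lf (nat_lit 0) (nat_lit 31435995646) (nat_lit 152) (nat_lit 639198948) (nat_lit 228) (nat_lit 2050389326) (nat_lit 16) (nat_lit 5) (nat_lit 18) (nat_lit 5) (nat_lit 19) (nat_lit 5) (nat_lit 276) (nat_lit 254) (nat_lit 190)))) (XT.nd (nat_lit 156) (nat_lit 152) (nat_lit 0) (XT.nd (nat_lit 78) (nat_lit 0) (nat_lit 0) (XT.lf (nat_lit 0) (nat_lit 2545871546) (nat_lit 152) (nat_lit 24930452778) (nat_lit 76) (nat_lit 8588845501) (nat_lit 14) (nat_lit 5)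 (nat_lit 16) (nat_lit 5) (nat_lit 15) (nat_lit 5) (nat_lit 277) (nat_lit 254) (nat_lit 189)) (XT.lf (nat_lit 0) (nat_lit 7481108784) (nat_lit 152) (nat_lit 12022853433) (nat_lit 76) (nat_lit 18645176103) (nat_lit 14) (nat_lit 5) (nat_lit 16) (nat_lit 5) (nat_lit 15) (nat_lit 5) (nat_lit 278) (nat_lit 254) (nat_lit 188))) (XT.nd (nat_lit 78) (nat_lit 0) (nat_lit 0) (XT.lf (nat_lit 0) (nat_lit 2003726887) (nat_lit 152) (nat_lit 10846367622) (nat_lit 228) (nat_lit 27546652692) (nat_lit 12) (nat_lit 5) (nat_lit 14) (nat_lit 5) (nat_lit 15) (nat_lit 5) (nat_lit 279) (nat_lit 254) (nat_lit 187)) (XT.lf (nat_lit 0) (nat_lit 17822673380) (nat_lit 152) (nat_lit 1145752669) (nat_lit 228) (nat_lit 23830187093) (nat_lit 12) (nat_lit 5) (nat_lit 14) (nat_lit 5) (nat_lit 15) (nat_lit 5) (nat_lit 280) (nat_lit 254) (nat_lit 186))))))))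
noncomputable def xc76 : XT := (XT.nd (nat_lit 1872) (nat_lit 228) (nat_lit 0) (XT.nd (nat_lit 936) (nat_lit 228) (nat_lit 0) (XT.nd (nat_lit 468) (nat_lit 76) (nat_lit 0) (XT.nd (nat_lit 234) (nat_lit 228) (nat_lit 0) (XT.nd (nat_lit 78) (nat_lit 76) (nat_lit 0) (XT.lf (nat_lit 0) (nat_lit 25792290105) (nat_lit 228) (nat_lit 10722999666) (nat_lit 76) (nat_lit 8860085258) (nat_lit 12) (nat_lit 5) (nat_lit 15) (nat_lit 5) (nat_lit 13) (nat_lit 4) (nat_lit 281) (nat_lit 254) (nat_lit 185)) (XT.nd (nat_lit 78) (nat_lit 0) (nat_lit 0) (XT.lf (nat_lit 0) (nat_lit 4872005247) (nat_lit 76) (nat_lit 28429265009) (nat_lit 152) (nat_lit 14845900637) (nat_lit 11) (nat_lit 5) (nat_lit 12) (nat_lit 5) (nat_lit 13) (nat_lit 4) (nat_lit 282) (nat_lit 254) (nat_lit 184)) (XT.lf (nat_lit 0) (nat_lit 22312616070) (nat_lit 76) (nat_lit 19384101787) (nat_lit 152) (nat_lit 9421160038) (nat_lit 11) (nat_lit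 5) (nat_lit 12) (nat_lit 5) (nat_lit 13) (nat_lit 4) (nat_lit 283) (nat_lit 254) (nat_lit 183)))) (XT.nd (nat_lit 78) (nat_lit 228) (nat_lit 0) (XT.lf (nat_lit 0) (nat_lit 41137530411) (nat_lit 76) (nat_lit 9619384951) (nat_lit 152) (nat_lit 3569902331) (nat_lit 11) (nat_lit 5) (nat_lit 12) (nat_lit 5) (nat_lit 13) (nat_lit 4) (nat_lit 284) (nat_lit 254) (nat_lit 182)) (XT.nd (nat_lit 78) (nat_lit 0) (nat_lit 0) (XT.lf (nat_lit 0) (nat_lit 2722748008) (nat_lit 228) (nat_lit 54017838374) (nat_lit 76) (nat_lit 1037751604) (nat_lit 8) (nat_lit 5) (nat_lit 11) (nat_lit 5) (nat_lit 9) (nat_lit 4) (nat_lit 285) (nat_lit 254) (nat_lit 181)) (XT.lf (nat_lit 0) (nat_lit 9939364461) (nat_lit 228) (nat_lit 39023388143) (nat_lit 76) (nat_lit 12486755730) (nat_lit 8) (nat_lit 5) (nat_lit 11) (nat_lit 5) (nat_lit 9) (nat_lit 4) (nat_lit 286) (nat_lit 254) (nat_lit 180))))) (XT.nd (nat_lit 234) (nat_lit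 0) (nat_lit 0) (XT.nd (nat_lit 78) (nat_lit 76) (nat_lit 0) (XT.lf (nat_lit 0) (nat_lit 17727367805) (nat_lit 228) (nat_lit 22839259698) (nat_lit 76) (nat_lit 24848238844) (nat_lit 8) (nat_lit 5) (nat_lit 11) (nat_lit 5) (nat_lit 9) (nat_lit 4) (nat_lit 287) (nat_lit 254) (nat_lit 179)) (XT.nd (nat_lit 78) (nat_lit 76) (nat_lit 0) (XT.lf (nat_lit 0) (nat_lit 26132909171) (nat_lit 228) (nat_lit 5369547093) (nat_lit 76) (nat_lit 38195454178) (nat_lit 8) (nat_lit 5) (nat_lit 11) (nat_lit 5) (nat_lit 9) (nat_lit 4) (nat_lit 288) (nat_lit 254) (nat_lit 178)) (XT.lf (nat_lit 0) (nat_lit 14199595151) (nat_lit 76) (nat_lit 21347704627) (nat_lit 152) (nat_lit 38749401796) (nat_lit 7) (nat_lit 5) (nat_lit 8) (nat_lit 5) (nat_lit 9) (nat_lit 4) (nat_lit 289) (nat_lit 254) (nat_lit 177)))) (XT.nd (nat_lit 78) (nat_lit 0) (nat_lit 0) (XT.lf (nat_lit 0) (nat_lit 35631385447) (nat_lit 76) (nat_lit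 10225353317) (nat_lit 152) (nat_lit 33395320260) (nat_lit 7) (nat_lit 5) (nat_lit 8) (nat_lit 5) (nat_lit 9) (nat_lit 4) (nat_lit 290) (nat_lit 254) (nat_lit 176)) (XT.nd (nat_lit 78) (nat_lit 0) (nat_lit 0) (XT.lf (nat_lit 0) (nat_lit 57029279107) (nat_lit 152) (nat_lit 25877044654) (nat_lit 0) (nat_lit 1694467315) (nat_lit 7) (nat_lit 5) (nat_lit 9) (nat_lit 4) (nat_lit 7) (nat_lit 4) (nat_lit 291) (nat_lit 254) (nat_lit 175)) (XT.lf (nat_lit 0) (nat_lit 69356932925) (nat_lit 152) (nat_lit 6986876694) (nat_lit 0) (nat_lit 14012719940) (nat_lit 7) (nat_lit 5) (nat_lit 9) (nat_lit 4) (nat_lit 7) (nat_lit 4) (nat_lit 292) (nat_lit 254) (nat_lit 174)))))) (XT.nd (nat_lit 468) (nat_lit 0) (nat_lit 0) (XT.nd (nat_lit 234) (nat_lit 76) (nat_lit 0) (XT.nd (nat_lit 78) (nat_lit 76) (nat_lit 0) (XT.lf (nat_lit 0) (nat_lit 14113717332) (nat_lit 76) (nat_lit 68892550897) (nat_lit 76) (nat_lit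 13539633104) (nat_lit 6) (nat_lit 4) (nat_lit 7) (nat_lit 5) (nat_lit 7) (nat_lit 4) (nat_lit 293) (nat_lit 254) (nat_lit 173)) (XT.nd (nat_lit 78) (nat_lit 76) (nat_lit 0) (XT.lf (nat_lit 0) (nat_lit 37293068551) (nat_lit 76) (nat_lit 60641683424) (nat_lit 76) (nat_lit 5280705624) (nat_lit 6) (nat_lit 4) (nat_lit 7) (nat_lit 5) (nat_lit 7) (nat_lit 4) (nat_lit 294) (nat_lit 254) (nat_lit 172)) (XT.lf (nat_lit 0) (nat_lit 3453251883) (nat_lit 152) (nat_lit 48185676851) (nat_lit 76) (nat_lit 58772949626) (nat_lit 5) (nat_lit 5) (nat_lit 7) (nat_lit 5) (nat_lit 6) (nat_lit 4) (nat_lit 295) (nat_lit 254) (nat_lit 171)))) (XT.nd (nat_lit 78) (nat_lit 76) (nat_lit 0) (XT.lf (nat_lit 0) (nat_lit 12597251234) (nat_lit 152) (nat_lit 29173068357) (nat_lit 76) (nat_lit 76402999290) (nat_lit 5) (nat_lit 5) (nat_lit 7) (nat_lit 5) (nat_lit 6) (nat_lit 4) (nat_lit 296) (nat_lit 254) (nat_lit 170))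 (XT.nd (nat_lit 78) (nat_lit 76) (nat_lit 0) (XT.lf (nat_lit 0) (nat_lit 22469641375) (nat_lit 152) (nat_lit 8644895159) (nat_lit 76) (nat_lit 95441396439) (nat_lit 5) (nat_lit 5) (nat_lit 7) (nat_lit 5) (nat_lit 6) (nat_lit 4) (nat_lit 297) (nat_lit 254) (nat_lit 169)) (XT.lf (nat_lit 0) (nat_lit 14232456281) (nat_lit 76) (nat_lit 19238759991) (nat_lit 152) (nat_lit 102110795839) (nat_lit 4) (nat_lit 5) (nat_lit 5) (nat_lit 5) (nat_lit 6) (nat_lit 4) (nat_lit 298) (nat_lit 254) (nat_lit 168))))) (XT.nd (nat_lit 234) (nat_lit 0) (nat_lit 0) (XT.nd (nat_lit 78) (nat_lit 0) (nat_lit 0) (XT.lf (nat_lit 0) (nat_lit 39426725580) (nat_lit 76) (nat_lit 6159757425) (nat_lit 152) (nat_lit 99725016163) (nat_lit 4) (nat_lit 5) (nat_lit 5) (nat_lit 5) (nat_lit 6) (nat_lit 4) (nat_lit 299) (nat_lit 254) (nat_lit 167)) (XT.nd (nat_lit 78) (nat_lit 0) (nat_lit 0) (XT.lf (nat_lit 0) (nat_lit 58859902644)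 (nat_lit 152) (nat_lit 89379096762) (nat_lit 0) (nat_lit 7565237604) (nat_lit 4) (nat_lit 5) (nat_lit 6) (nat_lit 4) (nat_lit 4) (nat_lit 4) (nat_lit 300) (nat_lit 254) (nat_lit 166)) (XT.lf (nat_lit 0) (nat_lit 73352744673) (nat_lit 152) (nat_lit 71717326117) (nat_lit 0) (nat_lit 22053725062) (nat_lit 4) (nat_lit 5) (nat_lit 6) (nat_lit 4) (nat_lit 4) (nat_lit 4) (nat_lit 301) (nat_lit 254) (nat_lit 165)))) (XT.nd (nat_lit 78) (nat_lit 0) (nat_lit 0) (XT.lf (nat_lit 0) (nat_lit 89002750286) (nat_lit 152) (nat_lit 52646656994) (nat_lit 0) (nat_lit 37699698665) (nat_lit 4) (nat_lit 5) (nat_lit 6) (nat_lit 4) (nat_lit 4) (nat_lit 4) (nat_lit 302) (nat_lit 254) (nat_lit 164)) (XT.nd (nat_lit 78) (nat_lit 0) (nat_lit 0) (XT.lf (nat_lit 0) (nat_lit 105902660258) (nat_lit 152) (nat_lit 32054078021) (nat_lit 0) (nat_lit 54595875294) (nat_lit 4) (nat_lit 5) (nat_lit 6) (nat_lit 4) (nat_lit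 4) (nat_lit 4) (nat_lit 303) (nat_lit 254) (nat_lit 163)) (XT.lf (nat_lit 0) (nat_lit 124152622202) (nat_lit 152) (nat_lit 9817559099) (nat_lit 0) (nat_lit 72842380439) (nat_lit 4) (nat_lit 5) (nat_lit 6) (nat_lit 4) (nat_lit 4) (nat_lit 4) (nat_lit 304) (nat_lit 254) (nat_lit 162))))))) (XT.nd (nat_lit 936) (nat_lit 76) (nat_lit 0) (XT.nd (nat_lit 468) (nat_lit 76) (nat_lit 0) (XT.nd (nat_lit 234) (nat_lit 0) (nat_lit 0) (XT.nd (nat_lit 78) (nat_lit 0) (nat_lit 0) (XT.lf (nat_lit 0) (nat_lit 14942137993) (nat_lit 76) (nat_lit 129278004827) (nat_lit 76) (nat_lit 77964562324) (nat_lit 3) (nat_lit 4) (nat_lit 4) (nat_lit 5) (nat_lit 4) (nat_lit 4) (nat_lit 305) (nat_lit 254) (nat_lit 161)) (XT.nd (nat_lit 78) (nat_lit 0) (nat_lit 0) (XT.lf (nat_lit 0) (nat_lit 42237815792) (nat_lit 76) (nat_lit 123921939578) (nat_lit 76) (nat_lit 72605533427) (nat_lit 3) (nat_lit 4) (nat_lit 4) (nat_lit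 5) (nat_lit 4) (nat_lit 4) (nat_lit 306) (nat_lit 254) (nat_lit 160)) (XT.lf (nat_lit 0) (nat_lit 71714251198) (nat_lit 76) (nat_lit 118138675372) (nat_lit 76) (nat_lit 66819525103) (nat_lit 3) (nat_lit 4) (nat_lit 4) (nat_lit 5) (nat_lit 4) (nat_lit 4) (nat_lit 307) (nat_lit 254) (nat_lit 159)))) (XT.nd (nat_lit 78) (nat_lit 0) (nat_lit 0) (XT.lf (nat_lit 0) (nat_lit 103546119385) (nat_lit 76) (nat_lit 111893941015) (nat_lit 76) (nat_lit 60572249895) (nat_lit 3) (nat_lit 4) (nat_lit 4) (nat_lit 5) (nat_lit 4) (nat_lit 4) (nat_lit 308) (nat_lit 254) (nat_lit 158)) (XT.nd (nat_lit 78) (nat_lit 0) (nat_lit 0) (XT.lf (nat_lit 0) (nat_lit 137922053645) (nat_lit 76) (nat_lit 105150730672) (nat_lit 76) (nat_lit 53826686913) (nat_lit 3) (nat_lit 4) (nat_lit 4) (nat_lit 5) (nat_lit 4) (nat_lit 4) (nat_lit 309) (nat_lit 254) (nat_lit 157)) (XT.lf (nat_lit 0) (nat_lit 175045763218) (nat_lit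 76) (nat_lit 97869084580) (nat_lit 76) (nat_lit 46542862451) (nat_lit 3) (nat_lit 4) (nat_lit 4) (nat_lit 5) (nat_lit 4) (nat_lit 4) (nat_lit 310) (nat_lit 254) (nat_lit 156))))) (XT.nd (nat_lit 234) (nat_lit 76) (nat_lit 0) (XT.nd (nat_lit 78) (nat_lit 0) (nat_lit 0) (XT.lf (nat_lit 0) (nat_lit 215137240457) (nat_lit 76) (nat_lit 90005852242) (nat_lit 76) (nat_lit 38677613105) (nat_lit 3) (nat_lit 4) (nat_lit 4) (nat_lit 5) (nat_lit 4) (nat_lit 4) (nat_lit 311) (nat_lit 254) (nat_lit 155)) (XT.nd (nat_lit 78) (nat_lit 0) (nat_lit 0) (XT.lf (nat_lit 0) (nat_lit 258434064487) (nat_lit 76) (nat_lit 81514436727) (nat_lit 76) (nat_lit 30184329988) (nat_lit 3) (nat_lit 4) (nat_lit 4) (nat_lit 5) (nat_lit 4) (nat_lit 4) (nat_lit 312) (nat_lit 254) (nat_lit 154)) (XT.lf (nat_lit 0) (nat_lit 305192809080) (nat_lit 76) (nat_lit 72344518534) (nat_lit 76) (nat_lit 21012682536) (nat_lit 3) (nat_lit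 4) (nat_lit 4) (nat_lit 5) (nat_lit 4) (nat_lit 4) (nat_lit 313) (nat_lit 254) (nat_lit 153)))) (XT.nd (nat_lit 78) (nat_lit 76) (nat_lit 0) (XT.lf (nat_lit 0) (nat_lit 355690563092) (nat_lit 76) (nat_lit 62441757409) (nat_lit 76) (nat_lit 11108320243) (nat_lit 3) (nat_lit 4) (nat_lit 4) (nat_lit 5) (nat_lit 4) (nat_lit 4) (nat_lit 314) (nat_lit 254) (nat_lit 152)) (XT.nd (nat_lit 78) (nat_lit 76) (nat_lit 0) (XT.lf (nat_lit 0) (nat_lit 410226572473) (nat_lit 76) (nat_lit 51747470321) (nat_lit 76) (nat_lit 412550594) (nat_lit 3) (nat_lit 4) (nat_lit 4) (nat_lit 5) (nat_lit 4) (nat_lit 4) (nat_lit 315) (nat_lit 254) (nat_lit 151)) (XT.lf (nat_lit 0) (nat_lit 10580840443) (nat_lit 152) (nat_lit 29328144347) (nat_lit 76) (nat_lit 458253874204) (nat_lit 2) (nat_lit 5) (nat_lit 4) (nat_lit 5) (nat_lit 3) (nat_lit 4) (nat_lit 316) (nat_lit 254) (nat_lit 150)))))) (XT.nd (nat_lit 468) (nat_lit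 0) (nat_lit 0) (XT.nd (nat_lit 234) (nat_lit 0) (nat_lit 0) (XT.nd (nat_lit 78) (nat_lit 76) (nat_lit 0) (XT.lf (nat_lit 0) (nat_lit 22430647408) (nat_lit 152) (nat_lit 4681816918) (nat_lit 76) (nat_lit 509687967214) (nat_lit 2) (nat_lit 5) (nat_lit 4) (nat_lit 5) (nat_lit 3) (nat_lit 4) (nat_lit 317) (nat_lit 254) (nat_lit 149)) (XT.nd (nat_lit 78) (nat_lit 0) (nat_lit 0) (XT.lf (nat_lit 0) (nat_lit 23089990364) (nat_lit 76) (nat_lit 12693053288) (nat_lit 152) (nat_lit 542701599331) (nat_lit 1) (nat_lit 5) (nat_lit 2) (nat_lit 5) (nat_lit 3) (nat_lit 4) (nat_lit 318) (nat_lit 254) (nat_lit 148)) (XT.lf (nat_lit 0) (nat_lit 50403526571) (nat_lit 152) (nat_lit 570217427739) (nat_lit 0) (nat_lit 2866646793) (nat_lit 1) (nat_lit 5) (nat_lit 3) (nat_lit 4) (nat_lit 1) (nat_lit 4) (nat_lit 319) (nat_lit 254) (nat_lit 147)))) (XT.nd (nat_lit 78) (nat_lit 0) (nat_lit 0) (XT.lf (nat_lit 0)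 (nat_lit 66522688718) (nat_lit 152) (nat_lit 586556910496) (nat_lit 0) (nat_lit 18984874675) (nat_lit 1) (nat_lit 5) (nat_lit 3) (nat_lit 4) (nat_lit 1) (nat_lit 4) (nat_lit 320) (nat_lit 254) (nat_lit 146)) (XT.nd (nat_lit 78) (nat_lit 0) (nat_lit 0) (XT.lf (nat_lit 0) (nat_lit 83930782817) (nat_lit 152) (nat_lit 604204659217) (nat_lit 0) (nat_lit 36392103713) (nat_lit 1) (nat_lit 5) (nat_lit 3) (nat_lit 4) (nat_lit 1) (nat_lit 4) (nat_lit 321) (nat_lit 254) (nat_lit 145)) (XT.lf (nat_lit 0) (nat_lit 102730967943) (nat_lit 152) (nat_lit 623265253153) (nat_lit 0) (nat_lit 55191487857) (nat_lit 1) (nat_lit 5) (nat_lit 3) (nat_lit 4) (nat_lit 1) (nat_lit 4) (nat_lit 322) (nat_lit 254) (nat_lit 144))))) (XT.nd (nat_lit 234) (nat_lit 0) (nat_lit 0) (XT.nd (nat_lit 78) (nat_lit 0) (nat_lit 0) (XT.lf (nat_lit 0) (nat_lit 123034652602) (nat_lit 152) (nat_lit 643851643972) (nat_lit 0) (nat_lit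 75494430866) (nat_lit 1) (nat_lit 5) (nat_lit 3) (nat_lit 4) (nat_lit 1) (nat_lit 4) (nat_lit 323) (nat_lit 254) (nat_lit 143)) (XT.nd (nat_lit 78) (nat_lit 0) (nat_lit 0) (XT.lf (nat_lit 0) (nat_lit 144962154924) (nat_lit 152) (nat_lit 666085825101) (nat_lit 0) (nat_lit 97421246475) (nat_lit 1) (nat_lit 5) (nat_lit 3) (nat_lit 4) (nat_lit 1) (nat_lit 4) (nat_lit 324) (nat_lit 254) (nat_lit 142)) (XT.lf (nat_lit 0) (nat_lit 168643415664) (nat_lit 152) (nat_lit 690099554652) (nat_lit 0) (nat_lit 121101871369) (nat_lit 1) (nat_lit 5) (nat_lit 3) (nat_lit 4) (nat_lit 1) (nat_lit 4) (nat_lit 325) (nat_lit 254) (nat_lit 141)))) (XT.nd (nat_lit 78) (nat_lit 0) (nat_lit 0) (XT.lf (nat_lit 0) (nat_lit 194218768219) (nat_lit 152) (nat_lit 716035136205) (nat_lit 0) (nat_lit 146676635179) (nat_lit 1) (nat_lit 5) (nat_lit 3) (nat_lit 4) (nat_lit 1) (nat_lit 4) (nat_lit 326) (nat_lit 254) (nat_lit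 140)) (XT.nd (nat_lit 78) (nat_lit 0) (nat_lit 0) (XT.lf (nat_lit 0) (nat_lit 221839770234) (nat_lit 152) (nat_lit 744046262097) (nat_lit 0) (nat_lit 174297092059) (nat_lit 1) (nat_lit 5) (nat_lit 3) (nat_lit 4) (nat_lit 1) (nat_lit 4) (nat_lit 327) (nat_lit 254) (nat_lit 139)) (XT.lf (nat_lit 0) (nat_lit 251670101720) (nat_lit 152) (nat_lit 774298924184) (nat_lit 0) (nat_lit 204126918791) (nat_lit 1) (nat_lit 5) (nat_lit 3) (nat_lit 4) (nat_lit 1) (nat_lit 4) (nat_lit 328) (nat_lit 254) (nat_lit 138))))))))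
noncomputable def xc77 : XT := (XT.nd (nat_lit 33072) (nat_lit 0) (nat_lit 304) (XT.nd (nat_lit 32136) (nat_lit 0) (nat_lit 1444) (XT.nd (nat_lit 468) (nat_lit 0) (nat_lit 0) (XT.nd (nat_lit 234) (nat_lit 0) (nat_lit 0) (XT.nd (nat_lit 78) (nat_lit 0) (nat_lit 0) (XT.lf (nat_lit 0) (nat_lit 283886535013) (nat_lit 152) (nat_lit 806972397502) (nat_lit 0) (nat_lit 236342884718) (nat_lit 1) (nat_lit 5) (nat_lit 3) (nat_lit 4) (nat_lit 1) (nat_lit 4) (nat_lit 329) (nat_lit 254) (nat_lit 137)) (XT.nd (nat_lit 78) (nat_lit 0) (nat_lit 0) (XT.lf (nat_lit 0) (nat_lit 318679982310) (nat_lit 152) (nat_lit 842260302632) (nat_lit 0) (nat_lit 271135899270) (nat_lit 1) (nat_lit 5) (nat_lit 3) (nat_lit 4) (nat_lit 1) (nat_lit 4) (nat_lit 330) (nat_lit 254) (nat_lit 136)) (XT.lf (nat_lit 0) (nat_lit 356256627002) (nat_lit 152) (nat_lit 880371753087) (nat_lit 0) (nat_lit 308712143271) (nat_lit 1) (nat_lit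 5) (nat_lit 3) (nat_lit 4) (nat_lit 1) (nat_lit 4) (nat_lit 331) (nat_lit 254) (nat_lit 135)))) (XT.nd (nat_lit 78) (nat_lit 0) (nat_lit 0) (XT.lf (nat_lit 0) (nat_lit 396839145502) (nat_lit 152) (nat_lit 921532594498) (nat_lit 0) (nat_lit 349294290762) (nat_lit 1) (nat_lit 5) (nat_lit 3) (nat_lit 4) (nat_lit 1) (nat_lit 4) (nat_lit 332) (nat_lit 254) (nat_lit 134)) (XT.nd (nat_lit 78) (nat_lit 0) (nat_lit 0) (XT.lf (nat_lit 0) (nat_lit 440668026809) (nat_lit 152) (nat_lit 965986742964) (nat_lit 0) (nat_lit 393122828541) (nat_lit 1) (nat_lit 5) (nat_lit 3) (nat_lit 4) (nat_lit 1) (nat_lit 4) (nat_lit 333) (nat_lit 254) (nat_lit 133)) (XT.lf (nat_lit 0) (nat_lit 488002997626) (nat_lit 152) (nat_lit 1013997630475) (nat_lit 0) (nat_lit 440457481277) (nat_lit 1) (nat_lit 5) (nat_lit 3) (nat_lit 4) (nat_lit 1) (nat_lit 4) (nat_lit 334) (nat_lit 254) (nat_lit 132))))) (XT.nd (nat_lit 31434)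 (nat_lit 0) (nat_lit 2432) (XT.nd (nat_lit 31278) (nat_lit 0) (nat_lit 2356) (XT.lf (nat_lit 0) (nat_lit 539124561485) (nat_lit 152) (nat_lit 1065849765994) (nat_lit 0) (nat_lit 491578750617) (nat_lit 1) (nat_lit 5) (nat_lit 3) (nat_lit 4) (nat_lit 1) (nat_lit 4) (nat_lit 335) (nat_lit 254) (nat_lit 131)) (XT.nd (nat_lit 78) (nat_lit 0) (nat_lit 0) (XT.lf (nat_lit 0) (nat_lit 99959129) (nat_lit 532) (nat_lit 3275010769) (nat_lit 532) (nat_lit 3275010769) (nat_lit 32) (nat_lit 3) (nat_lit 39) (nat_lit 3) (nat_lit 39) (nat_lit 5) (nat_lit 255) (nat_lit 255) (nat_lit 210)) (XT.lf (nat_lit 0) (nat_lit 546408176) (nat_lit 532) (nat_lit 1041659919) (nat_lit 532) (nat_lit 12214625183) (nat_lit 32) (nat_lit 3) (nat_lit 39) (nat_lit 3) (nat_lit 39) (nat_lit 5) (nat_lit 256) (nat_lit 255) (nat_lit 209)))) (XT.nd (nat_lit 78) (nat_lit 0) (nat_lit 0) (XT.lf (nat_lit 0) (nat_lit 1109991558) (nat_lit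 456) (nat_lit 9291720007) (nat_lit 532) (nat_lit 3929001084) (nat_lit 33) (nat_lit 5) (nat_lit 39) (nat_lit 5) (nat_lit 40) (nat_lit 5) (nat_lit 257) (nat_lit 255) (nat_lit 208)) (XT.nd (nat_lit 78) (nat_lit 0) (nat_lit 76) (XT.lf (nat_lit 0) (nat_lit 1757675708) (nat_lit 456) (nat_lit 3296355871) (nat_lit 532) (nat_lit 9844023463) (nat_lit 33) (nat_lit 5) (nat_lit 39) (nat_lit 5) (nat_lit 40) (nat_lit 5) (nat_lit 258) (nat_lit 255) (nat_lit 207)) (XT.lf (nat_lit 0) (nat_lit 2527690087) (nat_lit 456) (nat_lit 12201024568) (nat_lit 532) (nat_lit 776616528) (nat_lit 34) (nat_lit 5) (nat_lit 40) (nat_lit 5) (nat_lit 41) (nat_lit 5) (nat_lit 259) (nat_lit 255) (nat_lit 206)))))) (XT.nd (nat_lit 468) (nat_lit 684) (nat_lit 0) (XT.nd (nat_lit 234) (nat_lit 380) (nat_lit 0) (XT.nd (nat_lit 78) (nat_lit 0) (nat_lit 0) (XT.lf (nat_lit 0) (nat_lit 3555828267) (nat_lit 456) (nat_lit 5688637247)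 (nat_lit 532) (nat_lit 6901175788) (nat_lit 34) (nat_lit 5) (nat_lit 40) (nat_lit 5) (nat_lit 41) (nat_lit 5) (nat_lit 260) (nat_lit 255) (nat_lit 205)) (XT.nd (nat_lit 78) (nat_lit 0) (nat_lit 76) (XT.lf (nat_lit 76) (nat_lit 1394565532) (nat_lit 0) (nat_lit 3279987504) (nat_lit 532) (nat_lit 12162117182) (nat_lit 35) (nat_lit 5) (nat_lit 34) (nat_lit 5) (nat_lit 41) (nat_lit 5) (nat_lit 261) (nat_lit 255) (nat_lit 204)) (XT.lf (nat_lit 0) (nat_lit 6094691806) (nat_lit 456) (nat_lit 8304264734) (nat_lit 76) (nat_lit 3167220546) (nat_lit 35) (nat_lit 5) (nat_lit 41) (nat_lit 5) (nat_lit 36) (nat_lit 5) (nat_lit 262) (nat_lit 255) (nat_lit 203)))) (XT.nd (nat_lit 78) (nat_lit 456) (nat_lit 0) (XT.lf (nat_lit 0) (nat_lit 7691692577) (nat_lit 456) (nat_lit 700583726) (nat_lit 76) (nat_lit 9956846018) (nat_lit 35) (nat_lit 5) (nat_lit 41) (nat_lit 5) (nat_lit 36) (nat_lit 5) (nat_lit 263)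 (nat_lit 255) (nat_lit 202)) (XT.nd (nat_lit 78) (nat_lit 0) (nat_lit 0) (XT.lf (nat_lit 0) (nat_lit 7887442800) (nat_lit 456) (nat_lit 1698385667) (nat_lit 532) (nat_lit 9595452374) (nat_lit 29) (nat_lit 5) (nat_lit 35) (nat_lit 5) (nat_lit 36) (nat_lit 5) (nat_lit 264) (nat_lit 255) (nat_lit 201)) (XT.lf (nat_lit 0) (nat_lit 11764951019) (nat_lit 532) (nat_lit 3029373094) (nat_lit 76) (nat_lit 5275129684) (nat_lit 29) (nat_lit 5) (nat_lit 36) (nat_lit 5) (nat_lit 30) (nat_lit 5) (nat_lit 265) (nat_lit 255) (nat_lit 200))))) (XT.nd (nat_lit 234) (nat_lit 304) (nat_lit 0) (XT.nd (nat_lit 78) (nat_lit 152) (nat_lit 0) (XT.lf (nat_lit 0) (nat_lit 6141068552) (nat_lit 228) (nat_lit 8151347117) (nat_lit 304) (nat_lit 6722453397) (nat_lit 26) (nat_lit 5) (nat_lit 29) (nat_lit 5) (nat_lit 30) (nat_lit 5) (nat_lit 266) (nat_lit 255) (nat_lit 199)) (XT.nd (nat_lit 78) (nat_lit 152) (nat_lit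 0) (XT.lf (nat_lit 0) (nat_lit 16199623431) (nat_lit 228) (nat_lit 888377916) (nat_lit 304) (nat_lit 4942743652) (nat_lit 26) (nat_lit 5) (nat_lit 29) (nat_lit 5) (nat_lit 30) (nat_lit 5) (nat_lit 267) (nat_lit 255) (nat_lit 198)) (XT.lf (nat_lit 0) (nat_lit 3947338192) (nat_lit 152) (nat_lit 16406439869) (nat_lit 228) (nat_lit 2754483256) (nat_lit 24) (nat_lit 5) (nat_lit 26) (nat_lit 5) (nat_lit 27) (nat_lit 5) (nat_lit 268) (nat_lit 255) (nat_lit 197)))) (XT.nd (nat_lit 78) (nat_lit 304) (nat_lit 0) (XT.lf (nat_lit 0) (nat_lit 14798044599) (nat_lit 152) (nat_lit 9249767031) (nat_lit 228) (nat_lit 210894625) (nat_lit 24) (nat_lit 5) (nat_lit 26) (nat_lit 5) (nat_lit 27) (nat_lit 5) (nat_lit 269) (nat_lit 255) (nat_lit 196)) (XT.nd (nat_lit 78) (nat_lit 0) (nat_lit 0) (XT.lf (nat_lit 0) (nat_lit 987103776) (nat_lit 228) (nat_lit 1431688462) (nat_lit 304) (nat_lit 23076830934) (nat_lit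 20) (nat_lit 5) (nat_lit 23) (nat_lit 5) (nat_lit 24) (nat_lit 5) (nat_lit 270) (nat_lit 255) (nat_lit 195)) (XT.lf (nat_lit 0) (nat_lit 5667817313) (nat_lit 304) (nat_lit 14200464984) (nat_lit 76) (nat_lit 6929213337) (nat_lit 20) (nat_lit 5) (nat_lit 24) (nat_lit 5) (nat_lit 21) (nat_lit 5) (nat_lit 271) (nat_lit 255) (nat_lit 194))))))) (XT.nd (nat_lit 936) (nat_lit 456) (nat_lit 0) (XT.nd (nat_lit 468) (nat_lit 380) (nat_lit 0) (XT.nd (nat_lit 234) (nat_lit 152) (nat_lit 0) (XT.nd (nat_lit 78) (nat_lit 152) (nat_lit 0) (XT.lf (nat_lit 0) (nat_lit 9201295761) (nat_lit 304) (nat_lit 3121212698) (nat_lit 76) (nat_lit 15879110793) (nat_lit 20) (nat_lit 5) (nat_lit 24) (nat_lit 5) (nat_lit 21) (nat_lit 5) (nat_lit 272) (nat_lit 255) (nat_lit 193)) (XT.nd (nat_lit 78) (nat_lit 0) (nat_lit 0) (XT.lf (nat_lit 0) (nat_lit 9294261009) (nat_lit 152) (nat_lit 3935000763) (nat_lit 228) (nat_lit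 16471925383) (nat_lit 18) (nat_lit 5) (nat_lit 20) (nat_lit 5) (nat_lit 21) (nat_lit 5) (nat_lit 273) (nat_lit 255) (nat_lit 192)) (XT.lf (nat_lit 0) (nat_lit 17778955321) (nat_lit 228) (nat_lit 8574393364) (nat_lit 76) (nat_lit 4951467341) (nat_lit 18) (nat_lit 5) (nat_lit 21) (nat_lit 5) (nat_lit 19) (nat_lit 5) (nat_lit 274) (nat_lit 255) (nat_lit 191)))) (XT.nd (nat_lit 78) (nat_lit 0) (nat_lit 0) (XT.lf (nat_lit 0) (nat_lit 4303418181) (nat_lit 152) (nat_lit 18584460997) (nat_lit 228) (nat_lit 10133286344) (nat_lit 16) (nat_lit 5) (nat_lit 18) (nat_lit 5) (nat_lit 19) (nat_lit 5) (nat_lit 275) (nat_lit 255) (nat_lit 190)) (XT.nd (nat_lit 78) (nat_lit 0) (nat_lit 0) (XT.lf (nat_lit 0) (nat_lit 18685061862) (nat_lit 152) (nat_lit 9944880663) (nat_lit 228) (nat_lit 6226973352) (nat_lit 16) (nat_lit 5) (nat_lit 18) (nat_lit 5) (nat_lit 19) (nat_lit 5) (nat_lit 276) (nat_lit 255) (nat_lit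 189)) (XT.lf (nat_lit 0) (nat_lit 34204249874) (nat_lit 152) (nat_lit 617849279) (nat_lit 228) (nat_lit 2018212318) (nat_lit 16) (nat_lit 5) (nat_lit 18) (nat_lit 5) (nat_lit 19) (nat_lit 5) (nat_lit 277) (nat_lit 255) (nat_lit 188))))) (XT.nd (nat_lit 234) (nat_lit 76) (nat_lit 0) (XT.nd (nat_lit 78) (nat_lit 152) (nat_lit 0) (XT.lf (nat_lit 0) (nat_lit 2930203645) (nat_lit 152) (nat_lit 26654456360) (nat_lit 76) (nat_lit 9350543355) (nat_lit 14) (nat_lit 5) (nat_lit 16) (nat_lit 5) (nat_lit 15) (nat_lit 5) (nat_lit 278) (nat_lit 255) (nat_lit 187)) (XT.nd (nat_lit 78) (nat_lit 152) (nat_lit 0) (XT.lf (nat_lit 0) (nat_lit 8246877464) (nat_lit 152) (nat_lit 12734281115) (nat_lit 76) (nat_lit 20205855205) (nat_lit 14) (nat_lit 5) (nat_lit 16) (nat_lit 5) (nat_lit 15) (nat_lit 5) (nat_lit 279) (nat_lit 255) (nat_lit 186)) (XT.lf (nat_lit 0) (nat_lit 2408086375) (nat_lit 152) (nat_lit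 11630774243) (nat_lit 228) (nat_lit 29576142337) (nat_lit 12) (nat_lit 5) (nat_lit 14) (nat_lit 5) (nat_lit 15) (nat_lit 5) (nat_lit 280) (nat_lit 255) (nat_lit 185)))) (XT.nd (nat_lit 78) (nat_lit 76) (nat_lit 0) (XT.lf (nat_lit 0) (nat_lit 19474469971) (nat_lit 152) (nat_lit 1160280671) (nat_lit 228) (nat_lit 25575266347) (nat_lit 12) (nat_lit 5) (nat_lit 14) (nat_lit 5) (nat_lit 15) (nat_lit 5) (nat_lit 281) (nat_lit 255) (nat_lit 184)) (XT.nd (nat_lit 78) (nat_lit 76) (nat_lit 0) (XT.lf (nat_lit 0) (nat_lit 27995215480) (nat_lit 228) (nat_lit 11361753627) (nat_lit 76) (nat_lit 9636738140) (nat_lit 12) (nat_lit 5) (nat_lit 15) (nat_lit 5) (nat_lit 13) (nat_lit 4) (nat_lit 282) (nat_lit 255) (nat_lit 183)) (XT.lf (nat_lit 0) (nat_lit 5475305197) (nat_lit 76) (nat_lit 30624408020) (nat_lit 152) (nat_lit 15887989215) (nat_lit 11) (nat_lit 5) (nat_lit 12) (nat_lit 5) (nat_lit 13) (nat_lit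 4) (nat_lit 283) (nat_lit 255) (nat_lit 182)))))) (XT.nd (nat_lit 468) (nat_lit 228) (nat_lit 0) (XT.nd (nat_lit 234) (nat_lit 0) (nat_lit 0) (XT.nd (nat_lit 78) (nat_lit 228) (nat_lit 0) (XT.lf (nat_lit 0) (nat_lit 24295347143) (nat_lit 76) (nat_lit 20861498273) (nat_lit 152) (nat_lit 10040053329) (nat_lit 11) (nat_lit 5) (nat_lit 12) (nat_lit 5) (nat_lit 13) (nat_lit 4) (nat_lit 284) (nat_lit 255) (nat_lit 181)) (XT.nd (nat_lit 78) (nat_lit 228) (nat_lit 0) (XT.lf (nat_lit 0) (nat_lit 44611608574) (nat_lit 76) (nat_lit 10321036064) (nat_lit 152) (nat_lit 3730680154) (nat_lit 11) (nat_lit 5) (nat_lit 12) (nat_lit 5) (nat_lit 13) (nat_lit 4) (nat_lit 285) (nat_lit 255) (nat_lit 180)) (XT.lf (nat_lit 0) (nat_lit 3056502286) (nat_lit 228) (nat_lit 58146553269) (nat_lit 76) (nat_lit 1187911004) (nat_lit 8) (nat_lit 5) (nat_lit 11) (nat_lit 5) (nat_lit 9) (nat_lit 4) (nat_lit 286) (nat_lit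 255) (nat_lit 179)))) (XT.nd (nat_lit 78) (nat_lit 0) (nat_lit 0) (XT.lf (nat_lit 0) (nat_lit 10841860319) (nat_lit 228) (nat_lit 41966821995) (nat_lit 76) (nat_lit 13547862181) (nat_lit 8) (nat_lit 5) (nat_lit 11) (nat_lit 5) (nat_lit 9) (nat_lit 4) (nat_lit 287) (nat_lit 255) (nat_lit 178)) (XT.nd (nat_lit 78) (nat_lit 0) (nat_lit 0) (XT.lf (nat_lit 0) (nat_lit 19244952323) (nat_lit 228) (nat_lit 24501180845) (nat_lit 76) (nat_lit 26893659055) (nat_lit 8) (nat_lit 5) (nat_lit 11) (nat_lit 5) (nat_lit 9) (nat_lit 4) (nat_lit 288) (nat_lit 255) (nat_lit 177)) (XT.lf (nat_lit 0) (nat_lit 28315574399) (nat_lit 228) (nat_lit 5646129723) (nat_lit 76) (nat_lit 41304387831) (nat_lit 8) (nat_lit 5) (nat_lit 11) (nat_lit 5) (nat_lit 9) (nat_lit 4) (nat_lit 289) (nat_lit 255) (nat_lit 176))))) (XT.nd (nat_lit 234) (nat_lit 152) (nat_lit 0) (XT.nd (nat_lit 78) (nat_lit 0) (nat_lit 0) (XT.lf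 (nat_lit 0) (nat_lit 15484670961) (nat_lit 76) (nat_lit 22995214128) (nat_lit 152) (nat_lit 41753181167) (nat_lit 7) (nat_lit 5) (nat_lit 8) (nat_lit 5) (nat_lit 9) (nat_lit 4) (nat_lit 290) (nat_lit 255) (nat_lit 175)) (XT.nd (nat_lit 78) (nat_lit 0) (nat_lit 0) (XT.lf (nat_lit 0) (nat_lit 38619959429) (nat_lit 76) (nat_lit 10987541888) (nat_lit 152) (nat_lit 35977897018) (nat_lit 7) (nat_lit 5) (nat_lit 8) (nat_lit 5) (nat_lit 9) (nat_lit 4) (nat_lit 291) (nat_lit 255) (nat_lit 174)) (XT.lf (nat_lit 0) (nat_lit 61668997730) (nat_lit 152) (nat_lit 27814295623) (nat_lit 0) (nat_lit 1879141706) (nat_lit 7) (nat_lit 5) (nat_lit 9) (nat_lit 4) (nat_lit 7) (nat_lit 4) (nat_lit 292) (nat_lit 255) (nat_lit 173)))) (XT.nd (nat_lit 156) (nat_lit 76) (nat_lit 0) (XT.nd (nat_lit 78) (nat_lit 76) (nat_lit 0) (XT.lf (nat_lit 0) (nat_lit 74977132275) (nat_lit 152) (nat_lit 7422759604) (nat_lit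 0) (nat_lit 15179216245) (nat_lit 7) (nat_lit 5) (nat_lit 9) (nat_lit 4) (nat_lit 7) (nat_lit 4) (nat_lit 293) (nat_lit 255) (nat_lit 172)) (XT.lf (nat_lit 0) (nat_lit 15362766318) (nat_lit 76) (nat_lit 74353225909) (nat_lit 76) (nat_lit 14547846908) (nat_lit 6) (nat_lit 4) (nat_lit 7) (nat_lit 5) (nat_lit 7) (nat_lit 4) (nat_lit 294) (nat_lit 255) (nat_lit 171))) (XT.nd (nat_lit 78) (nat_lit 76) (nat_lit 0) (XT.lf (nat_lit 0) (nat_lit 40387580331) (nat_lit 76) (nat_lit 65446046746) (nat_lit 76) (nat_lit 5633757588) (nat_lit 6) (nat_lit 4) (nat_lit 7) (nat_lit 5) (nat_lit 7) (nat_lit 4) (nat_lit 295) (nat_lit 255) (nat_lit 170)) (XT.lf (nat_lit 0) (nat_lit 3790560730) (nat_lit 152) (nat_lit 51934321131) (nat_lit 76) (nat_lit 63514906882) (nat_lit 5) (nat_lit 5) (nat_lit 7) (nat_lit 5) (nat_lit 6) (nat_lit 4) (nat_lit 296) (nat_lit 255) (nat_lit 169))))))))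
noncomputable def xc78 : XT := (XT.nd (nat_lit 1872) (nat_lit 0) (nat_lit 0) (XT.nd (nat_lit 936) (nat_lit 152) (nat_lit 0) (XT.nd (nat_lit 468) (nat_lit 76) (nat_lit 0) (XT.nd (nat_lit 234) (nat_lit 0) (nat_lit 0) (XT.nd (nat_lit 78) (nat_lit 76) (nat_lit 0) (XT.lf (nat_lit 0) (nat_lit 13661557904) (nat_lit 152) (nat_lit 31408571355) (nat_lit 76) (nat_lit 82552388572) (nat_lit 5) (nat_lit 5) (nat_lit 7) (nat_lit 5) (nat_lit 6) (nat_lit 4) (nat_lit 297) (nat_lit 255) (nat_lit 168)) (XT.nd (nat_lit 78) (nat_lit 76) (nat_lit 0) (XT.lf (nat_lit 0) (nat_lit 24319552102) (nat_lit 152) (nat_lit 9245428928) (nat_lit 76) (nat_lit 103111105691) (nat_lit 5) (nat_lit 5) (nat_lit 7) (nat_lit 5) (nat_lit 6) (nat_lit 4) (nat_lit 298) (nat_lit 255) (nat_lit 167)) (XT.lf (nat_lit 0) (nat_lit 15459805365) (nat_lit 76) (nat_lit 20739705134) (nat_lit 152) (nat_lit 110224890998) (nat_lit 4) (nat_lit 5)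 (nat_lit 5) (nat_lit 5) (nat_lit 6) (nat_lit 4) (nat_lit 299) (nat_lit 255) (nat_lit 166)))) (XT.nd (nat_lit 78) (nat_lit 0) (nat_lit 0) (XT.lf (nat_lit 0) (nat_lit 42663041943) (nat_lit 76) (nat_lit 6617208707) (nat_lit 152) (nat_lit 107652305874) (nat_lit 4) (nat_lit 5) (nat_lit 5) (nat_lit 5) (nat_lit 6) (nat_lit 4) (nat_lit 300) (nat_lit 255) (nat_lit 165)) (XT.nd (nat_lit 78) (nat_lit 0) (nat_lit 0) (XT.lf (nat_lit 0) (nat_lit 63612860296) (nat_lit 152) (nat_lit 96450543742) (nat_lit 0) (nat_lit 8201532535) (nat_lit 4) (nat_lit 5) (nat_lit 6) (nat_lit 4) (nat_lit 4) (nat_lit 4) (nat_lit 301) (nat_lit 255) (nat_lit 164)) (XT.lf (nat_lit 0) (nat_lit 79261858173) (nat_lit 152) (nat_lit 77381674464) (nat_lit 0) (nat_lit 23846797069) (nat_lit 4) (nat_lit 5) (nat_lit 6) (nat_lit 4) (nat_lit 4) (nat_lit 4) (nat_lit 302) (nat_lit 255) (nat_lit 163))))) (XT.nd (nat_lit 234) (nat_lit 76)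 (nat_lit 0) (XT.nd (nat_lit 78) (nat_lit 0) (nat_lit 0) (XT.lf (nat_lit 0) (nat_lit 96160835056) (nat_lit 152) (nat_lit 56790762015) (nat_lit 0) (nat_lit 40742317153) (nat_lit 4) (nat_lit 5) (nat_lit 6) (nat_lit 4) (nat_lit 4) (nat_lit 4) (nat_lit 303) (nat_lit 255) (nat_lit 162)) (XT.nd (nat_lit 78) (nat_lit 0) (nat_lit 0) (XT.lf (nat_lit 0) (nat_lit 114409933029) (nat_lit 152) (nat_lit 34555786171) (nat_lit 0) (nat_lit 58988214386) (nat_lit 4) (nat_lit 5) (nat_lit 6) (nat_lit 4) (nat_lit 4) (nat_lit 4) (nat_lit 304) (nat_lit 255) (nat_lit 161)) (XT.lf (nat_lit 0) (nat_lit 134117294896) (nat_lit 152) (nat_lit 10544984112) (nat_lit 0) (nat_lit 78692612605) (nat_lit 4) (nat_lit 5) (nat_lit 6) (nat_lit 4) (nat_lit 4) (nat_lit 4) (nat_lit 305) (nat_lit 255) (nat_lit 160)))) (XT.nd (nat_lit 78) (nat_lit 0) (nat_lit 0) (XT.lf (nat_lit 0) (nat_lit 16194020906) (nat_lit 76) (nat_lit 139595150708)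 (nat_lit 76) (nat_lit 84167724299) (nat_lit 3) (nat_lit 4) (nat_lit 4) (nat_lit 5) (nat_lit 4) (nat_lit 4) (nat_lit 306) (nat_lit 255) (nat_lit 159)) (XT.nd (nat_lit 78) (nat_lit 0) (nat_lit 0) (XT.lf (nat_lit 0) (nat_lit 45669166864) (nat_lit 76) (nat_lit 133812459091) (nat_lit 76) (nat_lit 78382491831) (nat_lit 3) (nat_lit 4) (nat_lit 4) (nat_lit 5) (nat_lit 4) (nat_lit 4) (nat_lit 307) (nat_lit 255) (nat_lit 158)) (XT.lf (nat_lit 0) (nat_lit 77499841117) (nat_lit 76) (nat_lit 127568254909) (nat_lit 76) (nat_lit 72135935009) (nat_lit 3) (nat_lit 4) (nat_lit 4) (nat_lit 5) (nat_lit 4) (nat_lit 4) (nat_lit 308) (nat_lit 255) (nat_lit 157)))))) (XT.nd (nat_lit 468) (nat_lit 152) (nat_lit 0) (XT.nd (nat_lit 234) (nat_lit 0) (nat_lit 0) (XT.nd (nat_lit 78) (nat_lit 0) (nat_lit 0) (XT.lf (nat_lit 0) (nat_lit 111874669883) (nat_lit 76) (nat_lit 120825535469) (nat_lit 76) (nat_lit 65391037200)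 (nat_lit 3) (nat_lit 4) (nat_lit 4) (nat_lit 5) (nat_lit 4) (nat_lit 4) (nat_lit 309) (nat_lit 255) (nat_lit 156)) (XT.nd (nat_lit 78) (nat_lit 0) (nat_lit 0) (XT.lf (nat_lit 0) (nat_lit 148997355851) (nat_lit 76) (nat_lit 113544343916) (nat_lit 76) (nat_lit 58107828638) (nat_lit 3) (nat_lit 4) (nat_lit 4) (nat_lit 5) (nat_lit 4) (nat_lit 4) (nat_lit 310) (nat_lit 255) (nat_lit 155)) (XT.lf (nat_lit 0) (nat_lit 189087885307) (nat_lit 76) (nat_lit 105681532448) (nat_lit 76) (nat_lit 50243149569) (nat_lit 3) (nat_lit 4) (nat_lit 4) (nat_lit 5) (nat_lit 4) (nat_lit 4) (nat_lit 311) (nat_lit 255) (nat_lit 154)))) (XT.nd (nat_lit 78) (nat_lit 0) (nat_lit 0) (XT.lf (nat_lit 0) (nat_lit 232383831760) (nat_lit 76) (nat_lit 97190506627) (nat_lit 76) (nat_lit 41750394488) (nat_lit 3) (nat_lit 4) (nat_lit 4) (nat_lit 5) (nat_lit 4) (nat_lit 4) (nat_lit 312) (nat_lit 255) (nat_lit 153)) (XT.nd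 (nat_lit 78) (nat_lit 0) (nat_lit 0) (XT.lf (nat_lit 0) (nat_lit 279141763782) (nat_lit 76) (nat_lit 88020949262) (nat_lit 76) (nat_lit 32579235957) (nat_lit 3) (nat_lit 4) (nat_lit 4) (nat_lit 5) (nat_lit 4) (nat_lit 4) (nat_lit 313) (nat_lit 255) (nat_lit 152)) (XT.lf (nat_lit 0) (nat_lit 329638765413) (nat_lit 76) (nat_lit 78118522237) (nat_lit 76) (nat_lit 22675326369) (nat_lit 3) (nat_lit 4) (nat_lit 4) (nat_lit 5) (nat_lit 4) (nat_lit 4) (nat_lit 314) (nat_lit 255) (nat_lit 151))))) (XT.nd (nat_lit 234) (nat_lit 76) (nat_lit 0) (XT.nd (nat_lit 78) (nat_lit 76) (nat_lit 0) (XT.lf (nat_lit 0) (nat_lit 384174078146) (nat_lit 76) (nat_lit 67424544501) (nat_lit 76) (nat_lit 11979975891) (nat_lit 3) (nat_lit 4) (nat_lit 4) (nat_lit 5) (nat_lit 4) (nat_lit 4) (nat_lit 315) (nat_lit 255) (nat_lit 150)) (XT.nd (nat_lit 78) (nat_lit 76) (nat_lit 0) (XT.lf (nat_lit 0) (nat_lit 443070874203)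 (nat_lit 76) (nat_lit 55875644336) (nat_lit 76) (nat_lit 429804668) (nat_lit 3) (nat_lit 4) (nat_lit 4) (nat_lit 5) (nat_lit 4) (nat_lit 4) (nat_lit 316) (nat_lit 255) (nat_lit 149)) (XT.lf (nat_lit 0) (nat_lit 11441161471) (nat_lit 152) (nat_lit 31649400711) (nat_lit 76) (nat_lit 494924188534) (nat_lit 2) (nat_lit 5) (nat_lit 4) (nat_lit 5) (nat_lit 3) (nat_lit 4) (nat_lit 317) (nat_lit 255) (nat_lit 148)))) (XT.nd (nat_lit 78) (nat_lit 76) (nat_lit 0) (XT.lf (nat_lit 0) (nat_lit 24237926786) (nat_lit 152) (nat_lit 5033218584) (nat_lit 76) (nat_lit 550472267919) (nat_lit 2) (nat_lit 5) (nat_lit 4) (nat_lit 5) (nat_lit 3) (nat_lit 4) (nat_lit 318) (nat_lit 255) (nat_lit 147)) (XT.nd (nat_lit 78) (nat_lit 0) (nat_lit 0) (XT.lf (nat_lit 0) (nat_lit 24959747365) (nat_lit 76) (nat_lit 13698359688) (nat_lit 152) (nat_lit 586104289176) (nat_lit 1) (nat_lit 5) (nat_lit 2) (nat_lit 5) (nat_lit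 3) (nat_lit 4) (nat_lit 319) (nat_lit 255) (nat_lit 146)) (XT.lf (nat_lit 0) (nat_lit 54447534369) (nat_lit 152) (nat_lit 615813218118) (nat_lit 0) (nat_lit 3104895876) (nat_lit 1) (nat_lit 5) (nat_lit 3) (nat_lit 4) (nat_lit 1) (nat_lit 4) (nat_lit 320) (nat_lit 255) (nat_lit 145))))))) (XT.nd (nat_lit 936) (nat_lit 0) (nat_lit 0) (XT.nd (nat_lit 468) (nat_lit 0) (nat_lit 0) (XT.nd (nat_lit 234) (nat_lit 0) (nat_lit 0) (XT.nd (nat_lit 78) (nat_lit 0) (nat_lit 0) (XT.lf (nat_lit 0) (nat_lit 71855360919) (nat_lit 152) (nat_lit 633461459779) (nat_lit 0) (nat_lit 20511921444) (nat_lit 1) (nat_lit 5) (nat_lit 3) (nat_lit 4) (nat_lit 1) (nat_lit 4) (nat_lit 321) (nat_lit 255) (nat_lit 144)) (XT.nd (nat_lit 78) (nat_lit 0) (nat_lit 0) (XT.lf (nat_lit 0) (nat_lit 90655298315) (nat_lit 152) (nat_lit 652522510143) (nat_lit 0) (nat_lit 39311117190) (nat_lit 1) (nat_lit 5) (nat_lit 3) (nat_lit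 4) (nat_lit 1) (nat_lit 4) (nat_lit 322) (nat_lit 255) (nat_lit 143)) (XT.lf (nat_lit 0) (nat_lit 110958753595) (nat_lit 152) (nat_lit 673109323580) (nat_lit 0) (nat_lit 59613885757) (nat_lit 1) (nat_lit 5) (nat_lit 3) (nat_lit 4) (nat_lit 1) (nat_lit 4) (nat_lit 323) (nat_lit 255) (nat_lit 142)))) (XT.nd (nat_lit 78) (nat_lit 0) (nat_lit 0) (XT.lf (nat_lit 0) (nat_lit 132886043528) (nat_lit 152) (nat_lit 695343896022) (nat_lit 0) (nat_lit 81540539845) (nat_lit 1) (nat_lit 5) (nat_lit 3) (nat_lit 4) (nat_lit 1) (nat_lit 4) (nat_lit 324) (nat_lit 255) (nat_lit 141)) (XT.nd (nat_lit 78) (nat_lit 0) (nat_lit 0) (XT.lf (nat_lit 0) (nat_lit 156567107612) (nat_lit 152) (nat_lit 719357987899) (nat_lit 0) (nat_lit 105221015183) (nat_lit 1) (nat_lit 5) (nat_lit 3) (nat_lit 4) (nat_lit 1) (nat_lit 4) (nat_lit 325) (nat_lit 255) (nat_lit 140)) (XT.lf (nat_lit 0) (nat_lit 182142278079) (nat_lit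 152) (nat_lit 745293904940) (nat_lit 0) (nat_lit 130795640515) (nat_lit 1) (nat_lit 5) (nat_lit 3) (nat_lit 4) (nat_lit 1) (nat_lit 4) (nat_lit 326) (nat_lit 255) (nat_lit 139))))) (XT.nd (nat_lit 234) (nat_lit 0) (nat_lit 0) (XT.nd (nat_lit 78) (nat_lit 0) (nat_lit 0) (XT.lf (nat_lit 0) (nat_lit 209763111493) (nat_lit 152) (nat_lit 773305341468) (nat_lit 0) (nat_lit 158415969175) (nat_lit 1) (nat_lit 5) (nat_lit 3) (nat_lit 4) (nat_lit 1) (nat_lit 4) (nat_lit 327) (nat_lit 255) (nat_lit 138)) (XT.nd (nat_lit 78) (nat_lit 0) (nat_lit 0) (XT.lf (nat_lit 0) (nat_lit 239593286868) (nat_lit 152) (nat_lit 803558291182) (nat_lit 0) (nat_lit 188245677184) (nat_lit 1) (nat_lit 5) (nat_lit 3) (nat_lit 4) (nat_lit 1) (nat_lit 4) (nat_lit 328) (nat_lit 255) (nat_lit 137)) (XT.lf (nat_lit 0) (nat_lit 271809575613) (nat_lit 152) (nat_lit 836232030820) (nat_lit 0) (nat_lit 220461533183) (nat_lit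 1) (nat_lit 5) (nat_lit 3) (nat_lit 4) (nat_lit 1) (nat_lit 4) (nat_lit 329) (nat_lit 255) (nat_lit 136)))) (XT.nd (nat_lit 78) (nat_lit 0) (nat_lit 0) (XT.lf (nat_lit 0) (nat_lit 306602889069) (nat_lit 152) (nat_lit 871520182544) (nat_lit 0) (nat_lit 255254445949) (nat_lit 1) (nat_lit 5) (nat_lit 3) (nat_lit 4) (nat_lit 1) (nat_lit 4) (nat_lit 330) (nat_lit 255) (nat_lit 135)) (XT.nd (nat_lit 78) (nat_lit 0) (nat_lit 0) (XT.lf (nat_lit 0) (nat_lit 344179409834) (nat_lit 152) (nat_lit 909631861325) (nat_lit 0) (nat_lit 292830595705) (nat_lit 1) (nat_lit 5) (nat_lit 3) (nat_lit 4) (nat_lit 1) (nat_lit 4) (nat_lit 331) (nat_lit 255) (nat_lit 134)) (XT.lf (nat_lit 0) (nat_lit 384761813588) (nat_lit 152) (nat_lit 950792914151) (nat_lit 0) (nat_lit 333412655931) (nat_lit 1) (nat_lit 5) (nat_lit 3) (nat_lit 4) (nat_lit 1) (nat_lit 4) (nat_lit 332) (nat_lit 255) (nat_lit 133)))))) (XT.nd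 (nat_lit 31824) (nat_lit 0) (nat_lit 2128) (XT.nd (nat_lit 31590) (nat_lit 0) (nat_lit 2356) (XT.nd (nat_lit 78) (nat_lit 0) (nat_lit 0) (XT.lf (nat_lit 0) (nat_lit 428590588647) (nat_lit 152) (nat_lit 995247258371) (nat_lit 0) (nat_lit 377241112909) (nat_lit 1) (nat_lit 5) (nat_lit 3) (nat_lit 4) (nat_lit 1) (nat_lit 4) (nat_lit 333) (nat_lit 255) (nat_lit 132)) (XT.nd (nat_lit 31434) (nat_lit 0) (nat_lit 2356) (XT.lf (nat_lit 0) (nat_lit 475925461088) (nat_lit 152) (nat_lit 1043258327135) (nat_lit 0) (nat_lit 424575690831) (nat_lit 1) (nat_lit 5) (nat_lit 3) (nat_lit 4) (nat_lit 1) (nat_lit 4) (nat_lit 334) (nat_lit 255) (nat_lit 131)) (XT.lf (nat_lit 0) (nat_lit 438308278) (nat_lit 532) (nat_lit 3357554097) (nat_lit 532) (nat_lit 3357554097) (nat_lit 32) (nat_lit 3) (nat_lit 39) (nat_lit 3) (nat_lit 39) (nat_lit 5) (nat_lit 256) (nat_lit 256) (nat_lit 208)))) (XT.nd (nat_lit 78)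 (nat_lit 0) (nat_lit 76) (XT.lf (nat_lit 0) (nat_lit 1201884569) (nat_lit 532) (nat_lit 792663948) (nat_lit 532) (nat_lit 12859466433) (nat_lit 32) (nat_lit 3) (nat_lit 39) (nat_lit 3) (nat_lit 39) (nat_lit 5) (nat_lit 257) (nat_lit 256) (nat_lit 207)) (XT.nd (nat_lit 78) (nat_lit 0) (nat_lit 0) (XT.lf (nat_lit 0) (nat_lit 1767008694) (nat_lit 456) (nat_lit 9655523014) (nat_lit 532) (nat_lit 4005520626) (nat_lit 33) (nat_lit 5) (nat_lit 39) (nat_lit 5) (nat_lit 40) (nat_lit 5) (nat_lit 258) (nat_lit 256) (nat_lit 206)) (XT.lf (nat_lit 0) (nat_lit 2424417367) (nat_lit 456) (nat_lit 3208643422) (nat_lit 532) (nat_lit 10411359651) (nat_lit 33) (nat_lit 5) (nat_lit 39) (nat_lit 5) (nat_lit 40) (nat_lit 5) (nat_lit 259) (nat_lit 256) (nat_lit 205))))) (XT.nd (nat_lit 234) (nat_lit 380) (nat_lit 0) (XT.nd (nat_lit 78) (nat_lit 0) (nat_lit 0) (XT.lf (nat_lit 0) (nat_lit 3221621701) (nat_lit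 456) (nat_lit 12788136642) (nat_lit 532) (nat_lit 693524247) (nat_lit 34) (nat_lit 5) (nat_lit 40) (nat_lit 5) (nat_lit 41) (nat_lit 5) (nat_lit 260) (nat_lit 256) (nat_lit 204)) (XT.nd (nat_lit 78) (nat_lit 0) (nat_lit 0) (XT.lf (nat_lit 0) (nat_lit 4295587497) (nat_lit 456) (nat_lit 5783570920) (nat_lit 532) (nat_lit 7318805404) (nat_lit 34) (nat_lit 5) (nat_lit 40) (nat_lit 5) (nat_lit 41) (nat_lit 5) (nat_lit 261) (nat_lit 256) (nat_lit 203)) (XT.lf (nat_lit 76) (nat_lit 1857170175) (nat_lit 0) (nat_lit 3621357174) (nat_lit 532) (nat_lit 12667985545) (nat_lit 35) (nat_lit 5) (nat_lit 34) (nat_lit 5) (nat_lit 41) (nat_lit 5) (nat_lit 262) (nat_lit 256) (nat_lit 202)))) (XT.nd (nat_lit 156) (nat_lit 456) (nat_lit 0) (XT.nd (nat_lit 78) (nat_lit 0) (nat_lit 0) (XT.lf (nat_lit 0) (nat_lit 6978666061) (nat_lit 456) (nat_lit 8607467405) (nat_lit 76) (nat_lit 3351135008) (nat_lit 35)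 (nat_lit 5) (nat_lit 41) (nat_lit 5) (nat_lit 36) (nat_lit 5) (nat_lit 263) (nat_lit 256) (nat_lit 201)) (XT.lf (nat_lit 0) (nat_lit 8674064011) (nat_lit 456) (nat_lit 422242916) (nat_lit 76) (nat_lit 10689075937) (nat_lit 35) (nat_lit 5) (nat_lit 41) (nat_lit 5) (nat_lit 36) (nat_lit 5) (nat_lit 264) (nat_lit 256) (nat_lit 200))) (XT.nd (nat_lit 78) (nat_lit 0) (nat_lit 0) (XT.lf (nat_lit 0) (nat_lit 8844360225) (nat_lit 456) (nat_lit 1856021126) (nat_lit 532) (nat_lit 9985451512) (nat_lit 29) (nat_lit 5) (nat_lit 35) (nat_lit 5) (nat_lit 36) (nat_lit 5) (nat_lit 265) (nat_lit 256) (nat_lit 199)) (XT.lf (nat_lit 0) (nat_lit 13027594477) (nat_lit 532) (nat_lit 2941726751) (nat_lit 76) (nat_lit 5677995752) (nat_lit 29) (nat_lit 5) (nat_lit 36) (nat_lit 5) (nat_lit 30) (nat_lit 5) (nat_lit 266) (nat_lit 256) (nat_lit 198))))))))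
noncomputable def xc79 : XT := (XT.nd (nat_lit 1872) (nat_lit 380) (nat_lit 0) (XT.nd (nat_lit 936) (nat_lit 608) (nat_lit 0) (XT.nd (nat_lit 468) (nat_lit 304) (nat_lit 0) (XT.nd (nat_lit 234) (nat_lit 304) (nat_lit 0) (XT.nd (nat_lit 78) (nat_lit 152) (nat_lit 0) (XT.lf (nat_lit 0) (nat_lit 6953995892) (nat_lit 228) (nat_lit 8787184984) (nat_lit 304) (nat_lit 6928617096) (nat_lit 26) (nat_lit 5) (nat_lit 29) (nat_lit 5) (nat_lit 30) (nat_lit 5) (nat_lit 267) (nat_lit 256) (nat_lit 197)) (XT.nd (nat_lit 78) (nat_lit 152) (nat_lit 0) (XT.lf (nat_lit 0) (nat_lit 17793409839) (nat_lit 228) (nat_lit 944383426) (nat_lit 304) (nat_lit 5031095947) (nat_lit 26) (nat_lit 5) (nat_lit 29) (nat_lit 5) (nat_lit 30) (nat_lit 5) (nat_lit 268) (nat_lit 256) (nat_lit 196)) (XT.lf (nat_lit 0) (nat_lit 4576748795) (nat_lit 152) (nat_lit 17675016865) (nat_lit 228) (nat_lit 2682012065) (nat_lit 24) (nat_lit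 5) (nat_lit 26) (nat_lit 5) (nat_lit 27) (nat_lit 5) (nat_lit 269) (nat_lit 256) (nat_lit 195)))) (XT.nd (nat_lit 78) (nat_lit 228) (nat_lit 0) (XT.lf (nat_lit 0) (nat_lit 41202885) (nat_lit 228) (nat_lit 9906735436) (nat_lit 76) (nat_lit 16229950895) (nat_lit 23) (nat_lit 5) (nat_lit 26) (nat_lit 5) (nat_lit 24) (nat_lit 5) (nat_lit 270) (nat_lit 256) (nat_lit 194)) (XT.nd (nat_lit 78) (nat_lit 0) (nat_lit 0) (XT.lf (nat_lit 0) (nat_lit 1363644300) (nat_lit 228) (nat_lit 1494303578) (nat_lit 304) (nat_lit 24656426913) (nat_lit 20) (nat_lit 5) (nat_lit 23) (nat_lit 5) (nat_lit 24) (nat_lit 5) (nat_lit 271) (nat_lit 256) (nat_lit 193)) (XT.lf (nat_lit 0) (nat_lit 6349854677) (nat_lit 304) (nat_lit 15042778312) (nat_lit 76) (nat_lit 7529219584) (nat_lit 20) (nat_lit 5) (nat_lit 24) (nat_lit 5) (nat_lit 21) (nat_lit 5) (nat_lit 272) (nat_lit 256) (nat_lit 192))))) (XT.nd (nat_lit 234)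 (nat_lit 152) (nat_lit 0) (XT.nd (nat_lit 78) (nat_lit 152) (nat_lit 0) (XT.lf (nat_lit 0) (nat_lit 10149077180) (nat_lit 304) (nat_lit 3098943167) (nat_lit 76) (nat_lit 17191725934) (nat_lit 20) (nat_lit 5) (nat_lit 24) (nat_lit 5) (nat_lit 21) (nat_lit 5) (nat_lit 273) (nat_lit 256) (nat_lit 191)) (XT.nd (nat_lit 78) (nat_lit 0) (nat_lit 0) (XT.lf (nat_lit 0) (nat_lit 10302883207) (nat_lit 152) (nat_lit 4187092643) (nat_lit 228) (nat_lit 17570127268) (nat_lit 18) (nat_lit 5) (nat_lit 20) (nat_lit 5) (nat_lit 21) (nat_lit 5) (nat_lit 274) (nat_lit 256) (nat_lit 190)) (XT.lf (nat_lit 0) (nat_lit 19390050700) (nat_lit 228) (nat_lit 9000389099) (nat_lit 76) (nat_lit 5402743306) (nat_lit 18) (nat_lit 5) (nat_lit 21) (nat_lit 5) (nat_lit 19) (nat_lit 5) (nat_lit 275) (nat_lit 256) (nat_lit 189)))) (XT.nd (nat_lit 78) (nat_lit 0) (nat_lit 0) (XT.lf (nat_lit 0) (nat_lit 4901066212) (nat_lit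 152) (nat_lit 19998732292) (nat_lit 228) (nat_lit 10747741097) (nat_lit 16) (nat_lit 5) (nat_lit 18) (nat_lit 5) (nat_lit 19) (nat_lit 5) (nat_lit 276) (nat_lit 256) (nat_lit 188)) (XT.nd (nat_lit 78) (nat_lit 0) (nat_lit 0) (XT.lf (nat_lit 0) (nat_lit 20414472901) (nat_lit 152) (nat_lit 10673354834) (nat_lit 228) (nat_lit 6543457003) (nat_lit 16) (nat_lit 5) (nat_lit 18) (nat_lit 5) (nat_lit 19) (nat_lit 5) (nat_lit 277) (nat_lit 256) (nat_lit 187)) (XT.lf (nat_lit 0) (nat_lit 37157817724) (nat_lit 152) (nat_lit 605132516) (nat_lit 228) (nat_lit 2011452435) (nat_lit 16) (nat_lit 5) (nat_lit 18) (nat_lit 5) (nat_lit 19) (nat_lit 5) (nat_lit 278) (nat_lit 256) (nat_lit 186)))))) (XT.nd (nat_lit 468) (nat_lit 228) (nat_lit 0) (XT.nd (nat_lit 234) (nat_lit 76) (nat_lit 0) (XT.nd (nat_lit 78) (nat_lit 152) (nat_lit 0) (XT.lf (nat_lit 0) (nat_lit 3319508805) (nat_lit 152) (nat_lit 28554960468)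 (nat_lit 76) (nat_lit 10162535910) (nat_lit 14) (nat_lit 5) (nat_lit 16) (nat_lit 5) (nat_lit 15) (nat_lit 5) (nat_lit 279) (nat_lit 256) (nat_lit 185)) (XT.nd (nat_lit 78) (nat_lit 152) (nat_lit 0) (XT.lf (nat_lit 0) (nat_lit 9050043280) (nat_lit 152) (nat_lit 13538345455) (nat_lit 76) (nat_lit 21881535738) (nat_lit 14) (nat_lit 5) (nat_lit 16) (nat_lit 5) (nat_lit 15) (nat_lit 5) (nat_lit 280) (nat_lit 256) (nat_lit 184)) (XT.lf (nat_lit 0) (nat_lit 2809976545) (nat_lit 152) (nat_lit 12489817469) (nat_lit 228) (nat_lit 31792848804) (nat_lit 12) (nat_lit 5) (nat_lit 14) (nat_lit 5) (nat_lit 15) (nat_lit 5) (nat_lit 281) (nat_lit 256) (nat_lit 183)))) (XT.nd (nat_lit 78) (nat_lit 76) (nat_lit 0) (XT.lf (nat_lit 0) (nat_lit 21226171327) (nat_lit 152) (nat_lit 1186974686) (nat_lit 228) (nat_lit 27482968284) (nat_lit 12) (nat_lit 5) (nat_lit 14) (nat_lit 5) (nat_lit 15) (nat_lit 5) (nat_lit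 282) (nat_lit 256) (nat_lit 182)) (XT.nd (nat_lit 78) (nat_lit 76) (nat_lit 0) (XT.lf (nat_lit 0) (nat_lit 30354467635) (nat_lit 228) (nat_lit 12082862975) (nat_lit 76) (nat_lit 10465844253) (nat_lit 12) (nat_lit 5) (nat_lit 15) (nat_lit 5) (nat_lit 13) (nat_lit 4) (nat_lit 283) (nat_lit 256) (nat_lit 181)) (XT.lf (nat_lit 0) (nat_lit 6096405342) (nat_lit 76) (nat_lit 33006460979) (nat_lit 152) (nat_lit 17034213989) (nat_lit 11) (nat_lit 5) (nat_lit 12) (nat_lit 5) (nat_lit 13) (nat_lit 4) (nat_lit 284) (nat_lit 256) (nat_lit 180))))) (XT.nd (nat_lit 234) (nat_lit 0) (nat_lit 0) (XT.nd (nat_lit 78) (nat_lit 228) (nat_lit 0) (XT.lf (nat_lit 0) (nat_lit 26408489479) (nat_lit 76) (nat_lit 22467548058) (nat_lit 152) (nat_lit 10727688741) (nat_lit 11) (nat_lit 5) (nat_lit 12) (nat_lit 5) (nat_lit 13) (nat_lit 4) (nat_lit 285) (nat_lit 256) (nat_lit 179)) (XT.nd (nat_lit 78) (nat_lit 228)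 (nat_lit 0) (XT.lf (nat_lit 0) (nat_lit 48337495190) (nat_lit 76) (nat_lit 11088505916) (nat_lit 152) (nat_lit 3922126368) (nat_lit 11) (nat_lit 5) (nat_lit 12) (nat_lit 5) (nat_lit 13) (nat_lit 4) (nat_lit 286) (nat_lit 256) (nat_lit 178)) (XT.lf (nat_lit 0) (nat_lit 3400417562) (nat_lit 228) (nat_lit 62633057902) (nat_lit 76) (nat_lit 1340504989) (nat_lit 8) (nat_lit 5) (nat_lit 11) (nat_lit 5) (nat_lit 9) (nat_lit 4) (nat_lit 287) (nat_lit 256) (nat_lit 177)))) (XT.nd (nat_lit 78) (nat_lit 0) (nat_lit 0) (XT.lf (nat_lit 0) (nat_lit 11801241639) (nat_lit 228) (nat_lit 45171186617) (nat_lit 76) (nat_lit 14684988474) (nat_lit 8) (nat_lit 5) (nat_lit 11) (nat_lit 5) (nat_lit 9) (nat_lit 4) (nat_lit 288) (nat_lit 256) (nat_lit 176)) (XT.nd (nat_lit 78) (nat_lit 0) (nat_lit 0) (XT.lf (nat_lit 0) (nat_lit 20869763781) (nat_lit 228) (nat_lit 26319626111) (nat_lit 76) (nat_lit 29094501149)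 (nat_lit 8) (nat_lit 5) (nat_lit 11) (nat_lit 5) (nat_lit 9) (nat_lit 4) (nat_lit 289) (nat_lit 256) (nat_lit 175)) (XT.lf (nat_lit 0) (nat_lit 30659723380) (nat_lit 228) (nat_lit 5966663433) (nat_lit 76) (nat_lit 44654432718) (nat_lit 8) (nat_lit 5) (nat_lit 11) (nat_lit 5) (nat_lit 9) (nat_lit 4) (nat_lit 290) (nat_lit 256) (nat_lit 174))))))) (XT.nd (nat_lit 936) (nat_lit 76) (nat_lit 0) (XT.nd (nat_lit 468) (nat_lit 152) (nat_lit 0) (XT.nd (nat_lit 234) (nat_lit 76) (nat_lit 0) (XT.nd (nat_lit 78) (nat_lit 0) (nat_lit 0) (XT.lf (nat_lit 0) (nat_lit 16851280884) (nat_lit 76) (nat_lit 24783127838) (nat_lit 152) (nat_lit 45010983009) (nat_lit 7) (nat_lit 5) (nat_lit 8) (nat_lit 5) (nat_lit 9) (nat_lit 4) (nat_lit 291) (nat_lit 256) (nat_lit 173)) (XT.nd (nat_lit 78) (nat_lit 0) (nat_lit 0) (XT.lf (nat_lit 0) (nat_lit 41827923078) (nat_lit 76) (nat_lit 11818671702) (nat_lit 152) (nat_lit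 38779783731) (nat_lit 7) (nat_lit 5) (nat_lit 8) (nat_lit 5) (nat_lit 9) (nat_lit 4) (nat_lit 292) (nat_lit 256) (nat_lit 172)) (XT.lf (nat_lit 0) (nat_lit 66668855249) (nat_lit 152) (nat_lit 29925488138) (nat_lit 0) (nat_lit 2071582959) (nat_lit 7) (nat_lit 5) (nat_lit 9) (nat_lit 4) (nat_lit 7) (nat_lit 4) (nat_lit 293) (nat_lit 256) (nat_lit 171)))) (XT.nd (nat_lit 78) (nat_lit 76) (nat_lit 0) (XT.lf (nat_lit 0) (nat_lit 81036726654) (nat_lit 152) (nat_lit 7911070062) (nat_lit 0) (nat_lit 16432544207) (nat_lit 7) (nat_lit 5) (nat_lit 9) (nat_lit 4) (nat_lit 7) (nat_lit 4) (nat_lit 294) (nat_lit 256) (nat_lit 170)) (XT.nd (nat_lit 78) (nat_lit 0) (nat_lit 0) (XT.lf (nat_lit 0) (nat_lit 16694626787) (nat_lit 76) (nat_lit 80257991989) (nat_lit 76) (nat_lit 15647411248) (nat_lit 6) (nat_lit 4) (nat_lit 7) (nat_lit 5) (nat_lit 7) (nat_lit 4) (nat_lit 295) (nat_lit 256) (nat_lit 169))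 (XT.lf (nat_lit 0) (nat_lit 43713808205) (nat_lit 76) (nat_lit 70641460122) (nat_lit 76) (nat_lit 6024955035) (nat_lit 6) (nat_lit 4) (nat_lit 7) (nat_lit 5) (nat_lit 7) (nat_lit 4) (nat_lit 296) (nat_lit 256) (nat_lit 168))))) (XT.nd (nat_lit 234) (nat_lit 76) (nat_lit 0) (XT.nd (nat_lit 78) (nat_lit 0) (nat_lit 0) (XT.lf (nat_lit 0) (nat_lit 4146145006) (nat_lit 152) (nat_lit 55998008978) (nat_lit 76) (nat_lit 68630496970) (nat_lit 5) (nat_lit 5) (nat_lit 7) (nat_lit 5) (nat_lit 6) (nat_lit 4) (nat_lit 297) (nat_lit 256) (nat_lit 167)) (XT.nd (nat_lit 78) (nat_lit 0) (nat_lit 0) (XT.lf (nat_lit 0) (nat_lit 14802944960) (nat_lit 152) (nat_lit 33836944245) (nat_lit 76) (nat_lit 89188429229) (nat_lit 5) (nat_lit 5) (nat_lit 7) (nat_lit 5) (nat_lit 6) (nat_lit 4) (nat_lit 298) (nat_lit 256) (nat_lit 166)) (XT.lf (nat_lit 0) (nat_lit 26309988885) (nat_lit 152) (nat_lit 9906995819) (nat_lit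 76) (nat_lit 111389484490) (nat_lit 5) (nat_lit 5) (nat_lit 7) (nat_lit 5) (nat_lit 6) (nat_lit 4) (nat_lit 299) (nat_lit 256) (nat_lit 165)))) (XT.nd (nat_lit 78) (nat_lit 0) (nat_lit 0) (XT.lf (nat_lit 0) (nat_lit 16772680828) (nat_lit 76) (nat_lit 22366169219) (nat_lit 152) (nat_lit 118995927109) (nat_lit 4) (nat_lit 5) (nat_lit 5) (nat_lit 5) (nat_lit 6) (nat_lit 4) (nat_lit 300) (nat_lit 256) (nat_lit 164)) (XT.nd (nat_lit 78) (nat_lit 0) (nat_lit 0) (XT.lf (nat_lit 0) (nat_lit 46146539959) (nat_lit 76) (nat_lit 7116296214) (nat_lit 152) (nat_lit 116221013336) (nat_lit 4) (nat_lit 5) (nat_lit 5) (nat_lit 5) (nat_lit 6) (nat_lit 4) (nat_lit 301) (nat_lit 256) (nat_lit 163)) (XT.lf (nat_lit 0) (nat_lit 68739753867) (nat_lit 152) (nat_lit 104098959702) (nat_lit 0) (nat_lit 8884297732) (nat_lit 4) (nat_lit 5) (nat_lit 6) (nat_lit 4) (nat_lit 4) (nat_lit 4) (nat_lit 302) (nat_lit 256)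 (nat_lit 162)))))) (XT.nd (nat_lit 468) (nat_lit 0) (nat_lit 0) (XT.nd (nat_lit 234) (nat_lit 76) (nat_lit 0) (XT.nd (nat_lit 78) (nat_lit 0) (nat_lit 0) (XT.lf (nat_lit 0) (nat_lit 85637866778) (nat_lit 152) (nat_lit 83509590330) (nat_lit 0) (nat_lit 25779209904) (nat_lit 4) (nat_lit 5) (nat_lit 6) (nat_lit 4) (nat_lit 4) (nat_lit 4) (nat_lit 303) (nat_lit 256) (nat_lit 161)) (XT.nd (nat_lit 78) (nat_lit 0) (nat_lit 0) (XT.lf (nat_lit 0) (nat_lit 103886164778) (nat_lit 152) (nat_lit 61276043261) (nat_lit 0) (nat_lit 44024544256) (nat_lit 4) (nat_lit 5) (nat_lit 6) (nat_lit 4) (nat_lit 4) (nat_lit 4) (nat_lit 304) (nat_lit 256) (nat_lit 160)) (XT.lf (nat_lit 0) (nat_lit 123592785928) (nat_lit 152) (nat_lit 37266564143) (nat_lit 0) (nat_lit 63728421288) (nat_lit 4) (nat_lit 5) (nat_lit 6) (nat_lit 4) (nat_lit 4) (nat_lit 4) (nat_lit 305) (nat_lit 256) (nat_lit 159)))) (XT.nd (nat_lit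 78) (nat_lit 76) (nat_lit 0) (XT.lf (nat_lit 0) (nat_lit 144874510206) (nat_lit 152) (nat_lit 11338874581) (nat_lit 0) (nat_lit 85007604715) (nat_lit 4) (nat_lit 5) (nat_lit 6) (nat_lit 4) (nat_lit 4) (nat_lit 4) (nat_lit 306) (nat_lit 256) (nat_lit 158)) (XT.nd (nat_lit 78) (nat_lit 0) (nat_lit 0) (XT.lf (nat_lit 0) (nat_lit 17537992402) (nat_lit 76) (nat_lit 150741248271) (nat_lit 76) (nat_lit 90871990141) (nat_lit 3) (nat_lit 4) (nat_lit 4) (nat_lit 5) (nat_lit 4) (nat_lit 4) (nat_lit 307) (nat_lit 256) (nat_lit 157)) (XT.lf (nat_lit 0) (nat_lit 49367561161) (nat_lit 76) (nat_lit 144497534991) (nat_lit 76) (nat_lit 84626098491) (nat_lit 3) (nat_lit 4) (nat_lit 4) (nat_lit 5) (nat_lit 4) (nat_lit 4) (nat_lit 308) (nat_lit 256) (nat_lit 156))))) (XT.nd (nat_lit 234) (nat_lit 0) (nat_lit 0) (XT.nd (nat_lit 78) (nat_lit 0) (nat_lit 0) (XT.lf (nat_lit 0) (nat_lit 83741366321) (nat_lit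 76) (nat_lit 137755270091) (nat_lit 76) (nat_lit 77881816582) (nat_lit 3) (nat_lit 4) (nat_lit 4) (nat_lit 5) (nat_lit 4) (nat_lit 4) (nat_lit 309) (nat_lit 256) (nat_lit 155)) (XT.nd (nat_lit 78) (nat_lit 0) (nat_lit 0) (XT.lf (nat_lit 0) (nat_lit 120863104506) (nat_lit 76) (nat_lit 130474499408) (nat_lit 76) (nat_lit 70599178298) (nat_lit 3) (nat_lit 4) (nat_lit 4) (nat_lit 5) (nat_lit 4) (nat_lit 4) (nat_lit 310) (nat_lit 256) (nat_lit 154)) (XT.lf (nat_lit 0) (nat_lit 160952756385) (nat_lit 76) (nat_lit 122612077634) (nat_lit 76) (nat_lit 62735027264) (nat_lit 3) (nat_lit 4) (nat_lit 4) (nat_lit 5) (nat_lit 4) (nat_lit 4) (nat_lit 311) (nat_lit 256) (nat_lit 153)))) (XT.nd (nat_lit 156) (nat_lit 0) (nat_lit 0) (XT.nd (nat_lit 78) (nat_lit 0) (nat_lit 0) (XT.lf (nat_lit 0) (nat_lit 204247890267) (nat_lit 76) (nat_lit 114121412641) (nat_lit 76) (nat_lit 54242761104) (nat_lit 3) (nat_lit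 4) (nat_lit 4) (nat_lit 5) (nat_lit 4) (nat_lit 4) (nat_lit 312) (nat_lit 256) (nat_lit 152)) (XT.lf (nat_lit 0) (nat_lit 251005069908) (nat_lit 76) (nat_lit 104952189377) (nat_lit 76) (nat_lit 45072055278) (nat_lit 3) (nat_lit 4) (nat_lit 4) (nat_lit 5) (nat_lit 4) (nat_lit 4) (nat_lit 313) (nat_lit 256) (nat_lit 151))) (XT.nd (nat_lit 78) (nat_lit 0) (nat_lit 0) (XT.lf (nat_lit 0) (nat_lit 301501374891) (nat_lit 76) (nat_lit 95050071703) (nat_lit 76) (nat_lit 35168564862) (nat_lit 3) (nat_lit 4) (nat_lit 4) (nat_lit 5) (nat_lit 4) (nat_lit 4) (nat_lit 314) (nat_lit 256) (nat_lit 150)) (XT.lf (nat_lit 0) (nat_lit 356036042578) (nat_lit 76) (nat_lit 84356380404) (nat_lit 76) (nat_lit 24473602506) (nat_lit 3) (nat_lit 4) (nat_lit 4) (nat_lit 5) (nat_lit 4) (nat_lit 4) (nat_lit 315) (nat_lit 256) (nat_lit 149))))))))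
noncomputable def xc80 : XT := (XT.nd (nat_lit 33306) (nat_lit 0) (nat_lit 760) (XT.nd (nat_lit 936) (nat_lit 0) (nat_lit 0) (XT.nd (nat_lit 468) (nat_lit 0) (nat_lit 0) (XT.nd (nat_lit 234) (nat_lit 76) (nat_lit 0) (XT.nd (nat_lit 78) (nat_lit 76) (nat_lit 0) (XT.lf (nat_lit 0) (nat_lit 414932241372) (nat_lit 76) (nat_lit 72807745458) (nat_lit 76) (nat_lit 12923790654) (nat_lit 3) (nat_lit 4) (nat_lit 4) (nat_lit 5) (nat_lit 4) (nat_lit 4) (nat_lit 316) (nat_lit 256) (nat_lit 148)) (XT.nd (nat_lit 78) (nat_lit 76) (nat_lit 0) (XT.lf (nat_lit 0) (nat_lit 478538985782) (nat_lit 76) (nat_lit 60335730509) (nat_lit 76) (nat_lit 450685978) (nat_lit 3) (nat_lit 4) (nat_lit 4) (nat_lit 5) (nat_lit 4) (nat_lit 4) (nat_lit 317) (nat_lit 256) (nat_lit 147)) (XT.lf (nat_lit 0) (nat_lit 12368331783) (nat_lit 152) (nat_lit 34159923428) (nat_lit 76) (nat_lit 534526700773) (nat_lit 2) (nat_lit 5)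 (nat_lit 4) (nat_lit 5) (nat_lit 3) (nat_lit 4) (nat_lit 318) (nat_lit 256) (nat_lit 146)))) (XT.nd (nat_lit 78) (nat_lit 76) (nat_lit 0) (XT.lf (nat_lit 0) (nat_lit 26187958516) (nat_lit 152) (nat_lit 5416034088) (nat_lit 76) (nat_lit 594517991163) (nat_lit 2) (nat_lit 5) (nat_lit 4) (nat_lit 5) (nat_lit 3) (nat_lit 4) (nat_lit 319) (nat_lit 256) (nat_lit 145)) (XT.nd (nat_lit 78) (nat_lit 0) (nat_lit 0) (XT.lf (nat_lit 0) (nat_lit 26975866808) (nat_lit 76) (nat_lit 14785536880) (nat_lit 152) (nat_lit 632981111304) (nat_lit 1) (nat_lit 5) (nat_lit 2) (nat_lit 5) (nat_lit 3) (nat_lit 4) (nat_lit 320) (nat_lit 256) (nat_lit 144)) (XT.lf (nat_lit 0) (nat_lit 58813389991) (nat_lit 152) (nat_lit 665059753756) (nat_lit 0) (nat_lit 3360932726) (nat_lit 1) (nat_lit 5) (nat_lit 3) (nat_lit 4) (nat_lit 1) (nat_lit 4) (nat_lit 321) (nat_lit 256) (nat_lit 143))))) (XT.nd (nat_lit 234) (nat_lit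 0) (nat_lit 0) (XT.nd (nat_lit 78) (nat_lit 0) (nat_lit 0) (XT.lf (nat_lit 0) (nat_lit 77613098008) (nat_lit 152) (nat_lit 684121226736) (nat_lit 0) (nat_lit 22159954030) (nat_lit 1) (nat_lit 5) (nat_lit 3) (nat_lit 4) (nat_lit 1) (nat_lit 4) (nat_lit 322) (nat_lit 256) (nat_lit 142)) (XT.nd (nat_lit 78) (nat_lit 0) (nat_lit 0) (XT.lf (nat_lit 0) (nat_lit 97916340899) (nat_lit 152) (nat_lit 704708431486) (nat_lit 0) (nat_lit 42462561076) (nat_lit 1) (nat_lit 5) (nat_lit 3) (nat_lit 4) (nat_lit 1) (nat_lit 4) (nat_lit 323) (nat_lit 256) (nat_lit 141)) (XT.lf (nat_lit 0) (nat_lit 119843434177) (nat_lit 152) (nat_lit 726943366255) (nat_lit 0) (nat_lit 64389065608) (nat_lit 1) (nat_lit 5) (nat_lit 3) (nat_lit 4) (nat_lit 1) (nat_lit 4) (nat_lit 324) (nat_lit 256) (nat_lit 140)))) (XT.nd (nat_lit 78) (nat_lit 0) (nat_lit 0) (XT.lf (nat_lit 0) (nat_lit 143524316172) (nat_lit 152) (nat_lit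 750957793619) (nat_lit 0) (nat_lit 88069402469) (nat_lit 1) (nat_lit 5) (nat_lit 3) (nat_lit 4) (nat_lit 1) (nat_lit 4) (nat_lit 325) (nat_lit 256) (nat_lit 139)) (XT.nd (nat_lit 78) (nat_lit 0) (nat_lit 0) (XT.lf (nat_lit 0) (nat_lit 169099318038) (nat_lit 152) (nat_lit 776894021297) (nat_lit 0) (nat_lit 113643899580) (nat_lit 1) (nat_lit 5) (nat_lit 3) (nat_lit 4) (nat_lit 1) (nat_lit 4) (nat_lit 326) (nat_lit 256) (nat_lit 138)) (XT.lf (nat_lit 0) (nat_lit 196719995340) (nat_lit 152) (nat_lit 804905745452) (nat_lit 0) (nat_lit 141264109517) (nat_lit 1) (nat_lit 5) (nat_lit 3) (nat_lit 4) (nat_lit 1) (nat_lit 4) (nat_lit 327) (nat_lit 256) (nat_lit 137)))))) (XT.nd (nat_lit 468) (nat_lit 0) (nat_lit 0) (XT.nd (nat_lit 234) (nat_lit 0) (nat_lit 0) (XT.nd (nat_lit 78) (nat_lit 0) (nat_lit 0) (XT.lf (nat_lit 0) (nat_lit 226550026167) (nat_lit 152) (nat_lit 835158961486) (nat_lit 0)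 (nat_lit 171093707598) (nat_lit 1) (nat_lit 5) (nat_lit 3) (nat_lit 4) (nat_lit 1) (nat_lit 4) (nat_lit 328) (nat_lit 256) (nat_lit 136)) (XT.nd (nat_lit 78) (nat_lit 0) (nat_lit 0) (XT.lf (nat_lit 0) (nat_lit 258766181072) (nat_lit 152) (nat_lit 867832947718) (nat_lit 0) (nat_lit 203309461812) (nat_lit 1) (nat_lit 5) (nat_lit 3) (nat_lit 4) (nat_lit 1) (nat_lit 4) (nat_lit 329) (nat_lit 256) (nat_lit 135)) (XT.lf (nat_lit 0) (nat_lit 293559370601) (nat_lit 152) (nat_lit 903121327769) (nat_lit 0) (nat_lit 238102280332) (nat_lit 1) (nat_lit 5) (nat_lit 3) (nat_lit 4) (nat_lit 1) (nat_lit 4) (nat_lit 330) (nat_lit 256) (nat_lit 134)))) (XT.nd (nat_lit 78) (nat_lit 0) (nat_lit 0) (XT.lf (nat_lit 0) (nat_lit 331135776620) (nat_lit 152) (nat_lit 941233217965) (nat_lit 0) (nat_lit 275678342823) (nat_lit 1) (nat_lit 5) (nat_lit 3) (nat_lit 4) (nat_lit 1) (nat_lit 4) (nat_lit 331) (nat_lit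 256) (nat_lit 133)) (XT.nd (nat_lit 78) (nat_lit 0) (nat_lit 0) (XT.lf (nat_lit 0) (nat_lit 371718074126) (nat_lit 152) (nat_lit 982394466544) (nat_lit 0) (nat_lit 316260322248) (nat_lit 1) (nat_lit 5) (nat_lit 3) (nat_lit 4) (nat_lit 1) (nat_lit 4) (nat_lit 332) (nat_lit 256) (nat_lit 132)) (XT.lf (nat_lit 0) (nat_lit 415546750809) (nat_lit 152) (nat_lit 1026848992017) (nat_lit 0) (nat_lit 360088704412) (nat_lit 1) (nat_lit 5) (nat_lit 3) (nat_lit 4) (nat_lit 1) (nat_lit 4) (nat_lit 333) (nat_lit 256) (nat_lit 131))))) (XT.nd (nat_lit 31668) (nat_lit 0) (nat_lit 2432) (XT.nd (nat_lit 31512) (nat_lit 0) (nat_lit 2356) (XT.lf (nat_lit 0) (nat_lit 462881532160) (nat_lit 152) (nat_lit 1074860228609) (nat_lit 0) (nat_lit 407423213059) (nat_lit 1) (nat_lit 5) (nat_lit 3) (nat_lit 4) (nat_lit 1) (nat_lit 4) (nat_lit 334) (nat_lit 256) (nat_lit 130)) (XT.nd (nat_lit 78) (nat_lit 0) (nat_lit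 0) (XT.lf (nat_lit 0) (nat_lit 756596893) (nat_lit 532) (nat_lit 3472302515) (nat_lit 532) (nat_lit 3472302515) (nat_lit 32) (nat_lit 3) (nat_lit 39) (nat_lit 3) (nat_lit 39) (nat_lit 5) (nat_lit 257) (nat_lit 257) (nat_lit 206)) (XT.lf (nat_lit 0) (nat_lit 1822524135) (nat_lit 532) (nat_lit 571158712) (nat_lit 532) (nat_lit 13603305396) (nat_lit 32) (nat_lit 3) (nat_lit 39) (nat_lit 3) (nat_lit 39) (nat_lit 5) (nat_lit 258) (nat_lit 257) (nat_lit 205)))) (XT.nd (nat_lit 78) (nat_lit 0) (nat_lit 0) (XT.lf (nat_lit 0) (nat_lit 2395524578) (nat_lit 456) (nat_lit 10102575115) (nat_lit 532) (nat_lit 4122086638) (nat_lit 33) (nat_lit 5) (nat_lit 39) (nat_lit 5) (nat_lit 40) (nat_lit 5) (nat_lit 259) (nat_lit 257) (nat_lit 204)) (XT.nd (nat_lit 78) (nat_lit 0) (nat_lit 76) (XT.lf (nat_lit 0) (nat_lit 3069440375) (nat_lit 456) (nat_lit 3164048099) (nat_lit 532) (nat_lit 11055494684) (nat_lit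 33) (nat_lit 5) (nat_lit 39) (nat_lit 5) (nat_lit 40) (nat_lit 5) (nat_lit 260) (nat_lit 257) (nat_lit 203)) (XT.lf (nat_lit 0) (nat_lit 3900919001) (nat_lit 456) (nat_lit 13477708586) (nat_lit 532) (nat_lit 624502068) (nat_lit 34) (nat_lit 5) (nat_lit 40) (nat_lit 5) (nat_lit 41) (nat_lit 5) (nat_lit 261) (nat_lit 257) (nat_lit 202))))))) (XT.nd (nat_lit 936) (nat_lit 684) (nat_lit 0) (XT.nd (nat_lit 468) (nat_lit 684) (nat_lit 0) (XT.nd (nat_lit 234) (nat_lit 380) (nat_lit 0) (XT.nd (nat_lit 78) (nat_lit 0) (nat_lit 0) (XT.lf (nat_lit 0) (nat_lit 5029574834) (nat_lit 456) (nat_lit 5937479753) (nat_lit 532) (nat_lit 7789028245) (nat_lit 34) (nat_lit 5) (nat_lit 40) (nat_lit 5) (nat_lit 41) (nat_lit 5) (nat_lit 262) (nat_lit 257) (nat_lit 201)) (XT.nd (nat_lit 78) (nat_lit 0) (nat_lit 76) (XT.lf (nat_lit 76) (nat_lit 2306703494) (nat_lit 0) (nat_lit 3978770369) (nat_lit 532) (nat_lit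 13280960558) (nat_lit 35) (nat_lit 5) (nat_lit 34) (nat_lit 5) (nat_lit 41) (nat_lit 5) (nat_lit 263) (nat_lit 257) (nat_lit 200)) (XT.lf (nat_lit 0) (nat_lit 7876807521) (nat_lit 456) (nat_lit 8986446735) (nat_lit 76) (nat_lit 3559672325) (nat_lit 35) (nat_lit 5) (nat_lit 41) (nat_lit 5) (nat_lit 36) (nat_lit 5) (nat_lit 264) (nat_lit 257) (nat_lit 199)))) (XT.nd (nat_lit 78) (nat_lit 456) (nat_lit 0) (XT.lf (nat_lit 0) (nat_lit 9682663368) (nat_lit 456) (nat_lit 169338958) (nat_lit 76) (nat_lit 11489059899) (nat_lit 35) (nat_lit 5) (nat_lit 41) (nat_lit 5) (nat_lit 36) (nat_lit 5) (nat_lit 265) (nat_lit 257) (nat_lit 198)) (XT.nd (nat_lit 78) (nat_lit 0) (nat_lit 0) (XT.lf (nat_lit 0) (nat_lit 9831334627) (nat_lit 456) (nat_lit 2023162457) (nat_lit 532) (nat_lit 10460524728) (nat_lit 29) (nat_lit 5) (nat_lit 35) (nat_lit 5) (nat_lit 36) (nat_lit 5) (nat_lit 266) (nat_lit 257) (nat_lit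 197)) (XT.lf (nat_lit 0) (nat_lit 14345391351) (nat_lit 532) (nat_lit 2894146346) (nat_lit 76) (nat_lit 6115822255) (nat_lit 29) (nat_lit 5) (nat_lit 36) (nat_lit 5) (nat_lit 30) (nat_lit 5) (nat_lit 267) (nat_lit 257) (nat_lit 196))))) (XT.nd (nat_lit 234) (nat_lit 304) (nat_lit 0) (XT.nd (nat_lit 78) (nat_lit 152) (nat_lit 0) (XT.lf (nat_lit 0) (nat_lit 7786071614) (nat_lit 228) (nat_lit 9476210964) (nat_lit 304) (nat_lit 7198584985) (nat_lit 26) (nat_lit 5) (nat_lit 29) (nat_lit 5) (nat_lit 30) (nat_lit 5) (nat_lit 268) (nat_lit 257) (nat_lit 195)) (XT.nd (nat_lit 78) (nat_lit 152) (nat_lit 0) (XT.lf (nat_lit 0) (nat_lit 19472212303) (nat_lit 228) (nat_lit 1007018527) (nat_lit 304) (nat_lit 5170322995) (nat_lit 26) (nat_lit 5) (nat_lit 29) (nat_lit 5) (nat_lit 30) (nat_lit 5) (nat_lit 269) (nat_lit 257) (nat_lit 194)) (XT.lf (nat_lit 0) (nat_lit 5211770341) (nat_lit 152) (nat_lit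 19051348296) (nat_lit 228) (nat_lit 2645518631) (nat_lit 24) (nat_lit 5) (nat_lit 26) (nat_lit 5) (nat_lit 27) (nat_lit 5) (nat_lit 270) (nat_lit 257) (nat_lit 193)))) (XT.nd (nat_lit 78) (nat_lit 228) (nat_lit 0) (XT.lf (nat_lit 0) (nat_lit 265328414) (nat_lit 228) (nat_lit 10437527554) (nat_lit 76) (nat_lit 17550444289) (nat_lit 23) (nat_lit 5) (nat_lit 26) (nat_lit 5) (nat_lit 24) (nat_lit 5) (nat_lit 271) (nat_lit 257) (nat_lit 192)) (XT.nd (nat_lit 78) (nat_lit 0) (nat_lit 0) (XT.lf (nat_lit 0) (nat_lit 1727856062) (nat_lit 228) (nat_lit 1569334866) (nat_lit 304) (nat_lit 26400416979) (nat_lit 20) (nat_lit 5) (nat_lit 23) (nat_lit 5) (nat_lit 24) (nat_lit 5) (nat_lit 272) (nat_lit 257) (nat_lit 191)) (XT.lf (nat_lit 0) (nat_lit 7053840976) (nat_lit 304) (nat_lit 15994379700) (nat_lit 76) (nat_lit 8170711111) (nat_lit 20) (nat_lit 5) (nat_lit 24) (nat_lit 5) (nat_lit 21) (nat_lit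 5) (nat_lit 273) (nat_lit 257) (nat_lit 190)))))) (XT.nd (nat_lit 468) (nat_lit 380) (nat_lit 0) (XT.nd (nat_lit 234) (nat_lit 152) (nat_lit 0) (XT.nd (nat_lit 78) (nat_lit 152) (nat_lit 0) (XT.lf (nat_lit 0) (nat_lit 11142482914) (nat_lit 304) (nat_lit 3113691142) (nat_lit 76) (nat_lit 18603317677) (nat_lit 20) (nat_lit 5) (nat_lit 24) (nat_lit 5) (nat_lit 21) (nat_lit 5) (nat_lit 274) (nat_lit 257) (nat_lit 189)) (XT.nd (nat_lit 78) (nat_lit 0) (nat_lit 0) (XT.lf (nat_lit 0) (nat_lit 11354378368) (nat_lit 152) (nat_lit 4468297896) (nat_lit 228) (nat_lit 18787506873) (nat_lit 18) (nat_lit 5) (nat_lit 20) (nat_lit 5) (nat_lit 21) (nat_lit 5) (nat_lit 275) (nat_lit 257) (nat_lit 188)) (XT.lf (nat_lit 0) (nat_lit 21103102281) (nat_lit 228) (nat_lit 9497550085) (nat_lit 76) (nat_lit 5882252361) (nat_lit 18) (nat_lit 5) (nat_lit 21) (nat_lit 5) (nat_lit 19) (nat_lit 5) (nat_lit 276) (nat_lit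 257) (nat_lit 187)))) (XT.nd (nat_lit 78) (nat_lit 0) (nat_lit 0) (XT.lf (nat_lit 0) (nat_lit 5510379370) (nat_lit 152) (nat_lit 21536486170) (nat_lit 228) (nat_lit 11439343517) (nat_lit 16) (nat_lit 5) (nat_lit 18) (nat_lit 5) (nat_lit 19) (nat_lit 5) (nat_lit 277) (nat_lit 257) (nat_lit 186)) (XT.nd (nat_lit 78) (nat_lit 0) (nat_lit 0) (XT.lf (nat_lit 0) (nat_lit 22248767640) (nat_lit 152) (nat_lit 11469681826) (nat_lit 228) (nat_lit 6911177204) (nat_lit 16) (nat_lit 5) (nat_lit 18) (nat_lit 5) (nat_lit 19) (nat_lit 5) (nat_lit 278) (nat_lit 257) (nat_lit 185)) (XT.lf (nat_lit 0) (nat_lit 40316681020) (nat_lit 152) (nat_lit 600264048) (nat_lit 228) (nat_lit 2028149779) (nat_lit 16) (nat_lit 5) (nat_lit 18) (nat_lit 5) (nat_lit 19) (nat_lit 5) (nat_lit 279) (nat_lit 257) (nat_lit 184))))) (XT.nd (nat_lit 234) (nat_lit 76) (nat_lit 0) (XT.nd (nat_lit 78) (nat_lit 152) (nat_lit 0) (XT.lf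 (nat_lit 0) (nat_lit 3717861750) (nat_lit 152) (nat_lit 30640581241) (nat_lit 76) (nat_lit 11030364817) (nat_lit 14) (nat_lit 5) (nat_lit 16) (nat_lit 5) (nat_lit 15) (nat_lit 5) (nat_lit 280) (nat_lit 257) (nat_lit 183)) (XT.nd (nat_lit 78) (nat_lit 152) (nat_lit 0) (XT.lf (nat_lit 0) (nat_lit 9897002520) (nat_lit 152) (nat_lit 14437361180) (nat_lit 76) (nat_lit 23682823443) (nat_lit 14) (nat_lit 5) (nat_lit 16) (nat_lit 5) (nat_lit 15) (nat_lit 5) (nat_lit 281) (nat_lit 257) (nat_lit 182)) (XT.lf (nat_lit 0) (nat_lit 3214167037) (nat_lit 152) (nat_lit 13427772830) (nat_lit 228) (nat_lit 34208203218) (nat_lit 12) (nat_lit 5) (nat_lit 14) (nat_lit 5) (nat_lit 15) (nat_lit 5) (nat_lit 282) (nat_lit 257) (nat_lit 181)))) (XT.nd (nat_lit 78) (nat_lit 76) (nat_lit 0) (XT.lf (nat_lit 0) (nat_lit 23090369079) (nat_lit 152) (nat_lit 1225238183) (nat_lit 228) (nat_lit 29563019181) (nat_lit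 12) (nat_lit 5) (nat_lit 14) (nat_lit 5) (nat_lit 15) (nat_lit 5) (nat_lit 283) (nat_lit 257) (nat_lit 180)) (XT.nd (nat_lit 78) (nat_lit 76) (nat_lit 0) (XT.lf (nat_lit 0) (nat_lit 32885392704) (nat_lit 228) (nat_lit 12888457253) (nat_lit 76) (nat_lit 11352980673) (nat_lit 12) (nat_lit 5) (nat_lit 15) (nat_lit 5) (nat_lit 13) (nat_lit 4) (nat_lit 284) (nat_lit 257) (nat_lit 179)) (XT.lf (nat_lit 0) (nat_lit 6741075700) (nat_lit 76) (nat_lit 35588764824) (nat_lit 152) (nat_lit 18289942909) (nat_lit 11) (nat_lit 5) (nat_lit 12) (nat_lit 5) (nat_lit 13) (nat_lit 4) (nat_lit 285) (nat_lit 257) (nat_lit 178))))))))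
noncomputable def xc81 : XT := (XT.nd (nat_lit 1872) (nat_lit 152) (nat_lit 0) (XT.nd (nat_lit 936) (nat_lit 228) (nat_lit 0) (XT.nd (nat_lit 468) (nat_lit 152) (nat_lit 0) (XT.nd (nat_lit 234) (nat_lit 0) (nat_lit 0) (XT.nd (nat_lit 78) (nat_lit 228) (nat_lit 0) (XT.lf (nat_lit 0) (nat_lit 28666500054) (nat_lit 76) (nat_lit 24211050945) (nat_lit 152) (nat_lit 11486822174) (nat_lit 11) (nat_lit 5) (nat_lit 12) (nat_lit 5) (nat_lit 13) (nat_lit 4) (nat_lit 286) (nat_lit 257) (nat_lit 177)) (XT.nd (nat_lit 78) (nat_lit 228) (nat_lit 0) (XT.lf (nat_lit 0) (nat_lit 52339060931) (nat_lit 76) (nat_lit 11925678095) (nat_lit 152) (nat_lit 4144154194) (nat_lit 11) (nat_lit 5) (nat_lit 12) (nat_lit 5) (nat_lit 13) (nat_lit 4) (nat_lit 287) (nat_lit 257) (nat_lit 176)) (XT.lf (nat_lit 0) (nat_lit 3757666239) (nat_lit 228) (nat_lit 67502053332) (nat_lit 76) (nat_lit 1497094757) (nat_lit 8) (nat_lit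 5) (nat_lit 11) (nat_lit 5) (nat_lit 9) (nat_lit 4) (nat_lit 288) (nat_lit 257) (nat_lit 175)))) (XT.nd (nat_lit 78) (nat_lit 0) (nat_lit 0) (XT.lf (nat_lit 0) (nat_lit 12824244000) (nat_lit 228) (nat_lit 48653724878) (nat_lit 76) (nat_lit 15905481413) (nat_lit 8) (nat_lit 5) (nat_lit 11) (nat_lit 5) (nat_lit 9) (nat_lit 4) (nat_lit 289) (nat_lit 257) (nat_lit 174)) (XT.nd (nat_lit 78) (nat_lit 0) (nat_lit 0) (XT.lf (nat_lit 0) (nat_lit 22612403245) (nat_lit 228) (nat_lit 28303754841) (nat_lit 76) (nat_lit 31464370371) (nat_lit 8) (nat_lit 5) (nat_lit 11) (nat_lit 5) (nat_lit 9) (nat_lit 4) (nat_lit 290) (nat_lit 257) (nat_lit 173)) (XT.lf (nat_lit 0) (nat_lit 33180147881) (nat_lit 228) (nat_lit 6331550804) (nat_lit 76) (nat_lit 48265962456) (nat_lit 8) (nat_lit 5) (nat_lit 11) (nat_lit 5) (nat_lit 9) (nat_lit 4) (nat_lit 291) (nat_lit 257) (nat_lit 172))))) (XT.nd (nat_lit 234) (nat_lit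 76) (nat_lit 0) (XT.nd (nat_lit 78) (nat_lit 0) (nat_lit 0) (XT.lf (nat_lit 0) (nat_lit 18308982331) (nat_lit 76) (nat_lit 26721450715) (nat_lit 152) (nat_lit 48541171790) (nat_lit 7) (nat_lit 5) (nat_lit 8) (nat_lit 5) (nat_lit 9) (nat_lit 4) (nat_lit 292) (nat_lit 257) (nat_lit 171)) (XT.nd (nat_lit 78) (nat_lit 0) (nat_lit 0) (XT.lf (nat_lit 0) (nat_lit 45275637458) (nat_lit 76) (nat_lit 12723121596) (nat_lit 152) (nat_lit 41816712857) (nat_lit 7) (nat_lit 5) (nat_lit 8) (nat_lit 5) (nat_lit 9) (nat_lit 4) (nat_lit 293) (nat_lit 257) (nat_lit 170)) (XT.lf (nat_lit 0) (nat_lit 72059237555) (nat_lit 152) (nat_lit 32221832458) (nat_lit 0) (nat_lit 2273412061) (nat_lit 7) (nat_lit 5) (nat_lit 9) (nat_lit 4) (nat_lit 7) (nat_lit 4) (nat_lit 294) (nat_lit 257) (nat_lit 169)))) (XT.nd (nat_lit 78) (nat_lit 76) (nat_lit 0) (XT.lf (nat_lit 0) (nat_lit 87572325792) (nat_lit 152) (nat_lit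 8453497583) (nat_lit 0) (nat_lit 17780575953) (nat_lit 7) (nat_lit 5) (nat_lit 9) (nat_lit 4) (nat_lit 7) (nat_lit 4) (nat_lit 295) (nat_lit 257) (nat_lit 168)) (XT.nd (nat_lit 78) (nat_lit 0) (nat_lit 0) (XT.lf (nat_lit 0) (nat_lit 18118364936) (nat_lit 76) (nat_lit 86641343975) (nat_lit 76) (nat_lit 16844108630) (nat_lit 6) (nat_lit 4) (nat_lit 7) (nat_lit 5) (nat_lit 7) (nat_lit 4) (nat_lit 296) (nat_lit 257) (nat_lit 167)) (XT.lf (nat_lit 0) (nat_lit 47292549904) (nat_lit 76) (nat_lit 76258251586) (nat_lit 76) (nat_lit 6455937069) (nat_lit 6) (nat_lit 4) (nat_lit 7) (nat_lit 5) (nat_lit 7) (nat_lit 4) (nat_lit 297) (nat_lit 257) (nat_lit 166)))))) (XT.nd (nat_lit 468) (nat_lit 76) (nat_lit 0) (XT.nd (nat_lit 234) (nat_lit 76) (nat_lit 0) (XT.nd (nat_lit 78) (nat_lit 0) (nat_lit 0) (XT.lf (nat_lit 0) (nat_lit 4522709221) (nat_lit 152) (nat_lit 60399782272) (nat_lit 76) (nat_lit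 74150427071) (nat_lit 5) (nat_lit 5) (nat_lit 7) (nat_lit 5) (nat_lit 6) (nat_lit 4) (nat_lit 298) (nat_lit 257) (nat_lit 165)) (XT.nd (nat_lit 78) (nat_lit 0) (nat_lit 0) (XT.lf (nat_lit 0) (nat_lit 16028729274) (nat_lit 152) (nat_lit 36471615133) (nat_lit 76) (nat_lit 96350809441) (nat_lit 5) (nat_lit 5) (nat_lit 7) (nat_lit 5) (nat_lit 6) (nat_lit 4) (nat_lit 299) (nat_lit 257) (nat_lit 164)) (XT.lf (nat_lit 0) (nat_lit 28453259030) (nat_lit 152) (nat_lit 10632625251) (nat_lit 76) (nat_lit 120325926465) (nat_lit 5) (nat_lit 5) (nat_lit 7) (nat_lit 5) (nat_lit 6) (nat_lit 4) (nat_lit 300) (nat_lit 257) (nat_lit 163)))) (XT.nd (nat_lit 78) (nat_lit 0) (nat_lit 0) (XT.lf (nat_lit 0) (nat_lit 18179731091) (nat_lit 76) (nat_lit 24127417211) (nat_lit 152) (nat_lit 128475344788) (nat_lit 4) (nat_lit 5) (nat_lit 5) (nat_lit 5) (nat_lit 6) (nat_lit 4) (nat_lit 301) (nat_lit 257) (nat_lit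 162)) (XT.nd (nat_lit 78) (nat_lit 0) (nat_lit 0) (XT.lf (nat_lit 0) (nat_lit 49898666671) (nat_lit 76) (nat_lit 7659631813) (nat_lit 152) (nat_lit 125481419876) (nat_lit 4) (nat_lit 5) (nat_lit 5) (nat_lit 5) (nat_lit 6) (nat_lit 4) (nat_lit 302) (nat_lit 257) (nat_lit 161)) (XT.lf (nat_lit 0) (nat_lit 74271397093) (nat_lit 152) (nat_lit 112368896763) (nat_lit 0) (nat_lit 9617883281) (nat_lit 4) (nat_lit 5) (nat_lit 6) (nat_lit 4) (nat_lit 4) (nat_lit 4) (nat_lit 303) (nat_lit 257) (nat_lit 160))))) (XT.nd (nat_lit 234) (nat_lit 76) (nat_lit 0) (XT.nd (nat_lit 78) (nat_lit 0) (nat_lit 0) (XT.lf (nat_lit 0) (nat_lit 92518954377) (nat_lit 152) (nat_lit 90136672635) (nat_lit 0) (nat_lit 27862696447) (nat_lit 4) (nat_lit 5) (nat_lit 6) (nat_lit 4) (nat_lit 4) (nat_lit 4) (nat_lit 304) (nat_lit 257) (nat_lit 159)) (XT.nd (nat_lit 78) (nat_lit 0) (nat_lit 0) (XT.lf (nat_lit 0) (nat_lit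 112224889679) (nat_lit 152) (nat_lit 66128418462) (nat_lit 0) (nat_lit 47566090898) (nat_lit 4) (nat_lit 5) (nat_lit 6) (nat_lit 4) (nat_lit 4) (nat_lit 4) (nat_lit 305) (nat_lit 257) (nat_lit 158)) (XT.lf (nat_lit 0) (nat_lit 133505978913) (nat_lit 152) (nat_lit 40201863108) (nat_lit 0) (nat_lit 68844827493) (nat_lit 4) (nat_lit 5) (nat_lit 6) (nat_lit 4) (nat_lit 4) (nat_lit 4) (nat_lit 306) (nat_lit 257) (nat_lit 157)))) (XT.nd (nat_lit 78) (nat_lit 76) (nat_lit 0) (XT.lf (nat_lit 0) (nat_lit 156488332236) (nat_lit 152) (nat_lit 12203367726) (nat_lit 0) (nat_lit 91825002446) (nat_lit 4) (nat_lit 5) (nat_lit 6) (nat_lit 4) (nat_lit 4) (nat_lit 4) (nat_lit 307) (nat_lit 257) (nat_lit 156)) (XT.nd (nat_lit 78) (nat_lit 0) (nat_lit 0) (XT.lf (nat_lit 0) (nat_lit 18982569708) (nat_lit 76) (nat_lit 162782102922) (nat_lit 76) (nat_lit 98116756124) (nat_lit 3) (nat_lit 4) (nat_lit 4) (nat_lit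 5) (nat_lit 4) (nat_lit 4) (nat_lit 308) (nat_lit 257) (nat_lit 155)) (XT.lf (nat_lit 0) (nat_lit 53355427085) (nat_lit 76) (nat_lit 156040258892) (nat_lit 76) (nat_lit 91373044492) (nat_lit 3) (nat_lit 4) (nat_lit 4) (nat_lit 5) (nat_lit 4) (nat_lit 4) (nat_lit 309) (nat_lit 257) (nat_lit 154))))))) (XT.nd (nat_lit 936) (nat_lit 0) (nat_lit 0) (XT.nd (nat_lit 468) (nat_lit 152) (nat_lit 0) (XT.nd (nat_lit 234) (nat_lit 0) (nat_lit 0) (XT.nd (nat_lit 78) (nat_lit 0) (nat_lit 0) (XT.lf (nat_lit 0) (nat_lit 90476287693) (nat_lit 76) (nat_lit 148759877903) (nat_lit 76) (nat_lit 84090934243) (nat_lit 3) (nat_lit 4) (nat_lit 4) (nat_lit 5) (nat_lit 4) (nat_lit 4) (nat_lit 310) (nat_lit 257) (nat_lit 153)) (XT.nd (nat_lit 78) (nat_lit 0) (nat_lit 0) (XT.lf (nat_lit 0) (nat_lit 130565127002) (nat_lit 76) (nat_lit 140897816958) (nat_lit 76) (nat_lit 76227272131) (nat_lit 3) (nat_lit 4) (nat_lit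 4) (nat_lit 5) (nat_lit 4) (nat_lit 4) (nat_lit 311) (nat_lit 257) (nat_lit 152)) (XT.lf (nat_lit 0) (nat_lit 173859508503) (nat_lit 76) (nat_lit 132407486065) (nat_lit 76) (nat_lit 67735458676) (nat_lit 3) (nat_lit 4) (nat_lit 4) (nat_lit 5) (nat_lit 4) (nat_lit 4) (nat_lit 312) (nat_lit 257) (nat_lit 151)))) (XT.nd (nat_lit 78) (nat_lit 0) (nat_lit 0) (XT.lf (nat_lit 0) (nat_lit 220615991495) (nat_lit 76) (nat_lit 123238572152) (nat_lit 76) (nat_lit 58565172021) (nat_lit 3) (nat_lit 4) (nat_lit 4) (nat_lit 5) (nat_lit 4) (nat_lit 4) (nat_lit 313) (nat_lit 257) (nat_lit 150)) (XT.nd (nat_lit 78) (nat_lit 0) (nat_lit 0) (XT.lf (nat_lit 0) (nat_lit 271111651433) (nat_lit 76) (nat_lit 113336740915) (nat_lit 76) (nat_lit 48662069727) (nat_lit 3) (nat_lit 4) (nat_lit 4) (nat_lit 5) (nat_lit 4) (nat_lit 4) (nat_lit 314) (nat_lit 257) (nat_lit 149)) (XT.lf (nat_lit 0) (nat_lit 325645721856)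 (nat_lit 76) (nat_lit 102643314836) (nat_lit 76) (nat_lit 37967466742) (nat_lit 3) (nat_lit 4) (nat_lit 4) (nat_lit 5) (nat_lit 4) (nat_lit 4) (nat_lit 315) (nat_lit 257) (nat_lit 148))))) (XT.nd (nat_lit 234) (nat_lit 152) (nat_lit 0) (XT.nd (nat_lit 78) (nat_lit 0) (nat_lit 0) (XT.lf (nat_lit 0) (nat_lit 384541367627) (nat_lit 76) (nat_lit 91094925463) (nat_lit 76) (nat_lit 26417987642) (nat_lit 3) (nat_lit 4) (nat_lit 4) (nat_lit 5) (nat_lit 4) (nat_lit 4) (nat_lit 316) (nat_lit 257) (nat_lit 147)) (XT.nd (nat_lit 78) (nat_lit 0) (nat_lit 0) (XT.lf (nat_lit 0) (nat_lit 448147599980) (nat_lit 76) (nat_lit 78623137897) (nat_lit 76) (nat_lit 13945191070) (nat_lit 3) (nat_lit 4) (nat_lit 4) (nat_lit 5) (nat_lit 4) (nat_lit 4) (nat_lit 317) (nat_lit 257) (nat_lit 146)) (XT.lf (nat_lit 0) (nat_lit 516841344736) (nat_lit 76) (nat_lit 65154045249) (nat_lit 76) (nat_lit 475164155) (nat_lit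 3) (nat_lit 4) (nat_lit 4) (nat_lit 5) (nat_lit 4) (nat_lit 4) (nat_lit 318) (nat_lit 257) (nat_lit 145)))) (XT.nd (nat_lit 78) (nat_lit 76) (nat_lit 0) (XT.lf (nat_lit 0) (nat_lit 13367981277) (nat_lit 152) (nat_lit 36874345096) (nat_lit 76) (nat_lit 577296190363) (nat_lit 2) (nat_lit 5) (nat_lit 4) (nat_lit 5) (nat_lit 3) (nat_lit 4) (nat_lit 319) (nat_lit 257) (nat_lit 144)) (XT.nd (nat_lit 78) (nat_lit 76) (nat_lit 0) (XT.lf (nat_lit 0) (nat_lit 28292423856) (nat_lit 152) (nat_lit 5832305514) (nat_lit 76) (nat_lit 642086239279) (nat_lit 2) (nat_lit 5) (nat_lit 4) (nat_lit 5) (nat_lit 3) (nat_lit 4) (nat_lit 320) (nat_lit 257) (nat_lit 143)) (XT.lf (nat_lit 0) (nat_lit 29150516788) (nat_lit 76) (nat_lit 15960928199) (nat_lit 152) (nat_lit 683609722803) (nat_lit 1) (nat_lit 5) (nat_lit 2) (nat_lit 5) (nat_lit 3) (nat_lit 4) (nat_lit 321) (nat_lit 257) (nat_lit 142)))))) (XT.nd (nat_lit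 468) (nat_lit 0) (nat_lit 0) (XT.nd (nat_lit 234) (nat_lit 0) (nat_lit 0) (XT.nd (nat_lit 78) (nat_lit 0) (nat_lit 0) (XT.lf (nat_lit 0) (nat_lit 63527079909) (nat_lit 152) (nat_lit 718248654588) (nat_lit 0) (nat_lit 3636361855) (nat_lit 1) (nat_lit 5) (nat_lit 3) (nat_lit 4) (nat_lit 1) (nat_lit 4) (nat_lit 322) (nat_lit 257) (nat_lit 141)) (XT.nd (nat_lit 78) (nat_lit 0) (nat_lit 0) (XT.lf (nat_lit 0) (nat_lit 83830126144) (nat_lit 152) (nat_lit 738836221664) (nat_lit 0) (nat_lit 23938819344) (nat_lit 1) (nat_lit 5) (nat_lit 3) (nat_lit 4) (nat_lit 1) (nat_lit 4) (nat_lit 323) (nat_lit 257) (nat_lit 140)) (XT.lf (nat_lit 0) (nat_lit 105757037333) (nat_lit 152) (nat_lit 761071491921) (nat_lit 0) (nat_lit 45865185398) (nat_lit 1) (nat_lit 5) (nat_lit 3) (nat_lit 4) (nat_lit 1) (nat_lit 4) (nat_lit 324) (nat_lit 257) (nat_lit 139)))) (XT.nd (nat_lit 78) (nat_lit 0) (nat_lit 0) (XT.lf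 (nat_lit 0) (nat_lit 129437750728) (nat_lit 152) (nat_lit 785086229922) (nat_lit 0) (nat_lit 69545394038) (nat_lit 1) (nat_lit 5) (nat_lit 3) (nat_lit 4) (nat_lit 1) (nat_lit 4) (nat_lit 325) (nat_lit 257) (nat_lit 138)) (XT.nd (nat_lit 78) (nat_lit 0) (nat_lit 0) (XT.lf (nat_lit 0) (nat_lit 155012596482) (nat_lit 152) (nat_lit 811022745226) (nat_lit 0) (nat_lit 95119772427) (nat_lit 1) (nat_lit 5) (nat_lit 3) (nat_lit 4) (nat_lit 1) (nat_lit 4) (nat_lit 326) (nat_lit 257) (nat_lit 137)) (XT.lf (nat_lit 0) (nat_lit 182633129236) (nat_lit 152) (nat_lit 839034735701) (nat_lit 0) (nat_lit 122739872435) (nat_lit 1) (nat_lit 5) (nat_lit 3) (nat_lit 4) (nat_lit 1) (nat_lit 4) (nat_lit 327) (nat_lit 257) (nat_lit 136))))) (XT.nd (nat_lit 234) (nat_lit 0) (nat_lit 0) (XT.nd (nat_lit 78) (nat_lit 0) (nat_lit 0) (XT.lf (nat_lit 0) (nat_lit 212463026222) (nat_lit 152) (nat_lit 869288198329) (nat_lit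 0) (nat_lit 152569368731) (nat_lit 1) (nat_lit 5) (nat_lit 3) (nat_lit 4) (nat_lit 1) (nat_lit 4) (nat_lit 328) (nat_lit 257) (nat_lit 135)) (XT.nd (nat_lit 78) (nat_lit 0) (nat_lit 0) (XT.lf (nat_lit 0) (nat_lit 244679057200) (nat_lit 152) (nat_lit 901962412888) (nat_lit 0) (nat_lit 184785028700) (nat_lit 1) (nat_lit 5) (nat_lit 3) (nat_lit 4) (nat_lit 1) (nat_lit 4) (nat_lit 329) (nat_lit 257) (nat_lit 134)) (XT.lf (nat_lit 0) (nat_lit 279472131983) (nat_lit 152) (nat_lit 937251004353) (nat_lit 0) (nat_lit 219577759955) (nat_lit 1) (nat_lit 5) (nat_lit 3) (nat_lit 4) (nat_lit 1) (nat_lit 4) (nat_lit 330) (nat_lit 257) (nat_lit 133)))) (XT.nd (nat_lit 156) (nat_lit 0) (nat_lit 0) (XT.nd (nat_lit 78) (nat_lit 0) (nat_lit 0) (XT.lf (nat_lit 0) (nat_lit 317048431755) (nat_lit 152) (nat_lit 975363090303) (nat_lit 0) (nat_lit 257153741645) (nat_lit 1) (nat_lit 5) (nat_lit 3) (nat_lit 4)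 (nat_lit 1) (nat_lit 4) (nat_lit 331) (nat_lit 257) (nat_lit 132)) (XT.lf (nat_lit 0) (nat_lit 357630630884) (nat_lit 152) (nat_lit 1016524520136) (nat_lit 0) (nat_lit 297735646255) (nat_lit 1) (nat_lit 5) (nat_lit 3) (nat_lit 4) (nat_lit 1) (nat_lit 4) (nat_lit 332) (nat_lit 257) (nat_lit 131))) (XT.nd (nat_lit 78) (nat_lit 0) (nat_lit 0) (XT.lf (nat_lit 0) (nat_lit 401459216477) (nat_lit 152) (nat_lit 1060979213436) (nat_lit 0) (nat_lit 341563959145) (nat_lit 1) (nat_lit 5) (nat_lit 3) (nat_lit 4) (nat_lit 1) (nat_lit 4) (nat_lit 333) (nat_lit 257) (nat_lit 130)) (XT.lf (nat_lit 0) (nat_lit 448793913485) (nat_lit 152) (nat_lit 1108990605423) (nat_lit 0) (nat_lit 388898403651) (nat_lit 1) (nat_lit 5) (nat_lit 3) (nat_lit 4) (nat_lit 1) (nat_lit 4) (nat_lit 334) (nat_lit 257) (nat_lit 129))))))))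
noncomputable def xc82 : XT := (XT.nd (nat_lit 1872) (nat_lit 760) (nat_lit 0) (XT.nd (nat_lit 936) (nat_lit 912) (nat_lit 0) (XT.nd (nat_lit 468) (nat_lit 456) (nat_lit 0) (XT.nd (nat_lit 234) (nat_lit 0) (nat_lit 76) (XT.nd (nat_lit 78) (nat_lit 0) (nat_lit 0) (XT.lf (nat_lit 0) (nat_lit 1059943534) (nat_lit 532) (nat_lit 3618180072) (nat_lit 532) (nat_lit 3618180072) (nat_lit 32) (nat_lit 3) (nat_lit 39) (nat_lit 3) (nat_lit 39) (nat_lit 5) (nat_lit 258) (nat_lit 258) (nat_lit 204)) (XT.nd (nat_lit 78) (nat_lit 0) (nat_lit 76) (XT.lf (nat_lit 0) (nat_lit 2417990677) (nat_lit 532) (nat_lit 372579846) (nat_lit 532) (nat_lit 14447298264) (nat_lit 32) (nat_lit 3) (nat_lit 39) (nat_lit 3) (nat_lit 39) (nat_lit 5) (nat_lit 259) (nat_lit 258) (nat_lit 203)) (XT.lf (nat_lit 0) (nat_lit 3004823598) (nat_lit 456) (nat_lit 10631811869) (nat_lit 532) (nat_lit 4277063070) (nat_lit 33) (nat_lit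 5) (nat_lit 39) (nat_lit 5) (nat_lit 40) (nat_lit 5) (nat_lit 260) (nat_lit 258) (nat_lit 202)))) (XT.nd (nat_lit 78) (nat_lit 0) (nat_lit 76) (XT.lf (nat_lit 0) (nat_lit 3701715100) (nat_lit 456) (nat_lit 3158867080) (nat_lit 532) (nat_lit 11778091204) (nat_lit 33) (nat_lit 5) (nat_lit 39) (nat_lit 5) (nat_lit 40) (nat_lit 5) (nat_lit 261) (nat_lit 258) (nat_lit 201)) (XT.nd (nat_lit 78) (nat_lit 0) (nat_lit 0) (XT.lf (nat_lit 0) (nat_lit 4574418759) (nat_lit 456) (nat_lit 14270020791) (nat_lit 532) (nat_lit 567720020) (nat_lit 34) (nat_lit 5) (nat_lit 40) (nat_lit 5) (nat_lit 41) (nat_lit 5) (nat_lit 262) (nat_lit 258) (nat_lit 200)) (XT.lf (nat_lit 0) (nat_lit 5766594745) (nat_lit 456) (nat_lit 6147751761) (nat_lit 532) (nat_lit 8313315122) (nat_lit 34) (nat_lit 5) (nat_lit 40) (nat_lit 5) (nat_lit 41) (nat_lit 5) (nat_lit 263) (nat_lit 258) (nat_lit 199))))) (XT.nd (nat_lit 234)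 (nat_lit 228) (nat_lit 0) (XT.nd (nat_lit 78) (nat_lit 380) (nat_lit 0) (XT.lf (nat_lit 76) (nat_lit 2749264212) (nat_lit 0) (nat_lit 4355117799) (nat_lit 532) (nat_lit 14000104214) (nat_lit 35) (nat_lit 5) (nat_lit 34) (nat_lit 5) (nat_lit 41) (nat_lit 5) (nat_lit 264) (nat_lit 258) (nat_lit 198)) (XT.nd (nat_lit 78) (nat_lit 456) (nat_lit 0) (XT.lf (nat_lit 0) (nat_lit 8798317155) (nat_lit 456) (nat_lit 9439914889) (nat_lit 76) (nat_lit 3793388598) (nat_lit 35) (nat_lit 5) (nat_lit 41) (nat_lit 5) (nat_lit 36) (nat_lit 5) (nat_lit 265) (nat_lit 258) (nat_lit 197)) (XT.lf (nat_lit 0) (nat_lit 66210860) (nat_lit 456) (nat_lit 10662440388) (nat_lit 532) (nat_lit 12296290728) (nat_lit 29) (nat_lit 5) (nat_lit 35) (nat_lit 5) (nat_lit 36) (nat_lit 5) (nat_lit 266) (nat_lit 258) (nat_lit 196)))) (XT.nd (nat_lit 78) (nat_lit 228) (nat_lit 0) (XT.lf (nat_lit 0) (nat_lit 10857403797) (nat_lit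 456) (nat_lit 2201013089) (nat_lit 532) (nat_lit 11019792200) (nat_lit 29) (nat_lit 5) (nat_lit 35) (nat_lit 5) (nat_lit 36) (nat_lit 5) (nat_lit 267) (nat_lit 258) (nat_lit 195)) (XT.nd (nat_lit 78) (nat_lit 228) (nat_lit 0) (XT.lf (nat_lit 0) (nat_lit 15729296077) (nat_lit 532) (nat_lit 2883121002) (nat_lit 76) (nat_lit 6591016398) (nat_lit 29) (nat_lit 5) (nat_lit 36) (nat_lit 5) (nat_lit 30) (nat_lit 5) (nat_lit 268) (nat_lit 258) (nat_lit 194)) (XT.lf (nat_lit 0) (nat_lit 8645373710) (nat_lit 228) (nat_lit 10222348978) (nat_lit 304) (nat_lit 7530711943) (nat_lit 26) (nat_lit 5) (nat_lit 29) (nat_lit 5) (nat_lit 30) (nat_lit 5) (nat_lit 269) (nat_lit 258) (nat_lit 193)))))) (XT.nd (nat_lit 468) (nat_lit 456) (nat_lit 0) (XT.nd (nat_lit 234) (nat_lit 228) (nat_lit 0) (XT.nd (nat_lit 78) (nat_lit 228) (nat_lit 0) (XT.lf (nat_lit 0) (nat_lit 21248893330) (nat_lit 228) (nat_lit 1076506987)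 (nat_lit 304) (nat_lit 5358245278) (nat_lit 26) (nat_lit 5) (nat_lit 29) (nat_lit 5) (nat_lit 30) (nat_lit 5) (nat_lit 270) (nat_lit 258) (nat_lit 192)) (XT.nd (nat_lit 78) (nat_lit 76) (nat_lit 0) (XT.lf (nat_lit 0) (nat_lit 5859234639) (nat_lit 152) (nat_lit 20543160275) (nat_lit 228) (nat_lit 2641921438) (nat_lit 24) (nat_lit 5) (nat_lit 26) (nat_lit 5) (nat_lit 27) (nat_lit 5) (nat_lit 271) (nat_lit 258) (nat_lit 191)) (XT.lf (nat_lit 0) (nat_lit 475880217) (nat_lit 228) (nat_lit 11048124137) (nat_lit 76) (nat_lit 18973424723) (nat_lit 23) (nat_lit 5) (nat_lit 26) (nat_lit 5) (nat_lit 24) (nat_lit 5) (nat_lit 272) (nat_lit 258) (nat_lit 190)))) (XT.nd (nat_lit 78) (nat_lit 0) (nat_lit 0) (XT.lf (nat_lit 0) (nat_lit 2084809013) (nat_lit 228) (nat_lit 1656718934) (nat_lit 304) (nat_lit 28316527766) (nat_lit 20) (nat_lit 5) (nat_lit 23) (nat_lit 5) (nat_lit 24) (nat_lit 5) (nat_lit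 273) (nat_lit 258) (nat_lit 189)) (XT.nd (nat_lit 78) (nat_lit 0) (nat_lit 0) (XT.lf (nat_lit 0) (nat_lit 7786184883) (nat_lit 304) (nat_lit 17058034263) (nat_lit 76) (nat_lit 8857936211) (nat_lit 20) (nat_lit 5) (nat_lit 24) (nat_lit 5) (nat_lit 21) (nat_lit 5) (nat_lit 274) (nat_lit 258) (nat_lit 188)) (XT.lf (nat_lit 0) (nat_lit 12189471019) (nat_lit 304) (nat_lit 3162882902) (nat_lit 76) (nat_lit 20122664767) (nat_lit 20) (nat_lit 5) (nat_lit 24) (nat_lit 5) (nat_lit 21) (nat_lit 5) (nat_lit 275) (nat_lit 258) (nat_lit 187))))) (XT.nd (nat_lit 234) (nat_lit 152) (nat_lit 0) (XT.nd (nat_lit 78) (nat_lit 152) (nat_lit 0) (XT.lf (nat_lit 0) (nat_lit 12457571320) (nat_lit 152) (nat_lit 4779669342) (nat_lit 228) (nat_lit 20129130042) (nat_lit 18) (nat_lit 5) (nat_lit 20) (nat_lit 5) (nat_lit 21) (nat_lit 5) (nat_lit 276) (nat_lit 258) (nat_lit 186)) (XT.nd (nat_lit 78) (nat_lit 152)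 (nat_lit 0) (XT.lf (nat_lit 0) (nat_lit 22930108630) (nat_lit 228) (nat_lit 10066278866) (nat_lit 76) (nat_lit 6393375751) (nat_lit 18) (nat_lit 5) (nat_lit 21) (nat_lit 5) (nat_lit 19) (nat_lit 5) (nat_lit 277) (nat_lit 258) (nat_lit 185)) (XT.lf (nat_lit 0) (nat_lit 6137447597) (nat_lit 152) (nat_lit 23206125995) (nat_lit 228) (nat_lit 12210272148) (nat_lit 16) (nat_lit 5) (nat_lit 18) (nat_lit 5) (nat_lit 19) (nat_lit 5) (nat_lit 278) (nat_lit 258) (nat_lit 184)))) (XT.nd (nat_lit 78) (nat_lit 152) (nat_lit 0) (XT.lf (nat_lit 0) (nat_lit 24201111531) (nat_lit 152) (nat_lit 12337923901) (nat_lit 228) (nat_lit 7330535407) (nat_lit 16) (nat_lit 5) (nat_lit 18) (nat_lit 5) (nat_lit 19) (nat_lit 5) (nat_lit 279) (nat_lit 258) (nat_lit 183)) (XT.nd (nat_lit 78) (nat_lit 152) (nat_lit 0) (XT.lf (nat_lit 0) (nat_lit 43701684464) (nat_lit 152) (nat_lit 602606959) (nat_lit 228) (nat_lit 2066757342)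 (nat_lit 16) (nat_lit 5) (nat_lit 18) (nat_lit 5) (nat_lit 19) (nat_lit 5) (nat_lit 280) (nat_lit 258) (nat_lit 182)) (XT.lf (nat_lit 0) (nat_lit 4129138632) (nat_lit 152) (nat_lit 32921409304) (nat_lit 76) (nat_lit 11959798489) (nat_lit 14) (nat_lit 5) (nat_lit 16) (nat_lit 5) (nat_lit 15) (nat_lit 5) (nat_lit 281) (nat_lit 258) (nat_lit 181))))))) (XT.nd (nat_lit 936) (nat_lit 228) (nat_lit 0) (XT.nd (nat_lit 468) (nat_lit 304) (nat_lit 0) (XT.nd (nat_lit 234) (nat_lit 76) (nat_lit 0) (XT.nd (nat_lit 78) (nat_lit 152) (nat_lit 0) (XT.lf (nat_lit 0) (nat_lit 10794177483) (nat_lit 152) (nat_lit 15434555226) (nat_lit 76) (nat_lit 25620971992) (nat_lit 14) (nat_lit 5) (nat_lit 16) (nat_lit 5) (nat_lit 15) (nat_lit 5) (nat_lit 282) (nat_lit 258) (nat_lit 180)) (XT.nd (nat_lit 78) (nat_lit 0) (nat_lit 0) (XT.lf (nat_lit 0) (nat_lit 3625100442) (nat_lit 152) (nat_lit 14449499770) (nat_lit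 228) (nat_lit 36835057100) (nat_lit 12) (nat_lit 5) (nat_lit 14) (nat_lit 5) (nat_lit 15) (nat_lit 5) (nat_lit 283) (nat_lit 258) (nat_lit 179)) (XT.lf (nat_lit 0) (nat_lit 25080006051) (nat_lit 152) (nat_lit 1274650861) (nat_lit 228) (nat_lit 31826391850) (nat_lit 12) (nat_lit 5) (nat_lit 14) (nat_lit 5) (nat_lit 15) (nat_lit 5) (nat_lit 284) (nat_lit 258) (nat_lit 178)))) (XT.nd (nat_lit 78) (nat_lit 76) (nat_lit 0) (XT.lf (nat_lit 0) (nat_lit 35604159356) (nat_lit 228) (nat_lit 13781472483) (nat_lit 76) (nat_lit 12303973654) (nat_lit 12) (nat_lit 5) (nat_lit 15) (nat_lit 5) (nat_lit 13) (nat_lit 4) (nat_lit 285) (nat_lit 258) (nat_lit 177)) (XT.nd (nat_lit 78) (nat_lit 0) (nat_lit 0) (XT.lf (nat_lit 0) (nat_lit 7414927882) (nat_lit 76) (nat_lit 38385957716) (nat_lit 152) (nat_lit 19661396059) (nat_lit 11) (nat_lit 5) (nat_lit 12) (nat_lit 5) (nat_lit 13) (nat_lit 4) (nat_lit 286)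 (nat_lit 258) (nat_lit 176)) (XT.lf (nat_lit 0) (nat_lit 31084418324) (nat_lit 76) (nat_lit 26101723638) (nat_lit 152) (nat_lit 12320821390) (nat_lit 11) (nat_lit 5) (nat_lit 12) (nat_lit 5) (nat_lit 13) (nat_lit 4) (nat_lit 287) (nat_lit 258) (nat_lit 175))))) (XT.nd (nat_lit 234) (nat_lit 76) (nat_lit 0) (XT.nd (nat_lit 78) (nat_lit 228) (nat_lit 0) (XT.lf (nat_lit 0) (nat_lit 56641554570) (nat_lit 76) (nat_lit 12836944025) (nat_lit 152) (nat_lit 4397032309) (nat_lit 11) (nat_lit 5) (nat_lit 12) (nat_lit 5) (nat_lit 13) (nat_lit 4) (nat_lit 288) (nat_lit 258) (nat_lit 174)) (XT.nd (nat_lit 78) (nat_lit 0) (nat_lit 0) (XT.lf (nat_lit 0) (nat_lit 4131337899) (nat_lit 228) (nat_lit 72780776239) (nat_lit 76) (nat_lit 1659171468) (nat_lit 8) (nat_lit 5) (nat_lit 11) (nat_lit 5) (nat_lit 9) (nat_lit 4) (nat_lit 289) (nat_lit 258) (nat_lit 173)) (XT.lf (nat_lit 0) (nat_lit 13917830150)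 (nat_lit 228) (nat_lit 52433577165) (nat_lit 76) (nat_lit 17217095046) (nat_lit 8) (nat_lit 5) (nat_lit 11) (nat_lit 5) (nat_lit 9) (nat_lit 4) (nat_lit 290) (nat_lit 258) (nat_lit 172)))) (XT.nd (nat_lit 78) (nat_lit 76) (nat_lit 0) (XT.lf (nat_lit 0) (nat_lit 24484031273) (nat_lit 228) (nat_lit 30463938836) (nat_lit 76) (nat_lit 34017793260) (nat_lit 8) (nat_lit 5) (nat_lit 11) (nat_lit 5) (nat_lit 9) (nat_lit 4) (nat_lit 291) (nat_lit 258) (nat_lit 171)) (XT.nd (nat_lit 78) (nat_lit 76) (nat_lit 0) (XT.lf (nat_lit 0) (nat_lit 35892555794) (nat_lit 228) (nat_lit 6741670802) (nat_lit 76) (nat_lit 52160825803) (nat_lit 8) (nat_lit 5) (nat_lit 11) (nat_lit 5) (nat_lit 9) (nat_lit 4) (nat_lit 292) (nat_lit 258) (nat_lit 170)) (XT.lf (nat_lit 0) (nat_lit 19867664375) (nat_lit 76) (nat_lit 28821163215) (nat_lit 152) (nat_lit 52363860373) (nat_lit 7) (nat_lit 5) (nat_lit 8) (nat_lit 5)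 (nat_lit 9) (nat_lit 4) (nat_lit 293) (nat_lit 258) (nat_lit 169)))))) (XT.nd (nat_lit 468) (nat_lit 76) (nat_lit 0) (XT.nd (nat_lit 234) (nat_lit 152) (nat_lit 0) (XT.nd (nat_lit 78) (nat_lit 0) (nat_lit 0) (XT.lf (nat_lit 0) (nat_lit 48984691656) (nat_lit 76) (nat_lit 13705782845) (nat_lit 152) (nat_lit 45105933996) (nat_lit 7) (nat_lit 5) (nat_lit 8) (nat_lit 5) (nat_lit 9) (nat_lit 4) (nat_lit 294) (nat_lit 258) (nat_lit 168)) (XT.nd (nat_lit 78) (nat_lit 0) (nat_lit 0) (XT.lf (nat_lit 0) (nat_lit 77872736750) (nat_lit 152) (nat_lit 34715821569) (nat_lit 0) (nat_lit 2486237071) (nat_lit 7) (nat_lit 5) (nat_lit 9) (nat_lit 4) (nat_lit 7) (nat_lit 4) (nat_lit 295) (nat_lit 258) (nat_lit 167)) (XT.lf (nat_lit 0) (nat_lit 94623260180) (nat_lit 152) (nat_lit 9052224162) (nat_lit 0) (nat_lit 19231681330) (nat_lit 7) (nat_lit 5) (nat_lit 9) (nat_lit 4) (nat_lit 7) (nat_lit 4) (nat_lit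 296) (nat_lit 258) (nat_lit 166)))) (XT.nd (nat_lit 78) (nat_lit 76) (nat_lit 0) (XT.lf (nat_lit 0) (nat_lit 19643423986) (nat_lit 76) (nat_lit 93540683580) (nat_lit 76) (nat_lit 18144401793) (nat_lit 6) (nat_lit 4) (nat_lit 7) (nat_lit 5) (nat_lit 7) (nat_lit 4) (nat_lit 297) (nat_lit 258) (nat_lit 165)) (XT.nd (nat_lit 78) (nat_lit 76) (nat_lit 0) (XT.lf (nat_lit 0) (nat_lit 51145944503) (nat_lit 76) (nat_lit 82329311794) (nat_lit 76) (nat_lit 6928675436) (nat_lit 6) (nat_lit 4) (nat_lit 7) (nat_lit 5) (nat_lit 7) (nat_lit 4) (nat_lit 298) (nat_lit 258) (nat_lit 164)) (XT.lf (nat_lit 0) (nat_lit 4922996993) (nat_lit 152) (nat_lit 65164834621) (nat_lit 76) (nat_lit 80107744453) (nat_lit 5) (nat_lit 5) (nat_lit 7) (nat_lit 5) (nat_lit 6) (nat_lit 4) (nat_lit 299) (nat_lit 258) (nat_lit 163))))) (XT.nd (nat_lit 234) (nat_lit 0) (nat_lit 0) (XT.nd (nat_lit 78) (nat_lit 76) (nat_lit 0)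 (XT.lf (nat_lit 0) (nat_lit 17346648944) (nat_lit 152) (nat_lit 39327371906) (nat_lit 76) (nat_lit 104082284582) (nat_lit 5) (nat_lit 5) (nat_lit 7) (nat_lit 5) (nat_lit 6) (nat_lit 4) (nat_lit 300) (nat_lit 258) (nat_lit 162)) (XT.nd (nat_lit 78) (nat_lit 76) (nat_lit 0) (XT.lf (nat_lit 0) (nat_lit 30762502464) (nat_lit 152) (nat_lit 11425853384) (nat_lit 76) (nat_lit 129973676865) (nat_lit 5) (nat_lit 5) (nat_lit 7) (nat_lit 5) (nat_lit 6) (nat_lit 4) (nat_lit 301) (nat_lit 258) (nat_lit 161)) (XT.lf (nat_lit 0) (nat_lit 19690038759) (nat_lit 76) (nat_lit 26033566052) (nat_lit 152) (nat_lit 138718858921) (nat_lit 4) (nat_lit 5) (nat_lit 5) (nat_lit 5) (nat_lit 6) (nat_lit 4) (nat_lit 302) (nat_lit 258) (nat_lit 160)))) (XT.nd (nat_lit 78) (nat_lit 0) (nat_lit 0) (XT.lf (nat_lit 0) (nat_lit 53942346284) (nat_lit 76) (nat_lit 8250138899) (nat_lit 152) (nat_lit 135487976567) (nat_lit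 4) (nat_lit 5) (nat_lit 5) (nat_lit 5) (nat_lit 6) (nat_lit 4) (nat_lit 303) (nat_lit 258) (nat_lit 159)) (XT.nd (nat_lit 78) (nat_lit 0) (nat_lit 0) (XT.lf (nat_lit 0) (nat_lit 80240940580) (nat_lit 152) (nat_lit 121308700244) (nat_lit 0) (nat_lit 10406897046) (nat_lit 4) (nat_lit 5) (nat_lit 6) (nat_lit 4) (nat_lit 4) (nat_lit 4) (nat_lit 304) (nat_lit 258) (nat_lit 158)) (XT.lf (nat_lit 0) (nat_lit 99946240837) (nat_lit 152) (nat_lit 97301580279) (nat_lit 0) (nat_lit 30109844665) (nat_lit 4) (nat_lit 5) (nat_lit 6) (nat_lit 4) (nat_lit 4) (nat_lit 4) (nat_lit 305) (nat_lit 258) (nat_lit 157))))))))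
noncomputable def xc83 : XT := (XT.nd (nat_lit 1872) (nat_lit 0) (nat_lit 0) (XT.nd (nat_lit 936) (nat_lit 152) (nat_lit 0) (XT.nd (nat_lit 468) (nat_lit 0) (nat_lit 0) (XT.nd (nat_lit 234) (nat_lit 76) (nat_lit 0) (XT.nd (nat_lit 78) (nat_lit 0) (nat_lit 0) (XT.lf (nat_lit 0) (nat_lit 121226742067) (nat_lit 152) (nat_lit 71376075118) (nat_lit 0) (nat_lit 51388167524) (nat_lit 4) (nat_lit 5) (nat_lit 6) (nat_lit 4) (nat_lit 4) (nat_lit 4) (nat_lit 306) (nat_lit 258) (nat_lit 156)) (XT.nd (nat_lit 78) (nat_lit 0) (nat_lit 0) (XT.lf (nat_lit 0) (nat_lit 144208550942) (nat_lit 152) (nat_lit 43378552137) (nat_lit 0) (nat_lit 74367959390) (nat_lit 4) (nat_lit 5) (nat_lit 6) (nat_lit 4) (nat_lit 4) (nat_lit 4) (nat_lit 307) (nat_lit 258) (nat_lit 155)) (XT.lf (nat_lit 0) (nat_lit 169027855960) (nat_lit 152) (nat_lit 13143100089) (nat_lit 0) (nat_lit 99185396807) (nat_lit 4) (nat_lit 5) (nat_lit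 6) (nat_lit 4) (nat_lit 4) (nat_lit 4) (nat_lit 308) (nat_lit 258) (nat_lit 154)))) (XT.nd (nat_lit 78) (nat_lit 0) (nat_lit 0) (XT.lf (nat_lit 0) (nat_lit 20536787351) (nat_lit 76) (nat_lit 175788857361) (nat_lit 76) (nat_lit 105944668948) (nat_lit 3) (nat_lit 4) (nat_lit 4) (nat_lit 5) (nat_lit 4) (nat_lit 4) (nat_lit 309) (nat_lit 258) (nat_lit 153)) (XT.nd (nat_lit 78) (nat_lit 0) (nat_lit 0) (XT.lf (nat_lit 0) (nat_lit 57656835388) (nat_lit 76) (nat_lit 168508837200) (nat_lit 76) (nat_lit 98663047621) (nat_lit 3) (nat_lit 4) (nat_lit 4) (nat_lit 5) (nat_lit 4) (nat_lit 4) (nat_lit 310) (nat_lit 258) (nat_lit 152)) (XT.lf (nat_lit 0) (nat_lit 97744922316) (nat_lit 76) (nat_lit 160647110355) (nat_lit 76) (nat_lit 90799838214) (nat_lit 3) (nat_lit 4) (nat_lit 4) (nat_lit 5) (nat_lit 4) (nat_lit 4) (nat_lit 311) (nat_lit 258) (nat_lit 151))))) (XT.nd (nat_lit 234) (nat_lit 0) (nat_lit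 0) (XT.nd (nat_lit 78) (nat_lit 0) (nat_lit 0) (XT.lf (nat_lit 0) (nat_lit 141038607168) (nat_lit 76) (nat_lit 152157088814) (nat_lit 76) (nat_lit 82308443930) (nat_lit 3) (nat_lit 4) (nat_lit 4) (nat_lit 5) (nat_lit 4) (nat_lit 4) (nat_lit 312) (nat_lit 258) (nat_lit 150)) (XT.nd (nat_lit 78) (nat_lit 0) (nat_lit 0) (XT.lf (nat_lit 0) (nat_lit 187794445115) (nat_lit 76) (nat_lit 142988461338) (nat_lit 76) (nat_lit 73138545397) (nat_lit 3) (nat_lit 4) (nat_lit 4) (nat_lit 5) (nat_lit 4) (nat_lit 4) (nat_lit 313) (nat_lit 258) (nat_lit 149)) (XT.lf (nat_lit 0) (nat_lit 238289507789) (nat_lit 76) (nat_lit 133086895321) (nat_lit 76) (nat_lit 63235802474) (nat_lit 3) (nat_lit 4) (nat_lit 4) (nat_lit 5) (nat_lit 4) (nat_lit 4) (nat_lit 314) (nat_lit 258) (nat_lit 148)))) (XT.nd (nat_lit 78) (nat_lit 0) (nat_lit 0) (XT.lf (nat_lit 0) (nat_lit 292823025190) (nat_lit 76) (nat_lit 122393714815)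 (nat_lit 76) (nat_lit 52541532241) (nat_lit 3) (nat_lit 4) (nat_lit 4) (nat_lit 5) (nat_lit 4) (nat_lit 4) (nat_lit 315) (nat_lit 258) (nat_lit 147)) (XT.nd (nat_lit 78) (nat_lit 0) (nat_lit 0) (XT.lf (nat_lit 0) (nat_lit 351718158904) (nat_lit 76) (nat_lit 110845552826) (nat_lit 76) (nat_lit 40992361245) (nat_lit 3) (nat_lit 4) (nat_lit 4) (nat_lit 5) (nat_lit 4) (nat_lit 4) (nat_lit 316) (nat_lit 258) (nat_lit 146)) (XT.lf (nat_lit 0) (nat_lit 415323917129) (nat_lit 76) (nat_lit 98373975799) (nat_lit 76) (nat_lit 28519849953) (nat_lit 3) (nat_lit 4) (nat_lit 4) (nat_lit 5) (nat_lit 4) (nat_lit 4) (nat_lit 317) (nat_lit 258) (nat_lit 145)))))) (XT.nd (nat_lit 468) (nat_lit 0) (nat_lit 0) (XT.nd (nat_lit 234) (nat_lit 76) (nat_lit 0) (XT.nd (nat_lit 78) (nat_lit 76) (nat_lit 0) (XT.lf (nat_lit 0) (nat_lit 484017222878) (nat_lit 76) (nat_lit 84905078095) (nat_lit 76) (nat_lit 15050087188)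 (nat_lit 3) (nat_lit 4) (nat_lit 4) (nat_lit 5) (nat_lit 4) (nat_lit 4) (nat_lit 318) (nat_lit 258) (nat_lit 144)) (XT.nd (nat_lit 78) (nat_lit 76) (nat_lit 0) (XT.lf (nat_lit 0) (nat_lit 558205147592) (nat_lit 76) (nat_lit 70359044022) (nat_lit 76) (nat_lit 503252133) (nat_lit 3) (nat_lit 4) (nat_lit 4) (nat_lit 5) (nat_lit 4) (nat_lit 4) (nat_lit 319) (nat_lit 258) (nat_lit 143)) (XT.lf (nat_lit 0) (nat_lit 14446150018) (nat_lit 152) (nat_lit 39808541499) (nat_lit 76) (nat_lit 623486190057) (nat_lit 2) (nat_lit 5) (nat_lit 4) (nat_lit 5) (nat_lit 3) (nat_lit 4) (nat_lit 320) (nat_lit 258) (nat_lit 142)))) (XT.nd (nat_lit 78) (nat_lit 76) (nat_lit 0) (XT.lf (nat_lit 0) (nat_lit 30563901319) (nat_lit 152) (nat_lit 6284305506) (nat_lit 76) (nat_lit 693458975889) (nat_lit 2) (nat_lit 5) (nat_lit 4) (nat_lit 5) (nat_lit 3) (nat_lit 4) (nat_lit 321) (nat_lit 258) (nat_lit 141)) (XT.nd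 (nat_lit 78) (nat_lit 0) (nat_lit 0) (XT.lf (nat_lit 0) (nat_lit 31496773354) (nat_lit 76) (nat_lit 17231413881) (nat_lit 152) (nat_lit 738290032344) (nat_lit 1) (nat_lit 5) (nat_lit 2) (nat_lit 5) (nat_lit 3) (nat_lit 4) (nat_lit 322) (nat_lit 258) (nat_lit 140)) (XT.lf (nat_lit 0) (nat_lit 68616635464) (nat_lit 152) (nat_lit 775694932871) (nat_lit 0) (nat_lit 3932890239) (nat_lit 1) (nat_lit 5) (nat_lit 3) (nat_lit 4) (nat_lit 1) (nat_lit 4) (nat_lit 323) (nat_lit 258) (nat_lit 139))))) (XT.nd (nat_lit 234) (nat_lit 0) (nat_lit 0) (XT.nd (nat_lit 78) (nat_lit 0) (nat_lit 0) (XT.lf (nat_lit 0) (nat_lit 90543378052) (nat_lit 152) (nat_lit 797930513764) (nat_lit 0) (nat_lit 25859128073) (nat_lit 1) (nat_lit 5) (nat_lit 3) (nat_lit 4) (nat_lit 1) (nat_lit 4) (nat_lit 324) (nat_lit 258) (nat_lit 138)) (XT.nd (nat_lit 78) (nat_lit 0) (nat_lit 0) (XT.lf (nat_lit 0) (nat_lit 114223935335)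 (nat_lit 152) (nat_lit 821945539391) (nat_lit 0) (nat_lit 49539217990) (nat_lit 1) (nat_lit 5) (nat_lit 3) (nat_lit 4) (nat_lit 1) (nat_lit 4) (nat_lit 325) (nat_lit 258) (nat_lit 137)) (XT.lf (nat_lit 0) (nat_lit 139798636541) (nat_lit 152) (nat_lit 847882321016) (nat_lit 0) (nat_lit 75113486451) (nat_lit 1) (nat_lit 5) (nat_lit 3) (nat_lit 4) (nat_lit 1) (nat_lit 4) (nat_lit 326) (nat_lit 258) (nat_lit 136)))) (XT.nd (nat_lit 78) (nat_lit 0) (nat_lit 0) (XT.lf (nat_lit 0) (nat_lit 167419035455) (nat_lit 152) (nat_lit 875894558085) (nat_lit 0) (nat_lit 102733484674) (nat_lit 1) (nat_lit 5) (nat_lit 3) (nat_lit 4) (nat_lit 1) (nat_lit 4) (nat_lit 327) (nat_lit 258) (nat_lit 135)) (XT.nd (nat_lit 78) (nat_lit 0) (nat_lit 0) (XT.lf (nat_lit 0) (nat_lit 197248808514) (nat_lit 152) (nat_lit 906148249041) (nat_lit 0) (nat_lit 132562886724) (nat_lit 1) (nat_lit 5) (nat_lit 3) (nat_lit 4)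 (nat_lit 1) (nat_lit 4) (nat_lit 328) (nat_lit 258) (nat_lit 134)) (XT.lf (nat_lit 0) (nat_lit 229464724746) (nat_lit 152) (nat_lit 938822675013) (nat_lit 0) (nat_lit 164778459428) (nat_lit 1) (nat_lit 5) (nat_lit 3) (nat_lit 4) (nat_lit 1) (nat_lit 4) (nat_lit 329) (nat_lit 258) (nat_lit 133))))))) (XT.nd (nat_lit 32526) (nat_lit 0) (nat_lit 1292) (XT.nd (nat_lit 32058) (nat_lit 0) (nat_lit 2356) (XT.nd (nat_lit 234) (nat_lit 0) (nat_lit 0) (XT.nd (nat_lit 78) (nat_lit 0) (nat_lit 0) (XT.lf (nat_lit 0) (nat_lit 264257693281) (nat_lit 152) (nat_lit 974111462232) (nat_lit 0) (nat_lit 199571109882) (nat_lit 1) (nat_lit 5) (nat_lit 3) (nat_lit 4) (nat_lit 1) (nat_lit 4) (nat_lit 330) (nat_lit 258) (nat_lit 132)) (XT.nd (nat_lit 78) (nat_lit 0) (nat_lit 0) (XT.lf (nat_lit 0) (nat_lit 301833894676) (nat_lit 152) (nat_lit 1012223729435) (nat_lit 0) (nat_lit 237147016758) (nat_lit 1) (nat_lit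 5) (nat_lit 3) (nat_lit 4) (nat_lit 1) (nat_lit 4) (nat_lit 331) (nat_lit 258) (nat_lit 131)) (XT.lf (nat_lit 0) (nat_lit 342416002716) (nat_lit 152) (nat_lit 1053385327095) (nat_lit 0) (nat_lit 277728852094) (nat_lit 1) (nat_lit 5) (nat_lit 3) (nat_lit 4) (nat_lit 1) (nat_lit 4) (nat_lit 332) (nat_lit 258) (nat_lit 130)))) (XT.nd (nat_lit 78) (nat_lit 0) (nat_lit 0) (XT.lf (nat_lit 0) (nat_lit 386244503966) (nat_lit 152) (nat_lit 1097840175791) (nat_lit 0) (nat_lit 321557100842) (nat_lit 1) (nat_lit 5) (nat_lit 3) (nat_lit 4) (nat_lit 1) (nat_lit 4) (nat_lit 333) (nat_lit 258) (nat_lit 129)) (XT.nd (nat_lit 31668) (nat_lit 0) (nat_lit 2356) (XT.lf (nat_lit 0) (nat_lit 433579122880) (nat_lit 152) (nat_lit 1145851711664) (nat_lit 0) (nat_lit 368891485957) (nat_lit 1) (nat_lit 5) (nat_lit 3) (nat_lit 4) (nat_lit 1) (nat_lit 4) (nat_lit 334) (nat_lit 258) (nat_lit 128)) (XT.lf (nat_lit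 0) (nat_lit 1352917077) (nat_lit 532) (nat_lit 3794545791) (nat_lit 532) (nat_lit 3794545791) (nat_lit 32) (nat_lit 3) (nat_lit 39) (nat_lit 3) (nat_lit 39) (nat_lit 5) (nat_lit 259) (nat_lit 259) (nat_lit 202))))) (XT.nd (nat_lit 234) (nat_lit 0) (nat_lit 152) (XT.nd (nat_lit 78) (nat_lit 0) (nat_lit 76) (XT.lf (nat_lit 0) (nat_lit 2996944857) (nat_lit 532) (nat_lit 192962739) (nat_lit 532) (nat_lit 15393658632) (nat_lit 32) (nat_lit 3) (nat_lit 39) (nat_lit 3) (nat_lit 39) (nat_lit 5) (nat_lit 260) (nat_lit 259) (nat_lit 201)) (XT.nd (nat_lit 78) (nat_lit 0) (nat_lit 0) (XT.lf (nat_lit 0) (nat_lit 3603283092) (nat_lit 456) (nat_lit 11243185645) (nat_lit 532) (nat_lit 4469373435) (nat_lit 33) (nat_lit 5) (nat_lit 39) (nat_lit 5) (nat_lit 40) (nat_lit 5) (nat_lit 261) (nat_lit 259) (nat_lit 200)) (XT.lf (nat_lit 0) (nat_lit 4329401943) (nat_lit 456) (nat_lit 3190121657) (nat_lit 532)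 (nat_lit 12581584167) (nat_lit 33) (nat_lit 5) (nat_lit 39) (nat_lit 5) (nat_lit 40) (nat_lit 5) (nat_lit 262) (nat_lit 259) (nat_lit 199)))) (XT.nd (nat_lit 78) (nat_lit 0) (nat_lit 0) (XT.lf (nat_lit 0) (nat_lit 5250237005) (nat_lit 456) (nat_lit 15166505443) (nat_lit 532) (nat_lit 521623378) (nat_lit 34) (nat_lit 5) (nat_lit 40) (nat_lit 5) (nat_lit 41) (nat_lit 5) (nat_lit 263) (nat_lit 259) (nat_lit 198)) (XT.nd (nat_lit 78) (nat_lit 0) (nat_lit 0) (XT.lf (nat_lit 0) (nat_lit 6514834125) (nat_lit 456) (nat_lit 6412611707) (nat_lit 532) (nat_lit 8893644921) (nat_lit 34) (nat_lit 5) (nat_lit 40) (nat_lit 5) (nat_lit 41) (nat_lit 5) (nat_lit 264) (nat_lit 259) (nat_lit 197)) (XT.lf (nat_lit 76) (nat_lit 3190419717) (nat_lit 0) (nat_lit 4753292140) (nat_lit 532) (nat_lit 14825759681) (nat_lit 35) (nat_lit 5) (nat_lit 34) (nat_lit 5) (nat_lit 41) (nat_lit 5) (nat_lit 265) (nat_lit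 259) (nat_lit 196)))))) (XT.nd (nat_lit 468) (nat_lit 608) (nat_lit 0) (XT.nd (nat_lit 234) (nat_lit 228) (nat_lit 0) (XT.nd (nat_lit 78) (nat_lit 456) (nat_lit 0) (XT.lf (nat_lit 0) (nat_lit 9751981081) (nat_lit 456) (nat_lit 9967529562) (nat_lit 76) (nat_lit 4053086098) (nat_lit 35) (nat_lit 5) (nat_lit 41) (nat_lit 5) (nat_lit 36) (nat_lit 5) (nat_lit 266) (nat_lit 259) (nat_lit 195)) (XT.nd (nat_lit 78) (nat_lit 0) (nat_lit 0) (XT.lf (nat_lit 0) (nat_lit 293324766) (nat_lit 456) (nat_lit 11530248244) (nat_lit 532) (nat_lit 13022980554) (nat_lit 29) (nat_lit 5) (nat_lit 35) (nat_lit 5) (nat_lit 36) (nat_lit 5) (nat_lit 267) (nat_lit 259) (nat_lit 194)) (XT.lf (nat_lit 0) (nat_lit 11931382247) (nat_lit 456) (nat_lit 2390809529) (nat_lit 532) (nat_lit 11663400176) (nat_lit 29) (nat_lit 5) (nat_lit 35) (nat_lit 5) (nat_lit 36) (nat_lit 5) (nat_lit 268) (nat_lit 259) (nat_lit 193))))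 (XT.nd (nat_lit 78) (nat_lit 228) (nat_lit 0) (XT.lf (nat_lit 0) (nat_lit 17190206137) (nat_lit 532) (nat_lit 2905817106) (nat_lit 76) (nat_lit 7106233549) (nat_lit 29) (nat_lit 5) (nat_lit 36) (nat_lit 5) (nat_lit 30) (nat_lit 5) (nat_lit 269) (nat_lit 259) (nat_lit 192)) (XT.nd (nat_lit 78) (nat_lit 0) (nat_lit 0) (XT.lf (nat_lit 0) (nat_lit 9539692535) (nat_lit 228) (nat_lit 11029884098) (nat_lit 304) (nat_lit 7924184124) (nat_lit 26) (nat_lit 5) (nat_lit 29) (nat_lit 5) (nat_lit 30) (nat_lit 5) (nat_lit 270) (nat_lit 259) (nat_lit 191)) (XT.lf (nat_lit 0) (nat_lit 23136479730) (nat_lit 228) (nat_lit 1153134214) (nat_lit 304) (nat_lit 5593400479) (nat_lit 26) (nat_lit 5) (nat_lit 29) (nat_lit 5) (nat_lit 30) (nat_lit 5) (nat_lit 271) (nat_lit 259) (nat_lit 190))))) (XT.nd (nat_lit 234) (nat_lit 152) (nat_lit 0) (XT.nd (nat_lit 78) (nat_lit 304) (nat_lit 0) (XT.lf (nat_lit 0) (nat_lit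 6525609444) (nat_lit 152) (nat_lit 22158924583) (nat_lit 228) (nat_lit 2668742675) (nat_lit 24) (nat_lit 5) (nat_lit 26) (nat_lit 5) (nat_lit 27) (nat_lit 5) (nat_lit 272) (nat_lit 259) (nat_lit 189)) (XT.nd (nat_lit 78) (nat_lit 228) (nat_lit 0) (XT.lf (nat_lit 0) (nat_lit 676266761) (nat_lit 228) (nat_lit 11739582417) (nat_lit 76) (nat_lit 20507540892) (nat_lit 23) (nat_lit 5) (nat_lit 26) (nat_lit 5) (nat_lit 24) (nat_lit 5) (nat_lit 273) (nat_lit 259) (nat_lit 188)) (XT.lf (nat_lit 0) (nat_lit 2439114711) (nat_lit 228) (nat_lit 1756538066) (nat_lit 304) (nat_lit 30413877961) (nat_lit 20) (nat_lit 5) (nat_lit 23) (nat_lit 5) (nat_lit 24) (nat_lit 5) (nat_lit 274) (nat_lit 259) (nat_lit 187)))) (XT.nd (nat_lit 156) (nat_lit 152) (nat_lit 0) (XT.nd (nat_lit 78) (nat_lit 0) (nat_lit 0) (XT.lf (nat_lit 0) (nat_lit 8553143999) (nat_lit 304) (nat_lit 18237581142) (nat_lit 76) (nat_lit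 9595350438) (nat_lit 20) (nat_lit 5) (nat_lit 24) (nat_lit 5) (nat_lit 21) (nat_lit 5) (nat_lit 275) (nat_lit 259) (nat_lit 186)) (XT.lf (nat_lit 0) (nat_lit 13298021594) (nat_lit 304) (nat_lit 3244528477) (nat_lit 76) (nat_lit 21759125477) (nat_lit 20) (nat_lit 5) (nat_lit 24) (nat_lit 5) (nat_lit 21) (nat_lit 5) (nat_lit 276) (nat_lit 259) (nat_lit 185))) (XT.nd (nat_lit 78) (nat_lit 0) (nat_lit 0) (XT.lf (nat_lit 0) (nat_lit 13621223221) (nat_lit 152) (nat_lit 5122526098) (nat_lit 228) (nat_lit 21601105352) (nat_lit 18) (nat_lit 5) (nat_lit 20) (nat_lit 5) (nat_lit 21) (nat_lit 5) (nat_lit 277) (nat_lit 259) (nat_lit 184)) (XT.lf (nat_lit 0) (nat_lit 24883480083) (nat_lit 228) (nat_lit 10707764968) (nat_lit 76) (nat_lit 6939605072) (nat_lit 18) (nat_lit 5) (nat_lit 21) (nat_lit 5) (nat_lit 19) (nat_lit 5) (nat_lit 278) (nat_lit 259) (nat_lit 183))))))))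
noncomputable def xc84 : XT := (XT.nd (nat_lit 1872) (nat_lit 304) (nat_lit 0) (XT.nd (nat_lit 936) (nat_lit 228) (nat_lit 0) (XT.nd (nat_lit 468) (nat_lit 304) (nat_lit 0) (XT.nd (nat_lit 234) (nat_lit 304) (nat_lit 0) (XT.nd (nat_lit 78) (nat_lit 0) (nat_lit 0) (XT.lf (nat_lit 0) (nat_lit 6788112367) (nat_lit 152) (nat_lit 25016937861) (nat_lit 228) (nat_lit 13063449500) (nat_lit 16) (nat_lit 5) (nat_lit 18) (nat_lit 5) (nat_lit 19) (nat_lit 5) (nat_lit 279) (nat_lit 259) (nat_lit 182)) (XT.nd (nat_lit 78) (nat_lit 0) (nat_lit 0) (XT.lf (nat_lit 0) (nat_lit 26285042085) (nat_lit 152) (nat_lit 13282663171) (nat_lit 228) (nat_lit 7802492666) (nat_lit 16) (nat_lit 5) (nat_lit 18) (nat_lit 5) (nat_lit 19) (nat_lit 5) (nat_lit 280) (nat_lit 259) (nat_lit 181)) (XT.lf (nat_lit 0) (nat_lit 47334709621) (nat_lit 152) (nat_lit 611653809) (nat_lit 228) (nat_lit 2126092769) (nat_lit 16) (nat_lit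 5) (nat_lit 18) (nat_lit 5) (nat_lit 19) (nat_lit 5) (nat_lit 281) (nat_lit 259) (nat_lit 180)))) (XT.nd (nat_lit 78) (nat_lit 152) (nat_lit 0) (XT.lf (nat_lit 0) (nat_lit 4557075983) (nat_lit 152) (nat_lit 35409015708) (nat_lit 76) (nat_lit 12956881140) (nat_lit 14) (nat_lit 5) (nat_lit 16) (nat_lit 5) (nat_lit 15) (nat_lit 5) (nat_lit 282) (nat_lit 259) (nat_lit 179)) (XT.nd (nat_lit 78) (nat_lit 152) (nat_lit 0) (XT.lf (nat_lit 0) (nat_lit 11748087849) (nat_lit 152) (nat_lit 16534035996) (nat_lit 76) (nat_lit 27707963429) (nat_lit 14) (nat_lit 5) (nat_lit 16) (nat_lit 5) (nat_lit 15) (nat_lit 5) (nat_lit 283) (nat_lit 259) (nat_lit 178)) (XT.lf (nat_lit 0) (nat_lit 4046967224) (nat_lit 152) (nat_lit 15560453847) (nat_lit 228) (nat_lit 39687723829) (nat_lit 12) (nat_lit 5) (nat_lit 14) (nat_lit 5) (nat_lit 15) (nat_lit 5) (nat_lit 284) (nat_lit 259) (nat_lit 177))))) (XT.nd (nat_lit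 234) (nat_lit 228) (nat_lit 0) (XT.nd (nat_lit 78) (nat_lit 76) (nat_lit 0) (XT.lf (nat_lit 0) (nat_lit 27208497967) (nat_lit 152) (nat_lit 1334950796) (nat_lit 228) (nat_lit 34285338532) (nat_lit 12) (nat_lit 5) (nat_lit 14) (nat_lit 5) (nat_lit 15) (nat_lit 5) (nat_lit 285) (nat_lit 259) (nat_lit 176)) (XT.nd (nat_lit 78) (nat_lit 76) (nat_lit 0) (XT.lf (nat_lit 0) (nat_lit 38527882395) (nat_lit 228) (nat_lit 14765624926) (nat_lit 76) (nat_lit 13324946662) (nat_lit 12) (nat_lit 5) (nat_lit 15) (nat_lit 5) (nat_lit 13) (nat_lit 4) (nat_lit 286) (nat_lit 259) (nat_lit 175)) (XT.lf (nat_lit 0) (nat_lit 8123490877) (nat_lit 76) (nat_lit 41414046015) (nat_lit 152) (nat_lit 21155653523) (nat_lit 11) (nat_lit 5) (nat_lit 12) (nat_lit 5) (nat_lit 13) (nat_lit 4) (nat_lit 287) (nat_lit 259) (nat_lit 174)))) (XT.nd (nat_lit 78) (nat_lit 228) (nat_lit 0) (XT.lf (nat_lit 0) (nat_lit 33677994719)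 (nat_lit 76) (nat_lit 28150242716) (nat_lit 152) (nat_lit 13233659119) (nat_lit 11) (nat_lit 5) (nat_lit 12) (nat_lit 5) (nat_lit 13) (nat_lit 4) (nat_lit 288) (nat_lit 259) (nat_lit 173)) (XT.nd (nat_lit 78) (nat_lit 228) (nat_lit 0) (XT.lf (nat_lit 0) (nat_lit 61271789056) (nat_lit 76) (nat_lit 13827215461) (nat_lit 152) (nat_lit 4681361577) (nat_lit 11) (nat_lit 5) (nat_lit 12) (nat_lit 5) (nat_lit 13) (nat_lit 4) (nat_lit 289) (nat_lit 259) (nat_lit 172)) (XT.lf (nat_lit 0) (nat_lit 4524480700) (nat_lit 228) (nat_lit 78499121947) (nat_lit 76) (nat_lit 1828178444) (nat_lit 8) (nat_lit 5) (nat_lit 11) (nat_lit 5) (nat_lit 9) (nat_lit 4) (nat_lit 290) (nat_lit 259) (nat_lit 171)))))) (XT.nd (nat_lit 468) (nat_lit 152) (nat_lit 0) (XT.nd (nat_lit 234) (nat_lit 76) (nat_lit 0) (XT.nd (nat_lit 78) (nat_lit 0) (nat_lit 0) (XT.lf (nat_lit 0) (nat_lit 15089252644) (nat_lit 228) (nat_lit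 56531859272) (nat_lit 76) (nat_lit 18628049001) (nat_lit 8) (nat_lit 5) (nat_lit 11) (nat_lit 5) (nat_lit 9) (nat_lit 4) (nat_lit 291) (nat_lit 259) (nat_lit 170)) (XT.nd (nat_lit 78) (nat_lit 0) (nat_lit 0) (XT.lf (nat_lit 0) (nat_lit 26496453851) (nat_lit 228) (nat_lit 32811790919) (nat_lit 76) (nat_lit 36770315195) (nat_lit 8) (nat_lit 5) (nat_lit 11) (nat_lit 5) (nat_lit 9) (nat_lit 4) (nat_lit 292) (nat_lit 259) (nat_lit 169)) (XT.lf (nat_lit 0) (nat_lit 38813682551) (nat_lit 228) (nat_lit 7198353518) (nat_lit 76) (nat_lit 56362486751) (nat_lit 8) (nat_lit 5) (nat_lit 11) (nat_lit 5) (nat_lit 9) (nat_lit 4) (nat_lit 293) (nat_lit 259) (nat_lit 168)))) (XT.nd (nat_lit 78) (nat_lit 0) (nat_lit 0) (XT.lf (nat_lit 0) (nat_lit 21537636044) (nat_lit 76) (nat_lit 31094274347) (nat_lit 152) (nat_lit 56501010047) (nat_lit 7) (nat_lit 5) (nat_lit 8) (nat_lit 5) (nat_lit 9) (nat_lit 4) (nat_lit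 294) (nat_lit 259) (nat_lit 167)) (XT.nd (nat_lit 78) (nat_lit 0) (nat_lit 0) (XT.lf (nat_lit 0) (nat_lit 52978058210) (nat_lit 76) (nat_lit 14772077023) (nat_lit 152) (nat_lit 48666298386) (nat_lit 7) (nat_lit 5) (nat_lit 8) (nat_lit 5) (nat_lit 9) (nat_lit 4) (nat_lit 295) (nat_lit 259) (nat_lit 166)) (XT.lf (nat_lit 0) (nat_lit 84144359694) (nat_lit 152) (nat_lit 37421278750) (nat_lit 0) (nat_lit 2711672427) (nat_lit 7) (nat_lit 5) (nat_lit 9) (nat_lit 4) (nat_lit 7) (nat_lit 4) (nat_lit 296) (nat_lit 259) (nat_lit 165))))) (XT.nd (nat_lit 234) (nat_lit 76) (nat_lit 0) (XT.nd (nat_lit 78) (nat_lit 76) (nat_lit 0) (XT.lf (nat_lit 0) (nat_lit 102231828406) (nat_lit 152) (nat_lit 9709912702) (nat_lit 0) (nat_lit 20794786568) (nat_lit 7) (nat_lit 5) (nat_lit 9) (nat_lit 4) (nat_lit 7) (nat_lit 4) (nat_lit 297) (nat_lit 259) (nat_lit 164)) (XT.nd (nat_lit 78) (nat_lit 0) (nat_lit 0)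 (XT.lf (nat_lit 0) (nat_lit 21279704022) (nat_lit 76) (nat_lit 100996530934) (nat_lit 76) (nat_lit 19555457086) (nat_lit 6) (nat_lit 4) (nat_lit 7) (nat_lit 5) (nat_lit 7) (nat_lit 4) (nat_lit 298) (nat_lit 259) (nat_lit 163)) (XT.lf (nat_lit 0) (nat_lit 55297625727) (nat_lit 76) (nat_lit 88890279578) (nat_lit 76) (nat_lit 7445472387) (nat_lit 6) (nat_lit 4) (nat_lit 7) (nat_lit 5) (nat_lit 7) (nat_lit 4) (nat_lit 299) (nat_lit 259) (nat_lit 162)))) (XT.nd (nat_lit 78) (nat_lit 0) (nat_lit 0) (XT.lf (nat_lit 0) (nat_lit 5349819464) (nat_lit 152) (nat_lit 70320639504) (nat_lit 76) (nat_lit 86538040292) (nat_lit 5) (nat_lit 5) (nat_lit 7) (nat_lit 5) (nat_lit 6) (nat_lit 4) (nat_lit 300) (nat_lit 259) (nat_lit 161)) (XT.nd (nat_lit 78) (nat_lit 0) (nat_lit 0) (XT.lf (nat_lit 0) (nat_lit 18764920407) (nat_lit 152) (nat_lit 42420430281) (nat_lit 76) (nat_lit 112428937981) (nat_lit 5) (nat_lit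 5) (nat_lit 7) (nat_lit 5) (nat_lit 6) (nat_lit 4) (nat_lit 301) (nat_lit 259) (nat_lit 160)) (XT.lf (nat_lit 0) (nat_lit 33251780020) (nat_lit 152) (nat_lit 12290725935) (nat_lit 76) (nat_lit 140390154933) (nat_lit 5) (nat_lit 5) (nat_lit 7) (nat_lit 5) (nat_lit 6) (nat_lit 4) (nat_lit 302) (nat_lit 259) (nat_lit 159))))))) (XT.nd (nat_lit 936) (nat_lit 152) (nat_lit 0) (XT.nd (nat_lit 468) (nat_lit 76) (nat_lit 0) (XT.nd (nat_lit 234) (nat_lit 0) (nat_lit 0) (XT.nd (nat_lit 78) (nat_lit 0) (nat_lit 0) (XT.lf (nat_lit 0) (nat_lit 21313192118) (nat_lit 76) (nat_lit 28095637022) (nat_lit 152) (nat_lit 149786777913) (nat_lit 4) (nat_lit 5) (nat_lit 5) (nat_lit 5) (nat_lit 6) (nat_lit 4) (nat_lit 303) (nat_lit 259) (nat_lit 158)) (XT.nd (nat_lit 78) (nat_lit 0) (nat_lit 0) (XT.lf (nat_lit 0) (nat_lit 58302132374) (nat_lit 76) (nat_lit 8891062683) (nat_lit 152) (nat_lit 146299616802) (nat_lit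 4) (nat_lit 5) (nat_lit 5) (nat_lit 5) (nat_lit 6) (nat_lit 4) (nat_lit 304) (nat_lit 259) (nat_lit 157)) (XT.lf (nat_lit 0) (nat_lit 86684077040) (nat_lit 152) (nat_lit 130970779442) (nat_lit 0) (nat_lit 11256238164) (nat_lit 4) (nat_lit 5) (nat_lit 6) (nat_lit 4) (nat_lit 4) (nat_lit 4) (nat_lit 305) (nat_lit 259) (nat_lit 156)))) (XT.nd (nat_lit 78) (nat_lit 0) (nat_lit 0) (XT.lf (nat_lit 0) (nat_lit 107964033820) (nat_lit 152) (nat_lit 105046246682) (nat_lit 0) (nat_lit 32534177936) (nat_lit 4) (nat_lit 5) (nat_lit 6) (nat_lit 4) (nat_lit 4) (nat_lit 4) (nat_lit 306) (nat_lit 259) (nat_lit 155)) (XT.nd (nat_lit 78) (nat_lit 0) (nat_lit 0) (XT.lf (nat_lit 0) (nat_lit 130945338577) (nat_lit 152) (nat_lit 77049624072) (nat_lit 0) (nat_lit 55513615091) (nat_lit 4) (nat_lit 5) (nat_lit 6) (nat_lit 4) (nat_lit 4) (nat_lit 4) (nat_lit 307) (nat_lit 259) (nat_lit 154)) (XT.lf (nat_lit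 0) (nat_lit 155764176818) (nat_lit 152) (nat_lit 46815005701) (nat_lit 0) (nat_lit 80330724072) (nat_lit 4) (nat_lit 5) (nat_lit 6) (nat_lit 4) (nat_lit 4) (nat_lit 4) (nat_lit 308) (nat_lit 259) (nat_lit 153))))) (XT.nd (nat_lit 234) (nat_lit 0) (nat_lit 0) (XT.nd (nat_lit 78) (nat_lit 76) (nat_lit 0) (XT.lf (nat_lit 0) (nat_lit 182567623140) (nat_lit 152) (nat_lit 14163223461) (nat_lit 0) (nat_lit 107132569228) (nat_lit 4) (nat_lit 5) (nat_lit 6) (nat_lit 4) (nat_lit 4) (nat_lit 4) (nat_lit 309) (nat_lit 259) (nat_lit 152)) (XT.nd (nat_lit 78) (nat_lit 0) (nat_lit 0) (XT.lf (nat_lit 0) (nat_lit 22210261946) (nat_lit 76) (nat_lit 189838408170) (nat_lit 76) (nat_lit 114401871695) (nat_lit 3) (nat_lit 4) (nat_lit 4) (nat_lit 5) (nat_lit 4) (nat_lit 4) (nat_lit 310) (nat_lit 259) (nat_lit 151)) (XT.lf (nat_lit 0) (nat_lit 62297652225) (nat_lit 76) (nat_lit 181976990676) (nat_lit 76)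 (nat_lit 106539081459) (nat_lit 3) (nat_lit 4) (nat_lit 4) (nat_lit 5) (nat_lit 4) (nat_lit 4) (nat_lit 311) (nat_lit 259) (nat_lit 150)))) (XT.nd (nat_lit 78) (nat_lit 0) (nat_lit 0) (XT.lf (nat_lit 0) (nat_lit 105590692033) (nat_lit 76) (nat_lit 173487255572) (nat_lit 76) (nat_lit 98048075297) (nat_lit 3) (nat_lit 4) (nat_lit 4) (nat_lit 5) (nat_lit 4) (nat_lit 4) (nat_lit 312) (nat_lit 259) (nat_lit 149)) (XT.nd (nat_lit 78) (nat_lit 0) (nat_lit 0) (XT.lf (nat_lit 0) (nat_lit 152345932716) (nat_lit 76) (nat_lit 164318893316) (nat_lit 76) (nat_lit 88878536136) (nat_lit 3) (nat_lit 4) (nat_lit 4) (nat_lit 5) (nat_lit 4) (nat_lit 4) (nat_lit 313) (nat_lit 259) (nat_lit 148)) (XT.lf (nat_lit 0) (nat_lit 202840442367) (nat_lit 76) (nat_lit 154417572872) (nat_lit 76) (nat_lit 78976125965) (nat_lit 3) (nat_lit 4) (nat_lit 4) (nat_lit 5) (nat_lit 4) (nat_lit 4) (nat_lit 314) (nat_lit 259)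 (nat_lit 147)))))) (XT.nd (nat_lit 468) (nat_lit 152) (nat_lit 0) (XT.nd (nat_lit 234) (nat_lit 0) (nat_lit 0) (XT.nd (nat_lit 78) (nat_lit 0) (nat_lit 0) (XT.lf (nat_lit 0) (nat_lit 257373447711) (nat_lit 76) (nat_lit 143724619749) (nat_lit 76) (nat_lit 68282163835) (nat_lit 3) (nat_lit 4) (nat_lit 4) (nat_lit 5) (nat_lit 4) (nat_lit 4) (nat_lit 315) (nat_lit 259) (nat_lit 146)) (XT.nd (nat_lit 78) (nat_lit 0) (nat_lit 0) (XT.lf (nat_lit 0) (nat_lit 316268107297) (nat_lit 76) (nat_lit 132176668299) (nat_lit 76) (nat_lit 56733278120) (nat_lit 3) (nat_lit 4) (nat_lit 4) (nat_lit 5) (nat_lit 4) (nat_lit 4) (nat_lit 316) (nat_lit 259) (nat_lit 145)) (XT.lf (nat_lit 0) (nat_lit 379873426515) (nat_lit 76) (nat_lit 119705286217) (nat_lit 76) (nat_lit 44261030977) (nat_lit 3) (nat_lit 4) (nat_lit 4) (nat_lit 5) (nat_lit 4) (nat_lit 4) (nat_lit 317) (nat_lit 259) (nat_lit 144)))) (XT.nd (nat_lit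 78) (nat_lit 0) (nat_lit 0) (XT.lf (nat_lit 0) (nat_lit 448566325777) (nat_lit 76) (nat_lit 106236569016) (nat_lit 76) (nat_lit 30791512794) (nat_lit 3) (nat_lit 4) (nat_lit 4) (nat_lit 5) (nat_lit 4) (nat_lit 4) (nat_lit 318) (nat_lit 259) (nat_lit 143)) (XT.nd (nat_lit 78) (nat_lit 0) (nat_lit 0) (XT.lf (nat_lit 0) (nat_lit 522753874113) (nat_lit 76) (nat_lit 91690702077) (nat_lit 76) (nat_lit 16244904205) (nat_lit 3) (nat_lit 4) (nat_lit 4) (nat_lit 5) (nat_lit 4) (nat_lit 4) (nat_lit 319) (nat_lit 259) (nat_lit 142)) (XT.lf (nat_lit 0) (nat_lit 602875701441) (nat_lit 76) (nat_lit 75981487668) (nat_lit 76) (nat_lit 535003083) (nat_lit 3) (nat_lit 4) (nat_lit 4) (nat_lit 5) (nat_lit 4) (nat_lit 4) (nat_lit 320) (nat_lit 259) (nat_lit 141))))) (XT.nd (nat_lit 234) (nat_lit 0) (nat_lit 0) (XT.nd (nat_lit 78) (nat_lit 76) (nat_lit 0) (XT.lf (nat_lit 0) (nat_lit 15609326793) (nat_lit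 152) (nat_lit 42979720699) (nat_lit 76) (nat_lit 673370490325) (nat_lit 2) (nat_lit 5) (nat_lit 4) (nat_lit 5) (nat_lit 3) (nat_lit 4) (nat_lit 321) (nat_lit 259) (nat_lit 140)) (XT.nd (nat_lit 78) (nat_lit 76) (nat_lit 0) (XT.lf (nat_lit 0) (nat_lit 33015943770) (nat_lit 152) (nat_lit 6774546132) (nat_lit 76) (nat_lit 748940698648) (nat_lit 2) (nat_lit 5) (nat_lit 4) (nat_lit 5) (nat_lit 3) (nat_lit 4) (nat_lit 322) (nat_lit 259) (nat_lit 139)) (XT.lf (nat_lit 0) (nat_lit 34028702485) (nat_lit 76) (nat_lit 18604449820) (nat_lit 152) (nat_lit 797345974743) (nat_lit 1) (nat_lit 5) (nat_lit 2) (nat_lit 5) (nat_lit 3) (nat_lit 4) (nat_lit 323) (nat_lit 259) (nat_lit 138)))) (XT.nd (nat_lit 78) (nat_lit 0) (nat_lit 0) (XT.lf (nat_lit 0) (nat_lit 74112301316) (nat_lit 152) (nat_lit 837738855618) (nat_lit 0) (nat_lit 4252339219) (nat_lit 1) (nat_lit 5) (nat_lit 3) (nat_lit 4) (nat_lit 1)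 (nat_lit 4) (nat_lit 324) (nat_lit 259) (nat_lit 137)) (XT.nd (nat_lit 78) (nat_lit 0) (nat_lit 0) (XT.lf (nat_lit 0) (nat_lit 97792714051) (nat_lit 152) (nat_lit 861754147566) (nat_lit 0) (nat_lit 27932319208) (nat_lit 1) (nat_lit 5) (nat_lit 3) (nat_lit 4) (nat_lit 1) (nat_lit 4) (nat_lit 325) (nat_lit 259) (nat_lit 136)) (XT.lf (nat_lit 0) (nat_lit 123367281416) (nat_lit 152) (nat_lit 887691175784) (nat_lit 0) (nat_lit 53506485883) (nat_lit 1) (nat_lit 5) (nat_lit 3) (nat_lit 4) (nat_lit 1) (nat_lit 4) (nat_lit 326) (nat_lit 259) (nat_lit 135))))))))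
noncomputable def xc85 : XT := (XT.nd (nat_lit 33540) (nat_lit 0) (nat_lit 380) (XT.nd (nat_lit 32604) (nat_lit 0) (nat_lit 1444) (XT.nd (nat_lit 468) (nat_lit 0) (nat_lit 0) (XT.nd (nat_lit 234) (nat_lit 0) (nat_lit 0) (XT.nd (nat_lit 78) (nat_lit 0) (nat_lit 0) (XT.lf (nat_lit 0) (nat_lit 150987556404) (nat_lit 152) (nat_lit 915703641181) (nat_lit 0) (nat_lit 81126389860) (nat_lit 1) (nat_lit 5) (nat_lit 3) (nat_lit 4) (nat_lit 1) (nat_lit 4) (nat_lit 327) (nat_lit 259) (nat_lit 134)) (XT.nd (nat_lit 78) (nat_lit 0) (nat_lit 0) (XT.lf (nat_lit 0) (nat_lit 180817214717) (nat_lit 152) (nat_lit 945957543550) (nat_lit 0) (nat_lit 110955704646) (nat_lit 1) (nat_lit 5) (nat_lit 3) (nat_lit 4) (nat_lit 1) (nat_lit 4) (nat_lit 328) (nat_lit 259) (nat_lit 133)) (XT.lf (nat_lit 0) (nat_lit 213033024701) (nat_lit 152) (nat_lit 978632165276) (nat_lit 0) (nat_lit 143171196549) (nat_lit 1) (nat_lit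 5) (nat_lit 3) (nat_lit 4) (nat_lit 1) (nat_lit 4) (nat_lit 329) (nat_lit 259) (nat_lit 132)))) (XT.nd (nat_lit 78) (nat_lit 0) (nat_lit 0) (XT.lf (nat_lit 0) (nat_lit 247825894859) (nat_lit 152) (nat_lit 1013921133748) (nat_lit 0) (nat_lit 177963772188) (nat_lit 1) (nat_lit 5) (nat_lit 3) (nat_lit 4) (nat_lit 1) (nat_lit 4) (nat_lit 330) (nat_lit 259) (nat_lit 131)) (XT.nd (nat_lit 78) (nat_lit 0) (nat_lit 0) (XT.lf (nat_lit 0) (nat_lit 285402005164) (nat_lit 152) (nat_lit 1052033568779) (nat_lit 0) (nat_lit 215539609790) (nat_lit 1) (nat_lit 5) (nat_lit 3) (nat_lit 4) (nat_lit 1) (nat_lit 4) (nat_lit 331) (nat_lit 259) (nat_lit 130)) (XT.lf (nat_lit 0) (nat_lit 325984028862) (nat_lit 152) (nat_lit 1093195321835) (nat_lit 0) (nat_lit 256121380984) (nat_lit 1) (nat_lit 5) (nat_lit 3) (nat_lit 4) (nat_lit 1) (nat_lit 4) (nat_lit 332) (nat_lit 259) (nat_lit 129))))) (XT.nd (nat_lit 31902)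 (nat_lit 0) (nat_lit 2356) (XT.nd (nat_lit 78) (nat_lit 0) (nat_lit 0) (XT.lf (nat_lit 0) (nat_lit 369812452018) (nat_lit 152) (nat_lit 1137650314416) (nat_lit 0) (nat_lit 299949570341) (nat_lit 1) (nat_lit 5) (nat_lit 3) (nat_lit 4) (nat_lit 1) (nat_lit 4) (nat_lit 333) (nat_lit 259) (nat_lit 128)) (XT.nd (nat_lit 31746) (nat_lit 0) (nat_lit 2356) (XT.lf (nat_lit 0) (nat_lit 417146998621) (nat_lit 152) (nat_lit 1185661983515) (nat_lit 0) (nat_lit 347283900465) (nat_lit 1) (nat_lit 5) (nat_lit 3) (nat_lit 4) (nat_lit 1) (nat_lit 4) (nat_lit 334) (nat_lit 259) (nat_lit 127)) (XT.lf (nat_lit 0) (nat_lit 1639629576) (nat_lit 532) (nat_lit 4001154133) (nat_lit 532) (nat_lit 4001154133) (nat_lit 32) (nat_lit 3) (nat_lit 39) (nat_lit 3) (nat_lit 39) (nat_lit 5) (nat_lit 260) (nat_lit 260) (nat_lit 200)))) (XT.nd (nat_lit 78) (nat_lit 0) (nat_lit 76) (XT.lf (nat_lit 0) (nat_lit 3567217358)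 (nat_lit 532) (nat_lit 28852867) (nat_lit 532) (nat_lit 16445604431) (nat_lit 32) (nat_lit 3) (nat_lit 39) (nat_lit 3) (nat_lit 39) (nat_lit 5) (nat_lit 261) (nat_lit 260) (nat_lit 199)) (XT.nd (nat_lit 78) (nat_lit 0) (nat_lit 0) (XT.lf (nat_lit 0) (nat_lit 4198536142) (nat_lit 456) (nat_lit 11937589766) (nat_lit 532) (nat_lit 4698447075) (nat_lit 33) (nat_lit 5) (nat_lit 39) (nat_lit 5) (nat_lit 40) (nat_lit 5) (nat_lit 262) (nat_lit 260) (nat_lit 198)) (XT.lf (nat_lit 0) (nat_lit 4960004472) (nat_lit 456) (nat_lit 3255469602) (nat_lit 532) (nat_lit 13469151424) (nat_lit 33) (nat_lit 5) (nat_lit 39) (nat_lit 5) (nat_lit 40) (nat_lit 5) (nat_lit 263) (nat_lit 260) (nat_lit 197)))))) (XT.nd (nat_lit 468) (nat_lit 684) (nat_lit 0) (XT.nd (nat_lit 234) (nat_lit 380) (nat_lit 0) (XT.nd (nat_lit 78) (nat_lit 0) (nat_lit 0) (XT.lf (nat_lit 0) (nat_lit 5935915040) (nat_lit 456) (nat_lit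 16169677550) (nat_lit 532) (nat_lit 484894535) (nat_lit 34) (nat_lit 5) (nat_lit 40) (nat_lit 5) (nat_lit 41) (nat_lit 5) (nat_lit 264) (nat_lit 260) (nat_lit 196)) (XT.nd (nat_lit 78) (nat_lit 0) (nat_lit 0) (XT.lf (nat_lit 0) (nat_lit 7282001480) (nat_lit 456) (nat_lit 6731038857) (nat_lit 532) (nat_lit 9532489557) (nat_lit 34) (nat_lit 5) (nat_lit 40) (nat_lit 5) (nat_lit 41) (nat_lit 5) (nat_lit 265) (nat_lit 260) (nat_lit 195)) (XT.lf (nat_lit 76) (nat_lit 3635308960) (nat_lit 0) (nat_lit 5176220907) (nat_lit 532) (nat_lit 15759460312) (nat_lit 35) (nat_lit 5) (nat_lit 34) (nat_lit 5) (nat_lit 41) (nat_lit 5) (nat_lit 266) (nat_lit 260) (nat_lit 194)))) (XT.nd (nat_lit 78) (nat_lit 456) (nat_lit 0) (XT.lf (nat_lit 0) (nat_lit 10746301565) (nat_lit 456) (nat_lit 10569820028) (nat_lit 76) (nat_lit 4339804190) (nat_lit 35) (nat_lit 5) (nat_lit 41) (nat_lit 5) (nat_lit 36) (nat_lit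 5) (nat_lit 267) (nat_lit 260) (nat_lit 193)) (XT.nd (nat_lit 78) (nat_lit 0) (nat_lit 0) (XT.lf (nat_lit 0) (nat_lit 506963104) (nat_lit 456) (nat_lit 12465367541) (nat_lit 532) (nat_lit 13844471406) (nat_lit 29) (nat_lit 5) (nat_lit 35) (nat_lit 5) (nat_lit 36) (nat_lit 5) (nat_lit 268) (nat_lit 260) (nat_lit 192)) (XT.lf (nat_lit 0) (nat_lit 13061978343) (nat_lit 456) (nat_lit 2593833030) (nat_lit 532) (nat_lit 12392446641) (nat_lit 29) (nat_lit 5) (nat_lit 35) (nat_lit 5) (nat_lit 36) (nat_lit 5) (nat_lit 269) (nat_lit 260) (nat_lit 191))))) (XT.nd (nat_lit 234) (nat_lit 456) (nat_lit 0) (XT.nd (nat_lit 78) (nat_lit 228) (nat_lit 0) (XT.lf (nat_lit 0) (nat_lit 18739090643) (nat_lit 532) (nat_lit 2959995801) (nat_lit 76) (nat_lit 7664389159) (nat_lit 29) (nat_lit 5) (nat_lit 36) (nat_lit 5) (nat_lit 30) (nat_lit 5) (nat_lit 270) (nat_lit 260) (nat_lit 190)) (XT.nd (nat_lit 78) (nat_lit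 0) (nat_lit 0) (XT.lf (nat_lit 0) (nat_lit 10476641025) (nat_lit 228) (nat_lit 11903484704) (nat_lit 304) (nat_lit 8378948094) (nat_lit 26) (nat_lit 5) (nat_lit 29) (nat_lit 5) (nat_lit 30) (nat_lit 5) (nat_lit 271) (nat_lit 260) (nat_lit 189)) (XT.lf (nat_lit 0) (nat_lit 25148299116) (nat_lit 228) (nat_lit 1237245950) (nat_lit 304) (nat_lit 5874973666) (nat_lit 26) (nat_lit 5) (nat_lit 29) (nat_lit 5) (nat_lit 30) (nat_lit 5) (nat_lit 272) (nat_lit 260) (nat_lit 188)))) (XT.nd (nat_lit 78) (nat_lit 304) (nat_lit 0) (XT.lf (nat_lit 0) (nat_lit 7217099244) (nat_lit 152) (nat_lit 23907900111) (nat_lit 228) (nat_lit 2724035232) (nat_lit 24) (nat_lit 5) (nat_lit 26) (nat_lit 5) (nat_lit 27) (nat_lit 5) (nat_lit 273) (nat_lit 260) (nat_lit 187)) (XT.nd (nat_lit 78) (nat_lit 228) (nat_lit 0) (XT.lf (nat_lit 0) (nat_lit 869528018) (nat_lit 228) (nat_lit 12513804180) (nat_lit 76) (nat_lit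 22162069225) (nat_lit 23) (nat_lit 5) (nat_lit 26) (nat_lit 5) (nat_lit 24) (nat_lit 5) (nat_lit 274) (nat_lit 260) (nat_lit 186)) (XT.lf (nat_lit 0) (nat_lit 2795012900) (nat_lit 228) (nat_lit 1869010372) (nat_lit 304) (nat_lit 32702979259) (nat_lit 20) (nat_lit 5) (nat_lit 23) (nat_lit 5) (nat_lit 24) (nat_lit 5) (nat_lit 275) (nat_lit 260) (nat_lit 185))))))) (XT.nd (nat_lit 936) (nat_lit 456) (nat_lit 0) (XT.nd (nat_lit 468) (nat_lit 304) (nat_lit 0) (XT.nd (nat_lit 234) (nat_lit 152) (nat_lit 0) (XT.nd (nat_lit 78) (nat_lit 152) (nat_lit 0) (XT.lf (nat_lit 0) (nat_lit 9360907458) (nat_lit 304) (nat_lit 19537897766) (nat_lit 76) (nat_lit 10387652110) (nat_lit 20) (nat_lit 5) (nat_lit 24) (nat_lit 5) (nat_lit 21) (nat_lit 5) (nat_lit 276) (nat_lit 260) (nat_lit 184)) (XT.nd (nat_lit 78) (nat_lit 152) (nat_lit 0) (XT.lf (nat_lit 0) (nat_lit 14476226228) (nat_lit 304) (nat_lit 3357155693)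 (nat_lit 76) (nat_lit 23522701475) (nat_lit 20) (nat_lit 5) (nat_lit 24) (nat_lit 5) (nat_lit 21) (nat_lit 5) (nat_lit 277) (nat_lit 260) (nat_lit 183)) (XT.lf (nat_lit 0) (nat_lit 14854136266) (nat_lit 152) (nat_lit 5498448907) (nat_lit 228) (nat_lit 23210576588) (nat_lit 18) (nat_lit 5) (nat_lit 20) (nat_lit 5) (nat_lit 21) (nat_lit 5) (nat_lit 278) (nat_lit 260) (nat_lit 182)))) (XT.nd (nat_lit 78) (nat_lit 152) (nat_lit 0) (XT.lf (nat_lit 0) (nat_lit 26976149884) (nat_lit 228) (nat_lit 11423940170) (nat_lit 76) (nat_lit 7524573941) (nat_lit 18) (nat_lit 5) (nat_lit 21) (nat_lit 5) (nat_lit 19) (nat_lit 5) (nat_lit 279) (nat_lit 260) (nat_lit 181)) (XT.nd (nat_lit 78) (nat_lit 0) (nat_lit 0) (XT.lf (nat_lit 0) (nat_lit 7468051756) (nat_lit 152) (nat_lit 26979131184) (nat_lit 228) (nat_lit 14002520299) (nat_lit 16) (nat_lit 5) (nat_lit 18) (nat_lit 5) (nat_lit 19) (nat_lit 5) (nat_lit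 280) (nat_lit 260) (nat_lit 180)) (XT.lf (nat_lit 0) (nat_lit 28514595822) (nat_lit 152) (nat_lit 14309015386) (nat_lit 228) (nat_lit 8328539153) (nat_lit 16) (nat_lit 5) (nat_lit 18) (nat_lit 5) (nat_lit 19) (nat_lit 5) (nat_lit 281) (nat_lit 260) (nat_lit 179))))) (XT.nd (nat_lit 234) (nat_lit 152) (nat_lit 0) (XT.nd (nat_lit 78) (nat_lit 152) (nat_lit 0) (XT.lf (nat_lit 0) (nat_lit 51238847844) (nat_lit 152) (nat_lit 627011263) (nat_lit 228) (nat_lit 2205297851) (nat_lit 16) (nat_lit 5) (nat_lit 18) (nat_lit 5) (nat_lit 19) (nat_lit 5) (nat_lit 282) (nat_lit 260) (nat_lit 178)) (XT.nd (nat_lit 78) (nat_lit 0) (nat_lit 0) (XT.lf (nat_lit 0) (nat_lit 5005323697) (nat_lit 152) (nat_lit 38116474326) (nat_lit 76) (nat_lit 14027981333) (nat_lit 14) (nat_lit 5) (nat_lit 16) (nat_lit 5) (nat_lit 15) (nat_lit 5) (nat_lit 283) (nat_lit 260) (nat_lit 177)) (XT.lf (nat_lit 0) (nat_lit 12765417873)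 (nat_lit 152) (nat_lit 17740774951) (nat_lit 76) (nat_lit 29956590968) (nat_lit 14) (nat_lit 5) (nat_lit 16) (nat_lit 5) (nat_lit 15) (nat_lit 5) (nat_lit 284) (nat_lit 260) (nat_lit 176)))) (XT.nd (nat_lit 78) (nat_lit 0) (nat_lit 0) (XT.lf (nat_lit 0) (nat_lit 4483772225) (nat_lit 152) (nat_lit 16766704846) (nat_lit 228) (nat_lit 42782033711) (nat_lit 12) (nat_lit 5) (nat_lit 14) (nat_lit 5) (nat_lit 15) (nat_lit 5) (nat_lit 285) (nat_lit 260) (nat_lit 175)) (XT.nd (nat_lit 78) (nat_lit 0) (nat_lit 0) (XT.lf (nat_lit 0) (nat_lit 29489851529) (nat_lit 152) (nat_lit 1406019722) (nat_lit 228) (nat_lit 36953435963) (nat_lit 12) (nat_lit 5) (nat_lit 14) (nat_lit 5) (nat_lit 15) (nat_lit 5) (nat_lit 286) (nat_lit 260) (nat_lit 174)) (XT.lf (nat_lit 0) (nat_lit 41674748010) (nat_lit 228) (nat_lit 15845395706) (nat_lit 76) (nat_lit 14422368248) (nat_lit 12) (nat_lit 5) (nat_lit 15) (nat_lit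 5) (nat_lit 13) (nat_lit 4) (nat_lit 287) (nat_lit 260) (nat_lit 173)))))) (XT.nd (nat_lit 468) (nat_lit 152) (nat_lit 0) (XT.nd (nat_lit 234) (nat_lit 228) (nat_lit 0) (XT.nd (nat_lit 78) (nat_lit 0) (nat_lit 0) (XT.lf (nat_lit 0) (nat_lit 8872280267) (nat_lit 76) (nat_lit 44690485611) (nat_lit 152) (nat_lit 22780672488) (nat_lit 11) (nat_lit 5) (nat_lit 12) (nat_lit 5) (nat_lit 13) (nat_lit 4) (nat_lit 288) (nat_lit 260) (nat_lit 172)) (XT.nd (nat_lit 78) (nat_lit 0) (nat_lit 0) (XT.lf (nat_lit 0) (nat_lit 36463817742) (nat_lit 76) (nat_lit 30368295387) (nat_lit 152) (nat_lit 14229913592) (nat_lit 11) (nat_lit 5) (nat_lit 12) (nat_lit 5) (nat_lit 13) (nat_lit 4) (nat_lit 289) (nat_lit 260) (nat_lit 171)) (XT.lf (nat_lit 0) (nat_lit 66258331666) (nat_lit 76) (nat_lit 14901942007) (nat_lit 152) (nat_lit 4998057303) (nat_lit 11) (nat_lit 5) (nat_lit 12) (nat_lit 5) (nat_lit 13) (nat_lit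 4) (nat_lit 290) (nat_lit 260) (nat_lit 170)))) (XT.nd (nat_lit 78) (nat_lit 0) (nat_lit 0) (XT.lf (nat_lit 0) (nat_lit 4940139232) (nat_lit 228) (nat_lit 84689788678) (nat_lit 76) (nat_lit 2005531194) (nat_lit 8) (nat_lit 5) (nat_lit 11) (nat_lit 5) (nat_lit 9) (nat_lit 4) (nat_lit 291) (nat_lit 260) (nat_lit 169)) (XT.nd (nat_lit 78) (nat_lit 0) (nat_lit 0) (XT.lf (nat_lit 0) (nat_lit 16346115149) (nat_lit 228) (nat_lit 60971757065) (nat_lit 76) (nat_lit 20147087804) (nat_lit 8) (nat_lit 5) (nat_lit 11) (nat_lit 5) (nat_lit 9) (nat_lit 4) (nat_lit 292) (nat_lit 260) (nat_lit 168)) (XT.lf (nat_lit 0) (nat_lit 28662209320) (nat_lit 228) (nat_lit 35360205536) (nat_lit 76) (nat_lit 39738602339) (nat_lit 8) (nat_lit 5) (nat_lit 11) (nat_lit 5) (nat_lit 9) (nat_lit 4) (nat_lit 293) (nat_lit 260) (nat_lit 167))))) (XT.nd (nat_lit 234) (nat_lit 76) (nat_lit 0) (XT.nd (nat_lit 78) (nat_lit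 76) (nat_lit 0) (XT.lf (nat_lit 0) (nat_lit 41961406007) (nat_lit 228) (nat_lit 7703361933) (nat_lit 76) (nat_lit 60896172662) (nat_lit 8) (nat_lit 5) (nat_lit 11) (nat_lit 5) (nat_lit 9) (nat_lit 4) (nat_lit 294) (nat_lit 260) (nat_lit 166)) (XT.nd (nat_lit 78) (nat_lit 0) (nat_lit 0) (XT.lf (nat_lit 0) (nat_lit 23329712874) (nat_lit 76) (nat_lit 33553882545) (nat_lit 152) (nat_lit 60976544248) (nat_lit 7) (nat_lit 5) (nat_lit 8) (nat_lit 5) (nat_lit 9) (nat_lit 4) (nat_lit 295) (nat_lit 260) (nat_lit 165)) (XT.lf (nat_lit 0) (nat_lit 57280252817) (nat_lit 76) (nat_lit 15927978602) (nat_lit 152) (nat_lit 52518355403) (nat_lit 7) (nat_lit 5) (nat_lit 8) (nat_lit 5) (nat_lit 9) (nat_lit 4) (nat_lit 296) (nat_lit 260) (nat_lit 164)))) (XT.nd (nat_lit 156) (nat_lit 76) (nat_lit 0) (XT.nd (nat_lit 78) (nat_lit 0) (nat_lit 0) (XT.lf (nat_lit 0) (nat_lit 90911748665) (nat_lit 152) (nat_lit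 40353416798) (nat_lit 0) (nat_lit 2951356899) (nat_lit 7) (nat_lit 5) (nat_lit 9) (nat_lit 4) (nat_lit 7) (nat_lit 4) (nat_lit 297) (nat_lit 260) (nat_lit 163)) (XT.lf (nat_lit 0) (nat_lit 110443560045) (nat_lit 152) (nat_lit 10429701781) (nat_lit 0) (nat_lit 22479434936) (nat_lit 7) (nat_lit 5) (nat_lit 9) (nat_lit 4) (nat_lit 7) (nat_lit 4) (nat_lit 298) (nat_lit 260) (nat_lit 162))) (XT.nd (nat_lit 78) (nat_lit 0) (nat_lit 0) (XT.lf (nat_lit 0) (nat_lit 23037641143) (nat_lit 76) (nat_lit 109052756038) (nat_lit 76) (nat_lit 21085174130) (nat_lit 6) (nat_lit 4) (nat_lit 7) (nat_lit 5) (nat_lit 7) (nat_lit 4) (nat_lit 299) (nat_lit 260) (nat_lit 161)) (XT.lf (nat_lit 0) (nat_lit 59772880970) (nat_lit 76) (nat_lit 95979745120) (nat_lit 76) (nat_lit 8008962472) (nat_lit 6) (nat_lit 4) (nat_lit 7) (nat_lit 5) (nat_lit 7) (nat_lit 4) (nat_lit 300) (nat_lit 260) (nat_lit 160))))))))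
noncomputable def xc86 : XT := (XT.nd (nat_lit 1872) (nat_lit 0) (nat_lit 0) (XT.nd (nat_lit 936) (nat_lit 152) (nat_lit 0) (XT.nd (nat_lit 468) (nat_lit 76) (nat_lit 0) (XT.nd (nat_lit 234) (nat_lit 76) (nat_lit 0) (XT.nd (nat_lit 78) (nat_lit 0) (nat_lit 0) (XT.lf (nat_lit 0) (nat_lit 5806082380) (nat_lit 152) (nat_lit 75897094944) (nat_lit 76) (nat_lit 93479667434) (nat_lit 5) (nat_lit 5) (nat_lit 7) (nat_lit 5) (nat_lit 6) (nat_lit 4) (nat_lit 301) (nat_lit 260) (nat_lit 159)) (XT.nd (nat_lit 78) (nat_lit 0) (nat_lit 0) (XT.lf (nat_lit 0) (nat_lit 20292296779) (nat_lit 152) (nat_lit 45768513112) (nat_lit 76) (nat_lit 121440460351) (nat_lit 5) (nat_lit 5) (nat_lit 7) (nat_lit 5) (nat_lit 6) (nat_lit 4) (nat_lit 302) (nat_lit 260) (nat_lit 158)) (XT.lf (nat_lit 0) (nat_lit 35936165699) (nat_lit 152) (nat_lit 13231806610) (nat_lit 76) (nat_lit 151637300043) (nat_lit 5) (nat_lit 5)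 (nat_lit 7) (nat_lit 5) (nat_lit 6) (nat_lit 4) (nat_lit 303) (nat_lit 260) (nat_lit 157)))) (XT.nd (nat_lit 78) (nat_lit 0) (nat_lit 0) (XT.lf (nat_lit 0) (nat_lit 23059357106) (nat_lit 76) (nat_lit 30325614533) (nat_lit 152) (nat_lit 161744351730) (nat_lit 4) (nat_lit 5) (nat_lit 5) (nat_lit 5) (nat_lit 6) (nat_lit 4) (nat_lit 304) (nat_lit 260) (nat_lit 156)) (XT.nd (nat_lit 78) (nat_lit 0) (nat_lit 0) (XT.lf (nat_lit 0) (nat_lit 63004367425) (nat_lit 76) (nat_lit 9585983391) (nat_lit 152) (nat_lit 157980096872) (nat_lit 4) (nat_lit 5) (nat_lit 5) (nat_lit 5) (nat_lit 6) (nat_lit 4) (nat_lit 305) (nat_lit 260) (nat_lit 155)) (XT.lf (nat_lit 0) (nat_lit 93639260347) (nat_lit 152) (nat_lit 141411904743) (nat_lit 0) (nat_lit 12171131382) (nat_lit 4) (nat_lit 5) (nat_lit 6) (nat_lit 4) (nat_lit 4) (nat_lit 4) (nat_lit 306) (nat_lit 260) (nat_lit 154))))) (XT.nd (nat_lit 234) (nat_lit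 76) (nat_lit 0) (XT.nd (nat_lit 78) (nat_lit 0) (nat_lit 0) (XT.lf (nat_lit 0) (nat_lit 116620098327) (nat_lit 152) (nat_lit 113416115810) (nat_lit 0) (nat_lit 35150240101) (nat_lit 4) (nat_lit 5) (nat_lit 6) (nat_lit 4) (nat_lit 4) (nat_lit 4) (nat_lit 307) (nat_lit 260) (nat_lit 153)) (XT.nd (nat_lit 78) (nat_lit 0) (nat_lit 0) (XT.lf (nat_lit 0) (nat_lit 141438504367) (nat_lit 152) (nat_lit 83182269362) (nat_lit 0) (nat_lit 59967044975) (nat_lit 4) (nat_lit 5) (nat_lit 6) (nat_lit 4) (nat_lit 4) (nat_lit 4) (nat_lit 308) (nat_lit 260) (nat_lit 152)) (XT.lf (nat_lit 0) (nat_lit 168241550504) (nat_lit 152) (nat_lit 50531201865) (nat_lit 0) (nat_lit 86768608550) (nat_lit 4) (nat_lit 5) (nat_lit 6) (nat_lit 4) (nat_lit 4) (nat_lit 4) (nat_lit 309) (nat_lit 260) (nat_lit 151)))) (XT.nd (nat_lit 78) (nat_lit 76) (nat_lit 0) (XT.lf (nat_lit 0) (nat_lit 197188069604) (nat_lit 152) (nat_lit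 15269425511) (nat_lit 0) (nat_lit 115713754907) (nat_lit 4) (nat_lit 5) (nat_lit 6) (nat_lit 4) (nat_lit 4) (nat_lit 4) (nat_lit 310) (nat_lit 260) (nat_lit 150)) (XT.nd (nat_lit 78) (nat_lit 0) (nat_lit 0) (XT.lf (nat_lit 0) (nat_lit 24013258834) (nat_lit 76) (nat_lit 205013857212) (nat_lit 76) (nat_lit 123538271458) (nat_lit 3) (nat_lit 4) (nat_lit 4) (nat_lit 5) (nat_lit 4) (nat_lit 4) (nat_lit 311) (nat_lit 260) (nat_lit 149)) (XT.lf (nat_lit 0) (nat_lit 67305701378) (nat_lit 76) (nat_lit 196524387327) (nat_lit 76) (nat_lit 115047624667) (nat_lit 3) (nat_lit 4) (nat_lit 4) (nat_lit 5) (nat_lit 4) (nat_lit 4) (nat_lit 312) (nat_lit 260) (nat_lit 148)))))) (XT.nd (nat_lit 468) (nat_lit 152) (nat_lit 0) (XT.nd (nat_lit 234) (nat_lit 0) (nat_lit 0) (XT.nd (nat_lit 78) (nat_lit 0) (nat_lit 0) (XT.lf (nat_lit 0) (nat_lit 114060389038) (nat_lit 76) (nat_lit 187356270644) (nat_lit 76)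 (nat_lit 105878418258) (nat_lit 3) (nat_lit 4) (nat_lit 4) (nat_lit 5) (nat_lit 4) (nat_lit 4) (nat_lit 313) (nat_lit 260) (nat_lit 147)) (XT.nd (nat_lit 78) (nat_lit 0) (nat_lit 0) (XT.lf (nat_lit 0) (nat_lit 164554386632) (nat_lit 76) (nat_lit 177455177584) (nat_lit 76) (nat_lit 95976316190) (nat_lit 3) (nat_lit 4) (nat_lit 4) (nat_lit 5) (nat_lit 4) (nat_lit 4) (nat_lit 314) (nat_lit 260) (nat_lit 146)) (XT.lf (nat_lit 0) (nat_lit 219086917848) (nat_lit 76) (nat_lit 166762435001) (nat_lit 76) (nat_lit 85282639341) (nat_lit 3) (nat_lit 4) (nat_lit 4) (nat_lit 5) (nat_lit 4) (nat_lit 4) (nat_lit 315) (nat_lit 260) (nat_lit 145)))) (XT.nd (nat_lit 78) (nat_lit 0) (nat_lit 0) (XT.lf (nat_lit 0) (nat_lit 277981138427) (nat_lit 76) (nat_lit 155214678495) (nat_lit 76) (nat_lit 73734017775) (nat_lit 3) (nat_lit 4) (nat_lit 4) (nat_lit 5) (nat_lit 4) (nat_lit 4) (nat_lit 316) (nat_lit 260)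 (nat_lit 144)) (XT.nd (nat_lit 78) (nat_lit 0) (nat_lit 0) (XT.lf (nat_lit 0) (nat_lit 341586051158) (nat_lit 76) (nat_lit 142743476916) (nat_lit 76) (nat_lit 61262015215) (nat_lit 3) (nat_lit 4) (nat_lit 4) (nat_lit 5) (nat_lit 4) (nat_lit 4) (nat_lit 317) (nat_lit 260) (nat_lit 143)) (XT.lf (nat_lit 0) (nat_lit 410278574042) (nat_lit 76) (nat_lit 129274926849) (nat_lit 76) (nat_lit 47792723497) (nat_lit 3) (nat_lit 4) (nat_lit 4) (nat_lit 5) (nat_lit 4) (nat_lit 4) (nat_lit 318) (nat_lit 260) (nat_lit 142))))) (XT.nd (nat_lit 234) (nat_lit 152) (nat_lit 0) (XT.nd (nat_lit 78) (nat_lit 0) (nat_lit 0) (XT.lf (nat_lit 0) (nat_lit 484465773880) (nat_lit 76) (nat_lit 114729214662) (nat_lit 76) (nat_lit 33246324597) (nat_lit 3) (nat_lit 4) (nat_lit 4) (nat_lit 5) (nat_lit 4) (nat_lit 4) (nat_lit 319) (nat_lit 260) (nat_lit 141)) (XT.nd (nat_lit 78) (nat_lit 0) (nat_lit 0) (XT.lf (nat_lit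 0) (nat_lit 564587278525) (nat_lit 76) (nat_lit 99020143543) (nat_lit 76) (nat_lit 17536617633) (nat_lit 3) (nat_lit 4) (nat_lit 4) (nat_lit 5) (nat_lit 4) (nat_lit 4) (nat_lit 320) (nat_lit 260) (nat_lit 140)) (XT.lf (nat_lit 0) (nat_lit 651117882078) (nat_lit 76) (nat_lit 82054622700) (nat_lit 76) (nat_lit 570508045) (nat_lit 3) (nat_lit 4) (nat_lit 4) (nat_lit 5) (nat_lit 4) (nat_lit 4) (nat_lit 321) (nat_lit 260) (nat_lit 139)))) (XT.nd (nat_lit 78) (nat_lit 76) (nat_lit 0) (XT.lf (nat_lit 0) (nat_lit 16864489923) (nat_lit 152) (nat_lit 46406520749) (nat_lit 76) (nat_lit 727244763521) (nat_lit 2) (nat_lit 5) (nat_lit 4) (nat_lit 5) (nat_lit 3) (nat_lit 4) (nat_lit 322) (nat_lit 260) (nat_lit 138)) (XT.nd (nat_lit 78) (nat_lit 76) (nat_lit 0) (XT.lf (nat_lit 0) (nat_lit 35663160926) (nat_lit 152) (nat_lit 7305789817) (nat_lit 76) (nat_lit 808860245253) (nat_lit 2) (nat_lit 5) (nat_lit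 4) (nat_lit 5) (nat_lit 3) (nat_lit 4) (nat_lit 323) (nat_lit 260) (nat_lit 137)) (XT.lf (nat_lit 0) (nat_lit 36761447296) (nat_lit 76) (nat_lit 20088110014) (nat_lit 152) (nat_lit 861127428282) (nat_lit 1) (nat_lit 5) (nat_lit 2) (nat_lit 5) (nat_lit 3) (nat_lit 4) (nat_lit 324) (nat_lit 260) (nat_lit 136))))))) (XT.nd (nat_lit 32760) (nat_lit 0) (nat_lit 1444) (XT.nd (nat_lit 468) (nat_lit 0) (nat_lit 0) (XT.nd (nat_lit 234) (nat_lit 0) (nat_lit 0) (XT.nd (nat_lit 78) (nat_lit 0) (nat_lit 0) (XT.lf (nat_lit 0) (nat_lit 80046716676) (nat_lit 152) (nat_lit 904747957309) (nat_lit 0) (nat_lit 4596656809) (nat_lit 1) (nat_lit 5) (nat_lit 3) (nat_lit 4) (nat_lit 1) (nat_lit 4) (nat_lit 325) (nat_lit 260) (nat_lit 135)) (XT.nd (nat_lit 78) (nat_lit 0) (nat_lit 0) (XT.lf (nat_lit 0) (nat_lit 105621160115) (nat_lit 152) (nat_lit 930685213854) (nat_lit 0) (nat_lit 30170729238) (nat_lit 1)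 (nat_lit 5) (nat_lit 3) (nat_lit 4) (nat_lit 1) (nat_lit 4) (nat_lit 326) (nat_lit 260) (nat_lit 134)) (XT.lf (nat_lit 0) (nat_lit 133241320355) (nat_lit 152) (nat_lit 958697890665) (nat_lit 0) (nat_lit 57790545951) (nat_lit 1) (nat_lit 5) (nat_lit 3) (nat_lit 4) (nat_lit 1) (nat_lit 4) (nat_lit 327) (nat_lit 260) (nat_lit 133)))) (XT.nd (nat_lit 78) (nat_lit 0) (nat_lit 0) (XT.lf (nat_lit 0) (nat_lit 163070872421) (nat_lit 152) (nat_lit 988951988788) (nat_lit 0) (nat_lit 87619779936) (nat_lit 1) (nat_lit 5) (nat_lit 3) (nat_lit 4) (nat_lit 1) (nat_lit 4) (nat_lit 328) (nat_lit 260) (nat_lit 132)) (XT.nd (nat_lit 78) (nat_lit 0) (nat_lit 0) (XT.lf (nat_lit 0) (nat_lit 195286584028) (nat_lit 152) (nat_lit 1021626791768) (nat_lit 0) (nat_lit 119835197024) (nat_lit 1) (nat_lit 5) (nat_lit 3) (nat_lit 4) (nat_lit 1) (nat_lit 4) (nat_lit 329) (nat_lit 260) (nat_lit 131)) (XT.lf (nat_lit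 0) (nat_lit 230079363097) (nat_lit 152) (nat_lit 1056915928067) (nat_lit 0) (nat_lit 154627703390) (nat_lit 1) (nat_lit 5) (nat_lit 3) (nat_lit 4) (nat_lit 1) (nat_lit 4) (nat_lit 330) (nat_lit 260) (nat_lit 130))))) (XT.nd (nat_lit 32058) (nat_lit 0) (nat_lit 2356) (XT.nd (nat_lit 78) (nat_lit 0) (nat_lit 0) (XT.lf (nat_lit 0) (nat_lit 267655389060) (nat_lit 152) (nat_lit 1095028518493) (nat_lit 0) (nat_lit 192203476850) (nat_lit 1) (nat_lit 5) (nat_lit 3) (nat_lit 4) (nat_lit 1) (nat_lit 4) (nat_lit 331) (nat_lit 260) (nat_lit 129)) (XT.nd (nat_lit 78) (nat_lit 0) (nat_lit 0) (XT.lf (nat_lit 0) (nat_lit 308237334662) (nat_lit 152) (nat_lit 1136190415434) (nat_lit 0) (nat_lit 232785188653) (nat_lit 1) (nat_lit 5) (nat_lit 3) (nat_lit 4) (nat_lit 1) (nat_lit 4) (nat_lit 332) (nat_lit 260) (nat_lit 128)) (XT.lf (nat_lit 0) (nat_lit 352065685509) (nat_lit 152) (nat_lit 1180645541241)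 (nat_lit 0) (nat_lit 276613323019) (nat_lit 1) (nat_lit 5) (nat_lit 3) (nat_lit 4) (nat_lit 1) (nat_lit 4) (nat_lit 333) (nat_lit 260) (nat_lit 127)))) (XT.nd (nat_lit 78) (nat_lit 0) (nat_lit 0) (XT.lf (nat_lit 0) (nat_lit 1923817031) (nat_lit 532) (nat_lit 4238122903) (nat_lit 532) (nat_lit 4238122903) (nat_lit 32) (nat_lit 3) (nat_lit 39) (nat_lit 3) (nat_lit 39) (nat_lit 5) (nat_lit 261) (nat_lit 261) (nat_lit 198)) (XT.nd (nat_lit 78) (nat_lit 0) (nat_lit 76) (XT.lf (nat_lit 76) (nat_lit 129236348) (nat_lit 0) (nat_lit 4009831516) (nat_lit 532) (nat_lit 17481192055) (nat_lit 33) (nat_lit 5) (nat_lit 32) (nat_lit 3) (nat_lit 39) (nat_lit 5) (nat_lit 262) (nat_lit 261) (nat_lit 197)) (XT.lf (nat_lit 0) (nat_lit 4797613824) (nat_lit 456) (nat_lit 12716798995) (nat_lit 532) (nat_lit 4964175178) (nat_lit 33) (nat_lit 5) (nat_lit 39) (nat_lit 5) (nat_lit 40) (nat_lit 5) (nat_lit 263)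 (nat_lit 261) (nat_lit 196)))))) (XT.nd (nat_lit 468) (nat_lit 684) (nat_lit 0) (XT.nd (nat_lit 234) (nat_lit 304) (nat_lit 0) (XT.nd (nat_lit 78) (nat_lit 0) (nat_lit 76) (XT.lf (nat_lit 0) (nat_lit 5600503710) (nat_lit 456) (nat_lit 3353131288) (nat_lit 532) (nat_lit 14444694961) (nat_lit 33) (nat_lit 5) (nat_lit 39) (nat_lit 5) (nat_lit 40) (nat_lit 5) (nat_lit 264) (nat_lit 261) (nat_lit 195)) (XT.nd (nat_lit 78) (nat_lit 0) (nat_lit 0) (XT.lf (nat_lit 0) (nat_lit 6638548080) (nat_lit 456) (nat_lit 17283083433) (nat_lit 532) (nat_lit 456420396) (nat_lit 34) (nat_lit 5) (nat_lit 40) (nat_lit 5) (nat_lit 41) (nat_lit 5) (nat_lit 265) (nat_lit 261) (nat_lit 194)) (XT.lf (nat_lit 0) (nat_lit 8075450336) (nat_lit 456) (nat_lit 7102699447) (nat_lit 532) (nat_lit 10232805665) (nat_lit 34) (nat_lit 5) (nat_lit 40) (nat_lit 5) (nat_lit 41) (nat_lit 5) (nat_lit 266) (nat_lit 261) (nat_lit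 193)))) (XT.nd (nat_lit 78) (nat_lit 380) (nat_lit 0) (XT.lf (nat_lit 76) (nat_lit 4088732841) (nat_lit 0) (nat_lit 5626897280) (nat_lit 532) (nat_lit 16803858990) (nat_lit 35) (nat_lit 5) (nat_lit 34) (nat_lit 5) (nat_lit 41) (nat_lit 5) (nat_lit 267) (nat_lit 261) (nat_lit 192)) (XT.nd (nat_lit 78) (nat_lit 456) (nat_lit 0) (XT.lf (nat_lit 0) (nat_lit 11789615085) (nat_lit 456) (nat_lit 11248128625) (nat_lit 76) (nat_lit 4654813632) (nat_lit 35) (nat_lit 5) (nat_lit 41) (nat_lit 5) (nat_lit 36) (nat_lit 5) (nat_lit 268) (nat_lit 261) (nat_lit 191)) (XT.lf (nat_lit 0) (nat_lit 710562297) (nat_lit 456) (nat_lit 13473484666) (nat_lit 532) (nat_lit 14763116573) (nat_lit 29) (nat_lit 5) (nat_lit 35) (nat_lit 5) (nat_lit 36) (nat_lit 5) (nat_lit 269) (nat_lit 261) (nat_lit 190))))) (XT.nd (nat_lit 234) (nat_lit 456) (nat_lit 0) (XT.nd (nat_lit 78) (nat_lit 228) (nat_lit 0) (XT.lf (nat_lit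 0) (nat_lit 14257901559) (nat_lit 456) (nat_lit 2811420896) (nat_lit 532) (nat_lit 13208923349) (nat_lit 29) (nat_lit 5) (nat_lit 35) (nat_lit 5) (nat_lit 36) (nat_lit 5) (nat_lit 270) (nat_lit 261) (nat_lit 189)) (XT.nd (nat_lit 78) (nat_lit 228) (nat_lit 0) (XT.lf (nat_lit 0) (nat_lit 20387110227) (nat_lit 532) (nat_lit 3043943378) (nat_lit 76) (nat_lit 8268672774) (nat_lit 29) (nat_lit 5) (nat_lit 36) (nat_lit 5) (nat_lit 30) (nat_lit 5) (nat_lit 271) (nat_lit 261) (nat_lit 188)) (XT.lf (nat_lit 0) (nat_lit 11463754721) (nat_lit 228) (nat_lit 12848227368) (nat_lit 304) (nat_lit 8895653894) (nat_lit 26) (nat_lit 5) (nat_lit 29) (nat_lit 5) (nat_lit 30) (nat_lit 5) (nat_lit 272) (nat_lit 261) (nat_lit 187)))) (XT.nd (nat_lit 156) (nat_lit 304) (nat_lit 0) (XT.nd (nat_lit 78) (nat_lit 152) (nat_lit 0) (XT.lf (nat_lit 0) (nat_lit 27298109724) (nat_lit 228) (nat_lit 1329247743) (nat_lit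 304) (nat_lit 6202740033) (nat_lit 26) (nat_lit 5) (nat_lit 29) (nat_lit 5) (nat_lit 30) (nat_lit 5) (nat_lit 273) (nat_lit 261) (nat_lit 186)) (XT.lf (nat_lit 0) (nat_lit 7939735569) (nat_lit 152) (nat_lit 25800180234) (nat_lit 228) (nat_lit 2806321170) (nat_lit 24) (nat_lit 5) (nat_lit 26) (nat_lit 5) (nat_lit 27) (nat_lit 5) (nat_lit 274) (nat_lit 261) (nat_lit 185))) (XT.nd (nat_lit 78) (nat_lit 228) (nat_lit 0) (XT.lf (nat_lit 0) (nat_lit 1058397458) (nat_lit 228) (nat_lit 13373494908) (nat_lit 76) (nat_lit 23946973258) (nat_lit 23) (nat_lit 5) (nat_lit 26) (nat_lit 5) (nat_lit 24) (nat_lit 5) (nat_lit 275) (nat_lit 261) (nat_lit 184)) (XT.lf (nat_lit 0) (nat_lit 3156447447) (nat_lit 228) (nat_lit 1994482214) (nat_lit 304) (nat_lit 35195753146) (nat_lit 20) (nat_lit 5) (nat_lit 23) (nat_lit 5) (nat_lit 24) (nat_lit 5) (nat_lit 276) (nat_lit 261) (nat_lit 183))))))))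
noncomputable def xc87 : XT := (XT.nd (nat_lit 1872) (nat_lit 380) (nat_lit 0) (XT.nd (nat_lit 936) (nat_lit 456) (nat_lit 0) (XT.nd (nat_lit 468) (nat_lit 304) (nat_lit 0) (XT.nd (nat_lit 234) (nat_lit 152) (nat_lit 0) (XT.nd (nat_lit 78) (nat_lit 152) (nat_lit 0) (XT.lf (nat_lit 0) (nat_lit 10215671634) (nat_lit 304) (nat_lit 20964878603) (nat_lit 76) (nat_lit 11239817945) (nat_lit 20) (nat_lit 5) (nat_lit 24) (nat_lit 5) (nat_lit 21) (nat_lit 5) (nat_lit 277) (nat_lit 261) (nat_lit 182)) (XT.nd (nat_lit 78) (nat_lit 152) (nat_lit 0) (XT.lf (nat_lit 0) (nat_lit 15732372086) (nat_lit 304) (nat_lit 3499755015) (nat_lit 76) (nat_lit 25424104321) (nat_lit 20) (nat_lit 5) (nat_lit 24) (nat_lit 5) (nat_lit 21) (nat_lit 5) (nat_lit 278) (nat_lit 261) (nat_lit 181)) (XT.lf (nat_lit 0) (nat_lit 16165251108) (nat_lit 152) (nat_lit 5909278798) (nat_lit 228) (nat_lit 24965727591) (nat_lit 18)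 (nat_lit 5) (nat_lit 20) (nat_lit 5) (nat_lit 21) (nat_lit 5) (nat_lit 279) (nat_lit 261) (nat_lit 180)))) (XT.nd (nat_lit 78) (nat_lit 152) (nat_lit 0) (XT.lf (nat_lit 0) (nat_lit 29221683056) (nat_lit 228) (nat_lit 12217445581) (nat_lit 76) (nat_lit 8152088951) (nat_lit 18) (nat_lit 5) (nat_lit 21) (nat_lit 5) (nat_lit 19) (nat_lit 5) (nat_lit 280) (nat_lit 261) (nat_lit 179)) (XT.nd (nat_lit 78) (nat_lit 0) (nat_lit 0) (XT.lf (nat_lit 0) (nat_lit 8182857351) (nat_lit 152) (nat_lit 29103886828) (nat_lit 228) (nat_lit 15031839584) (nat_lit 16) (nat_lit 5) (nat_lit 18) (nat_lit 5) (nat_lit 19) (nat_lit 5) (nat_lit 281) (nat_lit 261) (nat_lit 178)) (XT.lf (nat_lit 0) (nat_lit 30904431501) (nat_lit 152) (nat_lit 15422648792) (nat_lit 228) (nat_lit 8910671971) (nat_lit 16) (nat_lit 5) (nat_lit 18) (nat_lit 5) (nat_lit 19) (nat_lit 5) (nat_lit 282) (nat_lit 261) (nat_lit 177))))) (XT.nd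 (nat_lit 234) (nat_lit 152) (nat_lit 0) (XT.nd (nat_lit 78) (nat_lit 152) (nat_lit 0) (XT.lf (nat_lit 0) (nat_lit 55438574202) (nat_lit 152) (nat_lit 648387141) (nat_lit 228) (nat_lit 2303804722) (nat_lit 16) (nat_lit 5) (nat_lit 18) (nat_lit 5) (nat_lit 19) (nat_lit 5) (nat_lit 283) (nat_lit 261) (nat_lit 176)) (XT.nd (nat_lit 78) (nat_lit 0) (nat_lit 0) (XT.lf (nat_lit 0) (nat_lit 5477493108) (nat_lit 152) (nat_lit 41058399750) (nat_lit 76) (nat_lit 15179840640) (nat_lit 14) (nat_lit 5) (nat_lit 16) (nat_lit 5) (nat_lit 15) (nat_lit 5) (nat_lit 284) (nat_lit 261) (nat_lit 175)) (XT.lf (nat_lit 0) (nat_lit 13853080483) (nat_lit 152) (nat_lit 19060599427) (nat_lit 76) (nat_lit 32380544912) (nat_lit 14) (nat_lit 5) (nat_lit 16) (nat_lit 5) (nat_lit 15) (nat_lit 5) (nat_lit 285) (nat_lit 261) (nat_lit 174)))) (XT.nd (nat_lit 78) (nat_lit 0) (nat_lit 0) (XT.lf (nat_lit 0) (nat_lit 4939394118)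 (nat_lit 152) (nat_lit 18074960550) (nat_lit 228) (nat_lit 46135402286) (nat_lit 12) (nat_lit 5) (nat_lit 14) (nat_lit 5) (nat_lit 15) (nat_lit 5) (nat_lit 286) (nat_lit 261) (nat_lit 173)) (XT.nd (nat_lit 78) (nat_lit 0) (nat_lit 0) (XT.lf (nat_lit 0) (nat_lit 31938780499) (nat_lit 152) (nat_lit 1487871037) (nat_lit 228) (nat_lit 39845642208) (nat_lit 12) (nat_lit 5) (nat_lit 14) (nat_lit 5) (nat_lit 15) (nat_lit 5) (nat_lit 287) (nat_lit 261) (nat_lit 172)) (XT.lf (nat_lit 0) (nat_lit 45064141965) (nat_lit 228) (nat_lit 17026025293) (nat_lit 76) (nat_lit 15603100312) (nat_lit 12) (nat_lit 5) (nat_lit 15) (nat_lit 5) (nat_lit 13) (nat_lit 4) (nat_lit 288) (nat_lit 261) (nat_lit 171)))))) (XT.nd (nat_lit 468) (nat_lit 152) (nat_lit 0) (XT.nd (nat_lit 234) (nat_lit 228) (nat_lit 0) (XT.nd (nat_lit 78) (nat_lit 0) (nat_lit 0) (XT.lf (nat_lit 0) (nat_lit 9666862174) (nat_lit 76) (nat_lit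 48234273769) (nat_lit 152) (nat_lit 24545313087) (nat_lit 11) (nat_lit 5) (nat_lit 12) (nat_lit 5) (nat_lit 13) (nat_lit 4) (nat_lit 289) (nat_lit 261) (nat_lit 170)) (XT.nd (nat_lit 78) (nat_lit 0) (nat_lit 0) (XT.lf (nat_lit 0) (nat_lit 39459441203) (nat_lit 76) (nat_lit 32768638008) (nat_lit 152) (nat_lit 15314775939) (nat_lit 11) (nat_lit 5) (nat_lit 12) (nat_lit 5) (nat_lit 13) (nat_lit 4) (nat_lit 290) (nat_lit 261) (nat_lit 169)) (XT.lf (nat_lit 0) (nat_lit 71631700090) (nat_lit 76) (nat_lit 16067133470) (nat_lit 152) (nat_lit 5348336386) (nat_lit 11) (nat_lit 5) (nat_lit 12) (nat_lit 5) (nat_lit 13) (nat_lit 4) (nat_lit 291) (nat_lit 261) (nat_lit 168)))) (XT.nd (nat_lit 78) (nat_lit 0) (nat_lit 0) (XT.lf (nat_lit 0) (nat_lit 5381389531) (nat_lit 228) (nat_lit 91388443116) (nat_lit 76) (nat_lit 2192635618) (nat_lit 8) (nat_lit 5) (nat_lit 11) (nat_lit 5) (nat_lit 9) (nat_lit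 4) (nat_lit 292) (nat_lit 261) (nat_lit 167)) (XT.nd (nat_lit 78) (nat_lit 0) (nat_lit 0) (XT.lf (nat_lit 0) (nat_lit 17696433213) (nat_lit 228) (nat_lit 65778637764) (nat_lit 76) (nat_lit 21783541799) (nat_lit 8) (nat_lit 5) (nat_lit 11) (nat_lit 5) (nat_lit 9) (nat_lit 4) (nat_lit 293) (nat_lit 261) (nat_lit 166)) (XT.lf (nat_lit 0) (nat_lit 30994657224) (nat_lit 228) (nat_lit 38123410991) (nat_lit 76) (nat_lit 42940548832) (nat_lit 8) (nat_lit 5) (nat_lit 11) (nat_lit 5) (nat_lit 9) (nat_lit 4) (nat_lit 294) (nat_lit 261) (nat_lit 165))))) (XT.nd (nat_lit 234) (nat_lit 76) (nat_lit 0) (XT.nd (nat_lit 78) (nat_lit 76) (nat_lit 0) (XT.lf (nat_lit 0) (nat_lit 45354865857) (nat_lit 228) (nat_lit 8258879973) (nat_lit 76) (nat_lit 65789031573) (nat_lit 8) (nat_lit 5) (nat_lit 11) (nat_lit 5) (nat_lit 9) (nat_lit 4) (nat_lit 295) (nat_lit 261) (nat_lit 164)) (XT.nd (nat_lit 78) (nat_lit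 0) (nat_lit 0) (XT.lf (nat_lit 0) (nat_lit 25255302821) (nat_lit 76) (nat_lit 36214244461) (nat_lit 152) (nat_lit 65816476257) (nat_lit 7) (nat_lit 5) (nat_lit 8) (nat_lit 5) (nat_lit 9) (nat_lit 4) (nat_lit 296) (nat_lit 261) (nat_lit 163)) (XT.lf (nat_lit 0) (nat_lit 61917499817) (nat_lit 76) (nat_lit 17180042180) (nat_lit 152) (nat_lit 56684461306) (nat_lit 7) (nat_lit 5) (nat_lit 8) (nat_lit 5) (nat_lit 9) (nat_lit 4) (nat_lit 297) (nat_lit 261) (nat_lit 162)))) (XT.nd (nat_lit 78) (nat_lit 76) (nat_lit 0) (XT.lf (nat_lit 0) (nat_lit 98215415749) (nat_lit 152) (nat_lit 43528908718) (nat_lit 0) (nat_lit 3206970490) (nat_lit 7) (nat_lit 5) (nat_lit 9) (nat_lit 4) (nat_lit 7) (nat_lit 4) (nat_lit 298) (nat_lit 261) (nat_lit 161)) (XT.nd (nat_lit 78) (nat_lit 76) (nat_lit 0) (XT.lf (nat_lit 0) (nat_lit 119307495951) (nat_lit 152) (nat_lit 11215206235) (nat_lit 0) (nat_lit 24295849952)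 (nat_lit 7) (nat_lit 5) (nat_lit 9) (nat_lit 4) (nat_lit 7) (nat_lit 4) (nat_lit 299) (nat_lit 261) (nat_lit 160)) (XT.lf (nat_lit 0) (nat_lit 24928286865) (nat_lit 76) (nat_lit 117756831314) (nat_lit 76) (nat_lit 22742221667) (nat_lit 6) (nat_lit 4) (nat_lit 7) (nat_lit 5) (nat_lit 7) (nat_lit 4) (nat_lit 300) (nat_lit 261) (nat_lit 159))))))) (XT.nd (nat_lit 936) (nat_lit 152) (nat_lit 0) (XT.nd (nat_lit 468) (nat_lit 76) (nat_lit 0) (XT.nd (nat_lit 234) (nat_lit 76) (nat_lit 0) (XT.nd (nat_lit 78) (nat_lit 76) (nat_lit 0) (XT.lf (nat_lit 0) (nat_lit 64598817402) (nat_lit 76) (nat_lit 103639471759) (nat_lit 76) (nat_lit 8622117994) (nat_lit 6) (nat_lit 4) (nat_lit 7) (nat_lit 5) (nat_lit 7) (nat_lit 4) (nat_lit 301) (nat_lit 261) (nat_lit 158)) (XT.nd (nat_lit 78) (nat_lit 0) (nat_lit 0) (XT.lf (nat_lit 0) (nat_lit 6294812248) (nat_lit 152) (nat_lit 81926685140) (nat_lit 76) (nat_lit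 100973973543) (nat_lit 5) (nat_lit 5) (nat_lit 7) (nat_lit 5) (nat_lit 6) (nat_lit 4) (nat_lit 302) (nat_lit 261) (nat_lit 157)) (XT.lf (nat_lit 0) (nat_lit 21938128001) (nat_lit 152) (nat_lit 49390941012) (nat_lit 76) (nat_lit 131170449693) (nat_lit 5) (nat_lit 5) (nat_lit 7) (nat_lit 5) (nat_lit 6) (nat_lit 4) (nat_lit 303) (nat_lit 261) (nat_lit 156)))) (XT.nd (nat_lit 78) (nat_lit 76) (nat_lit 0) (XT.lf (nat_lit 0) (nat_lit 38831843657) (nat_lit 152) (nat_lit 14254190816) (nat_lit 76) (nat_lit 163781943781) (nat_lit 5) (nat_lit 5) (nat_lit 7) (nat_lit 5) (nat_lit 6) (nat_lit 4) (nat_lit 304) (nat_lit 261) (nat_lit 155)) (XT.nd (nat_lit 78) (nat_lit 0) (nat_lit 0) (XT.lf (nat_lit 0) (nat_lit 24939350546) (nat_lit 76) (nat_lit 32736511559) (nat_lit 152) (nat_lit 174662150540) (nat_lit 4) (nat_lit 5) (nat_lit 5) (nat_lit 5) (nat_lit 6) (nat_lit 4) (nat_lit 305) (nat_lit 261) (nat_lit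 154)) (XT.lf (nat_lit 0) (nat_lit 68077350959) (nat_lit 76) (nat_lit 10338832307) (nat_lit 152) (nat_lit 170598366355) (nat_lit 4) (nat_lit 5) (nat_lit 5) (nat_lit 5) (nat_lit 6) (nat_lit 4) (nat_lit 306) (nat_lit 261) (nat_lit 153))))) (XT.nd (nat_lit 234) (nat_lit 76) (nat_lit 0) (XT.nd (nat_lit 78) (nat_lit 0) (nat_lit 0) (XT.lf (nat_lit 0) (nat_lit 101147939879) (nat_lit 152) (nat_lit 152693532486) (nat_lit 0) (nat_lit 13157162569) (nat_lit 4) (nat_lit 5) (nat_lit 6) (nat_lit 4) (nat_lit 4) (nat_lit 4) (nat_lit 307) (nat_lit 261) (nat_lit 152)) (XT.nd (nat_lit 78) (nat_lit 0) (nat_lit 0) (XT.lf (nat_lit 0) (nat_lit 125965945734) (nat_lit 152) (nat_lit 122460400782) (nat_lit 0) (nat_lit 37973685861) (nat_lit 4) (nat_lit 5) (nat_lit 6) (nat_lit 4) (nat_lit 4) (nat_lit 4) (nat_lit 308) (nat_lit 261) (nat_lit 151)) (XT.lf (nat_lit 0) (nat_lit 152768621328) (nat_lit 152) (nat_lit 89809995085)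 (nat_lit 0) (nat_lit 64774988713) (nat_lit 4) (nat_lit 5) (nat_lit 6) (nat_lit 4) (nat_lit 4) (nat_lit 4) (nat_lit 309) (nat_lit 261) (nat_lit 150)))) (XT.nd (nat_lit 78) (nat_lit 76) (nat_lit 0) (XT.lf (nat_lit 0) (nat_lit 181714797333) (nat_lit 152) (nat_lit 54548831508) (nat_lit 0) (nat_lit 93719893660) (nat_lit 4) (nat_lit 5) (nat_lit 6) (nat_lit 4) (nat_lit 4) (nat_lit 4) (nat_lit 310) (nat_lit 261) (nat_lit 149)) (XT.nd (nat_lit 78) (nat_lit 76) (nat_lit 0) (XT.lf (nat_lit 0) (nat_lit 212976006643) (nat_lit 152) (nat_lit 16467955010) (nat_lit 0) (nat_lit 124979926065) (nat_lit 4) (nat_lit 5) (nat_lit 6) (nat_lit 4) (nat_lit 4) (nat_lit 4) (nat_lit 311) (nat_lit 261) (nat_lit 148)) (XT.lf (nat_lit 0) (nat_lit 25956761184) (nat_lit 76) (nat_lit 221405000416) (nat_lit 76) (nat_lit 133407830110) (nat_lit 3) (nat_lit 4) (nat_lit 4) (nat_lit 5) (nat_lit 4) (nat_lit 4) (nat_lit 312)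 (nat_lit 261) (nat_lit 147)))))) (XT.nd (nat_lit 468) (nat_lit 152) (nat_lit 0) (XT.nd (nat_lit 234) (nat_lit 0) (nat_lit 0) (XT.nd (nat_lit 78) (nat_lit 0) (nat_lit 0) (XT.lf (nat_lit 0) (nat_lit 72710936787) (nat_lit 76) (nat_lit 212237111116) (nat_lit 76) (nat_lit 124238931804) (nat_lit 3) (nat_lit 4) (nat_lit 4) (nat_lit 5) (nat_lit 4) (nat_lit 4) (nat_lit 313) (nat_lit 261) (nat_lit 146)) (XT.nd (nat_lit 78) (nat_lit 0) (nat_lit 0) (XT.lf (nat_lit 0) (nat_lit 123204460253) (nat_lit 76) (nat_lit 202336228595) (nat_lit 76) (nat_lit 114337115018) (nat_lit 3) (nat_lit 4) (nat_lit 4) (nat_lit 5) (nat_lit 4) (nat_lit 4) (nat_lit 314) (nat_lit 261) (nat_lit 145)) (XT.lf (nat_lit 0) (nat_lit 177736552462) (nat_lit 76) (nat_lit 191643680956) (nat_lit 76) (nat_lit 103643702318) (nat_lit 3) (nat_lit 4) (nat_lit 4) (nat_lit 5) (nat_lit 4) (nat_lit 4) (nat_lit 315) (nat_lit 261) (nat_lit 144))))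 (XT.nd (nat_lit 78) (nat_lit 0) (nat_lit 0) (XT.lf (nat_lit 0) (nat_lit 236630366553) (nat_lit 76) (nat_lit 180096104954) (nat_lit 76) (nat_lit 92095325334) (nat_lit 3) (nat_lit 4) (nat_lit 4) (nat_lit 5) (nat_lit 4) (nat_lit 4) (nat_lit 316) (nat_lit 261) (nat_lit 143)) (XT.nd (nat_lit 78) (nat_lit 0) (nat_lit 0) (XT.lf (nat_lit 0) (nat_lit 300234902906) (nat_lit 76) (nat_lit 167625070509) (nat_lit 76) (nat_lit 79623549239) (nat_lit 3) (nat_lit 4) (nat_lit 4) (nat_lit 5) (nat_lit 4) (nat_lit 4) (nat_lit 317) (nat_lit 261) (nat_lit 142)) (XT.lf (nat_lit 0) (nat_lit 368927077292) (nat_lit 76) (nat_lit 154156675194) (nat_lit 76) (nat_lit 66154467211) (nat_lit 3) (nat_lit 4) (nat_lit 4) (nat_lit 5) (nat_lit 4) (nat_lit 4) (nat_lit 318) (nat_lit 261) (nat_lit 141))))) (XT.nd (nat_lit 234) (nat_lit 152) (nat_lit 0) (XT.nd (nat_lit 78) (nat_lit 0) (nat_lit 0) (XT.lf (nat_lit 0) (nat_lit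 443113954448) (nat_lit 76) (nat_lit 139611106297) (nat_lit 76) (nat_lit 51608262469) (nat_lit 3) (nat_lit 4) (nat_lit 4) (nat_lit 5) (nat_lit 4) (nat_lit 4) (nat_lit 319) (nat_lit 261) (nat_lit 140)) (XT.nd (nat_lit 78) (nat_lit 0) (nat_lit 0) (XT.lf (nat_lit 0) (nat_lit 523235160312) (nat_lit 76) (nat_lit 123902167854) (nat_lit 76) (nat_lit 35898735280) (nat_lit 3) (nat_lit 4) (nat_lit 4) (nat_lit 5) (nat_lit 4) (nat_lit 4) (nat_lit 320) (nat_lit 261) (nat_lit 139)) (XT.lf (nat_lit 0) (nat_lit 609765487216) (nat_lit 76) (nat_lit 106936769859) (nat_lit 76) (nat_lit 18932792150) (nat_lit 3) (nat_lit 4) (nat_lit 4) (nat_lit 5) (nat_lit 4) (nat_lit 4) (nat_lit 321) (nat_lit 261) (nat_lit 138)))) (XT.nd (nat_lit 156) (nat_lit 76) (nat_lit 0) (XT.nd (nat_lit 78) (nat_lit 76) (nat_lit 0) (XT.lf (nat_lit 0) (nat_lit 703217707467) (nat_lit 76) (nat_lit 88614376620) (nat_lit 76) (nat_lit 609894157)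 (nat_lit 3) (nat_lit 4) (nat_lit 4) (nat_lit 5) (nat_lit 4) (nat_lit 4) (nat_lit 322) (nat_lit 261) (nat_lit 137)) (XT.lf (nat_lit 0) (nat_lit 18219150649) (nat_lit 152) (nat_lit 50109116478) (nat_lit 76) (nat_lit 785428317485) (nat_lit 2) (nat_lit 5) (nat_lit 4) (nat_lit 5) (nat_lit 3) (nat_lit 4) (nat_lit 323) (nat_lit 261) (nat_lit 136))) (XT.nd (nat_lit 78) (nat_lit 76) (nat_lit 0) (XT.lf (nat_lit 0) (nat_lit 38521307811) (nat_lit 152) (nat_lit 7881062325) (nat_lit 76) (nat_lit 873572743469) (nat_lit 2) (nat_lit 5) (nat_lit 4) (nat_lit 5) (nat_lit 3) (nat_lit 4) (nat_lit 324) (nat_lit 261) (nat_lit 135)) (XT.lf (nat_lit 0) (nat_lit 39711321082) (nat_lit 76) (nat_lit 21691132930) (nat_lit 152) (nat_lit 930012286089) (nat_lit 1) (nat_lit 5) (nat_lit 2) (nat_lit 5) (nat_lit 3) (nat_lit 4) (nat_lit 325) (nat_lit 261) (nat_lit 134))))))))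
noncomputable def xc88 : XT := (XT.nd (nat_lit 33774) (nat_lit 0) (nat_lit 380) (XT.nd (nat_lit 32838) (nat_lit 0) (nat_lit 1444) (XT.nd (nat_lit 468) (nat_lit 0) (nat_lit 0) (XT.nd (nat_lit 234) (nat_lit 0) (nat_lit 0) (XT.nd (nat_lit 78) (nat_lit 0) (nat_lit 0) (XT.lf (nat_lit 0) (nat_lit 86455110436) (nat_lit 152) (nat_lit 977119214711) (nat_lit 0) (nat_lit 4967930552) (nat_lit 1) (nat_lit 5) (nat_lit 3) (nat_lit 4) (nat_lit 1) (nat_lit 4) (nat_lit 326) (nat_lit 261) (nat_lit 133)) (XT.nd (nat_lit 78) (nat_lit 0) (nat_lit 0) (XT.lf (nat_lit 0) (nat_lit 114075164429) (nat_lit 152) (nat_lit 1005132087275) (nat_lit 0) (nat_lit 32587666464) (nat_lit 1) (nat_lit 5) (nat_lit 3) (nat_lit 4) (nat_lit 1) (nat_lit 4) (nat_lit 327) (nat_lit 261) (nat_lit 132)) (XT.lf (nat_lit 0) (nat_lit 143904618118) (nat_lit 152) (nat_lit 1035386366652) (nat_lit 0) (nat_lit 62416825634) (nat_lit 1) (nat_lit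 5) (nat_lit 3) (nat_lit 4) (nat_lit 1) (nat_lit 4) (nat_lit 328) (nat_lit 261) (nat_lit 131)))) (XT.nd (nat_lit 78) (nat_lit 0) (nat_lit 0) (XT.lf (nat_lit 0) (nat_lit 176120238635) (nat_lit 152) (nat_lit 1068061337459) (nat_lit 0) (nat_lit 94632173448) (nat_lit 1) (nat_lit 5) (nat_lit 3) (nat_lit 4) (nat_lit 1) (nat_lit 4) (nat_lit 329) (nat_lit 261) (nat_lit 130)) (XT.nd (nat_lit 78) (nat_lit 0) (nat_lit 0) (XT.lf (nat_lit 0) (nat_lit 210912933362) (nat_lit 152) (nat_lit 1103350629154) (nat_lit 0) (nat_lit 129424615672) (nat_lit 1) (nat_lit 5) (nat_lit 3) (nat_lit 4) (nat_lit 1) (nat_lit 4) (nat_lit 330) (nat_lit 261) (nat_lit 129)) (XT.lf (nat_lit 0) (nat_lit 248488881230) (nat_lit 152) (nat_lit 1141463363465) (nat_lit 0) (nat_lit 167000329741) (nat_lit 1) (nat_lit 5) (nat_lit 3) (nat_lit 4) (nat_lit 1) (nat_lit 4) (nat_lit 331) (nat_lit 261) (nat_lit 128))))) (XT.nd (nat_lit 32136)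 (nat_lit 0) (nat_lit 2356) (XT.nd (nat_lit 78) (nat_lit 0) (nat_lit 0) (XT.lf (nat_lit 0) (nat_lit 289070754523) (nat_lit 152) (nat_lit 1182625393632) (nat_lit 0) (nat_lit 207581986553) (nat_lit 1) (nat_lit 5) (nat_lit 3) (nat_lit 4) (nat_lit 1) (nat_lit 4) (nat_lit 332) (nat_lit 261) (nat_lit 127)) (XT.nd (nat_lit 31980) (nat_lit 0) (nat_lit 2356) (XT.lf (nat_lit 0) (nat_lit 332899038415) (nat_lit 152) (nat_lit 1227080642798) (nat_lit 0) (nat_lit 251410070000) (nat_lit 1) (nat_lit 5) (nat_lit 3) (nat_lit 4) (nat_lit 1) (nat_lit 4) (nat_lit 333) (nat_lit 261) (nat_lit 126)) (XT.lf (nat_lit 0) (nat_lit 2208909884) (nat_lit 532) (nat_lit 4505907680) (nat_lit 532) (nat_lit 4505907680) (nat_lit 32) (nat_lit 3) (nat_lit 39) (nat_lit 3) (nat_lit 39) (nat_lit 5) (nat_lit 262) (nat_lit 262) (nat_lit 196)))) (XT.nd (nat_lit 78) (nat_lit 0) (nat_lit 76) (XT.lf (nat_lit 76) (nat_lit 278497009)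 (nat_lit 0) (nat_lit 4437977152) (nat_lit 532) (nat_lit 18612134412) (nat_lit 33) (nat_lit 5) (nat_lit 32) (nat_lit 3) (nat_lit 39) (nat_lit 5) (nat_lit 263) (nat_lit 262) (nat_lit 195)) (XT.nd (nat_lit 78) (nat_lit 0) (nat_lit 0) (XT.lf (nat_lit 0) (nat_lit 5407070041) (nat_lit 456) (nat_lit 13583424506) (nat_lit 532) (nat_lit 5266875324) (nat_lit 33) (nat_lit 5) (nat_lit 39) (nat_lit 5) (nat_lit 40) (nat_lit 5) (nat_lit 264) (nat_lit 262) (nat_lit 194)) (XT.lf (nat_lit 0) (nat_lit 6257476516) (nat_lit 456) (nat_lit 3481827709) (nat_lit 532) (nat_lit 15512831791) (nat_lit 33) (nat_lit 5) (nat_lit 39) (nat_lit 5) (nat_lit 40) (nat_lit 5) (nat_lit 265) (nat_lit 262) (nat_lit 193)))))) (XT.nd (nat_lit 468) (nat_lit 684) (nat_lit 0) (XT.nd (nat_lit 234) (nat_lit 380) (nat_lit 0) (XT.nd (nat_lit 78) (nat_lit 0) (nat_lit 0) (XT.lf (nat_lit 0) (nat_lit 7364899277) (nat_lit 456) (nat_lit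 18511264812) (nat_lit 532) (nat_lit 435264531) (nat_lit 34) (nat_lit 5) (nat_lit 40) (nat_lit 5) (nat_lit 41) (nat_lit 5) (nat_lit 266) (nat_lit 262) (nat_lit 192)) (XT.nd (nat_lit 78) (nat_lit 0) (nat_lit 0) (XT.lf (nat_lit 0) (nat_lit 8902289466) (nat_lit 456) (nat_lit 7527891981) (nat_lit 532) (nat_lit 10998032436) (nat_lit 34) (nat_lit 5) (nat_lit 40) (nat_lit 5) (nat_lit 41) (nat_lit 5) (nat_lit 267) (nat_lit 262) (nat_lit 191)) (XT.lf (nat_lit 76) (nat_lit 4555234044) (nat_lit 0) (nat_lit 6108409402) (nat_lit 532) (nat_lit 17962675471) (nat_lit 35) (nat_lit 5) (nat_lit 34) (nat_lit 5) (nat_lit 41) (nat_lit 5) (nat_lit 268) (nat_lit 262) (nat_lit 190)))) (XT.nd (nat_lit 78) (nat_lit 456) (nat_lit 0) (XT.lf (nat_lit 0) (nat_lit 12890199753) (nat_lit 456) (nat_lit 12004565844) (nat_lit 76) (nat_lit 4999613937) (nat_lit 35) (nat_lit 5) (nat_lit 41) (nat_lit 5) (nat_lit 36) (nat_lit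 5) (nat_lit 269) (nat_lit 262) (nat_lit 189)) (XT.nd (nat_lit 78) (nat_lit 0) (nat_lit 0) (XT.lf (nat_lit 0) (nat_lit 907189641) (nat_lit 456) (nat_lit 14560697906) (nat_lit 532) (nat_lit 15782203840) (nat_lit 29) (nat_lit 5) (nat_lit 35) (nat_lit 5) (nat_lit 36) (nat_lit 5) (nat_lit 270) (nat_lit 262) (nat_lit 188)) (XT.lf (nat_lit 0) (nat_lit 15527961794) (nat_lit 456) (nat_lit 3044977592) (nat_lit 532) (nat_lit 14115672348) (nat_lit 29) (nat_lit 5) (nat_lit 35) (nat_lit 5) (nat_lit 36) (nat_lit 5) (nat_lit 271) (nat_lit 262) (nat_lit 187))))) (XT.nd (nat_lit 234) (nat_lit 456) (nat_lit 0) (XT.nd (nat_lit 78) (nat_lit 228) (nat_lit 0) (XT.lf (nat_lit 0) (nat_lit 22145730221) (nat_lit 532) (nat_lit 3156412821) (nat_lit 76) (nat_lit 8922564128) (nat_lit 29) (nat_lit 5) (nat_lit 36) (nat_lit 5) (nat_lit 30) (nat_lit 5) (nat_lit 272) (nat_lit 262) (nat_lit 186)) (XT.nd (nat_lit 78) (nat_lit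 0) (nat_lit 0) (XT.lf (nat_lit 0) (nat_lit 12508583505) (nat_lit 228) (nat_lit 13869624555) (nat_lit 304) (nat_lit 9475610348) (nat_lit 26) (nat_lit 5) (nat_lit 29) (nat_lit 5) (nat_lit 30) (nat_lit 5) (nat_lit 273) (nat_lit 262) (nat_lit 185)) (XT.lf (nat_lit 0) (nat_lit 29600225545) (nat_lit 228) (nat_lit 1429605154) (nat_lit 304) (nat_lit 6577018627) (nat_lit 26) (nat_lit 5) (nat_lit 29) (nat_lit 5) (nat_lit 30) (nat_lit 5) (nat_lit 274) (nat_lit 262) (nat_lit 184)))) (XT.nd (nat_lit 78) (nat_lit 304) (nat_lit 0) (XT.lf (nat_lit 0) (nat_lit 8699458640) (nat_lit 152) (nat_lit 27846746192) (nat_lit 228) (nat_lit 2914540100) (nat_lit 24) (nat_lit 5) (nat_lit 26) (nat_lit 5) (nat_lit 27) (nat_lit 5) (nat_lit 275) (nat_lit 262) (nat_lit 183)) (XT.nd (nat_lit 78) (nat_lit 228) (nat_lit 0) (XT.lf (nat_lit 0) (nat_lit 1245355947) (nat_lit 228) (nat_lit 14322135125) (nat_lit 76) (nat_lit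 25872966454) (nat_lit 23) (nat_lit 5) (nat_lit 26) (nat_lit 5) (nat_lit 24) (nat_lit 5) (nat_lit 276) (nat_lit 262) (nat_lit 182)) (XT.lf (nat_lit 0) (nat_lit 3527133267) (nat_lit 228) (nat_lit 2133422660) (nat_lit 304) (nat_lit 37905562529) (nat_lit 20) (nat_lit 5) (nat_lit 23) (nat_lit 5) (nat_lit 24) (nat_lit 5) (nat_lit 277) (nat_lit 262) (nat_lit 181))))))) (XT.nd (nat_lit 936) (nat_lit 456) (nat_lit 0) (XT.nd (nat_lit 468) (nat_lit 304) (nat_lit 0) (XT.nd (nat_lit 234) (nat_lit 152) (nat_lit 0) (XT.nd (nat_lit 78) (nat_lit 152) (nat_lit 0) (XT.lf (nat_lit 0) (nat_lit 11123710327) (nat_lit 304) (nat_lit 22525427101) (nat_lit 76) (nat_lit 12157139241) (nat_lit 20) (nat_lit 5) (nat_lit 24) (nat_lit 5) (nat_lit 21) (nat_lit 5) (nat_lit 278) (nat_lit 262) (nat_lit 180)) (XT.nd (nat_lit 78) (nat_lit 152) (nat_lit 0) (XT.lf (nat_lit 0) (nat_lit 17075022003) (nat_lit 304) (nat_lit 3671733758)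 (nat_lit 76) (nat_lit 27474825130) (nat_lit 20) (nat_lit 5) (nat_lit 24) (nat_lit 5) (nat_lit 21) (nat_lit 5) (nat_lit 279) (nat_lit 262) (nat_lit 179)) (XT.lf (nat_lit 0) (nat_lit 17563738635) (nat_lit 152) (nat_lit 6357118821) (nat_lit 228) (nat_lit 26875798621) (nat_lit 18) (nat_lit 5) (nat_lit 20) (nat_lit 5) (nat_lit 21) (nat_lit 5) (nat_lit 280) (nat_lit 262) (nat_lit 178)))) (XT.nd (nat_lit 78) (nat_lit 152) (nat_lit 0) (XT.lf (nat_lit 0) (nat_lit 31634384421) (nat_lit 228) (nat_lit 13091609228) (nat_lit 76) (nat_lit 8826160297) (nat_lit 18) (nat_lit 5) (nat_lit 21) (nat_lit 5) (nat_lit 19) (nat_lit 5) (nat_lit 281) (nat_lit 262) (nat_lit 177)) (XT.nd (nat_lit 78) (nat_lit 0) (nat_lit 0) (XT.lf (nat_lit 0) (nat_lit 8938104469) (nat_lit 152) (nat_lit 31403412751) (nat_lit 228) (nat_lit 16156469793) (nat_lit 16) (nat_lit 5) (nat_lit 18) (nat_lit 5) (nat_lit 19) (nat_lit 5) (nat_lit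 282) (nat_lit 262) (nat_lit 176)) (XT.lf (nat_lit 0) (nat_lit 33469951327) (nat_lit 152) (nat_lit 16629807897) (nat_lit 228) (nat_lit 9551380398) (nat_lit 16) (nat_lit 5) (nat_lit 18) (nat_lit 5) (nat_lit 19) (nat_lit 5) (nat_lit 283) (nat_lit 262) (nat_lit 175))))) (XT.nd (nat_lit 234) (nat_lit 152) (nat_lit 0) (XT.nd (nat_lit 78) (nat_lit 152) (nat_lit 0) (XT.lf (nat_lit 0) (nat_lit 59959924311) (nat_lit 152) (nat_lit 675579595) (nat_lit 228) (nat_lit 2421307867) (nat_lit 16) (nat_lit 5) (nat_lit 18) (nat_lit 5) (nat_lit 19) (nat_lit 5) (nat_lit 284) (nat_lit 262) (nat_lit 174)) (XT.nd (nat_lit 78) (nat_lit 0) (nat_lit 0) (XT.lf (nat_lit 0) (nat_lit 5977201058) (nat_lit 152) (nat_lit 44250999952) (nat_lit 76) (nat_lit 16419622953) (nat_lit 14) (nat_lit 5) (nat_lit 16) (nat_lit 5) (nat_lit 15) (nat_lit 5) (nat_lit 285) (nat_lit 262) (nat_lit 173)) (XT.lf (nat_lit 0) (nat_lit 15018279238)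 (nat_lit 152) (nat_lit 20500195734) (nat_lit 76) (nat_lit 34994502451) (nat_lit 14) (nat_lit 5) (nat_lit 16) (nat_lit 5) (nat_lit 15) (nat_lit 5) (nat_lit 286) (nat_lit 262) (nat_lit 172)))) (XT.nd (nat_lit 78) (nat_lit 0) (nat_lit 0) (XT.lf (nat_lit 0) (nat_lit 5417639024) (nat_lit 152) (nat_lit 19492596040) (nat_lit 228) (nat_lit 49766911662) (nat_lit 12) (nat_lit 5) (nat_lit 14) (nat_lit 5) (nat_lit 15) (nat_lit 5) (nat_lit 287) (nat_lit 262) (nat_lit 171)) (XT.nd (nat_lit 78) (nat_lit 0) (nat_lit 0) (XT.lf (nat_lit 0) (nat_lit 34570821251) (nat_lit 152) (nat_lit 1580640207) (nat_lit 228) (nat_lit 42978365060) (nat_lit 12) (nat_lit 5) (nat_lit 14) (nat_lit 5) (nat_lit 15) (nat_lit 5) (nat_lit 288) (nat_lit 262) (nat_lit 170)) (XT.lf (nat_lit 0) (nat_lit 48716781994) (nat_lit 228) (nat_lit 18313517065) (nat_lit 76) (nat_lit 16874447278) (nat_lit 12) (nat_lit 5) (nat_lit 15) (nat_lit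 5) (nat_lit 13) (nat_lit 4) (nat_lit 289) (nat_lit 262) (nat_lit 169)))))) (XT.nd (nat_lit 468) (nat_lit 152) (nat_lit 0) (XT.nd (nat_lit 234) (nat_lit 228) (nat_lit 0) (XT.nd (nat_lit 78) (nat_lit 0) (nat_lit 0) (XT.lf (nat_lit 0) (nat_lit 10512913039) (nat_lit 76) (nat_lit 52066051772) (nat_lit 152) (nat_lit 26459372633) (nat_lit 11) (nat_lit 5) (nat_lit 12) (nat_lit 5) (nat_lit 13) (nat_lit 4) (nat_lit 290) (nat_lit 262) (nat_lit 168)) (XT.nd (nat_lit 78) (nat_lit 0) (nat_lit 0) (XT.lf (nat_lit 0) (nat_lit 42683513065) (nat_lit 76) (nat_lit 35365162477) (nat_lit 152) (nat_lit 16494064031) (nat_lit 11) (nat_lit 5) (nat_lit 12) (nat_lit 5) (nat_lit 13) (nat_lit 4) (nat_lit 291) (nat_lit 262) (nat_lit 167)) (XT.lf (nat_lit 0) (nat_lit 77424566251) (nat_lit 76) (nat_lit 17329386951) (nat_lit 152) (nat_lit 5733708869) (nat_lit 11) (nat_lit 5) (nat_lit 12) (nat_lit 5) (nat_lit 13) (nat_lit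 4) (nat_lit 292) (nat_lit 262) (nat_lit 166)))) (XT.nd (nat_lit 78) (nat_lit 0) (nat_lit 0) (XT.lf (nat_lit 0) (nat_lit 5851371853) (nat_lit 228) (nat_lit 98633907577) (nat_lit 76) (nat_lit 2390904774) (nat_lit 8) (nat_lit 5) (nat_lit 11) (nat_lit 5) (nat_lit 9) (nat_lit 4) (nat_lit 293) (nat_lit 262) (nat_lit 165)) (XT.nd (nat_lit 78) (nat_lit 0) (nat_lit 0) (XT.lf (nat_lit 0) (nat_lit 19148695239) (nat_lit 228) (nat_lit 70980177870) (nat_lit 76) (nat_lit 23547390242) (nat_lit 8) (nat_lit 5) (nat_lit 11) (nat_lit 5) (nat_lit 9) (nat_lit 4) (nat_lit 294) (nat_lit 262) (nat_lit 164)) (XT.lf (nat_lit 0) (nat_lit 33508069959) (nat_lit 228) (nat_lit 41117033024) (nat_lit 76) (nat_lit 46395390052) (nat_lit 8) (nat_lit 5) (nat_lit 11) (nat_lit 5) (nat_lit 9) (nat_lit 4) (nat_lit 295) (nat_lit 262) (nat_lit 163))))) (XT.nd (nat_lit 234) (nat_lit 76) (nat_lit 0) (XT.nd (nat_lit 78) (nat_lit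 76) (nat_lit 0) (XT.lf (nat_lit 0) (nat_lit 49014588604) (nat_lit 228) (nat_lit 8867506253) (nat_lit 76) (nat_lit 71070299760) (nat_lit 8) (nat_lit 5) (nat_lit 11) (nat_lit 5) (nat_lit 9) (nat_lit 4) (nat_lit 296) (nat_lit 262) (nat_lit 162)) (XT.nd (nat_lit 78) (nat_lit 0) (nat_lit 0) (XT.lf (nat_lit 0) (nat_lit 27326492579) (nat_lit 76) (nat_lit 39090851878) (nat_lit 152) (nat_lit 71049051275) (nat_lit 7) (nat_lit 5) (nat_lit 8) (nat_lit 5) (nat_lit 9) (nat_lit 4) (nat_lit 297) (nat_lit 262) (nat_lit 161)) (XT.lf (nat_lit 0) (nat_lit 66917904925) (nat_lit 76) (nat_lit 18535434313) (nat_lit 152) (nat_lit 61188900542) (nat_lit 7) (nat_lit 5) (nat_lit 8) (nat_lit 5) (nat_lit 9) (nat_lit 4) (nat_lit 298) (nat_lit 262) (nat_lit 160)))) (XT.nd (nat_lit 78) (nat_lit 76) (nat_lit 0) (XT.lf (nat_lit 0) (nat_lit 106098992623) (nat_lit 152) (nat_lit 46965969852) (nat_lit 0) (nat_lit 3480250556)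 (nat_lit 7) (nat_lit 5) (nat_lit 9) (nat_lit 4) (nat_lit 7) (nat_lit 4) (nat_lit 299) (nat_lit 262) (nat_lit 159)) (XT.nd (nat_lit 78) (nat_lit 76) (nat_lit 0) (XT.lf (nat_lit 0) (nat_lit 128876487862) (nat_lit 152) (nat_lit 12070523138) (nat_lit 0) (nat_lit 26255001677) (nat_lit 7) (nat_lit 5) (nat_lit 9) (nat_lit 4) (nat_lit 7) (nat_lit 4) (nat_lit 300) (nat_lit 262) (nat_lit 158)) (XT.lf (nat_lit 0) (nat_lit 26963388661) (nat_lit 76) (nat_lit 127160106550) (nat_lit 76) (nat_lit 24536079514) (nat_lit 6) (nat_lit 4) (nat_lit 7) (nat_lit 5) (nat_lit 7) (nat_lit 4) (nat_lit 301) (nat_lit 262) (nat_lit 157))))))))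
noncomputable def xc89 : XT := (XT.nd (nat_lit 1872) (nat_lit 76) (nat_lit 0) (XT.nd (nat_lit 936) (nat_lit 76) (nat_lit 0) (XT.nd (nat_lit 468) (nat_lit 76) (nat_lit 0) (XT.nd (nat_lit 234) (nat_lit 76) (nat_lit 0) (XT.nd (nat_lit 78) (nat_lit 76) (nat_lit 0) (XT.lf (nat_lit 0) (nat_lit 69804536541) (nat_lit 76) (nat_lit 111914637585) (nat_lit 76) (nat_lit 9288257910) (nat_lit 6) (nat_lit 4) (nat_lit 7) (nat_lit 5) (nat_lit 7) (nat_lit 4) (nat_lit 302) (nat_lit 262) (nat_lit 156)) (XT.nd (nat_lit 78) (nat_lit 0) (nat_lit 0) (XT.lf (nat_lit 0) (nat_lit 6819181930) (nat_lit 152) (nat_lit 88444659629) (nat_lit 76) (nat_lit 109065551162) (nat_lit 5) (nat_lit 5) (nat_lit 7) (nat_lit 5) (nat_lit 6) (nat_lit 4) (nat_lit 303) (nat_lit 262) (nat_lit 155)) (XT.lf (nat_lit 0) (nat_lit 23712423336) (nat_lit 152) (nat_lit 53308734513) (nat_lit 76) (nat_lit 141676733572) (nat_lit 5) (nat_lit 5)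 (nat_lit 7) (nat_lit 5) (nat_lit 6) (nat_lit 4) (nat_lit 304) (nat_lit 262) (nat_lit 154)))) (XT.nd (nat_lit 78) (nat_lit 76) (nat_lit 0) (XT.lf (nat_lit 0) (nat_lit 41956210683) (nat_lit 152) (nat_lit 15363524434) (nat_lit 76) (nat_lit 176896210305) (nat_lit 5) (nat_lit 5) (nat_lit 7) (nat_lit 5) (nat_lit 6) (nat_lit 4) (nat_lit 305) (nat_lit 262) (nat_lit 153)) (XT.nd (nat_lit 78) (nat_lit 0) (nat_lit 0) (XT.lf (nat_lit 0) (nat_lit 26964715386) (nat_lit 76) (nat_lit 35342441970) (nat_lit 152) (nat_lit 188616476039) (nat_lit 4) (nat_lit 5) (nat_lit 5) (nat_lit 5) (nat_lit 6) (nat_lit 4) (nat_lit 306) (nat_lit 262) (nat_lit 152)) (XT.lf (nat_lit 0) (nat_lit 73551517551) (nat_lit 76) (nat_lit 11153910637) (nat_lit 152) (nat_lit 184228970345) (nat_lit 4) (nat_lit 5) (nat_lit 5) (nat_lit 5) (nat_lit 6) (nat_lit 4) (nat_lit 307) (nat_lit 262) (nat_lit 151))))) (XT.nd (nat_lit 234) (nat_lit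 76) (nat_lit 0) (XT.nd (nat_lit 78) (nat_lit 0) (nat_lit 0) (XT.lf (nat_lit 0) (nat_lit 109254811681) (nat_lit 152) (nat_lit 164882159259) (nat_lit 0) (nat_lit 14220315715) (nat_lit 4) (nat_lit 5) (nat_lit 6) (nat_lit 4) (nat_lit 4) (nat_lit 4) (nat_lit 308) (nat_lit 262) (nat_lit 150)) (XT.nd (nat_lit 78) (nat_lit 0) (nat_lit 0) (XT.lf (nat_lit 0) (nat_lit 136057144181) (nat_lit 152) (nat_lit 132232366339) (nat_lit 0) (nat_lit 41021377157) (nat_lit 4) (nat_lit 5) (nat_lit 6) (nat_lit 4) (nat_lit 4) (nat_lit 4) (nat_lit 309) (nat_lit 262) (nat_lit 149)) (XT.lf (nat_lit 0) (nat_lit 165003002505) (nat_lit 152) (nat_lit 96971770149) (nat_lit 0) (nat_lit 69966058576) (nat_lit 4) (nat_lit 5) (nat_lit 6) (nat_lit 4) (nat_lit 4) (nat_lit 4) (nat_lit 310) (nat_lit 262) (nat_lit 148)))) (XT.nd (nat_lit 78) (nat_lit 76) (nat_lit 0) (XT.lf (nat_lit 0) (nat_lit 196263917667) (nat_lit 152) (nat_lit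 58891419008) (nat_lit 0) (nat_lit 101225884010) (nat_lit 4) (nat_lit 5) (nat_lit 6) (nat_lit 4) (nat_lit 4) (nat_lit 4) (nat_lit 311) (nat_lit 262) (nat_lit 147)) (XT.nd (nat_lit 78) (nat_lit 76) (nat_lit 0) (XT.lf (nat_lit 0) (nat_lit 230025139533) (nat_lit 152) (nat_lit 17765651576) (nat_lit 0) (nat_lit 134986096870) (nat_lit 4) (nat_lit 5) (nat_lit 6) (nat_lit 4) (nat_lit 4) (nat_lit 4) (nat_lit 312) (nat_lit 262) (nat_lit 146)) (XT.lf (nat_lit 0) (nat_lit 28052542170) (nat_lit 76) (nat_lit 239108856747) (nat_lit 76) (nat_lit 144068879819) (nat_lit 3) (nat_lit 4) (nat_lit 4) (nat_lit 5) (nat_lit 4) (nat_lit 4) (nat_lit 313) (nat_lit 262) (nat_lit 145)))))) (XT.nd (nat_lit 468) (nat_lit 76) (nat_lit 0) (XT.nd (nat_lit 234) (nat_lit 0) (nat_lit 0) (XT.nd (nat_lit 78) (nat_lit 0) (nat_lit 0) (XT.lf (nat_lit 0) (nat_lit 78545626629) (nat_lit 76) (nat_lit 229208169170) (nat_lit 76) (nat_lit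 134167327181) (nat_lit 3) (nat_lit 4) (nat_lit 4) (nat_lit 5) (nat_lit 4) (nat_lit 4) (nat_lit 314) (nat_lit 262) (nat_lit 144)) (XT.nd (nat_lit 78) (nat_lit 0) (nat_lit 0) (XT.lf (nat_lit 0) (nat_lit 133077312350) (nat_lit 76) (nat_lit 218515802035) (nat_lit 76) (nat_lit 123474159064) (nat_lit 3) (nat_lit 4) (nat_lit 4) (nat_lit 5) (nat_lit 4) (nat_lit 4) (nat_lit 315) (nat_lit 262) (nat_lit 143)) (XT.lf (nat_lit 0) (nat_lit 191970750064) (nat_lit 76) (nat_lit 206968393167) (nat_lit 76) (nat_lit 111926008545) (nat_lit 3) (nat_lit 4) (nat_lit 4) (nat_lit 5) (nat_lit 4) (nat_lit 4) (nat_lit 316) (nat_lit 262) (nat_lit 142)))) (XT.nd (nat_lit 78) (nat_lit 0) (nat_lit 0) (XT.lf (nat_lit 0) (nat_lit 255574937919) (nat_lit 76) (nat_lit 194497513474) (nat_lit 76) (nat_lit 99454442140) (nat_lit 3) (nat_lit 4) (nat_lit 4) (nat_lit 5) (nat_lit 4) (nat_lit 4) (nat_lit 317) (nat_lit 262) (nat_lit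 141)) (XT.nd (nat_lit 78) (nat_lit 0) (nat_lit 0) (XT.lf (nat_lit 0) (nat_lit 324266789622) (nat_lit 76) (nat_lit 181029261450) (nat_lit 76) (nat_lit 85985554270) (nat_lit 3) (nat_lit 4) (nat_lit 4) (nat_lit 5) (nat_lit 4) (nat_lit 4) (nat_lit 318) (nat_lit 262) (nat_lit 140)) (XT.lf (nat_lit 0) (nat_lit 398453367997) (nat_lit 76) (nat_lit 166483825229) (nat_lit 76) (nat_lit 71439529303) (nat_lit 3) (nat_lit 4) (nat_lit 4) (nat_lit 5) (nat_lit 4) (nat_lit 4) (nat_lit 319) (nat_lit 262) (nat_lit 139))))) (XT.nd (nat_lit 234) (nat_lit 76) (nat_lit 0) (XT.nd (nat_lit 78) (nat_lit 0) (nat_lit 0) (XT.lf (nat_lit 0) (nat_lit 478574297212) (nat_lit 76) (nat_lit 150775009633) (nat_lit 76) (nat_lit 55730168573) (nat_lit 3) (nat_lit 4) (nat_lit 4) (nat_lit 5) (nat_lit 4) (nat_lit 4) (nat_lit 320) (nat_lit 262) (nat_lit 138)) (XT.nd (nat_lit 78) (nat_lit 0) (nat_lit 0) (XT.lf (nat_lit 0) (nat_lit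 565104367960) (nat_lit 76) (nat_lit 133809725386) (nat_lit 76) (nat_lit 38764379571) (nat_lit 3) (nat_lit 4) (nat_lit 4) (nat_lit 5) (nat_lit 4) (nat_lit 4) (nat_lit 321) (nat_lit 262) (nat_lit 137)) (XT.lf (nat_lit 0) (nat_lit 658556351029) (nat_lit 76) (nat_lit 115487437470) (nat_lit 76) (nat_lit 20441624290) (nat_lit 3) (nat_lit 4) (nat_lit 4) (nat_lit 5) (nat_lit 4) (nat_lit 4) (nat_lit 322) (nat_lit 262) (nat_lit 136)))) (XT.nd (nat_lit 78) (nat_lit 76) (nat_lit 0) (XT.lf (nat_lit 0) (nat_lit 759484035950) (nat_lit 76) (nat_lit 95699569363) (nat_lit 76) (nat_lit 653323437) (nat_lit 3) (nat_lit 4) (nat_lit 4) (nat_lit 5) (nat_lit 4) (nat_lit 4) (nat_lit 323) (nat_lit 262) (nat_lit 135)) (XT.nd (nat_lit 78) (nat_lit 0) (nat_lit 0) (XT.lf (nat_lit 0) (nat_lit 19681399377) (nat_lit 152) (nat_lit 54109335910) (nat_lit 76) (nat_lit 848265988991) (nat_lit 2) (nat_lit 5) (nat_lit 4) (nat_lit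 5) (nat_lit 3) (nat_lit 4) (nat_lit 324) (nat_lit 262) (nat_lit 134)) (XT.lf (nat_lit 0) (nat_lit 41607379729) (nat_lit 152) (nat_lit 8503667787) (nat_lit 76) (nat_lit 943461716748) (nat_lit 2) (nat_lit 5) (nat_lit 4) (nat_lit 5) (nat_lit 3) (nat_lit 4) (nat_lit 325) (nat_lit 262) (nat_lit 133))))))) (XT.nd (nat_lit 32916) (nat_lit 0) (nat_lit 1444) (XT.nd (nat_lit 468) (nat_lit 0) (nat_lit 0) (XT.nd (nat_lit 234) (nat_lit 0) (nat_lit 0) (XT.nd (nat_lit 78) (nat_lit 0) (nat_lit 0) (XT.lf (nat_lit 0) (nat_lit 42895906811) (nat_lit 76) (nat_lit 23422972017) (nat_lit 152) (nat_lit 1004408693827) (nat_lit 1) (nat_lit 5) (nat_lit 2) (nat_lit 5) (nat_lit 3) (nat_lit 4) (nat_lit 326) (nat_lit 262) (nat_lit 132)) (XT.nd (nat_lit 78) (nat_lit 0) (nat_lit 0) (XT.lf (nat_lit 0) (nat_lit 93375511405) (nat_lit 152) (nat_lit 1055281396622) (nat_lit 0) (nat_lit 5368401003) (nat_lit 1) (nat_lit 5)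 (nat_lit 3) (nat_lit 4) (nat_lit 1) (nat_lit 4) (nat_lit 327) (nat_lit 262) (nat_lit 131)) (XT.lf (nat_lit 0) (nat_lit 123204874004) (nat_lit 152) (nat_lit 1085535843826) (nat_lit 0) (nat_lit 35197490899) (nat_lit 1) (nat_lit 5) (nat_lit 3) (nat_lit 4) (nat_lit 1) (nat_lit 4) (nat_lit 328) (nat_lit 262) (nat_lit 130)))) (XT.nd (nat_lit 78) (nat_lit 0) (nat_lit 0) (XT.lf (nat_lit 0) (nat_lit 155420410179) (nat_lit 152) (nat_lit 1118210970029) (nat_lit 0) (nat_lit 67412774571) (nat_lit 1) (nat_lit 5) (nat_lit 3) (nat_lit 4) (nat_lit 1) (nat_lit 4) (nat_lit 329) (nat_lit 262) (nat_lit 129)) (XT.nd (nat_lit 78) (nat_lit 0) (nat_lit 0) (XT.lf (nat_lit 0) (nat_lit 190213026811) (nat_lit 152) (nat_lit 1153500405608) (nat_lit 0) (nat_lit 102205157404) (nat_lit 1) (nat_lit 5) (nat_lit 3) (nat_lit 4) (nat_lit 1) (nat_lit 4) (nat_lit 330) (nat_lit 262) (nat_lit 128)) (XT.lf (nat_lit 0) (nat_lit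 227788902369) (nat_lit 152) (nat_lit 1191613273146) (nat_lit 0) (nat_lit 139780816481) (nat_lit 1) (nat_lit 5) (nat_lit 3) (nat_lit 4) (nat_lit 1) (nat_lit 4) (nat_lit 331) (nat_lit 262) (nat_lit 127))))) (XT.nd (nat_lit 32214) (nat_lit 0) (nat_lit 2356) (XT.nd (nat_lit 78) (nat_lit 0) (nat_lit 0) (XT.lf (nat_lit 0) (nat_lit 268370708708) (nat_lit 152) (nat_lit 1232775426672) (nat_lit 0) (nat_lit 180362422375) (nat_lit 1) (nat_lit 5) (nat_lit 3) (nat_lit 4) (nat_lit 1) (nat_lit 4) (nat_lit 332) (nat_lit 262) (nat_lit 126)) (XT.nd (nat_lit 32058) (nat_lit 0) (nat_lit 2356) (XT.lf (nat_lit 0) (nat_lit 312198930606) (nat_lit 152) (nat_lit 1277230790058) (nat_lit 0) (nat_lit 224190458676) (nat_lit 1) (nat_lit 5) (nat_lit 3) (nat_lit 4) (nat_lit 1) (nat_lit 4) (nat_lit 333) (nat_lit 262) (nat_lit 125)) (XT.lf (nat_lit 0) (nat_lit 2498094803) (nat_lit 532) (nat_lit 4805281996) (nat_lit 532)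 (nat_lit 4805281996) (nat_lit 32) (nat_lit 3) (nat_lit 39) (nat_lit 3) (nat_lit 39) (nat_lit 5) (nat_lit 263) (nat_lit 263) (nat_lit 194)))) (XT.nd (nat_lit 78) (nat_lit 0) (nat_lit 76) (XT.lf (nat_lit 76) (nat_lit 419879783) (nat_lit 0) (nat_lit 4885058462) (nat_lit 532) (nat_lit 19871721585) (nat_lit 33) (nat_lit 5) (nat_lit 32) (nat_lit 3) (nat_lit 39) (nat_lit 5) (nat_lit 264) (nat_lit 263) (nat_lit 193)) (XT.nd (nat_lit 78) (nat_lit 0) (nat_lit 0) (XT.lf (nat_lit 0) (nat_lit 6033091672) (nat_lit 456) (nat_lit 14540881724) (nat_lit 532) (nat_lit 5607263529) (nat_lit 33) (nat_lit 5) (nat_lit 39) (nat_lit 5) (nat_lit 40) (nat_lit 5) (nat_lit 265) (nat_lit 263) (nat_lit 192)) (XT.lf (nat_lit 0) (nat_lit 6937200589) (nat_lit 456) (nat_lit 3640728794) (nat_lit 532) (nat_lit 16678893685) (nat_lit 33) (nat_lit 5) (nat_lit 39) (nat_lit 5) (nat_lit 40) (nat_lit 5) (nat_lit 266) (nat_lit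 263) (nat_lit 191)))))) (XT.nd (nat_lit 468) (nat_lit 684) (nat_lit 0) (XT.nd (nat_lit 234) (nat_lit 380) (nat_lit 0) (XT.nd (nat_lit 78) (nat_lit 0) (nat_lit 0) (XT.lf (nat_lit 0) (nat_lit 8121501499) (nat_lit 456) (nat_lit 19859736903) (nat_lit 532) (nat_lit 420643396) (nat_lit 34) (nat_lit 5) (nat_lit 40) (nat_lit 5) (nat_lit 41) (nat_lit 5) (nat_lit 267) (nat_lit 263) (nat_lit 190)) (XT.nd (nat_lit 78) (nat_lit 0) (nat_lit 0) (XT.lf (nat_lit 0) (nat_lit 9769482141) (nat_lit 456) (nat_lit 8007503808) (nat_lit 532) (nat_lit 11832095126) (nat_lit 34) (nat_lit 5) (nat_lit 40) (nat_lit 5) (nat_lit 41) (nat_lit 5) (nat_lit 268) (nat_lit 263) (nat_lit 189)) (XT.lf (nat_lit 76) (nat_lit 5039168007) (nat_lit 0) (nat_lit 6623968591) (nat_lit 532) (nat_lit 19240659812) (nat_lit 35) (nat_lit 5) (nat_lit 34) (nat_lit 5) (nat_lit 41) (nat_lit 5) (nat_lit 269) (nat_lit 263) (nat_lit 188)))) (XT.nd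 (nat_lit 78) (nat_lit 456) (nat_lit 0) (XT.lf (nat_lit 0) (nat_lit 14056374119) (nat_lit 456) (nat_lit 12841977519) (nat_lit 76) (nat_lit 5375933544) (nat_lit 35) (nat_lit 5) (nat_lit 41) (nat_lit 5) (nat_lit 36) (nat_lit 5) (nat_lit 270) (nat_lit 263) (nat_lit 187)) (XT.nd (nat_lit 78) (nat_lit 0) (nat_lit 0) (XT.lf (nat_lit 0) (nat_lit 1099605655) (nat_lit 456) (nat_lit 15733556538) (nat_lit 532) (nat_lit 16905923787) (nat_lit 29) (nat_lit 5) (nat_lit 35) (nat_lit 5) (nat_lit 36) (nat_lit 5) (nat_lit 271) (nat_lit 263) (nat_lit 186)) (XT.lf (nat_lit 0) (nat_lit 16881162482) (nat_lit 456) (nat_lit 3295985800) (nat_lit 532) (nat_lit 15116355431) (nat_lit 29) (nat_lit 5) (nat_lit 35) (nat_lit 5) (nat_lit 36) (nat_lit 5) (nat_lit 272) (nat_lit 263) (nat_lit 185))))) (XT.nd (nat_lit 234) (nat_lit 456) (nat_lit 0) (XT.nd (nat_lit 78) (nat_lit 228) (nat_lit 0) (XT.lf (nat_lit 0) (nat_lit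 24026828947) (nat_lit 532) (nat_lit 3296575000) (nat_lit 76) (nat_lit 9629851367) (nat_lit 29) (nat_lit 5) (nat_lit 36) (nat_lit 5) (nat_lit 30) (nat_lit 5) (nat_lit 273) (nat_lit 263) (nat_lit 184)) (XT.nd (nat_lit 78) (nat_lit 0) (nat_lit 0) (XT.lf (nat_lit 0) (nat_lit 13618776707) (nat_lit 228) (nat_lit 14973655252) (nat_lit 304) (nat_lit 10120751205) (nat_lit 26) (nat_lit 5) (nat_lit 29) (nat_lit 5) (nat_lit 30) (nat_lit 5) (nat_lit 274) (nat_lit 263) (nat_lit 183)) (XT.lf (nat_lit 0) (nat_lit 32069638516) (nat_lit 228) (nat_lit 1538844614) (nat_lit 304) (nat_lit 6998635699) (nat_lit 26) (nat_lit 5) (nat_lit 29) (nat_lit 5) (nat_lit 30) (nat_lit 5) (nat_lit 275) (nat_lit 263) (nat_lit 182)))) (XT.nd (nat_lit 156) (nat_lit 228) (nat_lit 0) (XT.nd (nat_lit 78) (nat_lit 76) (nat_lit 0) (XT.lf (nat_lit 0) (nat_lit 9502191931) (nat_lit 152) (nat_lit 30059526644) (nat_lit 228) (nat_lit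 3048006152) (nat_lit 24) (nat_lit 5) (nat_lit 26) (nat_lit 5) (nat_lit 27) (nat_lit 5) (nat_lit 276) (nat_lit 263) (nat_lit 181)) (XT.lf (nat_lit 0) (nat_lit 1432678775) (nat_lit 228) (nat_lit 15363962713) (nat_lit 76) (nat_lit 27951578921) (nat_lit 23) (nat_lit 5) (nat_lit 26) (nat_lit 5) (nat_lit 24) (nat_lit 5) (nat_lit 277) (nat_lit 263) (nat_lit 180))) (XT.nd (nat_lit 78) (nat_lit 0) (nat_lit 0) (XT.lf (nat_lit 0) (nat_lit 3910615677) (nat_lit 228) (nat_lit 2286419749) (nat_lit 304) (nat_lit 40847257472) (nat_lit 20) (nat_lit 5) (nat_lit 23) (nat_lit 5) (nat_lit 24) (nat_lit 5) (nat_lit 278) (nat_lit 263) (nat_lit 179)) (XT.lf (nat_lit 0) (nat_lit 12091440626) (nat_lit 304) (nat_lit 24227459734) (nat_lit 76) (nat_lit 13145258956) (nat_lit 20) (nat_lit 5) (nat_lit 24) (nat_lit 5) (nat_lit 21) (nat_lit 5) (nat_lit 279) (nat_lit 263) (nat_lit 178))))))))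
noncomputable def xc90 : XT := (XT.nd (nat_lit 1872) (nat_lit 380) (nat_lit 0) (XT.nd (nat_lit 936) (nat_lit 380) (nat_lit 0) (XT.nd (nat_lit 468) (nat_lit 380) (nat_lit 0) (XT.nd (nat_lit 234) (nat_lit 152) (nat_lit 0) (XT.nd (nat_lit 78) (nat_lit 152) (nat_lit 0) (XT.lf (nat_lit 0) (nat_lit 18513091793) (nat_lit 304) (nat_lit 3872878445) (nat_lit 76) (nat_lit 29687207970) (nat_lit 20) (nat_lit 5) (nat_lit 24) (nat_lit 5) (nat_lit 21) (nat_lit 5) (nat_lit 280) (nat_lit 263) (nat_lit 177)) (XT.nd (nat_lit 78) (nat_lit 0) (nat_lit 0) (XT.lf (nat_lit 0) (nat_lit 19059087587) (nat_lit 152) (nat_lit 6844338634) (nat_lit 228) (nat_lit 28951113559) (nat_lit 18) (nat_lit 5) (nat_lit 20) (nat_lit 5) (nat_lit 21) (nat_lit 5) (nat_lit 281) (nat_lit 263) (nat_lit 176)) (XT.lf (nat_lit 0) (nat_lit 34229407053) (nat_lit 228) (nat_lit 14050433167) (nat_lit 76) (nat_lit 9551032468) (nat_lit 18) (nat_lit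 5) (nat_lit 21) (nat_lit 5) (nat_lit 19) (nat_lit 5) (nat_lit 282) (nat_lit 263) (nat_lit 175)))) (XT.nd (nat_lit 78) (nat_lit 0) (nat_lit 0) (XT.lf (nat_lit 0) (nat_lit 9739416999) (nat_lit 152) (nat_lit 33891007253) (nat_lit 228) (nat_lit 17382186144) (nat_lit 16) (nat_lit 5) (nat_lit 18) (nat_lit 5) (nat_lit 19) (nat_lit 5) (nat_lit 283) (nat_lit 263) (nat_lit 174)) (XT.nd (nat_lit 78) (nat_lit 0) (nat_lit 0) (XT.lf (nat_lit 0) (nat_lit 36227421667) (nat_lit 152) (nat_lit 17937342049) (nat_lit 228) (nat_lit 10253637836) (nat_lit 16) (nat_lit 5) (nat_lit 18) (nat_lit 5) (nat_lit 19) (nat_lit 5) (nat_lit 284) (nat_lit 263) (nat_lit 173)) (XT.lf (nat_lit 0) (nat_lit 64830675879) (nat_lit 152) (nat_lit 708468112) (nat_lit 228) (nat_lit 2557741206) (nat_lit 16) (nat_lit 5) (nat_lit 18) (nat_lit 5) (nat_lit 19) (nat_lit 5) (nat_lit 285) (nat_lit 263) (nat_lit 172))))) (XT.nd (nat_lit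 234) (nat_lit 76) (nat_lit 0) (XT.nd (nat_lit 78) (nat_lit 152) (nat_lit 0) (XT.lf (nat_lit 0) (nat_lit 6508110768) (nat_lit 152) (nat_lit 47712143238) (nat_lit 76) (nat_lit 17754964962) (nat_lit 14) (nat_lit 5) (nat_lit 16) (nat_lit 5) (nat_lit 15) (nat_lit 5) (nat_lit 286) (nat_lit 263) (nat_lit 171)) (XT.nd (nat_lit 78) (nat_lit 152) (nat_lit 0) (XT.lf (nat_lit 0) (nat_lit 16268569008) (nat_lit 152) (nat_lit 22067121847) (nat_lit 76) (nat_lit 37814222066) (nat_lit 14) (nat_lit 5) (nat_lit 16) (nat_lit 5) (nat_lit 15) (nat_lit 5) (nat_lit 287) (nat_lit 263) (nat_lit 170)) (XT.lf (nat_lit 0) (nat_lit 5922289324) (nat_lit 152) (nat_lit 21027688434) (nat_lit 228) (nat_lit 53697404849) (nat_lit 12) (nat_lit 5) (nat_lit 14) (nat_lit 5) (nat_lit 15) (nat_lit 5) (nat_lit 288) (nat_lit 263) (nat_lit 169)))) (XT.nd (nat_lit 78) (nat_lit 76) (nat_lit 0) (XT.lf (nat_lit 0) (nat_lit 37402449153)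 (nat_lit 152) (nat_lit 1684577267) (nat_lit 228) (nat_lit 46369541908) (nat_lit 12) (nat_lit 5) (nat_lit 14) (nat_lit 5) (nat_lit 15) (nat_lit 5) (nat_lit 289) (nat_lit 263) (nat_lit 168)) (XT.nd (nat_lit 78) (nat_lit 76) (nat_lit 0) (XT.lf (nat_lit 0) (nat_lit 52654855581) (nat_lit 228) (nat_lit 19714649312) (nat_lit 76) (nat_lit 18244206679) (nat_lit 12) (nat_lit 5) (nat_lit 15) (nat_lit 5) (nat_lit 13) (nat_lit 4) (nat_lit 290) (nat_lit 263) (nat_lit 167)) (XT.lf (nat_lit 0) (nat_lit 11416276236) (nat_lit 76) (nat_lit 56208218717) (nat_lit 152) (nat_lit 28533628015) (nat_lit 11) (nat_lit 5) (nat_lit 12) (nat_lit 5) (nat_lit 13) (nat_lit 4) (nat_lit 291) (nat_lit 263) (nat_lit 166)))))) (XT.nd (nat_lit 468) (nat_lit 152) (nat_lit 0) (XT.nd (nat_lit 234) (nat_lit 0) (nat_lit 0) (XT.nd (nat_lit 78) (nat_lit 228) (nat_lit 0) (XT.lf (nat_lit 0) (nat_lit 46155907216) (nat_lit 76) (nat_lit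 38172970663) (nat_lit 152) (nat_lit 17774242461) (nat_lit 11) (nat_lit 5) (nat_lit 12) (nat_lit 5) (nat_lit 13) (nat_lit 4) (nat_lit 292) (nat_lit 263) (nat_lit 165)) (XT.nd (nat_lit 78) (nat_lit 228) (nat_lit 0) (XT.lf (nat_lit 0) (nat_lit 83671969611) (nat_lit 76) (nat_lit 18695918637) (nat_lit 152) (nat_lit 6155973456) (nat_lit 11) (nat_lit 5) (nat_lit 12) (nat_lit 5) (nat_lit 13) (nat_lit 4) (nat_lit 293) (nat_lit 263) (nat_lit 164)) (XT.lf (nat_lit 0) (nat_lit 6353321758) (nat_lit 228) (nat_lit 106468369337) (nat_lit 76) (nat_lit 2601774469) (nat_lit 8) (nat_lit 5) (nat_lit 11) (nat_lit 5) (nat_lit 9) (nat_lit 4) (nat_lit 294) (nat_lit 263) (nat_lit 163)))) (XT.nd (nat_lit 78) (nat_lit 0) (nat_lit 0) (XT.lf (nat_lit 0) (nat_lit 20711924337) (nat_lit 228) (nat_lit 76606507982) (nat_lit 76) (nat_lit 25449327122) (nat_lit 8) (nat_lit 5) (nat_lit 11) (nat_lit 5) (nat_lit 9) (nat_lit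 4) (nat_lit 295) (nat_lit 263) (nat_lit 162)) (XT.nd (nat_lit 78) (nat_lit 0) (nat_lit 0) (XT.lf (nat_lit 0) (nat_lit 36217728036) (nat_lit 228) (nat_lit 44358169631) (nat_lit 76) (nat_lit 50123822794) (nat_lit 8) (nat_lit 5) (nat_lit 11) (nat_lit 5) (nat_lit 9) (nat_lit 4) (nat_lit 296) (nat_lit 263) (nat_lit 161)) (XT.lf (nat_lit 0) (nat_lit 52962619100) (nat_lit 228) (nat_lit 9532253017) (nat_lit 76) (nat_lit 76771480720) (nat_lit 8) (nat_lit 5) (nat_lit 11) (nat_lit 5) (nat_lit 9) (nat_lit 4) (nat_lit 297) (nat_lit 263) (nat_lit 160))))) (XT.nd (nat_lit 234) (nat_lit 76) (nat_lit 0) (XT.nd (nat_lit 78) (nat_lit 0) (nat_lit 0) (XT.lf (nat_lit 0) (nat_lit 29556135247) (nat_lit 76) (nat_lit 42200517028) (nat_lit 152) (nat_lit 76704903462) (nat_lit 7) (nat_lit 5) (nat_lit 8) (nat_lit 5) (nat_lit 9) (nat_lit 4) (nat_lit 298) (nat_lit 263) (nat_lit 159)) (XT.nd (nat_lit 78) (nat_lit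 0) (nat_lit 0) (XT.lf (nat_lit 0) (nat_lit 72311636635) (nat_lit 76) (nat_lit 20001969984) (nat_lit 152) (nat_lit 66058020071) (nat_lit 7) (nat_lit 5) (nat_lit 8) (nat_lit 5) (nat_lit 9) (nat_lit 4) (nat_lit 299) (nat_lit 263) (nat_lit 158)) (XT.lf (nat_lit 0) (nat_lit 114609497435) (nat_lit 152) (nat_lit 50684451518) (nat_lit 0) (nat_lit 3773007386) (nat_lit 7) (nat_lit 5) (nat_lit 9) (nat_lit 4) (nat_lit 7) (nat_lit 4) (nat_lit 300) (nat_lit 263) (nat_lit 157)))) (XT.nd (nat_lit 78) (nat_lit 76) (nat_lit 0) (XT.lf (nat_lit 0) (nat_lit 139207519301) (nat_lit 152) (nat_lit 13000242839) (nat_lit 0) (nat_lit 28368676613) (nat_lit 7) (nat_lit 5) (nat_lit 9) (nat_lit 4) (nat_lit 7) (nat_lit 4) (nat_lit 301) (nat_lit 263) (nat_lit 156)) (XT.nd (nat_lit 78) (nat_lit 0) (nat_lit 0) (XT.lf (nat_lit 0) (nat_lit 29155472482) (nat_lit 76) (nat_lit 137318107746) (nat_lit 76) (nat_lit 26477086687)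 (nat_lit 6) (nat_lit 4) (nat_lit 7) (nat_lit 5) (nat_lit 7) (nat_lit 4) (nat_lit 302) (nat_lit 263) (nat_lit 155)) (XT.lf (nat_lit 0) (nat_lit 75421318657) (nat_lit 76) (nat_lit 120854098102) (nat_lit 76) (nat_lit 10011060035) (nat_lit 6) (nat_lit 4) (nat_lit 7) (nat_lit 5) (nat_lit 7) (nat_lit 4) (nat_lit 303) (nat_lit 263) (nat_lit 154))))))) (XT.nd (nat_lit 936) (nat_lit 152) (nat_lit 0) (XT.nd (nat_lit 468) (nat_lit 76) (nat_lit 0) (XT.nd (nat_lit 234) (nat_lit 76) (nat_lit 0) (XT.nd (nat_lit 78) (nat_lit 0) (nat_lit 0) (XT.lf (nat_lit 0) (nat_lit 7382536017) (nat_lit 152) (nat_lit 95489230751) (nat_lit 76) (nat_lit 117802506276) (nat_lit 5) (nat_lit 5) (nat_lit 7) (nat_lit 5) (nat_lit 6) (nat_lit 4) (nat_lit 304) (nat_lit 263) (nat_lit 153)) (XT.nd (nat_lit 78) (nat_lit 0) (nat_lit 0) (XT.lf (nat_lit 0) (nat_lit 25625916770) (nat_lit 152) (nat_lit 57544728045) (nat_lit 76) (nat_lit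 153021715795) (nat_lit 5) (nat_lit 5) (nat_lit 7) (nat_lit 5) (nat_lit 6) (nat_lit 4) (nat_lit 305) (nat_lit 263) (nat_lit 152)) (XT.lf (nat_lit 0) (nat_lit 45327984914) (nat_lit 152) (nat_lit 16566027472) (nat_lit 76) (nat_lit 191057947442) (nat_lit 5) (nat_lit 5) (nat_lit 7) (nat_lit 5) (nat_lit 6) (nat_lit 4) (nat_lit 306) (nat_lit 263) (nat_lit 151)))) (XT.nd (nat_lit 78) (nat_lit 0) (nat_lit 0) (XT.lf (nat_lit 0) (nat_lit 29147798649) (nat_lit 76) (nat_lit 38158700055) (nat_lit 152) (nat_lit 203689807717) (nat_lit 4) (nat_lit 5) (nat_lit 5) (nat_lit 5) (nat_lit 6) (nat_lit 4) (nat_lit 307) (nat_lit 263) (nat_lit 150)) (XT.nd (nat_lit 78) (nat_lit 0) (nat_lit 0) (XT.lf (nat_lit 0) (nat_lit 79459626022) (nat_lit 76) (nat_lit 12035911199) (nat_lit 152) (nat_lit 198952485745) (nat_lit 4) (nat_lit 5) (nat_lit 5) (nat_lit 5) (nat_lit 6) (nat_lit 4) (nat_lit 308) (nat_lit 263) (nat_lit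 149)) (XT.lf (nat_lit 0) (nat_lit 118008088087) (nat_lit 152) (nat_lit 178049707457) (nat_lit 0) (nat_lit 15367011738) (nat_lit 4) (nat_lit 5) (nat_lit 6) (nat_lit 4) (nat_lit 4) (nat_lit 4) (nat_lit 309) (nat_lit 263) (nat_lit 148))))) (XT.nd (nat_lit 234) (nat_lit 76) (nat_lit 0) (XT.nd (nat_lit 78) (nat_lit 0) (nat_lit 0) (XT.lf (nat_lit 0) (nat_lit 146953652263) (nat_lit 152) (nat_lit 142789636625) (nat_lit 0) (nat_lit 44311486186) (nat_lit 4) (nat_lit 5) (nat_lit 6) (nat_lit 4) (nat_lit 4) (nat_lit 4) (nat_lit 310) (nat_lit 263) (nat_lit 147)) (XT.nd (nat_lit 78) (nat_lit 0) (nat_lit 0) (XT.lf (nat_lit 0) (nat_lit 178214295065) (nat_lit 152) (nat_lit 104709771927) (nat_lit 0) (nat_lit 75571119981) (nat_lit 4) (nat_lit 5) (nat_lit 6) (nat_lit 4) (nat_lit 4) (nat_lit 4) (nat_lit 311) (nat_lit 263) (nat_lit 146)) (XT.lf (nat_lit 0) (nat_lit 211975264746) (nat_lit 152) (nat_lit 63584454905)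 (nat_lit 0) (nat_lit 109331155397) (nat_lit 4) (nat_lit 5) (nat_lit 6) (nat_lit 4) (nat_lit 4) (nat_lit 4) (nat_lit 312) (nat_lit 263) (nat_lit 145)))) (XT.nd (nat_lit 78) (nat_lit 76) (nat_lit 0) (XT.lf (nat_lit 0) (nat_lit 248436626312) (nat_lit 152) (nat_lit 19169979976) (nat_lit 0) (nat_lit 145791651903) (nat_lit 4) (nat_lit 5) (nat_lit 6) (nat_lit 4) (nat_lit 4) (nat_lit 4) (nat_lit 313) (nat_lit 263) (nat_lit 144)) (XT.nd (nat_lit 78) (nat_lit 0) (nat_lit 0) (XT.lf (nat_lit 0) (nat_lit 30313240821) (nat_lit 76) (nat_lit 258230240440) (nat_lit 76) (nat_lit 155584465049) (nat_lit 3) (nat_lit 4) (nat_lit 4) (nat_lit 5) (nat_lit 4) (nat_lit 4) (nat_lit 314) (nat_lit 263) (nat_lit 143)) (XT.lf (nat_lit 0) (nat_lit 84844550164) (nat_lit 76) (nat_lit 247538040439) (nat_lit 76) (nat_lit 144891523397) (nat_lit 3) (nat_lit 4) (nat_lit 4) (nat_lit 5) (nat_lit 4) (nat_lit 4) (nat_lit 315)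 (nat_lit 263) (nat_lit 142)))))) (XT.nd (nat_lit 468) (nat_lit 152) (nat_lit 0) (XT.nd (nat_lit 234) (nat_lit 0) (nat_lit 0) (XT.nd (nat_lit 78) (nat_lit 0) (nat_lit 0) (XT.lf (nat_lit 0) (nat_lit 143737639380) (nat_lit 76) (nat_lit 235990786323) (nat_lit 76) (nat_lit 133343582569) (nat_lit 3) (nat_lit 4) (nat_lit 4) (nat_lit 5) (nat_lit 4) (nat_lit 4) (nat_lit 316) (nat_lit 263) (nat_lit 141)) (XT.nd (nat_lit 78) (nat_lit 0) (nat_lit 0) (XT.lf (nat_lit 0) (nat_lit 207341504552) (nat_lit 76) (nat_lit 223520049920) (nat_lit 76) (nat_lit 120872210321) (nat_lit 3) (nat_lit 4) (nat_lit 4) (nat_lit 5) (nat_lit 4) (nat_lit 4) (nat_lit 317) (nat_lit 263) (nat_lit 140)) (XT.lf (nat_lit 0) (nat_lit 276033057474) (nat_lit 76) (nat_lit 210051930571) (nat_lit 76) (nat_lit 107403502226) (nat_lit 3) (nat_lit 4) (nat_lit 4) (nat_lit 5) (nat_lit 4) (nat_lit 4) (nat_lit 318) (nat_lit 263) (nat_lit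 139)))) (XT.nd (nat_lit 78) (nat_lit 0) (nat_lit 0) (XT.lf (nat_lit 0) (nat_lit 350219359200) (nat_lit 76) (nat_lit 195506617198) (nat_lit 76) (nat_lit 92857643718) (nat_lit 3) (nat_lit 4) (nat_lit 4) (nat_lit 5) (nat_lit 4) (nat_lit 4) (nat_lit 319) (nat_lit 263) (nat_lit 138)) (XT.nd (nat_lit 78) (nat_lit 0) (nat_lit 0) (XT.lf (nat_lit 0) (nat_lit 430340032259) (nat_lit 76) (nat_lit 179797915351) (nat_lit 76) (nat_lit 77148437116) (nat_lit 3) (nat_lit 4) (nat_lit 4) (nat_lit 5) (nat_lit 4) (nat_lit 4) (nat_lit 320) (nat_lit 263) (nat_lit 137)) (XT.lf (nat_lit 0) (nat_lit 516869865825) (nat_lit 76) (nat_lit 162832736426) (nat_lit 76) (nat_lit 60182790826) (nat_lit 3) (nat_lit 4) (nat_lit 4) (nat_lit 5) (nat_lit 4) (nat_lit 4) (nat_lit 321) (nat_lit 263) (nat_lit 136))))) (XT.nd (nat_lit 234) (nat_lit 152) (nat_lit 0) (XT.nd (nat_lit 78) (nat_lit 0) (nat_lit 0) (XT.lf (nat_lit 0) (nat_lit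 610321629282) (nat_lit 76) (nat_lit 144510546030) (nat_lit 76) (nat_lit 41860167685) (nat_lit 3) (nat_lit 4) (nat_lit 4) (nat_lit 5) (nat_lit 4) (nat_lit 4) (nat_lit 322) (nat_lit 263) (nat_lit 135)) (XT.nd (nat_lit 78) (nat_lit 0) (nat_lit 0) (XT.lf (nat_lit 0) (nat_lit 711249110857) (nat_lit 76) (nat_lit 124722768221) (nat_lit 76) (nat_lit 22071989185) (nat_lit 3) (nat_lit 4) (nat_lit 4) (nat_lit 5) (nat_lit 4) (nat_lit 4) (nat_lit 323) (nat_lit 263) (nat_lit 134)) (XT.lf (nat_lit 0) (nat_lit 820250399331) (nat_lit 76) (nat_lit 103352142091) (nat_lit 76) (nat_lit 700992045) (nat_lit 3) (nat_lit 4) (nat_lit 4) (nat_lit 5) (nat_lit 4) (nat_lit 4) (nat_lit 324) (nat_lit 263) (nat_lit 133)))) (XT.nd (nat_lit 78) (nat_lit 76) (nat_lit 0) (XT.lf (nat_lit 0) (nat_lit 21259955117) (nat_lit 152) (nat_lit 58430786928) (nat_lit 76) (nat_lit 916130188297) (nat_lit 2) (nat_lit 5) (nat_lit 4)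 (nat_lit 5) (nat_lit 3) (nat_lit 4) (nat_lit 325) (nat_lit 263) (nat_lit 132)) (XT.nd (nat_lit 78) (nat_lit 76) (nat_lit 0) (XT.lf (nat_lit 0) (nat_lit 44939714358) (nat_lit 152) (nat_lit 9177205788) (nat_lit 76) (nat_lit 1018941357965) (nat_lit 2) (nat_lit 5) (nat_lit 4) (nat_lit 5) (nat_lit 3) (nat_lit 4) (nat_lit 326) (nat_lit 263) (nat_lit 131)) (XT.lf (nat_lit 0) (nat_lit 46334163754) (nat_lit 76) (nat_lit 25293850633) (nat_lit 152) (nat_lit 1084757466879) (nat_lit 1) (nat_lit 5) (nat_lit 2) (nat_lit 5) (nat_lit 3) (nat_lit 4) (nat_lit 327) (nat_lit 263) (nat_lit 130))))))))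
noncomputable def xc91 : XT := (XT.nd (nat_lit 33930) (nat_lit 0) (nat_lit 304) (XT.nd (nat_lit 32994) (nat_lit 0) (nat_lit 1444) (XT.nd (nat_lit 32526) (nat_lit 0) (nat_lit 2356) (XT.nd (nat_lit 234) (nat_lit 0) (nat_lit 0) (XT.nd (nat_lit 78) (nat_lit 0) (nat_lit 0) (XT.lf (nat_lit 0) (nat_lit 100848974929) (nat_lit 152) (nat_lit 1139697602396) (nat_lit 0) (nat_lit 5800475969) (nat_lit 1) (nat_lit 5) (nat_lit 3) (nat_lit 4) (nat_lit 1) (nat_lit 4) (nat_lit 328) (nat_lit 263) (nat_lit 129)) (XT.nd (nat_lit 78) (nat_lit 0) (nat_lit 0) (XT.lf (nat_lit 0) (nat_lit 133064433009) (nat_lit 152) (nat_lit 1172372872484) (nat_lit 0) (nat_lit 38015700250) (nat_lit 1) (nat_lit 5) (nat_lit 3) (nat_lit 4) (nat_lit 1) (nat_lit 4) (nat_lit 329) (nat_lit 263) (nat_lit 128)) (XT.lf (nat_lit 0) (nat_lit 167856977331) (nat_lit 152) (nat_lit 1207662441291) (nat_lit 0) (nat_lit 72808028092) (nat_lit 1)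 (nat_lit 5) (nat_lit 3) (nat_lit 4) (nat_lit 1) (nat_lit 4) (nat_lit 330) (nat_lit 263) (nat_lit 127)))) (XT.nd (nat_lit 78) (nat_lit 0) (nat_lit 0) (XT.lf (nat_lit 0) (nat_lit 205432785936) (nat_lit 152) (nat_lit 1245775432186) (nat_lit 0) (nat_lit 110383636251) (nat_lit 1) (nat_lit 5) (nat_lit 3) (nat_lit 4) (nat_lit 1) (nat_lit 4) (nat_lit 331) (nat_lit 263) (nat_lit 126)) (XT.nd (nat_lit 78) (nat_lit 0) (nat_lit 0) (XT.lf (nat_lit 0) (nat_lit 246014530280) (nat_lit 152) (nat_lit 1286937699932) (nat_lit 0) (nat_lit 150965194999) (nat_lit 1) (nat_lit 5) (nat_lit 3) (nat_lit 4) (nat_lit 1) (nat_lit 4) (nat_lit 332) (nat_lit 263) (nat_lit 125)) (XT.lf (nat_lit 0) (nat_lit 289842694777) (nat_lit 152) (nat_lit 1331393169078) (nat_lit 0) (nat_lit 194793187646) (nat_lit 1) (nat_lit 5) (nat_lit 3) (nat_lit 4) (nat_lit 1) (nat_lit 4) (nat_lit 333) (nat_lit 263) (nat_lit 124))))) (XT.nd (nat_lit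 234) (nat_lit 0) (nat_lit 76) (XT.nd (nat_lit 78) (nat_lit 0) (nat_lit 0) (XT.lf (nat_lit 0) (nat_lit 2794369109) (nat_lit 532) (nat_lit 5137322612) (nat_lit 532) (nat_lit 5137322612) (nat_lit 32) (nat_lit 3) (nat_lit 39) (nat_lit 3) (nat_lit 39) (nat_lit 5) (nat_lit 264) (nat_lit 264) (nat_lit 192)) (XT.nd (nat_lit 78) (nat_lit 0) (nat_lit 76) (XT.lf (nat_lit 76) (nat_lit 555581801) (nat_lit 0) (nat_lit 5354775293) (nat_lit 532) (nat_lit 21264799864) (nat_lit 33) (nat_lit 5) (nat_lit 32) (nat_lit 3) (nat_lit 39) (nat_lit 5) (nat_lit 265) (nat_lit 264) (nat_lit 191)) (XT.lf (nat_lit 0) (nat_lit 6681596368) (nat_lit 456) (nat_lit 15593369732) (nat_lit 532) (nat_lit 5986432900) (nat_lit 33) (nat_lit 5) (nat_lit 39) (nat_lit 5) (nat_lit 40) (nat_lit 5) (nat_lit 266) (nat_lit 264) (nat_lit 190)))) (XT.nd (nat_lit 78) (nat_lit 0) (nat_lit 76) (XT.lf (nat_lit 0) (nat_lit 7645748269) (nat_lit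 456) (nat_lit 3829410681) (nat_lit 532) (nat_lit 17948935076) (nat_lit 33) (nat_lit 5) (nat_lit 39) (nat_lit 5) (nat_lit 40) (nat_lit 5) (nat_lit 267) (nat_lit 264) (nat_lit 189)) (XT.nd (nat_lit 78) (nat_lit 0) (nat_lit 0) (XT.lf (nat_lit 0) (nat_lit 8914748951) (nat_lit 456) (nat_lit 21334979252) (nat_lit 532) (nat_lit 411906066) (nat_lit 34) (nat_lit 5) (nat_lit 40) (nat_lit 5) (nat_lit 41) (nat_lit 5) (nat_lit 268) (nat_lit 264) (nat_lit 188)) (XT.lf (nat_lit 0) (nat_lit 10683936390) (nat_lit 456) (nat_lit 8542977628) (nat_lit 532) (nat_lit 12739413845) (nat_lit 34) (nat_lit 5) (nat_lit 40) (nat_lit 5) (nat_lit 41) (nat_lit 5) (nat_lit 269) (nat_lit 264) (nat_lit 187)))))) (XT.nd (nat_lit 468) (nat_lit 456) (nat_lit 0) (XT.nd (nat_lit 234) (nat_lit 228) (nat_lit 0) (XT.nd (nat_lit 78) (nat_lit 380) (nat_lit 0) (XT.lf (nat_lit 76) (nat_lit 5544766502) (nat_lit 0) (nat_lit 7176936864)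 (nat_lit 532) (nat_lit 20643570264) (nat_lit 35) (nat_lit 5) (nat_lit 34) (nat_lit 5) (nat_lit 41) (nat_lit 5) (nat_lit 270) (nat_lit 264) (nat_lit 186)) (XT.nd (nat_lit 78) (nat_lit 456) (nat_lit 0) (XT.lf (nat_lit 0) (nat_lit 15296589112) (nat_lit 456) (nat_lit 13763922833) (nat_lit 76) (nat_lit 5785732587) (nat_lit 35) (nat_lit 5) (nat_lit 41) (nat_lit 5) (nat_lit 36) (nat_lit 5) (nat_lit 271) (nat_lit 264) (nat_lit 185)) (XT.lf (nat_lit 0) (nat_lit 1290318315) (nat_lit 456) (nat_lit 16999102173) (nat_lit 532) (nat_lit 18139350742) (nat_lit 29) (nat_lit 5) (nat_lit 35) (nat_lit 5) (nat_lit 36) (nat_lit 5) (nat_lit 272) (nat_lit 264) (nat_lit 184)))) (XT.nd (nat_lit 78) (nat_lit 228) (nat_lit 0) (XT.lf (nat_lit 0) (nat_lit 18326789005) (nat_lit 456) (nat_lit 3566017545) (nat_lit 532) (nat_lit 16215435210) (nat_lit 29) (nat_lit 5) (nat_lit 35) (nat_lit 5) (nat_lit 36) (nat_lit 5)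 (nat_lit 273) (nat_lit 264) (nat_lit 183)) (XT.nd (nat_lit 78) (nat_lit 228) (nat_lit 0) (XT.lf (nat_lit 0) (nat_lit 26042802688) (nat_lit 532) (nat_lit 3463978258) (nat_lit 76) (nat_lit 10394651436) (nat_lit 29) (nat_lit 5) (nat_lit 36) (nat_lit 5) (nat_lit 30) (nat_lit 5) (nat_lit 274) (nat_lit 264) (nat_lit 182)) (XT.lf (nat_lit 0) (nat_lit 14802163036) (nat_lit 228) (nat_lit 16166798642) (nat_lit 304) (nat_lit 10833610914) (nat_lit 26) (nat_lit 5) (nat_lit 29) (nat_lit 5) (nat_lit 30) (nat_lit 5) (nat_lit 275) (nat_lit 264) (nat_lit 181))))) (XT.nd (nat_lit 234) (nat_lit 228) (nat_lit 0) (XT.nd (nat_lit 78) (nat_lit 228) (nat_lit 0) (XT.lf (nat_lit 0) (nat_lit 34722139405) (nat_lit 228) (nat_lit 1657554934) (nat_lit 304) (nat_lit 7468896568) (nat_lit 26) (nat_lit 5) (nat_lit 29) (nat_lit 5) (nat_lit 30) (nat_lit 5) (nat_lit 276) (nat_lit 264) (nat_lit 180)) (XT.nd (nat_lit 78)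 (nat_lit 76) (nat_lit 0) (XT.lf (nat_lit 0) (nat_lit 10353911010) (nat_lit 152) (nat_lit 32451463636) (nat_lit 228) (nat_lit 3206372402) (nat_lit 24) (nat_lit 5) (nat_lit 26) (nat_lit 5) (nat_lit 27) (nat_lit 5) (nat_lit 277) (nat_lit 264) (nat_lit 179)) (XT.lf (nat_lit 0) (nat_lit 1622476850) (nat_lit 228) (nat_lit 16503965170) (nat_lit 76) (nat_lit 30195228512) (nat_lit 23) (nat_lit 5) (nat_lit 26) (nat_lit 5) (nat_lit 24) (nat_lit 5) (nat_lit 278) (nat_lit 264) (nat_lit 178)))) (XT.nd (nat_lit 78) (nat_lit 0) (nat_lit 0) (XT.lf (nat_lit 0) (nat_lit 4310323426) (nat_lit 228) (nat_lit 2454178387) (nat_lit 304) (nat_lit 44037234521) (nat_lit 20) (nat_lit 5) (nat_lit 23) (nat_lit 5) (nat_lit 24) (nat_lit 5) (nat_lit 279) (nat_lit 264) (nat_lit 177)) (XT.nd (nat_lit 78) (nat_lit 0) (nat_lit 0) (XT.lf (nat_lit 0) (nat_lit 13125485534) (nat_lit 304) (nat_lit 26079921315) (nat_lit 76) (nat_lit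 14210210071) (nat_lit 20) (nat_lit 5) (nat_lit 24) (nat_lit 5) (nat_lit 21) (nat_lit 5) (nat_lit 280) (nat_lit 264) (nat_lit 176)) (XT.lf (nat_lit 0) (nat_lit 20055925856) (nat_lit 304) (nat_lit 4103324278) (nat_lit 76) (nat_lit 32074527569) (nat_lit 20) (nat_lit 5) (nat_lit 24) (nat_lit 5) (nat_lit 21) (nat_lit 5) (nat_lit 281) (nat_lit 264) (nat_lit 175))))))) (XT.nd (nat_lit 936) (nat_lit 456) (nat_lit 0) (XT.nd (nat_lit 468) (nat_lit 228) (nat_lit 0) (XT.nd (nat_lit 234) (nat_lit 152) (nat_lit 0) (XT.nd (nat_lit 78) (nat_lit 152) (nat_lit 0) (XT.lf (nat_lit 0) (nat_lit 20661189304) (nat_lit 152) (nat_lit 7373581804) (nat_lit 228) (nat_lit 31203117466) (nat_lit 18) (nat_lit 5) (nat_lit 20) (nat_lit 5) (nat_lit 21) (nat_lit 5) (nat_lit 282) (nat_lit 264) (nat_lit 174)) (XT.nd (nat_lit 78) (nat_lit 152) (nat_lit 0) (XT.lf (nat_lit 0) (nat_lit 37022862395) (nat_lit 228) (nat_lit 15098589219)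 (nat_lit 76) (nat_lit 10331215328) (nat_lit 18) (nat_lit 5) (nat_lit 21) (nat_lit 5) (nat_lit 19) (nat_lit 5) (nat_lit 283) (nat_lit 264) (nat_lit 173)) (XT.lf (nat_lit 0) (nat_lit 10592527982) (nat_lit 152) (nat_lit 36581129983) (nat_lit 228) (nat_lit 18715489745) (nat_lit 16) (nat_lit 5) (nat_lit 18) (nat_lit 5) (nat_lit 19) (nat_lit 5) (nat_lit 284) (nat_lit 264) (nat_lit 172)))) (XT.nd (nat_lit 78) (nat_lit 152) (nat_lit 0) (XT.lf (nat_lit 0) (nat_lit 39194094681) (nat_lit 152) (nat_lit 19352738810) (nat_lit 228) (nat_lit 11020899891) (nat_lit 16) (nat_lit 5) (nat_lit 18) (nat_lit 5) (nat_lit 19) (nat_lit 5) (nat_lit 285) (nat_lit 264) (nat_lit 171)) (XT.nd (nat_lit 78) (nat_lit 152) (nat_lit 0) (XT.lf (nat_lit 0) (nat_lit 70080536691) (nat_lit 152) (nat_lit 747006113) (nat_lit 228) (nat_lit 2713259603) (nat_lit 16) (nat_lit 5) (nat_lit 18) (nat_lit 5) (nat_lit 19) (nat_lit 5)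 (nat_lit 286) (nat_lit 264) (nat_lit 170)) (XT.lf (nat_lit 0) (nat_lit 7073970214) (nat_lit 152) (nat_lit 51461439191) (nat_lit 76) (nat_lit 19194028288) (nat_lit 14) (nat_lit 5) (nat_lit 16) (nat_lit 5) (nat_lit 15) (nat_lit 5) (nat_lit 287) (nat_lit 264) (nat_lit 169))))) (XT.nd (nat_lit 234) (nat_lit 76) (nat_lit 0) (XT.nd (nat_lit 78) (nat_lit 152) (nat_lit 0) (XT.lf (nat_lit 0) (nat_lit 17611916180) (nat_lit 152) (nat_lit 23769829089) (nat_lit 76) (nat_lit 40856643284) (nat_lit 14) (nat_lit 5) (nat_lit 16) (nat_lit 5) (nat_lit 15) (nat_lit 5) (nat_lit 288) (nat_lit 264) (nat_lit 168)) (XT.nd (nat_lit 78) (nat_lit 0) (nat_lit 0) (XT.lf (nat_lit 0) (nat_lit 6457148583) (nat_lit 152) (nat_lit 22689057066) (nat_lit 228) (nat_lit 57949593203) (nat_lit 12) (nat_lit 5) (nat_lit 14) (nat_lit 5) (nat_lit 15) (nat_lit 5) (nat_lit 289) (nat_lit 264) (nat_lit 167)) (XT.lf (nat_lit 0) (nat_lit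 40451197041) (nat_lit 152) (nat_lit 1800041187) (nat_lit 228) (nat_lit 50038731155) (nat_lit 12) (nat_lit 5) (nat_lit 14) (nat_lit 5) (nat_lit 15) (nat_lit 5) (nat_lit 290) (nat_lit 264) (nat_lit 166)))) (XT.nd (nat_lit 78) (nat_lit 76) (nat_lit 0) (XT.lf (nat_lit 0) (nat_lit 56902164320) (nat_lit 228) (nat_lit 21236995195) (nat_lit 76) (nat_lit 19720721624) (nat_lit 12) (nat_lit 5) (nat_lit 15) (nat_lit 5) (nat_lit 13) (nat_lit 4) (nat_lit 291) (nat_lit 264) (nat_lit 165)) (XT.nd (nat_lit 78) (nat_lit 0) (nat_lit 0) (XT.lf (nat_lit 0) (nat_lit 12383016395) (nat_lit 76) (nat_lit 60685056945) (nat_lit 152) (nat_lit 30779886134) (nat_lit 11) (nat_lit 5) (nat_lit 12) (nat_lit 5) (nat_lit 13) (nat_lit 4) (nat_lit 292) (nat_lit 264) (nat_lit 164)) (XT.lf (nat_lit 0) (nat_lit 49897859478) (nat_lit 76) (nat_lit 41208457140) (nat_lit 152) (nat_lit 19162448411) (nat_lit 11) (nat_lit 5) (nat_lit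 12) (nat_lit 5) (nat_lit 13) (nat_lit 4) (nat_lit 293) (nat_lit 264) (nat_lit 163)))))) (XT.nd (nat_lit 468) (nat_lit 152) (nat_lit 0) (XT.nd (nat_lit 234) (nat_lit 76) (nat_lit 0) (XT.nd (nat_lit 78) (nat_lit 228) (nat_lit 0) (XT.lf (nat_lit 0) (nat_lit 90411541704) (nat_lit 76) (nat_lit 20174600298) (nat_lit 152) (nat_lit 6617216659) (nat_lit 11) (nat_lit 5) (nat_lit 12) (nat_lit 5) (nat_lit 13) (nat_lit 4) (nat_lit 294) (nat_lit 264) (nat_lit 162)) (XT.nd (nat_lit 78) (nat_lit 0) (nat_lit 0) (XT.lf (nat_lit 0) (nat_lit 6890599979) (nat_lit 228) (nat_lit 114937612849) (nat_lit 76) (nat_lit 2826717964) (nat_lit 8) (nat_lit 5) (nat_lit 11) (nat_lit 5) (nat_lit 9) (nat_lit 4) (nat_lit 295) (nat_lit 264) (nat_lit 161)) (XT.lf (nat_lit 0) (nat_lit 22395741692) (nat_lit 228) (nat_lit 82690374885) (nat_lit 76) (nat_lit 27500830271) (nat_lit 8) (nat_lit 5) (nat_lit 11) (nat_lit 5) (nat_lit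 9) (nat_lit 4) (nat_lit 296) (nat_lit 264) (nat_lit 160)))) (XT.nd (nat_lit 78) (nat_lit 76) (nat_lit 0) (XT.lf (nat_lit 0) (nat_lit 39140019805) (nat_lit 228) (nat_lit 47865477150) (nat_lit 76) (nat_lit 54148133228) (nat_lit 8) (nat_lit 5) (nat_lit 11) (nat_lit 5) (nat_lit 9) (nat_lit 4) (nat_lit 297) (nat_lit 264) (nat_lit 159)) (XT.nd (nat_lit 78) (nat_lit 76) (nat_lit 0) (XT.lf (nat_lit 0) (nat_lit 57222659670) (nat_lit 228) (nat_lit 10256549878) (nat_lit 76) (nat_lit 82926536780) (nat_lit 8) (nat_lit 5) (nat_lit 11) (nat_lit 5) (nat_lit 9) (nat_lit 4) (nat_lit 298) (nat_lit 264) (nat_lit 158)) (XT.lf (nat_lit 0) (nat_lit 31957940248) (nat_lit 76) (nat_lit 45561466655) (nat_lit 152) (nat_lit 82817228596) (nat_lit 7) (nat_lit 5) (nat_lit 8) (nat_lit 5) (nat_lit 9) (nat_lit 4) (nat_lit 299) (nat_lit 264) (nat_lit 157))))) (XT.nd (nat_lit 234) (nat_lit 152) (nat_lit 0) (XT.nd (nat_lit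 78) (nat_lit 0) (nat_lit 0) (XT.lf (nat_lit 0) (nat_lit 78131117734) (nat_lit 76) (nat_lit 21588153754) (nat_lit 152) (nat_lit 71320377285) (nat_lit 7) (nat_lit 5) (nat_lit 8) (nat_lit 5) (nat_lit 9) (nat_lit 4) (nat_lit 300) (nat_lit 264) (nat_lit 156)) (XT.nd (nat_lit 78) (nat_lit 0) (nat_lit 0) (XT.lf (nat_lit 0) (nat_lit 123797620573) (nat_lit 152) (nat_lit 54705946390) (nat_lit 0) (nat_lit 4087139460) (nat_lit 7) (nat_lit 5) (nat_lit 9) (nat_lit 4) (nat_lit 7) (nat_lit 4) (nat_lit 301) (nat_lit 264) (nat_lit 155)) (XT.lf (nat_lit 0) (nat_lit 150362049866) (nat_lit 152) (nat_lit 14009464813) (nat_lit 0) (nat_lit 30649551745) (nat_lit 7) (nat_lit 5) (nat_lit 9) (nat_lit 4) (nat_lit 7) (nat_lit 4) (nat_lit 302) (nat_lit 264) (nat_lit 154)))) (XT.nd (nat_lit 156) (nat_lit 76) (nat_lit 0) (XT.nd (nat_lit 78) (nat_lit 0) (nat_lit 0) (XT.lf (nat_lit 0) (nat_lit 31517928052) (nat_lit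 76) (nat_lit 148290861467) (nat_lit 76) (nat_lit 28576495745) (nat_lit 6) (nat_lit 4) (nat_lit 7) (nat_lit 5) (nat_lit 7) (nat_lit 4) (nat_lit 303) (nat_lit 264) (nat_lit 153)) (XT.lf (nat_lit 0) (nat_lit 81482818382) (nat_lit 76) (nat_lit 130510671415) (nat_lit 76) (nat_lit 10794576432) (nat_lit 6) (nat_lit 4) (nat_lit 7) (nat_lit 5) (nat_lit 7) (nat_lit 4) (nat_lit 304) (nat_lit 264) (nat_lit 152))) (XT.nd (nat_lit 78) (nat_lit 0) (nat_lit 0) (XT.lf (nat_lit 0) (nat_lit 7988416276) (nat_lit 152) (nat_lit 103101790295) (nat_lit 76) (nat_lit 127236747091) (nat_lit 5) (nat_lit 5) (nat_lit 7) (nat_lit 5) (nat_lit 6) (nat_lit 4) (nat_lit 305) (nat_lit 264) (nat_lit 151)) (XT.lf (nat_lit 0) (nat_lit 27690135831) (nat_lit 152) (nat_lit 62123696181) (nat_lit 76) (nat_lit 165272749645) (nat_lit 5) (nat_lit 5) (nat_lit 7) (nat_lit 5) (nat_lit 6) (nat_lit 4) (nat_lit 306) (nat_lit 264) (nat_lit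 150))))))))
noncomputable def xc92 : XT := (XT.nd (nat_lit 1872) (nat_lit 0) (nat_lit 0) (XT.nd (nat_lit 936) (nat_lit 152) (nat_lit 0) (XT.nd (nat_lit 468) (nat_lit 76) (nat_lit 0) (XT.nd (nat_lit 234) (nat_lit 0) (nat_lit 0) (XT.nd (nat_lit 78) (nat_lit 76) (nat_lit 0) (XT.lf (nat_lit 0) (nat_lit 48967321596) (nat_lit 152) (nat_lit 17868522533) (nat_lit 76) (nat_lit 206351191188) (nat_lit 5) (nat_lit 5) (nat_lit 7) (nat_lit 5) (nat_lit 6) (nat_lit 4) (nat_lit 307) (nat_lit 264) (nat_lit 149)) (XT.nd (nat_lit 78) (nat_lit 0) (nat_lit 0) (XT.lf (nat_lit 0) (nat_lit 31501832788) (nat_lit 76) (nat_lit 41201847644) (nat_lit 152) (nat_lit 219971286568) (nat_lit 4) (nat_lit 5) (nat_lit 5) (nat_lit 5) (nat_lit 6) (nat_lit 4) (nat_lit 308) (nat_lit 264) (nat_lit 148)) (XT.lf (nat_lit 0) (nat_lit 85836961147) (nat_lit 76) (nat_lit 12989942969) (nat_lit 152) (nat_lit 214855994080) (nat_lit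 4) (nat_lit 5) (nat_lit 5) (nat_lit 5) (nat_lit 6) (nat_lit 4) (nat_lit 309) (nat_lit 264) (nat_lit 147)))) (XT.nd (nat_lit 78) (nat_lit 0) (nat_lit 0) (XT.lf (nat_lit 0) (nat_lit 127459787493) (nat_lit 152) (nat_lit 192273944220) (nat_lit 0) (nat_lit 16604149396) (nat_lit 4) (nat_lit 5) (nat_lit 6) (nat_lit 4) (nat_lit 4) (nat_lit 4) (nat_lit 310) (nat_lit 264) (nat_lit 146)) (XT.nd (nat_lit 78) (nat_lit 0) (nat_lit 0) (XT.lf (nat_lit 0) (nat_lit 158720178109) (nat_lit 152) (nat_lit 154194529931) (nat_lit 0) (nat_lit 47863605747) (nat_lit 4) (nat_lit 5) (nat_lit 6) (nat_lit 4) (nat_lit 4) (nat_lit 4) (nat_lit 311) (nat_lit 264) (nat_lit 145)) (XT.lf (nat_lit 0) (nat_lit 192480914286) (nat_lit 152) (nat_lit 113069629955) (nat_lit 0) (nat_lit 81623476863) (nat_lit 4) (nat_lit 5) (nat_lit 6) (nat_lit 4) (nat_lit 4) (nat_lit 4) (nat_lit 312) (nat_lit 264) (nat_lit 144))))) (XT.nd (nat_lit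 234) (nat_lit 0) (nat_lit 0) (XT.nd (nat_lit 78) (nat_lit 76) (nat_lit 0) (XT.lf (nat_lit 0) (nat_lit 228942059644) (nat_lit 152) (nat_lit 68655541180) (nat_lit 0) (nat_lit 118083821240) (nat_lit 4) (nat_lit 5) (nat_lit 6) (nat_lit 4) (nat_lit 4) (nat_lit 4) (nat_lit 313) (nat_lit 264) (nat_lit 143)) (XT.nd (nat_lit 78) (nat_lit 76) (nat_lit 0) (XT.lf (nat_lit 0) (nat_lit 268319680230) (nat_lit 152) (nat_lit 20689069007) (nat_lit 0) (nat_lit 157460700176) (nat_lit 4) (nat_lit 5) (nat_lit 6) (nat_lit 4) (nat_lit 4) (nat_lit 4) (nat_lit 314) (nat_lit 264) (nat_lit 142)) (XT.lf (nat_lit 0) (nat_lit 32752442128) (nat_lit 76) (nat_lit 278882379800) (nat_lit 76) (nat_lit 168022713033) (nat_lit 3) (nat_lit 4) (nat_lit 4) (nat_lit 5) (nat_lit 4) (nat_lit 4) (nat_lit 315) (nat_lit 264) (nat_lit 141)))) (XT.nd (nat_lit 78) (nat_lit 0) (nat_lit 0) (XT.lf (nat_lit 0) (nat_lit 91645208660) (nat_lit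 76) (nat_lit 267335268974) (nat_lit 76) (nat_lit 156474966361) (nat_lit 3) (nat_lit 4) (nat_lit 4) (nat_lit 5) (nat_lit 4) (nat_lit 4) (nat_lit 316) (nat_lit 264) (nat_lit 140)) (XT.nd (nat_lit 78) (nat_lit 0) (nat_lit 0) (XT.lf (nat_lit 0) (nat_lit 155248775052) (nat_lit 76) (nat_lit 254864665247) (nat_lit 76) (nat_lit 144003773889) (nat_lit 3) (nat_lit 4) (nat_lit 4) (nat_lit 5) (nat_lit 4) (nat_lit 4) (nat_lit 317) (nat_lit 264) (nat_lit 139)) (XT.lf (nat_lit 0) (nat_lit 223940051325) (nat_lit 76) (nat_lit 241396668746) (nat_lit 76) (nat_lit 130535232253) (nat_lit 3) (nat_lit 4) (nat_lit 4) (nat_lit 5) (nat_lit 4) (nat_lit 4) (nat_lit 318) (nat_lit 264) (nat_lit 138)))))) (XT.nd (nat_lit 468) (nat_lit 152) (nat_lit 0) (XT.nd (nat_lit 234) (nat_lit 0) (nat_lit 0) (XT.nd (nat_lit 78) (nat_lit 0) (nat_lit 0) (XT.lf (nat_lit 0) (nat_lit 298126096895) (nat_lit 76) (nat_lit 226851469121)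 (nat_lit 76) (nat_lit 115989527873) (nat_lit 3) (nat_lit 4) (nat_lit 4) (nat_lit 5) (nat_lit 4) (nat_lit 4) (nat_lit 319) (nat_lit 264) (nat_lit 137)) (XT.nd (nat_lit 78) (nat_lit 0) (nat_lit 0) (XT.lf (nat_lit 0) (nat_lit 378246532772) (nat_lit 76) (nat_lit 211142872596) (nat_lit 76) (nat_lit 100280463983) (nat_lit 3) (nat_lit 4) (nat_lit 4) (nat_lit 5) (nat_lit 4) (nat_lit 4) (nat_lit 320) (nat_lit 264) (nat_lit 136)) (XT.lf (nat_lit 0) (nat_lit 464776146725) (nat_lit 76) (nat_lit 194177791192) (nat_lit 76) (nat_lit 83314949833) (nat_lit 3) (nat_lit 4) (nat_lit 4) (nat_lit 5) (nat_lit 4) (nat_lit 4) (nat_lit 321) (nat_lit 264) (nat_lit 135)))) (XT.nd (nat_lit 78) (nat_lit 0) (nat_lit 0) (XT.lf (nat_lit 0) (nat_lit 558227706837) (nat_lit 76) (nat_lit 175855691093) (nat_lit 76) (nat_lit 64992449044) (nat_lit 3) (nat_lit 4) (nat_lit 4) (nat_lit 5) (nat_lit 4) (nat_lit 4) (nat_lit 322)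 (nat_lit 264) (nat_lit 134)) (XT.nd (nat_lit 78) (nat_lit 0) (nat_lit 0) (XT.lf (nat_lit 0) (nat_lit 659155000129) (nat_lit 76) (nat_lit 156067996892) (nat_lit 76) (nat_lit 45204383833) (nat_lit 3) (nat_lit 4) (nat_lit 4) (nat_lit 5) (nat_lit 4) (nat_lit 4) (nat_lit 323) (nat_lit 264) (nat_lit 133)) (XT.lf (nat_lit 0) (nat_lit 768156114267) (nat_lit 76) (nat_lit 134697448177) (nat_lit 76) (nat_lit 23833491590) (nat_lit 3) (nat_lit 4) (nat_lit 4) (nat_lit 5) (nat_lit 4) (nat_lit 4) (nat_lit 324) (nat_lit 264) (nat_lit 132))))) (XT.nd (nat_lit 234) (nat_lit 76) (nat_lit 0) (XT.nd (nat_lit 78) (nat_lit 76) (nat_lit 0) (XT.lf (nat_lit 0) (nat_lit 885876981779) (nat_lit 76) (nat_lit 111617404661) (nat_lit 76) (nat_lit 753129993) (nat_lit 3) (nat_lit 4) (nat_lit 4) (nat_lit 5) (nat_lit 4) (nat_lit 4) (nat_lit 325) (nat_lit 264) (nat_lit 131)) (XT.nd (nat_lit 78) (nat_lit 0) (nat_lit 0) (XT.lf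 (nat_lit 0) (nat_lit 22964218425) (nat_lit 152) (nat_lit 63098994861) (nat_lit 76) (nat_lit 989423106951) (nat_lit 2) (nat_lit 5) (nat_lit 4) (nat_lit 5) (nat_lit 3) (nat_lit 4) (nat_lit 326) (nat_lit 264) (nat_lit 130)) (XT.lf (nat_lit 0) (nat_lit 48538101597) (nat_lit 152) (nat_lit 9905590566) (nat_lit 76) (nat_lit 1100458984741) (nat_lit 2) (nat_lit 5) (nat_lit 4) (nat_lit 5) (nat_lit 3) (nat_lit 4) (nat_lit 327) (nat_lit 264) (nat_lit 129)))) (XT.nd (nat_lit 78) (nat_lit 0) (nat_lit 0) (XT.lf (nat_lit 0) (nat_lit 50046541915) (nat_lit 76) (nat_lit 27314821694) (nat_lit 152) (nat_lit 1171534701358) (nat_lit 1) (nat_lit 5) (nat_lit 2) (nat_lit 5) (nat_lit 3) (nat_lit 4) (nat_lit 328) (nat_lit 264) (nat_lit 128)) (XT.nd (nat_lit 78) (nat_lit 0) (nat_lit 0) (XT.lf (nat_lit 0) (nat_lit 108919827261) (nat_lit 152) (nat_lit 1230868004248) (nat_lit 0) (nat_lit 6266745602) (nat_lit 1) (nat_lit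 5) (nat_lit 3) (nat_lit 4) (nat_lit 1) (nat_lit 4) (nat_lit 329) (nat_lit 264) (nat_lit 127)) (XT.lf (nat_lit 0) (nat_lit 143712304630) (nat_lit 152) (nat_lit 1266157696412) (nat_lit 0) (nat_lit 41059022525) (nat_lit 1) (nat_lit 5) (nat_lit 3) (nat_lit 4) (nat_lit 1) (nat_lit 4) (nat_lit 330) (nat_lit 264) (nat_lit 126))))))) (XT.nd (nat_lit 33072) (nat_lit 0) (nat_lit 1140) (XT.nd (nat_lit 32604) (nat_lit 0) (nat_lit 2128) (XT.nd (nat_lit 32370) (nat_lit 0) (nat_lit 2356) (XT.nd (nat_lit 78) (nat_lit 0) (nat_lit 0) (XT.lf (nat_lit 0) (nat_lit 181288051240) (nat_lit 152) (nat_lit 1304270801529) (nat_lit 0) (nat_lit 78634583538) (nat_lit 1) (nat_lit 5) (nat_lit 3) (nat_lit 4) (nat_lit 1) (nat_lit 4) (nat_lit 331) (nat_lit 264) (nat_lit 125)) (XT.nd (nat_lit 78) (nat_lit 0) (nat_lit 0) (XT.lf (nat_lit 0) (nat_lit 221869738182) (nat_lit 152) (nat_lit 1345433175034) (nat_lit 0) (nat_lit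 119216098632) (nat_lit 1) (nat_lit 5) (nat_lit 3) (nat_lit 4) (nat_lit 1) (nat_lit 4) (nat_lit 332) (nat_lit 264) (nat_lit 124)) (XT.lf (nat_lit 0) (nat_lit 265697849529) (nat_lit 152) (nat_lit 1389888742106) (nat_lit 0) (nat_lit 163044050858) (nat_lit 1) (nat_lit 5) (nat_lit 3) (nat_lit 4) (nat_lit 1) (nat_lit 4) (nat_lit 333) (nat_lit 264) (nat_lit 123)))) (XT.nd (nat_lit 78) (nat_lit 0) (nat_lit 0) (XT.lf (nat_lit 0) (nat_lit 3100589010) (nat_lit 532) (nat_lit 5503399348) (nat_lit 532) (nat_lit 5503399348) (nat_lit 32) (nat_lit 3) (nat_lit 39) (nat_lit 3) (nat_lit 39) (nat_lit 5) (nat_lit 265) (nat_lit 265) (nat_lit 190)) (XT.nd (nat_lit 78) (nat_lit 0) (nat_lit 76) (XT.lf (nat_lit 76) (nat_lit 687572615) (nat_lit 0) (nat_lit 5850811770) (nat_lit 532) (nat_lit 22797380075) (nat_lit 33) (nat_lit 5) (nat_lit 32) (nat_lit 3) (nat_lit 39) (nat_lit 5) (nat_lit 266) (nat_lit 265) (nat_lit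 189)) (XT.lf (nat_lit 0) (nat_lit 7358320033) (nat_lit 456) (nat_lit 16745861147) (nat_lit 532) (nat_lit 6405838176) (nat_lit 33) (nat_lit 5) (nat_lit 39) (nat_lit 5) (nat_lit 40) (nat_lit 5) (nat_lit 267) (nat_lit 265) (nat_lit 188))))) (XT.nd (nat_lit 234) (nat_lit 304) (nat_lit 0) (XT.nd (nat_lit 78) (nat_lit 0) (nat_lit 76) (XT.lf (nat_lit 0) (nat_lit 8389071052) (nat_lit 456) (nat_lit 4047820792) (nat_lit 532) (nat_lit 19329748627) (nat_lit 33) (nat_lit 5) (nat_lit 39) (nat_lit 5) (nat_lit 40) (nat_lit 5) (nat_lit 268) (nat_lit 265) (nat_lit 187)) (XT.nd (nat_lit 78) (nat_lit 0) (nat_lit 0) (XT.lf (nat_lit 0) (nat_lit 9750980421) (nat_lit 456) (nat_lit 22944438255) (nat_lit 532) (nat_lit 408516986) (nat_lit 34) (nat_lit 5) (nat_lit 40) (nat_lit 5) (nat_lit 41) (nat_lit 5) (nat_lit 269) (nat_lit 265) (nat_lit 186)) (XT.lf (nat_lit 0) (nat_lit 11652587925) (nat_lit 456) (nat_lit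 9136286822) (nat_lit 532) (nat_lit 13724917355) (nat_lit 34) (nat_lit 5) (nat_lit 40) (nat_lit 5) (nat_lit 41) (nat_lit 5) (nat_lit 270) (nat_lit 265) (nat_lit 185)))) (XT.nd (nat_lit 78) (nat_lit 380) (nat_lit 0) (XT.lf (nat_lit 76) (nat_lit 6076195091) (nat_lit 0) (nat_lit 7770854146) (nat_lit 532) (nat_lit 22178164310) (nat_lit 35) (nat_lit 5) (nat_lit 34) (nat_lit 5) (nat_lit 41) (nat_lit 5) (nat_lit 271) (nat_lit 265) (nat_lit 184)) (XT.nd (nat_lit 78) (nat_lit 456) (nat_lit 0) (XT.lf (nat_lit 0) (nat_lit 16619514683) (nat_lit 456) (nat_lit 14774662099) (nat_lit 76) (nat_lit 6231208100) (nat_lit 35) (nat_lit 5) (nat_lit 41) (nat_lit 5) (nat_lit 36) (nat_lit 5) (nat_lit 272) (nat_lit 265) (nat_lit 183)) (XT.lf (nat_lit 0) (nat_lit 1481630378) (nat_lit 456) (nat_lit 18364912644) (nat_lit 532) (nat_lit 19488435232) (nat_lit 29) (nat_lit 5) (nat_lit 35) (nat_lit 5) (nat_lit 36) (nat_lit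 5) (nat_lit 273) (nat_lit 265) (nat_lit 182)))))) (XT.nd (nat_lit 468) (nat_lit 532) (nat_lit 0) (XT.nd (nat_lit 234) (nat_lit 228) (nat_lit 0) (XT.nd (nat_lit 78) (nat_lit 228) (nat_lit 0) (XT.lf (nat_lit 0) (nat_lit 19874493790) (nat_lit 456) (nat_lit 3856745520) (nat_lit 532) (nat_lit 17418166721) (nat_lit 29) (nat_lit 5) (nat_lit 35) (nat_lit 5) (nat_lit 36) (nat_lit 5) (nat_lit 274) (nat_lit 265) (nat_lit 181)) (XT.nd (nat_lit 78) (nat_lit 228) (nat_lit 0) (XT.lf (nat_lit 0) (nat_lit 28206668797) (nat_lit 532) (nat_lit 3658515292) (nat_lit 76) (nat_lit 11221432707) (nat_lit 29) (nat_lit 5) (nat_lit 36) (nat_lit 5) (nat_lit 30) (nat_lit 5) (nat_lit 275) (nat_lit 265) (nat_lit 180)) (XT.lf (nat_lit 0) (nat_lit 16066826641) (nat_lit 228) (nat_lit 17456071007) (nat_lit 304) (nat_lit 11617309058) (nat_lit 26) (nat_lit 5) (nat_lit 29) (nat_lit 5) (nat_lit 30) (nat_lit 5) (nat_lit 276)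 (nat_lit 265) (nat_lit 179)))) (XT.nd (nat_lit 78) (nat_lit 228) (nat_lit 0) (XT.lf (nat_lit 0) (nat_lit 37574438856) (nat_lit 228) (nat_lit 1786389396) (nat_lit 304) (nat_lit 7989565025) (nat_lit 26) (nat_lit 5) (nat_lit 29) (nat_lit 5) (nat_lit 30) (nat_lit 5) (nat_lit 277) (nat_lit 265) (nat_lit 178)) (XT.nd (nat_lit 78) (nat_lit 76) (nat_lit 0) (XT.lf (nat_lit 0) (nat_lit 11260707879) (nat_lit 152) (nat_lit 35036585237) (nat_lit 228) (nat_lit 3389601808) (nat_lit 24) (nat_lit 5) (nat_lit 26) (nat_lit 5) (nat_lit 27) (nat_lit 5) (nat_lit 278) (nat_lit 265) (nat_lit 177)) (XT.lf (nat_lit 0) (nat_lit 1816732965) (nat_lit 228) (nat_lit 17747881012) (nat_lit 76) (nat_lit 32617296790) (nat_lit 23) (nat_lit 5) (nat_lit 26) (nat_lit 5) (nat_lit 24) (nat_lit 5) (nat_lit 279) (nat_lit 265) (nat_lit 176))))) (XT.nd (nat_lit 234) (nat_lit 304) (nat_lit 0) (XT.nd (nat_lit 78) (nat_lit 0) (nat_lit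 0) (XT.lf (nat_lit 0) (nat_lit 4729616460) (nat_lit 228) (nat_lit 2637519738) (nat_lit 304) (nat_lit 47493509280) (nat_lit 20) (nat_lit 5) (nat_lit 23) (nat_lit 5) (nat_lit 24) (nat_lit 5) (nat_lit 280) (nat_lit 265) (nat_lit 175)) (XT.nd (nat_lit 78) (nat_lit 0) (nat_lit 0) (XT.lf (nat_lit 0) (nat_lit 14232734302) (nat_lit 304) (nat_lit 28092810907) (nat_lit 76) (nat_lit 15358455545) (nat_lit 20) (nat_lit 5) (nat_lit 24) (nat_lit 5) (nat_lit 21) (nat_lit 5) (nat_lit 281) (nat_lit 265) (nat_lit 174)) (XT.lf (nat_lit 0) (nat_lit 21713372078) (nat_lit 304) (nat_lit 4363530856) (nat_lit 76) (nat_lit 34651071875) (nat_lit 20) (nat_lit 5) (nat_lit 24) (nat_lit 5) (nat_lit 21) (nat_lit 5) (nat_lit 282) (nat_lit 265) (nat_lit 173)))) (XT.nd (nat_lit 78) (nat_lit 152) (nat_lit 0) (XT.lf (nat_lit 0) (nat_lit 22380420791) (nat_lit 152) (nat_lit 7947775687) (nat_lit 228) (nat_lit 33644424152)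 (nat_lit 18) (nat_lit 5) (nat_lit 20) (nat_lit 5) (nat_lit 21) (nat_lit 5) (nat_lit 283) (nat_lit 265) (nat_lit 172)) (XT.nd (nat_lit 78) (nat_lit 152) (nat_lit 0) (XT.lf (nat_lit 0) (nat_lit 40031933136) (nat_lit 228) (nat_lit 16241422687) (nat_lit 76) (nat_lit 11171515935) (nat_lit 18) (nat_lit 5) (nat_lit 21) (nat_lit 5) (nat_lit 19) (nat_lit 5) (nat_lit 284) (nat_lit 265) (nat_lit 171)) (XT.lf (nat_lit 0) (nat_lit 11503336963) (nat_lit 152) (nat_lit 39489480934) (nat_lit 228) (nat_lit 20163628025) (nat_lit 16) (nat_lit 5) (nat_lit 18) (nat_lit 5) (nat_lit 19) (nat_lit 5) (nat_lit 285) (nat_lit 265) (nat_lit 170))))))))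
noncomputable def xc93 : XT := (XT.nd (nat_lit 1872) (nat_lit 228) (nat_lit 0) (XT.nd (nat_lit 936) (nat_lit 304) (nat_lit 0) (XT.nd (nat_lit 468) (nat_lit 304) (nat_lit 0) (XT.nd (nat_lit 234) (nat_lit 152) (nat_lit 0) (XT.nd (nat_lit 78) (nat_lit 152) (nat_lit 0) (XT.lf (nat_lit 0) (nat_lit 42388332202) (nat_lit 152) (nat_lit 20884162130) (nat_lit 228) (nat_lit 11857108086) (nat_lit 16) (nat_lit 5) (nat_lit 18) (nat_lit 5) (nat_lit 19) (nat_lit 5) (nat_lit 286) (nat_lit 265) (nat_lit 169)) (XT.nd (nat_lit 78) (nat_lit 152) (nat_lit 0) (XT.lf (nat_lit 0) (nat_lit 75741340688) (nat_lit 152) (nat_lit 791214950) (nat_lit 228) (nat_lit 2888224263) (nat_lit 16) (nat_lit 5) (nat_lit 18) (nat_lit 5) (nat_lit 19) (nat_lit 5) (nat_lit 287) (nat_lit 265) (nat_lit 168)) (XT.lf (nat_lit 0) (nat_lit 7678648620) (nat_lit 152) (nat_lit 55520333489) (nat_lit 76) (nat_lit 20745553747) (nat_lit 14)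 (nat_lit 5) (nat_lit 16) (nat_lit 5) (nat_lit 15) (nat_lit 5) (nat_lit 288) (nat_lit 265) (nat_lit 167)))) (XT.nd (nat_lit 78) (nat_lit 152) (nat_lit 0) (XT.lf (nat_lit 0) (nat_lit 19056759094) (nat_lit 152) (nat_lit 25617692418) (nat_lit 76) (nat_lit 44139992522) (nat_lit 14) (nat_lit 5) (nat_lit 16) (nat_lit 5) (nat_lit 15) (nat_lit 5) (nat_lit 289) (nat_lit 265) (nat_lit 166)) (XT.nd (nat_lit 78) (nat_lit 0) (nat_lit 0) (XT.lf (nat_lit 0) (nat_lit 7026083392) (nat_lit 152) (nat_lit 24486309168) (nat_lit 228) (nat_lit 62548177229) (nat_lit 12) (nat_lit 5) (nat_lit 14) (nat_lit 5) (nat_lit 15) (nat_lit 5) (nat_lit 290) (nat_lit 265) (nat_lit 165)) (XT.lf (nat_lit 0) (nat_lit 43735776992) (nat_lit 152) (nat_lit 1927495905) (nat_lit 228) (nat_lit 54007215359) (nat_lit 12) (nat_lit 5) (nat_lit 14) (nat_lit 5) (nat_lit 15) (nat_lit 5) (nat_lit 291) (nat_lit 265) (nat_lit 164))))) (XT.nd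 (nat_lit 234) (nat_lit 228) (nat_lit 0) (XT.nd (nat_lit 78) (nat_lit 76) (nat_lit 0) (XT.lf (nat_lit 0) (nat_lit 61484275987) (nat_lit 228) (nat_lit 22888950299) (nat_lit 76) (nat_lit 21312935605) (nat_lit 12) (nat_lit 5) (nat_lit 15) (nat_lit 5) (nat_lit 13) (nat_lit 4) (nat_lit 292) (nat_lit 265) (nat_lit 163)) (XT.nd (nat_lit 78) (nat_lit 0) (nat_lit 0) (XT.lf (nat_lit 0) (nat_lit 13419472230) (nat_lit 76) (nat_lit 65522869671) (nat_lit 152) (nat_lit 33211042351) (nat_lit 11) (nat_lit 5) (nat_lit 12) (nat_lit 5) (nat_lit 13) (nat_lit 4) (nat_lit 293) (nat_lit 265) (nat_lit 162)) (XT.lf (nat_lit 0) (nat_lit 53932109092) (nat_lit 76) (nat_lit 44489400536) (nat_lit 152) (nat_lit 20666523290) (nat_lit 11) (nat_lit 5) (nat_lit 12) (nat_lit 5) (nat_lit 13) (nat_lit 4) (nat_lit 294) (nat_lit 265) (nat_lit 161)))) (XT.nd (nat_lit 78) (nat_lit 228) (nat_lit 0) (XT.lf (nat_lit 0) (nat_lit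 97683743610) (nat_lit 76) (nat_lit 21774000567) (nat_lit 152) (nat_lit 7119815294) (nat_lit 11) (nat_lit 5) (nat_lit 12) (nat_lit 5) (nat_lit 13) (nat_lit 4) (nat_lit 295) (nat_lit 265) (nat_lit 160)) (XT.nd (nat_lit 78) (nat_lit 0) (nat_lit 0) (XT.lf (nat_lit 0) (nat_lit 7466721503) (nat_lit 228) (nat_lit 124091275825) (nat_lit 76) (nat_lit 3067260012) (nat_lit 8) (nat_lit 5) (nat_lit 11) (nat_lit 5) (nat_lit 9) (nat_lit 4) (nat_lit 296) (nat_lit 265) (nat_lit 159)) (XT.lf (nat_lit 0) (nat_lit 24210432069) (nat_lit 228) (nat_lit 89267321495) (nat_lit 76) (nat_lit 29714234295) (nat_lit 8) (nat_lit 5) (nat_lit 11) (nat_lit 5) (nat_lit 9) (nat_lit 4) (nat_lit 297) (nat_lit 265) (nat_lit 158)))))) (XT.nd (nat_lit 468) (nat_lit 228) (nat_lit 0) (XT.nd (nat_lit 234) (nat_lit 0) (nat_lit 0) (XT.nd (nat_lit 78) (nat_lit 76) (nat_lit 0) (XT.lf (nat_lit 0) (nat_lit 42292546429) (nat_lit 228)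 (nat_lit 51659267746) (nat_lit 76) (nat_lit 58492333518) (nat_lit 8) (nat_lit 5) (nat_lit 11) (nat_lit 5) (nat_lit 9) (nat_lit 4) (nat_lit 298) (nat_lit 265) (nat_lit 157)) (XT.nd (nat_lit 78) (nat_lit 76) (nat_lit 0) (XT.lf (nat_lit 0) (nat_lit 61820217851) (nat_lit 228) (nat_lit 11044252039) (nat_lit 76) (nat_lit 89572094566) (nat_lit 8) (nat_lit 5) (nat_lit 11) (nat_lit 5) (nat_lit 9) (nat_lit 4) (nat_lit 299) (nat_lit 265) (nat_lit 156)) (XT.lf (nat_lit 0) (nat_lit 34546566364) (nat_lit 76) (nat_lit 49193445257) (nat_lit 152) (nat_lit 89421973188) (nat_lit 7) (nat_lit 5) (nat_lit 8) (nat_lit 5) (nat_lit 9) (nat_lit 4) (nat_lit 300) (nat_lit 265) (nat_lit 155)))) (XT.nd (nat_lit 78) (nat_lit 0) (nat_lit 0) (XT.lf (nat_lit 0) (nat_lit 84411228354) (nat_lit 76) (nat_lit 23303225748) (nat_lit 152) (nat_lit 77006902194) (nat_lit 7) (nat_lit 5) (nat_lit 8) (nat_lit 5) (nat_lit 9) (nat_lit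 4) (nat_lit 301) (nat_lit 265) (nat_lit 154)) (XT.nd (nat_lit 78) (nat_lit 0) (nat_lit 0) (XT.lf (nat_lit 0) (nat_lit 133718031164) (nat_lit 152) (nat_lit 59053905940) (nat_lit 0) (nat_lit 4424648583) (nat_lit 7) (nat_lit 5) (nat_lit 9) (nat_lit 4) (nat_lit 7) (nat_lit 4) (nat_lit 302) (nat_lit 265) (nat_lit 153)) (XT.lf (nat_lit 0) (nat_lit 162406385101) (nat_lit 152) (nat_lit 15103818145) (nat_lit 0) (nat_lit 33111273260) (nat_lit 7) (nat_lit 5) (nat_lit 9) (nat_lit 4) (nat_lit 7) (nat_lit 4) (nat_lit 303) (nat_lit 265) (nat_lit 152))))) (XT.nd (nat_lit 234) (nat_lit 76) (nat_lit 0) (XT.nd (nat_lit 78) (nat_lit 76) (nat_lit 0) (XT.lf (nat_lit 0) (nat_lit 34065097697) (nat_lit 76) (nat_lit 160143246556) (nat_lit 76) (nat_lit 30846533548) (nat_lit 6) (nat_lit 4) (nat_lit 7) (nat_lit 5) (nat_lit 7) (nat_lit 4) (nat_lit 304) (nat_lit 265) (nat_lit 151)) (XT.nd (nat_lit 78) (nat_lit 76)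 (nat_lit 0) (XT.lf (nat_lit 0) (nat_lit 88025272928) (nat_lit 76) (nat_lit 140941447509) (nat_lit 76) (nat_lit 11643251939) (nat_lit 6) (nat_lit 4) (nat_lit 7) (nat_lit 5) (nat_lit 7) (nat_lit 4) (nat_lit 305) (nat_lit 265) (nat_lit 150)) (XT.lf (nat_lit 0) (nat_lit 8640587466) (nat_lit 152) (nat_lit 111327146381) (nat_lit 76) (nat_lit 137424294809) (nat_lit 5) (nat_lit 5) (nat_lit 7) (nat_lit 5) (nat_lit 6) (nat_lit 4) (nat_lit 306) (nat_lit 265) (nat_lit 149)))) (XT.nd (nat_lit 78) (nat_lit 76) (nat_lit 0) (XT.lf (nat_lit 0) (nat_lit 29917474372) (nat_lit 152) (nat_lit 67072492674) (nat_lit 76) (nat_lit 178502539941) (nat_lit 5) (nat_lit 5) (nat_lit 7) (nat_lit 5) (nat_lit 6) (nat_lit 4) (nat_lit 307) (nat_lit 265) (nat_lit 148)) (XT.nd (nat_lit 78) (nat_lit 76) (nat_lit 0) (XT.lf (nat_lit 0) (nat_lit 52895936652) (nat_lit 152) (nat_lit 19278468038) (nat_lit 76) (nat_lit 222866666413)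 (nat_lit 5) (nat_lit 5) (nat_lit 7) (nat_lit 5) (nat_lit 6) (nat_lit 4) (nat_lit 308) (nat_lit 265) (nat_lit 147)) (XT.lf (nat_lit 0) (nat_lit 34041021119) (nat_lit 76) (nat_lit 44489809227) (nat_lit 152) (nat_lit 237557239008) (nat_lit 4) (nat_lit 5) (nat_lit 5) (nat_lit 5) (nat_lit 6) (nat_lit 4) (nat_lit 309) (nat_lit 265) (nat_lit 146))))))) (XT.nd (nat_lit 936) (nat_lit 152) (nat_lit 0) (XT.nd (nat_lit 468) (nat_lit 76) (nat_lit 0) (XT.nd (nat_lit 234) (nat_lit 0) (nat_lit 0) (XT.nd (nat_lit 78) (nat_lit 0) (nat_lit 0) (XT.lf (nat_lit 0) (nat_lit 92721549250) (nat_lit 76) (nat_lit 14021558566) (nat_lit 152) (nat_lit 232033593528) (nat_lit 4) (nat_lit 5) (nat_lit 5) (nat_lit 5) (nat_lit 6) (nat_lit 4) (nat_lit 310) (nat_lit 265) (nat_lit 145)) (XT.nd (nat_lit 78) (nat_lit 0) (nat_lit 0) (XT.lf (nat_lit 0) (nat_lit 137666046108) (nat_lit 152) (nat_lit 207638936031) (nat_lit 0) (nat_lit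 17939148631) (nat_lit 4) (nat_lit 5) (nat_lit 6) (nat_lit 4) (nat_lit 4) (nat_lit 4) (nat_lit 311) (nat_lit 265) (nat_lit 144)) (XT.lf (nat_lit 0) (nat_lit 171426566077) (nat_lit 152) (nat_lit 166514422209) (nat_lit 0) (nat_lit 51698867618) (nat_lit 4) (nat_lit 5) (nat_lit 6) (nat_lit 4) (nat_lit 4) (nat_lit 4) (nat_lit 312) (nat_lit 265) (nat_lit 143)))) (XT.nd (nat_lit 78) (nat_lit 0) (nat_lit 0) (XT.lf (nat_lit 0) (nat_lit 207887511242) (nat_lit 152) (nat_lit 122100690984) (nat_lit 0) (nat_lit 88159071133) (nat_lit 4) (nat_lit 5) (nat_lit 6) (nat_lit 4) (nat_lit 4) (nat_lit 4) (nat_lit 313) (nat_lit 265) (nat_lit 142)) (XT.nd (nat_lit 78) (nat_lit 0) (nat_lit 0) (XT.lf (nat_lit 0) (nat_lit 247264946465) (nat_lit 152) (nat_lit 74134549876) (nat_lit 0) (nat_lit 127535819643) (nat_lit 4) (nat_lit 5) (nat_lit 6) (nat_lit 4) (nat_lit 4) (nat_lit 4) (nat_lit 314) (nat_lit 265) (nat_lit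 141)) (XT.lf (nat_lit 0) (nat_lit 289792219510) (nat_lit 152) (nat_lit 22331755084) (nat_lit 0) (nat_lit 170062456842) (nat_lit 4) (nat_lit 5) (nat_lit 6) (nat_lit 4) (nat_lit 4) (nat_lit 4) (nat_lit 315) (nat_lit 265) (nat_lit 140))))) (XT.nd (nat_lit 234) (nat_lit 0) (nat_lit 0) (XT.nd (nat_lit 78) (nat_lit 0) (nat_lit 0) (XT.lf (nat_lit 0) (nat_lit 35384762019) (nat_lit 76) (nat_lit 301187586203) (nat_lit 76) (nat_lit 181457234790) (nat_lit 3) (nat_lit 4) (nat_lit 4) (nat_lit 5) (nat_lit 4) (nat_lit 4) (nat_lit 316) (nat_lit 265) (nat_lit 139)) (XT.nd (nat_lit 78) (nat_lit 0) (nat_lit 0) (XT.lf (nat_lit 0) (nat_lit 98988051762) (nat_lit 76) (nat_lit 288717105324) (nat_lit 76) (nat_lit 168986208777) (nat_lit 3) (nat_lit 4) (nat_lit 4) (nat_lit 5) (nat_lit 4) (nat_lit 4) (nat_lit 317) (nat_lit 265) (nat_lit 138)) (XT.lf (nat_lit 0) (nat_lit 167679071879) (nat_lit 76) (nat_lit 275249222571)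 (nat_lit 76) (nat_lit 155517821269) (nat_lit 3) (nat_lit 4) (nat_lit 4) (nat_lit 5) (nat_lit 4) (nat_lit 4) (nat_lit 318) (nat_lit 265) (nat_lit 137)))) (XT.nd (nat_lit 78) (nat_lit 0) (nat_lit 0) (XT.lf (nat_lit 0) (nat_lit 241864880267) (nat_lit 76) (nat_lit 260704128268) (nat_lit 76) (nat_lit 140972259601) (nat_lit 3) (nat_lit 4) (nat_lit 4) (nat_lit 5) (nat_lit 4) (nat_lit 4) (nat_lit 319) (nat_lit 265) (nat_lit 136)) (XT.nd (nat_lit 78) (nat_lit 0) (nat_lit 0) (XT.lf (nat_lit 0) (nat_lit 321985096531) (nat_lit 76) (nat_lit 244995629264) (nat_lit 76) (nat_lit 125263327851) (nat_lit 3) (nat_lit 4) (nat_lit 4) (nat_lit 5) (nat_lit 4) (nat_lit 4) (nat_lit 320) (nat_lit 265) (nat_lit 135)) (XT.lf (nat_lit 0) (nat_lit 408514507139) (nat_lit 76) (nat_lit 228030638157) (nat_lit 76) (nat_lit 108297936053) (nat_lit 3) (nat_lit 4) (nat_lit 4) (nat_lit 5) (nat_lit 4) (nat_lit 4) (nat_lit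 321) (nat_lit 265) (nat_lit 134)))))) (XT.nd (nat_lit 468) (nat_lit 76) (nat_lit 0) (XT.nd (nat_lit 234) (nat_lit 76) (nat_lit 0) (XT.nd (nat_lit 78) (nat_lit 0) (nat_lit 0) (XT.lf (nat_lit 0) (nat_lit 501965878968) (nat_lit 76) (nat_lit 209708621666) (nat_lit 76) (nat_lit 89975548553) (nat_lit 3) (nat_lit 4) (nat_lit 4) (nat_lit 5) (nat_lit 4) (nat_lit 4) (nat_lit 322) (nat_lit 265) (nat_lit 133)) (XT.nd (nat_lit 78) (nat_lit 0) (nat_lit 0) (XT.lf (nat_lit 0) (nat_lit 602892997925) (nat_lit 76) (nat_lit 189921004879) (nat_lit 76) (nat_lit 70187588239) (nat_lit 3) (nat_lit 4) (nat_lit 4) (nat_lit 5) (nat_lit 4) (nat_lit 4) (nat_lit 323) (nat_lit 265) (nat_lit 132)) (XT.lf (nat_lit 0) (nat_lit 711893950641) (nat_lit 76) (nat_lit 168550527845) (nat_lit 76) (nat_lit 48816793124) (nat_lit 3) (nat_lit 4) (nat_lit 4) (nat_lit 5) (nat_lit 4) (nat_lit 4) (nat_lit 324) (nat_lit 265) (nat_lit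 131)))) (XT.nd (nat_lit 78) (nat_lit 76) (nat_lit 0) (XT.lf (nat_lit 0) (nat_lit 829614668688) (nat_lit 76) (nat_lit 145470550700) (nat_lit 76) (nat_lit 25736521459) (nat_lit 3) (nat_lit 4) (nat_lit 4) (nat_lit 5) (nat_lit 4) (nat_lit 4) (nat_lit 325) (nat_lit 265) (nat_lit 130)) (XT.nd (nat_lit 78) (nat_lit 76) (nat_lit 0) (XT.lf (nat_lit 0) (nat_lit 956752756320) (nat_lit 76) (nat_lit 120544303209) (nat_lit 76) (nat_lit 810001264) (nat_lit 3) (nat_lit 4) (nat_lit 4) (nat_lit 5) (nat_lit 4) (nat_lit 4) (nat_lit 326) (nat_lit 265) (nat_lit 129)) (XT.lf (nat_lit 0) (nat_lit 24804328205) (nat_lit 152) (nat_lit 68141551779) (nat_lit 76) (nat_lit 1068579101932) (nat_lit 2) (nat_lit 5) (nat_lit 4) (nat_lit 5) (nat_lit 3) (nat_lit 4) (nat_lit 327) (nat_lit 265) (nat_lit 128))))) (XT.nd (nat_lit 234) (nat_lit 0) (nat_lit 0) (XT.nd (nat_lit 78) (nat_lit 76) (nat_lit 0) (XT.lf (nat_lit 0) (nat_lit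 52423901861) (nat_lit 152) (nat_lit 10693072375) (nat_lit 76) (nat_lit 1188497690951) (nat_lit 2) (nat_lit 5) (nat_lit 4) (nat_lit 5) (nat_lit 3) (nat_lit 4) (nat_lit 328) (nat_lit 265) (nat_lit 127)) (XT.nd (nat_lit 78) (nat_lit 0) (nat_lit 0) (XT.lf (nat_lit 0) (nat_lit 54055104998) (nat_lit 76) (nat_lit 29497832369) (nat_lit 152) (nat_lit 1265254594346) (nat_lit 1) (nat_lit 5) (nat_lit 2) (nat_lit 5) (nat_lit 3) (nat_lit 4) (nat_lit 329) (nat_lit 265) (nat_lit 126)) (XT.lf (nat_lit 0) (nat_lit 117635929164) (nat_lit 152) (nat_lit 1329332809522) (nat_lit 0) (nat_lit 6769998449) (nat_lit 1) (nat_lit 5) (nat_lit 3) (nat_lit 4) (nat_lit 1) (nat_lit 4) (nat_lit 330) (nat_lit 265) (nat_lit 125)))) (XT.nd (nat_lit 156) (nat_lit 0) (nat_lit 0) (XT.nd (nat_lit 78) (nat_lit 0) (nat_lit 0) (XT.lf (nat_lit 0) (nat_lit 155211618372) (nat_lit 152) (nat_lit 1367446020398) (nat_lit 0) (nat_lit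 44345515808) (nat_lit 1) (nat_lit 5) (nat_lit 3) (nat_lit 4) (nat_lit 1) (nat_lit 4) (nat_lit 331) (nat_lit 265) (nat_lit 124)) (XT.lf (nat_lit 0) (nat_lit 195793252165) (nat_lit 152) (nat_lit 1408608491830) (nat_lit 0) (nat_lit 84926990481) (nat_lit 1) (nat_lit 5) (nat_lit 3) (nat_lit 4) (nat_lit 1) (nat_lit 4) (nat_lit 332) (nat_lit 265) (nat_lit 123))) (XT.nd (nat_lit 32292) (nat_lit 0) (nat_lit 2356) (XT.lf (nat_lit 0) (nat_lit 239621314298) (nat_lit 152) (nat_lit 1453064149573) (nat_lit 0) (nat_lit 128754905281) (nat_lit 1) (nat_lit 5) (nat_lit 3) (nat_lit 4) (nat_lit 1) (nat_lit 4) (nat_lit 333) (nat_lit 265) (nat_lit 122)) (XT.lf (nat_lit 0) (nat_lit 3419512650) (nat_lit 532) (nat_lit 5905169003) (nat_lit 532) (nat_lit 5905169003) (nat_lit 32) (nat_lit 3) (nat_lit 39) (nat_lit 3) (nat_lit 39) (nat_lit 5) (nat_lit 266) (nat_lit 266) (nat_lit 188))))))))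
noncomputable def xc94 : XT := (XT.nd (nat_lit 1872) (nat_lit 760) (nat_lit 0) (XT.nd (nat_lit 936) (nat_lit 912) (nat_lit 0) (XT.nd (nat_lit 468) (nat_lit 456) (nat_lit 0) (XT.nd (nat_lit 234) (nat_lit 0) (nat_lit 152) (XT.nd (nat_lit 78) (nat_lit 0) (nat_lit 76) (XT.lf (nat_lit 76) (nat_lit 817633526) (nat_lit 0) (nat_lit 6376879501) (nat_lit 532) (nat_lit 24476619916) (nat_lit 33) (nat_lit 5) (nat_lit 32) (nat_lit 3) (nat_lit 39) (nat_lit 5) (nat_lit 267) (nat_lit 266) (nat_lit 187)) (XT.nd (nat_lit 78) (nat_lit 0) (nat_lit 0) (XT.lf (nat_lit 0) (nat_lit 8068895749) (nat_lit 456) (nat_lit 18004101573) (nat_lit 532) (nat_lit 6867285550) (nat_lit 33) (nat_lit 5) (nat_lit 39) (nat_lit 5) (nat_lit 40) (nat_lit 5) (nat_lit 268) (nat_lit 266) (nat_lit 186)) (XT.lf (nat_lit 0) (nat_lit 9173076470) (nat_lit 456) (nat_lit 4296249727) (nat_lit 532) (nat_lit 20828888073) (nat_lit 33) (nat_lit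 5) (nat_lit 39) (nat_lit 5) (nat_lit 40) (nat_lit 5) (nat_lit 269) (nat_lit 266) (nat_lit 185)))) (XT.nd (nat_lit 78) (nat_lit 0) (nat_lit 0) (XT.lf (nat_lit 0) (nat_lit 10636555728) (nat_lit 456) (nat_lit 24696540522) (nat_lit 532) (nat_lit 410041310) (nat_lit 34) (nat_lit 5) (nat_lit 40) (nat_lit 5) (nat_lit 41) (nat_lit 5) (nat_lit 270) (nat_lit 266) (nat_lit 184)) (XT.nd (nat_lit 78) (nat_lit 0) (nat_lit 0) (XT.lf (nat_lit 0) (nat_lit 12682477249) (nat_lit 456) (nat_lit 9789918663) (nat_lit 532) (nat_lit 14794061638) (nat_lit 34) (nat_lit 5) (nat_lit 40) (nat_lit 5) (nat_lit 41) (nat_lit 5) (nat_lit 271) (nat_lit 266) (nat_lit 183)) (XT.lf (nat_lit 76) (nat_lit 6637605573) (nat_lit 0) (nat_lit 8409465494) (nat_lit 532) (nat_lit 23852201770) (nat_lit 35) (nat_lit 5) (nat_lit 34) (nat_lit 5) (nat_lit 41) (nat_lit 5) (nat_lit 272) (nat_lit 266) (nat_lit 182))))) (XT.nd (nat_lit 234)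 (nat_lit 228) (nat_lit 0) (XT.nd (nat_lit 78) (nat_lit 456) (nat_lit 0) (XT.lf (nat_lit 0) (nat_lit 18034122534) (nat_lit 456) (nat_lit 15879153447) (nat_lit 76) (nat_lit 6714801546) (nat_lit 35) (nat_lit 5) (nat_lit 41) (nat_lit 5) (nat_lit 36) (nat_lit 5) (nat_lit 273) (nat_lit 266) (nat_lit 181)) (XT.nd (nat_lit 78) (nat_lit 0) (nat_lit 0) (XT.lf (nat_lit 0) (nat_lit 1675680868) (nat_lit 456) (nat_lit 19839148777) (nat_lit 532) (nat_lit 20960006989) (nat_lit 29) (nat_lit 5) (nat_lit 35) (nat_lit 5) (nat_lit 36) (nat_lit 5) (nat_lit 274) (nat_lit 266) (nat_lit 180)) (XT.lf (nat_lit 0) (nat_lit 21534379275) (nat_lit 456) (nat_lit 4169954719) (nat_lit 532) (nat_lit 18730598707) (nat_lit 29) (nat_lit 5) (nat_lit 35) (nat_lit 5) (nat_lit 36) (nat_lit 5) (nat_lit 275) (nat_lit 266) (nat_lit 179)))) (XT.nd (nat_lit 78) (nat_lit 228) (nat_lit 0) (XT.lf (nat_lit 0) (nat_lit 30532168260)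 (nat_lit 532) (nat_lit 3880396424) (nat_lit 76) (nat_lit 12115039946) (nat_lit 29) (nat_lit 5) (nat_lit 36) (nat_lit 5) (nat_lit 30) (nat_lit 5) (nat_lit 276) (nat_lit 266) (nat_lit 178)) (XT.nd (nat_lit 78) (nat_lit 0) (nat_lit 0) (XT.lf (nat_lit 0) (nat_lit 17421180456) (nat_lit 228) (nat_lit 18849066009) (nat_lit 304) (nat_lit 12475542609) (nat_lit 26) (nat_lit 5) (nat_lit 29) (nat_lit 5) (nat_lit 30) (nat_lit 5) (nat_lit 277) (nat_lit 266) (nat_lit 177)) (XT.lf (nat_lit 0) (nat_lit 40644289968) (nat_lit 228) (nat_lit 1926068438) (nat_lit 304) (nat_lit 8562849511) (nat_lit 26) (nat_lit 5) (nat_lit 29) (nat_lit 5) (nat_lit 30) (nat_lit 5) (nat_lit 278) (nat_lit 266) (nat_lit 176)))))) (XT.nd (nat_lit 468) (nat_lit 304) (nat_lit 0) (XT.nd (nat_lit 234) (nat_lit 152) (nat_lit 0) (XT.nd (nat_lit 78) (nat_lit 304) (nat_lit 0) (XT.lf (nat_lit 0) (nat_lit 12228851879) (nat_lit 152) (nat_lit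 37830085195) (nat_lit 228) (nat_lit 3597943833) (nat_lit 24) (nat_lit 5) (nat_lit 26) (nat_lit 5) (nat_lit 27) (nat_lit 5) (nat_lit 279) (nat_lit 266) (nat_lit 175)) (XT.nd (nat_lit 78) (nat_lit 228) (nat_lit 0) (XT.lf (nat_lit 0) (nat_lit 2017333920) (nat_lit 228) (nat_lit 19102209632) (nat_lit 76) (nat_lit 35232210367) (nat_lit 23) (nat_lit 5) (nat_lit 26) (nat_lit 5) (nat_lit 24) (nat_lit 5) (nat_lit 280) (nat_lit 266) (nat_lit 174)) (XT.lf (nat_lit 0) (nat_lit 5171829363) (nat_lit 228) (nat_lit 2837381983) (nat_lit 304) (nat_lit 51235802091) (nat_lit 20) (nat_lit 5) (nat_lit 23) (nat_lit 5) (nat_lit 24) (nat_lit 5) (nat_lit 281) (nat_lit 266) (nat_lit 173)))) (XT.nd (nat_lit 78) (nat_lit 152) (nat_lit 0) (XT.lf (nat_lit 0) (nat_lit 15420401337) (nat_lit 304) (nat_lit 30277217850) (nat_lit 76) (nat_lit 16596930229) (nat_lit 20) (nat_lit 5) (nat_lit 24) (nat_lit 5) (nat_lit 21) (nat_lit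 5) (nat_lit 282) (nat_lit 266) (nat_lit 172)) (XT.nd (nat_lit 78) (nat_lit 152) (nat_lit 0) (XT.lf (nat_lit 0) (nat_lit 23495856928) (nat_lit 304) (nat_lit 4654263390) (nat_lit 76) (nat_lit 37432230070) (nat_lit 20) (nat_lit 5) (nat_lit 24) (nat_lit 5) (nat_lit 21) (nat_lit 5) (nat_lit 283) (nat_lit 266) (nat_lit 171)) (XT.lf (nat_lit 0) (nat_lit 24227727175) (nat_lit 152) (nat_lit 8570143814) (nat_lit 228) (nat_lit 36288873565) (nat_lit 18) (nat_lit 5) (nat_lit 20) (nat_lit 5) (nat_lit 21) (nat_lit 5) (nat_lit 284) (nat_lit 266) (nat_lit 170))))) (XT.nd (nat_lit 234) (nat_lit 152) (nat_lit 0) (XT.nd (nat_lit 78) (nat_lit 152) (nat_lit 0) (XT.lf (nat_lit 0) (nat_lit 43274989973) (nat_lit 228) (nat_lit 17484963465) (nat_lit 76) (nat_lit 12077071384) (nat_lit 18) (nat_lit 5) (nat_lit 21) (nat_lit 5) (nat_lit 19) (nat_lit 5) (nat_lit 285) (nat_lit 266) (nat_lit 169)) (XT.nd (nat_lit 78)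 (nat_lit 0) (nat_lit 0) (XT.lf (nat_lit 0) (nat_lit 12477964981) (nat_lit 152) (nat_lit 42633087757) (nat_lit 228) (nat_lit 21734622159) (nat_lit 16) (nat_lit 5) (nat_lit 18) (nat_lit 5) (nat_lit 19) (nat_lit 5) (nat_lit 286) (nat_lit 266) (nat_lit 168)) (XT.lf (nat_lit 0) (nat_lit 45829733094) (nat_lit 152) (nat_lit 22540495423) (nat_lit 228) (nat_lit 12766698855) (nat_lit 16) (nat_lit 5) (nat_lit 18) (nat_lit 5) (nat_lit 19) (nat_lit 5) (nat_lit 287) (nat_lit 266) (nat_lit 167)))) (XT.nd (nat_lit 78) (nat_lit 152) (nat_lit 0) (XT.lf (nat_lit 0) (nat_lit 81847253791) (nat_lit 152) (nat_lit 841179111) (nat_lit 228) (nat_lit 3083191577) (nat_lit 16) (nat_lit 5) (nat_lit 18) (nat_lit 5) (nat_lit 19) (nat_lit 5) (nat_lit 288) (nat_lit 266) (nat_lit 166)) (XT.nd (nat_lit 78) (nat_lit 0) (nat_lit 0) (XT.lf (nat_lit 0) (nat_lit 8326171638) (nat_lit 152) (nat_lit 59912216651) (nat_lit 76)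 (nat_lit 22418918209) (nat_lit 14) (nat_lit 5) (nat_lit 16) (nat_lit 5) (nat_lit 15) (nat_lit 5) (nat_lit 289) (nat_lit 266) (nat_lit 165)) (XT.lf (nat_lit 0) (nat_lit 20612069386) (nat_lit 152) (nat_lit 27621048999) (nat_lit 76) (nat_lit 47683895777) (nat_lit 14) (nat_lit 5) (nat_lit 16) (nat_lit 5) (nat_lit 15) (nat_lit 5) (nat_lit 290) (nat_lit 266) (nat_lit 164))))))) (XT.nd (nat_lit 936) (nat_lit 228) (nat_lit 0) (XT.nd (nat_lit 468) (nat_lit 304) (nat_lit 0) (XT.nd (nat_lit 234) (nat_lit 76) (nat_lit 0) (XT.nd (nat_lit 78) (nat_lit 0) (nat_lit 0) (XT.lf (nat_lit 0) (nat_lit 7633062830) (nat_lit 152) (nat_lit 26429891144) (nat_lit 228) (nat_lit 67519981140) (nat_lit 12) (nat_lit 5) (nat_lit 14) (nat_lit 5) (nat_lit 15) (nat_lit 5) (nat_lit 291) (nat_lit 266) (nat_lit 163)) (XT.nd (nat_lit 78) (nat_lit 0) (nat_lit 0) (XT.lf (nat_lit 0) (nat_lit 47276206528) (nat_lit 152) (nat_lit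 2067507839) (nat_lit 228) (nat_lit 58298116415) (nat_lit 12) (nat_lit 5) (nat_lit 14) (nat_lit 5) (nat_lit 15) (nat_lit 5) (nat_lit 292) (nat_lit 266) (nat_lit 162)) (XT.lf (nat_lit 0) (nat_lit 66428685523) (nat_lit 228) (nat_lit 24679767531) (nat_lit 76) (nat_lit 23030450092) (nat_lit 12) (nat_lit 5) (nat_lit 15) (nat_lit 5) (nat_lit 13) (nat_lit 4) (nat_lit 293) (nat_lit 266) (nat_lit 161)))) (XT.nd (nat_lit 78) (nat_lit 0) (nat_lit 0) (XT.lf (nat_lit 0) (nat_lit 14532308578) (nat_lit 76) (nat_lit 70750131489) (nat_lit 152) (nat_lit 35841147042) (nat_lit 11) (nat_lit 5) (nat_lit 12) (nat_lit 5) (nat_lit 13) (nat_lit 4) (nat_lit 294) (nat_lit 266) (nat_lit 160)) (XT.nd (nat_lit 78) (nat_lit 0) (nat_lit 0) (XT.lf (nat_lit 0) (nat_lit 58283046865) (nat_lit 76) (nat_lit 48035063917) (nat_lit 152) (nat_lit 22295050063) (nat_lit 11) (nat_lit 5) (nat_lit 12) (nat_lit 5) (nat_lit 13) (nat_lit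 4) (nat_lit 295) (nat_lit 266) (nat_lit 159)) (XT.lf (nat_lit 0) (nat_lit 105532118141) (nat_lit 76) (nat_lit 23503431110) (nat_lit 152) (nat_lit 7666442100) (nat_lit 11) (nat_lit 5) (nat_lit 12) (nat_lit 5) (nat_lit 13) (nat_lit 4) (nat_lit 296) (nat_lit 266) (nat_lit 158))))) (XT.nd (nat_lit 234) (nat_lit 76) (nat_lit 0) (XT.nd (nat_lit 78) (nat_lit 0) (nat_lit 0) (XT.lf (nat_lit 0) (nat_lit 8085384262) (nat_lit 228) (nat_lit 133983130316) (nat_lit 76) (nat_lit 3324990444) (nat_lit 8) (nat_lit 5) (nat_lit 11) (nat_lit 5) (nat_lit 9) (nat_lit 4) (nat_lit 297) (nat_lit 266) (nat_lit 157)) (XT.nd (nat_lit 78) (nat_lit 0) (nat_lit 0) (XT.lf (nat_lit 0) (nat_lit 26167012042) (nat_lit 228) (nat_lit 96375885386) (nat_lit 76) (nat_lit 32102807883) (nat_lit 8) (nat_lit 5) (nat_lit 11) (nat_lit 5) (nat_lit 9) (nat_lit 4) (nat_lit 298) (nat_lit 266) (nat_lit 156)) (XT.lf (nat_lit 0) (nat_lit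 45694232927) (nat_lit 228) (nat_lit 55761618584) (nat_lit 76) (nat_lit 63182308018) (nat_lit 8) (nat_lit 5) (nat_lit 11) (nat_lit 5) (nat_lit 9) (nat_lit 4) (nat_lit 299) (nat_lit 266) (nat_lit 155)))) (XT.nd (nat_lit 78) (nat_lit 76) (nat_lit 0) (XT.lf (nat_lit 0) (nat_lit 66782763782) (nat_lit 228) (nat_lit 11899652774) (nat_lit 76) (nat_lit 96747665667) (nat_lit 8) (nat_lit 5) (nat_lit 11) (nat_lit 5) (nat_lit 9) (nat_lit 4) (nat_lit 300) (nat_lit 266) (nat_lit 154)) (XT.nd (nat_lit 78) (nat_lit 0) (nat_lit 0) (XT.lf (nat_lit 0) (nat_lit 37337718711) (nat_lit 76) (nat_lit 53117828001) (nat_lit 152) (nat_lit 96558040974) (nat_lit 7) (nat_lit 5) (nat_lit 8) (nat_lit 5) (nat_lit 9) (nat_lit 4) (nat_lit 301) (nat_lit 266) (nat_lit 153)) (XT.lf (nat_lit 0) (nat_lit 91189522027) (nat_lit 76) (nat_lit 25157212626) (nat_lit 152) (nat_lit 83151074676) (nat_lit 7) (nat_lit 5) (nat_lit 8)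 (nat_lit 5) (nat_lit 9) (nat_lit 4) (nat_lit 302) (nat_lit 266) (nat_lit 152)))))) (XT.nd (nat_lit 468) (nat_lit 76) (nat_lit 0) (XT.nd (nat_lit 234) (nat_lit 76) (nat_lit 0) (XT.nd (nat_lit 78) (nat_lit 76) (nat_lit 0) (XT.lf (nat_lit 0) (nat_lit 144429706292) (nat_lit 152) (nat_lit 63753770404) (nat_lit 0) (nat_lit 4787655076) (nat_lit 7) (nat_lit 5) (nat_lit 9) (nat_lit 4) (nat_lit 7) (nat_lit 4) (nat_lit 303) (nat_lit 266) (nat_lit 151)) (XT.nd (nat_lit 78) (nat_lit 76) (nat_lit 0) (XT.lf (nat_lit 0) (nat_lit 175412074275) (nat_lit 152) (nat_lit 16289486549) (nat_lit 0) (nat_lit 35768540497) (nat_lit 7) (nat_lit 5) (nat_lit 9) (nat_lit 4) (nat_lit 7) (nat_lit 4) (nat_lit 304) (nat_lit 266) (nat_lit 150)) (XT.lf (nat_lit 0) (nat_lit 36812369471) (nat_lit 76) (nat_lit 172945375151) (nat_lit 76) (nat_lit 33300468631) (nat_lit 6) (nat_lit 4) (nat_lit 7) (nat_lit 5) (nat_lit 7) (nat_lit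 4) (nat_lit 305) (nat_lit 266) (nat_lit 149)))) (XT.nd (nat_lit 78) (nat_lit 76) (nat_lit 0) (XT.lf (nat_lit 0) (nat_lit 95087724353) (nat_lit 76) (nat_lit 152208123375) (nat_lit 76) (nat_lit 12561945798) (nat_lit 6) (nat_lit 4) (nat_lit 7) (nat_lit 5) (nat_lit 7) (nat_lit 4) (nat_lit 306) (nat_lit 266) (nat_lit 148)) (XT.nd (nat_lit 78) (nat_lit 0) (nat_lit 0) (XT.lf (nat_lit 0) (nat_lit 9343063792) (nat_lit 152) (nat_lit 120213781795) (nat_lit 76) (nat_lit 148425618323) (nat_lit 5) (nat_lit 5) (nat_lit 7) (nat_lit 5) (nat_lit 6) (nat_lit 4) (nat_lit 307) (nat_lit 266) (nat_lit 147)) (XT.lf (nat_lit 0) (nat_lit 32321269848) (nat_lit 152) (nat_lit 72420202924) (nat_lit 76) (nat_lit 192789576405) (nat_lit 5) (nat_lit 5) (nat_lit 7) (nat_lit 5) (nat_lit 6) (nat_lit 4) (nat_lit 308) (nat_lit 266) (nat_lit 146))))) (XT.nd (nat_lit 234) (nat_lit 0) (nat_lit 0) (XT.nd (nat_lit 78) (nat_lit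 76) (nat_lit 0) (XT.lf (nat_lit 0) (nat_lit 57137238923) (nat_lit 152) (nat_lit 20803996256) (nat_lit 76) (nat_lit 240702326826) (nat_lit 5) (nat_lit 5) (nat_lit 7) (nat_lit 5) (nat_lit 6) (nat_lit 4) (nat_lit 309) (nat_lit 266) (nat_lit 145)) (XT.nd (nat_lit 78) (nat_lit 0) (nat_lit 0) (XT.lf (nat_lit 0) (nat_lit 36780628003) (nat_lit 76) (nat_lit 48041975595) (nat_lit 152) (nat_lit 256551743981) (nat_lit 4) (nat_lit 5) (nat_lit 5) (nat_lit 5) (nat_lit 6) (nat_lit 4) (nat_lit 310) (nat_lit 266) (nat_lit 144)) (XT.lf (nat_lit 0) (nat_lit 100154389111) (nat_lit 76) (nat_lit 15136784760) (nat_lit 152) (nat_lit 250586953096) (nat_lit 4) (nat_lit 5) (nat_lit 5) (nat_lit 5) (nat_lit 6) (nat_lit 4) (nat_lit 311) (nat_lit 266) (nat_lit 143)))) (XT.nd (nat_lit 156) (nat_lit 0) (nat_lit 0) (XT.nd (nat_lit 78) (nat_lit 0) (nat_lit 0) (XT.lf (nat_lit 0) (nat_lit 148687453610) (nat_lit 152) (nat_lit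 224235541547) (nat_lit 0) (nat_lit 19379996643) (nat_lit 4) (nat_lit 5) (nat_lit 6) (nat_lit 4) (nat_lit 4) (nat_lit 4) (nat_lit 312) (nat_lit 266) (nat_lit 142)) (XT.lf (nat_lit 0) (nat_lit 185148213412) (nat_lit 152) (nat_lit 179822141386) (nat_lit 0) (nat_lit 55840069732) (nat_lit 4) (nat_lit 5) (nat_lit 6) (nat_lit 4) (nat_lit 4) (nat_lit 4) (nat_lit 313) (nat_lit 266) (nat_lit 141))) (XT.nd (nat_lit 78) (nat_lit 0) (nat_lit 0) (XT.lf (nat_lit 0) (nat_lit 224525477002) (nat_lit 152) (nat_lit 131856306819) (nat_lit 0) (nat_lit 95216697477) (nat_lit 4) (nat_lit 5) (nat_lit 6) (nat_lit 4) (nat_lit 4) (nat_lit 4) (nat_lit 314) (nat_lit 266) (nat_lit 140)) (XT.lf (nat_lit 0) (nat_lit 267052591127) (nat_lit 152) (nat_lit 80053795862) (nat_lit 0) (nat_lit 137743222856) (nat_lit 4) (nat_lit 5) (nat_lit 6) (nat_lit 4) (nat_lit 4) (nat_lit 4) (nat_lit 315) (nat_lit 266) (nat_lit 139))))))))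
noncomputable def xc95 : XT := (XT.nd (nat_lit 34242) (nat_lit 0) (nat_lit 532) (XT.nd (nat_lit 936) (nat_lit 152) (nat_lit 0) (XT.nd (nat_lit 468) (nat_lit 0) (nat_lit 0) (XT.nd (nat_lit 234) (nat_lit 0) (nat_lit 0) (XT.nd (nat_lit 78) (nat_lit 76) (nat_lit 0) (XT.lf (nat_lit 0) (nat_lit 312981568316) (nat_lit 152) (nat_lit 24107630673) (nat_lit 0) (nat_lit 183671654909) (nat_lit 4) (nat_lit 5) (nat_lit 6) (nat_lit 4) (nat_lit 4) (nat_lit 4) (nat_lit 316) (nat_lit 266) (nat_lit 138)) (XT.nd (nat_lit 78) (nat_lit 0) (nat_lit 0) (XT.lf (nat_lit 0) (nat_lit 38225937804) (nat_lit 76) (nat_lit 325277977203) (nat_lit 76) (nat_lit 195967559042) (nat_lit 3) (nat_lit 4) (nat_lit 4) (nat_lit 5) (nat_lit 4) (nat_lit 4) (nat_lit 317) (nat_lit 266) (nat_lit 137)) (XT.lf (nat_lit 0) (nat_lit 106916720739) (nat_lit 76) (nat_lit 311810199773) (nat_lit 76) (nat_lit 182499314246) (nat_lit 3) (nat_lit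 4) (nat_lit 4) (nat_lit 5) (nat_lit 4) (nat_lit 4) (nat_lit 318) (nat_lit 266) (nat_lit 136)))) (XT.nd (nat_lit 78) (nat_lit 0) (nat_lit 0) (XT.lf (nat_lit 0) (nat_lit 181102309514) (nat_lit 76) (nat_lit 297265202990) (nat_lit 76) (nat_lit 167953884718) (nat_lit 3) (nat_lit 4) (nat_lit 4) (nat_lit 5) (nat_lit 4) (nat_lit 4) (nat_lit 319) (nat_lit 266) (nat_lit 135)) (XT.nd (nat_lit 78) (nat_lit 0) (nat_lit 0) (XT.lf (nat_lit 0) (nat_lit 261222322434) (nat_lit 76) (nat_lit 281556794283) (nat_lit 76) (nat_lit 152245075320) (nat_lit 3) (nat_lit 4) (nat_lit 4) (nat_lit 5) (nat_lit 4) (nat_lit 4) (nat_lit 320) (nat_lit 266) (nat_lit 134)) (XT.lf (nat_lit 0) (nat_lit 347751544759) (nat_lit 76) (nat_lit 264591886784) (nat_lit 76) (nat_lit 135279796812) (nat_lit 3) (nat_lit 4) (nat_lit 4) (nat_lit 5) (nat_lit 4) (nat_lit 4) (nat_lit 321) (nat_lit 266) (nat_lit 133))))) (XT.nd (nat_lit 234)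 (nat_lit 0) (nat_lit 0) (XT.nd (nat_lit 78) (nat_lit 0) (nat_lit 0) (XT.lf (nat_lit 0) (nat_lit 441202742252) (nat_lit 76) (nat_lit 246269947708) (nat_lit 76) (nat_lit 116957514209) (nat_lit 3) (nat_lit 4) (nat_lit 4) (nat_lit 5) (nat_lit 4) (nat_lit 4) (nat_lit 322) (nat_lit 266) (nat_lit 132)) (XT.nd (nat_lit 78) (nat_lit 0) (nat_lit 0) (XT.lf (nat_lit 0) (nat_lit 542129699787) (nat_lit 76) (nat_lit 226482402602) (nat_lit 76) (nat_lit 97169651021) (nat_lit 3) (nat_lit 4) (nat_lit 4) (nat_lit 5) (nat_lit 4) (nat_lit 4) (nat_lit 323) (nat_lit 266) (nat_lit 131)) (XT.lf (nat_lit 0) (nat_lit 651130503039) (nat_lit 76) (nat_lit 205111991939) (nat_lit 76) (nat_lit 75798945839) (nat_lit 3) (nat_lit 4) (nat_lit 4) (nat_lit 5) (nat_lit 4) (nat_lit 4) (nat_lit 324) (nat_lit 266) (nat_lit 130)))) (XT.nd (nat_lit 78) (nat_lit 0) (nat_lit 0) (XT.lf (nat_lit 0) (nat_lit 768851082692) (nat_lit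 76) (nat_lit 182032076248) (nat_lit 76) (nat_lit 52718757445) (nat_lit 3) (nat_lit 4) (nat_lit 4) (nat_lit 5) (nat_lit 4) (nat_lit 4) (nat_lit 325) (nat_lit 266) (nat_lit 129)) (XT.nd (nat_lit 78) (nat_lit 0) (nat_lit 0) (XT.lf (nat_lit 0) (nat_lit 895989042182) (nat_lit 76) (nat_lit 157105885659) (nat_lit 76) (nat_lit 27792314353) (nat_lit 3) (nat_lit 4) (nat_lit 4) (nat_lit 5) (nat_lit 4) (nat_lit 4) (nat_lit 326) (nat_lit 266) (nat_lit 128)) (XT.lf (nat_lit 0) (nat_lit 1033297791640) (nat_lit 76) (nat_lit 130185709412) (nat_lit 76) (nat_lit 871904307) (nat_lit 3) (nat_lit 4) (nat_lit 4) (nat_lit 5) (nat_lit 4) (nat_lit 4) (nat_lit 327) (nat_lit 266) (nat_lit 127)))))) (XT.nd (nat_lit 32838) (nat_lit 0) (nat_lit 2356) (XT.nd (nat_lit 234) (nat_lit 0) (nat_lit 0) (XT.nd (nat_lit 78) (nat_lit 76) (nat_lit 0) (XT.lf (nat_lit 0) (nat_lit 26791222735) (nat_lit 152) (nat_lit 73588278294)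 (nat_lit 76) (nat_lit 1154067270300) (nat_lit 2) (nat_lit 5) (nat_lit 4) (nat_lit 5) (nat_lit 3) (nat_lit 4) (nat_lit 328) (nat_lit 266) (nat_lit 126)) (XT.nd (nat_lit 78) (nat_lit 76) (nat_lit 0) (XT.lf (nat_lit 0) (nat_lit 56620173522) (nat_lit 152) (nat_lit 11544261103) (nat_lit 76) (nat_lit 1283579210129) (nat_lit 2) (nat_lit 5) (nat_lit 4) (nat_lit 5) (nat_lit 3) (nat_lit 4) (nat_lit 329) (nat_lit 266) (nat_lit 125)) (XT.lf (nat_lit 0) (nat_lit 58383662686) (nat_lit 76) (nat_lit 31855794195) (nat_lit 152) (nat_lit 1366472490082) (nat_lit 1) (nat_lit 5) (nat_lit 2) (nat_lit 5) (nat_lit 3) (nat_lit 4) (nat_lit 330) (nat_lit 266) (nat_lit 124)))) (XT.nd (nat_lit 78) (nat_lit 0) (nat_lit 0) (XT.lf (nat_lit 0) (nat_lit 127048960323) (nat_lit 152) (nat_lit 1435675460463) (nat_lit 0) (nat_lit 7313238585) (nat_lit 1) (nat_lit 5) (nat_lit 3) (nat_lit 4) (nat_lit 1) (nat_lit 4) (nat_lit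 331) (nat_lit 266) (nat_lit 123)) (XT.nd (nat_lit 32448) (nat_lit 0) (nat_lit 2356) (XT.lf (nat_lit 0) (nat_lit 167630544903) (nat_lit 152) (nat_lit 1476838022566) (nat_lit 0) (nat_lit 47894675832) (nat_lit 1) (nat_lit 5) (nat_lit 3) (nat_lit 4) (nat_lit 1) (nat_lit 4) (nat_lit 332) (nat_lit 266) (nat_lit 122)) (XT.lf (nat_lit 0) (nat_lit 3753838853) (nat_lit 532) (nat_lit 6344573014) (nat_lit 532) (nat_lit 6344573014) (nat_lit 32) (nat_lit 3) (nat_lit 39) (nat_lit 3) (nat_lit 39) (nat_lit 5) (nat_lit 267) (nat_lit 267) (nat_lit 186))))) (XT.nd (nat_lit 234) (nat_lit 0) (nat_lit 152) (XT.nd (nat_lit 78) (nat_lit 0) (nat_lit 76) (XT.lf (nat_lit 76) (nat_lit 947391859) (nat_lit 0) (nat_lit 6936757904) (nat_lit 532) (nat_lit 26310820699) (nat_lit 33) (nat_lit 5) (nat_lit 32) (nat_lit 3) (nat_lit 39) (nat_lit 5) (nat_lit 268) (nat_lit 267) (nat_lit 185)) (XT.nd (nat_lit 78) (nat_lit 0)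 (nat_lit 0) (XT.lf (nat_lit 0) (nat_lit 8818925681) (nat_lit 456) (nat_lit 19374617913) (nat_lit 532) (nat_lit 7372927241) (nat_lit 33) (nat_lit 5) (nat_lit 39) (nat_lit 5) (nat_lit 40) (nat_lit 5) (nat_lit 269) (nat_lit 267) (nat_lit 184)) (XT.lf (nat_lit 0) (nat_lit 10003698766) (nat_lit 456) (nat_lit 4575309163) (nat_lit 532) (nat_lit 22454698051) (nat_lit 33) (nat_lit 5) (nat_lit 39) (nat_lit 5) (nat_lit 40) (nat_lit 5) (nat_lit 270) (nat_lit 267) (nat_lit 183)))) (XT.nd (nat_lit 78) (nat_lit 0) (nat_lit 0) (XT.lf (nat_lit 0) (nat_lit 11577926751) (nat_lit 456) (nat_lit 26600716445) (nat_lit 532) (nat_lit 416132479) (nat_lit 34) (nat_lit 5) (nat_lit 40) (nat_lit 5) (nat_lit 41) (nat_lit 5) (nat_lit 271) (nat_lit 267) (nat_lit 182)) (XT.nd (nat_lit 78) (nat_lit 0) (nat_lit 0) (XT.lf (nat_lit 0) (nat_lit 13780822249) (nat_lit 456) (nat_lit 10506864638) (nat_lit 532) (nat_lit 15952853110)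 (nat_lit 34) (nat_lit 5) (nat_lit 40) (nat_lit 5) (nat_lit 41) (nat_lit 5) (nat_lit 272) (nat_lit 267) (nat_lit 181)) (XT.lf (nat_lit 76) (nat_lit 7233184384) (nat_lit 0) (nat_lit 9096748638) (nat_lit 532) (nat_lit 25674459115) (nat_lit 35) (nat_lit 5) (nat_lit 34) (nat_lit 5) (nat_lit 41) (nat_lit 5) (nat_lit 273) (nat_lit 267) (nat_lit 180))))))) (XT.nd (nat_lit 936) (nat_lit 760) (nat_lit 0) (XT.nd (nat_lit 468) (nat_lit 608) (nat_lit 0) (XT.nd (nat_lit 234) (nat_lit 228) (nat_lit 0) (XT.nd (nat_lit 78) (nat_lit 456) (nat_lit 0) (XT.lf (nat_lit 0) (nat_lit 19549766153) (nat_lit 456) (nat_lit 17083057722) (nat_lit 76) (nat_lit 7239208577) (nat_lit 35) (nat_lit 5) (nat_lit 41) (nat_lit 5) (nat_lit 36) (nat_lit 5) (nat_lit 274) (nat_lit 267) (nat_lit 179)) (XT.nd (nat_lit 78) (nat_lit 0) (nat_lit 0) (XT.lf (nat_lit 0) (nat_lit 1874481616) (nat_lit 456) (nat_lit 21430604343) (nat_lit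 532) (nat_lit 22561787778) (nat_lit 29) (nat_lit 5) (nat_lit 35) (nat_lit 5) (nat_lit 36) (nat_lit 5) (nat_lit 275) (nat_lit 267) (nat_lit 178)) (XT.lf (nat_lit 0) (nat_lit 23317079875) (nat_lit 456) (nat_lit 4507554489) (nat_lit 532) (nat_lit 20159583852) (nat_lit 29) (nat_lit 5) (nat_lit 35) (nat_lit 5) (nat_lit 36) (nat_lit 5) (nat_lit 276) (nat_lit 267) (nat_lit 177)))) (XT.nd (nat_lit 78) (nat_lit 228) (nat_lit 0) (XT.lf (nat_lit 0) (nat_lit 33033868914) (nat_lit 532) (nat_lit 4130128472) (nat_lit 76) (nat_lit 13080721729) (nat_lit 29) (nat_lit 5) (nat_lit 36) (nat_lit 5) (nat_lit 30) (nat_lit 5) (nat_lit 277) (nat_lit 267) (nat_lit 176)) (XT.nd (nat_lit 78) (nat_lit 0) (nat_lit 0) (XT.lf (nat_lit 0) (nat_lit 18874037859) (nat_lit 228) (nat_lit 20353998595) (nat_lit 304) (nat_lit 13412585354) (nat_lit 26) (nat_lit 5) (nat_lit 29) (nat_lit 5) (nat_lit 30) (nat_lit 5) (nat_lit 278)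 (nat_lit 267) (nat_lit 175)) (XT.lf (nat_lit 0) (nat_lit 43950613689) (nat_lit 228) (nat_lit 2077382901) (nat_lit 304) (nat_lit 9191395376) (nat_lit 26) (nat_lit 5) (nat_lit 29) (nat_lit 5) (nat_lit 30) (nat_lit 5) (nat_lit 279) (nat_lit 267) (nat_lit 174))))) (XT.nd (nat_lit 234) (nat_lit 152) (nat_lit 0) (XT.nd (nat_lit 78) (nat_lit 304) (nat_lit 0) (XT.lf (nat_lit 0) (nat_lit 13264848104) (nat_lit 152) (nat_lit 40848409997) (nat_lit 228) (nat_lit 3831916068) (nat_lit 24) (nat_lit 5) (nat_lit 26) (nat_lit 5) (nat_lit 27) (nat_lit 5) (nat_lit 280) (nat_lit 267) (nat_lit 173)) (XT.nd (nat_lit 78) (nat_lit 228) (nat_lit 0) (XT.lf (nat_lit 0) (nat_lit 2226099164) (nat_lit 228) (nat_lit 20574229113) (nat_lit 76) (nat_lit 38055528137) (nat_lit 23) (nat_lit 5) (nat_lit 26) (nat_lit 5) (nat_lit 24) (nat_lit 5) (nat_lit 281) (nat_lit 267) (nat_lit 172)) (XT.lf (nat_lit 0) (nat_lit 5640311298)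 (nat_lit 228) (nat_lit 3054822358) (nat_lit 304) (nat_lit 55285636825) (nat_lit 20) (nat_lit 5) (nat_lit 23) (nat_lit 5) (nat_lit 24) (nat_lit 5) (nat_lit 282) (nat_lit 267) (nat_lit 171)))) (XT.nd (nat_lit 78) (nat_lit 152) (nat_lit 0) (XT.lf (nat_lit 0) (nat_lit 16696084447) (nat_lit 304) (nat_lit 32645367560) (nat_lit 76) (nat_lit 17933085060) (nat_lit 20) (nat_lit 5) (nat_lit 24) (nat_lit 5) (nat_lit 21) (nat_lit 5) (nat_lit 283) (nat_lit 267) (nat_lit 170)) (XT.nd (nat_lit 78) (nat_lit 152) (nat_lit 0) (XT.lf (nat_lit 0) (nat_lit 25414461597) (nat_lit 304) (nat_lit 4976578797) (nat_lit 76) (nat_lit 40434586635) (nat_lit 20) (nat_lit 5) (nat_lit 24) (nat_lit 5) (nat_lit 21) (nat_lit 5) (nat_lit 284) (nat_lit 267) (nat_lit 169)) (XT.lf (nat_lit 0) (nat_lit 26214704542) (nat_lit 152) (nat_lit 9244220744) (nat_lit 228) (nat_lit 39151598917) (nat_lit 18) (nat_lit 5) (nat_lit 20) (nat_lit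 5) (nat_lit 21) (nat_lit 5) (nat_lit 285) (nat_lit 267) (nat_lit 168)))))) (XT.nd (nat_lit 468) (nat_lit 456) (nat_lit 0) (XT.nd (nat_lit 234) (nat_lit 152) (nat_lit 0) (XT.nd (nat_lit 78) (nat_lit 152) (nat_lit 0) (XT.lf (nat_lit 0) (nat_lit 46771713267) (nat_lit 228) (nat_lit 18835944153) (nat_lit 76) (nat_lit 13053382992) (nat_lit 18) (nat_lit 5) (nat_lit 21) (nat_lit 5) (nat_lit 19) (nat_lit 5) (nat_lit 286) (nat_lit 267) (nat_lit 167)) (XT.nd (nat_lit 78) (nat_lit 0) (nat_lit 0) (XT.lf (nat_lit 0) (nat_lit 13522808028) (nat_lit 152) (nat_lit 46030401742) (nat_lit 228) (nat_lit 23437301304) (nat_lit 16) (nat_lit 5) (nat_lit 18) (nat_lit 5) (nat_lit 19) (nat_lit 5) (nat_lit 287) (nat_lit 267) (nat_lit 166)) (XT.lf (nat_lit 0) (nat_lit 49539265305) (nat_lit 152) (nat_lit 24331389654) (nat_lit 228) (nat_lit 13754617516) (nat_lit 16) (nat_lit 5) (nat_lit 18) (nat_lit 5) (nat_lit 19)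 (nat_lit 5) (nat_lit 288) (nat_lit 267) (nat_lit 165)))) (XT.nd (nat_lit 78) (nat_lit 152) (nat_lit 0) (XT.lf (nat_lit 0) (nat_lit 88434991097) (nat_lit 152) (nat_lit 897042511) (nat_lit 228) (nat_lit 3298905007) (nat_lit 16) (nat_lit 5) (nat_lit 18) (nat_lit 5) (nat_lit 19) (nat_lit 5) (nat_lit 289) (nat_lit 267) (nat_lit 164)) (XT.nd (nat_lit 78) (nat_lit 0) (nat_lit 0) (XT.lf (nat_lit 0) (nat_lit 9020755706) (nat_lit 152) (nat_lit 64662546935) (nat_lit 76) (nat_lit 24224194493) (nat_lit 14) (nat_lit 5) (nat_lit 16) (nat_lit 5) (nat_lit 15) (nat_lit 5) (nat_lit 290) (nat_lit 267) (nat_lit 163)) (XT.lf (nat_lit 0) (nat_lit 22287414878) (nat_lit 152) (nat_lit 29791244912) (nat_lit 76) (nat_lit 51509498946) (nat_lit 14) (nat_lit 5) (nat_lit 16) (nat_lit 5) (nat_lit 15) (nat_lit 5) (nat_lit 291) (nat_lit 267) (nat_lit 162))))) (XT.nd (nat_lit 234) (nat_lit 304) (nat_lit 0) (XT.nd (nat_lit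 78) (nat_lit 0) (nat_lit 0) (XT.lf (nat_lit 0) (nat_lit 8282196167) (nat_lit 152) (nat_lit 28531145641) (nat_lit 228) (nat_lit 72894101694) (nat_lit 12) (nat_lit 5) (nat_lit 14) (nat_lit 5) (nat_lit 15) (nat_lit 5) (nat_lit 292) (nat_lit 267) (nat_lit 161)) (XT.nd (nat_lit 78) (nat_lit 0) (nat_lit 0) (XT.lf (nat_lit 0) (nat_lit 51093940375) (nat_lit 152) (nat_lit 2220744767) (nat_lit 228) (nat_lit 62936523193) (nat_lit 12) (nat_lit 5) (nat_lit 14) (nat_lit 5) (nat_lit 15) (nat_lit 5) (nat_lit 293) (nat_lit 267) (nat_lit 160)) (XT.lf (nat_lit 0) (nat_lit 71764986072) (nat_lit 228) (nat_lit 26619599215) (nat_lit 76) (nat_lit 24883585378) (nat_lit 12) (nat_lit 5) (nat_lit 15) (nat_lit 5) (nat_lit 13) (nat_lit 4) (nat_lit 294) (nat_lit 267) (nat_lit 159)))) (XT.nd (nat_lit 156) (nat_lit 228) (nat_lit 0) (XT.nd (nat_lit 78) (nat_lit 0) (nat_lit 0) (XT.lf (nat_lit 0) (nat_lit 15728568307)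 (nat_lit 76) (nat_lit 76397652506) (nat_lit 152) (nat_lit 38685480388) (nat_lit 11) (nat_lit 5) (nat_lit 12) (nat_lit 5) (nat_lit 13) (nat_lit 4) (nat_lit 295) (nat_lit 267) (nat_lit 158)) (XT.lf (nat_lit 0) (nat_lit 62976871209) (nat_lit 76) (nat_lit 51866304676) (nat_lit 152) (nat_lit 24057396274) (nat_lit 11) (nat_lit 5) (nat_lit 12) (nat_lit 5) (nat_lit 13) (nat_lit 4) (nat_lit 296) (nat_lit 267) (nat_lit 157))) (XT.nd (nat_lit 78) (nat_lit 228) (nat_lit 0) (XT.lf (nat_lit 0) (nat_lit 114003558513) (nat_lit 76) (nat_lit 25372997864) (nat_lit 152) (nat_lit 8260074326) (nat_lit 11) (nat_lit 5) (nat_lit 12) (nat_lit 5) (nat_lit 13) (nat_lit 4) (nat_lit 297) (nat_lit 267) (nat_lit 156)) (XT.lf (nat_lit 0) (nat_lit 8750497787) (nat_lit 228) (nat_lit 144671390159) (nat_lit 76) (nat_lit 3601577499) (nat_lit 8) (nat_lit 5) (nat_lit 11) (nat_lit 5) (nat_lit 9) (nat_lit 4) (nat_lit 298)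 (nat_lit 267) (nat_lit 155))))))))
noncomputable def xc96 : XT := (XT.nd (nat_lit 1872) (nat_lit 152) (nat_lit 0) (XT.nd (nat_lit 936) (nat_lit 152) (nat_lit 0) (XT.nd (nat_lit 468) (nat_lit 152) (nat_lit 0) (XT.nd (nat_lit 234) (nat_lit 76) (nat_lit 0) (XT.nd (nat_lit 78) (nat_lit 0) (nat_lit 0) (XT.lf (nat_lit 0) (nat_lit 28277301509) (nat_lit 228) (nat_lit 104057816789) (nat_lit 76) (nat_lit 34680836049) (nat_lit 8) (nat_lit 5) (nat_lit 11) (nat_lit 5) (nat_lit 9) (nat_lit 4) (nat_lit 299) (nat_lit 267) (nat_lit 154)) (XT.nd (nat_lit 78) (nat_lit 0) (nat_lit 0) (XT.lf (nat_lit 0) (nat_lit 49365446101) (nat_lit 228) (nat_lit 60196493045) (nat_lit 76) (nat_lit 68245970008) (nat_lit 8) (nat_lit 5) (nat_lit 11) (nat_lit 5) (nat_lit 9) (nat_lit 4) (nat_lit 300) (nat_lit 267) (nat_lit 153)) (XT.lf (nat_lit 0) (nat_lit 72139898348) (nat_lit 228) (nat_lit 12827499972) (nat_lit 76) (nat_lit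 104495883873) (nat_lit 8) (nat_lit 5) (nat_lit 11) (nat_lit 5) (nat_lit 9) (nat_lit 4) (nat_lit 301) (nat_lit 267) (nat_lit 152)))) (XT.nd (nat_lit 78) (nat_lit 0) (nat_lit 0) (XT.lf (nat_lit 0) (nat_lit 40348250472) (nat_lit 76) (nat_lit 57357743888) (nat_lit 152) (nat_lit 104267517869) (nat_lit 7) (nat_lit 5) (nat_lit 8) (nat_lit 5) (nat_lit 9) (nat_lit 4) (nat_lit 302) (nat_lit 267) (nat_lit 151)) (XT.nd (nat_lit 78) (nat_lit 0) (nat_lit 0) (XT.lf (nat_lit 0) (nat_lit 98506456256) (nat_lit 76) (nat_lit 27160983753) (nat_lit 152) (nat_lit 89789117704) (nat_lit 7) (nat_lit 5) (nat_lit 8) (nat_lit 5) (nat_lit 9) (nat_lit 4) (nat_lit 303) (nat_lit 267) (nat_lit 150)) (XT.lf (nat_lit 0) (nat_lit 155996284986) (nat_lit 152) (nat_lit 68833111807) (nat_lit 0) (nat_lit 5178413202) (nat_lit 7) (nat_lit 5) (nat_lit 9) (nat_lit 4) (nat_lit 7) (nat_lit 4) (nat_lit 304) (nat_lit 267) (nat_lit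 149))))) (XT.nd (nat_lit 234) (nat_lit 76) (nat_lit 0) (XT.nd (nat_lit 78) (nat_lit 76) (nat_lit 0) (XT.lf (nat_lit 0) (nat_lit 189456338541) (nat_lit 152) (nat_lit 17573237853) (nat_lit 0) (nat_lit 38637195700) (nat_lit 7) (nat_lit 5) (nat_lit 9) (nat_lit 4) (nat_lit 7) (nat_lit 4) (nat_lit 305) (nat_lit 267) (nat_lit 148)) (XT.nd (nat_lit 78) (nat_lit 0) (nat_lit 0) (XT.lf (nat_lit 0) (nat_lit 39776275316) (nat_lit 76) (nat_lit 186773005224) (nat_lit 76) (nat_lit 35952685477) (nat_lit 6) (nat_lit 4) (nat_lit 7) (nat_lit 5) (nat_lit 7) (nat_lit 4) (nat_lit 306) (nat_lit 267) (nat_lit 147)) (XT.lf (nat_lit 0) (nat_lit 102712257382) (nat_lit 76) (nat_lit 164377365894) (nat_lit 76) (nat_lit 13555956420) (nat_lit 6) (nat_lit 4) (nat_lit 7) (nat_lit 5) (nat_lit 7) (nat_lit 4) (nat_lit 307) (nat_lit 267) (nat_lit 146)))) (XT.nd (nat_lit 78) (nat_lit 0) (nat_lit 0) (XT.lf (nat_lit 0) (nat_lit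 10100136234) (nat_lit 152) (nat_lit 129814135112) (nat_lit 76) (nat_lit 160305994890) (nat_lit 5) (nat_lit 5) (nat_lit 7) (nat_lit 5) (nat_lit 6) (nat_lit 4) (nat_lit 308) (nat_lit 267) (nat_lit 145)) (XT.nd (nat_lit 78) (nat_lit 0) (nat_lit 0) (XT.lf (nat_lit 0) (nat_lit 34915885639) (nat_lit 152) (nat_lit 78198310616) (nat_lit 76) (nat_lit 208218600943) (nat_lit 5) (nat_lit 5) (nat_lit 7) (nat_lit 5) (nat_lit 6) (nat_lit 4) (nat_lit 309) (nat_lit 267) (nat_lit 144)) (XT.lf (nat_lit 0) (nat_lit 61716471928) (nat_lit 152) (nat_lit 22453956194) (nat_lit 76) (nat_lit 259963937441) (nat_lit 5) (nat_lit 5) (nat_lit 7) (nat_lit 5) (nat_lit 6) (nat_lit 4) (nat_lit 310) (nat_lit 267) (nat_lit 143)))))) (XT.nd (nat_lit 468) (nat_lit 76) (nat_lit 0) (XT.nd (nat_lit 234) (nat_lit 0) (nat_lit 0) (XT.nd (nat_lit 78) (nat_lit 0) (nat_lit 0) (XT.lf (nat_lit 0) (nat_lit 39737074467) (nat_lit 76)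 (nat_lit 51879316521) (nat_lit 152) (nat_lit 277067246542) (nat_lit 4) (nat_lit 5) (nat_lit 5) (nat_lit 5) (nat_lit 6) (nat_lit 4) (nat_lit 311) (nat_lit 267) (nat_lit 142)) (XT.nd (nat_lit 78) (nat_lit 0) (nat_lit 0) (XT.lf (nat_lit 0) (nat_lit 108179699706) (nat_lit 76) (nat_lit 16342156132) (nat_lit 152) (nat_lit 270625912161) (nat_lit 4) (nat_lit 5) (nat_lit 5) (nat_lit 5) (nat_lit 6) (nat_lit 4) (nat_lit 312) (nat_lit 267) (nat_lit 141)) (XT.lf (nat_lit 0) (nat_lit 160589414760) (nat_lit 152) (nat_lit 242161945427) (nat_lit 0) (nat_lit 20935297027) (nat_lit 4) (nat_lit 5) (nat_lit 6) (nat_lit 4) (nat_lit 4) (nat_lit 4) (nat_lit 313) (nat_lit 267) (nat_lit 140)))) (XT.nd (nat_lit 78) (nat_lit 0) (nat_lit 0) (XT.lf (nat_lit 0) (nat_lit 199966519431) (nat_lit 152) (nat_lit 194196394694) (nat_lit 0) (nat_lit 60311812952) (nat_lit 4) (nat_lit 5) (nat_lit 6) (nat_lit 4) (nat_lit 4)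 (nat_lit 4) (nat_lit 314) (nat_lit 267) (nat_lit 139)) (XT.nd (nat_lit 78) (nat_lit 0) (nat_lit 0) (XT.lf (nat_lit 0) (nat_lit 242493486408) (nat_lit 152) (nat_lit 142394146546) (nat_lit 0) (nat_lit 102838234794) (nat_lit 4) (nat_lit 5) (nat_lit 6) (nat_lit 4) (nat_lit 4) (nat_lit 4) (nat_lit 315) (nat_lit 267) (nat_lit 138)) (XT.lf (nat_lit 0) (nat_lit 288422327349) (nat_lit 152) (nat_lit 86448224699) (nat_lit 0) (nat_lit 148766570980) (nat_lit 4) (nat_lit 5) (nat_lit 6) (nat_lit 4) (nat_lit 4) (nat_lit 4) (nat_lit 316) (nat_lit 267) (nat_lit 137))))) (XT.nd (nat_lit 234) (nat_lit 0) (nat_lit 0) (XT.nd (nat_lit 78) (nat_lit 76) (nat_lit 0) (XT.lf (nat_lit 0) (nat_lit 338025213162) (nat_lit 152) (nat_lit 26027097764) (nat_lit 0) (nat_lit 198368989428) (nat_lit 4) (nat_lit 5) (nat_lit 6) (nat_lit 4) (nat_lit 4) (nat_lit 4) (nat_lit 317) (nat_lit 267) (nat_lit 136)) (XT.nd (nat_lit 78)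 (nat_lit 0) (nat_lit 0) (XT.lf (nat_lit 0) (nat_lit 41292924713) (nat_lit 76) (nat_lit 351296257993) (nat_lit 76) (nat_lit 211639601513) (nat_lit 3) (nat_lit 4) (nat_lit 4) (nat_lit 5) (nat_lit 4) (nat_lit 4) (nat_lit 318) (nat_lit 267) (nat_lit 135)) (XT.lf (nat_lit 0) (nat_lit 115478310143) (nat_lit 76) (nat_lit 336751351507) (nat_lit 76) (nat_lit 197094294337) (nat_lit 3) (nat_lit 4) (nat_lit 4) (nat_lit 5) (nat_lit 4) (nat_lit 4) (nat_lit 319) (nat_lit 267) (nat_lit 134)))) (XT.nd (nat_lit 78) (nat_lit 0) (nat_lit 0) (XT.lf (nat_lit 0) (nat_lit 195598134780) (nat_lit 76) (nat_lit 321043026408) (nat_lit 76) (nat_lit 181385598229) (nat_lit 3) (nat_lit 4) (nat_lit 4) (nat_lit 5) (nat_lit 4) (nat_lit 4) (nat_lit 320) (nat_lit 267) (nat_lit 133)) (XT.nd (nat_lit 78) (nat_lit 0) (nat_lit 0) (XT.lf (nat_lit 0) (nat_lit 282127182770) (nat_lit 76) (nat_lit 304078196324) (nat_lit 76) (nat_lit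 164420424617) (nat_lit 3) (nat_lit 4) (nat_lit 4) (nat_lit 5) (nat_lit 4) (nat_lit 4) (nat_lit 321) (nat_lit 267) (nat_lit 132)) (XT.lf (nat_lit 0) (nat_lit 375578218841) (nat_lit 76) (nat_lit 285756328929) (nat_lit 76) (nat_lit 146098239141) (nat_lit 3) (nat_lit 4) (nat_lit 4) (nat_lit 5) (nat_lit 4) (nat_lit 4) (nat_lit 322) (nat_lit 267) (nat_lit 131))))))) (XT.nd (nat_lit 33384) (nat_lit 0) (nat_lit 1748) (XT.nd (nat_lit 468) (nat_lit 152) (nat_lit 0) (XT.nd (nat_lit 234) (nat_lit 0) (nat_lit 0) (XT.nd (nat_lit 78) (nat_lit 0) (nat_lit 0) (XT.lf (nat_lit 0) (nat_lit 476505026912) (nat_lit 76) (nat_lit 265968850194) (nat_lit 76) (nat_lit 126310465886) (nat_lit 3) (nat_lit 4) (nat_lit 4) (nat_lit 5) (nat_lit 4) (nat_lit 4) (nat_lit 323) (nat_lit 267) (nat_lit 130)) (XT.nd (nat_lit 78) (nat_lit 0) (nat_lit 0) (XT.lf (nat_lit 0) (nat_lit 585505691770) (nat_lit 76) (nat_lit 244598500985)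 (nat_lit 76) (nat_lit 104939843975) (nat_lit 3) (nat_lit 4) (nat_lit 4) (nat_lit 5) (nat_lit 4) (nat_lit 4) (nat_lit 324) (nat_lit 267) (nat_lit 129)) (XT.lf (nat_lit 0) (nat_lit 703226143281) (nat_lit 76) (nat_lit 221518642197) (nat_lit 76) (nat_lit 81859732683) (nat_lit 3) (nat_lit 4) (nat_lit 4) (nat_lit 5) (nat_lit 4) (nat_lit 4) (nat_lit 325) (nat_lit 267) (nat_lit 128)))) (XT.nd (nat_lit 78) (nat_lit 0) (nat_lit 0) (XT.lf (nat_lit 0) (nat_lit 830363984122) (nat_lit 76) (nat_lit 196592504295) (nat_lit 76) (nat_lit 56933360983) (nat_lit 3) (nat_lit 4) (nat_lit 4) (nat_lit 5) (nat_lit 4) (nat_lit 4) (nat_lit 326) (nat_lit 267) (nat_lit 127)) (XT.nd (nat_lit 78) (nat_lit 0) (nat_lit 0) (XT.lf (nat_lit 0) (nat_lit 967672623718) (nat_lit 76) (nat_lit 169672376833) (nat_lit 76) (nat_lit 30013017040) (nat_lit 3) (nat_lit 4) (nat_lit 4) (nat_lit 5) (nat_lit 4) (nat_lit 4) (nat_lit 327)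 (nat_lit 267) (nat_lit 126)) (XT.lf (nat_lit 0) (nat_lit 1115965742898) (nat_lit 76) (nat_lit 140598733130) (nat_lit 76) (nat_lit 939172892) (nat_lit 3) (nat_lit 4) (nat_lit 4) (nat_lit 5) (nat_lit 4) (nat_lit 4) (nat_lit 328) (nat_lit 267) (nat_lit 125))))) (XT.nd (nat_lit 234) (nat_lit 0) (nat_lit 0) (XT.nd (nat_lit 78) (nat_lit 76) (nat_lit 0) (XT.lf (nat_lit 0) (nat_lit 28936705288) (nat_lit 152) (nat_lit 79471398834) (nat_lit 76) (nat_lit 1246394229610) (nat_lit 2) (nat_lit 5) (nat_lit 4) (nat_lit 5) (nat_lit 3) (nat_lit 4) (nat_lit 329) (nat_lit 267) (nat_lit 124)) (XT.nd (nat_lit 78) (nat_lit 76) (nat_lit 0) (XT.lf (nat_lit 0) (nat_lit 61151810306) (nat_lit 152) (nat_lit 12464152247) (nat_lit 76) (nat_lit 1386267007760) (nat_lit 2) (nat_lit 5) (nat_lit 4) (nat_lit 5) (nat_lit 3) (nat_lit 4) (nat_lit 330) (nat_lit 267) (nat_lit 123)) (XT.lf (nat_lit 0) (nat_lit 63057913046) (nat_lit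 76) (nat_lit 34402658997) (nat_lit 152) (nat_lit 1475788170109) (nat_lit 1) (nat_lit 5) (nat_lit 2) (nat_lit 5) (nat_lit 3) (nat_lit 4) (nat_lit 331) (nat_lit 267) (nat_lit 122)))) (XT.nd (nat_lit 32526) (nat_lit 0) (nat_lit 2356) (XT.lf (nat_lit 0) (nat_lit 137214726279) (nat_lit 152) (nat_lit 1550526090388) (nat_lit 0) (nat_lit 7899703930) (nat_lit 1) (nat_lit 5) (nat_lit 3) (nat_lit 4) (nat_lit 1) (nat_lit 4) (nat_lit 332) (nat_lit 267) (nat_lit 121)) (XT.nd (nat_lit 78) (nat_lit 0) (nat_lit 0) (XT.lf (nat_lit 0) (nat_lit 4106242319) (nat_lit 532) (nat_lit 6823838521) (nat_lit 532) (nat_lit 6823838521) (nat_lit 32) (nat_lit 3) (nat_lit 39) (nat_lit 3) (nat_lit 39) (nat_lit 5) (nat_lit 268) (nat_lit 268) (nat_lit 184)) (XT.lf (nat_lit 76) (nat_lit 1078350948) (nat_lit 0) (nat_lit 7534332319) (nat_lit 532) (nat_lit 28309437374) (nat_lit 33) (nat_lit 5) (nat_lit 32) (nat_lit 3) (nat_lit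 39) (nat_lit 5) (nat_lit 269) (nat_lit 268) (nat_lit 183)))))) (XT.nd (nat_lit 468) (nat_lit 684) (nat_lit 0) (XT.nd (nat_lit 234) (nat_lit 0) (nat_lit 76) (XT.nd (nat_lit 78) (nat_lit 0) (nat_lit 0) (XT.lf (nat_lit 0) (nat_lit 9614047308) (nat_lit 456) (nat_lit 20864734992) (nat_lit 532) (nat_lit 7925260432) (nat_lit 33) (nat_lit 5) (nat_lit 39) (nat_lit 5) (nat_lit 40) (nat_lit 5) (nat_lit 270) (nat_lit 268) (nat_lit 182)) (XT.nd (nat_lit 78) (nat_lit 0) (nat_lit 76) (XT.lf (nat_lit 0) (nat_lit 10886964642) (nat_lit 456) (nat_lit 4885915050) (nat_lit 532) (nat_lit 24216350758) (nat_lit 33) (nat_lit 5) (nat_lit 39) (nat_lit 5) (nat_lit 40) (nat_lit 5) (nat_lit 271) (nat_lit 268) (nat_lit 181)) (XT.lf (nat_lit 0) (nat_lit 12581704243) (nat_lit 456) (nat_lit 28667433467) (nat_lit 532) (nat_lit 426521727) (nat_lit 34) (nat_lit 5) (nat_lit 40) (nat_lit 5) (nat_lit 41) (nat_lit 5) (nat_lit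 272) (nat_lit 268) (nat_lit 180)))) (XT.nd (nat_lit 78) (nat_lit 0) (nat_lit 0) (XT.lf (nat_lit 0) (nat_lit 14955087428) (nat_lit 456) (nat_lit 11290617241) (nat_lit 532) (nat_lit 17207876405) (nat_lit 34) (nat_lit 5) (nat_lit 40) (nat_lit 5) (nat_lit 41) (nat_lit 5) (nat_lit 273) (nat_lit 268) (nat_lit 179)) (XT.nd (nat_lit 78) (nat_lit 0) (nat_lit 76) (XT.lf (nat_lit 76) (nat_lit 7867197815) (nat_lit 0) (nat_lit 9836942152) (nat_lit 532) (nat_lit 27654754324) (nat_lit 35) (nat_lit 5) (nat_lit 34) (nat_lit 5) (nat_lit 41) (nat_lit 5) (nat_lit 274) (nat_lit 268) (nat_lit 178)) (XT.lf (nat_lit 0) (nat_lit 21176259291) (nat_lit 456) (nat_lit 18392751037) (nat_lit 76) (nat_lit 7807390966) (nat_lit 35) (nat_lit 5) (nat_lit 41) (nat_lit 5) (nat_lit 36) (nat_lit 5) (nat_lit 275) (nat_lit 268) (nat_lit 177))))) (XT.nd (nat_lit 234) (nat_lit 380) (nat_lit 0) (XT.nd (nat_lit 78) (nat_lit 0)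 (nat_lit 0) (XT.lf (nat_lit 0) (nat_lit 2079949643) (nat_lit 456) (nat_lit 23148759535) (nat_lit 532) (nat_lit 24302413438) (nat_lit 29) (nat_lit 5) (nat_lit 35) (nat_lit 5) (nat_lit 36) (nat_lit 5) (nat_lit 276) (nat_lit 268) (nat_lit 176)) (XT.nd (nat_lit 78) (nat_lit 0) (nat_lit 0) (XT.lf (nat_lit 0) (nat_lit 25233843948) (nat_lit 456) (nat_lit 4871591112) (nat_lit 532) (nat_lit 21712797448) (nat_lit 29) (nat_lit 5) (nat_lit 35) (nat_lit 5) (nat_lit 36) (nat_lit 5) (nat_lit 277) (nat_lit 268) (nat_lit 175)) (XT.lf (nat_lit 0) (nat_lit 35727270466) (nat_lit 532) (nat_lit 4408498569) (nat_lit 76) (nat_lit 14124160422) (nat_lit 29) (nat_lit 5) (nat_lit 36) (nat_lit 5) (nat_lit 30) (nat_lit 5) (nat_lit 278) (nat_lit 268) (nat_lit 174)))) (XT.nd (nat_lit 78) (nat_lit 152) (nat_lit 0) (XT.lf (nat_lit 0) (nat_lit 20434683595) (nat_lit 228) (nat_lit 21979752730) (nat_lit 304) (nat_lit 14433293946)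 (nat_lit 26) (nat_lit 5) (nat_lit 29) (nat_lit 5) (nat_lit 30) (nat_lit 5) (nat_lit 279) (nat_lit 268) (nat_lit 173)) (XT.nd (nat_lit 78) (nat_lit 152) (nat_lit 0) (XT.lf (nat_lit 0) (nat_lit 47513628255) (nat_lit 228) (nat_lit 2241197836) (nat_lit 304) (nat_lit 9878282712) (nat_lit 26) (nat_lit 5) (nat_lit 29) (nat_lit 5) (nat_lit 30) (nat_lit 5) (nat_lit 280) (nat_lit 268) (nat_lit 172)) (XT.lf (nat_lit 0) (nat_lit 14375494178) (nat_lit 152) (nat_lit 44109353773) (nat_lit 228) (nat_lit 4092290280) (nat_lit 24) (nat_lit 5) (nat_lit 26) (nat_lit 5) (nat_lit 27) (nat_lit 5) (nat_lit 281) (nat_lit 268) (nat_lit 171))))))))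
noncomputable def xc97 : XT := (XT.nd (nat_lit 1872) (nat_lit 380) (nat_lit 0) (XT.nd (nat_lit 936) (nat_lit 380) (nat_lit 0) (XT.nd (nat_lit 468) (nat_lit 456) (nat_lit 0) (XT.nd (nat_lit 234) (nat_lit 152) (nat_lit 0) (XT.nd (nat_lit 78) (nat_lit 228) (nat_lit 0) (XT.lf (nat_lit 0) (nat_lit 2444806550) (nat_lit 228) (nat_lit 22172021619) (nat_lit 76) (nat_lit 41104034981) (nat_lit 23) (nat_lit 5) (nat_lit 26) (nat_lit 5) (nat_lit 24) (nat_lit 5) (nat_lit 282) (nat_lit 268) (nat_lit 170)) (XT.nd (nat_lit 78) (nat_lit 0) (nat_lit 0) (XT.lf (nat_lit 0) (nat_lit 6138463144) (nat_lit 228) (nat_lit 3291020403) (nat_lit 304) (nat_lit 59666452935) (nat_lit 20) (nat_lit 5) (nat_lit 23) (nat_lit 5) (nat_lit 24) (nat_lit 5) (nat_lit 283) (nat_lit 268) (nat_lit 169)) (XT.lf (nat_lit 0) (nat_lit 18067823160) (nat_lit 304) (nat_lit 35210676905) (nat_lit 76) (nat_lit 19374933864) (nat_lit 20) (nat_lit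 5) (nat_lit 24) (nat_lit 5) (nat_lit 21) (nat_lit 5) (nat_lit 284) (nat_lit 268) (nat_lit 168)))) (XT.nd (nat_lit 78) (nat_lit 152) (nat_lit 0) (XT.lf (nat_lit 0) (nat_lit 27480999967) (nat_lit 304) (nat_lit 5331816156) (nat_lit 76) (nat_lit 43676022084) (nat_lit 20) (nat_lit 5) (nat_lit 24) (nat_lit 5) (nat_lit 21) (nat_lit 5) (nat_lit 285) (nat_lit 268) (nat_lit 167)) (XT.nd (nat_lit 78) (nat_lit 0) (nat_lit 0) (XT.lf (nat_lit 0) (nat_lit 28353684053) (nat_lit 152) (nat_lit 9973869365) (nat_lit 228) (nat_lit 42249103603) (nat_lit 18) (nat_lit 5) (nat_lit 20) (nat_lit 5) (nat_lit 21) (nat_lit 5) (nat_lit 286) (nat_lit 268) (nat_lit 166)) (XT.lf (nat_lit 0) (nat_lit 50543220645) (nat_lit 228) (nat_lit 20301824838) (nat_lit 76) (nat_lit 14106352102) (nat_lit 18) (nat_lit 5) (nat_lit 21) (nat_lit 5) (nat_lit 19) (nat_lit 5) (nat_lit 287) (nat_lit 268) (nat_lit 165))))) (XT.nd (nat_lit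 234) (nat_lit 304) (nat_lit 0) (XT.nd (nat_lit 78) (nat_lit 0) (nat_lit 0) (XT.lf (nat_lit 0) (nat_lit 14644589673) (nat_lit 152) (nat_lit 49701402953) (nat_lit 228) (nat_lit 25281343513) (nat_lit 16) (nat_lit 5) (nat_lit 18) (nat_lit 5) (nat_lit 19) (nat_lit 5) (nat_lit 288) (nat_lit 268) (nat_lit 164)) (XT.nd (nat_lit 78) (nat_lit 0) (nat_lit 0) (XT.lf (nat_lit 0) (nat_lit 53539403754) (nat_lit 152) (nat_lit 26267316633) (nat_lit 228) (nat_lit 14826337014) (nat_lit 16) (nat_lit 5) (nat_lit 18) (nat_lit 5) (nat_lit 19) (nat_lit 5) (nat_lit 289) (nat_lit 268) (nat_lit 163)) (XT.lf (nat_lit 0) (nat_lit 95544047074) (nat_lit 152) (nat_lit 959005733) (nat_lit 228) (nat_lit 3536289719) (nat_lit 16) (nat_lit 5) (nat_lit 18) (nat_lit 5) (nat_lit 19) (nat_lit 5) (nat_lit 290) (nat_lit 268) (nat_lit 162)))) (XT.nd (nat_lit 78) (nat_lit 152) (nat_lit 0) (XT.lf (nat_lit 0) (nat_lit 9766842035)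 (nat_lit 152) (nat_lit 69798987719) (nat_lit 76) (nat_lit 26172214781) (nat_lit 14) (nat_lit 5) (nat_lit 16) (nat_lit 5) (nat_lit 15) (nat_lit 5) (nat_lit 291) (nat_lit 268) (nat_lit 161)) (XT.nd (nat_lit 78) (nat_lit 152) (nat_lit 0) (XT.lf (nat_lit 0) (nat_lit 24093024617) (nat_lit 152) (nat_lit 32140689903) (nat_lit 76) (nat_lit 55639596573) (nat_lit 14) (nat_lit 5) (nat_lit 16) (nat_lit 5) (nat_lit 15) (nat_lit 5) (nat_lit 292) (nat_lit 268) (nat_lit 160)) (XT.lf (nat_lit 0) (nat_lit 8977769384) (nat_lit 152) (nat_lit 30802374609) (nat_lit 228) (nat_lit 78702071926) (nat_lit 12) (nat_lit 5) (nat_lit 14) (nat_lit 5) (nat_lit 15) (nat_lit 5) (nat_lit 293) (nat_lit 268) (nat_lit 159)))))) (XT.nd (nat_lit 468) (nat_lit 76) (nat_lit 0) (XT.nd (nat_lit 234) (nat_lit 228) (nat_lit 0) (XT.nd (nat_lit 78) (nat_lit 76) (nat_lit 0) (XT.lf (nat_lit 0) (nat_lit 55212008867) (nat_lit 152) (nat_lit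 2387975938) (nat_lit 228) (nat_lit 67949632176) (nat_lit 12) (nat_lit 5) (nat_lit 14) (nat_lit 5) (nat_lit 15) (nat_lit 5) (nat_lit 294) (nat_lit 268) (nat_lit 158)) (XT.nd (nat_lit 78) (nat_lit 76) (nat_lit 0) (XT.lf (nat_lit 0) (nat_lit 77525051305) (nat_lit 228) (nat_lit 28719546337) (nat_lit 76) (nat_lit 26883445115) (nat_lit 12) (nat_lit 5) (nat_lit 15) (nat_lit 5) (nat_lit 13) (nat_lit 4) (nat_lit 295) (nat_lit 268) (nat_lit 157)) (XT.lf (nat_lit 0) (nat_lit 17015724693) (nat_lit 76) (nat_lit 82498756972) (nat_lit 152) (nat_lit 41760635677) (nat_lit 11) (nat_lit 5) (nat_lit 12) (nat_lit 5) (nat_lit 13) (nat_lit 4) (nat_lit 296) (nat_lit 268) (nat_lit 156)))) (XT.nd (nat_lit 78) (nat_lit 228) (nat_lit 0) (XT.lf (nat_lit 0) (nat_lit 68041753241) (nat_lit 76) (nat_lit 56005694481) (nat_lit 152) (nat_lit 25963762844) (nat_lit 11) (nat_lit 5) (nat_lit 12) (nat_lit 5) (nat_lit 13)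 (nat_lit 4) (nat_lit 297) (nat_lit 268) (nat_lit 155)) (XT.nd (nat_lit 78) (nat_lit 228) (nat_lit 0) (XT.lf (nat_lit 0) (nat_lit 123148595356) (nat_lit 76) (nat_lit 27393657536) (nat_lit 152) (nat_lit 8904005150) (nat_lit 11) (nat_lit 5) (nat_lit 12) (nat_lit 5) (nat_lit 13) (nat_lit 4) (nat_lit 298) (nat_lit 268) (nat_lit 154)) (XT.lf (nat_lit 0) (nat_lit 9466212151) (nat_lit 228) (nat_lit 156219046346) (nat_lit 76) (nat_lit 3898781047) (nat_lit 8) (nat_lit 5) (nat_lit 11) (nat_lit 5) (nat_lit 9) (nat_lit 4) (nat_lit 299) (nat_lit 268) (nat_lit 153))))) (XT.nd (nat_lit 234) (nat_lit 76) (nat_lit 0) (XT.nd (nat_lit 78) (nat_lit 0) (nat_lit 0) (XT.lf (nat_lit 0) (nat_lit 30553999093) (nat_lit 228) (nat_lit 112358317108) (nat_lit 76) (nat_lit 37463707885) (nat_lit 8) (nat_lit 5) (nat_lit 11) (nat_lit 5) (nat_lit 9) (nat_lit 4) (nat_lit 300) (nat_lit 268) (nat_lit 152)) (XT.nd (nat_lit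 78) (nat_lit 0) (nat_lit 0) (XT.lf (nat_lit 0) (nat_lit 53328120181) (nat_lit 228) (nat_lit 64989874503) (nat_lit 76) (nat_lit 73713429971) (nat_lit 8) (nat_lit 5) (nat_lit 11) (nat_lit 5) (nat_lit 9) (nat_lit 4) (nat_lit 301) (nat_lit 268) (nat_lit 151)) (XT.lf (nat_lit 0) (nat_lit 77923533172) (nat_lit 228) (nat_lit 13833016650) (nat_lit 76) (nat_lit 112862760474) (nat_lit 8) (nat_lit 5) (nat_lit 11) (nat_lit 5) (nat_lit 9) (nat_lit 4) (nat_lit 302) (nat_lit 268) (nat_lit 150)))) (XT.nd (nat_lit 78) (nat_lit 0) (nat_lit 0) (XT.lf (nat_lit 0) (nat_lit 43596270201) (nat_lit 76) (nat_lit 61938209804) (nat_lit 152) (nat_lit 112595916571) (nat_lit 7) (nat_lit 5) (nat_lit 8) (nat_lit 5) (nat_lit 9) (nat_lit 4) (nat_lit 303) (nat_lit 268) (nat_lit 149)) (XT.nd (nat_lit 78) (nat_lit 0) (nat_lit 0) (XT.lf (nat_lit 0) (nat_lit 106405639137) (nat_lit 76) (nat_lit 29326312828) (nat_lit 152)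 (nat_lit 96960207557) (nat_lit 7) (nat_lit 5) (nat_lit 8) (nat_lit 5) (nat_lit 9) (nat_lit 4) (nat_lit 304) (nat_lit 268) (nat_lit 148)) (XT.lf (nat_lit 0) (nat_lit 168486449196) (nat_lit 152) (nat_lit 74321790733) (nat_lit 0) (nat_lit 5599326964) (nat_lit 7) (nat_lit 5) (nat_lit 9) (nat_lit 4) (nat_lit 7) (nat_lit 4) (nat_lit 305) (nat_lit 268) (nat_lit 147))))))) (XT.nd (nat_lit 936) (nat_lit 152) (nat_lit 0) (XT.nd (nat_lit 468) (nat_lit 76) (nat_lit 0) (XT.nd (nat_lit 234) (nat_lit 76) (nat_lit 0) (XT.nd (nat_lit 78) (nat_lit 76) (nat_lit 0) (XT.lf (nat_lit 0) (nat_lit 204622532117) (nat_lit 152) (nat_lit 18962457976) (nat_lit 0) (nat_lit 41734320157) (nat_lit 7) (nat_lit 5) (nat_lit 9) (nat_lit 4) (nat_lit 7) (nat_lit 4) (nat_lit 306) (nat_lit 268) (nat_lit 146)) (XT.nd (nat_lit 78) (nat_lit 0) (nat_lit 0) (XT.lf (nat_lit 0) (nat_lit 42974595010) (nat_lit 76) (nat_lit 201707986984)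 (nat_lit 76) (nat_lit 38818766018) (nat_lit 6) (nat_lit 4) (nat_lit 7) (nat_lit 5) (nat_lit 7) (nat_lit 4) (nat_lit 307) (nat_lit 268) (nat_lit 145)) (XT.lf (nat_lit 0) (nat_lit 110944254332) (nat_lit 76) (nat_lit 177521204556) (nat_lit 76) (nat_lit 14631049325) (nat_lit 6) (nat_lit 4) (nat_lit 7) (nat_lit 5) (nat_lit 7) (nat_lit 4) (nat_lit 308) (nat_lit 268) (nat_lit 144)))) (XT.nd (nat_lit 78) (nat_lit 0) (nat_lit 0) (XT.lf (nat_lit 0) (nat_lit 10916401024) (nat_lit 152) (nat_lit 140184906160) (nat_lit 76) (nat_lit 173135898950) (nat_lit 5) (nat_lit 5) (nat_lit 7) (nat_lit 5) (nat_lit 6) (nat_lit 4) (nat_lit 309) (nat_lit 268) (nat_lit 143)) (XT.nd (nat_lit 78) (nat_lit 0) (nat_lit 0) (XT.lf (nat_lit 0) (nat_lit 37716798982) (nat_lit 152) (nat_lit 84440879390) (nat_lit 76) (nat_lit 224881111675) (nat_lit 5) (nat_lit 5) (nat_lit 7) (nat_lit 5) (nat_lit 6) (nat_lit 4) (nat_lit 310)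 (nat_lit 268) (nat_lit 142)) (XT.lf (nat_lit 0) (nat_lit 66660866064) (nat_lit 152) (nat_lit 24237961509) (nat_lit 76) (nat_lit 280765703044) (nat_lit 5) (nat_lit 5) (nat_lit 7) (nat_lit 5) (nat_lit 6) (nat_lit 4) (nat_lit 311) (nat_lit 268) (nat_lit 141))))) (XT.nd (nat_lit 234) (nat_lit 0) (nat_lit 0) (XT.nd (nat_lit 78) (nat_lit 0) (nat_lit 0) (XT.lf (nat_lit 0) (nat_lit 42928039929) (nat_lit 76) (nat_lit 56024503131) (nat_lit 152) (nat_lit 299225221467) (nat_lit 4) (nat_lit 5) (nat_lit 5) (nat_lit 5) (nat_lit 6) (nat_lit 4) (nat_lit 312) (nat_lit 268) (nat_lit 140)) (XT.nd (nat_lit 78) (nat_lit 0) (nat_lit 0) (XT.lf (nat_lit 0) (nat_lit 116845186336) (nat_lit 76) (nat_lit 17644752038) (nat_lit 152) (nat_lit 292269128838) (nat_lit 4) (nat_lit 5) (nat_lit 5) (nat_lit 5) (nat_lit 6) (nat_lit 4) (nat_lit 313) (nat_lit 268) (nat_lit 139)) (XT.lf (nat_lit 0) (nat_lit 173442539186) (nat_lit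 152) (nat_lit 261524236243) (nat_lit 0) (nat_lit 22614322308) (nat_lit 4) (nat_lit 5) (nat_lit 6) (nat_lit 4) (nat_lit 4) (nat_lit 4) (nat_lit 314) (nat_lit 268) (nat_lit 138)))) (XT.nd (nat_lit 78) (nat_lit 0) (nat_lit 0) (XT.lf (nat_lit 0) (nat_lit 215969369916) (nat_lit 152) (nat_lit 209722231438) (nat_lit 0) (nat_lit 65140648284) (nat_lit 4) (nat_lit 5) (nat_lit 6) (nat_lit 4) (nat_lit 4) (nat_lit 4) (nat_lit 315) (nat_lit 268) (nat_lit 137)) (XT.nd (nat_lit 78) (nat_lit 0) (nat_lit 0) (XT.lf (nat_lit 0) (nat_lit 261898084701) (nat_lit 152) (nat_lit 153776534908) (nat_lit 0) (nat_lit 111068895704) (nat_lit 4) (nat_lit 5) (nat_lit 6) (nat_lit 4) (nat_lit 4) (nat_lit 4) (nat_lit 316) (nat_lit 268) (nat_lit 136)) (XT.lf (nat_lit 0) (nat_lit 311500853704) (nat_lit 152) (nat_lit 93355616599) (nat_lit 0) (nat_lit 160671231960) (nat_lit 4) (nat_lit 5) (nat_lit 6) (nat_lit 4) (nat_lit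 4) (nat_lit 4) (nat_lit 317) (nat_lit 268) (nat_lit 135)))))) (XT.nd (nat_lit 468) (nat_lit 76) (nat_lit 0) (XT.nd (nat_lit 234) (nat_lit 0) (nat_lit 0) (XT.nd (nat_lit 78) (nat_lit 76) (nat_lit 0) (XT.lf (nat_lit 0) (nat_lit 365071619258) (nat_lit 152) (nat_lit 28101426625) (nat_lit 0) (nat_lit 214241596824) (nat_lit 4) (nat_lit 5) (nat_lit 6) (nat_lit 4) (nat_lit 4) (nat_lit 4) (nat_lit 318) (nat_lit 268) (nat_lit 134)) (XT.nd (nat_lit 78) (nat_lit 0) (nat_lit 0) (XT.lf (nat_lit 0) (nat_lit 44603999195) (nat_lit 76) (nat_lit 379396565811) (nat_lit 76) (nat_lit 228566172367) (nat_lit 3) (nat_lit 4) (nat_lit 4) (nat_lit 5) (nat_lit 4) (nat_lit 4) (nat_lit 319) (nat_lit 268) (nat_lit 133)) (XT.lf (nat_lit 0) (nat_lit 124723649496) (nat_lit 76) (nat_lit 363688318127) (nat_lit 76) (nat_lit 212857581156) (nat_lit 3) (nat_lit 4) (nat_lit 4) (nat_lit 5) (nat_lit 4) (nat_lit 4) (nat_lit 320)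 (nat_lit 268) (nat_lit 132)))) (XT.nd (nat_lit 78) (nat_lit 0) (nat_lit 0) (XT.lf (nat_lit 0) (nat_lit 211252536064) (nat_lit 76) (nat_lit 346723559723) (nat_lit 76) (nat_lit 195892504671) (nat_lit 3) (nat_lit 4) (nat_lit 4) (nat_lit 5) (nat_lit 4) (nat_lit 4) (nat_lit 321) (nat_lit 268) (nat_lit 131)) (XT.nd (nat_lit 78) (nat_lit 0) (nat_lit 0) (XT.lf (nat_lit 0) (nat_lit 304703422671) (nat_lit 76) (nat_lit 328401758699) (nat_lit 76) (nat_lit 177570409128) (nat_lit 3) (nat_lit 4) (nat_lit 4) (nat_lit 5) (nat_lit 4) (nat_lit 4) (nat_lit 322) (nat_lit 268) (nat_lit 130)) (XT.lf (nat_lit 0) (nat_lit 405630092348) (nat_lit 76) (nat_lit 308614341418) (nat_lit 76) (nat_lit 157782719144) (nat_lit 3) (nat_lit 4) (nat_lit 4) (nat_lit 5) (nat_lit 4) (nat_lit 4) (nat_lit 323) (nat_lit 268) (nat_lit 129))))) (XT.nd (nat_lit 234) (nat_lit 76) (nat_lit 0) (XT.nd (nat_lit 78) (nat_lit 0) (nat_lit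 0) (XT.lf (nat_lit 0) (nat_lit 514630629064) (nat_lit 76) (nat_lit 287244049112) (nat_lit 76) (nat_lit 136412174335) (nat_lit 3) (nat_lit 4) (nat_lit 4) (nat_lit 5) (nat_lit 4) (nat_lit 4) (nat_lit 324) (nat_lit 268) (nat_lit 128)) (XT.nd (nat_lit 78) (nat_lit 0) (nat_lit 0) (XT.lf (nat_lit 0) (nat_lit 632350961925) (nat_lit 76) (nat_lit 264164243011) (nat_lit 76) (nat_lit 113332134435) (nat_lit 3) (nat_lit 4) (nat_lit 4) (nat_lit 5) (nat_lit 4) (nat_lit 4) (nat_lit 325) (nat_lit 268) (nat_lit 127)) (XT.lf (nat_lit 0) (nat_lit 759488692905) (nat_lit 76) (nat_lit 239238153894) (nat_lit 76) (nat_lit 88405828837) (nat_lit 3) (nat_lit 4) (nat_lit 4) (nat_lit 5) (nat_lit 4) (nat_lit 4) (nat_lit 326) (nat_lit 268) (nat_lit 126)))) (XT.nd (nat_lit 156) (nat_lit 76) (nat_lit 0) (XT.nd (nat_lit 78) (nat_lit 0) (nat_lit 0) (XT.lf (nat_lit 0) (nat_lit 896797230778) (nat_lit 76) (nat_lit 212318071603)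 (nat_lit 76) (nat_lit 61485546101) (nat_lit 3) (nat_lit 4) (nat_lit 4) (nat_lit 5) (nat_lit 4) (nat_lit 4) (nat_lit 327) (nat_lit 268) (nat_lit 125)) (XT.lf (nat_lit 0) (nat_lit 1045090255770) (nat_lit 76) (nat_lit 183244469724) (nat_lit 76) (nat_lit 32411758625) (nat_lit 3) (nat_lit 4) (nat_lit 4) (nat_lit 5) (nat_lit 4) (nat_lit 4) (nat_lit 328) (nat_lit 268) (nat_lit 124))) (XT.nd (nat_lit 78) (nat_lit 76) (nat_lit 0) (XT.lf (nat_lit 0) (nat_lit 1205246541363) (nat_lit 76) (nat_lit 151845060247) (nat_lit 76) (nat_lit 1012177299) (nat_lit 3) (nat_lit 4) (nat_lit 4) (nat_lit 5) (nat_lit 4) (nat_lit 4) (nat_lit 329) (nat_lit 268) (nat_lit 123)) (XT.lf (nat_lit 0) (nat_lit 31253514768) (nat_lit 152) (nat_lit 85825731348) (nat_lit 76) (nat_lit 1346107120591) (nat_lit 2) (nat_lit 5) (nat_lit 4) (nat_lit 5) (nat_lit 3) (nat_lit 4) (nat_lit 330) (nat_lit 268) (nat_lit 122))))))))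
noncomputable def xc98 : XT := (XT.nd (nat_lit 34398) (nat_lit 0) (nat_lit 228) (XT.nd (nat_lit 33462) (nat_lit 0) (nat_lit 1140) (XT.nd (nat_lit 32994) (nat_lit 0) (nat_lit 2128) (XT.nd (nat_lit 32760) (nat_lit 0) (nat_lit 2356) (XT.nd (nat_lit 78) (nat_lit 76) (nat_lit 0) (XT.lf (nat_lit 0) (nat_lit 66045689442) (nat_lit 152) (nat_lit 13458155359) (nat_lit 76) (nat_lit 1497169620799) (nat_lit 2) (nat_lit 5) (nat_lit 4) (nat_lit 5) (nat_lit 3) (nat_lit 4) (nat_lit 331) (nat_lit 268) (nat_lit 121)) (XT.nd (nat_lit 32604) (nat_lit 0) (nat_lit 2356) (XT.lf (nat_lit 0) (nat_lit 68105595940) (nat_lit 76) (nat_lit 37153501059) (nat_lit 152) (nat_lit 1593849406863) (nat_lit 1) (nat_lit 5) (nat_lit 2) (nat_lit 5) (nat_lit 3) (nat_lit 4) (nat_lit 332) (nat_lit 268) (nat_lit 120)) (XT.lf (nat_lit 0) (nat_lit 4479405935) (nat_lit 532) (nat_lit 7345482628) (nat_lit 532) (nat_lit 7345482628) (nat_lit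 32) (nat_lit 3) (nat_lit 39) (nat_lit 3) (nat_lit 39) (nat_lit 5) (nat_lit 269) (nat_lit 269) (nat_lit 182)))) (XT.nd (nat_lit 78) (nat_lit 0) (nat_lit 76) (XT.lf (nat_lit 76) (nat_lit 1211916469) (nat_lit 0) (nat_lit 8173630500) (nat_lit 532) (nat_lit 30483100989) (nat_lit 33) (nat_lit 5) (nat_lit 32) (nat_lit 3) (nat_lit 39) (nat_lit 5) (nat_lit 270) (nat_lit 269) (nat_lit 181)) (XT.nd (nat_lit 78) (nat_lit 0) (nat_lit 0) (XT.lf (nat_lit 0) (nat_lit 10459995143) (nat_lit 456) (nat_lit 22482600045) (nat_lit 532) (nat_lit 8527130214) (nat_lit 33) (nat_lit 5) (nat_lit 39) (nat_lit 5) (nat_lit 40) (nat_lit 5) (nat_lit 271) (nat_lit 269) (nat_lit 180)) (XT.lf (nat_lit 0) (nat_lit 11829055193) (nat_lit 456) (nat_lit 5229275525) (nat_lit 532) (nat_lit 26123889325) (nat_lit 33) (nat_lit 5) (nat_lit 39) (nat_lit 5) (nat_lit 40) (nat_lit 5) (nat_lit 272) (nat_lit 269) (nat_lit 179))))) (XT.nd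 (nat_lit 234) (nat_lit 380) (nat_lit 0) (XT.nd (nat_lit 78) (nat_lit 0) (nat_lit 0) (XT.lf (nat_lit 0) (nat_lit 13654721508) (nat_lit 456) (nat_lit 30908238729) (nat_lit 532) (nat_lit 441009248) (nat_lit 34) (nat_lit 5) (nat_lit 40) (nat_lit 5) (nat_lit 41) (nat_lit 5) (nat_lit 273) (nat_lit 269) (nat_lit 178)) (XT.nd (nat_lit 78) (nat_lit 0) (nat_lit 0) (XT.lf (nat_lit 0) (nat_lit 16213050835) (nat_lit 456) (nat_lit 12145172717) (nat_lit 532) (nat_lit 18566326687) (nat_lit 34) (nat_lit 5) (nat_lit 40) (nat_lit 5) (nat_lit 41) (nat_lit 5) (nat_lit 274) (nat_lit 269) (nat_lit 177)) (XT.lf (nat_lit 76) (nat_lit 8544034787) (nat_lit 0) (nat_lit 10634574498) (nat_lit 532) (nat_lit 29803981789) (nat_lit 35) (nat_lit 5) (nat_lit 34) (nat_lit 5) (nat_lit 41) (nat_lit 5) (nat_lit 275) (nat_lit 269) (nat_lit 176)))) (XT.nd (nat_lit 78) (nat_lit 456) (nat_lit 0) (XT.lf (nat_lit 0) (nat_lit 22923953866)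 (nat_lit 456) (nat_lit 19815344557) (nat_lit 76) (nat_lit 8422590698) (nat_lit 35) (nat_lit 5) (nat_lit 41) (nat_lit 5) (nat_lit 36) (nat_lit 5) (nat_lit 276) (nat_lit 269) (nat_lit 175)) (XT.nd (nat_lit 78) (nat_lit 0) (nat_lit 0) (XT.lf (nat_lit 0) (nat_lit 2293936063) (nat_lit 456) (nat_lit 25003838320) (nat_lit 532) (nat_lit 26191464742) (nat_lit 29) (nat_lit 5) (nat_lit 35) (nat_lit 5) (nat_lit 36) (nat_lit 5) (nat_lit 277) (nat_lit 269) (nat_lit 174)) (XT.lf (nat_lit 0) (nat_lit 27296616694) (nat_lit 456) (nat_lit 5264261014) (nat_lit 532) (nat_lit 23398764048) (nat_lit 29) (nat_lit 5) (nat_lit 35) (nat_lit 5) (nat_lit 36) (nat_lit 5) (nat_lit 278) (nat_lit 269) (nat_lit 173)))))) (XT.nd (nat_lit 468) (nat_lit 304) (nat_lit 0) (XT.nd (nat_lit 234) (nat_lit 456) (nat_lit 0) (XT.nd (nat_lit 78) (nat_lit 228) (nat_lit 0) (XT.lf (nat_lit 0) (nat_lit 38628912355) (nat_lit 532) (nat_lit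 4716562387) (nat_lit 76) (nat_lit 15251504912) (nat_lit 29) (nat_lit 5) (nat_lit 36) (nat_lit 5) (nat_lit 30) (nat_lit 5) (nat_lit 279) (nat_lit 269) (nat_lit 172)) (XT.nd (nat_lit 78) (nat_lit 0) (nat_lit 0) (XT.lf (nat_lit 0) (nat_lit 22112944829) (nat_lit 228) (nat_lit 23735933229) (nat_lit 304) (nat_lit 15543120152) (nat_lit 26) (nat_lit 5) (nat_lit 29) (nat_lit 5) (nat_lit 30) (nat_lit 5) (nat_lit 280) (nat_lit 269) (nat_lit 171)) (XT.lf (nat_lit 0) (nat_lit 51354983836) (nat_lit 228) (nat_lit 2418456885) (nat_lit 304) (nat_lit 10627029303) (nat_lit 26) (nat_lit 5) (nat_lit 29) (nat_lit 5) (nat_lit 30) (nat_lit 5) (nat_lit 281) (nat_lit 269) (nat_lit 170)))) (XT.nd (nat_lit 78) (nat_lit 304) (nat_lit 0) (XT.lf (nat_lit 0) (nat_lit 15567936169) (nat_lit 152) (nat_lit 47632161554) (nat_lit 228) (nat_lit 4380082390) (nat_lit 24) (nat_lit 5) (nat_lit 26) (nat_lit 5) (nat_lit 27) (nat_lit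 5) (nat_lit 282) (nat_lit 269) (nat_lit 169)) (XT.nd (nat_lit 78) (nat_lit 228) (nat_lit 0) (XT.lf (nat_lit 0) (nat_lit 2675215708) (nat_lit 228) (nat_lit 23904506064) (nat_lit 76) (nat_lit 44395842512) (nat_lit 23) (nat_lit 5) (nat_lit 26) (nat_lit 5) (nat_lit 24) (nat_lit 5) (nat_lit 283) (nat_lit 269) (nat_lit 168)) (XT.lf (nat_lit 0) (nat_lit 6669772484) (nat_lit 228) (nat_lit 3547282365) (nat_lit 304) (nat_lit 64403731073) (nat_lit 20) (nat_lit 5) (nat_lit 23) (nat_lit 5) (nat_lit 24) (nat_lit 5) (nat_lit 284) (nat_lit 269) (nat_lit 167))))) (XT.nd (nat_lit 234) (nat_lit 152) (nat_lit 0) (XT.nd (nat_lit 78) (nat_lit 152) (nat_lit 0) (XT.lf (nat_lit 0) (nat_lit 19544157756) (nat_lit 304) (nat_lit 37987819072) (nat_lit 76) (nat_lit 20931103127) (nat_lit 20) (nat_lit 5) (nat_lit 24) (nat_lit 5) (nat_lit 21) (nat_lit 5) (nat_lit 285) (nat_lit 269) (nat_lit 166)) (XT.nd (nat_lit 78)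 (nat_lit 152) (nat_lit 0) (XT.lf (nat_lit 0) (nat_lit 29708099170) (nat_lit 304) (nat_lit 5721591092) (nat_lit 76) (nat_lit 47175821030) (nat_lit 20) (nat_lit 5) (nat_lit 24) (nat_lit 5) (nat_lit 21) (nat_lit 5) (nat_lit 286) (nat_lit 269) (nat_lit 165)) (XT.lf (nat_lit 0) (nat_lit 30657818239) (nat_lit 152) (nat_lit 10763300658) (nat_lit 228) (nat_lit 45599348054) (nat_lit 18) (nat_lit 5) (nat_lit 20) (nat_lit 5) (nat_lit 21) (nat_lit 5) (nat_lit 287) (nat_lit 269) (nat_lit 164)))) (XT.nd (nat_lit 78) (nat_lit 152) (nat_lit 0) (XT.lf (nat_lit 0) (nat_lit 54612201544) (nat_lit 228) (nat_lit 21890824351) (nat_lit 76) (nat_lit 15242317808) (nat_lit 18) (nat_lit 5) (nat_lit 21) (nat_lit 5) (nat_lit 19) (nat_lit 5) (nat_lit 288) (nat_lit 269) (nat_lit 163)) (XT.nd (nat_lit 78) (nat_lit 0) (nat_lit 0) (XT.lf (nat_lit 0) (nat_lit 15850413536) (nat_lit 152) (nat_lit 53667715010) (nat_lit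 228) (nat_lit 27277323305) (nat_lit 16) (nat_lit 5) (nat_lit 18) (nat_lit 5) (nat_lit 19) (nat_lit 5) (nat_lit 289) (nat_lit 269) (nat_lit 162)) (XT.lf (nat_lit 0) (nat_lit 57854275211) (nat_lit 152) (nat_lit 28359627724) (nat_lit 228) (nat_lit 15987881301) (nat_lit 16) (nat_lit 5) (nat_lit 18) (nat_lit 5) (nat_lit 19) (nat_lit 5) (nat_lit 290) (nat_lit 269) (nat_lit 161))))))) (XT.nd (nat_lit 936) (nat_lit 304) (nat_lit 0) (XT.nd (nat_lit 468) (nat_lit 304) (nat_lit 0) (XT.nd (nat_lit 234) (nat_lit 152) (nat_lit 0) (XT.nd (nat_lit 78) (nat_lit 152) (nat_lit 0) (XT.lf (nat_lit 0) (nat_lit 103216940430) (nat_lit 152) (nat_lit 1027324118) (nat_lit 228) (nat_lit 3796449679) (nat_lit 16) (nat_lit 5) (nat_lit 18) (nat_lit 5) (nat_lit 19) (nat_lit 5) (nat_lit 291) (nat_lit 269) (nat_lit 160)) (XT.nd (nat_lit 78) (nat_lit 0) (nat_lit 0) (XT.lf (nat_lit 0) (nat_lit 10569130646) (nat_lit 152)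 (nat_lit 75351559883) (nat_lit 76) (nat_lit 28274637993) (nat_lit 14) (nat_lit 5) (nat_lit 16) (nat_lit 5) (nat_lit 15) (nat_lit 5) (nat_lit 292) (nat_lit 269) (nat_lit 159)) (XT.lf (nat_lit 0) (nat_lit 26039856631) (nat_lit 152) (nat_lit 34682920231) (nat_lit 76) (nat_lit 60098769882) (nat_lit 14) (nat_lit 5) (nat_lit 16) (nat_lit 5) (nat_lit 15) (nat_lit 5) (nat_lit 293) (nat_lit 269) (nat_lit 158)))) (XT.nd (nat_lit 78) (nat_lit 0) (nat_lit 0) (XT.lf (nat_lit 0) (nat_lit 9724280993) (nat_lit 152) (nat_lit 33256908641) (nat_lit 228) (nat_lit 84978040576) (nat_lit 12) (nat_lit 5) (nat_lit 14) (nat_lit 5) (nat_lit 15) (nat_lit 5) (nat_lit 294) (nat_lit 269) (nat_lit 157)) (XT.nd (nat_lit 78) (nat_lit 0) (nat_lit 0) (XT.lf (nat_lit 0) (nat_lit 59655164075) (nat_lit 152) (nat_lit 2570073331) (nat_lit 228) (nat_lit 73366901727) (nat_lit 12) (nat_lit 5) (nat_lit 14) (nat_lit 5) (nat_lit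 15) (nat_lit 5) (nat_lit 295) (nat_lit 269) (nat_lit 156)) (XT.lf (nat_lit 0) (nat_lit 83743230261) (nat_lit 228) (nat_lit 30991714969) (nat_lit 76) (nat_lit 29041985014) (nat_lit 12) (nat_lit 5) (nat_lit 15) (nat_lit 5) (nat_lit 13) (nat_lit 4) (nat_lit 296) (nat_lit 269) (nat_lit 155))))) (XT.nd (nat_lit 234) (nat_lit 228) (nat_lit 0) (XT.nd (nat_lit 78) (nat_lit 0) (nat_lit 0) (XT.lf (nat_lit 0) (nat_lit 18401734830) (nat_lit 76) (nat_lit 89089477373) (nat_lit 152) (nat_lit 45084611409) (nat_lit 11) (nat_lit 5) (nat_lit 12) (nat_lit 5) (nat_lit 13) (nat_lit 4) (nat_lit 297) (nat_lit 269) (nat_lit 154)) (XT.nd (nat_lit 78) (nat_lit 0) (nat_lit 0) (XT.lf (nat_lit 0) (nat_lit 73508012168) (nat_lit 76) (nat_lit 60477649894) (nat_lit 152) (nat_lit 28025238759) (nat_lit 11) (nat_lit 5) (nat_lit 12) (nat_lit 5) (nat_lit 13) (nat_lit 4) (nat_lit 298) (nat_lit 269) (nat_lit 153)) (XT.lf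 (nat_lit 0) (nat_lit 133021703973) (nat_lit 76) (nat_lit 29577279634) (nat_lit 152) (nat_lit 9601857865) (nat_lit 11) (nat_lit 5) (nat_lit 12) (nat_lit 5) (nat_lit 13) (nat_lit 4) (nat_lit 299) (nat_lit 269) (nat_lit 152)))) (XT.nd (nat_lit 78) (nat_lit 0) (nat_lit 0) (XT.lf (nat_lit 0) (nat_lit 10236947515) (nat_lit 228) (nat_lit 168694232069) (nat_lit 76) (nat_lit 4218465893) (nat_lit 8) (nat_lit 5) (nat_lit 11) (nat_lit 5) (nat_lit 9) (nat_lit 4) (nat_lit 300) (nat_lit 269) (nat_lit 151)) (XT.nd (nat_lit 78) (nat_lit 0) (nat_lit 0) (XT.lf (nat_lit 0) (nat_lit 33010761976) (nat_lit 228) (nat_lit 121326299157) (nat_lit 76) (nat_lit 40468010407) (nat_lit 8) (nat_lit 5) (nat_lit 11) (nat_lit 5) (nat_lit 9) (nat_lit 4) (nat_lit 301) (nat_lit 269) (nat_lit 150)) (XT.lf (nat_lit 0) (nat_lit 57605891051) (nat_lit 228) (nat_lit 70169913241) (nat_lit 76) (nat_lit 79617176491) (nat_lit 8)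 (nat_lit 5) (nat_lit 11) (nat_lit 5) (nat_lit 9) (nat_lit 4) (nat_lit 302) (nat_lit 269) (nat_lit 149)))))) (XT.nd (nat_lit 468) (nat_lit 152) (nat_lit 0) (XT.nd (nat_lit 234) (nat_lit 76) (nat_lit 0) (XT.nd (nat_lit 78) (nat_lit 76) (nat_lit 0) (XT.lf (nat_lit 0) (nat_lit 84168083654) (nat_lit 228) (nat_lit 14921925370) (nat_lit 76) (nat_lit 121897959202) (nat_lit 8) (nat_lit 5) (nat_lit 11) (nat_lit 5) (nat_lit 9) (nat_lit 4) (nat_lit 303) (nat_lit 269) (nat_lit 148)) (XT.nd (nat_lit 78) (nat_lit 0) (nat_lit 0) (XT.lf (nat_lit 0) (nat_lit 47101255503) (nat_lit 76) (nat_lit 66886276194) (nat_lit 152) (nat_lit 121592442152) (nat_lit 7) (nat_lit 5) (nat_lit 8) (nat_lit 5) (nat_lit 9) (nat_lit 4) (nat_lit 304) (nat_lit 269) (nat_lit 147)) (XT.lf (nat_lit 0) (nat_lit 114934093681) (nat_lit 76) (nat_lit 31665945268) (nat_lit 152) (nat_lit 104706702176) (nat_lit 7) (nat_lit 5) (nat_lit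 8) (nat_lit 5) (nat_lit 9) (nat_lit 4) (nat_lit 305) (nat_lit 269) (nat_lit 146)))) (XT.nd (nat_lit 78) (nat_lit 76) (nat_lit 0) (XT.lf (nat_lit 0) (nat_lit 181974334106) (nat_lit 152) (nat_lit 80252127597) (nat_lit 0) (nat_lit 6052966456) (nat_lit 7) (nat_lit 5) (nat_lit 9) (nat_lit 4) (nat_lit 7) (nat_lit 4) (nat_lit 306) (nat_lit 269) (nat_lit 145)) (XT.nd (nat_lit 78) (nat_lit 76) (nat_lit 0) (XT.lf (nat_lit 0) (nat_lit 221000639292) (nat_lit 152) (nat_lit 20465189434) (nat_lit 0) (nat_lit 45078337376) (nat_lit 7) (nat_lit 5) (nat_lit 9) (nat_lit 4) (nat_lit 7) (nat_lit 4) (nat_lit 307) (nat_lit 269) (nat_lit 144)) (XT.lf (nat_lit 0) (nat_lit 46426466647) (nat_lit 76) (nat_lit 217838745749) (nat_lit 76) (nat_lit 41915578773) (nat_lit 6) (nat_lit 4) (nat_lit 7) (nat_lit 5) (nat_lit 7) (nat_lit 4) (nat_lit 308) (nat_lit 269) (nat_lit 143))))) (XT.nd (nat_lit 234) (nat_lit 76) (nat_lit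 0) (XT.nd (nat_lit 78) (nat_lit 76) (nat_lit 0) (XT.lf (nat_lit 0) (nat_lit 119832668786) (nat_lit 76) (nat_lit 191717456297) (nat_lit 76) (nat_lit 15793488339) (nat_lit 6) (nat_lit 4) (nat_lit 7) (nat_lit 5) (nat_lit 7) (nat_lit 4) (nat_lit 309) (nat_lit 269) (nat_lit 142)) (XT.nd (nat_lit 78) (nat_lit 0) (nat_lit 0) (XT.lf (nat_lit 0) (nat_lit 11796789488) (nat_lit 152) (nat_lit 151387387472) (nat_lit 76) (nat_lit 186991421473) (nat_lit 5) (nat_lit 5) (nat_lit 7) (nat_lit 5) (nat_lit 6) (nat_lit 4) (nat_lit 310) (nat_lit 269) (nat_lit 141)) (XT.lf (nat_lit 0) (nat_lit 40740695106) (nat_lit 152) (nat_lit 91184750499) (nat_lit 76) (nat_lit 242875906727) (nat_lit 5) (nat_lit 5) (nat_lit 7) (nat_lit 5) (nat_lit 6) (nat_lit 4) (nat_lit 311) (nat_lit 269) (nat_lit 140)))) (XT.nd (nat_lit 78) (nat_lit 76) (nat_lit 0) (XT.lf (nat_lit 0) (nat_lit 71999802206) (nat_lit 152) (nat_lit 26166443576)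 (nat_lit 76) (nat_lit 303230946434) (nat_lit 5) (nat_lit 5) (nat_lit 7) (nat_lit 5) (nat_lit 6) (nat_lit 4) (nat_lit 312) (nat_lit 269) (nat_lit 139)) (XT.nd (nat_lit 78) (nat_lit 0) (nat_lit 0) (XT.lf (nat_lit 0) (nat_lit 46372570766) (nat_lit 76) (nat_lit 60502040617) (nat_lit 152) (nat_lit 323156890763) (nat_lit 4) (nat_lit 5) (nat_lit 5) (nat_lit 5) (nat_lit 6) (nat_lit 4) (nat_lit 313) (nat_lit 269) (nat_lit 138)) (XT.lf (nat_lit 0) (nat_lit 126202326837) (nat_lit 76) (nat_lit 19052237049) (nat_lit 152) (nat_lit 315644780977) (nat_lit 4) (nat_lit 5) (nat_lit 5) (nat_lit 5) (nat_lit 6) (nat_lit 4) (nat_lit 314) (nat_lit 269) (nat_lit 137))))))))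
noncomputable def xc99 : XT := (XT.nd (nat_lit 34476) (nat_lit 0) (nat_lit 684) (XT.nd (nat_lit 936) (nat_lit 76) (nat_lit 0) (XT.nd (nat_lit 468) (nat_lit 0) (nat_lit 0) (XT.nd (nat_lit 234) (nat_lit 76) (nat_lit 0) (XT.nd (nat_lit 78) (nat_lit 0) (nat_lit 0) (XT.lf (nat_lit 0) (nat_lit 187323061702) (nat_lit 152) (nat_lit 282437031779) (nat_lit 0) (nat_lit 24427070219) (nat_lit 4) (nat_lit 5) (nat_lit 6) (nat_lit 4) (nat_lit 4) (nat_lit 4) (nat_lit 315) (nat_lit 269) (nat_lit 136)) (XT.nd (nat_lit 78) (nat_lit 0) (nat_lit 0) (XT.lf (nat_lit 0) (nat_lit 233251659676) (nat_lit 152) (nat_lit 226491543876) (nat_lit 0) (nat_lit 70355235448) (nat_lit 4) (nat_lit 5) (nat_lit 6) (nat_lit 4) (nat_lit 4) (nat_lit 4) (nat_lit 316) (nat_lit 269) (nat_lit 135)) (XT.lf (nat_lit 0) (nat_lit 282854320521) (nat_lit 152) (nat_lit 166070818741) (nat_lit 0) (nat_lit 119957495602) (nat_lit 4) (nat_lit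 5) (nat_lit 6) (nat_lit 4) (nat_lit 4) (nat_lit 4) (nat_lit 317) (nat_lit 269) (nat_lit 134)))) (XT.nd (nat_lit 78) (nat_lit 76) (nat_lit 0) (XT.lf (nat_lit 0) (nat_lit 336424985929) (nat_lit 152) (nat_lit 100816807631) (nat_lit 0) (nat_lit 173527790001) (nat_lit 4) (nat_lit 5) (nat_lit 6) (nat_lit 4) (nat_lit 4) (nat_lit 4) (nat_lit 318) (nat_lit 269) (nat_lit 133)) (XT.nd (nat_lit 78) (nat_lit 76) (nat_lit 0) (XT.lf (nat_lit 0) (nat_lit 394281111696) (nat_lit 152) (nat_lit 30342820111) (nat_lit 0) (nat_lit 231383572240) (nat_lit 4) (nat_lit 5) (nat_lit 6) (nat_lit 4) (nat_lit 4) (nat_lit 4) (nat_lit 319) (nat_lit 269) (nat_lit 132)) (XT.lf (nat_lit 0) (nat_lit 48178869632) (nat_lit 76) (nat_lit 409745382278) (nat_lit 76) (nat_lit 246847524741) (nat_lit 3) (nat_lit 4) (nat_lit 4) (nat_lit 5) (nat_lit 4) (nat_lit 4) (nat_lit 320) (nat_lit 269) (nat_lit 131))))) (XT.nd (nat_lit 234)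 (nat_lit 0) (nat_lit 0) (XT.nd (nat_lit 78) (nat_lit 0) (nat_lit 0) (XT.lf (nat_lit 0) (nat_lit 134707606735) (nat_lit 76) (nat_lit 392780690246) (nat_lit 76) (nat_lit 229882538189) (nat_lit 3) (nat_lit 4) (nat_lit 4) (nat_lit 5) (nat_lit 4) (nat_lit 4) (nat_lit 321) (nat_lit 269) (nat_lit 130)) (XT.nd (nat_lit 78) (nat_lit 0) (nat_lit 0) (XT.lf (nat_lit 0) (nat_lit 228158354949) (nat_lit 76) (nat_lit 374458950676) (nat_lit 76) (nat_lit 211560525916) (nat_lit 3) (nat_lit 4) (nat_lit 4) (nat_lit 5) (nat_lit 4) (nat_lit 4) (nat_lit 322) (nat_lit 269) (nat_lit 129)) (XT.lf (nat_lit 0) (nat_lit 329084896484) (nat_lit 76) (nat_lit 354671590298) (nat_lit 76) (nat_lit 191772913035) (nat_lit 3) (nat_lit 4) (nat_lit 4) (nat_lit 5) (nat_lit 4) (nat_lit 4) (nat_lit 323) (nat_lit 269) (nat_lit 128)))) (XT.nd (nat_lit 78) (nat_lit 0) (nat_lit 0) (XT.lf (nat_lit 0) (nat_lit 438085314550) (nat_lit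 76) (nat_lit 333301350679) (nat_lit 76) (nat_lit 170402439617) (nat_lit 3) (nat_lit 4) (nat_lit 4) (nat_lit 5) (nat_lit 4) (nat_lit 4) (nat_lit 324) (nat_lit 269) (nat_lit 127)) (XT.nd (nat_lit 78) (nat_lit 0) (nat_lit 0) (XT.lf (nat_lit 0) (nat_lit 555805537550) (nat_lit 76) (nat_lit 310221593362) (nat_lit 76) (nat_lit 147322465820) (nat_lit 3) (nat_lit 4) (nat_lit 4) (nat_lit 5) (nat_lit 4) (nat_lit 4) (nat_lit 325) (nat_lit 269) (nat_lit 126)) (XT.lf (nat_lit 0) (nat_lit 682943166807) (nat_lit 76) (nat_lit 285295549416) (nat_lit 76) (nat_lit 122396221429) (nat_lit 3) (nat_lit 4) (nat_lit 4) (nat_lit 5) (nat_lit 4) (nat_lit 4) (nat_lit 326) (nat_lit 269) (nat_lit 125)))))) (XT.nd (nat_lit 33072) (nat_lit 0) (nat_lit 2280) (XT.nd (nat_lit 234) (nat_lit 76) (nat_lit 0) (XT.nd (nat_lit 78) (nat_lit 0) (nat_lit 0) (XT.lf (nat_lit 0) (nat_lit 820251610492) (nat_lit 76) (nat_lit 258375508950)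 (nat_lit 76) (nat_lit 95475995366) (nat_lit 3) (nat_lit 4) (nat_lit 4) (nat_lit 5) (nat_lit 4) (nat_lit 4) (nat_lit 327) (nat_lit 269) (nat_lit 124)) (XT.nd (nat_lit 78) (nat_lit 0) (nat_lit 0) (XT.lf (nat_lit 0) (nat_lit 968544548273) (nat_lit 76) (nat_lit 229301945798) (nat_lit 76) (nat_lit 66402260365) (nat_lit 3) (nat_lit 4) (nat_lit 4) (nat_lit 5) (nat_lit 4) (nat_lit 4) (nat_lit 328) (nat_lit 269) (nat_lit 123)) (XT.lf (nat_lit 0) (nat_lit 1128700753114) (nat_lit 76) (nat_lit 197902572179) (nat_lit 76) (nat_lit 35002727626) (nat_lit 3) (nat_lit 4) (nat_lit 4) (nat_lit 5) (nat_lit 4) (nat_lit 4) (nat_lit 329) (nat_lit 269) (nat_lit 122)))) (XT.nd (nat_lit 78) (nat_lit 76) (nat_lit 0) (XT.lf (nat_lit 0) (nat_lit 1301669298821) (nat_lit 76) (nat_lit 163991317731) (nat_lit 76) (nat_lit 1091325845) (nat_lit 3) (nat_lit 4) (nat_lit 4) (nat_lit 5) (nat_lit 4) (nat_lit 4) (nat_lit 330)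 (nat_lit 269) (nat_lit 121)) (XT.nd (nat_lit 78) (nat_lit 0) (nat_lit 0) (XT.lf (nat_lit 0) (nat_lit 33755401795) (nat_lit 152) (nat_lit 92688892571) (nat_lit 76) (nat_lit 1453796849885) (nat_lit 2) (nat_lit 5) (nat_lit 4) (nat_lit 5) (nat_lit 3) (nat_lit 4) (nat_lit 331) (nat_lit 269) (nat_lit 120)) (XT.lf (nat_lit 0) (nat_lit 71330831491) (nat_lit 152) (nat_lit 14532125117) (nat_lit 76) (nat_lit 1616944264209) (nat_lit 2) (nat_lit 5) (nat_lit 4) (nat_lit 5) (nat_lit 3) (nat_lit 4) (nat_lit 332) (nat_lit 269) (nat_lit 119))))) (XT.nd (nat_lit 234) (nat_lit 0) (nat_lit 76) (XT.nd (nat_lit 78) (nat_lit 0) (nat_lit 0) (XT.lf (nat_lit 0) (nat_lit 4876050787) (nat_lit 532) (nat_lit 7912319648) (nat_lit 532) (nat_lit 7912319648) (nat_lit 32) (nat_lit 3) (nat_lit 39) (nat_lit 3) (nat_lit 39) (nat_lit 5) (nat_lit 270) (nat_lit 270) (nat_lit 180)) (XT.nd (nat_lit 78) (nat_lit 0) (nat_lit 76)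 (XT.lf (nat_lit 76) (nat_lit 1349419722) (nat_lit 0) (nat_lit 8858858043) (nat_lit 532) (nat_lit 32843652896) (nat_lit 33) (nat_lit 5) (nat_lit 32) (nat_lit 3) (nat_lit 39) (nat_lit 5) (nat_lit 271) (nat_lit 270) (nat_lit 179)) (XT.lf (nat_lit 0) (nat_lit 11362658995) (nat_lit 456) (nat_lit 24237214782) (nat_lit 532) (nat_lit 9181736285) (nat_lit 33) (nat_lit 5) (nat_lit 39) (nat_lit 5) (nat_lit 40) (nat_lit 5) (nat_lit 272) (nat_lit 270) (nat_lit 178)))) (XT.nd (nat_lit 78) (nat_lit 0) (nat_lit 76) (XT.lf (nat_lit 0) (nat_lit 12836365016) (nat_lit 456) (nat_lit 5606883061) (nat_lit 532) (nat_lit 28188277929) (nat_lit 33) (nat_lit 5) (nat_lit 39) (nat_lit 5) (nat_lit 40) (nat_lit 5) (nat_lit 273) (nat_lit 270) (nat_lit 177)) (XT.nd (nat_lit 78) (nat_lit 0) (nat_lit 0) (XT.lf (nat_lit 0) (nat_lit 14804095907) (nat_lit 456) (nat_lit 33335810880) (nat_lit 532) (nat_lit 459456812) (nat_lit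 34) (nat_lit 5) (nat_lit 40) (nat_lit 5) (nat_lit 41) (nat_lit 5) (nat_lit 274) (nat_lit 270) (nat_lit 176)) (XT.lf (nat_lit 0) (nat_lit 17562869604) (nat_lit 456) (nat_lit 13075039361) (nat_lit 532) (nat_lit 20036046547) (nat_lit 34) (nat_lit 5) (nat_lit 40) (nat_lit 5) (nat_lit 41) (nat_lit 5) (nat_lit 275) (nat_lit 270) (nat_lit 175))))))) (XT.nd (nat_lit 936) (nat_lit 684) (nat_lit 0) (XT.nd (nat_lit 468) (nat_lit 456) (nat_lit 0) (XT.nd (nat_lit 234) (nat_lit 228) (nat_lit 0) (XT.nd (nat_lit 78) (nat_lit 380) (nat_lit 0) (XT.lf (nat_lit 76) (nat_lit 9268247852) (nat_lit 0) (nat_lit 11494494242) (nat_lit 532) (nat_lit 32134156916) (nat_lit 35) (nat_lit 5) (nat_lit 34) (nat_lit 5) (nat_lit 41) (nat_lit 5) (nat_lit 276) (nat_lit 270) (nat_lit 174)) (XT.nd (nat_lit 78) (nat_lit 456) (nat_lit 0) (XT.lf (nat_lit 0) (nat_lit 24803818248) (nat_lit 456) (nat_lit 21358711213) (nat_lit 76)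 (nat_lit 9088346218) (nat_lit 35) (nat_lit 5) (nat_lit 41) (nat_lit 5) (nat_lit 36) (nat_lit 5) (nat_lit 277) (nat_lit 270) (nat_lit 173)) (XT.lf (nat_lit 0) (nat_lit 2518252086) (nat_lit 456) (nat_lit 27006870028) (nat_lit 532) (nat_lit 28239506740) (nat_lit 29) (nat_lit 5) (nat_lit 35) (nat_lit 5) (nat_lit 36) (nat_lit 5) (nat_lit 278) (nat_lit 270) (nat_lit 172)))) (XT.nd (nat_lit 78) (nat_lit 228) (nat_lit 0) (XT.lf (nat_lit 0) (nat_lit 29518124861) (nat_lit 456) (nat_lit 5687924711) (nat_lit 532) (nat_lit 25226891856) (nat_lit 29) (nat_lit 5) (nat_lit 35) (nat_lit 5) (nat_lit 36) (nat_lit 5) (nat_lit 279) (nat_lit 270) (nat_lit 171)) (XT.nd (nat_lit 78) (nat_lit 228) (nat_lit 0) (XT.lf (nat_lit 0) (nat_lit 41756485505) (nat_lit 532) (nat_lit 5055636292) (nat_lit 76) (nat_lit 16469406217) (nat_lit 29) (nat_lit 5) (nat_lit 36) (nat_lit 5) (nat_lit 30) (nat_lit 5) (nat_lit 280) (nat_lit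 270) (nat_lit 170)) (XT.lf (nat_lit 0) (nat_lit 23919263120) (nat_lit 228) (nat_lit 25632921983) (nat_lit 304) (nat_lit 16748128999) (nat_lit 26) (nat_lit 5) (nat_lit 29) (nat_lit 5) (nat_lit 30) (nat_lit 5) (nat_lit 281) (nat_lit 270) (nat_lit 169))))) (XT.nd (nat_lit 234) (nat_lit 228) (nat_lit 0) (XT.nd (nat_lit 78) (nat_lit 228) (nat_lit 0) (XT.lf (nat_lit 0) (nat_lit 55497903565) (nat_lit 228) (nat_lit 2610187228) (nat_lit 304) (nat_lit 11441598346) (nat_lit 26) (nat_lit 5) (nat_lit 29) (nat_lit 5) (nat_lit 30) (nat_lit 5) (nat_lit 282) (nat_lit 270) (nat_lit 168)) (XT.nd (nat_lit 78) (nat_lit 76) (nat_lit 0) (XT.lf (nat_lit 0) (nat_lit 16849724335) (nat_lit 152) (nat_lit 51437641438) (nat_lit 228) (nat_lit 4696545984) (nat_lit 24) (nat_lit 5) (nat_lit 26) (nat_lit 5) (nat_lit 27) (nat_lit 5) (nat_lit 283) (nat_lit 270) (nat_lit 167)) (XT.lf (nat_lit 0) (nat_lit 2919089475) (nat_lit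 228) (nat_lit 25781477932) (nat_lit 76) (nat_lit 47950497510) (nat_lit 23) (nat_lit 5) (nat_lit 26) (nat_lit 5) (nat_lit 24) (nat_lit 5) (nat_lit 284) (nat_lit 270) (nat_lit 166)))) (XT.nd (nat_lit 78) (nat_lit 0) (nat_lit 0) (XT.lf (nat_lit 0) (nat_lit 7237846987) (nat_lit 228) (nat_lit 3825046718) (nat_lit 304) (nat_lit 69525132699) (nat_lit 20) (nat_lit 5) (nat_lit 23) (nat_lit 5) (nat_lit 24) (nat_lit 5) (nat_lit 285) (nat_lit 270) (nat_lit 165)) (XT.nd (nat_lit 78) (nat_lit 0) (nat_lit 0) (XT.lf (nat_lit 0) (nat_lit 21134189641) (nat_lit 304) (nat_lit 40992797971) (nat_lit 76) (nat_lit 22610885062) (nat_lit 20) (nat_lit 5) (nat_lit 24) (nat_lit 5) (nat_lit 21) (nat_lit 5) (nat_lit 286) (nat_lit 270) (nat_lit 164)) (XT.lf (nat_lit 0) (nat_lit 32109283461) (nat_lit 304) (nat_lit 6147793725) (nat_lit 76) (nat_lit 50954788272) (nat_lit 20) (nat_lit 5) (nat_lit 24) (nat_lit 5) (nat_lit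 21) (nat_lit 5) (nat_lit 287) (nat_lit 270) (nat_lit 163)))))) (XT.nd (nat_lit 468) (nat_lit 228) (nat_lit 0) (XT.nd (nat_lit 234) (nat_lit 152) (nat_lit 0) (XT.nd (nat_lit 78) (nat_lit 152) (nat_lit 0) (XT.lf (nat_lit 0) (nat_lit 33141170260) (nat_lit 152) (nat_lit 11617095972) (nat_lit 228) (nat_lit 49221846793) (nat_lit 18) (nat_lit 5) (nat_lit 20) (nat_lit 5) (nat_lit 21) (nat_lit 5) (nat_lit 288) (nat_lit 270) (nat_lit 162)) (XT.nd (nat_lit 78) (nat_lit 152) (nat_lit 0) (XT.lf (nat_lit 0) (nat_lit 59003059738) (nat_lit 228) (nat_lit 23611957863) (nat_lit 76) (nat_lit 16468096868) (nat_lit 18) (nat_lit 5) (nat_lit 21) (nat_lit 5) (nat_lit 19) (nat_lit 5) (nat_lit 289) (nat_lit 270) (nat_lit 161)) (XT.lf (nat_lit 0) (nat_lit 17147816209) (nat_lit 152) (nat_lit 57952730137) (nat_lit 228) (nat_lit 29436765953) (nat_lit 16) (nat_lit 5) (nat_lit 18) (nat_lit 5) (nat_lit 19) (nat_lit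 5) (nat_lit 290) (nat_lit 270) (nat_lit 160)))) (XT.nd (nat_lit 78) (nat_lit 152) (nat_lit 0) (XT.lf (nat_lit 0) (nat_lit 62509811293) (nat_lit 152) (nat_lit 30620618244) (nat_lit 228) (nat_lit 17245853270) (nat_lit 16) (nat_lit 5) (nat_lit 18) (nat_lit 5) (nat_lit 19) (nat_lit 5) (nat_lit 291) (nat_lit 270) (nat_lit 159)) (XT.nd (nat_lit 78) (nat_lit 152) (nat_lit 0) (XT.lf (nat_lit 0) (nat_lit 111499475354) (nat_lit 152) (nat_lit 1102306624) (nat_lit 228) (nat_lit 4080667011) (nat_lit 16) (nat_lit 5) (nat_lit 18) (nat_lit 5) (nat_lit 19) (nat_lit 5) (nat_lit 292) (nat_lit 270) (nat_lit 158)) (XT.lf (nat_lit 0) (nat_lit 11432614843) (nat_lit 152) (nat_lit 81352809800) (nat_lit 76) (nat_lit 30544021609) (nat_lit 14) (nat_lit 5) (nat_lit 16) (nat_lit 5) (nat_lit 15) (nat_lit 5) (nat_lit 293) (nat_lit 270) (nat_lit 157))))) (XT.nd (nat_lit 234) (nat_lit 76) (nat_lit 0) (XT.nd (nat_lit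 78) (nat_lit 152) (nat_lit 0) (XT.lf (nat_lit 0) (nat_lit 28139668999) (nat_lit 152) (nat_lit 37432669706) (nat_lit 76) (nat_lit 64913534969) (nat_lit 14) (nat_lit 5) (nat_lit 16) (nat_lit 5) (nat_lit 15) (nat_lit 5) (nat_lit 294) (nat_lit 270) (nat_lit 156)) (XT.nd (nat_lit 78) (nat_lit 0) (nat_lit 0) (XT.lf (nat_lit 0) (nat_lit 10526477637) (nat_lit 152) (nat_lit 35909182924) (nat_lit 228) (nat_lit 91758968060) (nat_lit 12) (nat_lit 5) (nat_lit 14) (nat_lit 5) (nat_lit 15) (nat_lit 5) (nat_lit 295) (nat_lit 270) (nat_lit 155)) (XT.lf (nat_lit 0) (nat_lit 64450034761) (nat_lit 152) (nat_lit 2768014005) (nat_lit 228) (nat_lit 79220220752) (nat_lit 12) (nat_lit 5) (nat_lit 14) (nat_lit 5) (nat_lit 15) (nat_lit 5) (nat_lit 296) (nat_lit 270) (nat_lit 154)))) (XT.nd (nat_lit 156) (nat_lit 0) (nat_lit 0) (XT.nd (nat_lit 78) (nat_lit 76) (nat_lit 0) (XT.lf (nat_lit 0) (nat_lit 90456556011)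 (nat_lit 228) (nat_lit 33449279983) (nat_lit 76) (nat_lit 31372086176) (nat_lit 12) (nat_lit 5) (nat_lit 15) (nat_lit 5) (nat_lit 13) (nat_lit 4) (nat_lit 297) (nat_lit 270) (nat_lit 153)) (XT.lf (nat_lit 0) (nat_lit 19895094605) (nat_lit 76) (nat_lit 96208765058) (nat_lit 152) (nat_lit 48676912624) (nat_lit 11) (nat_lit 5) (nat_lit 12) (nat_lit 5) (nat_lit 13) (nat_lit 4) (nat_lit 298) (nat_lit 270) (nat_lit 152))) (XT.nd (nat_lit 78) (nat_lit 0) (nat_lit 0) (XT.lf (nat_lit 0) (nat_lit 79408302205) (nat_lit 76) (nat_lit 65308574381) (nat_lit 152) (nat_lit 30253861844) (nat_lit 11) (nat_lit 5) (nat_lit 12) (nat_lit 5) (nat_lit 13) (nat_lit 4) (nat_lit 299) (nat_lit 270) (nat_lit 151)) (XT.lf (nat_lit 0) (nat_lit 143681633869) (nat_lit 76) (nat_lit 31936714315) (nat_lit 152) (nat_lit 10357602776) (nat_lit 11) (nat_lit 5) (nat_lit 12) (nat_lit 5) (nat_lit 13) (nat_lit 4) (nat_lit 300)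 (nat_lit 270) (nat_lit 150))))))))
noncomputable def xc100 : XT := (XT.nd (nat_lit 1872) (nat_lit 76) (nat_lit 0) (XT.nd (nat_lit 936) (nat_lit 152) (nat_lit 0) (XT.nd (nat_lit 468) (nat_lit 152) (nat_lit 0) (XT.nd (nat_lit 234) (nat_lit 76) (nat_lit 0) (XT.nd (nat_lit 78) (nat_lit 0) (nat_lit 0) (XT.lf (nat_lit 0) (nat_lit 11067424571) (nat_lit 228) (nat_lit 182170619412) (nat_lit 76) (nat_lit 4562615286) (nat_lit 8) (nat_lit 5) (nat_lit 11) (nat_lit 5) (nat_lit 9) (nat_lit 4) (nat_lit 301) (nat_lit 270) (nat_lit 149)) (XT.nd (nat_lit 78) (nat_lit 0) (nat_lit 0) (XT.lf (nat_lit 0) (nat_lit 35662290762) (nat_lit 228) (nat_lit 131014670476) (nat_lit 76) (nat_lit 43711629130) (nat_lit 8) (nat_lit 5) (nat_lit 11) (nat_lit 5) (nat_lit 9) (nat_lit 4) (nat_lit 302) (nat_lit 270) (nat_lit 148)) (XT.lf (nat_lit 0) (nat_lit 62224239954) (nat_lit 228) (nat_lit 75767087215) (nat_lit 76) (nat_lit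 85992270879) (nat_lit 8) (nat_lit 5) (nat_lit 11) (nat_lit 5) (nat_lit 9) (nat_lit 4) (nat_lit 303) (nat_lit 270) (nat_lit 147)))) (XT.nd (nat_lit 78) (nat_lit 76) (nat_lit 0) (XT.lf (nat_lit 0) (nat_lit 90910676290) (nat_lit 228) (nat_lit 16100476542) (nat_lit 76) (nat_lit 131655092484) (nat_lit 8) (nat_lit 5) (nat_lit 11) (nat_lit 5) (nat_lit 9) (nat_lit 4) (nat_lit 304) (nat_lit 270) (nat_lit 146)) (XT.nd (nat_lit 78) (nat_lit 0) (nat_lit 0) (XT.lf (nat_lit 0) (nat_lit 50884173918) (nat_lit 76) (nat_lit 72231185154) (nat_lit 152) (nat_lit 131310280131) (nat_lit 7) (nat_lit 5) (nat_lit 8) (nat_lit 5) (nat_lit 9) (nat_lit 4) (nat_lit 305) (nat_lit 270) (nat_lit 145)) (XT.lf (nat_lit 0) (nat_lit 124142541523) (nat_lit 76) (nat_lit 34193671690) (nat_lit 152) (nat_lit 113074388912) (nat_lit 7) (nat_lit 5) (nat_lit 8) (nat_lit 5) (nat_lit 9) (nat_lit 4) (nat_lit 306) (nat_lit 270) (nat_lit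 144))))) (XT.nd (nat_lit 234) (nat_lit 76) (nat_lit 0) (XT.nd (nat_lit 78) (nat_lit 76) (nat_lit 0) (XT.lf (nat_lit 0) (nat_lit 196539970284) (nat_lit 152) (nat_lit 86659089305) (nat_lit 0) (nat_lit 6542084889) (nat_lit 7) (nat_lit 5) (nat_lit 9) (nat_lit 4) (nat_lit 7) (nat_lit 4) (nat_lit 307) (nat_lit 270) (nat_lit 143)) (XT.nd (nat_lit 78) (nat_lit 76) (nat_lit 0) (XT.lf (nat_lit 0) (nat_lit 238687810296) (nat_lit 152) (nat_lit 22090174496) (nat_lit 0) (nat_lit 48689123919) (nat_lit 7) (nat_lit 5) (nat_lit 9) (nat_lit 4) (nat_lit 7) (nat_lit 4) (nat_lit 308) (nat_lit 270) (nat_lit 142)) (XT.lf (nat_lit 0) (nat_lit 50152504448) (nat_lit 76) (nat_lit 235260804090) (nat_lit 76) (nat_lit 45261376063) (nat_lit 6) (nat_lit 4) (nat_lit 7) (nat_lit 5) (nat_lit 7) (nat_lit 4) (nat_lit 309) (nat_lit 270) (nat_lit 141)))) (XT.nd (nat_lit 78) (nat_lit 76) (nat_lit 0) (XT.lf (nat_lit 0) (nat_lit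 129430319761) (nat_lit 76) (nat_lit 207050184913) (nat_lit 76) (nat_lit 17050070173) (nat_lit 6) (nat_lit 4) (nat_lit 7) (nat_lit 5) (nat_lit 7) (nat_lit 4) (nat_lit 310) (nat_lit 270) (nat_lit 140)) (XT.nd (nat_lit 78) (nat_lit 0) (nat_lit 0) (XT.lf (nat_lit 0) (nat_lit 12746599504) (nat_lit 152) (nat_lit 163487823616) (nat_lit 76) (nat_lit 201954722337) (nat_lit 5) (nat_lit 5) (nat_lit 7) (nat_lit 5) (nat_lit 6) (nat_lit 4) (nat_lit 311) (nat_lit 270) (nat_lit 139)) (XT.lf (nat_lit 0) (nat_lit 44005568174) (nat_lit 152) (nat_lit 98469757527) (nat_lit 76) (nat_lit 262309671068) (nat_lit 5) (nat_lit 5) (nat_lit 7) (nat_lit 5) (nat_lit 6) (nat_lit 4) (nat_lit 312) (nat_lit 270) (nat_lit 138)))))) (XT.nd (nat_lit 468) (nat_lit 76) (nat_lit 0) (XT.nd (nat_lit 234) (nat_lit 0) (nat_lit 0) (XT.nd (nat_lit 78) (nat_lit 76) (nat_lit 0) (XT.lf (nat_lit 0) (nat_lit 77764987734) (nat_lit 152)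 (nat_lit 28250709977) (nat_lit 76) (nat_lit 327492840484) (nat_lit 5) (nat_lit 5) (nat_lit 7) (nat_lit 5) (nat_lit 6) (nat_lit 4) (nat_lit 313) (nat_lit 270) (nat_lit 137)) (XT.nd (nat_lit 78) (nat_lit 0) (nat_lit 0) (XT.lf (nat_lit 0) (nat_lit 50091196422) (nat_lit 76) (nat_lit 65338412059) (nat_lit 152) (nat_lit 349003999275) (nat_lit 4) (nat_lit 5) (nat_lit 5) (nat_lit 5) (nat_lit 6) (nat_lit 4) (nat_lit 314) (nat_lit 270) (nat_lit 136)) (XT.lf (nat_lit 0) (nat_lit 136306679646) (nat_lit 76) (nat_lit 20572905080) (nat_lit 152) (nat_lit 340891323874) (nat_lit 4) (nat_lit 5) (nat_lit 5) (nat_lit 5) (nat_lit 6) (nat_lit 4) (nat_lit 315) (nat_lit 270) (nat_lit 135)))) (XT.nd (nat_lit 78) (nat_lit 0) (nat_lit 0) (XT.lf (nat_lit 0) (nat_lit 202313295681) (nat_lit 152) (nat_lit 305024155362) (nat_lit 0) (nat_lit 26384324078) (nat_lit 4) (nat_lit 5) (nat_lit 6) (nat_lit 4) (nat_lit 4) (nat_lit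 4) (nat_lit 316) (nat_lit 270) (nat_lit 134)) (XT.nd (nat_lit 78) (nat_lit 0) (nat_lit 0) (XT.lf (nat_lit 0) (nat_lit 251915856380) (nat_lit 152) (nat_lit 244603609090) (nat_lit 0) (nat_lit 75986513767) (nat_lit 4) (nat_lit 5) (nat_lit 6) (nat_lit 4) (nat_lit 4) (nat_lit 4) (nat_lit 317) (nat_lit 270) (nat_lit 133)) (XT.lf (nat_lit 0) (nat_lit 305486429060) (nat_lit 152) (nat_lit 179349763595) (nat_lit 0) (nat_lit 129556742920) (nat_lit 4) (nat_lit 5) (nat_lit 6) (nat_lit 4) (nat_lit 4) (nat_lit 4) (nat_lit 318) (nat_lit 270) (nat_lit 132))))) (XT.nd (nat_lit 234) (nat_lit 0) (nat_lit 0) (XT.nd (nat_lit 78) (nat_lit 76) (nat_lit 0) (XT.lf (nat_lit 0) (nat_lit 363342468968) (nat_lit 152) (nat_lit 108875929422) (nat_lit 0) (nat_lit 187412464747) (nat_lit 4) (nat_lit 5) (nat_lit 6) (nat_lit 4) (nat_lit 4) (nat_lit 4) (nat_lit 319) (nat_lit 270) (nat_lit 131)) (XT.nd (nat_lit 78) (nat_lit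 76) (nat_lit 0) (XT.lf (nat_lit 0) (nat_lit 425826826710) (nat_lit 152) (nat_lit 32764483851) (nat_lit 0) (nat_lit 249896527970) (nat_lit 4) (nat_lit 5) (nat_lit 6) (nat_lit 4) (nat_lit 4) (nat_lit 4) (nat_lit 320) (nat_lit 270) (nat_lit 130)) (XT.lf (nat_lit 0) (nat_lit 52038795202) (nat_lit 76) (nat_lit 442522519036) (nat_lit 76) (nat_lit 266591947592) (nat_lit 3) (nat_lit 4) (nat_lit 4) (nat_lit 5) (nat_lit 4) (nat_lit 4) (nat_lit 321) (nat_lit 270) (nat_lit 129)))) (XT.nd (nat_lit 78) (nat_lit 0) (nat_lit 0) (XT.lf (nat_lit 0) (nat_lit 145489415274) (nat_lit 76) (nat_lit 424200836368) (nat_lit 76) (nat_lit 248270012422) (nat_lit 3) (nat_lit 4) (nat_lit 4) (nat_lit 5) (nat_lit 4) (nat_lit 4) (nat_lit 322) (nat_lit 270) (nat_lit 128)) (XT.nd (nat_lit 78) (nat_lit 0) (nat_lit 0) (XT.lf (nat_lit 0) (nat_lit 246415838159) (nat_lit 76) (nat_lit 404413528677) (nat_lit 76) (nat_lit 228482470932)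 (nat_lit 3) (nat_lit 4) (nat_lit 4) (nat_lit 5) (nat_lit 4) (nat_lit 4) (nat_lit 323) (nat_lit 270) (nat_lit 127)) (XT.lf (nat_lit 0) (nat_lit 355416146364) (nat_lit 76) (nat_lit 383043337843) (nat_lit 76) (nat_lit 207112063617) (nat_lit 3) (nat_lit 4) (nat_lit 4) (nat_lit 5) (nat_lit 4) (nat_lit 4) (nat_lit 324) (nat_lit 270) (nat_lit 126))))))) (XT.nd (nat_lit 33618) (nat_lit 0) (nat_lit 1368) (XT.nd (nat_lit 468) (nat_lit 76) (nat_lit 0) (XT.nd (nat_lit 234) (nat_lit 0) (nat_lit 0) (XT.nd (nat_lit 78) (nat_lit 0) (nat_lit 0) (XT.lf (nat_lit 0) (nat_lit 473136267641) (nat_lit 76) (nat_lit 359963625697) (nat_lit 76) (nat_lit 184032151026) (nat_lit 3) (nat_lit 4) (nat_lit 4) (nat_lit 5) (nat_lit 4) (nat_lit 4) (nat_lit 325) (nat_lit 270) (nat_lit 125)) (XT.nd (nat_lit 78) (nat_lit 0) (nat_lit 0) (XT.lf (nat_lit 0) (nat_lit 600273802709) (nat_lit 76) (nat_lit 335037623576) (nat_lit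 76) (nat_lit 159105963308) (nat_lit 3) (nat_lit 4) (nat_lit 4) (nat_lit 5) (nat_lit 4) (nat_lit 4) (nat_lit 326) (nat_lit 270) (nat_lit 124)) (XT.lf (nat_lit 0) (nat_lit 737582159183) (nat_lit 76) (nat_lit 308117621837) (nat_lit 76) (nat_lit 132185789719) (nat_lit 3) (nat_lit 4) (nat_lit 4) (nat_lit 5) (nat_lit 4) (nat_lit 4) (nat_lit 327) (nat_lit 270) (nat_lit 123)))) (XT.nd (nat_lit 78) (nat_lit 0) (nat_lit 0) (XT.lf (nat_lit 0) (nat_lit 885875016213) (nat_lit 76) (nat_lit 279044094543) (nat_lit 76) (nat_lit 103112103306) (nat_lit 3) (nat_lit 4) (nat_lit 4) (nat_lit 5) (nat_lit 4) (nat_lit 4) (nat_lit 328) (nat_lit 270) (nat_lit 122)) (XT.nd (nat_lit 78) (nat_lit 0) (nat_lit 0) (XT.lf (nat_lit 0) (nat_lit 1046031146284) (nat_lit 76) (nat_lit 247644754126) (nat_lit 76) (nat_lit 71712615556) (nat_lit 3) (nat_lit 4) (nat_lit 4) (nat_lit 5) (nat_lit 4) (nat_lit 4) (nat_lit 329) (nat_lit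 270) (nat_lit 121)) (XT.lf (nat_lit 0) (nat_lit 1218999622761) (nat_lit 76) (nat_lit 213733530420) (nat_lit 76) (nat_lit 37801255431) (nat_lit 3) (nat_lit 4) (nat_lit 4) (nat_lit 5) (nat_lit 4) (nat_lit 4) (nat_lit 330) (nat_lit 270) (nat_lit 120))))) (XT.nd (nat_lit 32916) (nat_lit 0) (nat_lit 2280) (XT.nd (nat_lit 78) (nat_lit 76) (nat_lit 0) (XT.lf (nat_lit 0) (nat_lit 1405805444021) (nat_lit 76) (nat_lit 177109468026) (nat_lit 76) (nat_lit 1177066722) (nat_lit 3) (nat_lit 4) (nat_lit 4) (nat_lit 5) (nat_lit 4) (nat_lit 4) (nat_lit 331) (nat_lit 270) (nat_lit 119)) (XT.nd (nat_lit 32760) (nat_lit 0) (nat_lit 2280) (XT.lf (nat_lit 0) (nat_lit 36457210691) (nat_lit 152) (nat_lit 100101520023) (nat_lit 76) (nat_lit 1570101592086) (nat_lit 2) (nat_lit 5) (nat_lit 4) (nat_lit 5) (nat_lit 3) (nat_lit 4) (nat_lit 332) (nat_lit 270) (nat_lit 118)) (XT.lf (nat_lit 0) (nat_lit 5298964392)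 (nat_lit 532) (nat_lit 8527471209) (nat_lit 532) (nat_lit 8527471209) (nat_lit 32) (nat_lit 3) (nat_lit 39) (nat_lit 3) (nat_lit 39) (nat_lit 5) (nat_lit 271) (nat_lit 271) (nat_lit 178)))) (XT.nd (nat_lit 78) (nat_lit 0) (nat_lit 76) (XT.lf (nat_lit 76) (nat_lit 1492138334) (nat_lit 0) (nat_lit 9594433200) (nat_lit 532) (nat_lit 35404190247) (nat_lit 33) (nat_lit 5) (nat_lit 32) (nat_lit 3) (nat_lit 39) (nat_lit 5) (nat_lit 272) (nat_lit 271) (nat_lit 177)) (XT.nd (nat_lit 78) (nat_lit 0) (nat_lit 0) (XT.lf (nat_lit 0) (nat_lit 12328139685) (nat_lit 456) (nat_lit 26138474829) (nat_lit 532) (nat_lit 9892643204) (nat_lit 33) (nat_lit 5) (nat_lit 39) (nat_lit 5) (nat_lit 40) (nat_lit 5) (nat_lit 273) (nat_lit 271) (nat_lit 176)) (XT.lf (nat_lit 0) (nat_lit 13915559375) (nat_lit 456) (nat_lit 6020510433) (nat_lit 532) (nat_lit 30421458697) (nat_lit 33) (nat_lit 5) (nat_lit 39) (nat_lit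 5) (nat_lit 40) (nat_lit 5) (nat_lit 274) (nat_lit 271) (nat_lit 175)))))) (XT.nd (nat_lit 468) (nat_lit 684) (nat_lit 0) (XT.nd (nat_lit 234) (nat_lit 380) (nat_lit 0) (XT.nd (nat_lit 78) (nat_lit 0) (nat_lit 0) (XT.lf (nat_lit 0) (nat_lit 16037289044) (nat_lit 456) (nat_lit 35964020960) (nat_lit 532) (nat_lit 481781621) (nat_lit 34) (nat_lit 5) (nat_lit 40) (nat_lit 5) (nat_lit 41) (nat_lit 5) (nat_lit 275) (nat_lit 271) (nat_lit 174)) (XT.nd (nat_lit 78) (nat_lit 0) (nat_lit 0) (XT.lf (nat_lit 0) (nat_lit 19013144973) (nat_lit 456) (nat_lit 14085251037) (nat_lit 532) (nat_lit 21625567553) (nat_lit 34) (nat_lit 5) (nat_lit 40) (nat_lit 5) (nat_lit 41) (nat_lit 5) (nat_lit 276) (nat_lit 271) (nat_lit 173)) (XT.lf (nat_lit 76) (nat_lit 10044593040) (nat_lit 0) (nat_lit 12421901676) (nat_lit 532) (nat_lit 34658470217) (nat_lit 35) (nat_lit 5) (nat_lit 34) (nat_lit 5) (nat_lit 41) (nat_lit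 5) (nat_lit 277) (nat_lit 271) (nat_lit 172)))) (XT.nd (nat_lit 78) (nat_lit 456) (nat_lit 0) (XT.lf (nat_lit 0) (nat_lit 26827516774) (nat_lit 456) (nat_lit 23031519128) (nat_lit 76) (nat_lit 9808510850) (nat_lit 35) (nat_lit 5) (nat_lit 41) (nat_lit 5) (nat_lit 36) (nat_lit 5) (nat_lit 278) (nat_lit 271) (nat_lit 171)) (XT.nd (nat_lit 78) (nat_lit 0) (nat_lit 0) (XT.lf (nat_lit 0) (nat_lit 2754692653) (nat_lit 456) (nat_lit 29169755571) (nat_lit 532) (nat_lit 30458136432) (nat_lit 29) (nat_lit 5) (nat_lit 35) (nat_lit 5) (nat_lit 36) (nat_lit 5) (nat_lit 279) (nat_lit 271) (nat_lit 170)) (XT.lf (nat_lit 0) (nat_lit 31911964109) (nat_lit 456) (nat_lit 6145121597) (nat_lit 532) (nat_lit 27207514642) (nat_lit 29) (nat_lit 5) (nat_lit 35) (nat_lit 5) (nat_lit 36) (nat_lit 5) (nat_lit 280) (nat_lit 271) (nat_lit 169))))) (XT.nd (nat_lit 234) (nat_lit 456) (nat_lit 0) (XT.nd (nat_lit 78)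 (nat_lit 228) (nat_lit 0) (XT.lf (nat_lit 0) (nat_lit 45128948928) (nat_lit 532) (nat_lit 5427293054) (nat_lit 76) (nat_lit 17785056205) (nat_lit 29) (nat_lit 5) (nat_lit 36) (nat_lit 5) (nat_lit 30) (nat_lit 5) (nat_lit 281) (nat_lit 271) (nat_lit 168)) (XT.nd (nat_lit 78) (nat_lit 0) (nat_lit 0) (XT.lf (nat_lit 0) (nat_lit 25864768079) (nat_lit 228) (nat_lit 27681938882) (nat_lit 304) (nat_lit 18055022559) (nat_lit 26) (nat_lit 5) (nat_lit 29) (nat_lit 5) (nat_lit 30) (nat_lit 5) (nat_lit 282) (nat_lit 271) (nat_lit 167)) (XT.lf (nat_lit 0) (nat_lit 59967332063) (nat_lit 228) (nat_lit 2817505114) (nat_lit 304) (nat_lit 12326410694) (nat_lit 26) (nat_lit 5) (nat_lit 29) (nat_lit 5) (nat_lit 30) (nat_lit 5) (nat_lit 283) (nat_lit 271) (nat_lit 166)))) (XT.nd (nat_lit 78) (nat_lit 304) (nat_lit 0) (XT.lf (nat_lit 0) (nat_lit 18228869354) (nat_lit 152) (nat_lit 55548286293) (nat_lit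 228) (nat_lit 5043169013) (nat_lit 24) (nat_lit 5) (nat_lit 26) (nat_lit 5) (nat_lit 27) (nat_lit 5) (nat_lit 284) (nat_lit 271) (nat_lit 165)) (XT.nd (nat_lit 78) (nat_lit 228) (nat_lit 0) (XT.lf (nat_lit 0) (nat_lit 3178213779) (nat_lit 228) (nat_lit 27813656130) (nat_lit 76) (nat_lit 51789098694) (nat_lit 23) (nat_lit 5) (nat_lit 26) (nat_lit 5) (nat_lit 24) (nat_lit 5) (nat_lit 285) (nat_lit 271) (nat_lit 164)) (XT.lf (nat_lit 0) (nat_lit 7846446679) (nat_lit 228) (nat_lit 4125890788) (nat_lit 304) (nat_lit 75060654237) (nat_lit 20) (nat_lit 5) (nat_lit 23) (nat_lit 5) (nat_lit 24) (nat_lit 5) (nat_lit 286) (nat_lit 271) (nat_lit 163))))))))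
noncomputable def xc101 : XT := (XT.nd (nat_lit 1872) (nat_lit 228) (nat_lit 0) (XT.nd (nat_lit 936) (nat_lit 456) (nat_lit 0) (XT.nd (nat_lit 468) (nat_lit 304) (nat_lit 0) (XT.nd (nat_lit 234) (nat_lit 152) (nat_lit 0) (XT.nd (nat_lit 78) (nat_lit 152) (nat_lit 0) (XT.lf (nat_lit 0) (nat_lit 22847643661) (nat_lit 304) (nat_lit 44243032314) (nat_lit 76) (nat_lit 24424294348) (nat_lit 20) (nat_lit 5) (nat_lit 24) (nat_lit 5) (nat_lit 21) (nat_lit 5) (nat_lit 287) (nat_lit 271) (nat_lit 162)) (XT.nd (nat_lit 78) (nat_lit 152) (nat_lit 0) (XT.lf (nat_lit 0) (nat_lit 34699062109) (nat_lit 304) (nat_lit 6612589913) (nat_lit 76) (nat_lit 55035373631) (nat_lit 20) (nat_lit 5) (nat_lit 24) (nat_lit 5) (nat_lit 21) (nat_lit 5) (nat_lit 288) (nat_lit 271) (nat_lit 161)) (XT.lf (nat_lit 0) (nat_lit 35818806955) (nat_lit 152) (nat_lit 12540231878) (nat_lit 228) (nat_lit 53137776029) (nat_lit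 18) (nat_lit 5) (nat_lit 20) (nat_lit 5) (nat_lit 21) (nat_lit 5) (nat_lit 289) (nat_lit 271) (nat_lit 160)))) (XT.nd (nat_lit 78) (nat_lit 152) (nat_lit 0) (XT.lf (nat_lit 0) (nat_lit 63742064866) (nat_lit 228) (nat_lit 25475080784) (nat_lit 76) (nat_lit 17791026130) (nat_lit 18) (nat_lit 5) (nat_lit 21) (nat_lit 5) (nat_lit 19) (nat_lit 5) (nat_lit 290) (nat_lit 271) (nat_lit 159)) (XT.nd (nat_lit 78) (nat_lit 0) (nat_lit 0) (XT.lf (nat_lit 0) (nat_lit 18544821195) (nat_lit 152) (nat_lit 62581745124) (nat_lit 228) (nat_lit 31772208586) (nat_lit 16) (nat_lit 5) (nat_lit 18) (nat_lit 5) (nat_lit 19) (nat_lit 5) (nat_lit 291) (nat_lit 271) (nat_lit 158)) (XT.lf (nat_lit 0) (nat_lit 67533910724) (nat_lit 152) (nat_lit 33063597866) (nat_lit 228) (nat_lit 18607467233) (nat_lit 16) (nat_lit 5) (nat_lit 18) (nat_lit 5) (nat_lit 19) (nat_lit 5) (nat_lit 292) (nat_lit 271) (nat_lit 157)))))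 (XT.nd (nat_lit 234) (nat_lit 152) (nat_lit 0) (XT.nd (nat_lit 78) (nat_lit 152) (nat_lit 0) (XT.lf (nat_lit 0) (nat_lit 120441020908) (nat_lit 152) (nat_lit 1184315379) (nat_lit 228) (nat_lit 4390403428) (nat_lit 16) (nat_lit 5) (nat_lit 18) (nat_lit 5) (nat_lit 19) (nat_lit 5) (nat_lit 293) (nat_lit 271) (nat_lit 156)) (XT.nd (nat_lit 78) (nat_lit 0) (nat_lit 0) (XT.lf (nat_lit 0) (nat_lit 12362616473) (nat_lit 152) (nat_lit 87837993711) (nat_lit 76) (nat_lit 32993898427) (nat_lit 14) (nat_lit 5) (nat_lit 16) (nat_lit 5) (nat_lit 15) (nat_lit 5) (nat_lit 294) (nat_lit 271) (nat_lit 155)) (XT.lf (nat_lit 0) (nat_lit 30405094781) (nat_lit 152) (nat_lit 40405949141) (nat_lit 76) (nat_lit 70112502109) (nat_lit 14) (nat_lit 5) (nat_lit 16) (nat_lit 5) (nat_lit 15) (nat_lit 5) (nat_lit 295) (nat_lit 271) (nat_lit 154)))) (XT.nd (nat_lit 78) (nat_lit 0) (nat_lit 0) (XT.lf (nat_lit 0) (nat_lit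 11389389885) (nat_lit 152) (nat_lit 38774820157) (nat_lit 228) (nat_lit 99084840030) (nat_lit 12) (nat_lit 5) (nat_lit 14) (nat_lit 5) (nat_lit 15) (nat_lit 5) (nat_lit 296) (nat_lit 271) (nat_lit 153)) (XT.nd (nat_lit 78) (nat_lit 0) (nat_lit 0) (XT.lf (nat_lit 0) (nat_lit 69625291279) (nat_lit 152) (nat_lit 2982883457) (nat_lit 228) (nat_lit 85544092602) (nat_lit 12) (nat_lit 5) (nat_lit 14) (nat_lit 5) (nat_lit 15) (nat_lit 5) (nat_lit 297) (nat_lit 271) (nat_lit 152)) (XT.lf (nat_lit 0) (nat_lit 97704969490) (nat_lit 228) (nat_lit 36106556243) (nat_lit 76) (nat_lit 33887633557) (nat_lit 12) (nat_lit 5) (nat_lit 15) (nat_lit 5) (nat_lit 13) (nat_lit 4) (nat_lit 298) (nat_lit 271) (nat_lit 151)))))) (XT.nd (nat_lit 468) (nat_lit 152) (nat_lit 0) (XT.nd (nat_lit 234) (nat_lit 228) (nat_lit 0) (XT.nd (nat_lit 78) (nat_lit 0) (nat_lit 0) (XT.lf (nat_lit 0) (nat_lit 21504895752) (nat_lit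 76) (nat_lit 103898718573) (nat_lit 152) (nat_lit 52558661916) (nat_lit 11) (nat_lit 5) (nat_lit 12) (nat_lit 5) (nat_lit 13) (nat_lit 4) (nat_lit 299) (nat_lit 271) (nat_lit 150)) (XT.nd (nat_lit 78) (nat_lit 0) (nat_lit 0) (XT.lf (nat_lit 0) (nat_lit 85777812287) (nat_lit 76) (nat_lit 70527012471) (nat_lit 152) (nat_lit 32662685867) (nat_lit 11) (nat_lit 5) (nat_lit 12) (nat_lit 5) (nat_lit 13) (nat_lit 4) (nat_lit 300) (nat_lit 271) (nat_lit 149)) (XT.lf (nat_lit 0) (nat_lit 155191762639) (nat_lit 76) (nat_lit 34485866405) (nat_lit 152) (nat_lit 11175576809) (nat_lit 11) (nat_lit 5) (nat_lit 12) (nat_lit 5) (nat_lit 13) (nat_lit 4) (nat_lit 301) (nat_lit 271) (nat_lit 148)))) (XT.nd (nat_lit 78) (nat_lit 0) (nat_lit 0) (XT.lf (nat_lit 0) (nat_lit 11962696156) (nat_lit 228) (nat_lit 196727849879) (nat_lit 76) (nat_lit 4933344778) (nat_lit 8) (nat_lit 5) (nat_lit 11) (nat_lit 5) (nat_lit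 9) (nat_lit 4) (nat_lit 302) (nat_lit 271) (nat_lit 147)) (XT.nd (nat_lit 78) (nat_lit 0) (nat_lit 0) (XT.lf (nat_lit 0) (nat_lit 38524419967) (nat_lit 228) (nat_lit 141480641257) (nat_lit 76) (nat_lit 47213856006) (nat_lit 8) (nat_lit 5) (nat_lit 11) (nat_lit 5) (nat_lit 9) (nat_lit 4) (nat_lit 303) (nat_lit 271) (nat_lit 146)) (XT.lf (nat_lit 0) (nat_lit 67210647617) (nat_lit 228) (nat_lit 81814377472) (nat_lit 76) (nat_lit 92876556758) (nat_lit 8) (nat_lit 5) (nat_lit 11) (nat_lit 5) (nat_lit 9) (nat_lit 4) (nat_lit 304) (nat_lit 271) (nat_lit 145))))) (XT.nd (nat_lit 234) (nat_lit 76) (nat_lit 0) (XT.nd (nat_lit 78) (nat_lit 76) (nat_lit 0) (XT.lf (nat_lit 0) (nat_lit 98191371566) (nat_lit 228) (nat_lit 17375480665) (nat_lit 76) (nat_lit 142192040817) (nat_lit 8) (nat_lit 5) (nat_lit 11) (nat_lit 5) (nat_lit 9) (nat_lit 4) (nat_lit 305) (nat_lit 271) (nat_lit 144)) (XT.nd (nat_lit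 78) (nat_lit 0) (nat_lit 0) (XT.lf (nat_lit 0) (nat_lit 54967611857) (nat_lit 76) (nat_lit 78004541819) (nat_lit 152) (nat_lit 141806908617) (nat_lit 7) (nat_lit 5) (nat_lit 8) (nat_lit 5) (nat_lit 9) (nat_lit 4) (nat_lit 306) (nat_lit 271) (nat_lit 143)) (XT.lf (nat_lit 0) (nat_lit 134085707831) (nat_lit 76) (nat_lit 36924407880) (nat_lit 152) (nat_lit 122112753058) (nat_lit 7) (nat_lit 5) (nat_lit 8) (nat_lit 5) (nat_lit 9) (nat_lit 4) (nat_lit 307) (nat_lit 271) (nat_lit 142)))) (XT.nd (nat_lit 78) (nat_lit 76) (nat_lit 0) (XT.lf (nat_lit 0) (nat_lit 212269760370) (nat_lit 152) (nat_lit 93580492290) (nat_lit 0) (nat_lit 7069636452) (nat_lit 7) (nat_lit 5) (nat_lit 9) (nat_lit 4) (nat_lit 7) (nat_lit 4) (nat_lit 308) (nat_lit 271) (nat_lit 141)) (XT.nd (nat_lit 78) (nat_lit 76) (nat_lit 0) (XT.lf (nat_lit 0) (nat_lit 257788939253) (nat_lit 152) (nat_lit 23846903122) (nat_lit 0) (nat_lit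 52588128621) (nat_lit 7) (nat_lit 5) (nat_lit 9) (nat_lit 4) (nat_lit 7) (nat_lit 4) (nat_lit 309) (nat_lit 271) (nat_lit 140)) (XT.lf (nat_lit 0) (nat_lit 54174924686) (nat_lit 76) (nat_lit 254077346299) (nat_lit 76) (nat_lit 48875899822) (nat_lit 6) (nat_lit 4) (nat_lit 7) (nat_lit 5) (nat_lit 7) (nat_lit 4) (nat_lit 310) (nat_lit 271) (nat_lit 139))))))) (XT.nd (nat_lit 936) (nat_lit 0) (nat_lit 0) (XT.nd (nat_lit 468) (nat_lit 76) (nat_lit 0) (XT.nd (nat_lit 234) (nat_lit 76) (nat_lit 0) (XT.nd (nat_lit 78) (nat_lit 76) (nat_lit 0) (XT.lf (nat_lit 0) (nat_lit 139794208196) (nat_lit 76) (nat_lit 223610197745) (nat_lit 76) (nat_lit 18408162522) (nat_lit 6) (nat_lit 4) (nat_lit 7) (nat_lit 5) (nat_lit 7) (nat_lit 4) (nat_lit 311) (nat_lit 271) (nat_lit 138)) (XT.nd (nat_lit 78) (nat_lit 0) (nat_lit 0) (XT.lf (nat_lit 0) (nat_lit 13771528816) (nat_lit 152) (nat_lit 176557800420) (nat_lit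 76) (nat_lit 218114518460) (nat_lit 5) (nat_lit 5) (nat_lit 7) (nat_lit 5) (nat_lit 6) (nat_lit 4) (nat_lit 312) (nat_lit 271) (nat_lit 137)) (XT.lf (nat_lit 0) (nat_lit 47530829695) (nat_lit 152) (nat_lit 106338959346) (nat_lit 76) (nat_lit 283297609879) (nat_lit 5) (nat_lit 5) (nat_lit 7) (nat_lit 5) (nat_lit 6) (nat_lit 4) (nat_lit 313) (nat_lit 271) (nat_lit 136)))) (XT.nd (nat_lit 78) (nat_lit 76) (nat_lit 0) (XT.lf (nat_lit 0) (nat_lit 83990646074) (nat_lit 152) (nat_lit 30503008643) (nat_lit 76) (nat_lit 353695198394) (nat_lit 5) (nat_lit 5) (nat_lit 7) (nat_lit 5) (nat_lit 6) (nat_lit 4) (nat_lit 314) (nat_lit 271) (nat_lit 135)) (XT.nd (nat_lit 78) (nat_lit 0) (nat_lit 0) (XT.lf (nat_lit 0) (nat_lit 54106053860) (nat_lit 76) (nat_lit 70562234160) (nat_lit 152) (nat_lit 376919652938) (nat_lit 4) (nat_lit 5) (nat_lit 5) (nat_lit 5) (nat_lit 6) (nat_lit 4) (nat_lit 315) (nat_lit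 271) (nat_lit 134)) (XT.lf (nat_lit 0) (nat_lit 147218215614) (nat_lit 76) (nat_lit 22215727428) (nat_lit 152) (nat_lit 368158309154) (nat_lit 4) (nat_lit 5) (nat_lit 5) (nat_lit 5) (nat_lit 6) (nat_lit 4) (nat_lit 316) (nat_lit 271) (nat_lit 133))))) (XT.nd (nat_lit 234) (nat_lit 76) (nat_lit 0) (XT.nd (nat_lit 78) (nat_lit 0) (nat_lit 0) (XT.lf (nat_lit 0) (nat_lit 218502122233) (nat_lit 152) (nat_lit 329419367147) (nat_lit 0) (nat_lit 28497717675) (nat_lit 4) (nat_lit 5) (nat_lit 6) (nat_lit 4) (nat_lit 4) (nat_lit 4) (nat_lit 317) (nat_lit 271) (nat_lit 132)) (XT.nd (nat_lit 78) (nat_lit 0) (nat_lit 0) (XT.lf (nat_lit 0) (nat_lit 272072609055) (nat_lit 152) (nat_lit 264165674999) (nat_lit 0) (nat_lit 82067886415) (nat_lit 4) (nat_lit 5) (nat_lit 6) (nat_lit 4) (nat_lit 4) (nat_lit 4) (nat_lit 318) (nat_lit 271) (nat_lit 131)) (XT.lf (nat_lit 0) (nat_lit 329928569463) (nat_lit 152)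 (nat_lit 193691982814) (nat_lit 0) (nat_lit 139923552304) (nat_lit 4) (nat_lit 5) (nat_lit 6) (nat_lit 4) (nat_lit 4) (nat_lit 4) (nat_lit 319) (nat_lit 271) (nat_lit 130)))) (XT.nd (nat_lit 78) (nat_lit 76) (nat_lit 0) (XT.lf (nat_lit 0) (nat_lit 392412853595) (nat_lit 152) (nat_lit 117580668712) (nat_lit 0) (nat_lit 202407563733) (nat_lit 4) (nat_lit 5) (nat_lit 6) (nat_lit 4) (nat_lit 4) (nat_lit 4) (nat_lit 320) (nat_lit 271) (nat_lit 129)) (XT.nd (nat_lit 78) (nat_lit 76) (nat_lit 0) (XT.lf (nat_lit 0) (nat_lit 459895738689) (nat_lit 152) (nat_lit 35380702684) (nat_lit 0) (nat_lit 269890196324) (nat_lit 4) (nat_lit 5) (nat_lit 6) (nat_lit 4) (nat_lit 4) (nat_lit 4) (nat_lit 321) (nat_lit 271) (nat_lit 128)) (XT.lf (nat_lit 0) (nat_lit 56206713633) (nat_lit 76) (nat_lit 477922182506) (nat_lit 76) (nat_lit 287916406341) (nat_lit 3) (nat_lit 4) (nat_lit 4) (nat_lit 5) (nat_lit 4)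 (nat_lit 4) (nat_lit 322) (nat_lit 271) (nat_lit 127)))))) (XT.nd (nat_lit 468) (nat_lit 0) (nat_lit 0) (XT.nd (nat_lit 234) (nat_lit 0) (nat_lit 0) (XT.nd (nat_lit 78) (nat_lit 0) (nat_lit 0) (XT.lf (nat_lit 0) (nat_lit 157133026657) (nat_lit 76) (nat_lit 458134923599) (nat_lit 76) (nat_lit 268128930954) (nat_lit 3) (nat_lit 4) (nat_lit 4) (nat_lit 5) (nat_lit 4) (nat_lit 4) (nat_lit 323) (nat_lit 271) (nat_lit 126)) (XT.nd (nat_lit 78) (nat_lit 0) (nat_lit 0) (XT.lf (nat_lit 0) (nat_lit 266133233139) (nat_lit 76) (nat_lit 436764777936) (nat_lit 76) (nat_lit 246758584846) (nat_lit 3) (nat_lit 4) (nat_lit 4) (nat_lit 5) (nat_lit 4) (nat_lit 4) (nat_lit 324) (nat_lit 271) (nat_lit 125)) (XT.lf (nat_lit 0) (nat_lit 383853260228) (nat_lit 76) (nat_lit 413685107615) (nat_lit 76) (nat_lit 223678728928) (nat_lit 3) (nat_lit 4) (nat_lit 4) (nat_lit 5) (nat_lit 4) (nat_lit 4) (nat_lit 325)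 (nat_lit 271) (nat_lit 124)))) (XT.nd (nat_lit 78) (nat_lit 0) (nat_lit 0) (XT.lf (nat_lit 0) (nat_lit 510990708085) (nat_lit 76) (nat_lit 388759144221) (nat_lit 76) (nat_lit 198752593684) (nat_lit 3) (nat_lit 4) (nat_lit 4) (nat_lit 5) (nat_lit 4) (nat_lit 4) (nat_lit 326) (nat_lit 271) (nat_lit 123)) (XT.nd (nat_lit 78) (nat_lit 0) (nat_lit 0) (XT.lf (nat_lit 0) (nat_lit 648298983808) (nat_lit 76) (nat_lit 361839178339) (nat_lit 76) (nat_lit 171832468683) (nat_lit 3) (nat_lit 4) (nat_lit 4) (nat_lit 5) (nat_lit 4) (nat_lit 4) (nat_lit 327) (nat_lit 271) (nat_lit 122)) (XT.lf (nat_lit 0) (nat_lit 796591766068) (nat_lit 76) (nat_lit 332765684248) (nat_lit 76) (nat_lit 142758827259) (nat_lit 3) (nat_lit 4) (nat_lit 4) (nat_lit 5) (nat_lit 4) (nat_lit 4) (nat_lit 328) (nat_lit 271) (nat_lit 121))))) (XT.nd (nat_lit 33072) (nat_lit 0) (nat_lit 2204) (XT.nd (nat_lit 78) (nat_lit 0) (nat_lit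 0) (XT.lf (nat_lit 0) (nat_lit 956747826908) (nat_lit 76) (nat_lit 301366374573) (nat_lit 76) (nat_lit 111359381165) (nat_lit 3) (nat_lit 4) (nat_lit 4) (nat_lit 5) (nat_lit 4) (nat_lit 4) (nat_lit 329) (nat_lit 271) (nat_lit 120)) (XT.nd (nat_lit 78) (nat_lit 0) (nat_lit 0) (XT.lf (nat_lit 0) (nat_lit 1129716239282) (nat_lit 76) (nat_lit 267455179333) (nat_lit 76) (nat_lit 77448059610) (nat_lit 3) (nat_lit 4) (nat_lit 4) (nat_lit 5) (nat_lit 4) (nat_lit 4) (nat_lit 330) (nat_lit 271) (nat_lit 119)) (XT.lf (nat_lit 0) (nat_lit 1316522001188) (nat_lit 76) (nat_lit 230831143295) (nat_lit 76) (nat_lit 40823906615) (nat_lit 3) (nat_lit 4) (nat_lit 4) (nat_lit 5) (nat_lit 4) (nat_lit 4) (nat_lit 331) (nat_lit 271) (nat_lit 118)))) (XT.nd (nat_lit 156) (nat_lit 0) (nat_lit 76) (XT.nd (nat_lit 78) (nat_lit 0) (nat_lit 0) (XT.lf (nat_lit 0) (nat_lit 5751027585) (nat_lit 532) (nat_lit 9194379115)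 (nat_lit 532) (nat_lit 9194379115) (nat_lit 32) (nat_lit 3) (nat_lit 39) (nat_lit 3) (nat_lit 39) (nat_lit 5) (nat_lit 272) (nat_lit 272) (nat_lit 176)) (XT.lf (nat_lit 76) (nat_lit 1641314814) (nat_lit 0) (nat_lit 10385021562) (nat_lit 532) (nat_lit 38179122449) (nat_lit 33) (nat_lit 5) (nat_lit 32) (nat_lit 3) (nat_lit 39) (nat_lit 5) (nat_lit 273) (nat_lit 272) (nat_lit 175))) (XT.nd (nat_lit 78) (nat_lit 0) (nat_lit 0) (XT.lf (nat_lit 0) (nat_lit 13362803043) (nat_lit 456) (nat_lit 28197216451) (nat_lit 532) (nat_lit 10663794044) (nat_lit 33) (nat_lit 5) (nat_lit 39) (nat_lit 5) (nat_lit 40) (nat_lit 5) (nat_lit 274) (nat_lit 272) (nat_lit 174)) (XT.lf (nat_lit 0) (nat_lit 15073630221) (nat_lit 456) (nat_lit 6472210189) (nat_lit 532) (nat_lit 32836415562) (nat_lit 33) (nat_lit 5) (nat_lit 39) (nat_lit 5) (nat_lit 40) (nat_lit 5) (nat_lit 275) (nat_lit 272) (nat_lit 173))))))))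
noncomputable def xc102 : XT := (XT.nd (nat_lit 1872) (nat_lit 684) (nat_lit 0) (XT.nd (nat_lit 936) (nat_lit 608) (nat_lit 0) (XT.nd (nat_lit 468) (nat_lit 684) (nat_lit 0) (XT.nd (nat_lit 234) (nat_lit 380) (nat_lit 0) (XT.nd (nat_lit 78) (nat_lit 0) (nat_lit 0) (XT.lf (nat_lit 0) (nat_lit 17362166428) (nat_lit 456) (nat_lit 38808002384) (nat_lit 532) (nat_lit 507951264) (nat_lit 34) (nat_lit 5) (nat_lit 40) (nat_lit 5) (nat_lit 41) (nat_lit 5) (nat_lit 276) (nat_lit 272) (nat_lit 172)) (XT.nd (nat_lit 78) (nat_lit 0) (nat_lit 0) (XT.lf (nat_lit 0) (nat_lit 20572987553) (nat_lit 456) (nat_lit 15181385702) (nat_lit 532) (nat_lit 23344156580) (nat_lit 34) (nat_lit 5) (nat_lit 40) (nat_lit 5) (nat_lit 41) (nat_lit 5) (nat_lit 277) (nat_lit 272) (nat_lit 171)) (XT.lf (nat_lit 76) (nat_lit 10878069056) (nat_lit 0) (nat_lit 13422382115) (nat_lit 532) (nat_lit 37391350807) (nat_lit 35)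 (nat_lit 5) (nat_lit 34) (nat_lit 5) (nat_lit 41) (nat_lit 5) (nat_lit 278) (nat_lit 272) (nat_lit 170)))) (XT.nd (nat_lit 78) (nat_lit 456) (nat_lit 0) (XT.lf (nat_lit 0) (nat_lit 29007491321) (nat_lit 456) (nat_lit 24843271642) (nat_lit 76) (nat_lit 10587273451) (nat_lit 35) (nat_lit 5) (nat_lit 41) (nat_lit 5) (nat_lit 36) (nat_lit 5) (nat_lit 279) (nat_lit 272) (nat_lit 169)) (XT.nd (nat_lit 78) (nat_lit 0) (nat_lit 0) (XT.lf (nat_lit 0) (nat_lit 3005058120) (nat_lit 456) (nat_lit 31505338710) (nat_lit 532) (nat_lit 32860038677) (nat_lit 29) (nat_lit 5) (nat_lit 35) (nat_lit 5) (nat_lit 36) (nat_lit 5) (nat_lit 280) (nat_lit 272) (nat_lit 168)) (XT.lf (nat_lit 0) (nat_lit 34492689807) (nat_lit 456) (nat_lit 6638585670) (nat_lit 532) (nat_lit 29351941119) (nat_lit 29) (nat_lit 5) (nat_lit 35) (nat_lit 5) (nat_lit 36) (nat_lit 5) (nat_lit 281) (nat_lit 272) (nat_lit 167))))) (XT.nd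 (nat_lit 234) (nat_lit 456) (nat_lit 0) (XT.nd (nat_lit 78) (nat_lit 228) (nat_lit 0) (XT.lf (nat_lit 0) (nat_lit 48766652174) (nat_lit 532) (nat_lit 5833360808) (nat_lit 76) (nat_lit 19206229605) (nat_lit 29) (nat_lit 5) (nat_lit 36) (nat_lit 5) (nat_lit 30) (nat_lit 5) (nat_lit 282) (nat_lit 272) (nat_lit 166)) (XT.nd (nat_lit 78) (nat_lit 0) (nat_lit 0) (XT.lf (nat_lit 0) (nat_lit 27961353426) (nat_lit 228) (nat_lit 29895107796) (nat_lit 304) (nat_lit 19471169253) (nat_lit 26) (nat_lit 5) (nat_lit 29) (nat_lit 5) (nat_lit 30) (nat_lit 5) (nat_lit 283) (nat_lit 272) (nat_lit 165)) (XT.lf (nat_lit 0) (nat_lit 64790092610) (nat_lit 228) (nat_lit 3041622008) (nat_lit 304) (nat_lit 13286361411) (nat_lit 26) (nat_lit 5) (nat_lit 29) (nat_lit 5) (nat_lit 30) (nat_lit 5) (nat_lit 284) (nat_lit 272) (nat_lit 164)))) (XT.nd (nat_lit 78) (nat_lit 304) (nat_lit 0) (XT.lf (nat_lit 0) (nat_lit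 19713899643) (nat_lit 152) (nat_lit 59988405660) (nat_lit 228) (nat_lit 5421673417) (nat_lit 24) (nat_lit 5) (nat_lit 26) (nat_lit 5) (nat_lit 27) (nat_lit 5) (nat_lit 285) (nat_lit 272) (nat_lit 163)) (XT.nd (nat_lit 78) (nat_lit 228) (nat_lit 0) (XT.lf (nat_lit 0) (nat_lit 3454416308) (nat_lit 228) (nat_lit 30012736930) (nat_lit 76) (nat_lit 55934422562) (nat_lit 23) (nat_lit 5) (nat_lit 26) (nat_lit 5) (nat_lit 24) (nat_lit 5) (nat_lit 286) (nat_lit 272) (nat_lit 162)) (XT.lf (nat_lit 0) (nat_lit 8499515580) (nat_lit 228) (nat_lit 4451538468) (nat_lit 304) (nat_lit 81042796462) (nat_lit 20) (nat_lit 5) (nat_lit 23) (nat_lit 5) (nat_lit 24) (nat_lit 5) (nat_lit 287) (nat_lit 272) (nat_lit 161)))))) (XT.nd (nat_lit 468) (nat_lit 304) (nat_lit 0) (XT.nd (nat_lit 234) (nat_lit 152) (nat_lit 0) (XT.nd (nat_lit 78) (nat_lit 152) (nat_lit 0) (XT.lf (nat_lit 0) (nat_lit 24694932905) (nat_lit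 304) (nat_lit 47757449613) (nat_lit 76) (nat_lit 26382128912) (nat_lit 20) (nat_lit 5) (nat_lit 24) (nat_lit 5) (nat_lit 21) (nat_lit 5) (nat_lit 288) (nat_lit 272) (nat_lit 160)) (XT.nd (nat_lit 78) (nat_lit 152) (nat_lit 0) (XT.lf (nat_lit 0) (nat_lit 37493022032) (nat_lit 304) (nat_lit 7118425544) (nat_lit 76) (nat_lit 59441806315) (nat_lit 20) (nat_lit 5) (nat_lit 24) (nat_lit 5) (nat_lit 21) (nat_lit 5) (nat_lit 289) (nat_lit 272) (nat_lit 159)) (XT.lf (nat_lit 0) (nat_lit 38706896452) (nat_lit 152) (nat_lit 13538107688) (nat_lit 228) (nat_lit 57370092259) (nat_lit 18) (nat_lit 5) (nat_lit 20) (nat_lit 5) (nat_lit 21) (nat_lit 5) (nat_lit 290) (nat_lit 272) (nat_lit 158)))) (XT.nd (nat_lit 78) (nat_lit 152) (nat_lit 0) (XT.lf (nat_lit 0) (nat_lit 68857514031) (nat_lit 228) (nat_lit 27490939007) (nat_lit 76) (nat_lit 19219007734) (nat_lit 18) (nat_lit 5) (nat_lit 21) (nat_lit 5)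 (nat_lit 19) (nat_lit 5) (nat_lit 291) (nat_lit 272) (nat_lit 157)) (XT.nd (nat_lit 78) (nat_lit 0) (nat_lit 0) (XT.lf (nat_lit 0) (nat_lit 20049994416) (nat_lit 152) (nat_lit 67582108959) (nat_lit 228) (nat_lit 34297268329) (nat_lit 16) (nat_lit 5) (nat_lit 18) (nat_lit 5) (nat_lit 19) (nat_lit 5) (nat_lit 292) (nat_lit 272) (nat_lit 156)) (XT.lf (nat_lit 0) (nat_lit 72956612031) (nat_lit 152) (nat_lit 35702967386) (nat_lit 228) (nat_lit 20080585960) (nat_lit 16) (nat_lit 5) (nat_lit 18) (nat_lit 5) (nat_lit 19) (nat_lit 5) (nat_lit 293) (nat_lit 272) (nat_lit 155))))) (XT.nd (nat_lit 234) (nat_lit 152) (nat_lit 0) (XT.nd (nat_lit 78) (nat_lit 152) (nat_lit 0) (XT.lf (nat_lit 0) (nat_lit 130094810404) (nat_lit 152) (nat_lit 1273765877) (nat_lit 228) (nat_lit 4727303618) (nat_lit 16) (nat_lit 5) (nat_lit 18) (nat_lit 5) (nat_lit 19) (nat_lit 5) (nat_lit 294) (nat_lit 272) (nat_lit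 154)) (XT.nd (nat_lit 78) (nat_lit 0) (nat_lit 0) (XT.lf (nat_lit 0) (nat_lit 13364822329) (nat_lit 152) (nat_lit 94845279372) (nat_lit 76) (nat_lit 35638858766) (nat_lit 14) (nat_lit 5) (nat_lit 16) (nat_lit 5) (nat_lit 15) (nat_lit 5) (nat_lit 295) (nat_lit 272) (nat_lit 153)) (XT.lf (nat_lit 0) (nat_lit 32849721380) (nat_lit 152) (nat_lit 43620134484) (nat_lit 76) (nat_lit 75726547153) (nat_lit 14) (nat_lit 5) (nat_lit 16) (nat_lit 5) (nat_lit 15) (nat_lit 5) (nat_lit 296) (nat_lit 272) (nat_lit 152)))) (XT.nd (nat_lit 78) (nat_lit 0) (nat_lit 0) (XT.lf (nat_lit 0) (nat_lit 12318368611) (nat_lit 152) (nat_lit 41870720892) (nat_lit 228) (nat_lit 106998899630) (nat_lit 12) (nat_lit 5) (nat_lit 14) (nat_lit 5) (nat_lit 15) (nat_lit 5) (nat_lit 297) (nat_lit 272) (nat_lit 151)) (XT.nd (nat_lit 78) (nat_lit 0) (nat_lit 0) (XT.lf (nat_lit 0) (nat_lit 75211821559) (nat_lit 152) (nat_lit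 3215879988) (nat_lit 228) (nat_lit 92375835194) (nat_lit 12) (nat_lit 5) (nat_lit 14) (nat_lit 5) (nat_lit 15) (nat_lit 5) (nat_lit 298) (nat_lit 272) (nat_lit 150)) (XT.lf (nat_lit 0) (nat_lit 105531559950) (nat_lit 228) (nat_lit 38979077538) (nat_lit 76) (nat_lit 36603600078) (nat_lit 12) (nat_lit 5) (nat_lit 15) (nat_lit 5) (nat_lit 13) (nat_lit 4) (nat_lit 299) (nat_lit 272) (nat_lit 149))))))) (XT.nd (nat_lit 936) (nat_lit 228) (nat_lit 0) (XT.nd (nat_lit 468) (nat_lit 152) (nat_lit 0) (XT.nd (nat_lit 234) (nat_lit 228) (nat_lit 0) (XT.nd (nat_lit 78) (nat_lit 0) (nat_lit 0) (XT.lf (nat_lit 0) (nat_lit 23240885472) (nat_lit 76) (nat_lit 112204831003) (nat_lit 152) (nat_lit 56752720680) (nat_lit 11) (nat_lit 5) (nat_lit 12) (nat_lit 5) (nat_lit 13) (nat_lit 4) (nat_lit 300) (nat_lit 272) (nat_lit 148)) (XT.nd (nat_lit 78) (nat_lit 0) (nat_lit 0) (XT.lf (nat_lit 0) (nat_lit 92654479918)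 (nat_lit 76) (nat_lit 76163816936) (nat_lit 152) (nat_lit 35265854265) (nat_lit 11) (nat_lit 5) (nat_lit 12) (nat_lit 5) (nat_lit 13) (nat_lit 4) (nat_lit 301) (nat_lit 272) (nat_lit 147)) (XT.lf (nat_lit 0) (nat_lit 167620476473) (nat_lit 76) (nat_lit 37239775964) (nat_lit 152) (nat_lit 12060505850) (nat_lit 11) (nat_lit 5) (nat_lit 12) (nat_lit 5) (nat_lit 13) (nat_lit 4) (nat_lit 302) (nat_lit 272) (nat_lit 146)))) (XT.nd (nat_lit 78) (nat_lit 0) (nat_lit 0) (XT.lf (nat_lit 0) (nat_lit 12928180315) (nat_lit 228) (nat_lit 212452001150) (nat_lit 76) (nat_lit 5332916569) (nat_lit 8) (nat_lit 5) (nat_lit 11) (nat_lit 5) (nat_lit 9) (nat_lit 4) (nat_lit 303) (nat_lit 272) (nat_lit 145)) (XT.nd (nat_lit 78) (nat_lit 0) (nat_lit 0) (XT.lf (nat_lit 0) (nat_lit 41614214737) (nat_lit 228) (nat_lit 152786058558) (nat_lit 76) (nat_lit 50995505421) (nat_lit 8) (nat_lit 5) (nat_lit 11) (nat_lit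 5) (nat_lit 9) (nat_lit 4) (nat_lit 304) (nat_lit 272) (nat_lit 144)) (XT.lf (nat_lit 0) (nat_lit 72594759772) (nat_lit 228) (nat_lit 88347459152) (nat_lit 76) (nat_lit 100310885867) (nat_lit 8) (nat_lit 5) (nat_lit 11) (nat_lit 5) (nat_lit 9) (nat_lit 4) (nat_lit 305) (nat_lit 272) (nat_lit 143))))) (XT.nd (nat_lit 234) (nat_lit 76) (nat_lit 0) (XT.nd (nat_lit 78) (nat_lit 76) (nat_lit 0) (XT.lf (nat_lit 0) (nat_lit 106053403833) (nat_lit 228) (nat_lit 18754344565) (nat_lit 76) (nat_lit 153571297201) (nat_lit 8) (nat_lit 5) (nat_lit 11) (nat_lit 5) (nat_lit 9) (nat_lit 4) (nat_lit 306) (nat_lit 272) (nat_lit 142)) (XT.nd (nat_lit 78) (nat_lit 0) (nat_lit 0) (XT.lf (nat_lit 0) (nat_lit 59375912460) (nat_lit 76) (nat_lit 84240500030) (nat_lit 152) (nat_lit 153144436337) (nat_lit 7) (nat_lit 5) (nat_lit 8) (nat_lit 5) (nat_lit 9) (nat_lit 4) (nat_lit 307) (nat_lit 272) (nat_lit 141))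 (XT.lf (nat_lit 0) (nat_lit 144822649322) (nat_lit 76) (nat_lit 39874281683) (nat_lit 152) (nat_lit 131875268701) (nat_lit 7) (nat_lit 5) (nat_lit 8) (nat_lit 5) (nat_lit 9) (nat_lit 4) (nat_lit 308) (nat_lit 272) (nat_lit 140)))) (XT.nd (nat_lit 78) (nat_lit 76) (nat_lit 0) (XT.lf (nat_lit 0) (nat_lit 229256993175) (nat_lit 152) (nat_lit 101057223031) (nat_lit 0) (nat_lit 7638795134) (nat_lit 7) (nat_lit 5) (nat_lit 9) (nat_lit 4) (nat_lit 7) (nat_lit 4) (nat_lit 309) (nat_lit 272) (nat_lit 139)) (XT.nd (nat_lit 78) (nat_lit 76) (nat_lit 0) (XT.lf (nat_lit 0) (nat_lit 278417287703) (nat_lit 152) (nat_lit 25745665889) (nat_lit 0) (nat_lit 56798500917) (nat_lit 7) (nat_lit 5) (nat_lit 9) (nat_lit 4) (nat_lit 7) (nat_lit 4) (nat_lit 310) (nat_lit 272) (nat_lit 138)) (XT.lf (nat_lit 0) (nat_lit 58517680562) (nat_lit 76) (nat_lit 274399828483) (nat_lit 76) (nat_lit 52780496562) (nat_lit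 6) (nat_lit 4) (nat_lit 7) (nat_lit 5) (nat_lit 7) (nat_lit 4) (nat_lit 311) (nat_lit 272) (nat_lit 137)))))) (XT.nd (nat_lit 468) (nat_lit 76) (nat_lit 0) (XT.nd (nat_lit 234) (nat_lit 76) (nat_lit 0) (XT.nd (nat_lit 78) (nat_lit 76) (nat_lit 0) (XT.lf (nat_lit 0) (nat_lit 150985857723) (nat_lit 76) (nat_lit 241495582528) (nat_lit 76) (nat_lit 19875745852) (nat_lit 6) (nat_lit 4) (nat_lit 7) (nat_lit 5) (nat_lit 7) (nat_lit 4) (nat_lit 312) (nat_lit 272) (nat_lit 136)) (XT.nd (nat_lit 78) (nat_lit 0) (nat_lit 0) (XT.lf (nat_lit 0) (nat_lit 14877710442) (nat_lit 152) (nat_lit 190674666321) (nat_lit 76) (nat_lit 235566610608) (nat_lit 5) (nat_lit 5) (nat_lit 7) (nat_lit 5) (nat_lit 6) (nat_lit 4) (nat_lit 313) (nat_lit 272) (nat_lit 135)) (XT.lf (nat_lit 0) (nat_lit 51337425071) (nat_lit 152) (nat_lit 114838892638) (nat_lit 76) (nat_lit 305964132254) (nat_lit 5) (nat_lit 5) (nat_lit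 7) (nat_lit 5) (nat_lit 6) (nat_lit 4) (nat_lit 314) (nat_lit 272) (nat_lit 134)))) (XT.nd (nat_lit 78) (nat_lit 76) (nat_lit 0) (XT.lf (nat_lit 0) (nat_lit 90713720908) (nat_lit 152) (nat_lit 32936597986) (nat_lit 76) (nat_lit 381993326844) (nat_lit 5) (nat_lit 5) (nat_lit 7) (nat_lit 5) (nat_lit 6) (nat_lit 4) (nat_lit 315) (nat_lit 272) (nat_lit 133)) (XT.nd (nat_lit 78) (nat_lit 0) (nat_lit 0) (XT.lf (nat_lit 0) (nat_lit 58441021128) (nat_lit 76) (nat_lit 76204425802) (nat_lit 152) (nat_lit 407069224590) (nat_lit 4) (nat_lit 5) (nat_lit 5) (nat_lit 5) (nat_lit 6) (nat_lit 4) (nat_lit 316) (nat_lit 272) (nat_lit 132)) (XT.lf (nat_lit 0) (nat_lit 159001675603) (nat_lit 76) (nat_lit 23990404982) (nat_lit 152) (nat_lit 397607269644) (nat_lit 4) (nat_lit 5) (nat_lit 5) (nat_lit 5) (nat_lit 6) (nat_lit 4) (nat_lit 317) (nat_lit 272) (nat_lit 131))))) (XT.nd (nat_lit 234) (nat_lit 76)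 (nat_lit 0) (XT.nd (nat_lit 78) (nat_lit 0) (nat_lit 0) (XT.lf (nat_lit 0) (nat_lit 235985518090) (nat_lit 152) (nat_lit 355767154649) (nat_lit 0) (nat_lit 30779805039) (nat_lit 4) (nat_lit 5) (nat_lit 6) (nat_lit 4) (nat_lit 4) (nat_lit 4) (nat_lit 318) (nat_lit 272) (nat_lit 130)) (XT.nd (nat_lit 78) (nat_lit 0) (nat_lit 0) (XT.lf (nat_lit 0) (nat_lit 293841404889) (nat_lit 152) (nat_lit 285293593934) (nat_lit 0) (nat_lit 88635419134) (nat_lit 4) (nat_lit 5) (nat_lit 6) (nat_lit 4) (nat_lit 4) (nat_lit 4) (nat_lit 319) (nat_lit 272) (nat_lit 129)) (XT.lf (nat_lit 0) (nat_lit 356325620862) (nat_lit 152) (nat_lit 209182401564) (nat_lit 0) (nat_lit 151119382605) (nat_lit 4) (nat_lit 5) (nat_lit 6) (nat_lit 4) (nat_lit 4) (nat_lit 4) (nat_lit 320) (nat_lit 272) (nat_lit 128)))) (XT.nd (nat_lit 78) (nat_lit 76) (nat_lit 0) (XT.lf (nat_lit 0) (nat_lit 423808442848) (nat_lit 152) (nat_lit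 126982548251) (nat_lit 0) (nat_lit 218601970791) (nat_lit 4) (nat_lit 5) (nat_lit 6) (nat_lit 4) (nat_lit 4) (nat_lit 4) (nat_lit 321) (nat_lit 272) (nat_lit 127)) (XT.nd (nat_lit 78) (nat_lit 76) (nat_lit 0) (XT.lf (nat_lit 0) (nat_lit 496689769048) (nat_lit 152) (nat_lit 38206923753) (nat_lit 0) (nat_lit 291483080511) (nat_lit 4) (nat_lit 5) (nat_lit 6) (nat_lit 4) (nat_lit 4) (nat_lit 4) (nat_lit 322) (nat_lit 272) (nat_lit 126)) (XT.lf (nat_lit 0) (nat_lit 60707378650) (nat_lit 76) (nat_lit 516154124070) (nat_lit 76) (nat_lit 310947235088) (nat_lit 3) (nat_lit 4) (nat_lit 4) (nat_lit 5) (nat_lit 4) (nat_lit 4) (nat_lit 323) (nat_lit 272) (nat_lit 125))))))))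
noncomputable def xc103 : XT := (XT.nd (nat_lit 34788) (nat_lit 0) (nat_lit 228) (XT.nd (nat_lit 33852) (nat_lit 0) (nat_lit 1292) (XT.nd (nat_lit 468) (nat_lit 0) (nat_lit 0) (XT.nd (nat_lit 234) (nat_lit 0) (nat_lit 0) (XT.nd (nat_lit 78) (nat_lit 0) (nat_lit 0) (XT.lf (nat_lit 0) (nat_lit 169707490944) (nat_lit 76) (nat_lit 494784020232) (nat_lit 76) (nat_lit 289576945653) (nat_lit 3) (nat_lit 4) (nat_lit 4) (nat_lit 5) (nat_lit 4) (nat_lit 4) (nat_lit 324) (nat_lit 272) (nat_lit 124)) (XT.nd (nat_lit 78) (nat_lit 0) (nat_lit 0) (XT.lf (nat_lit 0) (nat_lit 287427430822) (nat_lit 76) (nat_lit 471704388638) (nat_lit 76) (nat_lit 266497142209) (nat_lit 3) (nat_lit 4) (nat_lit 4) (nat_lit 5) (nat_lit 4) (nat_lit 4) (nat_lit 325) (nat_lit 272) (nat_lit 123)) (XT.lf (nat_lit 0) (nat_lit 414564797928) (nat_lit 76) (nat_lit 446778461101) (nat_lit 76) (nat_lit 241571055553) (nat_lit 3) (nat_lit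 4) (nat_lit 4) (nat_lit 5) (nat_lit 4) (nat_lit 4) (nat_lit 326) (nat_lit 272) (nat_lit 122)))) (XT.nd (nat_lit 78) (nat_lit 0) (nat_lit 0) (XT.lf (nat_lit 0) (nat_lit 551872998881) (nat_lit 76) (nat_lit 419858528422) (nat_lit 76) (nat_lit 214650975541) (nat_lit 3) (nat_lit 4) (nat_lit 4) (nat_lit 5) (nat_lit 4) (nat_lit 4) (nat_lit 327) (nat_lit 272) (nat_lit 121)) (XT.nd (nat_lit 78) (nat_lit 0) (nat_lit 0) (XT.lf (nat_lit 0) (nat_lit 700165711910) (nat_lit 76) (nat_lit 390785065073) (nat_lit 76) (nat_lit 185577375773) (nat_lit 3) (nat_lit 4) (nat_lit 4) (nat_lit 5) (nat_lit 4) (nat_lit 4) (nat_lit 328) (nat_lit 272) (nat_lit 120)) (XT.lf (nat_lit 0) (nat_lit 860321708648) (nat_lit 76) (nat_lit 359385783864) (nat_lit 76) (nat_lit 154177968249) (nat_lit 3) (nat_lit 4) (nat_lit 4) (nat_lit 5) (nat_lit 4) (nat_lit 4) (nat_lit 329) (nat_lit 272) (nat_lit 119))))) (XT.nd (nat_lit 33150)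 (nat_lit 0) (nat_lit 2204) (XT.nd (nat_lit 78) (nat_lit 0) (nat_lit 0) (XT.lf (nat_lit 0) (nat_lit 1033290061667) (nat_lit 76) (nat_lit 325474614980) (nat_lit 76) (nat_lit 120266682408) (nat_lit 3) (nat_lit 4) (nat_lit 4) (nat_lit 5) (nat_lit 4) (nat_lit 4) (nat_lit 330) (nat_lit 272) (nat_lit 118)) (XT.nd (nat_lit 32994) (nat_lit 0) (nat_lit 2204) (XT.lf (nat_lit 0) (nat_lit 1220095768615) (nat_lit 76) (nat_lit 288850603347) (nat_lit 76) (nat_lit 83642562480) (nat_lit 3) (nat_lit 4) (nat_lit 4) (nat_lit 5) (nat_lit 4) (nat_lit 4) (nat_lit 331) (nat_lit 272) (nat_lit 117)) (XT.lf (nat_lit 0) (nat_lit 6235240485) (nat_lit 532) (nat_lit 9916820914) (nat_lit 532) (nat_lit 9916820914) (nat_lit 32) (nat_lit 3) (nat_lit 39) (nat_lit 3) (nat_lit 39) (nat_lit 5) (nat_lit 273) (nat_lit 273) (nat_lit 174)))) (XT.nd (nat_lit 78) (nat_lit 0) (nat_lit 76) (XT.lf (nat_lit 76) (nat_lit 1798173337)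 (nat_lit 0) (nat_lit 11235570977) (nat_lit 532) (nat_lit 41184238409) (nat_lit 33) (nat_lit 5) (nat_lit 32) (nat_lit 3) (nat_lit 39) (nat_lit 5) (nat_lit 274) (nat_lit 273) (nat_lit 173)) (XT.nd (nat_lit 78) (nat_lit 0) (nat_lit 0) (XT.lf (nat_lit 0) (nat_lit 14473332930) (nat_lit 456) (nat_lit 30425270547) (nat_lit 532) (nat_lit 11499527354) (nat_lit 33) (nat_lit 5) (nat_lit 39) (nat_lit 5) (nat_lit 40) (nat_lit 5) (nat_lit 275) (nat_lit 273) (nat_lit 172)) (XT.lf (nat_lit 0) (nat_lit 16317951790) (nat_lit 456) (nat_lit 6964317356) (nat_lit 532) (nat_lit 35447245276) (nat_lit 33) (nat_lit 5) (nat_lit 39) (nat_lit 5) (nat_lit 40) (nat_lit 5) (nat_lit 276) (nat_lit 273) (nat_lit 171)))))) (XT.nd (nat_lit 468) (nat_lit 684) (nat_lit 0) (XT.nd (nat_lit 234) (nat_lit 380) (nat_lit 0) (XT.nd (nat_lit 78) (nat_lit 0) (nat_lit 0) (XT.lf (nat_lit 0) (nat_lit 18787057317) (nat_lit 456) (nat_lit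 41884230150) (nat_lit 532) (nat_lit 537979609) (nat_lit 34) (nat_lit 5) (nat_lit 40) (nat_lit 5) (nat_lit 41) (nat_lit 5) (nat_lit 277) (nat_lit 273) (nat_lit 170)) (XT.nd (nat_lit 78) (nat_lit 0) (nat_lit 0) (XT.lf (nat_lit 0) (nat_lit 22252083571) (nat_lit 456) (nat_lit 16369588757) (nat_lit 532) (nat_lit 25201867110) (nat_lit 34) (nat_lit 5) (nat_lit 40) (nat_lit 5) (nat_lit 41) (nat_lit 5) (nat_lit 278) (nat_lit 273) (nat_lit 169)) (XT.lf (nat_lit 76) (nat_lit 11773956361) (nat_lit 0) (nat_lit 14501941121) (nat_lit 532) (nat_lit 40348539335) (nat_lit 35) (nat_lit 5) (nat_lit 34) (nat_lit 5) (nat_lit 41) (nat_lit 5) (nat_lit 279) (nat_lit 273) (nat_lit 168)))) (XT.nd (nat_lit 78) (nat_lit 456) (nat_lit 0) (XT.lf (nat_lit 0) (nat_lit 31357045707) (nat_lit 456) (nat_lit 26804353900) (nat_lit 76) (nat_lit 11429181368) (nat_lit 35) (nat_lit 5) (nat_lit 41) (nat_lit 5) (nat_lit 36) (nat_lit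 5) (nat_lit 280) (nat_lit 273) (nat_lit 167)) (XT.nd (nat_lit 78) (nat_lit 0) (nat_lit 0) (XT.lf (nat_lit 0) (nat_lit 3271174407) (nat_lit 456) (nat_lit 34027482793) (nat_lit 532) (nat_lit 35459050388) (nat_lit 29) (nat_lit 5) (nat_lit 35) (nat_lit 5) (nat_lit 36) (nat_lit 5) (nat_lit 281) (nat_lit 273) (nat_lit 166)) (XT.lf (nat_lit 0) (nat_lit 37275912064) (nat_lit 456) (nat_lit 7171262326) (nat_lit 532) (nat_lit 31672511795) (nat_lit 29) (nat_lit 5) (nat_lit 35) (nat_lit 5) (nat_lit 36) (nat_lit 5) (nat_lit 282) (nat_lit 273) (nat_lit 165))))) (XT.nd (nat_lit 234) (nat_lit 456) (nat_lit 0) (XT.nd (nat_lit 78) (nat_lit 228) (nat_lit 0) (XT.lf (nat_lit 0) (nat_lit 52691464570) (nat_lit 532) (nat_lit 6275925000) (nat_lit 76) (nat_lit 20741329572) (nat_lit 29) (nat_lit 5) (nat_lit 36) (nat_lit 5) (nat_lit 30) (nat_lit 5) (nat_lit 283) (nat_lit 273) (nat_lit 164)) (XT.nd (nat_lit 78)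 (nat_lit 0) (nat_lit 0) (XT.lf (nat_lit 0) (nat_lit 30221756128) (nat_lit 228) (nat_lit 32285527980) (nat_lit 304) (nat_lit 21004638591) (nat_lit 26) (nat_lit 5) (nat_lit 29) (nat_lit 5) (nat_lit 30) (nat_lit 5) (nat_lit 284) (nat_lit 273) (nat_lit 163)) (XT.lf (nat_lit 0) (nat_lit 69995054119) (nat_lit 228) (nat_lit 3283851361) (nat_lit 304) (nat_lit 14326840507) (nat_lit 26) (nat_lit 5) (nat_lit 29) (nat_lit 5) (nat_lit 30) (nat_lit 5) (nat_lit 285) (nat_lit 273) (nat_lit 162)))) (XT.nd (nat_lit 78) (nat_lit 304) (nat_lit 0) (XT.lf (nat_lit 0) (nat_lit 21313920342) (nat_lit 152) (nat_lit 64784268635) (nat_lit 228) (nat_lit 5834017445) (nat_lit 24) (nat_lit 5) (nat_lit 26) (nat_lit 5) (nat_lit 27) (nat_lit 5) (nat_lit 286) (nat_lit 273) (nat_lit 161)) (XT.nd (nat_lit 78) (nat_lit 228) (nat_lit 0) (XT.lf (nat_lit 0) (nat_lit 3749584279) (nat_lit 228) (nat_lit 32391455053) (nat_lit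 76) (nat_lit 60411059060) (nat_lit 23) (nat_lit 5) (nat_lit 26) (nat_lit 5) (nat_lit 24) (nat_lit 5) (nat_lit 287) (nat_lit 273) (nat_lit 160)) (XT.lf (nat_lit 0) (nat_lit 9201213081) (nat_lit 228) (nat_lit 4803869036) (nat_lit 304) (nat_lit 87506749917) (nat_lit 20) (nat_lit 5) (nat_lit 23) (nat_lit 5) (nat_lit 24) (nat_lit 5) (nat_lit 288) (nat_lit 273) (nat_lit 159))))))) (XT.nd (nat_lit 936) (nat_lit 456) (nat_lit 0) (XT.nd (nat_lit 468) (nat_lit 304) (nat_lit 0) (XT.nd (nat_lit 234) (nat_lit 152) (nat_lit 0) (XT.nd (nat_lit 78) (nat_lit 152) (nat_lit 0) (XT.lf (nat_lit 0) (nat_lit 26687226570) (nat_lit 304) (nat_lit 51556590432) (nat_lit 76) (nat_lit 28496035144) (nat_lit 20) (nat_lit 5) (nat_lit 24) (nat_lit 5) (nat_lit 21) (nat_lit 5) (nat_lit 289) (nat_lit 273) (nat_lit 158)) (XT.nd (nat_lit 78) (nat_lit 152) (nat_lit 0) (XT.lf (nat_lit 0) (nat_lit 40507925861) (nat_lit 304)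 (nat_lit 7668033708) (nat_lit 76) (nat_lit 64200239634) (nat_lit 20) (nat_lit 5) (nat_lit 24) (nat_lit 5) (nat_lit 21) (nat_lit 5) (nat_lit 290) (nat_lit 273) (nat_lit 157)) (XT.lf (nat_lit 0) (nat_lit 41822811114) (nat_lit 152) (nat_lit 14616575765) (nat_lit 228) (nat_lit 61943662386) (nat_lit 18) (nat_lit 5) (nat_lit 20) (nat_lit 5) (nat_lit 21) (nat_lit 5) (nat_lit 291) (nat_lit 273) (nat_lit 156)))) (XT.nd (nat_lit 78) (nat_lit 152) (nat_lit 0) (XT.lf (nat_lit 0) (nat_lit 74379904570) (nat_lit 228) (nat_lit 29671225581) (nat_lit 76) (nat_lit 20760557428) (nat_lit 18) (nat_lit 5) (nat_lit 21) (nat_lit 5) (nat_lit 19) (nat_lit 5) (nat_lit 292) (nat_lit 273) (nat_lit 155)) (XT.nd (nat_lit 78) (nat_lit 0) (nat_lit 0) (XT.lf (nat_lit 0) (nat_lit 21672501793) (nat_lit 152) (nat_lit 72983382944) (nat_lit 228) (nat_lit 37026717711) (nat_lit 16) (nat_lit 5) (nat_lit 18) (nat_lit 5) (nat_lit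 19) (nat_lit 5) (nat_lit 293) (nat_lit 273) (nat_lit 154)) (XT.lf (nat_lit 0) (nat_lit 78810277867) (nat_lit 152) (nat_lit 38554302247) (nat_lit 228) (nat_lit 21673762388) (nat_lit 16) (nat_lit 5) (nat_lit 18) (nat_lit 5) (nat_lit 19) (nat_lit 5) (nat_lit 294) (nat_lit 273) (nat_lit 153))))) (XT.nd (nat_lit 234) (nat_lit 152) (nat_lit 0) (XT.nd (nat_lit 78) (nat_lit 152) (nat_lit 0) (XT.lf (nat_lit 0) (nat_lit 140518262712) (nat_lit 152) (nat_lit 1371127768) (nat_lit 228) (nat_lit 5093200454) (nat_lit 16) (nat_lit 5) (nat_lit 18) (nat_lit 5) (nat_lit 19) (nat_lit 5) (nat_lit 295) (nat_lit 273) (nat_lit 152)) (XT.nd (nat_lit 78) (nat_lit 0) (nat_lit 0) (XT.lf (nat_lit 0) (nat_lit 14445322020) (nat_lit 152) (nat_lit 102415965993) (nat_lit 76) (nat_lit 38494638648) (nat_lit 14) (nat_lit 5) (nat_lit 16) (nat_lit 5) (nat_lit 15) (nat_lit 5) (nat_lit 296) (nat_lit 273) (nat_lit 151)) (XT.lf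 (nat_lit 0) (nat_lit 35488174928) (nat_lit 152) (nat_lit 47094064012) (nat_lit 76) (nat_lit 81788996092) (nat_lit 14) (nat_lit 5) (nat_lit 16) (nat_lit 5) (nat_lit 15) (nat_lit 5) (nat_lit 297) (nat_lit 273) (nat_lit 150)))) (XT.nd (nat_lit 78) (nat_lit 0) (nat_lit 0) (XT.lf (nat_lit 0) (nat_lit 13319122337) (nat_lit 152) (nat_lit 45215161761) (nat_lit 228) (nat_lit 115547899734) (nat_lit 12) (nat_lit 5) (nat_lit 14) (nat_lit 5) (nat_lit 15) (nat_lit 5) (nat_lit 298) (nat_lit 273) (nat_lit 149)) (XT.nd (nat_lit 78) (nat_lit 0) (nat_lit 0) (XT.lf (nat_lit 0) (nat_lit 81242919356) (nat_lit 152) (nat_lit 3468320015) (nat_lit 228) (nat_lit 99755798429) (nat_lit 12) (nat_lit 5) (nat_lit 14) (nat_lit 5) (nat_lit 15) (nat_lit 5) (nat_lit 299) (nat_lit 273) (nat_lit 148)) (XT.lf (nat_lit 0) (nat_lit 113982823515) (nat_lit 228) (nat_lit 42083683572) (nat_lit 76) (nat_lit 39536136915) (nat_lit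 12) (nat_lit 5) (nat_lit 15) (nat_lit 5) (nat_lit 13) (nat_lit 4) (nat_lit 300) (nat_lit 273) (nat_lit 147)))))) (XT.nd (nat_lit 468) (nat_lit 152) (nat_lit 0) (XT.nd (nat_lit 234) (nat_lit 228) (nat_lit 0) (XT.nd (nat_lit 78) (nat_lit 0) (nat_lit 0) (XT.lf (nat_lit 0) (nat_lit 25113529133) (nat_lit 76) (nat_lit 121176257730) (nat_lit 152) (nat_lit 61283821231) (nat_lit 11) (nat_lit 5) (nat_lit 12) (nat_lit 5) (nat_lit 13) (nat_lit 4) (nat_lit 301) (nat_lit 273) (nat_lit 146)) (XT.nd (nat_lit 78) (nat_lit 0) (nat_lit 0) (XT.lf (nat_lit 0) (nat_lit 100079220555) (nat_lit 76) (nat_lit 82252329927) (nat_lit 152) (nat_lit 38078680843) (nat_lit 11) (nat_lit 5) (nat_lit 12) (nat_lit 5) (nat_lit 13) (nat_lit 4) (nat_lit 302) (nat_lit 273) (nat_lit 145)) (XT.lf (nat_lit 0) (nat_lit 181041579631) (nat_lit 76) (nat_lit 40214705852) (nat_lit 152) (nat_lit 13017529871) (nat_lit 11) (nat_lit 5)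 (nat_lit 12) (nat_lit 5) (nat_lit 13) (nat_lit 4) (nat_lit 303) (nat_lit 273) (nat_lit 144)))) (XT.nd (nat_lit 78) (nat_lit 0) (nat_lit 0) (XT.lf (nat_lit 0) (nat_lit 13969695085) (nat_lit 228) (nat_lit 229436092724) (nat_lit 76) (nat_lit 5763754463) (nat_lit 8) (nat_lit 5) (nat_lit 11) (nat_lit 5) (nat_lit 9) (nat_lit 4) (nat_lit 304) (nat_lit 273) (nat_lit 143)) (XT.nd (nat_lit 78) (nat_lit 0) (nat_lit 0) (XT.lf (nat_lit 0) (nat_lit 44950074458) (nat_lit 228) (nat_lit 164997768688) (nat_lit 76) (nat_lit 55079038973) (nat_lit 8) (nat_lit 5) (nat_lit 11) (nat_lit 5) (nat_lit 9) (nat_lit 4) (nat_lit 305) (nat_lit 273) (nat_lit 142)) (XT.lf (nat_lit 0) (nat_lit 78408565129) (nat_lit 228) (nat_lit 95404909074) (nat_lit 76) (nat_lit 108339361477) (nat_lit 8) (nat_lit 5) (nat_lit 11) (nat_lit 5) (nat_lit 9) (nat_lit 4) (nat_lit 306) (nat_lit 273) (nat_lit 141))))) (XT.nd (nat_lit 234) (nat_lit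 76) (nat_lit 0) (XT.nd (nat_lit 78) (nat_lit 76) (nat_lit 0) (XT.lf (nat_lit 0) (nat_lit 114543439636) (nat_lit 228) (nat_lit 20245111751) (nat_lit 76) (nat_lit 165860338699) (nat_lit 8) (nat_lit 5) (nat_lit 11) (nat_lit 5) (nat_lit 9) (nat_lit 4) (nat_lit 307) (nat_lit 273) (nat_lit 140)) (XT.nd (nat_lit 78) (nat_lit 0) (nat_lit 0) (XT.lf (nat_lit 0) (nat_lit 64135323294) (nat_lit 76) (nat_lit 90975963341) (nat_lit 152) (nat_lit 165389968464) (nat_lit 7) (nat_lit 5) (nat_lit 8) (nat_lit 5) (nat_lit 9) (nat_lit 4) (nat_lit 308) (nat_lit 273) (nat_lit 139)) (XT.lf (nat_lit 0) (nat_lit 156417107414) (nat_lit 76) (nat_lit 43060727281) (nat_lit 152) (nat_lit 142419713549) (nat_lit 7) (nat_lit 5) (nat_lit 8) (nat_lit 5) (nat_lit 9) (nat_lit 4) (nat_lit 309) (nat_lit 273) (nat_lit 138)))) (XT.nd (nat_lit 156) (nat_lit 76) (nat_lit 0) (XT.nd (nat_lit 78) (nat_lit 0) (nat_lit 0) (XT.lf (nat_lit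 0) (nat_lit 247602398287) (nat_lit 152) (nat_lit 109133477278) (nat_lit 0) (nat_lit 8252974677) (nat_lit 7) (nat_lit 5) (nat_lit 9) (nat_lit 4) (nat_lit 7) (nat_lit 4) (nat_lit 310) (nat_lit 273) (nat_lit 137)) (XT.lf (nat_lit 0) (nat_lit 300695157440) (nat_lit 152) (nat_lit 27797612127) (nat_lit 0) (nat_lit 61345229075) (nat_lit 7) (nat_lit 5) (nat_lit 9) (nat_lit 4) (nat_lit 7) (nat_lit 4) (nat_lit 311) (nat_lit 273) (nat_lit 136))) (XT.nd (nat_lit 78) (nat_lit 0) (nat_lit 0) (XT.lf (nat_lit 0) (nat_lit 63206606925) (nat_lit 76) (nat_lit 296348637876) (nat_lit 76) (nat_lit 56998242146) (nat_lit 6) (nat_lit 4) (nat_lit 7) (nat_lit 5) (nat_lit 7) (nat_lit 4) (nat_lit 312) (nat_lit 273) (nat_lit 135)) (XT.lf (nat_lit 0) (nat_lit 163071681820) (nat_lit 76) (nat_lit 260812287569) (nat_lit 76) (nat_lit 21461459093) (nat_lit 6) (nat_lit 4) (nat_lit 7) (nat_lit 5) (nat_lit 7) (nat_lit 4)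 (nat_lit 313) (nat_lit 273) (nat_lit 134))))))))
noncomputable def xc104 : XT := (XT.nd (nat_lit 34866) (nat_lit 0) (nat_lit 608) (XT.nd (nat_lit 936) (nat_lit 0) (nat_lit 0) (XT.nd (nat_lit 468) (nat_lit 76) (nat_lit 0) (XT.nd (nat_lit 234) (nat_lit 76) (nat_lit 0) (XT.nd (nat_lit 78) (nat_lit 0) (nat_lit 0) (XT.lf (nat_lit 0) (nat_lit 16071750426) (nat_lit 152) (nat_lit 205921988279) (nat_lit 76) (nat_lit 254414452036) (nat_lit 5) (nat_lit 5) (nat_lit 7) (nat_lit 5) (nat_lit 6) (nat_lit 4) (nat_lit 314) (nat_lit 273) (nat_lit 133)) (XT.nd (nat_lit 78) (nat_lit 0) (nat_lit 0) (XT.lf (nat_lit 0) (nat_lit 55447959029) (nat_lit 152) (nat_lit 124019845393) (nat_lit 76) (nat_lit 330443589296) (nat_lit 5) (nat_lit 5) (nat_lit 7) (nat_lit 5) (nat_lit 6) (nat_lit 4) (nat_lit 315) (nat_lit 273) (nat_lit 132)) (XT.lf (nat_lit 0) (nat_lit 97974096315) (nat_lit 152) (nat_lit 35565823366) (nat_lit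 76) (nat_lit 412554947123) (nat_lit 5) (nat_lit 5) (nat_lit 7) (nat_lit 5) (nat_lit 6) (nat_lit 4) (nat_lit 316) (nat_lit 273) (nat_lit 131)))) (XT.nd (nat_lit 78) (nat_lit 0) (nat_lit 0) (XT.lf (nat_lit 0) (nat_lit 63121860911) (nat_lit 76) (nat_lit 82298390384) (nat_lit 152) (nat_lit 439631332703) (nat_lit 4) (nat_lit 5) (nat_lit 5) (nat_lit 5) (nat_lit 6) (nat_lit 4) (nat_lit 317) (nat_lit 273) (nat_lit 130)) (XT.nd (nat_lit 78) (nat_lit 0) (nat_lit 0) (XT.lf (nat_lit 0) (nat_lit 171726956033) (nat_lit 76) (nat_lit 25907424897) (nat_lit 152) (nat_lit 429412675424) (nat_lit 4) (nat_lit 5) (nat_lit 5) (nat_lit 5) (nat_lit 6) (nat_lit 4) (nat_lit 318) (nat_lit 273) (nat_lit 129)) (XT.lf (nat_lit 0) (nat_lit 254867125380) (nat_lit 152) (nat_lit 384223587147) (nat_lit 0) (nat_lit 33244135559) (nat_lit 4) (nat_lit 5) (nat_lit 6) (nat_lit 4) (nat_lit 4) (nat_lit 4) (nat_lit 319) (nat_lit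 273) (nat_lit 128))))) (XT.nd (nat_lit 234) (nat_lit 76) (nat_lit 0) (XT.nd (nat_lit 78) (nat_lit 0) (nat_lit 0) (XT.lf (nat_lit 0) (nat_lit 317351278244) (nat_lit 152) (nat_lit 308112507491) (nat_lit 0) (nat_lit 95728054625) (nat_lit 4) (nat_lit 5) (nat_lit 6) (nat_lit 4) (nat_lit 4) (nat_lit 4) (nat_lit 320) (nat_lit 273) (nat_lit 127)) (XT.nd (nat_lit 78) (nat_lit 0) (nat_lit 0) (XT.lf (nat_lit 0) (nat_lit 384834041795) (nat_lit 152) (nat_lit 225912758544) (nat_lit 0) (nat_lit 163210601695) (nat_lit 4) (nat_lit 5) (nat_lit 6) (nat_lit 4) (nat_lit 4) (nat_lit 4) (nat_lit 321) (nat_lit 273) (nat_lit 126)) (XT.lf (nat_lit 0) (nat_lit 457715313890) (nat_lit 152) (nat_lit 137137230680) (nat_lit 0) (nat_lit 236091673344) (nat_lit 4) (nat_lit 5) (nat_lit 6) (nat_lit 4) (nat_lit 4) (nat_lit 4) (nat_lit 322) (nat_lit 273) (nat_lit 125)))) (XT.nd (nat_lit 78) (nat_lit 76) (nat_lit 0) (XT.lf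 (nat_lit 0) (nat_lit 536426983548) (nat_lit 152) (nat_lit 41259846698) (nat_lit 0) (nat_lit 314803157406) (nat_lit 4) (nat_lit 5) (nat_lit 6) (nat_lit 4) (nat_lit 4) (nat_lit 4) (nat_lit 323) (nat_lit 273) (nat_lit 124)) (XT.nd (nat_lit 78) (nat_lit 0) (nat_lit 0) (XT.lf (nat_lit 0) (nat_lit 65567507975) (nat_lit 76) (nat_lit 557444882463) (nat_lit 76) (nat_lit 335820884471) (nat_lit 3) (nat_lit 4) (nat_lit 4) (nat_lit 5) (nat_lit 4) (nat_lit 4) (nat_lit 324) (nat_lit 273) (nat_lit 123)) (XT.lf (nat_lit 0) (nat_lit 183287367101) (nat_lit 76) (nat_lit 534365286727) (nat_lit 76) (nat_lit 312741129616) (nat_lit 3) (nat_lit 4) (nat_lit 4) (nat_lit 5) (nat_lit 4) (nat_lit 4) (nat_lit 325) (nat_lit 273) (nat_lit 122)))))) (XT.nd (nat_lit 33462) (nat_lit 0) (nat_lit 2204) (XT.nd (nat_lit 234) (nat_lit 0) (nat_lit 0) (XT.nd (nat_lit 78) (nat_lit 0) (nat_lit 0) (XT.lf (nat_lit 0) (nat_lit 310424659438)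 (nat_lit 76) (nat_lit 509439392393) (nat_lit 76) (nat_lit 287815087948) (nat_lit 3) (nat_lit 4) (nat_lit 4) (nat_lit 5) (nat_lit 4) (nat_lit 4) (nat_lit 326) (nat_lit 273) (nat_lit 121)) (XT.nd (nat_lit 78) (nat_lit 0) (nat_lit 0) (XT.lf (nat_lit 0) (nat_lit 447732791160) (nat_lit 76) (nat_lit 482519490456) (nat_lit 76) (nat_lit 260895049592) (nat_lit 3) (nat_lit 4) (nat_lit 4) (nat_lit 5) (nat_lit 4) (nat_lit 4) (nat_lit 327) (nat_lit 273) (nat_lit 120)) (XT.lf (nat_lit 0) (nat_lit 596025440086) (nat_lit 76) (nat_lit 453446055573) (nat_lit 76) (nat_lit 231821488394) (nat_lit 3) (nat_lit 4) (nat_lit 4) (nat_lit 5) (nat_lit 4) (nat_lit 4) (nat_lit 328) (nat_lit 273) (nat_lit 119)))) (XT.nd (nat_lit 78) (nat_lit 0) (nat_lit 0) (XT.lf (nat_lit 0) (nat_lit 756181377469) (nat_lit 76) (nat_lit 422046800720) (nat_lit 76) (nat_lit 200422116584) (nat_lit 3) (nat_lit 4) (nat_lit 4) (nat_lit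 5) (nat_lit 4) (nat_lit 4) (nat_lit 329) (nat_lit 273) (nat_lit 118)) (XT.nd (nat_lit 78) (nat_lit 0) (nat_lit 0) (XT.lf (nat_lit 0) (nat_lit 929149675530) (nat_lit 76) (nat_lit 388135656241) (nat_lit 76) (nat_lit 166510863811) (nat_lit 3) (nat_lit 4) (nat_lit 4) (nat_lit 5) (nat_lit 4) (nat_lit 4) (nat_lit 330) (nat_lit 273) (nat_lit 117)) (XT.lf (nat_lit 0) (nat_lit 1115955331591) (nat_lit 76) (nat_lit 351511667205) (nat_lit 76) (nat_lit 129886774502) (nat_lit 3) (nat_lit 4) (nat_lit 4) (nat_lit 5) (nat_lit 4) (nat_lit 4) (nat_lit 331) (nat_lit 273) (nat_lit 116))))) (XT.nd (nat_lit 234) (nat_lit 0) (nat_lit 76) (XT.nd (nat_lit 78) (nat_lit 0) (nat_lit 0) (XT.lf (nat_lit 0) (nat_lit 6754747904) (nat_lit 532) (nat_lit 10698928135) (nat_lit 532) (nat_lit 10698928135) (nat_lit 32) (nat_lit 3) (nat_lit 39) (nat_lit 3) (nat_lit 39) (nat_lit 5) (nat_lit 274) (nat_lit 274) (nat_lit 172))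 (XT.nd (nat_lit 78) (nat_lit 0) (nat_lit 76) (XT.lf (nat_lit 76) (nat_lit 1963935072) (nat_lit 0) (nat_lit 12151347117) (nat_lit 532) (nat_lit 44436784550) (nat_lit 33) (nat_lit 5) (nat_lit 32) (nat_lit 3) (nat_lit 39) (nat_lit 5) (nat_lit 275) (nat_lit 274) (nat_lit 171)) (XT.lf (nat_lit 0) (nat_lit 15666783964) (nat_lit 456) (nat_lit 32835523997) (nat_lit 532) (nat_lit 12404597383) (nat_lit 33) (nat_lit 5) (nat_lit 39) (nat_lit 5) (nat_lit 40) (nat_lit 5) (nat_lit 276) (nat_lit 274) (nat_lit 170)))) (XT.nd (nat_lit 78) (nat_lit 0) (nat_lit 76) (XT.lf (nat_lit 0) (nat_lit 17656336452) (nat_lit 456) (nat_lit 7499455158) (nat_lit 532) (nat_lit 38269235862) (nat_lit 33) (nat_lit 5) (nat_lit 39) (nat_lit 5) (nat_lit 40) (nat_lit 5) (nat_lit 277) (nat_lit 274) (nat_lit 169)) (XT.nd (nat_lit 78) (nat_lit 0) (nat_lit 0) (XT.lf (nat_lit 0) (nat_lit 20320815434) (nat_lit 456) (nat_lit 45210609488)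 (nat_lit 532) (nat_lit 571923536) (nat_lit 34) (nat_lit 5) (nat_lit 40) (nat_lit 5) (nat_lit 41) (nat_lit 5) (nat_lit 278) (nat_lit 274) (nat_lit 168)) (XT.lf (nat_lit 0) (nat_lit 24060762786) (nat_lit 456) (nat_lit 17656601159) (nat_lit 532) (nat_lit 27209595700) (nat_lit 34) (nat_lit 5) (nat_lit 40) (nat_lit 5) (nat_lit 41) (nat_lit 5) (nat_lit 279) (nat_lit 274) (nat_lit 167))))))) (XT.nd (nat_lit 936) (nat_lit 684) (nat_lit 0) (XT.nd (nat_lit 468) (nat_lit 456) (nat_lit 0) (XT.nd (nat_lit 234) (nat_lit 228) (nat_lit 0) (XT.nd (nat_lit 78) (nat_lit 380) (nat_lit 0) (XT.lf (nat_lit 76) (nat_lit 12737856563) (nat_lit 0) (nat_lit 15667041915) (nat_lit 532) (nat_lit 43547170479) (nat_lit 35) (nat_lit 5) (nat_lit 34) (nat_lit 5) (nat_lit 41) (nat_lit 5) (nat_lit 280) (nat_lit 274) (nat_lit 166)) (XT.nd (nat_lit 78) (nat_lit 456) (nat_lit 0) (XT.lf (nat_lit 0) (nat_lit 33890433677) (nat_lit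 456) (nat_lit 28926086066) (nat_lit 76) (nat_lit 12339165775) (nat_lit 35) (nat_lit 5) (nat_lit 41) (nat_lit 5) (nat_lit 36) (nat_lit 5) (nat_lit 281) (nat_lit 274) (nat_lit 165)) (XT.lf (nat_lit 0) (nat_lit 3554911945) (nat_lit 456) (nat_lit 36751153456) (nat_lit 532) (nat_lit 38270233110) (nat_lit 29) (nat_lit 5) (nat_lit 35) (nat_lit 5) (nat_lit 36) (nat_lit 5) (nat_lit 282) (nat_lit 274) (nat_lit 164)))) (XT.nd (nat_lit 78) (nat_lit 228) (nat_lit 0) (XT.lf (nat_lit 0) (nat_lit 40278395756) (nat_lit 456) (nat_lit 7746326311) (nat_lit 532) (nat_lit 34182663378) (nat_lit 29) (nat_lit 5) (nat_lit 35) (nat_lit 5) (nat_lit 36) (nat_lit 5) (nat_lit 283) (nat_lit 274) (nat_lit 163)) (XT.nd (nat_lit 78) (nat_lit 228) (nat_lit 0) (XT.lf (nat_lit 0) (nat_lit 56926912241) (nat_lit 532) (nat_lit 6757333129) (nat_lit 76) (nat_lit 22399437033) (nat_lit 29) (nat_lit 5) (nat_lit 36) (nat_lit 5)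 (nat_lit 30) (nat_lit 5) (nat_lit 284) (nat_lit 274) (nat_lit 162)) (XT.lf (nat_lit 0) (nat_lit 32659639304) (nat_lit 228) (nat_lit 34867351323) (nat_lit 304) (nat_lit 22664241329) (nat_lit 26) (nat_lit 5) (nat_lit 29) (nat_lit 5) (nat_lit 30) (nat_lit 5) (nat_lit 285) (nat_lit 274) (nat_lit 161))))) (XT.nd (nat_lit 234) (nat_lit 228) (nat_lit 0) (XT.nd (nat_lit 78) (nat_lit 228) (nat_lit 0) (XT.lf (nat_lit 0) (nat_lit 75613309083) (nat_lit 228) (nat_lit 3545616048) (nat_lit 304) (nat_lit 15453757794) (nat_lit 26) (nat_lit 5) (nat_lit 29) (nat_lit 5) (nat_lit 30) (nat_lit 5) (nat_lit 286) (nat_lit 274) (nat_lit 160)) (XT.nd (nat_lit 78) (nat_lit 76) (nat_lit 0) (XT.lf (nat_lit 0) (nat_lit 23038674511) (nat_lit 152) (nat_lit 69964258515) (nat_lit 228) (nat_lit 6282400495) (nat_lit 24) (nat_lit 5) (nat_lit 26) (nat_lit 5) (nat_lit 27) (nat_lit 5) (nat_lit 287) (nat_lit 274) (nat_lit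 159)) (XT.lf (nat_lit 0) (nat_lit 4065681565) (nat_lit 228) (nat_lit 34963652088) (nat_lit 76) (nat_lit 65245557890) (nat_lit 23) (nat_lit 5) (nat_lit 26) (nat_lit 5) (nat_lit 24) (nat_lit 5) (nat_lit 288) (nat_lit 274) (nat_lit 158)))) (XT.nd (nat_lit 78) (nat_lit 0) (nat_lit 0) (XT.lf (nat_lit 0) (nat_lit 9955945462) (nat_lit 228) (nat_lit 5184927094) (nat_lit 304) (nat_lit 94490597298) (nat_lit 20) (nat_lit 5) (nat_lit 23) (nat_lit 5) (nat_lit 24) (nat_lit 5) (nat_lit 289) (nat_lit 274) (nat_lit 157)) (XT.nd (nat_lit 78) (nat_lit 0) (nat_lit 0) (XT.lf (nat_lit 0) (nat_lit 28836521424) (nat_lit 304) (nat_lit 55662723333) (nat_lit 76) (nat_lit 30778577969) (nat_lit 20) (nat_lit 5) (nat_lit 24) (nat_lit 5) (nat_lit 21) (nat_lit 5) (nat_lit 290) (nat_lit 274) (nat_lit 156)) (XT.lf (nat_lit 0) (nat_lit 43761816160) (nat_lit 304) (nat_lit 8264444615) (nat_lit 76) (nat_lit 69338906965)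 (nat_lit 20) (nat_lit 5) (nat_lit 24) (nat_lit 5) (nat_lit 21) (nat_lit 5) (nat_lit 291) (nat_lit 274) (nat_lit 155)))))) (XT.nd (nat_lit 468) (nat_lit 228) (nat_lit 0) (XT.nd (nat_lit 234) (nat_lit 152) (nat_lit 0) (XT.nd (nat_lit 78) (nat_lit 152) (nat_lit 0) (XT.lf (nat_lit 0) (nat_lit 45185236608) (nat_lit 152) (nat_lit 15781974753) (nat_lit 228) (nat_lit 66885406017) (nat_lit 18) (nat_lit 5) (nat_lit 20) (nat_lit 5) (nat_lit 21) (nat_lit 5) (nat_lit 292) (nat_lit 274) (nat_lit 154)) (XT.nd (nat_lit 78) (nat_lit 152) (nat_lit 0) (XT.lf (nat_lit 0) (nat_lit 80342119137) (nat_lit 228) (nat_lit 32028644010) (nat_lit 76) (nat_lit 22424856305) (nat_lit 18) (nat_lit 5) (nat_lit 21) (nat_lit 5) (nat_lit 19) (nat_lit 5) (nat_lit 293) (nat_lit 274) (nat_lit 153)) (XT.lf (nat_lit 0) (nat_lit 23422169412) (nat_lit 152) (nat_lit 78817514200) (nat_lit 228) (nat_lit 39976567675) (nat_lit 16)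 (nat_lit 5) (nat_lit 18) (nat_lit 5) (nat_lit 19) (nat_lit 5) (nat_lit 294) (nat_lit 274) (nat_lit 152)))) (XT.nd (nat_lit 78) (nat_lit 152) (nat_lit 0) (XT.lf (nat_lit 0) (nat_lit 85129792204) (nat_lit 152) (nat_lit 41634443298) (nat_lit 228) (nat_lit 23396286108) (nat_lit 16) (nat_lit 5) (nat_lit 18) (nat_lit 5) (nat_lit 19) (nat_lit 5) (nat_lit 295) (nat_lit 274) (nat_lit 151)) (XT.nd (nat_lit 78) (nat_lit 152) (nat_lit 0) (XT.lf (nat_lit 0) (nat_lit 151773327532) (nat_lit 152) (nat_lit 1476926204) (nat_lit 228) (nat_lit 5490121981) (nat_lit 16) (nat_lit 5) (nat_lit 18) (nat_lit 5) (nat_lit 19) (nat_lit 5) (nat_lit 296) (nat_lit 274) (nat_lit 150)) (XT.lf (nat_lit 0) (nat_lit 15610647632) (nat_lit 152) (nat_lit 110594723614) (nat_lit 76) (nat_lit 41578214524) (nat_lit 14) (nat_lit 5) (nat_lit 16) (nat_lit 5) (nat_lit 15) (nat_lit 5) (nat_lit 297) (nat_lit 274) (nat_lit 149)))))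 (XT.nd (nat_lit 234) (nat_lit 76) (nat_lit 0) (XT.nd (nat_lit 78) (nat_lit 152) (nat_lit 0) (XT.lf (nat_lit 0) (nat_lit 38336210265) (nat_lit 152) (nat_lit 50848145005) (nat_lit 76) (nat_lit 88335823913) (nat_lit 14) (nat_lit 5) (nat_lit 16) (nat_lit 5) (nat_lit 15) (nat_lit 5) (nat_lit 298) (nat_lit 274) (nat_lit 148)) (XT.nd (nat_lit 78) (nat_lit 0) (nat_lit 0) (XT.lf (nat_lit 0) (nat_lit 14397755895) (nat_lit 152) (nat_lit 48827902135) (nat_lit 228) (nat_lit 124782376545) (nat_lit 12) (nat_lit 5) (nat_lit 14) (nat_lit 5) (nat_lit 15) (nat_lit 5) (nat_lit 299) (nat_lit 274) (nat_lit 147)) (XT.lf (nat_lit 0) (nat_lit 87754486025) (nat_lit 152) (nat_lit 3741644350) (nat_lit 228) (nat_lit 107727600111) (nat_lit 12) (nat_lit 5) (nat_lit 14) (nat_lit 5) (nat_lit 15) (nat_lit 5) (nat_lit 300) (nat_lit 274) (nat_lit 146)))) (XT.nd (nat_lit 78) (nat_lit 76) (nat_lit 0) (XT.lf (nat_lit 0)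 (nat_lit 123108941482) (nat_lit 228) (nat_lit 45438615425) (nat_lit 76) (nat_lit 42702670556) (nat_lit 12) (nat_lit 5) (nat_lit 15) (nat_lit 5) (nat_lit 13) (nat_lit 4) (nat_lit 301) (nat_lit 274) (nat_lit 145)) (XT.nd (nat_lit 78) (nat_lit 0) (nat_lit 0) (XT.lf (nat_lit 0) (nat_lit 27134076503) (nat_lit 76) (nat_lit 130866106160) (nat_lit 152) (nat_lit 66178710482) (nat_lit 11) (nat_lit 5) (nat_lit 12) (nat_lit 5) (nat_lit 13) (nat_lit 4) (nat_lit 302) (nat_lit 274) (nat_lit 144)) (XT.lf (nat_lit 0) (nat_lit 108096173977) (nat_lit 76) (nat_lit 88828579109) (nat_lit 152) (nat_lit 41117737860) (nat_lit 11) (nat_lit 5) (nat_lit 12) (nat_lit 5) (nat_lit 13) (nat_lit 4) (nat_lit 303) (nat_lit 274) (nat_lit 143))))))))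
noncomputable def xc105 : XT := (XT.nd (nat_lit 1872) (nat_lit 0) (nat_lit 0) (XT.nd (nat_lit 936) (nat_lit 152) (nat_lit 0) (XT.nd (nat_lit 468) (nat_lit 152) (nat_lit 0) (XT.nd (nat_lit 234) (nat_lit 76) (nat_lit 0) (XT.nd (nat_lit 78) (nat_lit 228) (nat_lit 0) (XT.lf (nat_lit 0) (nat_lit 195534735425) (nat_lit 76) (nat_lit 43428236754) (nat_lit 152) (nat_lit 14052230918) (nat_lit 11) (nat_lit 5) (nat_lit 12) (nat_lit 5) (nat_lit 13) (nat_lit 4) (nat_lit 304) (nat_lit 274) (nat_lit 142)) (XT.nd (nat_lit 78) (nat_lit 0) (nat_lit 0) (XT.lf (nat_lit 0) (nat_lit 15093495268) (nat_lit 228) (nat_lit 247780633332) (nat_lit 76) (nat_lit 6228459560) (nat_lit 8) (nat_lit 5) (nat_lit 11) (nat_lit 5) (nat_lit 9) (nat_lit 4) (nat_lit 305) (nat_lit 274) (nat_lit 141)) (XT.lf (nat_lit 0) (nat_lit 48551843911) (nat_lit 228) (nat_lit 178188009805) (nat_lit 76) (nat_lit 59488699813) (nat_lit 8) (nat_lit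 5) (nat_lit 11) (nat_lit 5) (nat_lit 9) (nat_lit 4) (nat_lit 306) (nat_lit 274) (nat_lit 140)))) (XT.nd (nat_lit 78) (nat_lit 76) (nat_lit 0) (XT.lf (nat_lit 0) (nat_lit 84686586910) (nat_lit 228) (nat_lit 103028431079) (nat_lit 76) (nat_lit 117009600878) (nat_lit 8) (nat_lit 5) (nat_lit 11) (nat_lit 5) (nat_lit 9) (nat_lit 4) (nat_lit 307) (nat_lit 274) (nat_lit 139)) (XT.nd (nat_lit 78) (nat_lit 76) (nat_lit 0) (XT.lf (nat_lit 0) (nat_lit 123711856076) (nat_lit 228) (nat_lit 21856507060) (nat_lit 76) (nat_lit 179132027354) (nat_lit 8) (nat_lit 5) (nat_lit 11) (nat_lit 5) (nat_lit 9) (nat_lit 4) (nat_lit 308) (nat_lit 274) (nat_lit 138)) (XT.lf (nat_lit 0) (nat_lit 69274154848) (nat_lit 76) (nat_lit 98250802503) (nat_lit 152) (nat_lit 178616002379) (nat_lit 7) (nat_lit 5) (nat_lit 8) (nat_lit 5) (nat_lit 9) (nat_lit 4) (nat_lit 309) (nat_lit 274) (nat_lit 137))))) (XT.nd (nat_lit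 234) (nat_lit 152) (nat_lit 0) (XT.nd (nat_lit 78) (nat_lit 0) (nat_lit 0) (XT.lf (nat_lit 0) (nat_lit 168937888684) (nat_lit 76) (nat_lit 46502587403) (nat_lit 152) (nat_lit 153808509557) (nat_lit 7) (nat_lit 5) (nat_lit 8) (nat_lit 5) (nat_lit 9) (nat_lit 4) (nat_lit 310) (nat_lit 274) (nat_lit 136)) (XT.nd (nat_lit 78) (nat_lit 0) (nat_lit 0) (XT.lf (nat_lit 0) (nat_lit 267414744520) (nat_lit 152) (nat_lit 117857019319) (nat_lit 0) (nat_lit 8915849767) (nat_lit 7) (nat_lit 5) (nat_lit 9) (nat_lit 4) (nat_lit 7) (nat_lit 4) (nat_lit 311) (nat_lit 274) (nat_lit 135)) (XT.lf (nat_lit 0) (nat_lit 324754616674) (nat_lit 152) (nat_lit 30014813559) (nat_lit 0) (nat_lit 66255289175) (nat_lit 7) (nat_lit 5) (nat_lit 9) (nat_lit 4) (nat_lit 7) (nat_lit 4) (nat_lit 312) (nat_lit 274) (nat_lit 134)))) (XT.nd (nat_lit 78) (nat_lit 76) (nat_lit 0) (XT.lf (nat_lit 0) (nat_lit 68269575739) (nat_lit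 76) (nat_lit 320053805239) (nat_lit 76) (nat_lit 61554077049) (nat_lit 6) (nat_lit 4) (nat_lit 7) (nat_lit 5) (nat_lit 7) (nat_lit 4) (nat_lit 313) (nat_lit 274) (nat_lit 133)) (XT.nd (nat_lit 78) (nat_lit 76) (nat_lit 0) (XT.lf (nat_lit 0) (nat_lit 176123379569) (nat_lit 76) (nat_lit 281674748660) (nat_lit 76) (nat_lit 23174649461) (nat_lit 6) (nat_lit 4) (nat_lit 7) (nat_lit 5) (nat_lit 7) (nat_lit 4) (nat_lit 314) (nat_lit 274) (nat_lit 132)) (XT.lf (nat_lit 0) (nat_lit 17360768194) (nat_lit 152) (nat_lit 222390044882) (nat_lit 76) (nat_lit 274769762330) (nat_lit 5) (nat_lit 5) (nat_lit 7) (nat_lit 5) (nat_lit 6) (nat_lit 4) (nat_lit 315) (nat_lit 274) (nat_lit 131)))))) (XT.nd (nat_lit 468) (nat_lit 76) (nat_lit 0) (XT.nd (nat_lit 234) (nat_lit 0) (nat_lit 0) (XT.nd (nat_lit 78) (nat_lit 76) (nat_lit 0) (XT.lf (nat_lit 0) (nat_lit 59886830690) (nat_lit 152) (nat_lit 133936152970)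 (nat_lit 76) (nat_lit 356881071006) (nat_lit 5) (nat_lit 5) (nat_lit 7) (nat_lit 5) (nat_lit 6) (nat_lit 4) (nat_lit 316) (nat_lit 274) (nat_lit 130)) (XT.nd (nat_lit 78) (nat_lit 76) (nat_lit 0) (XT.lf (nat_lit 0) (nat_lit 105814834149) (nat_lit 152) (nat_lit 38406200296) (nat_lit 76) (nat_lit 445561189713) (nat_lit 5) (nat_lit 5) (nat_lit 7) (nat_lit 5) (nat_lit 6) (nat_lit 4) (nat_lit 317) (nat_lit 274) (nat_lit 129)) (XT.lf (nat_lit 0) (nat_lit 68176374953) (nat_lit 76) (nat_lit 88880213019) (nat_lit 152) (nat_lit 474798898772) (nat_lit 4) (nat_lit 5) (nat_lit 5) (nat_lit 5) (nat_lit 6) (nat_lit 4) (nat_lit 318) (nat_lit 274) (nat_lit 128)))) (XT.nd (nat_lit 78) (nat_lit 0) (nat_lit 0) (XT.lf (nat_lit 0) (nat_lit 185469524709) (nat_lit 76) (nat_lit 27978122041) (nat_lit 152) (nat_lit 463762966729) (nat_lit 4) (nat_lit 5) (nat_lit 5) (nat_lit 5) (nat_lit 6) (nat_lit 4) (nat_lit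 319) (nat_lit 274) (nat_lit 127)) (XT.nd (nat_lit 78) (nat_lit 0) (nat_lit 0) (XT.lf (nat_lit 0) (nat_lit 275258866674) (nat_lit 152) (nat_lit 414957238972) (nat_lit 0) (nat_lit 35905334885) (nat_lit 4) (nat_lit 5) (nat_lit 6) (nat_lit 4) (nat_lit 4) (nat_lit 4) (nat_lit 320) (nat_lit 274) (nat_lit 126)) (XT.lf (nat_lit 0) (nat_lit 342741576119) (nat_lit 152) (nat_lit 332757586659) (nat_lit 0) (nat_lit 103387843885) (nat_lit 4) (nat_lit 5) (nat_lit 6) (nat_lit 4) (nat_lit 4) (nat_lit 4) (nat_lit 321) (nat_lit 274) (nat_lit 125))))) (XT.nd (nat_lit 234) (nat_lit 76) (nat_lit 0) (XT.nd (nat_lit 78) (nat_lit 0) (nat_lit 0) (XT.lf (nat_lit 0) (nat_lit 415622798115) (nat_lit 152) (nat_lit 243982148272) (nat_lit 0) (nat_lit 176268880284) (nat_lit 4) (nat_lit 5) (nat_lit 6) (nat_lit 4) (nat_lit 4) (nat_lit 4) (nat_lit 322) (nat_lit 274) (nat_lit 124)) (XT.nd (nat_lit 78) (nat_lit 0) (nat_lit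 0) (XT.lf (nat_lit 0) (nat_lit 494334421387) (nat_lit 152) (nat_lit 148104847139) (nat_lit 0) (nat_lit 254980331706) (nat_lit 4) (nat_lit 5) (nat_lit 6) (nat_lit 4) (nat_lit 4) (nat_lit 4) (nat_lit 323) (nat_lit 274) (nat_lit 123)) (XT.lf (nat_lit 0) (nat_lit 579342885182) (nat_lit 152) (nat_lit 44557521476) (nat_lit 0) (nat_lit 339988636382) (nat_lit 4) (nat_lit 5) (nat_lit 6) (nat_lit 4) (nat_lit 4) (nat_lit 4) (nat_lit 324) (nat_lit 274) (nat_lit 122)))) (XT.nd (nat_lit 78) (nat_lit 0) (nat_lit 0) (XT.lf (nat_lit 0) (nat_lit 70815942762) (nat_lit 76) (nat_lit 602039125724) (nat_lit 76) (nat_lit 362684729591) (nat_lit 3) (nat_lit 4) (nat_lit 4) (nat_lit 5) (nat_lit 4) (nat_lit 4) (nat_lit 325) (nat_lit 274) (nat_lit 121)) (XT.nd (nat_lit 78) (nat_lit 0) (nat_lit 0) (XT.lf (nat_lit 0) (nat_lit 197953165867) (nat_lit 76) (nat_lit 577113262132) (nat_lit 76) (nat_lit 337758729579) (nat_lit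 3) (nat_lit 4) (nat_lit 4) (nat_lit 5) (nat_lit 4) (nat_lit 4) (nat_lit 326) (nat_lit 274) (nat_lit 120)) (XT.lf (nat_lit 0) (nat_lit 335261233487) (nat_lit 76) (nat_lit 550193388661) (nat_lit 76) (nat_lit 310838729794) (nat_lit 3) (nat_lit 4) (nat_lit 4) (nat_lit 5) (nat_lit 4) (nat_lit 4) (nat_lit 327) (nat_lit 274) (nat_lit 119))))))) (XT.nd (nat_lit 34008) (nat_lit 0) (nat_lit 988) (XT.nd (nat_lit 33540) (nat_lit 0) (nat_lit 2280) (XT.nd (nat_lit 234) (nat_lit 0) (nat_lit 0) (XT.nd (nat_lit 78) (nat_lit 0) (nat_lit 0) (XT.lf (nat_lit 0) (nat_lit 483553823058) (nat_lit 76) (nat_lit 521119980134) (nat_lit 76) (nat_lit 281765204309) (nat_lit 3) (nat_lit 4) (nat_lit 4) (nat_lit 5) (nat_lit 4) (nat_lit 4) (nat_lit 328) (nat_lit 274) (nat_lit 118)) (XT.nd (nat_lit 78) (nat_lit 0) (nat_lit 0) (XT.lf (nat_lit 0) (nat_lit 643709705483) (nat_lit 76) (nat_lit 489720749686) (nat_lit 76) (nat_lit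 250365865567) (nat_lit 3) (nat_lit 4) (nat_lit 4) (nat_lit 5) (nat_lit 4) (nat_lit 4) (nat_lit 329) (nat_lit 274) (nat_lit 117)) (XT.lf (nat_lit 0) (nat_lit 816677952658) (nat_lit 76) (nat_lit 455809627804) (nat_lit 76) (nat_lit 216454643412) (nat_lit 3) (nat_lit 4) (nat_lit 4) (nat_lit 5) (nat_lit 4) (nat_lit 4) (nat_lit 330) (nat_lit 274) (nat_lit 116)))) (XT.nd (nat_lit 33150) (nat_lit 0) (nat_lit 2204) (XT.lf (nat_lit 0) (nat_lit 1003483561601) (nat_lit 76) (nat_lit 419185659690) (nat_lit 76) (nat_lit 179830582454) (nat_lit 3) (nat_lit 4) (nat_lit 4) (nat_lit 5) (nat_lit 4) (nat_lit 4) (nat_lit 331) (nat_lit 274) (nat_lit 115)) (XT.nd (nat_lit 78) (nat_lit 0) (nat_lit 0) (XT.lf (nat_lit 0) (nat_lit 7312864517) (nat_lit 532) (nat_lit 11545207225) (nat_lit 532) (nat_lit 11545207225) (nat_lit 32) (nat_lit 3) (nat_lit 39) (nat_lit 3) (nat_lit 39) (nat_lit 5) (nat_lit 275) (nat_lit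 275) (nat_lit 170)) (XT.lf (nat_lit 76) (nat_lit 2139832344) (nat_lit 0) (nat_lit 13137970028) (nat_lit 532) (nat_lit 47955553675) (nat_lit 33) (nat_lit 5) (nat_lit 32) (nat_lit 3) (nat_lit 39) (nat_lit 5) (nat_lit 276) (nat_lit 275) (nat_lit 169))))) (XT.nd (nat_lit 234) (nat_lit 0) (nat_lit 76) (XT.nd (nat_lit 78) (nat_lit 0) (nat_lit 0) (XT.lf (nat_lit 0) (nat_lit 16950634569) (nat_lit 456) (nat_lit 35441988522) (nat_lit 532) (nat_lit 13384197549) (nat_lit 33) (nat_lit 5) (nat_lit 39) (nat_lit 5) (nat_lit 40) (nat_lit 5) (nat_lit 277) (nat_lit 275) (nat_lit 168)) (XT.nd (nat_lit 78) (nat_lit 0) (nat_lit 76) (XT.lf (nat_lit 0) (nat_lit 19097091412) (nat_lit 456) (nat_lit 8080543612) (nat_lit 532) (nat_lit 41318952856) (nat_lit 33) (nat_lit 5) (nat_lit 39) (nat_lit 5) (nat_lit 40) (nat_lit 5) (nat_lit 278) (nat_lit 275) (nat_lit 167)) (XT.lf (nat_lit 0) (nat_lit 21972881159) (nat_lit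 456) (nat_lit 48806574266) (nat_lit 532) (nat_lit 609880401) (nat_lit 34) (nat_lit 5) (nat_lit 40) (nat_lit 5) (nat_lit 41) (nat_lit 5) (nat_lit 279) (nat_lit 275) (nat_lit 166)))) (XT.nd (nat_lit 78) (nat_lit 0) (nat_lit 0) (XT.lf (nat_lit 0) (nat_lit 26010068708) (nat_lit 456) (nat_lit 19049792233) (nat_lit 532) (nat_lit 29379143895) (nat_lit 34) (nat_lit 5) (nat_lit 40) (nat_lit 5) (nat_lit 41) (nat_lit 5) (nat_lit 280) (nat_lit 275) (nat_lit 165)) (XT.nd (nat_lit 78) (nat_lit 0) (nat_lit 76) (XT.lf (nat_lit 76) (nat_lit 13775732563) (nat_lit 0) (nat_lit 16924645241) (nat_lit 532) (nat_lit 47005865240) (nat_lit 35) (nat_lit 5) (nat_lit 34) (nat_lit 5) (nat_lit 41) (nat_lit 5) (nat_lit 281) (nat_lit 275) (nat_lit 164)) (XT.lf (nat_lit 0) (nat_lit 36622951220) (nat_lit 456) (nat_lit 31220783251) (nat_lit 76) (nat_lit 13322569526) (nat_lit 35) (nat_lit 5) (nat_lit 41) (nat_lit 5) (nat_lit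 36) (nat_lit 5) (nat_lit 282) (nat_lit 275) (nat_lit 163)))))) (XT.nd (nat_lit 468) (nat_lit 608) (nat_lit 0) (XT.nd (nat_lit 234) (nat_lit 380) (nat_lit 0) (XT.nd (nat_lit 78) (nat_lit 0) (nat_lit 0) (XT.lf (nat_lit 0) (nat_lit 3858203723) (nat_lit 456) (nat_lit 39692507769) (nat_lit 532) (nat_lit 41309954202) (nat_lit 29) (nat_lit 5) (nat_lit 35) (nat_lit 5) (nat_lit 36) (nat_lit 5) (nat_lit 283) (nat_lit 275) (nat_lit 162)) (XT.nd (nat_lit 78) (nat_lit 0) (nat_lit 0) (XT.lf (nat_lit 0) (nat_lit 43518166325) (nat_lit 456) (nat_lit 8367200968) (nat_lit 532) (nat_lit 36897000934) (nat_lit 29) (nat_lit 5) (nat_lit 35) (nat_lit 5) (nat_lit 36) (nat_lit 5) (nat_lit 284) (nat_lit 275) (nat_lit 161)) (XT.lf (nat_lit 0) (nat_lit 61498323885) (nat_lit 532) (nat_lit 7280202125) (nat_lit 76) (nat_lit 24190364129) (nat_lit 29) (nat_lit 5) (nat_lit 36) (nat_lit 5) (nat_lit 30) (nat_lit 5) (nat_lit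 285) (nat_lit 275) (nat_lit 160)))) (XT.nd (nat_lit 78) (nat_lit 152) (nat_lit 0) (XT.lf (nat_lit 0) (nat_lit 35289679554) (nat_lit 228) (nat_lit 37655865890) (nat_lit 304) (nat_lit 24459575123) (nat_lit 26) (nat_lit 5) (nat_lit 29) (nat_lit 5) (nat_lit 30) (nat_lit 5) (nat_lit 286) (nat_lit 275) (nat_lit 159)) (XT.nd (nat_lit 78) (nat_lit 152) (nat_lit 0) (XT.lf (nat_lit 0) (nat_lit 81678363723) (nat_lit 228) (nat_lit 3828456500) (nat_lit 304) (nat_lit 16673571832) (nat_lit 26) (nat_lit 5) (nat_lit 29) (nat_lit 5) (nat_lit 30) (nat_lit 5) (nat_lit 287) (nat_lit 275) (nat_lit 158)) (XT.lf (nat_lit 0) (nat_lit 24898607071) (nat_lit 152) (nat_lit 75559040133) (nat_lit 228) (nat_lit 6769270359) (nat_lit 24) (nat_lit 5) (nat_lit 26) (nat_lit 5) (nat_lit 27) (nat_lit 5) (nat_lit 288) (nat_lit 275) (nat_lit 157))))) (XT.nd (nat_lit 234) (nat_lit 304) (nat_lit 0) (XT.nd (nat_lit 78) (nat_lit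 228) (nat_lit 0) (XT.lf (nat_lit 0) (nat_lit 4404765431) (nat_lit 228) (nat_lit 37744352478) (nat_lit 76) (nat_lit 70466586357) (nat_lit 23) (nat_lit 5) (nat_lit 26) (nat_lit 5) (nat_lit 24) (nat_lit 5) (nat_lit 289) (nat_lit 275) (nat_lit 156)) (XT.nd (nat_lit 78) (nat_lit 0) (nat_lit 0) (XT.lf (nat_lit 0) (nat_lit 10768397894) (nat_lit 228) (nat_lit 5596933654) (nat_lit 304) (nat_lit 102035533858) (nat_lit 20) (nat_lit 5) (nat_lit 23) (nat_lit 5) (nat_lit 24) (nat_lit 5) (nat_lit 290) (nat_lit 275) (nat_lit 155)) (XT.lf (nat_lit 0) (nat_lit 31155717425) (nat_lit 304) (nat_lit 60099971024) (nat_lit 76) (nat_lit 33243316207) (nat_lit 20) (nat_lit 5) (nat_lit 24) (nat_lit 5) (nat_lit 21) (nat_lit 5) (nat_lit 291) (nat_lit 275) (nat_lit 154)))) (XT.nd (nat_lit 156) (nat_lit 152) (nat_lit 0) (XT.nd (nat_lit 78) (nat_lit 152) (nat_lit 0) (XT.lf (nat_lit 0) (nat_lit 47274126533) (nat_lit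 304) (nat_lit 8910998169) (nat_lit 76) (nat_lit 74888289893) (nat_lit 20) (nat_lit 5) (nat_lit 24) (nat_lit 5) (nat_lit 21) (nat_lit 5) (nat_lit 292) (nat_lit 275) (nat_lit 153)) (XT.lf (nat_lit 0) (nat_lit 48814287881) (nat_lit 152) (nat_lit 17041165901) (nat_lit 228) (nat_lit 72224450638) (nat_lit 18) (nat_lit 5) (nat_lit 20) (nat_lit 5) (nat_lit 21) (nat_lit 5) (nat_lit 293) (nat_lit 275) (nat_lit 152))) (XT.nd (nat_lit 78) (nat_lit 152) (nat_lit 0) (XT.lf (nat_lit 0) (nat_lit 86779624301) (nat_lit 228) (nat_lit 34576978383) (nat_lit 76) (nat_lit 24221806300) (nat_lit 18) (nat_lit 5) (nat_lit 21) (nat_lit 5) (nat_lit 19) (nat_lit 5) (nat_lit 294) (nat_lit 275) (nat_lit 151)) (XT.lf (nat_lit 0) (nat_lit 25309546768) (nat_lit 152) (nat_lit 85119023551) (nat_lit 228) (nat_lit 43164158579) (nat_lit 16) (nat_lit 5) (nat_lit 18) (nat_lit 5) (nat_lit 19) (nat_lit 5) (nat_lit 295) (nat_lit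 275) (nat_lit 150))))))))
noncomputable def xc106 : XT := (XT.nd (nat_lit 1872) (nat_lit 76) (nat_lit 0) (XT.nd (nat_lit 936) (nat_lit 304) (nat_lit 0) (XT.nd (nat_lit 468) (nat_lit 304) (nat_lit 0) (XT.nd (nat_lit 234) (nat_lit 152) (nat_lit 0) (XT.nd (nat_lit 78) (nat_lit 152) (nat_lit 0) (XT.lf (nat_lit 0) (nat_lit 91952771694) (nat_lit 152) (nat_lit 44961595257) (nat_lit 228) (nat_lit 25258234821) (nat_lit 16) (nat_lit 5) (nat_lit 18) (nat_lit 5) (nat_lit 19) (nat_lit 5) (nat_lit 296) (nat_lit 275) (nat_lit 149)) (XT.nd (nat_lit 78) (nat_lit 152) (nat_lit 0) (XT.lf (nat_lit 0) (nat_lit 163926856803) (nat_lit 152) (nat_lit 1591743721) (nat_lit 228) (nat_lit 5920300095) (nat_lit 16) (nat_lit 5) (nat_lit 18) (nat_lit 5) (nat_lit 19) (nat_lit 5) (nat_lit 297) (nat_lit 275) (nat_lit 148)) (XT.lf (nat_lit 0) (nat_lit 16867815500) (nat_lit 152) (nat_lit 119429853236) (nat_lit 76) (nat_lit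 44907905144) (nat_lit 14) (nat_lit 5) (nat_lit 16) (nat_lit 5) (nat_lit 15) (nat_lit 5) (nat_lit 298) (nat_lit 275) (nat_lit 147)))) (XT.nd (nat_lit 78) (nat_lit 152) (nat_lit 0) (XT.lf (nat_lit 0) (nat_lit 41410807140) (nat_lit 152) (nat_lit 54904470432) (nat_lit 76) (nat_lit 95405868953) (nat_lit 14) (nat_lit 5) (nat_lit 16) (nat_lit 5) (nat_lit 15) (nat_lit 5) (nat_lit 299) (nat_lit 275) (nat_lit 146)) (XT.nd (nat_lit 78) (nat_lit 0) (nat_lit 0) (XT.lf (nat_lit 0) (nat_lit 15560810738) (nat_lit 152) (nat_lit 52730299801) (nat_lit 228) (nat_lit 134756946121) (nat_lit 12) (nat_lit 5) (nat_lit 14) (nat_lit 5) (nat_lit 15) (nat_lit 5) (nat_lit 300) (nat_lit 275) (nat_lit 145)) (XT.lf (nat_lit 0) (nat_lit 94785247102) (nat_lit 152) (nat_lit 4037425431) (nat_lit 228) (nat_lit 116338381687) (nat_lit 12) (nat_lit 5) (nat_lit 14) (nat_lit 5) (nat_lit 15) (nat_lit 5) (nat_lit 301) (nat_lit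 275) (nat_lit 144))))) (XT.nd (nat_lit 234) (nat_lit 228) (nat_lit 0) (XT.nd (nat_lit 78) (nat_lit 76) (nat_lit 0) (XT.lf (nat_lit 0) (nat_lit 132964080057) (nat_lit 228) (nat_lit 49063619925) (nat_lit 76) (nat_lit 46122007218) (nat_lit 12) (nat_lit 5) (nat_lit 15) (nat_lit 5) (nat_lit 13) (nat_lit 4) (nat_lit 302) (nat_lit 275) (nat_lit 143)) (XT.nd (nat_lit 78) (nat_lit 0) (nat_lit 0) (XT.lf (nat_lit 0) (nat_lit 29314632047) (nat_lit 76) (nat_lit 141331749086) (nat_lit 152) (nat_lit 71466305978) (nat_lit 11) (nat_lit 5) (nat_lit 12) (nat_lit 5) (nat_lit 13) (nat_lit 4) (nat_lit 303) (nat_lit 275) (nat_lit 142)) (XT.lf (nat_lit 0) (nat_lit 116752969214) (nat_lit 76) (nat_lit 95931489913) (nat_lit 152) (nat_lit 44400951942) (nat_lit 11) (nat_lit 5) (nat_lit 12) (nat_lit 5) (nat_lit 13) (nat_lit 4) (nat_lit 304) (nat_lit 275) (nat_lit 141)))) (XT.nd (nat_lit 78) (nat_lit 228) (nat_lit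 0) (XT.lf (nat_lit 0) (nat_lit 211185941406) (nat_lit 76) (nat_lit 46899370209) (nat_lit 152) (nat_lit 15170664070) (nat_lit 11) (nat_lit 5) (nat_lit 12) (nat_lit 5) (nat_lit 13) (nat_lit 4) (nat_lit 305) (nat_lit 275) (nat_lit 140)) (XT.nd (nat_lit 78) (nat_lit 0) (nat_lit 0) (XT.lf (nat_lit 0) (nat_lit 16306311459) (nat_lit 228) (nat_lit 267594213278) (nat_lit 76) (nat_lit 6729826809) (nat_lit 8) (nat_lit 5) (nat_lit 11) (nat_lit 5) (nat_lit 9) (nat_lit 4) (nat_lit 306) (nat_lit 275) (nat_lit 139)) (XT.lf (nat_lit 0) (nat_lit 52440932692) (nat_lit 228) (nat_lit 192434836958) (nat_lit 76) (nat_lit 64250657357) (nat_lit 8) (nat_lit 5) (nat_lit 11) (nat_lit 5) (nat_lit 9) (nat_lit 4) (nat_lit 307) (nat_lit 275) (nat_lit 138)))))) (XT.nd (nat_lit 468) (nat_lit 228) (nat_lit 0) (XT.nd (nat_lit 234) (nat_lit 0) (nat_lit 0) (XT.nd (nat_lit 78) (nat_lit 76) (nat_lit 0) (XT.lf (nat_lit 0)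 (nat_lit 91466089112) (nat_lit 228) (nat_lit 111263100352) (nat_lit 76) (nat_lit 126373018540) (nat_lit 8) (nat_lit 5) (nat_lit 11) (nat_lit 5) (nat_lit 9) (nat_lit 4) (nat_lit 308) (nat_lit 275) (nat_lit 137)) (XT.nd (nat_lit 78) (nat_lit 76) (nat_lit 0) (XT.lf (nat_lit 0) (nat_lit 133613040903) (nat_lit 228) (nat_lit 23597985760) (nat_lit 76) (nat_lit 193465042867) (nat_lit 8) (nat_lit 5) (nat_lit 11) (nat_lit 5) (nat_lit 9) (nat_lit 4) (nat_lit 309) (nat_lit 275) (nat_lit 136)) (XT.lf (nat_lit 0) (nat_lit 74822950826) (nat_lit 76) (nat_lit 106108090722) (nat_lit 152) (nat_lit 192900855647) (nat_lit 7) (nat_lit 5) (nat_lit 8) (nat_lit 5) (nat_lit 9) (nat_lit 4) (nat_lit 310) (nat_lit 275) (nat_lit 135)))) (XT.nd (nat_lit 78) (nat_lit 0) (nat_lit 0) (XT.lf (nat_lit 0) (nat_lit 182459274954) (nat_lit 76) (nat_lit 50220224042) (nat_lit 152) (nat_lit 166109091319) (nat_lit 7) (nat_lit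 5) (nat_lit 8) (nat_lit 5) (nat_lit 9) (nat_lit 4) (nat_lit 311) (nat_lit 275) (nat_lit 134)) (XT.nd (nat_lit 78) (nat_lit 0) (nat_lit 0) (XT.lf (nat_lit 0) (nat_lit 288811485785) (nat_lit 152) (nat_lit 127279462773) (nat_lit 0) (nat_lit 9631378650) (nat_lit 7) (nat_lit 5) (nat_lit 9) (nat_lit 4) (nat_lit 7) (nat_lit 4) (nat_lit 312) (nat_lit 275) (nat_lit 133)) (XT.lf (nat_lit 0) (nat_lit 350738283882) (nat_lit 152) (nat_lit 32410333745) (nat_lit 0) (nat_lit 71557805737) (nat_lit 7) (nat_lit 5) (nat_lit 9) (nat_lit 4) (nat_lit 7) (nat_lit 4) (nat_lit 313) (nat_lit 275) (nat_lit 132))))) (XT.nd (nat_lit 234) (nat_lit 76) (nat_lit 0) (XT.nd (nat_lit 78) (nat_lit 76) (nat_lit 0) (XT.lf (nat_lit 0) (nat_lit 73736663282) (nat_lit 76) (nat_lit 345655774552) (nat_lit 76) (nat_lit 66474952879) (nat_lit 6) (nat_lit 4) (nat_lit 7) (nat_lit 5) (nat_lit 7) (nat_lit 4) (nat_lit 314) (nat_lit 275)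 (nat_lit 131)) (XT.nd (nat_lit 78) (nat_lit 76) (nat_lit 0) (XT.lf (nat_lit 0) (nat_lit 190218362420) (nat_lit 76) (nat_lit 304206566418) (nat_lit 76) (nat_lit 25025426664) (nat_lit 6) (nat_lit 4) (nat_lit 7) (nat_lit 5) (nat_lit 7) (nat_lit 4) (nat_lit 315) (nat_lit 275) (nat_lit 130)) (XT.lf (nat_lit 0) (nat_lit 18752439778) (nat_lit 152) (nat_lit 240176359534) (nat_lit 76) (nat_lit 296753190137) (nat_lit 5) (nat_lit 5) (nat_lit 7) (nat_lit 5) (nat_lit 6) (nat_lit 4) (nat_lit 316) (nat_lit 275) (nat_lit 129)))) (XT.nd (nat_lit 78) (nat_lit 76) (nat_lit 0) (XT.lf (nat_lit 0) (nat_lit 64680379117) (nat_lit 152) (nat_lit 144646518412) (nat_lit 76) (nat_lit 385433266705) (nat_lit 5) (nat_lit 5) (nat_lit 7) (nat_lit 5) (nat_lit 6) (nat_lit 4) (nat_lit 317) (nat_lit 275) (nat_lit 128)) (XT.nd (nat_lit 78) (nat_lit 76) (nat_lit 0) (XT.lf (nat_lit 0) (nat_lit 114282430113) (nat_lit 152)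 (nat_lit 41474504842) (nat_lit 76) (nat_lit 481207668241) (nat_lit 5) (nat_lit 5) (nat_lit 7) (nat_lit 5) (nat_lit 6) (nat_lit 4) (nat_lit 318) (nat_lit 275) (nat_lit 127)) (XT.lf (nat_lit 0) (nat_lit 73634570313) (nat_lit 76) (nat_lit 95988873720) (nat_lit 152) (nat_lit 512780289628) (nat_lit 4) (nat_lit 5) (nat_lit 5) (nat_lit 5) (nat_lit 6) (nat_lit 4) (nat_lit 319) (nat_lit 275) (nat_lit 126))))))) (XT.nd (nat_lit 34164) (nat_lit 0) (nat_lit 1748) (XT.nd (nat_lit 468) (nat_lit 76) (nat_lit 0) (XT.nd (nat_lit 234) (nat_lit 0) (nat_lit 0) (XT.nd (nat_lit 78) (nat_lit 0) (nat_lit 0) (XT.lf (nat_lit 0) (nat_lit 200310869431) (nat_lit 76) (nat_lit 30214745563) (nat_lit 152) (nat_lit 500861669766) (nat_lit 4) (nat_lit 5) (nat_lit 5) (nat_lit 5) (nat_lit 6) (nat_lit 4) (nat_lit 320) (nat_lit 275) (nat_lit 125)) (XT.nd (nat_lit 78) (nat_lit 0) (nat_lit 0) (XT.lf (nat_lit 0) (nat_lit 297281608984)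 (nat_lit 152) (nat_lit 448150187135) (nat_lit 0) (nat_lit 38779192129) (nat_lit 4) (nat_lit 5) (nat_lit 6) (nat_lit 4) (nat_lit 4) (nat_lit 4) (nat_lit 321) (nat_lit 275) (nat_lit 124)) (XT.lf (nat_lit 0) (nat_lit 370162784594) (nat_lit 152) (nat_lit 359374831597) (nat_lit 0) (nat_lit 111660195890) (nat_lit 4) (nat_lit 5) (nat_lit 6) (nat_lit 4) (nat_lit 4) (nat_lit 4) (nat_lit 322) (nat_lit 275) (nat_lit 123)))) (XT.nd (nat_lit 78) (nat_lit 0) (nat_lit 0) (XT.lf (nat_lit 0) (nat_lit 448874364914) (nat_lit 152) (nat_lit 263497607175) (nat_lit 0) (nat_lit 190371617090) (nat_lit 4) (nat_lit 5) (nat_lit 6) (nat_lit 4) (nat_lit 4) (nat_lit 4) (nat_lit 323) (nat_lit 275) (nat_lit 122)) (XT.nd (nat_lit 78) (nat_lit 0) (nat_lit 0) (XT.lf (nat_lit 0) (nat_lit 533882788940) (nat_lit 152) (nat_lit 159950352541) (nat_lit 0) (nat_lit 275379893783) (nat_lit 4) (nat_lit 5) (nat_lit 6) (nat_lit 4)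 (nat_lit 4) (nat_lit 4) (nat_lit 324) (nat_lit 275) (nat_lit 121)) (XT.lf (nat_lit 0) (nat_lit 625691810295) (nat_lit 152) (nat_lit 48119454333) (nat_lit 0) (nat_lit 367188778718) (nat_lit 4) (nat_lit 5) (nat_lit 6) (nat_lit 4) (nat_lit 4) (nat_lit 4) (nat_lit 325) (nat_lit 275) (nat_lit 120))))) (XT.nd (nat_lit 234) (nat_lit 0) (nat_lit 0) (XT.nd (nat_lit 78) (nat_lit 0) (nat_lit 0) (XT.lf (nat_lit 0) (nat_lit 76483819478) (nat_lit 76) (nat_lit 650201100659) (nat_lit 76) (nat_lit 391697942768) (nat_lit 3) (nat_lit 4) (nat_lit 4) (nat_lit 5) (nat_lit 4) (nat_lit 4) (nat_lit 326) (nat_lit 275) (nat_lit 119)) (XT.nd (nat_lit 78) (nat_lit 0) (nat_lit 0) (XT.lf (nat_lit 0) (nat_lit 213791827743) (nat_lit 76) (nat_lit 623281253544) (nat_lit 76) (nat_lit 364777978696) (nat_lit 3) (nat_lit 4) (nat_lit 4) (nat_lit 5) (nat_lit 4) (nat_lit 4) (nat_lit 327) (nat_lit 275) (nat_lit 118)) (XT.lf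 (nat_lit 0) (nat_lit 362084362356) (nat_lit 76) (nat_lit 594207869422) (nat_lit 76) (nat_lit 335704486279) (nat_lit 3) (nat_lit 4) (nat_lit 4) (nat_lit 5) (nat_lit 4) (nat_lit 4) (nat_lit 328) (nat_lit 275) (nat_lit 117)))) (XT.nd (nat_lit 78) (nat_lit 0) (nat_lit 0) (XT.lf (nat_lit 0) (nat_lit 522240193894) (nat_lit 76) (nat_lit 562808661570) (nat_lit 76) (nat_lit 304305178155) (nat_lit 3) (nat_lit 4) (nat_lit 4) (nat_lit 5) (nat_lit 4) (nat_lit 4) (nat_lit 329) (nat_lit 275) (nat_lit 116)) (XT.nd (nat_lit 33306) (nat_lit 0) (nat_lit 2204) (XT.lf (nat_lit 0) (nat_lit 695208393951) (nat_lit 76) (nat_lit 528897560611) (nat_lit 76) (nat_lit 270393984351) (nat_lit 3) (nat_lit 4) (nat_lit 4) (nat_lit 5) (nat_lit 4) (nat_lit 4) (nat_lit 330) (nat_lit 275) (nat_lit 115)) (XT.lf (nat_lit 0) (nat_lit 7913100108) (nat_lit 532) (nat_lit 12460563205) (nat_lit 532) (nat_lit 12460563205) (nat_lit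 32) (nat_lit 3) (nat_lit 39) (nat_lit 3) (nat_lit 39) (nat_lit 5) (nat_lit 276) (nat_lit 276) (nat_lit 168)))))) (XT.nd (nat_lit 468) (nat_lit 456) (nat_lit 0) (XT.nd (nat_lit 234) (nat_lit 0) (nat_lit 152) (XT.nd (nat_lit 78) (nat_lit 0) (nat_lit 76) (XT.lf (nat_lit 76) (nat_lit 2327121869) (nat_lit 0) (nat_lit 14201452025) (nat_lit 532) (nat_lit 51760984905) (nat_lit 33) (nat_lit 5) (nat_lit 32) (nat_lit 3) (nat_lit 39) (nat_lit 5) (nat_lit 277) (nat_lit 276) (nat_lit 167)) (XT.nd (nat_lit 78) (nat_lit 0) (nat_lit 0) (XT.lf (nat_lit 0) (nat_lit 18332840931) (nat_lit 456) (nat_lit 38259877273) (nat_lit 532) (nat_lit 14443987172) (nat_lit 33) (nat_lit 5) (nat_lit 39) (nat_lit 5) (nat_lit 40) (nat_lit 5) (nat_lit 278) (nat_lit 276) (nat_lit 166)) (XT.lf (nat_lit 0) (nat_lit 20649076870) (nat_lit 456) (nat_lit 8710810869) (nat_lit 532) (nat_lit 44614333732) (nat_lit 33) (nat_lit 5) (nat_lit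 39) (nat_lit 5) (nat_lit 40) (nat_lit 5) (nat_lit 279) (nat_lit 276) (nat_lit 165)))) (XT.nd (nat_lit 78) (nat_lit 0) (nat_lit 0) (XT.lf (nat_lit 0) (nat_lit 23753345817) (nat_lit 456) (nat_lit 52693195561) (nat_lit 532) (nat_lit 651986147) (nat_lit 34) (nat_lit 5) (nat_lit 40) (nat_lit 5) (nat_lit 41) (nat_lit 5) (nat_lit 280) (nat_lit 276) (nat_lit 164)) (XT.nd (nat_lit 78) (nat_lit 0) (nat_lit 0) (XT.lf (nat_lit 0) (nat_lit 28111831765) (nat_lit 456) (nat_lit 20557197235) (nat_lit 532) (nat_lit 31723285882) (nat_lit 34) (nat_lit 5) (nat_lit 40) (nat_lit 5) (nat_lit 41) (nat_lit 5) (nat_lit 281) (nat_lit 276) (nat_lit 163)) (XT.lf (nat_lit 76) (nat_lit 14893949839) (nat_lit 0) (nat_lit 18282251954) (nat_lit 532) (nat_lit 50744833363) (nat_lit 35) (nat_lit 5) (nat_lit 34) (nat_lit 5) (nat_lit 41) (nat_lit 5) (nat_lit 282) (nat_lit 276) (nat_lit 162))))) (XT.nd (nat_lit 234) (nat_lit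 228) (nat_lit 0) (XT.nd (nat_lit 78) (nat_lit 456) (nat_lit 0) (XT.lf (nat_lit 0) (nat_lit 39571033929) (nat_lit 456) (nat_lit 33701822369) (nat_lit 76) (nat_lit 14385177632) (nat_lit 35) (nat_lit 5) (nat_lit 41) (nat_lit 5) (nat_lit 36) (nat_lit 5) (nat_lit 283) (nat_lit 276) (nat_lit 161)) (XT.nd (nat_lit 78) (nat_lit 0) (nat_lit 0) (XT.lf (nat_lit 0) (nat_lit 4183062714) (nat_lit 456) (nat_lit 42868990383) (nat_lit 532) (nat_lit 44595976914) (nat_lit 29) (nat_lit 5) (nat_lit 35) (nat_lit 5) (nat_lit 36) (nat_lit 5) (nat_lit 284) (nat_lit 276) (nat_lit 160)) (XT.lf (nat_lit 0) (nat_lit 47014622125) (nat_lit 456) (nat_lit 9037578891) (nat_lit 532) (nat_lit 39831378022) (nat_lit 29) (nat_lit 5) (nat_lit 35) (nat_lit 5) (nat_lit 36) (nat_lit 5) (nat_lit 285) (nat_lit 276) (nat_lit 159)))) (XT.nd (nat_lit 78) (nat_lit 228) (nat_lit 0) (XT.lf (nat_lit 0) (nat_lit 66432986318) (nat_lit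 532) (nat_lit 7847428262) (nat_lit 76) (nat_lit 26124712029) (nat_lit 29) (nat_lit 5) (nat_lit 36) (nat_lit 5) (nat_lit 30) (nat_lit 5) (nat_lit 286) (nat_lit 276) (nat_lit 158)) (XT.nd (nat_lit 78) (nat_lit 0) (nat_lit 0) (XT.lf (nat_lit 0) (nat_lit 38127659393) (nat_lit 228) (nat_lit 40667586242) (nat_lit 304) (nat_lit 26401075776) (nat_lit 26) (nat_lit 5) (nat_lit 29) (nat_lit 5) (nat_lit 30) (nat_lit 5) (nat_lit 287) (nat_lit 276) (nat_lit 157)) (XT.lf (nat_lit 0) (nat_lit 88226341593) (nat_lit 228) (nat_lit 4134039576) (nat_lit 304) (nat_lit 17993322989) (nat_lit 26) (nat_lit 5) (nat_lit 29) (nat_lit 5) (nat_lit 30) (nat_lit 5) (nat_lit 288) (nat_lit 276) (nat_lit 156))))))))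
noncomputable def xc107 : XT := (XT.nd (nat_lit 1872) (nat_lit 304) (nat_lit 0) (XT.nd (nat_lit 936) (nat_lit 532) (nat_lit 0) (XT.nd (nat_lit 468) (nat_lit 304) (nat_lit 0) (XT.nd (nat_lit 234) (nat_lit 152) (nat_lit 0) (XT.nd (nat_lit 78) (nat_lit 304) (nat_lit 0) (XT.lf (nat_lit 0) (nat_lit 26904932022) (nat_lit 152) (nat_lit 81601740828) (nat_lit 228) (nat_lit 7297332756) (nat_lit 24) (nat_lit 5) (nat_lit 26) (nat_lit 5) (nat_lit 27) (nat_lit 5) (nat_lit 289) (nat_lit 276) (nat_lit 155)) (XT.nd (nat_lit 78) (nat_lit 228) (nat_lit 0) (XT.lf (nat_lit 0) (nat_lit 4769003097) (nat_lit 228) (nat_lit 40749847369) (nat_lit 76) (nat_lit 76105099681) (nat_lit 23) (nat_lit 5) (nat_lit 26) (nat_lit 5) (nat_lit 24) (nat_lit 5) (nat_lit 290) (nat_lit 276) (nat_lit 154)) (XT.lf (nat_lit 0) (nat_lit 11643567253) (nat_lit 228) (nat_lit 6042298422) (nat_lit 304) (nat_lit 110186106998) (nat_lit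 20) (nat_lit 5) (nat_lit 23) (nat_lit 5) (nat_lit 24) (nat_lit 5) (nat_lit 291) (nat_lit 276) (nat_lit 153)))) (XT.nd (nat_lit 78) (nat_lit 152) (nat_lit 0) (XT.lf (nat_lit 0) (nat_lit 33658698041) (nat_lit 304) (nat_lit 64894448322) (nat_lit 76) (nat_lit 35904883698) (nat_lit 20) (nat_lit 5) (nat_lit 24) (nat_lit 5) (nat_lit 21) (nat_lit 5) (nat_lit 292) (nat_lit 276) (nat_lit 152)) (XT.nd (nat_lit 78) (nat_lit 152) (nat_lit 0) (XT.lf (nat_lit 0) (nat_lit 51065800381) (nat_lit 304) (nat_lit 9611359149) (nat_lit 76) (nat_lit 80881299561) (nat_lit 20) (nat_lit 5) (nat_lit 24) (nat_lit 5) (nat_lit 21) (nat_lit 5) (nat_lit 293) (nat_lit 276) (nat_lit 151)) (XT.lf (nat_lit 0) (nat_lit 52731632852) (nat_lit 152) (nat_lit 18401572657) (nat_lit 228) (nat_lit 77992300499) (nat_lit 18) (nat_lit 5) (nat_lit 20) (nat_lit 5) (nat_lit 21) (nat_lit 5) (nat_lit 294) (nat_lit 276) (nat_lit 150)))))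 (XT.nd (nat_lit 234) (nat_lit 152) (nat_lit 0) (XT.nd (nat_lit 78) (nat_lit 152) (nat_lit 0) (XT.lf (nat_lit 0) (nat_lit 93730683917) (nat_lit 228) (nat_lit 37331170648) (nat_lit 76) (nat_lit 26162089805) (nat_lit 18) (nat_lit 5) (nat_lit 21) (nat_lit 5) (nat_lit 19) (nat_lit 5) (nat_lit 295) (nat_lit 276) (nat_lit 149)) (XT.nd (nat_lit 78) (nat_lit 0) (nat_lit 0) (XT.lf (nat_lit 0) (nat_lit 27345973578) (nat_lit 152) (nat_lit 91925208856) (nat_lit 228) (nat_lit 46608259621) (nat_lit 16) (nat_lit 5) (nat_lit 18) (nat_lit 5) (nat_lit 19) (nat_lit 5) (nat_lit 296) (nat_lit 276) (nat_lit 148)) (XT.lf (nat_lit 0) (nat_lit 99319792567) (nat_lit 152) (nat_lit 48555433452) (nat_lit 228) (nat_lit 27270530973) (nat_lit 16) (nat_lit 5) (nat_lit 18) (nat_lit 5) (nat_lit 19) (nat_lit 5) (nat_lit 297) (nat_lit 276) (nat_lit 147)))) (XT.nd (nat_lit 78) (nat_lit 152) (nat_lit 0) (XT.lf (nat_lit 0)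 (nat_lit 177051004548) (nat_lit 152) (nat_lit 1716222640) (nat_lit 228) (nat_lit 6386180923) (nat_lit 16) (nat_lit 5) (nat_lit 18) (nat_lit 5) (nat_lit 19) (nat_lit 5) (nat_lit 298) (nat_lit 276) (nat_lit 146)) (XT.nd (nat_lit 78) (nat_lit 0) (nat_lit 0) (XT.lf (nat_lit 0) (nat_lit 18224370419) (nat_lit 152) (nat_lit 128973569113) (nat_lit 76) (nat_lit 48503481191) (nat_lit 14) (nat_lit 5) (nat_lit 16) (nat_lit 5) (nat_lit 15) (nat_lit 5) (nat_lit 299) (nat_lit 276) (nat_lit 145)) (XT.lf (nat_lit 0) (nat_lit 44730273266) (nat_lit 152) (nat_lit 59286946231) (nat_lit 76) (nat_lit 103041064058) (nat_lit 14) (nat_lit 5) (nat_lit 16) (nat_lit 5) (nat_lit 15) (nat_lit 5) (nat_lit 300) (nat_lit 276) (nat_lit 144)))))) (XT.nd (nat_lit 468) (nat_lit 304) (nat_lit 0) (XT.nd (nat_lit 234) (nat_lit 76) (nat_lit 0) (XT.nd (nat_lit 78) (nat_lit 0) (nat_lit 0) (XT.lf (nat_lit 0) (nat_lit 16815307259)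 (nat_lit 152) (nat_lit 56945436315) (nat_lit 228) (nat_lit 145530625483) (nat_lit 12) (nat_lit 5) (nat_lit 14) (nat_lit 5) (nat_lit 15) (nat_lit 5) (nat_lit 301) (nat_lit 276) (nat_lit 143)) (XT.nd (nat_lit 78) (nat_lit 0) (nat_lit 0) (XT.lf (nat_lit 0) (nat_lit 102376985077) (nat_lit 152) (nat_lit 4357375511) (nat_lit 228) (nat_lit 125639085252) (nat_lit 12) (nat_lit 5) (nat_lit 14) (nat_lit 5) (nat_lit 15) (nat_lit 5) (nat_lit 302) (nat_lit 276) (nat_lit 142)) (XT.lf (nat_lit 0) (nat_lit 143606713369) (nat_lit 228) (nat_lit 52980063486) (nat_lit 76) (nat_lit 49814445280) (nat_lit 12) (nat_lit 5) (nat_lit 15) (nat_lit 5) (nat_lit 13) (nat_lit 4) (nat_lit 303) (nat_lit 276) (nat_lit 141)))) (XT.nd (nat_lit 78) (nat_lit 0) (nat_lit 0) (XT.lf (nat_lit 0) (nat_lit 31668229758) (nat_lit 76) (nat_lit 152635163527) (nat_lit 152) (nat_lit 77177865135) (nat_lit 11) (nat_lit 5) (nat_lit 12)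 (nat_lit 5) (nat_lit 13) (nat_lit 4) (nat_lit 304) (nat_lit 276) (nat_lit 140)) (XT.nd (nat_lit 78) (nat_lit 0) (nat_lit 0) (XT.lf (nat_lit 0) (nat_lit 126101009665) (nat_lit 76) (nat_lit 103603115138) (nat_lit 152) (nat_lit 47947708355) (nat_lit 11) (nat_lit 5) (nat_lit 12) (nat_lit 5) (nat_lit 13) (nat_lit 4) (nat_lit 305) (nat_lit 276) (nat_lit 139)) (XT.lf (nat_lit 0) (nat_lit 228088041638) (nat_lit 76) (nat_lit 50648640225) (nat_lit 152) (nat_lit 16379391508) (nat_lit 11) (nat_lit 5) (nat_lit 12) (nat_lit 5) (nat_lit 13) (nat_lit 4) (nat_lit 306) (nat_lit 276) (nat_lit 138))))) (XT.nd (nat_lit 234) (nat_lit 76) (nat_lit 0) (XT.nd (nat_lit 78) (nat_lit 0) (nat_lit 0) (XT.lf (nat_lit 0) (nat_lit 17615391625) (nat_lit 228) (nat_lit 288994145126) (nat_lit 76) (nat_lit 7270862545) (nat_lit 8) (nat_lit 5) (nat_lit 11) (nat_lit 5) (nat_lit 9) (nat_lit 4) (nat_lit 307) (nat_lit 276) (nat_lit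 137)) (XT.nd (nat_lit 78) (nat_lit 0) (nat_lit 0) (XT.lf (nat_lit 0) (nat_lit 56640443649) (nat_lit 228) (nat_lit 207822582050) (nat_lit 76) (nat_lit 69393163271) (nat_lit 8) (nat_lit 5) (nat_lit 11) (nat_lit 5) (nat_lit 9) (nat_lit 4) (nat_lit 308) (nat_lit 276) (nat_lit 136)) (XT.lf (nat_lit 0) (nat_lit 98787298779) (nat_lit 228) (nat_lit 120157628135) (nat_lit 76) (nat_lit 136485131620) (nat_lit 8) (nat_lit 5) (nat_lit 11) (nat_lit 5) (nat_lit 9) (nat_lit 4) (nat_lit 309) (nat_lit 276) (nat_lit 135)))) (XT.nd (nat_lit 78) (nat_lit 76) (nat_lit 0) (XT.lf (nat_lit 0) (nat_lit 144305716156) (nat_lit 228) (nat_lit 25479787357) (nat_lit 76) (nat_lit 208944349628) (nat_lit 8) (nat_lit 5) (nat_lit 11) (nat_lit 5) (nat_lit 9) (nat_lit 4) (nat_lit 310) (nat_lit 276) (nat_lit 134)) (XT.nd (nat_lit 78) (nat_lit 0) (nat_lit 0) (XT.lf (nat_lit 0) (nat_lit 80814671314) (nat_lit 76) (nat_lit 114594358023)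 (nat_lit 152) (nat_lit 208329128727) (nat_lit 7) (nat_lit 5) (nat_lit 8) (nat_lit 5) (nat_lit 9) (nat_lit 4) (nat_lit 311) (nat_lit 276) (nat_lit 133)) (XT.lf (nat_lit 0) (nat_lit 197061465489) (nat_lit 76) (nat_lit 54235638302) (nat_lit 152) (nat_lit 179394304391) (nat_lit 7) (nat_lit 5) (nat_lit 8) (nat_lit 5) (nat_lit 9) (nat_lit 4) (nat_lit 312) (nat_lit 276) (nat_lit 132))))))) (XT.nd (nat_lit 936) (nat_lit 76) (nat_lit 0) (XT.nd (nat_lit 468) (nat_lit 76) (nat_lit 0) (XT.nd (nat_lit 234) (nat_lit 76) (nat_lit 0) (XT.nd (nat_lit 78) (nat_lit 76) (nat_lit 0) (XT.lf (nat_lit 0) (nat_lit 311919458234) (nat_lit 152) (nat_lit 137456574518) (nat_lit 0) (nat_lit 10403827301) (nat_lit 7) (nat_lit 5) (nat_lit 9) (nat_lit 4) (nat_lit 7) (nat_lit 4) (nat_lit 313) (nat_lit 276) (nat_lit 131)) (XT.nd (nat_lit 78) (nat_lit 76) (nat_lit 0) (XT.lf (nat_lit 0) (nat_lit 378800173987) (nat_lit 152)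 (nat_lit 34998303706) (nat_lit 0) (nat_lit 77284224972) (nat_lit 7) (nat_lit 5) (nat_lit 9) (nat_lit 4) (nat_lit 7) (nat_lit 4) (nat_lit 314) (nat_lit 276) (nat_lit 130)) (XT.lf (nat_lit 0) (nat_lit 79640330127) (nat_lit 76) (nat_lit 373306234539) (nat_lit 76) (nat_lit 71789991005) (nat_lit 6) (nat_lit 4) (nat_lit 7) (nat_lit 5) (nat_lit 7) (nat_lit 4) (nat_lit 315) (nat_lit 276) (nat_lit 129)))) (XT.nd (nat_lit 78) (nat_lit 76) (nat_lit 0) (XT.lf (nat_lit 0) (nat_lit 205440214545) (nat_lit 76) (nat_lit 328541238049) (nat_lit 76) (nat_lit 27024721811) (nat_lit 6) (nat_lit 4) (nat_lit 7) (nat_lit 5) (nat_lit 7) (nat_lit 4) (nat_lit 316) (nat_lit 276) (nat_lit 128)) (XT.nd (nat_lit 78) (nat_lit 0) (nat_lit 0) (XT.lf (nat_lit 0) (nat_lit 20255044192) (nat_lit 152) (nat_lit 259386276819) (nat_lit 76) (nat_lit 320495028698) (nat_lit 5) (nat_lit 5) (nat_lit 7) (nat_lit 5) (nat_lit 6) (nat_lit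 4) (nat_lit 317) (nat_lit 276) (nat_lit 127)) (XT.lf (nat_lit 0) (nat_lit 69857040216) (nat_lit 152) (nat_lit 156214358887) (nat_lit 76) (nat_lit 416269394107) (nat_lit 5) (nat_lit 5) (nat_lit 7) (nat_lit 5) (nat_lit 6) (nat_lit 4) (nat_lit 318) (nat_lit 276) (nat_lit 126))))) (XT.nd (nat_lit 234) (nat_lit 0) (nat_lit 0) (XT.nd (nat_lit 78) (nat_lit 76) (nat_lit 0) (XT.lf (nat_lit 0) (nat_lit 123427090050) (nat_lit 152) (nat_lit 44788871714) (nat_lit 76) (nat_lit 519705639169) (nat_lit 5) (nat_lit 5) (nat_lit 7) (nat_lit 5) (nat_lit 6) (nat_lit 4) (nat_lit 319) (nat_lit 276) (nat_lit 125)) (XT.nd (nat_lit 78) (nat_lit 0) (nat_lit 0) (XT.lf (nat_lit 0) (nat_lit 79528838479) (nat_lit 76) (nat_lit 103666477839) (nat_lit 152) (nat_lit 553800551408) (nat_lit 4) (nat_lit 5) (nat_lit 5) (nat_lit 5) (nat_lit 6) (nat_lit 4) (nat_lit 320) (nat_lit 276) (nat_lit 124)) (XT.lf (nat_lit 0) (nat_lit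 216338982079) (nat_lit 76) (nat_lit 32630530969) (nat_lit 152) (nat_lit 540928602060) (nat_lit 4) (nat_lit 5) (nat_lit 5) (nat_lit 5) (nat_lit 6) (nat_lit 4) (nat_lit 321) (nat_lit 276) (nat_lit 123)))) (XT.nd (nat_lit 78) (nat_lit 0) (nat_lit 0) (XT.lf (nat_lit 0) (nat_lit 321065880652) (nat_lit 152) (nat_lit 483999089147) (nat_lit 0) (nat_lit 41882753883) (nat_lit 4) (nat_lit 5) (nat_lit 6) (nat_lit 4) (nat_lit 4) (nat_lit 4) (nat_lit 322) (nat_lit 276) (nat_lit 122)) (XT.nd (nat_lit 78) (nat_lit 0) (nat_lit 0) (XT.lf (nat_lit 0) (nat_lit 399777421204) (nat_lit 152) (nat_lit 388121935755) (nat_lit 0) (nat_lit 120594147101) (nat_lit 4) (nat_lit 5) (nat_lit 6) (nat_lit 4) (nat_lit 4) (nat_lit 4) (nat_lit 323) (nat_lit 276) (nat_lit 121)) (XT.lf (nat_lit 0) (nat_lit 484785808406) (nat_lit 152) (nat_lit 284574746889) (nat_lit 0) (nat_lit 205602397884) (nat_lit 4) (nat_lit 5) (nat_lit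 6) (nat_lit 4) (nat_lit 4) (nat_lit 4) (nat_lit 324) (nat_lit 276) (nat_lit 120)))))) (XT.nd (nat_lit 33774) (nat_lit 0) (nat_lit 2204) (XT.nd (nat_lit 234) (nat_lit 0) (nat_lit 0) (XT.nd (nat_lit 78) (nat_lit 76) (nat_lit 0) (XT.lf (nat_lit 0) (nat_lit 576594795665) (nat_lit 152) (nat_lit 172743909577) (nat_lit 0) (nat_lit 297411258828) (nat_lit 4) (nat_lit 5) (nat_lit 6) (nat_lit 4) (nat_lit 4) (nat_lit 4) (nat_lit 325) (nat_lit 276) (nat_lit 119)) (XT.nd (nat_lit 78) (nat_lit 76) (nat_lit 0) (XT.lf (nat_lit 0) (nat_lit 675748436239) (nat_lit 152) (nat_lit 51966722562) (nat_lit 0) (nat_lit 396564782444) (nat_lit 4) (nat_lit 5) (nat_lit 6) (nat_lit 4) (nat_lit 4) (nat_lit 4) (nat_lit 326) (nat_lit 276) (nat_lit 118)) (XT.lf (nat_lit 0) (nat_lit 82604755227) (nat_lit 76) (nat_lit 702216198379) (nat_lit 76) (nat_lit 423032436291) (nat_lit 3) (nat_lit 4) (nat_lit 4) (nat_lit 5) (nat_lit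 4) (nat_lit 4) (nat_lit 327) (nat_lit 276) (nat_lit 117)))) (XT.nd (nat_lit 78) (nat_lit 0) (nat_lit 0) (XT.lf (nat_lit 0) (nat_lit 230897238953) (nat_lit 76) (nat_lit 673142836853) (nat_lit 76) (nat_lit 393958974493) (nat_lit 3) (nat_lit 4) (nat_lit 4) (nat_lit 5) (nat_lit 4) (nat_lit 4) (nat_lit 328) (nat_lit 276) (nat_lit 116)) (XT.nd (nat_lit 78) (nat_lit 0) (nat_lit 0) (XT.lf (nat_lit 0) (nat_lit 391053023374) (nat_lit 76) (nat_lit 641743649925) (nat_lit 76) (nat_lit 362559694720) (nat_lit 3) (nat_lit 4) (nat_lit 4) (nat_lit 5) (nat_lit 4) (nat_lit 4) (nat_lit 329) (nat_lit 276) (nat_lit 115)) (XT.lf (nat_lit 0) (nat_lit 564021179803) (nat_lit 76) (nat_lit 607832568338) (nat_lit 76) (nat_lit 328648527166) (nat_lit 3) (nat_lit 4) (nat_lit 4) (nat_lit 5) (nat_lit 4) (nat_lit 4) (nat_lit 330) (nat_lit 276) (nat_lit 114))))) (XT.nd (nat_lit 234) (nat_lit 0) (nat_lit 76) (XT.nd (nat_lit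 78) (nat_lit 0) (nat_lit 0) (XT.lf (nat_lit 0) (nat_lit 8559185180) (nat_lit 532) (nat_lit 13450326131) (nat_lit 532) (nat_lit 13450326131) (nat_lit 32) (nat_lit 3) (nat_lit 39) (nat_lit 3) (nat_lit 39) (nat_lit 5) (nat_lit 277) (nat_lit 277) (nat_lit 166)) (XT.nd (nat_lit 78) (nat_lit 0) (nat_lit 76) (XT.lf (nat_lit 76) (nat_lit 2527097292) (nat_lit 0) (nat_lit 15348237249) (nat_lit 532) (nat_lit 55875274993) (nat_lit 33) (nat_lit 5) (nat_lit 32) (nat_lit 3) (nat_lit 39) (nat_lit 5) (nat_lit 278) (nat_lit 277) (nat_lit 165)) (XT.lf (nat_lit 0) (nat_lit 19821892413) (nat_lit 456) (nat_lit 41305689461) (nat_lit 532) (nat_lit 15590121559) (nat_lit 33) (nat_lit 5) (nat_lit 39) (nat_lit 5) (nat_lit 40) (nat_lit 5) (nat_lit 279) (nat_lit 277) (nat_lit 164)))) (XT.nd (nat_lit 156) (nat_lit 0) (nat_lit 76) (XT.nd (nat_lit 78) (nat_lit 0) (nat_lit 76) (XT.lf (nat_lit 0) (nat_lit 22321766175)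 (nat_lit 456) (nat_lit 9393807226) (nat_lit 532) (nat_lit 48174790999) (nat_lit 33) (nat_lit 5) (nat_lit 39) (nat_lit 5) (nat_lit 40) (nat_lit 5) (nat_lit 280) (nat_lit 277) (nat_lit 163)) (XT.lf (nat_lit 0) (nat_lit 25673018631) (nat_lit 456) (nat_lit 56893300857) (nat_lit 532) (nat_lit 698413999) (nat_lit 34) (nat_lit 5) (nat_lit 40) (nat_lit 5) (nat_lit 41) (nat_lit 5) (nat_lit 281) (nat_lit 277) (nat_lit 162))) (XT.nd (nat_lit 78) (nat_lit 0) (nat_lit 0) (XT.lf (nat_lit 0) (nat_lit 30378746036) (nat_lit 456) (nat_lit 22187559727) (nat_lit 532) (nat_lit 34255842234) (nat_lit 34) (nat_lit 5) (nat_lit 40) (nat_lit 5) (nat_lit 41) (nat_lit 5) (nat_lit 282) (nat_lit 277) (nat_lit 161)) (XT.lf (nat_lit 76) (nat_lit 16099319282) (nat_lit 0) (nat_lit 19747948618) (nat_lit 532) (nat_lit 54785986308) (nat_lit 35) (nat_lit 5) (nat_lit 34) (nat_lit 5) (nat_lit 41) (nat_lit 5) (nat_lit 283)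 (nat_lit 277) (nat_lit 160))))))))
noncomputable def xc108 : XT := (XT.nd (nat_lit 1872) (nat_lit 608) (nat_lit 0) (XT.nd (nat_lit 936) (nat_lit 532) (nat_lit 0) (XT.nd (nat_lit 468) (nat_lit 608) (nat_lit 0) (XT.nd (nat_lit 234) (nat_lit 228) (nat_lit 0) (XT.nd (nat_lit 78) (nat_lit 456) (nat_lit 0) (XT.lf (nat_lit 0) (nat_lit 42752360172) (nat_lit 456) (nat_lit 36383716150) (nat_lit 76) (nat_lit 15533250541) (nat_lit 35) (nat_lit 5) (nat_lit 41) (nat_lit 5) (nat_lit 36) (nat_lit 5) (nat_lit 284) (nat_lit 277) (nat_lit 159)) (XT.nd (nat_lit 78) (nat_lit 0) (nat_lit 0) (XT.lf (nat_lit 0) (nat_lit 4531598929) (nat_lit 456) (nat_lit 46299437248) (nat_lit 532) (nat_lit 48147559710) (nat_lit 29) (nat_lit 5) (nat_lit 35) (nat_lit 5) (nat_lit 36) (nat_lit 5) (nat_lit 285) (nat_lit 277) (nat_lit 158)) (XT.lf (nat_lit 0) (nat_lit 50788654116) (nat_lit 456) (nat_lit 9761444122) (nat_lit 532)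 (nat_lit 43002985156) (nat_lit 29) (nat_lit 5) (nat_lit 35) (nat_lit 5) (nat_lit 36) (nat_lit 5) (nat_lit 286) (nat_lit 277) (nat_lit 157)))) (XT.nd (nat_lit 78) (nat_lit 228) (nat_lit 0) (XT.lf (nat_lit 0) (nat_lit 71760310857) (nat_lit 532) (nat_lit 8462199519) (nat_lit 76) (nat_lit 28213933479) (nat_lit 29) (nat_lit 5) (nat_lit 36) (nat_lit 5) (nat_lit 30) (nat_lit 5) (nat_lit 287) (nat_lit 277) (nat_lit 156)) (XT.nd (nat_lit 78) (nat_lit 0) (nat_lit 0) (XT.lf (nat_lit 0) (nat_lit 41190565453) (nat_lit 228) (nat_lit 43920351064) (nat_lit 304) (nat_lit 28500074255) (nat_lit 26) (nat_lit 5) (nat_lit 29) (nat_lit 5) (nat_lit 30) (nat_lit 5) (nat_lit 288) (nat_lit 277) (nat_lit 155)) (XT.lf (nat_lit 0) (nat_lit 95296201984) (nat_lit 228) (nat_lit 4464168227) (nat_lit 304) (nat_lit 19420670696) (nat_lit 26) (nat_lit 5) (nat_lit 29) (nat_lit 5) (nat_lit 30) (nat_lit 5) (nat_lit 289) (nat_lit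 277) (nat_lit 154))))) (XT.nd (nat_lit 234) (nat_lit 152) (nat_lit 0) (XT.nd (nat_lit 78) (nat_lit 304) (nat_lit 0) (XT.lf (nat_lit 0) (nat_lit 29069703456) (nat_lit 152) (nat_lit 88128146112) (nat_lit 228) (nat_lit 7869563109) (nat_lit 24) (nat_lit 5) (nat_lit 26) (nat_lit 5) (nat_lit 27) (nat_lit 5) (nat_lit 290) (nat_lit 277) (nat_lit 153)) (XT.nd (nat_lit 78) (nat_lit 228) (nat_lit 0) (XT.lf (nat_lit 0) (nat_lit 5160688323) (nat_lit 228) (nat_lit 43997786713) (nat_lit 76) (nat_lit 82194524816) (nat_lit 23) (nat_lit 5) (nat_lit 26) (nat_lit 5) (nat_lit 24) (nat_lit 5) (nat_lit 291) (nat_lit 277) (nat_lit 152)) (XT.lf (nat_lit 0) (nat_lit 12586796055) (nat_lit 228) (nat_lit 6523633321) (nat_lit 304) (nat_lit 118990476381) (nat_lit 20) (nat_lit 5) (nat_lit 23) (nat_lit 5) (nat_lit 24) (nat_lit 5) (nat_lit 292) (nat_lit 277) (nat_lit 151)))) (XT.nd (nat_lit 78) (nat_lit 152) (nat_lit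 0) (XT.lf (nat_lit 0) (nat_lit 36360415852) (nat_lit 304) (nat_lit 70074412638) (nat_lit 76) (nat_lit 38779076687) (nat_lit 20) (nat_lit 5) (nat_lit 24) (nat_lit 5) (nat_lit 21) (nat_lit 5) (nat_lit 293) (nat_lit 277) (nat_lit 150)) (XT.nd (nat_lit 78) (nat_lit 152) (nat_lit 0) (XT.lf (nat_lit 0) (nat_lit 55159418085) (nat_lit 304) (nat_lit 10369534964) (nat_lit 76) (nat_lit 87353472316) (nat_lit 20) (nat_lit 5) (nat_lit 24) (nat_lit 5) (nat_lit 21) (nat_lit 5) (nat_lit 294) (nat_lit 277) (nat_lit 149)) (XT.lf (nat_lit 0) (nat_lit 56960624677) (nat_lit 152) (nat_lit 19871223747) (nat_lit 228) (nat_lit 84223020110) (nat_lit 18) (nat_lit 5) (nat_lit 20) (nat_lit 5) (nat_lit 21) (nat_lit 5) (nat_lit 295) (nat_lit 277) (nat_lit 148)))))) (XT.nd (nat_lit 468) (nat_lit 228) (nat_lit 0) (XT.nd (nat_lit 234) (nat_lit 152) (nat_lit 0) (XT.nd (nat_lit 78) (nat_lit 152) (nat_lit 0) (XT.lf (nat_lit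 0) (nat_lit 101236588623) (nat_lit 228) (nat_lit 40307405380) (nat_lit 76) (nat_lit 28257233773) (nat_lit 18) (nat_lit 5) (nat_lit 21) (nat_lit 5) (nat_lit 19) (nat_lit 5) (nat_lit 296) (nat_lit 277) (nat_lit 147)) (XT.nd (nat_lit 78) (nat_lit 0) (nat_lit 0) (XT.lf (nat_lit 0) (nat_lit 29543650665) (nat_lit 152) (nat_lit 99276364985) (nat_lit 228) (nat_lit 50329177211) (nat_lit 16) (nat_lit 5) (nat_lit 18) (nat_lit 5) (nat_lit 19) (nat_lit 5) (nat_lit 297) (nat_lit 277) (nat_lit 146)) (XT.lf (nat_lit 0) (nat_lit 107274634492) (nat_lit 152) (nat_lit 52437219444) (nat_lit 228) (nat_lit 29445003840) (nat_lit 16) (nat_lit 5) (nat_lit 18) (nat_lit 5) (nat_lit 19) (nat_lit 5) (nat_lit 298) (nat_lit 277) (nat_lit 145)))) (XT.nd (nat_lit 78) (nat_lit 152) (nat_lit 0) (XT.lf (nat_lit 0) (nat_lit 191223657615) (nat_lit 152) (nat_lit 1851067966) (nat_lit 228) (nat_lit 6890436868) (nat_lit 16)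 (nat_lit 5) (nat_lit 18) (nat_lit 5) (nat_lit 19) (nat_lit 5) (nat_lit 299) (nat_lit 277) (nat_lit 144)) (XT.nd (nat_lit 78) (nat_lit 0) (nat_lit 0) (XT.lf (nat_lit 0) (nat_lit 19688432604) (nat_lit 152) (nat_lit 139282304794) (nat_lit 76) (nat_lit 52386283380) (nat_lit 14) (nat_lit 5) (nat_lit 16) (nat_lit 5) (nat_lit 15) (nat_lit 5) (nat_lit 300) (nat_lit 277) (nat_lit 143)) (XT.lf (nat_lit 0) (nat_lit 48314354897) (nat_lit 152) (nat_lit 64021429849) (nat_lit 76) (nat_lit 111286685936) (nat_lit 14) (nat_lit 5) (nat_lit 16) (nat_lit 5) (nat_lit 15) (nat_lit 5) (nat_lit 301) (nat_lit 277) (nat_lit 142))))) (XT.nd (nat_lit 234) (nat_lit 76) (nat_lit 0) (XT.nd (nat_lit 78) (nat_lit 0) (nat_lit 0) (XT.lf (nat_lit 0) (nat_lit 18168789438) (nat_lit 152) (nat_lit 61498252745) (nat_lit 228) (nat_lit 157167180179) (nat_lit 12) (nat_lit 5) (nat_lit 14) (nat_lit 5) (nat_lit 15) (nat_lit 5) (nat_lit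 302) (nat_lit 277) (nat_lit 141)) (XT.nd (nat_lit 78) (nat_lit 0) (nat_lit 0) (XT.lf (nat_lit 0) (nat_lit 110574789807) (nat_lit 152) (nat_lit 4703355853) (nat_lit 228) (nat_lit 135684753422) (nat_lit 12) (nat_lit 5) (nat_lit 14) (nat_lit 5) (nat_lit 15) (nat_lit 5) (nat_lit 303) (nat_lit 277) (nat_lit 140)) (XT.lf (nat_lit 0) (nat_lit 155099971723) (nat_lit 228) (nat_lit 57211055984) (nat_lit 76) (nat_lit 53801896413) (nat_lit 12) (nat_lit 5) (nat_lit 15) (nat_lit 5) (nat_lit 13) (nat_lit 4) (nat_lit 304) (nat_lit 277) (nat_lit 139)))) (XT.nd (nat_lit 78) (nat_lit 0) (nat_lit 0) (XT.lf (nat_lit 0) (nat_lit 34208913059) (nat_lit 76) (nat_lit 164843297009) (nat_lit 152) (nat_lit 83347168658) (nat_lit 11) (nat_lit 5) (nat_lit 12) (nat_lit 5) (nat_lit 13) (nat_lit 4) (nat_lit 305) (nat_lit 277) (nat_lit 138)) (XT.nd (nat_lit 78) (nat_lit 0) (nat_lit 0) (XT.lf (nat_lit 0) (nat_lit 136195780179)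 (nat_lit 76) (nat_lit 111888883237) (nat_lit 152) (nat_lit 51778964202) (nat_lit 11) (nat_lit 5) (nat_lit 12) (nat_lit 5) (nat_lit 13) (nat_lit 4) (nat_lit 306) (nat_lit 277) (nat_lit 137)) (XT.lf (nat_lit 0) (nat_lit 246341279174) (nat_lit 76) (nat_lit 54698234118) (nat_lit 152) (nat_lit 17685519846) (nat_lit 11) (nat_lit 5) (nat_lit 12) (nat_lit 5) (nat_lit 13) (nat_lit 4) (nat_lit 307) (nat_lit 277) (nat_lit 136))))))) (XT.nd (nat_lit 936) (nat_lit 152) (nat_lit 0) (XT.nd (nat_lit 468) (nat_lit 152) (nat_lit 0) (XT.nd (nat_lit 234) (nat_lit 76) (nat_lit 0) (XT.nd (nat_lit 78) (nat_lit 0) (nat_lit 0) (XT.lf (nat_lit 0) (nat_lit 19028545494) (nat_lit 228) (nat_lit 312107156491) (nat_lit 76) (nat_lit 7854803146) (nat_lit 8) (nat_lit 5) (nat_lit 11) (nat_lit 5) (nat_lit 9) (nat_lit 4) (nat_lit 308) (nat_lit 277) (nat_lit 135)) (XT.nd (nat_lit 78) (nat_lit 0) (nat_lit 0) (XT.lf (nat_lit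 0) (nat_lit 61175311122) (nat_lit 228) (nat_lit 224442351351) (nat_lit 76) (nat_lit 74946719664) (nat_lit 8) (nat_lit 5) (nat_lit 11) (nat_lit 5) (nat_lit 9) (nat_lit 4) (nat_lit 309) (nat_lit 277) (nat_lit 134)) (XT.lf (nat_lit 0) (nat_lit 106693645626) (nat_lit 228) (nat_lit 129764648327) (nat_lit 76) (nat_lit 147405889679) (nat_lit 8) (nat_lit 5) (nat_lit 11) (nat_lit 5) (nat_lit 9) (nat_lit 4) (nat_lit 310) (nat_lit 277) (nat_lit 133)))) (XT.nd (nat_lit 78) (nat_lit 76) (nat_lit 0) (XT.lf (nat_lit 0) (nat_lit 155853287286) (nat_lit 228) (nat_lit 27512994365) (nat_lit 76) (nat_lit 225661700866) (nat_lit 8) (nat_lit 5) (nat_lit 11) (nat_lit 5) (nat_lit 9) (nat_lit 4) (nat_lit 311) (nat_lit 277) (nat_lit 132)) (XT.nd (nat_lit 78) (nat_lit 0) (nat_lit 0) (XT.lf (nat_lit 0) (nat_lit 87284889962) (nat_lit 76) (nat_lit 123759866236) (nat_lit 152) (nat_lit 224992205105) (nat_lit 7) (nat_lit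 5) (nat_lit 8) (nat_lit 5) (nat_lit 9) (nat_lit 4) (nat_lit 312) (nat_lit 277) (nat_lit 131)) (XT.lf (nat_lit 0) (nat_lit 212831053972) (nat_lit 76) (nat_lit 58572600080) (nat_lit 152) (nat_lit 193742835853) (nat_lit 7) (nat_lit 5) (nat_lit 8) (nat_lit 5) (nat_lit 9) (nat_lit 4) (nat_lit 313) (nat_lit 277) (nat_lit 130))))) (XT.nd (nat_lit 234) (nat_lit 76) (nat_lit 0) (XT.nd (nat_lit 78) (nat_lit 76) (nat_lit 0) (XT.lf (nat_lit 0) (nat_lit 336875632851) (nat_lit 152) (nat_lit 148448603500) (nat_lit 0) (nat_lit 11237795315) (nat_lit 7) (nat_lit 5) (nat_lit 9) (nat_lit 4) (nat_lit 7) (nat_lit 4) (nat_lit 314) (nat_lit 277) (nat_lit 129)) (XT.nd (nat_lit 78) (nat_lit 76) (nat_lit 0) (XT.lf (nat_lit 0) (nat_lit 409106611941) (nat_lit 152) (nat_lit 37794004133) (nat_lit 0) (nat_lit 83468501702) (nat_lit 7) (nat_lit 5) (nat_lit 9) (nat_lit 4) (nat_lit 7) (nat_lit 4) (nat_lit 315) (nat_lit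 277) (nat_lit 128)) (XT.lf (nat_lit 0) (nat_lit 86015614993) (nat_lit 76) (nat_lit 403169016929) (nat_lit 76) (nat_lit 77530654187) (nat_lit 6) (nat_lit 4) (nat_lit 7) (nat_lit 5) (nat_lit 7) (nat_lit 4) (nat_lit 316) (nat_lit 277) (nat_lit 127)))) (XT.nd (nat_lit 78) (nat_lit 76) (nat_lit 0) (XT.lf (nat_lit 0) (nat_lit 221879189538) (nat_lit 76) (nat_lit 354822947859) (nat_lit 76) (nat_lit 29184351317) (nat_lit 6) (nat_lit 4) (nat_lit 7) (nat_lit 5) (nat_lit 7) (nat_lit 4) (nat_lit 317) (nat_lit 277) (nat_lit 126)) (XT.nd (nat_lit 78) (nat_lit 0) (nat_lit 0) (XT.lf (nat_lit 0) (nat_lit 21877513256) (nat_lit 152) (nat_lit 280133585448) (nat_lit 76) (nat_lit 346135988462) (nat_lit 5) (nat_lit 5) (nat_lit 7) (nat_lit 5) (nat_lit 6) (nat_lit 4) (nat_lit 318) (nat_lit 277) (nat_lit 125)) (XT.lf (nat_lit 0) (nat_lit 75447515960) (nat_lit 152) (nat_lit 168708180268) (nat_lit 76) (nat_lit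 449572202550) (nat_lit 5) (nat_lit 5) (nat_lit 7) (nat_lit 5) (nat_lit 6) (nat_lit 4) (nat_lit 319) (nat_lit 277) (nat_lit 124)))))) (XT.nd (nat_lit 468) (nat_lit 76) (nat_lit 0) (XT.nd (nat_lit 234) (nat_lit 0) (nat_lit 0) (XT.nd (nat_lit 78) (nat_lit 76) (nat_lit 0) (XT.lf (nat_lit 0) (nat_lit 133303028112) (nat_lit 152) (nat_lit 48368900590) (nat_lit 76) (nat_lit 561283254112) (nat_lit 5) (nat_lit 5) (nat_lit 7) (nat_lit 5) (nat_lit 6) (nat_lit 4) (nat_lit 320) (nat_lit 277) (nat_lit 123)) (XT.nd (nat_lit 78) (nat_lit 0) (nat_lit 0) (XT.lf (nat_lit 0) (nat_lit 85894148422) (nat_lit 76) (nat_lit 111958505104) (nat_lit 152) (nat_lit 598102742477) (nat_lit 4) (nat_lit 5) (nat_lit 5) (nat_lit 5) (nat_lit 6) (nat_lit 4) (nat_lit 321) (nat_lit 277) (nat_lit 122)) (XT.lf (nat_lit 0) (nat_lit 233648881076) (nat_lit 76) (nat_lit 35239778110) (nat_lit 152) (nat_lit 584201174443) (nat_lit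 4) (nat_lit 5) (nat_lit 5) (nat_lit 5) (nat_lit 6) (nat_lit 4) (nat_lit 322) (nat_lit 277) (nat_lit 121)))) (XT.nd (nat_lit 78) (nat_lit 0) (nat_lit 0) (XT.lf (nat_lit 0) (nat_lit 346752645403) (nat_lit 152) (nat_lit 522716347419) (nat_lit 0) (nat_lit 45234425620) (nat_lit 4) (nat_lit 5) (nat_lit 6) (nat_lit 4) (nat_lit 4) (nat_lit 4) (nat_lit 323) (nat_lit 277) (nat_lit 120)) (XT.nd (nat_lit 78) (nat_lit 0) (nat_lit 0) (XT.lf (nat_lit 0) (nat_lit 431760998510) (nat_lit 152) (nat_lit 419169219449) (nat_lit 0) (nat_lit 130242652412) (nat_lit 4) (nat_lit 5) (nat_lit 6) (nat_lit 4) (nat_lit 4) (nat_lit 4) (nat_lit 324) (nat_lit 277) (nat_lit 119)) (XT.lf (nat_lit 0) (nat_lit 523569954198) (nat_lit 152) (nat_lit 307338438522) (nat_lit 0) (nat_lit 222051491143) (nat_lit 4) (nat_lit 5) (nat_lit 6) (nat_lit 4) (nat_lit 4) (nat_lit 4) (nat_lit 325) (nat_lit 277) (nat_lit 118))))) (XT.nd (nat_lit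 234) (nat_lit 0) (nat_lit 0) (XT.nd (nat_lit 78) (nat_lit 76) (nat_lit 0) (XT.lf (nat_lit 0) (nat_lit 622723565540) (nat_lit 152) (nat_lit 186561303716) (nat_lit 0) (nat_lit 321204994191) (nat_lit 4) (nat_lit 5) (nat_lit 6) (nat_lit 4) (nat_lit 4) (nat_lit 4) (nat_lit 326) (nat_lit 277) (nat_lit 117)) (XT.nd (nat_lit 78) (nat_lit 76) (nat_lit 0) (XT.lf (nat_lit 0) (nat_lit 729809409492) (nat_lit 152) (nat_lit 56122098675) (nat_lit 0) (nat_lit 428290737870) (nat_lit 4) (nat_lit 5) (nat_lit 6) (nat_lit 4) (nat_lit 4) (nat_lit 4) (nat_lit 327) (nat_lit 277) (nat_lit 116)) (XT.lf (nat_lit 0) (nat_lit 89215047674) (nat_lit 76) (nat_lit 758392645199) (nat_lit 76) (nat_lit 456873880732) (nat_lit 3) (nat_lit 4) (nat_lit 4) (nat_lit 5) (nat_lit 4) (nat_lit 4) (nat_lit 328) (nat_lit 277) (nat_lit 115)))) (XT.nd (nat_lit 78) (nat_lit 0) (nat_lit 0) (XT.lf (nat_lit 0) (nat_lit 249370788467) (nat_lit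 76) (nat_lit 726993477644) (nat_lit 76) (nat_lit 425474627210) (nat_lit 3) (nat_lit 4) (nat_lit 4) (nat_lit 5) (nat_lit 4) (nat_lit 4) (nat_lit 329) (nat_lit 277) (nat_lit 114)) (XT.nd (nat_lit 33462) (nat_lit 0) (nat_lit 2204) (XT.lf (nat_lit 0) (nat_lit 422338904501) (nat_lit 76) (nat_lit 693082413995) (nat_lit 76) (nat_lit 391563483962) (nat_lit 3) (nat_lit 4) (nat_lit 4) (nat_lit 5) (nat_lit 4) (nat_lit 4) (nat_lit 330) (nat_lit 277) (nat_lit 113)) (XT.lf (nat_lit 0) (nat_lit 9255097175) (nat_lit 532) (nat_lit 14520280435) (nat_lit 532) (nat_lit 14520280435) (nat_lit 32) (nat_lit 3) (nat_lit 39) (nat_lit 3) (nat_lit 39) (nat_lit 5) (nat_lit 278) (nat_lit 278) (nat_lit 164))))))))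
noncomputable def xc109 : XT := (XT.nd (nat_lit 1872) (nat_lit 760) (nat_lit 0) (XT.nd (nat_lit 936) (nat_lit 912) (nat_lit 0) (XT.nd (nat_lit 468) (nat_lit 456) (nat_lit 0) (XT.nd (nat_lit 234) (nat_lit 0) (nat_lit 152) (XT.nd (nat_lit 78) (nat_lit 0) (nat_lit 76) (XT.lf (nat_lit 76) (nat_lit 2741101215) (nat_lit 0) (nat_lit 16585243230) (nat_lit 532) (nat_lit 60322501464) (nat_lit 33) (nat_lit 5) (nat_lit 32) (nat_lit 3) (nat_lit 39) (nat_lit 5) (nat_lit 279) (nat_lit 278) (nat_lit 163)) (XT.nd (nat_lit 78) (nat_lit 0) (nat_lit 0) (XT.lf (nat_lit 0) (nat_lit 21426868950) (nat_lit 456) (nat_lit 44597303403) (nat_lit 532) (nat_lit 16829285514) (nat_lit 33) (nat_lit 5) (nat_lit 39) (nat_lit 5) (nat_lit 40) (nat_lit 5) (nat_lit 280) (nat_lit 278) (nat_lit 162)) (XT.lf (nat_lit 0) (nat_lit 24125308528) (nat_lit 456) (nat_lit 10133421790) (nat_lit 532) (nat_lit 52021324492) (nat_lit 33)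 (nat_lit 5) (nat_lit 39) (nat_lit 5) (nat_lit 40) (nat_lit 5) (nat_lit 281) (nat_lit 278) (nat_lit 161)))) (XT.nd (nat_lit 78) (nat_lit 0) (nat_lit 0) (XT.lf (nat_lit 0) (nat_lit 27743496909) (nat_lit 456) (nat_lit 61431604475) (nat_lit 532) (nat_lit 749373675) (nat_lit 34) (nat_lit 5) (nat_lit 40) (nat_lit 5) (nat_lit 41) (nat_lit 5) (nat_lit 282) (nat_lit 278) (nat_lit 160)) (XT.nd (nat_lit 78) (nat_lit 0) (nat_lit 0) (XT.lf (nat_lit 0) (nat_lit 32824450151) (nat_lit 456) (nat_lit 23950378904) (nat_lit 532) (nat_lit 36991760128) (nat_lit 34) (nat_lit 5) (nat_lit 40) (nat_lit 5) (nat_lit 41) (nat_lit 5) (nat_lit 283) (nat_lit 278) (nat_lit 159)) (XT.lf (nat_lit 76) (nat_lit 17399141930) (nat_lit 0) (nat_lit 21330456410) (nat_lit 532) (nat_lit 59153061266) (nat_lit 35) (nat_lit 5) (nat_lit 34) (nat_lit 5) (nat_lit 41) (nat_lit 5) (nat_lit 284) (nat_lit 278) (nat_lit 158))))) (XT.nd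 (nat_lit 234) (nat_lit 228) (nat_lit 0) (XT.nd (nat_lit 78) (nat_lit 456) (nat_lit 0) (XT.lf (nat_lit 0) (nat_lit 46185960790) (nat_lit 456) (nat_lit 39282194642) (nat_lit 76) (nat_lit 16773560359) (nat_lit 35) (nat_lit 5) (nat_lit 41) (nat_lit 5) (nat_lit 36) (nat_lit 5) (nat_lit 285) (nat_lit 278) (nat_lit 157)) (XT.nd (nat_lit 78) (nat_lit 0) (nat_lit 0) (XT.lf (nat_lit 0) (nat_lit 4906036307) (nat_lit 456) (nat_lit 50004187525) (nat_lit 532) (nat_lit 51985565312) (nat_lit 29) (nat_lit 5) (nat_lit 35) (nat_lit 5) (nat_lit 36) (nat_lit 5) (nat_lit 286) (nat_lit 278) (nat_lit 156)) (XT.lf (nat_lit 0) (nat_lit 54862773726) (nat_lit 456) (nat_lit 10543096038) (nat_lit 532) (nat_lit 46430446954) (nat_lit 29) (nat_lit 5) (nat_lit 35) (nat_lit 5) (nat_lit 36) (nat_lit 5) (nat_lit 287) (nat_lit 278) (nat_lit 155)))) (XT.nd (nat_lit 78) (nat_lit 228) (nat_lit 0) (XT.lf (nat_lit 0) (nat_lit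 77512011612) (nat_lit 532) (nat_lit 9128010353) (nat_lit 76) (nat_lit 30470400426) (nat_lit 29) (nat_lit 5) (nat_lit 36) (nat_lit 5) (nat_lit 30) (nat_lit 5) (nat_lit 288) (nat_lit 278) (nat_lit 154)) (XT.nd (nat_lit 78) (nat_lit 0) (nat_lit 0) (XT.lf (nat_lit 0) (nat_lit 44496693155) (nat_lit 228) (nat_lit 47433428672) (nat_lit 304) (nat_lit 30768859703) (nat_lit 26) (nat_lit 5) (nat_lit 29) (nat_lit 5) (nat_lit 30) (nat_lit 5) (nat_lit 289) (nat_lit 278) (nat_lit 153)) (XT.lf (nat_lit 0) (nat_lit 102929974500) (nat_lit 228) (nat_lit 4820791983) (nat_lit 304) (nat_lit 20963935006) (nat_lit 26) (nat_lit 5) (nat_lit 29) (nat_lit 5) (nat_lit 30) (nat_lit 5) (nat_lit 290) (nat_lit 278) (nat_lit 152)))))) (XT.nd (nat_lit 468) (nat_lit 304) (nat_lit 0) (XT.nd (nat_lit 234) (nat_lit 152) (nat_lit 0) (XT.nd (nat_lit 78) (nat_lit 304) (nat_lit 0) (XT.lf (nat_lit 0) (nat_lit 31405890907) (nat_lit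 152) (nat_lit 95176911192) (nat_lit 228) (nat_lit 8489220520) (nat_lit 24) (nat_lit 5) (nat_lit 26) (nat_lit 5) (nat_lit 27) (nat_lit 5) (nat_lit 291) (nat_lit 278) (nat_lit 151)) (XT.nd (nat_lit 78) (nat_lit 228) (nat_lit 0) (XT.lf (nat_lit 0) (nat_lit 5582258220) (nat_lit 228) (nat_lit 47507280050) (nat_lit 76) (nat_lit 88770958853) (nat_lit 23) (nat_lit 5) (nat_lit 26) (nat_lit 5) (nat_lit 24) (nat_lit 5) (nat_lit 292) (nat_lit 278) (nat_lit 150)) (XT.lf (nat_lit 0) (nat_lit 13603807831) (nat_lit 228) (nat_lit 7043767321) (nat_lit 304) (nat_lit 128500695993) (nat_lit 20) (nat_lit 5) (nat_lit 23) (nat_lit 5) (nat_lit 24) (nat_lit 5) (nat_lit 293) (nat_lit 278) (nat_lit 149)))) (XT.nd (nat_lit 78) (nat_lit 152) (nat_lit 0) (XT.lf (nat_lit 0) (nat_lit 39276984003) (nat_lit 304) (nat_lit 75670427763) (nat_lit 76) (nat_lit 41882947998) (nat_lit 20) (nat_lit 5) (nat_lit 24) (nat_lit 5)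 (nat_lit 21) (nat_lit 5) (nat_lit 294) (nat_lit 278) (nat_lit 148)) (XT.nd (nat_lit 78) (nat_lit 152) (nat_lit 0) (XT.lf (nat_lit 0) (nat_lit 59579333460) (nat_lit 304) (nat_lit 11189896015) (nat_lit 76) (nat_lit 94343180820) (nat_lit 20) (nat_lit 5) (nat_lit 24) (nat_lit 5) (nat_lit 21) (nat_lit 5) (nat_lit 295) (nat_lit 278) (nat_lit 147)) (XT.lf (nat_lit 0) (nat_lit 61526443442) (nat_lit 152) (nat_lit 21458799971) (nat_lit 228) (nat_lit 90953433368) (nat_lit 18) (nat_lit 5) (nat_lit 20) (nat_lit 5) (nat_lit 21) (nat_lit 5) (nat_lit 296) (nat_lit 278) (nat_lit 146))))) (XT.nd (nat_lit 234) (nat_lit 152) (nat_lit 0) (XT.nd (nat_lit 78) (nat_lit 152) (nat_lit 0) (XT.lf (nat_lit 0) (nat_lit 109341902880) (nat_lit 228) (nat_lit 43523202439) (nat_lit 76) (nat_lit 30519678716) (nat_lit 18) (nat_lit 5) (nat_lit 21) (nat_lit 5) (nat_lit 19) (nat_lit 5) (nat_lit 297) (nat_lit 278) (nat_lit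 145)) (XT.nd (nat_lit 78) (nat_lit 0) (nat_lit 0) (XT.lf (nat_lit 0) (nat_lit 31915715422) (nat_lit 152) (nat_lit 107216021699) (nat_lit 228) (nat_lit 54348872860) (nat_lit 16) (nat_lit 5) (nat_lit 18) (nat_lit 5) (nat_lit 19) (nat_lit 5) (nat_lit 298) (nat_lit 278) (nat_lit 144)) (XT.lf (nat_lit 0) (nat_lit 115864542939) (nat_lit 152) (nat_lit 56629926180) (nat_lit 228) (nat_lit 31794457362) (nat_lit 16) (nat_lit 5) (nat_lit 18) (nat_lit 5) (nat_lit 19) (nat_lit 5) (nat_lit 299) (nat_lit 278) (nat_lit 143)))) (XT.nd (nat_lit 78) (nat_lit 152) (nat_lit 0) (XT.lf (nat_lit 0) (nat_lit 206528899936) (nat_lit 152) (nat_lit 1997050793) (nat_lit 228) (nat_lit 7435980350) (nat_lit 16) (nat_lit 5) (nat_lit 18) (nat_lit 5) (nat_lit 19) (nat_lit 5) (nat_lit 300) (nat_lit 278) (nat_lit 142)) (XT.nd (nat_lit 78) (nat_lit 0) (nat_lit 0) (XT.lf (nat_lit 0) (nat_lit 21268747739) (nat_lit 152) (nat_lit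 150417044658) (nat_lit 76) (nat_lit 56579349711) (nat_lit 14) (nat_lit 5) (nat_lit 16) (nat_lit 5) (nat_lit 15) (nat_lit 5) (nat_lit 301) (nat_lit 278) (nat_lit 141)) (XT.lf (nat_lit 0) (nat_lit 52184355628) (nat_lit 152) (nat_lit 69135880792) (nat_lit 76) (nat_lit 120191624201) (nat_lit 14) (nat_lit 5) (nat_lit 16) (nat_lit 5) (nat_lit 15) (nat_lit 5) (nat_lit 302) (nat_lit 278) (nat_lit 140))))))) (XT.nd (nat_lit 936) (nat_lit 228) (nat_lit 0) (XT.nd (nat_lit 468) (nat_lit 304) (nat_lit 0) (XT.nd (nat_lit 234) (nat_lit 76) (nat_lit 0) (XT.nd (nat_lit 78) (nat_lit 0) (nat_lit 0) (XT.lf (nat_lit 0) (nat_lit 19629372153) (nat_lit 152) (nat_lit 66415696576) (nat_lit 228) (nat_lit 169735500288) (nat_lit 12) (nat_lit 5) (nat_lit 14) (nat_lit 5) (nat_lit 15) (nat_lit 5) (nat_lit 303) (nat_lit 278) (nat_lit 139)) (XT.nd (nat_lit 78) (nat_lit 0) (nat_lit 0) (XT.lf (nat_lit 0) (nat_lit 119427328139)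 (nat_lit 152) (nat_lit 5077386924) (nat_lit 228) (nat_lit 146534853783) (nat_lit 12) (nat_lit 5) (nat_lit 14) (nat_lit 5) (nat_lit 15) (nat_lit 5) (nat_lit 304) (nat_lit 278) (nat_lit 138)) (XT.lf (nat_lit 0) (nat_lit 167512017202) (nat_lit 228) (nat_lit 61781585370) (nat_lit 76) (nat_lit 58108016157) (nat_lit 12) (nat_lit 5) (nat_lit 15) (nat_lit 5) (nat_lit 13) (nat_lit 4) (nat_lit 305) (nat_lit 278) (nat_lit 137)))) (XT.nd (nat_lit 78) (nat_lit 0) (nat_lit 0) (XT.lf (nat_lit 0) (nat_lit 36951820308) (nat_lit 76) (nat_lit 178028463444) (nat_lit 152) (nat_lit 90010719168) (nat_lit 11) (nat_lit 5) (nat_lit 12) (nat_lit 5) (nat_lit 13) (nat_lit 4) (nat_lit 306) (nat_lit 278) (nat_lit 136)) (XT.nd (nat_lit 78) (nat_lit 0) (nat_lit 0) (XT.lf (nat_lit 0) (nat_lit 147097177968) (nat_lit 76) (nat_lit 120837866743) (nat_lit 152) (nat_lit 55917371169) (nat_lit 11) (nat_lit 5) (nat_lit 12)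 (nat_lit 5) (nat_lit 13) (nat_lit 4) (nat_lit 307) (nat_lit 278) (nat_lit 135)) (XT.lf (nat_lit 0) (nat_lit 266053892040) (nat_lit 76) (nat_lit 59072123261) (nat_lit 152) (nat_lit 19096740906) (nat_lit 11) (nat_lit 5) (nat_lit 12) (nat_lit 5) (nat_lit 13) (nat_lit 4) (nat_lit 308) (nat_lit 278) (nat_lit 134))))) (XT.nd (nat_lit 234) (nat_lit 76) (nat_lit 0) (XT.nd (nat_lit 78) (nat_lit 0) (nat_lit 0) (XT.lf (nat_lit 0) (nat_lit 20554192078) (nat_lit 228) (nat_lit 337070138952) (nat_lit 76) (nat_lit 8485134926) (nat_lit 8) (nat_lit 5) (nat_lit 11) (nat_lit 5) (nat_lit 9) (nat_lit 4) (nat_lit 309) (nat_lit 278) (nat_lit 133)) (XT.nd (nat_lit 78) (nat_lit 0) (nat_lit 0) (XT.lf (nat_lit 0) (nat_lit 66072449849) (nat_lit 228) (nat_lit 242392563478) (nat_lit 76) (nat_lit 80944260504) (nat_lit 8) (nat_lit 5) (nat_lit 11) (nat_lit 5) (nat_lit 9) (nat_lit 4) (nat_lit 310) (nat_lit 278) (nat_lit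 132)) (XT.lf (nat_lit 0) (nat_lit 115232020459) (nat_lit 228) (nat_lit 140141027618) (nat_lit 76) (nat_lit 159200030545) (nat_lit 8) (nat_lit 5) (nat_lit 11) (nat_lit 5) (nat_lit 9) (nat_lit 4) (nat_lit 311) (nat_lit 278) (nat_lit 131)))) (XT.nd (nat_lit 78) (nat_lit 76) (nat_lit 0) (XT.lf (nat_lit 0) (nat_lit 168324219882) (nat_lit 228) (nat_lit 29709596345) (nat_lit 76) (nat_lit 243716182946) (nat_lit 8) (nat_lit 5) (nat_lit 11) (nat_lit 5) (nat_lit 9) (nat_lit 4) (nat_lit 312) (nat_lit 278) (nat_lit 130)) (XT.nd (nat_lit 78) (nat_lit 0) (nat_lit 0) (XT.lf (nat_lit 0) (nat_lit 94272006385) (nat_lit 76) (nat_lit 133658906195) (nat_lit 152) (nat_lit 242988791801) (nat_lit 7) (nat_lit 5) (nat_lit 8) (nat_lit 5) (nat_lit 9) (nat_lit 4) (nat_lit 313) (nat_lit 278) (nat_lit 129)) (XT.lf (nat_lit 0) (nat_lit 229861543128) (nat_lit 76) (nat_lit 63256788328) (nat_lit 152) (nat_lit 209239679655)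 (nat_lit 7) (nat_lit 5) (nat_lit 8) (nat_lit 5) (nat_lit 9) (nat_lit 4) (nat_lit 314) (nat_lit 278) (nat_lit 128)))))) (XT.nd (nat_lit 468) (nat_lit 76) (nat_lit 0) (XT.nd (nat_lit 234) (nat_lit 76) (nat_lit 0) (XT.nd (nat_lit 78) (nat_lit 76) (nat_lit 0) (XT.lf (nat_lit 0) (nat_lit 363827927956) (nat_lit 152) (nat_lit 160320636344) (nat_lit 0) (nat_lit 12138243692) (nat_lit 7) (nat_lit 5) (nat_lit 9) (nat_lit 4) (nat_lit 7) (nat_lit 4) (nat_lit 315) (nat_lit 278) (nat_lit 127)) (XT.nd (nat_lit 78) (nat_lit 76) (nat_lit 0) (XT.lf (nat_lit 0) (nat_lit 441837219116) (nat_lit 152) (nat_lit 40813954616) (nat_lit 0) (nat_lit 90147301052) (nat_lit 7) (nat_lit 5) (nat_lit 9) (nat_lit 4) (nat_lit 7) (nat_lit 4) (nat_lit 316) (nat_lit 278) (nat_lit 126)) (XT.lf (nat_lit 0) (nat_lit 92900343664) (nat_lit 76) (nat_lit 435421066771) (nat_lit 76) (nat_lit 83730932227) (nat_lit 6) (nat_lit 4) (nat_lit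 7) (nat_lit 5) (nat_lit 7) (nat_lit 4) (nat_lit 317) (nat_lit 278) (nat_lit 125)))) (XT.nd (nat_lit 78) (nat_lit 76) (nat_lit 0) (XT.lf (nat_lit 0) (nat_lit 239632746434) (nat_lit 76) (nat_lit 383207421175) (nat_lit 76) (nat_lit 31517086186) (nat_lit 6) (nat_lit 4) (nat_lit 7) (nat_lit 5) (nat_lit 7) (nat_lit 4) (nat_lit 318) (nat_lit 278) (nat_lit 124)) (XT.nd (nat_lit 78) (nat_lit 0) (nat_lit 0) (XT.lf (nat_lit 0) (nat_lit 23629485174) (nat_lit 152) (nat_lit 302541191423) (nat_lit 76) (nat_lit 373828031349) (nat_lit 5) (nat_lit 5) (nat_lit 7) (nat_lit 5) (nat_lit 6) (nat_lit 4) (nat_lit 319) (nat_lit 278) (nat_lit 123)) (XT.lf (nat_lit 0) (nat_lit 81484956920) (nat_lit 152) (nat_lit 182201982041) (nat_lit 76) (nat_lit 485539056356) (nat_lit 5) (nat_lit 5) (nat_lit 7) (nat_lit 5) (nat_lit 6) (nat_lit 4) (nat_lit 320) (nat_lit 278) (nat_lit 122))))) (XT.nd (nat_lit 234) (nat_lit 0)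 (nat_lit 0) (XT.nd (nat_lit 78) (nat_lit 76) (nat_lit 0) (XT.lf (nat_lit 0) (nat_lit 143968788586) (nat_lit 152) (nat_lit 52235771295) (nat_lit 76) (nat_lit 606186912221) (nat_lit 5) (nat_lit 5) (nat_lit 7) (nat_lit 5) (nat_lit 6) (nat_lit 4) (nat_lit 321) (nat_lit 278) (nat_lit 121)) (XT.nd (nat_lit 78) (nat_lit 0) (nat_lit 0) (XT.lf (nat_lit 0) (nat_lit 92768254769) (nat_lit 76) (nat_lit 120914078719) (nat_lit 152) (nat_lit 645949373189) (nat_lit 4) (nat_lit 5) (nat_lit 5) (nat_lit 5) (nat_lit 6) (nat_lit 4) (nat_lit 322) (nat_lit 278) (nat_lit 120)) (XT.lf (nat_lit 0) (nat_lit 252343175333) (nat_lit 76) (nat_lit 38057935551) (nat_lit 152) (nat_lit 630935797393) (nat_lit 4) (nat_lit 5) (nat_lit 5) (nat_lit 5) (nat_lit 6) (nat_lit 4) (nat_lit 323) (nat_lit 278) (nat_lit 119)))) (XT.nd (nat_lit 156) (nat_lit 0) (nat_lit 0) (XT.nd (nat_lit 78) (nat_lit 0) (nat_lit 0) (XT.lf (nat_lit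 0) (nat_lit 374494138155) (nat_lit 152) (nat_lit 564531367095) (nat_lit 0) (nat_lit 48854081098) (nat_lit 4) (nat_lit 5) (nat_lit 6) (nat_lit 4) (nat_lit 4) (nat_lit 4) (nat_lit 324) (nat_lit 278) (nat_lit 118)) (XT.lf (nat_lit 0) (nat_lit 466303064613) (nat_lit 152) (nat_lit 452700638377) (nat_lit 0) (nat_lit 140662899261) (nat_lit 4) (nat_lit 5) (nat_lit 6) (nat_lit 4) (nat_lit 4) (nat_lit 4) (nat_lit 325) (nat_lit 278) (nat_lit 117))) (XT.nd (nat_lit 78) (nat_lit 0) (nat_lit 0) (XT.lf (nat_lit 0) (nat_lit 565456648888) (nat_lit 152) (nat_lit 331923551912) (nat_lit 0) (nat_lit 239816383264) (nat_lit 4) (nat_lit 5) (nat_lit 6) (nat_lit 4) (nat_lit 4) (nat_lit 4) (nat_lit 326) (nat_lit 278) (nat_lit 116)) (XT.lf (nat_lit 0) (nat_lit 672542467778) (nat_lit 152) (nat_lit 201484391632) (nat_lit 0) (nat_lit 346902109309) (nat_lit 4) (nat_lit 5) (nat_lit 6) (nat_lit 4) (nat_lit 4) (nat_lit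 4) (nat_lit 327) (nat_lit 278) (nat_lit 115))))))))
noncomputable def xc110 : XT := (XT.nd (nat_lit 35334) (nat_lit 0) (nat_lit 76) (XT.nd (nat_lit 34398) (nat_lit 0) (nat_lit 988) (XT.nd (nat_lit 33930) (nat_lit 0) (nat_lit 1976) (XT.nd (nat_lit 33696) (nat_lit 0) (nat_lit 2204) (XT.nd (nat_lit 78) (nat_lit 76) (nat_lit 0) (XT.lf (nat_lit 0) (nat_lit 788195103912) (nat_lit 152) (nat_lit 60610184735) (nat_lit 0) (nat_lit 462554659476) (nat_lit 4) (nat_lit 5) (nat_lit 6) (nat_lit 4) (nat_lit 4) (nat_lit 4) (nat_lit 328) (nat_lit 278) (nat_lit 114)) (XT.nd (nat_lit 78) (nat_lit 0) (nat_lit 0) (XT.lf (nat_lit 0) (nat_lit 96353890744) (nat_lit 76) (nat_lit 819063328891) (nat_lit 76) (nat_lit 493422804856) (nat_lit 3) (nat_lit 4) (nat_lit 4) (nat_lit 5) (nat_lit 4) (nat_lit 4) (nat_lit 329) (nat_lit 278) (nat_lit 113)) (XT.lf (nat_lit 0) (nat_lit 269321969375) (nat_lit 76) (nat_lit 785152281852)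 (nat_lit 76) (nat_lit 459511684113) (nat_lit 3) (nat_lit 4) (nat_lit 4) (nat_lit 5) (nat_lit 4) (nat_lit 4) (nat_lit 330) (nat_lit 278) (nat_lit 112)))) (XT.nd (nat_lit 78) (nat_lit 0) (nat_lit 0) (XT.lf (nat_lit 0) (nat_lit 10005087579) (nat_lit 532) (nat_lit 15676697292) (nat_lit 532) (nat_lit 15676697292) (nat_lit 32) (nat_lit 3) (nat_lit 39) (nat_lit 3) (nat_lit 39) (nat_lit 5) (nat_lit 279) (nat_lit 279) (nat_lit 162)) (XT.nd (nat_lit 78) (nat_lit 0) (nat_lit 76) (XT.lf (nat_lit 76) (nat_lit 2970536894) (nat_lit 0) (nat_lit 17919904768) (nat_lit 532) (nat_lit 65128758090) (nat_lit 33) (nat_lit 5) (nat_lit 32) (nat_lit 3) (nat_lit 39) (nat_lit 5) (nat_lit 280) (nat_lit 279) (nat_lit 161)) (XT.lf (nat_lit 0) (nat_lit 23157500929) (nat_lit 456) (nat_lit 48154078403) (nat_lit 532) (nat_lit 18168730405) (nat_lit 33) (nat_lit 5) (nat_lit 39) (nat_lit 5) (nat_lit 40) (nat_lit 5) (nat_lit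 281) (nat_lit 279) (nat_lit 160))))) (XT.nd (nat_lit 234) (nat_lit 304) (nat_lit 0) (XT.nd (nat_lit 78) (nat_lit 0) (nat_lit 76) (XT.lf (nat_lit 0) (nat_lit 26070594750) (nat_lit 456) (nat_lit 10933901762) (nat_lit 532) (nat_lit 56176643460) (nat_lit 33) (nat_lit 5) (nat_lit 39) (nat_lit 5) (nat_lit 40) (nat_lit 5) (nat_lit 282) (nat_lit 279) (nat_lit 159)) (XT.nd (nat_lit 78) (nat_lit 0) (nat_lit 0) (XT.lf (nat_lit 0) (nat_lit 29977240025) (nat_lit 456) (nat_lit 66334849868) (nat_lit 532) (nat_lit 805111083) (nat_lit 34) (nat_lit 5) (nat_lit 40) (nat_lit 5) (nat_lit 41) (nat_lit 5) (nat_lit 283) (nat_lit 279) (nat_lit 158)) (XT.lf (nat_lit 0) (nat_lit 35463612981) (nat_lit 456) (nat_lit 25855962026) (nat_lit 532) (nat_lit 39947200488) (nat_lit 34) (nat_lit 5) (nat_lit 40) (nat_lit 5) (nat_lit 41) (nat_lit 5) (nat_lit 284) (nat_lit 279) (nat_lit 157)))) (XT.nd (nat_lit 78) (nat_lit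 380) (nat_lit 0) (XT.lf (nat_lit 76) (nat_lit 18801255989) (nat_lit 0) (nat_lit 23039183648) (nat_lit 532) (nat_lit 63871756830) (nat_lit 35) (nat_lit 5) (nat_lit 34) (nat_lit 5) (nat_lit 41) (nat_lit 5) (nat_lit 285) (nat_lit 279) (nat_lit 156)) (XT.nd (nat_lit 78) (nat_lit 456) (nat_lit 0) (XT.lf (nat_lit 0) (nat_lit 49892336114) (nat_lit 456) (nat_lit 42414294562) (nat_lit 76) (nat_lit 18113430249) (nat_lit 35) (nat_lit 5) (nat_lit 41) (nat_lit 5) (nat_lit 36) (nat_lit 5) (nat_lit 286) (nat_lit 279) (nat_lit 155)) (XT.lf (nat_lit 0) (nat_lit 5308729657) (nat_lit 456) (nat_lit 54005204366) (nat_lit 532) (nat_lit 56132579968) (nat_lit 29) (nat_lit 5) (nat_lit 35) (nat_lit 5) (nat_lit 36) (nat_lit 5) (nat_lit 287) (nat_lit 279) (nat_lit 154)))))) (XT.nd (nat_lit 468) (nat_lit 532) (nat_lit 0) (XT.nd (nat_lit 234) (nat_lit 228) (nat_lit 0) (XT.nd (nat_lit 78) (nat_lit 228) (nat_lit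 0) (XT.lf (nat_lit 0) (nat_lit 59261249740) (nat_lit 456) (nat_lit 11387175054) (nat_lit 532) (nat_lit 50133928481) (nat_lit 29) (nat_lit 5) (nat_lit 35) (nat_lit 5) (nat_lit 36) (nat_lit 5) (nat_lit 288) (nat_lit 279) (nat_lit 153)) (XT.nd (nat_lit 78) (nat_lit 228) (nat_lit 0) (XT.lf (nat_lit 0) (nat_lit 83722296860) (nat_lit 532) (nat_lit 9848678884) (nat_lit 76) (nat_lit 32907477136) (nat_lit 29) (nat_lit 5) (nat_lit 36) (nat_lit 5) (nat_lit 30) (nat_lit 5) (nat_lit 289) (nat_lit 279) (nat_lit 152)) (XT.lf (nat_lit 0) (nat_lit 48065758568) (nat_lit 228) (nat_lit 51227631020) (nat_lit 304) (nat_lit 33220748715) (nat_lit 26) (nat_lit 5) (nat_lit 29) (nat_lit 5) (nat_lit 30) (nat_lit 5) (nat_lit 290) (nat_lit 279) (nat_lit 151)))) (XT.nd (nat_lit 78) (nat_lit 228) (nat_lit 0) (XT.lf (nat_lit 0) (nat_lit 111173011313) (nat_lit 228) (nat_lit 5206018355) (nat_lit 304) (nat_lit 22632142618)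 (nat_lit 26) (nat_lit 5) (nat_lit 29) (nat_lit 5) (nat_lit 30) (nat_lit 5) (nat_lit 291) (nat_lit 279) (nat_lit 150)) (XT.nd (nat_lit 78) (nat_lit 76) (nat_lit 0) (XT.lf (nat_lit 0) (nat_lit 33927459550) (nat_lit 152) (nat_lit 102789789559) (nat_lit 228) (nat_lit 9159863959) (nat_lit 24) (nat_lit 5) (nat_lit 26) (nat_lit 5) (nat_lit 27) (nat_lit 5) (nat_lit 292) (nat_lit 279) (nat_lit 149)) (XT.lf (nat_lit 0) (nat_lit 6036310440) (nat_lit 228) (nat_lit 51299006487) (nat_lit 76) (nat_lit 95873383204) (nat_lit 23) (nat_lit 5) (nat_lit 26) (nat_lit 5) (nat_lit 24) (nat_lit 5) (nat_lit 293) (nat_lit 279) (nat_lit 148))))) (XT.nd (nat_lit 234) (nat_lit 304) (nat_lit 0) (XT.nd (nat_lit 78) (nat_lit 0) (nat_lit 0) (XT.lf (nat_lit 0) (nat_lit 14700744223) (nat_lit 228) (nat_lit 7605762649) (nat_lit 304) (nat_lit 138773019763) (nat_lit 20) (nat_lit 5) (nat_lit 23) (nat_lit 5) (nat_lit 24) (nat_lit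 5) (nat_lit 294) (nat_lit 279) (nat_lit 147)) (XT.nd (nat_lit 78) (nat_lit 0) (nat_lit 0) (XT.lf (nat_lit 0) (nat_lit 42425774139) (nat_lit 304) (nat_lit 81715541849) (nat_lit 76) (nat_lit 45234908578) (nat_lit 20) (nat_lit 5) (nat_lit 24) (nat_lit 5) (nat_lit 21) (nat_lit 5) (nat_lit 295) (nat_lit 279) (nat_lit 146)) (XT.lf (nat_lit 0) (nat_lit 64351820337) (nat_lit 304) (nat_lit 12077198682) (nat_lit 76) (nat_lit 101891861896) (nat_lit 20) (nat_lit 5) (nat_lit 24) (nat_lit 5) (nat_lit 21) (nat_lit 5) (nat_lit 296) (nat_lit 279) (nat_lit 145)))) (XT.nd (nat_lit 78) (nat_lit 152) (nat_lit 0) (XT.lf (nat_lit 0) (nat_lit 66456248209) (nat_lit 152) (nat_lit 23173684974) (nat_lit 228) (nat_lit 98223339423) (nat_lit 18) (nat_lit 5) (nat_lit 20) (nat_lit 5) (nat_lit 21) (nat_lit 5) (nat_lit 297) (nat_lit 279) (nat_lit 144)) (XT.nd (nat_lit 78) (nat_lit 152) (nat_lit 0) (XT.lf (nat_lit 0)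 (nat_lit 118094731078) (nat_lit 228) (nat_lit 46997518021) (nat_lit 76) (nat_lit 32962853015) (nat_lit 18) (nat_lit 5) (nat_lit 21) (nat_lit 5) (nat_lit 19) (nat_lit 5) (nat_lit 298) (nat_lit 279) (nat_lit 143)) (XT.lf (nat_lit 0) (nat_lit 34476322367) (nat_lit 152) (nat_lit 115791200824) (nat_lit 228) (nat_lit 58691091221) (nat_lit 16) (nat_lit 5) (nat_lit 18) (nat_lit 5) (nat_lit 19) (nat_lit 5) (nat_lit 299) (nat_lit 279) (nat_lit 142))))))) (XT.nd (nat_lit 936) (nat_lit 304) (nat_lit 0) (XT.nd (nat_lit 468) (nat_lit 304) (nat_lit 0) (XT.nd (nat_lit 234) (nat_lit 152) (nat_lit 0) (XT.nd (nat_lit 78) (nat_lit 152) (nat_lit 0) (XT.lf (nat_lit 0) (nat_lit 125140511663) (nat_lit 152) (nat_lit 61158373413) (nat_lit 228) (nat_lit 34332744073) (nat_lit 16) (nat_lit 5) (nat_lit 18) (nat_lit 5) (nat_lit 19) (nat_lit 5) (nat_lit 300) (nat_lit 279) (nat_lit 141)) (XT.nd (nat_lit 78) (nat_lit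 152) (nat_lit 0) (XT.lf (nat_lit 0) (nat_lit 223057513124) (nat_lit 152) (nat_lit 2155012206) (nat_lit 228) (nat_lit 8025979261) (nat_lit 16) (nat_lit 5) (nat_lit 18) (nat_lit 5) (nat_lit 19) (nat_lit 5) (nat_lit 301) (nat_lit 279) (nat_lit 140)) (XT.lf (nat_lit 0) (nat_lit 22974740465) (nat_lit 152) (nat_lit 162443682819) (nat_lit 76) (nat_lit 61107552678) (nat_lit 14) (nat_lit 5) (nat_lit 16) (nat_lit 5) (nat_lit 15) (nat_lit 5) (nat_lit 302) (nat_lit 279) (nat_lit 139)))) (XT.nd (nat_lit 78) (nat_lit 152) (nat_lit 0) (XT.lf (nat_lit 0) (nat_lit 56363264178) (nat_lit 152) (nat_lit 74660524023) (nat_lit 76) (nat_lit 129808671720) (nat_lit 14) (nat_lit 5) (nat_lit 16) (nat_lit 5) (nat_lit 15) (nat_lit 5) (nat_lit 303) (nat_lit 279) (nat_lit 138)) (XT.nd (nat_lit 78) (nat_lit 0) (nat_lit 0) (XT.lf (nat_lit 0) (nat_lit 21205791506) (nat_lit 152) (nat_lit 71726880638) (nat_lit 228) (nat_lit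 183310007058) (nat_lit 12) (nat_lit 5) (nat_lit 14) (nat_lit 5) (nat_lit 15) (nat_lit 5) (nat_lit 304) (nat_lit 279) (nat_lit 137)) (XT.lf (nat_lit 0) (nat_lit 128987134373) (nat_lit 152) (nat_lit 5481659671) (nat_lit 228) (nat_lit 158253629815) (nat_lit 12) (nat_lit 5) (nat_lit 14) (nat_lit 5) (nat_lit 15) (nat_lit 5) (nat_lit 305) (nat_lit 279) (nat_lit 136))))) (XT.nd (nat_lit 234) (nat_lit 228) (nat_lit 0) (XT.nd (nat_lit 78) (nat_lit 76) (nat_lit 0) (XT.lf (nat_lit 0) (nat_lit 180916448864) (nat_lit 228) (nat_lit 66718663732) (nat_lit 76) (nat_lit 62758344719) (nat_lit 12) (nat_lit 5) (nat_lit 15) (nat_lit 5) (nat_lit 13) (nat_lit 4) (nat_lit 306) (nat_lit 279) (nat_lit 135)) (XT.nd (nat_lit 78) (nat_lit 0) (nat_lit 0) (XT.lf (nat_lit 0) (nat_lit 39913276464) (nat_lit 76) (nat_lit 192268770934) (nat_lit 152) (nat_lit 97207956174) (nat_lit 11) (nat_lit 5) (nat_lit 12) (nat_lit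 5) (nat_lit 13) (nat_lit 4) (nat_lit 307) (nat_lit 279) (nat_lit 134)) (XT.lf (nat_lit 0) (nat_lit 158869869364) (nat_lit 76) (nat_lit 130503072392) (nat_lit 152) (nat_lit 60387408522) (nat_lit 11) (nat_lit 5) (nat_lit 12) (nat_lit 5) (nat_lit 13) (nat_lit 4) (nat_lit 308) (nat_lit 279) (nat_lit 133)))) (XT.nd (nat_lit 78) (nat_lit 228) (nat_lit 0) (XT.lf (nat_lit 0) (nat_lit 287342756328) (nat_lit 76) (nat_lit 63796204519) (nat_lit 152) (nat_lit 20621376160) (nat_lit 11) (nat_lit 5) (nat_lit 12) (nat_lit 5) (nat_lit 13) (nat_lit 4) (nat_lit 309) (nat_lit 279) (nat_lit 132)) (XT.nd (nat_lit 78) (nat_lit 0) (nat_lit 0) (XT.lf (nat_lit 0) (nat_lit 22201410627) (nat_lit 228) (nat_lit 364030957493) (nat_lit 76) (nat_lit 9165615412) (nat_lit 8) (nat_lit 5) (nat_lit 11) (nat_lit 5) (nat_lit 9) (nat_lit 4) (nat_lit 310) (nat_lit 279) (nat_lit 131)) (XT.lf (nat_lit 0) (nat_lit 71360915451)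 (nat_lit 228) (nat_lit 261779530987) (nat_lit 76) (nat_lit 87421347356) (nat_lit 8) (nat_lit 5) (nat_lit 11) (nat_lit 5) (nat_lit 9) (nat_lit 4) (nat_lit 311) (nat_lit 279) (nat_lit 130)))))) (XT.nd (nat_lit 468) (nat_lit 228) (nat_lit 0) (XT.nd (nat_lit 234) (nat_lit 0) (nat_lit 0) (XT.nd (nat_lit 78) (nat_lit 76) (nat_lit 0) (XT.lf (nat_lit 0) (nat_lit 124453053960) (nat_lit 228) (nat_lit 151348200967) (nat_lit 76) (nat_lit 171937464481) (nat_lit 8) (nat_lit 5) (nat_lit 11) (nat_lit 5) (nat_lit 9) (nat_lit 4) (nat_lit 312) (nat_lit 279) (nat_lit 129)) (XT.nd (nat_lit 78) (nat_lit 76) (nat_lit 0) (XT.lf (nat_lit 0) (nat_lit 181792446236) (nat_lit 228) (nat_lit 32082559553) (nat_lit 76) (nat_lit 263214803037) (nat_lit 8) (nat_lit 5) (nat_lit 11) (nat_lit 5) (nat_lit 9) (nat_lit 4) (nat_lit 313) (nat_lit 279) (nat_lit 128)) (XT.lf (nat_lit 0) (nat_lit 101817475079) (nat_lit 76) (nat_lit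 144350118914) (nat_lit 152) (nat_lit 262425503416) (nat_lit 7) (nat_lit 5) (nat_lit 8) (nat_lit 5) (nat_lit 9) (nat_lit 4) (nat_lit 314) (nat_lit 279) (nat_lit 127)))) (XT.nd (nat_lit 78) (nat_lit 0) (nat_lit 0) (XT.lf (nat_lit 0) (nat_lit 248253900082) (nat_lit 76) (nat_lit 68315942713) (nat_lit 152) (nat_lit 225976639464) (nat_lit 7) (nat_lit 5) (nat_lit 8) (nat_lit 5) (nat_lit 9) (nat_lit 4) (nat_lit 315) (nat_lit 279) (nat_lit 126)) (XT.nd (nat_lit 78) (nat_lit 0) (nat_lit 0) (XT.lf (nat_lit 0) (nat_lit 392936086470) (nat_lit 152) (nat_lit 173142981838) (nat_lit 0) (nat_lit 13110524682) (nat_lit 7) (nat_lit 5) (nat_lit 9) (nat_lit 4) (nat_lit 7) (nat_lit 4) (nat_lit 316) (nat_lit 279) (nat_lit 125)) (XT.lf (nat_lit 0) (nat_lit 477185978383) (nat_lit 152) (nat_lit 44076010416) (nat_lit 0) (nat_lit 97360216150) (nat_lit 7) (nat_lit 5) (nat_lit 9) (nat_lit 4) (nat_lit 7) (nat_lit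 4) (nat_lit 317) (nat_lit 279) (nat_lit 124))))) (XT.nd (nat_lit 234) (nat_lit 76) (nat_lit 0) (XT.nd (nat_lit 78) (nat_lit 76) (nat_lit 0) (XT.lf (nat_lit 0) (nat_lit 100335354243) (nat_lit 76) (nat_lit 470253490528) (nat_lit 76) (nat_lit 90427542697) (nat_lit 6) (nat_lit 4) (nat_lit 7) (nat_lit 5) (nat_lit 7) (nat_lit 4) (nat_lit 318) (nat_lit 279) (nat_lit 123)) (XT.nd (nat_lit 78) (nat_lit 76) (nat_lit 0) (XT.lf (nat_lit 0) (nat_lit 258806128266) (nat_lit 76) (nat_lit 413862846735) (nat_lit 76) (nat_lit 34036727055) (nat_lit 6) (nat_lit 4) (nat_lit 7) (nat_lit 5) (nat_lit 7) (nat_lit 4) (nat_lit 319) (nat_lit 279) (nat_lit 122)) (XT.lf (nat_lit 0) (nat_lit 25521362213) (nat_lit 152) (nat_lit 326741845395) (nat_lit 76) (nat_lit 403735271637) (nat_lit 5) (nat_lit 5) (nat_lit 7) (nat_lit 5) (nat_lit 6) (nat_lit 4) (nat_lit 320) (nat_lit 279) (nat_lit 121)))) (XT.nd (nat_lit 156) (nat_lit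 76) (nat_lit 0) (XT.nd (nat_lit 78) (nat_lit 0) (nat_lit 0) (XT.lf (nat_lit 0) (nat_lit 88005159237) (nat_lit 152) (nat_lit 196775694917) (nat_lit 76) (nat_lit 524383104735) (nat_lit 5) (nat_lit 5) (nat_lit 7) (nat_lit 5) (nat_lit 6) (nat_lit 4) (nat_lit 321) (nat_lit 279) (nat_lit 120)) (XT.lf (nat_lit 0) (nat_lit 155487593306) (nat_lit 152) (nat_lit 56412368474) (nat_lit 76) (nat_lit 654682720633) (nat_lit 5) (nat_lit 5) (nat_lit 7) (nat_lit 5) (nat_lit 6) (nat_lit 4) (nat_lit 322) (nat_lit 279) (nat_lit 119))) (XT.nd (nat_lit 78) (nat_lit 0) (nat_lit 0) (XT.lf (nat_lit 0) (nat_lit 100191922345) (nat_lit 76) (nat_lit 130586256121) (nat_lit 152) (nat_lit 697623961001) (nat_lit 4) (nat_lit 5) (nat_lit 5) (nat_lit 5) (nat_lit 6) (nat_lit 4) (nat_lit 323) (nat_lit 279) (nat_lit 118)) (XT.lf (nat_lit 0) (nat_lit 272532673058) (nat_lit 76) (nat_lit 41101691788) (nat_lit 152) (nat_lit 681409400034)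 (nat_lit 4) (nat_lit 5) (nat_lit 5) (nat_lit 5) (nat_lit 6) (nat_lit 4) (nat_lit 324) (nat_lit 279) (nat_lit 117))))))))
noncomputable def xc111 : XT := (XT.nd (nat_lit 35490) (nat_lit 0) (nat_lit 76) (XT.nd (nat_lit 34554) (nat_lit 0) (nat_lit 1064) (XT.nd (nat_lit 34086) (nat_lit 0) (nat_lit 2128) (XT.nd (nat_lit 234) (nat_lit 0) (nat_lit 0) (XT.nd (nat_lit 78) (nat_lit 0) (nat_lit 0) (XT.lf (nat_lit 0) (nat_lit 404454767562) (nat_lit 152) (nat_lit 609691914770) (nat_lit 0) (nat_lit 52763180415) (nat_lit 4) (nat_lit 5) (nat_lit 6) (nat_lit 4) (nat_lit 4) (nat_lit 4) (nat_lit 325) (nat_lit 279) (nat_lit 116)) (XT.nd (nat_lit 78) (nat_lit 0) (nat_lit 0) (XT.lf (nat_lit 0) (nat_lit 503608326776) (nat_lit 152) (nat_lit 488914873066) (nat_lit 0) (nat_lit 151916646785) (nat_lit 4) (nat_lit 5) (nat_lit 6) (nat_lit 4) (nat_lit 4) (nat_lit 4) (nat_lit 326) (nat_lit 279) (nat_lit 115)) (XT.lf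 (nat_lit 0) (nat_lit 610694122461) (nat_lit 152) (nat_lit 358475754230) (nat_lit 0) (nat_lit 259002356502) (nat_lit 4) (nat_lit 5) (nat_lit 6) (nat_lit 4) (nat_lit 4) (nat_lit 4) (nat_lit 327) (nat_lit 279) (nat_lit 114)))) (XT.nd (nat_lit 78) (nat_lit 0) (nat_lit 0) (XT.lf (nat_lit 0) (nat_lit 726346737109) (nat_lit 152) (nat_lit 217601585708) (nat_lit 0) (nat_lit 374654891551) (nat_lit 4) (nat_lit 5) (nat_lit 6) (nat_lit 4) (nat_lit 4) (nat_lit 4) (nat_lit 328) (nat_lit 279) (nat_lit 113)) (XT.nd (nat_lit 33696) (nat_lit 0) (nat_lit 2128) (XT.lf (nat_lit 0) (nat_lit 851251519548) (nat_lit 152) (nat_lit 65457557611) (nat_lit 0) (nat_lit 499559600287) (nat_lit 4) (nat_lit 5) (nat_lit 6) (nat_lit 4) (nat_lit 4) (nat_lit 4) (nat_lit 329) (nat_lit 279) (nat_lit 112)) (XT.lf (nat_lit 0) (nat_lit 10813710146) (nat_lit 532) (nat_lit 16926370132) (nat_lit 532) (nat_lit 16926370132) (nat_lit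 32) (nat_lit 3) (nat_lit 39) (nat_lit 3) (nat_lit 39) (nat_lit 5) (nat_lit 280) (nat_lit 280) (nat_lit 160))))) (XT.nd (nat_lit 234) (nat_lit 0) (nat_lit 152) (XT.nd (nat_lit 78) (nat_lit 0) (nat_lit 76) (XT.lf (nat_lit 76) (nat_lit 3216879762) (nat_lit 0) (nat_lit 19360220469) (nat_lit 532) (nat_lit 70322303343) (nat_lit 33) (nat_lit 5) (nat_lit 32) (nat_lit 3) (nat_lit 39) (nat_lit 5) (nat_lit 281) (nat_lit 280) (nat_lit 159)) (XT.nd (nat_lit 78) (nat_lit 0) (nat_lit 0) (XT.lf (nat_lit 0) (nat_lit 25024232058) (nat_lit 456) (nat_lit 51996965999) (nat_lit 532) (nat_lit 19616314956) (nat_lit 33) (nat_lit 5) (nat_lit 39) (nat_lit 5) (nat_lit 40) (nat_lit 5) (nat_lit 282) (nat_lit 280) (nat_lit 158)) (XT.lf (nat_lit 0) (nat_lit 28169326640) (nat_lit 456) (nat_lit 11799874388) (nat_lit 532) (nat_lit 60665299121) (nat_lit 33) (nat_lit 5) (nat_lit 39) (nat_lit 5) (nat_lit 40) (nat_lit 5)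 (nat_lit 283) (nat_lit 280) (nat_lit 157)))) (XT.nd (nat_lit 78) (nat_lit 0) (nat_lit 0) (XT.lf (nat_lit 0) (nat_lit 32387647762) (nat_lit 456) (nat_lit 71631964534) (nat_lit 532) (nat_lit 865908442) (nat_lit 34) (nat_lit 5) (nat_lit 40) (nat_lit 5) (nat_lit 41) (nat_lit 5) (nat_lit 284) (nat_lit 280) (nat_lit 156)) (XT.nd (nat_lit 78) (nat_lit 0) (nat_lit 0) (XT.lf (nat_lit 0) (nat_lit 38312024737) (nat_lit 456) (nat_lit 27915482207) (nat_lit 532) (nat_lit 43139632520) (nat_lit 34) (nat_lit 5) (nat_lit 40) (nat_lit 5) (nat_lit 41) (nat_lit 5) (nat_lit 285) (nat_lit 280) (nat_lit 155)) (XT.lf (nat_lit 76) (nat_lit 20314086495) (nat_lit 0) (nat_lit 24884282268) (nat_lit 532) (nat_lit 68969881004) (nat_lit 35) (nat_lit 5) (nat_lit 34) (nat_lit 5) (nat_lit 41) (nat_lit 5) (nat_lit 286) (nat_lit 280) (nat_lit 154)))))) (XT.nd (nat_lit 468) (nat_lit 608) (nat_lit 0) (XT.nd (nat_lit 234)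 (nat_lit 228) (nat_lit 0) (XT.nd (nat_lit 78) (nat_lit 456) (nat_lit 0) (XT.lf (nat_lit 0) (nat_lit 53893581080) (nat_lit 456) (nat_lit 45798456944) (nat_lit 76) (nat_lit 19560777183) (nat_lit 35) (nat_lit 5) (nat_lit 41) (nat_lit 5) (nat_lit 36) (nat_lit 5) (nat_lit 287) (nat_lit 280) (nat_lit 153)) (XT.nd (nat_lit 78) (nat_lit 0) (nat_lit 0) (XT.lf (nat_lit 0) (nat_lit 5742181840) (nat_lit 456) (nat_lit 58326205282) (nat_lit 532) (nat_lit 60613043561) (nat_lit 29) (nat_lit 5) (nat_lit 35) (nat_lit 5) (nat_lit 36) (nat_lit 5) (nat_lit 288) (nat_lit 280) (nat_lit 152)) (XT.lf (nat_lit 0) (nat_lit 64010255100) (nat_lit 456) (nat_lit 12298690324) (nat_lit 532) (nat_lit 54135251273) (nat_lit 29) (nat_lit 5) (nat_lit 35) (nat_lit 5) (nat_lit 36) (nat_lit 5) (nat_lit 289) (nat_lit 280) (nat_lit 151)))) (XT.nd (nat_lit 78) (nat_lit 228) (nat_lit 0) (XT.lf (nat_lit 0) (nat_lit 90428074710)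 (nat_lit 532) (nat_lit 10628366493) (nat_lit 76) (nat_lit 35539599205) (nat_lit 29) (nat_lit 5) (nat_lit 36) (nat_lit 5) (nat_lit 30) (nat_lit 5) (nat_lit 290) (nat_lit 280) (nat_lit 150)) (XT.nd (nat_lit 78) (nat_lit 0) (nat_lit 0) (XT.lf (nat_lit 0) (nat_lit 51919018191) (nat_lit 228) (nat_lit 55325436884) (nat_lit 304) (nat_lit 35870161215) (nat_lit 26) (nat_lit 5) (nat_lit 29) (nat_lit 5) (nat_lit 30) (nat_lit 5) (nat_lit 291) (nat_lit 280) (nat_lit 149)) (XT.lf (nat_lit 0) (nat_lit 120074258641) (nat_lit 228) (nat_lit 5622125178) (nat_lit 304) (nat_lit 24435077548) (nat_lit 26) (nat_lit 5) (nat_lit 29) (nat_lit 5) (nat_lit 30) (nat_lit 5) (nat_lit 292) (nat_lit 280) (nat_lit 148))))) (XT.nd (nat_lit 234) (nat_lit 152) (nat_lit 0) (XT.nd (nat_lit 78) (nat_lit 304) (nat_lit 0) (XT.lf (nat_lit 0) (nat_lit 36649455844) (nat_lit 152) (nat_lit 111011880021) (nat_lit 228) (nat_lit 9885370667)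 (nat_lit 24) (nat_lit 5) (nat_lit 26) (nat_lit 5) (nat_lit 27) (nat_lit 5) (nat_lit 293) (nat_lit 280) (nat_lit 147)) (XT.nd (nat_lit 78) (nat_lit 228) (nat_lit 0) (XT.lf (nat_lit 0) (nat_lit 6525620936) (nat_lit 228) (nat_lit 55395334441) (nat_lit 76) (nat_lit 103543894844) (nat_lit 23) (nat_lit 5) (nat_lit 26) (nat_lit 5) (nat_lit 24) (nat_lit 5) (nat_lit 294) (nat_lit 280) (nat_lit 146)) (XT.lf (nat_lit 0) (nat_lit 15884204109) (nat_lit 228) (nat_lit 8212932459) (nat_lit 304) (nat_lit 149868232479) (nat_lit 20) (nat_lit 5) (nat_lit 23) (nat_lit 5) (nat_lit 24) (nat_lit 5) (nat_lit 295) (nat_lit 280) (nat_lit 145)))) (XT.nd (nat_lit 78) (nat_lit 152) (nat_lit 0) (XT.lf (nat_lit 0) (nat_lit 45825521440) (nat_lit 304) (nat_lit 88245480554) (nat_lit 76) (nat_lit 48854837015) (nat_lit 20) (nat_lit 5) (nat_lit 24) (nat_lit 5) (nat_lit 21) (nat_lit 5) (nat_lit 296) (nat_lit 280) (nat_lit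 144)) (XT.nd (nat_lit 78) (nat_lit 152) (nat_lit 0) (XT.lf (nat_lit 0) (nat_lit 69505230195) (nat_lit 304) (nat_lit 13036611019) (nat_lit 76) (nat_lit 110044262469) (nat_lit 20) (nat_lit 5) (nat_lit 24) (nat_lit 5) (nat_lit 21) (nat_lit 5) (nat_lit 297) (nat_lit 280) (nat_lit 143)) (XT.lf (nat_lit 0) (nat_lit 71779340395) (nat_lit 152) (nat_lit 25026020277) (nat_lit 228) (nat_lit 106075746517) (nat_lit 18) (nat_lit 5) (nat_lit 20) (nat_lit 5) (nat_lit 21) (nat_lit 5) (nat_lit 298) (nat_lit 280) (nat_lit 142))))))) (XT.nd (nat_lit 936) (nat_lit 456) (nat_lit 0) (XT.nd (nat_lit 468) (nat_lit 228) (nat_lit 0) (XT.nd (nat_lit 234) (nat_lit 152) (nat_lit 0) (XT.nd (nat_lit 78) (nat_lit 152) (nat_lit 0) (XT.lf (nat_lit 0) (nat_lit 127547004323) (nat_lit 228) (nat_lit 50750854603) (nat_lit 76) (nat_lit 35601252999) (nat_lit 18) (nat_lit 5) (nat_lit 21) (nat_lit 5) (nat_lit 19) (nat_lit 5)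 (nat_lit 299) (nat_lit 280) (nat_lit 141)) (XT.nd (nat_lit 78) (nat_lit 0) (nat_lit 0) (XT.lf (nat_lit 0) (nat_lit 37240729349) (nat_lit 152) (nat_lit 125052694240) (nat_lit 228) (nat_lit 63381499002) (nat_lit 16) (nat_lit 5) (nat_lit 18) (nat_lit 5) (nat_lit 19) (nat_lit 5) (nat_lit 300) (nat_lit 280) (nat_lit 140)) (XT.lf (nat_lit 0) (nat_lit 135157587034) (nat_lit 152) (nat_lit 66049374165) (nat_lit 228) (nat_lit 37074845528) (nat_lit 16) (nat_lit 5) (nat_lit 18) (nat_lit 5) (nat_lit 19) (nat_lit 5) (nat_lit 301) (nat_lit 280) (nat_lit 139)))) (XT.nd (nat_lit 78) (nat_lit 152) (nat_lit 0) (XT.lf (nat_lit 0) (nat_lit 240907516431) (nat_lit 152) (nat_lit 2325867701) (nat_lit 228) (nat_lit 8663874203) (nat_lit 16) (nat_lit 5) (nat_lit 18) (nat_lit 5) (nat_lit 19) (nat_lit 5) (nat_lit 302) (nat_lit 280) (nat_lit 138)) (XT.nd (nat_lit 78) (nat_lit 0) (nat_lit 0) (XT.lf (nat_lit 0) (nat_lit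 24816571646) (nat_lit 152) (nat_lit 175433411489) (nat_lit 76) (nat_lit 65997747247) (nat_lit 14) (nat_lit 5) (nat_lit 16) (nat_lit 5) (nat_lit 15) (nat_lit 5) (nat_lit 303) (nat_lit 280) (nat_lit 137)) (XT.lf (nat_lit 0) (nat_lit 60875891927) (nat_lit 152) (nat_lit 80628027097) (nat_lit 76) (nat_lit 140194838009) (nat_lit 14) (nat_lit 5) (nat_lit 16) (nat_lit 5) (nat_lit 15) (nat_lit 5) (nat_lit 304) (nat_lit 280) (nat_lit 136))))) (XT.nd (nat_lit 234) (nat_lit 76) (nat_lit 0) (XT.nd (nat_lit 78) (nat_lit 0) (nat_lit 0) (XT.lf (nat_lit 0) (nat_lit 22907458514) (nat_lit 152) (nat_lit 77463254971) (nat_lit 228) (nat_lit 197971092557) (nat_lit 12) (nat_lit 5) (nat_lit 14) (nat_lit 5) (nat_lit 15) (nat_lit 5) (nat_lit 305) (nat_lit 280) (nat_lit 135)) (XT.nd (nat_lit 78) (nat_lit 0) (nat_lit 0) (XT.lf (nat_lit 0) (nat_lit 139310923352) (nat_lit 152) (nat_lit 5918547891) (nat_lit 228)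 (nat_lit 170910480324) (nat_lit 12) (nat_lit 5) (nat_lit 14) (nat_lit 5) (nat_lit 15) (nat_lit 5) (nat_lit 306) (nat_lit 280) (nat_lit 134)) (XT.lf (nat_lit 0) (nat_lit 195392739983) (nat_lit 228) (nat_lit 72051485648) (nat_lit 76) (nat_lit 67780458858) (nat_lit 12) (nat_lit 5) (nat_lit 15) (nat_lit 5) (nat_lit 13) (nat_lit 4) (nat_lit 307) (nat_lit 280) (nat_lit 133)))) (XT.nd (nat_lit 78) (nat_lit 0) (nat_lit 0) (XT.lf (nat_lit 0) (nat_lit 43110891507) (nat_lit 76) (nat_lit 207648584006) (nat_lit 152) (nat_lit 104981488650) (nat_lit 11) (nat_lit 5) (nat_lit 12) (nat_lit 5) (nat_lit 13) (nat_lit 4) (nat_lit 308) (nat_lit 280) (nat_lit 132)) (XT.nd (nat_lit 78) (nat_lit 0) (nat_lit 0) (XT.lf (nat_lit 0) (nat_lit 171583674585) (nat_lit 76) (nat_lit 140941754662) (nat_lit 152) (nat_lit 65215527113) (nat_lit 11) (nat_lit 5) (nat_lit 12) (nat_lit 5) (nat_lit 13) (nat_lit 4) (nat_lit 309)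 (nat_lit 280) (nat_lit 131)) (XT.lf (nat_lit 0) (nat_lit 310334080234) (nat_lit 76) (nat_lit 68898453176) (nat_lit 152) (nat_lit 22268425058) (nat_lit 11) (nat_lit 5) (nat_lit 12) (nat_lit 5) (nat_lit 13) (nat_lit 4) (nat_lit 310) (nat_lit 280) (nat_lit 130)))))) (XT.nd (nat_lit 468) (nat_lit 152) (nat_lit 0) (XT.nd (nat_lit 234) (nat_lit 76) (nat_lit 0) (XT.nd (nat_lit 78) (nat_lit 0) (nat_lit 0) (XT.lf (nat_lit 0) (nat_lit 23979995342) (nat_lit 228) (nat_lit 393149325232) (nat_lit 76) (nat_lit 9900296137) (nat_lit 8) (nat_lit 5) (nat_lit 11) (nat_lit 5) (nat_lit 9) (nat_lit 4) (nat_lit 311) (nat_lit 280) (nat_lit 129)) (XT.nd (nat_lit 78) (nat_lit 0) (nat_lit 0) (XT.lf (nat_lit 0) (nat_lit 77072077450) (nat_lit 228) (nat_lit 282718088966) (nat_lit 76) (nat_lit 94416380599) (nat_lit 8) (nat_lit 5) (nat_lit 11) (nat_lit 5) (nat_lit 9) (nat_lit 4) (nat_lit 312) (nat_lit 280) (nat_lit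 128)) (XT.lf (nat_lit 0) (nat_lit 134411417503) (nat_lit 228) (nat_lit 163452534359) (nat_lit 76) (nat_lit 185693688913) (nat_lit 8) (nat_lit 5) (nat_lit 11) (nat_lit 5) (nat_lit 9) (nat_lit 4) (nat_lit 313) (nat_lit 280) (nat_lit 127)))) (XT.nd (nat_lit 78) (nat_lit 76) (nat_lit 0) (XT.lf (nat_lit 0) (nat_lit 196337804181) (nat_lit 228) (nat_lit 34645902571) (nat_lit 76) (nat_lit 284273123644) (nat_lit 8) (nat_lit 5) (nat_lit 11) (nat_lit 5) (nat_lit 9) (nat_lit 4) (nat_lit 314) (nat_lit 280) (nat_lit 126)) (XT.nd (nat_lit 78) (nat_lit 0) (nat_lit 0) (XT.lf (nat_lit 0) (nat_lit 109966052256) (nat_lit 76) (nat_lit 155896842611) (nat_lit 152) (nat_lit 283417493168) (nat_lit 7) (nat_lit 5) (nat_lit 8) (nat_lit 5) (nat_lit 9) (nat_lit 4) (nat_lit 315) (nat_lit 280) (nat_lit 125)) (XT.lf (nat_lit 0) (nat_lit 268117155765) (nat_lit 76) (nat_lit 73780027559) (nat_lit 152) (nat_lit 244052871990)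 (nat_lit 7) (nat_lit 5) (nat_lit 8) (nat_lit 5) (nat_lit 9) (nat_lit 4) (nat_lit 316) (nat_lit 280) (nat_lit 124))))) (XT.nd (nat_lit 234) (nat_lit 76) (nat_lit 0) (XT.nd (nat_lit 78) (nat_lit 76) (nat_lit 0) (XT.lf (nat_lit 0) (nat_lit 424372623145) (nat_lit 152) (nat_lit 186991586525) (nat_lit 0) (nat_lit 14160413891) (nat_lit 7) (nat_lit 5) (nat_lit 9) (nat_lit 4) (nat_lit 7) (nat_lit 4) (nat_lit 317) (nat_lit 280) (nat_lit 123)) (XT.nd (nat_lit 78) (nat_lit 76) (nat_lit 0) (XT.lf (nat_lit 0) (nat_lit 515362384208) (nat_lit 152) (nat_lit 47599467305) (nat_lit 0) (nat_lit 105150003104) (nat_lit 7) (nat_lit 5) (nat_lit 9) (nat_lit 4) (nat_lit 7) (nat_lit 4) (nat_lit 318) (nat_lit 280) (nat_lit 122)) (XT.lf (nat_lit 0) (nat_lit 108364740098) (nat_lit 76) (nat_lit 507872688164) (nat_lit 76) (nat_lit 97660147941) (nat_lit 6) (nat_lit 4) (nat_lit 7) (nat_lit 5) (nat_lit 7) (nat_lit 4)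 (nat_lit 319) (nat_lit 280) (nat_lit 121)))) (XT.nd (nat_lit 156) (nat_lit 0) (nat_lit 0) (XT.nd (nat_lit 78) (nat_lit 76) (nat_lit 0) (XT.lf (nat_lit 0) (nat_lit 279512986597) (nat_lit 76) (nat_lit 446970872987) (nat_lit 76) (nat_lit 36758185431) (nat_lit 6) (nat_lit 4) (nat_lit 7) (nat_lit 5) (nat_lit 7) (nat_lit 4) (nat_lit 320) (nat_lit 280) (nat_lit 120)) (XT.lf (nat_lit 0) (nat_lit 27564372823) (nat_lit 152) (nat_lit 352878928501) (nat_lit 76) (nat_lit 436034948803) (nat_lit 5) (nat_lit 5) (nat_lit 7) (nat_lit 5) (nat_lit 6) (nat_lit 4) (nat_lit 321) (nat_lit 280) (nat_lit 119))) (XT.nd (nat_lit 78) (nat_lit 0) (nat_lit 0) (XT.lf (nat_lit 0) (nat_lit 95046777192) (nat_lit 152) (nat_lit 212515653728) (nat_lit 76) (nat_lit 566334545183) (nat_lit 5) (nat_lit 5) (nat_lit 7) (nat_lit 5) (nat_lit 6) (nat_lit 4) (nat_lit 322) (nat_lit 280) (nat_lit 118)) (XT.lf (nat_lit 0) (nat_lit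 167927716711) (nat_lit 152) (nat_lit 60923416487) (nat_lit 76) (nat_lit 707058071682) (nat_lit 5) (nat_lit 5) (nat_lit 7) (nat_lit 5) (nat_lit 6) (nat_lit 4) (nat_lit 323) (nat_lit 280) (nat_lit 117))))))))
noncomputable def xc112 : XT := (XT.nd (nat_lit 35568) (nat_lit 0) (nat_lit 76) (XT.nd (nat_lit 34632) (nat_lit 0) (nat_lit 1216) (XT.nd (nat_lit 34164) (nat_lit 0) (nat_lit 2128) (XT.nd (nat_lit 234) (nat_lit 0) (nat_lit 0) (XT.nd (nat_lit 78) (nat_lit 0) (nat_lit 0) (XT.lf (nat_lit 0) (nat_lit 108209168447) (nat_lit 76) (nat_lit 141032343085) (nat_lit 152) (nat_lit 753432710150) (nat_lit 4) (nat_lit 5) (nat_lit 5) (nat_lit 5) (nat_lit 6) (nat_lit 4) (nat_lit 324) (nat_lit 280) (nat_lit 116)) (XT.nd (nat_lit 78) (nat_lit 0) (nat_lit 0) (XT.lf (nat_lit 0) (nat_lit 294337039046) (nat_lit 76) (nat_lit 44389073867) (nat_lit 152) (nat_lit 735921070803) (nat_lit 4) (nat_lit 5) (nat_lit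 5) (nat_lit 5) (nat_lit 6) (nat_lit 4) (nat_lit 325) (nat_lit 280) (nat_lit 115)) (XT.lf (nat_lit 0) (nat_lit 436812090628) (nat_lit 152) (nat_lit 658465586117) (nat_lit 0) (nat_lit 56984897425) (nat_lit 4) (nat_lit 5) (nat_lit 6) (nat_lit 4) (nat_lit 4) (nat_lit 4) (nat_lit 326) (nat_lit 280) (nat_lit 114)))) (XT.nd (nat_lit 78) (nat_lit 0) (nat_lit 0) (XT.lf (nat_lit 0) (nat_lit 543897864827) (nat_lit 152) (nat_lit 528026505657) (nat_lit 0) (nat_lit 164070592025) (nat_lit 4) (nat_lit 5) (nat_lit 6) (nat_lit 4) (nat_lit 4) (nat_lit 4) (nat_lit 327) (nat_lit 280) (nat_lit 113)) (XT.nd (nat_lit 78) (nat_lit 0) (nat_lit 0) (XT.lf (nat_lit 0) (nat_lit 659550459581) (nat_lit 152) (nat_lit 387152372667) (nat_lit 0) (nat_lit 279723113075) (nat_lit 4) (nat_lit 5) (nat_lit 6) (nat_lit 4) (nat_lit 4) (nat_lit 4) (nat_lit 328) (nat_lit 280) (nat_lit 112)) (XT.lf (nat_lit 0) (nat_lit 784455223599)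 (nat_lit 152) (nat_lit 235008377470) (nat_lit 0) (nat_lit 404627808850) (nat_lit 4) (nat_lit 5) (nat_lit 6) (nat_lit 4) (nat_lit 4) (nat_lit 4) (nat_lit 329) (nat_lit 280) (nat_lit 111))))) (XT.nd (nat_lit 234) (nat_lit 0) (nat_lit 76) (XT.nd (nat_lit 78) (nat_lit 0) (nat_lit 0) (XT.lf (nat_lit 0) (nat_lit 11685850478) (nat_lit 532) (nat_lit 18276653487) (nat_lit 532) (nat_lit 18276653487) (nat_lit 32) (nat_lit 3) (nat_lit 39) (nat_lit 3) (nat_lit 39) (nat_lit 5) (nat_lit 281) (nat_lit 281) (nat_lit 158)) (XT.nd (nat_lit 78) (nat_lit 0) (nat_lit 76) (XT.lf (nat_lit 76) (nat_lit 3481688919) (nat_lit 0) (nat_lit 20914802269) (nat_lit 532) (nat_lit 75933722561) (nat_lit 33) (nat_lit 5) (nat_lit 32) (nat_lit 3) (nat_lit 39) (nat_lit 5) (nat_lit 282) (nat_lit 281) (nat_lit 157)) (XT.lf (nat_lit 0) (nat_lit 27038285724) (nat_lit 456) (nat_lit 56148631135) (nat_lit 532) (nat_lit 21180549953)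 (nat_lit 33) (nat_lit 5) (nat_lit 39) (nat_lit 5) (nat_lit 40) (nat_lit 5) (nat_lit 283) (nat_lit 281) (nat_lit 156)))) (XT.nd (nat_lit 78) (nat_lit 0) (nat_lit 76) (XT.lf (nat_lit 0) (nat_lit 30434090458) (nat_lit 456) (nat_lit 12736371613) (nat_lit 532) (nat_lit 65513828421) (nat_lit 33) (nat_lit 5) (nat_lit 39) (nat_lit 5) (nat_lit 40) (nat_lit 5) (nat_lit 284) (nat_lit 281) (nat_lit 155)) (XT.nd (nat_lit 78) (nat_lit 0) (nat_lit 0) (XT.lf (nat_lit 0) (nat_lit 34989143581) (nat_lit 456) (nat_lit 77354228381) (nat_lit 532) (nat_lit 932084814) (nat_lit 34) (nat_lit 5) (nat_lit 40) (nat_lit 5) (nat_lit 41) (nat_lit 5) (nat_lit 285) (nat_lit 281) (nat_lit 154)) (XT.lf (nat_lit 0) (nat_lit 41386694122) (nat_lit 456) (nat_lit 30141041788) (nat_lit 532) (nat_lit 46587936174) (nat_lit 34) (nat_lit 5) (nat_lit 40) (nat_lit 5) (nat_lit 41) (nat_lit 5) (nat_lit 286) (nat_lit 281) (nat_lit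 153)))))) (XT.nd (nat_lit 468) (nat_lit 456) (nat_lit 0) (XT.nd (nat_lit 234) (nat_lit 228) (nat_lit 0) (XT.nd (nat_lit 78) (nat_lit 380) (nat_lit 0) (XT.lf (nat_lit 76) (nat_lit 21946698006) (nat_lit 0) (nat_lit 26876708601) (nat_lit 532) (nat_lit 74477512316) (nat_lit 35) (nat_lit 5) (nat_lit 34) (nat_lit 5) (nat_lit 41) (nat_lit 5) (nat_lit 287) (nat_lit 281) (nat_lit 152)) (XT.nd (nat_lit 78) (nat_lit 456) (nat_lit 0) (XT.lf (nat_lit 0) (nat_lit 58213519278) (nat_lit 456) (nat_lit 49454633583) (nat_lit 76) (nat_lit 21124158317) (nat_lit 35) (nat_lit 5) (nat_lit 41) (nat_lit 5) (nat_lit 36) (nat_lit 5) (nat_lit 288) (nat_lit 281) (nat_lit 151)) (XT.lf (nat_lit 0) (nat_lit 6209061370) (nat_lit 456) (nat_lit 62992802876) (nat_lit 532) (nat_lit 65453391225) (nat_lit 29) (nat_lit 5) (nat_lit 35) (nat_lit 5) (nat_lit 36) (nat_lit 5) (nat_lit 289) (nat_lit 281) (nat_lit 150)))) (XT.nd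 (nat_lit 78) (nat_lit 228) (nat_lit 0) (XT.lf (nat_lit 0) (nat_lit 69138024566) (nat_lit 456) (nat_lit 13283049598) (nat_lit 532) (nat_lit 58458019689) (nat_lit 29) (nat_lit 5) (nat_lit 35) (nat_lit 5) (nat_lit 36) (nat_lit 5) (nat_lit 290) (nat_lit 281) (nat_lit 149)) (XT.nd (nat_lit 78) (nat_lit 228) (nat_lit 0) (XT.lf (nat_lit 0) (nat_lit 97669174339) (nat_lit 532) (nat_lit 11471599888) (nat_lit 76) (nat_lit 38382358962) (nat_lit 29) (nat_lit 5) (nat_lit 36) (nat_lit 5) (nat_lit 30) (nat_lit 5) (nat_lit 291) (nat_lit 281) (nat_lit 148)) (XT.lf (nat_lit 0) (nat_lit 56079397446) (nat_lit 228) (nat_lit 59751124940) (nat_lit 304) (nat_lit 38732703298) (nat_lit 26) (nat_lit 5) (nat_lit 29) (nat_lit 5) (nat_lit 30) (nat_lit 5) (nat_lit 292) (nat_lit 281) (nat_lit 147))))) (XT.nd (nat_lit 234) (nat_lit 228) (nat_lit 0) (XT.nd (nat_lit 78) (nat_lit 228) (nat_lit 0) (XT.lf (nat_lit 0) (nat_lit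 129686549147) (nat_lit 228) (nat_lit 6071573994) (nat_lit 304) (nat_lit 26383336702) (nat_lit 26) (nat_lit 5) (nat_lit 29) (nat_lit 5) (nat_lit 30) (nat_lit 5) (nat_lit 293) (nat_lit 281) (nat_lit 146)) (XT.nd (nat_lit 78) (nat_lit 76) (nat_lit 0) (XT.lf (nat_lit 0) (nat_lit 39588099151) (nat_lit 152) (nat_lit 119891893607) (nat_lit 228) (nat_lit 10669956828) (nat_lit 24) (nat_lit 5) (nat_lit 26) (nat_lit 5) (nat_lit 27) (nat_lit 5) (nat_lit 294) (nat_lit 281) (nat_lit 145)) (XT.lf (nat_lit 0) (nat_lit 7053162433) (nat_lit 228) (nat_lit 59820451796) (nat_lit 76) (nat_lit 111827955972) (nat_lit 23) (nat_lit 5) (nat_lit 26) (nat_lit 5) (nat_lit 24) (nat_lit 5) (nat_lit 295) (nat_lit 281) (nat_lit 144)))) (XT.nd (nat_lit 78) (nat_lit 0) (nat_lit 0) (XT.lf (nat_lit 0) (nat_lit 17161285043) (nat_lit 228) (nat_lit 8868860058) (nat_lit 304) (nat_lit 161852007893) (nat_lit 20) (nat_lit 5)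 (nat_lit 23) (nat_lit 5) (nat_lit 24) (nat_lit 5) (nat_lit 296) (nat_lit 281) (nat_lit 143)) (XT.nd (nat_lit 78) (nat_lit 0) (nat_lit 0) (XT.lf (nat_lit 0) (nat_lit 49496437443) (nat_lit 304) (nat_lit 95298856445) (nat_lit 76) (nat_lit 52764197699) (nat_lit 20) (nat_lit 5) (nat_lit 24) (nat_lit 5) (nat_lit 21) (nat_lit 5) (nat_lit 297) (nat_lit 281) (nat_lit 142)) (XT.lf (nat_lit 0) (nat_lit 75070161840) (nat_lit 304) (nat_lit 14073741239) (nat_lit 76) (nat_lit 118848705062) (nat_lit 20) (nat_lit 5) (nat_lit 24) (nat_lit 5) (nat_lit 21) (nat_lit 5) (nat_lit 298) (nat_lit 281) (nat_lit 141))))))) (XT.nd (nat_lit 936) (nat_lit 456) (nat_lit 0) (XT.nd (nat_lit 468) (nat_lit 228) (nat_lit 0) (XT.nd (nat_lit 234) (nat_lit 152) (nat_lit 0) (XT.nd (nat_lit 78) (nat_lit 152) (nat_lit 0) (XT.lf (nat_lit 0) (nat_lit 77527339486) (nat_lit 152) (nat_lit 27026764884) (nat_lit 228) (nat_lit 114557125117)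 (nat_lit 18) (nat_lit 5) (nat_lit 20) (nat_lit 5) (nat_lit 21) (nat_lit 5) (nat_lit 299) (nat_lit 281) (nat_lit 140)) (XT.nd (nat_lit 78) (nat_lit 152) (nat_lit 0) (XT.lf (nat_lit 0) (nat_lit 137754789668) (nat_lit 228) (nat_lit 54805380395) (nat_lit 76) (nat_lit 38450529288) (nat_lit 18) (nat_lit 5) (nat_lit 21) (nat_lit 5) (nat_lit 19) (nat_lit 5) (nat_lit 300) (nat_lit 281) (nat_lit 139)) (XT.lf (nat_lit 0) (nat_lit 40225389954) (nat_lit 152) (nat_lit 135055364298) (nat_lit 228) (nat_lit 68447835523) (nat_lit 16) (nat_lit 5) (nat_lit 18) (nat_lit 5) (nat_lit 19) (nat_lit 5) (nat_lit 301) (nat_lit 281) (nat_lit 138)))) (XT.nd (nat_lit 78) (nat_lit 152) (nat_lit 0) (XT.lf (nat_lit 0) (nat_lit 145975196087) (nat_lit 152) (nat_lit 71331893097) (nat_lit 228) (nat_lit 40036959653) (nat_lit 16) (nat_lit 5) (nat_lit 18) (nat_lit 5) (nat_lit 19) (nat_lit 5) (nat_lit 302) (nat_lit 281) (nat_lit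 137)) (XT.nd (nat_lit 78) (nat_lit 152) (nat_lit 0) (XT.lf (nat_lit 0) (nat_lit 260184749310) (nat_lit 152) (nat_lit 2510612116) (nat_lit 228) (nat_lit 9353397550) (nat_lit 16) (nat_lit 5) (nat_lit 18) (nat_lit 5) (nat_lit 19) (nat_lit 5) (nat_lit 303) (nat_lit 281) (nat_lit 136)) (XT.lf (nat_lit 0) (nat_lit 26805199799) (nat_lit 152) (nat_lit 189463141030) (nat_lit 76) (nat_lit 71278930500) (nat_lit 14) (nat_lit 5) (nat_lit 16) (nat_lit 5) (nat_lit 15) (nat_lit 5) (nat_lit 304) (nat_lit 281) (nat_lit 135))))) (XT.nd (nat_lit 234) (nat_lit 76) (nat_lit 0) (XT.nd (nat_lit 78) (nat_lit 152) (nat_lit 0) (XT.lf (nat_lit 0) (nat_lit 65749021078) (nat_lit 152) (nat_lit 87073692063) (nat_lit 76) (nat_lit 151411687525) (nat_lit 14) (nat_lit 5) (nat_lit 16) (nat_lit 5) (nat_lit 15) (nat_lit 5) (nat_lit 305) (nat_lit 281) (nat_lit 134)) (XT.nd (nat_lit 78) (nat_lit 0) (nat_lit 0) (XT.lf (nat_lit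 0) (nat_lit 24744516519) (nat_lit 152) (nat_lit 83658792634) (nat_lit 228) (nat_lit 213805594892) (nat_lit 12) (nat_lit 5) (nat_lit 14) (nat_lit 5) (nat_lit 15) (nat_lit 5) (nat_lit 306) (nat_lit 281) (nat_lit 133)) (XT.lf (nat_lit 0) (nat_lit 150459928075) (nat_lit 152) (nat_lit 6390621783) (nat_lit 228) (nat_lit 184580369611) (nat_lit 12) (nat_lit 5) (nat_lit 14) (nat_lit 5) (nat_lit 15) (nat_lit 5) (nat_lit 307) (nat_lit 281) (nat_lit 132)))) (XT.nd (nat_lit 78) (nat_lit 76) (nat_lit 0) (XT.lf (nat_lit 0) (nat_lit 211026709945) (nat_lit 228) (nat_lit 77811599713) (nat_lit 76) (nat_lit 73204135760) (nat_lit 12) (nat_lit 5) (nat_lit 15) (nat_lit 5) (nat_lit 13) (nat_lit 4) (nat_lit 308) (nat_lit 281) (nat_lit 131)) (XT.nd (nat_lit 78) (nat_lit 0) (nat_lit 0) (XT.lf (nat_lit 0) (nat_lit 46563666227) (nat_lit 76) (nat_lit 224259023021) (nat_lit 152) (nat_lit 113377346546) (nat_lit 11)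 (nat_lit 5) (nat_lit 12) (nat_lit 5) (nat_lit 13) (nat_lit 4) (nat_lit 309) (nat_lit 281) (nat_lit 130)) (XT.lf (nat_lit 0) (nat_lit 185313982811) (nat_lit 76) (nat_lit 152215754568) (nat_lit 152) (nat_lit 70430305212) (nat_lit 11) (nat_lit 5) (nat_lit 12) (nat_lit 5) (nat_lit 13) (nat_lit 4) (nat_lit 310) (nat_lit 281) (nat_lit 129)))))) (XT.nd (nat_lit 468) (nat_lit 152) (nat_lit 0) (XT.nd (nat_lit 234) (nat_lit 76) (nat_lit 0) (XT.nd (nat_lit 78) (nat_lit 228) (nat_lit 0) (XT.lf (nat_lit 0) (nat_lit 335164153188) (nat_lit 76) (nat_lit 74409088257) (nat_lit 152) (nat_lit 24047617516) (nat_lit 11) (nat_lit 5) (nat_lit 12) (nat_lit 5) (nat_lit 13) (nat_lit 4) (nat_lit 311) (nat_lit 281) (nat_lit 128)) (XT.nd (nat_lit 78) (nat_lit 0) (nat_lit 0) (XT.lf (nat_lit 0) (nat_lit 25900514194) (nat_lit 228) (nat_lit 424597748565) (nat_lit 76) (nat_lit 10693547102) (nat_lit 8) (nat_lit 5) (nat_lit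 11) (nat_lit 5) (nat_lit 9) (nat_lit 4) (nat_lit 312) (nat_lit 281) (nat_lit 127)) (XT.lf (nat_lit 0) (nat_lit 83239805892) (nat_lit 228) (nat_lit 305332274337) (nat_lit 76) (nat_lit 101970827412) (nat_lit 8) (nat_lit 5) (nat_lit 11) (nat_lit 5) (nat_lit 9) (nat_lit 4) (nat_lit 313) (nat_lit 281) (nat_lit 126)))) (XT.nd (nat_lit 78) (nat_lit 76) (nat_lit 0) (XT.lf (nat_lit 0) (nat_lit 145166147797) (nat_lit 228) (nat_lit 176525716973) (nat_lit 76) (nat_lit 200550236215) (nat_lit 8) (nat_lit 5) (nat_lit 11) (nat_lit 5) (nat_lit 9) (nat_lit 4) (nat_lit 314) (nat_lit 281) (nat_lit 125)) (XT.nd (nat_lit 78) (nat_lit 76) (nat_lit 0) (XT.lf (nat_lit 0) (nat_lit 212046510825) (nat_lit 228) (nat_lit 37414778356) (nat_lit 76) (nat_lit 307015947785) (nat_lit 8) (nat_lit 5) (nat_lit 11) (nat_lit 5) (nat_lit 9) (nat_lit 4) (nat_lit 315) (nat_lit 281) (nat_lit 124)) (XT.lf (nat_lit 0) (nat_lit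 118766062062) (nat_lit 76) (nat_lit 168367487640) (nat_lit 152) (nat_lit 306089134630) (nat_lit 7) (nat_lit 5) (nat_lit 8) (nat_lit 5) (nat_lit 9) (nat_lit 4) (nat_lit 316) (nat_lit 281) (nat_lit 123))))) (XT.nd (nat_lit 234) (nat_lit 152) (nat_lit 0) (XT.nd (nat_lit 78) (nat_lit 0) (nat_lit 0) (XT.lf (nat_lit 0) (nat_lit 289569051953) (nat_lit 76) (nat_lit 79681409041) (nat_lit 152) (nat_lit 263575473979) (nat_lit 7) (nat_lit 5) (nat_lit 8) (nat_lit 5) (nat_lit 9) (nat_lit 4) (nat_lit 317) (nat_lit 281) (nat_lit 122)) (XT.nd (nat_lit 78) (nat_lit 0) (nat_lit 0) (XT.lf (nat_lit 0) (nat_lit 458323847398) (nat_lit 152) (nat_lit 201948483868) (nat_lit 0) (nat_lit 15294144838) (nat_lit 7) (nat_lit 5) (nat_lit 9) (nat_lit 4) (nat_lit 7) (nat_lit 4) (nat_lit 318) (nat_lit 281) (nat_lit 121)) (XT.lf (nat_lit 0) (nat_lit 556592684575) (nat_lit 152) (nat_lit 51405175080) (nat_lit 0) (nat_lit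 113562834681) (nat_lit 7) (nat_lit 5) (nat_lit 9) (nat_lit 4) (nat_lit 7) (nat_lit 4) (nat_lit 319) (nat_lit 281) (nat_lit 120)))) (XT.nd (nat_lit 78) (nat_lit 76) (nat_lit 0) (XT.lf (nat_lit 0) (nat_lit 117036111963) (nat_lit 76) (nat_lit 548501575914) (nat_lit 76) (nat_lit 105471589601) (nat_lit 6) (nat_lit 4) (nat_lit 7) (nat_lit 5) (nat_lit 7) (nat_lit 4) (nat_lit 320) (nat_lit 281) (nat_lit 119)) (XT.nd (nat_lit 78) (nat_lit 76) (nat_lit 0) (XT.lf (nat_lit 0) (nat_lit 301876055763) (nat_lit 76) (nat_lit 482727684212) (nat_lit 76) (nat_lit 39697571585) (nat_lit 6) (nat_lit 4) (nat_lit 7) (nat_lit 5) (nat_lit 7) (nat_lit 4) (nat_lit 321) (nat_lit 281) (nat_lit 118)) (XT.lf (nat_lit 0) (nat_lit 29770638590) (nat_lit 152) (nat_lit 381107301316) (nat_lit 76) (nat_lit 470918478105) (nat_lit 5) (nat_lit 5) (nat_lit 7) (nat_lit 5) (nat_lit 6) (nat_lit 4) (nat_lit 322) (nat_lit 281) (nat_lit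 117))))))))
noncomputable def xc113 : XT := (XT.nd (nat_lit 35646) (nat_lit 0) (nat_lit 76) (XT.nd (nat_lit 34710) (nat_lit 0) (nat_lit 1216) (XT.nd (nat_lit 468) (nat_lit 0) (nat_lit 0) (XT.nd (nat_lit 234) (nat_lit 0) (nat_lit 0) (XT.nd (nat_lit 78) (nat_lit 76) (nat_lit 0) (XT.lf (nat_lit 0) (nat_lit 102651552646) (nat_lit 152) (nat_lit 229515108374) (nat_lit 76) (nat_lit 611641987870) (nat_lit 5) (nat_lit 5) (nat_lit 7) (nat_lit 5) (nat_lit 6) (nat_lit 4) (nat_lit 323) (nat_lit 281) (nat_lit 116)) (XT.nd (nat_lit 78) (nat_lit 76) (nat_lit 0) (XT.lf (nat_lit 0) (nat_lit 181362890788) (nat_lit 152) (nat_lit 65795625312) (nat_lit 76) (nat_lit 763623346187) (nat_lit 5) (nat_lit 5) (nat_lit 7) (nat_lit 5) (nat_lit 6) (nat_lit 4) (nat_lit 324) (nat_lit 281) (nat_lit 115)) (XT.lf (nat_lit 0) (nat_lit 116867524277) (nat_lit 76) (nat_lit 152314233065) (nat_lit 152) (nat_lit 813706325820)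 (nat_lit 4) (nat_lit 5) (nat_lit 5) (nat_lit 5) (nat_lit 6) (nat_lit 4) (nat_lit 325) (nat_lit 281) (nat_lit 114)))) (XT.nd (nat_lit 78) (nat_lit 0) (nat_lit 0) (XT.lf (nat_lit 0) (nat_lit 317885504349) (nat_lit 76) (nat_lit 47939553974) (nat_lit 152) (nat_lit 794793829484) (nat_lit 4) (nat_lit 5) (nat_lit 5) (nat_lit 5) (nat_lit 6) (nat_lit 4) (nat_lit 326) (nat_lit 281) (nat_lit 113)) (XT.nd (nat_lit 78) (nat_lit 0) (nat_lit 0) (XT.lf (nat_lit 0) (nat_lit 471757865201) (nat_lit 152) (nat_lit 711141391104) (nat_lit 0) (nat_lit 61544257272) (nat_lit 4) (nat_lit 5) (nat_lit 6) (nat_lit 4) (nat_lit 4) (nat_lit 4) (nat_lit 327) (nat_lit 281) (nat_lit 112)) (XT.lf (nat_lit 0) (nat_lit 587410441534) (nat_lit 152) (nat_lit 570267291015) (nat_lit 0) (nat_lit 177196765361) (nat_lit 4) (nat_lit 5) (nat_lit 6) (nat_lit 4) (nat_lit 4) (nat_lit 4) (nat_lit 328) (nat_lit 281) (nat_lit 111)))))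 (XT.nd (nat_lit 34008) (nat_lit 0) (nat_lit 2204) (XT.nd (nat_lit 33852) (nat_lit 0) (nat_lit 2128) (XT.lf (nat_lit 0) (nat_lit 712315188496) (nat_lit 152) (nat_lit 418123326281) (nat_lit 0) (nat_lit 302101449135) (nat_lit 4) (nat_lit 5) (nat_lit 6) (nat_lit 4) (nat_lit 4) (nat_lit 4) (nat_lit 329) (nat_lit 281) (nat_lit 110)) (XT.nd (nat_lit 78) (nat_lit 0) (nat_lit 0) (XT.lf (nat_lit 0) (nat_lit 12626757198) (nat_lit 532) (nat_lit 19735505369) (nat_lit 532) (nat_lit 19735505369) (nat_lit 32) (nat_lit 3) (nat_lit 39) (nat_lit 3) (nat_lit 39) (nat_lit 5) (nat_lit 282) (nat_lit 282) (nat_lit 156)) (XT.lf (nat_lit 76) (nat_lit 3766618730) (nat_lit 0) (nat_lit 22592928291) (nat_lit 532) (nat_lit 81996104652) (nat_lit 33) (nat_lit 5) (nat_lit 32) (nat_lit 3) (nat_lit 39) (nat_lit 5) (nat_lit 283) (nat_lit 282) (nat_lit 155)))) (XT.nd (nat_lit 78) (nat_lit 0) (nat_lit 0) (XT.lf (nat_lit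 0) (nat_lit 29211735329) (nat_lit 456) (nat_lit 60633583917) (nat_lit 532) (nat_lit 22870647070) (nat_lit 33) (nat_lit 5) (nat_lit 39) (nat_lit 5) (nat_lit 40) (nat_lit 5) (nat_lit 284) (nat_lit 282) (nat_lit 154)) (XT.nd (nat_lit 78) (nat_lit 0) (nat_lit 76) (XT.lf (nat_lit 0) (nat_lit 32878435053) (nat_lit 456) (nat_lit 13748857538) (nat_lit 532) (nat_lit 70750909807) (nat_lit 33) (nat_lit 5) (nat_lit 39) (nat_lit 5) (nat_lit 40) (nat_lit 5) (nat_lit 285) (nat_lit 282) (nat_lit 153)) (XT.lf (nat_lit 0) (nat_lit 37797263406) (nat_lit 456) (nat_lit 83535456470) (nat_lit 532) (nat_lit 1003997018) (nat_lit 34) (nat_lit 5) (nat_lit 40) (nat_lit 5) (nat_lit 41) (nat_lit 5) (nat_lit 286) (nat_lit 282) (nat_lit 152)))))) (XT.nd (nat_lit 468) (nat_lit 684) (nat_lit 0) (XT.nd (nat_lit 234) (nat_lit 380) (nat_lit 0) (XT.nd (nat_lit 78) (nat_lit 0) (nat_lit 0) (XT.lf (nat_lit 0) (nat_lit 44705952187)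 (nat_lit 456) (nat_lit 32545741629) (nat_lit 532) (nat_lit 50312513123) (nat_lit 34) (nat_lit 5) (nat_lit 40) (nat_lit 5) (nat_lit 41) (nat_lit 5) (nat_lit 287) (nat_lit 282) (nat_lit 151)) (XT.nd (nat_lit 78) (nat_lit 0) (nat_lit 76) (XT.lf (nat_lit 76) (nat_lit 23708850677) (nat_lit 0) (nat_lit 29028288835) (nat_lit 532) (nat_lit 80427174921) (nat_lit 35) (nat_lit 5) (nat_lit 34) (nat_lit 5) (nat_lit 41) (nat_lit 5) (nat_lit 288) (nat_lit 282) (nat_lit 150)) (XT.lf (nat_lit 0) (nat_lit 62877846801) (nat_lit 456) (nat_lit 53404402832) (nat_lit 76) (nat_lit 22812821229) (nat_lit 35) (nat_lit 5) (nat_lit 41) (nat_lit 5) (nat_lit 36) (nat_lit 5) (nat_lit 289) (nat_lit 282) (nat_lit 149)))) (XT.nd (nat_lit 78) (nat_lit 0) (nat_lit 0) (XT.lf (nat_lit 0) (nat_lit 6712220592) (nat_lit 456) (nat_lit 68032656781) (nat_lit 532) (nat_lit 70682207258) (nat_lit 29) (nat_lit 5) (nat_lit 35) (nat_lit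 5) (nat_lit 36) (nat_lit 5) (nat_lit 290) (nat_lit 282) (nat_lit 148)) (XT.nd (nat_lit 78) (nat_lit 0) (nat_lit 0) (XT.lf (nat_lit 0) (nat_lit 74675024228) (nat_lit 456) (nat_lit 14346091412) (nat_lit 532) (nat_lit 63127758241) (nat_lit 29) (nat_lit 5) (nat_lit 35) (nat_lit 5) (nat_lit 36) (nat_lit 5) (nat_lit 291) (nat_lit 282) (nat_lit 147)) (XT.lf (nat_lit 0) (nat_lit 105488584189) (nat_lit 532) (nat_lit 12383295708) (nat_lit 76) (nat_lit 41452597730) (nat_lit 29) (nat_lit 5) (nat_lit 36) (nat_lit 5) (nat_lit 30) (nat_lit 5) (nat_lit 292) (nat_lit 282) (nat_lit 146))))) (XT.nd (nat_lit 234) (nat_lit 304) (nat_lit 0) (XT.nd (nat_lit 78) (nat_lit 152) (nat_lit 0) (XT.lf (nat_lit 0) (nat_lit 60571628700) (nat_lit 228) (nat_lit 64530917530) (nat_lit 304) (nat_lit 41825257479) (nat_lit 26) (nat_lit 5) (nat_lit 29) (nat_lit 5) (nat_lit 30) (nat_lit 5) (nat_lit 293) (nat_lit 282) (nat_lit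 145)) (XT.nd (nat_lit 78) (nat_lit 152) (nat_lit 0) (XT.lf (nat_lit 0) (nat_lit 140066917021) (nat_lit 228) (nat_lit 6557024537) (nat_lit 304) (nat_lit 28488390598) (nat_lit 26) (nat_lit 5) (nat_lit 29) (nat_lit 5) (nat_lit 30) (nat_lit 5) (nat_lit 294) (nat_lit 282) (nat_lit 144)) (XT.lf (nat_lit 0) (nat_lit 42760879970) (nat_lit 152) (nat_lit 129482441926) (nat_lit 228) (nat_lit 11518200586) (nat_lit 24) (nat_lit 5) (nat_lit 26) (nat_lit 5) (nat_lit 27) (nat_lit 5) (nat_lit 295) (nat_lit 282) (nat_lit 143)))) (XT.nd (nat_lit 78) (nat_lit 228) (nat_lit 0) (XT.lf (nat_lit 0) (nat_lit 7622123780) (nat_lit 228) (nat_lit 64600507178) (nat_lit 76) (nat_lit 120774663591) (nat_lit 23) (nat_lit 5) (nat_lit 26) (nat_lit 5) (nat_lit 24) (nat_lit 5) (nat_lit 296) (nat_lit 282) (nat_lit 142)) (XT.nd (nat_lit 78) (nat_lit 0) (nat_lit 0) (XT.lf (nat_lit 0) (nat_lit 18539627323) (nat_lit 228) (nat_lit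 9577419791) (nat_lit 304) (nat_lit 174795296110) (nat_lit 20) (nat_lit 5) (nat_lit 23) (nat_lit 5) (nat_lit 24) (nat_lit 5) (nat_lit 297) (nat_lit 282) (nat_lit 141)) (XT.lf (nat_lit 0) (nat_lit 53460331355) (nat_lit 304) (nat_lit 102917395830) (nat_lit 76) (nat_lit 56986168325) (nat_lit 20) (nat_lit 5) (nat_lit 24) (nat_lit 5) (nat_lit 21) (nat_lit 5) (nat_lit 298) (nat_lit 282) (nat_lit 140))))))) (XT.nd (nat_lit 936) (nat_lit 456) (nat_lit 0) (XT.nd (nat_lit 468) (nat_lit 380) (nat_lit 0) (XT.nd (nat_lit 234) (nat_lit 152) (nat_lit 0) (XT.nd (nat_lit 78) (nat_lit 152) (nat_lit 0) (XT.lf (nat_lit 0) (nat_lit 81079644155) (nat_lit 304) (nat_lit 15194669122) (nat_lit 76) (nat_lit 128357374439) (nat_lit 20) (nat_lit 5) (nat_lit 24) (nat_lit 5) (nat_lit 21) (nat_lit 5) (nat_lit 299) (nat_lit 282) (nat_lit 139)) (XT.nd (nat_lit 78) (nat_lit 0) (nat_lit 0) (XT.lf (nat_lit 0) (nat_lit 83734372203)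 (nat_lit 152) (nat_lit 29187759800) (nat_lit 228) (nat_lit 123717681819) (nat_lit 18) (nat_lit 5) (nat_lit 20) (nat_lit 5) (nat_lit 21) (nat_lit 5) (nat_lit 300) (nat_lit 282) (nat_lit 138)) (XT.lf (nat_lit 0) (nat_lit 148778623630) (nat_lit 228) (nat_lit 59185058962) (nat_lit 76) (nat_lit 41527579903) (nat_lit 18) (nat_lit 5) (nat_lit 21) (nat_lit 5) (nat_lit 19) (nat_lit 5) (nat_lit 301) (nat_lit 282) (nat_lit 137)))) (XT.nd (nat_lit 78) (nat_lit 0) (nat_lit 0) (XT.lf (nat_lit 0) (nat_lit 43448052715) (nat_lit 152) (nat_lit 145858468440) (nat_lit 228) (nat_lit 73920075775) (nat_lit 16) (nat_lit 5) (nat_lit 18) (nat_lit 5) (nat_lit 19) (nat_lit 5) (nat_lit 302) (nat_lit 282) (nat_lit 136)) (XT.nd (nat_lit 78) (nat_lit 0) (nat_lit 0) (XT.lf (nat_lit 0) (nat_lit 157657500259) (nat_lit 152) (nat_lit 77037217692) (nat_lit 228) (nat_lit 43236595508) (nat_lit 16) (nat_lit 5) (nat_lit 18)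 (nat_lit 5) (nat_lit 19) (nat_lit 5) (nat_lit 303) (nat_lit 282) (nat_lit 135)) (XT.lf (nat_lit 0) (nat_lit 281003500076) (nat_lit 152) (nat_lit 2710325110) (nat_lit 228) (nat_lit 10098594430) (nat_lit 16) (nat_lit 5) (nat_lit 18) (nat_lit 5) (nat_lit 19) (nat_lit 5) (nat_lit 304) (nat_lit 282) (nat_lit 134))))) (XT.nd (nat_lit 234) (nat_lit 76) (nat_lit 0) (XT.nd (nat_lit 78) (nat_lit 152) (nat_lit 0) (XT.lf (nat_lit 0) (nat_lit 28952447077) (nat_lit 152) (nat_lit 204615954162) (nat_lit 76) (nat_lit 76982413898) (nat_lit 14) (nat_lit 5) (nat_lit 16) (nat_lit 5) (nat_lit 15) (nat_lit 5) (nat_lit 305) (nat_lit 282) (nat_lit 133)) (XT.nd (nat_lit 78) (nat_lit 152) (nat_lit 0) (XT.lf (nat_lit 0) (nat_lit 71011564332) (nat_lit 152) (nat_lit 94035663215) (nat_lit 76) (nat_lit 163525704895) (nat_lit 14) (nat_lit 5) (nat_lit 16) (nat_lit 5) (nat_lit 15) (nat_lit 5) (nat_lit 306) (nat_lit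 282) (nat_lit 132)) (XT.lf (nat_lit 0) (nat_lit 26727902706) (nat_lit 152) (nat_lit 90350190545) (nat_lit 228) (nat_lit 230907311799) (nat_lit 12) (nat_lit 5) (nat_lit 14) (nat_lit 5) (nat_lit 15) (nat_lit 5) (nat_lit 307) (nat_lit 282) (nat_lit 131)))) (XT.nd (nat_lit 78) (nat_lit 76) (nat_lit 0) (XT.lf (nat_lit 0) (nat_lit 162500263864) (nat_lit 152) (nat_lit 6900662730) (nat_lit 228) (nat_lit 199344270769) (nat_lit 12) (nat_lit 5) (nat_lit 14) (nat_lit 5) (nat_lit 15) (nat_lit 5) (nat_lit 308) (nat_lit 282) (nat_lit 130)) (XT.nd (nat_lit 78) (nat_lit 76) (nat_lit 0) (XT.lf (nat_lit 0) (nat_lit 227911033609) (nat_lit 228) (nat_lit 84033094232) (nat_lit 76) (nat_lit 79061529886) (nat_lit 12) (nat_lit 5) (nat_lit 15) (nat_lit 5) (nat_lit 13) (nat_lit 4) (nat_lit 309) (nat_lit 282) (nat_lit 129)) (XT.lf (nat_lit 0) (nat_lit 50292106061) (nat_lit 76) (nat_lit 242198503690) (nat_lit 152)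 (nat_lit 122445252724) (nat_lit 11) (nat_lit 5) (nat_lit 12) (nat_lit 5) (nat_lit 13) (nat_lit 4) (nat_lit 310) (nat_lit 282) (nat_lit 128)))))) (XT.nd (nat_lit 468) (nat_lit 228) (nat_lit 0) (XT.nd (nat_lit 234) (nat_lit 0) (nat_lit 0) (XT.nd (nat_lit 78) (nat_lit 228) (nat_lit 0) (XT.lf (nat_lit 0) (nat_lit 200142200080) (nat_lit 76) (nat_lit 164391865699) (nat_lit 152) (nat_lit 76062617086) (nat_lit 11) (nat_lit 5) (nat_lit 12) (nat_lit 5) (nat_lit 13) (nat_lit 4) (nat_lit 311) (nat_lit 282) (nat_lit 127)) (XT.nd (nat_lit 78) (nat_lit 228) (nat_lit 0) (XT.lf (nat_lit 0) (nat_lit 361980154559) (nat_lit 76) (nat_lit 80360751211) (nat_lit 152) (nat_lit 25969470859) (nat_lit 11) (nat_lit 5) (nat_lit 12) (nat_lit 5) (nat_lit 13) (nat_lit 4) (nat_lit 312) (nat_lit 282) (nat_lit 126)) (XT.lf (nat_lit 0) (nat_lit 27974372224) (nat_lit 228) (nat_lit 458562548316) (nat_lit 76) (nat_lit 11550083059)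 (nat_lit 8) (nat_lit 5) (nat_lit 11) (nat_lit 5) (nat_lit 9) (nat_lit 4) (nat_lit 313) (nat_lit 282) (nat_lit 125)))) (XT.nd (nat_lit 78) (nat_lit 0) (nat_lit 0) (XT.lf (nat_lit 0) (nat_lit 89900672673) (nat_lit 228) (nat_lit 329756059863) (nat_lit 76) (nat_lit 110129467854) (nat_lit 8) (nat_lit 5) (nat_lit 11) (nat_lit 5) (nat_lit 9) (nat_lit 4) (nat_lit 314) (nat_lit 282) (nat_lit 124)) (XT.nd (nat_lit 78) (nat_lit 0) (nat_lit 0) (XT.lf (nat_lit 0) (nat_lit 156780997315) (nat_lit 228) (nat_lit 190645185052) (nat_lit 76) (nat_lit 216595157195) (nat_lit 8) (nat_lit 5) (nat_lit 11) (nat_lit 5) (nat_lit 9) (nat_lit 4) (nat_lit 315) (nat_lit 282) (nat_lit 123)) (XT.lf (nat_lit 0) (nat_lit 229011674001) (nat_lit 228) (nat_lit 40405563144) (nat_lit 76) (nat_lit 331578058870) (nat_lit 8) (nat_lit 5) (nat_lit 11) (nat_lit 5) (nat_lit 9) (nat_lit 4) (nat_lit 316) (nat_lit 282) (nat_lit 122)))))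 (XT.nd (nat_lit 234) (nat_lit 152) (nat_lit 0) (XT.nd (nat_lit 78) (nat_lit 0) (nat_lit 0) (XT.lf (nat_lit 0) (nat_lit 128269683812) (nat_lit 76) (nat_lit 181835941537) (nat_lit 152) (nat_lit 330574758206) (nat_lit 7) (nat_lit 5) (nat_lit 8) (nat_lit 5) (nat_lit 9) (nat_lit 4) (nat_lit 317) (nat_lit 282) (nat_lit 121)) (XT.nd (nat_lit 78) (nat_lit 0) (nat_lit 0) (XT.lf (nat_lit 0) (nat_lit 312736739799) (nat_lit 76) (nat_lit 86055046659) (nat_lit 152) (nat_lit 284660116347) (nat_lit 7) (nat_lit 5) (nat_lit 8) (nat_lit 5) (nat_lit 9) (nat_lit 4) (nat_lit 318) (nat_lit 282) (nat_lit 120)) (XT.lf (nat_lit 0) (nat_lit 494990967811) (nat_lit 152) (nat_lit 218102279606) (nat_lit 0) (nat_lit 16518446174) (nat_lit 7) (nat_lit 5) (nat_lit 9) (nat_lit 4) (nat_lit 7) (nat_lit 4) (nat_lit 319) (nat_lit 282) (nat_lit 119)))) (XT.nd (nat_lit 156) (nat_lit 76) (nat_lit 0) (XT.nd (nat_lit 78) (nat_lit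 76) (nat_lit 0) (XT.lf (nat_lit 0) (nat_lit 601121222138) (nat_lit 152) (nat_lit 55515660409) (nat_lit 0) (nat_lit 122648574186) (nat_lit 7) (nat_lit 5) (nat_lit 9) (nat_lit 4) (nat_lit 7) (nat_lit 4) (nat_lit 320) (nat_lit 282) (nat_lit 118)) (XT.lf (nat_lit 0) (nat_lit 126400880770) (nat_lit 76) (nat_lit 592380906975) (nat_lit 76) (nat_lit 113908142065) (nat_lit 6) (nat_lit 4) (nat_lit 7) (nat_lit 5) (nat_lit 7) (nat_lit 4) (nat_lit 321) (nat_lit 282) (nat_lit 117))) (XT.nd (nat_lit 78) (nat_lit 76) (nat_lit 0) (XT.lf (nat_lit 0) (nat_lit 326027880826) (nat_lit 76) (nat_lit 521345162827) (nat_lit 76) (nat_lit 42872289623) (nat_lit 6) (nat_lit 4) (nat_lit 7) (nat_lit 5) (nat_lit 7) (nat_lit 4) (nat_lit 322) (nat_lit 282) (nat_lit 116)) (XT.lf (nat_lit 0) (nat_lit 32153246416) (nat_lit 152) (nat_lit 411594220928) (nat_lit 76) (nat_lit 508592585124) (nat_lit 5) (nat_lit 5) (nat_lit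 7) (nat_lit 5) (nat_lit 6) (nat_lit 4) (nat_lit 323) (nat_lit 282) (nat_lit 115))))))))
noncomputable def xc114 : XT := (XT.nd (nat_lit 35802) (nat_lit 0) (nat_lit 76) (XT.nd (nat_lit 34866) (nat_lit 0) (nat_lit 1064) (XT.nd (nat_lit 34398) (nat_lit 0) (nat_lit 2128) (XT.nd (nat_lit 234) (nat_lit 0) (nat_lit 0) (XT.nd (nat_lit 78) (nat_lit 76) (nat_lit 0) (XT.lf (nat_lit 0) (nat_lit 110864562728) (nat_lit 152) (nat_lit 247874775846) (nat_lit 76) (nat_lit 660573929094) (nat_lit 5) (nat_lit 5) (nat_lit 7) (nat_lit 5) (nat_lit 6) (nat_lit 4) (nat_lit 324) (nat_lit 282) (nat_lit 114)) (XT.nd (nat_lit 78) (nat_lit 76) (nat_lit 0) (XT.lf (nat_lit 0) (nat_lit 195872742300) (nat_lit 152) (nat_lit 71057848302) (nat_lit 76) (nat_lit 824713752951) (nat_lit 5) (nat_lit 5) (nat_lit 7) (nat_lit 5) (nat_lit 6) (nat_lit 4) (nat_lit 325) (nat_lit 282) (nat_lit 113)) (XT.lf (nat_lit 0) (nat_lit 126218317127)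 (nat_lit 76) (nat_lit 164498773745) (nat_lit 152) (nat_lit 878801973568) (nat_lit 4) (nat_lit 5) (nat_lit 5) (nat_lit 5) (nat_lit 6) (nat_lit 4) (nat_lit 326) (nat_lit 282) (nat_lit 112)))) (XT.nd (nat_lit 78) (nat_lit 0) (nat_lit 0) (XT.lf (nat_lit 0) (nat_lit 343317632575) (nat_lit 76) (nat_lit 51774164620) (nat_lit 152) (nat_lit 858376541105) (nat_lit 4) (nat_lit 5) (nat_lit 5) (nat_lit 5) (nat_lit 6) (nat_lit 4) (nat_lit 327) (nat_lit 282) (nat_lit 111)) (XT.nd (nat_lit 34008) (nat_lit 0) (nat_lit 2128) (XT.lf (nat_lit 0) (nat_lit 509499186567) (nat_lit 152) (nat_lit 768031466194) (nat_lit 0) (nat_lit 66468284868) (nat_lit 4) (nat_lit 5) (nat_lit 6) (nat_lit 4) (nat_lit 4) (nat_lit 4) (nat_lit 328) (nat_lit 282) (nat_lit 110)) (XT.lf (nat_lit 0) (nat_lit 13642074971) (nat_lit 532) (nat_lit 21311533387) (nat_lit 532) (nat_lit 21311533387) (nat_lit 32) (nat_lit 3) (nat_lit 39) (nat_lit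 3) (nat_lit 39) (nat_lit 5) (nat_lit 283) (nat_lit 283) (nat_lit 154))))) (XT.nd (nat_lit 234) (nat_lit 0) (nat_lit 152) (XT.nd (nat_lit 78) (nat_lit 0) (nat_lit 76) (XT.lf (nat_lit 76) (nat_lit 4073430651) (nat_lit 0) (nat_lit 24404599386) (nat_lit 532) (nat_lit 88545234284) (nat_lit 33) (nat_lit 5) (nat_lit 32) (nat_lit 3) (nat_lit 39) (nat_lit 5) (nat_lit 284) (nat_lit 283) (nat_lit 153)) (XT.nd (nat_lit 78) (nat_lit 0) (nat_lit 0) (XT.lf (nat_lit 0) (nat_lit 31557579117) (nat_lit 456) (nat_lit 65478322663) (nat_lit 532) (nat_lit 24696572088) (nat_lit 33) (nat_lit 5) (nat_lit 39) (nat_lit 5) (nat_lit 40) (nat_lit 5) (nat_lit 285) (nat_lit 283) (nat_lit 152)) (XT.lf (nat_lit 0) (nat_lit 35516955192) (nat_lit 456) (nat_lit 14843258764) (nat_lit 532) (nat_lit 76407531899) (nat_lit 33) (nat_lit 5) (nat_lit 39) (nat_lit 5) (nat_lit 40) (nat_lit 5) (nat_lit 286) (nat_lit 283) (nat_lit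 151)))) (XT.nd (nat_lit 78) (nat_lit 0) (nat_lit 0) (XT.lf (nat_lit 0) (nat_lit 40828750530) (nat_lit 456) (nat_lit 90212197152) (nat_lit 532) (nat_lit 1082040905) (nat_lit 34) (nat_lit 5) (nat_lit 40) (nat_lit 5) (nat_lit 41) (nat_lit 5) (nat_lit 287) (nat_lit 283) (nat_lit 150)) (XT.nd (nat_lit 78) (nat_lit 0) (nat_lit 0) (XT.lf (nat_lit 0) (nat_lit 48289563595) (nat_lit 456) (nat_lit 35143756668) (nat_lit 532) (nat_lit 54335406881) (nat_lit 34) (nat_lit 5) (nat_lit 40) (nat_lit 5) (nat_lit 41) (nat_lit 5) (nat_lit 288) (nat_lit 283) (nat_lit 149)) (XT.lf (nat_lit 76) (nat_lit 25611060130) (nat_lit 0) (nat_lit 31351789549) (nat_lit 532) (nat_lit 86854028629) (nat_lit 35) (nat_lit 5) (nat_lit 34) (nat_lit 5) (nat_lit 41) (nat_lit 5) (nat_lit 289) (nat_lit 283) (nat_lit 148)))))) (XT.nd (nat_lit 468) (nat_lit 608) (nat_lit 0) (XT.nd (nat_lit 234) (nat_lit 228) (nat_lit 0) (XT.nd (nat_lit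 78) (nat_lit 456) (nat_lit 0) (XT.lf (nat_lit 0) (nat_lit 67914286806) (nat_lit 456) (nat_lit 57671095390) (nat_lit 76) (nat_lit 24636758319) (nat_lit 35) (nat_lit 5) (nat_lit 41) (nat_lit 5) (nat_lit 36) (nat_lit 5) (nat_lit 290) (nat_lit 283) (nat_lit 147)) (XT.nd (nat_lit 78) (nat_lit 0) (nat_lit 0) (XT.lf (nat_lit 0) (nat_lit 7254714625) (nat_lit 456) (nat_lit 73475637700) (nat_lit 532) (nat_lit 76330392151) (nat_lit 29) (nat_lit 5) (nat_lit 35) (nat_lit 5) (nat_lit 36) (nat_lit 5) (nat_lit 291) (nat_lit 283) (nat_lit 146)) (XT.lf (nat_lit 0) (nat_lit 80654133931) (nat_lit 456) (nat_lit 15494119815) (nat_lit 532) (nat_lit 68172060671) (nat_lit 29) (nat_lit 5) (nat_lit 35) (nat_lit 5) (nat_lit 36) (nat_lit 5) (nat_lit 292) (nat_lit 283) (nat_lit 145)))) (XT.nd (nat_lit 78) (nat_lit 228) (nat_lit 0) (XT.lf (nat_lit 0) (nat_lit 113932708564) (nat_lit 532) (nat_lit 13368787750) (nat_lit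 76) (nat_lit 44768505524) (nat_lit 29) (nat_lit 5) (nat_lit 36) (nat_lit 5) (nat_lit 30) (nat_lit 5) (nat_lit 293) (nat_lit 283) (nat_lit 144)) (XT.nd (nat_lit 78) (nat_lit 0) (nat_lit 0) (XT.lf (nat_lit 0) (nat_lit 65422399683) (nat_lit 228) (nat_lit 69693135954) (nat_lit 304) (nat_lit 45166080818) (nat_lit 26) (nat_lit 5) (nat_lit 29) (nat_lit 5) (nat_lit 30) (nat_lit 5) (nat_lit 294) (nat_lit 283) (nat_lit 143)) (XT.lf (nat_lit 0) (nat_lit 151276937686) (nat_lit 228) (nat_lit 7081350410) (nat_lit 304) (nat_lit 30762649569) (nat_lit 26) (nat_lit 5) (nat_lit 29) (nat_lit 5) (nat_lit 30) (nat_lit 5) (nat_lit 295) (nat_lit 283) (nat_lit 142))))) (XT.nd (nat_lit 234) (nat_lit 152) (nat_lit 0) (XT.nd (nat_lit 78) (nat_lit 304) (nat_lit 0) (XT.lf (nat_lit 0) (nat_lit 46186665394) (nat_lit 152) (nat_lit 139840348693) (nat_lit 228) (nat_lit 12435067480) (nat_lit 24) (nat_lit 5) (nat_lit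 26) (nat_lit 5) (nat_lit 27) (nat_lit 5) (nat_lit 296) (nat_lit 283) (nat_lit 141)) (XT.nd (nat_lit 78) (nat_lit 228) (nat_lit 0) (XT.lf (nat_lit 0) (nat_lit 8235930335) (nat_lit 228) (nat_lit 69763763149) (nat_lit 76) (nat_lit 130437040607) (nat_lit 23) (nat_lit 5) (nat_lit 26) (nat_lit 5) (nat_lit 24) (nat_lit 5) (nat_lit 297) (nat_lit 283) (nat_lit 140)) (XT.lf (nat_lit 0) (nat_lit 20027460983) (nat_lit 228) (nat_lit 10342799699) (nat_lit 304) (nat_lit 188774742489) (nat_lit 20) (nat_lit 5) (nat_lit 23) (nat_lit 5) (nat_lit 24) (nat_lit 5) (nat_lit 298) (nat_lit 283) (nat_lit 139)))) (XT.nd (nat_lit 78) (nat_lit 152) (nat_lit 0) (XT.lf (nat_lit 0) (nat_lit 57740740611) (nat_lit 304) (nat_lit 111146184333) (nat_lit 76) (nat_lit 61545777507) (nat_lit 20) (nat_lit 5) (nat_lit 24) (nat_lit 5) (nat_lit 21) (nat_lit 5) (nat_lit 299) (nat_lit 283) (nat_lit 138)) (XT.nd (nat_lit 78) (nat_lit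 152) (nat_lit 0) (XT.lf (nat_lit 0) (nat_lit 87569333046) (nat_lit 304) (nat_lit 16405980462) (nat_lit 76) (nat_lit 138626627094) (nat_lit 20) (nat_lit 5) (nat_lit 24) (nat_lit 5) (nat_lit 21) (nat_lit 5) (nat_lit 300) (nat_lit 283) (nat_lit 137)) (XT.lf (nat_lit 0) (nat_lit 90437276265) (nat_lit 152) (nat_lit 31521797838) (nat_lit 228) (nat_lit 133611655601) (nat_lit 18) (nat_lit 5) (nat_lit 20) (nat_lit 5) (nat_lit 21) (nat_lit 5) (nat_lit 301) (nat_lit 283) (nat_lit 136))))))) (XT.nd (nat_lit 936) (nat_lit 456) (nat_lit 0) (XT.nd (nat_lit 468) (nat_lit 228) (nat_lit 0) (XT.nd (nat_lit 234) (nat_lit 152) (nat_lit 0) (XT.nd (nat_lit 78) (nat_lit 152) (nat_lit 0) (XT.lf (nat_lit 0) (nat_lit 160683872015) (nat_lit 228) (nat_lit 63915789720) (nat_lit 76) (nat_lit 44850650726) (nat_lit 18) (nat_lit 5) (nat_lit 21) (nat_lit 5) (nat_lit 19) (nat_lit 5) (nat_lit 302) (nat_lit 283) (nat_lit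 135)) (XT.nd (nat_lit 78) (nat_lit 0) (nat_lit 0) (XT.lf (nat_lit 0) (nat_lit 46927867753) (nat_lit 152) (nat_lit 157526009940) (nat_lit 228) (nat_lit 79830606914) (nat_lit 16) (nat_lit 5) (nat_lit 18) (nat_lit 5) (nat_lit 19) (nat_lit 5) (nat_lit 303) (nat_lit 283) (nat_lit 134)) (XT.lf (nat_lit 0) (nat_lit 170273776966) (nat_lit 152) (nat_lit 83199143278) (nat_lit 228) (nat_lit 46692675998) (nat_lit 16) (nat_lit 5) (nat_lit 18) (nat_lit 5) (nat_lit 19) (nat_lit 5) (nat_lit 304) (nat_lit 283) (nat_lit 133)))) (XT.nd (nat_lit 78) (nat_lit 152) (nat_lit 0) (XT.lf (nat_lit 0) (nat_lit 303487184420) (nat_lit 152) (nat_lit 2926177203) (nat_lit 228) (nat_lit 10903845734) (nat_lit 16) (nat_lit 5) (nat_lit 18) (nat_lit 5) (nat_lit 19) (nat_lit 5) (nat_lit 305) (nat_lit 283) (nat_lit 132)) (XT.nd (nat_lit 78) (nat_lit 0) (nat_lit 0) (XT.lf (nat_lit 0) (nat_lit 31271070221) (nat_lit 152) (nat_lit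 220981596965) (nat_lit 76) (nat_lit 83142009204) (nat_lit 14) (nat_lit 5) (nat_lit 16) (nat_lit 5) (nat_lit 15) (nat_lit 5) (nat_lit 306) (nat_lit 283) (nat_lit 131)) (XT.lf (nat_lit 0) (nat_lit 76694737051) (nat_lit 152) (nat_lit 101555151892) (nat_lit 76) (nat_lit 176608689244) (nat_lit 14) (nat_lit 5) (nat_lit 16) (nat_lit 5) (nat_lit 15) (nat_lit 5) (nat_lit 307) (nat_lit 283) (nat_lit 130))))) (XT.nd (nat_lit 234) (nat_lit 76) (nat_lit 0) (XT.nd (nat_lit 78) (nat_lit 0) (nat_lit 0) (XT.lf (nat_lit 0) (nat_lit 28869414129) (nat_lit 152) (nat_lit 97577086534) (nat_lit 228) (nat_lit 249377555622) (nat_lit 12) (nat_lit 5) (nat_lit 14) (nat_lit 5) (nat_lit 15) (nat_lit 5) (nat_lit 308) (nat_lit 283) (nat_lit 129)) (XT.nd (nat_lit 78) (nat_lit 0) (nat_lit 0) (XT.lf (nat_lit 0) (nat_lit 175503321275) (nat_lit 152) (nat_lit 7451679400) (nat_lit 228) (nat_lit 215289644725) (nat_lit 12)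 (nat_lit 5) (nat_lit 14) (nat_lit 5) (nat_lit 15) (nat_lit 5) (nat_lit 309) (nat_lit 283) (nat_lit 128)) (XT.lf (nat_lit 0) (nat_lit 246145791186) (nat_lit 228) (nat_lit 90752798133) (nat_lit 76) (nat_lit 85387363856) (nat_lit 12) (nat_lit 5) (nat_lit 15) (nat_lit 5) (nat_lit 13) (nat_lit 4) (nat_lit 310) (nat_lit 283) (nat_lit 127)))) (XT.nd (nat_lit 78) (nat_lit 0) (nat_lit 0) (XT.lf (nat_lit 0) (nat_lit 54318343661) (nat_lit 76) (nat_lit 261573319879) (nat_lit 152) (nat_lit 132238916883) (nat_lit 11) (nat_lit 5) (nat_lit 12) (nat_lit 5) (nat_lit 13) (nat_lit 4) (nat_lit 311) (nat_lit 283) (nat_lit 126)) (XT.nd (nat_lit 78) (nat_lit 0) (nat_lit 0) (XT.lf (nat_lit 0) (nat_lit 216156232674) (nat_lit 76) (nat_lit 177542229671) (nat_lit 152) (nat_lit 82145815288) (nat_lit 11) (nat_lit 5) (nat_lit 12) (nat_lit 5) (nat_lit 13) (nat_lit 4) (nat_lit 312) (nat_lit 283) (nat_lit 125)) (XT.lf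 (nat_lit 0) (nat_lit 390941026727) (nat_lit 76) (nat_lit 86788699009) (nat_lit 152) (nat_lit 28045351523) (nat_lit 11) (nat_lit 5) (nat_lit 12) (nat_lit 5) (nat_lit 13) (nat_lit 4) (nat_lit 313) (nat_lit 283) (nat_lit 124)))))) (XT.nd (nat_lit 468) (nat_lit 152) (nat_lit 0) (XT.nd (nat_lit 234) (nat_lit 76) (nat_lit 0) (XT.nd (nat_lit 78) (nat_lit 0) (nat_lit 0) (XT.lf (nat_lit 0) (nat_lit 30213879696) (nat_lit 228) (nat_lit 495244962902) (nat_lit 76) (nat_lit 12474991786) (nat_lit 8) (nat_lit 5) (nat_lit 11) (nat_lit 5) (nat_lit 9) (nat_lit 4) (nat_lit 314) (nat_lit 283) (nat_lit 123)) (XT.nd (nat_lit 78) (nat_lit 0) (nat_lit 0) (XT.lf (nat_lit 0) (nat_lit 97094168796) (nat_lit 228) (nat_lit 356134147171) (nat_lit 76) (nat_lit 118940660544) (nat_lit 8) (nat_lit 5) (nat_lit 11) (nat_lit 5) (nat_lit 9) (nat_lit 4) (nat_lit 315) (nat_lit 283) (nat_lit 122)) (XT.lf (nat_lit 0) (nat_lit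 169324812572) (nat_lit 228) (nat_lit 205894579967) (nat_lit 76) (nat_lit 233923543161) (nat_lit 8) (nat_lit 5) (nat_lit 11) (nat_lit 5) (nat_lit 9) (nat_lit 4) (nat_lit 316) (nat_lit 283) (nat_lit 121)))) (XT.nd (nat_lit 78) (nat_lit 76) (nat_lit 0) (XT.lf (nat_lit 0) (nat_lit 247333844469) (nat_lit 228) (nat_lit 43635952742) (nat_lit 76) (nat_lit 358105019682) (nat_lit 8) (nat_lit 5) (nat_lit 11) (nat_lit 5) (nat_lit 9) (nat_lit 4) (nat_lit 317) (nat_lit 283) (nat_lit 120)) (XT.nd (nat_lit 78) (nat_lit 0) (nat_lit 0) (XT.lf (nat_lit 0) (nat_lit 138533261933) (nat_lit 76) (nat_lit 196382006578) (nat_lit 152) (nat_lit 357019446686) (nat_lit 7) (nat_lit 5) (nat_lit 8) (nat_lit 5) (nat_lit 9) (nat_lit 4) (nat_lit 318) (nat_lit 283) (nat_lit 119)) (XT.lf (nat_lit 0) (nat_lit 337757533999) (nat_lit 76) (nat_lit 92938700130) (nat_lit 152) (nat_lit 307431729195) (nat_lit 7) (nat_lit 5) (nat_lit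 8) (nat_lit 5) (nat_lit 9) (nat_lit 4) (nat_lit 319) (nat_lit 283) (nat_lit 118))))) (XT.nd (nat_lit 234) (nat_lit 76) (nat_lit 0) (XT.nd (nat_lit 78) (nat_lit 76) (nat_lit 0) (XT.lf (nat_lit 0) (nat_lit 534591284864) (nat_lit 152) (nat_lit 235548676162) (nat_lit 0) (nat_lit 17840581803) (nat_lit 7) (nat_lit 5) (nat_lit 9) (nat_lit 4) (nat_lit 7) (nat_lit 4) (nat_lit 320) (nat_lit 283) (nat_lit 117)) (XT.nd (nat_lit 78) (nat_lit 76) (nat_lit 0) (XT.lf (nat_lit 0) (nat_lit 649211882527) (nat_lit 152) (nat_lit 59955259712) (nat_lit 0) (nat_lit 132461071173) (nat_lit 7) (nat_lit 5) (nat_lit 9) (nat_lit 4) (nat_lit 7) (nat_lit 4) (nat_lit 321) (nat_lit 283) (nat_lit 116)) (XT.lf (nat_lit 0) (nat_lit 136514562901) (nat_lit 76) (nat_lit 639770697938) (nat_lit 76) (nat_lit 123019786311) (nat_lit 6) (nat_lit 4) (nat_lit 7) (nat_lit 5) (nat_lit 7) (nat_lit 4) (nat_lit 322) (nat_lit 283) (nat_lit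 115)))) (XT.nd (nat_lit 78) (nat_lit 76) (nat_lit 0) (XT.lf (nat_lit 0) (nat_lit 352111603578) (nat_lit 76) (nat_lit 563052144746) (nat_lit 76) (nat_lit 46301140275) (nat_lit 6) (nat_lit 4) (nat_lit 7) (nat_lit 5) (nat_lit 7) (nat_lit 4) (nat_lit 323) (nat_lit 283) (nat_lit 114)) (XT.nd (nat_lit 78) (nat_lit 0) (nat_lit 0) (XT.lf (nat_lit 0) (nat_lit 34726326380) (nat_lit 152) (nat_lit 444520331568) (nat_lit 76) (nat_lit 549280531003) (nat_lit 5) (nat_lit 5) (nat_lit 7) (nat_lit 5) (nat_lit 6) (nat_lit 4) (nat_lit 324) (nat_lit 283) (nat_lit 113)) (XT.lf (nat_lit 0) (nat_lit 119734487236) (nat_lit 152) (nat_lit 267703436585) (nat_lit 76) (nat_lit 713420342560) (nat_lit 5) (nat_lit 5) (nat_lit 7) (nat_lit 5) (nat_lit 6) (nat_lit 4) (nat_lit 325) (nat_lit 283) (nat_lit 112))))))))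
noncomputable def xc115 : XT := (XT.nd (nat_lit 35880) (nat_lit 0) (nat_lit 0) (XT.nd (nat_lit 34944) (nat_lit 0) (nat_lit 912) (XT.nd (nat_lit 34476) (nat_lit 0) (nat_lit 1900) (XT.nd (nat_lit 34242) (nat_lit 0) (nat_lit 2128) (XT.nd (nat_lit 78) (nat_lit 76) (nat_lit 0) (XT.lf (nat_lit 0) (nat_lit 211543264916) (nat_lit 152) (nat_lit 76741252714) (nat_lit 76) (nat_lit 890691315352) (nat_lit 5) (nat_lit 5) (nat_lit 7) (nat_lit 5) (nat_lit 6) (nat_lit 4) (nat_lit 326) (nat_lit 283) (nat_lit 111)) (XT.nd (nat_lit 78) (nat_lit 0) (nat_lit 0) (XT.lf (nat_lit 0) (nat_lit 136316974976) (nat_lit 76) (nat_lit 177658162985) (nat_lit 152) (nat_lit 949105395584) (nat_lit 4) (nat_lit 5) (nat_lit 5) (nat_lit 5) (nat_lit 6) (nat_lit 4) (nat_lit 327) (nat_lit 283) (nat_lit 110)) (XT.lf (nat_lit 0) (nat_lit 370784147328) (nat_lit 76) (nat_lit 55915623105) (nat_lit 152) (nat_lit 927045983033) (nat_lit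 4) (nat_lit 5) (nat_lit 5) (nat_lit 5) (nat_lit 6) (nat_lit 4) (nat_lit 328) (nat_lit 283) (nat_lit 109)))) (XT.nd (nat_lit 78) (nat_lit 0) (nat_lit 0) (XT.lf (nat_lit 0) (nat_lit 14737879581) (nat_lit 532) (nat_lit 23014044869) (nat_lit 532) (nat_lit 23014044869) (nat_lit 32) (nat_lit 3) (nat_lit 39) (nat_lit 3) (nat_lit 39) (nat_lit 5) (nat_lit 284) (nat_lit 284) (nat_lit 152)) (XT.nd (nat_lit 78) (nat_lit 0) (nat_lit 76) (XT.lf (nat_lit 76) (nat_lit 4404005397) (nat_lit 0) (nat_lit 26360599737) (nat_lit 532) (nat_lit 95619800608) (nat_lit 33) (nat_lit 5) (nat_lit 32) (nat_lit 3) (nat_lit 39) (nat_lit 5) (nat_lit 285) (nat_lit 284) (nat_lit 151)) (XT.lf (nat_lit 0) (nat_lit 34089820016) (nat_lit 456) (nat_lit 70711489053) (nat_lit 532) (nat_lit 26669102769) (nat_lit 33) (nat_lit 5) (nat_lit 39) (nat_lit 5) (nat_lit 40) (nat_lit 5) (nat_lit 286) (nat_lit 284) (nat_lit 150))))) (XT.nd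 (nat_lit 234) (nat_lit 304) (nat_lit 0) (XT.nd (nat_lit 78) (nat_lit 0) (nat_lit 76) (XT.lf (nat_lit 0) (nat_lit 38365380653) (nat_lit 456) (nat_lit 16025997777) (nat_lit 532) (nat_lit 82517176038) (nat_lit 33) (nat_lit 5) (nat_lit 39) (nat_lit 5) (nat_lit 40) (nat_lit 5) (nat_lit 287) (nat_lit 284) (nat_lit 149)) (XT.nd (nat_lit 78) (nat_lit 0) (nat_lit 0) (XT.lf (nat_lit 0) (nat_lit 44101657269) (nat_lit 456) (nat_lit 97423946729) (nat_lit 532) (nat_lit 1166652981) (nat_lit 34) (nat_lit 5) (nat_lit 40) (nat_lit 5) (nat_lit 41) (nat_lit 5) (nat_lit 288) (nat_lit 284) (nat_lit 148)) (XT.lf (nat_lit 0) (nat_lit 52158845995) (nat_lit 456) (nat_lit 37950418131) (nat_lit 532) (nat_lit 58680432768) (nat_lit 34) (nat_lit 5) (nat_lit 40) (nat_lit 5) (nat_lit 41) (nat_lit 5) (nat_lit 289) (nat_lit 284) (nat_lit 147)))) (XT.nd (nat_lit 78) (nat_lit 380) (nat_lit 0) (XT.lf (nat_lit 76) (nat_lit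 27664661502) (nat_lit 0) (nat_lit 33860993763) (nat_lit 532) (nat_lit 93796074955) (nat_lit 35) (nat_lit 5) (nat_lit 34) (nat_lit 5) (nat_lit 41) (nat_lit 5) (nat_lit 290) (nat_lit 284) (nat_lit 146)) (XT.nd (nat_lit 78) (nat_lit 456) (nat_lit 0) (XT.lf (nat_lit 0) (nat_lit 73352755762) (nat_lit 456) (nat_lit 62279930768) (nat_lit 76) (nat_lit 26606765678) (nat_lit 35) (nat_lit 5) (nat_lit 41) (nat_lit 5) (nat_lit 36) (nat_lit 5) (nat_lit 291) (nat_lit 284) (nat_lit 145)) (XT.lf (nat_lit 0) (nat_lit 7839821207) (nat_lit 456) (nat_lit 79354004539) (nat_lit 532) (nat_lit 82431343681) (nat_lit 29) (nat_lit 5) (nat_lit 35) (nat_lit 5) (nat_lit 36) (nat_lit 5) (nat_lit 292) (nat_lit 284) (nat_lit 144)))))) (XT.nd (nat_lit 468) (nat_lit 532) (nat_lit 0) (XT.nd (nat_lit 234) (nat_lit 228) (nat_lit 0) (XT.nd (nat_lit 78) (nat_lit 228) (nat_lit 0) (XT.lf (nat_lit 0) (nat_lit 87110843730) (nat_lit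 456) (nat_lit 16733941829) (nat_lit 532) (nat_lit 73620751597) (nat_lit 29) (nat_lit 5) (nat_lit 35) (nat_lit 5) (nat_lit 36) (nat_lit 5) (nat_lit 293) (nat_lit 284) (nat_lit 143)) (XT.nd (nat_lit 78) (nat_lit 228) (nat_lit 0) (XT.lf (nat_lit 0) (nat_lit 123051644213) (nat_lit 532) (nat_lit 14433856945) (nat_lit 76) (nat_lit 48349728743) (nat_lit 29) (nat_lit 5) (nat_lit 36) (nat_lit 5) (nat_lit 30) (nat_lit 5) (nat_lit 294) (nat_lit 284) (nat_lit 142)) (XT.lf (nat_lit 0) (nat_lit 70660513235) (nat_lit 228) (nat_lit 75268368229) (nat_lit 304) (nat_lit 48774911471) (nat_lit 26) (nat_lit 5) (nat_lit 29) (nat_lit 5) (nat_lit 30) (nat_lit 5) (nat_lit 295) (nat_lit 284) (nat_lit 141)))) (XT.nd (nat_lit 78) (nat_lit 228) (nat_lit 0) (XT.lf (nat_lit 0) (nat_lit 163383094161) (nat_lit 228) (nat_lit 7647656033) (nat_lit 304) (nat_lit 33219535783) (nat_lit 26) (nat_lit 5) (nat_lit 29) (nat_lit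 5) (nat_lit 30) (nat_lit 5) (nat_lit 296) (nat_lit 284) (nat_lit 140)) (XT.nd (nat_lit 78) (nat_lit 76) (nat_lit 0) (XT.lf (nat_lit 0) (nat_lit 49885812468) (nat_lit 152) (nat_lit 151026986235) (nat_lit 228) (nat_lit 13425938419) (nat_lit 24) (nat_lit 5) (nat_lit 26) (nat_lit 5) (nat_lit 27) (nat_lit 5) (nat_lit 297) (nat_lit 284) (nat_lit 139)) (XT.lf (nat_lit 0) (nat_lit 8898265541) (nat_lit 228) (nat_lit 75340762175) (nat_lit 76) (nat_lit 140872350159) (nat_lit 23) (nat_lit 5) (nat_lit 26) (nat_lit 5) (nat_lit 24) (nat_lit 5) (nat_lit 298) (nat_lit 284) (nat_lit 138))))) (XT.nd (nat_lit 234) (nat_lit 304) (nat_lit 0) (XT.nd (nat_lit 78) (nat_lit 0) (nat_lit 0) (XT.lf (nat_lit 0) (nat_lit 21633656039) (nat_lit 228) (nat_lit 11169526078) (nat_lit 304) (nat_lit 203873140518) (nat_lit 20) (nat_lit 5) (nat_lit 23) (nat_lit 5) (nat_lit 24) (nat_lit 5) (nat_lit 299) (nat_lit 284) (nat_lit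 137)) (XT.nd (nat_lit 78) (nat_lit 0) (nat_lit 0) (XT.lf (nat_lit 0) (nat_lit 62363071489) (nat_lit 304) (nat_lit 120033932608) (nat_lit 76) (nat_lit 66470053318) (nat_lit 20) (nat_lit 5) (nat_lit 24) (nat_lit 5) (nat_lit 21) (nat_lit 5) (nat_lit 300) (nat_lit 284) (nat_lit 136)) (XT.lf (nat_lit 0) (nat_lit 94577723790) (nat_lit 304) (nat_lit 17714804760) (nat_lit 76) (nat_lit 149717325420) (nat_lit 20) (nat_lit 5) (nat_lit 24) (nat_lit 5) (nat_lit 21) (nat_lit 5) (nat_lit 301) (nat_lit 284) (nat_lit 135)))) (XT.nd (nat_lit 78) (nat_lit 152) (nat_lit 0) (XT.lf (nat_lit 0) (nat_lit 97675819996) (nat_lit 152) (nat_lit 34042699118) (nat_lit 228) (nat_lit 144297638148) (nat_lit 18) (nat_lit 5) (nat_lit 20) (nat_lit 5) (nat_lit 21) (nat_lit 5) (nat_lit 302) (nat_lit 284) (nat_lit 134)) (XT.nd (nat_lit 78) (nat_lit 152) (nat_lit 0) (XT.lf (nat_lit 0) (nat_lit 173541118208) (nat_lit 228)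 (nat_lit 69025560135) (nat_lit 76) (nat_lit 48439443895) (nat_lit 18) (nat_lit 5) (nat_lit 21) (nat_lit 5) (nat_lit 19) (nat_lit 5) (nat_lit 303) (nat_lit 284) (nat_lit 133)) (XT.lf (nat_lit 0) (nat_lit 50685501512) (nat_lit 152) (nat_lit 170127116820) (nat_lit 228) (nat_lit 86214419216) (nat_lit 16) (nat_lit 5) (nat_lit 18) (nat_lit 5) (nat_lit 19) (nat_lit 5) (nat_lit 304) (nat_lit 284) (nat_lit 132))))))) (XT.nd (nat_lit 936) (nat_lit 304) (nat_lit 0) (XT.nd (nat_lit 468) (nat_lit 304) (nat_lit 0) (XT.nd (nat_lit 234) (nat_lit 152) (nat_lit 0) (XT.nd (nat_lit 78) (nat_lit 152) (nat_lit 0) (XT.lf (nat_lit 0) (nat_lit 183898831288) (nat_lit 152) (nat_lit 89854172967) (nat_lit 228) (nat_lit 50425649105) (nat_lit 16) (nat_lit 5) (nat_lit 18) (nat_lit 5) (nat_lit 19) (nat_lit 5) (nat_lit 305) (nat_lit 284) (nat_lit 131)) (XT.nd (nat_lit 78) (nat_lit 152) (nat_lit 0) (XT.lf (nat_lit 0)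 (nat_lit 327769077845) (nat_lit 152) (nat_lit 3159436404) (nat_lit 228) (nat_lit 11773893233) (nat_lit 16) (nat_lit 5) (nat_lit 18) (nat_lit 5) (nat_lit 19) (nat_lit 5) (nat_lit 306) (nat_lit 284) (nat_lit 130)) (XT.lf (nat_lit 0) (nat_lit 33774836924) (nat_lit 152) (nat_lit 238657009555) (nat_lit 76) (nat_lit 89794229159) (nat_lit 14) (nat_lit 5) (nat_lit 16) (nat_lit 5) (nat_lit 15) (nat_lit 5) (nat_lit 307) (nat_lit 284) (nat_lit 129)))) (XT.nd (nat_lit 78) (nat_lit 152) (nat_lit 0) (XT.lf (nat_lit 0) (nat_lit 82832242946) (nat_lit 152) (nat_lit 109676679630) (nat_lit 76) (nat_lit 190738179957) (nat_lit 14) (nat_lit 5) (nat_lit 16) (nat_lit 5) (nat_lit 15) (nat_lit 5) (nat_lit 308) (nat_lit 284) (nat_lit 128)) (XT.nd (nat_lit 78) (nat_lit 0) (nat_lit 0) (XT.lf (nat_lit 0) (nat_lit 31181778649) (nat_lit 152) (nat_lit 105382293875) (nat_lit 228) (nat_lit 269325752937) (nat_lit 12)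 (nat_lit 5) (nat_lit 14) (nat_lit 5) (nat_lit 15) (nat_lit 5) (nat_lit 309) (nat_lit 284) (nat_lit 127)) (XT.lf (nat_lit 0) (nat_lit 189546190116) (nat_lit 152) (nat_lit 8046925251) (nat_lit 228) (nat_lit 232510957846) (nat_lit 12) (nat_lit 5) (nat_lit 14) (nat_lit 5) (nat_lit 15) (nat_lit 5) (nat_lit 310) (nat_lit 284) (nat_lit 126))))) (XT.nd (nat_lit 234) (nat_lit 228) (nat_lit 0) (XT.nd (nat_lit 78) (nat_lit 76) (nat_lit 0) (XT.lf (nat_lit 0) (nat_lit 265839061894) (nat_lit 228) (nat_lit 98010498288) (nat_lit 76) (nat_lit 92219134497) (nat_lit 12) (nat_lit 5) (nat_lit 15) (nat_lit 5) (nat_lit 13) (nat_lit 4) (nat_lit 311) (nat_lit 284) (nat_lit 125)) (XT.nd (nat_lit 78) (nat_lit 0) (nat_lit 0) (XT.lf (nat_lit 0) (nat_lit 58666270957) (nat_lit 76) (nat_lit 282498273170) (nat_lit 152) (nat_lit 142816353229) (nat_lit 11) (nat_lit 5) (nat_lit 12) (nat_lit 5) (nat_lit 13) (nat_lit 4)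 (nat_lit 312) (nat_lit 284) (nat_lit 124)) (XT.lf (nat_lit 0) (nat_lit 233451008884) (nat_lit 76) (nat_lit 191744763323) (nat_lit 152) (nat_lit 88715927729) (nat_lit 11) (nat_lit 5) (nat_lit 12) (nat_lit 5) (nat_lit 13) (nat_lit 4) (nat_lit 313) (nat_lit 284) (nat_lit 123)))) (XT.nd (nat_lit 78) (nat_lit 228) (nat_lit 0) (XT.lf (nat_lit 0) (nat_lit 422218417751) (nat_lit 76) (nat_lit 93731012780) (nat_lit 152) (nat_lit 30287541884) (nat_lit 11) (nat_lit 5) (nat_lit 12) (nat_lit 5) (nat_lit 13) (nat_lit 4) (nat_lit 314) (nat_lit 284) (nat_lit 122)) (XT.nd (nat_lit 78) (nat_lit 0) (nat_lit 0) (XT.lf (nat_lit 0) (nat_lit 32632325544) (nat_lit 228) (nat_lit 534862340045) (nat_lit 76) (nat_lit 13473764520) (nat_lit 8) (nat_lit 5) (nat_lit 11) (nat_lit 5) (nat_lit 9) (nat_lit 4) (nat_lit 315) (nat_lit 284) (nat_lit 121)) (XT.lf (nat_lit 0) (nat_lit 104862938848) (nat_lit 228) (nat_lit 384622823492)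 (nat_lit 76) (nat_lit 128456629490) (nat_lit 8) (nat_lit 5) (nat_lit 11) (nat_lit 5) (nat_lit 9) (nat_lit 4) (nat_lit 316) (nat_lit 284) (nat_lit 120)))))) (XT.nd (nat_lit 468) (nat_lit 228) (nat_lit 0) (XT.nd (nat_lit 234) (nat_lit 0) (nat_lit 0) (XT.nd (nat_lit 78) (nat_lit 76) (nat_lit 0) (XT.lf (nat_lit 0) (nat_lit 182871942529) (nat_lit 228) (nat_lit 222364243167) (nat_lit 76) (nat_lit 252638089671) (nat_lit 8) (nat_lit 5) (nat_lit 11) (nat_lit 5) (nat_lit 9) (nat_lit 4) (nat_lit 317) (nat_lit 284) (nat_lit 119)) (XT.nd (nat_lit 78) (nat_lit 76) (nat_lit 0) (XT.lf (nat_lit 0) (nat_lit 267121612166) (nat_lit 228) (nat_lit 47125066742) (nat_lit 76) (nat_lit 386754035198) (nat_lit 8) (nat_lit 5) (nat_lit 11) (nat_lit 5) (nat_lit 9) (nat_lit 4) (nat_lit 318) (nat_lit 284) (nat_lit 118)) (XT.lf (nat_lit 0) (nat_lit 149617640494) (nat_lit 76) (nat_lit 212091872417) (nat_lit 152) (nat_lit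 385579894587) (nat_lit 7) (nat_lit 5) (nat_lit 8) (nat_lit 5) (nat_lit 9) (nat_lit 4) (nat_lit 319) (nat_lit 284) (nat_lit 117)))) (XT.nd (nat_lit 78) (nat_lit 0) (nat_lit 0) (XT.lf (nat_lit 0) (nat_lit 364779727095) (nat_lit 76) (nat_lit 100373152912) (nat_lit 152) (nat_lit 332025241759) (nat_lit 7) (nat_lit 5) (nat_lit 8) (nat_lit 5) (nat_lit 9) (nat_lit 4) (nat_lit 320) (nat_lit 284) (nat_lit 116)) (XT.nd (nat_lit 78) (nat_lit 0) (nat_lit 0) (XT.lf (nat_lit 0) (nat_lit 577359478965) (nat_lit 152) (nat_lit 254391039209) (nat_lit 0) (nat_lit 19268394136) (nat_lit 7) (nat_lit 5) (nat_lit 9) (nat_lit 4) (nat_lit 7) (nat_lit 4) (nat_lit 321) (nat_lit 284) (nat_lit 115)) (XT.lf (nat_lit 0) (nat_lit 701149658419) (nat_lit 152) (nat_lit 64750262853) (nat_lit 0) (nat_lit 143058480745) (nat_lit 7) (nat_lit 5) (nat_lit 9) (nat_lit 4) (nat_lit 7) (nat_lit 4) (nat_lit 322) (nat_lit 284) (nat_lit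 114))))) (XT.nd (nat_lit 234) (nat_lit 76) (nat_lit 0) (XT.nd (nat_lit 78) (nat_lit 76) (nat_lit 0) (XT.lf (nat_lit 0) (nat_lit 147437109679) (nat_lit 76) (nat_lit 690951769415) (nat_lit 76) (nat_lit 132860505774) (nat_lit 6) (nat_lit 4) (nat_lit 7) (nat_lit 5) (nat_lit 7) (nat_lit 4) (nat_lit 323) (nat_lit 284) (nat_lit 113)) (XT.nd (nat_lit 78) (nat_lit 76) (nat_lit 0) (XT.lf (nat_lit 0) (nat_lit 380281811259) (nat_lit 76) (nat_lit 608095775254) (nat_lit 76) (nat_lit 50004432013) (nat_lit 6) (nat_lit 4) (nat_lit 7) (nat_lit 5) (nat_lit 7) (nat_lit 4) (nat_lit 324) (nat_lit 284) (nat_lit 112)) (XT.lf (nat_lit 0) (nat_lit 37505135722) (nat_lit 152) (nat_lit 480080734641) (nat_lit 76) (nat_lit 593223435648) (nat_lit 5) (nat_lit 5) (nat_lit 7) (nat_lit 5) (nat_lit 6) (nat_lit 4) (nat_lit 325) (nat_lit 284) (nat_lit 111)))) (XT.nd (nat_lit 156) (nat_lit 76) (nat_lit 0) (XT.nd (nat_lit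 78) (nat_lit 0) (nat_lit 0) (XT.lf (nat_lit 0) (nat_lit 129313897356) (nat_lit 152) (nat_lit 289118578686) (nat_lit 76) (nat_lit 770494397895) (nat_lit 5) (nat_lit 5) (nat_lit 7) (nat_lit 5) (nat_lit 6) (nat_lit 4) (nat_lit 326) (nat_lit 284) (nat_lit 110)) (XT.lf (nat_lit 0) (nat_lit 228467329018) (nat_lit 152) (nat_lit 82879504018) (nat_lit 76) (nat_lit 961947016812) (nat_lit 5) (nat_lit 5) (nat_lit 7) (nat_lit 5) (nat_lit 6) (nat_lit 4) (nat_lit 327) (nat_lit 284) (nat_lit 109))) (XT.nd (nat_lit 34164) (nat_lit 0) (nat_lit 2128) (XT.lf (nat_lit 0) (nat_lit 147223355332) (nat_lit 76) (nat_lit 191870376502) (nat_lit 152) (nat_lit 1025033196341) (nat_lit 4) (nat_lit 5) (nat_lit 5) (nat_lit 5) (nat_lit 6) (nat_lit 4) (nat_lit 328) (nat_lit 284) (nat_lit 108)) (XT.lf (nat_lit 0) (nat_lit 15920715342) (nat_lit 532) (nat_lit 24853101252) (nat_lit 532) (nat_lit 24853101252) (nat_lit 32)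 (nat_lit 3) (nat_lit 39) (nat_lit 3) (nat_lit 39) (nat_lit 5) (nat_lit 285) (nat_lit 285) (nat_lit 150))))))))
noncomputable def xc116 : XT := (XT.nd (nat_lit 1872) (nat_lit 684) (nat_lit 0) (XT.nd (nat_lit 936) (nat_lit 912) (nat_lit 0) (XT.nd (nat_lit 468) (nat_lit 456) (nat_lit 0) (XT.nd (nat_lit 234) (nat_lit 0) (nat_lit 152) (XT.nd (nat_lit 78) (nat_lit 0) (nat_lit 76) (XT.lf (nat_lit 76) (nat_lit 4760355574) (nat_lit 0) (nat_lit 28472561913) (nat_lit 532) (nat_lit 103261623668) (nat_lit 33) (nat_lit 5) (nat_lit 32) (nat_lit 3) (nat_lit 39) (nat_lit 5) (nat_lit 286) (nat_lit 285) (nat_lit 149)) (XT.nd (nat_lit 78) (nat_lit 0) (nat_lit 0) (XT.lf (nat_lit 0) (nat_lit 36823551029) (nat_lit 456) (nat_lit 76364036243) (nat_lit 532) (nat_lit 28799891719) (nat_lit 33) (nat_lit 5) (nat_lit 39) (nat_lit 5) (nat_lit 40) (nat_lit 5) (nat_lit 287) (nat_lit 285) (nat_lit 148)) (XT.lf (nat_lit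 0) (nat_lit 41440671672) (nat_lit 456) (nat_lit 17304029512) (nat_lit 532) (nat_lit 89116013759) (nat_lit 33) (nat_lit 5) (nat_lit 39) (nat_lit 5) (nat_lit 40) (nat_lit 5) (nat_lit 288) (nat_lit 285) (nat_lit 147)))) (XT.nd (nat_lit 78) (nat_lit 0) (nat_lit 0) (XT.lf (nat_lit 0) (nat_lit 47635454029) (nat_lit 456) (nat_lit 105213381847) (nat_lit 532) (nat_lit 1258312383) (nat_lit 34) (nat_lit 5) (nat_lit 40) (nat_lit 5) (nat_lit 41) (nat_lit 5) (nat_lit 289) (nat_lit 285) (nat_lit 146)) (XT.nd (nat_lit 78) (nat_lit 0) (nat_lit 0) (XT.lf (nat_lit 0) (nat_lit 56336798284) (nat_lit 456) (nat_lit 40982302859) (nat_lit 532) (nat_lit 63373318467) (nat_lit 34) (nat_lit 5) (nat_lit 40) (nat_lit 5) (nat_lit 41) (nat_lit 5) (nat_lit 290) (nat_lit 285) (nat_lit 145)) (XT.lf (nat_lit 76) (nat_lit 29881878114) (nat_lit 0) (nat_lit 36570782942) (nat_lit 532) (nat_lit 101294380323) (nat_lit 35) (nat_lit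 5) (nat_lit 34) (nat_lit 5) (nat_lit 41) (nat_lit 5) (nat_lit 291) (nat_lit 285) (nat_lit 144))))) (XT.nd (nat_lit 234) (nat_lit 228) (nat_lit 0) (XT.nd (nat_lit 78) (nat_lit 456) (nat_lit 0) (XT.lf (nat_lit 0) (nat_lit 79225542420) (nat_lit 456) (nat_lit 67258165204) (nat_lit 76) (nat_lit 28734506772) (nat_lit 35) (nat_lit 5) (nat_lit 41) (nat_lit 5) (nat_lit 36) (nat_lit 5) (nat_lit 292) (nat_lit 285) (nat_lit 143)) (XT.nd (nat_lit 78) (nat_lit 0) (nat_lit 0) (XT.lf (nat_lit 0) (nat_lit 8471061612) (nat_lit 456) (nat_lit 85702595670) (nat_lit 532) (nat_lit 89021153094) (nat_lit 29) (nat_lit 5) (nat_lit 35) (nat_lit 5) (nat_lit 36) (nat_lit 5) (nat_lit 293) (nat_lit 285) (nat_lit 142)) (XT.lf (nat_lit 0) (nat_lit 94083465588) (nat_lit 456) (nat_lit 18072907886) (nat_lit 532) (nat_lit 79506061650) (nat_lit 29) (nat_lit 5) (nat_lit 35) (nat_lit 5) (nat_lit 36) (nat_lit 5) (nat_lit 294)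 (nat_lit 285) (nat_lit 141)))) (XT.nd (nat_lit 78) (nat_lit 228) (nat_lit 0) (XT.lf (nat_lit 0) (nat_lit 132899478566) (nat_lit 532) (nat_lit 15584764209) (nat_lit 76) (nat_lit 52217486516) (nat_lit 29) (nat_lit 5) (nat_lit 36) (nat_lit 5) (nat_lit 30) (nat_lit 5) (nat_lit 295) (nat_lit 285) (nat_lit 140)) (XT.nd (nat_lit 78) (nat_lit 0) (nat_lit 0) (XT.lf (nat_lit 0) (nat_lit 76317059349) (nat_lit 228) (nat_lit 81289650271) (nat_lit 304) (nat_lit 52673084248) (nat_lit 26) (nat_lit 5) (nat_lit 29) (nat_lit 5) (nat_lit 30) (nat_lit 5) (nat_lit 296) (nat_lit 285) (nat_lit 139)) (XT.lf (nat_lit 0) (nat_lit 176457172301) (nat_lit 228) (nat_lit 8259294982) (nat_lit 304) (nat_lit 35873561478) (nat_lit 26) (nat_lit 5) (nat_lit 29) (nat_lit 5) (nat_lit 30) (nat_lit 5) (nat_lit 297) (nat_lit 285) (nat_lit 138)))))) (XT.nd (nat_lit 468) (nat_lit 304) (nat_lit 0) (XT.nd (nat_lit 234) (nat_lit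 152) (nat_lit 0) (XT.nd (nat_lit 78) (nat_lit 304) (nat_lit 0) (XT.lf (nat_lit 0) (nat_lit 53880290157) (nat_lit 152) (nat_lit 163108639001) (nat_lit 228) (nat_lit 14496640328) (nat_lit 24) (nat_lit 5) (nat_lit 26) (nat_lit 5) (nat_lit 27) (nat_lit 5) (nat_lit 298) (nat_lit 285) (nat_lit 137)) (XT.nd (nat_lit 78) (nat_lit 228) (nat_lit 0) (XT.lf (nat_lit 0) (nat_lit 9613093845) (nat_lit 228) (nat_lit 81364506322) (nat_lit 76) (nat_lit 152142435071) (nat_lit 23) (nat_lit 5) (nat_lit 26) (nat_lit 5) (nat_lit 24) (nat_lit 5) (nat_lit 299) (nat_lit 285) (nat_lit 136)) (XT.lf (nat_lit 0) (nat_lit 23367776315) (nat_lit 228) (nat_lit 12062490088) (nat_lit 304) (nat_lit 220179921312) (nat_lit 20) (nat_lit 5) (nat_lit 23) (nat_lit 5) (nat_lit 24) (nat_lit 5) (nat_lit 300) (nat_lit 285) (nat_lit 135)))) (XT.nd (nat_lit 78) (nat_lit 152) (nat_lit 0) (XT.lf (nat_lit 0) (nat_lit 67354750634) (nat_lit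 304) (nat_lit 129633263754) (nat_lit 76) (nat_lit 71788183656) (nat_lit 20) (nat_lit 5) (nat_lit 24) (nat_lit 5) (nat_lit 21) (nat_lit 5) (nat_lit 301) (nat_lit 285) (nat_lit 134)) (XT.nd (nat_lit 78) (nat_lit 152) (nat_lit 0) (XT.lf (nat_lit 0) (nat_lit 102146380051) (nat_lit 304) (nat_lit 19128856304) (nat_lit 76) (nat_lit 161695198557) (nat_lit 20) (nat_lit 5) (nat_lit 24) (nat_lit 5) (nat_lit 21) (nat_lit 5) (nat_lit 302) (nat_lit 285) (nat_lit 133)) (XT.lf (nat_lit 0) (nat_lit 105492939120) (nat_lit 152) (nat_lit 36765392700) (nat_lit 228) (nat_lit 155838920136) (nat_lit 18) (nat_lit 5) (nat_lit 20) (nat_lit 5) (nat_lit 21) (nat_lit 5) (nat_lit 303) (nat_lit 285) (nat_lit 132))))) (XT.nd (nat_lit 234) (nat_lit 152) (nat_lit 0) (XT.nd (nat_lit 78) (nat_lit 152) (nat_lit 0) (XT.lf (nat_lit 0) (nat_lit 187426582247) (nat_lit 228) (nat_lit 74544610465) (nat_lit 76) (nat_lit 52315234789)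 (nat_lit 18) (nat_lit 5) (nat_lit 21) (nat_lit 5) (nat_lit 19) (nat_lit 5) (nat_lit 304) (nat_lit 285) (nat_lit 131)) (XT.nd (nat_lit 78) (nat_lit 0) (nat_lit 0) (XT.lf (nat_lit 0) (nat_lit 54743260304) (nat_lit 152) (nat_lit 183736451190) (nat_lit 228) (nat_lit 93109312593) (nat_lit 16) (nat_lit 5) (nat_lit 18) (nat_lit 5) (nat_lit 19) (nat_lit 5) (nat_lit 305) (nat_lit 285) (nat_lit 130)) (XT.lf (nat_lit 0) (nat_lit 198613440265) (nat_lit 152) (nat_lit 97041733679) (nat_lit 228) (nat_lit 54457608292) (nat_lit 16) (nat_lit 5) (nat_lit 18) (nat_lit 5) (nat_lit 19) (nat_lit 5) (nat_lit 306) (nat_lit 285) (nat_lit 129)))) (XT.nd (nat_lit 78) (nat_lit 152) (nat_lit 0) (XT.lf (nat_lit 0) (nat_lit 353993106363) (nat_lit 152) (nat_lit 3411475459) (nat_lit 228) (nat_lit 12713866968) (nat_lit 16) (nat_lit 5) (nat_lit 18) (nat_lit 5) (nat_lit 19) (nat_lit 5) (nat_lit 307) (nat_lit 285) (nat_lit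 128)) (XT.nd (nat_lit 78) (nat_lit 0) (nat_lit 0) (XT.lf (nat_lit 0) (nat_lit 36478608073) (nat_lit 152) (nat_lit 257746899567) (nat_lit 76) (nat_lit 96978504134) (nat_lit 14) (nat_lit 5) (nat_lit 16) (nat_lit 5) (nat_lit 15) (nat_lit 5) (nat_lit 308) (nat_lit 285) (nat_lit 127)) (XT.lf (nat_lit 0) (nat_lit 89460474415) (nat_lit 152) (nat_lit 118448341081) (nat_lit 76) (nat_lit 205997916430) (nat_lit 14) (nat_lit 5) (nat_lit 16) (nat_lit 5) (nat_lit 15) (nat_lit 5) (nat_lit 309) (nat_lit 285) (nat_lit 126))))))) (XT.nd (nat_lit 936) (nat_lit 152) (nat_lit 0) (XT.nd (nat_lit 468) (nat_lit 304) (nat_lit 0) (XT.nd (nat_lit 234) (nat_lit 76) (nat_lit 0) (XT.nd (nat_lit 78) (nat_lit 0) (nat_lit 0) (XT.lf (nat_lit 0) (nat_lit 33678731255) (nat_lit 152) (nat_lit 113812054699) (nat_lit 228) (nat_lit 290870092378) (nat_lit 12) (nat_lit 5) (nat_lit 14) (nat_lit 5) (nat_lit 15) (nat_lit 5) (nat_lit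 310) (nat_lit 285) (nat_lit 125)) (XT.nd (nat_lit 78) (nat_lit 0) (nat_lit 0) (XT.lf (nat_lit 0) (nat_lit 204712117098) (nat_lit 152) (nat_lit 8689917525) (nat_lit 228) (nat_lit 251110241145) (nat_lit 12) (nat_lit 5) (nat_lit 14) (nat_lit 5) (nat_lit 15) (nat_lit 5) (nat_lit 311) (nat_lit 285) (nat_lit 124)) (XT.lf (nat_lit 0) (nat_lit 287107564944) (nat_lit 228) (nat_lit 105849174490) (nat_lit 76) (nat_lit 99597335295) (nat_lit 12) (nat_lit 5) (nat_lit 15) (nat_lit 5) (nat_lit 13) (nat_lit 4) (nat_lit 312) (nat_lit 285) (nat_lit 123)))) (XT.nd (nat_lit 78) (nat_lit 0) (nat_lit 0) (XT.lf (nat_lit 0) (nat_lit 63361681519) (nat_lit 76) (nat_lit 305097352873) (nat_lit 152) (nat_lit 154240223727) (nat_lit 11) (nat_lit 5) (nat_lit 12) (nat_lit 5) (nat_lit 13) (nat_lit 4) (nat_lit 313) (nat_lit 285) (nat_lit 122)) (XT.nd (nat_lit 78) (nat_lit 0) (nat_lit 0) (XT.lf (nat_lit 0) (nat_lit 252129042267)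 (nat_lit 76) (nat_lit 207083620176) (nat_lit 152) (nat_lit 95811870687) (nat_lit 11) (nat_lit 5) (nat_lit 12) (nat_lit 5) (nat_lit 13) (nat_lit 4) (nat_lit 314) (nat_lit 285) (nat_lit 121)) (XT.lf (nat_lit 0) (nat_lit 455997699200) (nat_lit 76) (nat_lit 101228823235) (nat_lit 152) (nat_lit 32709312587) (nat_lit 11) (nat_lit 5) (nat_lit 12) (nat_lit 5) (nat_lit 13) (nat_lit 4) (nat_lit 315) (nat_lit 285) (nat_lit 120))))) (XT.nd (nat_lit 234) (nat_lit 76) (nat_lit 0) (XT.nd (nat_lit 78) (nat_lit 0) (nat_lit 0) (XT.lf (nat_lit 0) (nat_lit 35244056539) (nat_lit 228) (nat_lit 577649424051) (nat_lit 76) (nat_lit 14552328739) (nat_lit 8) (nat_lit 5) (nat_lit 11) (nat_lit 5) (nat_lit 9) (nat_lit 4) (nat_lit 316) (nat_lit 285) (nat_lit 119)) (XT.nd (nat_lit 78) (nat_lit 0) (nat_lit 0) (XT.lf (nat_lit 0) (nat_lit 113253034096) (nat_lit 228) (nat_lit 415390887152) (nat_lit 76) (nat_lit 138733773791)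 (nat_lit 8) (nat_lit 5) (nat_lit 11) (nat_lit 5) (nat_lit 9) (nat_lit 4) (nat_lit 317) (nat_lit 285) (nat_lit 118)) (XT.lf (nat_lit 0) (nat_lit 197502679543) (nat_lit 228) (nat_lit 240151750935) (nat_lit 76) (nat_lit 272849705310) (nat_lit 8) (nat_lit 5) (nat_lit 11) (nat_lit 5) (nat_lit 9) (nat_lit 4) (nat_lit 318) (nat_lit 285) (nat_lit 117)))) (XT.nd (nat_lit 78) (nat_lit 76) (nat_lit 0) (XT.lf (nat_lit 0) (nat_lit 288492250039) (nat_lit 228) (nat_lit 50893561262) (nat_lit 76) (nat_lit 417694884371) (nat_lit 8) (nat_lit 5) (nat_lit 11) (nat_lit 5) (nat_lit 9) (nat_lit 4) (nat_lit 319) (nat_lit 285) (nat_lit 116)) (XT.nd (nat_lit 78) (nat_lit 0) (nat_lit 0) (XT.lf (nat_lit 0) (nat_lit 161588524305) (nat_lit 76) (nat_lit 229058626629) (nat_lit 152) (nat_lit 416425336366) (nat_lit 7) (nat_lit 5) (nat_lit 8) (nat_lit 5) (nat_lit 9) (nat_lit 4) (nat_lit 320) (nat_lit 285) (nat_lit 115))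 (XT.lf (nat_lit 0) (nat_lit 393963468754) (nat_lit 76) (nat_lit 108402453680) (nat_lit 152) (nat_lit 358586381666) (nat_lit 7) (nat_lit 5) (nat_lit 8) (nat_lit 5) (nat_lit 9) (nat_lit 4) (nat_lit 321) (nat_lit 285) (nat_lit 114)))))) (XT.nd (nat_lit 34710) (nat_lit 0) (nat_lit 2052) (XT.nd (nat_lit 234) (nat_lit 76) (nat_lit 0) (XT.nd (nat_lit 78) (nat_lit 76) (nat_lit 0) (XT.lf (nat_lit 0) (nat_lit 623549001440) (nat_lit 152) (nat_lit 274741009720) (nat_lit 0) (nat_lit 20810350740) (nat_lit 7) (nat_lit 5) (nat_lit 9) (nat_lit 4) (nat_lit 7) (nat_lit 4) (nat_lit 322) (nat_lit 285) (nat_lit 113)) (XT.nd (nat_lit 78) (nat_lit 76) (nat_lit 0) (XT.lf (nat_lit 0) (nat_lit 757242338645) (nat_lit 152) (nat_lit 69929068488) (nat_lit 0) (nat_lit 154503608346) (nat_lit 7) (nat_lit 5) (nat_lit 9) (nat_lit 4) (nat_lit 7) (nat_lit 4) (nat_lit 323) (nat_lit 285) (nat_lit 112)) (XT.lf (nat_lit 0)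 (nat_lit 159233263078) (nat_lit 76) (nat_lit 746227409975) (nat_lit 76) (nat_lit 143488605973) (nat_lit 6) (nat_lit 4) (nat_lit 7) (nat_lit 5) (nat_lit 7) (nat_lit 4) (nat_lit 324) (nat_lit 285) (nat_lit 111)))) (XT.nd (nat_lit 78) (nat_lit 76) (nat_lit 0) (XT.lf (nat_lit 0) (nat_lit 410705453034) (nat_lit 76) (nat_lit 656742973392) (nat_lit 76) (nat_lit 54004101145) (nat_lit 6) (nat_lit 4) (nat_lit 7) (nat_lit 5) (nat_lit 7) (nat_lit 4) (nat_lit 325) (nat_lit 285) (nat_lit 110)) (XT.nd (nat_lit 78) (nat_lit 0) (nat_lit 0) (XT.lf (nat_lit 0) (nat_lit 40506149488) (nat_lit 152) (nat_lit 518486144499) (nat_lit 76) (nat_lit 640681706732) (nat_lit 5) (nat_lit 5) (nat_lit 7) (nat_lit 5) (nat_lit 6) (nat_lit 4) (nat_lit 326) (nat_lit 285) (nat_lit 109)) (XT.lf (nat_lit 0) (nat_lit 139659567393) (nat_lit 152) (nat_lit 312247093765) (nat_lit 76) (nat_lit 832134316608) (nat_lit 5) (nat_lit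 5) (nat_lit 7) (nat_lit 5) (nat_lit 6) (nat_lit 4) (nat_lit 327) (nat_lit 285) (nat_lit 108))))) (XT.nd (nat_lit 234) (nat_lit 0) (nat_lit 76) (XT.nd (nat_lit 78) (nat_lit 0) (nat_lit 0) (XT.lf (nat_lit 0) (nat_lit 17197635082) (nat_lit 532) (nat_lit 26839577055) (nat_lit 532) (nat_lit 26839577055) (nat_lit 32) (nat_lit 3) (nat_lit 39) (nat_lit 3) (nat_lit 39) (nat_lit 5) (nat_lit 286) (nat_lit 286) (nat_lit 148)) (XT.nd (nat_lit 78) (nat_lit 0) (nat_lit 76) (XT.lf (nat_lit 76) (nat_lit 5144638876) (nat_lit 0) (nat_lit 30753036789) (nat_lit 532) (nat_lit 111515899764) (nat_lit 33) (nat_lit 5) (nat_lit 32) (nat_lit 3) (nat_lit 39) (nat_lit 5) (nat_lit 287) (nat_lit 286) (nat_lit 147)) (XT.lf (nat_lit 0) (nat_lit 39775046748) (nat_lit 456) (nat_lit 82469410914) (nat_lit 532) (nat_lit 31101534573) (nat_lit 33) (nat_lit 5) (nat_lit 39) (nat_lit 5) (nat_lit 40) (nat_lit 5) (nat_lit 288)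 (nat_lit 286) (nat_lit 146)))) (XT.nd (nat_lit 78) (nat_lit 0) (nat_lit 76) (XT.lf (nat_lit 0) (nat_lit 44761121366) (nat_lit 456) (nat_lit 18684881291) (nat_lit 532) (nat_lit 96243120338) (nat_lit 33) (nat_lit 5) (nat_lit 39) (nat_lit 5) (nat_lit 40) (nat_lit 5) (nat_lit 289) (nat_lit 286) (nat_lit 145)) (XT.nd (nat_lit 78) (nat_lit 0) (nat_lit 0) (XT.lf (nat_lit 0) (nat_lit 51451146471) (nat_lit 456) (nat_lit 113626610985) (nat_lit 532) (nat_lit 1357543187) (nat_lit 34) (nat_lit 5) (nat_lit 40) (nat_lit 5) (nat_lit 41) (nat_lit 5) (nat_lit 290) (nat_lit 286) (nat_lit 144)) (XT.lf (nat_lit 0) (nat_lit 60848238553) (nat_lit 456) (nat_lit 44257330227) (nat_lit 532) (nat_lit 68441855994) (nat_lit 34) (nat_lit 5) (nat_lit 40) (nat_lit 5) (nat_lit 41) (nat_lit 5) (nat_lit 291) (nat_lit 286) (nat_lit 143))))))))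
noncomputable def xc117 : XT := (XT.nd (nat_lit 1872) (nat_lit 456) (nat_lit 0) (XT.nd (nat_lit 936) (nat_lit 684) (nat_lit 0) (XT.nd (nat_lit 468) (nat_lit 456) (nat_lit 0) (XT.nd (nat_lit 234) (nat_lit 228) (nat_lit 0) (XT.nd (nat_lit 78) (nat_lit 380) (nat_lit 0) (XT.lf (nat_lit 76) (nat_lit 32275895177) (nat_lit 0) (nat_lit 39497225481) (nat_lit 532) (nat_lit 109393317727) (nat_lit 35) (nat_lit 5) (nat_lit 34) (nat_lit 5) (nat_lit 41) (nat_lit 5) (nat_lit 292) (nat_lit 286) (nat_lit 142)) (XT.nd (nat_lit 78) (nat_lit 456) (nat_lit 0) (XT.lf (nat_lit 0) (nat_lit 85567500591) (nat_lit 456) (nat_lit 72635251869) (nat_lit 76) (nat_lit 31032581306) (nat_lit 35) (nat_lit 5) (nat_lit 41) (nat_lit 5) (nat_lit 36) (nat_lit 5) (nat_lit 293) (nat_lit 286) (nat_lit 141)) (XT.lf (nat_lit 0) (nat_lit 9152222800) (nat_lit 456) (nat_lit 92559035463) (nat_lit 532) (nat_lit 96138817494) (nat_lit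 29) (nat_lit 5) (nat_lit 35) (nat_lit 5) (nat_lit 36) (nat_lit 5) (nat_lit 294) (nat_lit 286) (nat_lit 140)))) (XT.nd (nat_lit 78) (nat_lit 228) (nat_lit 0) (XT.lf (nat_lit 0) (nat_lit 101613361593) (nat_lit 456) (nat_lit 19518955461) (nat_lit 532) (nat_lit 85862817093) (nat_lit 29) (nat_lit 5) (nat_lit 35) (nat_lit 5) (nat_lit 36) (nat_lit 5) (nat_lit 295) (nat_lit 286) (nat_lit 139)) (XT.nd (nat_lit 78) (nat_lit 228) (nat_lit 0) (XT.lf (nat_lit 0) (nat_lit 143534611418) (nat_lit 532) (nat_lit 16828286352) (nat_lit 76) (nat_lit 56394696371) (nat_lit 29) (nat_lit 5) (nat_lit 36) (nat_lit 5) (nat_lit 30) (nat_lit 5) (nat_lit 296) (nat_lit 286) (nat_lit 138)) (XT.lf (nat_lit 0) (nat_lit 82425600585) (nat_lit 228) (nat_lit 87792661613) (nat_lit 304) (nat_lit 56883655833) (nat_lit 26) (nat_lit 5) (nat_lit 29) (nat_lit 5) (nat_lit 30) (nat_lit 5) (nat_lit 297) (nat_lit 286) (nat_lit 137)))))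 (XT.nd (nat_lit 234) (nat_lit 228) (nat_lit 0) (XT.nd (nat_lit 78) (nat_lit 228) (nat_lit 0) (XT.lf (nat_lit 0) (nat_lit 190576687278) (nat_lit 228) (nat_lit 8919889804) (nat_lit 304) (nat_lit 38740413845) (nat_lit 26) (nat_lit 5) (nat_lit 29) (nat_lit 5) (nat_lit 30) (nat_lit 5) (nat_lit 298) (nat_lit 286) (nat_lit 136)) (XT.nd (nat_lit 78) (nat_lit 76) (nat_lit 0) (XT.lf (nat_lit 0) (nat_lit 58193810670) (nat_lit 152) (nat_lit 176156896194) (nat_lit 228) (nat_lit 15653479609) (nat_lit 24) (nat_lit 5) (nat_lit 26) (nat_lit 5) (nat_lit 27) (nat_lit 5) (nat_lit 299) (nat_lit 286) (nat_lit 135)) (XT.lf (nat_lit 0) (nat_lit 10384685128) (nat_lit 228) (nat_lit 87870651716) (nat_lit 76) (nat_lit 164314084421) (nat_lit 23) (nat_lit 5) (nat_lit 26) (nat_lit 5) (nat_lit 24) (nat_lit 5) (nat_lit 300) (nat_lit 286) (nat_lit 134)))) (XT.nd (nat_lit 78) (nat_lit 0) (nat_lit 0) (XT.lf (nat_lit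 0) (nat_lit 25240137200) (nat_lit 228) (nat_lit 13026976542) (nat_lit 304) (nat_lit 237791682604) (nat_lit 20) (nat_lit 5) (nat_lit 23) (nat_lit 5) (nat_lit 24) (nat_lit 5) (nat_lit 301) (nat_lit 286) (nat_lit 133)) (XT.nd (nat_lit 78) (nat_lit 0) (nat_lit 0) (XT.lf (nat_lit 0) (nat_lit 72745388423) (nat_lit 304) (nat_lit 140001024080) (nat_lit 76) (nat_lit 77531689371) (nat_lit 20) (nat_lit 5) (nat_lit 24) (nat_lit 5) (nat_lit 21) (nat_lit 5) (nat_lit 302) (nat_lit 286) (nat_lit 132)) (XT.lf (nat_lit 0) (nat_lit 110320180954) (nat_lit 304) (nat_lit 20656478907) (nat_lit 76) (nat_lit 174631232055) (nat_lit 20) (nat_lit 5) (nat_lit 24) (nat_lit 5) (nat_lit 21) (nat_lit 5) (nat_lit 303) (nat_lit 286) (nat_lit 131)))))) (XT.nd (nat_lit 468) (nat_lit 228) (nat_lit 0) (XT.nd (nat_lit 234) (nat_lit 152) (nat_lit 0) (XT.nd (nat_lit 78) (nat_lit 152) (nat_lit 0) (XT.lf (nat_lit 0) (nat_lit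 113934992154) (nat_lit 152) (nat_lit 39706004819) (nat_lit 228) (nat_lit 168303865482) (nat_lit 18) (nat_lit 5) (nat_lit 20) (nat_lit 5) (nat_lit 21) (nat_lit 5) (nat_lit 304) (nat_lit 286) (nat_lit 130)) (XT.nd (nat_lit 78) (nat_lit 152) (nat_lit 0) (XT.lf (nat_lit 0) (nat_lit 202422573180) (nat_lit 228) (nat_lit 80505612017) (nat_lit 76) (nat_lit 56500998310) (nat_lit 18) (nat_lit 5) (nat_lit 21) (nat_lit 5) (nat_lit 19) (nat_lit 5) (nat_lit 305) (nat_lit 286) (nat_lit 129)) (XT.lf (nat_lit 0) (nat_lit 59125223419) (nat_lit 152) (nat_lit 198434651428) (nat_lit 228) (nat_lit 100556119878) (nat_lit 16) (nat_lit 5) (nat_lit 18) (nat_lit 5) (nat_lit 19) (nat_lit 5) (nat_lit 306) (nat_lit 286) (nat_lit 128)))) (XT.nd (nat_lit 78) (nat_lit 152) (nat_lit 0) (XT.lf (nat_lit 0) (nat_lit 214504832422) (nat_lit 152) (nat_lit 104804409542) (nat_lit 228) (nat_lit 58812422767) (nat_lit 16) (nat_lit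 5) (nat_lit 18) (nat_lit 5) (nat_lit 19) (nat_lit 5) (nat_lit 307) (nat_lit 286) (nat_lit 127)) (XT.nd (nat_lit 78) (nat_lit 152) (nat_lit 0) (XT.lf (nat_lit 0) (nat_lit 382314700183) (nat_lit 152) (nat_lit 3683779764) (nat_lit 228) (nat_lit 13729315040) (nat_lit 16) (nat_lit 5) (nat_lit 18) (nat_lit 5) (nat_lit 19) (nat_lit 5) (nat_lit 308) (nat_lit 286) (nat_lit 126)) (XT.lf (nat_lit 0) (nat_lit 39398426379) (nat_lit 152) (nat_lit 278364361791) (nat_lit 76) (nat_lit 104737416017) (nat_lit 14) (nat_lit 5) (nat_lit 16) (nat_lit 5) (nat_lit 15) (nat_lit 5) (nat_lit 309) (nat_lit 286) (nat_lit 125))))) (XT.nd (nat_lit 234) (nat_lit 76) (nat_lit 0) (XT.nd (nat_lit 78) (nat_lit 152) (nat_lit 0) (XT.lf (nat_lit 0) (nat_lit 96618728720) (nat_lit 152) (nat_lit 127922088237) (nat_lit 76) (nat_lit 222478334514) (nat_lit 14) (nat_lit 5) (nat_lit 16) (nat_lit 5) (nat_lit 15) (nat_lit 5) (nat_lit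 310) (nat_lit 286) (nat_lit 124)) (XT.nd (nat_lit 78) (nat_lit 0) (nat_lit 0) (XT.lf (nat_lit 0) (nat_lit 36375096212) (nat_lit 152) (nat_lit 122916313754) (nat_lit 228) (nat_lit 314138224464) (nat_lit 12) (nat_lit 5) (nat_lit 14) (nat_lit 5) (nat_lit 15) (nat_lit 5) (nat_lit 311) (nat_lit 286) (nat_lit 123)) (XT.lf (nat_lit 0) (nat_lit 221090999851) (nat_lit 152) (nat_lit 9384457852) (nat_lit 228) (nat_lit 271197694415) (nat_lit 12) (nat_lit 5) (nat_lit 14) (nat_lit 5) (nat_lit 15) (nat_lit 5) (nat_lit 312) (nat_lit 286) (nat_lit 122)))) (XT.nd (nat_lit 78) (nat_lit 76) (nat_lit 0) (XT.lf (nat_lit 0) (nat_lit 310077351636) (nat_lit 228) (nat_lit 114315253458) (nat_lit 76) (nat_lit 107565696568) (nat_lit 12) (nat_lit 5) (nat_lit 15) (nat_lit 5) (nat_lit 13) (nat_lit 4) (nat_lit 313) (nat_lit 286) (nat_lit 121)) (XT.nd (nat_lit 78) (nat_lit 0) (nat_lit 0) (XT.lf (nat_lit 0) (nat_lit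 68432424070) (nat_lit 76) (nat_lit 329504470536) (nat_lit 152) (nat_lit 166578208976) (nat_lit 11) (nat_lit 5) (nat_lit 12) (nat_lit 5) (nat_lit 13) (nat_lit 4) (nat_lit 314) (nat_lit 286) (nat_lit 120)) (XT.lf (nat_lit 0) (nat_lit 272301039749) (nat_lit 76) (nat_lit 223649688895) (nat_lit 152) (nat_lit 103475679001) (nat_lit 11) (nat_lit 5) (nat_lit 12) (nat_lit 5) (nat_lit 13) (nat_lit 4) (nat_lit 315) (nat_lit 286) (nat_lit 119))))))) (XT.nd (nat_lit 35256) (nat_lit 0) (nat_lit 1596) (XT.nd (nat_lit 468) (nat_lit 152) (nat_lit 0) (XT.nd (nat_lit 234) (nat_lit 76) (nat_lit 0) (XT.nd (nat_lit 78) (nat_lit 228) (nat_lit 0) (XT.lf (nat_lit 0) (nat_lit 492479065230) (nat_lit 76) (nat_lit 109326554190) (nat_lit 152) (nat_lit 35325000796) (nat_lit 11) (nat_lit 5) (nat_lit 12) (nat_lit 5) (nat_lit 13) (nat_lit 4) (nat_lit 316) (nat_lit 286) (nat_lit 118)) (XT.nd (nat_lit 78) (nat_lit 0)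 (nat_lit 0) (XT.lf (nat_lit 0) (nat_lit 38064562673) (nat_lit 228) (nat_lit 623859746290) (nat_lit 76) (nat_lit 15717083503) (nat_lit 8) (nat_lit 5) (nat_lit 11) (nat_lit 5) (nat_lit 9) (nat_lit 4) (nat_lit 317) (nat_lit 286) (nat_lit 117)) (XT.lf (nat_lit 0) (nat_lit 122314185723) (nat_lit 228) (nat_lit 448620647305) (nat_lit 76) (nat_lit 149833002051) (nat_lit 8) (nat_lit 5) (nat_lit 11) (nat_lit 5) (nat_lit 9) (nat_lit 4) (nat_lit 318) (nat_lit 286) (nat_lit 116)))) (XT.nd (nat_lit 78) (nat_lit 76) (nat_lit 0) (XT.lf (nat_lit 0) (nat_lit 213303735480) (nat_lit 228) (nat_lit 259362492103) (nat_lit 76) (nat_lit 294678169102) (nat_lit 8) (nat_lit 5) (nat_lit 11) (nat_lit 5) (nat_lit 9) (nat_lit 4) (nat_lit 319) (nat_lit 286) (nat_lit 115)) (XT.nd (nat_lit 78) (nat_lit 76) (nat_lit 0) (XT.lf (nat_lit 0) (nat_lit 311572409277) (nat_lit 228) (nat_lit 54963750878) (nat_lit 76) (nat_lit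 451110926386) (nat_lit 8) (nat_lit 5) (nat_lit 11) (nat_lit 5) (nat_lit 9) (nat_lit 4) (nat_lit 320) (nat_lit 286) (nat_lit 114)) (XT.lf (nat_lit 0) (nat_lit 174516868741) (nat_lit 76) (nat_lit 247382806144) (nat_lit 152) (nat_lit 449738548985) (nat_lit 7) (nat_lit 5) (nat_lit 8) (nat_lit 5) (nat_lit 9) (nat_lit 4) (nat_lit 321) (nat_lit 286) (nat_lit 113))))) (XT.nd (nat_lit 234) (nat_lit 152) (nat_lit 0) (XT.nd (nat_lit 78) (nat_lit 0) (nat_lit 0) (XT.lf (nat_lit 0) (nat_lit 425481715229) (nat_lit 76) (nat_lit 117074177183) (nat_lit 152) (nat_lit 387272538227) (nat_lit 7) (nat_lit 5) (nat_lit 8) (nat_lit 5) (nat_lit 9) (nat_lit 4) (nat_lit 322) (nat_lit 286) (nat_lit 112)) (XT.nd (nat_lit 78) (nat_lit 0) (nat_lit 0) (XT.lf (nat_lit 0) (nat_lit 673433576696) (nat_lit 152) (nat_lit 296719165133) (nat_lit 0) (nat_lit 22475594670) (nat_lit 7) (nat_lit 5) (nat_lit 9) (nat_lit 4) (nat_lit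 7) (nat_lit 4) (nat_lit 323) (nat_lit 286) (nat_lit 111)) (XT.lf (nat_lit 0) (nat_lit 817822332349) (nat_lit 152) (nat_lit 75522351962) (nat_lit 0) (nat_lit 166864282079) (nat_lit 7) (nat_lit 5) (nat_lit 9) (nat_lit 4) (nat_lit 7) (nat_lit 4) (nat_lit 324) (nat_lit 286) (nat_lit 110)))) (XT.nd (nat_lit 78) (nat_lit 76) (nat_lit 0) (XT.lf (nat_lit 0) (nat_lit 171972939748) (nat_lit 76) (nat_lit 805925173253) (nat_lit 76) (nat_lit 154967059794) (nat_lit 6) (nat_lit 4) (nat_lit 7) (nat_lit 5) (nat_lit 7) (nat_lit 4) (nat_lit 325) (nat_lit 286) (nat_lit 109)) (XT.nd (nat_lit 78) (nat_lit 76) (nat_lit 0) (XT.lf (nat_lit 0) (nat_lit 443562829670) (nat_lit 76) (nat_lit 709282013559) (nat_lit 76) (nat_lit 58323841592) (nat_lit 6) (nat_lit 4) (nat_lit 7) (nat_lit 5) (nat_lit 7) (nat_lit 4) (nat_lit 326) (nat_lit 286) (nat_lit 108)) (XT.lf (nat_lit 0) (nat_lit 43747158343) (nat_lit 152) (nat_lit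 559964136785) (nat_lit 76) (nat_lit 691936582975) (nat_lit 5) (nat_lit 5) (nat_lit 7) (nat_lit 5) (nat_lit 6) (nat_lit 4) (nat_lit 327) (nat_lit 286) (nat_lit 107)))))) (XT.nd (nat_lit 468) (nat_lit 456) (nat_lit 0) (XT.nd (nat_lit 234) (nat_lit 0) (nat_lit 76) (XT.nd (nat_lit 78) (nat_lit 0) (nat_lit 0) (XT.lf (nat_lit 0) (nat_lit 18576242967) (nat_lit 532) (nat_lit 28985223761) (nat_lit 532) (nat_lit 28985223761) (nat_lit 32) (nat_lit 3) (nat_lit 39) (nat_lit 3) (nat_lit 39) (nat_lit 5) (nat_lit 287) (nat_lit 287) (nat_lit 146)) (XT.nd (nat_lit 78) (nat_lit 0) (nat_lit 76) (XT.lf (nat_lit 76) (nat_lit 5559171969) (nat_lit 0) (nat_lit 33215568760) (nat_lit 532) (nat_lit 120431467186) (nat_lit 33) (nat_lit 5) (nat_lit 32) (nat_lit 3) (nat_lit 39) (nat_lit 5) (nat_lit 288) (nat_lit 287) (nat_lit 145)) (XT.lf (nat_lit 0) (nat_lit 42961861562) (nat_lit 456) (nat_lit 89063750286) (nat_lit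 532) (nat_lit 33587643893) (nat_lit 33) (nat_lit 5) (nat_lit 39) (nat_lit 5) (nat_lit 40) (nat_lit 5) (nat_lit 289) (nat_lit 287) (nat_lit 144)))) (XT.nd (nat_lit 78) (nat_lit 0) (nat_lit 76) (XT.lf (nat_lit 0) (nat_lit 48346465773) (nat_lit 456) (nat_lit 20176696330) (nat_lit 532) (nat_lit 103940705663) (nat_lit 33) (nat_lit 5) (nat_lit 39) (nat_lit 5) (nat_lit 40) (nat_lit 5) (nat_lit 290) (nat_lit 287) (nat_lit 143)) (XT.nd (nat_lit 78) (nat_lit 0) (nat_lit 0) (XT.lf (nat_lit 0) (nat_lit 55571401528) (nat_lit 456) (nat_lit 122713446473) (nat_lit 532) (nat_lit 1464917057) (nat_lit 34) (nat_lit 5) (nat_lit 40) (nat_lit 5) (nat_lit 41) (nat_lit 5) (nat_lit 291) (nat_lit 287) (nat_lit 142)) (XT.lf (nat_lit 0) (nat_lit 65719952582) (nat_lit 456) (nat_lit 47794867210) (nat_lit 532) (nat_lit 73916065969) (nat_lit 34) (nat_lit 5) (nat_lit 40) (nat_lit 5) (nat_lit 41) (nat_lit 5) (nat_lit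 292) (nat_lit 287) (nat_lit 141))))) (XT.nd (nat_lit 234) (nat_lit 228) (nat_lit 0) (XT.nd (nat_lit 78) (nat_lit 380) (nat_lit 0) (XT.lf (nat_lit 76) (nat_lit 34860939026) (nat_lit 0) (nat_lit 42657672160) (nat_lit 532) (nat_lit 118140828223) (nat_lit 35) (nat_lit 5) (nat_lit 34) (nat_lit 5) (nat_lit 41) (nat_lit 5) (nat_lit 293) (nat_lit 287) (nat_lit 140)) (XT.nd (nat_lit 78) (nat_lit 456) (nat_lit 0) (XT.lf (nat_lit 0) (nat_lit 92416256930) (nat_lit 456) (nat_lit 78443014275) (nat_lit 76) (nat_lit 33514599668) (nat_lit 35) (nat_lit 5) (nat_lit 41) (nat_lit 5) (nat_lit 36) (nat_lit 5) (nat_lit 294) (nat_lit 287) (nat_lit 139)) (XT.lf (nat_lit 0) (nat_lit 9887380955) (nat_lit 456) (nat_lit 99963957322) (nat_lit 532) (nat_lit 103826469664) (nat_lit 29) (nat_lit 5) (nat_lit 35) (nat_lit 5) (nat_lit 36) (nat_lit 5) (nat_lit 295) (nat_lit 287) (nat_lit 138)))) (XT.nd (nat_lit 156) (nat_lit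 228) (nat_lit 0) (XT.nd (nat_lit 78) (nat_lit 0) (nat_lit 0) (XT.lf (nat_lit 0) (nat_lit 109745190087) (nat_lit 456) (nat_lit 21080656178) (nat_lit 532) (nat_lit 92728645025) (nat_lit 29) (nat_lit 5) (nat_lit 35) (nat_lit 5) (nat_lit 36) (nat_lit 5) (nat_lit 296) (nat_lit 287) (nat_lit 137)) (XT.lf (nat_lit 0) (nat_lit 155020102012) (nat_lit 532) (nat_lit 18171755198) (nat_lit 76) (nat_lit 60906109986) (nat_lit 29) (nat_lit 5) (nat_lit 36) (nat_lit 5) (nat_lit 30) (nat_lit 5) (nat_lit 297) (nat_lit 287) (nat_lit 136))) (XT.nd (nat_lit 78) (nat_lit 0) (nat_lit 0) (XT.lf (nat_lit 0) (nat_lit 89022371959) (nat_lit 228) (nat_lit 94815936786) (nat_lit 304) (nat_lit 61431540382) (nat_lit 26) (nat_lit 5) (nat_lit 29) (nat_lit 5) (nat_lit 30) (nat_lit 5) (nat_lit 298) (nat_lit 287) (nat_lit 135)) (XT.lf (nat_lit 0) (nat_lit 205825343859) (nat_lit 228) (nat_lit 9633353436) (nat_lit 304) (nat_lit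 41837047029) (nat_lit 26) (nat_lit 5) (nat_lit 29) (nat_lit 5) (nat_lit 30) (nat_lit 5) (nat_lit 299) (nat_lit 287) (nat_lit 134))))))))
noncomputable def xc118 : XT := (XT.nd (nat_lit 1872) (nat_lit 76) (nat_lit 0) (XT.nd (nat_lit 936) (nat_lit 532) (nat_lit 0) (XT.nd (nat_lit 468) (nat_lit 304) (nat_lit 0) (XT.nd (nat_lit 234) (nat_lit 152) (nat_lit 0) (XT.nd (nat_lit 78) (nat_lit 304) (nat_lit 0) (XT.lf (nat_lit 0) (nat_lit 62851970960) (nat_lit 152) (nat_lit 190249075867) (nat_lit 228) (nat_lit 16903278601) (nat_lit 24) (nat_lit 5) (nat_lit 26) (nat_lit 5) (nat_lit 27) (nat_lit 5) (nat_lit 300) (nat_lit 287) (nat_lit 133)) (XT.nd (nat_lit 78) (nat_lit 228) (nat_lit 0) (XT.lf (nat_lit 0) (nat_lit 11217640817) (nat_lit 228) (nat_lit 94897718881) (nat_lit 76) (nat_lit 177459429404) (nat_lit 23) (nat_lit 5) (nat_lit 26) (nat_lit 5) (nat_lit 24) (nat_lit 5) (nat_lit 301) (nat_lit 287)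 (nat_lit 132)) (XT.lf (nat_lit 0) (nat_lit 27261867706) (nat_lit 228) (nat_lit 14068695061) (nat_lit 304) (nat_lit 256812760341) (nat_lit 20) (nat_lit 5) (nat_lit 23) (nat_lit 5) (nat_lit 24) (nat_lit 5) (nat_lit 302) (nat_lit 287) (nat_lit 131)))) (XT.nd (nat_lit 78) (nat_lit 152) (nat_lit 0) (XT.lf (nat_lit 0) (nat_lit 78566955144) (nat_lit 304) (nat_lit 151198619060) (nat_lit 76) (nat_lit 83734611199) (nat_lit 20) (nat_lit 5) (nat_lit 24) (nat_lit 5) (nat_lit 21) (nat_lit 5) (nat_lit 303) (nat_lit 287) (nat_lit 130)) (XT.nd (nat_lit 78) (nat_lit 152) (nat_lit 0) (XT.lf (nat_lit 0) (nat_lit 119147587696) (nat_lit 304) (nat_lit 22306694491) (nat_lit 76) (nat_lit 188602088655) (nat_lit 20) (nat_lit 5) (nat_lit 24) (nat_lit 5) (nat_lit 21) (nat_lit 5) (nat_lit 304) (nat_lit 287) (nat_lit 129)) (XT.lf (nat_lit 0) (nat_lit 123052035957) (nat_lit 152) (nat_lit 42881954257) (nat_lit 228)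 (nat_lit 181766315783) (nat_lit 18) (nat_lit 5) (nat_lit 20) (nat_lit 5) (nat_lit 21) (nat_lit 5) (nat_lit 305) (nat_lit 287) (nat_lit 128))))) (XT.nd (nat_lit 234) (nat_lit 152) (nat_lit 0) (XT.nd (nat_lit 78) (nat_lit 152) (nat_lit 0) (XT.lf (nat_lit 0) (nat_lit 218617977417) (nat_lit 228) (nat_lit 86943859945) (nat_lit 76) (nat_lit 61021545200) (nat_lit 18) (nat_lit 5) (nat_lit 21) (nat_lit 5) (nat_lit 19) (nat_lit 5) (nat_lit 306) (nat_lit 287) (nat_lit 127)) (XT.nd (nat_lit 78) (nat_lit 0) (nat_lit 0) (XT.lf (nat_lit 0) (nat_lit 63857386603) (nat_lit 152) (nat_lit 214308809810) (nat_lit 228) (nat_lit 108598948183) (nat_lit 16) (nat_lit 5) (nat_lit 18) (nat_lit 5) (nat_lit 19) (nat_lit 5) (nat_lit 307) (nat_lit 287) (nat_lit 126)) (XT.lf (nat_lit 0) (nat_lit 231667205414) (nat_lit 152) (nat_lit 113188194035) (nat_lit 228) (nat_lit 63515878362) (nat_lit 16) (nat_lit 5) (nat_lit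 18) (nat_lit 5) (nat_lit 19) (nat_lit 5) (nat_lit 308) (nat_lit 287) (nat_lit 125)))) (XT.nd (nat_lit 78) (nat_lit 152) (nat_lit 0) (XT.lf (nat_lit 0) (nat_lit 412901715456) (nat_lit 152) (nat_lit 3977955969) (nat_lit 228) (nat_lit 14826235959) (nat_lit 16) (nat_lit 5) (nat_lit 18) (nat_lit 5) (nat_lit 19) (nat_lit 5) (nat_lit 309) (nat_lit 287) (nat_lit 124)) (XT.nd (nat_lit 78) (nat_lit 0) (nat_lit 0) (XT.lf (nat_lit 0) (nat_lit 42551611926) (nat_lit 152) (nat_lit 300631547651) (nat_lit 76) (nat_lit 113116950752) (nat_lit 14) (nat_lit 5) (nat_lit 16) (nat_lit 5) (nat_lit 15) (nat_lit 5) (nat_lit 310) (nat_lit 287) (nat_lit 123)) (XT.lf (nat_lit 0) (nat_lit 104349441311) (nat_lit 152) (nat_lit 138154037626) (nat_lit 76) (nat_lit 240277102622) (nat_lit 14) (nat_lit 5) (nat_lit 16) (nat_lit 5) (nat_lit 15) (nat_lit 5) (nat_lit 311) (nat_lit 287) (nat_lit 122)))))) (XT.nd (nat_lit 468)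 (nat_lit 304) (nat_lit 0) (XT.nd (nat_lit 234) (nat_lit 76) (nat_lit 0) (XT.nd (nat_lit 78) (nat_lit 0) (nat_lit 0) (XT.lf (nat_lit 0) (nat_lit 39286875562) (nat_lit 152) (nat_lit 132749014156) (nat_lit 228) (nat_lit 339268017587) (nat_lit 12) (nat_lit 5) (nat_lit 14) (nat_lit 5) (nat_lit 15) (nat_lit 5) (nat_lit 312) (nat_lit 287) (nat_lit 121)) (XT.nd (nat_lit 78) (nat_lit 0) (nat_lit 0) (XT.lf (nat_lit 0) (nat_lit 238779920258) (nat_lit 152) (nat_lit 10134654574) (nat_lit 228) (nat_lit 292892338825) (nat_lit 12) (nat_lit 5) (nat_lit 14) (nat_lit 5) (nat_lit 15) (nat_lit 5) (nat_lit 313) (nat_lit 287) (nat_lit 120)) (XT.lf (nat_lit 0) (nat_lit 334884552710) (nat_lit 228) (nat_lit 123458883379) (nat_lit 76) (nat_lit 116171444791) (nat_lit 12) (nat_lit 5) (nat_lit 15) (nat_lit 5) (nat_lit 13) (nat_lit 4) (nat_lit 314) (nat_lit 287) (nat_lit 119)))) (XT.nd (nat_lit 78) (nat_lit 0) (nat_lit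 0) (XT.lf (nat_lit 0) (nat_lit 73908568089) (nat_lit 76) (nat_lit 355864253276) (nat_lit 152) (nat_lit 179903408897) (nat_lit 11) (nat_lit 5) (nat_lit 12) (nat_lit 5) (nat_lit 13) (nat_lit 4) (nat_lit 315) (nat_lit 287) (nat_lit 118)) (XT.nd (nat_lit 78) (nat_lit 0) (nat_lit 0) (XT.lf (nat_lit 0) (nat_lit 294086558201) (nat_lit 76) (nat_lit 241541131689) (nat_lit 152) (nat_lit 111752754805) (nat_lit 11) (nat_lit 5) (nat_lit 12) (nat_lit 5) (nat_lit 13) (nat_lit 4) (nat_lit 316) (nat_lit 287) (nat_lit 117)) (XT.lf (nat_lit 0) (nat_lit 531878719403) (nat_lit 76) (nat_lit 118072185638) (nat_lit 152) (nat_lit 38150094826) (nat_lit 11) (nat_lit 5) (nat_lit 12) (nat_lit 5) (nat_lit 13) (nat_lit 4) (nat_lit 317) (nat_lit 287) (nat_lit 116))))) (XT.nd (nat_lit 234) (nat_lit 76) (nat_lit 0) (XT.nd (nat_lit 78) (nat_lit 0) (nat_lit 0) (XT.lf (nat_lit 0) (nat_lit 41110569261) (nat_lit 228) (nat_lit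 673767127087) (nat_lit 76) (nat_lit 16974937551) (nat_lit 8) (nat_lit 5) (nat_lit 11) (nat_lit 5) (nat_lit 9) (nat_lit 4) (nat_lit 318) (nat_lit 287) (nat_lit 115)) (XT.nd (nat_lit 78) (nat_lit 0) (nat_lit 0) (XT.lf (nat_lit 0) (nat_lit 132100099816) (nat_lit 228) (nat_lit 484509003805) (nat_lit 76) (nat_lit 161820093481) (nat_lit 8) (nat_lit 5) (nat_lit 11) (nat_lit 5) (nat_lit 9) (nat_lit 4) (nat_lit 319) (nat_lit 287) (nat_lit 114)) (XT.lf (nat_lit 0) (nat_lit 230368755833) (nat_lit 228) (nat_lit 280110292135) (nat_lit 76) (nat_lit 318252840469) (nat_lit 8) (nat_lit 5) (nat_lit 11) (nat_lit 5) (nat_lit 9) (nat_lit 4) (nat_lit 320) (nat_lit 287) (nat_lit 113)))) (XT.nd (nat_lit 78) (nat_lit 76) (nat_lit 0) (XT.lf (nat_lit 0) (nat_lit 336498870088) (nat_lit 228) (nat_lit 59359740451) (nat_lit 76) (nat_lit 487200187385) (nat_lit 8) (nat_lit 5) (nat_lit 11) (nat_lit 5) (nat_lit 9) (nat_lit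 4) (nat_lit 321) (nat_lit 287) (nat_lit 112)) (XT.nd (nat_lit 78) (nat_lit 0) (nat_lit 0) (XT.lf (nat_lit 0) (nat_lit 188479300624) (nat_lit 76) (nat_lit 267172992865) (nat_lit 152) (nat_lit 485716934781) (nat_lit 7) (nat_lit 5) (nat_lit 8) (nat_lit 5) (nat_lit 9) (nat_lit 4) (nat_lit 322) (nat_lit 287) (nat_lit 111)) (XT.lf (nat_lit 0) (nat_lit 459521254654) (nat_lit 76) (nat_lit 126439706015) (nat_lit 152) (nat_lit 418253694875) (nat_lit 7) (nat_lit 5) (nat_lit 8) (nat_lit 5) (nat_lit 9) (nat_lit 4) (nat_lit 323) (nat_lit 287) (nat_lit 110))))))) (XT.nd (nat_lit 35334) (nat_lit 0) (nat_lit 760) (XT.nd (nat_lit 34866) (nat_lit 0) (nat_lit 2052) (XT.nd (nat_lit 234) (nat_lit 0) (nat_lit 0) (XT.nd (nat_lit 78) (nat_lit 76) (nat_lit 0) (XT.lf (nat_lit 0) (nat_lit 727308824510) (nat_lit 152) (nat_lit 320455733525) (nat_lit 0) (nat_lit 24273998786) (nat_lit 7) (nat_lit 5) (nat_lit 9) (nat_lit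 4) (nat_lit 7) (nat_lit 4) (nat_lit 324) (nat_lit 287) (nat_lit 109)) (XT.nd (nat_lit 78) (nat_lit 76) (nat_lit 0) (XT.lf (nat_lit 0) (nat_lit 883248639010) (nat_lit 152) (nat_lit 81563246768) (nat_lit 0) (nat_lit 180213754778) (nat_lit 7) (nat_lit 5) (nat_lit 9) (nat_lit 4) (nat_lit 7) (nat_lit 4) (nat_lit 325) (nat_lit 287) (nat_lit 108)) (XT.lf (nat_lit 0) (nat_lit 185731645663) (nat_lit 76) (nat_lit 870398818869) (nat_lit 76) (nat_lit 167363880463) (nat_lit 6) (nat_lit 4) (nat_lit 7) (nat_lit 5) (nat_lit 7) (nat_lit 4) (nat_lit 326) (nat_lit 287) (nat_lit 107)))) (XT.nd (nat_lit 34476) (nat_lit 0) (nat_lit 1976) (XT.lf (nat_lit 0) (nat_lit 479048662279) (nat_lit 76) (nat_lit 766024233677) (nat_lit 76) (nat_lit 62989245109) (nat_lit 6) (nat_lit 4) (nat_lit 7) (nat_lit 5) (nat_lit 7) (nat_lit 4) (nat_lit 327) (nat_lit 287) (nat_lit 106)) (XT.nd (nat_lit 78) (nat_lit 0) (nat_lit 0)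 (XT.lf (nat_lit 0) (nat_lit 20064740448) (nat_lit 532) (nat_lit 31302738971) (nat_lit 532) (nat_lit 31302738971) (nat_lit 32) (nat_lit 3) (nat_lit 39) (nat_lit 3) (nat_lit 39) (nat_lit 5) (nat_lit 288) (nat_lit 288) (nat_lit 144)) (XT.lf (nat_lit 76) (nat_lit 6006445149) (nat_lit 0) (nat_lit 35874776734) (nat_lit 532) (nat_lit 130061093822) (nat_lit 33) (nat_lit 5) (nat_lit 32) (nat_lit 3) (nat_lit 39) (nat_lit 5) (nat_lit 289) (nat_lit 288) (nat_lit 143))))) (XT.nd (nat_lit 234) (nat_lit 0) (nat_lit 76) (XT.nd (nat_lit 78) (nat_lit 0) (nat_lit 0) (XT.lf (nat_lit 0) (nat_lit 46402935207) (nat_lit 456) (nat_lit 96186095249) (nat_lit 532) (nat_lit 36272929199) (nat_lit 33) (nat_lit 5) (nat_lit 39) (nat_lit 5) (nat_lit 40) (nat_lit 5) (nat_lit 290) (nat_lit 288) (nat_lit 142)) (XT.nd (nat_lit 78) (nat_lit 0) (nat_lit 76) (XT.lf (nat_lit 0) (nat_lit 52218002220) (nat_lit 456) (nat_lit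 21788281056) (nat_lit 532) (nat_lit 112254363778) (nat_lit 33) (nat_lit 5) (nat_lit 39) (nat_lit 5) (nat_lit 40) (nat_lit 5) (nat_lit 291) (nat_lit 288) (nat_lit 141)) (XT.lf (nat_lit 0) (nat_lit 60020683043) (nat_lit 456) (nat_lit 132527698640) (nat_lit 532) (nat_lit 1581056251) (nat_lit 34) (nat_lit 5) (nat_lit 40) (nat_lit 5) (nat_lit 41) (nat_lit 5) (nat_lit 292) (nat_lit 288) (nat_lit 140)))) (XT.nd (nat_lit 78) (nat_lit 0) (nat_lit 0) (XT.lf (nat_lit 0) (nat_lit 70980853782) (nat_lit 456) (nat_lit 51615842188) (nat_lit 532) (nat_lit 79828375163) (nat_lit 34) (nat_lit 5) (nat_lit 40) (nat_lit 5) (nat_lit 41) (nat_lit 5) (nat_lit 293) (nat_lit 288) (nat_lit 139)) (XT.nd (nat_lit 78) (nat_lit 0) (nat_lit 76) (XT.lf (nat_lit 76) (nat_lit 37652362359) (nat_lit 0) (nat_lit 46070859185) (nat_lit 532) (nat_lit 127588703773) (nat_lit 35) (nat_lit 5) (nat_lit 34) (nat_lit 5) (nat_lit 41)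 (nat_lit 5) (nat_lit 294) (nat_lit 288) (nat_lit 138)) (XT.lf (nat_lit 0) (nat_lit 99812434963) (nat_lit 456) (nat_lit 84715833896) (nat_lit 76) (nat_lit 36195263405) (nat_lit 35) (nat_lit 5) (nat_lit 41) (nat_lit 5) (nat_lit 36) (nat_lit 5) (nat_lit 295) (nat_lit 288) (nat_lit 137)))))) (XT.nd (nat_lit 468) (nat_lit 608) (nat_lit 0) (XT.nd (nat_lit 234) (nat_lit 380) (nat_lit 0) (XT.nd (nat_lit 78) (nat_lit 0) (nat_lit 0) (XT.lf (nat_lit 0) (nat_lit 10680926586) (nat_lit 456) (nat_lit 107961244538) (nat_lit 532) (nat_lit 112129626648) (nat_lit 29) (nat_lit 5) (nat_lit 35) (nat_lit 5) (nat_lit 36) (nat_lit 5) (nat_lit 296) (nat_lit 288) (nat_lit 136)) (XT.nd (nat_lit 78) (nat_lit 0) (nat_lit 0) (XT.lf (nat_lit 0) (nat_lit 118527171177) (nat_lit 456) (nat_lit 22767266662) (nat_lit 532) (nat_lit 100144195342) (nat_lit 29) (nat_lit 5) (nat_lit 35) (nat_lit 5) (nat_lit 36) (nat_lit 5)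 (nat_lit 297) (nat_lit 288) (nat_lit 135)) (XT.lf (nat_lit 0) (nat_lit 167424043575) (nat_lit 532) (nat_lit 19623100156) (nat_lit 76) (nat_lit 65778459816) (nat_lit 29) (nat_lit 5) (nat_lit 36) (nat_lit 5) (nat_lit 30) (nat_lit 5) (nat_lit 298) (nat_lit 288) (nat_lit 134)))) (XT.nd (nat_lit 78) (nat_lit 152) (nat_lit 0) (XT.lf (nat_lit 0) (nat_lit 96146496529) (nat_lit 228) (nat_lit 102401093625) (nat_lit 304) (nat_lit 66343656276) (nat_lit 26) (nat_lit 5) (nat_lit 29) (nat_lit 5) (nat_lit 30) (nat_lit 5) (nat_lit 299) (nat_lit 288) (nat_lit 133)) (XT.nd (nat_lit 78) (nat_lit 152) (nat_lit 0) (XT.lf (nat_lit 0) (nat_lit 222293533232) (nat_lit 228) (nat_lit 10403912355) (nat_lit 304) (nat_lit 45181781776) (nat_lit 26) (nat_lit 5) (nat_lit 29) (nat_lit 5) (nat_lit 30) (nat_lit 5) (nat_lit 300) (nat_lit 288) (nat_lit 132)) (XT.lf (nat_lit 0) (nat_lit 67882405245) (nat_lit 152) (nat_lit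 205468682987) (nat_lit 228) (nat_lit 18253415224) (nat_lit 24) (nat_lit 5) (nat_lit 26) (nat_lit 5) (nat_lit 27) (nat_lit 5) (nat_lit 301) (nat_lit 288) (nat_lit 131))))) (XT.nd (nat_lit 234) (nat_lit 304) (nat_lit 0) (XT.nd (nat_lit 78) (nat_lit 228) (nat_lit 0) (XT.lf (nat_lit 0) (nat_lit 12116921833) (nat_lit 228) (nat_lit 102487320194) (nat_lit 76) (nat_lit 191656370853) (nat_lit 23) (nat_lit 5) (nat_lit 26) (nat_lit 5) (nat_lit 24) (nat_lit 5) (nat_lit 302) (nat_lit 288) (nat_lit 130)) (XT.nd (nat_lit 78) (nat_lit 0) (nat_lit 0) (XT.lf (nat_lit 0) (nat_lit 29444977214) (nat_lit 228) (nat_lit 15193813777) (nat_lit 304) (nat_lit 277355846266) (nat_lit 20) (nat_lit 5) (nat_lit 23) (nat_lit 5) (nat_lit 24) (nat_lit 5) (nat_lit 303) (nat_lit 288) (nat_lit 129)) (XT.lf (nat_lit 0) (nat_lit 84853971061) (nat_lit 304) (nat_lit 163292376429) (nat_lit 76) (nat_lit 90433711610) (nat_lit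 20) (nat_lit 5) (nat_lit 24) (nat_lit 5) (nat_lit 21) (nat_lit 5) (nat_lit 304) (nat_lit 288) (nat_lit 128)))) (XT.nd (nat_lit 156) (nat_lit 152) (nat_lit 0) (XT.nd (nat_lit 78) (nat_lit 152) (nat_lit 0) (XT.lf (nat_lit 0) (nat_lit 128680931290) (nat_lit 304) (nat_lit 24089255832) (nat_lit 76) (nat_lit 203690562706) (nat_lit 20) (nat_lit 5) (nat_lit 24) (nat_lit 5) (nat_lit 21) (nat_lit 5) (nat_lit 305) (nat_lit 288) (nat_lit 127)) (XT.lf (nat_lit 0) (nat_lit 132898123072) (nat_lit 152) (nat_lit 46312055396) (nat_lit 228) (nat_lit 196306027306) (nat_lit 18) (nat_lit 5) (nat_lit 20) (nat_lit 5) (nat_lit 21) (nat_lit 5) (nat_lit 306) (nat_lit 288) (nat_lit 126))) (XT.nd (nat_lit 78) (nat_lit 152) (nat_lit 0) (XT.lf (nat_lit 0) (nat_lit 236108785966) (nat_lit 228) (nat_lit 93897481710) (nat_lit 76) (nat_lit 65903669215) (nat_lit 18) (nat_lit 5) (nat_lit 21) (nat_lit 5) (nat_lit 19) (nat_lit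 5) (nat_lit 307) (nat_lit 288) (nat_lit 125)) (XT.lf (nat_lit 0) (nat_lit 68967816790) (nat_lit 152) (nat_lit 231452988419) (nat_lit 228) (nat_lit 117285439753) (nat_lit 16) (nat_lit 5) (nat_lit 18) (nat_lit 5) (nat_lit 19) (nat_lit 5) (nat_lit 308) (nat_lit 288) (nat_lit 124))))))))
noncomputable def xc119 : XT := (XT.nd (nat_lit 36426) (nat_lit 0) (nat_lit 304) (XT.nd (nat_lit 936) (nat_lit 76) (nat_lit 0) (XT.nd (nat_lit 468) (nat_lit 304) (nat_lit 0) (XT.nd (nat_lit 234) (nat_lit 152) (nat_lit 0) (XT.nd (nat_lit 78) (nat_lit 152) (nat_lit 0) (XT.lf (nat_lit 0) (nat_lit 250202284864) (nat_lit 152) (nat_lit 122242762358) (nat_lit 228) (nat_lit 68595829849) (nat_lit 16) (nat_lit 5) (nat_lit 18) (nat_lit 5) (nat_lit 19) (nat_lit 5) (nat_lit 309) (nat_lit 288) (nat_lit 123)) (XT.nd (nat_lit 78) (nat_lit 152) (nat_lit 0) (XT.lf (nat_lit 0) (nat_lit 445935429560) (nat_lit 152) (nat_lit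 4295741335) (nat_lit 228) (nat_lit 16011113742) (nat_lit 16) (nat_lit 5) (nat_lit 18) (nat_lit 5) (nat_lit 19) (nat_lit 5) (nat_lit 310) (nat_lit 288) (nat_lit 122)) (XT.lf (nat_lit 0) (nat_lit 45956865226) (nat_lit 152) (nat_lit 324680388436) (nat_lit 76) (nat_lit 122166771022) (nat_lit 14) (nat_lit 5) (nat_lit 16) (nat_lit 5) (nat_lit 15) (nat_lit 5) (nat_lit 311) (nat_lit 288) (nat_lit 121)))) (XT.nd (nat_lit 78) (nat_lit 152) (nat_lit 0) (XT.lf (nat_lit 0) (nat_lit 112698437676) (nat_lit 152) (nat_lit 149204802277) (nat_lit 76) (nat_lit 259499700655) (nat_lit 14) (nat_lit 5) (nat_lit 16) (nat_lit 5) (nat_lit 15) (nat_lit 5) (nat_lit 312) (nat_lit 288) (nat_lit 120)) (XT.nd (nat_lit 78) (nat_lit 0) (nat_lit 0) (XT.lf (nat_lit 0) (nat_lit 42431344514) (nat_lit 152) (nat_lit 143368416856) (nat_lit 228) (nat_lit 366408374601) (nat_lit 12) (nat_lit 5) (nat_lit 14) (nat_lit 5) (nat_lit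 15) (nat_lit 5) (nat_lit 313) (nat_lit 288) (nat_lit 119)) (XT.lf (nat_lit 0) (nat_lit 257883720274) (nat_lit 152) (nat_lit 10944946910) (nat_lit 228) (nat_lit 316322721864) (nat_lit 12) (nat_lit 5) (nat_lit 14) (nat_lit 5) (nat_lit 15) (nat_lit 5) (nat_lit 314) (nat_lit 288) (nat_lit 118))))) (XT.nd (nat_lit 234) (nat_lit 228) (nat_lit 0) (XT.nd (nat_lit 78) (nat_lit 76) (nat_lit 0) (XT.lf (nat_lit 0) (nat_lit 361676185363) (nat_lit 228) (nat_lit 133334230576) (nat_lit 76) (nat_lit 125465582612) (nat_lit 12) (nat_lit 5) (nat_lit 15) (nat_lit 5) (nat_lit 13) (nat_lit 4) (nat_lit 315) (nat_lit 288) (nat_lit 117)) (XT.nd (nat_lit 78) (nat_lit 0) (nat_lit 0) (XT.lf (nat_lit 0) (nat_lit 79822582492) (nat_lit 76) (nat_lit 384332900651) (nat_lit 152) (nat_lit 194294775575) (nat_lit 11) (nat_lit 5) (nat_lit 12) (nat_lit 5) (nat_lit 13) (nat_lit 4) (nat_lit 316) (nat_lit 288) (nat_lit 116))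 (XT.lf (nat_lit 0) (nat_lit 317614713371) (nat_lit 76) (nat_lit 260863965847) (nat_lit 152) (nat_lit 120692136270) (nat_lit 11) (nat_lit 5) (nat_lit 12) (nat_lit 5) (nat_lit 13) (nat_lit 4) (nat_lit 317) (nat_lit 288) (nat_lit 115)))) (XT.nd (nat_lit 78) (nat_lit 228) (nat_lit 0) (XT.lf (nat_lit 0) (nat_lit 574430156321) (nat_lit 76) (nat_lit 127517537918) (nat_lit 152) (nat_lit 41201325635) (nat_lit 11) (nat_lit 5) (nat_lit 12) (nat_lit 5) (nat_lit 13) (nat_lit 4) (nat_lit 318) (nat_lit 288) (nat_lit 114)) (XT.nd (nat_lit 78) (nat_lit 0) (nat_lit 0) (XT.lf (nat_lit 0) (nat_lit 44400136316) (nat_lit 228) (nat_lit 727667297916) (nat_lit 76) (nat_lit 18333350394) (nat_lit 8) (nat_lit 5) (nat_lit 11) (nat_lit 5) (nat_lit 9) (nat_lit 4) (nat_lit 319) (nat_lit 288) (nat_lit 113)) (XT.lf (nat_lit 0) (nat_lit 142668775869) (nat_lit 228) (nat_lit 523268613612) (nat_lit 76) (nat_lit 174766087847)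 (nat_lit 8) (nat_lit 5) (nat_lit 11) (nat_lit 5) (nat_lit 9) (nat_lit 4) (nat_lit 320) (nat_lit 288) (nat_lit 112)))))) (XT.nd (nat_lit 35022) (nat_lit 0) (nat_lit 1900) (XT.nd (nat_lit 234) (nat_lit 0) (nat_lit 0) (XT.nd (nat_lit 78) (nat_lit 76) (nat_lit 0) (XT.lf (nat_lit 0) (nat_lit 248798874881) (nat_lit 228) (nat_lit 302518087267) (nat_lit 76) (nat_lit 343713425936) (nat_lit 8) (nat_lit 5) (nat_lit 11) (nat_lit 5) (nat_lit 9) (nat_lit 4) (nat_lit 321) (nat_lit 288) (nat_lit 111)) (XT.nd (nat_lit 78) (nat_lit 76) (nat_lit 0) (XT.lf (nat_lit 0) (nat_lit 363419352456) (nat_lit 228) (nat_lit 64107567615) (nat_lit 76) (nat_lit 526176534070) (nat_lit 8) (nat_lit 5) (nat_lit 11) (nat_lit 5) (nat_lit 9) (nat_lit 4) (nat_lit 322) (nat_lit 288) (nat_lit 110)) (XT.lf (nat_lit 0) (nat_lit 203558572644) (nat_lit 76) (nat_lit 288546456977) (nat_lit 152) (nat_lit 524573691036) (nat_lit 7) (nat_lit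 5) (nat_lit 8) (nat_lit 5) (nat_lit 9) (nat_lit 4) (nat_lit 323) (nat_lit 288) (nat_lit 109)))) (XT.nd (nat_lit 78) (nat_lit 0) (nat_lit 0) (XT.lf (nat_lit 0) (nat_lit 496283814257) (nat_lit 76) (nat_lit 136554534979) (nat_lit 152) (nat_lit 451713436273) (nat_lit 7) (nat_lit 5) (nat_lit 8) (nat_lit 5) (nat_lit 9) (nat_lit 4) (nat_lit 324) (nat_lit 288) (nat_lit 108)) (XT.nd (nat_lit 78) (nat_lit 0) (nat_lit 0) (XT.lf (nat_lit 0) (nat_lit 785494012020) (nat_lit 152) (nat_lit 346091365030) (nat_lit 0) (nat_lit 26216224367) (nat_lit 7) (nat_lit 5) (nat_lit 9) (nat_lit 4) (nat_lit 7) (nat_lit 4) (nat_lit 325) (nat_lit 288) (nat_lit 107)) (XT.lf (nat_lit 0) (nat_lit 953908976009) (nat_lit 152) (nat_lit 88087540606) (nat_lit 0) (nat_lit 194631138195) (nat_lit 7) (nat_lit 5) (nat_lit 9) (nat_lit 4) (nat_lit 7) (nat_lit 4) (nat_lit 326) (nat_lit 288) (nat_lit 106))))) (XT.nd (nat_lit 234)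 (nat_lit 0) (nat_lit 76) (XT.nd (nat_lit 78) (nat_lit 0) (nat_lit 0) (XT.lf (nat_lit 0) (nat_lit 21671975620) (nat_lit 532) (nat_lit 33805841242) (nat_lit 532) (nat_lit 33805841242) (nat_lit 32) (nat_lit 3) (nat_lit 39) (nat_lit 3) (nat_lit 39) (nat_lit 5) (nat_lit 289) (nat_lit 289) (nat_lit 142)) (XT.nd (nat_lit 78) (nat_lit 0) (nat_lit 76) (XT.lf (nat_lit 76) (nat_lit 6489137906) (nat_lit 0) (nat_lit 38746441377) (nat_lit 532) (nat_lit 140461788306) (nat_lit 33) (nat_lit 5) (nat_lit 32) (nat_lit 3) (nat_lit 39) (nat_lit 5) (nat_lit 290) (nat_lit 289) (nat_lit 141)) (XT.lf (nat_lit 0) (nat_lit 50118706306) (nat_lit 456) (nat_lit 103878620850) (nat_lit 532) (nat_lit 39173283592) (nat_lit 33) (nat_lit 5) (nat_lit 39) (nat_lit 5) (nat_lit 40) (nat_lit 5) (nat_lit 291) (nat_lit 289) (nat_lit 140)))) (XT.nd (nat_lit 78) (nat_lit 0) (nat_lit 76) (XT.lf (nat_lit 0) (nat_lit 56398716733)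 (nat_lit 456) (nat_lit 23529156485) (nat_lit 532) (nat_lit 121233342563) (nat_lit 33) (nat_lit 5) (nat_lit 39) (nat_lit 5) (nat_lit 40) (nat_lit 5) (nat_lit 292) (nat_lit 289) (nat_lit 139)) (XT.nd (nat_lit 78) (nat_lit 0) (nat_lit 0) (XT.lf (nat_lit 0) (nat_lit 64825397866) (nat_lit 456) (nat_lit 143127493792) (nat_lit 532) (nat_lit 1706636970) (nat_lit 34) (nat_lit 5) (nat_lit 40) (nat_lit 5) (nat_lit 41) (nat_lit 5) (nat_lit 293) (nat_lit 289) (nat_lit 138)) (XT.lf (nat_lit 0) (nat_lit 76662155583) (nat_lit 456) (nat_lit 55742868137) (nat_lit 532) (nat_lit 86213808341) (nat_lit 34) (nat_lit 5) (nat_lit 40) (nat_lit 5) (nat_lit 41) (nat_lit 5) (nat_lit 294) (nat_lit 289) (nat_lit 137))))))) (XT.nd (nat_lit 936) (nat_lit 684) (nat_lit 0) (XT.nd (nat_lit 468) (nat_lit 456) (nat_lit 0) (XT.nd (nat_lit 234) (nat_lit 228) (nat_lit 0) (XT.nd (nat_lit 78) (nat_lit 380) (nat_lit 0) (XT.lf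 (nat_lit 76) (nat_lit 40666736029) (nat_lit 0) (nat_lit 49757019391) (nat_lit 532) (nat_lit 137792893088) (nat_lit 35) (nat_lit 5) (nat_lit 34) (nat_lit 5) (nat_lit 41) (nat_lit 5) (nat_lit 295) (nat_lit 289) (nat_lit 136)) (XT.nd (nat_lit 78) (nat_lit 456) (nat_lit 0) (XT.lf (nat_lit 0) (nat_lit 107799896734) (nat_lit 456) (nat_lit 91490853075) (nat_lit 76) (nat_lit 39090452176) (nat_lit 35) (nat_lit 5) (nat_lit 41) (nat_lit 5) (nat_lit 36) (nat_lit 5) (nat_lit 296) (nat_lit 289) (nat_lit 135)) (XT.lf (nat_lit 0) (nat_lit 11537591345) (nat_lit 456) (nat_lit 116598290388) (nat_lit 532) (nat_lit 121097458553) (nat_lit 29) (nat_lit 5) (nat_lit 35) (nat_lit 5) (nat_lit 36) (nat_lit 5) (nat_lit 297) (nat_lit 289) (nat_lit 134)))) (XT.nd (nat_lit 78) (nat_lit 228) (nat_lit 0) (XT.lf (nat_lit 0) (nat_lit 128011373235) (nat_lit 456) (nat_lit 24588783447) (nat_lit 532) (nat_lit 108153380759)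 (nat_lit 29) (nat_lit 5) (nat_lit 35) (nat_lit 5) (nat_lit 36) (nat_lit 5) (nat_lit 298) (nat_lit 289) (nat_lit 133)) (XT.nd (nat_lit 78) (nat_lit 228) (nat_lit 0) (XT.lf (nat_lit 0) (nat_lit 180819967577) (nat_lit 532) (nat_lit 21190894449) (nat_lit 76) (nat_lit 71040617457) (nat_lit 29) (nat_lit 5) (nat_lit 36) (nat_lit 5) (nat_lit 30) (nat_lit 5) (nat_lit 299) (nat_lit 289) (nat_lit 132)) (XT.lf (nat_lit 0) (nat_lit 103840217978) (nat_lit 228) (nat_lit 110593079860) (nat_lit 304) (nat_lit 71649084875) (nat_lit 26) (nat_lit 5) (nat_lit 29) (nat_lit 5) (nat_lit 30) (nat_lit 5) (nat_lit 300) (nat_lit 289) (nat_lit 131))))) (XT.nd (nat_lit 234) (nat_lit 228) (nat_lit 0) (XT.nd (nat_lit 78) (nat_lit 228) (nat_lit 0) (XT.lf (nat_lit 0) (nat_lit 240078869341) (nat_lit 228) (nat_lit 11236131589) (nat_lit 304) (nat_lit 48794413297) (nat_lit 26) (nat_lit 5) (nat_lit 29) (nat_lit 5) (nat_lit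 30) (nat_lit 5) (nat_lit 301) (nat_lit 289) (nat_lit 130)) (XT.nd (nat_lit 78) (nat_lit 76) (nat_lit 0) (XT.lf (nat_lit 0) (nat_lit 73314949489) (nat_lit 152) (nat_lit 221905904178) (nat_lit 228) (nat_lit 19711866026) (nat_lit 24) (nat_lit 5) (nat_lit 26) (nat_lit 5) (nat_lit 27) (nat_lit 5) (nat_lit 302) (nat_lit 289) (nat_lit 129)) (XT.lf (nat_lit 0) (nat_lit 13087878590) (nat_lit 228) (nat_lit 110684405778) (nat_lit 76) (nat_lit 206989040927) (nat_lit 23) (nat_lit 5) (nat_lit 26) (nat_lit 5) (nat_lit 24) (nat_lit 5) (nat_lit 303) (nat_lit 289) (nat_lit 128)))) (XT.nd (nat_lit 78) (nat_lit 0) (nat_lit 0) (XT.lf (nat_lit 0) (nat_lit 31802427321) (nat_lit 228) (nat_lit 16408995757) (nat_lit 304) (nat_lit 299542655100) (nat_lit 20) (nat_lit 5) (nat_lit 23) (nat_lit 5) (nat_lit 24) (nat_lit 5) (nat_lit 304) (nat_lit 289) (nat_lit 127)) (XT.nd (nat_lit 78) (nat_lit 0) (nat_lit 0) (XT.lf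 (nat_lit 0) (nat_lit 91643711504) (nat_lit 304) (nat_lit 176353938564) (nat_lit 76) (nat_lit 97668692759) (nat_lit 20) (nat_lit 5) (nat_lit 24) (nat_lit 5) (nat_lit 21) (nat_lit 5) (nat_lit 305) (nat_lit 289) (nat_lit 126)) (XT.lf (nat_lit 0) (nat_lit 138976723162) (nat_lit 304) (nat_lit 26014703725) (nat_lit 76) (nat_lit 219986070890) (nat_lit 20) (nat_lit 5) (nat_lit 24) (nat_lit 5) (nat_lit 21) (nat_lit 5) (nat_lit 306) (nat_lit 289) (nat_lit 125)))))) (XT.nd (nat_lit 468) (nat_lit 228) (nat_lit 0) (XT.nd (nat_lit 234) (nat_lit 152) (nat_lit 0) (XT.nd (nat_lit 78) (nat_lit 152) (nat_lit 0) (XT.lf (nat_lit 0) (nat_lit 143531622641) (nat_lit 152) (nat_lit 50016629566) (nat_lit 228) (nat_lit 212009143116) (nat_lit 18) (nat_lit 5) (nat_lit 20) (nat_lit 5) (nat_lit 21) (nat_lit 5) (nat_lit 307) (nat_lit 289) (nat_lit 124)) (XT.nd (nat_lit 78) (nat_lit 152) (nat_lit 0) (XT.lf (nat_lit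 0) (nat_lit 254998663702) (nat_lit 228) (nat_lit 101407662422) (nat_lit 76) (nat_lit 71176306029) (nat_lit 18) (nat_lit 5) (nat_lit 21) (nat_lit 5) (nat_lit 19) (nat_lit 5) (nat_lit 308) (nat_lit 289) (nat_lit 123)) (XT.lf (nat_lit 0) (nat_lit 74486819000) (nat_lit 152) (nat_lit 249968776381) (nat_lit 228) (nat_lit 126667053839) (nat_lit 16) (nat_lit 5) (nat_lit 18) (nat_lit 5) (nat_lit 19) (nat_lit 5) (nat_lit 309) (nat_lit 289) (nat_lit 122)))) (XT.nd (nat_lit 78) (nat_lit 152) (nat_lit 0) (XT.lf (nat_lit 0) (nat_lit 270219927716) (nat_lit 152) (nat_lit 132021765651) (nat_lit 228) (nat_lit 74082365594) (nat_lit 16) (nat_lit 5) (nat_lit 18) (nat_lit 5) (nat_lit 19) (nat_lit 5) (nat_lit 310) (nat_lit 289) (nat_lit 121)) (XT.nd (nat_lit 78) (nat_lit 152) (nat_lit 0) (XT.lf (nat_lit 0) (nat_lit 481611615834) (nat_lit 152) (nat_lit 4639013886) (nat_lit 228) (nat_lit 17290955950) (nat_lit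 16) (nat_lit 5) (nat_lit 18) (nat_lit 5) (nat_lit 19) (nat_lit 5) (nat_lit 311) (nat_lit 289) (nat_lit 120)) (XT.lf (nat_lit 0) (nat_lit 49634378389) (nat_lit 152) (nat_lit 350653376586) (nat_lit 76) (nat_lit 131940510689) (nat_lit 14) (nat_lit 5) (nat_lit 16) (nat_lit 5) (nat_lit 15) (nat_lit 5) (nat_lit 312) (nat_lit 289) (nat_lit 119))))) (XT.nd (nat_lit 234) (nat_lit 76) (nat_lit 0) (XT.nd (nat_lit 78) (nat_lit 152) (nat_lit 0) (XT.lf (nat_lit 0) (nat_lit 121715205232) (nat_lit 152) (nat_lit 161139850418) (nat_lit 76) (nat_lit 280260045212) (nat_lit 14) (nat_lit 5) (nat_lit 16) (nat_lit 5) (nat_lit 15) (nat_lit 5) (nat_lit 313) (nat_lit 289) (nat_lit 118)) (XT.nd (nat_lit 78) (nat_lit 0) (nat_lit 0) (XT.lf (nat_lit 0) (nat_lit 45827154292) (nat_lit 152) (nat_lit 154837445733) (nat_lit 228) (nat_lit 395720114878) (nat_lit 12) (nat_lit 5) (nat_lit 14) (nat_lit 5) (nat_lit 15) (nat_lit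 5) (nat_lit 314) (nat_lit 289) (nat_lit 117)) (XT.lf (nat_lit 0) (nat_lit 278515623653) (nat_lit 152) (nat_lit 11820131115) (nat_lit 228) (nat_lit 341627678787) (nat_lit 12) (nat_lit 5) (nat_lit 14) (nat_lit 5) (nat_lit 15) (nat_lit 5) (nat_lit 315) (nat_lit 289) (nat_lit 116)))) (XT.nd (nat_lit 156) (nat_lit 0) (nat_lit 0) (XT.nd (nat_lit 78) (nat_lit 76) (nat_lit 0) (XT.lf (nat_lit 0) (nat_lit 390611024735) (nat_lit 228) (nat_lit 143999800063) (nat_lit 76) (nat_lit 135503191221) (nat_lit 12) (nat_lit 5) (nat_lit 15) (nat_lit 5) (nat_lit 13) (nat_lit 4) (nat_lit 316) (nat_lit 289) (nat_lit 115)) (XT.lf (nat_lit 0) (nat_lit 86209528457) (nat_lit 76) (nat_lit 415079110131) (nat_lit 152) (nat_lit 209837580844) (nat_lit 11) (nat_lit 5) (nat_lit 12) (nat_lit 5) (nat_lit 13) (nat_lit 4) (nat_lit 317) (nat_lit 289) (nat_lit 114))) (XT.nd (nat_lit 78) (nat_lit 0) (nat_lit 0) (XT.lf (nat_lit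 0) (nat_lit 343024945409) (nat_lit 76) (nat_lit 281732691845) (nat_lit 152) (nat_lit 130346787933) (nat_lit 11) (nat_lit 5) (nat_lit 12) (nat_lit 5) (nat_lit 13) (nat_lit 4) (nat_lit 318) (nat_lit 289) (nat_lit 113)) (XT.lf (nat_lit 0) (nat_lit 620385545649) (nat_lit 76) (nat_lit 137718578665) (nat_lit 152) (nat_lit 44496765724) (nat_lit 11) (nat_lit 5) (nat_lit 12) (nat_lit 5) (nat_lit 13) (nat_lit 4) (nat_lit 319) (nat_lit 289) (nat_lit 112))))))))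
noncomputable def xc120 : XT := (XT.nd (nat_lit 36504) (nat_lit 0) (nat_lit 0) (XT.nd (nat_lit 35568) (nat_lit 0) (nat_lit 988) (XT.nd (nat_lit 468) (nat_lit 0) (nat_lit 0) (XT.nd (nat_lit 234) (nat_lit 76) (nat_lit 0) (XT.nd (nat_lit 78) (nat_lit 0) (nat_lit 0) (XT.lf (nat_lit 0) (nat_lit 47952765803) (nat_lit 228) (nat_lit 785879653511) (nat_lit 76) (nat_lit 19800376655) (nat_lit 8) (nat_lit 5) (nat_lit 11) (nat_lit 5) (nat_lit 9) (nat_lit 4) (nat_lit 320) (nat_lit 289) (nat_lit 111)) (XT.nd (nat_lit 78) (nat_lit 0) (nat_lit 0) (XT.lf (nat_lit 0) (nat_lit 154082850700) (nat_lit 228) (nat_lit 565129150628) (nat_lit 76) (nat_lit 188747706569) (nat_lit 8) (nat_lit 5) (nat_lit 11) (nat_lit 5) (nat_lit 9) (nat_lit 4) (nat_lit 321) (nat_lit 289) (nat_lit 110)) (XT.lf (nat_lit 0) (nat_lit 268703315206) (nat_lit 228) (nat_lit 326718652700) (nat_lit 76) (nat_lit 371210807135) (nat_lit 8)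 (nat_lit 5) (nat_lit 11) (nat_lit 5) (nat_lit 9) (nat_lit 4) (nat_lit 322) (nat_lit 289) (nat_lit 109)))) (XT.nd (nat_lit 78) (nat_lit 76) (nat_lit 0) (XT.lf (nat_lit 0) (nat_lit 392493391702) (nat_lit 228) (nat_lit 69235356776) (nat_lit 76) (nat_lit 568270941170) (nat_lit 8) (nat_lit 5) (nat_lit 11) (nat_lit 5) (nat_lit 9) (nat_lit 4) (nat_lit 323) (nat_lit 289) (nat_lit 108)) (XT.nd (nat_lit 78) (nat_lit 0) (nat_lit 0) (XT.lf (nat_lit 0) (nat_lit 219844054039) (nat_lit 76) (nat_lit 311629851760) (nat_lit 152) (nat_lit 566539073178) (nat_lit 7) (nat_lit 5) (nat_lit 8) (nat_lit 5) (nat_lit 9) (nat_lit 4) (nat_lit 324) (nat_lit 289) (nat_lit 107)) (XT.lf (nat_lit 0) (nat_lit 535987256050) (nat_lit 76) (nat_lit 147478599839) (nat_lit 152) (nat_lit 487850036045) (nat_lit 7) (nat_lit 5) (nat_lit 8) (nat_lit 5) (nat_lit 9) (nat_lit 4) (nat_lit 325) (nat_lit 289) (nat_lit 106))))) (XT.nd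 (nat_lit 34866) (nat_lit 0) (nat_lit 1976) (XT.nd (nat_lit 34710) (nat_lit 0) (nat_lit 1900) (XT.lf (nat_lit 0) (nat_lit 848333945832) (nat_lit 152) (nat_lit 373777965062) (nat_lit 0) (nat_lit 28313784386) (nat_lit 7) (nat_lit 5) (nat_lit 9) (nat_lit 4) (nat_lit 7) (nat_lit 4) (nat_lit 326) (nat_lit 289) (nat_lit 105)) (XT.nd (nat_lit 78) (nat_lit 0) (nat_lit 0) (XT.lf (nat_lit 0) (nat_lit 23407496304) (nat_lit 532) (nat_lit 36509351025) (nat_lit 532) (nat_lit 36509351025) (nat_lit 32) (nat_lit 3) (nat_lit 39) (nat_lit 3) (nat_lit 39) (nat_lit 5) (nat_lit 290) (nat_lit 290) (nat_lit 140)) (XT.lf (nat_lit 76) (nat_lit 7010135490) (nat_lit 0) (nat_lit 41847599163) (nat_lit 532) (nat_lit 151695136531) (nat_lit 33) (nat_lit 5) (nat_lit 32) (nat_lit 3) (nat_lit 39) (nat_lit 5) (nat_lit 291) (nat_lit 290) (nat_lit 139)))) (XT.nd (nat_lit 78) (nat_lit 0) (nat_lit 0) (XT.lf (nat_lit 0) (nat_lit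 54131234603) (nat_lit 456) (nat_lit 112186885466) (nat_lit 532) (nat_lit 42305877467) (nat_lit 33) (nat_lit 5) (nat_lit 39) (nat_lit 5) (nat_lit 40) (nat_lit 5) (nat_lit 292) (nat_lit 290) (nat_lit 138)) (XT.nd (nat_lit 78) (nat_lit 0) (nat_lit 76) (XT.lf (nat_lit 0) (nat_lit 60913421287) (nat_lit 456) (nat_lit 25409613956) (nat_lit 532) (nat_lit 130930835141) (nat_lit 33) (nat_lit 5) (nat_lit 39) (nat_lit 5) (nat_lit 40) (nat_lit 5) (nat_lit 293) (nat_lit 290) (nat_lit 137)) (XT.lf (nat_lit 0) (nat_lit 70014053306) (nat_lit 456) (nat_lit 154575617901) (nat_lit 532) (nat_lit 1842393081) (nat_lit 34) (nat_lit 5) (nat_lit 40) (nat_lit 5) (nat_lit 41) (nat_lit 5) (nat_lit 294) (nat_lit 290) (nat_lit 136)))))) (XT.nd (nat_lit 468) (nat_lit 684) (nat_lit 0) (XT.nd (nat_lit 234) (nat_lit 380) (nat_lit 0) (XT.nd (nat_lit 78) (nat_lit 0) (nat_lit 0) (XT.lf (nat_lit 0) (nat_lit 82797557299)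 (nat_lit 456) (nat_lit 60200375926) (nat_lit 532) (nat_lit 93110195558) (nat_lit 34) (nat_lit 5) (nat_lit 40) (nat_lit 5) (nat_lit 41) (nat_lit 5) (nat_lit 295) (nat_lit 290) (nat_lit 135)) (XT.nd (nat_lit 78) (nat_lit 0) (nat_lit 76) (XT.lf (nat_lit 76) (nat_lit 43921947923) (nat_lit 0) (nat_lit 53738002299) (nat_lit 532) (nat_lit 148813832263) (nat_lit 35) (nat_lit 5) (nat_lit 34) (nat_lit 5) (nat_lit 41) (nat_lit 5) (nat_lit 296) (nat_lit 290) (nat_lit 134)) (XT.lf (nat_lit 0) (nat_lit 116426003505) (nat_lit 456) (nat_lit 98808194425) (nat_lit 76) (nat_lit 42217317722) (nat_lit 35) (nat_lit 5) (nat_lit 41) (nat_lit 5) (nat_lit 36) (nat_lit 5) (nat_lit 297) (nat_lit 290) (nat_lit 133)))) (XT.nd (nat_lit 78) (nat_lit 0) (nat_lit 0) (XT.lf (nat_lit 0) (nat_lit 12462476767) (nat_lit 456) (nat_lit 125926279037) (nat_lit 532) (nat_lit 130783079117) (nat_lit 29) (nat_lit 5) (nat_lit 35)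 (nat_lit 5) (nat_lit 36) (nat_lit 5) (nat_lit 298) (nat_lit 290) (nat_lit 132)) (XT.nd (nat_lit 78) (nat_lit 0) (nat_lit 0) (XT.lf (nat_lit 0) (nat_lit 138254022089) (nat_lit 456) (nat_lit 26556002250) (nat_lit 532) (nat_lit 116803636293) (nat_lit 29) (nat_lit 5) (nat_lit 35) (nat_lit 5) (nat_lit 36) (nat_lit 5) (nat_lit 299) (nat_lit 290) (nat_lit 131)) (XT.lf (nat_lit 0) (nat_lit 195287280103) (nat_lit 532) (nat_lit 22884405272) (nat_lit 76) (nat_lit 76723764707) (nat_lit 29) (nat_lit 5) (nat_lit 36) (nat_lit 5) (nat_lit 30) (nat_lit 5) (nat_lit 300) (nat_lit 290) (nat_lit 130))))) (XT.nd (nat_lit 234) (nat_lit 304) (nat_lit 0) (XT.nd (nat_lit 78) (nat_lit 152) (nat_lit 0) (XT.lf (nat_lit 0) (nat_lit 112149151573) (nat_lit 228) (nat_lit 119440439438) (nat_lit 304) (nat_lit 77379242201) (nat_lit 26) (nat_lit 5) (nat_lit 29) (nat_lit 5) (nat_lit 30) (nat_lit 5) (nat_lit 301) (nat_lit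 290) (nat_lit 129)) (XT.nd (nat_lit 78) (nat_lit 152) (nat_lit 0) (XT.lf (nat_lit 0) (nat_lit 259286767923) (nat_lit 228) (nat_lit 12134941737) (nat_lit 304) (nat_lit 52696327968) (nat_lit 26) (nat_lit 5) (nat_lit 29) (nat_lit 5) (nat_lit 30) (nat_lit 5) (nat_lit 302) (nat_lit 290) (nat_lit 128)) (XT.lf (nat_lit 0) (nat_lit 79181818824) (nat_lit 152) (nat_lit 239658142075) (nat_lit 228) (nat_lit 21287252880) (nat_lit 24) (nat_lit 5) (nat_lit 26) (nat_lit 5) (nat_lit 27) (nat_lit 5) (nat_lit 303) (nat_lit 290) (nat_lit 127)))) (XT.nd (nat_lit 78) (nat_lit 228) (nat_lit 0) (XT.lf (nat_lit 0) (nat_lit 14136283201) (nat_lit 228) (nat_lit 119537529269) (nat_lit 76) (nat_lit 223548301723) (nat_lit 23) (nat_lit 5) (nat_lit 26) (nat_lit 5) (nat_lit 24) (nat_lit 5) (nat_lit 304) (nat_lit 290) (nat_lit 126)) (XT.nd (nat_lit 78) (nat_lit 0) (nat_lit 0) (XT.lf (nat_lit 0) (nat_lit 34348209238)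 (nat_lit 228) (nat_lit 17721438392) (nat_lit 304) (nat_lit 323504645297) (nat_lit 20) (nat_lit 5) (nat_lit 23) (nat_lit 5) (nat_lit 24) (nat_lit 5) (nat_lit 305) (nat_lit 290) (nat_lit 125)) (XT.lf (nat_lit 0) (nat_lit 98976428210) (nat_lit 304) (nat_lit 190460686451) (nat_lit 76) (nat_lit 105482431853) (nat_lit 20) (nat_lit 5) (nat_lit 24) (nat_lit 5) (nat_lit 21) (nat_lit 5) (nat_lit 306) (nat_lit 290) (nat_lit 124))))))) (XT.nd (nat_lit 936) (nat_lit 304) (nat_lit 0) (XT.nd (nat_lit 468) (nat_lit 380) (nat_lit 0) (XT.nd (nat_lit 234) (nat_lit 152) (nat_lit 0) (XT.nd (nat_lit 78) (nat_lit 152) (nat_lit 0) (XT.lf (nat_lit 0) (nat_lit 150095990447) (nat_lit 304) (nat_lit 28094428914) (nat_lit 76) (nat_lit 237585182184) (nat_lit 20) (nat_lit 5) (nat_lit 24) (nat_lit 5) (nat_lit 21) (nat_lit 5) (nat_lit 307) (nat_lit 290) (nat_lit 123)) (XT.nd (nat_lit 78) (nat_lit 0) (nat_lit 0) (XT.lf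 (nat_lit 0) (nat_lit 155015566825) (nat_lit 152) (nat_lit 54017625344) (nat_lit 228) (nat_lit 228968703119) (nat_lit 18) (nat_lit 5) (nat_lit 20) (nat_lit 5) (nat_lit 21) (nat_lit 5) (nat_lit 308) (nat_lit 290) (nat_lit 122)) (XT.lf (nat_lit 0) (nat_lit 275399564050) (nat_lit 228) (nat_lit 109518888391) (nat_lit 76) (nat_lit 76870704817) (nat_lit 18) (nat_lit 5) (nat_lit 21) (nat_lit 5) (nat_lit 19) (nat_lit 5) (nat_lit 309) (nat_lit 290) (nat_lit 121)))) (XT.nd (nat_lit 78) (nat_lit 0) (nat_lit 0) (XT.lf (nat_lit 0) (nat_lit 80447116430) (nat_lit 152) (nat_lit 269965891736) (nat_lit 228) (nat_lit 136799371255) (nat_lit 16) (nat_lit 5) (nat_lit 18) (nat_lit 5) (nat_lit 19) (nat_lit 5) (nat_lit 310) (nat_lit 290) (nat_lit 120)) (XT.nd (nat_lit 78) (nat_lit 0) (nat_lit 0) (XT.lf (nat_lit 0) (nat_lit 291838773701) (nat_lit 152) (nat_lit 142583148796) (nat_lit 228) (nat_lit 80007985497)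 (nat_lit 16) (nat_lit 5) (nat_lit 18) (nat_lit 5) (nat_lit 19) (nat_lit 5) (nat_lit 311) (nat_lit 290) (nat_lit 119)) (XT.lf (nat_lit 0) (nat_lit 520141704146) (nat_lit 152) (nat_lit 5009803417) (nat_lit 228) (nat_lit 18673334885) (nat_lit 16) (nat_lit 5) (nat_lit 18) (nat_lit 5) (nat_lit 19) (nat_lit 5) (nat_lit 312) (nat_lit 290) (nat_lit 118))))) (XT.nd (nat_lit 234) (nat_lit 76) (nat_lit 0) (XT.nd (nat_lit 78) (nat_lit 152) (nat_lit 0) (XT.lf (nat_lit 0) (nat_lit 53605955088) (nat_lit 152) (nat_lit 378704409637) (nat_lit 76) (nat_lit 142496092751) (nat_lit 14) (nat_lit 5) (nat_lit 16) (nat_lit 5) (nat_lit 15) (nat_lit 5) (nat_lit 313) (nat_lit 290) (nat_lit 117)) (XT.nd (nat_lit 78) (nat_lit 152) (nat_lit 0) (XT.lf (nat_lit 0) (nat_lit 131453186862) (nat_lit 152) (nat_lit 174029893011) (nat_lit 76) (nat_lit 302681164762) (nat_lit 14) (nat_lit 5) (nat_lit 16) (nat_lit 5) (nat_lit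 15) (nat_lit 5) (nat_lit 314) (nat_lit 290) (nat_lit 116)) (XT.lf (nat_lit 0) (nat_lit 49494443078) (nat_lit 152) (nat_lit 167224060329) (nat_lit 228) (nat_lit 427376927007) (nat_lit 12) (nat_lit 5) (nat_lit 14) (nat_lit 5) (nat_lit 15) (nat_lit 5) (nat_lit 315) (nat_lit 290) (nat_lit 115)))) (XT.nd (nat_lit 78) (nat_lit 76) (nat_lit 0) (XT.lf (nat_lit 0) (nat_lit 300797907288) (nat_lit 152) (nat_lit 12765388769) (nat_lit 228) (nat_lit 368957155071) (nat_lit 12) (nat_lit 5) (nat_lit 14) (nat_lit 5) (nat_lit 15) (nat_lit 5) (nat_lit 316) (nat_lit 290) (nat_lit 114)) (XT.nd (nat_lit 78) (nat_lit 76) (nat_lit 0) (XT.lf (nat_lit 0) (nat_lit 421860545040) (nat_lit 228) (nat_lit 155518781874) (nat_lit 76) (nat_lit 146343756876) (nat_lit 12) (nat_lit 5) (nat_lit 15) (nat_lit 5) (nat_lit 13) (nat_lit 4) (nat_lit 317) (nat_lit 290) (nat_lit 113)) (XT.lf (nat_lit 0) (nat_lit 93107267555) (nat_lit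 76) (nat_lit 448285076655) (nat_lit 152) (nat_lit 226623921350) (nat_lit 11) (nat_lit 5) (nat_lit 12) (nat_lit 5) (nat_lit 13) (nat_lit 4) (nat_lit 318) (nat_lit 290) (nat_lit 112)))))) (XT.nd (nat_lit 35334) (nat_lit 0) (nat_lit 1900) (XT.nd (nat_lit 234) (nat_lit 76) (nat_lit 0) (XT.nd (nat_lit 78) (nat_lit 228) (nat_lit 0) (XT.lf (nat_lit 0) (nat_lit 370467845506) (nat_lit 76) (nat_lit 304270971742) (nat_lit 152) (nat_lit 140773914337) (nat_lit 11) (nat_lit 5) (nat_lit 12) (nat_lit 5) (nat_lit 13) (nat_lit 4) (nat_lit 319) (nat_lit 290) (nat_lit 111)) (XT.nd (nat_lit 78) (nat_lit 228) (nat_lit 0) (XT.lf (nat_lit 0) (nat_lit 670017226768) (nat_lit 76) (nat_lit 148735754356) (nat_lit 152) (nat_lit 48055936027) (nat_lit 11) (nat_lit 5) (nat_lit 12) (nat_lit 5) (nat_lit 13) (nat_lit 4) (nat_lit 320) (nat_lit 290) (nat_lit 110)) (XT.lf (nat_lit 0) (nat_lit 51789517401) (nat_lit 228)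 (nat_lit 848749144244) (nat_lit 76) (nat_lit 21384713911) (nat_lit 8) (nat_lit 5) (nat_lit 11) (nat_lit 5) (nat_lit 9) (nat_lit 4) (nat_lit 321) (nat_lit 290) (nat_lit 109)))) (XT.nd (nat_lit 78) (nat_lit 76) (nat_lit 0) (XT.lf (nat_lit 0) (nat_lit 166409969806) (nat_lit 228) (nat_lit 610338666430) (nat_lit 76) (nat_lit 203847807469) (nat_lit 8) (nat_lit 5) (nat_lit 11) (nat_lit 5) (nat_lit 9) (nat_lit 4) (nat_lit 322) (nat_lit 290) (nat_lit 108)) (XT.nd (nat_lit 156) (nat_lit 76) (nat_lit 0) (XT.lf (nat_lit 0) (nat_lit 290200035098) (nat_lit 228) (nat_lit 352855389130) (nat_lit 76) (nat_lit 400907935015) (nat_lit 8) (nat_lit 5) (nat_lit 11) (nat_lit 5) (nat_lit 9) (nat_lit 4) (nat_lit 323) (nat_lit 290) (nat_lit 107)) (XT.lf (nat_lit 0) (nat_lit 237432260448) (nat_lit 76) (nat_lit 336559964032) (nat_lit 152) (nat_lit 611861759096) (nat_lit 7) (nat_lit 5) (nat_lit 8) (nat_lit 5) (nat_lit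 9) (nat_lit 4) (nat_lit 325) (nat_lit 290) (nat_lit 105))))) (XT.nd (nat_lit 234) (nat_lit 0) (nat_lit 76) (XT.nd (nat_lit 78) (nat_lit 0) (nat_lit 0) (XT.lf (nat_lit 0) (nat_lit 25281607183) (nat_lit 532) (nat_lit 39429278190) (nat_lit 532) (nat_lit 39429278190) (nat_lit 32) (nat_lit 3) (nat_lit 39) (nat_lit 3) (nat_lit 39) (nat_lit 5) (nat_lit 291) (nat_lit 291) (nat_lit 138)) (XT.nd (nat_lit 78) (nat_lit 0) (nat_lit 76) (XT.lf (nat_lit 76) (nat_lit 7572546596) (nat_lit 0) (nat_lit 45196643787) (nat_lit 532) (nat_lit 163827665458) (nat_lit 33) (nat_lit 5) (nat_lit 32) (nat_lit 3) (nat_lit 39) (nat_lit 5) (nat_lit 292) (nat_lit 291) (nat_lit 137)) (XT.lf (nat_lit 0) (nat_lit 58464332645) (nat_lit 456) (nat_lit 121160100149) (nat_lit 532) (nat_lit 45689259862) (nat_lit 33) (nat_lit 5) (nat_lit 39) (nat_lit 5) (nat_lit 40) (nat_lit 5) (nat_lit 293) (nat_lit 291) (nat_lit 136)))) (XT.nd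 (nat_lit 78) (nat_lit 0) (nat_lit 76) (XT.lf (nat_lit 0) (nat_lit 65788901725) (nat_lit 456) (nat_lit 27440775522) (nat_lit 532) (nat_lit 141404294728) (nat_lit 33) (nat_lit 5) (nat_lit 39) (nat_lit 5) (nat_lit 40) (nat_lit 5) (nat_lit 294) (nat_lit 291) (nat_lit 135)) (XT.nd (nat_lit 78) (nat_lit 0) (nat_lit 0) (XT.lf (nat_lit 0) (nat_lit 75617426893) (nat_lit 456) (nat_lit 166939888017) (nat_lit 532) (nat_lit 1989120221) (nat_lit 34) (nat_lit 5) (nat_lit 40) (nat_lit 5) (nat_lit 41) (nat_lit 5) (nat_lit 295) (nat_lit 291) (nat_lit 134)) (XT.lf (nat_lit 0) (nat_lit 89423444589) (nat_lit 456) (nat_lit 65014758486) (nat_lit 532) (nat_lit 100558396104) (nat_lit 34) (nat_lit 5) (nat_lit 40) (nat_lit 5) (nat_lit 41) (nat_lit 5) (nat_lit 296) (nat_lit 291) (nat_lit 133))))))))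
noncomputable def xc121 : XT := (XT.nd (nat_lit 1872) (nat_lit 228) (nat_lit 0) (XT.nd (nat_lit 936) (nat_lit 684) (nat_lit 0) (XT.nd (nat_lit 468) (nat_lit 456) (nat_lit 0) (XT.nd (nat_lit 234) (nat_lit 228) (nat_lit 0) (XT.nd (nat_lit 78) (nat_lit 380) (nat_lit 0) (XT.lf (nat_lit 76) (nat_lit 47437309563) (nat_lit 0) (nat_lit 58037403729) (nat_lit 532) (nat_lit 160716802123) (nat_lit 35) (nat_lit 5) (nat_lit 34) (nat_lit 5) (nat_lit 41) (nat_lit 5) (nat_lit 297) (nat_lit 291) (nat_lit 132)) (XT.nd (nat_lit 78) (nat_lit 456) (nat_lit 0) (XT.lf (nat_lit 0) (nat_lit 125741897086) (nat_lit 456) (nat_lit 106711197975) (nat_lit 76) (nat_lit 45594385385) (nat_lit 35) (nat_lit 5) (nat_lit 41) (nat_lit 5) (nat_lit 36) (nat_lit 5) (nat_lit 298) (nat_lit 291) (nat_lit 131)) (XT.lf (nat_lit 0) (nat_lit 13461085089) (nat_lit 456) (nat_lit 136000488886) (nat_lit 532) (nat_lit 141243859773) (nat_lit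 29) (nat_lit 5) (nat_lit 35) (nat_lit 5) (nat_lit 36) (nat_lit 5) (nat_lit 299) (nat_lit 291) (nat_lit 130)))) (XT.nd (nat_lit 78) (nat_lit 228) (nat_lit 0) (XT.lf (nat_lit 0) (nat_lit 149315834764) (nat_lit 456) (nat_lit 28680581991) (nat_lit 532) (nat_lit 126146199722) (nat_lit 29) (nat_lit 5) (nat_lit 35) (nat_lit 5) (nat_lit 36) (nat_lit 5) (nat_lit 300) (nat_lit 291) (nat_lit 129)) (XT.nd (nat_lit 78) (nat_lit 228) (nat_lit 0) (XT.lf (nat_lit 0) (nat_lit 210911732950) (nat_lit 532) (nat_lit 24713648148) (nat_lit 76) (nat_lit 82861578309) (nat_lit 29) (nat_lit 5) (nat_lit 36) (nat_lit 5) (nat_lit 30) (nat_lit 5) (nat_lit 301) (nat_lit 291) (nat_lit 128)) (XT.lf (nat_lit 0) (nat_lit 121122555028) (nat_lit 228) (nat_lit 128995600168) (nat_lit 304) (nat_lit 83568064546) (nat_lit 26) (nat_lit 5) (nat_lit 29) (nat_lit 5) (nat_lit 30) (nat_lit 5) (nat_lit 302) (nat_lit 291) (nat_lit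 127))))) (XT.nd (nat_lit 234) (nat_lit 228) (nat_lit 0) (XT.nd (nat_lit 78) (nat_lit 228) (nat_lit 0) (XT.lf (nat_lit 0) (nat_lit 280031071699) (nat_lit 228) (nat_lit 13105668163) (nat_lit 304) (nat_lit 56910629548) (nat_lit 26) (nat_lit 5) (nat_lit 29) (nat_lit 5) (nat_lit 30) (nat_lit 5) (nat_lit 303) (nat_lit 291) (nat_lit 126)) (XT.nd (nat_lit 78) (nat_lit 76) (nat_lit 0) (XT.lf (nat_lit 0) (nat_lit 85517798979) (nat_lit 152) (nat_lit 258830592449) (nat_lit 228) (nat_lit 22988893580) (nat_lit 24) (nat_lit 5) (nat_lit 26) (nat_lit 5) (nat_lit 27) (nat_lit 5) (nat_lit 304) (nat_lit 291) (nat_lit 125)) (XT.lf (nat_lit 0) (nat_lit 15268364117) (nat_lit 228) (nat_lit 129099135031) (nat_lit 76) (nat_lit 241432283764) (nat_lit 23) (nat_lit 5) (nat_lit 26) (nat_lit 5) (nat_lit 24) (nat_lit 5) (nat_lit 305) (nat_lit 291) (nat_lit 124)))) (XT.nd (nat_lit 78) (nat_lit 0) (nat_lit 0) (XT.lf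 (nat_lit 0) (nat_lit 37097427201) (nat_lit 228) (nat_lit 19138915959) (nat_lit 304) (nat_lit 349383797604) (nat_lit 20) (nat_lit 5) (nat_lit 23) (nat_lit 5) (nat_lit 24) (nat_lit 5) (nat_lit 306) (nat_lit 291) (nat_lit 123)) (XT.nd (nat_lit 78) (nat_lit 0) (nat_lit 0) (XT.lf (nat_lit 0) (nat_lit 106895588237) (nat_lit 304) (nat_lit 205696197748) (nat_lit 76) (nat_lit 113921235312) (nat_lit 20) (nat_lit 5) (nat_lit 24) (nat_lit 5) (nat_lit 21) (nat_lit 5) (nat_lit 307) (nat_lit 291) (nat_lit 122)) (XT.lf (nat_lit 0) (nat_lit 162104637988) (nat_lit 304) (nat_lit 30340739135) (nat_lit 76) (nat_lit 256592190195) (nat_lit 20) (nat_lit 5) (nat_lit 24) (nat_lit 5) (nat_lit 21) (nat_lit 5) (nat_lit 308) (nat_lit 291) (nat_lit 121)))))) (XT.nd (nat_lit 468) (nat_lit 228) (nat_lit 0) (XT.nd (nat_lit 234) (nat_lit 152) (nat_lit 0) (XT.nd (nat_lit 78) (nat_lit 152) (nat_lit 0) (XT.lf (nat_lit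 0) (nat_lit 167418024767) (nat_lit 152) (nat_lit 58338748517) (nat_lit 228) (nat_lit 247285195042) (nat_lit 18) (nat_lit 5) (nat_lit 20) (nat_lit 5) (nat_lit 21) (nat_lit 5) (nat_lit 309) (nat_lit 291) (nat_lit 120)) (XT.nd (nat_lit 78) (nat_lit 152) (nat_lit 0) (XT.lf (nat_lit 0) (nat_lit 297432392731) (nat_lit 228) (nat_lit 118279210313) (nat_lit 76) (nat_lit 83020613521) (nat_lit 18) (nat_lit 5) (nat_lit 21) (nat_lit 5) (nat_lit 19) (nat_lit 5) (nat_lit 310) (nat_lit 291) (nat_lit 119)) (XT.lf (nat_lit 0) (nat_lit 86884044789) (nat_lit 152) (nat_lit 291562831494) (nat_lit 228) (nat_lit 147742423414) (nat_lit 16) (nat_lit 5) (nat_lit 18) (nat_lit 5) (nat_lit 19) (nat_lit 5) (nat_lit 311) (nat_lit 291) (nat_lit 118)))) (XT.nd (nat_lit 78) (nat_lit 152) (nat_lit 0) (XT.lf (nat_lit 0) (nat_lit 315186948787) (nat_lit 152) (nat_lit 153989493681) (nat_lit 228) (nat_lit 86407793281) (nat_lit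 16) (nat_lit 5) (nat_lit 18) (nat_lit 5) (nat_lit 19) (nat_lit 5) (nat_lit 312) (nat_lit 291) (nat_lit 117)) (XT.nd (nat_lit 78) (nat_lit 152) (nat_lit 0) (XT.lf (nat_lit 0) (nat_lit 561754034171) (nat_lit 152) (nat_lit 5410303414) (nat_lit 228) (nat_lit 20166432179) (nat_lit 16) (nat_lit 5) (nat_lit 18) (nat_lit 5) (nat_lit 19) (nat_lit 5) (nat_lit 313) (nat_lit 291) (nat_lit 116)) (XT.lf (nat_lit 0) (nat_lit 57895140024) (nat_lit 152) (nat_lit 408999701815) (nat_lit 76) (nat_lit 153896072702) (nat_lit 14) (nat_lit 5) (nat_lit 16) (nat_lit 5) (nat_lit 15) (nat_lit 5) (nat_lit 314) (nat_lit 291) (nat_lit 115))))) (XT.nd (nat_lit 234) (nat_lit 76) (nat_lit 0) (XT.nd (nat_lit 78) (nat_lit 152) (nat_lit 0) (XT.lf (nat_lit 0) (nat_lit 141970097856) (nat_lit 152) (nat_lit 187951302422) (nat_lit 76) (nat_lit 326895928805) (nat_lit 14) (nat_lit 5) (nat_lit 16) (nat_lit 5) (nat_lit 15) (nat_lit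 5) (nat_lit 315) (nat_lit 291) (nat_lit 114)) (XT.nd (nat_lit 78) (nat_lit 0) (nat_lit 0) (XT.lf (nat_lit 0) (nat_lit 53454955693) (nat_lit 152) (nat_lit 180601658455) (nat_lit 228) (nat_lit 461566397817) (nat_lit 12) (nat_lit 5) (nat_lit 14) (nat_lit 5) (nat_lit 15) (nat_lit 5) (nat_lit 316) (nat_lit 291) (nat_lit 113)) (XT.lf (nat_lit 0) (nat_lit 324862626138) (nat_lit 152) (nat_lit 13786317370) (nat_lit 228) (nat_lit 398473094745) (nat_lit 12) (nat_lit 5) (nat_lit 14) (nat_lit 5) (nat_lit 15) (nat_lit 5) (nat_lit 317) (nat_lit 291) (nat_lit 112)))) (XT.nd (nat_lit 78) (nat_lit 76) (nat_lit 0) (XT.lf (nat_lit 0) (nat_lit 455609935905) (nat_lit 228) (nat_lit 167959425204) (nat_lit 76) (nat_lit 158051523507) (nat_lit 12) (nat_lit 5) (nat_lit 15) (nat_lit 5) (nat_lit 13) (nat_lit 4) (nat_lit 318) (nat_lit 291) (nat_lit 111)) (XT.nd (nat_lit 78) (nat_lit 0) (nat_lit 0) (XT.lf (nat_lit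 0) (nat_lit 100556686427) (nat_lit 76) (nat_lit 484147572185) (nat_lit 152) (nat_lit 244753264103) (nat_lit 11) (nat_lit 5) (nat_lit 12) (nat_lit 5) (nat_lit 13) (nat_lit 4) (nat_lit 319) (nat_lit 291) (nat_lit 110)) (XT.lf (nat_lit 0) (nat_lit 400106048580) (nat_lit 76) (nat_lit 328612361886) (nat_lit 152) (nat_lit 152035298822) (nat_lit 11) (nat_lit 5) (nat_lit 12) (nat_lit 5) (nat_lit 13) (nat_lit 4) (nat_lit 320) (nat_lit 291) (nat_lit 109))))))) (XT.nd (nat_lit 35880) (nat_lit 0) (nat_lit 608) (XT.nd (nat_lit 35412) (nat_lit 0) (nat_lit 1900) (XT.nd (nat_lit 312) (nat_lit 0) (nat_lit 0) (XT.nd (nat_lit 78) (nat_lit 228) (nat_lit 0) (XT.lf (nat_lit 0) (nat_lit 723619322903) (nat_lit 76) (nat_lit 160634348413) (nat_lit 152) (nat_lit 51899921408) (nat_lit 11) (nat_lit 5) (nat_lit 12) (nat_lit 5) (nat_lit 13) (nat_lit 4) (nat_lit 321) (nat_lit 291) (nat_lit 108)) (XT.nd (nat_lit 78)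 (nat_lit 0) (nat_lit 0) (XT.lf (nat_lit 0) (nat_lit 55933133469) (nat_lit 228) (nat_lit 916648319997) (nat_lit 76) (nat_lit 23095754333) (nat_lit 8) (nat_lit 5) (nat_lit 11) (nat_lit 5) (nat_lit 9) (nat_lit 4) (nat_lit 322) (nat_lit 291) (nat_lit 107)) (XT.lf (nat_lit 0) (nat_lit 179723188387) (nat_lit 228) (nat_lit 659165059943) (nat_lit 76) (nat_lit 220155875871) (nat_lit 8) (nat_lit 5) (nat_lit 11) (nat_lit 5) (nat_lit 9) (nat_lit 4) (nat_lit 323) (nat_lit 291) (nat_lit 106)))) (XT.nd (nat_lit 34944) (nat_lit 0) (nat_lit 1824) (XT.lf (nat_lit 0) (nat_lit 457805107694) (nat_lit 228) (nat_lit 80754764390) (nat_lit 76) (nat_lit 662831698113) (nat_lit 8) (nat_lit 5) (nat_lit 11) (nat_lit 5) (nat_lit 9) (nat_lit 4) (nat_lit 325) (nat_lit 291) (nat_lit 104)) (XT.nd (nat_lit 78) (nat_lit 0) (nat_lit 0) (XT.lf (nat_lit 0) (nat_lit 27305431346) (nat_lit 532) (nat_lit 42582916642) (nat_lit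 532) (nat_lit 42582916642) (nat_lit 32) (nat_lit 3) (nat_lit 39) (nat_lit 3) (nat_lit 39) (nat_lit 5) (nat_lit 292) (nat_lit 292) (nat_lit 136)) (XT.lf (nat_lit 76) (nat_lit 8179722295) (nat_lit 0) (nat_lit 48813435553) (nat_lit 532) (nat_lit 176931236380) (nat_lit 33) (nat_lit 5) (nat_lit 32) (nat_lit 3) (nat_lit 39) (nat_lit 5) (nat_lit 293) (nat_lit 292) (nat_lit 135))))) (XT.nd (nat_lit 234) (nat_lit 0) (nat_lit 76) (XT.nd (nat_lit 78) (nat_lit 0) (nat_lit 0) (XT.lf (nat_lit 0) (nat_lit 63143707714) (nat_lit 456) (nat_lit 130851419688) (nat_lit 532) (nat_lit 49343468036) (nat_lit 33) (nat_lit 5) (nat_lit 39) (nat_lit 5) (nat_lit 40) (nat_lit 5) (nat_lit 294) (nat_lit 292) (nat_lit 134)) (XT.nd (nat_lit 78) (nat_lit 0) (nat_lit 76) (XT.lf (nat_lit 0) (nat_lit 71054077250) (nat_lit 456) (nat_lit 29634659348) (nat_lit 532) (nat_lit 152715774774) (nat_lit 33) (nat_lit 5) (nat_lit 39)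 (nat_lit 5) (nat_lit 40) (nat_lit 5) (nat_lit 295) (nat_lit 292) (nat_lit 133)) (XT.lf (nat_lit 0) (nat_lit 81668749476) (nat_lit 456) (nat_lit 180293553582) (nat_lit 532) (nat_lit 2147680303) (nat_lit 34) (nat_lit 5) (nat_lit 40) (nat_lit 5) (nat_lit 41) (nat_lit 5) (nat_lit 296) (nat_lit 292) (nat_lit 132)))) (XT.nd (nat_lit 78) (nat_lit 0) (nat_lit 0) (XT.lf (nat_lit 0) (nat_lit 96579105742) (nat_lit 456) (nat_lit 70214526686) (nat_lit 532) (nat_lit 108602540445) (nat_lit 34) (nat_lit 5) (nat_lit 40) (nat_lit 5) (nat_lit 41) (nat_lit 5) (nat_lit 297) (nat_lit 292) (nat_lit 131)) (XT.nd (nat_lit 78) (nat_lit 0) (nat_lit 76) (XT.lf (nat_lit 76) (nat_lit 51233671047) (nat_lit 0) (nat_lit 62680705738) (nat_lit 532) (nat_lit 173572314399) (nat_lit 35) (nat_lit 5) (nat_lit 34) (nat_lit 5) (nat_lit 41) (nat_lit 5) (nat_lit 298) (nat_lit 292) (nat_lit 130)) (XT.lf (nat_lit 0) (nat_lit 135802803465)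 (nat_lit 456) (nat_lit 115246677487) (nat_lit 76) (nat_lit 49241663792) (nat_lit 35) (nat_lit 5) (nat_lit 41) (nat_lit 5) (nat_lit 36) (nat_lit 5) (nat_lit 299) (nat_lit 292) (nat_lit 129)))))) (XT.nd (nat_lit 468) (nat_lit 608) (nat_lit 0) (XT.nd (nat_lit 234) (nat_lit 380) (nat_lit 0) (XT.nd (nat_lit 78) (nat_lit 0) (nat_lit 0) (XT.lf (nat_lit 0) (nat_lit 14539352367) (nat_lit 456) (nat_lit 146880620182) (nat_lit 532) (nat_lit 152541769042) (nat_lit 29) (nat_lit 5) (nat_lit 35) (nat_lit 5) (nat_lit 36) (nat_lit 5) (nat_lit 300) (nat_lit 292) (nat_lit 128)) (XT.nd (nat_lit 78) (nat_lit 0) (nat_lit 0) (XT.lf (nat_lit 0) (nat_lit 161262379758) (nat_lit 456) (nat_lit 30975113907) (nat_lit 532) (nat_lit 136236414669) (nat_lit 29) (nat_lit 5) (nat_lit 35) (nat_lit 5) (nat_lit 36) (nat_lit 5) (nat_lit 301) (nat_lit 292) (nat_lit 127)) (XT.lf (nat_lit 0) (nat_lit 227785932250) (nat_lit 532)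 (nat_lit 26689445809) (nat_lit 76) (nat_lit 89490429493) (nat_lit 29) (nat_lit 5) (nat_lit 36) (nat_lit 5) (nat_lit 30) (nat_lit 5) (nat_lit 302) (nat_lit 292) (nat_lit 126)))) (XT.nd (nat_lit 78) (nat_lit 152) (nat_lit 0) (XT.lf (nat_lit 0) (nat_lit 130813620857) (nat_lit 228) (nat_lit 139315184374) (nat_lit 304) (nat_lit 90252209101) (nat_lit 26) (nat_lit 5) (nat_lit 29) (nat_lit 5) (nat_lit 30) (nat_lit 5) (nat_lit 303) (nat_lit 292) (nat_lit 125)) (XT.nd (nat_lit 78) (nat_lit 152) (nat_lit 0) (XT.lf (nat_lit 0) (nat_lit 302434725423) (nat_lit 228) (nat_lit 14154062535) (nat_lit 304) (nat_lit 61462275644) (nat_lit 26) (nat_lit 5) (nat_lit 29) (nat_lit 5) (nat_lit 30) (nat_lit 5) (nat_lit 304) (nat_lit 292) (nat_lit 124)) (XT.lf (nat_lit 0) (nat_lit 92360452878) (nat_lit 152) (nat_lit 279536867526) (nat_lit 228) (nat_lit 24826856636) (nat_lit 24) (nat_lit 5) (nat_lit 26) (nat_lit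 5) (nat_lit 27) (nat_lit 5) (nat_lit 305) (nat_lit 292) (nat_lit 123))))) (XT.nd (nat_lit 234) (nat_lit 304) (nat_lit 0) (XT.nd (nat_lit 78) (nat_lit 228) (nat_lit 0) (XT.lf (nat_lit 0) (nat_lit 16490843415) (nat_lit 228) (nat_lit 139425868491) (nat_lit 76) (nat_lit 260746967548) (nat_lit 23) (nat_lit 5) (nat_lit 26) (nat_lit 5) (nat_lit 24) (nat_lit 5) (nat_lit 306) (nat_lit 292) (nat_lit 122)) (XT.nd (nat_lit 78) (nat_lit 0) (nat_lit 0) (XT.lf (nat_lit 0) (nat_lit 40066388407) (nat_lit 228) (nat_lit 20669825615) (nat_lit 304) (nat_lit 377333456044) (nat_lit 20) (nat_lit 5) (nat_lit 23) (nat_lit 5) (nat_lit 24) (nat_lit 5) (nat_lit 307) (nat_lit 292) (nat_lit 121)) (XT.lf (nat_lit 0) (nat_lit 115448131875) (nat_lit 304) (nat_lit 222150741630) (nat_lit 76) (nat_lit 123035113244) (nat_lit 20) (nat_lit 5) (nat_lit 24) (nat_lit 5) (nat_lit 21) (nat_lit 5) (nat_lit 308) (nat_lit 292) (nat_lit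 120)))) (XT.nd (nat_lit 156) (nat_lit 152) (nat_lit 0) (XT.nd (nat_lit 78) (nat_lit 152) (nat_lit 0) (XT.lf (nat_lit 0) (nat_lit 175073839193) (nat_lit 304) (nat_lit 32766931657) (nat_lit 76) (nat_lit 277119731250) (nat_lit 20) (nat_lit 5) (nat_lit 24) (nat_lit 5) (nat_lit 21) (nat_lit 5) (nat_lit 309) (nat_lit 292) (nat_lit 119)) (XT.lf (nat_lit 0) (nat_lit 180812506354) (nat_lit 152) (nat_lit 63005602468) (nat_lit 228) (nat_lit 267067149598) (nat_lit 18) (nat_lit 5) (nat_lit 20) (nat_lit 5) (nat_lit 21) (nat_lit 5) (nat_lit 310) (nat_lit 292) (nat_lit 118))) (XT.nd (nat_lit 78) (nat_lit 152) (nat_lit 0) (XT.lf (nat_lit 0) (nat_lit 321227724510) (nat_lit 228) (nat_lit 127740527634) (nat_lit 76) (nat_lit 89662478926) (nat_lit 18) (nat_lit 5) (nat_lit 21) (nat_lit 5) (nat_lit 19) (nat_lit 5) (nat_lit 311) (nat_lit 292) (nat_lit 117)) (XT.lf (nat_lit 0) (nat_lit 93835762066) (nat_lit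 152) (nat_lit 314887573737) (nat_lit 228) (nat_lit 159561047791) (nat_lit 16) (nat_lit 5) (nat_lit 18) (nat_lit 5) (nat_lit 19) (nat_lit 5) (nat_lit 312) (nat_lit 292) (nat_lit 116))))))))
noncomputable def xc122 : XT := (XT.nd (nat_lit 37050) (nat_lit 0) (nat_lit 0) (XT.nd (nat_lit 36114) (nat_lit 0) (nat_lit 988) (XT.nd (nat_lit 468) (nat_lit 76) (nat_lit 0) (XT.nd (nat_lit 234) (nat_lit 152) (nat_lit 0) (XT.nd (nat_lit 78) (nat_lit 152) (nat_lit 0) (XT.lf (nat_lit 0) (nat_lit 340402824777) (nat_lit 152) (nat_lit 166308389956) (nat_lit 228) (nat_lit 93319704247) (nat_lit 16) (nat_lit 5) (nat_lit 18) (nat_lit 5) (nat_lit 19) (nat_lit 5) (nat_lit 313) (nat_lit 292) (nat_lit 115)) (XT.nd (nat_lit 78) (nat_lit 152) (nat_lit 0) (XT.lf (nat_lit 0) (nat_lit 606695208838) (nat_lit 152) (nat_lit 5842883965) (nat_lit 228) (nat_lit 21779087034) (nat_lit 16) (nat_lit 5) (nat_lit 18) (nat_lit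 5) (nat_lit 19) (nat_lit 5) (nat_lit 314) (nat_lit 292) (nat_lit 114)) (XT.lf (nat_lit 0) (nat_lit 62527358675) (nat_lit 152) (nat_lit 441718768673) (nat_lit 76) (nat_lit 166208009317) (nat_lit 14) (nat_lit 5) (nat_lit 16) (nat_lit 5) (nat_lit 15) (nat_lit 5) (nat_lit 315) (nat_lit 292) (nat_lit 113)))) (XT.nd (nat_lit 78) (nat_lit 152) (nat_lit 0) (XT.lf (nat_lit 0) (nat_lit 153328268137) (nat_lit 152) (nat_lit 202986564683) (nat_lit 76) (nat_lit 353047835330) (nat_lit 14) (nat_lit 5) (nat_lit 16) (nat_lit 5) (nat_lit 15) (nat_lit 5) (nat_lit 316) (nat_lit 292) (nat_lit 112)) (XT.nd (nat_lit 78) (nat_lit 0) (nat_lit 0) (XT.lf (nat_lit 0) (nat_lit 57732172766) (nat_lit 152) (nat_lit 195049511039) (nat_lit 228) (nat_lit 498491123779) (nat_lit 12) (nat_lit 5) (nat_lit 14) (nat_lit 5) (nat_lit 15) (nat_lit 5) (nat_lit 317) (nat_lit 292) (nat_lit 111)) (XT.lf (nat_lit 0) (nat_lit 350852396061)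 (nat_lit 152) (nat_lit 14888963415) (nat_lit 228) (nat_lit 430350399858) (nat_lit 12) (nat_lit 5) (nat_lit 14) (nat_lit 5) (nat_lit 15) (nat_lit 5) (nat_lit 318) (nat_lit 292) (nat_lit 110))))) (XT.nd (nat_lit 234) (nat_lit 0) (nat_lit 0) (XT.nd (nat_lit 78) (nat_lit 76) (nat_lit 0) (XT.lf (nat_lit 0) (nat_lit 492059199967) (nat_lit 228) (nat_lit 181395442578) (nat_lit 76) (nat_lit 170695873510) (nat_lit 12) (nat_lit 5) (nat_lit 15) (nat_lit 5) (nat_lit 13) (nat_lit 4) (nat_lit 319) (nat_lit 292) (nat_lit 109)) (XT.nd (nat_lit 78) (nat_lit 0) (nat_lit 0) (XT.lf (nat_lit 0) (nat_lit 108601939334) (nat_lit 76) (nat_lit 522879111669) (nat_lit 152) (nat_lit 264333035730) (nat_lit 11) (nat_lit 5) (nat_lit 12) (nat_lit 5) (nat_lit 13) (nat_lit 4) (nat_lit 320) (nat_lit 292) (nat_lit 108)) (XT.lf (nat_lit 0) (nat_lit 432115197275) (nat_lit 76) (nat_lit 354901104271) (nat_lit 152) (nat_lit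 164197669485) (nat_lit 11) (nat_lit 5) (nat_lit 12) (nat_lit 5) (nat_lit 13) (nat_lit 4) (nat_lit 321) (nat_lit 292) (nat_lit 107)))) (XT.nd (nat_lit 35256) (nat_lit 0) (nat_lit 1596) (XT.lf (nat_lit 0) (nat_lit 781509484298) (nat_lit 76) (nat_lit 173484867984) (nat_lit 152) (nat_lit 56051495452) (nat_lit 11) (nat_lit 5) (nat_lit 12) (nat_lit 5) (nat_lit 13) (nat_lit 4) (nat_lit 322) (nat_lit 292) (nat_lit 106)) (XT.nd (nat_lit 78) (nat_lit 0) (nat_lit 0) (XT.lf (nat_lit 0) (nat_lit 29490976612) (nat_lit 532) (nat_lit 45988946576) (nat_lit 532) (nat_lit 45988946576) (nat_lit 32) (nat_lit 3) (nat_lit 39) (nat_lit 3) (nat_lit 39) (nat_lit 5) (nat_lit 293) (nat_lit 293) (nat_lit 134)) (XT.lf (nat_lit 76) (nat_lit 8835276323) (nat_lit 0) (nat_lit 52719419402) (nat_lit 532) (nat_lit 191083469932) (nat_lit 33) (nat_lit 5) (nat_lit 32) (nat_lit 3) (nat_lit 39) (nat_lit 5) (nat_lit 294) (nat_lit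 293) (nat_lit 133)))))) (XT.nd (nat_lit 468) (nat_lit 684) (nat_lit 0) (XT.nd (nat_lit 234) (nat_lit 0) (nat_lit 76) (XT.nd (nat_lit 78) (nat_lit 0) (nat_lit 0) (XT.lf (nat_lit 0) (nat_lit 68197114875) (nat_lit 456) (nat_lit 141318257137) (nat_lit 532) (nat_lit 53290145912) (nat_lit 33) (nat_lit 5) (nat_lit 39) (nat_lit 5) (nat_lit 40) (nat_lit 5) (nat_lit 295) (nat_lit 293) (nat_lit 132)) (XT.nd (nat_lit 78) (nat_lit 0) (nat_lit 76) (XT.lf (nat_lit 0) (nat_lit 76740172452) (nat_lit 456) (nat_lit 32004250498) (nat_lit 532) (nat_lit 164932296416) (nat_lit 33) (nat_lit 5) (nat_lit 39) (nat_lit 5) (nat_lit 40) (nat_lit 5) (nat_lit 296) (nat_lit 293) (nat_lit 131)) (XT.lf (nat_lit 0) (nat_lit 88203902754) (nat_lit 456) (nat_lit 194715730018) (nat_lit 532) (nat_lit 2319006443) (nat_lit 34) (nat_lit 5) (nat_lit 40) (nat_lit 5) (nat_lit 41) (nat_lit 5) (nat_lit 297) (nat_lit 293) (nat_lit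 130)))) (XT.nd (nat_lit 78) (nat_lit 0) (nat_lit 0) (XT.lf (nat_lit 0) (nat_lit 104306965052) (nat_lit 456) (nat_lit 75830477848) (nat_lit 532) (nat_lit 117290291565) (nat_lit 34) (nat_lit 5) (nat_lit 40) (nat_lit 5) (nat_lit 41) (nat_lit 5) (nat_lit 298) (nat_lit 293) (nat_lit 129)) (XT.nd (nat_lit 78) (nat_lit 0) (nat_lit 76) (XT.lf (nat_lit 76) (nat_lit 55333545046) (nat_lit 0) (nat_lit 67695427723) (nat_lit 532) (nat_lit 187456528996) (nat_lit 35) (nat_lit 5) (nat_lit 34) (nat_lit 5) (nat_lit 41) (nat_lit 5) (nat_lit 299) (nat_lit 293) (nat_lit 128)) (XT.lf (nat_lit 0) (nat_lit 146668360571) (nat_lit 456) (nat_lit 124465197414) (nat_lit 76) (nat_lit 53180763337) (nat_lit 35) (nat_lit 5) (nat_lit 41) (nat_lit 5) (nat_lit 36) (nat_lit 5) (nat_lit 300) (nat_lit 293) (nat_lit 127))))) (XT.nd (nat_lit 234) (nat_lit 380) (nat_lit 0) (XT.nd (nat_lit 78) (nat_lit 0) (nat_lit 0) (XT.lf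 (nat_lit 0) (nat_lit 15703684087) (nat_lit 456) (nat_lit 158631148831) (nat_lit 532) (nat_lit 164743739240) (nat_lit 29) (nat_lit 5) (nat_lit 35) (nat_lit 5) (nat_lit 36) (nat_lit 5) (nat_lit 301) (nat_lit 293) (nat_lit 126)) (XT.nd (nat_lit 78) (nat_lit 0) (nat_lit 0) (XT.lf (nat_lit 0) (nat_lit 174164466001) (nat_lit 456) (nat_lit 33453196200) (nat_lit 532) (nat_lit 147134058097) (nat_lit 29) (nat_lit 5) (nat_lit 35) (nat_lit 5) (nat_lit 36) (nat_lit 5) (nat_lit 302) (nat_lit 293) (nat_lit 125)) (XT.lf (nat_lit 0) (nat_lit 246009887647) (nat_lit 532) (nat_lit 28823491913) (nat_lit 76) (nat_lit 96649599483) (nat_lit 29) (nat_lit 5) (nat_lit 36) (nat_lit 5) (nat_lit 30) (nat_lit 5) (nat_lit 303) (nat_lit 293) (nat_lit 124)))) (XT.nd (nat_lit 78) (nat_lit 152) (nat_lit 0) (XT.lf (nat_lit 0) (nat_lit 141279791996) (nat_lit 228) (nat_lit 150460344418) (nat_lit 304) (nat_lit 97471270766)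 (nat_lit 26) (nat_lit 5) (nat_lit 29) (nat_lit 5) (nat_lit 30) (nat_lit 5) (nat_lit 304) (nat_lit 293) (nat_lit 123)) (XT.nd (nat_lit 78) (nat_lit 152) (nat_lit 0) (XT.lf (nat_lit 0) (nat_lit 326630504818) (nat_lit 228) (nat_lit 15286336885) (nat_lit 304) (nat_lit 66378225230) (nat_lit 26) (nat_lit 5) (nat_lit 29) (nat_lit 5) (nat_lit 30) (nat_lit 5) (nat_lit 305) (nat_lit 293) (nat_lit 122)) (XT.lf (nat_lit 0) (nat_lit 99750343618) (nat_lit 152) (nat_lit 301899669193) (nat_lit 228) (nat_lit 26812020572) (nat_lit 24) (nat_lit 5) (nat_lit 26) (nat_lit 5) (nat_lit 27) (nat_lit 5) (nat_lit 306) (nat_lit 293) (nat_lit 121))))))) (XT.nd (nat_lit 936) (nat_lit 76) (nat_lit 0) (XT.nd (nat_lit 468) (nat_lit 456) (nat_lit 0) (XT.nd (nat_lit 234) (nat_lit 152) (nat_lit 0) (XT.nd (nat_lit 78) (nat_lit 228) (nat_lit 0) (XT.lf (nat_lit 0) (nat_lit 17810976945) (nat_lit 228) (nat_lit 150578911442)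 (nat_lit 76) (nat_lit 281606811614) (nat_lit 23) (nat_lit 5) (nat_lit 26) (nat_lit 5) (nat_lit 24) (nat_lit 5) (nat_lit 307) (nat_lit 293) (nat_lit 120)) (XT.nd (nat_lit 78) (nat_lit 0) (nat_lit 0) (XT.lf (nat_lit 0) (nat_lit 43272700019) (nat_lit 228) (nat_lit 22323237091) (nat_lit 304) (nat_lit 407519236293) (nat_lit 20) (nat_lit 5) (nat_lit 23) (nat_lit 5) (nat_lit 24) (nat_lit 5) (nat_lit 308) (nat_lit 293) (nat_lit 119)) (XT.lf (nat_lit 0) (nat_lit 124684751097) (nat_lit 304) (nat_lit 239921813360) (nat_lit 76) (nat_lit 132878075859) (nat_lit 20) (nat_lit 5) (nat_lit 24) (nat_lit 5) (nat_lit 21) (nat_lit 5) (nat_lit 309) (nat_lit 293) (nat_lit 118)))) (XT.nd (nat_lit 78) (nat_lit 152) (nat_lit 0) (XT.lf (nat_lit 0) (nat_lit 189080458062) (nat_lit 304) (nat_lit 35387371745) (nat_lit 76) (nat_lit 299289451931) (nat_lit 20) (nat_lit 5) (nat_lit 24) (nat_lit 5) (nat_lit 21) (nat_lit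 5) (nat_lit 310) (nat_lit 293) (nat_lit 117)) (XT.nd (nat_lit 78) (nat_lit 0) (nat_lit 0) (XT.lf (nat_lit 0) (nat_lit 195278398157) (nat_lit 152) (nat_lit 68045839819) (nat_lit 228) (nat_lit 288431783356) (nat_lit 18) (nat_lit 5) (nat_lit 20) (nat_lit 5) (nat_lit 21) (nat_lit 5) (nat_lit 311) (nat_lit 293) (nat_lit 116)) (XT.lf (nat_lit 0) (nat_lit 346926577210) (nat_lit 228) (nat_lit 137958895784) (nat_lit 76) (nat_lit 96835662702) (nat_lit 18) (nat_lit 5) (nat_lit 21) (nat_lit 5) (nat_lit 19) (nat_lit 5) (nat_lit 312) (nat_lit 293) (nat_lit 115))))) (XT.nd (nat_lit 234) (nat_lit 304) (nat_lit 0) (XT.nd (nat_lit 78) (nat_lit 0) (nat_lit 0) (XT.lf (nat_lit 0) (nat_lit 101343474964) (nat_lit 152) (nat_lit 340078335915) (nat_lit 228) (nat_lit 172325271895) (nat_lit 16) (nat_lit 5) (nat_lit 18) (nat_lit 5) (nat_lit 19) (nat_lit 5) (nat_lit 313) (nat_lit 293) (nat_lit 114)) (XT.nd (nat_lit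 78) (nat_lit 0) (nat_lit 0) (XT.lf (nat_lit 0) (nat_lit 367635839586) (nat_lit 152) (nat_lit 179612835485) (nat_lit 228) (nat_lit 100784669735) (nat_lit 16) (nat_lit 5) (nat_lit 18) (nat_lit 5) (nat_lit 19) (nat_lit 5) (nat_lit 314) (nat_lit 293) (nat_lit 113)) (XT.lf (nat_lit 0) (nat_lit 655231555939) (nat_lit 152) (nat_lit 6310105731) (nat_lit 228) (nat_lit 23520848394) (nat_lit 16) (nat_lit 5) (nat_lit 18) (nat_lit 5) (nat_lit 19) (nat_lit 5) (nat_lit 315) (nat_lit 293) (nat_lit 112)))) (XT.nd (nat_lit 78) (nat_lit 152) (nat_lit 0) (XT.lf (nat_lit 0) (nat_lit 67530068158) (nat_lit 152) (nat_lit 477055490599) (nat_lit 76) (nat_lit 179504865081) (nat_lit 14) (nat_lit 5) (nat_lit 16) (nat_lit 5) (nat_lit 15) (nat_lit 5) (nat_lit 316) (nat_lit 293) (nat_lit 111)) (XT.nd (nat_lit 78) (nat_lit 152) (nat_lit 0) (XT.lf (nat_lit 0) (nat_lit 165595011801) (nat_lit 152) (nat_lit 219224768036)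 (nat_lit 76) (nat_lit 381291861247) (nat_lit 14) (nat_lit 5) (nat_lit 16) (nat_lit 5) (nat_lit 15) (nat_lit 5) (nat_lit 317) (nat_lit 293) (nat_lit 110)) (XT.lf (nat_lit 0) (nat_lit 62351450136) (nat_lit 152) (nat_lit 210653231788) (nat_lit 228) (nat_lit 538369911398) (nat_lit 12) (nat_lit 5) (nat_lit 14) (nat_lit 5) (nat_lit 15) (nat_lit 5) (nat_lit 318) (nat_lit 293) (nat_lit 109)))))) (XT.nd (nat_lit 35724) (nat_lit 0) (nat_lit 1672) (XT.nd (nat_lit 234) (nat_lit 0) (nat_lit 0) (XT.nd (nat_lit 78) (nat_lit 76) (nat_lit 0) (XT.lf (nat_lit 0) (nat_lit 378921239179) (nat_lit 152) (nat_lit 16079858142) (nat_lit 228) (nat_lit 464777966770) (nat_lit 12) (nat_lit 5) (nat_lit 14) (nat_lit 5) (nat_lit 15) (nat_lit 5) (nat_lit 319) (nat_lit 293) (nat_lit 108)) (XT.nd (nat_lit 78) (nat_lit 76) (nat_lit 0) (XT.lf (nat_lit 0) (nat_lit 531424338218) (nat_lit 228) (nat_lit 195906446432) (nat_lit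 76) (nat_lit 184351738968) (nat_lit 12) (nat_lit 5) (nat_lit 15) (nat_lit 5) (nat_lit 13) (nat_lit 4) (nat_lit 320) (nat_lit 293) (nat_lit 107)) (XT.lf (nat_lit 0) (nat_lit 117290710045) (nat_lit 76) (nat_lit 564709212300) (nat_lit 152) (nat_lit 285479258919) (nat_lit 11) (nat_lit 5) (nat_lit 12) (nat_lit 5) (nat_lit 13) (nat_lit 4) (nat_lit 321) (nat_lit 293) (nat_lit 106)))) (XT.nd (nat_lit 35334) (nat_lit 0) (nat_lit 1596) (XT.lf (nat_lit 0) (nat_lit 466684983023) (nat_lit 76) (nat_lit 383292981222) (nat_lit 152) (nat_lit 177333094462) (nat_lit 11) (nat_lit 5) (nat_lit 12) (nat_lit 5) (nat_lit 13) (nat_lit 4) (nat_lit 322) (nat_lit 293) (nat_lit 105)) (XT.nd (nat_lit 78) (nat_lit 0) (nat_lit 0) (XT.lf (nat_lit 0) (nat_lit 31851207037) (nat_lit 532) (nat_lit 49667544986) (nat_lit 532) (nat_lit 49667544986) (nat_lit 32) (nat_lit 3) (nat_lit 39) (nat_lit 3) (nat_lit 39) (nat_lit 5)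 (nat_lit 294) (nat_lit 294) (nat_lit 132)) (XT.lf (nat_lit 76) (nat_lit 9543106868) (nat_lit 0) (nat_lit 56937752279) (nat_lit 532) (nat_lit 206368205346) (nat_lit 33) (nat_lit 5) (nat_lit 32) (nat_lit 3) (nat_lit 39) (nat_lit 5) (nat_lit 295) (nat_lit 294) (nat_lit 131))))) (XT.nd (nat_lit 234) (nat_lit 0) (nat_lit 76) (XT.nd (nat_lit 78) (nat_lit 0) (nat_lit 0) (XT.lf (nat_lit 0) (nat_lit 73654522048) (nat_lit 456) (nat_lit 152622623636) (nat_lit 532) (nat_lit 57552672085) (nat_lit 33) (nat_lit 5) (nat_lit 39) (nat_lit 5) (nat_lit 40) (nat_lit 5) (nat_lit 296) (nat_lit 294) (nat_lit 130)) (XT.nd (nat_lit 78) (nat_lit 0) (nat_lit 76) (XT.lf (nat_lit 0) (nat_lit 82880902899) (nat_lit 456) (nat_lit 34563577508) (nat_lit 532) (nat_lit 178126245407) (nat_lit 33) (nat_lit 5) (nat_lit 39) (nat_lit 5) (nat_lit 40) (nat_lit 5) (nat_lit 297) (nat_lit 294) (nat_lit 129)) (XT.lf (nat_lit 0)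 (nat_lit 95261632429) (nat_lit 456) (nat_lit 210291867148) (nat_lit 532) (nat_lit 2504108332) (nat_lit 34) (nat_lit 5) (nat_lit 40) (nat_lit 5) (nat_lit 41) (nat_lit 5) (nat_lit 298) (nat_lit 294) (nat_lit 128)))) (XT.nd (nat_lit 78) (nat_lit 0) (nat_lit 0) (XT.lf (nat_lit 0) (nat_lit 112652834715) (nat_lit 456) (nat_lit 81895877863) (nat_lit 532) (nat_lit 126673127274) (nat_lit 34) (nat_lit 5) (nat_lit 40) (nat_lit 5) (nat_lit 41) (nat_lit 5) (nat_lit 299) (nat_lit 294) (nat_lit 127)) (XT.nd (nat_lit 78) (nat_lit 0) (nat_lit 76) (XT.lf (nat_lit 76) (nat_lit 59761240580) (nat_lit 0) (nat_lit 73111289587) (nat_lit 532) (nat_lit 202451704819) (nat_lit 35) (nat_lit 5) (nat_lit 34) (nat_lit 5) (nat_lit 41) (nat_lit 5) (nat_lit 300) (nat_lit 294) (nat_lit 126)) (XT.lf (nat_lit 0) (nat_lit 158402972103) (nat_lit 456) (nat_lit 134421372165) (nat_lit 76) (nat_lit 57435024164) (nat_lit 35)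 (nat_lit 5) (nat_lit 41) (nat_lit 5) (nat_lit 36) (nat_lit 5) (nat_lit 301) (nat_lit 294) (nat_lit 125))))))))
noncomputable def xc123 : XT := (XT.nd (nat_lit 37284) (nat_lit 0) (nat_lit 0) (XT.nd (nat_lit 936) (nat_lit 456) (nat_lit 0) (XT.nd (nat_lit 468) (nat_lit 456) (nat_lit 0) (XT.nd (nat_lit 234) (nat_lit 380) (nat_lit 0) (XT.nd (nat_lit 78) (nat_lit 0) (nat_lit 0) (XT.lf (nat_lit 0) (nat_lit 16960993501) (nat_lit 456) (nat_lit 171321708497) (nat_lit 532) (nat_lit 177922062689) (nat_lit 29) (nat_lit 5) (nat_lit 35) (nat_lit 5) (nat_lit 36) (nat_lit 5) (nat_lit 302) (nat_lit 294) (nat_lit 124)) (XT.nd (nat_lit 78) (nat_lit 0) (nat_lit 0) (XT.lf (nat_lit 0) (nat_lit 188098562806) (nat_lit 456) (nat_lit 36129514636) (nat_lit 532) (nat_lit 158903694142) (nat_lit 29) (nat_lit 5) (nat_lit 35) (nat_lit 5) (nat_lit 36) (nat_lit 5) (nat_lit 303) (nat_lit 294) (nat_lit 123)) (XT.lf (nat_lit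 0) (nat_lit 265691605285) (nat_lit 532) (nat_lit 31128419997) (nat_lit 76) (nat_lit 104381512255) (nat_lit 29) (nat_lit 5) (nat_lit 36) (nat_lit 5) (nat_lit 30) (nat_lit 5) (nat_lit 304) (nat_lit 294) (nat_lit 122)))) (XT.nd (nat_lit 78) (nat_lit 152) (nat_lit 0) (XT.lf (nat_lit 0) (nat_lit 152583102543) (nat_lit 228) (nat_lit 162497125071) (nat_lit 304) (nat_lit 105268016441) (nat_lit 26) (nat_lit 5) (nat_lit 29) (nat_lit 5) (nat_lit 30) (nat_lit 5) (nat_lit 305) (nat_lit 294) (nat_lit 121)) (XT.nd (nat_lit 78) (nat_lit 152) (nat_lit 0) (XT.lf (nat_lit 0) (nat_lit 352761803710) (nat_lit 228) (nat_lit 16509200409) (nat_lit 304) (nat_lit 71687598076) (nat_lit 26) (nat_lit 5) (nat_lit 29) (nat_lit 5) (nat_lit 30) (nat_lit 5) (nat_lit 306) (nat_lit 294) (nat_lit 120)) (XT.lf (nat_lit 0) (nat_lit 107731275180) (nat_lit 152) (nat_lit 326051516070) (nat_lit 228) (nat_lit 28956138087) (nat_lit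 24) (nat_lit 5) (nat_lit 26) (nat_lit 5) (nat_lit 27) (nat_lit 5) (nat_lit 307) (nat_lit 294) (nat_lit 119))))) (XT.nd (nat_lit 234) (nat_lit 152) (nat_lit 0) (XT.nd (nat_lit 78) (nat_lit 228) (nat_lit 0) (XT.lf (nat_lit 0) (nat_lit 19236597605) (nat_lit 228) (nat_lit 162624344275) (nat_lit 76) (nat_lit 304135430842) (nat_lit 23) (nat_lit 5) (nat_lit 26) (nat_lit 5) (nat_lit 24) (nat_lit 5) (nat_lit 308) (nat_lit 294) (nat_lit 118)) (XT.nd (nat_lit 78) (nat_lit 0) (nat_lit 0) (XT.lf (nat_lit 0) (nat_lit 46735373823) (nat_lit 228) (nat_lit 24108946390) (nat_lit 304) (nat_lit 440120006820) (nat_lit 20) (nat_lit 5) (nat_lit 23) (nat_lit 5) (nat_lit 24) (nat_lit 5) (nat_lit 309) (nat_lit 294) (nat_lit 117)) (XT.lf (nat_lit 0) (nat_lit 134660190197) (nat_lit 304) (nat_lit 259114711721) (nat_lit 76) (nat_lit 143508453577) (nat_lit 20) (nat_lit 5) (nat_lit 24) (nat_lit 5) (nat_lit 21) (nat_lit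 5) (nat_lit 310) (nat_lit 294) (nat_lit 116)))) (XT.nd (nat_lit 78) (nat_lit 152) (nat_lit 0) (XT.lf (nat_lit 0) (nat_lit 204207504903) (nat_lit 304) (nat_lit 38217577495) (nat_lit 76) (nat_lit 323232729983) (nat_lit 20) (nat_lit 5) (nat_lit 24) (nat_lit 5) (nat_lit 21) (nat_lit 5) (nat_lit 311) (nat_lit 294) (nat_lit 115)) (XT.nd (nat_lit 78) (nat_lit 0) (nat_lit 0) (XT.lf (nat_lit 0) (nat_lit 210901434151) (nat_lit 152) (nat_lit 73489326237) (nat_lit 228) (nat_lit 311505693128) (nat_lit 18) (nat_lit 5) (nat_lit 20) (nat_lit 5) (nat_lit 21) (nat_lit 5) (nat_lit 312) (nat_lit 294) (nat_lit 114)) (XT.lf (nat_lit 0) (nat_lit 374681247574) (nat_lit 228) (nat_lit 148994858081) (nat_lit 76) (nat_lit 104582674722) (nat_lit 18) (nat_lit 5) (nat_lit 21) (nat_lit 5) (nat_lit 19) (nat_lit 5) (nat_lit 313) (nat_lit 294) (nat_lit 113)))))) (XT.nd (nat_lit 468) (nat_lit 0) (nat_lit 0) (XT.nd (nat_lit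 234) (nat_lit 304) (nat_lit 0) (XT.nd (nat_lit 78) (nat_lit 0) (nat_lit 0) (XT.lf (nat_lit 0) (nat_lit 109451683356) (nat_lit 152) (nat_lit 367284393836) (nat_lit 228) (nat_lit 186110728044) (nat_lit 16) (nat_lit 5) (nat_lit 18) (nat_lit 5) (nat_lit 19) (nat_lit 5) (nat_lit 314) (nat_lit 294) (nat_lit 112)) (XT.nd (nat_lit 78) (nat_lit 0) (nat_lit 0) (XT.lf (nat_lit 0) (nat_lit 397047383044) (nat_lit 152) (nat_lit 193981668850) (nat_lit 228) (nat_lit 108846919608) (nat_lit 16) (nat_lit 5) (nat_lit 18) (nat_lit 5) (nat_lit 19) (nat_lit 5) (nat_lit 315) (nat_lit 294) (nat_lit 111)) (XT.lf (nat_lit 0) (nat_lit 707650706610) (nat_lit 152) (nat_lit 6814735047) (nat_lit 228) (nat_lit 25402031352) (nat_lit 16) (nat_lit 5) (nat_lit 18) (nat_lit 5) (nat_lit 19) (nat_lit 5) (nat_lit 316) (nat_lit 294) (nat_lit 110)))) (XT.nd (nat_lit 78) (nat_lit 152) (nat_lit 0) (XT.lf (nat_lit 0) (nat_lit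 72932920104) (nat_lit 152) (nat_lit 515219261494) (nat_lit 76) (nat_lit 193865438631) (nat_lit 14) (nat_lit 5) (nat_lit 16) (nat_lit 5) (nat_lit 15) (nat_lit 5) (nat_lit 317) (nat_lit 294) (nat_lit 109)) (XT.nd (nat_lit 78) (nat_lit 152) (nat_lit 0) (XT.lf (nat_lit 0) (nat_lit 178843026164) (nat_lit 152) (nat_lit 236762130633) (nat_lit 76) (nat_lit 411795380836) (nat_lit 14) (nat_lit 5) (nat_lit 16) (nat_lit 5) (nat_lit 15) (nat_lit 5) (nat_lit 318) (nat_lit 294) (nat_lit 108)) (XT.lf (nat_lit 0) (nat_lit 67340169325) (nat_lit 152) (nat_lit 227505284454) (nat_lit 228) (nat_lit 581439073683) (nat_lit 12) (nat_lit 5) (nat_lit 14) (nat_lit 5) (nat_lit 15) (nat_lit 5) (nat_lit 319) (nat_lit 294) (nat_lit 107))))) (XT.nd (nat_lit 35646) (nat_lit 0) (nat_lit 1520) (XT.nd (nat_lit 78) (nat_lit 0) (nat_lit 0) (XT.lf (nat_lit 0) (nat_lit 409235496812) (nat_lit 152) (nat_lit 17366056167) (nat_lit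 228) (nat_lit 501959805382) (nat_lit 12) (nat_lit 5) (nat_lit 14) (nat_lit 5) (nat_lit 15) (nat_lit 5) (nat_lit 320) (nat_lit 294) (nat_lit 106)) (XT.nd (nat_lit 35490) (nat_lit 0) (nat_lit 1520) (XT.lf (nat_lit 0) (nat_lit 573938630143) (nat_lit 228) (nat_lit 211578420693) (nat_lit 76) (nat_lit 199100045762) (nat_lit 12) (nat_lit 5) (nat_lit 15) (nat_lit 5) (nat_lit 13) (nat_lit 4) (nat_lit 321) (nat_lit 294) (nat_lit 105)) (XT.lf (nat_lit 0) (nat_lit 34400120041) (nat_lit 532) (nat_lit 53640505069) (nat_lit 532) (nat_lit 53640505069) (nat_lit 32) (nat_lit 3) (nat_lit 39) (nat_lit 3) (nat_lit 39) (nat_lit 5) (nat_lit 295) (nat_lit 295) (nat_lit 130)))) (XT.nd (nat_lit 78) (nat_lit 0) (nat_lit 76) (XT.lf (nat_lit 76) (nat_lit 10307419992) (nat_lit 0) (nat_lit 61493440607) (nat_lit 532) (nat_lit 222875996668) (nat_lit 33) (nat_lit 5) (nat_lit 32) (nat_lit 3) (nat_lit 39) (nat_lit 5)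 (nat_lit 296) (nat_lit 295) (nat_lit 129)) (XT.nd (nat_lit 78) (nat_lit 0) (nat_lit 0) (XT.lf (nat_lit 0) (nat_lit 79548288119) (nat_lit 456) (nat_lit 164831495536) (nat_lit 532) (nat_lit 62156298146) (nat_lit 33) (nat_lit 5) (nat_lit 39) (nat_lit 5) (nat_lit 40) (nat_lit 5) (nat_lit 297) (nat_lit 295) (nat_lit 128)) (XT.lf (nat_lit 0) (nat_lit 89512675415) (nat_lit 456) (nat_lit 37327795199) (nat_lit 532) (nat_lit 192375800868) (nat_lit 33) (nat_lit 5) (nat_lit 39) (nat_lit 5) (nat_lit 40) (nat_lit 5) (nat_lit 298) (nat_lit 295) (nat_lit 127))))))) (XT.nd (nat_lit 936) (nat_lit 608) (nat_lit 0) (XT.nd (nat_lit 468) (nat_lit 684) (nat_lit 0) (XT.nd (nat_lit 234) (nat_lit 380) (nat_lit 0) (XT.nd (nat_lit 78) (nat_lit 0) (nat_lit 0) (XT.lf (nat_lit 0) (nat_lit 102883778263) (nat_lit 456) (nat_lit 227114255211) (nat_lit 532) (nat_lit 2704078095) (nat_lit 34) (nat_lit 5) (nat_lit 40) (nat_lit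 5) (nat_lit 41) (nat_lit 5) (nat_lit 299) (nat_lit 295) (nat_lit 126)) (XT.nd (nat_lit 78) (nat_lit 0) (nat_lit 0) (XT.lf (nat_lit 0) (nat_lit 121666186714) (nat_lit 456) (nat_lit 88446657991) (nat_lit 532) (nat_lit 136806645137) (nat_lit 34) (nat_lit 5) (nat_lit 40) (nat_lit 5) (nat_lit 41) (nat_lit 5) (nat_lit 300) (nat_lit 295) (nat_lit 125)) (XT.lf (nat_lit 76) (nat_lit 64543007393) (nat_lit 0) (nat_lit 78960387924) (nat_lit 532) (nat_lit 218646686801) (nat_lit 35) (nat_lit 5) (nat_lit 34) (nat_lit 5) (nat_lit 41) (nat_lit 5) (nat_lit 301) (nat_lit 295) (nat_lit 124)))) (XT.nd (nat_lit 78) (nat_lit 456) (nat_lit 0) (XT.lf (nat_lit 0) (nat_lit 171076189541) (nat_lit 456) (nat_lit 145174189412) (nat_lit 76) (nat_lit 62029654425) (nat_lit 35) (nat_lit 5) (nat_lit 41) (nat_lit 5) (nat_lit 36) (nat_lit 5) (nat_lit 302) (nat_lit 295) (nat_lit 123)) (XT.nd (nat_lit 78) (nat_lit 0) (nat_lit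 0) (XT.lf (nat_lit 0) (nat_lit 18318742911) (nat_lit 456) (nat_lit 185027503270) (nat_lit 532) (nat_lit 192154819739) (nat_lit 29) (nat_lit 5) (nat_lit 35) (nat_lit 5) (nat_lit 36) (nat_lit 5) (nat_lit 303) (nat_lit 295) (nat_lit 122)) (XT.lf (nat_lit 0) (nat_lit 203147253321) (nat_lit 456) (nat_lit 39019929597) (nat_lit 532) (nat_lit 171615056373) (nat_lit 29) (nat_lit 5) (nat_lit 35) (nat_lit 5) (nat_lit 36) (nat_lit 5) (nat_lit 304) (nat_lit 295) (nat_lit 121))))) (XT.nd (nat_lit 234) (nat_lit 456) (nat_lit 0) (XT.nd (nat_lit 78) (nat_lit 228) (nat_lit 0) (XT.lf (nat_lit 0) (nat_lit 286947728140) (nat_lit 532) (nat_lit 33617878036) (nat_lit 76) (nat_lit 112731985922) (nat_lit 29) (nat_lit 5) (nat_lit 36) (nat_lit 5) (nat_lit 30) (nat_lit 5) (nat_lit 305) (nat_lit 295) (nat_lit 120)) (XT.nd (nat_lit 78) (nat_lit 0) (nat_lit 0) (XT.lf (nat_lit 0) (nat_lit 164790545659) (nat_lit 228)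 (nat_lit 175496854867) (nat_lit 304) (nat_lit 113688638152) (nat_lit 26) (nat_lit 5) (nat_lit 29) (nat_lit 5) (nat_lit 30) (nat_lit 5) (nat_lit 306) (nat_lit 295) (nat_lit 119)) (XT.lf (nat_lit 0) (nat_lit 380983484037) (nat_lit 228) (nat_lit 17829899211) (nat_lit 304) (nat_lit 77421847029) (nat_lit 26) (nat_lit 5) (nat_lit 29) (nat_lit 5) (nat_lit 30) (nat_lit 5) (nat_lit 307) (nat_lit 295) (nat_lit 118)))) (XT.nd (nat_lit 78) (nat_lit 304) (nat_lit 0) (XT.lf (nat_lit 0) (nat_lit 116350552291) (nat_lit 152) (nat_lit 352135528765) (nat_lit 228) (nat_lit 31271905427) (nat_lit 24) (nat_lit 5) (nat_lit 26) (nat_lit 5) (nat_lit 27) (nat_lit 5) (nat_lit 308) (nat_lit 295) (nat_lit 117)) (XT.nd (nat_lit 78) (nat_lit 228) (nat_lit 0) (XT.lf (nat_lit 0) (nat_lit 20776161991) (nat_lit 228) (nat_lit 175633537288) (nat_lit 76) (nat_lit 328466329009) (nat_lit 23) (nat_lit 5) (nat_lit 26) (nat_lit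 5) (nat_lit 24) (nat_lit 5) (nat_lit 309) (nat_lit 295) (nat_lit 116)) (XT.lf (nat_lit 0) (nat_lit 50474939155) (nat_lit 228) (nat_lit 26037533785) (nat_lit 304) (nat_lit 475328948607) (nat_lit 20) (nat_lit 5) (nat_lit 23) (nat_lit 5) (nat_lit 24) (nat_lit 5) (nat_lit 310) (nat_lit 295) (nat_lit 115)))))) (XT.nd (nat_lit 468) (nat_lit 304) (nat_lit 0) (XT.nd (nat_lit 234) (nat_lit 152) (nat_lit 0) (XT.nd (nat_lit 78) (nat_lit 152) (nat_lit 0) (XT.lf (nat_lit 0) (nat_lit 145433570410) (nat_lit 304) (nat_lit 279843162742) (nat_lit 76) (nat_lit 154989242731) (nat_lit 20) (nat_lit 5) (nat_lit 24) (nat_lit 5) (nat_lit 21) (nat_lit 5) (nat_lit 311) (nat_lit 295) (nat_lit 114)) (XT.nd (nat_lit 78) (nat_lit 152) (nat_lit 0) (XT.lf (nat_lit 0) (nat_lit 220544628441) (nat_lit 304) (nat_lit 41274311550) (nat_lit 76) (nat_lit 349091452889) (nat_lit 20) (nat_lit 5) (nat_lit 24) (nat_lit 5) (nat_lit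 21) (nat_lit 5) (nat_lit 312) (nat_lit 295) (nat_lit 113)) (XT.lf (nat_lit 0) (nat_lit 227774204012) (nat_lit 152) (nat_lit 79368317358) (nat_lit 228) (nat_lit 336425605972) (nat_lit 18) (nat_lit 5) (nat_lit 20) (nat_lit 5) (nat_lit 21) (nat_lit 5) (nat_lit 313) (nat_lit 295) (nat_lit 112)))) (XT.nd (nat_lit 78) (nat_lit 152) (nat_lit 0) (XT.lf (nat_lit 0) (nat_lit 404656213933) (nat_lit 228) (nat_lit 160913804267) (nat_lit 76) (nat_lit 112949425020) (nat_lit 18) (nat_lit 5) (nat_lit 21) (nat_lit 5) (nat_lit 19) (nat_lit 5) (nat_lit 314) (nat_lit 295) (nat_lit 111)) (XT.nd (nat_lit 78) (nat_lit 0) (nat_lit 0) (XT.lf (nat_lit 0) (nat_lit 118208444220) (nat_lit 152) (nat_lit 396666966201) (nat_lit 228) (nat_lit 200999101374) (nat_lit 16) (nat_lit 5) (nat_lit 18) (nat_lit 5) (nat_lit 19) (nat_lit 5) (nat_lit 315) (nat_lit 295) (nat_lit 110)) (XT.lf (nat_lit 0) (nat_lit 428811753498) (nat_lit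 152) (nat_lit 209500036485) (nat_lit 228) (nat_lit 117554224183) (nat_lit 16) (nat_lit 5) (nat_lit 18) (nat_lit 5) (nat_lit 19) (nat_lit 5) (nat_lit 316) (nat_lit 295) (nat_lit 109))))) (XT.nd (nat_lit 234) (nat_lit 152) (nat_lit 0) (XT.nd (nat_lit 78) (nat_lit 152) (nat_lit 0) (XT.lf (nat_lit 0) (nat_lit 764263300001) (nat_lit 152) (nat_lit 7359760264) (nat_lit 228) (nat_lit 27433778126) (nat_lit 16) (nat_lit 5) (nat_lit 18) (nat_lit 5) (nat_lit 19) (nat_lit 5) (nat_lit 317) (nat_lit 295) (nat_lit 108)) (XT.nd (nat_lit 78) (nat_lit 0) (nat_lit 0) (XT.lf (nat_lit 0) (nat_lit 78767936509) (nat_lit 152) (nat_lit 556436229408) (nat_lit 76) (nat_lit 209374831767) (nat_lit 14) (nat_lit 5) (nat_lit 16) (nat_lit 5) (nat_lit 15) (nat_lit 5) (nat_lit 318) (nat_lit 295) (nat_lit 107)) (XT.lf (nat_lit 0) (nat_lit 193150822698) (nat_lit 152) (nat_lit 255702570523) (nat_lit 76) (nat_lit 444739157641)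 (nat_lit 14) (nat_lit 5) (nat_lit 16) (nat_lit 5) (nat_lit 15) (nat_lit 5) (nat_lit 319) (nat_lit 295) (nat_lit 106)))) (XT.nd (nat_lit 35646) (nat_lit 0) (nat_lit 1520) (XT.nd (nat_lit 78) (nat_lit 0) (nat_lit 0) (XT.lf (nat_lit 0) (nat_lit 72727900000) (nat_lit 152) (nat_lit 245705530705) (nat_lit 228) (nat_lit 627953830384) (nat_lit 12) (nat_lit 5) (nat_lit 14) (nat_lit 5) (nat_lit 15) (nat_lit 5) (nat_lit 320) (nat_lit 295) (nat_lit 105)) (XT.lf (nat_lit 0) (nat_lit 441974815380) (nat_lit 152) (nat_lit 18755177229) (nat_lit 228) (nat_lit 542116247967) (nat_lit 12) (nat_lit 5) (nat_lit 14) (nat_lit 5) (nat_lit 15) (nat_lit 5) (nat_lit 321) (nat_lit 295) (nat_lit 104))) (XT.nd (nat_lit 78) (nat_lit 0) (nat_lit 0) (XT.lf (nat_lit 0) (nat_lit 37152829610) (nat_lit 532) (nat_lit 57931365232) (nat_lit 532) (nat_lit 57931365232) (nat_lit 32) (nat_lit 3) (nat_lit 39) (nat_lit 3) (nat_lit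 39) (nat_lit 5) (nat_lit 296) (nat_lit 296) (nat_lit 128)) (XT.lf (nat_lit 76) (nat_lit 11132754825) (nat_lit 0) (nat_lit 66413488683) (nat_lit 532) (nat_lit 240704648841) (nat_lit 33) (nat_lit 5) (nat_lit 32) (nat_lit 3) (nat_lit 39) (nat_lit 5) (nat_lit 297) (nat_lit 296) (nat_lit 127))))))))
noncomputable def xc124 : XT := (XT.nd (nat_lit 37518) (nat_lit 0) (nat_lit 0) (XT.nd (nat_lit 936) (nat_lit 760) (nat_lit 0) (XT.nd (nat_lit 468) (nat_lit 684) (nat_lit 0) (XT.nd (nat_lit 234) (nat_lit 0) (nat_lit 76) (XT.nd (nat_lit 78) (nat_lit 0) (nat_lit 0) (XT.lf (nat_lit 0) (nat_lit 85913355135) (nat_lit 456) (nat_lit 178017211004) (nat_lit 532) (nat_lit 67128298135) (nat_lit 33) (nat_lit 5) (nat_lit 39) (nat_lit 5) (nat_lit 40) (nat_lit 5) (nat_lit 298) (nat_lit 296) (nat_lit 126)) (XT.nd (nat_lit 78) (nat_lit 0) (nat_lit 76) (XT.lf (nat_lit 0) (nat_lit 96674804232) (nat_lit 456) (nat_lit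 40313274208) (nat_lit 532) (nat_lit 207765398398) (nat_lit 33) (nat_lit 5) (nat_lit 39) (nat_lit 5) (nat_lit 40) (nat_lit 5) (nat_lit 299) (nat_lit 296) (nat_lit 125)) (XT.lf (nat_lit 0) (nat_lit 111115522396) (nat_lit 456) (nat_lit 245282571460) (nat_lit 532) (nat_lit 2920096640) (nat_lit 34) (nat_lit 5) (nat_lit 40) (nat_lit 5) (nat_lit 41) (nat_lit 5) (nat_lit 300) (nat_lit 296) (nat_lit 124)))) (XT.nd (nat_lit 78) (nat_lit 0) (nat_lit 0) (XT.lf (nat_lit 0) (nat_lit 131400446347) (nat_lit 456) (nat_lit 95521627512) (nat_lit 532) (nat_lit 147750891838) (nat_lit 34) (nat_lit 5) (nat_lit 40) (nat_lit 5) (nat_lit 41) (nat_lit 5) (nat_lit 301) (nat_lit 296) (nat_lit 123)) (XT.nd (nat_lit 78) (nat_lit 0) (nat_lit 76) (XT.lf (nat_lit 76) (nat_lit 69707191783) (nat_lit 0) (nat_lit 85277386285) (nat_lit 532) (nat_lit 236137432029) (nat_lit 35) (nat_lit 5) (nat_lit 34) (nat_lit 5) (nat_lit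 41) (nat_lit 5) (nat_lit 302) (nat_lit 296) (nat_lit 122)) (XT.lf (nat_lit 0) (nat_lit 184763124613) (nat_lit 456) (nat_lit 156787359368) (nat_lit 76) (nat_lit 66991879597) (nat_lit 35) (nat_lit 5) (nat_lit 41) (nat_lit 5) (nat_lit 36) (nat_lit 5) (nat_lit 303) (nat_lit 296) (nat_lit 121))))) (XT.nd (nat_lit 234) (nat_lit 380) (nat_lit 0) (XT.nd (nat_lit 78) (nat_lit 0) (nat_lit 0) (XT.lf (nat_lit 0) (nat_lit 19784988169) (nat_lit 456) (nat_lit 199829753337) (nat_lit 532) (nat_lit 207526341151) (nat_lit 29) (nat_lit 5) (nat_lit 35) (nat_lit 5) (nat_lit 36) (nat_lit 5) (nat_lit 304) (nat_lit 296) (nat_lit 120)) (XT.nd (nat_lit 78) (nat_lit 0) (nat_lit 0) (XT.lf (nat_lit 0) (nat_lit 219399724166) (nat_lit 456) (nat_lit 42141570080) (nat_lit 532) (nat_lit 185343460728) (nat_lit 29) (nat_lit 5) (nat_lit 35) (nat_lit 5) (nat_lit 36) (nat_lit 5) (nat_lit 305) (nat_lit 296) (nat_lit 119))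 (XT.lf (nat_lit 0) (nat_lit 309904227489) (nat_lit 532) (nat_lit 36306609068) (nat_lit 76) (nat_lit 121750504232) (nat_lit 29) (nat_lit 5) (nat_lit 36) (nat_lit 5) (nat_lit 30) (nat_lit 5) (nat_lit 306) (nat_lit 296) (nat_lit 118)))) (XT.nd (nat_lit 78) (nat_lit 152) (nat_lit 0) (XT.lf (nat_lit 0) (nat_lit 177974470822) (nat_lit 228) (nat_lit 189536568783) (nat_lit 304) (nat_lit 122783026526) (nat_lit 26) (nat_lit 5) (nat_lit 29) (nat_lit 5) (nat_lit 30) (nat_lit 5) (nat_lit 307) (nat_lit 296) (nat_lit 117)) (XT.nd (nat_lit 78) (nat_lit 152) (nat_lit 0) (XT.lf (nat_lit 0) (nat_lit 411462793788) (nat_lit 228) (nat_lit 19256259228) (nat_lit 304) (nat_lit 83614944163) (nat_lit 26) (nat_lit 5) (nat_lit 29) (nat_lit 5) (nat_lit 30) (nat_lit 5) (nat_lit 308) (nat_lit 296) (nat_lit 116)) (XT.lf (nat_lit 0) (nat_lit 125659260995) (nat_lit 152) (nat_lit 380306277968) (nat_lit 228) (nat_lit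 33773037400) (nat_lit 24) (nat_lit 5) (nat_lit 26) (nat_lit 5) (nat_lit 27) (nat_lit 5) (nat_lit 309) (nat_lit 296) (nat_lit 115)))))) (XT.nd (nat_lit 468) (nat_lit 304) (nat_lit 0) (XT.nd (nat_lit 234) (nat_lit 152) (nat_lit 0) (XT.nd (nat_lit 78) (nat_lit 228) (nat_lit 0) (XT.lf (nat_lit 0) (nat_lit 22438800712) (nat_lit 228) (nat_lit 189683573385) (nat_lit 76) (nat_lit 354743689941) (nat_lit 23) (nat_lit 5) (nat_lit 26) (nat_lit 5) (nat_lit 24) (nat_lit 5) (nat_lit 310) (nat_lit 296) (nat_lit 114)) (XT.nd (nat_lit 78) (nat_lit 0) (nat_lit 0) (XT.lf (nat_lit 0) (nat_lit 54513564798) (nat_lit 228) (nat_lit 28120426478) (nat_lit 304) (nat_lit 513354699716) (nat_lit 20) (nat_lit 5) (nat_lit 23) (nat_lit 5) (nat_lit 24) (nat_lit 5) (nat_lit 311) (nat_lit 296) (nat_lit 113)) (XT.lf (nat_lit 0) (nat_lit 157068740437) (nat_lit 304) (nat_lit 302229993406) (nat_lit 76) (nat_lit 167388478916)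 (nat_lit 20) (nat_lit 5) (nat_lit 24) (nat_lit 5) (nat_lit 21) (nat_lit 5) (nat_lit 312) (nat_lit 296) (nat_lit 112)))) (XT.nd (nat_lit 78) (nat_lit 152) (nat_lit 0) (XT.lf (nat_lit 0) (nat_lit 238188647229) (nat_lit 304) (nat_lit 44575680219) (nat_lit 76) (nat_lit 377018858718) (nat_lit 20) (nat_lit 5) (nat_lit 24) (nat_lit 5) (nat_lit 21) (nat_lit 5) (nat_lit 313) (nat_lit 296) (nat_lit 111)) (XT.nd (nat_lit 78) (nat_lit 0) (nat_lit 0) (XT.lf (nat_lit 0) (nat_lit 245996701999) (nat_lit 152) (nat_lit 85717649877) (nat_lit 228) (nat_lit 363339189253) (nat_lit 18) (nat_lit 5) (nat_lit 20) (nat_lit 5) (nat_lit 21) (nat_lit 5) (nat_lit 314) (nat_lit 296) (nat_lit 110)) (XT.lf (nat_lit 0) (nat_lit 437029111041) (nat_lit 228) (nat_lit 173786357802) (nat_lit 76) (nat_lit 121985495895) (nat_lit 18) (nat_lit 5) (nat_lit 21) (nat_lit 5) (nat_lit 19) (nat_lit 5) (nat_lit 315) (nat_lit 296) (nat_lit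 109))))) (XT.nd (nat_lit 234) (nat_lit 152) (nat_lit 0) (XT.nd (nat_lit 78) (nat_lit 0) (nat_lit 0) (XT.lf (nat_lit 0) (nat_lit 127665656619) (nat_lit 152) (nat_lit 428400169911) (nat_lit 228) (nat_lit 217078613749) (nat_lit 16) (nat_lit 5) (nat_lit 18) (nat_lit 5) (nat_lit 19) (nat_lit 5) (nat_lit 316) (nat_lit 296) (nat_lit 108)) (XT.nd (nat_lit 78) (nat_lit 0) (nat_lit 0) (XT.lf (nat_lit 0) (nat_lit 463117190873) (nat_lit 152) (nat_lit 226259897195) (nat_lit 228) (nat_lit 126958177178) (nat_lit 16) (nat_lit 5) (nat_lit 18) (nat_lit 5) (nat_lit 19) (nat_lit 5) (nat_lit 317) (nat_lit 296) (nat_lit 107)) (XT.lf (nat_lit 0) (nat_lit 825404824274) (nat_lit 152) (nat_lit 7948409411) (nat_lit 228) (nat_lit 29628123950) (nat_lit 16) (nat_lit 5) (nat_lit 18) (nat_lit 5) (nat_lit 19) (nat_lit 5) (nat_lit 318) (nat_lit 296) (nat_lit 106)))) (XT.nd (nat_lit 78) (nat_lit 0) (nat_lit 0) (XT.lf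 (nat_lit 0) (nat_lit 85069699615) (nat_lit 152) (nat_lit 600950636501) (nat_lit 76) (nat_lit 226124953807) (nat_lit 14) (nat_lit 5) (nat_lit 16) (nat_lit 5) (nat_lit 15) (nat_lit 5) (nat_lit 319) (nat_lit 296) (nat_lit 105)) (XT.nd (nat_lit 35724) (nat_lit 0) (nat_lit 1368) (XT.lf (nat_lit 0) (nat_lit 208603192390) (nat_lit 152) (nat_lit 276158321295) (nat_lit 76) (nat_lit 480318415714) (nat_lit 14) (nat_lit 5) (nat_lit 16) (nat_lit 5) (nat_lit 15) (nat_lit 5) (nat_lit 320) (nat_lit 296) (nat_lit 104)) (XT.lf (nat_lit 0) (nat_lit 40125656087) (nat_lit 532) (nat_lit 62565548453) (nat_lit 532) (nat_lit 62565548453) (nat_lit 32) (nat_lit 3) (nat_lit 39) (nat_lit 3) (nat_lit 39) (nat_lit 5) (nat_lit 297) (nat_lit 297) (nat_lit 126))))))) (XT.nd (nat_lit 936) (nat_lit 912) (nat_lit 0) (XT.nd (nat_lit 468) (nat_lit 456) (nat_lit 0) (XT.nd (nat_lit 234) (nat_lit 0) (nat_lit 152) (XT.nd (nat_lit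 78) (nat_lit 0) (nat_lit 76) (XT.lf (nat_lit 76) (nat_lit 12024010699) (nat_lit 0) (nat_lit 71727058884) (nat_lit 532) (nat_lit 259959796845) (nat_lit 33) (nat_lit 5) (nat_lit 32) (nat_lit 3) (nat_lit 39) (nat_lit 5) (nat_lit 298) (nat_lit 297) (nat_lit 125)) (XT.nd (nat_lit 78) (nat_lit 0) (nat_lit 0) (XT.lf (nat_lit 0) (nat_lit 92787455753) (nat_lit 456) (nat_lit 192257898433) (nat_lit 532) (nat_lit 72498130004) (nat_lit 33) (nat_lit 5) (nat_lit 39) (nat_lit 5) (nat_lit 40) (nat_lit 5) (nat_lit 299) (nat_lit 297) (nat_lit 124)) (XT.lf (nat_lit 0) (nat_lit 104409744318) (nat_lit 456) (nat_lit 43537697764) (nat_lit 532) (nat_lit 224386230287) (nat_lit 33) (nat_lit 5) (nat_lit 39) (nat_lit 5) (nat_lit 40) (nat_lit 5) (nat_lit 300) (nat_lit 297) (nat_lit 123)))) (XT.nd (nat_lit 78) (nat_lit 0) (nat_lit 0) (XT.lf (nat_lit 0) (nat_lit 120005657425) (nat_lit 456) (nat_lit 264904470586)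 (nat_lit 532) (nat_lit 3153440566) (nat_lit 34) (nat_lit 5) (nat_lit 40) (nat_lit 5) (nat_lit 41) (nat_lit 5) (nat_lit 301) (nat_lit 297) (nat_lit 122)) (XT.nd (nat_lit 78) (nat_lit 0) (nat_lit 0) (XT.lf (nat_lit 0) (nat_lit 141913309126) (nat_lit 456) (nat_lit 103162703462) (nat_lit 532) (nat_lit 159570718921) (nat_lit 34) (nat_lit 5) (nat_lit 40) (nat_lit 5) (nat_lit 41) (nat_lit 5) (nat_lit 302) (nat_lit 297) (nat_lit 121)) (XT.lf (nat_lit 76) (nat_lit 75284404813) (nat_lit 0) (nat_lit 92099720643) (nat_lit 532) (nat_lit 255027578070) (nat_lit 35) (nat_lit 5) (nat_lit 34) (nat_lit 5) (nat_lit 41) (nat_lit 5) (nat_lit 303) (nat_lit 297) (nat_lit 120))))) (XT.nd (nat_lit 234) (nat_lit 228) (nat_lit 0) (XT.nd (nat_lit 78) (nat_lit 456) (nat_lit 0) (XT.lf (nat_lit 0) (nat_lit 199544894668) (nat_lit 456) (nat_lit 169329692084) (nat_lit 76) (nat_lit 72351103780) (nat_lit 35) (nat_lit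 5) (nat_lit 41) (nat_lit 5) (nat_lit 36) (nat_lit 5) (nat_lit 304) (nat_lit 297) (nat_lit 119)) (XT.nd (nat_lit 78) (nat_lit 0) (nat_lit 0) (XT.lf (nat_lit 0) (nat_lit 21368426647) (nat_lit 456) (nat_lit 215816176303) (nat_lit 532) (nat_lit 224127707558) (nat_lit 29) (nat_lit 5) (nat_lit 35) (nat_lit 5) (nat_lit 36) (nat_lit 5) (nat_lit 305) (nat_lit 297) (nat_lit 118)) (XT.lf (nat_lit 0) (nat_lit 236952294159) (nat_lit 456) (nat_lit 45512935224) (nat_lit 532) (nat_lit 200170251582) (nat_lit 29) (nat_lit 5) (nat_lit 35) (nat_lit 5) (nat_lit 36) (nat_lit 5) (nat_lit 306) (nat_lit 297) (nat_lit 117)))) (XT.nd (nat_lit 78) (nat_lit 228) (nat_lit 0) (XT.lf (nat_lit 0) (nat_lit 334697149620) (nat_lit 532) (nat_lit 39210538332) (nat_lit 76) (nat_lit 131490509794) (nat_lit 29) (nat_lit 5) (nat_lit 36) (nat_lit 5) (nat_lit 30) (nat_lit 5) (nat_lit 307) (nat_lit 297) (nat_lit 116)) (XT.nd (nat_lit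 78) (nat_lit 0) (nat_lit 0) (XT.lf (nat_lit 0) (nat_lit 192213012773) (nat_lit 228) (nat_lit 204699464730) (nat_lit 304) (nat_lit 132605066214) (nat_lit 26) (nat_lit 5) (nat_lit 29) (nat_lit 5) (nat_lit 30) (nat_lit 5) (nat_lit 308) (nat_lit 297) (nat_lit 115)) (XT.lf (nat_lit 0) (nat_lit 444380358295) (nat_lit 228) (nat_lit 20796732600) (nat_lit 304) (nat_lit 90303581887) (nat_lit 26) (nat_lit 5) (nat_lit 29) (nat_lit 5) (nat_lit 30) (nat_lit 5) (nat_lit 309) (nat_lit 297) (nat_lit 114)))))) (XT.nd (nat_lit 468) (nat_lit 304) (nat_lit 0) (XT.nd (nat_lit 234) (nat_lit 152) (nat_lit 0) (XT.nd (nat_lit 78) (nat_lit 304) (nat_lit 0) (XT.lf (nat_lit 0) (nat_lit 135712571593) (nat_lit 152) (nat_lit 410730700389) (nat_lit 228) (nat_lit 36474348446) (nat_lit 24) (nat_lit 5) (nat_lit 26) (nat_lit 5) (nat_lit 27) (nat_lit 5) (nat_lit 310) (nat_lit 297) (nat_lit 113)) (XT.nd (nat_lit 78) (nat_lit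 228) (nat_lit 0) (XT.lf (nat_lit 0) (nat_lit 24234372673) (nat_lit 228) (nat_lit 204857704654) (nat_lit 76) (nat_lit 383123231957) (nat_lit 23) (nat_lit 5) (nat_lit 26) (nat_lit 5) (nat_lit 24) (nat_lit 5) (nat_lit 311) (nat_lit 297) (nat_lit 112)) (XT.lf (nat_lit 0) (nat_lit 58875190542) (nat_lit 228) (nat_lit 30369966280) (nat_lit 304) (nat_lit 554422591486) (nat_lit 20) (nat_lit 5) (nat_lit 23) (nat_lit 5) (nat_lit 24) (nat_lit 5) (nat_lit 312) (nat_lit 297) (nat_lit 111)))) (XT.nd (nat_lit 78) (nat_lit 152) (nat_lit 0) (XT.lf (nat_lit 0) (nat_lit 169634654961) (nat_lit 304) (nat_lit 326407859308) (nat_lit 76) (nat_lit 180779640190) (nat_lit 20) (nat_lit 5) (nat_lit 24) (nat_lit 5) (nat_lit 21) (nat_lit 5) (nat_lit 313) (nat_lit 297) (nat_lit 110)) (XT.nd (nat_lit 78) (nat_lit 152) (nat_lit 0) (XT.lf (nat_lit 0) (nat_lit 257244123535) (nat_lit 304) (nat_lit 48141240590) (nat_lit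 76) (nat_lit 407180444232) (nat_lit 20) (nat_lit 5) (nat_lit 24) (nat_lit 5) (nat_lit 21) (nat_lit 5) (nat_lit 314) (nat_lit 297) (nat_lit 109)) (XT.lf (nat_lit 0) (nat_lit 265676919698) (nat_lit 152) (nat_lit 92574947954) (nat_lit 228) (nat_lit 392405925561) (nat_lit 18) (nat_lit 5) (nat_lit 20) (nat_lit 5) (nat_lit 21) (nat_lit 5) (nat_lit 315) (nat_lit 297) (nat_lit 108))))) (XT.nd (nat_lit 234) (nat_lit 152) (nat_lit 0) (XT.nd (nat_lit 78) (nat_lit 152) (nat_lit 0) (XT.lf (nat_lit 0) (nat_lit 471991782855) (nat_lit 228) (nat_lit 187688794199) (nat_lit 76) (nat_lit 131744435766) (nat_lit 18) (nat_lit 5) (nat_lit 21) (nat_lit 5) (nat_lit 19) (nat_lit 5) (nat_lit 316) (nat_lit 297) (nat_lit 107)) (XT.nd (nat_lit 78) (nat_lit 0) (nat_lit 0) (XT.lf (nat_lit 0) (nat_lit 137879369422) (nat_lit 152) (nat_lit 462672051829) (nat_lit 228) (nat_lit 234444546423) (nat_lit 16) (nat_lit 5) (nat_lit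 18) (nat_lit 5) (nat_lit 19) (nat_lit 5) (nat_lit 317) (nat_lit 297) (nat_lit 106)) (XT.lf (nat_lit 0) (nat_lit 500166992321) (nat_lit 152) (nat_lit 244360567049) (nat_lit 228) (nat_lit 137114501328) (nat_lit 16) (nat_lit 5) (nat_lit 18) (nat_lit 5) (nat_lit 19) (nat_lit 5) (nat_lit 318) (nat_lit 297) (nat_lit 105)))) (XT.nd (nat_lit 78) (nat_lit 152) (nat_lit 0) (XT.lf (nat_lit 0) (nat_lit 891437604825) (nat_lit 152) (nat_lit 8584169273) (nat_lit 228) (nat_lit 31998068288) (nat_lit 16) (nat_lit 5) (nat_lit 18) (nat_lit 5) (nat_lit 19) (nat_lit 5) (nat_lit 319) (nat_lit 297) (nat_lit 104)) (XT.nd (nat_lit 35802) (nat_lit 0) (nat_lit 1368) (XT.lf (nat_lit 0) (nat_lit 91875556951) (nat_lit 152) (nat_lit 649026266245) (nat_lit 76) (nat_lit 244215066279) (nat_lit 14) (nat_lit 5) (nat_lit 16) (nat_lit 5) (nat_lit 15) (nat_lit 5) (nat_lit 320) (nat_lit 297) (nat_lit 103)) (XT.lf (nat_lit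 0) (nat_lit 43336223070) (nat_lit 532) (nat_lit 67570512839) (nat_lit 532) (nat_lit 67570512839) (nat_lit 32) (nat_lit 3) (nat_lit 39) (nat_lit 3) (nat_lit 39) (nat_lit 5) (nat_lit 298) (nat_lit 298) (nat_lit 124))))))))
noncomputable def xc125 : XT := (XT.nd (nat_lit 37752) (nat_lit 0) (nat_lit 152) (XT.nd (nat_lit 936) (nat_lit 760) (nat_lit 0) (XT.nd (nat_lit 468) (nat_lit 456) (nat_lit 0) (XT.nd (nat_lit 234) (nat_lit 0) (nat_lit 152) (XT.nd (nat_lit 78) (nat_lit 0) (nat_lit 76) (XT.lf (nat_lit 76) (nat_lit 12986476383) (nat_lit 0) (nat_lit 77465644640) (nat_lit 532) (nat_lit 280755531294) (nat_lit 33) (nat_lit 5) (nat_lit 32) (nat_lit 3) (nat_lit 39) (nat_lit 5) (nat_lit 299) (nat_lit 298) (nat_lit 123)) (XT.nd (nat_lit 78) (nat_lit 0) (nat_lit 0) (XT.lf (nat_lit 0) (nat_lit 100211337164) (nat_lit 456) (nat_lit 207637939215) (nat_lit 532) (nat_lit 78297610051) (nat_lit 33) (nat_lit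 5) (nat_lit 39) (nat_lit 5) (nat_lit 40) (nat_lit 5) (nat_lit 300) (nat_lit 298) (nat_lit 122)) (XT.lf (nat_lit 0) (nat_lit 112763343263) (nat_lit 456) (nat_lit 47020166277) (nat_lit 532) (nat_lit 242336785789) (nat_lit 33) (nat_lit 5) (nat_lit 39) (nat_lit 5) (nat_lit 40) (nat_lit 5) (nat_lit 301) (nat_lit 298) (nat_lit 121)))) (XT.nd (nat_lit 78) (nat_lit 0) (nat_lit 0) (XT.lf (nat_lit 0) (nat_lit 129606875825) (nat_lit 456) (nat_lit 286096222446) (nat_lit 532) (nat_lit 3405489641) (nat_lit 34) (nat_lit 5) (nat_lit 40) (nat_lit 5) (nat_lit 41) (nat_lit 5) (nat_lit 302) (nat_lit 298) (nat_lit 120)) (XT.nd (nat_lit 78) (nat_lit 0) (nat_lit 0) (XT.lf (nat_lit 0) (nat_lit 153267082937) (nat_lit 456) (nat_lit 111415158824) (nat_lit 532) (nat_lit 172336167018) (nat_lit 34) (nat_lit 5) (nat_lit 40) (nat_lit 5) (nat_lit 41) (nat_lit 5) (nat_lit 303) (nat_lit 298) (nat_lit 119)) (XT.lf (nat_lit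 76) (nat_lit 81307703913) (nat_lit 0) (nat_lit 99467821285) (nat_lit 532) (nat_lit 275429056845) (nat_lit 35) (nat_lit 5) (nat_lit 34) (nat_lit 5) (nat_lit 41) (nat_lit 5) (nat_lit 304) (nat_lit 298) (nat_lit 118))))) (XT.nd (nat_lit 234) (nat_lit 228) (nat_lit 0) (XT.nd (nat_lit 78) (nat_lit 456) (nat_lit 0) (XT.lf (nat_lit 0) (nat_lit 215509103599) (nat_lit 456) (nat_lit 182875505008) (nat_lit 76) (nat_lit 78139083899) (nat_lit 35) (nat_lit 5) (nat_lit 41) (nat_lit 5) (nat_lit 36) (nat_lit 5) (nat_lit 305) (nat_lit 298) (nat_lit 117)) (XT.nd (nat_lit 78) (nat_lit 0) (nat_lit 0) (XT.lf (nat_lit 0) (nat_lit 23078448983) (nat_lit 456) (nat_lit 233081507016) (nat_lit 532) (nat_lit 242057288974) (nat_lit 29) (nat_lit 5) (nat_lit 35) (nat_lit 5) (nat_lit 36) (nat_lit 5) (nat_lit 306) (nat_lit 298) (nat_lit 116)) (XT.lf (nat_lit 0) (nat_lit 255908985288) (nat_lit 456) (nat_lit 49154003938)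 (nat_lit 532) (nat_lit 216183283571) (nat_lit 29) (nat_lit 5) (nat_lit 35) (nat_lit 5) (nat_lit 36) (nat_lit 5) (nat_lit 307) (nat_lit 298) (nat_lit 115)))) (XT.nd (nat_lit 78) (nat_lit 228) (nat_lit 0) (XT.lf (nat_lit 0) (nat_lit 361473422217) (nat_lit 532) (nat_lit 42346867458) (nat_lit 76) (nat_lit 142009720761) (nat_lit 29) (nat_lit 5) (nat_lit 36) (nat_lit 5) (nat_lit 30) (nat_lit 5) (nat_lit 308) (nat_lit 298) (nat_lit 114)) (XT.nd (nat_lit 78) (nat_lit 0) (nat_lit 0) (XT.lf (nat_lit 0) (nat_lit 207590554724) (nat_lit 228) (nat_lit 221075396570) (nat_lit 304) (nat_lit 143212955022) (nat_lit 26) (nat_lit 5) (nat_lit 29) (nat_lit 5) (nat_lit 30) (nat_lit 5) (nat_lit 309) (nat_lit 298) (nat_lit 113)) (XT.lf (nat_lit 0) (nat_lit 479931250783) (nat_lit 228) (nat_lit 22460447746) (nat_lit 304) (nat_lit 97527390207) (nat_lit 26) (nat_lit 5) (nat_lit 29) (nat_lit 5) (nat_lit 30) (nat_lit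 5) (nat_lit 310) (nat_lit 298) (nat_lit 112)))))) (XT.nd (nat_lit 468) (nat_lit 152) (nat_lit 0) (XT.nd (nat_lit 234) (nat_lit 152) (nat_lit 0) (XT.nd (nat_lit 78) (nat_lit 304) (nat_lit 0) (XT.lf (nat_lit 0) (nat_lit 146570065763) (nat_lit 152) (nat_lit 443589087990) (nat_lit 228) (nat_lit 39391840264) (nat_lit 24) (nat_lit 5) (nat_lit 26) (nat_lit 5) (nat_lit 27) (nat_lit 5) (nat_lit 311) (nat_lit 298) (nat_lit 111)) (XT.nd (nat_lit 78) (nat_lit 228) (nat_lit 0) (XT.lf (nat_lit 0) (nat_lit 26173523639) (nat_lit 228) (nat_lit 221245845545) (nat_lit 76) (nat_lit 413773130655) (nat_lit 23) (nat_lit 5) (nat_lit 26) (nat_lit 5) (nat_lit 24) (nat_lit 5) (nat_lit 312) (nat_lit 298) (nat_lit 110)) (XT.lf (nat_lit 0) (nat_lit 63585669229) (nat_lit 228) (nat_lit 32799482721) (nat_lit 304) (nat_lit 598775983675) (nat_lit 20) (nat_lit 5) (nat_lit 23) (nat_lit 5) (nat_lit 24) (nat_lit 5) (nat_lit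 313) (nat_lit 298) (nat_lit 109)))) (XT.nd (nat_lit 78) (nat_lit 152) (nat_lit 0) (XT.lf (nat_lit 0) (nat_lit 183205783402) (nat_lit 304) (nat_lit 352520030603) (nat_lit 76) (nat_lit 195242082531) (nat_lit 20) (nat_lit 5) (nat_lit 24) (nat_lit 5) (nat_lit 21) (nat_lit 5) (nat_lit 314) (nat_lit 298) (nat_lit 108)) (XT.nd (nat_lit 78) (nat_lit 152) (nat_lit 0) (XT.lf (nat_lit 0) (nat_lit 277823983088) (nat_lit 304) (nat_lit 51992116273) (nat_lit 76) (nat_lit 439754945628) (nat_lit 20) (nat_lit 5) (nat_lit 24) (nat_lit 5) (nat_lit 21) (nat_lit 5) (nat_lit 315) (nat_lit 298) (nat_lit 107)) (XT.lf (nat_lit 0) (nat_lit 286931486115) (nat_lit 152) (nat_lit 99980846128) (nat_lit 228) (nat_lit 423798057672) (nat_lit 18) (nat_lit 5) (nat_lit 20) (nat_lit 5) (nat_lit 21) (nat_lit 5) (nat_lit 316) (nat_lit 298) (nat_lit 106))))) (XT.nd (nat_lit 36114) (nat_lit 0) (nat_lit 1216) (XT.nd (nat_lit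 78) (nat_lit 152) (nat_lit 0) (XT.lf (nat_lit 0) (nat_lit 509751419490) (nat_lit 228) (nat_lit 202703492875) (nat_lit 76) (nat_lit 142284076532) (nat_lit 18) (nat_lit 5) (nat_lit 21) (nat_lit 5) (nat_lit 19) (nat_lit 5) (nat_lit 317) (nat_lit 298) (nat_lit 105)) (XT.nd (nat_lit 78) (nat_lit 0) (nat_lit 0) (XT.lf (nat_lit 0) (nat_lit 148910113585) (nat_lit 152) (nat_lit 499685703085) (nat_lit 228) (nat_lit 253199804559) (nat_lit 16) (nat_lit 5) (nat_lit 18) (nat_lit 5) (nat_lit 19) (nat_lit 5) (nat_lit 318) (nat_lit 298) (nat_lit 104)) (XT.lf (nat_lit 0) (nat_lit 540180717086) (nat_lit 152) (nat_lit 263909307885) (nat_lit 228) (nat_lit 148083378492) (nat_lit 16) (nat_lit 5) (nat_lit 18) (nat_lit 5) (nat_lit 19) (nat_lit 5) (nat_lit 319) (nat_lit 298) (nat_lit 103)))) (XT.nd (nat_lit 78) (nat_lit 0) (nat_lit 0) (XT.lf (nat_lit 0) (nat_lit 46803562013) (nat_lit 532) (nat_lit 72975914249)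 (nat_lit 532) (nat_lit 72975914249) (nat_lit 32) (nat_lit 3) (nat_lit 39) (nat_lit 3) (nat_lit 39) (nat_lit 5) (nat_lit 299) (nat_lit 299) (nat_lit 122)) (XT.nd (nat_lit 78) (nat_lit 0) (nat_lit 76) (XT.lf (nat_lit 76) (nat_lit 14025861596) (nat_lit 0) (nat_lit 83663257189) (nat_lit 532) (nat_lit 303215074192) (nat_lit 33) (nat_lit 5) (nat_lit 32) (nat_lit 3) (nat_lit 39) (nat_lit 5) (nat_lit 300) (nat_lit 299) (nat_lit 121)) (XT.lf (nat_lit 0) (nat_lit 108229002841) (nat_lit 456) (nat_lit 224248467585) (nat_lit 532) (nat_lit 84561101336) (nat_lit 33) (nat_lit 5) (nat_lit 39) (nat_lit 5) (nat_lit 40) (nat_lit 5) (nat_lit 301) (nat_lit 299) (nat_lit 120))))))) (XT.nd (nat_lit 936) (nat_lit 380) (nat_lit 0) (XT.nd (nat_lit 468) (nat_lit 456) (nat_lit 0) (XT.nd (nat_lit 234) (nat_lit 304) (nat_lit 0) (XT.nd (nat_lit 78) (nat_lit 0) (nat_lit 76) (XT.lf (nat_lit 0) (nat_lit 121785113227)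 (nat_lit 456) (nat_lit 50781310350) (nat_lit 532) (nat_lit 261723434653) (nat_lit 33) (nat_lit 5) (nat_lit 39) (nat_lit 5) (nat_lit 40) (nat_lit 5) (nat_lit 302) (nat_lit 299) (nat_lit 119)) (XT.nd (nat_lit 78) (nat_lit 0) (nat_lit 0) (XT.lf (nat_lit 0) (nat_lit 139976082447) (nat_lit 456) (nat_lit 308983400876) (nat_lit 532) (nat_lit 3677734908) (nat_lit 34) (nat_lit 5) (nat_lit 40) (nat_lit 5) (nat_lit 41) (nat_lit 5) (nat_lit 303) (nat_lit 299) (nat_lit 118)) (XT.lf (nat_lit 0) (nat_lit 165529057494) (nat_lit 456) (nat_lit 120327890636) (nat_lit 532) (nat_lit 186122880838) (nat_lit 34) (nat_lit 5) (nat_lit 40) (nat_lit 5) (nat_lit 41) (nat_lit 5) (nat_lit 304) (nat_lit 299) (nat_lit 117)))) (XT.nd (nat_lit 78) (nat_lit 380) (nat_lit 0) (XT.lf (nat_lit 76) (nat_lit 87812788945) (nat_lit 0) (nat_lit 107425352432) (nat_lit 532) (nat_lit 297462757704) (nat_lit 35) (nat_lit 5) (nat_lit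 34) (nat_lit 5) (nat_lit 41) (nat_lit 5) (nat_lit 305) (nat_lit 299) (nat_lit 116)) (XT.nd (nat_lit 78) (nat_lit 456) (nat_lit 0) (XT.lf (nat_lit 0) (nat_lit 232750361172) (nat_lit 456) (nat_lit 197505063205) (nat_lit 76) (nat_lit 84390117862) (nat_lit 35) (nat_lit 5) (nat_lit 41) (nat_lit 5) (nat_lit 36) (nat_lit 5) (nat_lit 306) (nat_lit 299) (nat_lit 115)) (XT.lf (nat_lit 0) (nat_lit 24925194898) (nat_lit 456) (nat_lit 251728058963) (nat_lit 532) (nat_lit 261421327520) (nat_lit 29) (nat_lit 5) (nat_lit 35) (nat_lit 5) (nat_lit 36) (nat_lit 5) (nat_lit 307) (nat_lit 299) (nat_lit 114))))) (XT.nd (nat_lit 234) (nat_lit 228) (nat_lit 0) (XT.nd (nat_lit 78) (nat_lit 228) (nat_lit 0) (XT.lf (nat_lit 0) (nat_lit 276382139293) (nat_lit 456) (nat_lit 53086353314) (nat_lit 532) (nat_lit 233477442023) (nat_lit 29) (nat_lit 5) (nat_lit 35) (nat_lit 5) (nat_lit 36) (nat_lit 5) (nat_lit 308)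 (nat_lit 299) (nat_lit 113)) (XT.nd (nat_lit 78) (nat_lit 228) (nat_lit 0) (XT.lf (nat_lit 0) (nat_lit 390391725201) (nat_lit 532) (nat_lit 45734176233) (nat_lit 76) (nat_lit 153370472860) (nat_lit 29) (nat_lit 5) (nat_lit 36) (nat_lit 5) (nat_lit 30) (nat_lit 5) (nat_lit 309) (nat_lit 299) (nat_lit 112)) (XT.lf (nat_lit 0) (nat_lit 224198228569) (nat_lit 228) (nat_lit 238761406571) (nat_lit 304) (nat_lit 154669548617) (nat_lit 26) (nat_lit 5) (nat_lit 29) (nat_lit 5) (nat_lit 30) (nat_lit 5) (nat_lit 310) (nat_lit 299) (nat_lit 111)))) (XT.nd (nat_lit 78) (nat_lit 228) (nat_lit 0) (XT.lf (nat_lit 0) (nat_lit 518326148500) (nat_lit 228) (nat_lit 24257263451) (nat_lit 304) (nat_lit 105329171417) (nat_lit 26) (nat_lit 5) (nat_lit 29) (nat_lit 5) (nat_lit 30) (nat_lit 5) (nat_lit 311) (nat_lit 299) (nat_lit 110)) (XT.nd (nat_lit 78) (nat_lit 76) (nat_lit 0) (XT.lf (nat_lit 0) (nat_lit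 158296089785) (nat_lit 152) (nat_lit 479076156362) (nat_lit 228) (nat_lit 42542796489) (nat_lit 24) (nat_lit 5) (nat_lit 26) (nat_lit 5) (nat_lit 27) (nat_lit 5) (nat_lit 312) (nat_lit 299) (nat_lit 109)) (XT.lf (nat_lit 0) (nat_lit 28267749453) (nat_lit 228) (nat_lit 238945105541) (nat_lit 76) (nat_lit 446875015522) (nat_lit 23) (nat_lit 5) (nat_lit 26) (nat_lit 5) (nat_lit 24) (nat_lit 5) (nat_lit 313) (nat_lit 299) (nat_lit 108)))))) (XT.nd (nat_lit 36504) (nat_lit 0) (nat_lit 1064) (XT.nd (nat_lit 234) (nat_lit 152) (nat_lit 0) (XT.nd (nat_lit 78) (nat_lit 0) (nat_lit 0) (XT.lf (nat_lit 0) (nat_lit 68672920096) (nat_lit 228) (nat_lit 35423372014) (nat_lit 304) (nat_lit 646677706462) (nat_lit 20) (nat_lit 5) (nat_lit 23) (nat_lit 5) (nat_lit 24) (nat_lit 5) (nat_lit 314) (nat_lit 299) (nat_lit 107)) (XT.nd (nat_lit 78) (nat_lit 0) (nat_lit 0) (XT.lf (nat_lit 0) (nat_lit 197862551325)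 (nat_lit 304) (nat_lit 380721240862) (nat_lit 76) (nat_lit 210861510113) (nat_lit 20) (nat_lit 5) (nat_lit 24) (nat_lit 5) (nat_lit 21) (nat_lit 5) (nat_lit 315) (nat_lit 299) (nat_lit 106)) (XT.lf (nat_lit 0) (nat_lit 300050184374) (nat_lit 304) (nat_lit 56151122436) (nat_lit 76) (nat_lit 474935397740) (nat_lit 20) (nat_lit 5) (nat_lit 24) (nat_lit 5) (nat_lit 21) (nat_lit 5) (nat_lit 316) (nat_lit 299) (nat_lit 105)))) (XT.nd (nat_lit 78) (nat_lit 0) (nat_lit 0) (XT.lf (nat_lit 0) (nat_lit 309886358950) (nat_lit 152) (nat_lit 107979230088) (nat_lit 228) (nat_lit 457701609133) (nat_lit 18) (nat_lit 5) (nat_lit 20) (nat_lit 5) (nat_lit 21) (nat_lit 5) (nat_lit 317) (nat_lit 299) (nat_lit 104)) (XT.nd (nat_lit 36114) (nat_lit 0) (nat_lit 1064) (XT.lf (nat_lit 0) (nat_lit 550531785113) (nat_lit 228) (nat_lit 218919425204) (nat_lit 76) (nat_lit 153666876304) (nat_lit 18) (nat_lit 5) (nat_lit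 21) (nat_lit 5) (nat_lit 19) (nat_lit 5) (nat_lit 318) (nat_lit 299) (nat_lit 103)) (XT.lf (nat_lit 0) (nat_lit 50548225144) (nat_lit 532) (nat_lit 78813781955) (nat_lit 532) (nat_lit 78813781955) (nat_lit 32) (nat_lit 3) (nat_lit 39) (nat_lit 3) (nat_lit 39) (nat_lit 5) (nat_lit 300) (nat_lit 300) (nat_lit 120))))) (XT.nd (nat_lit 234) (nat_lit 0) (nat_lit 152) (XT.nd (nat_lit 78) (nat_lit 0) (nat_lit 76) (XT.lf (nat_lit 76) (nat_lit 15148330989) (nat_lit 0) (nat_lit 90356627245) (nat_lit 532) (nat_lit 327471508861) (nat_lit 33) (nat_lit 5) (nat_lit 32) (nat_lit 3) (nat_lit 39) (nat_lit 5) (nat_lit 301) (nat_lit 300) (nat_lit 119)) (XT.nd (nat_lit 78) (nat_lit 0) (nat_lit 0) (XT.lf (nat_lit 0) (nat_lit 116887973534) (nat_lit 456) (nat_lit 242187910520) (nat_lit 532) (nat_lit 91325717221) (nat_lit 33) (nat_lit 5) (nat_lit 39) (nat_lit 5) (nat_lit 40) (nat_lit 5) (nat_lit 302) (nat_lit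 300) (nat_lit 118)) (XT.lf (nat_lit 0) (nat_lit 131528524568) (nat_lit 456) (nat_lit 54843412890) (nat_lit 532) (nat_lit 282661057368) (nat_lit 33) (nat_lit 5) (nat_lit 39) (nat_lit 5) (nat_lit 40) (nat_lit 5) (nat_lit 303) (nat_lit 300) (nat_lit 117)))) (XT.nd (nat_lit 156) (nat_lit 0) (nat_lit 0) (XT.nd (nat_lit 78) (nat_lit 0) (nat_lit 0) (XT.lf (nat_lit 0) (nat_lit 151174731934) (nat_lit 456) (nat_lit 333701627674) (nat_lit 532) (nat_lit 3971787459) (nat_lit 34) (nat_lit 5) (nat_lit 40) (nat_lit 5) (nat_lit 41) (nat_lit 5) (nat_lit 304) (nat_lit 300) (nat_lit 116)) (XT.lf (nat_lit 0) (nat_lit 178771903289) (nat_lit 456) (nat_lit 129953709598) (nat_lit 532) (nat_lit 201012557378) (nat_lit 34) (nat_lit 5) (nat_lit 40) (nat_lit 5) (nat_lit 41) (nat_lit 5) (nat_lit 305) (nat_lit 300) (nat_lit 115))) (XT.nd (nat_lit 78) (nat_lit 0) (nat_lit 76) (XT.lf (nat_lit 76) (nat_lit 94838213912)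 (nat_lit 0) (nat_lit 116019471028) (nat_lit 532) (nat_lit 321259243608) (nat_lit 35) (nat_lit 5) (nat_lit 34) (nat_lit 5) (nat_lit 41) (nat_lit 5) (nat_lit 306) (nat_lit 300) (nat_lit 114)) (XT.lf (nat_lit 0) (nat_lit 251370843843) (nat_lit 456) (nat_lit 213305054849) (nat_lit 76) (nat_lit 91141247773) (nat_lit 35) (nat_lit 5) (nat_lit 41) (nat_lit 5) (nat_lit 36) (nat_lit 5) (nat_lit 307) (nat_lit 300) (nat_lit 113))))))))
noncomputable def xc126 : XT := (XT.nd (nat_lit 37986) (nat_lit 0) (nat_lit 152) (XT.nd (nat_lit 37050) (nat_lit 0) (nat_lit 608) (XT.nd (nat_lit 468) (nat_lit 456) (nat_lit 0) (XT.nd (nat_lit 234) (nat_lit 380) (nat_lit 0) (XT.nd (nat_lit 78) (nat_lit 0) (nat_lit 0) (XT.lf (nat_lit 0) (nat_lit 26919613436) (nat_lit 456) (nat_lit 271866330588) (nat_lit 532) (nat_lit 282334566839) (nat_lit 29) (nat_lit 5) (nat_lit 35) (nat_lit 5) (nat_lit 36) (nat_lit 5) (nat_lit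 308) (nat_lit 300) (nat_lit 112)) (XT.nd (nat_lit 78) (nat_lit 0) (nat_lit 0) (XT.lf (nat_lit 0) (nat_lit 298493083535) (nat_lit 456) (nat_lit 57333286494) (nat_lit 532) (nat_lit 252155205086) (nat_lit 29) (nat_lit 5) (nat_lit 35) (nat_lit 5) (nat_lit 36) (nat_lit 5) (nat_lit 309) (nat_lit 300) (nat_lit 111)) (XT.lf (nat_lit 0) (nat_lit 421623431193) (nat_lit 532) (nat_lit 49392532569) (nat_lit 76) (nat_lit 165640088774) (nat_lit 29) (nat_lit 5) (nat_lit 36) (nat_lit 5) (nat_lit 30) (nat_lit 5) (nat_lit 310) (nat_lit 300) (nat_lit 110)))) (XT.nd (nat_lit 78) (nat_lit 152) (nat_lit 0) (XT.lf (nat_lit 0) (nat_lit 242134455053) (nat_lit 228) (nat_lit 257862300472) (nat_lit 304) (nat_lit 167042732871) (nat_lit 26) (nat_lit 5) (nat_lit 29) (nat_lit 5) (nat_lit 30) (nat_lit 5) (nat_lit 311) (nat_lit 300) (nat_lit 109)) (XT.nd (nat_lit 78) (nat_lit 152) (nat_lit 0) (XT.lf (nat_lit 0) (nat_lit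 559792581305) (nat_lit 228) (nat_lit 26197827281) (nat_lit 304) (nat_lit 113755153616) (nat_lit 26) (nat_lit 5) (nat_lit 29) (nat_lit 5) (nat_lit 30) (nat_lit 5) (nat_lit 312) (nat_lit 300) (nat_lit 108)) (XT.lf (nat_lit 0) (nat_lit 170960135987) (nat_lit 152) (nat_lit 517402198573) (nat_lit 228) (nat_lit 45945884992) (nat_lit 24) (nat_lit 5) (nat_lit 26) (nat_lit 5) (nat_lit 27) (nat_lit 5) (nat_lit 313) (nat_lit 300) (nat_lit 107))))) (XT.nd (nat_lit 234) (nat_lit 152) (nat_lit 0) (XT.nd (nat_lit 78) (nat_lit 228) (nat_lit 0) (XT.lf (nat_lit 0) (nat_lit 30529464268) (nat_lit 228) (nat_lit 258060364491) (nat_lit 76) (nat_lit 482625046269) (nat_lit 23) (nat_lit 5) (nat_lit 26) (nat_lit 5) (nat_lit 24) (nat_lit 5) (nat_lit 314) (nat_lit 300) (nat_lit 106)) (XT.nd (nat_lit 78) (nat_lit 0) (nat_lit 0) (XT.lf (nat_lit 0) (nat_lit 74167094349) (nat_lit 228) (nat_lit 38257182340) (nat_lit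 304) (nat_lit 698411617846) (nat_lit 20) (nat_lit 5) (nat_lit 23) (nat_lit 5) (nat_lit 24) (nat_lit 5) (nat_lit 315) (nat_lit 300) (nat_lit 105)) (XT.lf (nat_lit 0) (nat_lit 213691817134) (nat_lit 304) (nat_lit 411178603891) (nat_lit 76) (nat_lit 227730483201) (nat_lit 20) (nat_lit 5) (nat_lit 24) (nat_lit 5) (nat_lit 21) (nat_lit 5) (nat_lit 316) (nat_lit 300) (nat_lit 104)))) (XT.nd (nat_lit 78) (nat_lit 152) (nat_lit 0) (XT.lf (nat_lit 0) (nat_lit 324054441441) (nat_lit 304) (nat_lit 60642900898) (nat_lit 76) (nat_lit 512930277966) (nat_lit 20) (nat_lit 5) (nat_lit 24) (nat_lit 5) (nat_lit 21) (nat_lit 5) (nat_lit 317) (nat_lit 300) (nat_lit 103)) (XT.nd (nat_lit 36192) (nat_lit 0) (nat_lit 1064) (XT.lf (nat_lit 0) (nat_lit 334677571117) (nat_lit 152) (nat_lit 116617496710) (nat_lit 228) (nat_lit 494317486532) (nat_lit 18) (nat_lit 5) (nat_lit 20) (nat_lit 5) (nat_lit 21) (nat_lit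 5) (nat_lit 318) (nat_lit 300) (nat_lit 102)) (XT.lf (nat_lit 0) (nat_lit 54592407376) (nat_lit 532) (nat_lit 85118708386) (nat_lit 532) (nat_lit 85118708386) (nat_lit 32) (nat_lit 3) (nat_lit 39) (nat_lit 3) (nat_lit 39) (nat_lit 5) (nat_lit 301) (nat_lit 301) (nat_lit 118)))))) (XT.nd (nat_lit 468) (nat_lit 456) (nat_lit 0) (XT.nd (nat_lit 234) (nat_lit 0) (nat_lit 152) (XT.nd (nat_lit 78) (nat_lit 0) (nat_lit 76) (XT.lf (nat_lit 76) (nat_lit 16360540803) (nat_lit 0) (nat_lit 97585422755) (nat_lit 532) (nat_lit 353668568333) (nat_lit 33) (nat_lit 5) (nat_lit 32) (nat_lit 3) (nat_lit 39) (nat_lit 5) (nat_lit 302) (nat_lit 301) (nat_lit 117)) (XT.nd (nat_lit 78) (nat_lit 0) (nat_lit 0) (XT.lf (nat_lit 0) (nat_lit 126239569086) (nat_lit 456) (nat_lit 261562570873) (nat_lit 532) (nat_lit 98631541213) (nat_lit 33) (nat_lit 5) (nat_lit 39) (nat_lit 5) (nat_lit 40) (nat_lit 5) (nat_lit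 303) (nat_lit 301) (nat_lit 116)) (XT.lf (nat_lit 0) (nat_lit 142051322894) (nat_lit 456) (nat_lit 59230541024) (nat_lit 532) (nat_lit 305273725860) (nat_lit 33) (nat_lit 5) (nat_lit 39) (nat_lit 5) (nat_lit 40) (nat_lit 5) (nat_lit 304) (nat_lit 301) (nat_lit 115)))) (XT.nd (nat_lit 78) (nat_lit 0) (nat_lit 0) (XT.lf (nat_lit 0) (nat_lit 163269193077) (nat_lit 456) (nat_lit 360397376139) (nat_lit 532) (nat_lit 4289387930) (nat_lit 34) (nat_lit 5) (nat_lit 40) (nat_lit 5) (nat_lit 41) (nat_lit 5) (nat_lit 305) (nat_lit 301) (nat_lit 114)) (XT.nd (nat_lit 78) (nat_lit 0) (nat_lit 0) (XT.lf (nat_lit 0) (nat_lit 193074102393) (nat_lit 456) (nat_lit 140349652895) (nat_lit 532) (nat_lit 217093430000) (nat_lit 34) (nat_lit 5) (nat_lit 40) (nat_lit 5) (nat_lit 41) (nat_lit 5) (nat_lit 306) (nat_lit 301) (nat_lit 113)) (XT.lf (nat_lit 76) (nat_lit 102425615548) (nat_lit 0) (nat_lit 125301106215)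 (nat_lit 532) (nat_lit 346959524667) (nat_lit 35) (nat_lit 5) (nat_lit 34) (nat_lit 5) (nat_lit 41) (nat_lit 5) (nat_lit 307) (nat_lit 301) (nat_lit 112))))) (XT.nd (nat_lit 234) (nat_lit 228) (nat_lit 0) (XT.nd (nat_lit 78) (nat_lit 456) (nat_lit 0) (XT.lf (nat_lit 0) (nat_lit 271480900390) (nat_lit 456) (nat_lit 230369104802) (nat_lit 76) (nat_lit 98432479421) (nat_lit 35) (nat_lit 5) (nat_lit 41) (nat_lit 5) (nat_lit 36) (nat_lit 5) (nat_lit 308) (nat_lit 301) (nat_lit 111)) (XT.nd (nat_lit 78) (nat_lit 0) (nat_lit 0) (XT.lf (nat_lit 0) (nat_lit 29073527972) (nat_lit 456) (nat_lit 293615660105) (nat_lit 532) (nat_lit 304920931909) (nat_lit 29) (nat_lit 5) (nat_lit 35) (nat_lit 5) (nat_lit 36) (nat_lit 5) (nat_lit 309) (nat_lit 301) (nat_lit 110)) (XT.lf (nat_lit 0) (nat_lit 322372850089) (nat_lit 456) (nat_lit 61919970774) (nat_lit 532) (nat_lit 272327250866) (nat_lit 29) (nat_lit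 5) (nat_lit 35) (nat_lit 5) (nat_lit 36) (nat_lit 5) (nat_lit 310) (nat_lit 301) (nat_lit 109)))) (XT.nd (nat_lit 78) (nat_lit 228) (nat_lit 0) (XT.lf (nat_lit 0) (nat_lit 455353621169) (nat_lit 532) (nat_lit 53343611305) (nat_lit 76) (nat_lit 178891277087) (nat_lit 29) (nat_lit 5) (nat_lit 36) (nat_lit 5) (nat_lit 30) (nat_lit 5) (nat_lit 311) (nat_lit 301) (nat_lit 108)) (XT.nd (nat_lit 78) (nat_lit 0) (nat_lit 0) (XT.lf (nat_lit 0) (nat_lit 261505527129) (nat_lit 228) (nat_lit 278491268542) (nat_lit 304) (nat_lit 180405826024) (nat_lit 26) (nat_lit 5) (nat_lit 29) (nat_lit 5) (nat_lit 30) (nat_lit 5) (nat_lit 312) (nat_lit 301) (nat_lit 107)) (XT.lf (nat_lit 0) (nat_lit 604576280097) (nat_lit 228) (nat_lit 28293638679) (nat_lit 304) (nat_lit 122855264539) (nat_lit 26) (nat_lit 5) (nat_lit 29) (nat_lit 5) (nat_lit 30) (nat_lit 5) (nat_lit 313) (nat_lit 301) (nat_lit 106))))))) (XT.nd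 (nat_lit 37206) (nat_lit 0) (nat_lit 228) (XT.nd (nat_lit 36738) (nat_lit 0) (nat_lit 988) (XT.nd (nat_lit 234) (nat_lit 0) (nat_lit 0) (XT.nd (nat_lit 78) (nat_lit 304) (nat_lit 0) (XT.lf (nat_lit 0) (nat_lit 184637254667) (nat_lit 152) (nat_lit 558794331336) (nat_lit 228) (nat_lit 49621268398) (nat_lit 24) (nat_lit 5) (nat_lit 26) (nat_lit 5) (nat_lit 27) (nat_lit 5) (nat_lit 314) (nat_lit 301) (nat_lit 105)) (XT.nd (nat_lit 78) (nat_lit 228) (nat_lit 0) (XT.lf (nat_lit 0) (nat_lit 32972074203) (nat_lit 228) (nat_lit 278704894017) (nat_lit 76) (nat_lit 521235075267) (nat_lit 23) (nat_lit 5) (nat_lit 26) (nat_lit 5) (nat_lit 24) (nat_lit 5) (nat_lit 315) (nat_lit 301) (nat_lit 104)) (XT.lf (nat_lit 0) (nat_lit 80100753945) (nat_lit 228) (nat_lit 41317705971) (nat_lit 304) (nat_lit 754284285671) (nat_lit 20) (nat_lit 5) (nat_lit 23) (nat_lit 5) (nat_lit 24) (nat_lit 5) (nat_lit 316)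 (nat_lit 301) (nat_lit 103)))) (XT.nd (nat_lit 36348) (nat_lit 0) (nat_lit 912) (XT.lf (nat_lit 0) (nat_lit 230787386872) (nat_lit 304) (nat_lit 444072603931) (nat_lit 76) (nat_lit 245948966679) (nat_lit 20) (nat_lit 5) (nat_lit 24) (nat_lit 5) (nat_lit 21) (nat_lit 5) (nat_lit 317) (nat_lit 301) (nat_lit 102)) (XT.nd (nat_lit 78) (nat_lit 0) (nat_lit 0) (XT.lf (nat_lit 0) (nat_lit 58960077932) (nat_lit 532) (nat_lit 91928054057) (nat_lit 532) (nat_lit 91928054057) (nat_lit 32) (nat_lit 3) (nat_lit 39) (nat_lit 3) (nat_lit 39) (nat_lit 5) (nat_lit 302) (nat_lit 302) (nat_lit 116)) (XT.lf (nat_lit 76) (nat_lit 17669678421) (nat_lit 0) (nat_lit 105392484053) (nat_lit 532) (nat_lit 381961486896) (nat_lit 33) (nat_lit 5) (nat_lit 32) (nat_lit 3) (nat_lit 39) (nat_lit 5) (nat_lit 303) (nat_lit 302) (nat_lit 115))))) (XT.nd (nat_lit 234) (nat_lit 0) (nat_lit 76) (XT.nd (nat_lit 78) (nat_lit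 0) (nat_lit 0) (XT.lf (nat_lit 0) (nat_lit 136339212724) (nat_lit 456) (nat_lit 282487257194) (nat_lit 532) (nat_lit 106521864419) (nat_lit 33) (nat_lit 5) (nat_lit 39) (nat_lit 5) (nat_lit 40) (nat_lit 5) (nat_lit 304) (nat_lit 302) (nat_lit 114)) (XT.nd (nat_lit 78) (nat_lit 0) (nat_lit 76) (XT.lf (nat_lit 0) (nat_lit 153415871422) (nat_lit 456) (nat_lit 63968688613) (nat_lit 532) (nat_lit 329695438659) (nat_lit 33) (nat_lit 5) (nat_lit 39) (nat_lit 5) (nat_lit 40) (nat_lit 5) (nat_lit 305) (nat_lit 302) (nat_lit 113)) (XT.lf (nat_lit 0) (nat_lit 176331142265) (nat_lit 456) (nat_lit 389228838941) (nat_lit 532) (nat_lit 4632416771) (nat_lit 34) (nat_lit 5) (nat_lit 40) (nat_lit 5) (nat_lit 41) (nat_lit 5) (nat_lit 306) (nat_lit 302) (nat_lit 112)))) (XT.nd (nat_lit 78) (nat_lit 0) (nat_lit 0) (XT.lf (nat_lit 0) (nat_lit 208520413678) (nat_lit 456) (nat_lit 151577322082) (nat_lit 532)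 (nat_lit 234460791258) (nat_lit 34) (nat_lit 5) (nat_lit 40) (nat_lit 5) (nat_lit 41) (nat_lit 5) (nat_lit 307) (nat_lit 302) (nat_lit 111)) (XT.nd (nat_lit 78) (nat_lit 0) (nat_lit 76) (XT.lf (nat_lit 76) (nat_lit 110619960164) (nat_lit 0) (nat_lit 135325261160) (nat_lit 532) (nat_lit 374715893611) (nat_lit 35) (nat_lit 5) (nat_lit 34) (nat_lit 5) (nat_lit 41) (nat_lit 5) (nat_lit 308) (nat_lit 302) (nat_lit 110)) (XT.lf (nat_lit 0) (nat_lit 293199705961) (nat_lit 456) (nat_lit 248798329316) (nat_lit 76) (nat_lit 106307019327) (nat_lit 35) (nat_lit 5) (nat_lit 41) (nat_lit 5) (nat_lit 36) (nat_lit 5) (nat_lit 309) (nat_lit 302) (nat_lit 109)))))) (XT.nd (nat_lit 468) (nat_lit 76) (nat_lit 0) (XT.nd (nat_lit 234) (nat_lit 380) (nat_lit 0) (XT.nd (nat_lit 78) (nat_lit 0) (nat_lit 0) (XT.lf (nat_lit 0) (nat_lit 31399706387) (nat_lit 456) (nat_lit 317104932692) (nat_lit 532) (nat_lit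 329314263289) (nat_lit 29) (nat_lit 5) (nat_lit 35) (nat_lit 5) (nat_lit 36) (nat_lit 5) (nat_lit 310) (nat_lit 302) (nat_lit 108)) (XT.nd (nat_lit 78) (nat_lit 0) (nat_lit 0) (XT.lf (nat_lit 0) (nat_lit 348162952334) (nat_lit 456) (nat_lit 66873586749) (nat_lit 532) (nat_lit 294113113183) (nat_lit 29) (nat_lit 5) (nat_lit 35) (nat_lit 5) (nat_lit 36) (nat_lit 5) (nat_lit 311) (nat_lit 302) (nat_lit 107)) (XT.lf (nat_lit 0) (nat_lit 491782181336) (nat_lit 532) (nat_lit 57610822542) (nat_lit 76) (nat_lit 193202563145) (nat_lit 29) (nat_lit 5) (nat_lit 36) (nat_lit 5) (nat_lit 30) (nat_lit 5) (nat_lit 312) (nat_lit 302) (nat_lit 106)))) (XT.nd (nat_lit 78) (nat_lit 152) (nat_lit 0) (XT.lf (nat_lit 0) (nat_lit 282426239936) (nat_lit 228) (nat_lit 300770556336) (nat_lit 304) (nat_lit 194838013063) (nat_lit 26) (nat_lit 5) (nat_lit 29) (nat_lit 5) (nat_lit 30) (nat_lit 5) (nat_lit 313)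 (nat_lit 302) (nat_lit 105)) (XT.nd (nat_lit 78) (nat_lit 152) (nat_lit 0) (XT.lf (nat_lit 0) (nat_lit 652942633095) (nat_lit 228) (nat_lit 30557117097) (nat_lit 304) (nat_lit 132683427329) (nat_lit 26) (nat_lit 5) (nat_lit 29) (nat_lit 5) (nat_lit 30) (nat_lit 5) (nat_lit 314) (nat_lit 302) (nat_lit 104)) (XT.lf (nat_lit 0) (nat_lit 199408498931) (nat_lit 152) (nat_lit 603497840872) (nat_lit 228) (nat_lit 53590723476) (nat_lit 24) (nat_lit 5) (nat_lit 26) (nat_lit 5) (nat_lit 27) (nat_lit 5) (nat_lit 315) (nat_lit 302) (nat_lit 103))))) (XT.nd (nat_lit 36660) (nat_lit 0) (nat_lit 760) (XT.nd (nat_lit 36504) (nat_lit 0) (nat_lit 684) (XT.lf (nat_lit 0) (nat_lit 35610056869) (nat_lit 228) (nat_lit 301001028650) (nat_lit 76) (nat_lit 562933902975) (nat_lit 23) (nat_lit 5) (nat_lit 26) (nat_lit 5) (nat_lit 24) (nat_lit 5) (nat_lit 316) (nat_lit 302) (nat_lit 102)) (XT.nd (nat_lit 78)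 (nat_lit 0) (nat_lit 0) (XT.lf (nat_lit 0) (nat_lit 63677122478) (nat_lit 532) (nat_lit 99282168924) (nat_lit 532) (nat_lit 99282168924) (nat_lit 32) (nat_lit 3) (nat_lit 39) (nat_lit 3) (nat_lit 39) (nat_lit 5) (nat_lit 303) (nat_lit 303) (nat_lit 114)) (XT.lf (nat_lit 76) (nat_lit 19083505056) (nat_lit 0) (nat_lit 113824077802) (nat_lit 532) (nat_lit 412517919819) (nat_lit 33) (nat_lit 5) (nat_lit 32) (nat_lit 3) (nat_lit 39) (nat_lit 5) (nat_lit 304) (nat_lit 303) (nat_lit 113)))) (XT.nd (nat_lit 156) (nat_lit 0) (nat_lit 76) (XT.nd (nat_lit 78) (nat_lit 0) (nat_lit 0) (XT.lf (nat_lit 0) (nat_lit 147246759646) (nat_lit 456) (nat_lit 305085963979) (nat_lit 532) (nat_lit 115043442027) (nat_lit 33) (nat_lit 5) (nat_lit 39) (nat_lit 5) (nat_lit 40) (nat_lit 5) (nat_lit 305) (nat_lit 303) (nat_lit 112)) (XT.lf (nat_lit 0) (nat_lit 165689520676) (nat_lit 456) (nat_lit 69085930192) (nat_lit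 532) (nat_lit 356070914913) (nat_lit 33) (nat_lit 5) (nat_lit 39) (nat_lit 5) (nat_lit 40) (nat_lit 5) (nat_lit 306) (nat_lit 303) (nat_lit 111))) (XT.nd (nat_lit 78) (nat_lit 0) (nat_lit 0) (XT.lf (nat_lit 0) (nat_lit 190437988363) (nat_lit 456) (nat_lit 420366865460) (nat_lit 532) (nat_lit 5002905352) (nat_lit 34) (nat_lit 5) (nat_lit 40) (nat_lit 5) (nat_lit 41) (nat_lit 5) (nat_lit 307) (nat_lit 303) (nat_lit 110)) (XT.lf (nat_lit 0) (nat_lit 225202375214) (nat_lit 456) (nat_lit 163703248036) (nat_lit 532) (nat_lit 253217557558) (nat_lit 34) (nat_lit 5) (nat_lit 40) (nat_lit 5) (nat_lit 41) (nat_lit 5) (nat_lit 308) (nat_lit 303) (nat_lit 109))))))))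
noncomputable def xc127 : XT := (XT.nd (nat_lit 75114) (nat_lit 0) (nat_lit 228) (XT.nd (nat_lit 37518) (nat_lit 0) (nat_lit 0) (XT.nd (nat_lit 468) (nat_lit 0) (nat_lit 0) (XT.nd (nat_lit 234) (nat_lit 228) (nat_lit 0) (XT.nd (nat_lit 78) (nat_lit 380) (nat_lit 0) (XT.lf (nat_lit 76) (nat_lit 119469810212) (nat_lit 0) (nat_lit 146151339021) (nat_lit 532) (nat_lit 404692828140) (nat_lit 35) (nat_lit 5) (nat_lit 34) (nat_lit 5) (nat_lit 41) (nat_lit 5) (nat_lit 309) (nat_lit 303) (nat_lit 108)) (XT.nd (nat_lit 78) (nat_lit 456) (nat_lit 0) (XT.lf (nat_lit 0) (nat_lit 316655968394) (nat_lit 456) (nat_lit 268701935142) (nat_lit 76) (nat_lit 114811530763) (nat_lit 35) (nat_lit 5) (nat_lit 41) (nat_lit 5) (nat_lit 36) (nat_lit 5) (nat_lit 310) (nat_lit 303) (nat_lit 107)) (XT.lf (nat_lit 0) (nat_lit 33911936823) (nat_lit 456) (nat_lit 342473344264) (nat_lit 532) (nat_lit 355659110137) (nat_lit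 29) (nat_lit 5) (nat_lit 35) (nat_lit 5) (nat_lit 36) (nat_lit 5) (nat_lit 311) (nat_lit 303) (nat_lit 106)))) (XT.nd (nat_lit 78) (nat_lit 228) (nat_lit 0) (XT.lf (nat_lit 0) (nat_lit 376016223636) (nat_lit 456) (nat_lit 72223489390) (nat_lit 532) (nat_lit 317641889816) (nat_lit 29) (nat_lit 5) (nat_lit 35) (nat_lit 5) (nat_lit 36) (nat_lit 5) (nat_lit 312) (nat_lit 303) (nat_lit 105)) (XT.nd (nat_lit 78) (nat_lit 228) (nat_lit 0) (XT.lf (nat_lit 0) (nat_lit 531124987730) (nat_lit 532) (nat_lit 62219450292) (nat_lit 76) (nat_lit 208658754386) (nat_lit 29) (nat_lit 5) (nat_lit 36) (nat_lit 5) (nat_lit 30) (nat_lit 5) (nat_lit 313) (nat_lit 303) (nat_lit 104)) (XT.lf (nat_lit 0) (nat_lit 305020571158) (nat_lit 228) (nat_lit 324832189106) (nat_lit 304) (nat_lit 210424814873) (nat_lit 26) (nat_lit 5) (nat_lit 29) (nat_lit 5) (nat_lit 30) (nat_lit 5) (nat_lit 314) (nat_lit 303) (nat_lit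 103))))) (XT.nd (nat_lit 36816) (nat_lit 0) (nat_lit 532) (XT.nd (nat_lit 36660) (nat_lit 0) (nat_lit 456) (XT.lf (nat_lit 0) (nat_lit 705178258583) (nat_lit 228) (nat_lit 33001675598) (nat_lit 304) (nat_lit 143297880001) (nat_lit 26) (nat_lit 5) (nat_lit 29) (nat_lit 5) (nat_lit 30) (nat_lit 5) (nat_lit 315) (nat_lit 303) (nat_lit 102)) (XT.nd (nat_lit 78) (nat_lit 0) (nat_lit 0) (XT.lf (nat_lit 0) (nat_lit 68771496590) (nat_lit 532) (nat_lit 107224631448) (nat_lit 532) (nat_lit 107224631448) (nat_lit 32) (nat_lit 3) (nat_lit 39) (nat_lit 3) (nat_lit 39) (nat_lit 5) (nat_lit 304) (nat_lit 304) (nat_lit 112)) (XT.lf (nat_lit 76) (nat_lit 20610401819) (nat_lit 0) (nat_lit 122930171229) (nat_lit 532) (nat_lit 445518936714) (nat_lit 33) (nat_lit 5) (nat_lit 32) (nat_lit 3) (nat_lit 39) (nat_lit 5) (nat_lit 305) (nat_lit 304) (nat_lit 111)))) (XT.nd (nat_lit 78) (nat_lit 0) (nat_lit 0)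 (XT.lf (nat_lit 0) (nat_lit 159026851844) (nat_lit 456) (nat_lit 329492606366) (nat_lit 532) (nat_lit 124246770316) (nat_lit 33) (nat_lit 5) (nat_lit 39) (nat_lit 5) (nat_lit 40) (nat_lit 5) (nat_lit 306) (nat_lit 304) (nat_lit 110)) (XT.nd (nat_lit 78) (nat_lit 0) (nat_lit 76) (XT.lf (nat_lit 0) (nat_lit 178945007725) (nat_lit 456) (nat_lit 74612587264) (nat_lit 532) (nat_lit 384556451928) (nat_lit 33) (nat_lit 5) (nat_lit 39) (nat_lit 5) (nat_lit 40) (nat_lit 5) (nat_lit 307) (nat_lit 304) (nat_lit 109)) (XT.lf (nat_lit 0) (nat_lit 205673331544) (nat_lit 456) (nat_lit 453995974130) (nat_lit 532) (nat_lit 5403047965) (nat_lit 34) (nat_lit 5) (nat_lit 40) (nat_lit 5) (nat_lit 41) (nat_lit 5) (nat_lit 308) (nat_lit 304) (nat_lit 108)))))) (XT.nd (nat_lit 468) (nat_lit 228) (nat_lit 0) (XT.nd (nat_lit 234) (nat_lit 380) (nat_lit 0) (XT.nd (nat_lit 78) (nat_lit 0) (nat_lit 0) (XT.lf (nat_lit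 0) (nat_lit 243218846817) (nat_lit 456) (nat_lit 176799285132) (nat_lit 532) (nat_lit 273474879000) (nat_lit 34) (nat_lit 5) (nat_lit 40) (nat_lit 5) (nat_lit 41) (nat_lit 5) (nat_lit 309) (nat_lit 304) (nat_lit 107)) (XT.nd (nat_lit 78) (nat_lit 0) (nat_lit 76) (XT.lf (nat_lit 76) (nat_lit 129027612137) (nat_lit 0) (nat_lit 157843494984) (nat_lit 532) (nat_lit 437067965503) (nat_lit 35) (nat_lit 5) (nat_lit 34) (nat_lit 5) (nat_lit 41) (nat_lit 5) (nat_lit 310) (nat_lit 304) (nat_lit 106)) (XT.lf (nat_lit 0) (nat_lit 341988691027) (nat_lit 456) (nat_lit 290197866600) (nat_lit 76) (nat_lit 123996410264) (nat_lit 35) (nat_lit 5) (nat_lit 41) (nat_lit 5) (nat_lit 36) (nat_lit 5) (nat_lit 311) (nat_lit 304) (nat_lit 105)))) (XT.nd (nat_lit 78) (nat_lit 0) (nat_lit 0) (XT.lf (nat_lit 0) (nat_lit 36625109468) (nat_lit 456) (nat_lit 369871226342) (nat_lit 532) (nat_lit 384111586706) (nat_lit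 29) (nat_lit 5) (nat_lit 35) (nat_lit 5) (nat_lit 36) (nat_lit 5) (nat_lit 312) (nat_lit 304) (nat_lit 104)) (XT.nd (nat_lit 78) (nat_lit 0) (nat_lit 0) (XT.lf (nat_lit 0) (nat_lit 406097723101) (nat_lit 456) (nat_lit 78001382002) (nat_lit 532) (nat_lit 343053007444) (nat_lit 29) (nat_lit 5) (nat_lit 35) (nat_lit 5) (nat_lit 36) (nat_lit 5) (nat_lit 313) (nat_lit 304) (nat_lit 103)) (XT.lf (nat_lit 0) (nat_lit 573615185554) (nat_lit 532) (nat_lit 67196802222) (nat_lit 76) (nat_lit 225351442897) (nat_lit 29) (nat_lit 5) (nat_lit 36) (nat_lit 5) (nat_lit 30) (nat_lit 5) (nat_lit 314) (nat_lit 304) (nat_lit 102))))) (XT.nd (nat_lit 36894) (nat_lit 0) (nat_lit 532) (XT.nd (nat_lit 36738) (nat_lit 0) (nat_lit 456) (XT.lf (nat_lit 0) (nat_lit 329422415777) (nat_lit 228) (nat_lit 350818754172) (nat_lit 304) (nat_lit 227258594958) (nat_lit 26) (nat_lit 5) (nat_lit 29) (nat_lit 5) (nat_lit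 30) (nat_lit 5) (nat_lit 315) (nat_lit 304) (nat_lit 101)) (XT.nd (nat_lit 78) (nat_lit 0) (nat_lit 0) (XT.lf (nat_lit 0) (nat_lit 74273391483) (nat_lit 532) (nat_lit 115802506809) (nat_lit 532) (nat_lit 115802506809) (nat_lit 32) (nat_lit 3) (nat_lit 39) (nat_lit 3) (nat_lit 39) (nat_lit 5) (nat_lit 305) (nat_lit 305) (nat_lit 110)) (XT.lf (nat_lit 76) (nat_lit 22259419458) (nat_lit 0) (nat_lit 132764728277) (nat_lit 532) (nat_lit 481160094405) (nat_lit 33) (nat_lit 5) (nat_lit 32) (nat_lit 3) (nat_lit 39) (nat_lit 5) (nat_lit 306) (nat_lit 305) (nat_lit 109)))) (XT.nd (nat_lit 78) (nat_lit 0) (nat_lit 0) (XT.lf (nat_lit 0) (nat_lit 171749301283) (nat_lit 456) (nat_lit 355851813631) (nat_lit 532) (nat_lit 134186385850) (nat_lit 33) (nat_lit 5) (nat_lit 39) (nat_lit 5) (nat_lit 40) (nat_lit 5) (nat_lit 307) (nat_lit 305) (nat_lit 108)) (XT.nd (nat_lit 78) (nat_lit 0) (nat_lit 76) (XT.lf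 (nat_lit 0) (nat_lit 193260887316) (nat_lit 456) (nat_lit 80581407908) (nat_lit 532) (nat_lit 415320851331) (nat_lit 33) (nat_lit 5) (nat_lit 39) (nat_lit 5) (nat_lit 40) (nat_lit 5) (nat_lit 308) (nat_lit 305) (nat_lit 107)) (XT.lf (nat_lit 0) (nat_lit 222127458795) (nat_lit 456) (nat_lit 490315445813) (nat_lit 532) (nat_lit 5835214800) (nat_lit 34) (nat_lit 5) (nat_lit 40) (nat_lit 5) (nat_lit 41) (nat_lit 5) (nat_lit 309) (nat_lit 305) (nat_lit 106))))))) (XT.nd (nat_lit 37752) (nat_lit 0) (nat_lit 228) (XT.nd (nat_lit 37284) (nat_lit 0) (nat_lit 228) (XT.nd (nat_lit 234) (nat_lit 380) (nat_lit 0) (XT.nd (nat_lit 78) (nat_lit 0) (nat_lit 0) (XT.lf (nat_lit 0) (nat_lit 262676595976) (nat_lit 456) (nat_lit 190943036973) (nat_lit 532) (nat_lit 295352798022) (nat_lit 34) (nat_lit 5) (nat_lit 40) (nat_lit 5) (nat_lit 41) (nat_lit 5) (nat_lit 310) (nat_lit 305) (nat_lit 105)) (XT.nd (nat_lit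 78) (nat_lit 0) (nat_lit 76) (XT.lf (nat_lit 76) (nat_lit 139350007243) (nat_lit 0) (nat_lit 170471016456) (nat_lit 532) (nat_lit 472033155068) (nat_lit 35) (nat_lit 5) (nat_lit 34) (nat_lit 5) (nat_lit 41) (nat_lit 5) (nat_lit 311) (nat_lit 305) (nat_lit 104)) (XT.lf (nat_lit 0) (nat_lit 369347996495) (nat_lit 456) (nat_lit 313413504438) (nat_lit 76) (nat_lit 133916086253) (nat_lit 35) (nat_lit 5) (nat_lit 41) (nat_lit 5) (nat_lit 36) (nat_lit 5) (nat_lit 312) (nat_lit 305) (nat_lit 103)))) (XT.nd (nat_lit 78) (nat_lit 0) (nat_lit 0) (XT.lf (nat_lit 0) (nat_lit 39555304867) (nat_lit 456) (nat_lit 399460936914) (nat_lit 532) (nat_lit 414840297385) (nat_lit 29) (nat_lit 5) (nat_lit 35) (nat_lit 5) (nat_lit 36) (nat_lit 5) (nat_lit 313) (nat_lit 305) (nat_lit 102)) (XT.nd (nat_lit 36894) (nat_lit 0) (nat_lit 228) (XT.lf (nat_lit 0) (nat_lit 438585713766) (nat_lit 456) (nat_lit 84241504103)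 (nat_lit 532) (nat_lit 370497047801) (nat_lit 29) (nat_lit 5) (nat_lit 35) (nat_lit 5) (nat_lit 36) (nat_lit 5) (nat_lit 314) (nat_lit 305) (nat_lit 101)) (XT.lf (nat_lit 0) (nat_lit 80215412978) (nat_lit 532) (nat_lit 125066625773) (nat_lit 532) (nat_lit 125066625773) (nat_lit 32) (nat_lit 3) (nat_lit 39) (nat_lit 3) (nat_lit 39) (nat_lit 5) (nat_lit 306) (nat_lit 306) (nat_lit 108))))) (XT.nd (nat_lit 234) (nat_lit 0) (nat_lit 152) (XT.nd (nat_lit 78) (nat_lit 0) (nat_lit 76) (XT.lf (nat_lit 76) (nat_lit 24040332045) (nat_lit 0) (nat_lit 143386029438) (nat_lit 532) (nat_lit 519652595677) (nat_lit 33) (nat_lit 5) (nat_lit 32) (nat_lit 3) (nat_lit 39) (nat_lit 5) (nat_lit 307) (nat_lit 306) (nat_lit 107)) (XT.nd (nat_lit 78) (nat_lit 0) (nat_lit 0) (XT.lf (nat_lit 0) (nat_lit 185489503695) (nat_lit 456) (nat_lit 384319786187) (nat_lit 532) (nat_lit 144921188615) (nat_lit 33) (nat_lit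 5) (nat_lit 39) (nat_lit 5) (nat_lit 40) (nat_lit 5) (nat_lit 308) (nat_lit 306) (nat_lit 106)) (XT.lf (nat_lit 0) (nat_lit 208721997477) (nat_lit 456) (nat_lit 87027760786) (nat_lit 532) (nat_lit 448546419342) (nat_lit 33) (nat_lit 5) (nat_lit 39) (nat_lit 5) (nat_lit 40) (nat_lit 5) (nat_lit 309) (nat_lit 306) (nat_lit 105)))) (XT.nd (nat_lit 78) (nat_lit 0) (nat_lit 0) (XT.lf (nat_lit 0) (nat_lit 239897879031) (nat_lit 456) (nat_lit 529540504655) (nat_lit 532) (nat_lit 6301965967) (nat_lit 34) (nat_lit 5) (nat_lit 40) (nat_lit 5) (nat_lit 41) (nat_lit 5) (nat_lit 310) (nat_lit 306) (nat_lit 104)) (XT.nd (nat_lit 78) (nat_lit 0) (nat_lit 0) (XT.lf (nat_lit 0) (nat_lit 283690930628) (nat_lit 456) (nat_lit 206218316206) (nat_lit 532) (nat_lit 318980960737) (nat_lit 34) (nat_lit 5) (nat_lit 40) (nat_lit 5) (nat_lit 41) (nat_lit 5) (nat_lit 311) (nat_lit 306) (nat_lit 103)) (XT.lf (nat_lit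 76) (nat_lit 150498167403) (nat_lit 0) (nat_lit 184108733673) (nat_lit 532) (nat_lit 509795595132) (nat_lit 35) (nat_lit 5) (nat_lit 34) (nat_lit 5) (nat_lit 41) (nat_lit 5) (nat_lit 312) (nat_lit 306) (nat_lit 102)))))) (XT.nd (nat_lit 37440) (nat_lit 0) (nat_lit 0) (XT.nd (nat_lit 37206) (nat_lit 0) (nat_lit 76) (XT.nd (nat_lit 37050) (nat_lit 228) (nat_lit 0) (XT.lf (nat_lit 0) (nat_lit 398896016416) (nat_lit 456) (nat_lit 338486420621) (nat_lit 76) (nat_lit 144629341575) (nat_lit 35) (nat_lit 5) (nat_lit 41) (nat_lit 5) (nat_lit 36) (nat_lit 5) (nat_lit 313) (nat_lit 306) (nat_lit 101)) (XT.nd (nat_lit 78) (nat_lit 0) (nat_lit 0) (XT.lf (nat_lit 0) (nat_lit 86632774768) (nat_lit 532) (nat_lit 135071885893) (nat_lit 532) (nat_lit 135071885893) (nat_lit 32) (nat_lit 3) (nat_lit 39) (nat_lit 3) (nat_lit 39) (nat_lit 5) (nat_lit 307) (nat_lit 307) (nat_lit 106)) (XT.lf (nat_lit 76)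 (nat_lit 25963694951) (nat_lit 0) (nat_lit 154857017159) (nat_lit 532) (nat_lit 561224540745) (nat_lit 33) (nat_lit 5) (nat_lit 32) (nat_lit 3) (nat_lit 39) (nat_lit 5) (nat_lit 308) (nat_lit 307) (nat_lit 105)))) (XT.nd (nat_lit 78) (nat_lit 0) (nat_lit 0) (XT.lf (nat_lit 0) (nat_lit 200328885449) (nat_lit 456) (nat_lit 415065221162) (nat_lit 532) (nat_lit 156514791024) (nat_lit 33) (nat_lit 5) (nat_lit 39) (nat_lit 5) (nat_lit 40) (nat_lit 5) (nat_lit 309) (nat_lit 307) (nat_lit 104)) (XT.nd (nat_lit 78) (nat_lit 0) (nat_lit 76) (XT.lf (nat_lit 0) (nat_lit 225419962329) (nat_lit 456) (nat_lit 93989844686) (nat_lit 532) (nat_lit 484430047074) (nat_lit 33) (nat_lit 5) (nat_lit 39) (nat_lit 5) (nat_lit 40) (nat_lit 5) (nat_lit 310) (nat_lit 307) (nat_lit 103)) (XT.lf (nat_lit 0) (nat_lit 259089900996) (nat_lit 456) (nat_lit 571903593429) (nat_lit 532) (nat_lit 6806066646) (nat_lit 34)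 (nat_lit 5) (nat_lit 40) (nat_lit 5) (nat_lit 41) (nat_lit 5) (nat_lit 311) (nat_lit 307) (nat_lit 102))))) (XT.nd (nat_lit 37362) (nat_lit 0) (nat_lit 0) (XT.nd (nat_lit 37206) (nat_lit 152) (nat_lit 0) (XT.lf (nat_lit 0) (nat_lit 306386382525) (nat_lit 456) (nat_lit 222715641134) (nat_lit 532) (nat_lit 344499385190) (nat_lit 34) (nat_lit 5) (nat_lit 40) (nat_lit 5) (nat_lit 41) (nat_lit 5) (nat_lit 312) (nat_lit 307) (nat_lit 101)) (XT.nd (nat_lit 78) (nat_lit 0) (nat_lit 0) (XT.lf (nat_lit 0) (nat_lit 93563507134) (nat_lit 532) (nat_lit 145877576800) (nat_lit 532) (nat_lit 145877576800) (nat_lit 32) (nat_lit 3) (nat_lit 39) (nat_lit 3) (nat_lit 39) (nat_lit 5) (nat_lit 308) (nat_lit 308) (nat_lit 104)) (XT.lf (nat_lit 76) (nat_lit 28040907439) (nat_lit 0) (nat_lit 167245668866) (nat_lit 532) (nat_lit 606122278879) (nat_lit 33) (nat_lit 5) (nat_lit 32) (nat_lit 3) (nat_lit 39) (nat_lit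 5) (nat_lit 309) (nat_lit 308) (nat_lit 103)))) (XT.nd (nat_lit 37440) (nat_lit 76) (nat_lit 0) (XT.nd (nat_lit 78) (nat_lit 0) (nat_lit 0) (XT.lf (nat_lit 0) (nat_lit 216355386149) (nat_lit 456) (nat_lit 448270312037) (nat_lit 532) (nat_lit 169035894847) (nat_lit 33) (nat_lit 5) (nat_lit 39) (nat_lit 5) (nat_lit 40) (nat_lit 5) (nat_lit 310) (nat_lit 308) (nat_lit 102)) (XT.lf (nat_lit 0) (nat_lit 243453735116) (nat_lit 456) (nat_lit 101508914836) (nat_lit 532) (nat_lit 523184377267) (nat_lit 33) (nat_lit 5) (nat_lit 39) (nat_lit 5) (nat_lit 40) (nat_lit 5) (nat_lit 311) (nat_lit 308) (nat_lit 101))) (XT.nd (nat_lit 78) (nat_lit 0) (nat_lit 0) (XT.lf (nat_lit 0) (nat_lit 101048682341) (nat_lit 532) (nat_lit 157547731535) (nat_lit 532) (nat_lit 157547731535) (nat_lit 32) (nat_lit 3) (nat_lit 39) (nat_lit 3) (nat_lit 39) (nat_lit 5) (nat_lit 309) (nat_lit 309) (nat_lit 102)) (XT.lf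 (nat_lit 76) (nat_lit 30284280251) (nat_lit 0) (nat_lit 180625399823) (nat_lit 532) (nat_lit 654611868181) (nat_lit 33) (nat_lit 5) (nat_lit 32) (nat_lit 3) (nat_lit 39) (nat_lit 5) (nat_lit 310) (nat_lit 309) (nat_lit 101))))))))

set_option maxRecDepth 10000000 in
noncomputable def Tp : PT := (PT.nd (nat_lit 4586400) (PT.nd (nat_lit 4361526) (PT.nd (nat_lit 4136808) pc0 pc1) (PT.nd (nat_lit 112788) pc2 pc3)) (PT.nd (nat_lit 149370) (PT.nd (nat_lit 74958) pc4 pc5) (PT.nd (nat_lit 39078) pc6 pc7)))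

set_option maxRecDepth 10000000 in
noncomputable def Tx : XT := (XT.nd (nat_lit 7192302) (nat_lit 0) (nat_lit 76) XT.nil (XT.nd (nat_lit 4425018) (nat_lit 0) (nat_lit 0) (XT.nd (nat_lit 2097654) (nat_lit 0) (nat_lit 0) (XT.nd (nat_lit 1458678) (nat_lit 0) (nat_lit 0) (XT.nd (nat_lit 1011270) (nat_lit 0) (nat_lit 0) (XT.nd (nat_lit 710736) (nat_lit 0) (nat_lit 0) (XT.nd (nat_lit 486642) (nat_lit 0) (nat_lit 0) (XT.nd (nat_lit 336804) (nat_lit 0) (nat_lit 0) (XT.nd (nat_lit 224640) (nat_lit 0) (nat_lit 0) xc0 xc1) (XT.nd (nat_lit 75192) (nat_lit 0) (nat_lit 0) xc2 xc3)) (XT.nd (nat_lit 112632) (nat_lit 0) (nat_lit 0) (XT.nd (nat_lit 73944) (nat_lit 0) (nat_lit 0) xc4 xc5) (XT.nd (nat_lit 38532) (nat_lit 0) (nat_lit 0) xc6 xc7))) (XT.nd (nat_lit 151476) (nat_lit 0) (nat_lit 0) (XT.nd (nat_lit 76050) (nat_lit 0) (nat_lit 0) (XT.nd (nat_lit 38064) (nat_lit 0) (nat_lit 0) xc8 xc9) (XT.nd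 (nat_lit 37752) (nat_lit 0) (nat_lit 0) xc10 xc11)) (XT.nd (nat_lit 74802) (nat_lit 0) (nat_lit 0) (XT.nd (nat_lit 37440) (nat_lit 0) (nat_lit 0) xc12 xc13) (XT.nd (nat_lit 37206) (nat_lit 0) (nat_lit 0) xc14 xc15)))) (XT.nd (nat_lit 226356) (nat_lit 0) (nat_lit 0) (XT.nd (nat_lit 113880) (nat_lit 0) (nat_lit 0) (XT.nd (nat_lit 73554) (nat_lit 0) (nat_lit 0) (XT.nd (nat_lit 36816) (nat_lit 0) (nat_lit 0) xc16 xc17) (XT.nd (nat_lit 36504) (nat_lit 0) (nat_lit 0) xc18 xc19)) (XT.nd (nat_lit 72618) (nat_lit 0) (nat_lit 0) (XT.nd (nat_lit 36348) (nat_lit 0) (nat_lit 0) xc20 xc21) (XT.nd (nat_lit 36036) (nat_lit 0) (nat_lit 0) xc22 xc23))) (XT.nd (nat_lit 111072) (nat_lit 0) (nat_lit 0) (XT.nd (nat_lit 71682) (nat_lit 0) (nat_lit 0) (XT.nd (nat_lit 35880) (nat_lit 0) (nat_lit 0) xc24 xc25) (XT.nd (nat_lit 3744) (nat_lit 0) (nat_lit 0) xc26 xc27)) (XT.nd (nat_lit 39312) (nat_lit 0) (nat_lit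 0) (XT.nd (nat_lit 35490) (nat_lit 0) (nat_lit 0) xc28 xc29) (XT.nd (nat_lit 35412) (nat_lit 0) (nat_lit 0) xc30 xc31))))) (XT.nd (nat_lit 336492) (nat_lit 0) (nat_lit 0) (XT.nd (nat_lit 154440) (nat_lit 0) (nat_lit 0) (XT.nd (nat_lit 77532) (nat_lit 0) (nat_lit 0) (XT.nd (nat_lit 38844) (nat_lit 0) (nat_lit 0) (XT.nd (nat_lit 3744) (nat_lit 0) (nat_lit 0) xc32 xc33) (XT.nd (nat_lit 34866) (nat_lit 0) (nat_lit 0) xc34 xc35)) (XT.nd (nat_lit 38532) (nat_lit 0) (nat_lit 0) (XT.nd (nat_lit 34710) (nat_lit 0) (nat_lit 0) xc36 xc37) (XT.nd (nat_lit 34554) (nat_lit 0) (nat_lit 0) xc38 xc39))) (XT.nd (nat_lit 106626) (nat_lit 0) (nat_lit 0) (XT.nd (nat_lit 68718) (nat_lit 0) (nat_lit 0) (XT.nd (nat_lit 34398) (nat_lit 0) (nat_lit 0) xc40 xc41) (XT.nd (nat_lit 3744) (nat_lit 0) (nat_lit 0) xc42 xc43)) (XT.nd (nat_lit 37752) (nat_lit 0) (nat_lit 0) (XT.nd (nat_lit 3744) (nat_lit 0) (nat_lit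 0) xc44 xc45) (XT.nd (nat_lit 3822) (nat_lit 0) (nat_lit 0) xc46 xc47)))) (XT.nd (nat_lit 150618) (nat_lit 0) (nat_lit 0) (XT.nd (nat_lit 75114) (nat_lit 0) (nat_lit 0) (XT.nd (nat_lit 37518) (nat_lit 0) (nat_lit 0) (XT.nd (nat_lit 3744) (nat_lit 0) (nat_lit 0) xc48 xc49) (XT.nd (nat_lit 3744) (nat_lit 0) (nat_lit 0) xc50 xc51)) (XT.nd (nat_lit 37674) (nat_lit 0) (nat_lit 0) (XT.nd (nat_lit 3744) (nat_lit 0) (nat_lit 0) xc52 xc53) (XT.nd (nat_lit 3822) (nat_lit 0) (nat_lit 0) xc54 xc55))) (XT.nd (nat_lit 75738) (nat_lit 0) (nat_lit 0) (XT.nd (nat_lit 37830) (nat_lit 0) (nat_lit 0) (XT.nd (nat_lit 3744) (nat_lit 0) (nat_lit 0) xc56 xc57) (XT.nd (nat_lit 3744) (nat_lit 0) (nat_lit 0) xc58 xc59)) (XT.nd (nat_lit 37986) (nat_lit 0) (nat_lit 0) (XT.nd (nat_lit 3744) (nat_lit 0) (nat_lit 0) xc60 xc61) (XT.nd (nat_lit 3822) (nat_lit 0) (nat_lit 0) xc62 xc63)))))) (XT.nd (nat_lit 750672) (nat_lit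 0) (nat_lit 0) (XT.nd (nat_lit 339300) (nat_lit 0) (nat_lit 0) (XT.nd (nat_lit 184236) (nat_lit 0) (nat_lit 0) (XT.nd (nat_lit 76440) (nat_lit 0) (nat_lit 0) (XT.nd (nat_lit 38142) (nat_lit 0) (nat_lit 0) (XT.nd (nat_lit 34320) (nat_lit 0) (nat_lit 152) xc64 xc65) (XT.nd (nat_lit 34476) (nat_lit 0) (nat_lit 76) xc66 xc67)) (XT.nd (nat_lit 38376) (nat_lit 0) (nat_lit 0) (XT.nd (nat_lit 34554) (nat_lit 0) (nat_lit 0) xc68 xc69) (XT.nd (nat_lit 34632) (nat_lit 0) (nat_lit 0) xc70 xc71))) (XT.nd (nat_lit 77298) (nat_lit 0) (nat_lit 0) (XT.nd (nat_lit 38610) (nat_lit 0) (nat_lit 0) (XT.nd (nat_lit 3744) (nat_lit 228) (nat_lit 0) xc72 xc73) (XT.nd (nat_lit 3744) (nat_lit 152) (nat_lit 0) xc74 xc75)) (XT.nd (nat_lit 38766) (nat_lit 0) (nat_lit 0) (XT.nd (nat_lit 3744) (nat_lit 0) (nat_lit 0) xc76 xc77) (XT.nd (nat_lit 35178) (nat_lit 0) (nat_lit 152) xc78 xc79)))) (XT.nd (nat_lit 188370)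 (nat_lit 0) (nat_lit 0) (XT.nd (nat_lit 109668) (nat_lit 0) (nat_lit 0) (XT.nd (nat_lit 70512) (nat_lit 0) (nat_lit 0) (XT.nd (nat_lit 35178) (nat_lit 0) (nat_lit 0) xc80 xc81) (XT.nd (nat_lit 3744) (nat_lit 228) (nat_lit 0) xc82 xc83)) (XT.nd (nat_lit 39234) (nat_lit 0) (nat_lit 0) (XT.nd (nat_lit 3744) (nat_lit 0) (nat_lit 0) xc84 xc85) (XT.nd (nat_lit 35646) (nat_lit 0) (nat_lit 0) xc86 xc87))) (XT.nd (nat_lit 111072) (nat_lit 0) (nat_lit 0) (XT.nd (nat_lit 71448) (nat_lit 0) (nat_lit 0) (XT.nd (nat_lit 35646) (nat_lit 0) (nat_lit 0) xc88 xc89) (XT.nd (nat_lit 3744) (nat_lit 0) (nat_lit 0) xc90 xc91)) (XT.nd (nat_lit 71916) (nat_lit 0) (nat_lit 0) (XT.nd (nat_lit 35880) (nat_lit 0) (nat_lit 0) xc92 xc93) (XT.nd (nat_lit 3822) (nat_lit 228) (nat_lit 0) xc94 xc95))))) (XT.nd (nat_lit 489684) (nat_lit 0) (nat_lit 228) (XT.nd (nat_lit 226278) (nat_lit 0) (nat_lit 152) (XT.nd (nat_lit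 112710) (nat_lit 0) (nat_lit 76) (XT.nd (nat_lit 40014) (nat_lit 0) (nat_lit 0) (XT.nd (nat_lit 36192) (nat_lit 0) (nat_lit 76) xc96 xc97) (XT.nd (nat_lit 36270) (nat_lit 0) (nat_lit 76) xc98 xc99)) (XT.nd (nat_lit 73086) (nat_lit 0) (nat_lit 76) (XT.nd (nat_lit 36426) (nat_lit 0) (nat_lit 76) xc100 xc101) (XT.nd (nat_lit 3744) (nat_lit 0) (nat_lit 0) xc102 xc103))) (XT.nd (nat_lit 147732) (nat_lit 0) (nat_lit 0) (XT.nd (nat_lit 73632) (nat_lit 0) (nat_lit 0) (XT.nd (nat_lit 36738) (nat_lit 0) (nat_lit 0) xc104 xc105) (XT.nd (nat_lit 36972) (nat_lit 0) (nat_lit 0) xc106 xc107)) (XT.nd (nat_lit 40950) (nat_lit 0) (nat_lit 0) (XT.nd (nat_lit 37128) (nat_lit 0) (nat_lit 76) xc108 xc109) (XT.nd (nat_lit 37284) (nat_lit 0) (nat_lit 76) xc110 xc111)))) (XT.nd (nat_lit 337350) (nat_lit 0) (nat_lit 228) (XT.nd (nat_lit 184626) (nat_lit 0) (nat_lit 76) (XT.nd (nat_lit 75036) (nat_lit 0) (nat_lit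 0) (XT.nd (nat_lit 37440) (nat_lit 0) (nat_lit 0) xc112 xc113) (XT.nd (nat_lit 37674) (nat_lit 0) (nat_lit 0) xc114 xc115)) (XT.nd (nat_lit 76128) (nat_lit 0) (nat_lit 76) (XT.nd (nat_lit 37986) (nat_lit 0) (nat_lit 0) xc116 xc117) (XT.nd (nat_lit 38220) (nat_lit 0) (nat_lit 76) xc118 xc119))) (XT.nd (nat_lit 260910) (nat_lit 0) (nat_lit 532) (XT.nd (nat_lit 112008) (nat_lit 0) (nat_lit 304) (XT.nd (nat_lit 73242) (nat_lit 0) (nat_lit 76) xc120 xc121) (XT.nd (nat_lit 74178) (nat_lit 0) (nat_lit 76) xc122 xc123)) (XT.nd (nat_lit 150852) (nat_lit 0) (nat_lit 304) (XT.nd (nat_lit 75114) (nat_lit 0) (nat_lit 152) xc124 xc125) (XT.nd (nat_lit 112632) (nat_lit 0) (nat_lit 608) xc126 xc127))))))) XT.nil))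

set_option maxRecDepth 10000000 in
noncomputable def Te : XT := XT.nil

set_option maxRecDepth 10000000 in
noncomputable def Tz : ZL := (ZL.cons (nat_lit 76) (nat_lit 6) (nat_lit 173001672969307358530) (ZL.cons (nat_lit 152) (nat_lit 6) (nat_lit 167687980965519299798) (ZL.cons (nat_lit 228) (nat_lit 3) (nat_lit 83607989671506167304) (ZL.cons (nat_lit 304) (nat_lit 6) (nat_lit 161949193601428196370) (ZL.cons (nat_lit 380) (nat_lit 6) (nat_lit 157170105162382593364) (ZL.cons (nat_lit 456) (nat_lit 3) (nat_lit 78366533311512146131) (ZL.cons (nat_lit 532) (nat_lit 6) (nat_lit 152008689648213342118) (ZL.cons (nat_lit 608) (nat_lit 6) (nat_lit 147748066368996466234) (ZL.cons (nat_lit 684) (nat_lit 3) (nat_lit 73671700527387908532) (ZL.cons (nat_lit 760) (nat_lit 6) (nat_lit 143925948647422749786) (ZL.cons (nat_lit 836) (nat_lit 6) (nat_lit 143146593227442240276) (ZL.cons (nat_lit 912) (nat_lit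 6) (nat_lit 139393396193902486856) (ZL.cons (nat_lit 988) (nat_lit 3) (nat_lit 69509353044071313258) (ZL.cons (nat_lit 1064) (nat_lit 6) (nat_lit 136061568786550395298) (ZL.cons (nat_lit 1140) (nat_lit 6) (nat_lit 135339943397679553162) (ZL.cons (nat_lit 1216) (nat_lit 6) (nat_lit 132088505080850276076) (ZL.cons (nat_lit 1292) (nat_lit 3) (nat_lit 65870784898869647140) (ZL.cons (nat_lit 1368) (nat_lit 6) (nat_lit 129245123355036547696) (ZL.cons (nat_lit 1444) (nat_lit 6) (nat_lit 128576951698674656826) (ZL.cons (nat_lit 1520) (nat_lit 6) (nat_lit 126792948550752064442) (ZL.cons (nat_lit 1596) (nat_lit 6) (nat_lit 125827335808046739248) (ZL.cons (nat_lit 1672) (nat_lit 3) (nat_lit 62753049717397915087) (ZL.cons (nat_lit 1748) (nat_lit 6) (nat_lit 124717449261749214560) (ZL.cons (nat_lit 1824) (nat_lit 6) (nat_lit 123476428105762931658) (ZL.cons (nat_lit 1900) (nat_lit 6) (nat_lit 122857750646168588260)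 (ZL.cons (nat_lit 1976) (nat_lit 6) (nat_lit 121510297286920811494) (ZL.cons (nat_lit 2052) (nat_lit 6) (nat_lit 120616211414045510388) (ZL.cons (nat_lit 2128) (nat_lit 3) (nat_lit 60159385163851038032) (ZL.cons (nat_lit 2204) (nat_lit 6) (nat_lit 119917292205927240270) (ZL.cons (nat_lit 2280) (nat_lit 6) (nat_lit 118768198542976978320) (ZL.cons (nat_lit 2356) (nat_lit 6) (nat_lit 118195349043352586288) (ZL.cons (nat_lit 2432) (nat_lit 3) (nat_lit 58559904887605864442) (ZL.cons (nat_lit 2508) (nat_lit 6) (nat_lit 117293363792249457920) (ZL.cons (nat_lit 2584) (nat_lit 6) (nat_lit 117815054311611757506) (ZL.cons (nat_lit 2660) (nat_lit 6) (nat_lit 118687972832672626450) (ZL.cons (nat_lit 2736) (nat_lit 6) (nat_lit 117302760845578882240) (ZL.cons (nat_lit 2812) (nat_lit 6) (nat_lit 116474903555879529364) (ZL.cons (nat_lit 2888) (nat_lit 3) (nat_lit 58099747571299285828) (ZL.cons (nat_lit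 2964) (nat_lit 6) (nat_lit 115126097966333798438) (ZL.cons (nat_lit 3040) (nat_lit 6) (nat_lit 115487090321772274838) (ZL.cons (nat_lit 3116) (nat_lit 6) (nat_lit 116211214246607381574) (ZL.cons (nat_lit 3192) (nat_lit 6) (nat_lit 115147238632764546438) (ZL.cons (nat_lit 3268) (nat_lit 6) (nat_lit 114616822429408627886) (ZL.cons (nat_lit 3344) (nat_lit 3) (nat_lit 56726811265353388533) (ZL.cons (nat_lit 3420) (nat_lit 6) (nat_lit 113641060869107524430) (ZL.cons (nat_lit 3496) (nat_lit 6) (nat_lit 114204486630018807980) (ZL.cons (nat_lit 3572) (nat_lit 6) (nat_lit 113437952102519407168) (ZL.cons (nat_lit 3648) (nat_lit 3) (nat_lit 56591472156222223162) (ZL.cons (nat_lit 3724) (nat_lit 6) (nat_lit 112266026519823937382) (ZL.cons (nat_lit 3800) (nat_lit 6) (nat_lit 112655898263697491896) (ZL.cons (nat_lit 3876) (nat_lit 6) (nat_lit 112164772149479048792) (ZL.cons (nat_lit 3952) (nat_lit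 3) (nat_lit 55676919461111027703) (ZL.cons (nat_lit 4028) (nat_lit 6) (nat_lit 111556272327694862556) (ZL.cons (nat_lit 4104) (nat_lit 3) (nat_lit 55660077001775690148) (ZL.cons (nat_lit 4180) (nat_lit 6) (nat_lit 110899092520167941424) (ZL.cons (nat_lit 4256) (nat_lit 1) (nat_lit 18446744073709551617) ZL.nil))))))))))))))))))))))))))))))))))))))))))))))))))))))))

noncomputable def vl : XL := ⟨(nat_lit 0), (nat_lit 76), (nat_lit 230483948), (nat_lit 228), (nat_lit 233793603), (nat_lit 76), (nat_lit 230483948), (nat_lit 1), (nat_lit 5), (nat_lit 3), (nat_lit 4), (nat_lit 1), (nat_lit 4), (nat_lit 0), (nat_lit 0), (nat_lit 0)⟩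

noncomputable def cp0 : Nat := (nat_lit 289819818442084594499863762668279909673110209313800171801752928927927808760785774804167631604136138607936164496782458369491234382980714325663266979830149077116703099969595887864598008316958248300282454500943827922644964179875322560605385973729309884380167640456046477182952083360868800789857859306675866808337768217890697376530519848868404387428469170476882943069162940395337421955377869904043000327111829031799150639479786188403220206930886117296829015649604787214380990269510383928518203054974631580109678442072055979195889222005938635909359158418872802900025546672463445865324333372191933275630349594438291542916168389008327182280972369818539045558357319160475975514065850177192257347584424744418567284611829342763122471232934547453747280326962255178637774166103698726412258923369822378357597616275655602939038921084648727091690519392052925926410777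9135708373624535194653608319285504965506668982247309240153334350661601795494692915592419807560153489925334304376514183072500326526594093978020014662311018410860054626821634232010122870450666142975233613692418846325080575607389367624500846563309126947808669702258598948940375667658478254982791450573347157872330204278835566054842925500799179170742913452540178636178889116477958006083494948273301536744110793209189751060411298959131655894838796091392)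

noncomputable def cp1 : Nat := (nat_lit 357130141946616507649452221230589085055438791051239622029782569255563959314339160529563436685549496255805112262803727856542848442524661462731729852308896749328743628283783580982460475146077662981071119828702110837170530938655292659501736398397797932030066771922593981311722791945170028173731357015649893872643621482606826372091134362625646053564297671804315562822255885617112675606310231575373413925860112151166853511350326702578627728493854382525175036315058141361385424979898216831064818228088740481459954012448167924192827833282959873406224187465884296191250522071017230683173383389910931119332457644019595749064183318435907087481715766849683944162922699056245229792601062116955128743689447155222910837345798132183427109538790359246477181366994594851393113665632248570242688904314347795720264161744826101345926696234447480596603899080738339494498659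4598087604445355660092016336433062215965738052181463747915593948354266369807969345609761746692879717427082305750495125189010487854075962753755754225495185809513904710303832830508993423990705507556254791522504368590881549111360698293248378804696159570385346455170369507472068399353853622120950623711540524752290907718040654236505277967320249753326501944675288777187727410732822177759276663749926640650520474444977623432629023891997324229442361360384)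

noncomputable def rc0 : Nat := (nat_lit 357130141946616507649452221230589085055438791051239622029782569255563959314339160529563436685549496255805112262803727856542848442524661462731729852308896749328743628283783580982460475146077662981071119828702110837170530938655292659501736398397797932030066771922593981311722791945170028173731357015649893872643621482606826372091134362625646053564297671804315562822255885617112675606310231575373413925860112151166853511350326702578627728493854382525175036315058141361385424979898216831064818228088740481459954012448167924192827833282959873406224187465884296191250522071017230683173383389910931119332457644019595749064183318435907087481715766849683944162922699056245229792601062116955128743689447155222910837345798132183427109538790359246477181366994594851393113665632248570242688904314347795720264161744826101345926696234447480596603899080738339494498659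4598087604445355660092016336433062215965738052181463747915593948354266369807969345609761746692879717427082305750495125189010487854075962753755754225495185809513904710303832830508993423990705507556254791522504368590881549111360698293248378804696159570385346455170369507472068399353853622120950623711540524752290907718040654236505277967320249753326501944675288777187727410732822177759276663749926640650520474444977623432629023891997324229442361360384)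

end Vale.Agent.Lib.P154.PChain.BU.S2
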