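import Vale.Agent.Lib.P154.PChain.BU.R2_0

set_option linter.all false

namespace Vale.Agent.Lib.P154.PChain.BU.S3

open Vale.Agent.Lib.P154.Chain

noncomputable def pc0 : PT := (PT.nd (nat_lit 3949452) (PT.nd (nat_lit 3836976) (PT.nd (nat_lit 3762018) (PT.nd (nat_lit 3761862) (PT.nd (nat_lit 3724500) (PT.nd (nat_lit 3724422) PT.nil (PT.lf (nat_lit 76) (nat_lit 6) (nat_lit 1) (nat_lit 3) (nat_lit 130) (nat_lit 99) (nat_lit 131))) (PT.lf (nat_lit 76) (nat_lit 6) (nat_lit 1) (nat_lit 1) (nat_lit 131) (nat_lit 99) (nat_lit 130))) (PT.nd (nat_lit 78) (PT.lf (nat_lit 152) (nat_lit 6) (nat_lit 2) (nat_lit 3) (nat_lit 129) (nat_lit 100) (nat_lit 131)) (PT.lf (nat_lit 228) (nat_lit 3) (nat_lit 3) (nat_lit 1) (nat_lit 130) (nat_lit 100) (nat_lit 130)))) (PT.nd (nat_lit 37440) (PT.nd (nat_lit 37362) (PT.lf (nat_lit 152) (nat_lit 6) (nat_lit 2) (nat_lit 1) (nat_lit 131) (nat_lit 100) (nat_lit 129))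 (PT.lf (nat_lit 304) (nat_lit 6) (nat_lit 4) (nat_lit 3) (nat_lit 129) (nat_lit 101) (nat_lit 130))) (PT.nd (nat_lit 37362) (PT.lf (nat_lit 304) (nat_lit 6) (nat_lit 4) (nat_lit 1) (nat_lit 130) (nat_lit 101) (nat_lit 129)) (PT.nd (nat_lit 78) (PT.lf (nat_lit 380) (nat_lit 6) (nat_lit 5) (nat_lit 3) (nat_lit 128) (nat_lit 102) (nat_lit 130)) (PT.lf (nat_lit 456) (nat_lit 3) (nat_lit 6) (nat_lit 1) (nat_lit 129) (nat_lit 102) (nat_lit 129)))))) (PT.nd (nat_lit 74880) (PT.nd (nat_lit 37440) (PT.nd (nat_lit 37362) (PT.lf (nat_lit 380) (nat_lit 6) (nat_lit 5) (nat_lit 1) (nat_lit 130) (nat_lit 102) (nat_lit 128)) (PT.lf (nat_lit 532) (nat_lit 6) (nat_lit 7) (nat_lit 3) (nat_lit 128) (nat_lit 103) (nat_lit 129))) (PT.nd (nat_lit 37362) (PT.lf (nat_lit 532) (nat_lit 6) (nat_lit 7) (nat_lit 1) (nat_lit 129) (nat_lit 103) (nat_lit 128)) (PT.lf (nat_lit 608) (nat_lit 6) (nat_lit 8) (nat_lit 3)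 (nat_lit 127) (nat_lit 104) (nat_lit 129)))) (PT.nd (nat_lit 37362) (PT.nd (nat_lit 78) (PT.lf (nat_lit 684) (nat_lit 3) (nat_lit 9) (nat_lit 1) (nat_lit 128) (nat_lit 104) (nat_lit 128)) (PT.lf (nat_lit 608) (nat_lit 6) (nat_lit 8) (nat_lit 1) (nat_lit 129) (nat_lit 104) (nat_lit 127))) (PT.nd (nat_lit 78) (PT.lf (nat_lit 760) (nat_lit 6) (nat_lit 10) (nat_lit 3) (nat_lit 126) (nat_lit 105) (nat_lit 129)) (PT.nd (nat_lit 78) (PT.lf (nat_lit 836) (nat_lit 6) (nat_lit 11) (nat_lit 3) (nat_lit 127) (nat_lit 105) (nat_lit 128)) (PT.lf (nat_lit 836) (nat_lit 6) (nat_lit 11) (nat_lit 1) (nat_lit 128) (nat_lit 105) (nat_lit 127))))))) (PT.nd (nat_lit 112320) (PT.nd (nat_lit 74724) (PT.nd (nat_lit 37362) (PT.nd (nat_lit 37284) (PT.lf (nat_lit 760) (nat_lit 6) (nat_lit 10) (nat_lit 1) (nat_lit 129) (nat_lit 105) (nat_lit 126)) (PT.lf (nat_lit 912) (nat_lit 6) (nat_lit 12) (nat_lit 3) (nat_lit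 126) (nat_lit 106) (nat_lit 128))) (PT.nd (nat_lit 78) (PT.lf (nat_lit 988) (nat_lit 3) (nat_lit 13) (nat_lit 1) (nat_lit 127) (nat_lit 106) (nat_lit 127)) (PT.lf (nat_lit 912) (nat_lit 6) (nat_lit 12) (nat_lit 1) (nat_lit 128) (nat_lit 106) (nat_lit 126)))) (PT.nd (nat_lit 156) (PT.nd (nat_lit 78) (PT.lf (nat_lit 1064) (nat_lit 6) (nat_lit 14) (nat_lit 3) (nat_lit 125) (nat_lit 107) (nat_lit 128)) (PT.lf (nat_lit 1140) (nat_lit 6) (nat_lit 15) (nat_lit 3) (nat_lit 126) (nat_lit 107) (nat_lit 127))) (PT.nd (nat_lit 78) (PT.lf (nat_lit 1140) (nat_lit 6) (nat_lit 15) (nat_lit 1) (nat_lit 127) (nat_lit 107) (nat_lit 126)) (PT.nd (nat_lit 37284) (PT.lf (nat_lit 1064) (nat_lit 6) (nat_lit 14) (nat_lit 1) (nat_lit 128) (nat_lit 107) (nat_lit 125)) (PT.lf (nat_lit 1216) (nat_lit 6) (nat_lit 16) (nat_lit 3) (nat_lit 125) (nat_lit 108) (nat_lit 127)))))) (PT.nd (nat_lit 37518) (PT.nd (nat_lit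 37362) (PT.nd (nat_lit 78) (PT.lf (nat_lit 1292) (nat_lit 3) (nat_lit 17) (nat_lit 1) (nat_lit 126) (nat_lit 108) (nat_lit 126)) (PT.lf (nat_lit 1216) (nat_lit 6) (nat_lit 16) (nat_lit 1) (nat_lit 127) (nat_lit 108) (nat_lit 125))) (PT.nd (nat_lit 78) (PT.lf (nat_lit 1368) (nat_lit 6) (nat_lit 18) (nat_lit 3) (nat_lit 124) (nat_lit 109) (nat_lit 127)) (PT.lf (nat_lit 1444) (nat_lit 6) (nat_lit 19) (nat_lit 3) (nat_lit 125) (nat_lit 109) (nat_lit 126)))) (PT.nd (nat_lit 37284) (PT.nd (nat_lit 78) (PT.lf (nat_lit 1444) (nat_lit 6) (nat_lit 19) (nat_lit 1) (nat_lit 126) (nat_lit 109) (nat_lit 125)) (PT.lf (nat_lit 1368) (nat_lit 6) (nat_lit 18) (nat_lit 1) (nat_lit 127) (nat_lit 109) (nat_lit 124))) (PT.nd (nat_lit 78) (PT.lf (nat_lit 1520) (nat_lit 6) (nat_lit 20) (nat_lit 3) (nat_lit 123) (nat_lit 110) (nat_lit 127)) (PT.nd (nat_lit 78) (PT.lf (nat_lit 1596) (nat_lit 6) (nat_lit 21) (nat_lit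 3) (nat_lit 124) (nat_lit 110) (nat_lit 126)) (PT.lf (nat_lit 1672) (nat_lit 3) (nat_lit 22) (nat_lit 1) (nat_lit 125) (nat_lit 110) (nat_lit 125))))))))
noncomputable def pc1 : PT := (PT.nd (nat_lit 112554) (PT.nd (nat_lit 74802) (PT.nd (nat_lit 37362) (PT.nd (nat_lit 37206) (PT.nd (nat_lit 78) (PT.lf (nat_lit 1596) (nat_lit 6) (nat_lit 21) (nat_lit 1) (nat_lit 126) (nat_lit 110) (nat_lit 124)) (PT.lf (nat_lit 1520) (nat_lit 6) (nat_lit 20) (nat_lit 1) (nat_lit 127) (nat_lit 110) (nat_lit 123))) (PT.nd (nat_lit 78) (PT.lf (nat_lit 1748) (nat_lit 6) (nat_lit 23) (nat_lit 3) (nat_lit 122) (nat_lit 111) (nat_lit 127)) (PT.lf (nat_lit 1824) (nat_lit 6) (nat_lit 24) (nat_lit 3) (nat_lit 123) (nat_lit 111) (nat_lit 126)))) (PT.nd (nat_lit 156) (PT.nd (nat_lit 78) (PT.lf (nat_lit 1900) (nat_lit 6) (nat_lit 25) (nat_lit 3) (nat_lit 124) (nat_lit 111) (nat_lit 125)) (PT.lf (nat_lit 1900) (nat_lit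 6) (nat_lit 25) (nat_lit 1) (nat_lit 125) (nat_lit 111) (nat_lit 124))) (PT.nd (nat_lit 78) (PT.lf (nat_lit 1824) (nat_lit 6) (nat_lit 24) (nat_lit 1) (nat_lit 126) (nat_lit 111) (nat_lit 123)) (PT.nd (nat_lit 37128) (PT.lf (nat_lit 1748) (nat_lit 6) (nat_lit 23) (nat_lit 1) (nat_lit 127) (nat_lit 111) (nat_lit 122)) (PT.lf (nat_lit 1976) (nat_lit 6) (nat_lit 26) (nat_lit 3) (nat_lit 122) (nat_lit 112) (nat_lit 126)))))) (PT.nd (nat_lit 37362) (PT.nd (nat_lit 156) (PT.nd (nat_lit 78) (PT.lf (nat_lit 2052) (nat_lit 6) (nat_lit 27) (nat_lit 3) (nat_lit 123) (nat_lit 112) (nat_lit 125)) (PT.lf (nat_lit 2128) (nat_lit 3) (nat_lit 28) (nat_lit 1) (nat_lit 124) (nat_lit 112) (nat_lit 124))) (PT.nd (nat_lit 78) (PT.lf (nat_lit 2052) (nat_lit 6) (nat_lit 27) (nat_lit 1) (nat_lit 125) (nat_lit 112) (nat_lit 123)) (PT.lf (nat_lit 1976) (nat_lit 6) (nat_lit 26) (nat_lit 1) (nat_lit 126) (nat_lit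 112) (nat_lit 122)))) (PT.nd (nat_lit 156) (PT.nd (nat_lit 78) (PT.lf (nat_lit 2204) (nat_lit 6) (nat_lit 29) (nat_lit 3) (nat_lit 121) (nat_lit 113) (nat_lit 126)) (PT.lf (nat_lit 2280) (nat_lit 6) (nat_lit 30) (nat_lit 3) (nat_lit 122) (nat_lit 113) (nat_lit 125))) (PT.nd (nat_lit 78) (PT.lf (nat_lit 2356) (nat_lit 6) (nat_lit 31) (nat_lit 3) (nat_lit 123) (nat_lit 113) (nat_lit 124)) (PT.nd (nat_lit 78) (PT.lf (nat_lit 2356) (nat_lit 6) (nat_lit 31) (nat_lit 1) (nat_lit 124) (nat_lit 113) (nat_lit 123)) (PT.lf (nat_lit 2280) (nat_lit 6) (nat_lit 30) (nat_lit 1) (nat_lit 125) (nat_lit 113) (nat_lit 122))))))) (PT.nd (nat_lit 74568) (PT.nd (nat_lit 37284) (PT.nd (nat_lit 37128) (PT.nd (nat_lit 37050) (PT.lf (nat_lit 2204) (nat_lit 6) (nat_lit 29) (nat_lit 1) (nat_lit 126) (nat_lit 113) (nat_lit 121)) (PT.lf (nat_lit 2660) (nat_lit 6) (nat_lit 35) (nat_lit 3) (nat_lit 120) (nat_lit 114)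 (nat_lit 126))) (PT.nd (nat_lit 78) (PT.lf (nat_lit 2736) (nat_lit 6) (nat_lit 36) (nat_lit 3) (nat_lit 121) (nat_lit 114) (nat_lit 125)) (PT.lf (nat_lit 2812) (nat_lit 6) (nat_lit 37) (nat_lit 3) (nat_lit 122) (nat_lit 114) (nat_lit 124)))) (PT.nd (nat_lit 156) (PT.nd (nat_lit 78) (PT.lf (nat_lit 2888) (nat_lit 3) (nat_lit 38) (nat_lit 1) (nat_lit 123) (nat_lit 114) (nat_lit 123)) (PT.lf (nat_lit 2812) (nat_lit 6) (nat_lit 37) (nat_lit 1) (nat_lit 124) (nat_lit 114) (nat_lit 122))) (PT.nd (nat_lit 78) (PT.lf (nat_lit 2736) (nat_lit 6) (nat_lit 36) (nat_lit 1) (nat_lit 125) (nat_lit 114) (nat_lit 121)) (PT.nd (nat_lit 36972) (PT.lf (nat_lit 2660) (nat_lit 6) (nat_lit 35) (nat_lit 1) (nat_lit 126) (nat_lit 114) (nat_lit 120)) (PT.lf (nat_lit 2584) (nat_lit 6) (nat_lit 34) (nat_lit 3) (nat_lit 119) (nat_lit 115) (nat_lit 126)))))) (PT.nd (nat_lit 390) (PT.nd (nat_lit 156) (PT.nd (nat_lit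 78) (PT.lf (nat_lit 3116) (nat_lit 6) (nat_lit 41) (nat_lit 3) (nat_lit 120) (nat_lit 115) (nat_lit 125)) (PT.lf (nat_lit 3192) (nat_lit 6) (nat_lit 42) (nat_lit 3) (nat_lit 121) (nat_lit 115) (nat_lit 124))) (PT.nd (nat_lit 78) (PT.lf (nat_lit 3268) (nat_lit 6) (nat_lit 43) (nat_lit 3) (nat_lit 122) (nat_lit 115) (nat_lit 123)) (PT.nd (nat_lit 78) (PT.lf (nat_lit 3268) (nat_lit 6) (nat_lit 43) (nat_lit 1) (nat_lit 123) (nat_lit 115) (nat_lit 122)) (PT.lf (nat_lit 3192) (nat_lit 6) (nat_lit 42) (nat_lit 1) (nat_lit 124) (nat_lit 115) (nat_lit 121))))) (PT.nd (nat_lit 36972) (PT.nd (nat_lit 78) (PT.lf (nat_lit 3116) (nat_lit 6) (nat_lit 41) (nat_lit 1) (nat_lit 125) (nat_lit 115) (nat_lit 120)) (PT.lf (nat_lit 2584) (nat_lit 6) (nat_lit 34) (nat_lit 1) (nat_lit 126) (nat_lit 115) (nat_lit 119))) (PT.nd (nat_lit 78) (PT.lf (nat_lit 2508) (nat_lit 6) (nat_lit 33) (nat_lit 3) (nat_lit 118)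 (nat_lit 116) (nat_lit 126)) (PT.nd (nat_lit 78) (PT.lf (nat_lit 3040) (nat_lit 6) (nat_lit 40) (nat_lit 3) (nat_lit 119) (nat_lit 116) (nat_lit 125)) (PT.lf (nat_lit 3496) (nat_lit 6) (nat_lit 46) (nat_lit 3) (nat_lit 120) (nat_lit 116) (nat_lit 124))))))))
noncomputable def pc2 : PT := (PT.nd (nat_lit 74802) (PT.nd (nat_lit 37440) (PT.nd (nat_lit 312) (PT.nd (nat_lit 156) (PT.nd (nat_lit 78) (PT.lf (nat_lit 3572) (nat_lit 6) (nat_lit 47) (nat_lit 3) (nat_lit 121) (nat_lit 116) (nat_lit 123)) (PT.lf (nat_lit 3648) (nat_lit 3) (nat_lit 48) (nat_lit 1) (nat_lit 122) (nat_lit 116) (nat_lit 122))) (PT.nd (nat_lit 78) (PT.lf (nat_lit 3572) (nat_lit 6) (nat_lit 47) (nat_lit 1) (nat_lit 123) (nat_lit 116) (nat_lit 121)) (PT.lf (nat_lit 3496) (nat_lit 6) (nat_lit 46) (nat_lit 1) (nat_lit 124) (nat_lit 116) (nat_lit 120)))) (PT.nd (nat_lit 36894) (PT.nd (nat_lit 78) (PT.lf (nat_lit 3040) (nat_lit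 6) (nat_lit 40) (nat_lit 1) (nat_lit 125) (nat_lit 116) (nat_lit 119)) (PT.lf (nat_lit 2508) (nat_lit 6) (nat_lit 33) (nat_lit 1) (nat_lit 126) (nat_lit 116) (nat_lit 118))) (PT.nd (nat_lit 78) (PT.lf (nat_lit 2432) (nat_lit 3) (nat_lit 32) (nat_lit 3) (nat_lit 117) (nat_lit 117) (nat_lit 126)) (PT.nd (nat_lit 78) (PT.lf (nat_lit 2964) (nat_lit 6) (nat_lit 39) (nat_lit 3) (nat_lit 118) (nat_lit 117) (nat_lit 125)) (PT.lf (nat_lit 3420) (nat_lit 6) (nat_lit 45) (nat_lit 3) (nat_lit 119) (nat_lit 117) (nat_lit 124)))))) (PT.nd (nat_lit 312) (PT.nd (nat_lit 156) (PT.nd (nat_lit 78) (PT.lf (nat_lit 3800) (nat_lit 6) (nat_lit 50) (nat_lit 3) (nat_lit 120) (nat_lit 117) (nat_lit 123)) (PT.lf (nat_lit 3876) (nat_lit 6) (nat_lit 51) (nat_lit 3) (nat_lit 121) (nat_lit 117) (nat_lit 122))) (PT.nd (nat_lit 78) (PT.lf (nat_lit 3876) (nat_lit 6) (nat_lit 51) (nat_lit 1) (nat_lit 122) (nat_lit 117)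 (nat_lit 121)) (PT.lf (nat_lit 3800) (nat_lit 6) (nat_lit 50) (nat_lit 1) (nat_lit 123) (nat_lit 117) (nat_lit 120)))) (PT.nd (nat_lit 156) (PT.nd (nat_lit 78) (PT.lf (nat_lit 3420) (nat_lit 6) (nat_lit 45) (nat_lit 1) (nat_lit 124) (nat_lit 117) (nat_lit 119)) (PT.lf (nat_lit 2964) (nat_lit 6) (nat_lit 39) (nat_lit 1) (nat_lit 125) (nat_lit 117) (nat_lit 118))) (PT.nd (nat_lit 36738) (PT.lf (nat_lit 2432) (nat_lit 3) (nat_lit 32) (nat_lit 0) (nat_lit 126) (nat_lit 117) (nat_lit 117)) (PT.nd (nat_lit 78) (PT.lf (nat_lit 2508) (nat_lit 6) (nat_lit 33) (nat_lit 5) (nat_lit 116) (nat_lit 118) (nat_lit 126)) (PT.lf (nat_lit 2964) (nat_lit 6) (nat_lit 39) (nat_lit 5) (nat_lit 117) (nat_lit 118) (nat_lit 125))))))) (PT.nd (nat_lit 37284) (PT.nd (nat_lit 312) (PT.nd (nat_lit 156) (PT.nd (nat_lit 78) (PT.lf (nat_lit 3344) (nat_lit 3) (nat_lit 44) (nat_lit 3) (nat_lit 118) (nat_lit 118) (nat_lit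 124)) (PT.lf (nat_lit 3724) (nat_lit 6) (nat_lit 49) (nat_lit 3) (nat_lit 119) (nat_lit 118) (nat_lit 123))) (PT.nd (nat_lit 78) (PT.lf (nat_lit 4028) (nat_lit 6) (nat_lit 53) (nat_lit 3) (nat_lit 120) (nat_lit 118) (nat_lit 122)) (PT.lf (nat_lit 4104) (nat_lit 3) (nat_lit 54) (nat_lit 1) (nat_lit 121) (nat_lit 118) (nat_lit 121)))) (PT.nd (nat_lit 156) (PT.nd (nat_lit 78) (PT.lf (nat_lit 4028) (nat_lit 6) (nat_lit 53) (nat_lit 1) (nat_lit 122) (nat_lit 118) (nat_lit 120)) (PT.lf (nat_lit 3724) (nat_lit 6) (nat_lit 49) (nat_lit 1) (nat_lit 123) (nat_lit 118) (nat_lit 119))) (PT.nd (nat_lit 78) (PT.lf (nat_lit 3344) (nat_lit 3) (nat_lit 44) (nat_lit 0) (nat_lit 124) (nat_lit 118) (nat_lit 118)) (PT.nd (nat_lit 78) (PT.lf (nat_lit 2964) (nat_lit 6) (nat_lit 39) (nat_lit 0) (nat_lit 125) (nat_lit 118) (nat_lit 117)) (PT.lf (nat_lit 2508) (nat_lit 6) (nat_lit 33) (nat_lit 0) (nat_lit 126)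 (nat_lit 118) (nat_lit 116)))))) (PT.nd (nat_lit 312) (PT.nd (nat_lit 156) (PT.nd (nat_lit 78) (PT.lf (nat_lit 2584) (nat_lit 6) (nat_lit 34) (nat_lit 5) (nat_lit 115) (nat_lit 119) (nat_lit 126)) (PT.lf (nat_lit 3040) (nat_lit 6) (nat_lit 40) (nat_lit 5) (nat_lit 116) (nat_lit 119) (nat_lit 125))) (PT.nd (nat_lit 78) (PT.lf (nat_lit 3420) (nat_lit 6) (nat_lit 45) (nat_lit 5) (nat_lit 117) (nat_lit 119) (nat_lit 124)) (PT.lf (nat_lit 3724) (nat_lit 6) (nat_lit 49) (nat_lit 5) (nat_lit 118) (nat_lit 119) (nat_lit 123)))) (PT.nd (nat_lit 156) (PT.nd (nat_lit 78) (PT.lf (nat_lit 3952) (nat_lit 3) (nat_lit 52) (nat_lit 3) (nat_lit 119) (nat_lit 119) (nat_lit 122)) (PT.lf (nat_lit 4180) (nat_lit 6) (nat_lit 55) (nat_lit 3) (nat_lit 120) (nat_lit 119) (nat_lit 121))) (PT.nd (nat_lit 78) (PT.lf (nat_lit 4180) (nat_lit 6) (nat_lit 55) (nat_lit 1) (nat_lit 121) (nat_lit 119) (nat_lit 120)) (PT.nd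 (nat_lit 78) (PT.lf (nat_lit 3952) (nat_lit 3) (nat_lit 52) (nat_lit 0) (nat_lit 122) (nat_lit 119) (nat_lit 119)) (PT.lf (nat_lit 3724) (nat_lit 6) (nat_lit 49) (nat_lit 0) (nat_lit 123) (nat_lit 119) (nat_lit 118))))))))
noncomputable def pc3 : PT := (PT.nd (nat_lit 74334) (PT.nd (nat_lit 37206) (PT.nd (nat_lit 36816) (PT.nd (nat_lit 156) (PT.nd (nat_lit 78) (PT.lf (nat_lit 3420) (nat_lit 6) (nat_lit 45) (nat_lit 0) (nat_lit 124) (nat_lit 119) (nat_lit 117)) (PT.lf (nat_lit 3040) (nat_lit 6) (nat_lit 40) (nat_lit 0) (nat_lit 125) (nat_lit 119) (nat_lit 116))) (PT.nd (nat_lit 36582) (PT.lf (nat_lit 2584) (nat_lit 6) (nat_lit 34) (nat_lit 0) (nat_lit 126) (nat_lit 119) (nat_lit 115)) (PT.lf (nat_lit 2660) (nat_lit 6) (nat_lit 35) (nat_lit 5) (nat_lit 114) (nat_lit 120) (nat_lit 126)))) (PT.nd (nat_lit 156) (PT.nd (nat_lit 78) (PT.lf (nat_lit 3116) (nat_lit 6) (nat_lit 41) (nat_lit 5)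 (nat_lit 115) (nat_lit 120) (nat_lit 125)) (PT.lf (nat_lit 3496) (nat_lit 6) (nat_lit 46) (nat_lit 5) (nat_lit 116) (nat_lit 120) (nat_lit 124))) (PT.nd (nat_lit 78) (PT.lf (nat_lit 3800) (nat_lit 6) (nat_lit 50) (nat_lit 5) (nat_lit 117) (nat_lit 120) (nat_lit 123)) (PT.nd (nat_lit 78) (PT.lf (nat_lit 4028) (nat_lit 6) (nat_lit 53) (nat_lit 5) (nat_lit 118) (nat_lit 120) (nat_lit 122)) (PT.lf (nat_lit 4180) (nat_lit 6) (nat_lit 55) (nat_lit 5) (nat_lit 119) (nat_lit 120) (nat_lit 121)))))) (PT.nd (nat_lit 312) (PT.nd (nat_lit 156) (PT.nd (nat_lit 78) (PT.lf (nat_lit 4256) (nat_lit 1) (nat_lit 56) (nat_lit 0) (nat_lit 120) (nat_lit 120) (nat_lit 120)) (PT.lf (nat_lit 4180) (nat_lit 6) (nat_lit 55) (nat_lit 0) (nat_lit 121) (nat_lit 120) (nat_lit 119))) (PT.nd (nat_lit 78) (PT.lf (nat_lit 4028) (nat_lit 6) (nat_lit 53) (nat_lit 0) (nat_lit 122) (nat_lit 120) (nat_lit 118)) (PT.lf (nat_lit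 3800) (nat_lit 6) (nat_lit 50) (nat_lit 0) (nat_lit 123) (nat_lit 120) (nat_lit 117)))) (PT.nd (nat_lit 156) (PT.nd (nat_lit 78) (PT.lf (nat_lit 3496) (nat_lit 6) (nat_lit 46) (nat_lit 0) (nat_lit 124) (nat_lit 120) (nat_lit 116)) (PT.lf (nat_lit 3116) (nat_lit 6) (nat_lit 41) (nat_lit 0) (nat_lit 125) (nat_lit 120) (nat_lit 115))) (PT.nd (nat_lit 36504) (PT.lf (nat_lit 2660) (nat_lit 6) (nat_lit 35) (nat_lit 0) (nat_lit 126) (nat_lit 120) (nat_lit 114)) (PT.nd (nat_lit 78) (PT.lf (nat_lit 2204) (nat_lit 6) (nat_lit 29) (nat_lit 5) (nat_lit 113) (nat_lit 121) (nat_lit 126)) (PT.lf (nat_lit 2736) (nat_lit 6) (nat_lit 36) (nat_lit 5) (nat_lit 114) (nat_lit 121) (nat_lit 125))))))) (PT.nd (nat_lit 702) (PT.nd (nat_lit 312) (PT.nd (nat_lit 156) (PT.nd (nat_lit 78) (PT.lf (nat_lit 3192) (nat_lit 6) (nat_lit 42) (nat_lit 5) (nat_lit 115) (nat_lit 121) (nat_lit 124)) (PT.lf (nat_lit 3572) (nat_lit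 6) (nat_lit 47) (nat_lit 5) (nat_lit 116) (nat_lit 121) (nat_lit 123))) (PT.nd (nat_lit 78) (PT.lf (nat_lit 3876) (nat_lit 6) (nat_lit 51) (nat_lit 5) (nat_lit 117) (nat_lit 121) (nat_lit 122)) (PT.lf (nat_lit 4104) (nat_lit 3) (nat_lit 54) (nat_lit 4) (nat_lit 118) (nat_lit 121) (nat_lit 121)))) (PT.nd (nat_lit 156) (PT.nd (nat_lit 78) (PT.lf (nat_lit 4180) (nat_lit 6) (nat_lit 55) (nat_lit 4) (nat_lit 119) (nat_lit 121) (nat_lit 120)) (PT.lf (nat_lit 4180) (nat_lit 6) (nat_lit 55) (nat_lit 2) (nat_lit 120) (nat_lit 121) (nat_lit 119))) (PT.nd (nat_lit 78) (PT.lf (nat_lit 4104) (nat_lit 3) (nat_lit 54) (nat_lit 0) (nat_lit 121) (nat_lit 121) (nat_lit 118)) (PT.nd (nat_lit 78) (PT.lf (nat_lit 3876) (nat_lit 6) (nat_lit 51) (nat_lit 0) (nat_lit 122) (nat_lit 121) (nat_lit 117)) (PT.lf (nat_lit 3572) (nat_lit 6) (nat_lit 47) (nat_lit 0) (nat_lit 123) (nat_lit 121) (nat_lit 116)))))) (PT.nd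 (nat_lit 36660) (PT.nd (nat_lit 156) (PT.nd (nat_lit 78) (PT.lf (nat_lit 3192) (nat_lit 6) (nat_lit 42) (nat_lit 0) (nat_lit 124) (nat_lit 121) (nat_lit 115)) (PT.lf (nat_lit 2736) (nat_lit 6) (nat_lit 36) (nat_lit 0) (nat_lit 125) (nat_lit 121) (nat_lit 114))) (PT.nd (nat_lit 36348) (PT.lf (nat_lit 2204) (nat_lit 6) (nat_lit 29) (nat_lit 0) (nat_lit 126) (nat_lit 121) (nat_lit 113)) (PT.nd (nat_lit 78) (PT.lf (nat_lit 1748) (nat_lit 6) (nat_lit 23) (nat_lit 5) (nat_lit 111) (nat_lit 122) (nat_lit 127)) (PT.lf (nat_lit 1976) (nat_lit 6) (nat_lit 26) (nat_lit 5) (nat_lit 112) (nat_lit 122) (nat_lit 126))))) (PT.nd (nat_lit 156) (PT.nd (nat_lit 78) (PT.lf (nat_lit 2280) (nat_lit 6) (nat_lit 30) (nat_lit 5) (nat_lit 113) (nat_lit 122) (nat_lit 125)) (PT.lf (nat_lit 2812) (nat_lit 6) (nat_lit 37) (nat_lit 5) (nat_lit 114) (nat_lit 122) (nat_lit 124))) (PT.nd (nat_lit 78) (PT.lf (nat_lit 3268)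 (nat_lit 6) (nat_lit 43) (nat_lit 5) (nat_lit 115) (nat_lit 122) (nat_lit 123)) (PT.nd (nat_lit 78) (PT.lf (nat_lit 3648) (nat_lit 3) (nat_lit 48) (nat_lit 4) (nat_lit 116) (nat_lit 122) (nat_lit 122)) (PT.lf (nat_lit 3876) (nat_lit 6) (nat_lit 51) (nat_lit 4) (nat_lit 117) (nat_lit 122) (nat_lit 121))))))))
noncomputable def pc4 : PT := (PT.nd (nat_lit 37518) (PT.nd (nat_lit 702) (PT.nd (nat_lit 312) (PT.nd (nat_lit 156) (PT.nd (nat_lit 78) (PT.lf (nat_lit 4028) (nat_lit 6) (nat_lit 53) (nat_lit 4) (nat_lit 118) (nat_lit 122) (nat_lit 120)) (PT.lf (nat_lit 3952) (nat_lit 3) (nat_lit 52) (nat_lit 2) (nat_lit 119) (nat_lit 122) (nat_lit 119))) (PT.nd (nat_lit 78) (PT.lf (nat_lit 4028) (nat_lit 6) (nat_lit 53) (nat_lit 2) (nat_lit 120) (nat_lit 122) (nat_lit 118)) (PT.lf (nat_lit 3876) (nat_lit 6) (nat_lit 51) (nat_lit 2) (nat_lit 121) (nat_lit 122) (nat_lit 117)))) (PT.nd (nat_lit 156)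 (PT.nd (nat_lit 78) (PT.lf (nat_lit 3648) (nat_lit 3) (nat_lit 48) (nat_lit 0) (nat_lit 122) (nat_lit 122) (nat_lit 116)) (PT.lf (nat_lit 3268) (nat_lit 6) (nat_lit 43) (nat_lit 0) (nat_lit 123) (nat_lit 122) (nat_lit 115))) (PT.nd (nat_lit 78) (PT.lf (nat_lit 2812) (nat_lit 6) (nat_lit 37) (nat_lit 0) (nat_lit 124) (nat_lit 122) (nat_lit 114)) (PT.nd (nat_lit 78) (PT.lf (nat_lit 2280) (nat_lit 6) (nat_lit 30) (nat_lit 0) (nat_lit 125) (nat_lit 122) (nat_lit 113)) (PT.lf (nat_lit 1976) (nat_lit 6) (nat_lit 26) (nat_lit 0) (nat_lit 126) (nat_lit 122) (nat_lit 112)))))) (PT.nd (nat_lit 36426) (PT.nd (nat_lit 36270) (PT.nd (nat_lit 36192) (PT.lf (nat_lit 1748) (nat_lit 6) (nat_lit 23) (nat_lit 0) (nat_lit 127) (nat_lit 122) (nat_lit 111)) (PT.lf (nat_lit 1520) (nat_lit 6) (nat_lit 20) (nat_lit 5) (nat_lit 110) (nat_lit 123) (nat_lit 127))) (PT.nd (nat_lit 78) (PT.lf (nat_lit 1824) (nat_lit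 6) (nat_lit 24) (nat_lit 5) (nat_lit 111) (nat_lit 123) (nat_lit 126)) (PT.lf (nat_lit 2052) (nat_lit 6) (nat_lit 27) (nat_lit 5) (nat_lit 112) (nat_lit 123) (nat_lit 125)))) (PT.nd (nat_lit 156) (PT.nd (nat_lit 78) (PT.lf (nat_lit 2356) (nat_lit 6) (nat_lit 31) (nat_lit 5) (nat_lit 113) (nat_lit 123) (nat_lit 124)) (PT.lf (nat_lit 2888) (nat_lit 3) (nat_lit 38) (nat_lit 4) (nat_lit 114) (nat_lit 123) (nat_lit 123))) (PT.nd (nat_lit 78) (PT.lf (nat_lit 3268) (nat_lit 6) (nat_lit 43) (nat_lit 4) (nat_lit 115) (nat_lit 123) (nat_lit 122)) (PT.nd (nat_lit 78) (PT.lf (nat_lit 3572) (nat_lit 6) (nat_lit 47) (nat_lit 4) (nat_lit 116) (nat_lit 123) (nat_lit 121)) (PT.lf (nat_lit 3800) (nat_lit 6) (nat_lit 50) (nat_lit 4) (nat_lit 117) (nat_lit 123) (nat_lit 120))))))) (PT.nd (nat_lit 702) (PT.nd (nat_lit 312) (PT.nd (nat_lit 156) (PT.nd (nat_lit 78) (PT.lf (nat_lit 3724) (nat_lit 6) (nat_lit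 49) (nat_lit 4) (nat_lit 118) (nat_lit 123) (nat_lit 119)) (PT.lf (nat_lit 3724) (nat_lit 6) (nat_lit 49) (nat_lit 2) (nat_lit 119) (nat_lit 123) (nat_lit 118))) (PT.nd (nat_lit 78) (PT.lf (nat_lit 3800) (nat_lit 6) (nat_lit 50) (nat_lit 2) (nat_lit 120) (nat_lit 123) (nat_lit 117)) (PT.lf (nat_lit 3572) (nat_lit 6) (nat_lit 47) (nat_lit 2) (nat_lit 121) (nat_lit 123) (nat_lit 116)))) (PT.nd (nat_lit 156) (PT.nd (nat_lit 78) (PT.lf (nat_lit 3268) (nat_lit 6) (nat_lit 43) (nat_lit 2) (nat_lit 122) (nat_lit 123) (nat_lit 115)) (PT.lf (nat_lit 2888) (nat_lit 3) (nat_lit 38) (nat_lit 0) (nat_lit 123) (nat_lit 123) (nat_lit 114))) (PT.nd (nat_lit 78) (PT.lf (nat_lit 2356) (nat_lit 6) (nat_lit 31) (nat_lit 0) (nat_lit 124) (nat_lit 123) (nat_lit 113)) (PT.nd (nat_lit 78) (PT.lf (nat_lit 2052) (nat_lit 6) (nat_lit 27) (nat_lit 0) (nat_lit 125) (nat_lit 123) (nat_lit 112)) (PT.lf (nat_lit 1824)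 (nat_lit 6) (nat_lit 24) (nat_lit 0) (nat_lit 126) (nat_lit 123) (nat_lit 111)))))) (PT.nd (nat_lit 36348) (PT.nd (nat_lit 36192) (PT.nd (nat_lit 36114) (PT.lf (nat_lit 1520) (nat_lit 6) (nat_lit 20) (nat_lit 0) (nat_lit 127) (nat_lit 123) (nat_lit 110)) (PT.lf (nat_lit 1368) (nat_lit 6) (nat_lit 18) (nat_lit 5) (nat_lit 109) (nat_lit 124) (nat_lit 127))) (PT.nd (nat_lit 78) (PT.lf (nat_lit 1596) (nat_lit 6) (nat_lit 21) (nat_lit 5) (nat_lit 110) (nat_lit 124) (nat_lit 126)) (PT.lf (nat_lit 1900) (nat_lit 6) (nat_lit 25) (nat_lit 5) (nat_lit 111) (nat_lit 124) (nat_lit 125)))) (PT.nd (nat_lit 156) (PT.nd (nat_lit 78) (PT.lf (nat_lit 2128) (nat_lit 3) (nat_lit 28) (nat_lit 4) (nat_lit 112) (nat_lit 124) (nat_lit 124)) (PT.lf (nat_lit 2356) (nat_lit 6) (nat_lit 31) (nat_lit 4) (nat_lit 113) (nat_lit 124) (nat_lit 123))) (PT.nd (nat_lit 78) (PT.lf (nat_lit 2812) (nat_lit 6) (nat_lit 37)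 (nat_lit 4) (nat_lit 114) (nat_lit 124) (nat_lit 122)) (PT.nd (nat_lit 78) (PT.lf (nat_lit 3192) (nat_lit 6) (nat_lit 42) (nat_lit 4) (nat_lit 115) (nat_lit 124) (nat_lit 121)) (PT.lf (nat_lit 3496) (nat_lit 6) (nat_lit 46) (nat_lit 4) (nat_lit 116) (nat_lit 124) (nat_lit 120))))))))
noncomputable def pc5 : PT := (PT.nd (nat_lit 37284) (PT.nd (nat_lit 702) (PT.nd (nat_lit 312) (PT.nd (nat_lit 156) (PT.nd (nat_lit 78) (PT.lf (nat_lit 3420) (nat_lit 6) (nat_lit 45) (nat_lit 4) (nat_lit 117) (nat_lit 124) (nat_lit 119)) (PT.lf (nat_lit 3344) (nat_lit 3) (nat_lit 44) (nat_lit 2) (nat_lit 118) (nat_lit 124) (nat_lit 118))) (PT.nd (nat_lit 78) (PT.lf (nat_lit 3420) (nat_lit 6) (nat_lit 45) (nat_lit 2) (nat_lit 119) (nat_lit 124) (nat_lit 117)) (PT.lf (nat_lit 3496) (nat_lit 6) (nat_lit 46) (nat_lit 2) (nat_lit 120) (nat_lit 124) (nat_lit 116)))) (PT.nd (nat_lit 156) (PT.nd (nat_lit 78) (PT.lf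 (nat_lit 3192) (nat_lit 6) (nat_lit 42) (nat_lit 2) (nat_lit 121) (nat_lit 124) (nat_lit 115)) (PT.lf (nat_lit 2812) (nat_lit 6) (nat_lit 37) (nat_lit 2) (nat_lit 122) (nat_lit 124) (nat_lit 114))) (PT.nd (nat_lit 78) (PT.lf (nat_lit 2356) (nat_lit 6) (nat_lit 31) (nat_lit 2) (nat_lit 123) (nat_lit 124) (nat_lit 113)) (PT.nd (nat_lit 78) (PT.lf (nat_lit 2128) (nat_lit 3) (nat_lit 28) (nat_lit 0) (nat_lit 124) (nat_lit 124) (nat_lit 112)) (PT.lf (nat_lit 1900) (nat_lit 6) (nat_lit 25) (nat_lit 0) (nat_lit 125) (nat_lit 124) (nat_lit 111)))))) (PT.nd (nat_lit 36192) (PT.nd (nat_lit 36036) (PT.nd (nat_lit 78) (PT.lf (nat_lit 1596) (nat_lit 6) (nat_lit 21) (nat_lit 0) (nat_lit 126) (nat_lit 124) (nat_lit 110)) (PT.lf (nat_lit 1368) (nat_lit 6) (nat_lit 18) (nat_lit 0) (nat_lit 127) (nat_lit 124) (nat_lit 109))) (PT.nd (nat_lit 78) (PT.lf (nat_lit 1064) (nat_lit 6) (nat_lit 14) (nat_lit 5)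 (nat_lit 107) (nat_lit 125) (nat_lit 128)) (PT.lf (nat_lit 1216) (nat_lit 6) (nat_lit 16) (nat_lit 5) (nat_lit 108) (nat_lit 125) (nat_lit 127)))) (PT.nd (nat_lit 156) (PT.nd (nat_lit 78) (PT.lf (nat_lit 1444) (nat_lit 6) (nat_lit 19) (nat_lit 5) (nat_lit 109) (nat_lit 125) (nat_lit 126)) (PT.lf (nat_lit 1672) (nat_lit 3) (nat_lit 22) (nat_lit 4) (nat_lit 110) (nat_lit 125) (nat_lit 125))) (PT.nd (nat_lit 78) (PT.lf (nat_lit 1900) (nat_lit 6) (nat_lit 25) (nat_lit 4) (nat_lit 111) (nat_lit 125) (nat_lit 124)) (PT.nd (nat_lit 78) (PT.lf (nat_lit 2052) (nat_lit 6) (nat_lit 27) (nat_lit 4) (nat_lit 112) (nat_lit 125) (nat_lit 123)) (PT.lf (nat_lit 2280) (nat_lit 6) (nat_lit 30) (nat_lit 4) (nat_lit 113) (nat_lit 125) (nat_lit 122))))))) (PT.nd (nat_lit 702) (PT.nd (nat_lit 312) (PT.nd (nat_lit 156) (PT.nd (nat_lit 78) (PT.lf (nat_lit 2736) (nat_lit 6) (nat_lit 36) (nat_lit 4) (nat_lit 114)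 (nat_lit 125) (nat_lit 121)) (PT.lf (nat_lit 3116) (nat_lit 6) (nat_lit 41) (nat_lit 4) (nat_lit 115) (nat_lit 125) (nat_lit 120))) (PT.nd (nat_lit 78) (PT.lf (nat_lit 3040) (nat_lit 6) (nat_lit 40) (nat_lit 4) (nat_lit 116) (nat_lit 125) (nat_lit 119)) (PT.lf (nat_lit 2964) (nat_lit 6) (nat_lit 39) (nat_lit 4) (nat_lit 117) (nat_lit 125) (nat_lit 118)))) (PT.nd (nat_lit 156) (PT.nd (nat_lit 78) (PT.lf (nat_lit 2964) (nat_lit 6) (nat_lit 39) (nat_lit 2) (nat_lit 118) (nat_lit 125) (nat_lit 117)) (PT.lf (nat_lit 3040) (nat_lit 6) (nat_lit 40) (nat_lit 2) (nat_lit 119) (nat_lit 125) (nat_lit 116))) (PT.nd (nat_lit 78) (PT.lf (nat_lit 3116) (nat_lit 6) (nat_lit 41) (nat_lit 2) (nat_lit 120) (nat_lit 125) (nat_lit 115)) (PT.nd (nat_lit 78) (PT.lf (nat_lit 2736) (nat_lit 6) (nat_lit 36) (nat_lit 2) (nat_lit 121) (nat_lit 125) (nat_lit 114)) (PT.lf (nat_lit 2280) (nat_lit 6) (nat_lit 30) (nat_lit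 2) (nat_lit 122) (nat_lit 125) (nat_lit 113)))))) (PT.nd (nat_lit 390) (PT.nd (nat_lit 156) (PT.nd (nat_lit 78) (PT.lf (nat_lit 2052) (nat_lit 6) (nat_lit 27) (nat_lit 2) (nat_lit 123) (nat_lit 125) (nat_lit 112)) (PT.lf (nat_lit 1900) (nat_lit 6) (nat_lit 25) (nat_lit 2) (nat_lit 124) (nat_lit 125) (nat_lit 111))) (PT.nd (nat_lit 78) (PT.lf (nat_lit 1672) (nat_lit 3) (nat_lit 22) (nat_lit 0) (nat_lit 125) (nat_lit 125) (nat_lit 110)) (PT.nd (nat_lit 78) (PT.lf (nat_lit 1444) (nat_lit 6) (nat_lit 19) (nat_lit 0) (nat_lit 126) (nat_lit 125) (nat_lit 109)) (PT.lf (nat_lit 1216) (nat_lit 6) (nat_lit 16) (nat_lit 0) (nat_lit 127) (nat_lit 125) (nat_lit 108))))) (PT.nd (nat_lit 35802) (PT.nd (nat_lit 35724) (PT.lf (nat_lit 1064) (nat_lit 6) (nat_lit 14) (nat_lit 0) (nat_lit 128) (nat_lit 125) (nat_lit 107)) (PT.lf (nat_lit 760) (nat_lit 6) (nat_lit 10) (nat_lit 5) (nat_lit 105) (nat_lit 126)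 (nat_lit 129))) (PT.nd (nat_lit 78) (PT.lf (nat_lit 912) (nat_lit 6) (nat_lit 12) (nat_lit 5) (nat_lit 106) (nat_lit 126) (nat_lit 128)) (PT.nd (nat_lit 78) (PT.lf (nat_lit 1140) (nat_lit 6) (nat_lit 15) (nat_lit 5) (nat_lit 107) (nat_lit 126) (nat_lit 127)) (PT.lf (nat_lit 1292) (nat_lit 3) (nat_lit 17) (nat_lit 4) (nat_lit 108) (nat_lit 126) (nat_lit 126))))))))
noncomputable def pc6 : PT := (PT.nd (nat_lit 1404) (PT.nd (nat_lit 702) (PT.nd (nat_lit 312) (PT.nd (nat_lit 156) (PT.nd (nat_lit 78) (PT.lf (nat_lit 1444) (nat_lit 6) (nat_lit 19) (nat_lit 4) (nat_lit 109) (nat_lit 126) (nat_lit 125)) (PT.lf (nat_lit 1596) (nat_lit 6) (nat_lit 21) (nat_lit 4) (nat_lit 110) (nat_lit 126) (nat_lit 124))) (PT.nd (nat_lit 78) (PT.lf (nat_lit 1824) (nat_lit 6) (nat_lit 24) (nat_lit 4) (nat_lit 111) (nat_lit 126) (nat_lit 123)) (PT.lf (nat_lit 1976) (nat_lit 6) (nat_lit 26) (nat_lit 4) (nat_lit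 112) (nat_lit 126) (nat_lit 122)))) (PT.nd (nat_lit 156) (PT.nd (nat_lit 78) (PT.lf (nat_lit 2204) (nat_lit 6) (nat_lit 29) (nat_lit 4) (nat_lit 113) (nat_lit 126) (nat_lit 121)) (PT.lf (nat_lit 2660) (nat_lit 6) (nat_lit 35) (nat_lit 4) (nat_lit 114) (nat_lit 126) (nat_lit 120))) (PT.nd (nat_lit 78) (PT.lf (nat_lit 2584) (nat_lit 6) (nat_lit 34) (nat_lit 4) (nat_lit 115) (nat_lit 126) (nat_lit 119)) (PT.nd (nat_lit 78) (PT.lf (nat_lit 2508) (nat_lit 6) (nat_lit 33) (nat_lit 4) (nat_lit 116) (nat_lit 126) (nat_lit 118)) (PT.lf (nat_lit 2432) (nat_lit 3) (nat_lit 32) (nat_lit 2) (nat_lit 117) (nat_lit 126) (nat_lit 117)))))) (PT.nd (nat_lit 312) (PT.nd (nat_lit 156) (PT.nd (nat_lit 78) (PT.lf (nat_lit 2508) (nat_lit 6) (nat_lit 33) (nat_lit 2) (nat_lit 118) (nat_lit 126) (nat_lit 116)) (PT.lf (nat_lit 2584) (nat_lit 6) (nat_lit 34) (nat_lit 2) (nat_lit 119) (nat_lit 126) (nat_lit 115)))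 (PT.nd (nat_lit 78) (PT.lf (nat_lit 2660) (nat_lit 6) (nat_lit 35) (nat_lit 2) (nat_lit 120) (nat_lit 126) (nat_lit 114)) (PT.lf (nat_lit 2204) (nat_lit 6) (nat_lit 29) (nat_lit 2) (nat_lit 121) (nat_lit 126) (nat_lit 113)))) (PT.nd (nat_lit 156) (PT.nd (nat_lit 78) (PT.lf (nat_lit 1976) (nat_lit 6) (nat_lit 26) (nat_lit 2) (nat_lit 122) (nat_lit 126) (nat_lit 112)) (PT.lf (nat_lit 1824) (nat_lit 6) (nat_lit 24) (nat_lit 2) (nat_lit 123) (nat_lit 126) (nat_lit 111))) (PT.nd (nat_lit 78) (PT.lf (nat_lit 1596) (nat_lit 6) (nat_lit 21) (nat_lit 2) (nat_lit 124) (nat_lit 126) (nat_lit 110)) (PT.nd (nat_lit 78) (PT.lf (nat_lit 1444) (nat_lit 6) (nat_lit 19) (nat_lit 2) (nat_lit 125) (nat_lit 126) (nat_lit 109)) (PT.lf (nat_lit 1292) (nat_lit 3) (nat_lit 17) (nat_lit 0) (nat_lit 126) (nat_lit 126) (nat_lit 108))))))) (PT.nd (nat_lit 36192) (PT.nd (nat_lit 35802) (PT.nd (nat_lit 156) (PT.nd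 (nat_lit 78) (PT.lf (nat_lit 1140) (nat_lit 6) (nat_lit 15) (nat_lit 0) (nat_lit 127) (nat_lit 126) (nat_lit 107)) (PT.lf (nat_lit 912) (nat_lit 6) (nat_lit 12) (nat_lit 0) (nat_lit 128) (nat_lit 126) (nat_lit 106))) (PT.nd (nat_lit 35568) (PT.lf (nat_lit 760) (nat_lit 6) (nat_lit 10) (nat_lit 0) (nat_lit 129) (nat_lit 126) (nat_lit 105)) (PT.lf (nat_lit 608) (nat_lit 6) (nat_lit 8) (nat_lit 5) (nat_lit 104) (nat_lit 127) (nat_lit 129)))) (PT.nd (nat_lit 156) (PT.nd (nat_lit 78) (PT.lf (nat_lit 836) (nat_lit 6) (nat_lit 11) (nat_lit 5) (nat_lit 105) (nat_lit 127) (nat_lit 128)) (PT.lf (nat_lit 988) (nat_lit 3) (nat_lit 13) (nat_lit 4) (nat_lit 106) (nat_lit 127) (nat_lit 127))) (PT.nd (nat_lit 78) (PT.lf (nat_lit 1140) (nat_lit 6) (nat_lit 15) (nat_lit 4) (nat_lit 107) (nat_lit 127) (nat_lit 126)) (PT.nd (nat_lit 78) (PT.lf (nat_lit 1216) (nat_lit 6) (nat_lit 16) (nat_lit 4) (nat_lit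 108) (nat_lit 127) (nat_lit 125)) (PT.lf (nat_lit 1368) (nat_lit 6) (nat_lit 18) (nat_lit 4) (nat_lit 109) (nat_lit 127) (nat_lit 124)))))) (PT.nd (nat_lit 1092) (PT.nd (nat_lit 936) (PT.nd (nat_lit 78) (PT.lf (nat_lit 1520) (nat_lit 6) (nat_lit 20) (nat_lit 4) (nat_lit 110) (nat_lit 127) (nat_lit 123)) (PT.lf (nat_lit 1748) (nat_lit 6) (nat_lit 23) (nat_lit 4) (nat_lit 111) (nat_lit 127) (nat_lit 122))) (PT.nd (nat_lit 78) (PT.lf (nat_lit 1748) (nat_lit 6) (nat_lit 23) (nat_lit 2) (nat_lit 122) (nat_lit 127) (nat_lit 111)) (PT.lf (nat_lit 1520) (nat_lit 6) (nat_lit 20) (nat_lit 2) (nat_lit 123) (nat_lit 127) (nat_lit 110)))) (PT.nd (nat_lit 156) (PT.nd (nat_lit 78) (PT.lf (nat_lit 1368) (nat_lit 6) (nat_lit 18) (nat_lit 2) (nat_lit 124) (nat_lit 127) (nat_lit 109)) (PT.lf (nat_lit 1216) (nat_lit 6) (nat_lit 16) (nat_lit 2) (nat_lit 125) (nat_lit 127) (nat_lit 108))) (PT.nd (nat_lit 78)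 (PT.lf (nat_lit 1140) (nat_lit 6) (nat_lit 15) (nat_lit 2) (nat_lit 126) (nat_lit 127) (nat_lit 107)) (PT.nd (nat_lit 78) (PT.lf (nat_lit 988) (nat_lit 3) (nat_lit 13) (nat_lit 0) (nat_lit 127) (nat_lit 127) (nat_lit 106)) (PT.lf (nat_lit 836) (nat_lit 6) (nat_lit 11) (nat_lit 0) (nat_lit 128) (nat_lit 127) (nat_lit 105))))))))
noncomputable def pc7 : PT := (PT.nd (nat_lit 73164) (PT.nd (nat_lit 37362) (PT.nd (nat_lit 35646) (PT.nd (nat_lit 35490) (PT.nd (nat_lit 35412) (PT.lf (nat_lit 608) (nat_lit 6) (nat_lit 8) (nat_lit 0) (nat_lit 129) (nat_lit 127) (nat_lit 104)) (PT.lf (nat_lit 380) (nat_lit 6) (nat_lit 5) (nat_lit 5) (nat_lit 102) (nat_lit 128) (nat_lit 130))) (PT.nd (nat_lit 78) (PT.lf (nat_lit 532) (nat_lit 6) (nat_lit 7) (nat_lit 5) (nat_lit 103) (nat_lit 128) (nat_lit 129)) (PT.lf (nat_lit 684) (nat_lit 3) (nat_lit 9) (nat_lit 4) (nat_lit 104) (nat_lit 128) (nat_lit 128))))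 (PT.nd (nat_lit 156) (PT.nd (nat_lit 78) (PT.lf (nat_lit 836) (nat_lit 6) (nat_lit 11) (nat_lit 4) (nat_lit 105) (nat_lit 128) (nat_lit 127)) (PT.lf (nat_lit 912) (nat_lit 6) (nat_lit 12) (nat_lit 4) (nat_lit 106) (nat_lit 128) (nat_lit 126))) (PT.nd (nat_lit 1404) (PT.lf (nat_lit 1064) (nat_lit 6) (nat_lit 14) (nat_lit 4) (nat_lit 107) (nat_lit 128) (nat_lit 125)) (PT.nd (nat_lit 78) (PT.lf (nat_lit 1064) (nat_lit 6) (nat_lit 14) (nat_lit 2) (nat_lit 125) (nat_lit 128) (nat_lit 107)) (PT.lf (nat_lit 912) (nat_lit 6) (nat_lit 12) (nat_lit 2) (nat_lit 126) (nat_lit 128) (nat_lit 106)))))) (PT.nd (nat_lit 35412) (PT.nd (nat_lit 156) (PT.nd (nat_lit 78) (PT.lf (nat_lit 836) (nat_lit 6) (nat_lit 11) (nat_lit 2) (nat_lit 127) (nat_lit 128) (nat_lit 105)) (PT.lf (nat_lit 684) (nat_lit 3) (nat_lit 9) (nat_lit 0) (nat_lit 128) (nat_lit 128) (nat_lit 104))) (PT.nd (nat_lit 78) (PT.lf (nat_lit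 532) (nat_lit 6) (nat_lit 7) (nat_lit 0) (nat_lit 129) (nat_lit 128) (nat_lit 103)) (PT.lf (nat_lit 380) (nat_lit 6) (nat_lit 5) (nat_lit 0) (nat_lit 130) (nat_lit 128) (nat_lit 102)))) (PT.nd (nat_lit 156) (PT.nd (nat_lit 78) (PT.lf (nat_lit 152) (nat_lit 6) (nat_lit 2) (nat_lit 5) (nat_lit 100) (nat_lit 129) (nat_lit 131)) (PT.lf (nat_lit 304) (nat_lit 6) (nat_lit 4) (nat_lit 5) (nat_lit 101) (nat_lit 129) (nat_lit 130))) (PT.nd (nat_lit 78) (PT.lf (nat_lit 456) (nat_lit 3) (nat_lit 6) (nat_lit 4) (nat_lit 102) (nat_lit 129) (nat_lit 129)) (PT.nd (nat_lit 78) (PT.lf (nat_lit 532) (nat_lit 6) (nat_lit 7) (nat_lit 4) (nat_lit 103) (nat_lit 129) (nat_lit 128)) (PT.lf (nat_lit 608) (nat_lit 6) (nat_lit 8) (nat_lit 4) (nat_lit 104) (nat_lit 129) (nat_lit 127))))))) (PT.nd (nat_lit 37206) (PT.nd (nat_lit 1872) (PT.nd (nat_lit 1716) (PT.nd (nat_lit 1638) (PT.lf (nat_lit 760) (nat_lit 6) (nat_lit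 10) (nat_lit 4) (nat_lit 105) (nat_lit 129) (nat_lit 126)) (PT.lf (nat_lit 760) (nat_lit 6) (nat_lit 10) (nat_lit 2) (nat_lit 126) (nat_lit 129) (nat_lit 105))) (PT.nd (nat_lit 78) (PT.lf (nat_lit 608) (nat_lit 6) (nat_lit 8) (nat_lit 2) (nat_lit 127) (nat_lit 129) (nat_lit 104)) (PT.lf (nat_lit 532) (nat_lit 6) (nat_lit 7) (nat_lit 2) (nat_lit 128) (nat_lit 129) (nat_lit 103)))) (PT.nd (nat_lit 156) (PT.nd (nat_lit 78) (PT.lf (nat_lit 456) (nat_lit 3) (nat_lit 6) (nat_lit 0) (nat_lit 129) (nat_lit 129) (nat_lit 102)) (PT.lf (nat_lit 304) (nat_lit 6) (nat_lit 4) (nat_lit 0) (nat_lit 130) (nat_lit 129) (nat_lit 101))) (PT.nd (nat_lit 35022) (PT.lf (nat_lit 152) (nat_lit 6) (nat_lit 2) (nat_lit 0) (nat_lit 131) (nat_lit 129) (nat_lit 100)) (PT.nd (nat_lit 78) (PT.lf (nat_lit 76) (nat_lit 6) (nat_lit 1) (nat_lit 5) (nat_lit 99) (nat_lit 130) (nat_lit 131)) (PT.lf (nat_lit 228) (nat_lit 3)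 (nat_lit 3) (nat_lit 4) (nat_lit 100) (nat_lit 130) (nat_lit 130)))))) (PT.nd (nat_lit 2340) (PT.nd (nat_lit 2106) (PT.nd (nat_lit 78) (PT.lf (nat_lit 304) (nat_lit 6) (nat_lit 4) (nat_lit 4) (nat_lit 101) (nat_lit 130) (nat_lit 129)) (PT.lf (nat_lit 380) (nat_lit 6) (nat_lit 5) (nat_lit 4) (nat_lit 102) (nat_lit 130) (nat_lit 128))) (PT.nd (nat_lit 78) (PT.lf (nat_lit 380) (nat_lit 6) (nat_lit 5) (nat_lit 2) (nat_lit 128) (nat_lit 130) (nat_lit 102)) (PT.nd (nat_lit 78) (PT.lf (nat_lit 304) (nat_lit 6) (nat_lit 4) (nat_lit 2) (nat_lit 129) (nat_lit 130) (nat_lit 101)) (PT.lf (nat_lit 228) (nat_lit 3) (nat_lit 3) (nat_lit 0) (nat_lit 130) (nat_lit 130) (nat_lit 100))))) (PT.nd (nat_lit 35100) (PT.nd (nat_lit 35022) (PT.lf (nat_lit 76) (nat_lit 6) (nat_lit 1) (nat_lit 0) (nat_lit 131) (nat_lit 130) (nat_lit 99)) (PT.lf (nat_lit 76) (nat_lit 6) (nat_lit 1) (nat_lit 4) (nat_lit 99) (nat_lit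 131) (nat_lit 130))) (PT.nd (nat_lit 2262) (PT.lf (nat_lit 152) (nat_lit 6) (nat_lit 2) (nat_lit 4) (nat_lit 100) (nat_lit 131) (nat_lit 129)) (PT.nd (nat_lit 78) (PT.lf (nat_lit 152) (nat_lit 6) (nat_lit 2) (nat_lit 2) (nat_lit 129) (nat_lit 131) (nat_lit 100)) (PT.lf (nat_lit 76) (nat_lit 6) (nat_lit 1) (nat_lit 2) (nat_lit 130) (nat_lit 131) (nat_lit 99))))))))
noncomputable def xc0 : XT := (XT.nd (nat_lit 149604) (nat_lit 0) (nat_lit 0) (XT.nd (nat_lit 112086) (nat_lit 0) (nat_lit 0) (XT.nd (nat_lit 74724) (nat_lit 0) (nat_lit 0) (XT.nd (nat_lit 37440) (nat_lit 0) (nat_lit 0) (XT.nd (nat_lit 37362) (nat_lit 0) (nat_lit 0) (XT.lf (nat_lit 0) (nat_lit 151310250311) (nat_lit 152) (nat_lit 218120965293) (nat_lit 0) (nat_lit 151310250311) (nat_lit 1) (nat_lit 5) (nat_lit 3) (nat_lit 4) (nat_lit 1) (nat_lit 4) (nat_lit 326) (nat_lit 197) (nat_lit 197)) (XT.lf (nat_lit 0) (nat_lit 128945290225)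 (nat_lit 152) (nat_lit 188606504062) (nat_lit 0) (nat_lit 128945290225) (nat_lit 1) (nat_lit 5) (nat_lit 3) (nat_lit 4) (nat_lit 1) (nat_lit 4) (nat_lit 324) (nat_lit 198) (nat_lit 198))) (XT.nd (nat_lit 78) (nat_lit 0) (nat_lit 0) (XT.lf (nat_lit 0) (nat_lit 279443556593) (nat_lit 152) (nat_lit 405570147067) (nat_lit 0) (nat_lit 279368668881) (nat_lit 1) (nat_lit 5) (nat_lit 3) (nat_lit 4) (nat_lit 1) (nat_lit 4) (nat_lit 325) (nat_lit 198) (nat_lit 197)) (XT.lf (nat_lit 0) (nat_lit 302671886027) (nat_lit 152) (nat_lit 436284591198) (nat_lit 0) (nat_lit 302527657841) (nat_lit 1) (nat_lit 5) (nat_lit 3) (nat_lit 4) (nat_lit 1) (nat_lit 4) (nat_lit 326) (nat_lit 198) (nat_lit 196)))) (XT.nd (nat_lit 156) (nat_lit 0) (nat_lit 0) (XT.nd (nat_lit 78) (nat_lit 0) (nat_lit 0) (XT.lf (nat_lit 0) (nat_lit 109708632826) (nat_lit 152) (nat_lit 163430845327) (nat_lit 0) (nat_lit 109708632826) (nat_lit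 1) (nat_lit 5) (nat_lit 3) (nat_lit 4) (nat_lit 1) (nat_lit 4) (nat_lit 322) (nat_lit 199) (nat_lit 199)) (XT.lf (nat_lit 0) (nat_lit 237966114988) (nat_lit 152) (nat_lit 351045132064) (nat_lit 0) (nat_lit 237885236259) (nat_lit 1) (nat_lit 5) (nat_lit 3) (nat_lit 4) (nat_lit 1) (nat_lit 4) (nat_lit 323) (nat_lit 199) (nat_lit 198))) (XT.nd (nat_lit 78) (nat_lit 0) (nat_lit 0) (XT.lf (nat_lit 0) (nat_lit 257946076687) (nat_lit 152) (nat_lit 377259081585) (nat_lit 0) (nat_lit 257790310246) (nat_lit 1) (nat_lit 5) (nat_lit 3) (nat_lit 4) (nat_lit 1) (nat_lit 4) (nat_lit 324) (nat_lit 199) (nat_lit 197)) (XT.nd (nat_lit 78) (nat_lit 0) (nat_lit 0) (XT.lf (nat_lit 0) (nat_lit 279475550522) (nat_lit 152) (nat_lit 405658881140) (nat_lit 0) (nat_lit 279250443607) (nat_lit 1) (nat_lit 5) (nat_lit 3) (nat_lit 4) (nat_lit 1) (nat_lit 4) (nat_lit 325) (nat_lit 199) (nat_lit 196)) (XT.lf (nat_lit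 0) (nat_lit 302682118561) (nat_lit 152) (nat_lit 436412825838) (nat_lit 0) (nat_lit 302392807503) (nat_lit 1) (nat_lit 5) (nat_lit 3) (nat_lit 4) (nat_lit 1) (nat_lit 4) (nat_lit 326) (nat_lit 199) (nat_lit 195)))))) (XT.nd (nat_lit 312) (nat_lit 0) (nat_lit 0) (XT.nd (nat_lit 156) (nat_lit 0) (nat_lit 0) (XT.nd (nat_lit 78) (nat_lit 0) (nat_lit 0) (XT.lf (nat_lit 0) (nat_lit 93149006051) (nat_lit 152) (nat_lit 141985269178) (nat_lit 0) (nat_lit 93149006051) (nat_lit 1) (nat_lit 5) (nat_lit 3) (nat_lit 4) (nat_lit 1) (nat_lit 4) (nat_lit 320) (nat_lit 200) (nat_lit 200)) (XT.lf (nat_lit 0) (nat_lit 202276958601) (nat_lit 152) (nat_lit 304565448075) (nat_lit 0) (nat_lit 202189609574) (nat_lit 1) (nat_lit 5) (nat_lit 3) (nat_lit 4) (nat_lit 1) (nat_lit 4) (nat_lit 321) (nat_lit 200) (nat_lit 199))) (XT.nd (nat_lit 78) (nat_lit 0) (nat_lit 0) (XT.lf (nat_lit 0) (nat_lit 219477201589) (nat_lit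 152) (nat_lit 326911449992) (nat_lit 0) (nat_lit 219308973833) (nat_lit 1) (nat_lit 5) (nat_lit 3) (nat_lit 4) (nat_lit 1) (nat_lit 4) (nat_lit 322) (nat_lit 200) (nat_lit 198)) (XT.lf (nat_lit 0) (nat_lit 238000668432) (nat_lit 152) (nat_lit 351140964863) (nat_lit 0) (nat_lit 237757552964) (nat_lit 1) (nat_lit 5) (nat_lit 3) (nat_lit 4) (nat_lit 1) (nat_lit 4) (nat_lit 323) (nat_lit 200) (nat_lit 197)))) (XT.nd (nat_lit 156) (nat_lit 0) (nat_lit 0) (XT.nd (nat_lit 78) (nat_lit 0) (nat_lit 0) (XT.lf (nat_lit 0) (nat_lit 257957127823) (nat_lit 152) (nat_lit 377397574995) (nat_lit 0) (nat_lit 257644671881) (nat_lit 1) (nat_lit 5) (nat_lit 3) (nat_lit 4) (nat_lit 1) (nat_lit 4) (nat_lit 324) (nat_lit 200) (nat_lit 196)) (XT.lf (nat_lit 0) (nat_lit 279464840262) (nat_lit 152) (nat_lit 405836875117) (nat_lit 0) (nat_lit 279088180178) (nat_lit 1) (nat_lit 5) (nat_lit 3) (nat_lit 4) (nat_lit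 1) (nat_lit 4) (nat_lit 325) (nat_lit 200) (nat_lit 195))) (XT.nd (nat_lit 36894) (nat_lit 0) (nat_lit 0) (XT.lf (nat_lit 0) (nat_lit 302651258861) (nat_lit 152) (nat_lit 436627394414) (nat_lit 0) (nat_lit 302215150496) (nat_lit 1) (nat_lit 5) (nat_lit 3) (nat_lit 4) (nat_lit 1) (nat_lit 4) (nat_lit 326) (nat_lit 200) (nat_lit 194)) (XT.nd (nat_lit 78) (nat_lit 0) (nat_lit 0) (XT.lf (nat_lit 0) (nat_lit 78879118064) (nat_lit 152) (nat_lit 123748717105) (nat_lit 0) (nat_lit 78879118064) (nat_lit 1) (nat_lit 5) (nat_lit 3) (nat_lit 4) (nat_lit 1) (nat_lit 4) (nat_lit 318) (nat_lit 201) (nat_lit 201)) (XT.lf (nat_lit 0) (nat_lit 171540008991) (nat_lit 152) (nat_lit 265004676929) (nat_lit 0) (nat_lit 171445672041) (nat_lit 1) (nat_lit 5) (nat_lit 3) (nat_lit 4) (nat_lit 1) (nat_lit 4) (nat_lit 319) (nat_lit 201) (nat_lit 200))))))) (XT.nd (nat_lit 37362) (nat_lit 0) (nat_lit 0) (XT.nd (nat_lit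 312) (nat_lit 0) (nat_lit 0) (XT.nd (nat_lit 156) (nat_lit 0) (nat_lit 0) (XT.nd (nat_lit 78) (nat_lit 0) (nat_lit 0) (XT.lf (nat_lit 0) (nat_lit 186362742914) (nat_lit 152) (nat_lit 284024278441) (nat_lit 0) (nat_lit 186181056937) (nat_lit 1) (nat_lit 5) (nat_lit 3) (nat_lit 4) (nat_lit 1) (nat_lit 4) (nat_lit 320) (nat_lit 201) (nat_lit 199)) (XT.lf (nat_lit 0) (nat_lit 202314276320) (nat_lit 152) (nat_lit 304668947497) (nat_lit 0) (nat_lit 202051711615) (nat_lit 1) (nat_lit 5) (nat_lit 3) (nat_lit 4) (nat_lit 1) (nat_lit 4) (nat_lit 321) (nat_lit 201) (nat_lit 198))) (XT.nd (nat_lit 78) (nat_lit 0) (nat_lit 0) (XT.lf (nat_lit 0) (nat_lit 219489136816) (nat_lit 152) (nat_lit 327061022876) (nat_lit 0) (nat_lit 219151684399) (nat_lit 1) (nat_lit 5) (nat_lit 3) (nat_lit 4) (nat_lit 1) (nat_lit 4) (nat_lit 322) (nat_lit 201) (nat_lit 197)) (XT.lf (nat_lit 0) (nat_lit 237989101352) (nat_lit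 152) (nat_lit 351333198358) (nat_lit 0) (nat_lit 237582308460) (nat_lit 1) (nat_lit 5) (nat_lit 3) (nat_lit 4) (nat_lit 1) (nat_lit 4) (nat_lit 323) (nat_lit 201) (nat_lit 196)))) (XT.nd (nat_lit 156) (nat_lit 0) (nat_lit 0) (XT.nd (nat_lit 78) (nat_lit 0) (nat_lit 0) (XT.lf (nat_lit 0) (nat_lit 257923799347) (nat_lit 152) (nat_lit 377629309057) (nat_lit 0) (nat_lit 257452802313) (nat_lit 1) (nat_lit 5) (nat_lit 3) (nat_lit 4) (nat_lit 1) (nat_lit 4) (nat_lit 324) (nat_lit 201) (nat_lit 195)) (XT.lf (nat_lit 0) (nat_lit 279411362346) (nat_lit 152) (nat_lit 406105183778) (nat_lit 0) (nat_lit 278880917032) (nat_lit 1) (nat_lit 5) (nat_lit 3) (nat_lit 4) (nat_lit 1) (nat_lit 4) (nat_lit 325) (nat_lit 201) (nat_lit 194))) (XT.nd (nat_lit 36738) (nat_lit 0) (nat_lit 0) (XT.lf (nat_lit 0) (nat_lit 302579124055) (nat_lit 152) (nat_lit 436929568444) (nat_lit 0) (nat_lit 301993634037) (nat_lit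 1) (nat_lit 5) (nat_lit 3) (nat_lit 4) (nat_lit 1) (nat_lit 4) (nat_lit 326) (nat_lit 201) (nat_lit 193)) (XT.nd (nat_lit 78) (nat_lit 0) (nat_lit 0) (XT.lf (nat_lit 0) (nat_lit 66566497859) (nat_lit 152) (nat_lit 108275351779) (nat_lit 0) (nat_lit 66566497859) (nat_lit 1) (nat_lit 5) (nat_lit 3) (nat_lit 4) (nat_lit 1) (nat_lit 4) (nat_lit 316) (nat_lit 202) (nat_lit 202)) (XT.lf (nat_lit 0) (nat_lit 145037638467) (nat_lit 152) (nat_lit 231398803663) (nat_lit 0) (nat_lit 144935754561) (nat_lit 1) (nat_lit 5) (nat_lit 3) (nat_lit 4) (nat_lit 1) (nat_lit 4) (nat_lit 317) (nat_lit 202) (nat_lit 201)))))) (XT.nd (nat_lit 390) (nat_lit 0) (nat_lit 0) (XT.nd (nat_lit 156) (nat_lit 0) (nat_lit 0) (XT.nd (nat_lit 78) (nat_lit 0) (nat_lit 0) (XT.lf (nat_lit 0) (nat_lit 157828145404) (nat_lit 152) (nat_lit 247555473503) (nat_lit 0) (nat_lit 157631924549) (nat_lit 1) (nat_lit 5) (nat_lit 3) (nat_lit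 4) (nat_lit 1) (nat_lit 4) (nat_lit 318) (nat_lit 202) (nat_lit 200)) (XT.lf (nat_lit 0) (nat_lit 171580312128) (nat_lit 152) (nat_lit 265116456306) (nat_lit 0) (nat_lit 171296742246) (nat_lit 1) (nat_lit 5) (nat_lit 3) (nat_lit 4) (nat_lit 1) (nat_lit 4) (nat_lit 319) (nat_lit 202) (nat_lit 199))) (XT.nd (nat_lit 78) (nat_lit 0) (nat_lit 0) (XT.lf (nat_lit 0) (nat_lit 186375632959) (nat_lit 152) (nat_lit 284185817156) (nat_lit 0) (nat_lit 186011184348) (nat_lit 1) (nat_lit 5) (nat_lit 3) (nat_lit 4) (nat_lit 1) (nat_lit 4) (nat_lit 320) (nat_lit 202) (nat_lit 198)) (XT.nd (nat_lit 78) (nat_lit 0) (nat_lit 0) (XT.lf (nat_lit 0) (nat_lit 202301783873) (nat_lit 152) (nat_lit 304876559672) (nat_lit 0) (nat_lit 201862447551) (nat_lit 1) (nat_lit 5) (nat_lit 3) (nat_lit 4) (nat_lit 1) (nat_lit 4) (nat_lit 321) (nat_lit 202) (nat_lit 197)) (XT.lf (nat_lit 0) (nat_lit 219453142062) (nat_lit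 152) (nat_lit 327311295663) (nat_lit 0) (nat_lit 218944465265) (nat_lit 1) (nat_lit 5) (nat_lit 3) (nat_lit 4) (nat_lit 1) (nat_lit 4) (nat_lit 322) (nat_lit 202) (nat_lit 196))))) (XT.nd (nat_lit 156) (nat_lit 0) (nat_lit 0) (XT.nd (nat_lit 78) (nat_lit 0) (nat_lit 0) (XT.lf (nat_lit 0) (nat_lit 237931345202) (nat_lit 152) (nat_lit 351622971712) (nat_lit 0) (nat_lit 237358464263) (nat_lit 1) (nat_lit 5) (nat_lit 3) (nat_lit 4) (nat_lit 1) (nat_lit 4) (nat_lit 323) (nat_lit 202) (nat_lit 195)) (XT.lf (nat_lit 0) (nat_lit 257845893757) (nat_lit 152) (nat_lit 377955657010) (nat_lit 0) (nat_lit 257213564537) (nat_lit 1) (nat_lit 5) (nat_lit 3) (nat_lit 4) (nat_lit 1) (nat_lit 4) (nat_lit 324) (nat_lit 202) (nat_lit 194))) (XT.nd (nat_lit 78) (nat_lit 0) (nat_lit 0) (XT.lf (nat_lit 0) (nat_lit 279314799866) (nat_lit 152) (nat_lit 406465397100) (nat_lit 0) (nat_lit 278627425943) (nat_lit 1)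 (nat_lit 5) (nat_lit 3) (nat_lit 4) (nat_lit 1) (nat_lit 4) (nat_lit 325) (nat_lit 202) (nat_lit 193)) (XT.nd (nat_lit 36582) (nat_lit 0) (nat_lit 0) (XT.lf (nat_lit 0) (nat_lit 302465286677) (nat_lit 152) (nat_lit 437321138589) (nat_lit 0) (nat_lit 301726945436) (nat_lit 1) (nat_lit 5) (nat_lit 3) (nat_lit 4) (nat_lit 1) (nat_lit 4) (nat_lit 326) (nat_lit 202) (nat_lit 192)) (XT.lf (nat_lit 0) (nat_lit 55925640005) (nat_lit 152) (nat_lit 95183896816) (nat_lit 0) (nat_lit 55925640005) (nat_lit 1) (nat_lit 5) (nat_lit 3) (nat_lit 4) (nat_lit 1) (nat_lit 4) (nat_lit 314) (nat_lit 203) (nat_lit 203))))))))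
noncomputable def xc1 : XT := (XT.nd (nat_lit 37830) (nat_lit 0) (nat_lit 0) (XT.nd (nat_lit 702) (nat_lit 0) (nat_lit 0) (XT.nd (nat_lit 312) (nat_lit 0) (nat_lit 0) (XT.nd (nat_lit 156) (nat_lit 0) (nat_lit 0) (XT.nd (nat_lit 78) (nat_lit 0) (nat_lit 0) (XT.lf (nat_lit 0) (nat_lit 122153705748) (nat_lit 152) (nat_lit 202923184448) (nat_lit 0) (nat_lit 122043671131) (nat_lit 1) (nat_lit 5) (nat_lit 3) (nat_lit 4) (nat_lit 1) (nat_lit 4) (nat_lit 315) (nat_lit 203) (nat_lit 202)) (XT.lf (nat_lit 0) (nat_lit 133208497737) (nat_lit 152) (nat_lit 216613385994) (nat_lit 0) (nat_lit 132996579214) (nat_lit 1) (nat_lit 5) (nat_lit 3) (nat_lit 4) (nat_lit 1) (nat_lit 4) (nat_lit 316) (nat_lit 203) (nat_lit 201))) (XT.nd (nat_lit 78) (nat_lit 0) (nat_lit 0) (XT.lf (nat_lit 0) (nat_lit 145081165854) (nat_lit 152) (nat_lit 231519525390) (nat_lit 0) (nat_lit 144774910382) (nat_lit 1) (nat_lit 5)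 (nat_lit 3) (nat_lit 4) (nat_lit 1) (nat_lit 4) (nat_lit 317) (nat_lit 203) (nat_lit 200)) (XT.lf (nat_lit 0) (nat_lit 157842066653) (nat_lit 152) (nat_lit 247729935314) (nat_lit 0) (nat_lit 157448462153) (nat_lit 1) (nat_lit 5) (nat_lit 3) (nat_lit 4) (nat_lit 1) (nat_lit 4) (nat_lit 318) (nat_lit 203) (nat_lit 199)))) (XT.nd (nat_lit 156) (nat_lit 0) (nat_lit 0) (XT.nd (nat_lit 78) (nat_lit 0) (nat_lit 0) (XT.lf (nat_lit 0) (nat_lit 171566820285) (nat_lit 152) (nat_lit 265340677455) (nat_lit 0) (nat_lit 171092337057) (nat_lit 1) (nat_lit 5) (nat_lit 3) (nat_lit 4) (nat_lit 1) (nat_lit 4) (nat_lit 319) (nat_lit 203) (nat_lit 198)) (XT.lf (nat_lit 0) (nat_lit 186336758625) (nat_lit 152) (nat_lit 284456111766) (nat_lit 0) (nat_lit 185787387684) (nat_lit 1) (nat_lit 5) (nat_lit 3) (nat_lit 4) (nat_lit 1) (nat_lit 4) (nat_lit 320) (nat_lit 203) (nat_lit 197))) (XT.nd (nat_lit 78) (nat_lit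 0) (nat_lit 0) (XT.lf (nat_lit 0) (nat_lit 202239407232) (nat_lit 152) (nat_lit 305189514894) (nat_lit 0) (nat_lit 201620695817) (nat_lit 1) (nat_lit 5) (nat_lit 3) (nat_lit 4) (nat_lit 1) (nat_lit 4) (nat_lit 321) (nat_lit 203) (nat_lit 196)) (XT.nd (nat_lit 78) (nat_lit 0) (nat_lit 0) (XT.lf (nat_lit 0) (nat_lit 219369004024) (nat_lit 152) (nat_lit 327663751452) (nat_lit 0) (nat_lit 218686088467) (nat_lit 1) (nat_lit 5) (nat_lit 3) (nat_lit 4) (nat_lit 1) (nat_lit 4) (nat_lit 322) (nat_lit 203) (nat_lit 195)) (XT.lf (nat_lit 0) (nat_lit 237827057724) (nat_lit 152) (nat_lit 352012002099) (nat_lit 0) (nat_lit 237084693887) (nat_lit 1) (nat_lit 5) (nat_lit 3) (nat_lit 4) (nat_lit 1) (nat_lit 4) (nat_lit 323) (nat_lit 203) (nat_lit 194)))))) (XT.nd (nat_lit 36738) (nat_lit 0) (nat_lit 0) (XT.nd (nat_lit 36582) (nat_lit 0) (nat_lit 0) (XT.nd (nat_lit 78) (nat_lit 0) (nat_lit 0) (XT.lf (nat_lit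 0) (nat_lit 257722949389) (nat_lit 152) (nat_lit 378378552767) (nat_lit 0) (nat_lit 256925540848) (nat_lit 1) (nat_lit 5) (nat_lit 3) (nat_lit 4) (nat_lit 1) (nat_lit 4) (nat_lit 324) (nat_lit 203) (nat_lit 193)) (XT.lf (nat_lit 0) (nat_lit 279174580601) (nat_lit 152) (nat_lit 406919649680) (nat_lit 0) (nat_lit 278326204742) (nat_lit 1) (nat_lit 5) (nat_lit 3) (nat_lit 4) (nat_lit 1) (nat_lit 4) (nat_lit 325) (nat_lit 203) (nat_lit 192))) (XT.nd (nat_lit 78) (nat_lit 0) (nat_lit 0) (XT.lf (nat_lit 0) (nat_lit 46711267266) (nat_lit 152) (nat_lit 84148503018) (nat_lit 0) (nat_lit 46711267266) (nat_lit 1) (nat_lit 5) (nat_lit 3) (nat_lit 4) (nat_lit 1) (nat_lit 4) (nat_lit 312) (nat_lit 204) (nat_lit 204)) (XT.lf (nat_lit 0) (nat_lit 102359006499) (nat_lit 152) (nat_lit 178872811230) (nat_lit 0) (nat_lit 102240169111) (nat_lit 1) (nat_lit 5) (nat_lit 3) (nat_lit 4) (nat_lit 1) (nat_lit 4)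 (nat_lit 313) (nat_lit 204) (nat_lit 203)))) (XT.nd (nat_lit 156) (nat_lit 0) (nat_lit 0) (XT.nd (nat_lit 78) (nat_lit 0) (nat_lit 0) (XT.lf (nat_lit 0) (nat_lit 111932822189) (nat_lit 152) (nat_lit 190435490662) (nat_lit 0) (nat_lit 111703950185) (nat_lit 1) (nat_lit 5) (nat_lit 3) (nat_lit 4) (nat_lit 1) (nat_lit 4) (nat_lit 314) (nat_lit 204) (nat_lit 202)) (XT.lf (nat_lit 0) (nat_lit 122200715327) (nat_lit 152) (nat_lit 203053563913) (nat_lit 0) (nat_lit 121869959417) (nat_lit 1) (nat_lit 5) (nat_lit 3) (nat_lit 4) (nat_lit 1) (nat_lit 4) (nat_lit 315) (nat_lit 204) (nat_lit 201))) (XT.nd (nat_lit 78) (nat_lit 0) (nat_lit 0) (XT.lf (nat_lit 0) (nat_lit 133223532686) (nat_lit 152) (nat_lit 216801804750) (nat_lit 0) (nat_lit 132798439826) (nat_lit 1) (nat_lit 5) (nat_lit 3) (nat_lit 4) (nat_lit 1) (nat_lit 4) (nat_lit 316) (nat_lit 204) (nat_lit 200)) (XT.nd (nat_lit 78) (nat_lit 0)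 (nat_lit 0) (XT.lf (nat_lit 0) (nat_lit 145066594665) (nat_lit 152) (nat_lit 231761684231) (nat_lit 0) (nat_lit 144554152778) (nat_lit 1) (nat_lit 5) (nat_lit 3) (nat_lit 4) (nat_lit 1) (nat_lit 4) (nat_lit 317) (nat_lit 204) (nat_lit 199)) (XT.lf (nat_lit 0) (nat_lit 157800082372) (nat_lit 152) (nat_lit 248021853493) (nat_lit 0) (nat_lit 157206761756) (nat_lit 1) (nat_lit 5) (nat_lit 3) (nat_lit 4) (nat_lit 1) (nat_lit 4) (nat_lit 318) (nat_lit 204) (nat_lit 198))))))) (XT.nd (nat_lit 36972) (nat_lit 0) (nat_lit 0) (XT.nd (nat_lit 312) (nat_lit 0) (nat_lit 0) (XT.nd (nat_lit 156) (nat_lit 0) (nat_lit 0) (XT.nd (nat_lit 78) (nat_lit 0) (nat_lit 0) (XT.lf (nat_lit 0) (nat_lit 171499453512) (nat_lit 152) (nat_lit 265678669095) (nat_lit 0) (nat_lit 170831245185) (nat_lit 1) (nat_lit 5) (nat_lit 3) (nat_lit 4) (nat_lit 1) (nat_lit 4) (nat_lit 319) (nat_lit 204) (nat_lit 197)) (XT.lf (nat_lit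 0) (nat_lit 186245889544) (nat_lit 152) (nat_lit 284836764018) (nat_lit 0) (nat_lit 185508340743) (nat_lit 1) (nat_lit 5) (nat_lit 3) (nat_lit 4) (nat_lit 1) (nat_lit 4) (nat_lit 320) (nat_lit 204) (nat_lit 196))) (XT.nd (nat_lit 78) (nat_lit 0) (nat_lit 0) (XT.lf (nat_lit 0) (nat_lit 202126776755) (nat_lit 152) (nat_lit 305609667713) (nat_lit 0) (nat_lit 201325023811) (nat_lit 1) (nat_lit 5) (nat_lit 3) (nat_lit 4) (nat_lit 1) (nat_lit 4) (nat_lit 321) (nat_lit 204) (nat_lit 195)) (XT.lf (nat_lit 0) (nat_lit 219236224107) (nat_lit 152) (nat_lit 328120478869) (nat_lit 0) (nat_lit 218375022883) (nat_lit 1) (nat_lit 5) (nat_lit 3) (nat_lit 4) (nat_lit 1) (nat_lit 4) (nat_lit 322) (nat_lit 204) (nat_lit 194)))) (XT.nd (nat_lit 156) (nat_lit 0) (nat_lit 0) (XT.nd (nat_lit 78) (nat_lit 0) (nat_lit 0) (XT.lf (nat_lit 0) (nat_lit 237675620917) (nat_lit 152) (nat_lit 352502594886) (nat_lit 0)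 (nat_lit 236759374989) (nat_lit 1) (nat_lit 5) (nat_lit 3) (nat_lit 4) (nat_lit 1) (nat_lit 4) (nat_lit 323) (nat_lit 204) (nat_lit 193)) (XT.lf (nat_lit 0) (nat_lit 257554237685) (nat_lit 152) (nat_lit 378900502376) (nat_lit 0) (nat_lit 256587024439) (nat_lit 1) (nat_lit 5) (nat_lit 3) (nat_lit 4) (nat_lit 1) (nat_lit 4) (nat_lit 324) (nat_lit 204) (nat_lit 192))) (XT.nd (nat_lit 36348) (nat_lit 0) (nat_lit 0) (XT.lf (nat_lit 0) (nat_lit 278989873621) (nat_lit 152) (nat_lit 407470633385) (nat_lit 0) (nat_lit 277975468414) (nat_lit 1) (nat_lit 5) (nat_lit 3) (nat_lit 4) (nat_lit 1) (nat_lit 4) (nat_lit 325) (nat_lit 204) (nat_lit 191)) (XT.nd (nat_lit 78) (nat_lit 0) (nat_lit 0) (XT.lf (nat_lit 0) (nat_lit 38712551415) (nat_lit 152) (nat_lit 74890923774) (nat_lit 0) (nat_lit 38712551415) (nat_lit 1) (nat_lit 5) (nat_lit 3) (nat_lit 4) (nat_lit 1) (nat_lit 4) (nat_lit 310) (nat_lit 205)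 (nat_lit 205)) (XT.lf (nat_lit 0) (nat_lit 85198793797) (nat_lit 152) (nat_lit 158645403641) (nat_lit 0) (nat_lit 85070449419) (nat_lit 1) (nat_lit 5) (nat_lit 3) (nat_lit 4) (nat_lit 1) (nat_lit 4) (nat_lit 311) (nat_lit 205) (nat_lit 204)))))) (XT.nd (nat_lit 390) (nat_lit 0) (nat_lit 0) (XT.nd (nat_lit 156) (nat_lit 0) (nat_lit 0) (XT.nd (nat_lit 78) (nat_lit 0) (nat_lit 0) (XT.lf (nat_lit 0) (nat_lit 93510600085) (nat_lit 152) (nat_lit 168370118828) (nat_lit 0) (nat_lit 93263418320) (nat_lit 1) (nat_lit 5) (nat_lit 3) (nat_lit 4) (nat_lit 1) (nat_lit 4) (nat_lit 312) (nat_lit 205) (nat_lit 203)) (XT.lf (nat_lit 0) (nat_lit 102409776844) (nat_lit 152) (nat_lit 179013621052) (nat_lit 0) (nat_lit 102052560461) (nat_lit 1) (nat_lit 5) (nat_lit 3) (nat_lit 4) (nat_lit 1) (nat_lit 4) (nat_lit 313) (nat_lit 205) (nat_lit 202))) (XT.nd (nat_lit 78) (nat_lit 0) (nat_lit 0) (XT.lf (nat_lit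 0) (nat_lit 111949059934) (nat_lit 152) (nat_lit 190638982918) (nat_lit 0) (nat_lit 111489959646) (nat_lit 1) (nat_lit 5) (nat_lit 3) (nat_lit 4) (nat_lit 1) (nat_lit 4) (nat_lit 314) (nat_lit 205) (nat_lit 201)) (XT.nd (nat_lit 78) (nat_lit 0) (nat_lit 0) (XT.lf (nat_lit 0) (nat_lit 122184978442) (nat_lit 152) (nat_lit 203315095461) (nat_lit 0) (nat_lit 121631541205) (nat_lit 1) (nat_lit 5) (nat_lit 3) (nat_lit 4) (nat_lit 1) (nat_lit 4) (nat_lit 315) (nat_lit 205) (nat_lit 200)) (XT.lf (nat_lit 0) (nat_lit 133178189662) (nat_lit 152) (nat_lit 217117076383) (nat_lit 0) (nat_lit 132537403397) (nat_lit 1) (nat_lit 5) (nat_lit 3) (nat_lit 4) (nat_lit 1) (nat_lit 4) (nat_lit 316) (nat_lit 205) (nat_lit 199))))) (XT.nd (nat_lit 156) (nat_lit 0) (nat_lit 0) (XT.nd (nat_lit 78) (nat_lit 0) (nat_lit 0) (XT.lf (nat_lit 0) (nat_lit 144993838550) (nat_lit 152) (nat_lit 232126715202) (nat_lit 0)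 (nat_lit 144272173556) (nat_lit 1) (nat_lit 5) (nat_lit 3) (nat_lit 4) (nat_lit 1) (nat_lit 4) (nat_lit 317) (nat_lit 205) (nat_lit 198)) (XT.lf (nat_lit 0) (nat_lit 157701943765) (nat_lit 152) (nat_lit 248432957925) (nat_lit 0) (nat_lit 156905391059) (nat_lit 1) (nat_lit 5) (nat_lit 3) (nat_lit 4) (nat_lit 1) (nat_lit 4) (nat_lit 318) (nat_lit 205) (nat_lit 197))) (XT.nd (nat_lit 78) (nat_lit 0) (nat_lit 0) (XT.lf (nat_lit 0) (nat_lit 171377812597) (nat_lit 152) (nat_lit 266132434139) (nat_lit 0) (nat_lit 170511919418) (nat_lit 1) (nat_lit 5) (nat_lit 3) (nat_lit 4) (nat_lit 1) (nat_lit 4) (nat_lit 319) (nat_lit 205) (nat_lit 196)) (XT.nd (nat_lit 78) (nat_lit 0) (nat_lit 0) (XT.lf (nat_lit 0) (nat_lit 186102487234) (nat_lit 152) (nat_lit 285330029628) (nat_lit 0) (nat_lit 185172389912) (nat_lit 1) (nat_lit 5) (nat_lit 3) (nat_lit 4) (nat_lit 1) (nat_lit 4) (nat_lit 320) (nat_lit 205)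 (nat_lit 195)) (XT.lf (nat_lit 0) (nat_lit 201963225004) (nat_lit 152) (nat_lit 306139507922) (nat_lit 0) (nat_lit 200973679402) (nat_lit 1) (nat_lit 5) (nat_lit 3) (nat_lit 4) (nat_lit 1) (nat_lit 4) (nat_lit 321) (nat_lit 205) (nat_lit 194))))))))
noncomputable def xc2 : XT := (XT.nd (nat_lit 37518) (nat_lit 0) (nat_lit 0) (XT.nd (nat_lit 36816) (nat_lit 0) (nat_lit 0) (XT.nd (nat_lit 36426) (nat_lit 0) (nat_lit 0) (XT.nd (nat_lit 156) (nat_lit 0) (nat_lit 0) (XT.nd (nat_lit 78) (nat_lit 0) (nat_lit 0) (XT.lf (nat_lit 0) (nat_lit 219054015467) (nat_lit 152) (nat_lit 328684184448) (nat_lit 0) (nat_lit 218009425161) (nat_lit 1) (nat_lit 5) (nat_lit 3) (nat_lit 4) (nat_lit 1) (nat_lit 4) (nat_lit 322) (nat_lit 205) (nat_lit 193)) (XT.lf (nat_lit 0) (nat_lit 237476137379) (nat_lit 152) (nat_lit 353097657288) (nat_lit 0) (nat_lit 236380579755) (nat_lit 1) (nat_lit 5) (nat_lit 3) (nat_lit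 4) (nat_lit 1) (nat_lit 4) (nat_lit 323) (nat_lit 205) (nat_lit 192))) (XT.nd (nat_lit 78) (nat_lit 0) (nat_lit 0) (XT.lf (nat_lit 0) (nat_lit 257338758872) (nat_lit 152) (nat_lit 379524598874) (nat_lit 0) (nat_lit 256196009286) (nat_lit 1) (nat_lit 5) (nat_lit 3) (nat_lit 4) (nat_lit 1) (nat_lit 4) (nat_lit 324) (nat_lit 205) (nat_lit 191)) (XT.lf (nat_lit 0) (nat_lit 278759584368) (nat_lit 152) (nat_lit 408121613305) (nat_lit 0) (nat_lit 277573138521) (nat_lit 1) (nat_lit 5) (nat_lit 3) (nat_lit 4) (nat_lit 1) (nat_lit 4) (nat_lit 325) (nat_lit 205) (nat_lit 190)))) (XT.nd (nat_lit 156) (nat_lit 0) (nat_lit 0) (XT.nd (nat_lit 78) (nat_lit 0) (nat_lit 0) (XT.lf (nat_lit 0) (nat_lit 31748155295) (nat_lit 152) (nat_lit 67173813344) (nat_lit 0) (nat_lit 31748155295) (nat_lit 1) (nat_lit 5) (nat_lit 3) (nat_lit 4) (nat_lit 1) (nat_lit 4) (nat_lit 308) (nat_lit 206) (nat_lit 206)) (XT.lf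 (nat_lit 0) (nat_lit 70282072797) (nat_lit 152) (nat_lit 141726925774) (nat_lit 0) (nat_lit 70143460868) (nat_lit 1) (nat_lit 5) (nat_lit 3) (nat_lit 4) (nat_lit 1) (nat_lit 4) (nat_lit 309) (nat_lit 206) (nat_lit 205))) (XT.nd (nat_lit 78) (nat_lit 0) (nat_lit 0) (XT.lf (nat_lit 0) (nat_lit 77520213628) (nat_lit 152) (nat_lit 149860809364) (nat_lit 0) (nat_lit 77253257321) (nat_lit 1) (nat_lit 5) (nat_lit 3) (nat_lit 4) (nat_lit 1) (nat_lit 4) (nat_lit 310) (nat_lit 206) (nat_lit 204)) (XT.nd (nat_lit 78) (nat_lit 0) (nat_lit 0) (XT.lf (nat_lit 0) (nat_lit 85253625770) (nat_lit 152) (nat_lit 158797478248) (nat_lit 0) (nat_lit 84867832076) (nat_lit 1) (nat_lit 5) (nat_lit 3) (nat_lit 4) (nat_lit 1) (nat_lit 4) (nat_lit 311) (nat_lit 206) (nat_lit 203)) (XT.lf (nat_lit 0) (nat_lit 93528136850) (nat_lit 152) (nat_lit 168589890465) (nat_lit 0) (nat_lit 93032308538) (nat_lit 1) (nat_lit 5)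 (nat_lit 3) (nat_lit 4) (nat_lit 1) (nat_lit 4) (nat_lit 312) (nat_lit 206) (nat_lit 202)))))) (XT.nd (nat_lit 312) (nat_lit 0) (nat_lit 0) (XT.nd (nat_lit 156) (nat_lit 0) (nat_lit 0) (XT.nd (nat_lit 78) (nat_lit 0) (nat_lit 0) (XT.lf (nat_lit 0) (nat_lit 102392781008) (nat_lit 152) (nat_lit 179296075124) (nat_lit 0) (nat_lit 101795068791) (nat_lit 1) (nat_lit 5) (nat_lit 3) (nat_lit 4) (nat_lit 1) (nat_lit 4) (nat_lit 313) (nat_lit 206) (nat_lit 201)) (XT.lf (nat_lit 0) (nat_lit 111900089469) (nat_lit 152) (nat_lit 190979476282) (nat_lit 0) (nat_lit 111208040303) (nat_lit 1) (nat_lit 5) (nat_lit 3) (nat_lit 4) (nat_lit 1) (nat_lit 4) (nat_lit 314) (nat_lit 206) (nat_lit 200))) (XT.nd (nat_lit 78) (nat_lit 0) (nat_lit 0) (XT.lf (nat_lit 0) (nat_lit 122106401838) (nat_lit 152) (nat_lit 203709328910) (nat_lit 0) (nat_lit 121327003645) (nat_lit 1) (nat_lit 5) (nat_lit 3) (nat_lit 4) (nat_lit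 1) (nat_lit 4) (nat_lit 315) (nat_lit 206) (nat_lit 199)) (XT.lf (nat_lit 0) (nat_lit 133072199966) (nat_lit 152) (nat_lit 217561069170) (nat_lit 0) (nat_lit 132211923045) (nat_lit 1) (nat_lit 5) (nat_lit 3) (nat_lit 4) (nat_lit 1) (nat_lit 4) (nat_lit 316) (nat_lit 206) (nat_lit 198)))) (XT.nd (nat_lit 156) (nat_lit 0) (nat_lit 0) (XT.nd (nat_lit 78) (nat_lit 0) (nat_lit 0) (XT.lf (nat_lit 0) (nat_lit 144862466362) (nat_lit 152) (nat_lit 232616781450) (nat_lit 0) (nat_lit 143927301728) (nat_lit 1) (nat_lit 5) (nat_lit 3) (nat_lit 4) (nat_lit 1) (nat_lit 4) (nat_lit 317) (nat_lit 206) (nat_lit 197)) (XT.lf (nat_lit 0) (nat_lit 157547069269) (nat_lit 152) (nat_lit 248965684784) (nat_lit 0) (nat_lit 156542564162) (nat_lit 1) (nat_lit 5) (nat_lit 3) (nat_lit 4) (nat_lit 1) (nat_lit 4) (nat_lit 318) (nat_lit 206) (nat_lit 196))) (XT.nd (nat_lit 78) (nat_lit 0) (nat_lit 0) (XT.lf (nat_lit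 0) (nat_lit 171201176706) (nat_lit 152) (nat_lit 266704661565) (nat_lit 0) (nat_lit 170132467456) (nat_lit 1) (nat_lit 5) (nat_lit 3) (nat_lit 4) (nat_lit 1) (nat_lit 4) (nat_lit 319) (nat_lit 206) (nat_lit 195)) (XT.nd (nat_lit 78) (nat_lit 0) (nat_lit 0) (XT.lf (nat_lit 0) (nat_lit 185905701902) (nat_lit 152) (nat_lit 285938831653) (nat_lit 0) (nat_lit 184777544372) (nat_lit 1) (nat_lit 5) (nat_lit 3) (nat_lit 4) (nat_lit 1) (nat_lit 4) (nat_lit 320) (nat_lit 206) (nat_lit 194)) (XT.lf (nat_lit 0) (nat_lit 201747782783) (nat_lit 152) (nat_lit 306782175316) (nat_lit 0) (nat_lit 200564580549) (nat_lit 1) (nat_lit 5) (nat_lit 3) (nat_lit 4) (nat_lit 1) (nat_lit 4) (nat_lit 321) (nat_lit 206) (nat_lit 193))))))) (XT.nd (nat_lit 36660) (nat_lit 0) (nat_lit 0) (XT.nd (nat_lit 36270) (nat_lit 0) (nat_lit 0) (XT.nd (nat_lit 156) (nat_lit 0) (nat_lit 0) (XT.nd (nat_lit 78) (nat_lit 0) (nat_lit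 0) (XT.lf (nat_lit 0) (nat_lit 218821298348) (nat_lit 152) (nat_lit 329358208665) (nat_lit 0) (nat_lit 217587128796) (nat_lit 1) (nat_lit 5) (nat_lit 3) (nat_lit 4) (nat_lit 1) (nat_lit 4) (nat_lit 322) (nat_lit 206) (nat_lit 192)) (XT.lf (nat_lit 0) (nat_lit 237227424985) (nat_lit 152) (nat_lit 353800715601) (nat_lit 0) (nat_lit 235946063471) (nat_lit 1) (nat_lit 5) (nat_lit 3) (nat_lit 4) (nat_lit 1) (nat_lit 4) (nat_lit 323) (nat_lit 206) (nat_lit 191))) (XT.nd (nat_lit 78) (nat_lit 0) (nat_lit 0) (XT.lf (nat_lit 0) (nat_lit 257075236037) (nat_lit 152) (nat_lit 380254540609) (nat_lit 0) (nat_lit 255750178263) (nat_lit 1) (nat_lit 5) (nat_lit 3) (nat_lit 4) (nat_lit 1) (nat_lit 4) (nat_lit 324) (nat_lit 206) (nat_lit 190)) (XT.lf (nat_lit 0) (nat_lit 278482348163) (nat_lit 152) (nat_lit 408876447097) (nat_lit 0) (nat_lit 277116830888) (nat_lit 1) (nat_lit 5) (nat_lit 3) (nat_lit 4)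 (nat_lit 1) (nat_lit 4) (nat_lit 325) (nat_lit 206) (nat_lit 189)))) (XT.nd (nat_lit 156) (nat_lit 0) (nat_lit 0) (XT.nd (nat_lit 78) (nat_lit 0) (nat_lit 0) (XT.lf (nat_lit 0) (nat_lit 25661978712) (nat_lit 152) (nat_lit 60794988360) (nat_lit 0) (nat_lit 25661978712) (nat_lit 1) (nat_lit 5) (nat_lit 3) (nat_lit 4) (nat_lit 1) (nat_lit 4) (nat_lit 306) (nat_lit 207) (nat_lit 207)) (XT.lf (nat_lit 0) (nat_lit 57272415966) (nat_lit 152) (nat_lit 127679182925) (nat_lit 0) (nat_lit 57122715083) (nat_lit 1) (nat_lit 5) (nat_lit 3) (nat_lit 4) (nat_lit 1) (nat_lit 4) (nat_lit 307) (nat_lit 207) (nat_lit 206))) (XT.nd (nat_lit 78) (nat_lit 0) (nat_lit 0) (XT.lf (nat_lit 0) (nat_lit 63599030251) (nat_lit 152) (nat_lit 134432905449) (nat_lit 0) (nat_lit 63310717440) (nat_lit 1) (nat_lit 5) (nat_lit 3) (nat_lit 4) (nat_lit 1) (nat_lit 4) (nat_lit 308) (nat_lit 207) (nat_lit 205)) (XT.nd (nat_lit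 78) (nat_lit 0) (nat_lit 0) (XT.lf (nat_lit 0) (nat_lit 70341291327) (nat_lit 152) (nat_lit 141891166351) (nat_lit 0) (nat_lit 69924634138) (nat_lit 1) (nat_lit 5) (nat_lit 3) (nat_lit 4) (nat_lit 1) (nat_lit 4) (nat_lit 309) (nat_lit 207) (nat_lit 204)) (XT.lf (nat_lit 0) (nat_lit 77539153333) (nat_lit 152) (nat_lit 150098162732) (nat_lit 0) (nat_lit 77003658757) (nat_lit 1) (nat_lit 5) (nat_lit 3) (nat_lit 4) (nat_lit 1) (nat_lit 4) (nat_lit 310) (nat_lit 207) (nat_lit 203)))))) (XT.nd (nat_lit 390) (nat_lit 0) (nat_lit 0) (XT.nd (nat_lit 156) (nat_lit 0) (nat_lit 0) (XT.nd (nat_lit 78) (nat_lit 0) (nat_lit 0) (XT.lf (nat_lit 0) (nat_lit 85235270267) (nat_lit 152) (nat_lit 159102528646) (nat_lit 0) (nat_lit 84589741073) (nat_lit 1) (nat_lit 5) (nat_lit 3) (nat_lit 4) (nat_lit 1) (nat_lit 4) (nat_lit 311) (nat_lit 207) (nat_lit 202)) (XT.lf (nat_lit 0) (nat_lit 93475248747) (nat_lit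 152) (nat_lit 168957623298) (nat_lit 0) (nat_lit 92727835648) (nat_lit 1) (nat_lit 5) (nat_lit 3) (nat_lit 4) (nat_lit 1) (nat_lit 4) (nat_lit 312) (nat_lit 207) (nat_lit 201))) (XT.nd (nat_lit 78) (nat_lit 0) (nat_lit 0) (XT.lf (nat_lit 0) (nat_lit 102307918275) (nat_lit 152) (nat_lit 179721847249) (nat_lit 0) (nat_lit 101466168227) (nat_lit 1) (nat_lit 5) (nat_lit 3) (nat_lit 4) (nat_lit 1) (nat_lit 4) (nat_lit 313) (nat_lit 207) (nat_lit 200)) (XT.nd (nat_lit 78) (nat_lit 0) (nat_lit 0) (XT.lf (nat_lit 0) (nat_lit 111785620597) (nat_lit 152) (nat_lit 191458988492) (nat_lit 0) (nat_lit 110856521522) (nat_lit 1) (nat_lit 5) (nat_lit 3) (nat_lit 4) (nat_lit 1) (nat_lit 4) (nat_lit 314) (nat_lit 207) (nat_lit 199)) (XT.lf (nat_lit 0) (nat_lit 121964519875) (nat_lit 152) (nat_lit 204238600457) (nat_lit 0) (nat_lit 120954542071) (nat_lit 1) (nat_lit 5) (nat_lit 3) (nat_lit 4) (nat_lit 1)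 (nat_lit 4) (nat_lit 315) (nat_lit 207) (nat_lit 198))))) (XT.nd (nat_lit 156) (nat_lit 0) (nat_lit 0) (XT.nd (nat_lit 78) (nat_lit 0) (nat_lit 0) (XT.lf (nat_lit 0) (nat_lit 132904935512) (nat_lit 152) (nat_lit 218136414178) (nat_lit 0) (nat_lit 131820069995) (nat_lit 1) (nat_lit 5) (nat_lit 3) (nat_lit 4) (nat_lit 1) (nat_lit 4) (nat_lit 316) (nat_lit 207) (nat_lit 197)) (XT.lf (nat_lit 0) (nat_lit 144671699600) (nat_lit 152) (nat_lit 233234787070) (nat_lit 0) (nat_lit 143517493609) (nat_lit 1) (nat_lit 5) (nat_lit 3) (nat_lit 4) (nat_lit 1) (nat_lit 4) (nat_lit 317) (nat_lit 207) (nat_lit 196))) (XT.nd (nat_lit 78) (nat_lit 0) (nat_lit 0) (XT.lf (nat_lit 0) (nat_lit 157334541111) (nat_lit 152) (nat_lit 249623190971) (nat_lit 0) (nat_lit 156116130979) (nat_lit 1) (nat_lit 5) (nat_lit 3) (nat_lit 4) (nat_lit 1) (nat_lit 4) (nat_lit 318) (nat_lit 207) (nat_lit 195)) (XT.nd (nat_lit 78)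 (nat_lit 0) (nat_lit 0) (XT.lf (nat_lit 0) (nat_lit 170968499108) (nat_lit 152) (nat_lit 267398742350) (nat_lit 0) (nat_lit 169690640695) (nat_lit 1) (nat_lit 5) (nat_lit 3) (nat_lit 4) (nat_lit 1) (nat_lit 4) (nat_lit 319) (nat_lit 207) (nat_lit 194)) (XT.lf (nat_lit 0) (nat_lit 185654367414) (nat_lit 152) (nat_lit 286666777808) (nat_lit 0) (nat_lit 184321464297) (nat_lit 1) (nat_lit 5) (nat_lit 3) (nat_lit 4) (nat_lit 1) (nat_lit 4) (nat_lit 320) (nat_lit 207) (nat_lit 193))))))))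
noncomputable def xc3 : XT := (XT.nd (nat_lit 37206) (nat_lit 0) (nat_lit 0) (XT.nd (nat_lit 36504) (nat_lit 0) (nat_lit 0) (XT.nd (nat_lit 312) (nat_lit 0) (nat_lit 0) (XT.nd (nat_lit 156) (nat_lit 0) (nat_lit 0) (XT.nd (nat_lit 78) (nat_lit 0) (nat_lit 0) (XT.lf (nat_lit 0) (nat_lit 201479173398) (nat_lit 152) (nat_lit 307541478294) (nat_lit 0) (nat_lit 200095302963) (nat_lit 1) (nat_lit 5) (nat_lit 3) (nat_lit 4) (nat_lit 1) (nat_lit 4) (nat_lit 321) (nat_lit 207) (nat_lit 192)) (XT.lf (nat_lit 0) (nat_lit 218536693687) (nat_lit 152) (nat_lit 330146545739) (nat_lit 0) (nat_lit 217105631291) (nat_lit 1) (nat_lit 5) (nat_lit 3) (nat_lit 4) (nat_lit 1) (nat_lit 4) (nat_lit 322) (nat_lit 207) (nat_lit 191))) (XT.nd (nat_lit 78) (nat_lit 0) (nat_lit 0) (XT.lf (nat_lit 0) (nat_lit 236928009884) (nat_lit 152) (nat_lit 354615936096) (nat_lit 0) (nat_lit 235453251227) (nat_lit 1) (nat_lit 5)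 (nat_lit 3) (nat_lit 4) (nat_lit 1) (nat_lit 4) (nat_lit 323) (nat_lit 207) (nat_lit 190)) (XT.lf (nat_lit 0) (nat_lit 256762107565) (nat_lit 152) (nat_lit 381094653162) (nat_lit 0) (nat_lit 255246889408) (nat_lit 1) (nat_lit 5) (nat_lit 3) (nat_lit 4) (nat_lit 1) (nat_lit 4) (nat_lit 324) (nat_lit 207) (nat_lit 189)))) (XT.nd (nat_lit 35958) (nat_lit 0) (nat_lit 0) (XT.nd (nat_lit 35880) (nat_lit 0) (nat_lit 0) (XT.lf (nat_lit 0) (nat_lit 278156522125) (nat_lit 152) (nat_lit 409739607851) (nat_lit 0) (nat_lit 276603841467) (nat_lit 1) (nat_lit 5) (nat_lit 3) (nat_lit 4) (nat_lit 1) (nat_lit 4) (nat_lit 325) (nat_lit 207) (nat_lit 188)) (XT.lf (nat_lit 0) (nat_lit 20319507476) (nat_lit 152) (nat_lit 55582515711) (nat_lit 0) (nat_lit 20319507476) (nat_lit 1) (nat_lit 5) (nat_lit 3) (nat_lit 4) (nat_lit 1) (nat_lit 4) (nat_lit 304) (nat_lit 208) (nat_lit 208))) (XT.nd (nat_lit 78) (nat_lit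 0) (nat_lit 0) (XT.lf (nat_lit 0) (nat_lit 45880081453) (nat_lit 152) (nat_lit 116129202649) (nat_lit 0) (nat_lit 45718404500) (nat_lit 1) (nat_lit 5) (nat_lit 3) (nat_lit 4) (nat_lit 1) (nat_lit 4) (nat_lit 305) (nat_lit 208) (nat_lit 207)) (XT.nd (nat_lit 78) (nat_lit 0) (nat_lit 0) (XT.lf (nat_lit 0) (nat_lit 51434894658) (nat_lit 152) (nat_lit 121682077781) (nat_lit 0) (nat_lit 51123516822) (nat_lit 1) (nat_lit 5) (nat_lit 3) (nat_lit 4) (nat_lit 1) (nat_lit 4) (nat_lit 306) (nat_lit 208) (nat_lit 206)) (XT.lf (nat_lit 0) (nat_lit 57336371979) (nat_lit 152) (nat_lit 127856562747) (nat_lit 0) (nat_lit 56886382215) (nat_lit 1) (nat_lit 5) (nat_lit 3) (nat_lit 4) (nat_lit 1) (nat_lit 4) (nat_lit 307) (nat_lit 208) (nat_lit 205)))))) (XT.nd (nat_lit 312) (nat_lit 0) (nat_lit 0) (XT.nd (nat_lit 156) (nat_lit 0) (nat_lit 0) (XT.nd (nat_lit 78) (nat_lit 0) (nat_lit 0) (XT.lf (nat_lit 0)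 (nat_lit 63619485133) (nat_lit 152) (nat_lit 134689247087) (nat_lit 0) (nat_lit 63041150991) (nat_lit 1) (nat_lit 5) (nat_lit 3) (nat_lit 4) (nat_lit 1) (nat_lit 4) (nat_lit 308) (nat_lit 208) (nat_lit 204)) (XT.lf (nat_lit 0) (nat_lit 70321467384) (nat_lit 152) (nat_lit 142220620781) (nat_lit 0) (nat_lit 69624295855) (nat_lit 1) (nat_lit 5) (nat_lit 3) (nat_lit 4) (nat_lit 1) (nat_lit 4) (nat_lit 309) (nat_lit 208) (nat_lit 203))) (XT.nd (nat_lit 78) (nat_lit 0) (nat_lit 0) (XT.lf (nat_lit 0) (nat_lit 77482034182) (nat_lit 152) (nat_lit 150495314192) (nat_lit 0) (nat_lit 76674828035) (nat_lit 1) (nat_lit 5) (nat_lit 3) (nat_lit 4) (nat_lit 1) (nat_lit 4) (nat_lit 310) (nat_lit 208) (nat_lit 202)) (XT.lf (nat_lit 0) (nat_lit 85143618516) (nat_lit 152) (nat_lit 159562362541) (nat_lit 0) (nat_lit 84234528463) (nat_lit 1) (nat_lit 5) (nat_lit 3) (nat_lit 4) (nat_lit 1) (nat_lit 4) (nat_lit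 311) (nat_lit 208) (nat_lit 201)))) (XT.nd (nat_lit 156) (nat_lit 0) (nat_lit 0) (XT.nd (nat_lit 78) (nat_lit 0) (nat_lit 0) (XT.lf (nat_lit 0) (nat_lit 93351622366) (nat_lit 152) (nat_lit 169475496484) (nat_lit 0) (nat_lit 92348195364) (nat_lit 1) (nat_lit 5) (nat_lit 3) (nat_lit 4) (nat_lit 1) (nat_lit 4) (nat_lit 312) (nat_lit 208) (nat_lit 200)) (XT.lf (nat_lit 0) (nat_lit 102154685755) (nat_lit 152) (nat_lit 180293460520) (nat_lit 0) (nat_lit 101063909727) (nat_lit 1) (nat_lit 5) (nat_lit 3) (nat_lit 4) (nat_lit 1) (nat_lit 4) (nat_lit 313) (nat_lit 208) (nat_lit 199))) (XT.nd (nat_lit 78) (nat_lit 0) (nat_lit 0) (XT.lf (nat_lit 0) (nat_lit 111604974986) (nat_lit 152) (nat_lit 192080361101) (nat_lit 0) (nat_lit 110433320229) (nat_lit 1) (nat_lit 5) (nat_lit 3) (nat_lit 4) (nat_lit 1) (nat_lit 4) (nat_lit 314) (nat_lit 208) (nat_lit 198)) (XT.nd (nat_lit 78) (nat_lit 0) (nat_lit 0)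 (XT.lf (nat_lit 0) (nat_lit 121758491772) (nat_lit 152) (nat_lit 204906046527) (nat_lit 0) (nat_lit 120511949302) (nat_lit 1) (nat_lit 5) (nat_lit 3) (nat_lit 4) (nat_lit 1) (nat_lit 4) (nat_lit 315) (nat_lit 208) (nat_lit 197)) (XT.lf (nat_lit 0) (nat_lit 132675405101) (nat_lit 152) (nat_lit 218846520860) (nat_lit 0) (nat_lit 131359522158) (nat_lit 1) (nat_lit 5) (nat_lit 3) (nat_lit 4) (nat_lit 1) (nat_lit 4) (nat_lit 316) (nat_lit 208) (nat_lit 196))))))) (XT.nd (nat_lit 36348) (nat_lit 0) (nat_lit 0) (XT.nd (nat_lit 312) (nat_lit 0) (nat_lit 0) (XT.nd (nat_lit 156) (nat_lit 0) (nat_lit 0) (XT.nd (nat_lit 78) (nat_lit 0) (nat_lit 0) (XT.lf (nat_lit 0) (nat_lit 144420407793) (nat_lit 152) (nat_lit 233984394318) (nat_lit 0) (nat_lit 143040320707) (nat_lit 1) (nat_lit 5) (nat_lit 3) (nat_lit 4) (nat_lit 1) (nat_lit 4) (nat_lit 317) (nat_lit 208) (nat_lit 195)) (XT.lf (nat_lit 0) (nat_lit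 157063099864) (nat_lit 152) (nat_lit 250409372818) (nat_lit 0) (nat_lit 155623564498) (nat_lit 1) (nat_lit 5) (nat_lit 3) (nat_lit 4) (nat_lit 1) (nat_lit 4) (nat_lit 318) (nat_lit 208) (nat_lit 194))) (XT.nd (nat_lit 78) (nat_lit 0) (nat_lit 0) (XT.lf (nat_lit 0) (nat_lit 170678400972) (nat_lit 152) (nat_lit 268218789567) (nat_lit 0) (nat_lit 169183820902) (nat_lit 1) (nat_lit 5) (nat_lit 3) (nat_lit 4) (nat_lit 1) (nat_lit 4) (nat_lit 319) (nat_lit 208) (nat_lit 193)) (XT.lf (nat_lit 0) (nat_lit 185346994380) (nat_lit 152) (nat_lit 287518181847) (nat_lit 0) (nat_lit 183801446992) (nat_lit 1) (nat_lit 5) (nat_lit 3) (nat_lit 4) (nat_lit 1) (nat_lit 4) (nat_lit 320) (nat_lit 208) (nat_lit 192)))) (XT.nd (nat_lit 156) (nat_lit 0) (nat_lit 0) (XT.nd (nat_lit 78) (nat_lit 0) (nat_lit 0) (XT.lf (nat_lit 0) (nat_lit 201155805088) (nat_lit 152) (nat_lit 308421916430) (nat_lit 0) (nat_lit 199563065739)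 (nat_lit 1) (nat_lit 5) (nat_lit 3) (nat_lit 4) (nat_lit 1) (nat_lit 4) (nat_lit 321) (nat_lit 208) (nat_lit 191)) (XT.lf (nat_lit 0) (nat_lit 218198514938) (nat_lit 152) (nat_lit 331053867296) (nat_lit 0) (nat_lit 216562079327) (nat_lit 1) (nat_lit 5) (nat_lit 3) (nat_lit 4) (nat_lit 1) (nat_lit 4) (nat_lit 322) (nat_lit 208) (nat_lit 190))) (XT.nd (nat_lit 78) (nat_lit 0) (nat_lit 0) (XT.lf (nat_lit 0) (nat_lit 236576117764) (nat_lit 152) (nat_lit 355548149711) (nat_lit 0) (nat_lit 234899222653) (nat_lit 1) (nat_lit 5) (nat_lit 3) (nat_lit 4) (nat_lit 1) (nat_lit 4) (nat_lit 323) (nat_lit 208) (nat_lit 189)) (XT.nd (nat_lit 78) (nat_lit 0) (nat_lit 0) (XT.lf (nat_lit 0) (nat_lit 256397517880) (nat_lit 152) (nat_lit 382049914978) (nat_lit 0) (nat_lit 254683160268) (nat_lit 1) (nat_lit 5) (nat_lit 3) (nat_lit 4) (nat_lit 1) (nat_lit 4) (nat_lit 324) (nat_lit 208) (nat_lit 188)) (XT.lf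 (nat_lit 0) (nat_lit 277780175435) (nat_lit 152) (nat_lit 410716210594) (nat_lit 0) (nat_lit 276031130323) (nat_lit 1) (nat_lit 5) (nat_lit 3) (nat_lit 4) (nat_lit 1) (nat_lit 4) (nat_lit 325) (nat_lit 208) (nat_lit 187)))))) (XT.nd (nat_lit 390) (nat_lit 0) (nat_lit 0) (XT.nd (nat_lit 156) (nat_lit 0) (nat_lit 0) (XT.nd (nat_lit 78) (nat_lit 0) (nat_lit 0) (XT.lf (nat_lit 0) (nat_lit 15604679243) (nat_lit 152) (nat_lit 51390509528) (nat_lit 0) (nat_lit 15604679243) (nat_lit 1) (nat_lit 5) (nat_lit 3) (nat_lit 4) (nat_lit 1) (nat_lit 4) (nat_lit 302) (nat_lit 209) (nat_lit 209)) (XT.lf (nat_lit 0) (nat_lit 35855248094) (nat_lit 152) (nat_lit 106760146791) (nat_lit 0) (nat_lit 35680636985) (nat_lit 1) (nat_lit 5) (nat_lit 3) (nat_lit 4) (nat_lit 1) (nat_lit 4) (nat_lit 303) (nat_lit 209) (nat_lit 208))) (XT.nd (nat_lit 78) (nat_lit 0) (nat_lit 0) (XT.lf (nat_lit 0) (nat_lit 40758827166)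 (nat_lit 152) (nat_lit 111264500568) (nat_lit 0) (nat_lit 40422539103) (nat_lit 1) (nat_lit 5) (nat_lit 3) (nat_lit 4) (nat_lit 1) (nat_lit 4) (nat_lit 304) (nat_lit 209) (nat_lit 207)) (XT.nd (nat_lit 78) (nat_lit 0) (nat_lit 0) (XT.lf (nat_lit 0) (nat_lit 45949153947) (nat_lit 152) (nat_lit 116320772857) (nat_lit 0) (nat_lit 45463165002) (nat_lit 1) (nat_lit 5) (nat_lit 3) (nat_lit 4) (nat_lit 1) (nat_lit 4) (nat_lit 305) (nat_lit 209) (nat_lit 206)) (XT.lf (nat_lit 0) (nat_lit 51456985930) (nat_lit 152) (nat_lit 121958926750) (nat_lit 0) (nat_lit 50832385057) (nat_lit 1) (nat_lit 5) (nat_lit 3) (nat_lit 4) (nat_lit 1) (nat_lit 4) (nat_lit 306) (nat_lit 209) (nat_lit 205))))) (XT.nd (nat_lit 156) (nat_lit 0) (nat_lit 0) (XT.nd (nat_lit 78) (nat_lit 0) (nat_lit 0) (XT.lf (nat_lit 0) (nat_lit 57314962120) (nat_lit 152) (nat_lit 128212373532) (nat_lit 0) (nat_lit 56562016869) (nat_lit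 1) (nat_lit 5) (nat_lit 3) (nat_lit 4) (nat_lit 1) (nat_lit 4) (nat_lit 307) (nat_lit 209) (nat_lit 204)) (XT.lf (nat_lit 0) (nat_lit 63557796450) (nat_lit 152) (nat_lit 135118170663) (nat_lit 0) (nat_lit 62686013811) (nat_lit 1) (nat_lit 5) (nat_lit 3) (nat_lit 4) (nat_lit 1) (nat_lit 4) (nat_lit 308) (nat_lit 209) (nat_lit 203))) (XT.nd (nat_lit 78) (nat_lit 0) (nat_lit 0) (XT.lf (nat_lit 0) (nat_lit 70222483493) (nat_lit 152) (nat_lit 142717241387) (nat_lit 0) (nat_lit 69240666236) (nat_lit 1) (nat_lit 5) (nat_lit 3) (nat_lit 4) (nat_lit 1) (nat_lit 4) (nat_lit 309) (nat_lit 209) (nat_lit 202)) (XT.nd (nat_lit 78) (nat_lit 0) (nat_lit 0) (XT.lf (nat_lit 0) (nat_lit 77348517691) (nat_lit 152) (nat_lit 151054617233) (nat_lit 0) (nat_lit 76264816529) (nat_lit 1) (nat_lit 5) (nat_lit 3) (nat_lit 4) (nat_lit 1) (nat_lit 4) (nat_lit 310) (nat_lit 209) (nat_lit 201)) (XT.lf (nat_lit 0) (nat_lit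 84978127394) (nat_lit 152) (nat_lit 160179704874) (nat_lit 0) (nat_lit 83800089283) (nat_lit 1) (nat_lit 5) (nat_lit 3) (nat_lit 4) (nat_lit 1) (nat_lit 4) (nat_lit 311) (nat_lit 209) (nat_lit 200))))))))
noncomputable def xc4 : XT := (XT.nd (nat_lit 36894) (nat_lit 0) (nat_lit 0) (XT.nd (nat_lit 702) (nat_lit 0) (nat_lit 0) (XT.nd (nat_lit 312) (nat_lit 0) (nat_lit 0) (XT.nd (nat_lit 156) (nat_lit 0) (nat_lit 0) (XT.nd (nat_lit 78) (nat_lit 0) (nat_lit 0) (XT.lf (nat_lit 0) (nat_lit 93156525106) (nat_lit 152) (nat_lit 170146578902) (nat_lit 0) (nat_lit 91891137968) (nat_lit 1) (nat_lit 5) (nat_lit 3) (nat_lit 4) (nat_lit 1) (nat_lit 4) (nat_lit 312) (nat_lit 209) (nat_lit 199)) (XT.lf (nat_lit 0) (nat_lit 101932175404) (nat_lit 152) (nat_lit 181014302275) (nat_lit 0) (nat_lit 100585909537) (nat_lit 1) (nat_lit 5) (nat_lit 3) (nat_lit 4) (nat_lit 1) (nat_lit 4) (nat_lit 313) (nat_lit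 209) (nat_lit 198))) (XT.nd (nat_lit 78) (nat_lit 0) (nat_lit 0) (XT.lf (nat_lit 0) (nat_lit 111357082143) (nat_lit 152) (nat_lit 192847276317) (nat_lit 0) (nat_lit 109935928564) (nat_lit 1) (nat_lit 5) (nat_lit 3) (nat_lit 4) (nat_lit 1) (nat_lit 4) (nat_lit 314) (nat_lit 209) (nat_lit 197)) (XT.lf (nat_lit 0) (nat_lit 121487096621) (nat_lit 152) (nat_lit 205715622355) (nat_lit 0) (nat_lit 119996602568) (nat_lit 1) (nat_lit 5) (nat_lit 3) (nat_lit 4) (nat_lit 1) (nat_lit 4) (nat_lit 315) (nat_lit 209) (nat_lit 196)))) (XT.nd (nat_lit 156) (nat_lit 0) (nat_lit 0) (XT.nd (nat_lit 78) (nat_lit 0) (nat_lit 0) (XT.lf (nat_lit 0) (nat_lit 132382248554) (nat_lit 152) (nat_lit 219695597255) (nat_lit 0) (nat_lit 130827550359) (nat_lit 1) (nat_lit 5) (nat_lit 3) (nat_lit 4) (nat_lit 1) (nat_lit 4) (nat_lit 316) (nat_lit 209) (nat_lit 195)) (XT.lf (nat_lit 0) (nat_lit 144107101806) (nat_lit 152)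 (nat_lit 234870045312) (nat_lit 0) (nat_lit 142492955330) (nat_lit 1) (nat_lit 5) (nat_lit 3) (nat_lit 4) (nat_lit 1) (nat_lit 4) (nat_lit 317) (nat_lit 209) (nat_lit 194))) (XT.nd (nat_lit 78) (nat_lit 0) (nat_lit 0) (XT.lf (nat_lit 0) (nat_lit 156731136988) (nat_lit 152) (nat_lit 251328889181) (nat_lit 0) (nat_lit 155061945808) (nat_lit 1) (nat_lit 5) (nat_lit 3) (nat_lit 4) (nat_lit 1) (nat_lit 4) (nat_lit 318) (nat_lit 209) (nat_lit 193)) (XT.nd (nat_lit 78) (nat_lit 0) (nat_lit 0) (XT.lf (nat_lit 0) (nat_lit 170329163197) (nat_lit 152) (nat_lit 269169662753) (nat_lit 0) (nat_lit 168609004700) (nat_lit 1) (nat_lit 5) (nat_lit 3) (nat_lit 4) (nat_lit 1) (nat_lit 4) (nat_lit 319) (nat_lit 209) (nat_lit 192)) (XT.lf (nat_lit 0) (nat_lit 184981761330) (nat_lit 152) (nat_lit 288498089129) (nat_lit 0) (nat_lit 183214410871) (nat_lit 1) (nat_lit 5) (nat_lit 3) (nat_lit 4) (nat_lit 1) (nat_lit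 4) (nat_lit 320) (nat_lit 209) (nat_lit 191)))))) (XT.nd (nat_lit 312) (nat_lit 0) (nat_lit 0) (XT.nd (nat_lit 156) (nat_lit 0) (nat_lit 0) (XT.nd (nat_lit 78) (nat_lit 0) (nat_lit 0) (XT.lf (nat_lit 0) (nat_lit 200775761598) (nat_lit 152) (nat_lit 309428707133) (nat_lit 0) (nat_lit 198964714879) (nat_lit 1) (nat_lit 5) (nat_lit 3) (nat_lit 4) (nat_lit 1) (nat_lit 4) (nat_lit 321) (nat_lit 209) (nat_lit 190)) (XT.lf (nat_lit 0) (nat_lit 217804758077) (nat_lit 152) (nat_lit 332085550057) (nat_lit 0) (nat_lit 215953251856) (nat_lit 1) (nat_lit 5) (nat_lit 3) (nat_lit 4) (nat_lit 1) (nat_lit 4) (nat_lit 322) (nat_lit 209) (nat_lit 189))) (XT.nd (nat_lit 78) (nat_lit 0) (nat_lit 0) (XT.lf (nat_lit 0) (nat_lit 236169663337) (nat_lit 152) (nat_lit 356602880673) (nat_lit 0) (nat_lit 234280694617) (nat_lit 1) (nat_lit 5) (nat_lit 3) (nat_lit 4) (nat_lit 1) (nat_lit 4) (nat_lit 323) (nat_lit 209)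 (nat_lit 188)) (XT.lf (nat_lit 0) (nat_lit 255979306448) (nat_lit 152) (nat_lit 383125986867) (nat_lit 0) (nat_lit 254055650227) (nat_lit 1) (nat_lit 5) (nat_lit 3) (nat_lit 4) (nat_lit 1) (nat_lit 4) (nat_lit 324) (nat_lit 209) (nat_lit 187)))) (XT.nd (nat_lit 35646) (nat_lit 0) (nat_lit 0) (XT.nd (nat_lit 35568) (nat_lit 0) (nat_lit 0) (XT.lf (nat_lit 0) (nat_lit 277351077888) (nat_lit 152) (nat_lit 411812042601) (nat_lit 0) (nat_lit 275395303610) (nat_lit 1) (nat_lit 5) (nat_lit 3) (nat_lit 4) (nat_lit 1) (nat_lit 4) (nat_lit 325) (nat_lit 209) (nat_lit 186)) (XT.lf (nat_lit 0) (nat_lit 11417192102) (nat_lit 152) (nat_lit 48095536779) (nat_lit 0) (nat_lit 11417192102) (nat_lit 1) (nat_lit 5) (nat_lit 3) (nat_lit 4) (nat_lit 1) (nat_lit 4) (nat_lit 300) (nat_lit 210) (nat_lit 210))) (XT.nd (nat_lit 78) (nat_lit 0) (nat_lit 0) (XT.lf (nat_lit 0) (nat_lit 26982207144) (nat_lit 152) (nat_lit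 99303537349) (nat_lit 0) (nat_lit 26793627146) (nat_lit 1) (nat_lit 5) (nat_lit 3) (nat_lit 4) (nat_lit 1) (nat_lit 4) (nat_lit 301) (nat_lit 210) (nat_lit 209)) (XT.nd (nat_lit 78) (nat_lit 0) (nat_lit 0) (XT.lf (nat_lit 0) (nat_lit 31338755677) (nat_lit 152) (nat_lit 102888445734) (nat_lit 0) (nat_lit 30975564569) (nat_lit 1) (nat_lit 5) (nat_lit 3) (nat_lit 4) (nat_lit 1) (nat_lit 4) (nat_lit 302) (nat_lit 210) (nat_lit 208)) (XT.lf (nat_lit 0) (nat_lit 35929846388) (nat_lit 152) (nat_lit 106967042615) (nat_lit 0) (nat_lit 35404978327) (nat_lit 1) (nat_lit 5) (nat_lit 3) (nat_lit 4) (nat_lit 1) (nat_lit 4) (nat_lit 303) (nat_lit 210) (nat_lit 207))))))) (XT.nd (nat_lit 702) (nat_lit 0) (nat_lit 0) (XT.nd (nat_lit 312) (nat_lit 0) (nat_lit 0) (XT.nd (nat_lit 156) (nat_lit 0) (nat_lit 0) (XT.nd (nat_lit 78) (nat_lit 0) (nat_lit 0) (XT.lf (nat_lit 0) (nat_lit 40782685740) (nat_lit 152)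 (nat_lit 111563497455) (nat_lit 0) (nat_lit 40108116797) (nat_lit 1) (nat_lit 5) (nat_lit 3) (nat_lit 4) (nat_lit 1) (nat_lit 4) (nat_lit 304) (nat_lit 210) (nat_lit 206)) (XT.lf (nat_lit 0) (nat_lit 45926031300) (nat_lit 152) (nat_lit 116705048504) (nat_lit 0) (nat_lit 45112850428) (nat_lit 1) (nat_lit 5) (nat_lit 3) (nat_lit 4) (nat_lit 1) (nat_lit 4) (nat_lit 305) (nat_lit 210) (nat_lit 205))) (XT.nd (nat_lit 78) (nat_lit 0) (nat_lit 0) (XT.lf (nat_lit 0) (nat_lit 51390362153) (nat_lit 152) (nat_lit 122422164213) (nat_lit 0) (nat_lit 50448836903) (nat_lit 1) (nat_lit 5) (nat_lit 3) (nat_lit 4) (nat_lit 1) (nat_lit 4) (nat_lit 306) (nat_lit 210) (nat_lit 204)) (XT.lf (nat_lit 0) (nat_lit 57208059518) (nat_lit 152) (nat_lit 128748723786) (nat_lit 0) (nat_lit 56147696881) (nat_lit 1) (nat_lit 5) (nat_lit 3) (nat_lit 4) (nat_lit 1) (nat_lit 4) (nat_lit 307) (nat_lit 210) (nat_lit 203))))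 (XT.nd (nat_lit 156) (nat_lit 0) (nat_lit 0) (XT.nd (nat_lit 78) (nat_lit 0) (nat_lit 0) (XT.lf (nat_lit 0) (nat_lit 63413598639) (nat_lit 152) (nat_lit 135722217947) (nat_lit 0) (nat_lit 62243201385) (nat_lit 1) (nat_lit 5) (nat_lit 3) (nat_lit 4) (nat_lit 1) (nat_lit 4) (nat_lit 308) (nat_lit 210) (nat_lit 202)) (XT.lf (nat_lit 0) (nat_lit 70043753082) (nat_lit 152) (nat_lit 143383971106) (nat_lit 0) (nat_lit 68771471922) (nat_lit 1) (nat_lit 5) (nat_lit 3) (nat_lit 4) (nat_lit 1) (nat_lit 4) (nat_lit 309) (nat_lit 210) (nat_lit 201))) (XT.nd (nat_lit 78) (nat_lit 0) (nat_lit 0) (XT.lf (nat_lit 0) (nat_lit 77137812650) (nat_lit 152) (nat_lit 151779386244) (nat_lit 0) (nat_lit 75771194541) (nat_lit 1) (nat_lit 5) (nat_lit 3) (nat_lit 4) (nat_lit 1) (nat_lit 4) (nat_lit 310) (nat_lit 210) (nat_lit 200)) (XT.nd (nat_lit 78) (nat_lit 0) (nat_lit 0) (XT.lf (nat_lit 0) (nat_lit 84737816215)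 (nat_lit 152) (nat_lit 160958213969) (nat_lit 0) (nat_lit 83283849078) (nat_lit 1) (nat_lit 5) (nat_lit 3) (nat_lit 4) (nat_lit 1) (nat_lit 4) (nat_lit 311) (nat_lit 210) (nat_lit 199)) (XT.lf (nat_lit 0) (nat_lit 92888800835) (nat_lit 152) (nat_lit 170974847336) (nat_lit 0) (nat_lit 91353954970) (nat_lit 1) (nat_lit 5) (nat_lit 3) (nat_lit 4) (nat_lit 1) (nat_lit 4) (nat_lit 312) (nat_lit 210) (nat_lit 198)))))) (XT.nd (nat_lit 390) (nat_lit 0) (nat_lit 0) (XT.nd (nat_lit 156) (nat_lit 0) (nat_lit 0) (XT.nd (nat_lit 78) (nat_lit 0) (nat_lit 0) (XT.lf (nat_lit 0) (nat_lit 101639068641) (nat_lit 152) (nat_lit 181888644170) (nat_lit 0) (nat_lit 100029335064) (nat_lit 1) (nat_lit 5) (nat_lit 3) (nat_lit 4) (nat_lit 1) (nat_lit 4) (nat_lit 313) (nat_lit 210) (nat_lit 197)) (XT.lf (nat_lit 0) (nat_lit 111040473072) (nat_lit 152) (nat_lit 193764278823) (nat_lit 0) (nat_lit 109361399021) (nat_lit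 1) (nat_lit 5) (nat_lit 3) (nat_lit 4) (nat_lit 1) (nat_lit 4) (nat_lit 314) (nat_lit 210) (nat_lit 196))) (XT.nd (nat_lit 78) (nat_lit 0) (nat_lit 0) (XT.lf (nat_lit 0) (nat_lit 121148726155) (nat_lit 152) (nat_lit 206672125428) (nat_lit 0) (nat_lit 119405447961) (nat_lit 1) (nat_lit 5) (nat_lit 3) (nat_lit 4) (nat_lit 1) (nat_lit 4) (nat_lit 315) (nat_lit 210) (nat_lit 195)) (XT.nd (nat_lit 78) (nat_lit 0) (nat_lit 0) (XT.lf (nat_lit 0) (nat_lit 132023728647) (nat_lit 152) (nat_lit 220688674927) (nat_lit 0) (nat_lit 130221002174) (nat_lit 1) (nat_lit 5) (nat_lit 3) (nat_lit 4) (nat_lit 1) (nat_lit 4) (nat_lit 316) (nat_lit 210) (nat_lit 194)) (XT.lf (nat_lit 0) (nat_lit 143729925010) (nat_lit 152) (nat_lit 235896988353) (nat_lit 0) (nat_lit 141872153832) (nat_lit 1) (nat_lit 5) (nat_lit 3) (nat_lit 4) (nat_lit 1) (nat_lit 4) (nat_lit 317) (nat_lit 210) (nat_lit 193))))) (XT.nd (nat_lit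 156) (nat_lit 0) (nat_lit 0) (XT.nd (nat_lit 78) (nat_lit 0) (nat_lit 0) (XT.lf (nat_lit 0) (nat_lit 156336685294) (nat_lit 152) (nat_lit 252387189046) (nat_lit 0) (nat_lit 154427946798) (nat_lit 1) (nat_lit 5) (nat_lit 3) (nat_lit 4) (nat_lit 1) (nat_lit 4) (nat_lit 318) (nat_lit 210) (nat_lit 192)) (XT.lf (nat_lit 0) (nat_lit 169918716228) (nat_lit 152) (nat_lit 270256996713) (nat_lit 0) (nat_lit 167962785771) (nat_lit 1) (nat_lit 5) (nat_lit 3) (nat_lit 4) (nat_lit 1) (nat_lit 4) (nat_lit 319) (nat_lit 210) (nat_lit 191))) (XT.nd (nat_lit 78) (nat_lit 0) (nat_lit 0) (XT.lf (nat_lit 0) (nat_lit 184556503921) (nat_lit 152) (nat_lit 289612306511) (nat_lit 0) (nat_lit 182556877203) (nat_lit 1) (nat_lit 5) (nat_lit 3) (nat_lit 4) (nat_lit 1) (nat_lit 4) (nat_lit 320) (nat_lit 210) (nat_lit 190)) (XT.nd (nat_lit 78) (nat_lit 0) (nat_lit 0) (XT.lf (nat_lit 0) (nat_lit 200336790818) (nat_lit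 152) (nat_lit 310567816573) (nat_lit 0) (nat_lit 198296704600) (nat_lit 1) (nat_lit 5) (nat_lit 3) (nat_lit 4) (nat_lit 1) (nat_lit 4) (nat_lit 321) (nat_lit 210) (nat_lit 189)) (XT.lf (nat_lit 0) (nat_lit 217353089731) (nat_lit 152) (nat_lit 333247707698) (nat_lit 0) (nat_lit 215275541012) (nat_lit 1) (nat_lit 5) (nat_lit 3) (nat_lit 4) (nat_lit 1) (nat_lit 4) (nat_lit 322) (nat_lit 210) (nat_lit 188))))))))
noncomputable def xc5 : XT := (XT.nd (nat_lit 36738) (nat_lit 0) (nat_lit 0) (XT.nd (nat_lit 36036) (nat_lit 0) (nat_lit 0) (XT.nd (nat_lit 35646) (nat_lit 0) (nat_lit 0) (XT.nd (nat_lit 156) (nat_lit 0) (nat_lit 0) (XT.nd (nat_lit 78) (nat_lit 0) (nat_lit 0) (XT.lf (nat_lit 0) (nat_lit 235706237987) (nat_lit 152) (nat_lit 357786379241) (nat_lit 0) (nat_lit 233594001767) (nat_lit 1) (nat_lit 5) (nat_lit 3) (nat_lit 4) (nat_lit 1) (nat_lit 4) (nat_lit 323) (nat_lit 210) (nat_lit 187))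 (XT.lf (nat_lit 0) (nat_lit 255504994982) (nat_lit 152) (nat_lit 384329245552) (nat_lit 0) (nat_lit 253360640706) (nat_lit 1) (nat_lit 5) (nat_lit 3) (nat_lit 4) (nat_lit 1) (nat_lit 4) (nat_lit 324) (nat_lit 210) (nat_lit 186))) (XT.nd (nat_lit 35412) (nat_lit 0) (nat_lit 0) (XT.lf (nat_lit 0) (nat_lit 276866686684) (nat_lit 152) (nat_lit 413033597692) (nat_lit 0) (nat_lit 274692593468) (nat_lit 1) (nat_lit 5) (nat_lit 3) (nat_lit 4) (nat_lit 1) (nat_lit 4) (nat_lit 325) (nat_lit 210) (nat_lit 185)) (XT.lf (nat_lit 0) (nat_lit 7670192401) (nat_lit 152) (nat_lit 45593545366) (nat_lit 0) (nat_lit 7670192401) (nat_lit 1) (nat_lit 5) (nat_lit 3) (nat_lit 4) (nat_lit 1) (nat_lit 4) (nat_lit 298) (nat_lit 211) (nat_lit 211)))) (XT.nd (nat_lit 156) (nat_lit 0) (nat_lit 0) (XT.nd (nat_lit 78) (nat_lit 0) (nat_lit 0) (XT.lf (nat_lit 0) (nat_lit 19074373566) (nat_lit 152) (nat_lit 93532610131)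 (nat_lit 0) (nat_lit 18870707168) (nat_lit 1) (nat_lit 5) (nat_lit 3) (nat_lit 4) (nat_lit 1) (nat_lit 4) (nat_lit 299) (nat_lit 211) (nat_lit 210)) (XT.lf (nat_lit 0) (nat_lit 22974133170) (nat_lit 152) (nat_lit 96307094370) (nat_lit 0) (nat_lit 22581886774) (nat_lit 1) (nat_lit 5) (nat_lit 3) (nat_lit 4) (nat_lit 1) (nat_lit 4) (nat_lit 300) (nat_lit 211) (nat_lit 209))) (XT.nd (nat_lit 78) (nat_lit 0) (nat_lit 0) (XT.lf (nat_lit 0) (nat_lit 27062773301) (nat_lit 152) (nat_lit 99526984840) (nat_lit 0) (nat_lit 26495915795) (nat_lit 1) (nat_lit 5) (nat_lit 3) (nat_lit 4) (nat_lit 1) (nat_lit 4) (nat_lit 301) (nat_lit 211) (nat_lit 208)) (XT.nd (nat_lit 78) (nat_lit 0) (nat_lit 0) (XT.lf (nat_lit 0) (nat_lit 31364522937) (nat_lit 152) (nat_lit 103211362372) (nat_lit 0) (nat_lit 30635988478) (nat_lit 1) (nat_lit 5) (nat_lit 3) (nat_lit 4) (nat_lit 1) (nat_lit 4) (nat_lit 302) (nat_lit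 211) (nat_lit 207)) (XT.lf (nat_lit 0) (nat_lit 35904873929) (nat_lit 152) (nat_lit 107382060314) (nat_lit 0) (nat_lit 35026638588) (nat_lit 1) (nat_lit 5) (nat_lit 3) (nat_lit 4) (nat_lit 1) (nat_lit 4) (nat_lit 303) (nat_lit 211) (nat_lit 206)))))) (XT.nd (nat_lit 312) (nat_lit 0) (nat_lit 0) (XT.nd (nat_lit 156) (nat_lit 0) (nat_lit 0) (XT.nd (nat_lit 78) (nat_lit 0) (nat_lit 0) (XT.lf (nat_lit 0) (nat_lit 40710732060) (nat_lit 152) (nat_lit 112063793914) (nat_lit 0) (nat_lit 39693884790) (nat_lit 1) (nat_lit 5) (nat_lit 3) (nat_lit 4) (nat_lit 1) (nat_lit 4) (nat_lit 304) (nat_lit 211) (nat_lit 205)) (XT.lf (nat_lit 0) (nat_lit 45810576489) (nat_lit 152) (nat_lit 117284306779) (nat_lit 0) (nat_lit 44665384841) (nat_lit 1) (nat_lit 5) (nat_lit 3) (nat_lit 4) (nat_lit 1) (nat_lit 4) (nat_lit 305) (nat_lit 211) (nat_lit 204))) (XT.nd (nat_lit 78) (nat_lit 0) (nat_lit 0) (XT.lf (nat_lit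 0) (nat_lit 51234628517) (nat_lit 152) (nat_lit 123074535280) (nat_lit 0) (nat_lit 49970599482) (nat_lit 1) (nat_lit 5) (nat_lit 3) (nat_lit 4) (nat_lit 1) (nat_lit 4) (nat_lit 306) (nat_lit 211) (nat_lit 203)) (XT.lf (nat_lit 0) (nat_lit 57015030674) (nat_lit 152) (nat_lit 129468791883) (nat_lit 0) (nat_lit 55640967021) (nat_lit 1) (nat_lit 5) (nat_lit 3) (nat_lit 4) (nat_lit 1) (nat_lit 4) (nat_lit 307) (nat_lit 211) (nat_lit 202)))) (XT.nd (nat_lit 156) (nat_lit 0) (nat_lit 0) (XT.nd (nat_lit 78) (nat_lit 0) (nat_lit 0) (XT.lf (nat_lit 0) (nat_lit 63186037195) (nat_lit 152) (nat_lit 136504968479) (nat_lit 0) (nat_lit 61710089637) (nat_lit 1) (nat_lit 5) (nat_lit 3) (nat_lit 4) (nat_lit 1) (nat_lit 4) (nat_lit 308) (nat_lit 211) (nat_lit 201)) (XT.lf (nat_lit 0) (nat_lit 69784217008) (nat_lit 152) (nat_lit 144224760929) (nat_lit 0) (nat_lit 68213932501) (nat_lit 1) (nat_lit 5) (nat_lit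 3) (nat_lit 4) (nat_lit 1) (nat_lit 4) (nat_lit 309) (nat_lit 211) (nat_lit 200))) (XT.nd (nat_lit 78) (nat_lit 0) (nat_lit 0) (XT.lf (nat_lit 0) (nat_lit 76848670437) (nat_lit 152) (nat_lit 152673916152) (nat_lit 0) (nat_lit 75191036903) (nat_lit 1) (nat_lit 5) (nat_lit 3) (nat_lit 4) (nat_lit 1) (nat_lit 4) (nat_lit 310) (nat_lit 211) (nat_lit 199)) (XT.nd (nat_lit 78) (nat_lit 0) (nat_lit 0) (XT.lf (nat_lit 0) (nat_lit 84421260911) (nat_lit 152) (nat_lit 161902503216) (nat_lit 0) (nat_lit 82682748647) (nat_lit 1) (nat_lit 5) (nat_lit 3) (nat_lit 4) (nat_lit 1) (nat_lit 4) (nat_lit 311) (nat_lit 211) (nat_lit 198)) (XT.lf (nat_lit 0) (nat_lit 92546863039) (nat_lit 152) (nat_lit 171965210043) (nat_lit 0) (nat_lit 90733463064) (nat_lit 1) (nat_lit 5) (nat_lit 3) (nat_lit 4) (nat_lit 1) (nat_lit 4) (nat_lit 312) (nat_lit 211) (nat_lit 197))))))) (XT.nd (nat_lit 702) (nat_lit 0) (nat_lit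 0) (XT.nd (nat_lit 312) (nat_lit 0) (nat_lit 0) (XT.nd (nat_lit 156) (nat_lit 0) (nat_lit 0) (XT.nd (nat_lit 78) (nat_lit 0) (nat_lit 0) (XT.lf (nat_lit 0) (nat_lit 101273628537) (nat_lit 152) (nat_lit 182921667489) (nat_lit 0) (nat_lit 99390888088) (nat_lit 1) (nat_lit 5) (nat_lit 3) (nat_lit 4) (nat_lit 1) (nat_lit 4) (nat_lit 313) (nat_lit 211) (nat_lit 196)) (XT.lf (nat_lit 0) (nat_lit 110653271573) (nat_lit 152) (nat_lit 194836802709) (nat_lit 0) (nat_lit 108706326981) (nat_lit 1) (nat_lit 5) (nat_lit 3) (nat_lit 4) (nat_lit 1) (nat_lit 4) (nat_lit 314) (nat_lit 211) (nat_lit 195))) (XT.nd (nat_lit 78) (nat_lit 0) (nat_lit 0) (XT.lf (nat_lit 0) (nat_lit 120741375215) (nat_lit 152) (nat_lit 207781223912) (nat_lit 0) (nat_lit 118734982343) (nat_lit 1) (nat_lit 5) (nat_lit 3) (nat_lit 4) (nat_lit 1) (nat_lit 4) (nat_lit 315) (nat_lit 211) (nat_lit 194)) (XT.lf (nat_lit 0) (nat_lit 131597720818)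 (nat_lit 152) (nat_lit 221831638780) (nat_lit 0) (nat_lit 129536283243) (nat_lit 1) (nat_lit 5) (nat_lit 3) (nat_lit 4) (nat_lit 1) (nat_lit 4) (nat_lit 316) (nat_lit 211) (nat_lit 193)))) (XT.nd (nat_lit 156) (nat_lit 0) (nat_lit 0) (XT.nd (nat_lit 78) (nat_lit 0) (nat_lit 0) (XT.lf (nat_lit 0) (nat_lit 143286642283) (nat_lit 152) (nat_lit 237071309030) (nat_lit 0) (nat_lit 141174237389) (nat_lit 1) (nat_lit 5) (nat_lit 3) (nat_lit 4) (nat_lit 1) (nat_lit 4) (nat_lit 317) (nat_lit 211) (nat_lit 192)) (XT.lf (nat_lit 0) (nat_lit 155877407292) (nat_lit 152) (nat_lit 253590543818) (nat_lit 0) (nat_lit 153717810436) (nat_lit 1) (nat_lit 5) (nat_lit 3) (nat_lit 4) (nat_lit 1) (nat_lit 4) (nat_lit 318) (nat_lit 211) (nat_lit 191))) (XT.nd (nat_lit 78) (nat_lit 0) (nat_lit 0) (XT.lf (nat_lit 0) (nat_lit 169444627785) (nat_lit 152) (nat_lit 271487234907) (nat_lit 0) (nat_lit 167241334669) (nat_lit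 1) (nat_lit 5) (nat_lit 3) (nat_lit 4) (nat_lit 1) (nat_lit 4) (nat_lit 319) (nat_lit 211) (nat_lit 190)) (XT.nd (nat_lit 78) (nat_lit 0) (nat_lit 0) (XT.lf (nat_lit 0) (nat_lit 184068702108) (nat_lit 152) (nat_lit 290867436763) (nat_lit 0) (nat_lit 181824949491) (nat_lit 1) (nat_lit 5) (nat_lit 3) (nat_lit 4) (nat_lit 1) (nat_lit 4) (nat_lit 320) (nat_lit 211) (nat_lit 189)) (XT.lf (nat_lit 0) (nat_lit 199836291439) (nat_lit 152) (nat_lit 311845995026) (nat_lit 0) (nat_lit 197555076322) (nat_lit 1) (nat_lit 5) (nat_lit 3) (nat_lit 4) (nat_lit 1) (nat_lit 4) (nat_lit 321) (nat_lit 211) (nat_lit 188)))))) (XT.nd (nat_lit 35568) (nat_lit 0) (nat_lit 0) (XT.nd (nat_lit 156) (nat_lit 0) (nat_lit 0) (XT.nd (nat_lit 78) (nat_lit 0) (nat_lit 0) (XT.lf (nat_lit 0) (nat_lit 216840833347) (nat_lit 152) (nat_lit 334547227078) (nat_lit 0) (nat_lit 214524930730) (nat_lit 1) (nat_lit 5) (nat_lit 3)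 (nat_lit 4) (nat_lit 1) (nat_lit 4) (nat_lit 322) (nat_lit 211) (nat_lit 187)) (XT.lf (nat_lit 0) (nat_lit 235183095487) (nat_lit 152) (nat_lit 359105658739) (nat_lit 0) (nat_lit 232835074814) (nat_lit 1) (nat_lit 5) (nat_lit 3) (nat_lit 4) (nat_lit 1) (nat_lit 4) (nat_lit 323) (nat_lit 211) (nat_lit 186))) (XT.nd (nat_lit 78) (nat_lit 0) (nat_lit 0) (XT.lf (nat_lit 0) (nat_lit 254971772746) (nat_lit 152) (nat_lit 385666821456) (nat_lit 0) (nat_lit 252594013131) (nat_lit 1) (nat_lit 5) (nat_lit 3) (nat_lit 4) (nat_lit 1) (nat_lit 4) (nat_lit 324) (nat_lit 211) (nat_lit 185)) (XT.nd (nat_lit 35256) (nat_lit 0) (nat_lit 0) (XT.lf (nat_lit 0) (nat_lit 276324131358) (nat_lit 152) (nat_lit 414388114711) (nat_lit 0) (nat_lit 273918835688) (nat_lit 1) (nat_lit 5) (nat_lit 3) (nat_lit 4) (nat_lit 1) (nat_lit 4) (nat_lit 325) (nat_lit 211) (nat_lit 184)) (XT.lf (nat_lit 0) (nat_lit 4288287329)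 (nat_lit 152) (nat_lit 43797240968) (nat_lit 0) (nat_lit 4288287329) (nat_lit 1) (nat_lit 5) (nat_lit 3) (nat_lit 4) (nat_lit 1) (nat_lit 4) (nat_lit 296) (nat_lit 212) (nat_lit 212))))) (XT.nd (nat_lit 156) (nat_lit 0) (nat_lit 0) (XT.nd (nat_lit 78) (nat_lit 0) (nat_lit 0) (XT.lf (nat_lit 0) (nat_lit 11969999249) (nat_lit 152) (nat_lit 89256636802) (nat_lit 0) (nat_lit 11750039540) (nat_lit 1) (nat_lit 5) (nat_lit 3) (nat_lit 4) (nat_lit 1) (nat_lit 4) (nat_lit 297) (nat_lit 212) (nat_lit 211)) (XT.lf (nat_lit 0) (nat_lit 15491313685) (nat_lit 152) (nat_lit 91312393210) (nat_lit 0) (nat_lit 15067687577) (nat_lit 1) (nat_lit 5) (nat_lit 3) (nat_lit 4) (nat_lit 1) (nat_lit 4) (nat_lit 298) (nat_lit 212) (nat_lit 210))) (XT.nd (nat_lit 78) (nat_lit 0) (nat_lit 0) (XT.lf (nat_lit 0) (nat_lit 19161385016) (nat_lit 152) (nat_lit 93773933420) (nat_lit 0) (nat_lit 18549178909) (nat_lit 1) (nat_lit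 5) (nat_lit 3) (nat_lit 4) (nat_lit 1) (nat_lit 4) (nat_lit 299) (nat_lit 212) (nat_lit 209)) (XT.nd (nat_lit 78) (nat_lit 0) (nat_lit 0) (XT.lf (nat_lit 0) (nat_lit 23001961811) (nat_lit 152) (nat_lit 96655844338) (nat_lit 0) (nat_lit 22215144595) (nat_lit 1) (nat_lit 5) (nat_lit 3) (nat_lit 4) (nat_lit 1) (nat_lit 4) (nat_lit 300) (nat_lit 212) (nat_lit 208)) (XT.lf (nat_lit 0) (nat_lit 27035803045) (nat_lit 152) (nat_lit 99975203954) (nat_lit 0) (nat_lit 26087308877) (nat_lit 1) (nat_lit 5) (nat_lit 3) (nat_lit 4) (nat_lit 1) (nat_lit 4) (nat_lit 301) (nat_lit 212) (nat_lit 207))))))))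
noncomputable def xc6 : XT := (XT.nd (nat_lit 1404) (nat_lit 0) (nat_lit 0) (XT.nd (nat_lit 702) (nat_lit 0) (nat_lit 0) (XT.nd (nat_lit 312) (nat_lit 0) (nat_lit 0) (XT.nd (nat_lit 156) (nat_lit 0) (nat_lit 0) (XT.nd (nat_lit 78) (nat_lit 0) (nat_lit 0) (XT.lf (nat_lit 0) (nat_lit 31286812963) (nat_lit 152) (nat_lit 103751682548) (nat_lit 0) (nat_lit 30188617911) (nat_lit 1) (nat_lit 5) (nat_lit 3) (nat_lit 4) (nat_lit 1) (nat_lit 4) (nat_lit 302) (nat_lit 212) (nat_lit 206)) (XT.lf (nat_lit 0) (nat_lit 35780182733) (nat_lit 152) (nat_lit 108007659251) (nat_lit 0) (nat_lit 34543375754) (nat_lit 1) (nat_lit 5) (nat_lit 3) (nat_lit 4) (nat_lit 1) (nat_lit 4) (nat_lit 303) (nat_lit 212) (nat_lit 205))) (XT.nd (nat_lit 78) (nat_lit 0) (nat_lit 0) (XT.lf (nat_lit 0) (nat_lit 40542539733) (nat_lit 152) (nat_lit 112768354667) (nat_lit 0) (nat_lit 39177388376) (nat_lit 1) (nat_lit 5) (nat_lit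 3) (nat_lit 4) (nat_lit 1) (nat_lit 4) (nat_lit 304) (nat_lit 212) (nat_lit 204)) (XT.lf (nat_lit 0) (nat_lit 45602105338) (nat_lit 152) (nat_lit 118061980323) (nat_lit 0) (nat_lit 44118116593) (nat_lit 1) (nat_lit 5) (nat_lit 3) (nat_lit 4) (nat_lit 1) (nat_lit 4) (nat_lit 305) (nat_lit 212) (nat_lit 203)))) (XT.nd (nat_lit 156) (nat_lit 0) (nat_lit 0) (XT.nd (nat_lit 78) (nat_lit 0) (nat_lit 0) (XT.lf (nat_lit 0) (nat_lit 50988862157) (nat_lit 152) (nat_lit 123919905854) (nat_lit 0) (nat_lit 49394838795) (nat_lit 1) (nat_lit 5) (nat_lit 3) (nat_lit 4) (nat_lit 1) (nat_lit 4) (nat_lit 306) (nat_lit 212) (nat_lit 202)) (XT.lf (nat_lit 0) (nat_lit 56734731714) (nat_lit 152) (nat_lit 130376844892) (nat_lit 0) (nat_lit 55038824446) (nat_lit 1) (nat_lit 5) (nat_lit 3) (nat_lit 4) (nat_lit 1) (nat_lit 4) (nat_lit 307) (nat_lit 212) (nat_lit 201))) (XT.nd (nat_lit 78) (nat_lit 0) (nat_lit 0)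 (XT.lf (nat_lit 0) (nat_lit 62873763605) (nat_lit 152) (nat_lit 137471060780) (nat_lit 0) (nat_lit 61083519388) (nat_lit 1) (nat_lit 5) (nat_lit 3) (nat_lit 4) (nat_lit 1) (nat_lit 4) (nat_lit 308) (nat_lit 212) (nat_lit 200)) (XT.nd (nat_lit 78) (nat_lit 0) (nat_lit 0) (XT.lf (nat_lit 0) (nat_lit 69442337279) (nat_lit 152) (nat_lit 145244593315) (nat_lit 0) (nat_lit 67564744035) (nat_lit 1) (nat_lit 5) (nat_lit 3) (nat_lit 4) (nat_lit 1) (nat_lit 4) (nat_lit 309) (nat_lit 212) (nat_lit 199)) (XT.lf (nat_lit 0) (nat_lit 76479377617) (nat_lit 152) (nat_lit 153743507876) (nat_lit 0) (nat_lit 74520905644) (nat_lit 1) (nat_lit 5) (nat_lit 3) (nat_lit 4) (nat_lit 1) (nat_lit 4) (nat_lit 310) (nat_lit 212) (nat_lit 198)))))) (XT.nd (nat_lit 312) (nat_lit 0) (nat_lit 0) (XT.nd (nat_lit 156) (nat_lit 0) (nat_lit 0) (XT.nd (nat_lit 78) (nat_lit 0) (nat_lit 0) (XT.lf (nat_lit 0) (nat_lit 84026585599)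 (nat_lit 152) (nat_lit 163018168400) (nat_lit 0) (nat_lit 81993225914) (nat_lit 1) (nat_lit 5) (nat_lit 3) (nat_lit 4) (nat_lit 1) (nat_lit 4) (nat_lit 311) (nat_lit 212) (nat_lit 197)) (XT.lf (nat_lit 0) (nat_lit 92128685419) (nat_lit 152) (nat_lit 173123535839) (nat_lit 0) (nat_lit 90025985260) (nat_lit 1) (nat_lit 5) (nat_lit 3) (nat_lit 4) (nat_lit 1) (nat_lit 4) (nat_lit 312) (nat_lit 212) (nat_lit 196))) (XT.nd (nat_lit 78) (nat_lit 0) (nat_lit 0) (XT.lf (nat_lit 0) (nat_lit 100833689522) (nat_lit 152) (nat_lit 184119493852) (nat_lit 0) (nat_lit 98666785221) (nat_lit 1) (nat_lit 5) (nat_lit 3) (nat_lit 4) (nat_lit 1) (nat_lit 4) (nat_lit 313) (nat_lit 212) (nat_lit 195)) (XT.lf (nat_lit 0) (nat_lit 110193183117) (nat_lit 152) (nat_lit 196071203671) (nat_lit 0) (nat_lit 107966830536) (nat_lit 1) (nat_lit 5) (nat_lit 3) (nat_lit 4) (nat_lit 1) (nat_lit 4) (nat_lit 314) (nat_lit 212)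 (nat_lit 194)))) (XT.nd (nat_lit 156) (nat_lit 0) (nat_lit 0) (XT.nd (nat_lit 78) (nat_lit 0) (nat_lit 0) (XT.lf (nat_lit 0) (nat_lit 120262629870) (nat_lit 152) (nat_lit 209049490243) (nat_lit 0) (nat_lit 117981232584) (nat_lit 1) (nat_lit 5) (nat_lit 3) (nat_lit 4) (nat_lit 1) (nat_lit 4) (nat_lit 315) (nat_lit 212) (nat_lit 193)) (XT.lf (nat_lit 0) (nat_lit 131101700576) (nat_lit 152) (nat_lit 223131261934) (nat_lit 0) (nat_lit 128769335972) (nat_lit 1) (nat_lit 5) (nat_lit 3) (nat_lit 4) (nat_lit 1) (nat_lit 4) (nat_lit 316) (nat_lit 212) (nat_lit 192))) (XT.nd (nat_lit 78) (nat_lit 0) (nat_lit 0) (XT.lf (nat_lit 0) (nat_lit 142774626765) (nat_lit 152) (nat_lit 238399966280) (nat_lit 0) (nat_lit 140395070200) (nat_lit 1) (nat_lit 5) (nat_lit 3) (nat_lit 4) (nat_lit 1) (nat_lit 4) (nat_lit 317) (nat_lit 212) (nat_lit 191)) (XT.nd (nat_lit 78) (nat_lit 0) (nat_lit 0) (XT.lf (nat_lit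 0) (nat_lit 155350581333) (nat_lit 152) (nat_lit 254946084490) (nat_lit 0) (nat_lit 152927328507) (nat_lit 1) (nat_lit 5) (nat_lit 3) (nat_lit 4) (nat_lit 1) (nat_lit 4) (nat_lit 318) (nat_lit 212) (nat_lit 190)) (XT.lf (nat_lit 0) (nat_lit 168904088456) (nat_lit 152) (nat_lit 272867667637) (nat_lit 0) (nat_lit 166440376130) (nat_lit 1) (nat_lit 5) (nat_lit 3) (nat_lit 4) (nat_lit 1) (nat_lit 4) (nat_lit 319) (nat_lit 212) (nat_lit 189))))))) (XT.nd (nat_lit 35724) (nat_lit 0) (nat_lit 0) (XT.nd (nat_lit 312) (nat_lit 0) (nat_lit 0) (XT.nd (nat_lit 156) (nat_lit 0) (nat_lit 0) (XT.nd (nat_lit 78) (nat_lit 0) (nat_lit 0) (XT.lf (nat_lit 0) (nat_lit 183515465213) (nat_lit 152) (nat_lit 292270917694) (nat_lit 0) (nat_lit 181014290386) (nat_lit 1) (nat_lit 5) (nat_lit 3) (nat_lit 4) (nat_lit 1) (nat_lit 4) (nat_lit 320) (nat_lit 212) (nat_lit 188)) (XT.lf (nat_lit 0) (nat_lit 199271297540)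 (nat_lit 152) (nat_lit 313270816884) (nat_lit 0) (nat_lit 196735435212) (nat_lit 1) (nat_lit 5) (nat_lit 3) (nat_lit 4) (nat_lit 1) (nat_lit 4) (nat_lit 321) (nat_lit 212) (nat_lit 187))) (XT.nd (nat_lit 78) (nat_lit 0) (nat_lit 0) (XT.lf (nat_lit 0) (nat_lit 216264953332) (nat_lit 152) (nat_lit 335991809053) (nat_lit 0) (nat_lit 213696972949) (nat_lit 1) (nat_lit 5) (nat_lit 3) (nat_lit 4) (nat_lit 1) (nat_lit 4) (nat_lit 322) (nat_lit 212) (nat_lit 186)) (XT.lf (nat_lit 0) (nat_lit 234597135735) (nat_lit 152) (nat_lit 360568537119) (nat_lit 0) (nat_lit 231999416411) (nat_lit 1) (nat_lit 5) (nat_lit 3) (nat_lit 4) (nat_lit 1) (nat_lit 4) (nat_lit 323) (nat_lit 212) (nat_lit 185)))) (XT.nd (nat_lit 35178) (nat_lit 0) (nat_lit 0) (XT.nd (nat_lit 78) (nat_lit 0) (nat_lit 0) (XT.lf (nat_lit 0) (nat_lit 254376479904) (nat_lit 152) (nat_lit 387146640952) (nat_lit 0) (nat_lit 251751224524)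 (nat_lit 1) (nat_lit 5) (nat_lit 3) (nat_lit 4) (nat_lit 1) (nat_lit 4) (nat_lit 324) (nat_lit 212) (nat_lit 184)) (XT.lf (nat_lit 0) (nat_lit 275720196767) (nat_lit 152) (nat_lit 415883620426) (nat_lit 0) (nat_lit 273069445038) (nat_lit 1) (nat_lit 5) (nat_lit 3) (nat_lit 4) (nat_lit 1) (nat_lit 4) (nat_lit 325) (nat_lit 212) (nat_lit 183))) (XT.nd (nat_lit 78) (nat_lit 0) (nat_lit 0) (XT.lf (nat_lit 0) (nat_lit 1205835515) (nat_lit 152) (nat_lit 42633849441) (nat_lit 0) (nat_lit 1205835515) (nat_lit 1) (nat_lit 5) (nat_lit 3) (nat_lit 4) (nat_lit 1) (nat_lit 4) (nat_lit 294) (nat_lit 213) (nat_lit 213)) (XT.nd (nat_lit 78) (nat_lit 0) (nat_lit 0) (XT.lf (nat_lit 0) (nat_lit 5528487219) (nat_lit 152) (nat_lit 86316078808) (nat_lit 0) (nat_lit 5290930732) (nat_lit 1) (nat_lit 5) (nat_lit 3) (nat_lit 4) (nat_lit 1) (nat_lit 4) (nat_lit 295) (nat_lit 213) (nat_lit 212)) (XT.lf (nat_lit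 0) (nat_lit 8739577852) (nat_lit 152) (nat_lit 87729808613) (nat_lit 0) (nat_lit 8282061656) (nat_lit 1) (nat_lit 5) (nat_lit 3) (nat_lit 4) (nat_lit 1) (nat_lit 4) (nat_lit 296) (nat_lit 213) (nat_lit 211)))))) (XT.nd (nat_lit 390) (nat_lit 0) (nat_lit 0) (XT.nd (nat_lit 156) (nat_lit 0) (nat_lit 0) (XT.nd (nat_lit 78) (nat_lit 0) (nat_lit 0) (XT.lf (nat_lit 0) (nat_lit 12063971615) (nat_lit 152) (nat_lit 89517265956) (nat_lit 0) (nat_lit 11402789020) (nat_lit 1) (nat_lit 5) (nat_lit 3) (nat_lit 4) (nat_lit 1) (nat_lit 4) (nat_lit 297) (nat_lit 213) (nat_lit 210)) (XT.lf (nat_lit 0) (nat_lit 15521368618) (nat_lit 152) (nat_lit 91689043176) (nat_lit 0) (nat_lit 14671606025) (nat_lit 1) (nat_lit 5) (nat_lit 3) (nat_lit 4) (nat_lit 1) (nat_lit 4) (nat_lit 298) (nat_lit 213) (nat_lit 209))) (XT.nd (nat_lit 78) (nat_lit 0) (nat_lit 0) (XT.lf (nat_lit 0) (nat_lit 19132257140) (nat_lit 152)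 (nat_lit 94258010064) (nat_lit 0) (nat_lit 18107883437) (nat_lit 1) (nat_lit 5) (nat_lit 3) (nat_lit 4) (nat_lit 1) (nat_lit 4) (nat_lit 299) (nat_lit 213) (nat_lit 208)) (XT.nd (nat_lit 78) (nat_lit 0) (nat_lit 0) (XT.lf (nat_lit 0) (nat_lit 22918035039) (nat_lit 152) (nat_lit 97239390129) (nat_lit 0) (nat_lit 21731984383) (nat_lit 1) (nat_lit 5) (nat_lit 3) (nat_lit 4) (nat_lit 1) (nat_lit 4) (nat_lit 300) (nat_lit 213) (nat_lit 207)) (XT.lf (nat_lit 0) (nat_lit 26901136554) (nat_lit 152) (nat_lit 100650850806) (nat_lit 0) (nat_lit 25565385016) (nat_lit 1) (nat_lit 5) (nat_lit 3) (nat_lit 4) (nat_lit 1) (nat_lit 4) (nat_lit 301) (nat_lit 213) (nat_lit 206))))) (XT.nd (nat_lit 156) (nat_lit 0) (nat_lit 0) (XT.nd (nat_lit 78) (nat_lit 0) (nat_lit 0) (XT.lf (nat_lit 0) (nat_lit 31105165250) (nat_lit 152) (nat_lit 104512608161) (nat_lit 0) (nat_lit 29630801784) (nat_lit 1) (nat_lit 5) (nat_lit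 3) (nat_lit 4) (nat_lit 1) (nat_lit 4) (nat_lit 302) (nat_lit 213) (nat_lit 205)) (XT.lf (nat_lit 0) (nat_lit 35555033890) (nat_lit 152) (nat_lit 108847546679) (nat_lit 0) (nat_lit 33952326045) (nat_lit 1) (nat_lit 5) (nat_lit 3) (nat_lit 4) (nat_lit 1) (nat_lit 4) (nat_lit 303) (nat_lit 213) (nat_lit 204))) (XT.nd (nat_lit 78) (nat_lit 0) (nat_lit 0) (XT.lf (nat_lit 0) (nat_lit 40277112065) (nat_lit 152) (nat_lit 113681354887) (nat_lit 0) (nat_lit 38555566833) (nat_lit 1) (nat_lit 5) (nat_lit 3) (nat_lit 4) (nat_lit 1) (nat_lit 4) (nat_lit 304) (nat_lit 213) (nat_lit 203)) (XT.nd (nat_lit 78) (nat_lit 0) (nat_lit 0) (XT.lf (nat_lit 0) (nat_lit 45299382461) (nat_lit 152) (nat_lit 119042677573) (nat_lit 0) (nat_lit 43467802612) (nat_lit 1) (nat_lit 5) (nat_lit 3) (nat_lit 4) (nat_lit 1) (nat_lit 4) (nat_lit 305) (nat_lit 213) (nat_lit 202)) (XT.lf (nat_lit 0) (nat_lit 50651606680) (nat_lit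 152) (nat_lit 124963285539) (nat_lit 0) (nat_lit 48718142926) (nat_lit 1) (nat_lit 5) (nat_lit 3) (nat_lit 4) (nat_lit 1) (nat_lit 4) (nat_lit 306) (nat_lit 213) (nat_lit 201))))))))
noncomputable def xc7 : XT := (XT.nd (nat_lit 36348) (nat_lit 0) (nat_lit 0) (XT.nd (nat_lit 702) (nat_lit 0) (nat_lit 0) (XT.nd (nat_lit 312) (nat_lit 0) (nat_lit 0) (XT.nd (nat_lit 156) (nat_lit 0) (nat_lit 0) (XT.nd (nat_lit 78) (nat_lit 0) (nat_lit 0) (XT.lf (nat_lit 0) (nat_lit 56365501607) (nat_lit 152) (nat_lit 131478263869) (nat_lit 0) (nat_lit 54337700904) (nat_lit 1) (nat_lit 5) (nat_lit 3) (nat_lit 4) (nat_lit 1) (nat_lit 4) (nat_lit 307) (nat_lit 213) (nat_lit 200)) (XT.lf (nat_lit 0) (nat_lit 62474927360) (nat_lit 152) (nat_lit 138626219842) (nat_lit 0) (nat_lit 60359777629) (nat_lit 1) (nat_lit 5) (nat_lit 3) (nat_lit 4) (nat_lit 1) (nat_lit 4) (nat_lit 308) (nat_lit 213) (nat_lit 199))) (XT.nd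 (nat_lit 78) (nat_lit 0) (nat_lit 0) (XT.lf (nat_lit 0) (nat_lit 69016087943) (nat_lit 152) (nat_lit 146449511714) (nat_lit 0) (nat_lit 66820059483) (nat_lit 1) (nat_lit 5) (nat_lit 3) (nat_lit 4) (nat_lit 1) (nat_lit 4) (nat_lit 309) (nat_lit 213) (nat_lit 198)) (XT.lf (nat_lit 0) (nat_lit 76027745789) (nat_lit 152) (nat_lit 154994499736) (nat_lit 0) (nat_lit 73756829617) (nat_lit 1) (nat_lit 5) (nat_lit 3) (nat_lit 4) (nat_lit 1) (nat_lit 4) (nat_lit 310) (nat_lit 213) (nat_lit 197)))) (XT.nd (nat_lit 156) (nat_lit 0) (nat_lit 0) (XT.nd (nat_lit 78) (nat_lit 0) (nat_lit 0) (XT.lf (nat_lit 0) (nat_lit 83551451463) (nat_lit 152) (nat_lit 164311820872) (nat_lit 0) (nat_lit 81211194817) (nat_lit 1) (nat_lit 5) (nat_lit 3) (nat_lit 4) (nat_lit 1) (nat_lit 4) (nat_lit 311) (nat_lit 213) (nat_lit 196)) (XT.lf (nat_lit 0) (nat_lit 91631789887) (nat_lit 152) (nat_lit 174456688878) (nat_lit 0)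 (nat_lit 89227329099) (nat_lit 1) (nat_lit 5) (nat_lit 3) (nat_lit 4) (nat_lit 1) (nat_lit 4) (nat_lit 312) (nat_lit 213) (nat_lit 195))) (XT.nd (nat_lit 78) (nat_lit 0) (nat_lit 0) (XT.lf (nat_lit 0) (nat_lit 100316644550) (nat_lit 152) (nat_lit 185489221489) (nat_lit 0) (nat_lit 97852735481) (nat_lit 1) (nat_lit 5) (nat_lit 3) (nat_lit 4) (nat_lit 1) (nat_lit 4) (nat_lit 313) (nat_lit 213) (nat_lit 194)) (XT.nd (nat_lit 78) (nat_lit 0) (nat_lit 0) (XT.lf (nat_lit 0) (nat_lit 109657481255) (nat_lit 152) (nat_lit 197474796678) (nat_lit 0) (nat_lit 107138527483) (nat_lit 1) (nat_lit 5) (nat_lit 3) (nat_lit 4) (nat_lit 1) (nat_lit 4) (nat_lit 314) (nat_lit 213) (nat_lit 193)) (XT.lf (nat_lit 0) (nat_lit 119709653110) (nat_lit 152) (nat_lit 210484440074) (nat_lit 0) (nat_lit 117139732020) (nat_lit 1) (nat_lit 5) (nat_lit 3) (nat_lit 4) (nat_lit 1) (nat_lit 4) (nat_lit 315) (nat_lit 213)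 (nat_lit 192)))))) (XT.nd (nat_lit 390) (nat_lit 0) (nat_lit 0) (XT.nd (nat_lit 156) (nat_lit 0) (nat_lit 0) (XT.nd (nat_lit 78) (nat_lit 0) (nat_lit 0) (XT.lf (nat_lit 0) (nat_lit 130532728541) (nat_lit 152) (nat_lit 224595245860) (nat_lit 0) (nat_lit 127915615489) (nat_lit 1) (nat_lit 5) (nat_lit 3) (nat_lit 4) (nat_lit 1) (nat_lit 4) (nat_lit 316) (nat_lit 213) (nat_lit 191)) (XT.lf (nat_lit 0) (nat_lit 142190844290) (nat_lit 152) (nat_lit 239890833627) (nat_lit 0) (nat_lit 139530034977) (nat_lit 1) (nat_lit 5) (nat_lit 3) (nat_lit 4) (nat_lit 1) (nat_lit 4) (nat_lit 317) (nat_lit 213) (nat_lit 190))) (XT.nd (nat_lit 78) (nat_lit 0) (nat_lit 0) (XT.lf (nat_lit 0) (nat_lit 154753085487) (nat_lit 152) (nat_lit 256461843895) (nat_lit 0) (nat_lit 152051816674) (nat_lit 1) (nat_lit 5) (nat_lit 3) (nat_lit 4) (nat_lit 1) (nat_lit 4) (nat_lit 318) (nat_lit 213) (nat_lit 189)) (XT.nd (nat_lit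 78) (nat_lit 0) (nat_lit 0) (XT.lf (nat_lit 0) (nat_lit 168293895045) (nat_lit 152) (nat_lit 274406475243) (nat_lit 0) (nat_lit 165555163731) (nat_lit 1) (nat_lit 5) (nat_lit 3) (nat_lit 4) (nat_lit 1) (nat_lit 4) (nat_lit 319) (nat_lit 213) (nat_lit 188)) (XT.lf (nat_lit 0) (nat_lit 182893514797) (nat_lit 152) (nat_lit 293831066227) (nat_lit 0) (nat_lit 180120095982) (nat_lit 1) (nat_lit 5) (nat_lit 3) (nat_lit 4) (nat_lit 1) (nat_lit 4) (nat_lit 320) (nat_lit 213) (nat_lit 187))))) (XT.nd (nat_lit 156) (nat_lit 0) (nat_lit 0) (XT.nd (nat_lit 78) (nat_lit 0) (nat_lit 0) (XT.lf (nat_lit 0) (nat_lit 198638461008) (nat_lit 152) (nat_lit 314850725534) (nat_lit 0) (nat_lit 195832924138) (nat_lit 1) (nat_lit 5) (nat_lit 3) (nat_lit 4) (nat_lit 1) (nat_lit 4) (nat_lit 321) (nat_lit 213) (nat_lit 186)) (XT.lf (nat_lit 0) (nat_lit 215622037063) (nat_lit 152) (nat_lit 337590014109) (nat_lit 0)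 (nat_lit 212786761252) (nat_lit 1) (nat_lit 5) (nat_lit 3) (nat_lit 4) (nat_lit 1) (nat_lit 4) (nat_lit 322) (nat_lit 213) (nat_lit 185))) (XT.nd (nat_lit 78) (nat_lit 0) (nat_lit 0) (XT.lf (nat_lit 0) (nat_lit 233944886377) (nat_lit 152) (nat_lit 362183683292) (nat_lit 0) (nat_lit 231082074509) (nat_lit 1) (nat_lit 5) (nat_lit 3) (nat_lit 4) (nat_lit 1) (nat_lit 4) (nat_lit 323) (nat_lit 213) (nat_lit 184)) (XT.nd (nat_lit 78) (nat_lit 0) (nat_lit 0) (XT.lf (nat_lit 0) (nat_lit 253715588796) (nat_lit 152) (nat_lit 388777473343) (nat_lit 0) (nat_lit 250827280580) (nat_lit 1) (nat_lit 5) (nat_lit 3) (nat_lit 4) (nat_lit 1) (nat_lit 4) (nat_lit 324) (nat_lit 213) (nat_lit 183)) (XT.lf (nat_lit 0) (nat_lit 275051304039) (nat_lit 152) (nat_lit 417528977093) (nat_lit 0) (nat_lit 272139388093) (nat_lit 1) (nat_lit 5) (nat_lit 3) (nat_lit 4) (nat_lit 1) (nat_lit 4) (nat_lit 325) (nat_lit 213)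 (nat_lit 182))))))) (XT.nd (nat_lit 702) (nat_lit 0) (nat_lit 0) (XT.nd (nat_lit 312) (nat_lit 0) (nat_lit 0) (XT.nd (nat_lit 156) (nat_lit 152) (nat_lit 0) (XT.nd (nat_lit 78) (nat_lit 0) (nat_lit 0) (XT.lf (nat_lit 0) (nat_lit 35552692312) (nat_lit 76) (nat_lit 1608161164) (nat_lit 76) (nat_lit 1608161164) (nat_lit 3) (nat_lit 4) (nat_lit 4) (nat_lit 5) (nat_lit 4) (nat_lit 4) (nat_lit 292) (nat_lit 214) (nat_lit 214)) (XT.lf (nat_lit 0) (nat_lit 82588800674) (nat_lit 76) (nat_lit 627673144) (nat_lit 76) (nat_lit 358284088) (nat_lit 3) (nat_lit 4) (nat_lit 4) (nat_lit 5) (nat_lit 4) (nat_lit 4) (nat_lit 293) (nat_lit 214) (nat_lit 213))) (XT.nd (nat_lit 78) (nat_lit 0) (nat_lit 0) (XT.lf (nat_lit 0) (nat_lit 2587714478) (nat_lit 152) (nat_lit 85413851692) (nat_lit 0) (nat_lit 2093596986) (nat_lit 1) (nat_lit 5) (nat_lit 3) (nat_lit 4) (nat_lit 1) (nat_lit 4) (nat_lit 294) (nat_lit 214)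 (nat_lit 212)) (XT.lf (nat_lit 0) (nat_lit 5629977374) (nat_lit 152) (nat_lit 86597558293) (nat_lit 0) (nat_lit 4915900172) (nat_lit 1) (nat_lit 5) (nat_lit 3) (nat_lit 4) (nat_lit 1) (nat_lit 4) (nat_lit 295) (nat_lit 214) (nat_lit 211)))) (XT.nd (nat_lit 156) (nat_lit 0) (nat_lit 0) (XT.nd (nat_lit 78) (nat_lit 0) (nat_lit 0) (XT.lf (nat_lit 0) (nat_lit 8772037179) (nat_lit 152) (nat_lit 88136590576) (nat_lit 0) (nat_lit 7854293579) (nat_lit 1) (nat_lit 5) (nat_lit 3) (nat_lit 4) (nat_lit 1) (nat_lit 4) (nat_lit 296) (nat_lit 214) (nat_lit 210)) (XT.lf (nat_lit 0) (nat_lit 12032513509) (nat_lit 152) (nat_lit 90040068731) (nat_lit 0) (nat_lit 10926189910) (nat_lit 1) (nat_lit 5) (nat_lit 3) (nat_lit 4) (nat_lit 1) (nat_lit 4) (nat_lit 297) (nat_lit 214) (nat_lit 209))) (XT.nd (nat_lit 78) (nat_lit 0) (nat_lit 0) (XT.lf (nat_lit 0) (nat_lit 15430727704) (nat_lit 152) (nat_lit 92319272629)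 (nat_lit 0) (nat_lit 14149792996) (nat_lit 1) (nat_lit 5) (nat_lit 3) (nat_lit 4) (nat_lit 1) (nat_lit 4) (nat_lit 298) (nat_lit 214) (nat_lit 208)) (XT.nd (nat_lit 78) (nat_lit 0) (nat_lit 0) (XT.lf (nat_lit 0) (nat_lit 18986817329) (nat_lit 152) (nat_lit 94987708665) (nat_lit 0) (nat_lit 17544205668) (nat_lit 1) (nat_lit 5) (nat_lit 3) (nat_lit 4) (nat_lit 1) (nat_lit 4) (nat_lit 299) (nat_lit 214) (nat_lit 207)) (XT.lf (nat_lit 0) (nat_lit 22721855509) (nat_lit 152) (nat_lit 98061189791) (nat_lit 0) (nat_lit 21129542965) (nat_lit 1) (nat_lit 5) (nat_lit 3) (nat_lit 4) (nat_lit 1) (nat_lit 4) (nat_lit 300) (nat_lit 214) (nat_lit 206)))))) (XT.nd (nat_lit 390) (nat_lit 0) (nat_lit 0) (XT.nd (nat_lit 156) (nat_lit 0) (nat_lit 0) (XT.nd (nat_lit 78) (nat_lit 0) (nat_lit 0) (XT.lf (nat_lit 0) (nat_lit 26657975803) (nat_lit 152) (nat_lit 101557929229) (nat_lit 0) (nat_lit 24927051331) (nat_lit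 1) (nat_lit 5) (nat_lit 3) (nat_lit 4) (nat_lit 1) (nat_lit 4) (nat_lit 301) (nat_lit 214) (nat_lit 205)) (XT.lf (nat_lit 0) (nat_lit 30818503368) (nat_lit 152) (nat_lit 105498648399) (nat_lit 0) (nat_lit 28959234518) (nat_lit 1) (nat_lit 5) (nat_lit 3) (nat_lit 4) (nat_lit 1) (nat_lit 4) (nat_lit 302) (nat_lit 214) (nat_lit 204))) (XT.nd (nat_lit 78) (nat_lit 0) (nat_lit 0) (XT.lf (nat_lit 0) (nat_lit 35228093183) (nat_lit 152) (nat_lit 109906699709) (nat_lit 0) (nat_lit 33249986946) (nat_lit 1) (nat_lit 5) (nat_lit 3) (nat_lit 4) (nat_lit 1) (nat_lit 4) (nat_lit 303) (nat_lit 214) (nat_lit 203)) (XT.nd (nat_lit 78) (nat_lit 0) (nat_lit 0) (XT.lf (nat_lit 0) (nat_lit 39912876150) (nat_lit 152) (nat_lit 114808204947) (nat_lit 0) (nat_lit 37824735295) (nat_lit 1) (nat_lit 5) (nat_lit 3) (nat_lit 4) (nat_lit 1) (nat_lit 4) (nat_lit 304) (nat_lit 214) (nat_lit 202)) (XT.lf (nat_lit 0) (nat_lit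 44900613946) (nat_lit 152) (nat_lit 120232210068) (nat_lit 0) (nat_lit 42710589186) (nat_lit 1) (nat_lit 5) (nat_lit 3) (nat_lit 4) (nat_lit 1) (nat_lit 4) (nat_lit 305) (nat_lit 214) (nat_lit 201))))) (XT.nd (nat_lit 156) (nat_lit 0) (nat_lit 0) (XT.nd (nat_lit 78) (nat_lit 0) (nat_lit 0) (XT.lf (nat_lit 0) (nat_lit 50220863535) (nat_lit 152) (nat_lit 126210857326) (nat_lit 0) (nat_lit 47936501826) (nat_lit 1) (nat_lit 5) (nat_lit 3) (nat_lit 4) (nat_lit 1) (nat_lit 4) (nat_lit 306) (nat_lit 214) (nat_lit 200)) (XT.lf (nat_lit 0) (nat_lit 55905152324) (nat_lit 152) (nat_lit 132779575740) (nat_lit 0) (nat_lit 53533441587) (nat_lit 1) (nat_lit 5) (nat_lit 3) (nat_lit 4) (nat_lit 1) (nat_lit 4) (nat_lit 307) (nat_lit 214) (nat_lit 199))) (XT.nd (nat_lit 78) (nat_lit 0) (nat_lit 0) (XT.lf (nat_lit 0) (nat_lit 61987164985) (nat_lit 152) (nat_lit 139977291051) (nat_lit 0) (nat_lit 59534575519)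 (nat_lit 1) (nat_lit 5) (nat_lit 3) (nat_lit 4) (nat_lit 1) (nat_lit 4) (nat_lit 308) (nat_lit 214) (nat_lit 198)) (XT.nd (nat_lit 78) (nat_lit 0) (nat_lit 0) (XT.lf (nat_lit 0) (nat_lit 68502943076) (nat_lit 152) (nat_lit 147846656384) (nat_lit 0) (nat_lit 65975465898) (nat_lit 1) (nat_lit 5) (nat_lit 3) (nat_lit 4) (nat_lit 1) (nat_lit 4) (nat_lit 309) (nat_lit 214) (nat_lit 197)) (XT.lf (nat_lit 0) (nat_lit 75491098614) (nat_lit 152) (nat_lit 156434305018) (nat_lit 0) (nat_lit 72894280963) (nat_lit 1) (nat_lit 5) (nat_lit 3) (nat_lit 4) (nat_lit 1) (nat_lit 4) (nat_lit 310) (nat_lit 214) (nat_lit 196))))))))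
noncomputable def xc8 : XT := (XT.nd (nat_lit 36114) (nat_lit 0) (nat_lit 0) (XT.nd (nat_lit 702) (nat_lit 0) (nat_lit 0) (XT.nd (nat_lit 312) (nat_lit 0) (nat_lit 0) (XT.nd (nat_lit 156) (nat_lit 0) (nat_lit 0) (XT.nd (nat_lit 78) (nat_lit 0) (nat_lit 0) (XT.lf (nat_lit 0) (nat_lit 82993042892) (nat_lit 152) (nat_lit 165791126721) (nat_lit 0) (nat_lit 80332021098) (nat_lit 1) (nat_lit 5) (nat_lit 3) (nat_lit 4) (nat_lit 1) (nat_lit 4) (nat_lit 311) (nat_lit 214) (nat_lit 195)) (XT.lf (nat_lit 0) (nat_lit 91053231877) (nat_lit 152) (nat_lit 175972569325) (nat_lit 0) (nat_lit 88332761802) (nat_lit 1) (nat_lit 5) (nat_lit 3) (nat_lit 4) (nat_lit 1) (nat_lit 4) (nat_lit 312) (nat_lit 214) (nat_lit 194))) (XT.nd (nat_lit 78) (nat_lit 0) (nat_lit 0) (XT.lf (nat_lit 0) (nat_lit 99719429650) (nat_lit 152) (nat_lit 187038967306) (nat_lit 0) (nat_lit 96943914872) (nat_lit 1) (nat_lit 5) (nat_lit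 3) (nat_lit 4) (nat_lit 1) (nat_lit 4) (nat_lit 313) (nat_lit 214) (nat_lit 193)) (XT.lf (nat_lit 0) (nat_lit 109042991458) (nat_lit 152) (nat_lit 199055899317) (nat_lit 0) (nat_lit 106216509361) (nat_lit 1) (nat_lit 5) (nat_lit 3) (nat_lit 4) (nat_lit 1) (nat_lit 4) (nat_lit 314) (nat_lit 214) (nat_lit 192)))) (XT.nd (nat_lit 156) (nat_lit 0) (nat_lit 0) (XT.nd (nat_lit 78) (nat_lit 0) (nat_lit 0) (XT.lf (nat_lit 0) (nat_lit 119079168037) (nat_lit 152) (nat_lit 212094576809) (nat_lit 0) (nat_lit 116205493979) (nat_lit 1) (nat_lit 5) (nat_lit 3) (nat_lit 4) (nat_lit 1) (nat_lit 4) (nat_lit 315) (nat_lit 214) (nat_lit 191)) (XT.lf (nat_lit 0) (nat_lit 129887433027) (nat_lit 152) (nat_lit 226232266018) (nat_lit 0) (nat_lit 126970062709) (nat_lit 1) (nat_lit 5) (nat_lit 3) (nat_lit 4) (nat_lit 1) (nat_lit 4) (nat_lit 316) (nat_lit 214) (nat_lit 190))) (XT.nd (nat_lit 78) (nat_lit 0) (nat_lit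 0) (XT.lf (nat_lit 0) (nat_lit 141531835405) (nat_lit 152) (nat_lit 241552745842) (nat_lit 0) (nat_lit 138574005586) (nat_lit 1) (nat_lit 5) (nat_lit 3) (nat_lit 4) (nat_lit 1) (nat_lit 4) (nat_lit 317) (nat_lit 214) (nat_lit 189)) (XT.nd (nat_lit 78) (nat_lit 0) (nat_lit 0) (XT.lf (nat_lit 0) (nat_lit 154081379038) (nat_lit 152) (nat_lit 258146804311) (nat_lit 0) (nat_lit 151086086718) (nat_lit 1) (nat_lit 5) (nat_lit 3) (nat_lit 4) (nat_lit 1) (nat_lit 4) (nat_lit 318) (nat_lit 214) (nat_lit 188)) (XT.lf (nat_lit 0) (nat_lit 167610431590) (nat_lit 152) (nat_lit 276112776586) (nat_lit 0) (nat_lit 164580451770) (nat_lit 1) (nat_lit 5) (nat_lit 3) (nat_lit 4) (nat_lit 1) (nat_lit 4) (nat_lit 319) (nat_lit 214) (nat_lit 187)))))) (XT.nd (nat_lit 312) (nat_lit 0) (nat_lit 0) (XT.nd (nat_lit 156) (nat_lit 0) (nat_lit 0) (XT.nd (nat_lit 78) (nat_lit 0) (nat_lit 0) (XT.lf (nat_lit 0) (nat_lit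 182199165226) (nat_lit 152) (nat_lit 295557127688) (nat_lit 0) (nat_lit 179137067350) (nat_lit 1) (nat_lit 5) (nat_lit 3) (nat_lit 4) (nat_lit 1) (nat_lit 4) (nat_lit 320) (nat_lit 214) (nat_lit 186)) (XT.lf (nat_lit 0) (nat_lit 197934031700) (nat_lit 152) (nat_lit 316595083400) (nat_lit 0) (nat_lit 194842194884) (nat_lit 1) (nat_lit 5) (nat_lit 3) (nat_lit 4) (nat_lit 1) (nat_lit 4) (nat_lit 321) (nat_lit 214) (nat_lit 185))) (XT.nd (nat_lit 78) (nat_lit 0) (nat_lit 0) (XT.lf (nat_lit 0) (nat_lit 214908274666) (nat_lit 152) (nat_lit 339351313091) (nat_lit 0) (nat_lit 211788901793) (nat_lit 1) (nat_lit 5) (nat_lit 3) (nat_lit 4) (nat_lit 1) (nat_lit 4) (nat_lit 322) (nat_lit 214) (nat_lit 184)) (XT.lf (nat_lit 0) (nat_lit 233222482230) (nat_lit 152) (nat_lit 363960668492) (nat_lit 0) (nat_lit 230077613009) (nat_lit 1) (nat_lit 5) (nat_lit 3) (nat_lit 4) (nat_lit 1) (nat_lit 4) (nat_lit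 323) (nat_lit 214) (nat_lit 183)))) (XT.nd (nat_lit 34866) (nat_lit 0) (nat_lit 152) (XT.nd (nat_lit 78) (nat_lit 0) (nat_lit 0) (XT.lf (nat_lit 0) (nat_lit 252985183029) (nat_lit 152) (nat_lit 390568982820) (nat_lit 0) (nat_lit 249816706078) (nat_lit 1) (nat_lit 5) (nat_lit 3) (nat_lit 4) (nat_lit 1) (nat_lit 4) (nat_lit 324) (nat_lit 214) (nat_lit 182)) (XT.lf (nat_lit 0) (nat_lit 274313489364) (nat_lit 152) (nat_lit 419333934974) (nat_lit 0) (nat_lit 271123153404) (nat_lit 1) (nat_lit 5) (nat_lit 3) (nat_lit 4) (nat_lit 1) (nat_lit 4) (nat_lit 325) (nat_lit 214) (nat_lit 181))) (XT.nd (nat_lit 78) (nat_lit 0) (nat_lit 0) (XT.lf (nat_lit 0) (nat_lit 24968267685) (nat_lit 76) (nat_lit 4214059122) (nat_lit 76) (nat_lit 4214059122) (nat_lit 3) (nat_lit 4) (nat_lit 4) (nat_lit 5) (nat_lit 4) (nat_lit 4) (nat_lit 290) (nat_lit 215) (nat_lit 215)) (XT.nd (nat_lit 78) (nat_lit 0) (nat_lit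 0) (XT.lf (nat_lit 0) (nat_lit 60190042304) (nat_lit 76) (nat_lit 6028736336) (nat_lit 76) (nat_lit 5737796156) (nat_lit 3) (nat_lit 4) (nat_lit 4) (nat_lit 5) (nat_lit 4) (nat_lit 4) (nat_lit 291) (nat_lit 215) (nat_lit 214)) (XT.lf (nat_lit 0) (nat_lit 70958676136) (nat_lit 76) (nat_lit 3571946427) (nat_lit 76) (nat_lit 3011617191) (nat_lit 3) (nat_lit 4) (nat_lit 4) (nat_lit 5) (nat_lit 4) (nat_lit 4) (nat_lit 292) (nat_lit 215) (nat_lit 213))))))) (XT.nd (nat_lit 702) (nat_lit 0) (nat_lit 0) (XT.nd (nat_lit 312) (nat_lit 0) (nat_lit 0) (XT.nd (nat_lit 156) (nat_lit 0) (nat_lit 0) (XT.nd (nat_lit 78) (nat_lit 152) (nat_lit 0) (XT.lf (nat_lit 0) (nat_lit 82306250993) (nat_lit 76) (nat_lit 1043189761) (nat_lit 76) (nat_lit 233426213) (nat_lit 3) (nat_lit 4) (nat_lit 4) (nat_lit 5) (nat_lit 4) (nat_lit 4) (nat_lit 293) (nat_lit 215) (nat_lit 212)) (XT.lf (nat_lit 0) (nat_lit 2622770552)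 (nat_lit 152) (nat_lit 85853176211) (nat_lit 0) (nat_lit 1631607463) (nat_lit 1) (nat_lit 5) (nat_lit 3) (nat_lit 4) (nat_lit 1) (nat_lit 4) (nat_lit 294) (nat_lit 215) (nat_lit 211))) (XT.nd (nat_lit 78) (nat_lit 0) (nat_lit 0) (XT.lf (nat_lit 0) (nat_lit 5596002619) (nat_lit 152) (nat_lit 87162185290) (nat_lit 0) (nat_lit 4401173133) (nat_lit 1) (nat_lit 5) (nat_lit 3) (nat_lit 4) (nat_lit 1) (nat_lit 4) (nat_lit 295) (nat_lit 215) (nat_lit 210)) (XT.lf (nat_lit 0) (nat_lit 8674144992) (nat_lit 152) (nat_lit 88817238386) (nat_lit 0) (nat_lit 7290735507) (nat_lit 1) (nat_lit 5) (nat_lit 3) (nat_lit 4) (nat_lit 1) (nat_lit 4) (nat_lit 296) (nat_lit 215) (nat_lit 209)))) (XT.nd (nat_lit 156) (nat_lit 0) (nat_lit 0) (XT.nd (nat_lit 78) (nat_lit 0) (nat_lit 0) (XT.lf (nat_lit 0) (nat_lit 11875438513) (nat_lit 152) (nat_lit 90828143219) (nat_lit 0) (nat_lit 10317417919) (nat_lit 1) (nat_lit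 5) (nat_lit 3) (nat_lit 4) (nat_lit 1) (nat_lit 4) (nat_lit 297) (nat_lit 215) (nat_lit 208)) (XT.lf (nat_lit 0) (nat_lit 15218853811) (nat_lit 152) (nat_lit 93206816264) (nat_lit 0) (nat_lit 13499156264) (nat_lit 1) (nat_lit 5) (nat_lit 3) (nat_lit 4) (nat_lit 1) (nat_lit 4) (nat_lit 298) (nat_lit 215) (nat_lit 207))) (XT.nd (nat_lit 78) (nat_lit 0) (nat_lit 0) (XT.lf (nat_lit 0) (nat_lit 18724203718) (nat_lit 152) (nat_lit 95967353361) (nat_lit 0) (nat_lit 16854805288) (nat_lit 1) (nat_lit 5) (nat_lit 3) (nat_lit 4) (nat_lit 1) (nat_lit 4) (nat_lit 299) (nat_lit 215) (nat_lit 206)) (XT.nd (nat_lit 78) (nat_lit 0) (nat_lit 0) (XT.lf (nat_lit 0) (nat_lit 22412260676) (nat_lit 152) (nat_lit 99126113247) (nat_lit 0) (nat_lit 20404250318) (nat_lit 1) (nat_lit 5) (nat_lit 3) (nat_lit 4) (nat_lit 1) (nat_lit 4) (nat_lit 300) (nat_lit 215) (nat_lit 205)) (XT.lf (nat_lit 0) (nat_lit 26304879840)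 (nat_lit 152) (nat_lit 102701814501) (nat_lit 0) (nat_lit 24168525103) (nat_lit 1) (nat_lit 5) (nat_lit 3) (nat_lit 4) (nat_lit 1) (nat_lit 4) (nat_lit 301) (nat_lit 215) (nat_lit 204)))))) (XT.nd (nat_lit 390) (nat_lit 0) (nat_lit 0) (XT.nd (nat_lit 156) (nat_lit 0) (nat_lit 0) (XT.nd (nat_lit 78) (nat_lit 0) (nat_lit 0) (XT.lf (nat_lit 0) (nat_lit 30425128580) (nat_lit 152) (nat_lit 106715646463) (nat_lit 0) (nat_lit 28169936457) (nat_lit 1) (nat_lit 5) (nat_lit 3) (nat_lit 4) (nat_lit 1) (nat_lit 4) (nat_lit 302) (nat_lit 215) (nat_lit 203)) (XT.lf (nat_lit 0) (nat_lit 34797423187) (nat_lit 152) (nat_lit 111191394804) (nat_lit 0) (nat_lit 32432196446) (nat_lit 1) (nat_lit 5) (nat_lit 3) (nat_lit 4) (nat_lit 1) (nat_lit 4) (nat_lit 303) (nat_lit 215) (nat_lit 202))) (XT.nd (nat_lit 78) (nat_lit 0) (nat_lit 0) (XT.lf (nat_lit 0) (nat_lit 39447673553) (nat_lit 152) (nat_lit 116155582476)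 (nat_lit 0) (nat_lit 36980562907) (nat_lit 1) (nat_lit 5) (nat_lit 3) (nat_lit 4) (nat_lit 1) (nat_lit 4) (nat_lit 304) (nat_lit 215) (nat_lit 201)) (XT.nd (nat_lit 78) (nat_lit 0) (nat_lit 0) (XT.lf (nat_lit 0) (nat_lit 44403436719) (nat_lit 152) (nat_lit 121637626889) (nat_lit 0) (nat_lit 41841989124) (nat_lit 1) (nat_lit 5) (nat_lit 3) (nat_lit 4) (nat_lit 1) (nat_lit 4) (nat_lit 305) (nat_lit 215) (nat_lit 200)) (XT.lf (nat_lit 0) (nat_lit 49694080170) (nat_lit 152) (nat_lit 127670014231) (nat_lit 0) (nat_lit 47045283548) (nat_lit 1) (nat_lit 5) (nat_lit 3) (nat_lit 4) (nat_lit 1) (nat_lit 4) (nat_lit 306) (nat_lit 215) (nat_lit 199))))) (XT.nd (nat_lit 156) (nat_lit 0) (nat_lit 0) (XT.nd (nat_lit 78) (nat_lit 0) (nat_lit 0) (XT.lf (nat_lit 0) (nat_lit 55350955867) (nat_lit 152) (nat_lit 134288491984) (nat_lit 0) (nat_lit 52621280516) (nat_lit 1) (nat_lit 5) (nat_lit 3) (nat_lit 4)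 (nat_lit 1) (nat_lit 4) (nat_lit 307) (nat_lit 215) (nat_lit 198)) (XT.lf (nat_lit 0) (nat_lit 61407586036) (nat_lit 152) (nat_lit 141532280755) (nat_lit 0) (nat_lit 58603022973) (nat_lit 1) (nat_lit 5) (nat_lit 3) (nat_lit 4) (nat_lit 1) (nat_lit 4) (nat_lit 308) (nat_lit 215) (nat_lit 197))) (XT.nd (nat_lit 78) (nat_lit 0) (nat_lit 0) (XT.lf (nat_lit 0) (nat_lit 67899861820) (nat_lit 152) (nat_lit 149444306701) (nat_lit 0) (nat_lit 65025958282) (nat_lit 1) (nat_lit 5) (nat_lit 3) (nat_lit 4) (nat_lit 1) (nat_lit 4) (nat_lit 309) (nat_lit 215) (nat_lit 196)) (XT.nd (nat_lit 78) (nat_lit 0) (nat_lit 0) (XT.lf (nat_lit 0) (nat_lit 74866255962) (nat_lit 152) (nat_lit 158071455901) (nat_lit 0) (nat_lit 71928148282) (nat_lit 1) (nat_lit 5) (nat_lit 3) (nat_lit 4) (nat_lit 1) (nat_lit 4) (nat_lit 310) (nat_lit 215) (nat_lit 195)) (XT.lf (nat_lit 0) (nat_lit 82348050800) (nat_lit 152) (nat_lit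 167464852202) (nat_lit 0) (nat_lit 79350494840) (nat_lit 1) (nat_lit 5) (nat_lit 3) (nat_lit 4) (nat_lit 1) (nat_lit 4) (nat_lit 311) (nat_lit 215) (nat_lit 194))))))))
noncomputable def xc9 : XT := (XT.nd (nat_lit 35958) (nat_lit 0) (nat_lit 0) (XT.nd (nat_lit 702) (nat_lit 0) (nat_lit 0) (XT.nd (nat_lit 312) (nat_lit 0) (nat_lit 0) (XT.nd (nat_lit 156) (nat_lit 0) (nat_lit 0) (XT.nd (nat_lit 78) (nat_lit 0) (nat_lit 0) (XT.lf (nat_lit 0) (nat_lit 90389582895) (nat_lit 152) (nat_lit 177680160176) (nat_lit 0) (nat_lit 87336982231) (nat_lit 1) (nat_lit 5) (nat_lit 3) (nat_lit 4) (nat_lit 1) (nat_lit 4) (nat_lit 312) (nat_lit 215) (nat_lit 193)) (XT.lf (nat_lit 0) (nat_lit 99038505770) (nat_lit 152) (nat_lit 188777914980) (nat_lit 0) (nat_lit 95934937788) (nat_lit 1) (nat_lit 5) (nat_lit 3) (nat_lit 4) (nat_lit 1) (nat_lit 4) (nat_lit 313) (nat_lit 215) (nat_lit 192))) (XT.nd (nat_lit 78)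 (nat_lit 0) (nat_lit 0) (XT.lf (nat_lit 0) (nat_lit 108346072303) (nat_lit 152) (nat_lit 200823881087) (nat_lit 0) (nat_lit 105195312359) (nat_lit 1) (nat_lit 5) (nat_lit 3) (nat_lit 4) (nat_lit 1) (nat_lit 4) (nat_lit 314) (nat_lit 215) (nat_lit 191)) (XT.lf (nat_lit 0) (nat_lit 118367438442) (nat_lit 152) (nat_lit 213889442001) (nat_lit 0) (nat_lit 115172982238) (nat_lit 1) (nat_lit 5) (nat_lit 3) (nat_lit 4) (nat_lit 1) (nat_lit 4) (nat_lit 315) (nat_lit 215) (nat_lit 190)))) (XT.nd (nat_lit 156) (nat_lit 0) (nat_lit 0) (XT.nd (nat_lit 78) (nat_lit 0) (nat_lit 0) (XT.lf (nat_lit 0) (nat_lit 129161990061) (nat_lit 152) (nat_lit 228052023267) (nat_lit 0) (nat_lit 125927074356) (nat_lit 1) (nat_lit 5) (nat_lit 3) (nat_lit 4) (nat_lit 1) (nat_lit 4) (nat_lit 316) (nat_lit 215) (nat_lit 189)) (XT.lf (nat_lit 0) (nat_lit 140793694874) (nat_lit 152) (nat_lit 243395551293) (nat_lit 0) (nat_lit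 137521316669) (nat_lit 1) (nat_lit 5) (nat_lit 3) (nat_lit 4) (nat_lit 1) (nat_lit 4) (nat_lit 317) (nat_lit 215) (nat_lit 188))) (XT.nd (nat_lit 78) (nat_lit 0) (nat_lit 0) (XT.lf (nat_lit 0) (nat_lit 153331481501) (nat_lit 152) (nat_lit 260010950689) (nat_lit 0) (nat_lit 150024415796) (nat_lit 1) (nat_lit 5) (nat_lit 3) (nat_lit 4) (nat_lit 1) (nat_lit 4) (nat_lit 318) (nat_lit 215) (nat_lit 187)) (XT.nd (nat_lit 78) (nat_lit 0) (nat_lit 0) (XT.lf (nat_lit 0) (nat_lit 166849647938) (nat_lit 152) (nat_lit 277996683081) (nat_lit 0) (nat_lit 163510464176) (nat_lit 1) (nat_lit 5) (nat_lit 3) (nat_lit 4) (nat_lit 1) (nat_lit 4) (nat_lit 319) (nat_lit 215) (nat_lit 186)) (XT.lf (nat_lit 0) (nat_lit 181428301837) (nat_lit 152) (nat_lit 297459330588) (nat_lit 0) (nat_lit 178059379135) (nat_lit 1) (nat_lit 5) (nat_lit 3) (nat_lit 4) (nat_lit 1) (nat_lit 4) (nat_lit 320) (nat_lit 215) (nat_lit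 185)))))) (XT.nd (nat_lit 312) (nat_lit 0) (nat_lit 0) (XT.nd (nat_lit 156) (nat_lit 0) (nat_lit 0) (XT.nd (nat_lit 78) (nat_lit 0) (nat_lit 0) (XT.lf (nat_lit 0) (nat_lit 197153835222) (nat_lit 152) (nat_lit 318514227417) (nat_lit 0) (nat_lit 193757376463) (nat_lit 1) (nat_lit 5) (nat_lit 3) (nat_lit 4) (nat_lit 1) (nat_lit 4) (nat_lit 321) (nat_lit 215) (nat_lit 184)) (XT.lf (nat_lit 0) (nat_lit 214119436438) (nat_lit 152) (nat_lit 341286143326) (nat_lit 0) (nat_lit 210697481331) (nat_lit 1) (nat_lit 5) (nat_lit 3) (nat_lit 4) (nat_lit 1) (nat_lit 4) (nat_lit 322) (nat_lit 215) (nat_lit 183))) (XT.nd (nat_lit 78) (nat_lit 0) (nat_lit 0) (XT.lf (nat_lit 0) (nat_lit 232425642382) (nat_lit 152) (nat_lit 365910023003) (nat_lit 0) (nat_lit 228980079545) (nat_lit 1) (nat_lit 5) (nat_lit 3) (nat_lit 4) (nat_lit 1) (nat_lit 4) (nat_lit 323) (nat_lit 215) (nat_lit 182)) (XT.lf (nat_lit 0) (nat_lit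 252180934273) (nat_lit 152) (nat_lit 392531785735) (nat_lit 0) (nat_lit 248713512427) (nat_lit 1) (nat_lit 5) (nat_lit 3) (nat_lit 4) (nat_lit 1) (nat_lit 4) (nat_lit 324) (nat_lit 215) (nat_lit 181)))) (XT.nd (nat_lit 34710) (nat_lit 0) (nat_lit 152) (XT.nd (nat_lit 34632) (nat_lit 0) (nat_lit 152) (XT.lf (nat_lit 0) (nat_lit 273502380509) (nat_lit 152) (nat_lit 421309190115) (nat_lit 0) (nat_lit 270014718839) (nat_lit 1) (nat_lit 5) (nat_lit 3) (nat_lit 4) (nat_lit 1) (nat_lit 4) (nat_lit 325) (nat_lit 215) (nat_lit 180)) (XT.lf (nat_lit 0) (nat_lit 15452834715) (nat_lit 76) (nat_lit 6675022213) (nat_lit 76) (nat_lit 6675022213) (nat_lit 3) (nat_lit 4) (nat_lit 4) (nat_lit 5) (nat_lit 4) (nat_lit 4) (nat_lit 288) (nat_lit 216) (nat_lit 216))) (XT.nd (nat_lit 78) (nat_lit 0) (nat_lit 0) (XT.lf (nat_lit 0) (nat_lit 40137393815) (nat_lit 76) (nat_lit 11098526105) (nat_lit 76) (nat_lit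 10784310710) (nat_lit 3) (nat_lit 4) (nat_lit 4) (nat_lit 5) (nat_lit 4) (nat_lit 4) (nat_lit 289) (nat_lit 216) (nat_lit 215)) (XT.nd (nat_lit 78) (nat_lit 0) (nat_lit 0) (XT.lf (nat_lit 0) (nat_lit 49778090204) (nat_lit 76) (nat_lit 8812192271) (nat_lit 76) (nat_lit 8207036696) (nat_lit 3) (nat_lit 4) (nat_lit 4) (nat_lit 5) (nat_lit 4) (nat_lit 4) (nat_lit 290) (nat_lit 216) (nat_lit 214)) (XT.lf (nat_lit 0) (nat_lit 59884888648) (nat_lit 76) (nat_lit 6477494282) (nat_lit 76) (nat_lit 5602949651) (nat_lit 3) (nat_lit 4) (nat_lit 4) (nat_lit 5) (nat_lit 4) (nat_lit 4) (nat_lit 291) (nat_lit 216) (nat_lit 213))))))) (XT.nd (nat_lit 702) (nat_lit 0) (nat_lit 0) (XT.nd (nat_lit 312) (nat_lit 0) (nat_lit 0) (XT.nd (nat_lit 156) (nat_lit 152) (nat_lit 0) (XT.nd (nat_lit 78) (nat_lit 0) (nat_lit 0) (XT.lf (nat_lit 0) (nat_lit 70517681288) (nat_lit 76) (nat_lit 4080596890) (nat_lit 76) (nat_lit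 2956617948) (nat_lit 3) (nat_lit 4) (nat_lit 4) (nat_lit 5) (nat_lit 4) (nat_lit 4) (nat_lit 292) (nat_lit 216) (nat_lit 212)) (XT.lf (nat_lit 0) (nat_lit 81739477263) (nat_lit 76) (nat_lit 1607296258) (nat_lit 76) (nat_lit 252359621) (nat_lit 3) (nat_lit 4) (nat_lit 4) (nat_lit 5) (nat_lit 4) (nat_lit 4) (nat_lit 293) (nat_lit 216) (nat_lit 211))) (XT.nd (nat_lit 78) (nat_lit 0) (nat_lit 0) (XT.lf (nat_lit 0) (nat_lit 2517046989) (nat_lit 152) (nat_lit 86588275846) (nat_lit 0) (nat_lit 1022964746) (nat_lit 1) (nat_lit 5) (nat_lit 3) (nat_lit 4) (nat_lit 1) (nat_lit 4) (nat_lit 294) (nat_lit 216) (nat_lit 210)) (XT.lf (nat_lit 0) (nat_lit 5426361624) (nat_lit 152) (nat_lit 88013305738) (nat_lit 0) (nat_lit 3743699383) (nat_lit 1) (nat_lit 5) (nat_lit 3) (nat_lit 4) (nat_lit 1) (nat_lit 4) (nat_lit 295) (nat_lit 216) (nat_lit 209)))) (XT.nd (nat_lit 156) (nat_lit 0) (nat_lit 0) (XT.nd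 (nat_lit 78) (nat_lit 0) (nat_lit 0) (XT.lf (nat_lit 0) (nat_lit 8445321189) (nat_lit 152) (nat_lit 89775785511) (nat_lit 0) (nat_lit 6588047838) (nat_lit 1) (nat_lit 5) (nat_lit 3) (nat_lit 4) (nat_lit 1) (nat_lit 4) (nat_lit 296) (nat_lit 216) (nat_lit 208)) (XT.lf (nat_lit 0) (nat_lit 11591815813) (nat_lit 152) (nat_lit 91886159491) (nat_lit 0) (nat_lit 9572865509) (nat_lit 1) (nat_lit 5) (nat_lit 3) (nat_lit 4) (nat_lit 1) (nat_lit 4) (nat_lit 297) (nat_lit 216) (nat_lit 207))) (XT.nd (nat_lit 78) (nat_lit 0) (nat_lit 0) (XT.lf (nat_lit 0) (nat_lit 14884491392) (nat_lit 152) (nat_lit 94356933598) (nat_lit 0) (nat_lit 12715840206) (nat_lit 1) (nat_lit 5) (nat_lit 3) (nat_lit 4) (nat_lit 1) (nat_lit 4) (nat_lit 298) (nat_lit 216) (nat_lit 206)) (XT.nd (nat_lit 78) (nat_lit 0) (nat_lit 0) (XT.lf (nat_lit 0) (nat_lit 18342860077) (nat_lit 152) (nat_lit 97202749455) (nat_lit 0) (nat_lit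 16035596962) (nat_lit 1) (nat_lit 5) (nat_lit 3) (nat_lit 4) (nat_lit 1) (nat_lit 4) (nat_lit 299) (nat_lit 216) (nat_lit 205)) (XT.lf (nat_lit 0) (nat_lit 21987415905) (nat_lit 152) (nat_lit 100440471157) (nat_lit 0) (nat_lit 19551808412) (nat_lit 1) (nat_lit 5) (nat_lit 3) (nat_lit 4) (nat_lit 1) (nat_lit 4) (nat_lit 300) (nat_lit 216) (nat_lit 204)))))) (XT.nd (nat_lit 390) (nat_lit 0) (nat_lit 0) (XT.nd (nat_lit 156) (nat_lit 0) (nat_lit 0) (XT.nd (nat_lit 78) (nat_lit 0) (nat_lit 0) (XT.lf (nat_lit 0) (nat_lit 25839756243) (nat_lit 152) (nat_lit 104089285203) (nat_lit 0) (nat_lit 23285311363) (nat_lit 1) (nat_lit 5) (nat_lit 3) (nat_lit 4) (nat_lit 1) (nat_lit 4) (nat_lit 301) (nat_lit 216) (nat_lit 203)) (XT.lf (nat_lit 0) (nat_lit 29922709776) (nat_lit 152) (nat_lit 108170814195) (nat_lit 0) (nat_lit 27258230278) (nat_lit 1) (nat_lit 5) (nat_lit 3) (nat_lit 4) (nat_lit 1) (nat_lit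 4) (nat_lit 302) (nat_lit 216) (nat_lit 202))) (XT.nd (nat_lit 78) (nat_lit 0) (nat_lit 0) (XT.lf (nat_lit 0) (nat_lit 34260471782) (nat_lit 152) (nat_lit 112709244970) (nat_lit 0) (nat_lit 31494108379) (nat_lit 1) (nat_lit 5) (nat_lit 3) (nat_lit 4) (nat_lit 1) (nat_lit 4) (nat_lit 303) (nat_lit 216) (nat_lit 201)) (XT.nd (nat_lit 78) (nat_lit 0) (nat_lit 0) (XT.lf (nat_lit 0) (nat_lit 38878747519) (nat_lit 152) (nat_lit 117731471934) (nat_lit 0) (nat_lit 36018047167) (nat_lit 1) (nat_lit 5) (nat_lit 3) (nat_lit 4) (nat_lit 1) (nat_lit 4) (nat_lit 304) (nat_lit 216) (nat_lit 200)) (XT.lf (nat_lit 0) (nat_lit 43804904546) (nat_lit 152) (nat_lit 123267256432) (nat_lit 0) (nat_lit 40856855167) (nat_lit 1) (nat_lit 5) (nat_lit 3) (nat_lit 4) (nat_lit 1) (nat_lit 4) (nat_lit 305) (nat_lit 216) (nat_lit 199))))) (XT.nd (nat_lit 156) (nat_lit 0) (nat_lit 0) (XT.nd (nat_lit 78) (nat_lit 0) (nat_lit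 0) (XT.lf (nat_lit 0) (nat_lit 49068134906) (nat_lit 152) (nat_lit 129349403112) (nat_lit 0) (nat_lit 46039206797) (nat_lit 1) (nat_lit 5) (nat_lit 3) (nat_lit 4) (nat_lit 1) (nat_lit 4) (nat_lit 306) (nat_lit 216) (nat_lit 198)) (XT.lf (nat_lit 0) (nat_lit 54699628111) (nat_lit 152) (nat_lit 136013954325) (nat_lit 0) (nat_lit 51595812290) (nat_lit 1) (nat_lit 5) (nat_lit 3) (nat_lit 4) (nat_lit 1) (nat_lit 4) (nat_lit 307) (nat_lit 216) (nat_lit 197))) (XT.nd (nat_lit 78) (nat_lit 0) (nat_lit 0) (XT.lf (nat_lit 0) (nat_lit 60732755972) (nat_lit 152) (nat_lit 143300403709) (nat_lit 0) (nat_lit 57559599678) (nat_lit 1) (nat_lit 5) (nat_lit 3) (nat_lit 4) (nat_lit 1) (nat_lit 4) (nat_lit 308) (nat_lit 216) (nat_lit 196)) (XT.nd (nat_lit 78) (nat_lit 0) (nat_lit 0) (XT.lf (nat_lit 0) (nat_lit 67203270360) (nat_lit 152) (nat_lit 151251930221) (nat_lit 0) (nat_lit 63965909923) (nat_lit 1)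 (nat_lit 5) (nat_lit 3) (nat_lit 4) (nat_lit 1) (nat_lit 4) (nat_lit 309) (nat_lit 216) (nat_lit 195)) (XT.lf (nat_lit 0) (nat_lit 74149515062) (nat_lit 152) (nat_lit 159915654020) (nat_lit 0) (nat_lit 70852706345) (nat_lit 1) (nat_lit 5) (nat_lit 3) (nat_lit 4) (nat_lit 1) (nat_lit 4) (nat_lit 310) (nat_lit 216) (nat_lit 194))))))))
noncomputable def xc10 : XT := (XT.nd (nat_lit 35802) (nat_lit 0) (nat_lit 0) (XT.nd (nat_lit 702) (nat_lit 0) (nat_lit 0) (XT.nd (nat_lit 312) (nat_lit 0) (nat_lit 0) (XT.nd (nat_lit 156) (nat_lit 0) (nat_lit 0) (XT.nd (nat_lit 78) (nat_lit 0) (nat_lit 0) (XT.lf (nat_lit 0) (nat_lit 81612653010) (nat_lit 152) (nat_lit 169342915691) (nat_lit 0) (nat_lit 78260799590) (nat_lit 1) (nat_lit 5) (nat_lit 3) (nat_lit 4) (nat_lit 1) (nat_lit 4) (nat_lit 311) (nat_lit 216) (nat_lit 193)) (XT.lf (nat_lit 0) (nat_lit 89636910208) (nat_lit 152) (nat_lit 179589580488)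 (nat_lit 0) (nat_lit 86234089468) (nat_lit 1) (nat_lit 5) (nat_lit 3) (nat_lit 4) (nat_lit 1) (nat_lit 4) (nat_lit 312) (nat_lit 216) (nat_lit 192))) (XT.nd (nat_lit 78) (nat_lit 0) (nat_lit 0) (XT.lf (nat_lit 0) (nat_lit 98269837808) (nat_lit 152) (nat_lit 190716369387) (nat_lit 0) (nat_lit 94819825107) (nat_lit 1) (nat_lit 5) (nat_lit 3) (nat_lit 4) (nat_lit 1) (nat_lit 4) (nat_lit 313) (nat_lit 216) (nat_lit 191)) (XT.lf (nat_lit 0) (nat_lit 107562593900) (nat_lit 152) (nat_lit 202789218917) (nat_lit 0) (nat_lit 104068884938) (nat_lit 1) (nat_lit 5) (nat_lit 3) (nat_lit 4) (nat_lit 1) (nat_lit 4) (nat_lit 314) (nat_lit 216) (nat_lit 190)))) (XT.nd (nat_lit 156) (nat_lit 0) (nat_lit 0) (XT.nd (nat_lit 78) (nat_lit 0) (nat_lit 0) (XT.lf (nat_lit 0) (nat_lit 117570246668) (nat_lit 152) (nat_lit 215879671888) (nat_lit 0) (nat_lit 114036078206) (nat_lit 1) (nat_lit 5) (nat_lit 3) (nat_lit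 4) (nat_lit 1) (nat_lit 4) (nat_lit 315) (nat_lit 216) (nat_lit 189)) (XT.lf (nat_lit 0) (nat_lit 128352100722) (nat_lit 152) (nat_lit 230065301355) (nat_lit 0) (nat_lit 124780469760) (nat_lit 1) (nat_lit 5) (nat_lit 3) (nat_lit 4) (nat_lit 1) (nat_lit 4) (nat_lit 316) (nat_lit 216) (nat_lit 188))) (XT.nd (nat_lit 78) (nat_lit 0) (nat_lit 0) (XT.lf (nat_lit 0) (nat_lit 139972048530) (nat_lit 152) (nat_lit 245430170308) (nat_lit 0) (nat_lit 136365730067) (nat_lit 1) (nat_lit 5) (nat_lit 3) (nat_lit 4) (nat_lit 1) (nat_lit 4) (nat_lit 317) (nat_lit 216) (nat_lit 187)) (XT.nd (nat_lit 78) (nat_lit 0) (nat_lit 0) (XT.lf (nat_lit 0) (nat_lit 152498949042) (nat_lit 152) (nat_lit 262065329821) (nat_lit 0) (nat_lit 148860512523) (nat_lit 1) (nat_lit 5) (nat_lit 3) (nat_lit 4) (nat_lit 1) (nat_lit 4) (nat_lit 318) (nat_lit 216) (nat_lit 186)) (XT.lf (nat_lit 0) (nat_lit 166007035742) (nat_lit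 152) (nat_lit 280069358619) (nat_lit 0) (nat_lit 162338860282) (nat_lit 1) (nat_lit 5) (nat_lit 3) (nat_lit 4) (nat_lit 1) (nat_lit 4) (nat_lit 319) (nat_lit 216) (nat_lit 185)))))) (XT.nd (nat_lit 312) (nat_lit 0) (nat_lit 0) (XT.nd (nat_lit 156) (nat_lit 0) (nat_lit 0) (XT.nd (nat_lit 78) (nat_lit 0) (nat_lit 0) (XT.lf (nat_lit 0) (nat_lit 180576356551) (nat_lit 152) (nat_lit 299548947242) (nat_lit 0) (nat_lit 176880645035) (nat_lit 1) (nat_lit 5) (nat_lit 3) (nat_lit 4) (nat_lit 1) (nat_lit 4) (nat_lit 320) (nat_lit 216) (nat_lit 184)) (XT.lf (nat_lit 0) (nat_lit 196293248186) (nat_lit 152) (nat_lit 320619530289) (nat_lit 0) (nat_lit 192572040322) (nat_lit 1) (nat_lit 5) (nat_lit 3) (nat_lit 4) (nat_lit 1) (nat_lit 4) (nat_lit 321) (nat_lit 216) (nat_lit 183))) (XT.nd (nat_lit 78) (nat_lit 0) (nat_lit 0) (XT.lf (nat_lit 0) (nat_lit 213250847782) (nat_lit 152) (nat_lit 343405970475)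 (nat_lit 0) (nat_lit 209506032188) (nat_lit 1) (nat_lit 5) (nat_lit 3) (nat_lit 4) (nat_lit 1) (nat_lit 4) (nat_lit 322) (nat_lit 216) (nat_lit 182)) (XT.lf (nat_lit 0) (nat_lit 231549644818) (nat_lit 152) (nat_lit 368043298556) (nat_lit 0) (nat_lit 227782970215) (nat_lit 1) (nat_lit 5) (nat_lit 3) (nat_lit 4) (nat_lit 1) (nat_lit 4) (nat_lit 323) (nat_lit 216) (nat_lit 181)))) (XT.nd (nat_lit 34554) (nat_lit 0) (nat_lit 152) (XT.nd (nat_lit 78) (nat_lit 0) (nat_lit 0) (XT.lf (nat_lit 0) (nat_lit 251298076610) (nat_lit 152) (nat_lit 394677513514) (nat_lit 0) (nat_lit 247511162184) (nat_lit 1) (nat_lit 5) (nat_lit 3) (nat_lit 4) (nat_lit 1) (nat_lit 4) (nat_lit 324) (nat_lit 216) (nat_lit 180)) (XT.lf (nat_lit 0) (nat_lit 272613170902) (nat_lit 152) (nat_lit 423466447733) (nat_lit 0) (nat_lit 268807515898) (nat_lit 1) (nat_lit 5) (nat_lit 3) (nat_lit 4) (nat_lit 1) (nat_lit 4) (nat_lit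 325) (nat_lit 216) (nat_lit 179))) (XT.nd (nat_lit 78) (nat_lit 0) (nat_lit 0) (XT.lf (nat_lit 0) (nat_lit 6818610201) (nat_lit 76) (nat_lit 9029873066) (nat_lit 76) (nat_lit 9029873066) (nat_lit 3) (nat_lit 4) (nat_lit 4) (nat_lit 5) (nat_lit 4) (nat_lit 4) (nat_lit 286) (nat_lit 217) (nat_lit 217)) (XT.nd (nat_lit 78) (nat_lit 0) (nat_lit 0) (XT.lf (nat_lit 0) (nat_lit 22028210532) (nat_lit 76) (nat_lit 15919442196) (nat_lit 76) (nat_lit 15580089570) (nat_lit 3) (nat_lit 4) (nat_lit 4) (nat_lit 5) (nat_lit 4) (nat_lit 4) (nat_lit 287) (nat_lit 217) (nat_lit 216)) (XT.lf (nat_lit 0) (nat_lit 30734548649) (nat_lit 76) (nat_lit 13764844376) (nat_lit 76) (nat_lit 13111276355) (nat_lit 3) (nat_lit 4) (nat_lit 4) (nat_lit 5) (nat_lit 4) (nat_lit 4) (nat_lit 288) (nat_lit 217) (nat_lit 215))))))) (XT.nd (nat_lit 702) (nat_lit 0) (nat_lit 0) (XT.nd (nat_lit 312) (nat_lit 152) (nat_lit 0) (XT.nd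 (nat_lit 156) (nat_lit 0) (nat_lit 0) (XT.nd (nat_lit 78) (nat_lit 0) (nat_lit 0) (XT.lf (nat_lit 0) (nat_lit 39807827867) (nat_lit 76) (nat_lit 11583184686) (nat_lit 76) (nat_lit 10638676485) (nat_lit 3) (nat_lit 4) (nat_lit 4) (nat_lit 5) (nat_lit 4) (nat_lit 4) (nat_lit 289) (nat_lit 217) (nat_lit 214)) (XT.lf (nat_lit 0) (nat_lit 49301815768) (nat_lit 76) (nat_lit 9361534771) (nat_lit 76) (nat_lit 8147637514) (nat_lit 3) (nat_lit 4) (nat_lit 4) (nat_lit 5) (nat_lit 4) (nat_lit 4) (nat_lit 290) (nat_lit 217) (nat_lit 213))) (XT.nd (nat_lit 78) (nat_lit 0) (nat_lit 0) (XT.lf (nat_lit 0) (nat_lit 59272773020) (nat_lit 76) (nat_lit 7086729300) (nat_lit 76) (nat_lit 5623397731) (nat_lit 3) (nat_lit 4) (nat_lit 4) (nat_lit 5) (nat_lit 4) (nat_lit 4) (nat_lit 291) (nat_lit 217) (nat_lit 212)) (XT.lf (nat_lit 0) (nat_lit 69779786777) (nat_lit 76) (nat_lit 4745287942) (nat_lit 76) (nat_lit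 3050998678) (nat_lit 3) (nat_lit 4) (nat_lit 4) (nat_lit 5) (nat_lit 4) (nat_lit 4) (nat_lit 292) (nat_lit 217) (nat_lit 211)))) (XT.nd (nat_lit 156) (nat_lit 0) (nat_lit 0) (XT.nd (nat_lit 78) (nat_lit 152) (nat_lit 0) (XT.lf (nat_lit 0) (nat_lit 80885120825) (nat_lit 76) (nat_lit 2323335490) (nat_lit 76) (nat_lit 415196509) (nat_lit 3) (nat_lit 4) (nat_lit 4) (nat_lit 5) (nat_lit 4) (nat_lit 4) (nat_lit 293) (nat_lit 217) (nat_lit 210)) (XT.lf (nat_lit 0) (nat_lit 2269917282) (nat_lit 152) (nat_lit 87623506742) (nat_lit 0) (nat_lit 264062063) (nat_lit 1) (nat_lit 5) (nat_lit 3) (nat_lit 4) (nat_lit 1) (nat_lit 4) (nat_lit 294) (nat_lit 217) (nat_lit 209))) (XT.nd (nat_lit 78) (nat_lit 0) (nat_lit 0) (XT.lf (nat_lit 0) (nat_lit 5120049108) (nat_lit 152) (nat_lit 89155963311) (nat_lit 0) (nat_lit 2939582780) (nat_lit 1) (nat_lit 5) (nat_lit 3) (nat_lit 4) (nat_lit 1) (nat_lit 4) (nat_lit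 295) (nat_lit 217) (nat_lit 208)) (XT.nd (nat_lit 78) (nat_lit 0) (nat_lit 0) (XT.lf (nat_lit 0) (nat_lit 8084209776) (nat_lit 152) (nat_lit 91017912231) (nat_lit 0) (nat_lit 5742066494) (nat_lit 1) (nat_lit 5) (nat_lit 3) (nat_lit 4) (nat_lit 1) (nat_lit 4) (nat_lit 296) (nat_lit 217) (nat_lit 207)) (XT.lf (nat_lit 0) (nat_lit 11179964682) (nat_lit 152) (nat_lit 93220387273) (nat_lit 0) (nat_lit 8688120517) (nat_lit 1) (nat_lit 5) (nat_lit 3) (nat_lit 4) (nat_lit 1) (nat_lit 4) (nat_lit 297) (nat_lit 217) (nat_lit 206)))))) (XT.nd (nat_lit 390) (nat_lit 0) (nat_lit 0) (XT.nd (nat_lit 156) (nat_lit 0) (nat_lit 0) (XT.nd (nat_lit 78) (nat_lit 0) (nat_lit 0) (XT.lf (nat_lit 0) (nat_lit 14425659039) (nat_lit 152) (nat_lit 95776440140) (nat_lit 0) (nat_lit 11795202947) (nat_lit 1) (nat_lit 5) (nat_lit 3) (nat_lit 4) (nat_lit 1) (nat_lit 4) (nat_lit 298) (nat_lit 217) (nat_lit 205)) (XT.lf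 (nat_lit 0) (nat_lit 17840526594) (nat_lit 152) (nat_lit 98701217813) (nat_lit 0) (nat_lit 15081726123) (nat_lit 1) (nat_lit 5) (nat_lit 3) (nat_lit 4) (nat_lit 1) (nat_lit 4) (nat_lit 299) (nat_lit 217) (nat_lit 204))) (XT.nd (nat_lit 78) (nat_lit 0) (nat_lit 0) (XT.lf (nat_lit 0) (nat_lit 21444803597) (nat_lit 152) (nat_lit 102012052307) (nat_lit 0) (nat_lit 18567165739) (nat_lit 1) (nat_lit 5) (nat_lit 3) (nat_lit 4) (nat_lit 1) (nat_lit 4) (nat_lit 300) (nat_lit 217) (nat_lit 203)) (XT.nd (nat_lit 78) (nat_lit 0) (nat_lit 0) (XT.lf (nat_lit 0) (nat_lit 25259848727) (nat_lit 152) (nat_lit 105728563383) (nat_lit 0) (nat_lit 22272176251) (nat_lit 1) (nat_lit 5) (nat_lit 3) (nat_lit 4) (nat_lit 1) (nat_lit 4) (nat_lit 301) (nat_lit 217) (nat_lit 202)) (XT.lf (nat_lit 0) (nat_lit 29308269659) (nat_lit 152) (nat_lit 109872774810) (nat_lit 0) (nat_lit 26218713278) (nat_lit 1) (nat_lit 5)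 (nat_lit 3) (nat_lit 4) (nat_lit 1) (nat_lit 4) (nat_lit 302) (nat_lit 217) (nat_lit 201))))) (XT.nd (nat_lit 156) (nat_lit 0) (nat_lit 0) (XT.nd (nat_lit 78) (nat_lit 0) (nat_lit 0) (XT.lf (nat_lit 0) (nat_lit 33614057035) (nat_lit 152) (nat_lit 114469244877) (nat_lit 0) (nat_lit 30430163705) (nat_lit 1) (nat_lit 5) (nat_lit 3) (nat_lit 4) (nat_lit 1) (nat_lit 4) (nat_lit 303) (nat_lit 217) (nat_lit 200)) (XT.lf (nat_lit 0) (nat_lit 38202726634) (nat_lit 152) (nat_lit 119545211926) (nat_lit 0) (nat_lit 34931484276) (nat_lit 1) (nat_lit 5) (nat_lit 3) (nat_lit 4) (nat_lit 1) (nat_lit 4) (nat_lit 304) (nat_lit 217) (nat_lit 199))) (XT.nd (nat_lit 78) (nat_lit 0) (nat_lit 0) (XT.lf (nat_lit 0) (nat_lit 43101470570) (nat_lit 152) (nat_lit 125130755761) (nat_lit 0) (nat_lit 39749349484) (nat_lit 1) (nat_lit 5) (nat_lit 3) (nat_lit 4) (nat_lit 1) (nat_lit 4) (nat_lit 305) (nat_lit 217) (nat_lit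 198)) (XT.nd (nat_lit 78) (nat_lit 0) (nat_lit 0) (XT.lf (nat_lit 0) (nat_lit 48339318437) (nat_lit 152) (nat_lit 131258975902) (nat_lit 0) (nat_lit 44912309639) (nat_lit 1) (nat_lit 5) (nat_lit 3) (nat_lit 4) (nat_lit 1) (nat_lit 4) (nat_lit 306) (nat_lit 217) (nat_lit 197)) (XT.lf (nat_lit 0) (nat_lit 53947309334) (nat_lit 152) (nat_lit 137966187727) (nat_lit 0) (nat_lit 50450960062) (nat_lit 1) (nat_lit 5) (nat_lit 3) (nat_lit 4) (nat_lit 1) (nat_lit 4) (nat_lit 307) (nat_lit 217) (nat_lit 196))))))))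
noncomputable def xc11 : XT := (XT.nd (nat_lit 35646) (nat_lit 0) (nat_lit 0) (XT.nd (nat_lit 702) (nat_lit 0) (nat_lit 0) (XT.nd (nat_lit 312) (nat_lit 0) (nat_lit 0) (XT.nd (nat_lit 156) (nat_lit 0) (nat_lit 0) (XT.nd (nat_lit 78) (nat_lit 0) (nat_lit 0) (XT.lf (nat_lit 0) (nat_lit 59958675800) (nat_lit 152) (nat_lit 145292137677) (nat_lit 0) (nat_lit 56398122386) (nat_lit 1) (nat_lit 5) (nat_lit 3) (nat_lit 4) (nat_lit 1) (nat_lit 4) (nat_lit 308) (nat_lit 217) (nat_lit 195)) (XT.lf (nat_lit 0) (nat_lit 66409040747) (nat_lit 152) (nat_lit 153280238788) (nat_lit 0) (nat_lit 62789039053) (nat_lit 1) (nat_lit 5) (nat_lit 3) (nat_lit 4) (nat_lit 1) (nat_lit 4) (nat_lit 309) (nat_lit 217) (nat_lit 194))) (XT.nd (nat_lit 78) (nat_lit 0) (nat_lit 0) (XT.lf (nat_lit 0) (nat_lit 73336628560) (nat_lit 152) (nat_lit 161977827957) (nat_lit 0) (nat_lit 69661582162) (nat_lit 1) (nat_lit 5) (nat_lit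 3) (nat_lit 4) (nat_lit 1) (nat_lit 4) (nat_lit 310) (nat_lit 217) (nat_lit 193)) (XT.lf (nat_lit 0) (nat_lit 80782491611) (nat_lit 152) (nat_lit 171436446451) (nat_lit 0) (nat_lit 77056477894) (nat_lit 1) (nat_lit 5) (nat_lit 3) (nat_lit 4) (nat_lit 1) (nat_lit 4) (nat_lit 311) (nat_lit 217) (nat_lit 192)))) (XT.nd (nat_lit 156) (nat_lit 0) (nat_lit 0) (XT.nd (nat_lit 78) (nat_lit 0) (nat_lit 0) (XT.lf (nat_lit 0) (nat_lit 88790753532) (nat_lit 152) (nat_lit 181712145343) (nat_lit 0) (nat_lit 85017547854) (nat_lit 1) (nat_lit 5) (nat_lit 3) (nat_lit 4) (nat_lit 1) (nat_lit 4) (nat_lit 312) (nat_lit 217) (nat_lit 191)) (XT.lf (nat_lit 0) (nat_lit 97408870692) (nat_lit 152) (nat_lit 192865817665) (nat_lit 0) (nat_lit 93591968753) (nat_lit 1) (nat_lit 5) (nat_lit 3) (nat_lit 4) (nat_lit 1) (nat_lit 4) (nat_lit 313) (nat_lit 217) (nat_lit 190))) (XT.nd (nat_lit 78) (nat_lit 0) (nat_lit 0)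 (XT.lf (nat_lit 0) (nat_lit 106687913414) (nat_lit 152) (nat_lit 204963559251) (nat_lit 0) (nat_lit 102830551974) (nat_lit 1) (nat_lit 5) (nat_lit 3) (nat_lit 4) (nat_lit 1) (nat_lit 4) (nat_lit 314) (nat_lit 217) (nat_lit 189)) (XT.nd (nat_lit 78) (nat_lit 0) (nat_lit 0) (XT.lf (nat_lit 0) (nat_lit 116682868617) (nat_lit 152) (nat_lit 218077060424) (nat_lit 0) (nat_lit 112788044677) (nat_lit 1) (nat_lit 5) (nat_lit 3) (nat_lit 4) (nat_lit 1) (nat_lit 4) (nat_lit 315) (nat_lit 217) (nat_lit 188)) (XT.lf (nat_lit 0) (nat_lit 127452965666) (nat_lit 152) (nat_lit 232284030818) (nat_lit 0) (nat_lit 123523454225) (nat_lit 1) (nat_lit 5) (nat_lit 3) (nat_lit 4) (nat_lit 1) (nat_lit 4) (nat_lit 316) (nat_lit 217) (nat_lit 187)))))) (XT.nd (nat_lit 312) (nat_lit 0) (nat_lit 0) (XT.nd (nat_lit 156) (nat_lit 0) (nat_lit 0) (XT.nd (nat_lit 78) (nat_lit 0) (nat_lit 0) (XT.lf (nat_lit 0) (nat_lit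 139062027358) (nat_lit 152) (nat_lit 247668659888) (nat_lit 0) (nat_lit 135100397861) (nat_lit 1) (nat_lit 5) (nat_lit 3) (nat_lit 4) (nat_lit 1) (nat_lit 4) (nat_lit 317) (nat_lit 217) (nat_lit 186)) (XT.lf (nat_lit 0) (nat_lit 151578848132) (nat_lit 152) (nat_lit 264322115807) (nat_lit 0) (nat_lit 147587479695) (nat_lit 1) (nat_lit 5) (nat_lit 3) (nat_lit 4) (nat_lit 1) (nat_lit 4) (nat_lit 318) (nat_lit 217) (nat_lit 185))) (XT.nd (nat_lit 78) (nat_lit 0) (nat_lit 0) (XT.lf (nat_lit 0) (nat_lit 165077601743) (nat_lit 152) (nat_lit 282343085721) (nat_lit 0) (nat_lit 161058697249) (nat_lit 1) (nat_lit 5) (nat_lit 3) (nat_lit 4) (nat_lit 1) (nat_lit 4) (nat_lit 319) (nat_lit 217) (nat_lit 184)) (XT.lf (nat_lit 0) (nat_lit 179638280803) (nat_lit 152) (nat_lit 301838360563) (nat_lit 0) (nat_lit 175593879961) (nat_lit 1) (nat_lit 5) (nat_lit 3) (nat_lit 4) (nat_lit 1) (nat_lit 4) (nat_lit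 320) (nat_lit 217) (nat_lit 183)))) (XT.nd (nat_lit 156) (nat_lit 0) (nat_lit 0) (XT.nd (nat_lit 78) (nat_lit 0) (nat_lit 0) (XT.lf (nat_lit 0) (nat_lit 195347170818) (nat_lit 152) (nat_lit 322923467886) (nat_lit 0) (nat_lit 191279162246) (nat_lit 1) (nat_lit 5) (nat_lit 3) (nat_lit 4) (nat_lit 1) (nat_lit 4) (nat_lit 321) (nat_lit 217) (nat_lit 182)) (XT.lf (nat_lit 0) (nat_lit 212297361506) (nat_lit 152) (nat_lit 345723356476) (nat_lit 0) (nat_lit 208207493925) (nat_lit 1) (nat_lit 5) (nat_lit 3) (nat_lit 4) (nat_lit 1) (nat_lit 4) (nat_lit 322) (nat_lit 217) (nat_lit 181))) (XT.nd (nat_lit 78) (nat_lit 0) (nat_lit 0) (XT.lf (nat_lit 0) (nat_lit 230589298443) (nat_lit 152) (nat_lit 370373136783) (nat_lit 0) (nat_lit 226479191038) (nat_lit 1) (nat_lit 5) (nat_lit 3) (nat_lit 4) (nat_lit 1) (nat_lit 4) (nat_lit 323) (nat_lit 217) (nat_lit 180)) (XT.nd (nat_lit 78) (nat_lit 0) (nat_lit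 0) (XT.lf (nat_lit 0) (nat_lit 250331378291) (nat_lit 152) (nat_lit 397018881579) (nat_lit 0) (nat_lit 246202530309) (nat_lit 1) (nat_lit 5) (nat_lit 3) (nat_lit 4) (nat_lit 1) (nat_lit 4) (nat_lit 324) (nat_lit 217) (nat_lit 179)) (XT.lf (nat_lit 0) (nat_lit 271640591153) (nat_lit 152) (nat_lit 425818491575) (nat_lit 0) (nat_lit 267494390785) (nat_lit 1) (nat_lit 5) (nat_lit 3) (nat_lit 4) (nat_lit 1) (nat_lit 4) (nat_lit 325) (nat_lit 217) (nat_lit 178))))))) (XT.nd (nat_lit 702) (nat_lit 152) (nat_lit 0) (XT.nd (nat_lit 312) (nat_lit 0) (nat_lit 0) (XT.nd (nat_lit 156) (nat_lit 0) (nat_lit 0) (XT.nd (nat_lit 78) (nat_lit 76) (nat_lit 0) (XT.lf (nat_lit 0) (nat_lit 10232271786) (nat_lit 152) (nat_lit 1063072083) (nat_lit 0) (nat_lit 10232271786) (nat_lit 4) (nat_lit 5) (nat_lit 6) (nat_lit 4) (nat_lit 4) (nat_lit 4) (nat_lit 284) (nat_lit 218) (nat_lit 218)) (XT.lf (nat_lit 0) (nat_lit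 5511853874) (nat_lit 76) (nat_lit 20564940305) (nat_lit 76) (nat_lit 20198439468) (nat_lit 3) (nat_lit 4) (nat_lit 4) (nat_lit 5) (nat_lit 4) (nat_lit 4) (nat_lit 285) (nat_lit 218) (nat_lit 217))) (XT.nd (nat_lit 78) (nat_lit 0) (nat_lit 0) (XT.lf (nat_lit 0) (nat_lit 13452409960) (nat_lit 76) (nat_lit 18507730078) (nat_lit 76) (nat_lit 17801876615) (nat_lit 3) (nat_lit 4) (nat_lit 4) (nat_lit 5) (nat_lit 4) (nat_lit 4) (nat_lit 286) (nat_lit 218) (nat_lit 216)) (XT.lf (nat_lit 0) (nat_lit 21672279309) (nat_lit 76) (nat_lit 16442873464) (nat_lit 76) (nat_lit 15422804606) (nat_lit 3) (nat_lit 4) (nat_lit 4) (nat_lit 5) (nat_lit 4) (nat_lit 4) (nat_lit 287) (nat_lit 218) (nat_lit 215)))) (XT.nd (nat_lit 156) (nat_lit 0) (nat_lit 0) (XT.nd (nat_lit 78) (nat_lit 0) (nat_lit 0) (XT.lf (nat_lit 0) (nat_lit 30220172258) (nat_lit 76) (nat_lit 14358134277) (nat_lit 76) (nat_lit 13047125239) (nat_lit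 3) (nat_lit 4) (nat_lit 4) (nat_lit 5) (nat_lit 4) (nat_lit 4) (nat_lit 288) (nat_lit 218) (nat_lit 214)) (XT.lf (nat_lit 0) (nat_lit 39146742989) (nat_lit 76) (nat_lit 12241158505) (nat_lit 76) (nat_lit 10660760411) (nat_lit 3) (nat_lit 4) (nat_lit 4) (nat_lit 5) (nat_lit 4) (nat_lit 4) (nat_lit 289) (nat_lit 218) (nat_lit 213))) (XT.nd (nat_lit 78) (nat_lit 0) (nat_lit 0) (XT.lf (nat_lit 0) (nat_lit 48504889697) (nat_lit 76) (nat_lit 10079401108) (nat_lit 76) (nat_lit 8249568703) (nat_lit 3) (nat_lit 4) (nat_lit 4) (nat_lit 5) (nat_lit 4) (nat_lit 4) (nat_lit 290) (nat_lit 218) (nat_lit 212)) (XT.nd (nat_lit 78) (nat_lit 0) (nat_lit 0) (XT.lf (nat_lit 0) (nat_lit 58350068066) (nat_lit 76) (nat_lit 7860051670) (nat_lit 76) (nat_lit 5799261570) (nat_lit 3) (nat_lit 4) (nat_lit 4) (nat_lit 5) (nat_lit 4) (nat_lit 4) (nat_lit 291) (nat_lit 218) (nat_lit 211)) (XT.lf (nat_lit 0) (nat_lit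 68740619895) (nat_lit 76) (nat_lit 5569958493) (nat_lit 76) (nat_lit 3295318675) (nat_lit 3) (nat_lit 4) (nat_lit 4) (nat_lit 5) (nat_lit 4) (nat_lit 4) (nat_lit 292) (nat_lit 218) (nat_lit 210)))))) (XT.nd (nat_lit 390) (nat_lit 0) (nat_lit 0) (XT.nd (nat_lit 156) (nat_lit 0) (nat_lit 0) (XT.nd (nat_lit 78) (nat_lit 152) (nat_lit 0) (XT.lf (nat_lit 0) (nat_lit 79738118825) (nat_lit 76) (nat_lit 3195550653) (nat_lit 76) (nat_lit 722901836) (nat_lit 3) (nat_lit 4) (nat_lit 4) (nat_lit 5) (nat_lit 4) (nat_lit 4) (nat_lit 293) (nat_lit 218) (nat_lit 209)) (XT.lf (nat_lit 0) (nat_lit 1219317915) (nat_lit 76) (nat_lit 671076424) (nat_lit 152) (nat_lit 88304404559) (nat_lit 1) (nat_lit 5) (nat_lit 2) (nat_lit 5) (nat_lit 3) (nat_lit 4) (nat_lit 294) (nat_lit 218) (nat_lit 208))) (XT.nd (nat_lit 78) (nat_lit 0) (nat_lit 0) (XT.lf (nat_lit 0) (nat_lit 4675249886) (nat_lit 152) (nat_lit 90596929316)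 (nat_lit 0) (nat_lit 1984058189) (nat_lit 1) (nat_lit 5) (nat_lit 3) (nat_lit 4) (nat_lit 1) (nat_lit 4) (nat_lit 295) (nat_lit 218) (nat_lit 207)) (XT.nd (nat_lit 78) (nat_lit 0) (nat_lit 0) (XT.lf (nat_lit 0) (nat_lit 7588670835) (nat_lit 152) (nat_lit 92550979297) (nat_lit 0) (nat_lit 4747778255) (nat_lit 1) (nat_lit 5) (nat_lit 3) (nat_lit 4) (nat_lit 1) (nat_lit 4) (nat_lit 296) (nat_lit 218) (nat_lit 206)) (XT.lf (nat_lit 0) (nat_lit 10637444519) (nat_lit 152) (nat_lit 94838733100) (nat_lit 0) (nat_lit 7657940011) (nat_lit 1) (nat_lit 5) (nat_lit 3) (nat_lit 4) (nat_lit 1) (nat_lit 4) (nat_lit 297) (nat_lit 218) (nat_lit 205))))) (XT.nd (nat_lit 156) (nat_lit 0) (nat_lit 0) (XT.nd (nat_lit 78) (nat_lit 0) (nat_lit 0) (XT.lf (nat_lit 0) (nat_lit 13839637746) (nat_lit 152) (nat_lit 97473747782) (nat_lit 0) (nat_lit 10731788860) (nat_lit 1) (nat_lit 5) (nat_lit 3) (nat_lit 4) (nat_lit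 1) (nat_lit 4) (nat_lit 298) (nat_lit 218) (nat_lit 204)) (XT.lf (nat_lit 0) (nat_lit 17214226475) (nat_lit 152) (nat_lit 100471638247) (nat_lit 0) (nat_lit 13987540202) (nat_lit 1) (nat_lit 5) (nat_lit 3) (nat_lit 4) (nat_lit 1) (nat_lit 4) (nat_lit 299) (nat_lit 218) (nat_lit 203))) (XT.nd (nat_lit 78) (nat_lit 0) (nat_lit 0) (XT.lf (nat_lit 0) (nat_lit 20781208270) (nat_lit 152) (nat_lit 103850169771) (nat_lit 0) (nat_lit 17444487379) (nat_lit 1) (nat_lit 5) (nat_lit 3) (nat_lit 4) (nat_lit 1) (nat_lit 4) (nat_lit 300) (nat_lit 218) (nat_lit 202)) (XT.nd (nat_lit 78) (nat_lit 0) (nat_lit 0) (XT.lf (nat_lit 0) (nat_lit 24561720800) (nat_lit 152) (nat_lit 107629363282) (nat_lit 0) (nat_lit 21123116004) (nat_lit 1) (nat_lit 5) (nat_lit 3) (nat_lit 4) (nat_lit 1) (nat_lit 4) (nat_lit 301) (nat_lit 218) (nat_lit 201)) (XT.lf (nat_lit 0) (nat_lit 28578167102) (nat_lit 152) (nat_lit 111831614000)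 (nat_lit 0) (nat_lit 25045225357) (nat_lit 1) (nat_lit 5) (nat_lit 3) (nat_lit 4) (nat_lit 1) (nat_lit 4) (nat_lit 302) (nat_lit 218) (nat_lit 200))))))))
noncomputable def xc12 : XT := (XT.nd (nat_lit 1404) (nat_lit 0) (nat_lit 0) (XT.nd (nat_lit 702) (nat_lit 0) (nat_lit 0) (XT.nd (nat_lit 312) (nat_lit 0) (nat_lit 0) (XT.nd (nat_lit 156) (nat_lit 0) (nat_lit 0) (XT.nd (nat_lit 78) (nat_lit 0) (nat_lit 0) (XT.lf (nat_lit 0) (nat_lit 32854348340) (nat_lit 152) (nat_lit 116481824152) (nat_lit 0) (nat_lit 29234057567) (nat_lit 1) (nat_lit 5) (nat_lit 3) (nat_lit 4) (nat_lit 1) (nat_lit 4) (nat_lit 303) (nat_lit 218) (nat_lit 199)) (XT.lf (nat_lit 0) (nat_lit 37415604847) (nat_lit 152) (nat_lit 121607550539) (nat_lit 0) (nat_lit 33714435345) (nat_lit 1) (nat_lit 5) (nat_lit 3) (nat_lit 4) (nat_lit 1) (nat_lit 4) (nat_lit 304) (nat_lit 218) (nat_lit 198))) (XT.nd (nat_lit 78) (nat_lit 0)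 (nat_lit 0) (XT.lf (nat_lit 0) (nat_lit 42288966291) (nat_lit 152) (nat_lit 127239167835) (nat_lit 0) (nat_lit 38512909077) (nat_lit 1) (nat_lit 5) (nat_lit 3) (nat_lit 4) (nat_lit 1) (nat_lit 4) (nat_lit 305) (nat_lit 218) (nat_lit 197)) (XT.lf (nat_lit 0) (nat_lit 47503311851) (nat_lit 152) (nat_lit 133410048588) (nat_lit 0) (nat_lit 43657914163) (nat_lit 1) (nat_lit 5) (nat_lit 3) (nat_lit 4) (nat_lit 1) (nat_lit 4) (nat_lit 306) (nat_lit 218) (nat_lit 196)))) (XT.nd (nat_lit 156) (nat_lit 0) (nat_lit 0) (XT.nd (nat_lit 78) (nat_lit 0) (nat_lit 0) (XT.lf (nat_lit 0) (nat_lit 53089541353) (nat_lit 152) (nat_lit 140156760980) (nat_lit 0) (nat_lit 49179939522) (nat_lit 1) (nat_lit 5) (nat_lit 3) (nat_lit 4) (nat_lit 1) (nat_lit 4) (nat_lit 307) (nat_lit 218) (nat_lit 195)) (XT.lf (nat_lit 0) (nat_lit 59080758378) (nat_lit 152) (nat_lit 147519285529) (nat_lit 0) (nat_lit 55111708268) (nat_lit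 1) (nat_lit 5) (nat_lit 3) (nat_lit 4) (nat_lit 1) (nat_lit 4) (nat_lit 308) (nat_lit 218) (nat_lit 194))) (XT.nd (nat_lit 78) (nat_lit 0) (nat_lit 0) (XT.lf (nat_lit 0) (nat_lit 65512466436) (nat_lit 152) (nat_lit 155541252009) (nat_lit 0) (nat_lit 61488371621) (nat_lit 1) (nat_lit 5) (nat_lit 3) (nat_lit 4) (nat_lit 1) (nat_lit 4) (nat_lit 309) (nat_lit 218) (nat_lit 193)) (XT.nd (nat_lit 78) (nat_lit 0) (nat_lit 0) (XT.lf (nat_lit 0) (nat_lit 72422779351) (nat_lit 152) (nat_lit 164270198001) (nat_lit 0) (nat_lit 68347717218) (nat_lit 1) (nat_lit 5) (nat_lit 3) (nat_lit 4) (nat_lit 1) (nat_lit 4) (nat_lit 310) (nat_lit 218) (nat_lit 192)) (XT.lf (nat_lit 0) (nat_lit 79852647126) (nat_lit 152) (nat_lit 173757850590) (nat_lit 0) (nat_lit 75730393032) (nat_lit 1) (nat_lit 5) (nat_lit 3) (nat_lit 4) (nat_lit 1) (nat_lit 4) (nat_lit 311) (nat_lit 218) (nat_lit 191)))))) (XT.nd (nat_lit 312)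 (nat_lit 0) (nat_lit 0) (XT.nd (nat_lit 156) (nat_lit 0) (nat_lit 0) (XT.nd (nat_lit 78) (nat_lit 0) (nat_lit 0) (XT.lf (nat_lit 0) (nat_lit 87846098607) (nat_lit 152) (nat_lit 184060432905) (nat_lit 0) (nat_lit 83680148253) (nat_lit 1) (nat_lit 5) (nat_lit 3) (nat_lit 4) (nat_lit 1) (nat_lit 4) (nat_lit 312) (nat_lit 218) (nat_lit 190)) (XT.lf (nat_lit 0) (nat_lit 96450502396) (nat_lit 152) (nat_lit 195238997284) (nat_lit 0) (nat_lit 92244092541) (nat_lit 1) (nat_lit 5) (nat_lit 3) (nat_lit 4) (nat_lit 1) (nat_lit 4) (nat_lit 313) (nat_lit 218) (nat_lit 189))) (XT.nd (nat_lit 78) (nat_lit 0) (nat_lit 0) (XT.lf (nat_lit 0) (nat_lit 105716847552) (nat_lit 152) (nat_lit 207359787072) (nat_lit 0) (nat_lit 101472975197) (nat_lit 1) (nat_lit 5) (nat_lit 3) (nat_lit 4) (nat_lit 1) (nat_lit 4) (nat_lit 314) (nat_lit 218) (nat_lit 188)) (XT.lf (nat_lit 0) (nat_lit 115700045750) (nat_lit 152)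 (nat_lit 220494629171) (nat_lit 0) (nat_lit 111421485894) (nat_lit 1) (nat_lit 5) (nat_lit 3) (nat_lit 4) (nat_lit 1) (nat_lit 4) (nat_lit 315) (nat_lit 218) (nat_lit 187)))) (XT.nd (nat_lit 156) (nat_lit 0) (nat_lit 0) (XT.nd (nat_lit 78) (nat_lit 0) (nat_lit 0) (XT.lf (nat_lit 0) (nat_lit 126459256684) (nat_lit 152) (nat_lit 234721359683) (nat_lit 0) (nat_lit 122148578771) (nat_lit 1) (nat_lit 5) (nat_lit 3) (nat_lit 4) (nat_lit 1) (nat_lit 4) (nat_lit 316) (nat_lit 218) (nat_lit 186)) (XT.lf (nat_lit 0) (nat_lit 138058238639) (nat_lit 152) (nat_lit 250124285159) (nat_lit 0) (nat_lit 133717821786) (nat_lit 1) (nat_lit 5) (nat_lit 3) (nat_lit 4) (nat_lit 1) (nat_lit 4) (nat_lit 317) (nat_lit 218) (nat_lit 185))) (XT.nd (nat_lit 78) (nat_lit 0) (nat_lit 0) (XT.lf (nat_lit 0) (nat_lit 150565726324) (nat_lit 152) (nat_lit 266794682194) (nat_lit 0) (nat_lit 146197773415) (nat_lit 1) (nat_lit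 5) (nat_lit 3) (nat_lit 4) (nat_lit 1) (nat_lit 4) (nat_lit 318) (nat_lit 218) (nat_lit 184)) (XT.nd (nat_lit 78) (nat_lit 0) (nat_lit 0) (XT.lf (nat_lit 0) (nat_lit 164055838185) (nat_lit 152) (nat_lit 284831338326) (nat_lit 0) (nat_lit 159662388927) (nat_lit 1) (nat_lit 5) (nat_lit 3) (nat_lit 4) (nat_lit 1) (nat_lit 4) (nat_lit 319) (nat_lit 218) (nat_lit 183)) (XT.lf (nat_lit 0) (nat_lit 178608515624) (nat_lit 152) (nat_lit 304341137444) (nat_lit 0) (nat_lit 174191458637) (nat_lit 1) (nat_lit 5) (nat_lit 3) (nat_lit 4) (nat_lit 1) (nat_lit 4) (nat_lit 320) (nat_lit 218) (nat_lit 182))))))) (XT.nd (nat_lit 34788) (nat_lit 0) (nat_lit 0) (XT.nd (nat_lit 312) (nat_lit 0) (nat_lit 0) (XT.nd (nat_lit 156) (nat_lit 0) (nat_lit 0) (XT.nd (nat_lit 78) (nat_lit 0) (nat_lit 0) (XT.lf (nat_lit 0) (nat_lit 194309996732) (nat_lit 152) (nat_lit 325439693171) (nat_lit 0) (nat_lit 189871080735) (nat_lit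 1) (nat_lit 5) (nat_lit 3) (nat_lit 4) (nat_lit 1) (nat_lit 4) (nat_lit 321) (nat_lit 218) (nat_lit 181)) (XT.lf (nat_lit 0) (nat_lit 211253327321) (nat_lit 152) (nat_lit 348252033987) (nat_lit 0) (nat_lit 206794171501) (nat_lit 1) (nat_lit 5) (nat_lit 3) (nat_lit 4) (nat_lit 1) (nat_lit 4) (nat_lit 322) (nat_lit 218) (nat_lit 180))) (XT.nd (nat_lit 78) (nat_lit 0) (nat_lit 0) (XT.lf (nat_lit 0) (nat_lit 229538912314) (nat_lit 152) (nat_lit 372913344133) (nat_lit 0) (nat_lit 225061015916) (nat_lit 1) (nat_lit 5) (nat_lit 3) (nat_lit 4) (nat_lit 1) (nat_lit 4) (nat_lit 323) (nat_lit 218) (nat_lit 179)) (XT.lf (nat_lit 0) (nat_lit 249275110732) (nat_lit 152) (nat_lit 399569764706) (nat_lit 0) (nat_lit 244779861949) (nat_lit 1) (nat_lit 5) (nat_lit 3) (nat_lit 4) (nat_lit 1) (nat_lit 4) (nat_lit 324) (nat_lit 218) (nat_lit 178)))) (XT.nd (nat_lit 34242) (nat_lit 0) (nat_lit 152) (XT.nd (nat_lit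 34164) (nat_lit 0) (nat_lit 228) (XT.lf (nat_lit 0) (nat_lit 270578877826) (nat_lit 152) (nat_lit 428379259680) (nat_lit 0) (nat_lit 266067562018) (nat_lit 1) (nat_lit 5) (nat_lit 3) (nat_lit 4) (nat_lit 1) (nat_lit 4) (nat_lit 325) (nat_lit 218) (nat_lit 177)) (XT.lf (nat_lit 0) (nat_lit 5247427672) (nat_lit 152) (nat_lit 8170986457) (nat_lit 0) (nat_lit 5247427672) (nat_lit 4) (nat_lit 5) (nat_lit 6) (nat_lit 4) (nat_lit 4) (nat_lit 4) (nat_lit 282) (nat_lit 219) (nat_lit 219))) (XT.nd (nat_lit 78) (nat_lit 76) (nat_lit 0) (XT.lf (nat_lit 0) (nat_lit 15534597937) (nat_lit 152) (nat_lit 9407120852) (nat_lit 0) (nat_lit 15138777034) (nat_lit 4) (nat_lit 5) (nat_lit 6) (nat_lit 4) (nat_lit 4) (nat_lit 4) (nat_lit 283) (nat_lit 219) (nat_lit 218)) (XT.nd (nat_lit 78) (nat_lit 76) (nat_lit 0) (XT.lf (nat_lit 0) (nat_lit 20751887196) (nat_lit 152) (nat_lit 2319351150) (nat_lit 0) (nat_lit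 19989565456) (nat_lit 4) (nat_lit 5) (nat_lit 6) (nat_lit 4) (nat_lit 4) (nat_lit 4) (nat_lit 284) (nat_lit 219) (nat_lit 217)) (XT.lf (nat_lit 0) (nat_lit 5127448152) (nat_lit 76) (nat_lit 21130246074) (nat_lit 76) (nat_lit 20028571708) (nat_lit 3) (nat_lit 4) (nat_lit 4) (nat_lit 5) (nat_lit 4) (nat_lit 4) (nat_lit 285) (nat_lit 219) (nat_lit 216)))))) (XT.nd (nat_lit 390) (nat_lit 152) (nat_lit 0) (XT.nd (nat_lit 156) (nat_lit 0) (nat_lit 0) (XT.nd (nat_lit 78) (nat_lit 0) (nat_lit 0) (XT.lf (nat_lit 0) (nat_lit 12896883458) (nat_lit 76) (nat_lit 19148483170) (nat_lit 76) (nat_lit 17732593409) (nat_lit 3) (nat_lit 4) (nat_lit 4) (nat_lit 5) (nat_lit 4) (nat_lit 4) (nat_lit 286) (nat_lit 219) (nat_lit 215)) (XT.lf (nat_lit 0) (nat_lit 20958307640) (nat_lit 76) (nat_lit 17153485189) (nat_lit 76) (nat_lit 15446655247) (nat_lit 3) (nat_lit 4) (nat_lit 4) (nat_lit 5) (nat_lit 4) (nat_lit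 4) (nat_lit 287) (nat_lit 219) (nat_lit 214))) (XT.nd (nat_lit 78) (nat_lit 0) (nat_lit 0) (XT.lf (nat_lit 0) (nat_lit 29359492101) (nat_lit 76) (nat_lit 15133429920) (nat_lit 76) (nat_lit 13157210922) (nat_lit 3) (nat_lit 4) (nat_lit 4) (nat_lit 5) (nat_lit 4) (nat_lit 4) (nat_lit 288) (nat_lit 219) (nat_lit 213)) (XT.nd (nat_lit 78) (nat_lit 0) (nat_lit 0) (XT.lf (nat_lit 0) (nat_lit 38150221639) (nat_lit 76) (nat_lit 13076346665) (nat_lit 76) (nat_lit 10850693357) (nat_lit 3) (nat_lit 4) (nat_lit 4) (nat_lit 5) (nat_lit 4) (nat_lit 4) (nat_lit 289) (nat_lit 219) (nat_lit 212)) (XT.lf (nat_lit 0) (nat_lit 47382589465) (nat_lit 76) (nat_lit 10970045303) (nat_lit 76) (nat_lit 8513434299) (nat_lit 3) (nat_lit 4) (nat_lit 4) (nat_lit 5) (nat_lit 4) (nat_lit 4) (nat_lit 290) (nat_lit 219) (nat_lit 211))))) (XT.nd (nat_lit 156) (nat_lit 152) (nat_lit 0) (XT.nd (nat_lit 78) (nat_lit 0) (nat_lit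 0) (XT.lf (nat_lit 0) (nat_lit 57111305906) (nat_lit 76) (nat_lit 8802044046) (nat_lit 76) (nat_lit 6131583324) (nat_lit 3) (nat_lit 4) (nat_lit 4) (nat_lit 5) (nat_lit 4) (nat_lit 4) (nat_lit 291) (nat_lit 219) (nat_lit 210)) (XT.lf (nat_lit 0) (nat_lit 67394022617) (nat_lit 76) (nat_lit 6559495479) (nat_lit 76) (nat_lit 3691025759) (nat_lit 3) (nat_lit 4) (nat_lit 4) (nat_lit 5) (nat_lit 4) (nat_lit 4) (nat_lit 292) (nat_lit 219) (nat_lit 209))) (XT.nd (nat_lit 78) (nat_lit 152) (nat_lit 0) (XT.lf (nat_lit 0) (nat_lit 78291674214) (nat_lit 76) (nat_lit 4229110427) (nat_lit 76) (nat_lit 1177299042) (nat_lit 3) (nat_lit 4) (nat_lit 4) (nat_lit 5) (nat_lit 4) (nat_lit 4) (nat_lit 293) (nat_lit 219) (nat_lit 208)) (XT.nd (nat_lit 78) (nat_lit 76) (nat_lit 0) (XT.lf (nat_lit 0) (nat_lit 1378900313) (nat_lit 152) (nat_lit 394826543) (nat_lit 76) (nat_lit 88466586717) (nat_lit 2) (nat_lit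 5) (nat_lit 4) (nat_lit 5) (nat_lit 3) (nat_lit 4) (nat_lit 294) (nat_lit 219) (nat_lit 207)) (XT.lf (nat_lit 0) (nat_lit 4089328110) (nat_lit 152) (nat_lit 92344742808) (nat_lit 0) (nat_lit 871463242) (nat_lit 1) (nat_lit 5) (nat_lit 3) (nat_lit 4) (nat_lit 1) (nat_lit 4) (nat_lit 295) (nat_lit 219) (nat_lit 206))))))))
noncomputable def xc13 : XT := (XT.nd (nat_lit 1404) (nat_lit 0) (nat_lit 0) (XT.nd (nat_lit 702) (nat_lit 0) (nat_lit 0) (XT.nd (nat_lit 312) (nat_lit 0) (nat_lit 0) (XT.nd (nat_lit 156) (nat_lit 0) (nat_lit 0) (XT.nd (nat_lit 78) (nat_lit 0) (nat_lit 0) (XT.lf (nat_lit 0) (nat_lit 6955767838) (nat_lit 152) (nat_lit 94384071551) (nat_lit 0) (nat_lit 3599291041) (nat_lit 1) (nat_lit 5) (nat_lit 3) (nat_lit 4) (nat_lit 1) (nat_lit 4) (nat_lit 296) (nat_lit 219) (nat_lit 205)) (XT.lf (nat_lit 0) (nat_lit 9961040391) (nat_lit 152) (nat_lit 96750787169) (nat_lit 0) (nat_lit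 6476219216) (nat_lit 1) (nat_lit 5) (nat_lit 3) (nat_lit 4) (nat_lit 1) (nat_lit 4) (nat_lit 297) (nat_lit 219) (nat_lit 204))) (XT.nd (nat_lit 78) (nat_lit 0) (nat_lit 0) (XT.lf (nat_lit 0) (nat_lit 13122954794) (nat_lit 152) (nat_lit 99458914643) (nat_lit 0) (nat_lit 9519296231) (nat_lit 1) (nat_lit 5) (nat_lit 3) (nat_lit 4) (nat_lit 1) (nat_lit 4) (nat_lit 298) (nat_lit 219) (nat_lit 203)) (XT.lf (nat_lit 0) (nat_lit 16460248315) (nat_lit 152) (nat_lit 102524502138) (nat_lit 0) (nat_lit 12746555135) (nat_lit 1) (nat_lit 5) (nat_lit 3) (nat_lit 4) (nat_lit 1) (nat_lit 4) (nat_lit 299) (nat_lit 219) (nat_lit 202)))) (XT.nd (nat_lit 156) (nat_lit 0) (nat_lit 0) (XT.nd (nat_lit 78) (nat_lit 0) (nat_lit 0) (XT.lf (nat_lit 0) (nat_lit 19992697509) (nat_lit 152) (nat_lit 105965716097) (nat_lit 0) (nat_lit 16177120424) (nat_lit 1) (nat_lit 5) (nat_lit 3) (nat_lit 4) (nat_lit 1) (nat_lit 4)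 (nat_lit 300) (nat_lit 219) (nat_lit 201)) (XT.lf (nat_lit 0) (nat_lit 23741235409) (nat_lit 152) (nat_lit 109802948899) (nat_lit 0) (nat_lit 19831321375) (nat_lit 1) (nat_lit 5) (nat_lit 3) (nat_lit 4) (nat_lit 1) (nat_lit 4) (nat_lit 301) (nat_lit 219) (nat_lit 200))) (XT.nd (nat_lit 78) (nat_lit 0) (nat_lit 0) (XT.lf (nat_lit 0) (nat_lit 27728075573) (nat_lit 152) (nat_lit 114058939702) (nat_lit 0) (nat_lit 23730812511) (nat_lit 1) (nat_lit 5) (nat_lit 3) (nat_lit 4) (nat_lit 1) (nat_lit 4) (nat_lit 302) (nat_lit 219) (nat_lit 199)) (XT.nd (nat_lit 78) (nat_lit 0) (nat_lit 0) (XT.lf (nat_lit 0) (nat_lit 31976843719) (nat_lit 152) (nat_lit 118758909192) (nat_lit 0) (nat_lit 27898701929) (nat_lit 1) (nat_lit 5) (nat_lit 3) (nat_lit 4) (nat_lit 1) (nat_lit 4) (nat_lit 303) (nat_lit 219) (nat_lit 198)) (XT.lf (nat_lit 0) (nat_lit 36512717734) (nat_lit 152) (nat_lit 123930709040) (nat_lit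 0) (nat_lit 32359688232) (nat_lit 1) (nat_lit 5) (nat_lit 3) (nat_lit 4) (nat_lit 1) (nat_lit 4) (nat_lit 304) (nat_lit 219) (nat_lit 197)))))) (XT.nd (nat_lit 312) (nat_lit 0) (nat_lit 0) (XT.nd (nat_lit 156) (nat_lit 0) (nat_lit 0) (XT.nd (nat_lit 78) (nat_lit 0) (nat_lit 0) (XT.lf (nat_lit 0) (nat_lit 41362576871) (nat_lit 152) (nat_lit 129604986948) (nat_lit 0) (nat_lit 37140206894) (nat_lit 1) (nat_lit 5) (nat_lit 3) (nat_lit 4) (nat_lit 1) (nat_lit 4) (nat_lit 305) (nat_lit 219) (nat_lit 196)) (XT.lf (nat_lit 0) (nat_lit 46555161035) (nat_lit 152) (nat_lit 135815368268) (nat_lit 0) (nat_lit 42268586916) (nat_lit 1) (nat_lit 5) (nat_lit 3) (nat_lit 4) (nat_lit 1) (nat_lit 4) (nat_lit 306) (nat_lit 219) (nat_lit 195))) (XT.nd (nat_lit 78) (nat_lit 0) (nat_lit 0) (XT.lf (nat_lit 0) (nat_lit 52121241096) (nat_lit 152) (nat_lit 142598655258) (nat_lit 0) (nat_lit 47775218697) (nat_lit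 1) (nat_lit 5) (nat_lit 3) (nat_lit 4) (nat_lit 1) (nat_lit 4) (nat_lit 307) (nat_lit 219) (nat_lit 194)) (XT.lf (nat_lit 0) (nat_lit 58093801232) (nat_lit 152) (nat_lit 149995045176) (nat_lit 0) (nat_lit 53692734129) (nat_lit 1) (nat_lit 5) (nat_lit 3) (nat_lit 4) (nat_lit 1) (nat_lit 4) (nat_lit 308) (nat_lit 219) (nat_lit 193)))) (XT.nd (nat_lit 156) (nat_lit 0) (nat_lit 0) (XT.nd (nat_lit 78) (nat_lit 0) (nat_lit 0) (XT.lf (nat_lit 0) (nat_lit 64508234392) (nat_lit 152) (nat_lit 158048368480) (nat_lit 0) (nat_lit 60056199970) (nat_lit 1) (nat_lit 5) (nat_lit 3) (nat_lit 4) (nat_lit 1) (nat_lit 4) (nat_lit 309) (nat_lit 219) (nat_lit 192)) (XT.lf (nat_lit 0) (nat_lit 71402552032) (nat_lit 152) (nat_lit 166806348567) (nat_lit 0) (nat_lit 66903325649) (nat_lit 1) (nat_lit 5) (nat_lit 3) (nat_lit 4) (nat_lit 1) (nat_lit 4) (nat_lit 310) (nat_lit 219) (nat_lit 191))) (XT.nd (nat_lit 78)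 (nat_lit 0) (nat_lit 0) (XT.lf (nat_lit 0) (nat_lit 78817609367) (nat_lit 152) (nat_lit 176320884579) (nat_lit 0) (nat_lit 74274686723) (nat_lit 1) (nat_lit 5) (nat_lit 3) (nat_lit 4) (nat_lit 1) (nat_lit 4) (nat_lit 311) (nat_lit 219) (nat_lit 190)) (XT.nd (nat_lit 78) (nat_lit 0) (nat_lit 0) (XT.lf (nat_lit 0) (nat_lit 86797347477) (nat_lit 152) (nat_lit 186648358951) (nat_lit 0) (nat_lit 82213965333) (nat_lit 1) (nat_lit 5) (nat_lit 3) (nat_lit 4) (nat_lit 1) (nat_lit 4) (nat_lit 312) (nat_lit 219) (nat_lit 189)) (XT.lf (nat_lit 0) (nat_lit 95389053701) (nat_lit 152) (nat_lit 197849971531) (nat_lit 0) (nat_lit 90768209056) (nat_lit 1) (nat_lit 5) (nat_lit 3) (nat_lit 4) (nat_lit 1) (nat_lit 4) (nat_lit 313) (nat_lit 219) (nat_lit 188))))))) (XT.nd (nat_lit 702) (nat_lit 0) (nat_lit 0) (XT.nd (nat_lit 312) (nat_lit 0) (nat_lit 0) (XT.nd (nat_lit 156) (nat_lit 0) (nat_lit 0) (XT.nd (nat_lit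 78) (nat_lit 0) (nat_lit 0) (XT.lf (nat_lit 0) (nat_lit 104643641852) (nat_lit 152) (nat_lit 209992102246) (nat_lit 0) (nat_lit 99988109707) (nat_lit 1) (nat_lit 5) (nat_lit 3) (nat_lit 4) (nat_lit 1) (nat_lit 4) (nat_lit 314) (nat_lit 219) (nat_lit 187)) (XT.lf (nat_lit 0) (nat_lit 114615953934) (nat_lit 152) (nat_lit 223146704463) (nat_lit 0) (nat_lit 109928303733) (nat_lit 1) (nat_lit 5) (nat_lit 3) (nat_lit 4) (nat_lit 1) (nat_lit 4) (nat_lit 315) (nat_lit 219) (nat_lit 186))) (XT.nd (nat_lit 78) (nat_lit 0) (nat_lit 0) (XT.lf (nat_lit 0) (nat_lit 125365085131) (nat_lit 152) (nat_lit 237391731380) (nat_lit 0) (nat_lit 120647695989) (nat_lit 1) (nat_lit 5) (nat_lit 3) (nat_lit 4) (nat_lit 1) (nat_lit 4) (nat_lit 316) (nat_lit 219) (nat_lit 185)) (XT.lf (nat_lit 0) (nat_lit 136954733996) (nat_lit 152) (nat_lit 252811597972) (nat_lit 0) (nat_lit 132209808798) (nat_lit 1) (nat_lit 5)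 (nat_lit 3) (nat_lit 4) (nat_lit 1) (nat_lit 4) (nat_lit 317) (nat_lit 219) (nat_lit 184)))) (XT.nd (nat_lit 156) (nat_lit 0) (nat_lit 0) (XT.nd (nat_lit 78) (nat_lit 0) (nat_lit 0) (XT.lf (nat_lit 0) (nat_lit 149453579932) (nat_lit 152) (nat_lit 269497681225) (nat_lit 0) (nat_lit 144683158385) (nat_lit 1) (nat_lit 5) (nat_lit 3) (nat_lit 4) (nat_lit 1) (nat_lit 4) (nat_lit 318) (nat_lit 219) (nat_lit 183)) (XT.lf (nat_lit 0) (nat_lit 162935690172) (nat_lit 152) (nat_lit 287548861634) (nat_lit 0) (nat_lit 158141660896) (nat_lit 1) (nat_lit 5) (nat_lit 3) (nat_lit 4) (nat_lit 1) (nat_lit 4) (nat_lit 319) (nat_lit 219) (nat_lit 182))) (XT.nd (nat_lit 78) (nat_lit 0) (nat_lit 0) (XT.lf (nat_lit 0) (nat_lit 177480958705) (nat_lit 152) (nat_lit 307072109156) (nat_lit 0) (nat_lit 172665070419) (nat_lit 1) (nat_lit 5) (nat_lit 3) (nat_lit 4) (nat_lit 1) (nat_lit 4) (nat_lit 320) (nat_lit 219)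 (nat_lit 181)) (XT.nd (nat_lit 78) (nat_lit 0) (nat_lit 0) (XT.lf (nat_lit 0) (nat_lit 193175579712) (nat_lit 152) (nat_lit 328183117109) (nat_lit 0) (nat_lit 188339451603) (nat_lit 1) (nat_lit 5) (nat_lit 3) (nat_lit 4) (nat_lit 1) (nat_lit 4) (nat_lit 321) (nat_lit 219) (nat_lit 180)) (XT.lf (nat_lit 0) (nat_lit 210112558358) (nat_lit 152) (nat_lit 351006987764) (nat_lit 0) (nat_lit 205257689671) (nat_lit 1) (nat_lit 5) (nat_lit 3) (nat_lit 4) (nat_lit 1) (nat_lit 4) (nat_lit 322) (nat_lit 219) (nat_lit 179)))))) (XT.nd (nat_lit 34320) (nat_lit 0) (nat_lit 152) (XT.nd (nat_lit 156) (nat_lit 0) (nat_lit 0) (XT.nd (nat_lit 78) (nat_lit 0) (nat_lit 0) (XT.lf (nat_lit 0) (nat_lit 228392261921) (nat_lit 152) (nat_lit 375678973686) (nat_lit 0) (nat_lit 223520040848) (nat_lit 1) (nat_lit 5) (nat_lit 3) (nat_lit 4) (nat_lit 1) (nat_lit 4) (nat_lit 323) (nat_lit 219) (nat_lit 178)) (XT.lf (nat_lit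 0) (nat_lit 248123014571) (nat_lit 152) (nat_lit 402345279238) (nat_lit 0) (nat_lit 243234726474) (nat_lit 1) (nat_lit 5) (nat_lit 3) (nat_lit 4) (nat_lit 1) (nat_lit 4) (nat_lit 324) (nat_lit 219) (nat_lit 177))) (XT.nd (nat_lit 34008) (nat_lit 0) (nat_lit 228) (XT.lf (nat_lit 0) (nat_lit 269421739287) (nat_lit 152) (nat_lit 431163926970) (nat_lit 0) (nat_lit 264518574316) (nat_lit 1) (nat_lit 5) (nat_lit 3) (nat_lit 4) (nat_lit 1) (nat_lit 4) (nat_lit 325) (nat_lit 219) (nat_lit 176)) (XT.nd (nat_lit 78) (nat_lit 0) (nat_lit 0) (XT.lf (nat_lit 0) (nat_lit 691719608) (nat_lit 152) (nat_lit 14845643260) (nat_lit 0) (nat_lit 691719608) (nat_lit 4) (nat_lit 5) (nat_lit 6) (nat_lit 4) (nat_lit 4) (nat_lit 4) (nat_lit 280) (nat_lit 220) (nat_lit 220)) (XT.lf (nat_lit 0) (nat_lit 6030280852) (nat_lit 152) (nat_lit 23165002756) (nat_lit 0) (nat_lit 5602794276) (nat_lit 4) (nat_lit 5) (nat_lit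 6) (nat_lit 4) (nat_lit 4) (nat_lit 4) (nat_lit 281) (nat_lit 220) (nat_lit 219))))) (XT.nd (nat_lit 156) (nat_lit 76) (nat_lit 0) (XT.nd (nat_lit 78) (nat_lit 0) (nat_lit 0) (XT.lf (nat_lit 0) (nat_lit 10805186458) (nat_lit 152) (nat_lit 16550636456) (nat_lit 0) (nat_lit 9981878979) (nat_lit 4) (nat_lit 5) (nat_lit 6) (nat_lit 4) (nat_lit 4) (nat_lit 4) (nat_lit 282) (nat_lit 220) (nat_lit 218)) (XT.lf (nat_lit 0) (nat_lit 15736451771) (nat_lit 152) (nat_lit 9808991377) (nat_lit 0) (nat_lit 14546643456) (nat_lit 4) (nat_lit 5) (nat_lit 6) (nat_lit 4) (nat_lit 4) (nat_lit 4) (nat_lit 283) (nat_lit 220) (nat_lit 217))) (XT.nd (nat_lit 78) (nat_lit 76) (nat_lit 0) (XT.lf (nat_lit 0) (nat_lit 20853299105) (nat_lit 152) (nat_lit 2900117029) (nat_lit 0) (nat_lit 19324138163) (nat_lit 4) (nat_lit 5) (nat_lit 6) (nat_lit 4) (nat_lit 4) (nat_lit 4) (nat_lit 284) (nat_lit 220) (nat_lit 216)) (XT.nd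 (nat_lit 78) (nat_lit 0) (nat_lit 0) (XT.lf (nat_lit 0) (nat_lit 4356358750) (nat_lit 76) (nat_lit 21897706736) (nat_lit 76) (nat_lit 20054330399) (nat_lit 3) (nat_lit 4) (nat_lit 4) (nat_lit 5) (nat_lit 4) (nat_lit 4) (nat_lit 285) (nat_lit 220) (nat_lit 215)) (XT.lf (nat_lit 0) (nat_lit 11967348888) (nat_lit 76) (nat_lit 19985802464) (nat_lit 76) (nat_lit 17851485947) (nat_lit 3) (nat_lit 4) (nat_lit 4) (nat_lit 5) (nat_lit 4) (nat_lit 4) (nat_lit 286) (nat_lit 220) (nat_lit 214))))))))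
noncomputable def xc14 : XT := (XT.nd (nat_lit 1404) (nat_lit 0) (nat_lit 0) (XT.nd (nat_lit 702) (nat_lit 0) (nat_lit 0) (XT.nd (nat_lit 312) (nat_lit 152) (nat_lit 0) (XT.nd (nat_lit 156) (nat_lit 0) (nat_lit 0) (XT.nd (nat_lit 78) (nat_lit 0) (nat_lit 0) (XT.lf (nat_lit 0) (nat_lit 19882064582) (nat_lit 76) (nat_lit 18055488402) (nat_lit 76) (nat_lit 15651782829) (nat_lit 3) (nat_lit 4) (nat_lit 4) (nat_lit 5) (nat_lit 4) (nat_lit 4) (nat_lit 287) (nat_lit 220) (nat_lit 213)) (XT.lf (nat_lit 0) (nat_lit 28147407851) (nat_lit 76) (nat_lit 16095325650) (nat_lit 76) (nat_lit 13442185766) (nat_lit 3) (nat_lit 4) (nat_lit 4) (nat_lit 5) (nat_lit 4) (nat_lit 4) (nat_lit 288) (nat_lit 220) (nat_lit 212))) (XT.nd (nat_lit 78) (nat_lit 0) (nat_lit 0) (XT.lf (nat_lit 0) (nat_lit 36812358506) (nat_lit 76) (nat_lit 14093698431) (nat_lit 76) (nat_lit 11209600851) (nat_lit 3) (nat_lit 4) (nat_lit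 4) (nat_lit 5) (nat_lit 4) (nat_lit 4) (nat_lit 289) (nat_lit 220) (nat_lit 211)) (XT.lf (nat_lit 0) (nat_lit 45928264404) (nat_lit 76) (nat_lit 12038745248) (nat_lit 76) (nat_lit 8940797950) (nat_lit 3) (nat_lit 4) (nat_lit 4) (nat_lit 5) (nat_lit 4) (nat_lit 4) (nat_lit 290) (nat_lit 220) (nat_lit 210)))) (XT.nd (nat_lit 156) (nat_lit 152) (nat_lit 0) (XT.nd (nat_lit 78) (nat_lit 0) (nat_lit 0) (XT.lf (nat_lit 0) (nat_lit 55549145727) (nat_lit 76) (nat_lit 9918288602) (nat_lit 76) (nat_lit 6622332306) (nat_lit 3) (nat_lit 4) (nat_lit 4) (nat_lit 5) (nat_lit 4) (nat_lit 4) (nat_lit 291) (nat_lit 220) (nat_lit 209)) (XT.lf (nat_lit 0) (nat_lit 65732015106) (nat_lit 76) (nat_lit 7719762824) (nat_lit 76) (nat_lit 4240464864) (nat_lit 3) (nat_lit 4) (nat_lit 4) (nat_lit 5) (nat_lit 4) (nat_lit 4) (nat_lit 292) (nat_lit 220) (nat_lit 208))) (XT.nd (nat_lit 78) (nat_lit 152) (nat_lit 0) (XT.lf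 (nat_lit 0) (nat_lit 76537215470) (nat_lit 76) (nat_lit 5430139613) (nat_lit 76) (nat_lit 1781080852) (nat_lit 3) (nat_lit 4) (nat_lit 4) (nat_lit 5) (nat_lit 4) (nat_lit 4) (nat_lit 293) (nat_lit 220) (nat_lit 207)) (XT.nd (nat_lit 78) (nat_lit 76) (nat_lit 0) (XT.lf (nat_lit 0) (nat_lit 745736441) (nat_lit 152) (nat_lit 2277484982) (nat_lit 76) (nat_lit 87270411787) (nat_lit 2) (nat_lit 5) (nat_lit 4) (nat_lit 5) (nat_lit 3) (nat_lit 4) (nat_lit 294) (nat_lit 220) (nat_lit 206)) (XT.lf (nat_lit 0) (nat_lit 2947161034) (nat_lit 76) (nat_lit 418179574) (nat_lit 152) (nat_lit 93998110584) (nat_lit 1) (nat_lit 5) (nat_lit 2) (nat_lit 5) (nat_lit 3) (nat_lit 4) (nat_lit 295) (nat_lit 220) (nat_lit 205)))))) (XT.nd (nat_lit 312) (nat_lit 0) (nat_lit 0) (XT.nd (nat_lit 156) (nat_lit 0) (nat_lit 0) (XT.nd (nat_lit 78) (nat_lit 0) (nat_lit 0) (XT.lf (nat_lit 0) (nat_lit 6181750249) (nat_lit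 152) (nat_lit 96528051761) (nat_lit 0) (nat_lit 2289799002) (nat_lit 1) (nat_lit 5) (nat_lit 3) (nat_lit 4) (nat_lit 1) (nat_lit 4) (nat_lit 296) (nat_lit 220) (nat_lit 204)) (XT.lf (nat_lit 0) (nat_lit 9146743978) (nat_lit 152) (nat_lit 98967880171) (nat_lit 0) (nat_lit 5135955343) (nat_lit 1) (nat_lit 5) (nat_lit 3) (nat_lit 4) (nat_lit 1) (nat_lit 4) (nat_lit 297) (nat_lit 220) (nat_lit 203))) (XT.nd (nat_lit 78) (nat_lit 0) (nat_lit 0) (XT.lf (nat_lit 0) (nat_lit 12271363172) (nat_lit 152) (nat_lit 101743704675) (nat_lit 0) (nat_lit 8150539920) (nat_lit 1) (nat_lit 5) (nat_lit 3) (nat_lit 4) (nat_lit 1) (nat_lit 4) (nat_lit 298) (nat_lit 220) (nat_lit 202)) (XT.lf (nat_lit 0) (nat_lit 15574124093) (nat_lit 152) (nat_lit 104871974605) (nat_lit 0) (nat_lit 11351416935) (nat_lit 1) (nat_lit 5) (nat_lit 3) (nat_lit 4) (nat_lit 1) (nat_lit 4) (nat_lit 299) (nat_lit 220) (nat_lit 201))))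 (XT.nd (nat_lit 156) (nat_lit 0) (nat_lit 0) (XT.nd (nat_lit 78) (nat_lit 0) (nat_lit 0) (XT.lf (nat_lit 0) (nat_lit 19074598657) (nat_lit 152) (nat_lit 108371227856) (nat_lit 0) (nat_lit 14757554551) (nat_lit 1) (nat_lit 5) (nat_lit 3) (nat_lit 4) (nat_lit 1) (nat_lit 4) (nat_lit 300) (nat_lit 220) (nat_lit 200)) (XT.lf (nat_lit 0) (nat_lit 22793530419) (nat_lit 152) (nat_lit 112262200743) (nat_lit 0) (nat_lit 18389137285) (nat_lit 1) (nat_lit 5) (nat_lit 3) (nat_lit 4) (nat_lit 1) (nat_lit 4) (nat_lit 301) (nat_lit 220) (nat_lit 199))) (XT.nd (nat_lit 78) (nat_lit 0) (nat_lit 0) (XT.lf (nat_lit 0) (nat_lit 26752957491) (nat_lit 152) (nat_lit 116567950883) (nat_lit 0) (nat_lit 22267685628) (nat_lit 1) (nat_lit 5) (nat_lit 3) (nat_lit 4) (nat_lit 1) (nat_lit 4) (nat_lit 302) (nat_lit 220) (nat_lit 198)) (XT.nd (nat_lit 78) (nat_lit 0) (nat_lit 0) (XT.lf (nat_lit 0) (nat_lit 30976343145)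 (nat_lit 152) (nat_lit 121313993834) (nat_lit 0) (nat_lit 26416183571) (nat_lit 1) (nat_lit 5) (nat_lit 3) (nat_lit 4) (nat_lit 1) (nat_lit 4) (nat_lit 303) (nat_lit 220) (nat_lit 197)) (XT.lf (nat_lit 0) (nat_lit 35488714853) (nat_lit 152) (nat_lit 126528454294) (nat_lit 0) (nat_lit 30859214804) (nat_lit 1) (nat_lit 5) (nat_lit 3) (nat_lit 4) (nat_lit 1) (nat_lit 4) (nat_lit 304) (nat_lit 220) (nat_lit 196))))))) (XT.nd (nat_lit 702) (nat_lit 0) (nat_lit 0) (XT.nd (nat_lit 312) (nat_lit 0) (nat_lit 0) (XT.nd (nat_lit 156) (nat_lit 0) (nat_lit 0) (XT.nd (nat_lit 78) (nat_lit 0) (nat_lit 0) (XT.lf (nat_lit 0) (nat_lit 40316812594) (nat_lit 152) (nat_lit 132242232769) (nat_lit 0) (nat_lit 35623108402) (nat_lit 1) (nat_lit 5) (nat_lit 3) (nat_lit 4) (nat_lit 1) (nat_lit 4) (nat_lit 305) (nat_lit 220) (nat_lit 195)) (XT.lf (nat_lit 0) (nat_lit 45489247317) (nat_lit 152) (nat_lit 138489188687)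 (nat_lit 0) (nat_lit 40736094846) (nat_lit 1) (nat_lit 5) (nat_lit 3) (nat_lit 4) (nat_lit 1) (nat_lit 4) (nat_lit 306) (nat_lit 220) (nat_lit 194))) (XT.nd (nat_lit 78) (nat_lit 0) (nat_lit 0) (XT.lf (nat_lit 0) (nat_lit 51036670489) (nat_lit 152) (nat_lit 145306341047) (nat_lit 0) (nat_lit 46228473314) (nat_lit 1) (nat_lit 5) (nat_lit 3) (nat_lit 4) (nat_lit 1) (nat_lit 4) (nat_lit 307) (nat_lit 220) (nat_lit 193)) (XT.lf (nat_lit 0) (nat_lit 56991955727) (nat_lit 152) (nat_lit 152734087788) (nat_lit 0) (nat_lit 52132791234) (nat_lit 1) (nat_lit 5) (nat_lit 3) (nat_lit 4) (nat_lit 1) (nat_lit 4) (nat_lit 308) (nat_lit 220) (nat_lit 192)))) (XT.nd (nat_lit 156) (nat_lit 0) (nat_lit 0) (XT.nd (nat_lit 78) (nat_lit 0) (nat_lit 0) (XT.lf (nat_lit 0) (nat_lit 63390393612) (nat_lit 152) (nat_lit 160816445188) (nat_lit 0) (nat_lit 58484037157) (nat_lit 1) (nat_lit 5) (nat_lit 3) (nat_lit 4)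 (nat_lit 1) (nat_lit 4) (nat_lit 309) (nat_lit 220) (nat_lit 191)) (XT.lf (nat_lit 0) (nat_lit 70269900811) (nat_lit 152) (nat_lit 169601308697) (nat_lit 0) (nat_lit 65319848095) (nat_lit 1) (nat_lit 5) (nat_lit 3) (nat_lit 4) (nat_lit 1) (nat_lit 4) (nat_lit 310) (nat_lit 220) (nat_lit 190))) (XT.nd (nat_lit 78) (nat_lit 0) (nat_lit 0) (XT.lf (nat_lit 0) (nat_lit 77671244775) (nat_lit 152) (nat_lit 179140736766) (nat_lit 0) (nat_lit 72680732559) (nat_lit 1) (nat_lit 5) (nat_lit 3) (nat_lit 4) (nat_lit 1) (nat_lit 4) (nat_lit 311) (nat_lit 220) (nat_lit 189)) (XT.nd (nat_lit 78) (nat_lit 0) (nat_lit 0) (XT.lf (nat_lit 0) (nat_lit 85638285321) (nat_lit 152) (nat_lit 189491259339) (nat_lit 0) (nat_lit 80610310604) (nat_lit 1) (nat_lit 5) (nat_lit 3) (nat_lit 4) (nat_lit 1) (nat_lit 4) (nat_lit 312) (nat_lit 220) (nat_lit 188)) (XT.lf (nat_lit 0) (nat_lit 94218234539) (nat_lit 152) (nat_lit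 200714212846) (nat_lit 0) (nat_lit 89155572322) (nat_lit 1) (nat_lit 5) (nat_lit 3) (nat_lit 4) (nat_lit 1) (nat_lit 4) (nat_lit 313) (nat_lit 220) (nat_lit 187)))))) (XT.nd (nat_lit 390) (nat_lit 0) (nat_lit 0) (XT.nd (nat_lit 156) (nat_lit 0) (nat_lit 0) (XT.nd (nat_lit 78) (nat_lit 0) (nat_lit 0) (XT.lf (nat_lit 0) (nat_lit 103461936575) (nat_lit 152) (nat_lit 212876103679) (nat_lit 0) (nat_lit 98367156301) (nat_lit 1) (nat_lit 5) (nat_lit 3) (nat_lit 4) (nat_lit 1) (nat_lit 4) (nat_lit 314) (nat_lit 220) (nat_lit 186)) (XT.lf (nat_lit 0) (nat_lit 113424168920) (nat_lit 152) (nat_lit 226049002301) (nat_lit 0) (nat_lit 108299649706) (nat_lit 1) (nat_lit 5) (nat_lit 3) (nat_lit 4) (nat_lit 1) (nat_lit 4) (nat_lit 315) (nat_lit 220) (nat_lit 185))) (XT.nd (nat_lit 78) (nat_lit 0) (nat_lit 0) (XT.lf (nat_lit 0) (nat_lit 124163967027) (nat_lit 152) (nat_lit 240310970334) (nat_lit 0) (nat_lit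 119011911757) (nat_lit 1) (nat_lit 5) (nat_lit 3) (nat_lit 4) (nat_lit 1) (nat_lit 4) (nat_lit 316) (nat_lit 220) (nat_lit 184)) (XT.nd (nat_lit 78) (nat_lit 0) (nat_lit 0) (XT.lf (nat_lit 0) (nat_lit 135744974143) (nat_lit 152) (nat_lit 255746523144) (nat_lit 0) (nat_lit 130567422524) (nat_lit 1) (nat_lit 5) (nat_lit 3) (nat_lit 4) (nat_lit 1) (nat_lit 4) (nat_lit 317) (nat_lit 220) (nat_lit 183)) (XT.lf (nat_lit 0) (nat_lit 148235818458) (nat_lit 152) (nat_lit 272447130674) (nat_lit 0) (nat_lit 143034659109) (nat_lit 1) (nat_lit 5) (nat_lit 3) (nat_lit 4) (nat_lit 1) (nat_lit 4) (nat_lit 318) (nat_lit 220) (nat_lit 182))))) (XT.nd (nat_lit 156) (nat_lit 0) (nat_lit 0) (XT.nd (nat_lit 78) (nat_lit 0) (nat_lit 0) (XT.lf (nat_lit 0) (nat_lit 161710519791) (nat_lit 152) (nat_lit 290511759487) (nat_lit 0) (nat_lit 156487501433) (nat_lit 1) (nat_lit 5) (nat_lit 3) (nat_lit 4) (nat_lit 1)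 (nat_lit 4) (nat_lit 319) (nat_lit 220) (nat_lit 181)) (XT.lf (nat_lit 0) (nat_lit 176248928224) (nat_lit 152) (nat_lit 310047459234) (nat_lit 0) (nat_lit 171005670043) (nat_lit 1) (nat_lit 5) (nat_lit 3) (nat_lit 4) (nat_lit 1) (nat_lit 4) (nat_lit 320) (nat_lit 220) (nat_lit 180))) (XT.nd (nat_lit 78) (nat_lit 0) (nat_lit 0) (XT.lf (nat_lit 0) (nat_lit 191937197288) (nat_lit 152) (nat_lit 331169997027) (nat_lit 0) (nat_lit 186675198530) (nat_lit 1) (nat_lit 5) (nat_lit 3) (nat_lit 4) (nat_lit 1) (nat_lit 4) (nat_lit 321) (nat_lit 220) (nat_lit 179)) (XT.nd (nat_lit 78) (nat_lit 0) (nat_lit 0) (XT.lf (nat_lit 0) (nat_lit 208868294503) (nat_lit 152) (nat_lit 354004543458) (nat_lit 0) (nat_lit 203588943359) (nat_lit 1) (nat_lit 5) (nat_lit 3) (nat_lit 4) (nat_lit 1) (nat_lit 4) (nat_lit 322) (nat_lit 220) (nat_lit 178)) (XT.lf (nat_lit 0) (nat_lit 227142552298) (nat_lit 152) (nat_lit 378686414359)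 (nat_lit 0) (nat_lit 221847134129) (nat_lit 1) (nat_lit 5) (nat_lit 3) (nat_lit 4) (nat_lit 1) (nat_lit 4) (nat_lit 323) (nat_lit 220) (nat_lit 177))))))))
noncomputable def xc15 : XT := (XT.nd (nat_lit 35256) (nat_lit 0) (nat_lit 0) (XT.nd (nat_lit 34476) (nat_lit 0) (nat_lit 152) (XT.nd (nat_lit 34086) (nat_lit 0) (nat_lit 228) (XT.nd (nat_lit 33930) (nat_lit 0) (nat_lit 380) (XT.nd (nat_lit 78) (nat_lit 0) (nat_lit 0) (XT.lf (nat_lit 0) (nat_lit 246868262571) (nat_lit 152) (nat_lit 405361872669) (nat_lit 0) (nat_lit 241557967527) (nat_lit 1) (nat_lit 5) (nat_lit 3) (nat_lit 4) (nat_lit 1) (nat_lit 4) (nat_lit 324) (nat_lit 220) (nat_lit 176)) (XT.lf (nat_lit 0) (nat_lit 268162318419) (nat_lit 152) (nat_lit 434188995177) (nat_lit 0) (nat_lit 262838248491) (nat_lit 1) (nat_lit 5) (nat_lit 3) (nat_lit 4) (nat_lit 1) (nat_lit 4) (nat_lit 325) (nat_lit 220) (nat_lit 175))) (XT.nd (nat_lit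 78) (nat_lit 0) (nat_lit 0) (XT.lf (nat_lit 0) (nat_lit 7223200634) (nat_lit 76) (nat_lit 3461881914) (nat_lit 76) (nat_lit 3461881914) (nat_lit 6) (nat_lit 4) (nat_lit 7) (nat_lit 5) (nat_lit 7) (nat_lit 4) (nat_lit 278) (nat_lit 221) (nat_lit 221)) (XT.lf (nat_lit 0) (nat_lit 24525380594) (nat_lit 76) (nat_lit 3127126578) (nat_lit 76) (nat_lit 2642356802) (nat_lit 6) (nat_lit 4) (nat_lit 7) (nat_lit 5) (nat_lit 7) (nat_lit 4) (nat_lit 279) (nat_lit 221) (nat_lit 220)))) (XT.nd (nat_lit 156) (nat_lit 0) (nat_lit 0) (XT.nd (nat_lit 78) (nat_lit 0) (nat_lit 0) (XT.lf (nat_lit 0) (nat_lit 1718596819) (nat_lit 152) (nat_lit 29916643146) (nat_lit 0) (nat_lit 829424741) (nat_lit 4) (nat_lit 5) (nat_lit 6) (nat_lit 4) (nat_lit 4) (nat_lit 4) (nat_lit 280) (nat_lit 221) (nat_lit 219)) (XT.lf (nat_lit 0) (nat_lit 6248282993) (nat_lit 152) (nat_lit 23599022922) (nat_lit 0) (nat_lit 4963290012)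 (nat_lit 4) (nat_lit 5) (nat_lit 6) (nat_lit 4) (nat_lit 4) (nat_lit 4) (nat_lit 281) (nat_lit 221) (nat_lit 218))) (XT.nd (nat_lit 78) (nat_lit 0) (nat_lit 0) (XT.lf (nat_lit 0) (nat_lit 10914711320) (nat_lit 152) (nat_lit 17177863606) (nat_lit 0) (nat_lit 9263217502) (nat_lit 4) (nat_lit 5) (nat_lit 6) (nat_lit 4) (nat_lit 4) (nat_lit 4) (nat_lit 282) (nat_lit 221) (nat_lit 217)) (XT.nd (nat_lit 78) (nat_lit 0) (nat_lit 0) (XT.lf (nat_lit 0) (nat_lit 15745534708) (nat_lit 152) (nat_lit 10615113881) (nat_lit 0) (nat_lit 13754688264) (nat_lit 4) (nat_lit 5) (nat_lit 6) (nat_lit 4) (nat_lit 4) (nat_lit 4) (nat_lit 283) (nat_lit 221) (nat_lit 216)) (XT.lf (nat_lit 0) (nat_lit 20769380259) (nat_lit 152) (nat_lit 3871883381) (nat_lit 0) (nat_lit 18464318420) (nat_lit 4) (nat_lit 5) (nat_lit 6) (nat_lit 4) (nat_lit 4) (nat_lit 4) (nat_lit 284) (nat_lit 221) (nat_lit 215)))))) (XT.nd (nat_lit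 390) (nat_lit 0) (nat_lit 0) (XT.nd (nat_lit 156) (nat_lit 0) (nat_lit 0) (XT.nd (nat_lit 78) (nat_lit 0) (nat_lit 0) (XT.lf (nat_lit 0) (nat_lit 3194016247) (nat_lit 76) (nat_lit 22871870207) (nat_lit 76) (nat_lit 20275868188) (nat_lit 3) (nat_lit 4) (nat_lit 4) (nat_lit 5) (nat_lit 4) (nat_lit 4) (nat_lit 285) (nat_lit 221) (nat_lit 214)) (XT.lf (nat_lit 0) (nat_lit 10658297897) (nat_lit 76) (nat_lit 21024649853) (nat_lit 76) (nat_lit 18159258779) (nat_lit 3) (nat_lit 4) (nat_lit 4) (nat_lit 5) (nat_lit 4) (nat_lit 4) (nat_lit 286) (nat_lit 221) (nat_lit 213))) (XT.nd (nat_lit 78) (nat_lit 0) (nat_lit 0) (XT.lf (nat_lit 0) (nat_lit 18437172399) (nat_lit 76) (nat_lit 19154228308) (nat_lit 76) (nat_lit 16039402922) (nat_lit 3) (nat_lit 4) (nat_lit 4) (nat_lit 5) (nat_lit 4) (nat_lit 4) (nat_lit 287) (nat_lit 221) (nat_lit 212)) (XT.nd (nat_lit 78) (nat_lit 0) (nat_lit 0) (XT.lf (nat_lit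 0) (nat_lit 26576736785) (nat_lit 76) (nat_lit 17249521591) (nat_lit 76) (nat_lit 13903738510) (nat_lit 3) (nat_lit 4) (nat_lit 4) (nat_lit 5) (nat_lit 4) (nat_lit 4) (nat_lit 288) (nat_lit 221) (nat_lit 211)) (XT.lf (nat_lit 0) (nat_lit 35125225513) (nat_lit 76) (nat_lit 15299242552) (nat_lit 76) (nat_lit 11739609752) (nat_lit 3) (nat_lit 4) (nat_lit 4) (nat_lit 5) (nat_lit 4) (nat_lit 4) (nat_lit 289) (nat_lit 221) (nat_lit 210))))) (XT.nd (nat_lit 156) (nat_lit 0) (nat_lit 0) (XT.nd (nat_lit 78) (nat_lit 0) (nat_lit 0) (XT.lf (nat_lit 0) (nat_lit 44133296292) (nat_lit 76) (nat_lit 13291833980) (nat_lit 76) (nat_lit 9534192183) (nat_lit 3) (nat_lit 4) (nat_lit 4) (nat_lit 5) (nat_lit 4) (nat_lit 4) (nat_lit 290) (nat_lit 221) (nat_lit 209)) (XT.lf (nat_lit 0) (nat_lit 53654330284) (nat_lit 76) (nat_lit 11215400123) (nat_lit 76) (nat_lit 7274416660) (nat_lit 3) (nat_lit 4) (nat_lit 4)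 (nat_lit 5) (nat_lit 4) (nat_lit 4) (nat_lit 291) (nat_lit 221) (nat_lit 208))) (XT.nd (nat_lit 78) (nat_lit 0) (nat_lit 0) (XT.lf (nat_lit 0) (nat_lit 63744748429) (nat_lit 76) (nat_lit 9057636186) (nat_lit 76) (nat_lit 4946891922) (nat_lit 3) (nat_lit 4) (nat_lit 4) (nat_lit 5) (nat_lit 4) (nat_lit 4) (nat_lit 292) (nat_lit 221) (nat_lit 207)) (XT.nd (nat_lit 78) (nat_lit 0) (nat_lit 0) (XT.lf (nat_lit 0) (nat_lit 74464345800) (nat_lit 76) (nat_lit 6805755420) (nat_lit 76) (nat_lit 2537825230) (nat_lit 3) (nat_lit 4) (nat_lit 4) (nat_lit 5) (nat_lit 4) (nat_lit 4) (nat_lit 293) (nat_lit 221) (nat_lit 206)) (XT.lf (nat_lit 0) (nat_lit 85876645935) (nat_lit 76) (nat_lit 4446413347) (nat_lit 76) (nat_lit 32940632) (nat_lit 3) (nat_lit 4) (nat_lit 4) (nat_lit 5) (nat_lit 4) (nat_lit 4) (nat_lit 294) (nat_lit 221) (nat_lit 205))))))) (XT.nd (nat_lit 702) (nat_lit 0) (nat_lit 0) (XT.nd (nat_lit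 312) (nat_lit 0) (nat_lit 0) (XT.nd (nat_lit 156) (nat_lit 0) (nat_lit 0) (XT.nd (nat_lit 78) (nat_lit 0) (nat_lit 0) (XT.lf (nat_lit 0) (nat_lit 595722066) (nat_lit 76) (nat_lit 1913524947) (nat_lit 152) (nat_lit 94920572185) (nat_lit 1) (nat_lit 5) (nat_lit 2) (nat_lit 5) (nat_lit 3) (nat_lit 4) (nat_lit 295) (nat_lit 221) (nat_lit 204)) (XT.lf (nat_lit 0) (nat_lit 5262031298) (nat_lit 152) (nat_lit 98995624995) (nat_lit 0) (nat_lit 811542185) (nat_lit 1) (nat_lit 5) (nat_lit 3) (nat_lit 4) (nat_lit 1) (nat_lit 4) (nat_lit 296) (nat_lit 221) (nat_lit 203))) (XT.nd (nat_lit 78) (nat_lit 0) (nat_lit 0) (XT.lf (nat_lit 0) (nat_lit 8189729818) (nat_lit 152) (nat_lit 101503150435) (nat_lit 0) (nat_lit 3629206088) (nat_lit 1) (nat_lit 5) (nat_lit 3) (nat_lit 4) (nat_lit 1) (nat_lit 4) (nat_lit 297) (nat_lit 221) (nat_lit 202)) (XT.lf (nat_lit 0) (nat_lit 11279816412) (nat_lit 152) (nat_lit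 104341657374) (nat_lit 0) (nat_lit 6617408777) (nat_lit 1) (nat_lit 5) (nat_lit 3) (nat_lit 4) (nat_lit 1) (nat_lit 4) (nat_lit 298) (nat_lit 221) (nat_lit 201)))) (XT.nd (nat_lit 156) (nat_lit 0) (nat_lit 0) (XT.nd (nat_lit 78) (nat_lit 0) (nat_lit 0) (XT.lf (nat_lit 0) (nat_lit 14550602703) (nat_lit 152) (nat_lit 107527966596) (nat_lit 0) (nat_lit 9793858118) (nat_lit 1) (nat_lit 5) (nat_lit 3) (nat_lit 4) (nat_lit 1) (nat_lit 4) (nat_lit 299) (nat_lit 221) (nat_lit 200)) (XT.lf (nat_lit 0) (nat_lit 18021471129) (nat_lit 152) (nat_lit 111080959931) (nat_lit 0) (nat_lit 13177377517) (nat_lit 1) (nat_lit 5) (nat_lit 3) (nat_lit 4) (nat_lit 1) (nat_lit 4) (nat_lit 300) (nat_lit 221) (nat_lit 199))) (XT.nd (nat_lit 78) (nat_lit 0) (nat_lit 0) (XT.lf (nat_lit 0) (nat_lit 21712989799) (nat_lit 152) (nat_lit 115021692156) (nat_lit 0) (nat_lit 16788017458) (nat_lit 1) (nat_lit 5) (nat_lit 3)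 (nat_lit 4) (nat_lit 1) (nat_lit 4) (nat_lit 301) (nat_lit 221) (nat_lit 198)) (XT.nd (nat_lit 78) (nat_lit 0) (nat_lit 0) (XT.lf (nat_lit 0) (nat_lit 25647034379) (nat_lit 152) (nat_lit 119373515758) (nat_lit 0) (nat_lit 20647174327) (nat_lit 1) (nat_lit 5) (nat_lit 3) (nat_lit 4) (nat_lit 1) (nat_lit 4) (nat_lit 302) (nat_lit 221) (nat_lit 197)) (XT.lf (nat_lit 0) (nat_lit 29846917726) (nat_lit 152) (nat_lit 124162219320) (nat_lit 0) (nat_lit 24777717200) (nat_lit 1) (nat_lit 5) (nat_lit 3) (nat_lit 4) (nat_lit 1) (nat_lit 4) (nat_lit 303) (nat_lit 221) (nat_lit 196)))))) (XT.nd (nat_lit 390) (nat_lit 0) (nat_lit 0) (XT.nd (nat_lit 156) (nat_lit 0) (nat_lit 0) (XT.nd (nat_lit 78) (nat_lit 0) (nat_lit 0) (XT.lf (nat_lit 0) (nat_lit 34337528038) (nat_lit 152) (nat_lit 129416180347) (nat_lit 0) (nat_lit 29204123369) (nat_lit 1) (nat_lit 5) (nat_lit 3) (nat_lit 4) (nat_lit 1) (nat_lit 4)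 (nat_lit 304) (nat_lit 221) (nat_lit 195)) (XT.lf (nat_lit 0) (nat_lit 39145476338) (nat_lit 152) (nat_lit 135166533420) (nat_lit 0) (nat_lit 33952623389) (nat_lit 1) (nat_lit 5) (nat_lit 3) (nat_lit 4) (nat_lit 1) (nat_lit 4) (nat_lit 305) (nat_lit 221) (nat_lit 194))) (XT.nd (nat_lit 78) (nat_lit 0) (nat_lit 0) (XT.lf (nat_lit 0) (nat_lit 44299254172) (nat_lit 152) (nat_lit 141447354708) (nat_lit 0) (nat_lit 39051356519) (nat_lit 1) (nat_lit 5) (nat_lit 3) (nat_lit 4) (nat_lit 1) (nat_lit 4) (nat_lit 306) (nat_lit 221) (nat_lit 193)) (XT.nd (nat_lit 78) (nat_lit 0) (nat_lit 0) (XT.lf (nat_lit 0) (nat_lit 49829402446) (nat_lit 152) (nat_lit 148295863891) (nat_lit 0) (nat_lit 44530537475) (nat_lit 1) (nat_lit 5) (nat_lit 3) (nat_lit 4) (nat_lit 1) (nat_lit 4) (nat_lit 307) (nat_lit 221) (nat_lit 192)) (XT.lf (nat_lit 0) (nat_lit 55768692409) (nat_lit 152) (nat_lit 155752644728) (nat_lit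 0) (nat_lit 50422635476) (nat_lit 1) (nat_lit 5) (nat_lit 3) (nat_lit 4) (nat_lit 1) (nat_lit 4) (nat_lit 308) (nat_lit 221) (nat_lit 191))))) (XT.nd (nat_lit 156) (nat_lit 0) (nat_lit 0) (XT.nd (nat_lit 78) (nat_lit 0) (nat_lit 0) (XT.lf (nat_lit 0) (nat_lit 62152319853) (nat_lit 152) (nat_lit 163861885549) (nat_lit 0) (nat_lit 56762566660) (nat_lit 1) (nat_lit 5) (nat_lit 3) (nat_lit 4) (nat_lit 1) (nat_lit 4) (nat_lit 309) (nat_lit 221) (nat_lit 190)) (XT.lf (nat_lit 0) (nat_lit 69018113682) (nat_lit 152) (nat_lit 172671641116) (nat_lit 0) (nat_lit 63587900988) (nat_lit 1) (nat_lit 5) (nat_lit 3) (nat_lit 4) (nat_lit 1) (nat_lit 4) (nat_lit 310) (nat_lit 221) (nat_lit 189))) (XT.nd (nat_lit 78) (nat_lit 0) (nat_lit 0) (XT.lf (nat_lit 0) (nat_lit 76406760081) (nat_lit 152) (nat_lit 182234117386) (nat_lit 0) (nat_lit 70939084886) (nat_lit 1) (nat_lit 5) (nat_lit 3) (nat_lit 4) (nat_lit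 1) (nat_lit 4) (nat_lit 311) (nat_lit 221) (nat_lit 188)) (XT.nd (nat_lit 78) (nat_lit 0) (nat_lit 0) (XT.lf (nat_lit 0) (nat_lit 84362043621) (nat_lit 152) (nat_lit 192605980886) (nat_lit 0) (nat_lit 78859680926) (nat_lit 1) (nat_lit 5) (nat_lit 3) (nat_lit 4) (nat_lit 1) (nat_lit 4) (nat_lit 312) (nat_lit 221) (nat_lit 187)) (XT.lf (nat_lit 0) (nat_lit 92931106724) (nat_lit 152) (nat_lit 203848694511) (nat_lit 0) (nat_lit 87396625973) (nat_lit 1) (nat_lit 5) (nat_lit 3) (nat_lit 4) (nat_lit 1) (nat_lit 4) (nat_lit 313) (nat_lit 221) (nat_lit 186))))))))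
noncomputable def xc16 : XT := (XT.nd (nat_lit 35022) (nat_lit 0) (nat_lit 0) (XT.nd (nat_lit 702) (nat_lit 0) (nat_lit 0) (XT.nd (nat_lit 312) (nat_lit 0) (nat_lit 0) (XT.nd (nat_lit 156) (nat_lit 0) (nat_lit 0) (XT.nd (nat_lit 78) (nat_lit 0) (nat_lit 0) (XT.lf (nat_lit 0) (nat_lit 102164729022) (nat_lit 152) (nat_lit 216028881749) (nat_lit 0) (nat_lit 96600509331) (nat_lit 1) (nat_lit 5) (nat_lit 3) (nat_lit 4) (nat_lit 1) (nat_lit 4) (nat_lit 314) (nat_lit 221) (nat_lit 185)) (XT.lf (nat_lit 0) (nat_lit 112117628278) (nat_lit 152) (nat_lit 229218721487) (nat_lit 0) (nat_lit 106525872530) (nat_lit 1) (nat_lit 5) (nat_lit 3) (nat_lit 4) (nat_lit 1) (nat_lit 4) (nat_lit 315) (nat_lit 221) (nat_lit 184))) (XT.nd (nat_lit 78) (nat_lit 0) (nat_lit 0) (XT.lf (nat_lit 0) (nat_lit 122848784635) (nat_lit 152) (nat_lit 243496375739) (nat_lit 0) (nat_lit 117231532539) (nat_lit 1) (nat_lit 5)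 (nat_lit 3) (nat_lit 4) (nat_lit 1) (nat_lit 4) (nat_lit 316) (nat_lit 221) (nat_lit 183)) (XT.lf (nat_lit 0) (nat_lit 134421790131) (nat_lit 152) (nat_lit 258946452825) (nat_lit 0) (nat_lit 128780930305) (nat_lit 1) (nat_lit 5) (nat_lit 3) (nat_lit 4) (nat_lit 1) (nat_lit 4) (nat_lit 317) (nat_lit 221) (nat_lit 182)))) (XT.nd (nat_lit 156) (nat_lit 0) (nat_lit 0) (XT.nd (nat_lit 78) (nat_lit 0) (nat_lit 0) (XT.lf (nat_lit 0) (nat_lit 146905225539) (nat_lit 152) (nat_lit 275660508759) (nat_lit 0) (nat_lit 141242506703) (nat_lit 1) (nat_lit 5) (nat_lit 3) (nat_lit 4) (nat_lit 1) (nat_lit 4) (nat_lit 318) (nat_lit 221) (nat_lit 181)) (XT.lf (nat_lit 0) (nat_lit 160373066773) (nat_lit 152) (nat_lit 293737589798) (nat_lit 0) (nat_lit 154690108114) (nat_lit 1) (nat_lit 5) (nat_lit 3) (nat_lit 4) (nat_lit 1) (nat_lit 4) (nat_lit 319) (nat_lit 221) (nat_lit 180))) (XT.nd (nat_lit 78) (nat_lit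 0) (nat_lit 0) (XT.lf (nat_lit 0) (nat_lit 174905123262) (nat_lit 152) (nat_lit 313284819384) (nat_lit 0) (nat_lit 169203424025) (nat_lit 1) (nat_lit 5) (nat_lit 3) (nat_lit 4) (nat_lit 1) (nat_lit 4) (nat_lit 320) (nat_lit 221) (nat_lit 179)) (XT.nd (nat_lit 78) (nat_lit 0) (nat_lit 0) (XT.lf (nat_lit 0) (nat_lit 190587510896) (nat_lit 152) (nat_lit 334418032954) (nat_lit 0) (nat_lit 184868459273) (nat_lit 1) (nat_lit 5) (nat_lit 3) (nat_lit 4) (nat_lit 1) (nat_lit 4) (nat_lit 321) (nat_lit 221) (nat_lit 178)) (XT.lf (nat_lit 0) (nat_lit 207513162343) (nat_lit 152) (nat_lit 357262464363) (nat_lit 0) (nat_lit 201778043696) (nat_lit 1) (nat_lit 5) (nat_lit 3) (nat_lit 4) (nat_lit 1) (nat_lit 4) (nat_lit 322) (nat_lit 221) (nat_lit 177)))))) (XT.nd (nat_lit 33930) (nat_lit 0) (nat_lit 228) (XT.nd (nat_lit 156) (nat_lit 0) (nat_lit 0) (XT.nd (nat_lit 78) (nat_lit 0) (nat_lit 0) (XT.lf (nat_lit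 0) (nat_lit 225782377760) (nat_lit 152) (nat_lit 381953488022) (nat_lit 0) (nat_lit 220032382239) (nat_lit 1) (nat_lit 5) (nat_lit 3) (nat_lit 4) (nat_lit 1) (nat_lit 4) (nat_lit 323) (nat_lit 221) (nat_lit 176)) (XT.lf (nat_lit 0) (nat_lit 245503419164) (nat_lit 152) (nat_lit 408637421108) (nat_lit 0) (nat_lit 239739648759) (nat_lit 1) (nat_lit 5) (nat_lit 3) (nat_lit 4) (nat_lit 1) (nat_lit 4) (nat_lit 324) (nat_lit 221) (nat_lit 175))) (XT.nd (nat_lit 33696) (nat_lit 0) (nat_lit 456) (XT.lf (nat_lit 0) (nat_lit 266793151986) (nat_lit 152) (nat_lit 437472390630) (nat_lit 0) (nat_lit 261016627059) (nat_lit 1) (nat_lit 5) (nat_lit 3) (nat_lit 4) (nat_lit 1) (nat_lit 4) (nat_lit 325) (nat_lit 221) (nat_lit 174)) (XT.lf (nat_lit 0) (nat_lit 5077367903) (nat_lit 152) (nat_lit 2221990611) (nat_lit 0) (nat_lit 5077367903) (nat_lit 7) (nat_lit 5) (nat_lit 9) (nat_lit 4) (nat_lit 7) (nat_lit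 4) (nat_lit 276) (nat_lit 222) (nat_lit 222)))) (XT.nd (nat_lit 156) (nat_lit 152) (nat_lit 0) (XT.nd (nat_lit 78) (nat_lit 0) (nat_lit 0) (XT.lf (nat_lit 0) (nat_lit 4678935745) (nat_lit 76) (nat_lit 11149314819) (nat_lit 76) (nat_lit 10625763460) (nat_lit 6) (nat_lit 4) (nat_lit 7) (nat_lit 5) (nat_lit 7) (nat_lit 4) (nat_lit 277) (nat_lit 222) (nat_lit 221)) (XT.lf (nat_lit 0) (nat_lit 14220495768) (nat_lit 76) (nat_lit 7544200934) (nat_lit 76) (nat_lit 6535879798) (nat_lit 6) (nat_lit 4) (nat_lit 7) (nat_lit 5) (nat_lit 7) (nat_lit 4) (nat_lit 278) (nat_lit 222) (nat_lit 220))) (XT.nd (nat_lit 78) (nat_lit 152) (nat_lit 0) (XT.lf (nat_lit 0) (nat_lit 24090303336) (nat_lit 76) (nat_lit 3837272709) (nat_lit 76) (nat_lit 2380090669) (nat_lit 6) (nat_lit 4) (nat_lit 7) (nat_lit 5) (nat_lit 7) (nat_lit 4) (nat_lit 279) (nat_lit 222) (nat_lit 219)) (XT.nd (nat_lit 78) (nat_lit 0) (nat_lit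 0) (XT.lf (nat_lit 0) (nat_lit 1836883669) (nat_lit 152) (nat_lit 30594048467) (nat_lit 0) (nat_lit 53270347) (nat_lit 4) (nat_lit 5) (nat_lit 6) (nat_lit 4) (nat_lit 4) (nat_lit 4) (nat_lit 280) (nat_lit 222) (nat_lit 218)) (XT.lf (nat_lit 0) (nat_lit 6258092564) (nat_lit 152) (nat_lit 24469635227) (nat_lit 0) (nat_lit 4107978405) (nat_lit 4) (nat_lit 5) (nat_lit 6) (nat_lit 4) (nat_lit 4) (nat_lit 4) (nat_lit 281) (nat_lit 222) (nat_lit 217))))))) (XT.nd (nat_lit 702) (nat_lit 152) (nat_lit 0) (XT.nd (nat_lit 312) (nat_lit 0) (nat_lit 0) (XT.nd (nat_lit 156) (nat_lit 76) (nat_lit 0) (XT.nd (nat_lit 78) (nat_lit 0) (nat_lit 0) (XT.lf (nat_lit 0) (nat_lit 10824078966) (nat_lit 152) (nat_lit 18227371265) (nat_lit 0) (nat_lit 8334612180) (nat_lit 4) (nat_lit 5) (nat_lit 6) (nat_lit 4) (nat_lit 4) (nat_lit 4) (nat_lit 282) (nat_lit 222) (nat_lit 216)) (XT.lf (nat_lit 0) (nat_lit 15561900571)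 (nat_lit 152) (nat_lit 11830265387) (nat_lit 0) (nat_lit 12758218390) (nat_lit 4) (nat_lit 5) (nat_lit 6) (nat_lit 4) (nat_lit 4) (nat_lit 4) (nat_lit 283) (nat_lit 222) (nat_lit 215))) (XT.nd (nat_lit 78) (nat_lit 76) (nat_lit 0) (XT.lf (nat_lit 0) (nat_lit 20499633360) (nat_lit 152) (nat_lit 5240408819) (nat_lit 0) (nat_lit 17405010999) (nat_lit 4) (nat_lit 5) (nat_lit 6) (nat_lit 4) (nat_lit 4) (nat_lit 4) (nat_lit 284) (nat_lit 222) (nat_lit 214)) (XT.lf (nat_lit 0) (nat_lit 1633532689) (nat_lit 76) (nat_lit 24058509305) (nat_lit 76) (nat_lit 20694497889) (nat_lit 3) (nat_lit 4) (nat_lit 4) (nat_lit 5) (nat_lit 4) (nat_lit 4) (nat_lit 285) (nat_lit 222) (nat_lit 213)))) (XT.nd (nat_lit 156) (nat_lit 0) (nat_lit 0) (XT.nd (nat_lit 78) (nat_lit 0) (nat_lit 0) (XT.lf (nat_lit 0) (nat_lit 8961973146) (nat_lit 76) (nat_lit 22271181470) (nat_lit 76) (nat_lit 18657735742) (nat_lit 3) (nat_lit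 4) (nat_lit 4) (nat_lit 5) (nat_lit 4) (nat_lit 4) (nat_lit 286) (nat_lit 222) (nat_lit 212)) (XT.lf (nat_lit 0) (nat_lit 16615068766) (nat_lit 76) (nat_lit 20456215959) (nat_lit 76) (nat_lit 16611812536) (nat_lit 3) (nat_lit 4) (nat_lit 4) (nat_lit 5) (nat_lit 4) (nat_lit 4) (nat_lit 287) (nat_lit 222) (nat_lit 211))) (XT.nd (nat_lit 78) (nat_lit 0) (nat_lit 0) (XT.lf (nat_lit 0) (nat_lit 24638171224) (nat_lit 76) (nat_lit 18602857422) (nat_lit 76) (nat_lit 14544604281) (nat_lit 3) (nat_lit 4) (nat_lit 4) (nat_lit 5) (nat_lit 4) (nat_lit 4) (nat_lit 288) (nat_lit 222) (nat_lit 210)) (XT.nd (nat_lit 78) (nat_lit 0) (nat_lit 0) (XT.lf (nat_lit 0) (nat_lit 33078824834) (nat_lit 76) (nat_lit 16700122994) (nat_lit 76) (nat_lit 12443860855) (nat_lit 3) (nat_lit 4) (nat_lit 4) (nat_lit 5) (nat_lit 4) (nat_lit 4) (nat_lit 289) (nat_lit 222) (nat_lit 209)) (XT.lf (nat_lit 0) (nat_lit 41987048281)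 (nat_lit 76) (nat_lit 14736737211) (nat_lit 76) (nat_lit 10297133406) (nat_lit 3) (nat_lit 4) (nat_lit 4) (nat_lit 5) (nat_lit 4) (nat_lit 4) (nat_lit 290) (nat_lit 222) (nat_lit 208)))))) (XT.nd (nat_lit 390) (nat_lit 76) (nat_lit 0) (XT.nd (nat_lit 156) (nat_lit 76) (nat_lit 0) (XT.nd (nat_lit 78) (nat_lit 0) (nat_lit 0) (XT.lf (nat_lit 0) (nat_lit 51415631039) (nat_lit 76) (nat_lit 12701065194) (nat_lit 76) (nat_lit 8091700589) (nat_lit 3) (nat_lit 4) (nat_lit 4) (nat_lit 5) (nat_lit 4) (nat_lit 4) (nat_lit 291) (nat_lit 222) (nat_lit 207)) (XT.lf (nat_lit 0) (nat_lit 61420446191) (nat_lit 76) (nat_lit 10581043702) (nat_lit 76) (nat_lit 5814493170) (nat_lit 3) (nat_lit 4) (nat_lit 4) (nat_lit 5) (nat_lit 4) (nat_lit 4) (nat_lit 292) (nat_lit 222) (nat_lit 206))) (XT.nd (nat_lit 78) (nat_lit 76) (nat_lit 0) (XT.lf (nat_lit 0) (nat_lit 72060781531) (nat_lit 76) (nat_lit 8364109645) (nat_lit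 76) (nat_lit 3452016588) (nat_lit 3) (nat_lit 4) (nat_lit 4) (nat_lit 5) (nat_lit 4) (nat_lit 4) (nat_lit 293) (nat_lit 222) (nat_lit 205)) (XT.nd (nat_lit 78) (nat_lit 76) (nat_lit 0) (XT.lf (nat_lit 0) (nat_lit 83399690896) (nat_lit 76) (nat_lit 6037125635) (nat_lit 76) (nat_lit 990270982) (nat_lit 3) (nat_lit 4) (nat_lit 4) (nat_lit 5) (nat_lit 4) (nat_lit 4) (nat_lit 294) (nat_lit 222) (nat_lit 204)) (XT.lf (nat_lit 0) (nat_lit 1534591253) (nat_lit 152) (nat_lit 2025721839) (nat_lit 76) (nat_lit 93943787526) (nat_lit 2) (nat_lit 5) (nat_lit 4) (nat_lit 5) (nat_lit 3) (nat_lit 4) (nat_lit 295) (nat_lit 222) (nat_lit 203))))) (XT.nd (nat_lit 156) (nat_lit 0) (nat_lit 0) (XT.nd (nat_lit 78) (nat_lit 0) (nat_lit 0) (XT.lf (nat_lit 0) (nat_lit 3332623745) (nat_lit 76) (nat_lit 872153817) (nat_lit 152) (nat_lit 100942876858) (nat_lit 1) (nat_lit 5) (nat_lit 2) (nat_lit 5) (nat_lit 3) (nat_lit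 4) (nat_lit 296) (nat_lit 222) (nat_lit 202)) (XT.lf (nat_lit 0) (nat_lit 7084326717) (nat_lit 152) (nat_lit 104371621785) (nat_lit 0) (nat_lit 1947042566) (nat_lit 1) (nat_lit 5) (nat_lit 3) (nat_lit 4) (nat_lit 1) (nat_lit 4) (nat_lit 297) (nat_lit 222) (nat_lit 201))) (XT.nd (nat_lit 78) (nat_lit 0) (nat_lit 0) (XT.lf (nat_lit 0) (nat_lit 10142438681) (nat_lit 152) (nat_lit 107268168016) (nat_lit 0) (nat_lit 4910817580) (nat_lit 1) (nat_lit 5) (nat_lit 3) (nat_lit 4) (nat_lit 1) (nat_lit 4) (nat_lit 298) (nat_lit 222) (nat_lit 200)) (XT.nd (nat_lit 78) (nat_lit 0) (nat_lit 0) (XT.lf (nat_lit 0) (nat_lit 13383618834) (nat_lit 152) (nat_lit 110508217322) (nat_lit 0) (nat_lit 8064648706) (nat_lit 1) (nat_lit 5) (nat_lit 3) (nat_lit 4) (nat_lit 1) (nat_lit 4) (nat_lit 299) (nat_lit 222) (nat_lit 199)) (XT.lf (nat_lit 0) (nat_lit 16827074168) (nat_lit 152) (nat_lit 114110969995) (nat_lit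 0) (nat_lit 11427225311) (nat_lit 1) (nat_lit 5) (nat_lit 3) (nat_lit 4) (nat_lit 1) (nat_lit 4) (nat_lit 300) (nat_lit 222) (nat_lit 198))))))))
noncomputable def xc17 : XT := (XT.nd (nat_lit 1404) (nat_lit 0) (nat_lit 0) (XT.nd (nat_lit 702) (nat_lit 0) (nat_lit 0) (XT.nd (nat_lit 312) (nat_lit 0) (nat_lit 0) (XT.nd (nat_lit 156) (nat_lit 0) (nat_lit 0) (XT.nd (nat_lit 78) (nat_lit 0) (nat_lit 0) (XT.lf (nat_lit 0) (nat_lit 20493210346) (nat_lit 152) (nat_lit 118097775681) (nat_lit 0) (nat_lit 15018473777) (nat_lit 1) (nat_lit 5) (nat_lit 3) (nat_lit 4) (nat_lit 1) (nat_lit 4) (nat_lit 301) (nat_lit 222) (nat_lit 197)) (XT.lf (nat_lit 0) (nat_lit 24403752619) (nat_lit 152) (nat_lit 122492259895) (nat_lit 0) (nat_lit 18859675576) (nat_lit 1) (nat_lit 5) (nat_lit 3) (nat_lit 4) (nat_lit 1) (nat_lit 4) (nat_lit 302) (nat_lit 222) (nat_lit 196))) (XT.nd (nat_lit 78) (nat_lit 0) (nat_lit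 0) (XT.lf (nat_lit 0) (nat_lit 28581874570) (nat_lit 152) (nat_lit 127320464024) (nat_lit 0) (nat_lit 22973593385) (nat_lit 1) (nat_lit 5) (nat_lit 3) (nat_lit 4) (nat_lit 1) (nat_lit 4) (nat_lit 303) (nat_lit 222) (nat_lit 195)) (XT.lf (nat_lit 0) (nat_lit 33052335441) (nat_lit 152) (nat_lit 132610999649) (nat_lit 0) (nat_lit 27384605976) (nat_lit 1) (nat_lit 5) (nat_lit 3) (nat_lit 4) (nat_lit 1) (nat_lit 4) (nat_lit 304) (nat_lit 222) (nat_lit 194)))) (XT.nd (nat_lit 156) (nat_lit 0) (nat_lit 0) (XT.nd (nat_lit 78) (nat_lit 0) (nat_lit 0) (XT.lf (nat_lit 0) (nat_lit 37841626852) (nat_lit 152) (nat_lit 138395218092) (nat_lit 0) (nat_lit 32118852683) (nat_lit 1) (nat_lit 5) (nat_lit 3) (nat_lit 4) (nat_lit 1) (nat_lit 4) (nat_lit 305) (nat_lit 222) (nat_lit 193)) (XT.lf (nat_lit 0) (nat_lit 42978129789) (nat_lit 152) (nat_lit 144707396203) (nat_lit 0) (nat_lit 37204388301) (nat_lit 1)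 (nat_lit 5) (nat_lit 3) (nat_lit 4) (nat_lit 1) (nat_lit 4) (nat_lit 306) (nat_lit 222) (nat_lit 192))) (XT.nd (nat_lit 78) (nat_lit 0) (nat_lit 0) (XT.lf (nat_lit 0) (nat_lit 48492282787) (nat_lit 152) (nat_lit 151584939482) (nat_lit 0) (nat_lit 42671349338) (nat_lit 1) (nat_lit 5) (nat_lit 3) (nat_lit 4) (nat_lit 1) (nat_lit 4) (nat_lit 307) (nat_lit 222) (nat_lit 191)) (XT.nd (nat_lit 78) (nat_lit 0) (nat_lit 0) (XT.lf (nat_lit 0) (nat_lit 54416762310) (nat_lit 152) (nat_lit 159068603741) (nat_lit 0) (nat_lit 48552132600) (nat_lit 1) (nat_lit 5) (nat_lit 3) (nat_lit 4) (nat_lit 1) (nat_lit 4) (nat_lit 308) (nat_lit 222) (nat_lit 190)) (XT.lf (nat_lit 0) (nat_lit 60786676383) (nat_lit 152) (nat_lit 167202736619) (nat_lit 0) (nat_lit 54881587173) (nat_lit 1) (nat_lit 5) (nat_lit 3) (nat_lit 4) (nat_lit 1) (nat_lit 4) (nat_lit 309) (nat_lit 222) (nat_lit 189)))))) (XT.nd (nat_lit 312)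 (nat_lit 0) (nat_lit 0) (XT.nd (nat_lit 156) (nat_lit 0) (nat_lit 0) (XT.nd (nat_lit 78) (nat_lit 0) (nat_lit 0) (XT.lf (nat_lit 0) (nat_lit 67639772647) (nat_lit 152) (nat_lit 176035540387) (nat_lit 0) (nat_lit 61697220936) (nat_lit 1) (nat_lit 5) (nat_lit 3) (nat_lit 4) (nat_lit 1) (nat_lit 4) (nat_lit 310) (nat_lit 222) (nat_lit 188)) (XT.lf (nat_lit 0) (nat_lit 75016662040) (nat_lit 152) (nat_lit 185619357584) (nat_lit 0) (nat_lit 69039422829) (nat_lit 1) (nat_lit 5) (nat_lit 3) (nat_lit 4) (nat_lit 1) (nat_lit 4) (nat_lit 311) (nat_lit 222) (nat_lit 187))) (XT.nd (nat_lit 78) (nat_lit 0) (nat_lit 0) (XT.lf (nat_lit 0) (nat_lit 82961059465) (nat_lit 152) (nat_lit 196010981202) (nat_lit 0) (nat_lit 76951702198) (nat_lit 1) (nat_lit 5) (nat_lit 3) (nat_lit 4) (nat_lit 1) (nat_lit 4) (nat_lit 312) (nat_lit 222) (nat_lit 186)) (XT.lf (nat_lit 0) (nat_lit 91520042831) (nat_lit 152) (nat_lit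 207271991232) (nat_lit 0) (nat_lit 85480946623) (nat_lit 1) (nat_lit 5) (nat_lit 3) (nat_lit 4) (nat_lit 1) (nat_lit 4) (nat_lit 313) (nat_lit 222) (nat_lit 185)))) (XT.nd (nat_lit 156) (nat_lit 0) (nat_lit 0) (XT.nd (nat_lit 78) (nat_lit 0) (nat_lit 0) (XT.lf (nat_lit 0) (nat_lit 100744332040) (nat_lit 152) (nat_lit 219469119586) (nat_lit 0) (nat_lit 94677699776) (nat_lit 1) (nat_lit 5) (nat_lit 3) (nat_lit 4) (nat_lit 1) (nat_lit 4) (nat_lit 314) (nat_lit 222) (nat_lit 184)) (XT.lf (nat_lit 0) (nat_lit 110688589546) (nat_lit 152) (nat_lit 232674645543) (nat_lit 0) (nat_lit 104596460933) (nat_lit 1) (nat_lit 5) (nat_lit 3) (nat_lit 4) (nat_lit 1) (nat_lit 4) (nat_lit 315) (nat_lit 222) (nat_lit 183))) (XT.nd (nat_lit 78) (nat_lit 0) (nat_lit 0) (XT.lf (nat_lit 0) (nat_lit 121411744283) (nat_lit 152) (nat_lit 246966824071) (nat_lit 0) (nat_lit 115296007940) (nat_lit 1) (nat_lit 5) (nat_lit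 3) (nat_lit 4) (nat_lit 1) (nat_lit 4) (nat_lit 316) (nat_lit 222) (nat_lit 182)) (XT.nd (nat_lit 78) (nat_lit 0) (nat_lit 0) (XT.lf (nat_lit 0) (nat_lit 132977340871) (nat_lit 152) (nat_lit 262430349561) (nat_lit 0) (nat_lit 126839745519) (nat_lit 1) (nat_lit 5) (nat_lit 3) (nat_lit 4) (nat_lit 1) (nat_lit 4) (nat_lit 317) (nat_lit 222) (nat_lit 181)) (XT.lf (nat_lit 0) (nat_lit 145453916180) (nat_lit 152) (nat_lit 279156857721) (nat_lit 0) (nat_lit 139296081005) (nat_lit 1) (nat_lit 5) (nat_lit 3) (nat_lit 4) (nat_lit 1) (nat_lit 4) (nat_lit 318) (nat_lit 222) (nat_lit 180))))))) (XT.nd (nat_lit 34164) (nat_lit 0) (nat_lit 228) (XT.nd (nat_lit 312) (nat_lit 0) (nat_lit 0) (XT.nd (nat_lit 156) (nat_lit 0) (nat_lit 0) (XT.nd (nat_lit 78) (nat_lit 0) (nat_lit 0) (XT.lf (nat_lit 0) (nat_lit 158915405469) (nat_lit 152) (nat_lit 297245468599) (nat_lit 0) (nat_lit 152738829717) (nat_lit 1)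 (nat_lit 5) (nat_lit 3) (nat_lit 4) (nat_lit 1) (nat_lit 4) (nat_lit 319) (nat_lit 222) (nat_lit 179)) (XT.lf (nat_lit 0) (nat_lit 173441580529) (nat_lit 152) (nat_lit 316803373962) (nat_lit 0) (nat_lit 167247652390) (nat_lit 1) (nat_lit 5) (nat_lit 3) (nat_lit 4) (nat_lit 1) (nat_lit 4) (nat_lit 320) (nat_lit 222) (nat_lit 178))) (XT.nd (nat_lit 78) (nat_lit 0) (nat_lit 0) (XT.lf (nat_lit 0) (nat_lit 189118522395) (nat_lit 152) (nat_lit 337946472510) (nat_lit 0) (nat_lit 182908527232) (nat_lit 1) (nat_lit 5) (nat_lit 3) (nat_lit 4) (nat_lit 1) (nat_lit 4) (nat_lit 321) (nat_lit 222) (nat_lit 177)) (XT.lf (nat_lit 0) (nat_lit 206039131464) (nat_lit 152) (nat_lit 360800056677) (nat_lit 0) (nat_lit 199814259427) (nat_lit 1) (nat_lit 5) (nat_lit 3) (nat_lit 4) (nat_lit 1) (nat_lit 4) (nat_lit 322) (nat_lit 222) (nat_lit 176)))) (XT.nd (nat_lit 156) (nat_lit 0) (nat_lit 0) (XT.nd (nat_lit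 78) (nat_lit 0) (nat_lit 0) (XT.lf (nat_lit 0) (nat_lit 224303678013) (nat_lit 152) (nat_lit 385499555112) (nat_lit 0) (nat_lit 218065031091) (nat_lit 1) (nat_lit 5) (nat_lit 3) (nat_lit 4) (nat_lit 1) (nat_lit 4) (nat_lit 323) (nat_lit 222) (nat_lit 175)) (XT.lf (nat_lit 0) (nat_lit 244020396390) (nat_lit 152) (nat_lit 412191335212) (nat_lit 0) (nat_lit 237768994947) (nat_lit 1) (nat_lit 5) (nat_lit 3) (nat_lit 4) (nat_lit 1) (nat_lit 4) (nat_lit 324) (nat_lit 222) (nat_lit 174))) (XT.nd (nat_lit 33540) (nat_lit 0) (nat_lit 456) (XT.lf (nat_lit 0) (nat_lit 265306126409) (nat_lit 152) (nat_lit 441033570489) (nat_lit 0) (nat_lit 259042915224) (nat_lit 1) (nat_lit 5) (nat_lit 3) (nat_lit 4) (nat_lit 1) (nat_lit 4) (nat_lit 325) (nat_lit 222) (nat_lit 173)) (XT.nd (nat_lit 78) (nat_lit 0) (nat_lit 0) (XT.lf (nat_lit 0) (nat_lit 47407738) (nat_lit 152) (nat_lit 10778834877) (nat_lit 0) (nat_lit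 47407738) (nat_lit 7) (nat_lit 5) (nat_lit 9) (nat_lit 4) (nat_lit 7) (nat_lit 4) (nat_lit 274) (nat_lit 223) (nat_lit 223)) (XT.lf (nat_lit 0) (nat_lit 5273532075) (nat_lit 152) (nat_lit 13207308609) (nat_lit 0) (nat_lit 4708096607) (nat_lit 7) (nat_lit 5) (nat_lit 9) (nat_lit 4) (nat_lit 7) (nat_lit 4) (nat_lit 275) (nat_lit 223) (nat_lit 222)))))) (XT.nd (nat_lit 390) (nat_lit 0) (nat_lit 0) (XT.nd (nat_lit 156) (nat_lit 152) (nat_lit 0) (XT.nd (nat_lit 78) (nat_lit 76) (nat_lit 0) (XT.lf (nat_lit 0) (nat_lit 10584639122) (nat_lit 152) (nat_lit 4680150344) (nat_lit 0) (nat_lit 9495652295) (nat_lit 7) (nat_lit 5) (nat_lit 9) (nat_lit 4) (nat_lit 7) (nat_lit 4) (nat_lit 276) (nat_lit 223) (nat_lit 221)) (XT.lf (nat_lit 0) (nat_lit 4209052306) (nat_lit 76) (nat_lit 11916272640) (nat_lit 76) (nat_lit 10342516036) (nat_lit 6) (nat_lit 4) (nat_lit 7) (nat_lit 5) (nat_lit 7) (nat_lit 4) (nat_lit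 277) (nat_lit 223) (nat_lit 220))) (XT.nd (nat_lit 78) (nat_lit 152) (nat_lit 0) (XT.lf (nat_lit 0) (nat_lit 13541440571) (nat_lit 76) (nat_lit 8400867779) (nat_lit 76) (nat_lit 6378250271) (nat_lit 6) (nat_lit 4) (nat_lit 7) (nat_lit 5) (nat_lit 7) (nat_lit 4) (nat_lit 278) (nat_lit 223) (nat_lit 219)) (XT.nd (nat_lit 78) (nat_lit 152) (nat_lit 0) (XT.lf (nat_lit 0) (nat_lit 23217570584) (nat_lit 76) (nat_lit 4777003467) (nat_lit 76) (nat_lit 2338774010) (nat_lit 6) (nat_lit 4) (nat_lit 7) (nat_lit 5) (nat_lit 7) (nat_lit 4) (nat_lit 279) (nat_lit 223) (nat_lit 218)) (XT.lf (nat_lit 0) (nat_lit 773294994) (nat_lit 76) (nat_lit 981022239) (nat_lit 152) (nat_lit 30761811006) (nat_lit 4) (nat_lit 5) (nat_lit 5) (nat_lit 5) (nat_lit 6) (nat_lit 4) (nat_lit 280) (nat_lit 223) (nat_lit 217))))) (XT.nd (nat_lit 156) (nat_lit 0) (nat_lit 0) (XT.nd (nat_lit 78) (nat_lit 0) (nat_lit 0) (XT.lf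 (nat_lit 0) (nat_lit 6059767696) (nat_lit 152) (nat_lit 25781998854) (nat_lit 0) (nat_lit 3031790941) (nat_lit 4) (nat_lit 5) (nat_lit 6) (nat_lit 4) (nat_lit 4) (nat_lit 4) (nat_lit 281) (nat_lit 223) (nat_lit 216)) (XT.lf (nat_lit 0) (nat_lit 10532752315) (nat_lit 152) (nat_lit 19705378738) (nat_lit 0) (nat_lit 7190560165) (nat_lit 4) (nat_lit 5) (nat_lit 6) (nat_lit 4) (nat_lit 4) (nat_lit 4) (nat_lit 282) (nat_lit 223) (nat_lit 215))) (XT.nd (nat_lit 78) (nat_lit 0) (nat_lit 0) (XT.lf (nat_lit 0) (nat_lit 15184461158) (nat_lit 152) (nat_lit 13461646793) (nat_lit 0) (nat_lit 11551328828) (nat_lit 4) (nat_lit 5) (nat_lit 6) (nat_lit 4) (nat_lit 4) (nat_lit 4) (nat_lit 283) (nat_lit 223) (nat_lit 214)) (XT.nd (nat_lit 78) (nat_lit 0) (nat_lit 0) (XT.lf (nat_lit 0) (nat_lit 20042459909) (nat_lit 152) (nat_lit 7013803125) (nat_lit 0) (nat_lit 16139938523) (nat_lit 4) (nat_lit 5) (nat_lit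 6) (nat_lit 4) (nat_lit 4) (nat_lit 4) (nat_lit 284) (nat_lit 223) (nat_lit 213)) (XT.lf (nat_lit 0) (nat_lit 25135536707) (nat_lit 152) (nat_lit 323638290) (nat_lit 0) (nat_lit 20983581010) (nat_lit 4) (nat_lit 5) (nat_lit 6) (nat_lit 4) (nat_lit 4) (nat_lit 4) (nat_lit 285) (nat_lit 223) (nat_lit 212))))))))
noncomputable def xc18 : XT := (XT.nd (nat_lit 1404) (nat_lit 0) (nat_lit 0) (XT.nd (nat_lit 702) (nat_lit 152) (nat_lit 0) (XT.nd (nat_lit 312) (nat_lit 0) (nat_lit 0) (XT.nd (nat_lit 156) (nat_lit 0) (nat_lit 0) (XT.nd (nat_lit 78) (nat_lit 0) (nat_lit 0) (XT.lf (nat_lit 0) (nat_lit 6868322341) (nat_lit 76) (nat_lit 23732784167) (nat_lit 76) (nat_lit 19349870775) (nat_lit 3) (nat_lit 4) (nat_lit 4) (nat_lit 5) (nat_lit 4) (nat_lit 4) (nat_lit 286) (nat_lit 223) (nat_lit 211)) (XT.lf (nat_lit 0) (nat_lit 14404956032) (nat_lit 76) (nat_lit 21969166837) (nat_lit 76) (nat_lit 17372403726)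 (nat_lit 3) (nat_lit 4) (nat_lit 4) (nat_lit 5) (nat_lit 4) (nat_lit 4) (nat_lit 287) (nat_lit 223) (nat_lit 210))) (XT.nd (nat_lit 78) (nat_lit 0) (nat_lit 0) (XT.lf (nat_lit 0) (nat_lit 22320223373) (nat_lit 76) (nat_lit 20163352911) (nat_lit 76) (nat_lit 15368580802) (nat_lit 3) (nat_lit 4) (nat_lit 4) (nat_lit 5) (nat_lit 4) (nat_lit 4) (nat_lit 288) (nat_lit 223) (nat_lit 209)) (XT.lf (nat_lit 0) (nat_lit 30661029650) (nat_lit 76) (nat_lit 18304641271) (nat_lit 76) (nat_lit 13326527497) (nat_lit 3) (nat_lit 4) (nat_lit 4) (nat_lit 5) (nat_lit 4) (nat_lit 4) (nat_lit 289) (nat_lit 223) (nat_lit 208)))) (XT.nd (nat_lit 156) (nat_lit 0) (nat_lit 0) (XT.nd (nat_lit 78) (nat_lit 0) (nat_lit 0) (XT.lf (nat_lit 0) (nat_lit 39476801864) (nat_lit 76) (nat_lit 16382017329) (nat_lit 76) (nat_lit 11234142754) (nat_lit 3) (nat_lit 4) (nat_lit 4) (nat_lit 5) (nat_lit 4) (nat_lit 4) (nat_lit 290)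 (nat_lit 223) (nat_lit 207)) (XT.lf (nat_lit 0) (nat_lit 48819781629) (nat_lit 76) (nat_lit 14384087757) (nat_lit 76) (nat_lit 9079027256) (nat_lit 3) (nat_lit 4) (nat_lit 4) (nat_lit 5) (nat_lit 4) (nat_lit 4) (nat_lit 291) (nat_lit 223) (nat_lit 206))) (XT.nd (nat_lit 78) (nat_lit 0) (nat_lit 0) (XT.lf (nat_lit 0) (nat_lit 58745334749) (nat_lit 76) (nat_lit 12299012974) (nat_lit 76) (nat_lit 6848409948) (nat_lit 3) (nat_lit 4) (nat_lit 4) (nat_lit 5) (nat_lit 4) (nat_lit 4) (nat_lit 292) (nat_lit 223) (nat_lit 205)) (XT.nd (nat_lit 78) (nat_lit 0) (nat_lit 0) (XT.lf (nat_lit 0) (nat_lit 69312279319) (nat_lit 76) (nat_lit 10114436980) (nat_lit 76) (nat_lit 4529072358) (nat_lit 3) (nat_lit 4) (nat_lit 4) (nat_lit 5) (nat_lit 4) (nat_lit 4) (nat_lit 293) (nat_lit 223) (nat_lit 204)) (XT.lf (nat_lit 0) (nat_lit 80583234268) (nat_lit 76) (nat_lit 7817414141) (nat_lit 76) (nat_lit 2107270261)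 (nat_lit 3) (nat_lit 4) (nat_lit 4) (nat_lit 5) (nat_lit 4) (nat_lit 4) (nat_lit 294) (nat_lit 223) (nat_lit 203)))))) (XT.nd (nat_lit 312) (nat_lit 0) (nat_lit 0) (XT.nd (nat_lit 156) (nat_lit 0) (nat_lit 0) (XT.nd (nat_lit 78) (nat_lit 76) (nat_lit 0) (XT.lf (nat_lit 0) (nat_lit 417541937) (nat_lit 152) (nat_lit 4969719255) (nat_lit 76) (nat_lit 92200377229) (nat_lit 2) (nat_lit 5) (nat_lit 4) (nat_lit 5) (nat_lit 3) (nat_lit 4) (nat_lit 295) (nat_lit 223) (nat_lit 202)) (XT.lf (nat_lit 0) (nat_lit 229923200) (nat_lit 76) (nat_lit 2776214130) (nat_lit 152) (nat_lit 102229175756) (nat_lit 1) (nat_lit 5) (nat_lit 2) (nat_lit 5) (nat_lit 3) (nat_lit 4) (nat_lit 296) (nat_lit 223) (nat_lit 201))) (XT.nd (nat_lit 78) (nat_lit 0) (nat_lit 0) (XT.lf (nat_lit 0) (nat_lit 5823984138) (nat_lit 152) (nat_lit 107590292569) (nat_lit 0) (nat_lit 79496400) (nat_lit 1) (nat_lit 5) (nat_lit 3) (nat_lit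 4) (nat_lit 1) (nat_lit 4) (nat_lit 297) (nat_lit 223) (nat_lit 200)) (XT.lf (nat_lit 0) (nat_lit 8852489963) (nat_lit 152) (nat_lit 110540578885) (nat_lit 0) (nat_lit 3020653198) (nat_lit 1) (nat_lit 5) (nat_lit 3) (nat_lit 4) (nat_lit 1) (nat_lit 4) (nat_lit 298) (nat_lit 223) (nat_lit 199)))) (XT.nd (nat_lit 156) (nat_lit 0) (nat_lit 0) (XT.nd (nat_lit 78) (nat_lit 0) (nat_lit 0) (XT.lf (nat_lit 0) (nat_lit 12066257025) (nat_lit 152) (nat_lit 113830387529) (nat_lit 0) (nat_lit 6153541530) (nat_lit 1) (nat_lit 5) (nat_lit 3) (nat_lit 4) (nat_lit 1) (nat_lit 4) (nat_lit 299) (nat_lit 223) (nat_lit 198)) (XT.lf (nat_lit 0) (nat_lit 15484329867) (nat_lit 152) (nat_lit 117479213663) (nat_lit 0) (nat_lit 9496726661) (nat_lit 1) (nat_lit 5) (nat_lit 3) (nat_lit 4) (nat_lit 1) (nat_lit 4) (nat_lit 300) (nat_lit 223) (nat_lit 197))) (XT.nd (nat_lit 78) (nat_lit 0) (nat_lit 0) (XT.lf (nat_lit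 0) (nat_lit 19126963738) (nat_lit 152) (nat_lit 121508679961) (nat_lit 0) (nat_lit 13070020058) (nat_lit 1) (nat_lit 5) (nat_lit 3) (nat_lit 4) (nat_lit 1) (nat_lit 4) (nat_lit 301) (nat_lit 223) (nat_lit 196)) (XT.nd (nat_lit 78) (nat_lit 0) (nat_lit 0) (XT.lf (nat_lit 0) (nat_lit 23015744614) (nat_lit 152) (nat_lit 125942664741) (nat_lit 0) (nat_lit 16894596792) (nat_lit 1) (nat_lit 5) (nat_lit 3) (nat_lit 4) (nat_lit 1) (nat_lit 4) (nat_lit 302) (nat_lit 223) (nat_lit 195)) (XT.lf (nat_lit 0) (nat_lit 27173717125) (nat_lit 152) (nat_lit 130807443469) (nat_lit 0) (nat_lit 20993121023) (nat_lit 1) (nat_lit 5) (nat_lit 3) (nat_lit 4) (nat_lit 1) (nat_lit 4) (nat_lit 303) (nat_lit 223) (nat_lit 194))))))) (XT.nd (nat_lit 702) (nat_lit 0) (nat_lit 0) (XT.nd (nat_lit 312) (nat_lit 0) (nat_lit 0) (XT.nd (nat_lit 156) (nat_lit 0) (nat_lit 0) (XT.nd (nat_lit 78) (nat_lit 0) (nat_lit 0) (XT.lf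 (nat_lit 0) (nat_lit 31625521107) (nat_lit 152) (nat_lit 136131844464) (nat_lit 0) (nat_lit 25389880300) (nat_lit 1) (nat_lit 5) (nat_lit 3) (nat_lit 4) (nat_lit 1) (nat_lit 4) (nat_lit 304) (nat_lit 223) (nat_lit 193)) (XT.lf (nat_lit 0) (nat_lit 36397537620) (nat_lit 152) (nat_lit 141947419730) (nat_lit 0) (nat_lit 30110929495) (nat_lit 1) (nat_lit 5) (nat_lit 3) (nat_lit 4) (nat_lit 1) (nat_lit 4) (nat_lit 305) (nat_lit 223) (nat_lit 192))) (XT.nd (nat_lit 78) (nat_lit 0) (nat_lit 0) (XT.lf (nat_lit 0) (nat_lit 41518045281) (nat_lit 152) (nat_lit 148288631937) (nat_lit 0) (nat_lit 35184245195) (nat_lit 1) (nat_lit 5) (nat_lit 3) (nat_lit 4) (nat_lit 1) (nat_lit 4) (nat_lit 306) (nat_lit 223) (nat_lit 191)) (XT.lf (nat_lit 0) (nat_lit 47017387840) (nat_lit 152) (nat_lit 155193058637) (nat_lit 0) (nat_lit 40639891493) (nat_lit 1) (nat_lit 5) (nat_lit 3) (nat_lit 4) (nat_lit 1) (nat_lit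 4) (nat_lit 307) (nat_lit 223) (nat_lit 190)))) (XT.nd (nat_lit 156) (nat_lit 0) (nat_lit 0) (XT.nd (nat_lit 78) (nat_lit 0) (nat_lit 0) (XT.lf (nat_lit 0) (nat_lit 52928153992) (nat_lit 152) (nat_lit 162701614954) (nat_lit 0) (nat_lit 46510198144) (nat_lit 1) (nat_lit 5) (nat_lit 3) (nat_lit 4) (nat_lit 1) (nat_lit 4) (nat_lit 308) (nat_lit 223) (nat_lit 189)) (XT.lf (nat_lit 0) (nat_lit 59285370500) (nat_lit 152) (nat_lit 170858796033) (nat_lit 0) (nat_lit 52829952151) (nat_lit 1) (nat_lit 5) (nat_lit 3) (nat_lit 4) (nat_lit 1) (nat_lit 4) (nat_lit 309) (nat_lit 223) (nat_lit 188))) (XT.nd (nat_lit 78) (nat_lit 0) (nat_lit 0) (XT.lf (nat_lit 0) (nat_lit 66126709758) (nat_lit 152) (nat_lit 179712940728) (nat_lit 0) (nat_lit 59636603909) (nat_lit 1) (nat_lit 5) (nat_lit 3) (nat_lit 4) (nat_lit 1) (nat_lit 4) (nat_lit 310) (nat_lit 223) (nat_lit 187)) (XT.nd (nat_lit 78) (nat_lit 0) (nat_lit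 0) (XT.lf (nat_lit 0) (nat_lit 73492713036) (nat_lit 152) (nat_lit 189316518043) (nat_lit 0) (nat_lit 66970489131) (nat_lit 1) (nat_lit 5) (nat_lit 3) (nat_lit 4) (nat_lit 1) (nat_lit 4) (nat_lit 311) (nat_lit 223) (nat_lit 186)) (XT.lf (nat_lit 0) (nat_lit 81427030724) (nat_lit 152) (nat_lit 199726438066) (nat_lit 0) (nat_lit 74875067878) (nat_lit 1) (nat_lit 5) (nat_lit 3) (nat_lit 4) (nat_lit 1) (nat_lit 4) (nat_lit 312) (nat_lit 223) (nat_lit 185)))))) (XT.nd (nat_lit 390) (nat_lit 0) (nat_lit 0) (XT.nd (nat_lit 156) (nat_lit 0) (nat_lit 0) (XT.nd (nat_lit 78) (nat_lit 0) (nat_lit 0) (XT.lf (nat_lit 0) (nat_lit 89976681000) (nat_lit 152) (nat_lit 211004389212) (nat_lit 0) (nat_lit 83397182098) (nat_lit 1) (nat_lit 5) (nat_lit 3) (nat_lit 4) (nat_lit 1) (nat_lit 4) (nat_lit 313) (nat_lit 223) (nat_lit 184)) (XT.lf (nat_lit 0) (nat_lit 99192328459) (nat_lit 152) (nat_lit 223217203785)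 (nat_lit 0) (nat_lit 92587333209) (nat_lit 1) (nat_lit 5) (nat_lit 3) (nat_lit 4) (nat_lit 1) (nat_lit 4) (nat_lit 314) (nat_lit 223) (nat_lit 183))) (XT.nd (nat_lit 78) (nat_lit 0) (nat_lit 0) (XT.lf (nat_lit 0) (nat_lit 109128584345) (nat_lit 152) (nat_lit 236437254018) (nat_lit 0) (nat_lit 102499981365) (nat_lit 1) (nat_lit 5) (nat_lit 3) (nat_lit 4) (nat_lit 1) (nat_lit 4) (nat_lit 315) (nat_lit 223) (nat_lit 182)) (XT.nd (nat_lit 78) (nat_lit 0) (nat_lit 0) (XT.lf (nat_lit 0) (nat_lit 119844330175) (nat_lit 152) (nat_lit 250742880950) (nat_lit 0) (nat_lit 113193868186) (nat_lit 1) (nat_lit 5) (nat_lit 3) (nat_lit 4) (nat_lit 1) (nat_lit 4) (nat_lit 316) (nat_lit 223) (nat_lit 181)) (XT.lf (nat_lit 0) (nat_lit 131403066664) (nat_lit 152) (nat_lit 266218858666) (nat_lit 0) (nat_lit 124732364851) (nat_lit 1) (nat_lit 5) (nat_lit 3) (nat_lit 4) (nat_lit 1) (nat_lit 4) (nat_lit 317) (nat_lit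 223) (nat_lit 180))))) (XT.nd (nat_lit 156) (nat_lit 0) (nat_lit 0) (XT.nd (nat_lit 78) (nat_lit 0) (nat_lit 0) (XT.lf (nat_lit 0) (nat_lit 143873290028) (nat_lit 152) (nat_lit 282956896665) (nat_lit 0) (nat_lit 137183847638) (nat_lit 1) (nat_lit 5) (nat_lit 3) (nat_lit 4) (nat_lit 1) (nat_lit 4) (nat_lit 318) (nat_lit 223) (nat_lit 179)) (XT.lf (nat_lit 0) (nat_lit 157328897888) (nat_lit 152) (nat_lit 301056183319) (nat_lit 0) (nat_lit 150622103112) (nat_lit 1) (nat_lit 5) (nat_lit 3) (nat_lit 4) (nat_lit 1) (nat_lit 4) (nat_lit 319) (nat_lit 223) (nat_lit 178))) (XT.nd (nat_lit 78) (nat_lit 0) (nat_lit 0) (XT.lf (nat_lit 0) (nat_lit 171849627179) (nat_lit 152) (nat_lit 320623973661) (nat_lit 0) (nat_lit 165126765379) (nat_lit 1) (nat_lit 5) (nat_lit 3) (nat_lit 4) (nat_lit 1) (nat_lit 4) (nat_lit 320) (nat_lit 223) (nat_lit 177)) (XT.nd (nat_lit 78) (nat_lit 0) (nat_lit 0) (XT.lf (nat_lit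 0) (nat_lit 187521526667) (nat_lit 152) (nat_lit 341776224967) (nat_lit 0) (nat_lit 180783787993) (nat_lit 1) (nat_lit 5) (nat_lit 3) (nat_lit 4) (nat_lit 1) (nat_lit 4) (nat_lit 321) (nat_lit 223) (nat_lit 176)) (XT.lf (nat_lit 0) (nat_lit 204437466868) (nat_lit 152) (nat_lit 364638283910) (nat_lit 0) (nat_lit 197685953310) (nat_lit 1) (nat_lit 5) (nat_lit 3) (nat_lit 4) (nat_lit 1) (nat_lit 4) (nat_lit 322) (nat_lit 223) (nat_lit 175))))))))
noncomputable def xc19 : XT := (XT.nd (nat_lit 34710) (nat_lit 0) (nat_lit 0) (XT.nd (nat_lit 34008) (nat_lit 0) (nat_lit 152) (XT.nd (nat_lit 33618) (nat_lit 0) (nat_lit 380) (XT.nd (nat_lit 156) (nat_lit 0) (nat_lit 0) (XT.nd (nat_lit 78) (nat_lit 0) (nat_lit 0) (XT.lf (nat_lit 0) (nat_lit 222697690390) (nat_lit 152) (nat_lit 389345629359) (nat_lit 0) (nat_lit 215933422310) (nat_lit 1) (nat_lit 5) (nat_lit 3) (nat_lit 4) (nat_lit 1) (nat_lit 4)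 (nat_lit 323) (nat_lit 223) (nat_lit 174)) (XT.lf (nat_lit 0) (nat_lit 242410405966) (nat_lit 152) (nat_lit 416044675213) (nat_lit 0) (nat_lit 235634328143) (nat_lit 1) (nat_lit 5) (nat_lit 3) (nat_lit 4) (nat_lit 1) (nat_lit 4) (nat_lit 324) (nat_lit 223) (nat_lit 173))) (XT.nd (nat_lit 33384) (nat_lit 0) (nat_lit 608) (XT.lf (nat_lit 0) (nat_lit 263692429687) (nat_lit 152) (nat_lit 444893638040) (nat_lit 0) (nat_lit 256905416917) (nat_lit 1) (nat_lit 5) (nat_lit 3) (nat_lit 4) (nat_lit 1) (nat_lit 4) (nat_lit 325) (nat_lit 223) (nat_lit 172)) (XT.lf (nat_lit 0) (nat_lit 521345575) (nat_lit 76) (nat_lit 4535076214) (nat_lit 76) (nat_lit 4535076214) (nat_lit 9) (nat_lit 4) (nat_lit 10) (nat_lit 5) (nat_lit 10) (nat_lit 4) (nat_lit 272) (nat_lit 224) (nat_lit 224)))) (XT.nd (nat_lit 156) (nat_lit 152) (nat_lit 0) (XT.nd (nat_lit 78) (nat_lit 76) (nat_lit 0) (XT.lf (nat_lit 0) (nat_lit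 11209399693) (nat_lit 76) (nat_lit 4922032827) (nat_lit 76) (nat_lit 4280829007) (nat_lit 9) (nat_lit 4) (nat_lit 10) (nat_lit 5) (nat_lit 10) (nat_lit 4) (nat_lit 273) (nat_lit 224) (nat_lit 223)) (XT.lf (nat_lit 0) (nat_lit 570129449) (nat_lit 152) (nat_lit 66145689) (nat_lit 76) (nat_lit 21118022686) (nat_lit 8) (nat_lit 5) (nat_lit 10) (nat_lit 5) (nat_lit 9) (nat_lit 4) (nat_lit 274) (nat_lit 224) (nat_lit 222))) (XT.nd (nat_lit 78) (nat_lit 76) (nat_lit 0) (XT.lf (nat_lit 0) (nat_lit 5602295501) (nat_lit 152) (nat_lit 13698540381) (nat_lit 0) (nat_lit 3902638369) (nat_lit 7) (nat_lit 5) (nat_lit 9) (nat_lit 4) (nat_lit 7) (nat_lit 4) (nat_lit 275) (nat_lit 224) (nat_lit 221)) (XT.nd (nat_lit 78) (nat_lit 76) (nat_lit 0) (XT.lf (nat_lit 0) (nat_lit 10787909813) (nat_lit 152) (nat_lit 5390057229) (nat_lit 0) (nat_lit 8603482904) (nat_lit 7) (nat_lit 5) (nat_lit 9) (nat_lit 4) (nat_lit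 7) (nat_lit 4) (nat_lit 276) (nat_lit 224) (nat_lit 220)) (XT.lf (nat_lit 0) (nat_lit 3266500935) (nat_lit 76) (nat_lit 12931181858) (nat_lit 76) (nat_lit 10297894045) (nat_lit 6) (nat_lit 4) (nat_lit 7) (nat_lit 5) (nat_lit 7) (nat_lit 4) (nat_lit 277) (nat_lit 224) (nat_lit 219)))))) (XT.nd (nat_lit 312) (nat_lit 76) (nat_lit 0) (XT.nd (nat_lit 156) (nat_lit 152) (nat_lit 0) (XT.nd (nat_lit 78) (nat_lit 0) (nat_lit 0) (XT.lf (nat_lit 0) (nat_lit 12405211645) (nat_lit 76) (nat_lit 9498840909) (nat_lit 76) (nat_lit 6449941147) (nat_lit 6) (nat_lit 4) (nat_lit 7) (nat_lit 5) (nat_lit 7) (nat_lit 4) (nat_lit 278) (nat_lit 224) (nat_lit 218)) (XT.lf (nat_lit 0) (nat_lit 21902010589) (nat_lit 76) (nat_lit 5951887626) (nat_lit 76) (nat_lit 2518161986) (nat_lit 6) (nat_lit 4) (nat_lit 7) (nat_lit 5) (nat_lit 7) (nat_lit 4) (nat_lit 279) (nat_lit 224) (nat_lit 217))) (XT.nd (nat_lit 78) (nat_lit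 76) (nat_lit 0) (XT.lf (nat_lit 0) (nat_lit 1472069602) (nat_lit 152) (nat_lit 772303212) (nat_lit 76) (nat_lit 30316175280) (nat_lit 5) (nat_lit 5) (nat_lit 7) (nat_lit 5) (nat_lit 6) (nat_lit 4) (nat_lit 280) (nat_lit 224) (nat_lit 216)) (XT.lf (nat_lit 0) (nat_lit 5652133131) (nat_lit 152) (nat_lit 27543890772) (nat_lit 0) (nat_lit 1728350214) (nat_lit 4) (nat_lit 5) (nat_lit 6) (nat_lit 4) (nat_lit 4) (nat_lit 4) (nat_lit 281) (nat_lit 224) (nat_lit 215)))) (XT.nd (nat_lit 156) (nat_lit 76) (nat_lit 0) (XT.nd (nat_lit 78) (nat_lit 0) (nat_lit 0) (XT.lf (nat_lit 0) (nat_lit 10039004987) (nat_lit 152) (nat_lit 21620644589) (nat_lit 0) (nat_lit 5824281891) (nat_lit 4) (nat_lit 5) (nat_lit 6) (nat_lit 4) (nat_lit 4) (nat_lit 4) (nat_lit 282) (nat_lit 224) (nat_lit 214)) (XT.lf (nat_lit 0) (nat_lit 14610979792) (nat_lit 152) (nat_lit 15518925544) (nat_lit 0) (nat_lit 10126867639) (nat_lit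 4) (nat_lit 5) (nat_lit 6) (nat_lit 4) (nat_lit 4) (nat_lit 4) (nat_lit 283) (nat_lit 224) (nat_lit 213))) (XT.nd (nat_lit 78) (nat_lit 76) (nat_lit 0) (XT.lf (nat_lit 0) (nat_lit 19395150729) (nat_lit 152) (nat_lit 9202575302) (nat_lit 0) (nat_lit 14661604265) (nat_lit 4) (nat_lit 5) (nat_lit 6) (nat_lit 4) (nat_lit 4) (nat_lit 4) (nat_lit 284) (nat_lit 224) (nat_lit 212)) (XT.nd (nat_lit 78) (nat_lit 76) (nat_lit 0) (XT.lf (nat_lit 0) (nat_lit 24419868440) (nat_lit 152) (nat_lit 2634163639) (nat_lit 0) (nat_lit 19455364281) (nat_lit 4) (nat_lit 5) (nat_lit 6) (nat_lit 4) (nat_lit 4) (nat_lit 4) (nat_lit 285) (nat_lit 224) (nat_lit 211)) (XT.lf (nat_lit 0) (nat_lit 4364938661) (nat_lit 76) (nat_lit 25418119295) (nat_lit 76) (nat_lit 20239765418) (nat_lit 3) (nat_lit 4) (nat_lit 4) (nat_lit 5) (nat_lit 4) (nat_lit 4) (nat_lit 286) (nat_lit 224) (nat_lit 210))))))) (XT.nd (nat_lit 702)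 (nat_lit 152) (nat_lit 0) (XT.nd (nat_lit 312) (nat_lit 0) (nat_lit 0) (XT.nd (nat_lit 156) (nat_lit 0) (nat_lit 0) (XT.nd (nat_lit 78) (nat_lit 0) (nat_lit 0) (XT.lf (nat_lit 0) (nat_lit 11793737234) (nat_lit 76) (nat_lit 23702046576) (nat_lit 76) (nat_lit 18325683700) (nat_lit 3) (nat_lit 4) (nat_lit 4) (nat_lit 5) (nat_lit 4) (nat_lit 4) (nat_lit 287) (nat_lit 224) (nat_lit 209)) (XT.lf (nat_lit 0) (nat_lit 19609157242) (nat_lit 76) (nat_lit 21940255438) (nat_lit 76) (nat_lit 16380550898) (nat_lit 3) (nat_lit 4) (nat_lit 4) (nat_lit 5) (nat_lit 4) (nat_lit 4) (nat_lit 288) (nat_lit 224) (nat_lit 208))) (XT.nd (nat_lit 78) (nat_lit 0) (nat_lit 0) (XT.lf (nat_lit 0) (nat_lit 27857512286) (nat_lit 76) (nat_lit 20122305639) (nat_lit 76) (nat_lit 14392840298) (nat_lit 3) (nat_lit 4) (nat_lit 4) (nat_lit 5) (nat_lit 4) (nat_lit 4) (nat_lit 289) (nat_lit 224) (nat_lit 207)) (XT.lf (nat_lit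 0) (nat_lit 36587681507) (nat_lit 76) (nat_lit 18237424142) (nat_lit 76) (nat_lit 12350772874) (nat_lit 3) (nat_lit 4) (nat_lit 4) (nat_lit 5) (nat_lit 4) (nat_lit 4) (nat_lit 290) (nat_lit 224) (nat_lit 206)))) (XT.nd (nat_lit 156) (nat_lit 0) (nat_lit 0) (XT.nd (nat_lit 78) (nat_lit 0) (nat_lit 0) (XT.lf (nat_lit 0) (nat_lit 45851399240) (nat_lit 76) (nat_lit 16274441279) (nat_lit 76) (nat_lit 10242247487) (nat_lit 3) (nat_lit 4) (nat_lit 4) (nat_lit 5) (nat_lit 4) (nat_lit 4) (nat_lit 291) (nat_lit 224) (nat_lit 205)) (XT.lf (nat_lit 0) (nat_lit 55703561591) (nat_lit 76) (nat_lit 14221724560) (nat_lit 76) (nat_lit 8054769170) (nat_lit 3) (nat_lit 4) (nat_lit 4) (nat_lit 5) (nat_lit 4) (nat_lit 4) (nat_lit 292) (nat_lit 224) (nat_lit 204))) (XT.nd (nat_lit 78) (nat_lit 0) (nat_lit 0) (XT.lf (nat_lit 0) (nat_lit 66202551745) (nat_lit 76) (nat_lit 12067109736) (nat_lit 76) (nat_lit 5775375090)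 (nat_lit 3) (nat_lit 4) (nat_lit 4) (nat_lit 5) (nat_lit 4) (nat_lit 4) (nat_lit 293) (nat_lit 224) (nat_lit 203)) (XT.nd (nat_lit 78) (nat_lit 0) (nat_lit 0) (XT.lf (nat_lit 0) (nat_lit 77410585938) (nat_lit 76) (nat_lit 9797828720) (nat_lit 76) (nat_lit 3390557726) (nat_lit 3) (nat_lit 4) (nat_lit 4) (nat_lit 5) (nat_lit 4) (nat_lit 4) (nat_lit 294) (nat_lit 224) (nat_lit 202)) (XT.lf (nat_lit 0) (nat_lit 89394082152) (nat_lit 76) (nat_lit 7400433921) (nat_lit 76) (nat_lit 886184826) (nat_lit 3) (nat_lit 4) (nat_lit 4) (nat_lit 5) (nat_lit 4) (nat_lit 4) (nat_lit 295) (nat_lit 224) (nat_lit 201)))))) (XT.nd (nat_lit 390) (nat_lit 0) (nat_lit 0) (XT.nd (nat_lit 156) (nat_lit 0) (nat_lit 0) (XT.nd (nat_lit 78) (nat_lit 76) (nat_lit 0) (XT.lf (nat_lit 0) (nat_lit 1696490692) (nat_lit 152) (nat_lit 3135496973) (nat_lit 76) (nat_lit 100498832114) (nat_lit 2) (nat_lit 5) (nat_lit 4) (nat_lit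 5) (nat_lit 3) (nat_lit 4) (nat_lit 296) (nat_lit 224) (nat_lit 200)) (XT.lf (nat_lit 0) (nat_lit 2383125579) (nat_lit 76) (nat_lit 2050115859) (nat_lit 152) (nat_lit 109160128588) (nat_lit 1) (nat_lit 5) (nat_lit 2) (nat_lit 5) (nat_lit 3) (nat_lit 4) (nat_lit 297) (nat_lit 224) (nat_lit 199))) (XT.nd (nat_lit 78) (nat_lit 0) (nat_lit 0) (XT.lf (nat_lit 0) (nat_lit 7402326118) (nat_lit 152) (nat_lit 114178282047) (nat_lit 0) (nat_lit 935714656) (nat_lit 1) (nat_lit 5) (nat_lit 3) (nat_lit 4) (nat_lit 1) (nat_lit 4) (nat_lit 298) (nat_lit 224) (nat_lit 198)) (XT.nd (nat_lit 78) (nat_lit 0) (nat_lit 0) (XT.lf (nat_lit 0) (nat_lit 10590710687) (nat_lit 152) (nat_lit 117514164152) (nat_lit 0) (nat_lit 4049211513) (nat_lit 1) (nat_lit 5) (nat_lit 3) (nat_lit 4) (nat_lit 1) (nat_lit 4) (nat_lit 299) (nat_lit 224) (nat_lit 197)) (XT.lf (nat_lit 0) (nat_lit 13985281222) (nat_lit 152) (nat_lit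 121205650898) (nat_lit 0) (nat_lit 7374441574) (nat_lit 1) (nat_lit 5) (nat_lit 3) (nat_lit 4) (nat_lit 1) (nat_lit 4) (nat_lit 300) (nat_lit 224) (nat_lit 196))))) (XT.nd (nat_lit 156) (nat_lit 0) (nat_lit 0) (XT.nd (nat_lit 78) (nat_lit 0) (nat_lit 0) (XT.lf (nat_lit 0) (nat_lit 17606153697) (nat_lit 152) (nat_lit 125274617762) (nat_lit 0) (nat_lit 10931109906) (nat_lit 1) (nat_lit 5) (nat_lit 3) (nat_lit 4) (nat_lit 1) (nat_lit 4) (nat_lit 301) (nat_lit 224) (nat_lit 195)) (XT.lf (nat_lit 0) (nat_lit 21474785133) (nat_lit 152) (nat_lit 129745177141) (nat_lit 0) (nat_lit 14740293062) (nat_lit 1) (nat_lit 5) (nat_lit 3) (nat_lit 4) (nat_lit 1) (nat_lit 4) (nat_lit 302) (nat_lit 224) (nat_lit 194))) (XT.nd (nat_lit 78) (nat_lit 0) (nat_lit 0) (XT.lf (nat_lit 0) (nat_lit 25614100755) (nat_lit 152) (nat_lit 134643821239) (nat_lit 0) (nat_lit 18824563980) (nat_lit 1) (nat_lit 5) (nat_lit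 3) (nat_lit 4) (nat_lit 1) (nat_lit 4) (nat_lit 303) (nat_lit 224) (nat_lit 193)) (XT.nd (nat_lit 78) (nat_lit 0) (nat_lit 0) (XT.lf (nat_lit 0) (nat_lit 30048629839) (nat_lit 152) (nat_lit 139999579056) (nat_lit 0) (nat_lit 23208125746) (nat_lit 1) (nat_lit 5) (nat_lit 3) (nat_lit 4) (nat_lit 1) (nat_lit 4) (nat_lit 304) (nat_lit 224) (nat_lit 192)) (XT.lf (nat_lit 0) (nat_lit 34804651077) (nat_lit 152) (nat_lit 145844188418) (nat_lit 0) (nat_lit 27916955022) (nat_lit 1) (nat_lit 5) (nat_lit 3) (nat_lit 4) (nat_lit 1) (nat_lit 4) (nat_lit 305) (nat_lit 224) (nat_lit 191))))))))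
noncomputable def xc20 : XT := (XT.nd (nat_lit 1404) (nat_lit 0) (nat_lit 0) (XT.nd (nat_lit 702) (nat_lit 0) (nat_lit 0) (XT.nd (nat_lit 312) (nat_lit 0) (nat_lit 0) (XT.nd (nat_lit 156) (nat_lit 0) (nat_lit 0) (XT.nd (nat_lit 78) (nat_lit 0) (nat_lit 0) (XT.lf (nat_lit 0) (nat_lit 39910348298) (nat_lit 152) (nat_lit 152212284047) (nat_lit 0) (nat_lit 32978955982) (nat_lit 1) (nat_lit 5) (nat_lit 3) (nat_lit 4) (nat_lit 1) (nat_lit 4) (nat_lit 306) (nat_lit 224) (nat_lit 190)) (XT.lf (nat_lit 0) (nat_lit 45395977485) (nat_lit 152) (nat_lit 159141602805) (nat_lit 0) (nat_lit 38424125669) (nat_lit 1) (nat_lit 5) (nat_lit 3) (nat_lit 4) (nat_lit 1) (nat_lit 4) (nat_lit 307) (nat_lit 224) (nat_lit 189))) (XT.nd (nat_lit 78) (nat_lit 0) (nat_lit 0) (XT.lf (nat_lit 0) (nat_lit 51294046072) (nat_lit 152) (nat_lit 166673207322) (nat_lit 0) (nat_lit 44284731755) (nat_lit 1) (nat_lit 5) (nat_lit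 3) (nat_lit 4) (nat_lit 1) (nat_lit 4) (nat_lit 308) (nat_lit 224) (nat_lit 188)) (XT.lf (nat_lit 0) (nat_lit 57639505575) (nat_lit 152) (nat_lit 174851729329) (nat_lit 0) (nat_lit 50595503758) (nat_lit 1) (nat_lit 5) (nat_lit 3) (nat_lit 4) (nat_lit 1) (nat_lit 4) (nat_lit 309) (nat_lit 224) (nat_lit 187)))) (XT.nd (nat_lit 156) (nat_lit 0) (nat_lit 0) (XT.nd (nat_lit 78) (nat_lit 0) (nat_lit 0) (XT.lf (nat_lit 0) (nat_lit 64469958717) (nat_lit 152) (nat_lit 183725634141) (nat_lit 0) (nat_lit 57393838844) (nat_lit 1) (nat_lit 5) (nat_lit 3) (nat_lit 4) (nat_lit 1) (nat_lit 4) (nat_lit 310) (nat_lit 224) (nat_lit 186)) (XT.lf (nat_lit 0) (nat_lit 71825882258) (nat_lit 152) (nat_lit 193347507862) (nat_lit 0) (nat_lit 64720023445) (nat_lit 1) (nat_lit 5) (nat_lit 3) (nat_lit 4) (nat_lit 1) (nat_lit 4) (nat_lit 311) (nat_lit 224) (nat_lit 185))) (XT.nd (nat_lit 78) (nat_lit 0) (nat_lit 0)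 (XT.lf (nat_lit 0) (nat_lit 79750866857) (nat_lit 152) (nat_lit 203774369001) (nat_lit 0) (nat_lit 72617471987) (nat_lit 1) (nat_lit 5) (nat_lit 3) (nat_lit 4) (nat_lit 1) (nat_lit 4) (nat_lit 312) (nat_lit 224) (nat_lit 184)) (XT.nd (nat_lit 78) (nat_lit 0) (nat_lit 0) (XT.lf (nat_lit 0) (nat_lit 88291875383) (nat_lit 152) (nat_lit 215068006365) (nat_lit 0) (nat_lit 81132984165) (nat_lit 1) (nat_lit 5) (nat_lit 3) (nat_lit 4) (nat_lit 1) (nat_lit 4) (nat_lit 313) (nat_lit 224) (nat_lit 183)) (XT.lf (nat_lit 0) (nat_lit 97499521222) (nat_lit 152) (nat_lit 227295345214) (nat_lit 0) (nat_lit 90317022274) (nat_lit 1) (nat_lit 5) (nat_lit 3) (nat_lit 4) (nat_lit 1) (nat_lit 4) (nat_lit 314) (nat_lit 224) (nat_lit 182)))))) (XT.nd (nat_lit 312) (nat_lit 0) (nat_lit 0) (XT.nd (nat_lit 156) (nat_lit 0) (nat_lit 0) (XT.nd (nat_lit 78) (nat_lit 0) (nat_lit 0) (XT.lf (nat_lit 0) (nat_lit 107428368201)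 (nat_lit 152) (nat_lit 240528843851) (nat_lit 0) (nat_lit 100224010243) (nat_lit 1) (nat_lit 5) (nat_lit 3) (nat_lit 4) (nat_lit 1) (nat_lit 4) (nat_lit 315) (nat_lit 224) (nat_lit 181)) (XT.lf (nat_lit 0) (nat_lit 118137253931) (nat_lit 152) (nat_lit 254846923009) (nat_lit 0) (nat_lit 110912656150) (nat_lit 1) (nat_lit 5) (nat_lit 3) (nat_lit 4) (nat_lit 1) (nat_lit 4) (nat_lit 316) (nat_lit 224) (nat_lit 180))) (XT.nd (nat_lit 78) (nat_lit 0) (nat_lit 0) (XT.lf (nat_lit 0) (nat_lit 129689638476) (nat_lit 152) (nat_lit 270334430565) (nat_lit 0) (nat_lit 122446300118) (nat_lit 1) (nat_lit 5) (nat_lit 3) (nat_lit 4) (nat_lit 1) (nat_lit 4) (nat_lit 317) (nat_lit 224) (nat_lit 179)) (XT.lf (nat_lit 0) (nat_lit 142153980411) (nat_lit 152) (nat_lit 287083144340) (nat_lit 0) (nat_lit 134893289666) (nat_lit 1) (nat_lit 5) (nat_lit 3) (nat_lit 4) (nat_lit 1) (nat_lit 4) (nat_lit 318) (nat_lit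 224) (nat_lit 178)))) (XT.nd (nat_lit 156) (nat_lit 0) (nat_lit 0) (XT.nd (nat_lit 78) (nat_lit 0) (nat_lit 0) (XT.lf (nat_lit 0) (nat_lit 155604142502) (nat_lit 152) (nat_lit 305192315973) (nat_lit 0) (nat_lit 148327384734) (nat_lit 1) (nat_lit 5) (nat_lit 3) (nat_lit 4) (nat_lit 1) (nat_lit 4) (nat_lit 319) (nat_lit 224) (nat_lit 177)) (XT.lf (nat_lit 0) (nat_lit 170119829416) (nat_lit 152) (nat_lit 324769259072) (nat_lit 0) (nat_lit 162828194772) (nat_lit 1) (nat_lit 5) (nat_lit 3) (nat_lit 4) (nat_lit 1) (nat_lit 4) (nat_lit 320) (nat_lit 224) (nat_lit 176))) (XT.nd (nat_lit 78) (nat_lit 0) (nat_lit 0) (XT.lf (nat_lit 0) (nat_lit 185787060035) (nat_lit 152) (nat_lit 345929985154) (nat_lit 0) (nat_lit 178481650509) (nat_lit 1) (nat_lit 5) (nat_lit 3) (nat_lit 4) (nat_lit 1) (nat_lit 4) (nat_lit 321) (nat_lit 224) (nat_lit 175)) (XT.nd (nat_lit 78) (nat_lit 0) (nat_lit 0) (XT.lf (nat_lit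 0) (nat_lit 202698677210) (nat_lit 152) (nat_lit 368799891112) (nat_lit 0) (nat_lit 195380513161) (nat_lit 1) (nat_lit 5) (nat_lit 3) (nat_lit 4) (nat_lit 1) (nat_lit 4) (nat_lit 322) (nat_lit 224) (nat_lit 174)) (XT.lf (nat_lit 0) (nat_lit 220954897930) (nat_lit 152) (nat_lit 393514502315) (nat_lit 0) (nat_lit 213624924139) (nat_lit 1) (nat_lit 5) (nat_lit 3) (nat_lit 4) (nat_lit 1) (nat_lit 4) (nat_lit 323) (nat_lit 224) (nat_lit 173))))))) (XT.nd (nat_lit 33852) (nat_lit 0) (nat_lit 152) (XT.nd (nat_lit 33462) (nat_lit 0) (nat_lit 456) (XT.nd (nat_lit 33306) (nat_lit 0) (nat_lit 684) (XT.nd (nat_lit 78) (nat_lit 0) (nat_lit 0) (XT.lf (nat_lit 0) (nat_lit 240663907207) (nat_lit 152) (nat_lit 420220275719) (nat_lit 0) (nat_lit 233322998469) (nat_lit 1) (nat_lit 5) (nat_lit 3) (nat_lit 4) (nat_lit 1) (nat_lit 4) (nat_lit 324) (nat_lit 224) (nat_lit 172)) (XT.lf (nat_lit 0) (nat_lit 261942499170)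 (nat_lit 152) (nat_lit 449075467760) (nat_lit 0) (nat_lit 254591465481) (nat_lit 1) (nat_lit 5) (nat_lit 3) (nat_lit 4) (nat_lit 1) (nat_lit 4) (nat_lit 325) (nat_lit 224) (nat_lit 171))) (XT.nd (nat_lit 78) (nat_lit 152) (nat_lit 0) (XT.lf (nat_lit 0) (nat_lit 8166048849) (nat_lit 152) (nat_lit 169958447) (nat_lit 152) (nat_lit 169958447) (nat_lit 12) (nat_lit 4) (nat_lit 14) (nat_lit 5) (nat_lit 14) (nat_lit 4) (nat_lit 270) (nat_lit 225) (nat_lit 225)) (XT.lf (nat_lit 0) (nat_lit 5083175181) (nat_lit 152) (nat_lit 8578907798) (nat_lit 0) (nat_lit 4390675054) (nat_lit 10) (nat_lit 5) (nat_lit 12) (nat_lit 4) (nat_lit 10) (nat_lit 4) (nat_lit 271) (nat_lit 225) (nat_lit 224)))) (XT.nd (nat_lit 156) (nat_lit 152) (nat_lit 0) (XT.nd (nat_lit 78) (nat_lit 0) (nat_lit 0) (XT.lf (nat_lit 0) (nat_lit 787417904) (nat_lit 76) (nat_lit 9868506520) (nat_lit 76) (nat_lit 8534802574) (nat_lit 9)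 (nat_lit 4) (nat_lit 10) (nat_lit 5) (nat_lit 10) (nat_lit 4) (nat_lit 272) (nat_lit 225) (nat_lit 223)) (XT.lf (nat_lit 0) (nat_lit 10717762329) (nat_lit 76) (nat_lit 5818399851) (nat_lit 76) (nat_lit 3890988664) (nat_lit 9) (nat_lit 4) (nat_lit 10) (nat_lit 5) (nat_lit 10) (nat_lit 4) (nat_lit 273) (nat_lit 225) (nat_lit 222))) (XT.nd (nat_lit 78) (nat_lit 76) (nat_lit 0) (XT.lf (nat_lit 0) (nat_lit 817073672) (nat_lit 152) (nat_lit 802139085) (nat_lit 76) (nat_lit 20156403315) (nat_lit 8) (nat_lit 5) (nat_lit 10) (nat_lit 5) (nat_lit 9) (nat_lit 4) (nat_lit 274) (nat_lit 225) (nat_lit 221)) (XT.nd (nat_lit 78) (nat_lit 0) (nat_lit 0) (XT.lf (nat_lit 0) (nat_lit 5696335113) (nat_lit 152) (nat_lit 14683914930) (nat_lit 0) (nat_lit 2852384274) (nat_lit 7) (nat_lit 5) (nat_lit 9) (nat_lit 4) (nat_lit 7) (nat_lit 4) (nat_lit 275) (nat_lit 225) (nat_lit 220)) (XT.lf (nat_lit 0) (nat_lit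 10765752448) (nat_lit 152) (nat_lit 6577908734) (nat_lit 0) (nat_lit 7472940706) (nat_lit 7) (nat_lit 5) (nat_lit 9) (nat_lit 4) (nat_lit 7) (nat_lit 4) (nat_lit 276) (nat_lit 225) (nat_lit 219)))))) (XT.nd (nat_lit 390) (nat_lit 76) (nat_lit 0) (XT.nd (nat_lit 156) (nat_lit 152) (nat_lit 0) (XT.nd (nat_lit 78) (nat_lit 0) (nat_lit 0) (XT.lf (nat_lit 0) (nat_lit 1845696140) (nat_lit 76) (nat_lit 14200056750) (nat_lit 76) (nat_lit 10491633059) (nat_lit 6) (nat_lit 4) (nat_lit 7) (nat_lit 5) (nat_lit 7) (nat_lit 4) (nat_lit 277) (nat_lit 225) (nat_lit 218)) (XT.lf (nat_lit 0) (nat_lit 10805075782) (nat_lit 76) (nat_lit 10844626831) (nat_lit 76) (nat_lit 6751377261) (nat_lit 6) (nat_lit 4) (nat_lit 7) (nat_lit 5) (nat_lit 7) (nat_lit 4) (nat_lit 278) (nat_lit 225) (nat_lit 217))) (XT.nd (nat_lit 78) (nat_lit 152) (nat_lit 0) (XT.lf (nat_lit 0) (nat_lit 20135827440) (nat_lit 76) (nat_lit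 7368887464) (nat_lit 76) (nat_lit 2919317636) (nat_lit 6) (nat_lit 4) (nat_lit 7) (nat_lit 5) (nat_lit 7) (nat_lit 4) (nat_lit 279) (nat_lit 225) (nat_lit 216)) (XT.nd (nat_lit 78) (nat_lit 76) (nat_lit 0) (XT.lf (nat_lit 0) (nat_lit 994375763) (nat_lit 152) (nat_lit 2741025677) (nat_lit 76) (nat_lit 28882028460) (nat_lit 5) (nat_lit 5) (nat_lit 7) (nat_lit 5) (nat_lit 6) (nat_lit 4) (nat_lit 280) (nat_lit 225) (nat_lit 215)) (XT.lf (nat_lit 0) (nat_lit 5032773255) (nat_lit 152) (nat_lit 29765751823) (nat_lit 0) (nat_lit 189932130) (nat_lit 4) (nat_lit 5) (nat_lit 6) (nat_lit 4) (nat_lit 4) (nat_lit 4) (nat_lit 281) (nat_lit 225) (nat_lit 214))))) (XT.nd (nat_lit 156) (nat_lit 76) (nat_lit 0) (XT.nd (nat_lit 78) (nat_lit 0) (nat_lit 0) (XT.lf (nat_lit 0) (nat_lit 9339911073) (nat_lit 152) (nat_lit 23984518540) (nat_lit 0) (nat_lit 4227680892) (nat_lit 4) (nat_lit 5) (nat_lit 6) (nat_lit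 4) (nat_lit 4) (nat_lit 4) (nat_lit 282) (nat_lit 225) (nat_lit 213)) (XT.lf (nat_lit 0) (nat_lit 13838058064) (nat_lit 152) (nat_lit 18014292922) (nat_lit 0) (nat_lit 8476393572) (nat_lit 4) (nat_lit 5) (nat_lit 6) (nat_lit 4) (nat_lit 4) (nat_lit 4) (nat_lit 283) (nat_lit 225) (nat_lit 212))) (XT.nd (nat_lit 78) (nat_lit 76) (nat_lit 0) (XT.lf (nat_lit 0) (nat_lit 18553869914) (nat_lit 152) (nat_lit 11819695852) (nat_lit 0) (nat_lit 12961247727) (nat_lit 4) (nat_lit 5) (nat_lit 6) (nat_lit 4) (nat_lit 4) (nat_lit 4) (nat_lit 284) (nat_lit 225) (nat_lit 211)) (XT.nd (nat_lit 78) (nat_lit 76) (nat_lit 0) (XT.lf (nat_lit 0) (nat_lit 23515292175) (nat_lit 152) (nat_lit 5364018608) (nat_lit 0) (nat_lit 17708820270) (nat_lit 4) (nat_lit 5) (nat_lit 6) (nat_lit 4) (nat_lit 4) (nat_lit 4) (nat_lit 285) (nat_lit 225) (nat_lit 210)) (XT.lf (nat_lit 0) (nat_lit 1436987240) (nat_lit 76) (nat_lit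 27337174025) (nat_lit 76) (nat_lit 21332693121) (nat_lit 3) (nat_lit 4) (nat_lit 4) (nat_lit 5) (nat_lit 4) (nat_lit 4) (nat_lit 286) (nat_lit 225) (nat_lit 209))))))))
noncomputable def xc21 : XT := (XT.nd (nat_lit 1404) (nat_lit 0) (nat_lit 0) (XT.nd (nat_lit 702) (nat_lit 152) (nat_lit 0) (XT.nd (nat_lit 312) (nat_lit 0) (nat_lit 0) (XT.nd (nat_lit 156) (nat_lit 0) (nat_lit 0) (XT.nd (nat_lit 78) (nat_lit 0) (nat_lit 0) (XT.lf (nat_lit 0) (nat_lit 8765938481) (nat_lit 76) (nat_lit 25665124094) (nat_lit 76) (nat_lit 19477301525) (nat_lit 3) (nat_lit 4) (nat_lit 4) (nat_lit 5) (nat_lit 4) (nat_lit 4) (nat_lit 287) (nat_lit 225) (nat_lit 208)) (XT.lf (nat_lit 0) (nat_lit 16488907256) (nat_lit 76) (nat_lit 23944094797) (nat_lit 76) (nat_lit 17586511428) (nat_lit 3) (nat_lit 4) (nat_lit 4) (nat_lit 5) (nat_lit 4) (nat_lit 4) (nat_lit 288) (nat_lit 225) (nat_lit 207))) (XT.nd (nat_lit 78)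 (nat_lit 0) (nat_lit 0) (XT.lf (nat_lit 0) (nat_lit 24651659307) (nat_lit 76) (nat_lit 22163887443) (nat_lit 76) (nat_lit 15649118147) (nat_lit 3) (nat_lit 4) (nat_lit 4) (nat_lit 5) (nat_lit 4) (nat_lit 4) (nat_lit 289) (nat_lit 225) (nat_lit 206)) (XT.lf (nat_lit 0) (nat_lit 33302566496) (nat_lit 76) (nat_lit 20313952655) (nat_lit 76) (nat_lit 13653640834) (nat_lit 3) (nat_lit 4) (nat_lit 4) (nat_lit 5) (nat_lit 4) (nat_lit 4) (nat_lit 290) (nat_lit 225) (nat_lit 205)))) (XT.nd (nat_lit 156) (nat_lit 0) (nat_lit 0) (XT.nd (nat_lit 78) (nat_lit 0) (nat_lit 0) (XT.lf (nat_lit 0) (nat_lit 42492893460) (nat_lit 76) (nat_lit 18383327856) (nat_lit 76) (nat_lit 11588254438) (nat_lit 3) (nat_lit 4) (nat_lit 4) (nat_lit 5) (nat_lit 4) (nat_lit 4) (nat_lit 291) (nat_lit 225) (nat_lit 204)) (XT.lf (nat_lit 0) (nat_lit 52277101395) (nat_lit 76) (nat_lit 16360572306) (nat_lit 76) (nat_lit 9440719632)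 (nat_lit 3) (nat_lit 4) (nat_lit 4) (nat_lit 5) (nat_lit 4) (nat_lit 4) (nat_lit 292) (nat_lit 225) (nat_lit 203))) (XT.nd (nat_lit 78) (nat_lit 0) (nat_lit 0) (XT.lf (nat_lit 0) (nat_lit 62713170792) (nat_lit 76) (nat_lit 14233699306) (nat_lit 76) (nat_lit 7198310283) (nat_lit 3) (nat_lit 4) (nat_lit 4) (nat_lit 5) (nat_lit 4) (nat_lit 4) (nat_lit 293) (nat_lit 225) (nat_lit 202)) (XT.nd (nat_lit 78) (nat_lit 0) (nat_lit 0) (XT.lf (nat_lit 0) (nat_lit 73862945026) (nat_lit 76) (nat_lit 11990105165) (nat_lit 76) (nat_lit 4847738041) (nat_lit 3) (nat_lit 4) (nat_lit 4) (nat_lit 5) (nat_lit 4) (nat_lit 4) (nat_lit 294) (nat_lit 225) (nat_lit 201)) (XT.lf (nat_lit 0) (nat_lit 85792496833) (nat_lit 76) (nat_lit 9616494508) (nat_lit 76) (nat_lit 2375073588) (nat_lit 3) (nat_lit 4) (nat_lit 4) (nat_lit 5) (nat_lit 4) (nat_lit 4) (nat_lit 295) (nat_lit 225) (nat_lit 200)))))) (XT.nd (nat_lit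 312) (nat_lit 0) (nat_lit 0) (XT.nd (nat_lit 156) (nat_lit 76) (nat_lit 0) (XT.nd (nat_lit 78) (nat_lit 0) (nat_lit 0) (XT.lf (nat_lit 0) (nat_lit 226835689) (nat_lit 152) (nat_lit 6868124235) (nat_lit 76) (nat_lit 98341842592) (nat_lit 2) (nat_lit 5) (nat_lit 4) (nat_lit 5) (nat_lit 3) (nat_lit 4) (nat_lit 296) (nat_lit 225) (nat_lit 199)) (XT.lf (nat_lit 0) (nat_lit 2900064370) (nat_lit 152) (nat_lit 1472928103) (nat_lit 76) (nat_lit 109329569193) (nat_lit 2) (nat_lit 5) (nat_lit 4) (nat_lit 5) (nat_lit 3) (nat_lit 4) (nat_lit 297) (nat_lit 225) (nat_lit 198))) (XT.nd (nat_lit 78) (nat_lit 0) (nat_lit 0) (XT.lf (nat_lit 0) (nat_lit 4404029846) (nat_lit 76) (nat_lit 1401200401) (nat_lit 152) (nat_lit 116823510524) (nat_lit 1) (nat_lit 5) (nat_lit 2) (nat_lit 5) (nat_lit 3) (nat_lit 4) (nat_lit 298) (nat_lit 225) (nat_lit 197)) (XT.lf (nat_lit 0) (nat_lit 8948235844) (nat_lit 152) (nat_lit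 121581376977) (nat_lit 0) (nat_lit 1739188549) (nat_lit 1) (nat_lit 5) (nat_lit 3) (nat_lit 4) (nat_lit 1) (nat_lit 4) (nat_lit 299) (nat_lit 225) (nat_lit 196)))) (XT.nd (nat_lit 156) (nat_lit 0) (nat_lit 0) (XT.nd (nat_lit 78) (nat_lit 0) (nat_lit 0) (XT.lf (nat_lit 0) (nat_lit 12321044983) (nat_lit 152) (nat_lit 125312364290) (nat_lit 0) (nat_lit 5047793546) (nat_lit 1) (nat_lit 5) (nat_lit 3) (nat_lit 4) (nat_lit 1) (nat_lit 4) (nat_lit 300) (nat_lit 225) (nat_lit 195)) (XT.lf (nat_lit 0) (nat_lit 15921768017) (nat_lit 152) (nat_lit 129417905753) (nat_lit 0) (nat_lit 8589068300) (nat_lit 1) (nat_lit 5) (nat_lit 3) (nat_lit 4) (nat_lit 1) (nat_lit 4) (nat_lit 301) (nat_lit 225) (nat_lit 194))) (XT.nd (nat_lit 78) (nat_lit 0) (nat_lit 0) (XT.lf (nat_lit 0) (nat_lit 19771742564) (nat_lit 152) (nat_lit 133922330501) (nat_lit 0) (nat_lit 12383998143) (nat_lit 1) (nat_lit 5) (nat_lit 3)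 (nat_lit 4) (nat_lit 1) (nat_lit 4) (nat_lit 302) (nat_lit 225) (nat_lit 193)) (XT.nd (nat_lit 78) (nat_lit 0) (nat_lit 0) (XT.lf (nat_lit 0) (nat_lit 23893783288) (nat_lit 152) (nat_lit 138852331422) (nat_lit 0) (nat_lit 16455071549) (nat_lit 1) (nat_lit 5) (nat_lit 3) (nat_lit 4) (nat_lit 1) (nat_lit 4) (nat_lit 303) (nat_lit 225) (nat_lit 192)) (XT.lf (nat_lit 0) (nat_lit 28312317096) (nat_lit 152) (nat_lit 144237123335) (nat_lit 0) (nat_lit 20826413396) (nat_lit 1) (nat_lit 5) (nat_lit 3) (nat_lit 4) (nat_lit 1) (nat_lit 4) (nat_lit 304) (nat_lit 225) (nat_lit 191))))))) (XT.nd (nat_lit 702) (nat_lit 0) (nat_lit 0) (XT.nd (nat_lit 312) (nat_lit 0) (nat_lit 0) (XT.nd (nat_lit 156) (nat_lit 0) (nat_lit 0) (XT.nd (nat_lit 78) (nat_lit 0) (nat_lit 0) (XT.lf (nat_lit 0) (nat_lit 33053527894) (nat_lit 152) (nat_lit 150108616119) (nat_lit 0) (nat_lit 25523927933) (nat_lit 1) (nat_lit 5)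 (nat_lit 3) (nat_lit 4) (nat_lit 1) (nat_lit 4) (nat_lit 305) (nat_lit 225) (nat_lit 190)) (XT.lf (nat_lit 0) (nat_lit 38145511744) (nat_lit 152) (nat_lit 156501603805) (nat_lit 0) (nat_lit 30575452282) (nat_lit 1) (nat_lit 5) (nat_lit 3) (nat_lit 4) (nat_lit 1) (nat_lit 4) (nat_lit 306) (nat_lit 225) (nat_lit 189))) (XT.nd (nat_lit 78) (nat_lit 0) (nat_lit 0) (XT.lf (nat_lit 0) (nat_lit 43618443366) (nat_lit 152) (nat_lit 163453970764) (nat_lit 0) (nat_lit 36010921404) (nat_lit 1) (nat_lit 5) (nat_lit 3) (nat_lit 4) (nat_lit 1) (nat_lit 4) (nat_lit 307) (nat_lit 225) (nat_lit 188)) (XT.lf (nat_lit 0) (nat_lit 49504754948) (nat_lit 152) (nat_lit 171006916208) (nat_lit 0) (nat_lit 41862545485) (nat_lit 1) (nat_lit 5) (nat_lit 3) (nat_lit 4) (nat_lit 1) (nat_lit 4) (nat_lit 308) (nat_lit 225) (nat_lit 187)))) (XT.nd (nat_lit 156) (nat_lit 0) (nat_lit 0) (XT.nd (nat_lit 78) (nat_lit 0) (nat_lit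 0) (XT.lf (nat_lit 0) (nat_lit 55839328335) (nat_lit 152) (nat_lit 179205198333) (nat_lit 0) (nat_lit 48165000816) (nat_lit 1) (nat_lit 5) (nat_lit 3) (nat_lit 4) (nat_lit 1) (nat_lit 4) (nat_lit 309) (nat_lit 225) (nat_lit 186)) (XT.lf (nat_lit 0) (nat_lit 62659701741) (nat_lit 152) (nat_lit 188097399551) (nat_lit 0) (nat_lit 54955635281) (nat_lit 1) (nat_lit 5) (nat_lit 3) (nat_lit 4) (nat_lit 1) (nat_lit 4) (nat_lit 310) (nat_lit 225) (nat_lit 185))) (XT.nd (nat_lit 78) (nat_lit 0) (nat_lit 0) (XT.lf (nat_lit 0) (nat_lit 70006292192) (nat_lit 152) (nat_lit 197736214387) (nat_lit 0) (nat_lit 62274689677) (nat_lit 1) (nat_lit 5) (nat_lit 3) (nat_lit 4) (nat_lit 1) (nat_lit 4) (nat_lit 311) (nat_lit 225) (nat_lit 184)) (XT.nd (nat_lit 78) (nat_lit 0) (nat_lit 0) (XT.lf (nat_lit 0) (nat_lit 77922635041) (nat_lit 152) (nat_lit 208178761744) (nat_lit 0) (nat_lit 70165536177) (nat_lit 1)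 (nat_lit 5) (nat_lit 3) (nat_lit 4) (nat_lit 1) (nat_lit 4) (nat_lit 312) (nat_lit 225) (nat_lit 183)) (XT.lf (nat_lit 0) (nat_lit 86455641947) (nat_lit 152) (nat_lit 219486923385) (nat_lit 0) (nat_lit 78674935353) (nat_lit 1) (nat_lit 5) (nat_lit 3) (nat_lit 4) (nat_lit 1) (nat_lit 4) (nat_lit 313) (nat_lit 225) (nat_lit 182)))))) (XT.nd (nat_lit 390) (nat_lit 0) (nat_lit 0) (XT.nd (nat_lit 156) (nat_lit 0) (nat_lit 0) (XT.nd (nat_lit 78) (nat_lit 0) (nat_lit 0) (XT.lf (nat_lit 0) (nat_lit 95655878879) (nat_lit 152) (nat_lit 231727710638) (nat_lit 0) (nat_lit 87853313276) (nat_lit 1) (nat_lit 5) (nat_lit 3) (nat_lit 4) (nat_lit 1) (nat_lit 4) (nat_lit 314) (nat_lit 225) (nat_lit 181)) (XT.lf (nat_lit 0) (nat_lit 105577865758) (nat_lit 152) (nat_lit 244973661501) (nat_lit 0) (nat_lit 97755060331) (nat_lit 1) (nat_lit 5) (nat_lit 3) (nat_lit 4) (nat_lit 1) (nat_lit 4) (nat_lit 315) (nat_lit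 225) (nat_lit 180))) (XT.nd (nat_lit 78) (nat_lit 0) (nat_lit 0) (XT.lf (nat_lit 0) (nat_lit 116280399544) (nat_lit 152) (nat_lit 259303270498) (nat_lit 0) (nat_lit 108438853540) (nat_lit 1) (nat_lit 5) (nat_lit 3) (nat_lit 4) (nat_lit 1) (nat_lit 4) (nat_lit 316) (nat_lit 225) (nat_lit 179)) (XT.nd (nat_lit 78) (nat_lit 0) (nat_lit 0) (XT.lf (nat_lit 0) (nat_lit 127826902659) (nat_lit 152) (nat_lit 274801453830) (nat_lit 0) (nat_lit 119968004269) (nat_lit 1) (nat_lit 5) (nat_lit 3) (nat_lit 4) (nat_lit 1) (nat_lit 4) (nat_lit 317) (nat_lit 225) (nat_lit 178)) (XT.lf (nat_lit 0) (nat_lit 140285798826) (nat_lit 152) (nat_lit 291560052584) (nat_lit 0) (nat_lit 132410833411) (nat_lit 1) (nat_lit 5) (nat_lit 3) (nat_lit 4) (nat_lit 1) (nat_lit 4) (nat_lit 318) (nat_lit 225) (nat_lit 177))))) (XT.nd (nat_lit 156) (nat_lit 0) (nat_lit 0) (XT.nd (nat_lit 78) (nat_lit 0) (nat_lit 0) (XT.lf (nat_lit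 0) (nat_lit 153730918540) (nat_lit 152) (nat_lit 309678376975) (nat_lit 0) (nat_lit 145841076251) (nat_lit 1) (nat_lit 5) (nat_lit 3) (nat_lit 4) (nat_lit 1) (nat_lit 4) (nat_lit 319) (nat_lit 225) (nat_lit 176)) (XT.lf (nat_lit 0) (nat_lit 168241936585) (nat_lit 152) (nat_lit 329263794850) (nat_lit 0) (nat_lit 160338319412) (nat_lit 1) (nat_lit 5) (nat_lit 3) (nat_lit 4) (nat_lit 1) (nat_lit 4) (nat_lit 320) (nat_lit 225) (nat_lit 175))) (XT.nd (nat_lit 78) (nat_lit 0) (nat_lit 0) (XT.lf (nat_lit 0) (nat_lit 183904844178) (nat_lit 152) (nat_lit 350432367946) (nat_lit 0) (nat_lit 175988472483) (nat_lit 1) (nat_lit 5) (nat_lit 3) (nat_lit 4) (nat_lit 1) (nat_lit 4) (nat_lit 321) (nat_lit 225) (nat_lit 174)) (XT.nd (nat_lit 78) (nat_lit 0) (nat_lit 0) (XT.lf (nat_lit 0) (nat_lit 200812458550) (nat_lit 152) (nat_lit 373309539658) (nat_lit 0) (nat_lit 192884277113) (nat_lit 1) (nat_lit 5)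 (nat_lit 3) (nat_lit 4) (nat_lit 1) (nat_lit 4) (nat_lit 322) (nat_lit 225) (nat_lit 173)) (XT.lf (nat_lit 0) (nat_lit 219064972972) (nat_lit 152) (nat_lit 398030878412) (nat_lit 0) (nat_lit 211125856588) (nat_lit 1) (nat_lit 5) (nat_lit 3) (nat_lit 4) (nat_lit 1) (nat_lit 4) (nat_lit 323) (nat_lit 225) (nat_lit 172))))))))
noncomputable def xc22 : XT := (XT.nd (nat_lit 34398) (nat_lit 0) (nat_lit 0) (XT.nd (nat_lit 33696) (nat_lit 0) (nat_lit 228) (XT.nd (nat_lit 33306) (nat_lit 0) (nat_lit 532) (XT.nd (nat_lit 33150) (nat_lit 0) (nat_lit 836) (XT.nd (nat_lit 78) (nat_lit 0) (nat_lit 0) (XT.lf (nat_lit 0) (nat_lit 238770550491) (nat_lit 152) (nat_lit 424742881029) (nat_lit 0) (nat_lit 230821309157) (nat_lit 1) (nat_lit 5) (nat_lit 3) (nat_lit 4) (nat_lit 1) (nat_lit 4) (nat_lit 324) (nat_lit 225) (nat_lit 171)) (XT.lf (nat_lit 0) (nat_lit 260045964901) (nat_lit 152) (nat_lit 453603840860)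 (nat_lit 0) (nat_lit 252087348612) (nat_lit 1) (nat_lit 5) (nat_lit 3) (nat_lit 4) (nat_lit 1) (nat_lit 4) (nat_lit 325) (nat_lit 225) (nat_lit 170))) (XT.nd (nat_lit 78) (nat_lit 152) (nat_lit 0) (XT.lf (nat_lit 0) (nat_lit 2690111943) (nat_lit 152) (nat_lit 2200825898) (nat_lit 0) (nat_lit 2690111943) (nat_lit 14) (nat_lit 5) (nat_lit 16) (nat_lit 4) (nat_lit 14) (nat_lit 4) (nat_lit 268) (nat_lit 226) (nat_lit 226)) (XT.lf (nat_lit 0) (nat_lit 5619094221) (nat_lit 152) (nat_lit 5607736927) (nat_lit 152) (nat_lit 4822441784) (nat_lit 12) (nat_lit 4) (nat_lit 14) (nat_lit 5) (nat_lit 14) (nat_lit 4) (nat_lit 269) (nat_lit 226) (nat_lit 225)))) (XT.nd (nat_lit 156) (nat_lit 152) (nat_lit 0) (XT.nd (nat_lit 78) (nat_lit 76) (nat_lit 0) (XT.lf (nat_lit 0) (nat_lit 279761216) (nat_lit 228) (nat_lit 938909781) (nat_lit 76) (nat_lit 15800761747) (nat_lit 11) (nat_lit 5) (nat_lit 14) (nat_lit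 5) (nat_lit 12) (nat_lit 4) (nat_lit 270) (nat_lit 226) (nat_lit 224)) (XT.lf (nat_lit 0) (nat_lit 5528573117) (nat_lit 152) (nat_lit 9092881848) (nat_lit 0) (nat_lit 3446969035) (nat_lit 10) (nat_lit 5) (nat_lit 12) (nat_lit 4) (nat_lit 10) (nat_lit 4) (nat_lit 271) (nat_lit 226) (nat_lit 223))) (XT.nd (nat_lit 78) (nat_lit 76) (nat_lit 0) (XT.lf (nat_lit 0) (nat_lit 20085433) (nat_lit 76) (nat_lit 10934595838) (nat_lit 76) (nat_lit 8259284514) (nat_lit 9) (nat_lit 4) (nat_lit 10) (nat_lit 5) (nat_lit 10) (nat_lit 4) (nat_lit 272) (nat_lit 226) (nat_lit 222)) (XT.nd (nat_lit 78) (nat_lit 76) (nat_lit 0) (XT.lf (nat_lit 0) (nat_lit 9731574193) (nat_lit 76) (nat_lit 6975241884) (nat_lit 76) (nat_lit 3750201633) (nat_lit 9) (nat_lit 4) (nat_lit 10) (nat_lit 5) (nat_lit 10) (nat_lit 4) (nat_lit 273) (nat_lit 226) (nat_lit 221)) (XT.lf (nat_lit 0) (nat_lit 832596496) (nat_lit 152) (nat_lit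 2027225698) (nat_lit 76) (nat_lit 18951785336) (nat_lit 8) (nat_lit 5) (nat_lit 10) (nat_lit 5) (nat_lit 9) (nat_lit 4) (nat_lit 274) (nat_lit 226) (nat_lit 220)))))) (XT.nd (nat_lit 312) (nat_lit 152) (nat_lit 0) (XT.nd (nat_lit 156) (nat_lit 76) (nat_lit 0) (XT.nd (nat_lit 78) (nat_lit 0) (nat_lit 0) (XT.lf (nat_lit 0) (nat_lit 5556208182) (nat_lit 152) (nat_lit 16169271512) (nat_lit 0) (nat_lit 1551110596) (nat_lit 7) (nat_lit 5) (nat_lit 9) (nat_lit 4) (nat_lit 7) (nat_lit 4) (nat_lit 275) (nat_lit 226) (nat_lit 219)) (XT.lf (nat_lit 0) (nat_lit 10518035725) (nat_lit 152) (nat_lit 8250743979) (nat_lit 0) (nat_lit 6097326190) (nat_lit 7) (nat_lit 5) (nat_lit 9) (nat_lit 4) (nat_lit 7) (nat_lit 4) (nat_lit 276) (nat_lit 226) (nat_lit 218))) (XT.nd (nat_lit 78) (nat_lit 76) (nat_lit 0) (XT.lf (nat_lit 0) (nat_lit 15669599499) (nat_lit 152) (nat_lit 59804261) (nat_lit 0) (nat_lit 10864064086)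 (nat_lit 7) (nat_lit 5) (nat_lit 9) (nat_lit 4) (nat_lit 7) (nat_lit 4) (nat_lit 277) (nat_lit 226) (nat_lit 217)) (XT.lf (nat_lit 0) (nat_lit 8731550695) (nat_lit 76) (nat_lit 12446200572) (nat_lit 76) (nat_lit 7284344901) (nat_lit 6) (nat_lit 4) (nat_lit 7) (nat_lit 5) (nat_lit 7) (nat_lit 4) (nat_lit 278) (nat_lit 226) (nat_lit 216)))) (XT.nd (nat_lit 156) (nat_lit 76) (nat_lit 0) (XT.nd (nat_lit 78) (nat_lit 76) (nat_lit 0) (XT.lf (nat_lit 0) (nat_lit 17908554866) (nat_lit 76) (nat_lit 9036400016) (nat_lit 76) (nat_lit 3544618180) (nat_lit 6) (nat_lit 4) (nat_lit 7) (nat_lit 5) (nat_lit 7) (nat_lit 4) (nat_lit 279) (nat_lit 226) (nat_lit 215)) (XT.lf (nat_lit 0) (nat_lit 306331635) (nat_lit 152) (nat_lit 5169289172) (nat_lit 76) (nat_lit 27212093589) (nat_lit 5) (nat_lit 5) (nat_lit 7) (nat_lit 5) (nat_lit 6) (nat_lit 4) (nat_lit 280) (nat_lit 226) (nat_lit 214))) (XT.nd (nat_lit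 78) (nat_lit 0) (nat_lit 0) (XT.lf (nat_lit 0) (nat_lit 2578466817) (nat_lit 76) (nat_lit 1645237744) (nat_lit 152) (nat_lit 30841197618) (nat_lit 4) (nat_lit 5) (nat_lit 5) (nat_lit 5) (nat_lit 6) (nat_lit 4) (nat_lit 281) (nat_lit 226) (nat_lit 213)) (XT.nd (nat_lit 78) (nat_lit 0) (nat_lit 0) (XT.lf (nat_lit 0) (nat_lit 8431327794) (nat_lit 152) (nat_lit 26811008734) (nat_lit 0) (nat_lit 2391295831) (nat_lit 4) (nat_lit 5) (nat_lit 6) (nat_lit 4) (nat_lit 4) (nat_lit 4) (nat_lit 282) (nat_lit 226) (nat_lit 212)) (XT.lf (nat_lit 0) (nat_lit 12861115698) (nat_lit 152) (nat_lit 20962536288) (nat_lit 0) (nat_lit 6590126040) (nat_lit 4) (nat_lit 5) (nat_lit 6) (nat_lit 4) (nat_lit 4) (nat_lit 4) (nat_lit 283) (nat_lit 226) (nat_lit 211))))))) (XT.nd (nat_lit 702) (nat_lit 152) (nat_lit 0) (XT.nd (nat_lit 312) (nat_lit 0) (nat_lit 0) (XT.nd (nat_lit 156) (nat_lit 76) (nat_lit 0) (XT.nd (nat_lit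 78) (nat_lit 0) (nat_lit 0) (XT.lf (nat_lit 0) (nat_lit 17513632097) (nat_lit 152) (nat_lit 14880673637) (nat_lit 0) (nat_lit 11028792722) (nat_lit 4) (nat_lit 5) (nat_lit 6) (nat_lit 4) (nat_lit 4) (nat_lit 4) (nat_lit 284) (nat_lit 226) (nat_lit 210)) (XT.lf (nat_lit 0) (nat_lit 22416447459) (nat_lit 152) (nat_lit 8529380114) (nat_lit 0) (nat_lit 15733599086) (nat_lit 4) (nat_lit 5) (nat_lit 6) (nat_lit 4) (nat_lit 4) (nat_lit 4) (nat_lit 285) (nat_lit 226) (nat_lit 209))) (XT.nd (nat_lit 78) (nat_lit 76) (nat_lit 0) (XT.lf (nat_lit 0) (nat_lit 27598615504) (nat_lit 152) (nat_lit 1871018425) (nat_lit 0) (nat_lit 20732425466) (nat_lit 4) (nat_lit 5) (nat_lit 6) (nat_lit 4) (nat_lit 4) (nat_lit 4) (nat_lit 286) (nat_lit 226) (nat_lit 208)) (XT.lf (nat_lit 0) (nat_lit 5303617263) (nat_lit 76) (nat_lit 27870032442) (nat_lit 76) (nat_lit 20834081602) (nat_lit 3) (nat_lit 4) (nat_lit 4) (nat_lit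 5) (nat_lit 4) (nat_lit 4) (nat_lit 287) (nat_lit 226) (nat_lit 207)))) (XT.nd (nat_lit 156) (nat_lit 0) (nat_lit 0) (XT.nd (nat_lit 78) (nat_lit 0) (nat_lit 0) (XT.lf (nat_lit 0) (nat_lit 12940983045) (nat_lit 76) (nat_lit 26186745591) (nat_lit 76) (nat_lit 18993608824) (nat_lit 3) (nat_lit 4) (nat_lit 4) (nat_lit 5) (nat_lit 4) (nat_lit 4) (nat_lit 288) (nat_lit 226) (nat_lit 206)) (XT.lf (nat_lit 0) (nat_lit 21024473064) (nat_lit 76) (nat_lit 24441484945) (nat_lit 76) (nat_lit 17102805654) (nat_lit 3) (nat_lit 4) (nat_lit 4) (nat_lit 5) (nat_lit 4) (nat_lit 4) (nat_lit 289) (nat_lit 226) (nat_lit 205))) (XT.nd (nat_lit 78) (nat_lit 0) (nat_lit 0) (XT.lf (nat_lit 0) (nat_lit 29601989484) (nat_lit 76) (nat_lit 22623908221) (nat_lit 76) (nat_lit 15150467333) (nat_lit 3) (nat_lit 4) (nat_lit 4) (nat_lit 5) (nat_lit 4) (nat_lit 4) (nat_lit 290) (nat_lit 226) (nat_lit 204)) (XT.nd (nat_lit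 78) (nat_lit 0) (nat_lit 0) (XT.lf (nat_lit 0) (nat_lit 38724362031) (nat_lit 76) (nat_lit 20723244591) (nat_lit 76) (nat_lit 13125024447) (nat_lit 3) (nat_lit 4) (nat_lit 4) (nat_lit 5) (nat_lit 4) (nat_lit 4) (nat_lit 291) (nat_lit 226) (nat_lit 203)) (XT.lf (nat_lit 0) (nat_lit 48445649210) (nat_lit 76) (nat_lit 18728230866) (nat_lit 76) (nat_lit 11014474373) (nat_lit 3) (nat_lit 4) (nat_lit 4) (nat_lit 5) (nat_lit 4) (nat_lit 4) (nat_lit 292) (nat_lit 226) (nat_lit 202)))))) (XT.nd (nat_lit 390) (nat_lit 76) (nat_lit 0) (XT.nd (nat_lit 156) (nat_lit 76) (nat_lit 0) (XT.nd (nat_lit 78) (nat_lit 0) (nat_lit 0) (XT.lf (nat_lit 0) (nat_lit 58823458648) (nat_lit 76) (nat_lit 16627044740) (nat_lit 76) (nat_lit 8806310146) (nat_lit 3) (nat_lit 4) (nat_lit 4) (nat_lit 5) (nat_lit 4) (nat_lit 4) (nat_lit 293) (nat_lit 226) (nat_lit 201)) (XT.lf (nat_lit 0) (nat_lit 69919288476) (nat_lit 76)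 (nat_lit 14407234741) (nat_lit 76) (nat_lit 6487446351) (nat_lit 3) (nat_lit 4) (nat_lit 4) (nat_lit 5) (nat_lit 4) (nat_lit 4) (nat_lit 294) (nat_lit 226) (nat_lit 200))) (XT.nd (nat_lit 78) (nat_lit 76) (nat_lit 0) (XT.lf (nat_lit 0) (nat_lit 81798891758) (nat_lit 76) (nat_lit 12055646439) (nat_lit 76) (nat_lit 4044141570) (nat_lit 3) (nat_lit 4) (nat_lit 4) (nat_lit 5) (nat_lit 4) (nat_lit 4) (nat_lit 295) (nat_lit 226) (nat_lit 199)) (XT.nd (nat_lit 78) (nat_lit 76) (nat_lit 0) (XT.lf (nat_lit 0) (nat_lit 94532666145) (nat_lit 76) (nat_lit 9558344496) (nat_lit 76) (nat_lit 1461916962) (nat_lit 3) (nat_lit 4) (nat_lit 4) (nat_lit 5) (nat_lit 4) (nat_lit 4) (nat_lit 296) (nat_lit 226) (nat_lit 198)) (XT.lf (nat_lit 0) (nat_lit 1233736640) (nat_lit 152) (nat_lit 5645899519) (nat_lit 76) (nat_lit 106941440472) (nat_lit 2) (nat_lit 5) (nat_lit 4) (nat_lit 5) (nat_lit 3) (nat_lit 4) (nat_lit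 297) (nat_lit 226) (nat_lit 197))))) (XT.nd (nat_lit 156) (nat_lit 0) (nat_lit 0) (XT.nd (nat_lit 78) (nat_lit 0) (nat_lit 0) (XT.lf (nat_lit 0) (nat_lit 51319694) (nat_lit 76) (nat_lit 3997064121) (nat_lit 152) (nat_lit 118703425974) (nat_lit 1) (nat_lit 5) (nat_lit 2) (nat_lit 5) (nat_lit 3) (nat_lit 4) (nat_lit 298) (nat_lit 226) (nat_lit 196)) (XT.lf (nat_lit 0) (nat_lit 6325500228) (nat_lit 76) (nat_lit 816344506) (nat_lit 152) (nat_lit 125252528925) (nat_lit 1) (nat_lit 5) (nat_lit 2) (nat_lit 5) (nat_lit 3) (nat_lit 4) (nat_lit 299) (nat_lit 226) (nat_lit 195))) (XT.nd (nat_lit 78) (nat_lit 0) (nat_lit 0) (XT.lf (nat_lit 0) (nat_lit 10481759008) (nat_lit 152) (nat_lit 129823689918) (nat_lit 0) (nat_lit 2502995034) (nat_lit 1) (nat_lit 5) (nat_lit 3) (nat_lit 4) (nat_lit 1) (nat_lit 4) (nat_lit 300) (nat_lit 226) (nat_lit 194)) (XT.nd (nat_lit 78) (nat_lit 0) (nat_lit 0) (XT.lf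 (nat_lit 0) (nat_lit 14063825153) (nat_lit 152) (nat_lit 133963096751) (nat_lit 0) (nat_lit 6030016475) (nat_lit 1) (nat_lit 5) (nat_lit 3) (nat_lit 4) (nat_lit 1) (nat_lit 4) (nat_lit 301) (nat_lit 226) (nat_lit 193)) (XT.lf (nat_lit 0) (nat_lit 17896524802) (nat_lit 152) (nat_lit 138498878322) (nat_lit 0) (nat_lit 9811748806) (nat_lit 1) (nat_lit 5) (nat_lit 3) (nat_lit 4) (nat_lit 1) (nat_lit 4) (nat_lit 302) (nat_lit 226) (nat_lit 192))))))))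
noncomputable def xc23 : XT := (XT.nd (nat_lit 1482) (nat_lit 0) (nat_lit 0) (XT.nd (nat_lit 702) (nat_lit 0) (nat_lit 0) (XT.nd (nat_lit 312) (nat_lit 0) (nat_lit 0) (XT.nd (nat_lit 156) (nat_lit 0) (nat_lit 0) (XT.nd (nat_lit 78) (nat_lit 0) (nat_lit 0) (XT.lf (nat_lit 0) (nat_lit 22002570250) (nat_lit 152) (nat_lit 143457913338) (nat_lit 0) (nat_lit 13870602292) (nat_lit 1) (nat_lit 5) (nat_lit 3) (nat_lit 4) (nat_lit 1) (nat_lit 4) (nat_lit 303) (nat_lit 226) (nat_lit 191)) (XT.lf (nat_lit 0) (nat_lit 26406293619) (nat_lit 152) (nat_lit 148869588673) (nat_lit 0) (nat_lit 18230629400) (nat_lit 1) (nat_lit 5) (nat_lit 3) (nat_lit 4) (nat_lit 1) (nat_lit 4) (nat_lit 304) (nat_lit 226) (nat_lit 190))) (XT.nd (nat_lit 78) (nat_lit 0) (nat_lit 0) (XT.lf (nat_lit 0) (nat_lit 31133791045) (nat_lit 152) (nat_lit 154765973515) (nat_lit 0) (nat_lit 22917667326) (nat_lit 1) (nat_lit 5) (nat_lit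 3) (nat_lit 4) (nat_lit 1) (nat_lit 4) (nat_lit 305) (nat_lit 226) (nat_lit 189)) (XT.lf (nat_lit 0) (nat_lit 36213077330) (nat_lit 152) (nat_lit 161182009402) (nat_lit 0) (nat_lit 27959491110) (nat_lit 1) (nat_lit 5) (nat_lit 3) (nat_lit 4) (nat_lit 1) (nat_lit 4) (nat_lit 306) (nat_lit 226) (nat_lit 188)))) (XT.nd (nat_lit 156) (nat_lit 0) (nat_lit 0) (XT.nd (nat_lit 78) (nat_lit 0) (nat_lit 0) (XT.lf (nat_lit 0) (nat_lit 41674251947) (nat_lit 152) (nat_lit 168155717288) (nat_lit 0) (nat_lit 33385978227) (nat_lit 1) (nat_lit 5) (nat_lit 3) (nat_lit 4) (nat_lit 1) (nat_lit 4) (nat_lit 307) (nat_lit 226) (nat_lit 187)) (XT.lf (nat_lit 0) (nat_lit 47549677413) (nat_lit 152) (nat_lit 175728422850) (nat_lit 0) (nat_lit 39229285637) (nat_lit 1) (nat_lit 5) (nat_lit 3) (nat_lit 4) (nat_lit 1) (nat_lit 4) (nat_lit 308) (nat_lit 226) (nat_lit 186))) (XT.nd (nat_lit 78) (nat_lit 0) (nat_lit 0)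 (XT.lf (nat_lit 0) (nat_lit 53874171064) (nat_lit 152) (nat_lit 183945001380) (nat_lit 0) (nat_lit 45524040347) (nat_lit 1) (nat_lit 5) (nat_lit 3) (nat_lit 4) (nat_lit 1) (nat_lit 4) (nat_lit 309) (nat_lit 226) (nat_lit 185)) (XT.nd (nat_lit 78) (nat_lit 0) (nat_lit 0) (XT.lf (nat_lit 0) (nat_lit 60685211380) (nat_lit 152) (nat_lit 192854143714) (nat_lit 0) (nat_lit 52307544606) (nat_lit 1) (nat_lit 5) (nat_lit 3) (nat_lit 4) (nat_lit 1) (nat_lit 4) (nat_lit 310) (nat_lit 226) (nat_lit 184)) (XT.lf (nat_lit 0) (nat_lit 68023160082) (nat_lit 152) (nat_lit 202508644769) (nat_lit 0) (nat_lit 59619996960) (nat_lit 1) (nat_lit 5) (nat_lit 3) (nat_lit 4) (nat_lit 1) (nat_lit 4) (nat_lit 311) (nat_lit 226) (nat_lit 183)))))) (XT.nd (nat_lit 390) (nat_lit 0) (nat_lit 0) (XT.nd (nat_lit 156) (nat_lit 0) (nat_lit 0) (XT.nd (nat_lit 78) (nat_lit 0) (nat_lit 0) (XT.lf (nat_lit 0) (nat_lit 75931501310)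 (nat_lit 152) (nat_lit 212965716403) (nat_lit 0) (nat_lit 67504730458) (nat_lit 1) (nat_lit 5) (nat_lit 3) (nat_lit 4) (nat_lit 1) (nat_lit 4) (nat_lit 312) (nat_lit 226) (nat_lit 182)) (XT.lf (nat_lit 0) (nat_lit 84457099309) (nat_lit 152) (nat_lit 224287326448) (nat_lit 0) (nat_lit 76008469448) (nat_lit 1) (nat_lit 5) (nat_lit 3) (nat_lit 4) (nat_lit 1) (nat_lit 4) (nat_lit 313) (nat_lit 226) (nat_lit 181))) (XT.nd (nat_lit 78) (nat_lit 0) (nat_lit 0) (XT.lf (nat_lit 0) (nat_lit 93650476141) (nat_lit 152) (nat_lit 236540565926) (nat_lit 0) (nat_lit 85181606457) (nat_lit 1) (nat_lit 5) (nat_lit 3) (nat_lit 4) (nat_lit 1) (nat_lit 4) (nat_lit 314) (nat_lit 226) (nat_lit 180)) (XT.nd (nat_lit 78) (nat_lit 0) (nat_lit 0) (XT.lf (nat_lit 0) (nat_lit 103566111076) (nat_lit 152) (nat_lit 249798046628) (nat_lit 0) (nat_lit 95078500815) (nat_lit 1) (nat_lit 5) (nat_lit 3) (nat_lit 4) (nat_lit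 1) (nat_lit 4) (nat_lit 315) (nat_lit 226) (nat_lit 179)) (XT.lf (nat_lit 0) (nat_lit 114262763433) (nat_lit 152) (nat_lit 264138331402) (nat_lit 0) (nat_lit 105757800785) (nat_lit 1) (nat_lit 5) (nat_lit 3) (nat_lit 4) (nat_lit 1) (nat_lit 4) (nat_lit 316) (nat_lit 226) (nat_lit 178))))) (XT.nd (nat_lit 156) (nat_lit 0) (nat_lit 0) (XT.nd (nat_lit 78) (nat_lit 0) (nat_lit 0) (XT.lf (nat_lit 0) (nat_lit 125803820780) (nat_lit 152) (nat_lit 279646399712) (nat_lit 0) (nat_lit 117282791108) (nat_lit 1) (nat_lit 5) (nat_lit 3) (nat_lit 4) (nat_lit 1) (nat_lit 4) (nat_lit 317) (nat_lit 226) (nat_lit 177)) (XT.lf (nat_lit 0) (nat_lit 138257674569) (nat_lit 152) (nat_lit 296414151224) (nat_lit 0) (nat_lit 129721768022) (nat_lit 1) (nat_lit 5) (nat_lit 3) (nat_lit 4) (nat_lit 1) (nat_lit 4) (nat_lit 318) (nat_lit 226) (nat_lit 176))) (XT.nd (nat_lit 78) (nat_lit 0) (nat_lit 0) (XT.lf (nat_lit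 0) (nat_lit 151698125414) (nat_lit 152) (nat_lit 314540950391) (nat_lit 0) (nat_lit 143148443984) (nat_lit 1) (nat_lit 5) (nat_lit 3) (nat_lit 4) (nat_lit 1) (nat_lit 4) (nat_lit 319) (nat_lit 226) (nat_lit 175)) (XT.nd (nat_lit 78) (nat_lit 0) (nat_lit 0) (XT.lf (nat_lit 0) (nat_lit 166204820432) (nat_lit 152) (nat_lit 334134215280) (nat_lit 0) (nat_lit 157642384480) (nat_lit 1) (nat_lit 5) (nat_lit 3) (nat_lit 4) (nat_lit 1) (nat_lit 4) (nat_lit 320) (nat_lit 226) (nat_lit 174)) (XT.lf (nat_lit 0) (nat_lit 181863725224) (nat_lit 152) (nat_lit 355310054131) (nat_lit 0) (nat_lit 173289479529) (nat_lit 1) (nat_lit 5) (nat_lit 3) (nat_lit 4) (nat_lit 1) (nat_lit 4) (nat_lit 321) (nat_lit 226) (nat_lit 173))))))) (XT.nd (nat_lit 33618) (nat_lit 0) (nat_lit 304) (XT.nd (nat_lit 33228) (nat_lit 0) (nat_lit 684) (XT.nd (nat_lit 156) (nat_lit 0) (nat_lit 0) (XT.nd (nat_lit 78) (nat_lit 0) (nat_lit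 0) (XT.lf (nat_lit 0) (nat_lit 198767633298) (nat_lit 152) (nat_lit 378193953393) (nat_lit 0) (nat_lit 190182452656) (nat_lit 1) (nat_lit 5) (nat_lit 3) (nat_lit 4) (nat_lit 1) (nat_lit 4) (nat_lit 322) (nat_lit 226) (nat_lit 172)) (XT.lf (nat_lit 0) (nat_lit 217016715962) (nat_lit 152) (nat_lit 402921521360) (nat_lit 0) (nat_lit 208421410369) (nat_lit 1) (nat_lit 5) (nat_lit 3) (nat_lit 4) (nat_lit 1) (nat_lit 4) (nat_lit 323) (nat_lit 226) (nat_lit 171))) (XT.nd (nat_lit 32994) (nat_lit 0) (nat_lit 1140) (XT.lf (nat_lit 0) (nat_lit 236719115928) (nat_lit 152) (nat_lit 429639291767) (nat_lit 0) (nat_lit 228114435381) (nat_lit 1) (nat_lit 5) (nat_lit 3) (nat_lit 4) (nat_lit 1) (nat_lit 4) (nat_lit 324) (nat_lit 226) (nat_lit 170)) (XT.lf (nat_lit 0) (nat_lit 2097169226) (nat_lit 152) (nat_lit 2350286842) (nat_lit 152) (nat_lit 2350286842) (nat_lit 16) (nat_lit 4) (nat_lit 18) (nat_lit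 5) (nat_lit 18) (nat_lit 4) (nat_lit 266) (nat_lit 227) (nat_lit 227)))) (XT.nd (nat_lit 156) (nat_lit 304) (nat_lit 0) (XT.nd (nat_lit 78) (nat_lit 0) (nat_lit 0) (XT.lf (nat_lit 0) (nat_lit 337379661) (nat_lit 76) (nat_lit 261598072) (nat_lit 152) (nat_lit 13753070335) (nat_lit 14) (nat_lit 5) (nat_lit 15) (nat_lit 5) (nat_lit 16) (nat_lit 4) (nat_lit 267) (nat_lit 227) (nat_lit 226)) (XT.lf (nat_lit 0) (nat_lit 6071973570) (nat_lit 152) (nat_lit 4659703242) (nat_lit 0) (nat_lit 4438559672) (nat_lit 14) (nat_lit 5) (nat_lit 16) (nat_lit 4) (nat_lit 14) (nat_lit 4) (nat_lit 268) (nat_lit 227) (nat_lit 225))) (XT.nd (nat_lit 78) (nat_lit 152) (nat_lit 0) (XT.lf (nat_lit 0) (nat_lit 5105673588) (nat_lit 152) (nat_lit 6660105132) (nat_lit 152) (nat_lit 4299566103) (nat_lit 12) (nat_lit 4) (nat_lit 14) (nat_lit 5) (nat_lit 14) (nat_lit 4) (nat_lit 269) (nat_lit 227) (nat_lit 224)) (XT.nd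 (nat_lit 78) (nat_lit 76) (nat_lit 0) (XT.lf (nat_lit 0) (nat_lit 645751474) (nat_lit 228) (nat_lit 1710012517) (nat_lit 76) (nat_lit 14686600000) (nat_lit 11) (nat_lit 5) (nat_lit 14) (nat_lit 5) (nat_lit 12) (nat_lit 4) (nat_lit 270) (nat_lit 227) (nat_lit 223)) (XT.lf (nat_lit 0) (nat_lit 5729508259) (nat_lit 152) (nat_lit 10123875721) (nat_lit 0) (nat_lit 2246464789) (nat_lit 10) (nat_lit 5) (nat_lit 12) (nat_lit 4) (nat_lit 10) (nat_lit 4) (nat_lit 271) (nat_lit 227) (nat_lit 222)))))) (XT.nd (nat_lit 390) (nat_lit 152) (nat_lit 0) (XT.nd (nat_lit 156) (nat_lit 152) (nat_lit 0) (XT.nd (nat_lit 78) (nat_lit 76) (nat_lit 0) (XT.lf (nat_lit 0) (nat_lit 11030616824) (nat_lit 152) (nat_lit 1223402214) (nat_lit 0) (nat_lit 6997844427) (nat_lit 10) (nat_lit 5) (nat_lit 12) (nat_lit 4) (nat_lit 10) (nat_lit 4) (nat_lit 272) (nat_lit 227) (nat_lit 221)) (XT.lf (nat_lit 0) (nat_lit 8244991210)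 (nat_lit 76) (nat_lit 8399414284) (nat_lit 76) (nat_lit 3857633621) (nat_lit 9) (nat_lit 4) (nat_lit 10) (nat_lit 5) (nat_lit 10) (nat_lit 4) (nat_lit 273) (nat_lit 227) (nat_lit 220))) (XT.nd (nat_lit 78) (nat_lit 76) (nat_lit 0) (XT.lf (nat_lit 0) (nat_lit 616789907) (nat_lit 152) (nat_lit 3748665302) (nat_lit 76) (nat_lit 17497030273) (nat_lit 8) (nat_lit 5) (nat_lit 10) (nat_lit 5) (nat_lit 9) (nat_lit 4) (nat_lit 274) (nat_lit 227) (nat_lit 219)) (XT.nd (nat_lit 78) (nat_lit 0) (nat_lit 0) (XT.lf (nat_lit 0) (nat_lit 5172039787) (nat_lit 76) (nat_lit 9187991) (nat_lit 152) (nat_lit 18154367698) (nat_lit 7) (nat_lit 5) (nat_lit 8) (nat_lit 5) (nat_lit 9) (nat_lit 4) (nat_lit 275) (nat_lit 227) (nat_lit 218)) (XT.lf (nat_lit 0) (nat_lit 10043291692) (nat_lit 152) (nat_lit 10418476060) (nat_lit 0) (nat_lit 4468487567) (nat_lit 7) (nat_lit 5) (nat_lit 9) (nat_lit 4) (nat_lit 7) (nat_lit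 4) (nat_lit 276) (nat_lit 227) (nat_lit 217))))) (XT.nd (nat_lit 156) (nat_lit 76) (nat_lit 0) (XT.nd (nat_lit 78) (nat_lit 76) (nat_lit 0) (XT.lf (nat_lit 0) (nat_lit 15102614560) (nat_lit 152) (nat_lit 2388269078) (nat_lit 0) (nat_lit 9171490177) (nat_lit 7) (nat_lit 5) (nat_lit 9) (nat_lit 4) (nat_lit 7) (nat_lit 4) (nat_lit 277) (nat_lit 227) (nat_lit 216)) (XT.lf (nat_lit 0) (nat_lit 6172348828) (nat_lit 76) (nat_lit 14313052940) (nat_lit 76) (nat_lit 8052002392) (nat_lit 6) (nat_lit 4) (nat_lit 7) (nat_lit 5) (nat_lit 7) (nat_lit 4) (nat_lit 278) (nat_lit 227) (nat_lit 215))) (XT.nd (nat_lit 78) (nat_lit 76) (nat_lit 0) (XT.lf (nat_lit 0) (nat_lit 15206994215) (nat_lit 76) (nat_lit 10964306839) (nat_lit 76) (nat_lit 4397769102) (nat_lit 6) (nat_lit 4) (nat_lit 7) (nat_lit 5) (nat_lit 7) (nat_lit 4) (nat_lit 279) (nat_lit 227) (nat_lit 214)) (XT.nd (nat_lit 78) (nat_lit 76) (nat_lit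 0) (XT.lf (nat_lit 0) (nat_lit 24690238759) (nat_lit 76) (nat_lit 7465247407) (nat_lit 76) (nat_lit 615851162) (nat_lit 6) (nat_lit 4) (nat_lit 7) (nat_lit 5) (nat_lit 7) (nat_lit 4) (nat_lit 280) (nat_lit 227) (nat_lit 213)) (XT.lf (nat_lit 0) (nat_lit 3210024873) (nat_lit 152) (nat_lit 530751280) (nat_lit 76) (nat_lit 31413891267) (nat_lit 5) (nat_lit 5) (nat_lit 7) (nat_lit 5) (nat_lit 6) (nat_lit 4) (nat_lit 281) (nat_lit 227) (nat_lit 212))))))))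
noncomputable def xc24 : XT := (XT.nd (nat_lit 1404) (nat_lit 0) (nat_lit 0) (XT.nd (nat_lit 702) (nat_lit 152) (nat_lit 0) (XT.nd (nat_lit 312) (nat_lit 76) (nat_lit 0) (XT.nd (nat_lit 156) (nat_lit 0) (nat_lit 0) (XT.nd (nat_lit 78) (nat_lit 0) (nat_lit 0) (XT.lf (nat_lit 0) (nat_lit 7307870951) (nat_lit 152) (nat_lit 30116864742) (nat_lit 0) (nat_lit 304244425) (nat_lit 4) (nat_lit 5) (nat_lit 6) (nat_lit 4) (nat_lit 4) (nat_lit 4) (nat_lit 282) (nat_lit 227) (nat_lit 211)) (XT.lf (nat_lit 0) (nat_lit 11674363405) (nat_lit 152) (nat_lit 24381126715) (nat_lit 0) (nat_lit 4456887161) (nat_lit 4) (nat_lit 5) (nat_lit 6) (nat_lit 4) (nat_lit 4) (nat_lit 4) (nat_lit 283) (nat_lit 227) (nat_lit 210))) (XT.nd (nat_lit 78) (nat_lit 0) (nat_lit 0) (XT.lf (nat_lit 0) (nat_lit 16268272906) (nat_lit 152) (nat_lit 18403647785) (nat_lit 0) (nat_lit 8852787664) (nat_lit 4) (nat_lit 5) (nat_lit 6)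 (nat_lit 4) (nat_lit 4) (nat_lit 4) (nat_lit 284) (nat_lit 227) (nat_lit 209)) (XT.lf (nat_lit 0) (nat_lit 21116822621) (nat_lit 152) (nat_lit 12149005856) (nat_lit 0) (nat_lit 13517995714) (nat_lit 4) (nat_lit 5) (nat_lit 6) (nat_lit 4) (nat_lit 4) (nat_lit 4) (nat_lit 285) (nat_lit 227) (nat_lit 208)))) (XT.nd (nat_lit 156) (nat_lit 0) (nat_lit 0) (XT.nd (nat_lit 78) (nat_lit 76) (nat_lit 0) (XT.lf (nat_lit 0) (nat_lit 26248744696) (nat_lit 152) (nat_lit 5580136383) (nat_lit 0) (nat_lit 18480156989) (nat_lit 4) (nat_lit 5) (nat_lit 6) (nat_lit 4) (nat_lit 4) (nat_lit 4) (nat_lit 286) (nat_lit 227) (nat_lit 207)) (XT.lf (nat_lit 0) (nat_lit 1386256121) (nat_lit 76) (nat_lit 30329837744) (nat_lit 76) (nat_lit 22404064110) (nat_lit 3) (nat_lit 4) (nat_lit 4) (nat_lit 5) (nat_lit 4) (nat_lit 4) (nat_lit 287) (nat_lit 227) (nat_lit 206))) (XT.nd (nat_lit 78) (nat_lit 0) (nat_lit 0) (XT.lf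 (nat_lit 0) (nat_lit 8944359871) (nat_lit 76) (nat_lit 28681497602) (nat_lit 76) (nat_lit 20610181443) (nat_lit 3) (nat_lit 4) (nat_lit 4) (nat_lit 5) (nat_lit 4) (nat_lit 4) (nat_lit 288) (nat_lit 227) (nat_lit 205)) (XT.nd (nat_lit 78) (nat_lit 0) (nat_lit 0) (XT.lf (nat_lit 0) (nat_lit 16954459121) (nat_lit 76) (nat_lit 26968595020) (nat_lit 76) (nat_lit 18762517264) (nat_lit 3) (nat_lit 4) (nat_lit 4) (nat_lit 5) (nat_lit 4) (nat_lit 4) (nat_lit 289) (nat_lit 227) (nat_lit 204)) (XT.lf (nat_lit 0) (nat_lit 25464021124) (nat_lit 76) (nat_lit 25180979465) (nat_lit 76) (nat_lit 16850122453) (nat_lit 3) (nat_lit 4) (nat_lit 4) (nat_lit 5) (nat_lit 4) (nat_lit 4) (nat_lit 290) (nat_lit 227) (nat_lit 203)))))) (XT.nd (nat_lit 312) (nat_lit 152) (nat_lit 0) (XT.nd (nat_lit 156) (nat_lit 0) (nat_lit 0) (XT.nd (nat_lit 78) (nat_lit 0) (nat_lit 0) (XT.lf (nat_lit 0) (nat_lit 34523472916) (nat_lit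 76) (nat_lit 23308057660) (nat_lit 76) (nat_lit 14861664299) (nat_lit 3) (nat_lit 4) (nat_lit 4) (nat_lit 5) (nat_lit 4) (nat_lit 4) (nat_lit 291) (nat_lit 227) (nat_lit 202)) (XT.lf (nat_lit 0) (nat_lit 44186500135) (nat_lit 76) (nat_lit 21338730808) (nat_lit 76) (nat_lit 12785359347) (nat_lit 3) (nat_lit 4) (nat_lit 4) (nat_lit 5) (nat_lit 4) (nat_lit 4) (nat_lit 292) (nat_lit 227) (nat_lit 201))) (XT.nd (nat_lit 78) (nat_lit 0) (nat_lit 0) (XT.lf (nat_lit 0) (nat_lit 54510365167) (nat_lit 76) (nat_lit 19261328825) (nat_lit 76) (nat_lit 10608903567) (nat_lit 3) (nat_lit 4) (nat_lit 4) (nat_lit 5) (nat_lit 4) (nat_lit 4) (nat_lit 293) (nat_lit 227) (nat_lit 200)) (XT.lf (nat_lit 0) (nat_lit 65556246470) (nat_lit 76) (nat_lit 17063541181) (nat_lit 76) (nat_lit 8319399444) (nat_lit 3) (nat_lit 4) (nat_lit 4) (nat_lit 5) (nat_lit 4) (nat_lit 4) (nat_lit 294) (nat_lit 227) (nat_lit 199))))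 (XT.nd (nat_lit 156) (nat_lit 152) (nat_lit 0) (XT.nd (nat_lit 78) (nat_lit 0) (nat_lit 0) (XT.lf (nat_lit 0) (nat_lit 77389601118) (nat_lit 76) (nat_lit 14732343948) (nat_lit 76) (nat_lit 5903279545) (nat_lit 3) (nat_lit 4) (nat_lit 4) (nat_lit 5) (nat_lit 4) (nat_lit 4) (nat_lit 295) (nat_lit 227) (nat_lit 198)) (XT.lf (nat_lit 0) (nat_lit 90080552696) (nat_lit 76) (nat_lit 12253922624) (nat_lit 76) (nat_lit 3346226124) (nat_lit 3) (nat_lit 4) (nat_lit 4) (nat_lit 5) (nat_lit 4) (nat_lit 4) (nat_lit 296) (nat_lit 227) (nat_lit 197))) (XT.nd (nat_lit 78) (nat_lit 152) (nat_lit 0) (XT.lf (nat_lit 0) (nat_lit 103704306841) (nat_lit 76) (nat_lit 9613590269) (nat_lit 76) (nat_lit 633086271) (nat_lit 3) (nat_lit 4) (nat_lit 4) (nat_lit 5) (nat_lit 4) (nat_lit 4) (nat_lit 297) (nat_lit 227) (nat_lit 196)) (XT.nd (nat_lit 78) (nat_lit 76) (nat_lit 0) (XT.lf (nat_lit 0) (nat_lit 2180132841)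 (nat_lit 152) (nat_lit 4578646022) (nat_lit 76) (nat_lit 116124542466) (nat_lit 2) (nat_lit 5) (nat_lit 4) (nat_lit 5) (nat_lit 3) (nat_lit 4) (nat_lit 298) (nat_lit 227) (nat_lit 195)) (XT.lf (nat_lit 0) (nat_lit 1508340079) (nat_lit 76) (nat_lit 3671503393) (nat_lit 152) (nat_lit 127350753348) (nat_lit 1) (nat_lit 5) (nat_lit 2) (nat_lit 5) (nat_lit 3) (nat_lit 4) (nat_lit 299) (nat_lit 227) (nat_lit 194))))))) (XT.nd (nat_lit 702) (nat_lit 0) (nat_lit 0) (XT.nd (nat_lit 312) (nat_lit 0) (nat_lit 0) (XT.nd (nat_lit 156) (nat_lit 0) (nat_lit 0) (XT.nd (nat_lit 78) (nat_lit 0) (nat_lit 0) (XT.lf (nat_lit 0) (nat_lit 8176831736) (nat_lit 76) (nat_lit 284128125) (nat_lit 152) (nat_lit 134486669476) (nat_lit 1) (nat_lit 5) (nat_lit 2) (nat_lit 5) (nat_lit 3) (nat_lit 4) (nat_lit 300) (nat_lit 227) (nat_lit 193)) (XT.lf (nat_lit 0) (nat_lit 12021315072) (nat_lit 152) (nat_lit 138937125221)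 (nat_lit 0) (nat_lit 3238789678) (nat_lit 1) (nat_lit 5) (nat_lit 3) (nat_lit 4) (nat_lit 1) (nat_lit 4) (nat_lit 301) (nat_lit 227) (nat_lit 192))) (XT.nd (nat_lit 78) (nat_lit 0) (nat_lit 0) (XT.lf (nat_lit 0) (nat_lit 15838019446) (nat_lit 152) (nat_lit 143501940888) (nat_lit 0) (nat_lit 7008302090) (nat_lit 1) (nat_lit 5) (nat_lit 3) (nat_lit 4) (nat_lit 1) (nat_lit 4) (nat_lit 302) (nat_lit 227) (nat_lit 191)) (XT.lf (nat_lit 0) (nat_lit 19929254454) (nat_lit 152) (nat_lit 148487859326) (nat_lit 0) (nat_lit 11055840837) (nat_lit 1) (nat_lit 5) (nat_lit 3) (nat_lit 4) (nat_lit 1) (nat_lit 4) (nat_lit 303) (nat_lit 227) (nat_lit 190)))) (XT.nd (nat_lit 156) (nat_lit 0) (nat_lit 0) (XT.nd (nat_lit 78) (nat_lit 0) (nat_lit 0) (XT.lf (nat_lit 0) (nat_lit 24319264452) (nat_lit 152) (nat_lit 153924426719) (nat_lit 0) (nat_lit 15405391334) (nat_lit 1) (nat_lit 5) (nat_lit 3) (nat_lit 4)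 (nat_lit 1) (nat_lit 4) (nat_lit 304) (nat_lit 227) (nat_lit 189)) (XT.lf (nat_lit 0) (nat_lit 29034064313) (nat_lit 152) (nat_lit 159843859761) (nat_lit 0) (nat_lit 20082728695) (nat_lit 1) (nat_lit 5) (nat_lit 3) (nat_lit 4) (nat_lit 1) (nat_lit 4) (nat_lit 305) (nat_lit 227) (nat_lit 188))) (XT.nd (nat_lit 78) (nat_lit 0) (nat_lit 0) (XT.lf (nat_lit 0) (nat_lit 34101593593) (nat_lit 152) (nat_lit 166281236575) (nat_lit 0) (nat_lit 25115570475) (nat_lit 1) (nat_lit 5) (nat_lit 3) (nat_lit 4) (nat_lit 1) (nat_lit 4) (nat_lit 306) (nat_lit 227) (nat_lit 187)) (XT.nd (nat_lit 78) (nat_lit 0) (nat_lit 0) (XT.lf (nat_lit 0) (nat_lit 39551882094) (nat_lit 152) (nat_lit 173274704579) (nat_lit 0) (nat_lit 30533740920) (nat_lit 1) (nat_lit 5) (nat_lit 3) (nat_lit 4) (nat_lit 1) (nat_lit 4) (nat_lit 307) (nat_lit 227) (nat_lit 186)) (XT.lf (nat_lit 0) (nat_lit 45417227823) (nat_lit 152) (nat_lit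 180865706547) (nat_lit 0) (nat_lit 36369347708) (nat_lit 1) (nat_lit 5) (nat_lit 3) (nat_lit 4) (nat_lit 1) (nat_lit 4) (nat_lit 308) (nat_lit 227) (nat_lit 185)))))) (XT.nd (nat_lit 390) (nat_lit 0) (nat_lit 0) (XT.nd (nat_lit 156) (nat_lit 0) (nat_lit 0) (XT.nd (nat_lit 78) (nat_lit 0) (nat_lit 0) (XT.lf (nat_lit 0) (nat_lit 51732388384) (nat_lit 152) (nat_lit 189099226193) (nat_lit 0) (nat_lit 42656972213) (nat_lit 1) (nat_lit 5) (nat_lit 3) (nat_lit 4) (nat_lit 1) (nat_lit 4) (nat_lit 309) (nat_lit 227) (nat_lit 184)) (XT.lf (nat_lit 0) (nat_lit 58534786950) (nat_lit 152) (nat_lit 198024054745) (nat_lit 0) (nat_lit 49433874431) (nat_lit 1) (nat_lit 5) (nat_lit 3) (nat_lit 4) (nat_lit 1) (nat_lit 4) (nat_lit 310) (nat_lit 227) (nat_lit 183))) (XT.nd (nat_lit 78) (nat_lit 0) (nat_lit 0) (XT.lf (nat_lit 0) (nat_lit 65864734032) (nat_lit 152) (nat_lit 207693080076) (nat_lit 0) (nat_lit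 56740213783) (nat_lit 1) (nat_lit 5) (nat_lit 3) (nat_lit 4) (nat_lit 1) (nat_lit 4) (nat_lit 311) (nat_lit 227) (nat_lit 182)) (XT.nd (nat_lit 78) (nat_lit 0) (nat_lit 0) (XT.lf (nat_lit 0) (nat_lit 73765666353) (nat_lit 152) (nat_lit 218163600114) (nat_lit 0) (nat_lit 64619287094) (nat_lit 1) (nat_lit 5) (nat_lit 3) (nat_lit 4) (nat_lit 1) (nat_lit 4) (nat_lit 312) (nat_lit 227) (nat_lit 181)) (XT.lf (nat_lit 0) (nat_lit 82284404253) (nat_lit 152) (nat_lit 229497662385) (nat_lit 0) (nat_lit 73117785170) (nat_lit 1) (nat_lit 5) (nat_lit 3) (nat_lit 4) (nat_lit 1) (nat_lit 4) (nat_lit 313) (nat_lit 227) (nat_lit 180))))) (XT.nd (nat_lit 156) (nat_lit 0) (nat_lit 0) (XT.nd (nat_lit 78) (nat_lit 0) (nat_lit 0) (XT.lf (nat_lit 0) (nat_lit 91471429141) (nat_lit 152) (nat_lit 241762431702) (nat_lit 0) (nat_lit 82286069481) (nat_lit 1) (nat_lit 5) (nat_lit 3) (nat_lit 4) (nat_lit 1) (nat_lit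 4) (nat_lit 314) (nat_lit 227) (nat_lit 179)) (XT.lf (nat_lit 0) (nat_lit 101381182646) (nat_lit 152) (nat_lit 255030588181) (nat_lit 0) (nat_lit 92178470601) (nat_lit 1) (nat_lit 5) (nat_lit 3) (nat_lit 4) (nat_lit 1) (nat_lit 4) (nat_lit 315) (nat_lit 227) (nat_lit 178))) (XT.nd (nat_lit 78) (nat_lit 0) (nat_lit 0) (XT.lf (nat_lit 0) (nat_lit 112072389235) (nat_lit 152) (nat_lit 269380757933) (nat_lit 0) (nat_lit 102853610164) (nat_lit 1) (nat_lit 5) (nat_lit 3) (nat_lit 4) (nat_lit 1) (nat_lit 4) (nat_lit 316) (nat_lit 227) (nat_lit 177)) (XT.nd (nat_lit 78) (nat_lit 0) (nat_lit 0) (XT.lf (nat_lit 0) (nat_lit 123608404204) (nat_lit 152) (nat_lit 284897979001) (nat_lit 0) (nat_lit 114374748259) (nat_lit 1) (nat_lit 5) (nat_lit 3) (nat_lit 4) (nat_lit 1) (nat_lit 4) (nat_lit 317) (nat_lit 227) (nat_lit 176)) (XT.lf (nat_lit 0) (nat_lit 136057589124) (nat_lit 152) (nat_lit 301674205289)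 (nat_lit 0) (nat_lit 126810158296) (nat_lit 1) (nat_lit 5) (nat_lit 3) (nat_lit 4) (nat_lit 1) (nat_lit 4) (nat_lit 318) (nat_lit 227) (nat_lit 175))))))))
noncomputable def xc25 : XT := (XT.nd (nat_lit 34164) (nat_lit 0) (nat_lit 152) (XT.nd (nat_lit 33462) (nat_lit 0) (nat_lit 456) (XT.nd (nat_lit 312) (nat_lit 0) (nat_lit 0) (XT.nd (nat_lit 156) (nat_lit 0) (nat_lit 0) (XT.nd (nat_lit 78) (nat_lit 0) (nat_lit 0) (XT.lf (nat_lit 0) (nat_lit 149493716943) (nat_lit 152) (nat_lit 319808851470) (nat_lit 0) (nat_lit 140233531593) (nat_lit 1) (nat_lit 5) (nat_lit 3) (nat_lit 4) (nat_lit 1) (nat_lit 4) (nat_lit 319) (nat_lit 227) (nat_lit 174)) (XT.lf (nat_lit 0) (nat_lit 163996409159) (nat_lit 152) (nat_lit 339409382114) (nat_lit 0) (nat_lit 154724414067) (nat_lit 1) (nat_lit 5) (nat_lit 3) (nat_lit 4) (nat_lit 1) (nat_lit 4) (nat_lit 320) (nat_lit 227) (nat_lit 173))) (XT.nd (nat_lit 78)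 (nat_lit 0) (nat_lit 0) (XT.lf (nat_lit 0) (nat_lit 179651607652) (nat_lit 152) (nat_lit 360591948514) (nat_lit 0) (nat_lit 170368677613) (nat_lit 1) (nat_lit 5) (nat_lit 3) (nat_lit 4) (nat_lit 1) (nat_lit 4) (nat_lit 321) (nat_lit 227) (nat_lit 172)) (XT.lf (nat_lit 0) (nat_lit 196552083969) (nat_lit 152) (nat_lit 383482076990) (nat_lit 0) (nat_lit 187259028978) (nat_lit 1) (nat_lit 5) (nat_lit 3) (nat_lit 4) (nat_lit 1) (nat_lit 4) (nat_lit 322) (nat_lit 227) (nat_lit 171)))) (XT.nd (nat_lit 32916) (nat_lit 0) (nat_lit 1140) (XT.nd (nat_lit 78) (nat_lit 0) (nat_lit 0) (XT.lf (nat_lit 0) (nat_lit 214797989079) (nat_lit 152) (nat_lit 408215412747) (nat_lit 0) (nat_lit 205495559135) (nat_lit 1) (nat_lit 5) (nat_lit 3) (nat_lit 4) (nat_lit 1) (nat_lit 4) (nat_lit 323) (nat_lit 227) (nat_lit 170)) (XT.lf (nat_lit 0) (nat_lit 234497446866) (nat_lit 152) (nat_lit 434938523701) (nat_lit 0)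 (nat_lit 225186336408) (nat_lit 1) (nat_lit 5) (nat_lit 3) (nat_lit 4) (nat_lit 1) (nat_lit 4) (nat_lit 324) (nat_lit 227) (nat_lit 169))) (XT.nd (nat_lit 78) (nat_lit 380) (nat_lit 0) (XT.lf (nat_lit 0) (nat_lit 4679631239) (nat_lit 152) (nat_lit 727049226) (nat_lit 152) (nat_lit 727049226) (nat_lit 21) (nat_lit 4) (nat_lit 23) (nat_lit 5) (nat_lit 23) (nat_lit 4) (nat_lit 264) (nat_lit 228) (nat_lit 228)) (XT.nd (nat_lit 78) (nat_lit 152) (nat_lit 0) (XT.lf (nat_lit 0) (nat_lit 4020924890) (nat_lit 228) (nat_lit 5825603175) (nat_lit 0) (nat_lit 3059158222) (nat_lit 18) (nat_lit 5) (nat_lit 21) (nat_lit 4) (nat_lit 18) (nat_lit 4) (nat_lit 265) (nat_lit 228) (nat_lit 227)) (XT.lf (nat_lit 0) (nat_lit 3937147008) (nat_lit 152) (nat_lit 5759496536) (nat_lit 152) (nat_lit 3907205177) (nat_lit 16) (nat_lit 4) (nat_lit 18) (nat_lit 5) (nat_lit 18) (nat_lit 4) (nat_lit 266) (nat_lit 228) (nat_lit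 226)))))) (XT.nd (nat_lit 312) (nat_lit 304) (nat_lit 0) (XT.nd (nat_lit 156) (nat_lit 228) (nat_lit 0) (XT.nd (nat_lit 78) (nat_lit 76) (nat_lit 0) (XT.lf (nat_lit 0) (nat_lit 1210752380) (nat_lit 228) (nat_lit 194808880) (nat_lit 76) (nat_lit 12962358886) (nat_lit 15) (nat_lit 5) (nat_lit 18) (nat_lit 5) (nat_lit 16) (nat_lit 4) (nat_lit 267) (nat_lit 228) (nat_lit 225)) (XT.lf (nat_lit 0) (nat_lit 6517907980) (nat_lit 152) (nat_lit 5435386769) (nat_lit 0) (nat_lit 3241400696) (nat_lit 14) (nat_lit 5) (nat_lit 16) (nat_lit 4) (nat_lit 14) (nat_lit 4) (nat_lit 268) (nat_lit 228) (nat_lit 224))) (XT.nd (nat_lit 78) (nat_lit 76) (nat_lit 0) (XT.lf (nat_lit 0) (nat_lit 4075789827) (nat_lit 152) (nat_lit 7985782657) (nat_lit 152) (nat_lit 4036011361) (nat_lit 12) (nat_lit 4) (nat_lit 14) (nat_lit 5) (nat_lit 14) (nat_lit 4) (nat_lit 269) (nat_lit 228) (nat_lit 223)) (XT.lf (nat_lit 0) (nat_lit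 771102175) (nat_lit 228) (nat_lit 2992404439) (nat_lit 76) (nat_lit 13317619856) (nat_lit 11) (nat_lit 5) (nat_lit 14) (nat_lit 5) (nat_lit 12) (nat_lit 4) (nat_lit 270) (nat_lit 228) (nat_lit 222)))) (XT.nd (nat_lit 156) (nat_lit 228) (nat_lit 0) (XT.nd (nat_lit 78) (nat_lit 0) (nat_lit 0) (XT.lf (nat_lit 0) (nat_lit 5687171334) (nat_lit 152) (nat_lit 11677999009) (nat_lit 0) (nat_lit 782048218) (nat_lit 10) (nat_lit 5) (nat_lit 12) (nat_lit 4) (nat_lit 10) (nat_lit 4) (nat_lit 271) (nat_lit 228) (nat_lit 221)) (XT.lf (nat_lit 0) (nat_lit 10872829900) (nat_lit 152) (nat_lit 2973683758) (nat_lit 0) (nat_lit 5458698518) (nat_lit 10) (nat_lit 5) (nat_lit 12) (nat_lit 4) (nat_lit 10) (nat_lit 4) (nat_lit 272) (nat_lit 228) (nat_lit 220))) (XT.nd (nat_lit 78) (nat_lit 152) (nat_lit 0) (XT.lf (nat_lit 0) (nat_lit 6249203996) (nat_lit 76) (nat_lit 10099356594) (nat_lit 76) (nat_lit 4213921262)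 (nat_lit 9) (nat_lit 4) (nat_lit 10) (nat_lit 5) (nat_lit 10) (nat_lit 4) (nat_lit 273) (nat_lit 228) (nat_lit 219)) (XT.nd (nat_lit 78) (nat_lit 76) (nat_lit 0) (XT.lf (nat_lit 0) (nat_lit 168375052) (nat_lit 152) (nat_lit 5976659020) (nat_lit 76) (nat_lit 15783517355) (nat_lit 8) (nat_lit 5) (nat_lit 10) (nat_lit 5) (nat_lit 9) (nat_lit 4) (nat_lit 274) (nat_lit 228) (nat_lit 218)) (XT.lf (nat_lit 0) (nat_lit 2700758509) (nat_lit 76) (nat_lit 1897609080) (nat_lit 152) (nat_lit 18810172157) (nat_lit 7) (nat_lit 5) (nat_lit 8) (nat_lit 5) (nat_lit 9) (nat_lit 4) (nat_lit 275) (nat_lit 228) (nat_lit 217))))))) (XT.nd (nat_lit 702) (nat_lit 76) (nat_lit 0) (XT.nd (nat_lit 312) (nat_lit 152) (nat_lit 0) (XT.nd (nat_lit 156) (nat_lit 76) (nat_lit 0) (XT.nd (nat_lit 78) (nat_lit 0) (nat_lit 0) (XT.lf (nat_lit 0) (nat_lit 9338707051) (nat_lit 152) (nat_lit 13093950799) (nat_lit 0) (nat_lit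 2576772460) (nat_lit 7) (nat_lit 5) (nat_lit 9) (nat_lit 4) (nat_lit 7) (nat_lit 4) (nat_lit 276) (nat_lit 228) (nat_lit 216)) (XT.lf (nat_lit 0) (nat_lit 14312621673) (nat_lit 152) (nat_lit 5212570424) (nat_lit 0) (nat_lit 7220760917) (nat_lit 7) (nat_lit 5) (nat_lit 9) (nat_lit 4) (nat_lit 7) (nat_lit 4) (nat_lit 277) (nat_lit 228) (nat_lit 215))) (XT.nd (nat_lit 78) (nat_lit 0) (nat_lit 0) (XT.lf (nat_lit 0) (nat_lit 3112304540) (nat_lit 76) (nat_lit 16456246763) (nat_lit 76) (nat_lit 9058898818) (nat_lit 6) (nat_lit 4) (nat_lit 7) (nat_lit 5) (nat_lit 7) (nat_lit 4) (nat_lit 278) (nat_lit 228) (nat_lit 214)) (XT.lf (nat_lit 0) (nat_lit 12015136238) (nat_lit 76) (nat_lit 13164032565) (nat_lit 76) (nat_lit 5483826111) (nat_lit 6) (nat_lit 4) (nat_lit 7) (nat_lit 5) (nat_lit 7) (nat_lit 4) (nat_lit 279) (nat_lit 228) (nat_lit 213)))) (XT.nd (nat_lit 156) (nat_lit 76) (nat_lit 0) (XT.nd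 (nat_lit 78) (nat_lit 76) (nat_lit 0) (XT.lf (nat_lit 0) (nat_lit 21376331070) (nat_lit 76) (nat_lit 9717317488) (nat_lit 76) (nat_lit 1775205007) (nat_lit 6) (nat_lit 4) (nat_lit 7) (nat_lit 5) (nat_lit 7) (nat_lit 4) (nat_lit 280) (nat_lit 228) (nat_lit 212)) (XT.lf (nat_lit 0) (nat_lit 2022082332) (nat_lit 152) (nat_lit 4039349278) (nat_lit 76) (nat_lit 29195035509) (nat_lit 5) (nat_lit 5) (nat_lit 7) (nat_lit 5) (nat_lit 6) (nat_lit 4) (nat_lit 281) (nat_lit 228) (nat_lit 211))) (XT.nd (nat_lit 78) (nat_lit 0) (nat_lit 0) (XT.lf (nat_lit 0) (nat_lit 3882394680) (nat_lit 76) (nat_lit 2113485780) (nat_lit 152) (nat_lit 31841188477) (nat_lit 4) (nat_lit 5) (nat_lit 5) (nat_lit 5) (nat_lit 6) (nat_lit 4) (nat_lit 282) (nat_lit 228) (nat_lit 210)) (XT.nd (nat_lit 78) (nat_lit 0) (nat_lit 0) (XT.lf (nat_lit 0) (nat_lit 10270768579) (nat_lit 152) (nat_lit 28290322516) (nat_lit 0) (nat_lit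 2064035520) (nat_lit 4) (nat_lit 5) (nat_lit 6) (nat_lit 4) (nat_lit 4) (nat_lit 4) (nat_lit 283) (nat_lit 228) (nat_lit 209)) (XT.lf (nat_lit 0) (nat_lit 14810412433) (nat_lit 152) (nat_lit 22409495180) (nat_lit 0) (nat_lit 6420337708) (nat_lit 4) (nat_lit 5) (nat_lit 6) (nat_lit 4) (nat_lit 4) (nat_lit 4) (nat_lit 284) (nat_lit 228) (nat_lit 208)))))) (XT.nd (nat_lit 390) (nat_lit 0) (nat_lit 0) (XT.nd (nat_lit 156) (nat_lit 76) (nat_lit 0) (XT.nd (nat_lit 78) (nat_lit 0) (nat_lit 0) (XT.lf (nat_lit 0) (nat_lit 19608716178) (nat_lit 152) (nat_lit 16244345467) (nat_lit 0) (nat_lit 11048880653) (nat_lit 4) (nat_lit 5) (nat_lit 6) (nat_lit 4) (nat_lit 4) (nat_lit 4) (nat_lit 285) (nat_lit 228) (nat_lit 207)) (XT.lf (nat_lit 0) (nat_lit 24694114208) (nat_lit 152) (nat_lit 9758339157) (nat_lit 0) (nat_lit 15977092756) (nat_lit 4) (nat_lit 5) (nat_lit 6) (nat_lit 4) (nat_lit 4) (nat_lit 4)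 (nat_lit 286) (nat_lit 228) (nat_lit 206))) (XT.nd (nat_lit 78) (nat_lit 76) (nat_lit 0) (XT.lf (nat_lit 0) (nat_lit 30096742214) (nat_lit 152) (nat_lit 2913040657) (nat_lit 0) (nat_lit 21234178238) (nat_lit 4) (nat_lit 5) (nat_lit 6) (nat_lit 4) (nat_lit 4) (nat_lit 4) (nat_lit 287) (nat_lit 228) (nat_lit 205)) (XT.nd (nat_lit 78) (nat_lit 0) (nat_lit 0) (XT.lf (nat_lit 0) (nat_lit 4475354043) (nat_lit 76) (nat_lit 31443134546) (nat_lit 76) (nat_lit 22445808972) (nat_lit 3) (nat_lit 4) (nat_lit 4) (nat_lit 5) (nat_lit 4) (nat_lit 4) (nat_lit 288) (nat_lit 228) (nat_lit 204)) (XT.lf (nat_lit 0) (nat_lit 12417498876) (nat_lit 76) (nat_lit 29760193134) (nat_lit 76) (nat_lit 20638088304) (nat_lit 3) (nat_lit 4) (nat_lit 4) (nat_lit 5) (nat_lit 4) (nat_lit 4) (nat_lit 289) (nat_lit 228) (nat_lit 203))))) (XT.nd (nat_lit 156) (nat_lit 0) (nat_lit 0) (XT.nd (nat_lit 78) (nat_lit 0) (nat_lit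 0) (XT.lf (nat_lit 0) (nat_lit 20864140124) (nat_lit 76) (nat_lit 28000319403) (nat_lit 76) (nat_lit 18762678225) (nat_lit 3) (nat_lit 4) (nat_lit 4) (nat_lit 5) (nat_lit 4) (nat_lit 4) (nat_lit 290) (nat_lit 228) (nat_lit 202)) (XT.lf (nat_lit 0) (nat_lit 29865331956) (nat_lit 76) (nat_lit 26153084472) (nat_lit 76) (nat_lit 16808465193) (nat_lit 3) (nat_lit 4) (nat_lit 4) (nat_lit 5) (nat_lit 4) (nat_lit 4) (nat_lit 291) (nat_lit 228) (nat_lit 201))) (XT.nd (nat_lit 78) (nat_lit 0) (nat_lit 0) (XT.lf (nat_lit 0) (nat_lit 39474414769) (nat_lit 76) (nat_lit 24207541763) (nat_lit 76) (nat_lit 14763868687) (nat_lit 3) (nat_lit 4) (nat_lit 4) (nat_lit 5) (nat_lit 4) (nat_lit 4) (nat_lit 292) (nat_lit 228) (nat_lit 200)) (XT.nd (nat_lit 78) (nat_lit 0) (nat_lit 0) (XT.lf (nat_lit 0) (nat_lit 49748331276) (nat_lit 76) (nat_lit 22152162134) (nat_lit 76) (nat_lit 12616772580) (nat_lit 3) (nat_lit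 4) (nat_lit 4) (nat_lit 5) (nat_lit 4) (nat_lit 4) (nat_lit 293) (nat_lit 228) (nat_lit 199)) (XT.lf (nat_lit 0) (nat_lit 60747963945) (nat_lit 76) (nat_lit 19974765558) (nat_lit 76) (nat_lit 10354453339) (nat_lit 3) (nat_lit 4) (nat_lit 4) (nat_lit 5) (nat_lit 4) (nat_lit 4) (nat_lit 294) (nat_lit 228) (nat_lit 198))))))))
noncomputable def xc26 : XT := (XT.nd (nat_lit 1404) (nat_lit 0) (nat_lit 0) (XT.nd (nat_lit 702) (nat_lit 0) (nat_lit 0) (XT.nd (nat_lit 312) (nat_lit 76) (nat_lit 0) (XT.nd (nat_lit 156) (nat_lit 76) (nat_lit 0) (XT.nd (nat_lit 78) (nat_lit 0) (nat_lit 0) (XT.lf (nat_lit 0) (nat_lit 72538495784) (nat_lit 76) (nat_lit 17662448945) (nat_lit 76) (nat_lit 7963504628) (nat_lit 3) (nat_lit 4) (nat_lit 4) (nat_lit 5) (nat_lit 4) (nat_lit 4) (nat_lit 295) (nat_lit 228) (nat_lit 197)) (XT.lf (nat_lit 0) (nat_lit 85189796612) (nat_lit 76) (nat_lit 15201509676) (nat_lit 76)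 (nat_lit 5429757861) (nat_lit 3) (nat_lit 4) (nat_lit 4) (nat_lit 5) (nat_lit 4) (nat_lit 4) (nat_lit 296) (nat_lit 228) (nat_lit 196))) (XT.nd (nat_lit 78) (nat_lit 76) (nat_lit 0) (XT.lf (nat_lit 0) (nat_lit 98776837101) (nat_lit 76) (nat_lit 12577364409) (nat_lit 76) (nat_lit 2738198244) (nat_lit 3) (nat_lit 4) (nat_lit 4) (nat_lit 5) (nat_lit 4) (nat_lit 4) (nat_lit 297) (nat_lit 228) (nat_lit 195)) (XT.lf (nat_lit 0) (nat_lit 123055437) (nat_lit 152) (nat_lit 9649323211) (nat_lit 76) (nat_lit 113254993604) (nat_lit 2) (nat_lit 5) (nat_lit 4) (nat_lit 5) (nat_lit 3) (nat_lit 4) (nat_lit 298) (nat_lit 228) (nat_lit 194)))) (XT.nd (nat_lit 156) (nat_lit 0) (nat_lit 0) (XT.nd (nat_lit 78) (nat_lit 76) (nat_lit 0) (XT.lf (nat_lit 0) (nat_lit 3081307246) (nat_lit 152) (nat_lit 3642703942) (nat_lit 76) (nat_lit 125952731819) (nat_lit 2) (nat_lit 5) (nat_lit 4) (nat_lit 5) (nat_lit 3) (nat_lit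 4) (nat_lit 299) (nat_lit 228) (nat_lit 193)) (XT.lf (nat_lit 0) (nat_lit 2874647554) (nat_lit 76) (nat_lit 3411960755) (nat_lit 152) (nat_lit 136810978650) (nat_lit 1) (nat_lit 5) (nat_lit 2) (nat_lit 5) (nat_lit 3) (nat_lit 4) (nat_lit 300) (nat_lit 228) (nat_lit 192))) (XT.nd (nat_lit 78) (nat_lit 0) (nat_lit 0) (XT.lf (nat_lit 0) (nat_lit 9782134012) (nat_lit 152) (nat_lit 144369466887) (nat_lit 0) (nat_lit 198847306) (nat_lit 1) (nat_lit 5) (nat_lit 3) (nat_lit 4) (nat_lit 1) (nat_lit 4) (nat_lit 301) (nat_lit 228) (nat_lit 191)) (XT.nd (nat_lit 78) (nat_lit 0) (nat_lit 0) (XT.lf (nat_lit 0) (nat_lit 13584027946) (nat_lit 152) (nat_lit 148961165976) (nat_lit 0) (nat_lit 3957044979) (nat_lit 1) (nat_lit 5) (nat_lit 3) (nat_lit 4) (nat_lit 1) (nat_lit 4) (nat_lit 302) (nat_lit 228) (nat_lit 190)) (XT.lf (nat_lit 0) (nat_lit 17661549583) (nat_lit 152) (nat_lit 153971976472) (nat_lit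 0) (nat_lit 7994107116) (nat_lit 1) (nat_lit 5) (nat_lit 3) (nat_lit 4) (nat_lit 1) (nat_lit 4) (nat_lit 303) (nat_lit 228) (nat_lit 189)))))) (XT.nd (nat_lit 312) (nat_lit 0) (nat_lit 0) (XT.nd (nat_lit 156) (nat_lit 0) (nat_lit 0) (XT.nd (nat_lit 78) (nat_lit 0) (nat_lit 0) (XT.lf (nat_lit 0) (nat_lit 22038862015) (nat_lit 152) (nat_lit 159431592066) (nat_lit 0) (nat_lit 12333957048) (nat_lit 1) (nat_lit 5) (nat_lit 3) (nat_lit 4) (nat_lit 1) (nat_lit 4) (nat_lit 304) (nat_lit 228) (nat_lit 188)) (XT.lf (nat_lit 0) (nat_lit 26741904872) (nat_lit 152) (nat_lit 165372366035) (nat_lit 0) (nat_lit 17002312403) (nat_lit 1) (nat_lit 5) (nat_lit 3) (nat_lit 4) (nat_lit 1) (nat_lit 4) (nat_lit 305) (nat_lit 228) (nat_lit 187))) (XT.nd (nat_lit 78) (nat_lit 0) (nat_lit 0) (XT.lf (nat_lit 0) (nat_lit 31798548036) (nat_lit 152) (nat_lit 171829502967) (nat_lit 0) (nat_lit 22026837511) (nat_lit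 1) (nat_lit 5) (nat_lit 3) (nat_lit 4) (nat_lit 1) (nat_lit 4) (nat_lit 306) (nat_lit 228) (nat_lit 186)) (XT.lf (nat_lit 0) (nat_lit 37238756800) (nat_lit 152) (nat_lit 178841267377) (nat_lit 0) (nat_lit 27437307335) (nat_lit 1) (nat_lit 5) (nat_lit 3) (nat_lit 4) (nat_lit 1) (nat_lit 4) (nat_lit 307) (nat_lit 228) (nat_lit 185)))) (XT.nd (nat_lit 156) (nat_lit 0) (nat_lit 0) (XT.nd (nat_lit 78) (nat_lit 0) (nat_lit 0) (XT.lf (nat_lit 0) (nat_lit 43094769440) (nat_lit 152) (nat_lit 186449210460) (nat_lit 0) (nat_lit 33265783918) (nat_lit 1) (nat_lit 5) (nat_lit 3) (nat_lit 4) (nat_lit 1) (nat_lit 4) (nat_lit 308) (nat_lit 228) (nat_lit 184)) (XT.lf (nat_lit 0) (nat_lit 49401288251) (nat_lit 152) (nat_lit 194698416324) (nat_lit 0) (nat_lit 39546806381) (nat_lit 1) (nat_lit 5) (nat_lit 3) (nat_lit 4) (nat_lit 1) (nat_lit 4) (nat_lit 309) (nat_lit 228) (nat_lit 183))) (XT.nd (nat_lit 78)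 (nat_lit 0) (nat_lit 0) (XT.lf (nat_lit 0) (nat_lit 56195685197) (nat_lit 152) (nat_lit 203637769153) (nat_lit 0) (nat_lit 46317595597) (nat_lit 1) (nat_lit 5) (nat_lit 3) (nat_lit 4) (nat_lit 1) (nat_lit 4) (nat_lit 310) (nat_lit 228) (nat_lit 182)) (XT.nd (nat_lit 78) (nat_lit 0) (nat_lit 0) (XT.lf (nat_lit 0) (nat_lit 63518223371) (nat_lit 152) (nat_lit 213320242888) (nat_lit 0) (nat_lit 53618274763) (nat_lit 1) (nat_lit 5) (nat_lit 3) (nat_lit 4) (nat_lit 1) (nat_lit 4) (nat_lit 311) (nat_lit 228) (nat_lit 181)) (XT.lf (nat_lit 0) (nat_lit 71412295593) (nat_lit 152) (nat_lit 223803215152) (nat_lit 0) (nat_lit 61492107161) (nat_lit 1) (nat_lit 5) (nat_lit 3) (nat_lit 4) (nat_lit 1) (nat_lit 4) (nat_lit 312) (nat_lit 228) (nat_lit 180))))))) (XT.nd (nat_lit 702) (nat_lit 0) (nat_lit 0) (XT.nd (nat_lit 312) (nat_lit 0) (nat_lit 0) (XT.nd (nat_lit 156) (nat_lit 0) (nat_lit 0) (XT.nd (nat_lit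 78) (nat_lit 0) (nat_lit 0) (XT.lf (nat_lit 0) (nat_lit 79924681549) (nat_lit 152) (nat_lit 235148807262) (nat_lit 0) (nat_lit 69985752539) (nat_lit 1) (nat_lit 5) (nat_lit 3) (nat_lit 4) (nat_lit 1) (nat_lit 4) (nat_lit 313) (nat_lit 228) (nat_lit 179)) (XT.lf (nat_lit 0) (nat_lit 89105825007) (nat_lit 152) (nat_lit 247424252356) (nat_lit 0) (nat_lit 79149543611) (nat_lit 1) (nat_lit 5) (nat_lit 3) (nat_lit 4) (nat_lit 1) (nat_lit 4) (nat_lit 314) (nat_lit 228) (nat_lit 178))) (XT.nd (nat_lit 78) (nat_lit 0) (nat_lit 0) (XT.lf (nat_lit 0) (nat_lit 99010132744) (nat_lit 152) (nat_lit 260702293813) (nat_lit 0) (nat_lit 89037784324) (nat_lit 1) (nat_lit 5) (nat_lit 3) (nat_lit 4) (nat_lit 1) (nat_lit 4) (nat_lit 315) (nat_lit 228) (nat_lit 177)) (XT.lf (nat_lit 0) (nat_lit 109696296955) (nat_lit 152) (nat_lit 275061616323) (nat_lit 0) (nat_lit 99709071660) (nat_lit 1) (nat_lit 5) (nat_lit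 3) (nat_lit 4) (nat_lit 1) (nat_lit 4) (nat_lit 316) (nat_lit 228) (nat_lit 176)))) (XT.nd (nat_lit 156) (nat_lit 0) (nat_lit 0) (XT.nd (nat_lit 78) (nat_lit 0) (nat_lit 0) (XT.lf (nat_lit 0) (nat_lit 121227643055) (nat_lit 152) (nat_lit 290587312167) (nat_lit 0) (nat_lit 111226642877) (nat_lit 1) (nat_lit 5) (nat_lit 3) (nat_lit 4) (nat_lit 1) (nat_lit 4) (nat_lit 317) (nat_lit 228) (nat_lit 175)) (XT.lf (nat_lit 0) (nat_lit 133672504949) (nat_lit 152) (nat_lit 307371385469) (nat_lit 0) (nat_lit 123658750249) (nat_lit 1) (nat_lit 5) (nat_lit 3) (nat_lit 4) (nat_lit 1) (nat_lit 4) (nat_lit 318) (nat_lit 228) (nat_lit 174))) (XT.nd (nat_lit 78) (nat_lit 0) (nat_lit 0) (XT.lf (nat_lit 0) (nat_lit 147104629966) (nat_lit 152) (nat_lit 325513297404) (nat_lit 0) (nat_lit 137079065524) (nat_lit 1) (nat_lit 5) (nat_lit 3) (nat_lit 4) (nat_lit 1) (nat_lit 4) (nat_lit 319) (nat_lit 228) (nat_lit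 173)) (XT.nd (nat_lit 78) (nat_lit 0) (nat_lit 0) (XT.lf (nat_lit 0) (nat_lit 161603615884) (nat_lit 152) (nat_lit 345120555599) (nat_lit 0) (nat_lit 151567116495) (nat_lit 1) (nat_lit 5) (nat_lit 3) (nat_lit 4) (nat_lit 1) (nat_lit 4) (nat_lit 320) (nat_lit 228) (nat_lit 172)) (XT.lf (nat_lit 0) (nat_lit 177255382619) (nat_lit 152) (nat_lit 366309351212) (nat_lit 0) (nat_lit 167208758279) (nat_lit 1) (nat_lit 5) (nat_lit 3) (nat_lit 4) (nat_lit 1) (nat_lit 4) (nat_lit 321) (nat_lit 228) (nat_lit 171)))))) (XT.nd (nat_lit 32994) (nat_lit 0) (nat_lit 988) (XT.nd (nat_lit 156) (nat_lit 0) (nat_lit 0) (XT.nd (nat_lit 78) (nat_lit 0) (nat_lit 0) (XT.lf (nat_lit 0) (nat_lit 194152681382) (nat_lit 152) (nat_lit 389205247478) (nat_lit 0) (nat_lit 184096682088) (nat_lit 1) (nat_lit 5) (nat_lit 3) (nat_lit 4) (nat_lit 1) (nat_lit 4) (nat_lit 322) (nat_lit 228) (nat_lit 170)) (XT.lf (nat_lit 0)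 (nat_lit 212395644314) (nat_lit 152) (nat_lit 413943923781) (nat_lit 0) (nat_lit 202330964506) (nat_lit 1) (nat_lit 5) (nat_lit 3) (nat_lit 4) (nat_lit 1) (nat_lit 4) (nat_lit 323) (nat_lit 228) (nat_lit 169))) (XT.nd (nat_lit 32682) (nat_lit 0) (nat_lit 1672) (XT.lf (nat_lit 0) (nat_lit 232092377861) (nat_lit 152) (nat_lit 440671979685) (nat_lit 0) (nat_lit 222019660540) (nat_lit 1) (nat_lit 5) (nat_lit 3) (nat_lit 4) (nat_lit 1) (nat_lit 4) (nat_lit 324) (nat_lit 228) (nat_lit 168)) (XT.nd (nat_lit 78) (nat_lit 0) (nat_lit 0) (XT.lf (nat_lit 0) (nat_lit 226741344) (nat_lit 228) (nat_lit 5116908984) (nat_lit 0) (nat_lit 226741344) (nat_lit 23) (nat_lit 5) (nat_lit 26) (nat_lit 4) (nat_lit 23) (nat_lit 4) (nat_lit 262) (nat_lit 229) (nat_lit 229)) (XT.lf (nat_lit 0) (nat_lit 5969319439) (nat_lit 228) (nat_lit 833707488) (nat_lit 0) (nat_lit 4878676038) (nat_lit 23) (nat_lit 5) (nat_lit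 26) (nat_lit 4) (nat_lit 23) (nat_lit 4) (nat_lit 263) (nat_lit 229) (nat_lit 228))))) (XT.nd (nat_lit 156) (nat_lit 304) (nat_lit 0) (XT.nd (nat_lit 78) (nat_lit 228) (nat_lit 0) (XT.lf (nat_lit 0) (nat_lit 9111801247) (nat_lit 152) (nat_lit 2632281081) (nat_lit 152) (nat_lit 531782680) (nat_lit 21) (nat_lit 4) (nat_lit 23) (nat_lit 5) (nat_lit 23) (nat_lit 4) (nat_lit 264) (nat_lit 229) (nat_lit 227)) (XT.lf (nat_lit 0) (nat_lit 4735111743) (nat_lit 228) (nat_lit 6343439378) (nat_lit 0) (nat_lit 1844112383) (nat_lit 18) (nat_lit 5) (nat_lit 21) (nat_lit 4) (nat_lit 18) (nat_lit 4) (nat_lit 265) (nat_lit 229) (nat_lit 226))) (XT.nd (nat_lit 78) (nat_lit 152) (nat_lit 0) (XT.lf (nat_lit 0) (nat_lit 3164048575) (nat_lit 152) (nat_lit 7090248829) (nat_lit 152) (nat_lit 3374689568) (nat_lit 16) (nat_lit 4) (nat_lit 18) (nat_lit 5) (nat_lit 18) (nat_lit 4) (nat_lit 266) (nat_lit 229) (nat_lit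 225)) (XT.nd (nat_lit 78) (nat_lit 76) (nat_lit 0) (XT.lf (nat_lit 0) (nat_lit 1586470763) (nat_lit 228) (nat_lit 1226775584) (nat_lit 76) (nat_lit 11586678887) (nat_lit 15) (nat_lit 5) (nat_lit 18) (nat_lit 5) (nat_lit 16) (nat_lit 4) (nat_lit 267) (nat_lit 229) (nat_lit 224)) (XT.lf (nat_lit 0) (nat_lit 6720669692) (nat_lit 152) (nat_lit 6733299022) (nat_lit 0) (nat_lit 1781652682) (nat_lit 14) (nat_lit 5) (nat_lit 16) (nat_lit 4) (nat_lit 14) (nat_lit 4) (nat_lit 268) (nat_lit 229) (nat_lit 223))))))))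
noncomputable def xc27 : XT := (XT.nd (nat_lit 1482) (nat_lit 228) (nat_lit 0) (XT.nd (nat_lit 702) (nat_lit 228) (nat_lit 0) (XT.nd (nat_lit 312) (nat_lit 228) (nat_lit 0) (XT.nd (nat_lit 156) (nat_lit 76) (nat_lit 0) (XT.nd (nat_lit 78) (nat_lit 76) (nat_lit 0) (XT.lf (nat_lit 0) (nat_lit 2523339926) (nat_lit 152) (nat_lit 9592625367) (nat_lit 152) (nat_lit 4030215753) (nat_lit 12) (nat_lit 4) (nat_lit 14) (nat_lit 5) (nat_lit 14) (nat_lit 4) (nat_lit 269) (nat_lit 229) (nat_lit 222)) (XT.lf (nat_lit 0) (nat_lit 656556136) (nat_lit 228) (nat_lit 4793684908) (nat_lit 76) (nat_lit 11685708842) (nat_lit 11) (nat_lit 5) (nat_lit 14) (nat_lit 5) (nat_lit 12) (nat_lit 4) (nat_lit 270) (nat_lit 229) (nat_lit 221))) (XT.nd (nat_lit 78) (nat_lit 0) (nat_lit 0) (XT.lf (nat_lit 0) (nat_lit 4430180067) (nat_lit 76) (nat_lit 986533948) (nat_lit 152) (nat_lit 12793329943) (nat_lit 10) (nat_lit 5)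 (nat_lit 11) (nat_lit 5) (nat_lit 12) (nat_lit 4) (nat_lit 271) (nat_lit 229) (nat_lit 220)) (XT.lf (nat_lit 0) (nat_lit 10480071874) (nat_lit 152) (nat_lit 5241774096) (nat_lit 0) (nat_lit 3652497766) (nat_lit 10) (nat_lit 5) (nat_lit 12) (nat_lit 4) (nat_lit 10) (nat_lit 4) (nat_lit 272) (nat_lit 229) (nat_lit 219)))) (XT.nd (nat_lit 156) (nat_lit 152) (nat_lit 0) (XT.nd (nat_lit 78) (nat_lit 0) (nat_lit 0) (XT.lf (nat_lit 0) (nat_lit 3732385666) (nat_lit 76) (nat_lit 12085142544) (nat_lit 76) (nat_lit 4821175890) (nat_lit 9) (nat_lit 4) (nat_lit 10) (nat_lit 5) (nat_lit 10) (nat_lit 4) (nat_lit 273) (nat_lit 229) (nat_lit 218)) (XT.lf (nat_lit 0) (nat_lit 13277060144) (nat_lit 76) (nat_lit 8200377490) (nat_lit 76) (nat_lit 532343664) (nat_lit 9) (nat_lit 4) (nat_lit 10) (nat_lit 5) (nat_lit 10) (nat_lit 4) (nat_lit 274) (nat_lit 229) (nat_lit 217))) (XT.nd (nat_lit 78) (nat_lit 76)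 (nat_lit 0) (XT.lf (nat_lit 0) (nat_lit 3783759945) (nat_lit 152) (nat_lit 285462207) (nat_lit 76) (nat_lit 19427653893) (nat_lit 8) (nat_lit 5) (nat_lit 10) (nat_lit 5) (nat_lit 9) (nat_lit 4) (nat_lit 275) (nat_lit 229) (nat_lit 216)) (XT.nd (nat_lit 78) (nat_lit 0) (nat_lit 0) (XT.lf (nat_lit 0) (nat_lit 8400106486) (nat_lit 152) (nat_lit 16293022860) (nat_lit 0) (nat_lit 410970706) (nat_lit 7) (nat_lit 5) (nat_lit 9) (nat_lit 4) (nat_lit 7) (nat_lit 4) (nat_lit 276) (nat_lit 229) (nat_lit 215)) (XT.lf (nat_lit 0) (nat_lit 13294939398) (nat_lit 152) (nat_lit 8549444899) (nat_lit 0) (nat_lit 5000316428) (nat_lit 7) (nat_lit 5) (nat_lit 9) (nat_lit 4) (nat_lit 7) (nat_lit 4) (nat_lit 277) (nat_lit 229) (nat_lit 214)))))) (XT.nd (nat_lit 390) (nat_lit 76) (nat_lit 0) (XT.nd (nat_lit 156) (nat_lit 76) (nat_lit 0) (XT.nd (nat_lit 78) (nat_lit 76) (nat_lit 0) (XT.lf (nat_lit 0) (nat_lit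 18429053428) (nat_lit 152) (nat_lit 451777944) (nat_lit 0) (nat_lit 9851571949) (nat_lit 7) (nat_lit 5) (nat_lit 9) (nat_lit 4) (nat_lit 7) (nat_lit 4) (nat_lit 278) (nat_lit 229) (nat_lit 213)) (XT.lf (nat_lit 0) (nat_lit 8314066222) (nat_lit 76) (nat_lit 15648612606) (nat_lit 76) (nat_lit 6809225100) (nat_lit 6) (nat_lit 4) (nat_lit 7) (nat_lit 5) (nat_lit 7) (nat_lit 4) (nat_lit 279) (nat_lit 229) (nat_lit 212))) (XT.nd (nat_lit 78) (nat_lit 76) (nat_lit 0) (XT.lf (nat_lit 0) (nat_lit 17562252062) (nat_lit 76) (nat_lit 12250364523) (nat_lit 76) (nat_lit 3168471438) (nat_lit 6) (nat_lit 4) (nat_lit 7) (nat_lit 5) (nat_lit 7) (nat_lit 4) (nat_lit 280) (nat_lit 229) (nat_lit 211)) (XT.nd (nat_lit 78) (nat_lit 0) (nat_lit 0) (XT.lf (nat_lit 0) (nat_lit 612580185) (nat_lit 152) (nat_lit 8050645909) (nat_lit 76) (nat_lit 26709691292) (nat_lit 5) (nat_lit 5) (nat_lit 7) (nat_lit 5) (nat_lit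 6) (nat_lit 4) (nat_lit 281) (nat_lit 229) (nat_lit 210)) (XT.lf (nat_lit 0) (nat_lit 4469440155) (nat_lit 152) (nat_lit 351992417) (nat_lit 76) (nat_lit 33138013838) (nat_lit 5) (nat_lit 5) (nat_lit 7) (nat_lit 5) (nat_lit 6) (nat_lit 4) (nat_lit 282) (nat_lit 229) (nat_lit 209))))) (XT.nd (nat_lit 156) (nat_lit 0) (nat_lit 0) (XT.nd (nat_lit 78) (nat_lit 0) (nat_lit 0) (XT.lf (nat_lit 0) (nat_lit 8029199405) (nat_lit 76) (nat_lit 622533711) (nat_lit 152) (nat_lit 32100475080) (nat_lit 4) (nat_lit 5) (nat_lit 5) (nat_lit 5) (nat_lit 6) (nat_lit 4) (nat_lit 283) (nat_lit 229) (nat_lit 208)) (XT.lf (nat_lit 0) (nat_lit 13131411505) (nat_lit 152) (nat_lit 26921954176) (nat_lit 0) (nat_lit 3717028338) (nat_lit 4) (nat_lit 5) (nat_lit 6) (nat_lit 4) (nat_lit 4) (nat_lit 4) (nat_lit 284) (nat_lit 229) (nat_lit 207))) (XT.nd (nat_lit 78) (nat_lit 0) (nat_lit 0) (XT.lf (nat_lit 0) (nat_lit 17883191205)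 (nat_lit 152) (nat_lit 20839667627) (nat_lit 0) (nat_lit 8311622111) (nat_lit 4) (nat_lit 5) (nat_lit 6) (nat_lit 4) (nat_lit 4) (nat_lit 4) (nat_lit 285) (nat_lit 229) (nat_lit 206)) (XT.nd (nat_lit 78) (nat_lit 0) (nat_lit 0) (XT.lf (nat_lit 0) (nat_lit 22925511415) (nat_lit 152) (nat_lit 14430386468) (nat_lit 0) (nat_lit 13208399795) (nat_lit 4) (nat_lit 5) (nat_lit 6) (nat_lit 4) (nat_lit 4) (nat_lit 4) (nat_lit 286) (nat_lit 229) (nat_lit 205)) (XT.lf (nat_lit 0) (nat_lit 28288252551) (nat_lit 152) (nat_lit 7656129774) (nat_lit 0) (nat_lit 18436379334) (nat_lit 4) (nat_lit 5) (nat_lit 6) (nat_lit 4) (nat_lit 4) (nat_lit 4) (nat_lit 287) (nat_lit 229) (nat_lit 204))))))) (XT.nd (nat_lit 702) (nat_lit 152) (nat_lit 0) (XT.nd (nat_lit 312) (nat_lit 0) (nat_lit 0) (XT.nd (nat_lit 156) (nat_lit 0) (nat_lit 0) (XT.nd (nat_lit 78) (nat_lit 76) (nat_lit 0) (XT.lf (nat_lit 0) (nat_lit 34003193819)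 (nat_lit 152) (nat_lit 476753803) (nat_lit 0) (nat_lit 24026541346) (nat_lit 4) (nat_lit 5) (nat_lit 6) (nat_lit 4) (nat_lit 4) (nat_lit 4) (nat_lit 288) (nat_lit 229) (nat_lit 203)) (XT.lf (nat_lit 0) (nat_lit 7386706640) (nat_lit 76) (nat_lit 32832822091) (nat_lit 76) (nat_lit 22740633270) (nat_lit 3) (nat_lit 4) (nat_lit 4) (nat_lit 5) (nat_lit 4) (nat_lit 4) (nat_lit 289) (nat_lit 229) (nat_lit 202))) (XT.nd (nat_lit 78) (nat_lit 0) (nat_lit 0) (XT.lf (nat_lit 0) (nat_lit 15775087928) (nat_lit 76) (nat_lit 31098635234) (nat_lit 76) (nat_lit 20899468312) (nat_lit 3) (nat_lit 4) (nat_lit 4) (nat_lit 5) (nat_lit 4) (nat_lit 4) (nat_lit 290) (nat_lit 229) (nat_lit 201)) (XT.lf (nat_lit 0) (nat_lit 24722335354) (nat_lit 76) (nat_lit 29275184446) (nat_lit 76) (nat_lit 18976963727) (nat_lit 3) (nat_lit 4) (nat_lit 4) (nat_lit 5) (nat_lit 4) (nat_lit 4) (nat_lit 291) (nat_lit 229) (nat_lit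 200)))) (XT.nd (nat_lit 156) (nat_lit 0) (nat_lit 0) (XT.nd (nat_lit 78) (nat_lit 0) (nat_lit 0) (XT.lf (nat_lit 0) (nat_lit 34281469642) (nat_lit 76) (nat_lit 27351664091) (nat_lit 76) (nat_lit 16961726894) (nat_lit 3) (nat_lit 4) (nat_lit 4) (nat_lit 5) (nat_lit 4) (nat_lit 4) (nat_lit 292) (nat_lit 229) (nat_lit 199)) (XT.lf (nat_lit 0) (nat_lit 44509137515) (nat_lit 76) (nat_lit 25316675531) (nat_lit 76) (nat_lit 14841815669) (nat_lit 3) (nat_lit 4) (nat_lit 4) (nat_lit 5) (nat_lit 4) (nat_lit 4) (nat_lit 293) (nat_lit 229) (nat_lit 198))) (XT.nd (nat_lit 78) (nat_lit 0) (nat_lit 0) (XT.lf (nat_lit 0) (nat_lit 55465947375) (nat_lit 76) (nat_lit 23158159575) (nat_lit 76) (nat_lit 12604667615) (nat_lit 3) (nat_lit 4) (nat_lit 4) (nat_lit 5) (nat_lit 4) (nat_lit 4) (nat_lit 294) (nat_lit 229) (nat_lit 197)) (XT.nd (nat_lit 78) (nat_lit 0) (nat_lit 0) (XT.lf (nat_lit 0) (nat_lit 67216828465)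 (nat_lit 76) (nat_lit 20863325016) (nat_lit 76) (nat_lit 10237025558) (nat_lit 3) (nat_lit 4) (nat_lit 4) (nat_lit 5) (nat_lit 4) (nat_lit 4) (nat_lit 295) (nat_lit 229) (nat_lit 196)) (XT.lf (nat_lit 0) (nat_lit 79831415637) (nat_lit 76) (nat_lit 18418572835) (nat_lit 76) (nat_lit 7724859028) (nat_lit 3) (nat_lit 4) (nat_lit 4) (nat_lit 5) (nat_lit 4) (nat_lit 4) (nat_lit 296) (nat_lit 229) (nat_lit 195)))))) (XT.nd (nat_lit 390) (nat_lit 0) (nat_lit 0) (XT.nd (nat_lit 156) (nat_lit 152) (nat_lit 0) (XT.nd (nat_lit 78) (nat_lit 0) (nat_lit 0) (XT.lf (nat_lit 0) (nat_lit 93384461998) (nat_lit 76) (nat_lit 15809415612) (nat_lit 76) (nat_lit 5053281110) (nat_lit 3) (nat_lit 4) (nat_lit 4) (nat_lit 5) (nat_lit 4) (nat_lit 4) (nat_lit 297) (nat_lit 229) (nat_lit 194)) (XT.lf (nat_lit 0) (nat_lit 107956281899) (nat_lit 76) (nat_lit 13020391674) (nat_lit 76) (nat_lit 2206460233) (nat_lit 3)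 (nat_lit 4) (nat_lit 4) (nat_lit 5) (nat_lit 4) (nat_lit 4) (nat_lit 298) (nat_lit 229) (nat_lit 193))) (XT.nd (nat_lit 78) (nat_lit 76) (nat_lit 0) (XT.lf (nat_lit 0) (nat_lit 805829296) (nat_lit 152) (nat_lit 9215497067) (nat_lit 76) (nat_lit 122813750459) (nat_lit 2) (nat_lit 5) (nat_lit 4) (nat_lit 5) (nat_lit 3) (nat_lit 4) (nat_lit 299) (nat_lit 229) (nat_lit 192)) (XT.nd (nat_lit 78) (nat_lit 76) (nat_lit 0) (XT.lf (nat_lit 0) (nat_lit 3950894625) (nat_lit 152) (nat_lit 2817664701) (nat_lit 76) (nat_lit 136490392372) (nat_lit 2) (nat_lit 5) (nat_lit 4) (nat_lit 5) (nat_lit 3) (nat_lit 4) (nat_lit 300) (nat_lit 229) (nat_lit 191)) (XT.lf (nat_lit 0) (nat_lit 4172555117) (nat_lit 76) (nat_lit 3210583845) (nat_lit 152) (nat_lit 147131855771) (nat_lit 1) (nat_lit 5) (nat_lit 2) (nat_lit 5) (nat_lit 3) (nat_lit 4) (nat_lit 301) (nat_lit 229) (nat_lit 190))))) (XT.nd (nat_lit 156) (nat_lit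 0) (nat_lit 0) (XT.nd (nat_lit 78) (nat_lit 0) (nat_lit 0) (XT.lf (nat_lit 0) (nat_lit 11121193315) (nat_lit 152) (nat_lit 154908904551) (nat_lit 0) (nat_lit 639895949) (nat_lit 1) (nat_lit 5) (nat_lit 3) (nat_lit 4) (nat_lit 1) (nat_lit 4) (nat_lit 302) (nat_lit 229) (nat_lit 189)) (XT.lf (nat_lit 0) (nat_lit 15186017387) (nat_lit 152) (nat_lit 159942763248) (nat_lit 0) (nat_lit 4667257521) (nat_lit 1) (nat_lit 5) (nat_lit 3) (nat_lit 4) (nat_lit 1) (nat_lit 4) (nat_lit 303) (nat_lit 229) (nat_lit 188))) (XT.nd (nat_lit 78) (nat_lit 0) (nat_lit 0) (XT.lf (nat_lit 0) (nat_lit 19551572814) (nat_lit 152) (nat_lit 165423719769) (nat_lit 0) (nat_lit 8998125447) (nat_lit 1) (nat_lit 5) (nat_lit 3) (nat_lit 4) (nat_lit 1) (nat_lit 4) (nat_lit 304) (nat_lit 229) (nat_lit 187)) (XT.nd (nat_lit 78) (nat_lit 0) (nat_lit 0) (XT.lf (nat_lit 0) (nat_lit 24243729554) (nat_lit 152) (nat_lit 171384253856)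 (nat_lit 0) (nat_lit 13658164132) (nat_lit 1) (nat_lit 5) (nat_lit 3) (nat_lit 4) (nat_lit 1) (nat_lit 4) (nat_lit 305) (nat_lit 229) (nat_lit 186)) (XT.lf (nat_lit 0) (nat_lit 29290292982) (nat_lit 152) (nat_lit 177859687193) (nat_lit 0) (nat_lit 18674988618) (nat_lit 1) (nat_lit 5) (nat_lit 3) (nat_lit 4) (nat_lit 1) (nat_lit 4) (nat_lit 306) (nat_lit 229) (nat_lit 185))))))))
noncomputable def xc28 : XT := (XT.nd (nat_lit 33852) (nat_lit 0) (nat_lit 456) (XT.nd (nat_lit 702) (nat_lit 0) (nat_lit 0) (XT.nd (nat_lit 312) (nat_lit 0) (nat_lit 0) (XT.nd (nat_lit 156) (nat_lit 0) (nat_lit 0) (XT.nd (nat_lit 78) (nat_lit 0) (nat_lit 0) (XT.lf (nat_lit 0) (nat_lit 34721168656) (nat_lit 152) (nat_lit 184888392719) (nat_lit 0) (nat_lit 24078328237) (nat_lit 1) (nat_lit 5) (nat_lit 3) (nat_lit 4) (nat_lit 1) (nat_lit 4) (nat_lit 307) (nat_lit 229) (nat_lit 184)) (XT.lf (nat_lit 0) (nat_lit 40568539546)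 (nat_lit 152) (nat_lit 192512022020) (nat_lit 0) (nat_lit 29900202778) (nat_lit 1) (nat_lit 5) (nat_lit 3) (nat_lit 4) (nat_lit 1) (nat_lit 4) (nat_lit 308) (nat_lit 229) (nat_lit 183))) (XT.nd (nat_lit 78) (nat_lit 0) (nat_lit 0) (XT.lf (nat_lit 0) (nat_lit 46867056737) (nat_lit 152) (nat_lit 200775752161) (nat_lit 0) (nat_lit 36175112239) (nat_lit 1) (nat_lit 5) (nat_lit 3) (nat_lit 4) (nat_lit 1) (nat_lit 4) (nat_lit 309) (nat_lit 229) (nat_lit 182)) (XT.lf (nat_lit 0) (nat_lit 53654044776) (nat_lit 152) (nat_lit 209728553394) (nat_lit 0) (nat_lit 42940241269) (nat_lit 1) (nat_lit 5) (nat_lit 3) (nat_lit 4) (nat_lit 1) (nat_lit 4) (nat_lit 310) (nat_lit 229) (nat_lit 181)))) (XT.nd (nat_lit 156) (nat_lit 0) (nat_lit 0) (XT.nd (nat_lit 78) (nat_lit 0) (nat_lit 0) (XT.lf (nat_lit 0) (nat_lit 60969722851) (nat_lit 152) (nat_lit 219423479355) (nat_lit 0) (nat_lit 50235679521) (nat_lit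 1) (nat_lit 5) (nat_lit 3) (nat_lit 4) (nat_lit 1) (nat_lit 4) (nat_lit 311) (nat_lit 229) (nat_lit 180)) (XT.lf (nat_lit 0) (nat_lit 68857443128) (nat_lit 152) (nat_lit 229917981458) (nat_lit 0) (nat_lit 58104659221) (nat_lit 1) (nat_lit 5) (nat_lit 3) (nat_lit 4) (nat_lit 1) (nat_lit 4) (nat_lit 312) (nat_lit 229) (nat_lit 179))) (XT.nd (nat_lit 78) (nat_lit 0) (nat_lit 0) (XT.lf (nat_lit 0) (nat_lit 77363947654) (nat_lit 152) (nat_lit 241274249344) (nat_lit 0) (nat_lit 66593811361) (nat_lit 1) (nat_lit 5) (nat_lit 3) (nat_lit 4) (nat_lit 1) (nat_lit 4) (nat_lit 313) (nat_lit 229) (nat_lit 178)) (XT.nd (nat_lit 78) (nat_lit 0) (nat_lit 0) (XT.lf (nat_lit 0) (nat_lit 86539645345) (nat_lit 152) (nat_lit 253559579417) (nat_lit 0) (nat_lit 75753442026) (nat_lit 1) (nat_lit 5) (nat_lit 3) (nat_lit 4) (nat_lit 1) (nat_lit 4) (nat_lit 314) (nat_lit 229) (nat_lit 177)) (XT.lf (nat_lit 0) (nat_lit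 96438910704) (nat_lit 152) (nat_lit 266846773632) (nat_lit 0) (nat_lit 85637830512) (nat_lit 1) (nat_lit 5) (nat_lit 3) (nat_lit 4) (nat_lit 1) (nat_lit 4) (nat_lit 315) (nat_lit 229) (nat_lit 176)))))) (XT.nd (nat_lit 312) (nat_lit 0) (nat_lit 0) (XT.nd (nat_lit 156) (nat_lit 0) (nat_lit 0) (XT.nd (nat_lit 78) (nat_lit 0) (nat_lit 0) (XT.lf (nat_lit 0) (nat_lit 107120406046) (nat_lit 152) (nat_lit 281214570918) (nat_lit 0) (nat_lit 96305550970) (nat_lit 1) (nat_lit 5) (nat_lit 3) (nat_lit 4) (nat_lit 1) (nat_lit 4) (nat_lit 316) (nat_lit 229) (nat_lit 175)) (XT.lf (nat_lit 0) (nat_lit 118647429120) (nat_lit 152) (nat_lit 296748113776) (nat_lit 0) (nat_lit 107819819522) (nat_lit 1) (nat_lit 5) (nat_lit 3) (nat_lit 4) (nat_lit 1) (nat_lit 4) (nat_lit 317) (nat_lit 229) (nat_lit 174))) (XT.nd (nat_lit 78) (nat_lit 0) (nat_lit 0) (XT.lf (nat_lit 0) (nat_lit 131088288212) (nat_lit 152) (nat_lit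 313539452833) (nat_lit 0) (nat_lit 120248868871) (nat_lit 1) (nat_lit 5) (nat_lit 3) (nat_lit 4) (nat_lit 1) (nat_lit 4) (nat_lit 318) (nat_lit 229) (nat_lit 173)) (XT.lf (nat_lit 0) (nat_lit 144516706931) (nat_lit 152) (nat_lit 331688092318) (nat_lit 0) (nat_lit 133666352643) (nat_lit 1) (nat_lit 5) (nat_lit 3) (nat_lit 4) (nat_lit 1) (nat_lit 4) (nat_lit 319) (nat_lit 229) (nat_lit 172)))) (XT.nd (nat_lit 156) (nat_lit 0) (nat_lit 0) (XT.nd (nat_lit 78) (nat_lit 0) (nat_lit 0) (XT.lf (nat_lit 0) (nat_lit 159012261091) (nat_lit 152) (nat_lit 351301579726) (nat_lit 0) (nat_lit 148151781853) (nat_lit 1) (nat_lit 5) (nat_lit 3) (nat_lit 4) (nat_lit 1) (nat_lit 4) (nat_lit 320) (nat_lit 229) (nat_lit 171)) (XT.lf (nat_lit 0) (nat_lit 174660850273) (nat_lit 152) (nat_lit 372496143129) (nat_lit 0) (nat_lit 163790996080) (nat_lit 1) (nat_lit 5) (nat_lit 3) (nat_lit 4) (nat_lit 1) (nat_lit 4)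 (nat_lit 321) (nat_lit 229) (nat_lit 170))) (XT.nd (nat_lit 78) (nat_lit 0) (nat_lit 0) (XT.lf (nat_lit 0) (nat_lit 191555206856) (nat_lit 152) (nat_lit 395397379941) (nat_lit 0) (nat_lit 180676672151) (nat_lit 1) (nat_lit 5) (nat_lit 3) (nat_lit 4) (nat_lit 1) (nat_lit 4) (nat_lit 322) (nat_lit 229) (nat_lit 169)) (XT.nd (nat_lit 78) (nat_lit 0) (nat_lit 0) (XT.lf (nat_lit 0) (nat_lit 209795445548) (nat_lit 152) (nat_lit 420141001195) (nat_lit 0) (nat_lit 198908873330) (nat_lit 1) (nat_lit 5) (nat_lit 3) (nat_lit 4) (nat_lit 1) (nat_lit 4) (nat_lit 323) (nat_lit 229) (nat_lit 168)) (XT.lf (nat_lit 0) (nat_lit 229489656651) (nat_lit 152) (nat_lit 446873635756) (nat_lit 0) (nat_lit 218595642291) (nat_lit 1) (nat_lit 5) (nat_lit 3) (nat_lit 4) (nat_lit 1) (nat_lit 4) (nat_lit 324) (nat_lit 229) (nat_lit 167))))))) (XT.nd (nat_lit 702) (nat_lit 532) (nat_lit 0) (XT.nd (nat_lit 312) (nat_lit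 684) (nat_lit 0) (XT.nd (nat_lit 156) (nat_lit 228) (nat_lit 0) (XT.nd (nat_lit 78) (nat_lit 228) (nat_lit 0) (XT.lf (nat_lit 0) (nat_lit 726795997) (nat_lit 228) (nat_lit 3638279912) (nat_lit 0) (nat_lit 726795997) (nat_lit 29) (nat_lit 5) (nat_lit 32) (nat_lit 4) (nat_lit 29) (nat_lit 4) (nat_lit 260) (nat_lit 230) (nat_lit 230)) (XT.lf (nat_lit 0) (nat_lit 2005930512) (nat_lit 228) (nat_lit 4937025265) (nat_lit 228) (nat_lit 3700235648) (nat_lit 26) (nat_lit 4) (nat_lit 29) (nat_lit 5) (nat_lit 29) (nat_lit 4) (nat_lit 261) (nat_lit 230) (nat_lit 229))) (XT.nd (nat_lit 78) (nat_lit 0) (nat_lit 0) (XT.lf (nat_lit 0) (nat_lit 643485638) (nat_lit 152) (nat_lit 832344032) (nat_lit 228) (nat_lit 9673173359) (nat_lit 23) (nat_lit 5) (nat_lit 25) (nat_lit 5) (nat_lit 26) (nat_lit 4) (nat_lit 262) (nat_lit 230) (nat_lit 228)) (XT.lf (nat_lit 0) (nat_lit 6822612759) (nat_lit 228) (nat_lit 1331952615)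 (nat_lit 0) (nat_lit 3544219484) (nat_lit 23) (nat_lit 5) (nat_lit 26) (nat_lit 4) (nat_lit 23) (nat_lit 4) (nat_lit 263) (nat_lit 230) (nat_lit 227)))) (XT.nd (nat_lit 156) (nat_lit 304) (nat_lit 0) (XT.nd (nat_lit 78) (nat_lit 152) (nat_lit 0) (XT.lf (nat_lit 0) (nat_lit 135646715) (nat_lit 228) (nat_lit 3935368433) (nat_lit 76) (nat_lit 8230007158) (nat_lit 20) (nat_lit 5) (nat_lit 23) (nat_lit 5) (nat_lit 21) (nat_lit 4) (nat_lit 264) (nat_lit 230) (nat_lit 226)) (XT.lf (nat_lit 0) (nat_lit 5205951001) (nat_lit 228) (nat_lit 7382180442) (nat_lit 0) (nat_lit 368587100) (nat_lit 18) (nat_lit 5) (nat_lit 21) (nat_lit 4) (nat_lit 18) (nat_lit 4) (nat_lit 265) (nat_lit 230) (nat_lit 225))) (XT.nd (nat_lit 78) (nat_lit 152) (nat_lit 0) (XT.lf (nat_lit 0) (nat_lit 1870461829) (nat_lit 152) (nat_lit 8700716502) (nat_lit 152) (nat_lit 3099871211) (nat_lit 16) (nat_lit 4) (nat_lit 18) (nat_lit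 5) (nat_lit 18) (nat_lit 4) (nat_lit 266) (nat_lit 230) (nat_lit 224)) (XT.nd (nat_lit 78) (nat_lit 76) (nat_lit 0) (XT.lf (nat_lit 0) (nat_lit 1723091919) (nat_lit 228) (nat_lit 2775434066) (nat_lit 76) (nat_lit 9949990379) (nat_lit 15) (nat_lit 5) (nat_lit 18) (nat_lit 5) (nat_lit 16) (nat_lit 4) (nat_lit 267) (nat_lit 230) (nat_lit 223)) (XT.lf (nat_lit 0) (nat_lit 6681460257) (nat_lit 152) (nat_lit 8561131332) (nat_lit 0) (nat_lit 50665271) (nat_lit 14) (nat_lit 5) (nat_lit 16) (nat_lit 4) (nat_lit 14) (nat_lit 4) (nat_lit 268) (nat_lit 230) (nat_lit 222)))))) (XT.nd (nat_lit 390) (nat_lit 152) (nat_lit 0) (XT.nd (nat_lit 156) (nat_lit 152) (nat_lit 0) (XT.nd (nat_lit 78) (nat_lit 76) (nat_lit 0) (XT.lf (nat_lit 0) (nat_lit 439124180) (nat_lit 152) (nat_lit 11490155293) (nat_lit 152) (nat_lit 4282144934) (nat_lit 12) (nat_lit 4) (nat_lit 14) (nat_lit 5) (nat_lit 14) (nat_lit 4) (nat_lit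 269) (nat_lit 230) (nat_lit 221)) (XT.lf (nat_lit 0) (nat_lit 301434566) (nat_lit 228) (nat_lit 7124528177) (nat_lit 76) (nat_lit 9781196373) (nat_lit 11) (nat_lit 5) (nat_lit 14) (nat_lit 5) (nat_lit 12) (nat_lit 4) (nat_lit 270) (nat_lit 230) (nat_lit 220))) (XT.nd (nat_lit 78) (nat_lit 76) (nat_lit 0) (XT.lf (nat_lit 0) (nat_lit 1845004783) (nat_lit 76) (nat_lit 3073211299) (nat_lit 152) (nat_lit 13370397053) (nat_lit 10) (nat_lit 5) (nat_lit 11) (nat_lit 5) (nat_lit 12) (nat_lit 4) (nat_lit 271) (nat_lit 230) (nat_lit 219)) (XT.nd (nat_lit 78) (nat_lit 76) (nat_lit 0) (XT.lf (nat_lit 0) (nat_lit 9850015292) (nat_lit 152) (nat_lit 8041113763) (nat_lit 0) (nat_lit 1568538760) (nat_lit 10) (nat_lit 5) (nat_lit 12) (nat_lit 4) (nat_lit 10) (nat_lit 4) (nat_lit 272) (nat_lit 230) (nat_lit 218)) (XT.lf (nat_lit 0) (nat_lit 679621741) (nat_lit 76) (nat_lit 14368539756) (nat_lit 76) (nat_lit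 5682996051) (nat_lit 9) (nat_lit 4) (nat_lit 10) (nat_lit 5) (nat_lit 10) (nat_lit 4) (nat_lit 273) (nat_lit 230) (nat_lit 217))))) (XT.nd (nat_lit 156) (nat_lit 76) (nat_lit 0) (XT.nd (nat_lit 78) (nat_lit 76) (nat_lit 0) (XT.lf (nat_lit 0) (nat_lit 10075346731) (nat_lit 76) (nat_lit 10545539474) (nat_lit 76) (nat_lit 1485859499) (nat_lit 9) (nat_lit 4) (nat_lit 10) (nat_lit 5) (nat_lit 10) (nat_lit 4) (nat_lit 274) (nat_lit 230) (nat_lit 216)) (XT.lf (nat_lit 0) (nat_lit 2778576609) (nat_lit 152) (nat_lit 3710020399) (nat_lit 76) (nat_lit 17110230891) (nat_lit 8) (nat_lit 5) (nat_lit 10) (nat_lit 5) (nat_lit 9) (nat_lit 4) (nat_lit 275) (nat_lit 230) (nat_lit 215))) (XT.nd (nat_lit 78) (nat_lit 0) (nat_lit 0) (XT.lf (nat_lit 0) (nat_lit 5145597784) (nat_lit 76) (nat_lit 2109261620) (nat_lit 152) (nat_lit 17958319571) (nat_lit 7) (nat_lit 5) (nat_lit 8) (nat_lit 5) (nat_lit 9) (nat_lit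 4) (nat_lit 276) (nat_lit 230) (nat_lit 214)) (XT.nd (nat_lit 78) (nat_lit 0) (nat_lit 0) (XT.lf (nat_lit 0) (nat_lit 12043537026) (nat_lit 152) (nat_lit 12418666574) (nat_lit 0) (nat_lit 2496998521) (nat_lit 7) (nat_lit 5) (nat_lit 9) (nat_lit 4) (nat_lit 7) (nat_lit 4) (nat_lit 277) (nat_lit 230) (nat_lit 213)) (XT.lf (nat_lit 0) (nat_lit 17109851236) (nat_lit 152) (nat_lit 4439142977) (nat_lit 0) (nat_lit 7301406704) (nat_lit 7) (nat_lit 5) (nat_lit 9) (nat_lit 4) (nat_lit 7) (nat_lit 4) (nat_lit 278) (nat_lit 230) (nat_lit 212))))))))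
noncomputable def xc29 : XT := (XT.nd (nat_lit 1404) (nat_lit 152) (nat_lit 0) (XT.nd (nat_lit 702) (nat_lit 76) (nat_lit 0) (XT.nd (nat_lit 312) (nat_lit 76) (nat_lit 0) (XT.nd (nat_lit 156) (nat_lit 76) (nat_lit 0) (XT.nd (nat_lit 78) (nat_lit 0) (nat_lit 0) (XT.lf (nat_lit 0) (nat_lit 4081851900) (nat_lit 76) (nat_lit 18432770399) (nat_lit 76) (nat_lit 8381820287) (nat_lit 6) (nat_lit 4) (nat_lit 7) (nat_lit 5) (nat_lit 7) (nat_lit 4) (nat_lit 279) (nat_lit 230) (nat_lit 211)) (XT.lf (nat_lit 0) (nat_lit 13225399783) (nat_lit 76) (nat_lit 15079399164) (nat_lit 76) (nat_lit 4803906847) (nat_lit 6) (nat_lit 4) (nat_lit 7) (nat_lit 5) (nat_lit 7) (nat_lit 4) (nat_lit 280) (nat_lit 230) (nat_lit 210))) (XT.nd (nat_lit 78) (nat_lit 76) (nat_lit 0) (XT.lf (nat_lit 0) (nat_lit 22898906545) (nat_lit 76) (nat_lit 11544187712) (nat_lit 76) (nat_lit 1060785948) (nat_lit 6) (nat_lit 4) (nat_lit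 7) (nat_lit 5) (nat_lit 7) (nat_lit 4) (nat_lit 281) (nat_lit 230) (nat_lit 209)) (XT.lf (nat_lit 0) (nat_lit 2777874782) (nat_lit 152) (nat_lit 4981267209) (nat_lit 76) (nat_lit 30334777233) (nat_lit 5) (nat_lit 5) (nat_lit 7) (nat_lit 5) (nat_lit 6) (nat_lit 4) (nat_lit 282) (nat_lit 230) (nat_lit 208)))) (XT.nd (nat_lit 156) (nat_lit 0) (nat_lit 0) (XT.nd (nat_lit 78) (nat_lit 0) (nat_lit 0) (XT.lf (nat_lit 0) (nat_lit 3159327867) (nat_lit 76) (nat_lit 3676519557) (nat_lit 152) (nat_lit 34057118444) (nat_lit 4) (nat_lit 5) (nat_lit 5) (nat_lit 5) (nat_lit 6) (nat_lit 4) (nat_lit 283) (nat_lit 230) (nat_lit 207)) (XT.lf (nat_lit 0) (nat_lit 11221320489) (nat_lit 152) (nat_lit 31967765272) (nat_lit 0) (nat_lit 726839940) (nat_lit 4) (nat_lit 5) (nat_lit 6) (nat_lit 4) (nat_lit 4) (nat_lit 4) (nat_lit 284) (nat_lit 230) (nat_lit 206))) (XT.nd (nat_lit 78) (nat_lit 0) (nat_lit 0) (XT.lf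 (nat_lit 0) (nat_lit 15930022368) (nat_lit 152) (nat_lit 25962203874) (nat_lit 0) (nat_lit 5289999295) (nat_lit 4) (nat_lit 5) (nat_lit 6) (nat_lit 4) (nat_lit 4) (nat_lit 4) (nat_lit 285) (nat_lit 230) (nat_lit 205)) (XT.nd (nat_lit 78) (nat_lit 0) (nat_lit 0) (XT.lf (nat_lit 0) (nat_lit 20932455708) (nat_lit 152) (nat_lit 19623964522) (nat_lit 0) (nat_lit 10157671037) (nat_lit 4) (nat_lit 5) (nat_lit 6) (nat_lit 4) (nat_lit 4) (nat_lit 4) (nat_lit 286) (nat_lit 230) (nat_lit 204)) (XT.lf (nat_lit 0) (nat_lit 26258264556) (nat_lit 152) (nat_lit 12915487279) (nat_lit 0) (nat_lit 15358700629) (nat_lit 4) (nat_lit 5) (nat_lit 6) (nat_lit 4) (nat_lit 4) (nat_lit 4) (nat_lit 287) (nat_lit 230) (nat_lit 203)))))) (XT.nd (nat_lit 312) (nat_lit 0) (nat_lit 0) (XT.nd (nat_lit 156) (nat_lit 0) (nat_lit 0) (XT.nd (nat_lit 78) (nat_lit 76) (nat_lit 0) (XT.lf (nat_lit 0) (nat_lit 31939009262) (nat_lit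 152) (nat_lit 5797018206) (nat_lit 0) (nat_lit 20923908986) (nat_lit 4) (nat_lit 5) (nat_lit 6) (nat_lit 4) (nat_lit 4) (nat_lit 4) (nat_lit 288) (nat_lit 230) (nat_lit 202)) (XT.lf (nat_lit 0) (nat_lit 1832270309) (nat_lit 76) (nat_lit 36204690063) (nat_lit 76) (nat_lit 25082611687) (nat_lit 3) (nat_lit 4) (nat_lit 4) (nat_lit 5) (nat_lit 4) (nat_lit 4) (nat_lit 289) (nat_lit 230) (nat_lit 201))) (XT.nd (nat_lit 78) (nat_lit 0) (nat_lit 0) (XT.lf (nat_lit 0) (nat_lit 10166707191) (nat_lit 76) (nat_lit 34494287349) (nat_lit 76) (nat_lit 23273155176) (nat_lit 3) (nat_lit 4) (nat_lit 4) (nat_lit 5) (nat_lit 4) (nat_lit 4) (nat_lit 290) (nat_lit 230) (nat_lit 200)) (XT.lf (nat_lit 0) (nat_lit 19064006092) (nat_lit 76) (nat_lit 32692858914) (nat_lit 76) (nat_lit 21380010263) (nat_lit 3) (nat_lit 4) (nat_lit 4) (nat_lit 5) (nat_lit 4) (nat_lit 4) (nat_lit 291) (nat_lit 230) (nat_lit 199))))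 (XT.nd (nat_lit 156) (nat_lit 0) (nat_lit 0) (XT.nd (nat_lit 78) (nat_lit 0) (nat_lit 0) (XT.lf (nat_lit 0) (nat_lit 28576891747) (nat_lit 76) (nat_lit 30789729629) (nat_lit 76) (nat_lit 19391958312) (nat_lit 3) (nat_lit 4) (nat_lit 4) (nat_lit 5) (nat_lit 4) (nat_lit 4) (nat_lit 292) (nat_lit 230) (nat_lit 198)) (XT.lf (nat_lit 0) (nat_lit 38761736811) (nat_lit 76) (nat_lit 28773621688) (nat_lit 76) (nat_lit 17297218274) (nat_lit 3) (nat_lit 4) (nat_lit 4) (nat_lit 5) (nat_lit 4) (nat_lit 4) (nat_lit 293) (nat_lit 230) (nat_lit 197))) (XT.nd (nat_lit 78) (nat_lit 0) (nat_lit 0) (XT.lf (nat_lit 0) (nat_lit 49678895921) (nat_lit 76) (nat_lit 26632587786) (nat_lit 76) (nat_lit 15083376875) (nat_lit 3) (nat_lit 4) (nat_lit 4) (nat_lit 5) (nat_lit 4) (nat_lit 4) (nat_lit 294) (nat_lit 230) (nat_lit 196)) (XT.nd (nat_lit 78) (nat_lit 0) (nat_lit 0) (XT.lf (nat_lit 0) (nat_lit 61393063355)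 (nat_lit 76) (nat_lit 24353940315) (nat_lit 76) (nat_lit 12737315054) (nat_lit 3) (nat_lit 4) (nat_lit 4) (nat_lit 5) (nat_lit 4) (nat_lit 4) (nat_lit 295) (nat_lit 230) (nat_lit 195)) (XT.lf (nat_lit 0) (nat_lit 73973656399) (nat_lit 76) (nat_lit 21924176179) (nat_lit 76) (nat_lit 10245130223) (nat_lit 3) (nat_lit 4) (nat_lit 4) (nat_lit 5) (nat_lit 4) (nat_lit 4) (nat_lit 296) (nat_lit 230) (nat_lit 194))))))) (XT.nd (nat_lit 702) (nat_lit 0) (nat_lit 0) (XT.nd (nat_lit 312) (nat_lit 76) (nat_lit 0) (XT.nd (nat_lit 156) (nat_lit 76) (nat_lit 0) (XT.nd (nat_lit 78) (nat_lit 0) (nat_lit 0) (XT.lf (nat_lit 0) (nat_lit 87495226718) (nat_lit 76) (nat_lit 19328896775) (nat_lit 76) (nat_lit 7592053880) (nat_lit 3) (nat_lit 4) (nat_lit 4) (nat_lit 5) (nat_lit 4) (nat_lit 4) (nat_lit 297) (nat_lit 230) (nat_lit 193)) (XT.lf (nat_lit 0) (nat_lit 102037902135) (nat_lit 76) (nat_lit 16552722669)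 (nat_lit 76) (nat_lit 4762364090) (nat_lit 3) (nat_lit 4) (nat_lit 4) (nat_lit 5) (nat_lit 4) (nat_lit 4) (nat_lit 298) (nat_lit 230) (nat_lit 192))) (XT.nd (nat_lit 78) (nat_lit 76) (nat_lit 0) (XT.lf (nat_lit 0) (nat_lit 117687861466) (nat_lit 76) (nat_lit 13579202460) (nat_lit 76) (nat_lit 1739292321) (nat_lit 3) (nat_lit 4) (nat_lit 4) (nat_lit 5) (nat_lit 4) (nat_lit 4) (nat_lit 299) (nat_lit 230) (nat_lit 191)) (XT.lf (nat_lit 0) (nat_lit 1447224158) (nat_lit 152) (nat_lit 8918981687) (nat_lit 76) (nat_lit 133066111614) (nat_lit 2) (nat_lit 5) (nat_lit 4) (nat_lit 5) (nat_lit 3) (nat_lit 4) (nat_lit 300) (nat_lit 230) (nat_lit 190)))) (XT.nd (nat_lit 156) (nat_lit 0) (nat_lit 0) (XT.nd (nat_lit 78) (nat_lit 76) (nat_lit 0) (XT.lf (nat_lit 0) (nat_lit 4801159268) (nat_lit 152) (nat_lit 2085897188) (nat_lit 76) (nat_lit 147805235907) (nat_lit 2) (nat_lit 5) (nat_lit 4) (nat_lit 5)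 (nat_lit 3) (nat_lit 4) (nat_lit 301) (nat_lit 230) (nat_lit 189)) (XT.lf (nat_lit 0) (nat_lit 5421942310) (nat_lit 76) (nat_lit 3060765798) (nat_lit 152) (nat_lit 158367423804) (nat_lit 1) (nat_lit 5) (nat_lit 2) (nat_lit 5) (nat_lit 3) (nat_lit 4) (nat_lit 302) (nat_lit 230) (nat_lit 188))) (XT.nd (nat_lit 78) (nat_lit 0) (nat_lit 0) (XT.lf (nat_lit 0) (nat_lit 12487988044) (nat_lit 152) (nat_lit 166435602095) (nat_lit 0) (nat_lit 1055577388) (nat_lit 1) (nat_lit 5) (nat_lit 3) (nat_lit 4) (nat_lit 1) (nat_lit 4) (nat_lit 303) (nat_lit 230) (nat_lit 187)) (XT.nd (nat_lit 78) (nat_lit 0) (nat_lit 0) (XT.lf (nat_lit 0) (nat_lit 16842657355) (nat_lit 152) (nat_lit 171936318733) (nat_lit 0) (nat_lit 5378128643) (nat_lit 1) (nat_lit 5) (nat_lit 3) (nat_lit 4) (nat_lit 1) (nat_lit 4) (nat_lit 304) (nat_lit 230) (nat_lit 186)) (XT.lf (nat_lit 0) (nat_lit 21524734359) (nat_lit 152) (nat_lit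 177915149226) (nat_lit 0) (nat_lit 10030466706) (nat_lit 1) (nat_lit 5) (nat_lit 3) (nat_lit 4) (nat_lit 1) (nat_lit 4) (nat_lit 305) (nat_lit 230) (nat_lit 185)))))) (XT.nd (nat_lit 390) (nat_lit 0) (nat_lit 0) (XT.nd (nat_lit 156) (nat_lit 0) (nat_lit 0) (XT.nd (nat_lit 78) (nat_lit 0) (nat_lit 0) (XT.lf (nat_lit 0) (nat_lit 26561964696) (nat_lit 152) (nat_lit 184407523679) (nat_lit 0) (nat_lit 15040160987) (nat_lit 1) (nat_lit 5) (nat_lit 3) (nat_lit 4) (nat_lit 1) (nat_lit 4) (nat_lit 306) (nat_lit 230) (nat_lit 184)) (XT.lf (nat_lit 0) (nat_lit 31984198622) (nat_lit 152) (nat_lit 191451915423) (nat_lit 0) (nat_lit 20436898564) (nat_lit 1) (nat_lit 5) (nat_lit 3) (nat_lit 4) (nat_lit 1) (nat_lit 4) (nat_lit 307) (nat_lit 230) (nat_lit 183))) (XT.nd (nat_lit 78) (nat_lit 0) (nat_lit 0) (XT.lf (nat_lit 0) (nat_lit 37823567891) (nat_lit 152) (nat_lit 199090069001) (nat_lit 0) (nat_lit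 26252660104) (nat_lit 1) (nat_lit 5) (nat_lit 3) (nat_lit 4) (nat_lit 1) (nat_lit 4) (nat_lit 308) (nat_lit 230) (nat_lit 182)) (XT.nd (nat_lit 78) (nat_lit 0) (nat_lit 0) (XT.lf (nat_lit 0) (nat_lit 44114676175) (nat_lit 152) (nat_lit 207367247546) (nat_lit 0) (nat_lit 32521909378) (nat_lit 1) (nat_lit 5) (nat_lit 3) (nat_lit 4) (nat_lit 1) (nat_lit 4) (nat_lit 309) (nat_lit 230) (nat_lit 181)) (XT.lf (nat_lit 0) (nat_lit 50894804114) (nat_lit 152) (nat_lit 216332501004) (nat_lit 0) (nat_lit 39281797494) (nat_lit 1) (nat_lit 5) (nat_lit 3) (nat_lit 4) (nat_lit 1) (nat_lit 4) (nat_lit 310) (nat_lit 230) (nat_lit 180))))) (XT.nd (nat_lit 156) (nat_lit 0) (nat_lit 0) (XT.nd (nat_lit 78) (nat_lit 0) (nat_lit 0) (XT.lf (nat_lit 0) (nat_lit 58204130245) (nat_lit 152) (nat_lit 226038956804) (nat_lit 0) (nat_lit 46572383048) (nat_lit 1) (nat_lit 5) (nat_lit 3) (nat_lit 4) (nat_lit 1) (nat_lit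 4) (nat_lit 311) (nat_lit 230) (nat_lit 179)) (XT.lf (nat_lit 0) (nat_lit 66085969093) (nat_lit 152) (nat_lit 236544134684) (nat_lit 0) (nat_lit 54436869509) (nat_lit 1) (nat_lit 5) (nat_lit 3) (nat_lit 4) (nat_lit 1) (nat_lit 4) (nat_lit 312) (nat_lit 230) (nat_lit 178))) (XT.nd (nat_lit 78) (nat_lit 0) (nat_lit 0) (XT.lf (nat_lit 0) (nat_lit 74587027851) (nat_lit 152) (nat_lit 247910287549) (nat_lit 0) (nat_lit 62921861243) (nat_lit 1) (nat_lit 5) (nat_lit 3) (nat_lit 4) (nat_lit 1) (nat_lit 4) (nat_lit 313) (nat_lit 230) (nat_lit 177)) (XT.nd (nat_lit 78) (nat_lit 0) (nat_lit 0) (XT.lf (nat_lit 0) (nat_lit 83757683163) (nat_lit 152) (nat_lit 260204770379) (nat_lit 0) (nat_lit 72077639681) (nat_lit 1) (nat_lit 5) (nat_lit 3) (nat_lit 4) (nat_lit 1) (nat_lit 4) (nat_lit 314) (nat_lit 230) (nat_lit 176)) (XT.lf (nat_lit 0) (nat_lit 93652279654) (nat_lit 152) (nat_lit 273500439370) (nat_lit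 0) (nat_lit 81958461288) (nat_lit 1) (nat_lit 5) (nat_lit 3) (nat_lit 4) (nat_lit 1) (nat_lit 4) (nat_lit 315) (nat_lit 230) (nat_lit 175))))))))
noncomputable def xc30 : XT := (XT.nd (nat_lit 33696) (nat_lit 0) (nat_lit 228) (XT.nd (nat_lit 32994) (nat_lit 0) (nat_lit 1140) (XT.nd (nat_lit 312) (nat_lit 0) (nat_lit 0) (XT.nd (nat_lit 156) (nat_lit 0) (nat_lit 0) (XT.nd (nat_lit 78) (nat_lit 0) (nat_lit 0) (XT.lf (nat_lit 0) (nat_lit 104329451970) (nat_lit 152) (nat_lit 287876083670) (nat_lit 0) (nat_lit 92622879082) (nat_lit 1) (nat_lit 5) (nat_lit 3) (nat_lit 4) (nat_lit 1) (nat_lit 4) (nat_lit 316) (nat_lit 230) (nat_lit 174)) (XT.lf (nat_lit 0) (nat_lit 115852472242) (nat_lit 152) (nat_lit 303416892283) (nat_lit 0) (nat_lit 104134089611) (nat_lit 1) (nat_lit 5) (nat_lit 3) (nat_lit 4) (nat_lit 1) (nat_lit 4) (nat_lit 317) (nat_lit 230) (nat_lit 173))) (XT.nd (nat_lit 78) (nat_lit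 0) (nat_lit 0) (XT.lf (nat_lit 0) (nat_lit 128289625035) (nat_lit 152) (nat_lit 320214958890) (nat_lit 0) (nat_lit 116560307458) (nat_lit 1) (nat_lit 5) (nat_lit 3) (nat_lit 4) (nat_lit 1) (nat_lit 4) (nat_lit 318) (nat_lit 230) (nat_lit 172)) (XT.lf (nat_lit 0) (nat_lit 141714611996) (nat_lit 152) (nat_lit 338369827589) (nat_lit 0) (nat_lit 129975169468) (nat_lit 1) (nat_lit 5) (nat_lit 3) (nat_lit 4) (nat_lit 1) (nat_lit 4) (nat_lit 319) (nat_lit 230) (nat_lit 171)))) (XT.nd (nat_lit 156) (nat_lit 0) (nat_lit 0) (XT.nd (nat_lit 78) (nat_lit 0) (nat_lit 0) (XT.lf (nat_lit 0) (nat_lit 156206988603) (nat_lit 152) (nat_lit 357989082786) (nat_lit 0) (nat_lit 144458171120) (nat_lit 1) (nat_lit 5) (nat_lit 3) (nat_lit 4) (nat_lit 1) (nat_lit 4) (nat_lit 320) (nat_lit 230) (nat_lit 170)) (XT.lf (nat_lit 0) (nat_lit 171852635606) (nat_lit 152) (nat_lit 379188986736) (nat_lit 0) (nat_lit 160095137610)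 (nat_lit 1) (nat_lit 5) (nat_lit 3) (nat_lit 4) (nat_lit 1) (nat_lit 4) (nat_lit 321) (nat_lit 230) (nat_lit 169))) (XT.nd (nat_lit 78) (nat_lit 0) (nat_lit 0) (XT.lf (nat_lit 0) (nat_lit 188744267950) (nat_lit 152) (nat_lit 402095168498) (nat_lit 0) (nat_lit 176978732442) (nat_lit 1) (nat_lit 5) (nat_lit 3) (nat_lit 4) (nat_lit 1) (nat_lit 4) (nat_lit 322) (nat_lit 230) (nat_lit 168)) (XT.nd (nat_lit 78) (nat_lit 0) (nat_lit 0) (XT.lf (nat_lit 0) (nat_lit 206981984197) (nat_lit 152) (nat_lit 426843368409) (nat_lit 0) (nat_lit 195209006548) (nat_lit 1) (nat_lit 5) (nat_lit 3) (nat_lit 4) (nat_lit 1) (nat_lit 4) (nat_lit 323) (nat_lit 230) (nat_lit 167)) (XT.lf (nat_lit 0) (nat_lit 226673859703) (nat_lit 152) (nat_lit 453580242469) (nat_lit 0) (nat_lit 214893991182) (nat_lit 1) (nat_lit 5) (nat_lit 3) (nat_lit 4) (nat_lit 1) (nat_lit 4) (nat_lit 324) (nat_lit 230) (nat_lit 166)))))) (XT.nd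 (nat_lit 312) (nat_lit 760) (nat_lit 0) (XT.nd (nat_lit 156) (nat_lit 456) (nat_lit 0) (XT.nd (nat_lit 78) (nat_lit 228) (nat_lit 0) (XT.lf (nat_lit 0) (nat_lit 927852602) (nat_lit 304) (nat_lit 2831725207) (nat_lit 0) (nat_lit 927852602) (nat_lit 35) (nat_lit 5) (nat_lit 39) (nat_lit 4) (nat_lit 35) (nat_lit 4) (nat_lit 258) (nat_lit 231) (nat_lit 231)) (XT.lf (nat_lit 0) (nat_lit 3353225588) (nat_lit 228) (nat_lit 3906579569) (nat_lit 228) (nat_lit 2504060144) (nat_lit 32) (nat_lit 4) (nat_lit 35) (nat_lit 5) (nat_lit 35) (nat_lit 4) (nat_lit 259) (nat_lit 231) (nat_lit 230))) (XT.nd (nat_lit 78) (nat_lit 228) (nat_lit 0) (XT.lf (nat_lit 0) (nat_lit 2620274375) (nat_lit 228) (nat_lit 7524671541) (nat_lit 0) (nat_lit 47751972) (nat_lit 29) (nat_lit 5) (nat_lit 32) (nat_lit 4) (nat_lit 29) (nat_lit 4) (nat_lit 260) (nat_lit 231) (nat_lit 229)) (XT.lf (nat_lit 0) (nat_lit 1512286017) (nat_lit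 228) (nat_lit 6433116813) (nat_lit 228) (nat_lit 2715418840) (nat_lit 26) (nat_lit 4) (nat_lit 29) (nat_lit 5) (nat_lit 29) (nat_lit 4) (nat_lit 261) (nat_lit 231) (nat_lit 228)))) (XT.nd (nat_lit 156) (nat_lit 532) (nat_lit 0) (XT.nd (nat_lit 78) (nat_lit 152) (nat_lit 0) (XT.lf (nat_lit 0) (nat_lit 2267866759) (nat_lit 304) (nat_lit 128918868) (nat_lit 76) (nat_lit 8777551358) (nat_lit 25) (nat_lit 5) (nat_lit 29) (nat_lit 5) (nat_lit 26) (nat_lit 4) (nat_lit 262) (nat_lit 231) (nat_lit 227)) (XT.lf (nat_lit 0) (nat_lit 7443612550) (nat_lit 228) (nat_lit 2331395432) (nat_lit 0) (nat_lit 1958041886) (nat_lit 23) (nat_lit 5) (nat_lit 26) (nat_lit 4) (nat_lit 23) (nat_lit 4) (nat_lit 263) (nat_lit 231) (nat_lit 226))) (XT.nd (nat_lit 78) (nat_lit 304) (nat_lit 0) (XT.lf (nat_lit 0) (nat_lit 547523142) (nat_lit 228) (nat_lit 5228936115) (nat_lit 76) (nat_lit 6566508374) (nat_lit 20) (nat_lit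 5) (nat_lit 23) (nat_lit 5) (nat_lit 21) (nat_lit 4) (nat_lit 264) (nat_lit 231) (nat_lit 225)) (XT.nd (nat_lit 78) (nat_lit 152) (nat_lit 0) (XT.lf (nat_lit 0) (nat_lit 4036765383) (nat_lit 152) (nat_lit 1421663592) (nat_lit 228) (nat_lit 7548514431) (nat_lit 18) (nat_lit 5) (nat_lit 20) (nat_lit 5) (nat_lit 21) (nat_lit 4) (nat_lit 265) (nat_lit 231) (nat_lit 224)) (XT.lf (nat_lit 0) (nat_lit 48721073) (nat_lit 152) (nat_lit 10600443067) (nat_lit 152) (nat_lit 3081121553) (nat_lit 16) (nat_lit 4) (nat_lit 18) (nat_lit 5) (nat_lit 18) (nat_lit 4) (nat_lit 266) (nat_lit 231) (nat_lit 223))))))) (XT.nd (nat_lit 702) (nat_lit 304) (nat_lit 0) (XT.nd (nat_lit 312) (nat_lit 304) (nat_lit 0) (XT.nd (nat_lit 156) (nat_lit 152) (nat_lit 0) (XT.nd (nat_lit 78) (nat_lit 76) (nat_lit 0) (XT.lf (nat_lit 0) (nat_lit 1621425456) (nat_lit 228) (nat_lit 4849961561) (nat_lit 76) (nat_lit 8042594466)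 (nat_lit 15) (nat_lit 5) (nat_lit 18) (nat_lit 5) (nat_lit 16) (nat_lit 4) (nat_lit 267) (nat_lit 231) (nat_lit 222)) (XT.lf (nat_lit 0) (nat_lit 4405003724) (nat_lit 76) (nat_lit 2026685843) (nat_lit 152) (nat_lit 8934671702) (nat_lit 14) (nat_lit 5) (nat_lit 15) (nat_lit 5) (nat_lit 16) (nat_lit 4) (nat_lit 268) (nat_lit 231) (nat_lit 221))) (XT.nd (nat_lit 78) (nat_lit 152) (nat_lit 0) (XT.lf (nat_lit 0) (nat_lit 11534588417) (nat_lit 152) (nat_lit 2119139979) (nat_lit 0) (nat_lit 2638263177) (nat_lit 14) (nat_lit 5) (nat_lit 16) (nat_lit 4) (nat_lit 14) (nat_lit 4) (nat_lit 269) (nat_lit 231) (nat_lit 220)) (XT.lf (nat_lit 0) (nat_lit 7291410374) (nat_lit 152) (nat_lit 9697360575) (nat_lit 152) (nat_lit 306166188) (nat_lit 12) (nat_lit 4) (nat_lit 14) (nat_lit 5) (nat_lit 14) (nat_lit 4) (nat_lit 270) (nat_lit 231) (nat_lit 219)))) (XT.nd (nat_lit 156) (nat_lit 152) (nat_lit 0) (XT.nd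 (nat_lit 78) (nat_lit 76) (nat_lit 0) (XT.lf (nat_lit 0) (nat_lit 4196225035) (nat_lit 228) (nat_lit 1247145238) (nat_lit 76) (nat_lit 12939646335) (nat_lit 11) (nat_lit 5) (nat_lit 14) (nat_lit 5) (nat_lit 12) (nat_lit 4) (nat_lit 271) (nat_lit 231) (nat_lit 218)) (XT.lf (nat_lit 0) (nat_lit 8159756594) (nat_lit 76) (nat_lit 832162276) (nat_lit 152) (nat_lit 10569121547) (nat_lit 10) (nat_lit 5) (nat_lit 11) (nat_lit 5) (nat_lit 12) (nat_lit 4) (nat_lit 272) (nat_lit 231) (nat_lit 217))) (XT.nd (nat_lit 78) (nat_lit 152) (nat_lit 0) (XT.lf (nat_lit 0) (nat_lit 14081602694) (nat_lit 152) (nat_lit 2833490248) (nat_lit 0) (nat_lit 3923012051) (nat_lit 10) (nat_lit 5) (nat_lit 12) (nat_lit 4) (nat_lit 10) (nat_lit 4) (nat_lit 273) (nat_lit 231) (nat_lit 216)) (XT.nd (nat_lit 78) (nat_lit 76) (nat_lit 0) (XT.lf (nat_lit 0) (nat_lit 6330630564) (nat_lit 76) (nat_lit 13197268794) (nat_lit 76)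 (nat_lit 2692255677) (nat_lit 9) (nat_lit 4) (nat_lit 10) (nat_lit 5) (nat_lit 10) (nat_lit 4) (nat_lit 274) (nat_lit 231) (nat_lit 215)) (XT.lf (nat_lit 0) (nat_lit 1534694528) (nat_lit 152) (nat_lit 7679650881) (nat_lit 76) (nat_lit 14502762372) (nat_lit 8) (nat_lit 5) (nat_lit 10) (nat_lit 5) (nat_lit 9) (nat_lit 4) (nat_lit 275) (nat_lit 231) (nat_lit 214)))))) (XT.nd (nat_lit 390) (nat_lit 152) (nat_lit 0) (XT.nd (nat_lit 156) (nat_lit 76) (nat_lit 0) (XT.nd (nat_lit 78) (nat_lit 0) (nat_lit 0) (XT.lf (nat_lit 0) (nat_lit 920037608) (nat_lit 76) (nat_lit 4954505663) (nat_lit 152) (nat_lit 19463851998) (nat_lit 7) (nat_lit 5) (nat_lit 8) (nat_lit 5) (nat_lit 9) (nat_lit 4) (nat_lit 276) (nat_lit 231) (nat_lit 213)) (XT.lf (nat_lit 0) (nat_lit 10241822709) (nat_lit 76) (nat_lit 314079796) (nat_lit 152) (nat_lit 16533988039) (nat_lit 7) (nat_lit 5) (nat_lit 8) (nat_lit 5) (nat_lit 9)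 (nat_lit 4) (nat_lit 277) (nat_lit 231) (nat_lit 212))) (XT.nd (nat_lit 78) (nat_lit 76) (nat_lit 0) (XT.lf (nat_lit 0) (nat_lit 15554535439) (nat_lit 152) (nat_lit 8973032572) (nat_lit 0) (nat_lit 4457003737) (nat_lit 7) (nat_lit 5) (nat_lit 9) (nat_lit 4) (nat_lit 7) (nat_lit 4) (nat_lit 278) (nat_lit 231) (nat_lit 211)) (XT.nd (nat_lit 78) (nat_lit 76) (nat_lit 0) (XT.lf (nat_lit 0) (nat_lit 20837449937) (nat_lit 152) (nat_lit 683971335) (nat_lit 0) (nat_lit 9515376032) (nat_lit 7) (nat_lit 5) (nat_lit 9) (nat_lit 4) (nat_lit 7) (nat_lit 4) (nat_lit 279) (nat_lit 231) (nat_lit 210)) (XT.lf (nat_lit 0) (nat_lit 8340074370) (nat_lit 76) (nat_lit 18221186058) (nat_lit 76) (nat_lit 6691202705) (nat_lit 6) (nat_lit 4) (nat_lit 7) (nat_lit 5) (nat_lit 7) (nat_lit 4) (nat_lit 280) (nat_lit 231) (nat_lit 209))))) (XT.nd (nat_lit 156) (nat_lit 76) (nat_lit 0) (XT.nd (nat_lit 78) (nat_lit 76)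 (nat_lit 0) (XT.lf (nat_lit 0) (nat_lit 17923870949) (nat_lit 76) (nat_lit 14724449270) (nat_lit 76) (nat_lit 3001957169) (nat_lit 6) (nat_lit 4) (nat_lit 7) (nat_lit 5) (nat_lit 7) (nat_lit 4) (nat_lit 281) (nat_lit 231) (nat_lit 208)) (XT.lf (nat_lit 0) (nat_lit 850545186) (nat_lit 152) (nat_lit 10157123309) (nat_lit 76) (nat_lit 27236646509) (nat_lit 5) (nat_lit 5) (nat_lit 7) (nat_lit 5) (nat_lit 6) (nat_lit 4) (nat_lit 282) (nat_lit 231) (nat_lit 207))) (XT.nd (nat_lit 78) (nat_lit 76) (nat_lit 0) (XT.lf (nat_lit 0) (nat_lit 4814480777) (nat_lit 152) (nat_lit 2196100570) (nat_lit 76) (nat_lit 34037545897) (nat_lit 5) (nat_lit 5) (nat_lit 7) (nat_lit 5) (nat_lit 6) (nat_lit 4) (nat_lit 283) (nat_lit 231) (nat_lit 206)) (XT.nd (nat_lit 78) (nat_lit 0) (nat_lit 0) (XT.lf (nat_lit 0) (nat_lit 6457383779) (nat_lit 76) (nat_lit 2652855047) (nat_lit 152) (nat_lit 34965393024) (nat_lit 4)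 (nat_lit 5) (nat_lit 5) (nat_lit 5) (nat_lit 6) (nat_lit 4) (nat_lit 284) (nat_lit 231) (nat_lit 205)) (XT.lf (nat_lit 0) (nat_lit 13737635334) (nat_lit 152) (nat_lit 31642309978) (nat_lit 0) (nat_lit 1966106293) (nat_lit 4) (nat_lit 5) (nat_lit 6) (nat_lit 4) (nat_lit 4) (nat_lit 4) (nat_lit 285) (nat_lit 231) (nat_lit 204))))))))
noncomputable def xc31 : XT := (XT.nd (nat_lit 1482) (nat_lit 0) (nat_lit 0) (XT.nd (nat_lit 702) (nat_lit 152) (nat_lit 0) (XT.nd (nat_lit 312) (nat_lit 76) (nat_lit 0) (XT.nd (nat_lit 156) (nat_lit 0) (nat_lit 0) (XT.nd (nat_lit 78) (nat_lit 0) (nat_lit 0) (XT.lf (nat_lit 0) (nat_lit 18703136386) (nat_lit 152) (nat_lit 25369850077) (nat_lit 0) (nat_lit 6806828088) (nat_lit 4) (nat_lit 5) (nat_lit 6) (nat_lit 4) (nat_lit 4) (nat_lit 4) (nat_lit 286) (nat_lit 231) (nat_lit 203)) (XT.lf (nat_lit 0) (nat_lit 23994748671) (nat_lit 152) (nat_lit 18722279733) (nat_lit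 0) (nat_lit 11982904025) (nat_lit 4) (nat_lit 5) (nat_lit 6) (nat_lit 4) (nat_lit 4) (nat_lit 4) (nat_lit 287) (nat_lit 231) (nat_lit 202))) (XT.nd (nat_lit 78) (nat_lit 0) (nat_lit 0) (XT.lf (nat_lit 0) (nat_lit 29643829894) (nat_lit 152) (nat_lit 11660205936) (nat_lit 0) (nat_lit 17525007147) (nat_lit 4) (nat_lit 5) (nat_lit 6) (nat_lit 4) (nat_lit 4) (nat_lit 4) (nat_lit 288) (nat_lit 231) (nat_lit 201)) (XT.lf (nat_lit 0) (nat_lit 35683856089) (nat_lit 152) (nat_lit 4141779362) (nat_lit 0) (nat_lit 23465979546) (nat_lit 4) (nat_lit 5) (nat_lit 6) (nat_lit 4) (nat_lit 4) (nat_lit 4) (nat_lit 289) (nat_lit 231) (nat_lit 200)))) (XT.nd (nat_lit 156) (nat_lit 0) (nat_lit 0) (XT.nd (nat_lit 78) (nat_lit 0) (nat_lit 0) (XT.lf (nat_lit 0) (nat_lit 4005763064) (nat_lit 76) (nat_lit 38207398129) (nat_lit 76) (nat_lit 25897805107) (nat_lit 3) (nat_lit 4) (nat_lit 4) (nat_lit 5) (nat_lit 4)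 (nat_lit 4) (nat_lit 290) (nat_lit 231) (nat_lit 199)) (XT.lf (nat_lit 0) (nat_lit 12856813331) (nat_lit 76) (nat_lit 36426360764) (nat_lit 76) (nat_lit 24031845076) (nat_lit 3) (nat_lit 4) (nat_lit 4) (nat_lit 5) (nat_lit 4) (nat_lit 4) (nat_lit 291) (nat_lit 231) (nat_lit 198))) (XT.nd (nat_lit 78) (nat_lit 0) (nat_lit 0) (XT.lf (nat_lit 0) (nat_lit 22326876177) (nat_lit 76) (nat_lit 34542112097) (nat_lit 76) (nat_lit 22068964312) (nat_lit 3) (nat_lit 4) (nat_lit 4) (nat_lit 5) (nat_lit 4) (nat_lit 4) (nat_lit 292) (nat_lit 231) (nat_lit 197)) (XT.nd (nat_lit 78) (nat_lit 0) (nat_lit 0) (XT.lf (nat_lit 0) (nat_lit 32472070491) (nat_lit 76) (nat_lit 32543486212) (nat_lit 76) (nat_lit 19997530929) (nat_lit 3) (nat_lit 4) (nat_lit 4) (nat_lit 5) (nat_lit 4) (nat_lit 4) (nat_lit 293) (nat_lit 231) (nat_lit 196)) (XT.lf (nat_lit 0) (nat_lit 43352515945) (nat_lit 76) (nat_lit 30418639398)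 (nat_lit 76) (nat_lit 17805269766) (nat_lit 3) (nat_lit 4) (nat_lit 4) (nat_lit 5) (nat_lit 4) (nat_lit 4) (nat_lit 294) (nat_lit 231) (nat_lit 195)))))) (XT.nd (nat_lit 390) (nat_lit 152) (nat_lit 0) (XT.nd (nat_lit 156) (nat_lit 0) (nat_lit 0) (XT.nd (nat_lit 78) (nat_lit 0) (nat_lit 0) (XT.lf (nat_lit 0) (nat_lit 55032689252) (nat_lit 76) (nat_lit 28154979971) (nat_lit 76) (nat_lit 15479189645) (nat_lit 3) (nat_lit 4) (nat_lit 4) (nat_lit 5) (nat_lit 4) (nat_lit 4) (nat_lit 295) (nat_lit 231) (nat_lit 194)) (XT.lf (nat_lit 0) (nat_lit 67581806253) (nat_lit 76) (nat_lit 25739093653) (nat_lit 76) (nat_lit 13005506388) (nat_lit 3) (nat_lit 4) (nat_lit 4) (nat_lit 5) (nat_lit 4) (nat_lit 4) (nat_lit 296) (nat_lit 231) (nat_lit 193))) (XT.nd (nat_lit 78) (nat_lit 0) (nat_lit 0) (XT.lf (nat_lit 0) (nat_lit 81074232088) (nat_lit 76) (nat_lit 23156664081) (nat_lit 76) (nat_lit 10369561132)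 (nat_lit 3) (nat_lit 4) (nat_lit 4) (nat_lit 5) (nat_lit 4) (nat_lit 4) (nat_lit 297) (nat_lit 231) (nat_lit 192)) (XT.nd (nat_lit 78) (nat_lit 0) (nat_lit 0) (XT.lf (nat_lit 0) (nat_lit 95589921871) (nat_lit 76) (nat_lit 20392387968) (nat_lit 76) (nat_lit 7555733459) (nat_lit 3) (nat_lit 4) (nat_lit 4) (nat_lit 5) (nat_lit 4) (nat_lit 4) (nat_lit 298) (nat_lit 231) (nat_lit 191)) (XT.lf (nat_lit 0) (nat_lit 111214894505) (nat_lit 76) (nat_lit 17429884419) (nat_lit 76) (nat_lit 4547348837) (nat_lit 3) (nat_lit 4) (nat_lit 4) (nat_lit 5) (nat_lit 4) (nat_lit 4) (nat_lit 299) (nat_lit 231) (nat_lit 190))))) (XT.nd (nat_lit 156) (nat_lit 76) (nat_lit 0) (XT.nd (nat_lit 78) (nat_lit 76) (nat_lit 0) (XT.lf (nat_lit 0) (nat_lit 128041742420) (nat_lit 76) (nat_lit 14251597858) (nat_lit 76) (nat_lit 1326579799) (nat_lit 3) (nat_lit 4) (nat_lit 4) (nat_lit 5) (nat_lit 4) (nat_lit 4) (nat_lit 300)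 (nat_lit 231) (nat_lit 189)) (XT.lf (nat_lit 0) (nat_lit 2057625306) (nat_lit 152) (nat_lit 8746221806) (nat_lit 76) (nat_lit 144077708085) (nat_lit 2) (nat_lit 5) (nat_lit 4) (nat_lit 5) (nat_lit 3) (nat_lit 4) (nat_lit 301) (nat_lit 231) (nat_lit 188))) (XT.nd (nat_lit 78) (nat_lit 76) (nat_lit 0) (XT.lf (nat_lit 0) (nat_lit 5643236468) (nat_lit 152) (nat_lit 1432140800) (nat_lit 76) (nat_lit 159968828430) (nat_lit 2) (nat_lit 5) (nat_lit 4) (nat_lit 5) (nat_lit 3) (nat_lit 4) (nat_lit 302) (nat_lit 231) (nat_lit 187)) (XT.nd (nat_lit 78) (nat_lit 0) (nat_lit 0) (XT.lf (nat_lit 0) (nat_lit 6640662358) (nat_lit 76) (nat_lit 2956977581) (nat_lit 152) (nat_lit 170578158220) (nat_lit 1) (nat_lit 5) (nat_lit 2) (nat_lit 5) (nat_lit 3) (nat_lit 4) (nat_lit 303) (nat_lit 231) (nat_lit 186)) (XT.lf (nat_lit 0) (nat_lit 13896062807) (nat_lit 152) (nat_lit 179007982138) (nat_lit 0) (nat_lit 1452514801)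 (nat_lit 1) (nat_lit 5) (nat_lit 3) (nat_lit 4) (nat_lit 1) (nat_lit 4) (nat_lit 304) (nat_lit 231) (nat_lit 185))))))) (XT.nd (nat_lit 702) (nat_lit 0) (nat_lit 0) (XT.nd (nat_lit 312) (nat_lit 0) (nat_lit 0) (XT.nd (nat_lit 156) (nat_lit 0) (nat_lit 0) (XT.nd (nat_lit 78) (nat_lit 0) (nat_lit 0) (XT.lf (nat_lit 0) (nat_lit 18568806721) (nat_lit 152) (nat_lit 185003753746) (nat_lit 0) (nat_lit 6097722659) (nat_lit 1) (nat_lit 5) (nat_lit 3) (nat_lit 4) (nat_lit 1) (nat_lit 4) (nat_lit 305) (nat_lit 231) (nat_lit 184)) (XT.lf (nat_lit 0) (nat_lit 23597395309) (nat_lit 152) (nat_lit 191511814418) (nat_lit 0) (nat_lit 11100814899) (nat_lit 1) (nat_lit 5) (nat_lit 3) (nat_lit 4) (nat_lit 1) (nat_lit 4) (nat_lit 306) (nat_lit 231) (nat_lit 183))) (XT.nd (nat_lit 78) (nat_lit 0) (nat_lit 0) (XT.lf (nat_lit 0) (nat_lit 29011627614) (nat_lit 152) (nat_lit 198570730438) (nat_lit 0) (nat_lit 16491439474)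 (nat_lit 1) (nat_lit 5) (nat_lit 3) (nat_lit 4) (nat_lit 1) (nat_lit 4) (nat_lit 307) (nat_lit 231) (nat_lit 182)) (XT.lf (nat_lit 0) (nat_lit 34843587977) (nat_lit 152) (nat_lit 206222332420) (nat_lit 0) (nat_lit 22301540827) (nat_lit 1) (nat_lit 5) (nat_lit 3) (nat_lit 4) (nat_lit 1) (nat_lit 4) (nat_lit 308) (nat_lit 231) (nat_lit 181)))) (XT.nd (nat_lit 156) (nat_lit 0) (nat_lit 0) (XT.nd (nat_lit 78) (nat_lit 0) (nat_lit 0) (XT.lf (nat_lit 0) (nat_lit 41127836161) (nat_lit 152) (nat_lit 214511963191) (nat_lit 0) (nat_lit 28565549188) (nat_lit 1) (nat_lit 5) (nat_lit 3) (nat_lit 4) (nat_lit 1) (nat_lit 4) (nat_lit 309) (nat_lit 231) (nat_lit 180)) (XT.lf (nat_lit 0) (nat_lit 47901612156) (nat_lit 152) (nat_lit 223488746488) (nat_lit 0) (nat_lit 35320584606) (nat_lit 1) (nat_lit 5) (nat_lit 3) (nat_lit 4) (nat_lit 1) (nat_lit 4) (nat_lit 310) (nat_lit 231) (nat_lit 179))) (XT.nd (nat_lit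 78) (nat_lit 0) (nat_lit 0) (XT.lf (nat_lit 0) (nat_lit 55205056857) (nat_lit 152) (nat_lit 233205878065) (nat_lit 0) (nat_lit 42606676921) (nat_lit 1) (nat_lit 5) (nat_lit 3) (nat_lit 4) (nat_lit 1) (nat_lit 4) (nat_lit 311) (nat_lit 231) (nat_lit 178)) (XT.nd (nat_lit 78) (nat_lit 0) (nat_lit 0) (XT.lf (nat_lit 0) (nat_lit 63081449937) (nat_lit 152) (nat_lit 243720940923) (nat_lit 0) (nat_lit 50467002976) (nat_lit 1) (nat_lit 5) (nat_lit 3) (nat_lit 4) (nat_lit 1) (nat_lit 4) (nat_lit 312) (nat_lit 231) (nat_lit 177)) (XT.lf (nat_lit 0) (nat_lit 71577466317) (nat_lit 152) (nat_lit 255096246546) (nat_lit 0) (nat_lit 58948142482) (nat_lit 1) (nat_lit 5) (nat_lit 3) (nat_lit 4) (nat_lit 1) (nat_lit 4) (nat_lit 313) (nat_lit 231) (nat_lit 176)))))) (XT.nd (nat_lit 390) (nat_lit 0) (nat_lit 0) (XT.nd (nat_lit 156) (nat_lit 0) (nat_lit 0) (XT.nd (nat_lit 78) (nat_lit 0) (nat_lit 0) (XT.lf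 (nat_lit 0) (nat_lit 80743452761) (nat_lit 152) (nat_lit 267399204152) (nat_lit 0) (nat_lit 68100354042) (nat_lit 1) (nat_lit 5) (nat_lit 3) (nat_lit 4) (nat_lit 1) (nat_lit 4) (nat_lit 314) (nat_lit 231) (nat_lit 175)) (XT.lf (nat_lit 0) (nat_lit 90633726225) (nat_lit 152) (nat_lit 280702720157) (nat_lit 0) (nat_lit 77977872984) (nat_lit 1) (nat_lit 5) (nat_lit 3) (nat_lit 4) (nat_lit 1) (nat_lit 4) (nat_lit 315) (nat_lit 231) (nat_lit 174))) (XT.nd (nat_lit 78) (nat_lit 0) (nat_lit 0) (XT.lf (nat_lit 0) (nat_lit 101306895739) (nat_lit 152) (nat_lit 295085630212) (nat_lit 0) (nat_lit 88639232755) (nat_lit 1) (nat_lit 5) (nat_lit 3) (nat_lit 4) (nat_lit 1) (nat_lit 4) (nat_lit 316) (nat_lit 231) (nat_lit 173)) (XT.nd (nat_lit 78) (nat_lit 0) (nat_lit 0) (XT.lf (nat_lit 0) (nat_lit 112826209713) (nat_lit 152) (nat_lit 310633166375) (nat_lit 0) (nat_lit 100147611782) (nat_lit 1) (nat_lit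 5) (nat_lit 3) (nat_lit 4) (nat_lit 1) (nat_lit 4) (nat_lit 317) (nat_lit 231) (nat_lit 172)) (XT.lf (nat_lit 0) (nat_lit 125259930748) (nat_lit 152) (nat_lit 327437462195) (nat_lit 0) (nat_lit 112571207867) (nat_lit 1) (nat_lit 5) (nat_lit 3) (nat_lit 4) (nat_lit 1) (nat_lit 4) (nat_lit 318) (nat_lit 231) (nat_lit 171))))) (XT.nd (nat_lit 156) (nat_lit 0) (nat_lit 0) (XT.nd (nat_lit 78) (nat_lit 0) (nat_lit 0) (XT.lf (nat_lit 0) (nat_lit 138681740156) (nat_lit 152) (nat_lit 345598098684) (nat_lit 0) (nat_lit 125983642320) (nat_lit 1) (nat_lit 5) (nat_lit 3) (nat_lit 4) (nat_lit 1) (nat_lit 4) (nat_lit 319) (nat_lit 231) (nat_lit 170)) (XT.lf (nat_lit 0) (nat_lit 153171174583) (nat_lit 152) (nat_lit 365222694428) (nat_lit 0) (nat_lit 140464396235) (nat_lit 1) (nat_lit 5) (nat_lit 3) (nat_lit 4) (nat_lit 1) (nat_lit 4) (nat_lit 320) (nat_lit 231) (nat_lit 169))) (XT.nd (nat_lit 78) (nat_lit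 0) (nat_lit 0) (XT.lf (nat_lit 0) (nat_lit 168814097346) (nat_lit 152) (nat_lit 386427543328) (nat_lit 0) (nat_lit 156099281485) (nat_lit 1) (nat_lit 5) (nat_lit 3) (nat_lit 4) (nat_lit 1) (nat_lit 4) (nat_lit 321) (nat_lit 231) (nat_lit 168)) (XT.nd (nat_lit 78) (nat_lit 0) (nat_lit 0) (XT.lf (nat_lit 0) (nat_lit 185703207246) (nat_lit 152) (nat_lit 409338303747) (nat_lit 0) (nat_lit 172980949244) (nat_lit 1) (nat_lit 5) (nat_lit 3) (nat_lit 4) (nat_lit 1) (nat_lit 4) (nat_lit 322) (nat_lit 231) (nat_lit 167)) (XT.lf (nat_lit 0) (nat_lit 203938587896) (nat_lit 152) (nat_lit 434090743156) (nat_lit 0) (nat_lit 191209439023) (nat_lit 1) (nat_lit 5) (nat_lit 3) (nat_lit 4) (nat_lit 1) (nat_lit 4) (nat_lit 323) (nat_lit 231) (nat_lit 166))))))))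
noncomputable def xc32 : XT := (XT.nd (nat_lit 33540) (nat_lit 0) (nat_lit 152) (XT.nd (nat_lit 32838) (nat_lit 0) (nat_lit 684) (XT.nd (nat_lit 32448) (nat_lit 0) (nat_lit 1672) (XT.nd (nat_lit 32292) (nat_lit 0) (nat_lit 2584) (XT.nd (nat_lit 32214) (nat_lit 0) (nat_lit 3116) (XT.lf (nat_lit 0) (nat_lit 223628300813) (nat_lit 152) (nat_lit 460831542677) (nat_lit 0) (nat_lit 210892771503) (nat_lit 1) (nat_lit 5) (nat_lit 3) (nat_lit 4) (nat_lit 1) (nat_lit 4) (nat_lit 324) (nat_lit 231) (nat_lit 165)) (XT.lf (nat_lit 0) (nat_lit 957067696) (nat_lit 304) (nat_lit 2432531877) (nat_lit 0) (nat_lit 957067696) (nat_lit 42) (nat_lit 5) (nat_lit 46) (nat_lit 4) (nat_lit 42) (nat_lit 4) (nat_lit 256) (nat_lit 232) (nat_lit 232))) (XT.nd (nat_lit 78) (nat_lit 304) (nat_lit 0) (XT.lf (nat_lit 0) (nat_lit 3767817381) (nat_lit 228) (nat_lit 3421976627) (nat_lit 228) (nat_lit 1831519598) (nat_lit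 39) (nat_lit 4) (nat_lit 42) (nat_lit 5) (nat_lit 42) (nat_lit 4) (nat_lit 257) (nat_lit 232) (nat_lit 231)) (XT.lf (nat_lit 0) (nat_lit 3200349949) (nat_lit 304) (nat_lit 5900473906) (nat_lit 0) (nat_lit 283109545) (nat_lit 35) (nat_lit 5) (nat_lit 39) (nat_lit 4) (nat_lit 35) (nat_lit 4) (nat_lit 258) (nat_lit 232) (nat_lit 230)))) (XT.nd (nat_lit 156) (nat_lit 456) (nat_lit 0) (XT.nd (nat_lit 78) (nat_lit 228) (nat_lit 0) (XT.lf (nat_lit 0) (nat_lit 2881642292) (nat_lit 228) (nat_lit 5557966878) (nat_lit 228) (nat_lit 1342097376) (nat_lit 32) (nat_lit 4) (nat_lit 35) (nat_lit 5) (nat_lit 35) (nat_lit 4) (nat_lit 259) (nat_lit 232) (nat_lit 229)) (XT.lf (nat_lit 0) (nat_lit 1921944976) (nat_lit 152) (nat_lit 1658664207) (nat_lit 228) (nat_lit 6637709172) (nat_lit 29) (nat_lit 5) (nat_lit 31) (nat_lit 5) (nat_lit 32) (nat_lit 4) (nat_lit 260) (nat_lit 232) (nat_lit 228))) (XT.nd (nat_lit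 78) (nat_lit 228) (nat_lit 0) (XT.lf (nat_lit 0) (nat_lit 522071727) (nat_lit 228) (nat_lit 8197376021) (nat_lit 228) (nat_lit 1976738888) (nat_lit 26) (nat_lit 4) (nat_lit 29) (nat_lit 5) (nat_lit 29) (nat_lit 4) (nat_lit 261) (nat_lit 232) (nat_lit 227)) (XT.nd (nat_lit 78) (nat_lit 152) (nat_lit 0) (XT.lf (nat_lit 0) (nat_lit 2842892470) (nat_lit 304) (nat_lit 1374511040) (nat_lit 76) (nat_lit 6999101581) (nat_lit 25) (nat_lit 5) (nat_lit 29) (nat_lit 5) (nat_lit 26) (nat_lit 4) (nat_lit 262) (nat_lit 232) (nat_lit 226)) (XT.lf (nat_lit 0) (nat_lit 7835998813) (nat_lit 228) (nat_lit 3837958564) (nat_lit 0) (nat_lit 110743674) (nat_lit 23) (nat_lit 5) (nat_lit 26) (nat_lit 4) (nat_lit 23) (nat_lit 4) (nat_lit 263) (nat_lit 232) (nat_lit 225)))))) (XT.nd (nat_lit 312) (nat_lit 380) (nat_lit 0) (XT.nd (nat_lit 156) (nat_lit 228) (nat_lit 0) (XT.nd (nat_lit 78) (nat_lit 152) (nat_lit 0)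 (XT.lf (nat_lit 0) (nat_lit 723307717) (nat_lit 228) (nat_lit 7044129777) (nat_lit 76) (nat_lit 4634927187) (nat_lit 20) (nat_lit 5) (nat_lit 23) (nat_lit 5) (nat_lit 21) (nat_lit 4) (nat_lit 264) (nat_lit 232) (nat_lit 224)) (XT.lf (nat_lit 0) (nat_lit 1969260585) (nat_lit 152) (nat_lit 3512907587) (nat_lit 228) (nat_lit 7592061231) (nat_lit 18) (nat_lit 5) (nat_lit 20) (nat_lit 5) (nat_lit 21) (nat_lit 4) (nat_lit 265) (nat_lit 232) (nat_lit 223))) (XT.nd (nat_lit 78) (nat_lit 228) (nat_lit 0) (XT.lf (nat_lit 0) (nat_lit 10524813288) (nat_lit 228) (nat_lit 2237971742) (nat_lit 0) (nat_lit 1042456607) (nat_lit 18) (nat_lit 5) (nat_lit 21) (nat_lit 4) (nat_lit 18) (nat_lit 4) (nat_lit 266) (nat_lit 232) (nat_lit 222)) (XT.lf (nat_lit 0) (nat_lit 1280868905) (nat_lit 228) (nat_lit 7462651565) (nat_lit 76) (nat_lit 5853188063) (nat_lit 15) (nat_lit 5) (nat_lit 18) (nat_lit 5) (nat_lit 16)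 (nat_lit 4) (nat_lit 267) (nat_lit 232) (nat_lit 221)))) (XT.nd (nat_lit 156) (nat_lit 304) (nat_lit 0) (XT.nd (nat_lit 78) (nat_lit 0) (nat_lit 0) (XT.lf (nat_lit 0) (nat_lit 1534760553) (nat_lit 76) (nat_lit 4408837001) (nat_lit 152) (nat_lit 9513084276) (nat_lit 14) (nat_lit 5) (nat_lit 15) (nat_lit 5) (nat_lit 16) (nat_lit 4) (nat_lit 268) (nat_lit 232) (nat_lit 220)) (XT.lf (nat_lit 0) (nat_lit 10910765311) (nat_lit 152) (nat_lit 5205127839) (nat_lit 0) (nat_lit 273406225) (nat_lit 14) (nat_lit 5) (nat_lit 16) (nat_lit 4) (nat_lit 14) (nat_lit 4) (nat_lit 269) (nat_lit 232) (nat_lit 219))) (XT.nd (nat_lit 78) (nat_lit 152) (nat_lit 0) (XT.lf (nat_lit 0) (nat_lit 3947836738) (nat_lit 152) (nat_lit 12273668699) (nat_lit 152) (nat_lit 1178097440) (nat_lit 12) (nat_lit 4) (nat_lit 14) (nat_lit 5) (nat_lit 14) (nat_lit 4) (nat_lit 270) (nat_lit 232) (nat_lit 218)) (XT.nd (nat_lit 78)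 (nat_lit 76) (nat_lit 0) (XT.lf (nat_lit 0) (nat_lit 3263882670) (nat_lit 228) (nat_lit 4828882315) (nat_lit 76) (nat_lit 10400177806) (nat_lit 11) (nat_lit 5) (nat_lit 14) (nat_lit 5) (nat_lit 12) (nat_lit 4) (nat_lit 271) (nat_lit 232) (nat_lit 217)) (XT.lf (nat_lit 0) (nat_lit 4318873385) (nat_lit 76) (nat_lit 3598959912) (nat_lit 152) (nat_lit 11760372189) (nat_lit 10) (nat_lit 5) (nat_lit 11) (nat_lit 5) (nat_lit 12) (nat_lit 4) (nat_lit 272) (nat_lit 232) (nat_lit 216))))))) (XT.nd (nat_lit 702) (nat_lit 228) (nat_lit 0) (XT.nd (nat_lit 312) (nat_lit 152) (nat_lit 0) (XT.nd (nat_lit 156) (nat_lit 76) (nat_lit 0) (XT.nd (nat_lit 78) (nat_lit 76) (nat_lit 0) (XT.lf (nat_lit 0) (nat_lit 12885746326) (nat_lit 152) (nat_lit 6881843072) (nat_lit 0) (nat_lit 1193909687) (nat_lit 10) (nat_lit 5) (nat_lit 12) (nat_lit 4) (nat_lit 10) (nat_lit 4) (nat_lit 273) (nat_lit 232) (nat_lit 215))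 (XT.lf (nat_lit 0) (nat_lit 2020720735) (nat_lit 76) (nat_lit 16171279401) (nat_lit 76) (nat_lit 4158681213) (nat_lit 9) (nat_lit 4) (nat_lit 10) (nat_lit 5) (nat_lit 10) (nat_lit 4) (nat_lit 274) (nat_lit 232) (nat_lit 214))) (XT.nd (nat_lit 78) (nat_lit 0) (nat_lit 0) (XT.lf (nat_lit 0) (nat_lit 44742551) (nat_lit 152) (nat_lit 12217877391) (nat_lit 76) (nat_lit 11589796672) (nat_lit 8) (nat_lit 5) (nat_lit 10) (nat_lit 5) (nat_lit 9) (nat_lit 4) (nat_lit 275) (nat_lit 232) (nat_lit 213)) (XT.lf (nat_lit 0) (nat_lit 4304985061) (nat_lit 152) (nat_lit 3759381572) (nat_lit 76) (nat_lit 17413423990) (nat_lit 8) (nat_lit 5) (nat_lit 10) (nat_lit 5) (nat_lit 9) (nat_lit 4) (nat_lit 276) (nat_lit 232) (nat_lit 212)))) (XT.nd (nat_lit 156) (nat_lit 76) (nat_lit 0) (XT.nd (nat_lit 78) (nat_lit 0) (nat_lit 0) (XT.lf (nat_lit 0) (nat_lit 5331212007) (nat_lit 76) (nat_lit 3532419122) (nat_lit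 152) (nat_lit 18371888771) (nat_lit 7) (nat_lit 5) (nat_lit 8) (nat_lit 5) (nat_lit 9) (nat_lit 4) (nat_lit 277) (nat_lit 232) (nat_lit 211)) (XT.lf (nat_lit 0) (nat_lit 13753889349) (nat_lit 152) (nat_lit 14080314222) (nat_lit 0) (nat_lit 1301507327) (nat_lit 7) (nat_lit 5) (nat_lit 9) (nat_lit 4) (nat_lit 7) (nat_lit 4) (nat_lit 278) (nat_lit 232) (nat_lit 210))) (XT.nd (nat_lit 78) (nat_lit 76) (nat_lit 0) (XT.lf (nat_lit 0) (nat_lit 18982982164) (nat_lit 152) (nat_lit 5885038992) (nat_lit 0) (nat_lit 6322690695) (nat_lit 7) (nat_lit 5) (nat_lit 9) (nat_lit 4) (nat_lit 7) (nat_lit 4) (nat_lit 279) (nat_lit 232) (nat_lit 209)) (XT.nd (nat_lit 78) (nat_lit 0) (nat_lit 0) (XT.lf (nat_lit 0) (nat_lit 2877325745) (nat_lit 76) (nat_lit 21694343204) (nat_lit 76) (nat_lit 8841542986) (nat_lit 6) (nat_lit 4) (nat_lit 7) (nat_lit 5) (nat_lit 7) (nat_lit 4) (nat_lit 280) (nat_lit 232) (nat_lit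 208)) (XT.lf (nat_lit 0) (nat_lit 12378057341) (nat_lit 76) (nat_lit 18233231104) (nat_lit 76) (nat_lit 5202182045) (nat_lit 6) (nat_lit 4) (nat_lit 7) (nat_lit 5) (nat_lit 7) (nat_lit 4) (nat_lit 281) (nat_lit 232) (nat_lit 207)))))) (XT.nd (nat_lit 390) (nat_lit 76) (nat_lit 0) (XT.nd (nat_lit 156) (nat_lit 76) (nat_lit 0) (XT.nd (nat_lit 78) (nat_lit 76) (nat_lit 0) (XT.lf (nat_lit 0) (nat_lit 22478870460) (nat_lit 76) (nat_lit 14563840546) (nat_lit 76) (nat_lit 1367746264) (nat_lit 6) (nat_lit 4) (nat_lit 7) (nat_lit 5) (nat_lit 7) (nat_lit 4) (nat_lit 282) (nat_lit 232) (nat_lit 206)) (XT.lf (nat_lit 0) (nat_lit 2598566591) (nat_lit 152) (nat_lit 8021852419) (nat_lit 76) (nat_lit 30597047198) (nat_lit 5) (nat_lit 5) (nat_lit 7) (nat_lit 5) (nat_lit 6) (nat_lit 4) (nat_lit 283) (nat_lit 232) (nat_lit 205))) (XT.nd (nat_lit 78) (nat_lit 0) (nat_lit 0) (XT.lf (nat_lit 0) (nat_lit 369520528)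 (nat_lit 76) (nat_lit 6391422953) (nat_lit 152) (nat_lit 37490751040) (nat_lit 4) (nat_lit 5) (nat_lit 5) (nat_lit 5) (nat_lit 6) (nat_lit 4) (nat_lit 284) (nat_lit 232) (nat_lit 204)) (XT.nd (nat_lit 78) (nat_lit 0) (nat_lit 0) (XT.lf (nat_lit 0) (nat_lit 9584836693) (nat_lit 76) (nat_lit 1735294293) (nat_lit 152) (nat_lit 36205444342) (nat_lit 4) (nat_lit 5) (nat_lit 5) (nat_lit 5) (nat_lit 6) (nat_lit 4) (nat_lit 285) (nat_lit 232) (nat_lit 203)) (XT.lf (nat_lit 0) (nat_lit 16224342668) (nat_lit 152) (nat_lit 31702092826) (nat_lit 0) (nat_lit 3136014101) (nat_lit 4) (nat_lit 5) (nat_lit 6) (nat_lit 4) (nat_lit 4) (nat_lit 4) (nat_lit 286) (nat_lit 232) (nat_lit 202))))) (XT.nd (nat_lit 156) (nat_lit 76) (nat_lit 0) (XT.nd (nat_lit 78) (nat_lit 0) (nat_lit 0) (XT.lf (nat_lit 0) (nat_lit 21484291470) (nat_lit 152) (nat_lit 25110917758) (nat_lit 0) (nat_lit 8288984803) (nat_lit 4) (nat_lit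 5) (nat_lit 6) (nat_lit 4) (nat_lit 4) (nat_lit 4) (nat_lit 287) (nat_lit 232) (nat_lit 201)) (XT.lf (nat_lit 0) (nat_lit 27104054651) (nat_lit 152) (nat_lit 18101061811) (nat_lit 0) (nat_lit 13809694188) (nat_lit 4) (nat_lit 5) (nat_lit 6) (nat_lit 4) (nat_lit 4) (nat_lit 4) (nat_lit 288) (nat_lit 232) (nat_lit 200))) (XT.nd (nat_lit 78) (nat_lit 76) (nat_lit 0) (XT.lf (nat_lit 0) (nat_lit 33116934513) (nat_lit 152) (nat_lit 10630985096) (nat_lit 0) (nat_lit 19730857571) (nat_lit 4) (nat_lit 5) (nat_lit 6) (nat_lit 4) (nat_lit 4) (nat_lit 4) (nat_lit 289) (nat_lit 232) (nat_lit 199)) (XT.nd (nat_lit 78) (nat_lit 76) (nat_lit 0) (XT.lf (nat_lit 0) (nat_lit 39558562936) (nat_lit 152) (nat_lit 2656420493) (nat_lit 0) (nat_lit 26087563328) (nat_lit 4) (nat_lit 5) (nat_lit 6) (nat_lit 4) (nat_lit 4) (nat_lit 4) (nat_lit 290) (nat_lit 232) (nat_lit 198)) (XT.lf (nat_lit 0) (nat_lit 6063973706)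 (nat_lit 76) (nat_lit 40497814449) (nat_lit 76) (nat_lit 26948182744) (nat_lit 3) (nat_lit 4) (nat_lit 4) (nat_lit 5) (nat_lit 4) (nat_lit 4) (nat_lit 291) (nat_lit 232) (nat_lit 197))))))))
noncomputable def xc33 : XT := (XT.nd (nat_lit 1404) (nat_lit 0) (nat_lit 0) (XT.nd (nat_lit 702) (nat_lit 152) (nat_lit 0) (XT.nd (nat_lit 312) (nat_lit 0) (nat_lit 0) (XT.nd (nat_lit 156) (nat_lit 0) (nat_lit 0) (XT.nd (nat_lit 78) (nat_lit 0) (nat_lit 0) (XT.lf (nat_lit 0) (nat_lit 15494385802) (nat_lit 76) (nat_lit 38631047838) (nat_lit 76) (nat_lit 25008608635) (nat_lit 3) (nat_lit 4) (nat_lit 4) (nat_lit 5) (nat_lit 4) (nat_lit 4) (nat_lit 292) (nat_lit 232) (nat_lit 196)) (XT.lf (nat_lit 0) (nat_lit 25602866460) (nat_lit 76) (nat_lit 36648609040) (nat_lit 76) (nat_lit 22958755487) (nat_lit 3) (nat_lit 4) (nat_lit 4) (nat_lit 5) (nat_lit 4) (nat_lit 4) (nat_lit 293) (nat_lit 232) (nat_lit 195)))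 (XT.nd (nat_lit 78) (nat_lit 0) (nat_lit 0) (XT.lf (nat_lit 0) (nat_lit 36449317787) (nat_lit 76) (nat_lit 34538750270) (nat_lit 76) (nat_lit 20786476024) (nat_lit 3) (nat_lit 4) (nat_lit 4) (nat_lit 5) (nat_lit 4) (nat_lit 4) (nat_lit 294) (nat_lit 232) (nat_lit 194)) (XT.lf (nat_lit 0) (nat_lit 48098015051) (nat_lit 76) (nat_lit 32288968662) (nat_lit 76) (nat_lit 18478897477) (nat_lit 3) (nat_lit 4) (nat_lit 4) (nat_lit 5) (nat_lit 4) (nat_lit 4) (nat_lit 295) (nat_lit 232) (nat_lit 193)))) (XT.nd (nat_lit 156) (nat_lit 0) (nat_lit 0) (XT.nd (nat_lit 78) (nat_lit 0) (nat_lit 0) (XT.lf (nat_lit 0) (nat_lit 60617987568) (nat_lit 76) (nat_lit 29885932177) (nat_lit 76) (nat_lit 16022345307) (nat_lit 3) (nat_lit 4) (nat_lit 4) (nat_lit 5) (nat_lit 4) (nat_lit 4) (nat_lit 296) (nat_lit 232) (nat_lit 192)) (XT.lf (nat_lit 0) (nat_lit 74083427769) (nat_lit 76) (nat_lit 27315400598) (nat_lit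 76) (nat_lit 13402262168) (nat_lit 3) (nat_lit 4) (nat_lit 4) (nat_lit 5) (nat_lit 4) (nat_lit 4) (nat_lit 297) (nat_lit 232) (nat_lit 191))) (XT.nd (nat_lit 78) (nat_lit 0) (nat_lit 0) (XT.lf (nat_lit 0) (nat_lit 88574130854) (nat_lit 76) (nat_lit 24562141145) (nat_lit 76) (nat_lit 10603121642) (nat_lit 3) (nat_lit 4) (nat_lit 4) (nat_lit 5) (nat_lit 4) (nat_lit 4) (nat_lit 298) (nat_lit 232) (nat_lit 190)) (XT.nd (nat_lit 78) (nat_lit 0) (nat_lit 0) (XT.lf (nat_lit 0) (nat_lit 104175967657) (nat_lit 76) (nat_lit 21609838207) (nat_lit 76) (nat_lit 7608336228) (nat_lit 3) (nat_lit 4) (nat_lit 4) (nat_lit 5) (nat_lit 4) (nat_lit 4) (nat_lit 299) (nat_lit 232) (nat_lit 189)) (XT.lf (nat_lit 0) (nat_lit 120981393506) (nat_lit 76) (nat_lit 18440996655) (nat_lit 76) (nat_lit 4400159051) (nat_lit 3) (nat_lit 4) (nat_lit 4) (nat_lit 5) (nat_lit 4) (nat_lit 4) (nat_lit 300) (nat_lit 232) (nat_lit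 188)))))) (XT.nd (nat_lit 312) (nat_lit 0) (nat_lit 0) (XT.nd (nat_lit 156) (nat_lit 76) (nat_lit 0) (XT.nd (nat_lit 78) (nat_lit 76) (nat_lit 0) (XT.lf (nat_lit 0) (nat_lit 139089996111) (nat_lit 76) (nat_lit 15036838170) (nat_lit 76) (nat_lit 959578690) (nat_lit 3) (nat_lit 4) (nat_lit 4) (nat_lit 5) (nat_lit 4) (nat_lit 4) (nat_lit 301) (nat_lit 232) (nat_lit 187)) (XT.lf (nat_lit 0) (nat_lit 2646295014) (nat_lit 152) (nat_lit 8686078658) (nat_lit 76) (nat_lit 155917974408) (nat_lit 2) (nat_lit 5) (nat_lit 4) (nat_lit 5) (nat_lit 3) (nat_lit 4) (nat_lit 302) (nat_lit 232) (nat_lit 186))) (XT.nd (nat_lit 78) (nat_lit 76) (nat_lit 0) (XT.lf (nat_lit 0) (nat_lit 6487343240) (nat_lit 152) (nat_lit 843155682) (nat_lit 76) (nat_lit 173057121442) (nat_lit 2) (nat_lit 5) (nat_lit 4) (nat_lit 5) (nat_lit 3) (nat_lit 4) (nat_lit 303) (nat_lit 232) (nat_lit 185)) (XT.lf (nat_lit 0) (nat_lit 7844896026)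 (nat_lit 76) (nat_lit 2894625052) (nat_lit 152) (nat_lit 183831184292) (nat_lit 1) (nat_lit 5) (nat_lit 2) (nat_lit 5) (nat_lit 3) (nat_lit 4) (nat_lit 304) (nat_lit 232) (nat_lit 184)))) (XT.nd (nat_lit 156) (nat_lit 0) (nat_lit 0) (XT.nd (nat_lit 78) (nat_lit 0) (nat_lit 0) (XT.lf (nat_lit 0) (nat_lit 15358430034) (nat_lit 152) (nat_lit 192692073963) (nat_lit 0) (nat_lit 1836626842) (nat_lit 1) (nat_lit 5) (nat_lit 3) (nat_lit 4) (nat_lit 1) (nat_lit 4) (nat_lit 305) (nat_lit 232) (nat_lit 183)) (XT.lf (nat_lit 0) (nat_lit 20379017001) (nat_lit 152) (nat_lit 199214658911) (nat_lit 0) (nat_lit 6833606080) (nat_lit 1) (nat_lit 5) (nat_lit 3) (nat_lit 4) (nat_lit 1) (nat_lit 4) (nat_lit 306) (nat_lit 232) (nat_lit 182))) (XT.nd (nat_lit 78) (nat_lit 0) (nat_lit 0) (XT.lf (nat_lit 0) (nat_lit 25785840399) (nat_lit 152) (nat_lit 206287023335) (nat_lit 0) (nat_lit 12218570468) (nat_lit 1)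 (nat_lit 5) (nat_lit 3) (nat_lit 4) (nat_lit 1) (nat_lit 4) (nat_lit 307) (nat_lit 232) (nat_lit 181)) (XT.nd (nat_lit 78) (nat_lit 0) (nat_lit 0) (XT.lf (nat_lit 0) (nat_lit 31610940662) (nat_lit 152) (nat_lit 213951077543) (nat_lit 0) (nat_lit 18023430907) (nat_lit 1) (nat_lit 5) (nat_lit 3) (nat_lit 4) (nat_lit 1) (nat_lit 4) (nat_lit 308) (nat_lit 232) (nat_lit 180)) (XT.lf (nat_lit 0) (nat_lit 37888836902) (nat_lit 152) (nat_lit 222252238153) (nat_lit 0) (nat_lit 24282586570) (nat_lit 1) (nat_lit 5) (nat_lit 3) (nat_lit 4) (nat_lit 1) (nat_lit 4) (nat_lit 309) (nat_lit 232) (nat_lit 179))))))) (XT.nd (nat_lit 702) (nat_lit 0) (nat_lit 0) (XT.nd (nat_lit 312) (nat_lit 0) (nat_lit 0) (XT.nd (nat_lit 156) (nat_lit 0) (nat_lit 0) (XT.nd (nat_lit 78) (nat_lit 0) (nat_lit 0) (XT.lf (nat_lit 0) (nat_lit 44656731467) (nat_lit 152) (nat_lit 231239697227) (nat_lit 0) (nat_lit 31033128750)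 (nat_lit 1) (nat_lit 5) (nat_lit 3) (nat_lit 4) (nat_lit 1) (nat_lit 4) (nat_lit 310) (nat_lit 232) (nat_lit 178)) (XT.lf (nat_lit 0) (nat_lit 51954730401) (nat_lit 152) (nat_lit 240966713782) (nat_lit 0) (nat_lit 38315060658) (nat_lit 1) (nat_lit 5) (nat_lit 3) (nat_lit 4) (nat_lit 1) (nat_lit 4) (nat_lit 311) (nat_lit 232) (nat_lit 177))) (XT.nd (nat_lit 78) (nat_lit 0) (nat_lit 0) (XT.lf (nat_lit 0) (nat_lit 59826081102) (nat_lit 152) (nat_lit 251490929398) (nat_lit 0) (nat_lit 46171534486) (nat_lit 1) (nat_lit 5) (nat_lit 3) (nat_lit 4) (nat_lit 1) (nat_lit 4) (nat_lit 312) (nat_lit 232) (nat_lit 176)) (XT.lf (nat_lit 0) (nat_lit 68317428614) (nat_lit 152) (nat_lit 262874709796) (nat_lit 0) (nat_lit 54649107114) (nat_lit 1) (nat_lit 5) (nat_lit 3) (nat_lit 4) (nat_lit 1) (nat_lit 4) (nat_lit 313) (nat_lit 232) (nat_lit 175)))) (XT.nd (nat_lit 156) (nat_lit 0) (nat_lit 0) (XT.nd (nat_lit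 78) (nat_lit 0) (nat_lit 0) (XT.lf (nat_lit 0) (nat_lit 77479092031) (nat_lit 152) (nat_lit 275185514417) (nat_lit 0) (nat_lit 63798016009) (nat_lit 1) (nat_lit 5) (nat_lit 3) (nat_lit 4) (nat_lit 1) (nat_lit 4) (nat_lit 314) (nat_lit 232) (nat_lit 174)) (XT.lf (nat_lit 0) (nat_lit 87365362694) (nat_lit 152) (nat_lit 288496296177) (nat_lit 0) (nat_lit 73672476929) (nat_lit 1) (nat_lit 5) (nat_lit 3) (nat_lit 4) (nat_lit 1) (nat_lit 4) (nat_lit 315) (nat_lit 232) (nat_lit 173))) (XT.nd (nat_lit 78) (nat_lit 0) (nat_lit 0) (XT.lf (nat_lit 0) (nat_lit 98034825909) (nat_lit 152) (nat_lit 302885933781) (nat_lit 0) (nat_lit 84331005197) (nat_lit 1) (nat_lit 5) (nat_lit 3) (nat_lit 4) (nat_lit 1) (nat_lit 4) (nat_lit 316) (nat_lit 232) (nat_lit 172)) (XT.nd (nat_lit 78) (nat_lit 0) (nat_lit 0) (XT.lf (nat_lit 0) (nat_lit 109550708125) (nat_lit 152) (nat_lit 318439699158) (nat_lit 0) (nat_lit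 95836762463) (nat_lit 1) (nat_lit 5) (nat_lit 3) (nat_lit 4) (nat_lit 1) (nat_lit 4) (nat_lit 317) (nat_lit 232) (nat_lit 171)) (XT.lf (nat_lit 0) (nat_lit 121981251607) (nat_lit 152) (nat_lit 335249762768) (nat_lit 0) (nat_lit 108257930991) (nat_lit 1) (nat_lit 5) (nat_lit 3) (nat_lit 4) (nat_lit 1) (nat_lit 4) (nat_lit 318) (nat_lit 232) (nat_lit 170)))))) (XT.nd (nat_lit 390) (nat_lit 0) (nat_lit 0) (XT.nd (nat_lit 156) (nat_lit 0) (nat_lit 0) (XT.nd (nat_lit 78) (nat_lit 0) (nat_lit 0) (XT.lf (nat_lit 0) (nat_lit 135400118836) (nat_lit 152) (nat_lit 353415739803) (nat_lit 0) (nat_lit 121668117706) (nat_lit 1) (nat_lit 5) (nat_lit 3) (nat_lit 4) (nat_lit 1) (nat_lit 4) (nat_lit 319) (nat_lit 232) (nat_lit 169)) (XT.lf (nat_lit 0) (nat_lit 149886829023) (nat_lit 152) (nat_lit 373045280497) (nat_lit 0) (nat_lit 136146790381) (nat_lit 1) (nat_lit 5) (nat_lit 3) (nat_lit 4) (nat_lit 1)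 (nat_lit 4) (nat_lit 320) (nat_lit 232) (nat_lit 168))) (XT.nd (nat_lit 78) (nat_lit 0) (nat_lit 0) (XT.lf (nat_lit 0) (nat_lit 165527229342) (nat_lit 152) (nat_lit 394254708054) (nat_lit 0) (nat_lit 151779748559) (nat_lit 1) (nat_lit 5) (nat_lit 3) (nat_lit 4) (nat_lit 1) (nat_lit 4) (nat_lit 321) (nat_lit 232) (nat_lit 167)) (XT.nd (nat_lit 78) (nat_lit 0) (nat_lit 0) (XT.lf (nat_lit 0) (nat_lit 182414003645) (nat_lit 152) (nat_lit 417169707972) (nat_lit 0) (nat_lit 168659631990) (nat_lit 1) (nat_lit 5) (nat_lit 3) (nat_lit 4) (nat_lit 1) (nat_lit 4) (nat_lit 322) (nat_lit 232) (nat_lit 166)) (XT.lf (nat_lit 0) (nat_lit 200647221706) (nat_lit 152) (nat_lit 441926072842) (nat_lit 0) (nat_lit 186886469615) (nat_lit 1) (nat_lit 5) (nat_lit 3) (nat_lit 4) (nat_lit 1) (nat_lit 4) (nat_lit 323) (nat_lit 232) (nat_lit 165))))) (XT.nd (nat_lit 32136) (nat_lit 0) (nat_lit 2888) (XT.nd (nat_lit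 32058) (nat_lit 0) (nat_lit 3724) (XT.lf (nat_lit 0) (nat_lit 220334932225) (nat_lit 152) (nat_lit 468670507048) (nat_lit 0) (nat_lit 206568272322) (nat_lit 1) (nat_lit 5) (nat_lit 3) (nat_lit 4) (nat_lit 1) (nat_lit 4) (nat_lit 324) (nat_lit 232) (nat_lit 164)) (XT.lf (nat_lit 0) (nat_lit 911667067) (nat_lit 380) (nat_lit 2237997391) (nat_lit 0) (nat_lit 911667067) (nat_lit 50) (nat_lit 5) (nat_lit 55) (nat_lit 4) (nat_lit 50) (nat_lit 4) (nat_lit 254) (nat_lit 233) (nat_lit 233))) (XT.nd (nat_lit 78) (nat_lit 532) (nat_lit 0) (XT.lf (nat_lit 0) (nat_lit 3698089706) (nat_lit 304) (nat_lit 3251334875) (nat_lit 304) (nat_lit 1447756605) (nat_lit 46) (nat_lit 4) (nat_lit 50) (nat_lit 5) (nat_lit 50) (nat_lit 4) (nat_lit 255) (nat_lit 233) (nat_lit 232)) (XT.nd (nat_lit 78) (nat_lit 228) (nat_lit 0) (XT.lf (nat_lit 0) (nat_lit 3460148093) (nat_lit 304) (nat_lit 5090417996) (nat_lit 0) (nat_lit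 151997474) (nat_lit 42) (nat_lit 5) (nat_lit 46) (nat_lit 4) (nat_lit 42) (nat_lit 4) (nat_lit 256) (nat_lit 233) (nat_lit 231)) (XT.lf (nat_lit 0) (nat_lit 3319451289) (nat_lit 228) (nat_lit 5250391379) (nat_lit 228) (nat_lit 469595364) (nat_lit 39) (nat_lit 4) (nat_lit 42) (nat_lit 5) (nat_lit 42) (nat_lit 4) (nat_lit 257) (nat_lit 233) (nat_lit 230))))))))
noncomputable def xc34 : XT := (XT.nd (nat_lit 1404) (nat_lit 456) (nat_lit 0) (XT.nd (nat_lit 702) (nat_lit 684) (nat_lit 0) (XT.nd (nat_lit 312) (nat_lit 836) (nat_lit 0) (XT.nd (nat_lit 156) (nat_lit 228) (nat_lit 0) (XT.nd (nat_lit 78) (nat_lit 228) (nat_lit 0) (XT.lf (nat_lit 0) (nat_lit 2772399575) (nat_lit 228) (nat_lit 1577237567) (nat_lit 304) (nat_lit 5060336492) (nat_lit 35) (nat_lit 5) (nat_lit 38) (nat_lit 5) (nat_lit 39) (nat_lit 4) (nat_lit 258) (nat_lit 233) (nat_lit 229)) (XT.lf (nat_lit 0) (nat_lit 1935681132) (nat_lit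 228) (nat_lit 7468008069) (nat_lit 228) (nat_lit 413805560) (nat_lit 32) (nat_lit 4) (nat_lit 35) (nat_lit 5) (nat_lit 35) (nat_lit 4) (nat_lit 259) (nat_lit 233) (nat_lit 228))) (XT.nd (nat_lit 78) (nat_lit 0) (nat_lit 0) (XT.lf (nat_lit 0) (nat_lit 686705035) (nat_lit 152) (nat_lit 3632452370) (nat_lit 228) (nat_lit 5942656130) (nat_lit 29) (nat_lit 5) (nat_lit 31) (nat_lit 5) (nat_lit 32) (nat_lit 4) (nat_lit 260) (nat_lit 233) (nat_lit 227)) (XT.lf (nat_lit 0) (nat_lit 9284830940) (nat_lit 228) (nat_lit 939515664) (nat_lit 0) (nat_lit 524391613) (nat_lit 29) (nat_lit 5) (nat_lit 32) (nat_lit 4) (nat_lit 29) (nat_lit 4) (nat_lit 261) (nat_lit 233) (nat_lit 226)))) (XT.nd (nat_lit 156) (nat_lit 380) (nat_lit 0) (XT.nd (nat_lit 78) (nat_lit 152) (nat_lit 0) (XT.lf (nat_lit 0) (nat_lit 3194267751) (nat_lit 304) (nat_lit 3121267726) (nat_lit 76) (nat_lit 4960724088) (nat_lit 25) (nat_lit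 5) (nat_lit 29) (nat_lit 5) (nat_lit 26) (nat_lit 4) (nat_lit 262) (nat_lit 233) (nat_lit 225)) (XT.lf (nat_lit 0) (nat_lit 5959457706) (nat_lit 152) (nat_lit 2075036222) (nat_lit 228) (nat_lit 3817930700) (nat_lit 23) (nat_lit 5) (nat_lit 25) (nat_lit 5) (nat_lit 26) (nat_lit 4) (nat_lit 263) (nat_lit 233) (nat_lit 224))) (XT.nd (nat_lit 78) (nat_lit 152) (nat_lit 0) (XT.lf (nat_lit 0) (nat_lit 664042124) (nat_lit 228) (nat_lit 9391706120) (nat_lit 76) (nat_lit 2423817189) (nat_lit 20) (nat_lit 5) (nat_lit 23) (nat_lit 5) (nat_lit 21) (nat_lit 4) (nat_lit 264) (nat_lit 233) (nat_lit 223)) (XT.nd (nat_lit 78) (nat_lit 152) (nat_lit 0) (XT.lf (nat_lit 0) (nat_lit 5281262614) (nat_lit 228) (nat_lit 613694461) (nat_lit 76) (nat_lit 7263820524) (nat_lit 20) (nat_lit 5) (nat_lit 23) (nat_lit 5) (nat_lit 21) (nat_lit 4) (nat_lit 265) (nat_lit 233) (nat_lit 222)) (XT.lf (nat_lit 0) (nat_lit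 8816817903) (nat_lit 152) (nat_lit 1375123888) (nat_lit 228) (nat_lit 3704692121) (nat_lit 18) (nat_lit 5) (nat_lit 20) (nat_lit 5) (nat_lit 21) (nat_lit 4) (nat_lit 266) (nat_lit 233) (nat_lit 221)))))) (XT.nd (nat_lit 312) (nat_lit 228) (nat_lit 0) (XT.nd (nat_lit 156) (nat_lit 228) (nat_lit 0) (XT.nd (nat_lit 78) (nat_lit 0) (nat_lit 0) (XT.lf (nat_lit 0) (nat_lit 699404154) (nat_lit 228) (nat_lit 10628986686) (nat_lit 76) (nat_lit 3368796908) (nat_lit 15) (nat_lit 5) (nat_lit 18) (nat_lit 5) (nat_lit 16) (nat_lit 4) (nat_lit 267) (nat_lit 233) (nat_lit 220)) (XT.lf (nat_lit 0) (nat_lit 5243057074) (nat_lit 228) (nat_lit 1834110804) (nat_lit 76) (nat_lit 8486147638) (nat_lit 15) (nat_lit 5) (nat_lit 18) (nat_lit 5) (nat_lit 16) (nat_lit 4) (nat_lit 268) (nat_lit 233) (nat_lit 219))) (XT.nd (nat_lit 78) (nat_lit 152) (nat_lit 0) (XT.lf (nat_lit 0) (nat_lit 7612539343) (nat_lit 76) (nat_lit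 2473333794) (nat_lit 152) (nat_lit 6416463326) (nat_lit 14) (nat_lit 5) (nat_lit 15) (nat_lit 5) (nat_lit 16) (nat_lit 4) (nat_lit 269) (nat_lit 233) (nat_lit 218)) (XT.lf (nat_lit 0) (nat_lit 37201202) (nat_lit 152) (nat_lit 15175259066) (nat_lit 152) (nat_lit 2309559402) (nat_lit 12) (nat_lit 4) (nat_lit 14) (nat_lit 5) (nat_lit 14) (nat_lit 4) (nat_lit 270) (nat_lit 233) (nat_lit 217)))) (XT.nd (nat_lit 156) (nat_lit 152) (nat_lit 0) (XT.nd (nat_lit 78) (nat_lit 0) (nat_lit 0) (XT.lf (nat_lit 0) (nat_lit 2086858299) (nat_lit 228) (nat_lit 8980483233) (nat_lit 76) (nat_lit 7553141852) (nat_lit 11) (nat_lit 5) (nat_lit 14) (nat_lit 5) (nat_lit 12) (nat_lit 4) (nat_lit 271) (nat_lit 233) (nat_lit 216)) (XT.lf (nat_lit 0) (nat_lit 6597660452) (nat_lit 228) (nat_lit 97082417) (nat_lit 76) (nat_lit 13118301118) (nat_lit 11) (nat_lit 5) (nat_lit 14) (nat_lit 5) (nat_lit 12) (nat_lit 4) (nat_lit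 272) (nat_lit 233) (nat_lit 215))) (XT.nd (nat_lit 78) (nat_lit 76) (nat_lit 0) (XT.lf (nat_lit 0) (nat_lit 9560066895) (nat_lit 76) (nat_lit 1912690600) (nat_lit 152) (nat_lit 9628350970) (nat_lit 10) (nat_lit 5) (nat_lit 11) (nat_lit 5) (nat_lit 12) (nat_lit 4) (nat_lit 273) (nat_lit 233) (nat_lit 214)) (XT.nd (nat_lit 78) (nat_lit 76) (nat_lit 0) (XT.lf (nat_lit 0) (nat_lit 16650235765) (nat_lit 152) (nat_lit 2787747444) (nat_lit 0) (nat_lit 3058866740) (nat_lit 10) (nat_lit 5) (nat_lit 12) (nat_lit 4) (nat_lit 10) (nat_lit 4) (nat_lit 274) (nat_lit 233) (nat_lit 213)) (XT.lf (nat_lit 0) (nat_lit 6625170940) (nat_lit 76) (nat_lit 15622692291) (nat_lit 76) (nat_lit 1756321938) (nat_lit 9) (nat_lit 4) (nat_lit 10) (nat_lit 5) (nat_lit 10) (nat_lit 4) (nat_lit 275) (nat_lit 233) (nat_lit 212))))))) (XT.nd (nat_lit 702) (nat_lit 152) (nat_lit 0) (XT.nd (nat_lit 312) (nat_lit 152) (nat_lit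 0) (XT.nd (nat_lit 156) (nat_lit 76) (nat_lit 0) (XT.nd (nat_lit 78) (nat_lit 0) (nat_lit 0) (XT.lf (nat_lit 0) (nat_lit 2499724706) (nat_lit 152) (nat_lit 8996565564) (nat_lit 76) (nat_lit 14137758765) (nat_lit 8) (nat_lit 5) (nat_lit 10) (nat_lit 5) (nat_lit 9) (nat_lit 4) (nat_lit 276) (nat_lit 233) (nat_lit 211)) (XT.lf (nat_lit 0) (nat_lit 6919201228) (nat_lit 152) (nat_lit 172408007) (nat_lit 76) (nat_lit 20307218612) (nat_lit 8) (nat_lit 5) (nat_lit 10) (nat_lit 5) (nat_lit 9) (nat_lit 4) (nat_lit 277) (nat_lit 233) (nat_lit 210))) (XT.nd (nat_lit 78) (nat_lit 0) (nat_lit 0) (XT.lf (nat_lit 0) (nat_lit 9476477308) (nat_lit 76) (nat_lit 2255987450) (nat_lit 152) (nat_lit 17570488136) (nat_lit 7) (nat_lit 5) (nat_lit 8) (nat_lit 5) (nat_lit 9) (nat_lit 4) (nat_lit 278) (nat_lit 233) (nat_lit 209)) (XT.lf (nat_lit 0) (nat_lit 16876500396) (nat_lit 152) (nat_lit 11682816966) (nat_lit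 0) (nat_lit 2802967412) (nat_lit 7) (nat_lit 5) (nat_lit 9) (nat_lit 4) (nat_lit 7) (nat_lit 4) (nat_lit 279) (nat_lit 233) (nat_lit 208)))) (XT.nd (nat_lit 156) (nat_lit 76) (nat_lit 0) (XT.nd (nat_lit 78) (nat_lit 76) (nat_lit 0) (XT.lf (nat_lit 0) (nat_lit 22374120644) (nat_lit 152) (nat_lit 3092951006) (nat_lit 0) (nat_lit 8122338819) (nat_lit 7) (nat_lit 5) (nat_lit 9) (nat_lit 4) (nat_lit 7) (nat_lit 4) (nat_lit 280) (nat_lit 233) (nat_lit 207)) (XT.lf (nat_lit 0) (nat_lit 6228601640) (nat_lit 76) (nat_lit 22091325994) (nat_lit 76) (nat_lit 7674498947) (nat_lit 6) (nat_lit 4) (nat_lit 7) (nat_lit 5) (nat_lit 7) (nat_lit 4) (nat_lit 281) (nat_lit 233) (nat_lit 206))) (XT.nd (nat_lit 78) (nat_lit 76) (nat_lit 0) (XT.lf (nat_lit 0) (nat_lit 16258199924) (nat_lit 76) (nat_lit 18452477864) (nat_lit 76) (nat_lit 3882831166) (nat_lit 6) (nat_lit 4) (nat_lit 7) (nat_lit 5) (nat_lit 7) (nat_lit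 4) (nat_lit 282) (nat_lit 233) (nat_lit 205)) (XT.nd (nat_lit 78) (nat_lit 0) (nat_lit 0) (XT.lf (nat_lit 0) (nat_lit 125647561) (nat_lit 152) (nat_lit 14453568874) (nat_lit 76) (nat_lit 26825236111) (nat_lit 5) (nat_lit 5) (nat_lit 7) (nat_lit 5) (nat_lit 6) (nat_lit 4) (nat_lit 283) (nat_lit 233) (nat_lit 204)) (XT.lf (nat_lit 0) (nat_lit 4246762095) (nat_lit 152) (nat_lit 6136302297) (nat_lit 76) (nat_lit 34057730185) (nat_lit 5) (nat_lit 5) (nat_lit 7) (nat_lit 5) (nat_lit 6) (nat_lit 4) (nat_lit 284) (nat_lit 233) (nat_lit 203)))))) (XT.nd (nat_lit 390) (nat_lit 76) (nat_lit 0) (XT.nd (nat_lit 156) (nat_lit 0) (nat_lit 0) (XT.nd (nat_lit 78) (nat_lit 0) (nat_lit 0) (XT.lf (nat_lit 0) (nat_lit 2816547181) (nat_lit 76) (nat_lit 5856635717) (nat_lit 152) (nat_lit 39048177676) (nat_lit 4) (nat_lit 5) (nat_lit 5) (nat_lit 5) (nat_lit 6) (nat_lit 4) (nat_lit 285) (nat_lit 233) (nat_lit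 202)) (XT.lf (nat_lit 0) (nat_lit 12590017156) (nat_lit 76) (nat_lit 905505732) (nat_lit 152) (nat_lit 37766848920) (nat_lit 4) (nat_lit 5) (nat_lit 5) (nat_lit 5) (nat_lit 6) (nat_lit 4) (nat_lit 286) (nat_lit 233) (nat_lit 201))) (XT.nd (nat_lit 78) (nat_lit 0) (nat_lit 0) (XT.lf (nat_lit 0) (nat_lit 18712016168) (nat_lit 152) (nat_lit 32119259951) (nat_lit 0) (nat_lit 4255053070) (nat_lit 4) (nat_lit 5) (nat_lit 6) (nat_lit 4) (nat_lit 4) (nat_lit 4) (nat_lit 287) (nat_lit 233) (nat_lit 200)) (XT.nd (nat_lit 78) (nat_lit 0) (nat_lit 0) (XT.lf (nat_lit 0) (nat_lit 24304633016) (nat_lit 152) (nat_lit 25157753864) (nat_lit 0) (nat_lit 9755953439) (nat_lit 4) (nat_lit 5) (nat_lit 6) (nat_lit 4) (nat_lit 4) (nat_lit 4) (nat_lit 288) (nat_lit 233) (nat_lit 199)) (XT.lf (nat_lit 0) (nat_lit 30292377383) (nat_lit 152) (nat_lit 17732445538) (nat_lit 0) (nat_lit 15658775141) (nat_lit 4) (nat_lit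 5) (nat_lit 6) (nat_lit 4) (nat_lit 4) (nat_lit 4) (nat_lit 289) (nat_lit 233) (nat_lit 198))))) (XT.nd (nat_lit 156) (nat_lit 76) (nat_lit 0) (XT.nd (nat_lit 78) (nat_lit 0) (nat_lit 0) (XT.lf (nat_lit 0) (nat_lit 36710732200) (nat_lit 152) (nat_lit 9799333146) (nat_lit 0) (nat_lit 21998497861) (nat_lit 4) (nat_lit 5) (nat_lit 6) (nat_lit 4) (nat_lit 4) (nat_lit 4) (nat_lit 290) (nat_lit 233) (nat_lit 197)) (XT.lf (nat_lit 0) (nat_lit 43597732161) (nat_lit 152) (nat_lit 1311405653) (nat_lit 0) (nat_lit 28812690324) (nat_lit 4) (nat_lit 5) (nat_lit 6) (nat_lit 4) (nat_lit 4) (nat_lit 4) (nat_lit 291) (nat_lit 233) (nat_lit 196))) (XT.nd (nat_lit 78) (nat_lit 0) (nat_lit 0) (XT.lf (nat_lit 0) (nat_lit 8038931792) (nat_lit 76) (nat_lit 43080767580) (nat_lit 76) (nat_lit 28228311394) (nat_lit 3) (nat_lit 4) (nat_lit 4) (nat_lit 5) (nat_lit 4) (nat_lit 4) (nat_lit 292) (nat_lit 233) (nat_lit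 195)) (XT.nd (nat_lit 78) (nat_lit 0) (nat_lit 0) (XT.lf (nat_lit 0) (nat_lit 18113418323) (nat_lit 76) (nat_lit 41113316826) (nat_lit 76) (nat_lit 26198439946) (nat_lit 3) (nat_lit 4) (nat_lit 4) (nat_lit 5) (nat_lit 4) (nat_lit 4) (nat_lit 293) (nat_lit 233) (nat_lit 194)) (XT.lf (nat_lit 0) (nat_lit 28928393607) (nat_lit 76) (nat_lit 39017335876) (nat_lit 76) (nat_lit 24044662056) (nat_lit 3) (nat_lit 4) (nat_lit 4) (nat_lit 5) (nat_lit 4) (nat_lit 4) (nat_lit 294) (nat_lit 233) (nat_lit 193))))))))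
noncomputable def xc35 : XT := (XT.nd (nat_lit 1404) (nat_lit 0) (nat_lit 0) (XT.nd (nat_lit 702) (nat_lit 76) (nat_lit 0) (XT.nd (nat_lit 312) (nat_lit 76) (nat_lit 0) (XT.nd (nat_lit 156) (nat_lit 0) (nat_lit 0) (XT.nd (nat_lit 78) (nat_lit 0) (nat_lit 0) (XT.lf (nat_lit 0) (nat_lit 40547946387) (nat_lit 76) (nat_lit 36780404100) (nat_lit 76) (nat_lit 21754214596) (nat_lit 3) (nat_lit 4) (nat_lit 4) (nat_lit 5) (nat_lit 4) (nat_lit 4) (nat_lit 295) (nat_lit 233) (nat_lit 192)) (XT.lf (nat_lit 0) (nat_lit 53040933270) (nat_lit 76) (nat_lit 34389265607) (nat_lit 76) (nat_lit 19313524544) (nat_lit 3) (nat_lit 4) (nat_lit 4) (nat_lit 5) (nat_lit 4) (nat_lit 4) (nat_lit 296) (nat_lit 233) (nat_lit 191))) (XT.nd (nat_lit 78) (nat_lit 0) (nat_lit 0) (XT.lf (nat_lit 0) (nat_lit 66481386773) (nat_lit 76) (nat_lit 31829750688) (nat_lit 76) (nat_lit 16708128551) (nat_lit 3) (nat_lit 4) (nat_lit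 4) (nat_lit 5) (nat_lit 4) (nat_lit 4) (nat_lit 297) (nat_lit 233) (nat_lit 190)) (XT.lf (nat_lit 0) (nat_lit 80948954027) (nat_lit 76) (nat_lit 29086691846) (nat_lit 76) (nat_lit 13922587234) (nat_lit 3) (nat_lit 4) (nat_lit 4) (nat_lit 5) (nat_lit 4) (nat_lit 4) (nat_lit 298) (nat_lit 233) (nat_lit 189)))) (XT.nd (nat_lit 156) (nat_lit 76) (nat_lit 0) (XT.nd (nat_lit 78) (nat_lit 0) (nat_lit 0) (XT.lf (nat_lit 0) (nat_lit 96529368763) (nat_lit 76) (nat_lit 26143833919) (nat_lit 76) (nat_lit 10940393681) (nat_lit 3) (nat_lit 4) (nat_lit 4) (nat_lit 5) (nat_lit 4) (nat_lit 4) (nat_lit 299) (nat_lit 233) (nat_lit 188)) (XT.lf (nat_lit 0) (nat_lit 113314959366) (nat_lit 76) (nat_lit 22983737747) (nat_lit 76) (nat_lit 7743875633) (nat_lit 3) (nat_lit 4) (nat_lit 4) (nat_lit 5) (nat_lit 4) (nat_lit 4) (nat_lit 300) (nat_lit 233) (nat_lit 187))) (XT.nd (nat_lit 78) (nat_lit 76) (nat_lit 0)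 (XT.lf (nat_lit 0) (nat_lit 131405196002) (nat_lit 76) (nat_lit 19587676836) (nat_lit 76) (nat_lit 4314090763) (nat_lit 3) (nat_lit 4) (nat_lit 4) (nat_lit 5) (nat_lit 4) (nat_lit 4) (nat_lit 301) (nat_lit 233) (nat_lit 186)) (XT.nd (nat_lit 78) (nat_lit 76) (nat_lit 0) (XT.lf (nat_lit 0) (nat_lit 150907280074) (nat_lit 76) (nat_lit 15935526379) (nat_lit 76) (nat_lit 630714419) (nat_lit 3) (nat_lit 4) (nat_lit 4) (nat_lit 5) (nat_lit 4) (nat_lit 4) (nat_lit 302) (nat_lit 233) (nat_lit 185)) (XT.lf (nat_lit 0) (nat_lit 3221561444) (nat_lit 152) (nat_lit 8729523857) (nat_lit 76) (nat_lit 168660659340) (nat_lit 2) (nat_lit 5) (nat_lit 4) (nat_lit 5) (nat_lit 3) (nat_lit 4) (nat_lit 303) (nat_lit 233) (nat_lit 184)))))) (XT.nd (nat_lit 312) (nat_lit 0) (nat_lit 0) (XT.nd (nat_lit 156) (nat_lit 0) (nat_lit 0) (XT.nd (nat_lit 78) (nat_lit 76) (nat_lit 0) (XT.lf (nat_lit 0) (nat_lit 7342962949)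 (nat_lit 152) (nat_lit 307421939) (nat_lit 76) (nat_lit 187150993916) (nat_lit 2) (nat_lit 5) (nat_lit 4) (nat_lit 5) (nat_lit 3) (nat_lit 4) (nat_lit 304) (nat_lit 233) (nat_lit 183)) (XT.lf (nat_lit 0) (nat_lit 9049460169) (nat_lit 76) (nat_lit 2869927279) (nat_lit 152) (nat_lit 198200550619) (nat_lit 1) (nat_lit 5) (nat_lit 2) (nat_lit 5) (nat_lit 3) (nat_lit 4) (nat_lit 305) (nat_lit 233) (nat_lit 182))) (XT.nd (nat_lit 78) (nat_lit 0) (nat_lit 0) (XT.lf (nat_lit 0) (nat_lit 16887757901) (nat_lit 152) (nat_lit 207561703643) (nat_lit 0) (nat_lit 2213247367) (nat_lit 1) (nat_lit 5) (nat_lit 3) (nat_lit 4) (nat_lit 1) (nat_lit 4) (nat_lit 306) (nat_lit 233) (nat_lit 181)) (XT.lf (nat_lit 0) (nat_lit 22287721199) (nat_lit 152) (nat_lit 214646520293) (nat_lit 0) (nat_lit 7592970842) (nat_lit 1) (nat_lit 5) (nat_lit 3) (nat_lit 4) (nat_lit 1) (nat_lit 4) (nat_lit 307) (nat_lit 233) (nat_lit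 180)))) (XT.nd (nat_lit 156) (nat_lit 0) (nat_lit 0) (XT.nd (nat_lit 78) (nat_lit 0) (nat_lit 0) (XT.lf (nat_lit 0) (nat_lit 28106469518) (nat_lit 152) (nat_lit 222322104340) (nat_lit 0) (nat_lit 13392978583) (nat_lit 1) (nat_lit 5) (nat_lit 3) (nat_lit 4) (nat_lit 1) (nat_lit 4) (nat_lit 308) (nat_lit 233) (nat_lit 179)) (XT.lf (nat_lit 0) (nat_lit 34378484329) (nat_lit 152) (nat_lit 230633940727) (nat_lit 0) (nat_lit 19647641007) (nat_lit 1) (nat_lit 5) (nat_lit 3) (nat_lit 4) (nat_lit 1) (nat_lit 4) (nat_lit 309) (nat_lit 233) (nat_lit 178))) (XT.nd (nat_lit 78) (nat_lit 0) (nat_lit 0) (XT.lf (nat_lit 0) (nat_lit 41140933126) (nat_lit 152) (nat_lit 239631284779) (nat_lit 0) (nat_lit 26394022780) (nat_lit 1) (nat_lit 5) (nat_lit 3) (nat_lit 4) (nat_lit 1) (nat_lit 4) (nat_lit 310) (nat_lit 233) (nat_lit 177)) (XT.nd (nat_lit 78) (nat_lit 0) (nat_lit 0) (XT.lf (nat_lit 0) (nat_lit 48433889681)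 (nat_lit 152) (nat_lit 249367454092) (nat_lit 0) (nat_lit 33672102461) (nat_lit 1) (nat_lit 5) (nat_lit 3) (nat_lit 4) (nat_lit 1) (nat_lit 4) (nat_lit 311) (nat_lit 233) (nat_lit 176)) (XT.lf (nat_lit 0) (nat_lit 56300571515) (nat_lit 152) (nat_lit 259900144484) (nat_lit 0) (nat_lit 41525009411) (nat_lit 1) (nat_lit 5) (nat_lit 3) (nat_lit 4) (nat_lit 1) (nat_lit 4) (nat_lit 312) (nat_lit 233) (nat_lit 175))))))) (XT.nd (nat_lit 702) (nat_lit 0) (nat_lit 0) (XT.nd (nat_lit 312) (nat_lit 0) (nat_lit 0) (XT.nd (nat_lit 156) (nat_lit 0) (nat_lit 0) (XT.nd (nat_lit 78) (nat_lit 0) (nat_lit 0) (XT.lf (nat_lit 0) (nat_lit 64787596000) (nat_lit 152) (nat_lit 271291771897) (nat_lit 0) (nat_lit 49999279374) (nat_lit 1) (nat_lit 5) (nat_lit 3) (nat_lit 4) (nat_lit 1) (nat_lit 4) (nat_lit 313) (nat_lit 233) (nat_lit 174)) (XT.lf (nat_lit 0) (nat_lit 73945256615) (nat_lit 152) (nat_lit 283609842272)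 (nat_lit 0) (nat_lit 59145130247) (nat_lit 1) (nat_lit 5) (nat_lit 3) (nat_lit 4) (nat_lit 1) (nat_lit 4) (nat_lit 314) (nat_lit 233) (nat_lit 173))) (XT.nd (nat_lit 78) (nat_lit 0) (nat_lit 0) (XT.lf (nat_lit 0) (nat_lit 83827820979) (nat_lit 152) (nat_lit 296927351582) (nat_lit 0) (nat_lit 69016759664) (nat_lit 1) (nat_lit 5) (nat_lit 3) (nat_lit 4) (nat_lit 1) (nat_lit 4) (nat_lit 315) (nat_lit 233) (nat_lit 172)) (XT.lf (nat_lit 0) (nat_lit 94493852437) (nat_lit 152) (nat_lit 311323218400) (nat_lit 0) (nat_lit 79672666171) (nat_lit 1) (nat_lit 5) (nat_lit 3) (nat_lit 4) (nat_lit 1) (nat_lit 4) (nat_lit 316) (nat_lit 233) (nat_lit 171)))) (XT.nd (nat_lit 156) (nat_lit 0) (nat_lit 0) (XT.nd (nat_lit 78) (nat_lit 0) (nat_lit 0) (XT.lf (nat_lit 0) (nat_lit 106006557099) (nat_lit 152) (nat_lit 326882751566) (nat_lit 0) (nat_lit 91175995879) (nat_lit 1) (nat_lit 5) (nat_lit 3) (nat_lit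 4) (nat_lit 1) (nat_lit 4) (nat_lit 317) (nat_lit 233) (nat_lit 170)) (XT.lf (nat_lit 0) (nat_lit 118434158403) (nat_lit 152) (nat_lit 343698155723) (nat_lit 0) (nat_lit 103594916669) (nat_lit 1) (nat_lit 5) (nat_lit 3) (nat_lit 4) (nat_lit 1) (nat_lit 4) (nat_lit 318) (nat_lit 233) (nat_lit 169))) (XT.nd (nat_lit 78) (nat_lit 0) (nat_lit 0) (XT.lf (nat_lit 0) (nat_lit 131850301391) (nat_lit 152) (nat_lit 361869077708) (nat_lit 0) (nat_lit 117003022145) (nat_lit 1) (nat_lit 5) (nat_lit 3) (nat_lit 4) (nat_lit 1) (nat_lit 4) (nat_lit 319) (nat_lit 233) (nat_lit 168)) (XT.nd (nat_lit 78) (nat_lit 0) (nat_lit 0) (XT.lf (nat_lit 0) (nat_lit 146334489134) (nat_lit 152) (nat_lit 381503197059) (nat_lit 0) (nat_lit 131479767747) (nat_lit 1) (nat_lit 5) (nat_lit 3) (nat_lit 4) (nat_lit 1) (nat_lit 4) (nat_lit 320) (nat_lit 233) (nat_lit 167)) (XT.lf (nat_lit 0) (nat_lit 161972553856) (nat_lit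 152) (nat_lit 402716864115) (nat_lit 0) (nat_lit 147110941598) (nat_lit 1) (nat_lit 5) (nat_lit 3) (nat_lit 4) (nat_lit 1) (nat_lit 4) (nat_lit 321) (nat_lit 233) (nat_lit 166)))))) (XT.nd (nat_lit 32214) (nat_lit 0) (nat_lit 2584) (XT.nd (nat_lit 156) (nat_lit 0) (nat_lit 0) (XT.nd (nat_lit 78) (nat_lit 0) (nat_lit 0) (XT.lf (nat_lit 0) (nat_lit 178857165570) (nat_lit 152) (nat_lit 425635789494) (nat_lit 0) (nat_lit 163989172875) (nat_lit 1) (nat_lit 5) (nat_lit 3) (nat_lit 4) (nat_lit 1) (nat_lit 4) (nat_lit 322) (nat_lit 233) (nat_lit 165)) (XT.lf (nat_lit 0) (nat_lit 197088381233) (nat_lit 152) (nat_lit 450395789050) (nat_lit 0) (nat_lit 182214480727) (nat_lit 1) (nat_lit 5) (nat_lit 3) (nat_lit 4) (nat_lit 1) (nat_lit 4) (nat_lit 323) (nat_lit 233) (nat_lit 164))) (XT.nd (nat_lit 31902) (nat_lit 0) (nat_lit 4104) (XT.lf (nat_lit 0) (nat_lit 216774237680) (nat_lit 152) (nat_lit 477143588706)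 (nat_lit 0) (nat_lit 201894866978) (nat_lit 1) (nat_lit 5) (nat_lit 3) (nat_lit 4) (nat_lit 1) (nat_lit 4) (nat_lit 324) (nat_lit 233) (nat_lit 163)) (XT.nd (nat_lit 78) (nat_lit 304) (nat_lit 0) (XT.lf (nat_lit 0) (nat_lit 866380956) (nat_lit 380) (nat_lit 2092155780) (nat_lit 0) (nat_lit 866380956) (nat_lit 59) (nat_lit 5) (nat_lit 64) (nat_lit 4) (nat_lit 59) (nat_lit 4) (nat_lit 252) (nat_lit 234) (nat_lit 234)) (XT.lf (nat_lit 0) (nat_lit 3487626201) (nat_lit 304) (nat_lit 3217285787) (nat_lit 304) (nat_lit 1172028029) (nat_lit 55) (nat_lit 4) (nat_lit 59) (nat_lit 5) (nat_lit 59) (nat_lit 4) (nat_lit 253) (nat_lit 234) (nat_lit 233))))) (XT.nd (nat_lit 156) (nat_lit 760) (nat_lit 0) (XT.nd (nat_lit 78) (nat_lit 380) (nat_lit 0) (XT.lf (nat_lit 0) (nat_lit 3440477610) (nat_lit 304) (nat_lit 159274853) (nat_lit 380) (nat_lit 4532214304) (nat_lit 50) (nat_lit 5) (nat_lit 54) (nat_lit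 5) (nat_lit 55) (nat_lit 4) (nat_lit 254) (nat_lit 234) (nat_lit 232)) (XT.lf (nat_lit 0) (nat_lit 135539161) (nat_lit 380) (nat_lit 5143567400) (nat_lit 76) (nat_lit 3136453885) (nat_lit 45) (nat_lit 5) (nat_lit 50) (nat_lit 5) (nat_lit 46) (nat_lit 4) (nat_lit 255) (nat_lit 234) (nat_lit 231))) (XT.nd (nat_lit 78) (nat_lit 532) (nat_lit 0) (XT.lf (nat_lit 0) (nat_lit 2931383630) (nat_lit 228) (nat_lit 1897437822) (nat_lit 304) (nat_lit 3900002654) (nat_lit 42) (nat_lit 5) (nat_lit 45) (nat_lit 5) (nat_lit 46) (nat_lit 4) (nat_lit 256) (nat_lit 234) (nat_lit 230)) (XT.nd (nat_lit 78) (nat_lit 228) (nat_lit 0) (XT.lf (nat_lit 0) (nat_lit 650362806) (nat_lit 304) (nat_lit 6666221891) (nat_lit 76) (nat_lit 1758685106) (nat_lit 38) (nat_lit 5) (nat_lit 42) (nat_lit 5) (nat_lit 39) (nat_lit 4) (nat_lit 257) (nat_lit 234) (nat_lit 229)) (XT.lf (nat_lit 0) (nat_lit 1591032024) (nat_lit 228)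 (nat_lit 3703140529) (nat_lit 304) (nat_lit 4159773528) (nat_lit 35) (nat_lit 5) (nat_lit 38) (nat_lit 5) (nat_lit 39) (nat_lit 4) (nat_lit 258) (nat_lit 234) (nat_lit 228))))))))
noncomputable def xc36 : XT := (XT.nd (nat_lit 1404) (nat_lit 380) (nat_lit 0) (XT.nd (nat_lit 702) (nat_lit 608) (nat_lit 0) (XT.nd (nat_lit 312) (nat_lit 684) (nat_lit 0) (XT.nd (nat_lit 156) (nat_lit 456) (nat_lit 0) (XT.nd (nat_lit 78) (nat_lit 0) (nat_lit 0) (XT.lf (nat_lit 0) (nat_lit 277152381) (nat_lit 304) (nat_lit 9366175814) (nat_lit 76) (nat_lit 227890321) (nat_lit 31) (nat_lit 5) (nat_lit 35) (nat_lit 5) (nat_lit 32) (nat_lit 4) (nat_lit 259) (nat_lit 234) (nat_lit 227)) (XT.lf (nat_lit 0) (nat_lit 4855828392) (nat_lit 304) (nat_lit 1010783640) (nat_lit 76) (nat_lit 4456052506) (nat_lit 31) (nat_lit 5) (nat_lit 35) (nat_lit 5) (nat_lit 32) (nat_lit 4) (nat_lit 260) (nat_lit 234) (nat_lit 226)))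 (XT.nd (nat_lit 78) (nat_lit 304) (nat_lit 0) (XT.lf (nat_lit 0) (nat_lit 7910532924) (nat_lit 152) (nat_lit 1762782159) (nat_lit 228) (nat_lit 1144052136) (nat_lit 29) (nat_lit 5) (nat_lit 31) (nat_lit 5) (nat_lit 32) (nat_lit 4) (nat_lit 261) (nat_lit 234) (nat_lit 225)) (XT.lf (nat_lit 0) (nat_lit 3324074825) (nat_lit 304) (nat_lit 5379540074) (nat_lit 76) (nat_lit 2650339606) (nat_lit 25) (nat_lit 5) (nat_lit 29) (nat_lit 5) (nat_lit 26) (nat_lit 4) (nat_lit 262) (nat_lit 234) (nat_lit 224)))) (XT.nd (nat_lit 156) (nat_lit 304) (nat_lit 0) (XT.nd (nat_lit 78) (nat_lit 228) (nat_lit 0) (XT.lf (nat_lit 0) (nat_lit 3455546370) (nat_lit 152) (nat_lit 4558515624) (nat_lit 228) (nat_lit 3923870540) (nat_lit 23) (nat_lit 5) (nat_lit 25) (nat_lit 5) (nat_lit 26) (nat_lit 4) (nat_lit 263) (nat_lit 234) (nat_lit 223)) (XT.lf (nat_lit 0) (nat_lit 288097108) (nat_lit 152) (nat_lit 82567157) (nat_lit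 228) (nat_lit 12204298657) (nat_lit 20) (nat_lit 5) (nat_lit 22) (nat_lit 5) (nat_lit 23) (nat_lit 5) (nat_lit 264) (nat_lit 234) (nat_lit 222))) (XT.nd (nat_lit 78) (nat_lit 304) (nat_lit 0) (XT.lf (nat_lit 0) (nat_lit 4883915753) (nat_lit 228) (nat_lit 3667148446) (nat_lit 76) (nat_lit 4708555121) (nat_lit 20) (nat_lit 5) (nat_lit 23) (nat_lit 5) (nat_lit 21) (nat_lit 4) (nat_lit 265) (nat_lit 234) (nat_lit 221)) (XT.nd (nat_lit 78) (nat_lit 152) (nat_lit 0) (XT.lf (nat_lit 0) (nat_lit 5509754845) (nat_lit 152) (nat_lit 4138133583) (nat_lit 228) (nat_lit 4357150106) (nat_lit 18) (nat_lit 5) (nat_lit 20) (nat_lit 5) (nat_lit 21) (nat_lit 4) (nat_lit 266) (nat_lit 234) (nat_lit 220)) (XT.lf (nat_lit 0) (nat_lit 446143278) (nat_lit 152) (nat_lit 14239174986) (nat_lit 152) (nat_lit 130594349) (nat_lit 16) (nat_lit 4) (nat_lit 18) (nat_lit 5) (nat_lit 18) (nat_lit 4) (nat_lit 267) (nat_lit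 234) (nat_lit 219)))))) (XT.nd (nat_lit 312) (nat_lit 228) (nat_lit 0) (XT.nd (nat_lit 156) (nat_lit 228) (nat_lit 0) (XT.nd (nat_lit 78) (nat_lit 76) (nat_lit 0) (XT.lf (nat_lit 0) (nat_lit 4329170057) (nat_lit 228) (nat_lit 5714904800) (nat_lit 76) (nat_lit 5642656707) (nat_lit 15) (nat_lit 5) (nat_lit 18) (nat_lit 5) (nat_lit 16) (nat_lit 4) (nat_lit 268) (nat_lit 234) (nat_lit 218)) (XT.lf (nat_lit 0) (nat_lit 3467551812) (nat_lit 76) (nat_lit 5558174669) (nat_lit 152) (nat_lit 7607511066) (nat_lit 14) (nat_lit 5) (nat_lit 15) (nat_lit 5) (nat_lit 16) (nat_lit 4) (nat_lit 269) (nat_lit 234) (nat_lit 217))) (XT.nd (nat_lit 78) (nat_lit 228) (nat_lit 0) (XT.lf (nat_lit 0) (nat_lit 13326993403) (nat_lit 76) (nat_lit 709429093) (nat_lit 152) (nat_lit 3622452123) (nat_lit 14) (nat_lit 5) (nat_lit 15) (nat_lit 5) (nat_lit 16) (nat_lit 4) (nat_lit 270) (nat_lit 234) (nat_lit 216)) (XT.lf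 (nat_lit 0) (nat_lit 658176964) (nat_lit 228) (nat_lit 13726550071) (nat_lit 76) (nat_lit 4381667150) (nat_lit 11) (nat_lit 5) (nat_lit 14) (nat_lit 5) (nat_lit 12) (nat_lit 4) (nat_lit 271) (nat_lit 234) (nat_lit 215)))) (XT.nd (nat_lit 156) (nat_lit 152) (nat_lit 0) (XT.nd (nat_lit 78) (nat_lit 76) (nat_lit 0) (XT.lf (nat_lit 0) (nat_lit 5098869156) (nat_lit 228) (nat_lit 4959930704) (nat_lit 76) (nat_lit 9903790504) (nat_lit 11) (nat_lit 5) (nat_lit 14) (nat_lit 5) (nat_lit 12) (nat_lit 4) (nat_lit 272) (nat_lit 234) (nat_lit 214)) (XT.lf (nat_lit 0) (nat_lit 4424724613) (nat_lit 76) (nat_lit 5404147871) (nat_lit 152) (nat_lit 11429157486) (nat_lit 10) (nat_lit 5) (nat_lit 11) (nat_lit 5) (nat_lit 12) (nat_lit 4) (nat_lit 273) (nat_lit 234) (nat_lit 213))) (XT.nd (nat_lit 78) (nat_lit 152) (nat_lit 0) (XT.lf (nat_lit 0) (nat_lit 14522131882) (nat_lit 76) (nat_lit 373159462) (nat_lit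 152) (nat_lit 7764144602) (nat_lit 10) (nat_lit 5) (nat_lit 11) (nat_lit 5) (nat_lit 12) (nat_lit 4) (nat_lit 274) (nat_lit 234) (nat_lit 212)) (XT.nd (nat_lit 78) (nat_lit 76) (nat_lit 0) (XT.lf (nat_lit 0) (nat_lit 1003380000) (nat_lit 76) (nat_lit 19338187091) (nat_lit 76) (nat_lit 3832874922) (nat_lit 9) (nat_lit 4) (nat_lit 10) (nat_lit 5) (nat_lit 10) (nat_lit 4) (nat_lit 275) (nat_lit 234) (nat_lit 211)) (XT.lf (nat_lit 0) (nat_lit 433700000) (nat_lit 152) (nat_lit 14851996482) (nat_lit 76) (nat_lit 10523118216) (nat_lit 8) (nat_lit 5) (nat_lit 10) (nat_lit 5) (nat_lit 9) (nat_lit 4) (nat_lit 276) (nat_lit 234) (nat_lit 210))))))) (XT.nd (nat_lit 702) (nat_lit 152) (nat_lit 0) (XT.nd (nat_lit 312) (nat_lit 152) (nat_lit 0) (XT.nd (nat_lit 156) (nat_lit 0) (nat_lit 0) (XT.nd (nat_lit 78) (nat_lit 76) (nat_lit 0) (XT.lf (nat_lit 0) (nat_lit 4801385425) (nat_lit 152) (nat_lit 6116546281)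 (nat_lit 76) (nat_lit 16658335673) (nat_lit 8) (nat_lit 5) (nat_lit 10) (nat_lit 5) (nat_lit 9) (nat_lit 4) (nat_lit 277) (nat_lit 234) (nat_lit 209)) (XT.lf (nat_lit 0) (nat_lit 3250946735) (nat_lit 76) (nat_lit 6218549520) (nat_lit 152) (nat_lit 20018231873) (nat_lit 7) (nat_lit 5) (nat_lit 8) (nat_lit 5) (nat_lit 9) (nat_lit 4) (nat_lit 278) (nat_lit 234) (nat_lit 208))) (XT.nd (nat_lit 78) (nat_lit 0) (nat_lit 0) (XT.lf (nat_lit 0) (nat_lit 13422839953) (nat_lit 76) (nat_lit 1099853619) (nat_lit 152) (nat_lit 17028980636) (nat_lit 7) (nat_lit 5) (nat_lit 8) (nat_lit 5) (nat_lit 9) (nat_lit 4) (nat_lit 279) (nat_lit 234) (nat_lit 207)) (XT.lf (nat_lit 0) (nat_lit 19960416637) (nat_lit 152) (nat_lit 9596246854) (nat_lit 0) (nat_lit 4225198203) (nat_lit 7) (nat_lit 5) (nat_lit 9) (nat_lit 4) (nat_lit 7) (nat_lit 4) (nat_lit 280) (nat_lit 234) (nat_lit 206)))) (XT.nd (nat_lit 156) (nat_lit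 76) (nat_lit 0) (XT.nd (nat_lit 78) (nat_lit 76) (nat_lit 0) (XT.lf (nat_lit 0) (nat_lit 25769417156) (nat_lit 152) (nat_lit 542983874) (nat_lit 0) (nat_lit 9881379071) (nat_lit 7) (nat_lit 5) (nat_lit 9) (nat_lit 4) (nat_lit 7) (nat_lit 4) (nat_lit 281) (nat_lit 234) (nat_lit 205)) (XT.lf (nat_lit 0) (nat_lit 9402721248) (nat_lit 76) (nat_lit 22711028622) (nat_lit 76) (nat_lit 6681490860) (nat_lit 6) (nat_lit 4) (nat_lit 7) (nat_lit 5) (nat_lit 7) (nat_lit 4) (nat_lit 282) (nat_lit 234) (nat_lit 204))) (XT.nd (nat_lit 78) (nat_lit 76) (nat_lit 0) (XT.lf (nat_lit 0) (nat_lit 20036477656) (nat_lit 76) (nat_lit 18866080304) (nat_lit 76) (nat_lit 2705524323) (nat_lit 6) (nat_lit 4) (nat_lit 7) (nat_lit 5) (nat_lit 7) (nat_lit 4) (nat_lit 283) (nat_lit 234) (nat_lit 203)) (XT.nd (nat_lit 78) (nat_lit 0) (nat_lit 0) (XT.lf (nat_lit 0) (nat_lit 1469319900) (nat_lit 152) (nat_lit 13269763352)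 (nat_lit 76) (nat_lit 29909143158) (nat_lit 5) (nat_lit 5) (nat_lit 7) (nat_lit 5) (nat_lit 6) (nat_lit 4) (nat_lit 284) (nat_lit 234) (nat_lit 202)) (XT.lf (nat_lit 0) (nat_lit 5821336891) (nat_lit 152) (nat_lit 4460455525) (nat_lit 76) (nat_lit 37650763562) (nat_lit 5) (nat_lit 5) (nat_lit 7) (nat_lit 5) (nat_lit 6) (nat_lit 4) (nat_lit 285) (nat_lit 234) (nat_lit 201)))))) (XT.nd (nat_lit 390) (nat_lit 76) (nat_lit 0) (XT.nd (nat_lit 156) (nat_lit 0) (nat_lit 0) (XT.nd (nat_lit 78) (nat_lit 0) (nat_lit 0) (XT.lf (nat_lit 0) (nat_lit 5114457555) (nat_lit 76) (nat_lit 5428303515) (nat_lit 152) (nat_lit 40935892103) (nat_lit 4) (nat_lit 5) (nat_lit 5) (nat_lit 5) (nat_lit 6) (nat_lit 4) (nat_lit 286) (nat_lit 234) (nat_lit 200)) (XT.lf (nat_lit 0) (nat_lit 15516280195) (nat_lit 76) (nat_lit 147517432) (nat_lit 152) (nat_lit 39643622957) (nat_lit 4) (nat_lit 5) (nat_lit 5) (nat_lit 5)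 (nat_lit 6) (nat_lit 4) (nat_lit 287) (nat_lit 234) (nat_lit 199))) (XT.nd (nat_lit 78) (nat_lit 0) (nat_lit 0) (XT.lf (nat_lit 0) (nat_lit 21228975821) (nat_lit 152) (nat_lit 32872099530) (nat_lit 0) (nat_lit 5339762734) (nat_lit 4) (nat_lit 5) (nat_lit 6) (nat_lit 4) (nat_lit 4) (nat_lit 4) (nat_lit 288) (nat_lit 234) (nat_lit 198)) (XT.nd (nat_lit 78) (nat_lit 0) (nat_lit 0) (XT.lf (nat_lit 0) (nat_lit 27193446582) (nat_lit 152) (nat_lit 25488243415) (nat_lit 0) (nat_lit 11225601399) (nat_lit 4) (nat_lit 5) (nat_lit 6) (nat_lit 4) (nat_lit 4) (nat_lit 4) (nat_lit 289) (nat_lit 234) (nat_lit 197)) (XT.lf (nat_lit 0) (nat_lit 33590251764) (nat_lit 152) (nat_lit 17593512702) (nat_lit 0) (nat_lit 17549599083) (nat_lit 4) (nat_lit 5) (nat_lit 6) (nat_lit 4) (nat_lit 4) (nat_lit 4) (nat_lit 290) (nat_lit 234) (nat_lit 196))))) (XT.nd (nat_lit 156) (nat_lit 76) (nat_lit 0) (XT.nd (nat_lit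 78) (nat_lit 0) (nat_lit 0) (XT.lf (nat_lit 0) (nat_lit 40457298359) (nat_lit 152) (nat_lit 9141123799) (nat_lit 0) (nat_lit 24349231328) (nat_lit 4) (nat_lit 5) (nat_lit 6) (nat_lit 4) (nat_lit 4) (nat_lit 4) (nat_lit 291) (nat_lit 234) (nat_lit 195)) (XT.lf (nat_lit 0) (nat_lit 47835279978) (nat_lit 152) (nat_lit 80988476) (nat_lit 0) (nat_lit 31664792253) (nat_lit 4) (nat_lit 5) (nat_lit 6) (nat_lit 4) (nat_lit 4) (nat_lit 4) (nat_lit 292) (nat_lit 234) (nat_lit 194))) (XT.nd (nat_lit 78) (nat_lit 0) (nat_lit 0) (XT.lf (nat_lit 0) (nat_lit 9959344166) (nat_lit 76) (nat_lit 45964067099) (nat_lit 76) (nat_lit 29735782435) (nat_lit 3) (nat_lit 4) (nat_lit 4) (nat_lit 5) (nat_lit 4) (nat_lit 4) (nat_lit 293) (nat_lit 234) (nat_lit 193)) (XT.nd (nat_lit 78) (nat_lit 0) (nat_lit 0) (XT.lf (nat_lit 0) (nat_lit 20745174966) (nat_lit 76) (nat_lit 43880935981) (nat_lit 76) (nat_lit 27599135632)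 (nat_lit 3) (nat_lit 4) (nat_lit 4) (nat_lit 5) (nat_lit 4) (nat_lit 4) (nat_lit 294) (nat_lit 234) (nat_lit 192)) (XT.lf (nat_lit 0) (nat_lit 32337742111) (nat_lit 76) (nat_lit 41655902198) (nat_lit 76) (nat_lit 25324550290) (nat_lit 3) (nat_lit 4) (nat_lit 4) (nat_lit 5) (nat_lit 4) (nat_lit 4) (nat_lit 295) (nat_lit 234) (nat_lit 191))))))))
noncomputable def xc37 : XT := (XT.nd (nat_lit 1404) (nat_lit 0) (nat_lit 0) (XT.nd (nat_lit 702) (nat_lit 76) (nat_lit 0) (XT.nd (nat_lit 312) (nat_lit 76) (nat_lit 0) (XT.nd (nat_lit 156) (nat_lit 0) (nat_lit 0) (XT.nd (nat_lit 78) (nat_lit 0) (nat_lit 0) (XT.lf (nat_lit 0) (nat_lit 44805742297) (nat_lit 76) (nat_lit 39275780365) (nat_lit 76) (nat_lit 22898547383) (nat_lit 3) (nat_lit 4) (nat_lit 4) (nat_lit 5) (nat_lit 4) (nat_lit 4) (nat_lit 296) (nat_lit 234) (nat_lit 190)) (XT.lf (nat_lit 0) (nat_lit 58223059968) (nat_lit 76) (nat_lit 36726466057)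 (nat_lit 76) (nat_lit 20306750600) (nat_lit 3) (nat_lit 4) (nat_lit 4) (nat_lit 5) (nat_lit 4) (nat_lit 4) (nat_lit 297) (nat_lit 234) (nat_lit 189))) (XT.nd (nat_lit 78) (nat_lit 0) (nat_lit 0) (XT.lf (nat_lit 0) (nat_lit 72669205156) (nat_lit 76) (nat_lit 33992852226) (nat_lit 76) (nat_lit 17533801143) (nat_lit 3) (nat_lit 4) (nat_lit 4) (nat_lit 5) (nat_lit 4) (nat_lit 4) (nat_lit 298) (nat_lit 234) (nat_lit 188)) (XT.lf (nat_lit 0) (nat_lit 88229784646) (nat_lit 76) (nat_lit 31058739678) (nat_lit 76) (nat_lit 14563266719) (nat_lit 3) (nat_lit 4) (nat_lit 4) (nat_lit 5) (nat_lit 4) (nat_lit 4) (nat_lit 299) (nat_lit 234) (nat_lit 187)))) (XT.nd (nat_lit 156) (nat_lit 76) (nat_lit 0) (XT.nd (nat_lit 78) (nat_lit 0) (nat_lit 0) (XT.lf (nat_lit 0) (nat_lit 104997009280) (nat_lit 76) (nat_lit 27906741080) (nat_lit 76) (nat_lit 11377544163) (nat_lit 3) (nat_lit 4) (nat_lit 4) (nat_lit 5)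 (nat_lit 4) (nat_lit 4) (nat_lit 300) (nat_lit 234) (nat_lit 186)) (XT.lf (nat_lit 0) (nat_lit 123070240390) (nat_lit 76) (nat_lit 24518177922) (nat_lit 76) (nat_lit 7957755117) (nat_lit 3) (nat_lit 4) (nat_lit 4) (nat_lit 5) (nat_lit 4) (nat_lit 4) (nat_lit 301) (nat_lit 234) (nat_lit 185))) (XT.nd (nat_lit 78) (nat_lit 76) (nat_lit 0) (XT.lf (nat_lit 0) (nat_lit 142556578603) (nat_lit 76) (nat_lit 20872969830) (nat_lit 76) (nat_lit 4283634166) (nat_lit 3) (nat_lit 4) (nat_lit 4) (nat_lit 5) (nat_lit 4) (nat_lit 4) (nat_lit 302) (nat_lit 234) (nat_lit 184)) (XT.nd (nat_lit 78) (nat_lit 76) (nat_lit 0) (XT.lf (nat_lit 0) (nat_lit 163571498517) (nat_lit 76) (nat_lit 16949515570) (nat_lit 76) (nat_lit 333408741) (nat_lit 3) (nat_lit 4) (nat_lit 4) (nat_lit 5) (nat_lit 4) (nat_lit 4) (nat_lit 303) (nat_lit 234) (nat_lit 183)) (XT.lf (nat_lit 0) (nat_lit 3790982887) (nat_lit 152) (nat_lit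 8869380027) (nat_lit 76) (nat_lit 182384347974) (nat_lit 2) (nat_lit 5) (nat_lit 4) (nat_lit 5) (nat_lit 3) (nat_lit 4) (nat_lit 304) (nat_lit 234) (nat_lit 182)))))) (XT.nd (nat_lit 312) (nat_lit 0) (nat_lit 0) (XT.nd (nat_lit 156) (nat_lit 0) (nat_lit 0) (XT.nd (nat_lit 78) (nat_lit 0) (nat_lit 0) (XT.lf (nat_lit 0) (nat_lit 191240127) (nat_lit 76) (nat_lit 8030753547) (nat_lit 152) (nat_lit 202148556028) (nat_lit 1) (nat_lit 5) (nat_lit 2) (nat_lit 5) (nat_lit 3) (nat_lit 4) (nat_lit 305) (nat_lit 234) (nat_lit 181)) (XT.lf (nat_lit 0) (nat_lit 10268077871) (nat_lit 76) (nat_lit 2879813148) (nat_lit 152) (nat_lit 213767561390) (nat_lit 1) (nat_lit 5) (nat_lit 2) (nat_lit 5) (nat_lit 3) (nat_lit 4) (nat_lit 306) (nat_lit 234) (nat_lit 180))) (XT.nd (nat_lit 78) (nat_lit 0) (nat_lit 0) (XT.lf (nat_lit 0) (nat_lit 18496540420) (nat_lit 152) (nat_lit 223698759073) (nat_lit 0) (nat_lit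 2587229633) (nat_lit 1) (nat_lit 5) (nat_lit 3) (nat_lit 4) (nat_lit 1) (nat_lit 4) (nat_lit 307) (nat_lit 234) (nat_lit 179)) (XT.lf (nat_lit 0) (nat_lit 24309407309) (nat_lit 152) (nat_lit 231385018897) (nat_lit 0) (nat_lit 8382744136) (nat_lit 1) (nat_lit 5) (nat_lit 3) (nat_lit 4) (nat_lit 1) (nat_lit 4) (nat_lit 308) (nat_lit 234) (nat_lit 178)))) (XT.nd (nat_lit 156) (nat_lit 0) (nat_lit 0) (XT.nd (nat_lit 78) (nat_lit 0) (nat_lit 0) (XT.lf (nat_lit 0) (nat_lit 30575976352) (nat_lit 152) (nat_lit 239706740262) (nat_lit 0) (nat_lit 14633246154) (nat_lit 1) (nat_lit 5) (nat_lit 3) (nat_lit 4) (nat_lit 1) (nat_lit 4) (nat_lit 309) (nat_lit 234) (nat_lit 177)) (XT.lf (nat_lit 0) (nat_lit 37333382771) (nat_lit 152) (nat_lit 248713237072) (nat_lit 0) (nat_lit 21375775699) (nat_lit 1) (nat_lit 5) (nat_lit 3) (nat_lit 4) (nat_lit 1) (nat_lit 4) (nat_lit 310) (nat_lit 234) (nat_lit 176)))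 (XT.nd (nat_lit 78) (nat_lit 0) (nat_lit 0) (XT.lf (nat_lit 0) (nat_lit 44621670458) (nat_lit 152) (nat_lit 258457881161) (nat_lit 0) (nat_lit 28650288502) (nat_lit 1) (nat_lit 5) (nat_lit 3) (nat_lit 4) (nat_lit 1) (nat_lit 4) (nat_lit 311) (nat_lit 234) (nat_lit 175)) (XT.nd (nat_lit 78) (nat_lit 0) (nat_lit 0) (XT.lf (nat_lit 0) (nat_lit 52484029265) (nat_lit 152) (nat_lit 268998418567) (nat_lit 0) (nat_lit 36499892787) (nat_lit 1) (nat_lit 5) (nat_lit 3) (nat_lit 4) (nat_lit 1) (nat_lit 4) (nat_lit 312) (nat_lit 234) (nat_lit 174)) (XT.lf (nat_lit 0) (nat_lit 60967050948) (nat_lit 152) (nat_lit 280397311735) (nat_lit 0) (nat_lit 44971104728) (nat_lit 1) (nat_lit 5) (nat_lit 3) (nat_lit 4) (nat_lit 1) (nat_lit 4) (nat_lit 313) (nat_lit 234) (nat_lit 173))))))) (XT.nd (nat_lit 702) (nat_lit 0) (nat_lit 0) (XT.nd (nat_lit 312) (nat_lit 0) (nat_lit 0) (XT.nd (nat_lit 156) (nat_lit 0)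 (nat_lit 0) (XT.nd (nat_lit 78) (nat_lit 0) (nat_lit 0) (XT.lf (nat_lit 0) (nat_lit 70121005265) (nat_lit 152) (nat_lit 292722109660) (nat_lit 0) (nat_lit 54114124098) (nat_lit 1) (nat_lit 5) (nat_lit 3) (nat_lit 4) (nat_lit 1) (nat_lit 4) (nat_lit 314) (nat_lit 234) (nat_lit 172)) (XT.lf (nat_lit 0) (nat_lit 80000137871) (nat_lit 152) (nat_lit 306045848183) (nat_lit 0) (nat_lit 63983131754) (nat_lit 1) (nat_lit 5) (nat_lit 3) (nat_lit 4) (nat_lit 1) (nat_lit 4) (nat_lit 315) (nat_lit 234) (nat_lit 171))) (XT.nd (nat_lit 78) (nat_lit 0) (nat_lit 0) (XT.lf (nat_lit 0) (nat_lit 90662991775) (nat_lit 152) (nat_lit 320447482791) (nat_lit 0) (nat_lit 74636610703) (nat_lit 1) (nat_lit 5) (nat_lit 3) (nat_lit 4) (nat_lit 1) (nat_lit 4) (nat_lit 316) (nat_lit 234) (nat_lit 170)) (XT.lf (nat_lit 0) (nat_lit 102172754259) (nat_lit 152) (nat_lit 336012356504) (nat_lit 0) (nat_lit 86137692673) (nat_lit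 1) (nat_lit 5) (nat_lit 3) (nat_lit 4) (nat_lit 1) (nat_lit 4) (nat_lit 317) (nat_lit 234) (nat_lit 169)))) (XT.nd (nat_lit 156) (nat_lit 0) (nat_lit 0) (XT.nd (nat_lit 78) (nat_lit 0) (nat_lit 0) (XT.lf (nat_lit 0) (nat_lit 114597631322) (nat_lit 152) (nat_lit 352832705610) (nat_lit 0) (nat_lit 98554532224) (nat_lit 1) (nat_lit 5) (nat_lit 3) (nat_lit 4) (nat_lit 1) (nat_lit 4) (nat_lit 318) (nat_lit 234) (nat_lit 168)) (XT.lf (nat_lit 0) (nat_lit 128011251867) (nat_lit 152) (nat_lit 371008206253) (nat_lit 0) (nat_lit 111960710628) (nat_lit 1) (nat_lit 5) (nat_lit 3) (nat_lit 4) (nat_lit 1) (nat_lit 4) (nat_lit 319) (nat_lit 234) (nat_lit 167))) (XT.nd (nat_lit 78) (nat_lit 0) (nat_lit 0) (XT.lf (nat_lit 0) (nat_lit 142493104013) (nat_lit 152) (nat_lit 390646565103) (nat_lit 0) (nat_lit 126435671903) (nat_lit 1) (nat_lit 5) (nat_lit 3) (nat_lit 4) (nat_lit 1) (nat_lit 4) (nat_lit 320)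 (nat_lit 234) (nat_lit 166)) (XT.nd (nat_lit 78) (nat_lit 0) (nat_lit 0) (XT.lf (nat_lit 0) (nat_lit 158129006146) (nat_lit 152) (nat_lit 411864157619) (nat_lit 0) (nat_lit 142065193599) (nat_lit 1) (nat_lit 5) (nat_lit 3) (nat_lit 4) (nat_lit 1) (nat_lit 4) (nat_lit 321) (nat_lit 234) (nat_lit 165)) (XT.lf (nat_lit 0) (nat_lit 175011615462) (nat_lit 152) (nat_lit 434786717684) (nat_lit 0) (nat_lit 158941895103) (nat_lit 1) (nat_lit 5) (nat_lit 3) (nat_lit 4) (nat_lit 1) (nat_lit 4) (nat_lit 322) (nat_lit 234) (nat_lit 164)))))) (XT.nd (nat_lit 32058) (nat_lit 0) (nat_lit 2812) (XT.nd (nat_lit 31824) (nat_lit 0) (nat_lit 4408) (XT.nd (nat_lit 78) (nat_lit 0) (nat_lit 0) (XT.lf (nat_lit 0) (nat_lit 193240977053) (nat_lit 152) (nat_lit 459550082690) (nat_lit 0) (nat_lit 177165786499) (nat_lit 1) (nat_lit 5) (nat_lit 3) (nat_lit 4) (nat_lit 1) (nat_lit 4) (nat_lit 323) (nat_lit 234) (nat_lit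 163)) (XT.lf (nat_lit 0) (nat_lit 212925116767) (nat_lit 152) (nat_lit 486300998504) (nat_lit 0) (nat_lit 196844861217) (nat_lit 1) (nat_lit 5) (nat_lit 3) (nat_lit 4) (nat_lit 1) (nat_lit 4) (nat_lit 324) (nat_lit 234) (nat_lit 162))) (XT.nd (nat_lit 78) (nat_lit 1064) (nat_lit 0) (XT.lf (nat_lit 0) (nat_lit 879229934) (nat_lit 684) (nat_lit 1873892493) (nat_lit 0) (nat_lit 879229934) (nat_lit 73) (nat_lit 5) (nat_lit 82) (nat_lit 4) (nat_lit 73) (nat_lit 4) (nat_lit 250) (nat_lit 235) (nat_lit 235)) (XT.nd (nat_lit 78) (nat_lit 380) (nat_lit 0) (XT.lf (nat_lit 0) (nat_lit 3401662226) (nat_lit 684) (nat_lit 3183424185) (nat_lit 684) (nat_lit 864101887) (nat_lit 64) (nat_lit 4) (nat_lit 73) (nat_lit 5) (nat_lit 73) (nat_lit 4) (nat_lit 251) (nat_lit 235) (nat_lit 234)) (XT.lf (nat_lit 0) (nat_lit 3267035566) (nat_lit 304) (nat_lit 505588096) (nat_lit 380) (nat_lit 3886491968) (nat_lit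 59) (nat_lit 5) (nat_lit 63) (nat_lit 5) (nat_lit 64) (nat_lit 4) (nat_lit 252) (nat_lit 235) (nat_lit 233))))) (XT.nd (nat_lit 156) (nat_lit 912) (nat_lit 0) (XT.nd (nat_lit 78) (nat_lit 304) (nat_lit 0) (XT.lf (nat_lit 0) (nat_lit 649506244) (nat_lit 380) (nat_lit 4816405518) (nat_lit 76) (nat_lit 2429448091) (nat_lit 54) (nat_lit 5) (nat_lit 59) (nat_lit 5) (nat_lit 55) (nat_lit 4) (nat_lit 253) (nat_lit 235) (nat_lit 232)) (XT.lf (nat_lit 0) (nat_lit 2791396134) (nat_lit 304) (nat_lit 2424588415) (nat_lit 380) (nat_lit 2942553848) (nat_lit 50) (nat_lit 5) (nat_lit 54) (nat_lit 5) (nat_lit 55) (nat_lit 4) (nat_lit 254) (nat_lit 235) (nat_lit 231))) (XT.nd (nat_lit 78) (nat_lit 532) (nat_lit 0) (XT.lf (nat_lit 0) (nat_lit 1472711590) (nat_lit 380) (nat_lit 6052335281) (nat_lit 76) (nat_lit 926521902) (nat_lit 45) (nat_lit 5) (nat_lit 50) (nat_lit 5) (nat_lit 46) (nat_lit 4) (nat_lit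 255) (nat_lit 235) (nat_lit 230)) (XT.nd (nat_lit 78) (nat_lit 304) (nat_lit 0) (XT.lf (nat_lit 0) (nat_lit 1806629931) (nat_lit 228) (nat_lit 4198132289) (nat_lit 304) (nat_lit 2768684760) (nat_lit 42) (nat_lit 5) (nat_lit 45) (nat_lit 5) (nat_lit 46) (nat_lit 4) (nat_lit 256) (nat_lit 235) (nat_lit 229)) (XT.lf (nat_lit 0) (nat_lit 1029453918) (nat_lit 228) (nat_lit 527210057) (nat_lit 304) (nat_lit 7572273547) (nat_lit 38) (nat_lit 5) (nat_lit 41) (nat_lit 5) (nat_lit 42) (nat_lit 5) (nat_lit 257) (nat_lit 235) (nat_lit 228))))))))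
noncomputable def xc38 : XT := (XT.nd (nat_lit 1404) (nat_lit 532) (nat_lit 0) (XT.nd (nat_lit 702) (nat_lit 608) (nat_lit 0) (XT.nd (nat_lit 312) (nat_lit 836) (nat_lit 0) (XT.nd (nat_lit 156) (nat_lit 380) (nat_lit 0) (XT.nd (nat_lit 78) (nat_lit 304) (nat_lit 0) (XT.lf (nat_lit 0) (nat_lit 6035968401) (nat_lit 304) (nat_lit 60837687) (nat_lit 76) (nat_lit 3419484482) (nat_lit 38) (nat_lit 5) (nat_lit 42) (nat_lit 5) (nat_lit 39) (nat_lit 4) (nat_lit 258) (nat_lit 235) (nat_lit 227)) (XT.lf (nat_lit 0) (nat_lit 795470896) (nat_lit 304) (nat_lit 1407113619) (nat_lit 76) (nat_lit 7737815542) (nat_lit 34) (nat_lit 5) (nat_lit 38) (nat_lit 5) (nat_lit 35) (nat_lit 5) (nat_lit 259) (nat_lit 235) (nat_lit 226))) (XT.nd (nat_lit 78) (nat_lit 152) (nat_lit 0) (XT.lf (nat_lit 0) (nat_lit 5196023171) (nat_lit 304) (nat_lit 3176027691) (nat_lit 76) (nat_lit 2029070061) (nat_lit 31) (nat_lit 5)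 (nat_lit 35) (nat_lit 5) (nat_lit 32) (nat_lit 4) (nat_lit 260) (nat_lit 235) (nat_lit 225)) (XT.lf (nat_lit 0) (nat_lit 5510121397) (nat_lit 152) (nat_lit 4354181886) (nat_lit 228) (nat_lit 1039322001) (nat_lit 29) (nat_lit 5) (nat_lit 31) (nat_lit 5) (nat_lit 32) (nat_lit 4) (nat_lit 261) (nat_lit 235) (nat_lit 224)))) (XT.nd (nat_lit 156) (nat_lit 380) (nat_lit 0) (XT.nd (nat_lit 78) (nat_lit 152) (nat_lit 0) (XT.lf (nat_lit 0) (nat_lit 3233082920) (nat_lit 304) (nat_lit 8162710441) (nat_lit 76) (nat_lit 54256969) (nat_lit 25) (nat_lit 5) (nat_lit 29) (nat_lit 5) (nat_lit 26) (nat_lit 4) (nat_lit 262) (nat_lit 235) (nat_lit 223)) (XT.lf (nat_lit 0) (nat_lit 422045984) (nat_lit 152) (nat_lit 7350749759) (nat_lit 228) (nat_lit 4269025049) (nat_lit 23) (nat_lit 5) (nat_lit 25) (nat_lit 5) (nat_lit 26) (nat_lit 4) (nat_lit 263) (nat_lit 235) (nat_lit 222))) (XT.nd (nat_lit 78) (nat_lit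 380) (nat_lit 0) (XT.lf (nat_lit 0) (nat_lit 9680185362) (nat_lit 152) (nat_lit 2934726636) (nat_lit 228) (nat_lit 69596360) (nat_lit 23) (nat_lit 5) (nat_lit 25) (nat_lit 5) (nat_lit 26) (nat_lit 4) (nat_lit 264) (nat_lit 235) (nat_lit 221)) (XT.nd (nat_lit 78) (nat_lit 152) (nat_lit 0) (XT.lf (nat_lit 0) (nat_lit 4257027266) (nat_lit 228) (nat_lit 7272224546) (nat_lit 76) (nat_lit 1849637619) (nat_lit 20) (nat_lit 5) (nat_lit 23) (nat_lit 5) (nat_lit 21) (nat_lit 4) (nat_lit 265) (nat_lit 235) (nat_lit 220)) (XT.lf (nat_lit 0) (nat_lit 1644137819) (nat_lit 152) (nat_lit 7228477544) (nat_lit 228) (nat_lit 5259323229) (nat_lit 18) (nat_lit 5) (nat_lit 20) (nat_lit 5) (nat_lit 21) (nat_lit 4) (nat_lit 266) (nat_lit 235) (nat_lit 219)))))) (XT.nd (nat_lit 312) (nat_lit 304) (nat_lit 0) (XT.nd (nat_lit 156) (nat_lit 76) (nat_lit 0) (XT.nd (nat_lit 78) (nat_lit 228) (nat_lit 0) (XT.lf (nat_lit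 0) (nat_lit 11261286001) (nat_lit 152) (nat_lit 2549049900) (nat_lit 228) (nat_lit 1137657344) (nat_lit 18) (nat_lit 5) (nat_lit 20) (nat_lit 5) (nat_lit 21) (nat_lit 4) (nat_lit 267) (nat_lit 235) (nat_lit 218)) (XT.lf (nat_lit 0) (nat_lit 3172558964) (nat_lit 228) (nat_lit 10179740655) (nat_lit 76) (nat_lit 2476559807) (nat_lit 15) (nat_lit 5) (nat_lit 18) (nat_lit 5) (nat_lit 16) (nat_lit 4) (nat_lit 268) (nat_lit 235) (nat_lit 217))) (XT.nd (nat_lit 78) (nat_lit 76) (nat_lit 0) (XT.lf (nat_lit 0) (nat_lit 7739472773) (nat_lit 228) (nat_lit 1230052584) (nat_lit 76) (nat_lit 7812481491) (nat_lit 15) (nat_lit 5) (nat_lit 18) (nat_lit 5) (nat_lit 16) (nat_lit 4) (nat_lit 269) (nat_lit 235) (nat_lit 216)) (XT.lf (nat_lit 0) (nat_lit 8472225321) (nat_lit 76) (nat_lit 4186373638) (nat_lit 152) (nat_lit 5153770962) (nat_lit 14) (nat_lit 5) (nat_lit 15) (nat_lit 5) (nat_lit 16) (nat_lit 4)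 (nat_lit 270) (nat_lit 235) (nat_lit 215)))) (XT.nd (nat_lit 156) (nat_lit 76) (nat_lit 0) (XT.nd (nat_lit 78) (nat_lit 228) (nat_lit 0) (XT.lf (nat_lit 0) (nat_lit 17868831722) (nat_lit 152) (nat_lit 175324961) (nat_lit 0) (nat_lit 886410623) (nat_lit 14) (nat_lit 5) (nat_lit 16) (nat_lit 4) (nat_lit 14) (nat_lit 4) (nat_lit 271) (nat_lit 235) (nat_lit 214)) (XT.lf (nat_lit 0) (nat_lit 3345147966) (nat_lit 228) (nat_lit 10436719273) (nat_lit 76) (nat_lit 6349235063) (nat_lit 11) (nat_lit 5) (nat_lit 14) (nat_lit 5) (nat_lit 12) (nat_lit 4) (nat_lit 272) (nat_lit 235) (nat_lit 213))) (XT.nd (nat_lit 78) (nat_lit 76) (nat_lit 0) (XT.lf (nat_lit 0) (nat_lit 7945960952) (nat_lit 228) (nat_lit 1293804045) (nat_lit 76) (nat_lit 12193347949) (nat_lit 11) (nat_lit 5) (nat_lit 14) (nat_lit 5) (nat_lit 12) (nat_lit 4) (nat_lit 273) (nat_lit 235) (nat_lit 212)) (XT.nd (nat_lit 78) (nat_lit 0) (nat_lit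 0) (XT.lf (nat_lit 0) (nat_lit 8665054097) (nat_lit 76) (nat_lit 4269307121) (nat_lit 152) (nat_lit 9904161895) (nat_lit 10) (nat_lit 5) (nat_lit 11) (nat_lit 5) (nat_lit 12) (nat_lit 4) (nat_lit 274) (nat_lit 235) (nat_lit 211)) (XT.lf (nat_lit 0) (nat_lit 18250665919) (nat_lit 152) (nat_lit 5094928820) (nat_lit 0) (nat_lit 1014528604) (nat_lit 10) (nat_lit 5) (nat_lit 12) (nat_lit 4) (nat_lit 10) (nat_lit 4) (nat_lit 275) (nat_lit 235) (nat_lit 210))))))) (XT.nd (nat_lit 702) (nat_lit 228) (nat_lit 0) (XT.nd (nat_lit 312) (nat_lit 76) (nat_lit 0) (XT.nd (nat_lit 156) (nat_lit 76) (nat_lit 0) (XT.nd (nat_lit 78) (nat_lit 76) (nat_lit 0) (XT.lf (nat_lit 0) (nat_lit 4610482363) (nat_lit 76) (nat_lit 19422773287) (nat_lit 76) (nat_lit 1968331051) (nat_lit 9) (nat_lit 4) (nat_lit 10) (nat_lit 5) (nat_lit 10) (nat_lit 4) (nat_lit 276) (nat_lit 235) (nat_lit 209)) (XT.lf (nat_lit 0) (nat_lit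 2414398539) (nat_lit 152) (nat_lit 12707059414) (nat_lit 76) (nat_lit 12651593790) (nat_lit 8) (nat_lit 5) (nat_lit 10) (nat_lit 5) (nat_lit 9) (nat_lit 4) (nat_lit 277) (nat_lit 235) (nat_lit 208))) (XT.nd (nat_lit 78) (nat_lit 76) (nat_lit 0) (XT.lf (nat_lit 0) (nat_lit 6987350462) (nat_lit 152) (nat_lit 3519669256) (nat_lit 76) (nat_lit 19182323006) (nat_lit 8) (nat_lit 5) (nat_lit 10) (nat_lit 5) (nat_lit 9) (nat_lit 4) (nat_lit 278) (nat_lit 235) (nat_lit 207)) (XT.lf (nat_lit 0) (nat_lit 6463100679) (nat_lit 76) (nat_lit 5478429012) (nat_lit 152) (nat_lit 19816776949) (nat_lit 7) (nat_lit 5) (nat_lit 8) (nat_lit 5) (nat_lit 9) (nat_lit 4) (nat_lit 279) (nat_lit 235) (nat_lit 206)))) (XT.nd (nat_lit 156) (nat_lit 76) (nat_lit 0) (XT.nd (nat_lit 78) (nat_lit 0) (nat_lit 0) (XT.lf (nat_lit 0) (nat_lit 17230072895) (nat_lit 76) (nat_lit 41911844) (nat_lit 152) (nat_lit 16721934760)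 (nat_lit 7) (nat_lit 5) (nat_lit 8) (nat_lit 5) (nat_lit 9) (nat_lit 4) (nat_lit 280) (nat_lit 235) (nat_lit 205)) (XT.lf (nat_lit 0) (nat_lit 23043700765) (nat_lit 152) (nat_lit 7773758444) (nat_lit 0) (nat_lit 5590300305) (nat_lit 7) (nat_lit 5) (nat_lit 9) (nat_lit 4) (nat_lit 7) (nat_lit 4) (nat_lit 281) (nat_lit 235) (nat_lit 204))) (XT.nd (nat_lit 78) (nat_lit 0) (nat_lit 0) (XT.lf (nat_lit 0) (nat_lit 1871809374) (nat_lit 76) (nat_lit 27364728675) (nat_lit 76) (nat_lit 9780309996) (nat_lit 6) (nat_lit 4) (nat_lit 7) (nat_lit 5) (nat_lit 7) (nat_lit 4) (nat_lit 282) (nat_lit 235) (nat_lit 203)) (XT.nd (nat_lit 78) (nat_lit 0) (nat_lit 0) (XT.lf (nat_lit 0) (nat_lit 12449033150) (nat_lit 76) (nat_lit 23544025922) (nat_lit 76) (nat_lit 5838294077) (nat_lit 6) (nat_lit 4) (nat_lit 7) (nat_lit 5) (nat_lit 7) (nat_lit 4) (nat_lit 283) (nat_lit 235) (nat_lit 202)) (XT.lf (nat_lit 0) (nat_lit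 23763557166) (nat_lit 76) (nat_lit 19464362109) (nat_lit 76) (nat_lit 1646303258) (nat_lit 6) (nat_lit 4) (nat_lit 7) (nat_lit 5) (nat_lit 7) (nat_lit 4) (nat_lit 284) (nat_lit 235) (nat_lit 201)))))) (XT.nd (nat_lit 390) (nat_lit 76) (nat_lit 0) (XT.nd (nat_lit 156) (nat_lit 76) (nat_lit 0) (XT.nd (nat_lit 78) (nat_lit 0) (nat_lit 0) (XT.lf (nat_lit 0) (nat_lit 2730230147) (nat_lit 152) (nat_lit 12325093534) (nat_lit 76) (nat_lit 33105962539) (nat_lit 5) (nat_lit 5) (nat_lit 7) (nat_lit 5) (nat_lit 6) (nat_lit 4) (nat_lit 285) (nat_lit 235) (nat_lit 200)) (XT.lf (nat_lit 0) (nat_lit 7345714819) (nat_lit 152) (nat_lit 2959652259) (nat_lit 76) (nat_lit 41407350506) (nat_lit 5) (nat_lit 5) (nat_lit 7) (nat_lit 5) (nat_lit 6) (nat_lit 4) (nat_lit 286) (nat_lit 235) (nat_lit 199))) (XT.nd (nat_lit 78) (nat_lit 0) (nat_lit 0) (XT.lf (nat_lit 0) (nat_lit 7300523110) (nat_lit 76) (nat_lit 5093652279)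 (nat_lit 152) (nat_lit 43150972844) (nat_lit 4) (nat_lit 5) (nat_lit 5) (nat_lit 5) (nat_lit 6) (nat_lit 4) (nat_lit 287) (nat_lit 235) (nat_lit 198)) (XT.nd (nat_lit 78) (nat_lit 0) (nat_lit 0) (XT.lf (nat_lit 0) (nat_lit 17858856950) (nat_lit 152) (nat_lit 41289813449) (nat_lit 0) (nat_lit 534952054) (nat_lit 4) (nat_lit 5) (nat_lit 6) (nat_lit 4) (nat_lit 4) (nat_lit 4) (nat_lit 288) (nat_lit 235) (nat_lit 197)) (XT.lf (nat_lit 0) (nat_lit 23801778076) (nat_lit 152) (nat_lit 33944339013) (nat_lit 0) (nat_lit 6405065683) (nat_lit 4) (nat_lit 5) (nat_lit 6) (nat_lit 4) (nat_lit 4) (nat_lit 4) (nat_lit 289) (nat_lit 235) (nat_lit 196))))) (XT.nd (nat_lit 156) (nat_lit 76) (nat_lit 0) (XT.nd (nat_lit 78) (nat_lit 0) (nat_lit 0) (XT.lf (nat_lit 0) (nat_lit 30178629892) (nat_lit 152) (nat_lit 26085146890) (nat_lit 0) (nat_lit 12714503149) (nat_lit 4) (nat_lit 5) (nat_lit 6) (nat_lit 4) (nat_lit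 4) (nat_lit 4) (nat_lit 290) (nat_lit 235) (nat_lit 195)) (XT.lf (nat_lit 0) (nat_lit 37027201149) (nat_lit 152) (nat_lit 17665664089) (nat_lit 0) (nat_lit 19500653712) (nat_lit 4) (nat_lit 5) (nat_lit 6) (nat_lit 4) (nat_lit 4) (nat_lit 4) (nat_lit 291) (nat_lit 235) (nat_lit 194))) (XT.nd (nat_lit 78) (nat_lit 76) (nat_lit 0) (XT.lf (nat_lit 0) (nat_lit 44388075972) (nat_lit 152) (nat_lit 8635997380) (nat_lit 0) (nat_lit 26803731596) (nat_lit 4) (nat_lit 5) (nat_lit 6) (nat_lit 4) (nat_lit 4) (nat_lit 4) (nat_lit 292) (nat_lit 235) (nat_lit 193)) (XT.nd (nat_lit 78) (nat_lit 0) (nat_lit 0) (XT.lf (nat_lit 0) (nat_lit 1092323548) (nat_lit 76) (nat_lit 51229605045) (nat_lit 76) (nat_lit 33591744984) (nat_lit 3) (nat_lit 4) (nat_lit 4) (nat_lit 5) (nat_lit 4) (nat_lit 4) (nat_lit 293) (nat_lit 235) (nat_lit 192)) (XT.lf (nat_lit 0) (nat_lit 11851168714) (nat_lit 76) (nat_lit 49158371919)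 (nat_lit 76) (nat_lit 31470960299) (nat_lit 3) (nat_lit 4) (nat_lit 4) (nat_lit 5) (nat_lit 4) (nat_lit 4) (nat_lit 294) (nat_lit 235) (nat_lit 191))))))))
noncomputable def xc39 : XT := (XT.nd (nat_lit 1482) (nat_lit 0) (nat_lit 0) (XT.nd (nat_lit 702) (nat_lit 152) (nat_lit 0) (XT.nd (nat_lit 312) (nat_lit 0) (nat_lit 0) (XT.nd (nat_lit 156) (nat_lit 0) (nat_lit 0) (XT.nd (nat_lit 78) (nat_lit 0) (nat_lit 0) (XT.lf (nat_lit 0) (nat_lit 23418749162) (nat_lit 76) (nat_lit 46944354796) (nat_lit 76) (nat_lit 29211062102) (nat_lit 3) (nat_lit 4) (nat_lit 4) (nat_lit 5) (nat_lit 4) (nat_lit 4) (nat_lit 295) (nat_lit 235) (nat_lit 190)) (XT.lf (nat_lit 0) (nat_lit 35863613516) (nat_lit 76) (nat_lit 44574433575) (nat_lit 76) (nat_lit 26798658405) (nat_lit 3) (nat_lit 4) (nat_lit 4) (nat_lit 5) (nat_lit 4) (nat_lit 4) (nat_lit 296) (nat_lit 235) (nat_lit 189))) (XT.nd (nat_lit 78) (nat_lit 0)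 (nat_lit 0) (XT.lf (nat_lit 0) (nat_lit 49259509122) (nat_lit 76) (nat_lit 42034564277) (nat_lit 76) (nat_lit 24219453482) (nat_lit 3) (nat_lit 4) (nat_lit 4) (nat_lit 5) (nat_lit 4) (nat_lit 4) (nat_lit 297) (nat_lit 235) (nat_lit 188)) (XT.lf (nat_lit 0) (nat_lit 63685819063) (nat_lit 76) (nat_lit 39309695825) (nat_lit 76) (nat_lit 21458163155) (nat_lit 3) (nat_lit 4) (nat_lit 4) (nat_lit 5) (nat_lit 4) (nat_lit 4) (nat_lit 298) (nat_lit 235) (nat_lit 187)))) (XT.nd (nat_lit 156) (nat_lit 0) (nat_lit 0) (XT.nd (nat_lit 78) (nat_lit 0) (nat_lit 0) (XT.lf (nat_lit 0) (nat_lit 79228032584) (nat_lit 76) (nat_lit 36383680851) (nat_lit 76) (nat_lit 18498424222) (nat_lit 3) (nat_lit 4) (nat_lit 4) (nat_lit 5) (nat_lit 4) (nat_lit 4) (nat_lit 299) (nat_lit 235) (nat_lit 186)) (XT.lf (nat_lit 0) (nat_lit 95978251692) (nat_lit 76) (nat_lit 33239180007) (nat_lit 76) (nat_lit 15322697490) (nat_lit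 3) (nat_lit 4) (nat_lit 4) (nat_lit 5) (nat_lit 4) (nat_lit 4) (nat_lit 300) (nat_lit 235) (nat_lit 185))) (XT.nd (nat_lit 78) (nat_lit 0) (nat_lit 0) (XT.lf (nat_lit 0) (nat_lit 114035736943) (nat_lit 76) (nat_lit 29857559214) (nat_lit 76) (nat_lit 11912163838) (nat_lit 3) (nat_lit 4) (nat_lit 4) (nat_lit 5) (nat_lit 4) (nat_lit 4) (nat_lit 301) (nat_lit 235) (nat_lit 184)) (XT.nd (nat_lit 78) (nat_lit 0) (nat_lit 0) (XT.lf (nat_lit 0) (nat_lit 133507495658) (nat_lit 76) (nat_lit 26218779237) (nat_lit 76) (nat_lit 8246612695) (nat_lit 3) (nat_lit 4) (nat_lit 4) (nat_lit 5) (nat_lit 4) (nat_lit 4) (nat_lit 302) (nat_lit 235) (nat_lit 183)) (XT.lf (nat_lit 0) (nat_lit 154508916037) (nat_lit 76) (nat_lit 22301276936) (nat_lit 76) (nat_lit 4304322278) (nat_lit 3) (nat_lit 4) (nat_lit 4) (nat_lit 5) (nat_lit 4) (nat_lit 4) (nat_lit 303) (nat_lit 235) (nat_lit 182)))))) (XT.nd (nat_lit 390)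 (nat_lit 0) (nat_lit 0) (XT.nd (nat_lit 156) (nat_lit 76) (nat_lit 0) (XT.nd (nat_lit 78) (nat_lit 76) (nat_lit 0) (XT.lf (nat_lit 0) (nat_lit 177164450941) (nat_lit 76) (nat_lit 18081837482) (nat_lit 76) (nat_lit 61930864) (nat_lit 3) (nat_lit 4) (nat_lit 4) (nat_lit 5) (nat_lit 4) (nat_lit 4) (nat_lit 304) (nat_lit 235) (nat_lit 181)) (XT.lf (nat_lit 0) (nat_lit 4361491050) (nat_lit 152) (nat_lit 9100101778) (nat_lit 76) (nat_lit 197173000379) (nat_lit 2) (nat_lit 5) (nat_lit 4) (nat_lit 5) (nat_lit 3) (nat_lit 4) (nat_lit 305) (nat_lit 235) (nat_lit 180))) (XT.nd (nat_lit 78) (nat_lit 0) (nat_lit 0) (XT.lf (nat_lit 0) (nat_lit 664558679) (nat_lit 76) (nat_lit 8469780207) (nat_lit 152) (nat_lit 218052817104) (nat_lit 1) (nat_lit 5) (nat_lit 2) (nat_lit 5) (nat_lit 3) (nat_lit 4) (nat_lit 306) (nat_lit 235) (nat_lit 179)) (XT.nd (nat_lit 78) (nat_lit 0) (nat_lit 0) (XT.lf (nat_lit 0)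 (nat_lit 11513616084) (nat_lit 76) (nat_lit 2921833734) (nat_lit 152) (nat_lit 230621166850) (nat_lit 1) (nat_lit 5) (nat_lit 2) (nat_lit 5) (nat_lit 3) (nat_lit 4) (nat_lit 307) (nat_lit 235) (nat_lit 178)) (XT.lf (nat_lit 0) (nat_lit 20197252926) (nat_lit 152) (nat_lit 241193527374) (nat_lit 0) (nat_lit 2963037288) (nat_lit 1) (nat_lit 5) (nat_lit 3) (nat_lit 4) (nat_lit 1) (nat_lit 4) (nat_lit 308) (nat_lit 235) (nat_lit 177))))) (XT.nd (nat_lit 156) (nat_lit 0) (nat_lit 0) (XT.nd (nat_lit 78) (nat_lit 0) (nat_lit 0) (XT.lf (nat_lit 0) (nat_lit 26458779591) (nat_lit 152) (nat_lit 249524401497) (nat_lit 0) (nat_lit 9209687078) (nat_lit 1) (nat_lit 5) (nat_lit 3) (nat_lit 4) (nat_lit 1) (nat_lit 4) (nat_lit 309) (nat_lit 235) (nat_lit 176)) (XT.lf (nat_lit 0) (nat_lit 33211517142) (nat_lit 152) (nat_lit 258539373083) (nat_lit 0) (nat_lit 15948649746) (nat_lit 1) (nat_lit 5) (nat_lit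 3) (nat_lit 4) (nat_lit 1) (nat_lit 4) (nat_lit 310) (nat_lit 235) (nat_lit 175))) (XT.nd (nat_lit 78) (nat_lit 0) (nat_lit 0) (XT.lf (nat_lit 0) (nat_lit 40495481802) (nat_lit 152) (nat_lit 268291864186) (nat_lit 0) (nat_lit 23219859884) (nat_lit 1) (nat_lit 5) (nat_lit 3) (nat_lit 4) (nat_lit 1) (nat_lit 4) (nat_lit 311) (nat_lit 235) (nat_lit 174)) (XT.nd (nat_lit 78) (nat_lit 0) (nat_lit 0) (XT.lf (nat_lit 0) (nat_lit 48353837807) (nat_lit 152) (nat_lit 278839667346) (nat_lit 0) (nat_lit 31066406146) (nat_lit 1) (nat_lit 5) (nat_lit 3) (nat_lit 4) (nat_lit 1) (nat_lit 4) (nat_lit 312) (nat_lit 235) (nat_lit 173)) (XT.lf (nat_lit 0) (nat_lit 56833153192) (nat_lit 152) (nat_lit 290245288064) (nat_lit 0) (nat_lit 39534786584) (nat_lit 1) (nat_lit 5) (nat_lit 3) (nat_lit 4) (nat_lit 1) (nat_lit 4) (nat_lit 313) (nat_lit 235) (nat_lit 172))))))) (XT.nd (nat_lit 702) (nat_lit 0) (nat_lit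 0) (XT.nd (nat_lit 312) (nat_lit 0) (nat_lit 0) (XT.nd (nat_lit 156) (nat_lit 0) (nat_lit 0) (XT.nd (nat_lit 78) (nat_lit 0) (nat_lit 0) (XT.lf (nat_lit 0) (nat_lit 65983675751) (nat_lit 152) (nat_lit 302576315203) (nat_lit 0) (nat_lit 48675184193) (nat_lit 1) (nat_lit 5) (nat_lit 3) (nat_lit 4) (nat_lit 1) (nat_lit 4) (nat_lit 314) (nat_lit 235) (nat_lit 171)) (XT.lf (nat_lit 0) (nat_lit 75859630804) (nat_lit 152) (nat_lit 315905821516) (nat_lit 0) (nat_lit 58541764292) (nat_lit 1) (nat_lit 5) (nat_lit 3) (nat_lit 4) (nat_lit 1) (nat_lit 4) (nat_lit 315) (nat_lit 235) (nat_lit 170))) (XT.nd (nat_lit 78) (nat_lit 0) (nat_lit 0) (XT.lf (nat_lit 0) (nat_lit 86519542529) (nat_lit 152) (nat_lit 330312796670) (nat_lit 0) (nat_lit 69192995503) (nat_lit 1) (nat_lit 5) (nat_lit 3) (nat_lit 4) (nat_lit 1) (nat_lit 4) (nat_lit 316) (nat_lit 235) (nat_lit 169)) (XT.lf (nat_lit 0) (nat_lit 98026580773)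 (nat_lit 152) (nat_lit 345882615333) (nat_lit 0) (nat_lit 80691996234) (nat_lit 1) (nat_lit 5) (nat_lit 3) (nat_lit 4) (nat_lit 1) (nat_lit 4) (nat_lit 317) (nat_lit 235) (nat_lit 168)))) (XT.nd (nat_lit 156) (nat_lit 0) (nat_lit 0) (XT.nd (nat_lit 78) (nat_lit 0) (nat_lit 0) (XT.lf (nat_lit 0) (nat_lit 110448935392) (nat_lit 152) (nat_lit 362707543097) (nat_lit 0) (nat_lit 93106908712) (nat_lit 1) (nat_lit 5) (nat_lit 3) (nat_lit 4) (nat_lit 1) (nat_lit 4) (nat_lit 318) (nat_lit 235) (nat_lit 167)) (XT.lf (nat_lit 0) (nat_lit 123860220339) (nat_lit 152) (nat_lit 380887283237) (nat_lit 0) (nat_lit 106511302789) (nat_lit 1) (nat_lit 5) (nat_lit 3) (nat_lit 4) (nat_lit 1) (nat_lit 4) (nat_lit 319) (nat_lit 235) (nat_lit 166))) (XT.nd (nat_lit 78) (nat_lit 0) (nat_lit 0) (XT.lf (nat_lit 0) (nat_lit 138339909896) (nat_lit 152) (nat_lit 400529567548) (nat_lit 0) (nat_lit 120984611910) (nat_lit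 1) (nat_lit 5) (nat_lit 3) (nat_lit 4) (nat_lit 1) (nat_lit 4) (nat_lit 320) (nat_lit 235) (nat_lit 165)) (XT.nd (nat_lit 78) (nat_lit 0) (nat_lit 0) (XT.lf (nat_lit 0) (nat_lit 153973809631) (nat_lit 152) (nat_lit 421750794751) (nat_lit 0) (nat_lit 136612603833) (nat_lit 1) (nat_lit 5) (nat_lit 3) (nat_lit 4) (nat_lit 1) (nat_lit 4) (nat_lit 321) (nat_lit 235) (nat_lit 164)) (XT.lf (nat_lit 0) (nat_lit 170854564875) (nat_lit 152) (nat_lit 444676720265) (nat_lit 0) (nat_lit 153487888881) (nat_lit 1) (nat_lit 5) (nat_lit 3) (nat_lit 4) (nat_lit 1) (nat_lit 4) (nat_lit 322) (nat_lit 235) (nat_lit 163)))))) (XT.nd (nat_lit 31902) (nat_lit 0) (nat_lit 3344) (XT.nd (nat_lit 31668) (nat_lit 0) (nat_lit 5472) (XT.nd (nat_lit 78) (nat_lit 0) (nat_lit 0) (XT.lf (nat_lit 0) (nat_lit 189082209733) (nat_lit 152) (nat_lit 469443201429) (nat_lit 0) (nat_lit 171710468743) (nat_lit 1) (nat_lit 5) (nat_lit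 3) (nat_lit 4) (nat_lit 1) (nat_lit 4) (nat_lit 323) (nat_lit 235) (nat_lit 162)) (XT.lf (nat_lit 0) (nat_lit 208764759879) (nat_lit 152) (nat_lit 496197002574) (nat_lit 0) (nat_lit 191388329078) (nat_lit 1) (nat_lit 5) (nat_lit 3) (nat_lit 4) (nat_lit 1) (nat_lit 4) (nat_lit 324) (nat_lit 235) (nat_lit 161))) (XT.nd (nat_lit 78) (nat_lit 1216) (nat_lit 0) (XT.lf (nat_lit 0) (nat_lit 996038775) (nat_lit 532) (nat_lit 1487674335) (nat_lit 0) (nat_lit 996038775) (nat_lit 89) (nat_lit 5) (nat_lit 96) (nat_lit 4) (nat_lit 89) (nat_lit 4) (nat_lit 248) (nat_lit 236) (nat_lit 236)) (XT.nd (nat_lit 78) (nat_lit 684) (nat_lit 0) (XT.lf (nat_lit 0) (nat_lit 3647692222) (nat_lit 532) (nat_lit 3043763232) (nat_lit 532) (nat_lit 413651747) (nat_lit 82) (nat_lit 4) (nat_lit 89) (nat_lit 5) (nat_lit 89) (nat_lit 4) (nat_lit 249) (nat_lit 236) (nat_lit 235)) (XT.lf (nat_lit 0) (nat_lit 3328503822) (nat_lit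 608) (nat_lit 766083358) (nat_lit 684) (nat_lit 3179495135) (nat_lit 73) (nat_lit 5) (nat_lit 81) (nat_lit 5) (nat_lit 82) (nat_lit 4) (nat_lit 250) (nat_lit 236) (nat_lit 234))))) (XT.nd (nat_lit 156) (nat_lit 1064) (nat_lit 0) (XT.nd (nat_lit 78) (nat_lit 304) (nat_lit 0) (XT.lf (nat_lit 0) (nat_lit 1226907883) (nat_lit 760) (nat_lit 4456549864) (nat_lit 76) (nat_lit 1784242061) (nat_lit 63) (nat_lit 5) (nat_lit 73) (nat_lit 5) (nat_lit 64) (nat_lit 4) (nat_lit 251) (nat_lit 236) (nat_lit 233)) (XT.lf (nat_lit 0) (nat_lit 2654231033) (nat_lit 304) (nat_lit 3011323650) (nat_lit 380) (nat_lit 2020686984) (nat_lit 59) (nat_lit 5) (nat_lit 63) (nat_lit 5) (nat_lit 64) (nat_lit 4) (nat_lit 252) (nat_lit 236) (nat_lit 232))) (XT.nd (nat_lit 78) (nat_lit 684) (nat_lit 0) (XT.lf (nat_lit 0) (nat_lit 2248325606) (nat_lit 380) (nat_lit 5677893350) (nat_lit 76) (nat_lit 5851049) (nat_lit 54) (nat_lit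 5) (nat_lit 59) (nat_lit 5) (nat_lit 55) (nat_lit 4) (nat_lit 253) (nat_lit 236) (nat_lit 231)) (XT.nd (nat_lit 78) (nat_lit 380) (nat_lit 0) (XT.lf (nat_lit 0) (nat_lit 1726456480) (nat_lit 304) (nat_lit 4925742969) (nat_lit 380) (nat_lit 1551806385) (nat_lit 50) (nat_lit 5) (nat_lit 54) (nat_lit 5) (nat_lit 55) (nat_lit 4) (nat_lit 254) (nat_lit 236) (nat_lit 230)) (XT.lf (nat_lit 0) (nat_lit 1072636858) (nat_lit 304) (nat_lit 1569895528) (nat_lit 380) (nat_lit 5862791818) (nat_lit 45) (nat_lit 5) (nat_lit 49) (nat_lit 5) (nat_lit 50) (nat_lit 5) (nat_lit 255) (nat_lit 236) (nat_lit 229))))))))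
noncomputable def xc40 : XT := (XT.nd (nat_lit 1404) (nat_lit 532) (nat_lit 0) (XT.nd (nat_lit 702) (nat_lit 912) (nat_lit 0) (XT.nd (nat_lit 312) (nat_lit 836) (nat_lit 0) (XT.nd (nat_lit 156) (nat_lit 532) (nat_lit 0) (XT.nd (nat_lit 78) (nat_lit 76) (nat_lit 0) (XT.lf (nat_lit 0) (nat_lit 233793415) (nat_lit 228) (nat_lit 6758693948) (nat_lit 304) (nat_lit 1844331835) (nat_lit 42) (nat_lit 5) (nat_lit 45) (nat_lit 5) (nat_lit 46) (nat_lit 4) (nat_lit 256) (nat_lit 236) (nat_lit 228)) (XT.lf (nat_lit 0) (nat_lit 2307176531) (nat_lit 304) (nat_lit 818237044) (nat_lit 76) (nat_lit 6073838847) (nat_lit 41) (nat_lit 5) (nat_lit 45) (nat_lit 5) (nat_lit 42) (nat_lit 5) (nat_lit 257) (nat_lit 236) (nat_lit 227))) (XT.nd (nat_lit 78) (nat_lit 304) (nat_lit 0) (XT.lf (nat_lit 0) (nat_lit 6610804194) (nat_lit 304) (nat_lit 2128661869) (nat_lit 76) (nat_lit 856341302) (nat_lit 38) (nat_lit 5)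 (nat_lit 42) (nat_lit 5) (nat_lit 39) (nat_lit 4) (nat_lit 258) (nat_lit 236) (nat_lit 226)) (XT.lf (nat_lit 0) (nat_lit 1123660261) (nat_lit 304) (nat_lit 3791736684) (nat_lit 76) (nat_lit 5112065716) (nat_lit 34) (nat_lit 5) (nat_lit 38) (nat_lit 5) (nat_lit 35) (nat_lit 5) (nat_lit 259) (nat_lit 236) (nat_lit 225)))) (XT.nd (nat_lit 156) (nat_lit 456) (nat_lit 0) (XT.nd (nat_lit 78) (nat_lit 152) (nat_lit 0) (XT.lf (nat_lit 0) (nat_lit 4642886578) (nat_lit 228) (nat_lit 699064093) (nat_lit 304) (nat_lit 5155687300) (nat_lit 31) (nat_lit 5) (nat_lit 34) (nat_lit 5) (nat_lit 35) (nat_lit 5) (nat_lit 260) (nat_lit 236) (nat_lit 224)) (XT.lf (nat_lit 0) (nat_lit 2602644137) (nat_lit 152) (nat_lit 7247825255) (nat_lit 228) (nat_lit 1157977073) (nat_lit 29) (nat_lit 5) (nat_lit 31) (nat_lit 5) (nat_lit 32) (nat_lit 4) (nat_lit 261) (nat_lit 236) (nat_lit 223))) (XT.nd (nat_lit 78) (nat_lit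 152) (nat_lit 0) (XT.lf (nat_lit 0) (nat_lit 29698782) (nat_lit 228) (nat_lit 2936907395) (nat_lit 304) (nat_lit 8596217646) (nat_lit 25) (nat_lit 5) (nat_lit 28) (nat_lit 5) (nat_lit 29) (nat_lit 5) (nat_lit 262) (nat_lit 236) (nat_lit 222)) (XT.nd (nat_lit 78) (nat_lit 152) (nat_lit 0) (XT.lf (nat_lit 0) (nat_lit 7358586600) (nat_lit 304) (nat_lit 3057911389) (nat_lit 76) (nat_lit 1745740987) (nat_lit 25) (nat_lit 5) (nat_lit 29) (nat_lit 5) (nat_lit 26) (nat_lit 4) (nat_lit 263) (nat_lit 236) (nat_lit 221)) (XT.lf (nat_lit 0) (nat_lit 5963397887) (nat_lit 152) (nat_lit 6097633594) (nat_lit 228) (nat_lit 751117586) (nat_lit 23) (nat_lit 5) (nat_lit 25) (nat_lit 5) (nat_lit 26) (nat_lit 4) (nat_lit 264) (nat_lit 236) (nat_lit 220)))))) (XT.nd (nat_lit 312) (nat_lit 304) (nat_lit 0) (XT.nd (nat_lit 156) (nat_lit 380) (nat_lit 0) (XT.nd (nat_lit 78) (nat_lit 0) (nat_lit 0) (XT.lf (nat_lit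 0) (nat_lit 2044486486) (nat_lit 152) (nat_lit 1373845347) (nat_lit 228) (nat_lit 10097890405) (nat_lit 20) (nat_lit 5) (nat_lit 22) (nat_lit 5) (nat_lit 23) (nat_lit 5) (nat_lit 265) (nat_lit 236) (nat_lit 219)) (XT.lf (nat_lit 0) (nat_lit 7905290143) (nat_lit 228) (nat_lit 2713228933) (nat_lit 76) (nat_lit 3657378923) (nat_lit 20) (nat_lit 5) (nat_lit 23) (nat_lit 5) (nat_lit 21) (nat_lit 4) (nat_lit 266) (nat_lit 236) (nat_lit 218))) (XT.nd (nat_lit 78) (nat_lit 228) (nat_lit 0) (XT.lf (nat_lit 0) (nat_lit 6693030667) (nat_lit 152) (nat_lit 6028853554) (nat_lit 228) (nat_lit 2376305411) (nat_lit 18) (nat_lit 5) (nat_lit 20) (nat_lit 5) (nat_lit 21) (nat_lit 4) (nat_lit 267) (nat_lit 236) (nat_lit 217)) (XT.lf (nat_lit 0) (nat_lit 718005807) (nat_lit 152) (nat_lit 1064991497) (nat_lit 228) (nat_lit 14206712660) (nat_lit 15) (nat_lit 5) (nat_lit 17) (nat_lit 5) (nat_lit 18) (nat_lit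 5) (nat_lit 268) (nat_lit 236) (nat_lit 216)))) (XT.nd (nat_lit 156) (nat_lit 228) (nat_lit 0) (XT.nd (nat_lit 78) (nat_lit 76) (nat_lit 0) (XT.lf (nat_lit 0) (nat_lit 6263372117) (nat_lit 228) (nat_lit 6418152685) (nat_lit 76) (nat_lit 4265807043) (nat_lit 15) (nat_lit 5) (nat_lit 18) (nat_lit 5) (nat_lit 16) (nat_lit 4) (nat_lit 269) (nat_lit 236) (nat_lit 215)) (XT.lf (nat_lit 0) (nat_lit 3004719690) (nat_lit 76) (nat_lit 8027682663) (nat_lit 152) (nat_lit 6952933945) (nat_lit 14) (nat_lit 5) (nat_lit 15) (nat_lit 5) (nat_lit 16) (nat_lit 4) (nat_lit 270) (nat_lit 236) (nat_lit 214))) (XT.nd (nat_lit 78) (nat_lit 228) (nat_lit 0) (XT.lf (nat_lit 0) (nat_lit 13202874887) (nat_lit 76) (nat_lit 2963966138) (nat_lit 152) (nat_lit 2940608828) (nat_lit 14) (nat_lit 5) (nat_lit 15) (nat_lit 5) (nat_lit 16) (nat_lit 4) (nat_lit 271) (nat_lit 236) (nat_lit 213)) (XT.nd (nat_lit 78) (nat_lit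 0) (nat_lit 0) (XT.lf (nat_lit 0) (nat_lit 1326104460) (nat_lit 228) (nat_lit 16559903168) (nat_lit 76) (nat_lit 2433570762) (nat_lit 11) (nat_lit 5) (nat_lit 14) (nat_lit 5) (nat_lit 12) (nat_lit 4) (nat_lit 272) (nat_lit 236) (nat_lit 212)) (XT.lf (nat_lit 0) (nat_lit 5871261900) (nat_lit 228) (nat_lit 7509692820) (nat_lit 76) (nat_lit 8243520353) (nat_lit 11) (nat_lit 5) (nat_lit 14) (nat_lit 5) (nat_lit 12) (nat_lit 4) (nat_lit 273) (nat_lit 236) (nat_lit 211))))))) (XT.nd (nat_lit 702) (nat_lit 228) (nat_lit 0) (XT.nd (nat_lit 312) (nat_lit 152) (nat_lit 0) (XT.nd (nat_lit 156) (nat_lit 76) (nat_lit 0) (XT.nd (nat_lit 78) (nat_lit 0) (nat_lit 0) (XT.lf (nat_lit 0) (nat_lit 2154963929) (nat_lit 76) (nat_lit 8551524570) (nat_lit 152) (nat_lit 12331151034) (nat_lit 10) (nat_lit 5) (nat_lit 11) (nat_lit 5) (nat_lit 12) (nat_lit 4) (nat_lit 274) (nat_lit 236) (nat_lit 210)) (XT.lf (nat_lit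 0) (nat_lit 12690178447) (nat_lit 76) (nat_lit 3267253801) (nat_lit 152) (nat_lit 8605164094) (nat_lit 10) (nat_lit 5) (nat_lit 11) (nat_lit 5) (nat_lit 12) (nat_lit 4) (nat_lit 275) (nat_lit 236) (nat_lit 209))) (XT.nd (nat_lit 78) (nat_lit 76) (nat_lit 0) (XT.lf (nat_lit 0) (nat_lit 21571181657) (nat_lit 152) (nat_lit 2341457093) (nat_lit 0) (nat_lit 2299944936) (nat_lit 10) (nat_lit 5) (nat_lit 12) (nat_lit 4) (nat_lit 10) (nat_lit 4) (nat_lit 276) (nat_lit 236) (nat_lit 208)) (XT.lf (nat_lit 0) (nat_lit 8003010907) (nat_lit 76) (nat_lit 19722763898) (nat_lit 76) (nat_lit 264365894) (nat_lit 9) (nat_lit 4) (nat_lit 10) (nat_lit 5) (nat_lit 10) (nat_lit 4) (nat_lit 277) (nat_lit 236) (nat_lit 207)))) (XT.nd (nat_lit 156) (nat_lit 76) (nat_lit 0) (XT.nd (nat_lit 78) (nat_lit 0) (nat_lit 0) (XT.lf (nat_lit 0) (nat_lit 4275933944) (nat_lit 152) (nat_lit 10866030901) (nat_lit 76) (nat_lit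 14766795811) (nat_lit 8) (nat_lit 5) (nat_lit 10) (nat_lit 5) (nat_lit 9) (nat_lit 4) (nat_lit 278) (nat_lit 236) (nat_lit 206)) (XT.lf (nat_lit 0) (nat_lit 9091138056) (nat_lit 152) (nat_lit 1155323106) (nat_lit 76) (nat_lit 21738274140) (nat_lit 8) (nat_lit 5) (nat_lit 10) (nat_lit 5) (nat_lit 9) (nat_lit 4) (nat_lit 279) (nat_lit 236) (nat_lit 205))) (XT.nd (nat_lit 78) (nat_lit 0) (nat_lit 0) (XT.lf (nat_lit 0) (nat_lit 9511079979) (nat_lit 76) (nat_lit 4855656977) (nat_lit 152) (nat_lit 19856411395) (nat_lit 7) (nat_lit 5) (nat_lit 8) (nat_lit 5) (nat_lit 9) (nat_lit 4) (nat_lit 280) (nat_lit 236) (nat_lit 204)) (XT.nd (nat_lit 78) (nat_lit 0) (nat_lit 0) (XT.lf (nat_lit 0) (nat_lit 20029380139) (nat_lit 152) (nat_lit 15705925253) (nat_lit 0) (nat_lit 907189747) (nat_lit 7) (nat_lit 5) (nat_lit 9) (nat_lit 4) (nat_lit 7) (nat_lit 4) (nat_lit 281) (nat_lit 236) (nat_lit 203)) (XT.lf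 (nat_lit 0) (nat_lit 26161588799) (nat_lit 152) (nat_lit 6174990259) (nat_lit 0) (nat_lit 6918085240) (nat_lit 7) (nat_lit 5) (nat_lit 9) (nat_lit 4) (nat_lit 7) (nat_lit 4) (nat_lit 282) (nat_lit 236) (nat_lit 202)))))) (XT.nd (nat_lit 390) (nat_lit 76) (nat_lit 0) (XT.nd (nat_lit 156) (nat_lit 76) (nat_lit 0) (XT.nd (nat_lit 78) (nat_lit 0) (nat_lit 0) (XT.lf (nat_lit 0) (nat_lit 4145715421) (nat_lit 76) (nat_lit 28642902349) (nat_lit 76) (nat_lit 9287071785) (nat_lit 6) (nat_lit 4) (nat_lit 7) (nat_lit 5) (nat_lit 7) (nat_lit 4) (nat_lit 283) (nat_lit 236) (nat_lit 201)) (XT.lf (nat_lit 0) (nat_lit 15411771818) (nat_lit 76) (nat_lit 24584025199) (nat_lit 76) (nat_lit 5124188149) (nat_lit 6) (nat_lit 4) (nat_lit 7) (nat_lit 5) (nat_lit 7) (nat_lit 4) (nat_lit 284) (nat_lit 236) (nat_lit 200))) (XT.nd (nat_lit 78) (nat_lit 76) (nat_lit 0) (XT.lf (nat_lit 0) (nat_lit 27485767681) (nat_lit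 76) (nat_lit 20240471452) (nat_lit 76) (nat_lit 684332098) (nat_lit 6) (nat_lit 4) (nat_lit 7) (nat_lit 5) (nat_lit 7) (nat_lit 4) (nat_lit 285) (nat_lit 236) (nat_lit 199)) (XT.nd (nat_lit 78) (nat_lit 0) (nat_lit 0) (XT.lf (nat_lit 0) (nat_lit 3928899464) (nat_lit 152) (nat_lit 11591064250) (nat_lit 76) (nat_lit 36443815337) (nat_lit 5) (nat_lit 5) (nat_lit 7) (nat_lit 5) (nat_lit 6) (nat_lit 4) (nat_lit 286) (nat_lit 236) (nat_lit 198)) (XT.lf (nat_lit 0) (nat_lit 8841011732) (nat_lit 152) (nat_lit 1603797803) (nat_lit 76) (nat_lit 45358249468) (nat_lit 5) (nat_lit 5) (nat_lit 7) (nat_lit 5) (nat_lit 6) (nat_lit 4) (nat_lit 287) (nat_lit 236) (nat_lit 197))))) (XT.nd (nat_lit 156) (nat_lit 0) (nat_lit 0) (XT.nd (nat_lit 78) (nat_lit 0) (nat_lit 0) (XT.lf (nat_lit 0) (nat_lit 9407977982) (nat_lit 76) (nat_lit 4841923338) (nat_lit 152) (nat_lit 45694451026) (nat_lit 4) (nat_lit 5) (nat_lit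 5) (nat_lit 5) (nat_lit 6) (nat_lit 4) (nat_lit 288) (nat_lit 236) (nat_lit 196)) (XT.lf (nat_lit 0) (nat_lit 20097273089) (nat_lit 152) (nat_lit 43150842526) (nat_lit 0) (nat_lit 1168601857) (nat_lit 4) (nat_lit 5) (nat_lit 6) (nat_lit 4) (nat_lit 4) (nat_lit 4) (nat_lit 289) (nat_lit 236) (nat_lit 195))) (XT.nd (nat_lit 78) (nat_lit 0) (nat_lit 0) (XT.lf (nat_lit 0) (nat_lit 26455649566) (nat_lit 152) (nat_lit 35324556505) (nat_lit 0) (nat_lit 7464557640) (nat_lit 4) (nat_lit 5) (nat_lit 6) (nat_lit 4) (nat_lit 4) (nat_lit 4) (nat_lit 290) (nat_lit 236) (nat_lit 194)) (XT.nd (nat_lit 78) (nat_lit 0) (nat_lit 0) (XT.lf (nat_lit 0) (nat_lit 33287114028) (nat_lit 152) (nat_lit 26935542318) (nat_lit 0) (nat_lit 14238225163) (nat_lit 4) (nat_lit 5) (nat_lit 6) (nat_lit 4) (nat_lit 4) (nat_lit 4) (nat_lit 291) (nat_lit 236) (nat_lit 193)) (XT.lf (nat_lit 0) (nat_lit 40632149226) (nat_lit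 152) (nat_lit 17934087287) (nat_lit 0) (nat_lit 21529744677) (nat_lit 4) (nat_lit 5) (nat_lit 6) (nat_lit 4) (nat_lit 4) (nat_lit 4) (nat_lit 292) (nat_lit 236) (nat_lit 192))))))))
noncomputable def xc41 : XT := (XT.nd (nat_lit 1404) (nat_lit 0) (nat_lit 0) (XT.nd (nat_lit 702) (nat_lit 152) (nat_lit 0) (XT.nd (nat_lit 312) (nat_lit 0) (nat_lit 0) (XT.nd (nat_lit 156) (nat_lit 0) (nat_lit 0) (XT.nd (nat_lit 78) (nat_lit 76) (nat_lit 0) (XT.lf (nat_lit 0) (nat_lit 48534281296) (nat_lit 152) (nat_lit 8266849458) (nat_lit 0) (nat_lit 29382325187) (nat_lit 4) (nat_lit 5) (nat_lit 6) (nat_lit 4) (nat_lit 4) (nat_lit 4) (nat_lit 293) (nat_lit 236) (nat_lit 191)) (XT.lf (nat_lit 0) (nat_lit 2193669631) (nat_lit 76) (nat_lit 54880917385) (nat_lit 76) (nat_lit 35683080202) (nat_lit 3) (nat_lit 4) (nat_lit 4) (nat_lit 5) (nat_lit 4) (nat_lit 4) (nat_lit 294) (nat_lit 236) (nat_lit 190))) (XT.nd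 (nat_lit 78) (nat_lit 0) (nat_lit 0) (XT.lf (nat_lit 0) (nat_lit 13738114248) (nat_lit 76) (nat_lit 52677100873) (nat_lit 76) (nat_lit 33436781215) (nat_lit 3) (nat_lit 4) (nat_lit 4) (nat_lit 5) (nat_lit 4) (nat_lit 4) (nat_lit 295) (nat_lit 236) (nat_lit 189)) (XT.lf (nat_lit 0) (nat_lit 26161556536) (nat_lit 76) (nat_lit 50316624662) (nat_lit 76) (nat_lit 31036969378) (nat_lit 3) (nat_lit 4) (nat_lit 4) (nat_lit 5) (nat_lit 4) (nat_lit 4) (nat_lit 296) (nat_lit 236) (nat_lit 188)))) (XT.nd (nat_lit 156) (nat_lit 0) (nat_lit 0) (XT.nd (nat_lit 78) (nat_lit 0) (nat_lit 0) (XT.lf (nat_lit 0) (nat_lit 39537616895) (nat_lit 76) (nat_lit 47785500744) (nat_lit 76) (nat_lit 28469423585) (nat_lit 3) (nat_lit 4) (nat_lit 4) (nat_lit 5) (nat_lit 4) (nat_lit 4) (nat_lit 297) (nat_lit 236) (nat_lit 187)) (XT.lf (nat_lit 0) (nat_lit 53945560867) (nat_lit 76) (nat_lit 45068729867) (nat_lit 76) (nat_lit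 25718928748) (nat_lit 3) (nat_lit 4) (nat_lit 4) (nat_lit 5) (nat_lit 4) (nat_lit 4) (nat_lit 298) (nat_lit 236) (nat_lit 186))) (XT.nd (nat_lit 78) (nat_lit 0) (nat_lit 0) (XT.lf (nat_lit 0) (nat_lit 69470768862) (nat_lit 76) (nat_lit 42150212647) (nat_lit 76) (nat_lit 22769185640) (nat_lit 3) (nat_lit 4) (nat_lit 4) (nat_lit 5) (nat_lit 4) (nat_lit 4) (nat_lit 299) (nat_lit 236) (nat_lit 185)) (XT.nd (nat_lit 78) (nat_lit 0) (nat_lit 0) (XT.lf (nat_lit 0) (nat_lit 86205242112) (nat_lit 76) (nat_lit 39012654167) (nat_lit 76) (nat_lit 19602714302) (nat_lit 3) (nat_lit 4) (nat_lit 4) (nat_lit 5) (nat_lit 4) (nat_lit 4) (nat_lit 300) (nat_lit 236) (nat_lit 184)) (XT.lf (nat_lit 0) (nat_lit 104248147865) (nat_lit 76) (nat_lit 35637461489) (nat_lit 76) (nat_lit 16200750458) (nat_lit 3) (nat_lit 4) (nat_lit 4) (nat_lit 5) (nat_lit 4) (nat_lit 4) (nat_lit 301) (nat_lit 236) (nat_lit 183))))))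 (XT.nd (nat_lit 312) (nat_lit 76) (nat_lit 0) (XT.nd (nat_lit 156) (nat_lit 76) (nat_lit 0) (XT.nd (nat_lit 78) (nat_lit 0) (nat_lit 0) (XT.lf (nat_lit 0) (nat_lit 123706407044) (nat_lit 76) (nat_lit 32004633471) (nat_lit 76) (nat_lit 12543134323) (nat_lit 3) (nat_lit 4) (nat_lit 4) (nat_lit 5) (nat_lit 4) (nat_lit 4) (nat_lit 302) (nat_lit 236) (nat_lit 182)) (XT.lf (nat_lit 0) (nat_lit 144695327853) (nat_lit 76) (nat_lit 28092642242) (nat_lit 76) (nat_lit 8608191135) (nat_lit 3) (nat_lit 4) (nat_lit 4) (nat_lit 5) (nat_lit 4) (nat_lit 4) (nat_lit 303) (nat_lit 236) (nat_lit 181))) (XT.nd (nat_lit 78) (nat_lit 76) (nat_lit 0) (XT.lf (nat_lit 0) (nat_lit 167339289082) (nat_lit 76) (nat_lit 23878305634) (nat_lit 76) (nat_lit 4372602712) (nat_lit 3) (nat_lit 4) (nat_lit 4) (nat_lit 5) (nat_lit 4) (nat_lit 4) (nat_lit 304) (nat_lit 236) (nat_lit 180)) (XT.lf (nat_lit 0) (nat_lit 182690167)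 (nat_lit 152) (nat_lit 19150865685) (nat_lit 76) (nat_lit 191586693052) (nat_lit 2) (nat_lit 5) (nat_lit 4) (nat_lit 5) (nat_lit 3) (nat_lit 4) (nat_lit 305) (nat_lit 236) (nat_lit 179)))) (XT.nd (nat_lit 156) (nat_lit 0) (nat_lit 0) (XT.nd (nat_lit 78) (nat_lit 76) (nat_lit 0) (XT.lf (nat_lit 0) (nat_lit 4939516587) (nat_lit 152) (nat_lit 9417591529) (nat_lit 76) (nat_lit 213116511678) (nat_lit 2) (nat_lit 5) (nat_lit 4) (nat_lit 5) (nat_lit 3) (nat_lit 4) (nat_lit 306) (nat_lit 236) (nat_lit 178)) (XT.lf (nat_lit 0) (nat_lit 1110401135) (nat_lit 76) (nat_lit 8972951081) (nat_lit 152) (nat_lit 235267598537) (nat_lit 1) (nat_lit 5) (nat_lit 2) (nat_lit 5) (nat_lit 3) (nat_lit 4) (nat_lit 307) (nat_lit 236) (nat_lit 177))) (XT.nd (nat_lit 78) (nat_lit 0) (nat_lit 0) (XT.lf (nat_lit 0) (nat_lit 12798295891) (nat_lit 76) (nat_lit 2994088263) (nat_lit 152) (nat_lit 248858412110) (nat_lit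 1) (nat_lit 5) (nat_lit 2) (nat_lit 5) (nat_lit 3) (nat_lit 4) (nat_lit 308) (nat_lit 236) (nat_lit 176)) (XT.nd (nat_lit 78) (nat_lit 0) (nat_lit 0) (XT.lf (nat_lit 0) (nat_lit 22002495842) (nat_lit 152) (nat_lit 260145103163) (nat_lit 0) (nat_lit 3344824171) (nat_lit 1) (nat_lit 5) (nat_lit 3) (nat_lit 4) (nat_lit 1) (nat_lit 4) (nat_lit 309) (nat_lit 236) (nat_lit 175)) (XT.lf (nat_lit 0) (nat_lit 28750910367) (nat_lit 152) (nat_lit 269167921764) (nat_lit 0) (nat_lit 10080484174) (nat_lit 1) (nat_lit 5) (nat_lit 3) (nat_lit 4) (nat_lit 1) (nat_lit 4) (nat_lit 310) (nat_lit 236) (nat_lit 174))))))) (XT.nd (nat_lit 702) (nat_lit 0) (nat_lit 0) (XT.nd (nat_lit 312) (nat_lit 0) (nat_lit 0) (XT.nd (nat_lit 156) (nat_lit 0) (nat_lit 0) (XT.nd (nat_lit 78) (nat_lit 0) (nat_lit 0) (XT.lf (nat_lit 0) (nat_lit 36030872225) (nat_lit 152) (nat_lit 278927678622) (nat_lit 0) (nat_lit 17348636289)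 (nat_lit 1) (nat_lit 5) (nat_lit 3) (nat_lit 4) (nat_lit 1) (nat_lit 4) (nat_lit 311) (nat_lit 236) (nat_lit 173)) (XT.lf (nat_lit 0) (nat_lit 43885521932) (nat_lit 152) (nat_lit 289482209332) (nat_lit 0) (nat_lit 25192351049) (nat_lit 1) (nat_lit 5) (nat_lit 3) (nat_lit 4) (nat_lit 1) (nat_lit 4) (nat_lit 312) (nat_lit 236) (nat_lit 172))) (XT.nd (nat_lit 78) (nat_lit 0) (nat_lit 0) (XT.lf (nat_lit 0) (nat_lit 52361405559) (nat_lit 152) (nat_lit 300894059263) (nat_lit 0) (nat_lit 33658109725) (nat_lit 1) (nat_lit 5) (nat_lit 3) (nat_lit 4) (nat_lit 1) (nat_lit 4) (nat_lit 313) (nat_lit 236) (nat_lit 171)) (XT.lf (nat_lit 0) (nat_lit 61508750565) (nat_lit 152) (nat_lit 313230854192) (nat_lit 0) (nat_lit 42796079777) (nat_lit 1) (nat_lit 5) (nat_lit 3) (nat_lit 4) (nat_lit 1) (nat_lit 4) (nat_lit 314) (nat_lit 236) (nat_lit 170)))) (XT.nd (nat_lit 156) (nat_lit 0) (nat_lit 0) (XT.nd (nat_lit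 78) (nat_lit 0) (nat_lit 0) (XT.lf (nat_lit 0) (nat_lit 71381763439) (nat_lit 152) (nat_lit 326565701051) (nat_lit 0) (nat_lit 52660412137) (nat_lit 1) (nat_lit 5) (nat_lit 3) (nat_lit 4) (nat_lit 1) (nat_lit 4) (nat_lit 315) (nat_lit 236) (nat_lit 169)) (XT.lf (nat_lit 0) (nat_lit 82038950924) (nat_lit 152) (nat_lit 340977621155) (nat_lit 0) (nat_lit 63309562110) (nat_lit 1) (nat_lit 5) (nat_lit 3) (nat_lit 4) (nat_lit 1) (nat_lit 4) (nat_lit 316) (nat_lit 236) (nat_lit 168))) (XT.nd (nat_lit 78) (nat_lit 0) (nat_lit 0) (XT.lf (nat_lit 0) (nat_lit 93543466723) (nat_lit 152) (nat_lit 356552018476) (nat_lit 0) (nat_lit 74806635768) (nat_lit 1) (nat_lit 5) (nat_lit 3) (nat_lit 4) (nat_lit 1) (nat_lit 4) (nat_lit 317) (nat_lit 236) (nat_lit 167)) (XT.nd (nat_lit 78) (nat_lit 0) (nat_lit 0) (XT.lf (nat_lit 0) (nat_lit 105963485745) (nat_lit 152) (nat_lit 373381185738) (nat_lit 0) (nat_lit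 87219763919) (nat_lit 1) (nat_lit 5) (nat_lit 3) (nat_lit 4) (nat_lit 1) (nat_lit 4) (nat_lit 318) (nat_lit 236) (nat_lit 166)) (XT.lf (nat_lit 0) (nat_lit 119372608103) (nat_lit 152) (nat_lit 391564851339) (nat_lit 0) (nat_lit 100622505841) (nat_lit 1) (nat_lit 5) (nat_lit 3) (nat_lit 4) (nat_lit 1) (nat_lit 4) (nat_lit 319) (nat_lit 236) (nat_lit 165)))))) (XT.nd (nat_lit 31746) (nat_lit 0) (nat_lit 5472) (XT.nd (nat_lit 156) (nat_lit 0) (nat_lit 0) (XT.nd (nat_lit 78) (nat_lit 0) (nat_lit 0) (XT.lf (nat_lit 0) (nat_lit 133850295263) (nat_lit 152) (nat_lit 411210770336) (nat_lit 0) (nat_lit 115094285189) (nat_lit 1) (nat_lit 5) (nat_lit 3) (nat_lit 4) (nat_lit 1) (nat_lit 4) (nat_lit 320) (nat_lit 236) (nat_lit 164)) (XT.lf (nat_lit 0) (nat_lit 149482340926) (nat_lit 152) (nat_lit 432435362989) (nat_lit 0) (nat_lit 130720860656) (nat_lit 1) (nat_lit 5) (nat_lit 3) (nat_lit 4) (nat_lit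 1) (nat_lit 4) (nat_lit 321) (nat_lit 236) (nat_lit 163))) (XT.nd (nat_lit 78) (nat_lit 0) (nat_lit 0) (XT.lf (nat_lit 0) (nat_lit 166361379437) (nat_lit 152) (nat_lit 455364404661) (nat_lit 0) (nat_lit 147594834171) (nat_lit 1) (nat_lit 5) (nat_lit 3) (nat_lit 4) (nat_lit 1) (nat_lit 4) (nat_lit 322) (nat_lit 236) (nat_lit 162)) (XT.nd (nat_lit 78) (nat_lit 0) (nat_lit 0) (XT.lf (nat_lit 0) (nat_lit 184587434727) (nat_lit 152) (nat_lit 480133771155) (nat_lit 0) (nat_lit 165816199650) (nat_lit 1) (nat_lit 5) (nat_lit 3) (nat_lit 4) (nat_lit 1) (nat_lit 4) (nat_lit 323) (nat_lit 236) (nat_lit 161)) (XT.lf (nat_lit 0) (nat_lit 204268513051) (nat_lit 152) (nat_lit 506890243903) (nat_lit 0) (nat_lit 185492935556) (nat_lit 1) (nat_lit 5) (nat_lit 3) (nat_lit 4) (nat_lit 1) (nat_lit 4) (nat_lit 324) (nat_lit 236) (nat_lit 160))))) (XT.nd (nat_lit 156) (nat_lit 1672) (nat_lit 0) (XT.nd (nat_lit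 78) (nat_lit 456) (nat_lit 0) (XT.lf (nat_lit 0) (nat_lit 1253972173) (nat_lit 380) (nat_lit 856292037) (nat_lit 0) (nat_lit 1253972173) (nat_lit 101) (nat_lit 5) (nat_lit 106) (nat_lit 4) (nat_lit 101) (nat_lit 4) (nat_lit 246) (nat_lit 237) (nat_lit 237)) (XT.lf (nat_lit 0) (nat_lit 259460923) (nat_lit 456) (nat_lit 2450651531) (nat_lit 76) (nat_lit 4127720555) (nat_lit 95) (nat_lit 5) (nat_lit 101) (nat_lit 5) (nat_lit 96) (nat_lit 4) (nat_lit 247) (nat_lit 237) (nat_lit 236))) (XT.nd (nat_lit 78) (nat_lit 1216) (nat_lit 0) (XT.lf (nat_lit 0) (nat_lit 3809804398) (nat_lit 456) (nat_lit 850667739) (nat_lit 532) (nat_lit 2308704512) (nat_lit 89) (nat_lit 5) (nat_lit 95) (nat_lit 5) (nat_lit 96) (nat_lit 4) (nat_lit 248) (nat_lit 237) (nat_lit 235)) (XT.nd (nat_lit 78) (nat_lit 608) (nat_lit 0) (XT.lf (nat_lit 0) (nat_lit 1978880344) (nat_lit 608) (nat_lit 3849215596) (nat_lit 76) (nat_lit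 1295588772) (nat_lit 81) (nat_lit 5) (nat_lit 89) (nat_lit 5) (nat_lit 82) (nat_lit 4) (nat_lit 249) (nat_lit 237) (nat_lit 234)) (XT.lf (nat_lit 0) (nat_lit 2754321956) (nat_lit 608) (nat_lit 3545745817) (nat_lit 684) (nat_lit 1001830626) (nat_lit 73) (nat_lit 5) (nat_lit 81) (nat_lit 5) (nat_lit 82) (nat_lit 4) (nat_lit 250) (nat_lit 237) (nat_lit 233))))))))
noncomputable def xc42 : XT := (XT.nd (nat_lit 1404) (nat_lit 912) (nat_lit 0) (XT.nd (nat_lit 702) (nat_lit 1292) (nat_lit 0) (XT.nd (nat_lit 312) (nat_lit 1216) (nat_lit 0) (XT.nd (nat_lit 156) (nat_lit 684) (nat_lit 0) (XT.nd (nat_lit 78) (nat_lit 304) (nat_lit 0) (XT.lf (nat_lit 0) (nat_lit 2222458065) (nat_lit 684) (nat_lit 912541148) (nat_lit 760) (nat_lit 4369578397) (nat_lit 63) (nat_lit 5) (nat_lit 72) (nat_lit 5) (nat_lit 73) (nat_lit 5) (nat_lit 251) (nat_lit 237) (nat_lit 232)) (XT.lf (nat_lit 0) (nat_lit 1652823952)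 (nat_lit 304) (nat_lit 5742000615) (nat_lit 380) (nat_lit 337947063) (nat_lit 59) (nat_lit 5) (nat_lit 63) (nat_lit 5) (nat_lit 64) (nat_lit 4) (nat_lit 252) (nat_lit 237) (nat_lit 231))) (XT.nd (nat_lit 78) (nat_lit 304) (nat_lit 0) (XT.lf (nat_lit 0) (nat_lit 982845171) (nat_lit 304) (nat_lit 2731213481) (nat_lit 380) (nat_lit 4272012199) (nat_lit 54) (nat_lit 5) (nat_lit 58) (nat_lit 5) (nat_lit 59) (nat_lit 5) (nat_lit 253) (nat_lit 237) (nat_lit 230)) (XT.lf (nat_lit 0) (nat_lit 239347893) (nat_lit 304) (nat_lit 7677560172) (nat_lit 380) (nat_lit 351730449) (nat_lit 50) (nat_lit 5) (nat_lit 54) (nat_lit 5) (nat_lit 55) (nat_lit 4) (nat_lit 254) (nat_lit 237) (nat_lit 229)))) (XT.nd (nat_lit 156) (nat_lit 836) (nat_lit 0) (XT.nd (nat_lit 78) (nat_lit 304) (nat_lit 0) (XT.lf (nat_lit 0) (nat_lit 3657346636) (nat_lit 380) (nat_lit 686992020) (nat_lit 76) (nat_lit 4232535993) (nat_lit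 49) (nat_lit 5) (nat_lit 54) (nat_lit 5) (nat_lit 50) (nat_lit 5) (nat_lit 255) (nat_lit 237) (nat_lit 228)) (XT.lf (nat_lit 0) (nat_lit 7168008878) (nat_lit 304) (nat_lit 668323150) (nat_lit 380) (nat_lit 1081060172) (nat_lit 45) (nat_lit 5) (nat_lit 49) (nat_lit 5) (nat_lit 50) (nat_lit 5) (nat_lit 256) (nat_lit 237) (nat_lit 227))) (XT.nd (nat_lit 78) (nat_lit 532) (nat_lit 0) (XT.lf (nat_lit 0) (nat_lit 2888218289) (nat_lit 304) (nat_lit 3094205814) (nat_lit 76) (nat_lit 3305113561) (nat_lit 41) (nat_lit 5) (nat_lit 45) (nat_lit 5) (nat_lit 42) (nat_lit 5) (nat_lit 257) (nat_lit 237) (nat_lit 226)) (XT.nd (nat_lit 78) (nat_lit 304) (nat_lit 0) (XT.lf (nat_lit 0) (nat_lit 4985082991) (nat_lit 228) (nat_lit 2044076670) (nat_lit 304) (nat_lit 2663454352) (nat_lit 38) (nat_lit 5) (nat_lit 41) (nat_lit 5) (nat_lit 42) (nat_lit 5) (nat_lit 258) (nat_lit 237) (nat_lit 225)) (XT.lf (nat_lit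 0) (nat_lit 1252044264) (nat_lit 304) (nat_lit 6675386205) (nat_lit 76) (nat_lit 2206072838) (nat_lit 34) (nat_lit 5) (nat_lit 38) (nat_lit 5) (nat_lit 35) (nat_lit 5) (nat_lit 259) (nat_lit 237) (nat_lit 224)))))) (XT.nd (nat_lit 312) (nat_lit 608) (nat_lit 0) (XT.nd (nat_lit 156) (nat_lit 456) (nat_lit 0) (XT.nd (nat_lit 78) (nat_lit 0) (nat_lit 0) (XT.lf (nat_lit 0) (nat_lit 1522130891) (nat_lit 228) (nat_lit 3798847691) (nat_lit 304) (nat_lit 5290483905) (nat_lit 31) (nat_lit 5) (nat_lit 34) (nat_lit 5) (nat_lit 35) (nat_lit 5) (nat_lit 260) (nat_lit 237) (nat_lit 223)) (XT.lf (nat_lit 0) (nat_lit 9644676450) (nat_lit 304) (nat_lit 802591064) (nat_lit 76) (nat_lit 684537163) (nat_lit 31) (nat_lit 5) (nat_lit 35) (nat_lit 5) (nat_lit 32) (nat_lit 4) (nat_lit 261) (nat_lit 237) (nat_lit 222))) (XT.nd (nat_lit 78) (nat_lit 228) (nat_lit 0) (XT.lf (nat_lit 0) (nat_lit 2541897702) (nat_lit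 228) (nat_lit 3654845011) (nat_lit 76) (nat_lit 5495258952) (nat_lit 28) (nat_lit 5) (nat_lit 31) (nat_lit 5) (nat_lit 29) (nat_lit 5) (nat_lit 262) (nat_lit 237) (nat_lit 221)) (XT.lf (nat_lit 0) (nat_lit 5201123850) (nat_lit 228) (nat_lit 1558037725) (nat_lit 304) (nat_lit 5541230025) (nat_lit 25) (nat_lit 5) (nat_lit 28) (nat_lit 5) (nat_lit 29) (nat_lit 5) (nat_lit 263) (nat_lit 237) (nat_lit 220)))) (XT.nd (nat_lit 156) (nat_lit 380) (nat_lit 0) (XT.nd (nat_lit 78) (nat_lit 76) (nat_lit 0) (XT.lf (nat_lit 0) (nat_lit 1687877396) (nat_lit 152) (nat_lit 9600955288) (nat_lit 228) (nat_lit 1670328950) (nat_lit 23) (nat_lit 5) (nat_lit 25) (nat_lit 5) (nat_lit 26) (nat_lit 4) (nat_lit 264) (nat_lit 237) (nat_lit 219)) (XT.lf (nat_lit 0) (nat_lit 2417691899) (nat_lit 228) (nat_lit 2548295814) (nat_lit 76) (nat_lit 8703702228) (nat_lit 22) (nat_lit 5) (nat_lit 25) (nat_lit 5) (nat_lit 23)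 (nat_lit 5) (nat_lit 265) (nat_lit 237) (nat_lit 218))) (XT.nd (nat_lit 78) (nat_lit 228) (nat_lit 0) (XT.lf (nat_lit 0) (nat_lit 6731318668) (nat_lit 228) (nat_lit 7606333537) (nat_lit 76) (nat_lit 100560732) (nat_lit 20) (nat_lit 5) (nat_lit 23) (nat_lit 5) (nat_lit 21) (nat_lit 4) (nat_lit 266) (nat_lit 237) (nat_lit 217)) (XT.nd (nat_lit 78) (nat_lit 76) (nat_lit 0) (XT.lf (nat_lit 0) (nat_lit 1525937020) (nat_lit 152) (nat_lit 9871420700) (nat_lit 228) (nat_lit 3870841876) (nat_lit 18) (nat_lit 5) (nat_lit 20) (nat_lit 5) (nat_lit 21) (nat_lit 4) (nat_lit 267) (nat_lit 237) (nat_lit 216)) (XT.lf (nat_lit 0) (nat_lit 257520226) (nat_lit 228) (nat_lit 4725015813) (nat_lit 76) (nat_lit 11182436848) (nat_lit 17) (nat_lit 5) (nat_lit 20) (nat_lit 5) (nat_lit 18) (nat_lit 5) (nat_lit 268) (nat_lit 237) (nat_lit 215))))))) (XT.nd (nat_lit 702) (nat_lit 304) (nat_lit 0) (XT.nd (nat_lit 312)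 (nat_lit 380) (nat_lit 0) (XT.nd (nat_lit 156) (nat_lit 76) (nat_lit 0) (XT.nd (nat_lit 78) (nat_lit 0) (nat_lit 0) (XT.lf (nat_lit 0) (nat_lit 4534539049) (nat_lit 228) (nat_lit 12238476100) (nat_lit 76) (nat_lit 359884002) (nat_lit 15) (nat_lit 5) (nat_lit 18) (nat_lit 5) (nat_lit 16) (nat_lit 4) (nat_lit 269) (nat_lit 237) (nat_lit 214)) (XT.lf (nat_lit 0) (nat_lit 9196719352) (nat_lit 228) (nat_lit 3008450560) (nat_lit 76) (nat_lit 5971202653) (nat_lit 15) (nat_lit 5) (nat_lit 18) (nat_lit 5) (nat_lit 16) (nat_lit 4) (nat_lit 270) (nat_lit 237) (nat_lit 213))) (XT.nd (nat_lit 78) (nat_lit 0) (nat_lit 0) (XT.lf (nat_lit 0) (nat_lit 6997756098) (nat_lit 76) (nat_lit 7227936728) (nat_lit 152) (nat_lit 5078183651) (nat_lit 14) (nat_lit 5) (nat_lit 15) (nat_lit 5) (nat_lit 16) (nat_lit 4) (nat_lit 271) (nat_lit 237) (nat_lit 212)) (XT.lf (nat_lit 0) (nat_lit 17733788982) (nat_lit 76) (nat_lit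 1865934774) (nat_lit 152) (nat_lit 924945488) (nat_lit 14) (nat_lit 5) (nat_lit 15) (nat_lit 5) (nat_lit 16) (nat_lit 4) (nat_lit 272) (nat_lit 237) (nat_lit 211)))) (XT.nd (nat_lit 156) (nat_lit 152) (nat_lit 0) (XT.nd (nat_lit 78) (nat_lit 0) (nat_lit 0) (XT.lf (nat_lit 0) (nat_lit 3523398462) (nat_lit 228) (nat_lit 14401395426) (nat_lit 76) (nat_lit 3911910576) (nat_lit 11) (nat_lit 5) (nat_lit 14) (nat_lit 5) (nat_lit 12) (nat_lit 4) (nat_lit 273) (nat_lit 237) (nat_lit 210)) (XT.lf (nat_lit 0) (nat_lit 8277264375) (nat_lit 228) (nat_lit 4885190472) (nat_lit 76) (nat_lit 10091570642) (nat_lit 11) (nat_lit 5) (nat_lit 14) (nat_lit 5) (nat_lit 12) (nat_lit 4) (nat_lit 274) (nat_lit 237) (nat_lit 209))) (XT.nd (nat_lit 78) (nat_lit 76) (nat_lit 0) (XT.lf (nat_lit 0) (nat_lit 5412472176) (nat_lit 76) (nat_lit 7991574415) (nat_lit 152) (nat_lit 11381225753) (nat_lit 10) (nat_lit 5) (nat_lit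 11) (nat_lit 5) (nat_lit 12) (nat_lit 4) (nat_lit 275) (nat_lit 237) (nat_lit 208)) (XT.nd (nat_lit 78) (nat_lit 76) (nat_lit 0) (XT.lf (nat_lit 0) (nat_lit 16561977104) (nat_lit 76) (nat_lit 2376715474) (nat_lit 152) (nat_lit 7500598180) (nat_lit 10) (nat_lit 5) (nat_lit 11) (nat_lit 5) (nat_lit 12) (nat_lit 4) (nat_lit 276) (nat_lit 237) (nat_lit 207)) (XT.lf (nat_lit 0) (nat_lit 187326582) (nat_lit 76) (nat_lit 24707520993) (nat_lit 76) (nat_lit 3331992382) (nat_lit 9) (nat_lit 4) (nat_lit 10) (nat_lit 5) (nat_lit 10) (nat_lit 4) (nat_lit 277) (nat_lit 237) (nat_lit 206)))))) (XT.nd (nat_lit 390) (nat_lit 152) (nat_lit 0) (XT.nd (nat_lit 156) (nat_lit 76) (nat_lit 0) (XT.nd (nat_lit 78) (nat_lit 0) (nat_lit 0) (XT.lf (nat_lit 0) (nat_lit 1268422658) (nat_lit 152) (nat_lit 18935722793) (nat_lit 76) (nat_lit 9945674548) (nat_lit 8) (nat_lit 5) (nat_lit 10) (nat_lit 5) (nat_lit 9) (nat_lit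 4) (nat_lit 278) (nat_lit 237) (nat_lit 205)) (XT.lf (nat_lit 0) (nat_lit 6048378619) (nat_lit 152) (nat_lit 9285387734) (nat_lit 76) (nat_lit 16893848082) (nat_lit 8) (nat_lit 5) (nat_lit 10) (nat_lit 5) (nat_lit 9) (nat_lit 4) (nat_lit 279) (nat_lit 237) (nat_lit 204))) (XT.nd (nat_lit 78) (nat_lit 0) (nat_lit 0) (XT.lf (nat_lit 0) (nat_lit 1054449687) (nat_lit 76) (nat_lit 10104858958) (nat_lit 152) (nat_lit 23315005415) (nat_lit 7) (nat_lit 5) (nat_lit 8) (nat_lit 5) (nat_lit 9) (nat_lit 4) (nat_lit 280) (nat_lit 237) (nat_lit 203)) (XT.nd (nat_lit 78) (nat_lit 0) (nat_lit 0) (XT.lf (nat_lit 0) (nat_lit 12441831985) (nat_lit 76) (nat_lit 4334433304) (nat_lit 152) (nat_lit 20119729082) (nat_lit 7) (nat_lit 5) (nat_lit 8) (nat_lit 5) (nat_lit 9) (nat_lit 4) (nat_lit 281) (nat_lit 237) (nat_lit 202)) (XT.lf (nat_lit 0) (nat_lit 22811723118) (nat_lit 152) (nat_lit 14906224403) (nat_lit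 0) (nat_lit 1795099103) (nat_lit 7) (nat_lit 5) (nat_lit 9) (nat_lit 4) (nat_lit 7) (nat_lit 4) (nat_lit 282) (nat_lit 237) (nat_lit 201))))) (XT.nd (nat_lit 156) (nat_lit 76) (nat_lit 0) (XT.nd (nat_lit 78) (nat_lit 76) (nat_lit 0) (XT.lf (nat_lit 0) (nat_lit 29347101613) (nat_lit 152) (nat_lit 4765123859) (nat_lit 0) (nat_lit 8226471111) (nat_lit 7) (nat_lit 5) (nat_lit 9) (nat_lit 4) (nat_lit 7) (nat_lit 4) (nat_lit 283) (nat_lit 237) (nat_lit 200)) (XT.lf (nat_lit 0) (nat_lit 6298498597) (nat_lit 76) (nat_lit 30153294911) (nat_lit 76) (nat_lit 8936362107) (nat_lit 6) (nat_lit 4) (nat_lit 7) (nat_lit 5) (nat_lit 7) (nat_lit 4) (nat_lit 284) (nat_lit 237) (nat_lit 199))) (XT.nd (nat_lit 78) (nat_lit 76) (nat_lit 0) (XT.lf (nat_lit 0) (nat_lit 18330941287) (nat_lit 76) (nat_lit 25827562376) (nat_lit 76) (nat_lit 4521460774) (nat_lit 6) (nat_lit 4) (nat_lit 7) (nat_lit 5) (nat_lit 7)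 (nat_lit 4) (nat_lit 285) (nat_lit 237) (nat_lit 198)) (XT.nd (nat_lit 78) (nat_lit 0) (nat_lit 0) (XT.lf (nat_lit 0) (nat_lit 192216192) (nat_lit 152) (nat_lit 20994622109) (nat_lit 76) (nat_lit 31050479595) (nat_lit 5) (nat_lit 5) (nat_lit 7) (nat_lit 5) (nat_lit 6) (nat_lit 4) (nat_lit 286) (nat_lit 237) (nat_lit 197)) (XT.lf (nat_lit 0) (nat_lit 5083618575) (nat_lit 152) (nat_lit 11043695097) (nat_lit 76) (nat_lit 39950349195) (nat_lit 5) (nat_lit 5) (nat_lit 7) (nat_lit 5) (nat_lit 6) (nat_lit 4) (nat_lit 287) (nat_lit 237) (nat_lit 196))))))))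
noncomputable def xc43 : XT := (XT.nd (nat_lit 1482) (nat_lit 76) (nat_lit 0) (XT.nd (nat_lit 702) (nat_lit 76) (nat_lit 0) (XT.nd (nat_lit 312) (nat_lit 76) (nat_lit 0) (XT.nd (nat_lit 156) (nat_lit 0) (nat_lit 0) (XT.nd (nat_lit 78) (nat_lit 76) (nat_lit 0) (XT.lf (nat_lit 0) (nat_lit 10326447443) (nat_lit 152) (nat_lit 366680986) (nat_lit 76) (nat_lit 49534158158) (nat_lit 5) (nat_lit 5) (nat_lit 7) (nat_lit 5) (nat_lit 6) (nat_lit 4) (nat_lit 288) (nat_lit 237) (nat_lit 195)) (XT.lf (nat_lit 0) (nat_lit 11466697345) (nat_lit 76) (nat_lit 4664101346) (nat_lit 152) (nat_lit 48571029360) (nat_lit 4) (nat_lit 5) (nat_lit 5) (nat_lit 5) (nat_lit 6) (nat_lit 4) (nat_lit 289) (nat_lit 237) (nat_lit 194))) (XT.nd (nat_lit 78) (nat_lit 0) (nat_lit 0) (XT.lf (nat_lit 0) (nat_lit 22399248681) (nat_lit 152) (nat_lit 45366493605) (nat_lit 0) (nat_lit 1768651767) (nat_lit 4) (nat_lit 5) (nat_lit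 6) (nat_lit 4) (nat_lit 4) (nat_lit 4) (nat_lit 290) (nat_lit 237) (nat_lit 193)) (XT.lf (nat_lit 0) (nat_lit 29214873517) (nat_lit 152) (nat_lit 37005691097) (nat_lit 0) (nat_lit 8530760919) (nat_lit 4) (nat_lit 5) (nat_lit 6) (nat_lit 4) (nat_lit 4) (nat_lit 4) (nat_lit 291) (nat_lit 237) (nat_lit 192)))) (XT.nd (nat_lit 156) (nat_lit 76) (nat_lit 0) (XT.nd (nat_lit 78) (nat_lit 0) (nat_lit 0) (XT.lf (nat_lit 0) (nat_lit 36545242396) (nat_lit 152) (nat_lit 28030357991) (nat_lit 0) (nat_lit 15811578239) (nat_lit 4) (nat_lit 5) (nat_lit 6) (nat_lit 4) (nat_lit 4) (nat_lit 4) (nat_lit 292) (nat_lit 237) (nat_lit 191)) (XT.lf (nat_lit 0) (nat_lit 44433794540) (nat_lit 152) (nat_lit 18387307130) (nat_lit 0) (nat_lit 23654249309) (nat_lit 4) (nat_lit 5) (nat_lit 6) (nat_lit 4) (nat_lit 4) (nat_lit 4) (nat_lit 293) (nat_lit 237) (nat_lit 190))) (XT.nd (nat_lit 78) (nat_lit 76) (nat_lit 0)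 (XT.lf (nat_lit 0) (nat_lit 52927276926) (nat_lit 152) (nat_lit 8019394507) (nat_lit 0) (nat_lit 32105249219) (nat_lit 4) (nat_lit 5) (nat_lit 6) (nat_lit 4) (nat_lit 4) (nat_lit 4) (nat_lit 294) (nat_lit 237) (nat_lit 189)) (XT.nd (nat_lit 78) (nat_lit 0) (nat_lit 0) (XT.lf (nat_lit 0) (nat_lit 3238470643) (nat_lit 76) (nat_lit 58888112258) (nat_lit 76) (nat_lit 38026748926) (nat_lit 3) (nat_lit 4) (nat_lit 4) (nat_lit 5) (nat_lit 4) (nat_lit 4) (nat_lit 295) (nat_lit 237) (nat_lit 188)) (XT.lf (nat_lit 0) (nat_lit 15642077685) (nat_lit 76) (nat_lit 56536381427) (nat_lit 76) (nat_lit 35638596219) (nat_lit 3) (nat_lit 4) (nat_lit 4) (nat_lit 5) (nat_lit 4) (nat_lit 4) (nat_lit 296) (nat_lit 237) (nat_lit 187)))))) (XT.nd (nat_lit 390) (nat_lit 76) (nat_lit 0) (XT.nd (nat_lit 156) (nat_lit 0) (nat_lit 0) (XT.nd (nat_lit 78) (nat_lit 0) (nat_lit 0) (XT.lf (nat_lit 0) (nat_lit 28999772075)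 (nat_lit 76) (nat_lit 54013355083) (nat_lit 76) (nat_lit 33081845916) (nat_lit 3) (nat_lit 4) (nat_lit 4) (nat_lit 5) (nat_lit 4) (nat_lit 4) (nat_lit 297) (nat_lit 237) (nat_lit 186)) (XT.lf (nat_lit 0) (nat_lit 43390710521) (nat_lit 76) (nat_lit 51304081959) (nat_lit 76) (nat_lit 30341346905) (nat_lit 3) (nat_lit 4) (nat_lit 4) (nat_lit 5) (nat_lit 4) (nat_lit 4) (nat_lit 298) (nat_lit 237) (nat_lit 185))) (XT.nd (nat_lit 78) (nat_lit 0) (nat_lit 0) (XT.lf (nat_lit 0) (nat_lit 58900172657) (nat_lit 76) (nat_lit 48392507104) (nat_lit 76) (nat_lit 27400859190) (nat_lit 3) (nat_lit 4) (nat_lit 4) (nat_lit 5) (nat_lit 4) (nat_lit 4) (nat_lit 299) (nat_lit 237) (nat_lit 184)) (XT.nd (nat_lit 78) (nat_lit 0) (nat_lit 0) (XT.lf (nat_lit 0) (nat_lit 75620066409) (nat_lit 76) (nat_lit 45261376739) (nat_lit 76) (nat_lit 24242957660) (nat_lit 3) (nat_lit 4) (nat_lit 4) (nat_lit 5) (nat_lit 4)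 (nat_lit 4) (nat_lit 300) (nat_lit 237) (nat_lit 183)) (XT.lf (nat_lit 0) (nat_lit 93649472626) (nat_lit 76) (nat_lit 41892136020) (nat_lit 76) (nat_lit 20848928824) (nat_lit 3) (nat_lit 4) (nat_lit 4) (nat_lit 5) (nat_lit 4) (nat_lit 4) (nat_lit 301) (nat_lit 237) (nat_lit 182))))) (XT.nd (nat_lit 156) (nat_lit 76) (nat_lit 0) (XT.nd (nat_lit 78) (nat_lit 0) (nat_lit 0) (XT.lf (nat_lit 0) (nat_lit 113095232236) (nat_lit 76) (nat_lit 38264819074) (nat_lit 76) (nat_lit 17198659919) (nat_lit 3) (nat_lit 4) (nat_lit 4) (nat_lit 5) (nat_lit 4) (nat_lit 4) (nat_lit 302) (nat_lit 237) (nat_lit 181)) (XT.lf (nat_lit 0) (nat_lit 134072579370) (nat_lit 76) (nat_lit 34357930691) (nat_lit 76) (nat_lit 13270519721) (nat_lit 3) (nat_lit 4) (nat_lit 4) (nat_lit 5) (nat_lit 4) (nat_lit 4) (nat_lit 303) (nat_lit 237) (nat_lit 180))) (XT.nd (nat_lit 78) (nat_lit 76) (nat_lit 0) (XT.lf (nat_lit 0) (nat_lit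 156705824231) (nat_lit 76) (nat_lit 30148318939) (nat_lit 76) (nat_lit 9041230363) (nat_lit 3) (nat_lit 4) (nat_lit 4) (nat_lit 5) (nat_lit 4) (nat_lit 4) (nat_lit 304) (nat_lit 237) (nat_lit 179)) (XT.nd (nat_lit 78) (nat_lit 76) (nat_lit 0) (XT.lf (nat_lit 0) (nat_lit 181129089754) (nat_lit 76) (nat_lit 25611037971) (nat_lit 76) (nat_lit 4485729389) (nat_lit 3) (nat_lit 4) (nat_lit 4) (nat_lit 5) (nat_lit 4) (nat_lit 4) (nat_lit 305) (nat_lit 237) (nat_lit 178)) (XT.lf (nat_lit 0) (nat_lit 409440799) (nat_lit 152) (nat_lit 20302825318) (nat_lit 76) (nat_lit 207070731523) (nat_lit 2) (nat_lit 5) (nat_lit 4) (nat_lit 5) (nat_lit 3) (nat_lit 4) (nat_lit 306) (nat_lit 237) (nat_lit 177))))))) (XT.nd (nat_lit 702) (nat_lit 0) (nat_lit 0) (XT.nd (nat_lit 312) (nat_lit 0) (nat_lit 0) (XT.nd (nat_lit 156) (nat_lit 0) (nat_lit 0) (XT.nd (nat_lit 78) (nat_lit 76) (nat_lit 0) (XT.lf (nat_lit 0)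 (nat_lit 5531099598) (nat_lit 152) (nat_lit 9819045498) (nat_lit 76) (nat_lit 230311298377) (nat_lit 2) (nat_lit 5) (nat_lit 4) (nat_lit 5) (nat_lit 3) (nat_lit 4) (nat_lit 307) (nat_lit 237) (nat_lit 176)) (XT.lf (nat_lit 0) (nat_lit 1535891116) (nat_lit 76) (nat_lit 9541257381) (nat_lit 152) (nat_lit 253892295227) (nat_lit 1) (nat_lit 5) (nat_lit 2) (nat_lit 5) (nat_lit 3) (nat_lit 4) (nat_lit 308) (nat_lit 237) (nat_lit 175))) (XT.nd (nat_lit 78) (nat_lit 0) (nat_lit 0) (XT.lf (nat_lit 0) (nat_lit 14133879831) (nat_lit 76) (nat_lit 3095161818) (nat_lit 152) (nat_lit 268584945085) (nat_lit 1) (nat_lit 5) (nat_lit 2) (nat_lit 5) (nat_lit 3) (nat_lit 4) (nat_lit 309) (nat_lit 237) (nat_lit 174)) (XT.lf (nat_lit 0) (nat_lit 23925129222) (nat_lit 152) (nat_lit 280661867109) (nat_lit 0) (nat_lit 3736504669) (nat_lit 1) (nat_lit 5) (nat_lit 3) (nat_lit 4) (nat_lit 1) (nat_lit 4) (nat_lit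 310) (nat_lit 237) (nat_lit 173)))) (XT.nd (nat_lit 156) (nat_lit 0) (nat_lit 0) (XT.nd (nat_lit 78) (nat_lit 0) (nat_lit 0) (XT.lf (nat_lit 0) (nat_lit 31201384782) (nat_lit 152) (nat_lit 290428351517) (nat_lit 0) (nat_lit 11001825282) (nat_lit 1) (nat_lit 5) (nat_lit 3) (nat_lit 4) (nat_lit 1) (nat_lit 4) (nat_lit 311) (nat_lit 237) (nat_lit 172)) (XT.lf (nat_lit 0) (nat_lit 39052602731) (nat_lit 152) (nat_lit 300989111440) (nat_lit 0) (nat_lit 18842918280) (nat_lit 1) (nat_lit 5) (nat_lit 3) (nat_lit 4) (nat_lit 1) (nat_lit 4) (nat_lit 312) (nat_lit 237) (nat_lit 171))) (XT.nd (nat_lit 78) (nat_lit 0) (nat_lit 0) (XT.lf (nat_lit 0) (nat_lit 47525308804) (nat_lit 152) (nat_lit 312406729161) (nat_lit 0) (nat_lit 27306249399) (nat_lit 1) (nat_lit 5) (nat_lit 3) (nat_lit 4) (nat_lit 1) (nat_lit 4) (nat_lit 313) (nat_lit 237) (nat_lit 170)) (XT.nd (nat_lit 78) (nat_lit 0) (nat_lit 0) (XT.lf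 (nat_lit 0) (nat_lit 56669711631) (nat_lit 152) (nat_lit 324748864636) (nat_lit 0) (nat_lit 36441971712) (nat_lit 1) (nat_lit 5) (nat_lit 3) (nat_lit 4) (nat_lit 1) (nat_lit 4) (nat_lit 314) (nat_lit 237) (nat_lit 169)) (XT.lf (nat_lit 0) (nat_lit 66540000265) (nat_lit 152) (nat_lit 338088656446) (nat_lit 0) (nat_lit 46304222834) (nat_lit 1) (nat_lit 5) (nat_lit 3) (nat_lit 4) (nat_lit 1) (nat_lit 4) (nat_lit 315) (nat_lit 237) (nat_lit 168)))))) (XT.nd (nat_lit 390) (nat_lit 0) (nat_lit 0) (XT.nd (nat_lit 156) (nat_lit 0) (nat_lit 0) (XT.nd (nat_lit 78) (nat_lit 0) (nat_lit 0) (XT.lf (nat_lit 0) (nat_lit 77194665306) (nat_lit 152) (nat_lit 352505155208) (nat_lit 0) (nat_lit 56951445734) (nat_lit 1) (nat_lit 5) (nat_lit 3) (nat_lit 4) (nat_lit 1) (nat_lit 4) (nat_lit 316) (nat_lit 237) (nat_lit 167)) (XT.lf (nat_lit 0) (nat_lit 88696845508) (nat_lit 152) (nat_lit 368083792026) (nat_lit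 0) (nat_lit 68446735065) (nat_lit 1) (nat_lit 5) (nat_lit 3) (nat_lit 4) (nat_lit 1) (nat_lit 4) (nat_lit 317) (nat_lit 237) (nat_lit 166))) (XT.nd (nat_lit 78) (nat_lit 0) (nat_lit 0) (XT.lf (nat_lit 0) (nat_lit 101114701941) (nat_lit 152) (nat_lit 384916884749) (nat_lit 0) (nat_lit 80858211062) (nat_lit 1) (nat_lit 5) (nat_lit 3) (nat_lit 4) (nat_lit 1) (nat_lit 4) (nat_lit 318) (nat_lit 237) (nat_lit 165)) (XT.nd (nat_lit 78) (nat_lit 0) (nat_lit 0) (XT.lf (nat_lit 0) (nat_lit 114521821902) (nat_lit 152) (nat_lit 403104185037) (nat_lit 0) (nat_lit 94259423211) (nat_lit 1) (nat_lit 5) (nat_lit 3) (nat_lit 4) (nat_lit 1) (nat_lit 4) (nat_lit 319) (nat_lit 237) (nat_lit 164)) (XT.lf (nat_lit 0) (nat_lit 128997654989) (nat_lit 152) (nat_lit 422753469483) (nat_lit 0) (nat_lit 108729786102) (nat_lit 1) (nat_lit 5) (nat_lit 3) (nat_lit 4) (nat_lit 1) (nat_lit 4) (nat_lit 320) (nat_lit 237)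 (nat_lit 163))))) (XT.nd (nat_lit 156) (nat_lit 0) (nat_lit 0) (XT.nd (nat_lit 78) (nat_lit 0) (nat_lit 0) (XT.lf (nat_lit 0) (nat_lit 144627983919) (nat_lit 152) (nat_lit 443981178293) (nat_lit 0) (nat_lit 124355050036) (nat_lit 1) (nat_lit 5) (nat_lit 3) (nat_lit 4) (nat_lit 1) (nat_lit 4) (nat_lit 321) (nat_lit 237) (nat_lit 162)) (XT.lf (nat_lit 0) (nat_lit 161505432862) (nat_lit 152) (nat_lit 466913105296) (nat_lit 0) (nat_lit 141227809168) (nat_lit 1) (nat_lit 5) (nat_lit 3) (nat_lit 4) (nat_lit 1) (nat_lit 4) (nat_lit 322) (nat_lit 237) (nat_lit 161))) (XT.nd (nat_lit 78) (nat_lit 0) (nat_lit 0) (XT.lf (nat_lit 0) (nat_lit 179730016330) (nat_lit 152) (nat_lit 491685143394) (nat_lit 0) (nat_lit 159448050218) (nat_lit 1) (nat_lit 5) (nat_lit 3) (nat_lit 4) (nat_lit 1) (nat_lit 4) (nat_lit 323) (nat_lit 237) (nat_lit 160)) (XT.nd (nat_lit 31278) (nat_lit 0) (nat_lit 7980) (XT.lf (nat_lit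 0) (nat_lit 199409731856) (nat_lit 152) (nat_lit 518444089848) (nat_lit 0) (nat_lit 179123744987) (nat_lit 1) (nat_lit 5) (nat_lit 3) (nat_lit 4) (nat_lit 1) (nat_lit 4) (nat_lit 324) (nat_lit 237) (nat_lit 159)) (XT.lf (nat_lit 0) (nat_lit 87659760) (nat_lit 228) (nat_lit 1598030226) (nat_lit 228) (nat_lit 1598030226) (nat_lit 106) (nat_lit 4) (nat_lit 109) (nat_lit 5) (nat_lit 109) (nat_lit 4) (nat_lit 244) (nat_lit 238) (nat_lit 238))))))))
noncomputable def xc44 : XT := (XT.nd (nat_lit 1404) (nat_lit 1596) (nat_lit 0) (XT.nd (nat_lit 702) (nat_lit 2280) (nat_lit 0) (XT.nd (nat_lit 312) (nat_lit 2280) (nat_lit 0) (XT.nd (nat_lit 156) (nat_lit 988) (nat_lit 0) (XT.nd (nat_lit 78) (nat_lit 304) (nat_lit 0) (XT.lf (nat_lit 0) (nat_lit 1214450393) (nat_lit 304) (nat_lit 892584339) (nat_lit 76) (nat_lit 4535169699) (nat_lit 105) (nat_lit 5) (nat_lit 109) (nat_lit 5) (nat_lit 106) (nat_lit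 4) (nat_lit 245) (nat_lit 238) (nat_lit 237)) (XT.lf (nat_lit 0) (nat_lit 4860934806) (nat_lit 304) (nat_lit 687756021) (nat_lit 380) (nat_lit 1190011637) (nat_lit 101) (nat_lit 5) (nat_lit 105) (nat_lit 5) (nat_lit 106) (nat_lit 4) (nat_lit 246) (nat_lit 238) (nat_lit 236))) (XT.nd (nat_lit 78) (nat_lit 532) (nat_lit 0) (XT.lf (nat_lit 0) (nat_lit 2996223906) (nat_lit 456) (nat_lit 2823054615) (nat_lit 76) (nat_lit 1037322946) (nat_lit 95) (nat_lit 5) (nat_lit 101) (nat_lit 5) (nat_lit 96) (nat_lit 4) (nat_lit 247) (nat_lit 238) (nat_lit 235)) (XT.lf (nat_lit 0) (nat_lit 214262149) (nat_lit 532) (nat_lit 3724334602) (nat_lit 76) (nat_lit 3059065804) (nat_lit 88) (nat_lit 5) (nat_lit 95) (nat_lit 5) (nat_lit 89) (nat_lit 5) (nat_lit 248) (nat_lit 238) (nat_lit 234)))) (XT.nd (nat_lit 156) (nat_lit 1064) (nat_lit 0) (XT.nd (nat_lit 78) (nat_lit 684) (nat_lit 0) (XT.lf (nat_lit 0) (nat_lit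 2527376487) (nat_lit 532) (nat_lit 1704875059) (nat_lit 608) (nat_lit 2928772813) (nat_lit 81) (nat_lit 5) (nat_lit 88) (nat_lit 5) (nat_lit 89) (nat_lit 5) (nat_lit 249) (nat_lit 238) (nat_lit 233)) (XT.lf (nat_lit 0) (nat_lit 977550739) (nat_lit 684) (nat_lit 5544750924) (nat_lit 76) (nat_lit 826645913) (nat_lit 72) (nat_lit 5) (nat_lit 81) (nat_lit 5) (nat_lit 73) (nat_lit 5) (nat_lit 250) (nat_lit 238) (nat_lit 232))) (XT.nd (nat_lit 78) (nat_lit 380) (nat_lit 0) (XT.lf (nat_lit 0) (nat_lit 1026262695) (nat_lit 684) (nat_lit 3890793055) (nat_lit 760) (nat_lit 2642763056) (nat_lit 63) (nat_lit 5) (nat_lit 72) (nat_lit 5) (nat_lit 73) (nat_lit 5) (nat_lit 251) (nat_lit 238) (nat_lit 231)) (XT.nd (nat_lit 78) (nat_lit 0) (nat_lit 0) (XT.lf (nat_lit 0) (nat_lit 222488769) (nat_lit 304) (nat_lit 926169212) (nat_lit 380) (nat_lit 6648685593) (nat_lit 58) (nat_lit 5) (nat_lit 62) (nat_lit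 5) (nat_lit 63) (nat_lit 5) (nat_lit 252) (nat_lit 238) (nat_lit 230)) (XT.lf (nat_lit 0) (nat_lit 5027446177) (nat_lit 380) (nat_lit 679268236) (nat_lit 76) (nat_lit 2352365234) (nat_lit 58) (nat_lit 5) (nat_lit 63) (nat_lit 5) (nat_lit 59) (nat_lit 5) (nat_lit 253) (nat_lit 238) (nat_lit 229)))))) (XT.nd (nat_lit 312) (nat_lit 988) (nat_lit 0) (XT.nd (nat_lit 156) (nat_lit 608) (nat_lit 0) (XT.nd (nat_lit 78) (nat_lit 304) (nat_lit 0) (XT.lf (nat_lit 0) (nat_lit 708136587) (nat_lit 380) (nat_lit 1673809540) (nat_lit 76) (nat_lit 5967122943) (nat_lit 53) (nat_lit 5) (nat_lit 58) (nat_lit 5) (nat_lit 54) (nat_lit 5) (nat_lit 254) (nat_lit 238) (nat_lit 228)) (XT.lf (nat_lit 0) (nat_lit 4520860251) (nat_lit 380) (nat_lit 2848485468) (nat_lit 76) (nat_lit 1297413782) (nat_lit 49) (nat_lit 5) (nat_lit 54) (nat_lit 5) (nat_lit 50) (nat_lit 5) (nat_lit 255) (nat_lit 238) (nat_lit 227))) (XT.nd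 (nat_lit 78) (nat_lit 304) (nat_lit 0) (XT.lf (nat_lit 0) (nat_lit 4797924753) (nat_lit 304) (nat_lit 3753373258) (nat_lit 380) (nat_lit 463845384) (nat_lit 45) (nat_lit 5) (nat_lit 49) (nat_lit 5) (nat_lit 50) (nat_lit 5) (nat_lit 256) (nat_lit 238) (nat_lit 226)) (XT.lf (nat_lit 0) (nat_lit 3287159799) (nat_lit 304) (nat_lit 5844888568) (nat_lit 76) (nat_lit 263071688) (nat_lit 41) (nat_lit 5) (nat_lit 45) (nat_lit 5) (nat_lit 42) (nat_lit 5) (nat_lit 257) (nat_lit 238) (nat_lit 225)))) (XT.nd (nat_lit 156) (nat_lit 456) (nat_lit 0) (XT.nd (nat_lit 78) (nat_lit 304) (nat_lit 0) (XT.lf (nat_lit 0) (nat_lit 2008873870) (nat_lit 228) (nat_lit 5271004822) (nat_lit 304) (nat_lit 2528087254) (nat_lit 38) (nat_lit 5) (nat_lit 41) (nat_lit 5) (nat_lit 42) (nat_lit 5) (nat_lit 258) (nat_lit 238) (nat_lit 224)) (XT.lf (nat_lit 0) (nat_lit 167108731) (nat_lit 228) (nat_lit 1030361803) (nat_lit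 304) (nat_lit 9060875509) (nat_lit 34) (nat_lit 5) (nat_lit 37) (nat_lit 5) (nat_lit 38) (nat_lit 5) (nat_lit 259) (nat_lit 238) (nat_lit 223))) (XT.nd (nat_lit 78) (nat_lit 456) (nat_lit 0) (XT.lf (nat_lit 0) (nat_lit 5133375186) (nat_lit 304) (nat_lit 2053408939) (nat_lit 76) (nat_lit 3556465233) (nat_lit 34) (nat_lit 5) (nat_lit 38) (nat_lit 5) (nat_lit 35) (nat_lit 5) (nat_lit 260) (nat_lit 238) (nat_lit 222)) (XT.nd (nat_lit 78) (nat_lit 228) (nat_lit 0) (XT.lf (nat_lit 0) (nat_lit 6575835693) (nat_lit 228) (nat_lit 2748903400) (nat_lit 304) (nat_lit 1945740128) (nat_lit 31) (nat_lit 5) (nat_lit 34) (nat_lit 5) (nat_lit 35) (nat_lit 5) (nat_lit 261) (nat_lit 238) (nat_lit 221)) (XT.lf (nat_lit 0) (nat_lit 1905620446) (nat_lit 228) (nat_lit 7889594501) (nat_lit 76) (nat_lit 2045675418) (nat_lit 28) (nat_lit 5) (nat_lit 31) (nat_lit 5) (nat_lit 29) (nat_lit 5) (nat_lit 262) (nat_lit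 238) (nat_lit 220))))))) (XT.nd (nat_lit 702) (nat_lit 532) (nat_lit 0) (XT.nd (nat_lit 312) (nat_lit 456) (nat_lit 0) (XT.nd (nat_lit 156) (nat_lit 380) (nat_lit 0) (XT.nd (nat_lit 78) (nat_lit 0) (nat_lit 0) (XT.lf (nat_lit 0) (nat_lit 708410685) (nat_lit 228) (nat_lit 5265050553) (nat_lit 304) (nat_lit 6483511470) (nat_lit 25) (nat_lit 5) (nat_lit 28) (nat_lit 5) (nat_lit 29) (nat_lit 5) (nat_lit 263) (nat_lit 238) (nat_lit 219)) (XT.lf (nat_lit 0) (nat_lit 10048840272) (nat_lit 228) (nat_lit 299088269) (nat_lit 304) (nat_lit 2775779257) (nat_lit 25) (nat_lit 5) (nat_lit 28) (nat_lit 5) (nat_lit 29) (nat_lit 5) (nat_lit 264) (nat_lit 238) (nat_lit 218))) (XT.nd (nat_lit 78) (nat_lit 152) (nat_lit 0) (XT.lf (nat_lit 0) (nat_lit 1219463311) (nat_lit 228) (nat_lit 7667331212) (nat_lit 76) (nat_lit 4954893178) (nat_lit 22) (nat_lit 5) (nat_lit 25) (nat_lit 5) (nat_lit 23) (nat_lit 5) (nat_lit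 265) (nat_lit 238) (nat_lit 217)) (XT.lf (nat_lit 0) (nat_lit 1439746365) (nat_lit 152) (nat_lit 3939840050) (nat_lit 228) (nat_lit 9238466739) (nat_lit 20) (nat_lit 5) (nat_lit 22) (nat_lit 5) (nat_lit 23) (nat_lit 5) (nat_lit 266) (nat_lit 238) (nat_lit 216)))) (XT.nd (nat_lit 156) (nat_lit 304) (nat_lit 0) (XT.nd (nat_lit 78) (nat_lit 152) (nat_lit 0) (XT.lf (nat_lit 0) (nat_lit 9895583617) (nat_lit 228) (nat_lit 4133928410) (nat_lit 76) (nat_lit 1426184764) (nat_lit 20) (nat_lit 5) (nat_lit 23) (nat_lit 5) (nat_lit 21) (nat_lit 4) (nat_lit 267) (nat_lit 238) (nat_lit 215)) (XT.lf (nat_lit 0) (nat_lit 5551572337) (nat_lit 152) (nat_lit 9249778273) (nat_lit 228) (nat_lit 1557875104) (nat_lit 18) (nat_lit 5) (nat_lit 20) (nat_lit 5) (nat_lit 21) (nat_lit 4) (nat_lit 268) (nat_lit 238) (nat_lit 214))) (XT.nd (nat_lit 78) (nat_lit 228) (nat_lit 0) (XT.lf (nat_lit 0) (nat_lit 2628763930)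 (nat_lit 228) (nat_lit 1405754543) (nat_lit 76) (nat_lit 13300988186) (nat_lit 17) (nat_lit 5) (nat_lit 20) (nat_lit 5) (nat_lit 18) (nat_lit 5) (nat_lit 269) (nat_lit 238) (nat_lit 213)) (XT.nd (nat_lit 78) (nat_lit 76) (nat_lit 0) (XT.lf (nat_lit 0) (nat_lit 7149410938) (nat_lit 228) (nat_lit 9585003874) (nat_lit 76) (nat_lit 1651759024) (nat_lit 15) (nat_lit 5) (nat_lit 18) (nat_lit 5) (nat_lit 16) (nat_lit 4) (nat_lit 270) (nat_lit 238) (nat_lit 212)) (XT.lf (nat_lit 0) (nat_lit 118126700) (nat_lit 76) (nat_lit 11901460382) (nat_lit 152) (nat_lit 7502138955) (nat_lit 14) (nat_lit 5) (nat_lit 15) (nat_lit 5) (nat_lit 16) (nat_lit 4) (nat_lit 271) (nat_lit 238) (nat_lit 211)))))) (XT.nd (nat_lit 390) (nat_lit 228) (nat_lit 0) (XT.nd (nat_lit 156) (nat_lit 76) (nat_lit 0) (XT.nd (nat_lit 78) (nat_lit 228) (nat_lit 0) (XT.lf (nat_lit 0) (nat_lit 10774876683) (nat_lit 76) (nat_lit 6569922912)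 (nat_lit 152) (nat_lit 3400260522) (nat_lit 14) (nat_lit 5) (nat_lit 15) (nat_lit 5) (nat_lit 16) (nat_lit 4) (nat_lit 272) (nat_lit 238) (nat_lit 210)) (XT.lf (nat_lit 0) (nat_lit 47299004) (nat_lit 152) (nat_lit 854499502) (nat_lit 228) (nat_lit 21168593213) (nat_lit 11) (nat_lit 5) (nat_lit 13) (nat_lit 5) (nat_lit 14) (nat_lit 5) (nat_lit 273) (nat_lit 238) (nat_lit 209))) (XT.nd (nat_lit 78) (nat_lit 76) (nat_lit 0) (XT.lf (nat_lit 0) (nat_lit 5598142120) (nat_lit 228) (nat_lit 12567138751) (nat_lit 76) (nat_lit 5325389959) (nat_lit 11) (nat_lit 5) (nat_lit 14) (nat_lit 5) (nat_lit 12) (nat_lit 4) (nat_lit 274) (nat_lit 238) (nat_lit 208)) (XT.nd (nat_lit 78) (nat_lit 76) (nat_lit 0) (XT.lf (nat_lit 0) (nat_lit 10599511988) (nat_lit 228) (nat_lit 2510849868) (nat_lit 76) (nat_lit 11917902347) (nat_lit 11) (nat_lit 5) (nat_lit 14) (nat_lit 5) (nat_lit 12) (nat_lit 4) (nat_lit 275)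 (nat_lit 238) (nat_lit 207)) (XT.lf (nat_lit 0) (nat_lit 8490455489) (nat_lit 76) (nat_lit 7564309043) (nat_lit 152) (nat_lit 10631558035) (nat_lit 10) (nat_lit 5) (nat_lit 11) (nat_lit 5) (nat_lit 12) (nat_lit 4) (nat_lit 276) (nat_lit 238) (nat_lit 206))))) (XT.nd (nat_lit 156) (nat_lit 152) (nat_lit 0) (XT.nd (nat_lit 78) (nat_lit 76) (nat_lit 0) (XT.lf (nat_lit 0) (nat_lit 20335995957) (nat_lit 76) (nat_lit 1579268153) (nat_lit 152) (nat_lit 6563455499) (nat_lit 10) (nat_lit 5) (nat_lit 11) (nat_lit 5) (nat_lit 12) (nat_lit 4) (nat_lit 277) (nat_lit 238) (nat_lit 205)) (XT.lf (nat_lit 0) (nat_lit 2602615282) (nat_lit 76) (nat_lit 25688791001) (nat_lit 76) (nat_lit 2120887322) (nat_lit 9) (nat_lit 4) (nat_lit 10) (nat_lit 5) (nat_lit 10) (nat_lit 4) (nat_lit 278) (nat_lit 238) (nat_lit 204))) (XT.nd (nat_lit 78) (nat_lit 76) (nat_lit 0) (XT.lf (nat_lit 0) (nat_lit 2694313101) (nat_lit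 152) (nat_lit 18182130950) (nat_lit 76) (nat_lit 11616984628) (nat_lit 8) (nat_lit 5) (nat_lit 10) (nat_lit 5) (nat_lit 9) (nat_lit 4) (nat_lit 279) (nat_lit 238) (nat_lit 203)) (XT.nd (nat_lit 78) (nat_lit 76) (nat_lit 0) (XT.lf (nat_lit 0) (nat_lit 7758560603) (nat_lit 152) (nat_lit 7927802395) (nat_lit 76) (nat_lit 19056148629) (nat_lit 8) (nat_lit 5) (nat_lit 10) (nat_lit 5) (nat_lit 9) (nat_lit 4) (nat_lit 280) (nat_lit 238) (nat_lit 202)) (XT.lf (nat_lit 0) (nat_lit 3147940484) (nat_lit 76) (nat_lit 10070954868) (nat_lit 152) (nat_lit 23953173233) (nat_lit 7) (nat_lit 5) (nat_lit 8) (nat_lit 5) (nat_lit 9) (nat_lit 4) (nat_lit 281) (nat_lit 238) (nat_lit 201))))))))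
noncomputable def xc45 : XT := (XT.nd (nat_lit 1404) (nat_lit 152) (nat_lit 0) (XT.nd (nat_lit 702) (nat_lit 76) (nat_lit 0) (XT.nd (nat_lit 312) (nat_lit 152) (nat_lit 0) (XT.nd (nat_lit 156) (nat_lit 76) (nat_lit 0) (XT.nd (nat_lit 78) (nat_lit 0) (nat_lit 0) (XT.lf (nat_lit 0) (nat_lit 15297488565) (nat_lit 76) (nat_lit 3901287222) (nat_lit 152) (nat_lit 20593166097) (nat_lit 7) (nat_lit 5) (nat_lit 8) (nat_lit 5) (nat_lit 9) (nat_lit 4) (nat_lit 282) (nat_lit 238) (nat_lit 200)) (XT.lf (nat_lit 0) (nat_lit 25648314403) (nat_lit 152) (nat_lit 14335883817) (nat_lit 0) (nat_lit 2637724672) (nat_lit 7) (nat_lit 5) (nat_lit 9) (nat_lit 4) (nat_lit 7) (nat_lit 4) (nat_lit 283) (nat_lit 238) (nat_lit 199))) (XT.nd (nat_lit 78) (nat_lit 76) (nat_lit 0) (XT.lf (nat_lit 0) (nat_lit 32631585886) (nat_lit 152) (nat_lit 3514075862) (nat_lit 0) (nat_lit 9531827357) (nat_lit 7) (nat_lit 5) (nat_lit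 9) (nat_lit 4) (nat_lit 7) (nat_lit 4) (nat_lit 284) (nat_lit 238) (nat_lit 198)) (XT.lf (nat_lit 0) (nat_lit 8363700451) (nat_lit 76) (nat_lit 31895942912) (nat_lit 76) (nat_lit 8713620681) (nat_lit 6) (nat_lit 4) (nat_lit 7) (nat_lit 5) (nat_lit 7) (nat_lit 4) (nat_lit 285) (nat_lit 238) (nat_lit 197)))) (XT.nd (nat_lit 156) (nat_lit 76) (nat_lit 0) (XT.nd (nat_lit 78) (nat_lit 76) (nat_lit 0) (XT.lf (nat_lit 0) (nat_lit 21243085078) (nat_lit 76) (nat_lit 27273752930) (nat_lit 76) (nat_lit 4014982826) (nat_lit 6) (nat_lit 4) (nat_lit 7) (nat_lit 5) (nat_lit 7) (nat_lit 4) (nat_lit 286) (nat_lit 238) (nat_lit 196)) (XT.lf (nat_lit 0) (nat_lit 985748260) (nat_lit 152) (nat_lit 21308771236) (nat_lit 76) (nat_lit 34081766695) (nat_lit 5) (nat_lit 5) (nat_lit 7) (nat_lit 5) (nat_lit 6) (nat_lit 4) (nat_lit 287) (nat_lit 238) (nat_lit 195))) (XT.nd (nat_lit 78) (nat_lit 76) (nat_lit 0) (XT.lf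 (nat_lit 0) (nat_lit 6210821739) (nat_lit 152) (nat_lit 10662912333) (nat_lit 76) (nat_lit 43653088920) (nat_lit 5) (nat_lit 5) (nat_lit 7) (nat_lit 5) (nat_lit 6) (nat_lit 4) (nat_lit 288) (nat_lit 238) (nat_lit 194)) (XT.nd (nat_lit 78) (nat_lit 0) (nat_lit 0) (XT.lf (nat_lit 0) (nat_lit 800224849) (nat_lit 76) (nat_lit 11031974436) (nat_lit 152) (nat_lit 53178337297) (nat_lit 4) (nat_lit 5) (nat_lit 5) (nat_lit 5) (nat_lit 6) (nat_lit 4) (nat_lit 289) (nat_lit 238) (nat_lit 193)) (XT.lf (nat_lit 0) (nat_lit 13503787184) (nat_lit 76) (nat_lit 4552682249) (nat_lit 152) (nat_lit 51788863845) (nat_lit 4) (nat_lit 5) (nat_lit 5) (nat_lit 5) (nat_lit 6) (nat_lit 4) (nat_lit 290) (nat_lit 238) (nat_lit 192)))))) (XT.nd (nat_lit 312) (nat_lit 76) (nat_lit 0) (XT.nd (nat_lit 156) (nat_lit 0) (nat_lit 0) (XT.nd (nat_lit 78) (nat_lit 0) (nat_lit 0) (XT.lf (nat_lit 0) (nat_lit 24786347821) (nat_lit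 152) (nat_lit 47935785382) (nat_lit 0) (nat_lit 2344438972) (nat_lit 4) (nat_lit 5) (nat_lit 6) (nat_lit 4) (nat_lit 4) (nat_lit 4) (nat_lit 291) (nat_lit 238) (nat_lit 191)) (XT.lf (nat_lit 0) (nat_lit 32103136775) (nat_lit 152) (nat_lit 38984639244) (nat_lit 0) (nat_lit 9615346851) (nat_lit 4) (nat_lit 5) (nat_lit 6) (nat_lit 4) (nat_lit 4) (nat_lit 4) (nat_lit 292) (nat_lit 238) (nat_lit 190))) (XT.nd (nat_lit 78) (nat_lit 0) (nat_lit 0) (XT.lf (nat_lit 0) (nat_lit 39979114914) (nat_lit 152) (nat_lit 29363983723) (nat_lit 0) (nat_lit 17448842515) (nat_lit 4) (nat_lit 5) (nat_lit 6) (nat_lit 4) (nat_lit 4) (nat_lit 4) (nat_lit 293) (nat_lit 238) (nat_lit 189)) (XT.lf (nat_lit 0) (nat_lit 48460954702) (nat_lit 152) (nat_lit 19016807526) (nat_lit 0) (nat_lit 25891346677) (nat_lit 4) (nat_lit 5) (nat_lit 6) (nat_lit 4) (nat_lit 4) (nat_lit 4) (nat_lit 294) (nat_lit 238) (nat_lit 188))))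 (XT.nd (nat_lit 156) (nat_lit 0) (nat_lit 0) (XT.nd (nat_lit 78) (nat_lit 76) (nat_lit 0) (XT.lf (nat_lit 0) (nat_lit 57598918893) (nat_lit 152) (nat_lit 7881794055) (nat_lit 0) (nat_lit 34992888993) (nat_lit 4) (nat_lit 5) (nat_lit 6) (nat_lit 4) (nat_lit 4) (nat_lit 4) (nat_lit 295) (nat_lit 238) (nat_lit 187)) (XT.lf (nat_lit 0) (nat_lit 4242839310) (nat_lit 76) (nat_lit 63270561687) (nat_lit 76) (nat_lit 40630807828) (nat_lit 3) (nat_lit 4) (nat_lit 4) (nat_lit 5) (nat_lit 4) (nat_lit 4) (nat_lit 296) (nat_lit 238) (nat_lit 186))) (XT.nd (nat_lit 78) (nat_lit 0) (nat_lit 0) (XT.lf (nat_lit 0) (nat_lit 17583528174) (nat_lit 76) (nat_lit 60755033096) (nat_lit 76) (nat_lit 38084053350) (nat_lit 3) (nat_lit 4) (nat_lit 4) (nat_lit 5) (nat_lit 4) (nat_lit 4) (nat_lit 297) (nat_lit 238) (nat_lit 185)) (XT.nd (nat_lit 78) (nat_lit 0) (nat_lit 0) (XT.lf (nat_lit 0) (nat_lit 31958720761) (nat_lit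 76) (nat_lit 58052702337) (nat_lit 76) (nat_lit 35352809731) (nat_lit 3) (nat_lit 4) (nat_lit 4) (nat_lit 5) (nat_lit 4) (nat_lit 4) (nat_lit 298) (nat_lit 238) (nat_lit 184)) (XT.lf (nat_lit 0) (nat_lit 47453603400) (nat_lit 76) (nat_lit 55147555597) (nat_lit 76) (nat_lit 32420891825) (nat_lit 3) (nat_lit 4) (nat_lit 4) (nat_lit 5) (nat_lit 4) (nat_lit 4) (nat_lit 299) (nat_lit 238) (nat_lit 183))))))) (XT.nd (nat_lit 702) (nat_lit 76) (nat_lit 0) (XT.nd (nat_lit 312) (nat_lit 76) (nat_lit 0) (XT.nd (nat_lit 156) (nat_lit 0) (nat_lit 0) (XT.nd (nat_lit 78) (nat_lit 0) (nat_lit 0) (XT.lf (nat_lit 0) (nat_lit 64159997616) (nat_lit 76) (nat_lit 52022377191) (nat_lit 76) (nat_lit 29270925303) (nat_lit 3) (nat_lit 4) (nat_lit 4) (nat_lit 5) (nat_lit 4) (nat_lit 4) (nat_lit 300) (nat_lit 238) (nat_lit 182)) (XT.lf (nat_lit 0) (nat_lit 82176904264) (nat_lit 76) (nat_lit 48658647545) (nat_lit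 76) (nat_lit 25884243697) (nat_lit 3) (nat_lit 4) (nat_lit 4) (nat_lit 5) (nat_lit 4) (nat_lit 4) (nat_lit 301) (nat_lit 238) (nat_lit 181))) (XT.nd (nat_lit 78) (nat_lit 0) (nat_lit 0) (XT.lf (nat_lit 0) (nat_lit 101611090198) (nat_lit 76) (nat_lit 45036433444) (nat_lit 76) (nat_lit 22240777782) (nat_lit 3) (nat_lit 4) (nat_lit 4) (nat_lit 5) (nat_lit 4) (nat_lit 4) (nat_lit 302) (nat_lit 238) (nat_lit 180)) (XT.lf (nat_lit 0) (nat_lit 122577720965) (nat_lit 76) (nat_lit 41134269918) (nat_lit 76) (nat_lit 18318936650) (nat_lit 3) (nat_lit 4) (nat_lit 4) (nat_lit 5) (nat_lit 4) (nat_lit 4) (nat_lit 303) (nat_lit 238) (nat_lit 179)))) (XT.nd (nat_lit 156) (nat_lit 76) (nat_lit 0) (XT.nd (nat_lit 78) (nat_lit 0) (nat_lit 0) (XT.lf (nat_lit 0) (nat_lit 145201043265) (nat_lit 76) (nat_lit 36929033033) (nat_lit 76) (nat_lit 14095479759) (nat_lit 3) (nat_lit 4) (nat_lit 4) (nat_lit 5) (nat_lit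 4) (nat_lit 4) (nat_lit 304) (nat_lit 238) (nat_lit 178)) (XT.lf (nat_lit 0) (nat_lit 169615121231) (nat_lit 76) (nat_lit 32395802868) (nat_lit 76) (nat_lit 9545379218) (nat_lit 3) (nat_lit 4) (nat_lit 4) (nat_lit 5) (nat_lit 4) (nat_lit 4) (nat_lit 305) (nat_lit 238) (nat_lit 177))) (XT.nd (nat_lit 78) (nat_lit 76) (nat_lit 0) (XT.lf (nat_lit 0) (nat_lit 195964630880) (nat_lit 76) (nat_lit 27507715836) (nat_lit 76) (nat_lit 4641671468) (nat_lit 3) (nat_lit 4) (nat_lit 4) (nat_lit 5) (nat_lit 4) (nat_lit 4) (nat_lit 306) (nat_lit 238) (nat_lit 176)) (XT.nd (nat_lit 78) (nat_lit 0) (nat_lit 0) (XT.lf (nat_lit 0) (nat_lit 624067993) (nat_lit 152) (nat_lit 21601168609) (nat_lit 76) (nat_lit 223771080568) (nat_lit 2) (nat_lit 5) (nat_lit 4) (nat_lit 5) (nat_lit 3) (nat_lit 4) (nat_lit 307) (nat_lit 238) (nat_lit 175)) (XT.lf (nat_lit 0) (nat_lit 6141987501) (nat_lit 152) (nat_lit 10302825865)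 (nat_lit 76) (nat_lit 248860915695) (nat_lit 2) (nat_lit 5) (nat_lit 4) (nat_lit 5) (nat_lit 3) (nat_lit 4) (nat_lit 308) (nat_lit 238) (nat_lit 174)))))) (XT.nd (nat_lit 390) (nat_lit 0) (nat_lit 0) (XT.nd (nat_lit 156) (nat_lit 0) (nat_lit 0) (XT.nd (nat_lit 78) (nat_lit 0) (nat_lit 0) (XT.lf (nat_lit 0) (nat_lit 1947392283) (nat_lit 76) (nat_lit 10176360280) (nat_lit 152) (nat_lit 274035030703) (nat_lit 1) (nat_lit 5) (nat_lit 2) (nat_lit 5) (nat_lit 3) (nat_lit 4) (nat_lit 309) (nat_lit 238) (nat_lit 173)) (XT.lf (nat_lit 0) (nat_lit 15531840104) (nat_lit 76) (nat_lit 3224073198) (nat_lit 152) (nat_lit 289915585005) (nat_lit 1) (nat_lit 5) (nat_lit 2) (nat_lit 5) (nat_lit 3) (nat_lit 4) (nat_lit 310) (nat_lit 238) (nat_lit 172))) (XT.nd (nat_lit 78) (nat_lit 0) (nat_lit 0) (XT.lf (nat_lit 0) (nat_lit 25978400287) (nat_lit 152) (nat_lit 302862035007) (nat_lit 0) (nat_lit 4141816129)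 (nat_lit 1) (nat_lit 5) (nat_lit 3) (nat_lit 4) (nat_lit 1) (nat_lit 4) (nat_lit 311) (nat_lit 238) (nat_lit 171)) (XT.nd (nat_lit 78) (nat_lit 0) (nat_lit 0) (XT.lf (nat_lit 0) (nat_lit 33826440682) (nat_lit 152) (nat_lit 313428562720) (nat_lit 0) (nat_lit 11980481570) (nat_lit 1) (nat_lit 5) (nat_lit 3) (nat_lit 4) (nat_lit 1) (nat_lit 4) (nat_lit 312) (nat_lit 238) (nat_lit 170)) (XT.lf (nat_lit 0) (nat_lit 42296204577) (nat_lit 152) (nat_lit 324851520988) (nat_lit 0) (nat_lit 20441564951) (nat_lit 1) (nat_lit 5) (nat_lit 3) (nat_lit 4) (nat_lit 1) (nat_lit 4) (nat_lit 313) (nat_lit 238) (nat_lit 169))))) (XT.nd (nat_lit 156) (nat_lit 0) (nat_lit 0) (XT.nd (nat_lit 78) (nat_lit 0) (nat_lit 0) (XT.lf (nat_lit 0) (nat_lit 51437883164) (nat_lit 152) (nat_lit 337198601413) (nat_lit 0) (nat_lit 29575206026) (nat_lit 1) (nat_lit 5) (nat_lit 3) (nat_lit 4) (nat_lit 1) (nat_lit 4) (nat_lit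 314) (nat_lit 238) (nat_lit 168)) (XT.lf (nat_lit 0) (nat_lit 61305649353) (nat_lit 152) (nat_lit 350542971880) (nat_lit 0) (nat_lit 39435530075) (nat_lit 1) (nat_lit 5) (nat_lit 3) (nat_lit 4) (nat_lit 1) (nat_lit 4) (nat_lit 315) (nat_lit 238) (nat_lit 167))) (XT.nd (nat_lit 78) (nat_lit 0) (nat_lit 0) (XT.lf (nat_lit 0) (nat_lit 71957978797) (nat_lit 152) (nat_lit 364963710140) (nat_lit 0) (nat_lit 50080968647) (nat_lit 1) (nat_lit 5) (nat_lit 3) (nat_lit 4) (nat_lit 1) (nat_lit 4) (nat_lit 316) (nat_lit 238) (nat_lit 166)) (XT.nd (nat_lit 78) (nat_lit 0) (nat_lit 0) (XT.lf (nat_lit 0) (nat_lit 83457996411) (nat_lit 152) (nat_lit 380546272419) (nat_lit 0) (nat_lit 61574605824) (nat_lit 1) (nat_lit 5) (nat_lit 3) (nat_lit 4) (nat_lit 1) (nat_lit 4) (nat_lit 317) (nat_lit 238) (nat_lit 165)) (XT.lf (nat_lit 0) (nat_lit 95873850446) (nat_lit 152) (nat_lit 397382999828) (nat_lit 0) (nat_lit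 73984552048) (nat_lit 1) (nat_lit 5) (nat_lit 3) (nat_lit 4) (nat_lit 1) (nat_lit 4) (nat_lit 318) (nat_lit 238) (nat_lit 164))))))))
noncomputable def xc46 : XT := (XT.nd (nat_lit 32526) (nat_lit 0) (nat_lit 988) (XT.nd (nat_lit 31824) (nat_lit 0) (nat_lit 3952) (XT.nd (nat_lit 312) (nat_lit 0) (nat_lit 0) (XT.nd (nat_lit 156) (nat_lit 0) (nat_lit 0) (XT.nd (nat_lit 78) (nat_lit 0) (nat_lit 0) (XT.lf (nat_lit 0) (nat_lit 109279116334) (nat_lit 152) (nat_lit 415573665566) (nat_lit 0) (nat_lit 87384347741) (nat_lit 1) (nat_lit 5) (nat_lit 3) (nat_lit 4) (nat_lit 1) (nat_lit 4) (nat_lit 319) (nat_lit 238) (nat_lit 163)) (XT.lf (nat_lit 0) (nat_lit 123753232689) (nat_lit 152) (nat_lit 435226066170) (nat_lit 0) (nat_lit 101853399099) (nat_lit 1) (nat_lit 5) (nat_lit 3) (nat_lit 4) (nat_lit 1) (nat_lit 4) (nat_lit 320) (nat_lit 238) (nat_lit 162))) (XT.nd (nat_lit 78) (nat_lit 0) (nat_lit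 0) (XT.lf (nat_lit 0) (nat_lit 139381972051) (nat_lit 152) (nat_lit 456456660311) (nat_lit 0) (nat_lit 117477448649) (nat_lit 1) (nat_lit 5) (nat_lit 3) (nat_lit 4) (nat_lit 1) (nat_lit 4) (nat_lit 321) (nat_lit 238) (nat_lit 161)) (XT.lf (nat_lit 0) (nat_lit 156257949171) (nat_lit 152) (nat_lit 479391258917) (nat_lit 0) (nat_lit 134349083352) (nat_lit 1) (nat_lit 5) (nat_lit 3) (nat_lit 4) (nat_lit 1) (nat_lit 4) (nat_lit 322) (nat_lit 238) (nat_lit 160)))) (XT.nd (nat_lit 31278) (nat_lit 0) (nat_lit 7904) (XT.nd (nat_lit 31200) (nat_lit 0) (nat_lit 8436) (XT.lf (nat_lit 0) (nat_lit 174481169842) (nat_lit 152) (nat_lit 504165770720) (nat_lit 0) (nat_lit 152568283265) (nat_lit 1) (nat_lit 5) (nat_lit 3) (nat_lit 4) (nat_lit 1) (nat_lit 4) (nat_lit 323) (nat_lit 238) (nat_lit 159)) (XT.lf (nat_lit 0) (nat_lit 1438327510) (nat_lit 76) (nat_lit 898849381) (nat_lit 76) (nat_lit 898849381)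 (nat_lit 112) (nat_lit 4) (nat_lit 113) (nat_lit 5) (nat_lit 113) (nat_lit 4) (nat_lit 242) (nat_lit 239) (nat_lit 239))) (XT.nd (nat_lit 78) (nat_lit 304) (nat_lit 0) (XT.lf (nat_lit 0) (nat_lit 1387775314) (nat_lit 152) (nat_lit 1160126531) (nat_lit 228) (nat_lit 3966304501) (nat_lit 109) (nat_lit 5) (nat_lit 111) (nat_lit 5) (nat_lit 112) (nat_lit 4) (nat_lit 243) (nat_lit 239) (nat_lit 238)) (XT.nd (nat_lit 78) (nat_lit 0) (nat_lit 0) (XT.lf (nat_lit 0) (nat_lit 26504611) (nat_lit 228) (nat_lit 214093380) (nat_lit 304) (nat_lit 6337867559) (nat_lit 105) (nat_lit 5) (nat_lit 108) (nat_lit 5) (nat_lit 109) (nat_lit 5) (nat_lit 244) (nat_lit 239) (nat_lit 237)) (XT.lf (nat_lit 0) (nat_lit 4355796054) (nat_lit 304) (nat_lit 1237283737) (nat_lit 76) (nat_lit 1068515249) (nat_lit 105) (nat_lit 5) (nat_lit 109) (nat_lit 5) (nat_lit 106) (nat_lit 4) (nat_lit 245) (nat_lit 239) (nat_lit 236))))))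 (XT.nd (nat_lit 312) (nat_lit 2128) (nat_lit 0) (XT.nd (nat_lit 156) (nat_lit 1064) (nat_lit 0) (XT.nd (nat_lit 78) (nat_lit 380) (nat_lit 0) (XT.lf (nat_lit 0) (nat_lit 1682769652) (nat_lit 380) (nat_lit 2422970956) (nat_lit 76) (nat_lit 2661277877) (nat_lit 100) (nat_lit 5) (nat_lit 105) (nat_lit 5) (nat_lit 101) (nat_lit 5) (nat_lit 246) (nat_lit 239) (nat_lit 235)) (XT.lf (nat_lit 0) (nat_lit 3335381103) (nat_lit 380) (nat_lit 2299400394) (nat_lit 456) (nat_lit 1260001397) (nat_lit 95) (nat_lit 5) (nat_lit 100) (nat_lit 5) (nat_lit 101) (nat_lit 5) (nat_lit 247) (nat_lit 239) (nat_lit 234))) (XT.nd (nat_lit 78) (nat_lit 532) (nat_lit 0) (XT.lf (nat_lit 0) (nat_lit 2371010759) (nat_lit 456) (nat_lit 152001976) (nat_lit 532) (nat_lit 4522092038) (nat_lit 88) (nat_lit 5) (nat_lit 94) (nat_lit 5) (nat_lit 95) (nat_lit 5) (nat_lit 248) (nat_lit 239) (nat_lit 233)) (XT.lf (nat_lit 0) (nat_lit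 1411485453) (nat_lit 532) (nat_lit 4958981385) (nat_lit 608) (nat_lit 847332878) (nat_lit 81) (nat_lit 5) (nat_lit 88) (nat_lit 5) (nat_lit 89) (nat_lit 5) (nat_lit 249) (nat_lit 239) (nat_lit 232)))) (XT.nd (nat_lit 156) (nat_lit 1444) (nat_lit 0) (XT.nd (nat_lit 78) (nat_lit 0) (nat_lit 0) (XT.lf (nat_lit 0) (nat_lit 436292562) (nat_lit 608) (nat_lit 2376570166) (nat_lit 684) (nat_lit 4600921882) (nat_lit 72) (nat_lit 5) (nat_lit 80) (nat_lit 5) (nat_lit 81) (nat_lit 5) (nat_lit 250) (nat_lit 239) (nat_lit 231)) (XT.lf (nat_lit 0) (nat_lit 6563514028) (nat_lit 684) (nat_lit 536566419) (nat_lit 76) (nat_lit 534676493) (nat_lit 72) (nat_lit 5) (nat_lit 81) (nat_lit 5) (nat_lit 73) (nat_lit 5) (nat_lit 251) (nat_lit 239) (nat_lit 230))) (XT.nd (nat_lit 78) (nat_lit 684) (nat_lit 0) (XT.lf (nat_lit 0) (nat_lit 2527248056) (nat_lit 760) (nat_lit 1598366033) (nat_lit 76) (nat_lit 3753153020)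 (nat_lit 62) (nat_lit 5) (nat_lit 72) (nat_lit 5) (nat_lit 63) (nat_lit 5) (nat_lit 252) (nat_lit 239) (nat_lit 229)) (XT.nd (nat_lit 78) (nat_lit 380) (nat_lit 0) (XT.lf (nat_lit 0) (nat_lit 5418344650) (nat_lit 304) (nat_lit 801272578) (nat_lit 380) (nat_lit 1930744510) (nat_lit 58) (nat_lit 5) (nat_lit 62) (nat_lit 5) (nat_lit 63) (nat_lit 5) (nat_lit 253) (nat_lit 239) (nat_lit 228)) (XT.lf (nat_lit 0) (nat_lit 1609566318) (nat_lit 380) (nat_lit 4024246984) (nat_lit 76) (nat_lit 2814363734) (nat_lit 53) (nat_lit 5) (nat_lit 58) (nat_lit 5) (nat_lit 54) (nat_lit 5) (nat_lit 254) (nat_lit 239) (nat_lit 227))))))) (XT.nd (nat_lit 702) (nat_lit 1064) (nat_lit 0) (XT.nd (nat_lit 312) (nat_lit 988) (nat_lit 0) (XT.nd (nat_lit 156) (nat_lit 304) (nat_lit 0) (XT.nd (nat_lit 78) (nat_lit 304) (nat_lit 0) (XT.lf (nat_lit 0) (nat_lit 3285118856) (nat_lit 304) (nat_lit 1967035564) (nat_lit 380)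 (nat_lit 3522658785) (nat_lit 49) (nat_lit 5) (nat_lit 53) (nat_lit 5) (nat_lit 54) (nat_lit 5) (nat_lit 255) (nat_lit 239) (nat_lit 226)) (XT.lf (nat_lit 0) (nat_lit 1974147196) (nat_lit 304) (nat_lit 7130365506) (nat_lit 380) (nat_lit 27994818) (nat_lit 45) (nat_lit 5) (nat_lit 49) (nat_lit 5) (nat_lit 50) (nat_lit 5) (nat_lit 256) (nat_lit 239) (nat_lit 225))) (XT.nd (nat_lit 78) (nat_lit 0) (nat_lit 0) (XT.lf (nat_lit 0) (nat_lit 384054223) (nat_lit 228) (nat_lit 3171832124) (nat_lit 304) (nat_lit 5964274711) (nat_lit 41) (nat_lit 5) (nat_lit 44) (nat_lit 5) (nat_lit 45) (nat_lit 5) (nat_lit 257) (nat_lit 239) (nat_lit 224)) (XT.lf (nat_lit 0) (nat_lit 7373501832) (nat_lit 304) (nat_lit 1417739245) (nat_lit 76) (nat_lit 1150852911) (nat_lit 41) (nat_lit 5) (nat_lit 45) (nat_lit 5) (nat_lit 42) (nat_lit 5) (nat_lit 258) (nat_lit 239) (nat_lit 223)))) (XT.nd (nat_lit 156) (nat_lit 456)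 (nat_lit 0) (XT.nd (nat_lit 78) (nat_lit 228) (nat_lit 0) (XT.lf (nat_lit 0) (nat_lit 1041613931) (nat_lit 304) (nat_lit 3564666265) (nat_lit 76) (nat_lit 5792350566) (nat_lit 37) (nat_lit 5) (nat_lit 41) (nat_lit 5) (nat_lit 38) (nat_lit 5) (nat_lit 259) (nat_lit 239) (nat_lit 222)) (XT.lf (nat_lit 0) (nat_lit 4776975303) (nat_lit 304) (nat_lit 6107080883) (nat_lit 76) (nat_lit 9776031) (nat_lit 34) (nat_lit 5) (nat_lit 38) (nat_lit 5) (nat_lit 35) (nat_lit 5) (nat_lit 260) (nat_lit 239) (nat_lit 221))) (XT.nd (nat_lit 78) (nat_lit 228) (nat_lit 0) (XT.lf (nat_lit 0) (nat_lit 2275597636) (nat_lit 228) (nat_lit 6545717602) (nat_lit 304) (nat_lit 2607348943) (nat_lit 31) (nat_lit 5) (nat_lit 34) (nat_lit 5) (nat_lit 35) (nat_lit 5) (nat_lit 261) (nat_lit 239) (nat_lit 220)) (XT.nd (nat_lit 78) (nat_lit 152) (nat_lit 0) (XT.lf (nat_lit 0) (nat_lit 1092902045) (nat_lit 304) (nat_lit 696694834)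 (nat_lit 76) (nat_lit 10218830440) (nat_lit 30) (nat_lit 5) (nat_lit 34) (nat_lit 5) (nat_lit 31) (nat_lit 5) (nat_lit 262) (nat_lit 239) (nat_lit 219)) (XT.lf (nat_lit 0) (nat_lit 5036914011) (nat_lit 228) (nat_lit 4230975272) (nat_lit 76) (nat_lit 3363016685) (nat_lit 28) (nat_lit 5) (nat_lit 31) (nat_lit 5) (nat_lit 29) (nat_lit 5) (nat_lit 263) (nat_lit 239) (nat_lit 218)))))) (XT.nd (nat_lit 390) (nat_lit 456) (nat_lit 0) (XT.nd (nat_lit 156) (nat_lit 228) (nat_lit 0) (XT.nd (nat_lit 78) (nat_lit 152) (nat_lit 0) (XT.lf (nat_lit 0) (nat_lit 4868441423) (nat_lit 228) (nat_lit 4405150454) (nat_lit 304) (nat_lit 4031128341) (nat_lit 25) (nat_lit 5) (nat_lit 28) (nat_lit 5) (nat_lit 29) (nat_lit 5) (nat_lit 264) (nat_lit 239) (nat_lit 217)) (XT.lf (nat_lit 0) (nat_lit 622792230) (nat_lit 152) (nat_lit 13189368883) (nat_lit 228) (nat_lit 222495968) (nat_lit 23) (nat_lit 5) (nat_lit 25)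 (nat_lit 5) (nat_lit 26) (nat_lit 4) (nat_lit 265) (nat_lit 239) (nat_lit 216))) (XT.nd (nat_lit 78) (nat_lit 152) (nat_lit 0) (XT.lf (nat_lit 0) (nat_lit 3859613606) (nat_lit 228) (nat_lit 4441990884) (nat_lit 76) (nat_lit 6514003357) (nat_lit 22) (nat_lit 5) (nat_lit 25) (nat_lit 5) (nat_lit 23) (nat_lit 5) (nat_lit 266) (nat_lit 239) (nat_lit 215)) (XT.nd (nat_lit 78) (nat_lit 0) (nat_lit 0) (XT.lf (nat_lit 0) (nat_lit 5226826509) (nat_lit 152) (nat_lit 2994708466) (nat_lit 228) (nat_lit 7439563712) (nat_lit 20) (nat_lit 5) (nat_lit 22) (nat_lit 5) (nat_lit 23) (nat_lit 5) (nat_lit 267) (nat_lit 239) (nat_lit 214)) (XT.lf (nat_lit 0) (nat_lit 12938395821) (nat_lit 228) (nat_lit 965918567) (nat_lit 76) (nat_lit 2669891318) (nat_lit 20) (nat_lit 5) (nat_lit 23) (nat_lit 5) (nat_lit 21) (nat_lit 4) (nat_lit 268) (nat_lit 239) (nat_lit 213))))) (XT.nd (nat_lit 156) (nat_lit 76) (nat_lit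 0) (XT.nd (nat_lit 78) (nat_lit 152) (nat_lit 0) (XT.lf (nat_lit 0) (nat_lit 547866008) (nat_lit 228) (nat_lit 8222605792) (nat_lit 76) (nat_lit 8785227570) (nat_lit 17) (nat_lit 5) (nat_lit 20) (nat_lit 5) (nat_lit 18) (nat_lit 5) (nat_lit 269) (nat_lit 239) (nat_lit 212)) (XT.lf (nat_lit 0) (nat_lit 1706200875) (nat_lit 152) (nat_lit 3174799458) (nat_lit 228) (nat_lit 13734850270) (nat_lit 15) (nat_lit 5) (nat_lit 17) (nat_lit 5) (nat_lit 18) (nat_lit 5) (nat_lit 270) (nat_lit 239) (nat_lit 211))) (XT.nd (nat_lit 78) (nat_lit 76) (nat_lit 0) (XT.lf (nat_lit 0) (nat_lit 9652184084) (nat_lit 228) (nat_lit 7237477782) (nat_lit 76) (nat_lit 2866790951) (nat_lit 15) (nat_lit 5) (nat_lit 18) (nat_lit 5) (nat_lit 16) (nat_lit 4) (nat_lit 271) (nat_lit 239) (nat_lit 210)) (XT.nd (nat_lit 78) (nat_lit 0) (nat_lit 0) (XT.lf (nat_lit 0) (nat_lit 3106558407) (nat_lit 76) (nat_lit 11708902440) (nat_lit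 152) (nat_lit 6172515793) (nat_lit 14) (nat_lit 5) (nat_lit 15) (nat_lit 5) (nat_lit 16) (nat_lit 4) (nat_lit 272) (nat_lit 239) (nat_lit 209)) (XT.lf (nat_lit 0) (nat_lit 14395183088) (nat_lit 76) (nat_lit 6035632696) (nat_lit 152) (nat_lit 1885434810) (nat_lit 14) (nat_lit 5) (nat_lit 15) (nat_lit 5) (nat_lit 16) (nat_lit 4) (nat_lit 273) (nat_lit 239) (nat_lit 208))))))))
noncomputable def xc47 : XT := (XT.nd (nat_lit 1482) (nat_lit 228) (nat_lit 0) (XT.nd (nat_lit 702) (nat_lit 228) (nat_lit 0) (XT.nd (nat_lit 312) (nat_lit 228) (nat_lit 0) (XT.nd (nat_lit 156) (nat_lit 76) (nat_lit 0) (XT.nd (nat_lit 78) (nat_lit 0) (nat_lit 0) (XT.lf (nat_lit 0) (nat_lit 2619600428) (nat_lit 228) (nat_lit 21005375869) (nat_lit 76) (nat_lit 125683856) (nat_lit 11) (nat_lit 5) (nat_lit 14) (nat_lit 5) (nat_lit 12) (nat_lit 4) (nat_lit 274) (nat_lit 239) (nat_lit 207)) (XT.lf (nat_lit 0) (nat_lit 7583092066)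 (nat_lit 228) (nat_lit 11012180369) (nat_lit 76) (nat_lit 6694945279) (nat_lit 11) (nat_lit 5) (nat_lit 14) (nat_lit 5) (nat_lit 12) (nat_lit 4) (nat_lit 275) (nat_lit 239) (nat_lit 206))) (XT.nd (nat_lit 78) (nat_lit 76) (nat_lit 0) (XT.lf (nat_lit 0) (nat_lit 12870712371) (nat_lit 228) (nat_lit 341042410) (nat_lit 76) (nat_lit 13744967982) (nat_lit 11) (nat_lit 5) (nat_lit 14) (nat_lit 5) (nat_lit 12) (nat_lit 4) (nat_lit 276) (nat_lit 239) (nat_lit 205)) (XT.lf (nat_lit 0) (nat_lit 11437340709) (nat_lit 76) (nat_lit 7255023619) (nat_lit 152) (nat_lit 10058758108) (nat_lit 10) (nat_lit 5) (nat_lit 11) (nat_lit 5) (nat_lit 12) (nat_lit 4) (nat_lit 277) (nat_lit 239) (nat_lit 204)))) (XT.nd (nat_lit 156) (nat_lit 152) (nat_lit 0) (XT.nd (nat_lit 78) (nat_lit 76) (nat_lit 0) (XT.lf (nat_lit 0) (nat_lit 24062550431) (nat_lit 76) (nat_lit 858915023) (nat_lit 152) (nat_lit 5770638819) (nat_lit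 10) (nat_lit 5) (nat_lit 11) (nat_lit 5) (nat_lit 12) (nat_lit 4) (nat_lit 278) (nat_lit 239) (nat_lit 203)) (XT.lf (nat_lit 0) (nat_lit 4868697081) (nat_lit 76) (nat_lit 26890557799) (nat_lit 76) (nat_lit 1023699211) (nat_lit 9) (nat_lit 4) (nat_lit 10) (nat_lit 5) (nat_lit 10) (nat_lit 4) (nat_lit 279) (nat_lit 239) (nat_lit 202))) (XT.nd (nat_lit 78) (nat_lit 76) (nat_lit 0) (XT.lf (nat_lit 0) (nat_lit 4045331940) (nat_lit 152) (nat_lit 17691871466) (nat_lit 76) (nat_lit 13297077381) (nat_lit 8) (nat_lit 5) (nat_lit 10) (nat_lit 5) (nat_lit 9) (nat_lit 4) (nat_lit 280) (nat_lit 239) (nat_lit 201)) (XT.nd (nat_lit 78) (nat_lit 76) (nat_lit 0) (XT.lf (nat_lit 0) (nat_lit 9430610073) (nat_lit 152) (nat_lit 6761258104) (nat_lit 76) (nat_lit 21275764576) (nat_lit 8) (nat_lit 5) (nat_lit 10) (nat_lit 5) (nat_lit 9) (nat_lit 4) (nat_lit 281) (nat_lit 239) (nat_lit 200)) (XT.lf (nat_lit 0)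 (nat_lit 5122285001) (nat_lit 76) (nat_lit 10154500936) (nat_lit 152) (nat_lit 24817444397) (nat_lit 7) (nat_lit 5) (nat_lit 8) (nat_lit 5) (nat_lit 9) (nat_lit 4) (nat_lit 282) (nat_lit 239) (nat_lit 199)))))) (XT.nd (nat_lit 390) (nat_lit 152) (nat_lit 0) (XT.nd (nat_lit 156) (nat_lit 76) (nat_lit 0) (XT.nd (nat_lit 78) (nat_lit 0) (nat_lit 0) (XT.lf (nat_lit 0) (nat_lit 18116203649) (nat_lit 76) (nat_lit 3544751014) (nat_lit 152) (nat_lit 21266561334) (nat_lit 7) (nat_lit 5) (nat_lit 8) (nat_lit 5) (nat_lit 9) (nat_lit 4) (nat_lit 283) (nat_lit 239) (nat_lit 198)) (XT.lf (nat_lit 0) (nat_lit 28567509318) (nat_lit 152) (nat_lit 13971404610) (nat_lit 0) (nat_lit 3448037605) (nat_lit 7) (nat_lit 5) (nat_lit 9) (nat_lit 4) (nat_lit 7) (nat_lit 4) (nat_lit 284) (nat_lit 239) (nat_lit 197))) (XT.nd (nat_lit 78) (nat_lit 76) (nat_lit 0) (XT.lf (nat_lit 0) (nat_lit 36045195871) (nat_lit 152)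 (nat_lit 2395803863) (nat_lit 0) (nat_lit 10849276286) (nat_lit 7) (nat_lit 5) (nat_lit 9) (nat_lit 4) (nat_lit 7) (nat_lit 4) (nat_lit 285) (nat_lit 239) (nat_lit 196)) (XT.nd (nat_lit 78) (nat_lit 0) (nat_lit 0) (XT.lf (nat_lit 0) (nat_lit 10371378419) (nat_lit 76) (nat_lit 33873530904) (nat_lit 76) (nat_lit 8606826252) (nat_lit 6) (nat_lit 4) (nat_lit 7) (nat_lit 5) (nat_lit 7) (nat_lit 4) (nat_lit 286) (nat_lit 239) (nat_lit 195)) (XT.lf (nat_lit 0) (nat_lit 24181959599) (nat_lit 76) (nat_lit 28924090719) (nat_lit 76) (nat_lit 3591844337) (nat_lit 6) (nat_lit 4) (nat_lit 7) (nat_lit 5) (nat_lit 7) (nat_lit 4) (nat_lit 287) (nat_lit 239) (nat_lit 194))))) (XT.nd (nat_lit 156) (nat_lit 76) (nat_lit 0) (XT.nd (nat_lit 78) (nat_lit 0) (nat_lit 0) (XT.lf (nat_lit 0) (nat_lit 1731750416) (nat_lit 152) (nat_lit 21842844813) (nat_lit 76) (nat_lit 37277485613) (nat_lit 5) (nat_lit 5) (nat_lit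 7) (nat_lit 5) (nat_lit 6) (nat_lit 4) (nat_lit 288) (nat_lit 239) (nat_lit 193)) (XT.lf (nat_lit 0) (nat_lit 7325411825) (nat_lit 152) (nat_lit 10432030392) (nat_lit 76) (nat_lit 47579759722) (nat_lit 5) (nat_lit 5) (nat_lit 7) (nat_lit 5) (nat_lit 6) (nat_lit 4) (nat_lit 289) (nat_lit 239) (nat_lit 192))) (XT.nd (nat_lit 78) (nat_lit 0) (nat_lit 0) (XT.lf (nat_lit 0) (nat_lit 1901052143) (nat_lit 76) (nat_lit 11465877571) (nat_lit 152) (nat_lit 56814226629) (nat_lit 4) (nat_lit 5) (nat_lit 5) (nat_lit 5) (nat_lit 6) (nat_lit 4) (nat_lit 290) (nat_lit 239) (nat_lit 191)) (XT.nd (nat_lit 78) (nat_lit 0) (nat_lit 0) (XT.lf (nat_lit 0) (nat_lit 15544098775) (nat_lit 76) (nat_lit 4501475700) (nat_lit 152) (nat_lit 55359401053) (nat_lit 4) (nat_lit 5) (nat_lit 5) (nat_lit 5) (nat_lit 6) (nat_lit 4) (nat_lit 291) (nat_lit 239) (nat_lit 190)) (XT.lf (nat_lit 0) (nat_lit 27279508773) (nat_lit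 152) (nat_lit 50861845305) (nat_lit 0) (nat_lit 2904332106) (nat_lit 4) (nat_lit 5) (nat_lit 6) (nat_lit 4) (nat_lit 4) (nat_lit 4) (nat_lit 292) (nat_lit 239) (nat_lit 189))))))) (XT.nd (nat_lit 702) (nat_lit 152) (nat_lit 0) (XT.nd (nat_lit 312) (nat_lit 76) (nat_lit 0) (XT.nd (nat_lit 156) (nat_lit 0) (nat_lit 0) (XT.nd (nat_lit 78) (nat_lit 0) (nat_lit 0) (XT.lf (nat_lit 0) (nat_lit 35143844315) (nat_lit 152) (nat_lit 41261926210) (nat_lit 0) (nat_lit 10729332023) (nat_lit 4) (nat_lit 5) (nat_lit 6) (nat_lit 4) (nat_lit 4) (nat_lit 4) (nat_lit 293) (nat_lit 239) (nat_lit 188)) (XT.lf (nat_lit 0) (nat_lit 43614903920) (nat_lit 152) (nat_lit 30933950408) (nat_lit 0) (nat_lit 19163969752) (nat_lit 4) (nat_lit 5) (nat_lit 6) (nat_lit 4) (nat_lit 4) (nat_lit 4) (nat_lit 294) (nat_lit 239) (nat_lit 187))) (XT.nd (nat_lit 78) (nat_lit 0) (nat_lit 0) (XT.lf (nat_lit 0) (nat_lit 52742886460)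 (nat_lit 152) (nat_lit 19816715080) (nat_lit 0) (nat_lit 28258228334) (nat_lit 4) (nat_lit 5) (nat_lit 6) (nat_lit 4) (nat_lit 4) (nat_lit 4) (nat_lit 295) (nat_lit 239) (nat_lit 186)) (XT.lf (nat_lit 0) (nat_lit 62581883684) (nat_lit 152) (nat_lit 7844340312) (nat_lit 0) (nat_lit 38065999670) (nat_lit 4) (nat_lit 5) (nat_lit 6) (nat_lit 4) (nat_lit 4) (nat_lit 4) (nat_lit 296) (nat_lit 239) (nat_lit 185)))) (XT.nd (nat_lit 156) (nat_lit 0) (nat_lit 0) (XT.nd (nat_lit 78) (nat_lit 0) (nat_lit 0) (XT.lf (nat_lit 0) (nat_lit 5221233376) (nat_lit 76) (nat_lit 68050485469) (nat_lit 76) (nat_lit 43505688596) (nat_lit 3) (nat_lit 4) (nat_lit 4) (nat_lit 5) (nat_lit 4) (nat_lit 4) (nat_lit 297) (nat_lit 239) (nat_lit 184)) (XT.lf (nat_lit 0) (nat_lit 19581846465) (nat_lit 76) (nat_lit 65354582825) (nat_lit 76) (nat_lit 40783014786) (nat_lit 3) (nat_lit 4) (nat_lit 4) (nat_lit 5) (nat_lit 4)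 (nat_lit 4) (nat_lit 298) (nat_lit 239) (nat_lit 183))) (XT.nd (nat_lit 78) (nat_lit 0) (nat_lit 0) (XT.lf (nat_lit 0) (nat_lit 35063229568) (nat_lit 76) (nat_lit 62455388044) (nat_lit 76) (nat_lit 37859031888) (nat_lit 3) (nat_lit 4) (nat_lit 4) (nat_lit 5) (nat_lit 4) (nat_lit 4) (nat_lit 299) (nat_lit 239) (nat_lit 182)) (XT.nd (nat_lit 78) (nat_lit 0) (nat_lit 0) (XT.lf (nat_lit 0) (nat_lit 51757124214) (nat_lit 76) (nat_lit 59335720711) (nat_lit 76) (nat_lit 34716412596) (nat_lit 3) (nat_lit 4) (nat_lit 4) (nat_lit 5) (nat_lit 4) (nat_lit 4) (nat_lit 300) (nat_lit 239) (nat_lit 181)) (XT.lf (nat_lit 0) (nat_lit 69762457186) (nat_lit 76) (nat_lit 55977093910) (nat_lit 76) (nat_lit 31336533980) (nat_lit 3) (nat_lit 4) (nat_lit 4) (nat_lit 5) (nat_lit 4) (nat_lit 4) (nat_lit 301) (nat_lit 239) (nat_lit 180)))))) (XT.nd (nat_lit 390) (nat_lit 152) (nat_lit 0) (XT.nd (nat_lit 156) (nat_lit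 0) (nat_lit 0) (XT.nd (nat_lit 78) (nat_lit 0) (nat_lit 0) (XT.lf (nat_lit 0) (nat_lit 89185926754) (nat_lit 76) (nat_lit 52359604666) (nat_lit 76) (nat_lit 27699367130) (nat_lit 3) (nat_lit 4) (nat_lit 4) (nat_lit 5) (nat_lit 4) (nat_lit 4) (nat_lit 302) (nat_lit 239) (nat_lit 179)) (XT.lf (nat_lit 0) (nat_lit 110142634960) (nat_lit 76) (nat_lit 48461816007) (nat_lit 76) (nat_lit 23783358465) (nat_lit 3) (nat_lit 4) (nat_lit 4) (nat_lit 5) (nat_lit 4) (nat_lit 4) (nat_lit 303) (nat_lit 239) (nat_lit 178))) (XT.nd (nat_lit 78) (nat_lit 0) (nat_lit 0) (XT.lf (nat_lit 0) (nat_lit 132756769703) (nat_lit 76) (nat_lit 44260629925) (nat_lit 76) (nat_lit 19565302008) (nat_lit 3) (nat_lit 4) (nat_lit 4) (nat_lit 5) (nat_lit 4) (nat_lit 4) (nat_lit 304) (nat_lit 239) (nat_lit 177)) (XT.nd (nat_lit 78) (nat_lit 0) (nat_lit 0) (XT.lf (nat_lit 0) (nat_lit 157162340671) (nat_lit 76) (nat_lit 39731150503)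 (nat_lit 76) (nat_lit 15020201868) (nat_lit 3) (nat_lit 4) (nat_lit 4) (nat_lit 5) (nat_lit 4) (nat_lit 4) (nat_lit 305) (nat_lit 239) (nat_lit 176)) (XT.lf (nat_lit 0) (nat_lit 183503973471) (nat_lit 76) (nat_lit 34846536382) (nat_lit 76) (nat_lit 10121124119) (nat_lit 3) (nat_lit 4) (nat_lit 4) (nat_lit 5) (nat_lit 4) (nat_lit 4) (nat_lit 306) (nat_lit 239) (nat_lit 175))))) (XT.nd (nat_lit 156) (nat_lit 76) (nat_lit 0) (XT.nd (nat_lit 78) (nat_lit 76) (nat_lit 0) (XT.lf (nat_lit 0) (nat_lit 211937766667) (nat_lit 76) (nat_lit 29577841700) (nat_lit 76) (nat_lit 4839037189) (nat_lit 3) (nat_lit 4) (nat_lit 4) (nat_lit 5) (nat_lit 4) (nat_lit 4) (nat_lit 307) (nat_lit 239) (nat_lit 174)) (XT.lf (nat_lit 0) (nat_lit 829919298) (nat_lit 152) (nat_lit 23049870179) (nat_lit 76) (nat_lit 241788242427) (nat_lit 2) (nat_lit 5) (nat_lit 4) (nat_lit 5) (nat_lit 3) (nat_lit 4) (nat_lit 308) (nat_lit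 239) (nat_lit 173))) (XT.nd (nat_lit 78) (nat_lit 76) (nat_lit 0) (XT.lf (nat_lit 0) (nat_lit 6777722302) (nat_lit 152) (nat_lit 10868355713) (nat_lit 76) (nat_lit 268876710630) (nat_lit 2) (nat_lit 5) (nat_lit 4) (nat_lit 5) (nat_lit 3) (nat_lit 4) (nat_lit 309) (nat_lit 239) (nat_lit 172)) (XT.nd (nat_lit 78) (nat_lit 0) (nat_lit 0) (XT.lf (nat_lit 0) (nat_lit 2350637264) (nat_lit 76) (nat_lit 10880560246) (nat_lit 152) (nat_lit 295813244560) (nat_lit 1) (nat_lit 5) (nat_lit 2) (nat_lit 5) (nat_lit 3) (nat_lit 4) (nat_lit 310) (nat_lit 239) (nat_lit 171)) (XT.lf (nat_lit 0) (nat_lit 17003511015) (nat_lit 76) (nat_lit 3380231594) (nat_lit 152) (nat_lit 312974953472) (nat_lit 1) (nat_lit 5) (nat_lit 2) (nat_lit 5) (nat_lit 3) (nat_lit 4) (nat_lit 311) (nat_lit 239) (nat_lit 170))))))))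
noncomputable def xc48 : XT := (XT.nd (nat_lit 32370) (nat_lit 0) (nat_lit 2052) (XT.nd (nat_lit 702) (nat_lit 0) (nat_lit 0) (XT.nd (nat_lit 312) (nat_lit 0) (nat_lit 0) (XT.nd (nat_lit 156) (nat_lit 0) (nat_lit 0) (XT.nd (nat_lit 78) (nat_lit 0) (nat_lit 0) (XT.lf (nat_lit 0) (nat_lit 28176065937) (nat_lit 152) (nat_lit 326874278439) (nat_lit 0) (nat_lit 4564374629) (nat_lit 1) (nat_lit 5) (nat_lit 3) (nat_lit 4) (nat_lit 1) (nat_lit 4) (nat_lit 312) (nat_lit 239) (nat_lit 169)) (XT.lf (nat_lit 0) (nat_lit 36643105592) (nat_lit 152) (nat_lit 338302181656) (nat_lit 0) (nat_lit 13023376771) (nat_lit 1) (nat_lit 5) (nat_lit 3) (nat_lit 4) (nat_lit 1) (nat_lit 4) (nat_lit 313) (nat_lit 239) (nat_lit 168))) (XT.nd (nat_lit 78) (nat_lit 0) (nat_lit 0) (XT.lf (nat_lit 0) (nat_lit 45782261735) (nat_lit 152) (nat_lit 350653840739) (nat_lit 0) (nat_lit 22155090772) (nat_lit 1) (nat_lit 5) (nat_lit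 3) (nat_lit 4) (nat_lit 1) (nat_lit 4) (nat_lit 314) (nat_lit 239) (nat_lit 167)) (XT.lf (nat_lit 0) (nat_lit 55647692328) (nat_lit 152) (nat_lit 364002450704) (nat_lit 0) (nat_lit 32013630494) (nat_lit 1) (nat_lit 5) (nat_lit 3) (nat_lit 4) (nat_lit 1) (nat_lit 4) (nat_lit 315) (nat_lit 239) (nat_lit 166)))) (XT.nd (nat_lit 156) (nat_lit 0) (nat_lit 0) (XT.nd (nat_lit 78) (nat_lit 0) (nat_lit 0) (XT.lf (nat_lit 0) (nat_lit 66297859182) (nat_lit 152) (nat_lit 378427114425) (nat_lit 0) (nat_lit 42657416912) (nat_lit 1) (nat_lit 5) (nat_lit 3) (nat_lit 4) (nat_lit 1) (nat_lit 4) (nat_lit 316) (nat_lit 239) (nat_lit 165)) (XT.lf (nat_lit 0) (nat_lit 77795874398) (nat_lit 152) (nat_lit 394013311391) (nat_lit 0) (nat_lit 54149524316) (nat_lit 1) (nat_lit 5) (nat_lit 3) (nat_lit 4) (nat_lit 1) (nat_lit 4) (nat_lit 317) (nat_lit 239) (nat_lit 164))) (XT.nd (nat_lit 78) (nat_lit 0) (nat_lit 0)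 (XT.lf (nat_lit 0) (nat_lit 90209874361) (nat_lit 152) (nat_lit 410853404249) (nat_lit 0) (nat_lit 66558054084) (nat_lit 1) (nat_lit 5) (nat_lit 3) (nat_lit 4) (nat_lit 1) (nat_lit 4) (nat_lit 318) (nat_lit 239) (nat_lit 163)) (XT.nd (nat_lit 78) (nat_lit 0) (nat_lit 0) (XT.lf (nat_lit 0) (nat_lit 103613423516) (nat_lit 152) (nat_lit 429047186145) (nat_lit 0) (nat_lit 79956538243) (nat_lit 1) (nat_lit 5) (nat_lit 3) (nat_lit 4) (nat_lit 1) (nat_lit 4) (nat_lit 319) (nat_lit 239) (nat_lit 162)) (XT.lf (nat_lit 0) (nat_lit 118085950303) (nat_lit 152) (nat_lit 448702472080) (nat_lit 0) (nat_lit 94424375219) (nat_lit 1) (nat_lit 5) (nat_lit 3) (nat_lit 4) (nat_lit 1) (nat_lit 4) (nat_lit 320) (nat_lit 239) (nat_lit 161)))))) (XT.nd (nat_lit 31278) (nat_lit 0) (nat_lit 7828) (XT.nd (nat_lit 156) (nat_lit 0) (nat_lit 0) (XT.nd (nat_lit 78) (nat_lit 0) (nat_lit 0) (XT.lf (nat_lit 0) (nat_lit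 133713217843) (nat_lit 152) (nat_lit 469935737823) (nat_lit 0) (nat_lit 110047300340) (nat_lit 1) (nat_lit 5) (nat_lit 3) (nat_lit 4) (nat_lit 1) (nat_lit 4) (nat_lit 321) (nat_lit 239) (nat_lit 160)) (XT.lf (nat_lit 0) (nat_lit 150587832166) (nat_lit 152) (nat_lit 492872810136) (nat_lit 0) (nat_lit 126917893906) (nat_lit 1) (nat_lit 5) (nat_lit 3) (nat_lit 4) (nat_lit 1) (nat_lit 4) (nat_lit 322) (nat_lit 239) (nat_lit 159))) (XT.nd (nat_lit 31044) (nat_lit 0) (nat_lit 8588) (XT.lf (nat_lit 0) (nat_lit 168809790986) (nat_lit 152) (nat_lit 517649612408) (nat_lit 0) (nat_lit 145136129803) (nat_lit 1) (nat_lit 5) (nat_lit 3) (nat_lit 4) (nat_lit 1) (nat_lit 4) (nat_lit 323) (nat_lit 239) (nat_lit 158)) (XT.lf (nat_lit 0) (nat_lit 1073741823) (nat_lit 0) (nat_lit 0) (nat_lit 0) (nat_lit 0) (nat_lit 114) (nat_lit 0) (nat_lit 1) (nat_lit 0) (nat_lit 1) (nat_lit 0) (nat_lit 240) (nat_lit 240)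 (nat_lit 240)))) (XT.nd (nat_lit 156) (nat_lit 532) (nat_lit 0) (XT.nd (nat_lit 78) (nat_lit 152) (nat_lit 0) (XT.lf (nat_lit 0) (nat_lit 4324245047) (nat_lit 76) (nat_lit 1945367650) (nat_lit 0) (nat_lit 181987699) (nat_lit 113) (nat_lit 5) (nat_lit 114) (nat_lit 0) (nat_lit 113) (nat_lit 4) (nat_lit 241) (nat_lit 240) (nat_lit 239)) (XT.lf (nat_lit 0) (nat_lit 2056472799) (nat_lit 152) (nat_lit 3761911577) (nat_lit 76) (nat_lit 663971488) (nat_lit 111) (nat_lit 5) (nat_lit 113) (nat_lit 5) (nat_lit 112) (nat_lit 4) (nat_lit 242) (nat_lit 240) (nat_lit 238))) (XT.nd (nat_lit 78) (nat_lit 380) (nat_lit 0) (XT.lf (nat_lit 0) (nat_lit 1062497174) (nat_lit 152) (nat_lit 5079696005) (nat_lit 228) (nat_lit 392401849) (nat_lit 109) (nat_lit 5) (nat_lit 111) (nat_lit 5) (nat_lit 112) (nat_lit 4) (nat_lit 243) (nat_lit 240) (nat_lit 237)) (XT.nd (nat_lit 78) (nat_lit 304) (nat_lit 0) (XT.lf (nat_lit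 0) (nat_lit 3510998179) (nat_lit 228) (nat_lit 498316548) (nat_lit 76) (nat_lit 2597414850) (nat_lit 108) (nat_lit 5) (nat_lit 111) (nat_lit 5) (nat_lit 109) (nat_lit 5) (nat_lit 244) (nat_lit 240) (nat_lit 236)) (XT.lf (nat_lit 0) (nat_lit 700151257) (nat_lit 304) (nat_lit 1928436974) (nat_lit 76) (nat_lit 4071917346) (nat_lit 104) (nat_lit 5) (nat_lit 108) (nat_lit 5) (nat_lit 105) (nat_lit 5) (nat_lit 245) (nat_lit 240) (nat_lit 235))))))) (XT.nd (nat_lit 702) (nat_lit 1900) (nat_lit 0) (XT.nd (nat_lit 312) (nat_lit 2584) (nat_lit 0) (XT.nd (nat_lit 156) (nat_lit 532) (nat_lit 0) (XT.nd (nat_lit 78) (nat_lit 456) (nat_lit 0) (XT.lf (nat_lit 0) (nat_lit 3501004814) (nat_lit 304) (nat_lit 907483184) (nat_lit 380) (nat_lit 2406950203) (nat_lit 100) (nat_lit 5) (nat_lit 104) (nat_lit 5) (nat_lit 105) (nat_lit 5) (nat_lit 246) (nat_lit 240) (nat_lit 234)) (XT.lf (nat_lit 0) (nat_lit 1181986101)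 (nat_lit 456) (nat_lit 4666836947) (nat_lit 76) (nat_lit 1103641486) (nat_lit 94) (nat_lit 5) (nat_lit 100) (nat_lit 5) (nat_lit 95) (nat_lit 5) (nat_lit 247) (nat_lit 240) (nat_lit 233))) (XT.nd (nat_lit 78) (nat_lit 76) (nat_lit 0) (XT.lf (nat_lit 0) (nat_lit 1082635549) (nat_lit 456) (nat_lit 3672693593) (nat_lit 532) (nat_lit 2355747197) (nat_lit 88) (nat_lit 5) (nat_lit 94) (nat_lit 5) (nat_lit 95) (nat_lit 5) (nat_lit 248) (nat_lit 240) (nat_lit 232)) (XT.lf (nat_lit 0) (nat_lit 1074744314) (nat_lit 532) (nat_lit 91855532) (nat_lit 76) (nat_lit 6126955401) (nat_lit 87) (nat_lit 5) (nat_lit 94) (nat_lit 5) (nat_lit 88) (nat_lit 5) (nat_lit 249) (nat_lit 240) (nat_lit 231)))) (XT.nd (nat_lit 156) (nat_lit 1368) (nat_lit 0) (XT.nd (nat_lit 78) (nat_lit 684) (nat_lit 0) (XT.lf (nat_lit 0) (nat_lit 4547399174) (nat_lit 608) (nat_lit 1277565418) (nat_lit 76) (nat_lit 1672593543) (nat_lit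 80) (nat_lit 5) (nat_lit 88) (nat_lit 5) (nat_lit 81) (nat_lit 5) (nat_lit 250) (nat_lit 240) (nat_lit 230)) (XT.lf (nat_lit 0) (nat_lit 402806404) (nat_lit 684) (nat_lit 2499606109) (nat_lit 76) (nat_lit 4824154435) (nat_lit 71) (nat_lit 5) (nat_lit 80) (nat_lit 5) (nat_lit 72) (nat_lit 5) (nat_lit 251) (nat_lit 240) (nat_lit 229))) (XT.nd (nat_lit 78) (nat_lit 684) (nat_lit 0) (XT.lf (nat_lit 0) (nat_lit 3768809800) (nat_lit 760) (nat_lit 3814114214) (nat_lit 76) (nat_lit 397264507) (nat_lit 62) (nat_lit 5) (nat_lit 72) (nat_lit 5) (nat_lit 63) (nat_lit 5) (nat_lit 252) (nat_lit 240) (nat_lit 228)) (XT.nd (nat_lit 78) (nat_lit 380) (nat_lit 0) (XT.lf (nat_lit 0) (nat_lit 3011184566) (nat_lit 304) (nat_lit 4300647689) (nat_lit 380) (nat_lit 947916013) (nat_lit 58) (nat_lit 5) (nat_lit 62) (nat_lit 5) (nat_lit 63) (nat_lit 5) (nat_lit 253) (nat_lit 240) (nat_lit 227)) (XT.lf (nat_lit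 0) (nat_lit 1738850152) (nat_lit 304) (nat_lit 626665268) (nat_lit 380) (nat_lit 6201491011) (nat_lit 53) (nat_lit 5) (nat_lit 57) (nat_lit 5) (nat_lit 58) (nat_lit 5) (nat_lit 254) (nat_lit 240) (nat_lit 226)))))) (XT.nd (nat_lit 390) (nat_lit 684) (nat_lit 0) (XT.nd (nat_lit 156) (nat_lit 836) (nat_lit 0) (XT.nd (nat_lit 78) (nat_lit 76) (nat_lit 0) (XT.lf (nat_lit 0) (nat_lit 281038657) (nat_lit 304) (nat_lit 5569159467) (nat_lit 380) (nat_lit 3051746192) (nat_lit 49) (nat_lit 5) (nat_lit 53) (nat_lit 5) (nat_lit 54) (nat_lit 5) (nat_lit 255) (nat_lit 240) (nat_lit 225)) (XT.lf (nat_lit 0) (nat_lit 267747926) (nat_lit 380) (nat_lit 1306779306) (nat_lit 76) (nat_lit 7693173741) (nat_lit 48) (nat_lit 5) (nat_lit 53) (nat_lit 5) (nat_lit 49) (nat_lit 5) (nat_lit 256) (nat_lit 240) (nat_lit 224))) (XT.nd (nat_lit 78) (nat_lit 532) (nat_lit 0) (XT.lf (nat_lit 0) (nat_lit 3706668077) (nat_lit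 380) (nat_lit 3176356233) (nat_lit 76) (nat_lit 2779843466) (nat_lit 44) (nat_lit 5) (nat_lit 49) (nat_lit 5) (nat_lit 45) (nat_lit 5) (nat_lit 257) (nat_lit 240) (nat_lit 223)) (XT.nd (nat_lit 78) (nat_lit 304) (nat_lit 0) (XT.lf (nat_lit 0) (nat_lit 4771059415) (nat_lit 228) (nat_lit 2596510474) (nat_lit 304) (nat_lit 2725373785) (nat_lit 41) (nat_lit 5) (nat_lit 44) (nat_lit 5) (nat_lit 45) (nat_lit 5) (nat_lit 258) (nat_lit 240) (nat_lit 222)) (XT.lf (nat_lit 0) (nat_lit 701237400) (nat_lit 304) (nat_lit 7817761063) (nat_lit 76) (nat_lit 2040305995) (nat_lit 37) (nat_lit 5) (nat_lit 41) (nat_lit 5) (nat_lit 38) (nat_lit 5) (nat_lit 259) (nat_lit 240) (nat_lit 221))))) (XT.nd (nat_lit 156) (nat_lit 456) (nat_lit 0) (XT.nd (nat_lit 78) (nat_lit 0) (nat_lit 0) (XT.lf (nat_lit 0) (nat_lit 288089078) (nat_lit 228) (nat_lit 4000268528) (nat_lit 304) (nat_lit 6773811267) (nat_lit 34) (nat_lit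 5) (nat_lit 37) (nat_lit 5) (nat_lit 38) (nat_lit 5) (nat_lit 260) (nat_lit 240) (nat_lit 220)) (XT.lf (nat_lit 0) (nat_lit 8160745903) (nat_lit 304) (nat_lit 2502641839) (nat_lit 76) (nat_lit 942442996) (nat_lit 34) (nat_lit 5) (nat_lit 38) (nat_lit 5) (nat_lit 35) (nat_lit 5) (nat_lit 261) (nat_lit 240) (nat_lit 219))) (XT.nd (nat_lit 78) (nat_lit 152) (nat_lit 0) (XT.lf (nat_lit 0) (nat_lit 169601337) (nat_lit 304) (nat_lit 5822169940) (nat_lit 76) (nat_lit 6200300312) (nat_lit 30) (nat_lit 5) (nat_lit 34) (nat_lit 5) (nat_lit 31) (nat_lit 5) (nat_lit 262) (nat_lit 240) (nat_lit 218)) (XT.nd (nat_lit 78) (nat_lit 0) (nat_lit 0) (XT.lf (nat_lit 0) (nat_lit 3067199548) (nat_lit 152) (nat_lit 841958010) (nat_lit 228) (nat_lit 8915805158) (nat_lit 28) (nat_lit 5) (nat_lit 30) (nat_lit 5) (nat_lit 31) (nat_lit 5) (nat_lit 263) (nat_lit 240) (nat_lit 217)) (XT.lf (nat_lit 0) (nat_lit 7993745673)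 (nat_lit 228) (nat_lit 891652549) (nat_lit 76) (nat_lit 4621158872) (nat_lit 28) (nat_lit 5) (nat_lit 31) (nat_lit 5) (nat_lit 29) (nat_lit 5) (nat_lit 264) (nat_lit 240) (nat_lit 216))))))))
noncomputable def xc49 : XT := (XT.nd (nat_lit 1404) (nat_lit 380) (nat_lit 0) (XT.nd (nat_lit 702) (nat_lit 456) (nat_lit 0) (XT.nd (nat_lit 312) (nat_lit 456) (nat_lit 0) (XT.nd (nat_lit 156) (nat_lit 152) (nat_lit 0) (XT.nd (nat_lit 78) (nat_lit 228) (nat_lit 0) (XT.lf (nat_lit 0) (nat_lit 8775884744) (nat_lit 228) (nat_lit 3659222176) (nat_lit 304) (nat_lit 1806410064) (nat_lit 25) (nat_lit 5) (nat_lit 28) (nat_lit 5) (nat_lit 29) (nat_lit 5) (nat_lit 265) (nat_lit 240) (nat_lit 215)) (XT.lf (nat_lit 0) (nat_lit 2121648306) (nat_lit 228) (nat_lit 10926685662) (nat_lit 76) (nat_lit 1985750978) (nat_lit 22) (nat_lit 5) (nat_lit 25) (nat_lit 5) (nat_lit 23) (nat_lit 5) (nat_lit 266) (nat_lit 240)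 (nat_lit 214))) (XT.nd (nat_lit 78) (nat_lit 152) (nat_lit 0) (XT.lf (nat_lit 0) (nat_lit 6348246575) (nat_lit 228) (nat_lit 1506260628) (nat_lit 76) (nat_lit 8031967526) (nat_lit 22) (nat_lit 5) (nat_lit 25) (nat_lit 5) (nat_lit 23) (nat_lit 5) (nat_lit 267) (nat_lit 240) (nat_lit 213)) (XT.lf (nat_lit 0) (nat_lit 8793035417) (nat_lit 152) (nat_lit 2153764921) (nat_lit 228) (nat_lit 5858819716) (nat_lit 20) (nat_lit 5) (nat_lit 22) (nat_lit 5) (nat_lit 23) (nat_lit 5) (nat_lit 268) (nat_lit 240) (nat_lit 212)))) (XT.nd (nat_lit 156) (nat_lit 228) (nat_lit 0) (XT.nd (nat_lit 78) (nat_lit 76) (nat_lit 0) (XT.lf (nat_lit 0) (nat_lit 2021087371) (nat_lit 152) (nat_lit 13913946539) (nat_lit 228) (nat_lit 1862410115) (nat_lit 18) (nat_lit 5) (nat_lit 20) (nat_lit 5) (nat_lit 21) (nat_lit 4) (nat_lit 269) (nat_lit 240) (nat_lit 211)) (XT.lf (nat_lit 0) (nat_lit 2457710763) (nat_lit 228) (nat_lit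 5945408052) (nat_lit 76) (nat_lit 10459661819) (nat_lit 17) (nat_lit 5) (nat_lit 20) (nat_lit 5) (nat_lit 18) (nat_lit 5) (nat_lit 270) (nat_lit 240) (nat_lit 210))) (XT.nd (nat_lit 78) (nat_lit 76) (nat_lit 0) (XT.lf (nat_lit 0) (nat_lit 4650151355) (nat_lit 152) (nat_lit 2392953342) (nat_lit 228) (nat_lit 12969660597) (nat_lit 15) (nat_lit 5) (nat_lit 17) (nat_lit 5) (nat_lit 18) (nat_lit 5) (nat_lit 271) (nat_lit 240) (nat_lit 209)) (XT.nd (nat_lit 78) (nat_lit 76) (nat_lit 0) (XT.lf (nat_lit 0) (nat_lit 12079725985) (nat_lit 228) (nat_lit 5146443081) (nat_lit 76) (nat_lit 4024538895) (nat_lit 15) (nat_lit 5) (nat_lit 18) (nat_lit 5) (nat_lit 16) (nat_lit 4) (nat_lit 272) (nat_lit 240) (nat_lit 208)) (XT.lf (nat_lit 0) (nat_lit 5909079626) (nat_lit 76) (nat_lit 11664240516) (nat_lit 152) (nat_lit 5011829507) (nat_lit 14) (nat_lit 5) (nat_lit 15) (nat_lit 5) (nat_lit 16) (nat_lit 4)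 (nat_lit 273) (nat_lit 240) (nat_lit 207)))))) (XT.nd (nat_lit 312) (nat_lit 152) (nat_lit 0) (XT.nd (nat_lit 156) (nat_lit 76) (nat_lit 0) (XT.nd (nat_lit 78) (nat_lit 228) (nat_lit 0) (XT.lf (nat_lit 0) (nat_lit 17911609351) (nat_lit 76) (nat_lit 5609803572) (nat_lit 152) (nat_lit 504336678) (nat_lit 14) (nat_lit 5) (nat_lit 15) (nat_lit 5) (nat_lit 16) (nat_lit 4) (nat_lit 274) (nat_lit 240) (nat_lit 206)) (XT.lf (nat_lit 0) (nat_lit 4252407885) (nat_lit 228) (nat_lit 20315130492) (nat_lit 76) (nat_lit 1009372012) (nat_lit 11) (nat_lit 5) (nat_lit 14) (nat_lit 5) (nat_lit 12) (nat_lit 4) (nat_lit 275) (nat_lit 240) (nat_lit 205))) (XT.nd (nat_lit 78) (nat_lit 76) (nat_lit 0) (XT.lf (nat_lit 0) (nat_lit 9507553713) (nat_lit 228) (nat_lit 9698084940) (nat_lit 76) (nat_lit 8039460760) (nat_lit 11) (nat_lit 5) (nat_lit 14) (nat_lit 5) (nat_lit 12) (nat_lit 4) (nat_lit 276) (nat_lit 240)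 (nat_lit 204)) (XT.lf (nat_lit 0) (nat_lit 1719170479) (nat_lit 76) (nat_lit 13428238358) (nat_lit 152) (nat_lit 13901235879) (nat_lit 10) (nat_lit 5) (nat_lit 11) (nat_lit 5) (nat_lit 12) (nat_lit 4) (nat_lit 277) (nat_lit 240) (nat_lit 203)))) (XT.nd (nat_lit 156) (nat_lit 152) (nat_lit 0) (XT.nd (nat_lit 78) (nat_lit 0) (nat_lit 0) (XT.lf (nat_lit 0) (nat_lit 14296471297) (nat_lit 76) (nat_lit 7051449044) (nat_lit 152) (nat_lit 9643187349) (nat_lit 10) (nat_lit 5) (nat_lit 11) (nat_lit 5) (nat_lit 12) (nat_lit 4) (nat_lit 278) (nat_lit 240) (nat_lit 202)) (XT.lf (nat_lit 0) (nat_lit 27787687179) (nat_lit 76) (nat_lit 201724092) (nat_lit 152) (nat_lit 5102408991) (nat_lit 10) (nat_lit 5) (nat_lit 11) (nat_lit 5) (nat_lit 12) (nat_lit 4) (nat_lit 279) (nat_lit 240) (nat_lit 201))) (XT.nd (nat_lit 78) (nat_lit 76) (nat_lit 0) (XT.lf (nat_lit 0) (nat_lit 7022486894) (nat_lit 76) (nat_lit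 28310203930) (nat_lit 76) (nat_lit 19467664) (nat_lit 9) (nat_lit 4) (nat_lit 10) (nat_lit 5) (nat_lit 10) (nat_lit 4) (nat_lit 280) (nat_lit 240) (nat_lit 200)) (XT.nd (nat_lit 78) (nat_lit 0) (nat_lit 0) (XT.lf (nat_lit 0) (nat_lit 5342444255) (nat_lit 152) (nat_lit 17439842959) (nat_lit 76) (nat_lit 15004476957) (nat_lit 8) (nat_lit 5) (nat_lit 10) (nat_lit 5) (nat_lit 9) (nat_lit 4) (nat_lit 281) (nat_lit 240) (nat_lit 199)) (XT.lf (nat_lit 0) (nat_lit 11086434583) (nat_lit 152) (nat_lit 5758290026) (nat_lit 76) (nat_lit 23573782581) (nat_lit 8) (nat_lit 5) (nat_lit 10) (nat_lit 5) (nat_lit 9) (nat_lit 4) (nat_lit 282) (nat_lit 240) (nat_lit 198))))))) (XT.nd (nat_lit 702) (nat_lit 76) (nat_lit 0) (XT.nd (nat_lit 312) (nat_lit 228) (nat_lit 0) (XT.nd (nat_lit 156) (nat_lit 0) (nat_lit 0) (XT.nd (nat_lit 78) (nat_lit 0) (nat_lit 0) (XT.lf (nat_lit 0) (nat_lit 7008841874) (nat_lit 76)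 (nat_lit 10347750654) (nat_lit 152) (nat_lit 25900934346) (nat_lit 7) (nat_lit 5) (nat_lit 8) (nat_lit 5) (nat_lit 9) (nat_lit 4) (nat_lit 283) (nat_lit 240) (nat_lit 197)) (XT.lf (nat_lit 0) (nat_lit 20932883342) (nat_lit 76) (nat_lit 3255080764) (nat_lit 152) (nat_lit 22132788461) (nat_lit 7) (nat_lit 5) (nat_lit 8) (nat_lit 5) (nat_lit 9) (nat_lit 4) (nat_lit 284) (nat_lit 240) (nat_lit 196))) (XT.nd (nat_lit 78) (nat_lit 0) (nat_lit 0) (XT.lf (nat_lit 0) (nat_lit 31596505539) (nat_lit 152) (nat_lit 13793378027) (nat_lit 0) (nat_lit 4237679448) (nat_lit 7) (nat_lit 5) (nat_lit 9) (nat_lit 4) (nat_lit 7) (nat_lit 4) (nat_lit 285) (nat_lit 240) (nat_lit 195)) (XT.lf (nat_lit 0) (nat_lit 39617325870) (nat_lit 152) (nat_lit 1387709884) (nat_lit 0) (nat_lit 12192958050) (nat_lit 7) (nat_lit 5) (nat_lit 9) (nat_lit 4) (nat_lit 7) (nat_lit 4) (nat_lit 286) (nat_lit 240) (nat_lit 194)))) (XT.nd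 (nat_lit 156) (nat_lit 152) (nat_lit 0) (XT.nd (nat_lit 78) (nat_lit 0) (nat_lit 0) (XT.lf (nat_lit 0) (nat_lit 12348706948) (nat_lit 76) (nat_lit 36091225926) (nat_lit 76) (nat_lit 8606171320) (nat_lit 6) (nat_lit 4) (nat_lit 7) (nat_lit 5) (nat_lit 7) (nat_lit 4) (nat_lit 287) (nat_lit 240) (nat_lit 193)) (XT.lf (nat_lit 0) (nat_lit 27179125862) (nat_lit 76) (nat_lit 30782288856) (nat_lit 76) (nat_lit 3241042781) (nat_lit 6) (nat_lit 4) (nat_lit 7) (nat_lit 5) (nat_lit 7) (nat_lit 4) (nat_lit 288) (nat_lit 240) (nat_lit 192))) (XT.nd (nat_lit 78) (nat_lit 76) (nat_lit 0) (XT.lf (nat_lit 0) (nat_lit 2442257437) (nat_lit 152) (nat_lit 22586647465) (nat_lit 76) (nat_lit 40661928617) (nat_lit 5) (nat_lit 5) (nat_lit 7) (nat_lit 5) (nat_lit 6) (nat_lit 4) (nat_lit 289) (nat_lit 240) (nat_lit 191)) (XT.nd (nat_lit 78) (nat_lit 76) (nat_lit 0) (XT.lf (nat_lit 0) (nat_lit 8441043834) (nat_lit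 152) (nat_lit 10337310478) (nat_lit 76) (nat_lit 51758588792) (nat_lit 5) (nat_lit 5) (nat_lit 7) (nat_lit 5) (nat_lit 6) (nat_lit 4) (nat_lit 290) (nat_lit 240) (nat_lit 190)) (XT.lf (nat_lit 0) (nat_lit 2942033182) (nat_lit 76) (nat_lit 11998498584) (nat_lit 152) (nat_lit 60829205593) (nat_lit 4) (nat_lit 5) (nat_lit 5) (nat_lit 5) (nat_lit 6) (nat_lit 4) (nat_lit 291) (nat_lit 240) (nat_lit 189)))))) (XT.nd (nat_lit 390) (nat_lit 76) (nat_lit 0) (XT.nd (nat_lit 156) (nat_lit 0) (nat_lit 0) (XT.nd (nat_lit 78) (nat_lit 0) (nat_lit 0) (XT.lf (nat_lit 0) (nat_lit 17610679332) (nat_lit 76) (nat_lit 4505437096) (nat_lit 152) (nat_lit 59297265020) (nat_lit 4) (nat_lit 5) (nat_lit 5) (nat_lit 5) (nat_lit 6) (nat_lit 4) (nat_lit 292) (nat_lit 240) (nat_lit 188)) (XT.lf (nat_lit 0) (nat_lit 29899329288) (nat_lit 152) (nat_lit 54151640916) (nat_lit 0) (nat_lit 3455898511) (nat_lit 4) (nat_lit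 5) (nat_lit 6) (nat_lit 4) (nat_lit 4) (nat_lit 4) (nat_lit 293) (nat_lit 240) (nat_lit 187))) (XT.nd (nat_lit 78) (nat_lit 0) (nat_lit 0) (XT.lf (nat_lit 0) (nat_lit 38360407242) (nat_lit 152) (nat_lit 43841443258) (nat_lit 0) (nat_lit 11883252507) (nat_lit 4) (nat_lit 5) (nat_lit 6) (nat_lit 4) (nat_lit 4) (nat_lit 4) (nat_lit 294) (nat_lit 240) (nat_lit 186)) (XT.nd (nat_lit 78) (nat_lit 0) (nat_lit 0) (XT.lf (nat_lit 0) (nat_lit 47479147513) (nat_lit 152) (nat_lit 32740669173) (nat_lit 0) (nat_lit 20970766890) (nat_lit 4) (nat_lit 5) (nat_lit 6) (nat_lit 4) (nat_lit 4) (nat_lit 4) (nat_lit 295) (nat_lit 240) (nat_lit 185)) (XT.lf (nat_lit 0) (nat_lit 57309587081) (nat_lit 152) (nat_lit 20783536297) (nat_lit 0) (nat_lit 30772293598) (nat_lit 4) (nat_lit 5) (nat_lit 6) (nat_lit 4) (nat_lit 4) (nat_lit 4) (nat_lit 296) (nat_lit 240) (nat_lit 184))))) (XT.nd (nat_lit 156) (nat_lit 0)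 (nat_lit 0) (XT.nd (nat_lit 78) (nat_lit 76) (nat_lit 0) (XT.lf (nat_lit 0) (nat_lit 67909980401) (nat_lit 152) (nat_lit 7899187547) (nat_lit 0) (nat_lit 41345915753) (nat_lit 4) (nat_lit 5) (nat_lit 6) (nat_lit 4) (nat_lit 4) (nat_lit 4) (nat_lit 297) (nat_lit 240) (nat_lit 183)) (XT.lf (nat_lit 0) (nat_lit 6186743192) (nat_lit 76) (nat_lit 73252993826) (nat_lit 76) (nat_lit 46664141062) (nat_lit 3) (nat_lit 4) (nat_lit 4) (nat_lit 5) (nat_lit 4) (nat_lit 4) (nat_lit 298) (nat_lit 240) (nat_lit 182))) (XT.nd (nat_lit 78) (nat_lit 0) (nat_lit 0) (XT.lf (nat_lit 0) (nat_lit 21655626725) (nat_lit 76) (nat_lit 70359310118) (nat_lit 76) (nat_lit 43747505393) (nat_lit 3) (nat_lit 4) (nat_lit 4) (nat_lit 5) (nat_lit 4) (nat_lit 4) (nat_lit 299) (nat_lit 240) (nat_lit 181)) (XT.nd (nat_lit 78) (nat_lit 0) (nat_lit 0) (XT.lf (nat_lit 0) (nat_lit 38337947695) (nat_lit 76) (nat_lit 67244745630)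 (nat_lit 76) (nat_lit 40611689091) (nat_lit 3) (nat_lit 4) (nat_lit 4) (nat_lit 5) (nat_lit 4) (nat_lit 4) (nat_lit 300) (nat_lit 240) (nat_lit 180)) (XT.lf (nat_lit 0) (nat_lit 56332564301) (nat_lit 76) (nat_lit 63890843685) (nat_lit 76) (nat_lit 37238109541) (nat_lit 3) (nat_lit 4) (nat_lit 4) (nat_lit 5) (nat_lit 4) (nat_lit 4) (nat_lit 301) (nat_lit 240) (nat_lit 179))))))))
noncomputable def xc50 : XT := (XT.nd (nat_lit 1404) (nat_lit 0) (nat_lit 0) (XT.nd (nat_lit 702) (nat_lit 76) (nat_lit 0) (XT.nd (nat_lit 312) (nat_lit 76) (nat_lit 0) (XT.nd (nat_lit 156) (nat_lit 0) (nat_lit 0) (XT.nd (nat_lit 78) (nat_lit 0) (nat_lit 0) (XT.lf (nat_lit 0) (nat_lit 75746111307) (nat_lit 76) (nat_lit 60277729309) (nat_lit 76) (nat_lit 33606775158) (nat_lit 3) (nat_lit 4) (nat_lit 4) (nat_lit 5) (nat_lit 4) (nat_lit 4) (nat_lit 302) (nat_lit 240) (nat_lit 178)) (XT.lf (nat_lit 0) (nat_lit 96693631956)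 (nat_lit 76) (nat_lit 56383991453) (nat_lit 76) (nat_lit 29696166927) (nat_lit 3) (nat_lit 4) (nat_lit 4) (nat_lit 5) (nat_lit 4) (nat_lit 4) (nat_lit 303) (nat_lit 240) (nat_lit 177))) (XT.nd (nat_lit 78) (nat_lit 0) (nat_lit 0) (XT.lf (nat_lit 0) (nat_lit 119299259702) (nat_lit 76) (nat_lit 52186556114) (nat_lit 76) (nat_lit 25483110870) (nat_lit 3) (nat_lit 4) (nat_lit 4) (nat_lit 5) (nat_lit 4) (nat_lit 4) (nat_lit 304) (nat_lit 240) (nat_lit 176)) (XT.lf (nat_lit 0) (nat_lit 143696953821) (nat_lit 76) (nat_lit 47660549603) (nat_lit 76) (nat_lit 20942640731) (nat_lit 3) (nat_lit 4) (nat_lit 4) (nat_lit 5) (nat_lit 4) (nat_lit 4) (nat_lit 305) (nat_lit 240) (nat_lit 175)))) (XT.nd (nat_lit 156) (nat_lit 76) (nat_lit 0) (XT.nd (nat_lit 78) (nat_lit 0) (nat_lit 0) (XT.lf (nat_lit 0) (nat_lit 170031293242) (nat_lit 76) (nat_lit 42779151140) (nat_lit 76) (nat_lit 16047850020) (nat_lit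 3) (nat_lit 4) (nat_lit 4) (nat_lit 5) (nat_lit 4) (nat_lit 4) (nat_lit 306) (nat_lit 240) (nat_lit 174)) (XT.lf (nat_lit 0) (nat_lit 198458333309) (nat_lit 76) (nat_lit 37513433919) (nat_lit 76) (nat_lit 10769732569) (nat_lit 3) (nat_lit 4) (nat_lit 4) (nat_lit 5) (nat_lit 4) (nat_lit 4) (nat_lit 307) (nat_lit 240) (nat_lit 173))) (XT.nd (nat_lit 78) (nat_lit 76) (nat_lit 0) (XT.lf (nat_lit 0) (nat_lit 229146530556) (nat_lit 76) (nat_lit 31832193690) (nat_lit 76) (nat_lit 5077010646) (nat_lit 3) (nat_lit 4) (nat_lit 4) (nat_lit 5) (nat_lit 4) (nat_lit 4) (nat_lit 308) (nat_lit 240) (nat_lit 172)) (XT.nd (nat_lit 78) (nat_lit 0) (nat_lit 0) (XT.lf (nat_lit 0) (nat_lit 1029994139) (nat_lit 152) (nat_lit 24654326255) (nat_lit 76) (nat_lit 261230303377) (nat_lit 2) (nat_lit 5) (nat_lit 4) (nat_lit 5) (nat_lit 3) (nat_lit 4) (nat_lit 309) (nat_lit 240) (nat_lit 171)) (XT.lf (nat_lit 0) (nat_lit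 7443719066) (nat_lit 152) (nat_lit 11516033857) (nat_lit 76) (nat_lit 290478515588) (nat_lit 2) (nat_lit 5) (nat_lit 4) (nat_lit 5) (nat_lit 3) (nat_lit 4) (nat_lit 310) (nat_lit 240) (nat_lit 170)))))) (XT.nd (nat_lit 312) (nat_lit 0) (nat_lit 0) (XT.nd (nat_lit 156) (nat_lit 0) (nat_lit 0) (XT.nd (nat_lit 78) (nat_lit 0) (nat_lit 0) (XT.lf (nat_lit 0) (nat_lit 2750839822) (nat_lit 76) (nat_lit 11656775936) (nat_lit 152) (nat_lit 319354342705) (nat_lit 1) (nat_lit 5) (nat_lit 2) (nat_lit 5) (nat_lit 3) (nat_lit 4) (nat_lit 311) (nat_lit 240) (nat_lit 169)) (XT.lf (nat_lit 0) (nat_lit 18560228541) (nat_lit 76) (nat_lit 3563400928) (nat_lit 152) (nat_lit 337898170658) (nat_lit 1) (nat_lit 5) (nat_lit 2) (nat_lit 5) (nat_lit 3) (nat_lit 4) (nat_lit 312) (nat_lit 240) (nat_lit 168))) (XT.nd (nat_lit 78) (nat_lit 0) (nat_lit 0) (XT.lf (nat_lit 0) (nat_lit 30532512004) (nat_lit 152) (nat_lit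 352838418787) (nat_lit 0) (nat_lit 5007725224) (nat_lit 1) (nat_lit 5) (nat_lit 3) (nat_lit 4) (nat_lit 1) (nat_lit 4) (nat_lit 313) (nat_lit 240) (nat_lit 167)) (XT.lf (nat_lit 0) (nat_lit 39669332550) (nat_lit 152) (nat_lit 365194317367) (nat_lit 0) (nat_lit 14137654899) (nat_lit 1) (nat_lit 5) (nat_lit 3) (nat_lit 4) (nat_lit 1) (nat_lit 4) (nat_lit 314) (nat_lit 240) (nat_lit 166)))) (XT.nd (nat_lit 156) (nat_lit 0) (nat_lit 0) (XT.nd (nat_lit 78) (nat_lit 0) (nat_lit 0) (XT.lf (nat_lit 0) (nat_lit 49532600554) (nat_lit 152) (nat_lit 378546852793) (nat_lit 0) (nat_lit 23994542466) (nat_lit 1) (nat_lit 5) (nat_lit 3) (nat_lit 4) (nat_lit 1) (nat_lit 4) (nat_lit 315) (nat_lit 240) (nat_lit 165)) (XT.lf (nat_lit 0) (nat_lit 60180765011) (nat_lit 152) (nat_lit 392975151200) (nat_lit 0) (nat_lit 34636799111) (nat_lit 1) (nat_lit 5) (nat_lit 3) (nat_lit 4) (nat_lit 1) (nat_lit 4) (nat_lit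 316) (nat_lit 240) (nat_lit 164))) (XT.nd (nat_lit 78) (nat_lit 0) (nat_lit 0) (XT.lf (nat_lit 0) (nat_lit 71676926154) (nat_lit 152) (nat_lit 408564713616) (nat_lit 0) (nat_lit 46127490059) (nat_lit 1) (nat_lit 5) (nat_lit 3) (nat_lit 4) (nat_lit 1) (nat_lit 4) (nat_lit 317) (nat_lit 240) (nat_lit 163)) (XT.nd (nat_lit 78) (nat_lit 0) (nat_lit 0) (XT.lf (nat_lit 0) (nat_lit 84089209385) (nat_lit 152) (nat_lit 425407922632) (nat_lit 0) (nat_lit 58534708293) (nat_lit 1) (nat_lit 5) (nat_lit 3) (nat_lit 4) (nat_lit 1) (nat_lit 4) (nat_lit 318) (nat_lit 240) (nat_lit 162)) (XT.lf (nat_lit 0) (nat_lit 97491168972) (nat_lit 152) (nat_lit 443604589858) (nat_lit 0) (nat_lit 71931978069) (nat_lit 1) (nat_lit 5) (nat_lit 3) (nat_lit 4) (nat_lit 1) (nat_lit 4) (nat_lit 319) (nat_lit 240) (nat_lit 161))))))) (XT.nd (nat_lit 31746) (nat_lit 0) (nat_lit 3952) (XT.nd (nat_lit 31356) (nat_lit 0) (nat_lit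 7752) (XT.nd (nat_lit 156) (nat_lit 0) (nat_lit 0) (XT.nd (nat_lit 78) (nat_lit 0) (nat_lit 0) (XT.lf (nat_lit 0) (nat_lit 111962223937) (nat_lit 152) (nat_lit 463262547396) (nat_lit 0) (nat_lit 86398690616) (nat_lit 1) (nat_lit 5) (nat_lit 3) (nat_lit 4) (nat_lit 1) (nat_lit 4) (nat_lit 320) (nat_lit 240) (nat_lit 160)) (XT.lf (nat_lit 0) (nat_lit 127588128678) (nat_lit 152) (nat_lit 484498286846) (nat_lit 0) (nat_lit 102020574601) (nat_lit 1) (nat_lit 5) (nat_lit 3) (nat_lit 4) (nat_lit 1) (nat_lit 4) (nat_lit 321) (nat_lit 240) (nat_lit 159))) (XT.nd (nat_lit 78) (nat_lit 0) (nat_lit 0) (XT.lf (nat_lit 0) (nat_lit 144461481151) (nat_lit 152) (nat_lit 507437649627) (nat_lit 0) (nat_lit 118890204150) (nat_lit 1) (nat_lit 5) (nat_lit 3) (nat_lit 4) (nat_lit 1) (nat_lit 4) (nat_lit 322) (nat_lit 240) (nat_lit 158)) (XT.lf (nat_lit 0) (nat_lit 162682271591) (nat_lit 152) (nat_lit 532216572704)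 (nat_lit 0) (nat_lit 137107547439) (nat_lit 1) (nat_lit 5) (nat_lit 3) (nat_lit 4) (nat_lit 1) (nat_lit 4) (nat_lit 323) (nat_lit 240) (nat_lit 157)))) (XT.nd (nat_lit 156) (nat_lit 532) (nat_lit 0) (XT.nd (nat_lit 78) (nat_lit 0) (nat_lit 0) (XT.lf (nat_lit 0) (nat_lit 949491908) (nat_lit 228) (nat_lit 1143119066) (nat_lit 228) (nat_lit 1143119066) (nat_lit 110) (nat_lit 3) (nat_lit 113) (nat_lit 3) (nat_lit 113) (nat_lit 5) (nat_lit 241) (nat_lit 241) (nat_lit 238)) (XT.lf (nat_lit 76) (nat_lit 2234596216) (nat_lit 0) (nat_lit 3567632614) (nat_lit 228) (nat_lit 710322329) (nat_lit 111) (nat_lit 5) (nat_lit 110) (nat_lit 3) (nat_lit 113) (nat_lit 5) (nat_lit 242) (nat_lit 241) (nat_lit 237))) (XT.nd (nat_lit 78) (nat_lit 304) (nat_lit 0) (XT.lf (nat_lit 76) (nat_lit 378624982) (nat_lit 0) (nat_lit 2626314271) (nat_lit 304) (nat_lit 3569059280) (nat_lit 108) (nat_lit 5) (nat_lit 107)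 (nat_lit 5) (nat_lit 111) (nat_lit 5) (nat_lit 243) (nat_lit 241) (nat_lit 236)) (XT.nd (nat_lit 78) (nat_lit 0) (nat_lit 76) (XT.lf (nat_lit 0) (nat_lit 43284648) (nat_lit 304) (nat_lit 1322175625) (nat_lit 380) (nat_lit 5291171375) (nat_lit 103) (nat_lit 5) (nat_lit 107) (nat_lit 5) (nat_lit 108) (nat_lit 5) (nat_lit 244) (nat_lit 241) (nat_lit 235)) (XT.lf (nat_lit 0) (nat_lit 3538101210) (nat_lit 304) (nat_lit 2971917295) (nat_lit 76) (nat_lit 249059240) (nat_lit 104) (nat_lit 5) (nat_lit 108) (nat_lit 5) (nat_lit 105) (nat_lit 5) (nat_lit 245) (nat_lit 241) (nat_lit 234)))))) (XT.nd (nat_lit 390) (nat_lit 2052) (nat_lit 0) (XT.nd (nat_lit 156) (nat_lit 1064) (nat_lit 0) (XT.nd (nat_lit 78) (nat_lit 380) (nat_lit 0) (XT.lf (nat_lit 0) (nat_lit 183456313) (nat_lit 380) (nat_lit 4573546881) (nat_lit 76) (nat_lit 2126439892) (nat_lit 99) (nat_lit 5) (nat_lit 104) (nat_lit 5) (nat_lit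 100) (nat_lit 5) (nat_lit 246) (nat_lit 241) (nat_lit 233)) (XT.lf (nat_lit 0) (nat_lit 853621436) (nat_lit 380) (nat_lit 2653186386) (nat_lit 456) (nat_lit 3522016376) (nat_lit 94) (nat_lit 5) (nat_lit 99) (nat_lit 5) (nat_lit 100) (nat_lit 5) (nat_lit 247) (nat_lit 241) (nat_lit 232))) (XT.nd (nat_lit 78) (nat_lit 1064) (nat_lit 0) (XT.lf (nat_lit 0) (nat_lit 6664255719) (nat_lit 380) (nat_lit 222874079) (nat_lit 456) (nat_lit 310703900) (nat_lit 94) (nat_lit 5) (nat_lit 99) (nat_lit 5) (nat_lit 100) (nat_lit 5) (nat_lit 248) (nat_lit 241) (nat_lit 231)) (XT.nd (nat_lit 78) (nat_lit 532) (nat_lit 0) (XT.lf (nat_lit 0) (nat_lit 2909714015) (nat_lit 532) (nat_lit 1952553786) (nat_lit 76) (nat_lit 2524337750) (nat_lit 87) (nat_lit 5) (nat_lit 94) (nat_lit 5) (nat_lit 88) (nat_lit 5) (nat_lit 249) (nat_lit 241) (nat_lit 230)) (XT.lf (nat_lit 0) (nat_lit 4219590060) (nat_lit 532) (nat_lit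 1981541643) (nat_lit 608) (nat_lit 1399148237) (nat_lit 80) (nat_lit 5) (nat_lit 87) (nat_lit 5) (nat_lit 88) (nat_lit 5) (nat_lit 250) (nat_lit 241) (nat_lit 229))))) (XT.nd (nat_lit 156) (nat_lit 684) (nat_lit 0) (XT.nd (nat_lit 78) (nat_lit 684) (nat_lit 0) (XT.lf (nat_lit 0) (nat_lit 1719819064) (nat_lit 684) (nat_lit 4882549047) (nat_lit 76) (nat_lit 1235465268) (nat_lit 71) (nat_lit 5) (nat_lit 80) (nat_lit 5) (nat_lit 72) (nat_lit 5) (nat_lit 251) (nat_lit 241) (nat_lit 228)) (XT.lf (nat_lit 0) (nat_lit 1602845603) (nat_lit 684) (nat_lit 3326314430) (nat_lit 760) (nat_lit 3170625823) (nat_lit 62) (nat_lit 5) (nat_lit 71) (nat_lit 5) (nat_lit 72) (nat_lit 5) (nat_lit 252) (nat_lit 241) (nat_lit 227))) (XT.nd (nat_lit 78) (nat_lit 380) (nat_lit 0) (XT.lf (nat_lit 0) (nat_lit 183904951) (nat_lit 304) (nat_lit 8088717317) (nat_lit 380) (nat_lit 117162255) (nat_lit 58) (nat_lit 5) (nat_lit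 62) (nat_lit 5) (nat_lit 63) (nat_lit 5) (nat_lit 253) (nat_lit 241) (nat_lit 226)) (XT.nd (nat_lit 78) (nat_lit 304) (nat_lit 0) (XT.lf (nat_lit 0) (nat_lit 3043120423) (nat_lit 380) (nat_lit 1392077551) (nat_lit 76) (nat_lit 4267930609) (nat_lit 57) (nat_lit 5) (nat_lit 62) (nat_lit 5) (nat_lit 58) (nat_lit 5) (nat_lit 254) (nat_lit 241) (nat_lit 225)) (XT.lf (nat_lit 0) (nat_lit 5953194561) (nat_lit 304) (nat_lit 400468830) (nat_lit 380) (nat_lit 2693486403) (nat_lit 53) (nat_lit 5) (nat_lit 57) (nat_lit 5) (nat_lit 58) (nat_lit 5) (nat_lit 255) (nat_lit 241) (nat_lit 224))))))))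
noncomputable def xc51 : XT := (XT.nd (nat_lit 1404) (nat_lit 836) (nat_lit 0) (XT.nd (nat_lit 702) (nat_lit 988) (nat_lit 0) (XT.nd (nat_lit 312) (nat_lit 912) (nat_lit 0) (XT.nd (nat_lit 156) (nat_lit 304) (nat_lit 0) (XT.nd (nat_lit 78) (nat_lit 304) (nat_lit 0) (XT.lf (nat_lit 0) (nat_lit 467429495) (nat_lit 380) (nat_lit 5034405160) (nat_lit 76) (nat_lit 3918479575) (nat_lit 48) (nat_lit 5) (nat_lit 53) (nat_lit 5) (nat_lit 49) (nat_lit 5) (nat_lit 256) (nat_lit 241) (nat_lit 223)) (XT.lf (nat_lit 0) (nat_lit 2583127655) (nat_lit 304) (nat_lit 1133246311) (nat_lit 380) (nat_lit 6108913137) (nat_lit 44) (nat_lit 5) (nat_lit 48) (nat_lit 5) (nat_lit 49) (nat_lit 5) (nat_lit 257) (nat_lit 241) (nat_lit 222))) (XT.nd (nat_lit 78) (nat_lit 76) (nat_lit 0) (XT.lf (nat_lit 0) (nat_lit 489701994) (nat_lit 228) (nat_lit 6724107076) (nat_lit 304) (nat_lit 3050011790) (nat_lit 41) (nat_lit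 5) (nat_lit 44) (nat_lit 5) (nat_lit 45) (nat_lit 5) (nat_lit 258) (nat_lit 241) (nat_lit 221)) (XT.lf (nat_lit 0) (nat_lit 234742502) (nat_lit 304) (nat_lit 1854720962) (nat_lit 76) (nat_lit 8648834876) (nat_lit 40) (nat_lit 5) (nat_lit 44) (nat_lit 5) (nat_lit 41) (nat_lit 5) (nat_lit 259) (nat_lit 241) (nat_lit 220)))) (XT.nd (nat_lit 156) (nat_lit 456) (nat_lit 0) (XT.nd (nat_lit 78) (nat_lit 228) (nat_lit 0) (XT.lf (nat_lit 0) (nat_lit 3682259248) (nat_lit 304) (nat_lit 4620304174) (nat_lit 76) (nat_lit 2945811823) (nat_lit 37) (nat_lit 5) (nat_lit 41) (nat_lit 5) (nat_lit 38) (nat_lit 5) (nat_lit 260) (nat_lit 241) (nat_lit 219)) (XT.lf (nat_lit 0) (nat_lit 3967876370) (nat_lit 228) (nat_lit 3428903710) (nat_lit 304) (nat_lit 4403365509) (nat_lit 34) (nat_lit 5) (nat_lit 37) (nat_lit 5) (nat_lit 38) (nat_lit 5) (nat_lit 261) (nat_lit 241) (nat_lit 218))) (XT.nd (nat_lit 78) (nat_lit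 228) (nat_lit 0) (XT.lf (nat_lit 0) (nat_lit 832897246) (nat_lit 228) (nat_lit 10567111173) (nat_lit 304) (nat_lit 996886134) (nat_lit 31) (nat_lit 5) (nat_lit 34) (nat_lit 5) (nat_lit 35) (nat_lit 5) (nat_lit 262) (nat_lit 241) (nat_lit 217)) (XT.nd (nat_lit 78) (nat_lit 152) (nat_lit 0) (XT.lf (nat_lit 0) (nat_lit 2665517379) (nat_lit 304) (nat_lit 2842146842) (nat_lit 76) (nat_lit 7528528273) (nat_lit 30) (nat_lit 5) (nat_lit 34) (nat_lit 5) (nat_lit 31) (nat_lit 5) (nat_lit 263) (nat_lit 241) (nat_lit 216)) (XT.lf (nat_lit 0) (nat_lit 6572395566) (nat_lit 228) (nat_lit 7118816212) (nat_lit 76) (nat_lit 35623218) (nat_lit 28) (nat_lit 5) (nat_lit 31) (nat_lit 5) (nat_lit 29) (nat_lit 5) (nat_lit 264) (nat_lit 241) (nat_lit 215)))))) (XT.nd (nat_lit 312) (nat_lit 380) (nat_lit 0) (XT.nd (nat_lit 156) (nat_lit 304) (nat_lit 0) (XT.nd (nat_lit 78) (nat_lit 76) (nat_lit 0) (XT.lf (nat_lit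 0) (nat_lit 2262552405) (nat_lit 228) (nat_lit 8595556920) (nat_lit 304) (nat_lit 3611618517) (nat_lit 25) (nat_lit 5) (nat_lit 28) (nat_lit 5) (nat_lit 29) (nat_lit 5) (nat_lit 265) (nat_lit 241) (nat_lit 214)) (XT.lf (nat_lit 0) (nat_lit 225443712) (nat_lit 304) (nat_lit 2781048450) (nat_lit 76) (nat_lit 12264784353) (nat_lit 24) (nat_lit 5) (nat_lit 28) (nat_lit 5) (nat_lit 25) (nat_lit 5) (nat_lit 266) (nat_lit 241) (nat_lit 213))) (XT.nd (nat_lit 78) (nat_lit 152) (nat_lit 0) (XT.lf (nat_lit 0) (nat_lit 4309772652) (nat_lit 228) (nat_lit 8753515397) (nat_lit 76) (nat_lit 3067614668) (nat_lit 22) (nat_lit 5) (nat_lit 25) (nat_lit 5) (nat_lit 23) (nat_lit 5) (nat_lit 267) (nat_lit 241) (nat_lit 212)) (XT.lf (nat_lit 0) (nat_lit 1234323391) (nat_lit 152) (nat_lit 7509936085) (nat_lit 228) (nat_lit 8314105758) (nat_lit 20) (nat_lit 5) (nat_lit 22) (nat_lit 5) (nat_lit 23) (nat_lit 5)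 (nat_lit 268) (nat_lit 241) (nat_lit 211)))) (XT.nd (nat_lit 156) (nat_lit 228) (nat_lit 0) (XT.nd (nat_lit 78) (nat_lit 152) (nat_lit 0) (XT.lf (nat_lit 0) (nat_lit 12195434687) (nat_lit 152) (nat_lit 1399694182) (nat_lit 228) (nat_lit 4462033958) (nat_lit 20) (nat_lit 5) (nat_lit 22) (nat_lit 5) (nat_lit 23) (nat_lit 5) (nat_lit 269) (nat_lit 241) (nat_lit 210)) (XT.lf (nat_lit 0) (nat_lit 4839471948) (nat_lit 152) (nat_lit 14066517028) (nat_lit 228) (nat_lit 226482209) (nat_lit 18) (nat_lit 5) (nat_lit 20) (nat_lit 5) (nat_lit 21) (nat_lit 4) (nat_lit 270) (nat_lit 241) (nat_lit 209))) (XT.nd (nat_lit 78) (nat_lit 152) (nat_lit 0) (XT.lf (nat_lit 0) (nat_lit 4254135130) (nat_lit 228) (nat_lit 3904745940) (nat_lit 76) (nat_lit 12129438918) (nat_lit 17) (nat_lit 5) (nat_lit 20) (nat_lit 5) (nat_lit 18) (nat_lit 5) (nat_lit 271) (nat_lit 241) (nat_lit 208)) (XT.nd (nat_lit 78) (nat_lit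 0) (nat_lit 0) (XT.lf (nat_lit 0) (nat_lit 7429103116) (nat_lit 152) (nat_lit 1696332276) (nat_lit 228) (nat_lit 12409173008) (nat_lit 15) (nat_lit 5) (nat_lit 17) (nat_lit 5) (nat_lit 18) (nat_lit 5) (nat_lit 272) (nat_lit 241) (nat_lit 207)) (XT.lf (nat_lit 0) (nat_lit 14465314604) (nat_lit 228) (nat_lit 3269035652) (nat_lit 76) (nat_lit 5142459370) (nat_lit 15) (nat_lit 5) (nat_lit 18) (nat_lit 5) (nat_lit 16) (nat_lit 4) (nat_lit 273) (nat_lit 241) (nat_lit 206))))))) (XT.nd (nat_lit 702) (nat_lit 304) (nat_lit 0) (XT.nd (nat_lit 312) (nat_lit 228) (nat_lit 0) (XT.nd (nat_lit 156) (nat_lit 152) (nat_lit 0) (XT.nd (nat_lit 78) (nat_lit 76) (nat_lit 0) (XT.lf (nat_lit 0) (nat_lit 8571446381) (nat_lit 76) (nat_lit 11756009628) (nat_lit 152) (nat_lit 3994319463) (nat_lit 14) (nat_lit 5) (nat_lit 15) (nat_lit 5) (nat_lit 16) (nat_lit 4) (nat_lit 274) (nat_lit 241) (nat_lit 205)) (XT.lf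 (nat_lit 0) (nat_lit 744098684) (nat_lit 152) (nat_lit 4522841085) (nat_lit 76) (nat_lit 20615282546) (nat_lit 13) (nat_lit 5) (nat_lit 15) (nat_lit 5) (nat_lit 14) (nat_lit 5) (nat_lit 275) (nat_lit 241) (nat_lit 204))) (XT.nd (nat_lit 78) (nat_lit 0) (nat_lit 0) (XT.lf (nat_lit 0) (nat_lit 5812798925) (nat_lit 228) (nat_lit 19907868840) (nat_lit 76) (nat_lit 1839121642) (nat_lit 11) (nat_lit 5) (nat_lit 14) (nat_lit 5) (nat_lit 12) (nat_lit 4) (nat_lit 276) (nat_lit 241) (nat_lit 203)) (XT.lf (nat_lit 0) (nat_lit 11397971351) (nat_lit 228) (nat_lit 8592013132) (nat_lit 76) (nat_lit 9376136019) (nat_lit 11) (nat_lit 5) (nat_lit 14) (nat_lit 5) (nat_lit 12) (nat_lit 4) (nat_lit 277) (nat_lit 241) (nat_lit 202)))) (XT.nd (nat_lit 156) (nat_lit 152) (nat_lit 0) (XT.nd (nat_lit 78) (nat_lit 0) (nat_lit 0) (XT.lf (nat_lit 0) (nat_lit 3656836832) (nat_lit 76) (nat_lit 13776593293) (nat_lit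 152) (nat_lit 13883453816) (nat_lit 10) (nat_lit 5) (nat_lit 11) (nat_lit 5) (nat_lit 12) (nat_lit 4) (nat_lit 278) (nat_lit 241) (nat_lit 201)) (XT.lf (nat_lit 0) (nat_lit 17106978550) (nat_lit 76) (nat_lit 6943431511) (nat_lit 152) (nat_lit 9368456288) (nat_lit 10) (nat_lit 5) (nat_lit 11) (nat_lit 5) (nat_lit 12) (nat_lit 4) (nat_lit 279) (nat_lit 241) (nat_lit 200))) (XT.nd (nat_lit 78) (nat_lit 152) (nat_lit 0) (XT.lf (nat_lit 0) (nat_lit 31155857162) (nat_lit 152) (nat_lit 4143742276) (nat_lit 0) (nat_lit 391537766) (nat_lit 10) (nat_lit 5) (nat_lit 12) (nat_lit 4) (nat_lit 10) (nat_lit 4) (nat_lit 280) (nat_lit 241) (nat_lit 199)) (XT.nd (nat_lit 78) (nat_lit 0) (nat_lit 0) (XT.lf (nat_lit 0) (nat_lit 881023559) (nat_lit 152) (nat_lit 29051848336) (nat_lit 76) (nat_lit 8200939502) (nat_lit 8) (nat_lit 5) (nat_lit 10) (nat_lit 5) (nat_lit 9) (nat_lit 4) (nat_lit 281) (nat_lit 241)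 (nat_lit 198)) (XT.lf (nat_lit 0) (nat_lit 6604446929) (nat_lit 152) (nat_lit 17405522315) (nat_lit 76) (nat_lit 16756647002) (nat_lit 8) (nat_lit 5) (nat_lit 10) (nat_lit 5) (nat_lit 9) (nat_lit 4) (nat_lit 282) (nat_lit 241) (nat_lit 197)))))) (XT.nd (nat_lit 390) (nat_lit 228) (nat_lit 0) (XT.nd (nat_lit 156) (nat_lit 0) (nat_lit 0) (XT.nd (nat_lit 78) (nat_lit 76) (nat_lit 0) (XT.lf (nat_lit 0) (nat_lit 12746133732) (nat_lit 152) (nat_lit 4895334636) (nat_lit 76) (nat_lit 25970622121) (nat_lit 8) (nat_lit 5) (nat_lit 10) (nat_lit 5) (nat_lit 9) (nat_lit 4) (nat_lit 283) (nat_lit 241) (nat_lit 196)) (XT.lf (nat_lit 0) (nat_lit 8835644966) (nat_lit 76) (nat_lit 10644783362) (nat_lit 152) (nat_lit 27199770408) (nat_lit 7) (nat_lit 5) (nat_lit 8) (nat_lit 5) (nat_lit 9) (nat_lit 4) (nat_lit 284) (nat_lit 241) (nat_lit 195))) (XT.nd (nat_lit 78) (nat_lit 0) (nat_lit 0) (XT.lf (nat_lit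 0) (nat_lit 23779824881) (nat_lit 76) (nat_lit 3024017462) (nat_lit 152) (nat_lit 23187449792) (nat_lit 7) (nat_lit 5) (nat_lit 8) (nat_lit 5) (nat_lit 9) (nat_lit 4) (nat_lit 285) (nat_lit 241) (nat_lit 194)) (XT.nd (nat_lit 78) (nat_lit 0) (nat_lit 0) (XT.lf (nat_lit 0) (nat_lit 34761739251) (nat_lit 152) (nat_lit 13785960966) (nat_lit 0) (nat_lit 5017193490) (nat_lit 7) (nat_lit 5) (nat_lit 9) (nat_lit 4) (nat_lit 7) (nat_lit 4) (nat_lit 286) (nat_lit 241) (nat_lit 193)) (XT.lf (nat_lit 0) (nat_lit 43377002003) (nat_lit 152) (nat_lit 470127320) (nat_lit 0) (nat_lit 13576264773) (nat_lit 7) (nat_lit 5) (nat_lit 9) (nat_lit 4) (nat_lit 7) (nat_lit 4) (nat_lit 287) (nat_lit 241) (nat_lit 192))))) (XT.nd (nat_lit 156) (nat_lit 152) (nat_lit 0) (XT.nd (nat_lit 78) (nat_lit 0) (nat_lit 0) (XT.lf (nat_lit 0) (nat_lit 14320501185) (nat_lit 76) (nat_lit 38556552593) (nat_lit 76) (nat_lit 8703786226)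 (nat_lit 6) (nat_lit 4) (nat_lit 7) (nat_lit 5) (nat_lit 7) (nat_lit 4) (nat_lit 288) (nat_lit 241) (nat_lit 191)) (XT.lf (nat_lit 0) (nat_lit 30264472303) (nat_lit 76) (nat_lit 32854157698) (nat_lit 76) (nat_lit 2953216204) (nat_lit 6) (nat_lit 4) (nat_lit 7) (nat_lit 5) (nat_lit 7) (nat_lit 4) (nat_lit 289) (nat_lit 241) (nat_lit 190))) (XT.nd (nat_lit 78) (nat_lit 76) (nat_lit 0) (XT.lf (nat_lit 0) (nat_lit 3128007535) (nat_lit 152) (nat_lit 23533132646) (nat_lit 76) (nat_lit 44259742436) (nat_lit 5) (nat_lit 5) (nat_lit 7) (nat_lit 5) (nat_lit 6) (nat_lit 4) (nat_lit 290) (nat_lit 241) (nat_lit 189)) (XT.nd (nat_lit 78) (nat_lit 76) (nat_lit 0) (XT.lf (nat_lit 0) (nat_lit 9570373177) (nat_lit 152) (nat_lit 10367585487) (nat_lit 76) (nat_lit 56218590274) (nat_lit 5) (nat_lit 5) (nat_lit 7) (nat_lit 5) (nat_lit 6) (nat_lit 4) (nat_lit 291) (nat_lit 241) (nat_lit 188)) (XT.lf (nat_lit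 0) (nat_lit 3939481628) (nat_lit 76) (nat_lit 12628603785) (nat_lit 152) (nat_lit 65241016006) (nat_lit 4) (nat_lit 5) (nat_lit 5) (nat_lit 5) (nat_lit 6) (nat_lit 4) (nat_lit 292) (nat_lit 241) (nat_lit 187))))))))
noncomputable def xc52 : XT := (XT.nd (nat_lit 1404) (nat_lit 76) (nat_lit 0) (XT.nd (nat_lit 702) (nat_lit 76) (nat_lit 0) (XT.nd (nat_lit 312) (nat_lit 76) (nat_lit 0) (XT.nd (nat_lit 156) (nat_lit 0) (nat_lit 0) (XT.nd (nat_lit 78) (nat_lit 0) (nat_lit 0) (XT.lf (nat_lit 0) (nat_lit 19725168670) (nat_lit 76) (nat_lit 4560525132) (nat_lit 152) (nat_lit 63620188783) (nat_lit 4) (nat_lit 5) (nat_lit 5) (nat_lit 5) (nat_lit 6) (nat_lit 4) (nat_lit 293) (nat_lit 241) (nat_lit 186)) (XT.lf (nat_lit 0) (nat_lit 32666326910) (nat_lit 152) (nat_lit 57815774922) (nat_lit 0) (nat_lit 4006049950) (nat_lit 4) (nat_lit 5) (nat_lit 6) (nat_lit 4) (nat_lit 4) (nat_lit 4) (nat_lit 294)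 (nat_lit 241) (nat_lit 185))) (XT.nd (nat_lit 78) (nat_lit 0) (nat_lit 0) (XT.lf (nat_lit 0) (nat_lit 41776509525) (nat_lit 152) (nat_lit 46730242730) (nat_lit 0) (nat_lit 13087319705) (nat_lit 4) (nat_lit 5) (nat_lit 6) (nat_lit 4) (nat_lit 4) (nat_lit 4) (nat_lit 295) (nat_lit 241) (nat_lit 184)) (XT.lf (nat_lit 0) (nat_lit 51599025336) (nat_lit 152) (nat_lit 34787222717) (nat_lit 0) (nat_lit 22883064351) (nat_lit 4) (nat_lit 5) (nat_lit 6) (nat_lit 4) (nat_lit 4) (nat_lit 4) (nat_lit 296) (nat_lit 241) (nat_lit 183)))) (XT.nd (nat_lit 156) (nat_lit 76) (nat_lit 0) (XT.nd (nat_lit 78) (nat_lit 0) (nat_lit 0) (XT.lf (nat_lit 0) (nat_lit 62192081845) (nat_lit 152) (nat_lit 21915941433) (nat_lit 0) (nat_lit 33451332743) (nat_lit 4) (nat_lit 5) (nat_lit 6) (nat_lit 4) (nat_lit 4) (nat_lit 4) (nat_lit 297) (nat_lit 241) (nat_lit 182)) (XT.lf (nat_lit 0) (nat_lit 73618452720) (nat_lit 152)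 (nat_lit 8040124618) (nat_lit 0) (nat_lit 44854751658) (nat_lit 4) (nat_lit 5) (nat_lit 6) (nat_lit 4) (nat_lit 4) (nat_lit 4) (nat_lit 298) (nat_lit 241) (nat_lit 181))) (XT.nd (nat_lit 78) (nat_lit 0) (nat_lit 0) (XT.lf (nat_lit 0) (nat_lit 7151342408) (nat_lit 76) (nat_lit 78906159875) (nat_lit 76) (nat_lit 50121206999) (nat_lit 3) (nat_lit 4) (nat_lit 4) (nat_lit 5) (nat_lit 4) (nat_lit 4) (nat_lit 299) (nat_lit 241) (nat_lit 180)) (XT.nd (nat_lit 78) (nat_lit 0) (nat_lit 0) (XT.lf (nat_lit 0) (nat_lit 23822947012) (nat_lit 76) (nat_lit 75796320244) (nat_lit 76) (nat_lit 46991689762) (nat_lit 3) (nat_lit 4) (nat_lit 4) (nat_lit 5) (nat_lit 4) (nat_lit 4) (nat_lit 300) (nat_lit 241) (nat_lit 179)) (XT.lf (nat_lit 0) (nat_lit 41807641057) (nat_lit 76) (nat_lit 72446793167) (nat_lit 76) (nat_lit 43623942679) (nat_lit 3) (nat_lit 4) (nat_lit 4) (nat_lit 5) (nat_lit 4) (nat_lit 4) (nat_lit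 301) (nat_lit 241) (nat_lit 178)))))) (XT.nd (nat_lit 312) (nat_lit 76) (nat_lit 0) (XT.nd (nat_lit 156) (nat_lit 0) (nat_lit 0) (XT.nd (nat_lit 78) (nat_lit 0) (nat_lit 0) (XT.lf (nat_lit 0) (nat_lit 61212000506) (nat_lit 76) (nat_lit 68837729594) (nat_lit 76) (nat_lit 39998008730) (nat_lit 3) (nat_lit 4) (nat_lit 4) (nat_lit 5) (nat_lit 4) (nat_lit 4) (nat_lit 302) (nat_lit 241) (nat_lit 177)) (XT.lf (nat_lit 0) (nat_lit 82151014157) (nat_lit 76) (nat_lit 64947742481) (nat_lit 76) (nat_lit 36092400899) (nat_lit 3) (nat_lit 4) (nat_lit 4) (nat_lit 5) (nat_lit 4) (nat_lit 4) (nat_lit 303) (nat_lit 241) (nat_lit 176))) (XT.nd (nat_lit 78) (nat_lit 0) (nat_lit 0) (XT.lf (nat_lit 0) (nat_lit 104748765054) (nat_lit 76) (nat_lit 60753780053) (nat_lit 76) (nat_lit 31883974844) (nat_lit 3) (nat_lit 4) (nat_lit 4) (nat_lit 5) (nat_lit 4) (nat_lit 4) (nat_lit 304) (nat_lit 241) (nat_lit 175))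 (XT.lf (nat_lit 0) (nat_lit 129139165794) (nat_lit 76) (nat_lit 56230989200) (nat_lit 76) (nat_lit 27347791743) (nat_lit 3) (nat_lit 4) (nat_lit 4) (nat_lit 5) (nat_lit 4) (nat_lit 4) (nat_lit 305) (nat_lit 241) (nat_lit 174)))) (XT.nd (nat_lit 156) (nat_lit 76) (nat_lit 0) (XT.nd (nat_lit 78) (nat_lit 0) (nat_lit 0) (XT.lf (nat_lit 0) (nat_lit 155466752087) (nat_lit 76) (nat_lit 51352568198) (nat_lit 76) (nat_lit 22456970511) (nat_lit 3) (nat_lit 4) (nat_lit 4) (nat_lit 5) (nat_lit 4) (nat_lit 4) (nat_lit 306) (nat_lit 241) (nat_lit 173)) (XT.lf (nat_lit 0) (nat_lit 183887539257) (nat_lit 76) (nat_lit 46089607886) (nat_lit 76) (nat_lit 17182528504) (nat_lit 3) (nat_lit 4) (nat_lit 4) (nat_lit 5) (nat_lit 4) (nat_lit 4) (nat_lit 307) (nat_lit 241) (nat_lit 172))) (XT.nd (nat_lit 78) (nat_lit 76) (nat_lit 0) (XT.lf (nat_lit 0) (nat_lit 214569946784) (nat_lit 76) (nat_lit 40410920349) (nat_lit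 76) (nat_lit 11493209770) (nat_lit 3) (nat_lit 4) (nat_lit 4) (nat_lit 5) (nat_lit 4) (nat_lit 4) (nat_lit 308) (nat_lit 241) (nat_lit 171)) (XT.nd (nat_lit 78) (nat_lit 76) (nat_lit 0) (XT.lf (nat_lit 0) (nat_lit 247695796343) (nat_lit 76) (nat_lit 34282854108) (nat_lit 76) (nat_lit 5355299826) (nat_lit 3) (nat_lit 4) (nat_lit 4) (nat_lit 5) (nat_lit 4) (nat_lit 4) (nat_lit 309) (nat_lit 241) (nat_lit 170)) (XT.lf (nat_lit 0) (nat_lit 1227003837) (nat_lit 152) (nat_lit 26421310954) (nat_lit 76) (nat_lit 282213605524) (nat_lit 2) (nat_lit 5) (nat_lit 4) (nat_lit 5) (nat_lit 3) (nat_lit 4) (nat_lit 310) (nat_lit 241) (nat_lit 169))))))) (XT.nd (nat_lit 702) (nat_lit 0) (nat_lit 0) (XT.nd (nat_lit 312) (nat_lit 0) (nat_lit 0) (XT.nd (nat_lit 156) (nat_lit 0) (nat_lit 0) (XT.nd (nat_lit 78) (nat_lit 76) (nat_lit 0) (XT.lf (nat_lit 0) (nat_lit 8145337116) (nat_lit 152) (nat_lit 12247167120)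 (nat_lit 76) (nat_lit 313795387461) (nat_lit 2) (nat_lit 5) (nat_lit 4) (nat_lit 5) (nat_lit 3) (nat_lit 4) (nat_lit 311) (nat_lit 241) (nat_lit 168)) (XT.lf (nat_lit 0) (nat_lit 3152792790) (nat_lit 76) (nat_lit 12508531720) (nat_lit 152) (nat_lit 344796413185) (nat_lit 1) (nat_lit 5) (nat_lit 2) (nat_lit 5) (nat_lit 3) (nat_lit 4) (nat_lit 312) (nat_lit 241) (nat_lit 167))) (XT.nd (nat_lit 78) (nat_lit 0) (nat_lit 0) (XT.lf (nat_lit 0) (nat_lit 20213459586) (nat_lit 76) (nat_lit 3773670881) (nat_lit 152) (nat_lit 364831619740) (nat_lit 1) (nat_lit 5) (nat_lit 2) (nat_lit 5) (nat_lit 3) (nat_lit 4) (nat_lit 313) (nat_lit 241) (nat_lit 166)) (XT.lf (nat_lit 0) (nat_lit 33062870845) (nat_lit 152) (nat_lit 380906197085) (nat_lit 0) (nat_lit 5475387674) (nat_lit 1) (nat_lit 5) (nat_lit 3) (nat_lit 4) (nat_lit 1) (nat_lit 4) (nat_lit 314) (nat_lit 241) (nat_lit 165)))) (XT.nd (nat_lit 156)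 (nat_lit 0) (nat_lit 0) (XT.nd (nat_lit 78) (nat_lit 0) (nat_lit 0) (XT.lf (nat_lit 0) (nat_lit 42924136451) (nat_lit 152) (nat_lit 394262367196) (nat_lit 0) (nat_lit 15330745468) (nat_lit 1) (nat_lit 5) (nat_lit 3) (nat_lit 4) (nat_lit 1) (nat_lit 4) (nat_lit 315) (nat_lit 241) (nat_lit 164)) (XT.lf (nat_lit 0) (nat_lit 53570446836) (nat_lit 152) (nat_lit 408694031053) (nat_lit 0) (nat_lit 25971585657) (nat_lit 1) (nat_lit 5) (nat_lit 3) (nat_lit 4) (nat_lit 1) (nat_lit 4) (nat_lit 316) (nat_lit 241) (nat_lit 163))) (XT.nd (nat_lit 78) (nat_lit 0) (nat_lit 0) (XT.lf (nat_lit 0) (nat_lit 65064891246) (nat_lit 152) (nat_lit 424286709626) (nat_lit 0) (nat_lit 37460965072) (nat_lit 1) (nat_lit 5) (nat_lit 3) (nat_lit 4) (nat_lit 1) (nat_lit 4) (nat_lit 317) (nat_lit 241) (nat_lit 162)) (XT.nd (nat_lit 78) (nat_lit 0) (nat_lit 0) (XT.lf (nat_lit 0) (nat_lit 77475584909) (nat_lit 152) (nat_lit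 441132803974) (nat_lit 0) (nat_lit 49866968923) (nat_lit 1) (nat_lit 5) (nat_lit 3) (nat_lit 4) (nat_lit 1) (nat_lit 4) (nat_lit 318) (nat_lit 241) (nat_lit 161)) (XT.lf (nat_lit 0) (nat_lit 90876072674) (nat_lit 152) (nat_lit 459332142803) (nat_lit 0) (nat_lit 63263114270) (nat_lit 1) (nat_lit 5) (nat_lit 3) (nat_lit 4) (nat_lit 1) (nat_lit 4) (nat_lit 319) (nat_lit 241) (nat_lit 160)))))) (XT.nd (nat_lit 31512) (nat_lit 0) (nat_lit 7372) (XT.nd (nat_lit 156) (nat_lit 0) (nat_lit 0) (XT.nd (nat_lit 78) (nat_lit 0) (nat_lit 0) (XT.lf (nat_lit 0) (nat_lit 105345764841) (nat_lit 152) (nat_lit 478992574047) (nat_lit 0) (nat_lit 77728785680) (nat_lit 1) (nat_lit 5) (nat_lit 3) (nat_lit 4) (nat_lit 1) (nat_lit 4) (nat_lit 320) (nat_lit 241) (nat_lit 159)) (XT.lf (nat_lit 0) (nat_lit 120970407732) (nat_lit 152) (nat_lit 500230603966) (nat_lit 0) (nat_lit 93349705648) (nat_lit 1) (nat_lit 5)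 (nat_lit 3) (nat_lit 4) (nat_lit 1) (nat_lit 4) (nat_lit 321) (nat_lit 241) (nat_lit 158))) (XT.nd (nat_lit 78) (nat_lit 0) (nat_lit 0) (XT.lf (nat_lit 0) (nat_lit 137842591825) (nat_lit 152) (nat_lit 523172087551) (nat_lit 0) (nat_lit 110218442589) (nat_lit 1) (nat_lit 5) (nat_lit 3) (nat_lit 4) (nat_lit 1) (nat_lit 4) (nat_lit 322) (nat_lit 241) (nat_lit 157)) (XT.nd (nat_lit 31200) (nat_lit 0) (nat_lit 8056) (XT.lf (nat_lit 0) (nat_lit 156062300432) (nat_lit 152) (nat_lit 547952974335) (nat_lit 0) (nat_lit 128434959389) (nat_lit 1) (nat_lit 5) (nat_lit 3) (nat_lit 4) (nat_lit 1) (nat_lit 4) (nat_lit 323) (nat_lit 241) (nat_lit 156)) (XT.lf (nat_lit 0) (nat_lit 709804104) (nat_lit 0) (nat_lit 709804104) (nat_lit 228) (nat_lit 1861880866) (nat_lit 107) (nat_lit 5) (nat_lit 107) (nat_lit 3) (nat_lit 110) (nat_lit 3) (nat_lit 242) (nat_lit 242) (nat_lit 236))))) (XT.nd (nat_lit 156) (nat_lit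 380) (nat_lit 0) (XT.nd (nat_lit 78) (nat_lit 304) (nat_lit 0) (XT.lf (nat_lit 0) (nat_lit 6043416149) (nat_lit 0) (nat_lit 290514604) (nat_lit 228) (nat_lit 300950808) (nat_lit 107) (nat_lit 5) (nat_lit 107) (nat_lit 3) (nat_lit 110) (nat_lit 3) (nat_lit 243) (nat_lit 242) (nat_lit 235)) (XT.lf (nat_lit 0) (nat_lit 3026044392) (nat_lit 304) (nat_lit 2520796804) (nat_lit 380) (nat_lit 1178147287) (nat_lit 103) (nat_lit 5) (nat_lit 107) (nat_lit 5) (nat_lit 108) (nat_lit 5) (nat_lit 244) (nat_lit 242) (nat_lit 234))) (XT.nd (nat_lit 78) (nat_lit 380) (nat_lit 0) (XT.lf (nat_lit 76) (nat_lit 2456244921) (nat_lit 0) (nat_lit 3885571416) (nat_lit 380) (nat_lit 495484903) (nat_lit 104) (nat_lit 5) (nat_lit 103) (nat_lit 5) (nat_lit 108) (nat_lit 5) (nat_lit 245) (nat_lit 242) (nat_lit 233)) (XT.nd (nat_lit 78) (nat_lit 0) (nat_lit 76) (XT.lf (nat_lit 76) (nat_lit 743463324) (nat_lit 0) (nat_lit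 1875673849) (nat_lit 456) (nat_lit 4351337053) (nat_lit 99) (nat_lit 5) (nat_lit 98) (nat_lit 5) (nat_lit 104) (nat_lit 5) (nat_lit 246) (nat_lit 242) (nat_lit 232)) (XT.lf (nat_lit 0) (nat_lit 5762749657) (nat_lit 380) (nat_lit 897483686) (nat_lit 76) (nat_lit 465355590) (nat_lit 99) (nat_lit 5) (nat_lit 104) (nat_lit 5) (nat_lit 100) (nat_lit 5) (nat_lit 247) (nat_lit 242) (nat_lit 231))))))))
noncomputable def xc53 : XT := (XT.nd (nat_lit 1404) (nat_lit 1520) (nat_lit 0) (XT.nd (nat_lit 702) (nat_lit 1520) (nat_lit 0) (XT.nd (nat_lit 312) (nat_lit 1748) (nat_lit 0) (XT.nd (nat_lit 156) (nat_lit 1216) (nat_lit 0) (XT.nd (nat_lit 78) (nat_lit 456) (nat_lit 0) (XT.lf (nat_lit 0) (nat_lit 1643365565) (nat_lit 456) (nat_lit 2540742286) (nat_lit 76) (nat_lit 3117003252) (nat_lit 93) (nat_lit 5) (nat_lit 99) (nat_lit 5) (nat_lit 94) (nat_lit 5) (nat_lit 248) (nat_lit 242) (nat_lit 230)) (XT.lf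 (nat_lit 0) (nat_lit 3302345559) (nat_lit 456) (nat_lit 1355317758) (nat_lit 532) (nat_lit 2842395519) (nat_lit 87) (nat_lit 5) (nat_lit 93) (nat_lit 5) (nat_lit 94) (nat_lit 5) (nat_lit 249) (nat_lit 242) (nat_lit 229))) (XT.nd (nat_lit 78) (nat_lit 608) (nat_lit 0) (XT.lf (nat_lit 0) (nat_lit 52371585) (nat_lit 608) (nat_lit 5900308858) (nat_lit 76) (nat_lit 1770178846) (nat_lit 79) (nat_lit 5) (nat_lit 87) (nat_lit 5) (nat_lit 80) (nat_lit 5) (nat_lit 250) (nat_lit 242) (nat_lit 228)) (XT.lf (nat_lit 0) (nat_lit 252149671) (nat_lit 608) (nat_lit 2703175331) (nat_lit 684) (nat_lit 5013054896) (nat_lit 71) (nat_lit 5) (nat_lit 79) (nat_lit 5) (nat_lit 80) (nat_lit 5) (nat_lit 251) (nat_lit 242) (nat_lit 227)))) (XT.nd (nat_lit 156) (nat_lit 988) (nat_lit 0) (XT.nd (nat_lit 78) (nat_lit 760) (nat_lit 0) (XT.lf (nat_lit 0) (nat_lit 5995464038) (nat_lit 684) (nat_lit 1336931552) (nat_lit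 76) (nat_lit 906857790) (nat_lit 71) (nat_lit 5) (nat_lit 80) (nat_lit 5) (nat_lit 72) (nat_lit 5) (nat_lit 252) (nat_lit 242) (nat_lit 226)) (XT.lf (nat_lit 0) (nat_lit 656183223) (nat_lit 760) (nat_lit 3050286744) (nat_lit 76) (nat_lit 4828935281) (nat_lit 61) (nat_lit 5) (nat_lit 71) (nat_lit 5) (nat_lit 62) (nat_lit 5) (nat_lit 253) (nat_lit 242) (nat_lit 225))) (XT.nd (nat_lit 78) (nat_lit 684) (nat_lit 0) (XT.lf (nat_lit 0) (nat_lit 3612795558) (nat_lit 380) (nat_lit 4915570987) (nat_lit 76) (nat_lit 330663660) (nat_lit 57) (nat_lit 5) (nat_lit 62) (nat_lit 5) (nat_lit 58) (nat_lit 5) (nat_lit 254) (nat_lit 242) (nat_lit 224)) (XT.nd (nat_lit 78) (nat_lit 380) (nat_lit 0) (XT.lf (nat_lit 0) (nat_lit 2220212638) (nat_lit 304) (nat_lit 4559614564) (nat_lit 380) (nat_lit 2430748242) (nat_lit 53) (nat_lit 5) (nat_lit 57) (nat_lit 5) (nat_lit 58) (nat_lit 5) (nat_lit 255) (nat_lit 242)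 (nat_lit 223)) (XT.lf (nat_lit 0) (nat_lit 330732915) (nat_lit 304) (nat_lit 181587398) (nat_lit 380) (nat_lit 9081993653) (nat_lit 48) (nat_lit 5) (nat_lit 52) (nat_lit 5) (nat_lit 53) (nat_lit 5) (nat_lit 256) (nat_lit 242) (nat_lit 222)))))) (XT.nd (nat_lit 312) (nat_lit 684) (nat_lit 0) (XT.nd (nat_lit 156) (nat_lit 532) (nat_lit 0) (XT.nd (nat_lit 78) (nat_lit 304) (nat_lit 0) (XT.lf (nat_lit 0) (nat_lit 3640820470) (nat_lit 380) (nat_lit 1815145454) (nat_lit 76) (nat_lit 4549627653) (nat_lit 48) (nat_lit 5) (nat_lit 53) (nat_lit 5) (nat_lit 49) (nat_lit 5) (nat_lit 257) (nat_lit 242) (nat_lit 221)) (XT.lf (nat_lit 0) (nat_lit 6254381753) (nat_lit 304) (nat_lit 717094876) (nat_lit 380) (nat_lit 3481253101) (nat_lit 44) (nat_lit 5) (nat_lit 48) (nat_lit 5) (nat_lit 49) (nat_lit 5) (nat_lit 258) (nat_lit 242) (nat_lit 220))) (XT.nd (nat_lit 78) (nat_lit 304) (nat_lit 0) (XT.lf (nat_lit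 0) (nat_lit 3987034346) (nat_lit 228) (nat_lit 6603894559) (nat_lit 304) (nat_lit 344098068) (nat_lit 41) (nat_lit 5) (nat_lit 44) (nat_lit 5) (nat_lit 45) (nat_lit 5) (nat_lit 259) (nat_lit 242) (nat_lit 219)) (XT.lf (nat_lit 0) (nat_lit 1337869037) (nat_lit 228) (nat_lit 1580521281) (nat_lit 304) (nat_lit 8536999368) (nat_lit 37) (nat_lit 5) (nat_lit 40) (nat_lit 5) (nat_lit 41) (nat_lit 5) (nat_lit 260) (nat_lit 242) (nat_lit 218)))) (XT.nd (nat_lit 156) (nat_lit 456) (nat_lit 0) (XT.nd (nat_lit 78) (nat_lit 228) (nat_lit 0) (XT.lf (nat_lit 0) (nat_lit 6484489898) (nat_lit 304) (nat_lit 1712426986) (nat_lit 76) (nat_lit 3817863384) (nat_lit 37) (nat_lit 5) (nat_lit 41) (nat_lit 5) (nat_lit 38) (nat_lit 5) (nat_lit 261) (nat_lit 242) (nat_lit 217)) (XT.lf (nat_lit 0) (nat_lit 7420371779) (nat_lit 228) (nat_lit 2938995928) (nat_lit 304) (nat_lit 2258763472) (nat_lit 34) (nat_lit 5) (nat_lit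 37) (nat_lit 5) (nat_lit 38) (nat_lit 5) (nat_lit 262) (nat_lit 242) (nat_lit 216))) (XT.nd (nat_lit 78) (nat_lit 152) (nat_lit 0) (XT.lf (nat_lit 0) (nat_lit 1256292393) (nat_lit 304) (nat_lit 9281755277) (nat_lit 76) (nat_lit 2729915930) (nat_lit 30) (nat_lit 5) (nat_lit 34) (nat_lit 5) (nat_lit 31) (nat_lit 5) (nat_lit 263) (nat_lit 242) (nat_lit 215)) (XT.nd (nat_lit 78) (nat_lit 152) (nat_lit 0) (XT.lf (nat_lit 0) (nat_lit 5006972020) (nat_lit 304) (nat_lit 115303317) (nat_lit 76) (nat_lit 8844291275) (nat_lit 30) (nat_lit 5) (nat_lit 34) (nat_lit 5) (nat_lit 31) (nat_lit 5) (nat_lit 264) (nat_lit 242) (nat_lit 214)) (XT.lf (nat_lit 0) (nat_lit 9125538337) (nat_lit 228) (nat_lit 4768764701) (nat_lit 76) (nat_lit 823653221) (nat_lit 28) (nat_lit 5) (nat_lit 31) (nat_lit 5) (nat_lit 29) (nat_lit 5) (nat_lit 265) (nat_lit 242) (nat_lit 213))))))) (XT.nd (nat_lit 702) (nat_lit 532) (nat_lit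 0) (XT.nd (nat_lit 312) (nat_lit 380) (nat_lit 0) (XT.nd (nat_lit 156) (nat_lit 304) (nat_lit 0) (XT.nd (nat_lit 78) (nat_lit 76) (nat_lit 0) (XT.lf (nat_lit 0) (nat_lit 5236233024) (nat_lit 228) (nat_lit 8411303520) (nat_lit 304) (nat_lit 1878491731) (nat_lit 25) (nat_lit 5) (nat_lit 28) (nat_lit 5) (nat_lit 29) (nat_lit 5) (nat_lit 266) (nat_lit 242) (nat_lit 212)) (XT.lf (nat_lit 0) (nat_lit 2055829060) (nat_lit 304) (nat_lit 353176534) (nat_lit 76) (nat_lit 13988735735) (nat_lit 24) (nat_lit 5) (nat_lit 28) (nat_lit 5) (nat_lit 25) (nat_lit 5) (nat_lit 267) (nat_lit 242) (nat_lit 211))) (XT.nd (nat_lit 78) (nat_lit 152) (nat_lit 0) (XT.lf (nat_lit 0) (nat_lit 6385000694) (nat_lit 228) (nat_lit 6841223654) (nat_lit 76) (nat_lit 4104350668) (nat_lit 22) (nat_lit 5) (nat_lit 25) (nat_lit 5) (nat_lit 23) (nat_lit 5) (nat_lit 268) (nat_lit 242) (nat_lit 210)) (XT.lf (nat_lit 0) (nat_lit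 3832102999) (nat_lit 152) (nat_lit 7252979182) (nat_lit 228) (nat_lit 7251927427) (nat_lit 20) (nat_lit 5) (nat_lit 22) (nat_lit 5) (nat_lit 23) (nat_lit 5) (nat_lit 269) (nat_lit 242) (nat_lit 209)))) (XT.nd (nat_lit 156) (nat_lit 152) (nat_lit 0) (XT.nd (nat_lit 78) (nat_lit 228) (nat_lit 0) (XT.lf (nat_lit 0) (nat_lit 15484989588) (nat_lit 152) (nat_lit 717455097) (nat_lit 228) (nat_lit 3219638534) (nat_lit 20) (nat_lit 5) (nat_lit 22) (nat_lit 5) (nat_lit 23) (nat_lit 5) (nat_lit 270) (nat_lit 242) (nat_lit 208)) (XT.lf (nat_lit 0) (nat_lit 1244531212) (nat_lit 228) (nat_lit 13102717720) (nat_lit 76) (nat_lit 6238711727) (nat_lit 17) (nat_lit 5) (nat_lit 20) (nat_lit 5) (nat_lit 18) (nat_lit 5) (nat_lit 271) (nat_lit 242) (nat_lit 207))) (XT.nd (nat_lit 78) (nat_lit 152) (nat_lit 0) (XT.lf (nat_lit 0) (nat_lit 5966043020) (nat_lit 228) (nat_lit 2059808438) (nat_lit 76) (nat_lit 13813960829)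 (nat_lit 17) (nat_lit 5) (nat_lit 20) (nat_lit 5) (nat_lit 18) (nat_lit 5) (nat_lit 272) (nat_lit 242) (nat_lit 206)) (XT.nd (nat_lit 78) (nat_lit 0) (nat_lit 0) (XT.lf (nat_lit 0) (nat_lit 10086994168) (nat_lit 152) (nat_lit 1070672832) (nat_lit 228) (nat_lit 12031827598) (nat_lit 15) (nat_lit 5) (nat_lit 17) (nat_lit 5) (nat_lit 18) (nat_lit 5) (nat_lit 273) (nat_lit 242) (nat_lit 205)) (XT.lf (nat_lit 0) (nat_lit 16839284062) (nat_lit 228) (nat_lit 1568004597) (nat_lit 76) (nat_lit 6236261266) (nat_lit 15) (nat_lit 5) (nat_lit 18) (nat_lit 5) (nat_lit 16) (nat_lit 4) (nat_lit 274) (nat_lit 242) (nat_lit 204)))))) (XT.nd (nat_lit 390) (nat_lit 152) (nat_lit 0) (XT.nd (nat_lit 156) (nat_lit 228) (nat_lit 0) (XT.nd (nat_lit 78) (nat_lit 76) (nat_lit 0) (XT.lf (nat_lit 0) (nat_lit 11134425797) (nat_lit 76) (nat_lit 11975151123) (nat_lit 152) (nat_lit 3097767279) (nat_lit 14) (nat_lit 5)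 (nat_lit 15) (nat_lit 5) (nat_lit 16) (nat_lit 4) (nat_lit 275) (nat_lit 242) (nat_lit 203)) (XT.lf (nat_lit 0) (nat_lit 1893603447) (nat_lit 152) (nat_lit 3108325483) (nat_lit 76) (nat_lit 22894276130) (nat_lit 13) (nat_lit 5) (nat_lit 15) (nat_lit 5) (nat_lit 14) (nat_lit 5) (nat_lit 276) (nat_lit 242) (nat_lit 202))) (XT.nd (nat_lit 78) (nat_lit 76) (nat_lit 0) (XT.lf (nat_lit 0) (nat_lit 7323946302) (nat_lit 228) (nat_lit 19757981122) (nat_lit 76) (nat_lit 2628398038) (nat_lit 11) (nat_lit 5) (nat_lit 14) (nat_lit 5) (nat_lit 12) (nat_lit 4) (nat_lit 277) (nat_lit 242) (nat_lit 201)) (XT.nd (nat_lit 78) (nat_lit 76) (nat_lit 0) (XT.lf (nat_lit 0) (nat_lit 13278441896) (nat_lit 228) (nat_lit 7665932307) (nat_lit 76) (nat_lit 10720807145) (nat_lit 11) (nat_lit 5) (nat_lit 14) (nat_lit 5) (nat_lit 12) (nat_lit 4) (nat_lit 278) (nat_lit 242) (nat_lit 200)) (XT.lf (nat_lit 0) (nat_lit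 5492707435) (nat_lit 76) (nat_lit 14256374963) (nat_lit 152) (nat_lit 14025439335) (nat_lit 10) (nat_lit 5) (nat_lit 11) (nat_lit 5) (nat_lit 12) (nat_lit 4) (nat_lit 279) (nat_lit 242) (nat_lit 199))))) (XT.nd (nat_lit 156) (nat_lit 152) (nat_lit 0) (XT.nd (nat_lit 78) (nat_lit 0) (nat_lit 0) (XT.lf (nat_lit 0) (nat_lit 19904540221) (nat_lit 76) (nat_lit 6922659927) (nat_lit 152) (nat_lit 9220996878) (nat_lit 10) (nat_lit 5) (nat_lit 11) (nat_lit 5) (nat_lit 12) (nat_lit 4) (nat_lit 280) (nat_lit 242) (nat_lit 198)) (XT.lf (nat_lit 0) (nat_lit 34446246196) (nat_lit 152) (nat_lit 3119514619) (nat_lit 0) (nat_lit 939344705) (nat_lit 10) (nat_lit 5) (nat_lit 12) (nat_lit 4) (nat_lit 10) (nat_lit 4) (nat_lit 281) (nat_lit 242) (nat_lit 197))) (XT.nd (nat_lit 78) (nat_lit 0) (nat_lit 0) (XT.lf (nat_lit 0) (nat_lit 1724289827) (nat_lit 152) (nat_lit 30052377610) (nat_lit 76) (nat_lit 9367951596)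 (nat_lit 8) (nat_lit 5) (nat_lit 10) (nat_lit 5) (nat_lit 9) (nat_lit 4) (nat_lit 282) (nat_lit 242) (nat_lit 196)) (XT.nd (nat_lit 78) (nat_lit 0) (nat_lit 0) (XT.lf (nat_lit 0) (nat_lit 7848343779) (nat_lit 152) (nat_lit 17572391330) (nat_lit 76) (nat_lit 18570268515) (nat_lit 8) (nat_lit 5) (nat_lit 10) (nat_lit 5) (nat_lit 9) (nat_lit 4) (nat_lit 283) (nat_lit 242) (nat_lit 195)) (XT.lf (nat_lit 0) (nat_lit 14428362482) (nat_lit 152) (nat_lit 4152171804) (nat_lit 76) (nat_lit 28486317959) (nat_lit 8) (nat_lit 5) (nat_lit 10) (nat_lit 5) (nat_lit 9) (nat_lit 4) (nat_lit 284) (nat_lit 242) (nat_lit 194))))))))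
noncomputable def xc54 : XT := (XT.nd (nat_lit 1404) (nat_lit 152) (nat_lit 0) (XT.nd (nat_lit 702) (nat_lit 76) (nat_lit 0) (XT.nd (nat_lit 312) (nat_lit 152) (nat_lit 0) (XT.nd (nat_lit 156) (nat_lit 76) (nat_lit 0) (XT.nd (nat_lit 78) (nat_lit 0) (nat_lit 0) (XT.lf (nat_lit 0) (nat_lit 10627969592) (nat_lit 76) (nat_lit 11041301436) (nat_lit 152) (nat_lit 28712824498) (nat_lit 7) (nat_lit 5) (nat_lit 8) (nat_lit 5) (nat_lit 9) (nat_lit 4) (nat_lit 285) (nat_lit 242) (nat_lit 193)) (XT.lf (nat_lit 0) (nat_lit 26687278491) (nat_lit 76) (nat_lit 2844582753) (nat_lit 152) (nat_lit 24428623976) (nat_lit 7) (nat_lit 5) (nat_lit 8) (nat_lit 5) (nat_lit 9) (nat_lit 4) (nat_lit 286) (nat_lit 242) (nat_lit 192))) (XT.nd (nat_lit 78) (nat_lit 76) (nat_lit 0) (XT.lf (nat_lit 0) (nat_lit 38089243264) (nat_lit 152) (nat_lit 13936431032) (nat_lit 0) (nat_lit 5796226450) (nat_lit 7) (nat_lit 5) (nat_lit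 9) (nat_lit 4) (nat_lit 7) (nat_lit 4) (nat_lit 287) (nat_lit 242) (nat_lit 191)) (XT.lf (nat_lit 0) (nat_lit 386490770) (nat_lit 76) (nat_lit 46972784183) (nat_lit 76) (nat_lit 14631592242) (nat_lit 6) (nat_lit 4) (nat_lit 7) (nat_lit 5) (nat_lit 7) (nat_lit 4) (nat_lit 288) (nat_lit 242) (nat_lit 190)))) (XT.nd (nat_lit 156) (nat_lit 152) (nat_lit 0) (XT.nd (nat_lit 78) (nat_lit 0) (nat_lit 0) (XT.lf (nat_lit 0) (nat_lit 16309674957) (nat_lit 76) (nat_lit 41279304332) (nat_lit 76) (nat_lit 8893505791) (nat_lit 6) (nat_lit 4) (nat_lit 7) (nat_lit 5) (nat_lit 7) (nat_lit 4) (nat_lit 289) (nat_lit 242) (nat_lit 189)) (XT.lf (nat_lit 0) (nat_lit 33466679788) (nat_lit 76) (nat_lit 35147515806) (nat_lit 76) (nat_lit 2720414859) (nat_lit 6) (nat_lit 4) (nat_lit 7) (nat_lit 5) (nat_lit 7) (nat_lit 4) (nat_lit 290) (nat_lit 242) (nat_lit 188))) (XT.nd (nat_lit 78) (nat_lit 76) (nat_lit 0) (XT.lf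 (nat_lit 0) (nat_lit 3798660948) (nat_lit 152) (nat_lit 24678088971) (nat_lit 76) (nat_lit 48096183294) (nat_lit 5) (nat_lit 5) (nat_lit 7) (nat_lit 5) (nat_lit 6) (nat_lit 4) (nat_lit 291) (nat_lit 242) (nat_lit 187)) (XT.nd (nat_lit 78) (nat_lit 76) (nat_lit 0) (XT.lf (nat_lit 0) (nat_lit 10725274152) (nat_lit 152) (nat_lit 10513942060) (nat_lit 76) (nat_lit 60989838109) (nat_lit 5) (nat_lit 5) (nat_lit 7) (nat_lit 5) (nat_lit 6) (nat_lit 4) (nat_lit 292) (nat_lit 242) (nat_lit 186)) (XT.lf (nat_lit 0) (nat_lit 4908005892) (nat_lit 76) (nat_lit 13356163448) (nat_lit 152) (nat_lit 70070614472) (nat_lit 4) (nat_lit 5) (nat_lit 5) (nat_lit 5) (nat_lit 6) (nat_lit 4) (nat_lit 293) (nat_lit 242) (nat_lit 185)))))) (XT.nd (nat_lit 312) (nat_lit 76) (nat_lit 0) (XT.nd (nat_lit 156) (nat_lit 0) (nat_lit 0) (XT.nd (nat_lit 78) (nat_lit 0) (nat_lit 0) (XT.lf (nat_lit 0) (nat_lit 21908150436)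 (nat_lit 76) (nat_lit 4663581365) (nat_lit 152) (nat_lit 68348986465) (nat_lit 4) (nat_lit 5) (nat_lit 5) (nat_lit 5) (nat_lit 6) (nat_lit 4) (nat_lit 294) (nat_lit 242) (nat_lit 184)) (XT.lf (nat_lit 0) (nat_lit 35601179085) (nat_lit 152) (nat_lit 61868336927) (nat_lit 0) (nat_lit 4561170055) (nat_lit 4) (nat_lit 5) (nat_lit 6) (nat_lit 4) (nat_lit 4) (nat_lit 4) (nat_lit 295) (nat_lit 242) (nat_lit 183))) (XT.nd (nat_lit 78) (nat_lit 0) (nat_lit 0) (XT.lf (nat_lit 0) (nat_lit 45416358085) (nat_lit 152) (nat_lit 49938384380) (nat_lit 0) (nat_lit 14351560939) (nat_lit 4) (nat_lit 5) (nat_lit 6) (nat_lit 4) (nat_lit 4) (nat_lit 4) (nat_lit 296) (nat_lit 242) (nat_lit 182)) (XT.lf (nat_lit 0) (nat_lit 56002621250) (nat_lit 152) (nat_lit 37079202602) (nat_lit 0) (nat_lit 24914872144) (nat_lit 4) (nat_lit 5) (nat_lit 6) (nat_lit 4) (nat_lit 4) (nat_lit 4) (nat_lit 297) (nat_lit 242) (nat_lit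 181)))) (XT.nd (nat_lit 156) (nat_lit 76) (nat_lit 0) (XT.nd (nat_lit 78) (nat_lit 0) (nat_lit 0) (XT.lf (nat_lit 0) (nat_lit 67422701992) (nat_lit 152) (nat_lit 23214589032) (nat_lit 0) (nat_lit 36313701071) (nat_lit 4) (nat_lit 5) (nat_lit 6) (nat_lit 4) (nat_lit 4) (nat_lit 4) (nat_lit 298) (nat_lit 242) (nat_lit 180)) (XT.lf (nat_lit 0) (nat_lit 79744274862) (nat_lit 152) (nat_lit 8262382999) (nat_lit 0) (nat_lit 48615596335) (nat_lit 4) (nat_lit 5) (nat_lit 6) (nat_lit 4) (nat_lit 4) (nat_lit 4) (nat_lit 299) (nat_lit 242) (nat_lit 179))) (XT.nd (nat_lit 78) (nat_lit 0) (nat_lit 0) (XT.lf (nat_lit 0) (nat_lit 8126107347) (nat_lit 76) (nat_lit 85041120552) (nat_lit 76) (nat_lit 53894222019) (nat_lit 3) (nat_lit 4) (nat_lit 4) (nat_lit 5) (nat_lit 4) (nat_lit 4) (nat_lit 300) (nat_lit 242) (nat_lit 178)) (XT.nd (nat_lit 78) (nat_lit 0) (nat_lit 0) (XT.lf (nat_lit 0) (nat_lit 26101613834)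 (nat_lit 76) (nat_lit 81695644277) (nat_lit 76) (nat_lit 50531875369) (nat_lit 3) (nat_lit 4) (nat_lit 4) (nat_lit 5) (nat_lit 4) (nat_lit 4) (nat_lit 301) (nat_lit 242) (nat_lit 177)) (XT.lf (nat_lit 0) (nat_lit 45497466286) (nat_lit 76) (nat_lit 78090331448) (nat_lit 76) (nat_lit 46910941821) (nat_lit 3) (nat_lit 4) (nat_lit 4) (nat_lit 5) (nat_lit 4) (nat_lit 4) (nat_lit 302) (nat_lit 242) (nat_lit 176))))))) (XT.nd (nat_lit 702) (nat_lit 76) (nat_lit 0) (XT.nd (nat_lit 312) (nat_lit 76) (nat_lit 0) (XT.nd (nat_lit 156) (nat_lit 0) (nat_lit 0) (XT.nd (nat_lit 78) (nat_lit 0) (nat_lit 0) (XT.lf (nat_lit 0) (nat_lit 66428603088) (nat_lit 76) (nat_lit 74203817245) (nat_lit 76) (nat_lit 43009963991) (nat_lit 3) (nat_lit 4) (nat_lit 4) (nat_lit 5) (nat_lit 4) (nat_lit 4) (nat_lit 303) (nat_lit 242) (nat_lit 175)) (XT.lf (nat_lit 0) (nat_lit 89019060606) (nat_lit 76) (nat_lit 70013070476)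 (nat_lit 76) (nat_lit 38805824974) (nat_lit 3) (nat_lit 4) (nat_lit 4) (nat_lit 5) (nat_lit 4) (nat_lit 4) (nat_lit 304) (nat_lit 242) (nat_lit 174))) (XT.nd (nat_lit 78) (nat_lit 0) (nat_lit 0) (XT.lf (nat_lit 0) (nat_lit 113402708218) (nat_lit 76) (nat_lit 65493257084) (nat_lit 76) (nat_lit 34273611352) (nat_lit 3) (nat_lit 4) (nat_lit 4) (nat_lit 5) (nat_lit 4) (nat_lit 4) (nat_lit 305) (nat_lit 242) (nat_lit 173)) (XT.lf (nat_lit 0) (nat_lit 139724041613) (nat_lit 76) (nat_lit 60617592991) (nat_lit 76) (nat_lit 29386465565) (nat_lit 3) (nat_lit 4) (nat_lit 4) (nat_lit 5) (nat_lit 4) (nat_lit 4) (nat_lit 306) (nat_lit 242) (nat_lit 172)))) (XT.nd (nat_lit 156) (nat_lit 76) (nat_lit 0) (XT.nd (nat_lit 78) (nat_lit 0) (nat_lit 0) (XT.lf (nat_lit 0) (nat_lit 168139039064) (nat_lit 76) (nat_lit 55357185371) (nat_lit 76) (nat_lit 24115426747) (nat_lit 3) (nat_lit 4) (nat_lit 4) (nat_lit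 5) (nat_lit 4) (nat_lit 4) (nat_lit 307) (nat_lit 242) (nat_lit 171)) (XT.lf (nat_lit 0) (nat_lit 198816085740) (nat_lit 76) (nat_lit 49680861439) (nat_lit 76) (nat_lit 18429259113) (nat_lit 3) (nat_lit 4) (nat_lit 4) (nat_lit 5) (nat_lit 4) (nat_lit 4) (nat_lit 308) (nat_lit 242) (nat_lit 170))) (XT.nd (nat_lit 78) (nat_lit 76) (nat_lit 0) (XT.lf (nat_lit 0) (nat_lit 231936971548) (nat_lit 76) (nat_lit 43554983721) (nat_lit 76) (nat_lit 12294266856) (nat_lit 3) (nat_lit 4) (nat_lit 4) (nat_lit 5) (nat_lit 4) (nat_lit 4) (nat_lit 309) (nat_lit 242) (nat_lit 169)) (XT.nd (nat_lit 78) (nat_lit 76) (nat_lit 0) (XT.lf (nat_lit 0) (nat_lit 267697968404) (nat_lit 76) (nat_lit 36943250718) (nat_lit 76) (nat_lit 5674094465) (nat_lit 3) (nat_lit 4) (nat_lit 4) (nat_lit 5) (nat_lit 4) (nat_lit 4) (nat_lit 310) (nat_lit 242) (nat_lit 168)) (XT.lf (nat_lit 0) (nat_lit 1423423888) (nat_lit 152) (nat_lit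 28358951529) (nat_lit 76) (nat_lit 304863463064) (nat_lit 2) (nat_lit 5) (nat_lit 4) (nat_lit 5) (nat_lit 3) (nat_lit 4) (nat_lit 311) (nat_lit 242) (nat_lit 167)))))) (XT.nd (nat_lit 390) (nat_lit 0) (nat_lit 0) (XT.nd (nat_lit 156) (nat_lit 0) (nat_lit 0) (XT.nd (nat_lit 78) (nat_lit 76) (nat_lit 0) (XT.lf (nat_lit 0) (nat_lit 8887945330) (nat_lit 152) (nat_lit 13063917989) (nat_lit 76) (nat_lit 338966397253) (nat_lit 2) (nat_lit 5) (nat_lit 4) (nat_lit 5) (nat_lit 3) (nat_lit 4) (nat_lit 312) (nat_lit 242) (nat_lit 166)) (XT.lf (nat_lit 0) (nat_lit 3560953955) (nat_lit 76) (nat_lit 13439953034) (nat_lit 152) (nat_lit 372289010896) (nat_lit 1) (nat_lit 5) (nat_lit 2) (nat_lit 5) (nat_lit 3) (nat_lit 4) (nat_lit 313) (nat_lit 242) (nat_lit 165))) (XT.nd (nat_lit 78) (nat_lit 0) (nat_lit 0) (XT.lf (nat_lit 0) (nat_lit 21974923151) (nat_lit 76) (nat_lit 4011433789) (nat_lit 152) (nat_lit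 393933783260) (nat_lit 1) (nat_lit 5) (nat_lit 2) (nat_lit 5) (nat_lit 3) (nat_lit 4) (nat_lit 314) (nat_lit 242) (nat_lit 164)) (XT.nd (nat_lit 78) (nat_lit 0) (nat_lit 0) (XT.lf (nat_lit 0) (nat_lit 35783138750) (nat_lit 152) (nat_lit 411242122888) (nat_lit 0) (nat_lit 5970898482) (nat_lit 1) (nat_lit 5) (nat_lit 3) (nat_lit 4) (nat_lit 1) (nat_lit 4) (nat_lit 315) (nat_lit 242) (nat_lit 163)) (XT.lf (nat_lit 0) (nat_lit 46427732402) (nat_lit 152) (nat_lit 425676902902) (nat_lit 0) (nat_lit 16610427137) (nat_lit 1) (nat_lit 5) (nat_lit 3) (nat_lit 4) (nat_lit 1) (nat_lit 4) (nat_lit 316) (nat_lit 242) (nat_lit 162))))) (XT.nd (nat_lit 156) (nat_lit 0) (nat_lit 0) (XT.nd (nat_lit 78) (nat_lit 0) (nat_lit 0) (XT.lf (nat_lit 0) (nat_lit 57920587245) (nat_lit 152) (nat_lit 441272466806) (nat_lit 0) (nat_lit 28098592169) (nat_lit 1) (nat_lit 5) (nat_lit 3) (nat_lit 4) (nat_lit 1) (nat_lit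 4) (nat_lit 317) (nat_lit 242) (nat_lit 161)) (XT.lf (nat_lit 0) (nat_lit 70329809085) (nat_lit 152) (nat_lit 458121232757) (nat_lit 0) (nat_lit 40503471591) (nat_lit 1) (nat_lit 5) (nat_lit 3) (nat_lit 4) (nat_lit 1) (nat_lit 4) (nat_lit 318) (nat_lit 242) (nat_lit 160))) (XT.nd (nat_lit 78) (nat_lit 0) (nat_lit 0) (XT.lf (nat_lit 0) (nat_lit 83728934052) (nat_lit 152) (nat_lit 476323045292) (nat_lit 0) (nat_lit 53898575801) (nat_lit 1) (nat_lit 5) (nat_lit 3) (nat_lit 4) (nat_lit 1) (nat_lit 4) (nat_lit 319) (nat_lit 242) (nat_lit 159)) (XT.nd (nat_lit 78) (nat_lit 0) (nat_lit 0) (XT.lf (nat_lit 0) (nat_lit 98197364369) (nat_lit 152) (nat_lit 495985767005) (nat_lit 0) (nat_lit 68363283194) (nat_lit 1) (nat_lit 5) (nat_lit 3) (nat_lit 4) (nat_lit 1) (nat_lit 4) (nat_lit 320) (nat_lit 242) (nat_lit 158)) (XT.lf (nat_lit 0) (nat_lit 113820838880) (nat_lit 152) (nat_lit 517225917728) (nat_lit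 0) (nat_lit 83983310554) (nat_lit 1) (nat_lit 5) (nat_lit 3) (nat_lit 4) (nat_lit 1) (nat_lit 4) (nat_lit 321) (nat_lit 242) (nat_lit 157))))))))
noncomputable def xc55 : XT := (XT.nd (nat_lit 32682) (nat_lit 0) (nat_lit 760) (XT.nd (nat_lit 31902) (nat_lit 0) (nat_lit 3268) (XT.nd (nat_lit 31512) (nat_lit 0) (nat_lit 6536) (XT.nd (nat_lit 31356) (nat_lit 0) (nat_lit 7676) (XT.nd (nat_lit 78) (nat_lit 0) (nat_lit 0) (XT.lf (nat_lit 0) (nat_lit 130691941140) (nat_lit 152) (nat_lit 540169365021) (nat_lit 0) (nat_lit 100851221007) (nat_lit 1) (nat_lit 5) (nat_lit 3) (nat_lit 4) (nat_lit 1) (nat_lit 4) (nat_lit 322) (nat_lit 242) (nat_lit 156)) (XT.lf (nat_lit 0) (nat_lit 148910648049) (nat_lit 152) (nat_lit 564952070053) (nat_lit 0) (nat_lit 119066972540) (nat_lit 1) (nat_lit 5) (nat_lit 3) (nat_lit 4) (nat_lit 1) (nat_lit 4) (nat_lit 323) (nat_lit 242) (nat_lit 155))) (XT.nd (nat_lit 78)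 (nat_lit 0) (nat_lit 0) (XT.lf (nat_lit 0) (nat_lit 1427818967) (nat_lit 380) (nat_lit 964503182) (nat_lit 380) (nat_lit 964503182) (nat_lit 102) (nat_lit 3) (nat_lit 107) (nat_lit 3) (nat_lit 107) (nat_lit 5) (nat_lit 243) (nat_lit 243) (nat_lit 234)) (XT.lf (nat_lit 76) (nat_lit 2753536890) (nat_lit 0) (nat_lit 3223516854) (nat_lit 380) (nat_lit 837180691) (nat_lit 103) (nat_lit 5) (nat_lit 102) (nat_lit 3) (nat_lit 107) (nat_lit 5) (nat_lit 244) (nat_lit 243) (nat_lit 233)))) (XT.nd (nat_lit 156) (nat_lit 760) (nat_lit 0) (XT.nd (nat_lit 78) (nat_lit 0) (nat_lit 76) (XT.lf (nat_lit 76) (nat_lit 771108465) (nat_lit 0) (nat_lit 1317080373) (nat_lit 456) (nat_lit 4847435214) (nat_lit 98) (nat_lit 5) (nat_lit 97) (nat_lit 5) (nat_lit 103) (nat_lit 5) (nat_lit 245) (nat_lit 243) (nat_lit 232)) (XT.lf (nat_lit 0) (nat_lit 5018351000) (nat_lit 380) (nat_lit 1139281033) (nat_lit 456) (nat_lit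 919954919) (nat_lit 98) (nat_lit 5) (nat_lit 103) (nat_lit 5) (nat_lit 104) (nat_lit 5) (nat_lit 246) (nat_lit 243) (nat_lit 231))) (XT.nd (nat_lit 78) (nat_lit 380) (nat_lit 0) (XT.lf (nat_lit 0) (nat_lit 742808963) (nat_lit 456) (nat_lit 3021956759) (nat_lit 532) (nat_lit 3475704465) (nat_lit 92) (nat_lit 5) (nat_lit 98) (nat_lit 5) (nat_lit 99) (nat_lit 5) (nat_lit 247) (nat_lit 243) (nat_lit 230)) (XT.nd (nat_lit 78) (nat_lit 380) (nat_lit 0) (XT.lf (nat_lit 76) (nat_lit 2503014999) (nat_lit 0) (nat_lit 1002920665) (nat_lit 532) (nat_lit 3919575389) (nat_lit 93) (nat_lit 5) (nat_lit 92) (nat_lit 5) (nat_lit 99) (nat_lit 5) (nat_lit 248) (nat_lit 243) (nat_lit 229)) (XT.lf (nat_lit 0) (nat_lit 769205737) (nat_lit 456) (nat_lit 5583309493) (nat_lit 532) (nat_lit 1280893950) (nat_lit 87) (nat_lit 5) (nat_lit 93) (nat_lit 5) (nat_lit 94) (nat_lit 5) (nat_lit 249) (nat_lit 243) (nat_lit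 228)))))) (XT.nd (nat_lit 390) (nat_lit 988) (nat_lit 0) (XT.nd (nat_lit 156) (nat_lit 1672) (nat_lit 0) (XT.nd (nat_lit 78) (nat_lit 532) (nat_lit 0) (XT.lf (nat_lit 0) (nat_lit 1398725963) (nat_lit 532) (nat_lit 983923574) (nat_lit 76) (nat_lit 5481097375) (nat_lit 86) (nat_lit 5) (nat_lit 93) (nat_lit 5) (nat_lit 87) (nat_lit 5) (nat_lit 250) (nat_lit 243) (nat_lit 227)) (XT.lf (nat_lit 0) (nat_lit 4143694956) (nat_lit 608) (nat_lit 2787488952) (nat_lit 76) (nat_lit 1186443745) (nat_lit 79) (nat_lit 5) (nat_lit 87) (nat_lit 5) (nat_lit 80) (nat_lit 5) (nat_lit 251) (nat_lit 243) (nat_lit 226))) (XT.nd (nat_lit 78) (nat_lit 1064) (nat_lit 0) (XT.lf (nat_lit 0) (nat_lit 3701373281) (nat_lit 608) (nat_lit 3328297831) (nat_lit 684) (nat_lit 1366964935) (nat_lit 71) (nat_lit 5) (nat_lit 79) (nat_lit 5) (nat_lit 80) (nat_lit 5) (nat_lit 252) (nat_lit 243) (nat_lit 225)) (XT.nd (nat_lit 78)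 (nat_lit 304) (nat_lit 0) (XT.lf (nat_lit 0) (nat_lit 1307320793) (nat_lit 760) (nat_lit 6729871062) (nat_lit 76) (nat_lit 665169062) (nat_lit 61) (nat_lit 5) (nat_lit 71) (nat_lit 5) (nat_lit 62) (nat_lit 5) (nat_lit 253) (nat_lit 243) (nat_lit 224)) (XT.lf (nat_lit 0) (nat_lit 62408442) (nat_lit 304) (nat_lit 4051617007) (nat_lit 380) (nat_lit 4919804271) (nat_lit 57) (nat_lit 5) (nat_lit 61) (nat_lit 5) (nat_lit 62) (nat_lit 5) (nat_lit 254) (nat_lit 243) (nat_lit 223))))) (XT.nd (nat_lit 156) (nat_lit 608) (nat_lit 0) (XT.nd (nat_lit 78) (nat_lit 380) (nat_lit 0) (XT.lf (nat_lit 0) (nat_lit 7104220503) (nat_lit 380) (nat_lit 1926783589) (nat_lit 76) (nat_lit 363535346) (nat_lit 57) (nat_lit 5) (nat_lit 62) (nat_lit 5) (nat_lit 58) (nat_lit 5) (nat_lit 255) (nat_lit 243) (nat_lit 222)) (XT.lf (nat_lit 0) (nat_lit 535682457) (nat_lit 380) (nat_lit 4160269838) (nat_lit 76) (nat_lit 5088129192)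 (nat_lit 52) (nat_lit 5) (nat_lit 57) (nat_lit 5) (nat_lit 53) (nat_lit 5) (nat_lit 256) (nat_lit 243) (nat_lit 221))) (XT.nd (nat_lit 78) (nat_lit 304) (nat_lit 0) (XT.lf (nat_lit 0) (nat_lit 3453944613) (nat_lit 380) (nat_lit 6647890715) (nat_lit 76) (nat_lit 104301117) (nat_lit 48) (nat_lit 5) (nat_lit 53) (nat_lit 5) (nat_lit 49) (nat_lit 5) (nat_lit 257) (nat_lit 243) (nat_lit 220)) (XT.nd (nat_lit 78) (nat_lit 0) (nat_lit 0) (XT.lf (nat_lit 0) (nat_lit 1182791211) (nat_lit 304) (nat_lit 5456373220) (nat_lit 380) (nat_lit 4021623916) (nat_lit 44) (nat_lit 5) (nat_lit 48) (nat_lit 5) (nat_lit 49) (nat_lit 5) (nat_lit 258) (nat_lit 243) (nat_lit 219)) (XT.lf (nat_lit 0) (nat_lit 9725071703) (nat_lit 304) (nat_lit 339953600) (nat_lit 380) (nat_lit 1087965723) (nat_lit 44) (nat_lit 5) (nat_lit 48) (nat_lit 5) (nat_lit 49) (nat_lit 5) (nat_lit 259) (nat_lit 243) (nat_lit 218))))))) (XT.nd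 (nat_lit 702) (nat_lit 836) (nat_lit 0) (XT.nd (nat_lit 312) (nat_lit 912) (nat_lit 0) (XT.nd (nat_lit 156) (nat_lit 228) (nat_lit 0) (XT.nd (nat_lit 78) (nat_lit 228) (nat_lit 0) (XT.lf (nat_lit 0) (nat_lit 2088398557) (nat_lit 304) (nat_lit 4444189627) (nat_lit 76) (nat_lit 5147042047) (nat_lit 40) (nat_lit 5) (nat_lit 44) (nat_lit 5) (nat_lit 41) (nat_lit 5) (nat_lit 260) (nat_lit 243) (nat_lit 217)) (XT.lf (nat_lit 0) (nat_lit 4366022671) (nat_lit 228) (nat_lit 1098232955) (nat_lit 304) (nat_lit 6784461733) (nat_lit 37) (nat_lit 5) (nat_lit 40) (nat_lit 5) (nat_lit 41) (nat_lit 5) (nat_lit 261) (nat_lit 243) (nat_lit 216))) (XT.nd (nat_lit 78) (nat_lit 0) (nat_lit 0) (XT.lf (nat_lit 0) (nat_lit 992266879) (nat_lit 228) (nat_lit 8176379893) (nat_lit 304) (nat_lit 3692116592) (nat_lit 34) (nat_lit 5) (nat_lit 37) (nat_lit 5) (nat_lit 38) (nat_lit 5) (nat_lit 262) (nat_lit 243) (nat_lit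 215)) (XT.lf (nat_lit 0) (nat_lit 10701814707) (nat_lit 228) (nat_lit 2518920061) (nat_lit 304) (nat_lit 298799874) (nat_lit 34) (nat_lit 5) (nat_lit 37) (nat_lit 5) (nat_lit 38) (nat_lit 5) (nat_lit 263) (nat_lit 243) (nat_lit 214)))) (XT.nd (nat_lit 156) (nat_lit 456) (nat_lit 0) (XT.nd (nat_lit 78) (nat_lit 152) (nat_lit 0) (XT.lf (nat_lit 0) (nat_lit 3327363608) (nat_lit 304) (nat_lit 7288911188) (nat_lit 76) (nat_lit 3608939520) (nat_lit 30) (nat_lit 5) (nat_lit 34) (nat_lit 5) (nat_lit 31) (nat_lit 5) (nat_lit 264) (nat_lit 243) (nat_lit 213)) (XT.lf (nat_lit 0) (nat_lit 2487863006) (nat_lit 152) (nat_lit 4783109126) (nat_lit 228) (nat_lit 7714508821) (nat_lit 28) (nat_lit 5) (nat_lit 30) (nat_lit 5) (nat_lit 31) (nat_lit 5) (nat_lit 265) (nat_lit 243) (nat_lit 212))) (XT.nd (nat_lit 78) (nat_lit 456) (nat_lit 0) (XT.lf (nat_lit 0) (nat_lit 11593708226) (nat_lit 228) (nat_lit 2647216488)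 (nat_lit 76) (nat_lit 1562710899) (nat_lit 28) (nat_lit 5) (nat_lit 31) (nat_lit 5) (nat_lit 29) (nat_lit 5) (nat_lit 266) (nat_lit 243) (nat_lit 211)) (XT.nd (nat_lit 78) (nat_lit 228) (nat_lit 0) (XT.lf (nat_lit 0) (nat_lit 8049401579) (nat_lit 228) (nat_lit 8336695839) (nat_lit 304) (nat_lit 295183734) (nat_lit 25) (nat_lit 5) (nat_lit 28) (nat_lit 5) (nat_lit 29) (nat_lit 5) (nat_lit 267) (nat_lit 243) (nat_lit 210)) (XT.lf (nat_lit 0) (nat_lit 1953341373) (nat_lit 152) (nat_lit 1851249027) (nat_lit 228) (nat_lit 13821794737) (nat_lit 22) (nat_lit 5) (nat_lit 24) (nat_lit 5) (nat_lit 25) (nat_lit 5) (nat_lit 268) (nat_lit 243) (nat_lit 209)))))) (XT.nd (nat_lit 390) (nat_lit 456) (nat_lit 0) (XT.nd (nat_lit 156) (nat_lit 228) (nat_lit 0) (XT.nd (nat_lit 78) (nat_lit 152) (nat_lit 0) (XT.lf (nat_lit 0) (nat_lit 8379379478) (nat_lit 228) (nat_lit 5148661314) (nat_lit 76) (nat_lit 5111133930)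 (nat_lit 22) (nat_lit 5) (nat_lit 25) (nat_lit 5) (nat_lit 23) (nat_lit 5) (nat_lit 269) (nat_lit 243) (nat_lit 208)) (XT.lf (nat_lit 0) (nat_lit 6281189875) (nat_lit 152) (nat_lit 7097833609) (nat_lit 228) (nat_lit 6351194453) (nat_lit 20) (nat_lit 5) (nat_lit 22) (nat_lit 5) (nat_lit 23) (nat_lit 5) (nat_lit 270) (nat_lit 243) (nat_lit 207))) (XT.nd (nat_lit 78) (nat_lit 228) (nat_lit 0) (XT.lf (nat_lit 0) (nat_lit 18707602308) (nat_lit 152) (nat_lit 93940479) (nat_lit 228) (nat_lit 2106017795) (nat_lit 20) (nat_lit 5) (nat_lit 22) (nat_lit 5) (nat_lit 23) (nat_lit 5) (nat_lit 271) (nat_lit 243) (nat_lit 206)) (XT.nd (nat_lit 78) (nat_lit 0) (nat_lit 0) (XT.lf (nat_lit 0) (nat_lit 2614072487) (nat_lit 228) (nat_lit 12153419233) (nat_lit 76) (nat_lit 7399074218) (nat_lit 17) (nat_lit 5) (nat_lit 20) (nat_lit 5) (nat_lit 18) (nat_lit 5) (nat_lit 272) (nat_lit 243) (nat_lit 205)) (XT.lf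 (nat_lit 0) (nat_lit 7619232736) (nat_lit 228) (nat_lit 375041349) (nat_lit 76) (nat_lit 15531360615) (nat_lit 17) (nat_lit 5) (nat_lit 20) (nat_lit 5) (nat_lit 18) (nat_lit 5) (nat_lit 273) (nat_lit 243) (nat_lit 204))))) (XT.nd (nat_lit 156) (nat_lit 304) (nat_lit 0) (XT.nd (nat_lit 78) (nat_lit 0) (nat_lit 0) (XT.lf (nat_lit 0) (nat_lit 12663126199) (nat_lit 152) (nat_lit 503578008) (nat_lit 228) (nat_lit 11819751678) (nat_lit 15) (nat_lit 5) (nat_lit 17) (nat_lit 5) (nat_lit 18) (nat_lit 5) (nat_lit 274) (nat_lit 243) (nat_lit 203)) (XT.lf (nat_lit 0) (nat_lit 19229588901) (nat_lit 228) (nat_lit 10871314) (nat_lit 76) (nat_lit 7320214591) (nat_lit 15) (nat_lit 5) (nat_lit 18) (nat_lit 5) (nat_lit 16) (nat_lit 4) (nat_lit 275) (nat_lit 243) (nat_lit 202))) (XT.nd (nat_lit 78) (nat_lit 228) (nat_lit 0) (XT.lf (nat_lit 0) (nat_lit 13634630912) (nat_lit 76) (nat_lit 12314731051) (nat_lit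 152) (nat_lit 2302980859) (nat_lit 14) (nat_lit 5) (nat_lit 15) (nat_lit 5) (nat_lit 16) (nat_lit 4) (nat_lit 276) (nat_lit 243) (nat_lit 201)) (XT.nd (nat_lit 78) (nat_lit 152) (nat_lit 0) (XT.lf (nat_lit 0) (nat_lit 2979571206) (nat_lit 152) (nat_lit 1834063803) (nat_lit 76) (nat_lit 25265745329) (nat_lit 13) (nat_lit 5) (nat_lit 15) (nat_lit 5) (nat_lit 14) (nat_lit 5) (nat_lit 277) (nat_lit 243) (nat_lit 200)) (XT.lf (nat_lit 0) (nat_lit 8806744263) (nat_lit 228) (nat_lit 19844691950) (nat_lit 76) (nat_lit 3389207144) (nat_lit 11) (nat_lit 5) (nat_lit 14) (nat_lit 5) (nat_lit 12) (nat_lit 4) (nat_lit 278) (nat_lit 243) (nat_lit 199))))))))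
noncomputable def xc56 : XT := (XT.nd (nat_lit 1404) (nat_lit 228) (nat_lit 0) (XT.nd (nat_lit 702) (nat_lit 228) (nat_lit 0) (XT.nd (nat_lit 312) (nat_lit 228) (nat_lit 0) (XT.nd (nat_lit 156) (nat_lit 0) (nat_lit 0) (XT.nd (nat_lit 78) (nat_lit 76) (nat_lit 0) (XT.lf (nat_lit 0) (nat_lit 15171163781) (nat_lit 228) (nat_lit 6895940538) (nat_lit 76) (nat_lit 12088228442) (nat_lit 11) (nat_lit 5) (nat_lit 14) (nat_lit 5) (nat_lit 12) (nat_lit 4) (nat_lit 279) (nat_lit 243) (nat_lit 198)) (XT.lf (nat_lit 0) (nat_lit 7255275314) (nat_lit 76) (nat_lit 14863323752) (nat_lit 152) (nat_lit 14316978266) (nat_lit 10) (nat_lit 5) (nat_lit 11) (nat_lit 5) (nat_lit 12) (nat_lit 4) (nat_lit 280) (nat_lit 243) (nat_lit 197))) (XT.nd (nat_lit 78) (nat_lit 0) (nat_lit 0) (XT.lf (nat_lit 0) (nat_lit 22722043516) (nat_lit 76) (nat_lit 6982434565) (nat_lit 152) (nat_lit 9189698650) (nat_lit 10) (nat_lit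 5) (nat_lit 11) (nat_lit 5) (nat_lit 12) (nat_lit 4) (nat_lit 281) (nat_lit 243) (nat_lit 196)) (XT.lf (nat_lit 0) (nat_lit 37886034079) (nat_lit 152) (nat_lit 2206758369) (nat_lit 0) (nat_lit 1457293994) (nat_lit 10) (nat_lit 5) (nat_lit 12) (nat_lit 4) (nat_lit 10) (nat_lit 4) (nat_lit 282) (nat_lit 243) (nat_lit 195)))) (XT.nd (nat_lit 156) (nat_lit 76) (nat_lit 0) (XT.nd (nat_lit 78) (nat_lit 0) (nat_lit 0) (XT.lf (nat_lit 0) (nat_lit 2524771064) (nat_lit 152) (nat_lit 31321778217) (nat_lit 76) (nat_lit 10555433792) (nat_lit 8) (nat_lit 5) (nat_lit 10) (nat_lit 5) (nat_lit 9) (nat_lit 4) (nat_lit 283) (nat_lit 243) (nat_lit 194)) (XT.lf (nat_lit 0) (nat_lit 9089672439) (nat_lit 152) (nat_lit 17927451523) (nat_lit 76) (nat_lit 20461488208) (nat_lit 8) (nat_lit 5) (nat_lit 10) (nat_lit 5) (nat_lit 9) (nat_lit 4) (nat_lit 284) (nat_lit 243) (nat_lit 193))) (XT.nd (nat_lit 78) (nat_lit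 76) (nat_lit 0) (XT.lf (nat_lit 0) (nat_lit 16150651071) (nat_lit 152) (nat_lit 3511446369) (nat_lit 76) (nat_lit 31140777294) (nat_lit 8) (nat_lit 5) (nat_lit 10) (nat_lit 5) (nat_lit 9) (nat_lit 4) (nat_lit 285) (nat_lit 243) (nat_lit 192)) (XT.nd (nat_lit 78) (nat_lit 0) (nat_lit 0) (XT.lf (nat_lit 0) (nat_lit 12408825326) (nat_lit 76) (nat_lit 11534461008) (nat_lit 152) (nat_lit 30441496941) (nat_lit 7) (nat_lit 5) (nat_lit 8) (nat_lit 5) (nat_lit 9) (nat_lit 4) (nat_lit 286) (nat_lit 243) (nat_lit 191)) (XT.lf (nat_lit 0) (nat_lit 29683944258) (nat_lit 76) (nat_lit 2710904426) (nat_lit 152) (nat_lit 25856660638) (nat_lit 7) (nat_lit 5) (nat_lit 8) (nat_lit 5) (nat_lit 9) (nat_lit 4) (nat_lit 287) (nat_lit 243) (nat_lit 190)))))) (XT.nd (nat_lit 312) (nat_lit 152) (nat_lit 0) (XT.nd (nat_lit 156) (nat_lit 0) (nat_lit 0) (XT.nd (nat_lit 78) (nat_lit 76) (nat_lit 0) (XT.lf (nat_lit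 0) (nat_lit 41604974009) (nat_lit 152) (nat_lit 14234810184) (nat_lit 0) (nat_lit 6583704985) (nat_lit 7) (nat_lit 5) (nat_lit 9) (nat_lit 4) (nat_lit 7) (nat_lit 4) (nat_lit 288) (nat_lit 243) (nat_lit 189)) (XT.lf (nat_lit 0) (nat_lit 1198459732) (nat_lit 76) (nat_lit 50395632410) (nat_lit 76) (nat_lit 15333060980) (nat_lit 6) (nat_lit 4) (nat_lit 7) (nat_lit 5) (nat_lit 7) (nat_lit 4) (nat_lit 289) (nat_lit 243) (nat_lit 188))) (XT.nd (nat_lit 78) (nat_lit 0) (nat_lit 0) (XT.lf (nat_lit 0) (nat_lit 18337643121) (nat_lit 76) (nat_lit 44271487097) (nat_lit 76) (nat_lit 9170672697) (nat_lit 6) (nat_lit 4) (nat_lit 7) (nat_lit 5) (nat_lit 7) (nat_lit 4) (nat_lit 290) (nat_lit 243) (nat_lit 187)) (XT.lf (nat_lit 0) (nat_lit 36813638400) (nat_lit 76) (nat_lit 37672130421) (nat_lit 76) (nat_lit 2535905865) (nat_lit 6) (nat_lit 4) (nat_lit 7) (nat_lit 5) (nat_lit 7) (nat_lit 4) (nat_lit 291)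 (nat_lit 243) (nat_lit 186)))) (XT.nd (nat_lit 156) (nat_lit 76) (nat_lit 0) (XT.nd (nat_lit 78) (nat_lit 0) (nat_lit 0) (XT.lf (nat_lit 0) (nat_lit 4462990048) (nat_lit 152) (nat_lit 26019882139) (nat_lit 76) (nat_lit 52197360006) (nat_lit 5) (nat_lit 5) (nat_lit 7) (nat_lit 5) (nat_lit 6) (nat_lit 4) (nat_lit 292) (nat_lit 243) (nat_lit 185)) (XT.lf (nat_lit 0) (nat_lit 11917033328) (nat_lit 152) (nat_lit 10769451916) (nat_lit 76) (nat_lit 66103730759) (nat_lit 5) (nat_lit 5) (nat_lit 7) (nat_lit 5) (nat_lit 6) (nat_lit 4) (nat_lit 293) (nat_lit 243) (nat_lit 184))) (XT.nd (nat_lit 78) (nat_lit 0) (nat_lit 0) (XT.lf (nat_lit 0) (nat_lit 5860802170) (nat_lit 76) (nat_lit 14182262285) (nat_lit 152) (nat_lit 75342173426) (nat_lit 4) (nat_lit 5) (nat_lit 5) (nat_lit 5) (nat_lit 6) (nat_lit 4) (nat_lit 294) (nat_lit 243) (nat_lit 183)) (XT.nd (nat_lit 78) (nat_lit 0) (nat_lit 0) (XT.lf (nat_lit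 0) (nat_lit 24179465255) (nat_lit 76) (nat_lit 4812228764) (nat_lit 152) (nat_lit 73507562601) (nat_lit 4) (nat_lit 5) (nat_lit 5) (nat_lit 5) (nat_lit 6) (nat_lit 4) (nat_lit 295) (nat_lit 243) (nat_lit 182)) (XT.lf (nat_lit 0) (nat_lit 38724947299) (nat_lit 152) (nat_lit 66326805947) (nat_lit 0) (nat_lit 5127226305) (nat_lit 4) (nat_lit 5) (nat_lit 6) (nat_lit 4) (nat_lit 4) (nat_lit 4) (nat_lit 296) (nat_lit 243) (nat_lit 181))))))) (XT.nd (nat_lit 702) (nat_lit 152) (nat_lit 0) (XT.nd (nat_lit 312) (nat_lit 76) (nat_lit 0) (XT.nd (nat_lit 156) (nat_lit 0) (nat_lit 0) (XT.nd (nat_lit 78) (nat_lit 0) (nat_lit 0) (XT.lf (nat_lit 0) (nat_lit 49304920331) (nat_lit 152) (nat_lit 53478827415) (nat_lit 0) (nat_lit 15685947522) (nat_lit 4) (nat_lit 5) (nat_lit 6) (nat_lit 4) (nat_lit 4) (nat_lit 4) (nat_lit 297) (nat_lit 243) (nat_lit 180)) (XT.lf (nat_lit 0) (nat_lit 60719176876) (nat_lit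 152) (nat_lit 39624587221) (nat_lit 0) (nat_lit 27080526460) (nat_lit 4) (nat_lit 5) (nat_lit 6) (nat_lit 4) (nat_lit 4) (nat_lit 4) (nat_lit 298) (nat_lit 243) (nat_lit 179))) (XT.nd (nat_lit 78) (nat_lit 0) (nat_lit 0) (XT.lf (nat_lit 0) (nat_lit 73035356971) (nat_lit 152) (nat_lit 24681986165) (nat_lit 0) (nat_lit 39378486550) (nat_lit 4) (nat_lit 5) (nat_lit 6) (nat_lit 4) (nat_lit 4) (nat_lit 4) (nat_lit 299) (nat_lit 243) (nat_lit 178)) (XT.lf (nat_lit 0) (nat_lit 86326445388) (nat_lit 152) (nat_lit 8562475500) (nat_lit 0) (nat_lit 52652704592) (nat_lit 4) (nat_lit 5) (nat_lit 6) (nat_lit 4) (nat_lit 4) (nat_lit 4) (nat_lit 300) (nat_lit 243) (nat_lit 177)))) (XT.nd (nat_lit 156) (nat_lit 0) (nat_lit 0) (XT.nd (nat_lit 78) (nat_lit 0) (nat_lit 0) (XT.lf (nat_lit 0) (nat_lit 9121409880) (nat_lit 76) (nat_lit 91692205023) (nat_lit 76) (nat_lit 58002843509) (nat_lit 3) (nat_lit 4)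 (nat_lit 4) (nat_lit 5) (nat_lit 4) (nat_lit 4) (nat_lit 301) (nat_lit 243) (nat_lit 176)) (XT.lf (nat_lit 0) (nat_lit 28509385483) (nat_lit 76) (nat_lit 88090365104) (nat_lit 76) (nat_lit 54386539962) (nat_lit 3) (nat_lit 4) (nat_lit 4) (nat_lit 5) (nat_lit 4) (nat_lit 4) (nat_lit 302) (nat_lit 243) (nat_lit 175))) (XT.nd (nat_lit 78) (nat_lit 0) (nat_lit 0) (XT.lf (nat_lit 0) (nat_lit 49433228906) (nat_lit 76) (nat_lit 84207066560) (nat_lit 76) (nat_lit 50489849170) (nat_lit 3) (nat_lit 4) (nat_lit 4) (nat_lit 5) (nat_lit 4) (nat_lit 4) (nat_lit 303) (nat_lit 243) (nat_lit 174)) (XT.nd (nat_lit 78) (nat_lit 0) (nat_lit 0) (XT.lf (nat_lit 0) (nat_lit 72016933295) (nat_lit 76) (nat_lit 80019297252) (nat_lit 76) (nat_lit 46289679632) (nat_lit 3) (nat_lit 4) (nat_lit 4) (nat_lit 5) (nat_lit 4) (nat_lit 4) (nat_lit 304) (nat_lit 243) (nat_lit 173)) (XT.lf (nat_lit 0) (nat_lit 96394328010)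 (nat_lit 76) (nat_lit 75502240768) (nat_lit 76) (nat_lit 41761141454) (nat_lit 3) (nat_lit 4) (nat_lit 4) (nat_lit 5) (nat_lit 4) (nat_lit 4) (nat_lit 305) (nat_lit 243) (nat_lit 172)))))) (XT.nd (nat_lit 390) (nat_lit 152) (nat_lit 0) (XT.nd (nat_lit 156) (nat_lit 0) (nat_lit 0) (XT.nd (nat_lit 78) (nat_lit 0) (nat_lit 0) (XT.lf (nat_lit 0) (nat_lit 122709871686) (nat_lit 76) (nat_lit 70629129368) (nat_lit 76) (nat_lit 36877398855) (nat_lit 3) (nat_lit 4) (nat_lit 4) (nat_lit 5) (nat_lit 4) (nat_lit 4) (nat_lit 306) (nat_lit 243) (nat_lit 171)) (XT.lf (nat_lit 0) (nat_lit 151119508286) (nat_lit 76) (nat_lit 65371085353) (nat_lit 76) (nat_lit 31609511138) (nat_lit 3) (nat_lit 4) (nat_lit 4) (nat_lit 5) (nat_lit 4) (nat_lit 4) (nat_lit 307) (nat_lit 243) (nat_lit 170))) (XT.nd (nat_lit 78) (nat_lit 0) (nat_lit 0) (XT.lf (nat_lit 0) (nat_lit 181791591211) (nat_lit 76) (nat_lit 59696949944)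 (nat_lit 76) (nat_lit 25926261191) (nat_lit 3) (nat_lit 4) (nat_lit 4) (nat_lit 5) (nat_lit 4) (nat_lit 4) (nat_lit 308) (nat_lit 243) (nat_lit 169)) (XT.nd (nat_lit 78) (nat_lit 0) (nat_lit 0) (XT.lf (nat_lit 0) (nat_lit 214907880953) (nat_lit 76) (nat_lit 53573098636) (nat_lit 76) (nat_lit 19793970494) (nat_lit 3) (nat_lit 4) (nat_lit 4) (nat_lit 5) (nat_lit 4) (nat_lit 4) (nat_lit 309) (nat_lit 243) (nat_lit 168)) (XT.lf (nat_lit 0) (nat_lit 250664622192) (nat_lit 76) (nat_lit 46963241938) (nat_lit 76) (nat_lit 13176299549) (nat_lit 3) (nat_lit 4) (nat_lit 4) (nat_lit 5) (nat_lit 4) (nat_lit 4) (nat_lit 310) (nat_lit 243) (nat_lit 167))))) (XT.nd (nat_lit 156) (nat_lit 76) (nat_lit 0) (XT.nd (nat_lit 78) (nat_lit 76) (nat_lit 0) (XT.lf (nat_lit 0) (nat_lit 289273706728) (nat_lit 76) (nat_lit 39828210330) (nat_lit 76) (nat_lit 6034032526) (nat_lit 3) (nat_lit 4) (nat_lit 4) (nat_lit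 5) (nat_lit 4) (nat_lit 4) (nat_lit 311) (nat_lit 243) (nat_lit 166)) (XT.lf (nat_lit 0) (nat_lit 1621539693) (nat_lit 152) (nat_lit 30476720891) (nat_lit 76) (nat_lit 329314927883) (nat_lit 2) (nat_lit 5) (nat_lit 4) (nat_lit 5) (nat_lit 3) (nat_lit 4) (nat_lit 312) (nat_lit 243) (nat_lit 165))) (XT.nd (nat_lit 78) (nat_lit 76) (nat_lit 0) (XT.lf (nat_lit 0) (nat_lit 9676982710) (nat_lit 152) (nat_lit 13969265909) (nat_lit 76) (nat_lit 366141475490) (nat_lit 2) (nat_lit 5) (nat_lit 4) (nat_lit 5) (nat_lit 3) (nat_lit 4) (nat_lit 313) (nat_lit 243) (nat_lit 164)) (XT.nd (nat_lit 78) (nat_lit 0) (nat_lit 0) (XT.lf (nat_lit 0) (nat_lit 3979521751) (nat_lit 76) (nat_lit 14455768941) (nat_lit 152) (nat_lit 401994015047) (nat_lit 1) (nat_lit 5) (nat_lit 2) (nat_lit 5) (nat_lit 3) (nat_lit 4) (nat_lit 314) (nat_lit 243) (nat_lit 163)) (XT.lf (nat_lit 0) (nat_lit 23856705410) (nat_lit 76) (nat_lit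 4277366700) (nat_lit 152) (nat_lit 425376155624) (nat_lit 1) (nat_lit 5) (nat_lit 2) (nat_lit 5) (nat_lit 3) (nat_lit 4) (nat_lit 315) (nat_lit 243) (nat_lit 162))))))))
noncomputable def xc57 : XT := (XT.nd (nat_lit 32682) (nat_lit 0) (nat_lit 1444) (XT.nd (nat_lit 31980) (nat_lit 0) (nat_lit 5244) (XT.nd (nat_lit 312) (nat_lit 0) (nat_lit 0) (XT.nd (nat_lit 156) (nat_lit 0) (nat_lit 0) (XT.nd (nat_lit 78) (nat_lit 0) (nat_lit 0) (XT.lf (nat_lit 0) (nat_lit 38710294513) (nat_lit 152) (nat_lit 444024405988) (nat_lit 0) (nat_lit 6497850019) (nat_lit 1) (nat_lit 5) (nat_lit 3) (nat_lit 4) (nat_lit 1) (nat_lit 4) (nat_lit 316) (nat_lit 243) (nat_lit 161)) (XT.lf (nat_lit 0) (nat_lit 50201677533) (nat_lit 152) (nat_lit 459622641495) (nat_lit 0) (nat_lit 17984890622) (nat_lit 1) (nat_lit 5) (nat_lit 3) (nat_lit 4) (nat_lit 1) (nat_lit 4) (nat_lit 317) (nat_lit 243) (nat_lit 160))) (XT.nd (nat_lit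 78) (nat_lit 0) (nat_lit 0) (XT.lf (nat_lit 0) (nat_lit 62609536575) (nat_lit 152) (nat_lit 476473881151) (nat_lit 0) (nat_lit 30388728907) (nat_lit 1) (nat_lit 5) (nat_lit 3) (nat_lit 4) (nat_lit 1) (nat_lit 4) (nat_lit 318) (nat_lit 243) (nat_lit 159)) (XT.lf (nat_lit 0) (nat_lit 76007399692) (nat_lit 152) (nat_lit 494677984155) (nat_lit 0) (nat_lit 43782869100) (nat_lit 1) (nat_lit 5) (nat_lit 3) (nat_lit 4) (nat_lit 1) (nat_lit 4) (nat_lit 319) (nat_lit 243) (nat_lit 158)))) (XT.nd (nat_lit 156) (nat_lit 0) (nat_lit 0) (XT.nd (nat_lit 78) (nat_lit 0) (nat_lit 0) (XT.lf (nat_lit 0) (nat_lit 90474661629) (nat_lit 152) (nat_lit 514342826672) (nat_lit 0) (nat_lit 58246683886) (nat_lit 1) (nat_lit 5) (nat_lit 3) (nat_lit 4) (nat_lit 1) (nat_lit 4) (nat_lit 320) (nat_lit 243) (nat_lit 157)) (XT.lf (nat_lit 0) (nat_lit 106097054307) (nat_lit 152) (nat_lit 535584941103) (nat_lit 0) (nat_lit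 73865884757) (nat_lit 1) (nat_lit 5) (nat_lit 3) (nat_lit 4) (nat_lit 1) (nat_lit 4) (nat_lit 321) (nat_lit 243) (nat_lit 156))) (XT.nd (nat_lit 78) (nat_lit 0) (nat_lit 0) (XT.lf (nat_lit 0) (nat_lit 122967154869) (nat_lit 152) (nat_lit 558530206644) (nat_lit 0) (nat_lit 90733029943) (nat_lit 1) (nat_lit 5) (nat_lit 3) (nat_lit 4) (nat_lit 1) (nat_lit 4) (nat_lit 322) (nat_lit 243) (nat_lit 155)) (XT.nd (nat_lit 31356) (nat_lit 0) (nat_lit 7296) (XT.lf (nat_lit 0) (nat_lit 141184934282) (nat_lit 152) (nat_lit 583314595240) (nat_lit 0) (nat_lit 108948072895) (nat_lit 1) (nat_lit 5) (nat_lit 3) (nat_lit 4) (nat_lit 1) (nat_lit 4) (nat_lit 323) (nat_lit 243) (nat_lit 154)) (XT.lf (nat_lit 0) (nat_lit 477870481) (nat_lit 0) (nat_lit 477870481) (nat_lit 380) (nat_lit 2506275978) (nat_lit 97) (nat_lit 5) (nat_lit 97) (nat_lit 3) (nat_lit 102) (nat_lit 3) (nat_lit 244) (nat_lit 244) (nat_lit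 232)))))) (XT.nd (nat_lit 312) (nat_lit 1596) (nat_lit 0) (XT.nd (nat_lit 156) (nat_lit 0) (nat_lit 0) (XT.nd (nat_lit 78) (nat_lit 456) (nat_lit 0) (XT.lf (nat_lit 0) (nat_lit 4647012945) (nat_lit 380) (nat_lit 1236567719) (nat_lit 456) (nat_lit 1170088114) (nat_lit 97) (nat_lit 5) (nat_lit 102) (nat_lit 3) (nat_lit 103) (nat_lit 5) (nat_lit 245) (nat_lit 244) (nat_lit 231)) (XT.lf (nat_lit 0) (nat_lit 204069041) (nat_lit 456) (nat_lit 3376282604) (nat_lit 532) (nat_lit 3623903729) (nat_lit 91) (nat_lit 5) (nat_lit 97) (nat_lit 5) (nat_lit 98) (nat_lit 5) (nat_lit 246) (nat_lit 244) (nat_lit 230))) (XT.nd (nat_lit 78) (nat_lit 0) (nat_lit 76) (XT.lf (nat_lit 76) (nat_lit 1842194356) (nat_lit 0) (nat_lit 898725819) (nat_lit 532) (nat_lit 4635184825) (nat_lit 92) (nat_lit 5) (nat_lit 91) (nat_lit 5) (nat_lit 98) (nat_lit 5) (nat_lit 247) (nat_lit 244) (nat_lit 229)) (XT.lf (nat_lit 0)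 (nat_lit 5339134764) (nat_lit 456) (nat_lit 151707535) (nat_lit 532) (nat_lit 2079113659) (nat_lit 92) (nat_lit 5) (nat_lit 98) (nat_lit 5) (nat_lit 99) (nat_lit 5) (nat_lit 248) (nat_lit 244) (nat_lit 228)))) (XT.nd (nat_lit 156) (nat_lit 1140) (nat_lit 0) (XT.nd (nat_lit 78) (nat_lit 0) (nat_lit 76) (XT.lf (nat_lit 0) (nat_lit 239814643) (nat_lit 532) (nat_lit 2109826442) (nat_lit 608) (nat_lit 5436141966) (nat_lit 85) (nat_lit 5) (nat_lit 92) (nat_lit 5) (nat_lit 93) (nat_lit 5) (nat_lit 249) (nat_lit 244) (nat_lit 227)) (XT.lf (nat_lit 0) (nat_lit 2707448612) (nat_lit 532) (nat_lit 4149446336) (nat_lit 76) (nat_lit 1167236295) (nat_lit 86) (nat_lit 5) (nat_lit 93) (nat_lit 5) (nat_lit 87) (nat_lit 5) (nat_lit 250) (nat_lit 244) (nat_lit 226))) (XT.nd (nat_lit 78) (nat_lit 684) (nat_lit 0) (XT.lf (nat_lit 0) (nat_lit 2003615921) (nat_lit 532) (nat_lit 3285084387) (nat_lit 608) (nat_lit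 2997924307) (nat_lit 79) (nat_lit 5) (nat_lit 86) (nat_lit 5) (nat_lit 87) (nat_lit 5) (nat_lit 251) (nat_lit 244) (nat_lit 225)) (XT.nd (nat_lit 78) (nat_lit 76) (nat_lit 0) (XT.lf (nat_lit 0) (nat_lit 65019411) (nat_lit 608) (nat_lit 7915244613) (nat_lit 684) (nat_lit 595484763) (nat_lit 71) (nat_lit 5) (nat_lit 79) (nat_lit 5) (nat_lit 80) (nat_lit 5) (nat_lit 252) (nat_lit 244) (nat_lit 224)) (XT.lf (nat_lit 0) (nat_lit 1929640627) (nat_lit 684) (nat_lit 1982780447) (nat_lit 76) (nat_lit 4975022203) (nat_lit 70) (nat_lit 5) (nat_lit 79) (nat_lit 5) (nat_lit 71) (nat_lit 5) (nat_lit 253) (nat_lit 244) (nat_lit 223))))))) (XT.nd (nat_lit 702) (nat_lit 1292) (nat_lit 0) (XT.nd (nat_lit 312) (nat_lit 1140) (nat_lit 0) (XT.nd (nat_lit 156) (nat_lit 380) (nat_lit 0) (XT.nd (nat_lit 78) (nat_lit 304) (nat_lit 0) (XT.lf (nat_lit 0) (nat_lit 4564103863) (nat_lit 760) (nat_lit 4162037907) (nat_lit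 76) (nat_lit 501705032) (nat_lit 61) (nat_lit 5) (nat_lit 71) (nat_lit 5) (nat_lit 62) (nat_lit 5) (nat_lit 254) (nat_lit 244) (nat_lit 222)) (XT.lf (nat_lit 0) (nat_lit 3038631298) (nat_lit 304) (nat_lit 4369606719) (nat_lit 380) (nat_lit 2187920296) (nat_lit 57) (nat_lit 5) (nat_lit 61) (nat_lit 5) (nat_lit 62) (nat_lit 5) (nat_lit 255) (nat_lit 244) (nat_lit 221))) (XT.nd (nat_lit 78) (nat_lit 0) (nat_lit 0) (XT.lf (nat_lit 0) (nat_lit 420462266) (nat_lit 380) (nat_lit 9158032366) (nat_lit 76) (nat_lit 418106312) (nat_lit 52) (nat_lit 5) (nat_lit 57) (nat_lit 5) (nat_lit 53) (nat_lit 5) (nat_lit 256) (nat_lit 244) (nat_lit 220)) (XT.lf (nat_lit 0) (nat_lit 3216455010) (nat_lit 380) (nat_lit 1622433729) (nat_lit 76) (nat_lit 5586124569) (nat_lit 52) (nat_lit 5) (nat_lit 57) (nat_lit 5) (nat_lit 53) (nat_lit 5) (nat_lit 257) (nat_lit 244) (nat_lit 219)))) (XT.nd (nat_lit 156) (nat_lit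 532) (nat_lit 0) (XT.nd (nat_lit 78) (nat_lit 304) (nat_lit 0) (XT.lf (nat_lit 0) (nat_lit 6219715403) (nat_lit 380) (nat_lit 4304451975) (nat_lit 76) (nat_lit 364821666) (nat_lit 48) (nat_lit 5) (nat_lit 53) (nat_lit 5) (nat_lit 49) (nat_lit 5) (nat_lit 258) (nat_lit 244) (nat_lit 218)) (XT.lf (nat_lit 0) (nat_lit 4027728776) (nat_lit 304) (nat_lit 5490560054) (nat_lit 380) (nat_lit 1869476398) (nat_lit 44) (nat_lit 5) (nat_lit 48) (nat_lit 5) (nat_lit 49) (nat_lit 5) (nat_lit 259) (nat_lit 244) (nat_lit 217))) (XT.nd (nat_lit 78) (nat_lit 228) (nat_lit 0) (XT.lf (nat_lit 0) (nat_lit 1098378168) (nat_lit 304) (nat_lit 10787502402) (nat_lit 76) (nat_lit 40994510) (nat_lit 40) (nat_lit 5) (nat_lit 44) (nat_lit 5) (nat_lit 41) (nat_lit 5) (nat_lit 260) (nat_lit 244) (nat_lit 216)) (XT.nd (nat_lit 78) (nat_lit 228) (nat_lit 0) (XT.lf (nat_lit 0) (nat_lit 4354347432) (nat_lit 304) (nat_lit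 2181548966) (nat_lit 76) (nat_lit 5966230960) (nat_lit 40) (nat_lit 5) (nat_lit 44) (nat_lit 5) (nat_lit 41) (nat_lit 5) (nat_lit 261) (nat_lit 244) (nat_lit 215)) (XT.lf (nat_lit 0) (nat_lit 7219697585) (nat_lit 228) (nat_lit 664203707) (nat_lit 304) (nat_lit 5239172046) (nat_lit 37) (nat_lit 5) (nat_lit 40) (nat_lit 5) (nat_lit 41) (nat_lit 5) (nat_lit 262) (nat_lit 244) (nat_lit 214)))))) (XT.nd (nat_lit 390) (nat_lit 608) (nat_lit 0) (XT.nd (nat_lit 156) (nat_lit 380) (nat_lit 0) (XT.nd (nat_lit 78) (nat_lit 76) (nat_lit 0) (XT.lf (nat_lit 0) (nat_lit 3560364141) (nat_lit 228) (nat_lit 8223827746) (nat_lit 304) (nat_lit 2005388998) (nat_lit 34) (nat_lit 5) (nat_lit 37) (nat_lit 5) (nat_lit 38) (nat_lit 5) (nat_lit 263) (nat_lit 244) (nat_lit 213)) (XT.lf (nat_lit 0) (nat_lit 1464159343) (nat_lit 304) (nat_lit 669753503) (nat_lit 76) (nat_lit 12373370878) (nat_lit 33) (nat_lit 5) (nat_lit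 37) (nat_lit 5) (nat_lit 34) (nat_lit 5) (nat_lit 264) (nat_lit 244) (nat_lit 212))) (XT.nd (nat_lit 78) (nat_lit 152) (nat_lit 0) (XT.lf (nat_lit 0) (nat_lit 5282996991) (nat_lit 304) (nat_lit 5526872753) (nat_lit 76) (nat_lit 4464038697) (nat_lit 30) (nat_lit 5) (nat_lit 34) (nat_lit 5) (nat_lit 31) (nat_lit 5) (nat_lit 265) (nat_lit 244) (nat_lit 211)) (XT.nd (nat_lit 78) (nat_lit 0) (nat_lit 0) (XT.lf (nat_lit 0) (nat_lit 4930125958) (nat_lit 152) (nat_lit 4521847385) (nat_lit 228) (nat_lit 6647888428) (nat_lit 28) (nat_lit 5) (nat_lit 30) (nat_lit 5) (nat_lit 31) (nat_lit 5) (nat_lit 266) (nat_lit 244) (nat_lit 210)) (XT.lf (nat_lit 0) (nat_lit 14011368483) (nat_lit 228) (nat_lit 713032397) (nat_lit 76) (nat_lit 2264858617) (nat_lit 28) (nat_lit 5) (nat_lit 31) (nat_lit 5) (nat_lit 29) (nat_lit 5) (nat_lit 267) (nat_lit 244) (nat_lit 209))))) (XT.nd (nat_lit 156) (nat_lit 152) (nat_lit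 0) (XT.nd (nat_lit 78) (nat_lit 152) (nat_lit 0) (XT.lf (nat_lit 0) (nat_lit 1130106850) (nat_lit 304) (nat_lit 7213514725) (nat_lit 76) (nat_lit 9596808491) (nat_lit 24) (nat_lit 5) (nat_lit 28) (nat_lit 5) (nat_lit 25) (nat_lit 5) (nat_lit 268) (nat_lit 244) (nat_lit 208)) (XT.lf (nat_lit 0) (nat_lit 4122111985) (nat_lit 152) (nat_lit 1350397708) (nat_lit 228) (nat_lit 13492412950) (nat_lit 22) (nat_lit 5) (nat_lit 24) (nat_lit 5) (nat_lit 25) (nat_lit 5) (nat_lit 269) (nat_lit 244) (nat_lit 207))) (XT.nd (nat_lit 78) (nat_lit 152) (nat_lit 0) (XT.lf (nat_lit 0) (nat_lit 10321659474) (nat_lit 228) (nat_lit 3640235091) (nat_lit 76) (nat_lit 6101673486) (nat_lit 22) (nat_lit 5) (nat_lit 25) (nat_lit 5) (nat_lit 23) (nat_lit 5) (nat_lit 270) (nat_lit 244) (nat_lit 206)) (XT.nd (nat_lit 78) (nat_lit 0) (nat_lit 0) (XT.lf (nat_lit 0) (nat_lit 8620549465) (nat_lit 152) (nat_lit 7035187126)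 (nat_lit 228) (nat_lit 5589667953) (nat_lit 20) (nat_lit 5) (nat_lit 22) (nat_lit 5) (nat_lit 23) (nat_lit 5) (nat_lit 271) (nat_lit 244) (nat_lit 205)) (XT.lf (nat_lit 0) (nat_lit 21430225425) (nat_lit 228) (nat_lit 624137803) (nat_lit 76) (nat_lit 466878621) (nat_lit 20) (nat_lit 5) (nat_lit 23) (nat_lit 5) (nat_lit 21) (nat_lit 4) (nat_lit 272) (nat_lit 244) (nat_lit 204))))))))
noncomputable def xc58 : XT := (XT.nd (nat_lit 1404) (nat_lit 228) (nat_lit 0) (XT.nd (nat_lit 702) (nat_lit 304) (nat_lit 0) (XT.nd (nat_lit 312) (nat_lit 304) (nat_lit 0) (XT.nd (nat_lit 156) (nat_lit 76) (nat_lit 0) (XT.nd (nat_lit 78) (nat_lit 152) (nat_lit 0) (XT.lf (nat_lit 0) (nat_lit 3912000393) (nat_lit 228) (nat_lit 11413144842) (nat_lit 76) (nat_lit 8557928785) (nat_lit 17) (nat_lit 5) (nat_lit 20) (nat_lit 5) (nat_lit 18) (nat_lit 5) (nat_lit 273) (nat_lit 244) (nat_lit 203)) (XT.lf (nat_lit 0)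 (nat_lit 1219685420) (nat_lit 152) (nat_lit 8036278741) (nat_lit 228) (nat_lit 16098160667) (nat_lit 15) (nat_lit 5) (nat_lit 17) (nat_lit 5) (nat_lit 18) (nat_lit 5) (nat_lit 274) (nat_lit 244) (nat_lit 202))) (XT.nd (nat_lit 78) (nat_lit 76) (nat_lit 0) (XT.lf (nat_lit 0) (nat_lit 15177440146) (nat_lit 228) (nat_lit 11742766251) (nat_lit 76) (nat_lit 15258010) (nat_lit 15) (nat_lit 5) (nat_lit 18) (nat_lit 5) (nat_lit 16) (nat_lit 4) (nat_lit 275) (nat_lit 244) (nat_lit 201)) (XT.lf (nat_lit 0) (nat_lit 1478103223) (nat_lit 76) (nat_lit 20207273500) (nat_lit 152) (nat_lit 6952394024) (nat_lit 14) (nat_lit 5) (nat_lit 15) (nat_lit 5) (nat_lit 16) (nat_lit 4) (nat_lit 276) (nat_lit 244) (nat_lit 200)))) (XT.nd (nat_lit 156) (nat_lit 228) (nat_lit 0) (XT.nd (nat_lit 78) (nat_lit 76) (nat_lit 0) (XT.lf (nat_lit 0) (nat_lit 16105246250) (nat_lit 76) (nat_lit 12769703634) (nat_lit 152) (nat_lit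 1593351185) (nat_lit 14) (nat_lit 5) (nat_lit 15) (nat_lit 5) (nat_lit 16) (nat_lit 4) (nat_lit 277) (nat_lit 244) (nat_lit 199)) (XT.lf (nat_lit 0) (nat_lit 4019102439) (nat_lit 152) (nat_lit 675123855) (nat_lit 76) (nat_lit 27749905427) (nat_lit 13) (nat_lit 5) (nat_lit 15) (nat_lit 5) (nat_lit 14) (nat_lit 5) (nat_lit 278) (nat_lit 244) (nat_lit 198))) (XT.nd (nat_lit 78) (nat_lit 76) (nat_lit 0) (XT.lf (nat_lit 0) (nat_lit 10280215780) (nat_lit 228) (nat_lit 20151465126) (nat_lit 76) (nat_lit 4132340684) (nat_lit 11) (nat_lit 5) (nat_lit 14) (nat_lit 5) (nat_lit 12) (nat_lit 4) (nat_lit 279) (nat_lit 244) (nat_lit 197)) (XT.nd (nat_lit 78) (nat_lit 76) (nat_lit 0) (XT.lf (nat_lit 0) (nat_lit 17096830935) (nat_lit 228) (nat_lit 6261687837) (nat_lit 76) (nat_lit 13492320947) (nat_lit 11) (nat_lit 5) (nat_lit 14) (nat_lit 5) (nat_lit 12) (nat_lit 4) (nat_lit 280) (nat_lit 244) (nat_lit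 196)) (XT.lf (nat_lit 0) (nat_lit 8970086300) (nat_lit 76) (nat_lit 15594946915) (nat_lit 152) (nat_lit 14750319881) (nat_lit 10) (nat_lit 5) (nat_lit 11) (nat_lit 5) (nat_lit 12) (nat_lit 4) (nat_lit 281) (nat_lit 244) (nat_lit 195)))))) (XT.nd (nat_lit 312) (nat_lit 152) (nat_lit 0) (XT.nd (nat_lit 156) (nat_lit 152) (nat_lit 0) (XT.nd (nat_lit 78) (nat_lit 0) (nat_lit 0) (XT.lf (nat_lit 0) (nat_lit 25590167146) (nat_lit 76) (nat_lit 7117471241) (nat_lit 152) (nat_lit 9265599870) (nat_lit 10) (nat_lit 5) (nat_lit 11) (nat_lit 5) (nat_lit 12) (nat_lit 4) (nat_lit 282) (nat_lit 244) (nat_lit 194)) (XT.lf (nat_lit 0) (nat_lit 41503412164) (nat_lit 152) (nat_lit 1386799193) (nat_lit 0) (nat_lit 1953508612) (nat_lit 10) (nat_lit 5) (nat_lit 12) (nat_lit 4) (nat_lit 10) (nat_lit 4) (nat_lit 283) (nat_lit 244) (nat_lit 193))) (XT.nd (nat_lit 78) (nat_lit 0) (nat_lit 0) (XT.lf (nat_lit 0) (nat_lit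 3294772340) (nat_lit 152) (nat_lit 32854621295) (nat_lit 76) (nat_lit 11775422394) (nat_lit 8) (nat_lit 5) (nat_lit 10) (nat_lit 5) (nat_lit 9) (nat_lit 4) (nat_lit 284) (nat_lit 244) (nat_lit 192)) (XT.lf (nat_lit 0) (nat_lit 10342790300) (nat_lit 152) (nat_lit 18460815071) (nat_lit 76) (nat_lit 22446142356) (nat_lit 8) (nat_lit 5) (nat_lit 10) (nat_lit 5) (nat_lit 9) (nat_lit 4) (nat_lit 285) (nat_lit 244) (nat_lit 191)))) (XT.nd (nat_lit 156) (nat_lit 76) (nat_lit 0) (XT.nd (nat_lit 78) (nat_lit 76) (nat_lit 0) (XT.lf (nat_lit 0) (nat_lit 17929688403) (nat_lit 152) (nat_lit 2958257844) (nat_lit 76) (nat_lit 33954016415) (nat_lit 8) (nat_lit 5) (nat_lit 10) (nat_lit 5) (nat_lit 9) (nat_lit 4) (nat_lit 286) (nat_lit 244) (nat_lit 190)) (XT.lf (nat_lit 0) (nat_lit 14199386434) (nat_lit 76) (nat_lit 12122731827) (nat_lit 152) (nat_lit 32389545162) (nat_lit 7) (nat_lit 5) (nat_lit 8) (nat_lit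 5) (nat_lit 9) (nat_lit 4) (nat_lit 287) (nat_lit 244) (nat_lit 189))) (XT.nd (nat_lit 78) (nat_lit 76) (nat_lit 0) (XT.lf (nat_lit 0) (nat_lit 32797414503) (nat_lit 76) (nat_lit 2618067463) (nat_lit 152) (nat_lit 27474016143) (nat_lit 7) (nat_lit 5) (nat_lit 8) (nat_lit 5) (nat_lit 9) (nat_lit 4) (nat_lit 288) (nat_lit 244) (nat_lit 188)) (XT.nd (nat_lit 78) (nat_lit 76) (nat_lit 0) (XT.lf (nat_lit 0) (nat_lit 45335113428) (nat_lit 152) (nat_lit 14673547561) (nat_lit 0) (nat_lit 7387990907) (nat_lit 7) (nat_lit 5) (nat_lit 9) (nat_lit 4) (nat_lit 7) (nat_lit 4) (nat_lit 289) (nat_lit 244) (nat_lit 187)) (XT.lf (nat_lit 0) (nat_lit 1963960740) (nat_lit 76) (nat_lit 54140096353) (nat_lit 76) (nat_lit 16157563675) (nat_lit 6) (nat_lit 4) (nat_lit 7) (nat_lit 5) (nat_lit 7) (nat_lit 4) (nat_lit 290) (nat_lit 244) (nat_lit 186))))))) (XT.nd (nat_lit 702) (nat_lit 76) (nat_lit 0) (XT.nd (nat_lit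 312) (nat_lit 76) (nat_lit 0) (XT.nd (nat_lit 156) (nat_lit 76) (nat_lit 0) (XT.nd (nat_lit 78) (nat_lit 0) (nat_lit 0) (XT.lf (nat_lit 0) (nat_lit 20424677005) (nat_lit 76) (nat_lit 47547292500) (nat_lit 76) (nat_lit 9531972641) (nat_lit 6) (nat_lit 4) (nat_lit 7) (nat_lit 5) (nat_lit 7) (nat_lit 4) (nat_lit 291) (nat_lit 244) (nat_lit 185)) (XT.lf (nat_lit 0) (nat_lit 40332824319) (nat_lit 76) (nat_lit 40439684591) (nat_lit 76) (nat_lit 2394006230) (nat_lit 6) (nat_lit 4) (nat_lit 7) (nat_lit 5) (nat_lit 7) (nat_lit 4) (nat_lit 292) (nat_lit 244) (nat_lit 184))) (XT.nd (nat_lit 78) (nat_lit 0) (nat_lit 0) (XT.lf (nat_lit 0) (nat_lit 5129045218) (nat_lit 152) (nat_lit 27559245387) (nat_lit 76) (nat_lit 56590468808) (nat_lit 5) (nat_lit 5) (nat_lit 7) (nat_lit 5) (nat_lit 6) (nat_lit 4) (nat_lit 293) (nat_lit 244) (nat_lit 183)) (XT.lf (nat_lit 0) (nat_lit 13156521889) (nat_lit 152) (nat_lit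 11128945733) (nat_lit 76) (nat_lit 71593251443) (nat_lit 5) (nat_lit 5) (nat_lit 7) (nat_lit 5) (nat_lit 6) (nat_lit 4) (nat_lit 294) (nat_lit 244) (nat_lit 182)))) (XT.nd (nat_lit 156) (nat_lit 0) (nat_lit 0) (XT.nd (nat_lit 78) (nat_lit 0) (nat_lit 0) (XT.lf (nat_lit 0) (nat_lit 6809909663) (nat_lit 76) (nat_lit 15109029277) (nat_lit 152) (nat_lit 81083118799) (nat_lit 4) (nat_lit 5) (nat_lit 5) (nat_lit 5) (nat_lit 6) (nat_lit 4) (nat_lit 295) (nat_lit 244) (nat_lit 181)) (XT.lf (nat_lit 0) (nat_lit 26558492215) (nat_lit 76) (nat_lit 5004786704) (nat_lit 152) (nat_lit 79122956033) (nat_lit 4) (nat_lit 5) (nat_lit 5) (nat_lit 5) (nat_lit 6) (nat_lit 4) (nat_lit 296) (nat_lit 244) (nat_lit 180))) (XT.nd (nat_lit 78) (nat_lit 0) (nat_lit 0) (XT.lf (nat_lit 0) (nat_lit 42059289008) (nat_lit 152) (nat_lit 71211998834) (nat_lit 0) (nat_lit 5709868954) (nat_lit 4) (nat_lit 5) (nat_lit 6)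 (nat_lit 4) (nat_lit 4) (nat_lit 4) (nat_lit 297) (nat_lit 244) (nat_lit 179)) (XT.nd (nat_lit 78) (nat_lit 0) (nat_lit 0) (XT.lf (nat_lit 0) (nat_lit 53468152777) (nat_lit 152) (nat_lit 57367363618) (nat_lit 0) (nat_lit 17100512717) (nat_lit 4) (nat_lit 5) (nat_lit 6) (nat_lit 4) (nat_lit 4) (nat_lit 4) (nat_lit 298) (nat_lit 244) (nat_lit 178)) (XT.lf (nat_lit 0) (nat_lit 65779339562) (nat_lit 152) (nat_lit 42433656060) (nat_lit 0) (nat_lit 29394829127) (nat_lit 4) (nat_lit 5) (nat_lit 6) (nat_lit 4) (nat_lit 4) (nat_lit 4) (nat_lit 299) (nat_lit 244) (nat_lit 177)))))) (XT.nd (nat_lit 390) (nat_lit 0) (nat_lit 0) (XT.nd (nat_lit 156) (nat_lit 76) (nat_lit 0) (XT.nd (nat_lit 78) (nat_lit 0) (nat_lit 0) (XT.lf (nat_lit 0) (nat_lit 79065804544) (nat_lit 152) (nat_lit 26322380115) (nat_lit 0) (nat_lit 42665673390) (nat_lit 4) (nat_lit 5) (nat_lit 6) (nat_lit 4) (nat_lit 4) (nat_lit 4)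 (nat_lit 300) (nat_lit 244) (nat_lit 176)) (XT.lf (nat_lit 0) (nat_lit 93406282330) (nat_lit 152) (nat_lit 8938061556) (nat_lit 0) (nat_lit 56991687548) (nat_lit 4) (nat_lit 5) (nat_lit 6) (nat_lit 4) (nat_lit 4) (nat_lit 4) (nat_lit 301) (nat_lit 244) (nat_lit 175))) (XT.nd (nat_lit 78) (nat_lit 0) (nat_lit 0) (XT.lf (nat_lit 0) (nat_lit 10147087987) (nat_lit 76) (nat_lit 98897090022) (nat_lit 76) (nat_lit 62469102992) (nat_lit 3) (nat_lit 4) (nat_lit 4) (nat_lit 5) (nat_lit 4) (nat_lit 4) (nat_lit 302) (nat_lit 244) (nat_lit 174)) (XT.nd (nat_lit 78) (nat_lit 0) (nat_lit 0) (XT.lf (nat_lit 0) (nat_lit 31064178281) (nat_lit 76) (nat_lit 95016768939) (nat_lit 76) (nat_lit 58576381680) (nat_lit 3) (nat_lit 4) (nat_lit 4) (nat_lit 5) (nat_lit 4) (nat_lit 4) (nat_lit 303) (nat_lit 244) (nat_lit 173)) (XT.lf (nat_lit 0) (nat_lit 53641629774) (nat_lit 76) (nat_lit 90831756539) (nat_lit 76)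 (nat_lit 54379887586) (nat_lit 3) (nat_lit 4) (nat_lit 4) (nat_lit 5) (nat_lit 4) (nat_lit 4) (nat_lit 304) (nat_lit 244) (nat_lit 172))))) (XT.nd (nat_lit 156) (nat_lit 0) (nat_lit 0) (XT.nd (nat_lit 78) (nat_lit 0) (nat_lit 0) (XT.lf (nat_lit 0) (nat_lit 78013234770) (nat_lit 76) (nat_lit 86317252749) (nat_lit 76) (nat_lit 49854752597) (nat_lit 3) (nat_lit 4) (nat_lit 4) (nat_lit 5) (nat_lit 4) (nat_lit 4) (nat_lit 305) (nat_lit 244) (nat_lit 171)) (XT.lf (nat_lit 0) (nat_lit 104323417594) (nat_lit 76) (nat_lit 81446504953) (nat_lit 76) (nat_lit 44974161099) (nat_lit 3) (nat_lit 4) (nat_lit 4) (nat_lit 5) (nat_lit 4) (nat_lit 4) (nat_lit 306) (nat_lit 244) (nat_lit 170))) (XT.nd (nat_lit 78) (nat_lit 0) (nat_lit 0) (XT.lf (nat_lit 0) (nat_lit 132728090443) (nat_lit 76) (nat_lit 76190649461) (nat_lit 76) (nat_lit 39709191068) (nat_lit 3) (nat_lit 4) (nat_lit 4) (nat_lit 5) (nat_lit 4)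 (nat_lit 4) (nat_lit 307) (nat_lit 244) (nat_lit 169)) (XT.nd (nat_lit 78) (nat_lit 0) (nat_lit 0) (XT.lf (nat_lit 0) (nat_lit 163395577302) (nat_lit 76) (nat_lit 70518540462) (nat_lit 76) (nat_lit 34028642682) (nat_lit 3) (nat_lit 4) (nat_lit 4) (nat_lit 5) (nat_lit 4) (nat_lit 4) (nat_lit 308) (nat_lit 244) (nat_lit 168)) (XT.lf (nat_lit 0) (nat_lit 196507611427) (nat_lit 76) (nat_lit 64396565459) (nat_lit 76) (nat_lit 27898853431) (nat_lit 3) (nat_lit 4) (nat_lit 4) (nat_lit 5) (nat_lit 4) (nat_lit 4) (nat_lit 309) (nat_lit 244) (nat_lit 167))))))))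
noncomputable def xc59 : XT := (XT.nd (nat_lit 32838) (nat_lit 0) (nat_lit 1824) (XT.nd (nat_lit 702) (nat_lit 0) (nat_lit 0) (XT.nd (nat_lit 312) (nat_lit 76) (nat_lit 0) (XT.nd (nat_lit 156) (nat_lit 76) (nat_lit 0) (XT.nd (nat_lit 78) (nat_lit 0) (nat_lit 0) (XT.lf (nat_lit 0) (nat_lit 232260412280) (nat_lit 76) (nat_lit 57788446082) (nat_lit 76) (nat_lit 21283498638) (nat_lit 3) (nat_lit 4) (nat_lit 4) (nat_lit 5) (nat_lit 4) (nat_lit 4) (nat_lit 310) (nat_lit 244) (nat_lit 166)) (XT.lf (nat_lit 0) (nat_lit 270865848311) (nat_lit 76) (nat_lit 50655023104) (nat_lit 76) (nat_lit 14143376202) (nat_lit 3) (nat_lit 4) (nat_lit 4) (nat_lit 5) (nat_lit 4) (nat_lit 4) (nat_lit 311) (nat_lit 244) (nat_lit 165))) (XT.nd (nat_lit 78) (nat_lit 76) (nat_lit 0) (XT.lf (nat_lit 0) (nat_lit 312552692473) (nat_lit 76) (nat_lit 42954024389) (nat_lit 76) (nat_lit 6436174285) (nat_lit 3) (nat_lit 4)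 (nat_lit 4) (nat_lit 5) (nat_lit 4) (nat_lit 4) (nat_lit 312) (nat_lit 244) (nat_lit 164)) (XT.lf (nat_lit 0) (nat_lit 1823486714) (nat_lit 152) (nat_lit 32785446045) (nat_lit 76) (nat_lit 355713609573) (nat_lit 2) (nat_lit 5) (nat_lit 4) (nat_lit 5) (nat_lit 3) (nat_lit 4) (nat_lit 313) (nat_lit 244) (nat_lit 163)))) (XT.nd (nat_lit 156) (nat_lit 0) (nat_lit 0) (XT.nd (nat_lit 78) (nat_lit 76) (nat_lit 0) (XT.lf (nat_lit 0) (nat_lit 10518015257) (nat_lit 152) (nat_lit 14966980776) (nat_lit 76) (nat_lit 395482318955) (nat_lit 2) (nat_lit 5) (nat_lit 4) (nat_lit 5) (nat_lit 3) (nat_lit 4) (nat_lit 314) (nat_lit 244) (nat_lit 162)) (XT.lf (nat_lit 0) (nat_lit 4412502387) (nat_lit 76) (nat_lit 15561321390) (nat_lit 152) (nat_lit 434086563753) (nat_lit 1) (nat_lit 5) (nat_lit 2) (nat_lit 5) (nat_lit 3) (nat_lit 4) (nat_lit 315) (nat_lit 244) (nat_lit 161))) (XT.nd (nat_lit 78) (nat_lit 0)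 (nat_lit 0) (XT.lf (nat_lit 0) (nat_lit 25871370450) (nat_lit 76) (nat_lit 4572418011) (nat_lit 152) (nat_lit 459344236502) (nat_lit 1) (nat_lit 5) (nat_lit 2) (nat_lit 5) (nat_lit 3) (nat_lit 4) (nat_lit 316) (nat_lit 244) (nat_lit 160)) (XT.nd (nat_lit 78) (nat_lit 0) (nat_lit 0) (XT.lf (nat_lit 0) (nat_lit 41862420424) (nat_lit 152) (nat_lit 479445975467) (nat_lit 0) (nat_lit 7059927385) (nat_lit 1) (nat_lit 5) (nat_lit 3) (nat_lit 4) (nat_lit 1) (nat_lit 4) (nat_lit 317) (nat_lit 244) (nat_lit 159)) (XT.lf (nat_lit 0) (nat_lit 54269017616) (nat_lit 152) (nat_lit 496299505592) (nat_lit 0) (nat_lit 19462801654) (nat_lit 1) (nat_lit 5) (nat_lit 3) (nat_lit 4) (nat_lit 1) (nat_lit 4) (nat_lit 318) (nat_lit 244) (nat_lit 158)))))) (XT.nd (nat_lit 31746) (nat_lit 0) (nat_lit 6384) (XT.nd (nat_lit 156) (nat_lit 0) (nat_lit 0) (XT.nd (nat_lit 78) (nat_lit 0) (nat_lit 0) (XT.lf (nat_lit 0)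 (nat_lit 67665712354) (nat_lit 152) (nat_lit 514505729400) (nat_lit 0) (nat_lit 32856049240) (nat_lit 1) (nat_lit 5) (nat_lit 3) (nat_lit 4) (nat_lit 1) (nat_lit 4) (nat_lit 319) (nat_lit 244) (nat_lit 157)) (XT.lf (nat_lit 0) (nat_lit 82131892457) (nat_lit 152) (nat_lit 534172535625) (nat_lit 0) (nat_lit 47319037536) (nat_lit 1) (nat_lit 5) (nat_lit 3) (nat_lit 4) (nat_lit 1) (nat_lit 4) (nat_lit 320) (nat_lit 244) (nat_lit 156))) (XT.nd (nat_lit 78) (nat_lit 0) (nat_lit 0) (XT.lf (nat_lit 0) (nat_lit 97753283438) (nat_lit 152) (nat_lit 555416468304) (nat_lit 0) (nat_lit 62937473141) (nat_lit 1) (nat_lit 5) (nat_lit 3) (nat_lit 4) (nat_lit 1) (nat_lit 4) (nat_lit 321) (nat_lit 244) (nat_lit 155)) (XT.nd (nat_lit 78) (nat_lit 0) (nat_lit 0) (XT.lf (nat_lit 0) (nat_lit 114622456503) (nat_lit 152) (nat_lit 578363417408) (nat_lit 0) (nat_lit 79803909745) (nat_lit 1) (nat_lit 5) (nat_lit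 3) (nat_lit 4) (nat_lit 1) (nat_lit 4) (nat_lit 322) (nat_lit 244) (nat_lit 154)) (XT.lf (nat_lit 0) (nat_lit 132839377121) (nat_lit 152) (nat_lit 603149364858) (nat_lit 0) (nat_lit 98018296604) (nat_lit 1) (nat_lit 5) (nat_lit 3) (nat_lit 4) (nat_lit 1) (nat_lit 4) (nat_lit 323) (nat_lit 244) (nat_lit 153))))) (XT.nd (nat_lit 156) (nat_lit 380) (nat_lit 0) (XT.nd (nat_lit 78) (nat_lit 0) (nat_lit 0) (XT.lf (nat_lit 0) (nat_lit 12377510) (nat_lit 532) (nat_lit 1791864238) (nat_lit 532) (nat_lit 1791864238) (nat_lit 90) (nat_lit 3) (nat_lit 97) (nat_lit 3) (nat_lit 97) (nat_lit 5) (nat_lit 245) (nat_lit 245) (nat_lit 230)) (XT.lf (nat_lit 76) (nat_lit 1340473129) (nat_lit 0) (nat_lit 1018781361) (nat_lit 532) (nat_lit 4992234861) (nat_lit 91) (nat_lit 5) (nat_lit 90) (nat_lit 3) (nat_lit 97) (nat_lit 5) (nat_lit 246) (nat_lit 245) (nat_lit 229))) (XT.nd (nat_lit 78) (nat_lit 456) (nat_lit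 0) (XT.lf (nat_lit 0) (nat_lit 4740061076) (nat_lit 456) (nat_lit 903194525) (nat_lit 532) (nat_lit 1888450088) (nat_lit 91) (nat_lit 5) (nat_lit 97) (nat_lit 5) (nat_lit 98) (nat_lit 5) (nat_lit 247) (nat_lit 245) (nat_lit 228)) (XT.nd (nat_lit 78) (nat_lit 456) (nat_lit 0) (XT.lf (nat_lit 76) (nat_lit 4613544868) (nat_lit 0) (nat_lit 2572492924) (nat_lit 532) (nat_lit 547653418) (nat_lit 92) (nat_lit 5) (nat_lit 91) (nat_lit 5) (nat_lit 98) (nat_lit 5) (nat_lit 248) (nat_lit 245) (nat_lit 227)) (XT.lf (nat_lit 0) (nat_lit 1681314461) (nat_lit 532) (nat_lit 5399529593) (nat_lit 608) (nat_lit 877211013) (nat_lit 85) (nat_lit 5) (nat_lit 92) (nat_lit 5) (nat_lit 93) (nat_lit 5) (nat_lit 249) (nat_lit 245) (nat_lit 226))))))) (XT.nd (nat_lit 702) (nat_lit 1748) (nat_lit 0) (XT.nd (nat_lit 312) (nat_lit 1672) (nat_lit 0) (XT.nd (nat_lit 156) (nat_lit 1140) (nat_lit 0) (XT.nd (nat_lit 78)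 (nat_lit 0) (nat_lit 76) (XT.lf (nat_lit 76) (nat_lit 427436119) (nat_lit 0) (nat_lit 3556917813) (nat_lit 608) (nat_lit 4220705819) (nat_lit 86) (nat_lit 5) (nat_lit 85) (nat_lit 5) (nat_lit 93) (nat_lit 5) (nat_lit 250) (nat_lit 245) (nat_lit 225)) (XT.lf (nat_lit 0) (nat_lit 6393298397) (nat_lit 532) (nat_lit 1701656525) (nat_lit 76) (nat_lit 381608720) (nat_lit 86) (nat_lit 5) (nat_lit 93) (nat_lit 5) (nat_lit 87) (nat_lit 5) (nat_lit 251) (nat_lit 245) (nat_lit 224))) (XT.nd (nat_lit 78) (nat_lit 608) (nat_lit 0) (XT.lf (nat_lit 0) (nat_lit 187369011) (nat_lit 608) (nat_lit 3952193426) (nat_lit 76) (nat_lit 4632304163) (nat_lit 78) (nat_lit 5) (nat_lit 86) (nat_lit 5) (nat_lit 79) (nat_lit 5) (nat_lit 252) (nat_lit 245) (nat_lit 223)) (XT.lf (nat_lit 0) (nat_lit 2487378231) (nat_lit 684) (nat_lit 6343533974) (nat_lit 76) (nat_lit 262809524) (nat_lit 70) (nat_lit 5) (nat_lit 79) (nat_lit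 5) (nat_lit 71) (nat_lit 5) (nat_lit 253) (nat_lit 245) (nat_lit 222)))) (XT.nd (nat_lit 156) (nat_lit 988) (nat_lit 0) (XT.nd (nat_lit 78) (nat_lit 0) (nat_lit 0) (XT.lf (nat_lit 0) (nat_lit 502468880) (nat_lit 684) (nat_lit 4468941468) (nat_lit 760) (nat_lit 4470535210) (nat_lit 61) (nat_lit 5) (nat_lit 70) (nat_lit 5) (nat_lit 71) (nat_lit 5) (nat_lit 254) (nat_lit 245) (nat_lit 221)) (XT.lf (nat_lit 0) (nat_lit 7631733377) (nat_lit 760) (nat_lit 1831915514) (nat_lit 76) (nat_lit 356075354) (nat_lit 61) (nat_lit 5) (nat_lit 71) (nat_lit 5) (nat_lit 62) (nat_lit 5) (nat_lit 255) (nat_lit 245) (nat_lit 220))) (XT.nd (nat_lit 78) (nat_lit 608) (nat_lit 0) (XT.lf (nat_lit 0) (nat_lit 306497217) (nat_lit 380) (nat_lit 4402223601) (nat_lit 76) (nat_lit 5517384884) (nat_lit 56) (nat_lit 5) (nat_lit 61) (nat_lit 5) (nat_lit 57) (nat_lit 5) (nat_lit 256) (nat_lit 245) (nat_lit 219)) (XT.nd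 (nat_lit 78) (nat_lit 304) (nat_lit 0) (XT.lf (nat_lit 0) (nat_lit 2896615874) (nat_lit 380) (nat_lit 7232658569) (nat_lit 76) (nat_lit 535763189) (nat_lit 52) (nat_lit 5) (nat_lit 57) (nat_lit 5) (nat_lit 53) (nat_lit 5) (nat_lit 257) (nat_lit 245) (nat_lit 218)) (XT.lf (nat_lit 0) (nat_lit 732337219) (nat_lit 304) (nat_lit 5014457496) (nat_lit 380) (nat_lit 5390081866) (nat_lit 48) (nat_lit 5) (nat_lit 52) (nat_lit 5) (nat_lit 53) (nat_lit 5) (nat_lit 258) (nat_lit 245) (nat_lit 217)))))) (XT.nd (nat_lit 390) (nat_lit 912) (nat_lit 0) (XT.nd (nat_lit 156) (nat_lit 456) (nat_lit 0) (XT.nd (nat_lit 78) (nat_lit 380) (nat_lit 0) (XT.lf (nat_lit 0) (nat_lit 8851599238) (nat_lit 380) (nat_lit 2183727545) (nat_lit 76) (nat_lit 610208069) (nat_lit 48) (nat_lit 5) (nat_lit 53) (nat_lit 5) (nat_lit 49) (nat_lit 5) (nat_lit 259) (nat_lit 245) (nat_lit 216)) (XT.lf (nat_lit 0) (nat_lit 98654679)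 (nat_lit 380) (nat_lit 5484552268) (nat_lit 76) (nat_lit 6607572823) (nat_lit 43) (nat_lit 5) (nat_lit 48) (nat_lit 5) (nat_lit 44) (nat_lit 5) (nat_lit 260) (nat_lit 245) (nat_lit 215))) (XT.nd (nat_lit 78) (nat_lit 228) (nat_lit 0) (XT.lf (nat_lit 0) (nat_lit 3129653042) (nat_lit 304) (nat_lit 9226265713) (nat_lit 76) (nat_lit 421519950) (nat_lit 40) (nat_lit 5) (nat_lit 44) (nat_lit 5) (nat_lit 41) (nat_lit 5) (nat_lit 261) (nat_lit 245) (nat_lit 214)) (XT.nd (nat_lit 78) (nat_lit 228) (nat_lit 0) (XT.lf (nat_lit 0) (nat_lit 6502143949) (nat_lit 304) (nat_lit 111409105) (nat_lit 76) (nat_lit 6792831177) (nat_lit 40) (nat_lit 5) (nat_lit 44) (nat_lit 5) (nat_lit 41) (nat_lit 5) (nat_lit 262) (nat_lit 245) (nat_lit 213)) (XT.lf (nat_lit 0) (nat_lit 9944386818) (nat_lit 228) (nat_lit 269905260) (nat_lit 304) (nat_lit 3868142379) (nat_lit 37) (nat_lit 5) (nat_lit 40) (nat_lit 5) (nat_lit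 41) (nat_lit 5) (nat_lit 263) (nat_lit 245) (nat_lit 212))))) (XT.nd (nat_lit 156) (nat_lit 380) (nat_lit 0) (XT.nd (nat_lit 78) (nat_lit 304) (nat_lit 0) (XT.lf (nat_lit 0) (nat_lit 5978866037) (nat_lit 228) (nat_lit 8361618621) (nat_lit 304) (nat_lit 466491481) (nat_lit 34) (nat_lit 5) (nat_lit 37) (nat_lit 5) (nat_lit 38) (nat_lit 5) (nat_lit 264) (nat_lit 245) (nat_lit 211)) (XT.lf (nat_lit 0) (nat_lit 1350360920) (nat_lit 228) (nat_lit 1775106226) (nat_lit 304) (nat_lit 12460699037) (nat_lit 30) (nat_lit 5) (nat_lit 33) (nat_lit 5) (nat_lit 34) (nat_lit 5) (nat_lit 265) (nat_lit 245) (nat_lit 210))) (XT.nd (nat_lit 78) (nat_lit 380) (nat_lit 0) (XT.lf (nat_lit 0) (nat_lit 7154062928) (nat_lit 304) (nat_lit 3958433299) (nat_lit 76) (nat_lit 5306744797) (nat_lit 30) (nat_lit 5) (nat_lit 34) (nat_lit 5) (nat_lit 31) (nat_lit 5) (nat_lit 266) (nat_lit 245) (nat_lit 209)) (XT.nd (nat_lit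 78) (nat_lit 228) (nat_lit 0) (XT.lf (nat_lit 0) (nat_lit 7247747550) (nat_lit 152) (nat_lit 4331545732) (nat_lit 228) (nat_lit 5736148601) (nat_lit 28) (nat_lit 5) (nat_lit 30) (nat_lit 5) (nat_lit 31) (nat_lit 5) (nat_lit 267) (nat_lit 245) (nat_lit 208)) (XT.lf (nat_lit 0) (nat_lit 1105111504) (nat_lit 228) (nat_lit 15321995447) (nat_lit 304) (nat_lit 1852986369) (nat_lit 25) (nat_lit 5) (nat_lit 28) (nat_lit 5) (nat_lit 29) (nat_lit 5) (nat_lit 268) (nat_lit 245) (nat_lit 207))))))))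
noncomputable def xc60 : XT := (XT.nd (nat_lit 1404) (nat_lit 380) (nat_lit 0) (XT.nd (nat_lit 702) (nat_lit 456) (nat_lit 0) (XT.nd (nat_lit 312) (nat_lit 456) (nat_lit 0) (XT.nd (nat_lit 156) (nat_lit 152) (nat_lit 0) (XT.nd (nat_lit 78) (nat_lit 152) (nat_lit 0) (XT.lf (nat_lit 0) (nat_lit 2453970254) (nat_lit 304) (nat_lit 5986808285) (nat_lit 76) (nat_lit 10870069022) (nat_lit 24) (nat_lit 5) (nat_lit 28) (nat_lit 5) (nat_lit 25) (nat_lit 5) (nat_lit 269) (nat_lit 245) (nat_lit 206)) (XT.lf (nat_lit 0) (nat_lit 6177278150) (nat_lit 152) (nat_lit 902058434) (nat_lit 228) (nat_lit 13341417298) (nat_lit 22) (nat_lit 5) (nat_lit 24) (nat_lit 5) (nat_lit 25) (nat_lit 5) (nat_lit 270) (nat_lit 245) (nat_lit 205))) (XT.nd (nat_lit 78) (nat_lit 152) (nat_lit 0) (XT.lf (nat_lit 0) (nat_lit 12237866887) (nat_lit 228) (nat_lit 2285089761) (nat_lit 76) (nat_lit 7088477496) (nat_lit 22) (nat_lit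 5) (nat_lit 25) (nat_lit 5) (nat_lit 23) (nat_lit 5) (nat_lit 271) (nat_lit 245) (nat_lit 204)) (XT.lf (nat_lit 0) (nat_lit 10885008580) (nat_lit 152) (nat_lit 7057472971) (nat_lit 228) (nat_lit 4948345113) (nat_lit 20) (nat_lit 5) (nat_lit 22) (nat_lit 5) (nat_lit 23) (nat_lit 5) (nat_lit 272) (nat_lit 245) (nat_lit 203)))) (XT.nd (nat_lit 156) (nat_lit 228) (nat_lit 0) (XT.nd (nat_lit 78) (nat_lit 76) (nat_lit 0) (XT.lf (nat_lit 0) (nat_lit 853800937) (nat_lit 152) (nat_lit 23269659050) (nat_lit 228) (nat_lit 148229327) (nat_lit 18) (nat_lit 5) (nat_lit 20) (nat_lit 5) (nat_lit 21) (nat_lit 4) (nat_lit 273) (nat_lit 245) (nat_lit 202)) (XT.lf (nat_lit 0) (nat_lit 5158432738) (nat_lit 228) (nat_lit 10857962607) (nat_lit 76) (nat_lit 9728613011) (nat_lit 17) (nat_lit 5) (nat_lit 20) (nat_lit 5) (nat_lit 18) (nat_lit 5) (nat_lit 274) (nat_lit 245) (nat_lit 201))) (XT.nd (nat_lit 78) (nat_lit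 76) (nat_lit 0) (XT.lf (nat_lit 0) (nat_lit 2721686423) (nat_lit 152) (nat_lit 8161008116) (nat_lit 228) (nat_lit 16453560604) (nat_lit 15) (nat_lit 5) (nat_lit 17) (nat_lit 5) (nat_lit 18) (nat_lit 5) (nat_lit 275) (nat_lit 245) (nat_lit 200)) (XT.nd (nat_lit 78) (nat_lit 76) (nat_lit 0) (XT.lf (nat_lit 0) (nat_lit 17219731077) (nat_lit 228) (nat_lit 11346506339) (nat_lit 76) (nat_lit 480912127) (nat_lit 15) (nat_lit 5) (nat_lit 18) (nat_lit 5) (nat_lit 16) (nat_lit 4) (nat_lit 276) (nat_lit 245) (nat_lit 199)) (XT.lf (nat_lit 0) (nat_lit 2873985615) (nat_lit 76) (nat_lit 21332923991) (nat_lit 152) (nat_lit 6680929858) (nat_lit 14) (nat_lit 5) (nat_lit 15) (nat_lit 5) (nat_lit 16) (nat_lit 4) (nat_lit 277) (nat_lit 245) (nat_lit 198)))))) (XT.nd (nat_lit 312) (nat_lit 228) (nat_lit 0) (XT.nd (nat_lit 156) (nat_lit 0) (nat_lit 0) (XT.nd (nat_lit 78) (nat_lit 228) (nat_lit 0) (XT.lf (nat_lit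 0) (nat_lit 18576660518) (nat_lit 76) (nat_lit 13336713824) (nat_lit 152) (nat_lit 954471421) (nat_lit 14) (nat_lit 5) (nat_lit 15) (nat_lit 5) (nat_lit 16) (nat_lit 4) (nat_lit 278) (nat_lit 245) (nat_lit 197)) (XT.lf (nat_lit 0) (nat_lit 403167448) (nat_lit 152) (nat_lit 4630628077) (nat_lit 228) (nat_lit 29969887530) (nat_lit 11) (nat_lit 5) (nat_lit 13) (nat_lit 5) (nat_lit 14) (nat_lit 5) (nat_lit 279) (nat_lit 245) (nat_lit 196))) (XT.nd (nat_lit 78) (nat_lit 0) (nat_lit 0) (XT.lf (nat_lit 0) (nat_lit 11761868275) (nat_lit 228) (nat_lit 20665500907) (nat_lit 76) (nat_lit 4867589263) (nat_lit 11) (nat_lit 5) (nat_lit 14) (nat_lit 5) (nat_lit 12) (nat_lit 4) (nat_lit 280) (nat_lit 245) (nat_lit 195)) (XT.lf (nat_lit 0) (nat_lit 19074980403) (nat_lit 228) (nat_lit 5745880800) (nat_lit 76) (nat_lit 14946393034) (nat_lit 11) (nat_lit 5) (nat_lit 14) (nat_lit 5) (nat_lit 12) (nat_lit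 4) (nat_lit 281) (nat_lit 245) (nat_lit 194)))) (XT.nd (nat_lit 156) (nat_lit 152) (nat_lit 0) (XT.nd (nat_lit 78) (nat_lit 0) (nat_lit 0) (XT.lf (nat_lit 0) (nat_lit 10660248897) (nat_lit 76) (nat_lit 16450359252) (nat_lit 152) (nat_lit 15319905961) (nat_lit 10) (nat_lit 5) (nat_lit 11) (nat_lit 5) (nat_lit 12) (nat_lit 4) (nat_lit 282) (nat_lit 245) (nat_lit 193)) (XT.lf (nat_lit 0) (nat_lit 28537895049) (nat_lit 76) (nat_lit 7323736147) (nat_lit 152) (nat_lit 9441626090) (nat_lit 10) (nat_lit 5) (nat_lit 11) (nat_lit 5) (nat_lit 12) (nat_lit 4) (nat_lit 283) (nat_lit 245) (nat_lit 192))) (XT.nd (nat_lit 78) (nat_lit 152) (nat_lit 0) (XT.lf (nat_lit 0) (nat_lit 45326510377) (nat_lit 152) (nat_lit 643405127) (nat_lit 0) (nat_lit 2435261779) (nat_lit 10) (nat_lit 5) (nat_lit 12) (nat_lit 4) (nat_lit 10) (nat_lit 4) (nat_lit 284) (nat_lit 245) (nat_lit 191)) (XT.nd (nat_lit 78) (nat_lit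 0) (nat_lit 0) (XT.lf (nat_lit 0) (nat_lit 4045339374) (nat_lit 152) (nat_lit 34648886764) (nat_lit 76) (nat_lit 13039433122) (nat_lit 8) (nat_lit 5) (nat_lit 10) (nat_lit 5) (nat_lit 9) (nat_lit 4) (nat_lit 285) (nat_lit 245) (nat_lit 190)) (XT.lf (nat_lit 0) (nat_lit 11621125789) (nat_lit 152) (nat_lit 19165361541) (nat_lit 76) (nat_lit 24539960538) (nat_lit 8) (nat_lit 5) (nat_lit 10) (nat_lit 5) (nat_lit 9) (nat_lit 4) (nat_lit 286) (nat_lit 245) (nat_lit 189))))))) (XT.nd (nat_lit 702) (nat_lit 152) (nat_lit 0) (XT.nd (nat_lit 312) (nat_lit 152) (nat_lit 0) (XT.nd (nat_lit 156) (nat_lit 0) (nat_lit 0) (XT.nd (nat_lit 78) (nat_lit 76) (nat_lit 0) (XT.lf (nat_lit 0) (nat_lit 19781574832) (nat_lit 152) (nat_lit 2479808531) (nat_lit 76) (nat_lit 36946381055) (nat_lit 8) (nat_lit 5) (nat_lit 10) (nat_lit 5) (nat_lit 9) (nat_lit 4) (nat_lit 287) (nat_lit 245) (nat_lit 188)) (XT.lf (nat_lit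 0) (nat_lit 16019369482) (nat_lit 76) (nat_lit 12805782487) (nat_lit 152) (nat_lit 34562951973) (nat_lit 7) (nat_lit 5) (nat_lit 8) (nat_lit 5) (nat_lit 9) (nat_lit 4) (nat_lit 288) (nat_lit 245) (nat_lit 187))) (XT.nd (nat_lit 78) (nat_lit 0) (nat_lit 0) (XT.lf (nat_lit 0) (nat_lit 36054570750) (nat_lit 76) (nat_lit 2561987040) (nat_lit 152) (nat_lit 29285125580) (nat_lit 7) (nat_lit 5) (nat_lit 8) (nat_lit 5) (nat_lit 9) (nat_lit 4) (nat_lit 289) (nat_lit 245) (nat_lit 186)) (XT.lf (nat_lit 0) (nat_lit 49306351084) (nat_lit 152) (nat_lit 15247253521) (nat_lit 0) (nat_lit 8217018454) (nat_lit 7) (nat_lit 5) (nat_lit 9) (nat_lit 4) (nat_lit 7) (nat_lit 4) (nat_lit 290) (nat_lit 245) (nat_lit 185)))) (XT.nd (nat_lit 156) (nat_lit 76) (nat_lit 0) (XT.nd (nat_lit 78) (nat_lit 0) (nat_lit 0) (XT.lf (nat_lit 0) (nat_lit 2695172446) (nat_lit 76) (nat_lit 58225087798) (nat_lit 76) (nat_lit 17105396665)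 (nat_lit 6) (nat_lit 4) (nat_lit 7) (nat_lit 5) (nat_lit 7) (nat_lit 4) (nat_lit 291) (nat_lit 245) (nat_lit 184)) (XT.lf (nat_lit 0) (nat_lit 22590220468) (nat_lit 76) (nat_lit 51123097878) (nat_lit 76) (nat_lit 9975297022) (nat_lit 6) (nat_lit 4) (nat_lit 7) (nat_lit 5) (nat_lit 7) (nat_lit 4) (nat_lit 292) (nat_lit 245) (nat_lit 183))) (XT.nd (nat_lit 78) (nat_lit 76) (nat_lit 0) (XT.lf (nat_lit 0) (nat_lit 44051644063) (nat_lit 76) (nat_lit 43463768598) (nat_lit 76) (nat_lit 2289940219) (nat_lit 6) (nat_lit 4) (nat_lit 7) (nat_lit 5) (nat_lit 7) (nat_lit 4) (nat_lit 293) (nat_lit 245) (nat_lit 182)) (XT.nd (nat_lit 78) (nat_lit 0) (nat_lit 0) (XT.lf (nat_lit 0) (nat_lit 5804300220) (nat_lit 152) (nat_lit 29299112484) (nat_lit 76) (nat_lit 61304023186) (nat_lit 5) (nat_lit 5) (nat_lit 7) (nat_lit 5) (nat_lit 6) (nat_lit 4) (nat_lit 294) (nat_lit 245) (nat_lit 181)) (XT.lf (nat_lit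 0) (nat_lit 14454350478) (nat_lit 152) (nat_lit 11588823861) (nat_lit 76) (nat_lit 77493227182) (nat_lit 5) (nat_lit 5) (nat_lit 7) (nat_lit 5) (nat_lit 6) (nat_lit 4) (nat_lit 295) (nat_lit 245) (nat_lit 180)))))) (XT.nd (nat_lit 390) (nat_lit 76) (nat_lit 0) (XT.nd (nat_lit 156) (nat_lit 0) (nat_lit 0) (XT.nd (nat_lit 78) (nat_lit 0) (nat_lit 0) (XT.lf (nat_lit 0) (nat_lit 7766433676) (nat_lit 76) (nat_lit 16139584618) (nat_lit 152) (nat_lit 87324202029) (nat_lit 4) (nat_lit 5) (nat_lit 5) (nat_lit 5) (nat_lit 6) (nat_lit 4) (nat_lit 296) (nat_lit 245) (nat_lit 179)) (XT.lf (nat_lit 0) (nat_lit 29064404223) (nat_lit 76) (nat_lit 5240200194) (nat_lit 152) (nat_lit 85225416337) (nat_lit 4) (nat_lit 5) (nat_lit 5) (nat_lit 5) (nat_lit 6) (nat_lit 4) (nat_lit 297) (nat_lit 245) (nat_lit 178))) (XT.nd (nat_lit 78) (nat_lit 0) (nat_lit 0) (XT.lf (nat_lit 0) (nat_lit 45626660666) (nat_lit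 152) (nat_lit 76548060603) (nat_lit 0) (nat_lit 6314519020) (nat_lit 4) (nat_lit 5) (nat_lit 6) (nat_lit 4) (nat_lit 4) (nat_lit 4) (nat_lit 298) (nat_lit 245) (nat_lit 177)) (XT.nd (nat_lit 78) (nat_lit 0) (nat_lit 0) (XT.lf (nat_lit 0) (nat_lit 57933224015) (nat_lit 152) (nat_lit 61622587764) (nat_lit 0) (nat_lit 18605461651) (nat_lit 4) (nat_lit 5) (nat_lit 6) (nat_lit 4) (nat_lit 4) (nat_lit 4) (nat_lit 299) (nat_lit 245) (nat_lit 176)) (XT.lf (nat_lit 0) (nat_lit 71215408038) (nat_lit 152) (nat_lit 45518936560) (nat_lit 0) (nat_lit 31873182046) (nat_lit 4) (nat_lit 5) (nat_lit 6) (nat_lit 4) (nat_lit 4) (nat_lit 4) (nat_lit 300) (nat_lit 245) (nat_lit 175))))) (XT.nd (nat_lit 156) (nat_lit 76) (nat_lit 0) (XT.nd (nat_lit 78) (nat_lit 0) (nat_lit 0) (XT.lf (nat_lit 0) (nat_lit 85551921973) (nat_lit 152) (nat_lit 28141677946) (nat_lit 0) (nat_lit 46196303733) (nat_lit 4) (nat_lit 5)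 (nat_lit 6) (nat_lit 4) (nat_lit 4) (nat_lit 4) (nat_lit 301) (nat_lit 245) (nat_lit 174)) (XT.lf (nat_lit 0) (nat_lit 101027722940) (nat_lit 152) (nat_lit 9387835574) (nat_lit 0) (nat_lit 61659704470) (nat_lit 4) (nat_lit 5) (nat_lit 6) (nat_lit 4) (nat_lit 4) (nat_lit 4) (nat_lit 302) (nat_lit 245) (nat_lit 173))) (XT.nd (nat_lit 78) (nat_lit 0) (nat_lit 0) (XT.lf (nat_lit 0) (nat_lit 11212597581) (nat_lit 76) (nat_lit 106696981878) (nat_lit 76) (nat_lit 67317481714) (nat_lit 3) (nat_lit 4) (nat_lit 4) (nat_lit 5) (nat_lit 4) (nat_lit 4) (nat_lit 303) (nat_lit 245) (nat_lit 172)) (XT.nd (nat_lit 78) (nat_lit 0) (nat_lit 0) (XT.lf (nat_lit 0) (nat_lit 33784259355) (nat_lit 76) (nat_lit 102514522171) (nat_lit 76) (nat_lit 63124390809) (nat_lit 3) (nat_lit 4) (nat_lit 4) (nat_lit 5) (nat_lit 4) (nat_lit 4) (nat_lit 304) (nat_lit 245) (nat_lit 171)) (XT.lf (nat_lit 0) (nat_lit 58150503499)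 (nat_lit 76) (nat_lit 98002381985) (nat_lit 76) (nat_lit 58602406921) (nat_lit 3) (nat_lit 4) (nat_lit 4) (nat_lit 5) (nat_lit 4) (nat_lit 4) (nat_lit 305) (nat_lit 245) (nat_lit 170))))))))
noncomputable def xc61 : XT := (XT.nd (nat_lit 32838) (nat_lit 0) (nat_lit 2736) (XT.nd (nat_lit 702) (nat_lit 76) (nat_lit 0) (XT.nd (nat_lit 312) (nat_lit 76) (nat_lit 0) (XT.nd (nat_lit 156) (nat_lit 0) (nat_lit 0) (XT.nd (nat_lit 78) (nat_lit 0) (nat_lit 0) (XT.lf (nat_lit 0) (nat_lit 84455722573) (nat_lit 76) (nat_lit 93133822712) (nat_lit 76) (nat_lit 53724733109) (nat_lit 3) (nat_lit 4) (nat_lit 4) (nat_lit 5) (nat_lit 4) (nat_lit 4) (nat_lit 306) (nat_lit 245) (nat_lit 169)) (XT.lf (nat_lit 0) (nat_lit 112855799355) (nat_lit 76) (nat_lit 87879993630) (nat_lit 76) (nat_lit 48462464639) (nat_lit 3) (nat_lit 4) (nat_lit 4) (nat_lit 5) (nat_lit 4) (nat_lit 4) (nat_lit 307) (nat_lit 245) (nat_lit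 168))) (XT.nd (nat_lit 78) (nat_lit 0) (nat_lit 0) (XT.lf (nat_lit 0) (nat_lit 143519030598) (nat_lit 76) (nat_lit 82209760937) (nat_lit 76) (nat_lit 42784417698) (nat_lit 3) (nat_lit 4) (nat_lit 4) (nat_lit 5) (nat_lit 4) (nat_lit 4) (nat_lit 308) (nat_lit 245) (nat_lit 167)) (XT.lf (nat_lit 0) (nat_lit 176627124337) (nat_lit 76) (nat_lit 76089523254) (nat_lit 76) (nat_lit 36656944600) (nat_lit 3) (nat_lit 4) (nat_lit 4) (nat_lit 5) (nat_lit 4) (nat_lit 4) (nat_lit 309) (nat_lit 245) (nat_lit 166)))) (XT.nd (nat_lit 156) (nat_lit 76) (nat_lit 0) (XT.nd (nat_lit 78) (nat_lit 0) (nat_lit 0) (XT.lf (nat_lit 0) (nat_lit 212376276685) (nat_lit 76) (nat_lit 69483012506) (nat_lit 76) (nat_lit 30043734394) (nat_lit 3) (nat_lit 4) (nat_lit 4) (nat_lit 5) (nat_lit 4) (nat_lit 4) (nat_lit 310) (nat_lit 245) (nat_lit 165)) (XT.lf (nat_lit 0) (nat_lit 250978334470) (nat_lit 76) (nat_lit 62351079000)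 (nat_lit 76) (nat_lit 22905597686) (nat_lit 3) (nat_lit 4) (nat_lit 4) (nat_lit 5) (nat_lit 4) (nat_lit 4) (nat_lit 311) (nat_lit 245) (nat_lit 164))) (XT.nd (nat_lit 78) (nat_lit 76) (nat_lit 0) (XT.lf (nat_lit 0) (nat_lit 292662050627) (nat_lit 76) (nat_lit 54651459426) (nat_lit 76) (nat_lit 15200234406) (nat_lit 3) (nat_lit 4) (nat_lit 4) (nat_lit 5) (nat_lit 4) (nat_lit 4) (nat_lit 312) (nat_lit 245) (nat_lit 163)) (XT.nd (nat_lit 78) (nat_lit 76) (nat_lit 0) (XT.lf (nat_lit 0) (nat_lit 337674439770) (nat_lit 76) (nat_lit 46338526408) (nat_lit 76) (nat_lit 6881983142) (nat_lit 3) (nat_lit 4) (nat_lit 4) (nat_lit 5) (nat_lit 4) (nat_lit 4) (nat_lit 313) (nat_lit 245) (nat_lit 162)) (XT.lf (nat_lit 0) (nat_lit 2031285958) (nat_lit 152) (nat_lit 35297331353) (nat_lit 76) (nat_lit 384216555215) (nat_lit 2) (nat_lit 5) (nat_lit 4) (nat_lit 5) (nat_lit 3) (nat_lit 4) (nat_lit 314) (nat_lit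 245) (nat_lit 161)))))) (XT.nd (nat_lit 312) (nat_lit 0) (nat_lit 0) (XT.nd (nat_lit 156) (nat_lit 0) (nat_lit 0) (XT.nd (nat_lit 78) (nat_lit 76) (nat_lit 0) (XT.lf (nat_lit 0) (nat_lit 11416790095) (nat_lit 152) (nat_lit 16061607410) (nat_lit 76) (nat_lit 427163364542) (nat_lit 2) (nat_lit 5) (nat_lit 4) (nat_lit 5) (nat_lit 3) (nat_lit 4) (nat_lit 315) (nat_lit 245) (nat_lit 160)) (XT.lf (nat_lit 0) (nat_lit 4863769807) (nat_lit 76) (nat_lit 16762580782) (nat_lit 152) (nat_lit 468756070731) (nat_lit 1) (nat_lit 5) (nat_lit 2) (nat_lit 5) (nat_lit 3) (nat_lit 4) (nat_lit 316) (nat_lit 245) (nat_lit 159))) (XT.nd (nat_lit 78) (nat_lit 0) (nat_lit 0) (XT.lf (nat_lit 0) (nat_lit 28032068261) (nat_lit 76) (nat_lit 4897798193) (nat_lit 152) (nat_lit 496038610494) (nat_lit 1) (nat_lit 5) (nat_lit 2) (nat_lit 5) (nat_lit 3) (nat_lit 4) (nat_lit 317) (nat_lit 245) (nat_lit 158)) (XT.lf (nat_lit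 0) (nat_lit 45258826911) (nat_lit 152) (nat_lit 517715591261) (nat_lit 0) (nat_lit 7660943596) (nat_lit 1) (nat_lit 5) (nat_lit 3) (nat_lit 4) (nat_lit 1) (nat_lit 4) (nat_lit 318) (nat_lit 245) (nat_lit 157)))) (XT.nd (nat_lit 156) (nat_lit 0) (nat_lit 0) (XT.nd (nat_lit 78) (nat_lit 0) (nat_lit 0) (XT.lf (nat_lit 0) (nat_lit 58654439815) (nat_lit 152) (nat_lit 535923778777) (nat_lit 0) (nat_lit 21053364694) (nat_lit 1) (nat_lit 5) (nat_lit 3) (nat_lit 4) (nat_lit 1) (nat_lit 4) (nat_lit 319) (nat_lit 245) (nat_lit 156)) (XT.lf (nat_lit 0) (nat_lit 73119618221) (nat_lit 152) (nat_lit 555592403251) (nat_lit 0) (nat_lit 35515587723) (nat_lit 1) (nat_lit 5) (nat_lit 3) (nat_lit 4) (nat_lit 1) (nat_lit 4) (nat_lit 320) (nat_lit 245) (nat_lit 155))) (XT.nd (nat_lit 78) (nat_lit 0) (nat_lit 0) (XT.lf (nat_lit 0) (nat_lit 88740081704) (nat_lit 152) (nat_lit 576838019492) (nat_lit 0) (nat_lit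 51133314747) (nat_lit 1) (nat_lit 5) (nat_lit 3) (nat_lit 4) (nat_lit 1) (nat_lit 4) (nat_lit 321) (nat_lit 245) (nat_lit 154)) (XT.nd (nat_lit 78) (nat_lit 0) (nat_lit 0) (XT.lf (nat_lit 0) (nat_lit 105608395975) (nat_lit 152) (nat_lit 599786527451) (nat_lit 0) (nat_lit 67999095258) (nat_lit 1) (nat_lit 5) (nat_lit 3) (nat_lit 4) (nat_lit 1) (nat_lit 4) (nat_lit 322) (nat_lit 245) (nat_lit 153)) (XT.lf (nat_lit 0) (nat_lit 123824521413) (nat_lit 152) (nat_lit 624573918285) (nat_lit 0) (nat_lit 86212874623) (nat_lit 1) (nat_lit 5) (nat_lit 3) (nat_lit 4) (nat_lit 1) (nat_lit 4) (nat_lit 323) (nat_lit 245) (nat_lit 152))))))) (XT.nd (nat_lit 702) (nat_lit 2508) (nat_lit 0) (XT.nd (nat_lit 312) (nat_lit 1064) (nat_lit 0) (XT.nd (nat_lit 156) (nat_lit 456) (nat_lit 0) (XT.nd (nat_lit 78) (nat_lit 0) (nat_lit 0) (XT.lf (nat_lit 0) (nat_lit 2270330815) (nat_lit 532) (nat_lit 744581049) (nat_lit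 532) (nat_lit 744581049) (nat_lit 90) (nat_lit 3) (nat_lit 97) (nat_lit 3) (nat_lit 97) (nat_lit 5) (nat_lit 246) (nat_lit 246) (nat_lit 228)) (XT.lf (nat_lit 76) (nat_lit 3725488775) (nat_lit 0) (nat_lit 3037629874) (nat_lit 532) (nat_lit 944523668) (nat_lit 91) (nat_lit 5) (nat_lit 90) (nat_lit 3) (nat_lit 97) (nat_lit 5) (nat_lit 247) (nat_lit 246) (nat_lit 227))) (XT.nd (nat_lit 78) (nat_lit 0) (nat_lit 0) (XT.lf (nat_lit 0) (nat_lit 1061504299) (nat_lit 532) (nat_lit 6514966454) (nat_lit 608) (nat_lit 342422186) (nat_lit 84) (nat_lit 5) (nat_lit 91) (nat_lit 5) (nat_lit 92) (nat_lit 5) (nat_lit 248) (nat_lit 246) (nat_lit 226)) (XT.lf (nat_lit 0) (nat_lit 3127440275) (nat_lit 532) (nat_lit 971231880) (nat_lit 608) (nat_lit 4051859068) (nat_lit 84) (nat_lit 5) (nat_lit 91) (nat_lit 5) (nat_lit 92) (nat_lit 5) (nat_lit 249) (nat_lit 246) (nat_lit 225)))) (XT.nd (nat_lit 156) (nat_lit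 1064) (nat_lit 0) (XT.nd (nat_lit 78) (nat_lit 0) (nat_lit 76) (XT.lf (nat_lit 76) (nat_lit 5064708010) (nat_lit 0) (nat_lit 197416652) (nat_lit 608) (nat_lit 3144224154) (nat_lit 85) (nat_lit 5) (nat_lit 84) (nat_lit 5) (nat_lit 92) (nat_lit 5) (nat_lit 250) (nat_lit 246) (nat_lit 224)) (XT.lf (nat_lit 76) (nat_lit 2846224544) (nat_lit 0) (nat_lit 4682277166) (nat_lit 608) (nat_lit 1156845251) (nat_lit 86) (nat_lit 5) (nat_lit 85) (nat_lit 5) (nat_lit 93) (nat_lit 5) (nat_lit 251) (nat_lit 246) (nat_lit 223))) (XT.nd (nat_lit 78) (nat_lit 532) (nat_lit 0) (XT.lf (nat_lit 76) (nat_lit 543340712) (nat_lit 0) (nat_lit 329218690) (nat_lit 684) (nat_lit 8118268886) (nat_lit 78) (nat_lit 5) (nat_lit 77) (nat_lit 5) (nat_lit 86) (nat_lit 5) (nat_lit 252) (nat_lit 246) (nat_lit 222)) (XT.nd (nat_lit 78) (nat_lit 608) (nat_lit 0) (XT.lf (nat_lit 0) (nat_lit 3050008377) (nat_lit 608) (nat_lit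 1882475996) (nat_lit 76) (nat_lit 4386625804) (nat_lit 78) (nat_lit 5) (nat_lit 86) (nat_lit 5) (nat_lit 79) (nat_lit 5) (nat_lit 253) (nat_lit 246) (nat_lit 221)) (XT.lf (nat_lit 0) (nat_lit 5257214553) (nat_lit 608) (nat_lit 96920398) (nat_lit 684) (nat_lit 4322470954) (nat_lit 70) (nat_lit 5) (nat_lit 78) (nat_lit 5) (nat_lit 79) (nat_lit 5) (nat_lit 254) (nat_lit 246) (nat_lit 220)))))) (XT.nd (nat_lit 390) (nat_lit 836) (nat_lit 0) (XT.nd (nat_lit 156) (nat_lit 608) (nat_lit 0) (XT.nd (nat_lit 78) (nat_lit 380) (nat_lit 0) (XT.lf (nat_lit 0) (nat_lit 2870063693) (nat_lit 684) (nat_lit 5004149698) (nat_lit 760) (nat_lit 2187439561) (nat_lit 61) (nat_lit 5) (nat_lit 70) (nat_lit 5) (nat_lit 71) (nat_lit 5) (nat_lit 255) (nat_lit 246) (nat_lit 219)) (XT.lf (nat_lit 0) (nat_lit 81854571) (nat_lit 380) (nat_lit 10166132460) (nat_lit 76) (nat_lit 231531626) (nat_lit 56) (nat_lit 5) (nat_lit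 61) (nat_lit 5) (nat_lit 57) (nat_lit 5) (nat_lit 256) (nat_lit 246) (nat_lit 218))) (XT.nd (nat_lit 78) (nat_lit 608) (nat_lit 0) (XT.lf (nat_lit 0) (nat_lit 2554801164) (nat_lit 380) (nat_lit 2488443633) (nat_lit 76) (nat_lit 5881273527) (nat_lit 56) (nat_lit 5) (nat_lit 61) (nat_lit 5) (nat_lit 57) (nat_lit 5) (nat_lit 257) (nat_lit 246) (nat_lit 217)) (XT.nd (nat_lit 78) (nat_lit 304) (nat_lit 0) (XT.lf (nat_lit 0) (nat_lit 5222409467) (nat_lit 380) (nat_lit 5532450622) (nat_lit 76) (nat_lit 650819351) (nat_lit 52) (nat_lit 5) (nat_lit 57) (nat_lit 5) (nat_lit 53) (nat_lit 5) (nat_lit 258) (nat_lit 246) (nat_lit 216)) (XT.lf (nat_lit 0) (nat_lit 2970710062) (nat_lit 304) (nat_lit 5208809245) (nat_lit 380) (nat_lit 3742382437) (nat_lit 48) (nat_lit 5) (nat_lit 52) (nat_lit 5) (nat_lit 53) (nat_lit 5) (nat_lit 259) (nat_lit 246) (nat_lit 215))))) (XT.nd (nat_lit 156) (nat_lit 456) (nat_lit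 0) (XT.nd (nat_lit 78) (nat_lit 380) (nat_lit 0) (XT.lf (nat_lit 0) (nat_lit 11389551081) (nat_lit 380) (nat_lit 245016466) (nat_lit 76) (nat_lit 844381940) (nat_lit 48) (nat_lit 5) (nat_lit 53) (nat_lit 5) (nat_lit 49) (nat_lit 5) (nat_lit 260) (nat_lit 246) (nat_lit 214)) (XT.lf (nat_lit 0) (nat_lit 1866721501) (nat_lit 380) (nat_lit 3837613162) (nat_lit 76) (nat_lit 7367757886) (nat_lit 43) (nat_lit 5) (nat_lit 48) (nat_lit 5) (nat_lit 44) (nat_lit 5) (nat_lit 261) (nat_lit 246) (nat_lit 213))) (XT.nd (nat_lit 78) (nat_lit 228) (nat_lit 0) (XT.lf (nat_lit 0) (nat_lit 5046181510) (nat_lit 304) (nat_lit 7885974583) (nat_lit 76) (nat_lit 778669083) (nat_lit 40) (nat_lit 5) (nat_lit 44) (nat_lit 5) (nat_lit 41) (nat_lit 5) (nat_lit 262) (nat_lit 246) (nat_lit 212)) (XT.nd (nat_lit 78) (nat_lit 0) (nat_lit 0) (XT.lf (nat_lit 0) (nat_lit 1863767769) (nat_lit 228) (nat_lit 6730383579) (nat_lit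 304) (nat_lit 5801058482) (nat_lit 37) (nat_lit 5) (nat_lit 40) (nat_lit 5) (nat_lit 41) (nat_lit 5) (nat_lit 263) (nat_lit 246) (nat_lit 211)) (XT.lf (nat_lit 0) (nat_lit 12490073986) (nat_lit 304) (nat_lit 2552149697) (nat_lit 76) (nat_lit 89157542) (nat_lit 37) (nat_lit 5) (nat_lit 41) (nat_lit 5) (nat_lit 38) (nat_lit 5) (nat_lit 264) (nat_lit 246) (nat_lit 210))))))))
noncomputable def xc62 : XT := (XT.nd (nat_lit 1404) (nat_lit 532) (nat_lit 0) (XT.nd (nat_lit 702) (nat_lit 684) (nat_lit 0) (XT.nd (nat_lit 312) (nat_lit 608) (nat_lit 0) (XT.nd (nat_lit 156) (nat_lit 152) (nat_lit 0) (XT.nd (nat_lit 78) (nat_lit 228) (nat_lit 0) (XT.lf (nat_lit 0) (nat_lit 922584789) (nat_lit 304) (nat_lit 7646423825) (nat_lit 76) (nat_lit 7348246601) (nat_lit 33) (nat_lit 5) (nat_lit 37) (nat_lit 5) (nat_lit 34) (nat_lit 5) (nat_lit 265) (nat_lit 246) (nat_lit 209)) (XT.lf (nat_lit 0) (nat_lit 3256753464)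 (nat_lit 228) (nat_lit 1452634566) (nat_lit 304) (nat_lit 12053126545) (nat_lit 30) (nat_lit 5) (nat_lit 33) (nat_lit 5) (nat_lit 34) (nat_lit 5) (nat_lit 266) (nat_lit 246) (nat_lit 208))) (XT.nd (nat_lit 78) (nat_lit 152) (nat_lit 0) (XT.lf (nat_lit 0) (nat_lit 8968179953) (nat_lit 304) (nat_lit 2551351726) (nat_lit 76) (nat_lit 6147593540) (nat_lit 30) (nat_lit 5) (nat_lit 34) (nat_lit 5) (nat_lit 31) (nat_lit 5) (nat_lit 267) (nat_lit 246) (nat_lit 207)) (XT.lf (nat_lit 0) (nat_lit 9476411246) (nat_lit 152) (nat_lit 4204775971) (nat_lit 228) (nat_lit 4957411115) (nat_lit 28) (nat_lit 5) (nat_lit 30) (nat_lit 5) (nat_lit 31) (nat_lit 5) (nat_lit 268) (nat_lit 246) (nat_lit 206)))) (XT.nd (nat_lit 156) (nat_lit 304) (nat_lit 0) (XT.nd (nat_lit 78) (nat_lit 76) (nat_lit 0) (XT.lf (nat_lit 0) (nat_lit 2823020296) (nat_lit 228) (nat_lit 16039011001) (nat_lit 304) (nat_lit 821374868) (nat_lit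 25) (nat_lit 5) (nat_lit 28) (nat_lit 5) (nat_lit 29) (nat_lit 5) (nat_lit 269) (nat_lit 246) (nat_lit 205)) (XT.lf (nat_lit 0) (nat_lit 3707776605) (nat_lit 304) (nat_lit 4919295799) (nat_lit 76) (nat_lit 12173072907) (nat_lit 24) (nat_lit 5) (nat_lit 28) (nat_lit 5) (nat_lit 25) (nat_lit 5) (nat_lit 270) (nat_lit 246) (nat_lit 204))) (XT.nd (nat_lit 78) (nat_lit 152) (nat_lit 0) (XT.lf (nat_lit 0) (nat_lit 8150710408) (nat_lit 152) (nat_lit 497224573) (nat_lit 228) (nat_lit 13353870696) (nat_lit 22) (nat_lit 5) (nat_lit 24) (nat_lit 5) (nat_lit 25) (nat_lit 5) (nat_lit 271) (nat_lit 246) (nat_lit 203)) (XT.nd (nat_lit 78) (nat_lit 152) (nat_lit 0) (XT.lf (nat_lit 0) (nat_lit 14151802492) (nat_lit 228) (nat_lit 1056405055) (nat_lit 76) (nat_lit 8083084958) (nat_lit 22) (nat_lit 5) (nat_lit 25) (nat_lit 5) (nat_lit 23) (nat_lit 5) (nat_lit 272) (nat_lit 246) (nat_lit 202)) (XT.lf (nat_lit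 0) (nat_lit 13105959436) (nat_lit 152) (nat_lit 7158654207) (nat_lit 228) (nat_lit 4411002608) (nat_lit 20) (nat_lit 5) (nat_lit 22) (nat_lit 5) (nat_lit 23) (nat_lit 5) (nat_lit 273) (nat_lit 246) (nat_lit 201)))))) (XT.nd (nat_lit 312) (nat_lit 304) (nat_lit 0) (XT.nd (nat_lit 156) (nat_lit 152) (nat_lit 0) (XT.nd (nat_lit 78) (nat_lit 0) (nat_lit 0) (XT.lf (nat_lit 0) (nat_lit 709362348) (nat_lit 228) (nat_lit 23929344269) (nat_lit 76) (nat_lit 1529739492) (nat_lit 17) (nat_lit 5) (nat_lit 20) (nat_lit 5) (nat_lit 18) (nat_lit 5) (nat_lit 274) (nat_lit 246) (nat_lit 200)) (XT.lf (nat_lit 0) (nat_lit 6371409409) (nat_lit 228) (nat_lit 10467825763) (nat_lit 76) (nat_lit 10923611519) (nat_lit 17) (nat_lit 5) (nat_lit 20) (nat_lit 5) (nat_lit 18) (nat_lit 5) (nat_lit 275) (nat_lit 246) (nat_lit 199))) (XT.nd (nat_lit 78) (nat_lit 0) (nat_lit 0) (XT.lf (nat_lit 0) (nat_lit 4143490412) (nat_lit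 152) (nat_lit 8369639002) (nat_lit 228) (nat_lit 16970417369) (nat_lit 15) (nat_lit 5) (nat_lit 17) (nat_lit 5) (nat_lit 18) (nat_lit 5) (nat_lit 276) (nat_lit 246) (nat_lit 198)) (XT.lf (nat_lit 0) (nat_lit 19307268170) (nat_lit 228) (nat_lit 11109095491) (nat_lit 76) (nat_lit 917561946) (nat_lit 15) (nat_lit 5) (nat_lit 18) (nat_lit 5) (nat_lit 16) (nat_lit 4) (nat_lit 277) (nat_lit 246) (nat_lit 197)))) (XT.nd (nat_lit 156) (nat_lit 228) (nat_lit 0) (XT.nd (nat_lit 78) (nat_lit 0) (nat_lit 0) (XT.lf (nat_lit 0) (nat_lit 4199269805) (nat_lit 76) (nat_lit 22618663372) (nat_lit 152) (nat_lit 6505822895) (nat_lit 14) (nat_lit 5) (nat_lit 15) (nat_lit 5) (nat_lit 16) (nat_lit 4) (nat_lit 278) (nat_lit 246) (nat_lit 196)) (XT.lf (nat_lit 0) (nat_lit 21077020528) (nat_lit 76) (nat_lit 14013933764) (nat_lit 152) (nat_lit 373809365) (nat_lit 14) (nat_lit 5) (nat_lit 15) (nat_lit 5) (nat_lit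 16) (nat_lit 4) (nat_lit 279) (nat_lit 246) (nat_lit 195))) (XT.nd (nat_lit 78) (nat_lit 0) (nat_lit 0) (XT.lf (nat_lit 0) (nat_lit 1426855744) (nat_lit 152) (nat_lit 4614003087) (nat_lit 228) (nat_lit 31731768374) (nat_lit 11) (nat_lit 5) (nat_lit 13) (nat_lit 5) (nat_lit 14) (nat_lit 5) (nat_lit 280) (nat_lit 246) (nat_lit 194)) (XT.nd (nat_lit 78) (nat_lit 0) (nat_lit 0) (XT.lf (nat_lit 0) (nat_lit 13268005694) (nat_lit 228) (nat_lit 21377313142) (nat_lit 76) (nat_lit 5603928266) (nat_lit 11) (nat_lit 5) (nat_lit 14) (nat_lit 5) (nat_lit 12) (nat_lit 4) (nat_lit 281) (nat_lit 246) (nat_lit 193)) (XT.lf (nat_lit 0) (nat_lit 21124301018) (nat_lit 228) (nat_lit 5333858822) (nat_lit 76) (nat_lit 16463337682) (nat_lit 11) (nat_lit 5) (nat_lit 14) (nat_lit 5) (nat_lit 12) (nat_lit 4) (nat_lit 282) (nat_lit 246) (nat_lit 192))))))) (XT.nd (nat_lit 702) (nat_lit 228) (nat_lit 0) (XT.nd (nat_lit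 312) (nat_lit 76) (nat_lit 0) (XT.nd (nat_lit 156) (nat_lit 152) (nat_lit 0) (XT.nd (nat_lit 78) (nat_lit 0) (nat_lit 0) (XT.lf (nat_lit 0) (nat_lit 12346878560) (nat_lit 76) (nat_lit 17430153924) (nat_lit 152) (nat_lit 16022144947) (nat_lit 10) (nat_lit 5) (nat_lit 11) (nat_lit 5) (nat_lit 12) (nat_lit 4) (nat_lit 283) (nat_lit 246) (nat_lit 191)) (XT.lf (nat_lit 0) (nat_lit 31592972718) (nat_lit 76) (nat_lit 7598307198) (nat_lit 152) (nat_lit 9712369612) (nat_lit 10) (nat_lit 5) (nat_lit 11) (nat_lit 5) (nat_lit 12) (nat_lit 4) (nat_lit 284) (nat_lit 246) (nat_lit 190))) (XT.nd (nat_lit 78) (nat_lit 76) (nat_lit 0) (XT.lf (nat_lit 0) (nat_lit 38822148) (nat_lit 76) (nat_lit 49345506778) (nat_lit 76) (nat_lit 2870906885) (nat_lit 9) (nat_lit 4) (nat_lit 10) (nat_lit 5) (nat_lit 10) (nat_lit 4) (nat_lit 285) (nat_lit 246) (nat_lit 189)) (XT.lf (nat_lit 0) (nat_lit 4786477880) (nat_lit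 152) (nat_lit 36705687765) (nat_lit 76) (nat_lit 14358631099) (nat_lit 8) (nat_lit 5) (nat_lit 10) (nat_lit 5) (nat_lit 9) (nat_lit 4) (nat_lit 286) (nat_lit 246) (nat_lit 188)))) (XT.nd (nat_lit 156) (nat_lit 76) (nat_lit 0) (XT.nd (nat_lit 78) (nat_lit 0) (nat_lit 0) (XT.lf (nat_lit 0) (nat_lit 12937400442) (nat_lit 152) (nat_lit 20036451631) (nat_lit 76) (nat_lit 26758753054) (nat_lit 8) (nat_lit 5) (nat_lit 10) (nat_lit 5) (nat_lit 9) (nat_lit 4) (nat_lit 287) (nat_lit 246) (nat_lit 187)) (XT.lf (nat_lit 0) (nat_lit 21722049512) (nat_lit 152) (nat_lit 2065101701) (nat_lit 76) (nat_lit 40138754200) (nat_lit 8) (nat_lit 5) (nat_lit 10) (nat_lit 5) (nat_lit 9) (nat_lit 4) (nat_lit 288) (nat_lit 246) (nat_lit 186))) (XT.nd (nat_lit 78) (nat_lit 0) (nat_lit 0) (XT.lf (nat_lit 0) (nat_lit 17887366344) (nat_lit 76) (nat_lit 13584387845) (nat_lit 152) (nat_lit 36969829007) (nat_lit 7) (nat_lit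 5) (nat_lit 8) (nat_lit 5) (nat_lit 9) (nat_lit 4) (nat_lit 289) (nat_lit 246) (nat_lit 185)) (XT.nd (nat_lit 78) (nat_lit 0) (nat_lit 0) (XT.lf (nat_lit 0) (nat_lit 39481943172) (nat_lit 76) (nat_lit 2539300409) (nat_lit 152) (nat_lit 31296306808) (nat_lit 7) (nat_lit 5) (nat_lit 8) (nat_lit 5) (nat_lit 9) (nat_lit 4) (nat_lit 290) (nat_lit 246) (nat_lit 184)) (XT.lf (nat_lit 0) (nat_lit 53546151165) (nat_lit 152) (nat_lit 15952478038) (nat_lit 0) (nat_lit 9078416516) (nat_lit 7) (nat_lit 5) (nat_lit 9) (nat_lit 4) (nat_lit 7) (nat_lit 4) (nat_lit 291) (nat_lit 246) (nat_lit 183)))))) (XT.nd (nat_lit 390) (nat_lit 76) (nat_lit 0) (XT.nd (nat_lit 156) (nat_lit 76) (nat_lit 0) (XT.nd (nat_lit 78) (nat_lit 0) (nat_lit 0) (XT.lf (nat_lit 0) (nat_lit 3402980041) (nat_lit 76) (nat_lit 62672004061) (nat_lit 76) (nat_lit 18178241889) (nat_lit 6) (nat_lit 4) (nat_lit 7) (nat_lit 5) (nat_lit 7)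 (nat_lit 4) (nat_lit 292) (nat_lit 246) (nat_lit 182)) (XT.lf (nat_lit 0) (nat_lit 24853173104) (nat_lit 76) (nat_lit 55017491301) (nat_lit 76) (nat_lit 10499629572) (nat_lit 6) (nat_lit 4) (nat_lit 7) (nat_lit 5) (nat_lit 7) (nat_lit 4) (nat_lit 293) (nat_lit 246) (nat_lit 181))) (XT.nd (nat_lit 78) (nat_lit 76) (nat_lit 0) (XT.lf (nat_lit 0) (nat_lit 47997752439) (nat_lit 76) (nat_lit 46759893782) (nat_lit 76) (nat_lit 2219717647) (nat_lit 6) (nat_lit 4) (nat_lit 7) (nat_lit 5) (nat_lit 7) (nat_lit 4) (nat_lit 294) (nat_lit 246) (nat_lit 180)) (XT.nd (nat_lit 78) (nat_lit 0) (nat_lit 0) (XT.lf (nat_lit 0) (nat_lit 6495780198) (nat_lit 152) (nat_lit 31244488214) (nat_lit 76) (nat_lit 66368081730) (nat_lit 5) (nat_lit 5) (nat_lit 7) (nat_lit 5) (nat_lit 6) (nat_lit 4) (nat_lit 295) (nat_lit 246) (nat_lit 179)) (XT.lf (nat_lit 0) (nat_lit 15821009591) (nat_lit 152) (nat_lit 12146898964)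 (nat_lit 76) (nat_lit 83840589698) (nat_lit 5) (nat_lit 5) (nat_lit 7) (nat_lit 5) (nat_lit 6) (nat_lit 4) (nat_lit 296) (nat_lit 246) (nat_lit 178))))) (XT.nd (nat_lit 156) (nat_lit 0) (nat_lit 0) (XT.nd (nat_lit 78) (nat_lit 0) (nat_lit 0) (XT.lf (nat_lit 0) (nat_lit 8740741546) (nat_lit 76) (nat_lit 17278001900) (nat_lit 152) (nat_lit 94099604692) (nat_lit 4) (nat_lit 5) (nat_lit 5) (nat_lit 5) (nat_lit 6) (nat_lit 4) (nat_lit 297) (nat_lit 246) (nat_lit 177)) (XT.lf (nat_lit 0) (nat_lit 31716402094) (nat_lit 76) (nat_lit 5517981500) (nat_lit 152) (nat_lit 91848511218) (nat_lit 4) (nat_lit 5) (nat_lit 5) (nat_lit 5) (nat_lit 6) (nat_lit 4) (nat_lit 298) (nat_lit 246) (nat_lit 176))) (XT.nd (nat_lit 78) (nat_lit 0) (nat_lit 0) (XT.lf (nat_lit 0) (nat_lit 49450514829) (nat_lit 152) (nat_lit 82362493466) (nat_lit 0) (nat_lit 6946447130) (nat_lit 4) (nat_lit 5) (nat_lit 6) (nat_lit 4)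 (nat_lit 4) (nat_lit 4) (nat_lit 299) (nat_lit 246) (nat_lit 175)) (XT.nd (nat_lit 78) (nat_lit 0) (nat_lit 0) (XT.lf (nat_lit 0) (nat_lit 62728735001) (nat_lit 152) (nat_lit 66265902208) (nat_lit 0) (nat_lit 20211275054) (nat_lit 4) (nat_lit 5) (nat_lit 6) (nat_lit 4) (nat_lit 4) (nat_lit 4) (nat_lit 300) (nat_lit 246) (nat_lit 174)) (XT.lf (nat_lit 0) (nat_lit 77061578704) (nat_lit 152) (nat_lit 48895180580) (nat_lit 0) (nat_lit 34531718527) (nat_lit 4) (nat_lit 5) (nat_lit 6) (nat_lit 4) (nat_lit 4) (nat_lit 4) (nat_lit 301) (nat_lit 246) (nat_lit 173))))))))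
noncomputable def xc63 : XT := (XT.nd (nat_lit 1482) (nat_lit 0) (nat_lit 0) (XT.nd (nat_lit 702) (nat_lit 152) (nat_lit 0) (XT.nd (nat_lit 312) (nat_lit 0) (nat_lit 0) (XT.nd (nat_lit 156) (nat_lit 76) (nat_lit 0) (XT.nd (nat_lit 78) (nat_lit 0) (nat_lit 0) (XT.lf (nat_lit 0) (nat_lit 92533981308) (nat_lit 152) (nat_lit 30147390973) (nat_lit 0) (nat_lit 49992639437) (nat_lit 4) (nat_lit 5) (nat_lit 6) (nat_lit 4) (nat_lit 4) (nat_lit 4) (nat_lit 302) (nat_lit 246) (nat_lit 172)) (XT.lf (nat_lit 0) (nat_lit 109237631124) (nat_lit 152) (nat_lit 9911435375) (nat_lit 0) (nat_lit 66685658055) (nat_lit 4) (nat_lit 5) (nat_lit 6) (nat_lit 4) (nat_lit 4) (nat_lit 4) (nat_lit 303) (nat_lit 246) (nat_lit 171))) (XT.nd (nat_lit 78) (nat_lit 0) (nat_lit 0) (XT.lf (nat_lit 0) (nat_lit 12327148731) (nat_lit 76) (nat_lit 115136825351) (nat_lit 76) (nat_lit 72575008580) (nat_lit 3) (nat_lit 4) (nat_lit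 4) (nat_lit 5) (nat_lit 4) (nat_lit 4) (nat_lit 304) (nat_lit 246) (nat_lit 170)) (XT.lf (nat_lit 0) (nat_lit 36688429124) (nat_lit 76) (nat_lit 110626873689) (nat_lit 76) (nat_lit 68055942378) (nat_lit 3) (nat_lit 4) (nat_lit 4) (nat_lit 5) (nat_lit 4) (nat_lit 4) (nat_lit 305) (nat_lit 246) (nat_lit 169)))) (XT.nd (nat_lit 156) (nat_lit 0) (nat_lit 0) (XT.nd (nat_lit 78) (nat_lit 0) (nat_lit 0) (XT.lf (nat_lit 0) (nat_lit 62989052132) (nat_lit 76) (nat_lit 105760340825) (nat_lit 76) (nat_lit 63180970127) (nat_lit 3) (nat_lit 4) (nat_lit 4) (nat_lit 5) (nat_lit 4) (nat_lit 4) (nat_lit 306) (nat_lit 246) (nat_lit 168)) (XT.lf (nat_lit 0) (nat_lit 91384873298) (nat_lit 76) (nat_lit 100508388049) (nat_lit 76) (nat_lit 57921203102) (nat_lit 3) (nat_lit 4) (nat_lit 4) (nat_lit 5) (nat_lit 4) (nat_lit 4) (nat_lit 307) (nat_lit 246) (nat_lit 167))) (XT.nd (nat_lit 78) (nat_lit 0) (nat_lit 0)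 (XT.lf (nat_lit 0) (nat_lit 122044164155) (nat_lit 76) (nat_lit 94839892676) (nat_lit 76) (nat_lit 52245472315) (nat_lit 3) (nat_lit 4) (nat_lit 4) (nat_lit 5) (nat_lit 4) (nat_lit 4) (nat_lit 308) (nat_lit 246) (nat_lit 166)) (XT.nd (nat_lit 78) (nat_lit 0) (nat_lit 0) (XT.lf (nat_lit 0) (nat_lit 155148609389) (nat_lit 76) (nat_lit 88721263623) (nat_lit 76) (nat_lit 46120143803) (nat_lit 3) (nat_lit 4) (nat_lit 4) (nat_lit 5) (nat_lit 4) (nat_lit 4) (nat_lit 309) (nat_lit 246) (nat_lit 165)) (XT.lf (nat_lit 0) (nat_lit 190894383492) (nat_lit 76) (nat_lit 82116242347) (nat_lit 76) (nat_lit 39508919325) (nat_lit 3) (nat_lit 4) (nat_lit 4) (nat_lit 5) (nat_lit 4) (nat_lit 4) (nat_lit 310) (nat_lit 246) (nat_lit 164)))))) (XT.nd (nat_lit 390) (nat_lit 76) (nat_lit 0) (XT.nd (nat_lit 156) (nat_lit 76) (nat_lit 0) (XT.nd (nat_lit 78) (nat_lit 0) (nat_lit 0) (XT.lf (nat_lit 0) (nat_lit 229493313272)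 (nat_lit 76) (nat_lit 74985687981) (nat_lit 76) (nat_lit 32372621253) (nat_lit 3) (nat_lit 4) (nat_lit 4) (nat_lit 5) (nat_lit 4) (nat_lit 4) (nat_lit 311) (nat_lit 246) (nat_lit 163)) (XT.lf (nat_lit 0) (nat_lit 271174133127) (nat_lit 76) (nat_lit 67287345389) (nat_lit 76) (nat_lit 24668960415) (nat_lit 3) (nat_lit 4) (nat_lit 4) (nat_lit 5) (nat_lit 4) (nat_lit 4) (nat_lit 312) (nat_lit 246) (nat_lit 162))) (XT.nd (nat_lit 78) (nat_lit 76) (nat_lit 0) (XT.lf (nat_lit 0) (nat_lit 316183840510) (nat_lit 76) (nat_lit 58975594762) (nat_lit 76) (nat_lit 16352285487) (nat_lit 3) (nat_lit 4) (nat_lit 4) (nat_lit 5) (nat_lit 4) (nat_lit 4) (nat_lit 313) (nat_lit 246) (nat_lit 161)) (XT.nd (nat_lit 78) (nat_lit 76) (nat_lit 0) (XT.lf (nat_lit 0) (nat_lit 364789159612) (nat_lit 76) (nat_lit 50001181282) (nat_lit 76) (nat_lit 7373312468) (nat_lit 3) (nat_lit 4) (nat_lit 4) (nat_lit 5) (nat_lit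 4) (nat_lit 4) (nat_lit 314) (nat_lit 246) (nat_lit 160)) (XT.lf (nat_lit 0) (nat_lit 2246875517) (nat_lit 152) (nat_lit 38025995798) (nat_lit 76) (nat_lit 414993194512) (nat_lit 2) (nat_lit 5) (nat_lit 4) (nat_lit 5) (nat_lit 3) (nat_lit 4) (nat_lit 315) (nat_lit 246) (nat_lit 159))))) (XT.nd (nat_lit 156) (nat_lit 0) (nat_lit 0) (XT.nd (nat_lit 78) (nat_lit 76) (nat_lit 0) (XT.lf (nat_lit 0) (nat_lit 12379287639) (nat_lit 152) (nat_lit 17258460018) (nat_lit 76) (nat_lit 461372836372) (nat_lit 2) (nat_lit 5) (nat_lit 4) (nat_lit 5) (nat_lit 3) (nat_lit 4) (nat_lit 316) (nat_lit 246) (nat_lit 158)) (XT.lf (nat_lit 0) (nat_lit 5337119701) (nat_lit 76) (nat_lit 18066167561) (nat_lit 152) (nat_lit 506207329604) (nat_lit 1) (nat_lit 5) (nat_lit 2) (nat_lit 5) (nat_lit 3) (nat_lit 4) (nat_lit 317) (nat_lit 246) (nat_lit 157))) (XT.nd (nat_lit 78) (nat_lit 0) (nat_lit 0) (XT.lf (nat_lit 0)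 (nat_lit 30352641416) (nat_lit 76) (nat_lit 5254974193) (nat_lit 152) (nat_lit 535676118977) (nat_lit 1) (nat_lit 5) (nat_lit 2) (nat_lit 5) (nat_lit 3) (nat_lit 4) (nat_lit 318) (nat_lit 246) (nat_lit 156)) (XT.nd (nat_lit 78) (nat_lit 0) (nat_lit 0) (XT.lf (nat_lit 0) (nat_lit 48920181942) (nat_lit 152) (nat_lit 559059054061) (nat_lit 0) (nat_lit 8304873628) (nat_lit 1) (nat_lit 5) (nat_lit 3) (nat_lit 4) (nat_lit 1) (nat_lit 4) (nat_lit 319) (nat_lit 246) (nat_lit 155)) (XT.lf (nat_lit 0) (nat_lit 63384432851) (nat_lit 152) (nat_lit 578729362097) (nat_lit 0) (nat_lit 22766388077) (nat_lit 1) (nat_lit 5) (nat_lit 3) (nat_lit 4) (nat_lit 1) (nat_lit 4) (nat_lit 320) (nat_lit 246) (nat_lit 154))))))) (XT.nd (nat_lit 32214) (nat_lit 0) (nat_lit 3192) (XT.nd (nat_lit 31824) (nat_lit 0) (nat_lit 5776) (XT.nd (nat_lit 156) (nat_lit 0) (nat_lit 0) (XT.nd (nat_lit 78) (nat_lit 0) (nat_lit 0)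 (XT.lf (nat_lit 0) (nat_lit 79004037540) (nat_lit 152) (nat_lit 599976537193) (nat_lit 0) (nat_lit 38383459007) (nat_lit 1) (nat_lit 5) (nat_lit 3) (nat_lit 4) (nat_lit 1) (nat_lit 4) (nat_lit 321) (nat_lit 246) (nat_lit 153)) (XT.lf (nat_lit 0) (nat_lit 95871556631) (nat_lit 152) (nat_lit 622926488535) (nat_lit 0) (nat_lit 55248632025) (nat_lit 1) (nat_lit 5) (nat_lit 3) (nat_lit 4) (nat_lit 1) (nat_lit 4) (nat_lit 322) (nat_lit 246) (nat_lit 152))) (XT.nd (nat_lit 31590) (nat_lit 0) (nat_lit 6232) (XT.lf (nat_lit 0) (nat_lit 114086945792) (nat_lit 152) (nat_lit 647715215836) (nat_lit 0) (nat_lit 73461848896) (nat_lit 1) (nat_lit 5) (nat_lit 3) (nat_lit 4) (nat_lit 1) (nat_lit 4) (nat_lit 323) (nat_lit 246) (nat_lit 151)) (XT.lf (nat_lit 0) (nat_lit 213133785) (nat_lit 0) (nat_lit 213133785) (nat_lit 532) (nat_lit 3526734072) (nat_lit 83) (nat_lit 5) (nat_lit 83) (nat_lit 3) (nat_lit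 90) (nat_lit 3) (nat_lit 247) (nat_lit 247) (nat_lit 226)))) (XT.nd (nat_lit 156) (nat_lit 456) (nat_lit 0) (XT.nd (nat_lit 78) (nat_lit 0) (nat_lit 0) (XT.lf (nat_lit 0) (nat_lit 2703197401) (nat_lit 532) (nat_lit 2192624844) (nat_lit 608) (nat_lit 3227377847) (nat_lit 83) (nat_lit 5) (nat_lit 90) (nat_lit 3) (nat_lit 91) (nat_lit 5) (nat_lit 248) (nat_lit 247) (nat_lit 225)) (XT.lf (nat_lit 76) (nat_lit 3523754846) (nat_lit 0) (nat_lit 1065203733) (nat_lit 608) (nat_lit 3775283693) (nat_lit 84) (nat_lit 5) (nat_lit 83) (nat_lit 5) (nat_lit 91) (nat_lit 5) (nat_lit 249) (nat_lit 247) (nat_lit 224))) (XT.nd (nat_lit 78) (nat_lit 532) (nat_lit 0) (XT.lf (nat_lit 76) (nat_lit 1032550178) (nat_lit 0) (nat_lit 5533338840) (nat_lit 608) (nat_lit 2062424430) (nat_lit 85) (nat_lit 5) (nat_lit 84) (nat_lit 5) (nat_lit 92) (nat_lit 5) (nat_lit 250) (nat_lit 247) (nat_lit 223)) (XT.nd (nat_lit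 78) (nat_lit 532) (nat_lit 0) (XT.lf (nat_lit 76) (nat_lit 7429294824) (nat_lit 0) (nat_lit 1221551436) (nat_lit 608) (nat_lit 265875105) (nat_lit 85) (nat_lit 5) (nat_lit 84) (nat_lit 5) (nat_lit 92) (nat_lit 5) (nat_lit 251) (nat_lit 247) (nat_lit 222)) (XT.lf (nat_lit 0) (nat_lit 1613509808) (nat_lit 608) (nat_lit 4136879525) (nat_lit 684) (nat_lit 3477491738) (nat_lit 77) (nat_lit 5) (nat_lit 85) (nat_lit 5) (nat_lit 86) (nat_lit 5) (nat_lit 252) (nat_lit 247) (nat_lit 221)))))) (XT.nd (nat_lit 390) (nat_lit 988) (nat_lit 0) (XT.nd (nat_lit 156) (nat_lit 1064) (nat_lit 0) (XT.nd (nat_lit 78) (nat_lit 532) (nat_lit 0) (XT.lf (nat_lit 76) (nat_lit 2643243568) (nat_lit 0) (nat_lit 945036851) (nat_lit 684) (nat_lit 5978293080) (nat_lit 78) (nat_lit 5) (nat_lit 77) (nat_lit 5) (nat_lit 86) (nat_lit 5) (nat_lit 253) (nat_lit 247) (nat_lit 220)) (XT.lf (nat_lit 0) (nat_lit 12856004) (nat_lit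 608) (nat_lit 5722754521) (nat_lit 684) (nat_lit 4196554654) (nat_lit 70) (nat_lit 5) (nat_lit 78) (nat_lit 5) (nat_lit 79) (nat_lit 5) (nat_lit 254) (nat_lit 247) (nat_lit 219))) (XT.nd (nat_lit 78) (nat_lit 1064) (nat_lit 0) (XT.lf (nat_lit 0) (nat_lit 7634414579) (nat_lit 608) (nat_lit 439155792) (nat_lit 684) (nat_lit 2252984941) (nat_lit 70) (nat_lit 5) (nat_lit 78) (nat_lit 5) (nat_lit 79) (nat_lit 5) (nat_lit 255) (nat_lit 247) (nat_lit 218)) (XT.nd (nat_lit 78) (nat_lit 380) (nat_lit 0) (XT.lf (nat_lit 0) (nat_lit 5095036847) (nat_lit 684) (nat_lit 5556824706) (nat_lit 760) (nat_lit 98427124) (nat_lit 61) (nat_lit 5) (nat_lit 70) (nat_lit 5) (nat_lit 71) (nat_lit 5) (nat_lit 256) (nat_lit 247) (nat_lit 217)) (XT.lf (nat_lit 0) (nat_lit 2147462353) (nat_lit 380) (nat_lit 8881313931) (nat_lit 76) (nat_lit 178292908) (nat_lit 56) (nat_lit 5) (nat_lit 61) (nat_lit 5) (nat_lit 57)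 (nat_lit 5) (nat_lit 257) (nat_lit 247) (nat_lit 216))))) (XT.nd (nat_lit 156) (nat_lit 684) (nat_lit 0) (XT.nd (nat_lit 78) (nat_lit 304) (nat_lit 0) (XT.lf (nat_lit 0) (nat_lit 4665721754) (nat_lit 380) (nat_lit 744825489) (nat_lit 76) (nat_lit 6285329809) (nat_lit 56) (nat_lit 5) (nat_lit 61) (nat_lit 5) (nat_lit 57) (nat_lit 5) (nat_lit 258) (nat_lit 247) (nat_lit 215)) (XT.lf (nat_lit 0) (nat_lit 7435524861) (nat_lit 380) (nat_lit 4021325280) (nat_lit 76) (nat_lit 764780566) (nat_lit 52) (nat_lit 5) (nat_lit 57) (nat_lit 5) (nat_lit 53) (nat_lit 5) (nat_lit 259) (nat_lit 247) (nat_lit 214))) (XT.nd (nat_lit 78) (nat_lit 380) (nat_lit 0) (XT.lf (nat_lit 0) (nat_lit 5077181909) (nat_lit 304) (nat_lit 5448212157) (nat_lit 380) (nat_lit 2259446233) (nat_lit 48) (nat_lit 5) (nat_lit 52) (nat_lit 5) (nat_lit 53) (nat_lit 5) (nat_lit 260) (nat_lit 247) (nat_lit 213)) (XT.nd (nat_lit 78)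 (nat_lit 0) (nat_lit 0) (XT.lf (nat_lit 0) (nat_lit 486559836) (nat_lit 380) (nat_lit 11801200129) (nat_lit 76) (nat_lit 1103650472) (nat_lit 43) (nat_lit 5) (nat_lit 48) (nat_lit 5) (nat_lit 44) (nat_lit 5) (nat_lit 261) (nat_lit 247) (nat_lit 212)) (XT.lf (nat_lit 0) (nat_lit 3525125106) (nat_lit 380) (nat_lit 2356467820) (nat_lit 76) (nat_lit 8155720387) (nat_lit 43) (nat_lit 5) (nat_lit 48) (nat_lit 5) (nat_lit 44) (nat_lit 5) (nat_lit 262) (nat_lit 247) (nat_lit 211))))))))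
noncomputable def xc64 : XT := (XT.nd (nat_lit 1404) (nat_lit 684) (nat_lit 0) (XT.nd (nat_lit 702) (nat_lit 836) (nat_lit 0) (XT.nd (nat_lit 312) (nat_lit 684) (nat_lit 0) (XT.nd (nat_lit 156) (nat_lit 304) (nat_lit 0) (XT.nd (nat_lit 78) (nat_lit 228) (nat_lit 0) (XT.lf (nat_lit 0) (nat_lit 6878336443) (nat_lit 304) (nat_lit 6734966073) (nat_lit 76) (nat_lit 1118249593) (nat_lit 40) (nat_lit 5) (nat_lit 44) (nat_lit 5) (nat_lit 41) (nat_lit 5) (nat_lit 263) (nat_lit 247) (nat_lit 210)) (XT.lf (nat_lit 0) (nat_lit 3717317053) (nat_lit 228) (nat_lit 6913626140) (nat_lit 304) (nat_lit 4844053713) (nat_lit 37) (nat_lit 5) (nat_lit 40) (nat_lit 5) (nat_lit 41) (nat_lit 5) (nat_lit 264) (nat_lit 247) (nat_lit 209))) (XT.nd (nat_lit 78) (nat_lit 304) (nat_lit 0) (XT.lf (nat_lit 0) (nat_lit 14743729182) (nat_lit 304) (nat_lit 1116754922) (nat_lit 76) (nat_lit 414641892) (nat_lit 37) (nat_lit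 5) (nat_lit 41) (nat_lit 5) (nat_lit 38) (nat_lit 5) (nat_lit 265) (nat_lit 247) (nat_lit 208)) (XT.lf (nat_lit 0) (nat_lit 2205471217) (nat_lit 304) (nat_lit 6646281433) (nat_lit 76) (nat_lit 8274863514) (nat_lit 33) (nat_lit 5) (nat_lit 37) (nat_lit 5) (nat_lit 34) (nat_lit 5) (nat_lit 266) (nat_lit 247) (nat_lit 207)))) (XT.nd (nat_lit 156) (nat_lit 456) (nat_lit 0) (XT.nd (nat_lit 78) (nat_lit 0) (nat_lit 0) (XT.lf (nat_lit 0) (nat_lit 5059100729) (nat_lit 228) (nat_lit 1170628461) (nat_lit 304) (nat_lit 11813305669) (nat_lit 30) (nat_lit 5) (nat_lit 33) (nat_lit 5) (nat_lit 34) (nat_lit 5) (nat_lit 267) (nat_lit 247) (nat_lit 206)) (XT.lf (nat_lit 0) (nat_lit 10750270830) (nat_lit 304) (nat_lit 1277616725) (nat_lit 76) (nat_lit 6996319027) (nat_lit 30) (nat_lit 5) (nat_lit 34) (nat_lit 5) (nat_lit 31) (nat_lit 5) (nat_lit 268) (nat_lit 247) (nat_lit 205))) (XT.nd (nat_lit 78) (nat_lit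 304) (nat_lit 0) (XT.lf (nat_lit 0) (nat_lit 11648142022) (nat_lit 152) (nat_lit 4135385228) (nat_lit 228) (nat_lit 4292936297) (nat_lit 28) (nat_lit 5) (nat_lit 30) (nat_lit 5) (nat_lit 31) (nat_lit 5) (nat_lit 269) (nat_lit 247) (nat_lit 204)) (XT.nd (nat_lit 78) (nat_lit 0) (nat_lit 0) (XT.lf (nat_lit 0) (nat_lit 120463629) (nat_lit 304) (nat_lit 16763462092) (nat_lit 76) (nat_lit 4323391679) (nat_lit 24) (nat_lit 5) (nat_lit 28) (nat_lit 5) (nat_lit 25) (nat_lit 5) (nat_lit 270) (nat_lit 247) (nat_lit 203)) (XT.lf (nat_lit 0) (nat_lit 4911024875) (nat_lit 304) (nat_lit 3987001716) (nat_lit 76) (nat_lit 13518487982) (nat_lit 24) (nat_lit 5) (nat_lit 28) (nat_lit 5) (nat_lit 25) (nat_lit 5) (nat_lit 271) (nat_lit 247) (nat_lit 202)))))) (XT.nd (nat_lit 312) (nat_lit 304) (nat_lit 0) (XT.nd (nat_lit 156) (nat_lit 228) (nat_lit 0) (XT.nd (nat_lit 78) (nat_lit 152) (nat_lit 0) (XT.lf (nat_lit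 0) (nat_lit 10070985695) (nat_lit 152) (nat_lit 128053177) (nat_lit 228) (nat_lit 13517807935) (nat_lit 22) (nat_lit 5) (nat_lit 24) (nat_lit 5) (nat_lit 25) (nat_lit 5) (nat_lit 272) (nat_lit 247) (nat_lit 201)) (XT.lf (nat_lit 0) (nat_lit 71497701) (nat_lit 152) (nat_lit 16015096694) (nat_lit 228) (nat_lit 9025887766) (nat_lit 20) (nat_lit 5) (nat_lit 22) (nat_lit 5) (nat_lit 23) (nat_lit 5) (nat_lit 273) (nat_lit 247) (nat_lit 200))) (XT.nd (nat_lit 78) (nat_lit 228) (nat_lit 0) (XT.lf (nat_lit 0) (nat_lit 15311972345) (nat_lit 152) (nat_lit 7334041500) (nat_lit 228) (nat_lit 3963805559) (nat_lit 20) (nat_lit 5) (nat_lit 22) (nat_lit 5) (nat_lit 23) (nat_lit 5) (nat_lit 274) (nat_lit 247) (nat_lit 199)) (XT.lf (nat_lit 0) (nat_lit 1507131755) (nat_lit 228) (nat_lit 24678160466) (nat_lit 76) (nat_lit 2037960751) (nat_lit 17) (nat_lit 5) (nat_lit 20) (nat_lit 5) (nat_lit 18) (nat_lit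 5) (nat_lit 275) (nat_lit 247) (nat_lit 198)))) (XT.nd (nat_lit 156) (nat_lit 152) (nat_lit 0) (XT.nd (nat_lit 78) (nat_lit 152) (nat_lit 0) (XT.lf (nat_lit 0) (nat_lit 7567252179) (nat_lit 228) (nat_lit 10226056134) (nat_lit 76) (nat_lit 12154761643) (nat_lit 17) (nat_lit 5) (nat_lit 20) (nat_lit 5) (nat_lit 18) (nat_lit 5) (nat_lit 276) (nat_lit 247) (nat_lit 197)) (XT.lf (nat_lit 0) (nat_lit 5507264805) (nat_lit 152) (nat_lit 8658337554) (nat_lit 228) (nat_lit 17642670029) (nat_lit 15) (nat_lit 5) (nat_lit 17) (nat_lit 5) (nat_lit 18) (nat_lit 5) (nat_lit 277) (nat_lit 247) (nat_lit 196))) (XT.nd (nat_lit 78) (nat_lit 152) (nat_lit 0) (XT.lf (nat_lit 0) (nat_lit 21460524698) (nat_lit 228) (nat_lit 11016057566) (nat_lit 76) (nat_lit 1332339371) (nat_lit 15) (nat_lit 5) (nat_lit 18) (nat_lit 5) (nat_lit 16) (nat_lit 4) (nat_lit 278) (nat_lit 247) (nat_lit 195)) (XT.nd (nat_lit 78) (nat_lit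 76) (nat_lit 0) (XT.lf (nat_lit 0) (nat_lit 5474310619) (nat_lit 76) (nat_lit 24067307214) (nat_lit 152) (nat_lit 6417937088) (nat_lit 14) (nat_lit 5) (nat_lit 15) (nat_lit 5) (nat_lit 16) (nat_lit 4) (nat_lit 279) (nat_lit 247) (nat_lit 194)) (XT.lf (nat_lit 0) (nat_lit 154467061) (nat_lit 152) (nat_lit 14643845775) (nat_lit 76) (nat_lit 23475635458) (nat_lit 13) (nat_lit 5) (nat_lit 15) (nat_lit 5) (nat_lit 14) (nat_lit 5) (nat_lit 280) (nat_lit 247) (nat_lit 193))))))) (XT.nd (nat_lit 702) (nat_lit 304) (nat_lit 0) (XT.nd (nat_lit 312) (nat_lit 152) (nat_lit 0) (XT.nd (nat_lit 156) (nat_lit 76) (nat_lit 0) (XT.nd (nat_lit 78) (nat_lit 0) (nat_lit 0) (XT.lf (nat_lit 0) (nat_lit 2390999831) (nat_lit 152) (nat_lit 4651268708) (nat_lit 228) (nat_lit 33725290848) (nat_lit 11) (nat_lit 5) (nat_lit 13) (nat_lit 5) (nat_lit 14) (nat_lit 5) (nat_lit 281) (nat_lit 247) (nat_lit 192)) (XT.lf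 (nat_lit 0) (nat_lit 14814003726) (nat_lit 228) (nat_lit 22280375562) (nat_lit 76) (nat_lit 6349680680) (nat_lit 11) (nat_lit 5) (nat_lit 14) (nat_lit 5) (nat_lit 12) (nat_lit 4) (nat_lit 282) (nat_lit 247) (nat_lit 191))) (XT.nd (nat_lit 78) (nat_lit 76) (nat_lit 0) (XT.lf (nat_lit 0) (nat_lit 23262909522) (nat_lit 228) (nat_lit 5013231758) (nat_lit 76) (nat_lit 18055810394) (nat_lit 11) (nat_lit 5) (nat_lit 14) (nat_lit 5) (nat_lit 12) (nat_lit 4) (nat_lit 283) (nat_lit 247) (nat_lit 190)) (XT.lf (nat_lit 0) (nat_lit 14049486313) (nat_lit 76) (nat_lit 18536299720) (nat_lit 152) (nat_lit 16855225279) (nat_lit 10) (nat_lit 5) (nat_lit 11) (nat_lit 5) (nat_lit 12) (nat_lit 4) (nat_lit 284) (nat_lit 247) (nat_lit 189)))) (XT.nd (nat_lit 156) (nat_lit 76) (nat_lit 0) (XT.nd (nat_lit 78) (nat_lit 76) (nat_lit 0) (XT.lf (nat_lit 0) (nat_lit 34782315599) (nat_lit 76) (nat_lit 7939258331) (nat_lit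 152) (nat_lit 10073904306) (nat_lit 10) (nat_lit 5) (nat_lit 11) (nat_lit 5) (nat_lit 12) (nat_lit 4) (nat_lit 285) (nat_lit 247) (nat_lit 188)) (XT.lf (nat_lit 0) (nat_lit 690655180) (nat_lit 76) (nat_lit 53024140073) (nat_lit 76) (nat_lit 2701212614) (nat_lit 9) (nat_lit 4) (nat_lit 10) (nat_lit 5) (nat_lit 10) (nat_lit 4) (nat_lit 286) (nat_lit 247) (nat_lit 187))) (XT.nd (nat_lit 78) (nat_lit 0) (nat_lit 0) (XT.lf (nat_lit 0) (nat_lit 5527344804) (nat_lit 152) (nat_lit 39029051273) (nat_lit 76) (nat_lit 15743984247) (nat_lit 8) (nat_lit 5) (nat_lit 10) (nat_lit 5) (nat_lit 9) (nat_lit 4) (nat_lit 287) (nat_lit 247) (nat_lit 186)) (XT.nd (nat_lit 78) (nat_lit 0) (nat_lit 0) (XT.lf (nat_lit 0) (nat_lit 14303826453) (nat_lit 152) (nat_lit 21071690435) (nat_lit 76) (nat_lit 29118585391) (nat_lit 8) (nat_lit 5) (nat_lit 10) (nat_lit 5) (nat_lit 9) (nat_lit 4) (nat_lit 288) (nat_lit 247)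 (nat_lit 185)) (XT.lf (nat_lit 0) (nat_lit 23766696784) (nat_lit 152) (nat_lit 1704682683) (nat_lit 76) (nat_lit 43552754622) (nat_lit 8) (nat_lit 5) (nat_lit 10) (nat_lit 5) (nat_lit 9) (nat_lit 4) (nat_lit 289) (nat_lit 247) (nat_lit 184)))))) (XT.nd (nat_lit 390) (nat_lit 152) (nat_lit 0) (XT.nd (nat_lit 156) (nat_lit 76) (nat_lit 0) (XT.nd (nat_lit 78) (nat_lit 0) (nat_lit 0) (XT.lf (nat_lit 0) (nat_lit 19821139690) (nat_lit 76) (nat_lit 14460355915) (nat_lit 152) (nat_lit 39620351607) (nat_lit 7) (nat_lit 5) (nat_lit 8) (nat_lit 5) (nat_lit 9) (nat_lit 4) (nat_lit 290) (nat_lit 247) (nat_lit 183)) (XT.lf (nat_lit 0) (nat_lit 43106039403) (nat_lit 76) (nat_lit 2547275037) (nat_lit 152) (nat_lit 33515693093) (nat_lit 7) (nat_lit 5) (nat_lit 8) (nat_lit 5) (nat_lit 9) (nat_lit 4) (nat_lit 291) (nat_lit 247) (nat_lit 182))) (XT.nd (nat_lit 78) (nat_lit 76) (nat_lit 0) (XT.lf (nat_lit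 0) (nat_lit 58083008548) (nat_lit 152) (nat_lit 16787527648) (nat_lit 0) (nat_lit 9979618323) (nat_lit 7) (nat_lit 5) (nat_lit 9) (nat_lit 4) (nat_lit 7) (nat_lit 4) (nat_lit 292) (nat_lit 247) (nat_lit 181)) (XT.nd (nat_lit 78) (nat_lit 0) (nat_lit 0) (XT.lf (nat_lit 0) (nat_lit 4097195295) (nat_lit 76) (nat_lit 67504788082) (nat_lit 76) (nat_lit 19379083451) (nat_lit 6) (nat_lit 4) (nat_lit 7) (nat_lit 5) (nat_lit 7) (nat_lit 4) (nat_lit 293) (nat_lit 247) (nat_lit 180)) (XT.lf (nat_lit 0) (nat_lit 27232146258) (nat_lit 76) (nat_lit 59251319953) (nat_lit 76) (nat_lit 11104953836) (nat_lit 6) (nat_lit 4) (nat_lit 7) (nat_lit 5) (nat_lit 7) (nat_lit 4) (nat_lit 294) (nat_lit 247) (nat_lit 179))))) (XT.nd (nat_lit 156) (nat_lit 76) (nat_lit 0) (XT.nd (nat_lit 78) (nat_lit 76) (nat_lit 0) (XT.lf (nat_lit 0) (nat_lit 52199349769) (nat_lit 76) (nat_lit 50345527273) (nat_lit 76) (nat_lit 2180030151)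 (nat_lit 6) (nat_lit 4) (nat_lit 7) (nat_lit 5) (nat_lit 7) (nat_lit 4) (nat_lit 295) (nat_lit 247) (nat_lit 178)) (XT.lf (nat_lit 0) (nat_lit 7210175090) (nat_lit 152) (nat_lit 33402352081) (nat_lit 76) (nat_lit 71814476732) (nat_lit 5) (nat_lit 5) (nat_lit 7) (nat_lit 5) (nat_lit 6) (nat_lit 4) (nat_lit 296) (nat_lit 247) (nat_lit 177))) (XT.nd (nat_lit 78) (nat_lit 76) (nat_lit 0) (XT.lf (nat_lit 0) (nat_lit 17266998206) (nat_lit 152) (nat_lit 12802266447) (nat_lit 76) (nat_lit 90674641007) (nat_lit 5) (nat_lit 5) (nat_lit 7) (nat_lit 5) (nat_lit 6) (nat_lit 4) (nat_lit 297) (nat_lit 247) (nat_lit 176)) (XT.nd (nat_lit 78) (nat_lit 0) (nat_lit 0) (XT.lf (nat_lit 0) (nat_lit 9742635623) (nat_lit 76) (nat_lit 18529283988) (nat_lit 152) (nat_lit 101447074526) (nat_lit 4) (nat_lit 5) (nat_lit 5) (nat_lit 5) (nat_lit 6) (nat_lit 4) (nat_lit 298) (nat_lit 247) (nat_lit 175)) (XT.lf (nat_lit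 0) (nat_lit 34533931625) (nat_lit 76) (nat_lit 5838162552) (nat_lit 152) (nat_lit 99029263836) (nat_lit 4) (nat_lit 5) (nat_lit 5) (nat_lit 5) (nat_lit 6) (nat_lit 4) (nat_lit 299) (nat_lit 247) (nat_lit 174))))))))
noncomputable def xc65 : XT := (XT.nd (nat_lit 1404) (nat_lit 76) (nat_lit 0) (XT.nd (nat_lit 702) (nat_lit 76) (nat_lit 0) (XT.nd (nat_lit 312) (nat_lit 76) (nat_lit 0) (XT.nd (nat_lit 156) (nat_lit 0) (nat_lit 0) (XT.nd (nat_lit 78) (nat_lit 0) (nat_lit 0) (XT.lf (nat_lit 0) (nat_lit 53555494039) (nat_lit 152) (nat_lit 88686222038) (nat_lit 0) (nat_lit 7610844819) (nat_lit 4) (nat_lit 5) (nat_lit 6) (nat_lit 4) (nat_lit 4) (nat_lit 4) (nat_lit 300) (nat_lit 247) (nat_lit 173)) (XT.lf (nat_lit 0) (nat_lit 67884939379) (nat_lit 152) (nat_lit 71321553175) (nat_lit 0) (nat_lit 21928808464) (nat_lit 4) (nat_lit 5) (nat_lit 6) (nat_lit 4) (nat_lit 4) (nat_lit 4) (nat_lit 301)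 (nat_lit 247) (nat_lit 172))) (XT.nd (nat_lit 78) (nat_lit 0) (nat_lit 0) (XT.lf (nat_lit 0) (nat_lit 83354195350) (nat_lit 152) (nat_lit 52579367981) (nat_lit 0) (nat_lit 37387433237) (nat_lit 4) (nat_lit 5) (nat_lit 6) (nat_lit 4) (nat_lit 4) (nat_lit 4) (nat_lit 302) (nat_lit 247) (nat_lit 171)) (XT.lf (nat_lit 0) (nat_lit 100054931618) (nat_lit 152) (nat_lit 32348601653) (nat_lit 0) (nat_lit 54078325802) (nat_lit 4) (nat_lit 5) (nat_lit 6) (nat_lit 4) (nat_lit 4) (nat_lit 4) (nat_lit 303) (nat_lit 247) (nat_lit 170)))) (XT.nd (nat_lit 156) (nat_lit 0) (nat_lit 0) (XT.nd (nat_lit 78) (nat_lit 76) (nat_lit 0) (XT.lf (nat_lit 0) (nat_lit 118086115508) (nat_lit 152) (nat_lit 10509368170) (nat_lit 0) (nat_lit 72100395153) (nat_lit 4) (nat_lit 5) (nat_lit 6) (nat_lit 4) (nat_lit 4) (nat_lit 4) (nat_lit 304) (nat_lit 247) (nat_lit 169)) (XT.lf (nat_lit 0) (nat_lit 13499828983) (nat_lit 76)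 (nat_lit 124265539661) (nat_lit 76) (nat_lit 78271379918) (nat_lit 3) (nat_lit 4) (nat_lit 4) (nat_lit 5) (nat_lit 4) (nat_lit 4) (nat_lit 305) (nat_lit 247) (nat_lit 168))) (XT.nd (nat_lit 78) (nat_lit 0) (nat_lit 0) (XT.lf (nat_lit 0) (nat_lit 39796196374) (nat_lit 76) (nat_lit 119400883103) (nat_lit 76) (nat_lit 73398909113) (nat_lit 3) (nat_lit 4) (nat_lit 4) (nat_lit 5) (nat_lit 4) (nat_lit 4) (nat_lit 306) (nat_lit 247) (nat_lit 167)) (XT.nd (nat_lit 78) (nat_lit 0) (nat_lit 0) (XT.lf (nat_lit 0) (nat_lit 68188077154) (nat_lit 76) (nat_lit 114150667647) (nat_lit 76) (nat_lit 68141458241) (nat_lit 3) (nat_lit 4) (nat_lit 4) (nat_lit 5) (nat_lit 4) (nat_lit 4) (nat_lit 307) (nat_lit 247) (nat_lit 166)) (XT.lf (nat_lit 0) (nat_lit 98843719506) (nat_lit 76) (nat_lit 108483780903) (nat_lit 76) (nat_lit 62467872040) (nat_lit 3) (nat_lit 4) (nat_lit 4) (nat_lit 5) (nat_lit 4) (nat_lit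 4) (nat_lit 308) (nat_lit 247) (nat_lit 165)))))) (XT.nd (nat_lit 312) (nat_lit 76) (nat_lit 0) (XT.nd (nat_lit 156) (nat_lit 0) (nat_lit 0) (XT.nd (nat_lit 78) (nat_lit 0) (nat_lit 0) (XT.lf (nat_lit 0) (nat_lit 131944786495) (nat_lit 76) (nat_lit 102366641322) (nat_lit 76) (nat_lit 56344529256) (nat_lit 3) (nat_lit 4) (nat_lit 4) (nat_lit 5) (nat_lit 4) (nat_lit 4) (nat_lit 309) (nat_lit 247) (nat_lit 164)) (XT.lf (nat_lit 0) (nat_lit 167687432592) (nat_lit 76) (nat_lit 95762999186) (nat_lit 76) (nat_lit 49735143415) (nat_lit 3) (nat_lit 4) (nat_lit 4) (nat_lit 5) (nat_lit 4) (nat_lit 4) (nat_lit 310) (nat_lit 247) (nat_lit 163))) (XT.nd (nat_lit 78) (nat_lit 0) (nat_lit 0) (XT.lf (nat_lit 0) (nat_lit 206283466070) (nat_lit 76) (nat_lit 88633721803) (nat_lit 76) (nat_lit 42600547786) (nat_lit 3) (nat_lit 4) (nat_lit 4) (nat_lit 5) (nat_lit 4) (nat_lit 4) (nat_lit 311) (nat_lit 247)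 (nat_lit 162)) (XT.lf (nat_lit 0) (nat_lit 247961604166) (nat_lit 76) (nat_lit 80936561601) (nat_lit 76) (nat_lit 34898463282) (nat_lit 3) (nat_lit 4) (nat_lit 4) (nat_lit 5) (nat_lit 4) (nat_lit 4) (nat_lit 312) (nat_lit 247) (nat_lit 161)))) (XT.nd (nat_lit 156) (nat_lit 76) (nat_lit 0) (XT.nd (nat_lit 78) (nat_lit 0) (nat_lit 0) (XT.lf (nat_lit 0) (nat_lit 292968828437) (nat_lit 76) (nat_lit 72625905781) (nat_lit 76) (nat_lit 26583247923) (nat_lit 3) (nat_lit 4) (nat_lit 4) (nat_lit 5) (nat_lit 4) (nat_lit 4) (nat_lit 313) (nat_lit 247) (nat_lit 160)) (XT.lf (nat_lit 0) (nat_lit 341571848362) (nat_lit 76) (nat_lit 63652506010) (nat_lit 76) (nat_lit 17605626358) (nat_lit 3) (nat_lit 4) (nat_lit 4) (nat_lit 5) (nat_lit 4) (nat_lit 4) (nat_lit 314) (nat_lit 247) (nat_lit 159))) (XT.nd (nat_lit 78) (nat_lit 76) (nat_lit 0) (XT.lf (nat_lit 0) (nat_lit 394058681836) (nat_lit 76) (nat_lit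 53963186588) (nat_lit 76) (nat_lit 7912397865) (nat_lit 3) (nat_lit 4) (nat_lit 4) (nat_lit 5) (nat_lit 4) (nat_lit 4) (nat_lit 315) (nat_lit 247) (nat_lit 158)) (XT.nd (nat_lit 78) (nat_lit 0) (nat_lit 0) (XT.lf (nat_lit 0) (nat_lit 2472138832) (nat_lit 152) (nat_lit 40986523624) (nat_lit 76) (nat_lit 448226356246) (nat_lit 2) (nat_lit 5) (nat_lit 4) (nat_lit 5) (nat_lit 3) (nat_lit 4) (nat_lit 316) (nat_lit 247) (nat_lit 157)) (XT.lf (nat_lit 0) (nat_lit 13411772570) (nat_lit 152) (nat_lit 18563625858) (nat_lit 76) (nat_lit 498313872700) (nat_lit 2) (nat_lit 5) (nat_lit 4) (nat_lit 5) (nat_lit 3) (nat_lit 4) (nat_lit 317) (nat_lit 247) (nat_lit 156))))))) (XT.nd (nat_lit 32370) (nat_lit 0) (nat_lit 3572) (XT.nd (nat_lit 312) (nat_lit 0) (nat_lit 0) (XT.nd (nat_lit 156) (nat_lit 0) (nat_lit 0) (XT.nd (nat_lit 78) (nat_lit 0) (nat_lit 0) (XT.lf (nat_lit 0) (nat_lit 5836318624) (nat_lit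 76) (nat_lit 19479379618) (nat_lit 152) (nat_lit 546661711939) (nat_lit 1) (nat_lit 5) (nat_lit 2) (nat_lit 5) (nat_lit 3) (nat_lit 4) (nat_lit 318) (nat_lit 247) (nat_lit 155)) (XT.lf (nat_lit 0) (nat_lit 32847731754) (nat_lit 76) (nat_lit 5645667177) (nat_lit 152) (nat_lit 578491130686) (nat_lit 1) (nat_lit 5) (nat_lit 2) (nat_lit 5) (nat_lit 3) (nat_lit 4) (nat_lit 319) (nat_lit 247) (nat_lit 154))) (XT.nd (nat_lit 78) (nat_lit 0) (nat_lit 0) (XT.lf (nat_lit 0) (nat_lit 52868646359) (nat_lit 152) (nat_lit 603720520068) (nat_lit 0) (nat_lit 8995887785) (nat_lit 1) (nat_lit 5) (nat_lit 3) (nat_lit 4) (nat_lit 1) (nat_lit 4) (nat_lit 320) (nat_lit 247) (nat_lit 153)) (XT.lf (nat_lit 0) (nat_lit 68487455869) (nat_lit 152) (nat_lit 624969138548) (nat_lit 0) (nat_lit 24612351221) (nat_lit 1) (nat_lit 5) (nat_lit 3) (nat_lit 4) (nat_lit 1) (nat_lit 4) (nat_lit 321) (nat_lit 247) (nat_lit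 152)))) (XT.nd (nat_lit 31824) (nat_lit 0) (nat_lit 5700) (XT.nd (nat_lit 31746) (nat_lit 0) (nat_lit 6232) (XT.lf (nat_lit 0) (nat_lit 85354238683) (nat_lit 152) (nat_lit 647920426357) (nat_lit 0) (nat_lit 41476961745) (nat_lit 1) (nat_lit 5) (nat_lit 3) (nat_lit 4) (nat_lit 1) (nat_lit 4) (nat_lit 322) (nat_lit 247) (nat_lit 151)) (XT.lf (nat_lit 0) (nat_lit 1091219464) (nat_lit 0) (nat_lit 1091219464) (nat_lit 532) (nat_lit 1992681644) (nat_lit 83) (nat_lit 5) (nat_lit 83) (nat_lit 3) (nat_lit 90) (nat_lit 3) (nat_lit 248) (nat_lit 248) (nat_lit 224))) (XT.nd (nat_lit 78) (nat_lit 532) (nat_lit 0) (XT.lf (nat_lit 0) (nat_lit 6083576869) (nat_lit 532) (nat_lit 574332338) (nat_lit 608) (nat_lit 1942093111) (nat_lit 83) (nat_lit 5) (nat_lit 90) (nat_lit 3) (nat_lit 91) (nat_lit 5) (nat_lit 249) (nat_lit 248) (nat_lit 223)) (XT.nd (nat_lit 78) (nat_lit 532) (nat_lit 0) (XT.lf (nat_lit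 76) (nat_lit 5521405602) (nat_lit 0) (nat_lit 2391201479) (nat_lit 608) (nat_lit 959200206) (nat_lit 84) (nat_lit 5) (nat_lit 83) (nat_lit 5) (nat_lit 91) (nat_lit 5) (nat_lit 250) (nat_lit 248) (nat_lit 222)) (XT.lf (nat_lit 0) (nat_lit 649160924) (nat_lit 608) (nat_lit 6249500661) (nat_lit 684) (nat_lit 2269268091) (nat_lit 76) (nat_lit 5) (nat_lit 84) (nat_lit 5) (nat_lit 85) (nat_lit 5) (nat_lit 251) (nat_lit 248) (nat_lit 221)))))) (XT.nd (nat_lit 390) (nat_lit 1672) (nat_lit 0) (XT.nd (nat_lit 156) (nat_lit 456) (nat_lit 0) (XT.nd (nat_lit 78) (nat_lit 0) (nat_lit 76) (XT.lf (nat_lit 76) (nat_lit 180838803) (nat_lit 0) (nat_lit 2141518817) (nat_lit 684) (nat_lit 7166684756) (nat_lit 77) (nat_lit 5) (nat_lit 76) (nat_lit 5) (nat_lit 85) (nat_lit 5) (nat_lit 252) (nat_lit 248) (nat_lit 220)) (XT.lf (nat_lit 0) (nat_lit 4162784613) (nat_lit 608) (nat_lit 2624666167) (nat_lit 684) (nat_lit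 3047257335) (nat_lit 77) (nat_lit 5) (nat_lit 85) (nat_lit 5) (nat_lit 86) (nat_lit 5) (nat_lit 253) (nat_lit 248) (nat_lit 219))) (XT.nd (nat_lit 78) (nat_lit 532) (nat_lit 0) (XT.lf (nat_lit 76) (nat_lit 4617765124) (nat_lit 0) (nat_lit 1526024458) (nat_lit 684) (nat_lit 4065063627) (nat_lit 78) (nat_lit 5) (nat_lit 77) (nat_lit 5) (nat_lit 86) (nat_lit 5) (nat_lit 254) (nat_lit 248) (nat_lit 218)) (XT.nd (nat_lit 78) (nat_lit 0) (nat_lit 0) (XT.lf (nat_lit 0) (nat_lit 1825572319) (nat_lit 608) (nat_lit 6490280218) (nat_lit 684) (nat_lit 2295905240) (nat_lit 70) (nat_lit 5) (nat_lit 78) (nat_lit 5) (nat_lit 79) (nat_lit 5) (nat_lit 255) (nat_lit 248) (nat_lit 217)) (XT.lf (nat_lit 0) (nat_lit 9922656482) (nat_lit 608) (nat_lit 761052455) (nat_lit 684) (nat_lit 362507268) (nat_lit 70) (nat_lit 5) (nat_lit 78) (nat_lit 5) (nat_lit 79) (nat_lit 5) (nat_lit 256) (nat_lit 248) (nat_lit 216)))))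 (XT.nd (nat_lit 156) (nat_lit 608) (nat_lit 0) (XT.nd (nat_lit 78) (nat_lit 304) (nat_lit 0) (XT.lf (nat_lit 0) (nat_lit 1775997803) (nat_lit 760) (nat_lit 4325905091) (nat_lit 76) (nat_lit 5407271106) (nat_lit 60) (nat_lit 5) (nat_lit 70) (nat_lit 5) (nat_lit 61) (nat_lit 5) (nat_lit 257) (nat_lit 248) (nat_lit 215)) (XT.lf (nat_lit 0) (nat_lit 4084570912) (nat_lit 380) (nat_lit 7793028643) (nat_lit 76) (nat_lit 131032637) (nat_lit 56) (nat_lit 5) (nat_lit 61) (nat_lit 5) (nat_lit 57) (nat_lit 5) (nat_lit 258) (nat_lit 248) (nat_lit 214))) (XT.nd (nat_lit 78) (nat_lit 304) (nat_lit 0) (XT.lf (nat_lit 0) (nat_lit 889608157) (nat_lit 304) (nat_lit 5797808365) (nat_lit 380) (nat_lit 5855470920) (nat_lit 52) (nat_lit 5) (nat_lit 56) (nat_lit 5) (nat_lit 57) (nat_lit 5) (nat_lit 259) (nat_lit 248) (nat_lit 213)) (XT.nd (nat_lit 78) (nat_lit 304) (nat_lit 0) (XT.lf (nat_lit 0) (nat_lit 9569566642)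 (nat_lit 380) (nat_lit 2668030108) (nat_lit 76) (nat_lit 879028570) (nat_lit 52) (nat_lit 5) (nat_lit 57) (nat_lit 5) (nat_lit 53) (nat_lit 5) (nat_lit 260) (nat_lit 248) (nat_lit 212)) (XT.lf (nat_lit 0) (nat_lit 7085564145) (nat_lit 304) (nat_lit 5732061390) (nat_lit 380) (nat_lit 912143977) (nat_lit 48) (nat_lit 5) (nat_lit 52) (nat_lit 5) (nat_lit 53) (nat_lit 5) (nat_lit 261) (nat_lit 248) (nat_lit 211))))))))
noncomputable def xc66 : XT := (XT.nd (nat_lit 1404) (nat_lit 760) (nat_lit 0) (XT.nd (nat_lit 702) (nat_lit 988) (nat_lit 0) (XT.nd (nat_lit 312) (nat_lit 684) (nat_lit 0) (XT.nd (nat_lit 156) (nat_lit 456) (nat_lit 0) (XT.nd (nat_lit 78) (nat_lit 0) (nat_lit 0) (XT.lf (nat_lit 0) (nat_lit 1922767849) (nat_lit 380) (nat_lit 11089597626) (nat_lit 76) (nat_lit 1375777574) (nat_lit 43) (nat_lit 5) (nat_lit 48) (nat_lit 5) (nat_lit 44) (nat_lit 5) (nat_lit 262) (nat_lit 248) (nat_lit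 210)) (XT.lf (nat_lit 0) (nat_lit 5100915880) (nat_lit 380) (nat_lit 1011931066) (nat_lit 76) (nat_lit 8978395671) (nat_lit 43) (nat_lit 5) (nat_lit 48) (nat_lit 5) (nat_lit 44) (nat_lit 5) (nat_lit 263) (nat_lit 248) (nat_lit 209))) (XT.nd (nat_lit 78) (nat_lit 228) (nat_lit 0) (XT.lf (nat_lit 0) (nat_lit 8653277923) (nat_lit 304) (nat_lit 5746082908) (nat_lit 76) (nat_lit 1445438455) (nat_lit 40) (nat_lit 5) (nat_lit 44) (nat_lit 5) (nat_lit 41) (nat_lit 5) (nat_lit 264) (nat_lit 248) (nat_lit 208)) (XT.lf (nat_lit 0) (nat_lit 5475991737) (nat_lit 228) (nat_lit 7162199664) (nat_lit 304) (nat_lit 4013222859) (nat_lit 37) (nat_lit 5) (nat_lit 40) (nat_lit 5) (nat_lit 41) (nat_lit 5) (nat_lit 265) (nat_lit 248) (nat_lit 207)))) (XT.nd (nat_lit 156) (nat_lit 380) (nat_lit 0) (XT.nd (nat_lit 78) (nat_lit 76) (nat_lit 0) (XT.lf (nat_lit 0) (nat_lit 206167557) (nat_lit 228) (nat_lit 16795766877)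 (nat_lit 304) (nat_lit 517799851) (nat_lit 34) (nat_lit 5) (nat_lit 37) (nat_lit 5) (nat_lit 38) (nat_lit 5) (nat_lit 266) (nat_lit 248) (nat_lit 206)) (XT.lf (nat_lit 0) (nat_lit 3418499830) (nat_lit 304) (nat_lit 5796076970) (nat_lit 76) (nat_lit 9227282280) (nat_lit 33) (nat_lit 5) (nat_lit 37) (nat_lit 5) (nat_lit 34) (nat_lit 5) (nat_lit 267) (nat_lit 248) (nat_lit 205))) (XT.nd (nat_lit 78) (nat_lit 152) (nat_lit 0) (XT.lf (nat_lit 0) (nat_lit 6785679772) (nat_lit 228) (nat_lit 922871955) (nat_lit 304) (nat_lit 11726073311) (nat_lit 30) (nat_lit 5) (nat_lit 33) (nat_lit 5) (nat_lit 34) (nat_lit 5) (nat_lit 268) (nat_lit 248) (nat_lit 204)) (XT.nd (nat_lit 78) (nat_lit 152) (nat_lit 0) (XT.lf (nat_lit 0) (nat_lit 12523046680) (nat_lit 304) (nat_lit 112813770) (nat_lit 76) (nat_lit 7862024210) (nat_lit 30) (nat_lit 5) (nat_lit 34) (nat_lit 5) (nat_lit 31) (nat_lit 5) (nat_lit 269)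 (nat_lit 248) (nat_lit 203)) (XT.lf (nat_lit 0) (nat_lit 13791942867) (nat_lit 152) (nat_lit 4118331254) (nat_lit 228) (nat_lit 3726676665) (nat_lit 28) (nat_lit 5) (nat_lit 30) (nat_lit 5) (nat_lit 31) (nat_lit 5) (nat_lit 270) (nat_lit 248) (nat_lit 202)))))) (XT.nd (nat_lit 312) (nat_lit 380) (nat_lit 0) (XT.nd (nat_lit 156) (nat_lit 304) (nat_lit 0) (XT.nd (nat_lit 78) (nat_lit 0) (nat_lit 0) (XT.lf (nat_lit 0) (nat_lit 969569368) (nat_lit 304) (nat_lit 16876911515) (nat_lit 76) (nat_lit 5013308607) (nat_lit 24) (nat_lit 5) (nat_lit 28) (nat_lit 5) (nat_lit 25) (nat_lit 5) (nat_lit 271) (nat_lit 248) (nat_lit 201)) (XT.lf (nat_lit 0) (nat_lit 6081192651) (nat_lit 304) (nat_lit 3169269682) (nat_lit 76) (nat_lit 14918527755) (nat_lit 24) (nat_lit 5) (nat_lit 28) (nat_lit 5) (nat_lit 25) (nat_lit 5) (nat_lit 272) (nat_lit 248) (nat_lit 200))) (XT.nd (nat_lit 78) (nat_lit 152) (nat_lit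 0) (XT.lf (nat_lit 0) (nat_lit 11754961500) (nat_lit 228) (nat_lit 13614883024) (nat_lit 76) (nat_lit 205515461) (nat_lit 22) (nat_lit 5) (nat_lit 25) (nat_lit 5) (nat_lit 23) (nat_lit 5) (nat_lit 273) (nat_lit 248) (nat_lit 199)) (XT.lf (nat_lit 0) (nat_lit 1149010252) (nat_lit 152) (nat_lit 16928429389) (nat_lit 228) (nat_lit 9007146511) (nat_lit 20) (nat_lit 5) (nat_lit 22) (nat_lit 5) (nat_lit 23) (nat_lit 5) (nat_lit 274) (nat_lit 248) (nat_lit 198)))) (XT.nd (nat_lit 156) (nat_lit 152) (nat_lit 0) (XT.nd (nat_lit 78) (nat_lit 228) (nat_lit 0) (XT.lf (nat_lit 0) (nat_lit 17529330813) (nat_lit 152) (nat_lit 7580139782) (nat_lit 228) (nat_lit 3594972711) (nat_lit 20) (nat_lit 5) (nat_lit 22) (nat_lit 5) (nat_lit 23) (nat_lit 5) (nat_lit 275) (nat_lit 248) (nat_lit 197)) (XT.lf (nat_lit 0) (nat_lit 2263007867) (nat_lit 228) (nat_lit 25653158035) (nat_lit 76) (nat_lit 2531795021) (nat_lit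 17) (nat_lit 5) (nat_lit 20) (nat_lit 5) (nat_lit 18) (nat_lit 5) (nat_lit 276) (nat_lit 248) (nat_lit 196))) (XT.nd (nat_lit 78) (nat_lit 152) (nat_lit 0) (XT.lf (nat_lit 0) (nat_lit 8760878253) (nat_lit 228) (nat_lit 10118904266) (nat_lit 76) (nat_lit 13433436473) (nat_lit 17) (nat_lit 5) (nat_lit 20) (nat_lit 5) (nat_lit 18) (nat_lit 5) (nat_lit 277) (nat_lit 248) (nat_lit 195)) (XT.nd (nat_lit 78) (nat_lit 0) (nat_lit 0) (XT.lf (nat_lit 0) (nat_lit 6832872705) (nat_lit 152) (nat_lit 9024467720) (nat_lit 228) (nat_lit 18466480125) (nat_lit 15) (nat_lit 5) (nat_lit 17) (nat_lit 5) (nat_lit 18) (nat_lit 5) (nat_lit 278) (nat_lit 248) (nat_lit 194)) (XT.lf (nat_lit 0) (nat_lit 23699207444) (nat_lit 228) (nat_lit 11055636440) (nat_lit 76) (nat_lit 1731598392) (nat_lit 15) (nat_lit 5) (nat_lit 18) (nat_lit 5) (nat_lit 16) (nat_lit 4) (nat_lit 279) (nat_lit 248) (nat_lit 193))))))) (XT.nd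 (nat_lit 702) (nat_lit 228) (nat_lit 0) (XT.nd (nat_lit 312) (nat_lit 228) (nat_lit 0) (XT.nd (nat_lit 156) (nat_lit 152) (nat_lit 0) (XT.nd (nat_lit 78) (nat_lit 76) (nat_lit 0) (XT.lf (nat_lit 0) (nat_lit 6717381695) (nat_lit 76) (nat_lit 25683321741) (nat_lit 152) (nat_lit 6409808579) (nat_lit 14) (nat_lit 5) (nat_lit 15) (nat_lit 5) (nat_lit 16) (nat_lit 4) (nat_lit 280) (nat_lit 248) (nat_lit 192)) (XT.lf (nat_lit 0) (nat_lit 634296822) (nat_lit 152) (nat_lit 15053510419) (nat_lit 76) (nat_lit 25623784273) (nat_lit 13) (nat_lit 5) (nat_lit 15) (nat_lit 5) (nat_lit 14) (nat_lit 5) (nat_lit 281) (nat_lit 248) (nat_lit 191))) (XT.nd (nat_lit 78) (nat_lit 0) (nat_lit 0) (XT.lf (nat_lit 0) (nat_lit 3311014066) (nat_lit 152) (nat_lit 4738858351) (nat_lit 228) (nat_lit 35956048172) (nat_lit 11) (nat_lit 5) (nat_lit 13) (nat_lit 5) (nat_lit 14) (nat_lit 5) (nat_lit 282) (nat_lit 248) (nat_lit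 190)) (XT.lf (nat_lit 0) (nat_lit 16414554045) (nat_lit 228) (nat_lit 23370828042) (nat_lit 76) (nat_lit 7112660410) (nat_lit 11) (nat_lit 5) (nat_lit 14) (nat_lit 5) (nat_lit 12) (nat_lit 4) (nat_lit 283) (nat_lit 248) (nat_lit 189)))) (XT.nd (nat_lit 156) (nat_lit 152) (nat_lit 0) (XT.nd (nat_lit 78) (nat_lit 76) (nat_lit 0) (XT.lf (nat_lit 0) (nat_lit 25508599710) (nat_lit 228) (nat_lit 4773570331) (nat_lit 76) (nat_lit 19736391222) (nat_lit 11) (nat_lit 5) (nat_lit 14) (nat_lit 5) (nat_lit 12) (nat_lit 4) (nat_lit 284) (nat_lit 248) (nat_lit 188)) (XT.lf (nat_lit 0) (nat_lit 15786320276) (nat_lit 76) (nat_lit 19772061620) (nat_lit 152) (nat_lit 17818962862) (nat_lit 10) (nat_lit 5) (nat_lit 11) (nat_lit 5) (nat_lit 12) (nat_lit 4) (nat_lit 285) (nat_lit 248) (nat_lit 187))) (XT.nd (nat_lit 78) (nat_lit 152) (nat_lit 0) (XT.lf (nat_lit 0) (nat_lit 38132377753) (nat_lit 76) (nat_lit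 8345563741) (nat_lit 152) (nat_lit 10523631059) (nat_lit 10) (nat_lit 5) (nat_lit 11) (nat_lit 5) (nat_lit 12) (nat_lit 4) (nat_lit 286) (nat_lit 248) (nat_lit 186)) (XT.nd (nat_lit 78) (nat_lit 76) (nat_lit 0) (XT.lf (nat_lit 0) (nat_lit 1302086658) (nat_lit 76) (nat_lit 57035440923) (nat_lit 76) (nat_lit 2574916943) (nat_lit 9) (nat_lit 4) (nat_lit 10) (nat_lit 5) (nat_lit 10) (nat_lit 4) (nat_lit 287) (nat_lit 248) (nat_lit 185)) (XT.lf (nat_lit 0) (nat_lit 6276415700) (nat_lit 152) (nat_lit 41625748221) (nat_lit 76) (nat_lit 17206403073) (nat_lit 8) (nat_lit 5) (nat_lit 10) (nat_lit 5) (nat_lit 9) (nat_lit 4) (nat_lit 288) (nat_lit 248) (nat_lit 184)))))) (XT.nd (nat_lit 390) (nat_lit 152) (nat_lit 0) (XT.nd (nat_lit 156) (nat_lit 76) (nat_lit 0) (XT.nd (nat_lit 78) (nat_lit 0) (nat_lit 0) (XT.lf (nat_lit 0) (nat_lit 15732283783) (nat_lit 152) (nat_lit 22270733860) (nat_lit 76) (nat_lit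 31635942672) (nat_lit 8) (nat_lit 5) (nat_lit 10) (nat_lit 5) (nat_lit 9) (nat_lit 4) (nat_lit 289) (nat_lit 248) (nat_lit 183)) (XT.lf (nat_lit 0) (nat_lit 25931135503) (nat_lit 152) (nat_lit 1390416733) (nat_lit 76) (nat_lit 47210929112) (nat_lit 8) (nat_lit 5) (nat_lit 10) (nat_lit 5) (nat_lit 9) (nat_lit 4) (nat_lit 290) (nat_lit 248) (nat_lit 182))) (XT.nd (nat_lit 78) (nat_lit 0) (nat_lit 0) (XT.lf (nat_lit 0) (nat_lit 21837887140) (nat_lit 76) (nat_lit 15436471977) (nat_lit 152) (nat_lit 42526722087) (nat_lit 7) (nat_lit 5) (nat_lit 8) (nat_lit 5) (nat_lit 9) (nat_lit 4) (nat_lit 291) (nat_lit 248) (nat_lit 181)) (XT.nd (nat_lit 78) (nat_lit 0) (nat_lit 0) (XT.lf (nat_lit 0) (nat_lit 46953648735) (nat_lit 76) (nat_lit 2583730733) (nat_lit 152) (nat_lit 35953191459) (nat_lit 7) (nat_lit 5) (nat_lit 8) (nat_lit 5) (nat_lit 9) (nat_lit 4) (nat_lit 292) (nat_lit 248) (nat_lit 180))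 (XT.lf (nat_lit 0) (nat_lit 62946697663) (nat_lit 152) (nat_lit 17752316012) (nat_lit 0) (nat_lit 10927960771) (nat_lit 7) (nat_lit 5) (nat_lit 9) (nat_lit 4) (nat_lit 7) (nat_lit 4) (nat_lit 293) (nat_lit 248) (nat_lit 179))))) (XT.nd (nat_lit 156) (nat_lit 76) (nat_lit 0) (XT.nd (nat_lit 78) (nat_lit 0) (nat_lit 0) (XT.lf (nat_lit 0) (nat_lit 4786748054) (nat_lit 76) (nat_lit 72750013118) (nat_lit 76) (nat_lit 20712145219) (nat_lit 6) (nat_lit 4) (nat_lit 7) (nat_lit 5) (nat_lit 7) (nat_lit 4) (nat_lit 294) (nat_lit 248) (nat_lit 178)) (XT.lf (nat_lit 0) (nat_lit 29745696788) (nat_lit 76) (nat_lit 63847760724) (nat_lit 76) (nat_lit 11792178932) (nat_lit 6) (nat_lit 4) (nat_lit 7) (nat_lit 5) (nat_lit 7) (nat_lit 4) (nat_lit 295) (nat_lit 248) (nat_lit 177))) (XT.nd (nat_lit 78) (nat_lit 76) (nat_lit 0) (XT.lf (nat_lit 0) (nat_lit 56685463333) (nat_lit 76) (nat_lit 54240146469) (nat_lit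 76) (nat_lit 2168162923) (nat_lit 6) (nat_lit 4) (nat_lit 7) (nat_lit 5) (nat_lit 7) (nat_lit 4) (nat_lit 296) (nat_lit 248) (nat_lit 176)) (XT.nd (nat_lit 78) (nat_lit 0) (nat_lit 0) (XT.lf (nat_lit 0) (nat_lit 7953940809) (nat_lit 152) (nat_lit 35781591696) (nat_lit 76) (nat_lit 77677046105) (nat_lit 5) (nat_lit 5) (nat_lit 7) (nat_lit 5) (nat_lit 6) (nat_lit 4) (nat_lit 297) (nat_lit 248) (nat_lit 175)) (XT.lf (nat_lit 0) (nat_lit 18802942981) (nat_lit 152) (nat_lit 13555199104) (nat_lit 76) (nat_lit 98037326394) (nat_lit 5) (nat_lit 5) (nat_lit 7) (nat_lit 5) (nat_lit 6) (nat_lit 4) (nat_lit 298) (nat_lit 248) (nat_lit 174))))))))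
noncomputable def xc67 : XT := (XT.nd (nat_lit 1404) (nat_lit 152) (nat_lit 0) (XT.nd (nat_lit 702) (nat_lit 0) (nat_lit 0) (XT.nd (nat_lit 312) (nat_lit 76) (nat_lit 0) (XT.nd (nat_lit 156) (nat_lit 0) (nat_lit 0) (XT.nd (nat_lit 78) (nat_lit 0) (nat_lit 0) (XT.lf (nat_lit 0) (nat_lit 10781506995) (nat_lit 76) (nat_lit 19899351274) (nat_lit 152) (nat_lit 109408092081) (nat_lit 4) (nat_lit 5) (nat_lit 5) (nat_lit 5) (nat_lit 6) (nat_lit 4) (nat_lit 299) (nat_lit 248) (nat_lit 173)) (XT.lf (nat_lit 0) (nat_lit 37536887380) (nat_lit 76) (nat_lit 6201256822) (nat_lit 152) (nat_lit 106808319381) (nat_lit 4) (nat_lit 5) (nat_lit 5) (nat_lit 5) (nat_lit 6) (nat_lit 4) (nat_lit 300) (nat_lit 248) (nat_lit 172))) (XT.nd (nat_lit 78) (nat_lit 0) (nat_lit 0) (XT.lf (nat_lit 0) (nat_lit 57967623912) (nat_lit 152) (nat_lit 95553692756) (nat_lit 0) (nat_lit 8312889631) (nat_lit 4) (nat_lit 5) (nat_lit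 6) (nat_lit 4) (nat_lit 4) (nat_lit 4) (nat_lit 301) (nat_lit 248) (nat_lit 171)) (XT.lf (nat_lit 0) (nat_lit 73433966334) (nat_lit 152) (nat_lit 76816696832) (nat_lit 0) (nat_lit 23769388352) (nat_lit 4) (nat_lit 5) (nat_lit 6) (nat_lit 4) (nat_lit 4) (nat_lit 4) (nat_lit 302) (nat_lit 248) (nat_lit 170)))) (XT.nd (nat_lit 156) (nat_lit 76) (nat_lit 0) (XT.nd (nat_lit 78) (nat_lit 0) (nat_lit 0) (XT.lf (nat_lit 0) (nat_lit 90132004872) (nat_lit 152) (nat_lit 56590735384) (nat_lit 0) (nat_lit 40458312350) (nat_lit 4) (nat_lit 5) (nat_lit 6) (nat_lit 4) (nat_lit 4) (nat_lit 4) (nat_lit 303) (nat_lit 248) (nat_lit 169)) (XT.lf (nat_lit 0) (nat_lit 108160690863) (nat_lit 152) (nat_lit 34755950864) (nat_lit 0) (nat_lit 58478558954) (nat_lit 4) (nat_lit 5) (nat_lit 6) (nat_lit 4) (nat_lit 4) (nat_lit 4) (nat_lit 304) (nat_lit 248) (nat_lit 168))) (XT.nd (nat_lit 78) (nat_lit 76) (nat_lit 0)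 (XT.lf (nat_lit 0) (nat_lit 127626860967) (nat_lit 152) (nat_lit 11182951956) (nat_lit 0) (nat_lit 77936914809) (nat_lit 4) (nat_lit 5) (nat_lit 6) (nat_lit 4) (nat_lit 4) (nat_lit 4) (nat_lit 305) (nat_lit 248) (nat_lit 167)) (XT.nd (nat_lit 78) (nat_lit 0) (nat_lit 0) (XT.lf (nat_lit 0) (nat_lit 14739716153) (nat_lit 76) (nat_lit 134136282389) (nat_lit 76) (nat_lit 84439100816) (nat_lit 3) (nat_lit 4) (nat_lit 4) (nat_lit 5) (nat_lit 4) (nat_lit 4) (nat_lit 306) (nat_lit 248) (nat_lit 166)) (XT.lf (nat_lit 0) (nat_lit 43127948428) (nat_lit 76) (nat_lit 128887675562) (nat_lit 76) (nat_lit 79183794531) (nat_lit 3) (nat_lit 4) (nat_lit 4) (nat_lit 5) (nat_lit 4) (nat_lit 4) (nat_lit 307) (nat_lit 248) (nat_lit 165)))))) (XT.nd (nat_lit 312) (nat_lit 0) (nat_lit 0) (XT.nd (nat_lit 156) (nat_lit 0) (nat_lit 0) (XT.nd (nat_lit 78) (nat_lit 0) (nat_lit 0) (XT.lf (nat_lit 0) (nat_lit 73780212534)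 (nat_lit 76) (nat_lit 123222278290) (nat_lit 76) (nat_lit 73512194057) (nat_lit 3) (nat_lit 4) (nat_lit 4) (nat_lit 5) (nat_lit 4) (nat_lit 4) (nat_lit 308) (nat_lit 248) (nat_lit 164)) (XT.lf (nat_lit 0) (nat_lit 106878151518) (nat_lit 76) (nat_lit 117106517849) (nat_lit 76) (nat_lit 67390689911) (nat_lit 3) (nat_lit 4) (nat_lit 4) (nat_lit 5) (nat_lit 4) (nat_lit 4) (nat_lit 309) (nat_lit 248) (nat_lit 163))) (XT.nd (nat_lit 78) (nat_lit 0) (nat_lit 0) (XT.lf (nat_lit 0) (nat_lit 142617901314) (nat_lit 76) (nat_lit 110504152696) (nat_lit 76) (nat_lit 60783006511) (nat_lit 3) (nat_lit 4) (nat_lit 4) (nat_lit 5) (nat_lit 4) (nat_lit 4) (nat_lit 310) (nat_lit 248) (nat_lit 162)) (XT.lf (nat_lit 0) (nat_lit 181211253032) (nat_lit 76) (nat_lit 103376057703) (nat_lit 76) (nat_lit 53649987217) (nat_lit 3) (nat_lit 4) (nat_lit 4) (nat_lit 5) (nat_lit 4) (nat_lit 4) (nat_lit 311) (nat_lit 248)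 (nat_lit 161)))) (XT.nd (nat_lit 156) (nat_lit 0) (nat_lit 0) (XT.nd (nat_lit 78) (nat_lit 0) (nat_lit 0) (XT.lf (nat_lit 0) (nat_lit 222886908016) (nat_lit 76) (nat_lit 95679992308) (nat_lit 76) (nat_lit 45949362283) (nat_lit 3) (nat_lit 4) (nat_lit 4) (nat_lit 5) (nat_lit 4) (nat_lit 4) (nat_lit 312) (nat_lit 248) (nat_lit 160)) (XT.lf (nat_lit 0) (nat_lit 267891833110) (nat_lit 76) (nat_lit 87370350197) (nat_lit 76) (nat_lit 37635498377) (nat_lit 3) (nat_lit 4) (nat_lit 4) (nat_lit 5) (nat_lit 4) (nat_lit 4) (nat_lit 313) (nat_lit 248) (nat_lit 159))) (XT.nd (nat_lit 78) (nat_lit 0) (nat_lit 0) (XT.lf (nat_lit 0) (nat_lit 316492724167) (nat_lit 76) (nat_lit 78397889046) (nat_lit 76) (nat_lit 28659128157) (nat_lit 3) (nat_lit 4) (nat_lit 4) (nat_lit 5) (nat_lit 4) (nat_lit 4) (nat_lit 314) (nat_lit 248) (nat_lit 158)) (XT.nd (nat_lit 78) (nat_lit 0) (nat_lit 0) (XT.lf (nat_lit 0) (nat_lit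 368977586467) (nat_lit 76) (nat_lit 68709438716) (nat_lit 76) (nat_lit 18967058318) (nat_lit 3) (nat_lit 4) (nat_lit 4) (nat_lit 5) (nat_lit 4) (nat_lit 4) (nat_lit 315) (nat_lit 248) (nat_lit 157)) (XT.lf (nat_lit 0) (nat_lit 425657441416) (nat_lit 76) (nat_lit 58247586168) (nat_lit 76) (nat_lit 8501854372) (nat_lit 3) (nat_lit 4) (nat_lit 4) (nat_lit 5) (nat_lit 4) (nat_lit 4) (nat_lit 316) (nat_lit 248) (nat_lit 156))))))) (XT.nd (nat_lit 32448) (nat_lit 0) (nat_lit 3876) (XT.nd (nat_lit 312) (nat_lit 0) (nat_lit 0) (XT.nd (nat_lit 156) (nat_lit 76) (nat_lit 0) (XT.nd (nat_lit 78) (nat_lit 0) (nat_lit 0) (XT.lf (nat_lit 0) (nat_lit 2708930235) (nat_lit 152) (nat_lit 44195527957) (nat_lit 76) (nat_lit 484113362356) (nat_lit 2) (nat_lit 5) (nat_lit 4) (nat_lit 5) (nat_lit 3) (nat_lit 4) (nat_lit 317) (nat_lit 248) (nat_lit 155)) (XT.lf (nat_lit 0) (nat_lit 14520844280) (nat_lit 152)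 (nat_lit 19983977448) (nat_lit 76) (nat_lit 538205739563) (nat_lit 2) (nat_lit 5) (nat_lit 4) (nat_lit 5) (nat_lit 3) (nat_lit 4) (nat_lit 318) (nat_lit 248) (nat_lit 154))) (XT.nd (nat_lit 78) (nat_lit 0) (nat_lit 0) (XT.lf (nat_lit 0) (nat_lit 6365149137) (nat_lit 76) (nat_lit 21010225403) (nat_lit 152) (nat_lit 590358465737) (nat_lit 1) (nat_lit 5) (nat_lit 2) (nat_lit 5) (nat_lit 3) (nat_lit 4) (nat_lit 319) (nat_lit 248) (nat_lit 153)) (XT.lf (nat_lit 0) (nat_lit 35532888278) (nat_lit 76) (nat_lit 6071853343) (nat_lit 152) (nat_lit 624736918218) (nat_lit 1) (nat_lit 5) (nat_lit 2) (nat_lit 5) (nat_lit 3) (nat_lit 4) (nat_lit 320) (nat_lit 248) (nat_lit 152)))) (XT.nd (nat_lit 31902) (nat_lit 0) (nat_lit 5624) (XT.nd (nat_lit 78) (nat_lit 0) (nat_lit 0) (XT.lf (nat_lit 0) (nat_lit 57128016208) (nat_lit 152) (nat_lit 651963927862) (nat_lit 0) (nat_lit 9738384824) (nat_lit 1) (nat_lit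 5) (nat_lit 3) (nat_lit 4) (nat_lit 1) (nat_lit 4) (nat_lit 321) (nat_lit 248) (nat_lit 151)) (XT.lf (nat_lit 0) (nat_lit 73994117283) (nat_lit 152) (nat_lit 674916453140) (nat_lit 0) (nat_lit 26602474520) (nat_lit 1) (nat_lit 5) (nat_lit 3) (nat_lit 4) (nat_lit 1) (nat_lit 4) (nat_lit 322) (nat_lit 248) (nat_lit 150))) (XT.nd (nat_lit 78) (nat_lit 608) (nat_lit 0) (XT.lf (nat_lit 0) (nat_lit 1916715733) (nat_lit 0) (nat_lit 1916715733) (nat_lit 532) (nat_lit 595004994) (nat_lit 83) (nat_lit 5) (nat_lit 83) (nat_lit 3) (nat_lit 90) (nat_lit 3) (nat_lit 249) (nat_lit 249) (nat_lit 222)) (XT.nd (nat_lit 78) (nat_lit 0) (nat_lit 0) (XT.lf (nat_lit 0) (nat_lit 153805634) (nat_lit 608) (nat_lit 8193507972) (nat_lit 684) (nat_lit 791459192) (nat_lit 75) (nat_lit 5) (nat_lit 83) (nat_lit 5) (nat_lit 84) (nat_lit 5) (nat_lit 250) (nat_lit 249) (nat_lit 221)) (XT.lf (nat_lit 0) (nat_lit 1584932234)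 (nat_lit 608) (nat_lit 2034493871) (nat_lit 684) (nat_lit 5822323618) (nat_lit 75) (nat_lit 5) (nat_lit 83) (nat_lit 5) (nat_lit 84) (nat_lit 5) (nat_lit 251) (nat_lit 249) (nat_lit 220)))))) (XT.nd (nat_lit 390) (nat_lit 1368) (nat_lit 0) (XT.nd (nat_lit 156) (nat_lit 456) (nat_lit 0) (XT.nd (nat_lit 78) (nat_lit 0) (nat_lit 0) (XT.lf (nat_lit 0) (nat_lit 3106176111) (nat_lit 608) (nat_lit 5104101123) (nat_lit 684) (nat_lit 1560438961) (nat_lit 76) (nat_lit 5) (nat_lit 84) (nat_lit 5) (nat_lit 85) (nat_lit 5) (nat_lit 252) (nat_lit 249) (nat_lit 219)) (XT.lf (nat_lit 76) (nat_lit 1769160176) (nat_lit 0) (nat_lit 2990486397) (nat_lit 684) (nat_lit 5366320343) (nat_lit 77) (nat_lit 5) (nat_lit 76) (nat_lit 5) (nat_lit 85) (nat_lit 5) (nat_lit 253) (nat_lit 249) (nat_lit 218))) (XT.nd (nat_lit 78) (nat_lit 532) (nat_lit 0) (XT.lf (nat_lit 0) (nat_lit 6570733668) (nat_lit 608) (nat_lit 1254423652)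 (nat_lit 684) (nat_lit 2683670173) (nat_lit 77) (nat_lit 5) (nat_lit 85) (nat_lit 5) (nat_lit 86) (nat_lit 5) (nat_lit 254) (nat_lit 249) (nat_lit 217)) (XT.nd (nat_lit 78) (nat_lit 532) (nat_lit 0) (XT.lf (nat_lit 76) (nat_lit 6498727890) (nat_lit 0) (nat_lit 2081392302) (nat_lit 684) (nat_lit 2339949016) (nat_lit 78) (nat_lit 5) (nat_lit 77) (nat_lit 5) (nat_lit 86) (nat_lit 5) (nat_lit 255) (nat_lit 249) (nat_lit 216)) (XT.lf (nat_lit 0) (nat_lit 3524848416) (nat_lit 608) (nat_lit 7275025043) (nat_lit 684) (nat_lit 562247595) (nat_lit 70) (nat_lit 5) (nat_lit 78) (nat_lit 5) (nat_lit 79) (nat_lit 5) (nat_lit 256) (nat_lit 249) (nat_lit 215))))) (XT.nd (nat_lit 156) (nat_lit 608) (nat_lit 0) (XT.nd (nat_lit 78) (nat_lit 0) (nat_lit 0) (XT.lf (nat_lit 0) (nat_lit 304136333) (nat_lit 684) (nat_lit 1040119682) (nat_lit 760) (nat_lit 10493064498) (nat_lit 60) (nat_lit 5) (nat_lit 69) (nat_lit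 5) (nat_lit 70) (nat_lit 5) (nat_lit 257) (nat_lit 249) (nat_lit 214)) (XT.lf (nat_lit 0) (nat_lit 3528928787) (nat_lit 760) (nat_lit 3145822471) (nat_lit 76) (nat_lit 5668376181) (nat_lit 60) (nat_lit 5) (nat_lit 70) (nat_lit 5) (nat_lit 61) (nat_lit 5) (nat_lit 258) (nat_lit 249) (nat_lit 213))) (XT.nd (nat_lit 78) (nat_lit 304) (nat_lit 0) (XT.lf (nat_lit 0) (nat_lit 5924806725) (nat_lit 380) (nat_lit 6874298093) (nat_lit 76) (nat_lit 88768588) (nat_lit 56) (nat_lit 5) (nat_lit 61) (nat_lit 5) (nat_lit 57) (nat_lit 5) (nat_lit 259) (nat_lit 249) (nat_lit 212)) (XT.nd (nat_lit 78) (nat_lit 0) (nat_lit 0) (XT.lf (nat_lit 0) (nat_lit 2435928699) (nat_lit 304) (nat_lit 6210873640) (nat_lit 380) (nat_lit 4822948460) (nat_lit 52) (nat_lit 5) (nat_lit 56) (nat_lit 5) (nat_lit 57) (nat_lit 5) (nat_lit 260) (nat_lit 249) (nat_lit 211)) (XT.lf (nat_lit 0) (nat_lit 11654747706) (nat_lit 380)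 (nat_lit 1445428969) (nat_lit 76) (nat_lit 994846019) (nat_lit 52) (nat_lit 5) (nat_lit 57) (nat_lit 5) (nat_lit 53) (nat_lit 5) (nat_lit 261) (nat_lit 249) (nat_lit 210))))))))
noncomputable def xc68 : XT := (XT.nd (nat_lit 1404) (nat_lit 760) (nat_lit 0) (XT.nd (nat_lit 702) (nat_lit 988) (nat_lit 0) (XT.nd (nat_lit 312) (nat_lit 912) (nat_lit 0) (XT.nd (nat_lit 156) (nat_lit 228) (nat_lit 0) (XT.nd (nat_lit 78) (nat_lit 304) (nat_lit 0) (XT.lf (nat_lit 0) (nat_lit 314547546) (nat_lit 380) (nat_lit 5740429605) (nat_lit 76) (nat_lit 8706169560) (nat_lit 47) (nat_lit 5) (nat_lit 52) (nat_lit 5) (nat_lit 48) (nat_lit 5) (nat_lit 262) (nat_lit 249) (nat_lit 209)) (XT.lf (nat_lit 0) (nat_lit 3274534430) (nat_lit 380) (nat_lit 10557270825) (nat_lit 76) (nat_lit 1643448718) (nat_lit 43) (nat_lit 5) (nat_lit 48) (nat_lit 5) (nat_lit 44) (nat_lit 5) (nat_lit 263) (nat_lit 249) (nat_lit 208)))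 (XT.nd (nat_lit 78) (nat_lit 0) (nat_lit 0) (XT.lf (nat_lit 0) (nat_lit 228783821) (nat_lit 228) (nat_lit 6392985761) (nat_lit 304) (nat_lit 9617389661) (nat_lit 40) (nat_lit 5) (nat_lit 43) (nat_lit 5) (nat_lit 44) (nat_lit 5) (nat_lit 264) (nat_lit 249) (nat_lit 207)) (XT.lf (nat_lit 0) (nat_lit 10395501203) (nat_lit 304) (nat_lit 4896029786) (nat_lit 76) (nat_lit 1764887742) (nat_lit 40) (nat_lit 5) (nat_lit 44) (nat_lit 5) (nat_lit 41) (nat_lit 5) (nat_lit 265) (nat_lit 249) (nat_lit 206)))) (XT.nd (nat_lit 156) (nat_lit 380) (nat_lit 0) (XT.nd (nat_lit 78) (nat_lit 304) (nat_lit 0) (XT.lf (nat_lit 0) (nat_lit 7166891137) (nat_lit 228) (nat_lit 7474101762) (nat_lit 304) (nat_lit 3289737520) (nat_lit 37) (nat_lit 5) (nat_lit 40) (nat_lit 5) (nat_lit 41) (nat_lit 5) (nat_lit 266) (nat_lit 249) (nat_lit 205)) (XT.lf (nat_lit 0) (nat_lit 418481219) (nat_lit 304) (nat_lit 17410377518)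 (nat_lit 76) (nat_lit 1042070125) (nat_lit 33) (nat_lit 5) (nat_lit 37) (nat_lit 5) (nat_lit 34) (nat_lit 5) (nat_lit 267) (nat_lit 249) (nat_lit 204))) (XT.nd (nat_lit 78) (nat_lit 380) (nat_lit 0) (XT.lf (nat_lit 0) (nat_lit 4580689450) (nat_lit 304) (nat_lit 5075000630) (nat_lit 76) (nat_lit 10214461506) (nat_lit 33) (nat_lit 5) (nat_lit 37) (nat_lit 5) (nat_lit 34) (nat_lit 5) (nat_lit 268) (nat_lit 249) (nat_lit 203)) (XT.nd (nat_lit 78) (nat_lit 152) (nat_lit 0) (XT.lf (nat_lit 0) (nat_lit 8461808318) (nat_lit 228) (nat_lit 704000424) (nat_lit 304) (nat_lit 11779131046) (nat_lit 30) (nat_lit 5) (nat_lit 33) (nat_lit 5) (nat_lit 34) (nat_lit 5) (nat_lit 269) (nat_lit 249) (nat_lit 202)) (XT.lf (nat_lit 0) (nat_lit 996308031) (nat_lit 152) (nat_lit 13326677139) (nat_lit 228) (nat_lit 7772578663) (nat_lit 28) (nat_lit 5) (nat_lit 30) (nat_lit 5) (nat_lit 31) (nat_lit 5) (nat_lit 270)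 (nat_lit 249) (nat_lit 201)))))) (XT.nd (nat_lit 312) (nat_lit 532) (nat_lit 0) (XT.nd (nat_lit 156) (nat_lit 152) (nat_lit 0) (XT.nd (nat_lit 78) (nat_lit 304) (nat_lit 0) (XT.lf (nat_lit 0) (nat_lit 15934349636) (nat_lit 152) (nat_lit 4149542618) (nat_lit 228) (nat_lit 3244894358) (nat_lit 28) (nat_lit 5) (nat_lit 30) (nat_lit 5) (nat_lit 31) (nat_lit 5) (nat_lit 271) (nat_lit 249) (nat_lit 200)) (XT.lf (nat_lit 0) (nat_lit 1766843979) (nat_lit 304) (nat_lit 17174571686) (nat_lit 76) (nat_lit 5709336940) (nat_lit 24) (nat_lit 5) (nat_lit 28) (nat_lit 5) (nat_lit 25) (nat_lit 5) (nat_lit 272) (nat_lit 249) (nat_lit 199))) (XT.nd (nat_lit 78) (nat_lit 152) (nat_lit 0) (XT.lf (nat_lit 0) (nat_lit 7234085342) (nat_lit 304) (nat_lit 2448280933) (nat_lit 76) (nat_lit 16385124461) (nat_lit 24) (nat_lit 5) (nat_lit 28) (nat_lit 5) (nat_lit 25) (nat_lit 5) (nat_lit 273) (nat_lit 249) (nat_lit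 198)) (XT.lf (nat_lit 0) (nat_lit 13331639907) (nat_lit 228) (nat_lit 13743436005) (nat_lit 76) (nat_lit 512925930) (nat_lit 22) (nat_lit 5) (nat_lit 25) (nat_lit 5) (nat_lit 23) (nat_lit 5) (nat_lit 274) (nat_lit 249) (nat_lit 197)))) (XT.nd (nat_lit 156) (nat_lit 380) (nat_lit 0) (XT.nd (nat_lit 78) (nat_lit 0) (nat_lit 0) (XT.lf (nat_lit 0) (nat_lit 2159820591) (nat_lit 152) (nat_lit 17967310187) (nat_lit 228) (nat_lit 9092591109) (nat_lit 20) (nat_lit 5) (nat_lit 22) (nat_lit 5) (nat_lit 23) (nat_lit 5) (nat_lit 275) (nat_lit 249) (nat_lit 196)) (XT.lf (nat_lit 0) (nat_lit 19782500906) (nat_lit 152) (nat_lit 7894519898) (nat_lit 228) (nat_lit 3294489859) (nat_lit 20) (nat_lit 5) (nat_lit 22) (nat_lit 5) (nat_lit 23) (nat_lit 5) (nat_lit 276) (nat_lit 249) (nat_lit 195))) (XT.nd (nat_lit 78) (nat_lit 152) (nat_lit 0) (XT.lf (nat_lit 0) (nat_lit 2988720626) (nat_lit 228) (nat_lit 26848710344)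 (nat_lit 76) (nat_lit 3017944084) (nat_lit 17) (nat_lit 5) (nat_lit 20) (nat_lit 5) (nat_lit 18) (nat_lit 5) (nat_lit 277) (nat_lit 249) (nat_lit 194)) (XT.nd (nat_lit 78) (nat_lit 152) (nat_lit 0) (XT.lf (nat_lit 0) (nat_lit 9966074559) (nat_lit 228) (nat_lit 10135175558) (nat_lit 76) (nat_lit 14770709040) (nat_lit 17) (nat_lit 5) (nat_lit 20) (nat_lit 5) (nat_lit 18) (nat_lit 5) (nat_lit 278) (nat_lit 249) (nat_lit 193)) (XT.lf (nat_lit 0) (nat_lit 8138270281) (nat_lit 152) (nat_lit 9466472430) (nat_lit 228) (nat_lit 19440023238) (nat_lit 15) (nat_lit 5) (nat_lit 17) (nat_lit 5) (nat_lit 18) (nat_lit 5) (nat_lit 279) (nat_lit 249) (nat_lit 192))))))) (XT.nd (nat_lit 702) (nat_lit 304) (nat_lit 0) (XT.nd (nat_lit 312) (nat_lit 152) (nat_lit 0) (XT.nd (nat_lit 156) (nat_lit 228) (nat_lit 0) (XT.nd (nat_lit 78) (nat_lit 76) (nat_lit 0) (XT.lf (nat_lit 0) (nat_lit 26042538389) (nat_lit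 228) (nat_lit 11218460357) (nat_lit 76) (nat_lit 2121045219) (nat_lit 15) (nat_lit 5) (nat_lit 18) (nat_lit 5) (nat_lit 16) (nat_lit 4) (nat_lit 280) (nat_lit 249) (nat_lit 191)) (XT.lf (nat_lit 0) (nat_lit 7945038199) (nat_lit 76) (nat_lit 27472752526) (nat_lit 152) (nat_lit 6475436650) (nat_lit 14) (nat_lit 5) (nat_lit 15) (nat_lit 5) (nat_lit 16) (nat_lit 4) (nat_lit 281) (nat_lit 249) (nat_lit 190))) (XT.nd (nat_lit 78) (nat_lit 152) (nat_lit 0) (XT.lf (nat_lit 0) (nat_lit 1085822800) (nat_lit 152) (nat_lit 15604633659) (nat_lit 76) (nat_lit 27905252498) (nat_lit 13) (nat_lit 5) (nat_lit 15) (nat_lit 5) (nat_lit 14) (nat_lit 5) (nat_lit 282) (nat_lit 249) (nat_lit 189)) (XT.lf (nat_lit 0) (nat_lit 4200667352) (nat_lit 152) (nat_lit 4874043962) (nat_lit 228) (nat_lit 38431926793) (nat_lit 11) (nat_lit 5) (nat_lit 13) (nat_lit 5) (nat_lit 14) (nat_lit 5) (nat_lit 283) (nat_lit 249)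 (nat_lit 188)))) (XT.nd (nat_lit 156) (nat_lit 152) (nat_lit 0) (XT.nd (nat_lit 78) (nat_lit 0) (nat_lit 0) (XT.lf (nat_lit 0) (nat_lit 18083882652) (nat_lit 228) (nat_lit 24647235057) (nat_lit 76) (nat_lit 7900299165) (nat_lit 11) (nat_lit 5) (nat_lit 14) (nat_lit 5) (nat_lit 12) (nat_lit 4) (nat_lit 284) (nat_lit 249) (nat_lit 187)) (XT.lf (nat_lit 0) (nat_lit 27879069431) (nat_lit 228) (nat_lit 4606141857) (nat_lit 76) (nat_lit 21517733929) (nat_lit 11) (nat_lit 5) (nat_lit 14) (nat_lit 5) (nat_lit 12) (nat_lit 4) (nat_lit 285) (nat_lit 249) (nat_lit 186))) (XT.nd (nat_lit 78) (nat_lit 76) (nat_lit 0) (XT.lf (nat_lit 0) (nat_lit 17574667478) (nat_lit 76) (nat_lit 21141942053) (nat_lit 152) (nat_lit 18914678417) (nat_lit 10) (nat_lit 5) (nat_lit 11) (nat_lit 5) (nat_lit 12) (nat_lit 4) (nat_lit 286) (nat_lit 249) (nat_lit 185)) (XT.nd (nat_lit 78) (nat_lit 76) (nat_lit 0) (XT.lf (nat_lit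 0) (nat_lit 41669487954) (nat_lit 76) (nat_lit 8817019491) (nat_lit 152) (nat_lit 11060149809) (nat_lit 10) (nat_lit 5) (nat_lit 11) (nat_lit 5) (nat_lit 12) (nat_lit 4) (nat_lit 287) (nat_lit 249) (nat_lit 184)) (XT.lf (nat_lit 0) (nat_lit 1883087492) (nat_lit 76) (nat_lit 61400547839) (nat_lit 76) (nat_lit 2487363763) (nat_lit 9) (nat_lit 4) (nat_lit 10) (nat_lit 5) (nat_lit 10) (nat_lit 4) (nat_lit 288) (nat_lit 249) (nat_lit 183)))))) (XT.nd (nat_lit 390) (nat_lit 152) (nat_lit 0) (XT.nd (nat_lit 156) (nat_lit 76) (nat_lit 0) (XT.nd (nat_lit 78) (nat_lit 0) (nat_lit 0) (XT.lf (nat_lit 0) (nat_lit 7041631931) (nat_lit 152) (nat_lit 44505167514) (nat_lit 76) (nat_lit 18756869440) (nat_lit 8) (nat_lit 5) (nat_lit 10) (nat_lit 5) (nat_lit 9) (nat_lit 4) (nat_lit 289) (nat_lit 249) (nat_lit 182)) (XT.lf (nat_lit 0) (nat_lit 17234480352) (nat_lit 152) (nat_lit 23635132787) (nat_lit 76)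 (nat_lit 34327886716) (nat_lit 8) (nat_lit 5) (nat_lit 10) (nat_lit 5) (nat_lit 9) (nat_lit 4) (nat_lit 290) (nat_lit 249) (nat_lit 181))) (XT.nd (nat_lit 78) (nat_lit 76) (nat_lit 0) (XT.lf (nat_lit 0) (nat_lit 28231194738) (nat_lit 152) (nat_lit 1115298422) (nat_lit 76) (nat_lit 51136941062) (nat_lit 8) (nat_lit 5) (nat_lit 10) (nat_lit 5) (nat_lit 9) (nat_lit 4) (nat_lit 291) (nat_lit 249) (nat_lit 180)) (XT.nd (nat_lit 78) (nat_lit 0) (nat_lit 0) (XT.lf (nat_lit 0) (nat_lit 23954479389) (nat_lit 76) (nat_lit 16516457969) (nat_lit 152) (nat_lit 45703158853) (nat_lit 7) (nat_lit 5) (nat_lit 8) (nat_lit 5) (nat_lit 9) (nat_lit 4) (nat_lit 292) (nat_lit 249) (nat_lit 179)) (XT.lf (nat_lit 0) (nat_lit 51052127002) (nat_lit 76) (nat_lit 2646973853) (nat_lit 152) (nat_lit 38620464367) (nat_lit 7) (nat_lit 5) (nat_lit 8) (nat_lit 5) (nat_lit 9) (nat_lit 4) (nat_lit 293) (nat_lit 249) (nat_lit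 178))))) (XT.nd (nat_lit 156) (nat_lit 76) (nat_lit 0) (XT.nd (nat_lit 78) (nat_lit 76) (nat_lit 0) (XT.lf (nat_lit 0) (nat_lit 68168517522) (nat_lit 152) (nat_lit 18848243878) (nat_lit 0) (nat_lit 11930775292) (nat_lit 7) (nat_lit 5) (nat_lit 9) (nat_lit 4) (nat_lit 7) (nat_lit 4) (nat_lit 294) (nat_lit 249) (nat_lit 177)) (XT.lf (nat_lit 0) (nat_lit 5479853480) (nat_lit 76) (nat_lit 78436991181) (nat_lit 76) (nat_lit 22182847197) (nat_lit 6) (nat_lit 4) (nat_lit 7) (nat_lit 5) (nat_lit 7) (nat_lit 4) (nat_lit 295) (nat_lit 249) (nat_lit 176))) (XT.nd (nat_lit 78) (nat_lit 76) (nat_lit 0) (XT.lf (nat_lit 0) (nat_lit 32412542885) (nat_lit 76) (nat_lit 68832412151) (nat_lit 76) (nat_lit 12563081357) (nat_lit 6) (nat_lit 4) (nat_lit 7) (nat_lit 5) (nat_lit 7) (nat_lit 4) (nat_lit 296) (nat_lit 249) (nat_lit 175)) (XT.nd (nat_lit 78) (nat_lit 76) (nat_lit 0) (XT.lf (nat_lit 0) (nat_lit 61486217395)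 (nat_lit 76) (nat_lit 58465312417) (nat_lit 76) (nat_lit 2181919763) (nat_lit 6) (nat_lit 4) (nat_lit 7) (nat_lit 5) (nat_lit 7) (nat_lit 4) (nat_lit 297) (nat_lit 249) (nat_lit 174)) (XT.lf (nat_lit 0) (nat_lit 8733390257) (nat_lit 152) (nat_lit 38392962867) (nat_lit 76) (nat_lit 83991871003) (nat_lit 5) (nat_lit 5) (nat_lit 7) (nat_lit 5) (nat_lit 6) (nat_lit 4) (nat_lit 298) (nat_lit 249) (nat_lit 173))))))))
noncomputable def xc69 : XT := (XT.nd (nat_lit 1404) (nat_lit 152) (nat_lit 0) (XT.nd (nat_lit 702) (nat_lit 0) (nat_lit 0) (XT.nd (nat_lit 312) (nat_lit 76) (nat_lit 0) (XT.nd (nat_lit 156) (nat_lit 0) (nat_lit 0) (XT.nd (nat_lit 78) (nat_lit 76) (nat_lit 0) (XT.lf (nat_lit 0) (nat_lit 20439710071) (nat_lit 152) (nat_lit 14407063028) (nat_lit 76) (nat_lit 105973517329) (nat_lit 5) (nat_lit 5) (nat_lit 7) (nat_lit 5) (nat_lit 6) (nat_lit 4) (nat_lit 299) (nat_lit 249) (nat_lit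 172)) (XT.lf (nat_lit 0) (nat_lit 11866473133) (nat_lit 76) (nat_lit 21395041288) (nat_lit 152) (nat_lit 118028067631) (nat_lit 4) (nat_lit 5) (nat_lit 5) (nat_lit 5) (nat_lit 6) (nat_lit 4) (nat_lit 300) (nat_lit 249) (nat_lit 171))) (XT.nd (nat_lit 78) (nat_lit 0) (nat_lit 0) (XT.lf (nat_lit 0) (nat_lit 40745806498) (nat_lit 76) (nat_lit 6608229510) (nat_lit 152) (nat_lit 115230140657) (nat_lit 4) (nat_lit 5) (nat_lit 5) (nat_lit 5) (nat_lit 6) (nat_lit 4) (nat_lit 301) (nat_lit 249) (nat_lit 170)) (XT.lf (nat_lit 0) (nat_lit 62714507718) (nat_lit 152) (nat_lit 103003006141) (nat_lit 0) (nat_lit 9057805256) (nat_lit 4) (nat_lit 5) (nat_lit 6) (nat_lit 4) (nat_lit 4) (nat_lit 4) (nat_lit 302) (nat_lit 249) (nat_lit 169)))) (XT.nd (nat_lit 156) (nat_lit 76) (nat_lit 0) (XT.nd (nat_lit 78) (nat_lit 0) (nat_lit 0) (XT.lf (nat_lit 0) (nat_lit 79410048357) (nat_lit 152) (nat_lit 82781493657)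 (nat_lit 0) (nat_lit 25744906507) (nat_lit 4) (nat_lit 5) (nat_lit 6) (nat_lit 4) (nat_lit 4) (nat_lit 4) (nat_lit 303) (nat_lit 249) (nat_lit 168)) (XT.lf (nat_lit 0) (nat_lit 97436421480) (nat_lit 152) (nat_lit 60950828548) (nat_lit 0) (nat_lit 43763465382) (nat_lit 4) (nat_lit 5) (nat_lit 6) (nat_lit 4) (nat_lit 4) (nat_lit 4) (nat_lit 304) (nat_lit 249) (nat_lit 167))) (XT.nd (nat_lit 78) (nat_lit 76) (nat_lit 0) (XT.lf (nat_lit 0) (nat_lit 116900450038) (nat_lit 152) (nat_lit 37381643908) (nat_lit 0) (nat_lit 63220258525) (nat_lit 4) (nat_lit 5) (nat_lit 6) (nat_lit 4) (nat_lit 4) (nat_lit 4) (nat_lit 305) (nat_lit 249) (nat_lit 166)) (XT.nd (nat_lit 78) (nat_lit 76) (nat_lit 0) (XT.lf (nat_lit 0) (nat_lit 137917476424) (nat_lit 152) (nat_lit 11934270496) (nat_lit 0) (nat_lit 84230585453) (nat_lit 4) (nat_lit 5) (nat_lit 6) (nat_lit 4) (nat_lit 4) (nat_lit 4) (nat_lit 306) (nat_lit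 249) (nat_lit 165)) (XT.lf (nat_lit 0) (nat_lit 16055982653) (nat_lit 76) (nat_lit 144806742212) (nat_lit 76) (nat_lit 91113648038) (nat_lit 3) (nat_lit 4) (nat_lit 4) (nat_lit 5) (nat_lit 4) (nat_lit 4) (nat_lit 307) (nat_lit 249) (nat_lit 164)))))) (XT.nd (nat_lit 312) (nat_lit 0) (nat_lit 0) (XT.nd (nat_lit 156) (nat_lit 0) (nat_lit 0) (XT.nd (nat_lit 78) (nat_lit 0) (nat_lit 0) (XT.lf (nat_lit 0) (nat_lit 46705118753) (nat_lit 76) (nat_lit 139142724081) (nat_lit 76) (nat_lit 85443886201) (nat_lit 3) (nat_lit 4) (nat_lit 4) (nat_lit 5) (nat_lit 4) (nat_lit 4) (nat_lit 308) (nat_lit 249) (nat_lit 163)) (XT.lf (nat_lit 0) (nat_lit 79800161436) (nat_lit 76) (nat_lit 133028240622) (nat_lit 76) (nat_lit 79324084497) (nat_lit 3) (nat_lit 4) (nat_lit 4) (nat_lit 5) (nat_lit 4) (nat_lit 4) (nat_lit 309) (nat_lit 249) (nat_lit 162))) (XT.nd (nat_lit 78) (nat_lit 0) (nat_lit 0) (XT.lf (nat_lit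 0) (nat_lit 115537229472) (nat_lit 76) (nat_lit 126427057859) (nat_lit 76) (nat_lit 72717977432) (nat_lit 3) (nat_lit 4) (nat_lit 4) (nat_lit 5) (nat_lit 4) (nat_lit 4) (nat_lit 310) (nat_lit 249) (nat_lit 161)) (XT.lf (nat_lit 0) (nat_lit 154128098079) (nat_lit 76) (nat_lit 119300057673) (nat_lit 76) (nat_lit 65586417707) (nat_lit 3) (nat_lit 4) (nat_lit 4) (nat_lit 5) (nat_lit 4) (nat_lit 4) (nat_lit 311) (nat_lit 249) (nat_lit 160)))) (XT.nd (nat_lit 156) (nat_lit 0) (nat_lit 0) (XT.nd (nat_lit 78) (nat_lit 0) (nat_lit 0) (XT.lf (nat_lit 0) (nat_lit 195801453886) (nat_lit 76) (nat_lit 111605005987) (nat_lit 76) (nat_lit 57887144226) (nat_lit 3) (nat_lit 4) (nat_lit 4) (nat_lit 5) (nat_lit 4) (nat_lit 4) (nat_lit 312) (nat_lit 249) (nat_lit 159)) (XT.lf (nat_lit 0) (nat_lit 240804250112) (nat_lit 76) (nat_lit 103296302496) (nat_lit 76) (nat_lit 49574531665) (nat_lit 3) (nat_lit 4) (nat_lit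 4) (nat_lit 5) (nat_lit 4) (nat_lit 4) (nat_lit 313) (nat_lit 249) (nat_lit 158))) (XT.nd (nat_lit 78) (nat_lit 0) (nat_lit 0) (XT.lf (nat_lit 0) (nat_lit 289403169995) (nat_lit 76) (nat_lit 94324710438) (nat_lit 76) (nat_lit 40599320099) (nat_lit 3) (nat_lit 4) (nat_lit 4) (nat_lit 5) (nat_lit 4) (nat_lit 4) (nat_lit 314) (nat_lit 249) (nat_lit 157)) (XT.nd (nat_lit 78) (nat_lit 0) (nat_lit 0) (XT.lf (nat_lit 0) (nat_lit 341886207134) (nat_lit 76) (nat_lit 84637064823) (nat_lit 76) (nat_lit 30908323087) (nat_lit 3) (nat_lit 4) (nat_lit 4) (nat_lit 5) (nat_lit 4) (nat_lit 4) (nat_lit 315) (nat_lit 249) (nat_lit 156)) (XT.lf (nat_lit 0) (nat_lit 398564372119) (nat_lit 76) (nat_lit 74175957381) (nat_lit 76) (nat_lit 20444112500) (nat_lit 3) (nat_lit 4) (nat_lit 4) (nat_lit 5) (nat_lit 4) (nat_lit 4) (nat_lit 316) (nat_lit 249) (nat_lit 155))))))) (XT.nd (nat_lit 32526) (nat_lit 0) (nat_lit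 3876) (XT.nd (nat_lit 312) (nat_lit 0) (nat_lit 0) (XT.nd (nat_lit 156) (nat_lit 76) (nat_lit 0) (XT.nd (nat_lit 78) (nat_lit 76) (nat_lit 0) (XT.lf (nat_lit 0) (nat_lit 459773535557) (nat_lit 76) (nat_lit 62879396365) (nat_lit 76) (nat_lit 9144678200) (nat_lit 3) (nat_lit 4) (nat_lit 4) (nat_lit 5) (nat_lit 4) (nat_lit 4) (nat_lit 317) (nat_lit 249) (nat_lit 154)) (XT.lf (nat_lit 0) (nat_lit 2959098269) (nat_lit 152) (nat_lit 47671227159) (nat_lit 76) (nat_lit 522867206387) (nat_lit 2) (nat_lit 5) (nat_lit 4) (nat_lit 5) (nat_lit 3) (nat_lit 4) (nat_lit 318) (nat_lit 249) (nat_lit 153))) (XT.nd (nat_lit 78) (nat_lit 76) (nat_lit 0) (XT.lf (nat_lit 0) (nat_lit 15713487392) (nat_lit 152) (nat_lit 21527192834) (nat_lit 76) (nat_lit 581285138583) (nat_lit 2) (nat_lit 5) (nat_lit 4) (nat_lit 5) (nat_lit 3) (nat_lit 4) (nat_lit 319) (nat_lit 249) (nat_lit 152)) (XT.lf (nat_lit 0) (nat_lit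 6927451794) (nat_lit 76) (nat_lit 22667462687) (nat_lit 152) (nat_lit 637556121772) (nat_lit 1) (nat_lit 5) (nat_lit 2) (nat_lit 5) (nat_lit 3) (nat_lit 4) (nat_lit 320) (nat_lit 249) (nat_lit 151)))) (XT.nd (nat_lit 31980) (nat_lit 0) (nat_lit 5548) (XT.nd (nat_lit 78) (nat_lit 0) (nat_lit 0) (XT.lf (nat_lit 0) (nat_lit 38424677420) (nat_lit 76) (nat_lit 6535767585) (nat_lit 152) (nat_lit 674687148320) (nat_lit 1) (nat_lit 5) (nat_lit 2) (nat_lit 5) (nat_lit 3) (nat_lit 4) (nat_lit 321) (nat_lit 249) (nat_lit 150)) (XT.lf (nat_lit 0) (nat_lit 61723873193) (nat_lit 152) (nat_lit 704074545339) (nat_lit 0) (nat_lit 10537025241) (nat_lit 1) (nat_lit 5) (nat_lit 3) (nat_lit 4) (nat_lit 1) (nat_lit 4) (nat_lit 322) (nat_lit 249) (nat_lit 149))) (XT.nd (nat_lit 78) (nat_lit 0) (nat_lit 0) (XT.lf (nat_lit 0) (nat_lit 670189820) (nat_lit 684) (nat_lit 2021399594) (nat_lit 684) (nat_lit 2021399594)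 (nat_lit 74) (nat_lit 3) (nat_lit 83) (nat_lit 3) (nat_lit 83) (nat_lit 5) (nat_lit 250) (nat_lit 250) (nat_lit 220)) (XT.nd (nat_lit 78) (nat_lit 0) (nat_lit 76) (XT.lf (nat_lit 76) (nat_lit 2338603400) (nat_lit 0) (nat_lit 227081724) (nat_lit 684) (nat_lit 7173817006) (nat_lit 75) (nat_lit 5) (nat_lit 74) (nat_lit 3) (nat_lit 83) (nat_lit 5) (nat_lit 251) (nat_lit 250) (nat_lit 219)) (XT.lf (nat_lit 0) (nat_lit 3930272792) (nat_lit 608) (nat_lit 853146657) (nat_lit 684) (nat_lit 5293119120) (nat_lit 75) (nat_lit 5) (nat_lit 83) (nat_lit 5) (nat_lit 84) (nat_lit 5) (nat_lit 252) (nat_lit 250) (nat_lit 218)))))) (XT.nd (nat_lit 390) (nat_lit 1292) (nat_lit 0) (XT.nd (nat_lit 156) (nat_lit 532) (nat_lit 0) (XT.nd (nat_lit 78) (nat_lit 0) (nat_lit 0) (XT.lf (nat_lit 0) (nat_lit 5416640633) (nat_lit 608) (nat_lit 4101798562) (nat_lit 684) (nat_lit 921924817) (nat_lit 76) (nat_lit 5) (nat_lit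 84) (nat_lit 5) (nat_lit 85) (nat_lit 5) (nat_lit 253) (nat_lit 250) (nat_lit 217)) (XT.lf (nat_lit 76) (nat_lit 3260019352) (nat_lit 0) (nat_lit 3810697596) (nat_lit 684) (nat_lit 3760561503) (nat_lit 77) (nat_lit 5) (nat_lit 76) (nat_lit 5) (nat_lit 85) (nat_lit 5) (nat_lit 254) (nat_lit 250) (nat_lit 216))) (XT.nd (nat_lit 78) (nat_lit 608) (nat_lit 0) (XT.lf (nat_lit 76) (nat_lit 2905) (nat_lit 0) (nat_lit 8875304356) (nat_lit 684) (nat_lit 2377640978) (nat_lit 78) (nat_lit 5) (nat_lit 77) (nat_lit 5) (nat_lit 86) (nat_lit 5) (nat_lit 255) (nat_lit 250) (nat_lit 215)) (XT.nd (nat_lit 78) (nat_lit 608) (nat_lit 0) (XT.lf (nat_lit 76) (nat_lit 8314529375) (nat_lit 0) (nat_lit 2619376497) (nat_lit 684) (nat_lit 769326264) (nat_lit 78) (nat_lit 5) (nat_lit 77) (nat_lit 5) (nat_lit 86) (nat_lit 5) (nat_lit 256) (nat_lit 250) (nat_lit 214)) (XT.lf (nat_lit 0) (nat_lit 1003397246) (nat_lit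 684) (nat_lit 7064279449) (nat_lit 76) (nat_lit 4118090668) (nat_lit 69) (nat_lit 5) (nat_lit 78) (nat_lit 5) (nat_lit 70) (nat_lit 5) (nat_lit 257) (nat_lit 250) (nat_lit 213))))) (XT.nd (nat_lit 156) (nat_lit 608) (nat_lit 0) (XT.nd (nat_lit 78) (nat_lit 0) (nat_lit 0) (XT.lf (nat_lit 0) (nat_lit 1658532523) (nat_lit 684) (nat_lit 1287353705) (nat_lit 760) (nat_lit 9757939583) (nat_lit 60) (nat_lit 5) (nat_lit 69) (nat_lit 5) (nat_lit 70) (nat_lit 5) (nat_lit 258) (nat_lit 250) (nat_lit 212)) (XT.lf (nat_lit 0) (nat_lit 5192288324) (nat_lit 760) (nat_lit 2089056318) (nat_lit 76) (nat_lit 5974832717) (nat_lit 60) (nat_lit 5) (nat_lit 70) (nat_lit 5) (nat_lit 61) (nat_lit 5) (nat_lit 259) (nat_lit 250) (nat_lit 211))) (XT.nd (nat_lit 78) (nat_lit 304) (nat_lit 0) (XT.lf (nat_lit 0) (nat_lit 7696347967) (nat_lit 380) (nat_lit 6102077295) (nat_lit 76) (nat_lit 50648316) (nat_lit 56) (nat_lit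 5) (nat_lit 61) (nat_lit 5) (nat_lit 57) (nat_lit 5) (nat_lit 260) (nat_lit 250) (nat_lit 210)) (XT.nd (nat_lit 78) (nat_lit 0) (nat_lit 0) (XT.lf (nat_lit 0) (nat_lit 3895507975) (nat_lit 304) (nat_lit 6664225532) (nat_lit 380) (nat_lit 3921952946) (nat_lit 52) (nat_lit 5) (nat_lit 56) (nat_lit 5) (nat_lit 57) (nat_lit 5) (nat_lit 261) (nat_lit 250) (nat_lit 209)) (XT.lf (nat_lit 0) (nat_lit 13718485319) (nat_lit 380) (nat_lit 329887406) (nat_lit 76) (nat_lit 1113438470) (nat_lit 52) (nat_lit 5) (nat_lit 57) (nat_lit 5) (nat_lit 53) (nat_lit 5) (nat_lit 262) (nat_lit 250) (nat_lit 208))))))))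
noncomputable def xc70 : XT := (XT.nd (nat_lit 1404) (nat_lit 760) (nat_lit 0) (XT.nd (nat_lit 702) (nat_lit 988) (nat_lit 0) (XT.nd (nat_lit 312) (nat_lit 912) (nat_lit 0) (XT.nd (nat_lit 156) (nat_lit 228) (nat_lit 0) (XT.nd (nat_lit 78) (nat_lit 304) (nat_lit 0) (XT.lf (nat_lit 0) (nat_lit 1426931166) (nat_lit 380) (nat_lit 4982301337) (nat_lit 76) (nat_lit 9474701193) (nat_lit 47) (nat_lit 5) (nat_lit 52) (nat_lit 5) (nat_lit 48) (nat_lit 5) (nat_lit 263) (nat_lit 250) (nat_lit 207)) (XT.lf (nat_lit 0) (nat_lit 4563542069) (nat_lit 380) (nat_lit 10184864655) (nat_lit 76) (nat_lit 1910048876) (nat_lit 43) (nat_lit 5) (nat_lit 48) (nat_lit 5) (nat_lit 44) (nat_lit 5) (nat_lit 264) (nat_lit 250) (nat_lit 206))) (XT.nd (nat_lit 78) (nat_lit 0) (nat_lit 0) (XT.lf (nat_lit 0) (nat_lit 1411185554) (nat_lit 228) (nat_lit 6709467929) (nat_lit 304) (nat_lit 9365971712) (nat_lit 40) (nat_lit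 5) (nat_lit 43) (nat_lit 5) (nat_lit 44) (nat_lit 5) (nat_lit 265) (nat_lit 250) (nat_lit 205)) (XT.lf (nat_lit 0) (nat_lit 12127313665) (nat_lit 304) (nat_lit 4164821432) (nat_lit 76) (nat_lit 2080816596) (nat_lit 40) (nat_lit 5) (nat_lit 44) (nat_lit 5) (nat_lit 41) (nat_lit 5) (nat_lit 266) (nat_lit 250) (nat_lit 204)))) (XT.nd (nat_lit 156) (nat_lit 380) (nat_lit 0) (XT.nd (nat_lit 78) (nat_lit 304) (nat_lit 0) (XT.lf (nat_lit 0) (nat_lit 8814333702) (nat_lit 228) (nat_lit 7848201134) (nat_lit 304) (nat_lit 2657389114) (nat_lit 37) (nat_lit 5) (nat_lit 40) (nat_lit 5) (nat_lit 41) (nat_lit 5) (nat_lit 267) (nat_lit 250) (nat_lit 203)) (XT.lf (nat_lit 0) (nat_lit 1274839006) (nat_lit 304) (nat_lit 17706205407) (nat_lit 76) (nat_lit 1355988182) (nat_lit 33) (nat_lit 5) (nat_lit 37) (nat_lit 5) (nat_lit 34) (nat_lit 5) (nat_lit 268) (nat_lit 250) (nat_lit 202))) (XT.nd (nat_lit 78) (nat_lit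 380) (nat_lit 0) (XT.lf (nat_lit 0) (nat_lit 5709069875) (nat_lit 304) (nat_lit 4465257798) (nat_lit 76) (nat_lit 11245092915) (nat_lit 33) (nat_lit 5) (nat_lit 37) (nat_lit 5) (nat_lit 34) (nat_lit 5) (nat_lit 269) (nat_lit 250) (nat_lit 201)) (XT.nd (nat_lit 78) (nat_lit 152) (nat_lit 0) (XT.lf (nat_lit 0) (nat_lit 10110352917) (nat_lit 228) (nat_lit 509376281) (nat_lit 304) (nat_lit 11962692557) (nat_lit 30) (nat_lit 5) (nat_lit 33) (nat_lit 5) (nat_lit 34) (nat_lit 5) (nat_lit 270) (nat_lit 250) (nat_lit 200)) (XT.lf (nat_lit 0) (nat_lit 2038097248) (nat_lit 152) (nat_lit 14116649146) (nat_lit 228) (nat_lit 7672240104) (nat_lit 28) (nat_lit 5) (nat_lit 30) (nat_lit 5) (nat_lit 31) (nat_lit 5) (nat_lit 271) (nat_lit 250) (nat_lit 199)))))) (XT.nd (nat_lit 312) (nat_lit 532) (nat_lit 0) (XT.nd (nat_lit 156) (nat_lit 152) (nat_lit 0) (XT.nd (nat_lit 78) (nat_lit 304) (nat_lit 0) (XT.lf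 (nat_lit 0) (nat_lit 18099916657) (nat_lit 152) (nat_lit 4225800320) (nat_lit 228) (nat_lit 2835833265) (nat_lit 28) (nat_lit 5) (nat_lit 30) (nat_lit 5) (nat_lit 31) (nat_lit 5) (nat_lit 272) (nat_lit 250) (nat_lit 198)) (XT.lf (nat_lit 0) (nat_lit 2525226015) (nat_lit 304) (nat_lit 17646194528) (nat_lit 76) (nat_lit 6418967677) (nat_lit 24) (nat_lit 5) (nat_lit 28) (nat_lit 5) (nat_lit 25) (nat_lit 5) (nat_lit 273) (nat_lit 250) (nat_lit 197))) (XT.nd (nat_lit 78) (nat_lit 152) (nat_lit 0) (XT.lf (nat_lit 0) (nat_lit 8384140426) (nat_lit 304) (nat_lit 1808640729) (nat_lit 76) (nat_lit 17930086068) (nat_lit 24) (nat_lit 5) (nat_lit 28) (nat_lit 5) (nat_lit 25) (nat_lit 5) (nat_lit 274) (nat_lit 250) (nat_lit 196)) (XT.lf (nat_lit 0) (nat_lit 14943679919) (nat_lit 228) (nat_lit 14019318926) (nat_lit 76) (nat_lit 803419223) (nat_lit 22) (nat_lit 5) (nat_lit 25) (nat_lit 5) (nat_lit 23)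 (nat_lit 5) (nat_lit 275) (nat_lit 250) (nat_lit 195)))) (XT.nd (nat_lit 156) (nat_lit 380) (nat_lit 0) (XT.nd (nat_lit 78) (nat_lit 0) (nat_lit 0) (XT.lf (nat_lit 0) (nat_lit 3120405895) (nat_lit 152) (nat_lit 19134295866) (nat_lit 228) (nat_lit 9275479260) (nat_lit 20) (nat_lit 5) (nat_lit 22) (nat_lit 5) (nat_lit 23) (nat_lit 5) (nat_lit 276) (nat_lit 250) (nat_lit 194)) (XT.lf (nat_lit 0) (nat_lit 22094545105) (nat_lit 152) (nat_lit 8275711918) (nat_lit 228) (nat_lit 3053864661) (nat_lit 20) (nat_lit 5) (nat_lit 22) (nat_lit 5) (nat_lit 23) (nat_lit 5) (nat_lit 277) (nat_lit 250) (nat_lit 193))) (XT.nd (nat_lit 78) (nat_lit 152) (nat_lit 0) (XT.lf (nat_lit 0) (nat_lit 3694786836) (nat_lit 228) (nat_lit 28262124719) (nat_lit 76) (nat_lit 3502525583) (nat_lit 17) (nat_lit 5) (nat_lit 20) (nat_lit 5) (nat_lit 18) (nat_lit 5) (nat_lit 278) (nat_lit 250) (nat_lit 192)) (XT.nd (nat_lit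 78) (nat_lit 152) (nat_lit 0) (XT.lf (nat_lit 0) (nat_lit 11195738821) (nat_lit 228) (nat_lit 10265913257) (nat_lit 76) (nat_lit 16177500922) (nat_lit 17) (nat_lit 5) (nat_lit 20) (nat_lit 5) (nat_lit 18) (nat_lit 5) (nat_lit 279) (nat_lit 250) (nat_lit 191)) (XT.lf (nat_lit 0) (nat_lit 9439852960) (nat_lit 152) (nat_lit 9983775900) (nat_lit 228) (nat_lit 20563318979) (nat_lit 15) (nat_lit 5) (nat_lit 17) (nat_lit 5) (nat_lit 18) (nat_lit 5) (nat_lit 280) (nat_lit 250) (nat_lit 190))))))) (XT.nd (nat_lit 702) (nat_lit 304) (nat_lit 0) (XT.nd (nat_lit 312) (nat_lit 152) (nat_lit 0) (XT.nd (nat_lit 156) (nat_lit 228) (nat_lit 0) (XT.nd (nat_lit 78) (nat_lit 76) (nat_lit 0) (XT.lf (nat_lit 0) (nat_lit 28509510005) (nat_lit 228) (nat_lit 11497258346) (nat_lit 76) (nat_lit 2505851399) (nat_lit 15) (nat_lit 5) (nat_lit 18) (nat_lit 5) (nat_lit 16) (nat_lit 4) (nat_lit 281) (nat_lit 250) (nat_lit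 189)) (XT.lf (nat_lit 0) (nat_lit 9172433066) (nat_lit 76) (nat_lit 29443176506) (nat_lit 152) (nat_lit 6610106857) (nat_lit 14) (nat_lit 5) (nat_lit 15) (nat_lit 5) (nat_lit 16) (nat_lit 4) (nat_lit 282) (nat_lit 250) (nat_lit 188))) (XT.nd (nat_lit 78) (nat_lit 152) (nat_lit 0) (XT.lf (nat_lit 0) (nat_lit 1516294790) (nat_lit 152) (nat_lit 16293026990) (nat_lit 76) (nat_lit 30336202775) (nat_lit 13) (nat_lit 5) (nat_lit 15) (nat_lit 5) (nat_lit 14) (nat_lit 5) (nat_lit 283) (nat_lit 250) (nat_lit 187)) (XT.lf (nat_lit 0) (nat_lit 5072362168) (nat_lit 152) (nat_lit 5054842773) (nat_lit 228) (nat_lit 41163026518) (nat_lit 11) (nat_lit 5) (nat_lit 13) (nat_lit 5) (nat_lit 14) (nat_lit 5) (nat_lit 284) (nat_lit 250) (nat_lit 186)))) (XT.nd (nat_lit 156) (nat_lit 152) (nat_lit 0) (XT.nd (nat_lit 78) (nat_lit 0) (nat_lit 0) (XT.lf (nat_lit 0) (nat_lit 19835946731) (nat_lit 228) (nat_lit 26110389694)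 (nat_lit 76) (nat_lit 8719759588) (nat_lit 11) (nat_lit 5) (nat_lit 14) (nat_lit 5) (nat_lit 12) (nat_lit 4) (nat_lit 285) (nat_lit 250) (nat_lit 185)) (XT.lf (nat_lit 0) (nat_lit 30392129678) (nat_lit 228) (nat_lit 4503684902) (nat_lit 76) (nat_lit 23412704949) (nat_lit 11) (nat_lit 5) (nat_lit 14) (nat_lit 5) (nat_lit 12) (nat_lit 4) (nat_lit 286) (nat_lit 250) (nat_lit 184))) (XT.nd (nat_lit 78) (nat_lit 76) (nat_lit 0) (XT.lf (nat_lit 0) (nat_lit 19431122340) (nat_lit 76) (nat_lit 22651640612) (nat_lit 152) (nat_lit 20145101084) (nat_lit 10) (nat_lit 5) (nat_lit 11) (nat_lit 5) (nat_lit 12) (nat_lit 4) (nat_lit 287) (nat_lit 250) (nat_lit 183)) (XT.nd (nat_lit 78) (nat_lit 76) (nat_lit 0) (XT.lf (nat_lit 0) (nat_lit 45420159457) (nat_lit 76) (nat_lit 9354180305) (nat_lit 152) (nat_lit 11683154751) (nat_lit 10) (nat_lit 5) (nat_lit 11) (nat_lit 5) (nat_lit 12) (nat_lit 4) (nat_lit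 288) (nat_lit 250) (nat_lit 182)) (XT.lf (nat_lit 0) (nat_lit 2442542707) (nat_lit 76) (nat_lit 66143071469) (nat_lit 76) (nat_lit 2434684023) (nat_lit 9) (nat_lit 4) (nat_lit 10) (nat_lit 5) (nat_lit 10) (nat_lit 4) (nat_lit 289) (nat_lit 250) (nat_lit 181)))))) (XT.nd (nat_lit 390) (nat_lit 152) (nat_lit 0) (XT.nd (nat_lit 156) (nat_lit 76) (nat_lit 0) (XT.nd (nat_lit 78) (nat_lit 0) (nat_lit 0) (XT.lf (nat_lit 0) (nat_lit 7830530881) (nat_lit 152) (nat_lit 47679229265) (nat_lit 76) (nat_lit 20406556615) (nat_lit 8) (nat_lit 5) (nat_lit 10) (nat_lit 5) (nat_lit 9) (nat_lit 4) (nat_lit 290) (nat_lit 250) (nat_lit 180)) (XT.lf (nat_lit 0) (nat_lit 18822098405) (nat_lit 152) (nat_lit 25168210401) (nat_lit 76) (nat_lit 37212208043) (nat_lit 8) (nat_lit 5) (nat_lit 10) (nat_lit 5) (nat_lit 9) (nat_lit 4) (nat_lit 291) (nat_lit 250) (nat_lit 179))) (XT.nd (nat_lit 78) (nat_lit 76) (nat_lit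 0) (XT.lf (nat_lit 0) (nat_lit 30683078858) (nat_lit 152) (nat_lit 873288028) (nat_lit 76) (nat_lit 55355757818) (nat_lit 8) (nat_lit 5) (nat_lit 10) (nat_lit 5) (nat_lit 9) (nat_lit 4) (nat_lit 292) (nat_lit 250) (nat_lit 178)) (XT.nd (nat_lit 78) (nat_lit 0) (nat_lit 0) (XT.lf (nat_lit 0) (nat_lit 26187676970) (nat_lit 76) (nat_lit 17704945589) (nat_lit 152) (nat_lit 49165909330) (nat_lit 7) (nat_lit 5) (nat_lit 8) (nat_lit 5) (nat_lit 9) (nat_lit 4) (nat_lit 293) (nat_lit 250) (nat_lit 177)) (XT.lf (nat_lit 0) (nat_lit 55429666820) (nat_lit 76) (nat_lit 2735741930) (nat_lit 152) (nat_lit 41530932784) (nat_lit 7) (nat_lit 5) (nat_lit 8) (nat_lit 5) (nat_lit 9) (nat_lit 4) (nat_lit 294) (nat_lit 250) (nat_lit 176))))) (XT.nd (nat_lit 156) (nat_lit 76) (nat_lit 0) (XT.nd (nat_lit 78) (nat_lit 76) (nat_lit 0) (XT.lf (nat_lit 0) (nat_lit 73781536001) (nat_lit 152) (nat_lit 20078104919)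 (nat_lit 0) (nat_lit 12995471934) (nat_lit 7) (nat_lit 5) (nat_lit 9) (nat_lit 4) (nat_lit 7) (nat_lit 4) (nat_lit 295) (nat_lit 250) (nat_lit 175)) (XT.lf (nat_lit 0) (nat_lit 6184158753) (nat_lit 76) (nat_lit 84597904706) (nat_lit 76) (nat_lit 23797778779) (nat_lit 6) (nat_lit 4) (nat_lit 7) (nat_lit 5) (nat_lit 7) (nat_lit 4) (nat_lit 296) (nat_lit 250) (nat_lit 174))) (XT.nd (nat_lit 78) (nat_lit 76) (nat_lit 0) (XT.lf (nat_lit 0) (nat_lit 35251765756) (nat_lit 76) (nat_lit 74233407188) (nat_lit 76) (nat_lit 13420261020) (nat_lit 6) (nat_lit 4) (nat_lit 7) (nat_lit 5) (nat_lit 7) (nat_lit 4) (nat_lit 297) (nat_lit 250) (nat_lit 173)) (XT.nd (nat_lit 78) (nat_lit 76) (nat_lit 0) (XT.lf (nat_lit 0) (nat_lit 66633095749) (nat_lit 76) (nat_lit 63044761545) (nat_lit 76) (nat_lit 2219559598) (nat_lit 6) (nat_lit 4) (nat_lit 7) (nat_lit 5) (nat_lit 7) (nat_lit 4) (nat_lit 298) (nat_lit 250)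 (nat_lit 172)) (XT.lf (nat_lit 0) (nat_lit 9554775969) (nat_lit 152) (nat_lit 41249073966) (nat_lit 76) (nat_lit 90797521446) (nat_lit 5) (nat_lit 5) (nat_lit 7) (nat_lit 5) (nat_lit 6) (nat_lit 4) (nat_lit 299) (nat_lit 250) (nat_lit 171))))))))
noncomputable def xc71 : XT := (XT.nd (nat_lit 1482) (nat_lit 152) (nat_lit 0) (XT.nd (nat_lit 702) (nat_lit 0) (nat_lit 0) (XT.nd (nat_lit 312) (nat_lit 76) (nat_lit 0) (XT.nd (nat_lit 156) (nat_lit 0) (nat_lit 0) (XT.nd (nat_lit 78) (nat_lit 76) (nat_lit 0) (XT.lf (nat_lit 0) (nat_lit 22188511406) (nat_lit 152) (nat_lit 15360252208) (nat_lit 76) (nat_lit 114531306829) (nat_lit 5) (nat_lit 5) (nat_lit 7) (nat_lit 5) (nat_lit 6) (nat_lit 4) (nat_lit 300) (nat_lit 250) (nat_lit 170)) (XT.lf (nat_lit 0) (nat_lit 13006502213) (nat_lit 76) (nat_lit 23024118797) (nat_lit 152) (nat_lit 127356568342) (nat_lit 4) (nat_lit 5) (nat_lit 5) (nat_lit 5) (nat_lit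 6) (nat_lit 4) (nat_lit 301) (nat_lit 250) (nat_lit 169))) (XT.nd (nat_lit 78) (nat_lit 0) (nat_lit 0) (XT.lf (nat_lit 0) (nat_lit 44182055490) (nat_lit 76) (nat_lit 7060475098) (nat_lit 152) (nat_lit 124343232744) (nat_lit 4) (nat_lit 5) (nat_lit 5) (nat_lit 5) (nat_lit 6) (nat_lit 4) (nat_lit 302) (nat_lit 250) (nat_lit 168)) (XT.lf (nat_lit 0) (nat_lit 67825524554) (nat_lit 152) (nat_lit 111076080965) (nat_lit 0) (nat_lit 9850917720) (nat_lit 4) (nat_lit 5) (nat_lit 6) (nat_lit 4) (nat_lit 4) (nat_lit 4) (nat_lit 303) (nat_lit 250) (nat_lit 167)))) (XT.nd (nat_lit 156) (nat_lit 76) (nat_lit 0) (XT.nd (nat_lit 78) (nat_lit 0) (nat_lit 0) (XT.lf (nat_lit 0) (nat_lit 85849756132) (nat_lit 152) (nat_lit 89249230124) (nat_lit 0) (nat_lit 27867913883) (nat_lit 4) (nat_lit 5) (nat_lit 6) (nat_lit 4) (nat_lit 4) (nat_lit 4) (nat_lit 304) (nat_lit 250) (nat_lit 166)) (XT.lf (nat_lit 0) (nat_lit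 105311801778) (nat_lit 152) (nat_lit 65683577215) (nat_lit 0) (nat_lit 47323260071) (nat_lit 4) (nat_lit 5) (nat_lit 6) (nat_lit 4) (nat_lit 4) (nat_lit 4) (nat_lit 305) (nat_lit 250) (nat_lit 165))) (XT.nd (nat_lit 78) (nat_lit 76) (nat_lit 0) (XT.lf (nat_lit 0) (nat_lit 126326992134) (nat_lit 152) (nat_lit 40239473924) (nat_lit 0) (nat_lit 68332247224) (nat_lit 4) (nat_lit 5) (nat_lit 6) (nat_lit 4) (nat_lit 4) (nat_lit 4) (nat_lit 306) (nat_lit 250) (nat_lit 164)) (XT.nd (nat_lit 78) (nat_lit 76) (nat_lit 0) (XT.lf (nat_lit 0) (nat_lit 149019861661) (nat_lit 152) (nat_lit 12766140380) (nat_lit 0) (nat_lit 91019373045) (nat_lit 4) (nat_lit 5) (nat_lit 6) (nat_lit 4) (nat_lit 4) (nat_lit 4) (nat_lit 307) (nat_lit 250) (nat_lit 163)) (XT.lf (nat_lit 0) (nat_lit 17457993164) (nat_lit 76) (nat_lit 156339461657) (nat_lit 76) (nat_lit 98333654796) (nat_lit 3) (nat_lit 4) (nat_lit 4) (nat_lit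 5) (nat_lit 4) (nat_lit 4) (nat_lit 308) (nat_lit 250) (nat_lit 162)))))) (XT.nd (nat_lit 390) (nat_lit 0) (nat_lit 0) (XT.nd (nat_lit 156) (nat_lit 0) (nat_lit 0) (XT.nd (nat_lit 78) (nat_lit 0) (nat_lit 0) (XT.lf (nat_lit 0) (nat_lit 50550354086) (nat_lit 76) (nat_lit 150226160589) (nat_lit 76) (nat_lit 92215429426) (nat_lit 3) (nat_lit 4) (nat_lit 4) (nat_lit 5) (nat_lit 4) (nat_lit 4) (nat_lit 309) (nat_lit 250) (nat_lit 161)) (XT.lf (nat_lit 0) (nat_lit 86284939011) (nat_lit 76) (nat_lit 143626072633) (nat_lit 76) (nat_lit 85610781931) (nat_lit 3) (nat_lit 4) (nat_lit 4) (nat_lit 5) (nat_lit 4) (nat_lit 4) (nat_lit 310) (nat_lit 250) (nat_lit 160))) (XT.nd (nat_lit 78) (nat_lit 0) (nat_lit 0) (XT.lf (nat_lit 0) (nat_lit 124873508440) (nat_lit 76) (nat_lit 136500086156) (nat_lit 76) (nat_lit 78480573659) (nat_lit 3) (nat_lit 4) (nat_lit 4) (nat_lit 5) (nat_lit 4) (nat_lit 4) (nat_lit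 311) (nat_lit 250) (nat_lit 159)) (XT.nd (nat_lit 78) (nat_lit 0) (nat_lit 0) (XT.lf (nat_lit 0) (nat_lit 166544735380) (nat_lit 76) (nat_lit 128805973090) (nat_lit 76) (nat_lit 70782551523) (nat_lit 3) (nat_lit 4) (nat_lit 4) (nat_lit 5) (nat_lit 4) (nat_lit 4) (nat_lit 312) (nat_lit 250) (nat_lit 158)) (XT.lf (nat_lit 0) (nat_lit 211545560432) (nat_lit 76) (nat_lit 120498138691) (nat_lit 76) (nat_lit 62471097616) (nat_lit 3) (nat_lit 4) (nat_lit 4) (nat_lit 5) (nat_lit 4) (nat_lit 4) (nat_lit 313) (nat_lit 250) (nat_lit 157))))) (XT.nd (nat_lit 156) (nat_lit 0) (nat_lit 0) (XT.nd (nat_lit 78) (nat_lit 0) (nat_lit 0) (XT.lf (nat_lit 0) (nat_lit 260142655154) (nat_lit 76) (nat_lit 111527351349) (nat_lit 76) (nat_lit 53496958876) (nat_lit 3) (nat_lit 4) (nat_lit 4) (nat_lit 5) (nat_lit 4) (nat_lit 4) (nat_lit 314) (nat_lit 250) (nat_lit 156)) (XT.lf (nat_lit 0) (nat_lit 312624002329) (nat_lit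 76) (nat_lit 101840450841) (nat_lit 76) (nat_lit 43806955223) (nat_lit 3) (nat_lit 4) (nat_lit 4) (nat_lit 5) (nat_lit 4) (nat_lit 4) (nat_lit 315) (nat_lit 250) (nat_lit 155))) (XT.nd (nat_lit 78) (nat_lit 0) (nat_lit 0) (XT.lf (nat_lit 0) (nat_lit 369300602533) (nat_lit 76) (nat_lit 91380033312) (nat_lit 76) (nat_lit 33343664412) (nat_lit 3) (nat_lit 4) (nat_lit 4) (nat_lit 5) (nat_lit 4) (nat_lit 4) (nat_lit 316) (nat_lit 250) (nat_lit 154)) (XT.nd (nat_lit 78) (nat_lit 0) (nat_lit 0) (XT.lf (nat_lit 0) (nat_lit 430508317099) (nat_lit 76) (nat_lit 80084111105) (nat_lit 76) (nat_lit 22045081757) (nat_lit 3) (nat_lit 4) (nat_lit 4) (nat_lit 5) (nat_lit 4) (nat_lit 4) (nat_lit 317) (nat_lit 250) (nat_lit 153)) (XT.lf (nat_lit 0) (nat_lit 496609858412) (nat_lit 76) (nat_lit 67885745419) (nat_lit 76) (nat_lit 9844252695) (nat_lit 3) (nat_lit 4) (nat_lit 4) (nat_lit 5) (nat_lit 4) (nat_lit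 4) (nat_lit 318) (nat_lit 250) (nat_lit 152))))))) (XT.nd (nat_lit 32604) (nat_lit 0) (nat_lit 3192) (XT.nd (nat_lit 32214) (nat_lit 0) (nat_lit 5548) (XT.nd (nat_lit 156) (nat_lit 76) (nat_lit 0) (XT.nd (nat_lit 78) (nat_lit 0) (nat_lit 0) (XT.lf (nat_lit 0) (nat_lit 3224507213) (nat_lit 152) (nat_lit 51433533840) (nat_lit 76) (nat_lit 564717823504) (nat_lit 2) (nat_lit 5) (nat_lit 4) (nat_lit 5) (nat_lit 3) (nat_lit 4) (nat_lit 319) (nat_lit 250) (nat_lit 151)) (XT.lf (nat_lit 0) (nat_lit 16997122941) (nat_lit 152) (nat_lit 23201783546) (nat_lit 76) (nat_lit 627807616898) (nat_lit 2) (nat_lit 5) (nat_lit 4) (nat_lit 5) (nat_lit 3) (nat_lit 4) (nat_lit 320) (nat_lit 250) (nat_lit 150))) (XT.nd (nat_lit 78) (nat_lit 0) (nat_lit 0) (XT.lf (nat_lit 0) (nat_lit 7527164678) (nat_lit 76) (nat_lit 24460643011) (nat_lit 152) (nat_lit 688534015813) (nat_lit 1) (nat_lit 5) (nat_lit 2) (nat_lit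 5) (nat_lit 3) (nat_lit 4) (nat_lit 321) (nat_lit 250) (nat_lit 149)) (XT.lf (nat_lit 0) (nat_lit 41540796744) (nat_lit 76) (nat_lit 7039909833) (nat_lit 152) (nat_lit 728637494537) (nat_lit 1) (nat_lit 5) (nat_lit 2) (nat_lit 5) (nat_lit 3) (nat_lit 4) (nat_lit 322) (nat_lit 250) (nat_lit 148)))) (XT.nd (nat_lit 156) (nat_lit 0) (nat_lit 76) (XT.nd (nat_lit 78) (nat_lit 0) (nat_lit 0) (XT.lf (nat_lit 0) (nat_lit 1831682089) (nat_lit 684) (nat_lit 1599070135) (nat_lit 684) (nat_lit 1599070135) (nat_lit 74) (nat_lit 3) (nat_lit 83) (nat_lit 3) (nat_lit 83) (nat_lit 5) (nat_lit 251) (nat_lit 251) (nat_lit 218)) (XT.lf (nat_lit 76) (nat_lit 3643011068) (nat_lit 0) (nat_lit 1196997579) (nat_lit 684) (nat_lit 5566289261) (nat_lit 75) (nat_lit 5) (nat_lit 74) (nat_lit 3) (nat_lit 83) (nat_lit 5) (nat_lit 252) (nat_lit 251) (nat_lit 217))) (XT.nd (nat_lit 78) (nat_lit 0) (nat_lit 76) (XT.lf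 (nat_lit 76) (nat_lit 238592947) (nat_lit 0) (nat_lit 5911872364) (nat_lit 684) (nat_lit 4628656922) (nat_lit 76) (nat_lit 5) (nat_lit 75) (nat_lit 5) (nat_lit 84) (nat_lit 5) (nat_lit 253) (nat_lit 251) (nat_lit 216)) (XT.nd (nat_lit 78) (nat_lit 0) (nat_lit 0) (XT.lf (nat_lit 0) (nat_lit 7617779182) (nat_lit 608) (nat_lit 3220554028) (nat_lit 684) (nat_lit 341229848) (nat_lit 76) (nat_lit 5) (nat_lit 84) (nat_lit 5) (nat_lit 85) (nat_lit 5) (nat_lit 254) (nat_lit 251) (nat_lit 215)) (XT.lf (nat_lit 76) (nat_lit 4677650772) (nat_lit 0) (nat_lit 4613643498) (nat_lit 684) (nat_lit 2316666654) (nat_lit 77) (nat_lit 5) (nat_lit 76) (nat_lit 5) (nat_lit 85) (nat_lit 5) (nat_lit 255) (nat_lit 251) (nat_lit 214)))))) (XT.nd (nat_lit 390) (nat_lit 1292) (nat_lit 0) (XT.nd (nat_lit 156) (nat_lit 608) (nat_lit 0) (XT.nd (nat_lit 78) (nat_lit 684) (nat_lit 0) (XT.lf (nat_lit 76) (nat_lit 1199913558)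 (nat_lit 0) (nat_lit 9929285011) (nat_lit 684) (nat_lit 940242373) (nat_lit 78) (nat_lit 5) (nat_lit 77) (nat_lit 5) (nat_lit 86) (nat_lit 5) (nat_lit 256) (nat_lit 251) (nat_lit 213)) (XT.lf (nat_lit 0) (nat_lit 654532036) (nat_lit 684) (nat_lit 2481787825) (nat_lit 760) (nat_lit 9425103038) (nat_lit 68) (nat_lit 5) (nat_lit 77) (nat_lit 5) (nat_lit 78) (nat_lit 5) (nat_lit 257) (nat_lit 251) (nat_lit 212))) (XT.nd (nat_lit 78) (nat_lit 684) (nat_lit 0) (XT.lf (nat_lit 0) (nat_lit 2447857625) (nat_lit 684) (nat_lit 6437296908) (nat_lit 76) (nat_lit 4201916776) (nat_lit 69) (nat_lit 5) (nat_lit 78) (nat_lit 5) (nat_lit 70) (nat_lit 5) (nat_lit 258) (nat_lit 251) (nat_lit 211)) (XT.nd (nat_lit 78) (nat_lit 0) (nat_lit 0) (XT.lf (nat_lit 0) (nat_lit 2931531727) (nat_lit 684) (nat_lit 1530966529) (nat_lit 760) (nat_lit 9188634700) (nat_lit 60) (nat_lit 5) (nat_lit 69) (nat_lit 5) (nat_lit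 70) (nat_lit 5) (nat_lit 259) (nat_lit 251) (nat_lit 210)) (XT.lf (nat_lit 0) (nat_lit 6791695080) (nat_lit 760) (nat_lit 1134411319) (nat_lit 76) (nat_lit 6326778905) (nat_lit 60) (nat_lit 5) (nat_lit 70) (nat_lit 5) (nat_lit 61) (nat_lit 5) (nat_lit 260) (nat_lit 251) (nat_lit 209))))) (XT.nd (nat_lit 156) (nat_lit 684) (nat_lit 0) (XT.nd (nat_lit 78) (nat_lit 304) (nat_lit 0) (XT.lf (nat_lit 0) (nat_lit 9424501538) (nat_lit 380) (nat_lit 5456700402) (nat_lit 76) (nat_lit 15929812) (nat_lit 56) (nat_lit 5) (nat_lit 61) (nat_lit 5) (nat_lit 57) (nat_lit 5) (nat_lit 261) (nat_lit 251) (nat_lit 208)) (XT.lf (nat_lit 0) (nat_lit 5291429289) (nat_lit 304) (nat_lit 7160053905) (nat_lit 380) (nat_lit 3132458676) (nat_lit 52) (nat_lit 5) (nat_lit 56) (nat_lit 5) (nat_lit 57) (nat_lit 5) (nat_lit 262) (nat_lit 251) (nat_lit 207))) (XT.nd (nat_lit 78) (nat_lit 380) (nat_lit 0) (XT.lf (nat_lit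 0) (nat_lit 722377055) (nat_lit 304) (nat_lit 15074822377) (nat_lit 380) (nat_lit 524855125) (nat_lit 48) (nat_lit 5) (nat_lit 52) (nat_lit 5) (nat_lit 53) (nat_lit 5) (nat_lit 263) (nat_lit 251) (nat_lit 206)) (XT.nd (nat_lit 78) (nat_lit 304) (nat_lit 0) (XT.lf (nat_lit 0) (nat_lit 2473201414) (nat_lit 380) (nat_lit 4337193197) (nat_lit 76) (nat_lit 10294438320) (nat_lit 47) (nat_lit 5) (nat_lit 52) (nat_lit 5) (nat_lit 48) (nat_lit 5) (nat_lit 264) (nat_lit 251) (nat_lit 205)) (XT.lf (nat_lit 0) (nat_lit 5809150884) (nat_lit 380) (nat_lit 9956282913) (nat_lit 76) (nat_lit 2178700060) (nat_lit 43) (nat_lit 5) (nat_lit 48) (nat_lit 5) (nat_lit 44) (nat_lit 5) (nat_lit 265) (nat_lit 251) (nat_lit 204))))))))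
noncomputable def xc72 : XT := (XT.nd (nat_lit 1404) (nat_lit 760) (nat_lit 0) (XT.nd (nat_lit 702) (nat_lit 760) (nat_lit 0) (XT.nd (nat_lit 312) (nat_lit 684) (nat_lit 0) (XT.nd (nat_lit 156) (nat_lit 532) (nat_lit 0) (XT.nd (nat_lit 78) (nat_lit 0) (nat_lit 0) (XT.lf (nat_lit 0) (nat_lit 2522107684) (nat_lit 228) (nat_lit 7079081422) (nat_lit 304) (nat_lit 9240070160) (nat_lit 40) (nat_lit 5) (nat_lit 43) (nat_lit 5) (nat_lit 44) (nat_lit 5) (nat_lit 266) (nat_lit 251) (nat_lit 203)) (XT.lf (nat_lit 0) (nat_lit 13869251471) (nat_lit 304) (nat_lit 3535309327) (nat_lit 76) (nat_lit 2397091453) (nat_lit 40) (nat_lit 5) (nat_lit 44) (nat_lit 5) (nat_lit 41) (nat_lit 5) (nat_lit 267) (nat_lit 251) (nat_lit 202))) (XT.nd (nat_lit 78) (nat_lit 304) (nat_lit 0) (XT.lf (nat_lit 0) (nat_lit 10440340543) (nat_lit 228) (nat_lit 8284160133) (nat_lit 304) (nat_lit 2102209833) (nat_lit 37) (nat_lit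 5) (nat_lit 40) (nat_lit 5) (nat_lit 41) (nat_lit 5) (nat_lit 268) (nat_lit 251) (nat_lit 201)) (XT.lf (nat_lit 0) (nat_lit 2082312486) (nat_lit 304) (nat_lit 18182199170) (nat_lit 76) (nat_lit 1662128800) (nat_lit 33) (nat_lit 5) (nat_lit 37) (nat_lit 5) (nat_lit 34) (nat_lit 5) (nat_lit 269) (nat_lit 251) (nat_lit 200)))) (XT.nd (nat_lit 156) (nat_lit 456) (nat_lit 0) (XT.nd (nat_lit 78) (nat_lit 228) (nat_lit 0) (XT.lf (nat_lit 0) (nat_lit 6819023575) (nat_lit 304) (nat_lit 3951642617) (nat_lit 76) (nat_lit 12327720314) (nat_lit 33) (nat_lit 5) (nat_lit 37) (nat_lit 5) (nat_lit 34) (nat_lit 5) (nat_lit 270) (nat_lit 251) (nat_lit 199)) (XT.lf (nat_lit 0) (nat_lit 11752171492) (nat_lit 228) (nat_lit 334982199) (nat_lit 304) (nat_lit 12269185865) (nat_lit 30) (nat_lit 5) (nat_lit 33) (nat_lit 5) (nat_lit 34) (nat_lit 5) (nat_lit 271) (nat_lit 251) (nat_lit 198))) (XT.nd (nat_lit 78)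 (nat_lit 304) (nat_lit 0) (XT.lf (nat_lit 0) (nat_lit 3025977481) (nat_lit 152) (nat_lit 15009216534) (nat_lit 228) (nat_lit 7666896497) (nat_lit 28) (nat_lit 5) (nat_lit 30) (nat_lit 5) (nat_lit 31) (nat_lit 5) (nat_lit 272) (nat_lit 251) (nat_lit 197)) (XT.nd (nat_lit 78) (nat_lit 304) (nat_lit 0) (XT.lf (nat_lit 0) (nat_lit 20311643743) (nat_lit 152) (nat_lit 4344637916) (nat_lit 228) (nat_lit 2489438060) (nat_lit 28) (nat_lit 5) (nat_lit 30) (nat_lit 5) (nat_lit 31) (nat_lit 5) (nat_lit 273) (nat_lit 251) (nat_lit 196)) (XT.lf (nat_lit 0) (nat_lit 3256251742) (nat_lit 304) (nat_lit 18284276498) (nat_lit 76) (nat_lit 7149292175) (nat_lit 24) (nat_lit 5) (nat_lit 28) (nat_lit 5) (nat_lit 25) (nat_lit 5) (nat_lit 274) (nat_lit 251) (nat_lit 195)))))) (XT.nd (nat_lit 312) (nat_lit 456) (nat_lit 0) (XT.nd (nat_lit 156) (nat_lit 152) (nat_lit 0) (XT.nd (nat_lit 78) (nat_lit 152) (nat_lit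 0) (XT.lf (nat_lit 0) (nat_lit 9544693554) (nat_lit 304) (nat_lit 1237023106) (nat_lit 76) (nat_lit 19565240253) (nat_lit 24) (nat_lit 5) (nat_lit 28) (nat_lit 5) (nat_lit 25) (nat_lit 5) (nat_lit 275) (nat_lit 251) (nat_lit 194)) (XT.lf (nat_lit 0) (nat_lit 16606860201) (nat_lit 228) (nat_lit 14434767082) (nat_lit 76) (nat_lit 1081563832) (nat_lit 22) (nat_lit 5) (nat_lit 25) (nat_lit 5) (nat_lit 23) (nat_lit 5) (nat_lit 276) (nat_lit 251) (nat_lit 193))) (XT.nd (nat_lit 78) (nat_lit 0) (nat_lit 0) (XT.lf (nat_lit 0) (nat_lit 4045449594) (nat_lit 152) (nat_lit 20433215858) (nat_lit 228) (nat_lit 9550680206) (nat_lit 20) (nat_lit 5) (nat_lit 22) (nat_lit 5) (nat_lit 23) (nat_lit 5) (nat_lit 277) (nat_lit 251) (nat_lit 192)) (XT.lf (nat_lit 0) (nat_lit 24487489480) (nat_lit 152) (nat_lit 8723117319) (nat_lit 228) (nat_lit 2865916986) (nat_lit 20) (nat_lit 5) (nat_lit 22) (nat_lit 5) (nat_lit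 23) (nat_lit 5) (nat_lit 278) (nat_lit 251) (nat_lit 191)))) (XT.nd (nat_lit 156) (nat_lit 228) (nat_lit 0) (XT.nd (nat_lit 78) (nat_lit 0) (nat_lit 0) (XT.lf (nat_lit 0) (nat_lit 4390720058) (nat_lit 228) (nat_lit 29893394377) (nat_lit 76) (nat_lit 3991186110) (nat_lit 17) (nat_lit 5) (nat_lit 20) (nat_lit 5) (nat_lit 18) (nat_lit 5) (nat_lit 279) (nat_lit 251) (nat_lit 190)) (XT.lf (nat_lit 0) (nat_lit 12462092626) (nat_lit 228) (nat_lit 10504130466) (nat_lit 76) (nat_lit 17664718107) (nat_lit 17) (nat_lit 5) (nat_lit 20) (nat_lit 5) (nat_lit 18) (nat_lit 5) (nat_lit 280) (nat_lit 251) (nat_lit 189))) (XT.nd (nat_lit 78) (nat_lit 76) (nat_lit 0) (XT.lf (nat_lit 0) (nat_lit 10752758151) (nat_lit 152) (nat_lit 10576704374) (nat_lit 228) (nat_lit 21838094615) (nat_lit 15) (nat_lit 5) (nat_lit 17) (nat_lit 5) (nat_lit 18) (nat_lit 5) (nat_lit 281) (nat_lit 251) (nat_lit 188)) (XT.nd (nat_lit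 78) (nat_lit 76) (nat_lit 0) (XT.lf (nat_lit 0) (nat_lit 31119119009) (nat_lit 228) (nat_lit 11886621628) (nat_lit 76) (nat_lit 2890752434) (nat_lit 15) (nat_lit 5) (nat_lit 18) (nat_lit 5) (nat_lit 16) (nat_lit 4) (nat_lit 282) (nat_lit 251) (nat_lit 187)) (XT.lf (nat_lit 0) (nat_lit 10413593804) (nat_lit 76) (nat_lit 31603675017) (nat_lit 152) (nat_lit 6810241945) (nat_lit 14) (nat_lit 5) (nat_lit 15) (nat_lit 5) (nat_lit 16) (nat_lit 4) (nat_lit 283) (nat_lit 251) (nat_lit 186))))))) (XT.nd (nat_lit 702) (nat_lit 304) (nat_lit 0) (XT.nd (nat_lit 312) (nat_lit 228) (nat_lit 0) (XT.nd (nat_lit 156) (nat_lit 0) (nat_lit 0) (XT.nd (nat_lit 78) (nat_lit 152) (nat_lit 0) (XT.lf (nat_lit 0) (nat_lit 1932185279) (nat_lit 152) (nat_lit 17116378820) (nat_lit 76) (nat_lit 32933306540) (nat_lit 13) (nat_lit 5) (nat_lit 15) (nat_lit 5) (nat_lit 14) (nat_lit 5) (nat_lit 284) (nat_lit 251) (nat_lit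 185)) (XT.lf (nat_lit 0) (nat_lit 5937377331) (nat_lit 152) (nat_lit 5279939467) (nat_lit 228) (nat_lit 44161611835) (nat_lit 11) (nat_lit 5) (nat_lit 13) (nat_lit 5) (nat_lit 14) (nat_lit 5) (nat_lit 285) (nat_lit 251) (nat_lit 184))) (XT.nd (nat_lit 78) (nat_lit 0) (nat_lit 0) (XT.lf (nat_lit 0) (nat_lit 21684613851) (nat_lit 228) (nat_lit 27763157625) (nat_lit 76) (nat_lit 9578036935) (nat_lit 11) (nat_lit 5) (nat_lit 14) (nat_lit 5) (nat_lit 12) (nat_lit 4) (nat_lit 286) (nat_lit 251) (nat_lit 183)) (XT.lf (nat_lit 0) (nat_lit 33065899479) (nat_lit 228) (nat_lit 4460217432) (nat_lit 76) (nat_lit 25434514473) (nat_lit 11) (nat_lit 5) (nat_lit 14) (nat_lit 5) (nat_lit 12) (nat_lit 4) (nat_lit 287) (nat_lit 251) (nat_lit 182)))) (XT.nd (nat_lit 156) (nat_lit 152) (nat_lit 0) (XT.nd (nat_lit 78) (nat_lit 0) (nat_lit 0) (XT.lf (nat_lit 0) (nat_lit 21371827374) (nat_lit 76) (nat_lit 24308030431)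 (nat_lit 152) (nat_lit 21514295242) (nat_lit 10) (nat_lit 5) (nat_lit 11) (nat_lit 5) (nat_lit 12) (nat_lit 4) (nat_lit 288) (nat_lit 251) (nat_lit 181)) (XT.lf (nat_lit 0) (nat_lit 49411378923) (nat_lit 76) (nat_lit 9958309701) (nat_lit 152) (nat_lit 12393349789) (nat_lit 10) (nat_lit 5) (nat_lit 11) (nat_lit 5) (nat_lit 12) (nat_lit 4) (nat_lit 289) (nat_lit 251) (nat_lit 180))) (XT.nd (nat_lit 78) (nat_lit 76) (nat_lit 0) (XT.lf (nat_lit 0) (nat_lit 2988433276) (nat_lit 76) (nat_lit 71289180942) (nat_lit 76) (nat_lit 2413693277) (nat_lit 9) (nat_lit 4) (nat_lit 10) (nat_lit 5) (nat_lit 10) (nat_lit 4) (nat_lit 290) (nat_lit 251) (nat_lit 179)) (XT.nd (nat_lit 78) (nat_lit 0) (nat_lit 0) (XT.lf (nat_lit 0) (nat_lit 8650361893) (nat_lit 152) (nat_lit 51162333339) (nat_lit 76) (nat_lit 22166942616) (nat_lit 8) (nat_lit 5) (nat_lit 10) (nat_lit 5) (nat_lit 9) (nat_lit 4) (nat_lit 291)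 (nat_lit 251) (nat_lit 178)) (XT.lf (nat_lit 0) (nat_lit 20506929742) (nat_lit 152) (nat_lit 26874968837) (nat_lit 76) (nat_lit 40307574938) (nat_lit 8) (nat_lit 5) (nat_lit 10) (nat_lit 5) (nat_lit 9) (nat_lit 4) (nat_lit 292) (nat_lit 251) (nat_lit 177)))))) (XT.nd (nat_lit 390) (nat_lit 152) (nat_lit 0) (XT.nd (nat_lit 156) (nat_lit 76) (nat_lit 0) (XT.nd (nat_lit 78) (nat_lit 76) (nat_lit 0) (XT.lf (nat_lit 0) (nat_lit 33303524671) (nat_lit 152) (nat_lit 659171074) (nat_lit 76) (nat_lit 59893839047) (nat_lit 8) (nat_lit 5) (nat_lit 10) (nat_lit 5) (nat_lit 9) (nat_lit 4) (nat_lit 293) (nat_lit 251) (nat_lit 176)) (XT.lf (nat_lit 0) (nat_lit 28554329699) (nat_lit 76) (nat_lit 19007461764) (nat_lit 152) (nat_lit 52933285103) (nat_lit 7) (nat_lit 5) (nat_lit 8) (nat_lit 5) (nat_lit 9) (nat_lit 4) (nat_lit 294) (nat_lit 251) (nat_lit 175))) (XT.nd (nat_lit 78) (nat_lit 76) (nat_lit 0)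 (XT.lf (nat_lit 0) (nat_lit 60115557362) (nat_lit 76) (nat_lit 2849157328) (nat_lit 152) (nat_lit 44699799098) (nat_lit 7) (nat_lit 5) (nat_lit 8) (nat_lit 5) (nat_lit 9) (nat_lit 4) (nat_lit 295) (nat_lit 251) (nat_lit 174)) (XT.nd (nat_lit 78) (nat_lit 76) (nat_lit 0) (XT.lf (nat_lit 0) (nat_lit 79820836210) (nat_lit 152) (nat_lit 21446014433) (nat_lit 0) (nat_lit 14129618107) (nat_lit 7) (nat_lit 5) (nat_lit 9) (nat_lit 4) (nat_lit 7) (nat_lit 4) (nat_lit 296) (nat_lit 251) (nat_lit 173)) (XT.lf (nat_lit 0) (nat_lit 6906872416) (nat_lit 76) (nat_lit 91267961216) (nat_lit 76) (nat_lit 25564687335) (nat_lit 6) (nat_lit 4) (nat_lit 7) (nat_lit 5) (nat_lit 7) (nat_lit 4) (nat_lit 297) (nat_lit 251) (nat_lit 172))))) (XT.nd (nat_lit 156) (nat_lit 152) (nat_lit 0) (XT.nd (nat_lit 78) (nat_lit 0) (nat_lit 0) (XT.lf (nat_lit 0) (nat_lit 38283000500) (nat_lit 76) (nat_lit 80081546554) (nat_lit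 76) (nat_lit 14367109914) (nat_lit 6) (nat_lit 4) (nat_lit 7) (nat_lit 5) (nat_lit 7) (nat_lit 4) (nat_lit 298) (nat_lit 251) (nat_lit 171)) (XT.lf (nat_lit 0) (nat_lit 72159200338) (nat_lit 76) (nat_lit 68004515423) (nat_lit 76) (nat_lit 2279742896) (nat_lit 6) (nat_lit 4) (nat_lit 7) (nat_lit 5) (nat_lit 7) (nat_lit 4) (nat_lit 299) (nat_lit 251) (nat_lit 170))) (XT.nd (nat_lit 78) (nat_lit 76) (nat_lit 0) (XT.lf (nat_lit 0) (nat_lit 10424365945) (nat_lit 152) (nat_lit 44364392604) (nat_lit 76) (nat_lit 98135312155) (nat_lit 5) (nat_lit 5) (nat_lit 7) (nat_lit 5) (nat_lit 6) (nat_lit 4) (nat_lit 300) (nat_lit 251) (nat_lit 169)) (XT.nd (nat_lit 78) (nat_lit 76) (nat_lit 0) (XT.lf (nat_lit 0) (nat_lit 24061007039) (nat_lit 152) (nat_lit 16418139719) (nat_lit 76) (nat_lit 123762319703) (nat_lit 5) (nat_lit 5) (nat_lit 7) (nat_lit 5) (nat_lit 6) (nat_lit 4) (nat_lit 301) (nat_lit 251)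 (nat_lit 168)) (XT.lf (nat_lit 0) (nat_lit 14210526530) (nat_lit 76) (nat_lit 24795295733) (nat_lit 152) (nat_lit 137447576064) (nat_lit 4) (nat_lit 5) (nat_lit 5) (nat_lit 5) (nat_lit 6) (nat_lit 4) (nat_lit 302) (nat_lit 251) (nat_lit 167))))))))
noncomputable def xc73 : XT := (XT.nd (nat_lit 1404) (nat_lit 76) (nat_lit 0) (XT.nd (nat_lit 702) (nat_lit 76) (nat_lit 0) (XT.nd (nat_lit 312) (nat_lit 76) (nat_lit 0) (XT.nd (nat_lit 156) (nat_lit 0) (nat_lit 0) (XT.nd (nat_lit 78) (nat_lit 0) (nat_lit 0) (XT.lf (nat_lit 0) (nat_lit 47868012651) (nat_lit 76) (nat_lit 7559801469) (nat_lit 152) (nat_lit 134200397155) (nat_lit 4) (nat_lit 5) (nat_lit 5) (nat_lit 5) (nat_lit 6) (nat_lit 4) (nat_lit 303) (nat_lit 251) (nat_lit 166)) (XT.lf (nat_lit 0) (nat_lit 73332033099) (nat_lit 152) (nat_lit 119818849826) (nat_lit 0) (nat_lit 10697708596) (nat_lit 4) (nat_lit 5) (nat_lit 6) (nat_lit 4) (nat_lit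 4) (nat_lit 4) (nat_lit 304) (nat_lit 251) (nat_lit 165))) (XT.nd (nat_lit 78) (nat_lit 0) (nat_lit 0) (XT.lf (nat_lit 0) (nat_lit 92792242715) (nat_lit 152) (nat_lit 96256467038) (nat_lit 0) (nat_lit 30151715011) (nat_lit 4) (nat_lit 5) (nat_lit 6) (nat_lit 4) (nat_lit 4) (nat_lit 4) (nat_lit 305) (nat_lit 251) (nat_lit 164)) (XT.lf (nat_lit 0) (nat_lit 113805733043) (nat_lit 152) (nat_lit 70815391636) (nat_lit 0) (nat_lit 51159461633) (nat_lit 4) (nat_lit 5) (nat_lit 6) (nat_lit 4) (nat_lit 4) (nat_lit 4) (nat_lit 306) (nat_lit 251) (nat_lit 163)))) (XT.nd (nat_lit 156) (nat_lit 76) (nat_lit 0) (XT.nd (nat_lit 78) (nat_lit 0) (nat_lit 0) (XT.lf (nat_lit 0) (nat_lit 136497028470) (nat_lit 152) (nat_lit 43344861694) (nat_lit 0) (nat_lit 73845438814) (nat_lit 4) (nat_lit 5) (nat_lit 6) (nat_lit 4) (nat_lit 4) (nat_lit 4) (nat_lit 307) (nat_lit 251) (nat_lit 162)) (XT.lf (nat_lit 0) (nat_lit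 161000595932) (nat_lit 152) (nat_lit 13682088884) (nat_lit 0) (nat_lit 98344081974) (nat_lit 4) (nat_lit 5) (nat_lit 6) (nat_lit 4) (nat_lit 4) (nat_lit 4) (nat_lit 308) (nat_lit 251) (nat_lit 161))) (XT.nd (nat_lit 78) (nat_lit 0) (nat_lit 0) (XT.lf (nat_lit 0) (nat_lit 18955397277) (nat_lit 76) (nat_lit 168802191350) (nat_lit 76) (nat_lit 106141117854) (nat_lit 3) (nat_lit 4) (nat_lit 4) (nat_lit 5) (nat_lit 4) (nat_lit 4) (nat_lit 309) (nat_lit 251) (nat_lit 160)) (XT.nd (nat_lit 78) (nat_lit 0) (nat_lit 0) (XT.lf (nat_lit 0) (nat_lit 54687683024) (nat_lit 76) (nat_lit 162203117104) (nat_lit 76) (nat_lit 99537821812) (nat_lit 3) (nat_lit 4) (nat_lit 4) (nat_lit 5) (nat_lit 4) (nat_lit 4) (nat_lit 310) (nat_lit 251) (nat_lit 159)) (XT.lf (nat_lit 0) (nat_lit 93274123586) (nat_lit 76) (nat_lit 155078069246) (nat_lit 76) (nat_lit 92408864885) (nat_lit 3) (nat_lit 4) (nat_lit 4) (nat_lit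 5) (nat_lit 4) (nat_lit 4) (nat_lit 311) (nat_lit 251) (nat_lit 158)))))) (XT.nd (nat_lit 312) (nat_lit 76) (nat_lit 0) (XT.nd (nat_lit 156) (nat_lit 0) (nat_lit 0) (XT.nd (nat_lit 78) (nat_lit 0) (nat_lit 0) (XT.lf (nat_lit 0) (nat_lit 134943379352) (nat_lit 76) (nat_lit 147384825273) (nat_lit 76) (nat_lit 84712001403) (nat_lit 3) (nat_lit 4) (nat_lit 4) (nat_lit 5) (nat_lit 4) (nat_lit 4) (nat_lit 312) (nat_lit 251) (nat_lit 157)) (XT.lf (nat_lit 0) (nat_lit 179942379243) (nat_lit 76) (nat_lit 139077795590) (nat_lit 76) (nat_lit 76401620323) (nat_lit 3) (nat_lit 4) (nat_lit 4) (nat_lit 5) (nat_lit 4) (nat_lit 4) (nat_lit 313) (nat_lit 251) (nat_lit 156))) (XT.nd (nat_lit 78) (nat_lit 0) (nat_lit 0) (XT.lf (nat_lit 0) (nat_lit 228537784001) (nat_lit 76) (nat_lit 130107753354) (nat_lit 76) (nat_lit 67428474942) (nat_lit 3) (nat_lit 4) (nat_lit 4) (nat_lit 5) (nat_lit 4) (nat_lit 4) (nat_lit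 314) (nat_lit 251) (nat_lit 155)) (XT.lf (nat_lit 0) (nat_lit 281017566395) (nat_lit 76) (nat_lit 120421542760) (nat_lit 76) (nat_lit 57739391065) (nat_lit 3) (nat_lit 4) (nat_lit 4) (nat_lit 5) (nat_lit 4) (nat_lit 4) (nat_lit 315) (nat_lit 251) (nat_lit 154)))) (XT.nd (nat_lit 156) (nat_lit 76) (nat_lit 0) (XT.nd (nat_lit 78) (nat_lit 0) (nat_lit 0) (XT.lf (nat_lit 0) (nat_lit 337692717727) (nat_lit 76) (nat_lit 109961764041) (nat_lit 76) (nat_lit 47276951898) (nat_lit 3) (nat_lit 4) (nat_lit 4) (nat_lit 5) (nat_lit 4) (nat_lit 4) (nat_lit 316) (nat_lit 251) (nat_lit 153)) (XT.lf (nat_lit 0) (nat_lit 398899090746) (nat_lit 76) (nat_lit 98666433323) (nat_lit 76) (nat_lit 35979157803) (nat_lit 3) (nat_lit 4) (nat_lit 4) (nat_lit 5) (nat_lit 4) (nat_lit 4) (nat_lit 317) (nat_lit 251) (nat_lit 152))) (XT.nd (nat_lit 78) (nat_lit 76) (nat_lit 0) (XT.lf (nat_lit 0) (nat_lit 464999389884)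 (nat_lit 76) (nat_lit 86468615313) (nat_lit 76) (nat_lit 23779058889) (nat_lit 3) (nat_lit 4) (nat_lit 4) (nat_lit 5) (nat_lit 4) (nat_lit 4) (nat_lit 318) (nat_lit 251) (nat_lit 151)) (XT.nd (nat_lit 78) (nat_lit 76) (nat_lit 0) (XT.lf (nat_lit 0) (nat_lit 536385320619) (nat_lit 76) (nat_lit 73296026645) (nat_lit 76) (nat_lit 10604358272) (nat_lit 3) (nat_lit 4) (nat_lit 4) (nat_lit 5) (nat_lit 4) (nat_lit 4) (nat_lit 319) (nat_lit 251) (nat_lit 150)) (XT.lf (nat_lit 0) (nat_lit 3507057196) (nat_lit 152) (nat_lit 55504156627) (nat_lit 76) (nat_lit 609913459781) (nat_lit 2) (nat_lit 5) (nat_lit 4) (nat_lit 5) (nat_lit 3) (nat_lit 4) (nat_lit 320) (nat_lit 251) (nat_lit 149))))))) (XT.nd (nat_lit 32682) (nat_lit 0) (nat_lit 2964) (XT.nd (nat_lit 32292) (nat_lit 0) (nat_lit 5092) (XT.nd (nat_lit 32136) (nat_lit 0) (nat_lit 5548) (XT.nd (nat_lit 78) (nat_lit 76) (nat_lit 0) (XT.lf (nat_lit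 0) (nat_lit 18379660745) (nat_lit 152) (nat_lit 25017130007) (nat_lit 76) (nat_lit 678049087728) (nat_lit 2) (nat_lit 5) (nat_lit 4) (nat_lit 5) (nat_lit 3) (nat_lit 4) (nat_lit 321) (nat_lit 251) (nat_lit 148)) (XT.lf (nat_lit 0) (nat_lit 8168361121) (nat_lit 76) (nat_lit 26400161898) (nat_lit 152) (nat_lit 743593935552) (nat_lit 1) (nat_lit 5) (nat_lit 2) (nat_lit 5) (nat_lit 3) (nat_lit 4) (nat_lit 322) (nat_lit 251) (nat_lit 147))) (XT.nd (nat_lit 78) (nat_lit 0) (nat_lit 0) (XT.lf (nat_lit 0) (nat_lit 2928042686) (nat_lit 684) (nat_lit 1226274358) (nat_lit 684) (nat_lit 1226274358) (nat_lit 74) (nat_lit 3) (nat_lit 83) (nat_lit 3) (nat_lit 83) (nat_lit 5) (nat_lit 252) (nat_lit 252) (nat_lit 216)) (XT.lf (nat_lit 76) (nat_lit 4892373246) (nat_lit 0) (nat_lit 2108729023) (nat_lit 684) (nat_lit 4141365116) (nat_lit 75) (nat_lit 5) (nat_lit 74) (nat_lit 3) (nat_lit 83) (nat_lit 5) (nat_lit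 253) (nat_lit 252) (nat_lit 215)))) (XT.nd (nat_lit 156) (nat_lit 532) (nat_lit 0) (XT.nd (nat_lit 78) (nat_lit 0) (nat_lit 0) (XT.lf (nat_lit 76) (nat_lit 1278305322) (nat_lit 0) (nat_lit 7010829554) (nat_lit 684) (nat_lit 3262911715) (nat_lit 76) (nat_lit 5) (nat_lit 75) (nat_lit 5) (nat_lit 84) (nat_lit 5) (nat_lit 254) (nat_lit 252) (nat_lit 214)) (XT.lf (nat_lit 76) (nat_lit 9546994049) (nat_lit 0) (nat_lit 198923037) (nat_lit 684) (nat_lit 2245525419) (nat_lit 76) (nat_lit 5) (nat_lit 75) (nat_lit 5) (nat_lit 84) (nat_lit 5) (nat_lit 255) (nat_lit 252) (nat_lit 213))) (XT.nd (nat_lit 78) (nat_lit 608) (nat_lit 0) (XT.lf (nat_lit 76) (nat_lit 6043657991) (nat_lit 0) (nat_lit 5409766952) (nat_lit 684) (nat_lit 1006166851) (nat_lit 77) (nat_lit 5) (nat_lit 76) (nat_lit 5) (nat_lit 85) (nat_lit 5) (nat_lit 256) (nat_lit 252) (nat_lit 212)) (XT.nd (nat_lit 78) (nat_lit 0) (nat_lit 0)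 (XT.lf (nat_lit 0) (nat_lit 367790556) (nat_lit 684) (nat_lit 10644495639) (nat_lit 760) (nat_lit 1950617160) (nat_lit 68) (nat_lit 5) (nat_lit 77) (nat_lit 5) (nat_lit 78) (nat_lit 5) (nat_lit 257) (nat_lit 252) (nat_lit 211)) (XT.lf (nat_lit 0) (nat_lit 1957590157) (nat_lit 684) (nat_lit 1681497765) (nat_lit 760) (nat_lit 9859762168) (nat_lit 68) (nat_lit 5) (nat_lit 77) (nat_lit 5) (nat_lit 78) (nat_lit 5) (nat_lit 258) (nat_lit 252) (nat_lit 210)))))) (XT.nd (nat_lit 390) (nat_lit 912) (nat_lit 0) (XT.nd (nat_lit 156) (nat_lit 608) (nat_lit 0) (XT.nd (nat_lit 78) (nat_lit 684) (nat_lit 0) (XT.lf (nat_lit 0) (nat_lit 3813258079) (nat_lit 684) (nat_lit 5930225708) (nat_lit 76) (nat_lit 4327489575) (nat_lit 69) (nat_lit 5) (nat_lit 78) (nat_lit 5) (nat_lit 70) (nat_lit 5) (nat_lit 259) (nat_lit 252) (nat_lit 209)) (XT.lf (nat_lit 0) (nat_lit 4143691955) (nat_lit 684) (nat_lit 1774006718)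 (nat_lit 760) (nat_lit 8766369466) (nat_lit 60) (nat_lit 5) (nat_lit 69) (nat_lit 5) (nat_lit 70) (nat_lit 5) (nat_lit 260) (nat_lit 252) (nat_lit 208))) (XT.nd (nat_lit 78) (nat_lit 608) (nat_lit 0) (XT.lf (nat_lit 0) (nat_lit 8350140161) (nat_lit 760) (nat_lit 263427680) (nat_lit 76) (nat_lit 6724861863) (nat_lit 60) (nat_lit 5) (nat_lit 70) (nat_lit 5) (nat_lit 61) (nat_lit 5) (nat_lit 261) (nat_lit 252) (nat_lit 207)) (XT.nd (nat_lit 78) (nat_lit 304) (nat_lit 0) (XT.lf (nat_lit 0) (nat_lit 11115897866) (nat_lit 304) (nat_lit 16565339) (nat_lit 380) (nat_lit 4905099241) (nat_lit 56) (nat_lit 5) (nat_lit 60) (nat_lit 5) (nat_lit 61) (nat_lit 5) (nat_lit 262) (nat_lit 252) (nat_lit 206)) (XT.lf (nat_lit 0) (nat_lit 6644339548) (nat_lit 304) (nat_lit 7700871189) (nat_lit 380) (nat_lit 2437195882) (nat_lit 52) (nat_lit 5) (nat_lit 56) (nat_lit 5) (nat_lit 57) (nat_lit 5) (nat_lit 263)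 (nat_lit 252) (nat_lit 205))))) (XT.nd (nat_lit 156) (nat_lit 532) (nat_lit 0) (XT.nd (nat_lit 78) (nat_lit 0) (nat_lit 0) (XT.lf (nat_lit 0) (nat_lit 314369140) (nat_lit 380) (nat_lit 15872419977) (nat_lit 76) (nat_lit 1395346880) (nat_lit 47) (nat_lit 5) (nat_lit 52) (nat_lit 5) (nat_lit 48) (nat_lit 5) (nat_lit 264) (nat_lit 252) (nat_lit 204)) (XT.lf (nat_lit 0) (nat_lit 3470196549) (nat_lit 380) (nat_lit 3789370773) (nat_lit 76) (nat_lit 11170943516) (nat_lit 47) (nat_lit 5) (nat_lit 52) (nat_lit 5) (nat_lit 48) (nat_lit 5) (nat_lit 265) (nat_lit 252) (nat_lit 203))) (XT.nd (nat_lit 78) (nat_lit 228) (nat_lit 0) (XT.lf (nat_lit 0) (nat_lit 7028791605) (nat_lit 380) (nat_lit 9858263157) (nat_lit 76) (nat_lit 2452316430) (nat_lit 43) (nat_lit 5) (nat_lit 48) (nat_lit 5) (nat_lit 44) (nat_lit 5) (nat_lit 266) (nat_lit 252) (nat_lit 202)) (XT.nd (nat_lit 78) (nat_lit 0) (nat_lit 0) (XT.lf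 (nat_lit 0) (nat_lit 3579523836) (nat_lit 228) (nat_lit 7502108946) (nat_lit 304) (nat_lit 9228950593) (nat_lit 40) (nat_lit 5) (nat_lit 43) (nat_lit 5) (nat_lit 44) (nat_lit 5) (nat_lit 267) (nat_lit 252) (nat_lit 201)) (XT.lf (nat_lit 0) (nat_lit 15640445150) (nat_lit 304) (nat_lit 2992775861) (nat_lit 76) (nat_lit 2717296294) (nat_lit 40) (nat_lit 5) (nat_lit 44) (nat_lit 5) (nat_lit 41) (nat_lit 5) (nat_lit 268) (nat_lit 252) (nat_lit 200))))))))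
noncomputable def xc74 : XT := (XT.nd (nat_lit 1404) (nat_lit 532) (nat_lit 0) (XT.nd (nat_lit 702) (nat_lit 836) (nat_lit 0) (XT.nd (nat_lit 312) (nat_lit 608) (nat_lit 0) (XT.nd (nat_lit 156) (nat_lit 228) (nat_lit 0) (XT.nd (nat_lit 78) (nat_lit 304) (nat_lit 0) (XT.lf (nat_lit 0) (nat_lit 12065056937) (nat_lit 228) (nat_lit 8782372117) (nat_lit 304) (nat_lit 1612147241) (nat_lit 37) (nat_lit 5) (nat_lit 40) (nat_lit 5) (nat_lit 41) (nat_lit 5) (nat_lit 269) (nat_lit 252) (nat_lit 199)) (XT.lf (nat_lit 0) (nat_lit 2853738329) (nat_lit 304) (nat_lit 18830445656) (nat_lit 76) (nat_lit 1964562036) (nat_lit 33) (nat_lit 5) (nat_lit 37) (nat_lit 5) (nat_lit 34) (nat_lit 5) (nat_lit 270) (nat_lit 252) (nat_lit 198))) (XT.nd (nat_lit 78) (nat_lit 228) (nat_lit 0) (XT.lf (nat_lit 0) (nat_lit 7924583279) (nat_lit 304) (nat_lit 3521172685) (nat_lit 76) (nat_lit 13470848062) (nat_lit 33) (nat_lit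 5) (nat_lit 37) (nat_lit 5) (nat_lit 34) (nat_lit 5) (nat_lit 271) (nat_lit 252) (nat_lit 197)) (XT.lf (nat_lit 0) (nat_lit 13406500169) (nat_lit 228) (nat_lit 177329313) (nat_lit 304) (nat_lit 12693002888) (nat_lit 30) (nat_lit 5) (nat_lit 33) (nat_lit 5) (nat_lit 34) (nat_lit 5) (nat_lit 272) (nat_lit 252) (nat_lit 196)))) (XT.nd (nat_lit 156) (nat_lit 456) (nat_lit 0) (XT.nd (nat_lit 78) (nat_lit 0) (nat_lit 0) (XT.lf (nat_lit 0) (nat_lit 3975216562) (nat_lit 152) (nat_lit 16006966422) (nat_lit 228) (nat_lit 7749450192) (nat_lit 28) (nat_lit 5) (nat_lit 30) (nat_lit 5) (nat_lit 31) (nat_lit 5) (nat_lit 273) (nat_lit 252) (nat_lit 195)) (XT.lf (nat_lit 0) (nat_lit 22591353837) (nat_lit 152) (nat_lit 4504257621) (nat_lit 228) (nat_lit 2197113453) (nat_lit 28) (nat_lit 5) (nat_lit 30) (nat_lit 5) (nat_lit 31) (nat_lit 5) (nat_lit 274) (nat_lit 252) (nat_lit 194))) (XT.nd (nat_lit 78)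 (nat_lit 152) (nat_lit 0) (XT.lf (nat_lit 0) (nat_lit 3970290672) (nat_lit 304) (nat_lit 19083769655) (nat_lit 76) (nat_lit 7907112679) (nat_lit 24) (nat_lit 5) (nat_lit 28) (nat_lit 5) (nat_lit 25) (nat_lit 5) (nat_lit 275) (nat_lit 252) (nat_lit 193)) (XT.nd (nat_lit 78) (nat_lit 152) (nat_lit 0) (XT.lf (nat_lit 0) (nat_lit 10728212363) (nat_lit 304) (nat_lit 721865543) (nat_lit 76) (nat_lit 21302567927) (nat_lit 24) (nat_lit 5) (nat_lit 28) (nat_lit 5) (nat_lit 25) (nat_lit 5) (nat_lit 276) (nat_lit 252) (nat_lit 192)) (XT.lf (nat_lit 0) (nat_lit 18336374284) (nat_lit 228) (nat_lit 14984183772) (nat_lit 76) (nat_lit 1351448912) (nat_lit 22) (nat_lit 5) (nat_lit 25) (nat_lit 5) (nat_lit 23) (nat_lit 5) (nat_lit 277) (nat_lit 252) (nat_lit 191)))))) (XT.nd (nat_lit 312) (nat_lit 456) (nat_lit 0) (XT.nd (nat_lit 156) (nat_lit 228) (nat_lit 0) (XT.nd (nat_lit 78) (nat_lit 0) (nat_lit 0)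 (XT.lf (nat_lit 0) (nat_lit 4948141827) (nat_lit 152) (nat_lit 21869121689) (nat_lit 228) (nat_lit 9914496800) (nat_lit 20) (nat_lit 5) (nat_lit 22) (nat_lit 5) (nat_lit 23) (nat_lit 5) (nat_lit 278) (nat_lit 252) (nat_lit 190)) (XT.lf (nat_lit 0) (nat_lit 26982651847) (nat_lit 152) (nat_lit 9236937596) (nat_lit 228) (nat_lit 2724599769) (nat_lit 20) (nat_lit 5) (nat_lit 22) (nat_lit 5) (nat_lit 23) (nat_lit 5) (nat_lit 279) (nat_lit 252) (nat_lit 189))) (XT.nd (nat_lit 78) (nat_lit 0) (nat_lit 0) (XT.lf (nat_lit 0) (nat_lit 5085213496) (nat_lit 228) (nat_lit 31744999398) (nat_lit 76) (nat_lit 4489200546) (nat_lit 17) (nat_lit 5) (nat_lit 20) (nat_lit 5) (nat_lit 18) (nat_lit 5) (nat_lit 280) (nat_lit 252) (nat_lit 188)) (XT.lf (nat_lit 0) (nat_lit 13776870992) (nat_lit 228) (nat_lit 10844584488) (nat_lit 76) (nat_lit 19243376619) (nat_lit 17) (nat_lit 5) (nat_lit 20) (nat_lit 5) (nat_lit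 18) (nat_lit 5) (nat_lit 281) (nat_lit 252) (nat_lit 187)))) (XT.nd (nat_lit 156) (nat_lit 304) (nat_lit 0) (XT.nd (nat_lit 78) (nat_lit 0) (nat_lit 0) (XT.lf (nat_lit 0) (nat_lit 12091131199) (nat_lit 152) (nat_lit 11246423031) (nat_lit 228) (nat_lit 23267678293) (nat_lit 15) (nat_lit 5) (nat_lit 17) (nat_lit 5) (nat_lit 18) (nat_lit 5) (nat_lit 282) (nat_lit 252) (nat_lit 186)) (XT.lf (nat_lit 0) (nat_lit 33890582861) (nat_lit 228) (nat_lit 12382803942) (nat_lit 76) (nat_lit 3280134134) (nat_lit 15) (nat_lit 5) (nat_lit 18) (nat_lit 5) (nat_lit 16) (nat_lit 4) (nat_lit 283) (nat_lit 252) (nat_lit 185))) (XT.nd (nat_lit 78) (nat_lit 228) (nat_lit 0) (XT.lf (nat_lit 0) (nat_lit 11681665957) (nat_lit 76) (nat_lit 33964826006) (nat_lit 152) (nat_lit 7073276783) (nat_lit 14) (nat_lit 5) (nat_lit 15) (nat_lit 5) (nat_lit 16) (nat_lit 4) (nat_lit 284) (nat_lit 252) (nat_lit 184)) (XT.nd (nat_lit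 78) (nat_lit 152) (nat_lit 0) (XT.lf (nat_lit 0) (nat_lit 2339320891) (nat_lit 152) (nat_lit 18074089048) (nat_lit 76) (nat_lit 35713896597) (nat_lit 13) (nat_lit 5) (nat_lit 15) (nat_lit 5) (nat_lit 14) (nat_lit 5) (nat_lit 285) (nat_lit 252) (nat_lit 183)) (XT.lf (nat_lit 0) (nat_lit 6806079957) (nat_lit 152) (nat_lit 5548621722) (nat_lit 228) (nat_lit 47442091531) (nat_lit 11) (nat_lit 5) (nat_lit 13) (nat_lit 5) (nat_lit 14) (nat_lit 5) (nat_lit 286) (nat_lit 252) (nat_lit 182))))))) (XT.nd (nat_lit 702) (nat_lit 228) (nat_lit 0) (XT.nd (nat_lit 312) (nat_lit 228) (nat_lit 0) (XT.nd (nat_lit 156) (nat_lit 76) (nat_lit 0) (XT.nd (nat_lit 78) (nat_lit 0) (nat_lit 0) (XT.lf (nat_lit 0) (nat_lit 23643826873) (nat_lit 228) (nat_lit 29610356289) (nat_lit 76) (nat_lit 10482051305) (nat_lit 11) (nat_lit 5) (nat_lit 14) (nat_lit 5) (nat_lit 12) (nat_lit 4) (nat_lit 287) (nat_lit 252) (nat_lit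 181)) (XT.lf (nat_lit 0) (nat_lit 35918989876) (nat_lit 228) (nat_lit 4470873764) (nat_lit 76) (nat_lit 27596841757) (nat_lit 11) (nat_lit 5) (nat_lit 14) (nat_lit 5) (nat_lit 12) (nat_lit 4) (nat_lit 288) (nat_lit 252) (nat_lit 180))) (XT.nd (nat_lit 78) (nat_lit 0) (nat_lit 0) (XT.lf (nat_lit 0) (nat_lit 23412690888) (nat_lit 76) (nat_lit 26119149691) (nat_lit 152) (nat_lit 23027607990) (nat_lit 10) (nat_lit 5) (nat_lit 11) (nat_lit 5) (nat_lit 12) (nat_lit 4) (nat_lit 289) (nat_lit 252) (nat_lit 179)) (XT.lf (nat_lit 0) (nat_lit 53670879352) (nat_lit 76) (nat_lit 10631341909) (nat_lit 152) (nat_lit 13192381780) (nat_lit 10) (nat_lit 5) (nat_lit 11) (nat_lit 5) (nat_lit 12) (nat_lit 4) (nat_lit 290) (nat_lit 252) (nat_lit 178)))) (XT.nd (nat_lit 156) (nat_lit 76) (nat_lit 0) (XT.nd (nat_lit 78) (nat_lit 76) (nat_lit 0) (XT.lf (nat_lit 0) (nat_lit 3527994181) (nat_lit 76) (nat_lit 76867713012)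 (nat_lit 76) (nat_lit 2421804628) (nat_lit 9) (nat_lit 4) (nat_lit 10) (nat_lit 5) (nat_lit 10) (nat_lit 4) (nat_lit 291) (nat_lit 252) (nat_lit 177)) (XT.lf (nat_lit 0) (nat_lit 9508190348) (nat_lit 152) (nat_lit 54971340010) (nat_lit 76) (nat_lit 24049918628) (nat_lit 8) (nat_lit 5) (nat_lit 10) (nat_lit 5) (nat_lit 9) (nat_lit 4) (nat_lit 292) (nat_lit 252) (nat_lit 176))) (XT.nd (nat_lit 78) (nat_lit 76) (nat_lit 0) (XT.lf (nat_lit 0) (nat_lit 22301002181) (nat_lit 152) (nat_lit 28762021903) (nat_lit 76) (nat_lit 43633681491) (nat_lit 8) (nat_lit 5) (nat_lit 10) (nat_lit 5) (nat_lit 9) (nat_lit 4) (nat_lit 293) (nat_lit 252) (nat_lit 175)) (XT.nd (nat_lit 78) (nat_lit 76) (nat_lit 0) (XT.lf (nat_lit 0) (nat_lit 36109952996) (nat_lit 152) (nat_lit 468437685) (nat_lit 76) (nat_lit 64779328169) (nat_lit 8) (nat_lit 5) (nat_lit 10) (nat_lit 5) (nat_lit 9) (nat_lit 4) (nat_lit 294) (nat_lit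 252) (nat_lit 174)) (XT.lf (nat_lit 0) (nat_lit 31071562368) (nat_lit 76) (nat_lit 20430425412) (nat_lit 152) (nat_lit 57025717995) (nat_lit 7) (nat_lit 5) (nat_lit 8) (nat_lit 5) (nat_lit 9) (nat_lit 4) (nat_lit 295) (nat_lit 252) (nat_lit 173)))))) (XT.nd (nat_lit 390) (nat_lit 152) (nat_lit 0) (XT.nd (nat_lit 156) (nat_lit 76) (nat_lit 0) (XT.nd (nat_lit 78) (nat_lit 0) (nat_lit 0) (XT.lf (nat_lit 0) (nat_lit 65140437407) (nat_lit 76) (nat_lit 2986688717) (nat_lit 152) (nat_lit 48144088659) (nat_lit 7) (nat_lit 5) (nat_lit 8) (nat_lit 5) (nat_lit 9) (nat_lit 4) (nat_lit 296) (nat_lit 252) (nat_lit 172)) (XT.lf (nat_lit 0) (nat_lit 86323767620) (nat_lit 152) (nat_lit 22957358414) (nat_lit 0) (nat_lit 15341013291) (nat_lit 7) (nat_lit 5) (nat_lit 9) (nat_lit 4) (nat_lit 7) (nat_lit 4) (nat_lit 297) (nat_lit 252) (nat_lit 171))) (XT.nd (nat_lit 78) (nat_lit 0) (nat_lit 0) (XT.lf (nat_lit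 0) (nat_lit 7654879139) (nat_lit 76) (nat_lit 98485571068) (nat_lit 76) (nat_lit 27492480852) (nat_lit 6) (nat_lit 4) (nat_lit 7) (nat_lit 5) (nat_lit 7) (nat_lit 4) (nat_lit 298) (nat_lit 252) (nat_lit 170)) (XT.nd (nat_lit 78) (nat_lit 0) (nat_lit 0) (XT.lf (nat_lit 0) (nat_lit 41526619178) (nat_lit 76) (nat_lit 86410452644) (nat_lit 76) (nat_lit 15407792162) (nat_lit 6) (nat_lit 4) (nat_lit 7) (nat_lit 5) (nat_lit 7) (nat_lit 4) (nat_lit 299) (nat_lit 252) (nat_lit 169)) (XT.lf (nat_lit 0) (nat_lit 78099509178) (nat_lit 76) (nat_lit 73373008477) (nat_lit 76) (nat_lit 2361486637) (nat_lit 6) (nat_lit 4) (nat_lit 7) (nat_lit 5) (nat_lit 7) (nat_lit 4) (nat_lit 300) (nat_lit 252) (nat_lit 168))))) (XT.nd (nat_lit 156) (nat_lit 76) (nat_lit 0) (XT.nd (nat_lit 78) (nat_lit 0) (nat_lit 0) (XT.lf (nat_lit 0) (nat_lit 11348514035) (nat_lit 152) (nat_lit 47755273026) (nat_lit 76) (nat_lit 106049570764)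 (nat_lit 5) (nat_lit 5) (nat_lit 7) (nat_lit 5) (nat_lit 6) (nat_lit 4) (nat_lit 301) (nat_lit 252) (nat_lit 167)) (XT.lf (nat_lit 0) (nat_lit 26069405023) (nat_lit 152) (nat_lit 17585043687) (nat_lit 76) (nat_lit 133722040128) (nat_lit 5) (nat_lit 5) (nat_lit 7) (nat_lit 5) (nat_lit 6) (nat_lit 4) (nat_lit 302) (nat_lit 252) (nat_lit 166))) (XT.nd (nat_lit 78) (nat_lit 0) (nat_lit 0) (XT.lf (nat_lit 0) (nat_lit 15487547100) (nat_lit 76) (nat_lit 26718260469) (nat_lit 152) (nat_lit 148359776400) (nat_lit 4) (nat_lit 5) (nat_lit 5) (nat_lit 5) (nat_lit 6) (nat_lit 4) (nat_lit 303) (nat_lit 252) (nat_lit 165)) (XT.nd (nat_lit 78) (nat_lit 0) (nat_lit 0) (XT.lf (nat_lit 0) (nat_lit 51827248522) (nat_lit 76) (nat_lit 8108419917) (nat_lit 152) (nat_lit 144859016196) (nat_lit 4) (nat_lit 5) (nat_lit 5) (nat_lit 5) (nat_lit 6) (nat_lit 4) (nat_lit 304) (nat_lit 252) (nat_lit 164)) (XT.lf (nat_lit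 0) (nat_lit 79267582869) (nat_lit 152) (nat_lit 129281486056) (nat_lit 0) (nat_lit 11603866041) (nat_lit 4) (nat_lit 5) (nat_lit 6) (nat_lit 4) (nat_lit 4) (nat_lit 4) (nat_lit 305) (nat_lit 252) (nat_lit 163))))))))
noncomputable def xc75 : XT := (XT.nd (nat_lit 33462) (nat_lit 0) (nat_lit 2356) (XT.nd (nat_lit 702) (nat_lit 76) (nat_lit 0) (XT.nd (nat_lit 312) (nat_lit 76) (nat_lit 0) (XT.nd (nat_lit 156) (nat_lit 0) (nat_lit 0) (XT.nd (nat_lit 78) (nat_lit 0) (nat_lit 0) (XT.lf (nat_lit 0) (nat_lit 100279499098) (nat_lit 152) (nat_lit 103843214256) (nat_lit 0) (nat_lit 32610464023) (nat_lit 4) (nat_lit 5) (nat_lit 6) (nat_lit 4) (nat_lit 4) (nat_lit 4) (nat_lit 306) (nat_lit 252) (nat_lit 162)) (XT.lf (nat_lit 0) (nat_lit 122969337025) (nat_lit 152) (nat_lit 76375280241) (nat_lit 0) (nat_lit 55295377649) (nat_lit 4) (nat_lit 5) (nat_lit 6) (nat_lit 4) (nat_lit 4) (nat_lit 4) (nat_lit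 307) (nat_lit 252) (nat_lit 161))) (XT.nd (nat_lit 78) (nat_lit 0) (nat_lit 0) (XT.lf (nat_lit 0) (nat_lit 147471554950) (nat_lit 152) (nat_lit 46714911068) (nat_lit 0) (nat_lit 79793036035) (nat_lit 4) (nat_lit 5) (nat_lit 6) (nat_lit 4) (nat_lit 4) (nat_lit 4) (nat_lit 308) (nat_lit 252) (nat_lit 160)) (XT.lf (nat_lit 0) (nat_lit 173931351201) (nat_lit 152) (nat_lit 14686341586) (nat_lit 0) (nat_lit 106248610491) (nat_lit 4) (nat_lit 5) (nat_lit 6) (nat_lit 4) (nat_lit 4) (nat_lit 4) (nat_lit 309) (nat_lit 252) (nat_lit 159)))) (XT.nd (nat_lit 156) (nat_lit 0) (nat_lit 0) (XT.nd (nat_lit 78) (nat_lit 0) (nat_lit 0) (XT.lf (nat_lit 0) (nat_lit 20558218514) (nat_lit 76) (nat_lit 182268277462) (nat_lit 76) (nat_lit 114581627682) (nat_lit 3) (nat_lit 4) (nat_lit 4) (nat_lit 5) (nat_lit 4) (nat_lit 4) (nat_lit 310) (nat_lit 252) (nat_lit 158)) (XT.lf (nat_lit 0) (nat_lit 59142687902) (nat_lit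 76) (nat_lit 175144098697) (nat_lit 76) (nat_lit 107453829409) (nat_lit 3) (nat_lit 4) (nat_lit 4) (nat_lit 5) (nat_lit 4) (nat_lit 4) (nat_lit 311) (nat_lit 252) (nat_lit 157))) (XT.nd (nat_lit 78) (nat_lit 0) (nat_lit 0) (XT.lf (nat_lit 0) (nat_lit 100810118506) (nat_lit 76) (nat_lit 167451659439) (nat_lit 76) (nat_lit 99758038754) (nat_lit 3) (nat_lit 4) (nat_lit 4) (nat_lit 5) (nat_lit 4) (nat_lit 4) (nat_lit 312) (nat_lit 252) (nat_lit 156)) (XT.nd (nat_lit 78) (nat_lit 0) (nat_lit 0) (XT.lf (nat_lit 0) (nat_lit 145807428434) (nat_lit 76) (nat_lit 159145374863) (nat_lit 76) (nat_lit 91448651032) (nat_lit 3) (nat_lit 4) (nat_lit 4) (nat_lit 5) (nat_lit 4) (nat_lit 4) (nat_lit 313) (nat_lit 252) (nat_lit 155)) (XT.lf (nat_lit 0) (nat_lit 194401268411) (nat_lit 76) (nat_lit 150176022541) (nat_lit 76) (nat_lit 82476425427) (nat_lit 3) (nat_lit 4) (nat_lit 4) (nat_lit 5) (nat_lit 4) (nat_lit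 4) (nat_lit 314) (nat_lit 252) (nat_lit 154)))))) (XT.nd (nat_lit 312) (nat_lit 76) (nat_lit 0) (XT.nd (nat_lit 156) (nat_lit 0) (nat_lit 0) (XT.nd (nat_lit 78) (nat_lit 0) (nat_lit 0) (XT.lf (nat_lit 0) (nat_lit 246879601933) (nat_lit 76) (nat_lit 140490450755) (nat_lit 76) (nat_lit 72788193194) (nat_lit 3) (nat_lit 4) (nat_lit 4) (nat_lit 5) (nat_lit 4) (nat_lit 4) (nat_lit 315) (nat_lit 252) (nat_lit 153)) (XT.lf (nat_lit 0) (nat_lit 303553411717) (nat_lit 76) (nat_lit 130031263526) (nat_lit 76) (nat_lit 62326542588) (nat_lit 3) (nat_lit 4) (nat_lit 4) (nat_lit 5) (nat_lit 4) (nat_lit 4) (nat_lit 316) (nat_lit 252) (nat_lit 152))) (XT.nd (nat_lit 78) (nat_lit 0) (nat_lit 0) (XT.lf (nat_lit 0) (nat_lit 364758542562) (nat_lit 76) (nat_lit 118736480483) (nat_lit 76) (nat_lit 51029478641) (nat_lit 3) (nat_lit 4) (nat_lit 4) (nat_lit 5) (nat_lit 4) (nat_lit 4) (nat_lit 317) (nat_lit 252)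 (nat_lit 151)) (XT.lf (nat_lit 0) (nat_lit 430857691540) (nat_lit 76) (nat_lit 106539169581) (nat_lit 76) (nat_lit 38830055790) (nat_lit 3) (nat_lit 4) (nat_lit 4) (nat_lit 5) (nat_lit 4) (nat_lit 4) (nat_lit 318) (nat_lit 252) (nat_lit 150)))) (XT.nd (nat_lit 156) (nat_lit 76) (nat_lit 0) (XT.nd (nat_lit 78) (nat_lit 0) (nat_lit 0) (XT.lf (nat_lit 0) (nat_lit 502242557311) (nat_lit 76) (nat_lit 93367050456) (nat_lit 76) (nat_lit 25655981157) (nat_lit 3) (nat_lit 4) (nat_lit 4) (nat_lit 5) (nat_lit 4) (nat_lit 4) (nat_lit 319) (nat_lit 252) (nat_lit 149)) (XT.lf (nat_lit 0) (nat_lit 579336161302) (nat_lit 76) (nat_lit 79142066108) (nat_lit 76) (nat_lit 11429186154) (nat_lit 3) (nat_lit 4) (nat_lit 4) (nat_lit 5) (nat_lit 4) (nat_lit 4) (nat_lit 320) (nat_lit 252) (nat_lit 148))) (XT.nd (nat_lit 78) (nat_lit 0) (nat_lit 0) (XT.lf (nat_lit 0) (nat_lit 3808703224) (nat_lit 152) (nat_lit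 59906714877) (nat_lit 76) (nat_lit 658722149043) (nat_lit 2) (nat_lit 5) (nat_lit 4) (nat_lit 5) (nat_lit 3) (nat_lit 4) (nat_lit 321) (nat_lit 252) (nat_lit 147)) (XT.nd (nat_lit 32136) (nat_lit 0) (nat_lit 5472) (XT.lf (nat_lit 0) (nat_lit 19869553468) (nat_lit 152) (nat_lit 26983524223) (nat_lit 76) (nat_lit 732307470745) (nat_lit 2) (nat_lit 5) (nat_lit 4) (nat_lit 5) (nat_lit 3) (nat_lit 4) (nat_lit 322) (nat_lit 252) (nat_lit 146)) (XT.lf (nat_lit 0) (nat_lit 3976608830) (nat_lit 684) (nat_lit 895088423) (nat_lit 684) (nat_lit 895088423) (nat_lit 74) (nat_lit 3) (nat_lit 83) (nat_lit 3) (nat_lit 83) (nat_lit 5) (nat_lit 253) (nat_lit 253) (nat_lit 214))))))) (XT.nd (nat_lit 702) (nat_lit 1748) (nat_lit 0) (XT.nd (nat_lit 312) (nat_lit 836) (nat_lit 0) (XT.nd (nat_lit 156) (nat_lit 532) (nat_lit 0) (XT.nd (nat_lit 78) (nat_lit 0) (nat_lit 76) (XT.lf (nat_lit 76) (nat_lit 6105026217)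 (nat_lit 0) (nat_lit 2976991506) (nat_lit 684) (nat_lit 2869255870) (nat_lit 75) (nat_lit 5) (nat_lit 74) (nat_lit 3) (nat_lit 83) (nat_lit 5) (nat_lit 254) (nat_lit 253) (nat_lit 213)) (XT.lf (nat_lit 76) (nat_lit 2255591129) (nat_lit 0) (nat_lit 8108396365) (nat_lit 684) (nat_lit 2035572085) (nat_lit 76) (nat_lit 5) (nat_lit 75) (nat_lit 5) (nat_lit 84) (nat_lit 5) (nat_lit 255) (nat_lit 253) (nat_lit 212))) (XT.nd (nat_lit 78) (nat_lit 608) (nat_lit 0) (XT.lf (nat_lit 76) (nat_lit 11120958556) (nat_lit 0) (nat_lit 711781738) (nat_lit 684) (nat_lit 1047044706) (nat_lit 76) (nat_lit 5) (nat_lit 75) (nat_lit 5) (nat_lit 84) (nat_lit 5) (nat_lit 256) (nat_lit 253) (nat_lit 211)) (XT.lf (nat_lit 0) (nat_lit 189509573) (nat_lit 684) (nat_lit 6015940388) (nat_lit 760) (nat_lit 7184736111) (nat_lit 67) (nat_lit 5) (nat_lit 76) (nat_lit 5) (nat_lit 77) (nat_lit 5) (nat_lit 257) (nat_lit 253)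 (nat_lit 210)))) (XT.nd (nat_lit 156) (nat_lit 912) (nat_lit 0) (XT.nd (nat_lit 78) (nat_lit 0) (nat_lit 0) (XT.lf (nat_lit 0) (nat_lit 1555265243) (nat_lit 684) (nat_lit 10571209840) (nat_lit 760) (nat_lit 1810972908) (nat_lit 68) (nat_lit 5) (nat_lit 77) (nat_lit 5) (nat_lit 78) (nat_lit 5) (nat_lit 258) (nat_lit 253) (nat_lit 209)) (XT.lf (nat_lit 0) (nat_lit 3186467223) (nat_lit 684) (nat_lit 959679207) (nat_lit 760) (nat_lit 10374752749) (nat_lit 68) (nat_lit 5) (nat_lit 77) (nat_lit 5) (nat_lit 78) (nat_lit 5) (nat_lit 259) (nat_lit 253) (nat_lit 208))) (XT.nd (nat_lit 78) (nat_lit 988) (nat_lit 0) (XT.lf (nat_lit 0) (nat_lit 5121038070) (nat_lit 684) (nat_lit 5528396377) (nat_lit 76) (nat_lit 4493149866) (nat_lit 69) (nat_lit 5) (nat_lit 78) (nat_lit 5) (nat_lit 70) (nat_lit 5) (nat_lit 260) (nat_lit 253) (nat_lit 207)) (XT.nd (nat_lit 78) (nat_lit 304) (nat_lit 0) (XT.lf (nat_lit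 0) (nat_lit 5313354055) (nat_lit 684) (nat_lit 2019290482) (nat_lit 760) (nat_lit 8475432787) (nat_lit 60) (nat_lit 5) (nat_lit 69) (nat_lit 5) (nat_lit 70) (nat_lit 5) (nat_lit 261) (nat_lit 253) (nat_lit 206)) (XT.lf (nat_lit 0) (nat_lit 557888081) (nat_lit 304) (nat_lit 9339266248) (nat_lit 380) (nat_lit 6621029448) (nat_lit 56) (nat_lit 5) (nat_lit 60) (nat_lit 5) (nat_lit 61) (nat_lit 5) (nat_lit 262) (nat_lit 253) (nat_lit 205)))))) (XT.nd (nat_lit 390) (nat_lit 760) (nat_lit 0) (XT.nd (nat_lit 156) (nat_lit 684) (nat_lit 0) (XT.nd (nat_lit 78) (nat_lit 304) (nat_lit 0) (XT.lf (nat_lit 0) (nat_lit 12793870524) (nat_lit 304) (nat_lit 47330198) (nat_lit 380) (nat_lit 4435339184) (nat_lit 56) (nat_lit 5) (nat_lit 60) (nat_lit 5) (nat_lit 61) (nat_lit 5) (nat_lit 263) (nat_lit 253) (nat_lit 204)) (XT.lf (nat_lit 0) (nat_lit 7972865378) (nat_lit 304) (nat_lit 8289517163) (nat_lit 380)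 (nat_lit 1821249496) (nat_lit 52) (nat_lit 5) (nat_lit 56) (nat_lit 5) (nat_lit 57) (nat_lit 5) (nat_lit 264) (nat_lit 253) (nat_lit 203))) (XT.nd (nat_lit 78) (nat_lit 304) (nat_lit 0) (XT.lf (nat_lit 0) (nat_lit 1079462210) (nat_lit 380) (nat_lit 16313697020) (nat_lit 76) (nat_lit 1556002529) (nat_lit 47) (nat_lit 5) (nat_lit 52) (nat_lit 5) (nat_lit 48) (nat_lit 5) (nat_lit 265) (nat_lit 253) (nat_lit 202)) (XT.nd (nat_lit 78) (nat_lit 304) (nat_lit 0) (XT.lf (nat_lit 0) (nat_lit 4432945179) (nat_lit 380) (nat_lit 3325375477) (nat_lit 76) (nat_lit 12110015199) (nat_lit 47) (nat_lit 5) (nat_lit 52) (nat_lit 5) (nat_lit 48) (nat_lit 5) (nat_lit 266) (nat_lit 253) (nat_lit 201)) (XT.lf (nat_lit 0) (nat_lit 8238307426) (nat_lit 380) (nat_lit 9880015439) (nat_lit 76) (nat_lit 2733652950) (nat_lit 43) (nat_lit 5) (nat_lit 48) (nat_lit 5) (nat_lit 44) (nat_lit 5) (nat_lit 267) (nat_lit 253)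 (nat_lit 200))))) (XT.nd (nat_lit 156) (nat_lit 532) (nat_lit 0) (XT.nd (nat_lit 78) (nat_lit 0) (nat_lit 0) (XT.lf (nat_lit 0) (nat_lit 4599465592) (nat_lit 228) (nat_lit 7979421875) (nat_lit 304) (nat_lit 9323983737) (nat_lit 40) (nat_lit 5) (nat_lit 43) (nat_lit 5) (nat_lit 44) (nat_lit 5) (nat_lit 268) (nat_lit 253) (nat_lit 199)) (XT.lf (nat_lit 0) (nat_lit 17458942045) (nat_lit 304) (nat_lit 2524586293) (nat_lit 76) (nat_lit 3044794474) (nat_lit 40) (nat_lit 5) (nat_lit 44) (nat_lit 5) (nat_lit 41) (nat_lit 5) (nat_lit 269) (nat_lit 253) (nat_lit 198))) (XT.nd (nat_lit 78) (nat_lit 304) (nat_lit 0) (XT.lf (nat_lit 0) (nat_lit 13707121190) (nat_lit 228) (nat_lit 9343911796) (nat_lit 304) (nat_lit 1176784848) (nat_lit 37) (nat_lit 5) (nat_lit 40) (nat_lit 5) (nat_lit 41) (nat_lit 5) (nat_lit 270) (nat_lit 253) (nat_lit 197)) (XT.nd (nat_lit 78) (nat_lit 0) (nat_lit 0) (XT.lf (nat_lit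 0) (nat_lit 3600590930) (nat_lit 304) (nat_lit 19645583770) (nat_lit 76) (nat_lit 2267014149) (nat_lit 33) (nat_lit 5) (nat_lit 37) (nat_lit 5) (nat_lit 34) (nat_lit 5) (nat_lit 271) (nat_lit 253) (nat_lit 196)) (XT.lf (nat_lit 0) (nat_lit 9038692104) (nat_lit 304) (nat_lit 3162776187) (nat_lit 76) (nat_lit 14683041045) (nat_lit 33) (nat_lit 5) (nat_lit 37) (nat_lit 5) (nat_lit 34) (nat_lit 5) (nat_lit 272) (nat_lit 253) (nat_lit 195))))))))
noncomputable def xc76 : XT := (XT.nd (nat_lit 1404) (nat_lit 456) (nat_lit 0) (XT.nd (nat_lit 702) (nat_lit 532) (nat_lit 0) (XT.nd (nat_lit 312) (nat_lit 532) (nat_lit 0) (XT.nd (nat_lit 156) (nat_lit 304) (nat_lit 0) (XT.nd (nat_lit 78) (nat_lit 152) (nat_lit 0) (XT.lf (nat_lit 0) (nat_lit 15091292950) (nat_lit 228) (nat_lit 33378260) (nat_lit 304) (nat_lit 13230289958) (nat_lit 30) (nat_lit 5) (nat_lit 33) (nat_lit 5) (nat_lit 34) (nat_lit 5)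 (nat_lit 273) (nat_lit 253) (nat_lit 194)) (XT.lf (nat_lit 0) (nat_lit 4899510364) (nat_lit 152) (nat_lit 17113494728) (nat_lit 228) (nat_lit 7914332455) (nat_lit 28) (nat_lit 5) (nat_lit 30) (nat_lit 5) (nat_lit 31) (nat_lit 5) (nat_lit 274) (nat_lit 253) (nat_lit 193))) (XT.nd (nat_lit 78) (nat_lit 304) (nat_lit 0) (XT.lf (nat_lit 0) (nat_lit 24960029253) (nat_lit 152) (nat_lit 4703460260) (nat_lit 228) (nat_lit 1951517944) (nat_lit 28) (nat_lit 5) (nat_lit 30) (nat_lit 5) (nat_lit 31) (nat_lit 5) (nat_lit 275) (nat_lit 253) (nat_lit 192)) (XT.lf (nat_lit 0) (nat_lit 4676750337) (nat_lit 304) (nat_lit 20041842143) (nat_lit 76) (nat_lit 8699041372) (nat_lit 24) (nat_lit 5) (nat_lit 28) (nat_lit 5) (nat_lit 25) (nat_lit 5) (nat_lit 276) (nat_lit 253) (nat_lit 191)))) (XT.nd (nat_lit 156) (nat_lit 380) (nat_lit 0) (XT.nd (nat_lit 78) (nat_lit 152) (nat_lit 0) (XT.lf (nat_lit 0) (nat_lit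 11946503067) (nat_lit 304) (nat_lit 253106376) (nat_lit 76) (nat_lit 23154328619) (nat_lit 24) (nat_lit 5) (nat_lit 28) (nat_lit 5) (nat_lit 25) (nat_lit 5) (nat_lit 277) (nat_lit 253) (nat_lit 190)) (XT.lf (nat_lit 0) (nat_lit 20147047317) (nat_lit 228) (nat_lit 15663915837) (nat_lit 76) (nat_lit 1616766447) (nat_lit 22) (nat_lit 5) (nat_lit 25) (nat_lit 5) (nat_lit 23) (nat_lit 5) (nat_lit 278) (nat_lit 253) (nat_lit 189))) (XT.nd (nat_lit 78) (nat_lit 228) (nat_lit 0) (XT.lf (nat_lit 0) (nat_lit 5840440589) (nat_lit 152) (nat_lit 23448254101) (nat_lit 228) (nat_lit 10364517122) (nat_lit 20) (nat_lit 5) (nat_lit 22) (nat_lit 5) (nat_lit 23) (nat_lit 5) (nat_lit 279) (nat_lit 253) (nat_lit 188)) (XT.nd (nat_lit 78) (nat_lit 228) (nat_lit 0) (XT.lf (nat_lit 0) (nat_lit 29600937527) (nat_lit 152) (nat_lit 9818117305) (nat_lit 228) (nat_lit 2624846063) (nat_lit 20) (nat_lit 5) (nat_lit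 22) (nat_lit 5) (nat_lit 23) (nat_lit 5) (nat_lit 280) (nat_lit 253) (nat_lit 187)) (XT.lf (nat_lit 0) (nat_lit 5786299979) (nat_lit 228) (nat_lit 33821750817) (nat_lit 76) (nat_lit 5001559796) (nat_lit 17) (nat_lit 5) (nat_lit 20) (nat_lit 5) (nat_lit 18) (nat_lit 5) (nat_lit 281) (nat_lit 253) (nat_lit 186)))))) (XT.nd (nat_lit 312) (nat_lit 304) (nat_lit 0) (XT.nd (nat_lit 156) (nat_lit 76) (nat_lit 0) (XT.nd (nat_lit 78) (nat_lit 152) (nat_lit 0) (XT.lf (nat_lit 0) (nat_lit 15151492342) (nat_lit 228) (nat_lit 11283587790) (nat_lit 76) (nat_lit 20924720087) (nat_lit 17) (nat_lit 5) (nat_lit 20) (nat_lit 5) (nat_lit 18) (nat_lit 5) (nat_lit 282) (nat_lit 253) (nat_lit 185)) (XT.lf (nat_lit 0) (nat_lit 13468360306) (nat_lit 152) (nat_lit 11994887136) (nat_lit 228) (nat_lit 24856918439) (nat_lit 15) (nat_lit 5) (nat_lit 17) (nat_lit 5) (nat_lit 18) (nat_lit 5) (nat_lit 283) (nat_lit 253)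 (nat_lit 184))) (XT.nd (nat_lit 78) (nat_lit 76) (nat_lit 0) (XT.lf (nat_lit 0) (nat_lit 36843542736) (nat_lit 228) (nat_lit 12983555643) (nat_lit 76) (nat_lit 3678108569) (nat_lit 15) (nat_lit 5) (nat_lit 18) (nat_lit 5) (nat_lit 16) (nat_lit 4) (nat_lit 284) (nat_lit 253) (nat_lit 183)) (XT.lf (nat_lit 0) (nat_lit 12989128458) (nat_lit 76) (nat_lit 36538713894) (nat_lit 152) (nat_lit 7397554120) (nat_lit 14) (nat_lit 5) (nat_lit 15) (nat_lit 5) (nat_lit 16) (nat_lit 4) (nat_lit 285) (nat_lit 253) (nat_lit 182)))) (XT.nd (nat_lit 156) (nat_lit 76) (nat_lit 0) (XT.nd (nat_lit 78) (nat_lit 152) (nat_lit 0) (XT.lf (nat_lit 0) (nat_lit 2742996732) (nat_lit 152) (nat_lit 19167135447) (nat_lit 76) (nat_lit 38696115949) (nat_lit 13) (nat_lit 5) (nat_lit 15) (nat_lit 5) (nat_lit 14) (nat_lit 5) (nat_lit 286) (nat_lit 253) (nat_lit 181)) (XT.lf (nat_lit 0) (nat_lit 7688111313) (nat_lit 152) (nat_lit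 5860727422) (nat_lit 228) (nat_lit 51021024311) (nat_lit 11) (nat_lit 5) (nat_lit 13) (nat_lit 5) (nat_lit 14) (nat_lit 5) (nat_lit 287) (nat_lit 253) (nat_lit 180))) (XT.nd (nat_lit 78) (nat_lit 76) (nat_lit 0) (XT.lf (nat_lit 0) (nat_lit 25727757503) (nat_lit 228) (nat_lit 31658665290) (nat_lit 76) (nat_lit 11438732193) (nat_lit 11) (nat_lit 5) (nat_lit 14) (nat_lit 5) (nat_lit 12) (nat_lit 4) (nat_lit 288) (nat_lit 253) (nat_lit 179)) (XT.nd (nat_lit 78) (nat_lit 76) (nat_lit 0) (XT.lf (nat_lit 0) (nat_lit 38970679881) (nat_lit 228) (nat_lit 4531766349) (nat_lit 76) (nat_lit 29913956489) (nat_lit 11) (nat_lit 5) (nat_lit 14) (nat_lit 5) (nat_lit 12) (nat_lit 4) (nat_lit 289) (nat_lit 253) (nat_lit 178)) (XT.lf (nat_lit 0) (nat_lit 25569585895) (nat_lit 76) (nat_lit 28094207065) (nat_lit 152) (nat_lit 24691635154) (nat_lit 10) (nat_lit 5) (nat_lit 11) (nat_lit 5) (nat_lit 12) (nat_lit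 4) (nat_lit 290) (nat_lit 253) (nat_lit 177))))))) (XT.nd (nat_lit 702) (nat_lit 152) (nat_lit 0) (XT.nd (nat_lit 312) (nat_lit 152) (nat_lit 0) (XT.nd (nat_lit 156) (nat_lit 76) (nat_lit 0) (XT.nd (nat_lit 78) (nat_lit 76) (nat_lit 0) (XT.lf (nat_lit 0) (nat_lit 58227401308) (nat_lit 76) (nat_lit 11375854261) (nat_lit 152) (nat_lit 14082789476) (nat_lit 10) (nat_lit 5) (nat_lit 11) (nat_lit 5) (nat_lit 12) (nat_lit 4) (nat_lit 291) (nat_lit 253) (nat_lit 176)) (XT.lf (nat_lit 0) (nat_lit 4067852236) (nat_lit 76) (nat_lit 82910303574) (nat_lit 76) (nat_lit 2456954939) (nat_lit 9) (nat_lit 4) (nat_lit 10) (nat_lit 5) (nat_lit 10) (nat_lit 4) (nat_lit 292) (nat_lit 253) (nat_lit 175))) (XT.nd (nat_lit 78) (nat_lit 0) (nat_lit 0) (XT.lf (nat_lit 0) (nat_lit 10410991927) (nat_lit 152) (nat_lit 59125580136) (nat_lit 76) (nat_lit 26067894117) (nat_lit 8) (nat_lit 5) (nat_lit 10) (nat_lit 5)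 (nat_lit 9) (nat_lit 4) (nat_lit 293) (nat_lit 253) (nat_lit 174)) (XT.lf (nat_lit 0) (nat_lit 24216699347) (nat_lit 152) (nat_lit 30837551179) (nat_lit 76) (nat_lit 47211396380) (nat_lit 8) (nat_lit 5) (nat_lit 10) (nat_lit 5) (nat_lit 9) (nat_lit 4) (nat_lit 294) (nat_lit 253) (nat_lit 173)))) (XT.nd (nat_lit 156) (nat_lit 76) (nat_lit 0) (XT.nd (nat_lit 78) (nat_lit 76) (nat_lit 0) (XT.lf (nat_lit 0) (nat_lit 39120616821) (nat_lit 152) (nat_lit 297178925) (nat_lit 76) (nat_lit 70042248838) (nat_lit 8) (nat_lit 5) (nat_lit 10) (nat_lit 5) (nat_lit 9) (nat_lit 4) (nat_lit 295) (nat_lit 253) (nat_lit 172)) (XT.lf (nat_lit 0) (nat_lit 33756949817) (nat_lit 76) (nat_lit 21981154632) (nat_lit 152) (nat_lit 61465836207) (nat_lit 7) (nat_lit 5) (nat_lit 8) (nat_lit 5) (nat_lit 9) (nat_lit 4) (nat_lit 296) (nat_lit 253) (nat_lit 171))) (XT.nd (nat_lit 78) (nat_lit 76) (nat_lit 0) (XT.lf (nat_lit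 0) (nat_lit 70536545047) (nat_lit 76) (nat_lit 3148119359) (nat_lit 152) (nat_lit 51882709059) (nat_lit 7) (nat_lit 5) (nat_lit 8) (nat_lit 5) (nat_lit 9) (nat_lit 4) (nat_lit 297) (nat_lit 253) (nat_lit 170)) (XT.nd (nat_lit 78) (nat_lit 76) (nat_lit 0) (XT.lf (nat_lit 0) (nat_lit 93330204450) (nat_lit 152) (nat_lit 24618760895) (nat_lit 0) (nat_lit 16637760863) (nat_lit 7) (nat_lit 5) (nat_lit 9) (nat_lit 4) (nat_lit 7) (nat_lit 4) (nat_lit 298) (nat_lit 253) (nat_lit 169)) (XT.lf (nat_lit 0) (nat_lit 8434842283) (nat_lit 76) (nat_lit 106292548574) (nat_lit 76) (nat_lit 29591243630) (nat_lit 6) (nat_lit 4) (nat_lit 7) (nat_lit 5) (nat_lit 7) (nat_lit 4) (nat_lit 299) (nat_lit 253) (nat_lit 168)))))) (XT.nd (nat_lit 390) (nat_lit 0) (nat_lit 0) (XT.nd (nat_lit 156) (nat_lit 152) (nat_lit 0) (XT.nd (nat_lit 78) (nat_lit 0) (nat_lit 0) (XT.lf (nat_lit 0) (nat_lit 45003908725) (nat_lit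 76) (nat_lit 93256744244) (nat_lit 76) (nat_lit 16547234339) (nat_lit 6) (nat_lit 4) (nat_lit 7) (nat_lit 5) (nat_lit 7) (nat_lit 4) (nat_lit 300) (nat_lit 253) (nat_lit 167)) (XT.lf (nat_lit 0) (nat_lit 84491136591) (nat_lit 76) (nat_lit 79181233774) (nat_lit 76) (nat_lit 2464126684) (nat_lit 6) (nat_lit 4) (nat_lit 7) (nat_lit 5) (nat_lit 7) (nat_lit 4) (nat_lit 301) (nat_lit 253) (nat_lit 166))) (XT.nd (nat_lit 78) (nat_lit 76) (nat_lit 0) (XT.lf (nat_lit 0) (nat_lit 12333726104) (nat_lit 152) (nat_lit 51440003007) (nat_lit 76) (nat_lit 114587920545) (nat_lit 5) (nat_lit 5) (nat_lit 7) (nat_lit 5) (nat_lit 6) (nat_lit 4) (nat_lit 302) (nat_lit 253) (nat_lit 165)) (XT.nd (nat_lit 78) (nat_lit 76) (nat_lit 0) (XT.lf (nat_lit 0) (nat_lit 28226560152) (nat_lit 152) (nat_lit 18866206570) (nat_lit 76) (nat_lit 144470159004) (nat_lit 5) (nat_lit 5) (nat_lit 7) (nat_lit 5) (nat_lit 6) (nat_lit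 4) (nat_lit 303) (nat_lit 253) (nat_lit 164)) (XT.lf (nat_lit 0) (nat_lit 16846731292) (nat_lit 76) (nat_lit 28803716057) (nat_lit 152) (nat_lit 160156880057) (nat_lit 4) (nat_lit 5) (nat_lit 5) (nat_lit 5) (nat_lit 6) (nat_lit 4) (nat_lit 304) (nat_lit 253) (nat_lit 163))))) (XT.nd (nat_lit 156) (nat_lit 0) (nat_lit 0) (XT.nd (nat_lit 78) (nat_lit 0) (nat_lit 0) (XT.lf (nat_lit 0) (nat_lit 56084706574) (nat_lit 76) (nat_lit 8708940502) (nat_lit 152) (nat_lit 156381368553) (nat_lit 4) (nat_lit 5) (nat_lit 5) (nat_lit 5) (nat_lit 6) (nat_lit 4) (nat_lit 305) (nat_lit 253) (nat_lit 162)) (XT.lf (nat_lit 0) (nat_lit 85668134837) (nat_lit 152) (nat_lit 139518662214) (nat_lit 0) (nat_lit 12575334409) (nat_lit 4) (nat_lit 5) (nat_lit 6) (nat_lit 4) (nat_lit 4) (nat_lit 4) (nat_lit 306) (nat_lit 253) (nat_lit 161))) (XT.nd (nat_lit 78) (nat_lit 0) (nat_lit 0) (XT.lf (nat_lit 0) (nat_lit 108356623227)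 (nat_lit 152) (nat_lit 112053131835) (nat_lit 0) (nat_lit 35259263261) (nat_lit 4) (nat_lit 5) (nat_lit 6) (nat_lit 4) (nat_lit 4) (nat_lit 4) (nat_lit 307) (nat_lit 253) (nat_lit 160)) (XT.nd (nat_lit 78) (nat_lit 0) (nat_lit 0) (XT.lf (nat_lit 0) (nat_lit 132857591581) (nat_lit 152) (nat_lit 82394988251) (nat_lit 0) (nat_lit 59756009819) (nat_lit 4) (nat_lit 5) (nat_lit 6) (nat_lit 4) (nat_lit 4) (nat_lit 4) (nat_lit 308) (nat_lit 253) (nat_lit 159)) (XT.lf (nat_lit 0) (nat_lit 159316230822) (nat_lit 152) (nat_lit 50368479500) (nat_lit 0) (nat_lit 86210739991) (nat_lit 4) (nat_lit 5) (nat_lit 6) (nat_lit 4) (nat_lit 4) (nat_lit 4) (nat_lit 309) (nat_lit 253) (nat_lit 158))))))))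
noncomputable def xc77 : XT := (XT.nd (nat_lit 33540) (nat_lit 0) (nat_lit 1672) (XT.nd (nat_lit 702) (nat_lit 76) (nat_lit 0) (XT.nd (nat_lit 312) (nat_lit 0) (nat_lit 0) (XT.nd (nat_lit 156) (nat_lit 0) (nat_lit 0) (XT.nd (nat_lit 78) (nat_lit 76) (nat_lit 0) (XT.lf (nat_lit 0) (nat_lit 187889332886) (nat_lit 152) (nat_lit 15783818864) (nat_lit 0) (nat_lit 114780222546) (nat_lit 4) (nat_lit 5) (nat_lit 6) (nat_lit 4) (nat_lit 4) (nat_lit 4) (nat_lit 310) (nat_lit 253) (nat_lit 157)) (XT.lf (nat_lit 0) (nat_lit 22276941028) (nat_lit 76) (nat_lit 196817084312) (nat_lit 76) (nat_lit 123704622574) (nat_lit 3) (nat_lit 4) (nat_lit 4) (nat_lit 5) (nat_lit 4) (nat_lit 4) (nat_lit 311) (nat_lit 253) (nat_lit 156))) (XT.nd (nat_lit 78) (nat_lit 0) (nat_lit 0) (XT.lf (nat_lit 0) (nat_lit 63942681669) (nat_lit 76) (nat_lit 189125390161) (nat_lit 76) (nat_lit 116009825278) (nat_lit 3) (nat_lit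 4) (nat_lit 4) (nat_lit 5) (nat_lit 4) (nat_lit 4) (nat_lit 312) (nat_lit 253) (nat_lit 155)) (XT.lf (nat_lit 0) (nat_lit 108938426815) (nat_lit 76) (nat_lit 180819795498) (nat_lit 76) (nat_lit 107701357332) (nat_lit 3) (nat_lit 4) (nat_lit 4) (nat_lit 5) (nat_lit 4) (nat_lit 4) (nat_lit 313) (nat_lit 253) (nat_lit 154)))) (XT.nd (nat_lit 156) (nat_lit 0) (nat_lit 0) (XT.nd (nat_lit 78) (nat_lit 0) (nat_lit 0) (XT.lf (nat_lit 0) (nat_lit 157530817920) (nat_lit 76) (nat_lit 171851081985) (nat_lit 76) (nat_lit 98729983372) (nat_lit 3) (nat_lit 4) (nat_lit 4) (nat_lit 5) (nat_lit 4) (nat_lit 4) (nat_lit 314) (nat_lit 253) (nat_lit 153)) (XT.lf (nat_lit 0) (nat_lit 210007809894) (nat_lit 76) (nat_lit 162166101689) (nat_lit 76) (nat_lit 89042539699) (nat_lit 3) (nat_lit 4) (nat_lit 4) (nat_lit 5) (nat_lit 4) (nat_lit 4) (nat_lit 315) (nat_lit 253) (nat_lit 152))) (XT.nd (nat_lit 78) (nat_lit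 0) (nat_lit 0) (XT.lf (nat_lit 0) (nat_lit 266680377504) (nat_lit 76) (nat_lit 151707462135) (nat_lit 76) (nat_lit 78581619241) (nat_lit 3) (nat_lit 4) (nat_lit 4) (nat_lit 5) (nat_lit 4) (nat_lit 4) (nat_lit 316) (nat_lit 253) (nat_lit 151)) (XT.nd (nat_lit 78) (nat_lit 0) (nat_lit 0) (XT.lf (nat_lit 0) (nat_lit 327884358188) (nat_lit 76) (nat_lit 140413186200) (nat_lit 76) (nat_lit 67285231357) (nat_lit 3) (nat_lit 4) (nat_lit 4) (nat_lit 5) (nat_lit 4) (nat_lit 4) (nat_lit 317) (nat_lit 253) (nat_lit 150)) (XT.lf (nat_lit 0) (nat_lit 393982442202) (nat_lit 76) (nat_lit 128216344841) (nat_lit 76) (nat_lit 55086434490) (nat_lit 3) (nat_lit 4) (nat_lit 4) (nat_lit 5) (nat_lit 4) (nat_lit 4) (nat_lit 318) (nat_lit 253) (nat_lit 149)))))) (XT.nd (nat_lit 32448) (nat_lit 0) (nat_lit 4864) (XT.nd (nat_lit 156) (nat_lit 76) (nat_lit 0) (XT.nd (nat_lit 78) (nat_lit 0) (nat_lit 0) (XT.lf (nat_lit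 0) (nat_lit 465366321896) (nat_lit 76) (nat_lit 115044660479) (nat_lit 76) (nat_lit 41912939473) (nat_lit 3) (nat_lit 4) (nat_lit 4) (nat_lit 5) (nat_lit 4) (nat_lit 4) (nat_lit 319) (nat_lit 253) (nat_lit 148)) (XT.lf (nat_lit 0) (nat_lit 542459012852) (nat_lit 76) (nat_lit 100820078689) (nat_lit 76) (nat_lit 27686681150) (nat_lit 3) (nat_lit 4) (nat_lit 4) (nat_lit 5) (nat_lit 4) (nat_lit 4) (nat_lit 320) (nat_lit 253) (nat_lit 147))) (XT.nd (nat_lit 78) (nat_lit 76) (nat_lit 0) (XT.lf (nat_lit 0) (nat_lit 625717360647) (nat_lit 76) (nat_lit 85458305653) (nat_lit 76) (nat_lit 12323355769) (nat_lit 3) (nat_lit 4) (nat_lit 4) (nat_lit 5) (nat_lit 4) (nat_lit 4) (nat_lit 321) (nat_lit 253) (nat_lit 146)) (XT.lf (nat_lit 0) (nat_lit 4131473429) (nat_lit 152) (nat_lit 64666866710) (nat_lit 76) (nat_lit 711433306152) (nat_lit 2) (nat_lit 5) (nat_lit 4) (nat_lit 5) (nat_lit 3) (nat_lit 4)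 (nat_lit 322) (nat_lit 253) (nat_lit 145)))) (XT.nd (nat_lit 156) (nat_lit 608) (nat_lit 0) (XT.nd (nat_lit 78) (nat_lit 0) (nat_lit 0) (XT.lf (nat_lit 0) (nat_lit 4992888024) (nat_lit 684) (nat_lit 598650329) (nat_lit 684) (nat_lit 598650329) (nat_lit 74) (nat_lit 3) (nat_lit 83) (nat_lit 3) (nat_lit 83) (nat_lit 5) (nat_lit 254) (nat_lit 254) (nat_lit 212)) (XT.lf (nat_lit 76) (nat_lit 7297529061) (nat_lit 0) (nat_lit 3814914339) (nat_lit 684) (nat_lit 1724123453) (nat_lit 75) (nat_lit 5) (nat_lit 74) (nat_lit 3) (nat_lit 83) (nat_lit 5) (nat_lit 255) (nat_lit 254) (nat_lit 211))) (XT.nd (nat_lit 78) (nat_lit 684) (nat_lit 0) (XT.lf (nat_lit 76) (nat_lit 3186228218) (nat_lit 0) (nat_lit 9217202201) (nat_lit 684) (nat_lit 922378272) (nat_lit 76) (nat_lit 5) (nat_lit 75) (nat_lit 5) (nat_lit 84) (nat_lit 5) (nat_lit 256) (nat_lit 254) (nat_lit 210)) (XT.nd (nat_lit 78) (nat_lit 0) (nat_lit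 76) (XT.lf (nat_lit 0) (nat_lit 49086814) (nat_lit 684) (nat_lit 1144856271) (nat_lit 760) (nat_lit 12655337300) (nat_lit 66) (nat_lit 5) (nat_lit 75) (nat_lit 5) (nat_lit 76) (nat_lit 5) (nat_lit 257) (nat_lit 254) (nat_lit 209)) (XT.lf (nat_lit 0) (nat_lit 1268962058) (nat_lit 684) (nat_lit 5728780854) (nat_lit 760) (nat_lit 7406198034) (nat_lit 67) (nat_lit 5) (nat_lit 76) (nat_lit 5) (nat_lit 77) (nat_lit 5) (nat_lit 258) (nat_lit 254) (nat_lit 208))))))) (XT.nd (nat_lit 702) (nat_lit 1748) (nat_lit 0) (XT.nd (nat_lit 312) (nat_lit 988) (nat_lit 0) (XT.nd (nat_lit 156) (nat_lit 608) (nat_lit 0) (XT.nd (nat_lit 78) (nat_lit 0) (nat_lit 0) (XT.lf (nat_lit 0) (nat_lit 2672528920) (nat_lit 684) (nat_lit 10624000720) (nat_lit 760) (nat_lit 1702341118) (nat_lit 68) (nat_lit 5) (nat_lit 77) (nat_lit 5) (nat_lit 78) (nat_lit 5) (nat_lit 259) (nat_lit 254) (nat_lit 207)) (XT.lf (nat_lit 0)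 (nat_lit 4360683173) (nat_lit 684) (nat_lit 302281407) (nat_lit 760) (nat_lit 10970001836) (nat_lit 68) (nat_lit 5) (nat_lit 77) (nat_lit 5) (nat_lit 78) (nat_lit 5) (nat_lit 260) (nat_lit 254) (nat_lit 206))) (XT.nd (nat_lit 78) (nat_lit 684) (nat_lit 0) (XT.lf (nat_lit 0) (nat_lit 6390391335) (nat_lit 684) (nat_lit 5219427186) (nat_lit 76) (nat_lit 4697818870) (nat_lit 69) (nat_lit 5) (nat_lit 78) (nat_lit 5) (nat_lit 70) (nat_lit 5) (nat_lit 261) (nat_lit 254) (nat_lit 205)) (XT.lf (nat_lit 0) (nat_lit 6457015267) (nat_lit 684) (nat_lit 2269451026) (nat_lit 760) (nat_lit 8302776192) (nat_lit 60) (nat_lit 5) (nat_lit 69) (nat_lit 5) (nat_lit 70) (nat_lit 5) (nat_lit 262) (nat_lit 254) (nat_lit 204)))) (XT.nd (nat_lit 156) (nat_lit 684) (nat_lit 0) (XT.nd (nat_lit 78) (nat_lit 0) (nat_lit 0) (XT.lf (nat_lit 0) (nat_lit 1332797673) (nat_lit 304) (nat_lit 10113666465) (nat_lit 380) (nat_lit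 6352408104) (nat_lit 56) (nat_lit 5) (nat_lit 60) (nat_lit 5) (nat_lit 61) (nat_lit 5) (nat_lit 263) (nat_lit 254) (nat_lit 203)) (XT.lf (nat_lit 0) (nat_lit 14493564003) (nat_lit 304) (nat_lit 76356352) (nat_lit 380) (nat_lit 4050996225) (nat_lit 56) (nat_lit 5) (nat_lit 60) (nat_lit 5) (nat_lit 61) (nat_lit 5) (nat_lit 264) (nat_lit 254) (nat_lit 202))) (XT.nd (nat_lit 78) (nat_lit 380) (nat_lit 0) (XT.lf (nat_lit 0) (nat_lit 9293975357) (nat_lit 304) (nat_lit 8929167116) (nat_lit 380) (nat_lit 1271714495) (nat_lit 52) (nat_lit 5) (nat_lit 56) (nat_lit 5) (nat_lit 57) (nat_lit 5) (nat_lit 265) (nat_lit 254) (nat_lit 201)) (XT.nd (nat_lit 78) (nat_lit 0) (nat_lit 0) (XT.lf (nat_lit 0) (nat_lit 1800201507) (nat_lit 380) (nat_lit 16908473376) (nat_lit 76) (nat_lit 1722516252) (nat_lit 47) (nat_lit 5) (nat_lit 52) (nat_lit 5) (nat_lit 48) (nat_lit 5) (nat_lit 266) (nat_lit 254) (nat_lit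 200)) (XT.lf (nat_lit 0) (nat_lit 5374971831) (nat_lit 380) (nat_lit 2933702362) (nat_lit 76) (nat_lit 13117736341) (nat_lit 47) (nat_lit 5) (nat_lit 52) (nat_lit 5) (nat_lit 48) (nat_lit 5) (nat_lit 267) (nat_lit 254) (nat_lit 199)))))) (XT.nd (nat_lit 390) (nat_lit 684) (nat_lit 0) (XT.nd (nat_lit 156) (nat_lit 532) (nat_lit 0) (XT.nd (nat_lit 78) (nat_lit 228) (nat_lit 0) (XT.lf (nat_lit 0) (nat_lit 9452252414) (nat_lit 380) (nat_lit 10012916014) (nat_lit 76) (nat_lit 3025348619) (nat_lit 43) (nat_lit 5) (nat_lit 48) (nat_lit 5) (nat_lit 44) (nat_lit 5) (nat_lit 268) (nat_lit 254) (nat_lit 198)) (XT.lf (nat_lit 0) (nat_lit 5596349322) (nat_lit 228) (nat_lit 8512446590) (nat_lit 304) (nat_lit 9518391030) (nat_lit 40) (nat_lit 5) (nat_lit 43) (nat_lit 5) (nat_lit 44) (nat_lit 5) (nat_lit 269) (nat_lit 254) (nat_lit 197))) (XT.nd (nat_lit 78) (nat_lit 532) (nat_lit 0) (XT.lf (nat_lit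 0) (nat_lit 19341992528) (nat_lit 304) (nat_lit 2119890271) (nat_lit 76) (nat_lit 3382783447) (nat_lit 40) (nat_lit 5) (nat_lit 44) (nat_lit 5) (nat_lit 41) (nat_lit 5) (nat_lit 270) (nat_lit 254) (nat_lit 196)) (XT.nd (nat_lit 78) (nat_lit 304) (nat_lit 0) (XT.lf (nat_lit 0) (nat_lit 15383988979) (nat_lit 228) (nat_lit 9970497020) (nat_lit 304) (nat_lit 787102043) (nat_lit 37) (nat_lit 5) (nat_lit 40) (nat_lit 5) (nat_lit 41) (nat_lit 5) (nat_lit 271) (nat_lit 254) (nat_lit 195)) (XT.lf (nat_lit 0) (nat_lit 4333214281) (nat_lit 304) (nat_lit 20624554256) (nat_lit 76) (nat_lit 2572935595) (nat_lit 33) (nat_lit 5) (nat_lit 37) (nat_lit 5) (nat_lit 34) (nat_lit 5) (nat_lit 272) (nat_lit 254) (nat_lit 194))))) (XT.nd (nat_lit 156) (nat_lit 456) (nat_lit 0) (XT.nd (nat_lit 78) (nat_lit 228) (nat_lit 0) (XT.lf (nat_lit 0) (nat_lit 10173431987) (nat_lit 304) (nat_lit 2867024008) (nat_lit 76)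 (nat_lit 15973017953) (nat_lit 33) (nat_lit 5) (nat_lit 37) (nat_lit 5) (nat_lit 34) (nat_lit 5) (nat_lit 273) (nat_lit 254) (nat_lit 193)) (XT.lf (nat_lit 0) (nat_lit 16725546714) (nat_lit 304) (nat_lit 13780799003) (nat_lit 76) (nat_lit 96343265) (nat_lit 30) (nat_lit 5) (nat_lit 34) (nat_lit 5) (nat_lit 31) (nat_lit 5) (nat_lit 274) (nat_lit 254) (nat_lit 192))) (XT.nd (nat_lit 78) (nat_lit 304) (nat_lit 0) (XT.lf (nat_lit 0) (nat_lit 5811255553) (nat_lit 152) (nat_lit 18333372482) (nat_lit 228) (nat_lit 8157326658) (nat_lit 28) (nat_lit 5) (nat_lit 30) (nat_lit 5) (nat_lit 31) (nat_lit 5) (nat_lit 275) (nat_lit 254) (nat_lit 191)) (XT.nd (nat_lit 78) (nat_lit 304) (nat_lit 0) (XT.lf (nat_lit 0) (nat_lit 27438113408) (nat_lit 152) (nat_lit 4941587243) (nat_lit 228) (nat_lit 1746387163) (nat_lit 28) (nat_lit 5) (nat_lit 30) (nat_lit 5) (nat_lit 31) (nat_lit 5) (nat_lit 276) (nat_lit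 254) (nat_lit 190)) (XT.lf (nat_lit 0) (nat_lit 5384254915) (nat_lit 304) (nat_lit 21157681726) (nat_lit 76) (nat_lit 9531589921) (nat_lit 24) (nat_lit 5) (nat_lit 28) (nat_lit 5) (nat_lit 25) (nat_lit 5) (nat_lit 277) (nat_lit 254) (nat_lit 189))))))))
noncomputable def xc78 : XT := (XT.nd (nat_lit 1404) (nat_lit 380) (nat_lit 0) (XT.nd (nat_lit 702) (nat_lit 456) (nat_lit 0) (XT.nd (nat_lit 312) (nat_lit 456) (nat_lit 0) (XT.nd (nat_lit 156) (nat_lit 152) (nat_lit 0) (XT.nd (nat_lit 78) (nat_lit 0) (nat_lit 0) (XT.lf (nat_lit 0) (nat_lit 183928060) (nat_lit 152) (nat_lit 13029837764) (nat_lit 228) (nat_lit 24952123332) (nat_lit 22) (nat_lit 5) (nat_lit 24) (nat_lit 5) (nat_lit 25) (nat_lit 5) (nat_lit 278) (nat_lit 254) (nat_lit 188)) (XT.lf (nat_lit 0) (nat_lit 22053532543) (nat_lit 228) (nat_lit 16472067995) (nat_lit 76) (nat_lit 1880882816) (nat_lit 22) (nat_lit 5) (nat_lit 25) (nat_lit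 5) (nat_lit 23) (nat_lit 5) (nat_lit 279) (nat_lit 254) (nat_lit 187))) (XT.nd (nat_lit 78) (nat_lit 0) (nat_lit 0) (XT.lf (nat_lit 0) (nat_lit 6733299477) (nat_lit 152) (nat_lit 25178026190) (nat_lit 228) (nat_lit 10899491745) (nat_lit 20) (nat_lit 5) (nat_lit 22) (nat_lit 5) (nat_lit 23) (nat_lit 5) (nat_lit 280) (nat_lit 254) (nat_lit 186)) (XT.lf (nat_lit 0) (nat_lit 32363108493) (nat_lit 152) (nat_lit 10468299800) (nat_lit 228) (nat_lit 2562438612) (nat_lit 20) (nat_lit 5) (nat_lit 22) (nat_lit 5) (nat_lit 23) (nat_lit 5) (nat_lit 281) (nat_lit 254) (nat_lit 185)))) (XT.nd (nat_lit 156) (nat_lit 228) (nat_lit 0) (XT.nd (nat_lit 78) (nat_lit 0) (nat_lit 0) (XT.lf (nat_lit 0) (nat_lit 6501492561) (nat_lit 228) (nat_lit 36130672867) (nat_lit 76) (nat_lit 5533048783) (nat_lit 17) (nat_lit 5) (nat_lit 20) (nat_lit 5) (nat_lit 18) (nat_lit 5) (nat_lit 282) (nat_lit 254) (nat_lit 184))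 (XT.lf (nat_lit 0) (nat_lit 16597212269) (nat_lit 228) (nat_lit 11818850725) (nat_lit 76) (nat_lit 22720331216) (nat_lit 17) (nat_lit 5) (nat_lit 20) (nat_lit 5) (nat_lit 18) (nat_lit 5) (nat_lit 283) (nat_lit 254) (nat_lit 183))) (XT.nd (nat_lit 78) (nat_lit 76) (nat_lit 0) (XT.lf (nat_lit 0) (nat_lit 14897285416) (nat_lit 152) (nat_lit 12824805836) (nat_lit 228) (nat_lit 26612126477) (nat_lit 15) (nat_lit 5) (nat_lit 17) (nat_lit 5) (nat_lit 18) (nat_lit 5) (nat_lit 284) (nat_lit 254) (nat_lit 182)) (XT.nd (nat_lit 78) (nat_lit 76) (nat_lit 0) (XT.lf (nat_lit 0) (nat_lit 39998256305) (nat_lit 228) (nat_lit 13687987168) (nat_lit 76) (nat_lit 4088581282) (nat_lit 15) (nat_lit 5) (nat_lit 18) (nat_lit 5) (nat_lit 16) (nat_lit 4) (nat_lit 285) (nat_lit 254) (nat_lit 181)) (XT.lf (nat_lit 0) (nat_lit 14347985436) (nat_lit 76) (nat_lit 39338955902) (nat_lit 152) (nat_lit 7782238417) (nat_lit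 14) (nat_lit 5) (nat_lit 15) (nat_lit 5) (nat_lit 16) (nat_lit 4) (nat_lit 286) (nat_lit 254) (nat_lit 180)))))) (XT.nd (nat_lit 312) (nat_lit 228) (nat_lit 0) (XT.nd (nat_lit 156) (nat_lit 0) (nat_lit 0) (XT.nd (nat_lit 78) (nat_lit 152) (nat_lit 0) (XT.lf (nat_lit 0) (nat_lit 3148076191) (nat_lit 152) (nat_lit 20397967938) (nat_lit 76) (nat_lit 41899064849) (nat_lit 13) (nat_lit 5) (nat_lit 15) (nat_lit 5) (nat_lit 14) (nat_lit 5) (nat_lit 287) (nat_lit 254) (nat_lit 179)) (XT.lf (nat_lit 0) (nat_lit 8592550614) (nat_lit 152) (nat_lit 6216602044) (nat_lit 228) (nat_lit 54917148521) (nat_lit 11) (nat_lit 5) (nat_lit 13) (nat_lit 5) (nat_lit 14) (nat_lit 5) (nat_lit 288) (nat_lit 254) (nat_lit 178))) (XT.nd (nat_lit 78) (nat_lit 0) (nat_lit 0) (XT.lf (nat_lit 0) (nat_lit 27950951080) (nat_lit 228) (nat_lit 33916564701) (nat_lit 76) (nat_lit 12455096872) (nat_lit 11) (nat_lit 5) (nat_lit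 14) (nat_lit 5) (nat_lit 12) (nat_lit 4) (nat_lit 289) (nat_lit 254) (nat_lit 177)) (XT.lf (nat_lit 0) (nat_lit 42241087028) (nat_lit 228) (nat_lit 4639868942) (nat_lit 76) (nat_lit 32400837919) (nat_lit 11) (nat_lit 5) (nat_lit 14) (nat_lit 5) (nat_lit 12) (nat_lit 4) (nat_lit 290) (nat_lit 254) (nat_lit 176)))) (XT.nd (nat_lit 156) (nat_lit 152) (nat_lit 0) (XT.nd (nat_lit 78) (nat_lit 0) (nat_lit 0) (XT.lf (nat_lit 0) (nat_lit 27858533885) (nat_lit 76) (nat_lit 30243600111) (nat_lit 152) (nat_lit 26514204072) (nat_lit 10) (nat_lit 5) (nat_lit 11) (nat_lit 5) (nat_lit 12) (nat_lit 4) (nat_lit 291) (nat_lit 254) (nat_lit 175)) (XT.lf (nat_lit 0) (nat_lit 63110946300) (nat_lit 76) (nat_lit 12195048973) (nat_lit 152) (nat_lit 15067966435) (nat_lit 10) (nat_lit 5) (nat_lit 11) (nat_lit 5) (nat_lit 12) (nat_lit 4) (nat_lit 292) (nat_lit 254) (nat_lit 174))) (XT.nd (nat_lit 78) (nat_lit 76)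 (nat_lit 0) (XT.lf (nat_lit 0) (nat_lit 4614146773) (nat_lit 76) (nat_lit 89451541372) (nat_lit 76) (nat_lit 2517542490) (nat_lit 9) (nat_lit 4) (nat_lit 10) (nat_lit 5) (nat_lit 10) (nat_lit 4) (nat_lit 293) (nat_lit 254) (nat_lit 173)) (XT.nd (nat_lit 78) (nat_lit 0) (nat_lit 0) (XT.lf (nat_lit 0) (nat_lit 11365738867) (nat_lit 152) (nat_lit 63646892772) (nat_lit 76) (nat_lit 28233900062) (nat_lit 8) (nat_lit 5) (nat_lit 10) (nat_lit 5) (nat_lit 9) (nat_lit 4) (nat_lit 294) (nat_lit 254) (nat_lit 172)) (XT.lf (nat_lit 0) (nat_lit 26266875651) (nat_lit 152) (nat_lit 33111283259) (nat_lit 76) (nat_lit 51062914031) (nat_lit 8) (nat_lit 5) (nat_lit 10) (nat_lit 5) (nat_lit 9) (nat_lit 4) (nat_lit 295) (nat_lit 254) (nat_lit 171))))))) (XT.nd (nat_lit 702) (nat_lit 152) (nat_lit 0) (XT.nd (nat_lit 312) (nat_lit 152) (nat_lit 0) (XT.nd (nat_lit 156) (nat_lit 0) (nat_lit 0) (XT.nd (nat_lit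 78) (nat_lit 76) (nat_lit 0) (XT.lf (nat_lit 0) (nat_lit 42354747978) (nat_lit 152) (nat_lit 141997671) (nat_lit 76) (nat_lit 75714708320) (nat_lit 8) (nat_lit 5) (nat_lit 10) (nat_lit 5) (nat_lit 9) (nat_lit 4) (nat_lit 296) (nat_lit 254) (nat_lit 170)) (XT.lf (nat_lit 0) (nat_lit 36628684180) (nat_lit 76) (nat_lit 23667883618) (nat_lit 152) (nat_lit 66278559869) (nat_lit 7) (nat_lit 5) (nat_lit 8) (nat_lit 5) (nat_lit 9) (nat_lit 4) (nat_lit 297) (nat_lit 254) (nat_lit 169))) (XT.nd (nat_lit 78) (nat_lit 0) (nat_lit 0) (XT.lf (nat_lit 0) (nat_lit 76337967148) (nat_lit 76) (nat_lit 3333521329) (nat_lit 152) (nat_lit 55936526493) (nat_lit 7) (nat_lit 5) (nat_lit 8) (nat_lit 5) (nat_lit 9) (nat_lit 4) (nat_lit 298) (nat_lit 254) (nat_lit 168)) (XT.lf (nat_lit 0) (nat_lit 100882813724) (nat_lit 152) (nat_lit 26438067844) (nat_lit 0) (nat_lit 18028338067) (nat_lit 7) (nat_lit 5) (nat_lit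 9) (nat_lit 4) (nat_lit 7) (nat_lit 4) (nat_lit 299) (nat_lit 254) (nat_lit 167)))) (XT.nd (nat_lit 156) (nat_lit 76) (nat_lit 0) (XT.nd (nat_lit 78) (nat_lit 0) (nat_lit 0) (XT.lf (nat_lit 0) (nat_lit 9253296344) (nat_lit 76) (nat_lit 114734337079) (nat_lit 76) (nat_lit 31872264236) (nat_lit 6) (nat_lit 4) (nat_lit 7) (nat_lit 5) (nat_lit 7) (nat_lit 4) (nat_lit 300) (nat_lit 254) (nat_lit 166)) (XT.lf (nat_lit 0) (nat_lit 48737246125) (nat_lit 76) (nat_lit 100660232505) (nat_lit 76) (nat_lit 17791125231) (nat_lit 6) (nat_lit 4) (nat_lit 7) (nat_lit 5) (nat_lit 7) (nat_lit 4) (nat_lit 301) (nat_lit 254) (nat_lit 165))) (XT.nd (nat_lit 78) (nat_lit 76) (nat_lit 0) (XT.lf (nat_lit 0) (nat_lit 91373598538) (nat_lit 76) (nat_lit 85462907218) (nat_lit 76) (nat_lit 2587286581) (nat_lit 6) (nat_lit 4) (nat_lit 7) (nat_lit 5) (nat_lit 7) (nat_lit 4) (nat_lit 302) (nat_lit 254) (nat_lit 164))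 (XT.nd (nat_lit 78) (nat_lit 0) (nat_lit 0) (XT.lf (nat_lit 0) (nat_lit 13386723014) (nat_lit 152) (nat_lit 55438869347) (nat_lit 76) (nat_lit 123801579805) (nat_lit 5) (nat_lit 5) (nat_lit 7) (nat_lit 5) (nat_lit 6) (nat_lit 4) (nat_lit 303) (nat_lit 254) (nat_lit 163)) (XT.lf (nat_lit 0) (nat_lit 30546072762) (nat_lit 152) (nat_lit 20267786521) (nat_lit 76) (nat_lit 156070943592) (nat_lit 5) (nat_lit 5) (nat_lit 7) (nat_lit 5) (nat_lit 6) (nat_lit 4) (nat_lit 304) (nat_lit 254) (nat_lit 162)))))) (XT.nd (nat_lit 390) (nat_lit 76) (nat_lit 0) (XT.nd (nat_lit 156) (nat_lit 0) (nat_lit 0) (XT.nd (nat_lit 78) (nat_lit 0) (nat_lit 0) (XT.lf (nat_lit 0) (nat_lit 18297505139) (nat_lit 76) (nat_lit 31063427222) (nat_lit 152) (nat_lit 172907977741) (nat_lit 4) (nat_lit 5) (nat_lit 5) (nat_lit 5) (nat_lit 6) (nat_lit 4) (nat_lit 305) (nat_lit 254) (nat_lit 161)) (XT.lf (nat_lit 0) (nat_lit 60666886196)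 (nat_lit 76) (nat_lit 9364372298) (nat_lit 152) (nat_lit 168834977369) (nat_lit 4) (nat_lit 5) (nat_lit 5) (nat_lit 5) (nat_lit 6) (nat_lit 4) (nat_lit 306) (nat_lit 254) (nat_lit 160))) (XT.nd (nat_lit 78) (nat_lit 0) (nat_lit 0) (XT.lf (nat_lit 0) (nat_lit 92572293219) (nat_lit 152) (nat_lit 150589840783) (nat_lit 0) (nat_lit 13618363120) (nat_lit 4) (nat_lit 5) (nat_lit 6) (nat_lit 4) (nat_lit 4) (nat_lit 4) (nat_lit 307) (nat_lit 254) (nat_lit 159)) (XT.nd (nat_lit 78) (nat_lit 0) (nat_lit 0) (XT.lf (nat_lit 0) (nat_lit 117072104562) (nat_lit 152) (nat_lit 120933757929) (nat_lit 0) (nat_lit 38114265395) (nat_lit 4) (nat_lit 5) (nat_lit 6) (nat_lit 4) (nat_lit 4) (nat_lit 4) (nat_lit 308) (nat_lit 254) (nat_lit 158)) (XT.lf (nat_lit 0) (nat_lit 143529672497) (nat_lit 152) (nat_lit 88909157263) (nat_lit 0) (nat_lit 64568213821) (nat_lit 4) (nat_lit 5) (nat_lit 6) (nat_lit 4) (nat_lit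 4) (nat_lit 4) (nat_lit 309) (nat_lit 254) (nat_lit 157))))) (XT.nd (nat_lit 156) (nat_lit 76) (nat_lit 0) (XT.nd (nat_lit 78) (nat_lit 0) (nat_lit 0) (XT.lf (nat_lit 0) (nat_lit 172101782612) (nat_lit 152) (nat_lit 54326263371) (nat_lit 0) (nat_lit 93136972538) (nat_lit 4) (nat_lit 5) (nat_lit 6) (nat_lit 4) (nat_lit 4) (nat_lit 4) (nat_lit 310) (nat_lit 254) (nat_lit 156)) (XT.lf (nat_lit 0) (nat_lit 202957751113) (nat_lit 152) (nat_lit 16980140587) (nat_lit 0) (nat_lit 123989837894) (nat_lit 4) (nat_lit 5) (nat_lit 6) (nat_lit 4) (nat_lit 4) (nat_lit 4) (nat_lit 311) (nat_lit 254) (nat_lit 155))) (XT.nd (nat_lit 78) (nat_lit 0) (nat_lit 0) (XT.lf (nat_lit 0) (nat_lit 24122595139) (nat_lit 76) (nat_lit 212534454360) (nat_lit 76) (nat_lit 133563667858) (nat_lit 3) (nat_lit 4) (nat_lit 4) (nat_lit 5) (nat_lit 4) (nat_lit 4) (nat_lit 312) (nat_lit 254) (nat_lit 154)) (XT.nd (nat_lit 78)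 (nat_lit 0) (nat_lit 0) (XT.lf (nat_lit 0) (nat_lit 69116891413) (nat_lit 76) (nat_lit 204229498506) (nat_lit 76) (nat_lit 125256051557) (nat_lit 3) (nat_lit 4) (nat_lit 4) (nat_lit 5) (nat_lit 4) (nat_lit 4) (nat_lit 313) (nat_lit 254) (nat_lit 153)) (XT.lf (nat_lit 0) (nat_lit 117707940971) (nat_lit 76) (nat_lit 195261376483) (nat_lit 76) (nat_lit 116285466157) (nat_lit 3) (nat_lit 4) (nat_lit 4) (nat_lit 5) (nat_lit 4) (nat_lit 4) (nat_lit 314) (nat_lit 254) (nat_lit 152))))))))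
noncomputable def xc79 : XT := (XT.nd (nat_lit 33696) (nat_lit 0) (nat_lit 1064) (XT.nd (nat_lit 32916) (nat_lit 0) (nat_lit 4028) (XT.nd (nat_lit 312) (nat_lit 0) (nat_lit 0) (XT.nd (nat_lit 156) (nat_lit 0) (nat_lit 0) (XT.nd (nat_lit 78) (nat_lit 0) (nat_lit 0) (XT.lf (nat_lit 0) (nat_lit 170183690771) (nat_lit 76) (nat_lit 185576943863) (nat_lit 76) (nat_lit 106598752633) (nat_lit 3) (nat_lit 4) (nat_lit 4) (nat_lit 5) (nat_lit 4) (nat_lit 4) (nat_lit 315) (nat_lit 254) (nat_lit 151)) (XT.lf (nat_lit 0) (nat_lit 226855108220) (nat_lit 76) (nat_lit 175118811416) (nat_lit 76) (nat_lit 96138508238) (nat_lit 3) (nat_lit 4) (nat_lit 4) (nat_lit 5) (nat_lit 4) (nat_lit 4) (nat_lit 316) (nat_lit 254) (nat_lit 150))) (XT.nd (nat_lit 78) (nat_lit 0) (nat_lit 0) (XT.lf (nat_lit 0) (nat_lit 288058023940) (nat_lit 76) (nat_lit 163825005025) (nat_lit 76) (nat_lit 84842746338) (nat_lit 3) (nat_lit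 4) (nat_lit 4) (nat_lit 5) (nat_lit 4) (nat_lit 4) (nat_lit 317) (nat_lit 254) (nat_lit 149)) (XT.lf (nat_lit 0) (nat_lit 354155121876) (nat_lit 76) (nat_lit 151628598428) (nat_lit 76) (nat_lit 72644529086) (nat_lit 3) (nat_lit 4) (nat_lit 4) (nat_lit 5) (nat_lit 4) (nat_lit 4) (nat_lit 318) (nat_lit 254) (nat_lit 148)))) (XT.nd (nat_lit 156) (nat_lit 0) (nat_lit 0) (XT.nd (nat_lit 78) (nat_lit 0) (nat_lit 0) (XT.lf (nat_lit 0) (nat_lit 425538088535) (nat_lit 76) (nat_lit 138457316625) (nat_lit 76) (nat_lit 59471570749) (nat_lit 3) (nat_lit 4) (nat_lit 4) (nat_lit 5) (nat_lit 4) (nat_lit 4) (nat_lit 319) (nat_lit 254) (nat_lit 147)) (XT.lf (nat_lit 0) (nat_lit 502629934088) (nat_lit 76) (nat_lit 124233107574) (nat_lit 76) (nat_lit 45245809353) (nat_lit 3) (nat_lit 4) (nat_lit 4) (nat_lit 5) (nat_lit 4) (nat_lit 4) (nat_lit 320) (nat_lit 254) (nat_lit 146))) (XT.nd (nat_lit 78) (nat_lit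 0) (nat_lit 0) (XT.lf (nat_lit 0) (nat_lit 585887499103) (nat_lit 76) (nat_lit 108871679666) (nat_lit 76) (nat_lit 29882944089) (nat_lit 3) (nat_lit 4) (nat_lit 4) (nat_lit 5) (nat_lit 4) (nat_lit 4) (nat_lit 321) (nat_lit 254) (nat_lit 145)) (XT.nd (nat_lit 32292) (nat_lit 0) (nat_lit 5396) (XT.lf (nat_lit 0) (nat_lit 675804161743) (nat_lit 76) (nat_lit 92282002218) (nat_lit 76) (nat_lit 13291935755) (nat_lit 3) (nat_lit 4) (nat_lit 4) (nat_lit 5) (nat_lit 4) (nat_lit 4) (nat_lit 322) (nat_lit 254) (nat_lit 144)) (XT.lf (nat_lit 0) (nat_lit 5990870582) (nat_lit 684) (nat_lit 331002946) (nat_lit 684) (nat_lit 331002946) (nat_lit 74) (nat_lit 3) (nat_lit 83) (nat_lit 3) (nat_lit 83) (nat_lit 5) (nat_lit 255) (nat_lit 255) (nat_lit 210)))))) (XT.nd (nat_lit 390) (nat_lit 760) (nat_lit 0) (XT.nd (nat_lit 156) (nat_lit 0) (nat_lit 0) (XT.nd (nat_lit 78) (nat_lit 608) (nat_lit 0) (XT.lf (nat_lit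 76) (nat_lit 8484984290) (nat_lit 0) (nat_lit 4634308028) (nat_lit 684) (nat_lit 683492898) (nat_lit 75) (nat_lit 5) (nat_lit 74) (nat_lit 3) (nat_lit 83) (nat_lit 5) (nat_lit 256) (nat_lit 255) (nat_lit 209)) (XT.lf (nat_lit 0) (nat_lit 94698571) (nat_lit 684) (nat_lit 10252766890) (nat_lit 760) (nat_lit 3987990974) (nat_lit 66) (nat_lit 5) (nat_lit 75) (nat_lit 5) (nat_lit 76) (nat_lit 5) (nat_lit 257) (nat_lit 255) (nat_lit 208))) (XT.nd (nat_lit 78) (nat_lit 0) (nat_lit 76) (XT.lf (nat_lit 0) (nat_lit 1033554030) (nat_lit 684) (nat_lit 604567884) (nat_lit 760) (nat_lit 13266142940) (nat_lit 66) (nat_lit 5) (nat_lit 75) (nat_lit 5) (nat_lit 76) (nat_lit 5) (nat_lit 258) (nat_lit 255) (nat_lit 207)) (XT.nd (nat_lit 78) (nat_lit 0) (nat_lit 76) (XT.lf (nat_lit 0) (nat_lit 2282937629) (nat_lit 684) (nat_lit 5528274368) (nat_lit 760) (nat_lit 7695781526) (nat_lit 67) (nat_lit 5) (nat_lit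 76) (nat_lit 5) (nat_lit 77) (nat_lit 5) (nat_lit 259) (nat_lit 255) (nat_lit 206)) (XT.lf (nat_lit 0) (nat_lit 3737533614) (nat_lit 684) (nat_lit 10794131762) (nat_lit 760) (nat_lit 1621184767) (nat_lit 68) (nat_lit 5) (nat_lit 77) (nat_lit 5) (nat_lit 78) (nat_lit 5) (nat_lit 260) (nat_lit 255) (nat_lit 205))))) (XT.nd (nat_lit 156) (nat_lit 912) (nat_lit 0) (XT.nd (nat_lit 78) (nat_lit 0) (nat_lit 76) (XT.lf (nat_lit 76) (nat_lit 312987921) (nat_lit 0) (nat_lit 5189586876) (nat_lit 760) (nat_lit 11338256569) (nat_lit 69) (nat_lit 5) (nat_lit 68) (nat_lit 5) (nat_lit 78) (nat_lit 5) (nat_lit 261) (nat_lit 255) (nat_lit 204)) (XT.lf (nat_lit 0) (nat_lit 7638651295) (nat_lit 684) (nat_lit 4992913373) (nat_lit 76) (nat_lit 4940942917) (nat_lit 69) (nat_lit 5) (nat_lit 78) (nat_lit 5) (nat_lit 70) (nat_lit 5) (nat_lit 262) (nat_lit 255) (nat_lit 203))) (XT.nd (nat_lit 78) (nat_lit 304)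 (nat_lit 0) (XT.lf (nat_lit 0) (nat_lit 7589654066) (nat_lit 684) (nat_lit 2526982165) (nat_lit 760) (nat_lit 8237667682) (nat_lit 60) (nat_lit 5) (nat_lit 69) (nat_lit 5) (nat_lit 70) (nat_lit 5) (nat_lit 263) (nat_lit 255) (nat_lit 202)) (XT.nd (nat_lit 78) (nat_lit 0) (nat_lit 0) (XT.lf (nat_lit 0) (nat_lit 2065517632) (nat_lit 304) (nat_lit 10946129911) (nat_lit 380) (nat_lit 6176183999) (nat_lit 56) (nat_lit 5) (nat_lit 60) (nat_lit 5) (nat_lit 61) (nat_lit 5) (nat_lit 264) (nat_lit 255) (nat_lit 201)) (XT.lf (nat_lit 0) (nat_lit 16232767777) (nat_lit 304) (nat_lit 104103868) (nat_lit 380) (nat_lit 3741356708) (nat_lit 56) (nat_lit 5) (nat_lit 60) (nat_lit 5) (nat_lit 61) (nat_lit 5) (nat_lit 265) (nat_lit 255) (nat_lit 200))))))) (XT.nd (nat_lit 702) (nat_lit 1216) (nat_lit 0) (XT.nd (nat_lit 312) (nat_lit 760) (nat_lit 0) (XT.nd (nat_lit 156) (nat_lit 304) (nat_lit 0) (XT.nd (nat_lit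 78) (nat_lit 380) (nat_lit 0) (XT.lf (nat_lit 0) (nat_lit 10623296497) (nat_lit 304) (nat_lit 9623343231) (nat_lit 380) (nat_lit 777399735) (nat_lit 52) (nat_lit 5) (nat_lit 56) (nat_lit 5) (nat_lit 57) (nat_lit 5) (nat_lit 266) (nat_lit 255) (nat_lit 199)) (XT.lf (nat_lit 0) (nat_lit 2488098218) (nat_lit 380) (nat_lit 17652166844) (nat_lit 76) (nat_lit 1896354521) (nat_lit 47) (nat_lit 5) (nat_lit 52) (nat_lit 5) (nat_lit 48) (nat_lit 5) (nat_lit 267) (nat_lit 255) (nat_lit 198))) (XT.nd (nat_lit 78) (nat_lit 304) (nat_lit 0) (XT.lf (nat_lit 0) (nat_lit 6308562716) (nat_lit 380) (nat_lit 2604524105) (nat_lit 76) (nat_lit 14200522812) (nat_lit 47) (nat_lit 5) (nat_lit 52) (nat_lit 5) (nat_lit 48) (nat_lit 5) (nat_lit 268) (nat_lit 255) (nat_lit 197)) (XT.lf (nat_lit 0) (nat_lit 10684153109) (nat_lit 380) (nat_lit 10250248455) (nat_lit 76) (nat_lit 3329965186) (nat_lit 43) (nat_lit 5)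 (nat_lit 48) (nat_lit 5) (nat_lit 44) (nat_lit 5) (nat_lit 269) (nat_lit 255) (nat_lit 196)))) (XT.nd (nat_lit 156) (nat_lit 532) (nat_lit 0) (XT.nd (nat_lit 78) (nat_lit 0) (nat_lit 0) (XT.lf (nat_lit 0) (nat_lit 6583260357) (nat_lit 228) (nat_lit 9103139646) (nat_lit 304) (nat_lit 9807030174) (nat_lit 40) (nat_lit 5) (nat_lit 43) (nat_lit 5) (nat_lit 44) (nat_lit 5) (nat_lit 270) (nat_lit 255) (nat_lit 195)) (XT.lf (nat_lit 0) (nat_lit 21306305908) (nat_lit 304) (nat_lit 1769365816) (nat_lit 76) (nat_lit 3734343550) (nat_lit 40) (nat_lit 5) (nat_lit 44) (nat_lit 5) (nat_lit 41) (nat_lit 5) (nat_lit 271) (nat_lit 255) (nat_lit 194))) (XT.nd (nat_lit 78) (nat_lit 304) (nat_lit 0) (XT.lf (nat_lit 0) (nat_lit 17112220181) (nat_lit 228) (nat_lit 10664460754) (nat_lit 304) (nat_lit 435267743) (nat_lit 37) (nat_lit 5) (nat_lit 40) (nat_lit 5) (nat_lit 41) (nat_lit 5) (nat_lit 272) (nat_lit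 255) (nat_lit 193)) (XT.nd (nat_lit 78) (nat_lit 0) (nat_lit 0) (XT.lf (nat_lit 0) (nat_lit 5061023752) (nat_lit 304) (nat_lit 21766394268) (nat_lit 76) (nat_lit 2885560835) (nat_lit 33) (nat_lit 5) (nat_lit 37) (nat_lit 5) (nat_lit 34) (nat_lit 5) (nat_lit 273) (nat_lit 255) (nat_lit 192)) (XT.lf (nat_lit 0) (nat_lit 11340225369) (nat_lit 304) (nat_lit 2625900440) (nat_lit 76) (nat_lit 17349739382) (nat_lit 33) (nat_lit 5) (nat_lit 37) (nat_lit 5) (nat_lit 34) (nat_lit 5) (nat_lit 274) (nat_lit 255) (nat_lit 191)))))) (XT.nd (nat_lit 390) (nat_lit 380) (nat_lit 0) (XT.nd (nat_lit 156) (nat_lit 456) (nat_lit 0) (XT.nd (nat_lit 78) (nat_lit 152) (nat_lit 0) (XT.lf (nat_lit 0) (nat_lit 18399208270) (nat_lit 304) (nat_lit 14417385133) (nat_lit 76) (nat_lit 216566166) (nat_lit 30) (nat_lit 5) (nat_lit 34) (nat_lit 5) (nat_lit 31) (nat_lit 5) (nat_lit 275) (nat_lit 255) (nat_lit 190)) (XT.lf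 (nat_lit 0) (nat_lit 6721787307) (nat_lit 152) (nat_lit 19672125764) (nat_lit 228) (nat_lit 8475419997) (nat_lit 28) (nat_lit 5) (nat_lit 30) (nat_lit 5) (nat_lit 31) (nat_lit 5) (nat_lit 276) (nat_lit 255) (nat_lit 189))) (XT.nd (nat_lit 78) (nat_lit 456) (nat_lit 0) (XT.lf (nat_lit 0) (nat_lit 30045784063) (nat_lit 152) (nat_lit 5218473004) (nat_lit 228) (nat_lit 1576382587) (nat_lit 28) (nat_lit 5) (nat_lit 30) (nat_lit 5) (nat_lit 31) (nat_lit 5) (nat_lit 277) (nat_lit 255) (nat_lit 188)) (XT.nd (nat_lit 78) (nat_lit 152) (nat_lit 0) (XT.lf (nat_lit 0) (nat_lit 6100801679) (nat_lit 304) (nat_lit 22432336912) (nat_lit 76) (nat_lit 10411251236) (nat_lit 24) (nat_lit 5) (nat_lit 28) (nat_lit 5) (nat_lit 25) (nat_lit 5) (nat_lit 278) (nat_lit 255) (nat_lit 187)) (XT.lf (nat_lit 0) (nat_lit 598437653) (nat_lit 152) (nat_lit 13943306892) (nat_lit 228) (nat_lit 26663197296) (nat_lit 22)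 (nat_lit 5) (nat_lit 24) (nat_lit 5) (nat_lit 25) (nat_lit 5) (nat_lit 279) (nat_lit 255) (nat_lit 186))))) (XT.nd (nat_lit 156) (nat_lit 228) (nat_lit 0) (XT.nd (nat_lit 78) (nat_lit 152) (nat_lit 0) (XT.lf (nat_lit 0) (nat_lit 24070491280) (nat_lit 228) (nat_lit 17408351002) (nat_lit 76) (nat_lit 2146901327) (nat_lit 22) (nat_lit 5) (nat_lit 25) (nat_lit 5) (nat_lit 23) (nat_lit 5) (nat_lit 280) (nat_lit 255) (nat_lit 185)) (XT.lf (nat_lit 0) (nat_lit 7636867106) (nat_lit 152) (nat_lit 27067021166) (nat_lit 228) (nat_lit 11519233365) (nat_lit 20) (nat_lit 5) (nat_lit 22) (nat_lit 5) (nat_lit 23) (nat_lit 5) (nat_lit 281) (nat_lit 255) (nat_lit 184))) (XT.nd (nat_lit 78) (nat_lit 228) (nat_lit 0) (XT.lf (nat_lit 0) (nat_lit 35290030942) (nat_lit 152) (nat_lit 11189794230) (nat_lit 228) (nat_lit 2533898776) (nat_lit 20) (nat_lit 5) (nat_lit 22) (nat_lit 5) (nat_lit 23) (nat_lit 5) (nat_lit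 282) (nat_lit 255) (nat_lit 183)) (XT.nd (nat_lit 78) (nat_lit 0) (nat_lit 0) (XT.lf (nat_lit 0) (nat_lit 7237908762) (nat_lit 228) (nat_lit 38680919207) (nat_lit 76) (nat_lit 6088316316) (nat_lit 17) (nat_lit 5) (nat_lit 20) (nat_lit 5) (nat_lit 18) (nat_lit 5) (nat_lit 283) (nat_lit 255) (nat_lit 182)) (XT.lf (nat_lit 0) (nat_lit 18125264063) (nat_lit 228) (nat_lit 12449351849) (nat_lit 76) (nat_lit 24642238852) (nat_lit 17) (nat_lit 5) (nat_lit 20) (nat_lit 5) (nat_lit 18) (nat_lit 5) (nat_lit 284) (nat_lit 255) (nat_lit 181))))))))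
noncomputable def xc80 : XT := (XT.nd (nat_lit 1404) (nat_lit 228) (nat_lit 0) (XT.nd (nat_lit 702) (nat_lit 304) (nat_lit 0) (XT.nd (nat_lit 312) (nat_lit 228) (nat_lit 0) (XT.nd (nat_lit 156) (nat_lit 152) (nat_lit 0) (XT.nd (nat_lit 78) (nat_lit 0) (nat_lit 0) (XT.lf (nat_lit 0) (nat_lit 16390385367) (nat_lit 152) (nat_lit 13739617231) (nat_lit 228) (nat_lit 28541040494) (nat_lit 15) (nat_lit 5) (nat_lit 17) (nat_lit 5) (nat_lit 18) (nat_lit 5) (nat_lit 285) (nat_lit 255) (nat_lit 180)) (XT.lf (nat_lit 0) (nat_lit 43375783261) (nat_lit 228) (nat_lit 14496458132) (nat_lit 76) (nat_lit 4515311154) (nat_lit 15) (nat_lit 5) (nat_lit 18) (nat_lit 5) (nat_lit 16) (nat_lit 4) (nat_lit 286) (nat_lit 255) (nat_lit 179))) (XT.nd (nat_lit 78) (nat_lit 76) (nat_lit 0) (XT.lf (nat_lit 0) (nat_lit 15769938384) (nat_lit 76) (nat_lit 42380743924) (nat_lit 152) (nat_lit 8227245446) (nat_lit 14) (nat_lit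 5) (nat_lit 15) (nat_lit 5) (nat_lit 16) (nat_lit 4) (nat_lit 287) (nat_lit 255) (nat_lit 178)) (XT.lf (nat_lit 0) (nat_lit 3559078425) (nat_lit 152) (nat_lit 21770427506) (nat_lit 76) (nat_lit 45342947876) (nat_lit 13) (nat_lit 5) (nat_lit 15) (nat_lit 5) (nat_lit 14) (nat_lit 5) (nat_lit 288) (nat_lit 255) (nat_lit 177)))) (XT.nd (nat_lit 156) (nat_lit 76) (nat_lit 0) (XT.nd (nat_lit 78) (nat_lit 0) (nat_lit 0) (XT.lf (nat_lit 0) (nat_lit 9528060284) (nat_lit 152) (nat_lit 6617065006) (nat_lit 228) (nat_lit 59151434553) (nat_lit 11) (nat_lit 5) (nat_lit 13) (nat_lit 5) (nat_lit 14) (nat_lit 5) (nat_lit 289) (nat_lit 255) (nat_lit 176)) (XT.lf (nat_lit 0) (nat_lit 30328464904) (nat_lit 228) (nat_lit 36394298475) (nat_lit 76) (nat_lit 13538323983) (nat_lit 11) (nat_lit 5) (nat_lit 14) (nat_lit 5) (nat_lit 12) (nat_lit 4) (nat_lit 290) (nat_lit 255) (nat_lit 175))) (XT.nd (nat_lit 78)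 (nat_lit 76) (nat_lit 0) (XT.lf (nat_lit 0) (nat_lit 45751334859) (nat_lit 228) (nat_lit 4792918270) (nat_lit 76) (nat_lit 35073293250) (nat_lit 11) (nat_lit 5) (nat_lit 14) (nat_lit 5) (nat_lit 12) (nat_lit 4) (nat_lit 291) (nat_lit 255) (nat_lit 174)) (XT.nd (nat_lit 78) (nat_lit 0) (nat_lit 0) (XT.lf (nat_lit 0) (nat_lit 30295876676) (nat_lit 76) (nat_lit 32578945871) (nat_lit 152) (nat_lit 28504371695) (nat_lit 10) (nat_lit 5) (nat_lit 11) (nat_lit 5) (nat_lit 12) (nat_lit 4) (nat_lit 292) (nat_lit 255) (nat_lit 173)) (XT.lf (nat_lit 0) (nat_lit 68353025782) (nat_lit 76) (nat_lit 13092743401) (nat_lit 152) (nat_lit 16152136432) (nat_lit 10) (nat_lit 5) (nat_lit 11) (nat_lit 5) (nat_lit 12) (nat_lit 4) (nat_lit 293) (nat_lit 255) (nat_lit 172)))))) (XT.nd (nat_lit 312) (nat_lit 76) (nat_lit 0) (XT.nd (nat_lit 156) (nat_lit 76) (nat_lit 0) (XT.nd (nat_lit 78) (nat_lit 76) (nat_lit 0)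 (XT.lf (nat_lit 0) (nat_lit 5172635818) (nat_lit 76) (nat_lit 96529144030) (nat_lit 76) (nat_lit 2602374521) (nat_lit 9) (nat_lit 4) (nat_lit 10) (nat_lit 5) (nat_lit 10) (nat_lit 4) (nat_lit 294) (nat_lit 255) (nat_lit 171)) (XT.lf (nat_lit 0) (nat_lit 12379479788) (nat_lit 152) (nat_lit 68559688625) (nat_lit 76) (nat_lit 30561691642) (nat_lit 8) (nat_lit 5) (nat_lit 10) (nat_lit 5) (nat_lit 9) (nat_lit 4) (nat_lit 295) (nat_lit 255) (nat_lit 170))) (XT.nd (nat_lit 78) (nat_lit 76) (nat_lit 0) (XT.lf (nat_lit 0) (nat_lit 28464968122) (nat_lit 152) (nat_lit 35594486320) (nat_lit 76) (nat_lit 55211909722) (nat_lit 8) (nat_lit 5) (nat_lit 10) (nat_lit 5) (nat_lit 9) (nat_lit 4) (nat_lit 296) (nat_lit 255) (nat_lit 169)) (XT.lf (nat_lit 0) (nat_lit 70321) (nat_lit 76) (nat_lit 45832634906) (nat_lit 152) (nat_lit 81831040364) (nat_lit 7) (nat_lit 5) (nat_lit 8) (nat_lit 5) (nat_lit 9) (nat_lit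 4) (nat_lit 297) (nat_lit 255) (nat_lit 168)))) (XT.nd (nat_lit 156) (nat_lit 76) (nat_lit 0) (XT.nd (nat_lit 78) (nat_lit 0) (nat_lit 0) (XT.lf (nat_lit 0) (nat_lit 39705736782) (nat_lit 76) (nat_lit 25499788771) (nat_lit 152) (nat_lit 71491215686) (nat_lit 7) (nat_lit 5) (nat_lit 8) (nat_lit 5) (nat_lit 9) (nat_lit 4) (nat_lit 298) (nat_lit 255) (nat_lit 167)) (XT.lf (nat_lit 0) (nat_lit 82580891435) (nat_lit 76) (nat_lit 3543234946) (nat_lit 152) (nat_lit 60328458823) (nat_lit 7) (nat_lit 5) (nat_lit 8) (nat_lit 5) (nat_lit 9) (nat_lit 4) (nat_lit 299) (nat_lit 255) (nat_lit 166))) (XT.nd (nat_lit 78) (nat_lit 76) (nat_lit 0) (XT.lf (nat_lit 0) (nat_lit 109027335357) (nat_lit 152) (nat_lit 28424346191) (nat_lit 0) (nat_lit 19521665070) (nat_lit 7) (nat_lit 5) (nat_lit 9) (nat_lit 4) (nat_lit 7) (nat_lit 4) (nat_lit 300) (nat_lit 255) (nat_lit 165)) (XT.nd (nat_lit 78) (nat_lit 0) (nat_lit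 0) (XT.lf (nat_lit 0) (nat_lit 10116731072) (nat_lit 76) (nat_lit 123860258787) (nat_lit 76) (nat_lit 34348075137) (nat_lit 6) (nat_lit 4) (nat_lit 7) (nat_lit 5) (nat_lit 7) (nat_lit 4) (nat_lit 301) (nat_lit 255) (nat_lit 164)) (XT.lf (nat_lit 0) (nat_lit 52750273056) (nat_lit 76) (nat_lit 108664138829) (nat_lit 76) (nat_lit 19145924289) (nat_lit 6) (nat_lit 4) (nat_lit 7) (nat_lit 5) (nat_lit 7) (nat_lit 4) (nat_lit 302) (nat_lit 255) (nat_lit 163))))))) (XT.nd (nat_lit 702) (nat_lit 76) (nat_lit 0) (XT.nd (nat_lit 312) (nat_lit 0) (nat_lit 0) (XT.nd (nat_lit 156) (nat_lit 76) (nat_lit 0) (XT.nd (nat_lit 78) (nat_lit 76) (nat_lit 0) (XT.lf (nat_lit 0) (nat_lit 98789085719) (nat_lit 76) (nat_lit 92254650651) (nat_lit 76) (nat_lit 2730851952) (nat_lit 6) (nat_lit 4) (nat_lit 7) (nat_lit 5) (nat_lit 7) (nat_lit 4) (nat_lit 303) (nat_lit 255) (nat_lit 162)) (XT.lf (nat_lit 0) (nat_lit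 14514501409) (nat_lit 152) (nat_lit 59774241326) (nat_lit 76) (nat_lit 133745680141) (nat_lit 5) (nat_lit 5) (nat_lit 7) (nat_lit 5) (nat_lit 6) (nat_lit 4) (nat_lit 304) (nat_lit 255) (nat_lit 161))) (XT.nd (nat_lit 78) (nat_lit 76) (nat_lit 0) (XT.lf (nat_lit 0) (nat_lit 33042388726) (nat_lit 152) (nat_lit 21796859842) (nat_lit 76) (nat_lit 168593631997) (nat_lit 5) (nat_lit 5) (nat_lit 7) (nat_lit 5) (nat_lit 6) (nat_lit 4) (nat_lit 305) (nat_lit 255) (nat_lit 160)) (XT.lf (nat_lit 0) (nat_lit 19849641749) (nat_lit 76) (nat_lit 33510275989) (nat_lit 152) (nat_lit 186687930156) (nat_lit 4) (nat_lit 5) (nat_lit 5) (nat_lit 5) (nat_lit 6) (nat_lit 4) (nat_lit 306) (nat_lit 255) (nat_lit 159)))) (XT.nd (nat_lit 156) (nat_lit 0) (nat_lit 0) (XT.nd (nat_lit 78) (nat_lit 0) (nat_lit 0) (XT.lf (nat_lit 0) (nat_lit 65602029869) (nat_lit 76) (nat_lit 10078128183) (nat_lit 152) (nat_lit 182292992407)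 (nat_lit 4) (nat_lit 5) (nat_lit 5) (nat_lit 5) (nat_lit 6) (nat_lit 4) (nat_lit 307) (nat_lit 255) (nat_lit 158)) (XT.lf (nat_lit 0) (nat_lit 100021550265) (nat_lit 152) (nat_lit 162559597997) (nat_lit 0) (nat_lit 14739555386) (nat_lit 4) (nat_lit 5) (nat_lit 6) (nat_lit 4) (nat_lit 4) (nat_lit 4) (nat_lit 308) (nat_lit 255) (nat_lit 157))) (XT.nd (nat_lit 78) (nat_lit 0) (nat_lit 0) (XT.lf (nat_lit 0) (nat_lit 126478126251) (nat_lit 152) (nat_lit 130536764074) (nat_lit 0) (nat_lit 41192779974) (nat_lit 4) (nat_lit 5) (nat_lit 6) (nat_lit 4) (nat_lit 4) (nat_lit 4) (nat_lit 309) (nat_lit 255) (nat_lit 156)) (XT.nd (nat_lit 78) (nat_lit 0) (nat_lit 0) (XT.lf (nat_lit 0) (nat_lit 155049317893) (nat_lit 152) (nat_lit 95955506057) (nat_lit 0) (nat_lit 69760868471) (nat_lit 4) (nat_lit 5) (nat_lit 6) (nat_lit 4) (nat_lit 4) (nat_lit 4) (nat_lit 310) (nat_lit 255) (nat_lit 155)) (XT.lf (nat_lit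 0) (nat_lit 185904435957) (nat_lit 152) (nat_lit 58610897972) (nat_lit 0) (nat_lit 100613113253) (nat_lit 4) (nat_lit 5) (nat_lit 6) (nat_lit 4) (nat_lit 4) (nat_lit 4) (nat_lit 311) (nat_lit 255) (nat_lit 154)))))) (XT.nd (nat_lit 390) (nat_lit 0) (nat_lit 0) (XT.nd (nat_lit 156) (nat_lit 0) (nat_lit 0) (XT.nd (nat_lit 78) (nat_lit 76) (nat_lit 0) (XT.lf (nat_lit 0) (nat_lit 219226325588) (nat_lit 152) (nat_lit 18281638437) (nat_lit 0) (nat_lit 133932342437) (nat_lit 4) (nat_lit 5) (nat_lit 6) (nat_lit 4) (nat_lit 4) (nat_lit 4) (nat_lit 312) (nat_lit 255) (nat_lit 153)) (XT.lf (nat_lit 0) (nat_lit 26106842760) (nat_lit 76) (nat_lit 229513208054) (nat_lit 76) (nat_lit 144216761525) (nat_lit 3) (nat_lit 4) (nat_lit 4) (nat_lit 5) (nat_lit 4) (nat_lit 4) (nat_lit 313) (nat_lit 255) (nat_lit 152))) (XT.nd (nat_lit 78) (nat_lit 0) (nat_lit 0) (XT.lf (nat_lit 0) (nat_lit 74696650144) (nat_lit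 76) (nat_lit 220545633706) (nat_lit 76) (nat_lit 135246906273) (nat_lit 3) (nat_lit 4) (nat_lit 4) (nat_lit 5) (nat_lit 4) (nat_lit 4) (nat_lit 314) (nat_lit 255) (nat_lit 151)) (XT.nd (nat_lit 78) (nat_lit 0) (nat_lit 0) (XT.lf (nat_lit 0) (nat_lit 127171249783) (nat_lit 76) (nat_lit 210861708194) (nat_lit 76) (nat_lit 125560868812) (nat_lit 3) (nat_lit 4) (nat_lit 4) (nat_lit 5) (nat_lit 4) (nat_lit 4) (nat_lit 315) (nat_lit 255) (nat_lit 150)) (XT.lf (nat_lit 0) (nat_lit 183841602268) (nat_lit 76) (nat_lit 200404045291) (nat_lit 76) (nat_lit 115101250401) (nat_lit 3) (nat_lit 4) (nat_lit 4) (nat_lit 5) (nat_lit 4) (nat_lit 4) (nat_lit 316) (nat_lit 255) (nat_lit 149))))) (XT.nd (nat_lit 156) (nat_lit 0) (nat_lit 0) (XT.nd (nat_lit 78) (nat_lit 0) (nat_lit 0) (XT.lf (nat_lit 0) (nat_lit 245043531910) (nat_lit 76) (nat_lit 189110673662) (nat_lit 76) (nat_lit 103806068116) (nat_lit 3)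 (nat_lit 4) (nat_lit 4) (nat_lit 5) (nat_lit 4) (nat_lit 4) (nat_lit 317) (nat_lit 255) (nat_lit 148)) (XT.lf (nat_lit 0) (nat_lit 311139716812) (nat_lit 76) (nat_lit 176914669623) (nat_lit 76) (nat_lit 91608387545) (nat_lit 3) (nat_lit 4) (nat_lit 4) (nat_lit 5) (nat_lit 4) (nat_lit 4) (nat_lit 318) (nat_lit 255) (nat_lit 147))) (XT.nd (nat_lit 78) (nat_lit 0) (nat_lit 0) (XT.lf (nat_lit 0) (nat_lit 382521838068) (nat_lit 76) (nat_lit 163743760558) (nat_lit 76) (nat_lit 78435926135) (nat_lit 3) (nat_lit 4) (nat_lit 4) (nat_lit 5) (nat_lit 4) (nat_lit 4) (nat_lit 319) (nat_lit 255) (nat_lit 146)) (XT.nd (nat_lit 78) (nat_lit 0) (nat_lit 0) (XT.lf (nat_lit 0) (nat_lit 459612900841) (nat_lit 76) (nat_lit 149519896636) (nat_lit 76) (nat_lit 64210624856) (nat_lit 3) (nat_lit 4) (nat_lit 4) (nat_lit 5) (nat_lit 4) (nat_lit 4) (nat_lit 320) (nat_lit 255) (nat_lit 145)) (XT.lf (nat_lit 0) (nat_lit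 542869741059) (nat_lit 76) (nat_lit 134158788292) (nat_lit 76) (nat_lit 48848185626) (nat_lit 3) (nat_lit 4) (nat_lit 4) (nat_lit 5) (nat_lit 4) (nat_lit 4) (nat_lit 321) (nat_lit 255) (nat_lit 144))))))))
noncomputable def xc81 : XT := (XT.nd (nat_lit 1404) (nat_lit 1976) (nat_lit 0) (XT.nd (nat_lit 702) (nat_lit 1748) (nat_lit 0) (XT.nd (nat_lit 312) (nat_lit 380) (nat_lit 0) (XT.nd (nat_lit 156) (nat_lit 0) (nat_lit 76) (XT.nd (nat_lit 78) (nat_lit 684) (nat_lit 0) (XT.lf (nat_lit 0) (nat_lit 6983301678) (nat_lit 684) (nat_lit 86958996) (nat_lit 684) (nat_lit 86958996) (nat_lit 74) (nat_lit 3) (nat_lit 83) (nat_lit 3) (nat_lit 83) (nat_lit 5) (nat_lit 256) (nat_lit 256) (nat_lit 208)) (XT.lf (nat_lit 0) (nat_lit 263539473) (nat_lit 684) (nat_lit 5177894115) (nat_lit 760) (nat_lit 9413315459) (nat_lit 65) (nat_lit 5) (nat_lit 74) (nat_lit 3) (nat_lit 75) (nat_lit 5) (nat_lit 257) (nat_lit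 256) (nat_lit 207))) (XT.nd (nat_lit 78) (nat_lit 0) (nat_lit 0) (XT.lf (nat_lit 0) (nat_lit 1010182115) (nat_lit 684) (nat_lit 10487917048) (nat_lit 760) (nat_lit 3935158637) (nat_lit 66) (nat_lit 5) (nat_lit 75) (nat_lit 5) (nat_lit 76) (nat_lit 5) (nat_lit 258) (nat_lit 256) (nat_lit 206)) (XT.lf (nat_lit 0) (nat_lit 1956893591) (nat_lit 684) (nat_lit 111200729) (nat_lit 760) (nat_lit 13983108805) (nat_lit 66) (nat_lit 5) (nat_lit 75) (nat_lit 5) (nat_lit 76) (nat_lit 5) (nat_lit 259) (nat_lit 256) (nat_lit 205)))) (XT.nd (nat_lit 156) (nat_lit 532) (nat_lit 0) (XT.nd (nat_lit 78) (nat_lit 0) (nat_lit 76) (XT.lf (nat_lit 0) (nat_lit 3247858825) (nat_lit 684) (nat_lit 5405713825) (nat_lit 760) (nat_lit 8051745531) (nat_lit 67) (nat_lit 5) (nat_lit 76) (nat_lit 5) (nat_lit 77) (nat_lit 5) (nat_lit 260) (nat_lit 256) (nat_lit 204)) (XT.lf (nat_lit 0) (nat_lit 4766305149) (nat_lit 684)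 (nat_lit 11074852791) (nat_lit 760) (nat_lit 1564542408) (nat_lit 68) (nat_lit 5) (nat_lit 77) (nat_lit 5) (nat_lit 78) (nat_lit 5) (nat_lit 261) (nat_lit 256) (nat_lit 203))) (XT.nd (nat_lit 78) (nat_lit 608) (nat_lit 0) (XT.lf (nat_lit 76) (nat_lit 895508275) (nat_lit 0) (nat_lit 5731688245) (nat_lit 760) (nat_lit 11524005229) (nat_lit 69) (nat_lit 5) (nat_lit 68) (nat_lit 5) (nat_lit 78) (nat_lit 5) (nat_lit 262) (nat_lit 256) (nat_lit 202)) (XT.nd (nat_lit 78) (nat_lit 684) (nat_lit 0) (XT.lf (nat_lit 0) (nat_lit 8881626674) (nat_lit 684) (nat_lit 4840161953) (nat_lit 76) (nat_lit 5222448236) (nat_lit 69) (nat_lit 5) (nat_lit 78) (nat_lit 5) (nat_lit 70) (nat_lit 5) (nat_lit 263) (nat_lit 256) (nat_lit 201)) (XT.lf (nat_lit 0) (nat_lit 8725013616) (nat_lit 684) (nat_lit 2794277104) (nat_lit 760) (nat_lit 8271397657) (nat_lit 60) (nat_lit 5) (nat_lit 69) (nat_lit 5) (nat_lit 70) (nat_lit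 5) (nat_lit 264) (nat_lit 256) (nat_lit 200)))))) (XT.nd (nat_lit 312) (nat_lit 760) (nat_lit 0) (XT.nd (nat_lit 156) (nat_lit 684) (nat_lit 0) (XT.nd (nat_lit 78) (nat_lit 0) (nat_lit 0) (XT.lf (nat_lit 0) (nat_lit 2767535574) (nat_lit 304) (nat_lit 11841856422) (nat_lit 380) (nat_lit 6083501667) (nat_lit 56) (nat_lit 5) (nat_lit 60) (nat_lit 5) (nat_lit 61) (nat_lit 5) (nat_lit 265) (nat_lit 256) (nat_lit 199)) (XT.lf (nat_lit 0) (nat_lit 18028404506) (nat_lit 304) (nat_lit 130984139) (nat_lit 380) (nat_lit 3497353160) (nat_lit 56) (nat_lit 5) (nat_lit 60) (nat_lit 5) (nat_lit 61) (nat_lit 5) (nat_lit 266) (nat_lit 256) (nat_lit 198))) (XT.nd (nat_lit 78) (nat_lit 380) (nat_lit 0) (XT.lf (nat_lit 0) (nat_lit 11975391965) (nat_lit 304) (nat_lit 10375929094) (nat_lit 380) (nat_lit 328573263) (nat_lit 52) (nat_lit 5) (nat_lit 56) (nat_lit 5) (nat_lit 57) (nat_lit 5) (nat_lit 267) (nat_lit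 256) (nat_lit 197)) (XT.lf (nat_lit 0) (nat_lit 3153436019) (nat_lit 380) (nat_lit 18542234224) (nat_lit 76) (nat_lit 2078958775) (nat_lit 47) (nat_lit 5) (nat_lit 52) (nat_lit 5) (nat_lit 48) (nat_lit 5) (nat_lit 268) (nat_lit 256) (nat_lit 196)))) (XT.nd (nat_lit 156) (nat_lit 456) (nat_lit 0) (XT.nd (nat_lit 78) (nat_lit 304) (nat_lit 0) (XT.lf (nat_lit 0) (nat_lit 7244997681) (nat_lit 380) (nat_lit 2329454581) (nat_lit 76) (nat_lit 15365171945) (nat_lit 47) (nat_lit 5) (nat_lit 52) (nat_lit 5) (nat_lit 48) (nat_lit 5) (nat_lit 269) (nat_lit 256) (nat_lit 195)) (XT.lf (nat_lit 0) (nat_lit 11946739012) (nat_lit 380) (nat_lit 10586985718) (nat_lit 76) (nat_lit 3650022104) (nat_lit 43) (nat_lit 5) (nat_lit 48) (nat_lit 5) (nat_lit 44) (nat_lit 5) (nat_lit 270) (nat_lit 256) (nat_lit 194))) (XT.nd (nat_lit 78) (nat_lit 228) (nat_lit 0) (XT.lf (nat_lit 0) (nat_lit 7572200925) (nat_lit 228)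 (nat_lit 9753970833) (nat_lit 304) (nat_lit 10186215240) (nat_lit 40) (nat_lit 5) (nat_lit 43) (nat_lit 5) (nat_lit 44) (nat_lit 5) (nat_lit 271) (nat_lit 256) (nat_lit 193)) (XT.nd (nat_lit 78) (nat_lit 228) (nat_lit 0) (XT.lf (nat_lit 0) (nat_lit 23368281212) (nat_lit 304) (nat_lit 1464999720) (nat_lit 76) (nat_lit 4102481832) (nat_lit 40) (nat_lit 5) (nat_lit 44) (nat_lit 5) (nat_lit 41) (nat_lit 5) (nat_lit 272) (nat_lit 256) (nat_lit 192)) (XT.lf (nat_lit 0) (nat_lit 18907734218) (nat_lit 228) (nat_lit 11428732131) (nat_lit 304) (nat_lit 114462908) (nat_lit 37) (nat_lit 5) (nat_lit 40) (nat_lit 5) (nat_lit 41) (nat_lit 5) (nat_lit 273) (nat_lit 256) (nat_lit 191))))))) (XT.nd (nat_lit 702) (nat_lit 684) (nat_lit 0) (XT.nd (nat_lit 312) (nat_lit 608) (nat_lit 0) (XT.nd (nat_lit 156) (nat_lit 380) (nat_lit 0) (XT.nd (nat_lit 78) (nat_lit 0) (nat_lit 0) (XT.lf (nat_lit 0) (nat_lit 5792682340)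 (nat_lit 304) (nat_lit 23072071098) (nat_lit 76) (nat_lit 3207961251) (nat_lit 33) (nat_lit 5) (nat_lit 37) (nat_lit 5) (nat_lit 34) (nat_lit 5) (nat_lit 274) (nat_lit 256) (nat_lit 190)) (XT.lf (nat_lit 0) (nat_lit 12550014405) (nat_lit 304) (nat_lit 2432607002) (nat_lit 76) (nat_lit 18822492189) (nat_lit 33) (nat_lit 5) (nat_lit 37) (nat_lit 5) (nat_lit 34) (nat_lit 5) (nat_lit 275) (nat_lit 256) (nat_lit 189))) (XT.nd (nat_lit 78) (nat_lit 152) (nat_lit 0) (XT.lf (nat_lit 0) (nat_lit 20158883117) (nat_lit 304) (nat_lit 15171360828) (nat_lit 76) (nat_lit 330355314) (nat_lit 30) (nat_lit 5) (nat_lit 34) (nat_lit 5) (nat_lit 31) (nat_lit 5) (nat_lit 276) (nat_lit 256) (nat_lit 188)) (XT.lf (nat_lit 0) (nat_lit 7641587313) (nat_lit 152) (nat_lit 21136228031) (nat_lit 228) (nat_lit 8866679940) (nat_lit 28) (nat_lit 5) (nat_lit 30) (nat_lit 5) (nat_lit 31) (nat_lit 5) (nat_lit 277) (nat_lit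 256) (nat_lit 187)))) (XT.nd (nat_lit 156) (nat_lit 304) (nat_lit 0) (XT.nd (nat_lit 78) (nat_lit 304) (nat_lit 0) (XT.lf (nat_lit 0) (nat_lit 32803203290) (nat_lit 152) (nat_lit 5534406590) (nat_lit 228) (nat_lit 1436962030) (nat_lit 28) (nat_lit 5) (nat_lit 30) (nat_lit 5) (nat_lit 31) (nat_lit 5) (nat_lit 278) (nat_lit 256) (nat_lit 186)) (XT.lf (nat_lit 0) (nat_lit 6833898709) (nat_lit 304) (nat_lit 23868591087) (nat_lit 76) (nat_lit 11344574964) (nat_lit 24) (nat_lit 5) (nat_lit 28) (nat_lit 5) (nat_lit 25) (nat_lit 5) (nat_lit 279) (nat_lit 256) (nat_lit 185))) (XT.nd (nat_lit 78) (nat_lit 152) (nat_lit 0) (XT.lf (nat_lit 0) (nat_lit 989072737) (nat_lit 152) (nat_lit 14948245128) (nat_lit 228) (nat_lit 28551829295) (nat_lit 22) (nat_lit 5) (nat_lit 24) (nat_lit 5) (nat_lit 25) (nat_lit 5) (nat_lit 280) (nat_lit 256) (nat_lit 184)) (XT.nd (nat_lit 78) (nat_lit 152) (nat_lit 0) (XT.lf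 (nat_lit 0) (nat_lit 26212759640) (nat_lit 228) (nat_lit 18473959384) (nat_lit 76) (nat_lit 2417717121) (nat_lit 22) (nat_lit 5) (nat_lit 25) (nat_lit 5) (nat_lit 23) (nat_lit 5) (nat_lit 281) (nat_lit 256) (nat_lit 183)) (XT.lf (nat_lit 0) (nat_lit 8560662557) (nat_lit 152) (nat_lit 29125003641) (nat_lit 228) (nat_lit 12224535993) (nat_lit 20) (nat_lit 5) (nat_lit 22) (nat_lit 5) (nat_lit 23) (nat_lit 5) (nat_lit 282) (nat_lit 256) (nat_lit 182)))))) (XT.nd (nat_lit 390) (nat_lit 304) (nat_lit 0) (XT.nd (nat_lit 156) (nat_lit 152) (nat_lit 0) (XT.nd (nat_lit 78) (nat_lit 228) (nat_lit 0) (XT.lf (nat_lit 0) (nat_lit 38402905716) (nat_lit 152) (nat_lit 11985552567) (nat_lit 228) (nat_lit 2536392121) (nat_lit 20) (nat_lit 5) (nat_lit 22) (nat_lit 5) (nat_lit 23) (nat_lit 5) (nat_lit 283) (nat_lit 256) (nat_lit 181)) (XT.lf (nat_lit 0) (nat_lit 8002381104) (nat_lit 228) (nat_lit 41483719656)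 (nat_lit 76) (nat_lit 6671938232) (nat_lit 17) (nat_lit 5) (nat_lit 20) (nat_lit 5) (nat_lit 18) (nat_lit 5) (nat_lit 284) (nat_lit 256) (nat_lit 180))) (XT.nd (nat_lit 78) (nat_lit 152) (nat_lit 0) (XT.lf (nat_lit 0) (nat_lit 19746988558) (nat_lit 228) (nat_lit 13175232323) (nat_lit 76) (nat_lit 26703022230) (nat_lit 17) (nat_lit 5) (nat_lit 20) (nat_lit 5) (nat_lit 18) (nat_lit 5) (nat_lit 285) (nat_lit 256) (nat_lit 179)) (XT.nd (nat_lit 78) (nat_lit 0) (nat_lit 0) (XT.lf (nat_lit 0) (nat_lit 17959947058) (nat_lit 152) (nat_lit 14743473619) (nat_lit 228) (nat_lit 30652807871) (nat_lit 15) (nat_lit 5) (nat_lit 17) (nat_lit 5) (nat_lit 18) (nat_lit 5) (nat_lit 286) (nat_lit 256) (nat_lit 178)) (XT.lf (nat_lit 0) (nat_lit 46998166268) (nat_lit 228) (nat_lit 15410488904) (nat_lit 76) (nat_lit 4961964176) (nat_lit 15) (nat_lit 5) (nat_lit 18) (nat_lit 5) (nat_lit 16) (nat_lit 4) (nat_lit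 287) (nat_lit 256) (nat_lit 177))))) (XT.nd (nat_lit 156) (nat_lit 152) (nat_lit 0) (XT.nd (nat_lit 78) (nat_lit 76) (nat_lit 0) (XT.lf (nat_lit 0) (nat_lit 17266542126) (nat_lit 76) (nat_lit 45680901270) (nat_lit 152) (nat_lit 8733185675) (nat_lit 14) (nat_lit 5) (nat_lit 15) (nat_lit 5) (nat_lit 16) (nat_lit 4) (nat_lit 288) (nat_lit 256) (nat_lit 176)) (XT.lf (nat_lit 0) (nat_lit 3980255436) (nat_lit 152) (nat_lit 23289686992) (nat_lit 76) (nat_lit 49049222731) (nat_lit 13) (nat_lit 5) (nat_lit 15) (nat_lit 5) (nat_lit 14) (nat_lit 5) (nat_lit 289) (nat_lit 256) (nat_lit 175))) (XT.nd (nat_lit 78) (nat_lit 0) (nat_lit 0) (XT.lf (nat_lit 0) (nat_lit 10503015688) (nat_lit 152) (nat_lit 7063383908) (nat_lit 228) (nat_lit 63747158843) (nat_lit 11) (nat_lit 5) (nat_lit 13) (nat_lit 5) (nat_lit 14) (nat_lit 5) (nat_lit 290) (nat_lit 256) (nat_lit 174)) (XT.nd (nat_lit 78) (nat_lit 0) (nat_lit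 0) (XT.lf (nat_lit 0) (nat_lit 32876002160) (nat_lit 228) (nat_lit 39103860698) (nat_lit 76) (nat_lit 14695823511) (nat_lit 11) (nat_lit 5) (nat_lit 14) (nat_lit 5) (nat_lit 12) (nat_lit 4) (nat_lit 291) (nat_lit 256) (nat_lit 173)) (XT.lf (nat_lit 0) (nat_lit 49523719483) (nat_lit 228) (nat_lit 4989331681) (nat_lit 76) (nat_lit 37948076719) (nat_lit 11) (nat_lit 5) (nat_lit 14) (nat_lit 5) (nat_lit 12) (nat_lit 4) (nat_lit 292) (nat_lit 256) (nat_lit 172))))))))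
noncomputable def xc82 : XT := (XT.nd (nat_lit 1404) (nat_lit 76) (nat_lit 0) (XT.nd (nat_lit 702) (nat_lit 228) (nat_lit 0) (XT.nd (nat_lit 312) (nat_lit 76) (nat_lit 0) (XT.nd (nat_lit 156) (nat_lit 152) (nat_lit 0) (XT.nd (nat_lit 78) (nat_lit 0) (nat_lit 0) (XT.lf (nat_lit 0) (nat_lit 32898439198) (nat_lit 76) (nat_lit 35113123125) (nat_lit 152) (nat_lit 30672436877) (nat_lit 10) (nat_lit 5) (nat_lit 11) (nat_lit 5) (nat_lit 12) (nat_lit 4) (nat_lit 293) (nat_lit 256) (nat_lit 171)) (XT.lf (nat_lit 0) (nat_lit 73986908944) (nat_lit 76) (nat_lit 14073368043) (nat_lit 152) (nat_lit 17340340168) (nat_lit 10) (nat_lit 5) (nat_lit 11) (nat_lit 5) (nat_lit 12) (nat_lit 4) (nat_lit 294) (nat_lit 256) (nat_lit 170))) (XT.nd (nat_lit 78) (nat_lit 76) (nat_lit 0) (XT.lf (nat_lit 0) (nat_lit 5748790050) (nat_lit 76) (nat_lit 104184156750) (nat_lit 76) (nat_lit 2710623323) (nat_lit 9) (nat_lit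 4) (nat_lit 10) (nat_lit 5) (nat_lit 10) (nat_lit 4) (nat_lit 295) (nat_lit 256) (nat_lit 169)) (XT.lf (nat_lit 0) (nat_lit 13459414484) (nat_lit 152) (nat_lit 73891038159) (nat_lit 76) (nat_lit 33065851575) (nat_lit 8) (nat_lit 5) (nat_lit 10) (nat_lit 5) (nat_lit 9) (nat_lit 4) (nat_lit 296) (nat_lit 256) (nat_lit 168)))) (XT.nd (nat_lit 156) (nat_lit 0) (nat_lit 0) (XT.nd (nat_lit 78) (nat_lit 76) (nat_lit 0) (XT.lf (nat_lit 0) (nat_lit 30825106602) (nat_lit 152) (nat_lit 38299984525) (nat_lit 76) (nat_lit 59683700094) (nat_lit 8) (nat_lit 5) (nat_lit 10) (nat_lit 5) (nat_lit 9) (nat_lit 4) (nat_lit 297) (nat_lit 256) (nat_lit 167)) (XT.lf (nat_lit 0) (nat_lit 135962861) (nat_lit 76) (nat_lit 49442277610) (nat_lit 152) (nat_lit 88294533803) (nat_lit 7) (nat_lit 5) (nat_lit 8) (nat_lit 5) (nat_lit 9) (nat_lit 4) (nat_lit 298) (nat_lit 256) (nat_lit 166))) (XT.nd (nat_lit 78) (nat_lit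 0) (nat_lit 0) (XT.lf (nat_lit 0) (nat_lit 43008016942) (nat_lit 76) (nat_lit 27487023643) (nat_lit 152) (nat_lit 77133670543) (nat_lit 7) (nat_lit 5) (nat_lit 8) (nat_lit 5) (nat_lit 9) (nat_lit 4) (nat_lit 299) (nat_lit 256) (nat_lit 165)) (XT.nd (nat_lit 78) (nat_lit 0) (nat_lit 0) (XT.lf (nat_lit 0) (nat_lit 89303863878) (nat_lit 76) (nat_lit 3777852788) (nat_lit 152) (nat_lit 65083585160) (nat_lit 7) (nat_lit 5) (nat_lit 8) (nat_lit 5) (nat_lit 9) (nat_lit 4) (nat_lit 300) (nat_lit 256) (nat_lit 164)) (XT.lf (nat_lit 0) (nat_lit 117812876553) (nat_lit 152) (nat_lit 30587896869) (nat_lit 0) (nat_lit 21127173959) (nat_lit 7) (nat_lit 5) (nat_lit 9) (nat_lit 4) (nat_lit 7) (nat_lit 4) (nat_lit 301) (nat_lit 256) (nat_lit 163)))))) (XT.nd (nat_lit 312) (nat_lit 76) (nat_lit 0) (XT.nd (nat_lit 156) (nat_lit 76) (nat_lit 0) (XT.nd (nat_lit 78) (nat_lit 0) (nat_lit 0) (XT.lf (nat_lit 0)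 (nat_lit 11031668855) (nat_lit 76) (nat_lit 133723790346) (nat_lit 76) (nat_lit 37032503593) (nat_lit 6) (nat_lit 4) (nat_lit 7) (nat_lit 5) (nat_lit 7) (nat_lit 4) (nat_lit 302) (nat_lit 256) (nat_lit 162)) (XT.lf (nat_lit 0) (nat_lit 57068072027) (nat_lit 76) (nat_lit 117315335543) (nat_lit 76) (nat_lit 20618878273) (nat_lit 6) (nat_lit 4) (nat_lit 7) (nat_lit 5) (nat_lit 7) (nat_lit 4) (nat_lit 303) (nat_lit 256) (nat_lit 161))) (XT.nd (nat_lit 78) (nat_lit 76) (nat_lit 0) (XT.lf (nat_lit 0) (nat_lit 106782746953) (nat_lit 76) (nat_lit 99596194562) (nat_lit 76) (nat_lit 2894949776) (nat_lit 6) (nat_lit 4) (nat_lit 7) (nat_lit 5) (nat_lit 7) (nat_lit 4) (nat_lit 304) (nat_lit 256) (nat_lit 160)) (XT.lf (nat_lit 0) (nat_lit 15724393134) (nat_lit 152) (nat_lit 64470671743) (nat_lit 76) (nat_lit 144479605772) (nat_lit 5) (nat_lit 5) (nat_lit 7) (nat_lit 5) (nat_lit 6) (nat_lit 4) (nat_lit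 305) (nat_lit 256) (nat_lit 159)))) (XT.nd (nat_lit 156) (nat_lit 0) (nat_lit 0) (XT.nd (nat_lit 78) (nat_lit 76) (nat_lit 0) (XT.lf (nat_lit 0) (nat_lit 35730901688) (nat_lit 152) (nat_lit 23461433732) (nat_lit 76) (nat_lit 182112855168) (nat_lit 5) (nat_lit 5) (nat_lit 7) (nat_lit 5) (nat_lit 6) (nat_lit 4) (nat_lit 306) (nat_lit 256) (nat_lit 158)) (XT.lf (nat_lit 0) (nat_lit 21513347142) (nat_lit 76) (nat_lit 36158325940) (nat_lit 152) (nat_lit 201577794984) (nat_lit 4) (nat_lit 5) (nat_lit 5) (nat_lit 5) (nat_lit 6) (nat_lit 4) (nat_lit 307) (nat_lit 256) (nat_lit 157))) (XT.nd (nat_lit 78) (nat_lit 0) (nat_lit 0) (XT.lf (nat_lit 0) (nat_lit 70920316382) (nat_lit 76) (nat_lit 10854033874) (nat_lit 152) (nat_lit 196834608110) (nat_lit 4) (nat_lit 5) (nat_lit 5) (nat_lit 5) (nat_lit 6) (nat_lit 4) (nat_lit 308) (nat_lit 256) (nat_lit 156)) (XT.nd (nat_lit 78) (nat_lit 0) (nat_lit 0)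 (XT.lf (nat_lit 0) (nat_lit 108060545882) (nat_lit 152) (nat_lit 175497982050) (nat_lit 0) (nat_lit 15945917361) (nat_lit 4) (nat_lit 5) (nat_lit 6) (nat_lit 4) (nat_lit 4) (nat_lit 4) (nat_lit 309) (nat_lit 256) (nat_lit 155)) (XT.lf (nat_lit 0) (nat_lit 136630887088) (nat_lit 152) (nat_lit 140918238731) (nat_lit 0) (nat_lit 44513385284) (nat_lit 4) (nat_lit 5) (nat_lit 6) (nat_lit 4) (nat_lit 4) (nat_lit 4) (nat_lit 310) (nat_lit 256) (nat_lit 154))))))) (XT.nd (nat_lit 702) (nat_lit 0) (nat_lit 0) (XT.nd (nat_lit 312) (nat_lit 0) (nat_lit 0) (XT.nd (nat_lit 156) (nat_lit 76) (nat_lit 0) (XT.nd (nat_lit 78) (nat_lit 0) (nat_lit 0) (XT.lf (nat_lit 0) (nat_lit 167485217710) (nat_lit 152) (nat_lit 103575033144) (nat_lit 0) (nat_lit 75365055459) (nat_lit 4) (nat_lit 5) (nat_lit 6) (nat_lit 4) (nat_lit 4) (nat_lit 4) (nat_lit 311) (nat_lit 256) (nat_lit 153)) (XT.lf (nat_lit 0) (nat_lit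 200806378228) (nat_lit 152) (nat_lit 63247072219) (nat_lit 0) (nat_lit 108683752601) (nat_lit 4) (nat_lit 5) (nat_lit 6) (nat_lit 4) (nat_lit 4) (nat_lit 4) (nat_lit 312) (nat_lit 256) (nat_lit 152))) (XT.nd (nat_lit 78) (nat_lit 76) (nat_lit 0) (XT.lf (nat_lit 0) (nat_lit 236791827371) (nat_lit 152) (nat_lit 19695375447) (nat_lit 0) (nat_lit 144666920839) (nat_lit 4) (nat_lit 5) (nat_lit 6) (nat_lit 4) (nat_lit 4) (nat_lit 4) (nat_lit 313) (nat_lit 256) (nat_lit 151)) (XT.lf (nat_lit 0) (nat_lit 28242063715) (nat_lit 76) (nat_lit 247853686291) (nat_lit 76) (nat_lit 155726667810) (nat_lit 3) (nat_lit 4) (nat_lit 4) (nat_lit 5) (nat_lit 4) (nat_lit 4) (nat_lit 314) (nat_lit 256) (nat_lit 150)))) (XT.nd (nat_lit 156) (nat_lit 0) (nat_lit 0) (XT.nd (nat_lit 78) (nat_lit 0) (nat_lit 0) (XT.lf (nat_lit 0) (nat_lit 80715598391) (nat_lit 76) (nat_lit 238170230322) (nat_lit 76) (nat_lit 146041256333)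 (nat_lit 3) (nat_lit 4) (nat_lit 4) (nat_lit 5) (nat_lit 4) (nat_lit 4) (nat_lit 315) (nat_lit 256) (nat_lit 149)) (XT.lf (nat_lit 0) (nat_lit 137384964798) (nat_lit 76) (nat_lit 227713002181) (nat_lit 76) (nat_lit 135582217537) (nat_lit 3) (nat_lit 4) (nat_lit 4) (nat_lit 5) (nat_lit 4) (nat_lit 4) (nat_lit 316) (nat_lit 256) (nat_lit 148))) (XT.nd (nat_lit 78) (nat_lit 0) (nat_lit 0) (XT.lf (nat_lit 0) (nat_lit 198585981406) (nat_lit 76) (nat_lit 216420033110) (nat_lit 76) (nat_lit 124287571933) (nat_lit 3) (nat_lit 4) (nat_lit 4) (nat_lit 5) (nat_lit 4) (nat_lit 4) (nat_lit 317) (nat_lit 256) (nat_lit 147)) (XT.nd (nat_lit 78) (nat_lit 0) (nat_lit 0) (XT.lf (nat_lit 0) (nat_lit 264681320904) (nat_lit 76) (nat_lit 204224401811) (nat_lit 76) (nat_lit 112090388288) (nat_lit 3) (nat_lit 4) (nat_lit 4) (nat_lit 5) (nat_lit 4) (nat_lit 4) (nat_lit 318) (nat_lit 256) (nat_lit 146)) (XT.lf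 (nat_lit 0) (nat_lit 336062659380) (nat_lit 76) (nat_lit 191053837875) (nat_lit 76) (nat_lit 98918386995) (nat_lit 3) (nat_lit 4) (nat_lit 4) (nat_lit 5) (nat_lit 4) (nat_lit 4) (nat_lit 319) (nat_lit 256) (nat_lit 145)))))) (XT.nd (nat_lit 32838) (nat_lit 0) (nat_lit 4788) (XT.nd (nat_lit 32604) (nat_lit 0) (nat_lit 4712) (XT.nd (nat_lit 78) (nat_lit 0) (nat_lit 0) (XT.lf (nat_lit 0) (nat_lit 413152997357) (nat_lit 76) (nat_lit 176830293516) (nat_lit 76) (nat_lit 84693511750) (nat_lit 3) (nat_lit 4) (nat_lit 4) (nat_lit 5) (nat_lit 4) (nat_lit 4) (nat_lit 320) (nat_lit 256) (nat_lit 144)) (XT.lf (nat_lit 0) (nat_lit 496409166467) (nat_lit 76) (nat_lit 161469481064) (nat_lit 76) (nat_lit 69331466997) (nat_lit 3) (nat_lit 4) (nat_lit 4) (nat_lit 5) (nat_lit 4) (nat_lit 4) (nat_lit 321) (nat_lit 256) (nat_lit 143))) (XT.nd (nat_lit 78) (nat_lit 0) (nat_lit 0) (XT.lf (nat_lit 0) (nat_lit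 135789119) (nat_lit 0) (nat_lit 135789119) (nat_lit 684) (nat_lit 7433875856) (nat_lit 65) (nat_lit 5) (nat_lit 65) (nat_lit 3) (nat_lit 74) (nat_lit 3) (nat_lit 257) (nat_lit 257) (nat_lit 206)) (XT.nd (nat_lit 78) (nat_lit 0) (nat_lit 76) (XT.lf (nat_lit 0) (nat_lit 1123173454) (nat_lit 684) (nat_lit 5117326306) (nat_lit 760) (nat_lit 9757331514) (nat_lit 65) (nat_lit 5) (nat_lit 74) (nat_lit 3) (nat_lit 75) (nat_lit 5) (nat_lit 258) (nat_lit 257) (nat_lit 205)) (XT.lf (nat_lit 0) (nat_lit 1869381164) (nat_lit 684) (nat_lit 10825346165) (nat_lit 760) (nat_lit 3931151356) (nat_lit 66) (nat_lit 5) (nat_lit 75) (nat_lit 5) (nat_lit 76) (nat_lit 5) (nat_lit 259) (nat_lit 257) (nat_lit 204))))) (XT.nd (nat_lit 156) (nat_lit 0) (nat_lit 152) (XT.nd (nat_lit 78) (nat_lit 0) (nat_lit 76) (XT.lf (nat_lit 76) (nat_lit 355737407) (nat_lit 0) (nat_lit 2483988099) (nat_lit 760) (nat_lit 14456370482)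 (nat_lit 67) (nat_lit 5) (nat_lit 66) (nat_lit 5) (nat_lit 76) (nat_lit 5) (nat_lit 260) (nat_lit 257) (nat_lit 203)) (XT.lf (nat_lit 0) (nat_lit 4178371846) (nat_lit 684) (nat_lit 5353926682) (nat_lit 760) (nat_lit 8473235553) (nat_lit 67) (nat_lit 5) (nat_lit 76) (nat_lit 5) (nat_lit 77) (nat_lit 5) (nat_lit 261) (nat_lit 257) (nat_lit 202))) (XT.nd (nat_lit 78) (nat_lit 0) (nat_lit 0) (XT.lf (nat_lit 0) (nat_lit 5773268721) (nat_lit 684) (nat_lit 11461175795) (nat_lit 760) (nat_lit 1529951736) (nat_lit 68) (nat_lit 5) (nat_lit 77) (nat_lit 5) (nat_lit 78) (nat_lit 5) (nat_lit 262) (nat_lit 257) (nat_lit 201)) (XT.nd (nat_lit 78) (nat_lit 0) (nat_lit 76) (XT.lf (nat_lit 76) (nat_lit 1445099316) (nat_lit 0) (nat_lit 6299049109) (nat_lit 760) (nat_lit 11827516985) (nat_lit 69) (nat_lit 5) (nat_lit 68) (nat_lit 5) (nat_lit 78) (nat_lit 5) (nat_lit 263) (nat_lit 257) (nat_lit 200)) (XT.lf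 (nat_lit 0) (nat_lit 10133894870) (nat_lit 684) (nat_lit 4753965711) (nat_lit 76) (nat_lit 5542704558) (nat_lit 69) (nat_lit 5) (nat_lit 78) (nat_lit 5) (nat_lit 70) (nat_lit 5) (nat_lit 264) (nat_lit 257) (nat_lit 199))))))))
noncomputable def xc83 : XT := (XT.nd (nat_lit 1404) (nat_lit 1140) (nat_lit 0) (XT.nd (nat_lit 702) (nat_lit 1368) (nat_lit 0) (XT.nd (nat_lit 312) (nat_lit 836) (nat_lit 0) (XT.nd (nat_lit 156) (nat_lit 380) (nat_lit 0) (XT.nd (nat_lit 78) (nat_lit 304) (nat_lit 0) (XT.lf (nat_lit 0) (nat_lit 9875850117) (nat_lit 684) (nat_lit 3073663207) (nat_lit 760) (nat_lit 8397029702) (nat_lit 60) (nat_lit 5) (nat_lit 69) (nat_lit 5) (nat_lit 70) (nat_lit 5) (nat_lit 265) (nat_lit 257) (nat_lit 198)) (XT.lf (nat_lit 0) (nat_lit 3449137778) (nat_lit 304) (nat_lit 12806382678) (nat_lit 380) (nat_lit 6067115055) (nat_lit 56) (nat_lit 5) (nat_lit 60) (nat_lit 5) (nat_lit 61)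 (nat_lit 5) (nat_lit 266) (nat_lit 257) (nat_lit 197))) (XT.nd (nat_lit 78) (nat_lit 380) (nat_lit 0) (XT.lf (nat_lit 0) (nat_lit 19896787383) (nat_lit 304) (nat_lit 157368186) (nat_lit 380) (nat_lit 3311338871) (nat_lit 56) (nat_lit 5) (nat_lit 60) (nat_lit 5) (nat_lit 61) (nat_lit 5) (nat_lit 267) (nat_lit 257) (nat_lit 196)) (XT.lf (nat_lit 0) (nat_lit 80592091) (nat_lit 380) (nat_lit 11109230280) (nat_lit 76) (nat_lit 13282049139) (nat_lit 51) (nat_lit 5) (nat_lit 56) (nat_lit 5) (nat_lit 52) (nat_lit 5) (nat_lit 268) (nat_lit 257) (nat_lit 195)))) (XT.nd (nat_lit 156) (nat_lit 532) (nat_lit 0) (XT.nd (nat_lit 78) (nat_lit 0) (nat_lit 0) (XT.lf (nat_lit 0) (nat_lit 3805479371) (nat_lit 380) (nat_lit 19577991247) (nat_lit 76) (nat_lit 2271763725) (nat_lit 47) (nat_lit 5) (nat_lit 52) (nat_lit 5) (nat_lit 48) (nat_lit 5) (nat_lit 269) (nat_lit 257) (nat_lit 194)) (XT.lf (nat_lit 0)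 (nat_lit 8194753487) (nat_lit 380) (nat_lit 2101346397) (nat_lit 76) (nat_lit 16618911856) (nat_lit 47) (nat_lit 5) (nat_lit 52) (nat_lit 5) (nat_lit 48) (nat_lit 5) (nat_lit 270) (nat_lit 257) (nat_lit 193))) (XT.nd (nat_lit 78) (nat_lit 228) (nat_lit 0) (XT.lf (nat_lit 0) (nat_lit 13252146904) (nat_lit 380) (nat_lit 11019607630) (nat_lit 76) (nat_lit 3988028419) (nat_lit 43) (nat_lit 5) (nat_lit 48) (nat_lit 5) (nat_lit 44) (nat_lit 5) (nat_lit 271) (nat_lit 257) (nat_lit 192)) (XT.nd (nat_lit 78) (nat_lit 0) (nat_lit 0) (XT.lf (nat_lit 0) (nat_lit 8574307367) (nat_lit 228) (nat_lit 10467913341) (nat_lit 304) (nat_lit 10653566723) (nat_lit 40) (nat_lit 5) (nat_lit 43) (nat_lit 5) (nat_lit 44) (nat_lit 5) (nat_lit 272) (nat_lit 257) (nat_lit 191)) (XT.lf (nat_lit 0) (nat_lit 25544217330) (nat_lit 304) (nat_lit 1199899148) (nat_lit 76) (nat_lit 4490171804) (nat_lit 40) (nat_lit 5) (nat_lit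 44) (nat_lit 5) (nat_lit 41) (nat_lit 5) (nat_lit 273) (nat_lit 257) (nat_lit 190)))))) (XT.nd (nat_lit 312) (nat_lit 608) (nat_lit 0) (XT.nd (nat_lit 156) (nat_lit 228) (nat_lit 0) (XT.nd (nat_lit 78) (nat_lit 228) (nat_lit 0) (XT.lf (nat_lit 0) (nat_lit 175470408) (nat_lit 304) (nat_lit 12088383641) (nat_lit 76) (nat_lit 20607597104) (nat_lit 36) (nat_lit 5) (nat_lit 40) (nat_lit 5) (nat_lit 37) (nat_lit 5) (nat_lit 274) (nat_lit 257) (nat_lit 189)) (XT.lf (nat_lit 0) (nat_lit 6536255267) (nat_lit 304) (nat_lit 24544350236) (nat_lit 76) (nat_lit 3543092277) (nat_lit 33) (nat_lit 5) (nat_lit 37) (nat_lit 5) (nat_lit 34) (nat_lit 5) (nat_lit 275) (nat_lit 257) (nat_lit 188))) (XT.nd (nat_lit 78) (nat_lit 228) (nat_lit 0) (XT.lf (nat_lit 0) (nat_lit 13813421428) (nat_lit 304) (nat_lit 2281394682) (nat_lit 76) (nat_lit 20400971311) (nat_lit 33) (nat_lit 5) (nat_lit 37) (nat_lit 5) (nat_lit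 34) (nat_lit 5) (nat_lit 276) (nat_lit 257) (nat_lit 187)) (XT.lf (nat_lit 0) (nat_lit 22018282883) (nat_lit 304) (nat_lit 16042635610) (nat_lit 76) (nat_lit 439485947) (nat_lit 30) (nat_lit 5) (nat_lit 34) (nat_lit 5) (nat_lit 31) (nat_lit 5) (nat_lit 277) (nat_lit 257) (nat_lit 186)))) (XT.nd (nat_lit 156) (nat_lit 456) (nat_lit 0) (XT.nd (nat_lit 78) (nat_lit 0) (nat_lit 0) (XT.lf (nat_lit 0) (nat_lit 8580466614) (nat_lit 152) (nat_lit 22733103815) (nat_lit 228) (nat_lit 9330152147) (nat_lit 28) (nat_lit 5) (nat_lit 30) (nat_lit 5) (nat_lit 31) (nat_lit 5) (nat_lit 278) (nat_lit 257) (nat_lit 185)) (XT.lf (nat_lit 0) (nat_lit 35730748734) (nat_lit 152) (nat_lit 5890101286) (nat_lit 228) (nat_lit 1324268818) (nat_lit 28) (nat_lit 5) (nat_lit 30) (nat_lit 5) (nat_lit 31) (nat_lit 5) (nat_lit 279) (nat_lit 257) (nat_lit 184))) (XT.nd (nat_lit 78) (nat_lit 152) (nat_lit 0) (XT.lf (nat_lit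 0) (nat_lit 7590686821) (nat_lit 304) (nat_lit 25470865773) (nat_lit 76) (nat_lit 12338238037) (nat_lit 24) (nat_lit 5) (nat_lit 28) (nat_lit 5) (nat_lit 25) (nat_lit 5) (nat_lit 280) (nat_lit 257) (nat_lit 183)) (XT.nd (nat_lit 78) (nat_lit 0) (nat_lit 0) (XT.lf (nat_lit 0) (nat_lit 1362060072) (nat_lit 152) (nat_lit 16049346238) (nat_lit 228) (nat_lit 30626421639) (nat_lit 22) (nat_lit 5) (nat_lit 24) (nat_lit 5) (nat_lit 25) (nat_lit 5) (nat_lit 281) (nat_lit 257) (nat_lit 182)) (XT.lf (nat_lit 0) (nat_lit 28495504912) (nat_lit 228) (nat_lit 19671475159) (nat_lit 76) (nat_lit 2696065636) (nat_lit 22) (nat_lit 5) (nat_lit 25) (nat_lit 5) (nat_lit 23) (nat_lit 5) (nat_lit 282) (nat_lit 257) (nat_lit 181))))))) (XT.nd (nat_lit 702) (nat_lit 304) (nat_lit 0) (XT.nd (nat_lit 312) (nat_lit 456) (nat_lit 0) (XT.nd (nat_lit 156) (nat_lit 228) (nat_lit 0) (XT.nd (nat_lit 78) (nat_lit 0) (nat_lit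 0) (XT.lf (nat_lit 0) (nat_lit 9513730653) (nat_lit 152) (nat_lit 31362943561) (nat_lit 228) (nat_lit 13017111320) (nat_lit 20) (nat_lit 5) (nat_lit 22) (nat_lit 5) (nat_lit 23) (nat_lit 5) (nat_lit 283) (nat_lit 257) (nat_lit 180)) (XT.lf (nat_lit 0) (nat_lit 41723485480) (nat_lit 152) (nat_lit 12859155687) (nat_lit 228) (nat_lit 2567648350) (nat_lit 20) (nat_lit 5) (nat_lit 22) (nat_lit 5) (nat_lit 23) (nat_lit 5) (nat_lit 284) (nat_lit 257) (nat_lit 179))) (XT.nd (nat_lit 78) (nat_lit 0) (nat_lit 0) (XT.lf (nat_lit 0) (nat_lit 8801556195) (nat_lit 228) (nat_lit 44552354568) (nat_lit 76) (nat_lit 7288475021) (nat_lit 17) (nat_lit 5) (nat_lit 20) (nat_lit 5) (nat_lit 18) (nat_lit 5) (nat_lit 285) (nat_lit 257) (nat_lit 178)) (XT.lf (nat_lit 0) (nat_lit 21473955608) (nat_lit 228) (nat_lit 13997711408) (nat_lit 76) (nat_lit 28915913759) (nat_lit 17) (nat_lit 5) (nat_lit 20) (nat_lit 5)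 (nat_lit 18) (nat_lit 5) (nat_lit 286) (nat_lit 257) (nat_lit 177)))) (XT.nd (nat_lit 156) (nat_lit 304) (nat_lit 0) (XT.nd (nat_lit 78) (nat_lit 0) (nat_lit 0) (XT.lf (nat_lit 0) (nat_lit 19618219898) (nat_lit 152) (nat_lit 15841235982) (nat_lit 228) (nat_lit 32957985294) (nat_lit 15) (nat_lit 5) (nat_lit 17) (nat_lit 5) (nat_lit 18) (nat_lit 5) (nat_lit 287) (nat_lit 257) (nat_lit 176)) (XT.lf (nat_lit 0) (nat_lit 50888609716) (nat_lit 228) (nat_lit 16432691974) (nat_lit 76) (nat_lit 5432162161) (nat_lit 15) (nat_lit 5) (nat_lit 18) (nat_lit 5) (nat_lit 16) (nat_lit 4) (nat_lit 288) (nat_lit 257) (nat_lit 175))) (XT.nd (nat_lit 78) (nat_lit 228) (nat_lit 0) (XT.lf (nat_lit 0) (nat_lit 18849347552) (nat_lit 76) (nat_lit 49257953816) (nat_lit 152) (nat_lit 9301319775) (nat_lit 14) (nat_lit 5) (nat_lit 15) (nat_lit 5) (nat_lit 16) (nat_lit 4) (nat_lit 289) (nat_lit 257) (nat_lit 174))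 (XT.nd (nat_lit 78) (nat_lit 152) (nat_lit 0) (XT.lf (nat_lit 0) (nat_lit 4415660384) (nat_lit 152) (nat_lit 24962211476) (nat_lit 76) (nat_lit 53040752307) (nat_lit 13) (nat_lit 5) (nat_lit 15) (nat_lit 5) (nat_lit 14) (nat_lit 5) (nat_lit 290) (nat_lit 257) (nat_lit 173)) (XT.lf (nat_lit 0) (nat_lit 11525621981) (nat_lit 152) (nat_lit 7557255806) (nat_lit 228) (nat_lit 68729998701) (nat_lit 11) (nat_lit 5) (nat_lit 13) (nat_lit 5) (nat_lit 14) (nat_lit 5) (nat_lit 291) (nat_lit 257) (nat_lit 172)))))) (XT.nd (nat_lit 390) (nat_lit 152) (nat_lit 0) (XT.nd (nat_lit 156) (nat_lit 152) (nat_lit 0) (XT.nd (nat_lit 78) (nat_lit 0) (nat_lit 0) (XT.lf (nat_lit 0) (nat_lit 35610043292) (nat_lit 228) (nat_lit 42059002841) (nat_lit 76) (nat_lit 15935304214) (nat_lit 11) (nat_lit 5) (nat_lit 14) (nat_lit 5) (nat_lit 12) (nat_lit 4) (nat_lit 292) (nat_lit 257) (nat_lit 171)) (XT.lf (nat_lit 0) (nat_lit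 53581877190) (nat_lit 228) (nat_lit 5228138666) (nat_lit 76) (nat_lit 41043010655) (nat_lit 11) (nat_lit 5) (nat_lit 14) (nat_lit 5) (nat_lit 12) (nat_lit 4) (nat_lit 293) (nat_lit 257) (nat_lit 170))) (XT.nd (nat_lit 78) (nat_lit 76) (nat_lit 0) (XT.lf (nat_lit 0) (nat_lit 35683685722) (nat_lit 76) (nat_lit 37860325910) (nat_lit 152) (nat_lit 33029965921) (nat_lit 10) (nat_lit 5) (nat_lit 11) (nat_lit 5) (nat_lit 12) (nat_lit 4) (nat_lit 294) (nat_lit 257) (nat_lit 169)) (XT.nd (nat_lit 78) (nat_lit 76) (nat_lit 0) (XT.lf (nat_lit 0) (nat_lit 80047872204) (nat_lit 76) (nat_lit 15141971685) (nat_lit 152) (nat_lit 18638432283) (nat_lit 10) (nat_lit 5) (nat_lit 11) (nat_lit 5) (nat_lit 12) (nat_lit 4) (nat_lit 295) (nat_lit 257) (nat_lit 168)) (XT.lf (nat_lit 0) (nat_lit 6347876525) (nat_lit 76) (nat_lit 112461174268) (nat_lit 76) (nat_lit 2841789754) (nat_lit 9) (nat_lit 4) (nat_lit 10)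 (nat_lit 5) (nat_lit 10) (nat_lit 4) (nat_lit 296) (nat_lit 257) (nat_lit 167))))) (XT.nd (nat_lit 156) (nat_lit 76) (nat_lit 0) (XT.nd (nat_lit 78) (nat_lit 0) (nat_lit 0) (XT.lf (nat_lit 0) (nat_lit 14612964893) (nat_lit 152) (nat_lit 79670783527) (nat_lit 76) (nat_lit 35761895250) (nat_lit 8) (nat_lit 5) (nat_lit 10) (nat_lit 5) (nat_lit 9) (nat_lit 4) (nat_lit 297) (nat_lit 257) (nat_lit 166)) (XT.lf (nat_lit 0) (nat_lit 33362223696) (nat_lit 152) (nat_lit 41242189135) (nat_lit 76) (nat_lit 64505410499) (nat_lit 8) (nat_lit 5) (nat_lit 10) (nat_lit 5) (nat_lit 9) (nat_lit 4) (nat_lit 298) (nat_lit 257) (nat_lit 165))) (XT.nd (nat_lit 78) (nat_lit 0) (nat_lit 0) (XT.lf (nat_lit 0) (nat_lit 263341018) (nat_lit 76) (nat_lit 53348818864) (nat_lit 152) (nat_lit 95286946139) (nat_lit 7) (nat_lit 5) (nat_lit 8) (nat_lit 5) (nat_lit 9) (nat_lit 4) (nat_lit 299) (nat_lit 257) (nat_lit 164))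 (XT.nd (nat_lit 78) (nat_lit 0) (nat_lit 0) (XT.lf (nat_lit 0) (nat_lit 46556529712) (nat_lit 76) (nat_lit 29640762429) (nat_lit 152) (nat_lit 83238484215) (nat_lit 7) (nat_lit 5) (nat_lit 8) (nat_lit 5) (nat_lit 9) (nat_lit 4) (nat_lit 300) (nat_lit 257) (nat_lit 163)) (XT.lf (nat_lit 0) (nat_lit 96548053927) (nat_lit 76) (nat_lit 4038207765) (nat_lit 152) (nat_lit 70229272000) (nat_lit 7) (nat_lit 5) (nat_lit 8) (nat_lit 5) (nat_lit 9) (nat_lit 4) (nat_lit 301) (nat_lit 257) (nat_lit 162))))))))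
noncomputable def xc84 : XT := (XT.nd (nat_lit 1404) (nat_lit 0) (nat_lit 0) (XT.nd (nat_lit 702) (nat_lit 76) (nat_lit 0) (XT.nd (nat_lit 312) (nat_lit 152) (nat_lit 0) (XT.nd (nat_lit 156) (nat_lit 0) (nat_lit 0) (XT.nd (nat_lit 78) (nat_lit 76) (nat_lit 0) (XT.lf (nat_lit 0) (nat_lit 127292222837) (nat_lit 152) (nat_lit 32940280970) (nat_lit 0) (nat_lit 22854878469) (nat_lit 7) (nat_lit 5) (nat_lit 9) (nat_lit 4) (nat_lit 7) (nat_lit 4) (nat_lit 302) (nat_lit 257) (nat_lit 161)) (XT.lf (nat_lit 0) (nat_lit 12004736740) (nat_lit 76) (nat_lit 144382865432) (nat_lit 76) (nat_lit 39940733548) (nat_lit 6) (nat_lit 4) (nat_lit 7) (nat_lit 5) (nat_lit 7) (nat_lit 4) (nat_lit 303) (nat_lit 257) (nat_lit 160))) (XT.nd (nat_lit 78) (nat_lit 0) (nat_lit 0) (XT.lf (nat_lit 0) (nat_lit 61717345916) (nat_lit 76) (nat_lit 126664610404) (nat_lit 76) (nat_lit 22218045635) (nat_lit 6) (nat_lit 4) (nat_lit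 7) (nat_lit 5) (nat_lit 7) (nat_lit 4) (nat_lit 304) (nat_lit 257) (nat_lit 159)) (XT.lf (nat_lit 0) (nat_lit 115402985345) (nat_lit 76) (nat_lit 107530601253) (nat_lit 76) (nat_lit 3079931962) (nat_lit 6) (nat_lit 4) (nat_lit 7) (nat_lit 5) (nat_lit 7) (nat_lit 4) (nat_lit 305) (nat_lit 257) (nat_lit 158)))) (XT.nd (nat_lit 156) (nat_lit 76) (nat_lit 0) (XT.nd (nat_lit 78) (nat_lit 0) (nat_lit 0) (XT.lf (nat_lit 0) (nat_lit 17024124089) (nat_lit 152) (nat_lit 69555015392) (nat_lit 76) (nat_lit 156067356281) (nat_lit 5) (nat_lit 5) (nat_lit 7) (nat_lit 5) (nat_lit 6) (nat_lit 4) (nat_lit 306) (nat_lit 257) (nat_lit 157)) (XT.lf (nat_lit 0) (nat_lit 38628058548) (nat_lit 152) (nat_lit 25270468717) (nat_lit 76) (nat_lit 196709089181) (nat_lit 5) (nat_lit 5) (nat_lit 7) (nat_lit 5) (nat_lit 6) (nat_lit 4) (nat_lit 307) (nat_lit 257) (nat_lit 156))) (XT.nd (nat_lit 78) (nat_lit 0) (nat_lit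 0) (XT.lf (nat_lit 0) (nat_lit 23299344658) (nat_lit 76) (nat_lit 39022895197) (nat_lit 152) (nat_lit 217665292944) (nat_lit 4) (nat_lit 5) (nat_lit 5) (nat_lit 5) (nat_lit 6) (nat_lit 4) (nat_lit 308) (nat_lit 257) (nat_lit 155)) (XT.nd (nat_lit 78) (nat_lit 0) (nat_lit 0) (XT.lf (nat_lit 0) (nat_lit 76654061825) (nat_lit 76) (nat_lit 11696341012) (nat_lit 152) (nat_lit 212545519686) (nat_lit 4) (nat_lit 5) (nat_lit 5) (nat_lit 5) (nat_lit 6) (nat_lit 4) (nat_lit 309) (nat_lit 257) (nat_lit 154)) (XT.lf (nat_lit 0) (nat_lit 116737343939) (nat_lit 152) (nat_lit 189480907216) (nat_lit 0) (nat_lit 17244908261) (nat_lit 4) (nat_lit 5) (nat_lit 6) (nat_lit 4) (nat_lit 4) (nat_lit 4) (nat_lit 310) (nat_lit 257) (nat_lit 153)))))) (XT.nd (nat_lit 312) (nat_lit 76) (nat_lit 0) (XT.nd (nat_lit 156) (nat_lit 0) (nat_lit 0) (XT.nd (nat_lit 78) (nat_lit 0) (nat_lit 0) (XT.lf (nat_lit 0) (nat_lit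 147590945449) (nat_lit 152) (nat_lit 152139000240) (nat_lit 0) (nat_lit 48096046394) (nat_lit 4) (nat_lit 5) (nat_lit 6) (nat_lit 4) (nat_lit 4) (nat_lit 4) (nat_lit 311) (nat_lit 257) (nat_lit 152)) (XT.lf (nat_lit 0) (nat_lit 180911430863) (nat_lit 152) (nat_lit 111812241731) (nat_lit 0) (nat_lit 81414250903) (nat_lit 4) (nat_lit 5) (nat_lit 6) (nat_lit 4) (nat_lit 4) (nat_lit 4) (nat_lit 312) (nat_lit 257) (nat_lit 151))) (XT.nd (nat_lit 78) (nat_lit 0) (nat_lit 0) (XT.lf (nat_lit 0) (nat_lit 216896254909) (nat_lit 152) (nat_lit 68261658307) (nat_lit 0) (nat_lit 117396963000) (nat_lit 4) (nat_lit 5) (nat_lit 6) (nat_lit 4) (nat_lit 4) (nat_lit 4) (nat_lit 313) (nat_lit 257) (nat_lit 150)) (XT.lf (nat_lit 0) (nat_lit 255758660988) (nat_lit 152) (nat_lit 21229172436) (nat_lit 0) (nat_lit 156257413572) (nat_lit 4) (nat_lit 5) (nat_lit 6) (nat_lit 4) (nat_lit 4) (nat_lit 4) (nat_lit 314)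 (nat_lit 257) (nat_lit 149)))) (XT.nd (nat_lit 156) (nat_lit 0) (nat_lit 0) (XT.nd (nat_lit 78) (nat_lit 0) (nat_lit 0) (XT.lf (nat_lit 0) (nat_lit 30541443846) (nat_lit 76) (nat_lit 267664338526) (nat_lit 76) (nat_lit 168161280454) (nat_lit 3) (nat_lit 4) (nat_lit 4) (nat_lit 5) (nat_lit 4) (nat_lit 4) (nat_lit 315) (nat_lit 257) (nat_lit 148)) (XT.lf (nat_lit 0) (nat_lit 87209897218) (nat_lit 76) (nat_lit 257207512944) (nat_lit 76) (nat_lit 157702778339) (nat_lit 3) (nat_lit 4) (nat_lit 4) (nat_lit 5) (nat_lit 4) (nat_lit 4) (nat_lit 316) (nat_lit 257) (nat_lit 147))) (XT.nd (nat_lit 78) (nat_lit 0) (nat_lit 0) (XT.lf (nat_lit 0) (nat_lit 148410068423) (nat_lit 76) (nat_lit 245914916612) (nat_lit 76) (nat_lit 146408629662) (nat_lit 3) (nat_lit 4) (nat_lit 4) (nat_lit 5) (nat_lit 4) (nat_lit 4) (nat_lit 317) (nat_lit 257) (nat_lit 146)) (XT.nd (nat_lit 78) (nat_lit 0) (nat_lit 0) (XT.lf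 (nat_lit 0) (nat_lit 214504625141) (nat_lit 76) (nat_lit 233719630441) (nat_lit 76) (nat_lit 134211906134) (nat_lit 3) (nat_lit 4) (nat_lit 4) (nat_lit 5) (nat_lit 4) (nat_lit 4) (nat_lit 318) (nat_lit 257) (nat_lit 145)) (XT.lf (nat_lit 0) (nat_lit 285885238820) (nat_lit 76) (nat_lit 220549386068) (nat_lit 76) (nat_lit 121040330876) (nat_lit 3) (nat_lit 4) (nat_lit 4) (nat_lit 5) (nat_lit 4) (nat_lit 4) (nat_lit 319) (nat_lit 257) (nat_lit 144))))))) (XT.nd (nat_lit 33228) (nat_lit 0) (nat_lit 2812) (XT.nd (nat_lit 32838) (nat_lit 0) (nat_lit 4788) (XT.nd (nat_lit 32682) (nat_lit 0) (nat_lit 4712) (XT.nd (nat_lit 78) (nat_lit 0) (nat_lit 0) (XT.lf (nat_lit 0) (nat_lit 362974905689) (nat_lit 76) (nat_lit 206326137601) (nat_lit 76) (nat_lit 106815850107) (nat_lit 3) (nat_lit 4) (nat_lit 4) (nat_lit 5) (nat_lit 4) (nat_lit 4) (nat_lit 320) (nat_lit 257) (nat_lit 143)) (XT.lf (nat_lit 0)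 (nat_lit 446230453404) (nat_lit 76) (nat_lit 190965599123) (nat_lit 76) (nat_lit 91454170609) (nat_lit 3) (nat_lit 4) (nat_lit 4) (nat_lit 5) (nat_lit 4) (nat_lit 4) (nat_lit 321) (nat_lit 257) (nat_lit 142))) (XT.nd (nat_lit 78) (nat_lit 0) (nat_lit 0) (XT.lf (nat_lit 0) (nat_lit 342288450) (nat_lit 0) (nat_lit 342288450) (nat_lit 684) (nat_lit 7616189644) (nat_lit 65) (nat_lit 5) (nat_lit 65) (nat_lit 3) (nat_lit 74) (nat_lit 3) (nat_lit 258) (nat_lit 258) (nat_lit 204)) (XT.lf (nat_lit 0) (nat_lit 1931949503) (nat_lit 684) (nat_lit 5119648506) (nat_lit 760) (nat_lit 10187224292) (nat_lit 65) (nat_lit 5) (nat_lit 74) (nat_lit 3) (nat_lit 75) (nat_lit 5) (nat_lit 259) (nat_lit 258) (nat_lit 203)))) (XT.nd (nat_lit 156) (nat_lit 0) (nat_lit 76) (XT.nd (nat_lit 78) (nat_lit 0) (nat_lit 0) (XT.lf (nat_lit 0) (nat_lit 2686270889) (nat_lit 684) (nat_lit 11261329066) (nat_lit 760) (nat_lit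 3972306725) (nat_lit 66) (nat_lit 5) (nat_lit 75) (nat_lit 5) (nat_lit 76) (nat_lit 5) (nat_lit 260) (nat_lit 258) (nat_lit 202)) (XT.lf (nat_lit 76) (nat_lit 795551970) (nat_lit 0) (nat_lit 2895680686) (nat_lit 760) (nat_lit 14954857390) (nat_lit 67) (nat_lit 5) (nat_lit 66) (nat_lit 5) (nat_lit 76) (nat_lit 5) (nat_lit 261) (nat_lit 258) (nat_lit 201))) (XT.nd (nat_lit 78) (nat_lit 0) (nat_lit 76) (XT.lf (nat_lit 0) (nat_lit 5087645293) (nat_lit 684) (nat_lit 5367079423) (nat_lit 760) (nat_lit 8960208235) (nat_lit 67) (nat_lit 5) (nat_lit 76) (nat_lit 5) (nat_lit 77) (nat_lit 5) (nat_lit 262) (nat_lit 258) (nat_lit 200)) (XT.nd (nat_lit 78) (nat_lit 0) (nat_lit 0) (XT.lf (nat_lit 0) (nat_lit 6771532106) (nat_lit 684) (nat_lit 11949687469) (nat_lit 760) (nat_lit 1515384514) (nat_lit 68) (nat_lit 5) (nat_lit 77) (nat_lit 5) (nat_lit 78) (nat_lit 5) (nat_lit 263) (nat_lit 258) (nat_lit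 199)) (XT.lf (nat_lit 76) (nat_lit 1970472674) (nat_lit 0) (nat_lit 6896273625) (nat_lit 760) (nat_lit 12243532590) (nat_lit 69) (nat_lit 5) (nat_lit 68) (nat_lit 5) (nat_lit 78) (nat_lit 5) (nat_lit 264) (nat_lit 258) (nat_lit 198)))))) (XT.nd (nat_lit 390) (nat_lit 836) (nat_lit 0) (XT.nd (nat_lit 156) (nat_lit 684) (nat_lit 0) (XT.nd (nat_lit 78) (nat_lit 684) (nat_lit 0) (XT.lf (nat_lit 0) (nat_lit 11409059530) (nat_lit 684) (nat_lit 4728410884) (nat_lit 76) (nat_lit 5902496492) (nat_lit 69) (nat_lit 5) (nat_lit 78) (nat_lit 5) (nat_lit 70) (nat_lit 5) (nat_lit 265) (nat_lit 258) (nat_lit 197)) (XT.lf (nat_lit 0) (nat_lit 11054151504) (nat_lit 684) (nat_lit 3367433437) (nat_lit 760) (nat_lit 8609190083) (nat_lit 60) (nat_lit 5) (nat_lit 69) (nat_lit 5) (nat_lit 70) (nat_lit 5) (nat_lit 266) (nat_lit 258) (nat_lit 196))) (XT.nd (nat_lit 78) (nat_lit 380) (nat_lit 0) (XT.lf (nat_lit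 0) (nat_lit 4119615575) (nat_lit 304) (nat_lit 13845620437) (nat_lit 380) (nat_lit 6121185610) (nat_lit 56) (nat_lit 5) (nat_lit 60) (nat_lit 5) (nat_lit 61) (nat_lit 5) (nat_lit 267) (nat_lit 258) (nat_lit 195)) (XT.nd (nat_lit 78) (nat_lit 380) (nat_lit 0) (XT.lf (nat_lit 0) (nat_lit 21853851461) (nat_lit 304) (nat_lit 183593887) (nat_lit 380) (nat_lit 3176895378) (nat_lit 56) (nat_lit 5) (nat_lit 60) (nat_lit 5) (nat_lit 61) (nat_lit 5) (nat_lit 268) (nat_lit 258) (nat_lit 194)) (XT.lf (nat_lit 0) (nat_lit 450631287) (nat_lit 380) (nat_lit 11615516781) (nat_lit 76) (nat_lit 14344018967) (nat_lit 51) (nat_lit 5) (nat_lit 56) (nat_lit 5) (nat_lit 52) (nat_lit 5) (nat_lit 269) (nat_lit 258) (nat_lit 193))))) (XT.nd (nat_lit 156) (nat_lit 532) (nat_lit 0) (XT.nd (nat_lit 78) (nat_lit 0) (nat_lit 0) (XT.lf (nat_lit 0) (nat_lit 4452654749) (nat_lit 380) (nat_lit 20760467073) (nat_lit 76)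 (nat_lit 2476214226) (nat_lit 47) (nat_lit 5) (nat_lit 52) (nat_lit 5) (nat_lit 48) (nat_lit 5) (nat_lit 270) (nat_lit 258) (nat_lit 192)) (XT.lf (nat_lit 0) (nat_lit 9167682867) (nat_lit 380) (nat_lit 1914117559) (nat_lit 76) (nat_lit 17969452030) (nat_lit 47) (nat_lit 5) (nat_lit 52) (nat_lit 5) (nat_lit 48) (nat_lit 5) (nat_lit 271) (nat_lit 258) (nat_lit 191))) (XT.nd (nat_lit 78) (nat_lit 228) (nat_lit 0) (XT.lf (nat_lit 0) (nat_lit 14612103268) (nat_lit 380) (nat_lit 11545949092) (nat_lit 76) (nat_lit 4346512176) (nat_lit 43) (nat_lit 5) (nat_lit 48) (nat_lit 5) (nat_lit 44) (nat_lit 5) (nat_lit 272) (nat_lit 258) (nat_lit 190)) (XT.nd (nat_lit 78) (nat_lit 0) (nat_lit 0) (XT.lf (nat_lit 0) (nat_lit 9600041365) (nat_lit 228) (nat_lit 11248440408) (nat_lit 304) (nat_lit 11207887609) (nat_lit 40) (nat_lit 5) (nat_lit 43) (nat_lit 5) (nat_lit 44) (nat_lit 5) (nat_lit 273) (nat_lit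 258) (nat_lit 189)) (XT.lf (nat_lit 0) (nat_lit 27850506449) (nat_lit 304) (nat_lit 968129978) (nat_lit 76) (nat_lit 4900389857) (nat_lit 40) (nat_lit 5) (nat_lit 44) (nat_lit 5) (nat_lit 41) (nat_lit 5) (nat_lit 274) (nat_lit 258) (nat_lit 188))))))))
noncomputable def xc85 : XT := (XT.nd (nat_lit 1404) (nat_lit 532) (nat_lit 0) (XT.nd (nat_lit 702) (nat_lit 836) (nat_lit 0) (XT.nd (nat_lit 312) (nat_lit 608) (nat_lit 0) (XT.nd (nat_lit 156) (nat_lit 228) (nat_lit 0) (XT.nd (nat_lit 78) (nat_lit 228) (nat_lit 0) (XT.lf (nat_lit 0) (nat_lit 442537653) (nat_lit 304) (nat_lit 12732806058) (nat_lit 76) (nat_lit 22312407086) (nat_lit 36) (nat_lit 5) (nat_lit 40) (nat_lit 5) (nat_lit 37) (nat_lit 5) (nat_lit 275) (nat_lit 258) (nat_lit 187)) (XT.lf (nat_lit 0) (nat_lit 7299346309) (nat_lit 304) (nat_lit 26187693737) (nat_lit 76) (nat_lit 3893835721) (nat_lit 33) (nat_lit 5) (nat_lit 37) (nat_lit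 5) (nat_lit 34) (nat_lit 5) (nat_lit 276) (nat_lit 258) (nat_lit 186))) (XT.nd (nat_lit 78) (nat_lit 228) (nat_lit 0) (XT.lf (nat_lit 0) (nat_lit 15140893865) (nat_lit 304) (nat_lit 2167420592) (nat_lit 76) (nat_lit 22095360184) (nat_lit 33) (nat_lit 5) (nat_lit 37) (nat_lit 5) (nat_lit 34) (nat_lit 5) (nat_lit 277) (nat_lit 258) (nat_lit 185)) (XT.lf (nat_lit 0) (nat_lit 23991241669) (nat_lit 304) (nat_lit 17032464426) (nat_lit 76) (nat_lit 545548635) (nat_lit 30) (nat_lit 5) (nat_lit 34) (nat_lit 5) (nat_lit 31) (nat_lit 5) (nat_lit 278) (nat_lit 258) (nat_lit 184)))) (XT.nd (nat_lit 156) (nat_lit 456) (nat_lit 0) (XT.nd (nat_lit 78) (nat_lit 0) (nat_lit 0) (XT.lf (nat_lit 0) (nat_lit 9547727259) (nat_lit 152) (nat_lit 24471143017) (nat_lit 228) (nat_lit 9865777121) (nat_lit 28) (nat_lit 5) (nat_lit 30) (nat_lit 5) (nat_lit 31) (nat_lit 5) (nat_lit 279) (nat_lit 258) (nat_lit 183))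 (XT.lf (nat_lit 0) (nat_lit 38849230222) (nat_lit 152) (nat_lit 6286671331) (nat_lit 228) (nat_lit 1235036991) (nat_lit 28) (nat_lit 5) (nat_lit 30) (nat_lit 5) (nat_lit 31) (nat_lit 5) (nat_lit 280) (nat_lit 258) (nat_lit 182))) (XT.nd (nat_lit 78) (nat_lit 152) (nat_lit 0) (XT.lf (nat_lit 0) (nat_lit 8378048260) (nat_lit 304) (nat_lit 27245149746) (nat_lit 76) (nat_lit 13399111445) (nat_lit 24) (nat_lit 5) (nat_lit 28) (nat_lit 5) (nat_lit 25) (nat_lit 5) (nat_lit 281) (nat_lit 258) (nat_lit 181)) (XT.nd (nat_lit 78) (nat_lit 0) (nat_lit 0) (XT.lf (nat_lit 0) (nat_lit 1722963763) (nat_lit 152) (nat_lit 17252053795) (nat_lit 228) (nat_lit 32896876592) (nat_lit 22) (nat_lit 5) (nat_lit 24) (nat_lit 5) (nat_lit 25) (nat_lit 5) (nat_lit 282) (nat_lit 258) (nat_lit 180)) (XT.lf (nat_lit 0) (nat_lit 30934374130) (nat_lit 228) (nat_lit 21004794529) (nat_lit 76) (nat_lit 2984565655) (nat_lit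 22) (nat_lit 5) (nat_lit 25) (nat_lit 5) (nat_lit 23) (nat_lit 5) (nat_lit 283) (nat_lit 258) (nat_lit 179)))))) (XT.nd (nat_lit 312) (nat_lit 456) (nat_lit 0) (XT.nd (nat_lit 156) (nat_lit 228) (nat_lit 0) (XT.nd (nat_lit 78) (nat_lit 0) (nat_lit 0) (XT.lf (nat_lit 0) (nat_lit 10504780315) (nat_lit 152) (nat_lit 33793052116) (nat_lit 228) (nat_lit 13899540280) (nat_lit 20) (nat_lit 5) (nat_lit 22) (nat_lit 5) (nat_lit 23) (nat_lit 5) (nat_lit 284) (nat_lit 258) (nat_lit 178)) (XT.lf (nat_lit 0) (nat_lit 45274282106) (nat_lit 152) (nat_lit 13814807651) (nat_lit 228) (nat_lit 2625893601) (nat_lit 20) (nat_lit 5) (nat_lit 22) (nat_lit 5) (nat_lit 23) (nat_lit 5) (nat_lit 285) (nat_lit 258) (nat_lit 177))) (XT.nd (nat_lit 78) (nat_lit 0) (nat_lit 0) (XT.lf (nat_lit 0) (nat_lit 9641984362) (nat_lit 228) (nat_lit 47902154506) (nat_lit 76) (nat_lit 7942525015) (nat_lit 17) (nat_lit 5) (nat_lit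 20) (nat_lit 5) (nat_lit 18) (nat_lit 5) (nat_lit 286) (nat_lit 258) (nat_lit 176)) (XT.lf (nat_lit 0) (nat_lit 23318079160) (nat_lit 228) (nat_lit 14919020518) (nat_lit 76) (nat_lit 31294901667) (nat_lit 17) (nat_lit 5) (nat_lit 20) (nat_lit 5) (nat_lit 18) (nat_lit 5) (nat_lit 287) (nat_lit 258) (nat_lit 175)))) (XT.nd (nat_lit 156) (nat_lit 304) (nat_lit 0) (XT.nd (nat_lit 78) (nat_lit 0) (nat_lit 0) (XT.lf (nat_lit 0) (nat_lit 21377558386) (nat_lit 152) (nat_lit 17038476967) (nat_lit 228) (nat_lit 35468554838) (nat_lit 15) (nat_lit 5) (nat_lit 17) (nat_lit 5) (nat_lit 18) (nat_lit 5) (nat_lit 288) (nat_lit 258) (nat_lit 174)) (XT.lf (nat_lit 0) (nat_lit 55071658495) (nat_lit 228) (nat_lit 17566720876) (nat_lit 76) (nat_lit 5929527359) (nat_lit 15) (nat_lit 5) (nat_lit 18) (nat_lit 5) (nat_lit 16) (nat_lit 4) (nat_lit 289) (nat_lit 258) (nat_lit 173))) (XT.nd (nat_lit 78) (nat_lit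 228) (nat_lit 0) (XT.lf (nat_lit 0) (nat_lit 20530033745) (nat_lit 76) (nat_lit 53132215332) (nat_lit 152) (nat_lit 9933524848) (nat_lit 14) (nat_lit 5) (nat_lit 15) (nat_lit 5) (nat_lit 16) (nat_lit 4) (nat_lit 290) (nat_lit 258) (nat_lit 172)) (XT.nd (nat_lit 78) (nat_lit 152) (nat_lit 0) (XT.lf (nat_lit 0) (nat_lit 4869208579) (nat_lit 152) (nat_lit 26795736340) (nat_lit 76) (nat_lit 57341961529) (nat_lit 13) (nat_lit 5) (nat_lit 15) (nat_lit 5) (nat_lit 14) (nat_lit 5) (nat_lit 291) (nat_lit 258) (nat_lit 171)) (XT.lf (nat_lit 0) (nat_lit 12604020366) (nat_lit 152) (nat_lit 8100794762) (nat_lit 228) (nat_lit 74128147527) (nat_lit 11) (nat_lit 5) (nat_lit 13) (nat_lit 5) (nat_lit 14) (nat_lit 5) (nat_lit 292) (nat_lit 258) (nat_lit 170))))))) (XT.nd (nat_lit 702) (nat_lit 228) (nat_lit 0) (XT.nd (nat_lit 312) (nat_lit 228) (nat_lit 0) (XT.nd (nat_lit 156) (nat_lit 76) (nat_lit 0) (XT.nd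 (nat_lit 78) (nat_lit 0) (nat_lit 0) (XT.lf (nat_lit 0) (nat_lit 38547976522) (nat_lit 228) (nat_lit 45275260522) (nat_lit 76) (nat_lit 17264839476) (nat_lit 11) (nat_lit 5) (nat_lit 14) (nat_lit 5) (nat_lit 12) (nat_lit 4) (nat_lit 293) (nat_lit 258) (nat_lit 169)) (XT.lf (nat_lit 0) (nat_lit 57950954926) (nat_lit 228) (nat_lit 5508924439) (nat_lit 76) (nat_lit 44377109771) (nat_lit 11) (nat_lit 5) (nat_lit 14) (nat_lit 5) (nat_lit 12) (nat_lit 4) (nat_lit 294) (nat_lit 258) (nat_lit 168))) (XT.nd (nat_lit 78) (nat_lit 0) (nat_lit 0) (XT.lf (nat_lit 0) (nat_lit 38669871825) (nat_lit 76) (nat_lit 40836128093) (nat_lit 152) (nat_lit 35589830696) (nat_lit 10) (nat_lit 5) (nat_lit 11) (nat_lit 5) (nat_lit 12) (nat_lit 4) (nat_lit 295) (nat_lit 258) (nat_lit 167)) (XT.lf (nat_lit 0) (nat_lit 86573453134) (nat_lit 76) (nat_lit 16304233226) (nat_lit 152) (nat_lit 20053087885) (nat_lit 10) (nat_lit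 5) (nat_lit 11) (nat_lit 5) (nat_lit 12) (nat_lit 4) (nat_lit 296) (nat_lit 258) (nat_lit 166)))) (XT.nd (nat_lit 156) (nat_lit 76) (nat_lit 0) (XT.nd (nat_lit 78) (nat_lit 76) (nat_lit 0) (XT.lf (nat_lit 0) (nat_lit 6975033868) (nat_lit 76) (nat_lit 121408586880) (nat_lit 76) (nat_lit 2995673198) (nat_lit 9) (nat_lit 4) (nat_lit 10) (nat_lit 5) (nat_lit 10) (nat_lit 4) (nat_lit 297) (nat_lit 258) (nat_lit 165)) (XT.lf (nat_lit 0) (nat_lit 15847843349) (nat_lit 152) (nat_lit 85931673845) (nat_lit 76) (nat_lit 38666378720) (nat_lit 8) (nat_lit 5) (nat_lit 10) (nat_lit 5) (nat_lit 9) (nat_lit 4) (nat_lit 298) (nat_lit 258) (nat_lit 164))) (XT.nd (nat_lit 78) (nat_lit 76) (nat_lit 0) (XT.lf (nat_lit 0) (nat_lit 36092165725) (nat_lit 152) (nat_lit 44437145410) (nat_lit 76) (nat_lit 69706150607) (nat_lit 8) (nat_lit 5) (nat_lit 10) (nat_lit 5) (nat_lit 9) (nat_lit 4) (nat_lit 299) (nat_lit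 258) (nat_lit 163)) (XT.nd (nat_lit 78) (nat_lit 0) (nat_lit 0) (XT.lf (nat_lit 0) (nat_lit 384289238) (nat_lit 76) (nat_lit 57574851128) (nat_lit 152) (nat_lit 102848901857) (nat_lit 7) (nat_lit 5) (nat_lit 8) (nat_lit 5) (nat_lit 9) (nat_lit 4) (nat_lit 300) (nat_lit 258) (nat_lit 162)) (XT.lf (nat_lit 0) (nat_lit 50373534440) (nat_lit 76) (nat_lit 31973251899) (nat_lit 152) (nat_lit 89841081496) (nat_lit 7) (nat_lit 5) (nat_lit 8) (nat_lit 5) (nat_lit 9) (nat_lit 4) (nat_lit 301) (nat_lit 258) (nat_lit 161)))))) (XT.nd (nat_lit 390) (nat_lit 152) (nat_lit 0) (XT.nd (nat_lit 156) (nat_lit 76) (nat_lit 0) (XT.nd (nat_lit 78) (nat_lit 0) (nat_lit 0) (XT.lf (nat_lit 0) (nat_lit 104357530048) (nat_lit 76) (nat_lit 4325364827) (nat_lit 152) (nat_lit 75795316115) (nat_lit 7) (nat_lit 5) (nat_lit 8) (nat_lit 5) (nat_lit 9) (nat_lit 4) (nat_lit 302) (nat_lit 258) (nat_lit 160)) (XT.lf (nat_lit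 0) (nat_lit 137522168016) (nat_lit 152) (nat_lit 35494358345) (nat_lit 0) (nat_lit 24715445181) (nat_lit 7) (nat_lit 5) (nat_lit 9) (nat_lit 4) (nat_lit 7) (nat_lit 4) (nat_lit 303) (nat_lit 258) (nat_lit 159))) (XT.nd (nat_lit 78) (nat_lit 0) (nat_lit 0) (XT.lf (nat_lit 0) (nat_lit 13042734315) (nat_lit 76) (nat_lit 155900205793) (nat_lit 76) (nat_lit 43089378435) (nat_lit 6) (nat_lit 4) (nat_lit 7) (nat_lit 5) (nat_lit 7) (nat_lit 4) (nat_lit 304) (nat_lit 258) (nat_lit 158)) (XT.nd (nat_lit 78) (nat_lit 0) (nat_lit 0) (XT.lf (nat_lit 0) (nat_lit 66726602697) (nat_lit 76) (nat_lit 136766956205) (nat_lit 76) (nat_lit 23952328363) (nat_lit 6) (nat_lit 4) (nat_lit 7) (nat_lit 5) (nat_lit 7) (nat_lit 4) (nat_lit 305) (nat_lit 258) (nat_lit 157)) (XT.lf (nat_lit 0) (nat_lit 124701769642) (nat_lit 76) (nat_lit 116104509511) (nat_lit 76) (nat_lit 3286362701) (nat_lit 6) (nat_lit 4) (nat_lit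 7) (nat_lit 5) (nat_lit 7) (nat_lit 4) (nat_lit 306) (nat_lit 258) (nat_lit 156))))) (XT.nd (nat_lit 156) (nat_lit 76) (nat_lit 0) (XT.nd (nat_lit 78) (nat_lit 0) (nat_lit 0) (XT.lf (nat_lit 0) (nat_lit 18421873206) (nat_lit 152) (nat_lit 75056565037) (nat_lit 76) (nat_lit 168577935154) (nat_lit 5) (nat_lit 5) (nat_lit 7) (nat_lit 5) (nat_lit 6) (nat_lit 4) (nat_lit 307) (nat_lit 258) (nat_lit 155)) (XT.lf (nat_lit 0) (nat_lit 41751469149) (nat_lit 152) (nat_lit 27233910301) (nat_lit 76) (nat_lit 212469140732) (nat_lit 5) (nat_lit 5) (nat_lit 7) (nat_lit 5) (nat_lit 6) (nat_lit 4) (nat_lit 308) (nat_lit 258) (nat_lit 154))) (XT.nd (nat_lit 78) (nat_lit 0) (nat_lit 0) (XT.lf (nat_lit 0) (nat_lit 25218959020) (nat_lit 76) (nat_lit 42120638320) (nat_lit 152) (nat_lit 235045315386) (nat_lit 4) (nat_lit 5) (nat_lit 5) (nat_lit 5) (nat_lit 6) (nat_lit 4) (nat_lit 309) (nat_lit 258) (nat_lit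 153)) (XT.nd (nat_lit 78) (nat_lit 0) (nat_lit 0) (XT.lf (nat_lit 0) (nat_lit 82837930095) (nat_lit 76) (nat_lit 12609744133) (nat_lit 152) (nat_lit 229518419601) (nat_lit 4) (nat_lit 5) (nat_lit 5) (nat_lit 5) (nat_lit 6) (nat_lit 4) (nat_lit 310) (nat_lit 258) (nat_lit 152)) (XT.lf (nat_lit 0) (nat_lit 126103727190) (nat_lit 152) (nat_lit 204590585729) (nat_lit 0) (nat_lit 18644491929) (nat_lit 4) (nat_lit 5) (nat_lit 6) (nat_lit 4) (nat_lit 4) (nat_lit 4) (nat_lit 311) (nat_lit 258) (nat_lit 151))))))))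
noncomputable def xc86 : XT := (XT.nd (nat_lit 34008) (nat_lit 0) (nat_lit 1292) (XT.nd (nat_lit 702) (nat_lit 0) (nat_lit 0) (XT.nd (nat_lit 312) (nat_lit 76) (nat_lit 0) (XT.nd (nat_lit 156) (nat_lit 0) (nat_lit 0) (XT.nd (nat_lit 78) (nat_lit 0) (nat_lit 0) (XT.lf (nat_lit 0) (nat_lit 159423587507) (nat_lit 152) (nat_lit 164264940569) (nat_lit 0) (nat_lit 51962240297) (nat_lit 4) (nat_lit 5) (nat_lit 6) (nat_lit 4) (nat_lit 4) (nat_lit 4) (nat_lit 312) (nat_lit 258) (nat_lit 150)) (XT.lf (nat_lit 0) (nat_lit 195407832759) (nat_lit 152) (nat_lit 120715388024) (nat_lit 0) (nat_lit 87944530042) (nat_lit 4) (nat_lit 5) (nat_lit 6) (nat_lit 4) (nat_lit 4) (nat_lit 4) (nat_lit 313) (nat_lit 258) (nat_lit 149))) (XT.nd (nat_lit 78) (nat_lit 0) (nat_lit 0) (XT.lf (nat_lit 0) (nat_lit 234269702919) (nat_lit 152) (nat_lit 73683856670) (nat_lit 0) (nat_lit 126804589546) (nat_lit 4) (nat_lit 5)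 (nat_lit 6) (nat_lit 4) (nat_lit 4) (nat_lit 4) (nat_lit 314) (nat_lit 258) (nat_lit 148)) (XT.lf (nat_lit 0) (nat_lit 276239490551) (nat_lit 152) (nat_lit 22891641137) (nat_lit 0) (nat_lit 168772700645) (nat_lit 4) (nat_lit 5) (nat_lit 6) (nat_lit 4) (nat_lit 4) (nat_lit 4) (nat_lit 315) (nat_lit 258) (nat_lit 147)))) (XT.nd (nat_lit 156) (nat_lit 0) (nat_lit 0) (XT.nd (nat_lit 78) (nat_lit 0) (nat_lit 0) (XT.lf (nat_lit 0) (nat_lit 33019065794) (nat_lit 76) (nat_lit 289062359864) (nat_lit 76) (nat_lit 181594017613) (nat_lit 3) (nat_lit 4) (nat_lit 4) (nat_lit 5) (nat_lit 4) (nat_lit 4) (nat_lit 316) (nat_lit 258) (nat_lit 146)) (XT.lf (nat_lit 0) (nat_lit 94218454219) (nat_lit 76) (nat_lit 277770108661) (nat_lit 76) (nat_lit 170300329053) (nat_lit 3) (nat_lit 4) (nat_lit 4) (nat_lit 5) (nat_lit 4) (nat_lit 4) (nat_lit 317) (nat_lit 258) (nat_lit 145))) (XT.nd (nat_lit 78) (nat_lit 0)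 (nat_lit 0) (XT.lf (nat_lit 0) (nat_lit 160312286141) (nat_lit 76) (nat_lit 265575142053) (nat_lit 76) (nat_lit 158104031559) (nat_lit 3) (nat_lit 4) (nat_lit 4) (nat_lit 5) (nat_lit 4) (nat_lit 4) (nat_lit 318) (nat_lit 258) (nat_lit 144)) (XT.nd (nat_lit 78) (nat_lit 0) (nat_lit 0) (XT.lf (nat_lit 0) (nat_lit 231692228712) (nat_lit 76) (nat_lit 252405193573) (nat_lit 76) (nat_lit 144932850777) (nat_lit 3) (nat_lit 4) (nat_lit 4) (nat_lit 5) (nat_lit 4) (nat_lit 4) (nat_lit 319) (nat_lit 258) (nat_lit 143)) (XT.lf (nat_lit 0) (nat_lit 308781274184) (nat_lit 76) (nat_lit 238182219080) (nat_lit 76) (nat_lit 130708735264) (nat_lit 3) (nat_lit 4) (nat_lit 4) (nat_lit 5) (nat_lit 4) (nat_lit 4) (nat_lit 320) (nat_lit 258) (nat_lit 142)))))) (XT.nd (nat_lit 32916) (nat_lit 0) (nat_lit 4788) (XT.nd (nat_lit 32760) (nat_lit 0) (nat_lit 4712) (XT.nd (nat_lit 32682) (nat_lit 0) (nat_lit 4712)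 (XT.lf (nat_lit 0) (nat_lit 392036246532) (nat_lit 76) (nat_lit 222821934282) (nat_lit 76) (nat_lit 115347393966) (nat_lit 3) (nat_lit 4) (nat_lit 4) (nat_lit 5) (nat_lit 4) (nat_lit 4) (nat_lit 321) (nat_lit 258) (nat_lit 141)) (XT.lf (nat_lit 0) (nat_lit 537398036) (nat_lit 0) (nat_lit 537398036) (nat_lit 684) (nat_lit 7871921475) (nat_lit 65) (nat_lit 5) (nat_lit 65) (nat_lit 3) (nat_lit 74) (nat_lit 3) (nat_lit 259) (nat_lit 259) (nat_lit 202))) (XT.nd (nat_lit 78) (nat_lit 0) (nat_lit 76) (XT.lf (nat_lit 0) (nat_lit 2702865352) (nat_lit 684) (nat_lit 5180228699) (nat_lit 760) (nat_lit 10701538876) (nat_lit 65) (nat_lit 5) (nat_lit 74) (nat_lit 3) (nat_lit 75) (nat_lit 5) (nat_lit 260) (nat_lit 259) (nat_lit 201)) (XT.lf (nat_lit 0) (nat_lit 3473308390) (nat_lit 684) (nat_lit 11793541296) (nat_lit 760) (nat_lit 4055749066) (nat_lit 66) (nat_lit 5) (nat_lit 75) (nat_lit 5) (nat_lit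 76) (nat_lit 5) (nat_lit 261) (nat_lit 259) (nat_lit 200)))) (XT.nd (nat_lit 156) (nat_lit 0) (nat_lit 152) (XT.nd (nat_lit 78) (nat_lit 0) (nat_lit 76) (XT.lf (nat_lit 76) (nat_lit 1211867227) (nat_lit 0) (nat_lit 3309925624) (nat_lit 760) (nat_lit 15587097551) (nat_lit 67) (nat_lit 5) (nat_lit 66) (nat_lit 5) (nat_lit 76) (nat_lit 5) (nat_lit 262) (nat_lit 259) (nat_lit 199)) (XT.lf (nat_lit 0) (nat_lit 5987629910) (nat_lit 684) (nat_lit 5440511798) (nat_lit 760) (nat_lit 9513370776) (nat_lit 67) (nat_lit 5) (nat_lit 76) (nat_lit 5) (nat_lit 77) (nat_lit 5) (nat_lit 263) (nat_lit 259) (nat_lit 198))) (XT.nd (nat_lit 78) (nat_lit 0) (nat_lit 0) (XT.lf (nat_lit 0) (nat_lit 7773132835) (nat_lit 684) (nat_lit 12538393613) (nat_lit 760) (nat_lit 1519191269) (nat_lit 68) (nat_lit 5) (nat_lit 77) (nat_lit 5) (nat_lit 78) (nat_lit 5) (nat_lit 264) (nat_lit 259) (nat_lit 197)) (XT.nd (nat_lit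 78) (nat_lit 0) (nat_lit 76) (XT.lf (nat_lit 76) (nat_lit 2479418284) (nat_lit 0) (nat_lit 7527965730) (nat_lit 760) (nat_lit 12768466368) (nat_lit 69) (nat_lit 5) (nat_lit 68) (nat_lit 5) (nat_lit 78) (nat_lit 5) (nat_lit 265) (nat_lit 259) (nat_lit 196)) (XT.lf (nat_lit 0) (nat_lit 12719977940) (nat_lit 684) (nat_lit 4758713861) (nat_lit 76) (nat_lit 6303001740) (nat_lit 69) (nat_lit 5) (nat_lit 78) (nat_lit 5) (nat_lit 70) (nat_lit 5) (nat_lit 266) (nat_lit 259) (nat_lit 195))))))) (XT.nd (nat_lit 702) (nat_lit 1520) (nat_lit 0) (XT.nd (nat_lit 312) (nat_lit 836) (nat_lit 0) (XT.nd (nat_lit 156) (nat_lit 380) (nat_lit 0) (XT.nd (nat_lit 78) (nat_lit 304) (nat_lit 0) (XT.lf (nat_lit 0) (nat_lit 12271331170) (nat_lit 684) (nat_lit 3677875071) (nat_lit 760) (nat_lit 8903890657) (nat_lit 60) (nat_lit 5) (nat_lit 69) (nat_lit 5) (nat_lit 70) (nat_lit 5) (nat_lit 267) (nat_lit 259) (nat_lit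 194)) (XT.lf (nat_lit 0) (nat_lit 4787445087) (nat_lit 304) (nat_lit 14965896225) (nat_lit 380) (nat_lit 6241111383) (nat_lit 56) (nat_lit 5) (nat_lit 60) (nat_lit 5) (nat_lit 61) (nat_lit 5) (nat_lit 268) (nat_lit 259) (nat_lit 193))) (XT.nd (nat_lit 78) (nat_lit 380) (nat_lit 0) (XT.lf (nat_lit 0) (nat_lit 23915363529) (nat_lit 304) (nat_lit 209972280) (nat_lit 380) (nat_lit 3088668235) (nat_lit 56) (nat_lit 5) (nat_lit 60) (nat_lit 5) (nat_lit 61) (nat_lit 5) (nat_lit 269) (nat_lit 259) (nat_lit 192)) (XT.lf (nat_lit 0) (nat_lit 798403179) (nat_lit 380) (nat_lit 12216867245) (nat_lit 76) (nat_lit 15491031136) (nat_lit 51) (nat_lit 5) (nat_lit 56) (nat_lit 5) (nat_lit 52) (nat_lit 5) (nat_lit 270) (nat_lit 259) (nat_lit 191)))) (XT.nd (nat_lit 156) (nat_lit 532) (nat_lit 0) (XT.nd (nat_lit 78) (nat_lit 0) (nat_lit 0) (XT.lf (nat_lit 0) (nat_lit 5102708889) (nat_lit 380) (nat_lit 22092289116)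 (nat_lit 76) (nat_lit 2693781017) (nat_lit 47) (nat_lit 5) (nat_lit 52) (nat_lit 5) (nat_lit 48) (nat_lit 5) (nat_lit 271) (nat_lit 259) (nat_lit 190)) (XT.lf (nat_lit 0) (nat_lit 10173173199) (nat_lit 380) (nat_lit 1762603146) (nat_lit 76) (nat_lit 19425035649) (nat_lit 47) (nat_lit 5) (nat_lit 52) (nat_lit 5) (nat_lit 48) (nat_lit 5) (nat_lit 272) (nat_lit 259) (nat_lit 189))) (XT.nd (nat_lit 78) (nat_lit 228) (nat_lit 0) (XT.lf (nat_lit 0) (nat_lit 16038088515) (nat_lit 380) (nat_lit 12165074995) (nat_lit 76) (nat_lit 4728047866) (nat_lit 43) (nat_lit 5) (nat_lit 48) (nat_lit 5) (nat_lit 44) (nat_lit 5) (nat_lit 273) (nat_lit 259) (nat_lit 188)) (XT.nd (nat_lit 78) (nat_lit 0) (nat_lit 0) (XT.lf (nat_lit 0) (nat_lit 10659359326) (nat_lit 228) (nat_lit 12099527917) (nat_lit 304) (nat_lit 11849062125) (nat_lit 40) (nat_lit 5) (nat_lit 43) (nat_lit 5) (nat_lit 44) (nat_lit 5) (nat_lit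 274) (nat_lit 259) (nat_lit 187)) (XT.lf (nat_lit 0) (nat_lit 30303814225) (nat_lit 304) (nat_lit 764578060) (nat_lit 76) (nat_lit 5336149019) (nat_lit 40) (nat_lit 5) (nat_lit 44) (nat_lit 5) (nat_lit 41) (nat_lit 5) (nat_lit 275) (nat_lit 259) (nat_lit 186)))))) (XT.nd (nat_lit 390) (nat_lit 608) (nat_lit 0) (XT.nd (nat_lit 156) (nat_lit 380) (nat_lit 0) (XT.nd (nat_lit 78) (nat_lit 228) (nat_lit 0) (XT.lf (nat_lit 0) (nat_lit 694872774) (nat_lit 304) (nat_lit 13474811651) (nat_lit 76) (nat_lit 24145583992) (nat_lit 36) (nat_lit 5) (nat_lit 40) (nat_lit 5) (nat_lit 37) (nat_lit 5) (nat_lit 276) (nat_lit 259) (nat_lit 185)) (XT.lf (nat_lit 0) (nat_lit 8089218757) (nat_lit 304) (nat_lit 28008185473) (nat_lit 76) (nat_lit 4263038105) (nat_lit 33) (nat_lit 5) (nat_lit 37) (nat_lit 5) (nat_lit 34) (nat_lit 5) (nat_lit 277) (nat_lit 259) (nat_lit 184))) (XT.nd (nat_lit 78) (nat_lit 380) (nat_lit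 0) (XT.lf (nat_lit 0) (nat_lit 16542836433) (nat_lit 304) (nat_lit 2086625569) (nat_lit 76) (nat_lit 23916410783) (nat_lit 33) (nat_lit 5) (nat_lit 37) (nat_lit 5) (nat_lit 34) (nat_lit 5) (nat_lit 278) (nat_lit 259) (nat_lit 183)) (XT.nd (nat_lit 78) (nat_lit 152) (nat_lit 0) (XT.lf (nat_lit 0) (nat_lit 26091864868) (nat_lit 304) (nat_lit 18143362305) (nat_lit 76) (nat_lit 649981118) (nat_lit 30) (nat_lit 5) (nat_lit 34) (nat_lit 5) (nat_lit 31) (nat_lit 5) (nat_lit 279) (nat_lit 259) (nat_lit 182)) (XT.lf (nat_lit 0) (nat_lit 10552306171) (nat_lit 152) (nat_lit 26359725145) (nat_lit 228) (nat_lit 10474323242) (nat_lit 28) (nat_lit 5) (nat_lit 30) (nat_lit 5) (nat_lit 31) (nat_lit 5) (nat_lit 280) (nat_lit 259) (nat_lit 181))))) (XT.nd (nat_lit 156) (nat_lit 304) (nat_lit 0) (XT.nd (nat_lit 78) (nat_lit 304) (nat_lit 0) (XT.lf (nat_lit 0) (nat_lit 42180095242) (nat_lit 152) (nat_lit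 6725614932) (nat_lit 228) (nat_lit 1166510277) (nat_lit 28) (nat_lit 5) (nat_lit 30) (nat_lit 5) (nat_lit 31) (nat_lit 5) (nat_lit 281) (nat_lit 259) (nat_lit 180)) (XT.lf (nat_lit 0) (nat_lit 9202704410) (nat_lit 304) (nat_lit 29198951293) (nat_lit 76) (nat_lit 14534324282) (nat_lit 24) (nat_lit 5) (nat_lit 28) (nat_lit 5) (nat_lit 25) (nat_lit 5) (nat_lit 282) (nat_lit 259) (nat_lit 179))) (XT.nd (nat_lit 78) (nat_lit 152) (nat_lit 0) (XT.lf (nat_lit 0) (nat_lit 2076797851) (nat_lit 152) (nat_lit 18562567772) (nat_lit 228) (nat_lit 35374598274) (nat_lit 22) (nat_lit 5) (nat_lit 24) (nat_lit 5) (nat_lit 25) (nat_lit 5) (nat_lit 283) (nat_lit 259) (nat_lit 178)) (XT.nd (nat_lit 78) (nat_lit 152) (nat_lit 0) (XT.lf (nat_lit 0) (nat_lit 33545637113) (nat_lit 228) (nat_lit 22479075004) (nat_lit 76) (nat_lit 3285757834) (nat_lit 22) (nat_lit 5) (nat_lit 25) (nat_lit 5) (nat_lit 23) (nat_lit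 5) (nat_lit 284) (nat_lit 259) (nat_lit 177)) (XT.lf (nat_lit 0) (nat_lit 11542308839) (nat_lit 152) (nat_lit 36428829163) (nat_lit 228) (nat_lit 14875238117) (nat_lit 20) (nat_lit 5) (nat_lit 22) (nat_lit 5) (nat_lit 23) (nat_lit 5) (nat_lit 285) (nat_lit 259) (nat_lit 176))))))))
noncomputable def xc87 : XT := (XT.nd (nat_lit 1482) (nat_lit 304) (nat_lit 0) (XT.nd (nat_lit 702) (nat_lit 304) (nat_lit 0) (XT.nd (nat_lit 312) (nat_lit 304) (nat_lit 0) (XT.nd (nat_lit 156) (nat_lit 152) (nat_lit 0) (XT.nd (nat_lit 78) (nat_lit 228) (nat_lit 0) (XT.lf (nat_lit 0) (nat_lit 49078767358) (nat_lit 152) (nat_lit 14857337521) (nat_lit 228) (nat_lit 2709793436) (nat_lit 20) (nat_lit 5) (nat_lit 22) (nat_lit 5) (nat_lit 23) (nat_lit 5) (nat_lit 286) (nat_lit 259) (nat_lit 175)) (XT.lf (nat_lit 0) (nat_lit 10530201540) (nat_lit 228) (nat_lit 51550523346) (nat_lit 76) (nat_lit 8638774059) (nat_lit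 17) (nat_lit 5) (nat_lit 20) (nat_lit 5) (nat_lit 18) (nat_lit 5) (nat_lit 287) (nat_lit 259) (nat_lit 174))) (XT.nd (nat_lit 78) (nat_lit 152) (nat_lit 0) (XT.lf (nat_lit 0) (nat_lit 25291727742) (nat_lit 228) (nat_lit 15942353715) (nat_lit 76) (nat_lit 33854833655) (nat_lit 17) (nat_lit 5) (nat_lit 20) (nat_lit 5) (nat_lit 18) (nat_lit 5) (nat_lit 288) (nat_lit 259) (nat_lit 173)) (XT.lf (nat_lit 0) (nat_lit 23250555319) (nat_lit 152) (nat_lit 18341491773) (nat_lit 228) (nat_lit 38197955138) (nat_lit 15) (nat_lit 5) (nat_lit 17) (nat_lit 5) (nat_lit 18) (nat_lit 5) (nat_lit 289) (nat_lit 259) (nat_lit 172)))) (XT.nd (nat_lit 156) (nat_lit 228) (nat_lit 0) (XT.nd (nat_lit 78) (nat_lit 76) (nat_lit 0) (XT.lf (nat_lit 0) (nat_lit 59573378831) (nat_lit 228) (nat_lit 18817234767) (nat_lit 76) (nat_lit 6457723760) (nat_lit 15) (nat_lit 5) (nat_lit 18) (nat_lit 5) (nat_lit 16) (nat_lit 4)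 (nat_lit 290) (nat_lit 259) (nat_lit 171)) (XT.lf (nat_lit 0) (nat_lit 22320531770) (nat_lit 76) (nat_lit 57325886875) (nat_lit 152) (nat_lit 10632270186) (nat_lit 14) (nat_lit 5) (nat_lit 15) (nat_lit 5) (nat_lit 16) (nat_lit 4) (nat_lit 291) (nat_lit 259) (nat_lit 170))) (XT.nd (nat_lit 78) (nat_lit 152) (nat_lit 0) (XT.lf (nat_lit 0) (nat_lit 5344732375) (nat_lit 152) (nat_lit 28799261457) (nat_lit 76) (nat_lit 61979000410) (nat_lit 13) (nat_lit 5) (nat_lit 15) (nat_lit 5) (nat_lit 14) (nat_lit 5) (nat_lit 292) (nat_lit 259) (nat_lit 169)) (XT.nd (nat_lit 78) (nat_lit 0) (nat_lit 0) (XT.lf (nat_lit 0) (nat_lit 13746385743) (nat_lit 152) (nat_lit 8696525089) (nat_lit 228) (nat_lit 79972450194) (nat_lit 11) (nat_lit 5) (nat_lit 13) (nat_lit 5) (nat_lit 14) (nat_lit 5) (nat_lit 293) (nat_lit 259) (nat_lit 168)) (XT.lf (nat_lit 0) (nat_lit 41708229052) (nat_lit 228) (nat_lit 48769998659)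 (nat_lit 76) (nat_lit 18692932434) (nat_lit 11) (nat_lit 5) (nat_lit 14) (nat_lit 5) (nat_lit 12) (nat_lit 4) (nat_lit 294) (nat_lit 259) (nat_lit 167)))))) (XT.nd (nat_lit 390) (nat_lit 76) (nat_lit 0) (XT.nd (nat_lit 156) (nat_lit 152) (nat_lit 0) (XT.nd (nat_lit 78) (nat_lit 76) (nat_lit 0) (XT.lf (nat_lit 0) (nat_lit 62657785402) (nat_lit 228) (nat_lit 5831784038) (nat_lit 76) (nat_lit 47970709849) (nat_lit 11) (nat_lit 5) (nat_lit 14) (nat_lit 5) (nat_lit 12) (nat_lit 4) (nat_lit 295) (nat_lit 259) (nat_lit 166)) (XT.lf (nat_lit 0) (nat_lit 41876194120) (nat_lit 76) (nat_lit 44057558901) (nat_lit 152) (nat_lit 38366258837) (nat_lit 10) (nat_lit 5) (nat_lit 11) (nat_lit 5) (nat_lit 12) (nat_lit 4) (nat_lit 296) (nat_lit 259) (nat_lit 165))) (XT.nd (nat_lit 78) (nat_lit 152) (nat_lit 0) (XT.lf (nat_lit 0) (nat_lit 93603711374) (nat_lit 76) (nat_lit 17566479811) (nat_lit 152) (nat_lit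 21591817958) (nat_lit 10) (nat_lit 5) (nat_lit 11) (nat_lit 5) (nat_lit 12) (nat_lit 4) (nat_lit 297) (nat_lit 259) (nat_lit 164)) (XT.nd (nat_lit 78) (nat_lit 76) (nat_lit 0) (XT.lf (nat_lit 0) (nat_lit 7635340436) (nat_lit 76) (nat_lit 131078851565) (nat_lit 76) (nat_lit 3172347171) (nat_lit 9) (nat_lit 4) (nat_lit 10) (nat_lit 5) (nat_lit 10) (nat_lit 4) (nat_lit 298) (nat_lit 259) (nat_lit 163)) (XT.lf (nat_lit 0) (nat_lit 17172119088) (nat_lit 152) (nat_lit 92709523628) (nat_lit 76) (nat_lit 41797010562) (nat_lit 8) (nat_lit 5) (nat_lit 10) (nat_lit 5) (nat_lit 9) (nat_lit 4) (nat_lit 299) (nat_lit 259) (nat_lit 162))))) (XT.nd (nat_lit 156) (nat_lit 0) (nat_lit 0) (XT.nd (nat_lit 78) (nat_lit 76) (nat_lit 0) (XT.lf (nat_lit 0) (nat_lit 39031805901) (nat_lit 152) (nat_lit 47902594705) (nat_lit 76) (nat_lit 75317199642) (nat_lit 8) (nat_lit 5) (nat_lit 10) (nat_lit 5) (nat_lit 9)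 (nat_lit 4) (nat_lit 300) (nat_lit 259) (nat_lit 161)) (XT.lf (nat_lit 0) (nat_lit 500664184) (nat_lit 76) (nat_lit 62144939659) (nat_lit 152) (nat_lit 111024516360) (nat_lit 7) (nat_lit 5) (nat_lit 8) (nat_lit 5) (nat_lit 9) (nat_lit 4) (nat_lit 301) (nat_lit 259) (nat_lit 160))) (XT.nd (nat_lit 78) (nat_lit 0) (nat_lit 0) (XT.lf (nat_lit 0) (nat_lit 54482705905) (nat_lit 76) (nat_lit 34497871718) (nat_lit 152) (nat_lit 96979944271) (nat_lit 7) (nat_lit 5) (nat_lit 8) (nat_lit 5) (nat_lit 9) (nat_lit 4) (nat_lit 302) (nat_lit 259) (nat_lit 159)) (XT.nd (nat_lit 78) (nat_lit 0) (nat_lit 0) (XT.lf (nat_lit 0) (nat_lit 112779547923) (nat_lit 76) (nat_lit 4640615928) (nat_lit 152) (nat_lit 81814104603) (nat_lit 7) (nat_lit 5) (nat_lit 8) (nat_lit 5) (nat_lit 9) (nat_lit 4) (nat_lit 303) (nat_lit 259) (nat_lit 158)) (XT.lf (nat_lit 0) (nat_lit 148563865455) (nat_lit 152) (nat_lit 38264338165)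 (nat_lit 0) (nat_lit 26720266902) (nat_lit 7) (nat_lit 5) (nat_lit 9) (nat_lit 4) (nat_lit 7) (nat_lit 4) (nat_lit 304) (nat_lit 259) (nat_lit 157))))))) (XT.nd (nat_lit 702) (nat_lit 76) (nat_lit 0) (XT.nd (nat_lit 312) (nat_lit 76) (nat_lit 0) (XT.nd (nat_lit 156) (nat_lit 76) (nat_lit 0) (XT.nd (nat_lit 78) (nat_lit 0) (nat_lit 0) (XT.lf (nat_lit 0) (nat_lit 14152698530) (nat_lit 76) (nat_lit 168343682414) (nat_lit 76) (nat_lit 46496564893) (nat_lit 6) (nat_lit 4) (nat_lit 7) (nat_lit 5) (nat_lit 7) (nat_lit 4) (nat_lit 305) (nat_lit 259) (nat_lit 156)) (XT.lf (nat_lit 0) (nat_lit 72126347088) (nat_lit 76) (nat_lit 147681886921) (nat_lit 76) (nat_lit 25831511097) (nat_lit 6) (nat_lit 4) (nat_lit 7) (nat_lit 5) (nat_lit 7) (nat_lit 4) (nat_lit 306) (nat_lit 259) (nat_lit 155))) (XT.nd (nat_lit 78) (nat_lit 76) (nat_lit 0) (XT.lf (nat_lit 0) (nat_lit 134734963228) (nat_lit 76) (nat_lit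 125368401956) (nat_lit 76) (nat_lit 3515009185) (nat_lit 6) (nat_lit 4) (nat_lit 7) (nat_lit 5) (nat_lit 7) (nat_lit 4) (nat_lit 307) (nat_lit 259) (nat_lit 154)) (XT.lf (nat_lit 0) (nat_lit 19926332246) (nat_lit 152) (nat_lit 81007205135) (nat_lit 76) (nat_lit 182085766648) (nat_lit 5) (nat_lit 5) (nat_lit 7) (nat_lit 5) (nat_lit 6) (nat_lit 4) (nat_lit 308) (nat_lit 259) (nat_lit 153)))) (XT.nd (nat_lit 156) (nat_lit 0) (nat_lit 0) (XT.nd (nat_lit 78) (nat_lit 76) (nat_lit 0) (XT.lf (nat_lit 0) (nat_lit 45120021110) (nat_lit 152) (nat_lit 29362729509) (nat_lit 76) (nat_lit 229486668919) (nat_lit 5) (nat_lit 5) (nat_lit 7) (nat_lit 5) (nat_lit 6) (nat_lit 4) (nat_lit 309) (nat_lit 259) (nat_lit 152)) (XT.lf (nat_lit 0) (nat_lit 27284201042) (nat_lit 76) (nat_lit 45469637385) (nat_lit 152) (nat_lit 253820476117) (nat_lit 4) (nat_lit 5) (nat_lit 5) (nat_lit 5) (nat_lit 6) (nat_lit 4) (nat_lit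 310) (nat_lit 259) (nat_lit 151))) (XT.nd (nat_lit 78) (nat_lit 0) (nat_lit 0) (XT.lf (nat_lit 0) (nat_lit 89509154596) (nat_lit 76) (nat_lit 13599401441) (nat_lit 152) (nat_lit 247853537150) (nat_lit 4) (nat_lit 5) (nat_lit 5) (nat_lit 5) (nat_lit 6) (nat_lit 4) (nat_lit 311) (nat_lit 259) (nat_lit 150)) (XT.nd (nat_lit 78) (nat_lit 0) (nat_lit 0) (XT.lf (nat_lit 0) (nat_lit 136215512792) (nat_lit 152) (nat_lit 220915999541) (nat_lit 0) (nat_lit 20153190350) (nat_lit 4) (nat_lit 5) (nat_lit 6) (nat_lit 4) (nat_lit 4) (nat_lit 4) (nat_lit 312) (nat_lit 259) (nat_lit 149)) (XT.lf (nat_lit 0) (nat_lit 172199222125) (nat_lit 152) (nat_lit 177367401513) (nat_lit 0) (nat_lit 56135089027) (nat_lit 4) (nat_lit 5) (nat_lit 6) (nat_lit 4) (nat_lit 4) (nat_lit 4) (nat_lit 313) (nat_lit 259) (nat_lit 148)))))) (XT.nd (nat_lit 390) (nat_lit 0) (nat_lit 0) (XT.nd (nat_lit 156) (nat_lit 76) (nat_lit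 0) (XT.nd (nat_lit 78) (nat_lit 0) (nat_lit 0) (XT.lf (nat_lit 0) (nat_lit 211060596064) (nat_lit 152) (nat_lit 130336753971) (nat_lit 0) (nat_lit 94994786432) (nat_lit 4) (nat_lit 5) (nat_lit 6) (nat_lit 4) (nat_lit 4) (nat_lit 4) (nat_lit 314) (nat_lit 259) (nat_lit 147)) (XT.lf (nat_lit 0) (nat_lit 253029924230) (nat_lit 152) (nat_lit 79545356783) (nat_lit 0) (nat_lit 136962562254) (nat_lit 4) (nat_lit 5) (nat_lit 6) (nat_lit 4) (nat_lit 4) (nat_lit 4) (nat_lit 315) (nat_lit 259) (nat_lit 146))) (XT.nd (nat_lit 78) (nat_lit 76) (nat_lit 0) (XT.lf (nat_lit 0) (nat_lit 298355913755) (nat_lit 152) (nat_lit 24692223890) (nat_lit 0) (nat_lit 182287114422) (nat_lit 4) (nat_lit 5) (nat_lit 6) (nat_lit 4) (nat_lit 4) (nat_lit 4) (nat_lit 316) (nat_lit 259) (nat_lit 145)) (XT.nd (nat_lit 78) (nat_lit 0) (nat_lit 0) (XT.lf (nat_lit 0) (nat_lit 35690003302) (nat_lit 76) (nat_lit 312174380766)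 (nat_lit 76) (nat_lit 196104250547) (nat_lit 3) (nat_lit 4) (nat_lit 4) (nat_lit 5) (nat_lit 4) (nat_lit 4) (nat_lit 317) (nat_lit 259) (nat_lit 144)) (XT.lf (nat_lit 0) (nat_lit 101783164115) (nat_lit 76) (nat_lit 299979710050) (nat_lit 76) (nat_lit 183908347529) (nat_lit 3) (nat_lit 4) (nat_lit 4) (nat_lit 5) (nat_lit 4) (nat_lit 4) (nat_lit 318) (nat_lit 259) (nat_lit 143))))) (XT.nd (nat_lit 156) (nat_lit 0) (nat_lit 0) (XT.nd (nat_lit 78) (nat_lit 0) (nat_lit 0) (XT.lf (nat_lit 0) (nat_lit 173162485290) (nat_lit 76) (nat_lit 286810035544) (nat_lit 76) (nat_lit 170737532003) (nat_lit 3) (nat_lit 4) (nat_lit 4) (nat_lit 5) (nat_lit 4) (nat_lit 4) (nat_lit 319) (nat_lit 259) (nat_lit 142)) (XT.lf (nat_lit 0) (nat_lit 250250955396) (nat_lit 76) (nat_lit 272587314731) (nat_lit 76) (nat_lit 156513754690) (nat_lit 3) (nat_lit 4) (nat_lit 4) (nat_lit 5) (nat_lit 4) (nat_lit 4) (nat_lit 320)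 (nat_lit 259) (nat_lit 141))) (XT.nd (nat_lit 32760) (nat_lit 0) (nat_lit 4712) (XT.lf (nat_lit 0) (nat_lit 333505394996) (nat_lit 76) (nat_lit 257227264822) (nat_lit 76) (nat_lit 141152726540) (nat_lit 3) (nat_lit 4) (nat_lit 4) (nat_lit 5) (nat_lit 4) (nat_lit 4) (nat_lit 321) (nat_lit 259) (nat_lit 140)) (XT.nd (nat_lit 78) (nat_lit 0) (nat_lit 0) (XT.lf (nat_lit 0) (nat_lit 724188327) (nat_lit 0) (nat_lit 724188327) (nat_lit 684) (nat_lit 8198551616) (nat_lit 65) (nat_lit 5) (nat_lit 65) (nat_lit 3) (nat_lit 74) (nat_lit 3) (nat_lit 260) (nat_lit 260) (nat_lit 200)) (XT.lf (nat_lit 0) (nat_lit 3447523839) (nat_lit 684) (nat_lit 5295442874) (nat_lit 760) (nat_lit 11299891615) (nat_lit 65) (nat_lit 5) (nat_lit 74) (nat_lit 3) (nat_lit 75) (nat_lit 5) (nat_lit 261) (nat_lit 260) (nat_lit 199))))))))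
noncomputable def xc88 : XT := (XT.nd (nat_lit 1404) (nat_lit 1748) (nat_lit 0) (XT.nd (nat_lit 702) (nat_lit 1748) (nat_lit 0) (XT.nd (nat_lit 312) (nat_lit 760) (nat_lit 0) (XT.nd (nat_lit 156) (nat_lit 0) (nat_lit 76) (XT.nd (nat_lit 78) (nat_lit 0) (nat_lit 0) (XT.lf (nat_lit 0) (nat_lit 4241687318) (nat_lit 684) (nat_lit 12420928838) (nat_lit 760) (nat_lit 4179298328) (nat_lit 66) (nat_lit 5) (nat_lit 75) (nat_lit 5) (nat_lit 76) (nat_lit 5) (nat_lit 262) (nat_lit 260) (nat_lit 198)) (XT.lf (nat_lit 76) (nat_lit 1611175229) (nat_lit 0) (nat_lit 3731261583) (nat_lit 760) (nat_lit 16350399004) (nat_lit 67) (nat_lit 5) (nat_lit 66) (nat_lit 5) (nat_lit 76) (nat_lit 5) (nat_lit 263) (nat_lit 260) (nat_lit 197))) (XT.nd (nat_lit 78) (nat_lit 0) (nat_lit 76) (XT.lf (nat_lit 0) (nat_lit 6889285188) (nat_lit 684) (nat_lit 5570596724) (nat_lit 760) (nat_lit 10134133410) (nat_lit 67) (nat_lit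 5) (nat_lit 76) (nat_lit 5) (nat_lit 77) (nat_lit 5) (nat_lit 264) (nat_lit 260) (nat_lit 196)) (XT.lf (nat_lit 0) (nat_lit 8789254862) (nat_lit 684) (nat_lit 13226591257) (nat_lit 760) (nat_lit 1540054411) (nat_lit 68) (nat_lit 5) (nat_lit 77) (nat_lit 5) (nat_lit 78) (nat_lit 5) (nat_lit 265) (nat_lit 260) (nat_lit 195)))) (XT.nd (nat_lit 156) (nat_lit 912) (nat_lit 0) (XT.nd (nat_lit 78) (nat_lit 0) (nat_lit 76) (XT.lf (nat_lit 76) (nat_lit 2978961559) (nat_lit 0) (nat_lit 8198781705) (nat_lit 760) (nat_lit 13400241321) (nat_lit 69) (nat_lit 5) (nat_lit 68) (nat_lit 5) (nat_lit 78) (nat_lit 5) (nat_lit 266) (nat_lit 260) (nat_lit 194)) (XT.lf (nat_lit 0) (nat_lit 14078963048) (nat_lit 684) (nat_lit 4841082872) (nat_lit 76) (nat_lit 6745775427) (nat_lit 69) (nat_lit 5) (nat_lit 78) (nat_lit 5) (nat_lit 70) (nat_lit 5) (nat_lit 267) (nat_lit 260) (nat_lit 193))) (XT.nd (nat_lit 78) (nat_lit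 304) (nat_lit 0) (XT.lf (nat_lit 0) (nat_lit 13538400787) (nat_lit 684) (nat_lit 4007296228) (nat_lit 760) (nat_lit 9278380723) (nat_lit 60) (nat_lit 5) (nat_lit 69) (nat_lit 5) (nat_lit 70) (nat_lit 5) (nat_lit 268) (nat_lit 260) (nat_lit 192)) (XT.nd (nat_lit 78) (nat_lit 0) (nat_lit 0) (XT.lf (nat_lit 0) (nat_lit 5460444352) (nat_lit 304) (nat_lit 16173992815) (nat_lit 380) (nat_lit 6423382911) (nat_lit 56) (nat_lit 5) (nat_lit 60) (nat_lit 5) (nat_lit 61) (nat_lit 5) (nat_lit 269) (nat_lit 260) (nat_lit 191)) (XT.lf (nat_lit 0) (nat_lit 26097114516) (nat_lit 304) (nat_lit 236793110) (nat_lit 380) (nat_lit 3042227080) (nat_lit 56) (nat_lit 5) (nat_lit 60) (nat_lit 5) (nat_lit 61) (nat_lit 5) (nat_lit 270) (nat_lit 260) (nat_lit 190)))))) (XT.nd (nat_lit 312) (nat_lit 760) (nat_lit 0) (XT.nd (nat_lit 156) (nat_lit 304) (nat_lit 0) (XT.nd (nat_lit 78) (nat_lit 304) (nat_lit 0) (XT.lf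 (nat_lit 0) (nat_lit 1129526282) (nat_lit 380) (nat_lit 12913103046) (nat_lit 76) (nat_lit 16729876942) (nat_lit 51) (nat_lit 5) (nat_lit 56) (nat_lit 5) (nat_lit 52) (nat_lit 5) (nat_lit 271) (nat_lit 260) (nat_lit 189)) (XT.lf (nat_lit 0) (nat_lit 5762847548) (nat_lit 380) (nat_lit 23577594636) (nat_lit 76) (nat_lit 2925975588) (nat_lit 47) (nat_lit 5) (nat_lit 52) (nat_lit 5) (nat_lit 48) (nat_lit 5) (nat_lit 272) (nat_lit 260) (nat_lit 188))) (XT.nd (nat_lit 78) (nat_lit 304) (nat_lit 0) (XT.lf (nat_lit 0) (nat_lit 11220288118) (nat_lit 380) (nat_lit 1642428426) (nat_lit 76) (nat_lit 20994494139) (nat_lit 47) (nat_lit 5) (nat_lit 52) (nat_lit 5) (nat_lit 48) (nat_lit 5) (nat_lit 273) (nat_lit 260) (nat_lit 187)) (XT.lf (nat_lit 0) (nat_lit 17541486235) (nat_lit 380) (nat_lit 12877178436) (nat_lit 76) (nat_lit 5135282363) (nat_lit 43) (nat_lit 5) (nat_lit 48) (nat_lit 5) (nat_lit 44)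 (nat_lit 5) (nat_lit 274) (nat_lit 260) (nat_lit 186)))) (XT.nd (nat_lit 156) (nat_lit 532) (nat_lit 0) (XT.nd (nat_lit 78) (nat_lit 0) (nat_lit 0) (XT.lf (nat_lit 0) (nat_lit 11761863431) (nat_lit 228) (nat_lit 13025662542) (nat_lit 304) (nat_lit 12577974328) (nat_lit 40) (nat_lit 5) (nat_lit 43) (nat_lit 5) (nat_lit 44) (nat_lit 5) (nat_lit 275) (nat_lit 260) (nat_lit 185)) (XT.lf (nat_lit 0) (nat_lit 32921249731) (nat_lit 304) (nat_lit 584830110) (nat_lit 76) (nat_lit 5800530629) (nat_lit 40) (nat_lit 5) (nat_lit 44) (nat_lit 5) (nat_lit 41) (nat_lit 5) (nat_lit 276) (nat_lit 260) (nat_lit 184))) (XT.nd (nat_lit 78) (nat_lit 228) (nat_lit 0) (XT.lf (nat_lit 0) (nat_lit 936446915) (nat_lit 304) (nat_lit 14315640470) (nat_lit 76) (nat_lit 26118541015) (nat_lit 36) (nat_lit 5) (nat_lit 40) (nat_lit 5) (nat_lit 37) (nat_lit 5) (nat_lit 277) (nat_lit 260) (nat_lit 183)) (XT.nd (nat_lit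 78) (nat_lit 0) (nat_lit 0) (XT.lf (nat_lit 0) (nat_lit 8912903534) (nat_lit 304) (nat_lit 30013480431) (nat_lit 76) (nat_lit 4653545768) (nat_lit 33) (nat_lit 5) (nat_lit 37) (nat_lit 5) (nat_lit 34) (nat_lit 5) (nat_lit 278) (nat_lit 260) (nat_lit 182)) (XT.lf (nat_lit 0) (nat_lit 18029733049) (nat_lit 304) (nat_lit 2035629800) (nat_lit 76) (nat_lit 25875524214) (nat_lit 33) (nat_lit 5) (nat_lit 37) (nat_lit 5) (nat_lit 34) (nat_lit 5) (nat_lit 279) (nat_lit 260) (nat_lit 181))))))) (XT.nd (nat_lit 702) (nat_lit 532) (nat_lit 0) (XT.nd (nat_lit 312) (nat_lit 532) (nat_lit 0) (XT.nd (nat_lit 156) (nat_lit 304) (nat_lit 0) (XT.nd (nat_lit 78) (nat_lit 152) (nat_lit 0) (XT.lf (nat_lit 0) (nat_lit 28334670045) (nat_lit 304) (nat_lit 19379039731) (nat_lit 76) (nat_lit 754096026) (nat_lit 30) (nat_lit 5) (nat_lit 34) (nat_lit 5) (nat_lit 31) (nat_lit 5) (nat_lit 280) (nat_lit 260) (nat_lit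 180)) (XT.lf (nat_lit 0) (nat_lit 11602904185) (nat_lit 152) (nat_lit 28409253060) (nat_lit 228) (nat_lit 11157334218) (nat_lit 28) (nat_lit 5) (nat_lit 30) (nat_lit 5) (nat_lit 31) (nat_lit 5) (nat_lit 281) (nat_lit 260) (nat_lit 179))) (XT.nd (nat_lit 78) (nat_lit 304) (nat_lit 0) (XT.lf (nat_lit 0) (nat_lit 45745626492) (nat_lit 152) (nat_lit 7208802926) (nat_lit 228) (nat_lit 1116372873) (nat_lit 28) (nat_lit 5) (nat_lit 30) (nat_lit 5) (nat_lit 31) (nat_lit 5) (nat_lit 282) (nat_lit 260) (nat_lit 178)) (XT.lf (nat_lit 0) (nat_lit 10071304412) (nat_lit 304) (nat_lit 31341271346) (nat_lit 76) (nat_lit 15751325987) (nat_lit 24) (nat_lit 5) (nat_lit 28) (nat_lit 5) (nat_lit 25) (nat_lit 5) (nat_lit 283) (nat_lit 260) (nat_lit 177)))) (XT.nd (nat_lit 156) (nat_lit 380) (nat_lit 0) (XT.nd (nat_lit 78) (nat_lit 0) (nat_lit 0) (XT.lf (nat_lit 0) (nat_lit 2428124280) (nat_lit 152) (nat_lit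 19987859265) (nat_lit 228) (nat_lit 38072511571) (nat_lit 22) (nat_lit 5) (nat_lit 24) (nat_lit 5) (nat_lit 25) (nat_lit 5) (nat_lit 284) (nat_lit 260) (nat_lit 176)) (XT.lf (nat_lit 0) (nat_lit 36346326021) (nat_lit 228) (nat_lit 24100700826) (nat_lit 76) (nat_lit 3602139489) (nat_lit 22) (nat_lit 5) (nat_lit 25) (nat_lit 5) (nat_lit 23) (nat_lit 5) (nat_lit 285) (nat_lit 260) (nat_lit 175))) (XT.nd (nat_lit 78) (nat_lit 228) (nat_lit 0) (XT.lf (nat_lit 0) (nat_lit 12634714551) (nat_lit 152) (nat_lit 39285121847) (nat_lit 228) (nat_lit 15948431561) (nat_lit 20) (nat_lit 5) (nat_lit 22) (nat_lit 5) (nat_lit 23) (nat_lit 5) (nat_lit 286) (nat_lit 260) (nat_lit 174)) (XT.nd (nat_lit 78) (nat_lit 228) (nat_lit 0) (XT.lf (nat_lit 0) (nat_lit 53161569677) (nat_lit 152) (nat_lit 15992208180) (nat_lit 228) (nat_lit 2818405055) (nat_lit 20) (nat_lit 5) (nat_lit 22) (nat_lit 5) (nat_lit 23) (nat_lit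 5) (nat_lit 287) (nat_lit 260) (nat_lit 173)) (XT.lf (nat_lit 0) (nat_lit 11472804931) (nat_lit 228) (nat_lit 55516983320) (nat_lit 76) (nat_lit 9382042516) (nat_lit 17) (nat_lit 5) (nat_lit 20) (nat_lit 5) (nat_lit 18) (nat_lit 5) (nat_lit 288) (nat_lit 260) (nat_lit 172)))))) (XT.nd (nat_lit 390) (nat_lit 228) (nat_lit 0) (XT.nd (nat_lit 156) (nat_lit 152) (nat_lit 0) (XT.nd (nat_lit 78) (nat_lit 152) (nat_lit 0) (XT.lf (nat_lit 0) (nat_lit 27407831950) (nat_lit 228) (nat_lit 17071832851) (nat_lit 76) (nat_lit 36611522692) (nat_lit 17) (nat_lit 5) (nat_lit 20) (nat_lit 5) (nat_lit 18) (nat_lit 5) (nat_lit 289) (nat_lit 260) (nat_lit 171)) (XT.lf (nat_lit 0) (nat_lit 25250167871) (nat_lit 152) (nat_lit 19757316472) (nat_lit 228) (nat_lit 41161126866) (nat_lit 15) (nat_lit 5) (nat_lit 17) (nat_lit 5) (nat_lit 18) (nat_lit 5) (nat_lit 290) (nat_lit 260) (nat_lit 170))) (XT.nd (nat_lit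 78) (nat_lit 152) (nat_lit 0) (XT.lf (nat_lit 0) (nat_lit 64421543081) (nat_lit 228) (nat_lit 20189877113) (nat_lit 76) (nat_lit 7020495821) (nat_lit 15) (nat_lit 5) (nat_lit 18) (nat_lit 5) (nat_lit 16) (nat_lit 4) (nat_lit 291) (nat_lit 260) (nat_lit 169)) (XT.nd (nat_lit 78) (nat_lit 76) (nat_lit 0) (XT.lf (nat_lit 0) (nat_lit 24233142184) (nat_lit 76) (nat_lit 61863170373) (nat_lit 152) (nat_lit 11400601586) (nat_lit 14) (nat_lit 5) (nat_lit 15) (nat_lit 5) (nat_lit 16) (nat_lit 4) (nat_lit 292) (nat_lit 260) (nat_lit 168)) (XT.lf (nat_lit 0) (nat_lit 5846031052) (nat_lit 152) (nat_lit 30983060234) (nat_lit 76) (nat_lit 66979914715) (nat_lit 13) (nat_lit 5) (nat_lit 15) (nat_lit 5) (nat_lit 14) (nat_lit 5) (nat_lit 293) (nat_lit 260) (nat_lit 167))))) (XT.nd (nat_lit 156) (nat_lit 76) (nat_lit 0) (XT.nd (nat_lit 78) (nat_lit 0) (nat_lit 0) (XT.lf (nat_lit 0) (nat_lit 14961017510)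 (nat_lit 152) (nat_lit 9347379765) (nat_lit 228) (nat_lit 86296558680) (nat_lit 11) (nat_lit 5) (nat_lit 13) (nat_lit 5) (nat_lit 14) (nat_lit 5) (nat_lit 294) (nat_lit 260) (nat_lit 166)) (XT.lf (nat_lit 0) (nat_lit 45110400415) (nat_lit 228) (nat_lit 52562474149) (nat_lit 76) (nat_lit 20228581192) (nat_lit 11) (nat_lit 5) (nat_lit 14) (nat_lit 5) (nat_lit 12) (nat_lit 4) (nat_lit 295) (nat_lit 260) (nat_lit 165))) (XT.nd (nat_lit 78) (nat_lit 76) (nat_lit 0) (XT.lf (nat_lit 0) (nat_lit 67731068456) (nat_lit 228) (nat_lit 6197285647) (nat_lit 76) (nat_lit 51845601973) (nat_lit 11) (nat_lit 5) (nat_lit 14) (nat_lit 5) (nat_lit 12) (nat_lit 4) (nat_lit 296) (nat_lit 260) (nat_lit 164)) (XT.nd (nat_lit 78) (nat_lit 0) (nat_lit 0) (XT.lf (nat_lit 0) (nat_lit 45322939640) (nat_lit 76) (nat_lit 47543189472) (nat_lit 152) (nat_lit 41374895693) (nat_lit 10) (nat_lit 5) (nat_lit 11) (nat_lit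 5) (nat_lit 12) (nat_lit 4) (nat_lit 297) (nat_lit 260) (nat_lit 163)) (XT.lf (nat_lit 0) (nat_lit 101181499016) (nat_lit 76) (nat_lit 18935711028) (nat_lit 152) (nat_lit 23262993163) (nat_lit 10) (nat_lit 5) (nat_lit 11) (nat_lit 5) (nat_lit 12) (nat_lit 4) (nat_lit 298) (nat_lit 260) (nat_lit 162))))))))
noncomputable def xc89 : XT := (XT.nd (nat_lit 1404) (nat_lit 76) (nat_lit 0) (XT.nd (nat_lit 702) (nat_lit 152) (nat_lit 0) (XT.nd (nat_lit 312) (nat_lit 76) (nat_lit 0) (XT.nd (nat_lit 156) (nat_lit 76) (nat_lit 0) (XT.nd (nat_lit 78) (nat_lit 76) (nat_lit 0) (XT.lf (nat_lit 0) (nat_lit 8333876741) (nat_lit 76) (nat_lit 141528789436) (nat_lit 76) (nat_lit 3372139846) (nat_lit 9) (nat_lit 4) (nat_lit 10) (nat_lit 5) (nat_lit 10) (nat_lit 4) (nat_lit 299) (nat_lit 260) (nat_lit 161)) (XT.lf (nat_lit 0) (nat_lit 18594283910) (nat_lit 152) (nat_lit 100043394464) (nat_lit 76) (nat_lit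 45172768616) (nat_lit 8) (nat_lit 5) (nat_lit 10) (nat_lit 5) (nat_lit 9) (nat_lit 4) (nat_lit 300) (nat_lit 260) (nat_lit 160))) (XT.nd (nat_lit 78) (nat_lit 76) (nat_lit 0) (XT.lf (nat_lit 0) (nat_lit 42199160831) (nat_lit 152) (nat_lit 51658051305) (nat_lit 76) (nat_lit 81372202658) (nat_lit 8) (nat_lit 5) (nat_lit 10) (nat_lit 5) (nat_lit 9) (nat_lit 4) (nat_lit 301) (nat_lit 260) (nat_lit 159)) (XT.lf (nat_lit 0) (nat_lit 614132790) (nat_lit 76) (nat_lit 67085756746) (nat_lit 152) (nat_lit 119861640868) (nat_lit 7) (nat_lit 5) (nat_lit 8) (nat_lit 5) (nat_lit 9) (nat_lit 4) (nat_lit 302) (nat_lit 260) (nat_lit 158)))) (XT.nd (nat_lit 156) (nat_lit 76) (nat_lit 0) (XT.nd (nat_lit 78) (nat_lit 0) (nat_lit 0) (XT.lf (nat_lit 0) (nat_lit 58909299666) (nat_lit 76) (nat_lit 37229203228) (nat_lit 152) (nat_lit 104696824256) (nat_lit 7) (nat_lit 5) (nat_lit 8) (nat_lit 5) (nat_lit 9) (nat_lit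 4) (nat_lit 303) (nat_lit 260) (nat_lit 157)) (XT.lf (nat_lit 0) (nat_lit 121864853691) (nat_lit 76) (nat_lit 4985477954) (nat_lit 152) (nat_lit 88320792642) (nat_lit 7) (nat_lit 5) (nat_lit 8) (nat_lit 5) (nat_lit 9) (nat_lit 4) (nat_lit 304) (nat_lit 260) (nat_lit 156))) (XT.nd (nat_lit 78) (nat_lit 76) (nat_lit 0) (XT.lf (nat_lit 0) (nat_lit 160483203086) (nat_lit 152) (nat_lit 41265841146) (nat_lit 0) (nat_lit 28881538894) (nat_lit 7) (nat_lit 5) (nat_lit 9) (nat_lit 4) (nat_lit 7) (nat_lit 4) (nat_lit 305) (nat_lit 260) (nat_lit 155)) (XT.nd (nat_lit 78) (nat_lit 0) (nat_lit 0) (XT.lf (nat_lit 0) (nat_lit 15341966427) (nat_lit 76) (nat_lit 181786708691) (nat_lit 76) (nat_lit 50182027552) (nat_lit 6) (nat_lit 4) (nat_lit 7) (nat_lit 5) (nat_lit 7) (nat_lit 4) (nat_lit 306) (nat_lit 260) (nat_lit 154)) (XT.lf (nat_lit 0) (nat_lit 77949280794) (nat_lit 76) (nat_lit 159473782027) (nat_lit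 76) (nat_lit 27866307418) (nat_lit 6) (nat_lit 4) (nat_lit 7) (nat_lit 5) (nat_lit 7) (nat_lit 4) (nat_lit 307) (nat_lit 260) (nat_lit 153)))))) (XT.nd (nat_lit 312) (nat_lit 0) (nat_lit 0) (XT.nd (nat_lit 156) (nat_lit 76) (nat_lit 0) (XT.nd (nat_lit 78) (nat_lit 76) (nat_lit 0) (XT.lf (nat_lit 0) (nat_lit 145562673194) (nat_lit 76) (nat_lit 135376896476) (nat_lit 76) (nat_lit 3766835321) (nat_lit 6) (nat_lit 4) (nat_lit 7) (nat_lit 5) (nat_lit 7) (nat_lit 4) (nat_lit 308) (nat_lit 260) (nat_lit 152)) (XT.lf (nat_lit 0) (nat_lit 21546766999) (nat_lit 152) (nat_lit 87441583754) (nat_lit 76) (nat_lit 196671143654) (nat_lit 5) (nat_lit 5) (nat_lit 7) (nat_lit 5) (nat_lit 6) (nat_lit 4) (nat_lit 309) (nat_lit 260) (nat_lit 151))) (XT.nd (nat_lit 78) (nat_lit 76) (nat_lit 0) (XT.lf (nat_lit 0) (nat_lit 48754000738) (nat_lit 152) (nat_lit 31668972137) (nat_lit 76) (nat_lit 247862746575) (nat_lit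 5) (nat_lit 5) (nat_lit 7) (nat_lit 5) (nat_lit 6) (nat_lit 4) (nat_lit 310) (nat_lit 260) (nat_lit 150)) (XT.lf (nat_lit 0) (nat_lit 29507853878) (nat_lit 76) (nat_lit 49089502615) (nat_lit 152) (nat_lit 274101710485) (nat_lit 4) (nat_lit 5) (nat_lit 5) (nat_lit 5) (nat_lit 6) (nat_lit 4) (nat_lit 311) (nat_lit 260) (nat_lit 149)))) (XT.nd (nat_lit 156) (nat_lit 0) (nat_lit 0) (XT.nd (nat_lit 78) (nat_lit 0) (nat_lit 0) (XT.lf (nat_lit 0) (nat_lit 96707772845) (nat_lit 76) (nat_lit 14670959333) (nat_lit 152) (nat_lit 267659224084) (nat_lit 4) (nat_lit 5) (nat_lit 5) (nat_lit 5) (nat_lit 6) (nat_lit 4) (nat_lit 312) (nat_lit 260) (nat_lit 148)) (XT.lf (nat_lit 0) (nat_lit 147132890499) (nat_lit 152) (nat_lit 238553414410) (nat_lit 0) (nat_lit 21780139565) (nat_lit 4) (nat_lit 5) (nat_lit 6) (nat_lit 4) (nat_lit 4) (nat_lit 4) (nat_lit 313) (nat_lit 260) (nat_lit 147))) (XT.nd (nat_lit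 78) (nat_lit 0) (nat_lit 0) (XT.lf (nat_lit 0) (nat_lit 185993804973) (nat_lit 152) (nat_lit 191523585213) (nat_lit 0) (nat_lit 60639501693) (nat_lit 4) (nat_lit 5) (nat_lit 6) (nat_lit 4) (nat_lit 4) (nat_lit 4) (nat_lit 314) (nat_lit 260) (nat_lit 146)) (XT.nd (nat_lit 78) (nat_lit 0) (nat_lit 0) (XT.lf (nat_lit 0) (nat_lit 227962707709) (nat_lit 152) (nat_lit 140732945751) (nat_lit 0) (nat_lit 102606967072) (nat_lit 4) (nat_lit 5) (nat_lit 6) (nat_lit 4) (nat_lit 4) (nat_lit 4) (nat_lit 315) (nat_lit 260) (nat_lit 145)) (XT.lf (nat_lit 0) (nat_lit 273288303317) (nat_lit 152) (nat_lit 85880514457) (nat_lit 0) (nat_lit 147931231795) (nat_lit 4) (nat_lit 5) (nat_lit 6) (nat_lit 4) (nat_lit 4) (nat_lit 4) (nat_lit 316) (nat_lit 260) (nat_lit 144))))))) (XT.nd (nat_lit 33462) (nat_lit 0) (nat_lit 3344) (XT.nd (nat_lit 312) (nat_lit 0) (nat_lit 0) (XT.nd (nat_lit 156) (nat_lit 0) (nat_lit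 0) (XT.nd (nat_lit 78) (nat_lit 76) (nat_lit 0) (XT.lf (nat_lit 0) (nat_lit 322239187919) (nat_lit 152) (nat_lit 26641239887) (nat_lit 0) (nat_lit 196880884095) (nat_lit 4) (nat_lit 5) (nat_lit 6) (nat_lit 4) (nat_lit 4) (nat_lit 4) (nat_lit 317) (nat_lit 260) (nat_lit 143)) (XT.lf (nat_lit 0) (nat_lit 38570419824) (nat_lit 76) (nat_lit 337137213354) (nat_lit 76) (nat_lit 211777768509) (nat_lit 3) (nat_lit 4) (nat_lit 4) (nat_lit 5) (nat_lit 4) (nat_lit 4) (nat_lit 318) (nat_lit 260) (nat_lit 142))) (XT.nd (nat_lit 78) (nat_lit 0) (nat_lit 0) (XT.lf (nat_lit 0) (nat_lit 109949165632) (nat_lit 76) (nat_lit 323967792527) (nat_lit 76) (nat_lit 198607291183) (nat_lit 3) (nat_lit 4) (nat_lit 4) (nat_lit 5) (nat_lit 4) (nat_lit 4) (nat_lit 319) (nat_lit 260) (nat_lit 141)) (XT.lf (nat_lit 0) (nat_lit 187037102991) (nat_lit 76) (nat_lit 309745306603) (nat_lit 76) (nat_lit 184383827018) (nat_lit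 3) (nat_lit 4) (nat_lit 4) (nat_lit 5) (nat_lit 4) (nat_lit 4) (nat_lit 320) (nat_lit 260) (nat_lit 140)))) (XT.nd (nat_lit 32916) (nat_lit 0) (nat_lit 4712) (XT.nd (nat_lit 32838) (nat_lit 0) (nat_lit 4712) (XT.lf (nat_lit 0) (nat_lit 270291049307) (nat_lit 76) (nat_lit 294385474183) (nat_lit 76) (nat_lit 169023088819) (nat_lit 3) (nat_lit 4) (nat_lit 4) (nat_lit 5) (nat_lit 4) (nat_lit 4) (nat_lit 321) (nat_lit 260) (nat_lit 139)) (XT.lf (nat_lit 0) (nat_lit 905407385) (nat_lit 0) (nat_lit 905407385) (nat_lit 684) (nat_lit 8594556135) (nat_lit 65) (nat_lit 5) (nat_lit 65) (nat_lit 3) (nat_lit 74) (nat_lit 3) (nat_lit 261) (nat_lit 261) (nat_lit 198))) (XT.nd (nat_lit 78) (nat_lit 0) (nat_lit 76) (XT.lf (nat_lit 0) (nat_lit 4176368664) (nat_lit 684) (nat_lit 5462558995) (nat_lit 760) (nat_lit 11982886400) (nat_lit 65) (nat_lit 5) (nat_lit 74) (nat_lit 3) (nat_lit 75) (nat_lit 5) (nat_lit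 262) (nat_lit 261) (nat_lit 197)) (XT.nd (nat_lit 78) (nat_lit 0) (nat_lit 0) (XT.lf (nat_lit 0) (nat_lit 5001559219) (nat_lit 684) (nat_lit 13143601979) (nat_lit 760) (nat_lit 4341393684) (nat_lit 66) (nat_lit 5) (nat_lit 75) (nat_lit 5) (nat_lit 76) (nat_lit 5) (nat_lit 263) (nat_lit 261) (nat_lit 196)) (XT.lf (nat_lit 76) (nat_lit 1999293034) (nat_lit 0) (nat_lit 4163971965) (nat_lit 760) (nat_lit 17243764986) (nat_lit 67) (nat_lit 5) (nat_lit 66) (nat_lit 5) (nat_lit 76) (nat_lit 5) (nat_lit 264) (nat_lit 261) (nat_lit 195)))))) (XT.nd (nat_lit 390) (nat_lit 988) (nat_lit 0) (XT.nd (nat_lit 156) (nat_lit 532) (nat_lit 0) (XT.nd (nat_lit 78) (nat_lit 0) (nat_lit 76) (XT.lf (nat_lit 0) (nat_lit 7802777870) (nat_lit 684) (nat_lit 5754622362) (nat_lit 760) (nat_lit 10824573421) (nat_lit 67) (nat_lit 5) (nat_lit 76) (nat_lit 5) (nat_lit 77) (nat_lit 5) (nat_lit 265) (nat_lit 261) (nat_lit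 194)) (XT.lf (nat_lit 0) (nat_lit 9830419428) (nat_lit 684) (nat_lit 14014764987) (nat_lit 760) (nat_lit 1576948614) (nat_lit 68) (nat_lit 5) (nat_lit 77) (nat_lit 5) (nat_lit 78) (nat_lit 5) (nat_lit 266) (nat_lit 261) (nat_lit 193))) (XT.nd (nat_lit 78) (nat_lit 608) (nat_lit 0) (XT.lf (nat_lit 76) (nat_lit 3475500201) (nat_lit 0) (nat_lit 8913479438) (nat_lit 760) (nat_lit 14138153668) (nat_lit 69) (nat_lit 5) (nat_lit 68) (nat_lit 5) (nat_lit 78) (nat_lit 5) (nat_lit 267) (nat_lit 261) (nat_lit 192)) (XT.nd (nat_lit 78) (nat_lit 684) (nat_lit 0) (XT.lf (nat_lit 0) (nat_lit 15497964310) (nat_lit 684) (nat_lit 4972601242) (nat_lit 76) (nat_lit 7232739884) (nat_lit 69) (nat_lit 5) (nat_lit 78) (nat_lit 5) (nat_lit 70) (nat_lit 5) (nat_lit 268) (nat_lit 261) (nat_lit 191)) (XT.lf (nat_lit 0) (nat_lit 14866125732) (nat_lit 684) (nat_lit 4358050666) (nat_lit 760) (nat_lit 9731023963) (nat_lit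 60) (nat_lit 5) (nat_lit 69) (nat_lit 5) (nat_lit 70) (nat_lit 5) (nat_lit 269) (nat_lit 261) (nat_lit 190))))) (XT.nd (nat_lit 156) (nat_lit 684) (nat_lit 0) (XT.nd (nat_lit 78) (nat_lit 0) (nat_lit 0) (XT.lf (nat_lit 0) (nat_lit 6145911294) (nat_lit 304) (nat_lit 17477192839) (nat_lit 380) (nat_lit 6665462234) (nat_lit 56) (nat_lit 5) (nat_lit 60) (nat_lit 5) (nat_lit 61) (nat_lit 5) (nat_lit 270) (nat_lit 261) (nat_lit 189)) (XT.lf (nat_lit 0) (nat_lit 28415097931) (nat_lit 304) (nat_lit 264329707) (nat_lit 380) (nat_lit 3033946627) (nat_lit 56) (nat_lit 5) (nat_lit 60) (nat_lit 5) (nat_lit 61) (nat_lit 5) (nat_lit 271) (nat_lit 261) (nat_lit 188))) (XT.nd (nat_lit 78) (nat_lit 304) (nat_lit 0) (XT.lf (nat_lit 0) (nat_lit 1449012911) (nat_lit 380) (nat_lit 13705141705) (nat_lit 76) (nat_lit 18067892712) (nat_lit 51) (nat_lit 5) (nat_lit 56) (nat_lit 5) (nat_lit 52) (nat_lit 5) (nat_lit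 272) (nat_lit 261) (nat_lit 187)) (XT.nd (nat_lit 78) (nat_lit 0) (nat_lit 0) (XT.lf (nat_lit 0) (nat_lit 6439857817) (nat_lit 380) (nat_lit 25221966122) (nat_lit 76) (nat_lit 3174364411) (nat_lit 47) (nat_lit 5) (nat_lit 52) (nat_lit 5) (nat_lit 48) (nat_lit 5) (nat_lit 273) (nat_lit 261) (nat_lit 186)) (XT.lf (nat_lit 0) (nat_lit 12317894932) (nat_lit 380) (nat_lit 1549900400) (nat_lit 76) (nat_lit 22687304389) (nat_lit 47) (nat_lit 5) (nat_lit 52) (nat_lit 5) (nat_lit 48) (nat_lit 5) (nat_lit 274) (nat_lit 261) (nat_lit 185))))))))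
noncomputable def xc90 : XT := (XT.nd (nat_lit 1404) (nat_lit 760) (nat_lit 0) (XT.nd (nat_lit 702) (nat_lit 988) (nat_lit 0) (XT.nd (nat_lit 312) (nat_lit 608) (nat_lit 0) (XT.nd (nat_lit 156) (nat_lit 304) (nat_lit 0) (XT.nd (nat_lit 78) (nat_lit 228) (nat_lit 0) (XT.lf (nat_lit 0) (nat_lit 19133720291) (nat_lit 380) (nat_lit 13683499352) (nat_lit 76) (nat_lit 5570959777) (nat_lit 43) (nat_lit 5) (nat_lit 48) (nat_lit 5) (nat_lit 44) (nat_lit 5) (nat_lit 275) (nat_lit 261) (nat_lit 184)) (XT.lf (nat_lit 0) (nat_lit 12916937471) (nat_lit 228) (nat_lit 14031855112) (nat_lit 304) (nat_lit 13396444127) (nat_lit 40) (nat_lit 5) (nat_lit 43) (nat_lit 5) (nat_lit 44) (nat_lit 5) (nat_lit 276) (nat_lit 261) (nat_lit 183))) (XT.nd (nat_lit 78) (nat_lit 304) (nat_lit 0) (XT.lf (nat_lit 0) (nat_lit 35720527870) (nat_lit 304) (nat_lit 425071427) (nat_lit 76) (nat_lit 6296714446) (nat_lit 40) (nat_lit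 5) (nat_lit 44) (nat_lit 5) (nat_lit 41) (nat_lit 5) (nat_lit 277) (nat_lit 261) (nat_lit 182)) (XT.lf (nat_lit 0) (nat_lit 1170814244) (nat_lit 304) (nat_lit 15257568564) (nat_lit 76) (nat_lit 28243441224) (nat_lit 36) (nat_lit 5) (nat_lit 40) (nat_lit 5) (nat_lit 37) (nat_lit 5) (nat_lit 278) (nat_lit 261) (nat_lit 181)))) (XT.nd (nat_lit 156) (nat_lit 380) (nat_lit 0) (XT.nd (nat_lit 78) (nat_lit 0) (nat_lit 0) (XT.lf (nat_lit 0) (nat_lit 9777296651) (nat_lit 304) (nat_lit 32212775704) (nat_lit 76) (nat_lit 5068237364) (nat_lit 33) (nat_lit 5) (nat_lit 37) (nat_lit 5) (nat_lit 34) (nat_lit 5) (nat_lit 279) (nat_lit 261) (nat_lit 180)) (XT.lf (nat_lit 0) (nat_lit 19612260613) (nat_lit 304) (nat_lit 2011643924) (nat_lit 76) (nat_lit 27984832757) (nat_lit 33) (nat_lit 5) (nat_lit 37) (nat_lit 5) (nat_lit 34) (nat_lit 5) (nat_lit 280) (nat_lit 261) (nat_lit 179))) (XT.nd (nat_lit 78) (nat_lit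 152) (nat_lit 0) (XT.lf (nat_lit 0) (nat_lit 30734722103) (nat_lit 304) (nat_lit 20744356429) (nat_lit 76) (nat_lit 859105138) (nat_lit 30) (nat_lit 5) (nat_lit 34) (nat_lit 5) (nat_lit 31) (nat_lit 5) (nat_lit 281) (nat_lit 261) (nat_lit 178)) (XT.nd (nat_lit 78) (nat_lit 0) (nat_lit 0) (XT.lf (nat_lit 0) (nat_lit 12708102844) (nat_lit 152) (nat_lit 30631195896) (nat_lit 228) (nat_lit 11917089265) (nat_lit 28) (nat_lit 5) (nat_lit 30) (nat_lit 5) (nat_lit 31) (nat_lit 5) (nat_lit 282) (nat_lit 261) (nat_lit 177)) (XT.lf (nat_lit 0) (nat_lit 49569134319) (nat_lit 152) (nat_lit 7738472522) (nat_lit 228) (nat_lit 1082690397) (nat_lit 28) (nat_lit 5) (nat_lit 30) (nat_lit 5) (nat_lit 31) (nat_lit 5) (nat_lit 283) (nat_lit 261) (nat_lit 176)))))) (XT.nd (nat_lit 312) (nat_lit 380) (nat_lit 0) (XT.nd (nat_lit 156) (nat_lit 152) (nat_lit 0) (XT.nd (nat_lit 78) (nat_lit 152) (nat_lit 0) (XT.lf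 (nat_lit 0) (nat_lit 10990506407) (nat_lit 304) (nat_lit 33682595645) (nat_lit 76) (nat_lit 17057947637) (nat_lit 24) (nat_lit 5) (nat_lit 28) (nat_lit 5) (nat_lit 25) (nat_lit 5) (nat_lit 284) (nat_lit 261) (nat_lit 175)) (XT.lf (nat_lit 0) (nat_lit 2781138456) (nat_lit 152) (nat_lit 21535692937) (nat_lit 228) (nat_lit 41005096991) (nat_lit 22) (nat_lit 5) (nat_lit 24) (nat_lit 5) (nat_lit 25) (nat_lit 5) (nat_lit 285) (nat_lit 261) (nat_lit 174))) (XT.nd (nat_lit 78) (nat_lit 152) (nat_lit 0) (XT.lf (nat_lit 0) (nat_lit 39354373272) (nat_lit 228) (nat_lit 25877264969) (nat_lit 76) (nat_lit 3936196303) (nat_lit 22) (nat_lit 5) (nat_lit 25) (nat_lit 5) (nat_lit 23) (nat_lit 5) (nat_lit 286) (nat_lit 261) (nat_lit 173)) (XT.lf (nat_lit 0) (nat_lit 13790399983) (nat_lit 152) (nat_lit 42378194240) (nat_lit 228) (nat_lit 17124146960) (nat_lit 20) (nat_lit 5) (nat_lit 22) (nat_lit 5) (nat_lit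 23) (nat_lit 5) (nat_lit 287) (nat_lit 261) (nat_lit 172)))) (XT.nd (nat_lit 156) (nat_lit 152) (nat_lit 0) (XT.nd (nat_lit 78) (nat_lit 228) (nat_lit 0) (XT.lf (nat_lit 0) (nat_lit 57548669573) (nat_lit 152) (nat_lit 17225531729) (nat_lit 228) (nat_lit 2951137527) (nat_lit 20) (nat_lit 5) (nat_lit 22) (nat_lit 5) (nat_lit 23) (nat_lit 5) (nat_lit 288) (nat_lit 261) (nat_lit 171)) (XT.lf (nat_lit 0) (nat_lit 12476523759) (nat_lit 228) (nat_lit 59823240911) (nat_lit 76) (nat_lit 10177330311) (nat_lit 17) (nat_lit 5) (nat_lit 20) (nat_lit 5) (nat_lit 18) (nat_lit 5) (nat_lit 289) (nat_lit 261) (nat_lit 170))) (XT.nd (nat_lit 78) (nat_lit 152) (nat_lit 0) (XT.lf (nat_lit 0) (nat_lit 29679990390) (nat_lit 228) (nat_lit 18312485892) (nat_lit 76) (nat_lit 39581855983) (nat_lit 17) (nat_lit 5) (nat_lit 20) (nat_lit 5) (nat_lit 18) (nat_lit 5) (nat_lit 290) (nat_lit 261) (nat_lit 169)) (XT.nd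 (nat_lit 78) (nat_lit 0) (nat_lit 0) (XT.lf (nat_lit 0) (nat_lit 27389838474) (nat_lit 152) (nat_lit 21293753433) (nat_lit 228) (nat_lit 44374571985) (nat_lit 15) (nat_lit 5) (nat_lit 17) (nat_lit 5) (nat_lit 18) (nat_lit 5) (nat_lit 291) (nat_lit 261) (nat_lit 168)) (XT.lf (nat_lit 0) (nat_lit 69645820320) (nat_lit 228) (nat_lit 21691267182) (nat_lit 76) (nat_lit 7621705240) (nat_lit 15) (nat_lit 5) (nat_lit 18) (nat_lit 5) (nat_lit 16) (nat_lit 4) (nat_lit 292) (nat_lit 261) (nat_lit 167))))))) (XT.nd (nat_lit 702) (nat_lit 228) (nat_lit 0) (XT.nd (nat_lit 312) (nat_lit 228) (nat_lit 0) (XT.nd (nat_lit 156) (nat_lit 152) (nat_lit 0) (XT.nd (nat_lit 78) (nat_lit 76) (nat_lit 0) (XT.lf (nat_lit 0) (nat_lit 26280648045) (nat_lit 76) (nat_lit 66770396626) (nat_lit 152) (nat_lit 12242133411) (nat_lit 14) (nat_lit 5) (nat_lit 15) (nat_lit 5) (nat_lit 16) (nat_lit 4) (nat_lit 293) (nat_lit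 261) (nat_lit 166)) (XT.lf (nat_lit 0) (nat_lit 6376916629) (nat_lit 152) (nat_lit 33358702533) (nat_lit 76) (nat_lit 72374825616) (nat_lit 13) (nat_lit 5) (nat_lit 15) (nat_lit 5) (nat_lit 14) (nat_lit 5) (nat_lit 294) (nat_lit 261) (nat_lit 165))) (XT.nd (nat_lit 78) (nat_lit 0) (nat_lit 0) (XT.lf (nat_lit 0) (nat_lit 16256425067) (nat_lit 152) (nat_lit 10056703642) (nat_lit 228) (nat_lit 93137108195) (nat_lit 11) (nat_lit 5) (nat_lit 13) (nat_lit 5) (nat_lit 14) (nat_lit 5) (nat_lit 295) (nat_lit 261) (nat_lit 164)) (XT.lf (nat_lit 0) (nat_lit 48775399320) (nat_lit 228) (nat_lit 56673915493) (nat_lit 76) (nat_lit 21881344850) (nat_lit 11) (nat_lit 5) (nat_lit 14) (nat_lit 5) (nat_lit 12) (nat_lit 4) (nat_lit 296) (nat_lit 261) (nat_lit 163)))) (XT.nd (nat_lit 156) (nat_lit 152) (nat_lit 0) (XT.nd (nat_lit 78) (nat_lit 76) (nat_lit 0) (XT.lf (nat_lit 0) (nat_lit 73201560295) (nat_lit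 228) (nat_lit 6606442029) (nat_lit 76) (nat_lit 56025173430) (nat_lit 11) (nat_lit 5) (nat_lit 14) (nat_lit 5) (nat_lit 12) (nat_lit 4) (nat_lit 297) (nat_lit 261) (nat_lit 162)) (XT.lf (nat_lit 0) (nat_lit 49031636600) (nat_lit 76) (nat_lit 51313230585) (nat_lit 152) (nat_lit 44632877875) (nat_lit 10) (nat_lit 5) (nat_lit 11) (nat_lit 5) (nat_lit 12) (nat_lit 4) (nat_lit 298) (nat_lit 261) (nat_lit 161))) (XT.nd (nat_lit 78) (nat_lit 152) (nat_lit 0) (XT.lf (nat_lit 0) (nat_lit 109352742816) (nat_lit 76) (nat_lit 20419628980) (nat_lit 152) (nat_lit 25075875696) (nat_lit 10) (nat_lit 5) (nat_lit 11) (nat_lit 5) (nat_lit 12) (nat_lit 4) (nat_lit 299) (nat_lit 261) (nat_lit 160)) (XT.nd (nat_lit 78) (nat_lit 76) (nat_lit 0) (XT.lf (nat_lit 0) (nat_lit 9075783271) (nat_lit 76) (nat_lit 152819910960) (nat_lit 76) (nat_lit 3595618939) (nat_lit 9) (nat_lit 4) (nat_lit 10) (nat_lit 5) (nat_lit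 10) (nat_lit 4) (nat_lit 300) (nat_lit 261) (nat_lit 159)) (XT.lf (nat_lit 0) (nat_lit 20123317788) (nat_lit 152) (nat_lit 107975800303) (nat_lit 76) (nat_lit 48814022555) (nat_lit 8) (nat_lit 5) (nat_lit 10) (nat_lit 5) (nat_lit 9) (nat_lit 4) (nat_lit 301) (nat_lit 261) (nat_lit 158)))))) (XT.nd (nat_lit 390) (nat_lit 152) (nat_lit 0) (XT.nd (nat_lit 156) (nat_lit 0) (nat_lit 0) (XT.nd (nat_lit 78) (nat_lit 76) (nat_lit 0) (XT.lf (nat_lit 0) (nat_lit 45613511443) (nat_lit 152) (nat_lit 55724893819) (nat_lit 76) (nat_lit 87907379287) (nat_lit 8) (nat_lit 5) (nat_lit 10) (nat_lit 5) (nat_lit 9) (nat_lit 4) (nat_lit 302) (nat_lit 261) (nat_lit 157)) (XT.lf (nat_lit 0) (nat_lit 726205348) (nat_lit 76) (nat_lit 72426230038) (nat_lit 152) (nat_lit 129412131807) (nat_lit 7) (nat_lit 5) (nat_lit 8) (nat_lit 5) (nat_lit 9) (nat_lit 4) (nat_lit 303) (nat_lit 261) (nat_lit 156))) (XT.nd (nat_lit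 78) (nat_lit 0) (nat_lit 0) (XT.lf (nat_lit 0) (nat_lit 63680323208) (nat_lit 76) (nat_lit 40183106850) (nat_lit 152) (nat_lit 113036977298) (nat_lit 7) (nat_lit 5) (nat_lit 8) (nat_lit 5) (nat_lit 9) (nat_lit 4) (nat_lit 304) (nat_lit 261) (nat_lit 155)) (XT.nd (nat_lit 78) (nat_lit 0) (nat_lit 0) (XT.lf (nat_lit 0) (nat_lit 131668004550) (nat_lit 76) (nat_lit 5361693379) (nat_lit 152) (nat_lit 95353499666) (nat_lit 7) (nat_lit 5) (nat_lit 8) (nat_lit 5) (nat_lit 9) (nat_lit 4) (nat_lit 305) (nat_lit 261) (nat_lit 154)) (XT.lf (nat_lit 0) (nat_lit 173351204663) (nat_lit 152) (nat_lit 44515973258) (nat_lit 0) (nat_lit 31212338617) (nat_lit 7) (nat_lit 5) (nat_lit 9) (nat_lit 4) (nat_lit 7) (nat_lit 4) (nat_lit 306) (nat_lit 261) (nat_lit 153))))) (XT.nd (nat_lit 156) (nat_lit 76) (nat_lit 0) (XT.nd (nat_lit 78) (nat_lit 0) (nat_lit 0) (XT.lf (nat_lit 0) (nat_lit 16618236648) (nat_lit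 76) (nat_lit 196308667750) (nat_lit 76) (nat_lit 54167215157) (nat_lit 6) (nat_lit 4) (nat_lit 7) (nat_lit 5) (nat_lit 7) (nat_lit 4) (nat_lit 307) (nat_lit 261) (nat_lit 152)) (XT.lf (nat_lit 0) (nat_lit 84230512987) (nat_lit 76) (nat_lit 172212260851) (nat_lit 76) (nat_lit 30068413309) (nat_lit 6) (nat_lit 4) (nat_lit 7) (nat_lit 5) (nat_lit 7) (nat_lit 4) (nat_lit 308) (nat_lit 261) (nat_lit 151))) (XT.nd (nat_lit 78) (nat_lit 76) (nat_lit 0) (XT.lf (nat_lit 0) (nat_lit 157249621983) (nat_lit 76) (nat_lit 146189063251) (nat_lit 76) (nat_lit 4042998163) (nat_lit 6) (nat_lit 4) (nat_lit 7) (nat_lit 5) (nat_lit 7) (nat_lit 4) (nat_lit 309) (nat_lit 261) (nat_lit 150)) (XT.nd (nat_lit 78) (nat_lit 0) (nat_lit 0) (XT.lf (nat_lit 0) (nat_lit 23293080525) (nat_lit 152) (nat_lit 94397303293) (nat_lit 76) (nat_lit 212420709352) (nat_lit 5) (nat_lit 5) (nat_lit 7) (nat_lit 5) (nat_lit 6) (nat_lit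 4) (nat_lit 310) (nat_lit 261) (nat_lit 149)) (XT.lf (nat_lit 0) (nat_lit 52675220950) (nat_lit 152) (nat_lit 34165816610) (nat_lit 76) (nat_lit 267706464639) (nat_lit 5) (nat_lit 5) (nat_lit 7) (nat_lit 5) (nat_lit 6) (nat_lit 4) (nat_lit 311) (nat_lit 261) (nat_lit 148))))))))
noncomputable def xc91 : XT := (XT.nd (nat_lit 34398) (nat_lit 0) (nat_lit 1064) (XT.nd (nat_lit 33618) (nat_lit 0) (nat_lit 4028) (XT.nd (nat_lit 312) (nat_lit 76) (nat_lit 0) (XT.nd (nat_lit 156) (nat_lit 0) (nat_lit 0) (XT.nd (nat_lit 78) (nat_lit 0) (nat_lit 0) (XT.lf (nat_lit 0) (nat_lit 31903561708) (nat_lit 76) (nat_lit 53001482987) (nat_lit 152) (nat_lit 296008925066) (nat_lit 4) (nat_lit 5) (nat_lit 5) (nat_lit 5) (nat_lit 6) (nat_lit 4) (nat_lit 312) (nat_lit 261) (nat_lit 147)) (XT.lf (nat_lit 0) (nat_lit 104476875710) (nat_lit 76) (nat_lit 15830580676) (nat_lit 152) (nat_lit 289052589550) (nat_lit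 4) (nat_lit 5) (nat_lit 5) (nat_lit 5) (nat_lit 6) (nat_lit 4) (nat_lit 313) (nat_lit 261) (nat_lit 146))) (XT.nd (nat_lit 78) (nat_lit 0) (nat_lit 0) (XT.lf (nat_lit 0) (nat_lit 158920785700) (nat_lit 152) (nat_lit 257606939025) (nat_lit 0) (nat_lit 23535148455) (nat_lit 4) (nat_lit 5) (nat_lit 6) (nat_lit 4) (nat_lit 4) (nat_lit 4) (nat_lit 314) (nat_lit 261) (nat_lit 145)) (XT.lf (nat_lit 0) (nat_lit 200889294519) (nat_lit 152) (nat_lit 206817001162) (nat_lit 0) (nat_lit 65502326389) (nat_lit 4) (nat_lit 5) (nat_lit 6) (nat_lit 4) (nat_lit 4) (nat_lit 4) (nat_lit 315) (nat_lit 261) (nat_lit 144)))) (XT.nd (nat_lit 156) (nat_lit 76) (nat_lit 0) (XT.nd (nat_lit 78) (nat_lit 0) (nat_lit 0) (XT.lf (nat_lit 0) (nat_lit 246214525389) (nat_lit 152) (nat_lit 151965219496) (nat_lit 0) (nat_lit 110826324957) (nat_lit 4) (nat_lit 5) (nat_lit 6) (nat_lit 4) (nat_lit 4) (nat_lit 4) (nat_lit 316)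 (nat_lit 261) (nat_lit 143)) (XT.lf (nat_lit 0) (nat_lit 295165072271) (nat_lit 152) (nat_lit 92726546433) (nat_lit 0) (nat_lit 159775730819) (nat_lit 4) (nat_lit 5) (nat_lit 6) (nat_lit 4) (nat_lit 4) (nat_lit 4) (nat_lit 317) (nat_lit 261) (nat_lit 142))) (XT.nd (nat_lit 78) (nat_lit 76) (nat_lit 0) (XT.lf (nat_lit 0) (nat_lit 348031012479) (nat_lit 152) (nat_lit 28749937984) (nat_lit 0) (nat_lit 212640614527) (nat_lit 4) (nat_lit 5) (nat_lit 6) (nat_lit 4) (nat_lit 4) (nat_lit 4) (nat_lit 318) (nat_lit 261) (nat_lit 141)) (XT.nd (nat_lit 78) (nat_lit 0) (nat_lit 0) (XT.lf (nat_lit 0) (nat_lit 41677672287) (nat_lit 76) (nat_lit 364098658637) (nat_lit 76) (nat_lit 228707282444) (nat_lit 3) (nat_lit 4) (nat_lit 4) (nat_lit 5) (nat_lit 4) (nat_lit 4) (nat_lit 319) (nat_lit 261) (nat_lit 140)) (XT.lf (nat_lit 0) (nat_lit 118765116362) (nat_lit 76) (nat_lit 349876390203) (nat_lit 76) (nat_lit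 214484108231) (nat_lit 3) (nat_lit 4) (nat_lit 4) (nat_lit 5) (nat_lit 4) (nat_lit 4) (nat_lit 320) (nat_lit 261) (nat_lit 139)))))) (XT.nd (nat_lit 390) (nat_lit 684) (nat_lit 0) (XT.nd (nat_lit 156) (nat_lit 0) (nat_lit 76) (XT.nd (nat_lit 78) (nat_lit 0) (nat_lit 0) (XT.lf (nat_lit 0) (nat_lit 1083536129) (nat_lit 0) (nat_lit 1083536129) (nat_lit 684) (nat_lit 9059315748) (nat_lit 65) (nat_lit 5) (nat_lit 65) (nat_lit 3) (nat_lit 74) (nat_lit 3) (nat_lit 262) (nat_lit 262) (nat_lit 196)) (XT.lf (nat_lit 0) (nat_lit 4898889437) (nat_lit 684) (nat_lit 5679639753) (nat_lit 760) (nat_lit 12752048394) (nat_lit 65) (nat_lit 5) (nat_lit 74) (nat_lit 3) (nat_lit 75) (nat_lit 5) (nat_lit 263) (nat_lit 262) (nat_lit 195))) (XT.nd (nat_lit 78) (nat_lit 0) (nat_lit 0) (XT.lf (nat_lit 0) (nat_lit 5762226579) (nat_lit 684) (nat_lit 13962750317) (nat_lit 760) (nat_lit 4541029844) (nat_lit 66) (nat_lit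 5) (nat_lit 75) (nat_lit 5) (nat_lit 76) (nat_lit 5) (nat_lit 264) (nat_lit 262) (nat_lit 194)) (XT.nd (nat_lit 78) (nat_lit 0) (nat_lit 76) (XT.lf (nat_lit 76) (nat_lit 2381479091) (nat_lit 0) (nat_lit 4612152699) (nat_lit 760) (nat_lit 18267756979) (nat_lit 67) (nat_lit 5) (nat_lit 66) (nat_lit 5) (nat_lit 76) (nat_lit 5) (nat_lit 265) (nat_lit 262) (nat_lit 193)) (XT.lf (nat_lit 0) (nat_lit 8737656707) (nat_lit 684) (nat_lit 5990693368) (nat_lit 760) (nat_lit 11587409440) (nat_lit 67) (nat_lit 5) (nat_lit 76) (nat_lit 5) (nat_lit 77) (nat_lit 5) (nat_lit 266) (nat_lit 262) (nat_lit 192))))) (XT.nd (nat_lit 156) (nat_lit 912) (nat_lit 0) (XT.nd (nat_lit 78) (nat_lit 0) (nat_lit 0) (XT.lf (nat_lit 0) (nat_lit 10906654231) (nat_lit 684) (nat_lit 14904504510) (nat_lit 760) (nat_lit 1629107461) (nat_lit 68) (nat_lit 5) (nat_lit 77) (nat_lit 5) (nat_lit 78) (nat_lit 5) (nat_lit 267) (nat_lit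 262) (nat_lit 191)) (XT.lf (nat_lit 76) (nat_lit 3974923720) (nat_lit 0) (nat_lit 9676965197) (nat_lit 760) (nat_lit 14982763096) (nat_lit 69) (nat_lit 5) (nat_lit 68) (nat_lit 5) (nat_lit 78) (nat_lit 5) (nat_lit 268) (nat_lit 262) (nat_lit 190))) (XT.nd (nat_lit 78) (nat_lit 988) (nat_lit 0) (XT.lf (nat_lit 0) (nat_lit 16988730998) (nat_lit 684) (nat_lit 5151129284) (nat_lit 76) (nat_lit 7766179397) (nat_lit 69) (nat_lit 5) (nat_lit 78) (nat_lit 5) (nat_lit 70) (nat_lit 5) (nat_lit 269) (nat_lit 262) (nat_lit 189)) (XT.nd (nat_lit 78) (nat_lit 304) (nat_lit 0) (XT.lf (nat_lit 0) (nat_lit 16265166205) (nat_lit 684) (nat_lit 4732561267) (nat_lit 760) (nat_lit 10261197222) (nat_lit 60) (nat_lit 5) (nat_lit 69) (nat_lit 5) (nat_lit 70) (nat_lit 5) (nat_lit 270) (nat_lit 262) (nat_lit 188)) (XT.lf (nat_lit 0) (nat_lit 6850745543) (nat_lit 304) (nat_lit 18883324885) (nat_lit 380) (nat_lit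 6965681973) (nat_lit 56) (nat_lit 5) (nat_lit 60) (nat_lit 5) (nat_lit 61) (nat_lit 5) (nat_lit 271) (nat_lit 262) (nat_lit 187))))))) (XT.nd (nat_lit 702) (nat_lit 1216) (nat_lit 0) (XT.nd (nat_lit 312) (nat_lit 1064) (nat_lit 0) (XT.nd (nat_lit 156) (nat_lit 304) (nat_lit 0) (XT.nd (nat_lit 78) (nat_lit 380) (nat_lit 0) (XT.lf (nat_lit 0) (nat_lit 30885677382) (nat_lit 304) (nat_lit 292843322) (nat_lit 380) (nat_lit 3060905653) (nat_lit 56) (nat_lit 5) (nat_lit 60) (nat_lit 5) (nat_lit 61) (nat_lit 5) (nat_lit 272) (nat_lit 262) (nat_lit 186)) (XT.lf (nat_lit 0) (nat_lit 1761371296) (nat_lit 380) (nat_lit 14594926169) (nat_lit 76) (nat_lit 19513003153) (nat_lit 51) (nat_lit 5) (nat_lit 56) (nat_lit 5) (nat_lit 52) (nat_lit 5) (nat_lit 273) (nat_lit 262) (nat_lit 185))) (XT.nd (nat_lit 78) (nat_lit 0) (nat_lit 0) (XT.lf (nat_lit 0) (nat_lit 7140216595) (nat_lit 380) (nat_lit 27032387949)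 (nat_lit 76) (nat_lit 3440582748) (nat_lit 47) (nat_lit 5) (nat_lit 52) (nat_lit 5) (nat_lit 48) (nat_lit 5) (nat_lit 274) (nat_lit 262) (nat_lit 184)) (XT.lf (nat_lit 0) (nat_lit 13474780371) (nat_lit 380) (nat_lit 1481915151) (nat_lit 76) (nat_lit 24513649096) (nat_lit 47) (nat_lit 5) (nat_lit 52) (nat_lit 5) (nat_lit 48) (nat_lit 5) (nat_lit 275) (nat_lit 262) (nat_lit 183)))) (XT.nd (nat_lit 156) (nat_lit 532) (nat_lit 0) (XT.nd (nat_lit 78) (nat_lit 228) (nat_lit 0) (XT.lf (nat_lit 0) (nat_lit 20826382212) (nat_lit 380) (nat_lit 14586261125) (nat_lit 76) (nat_lit 6037945565) (nat_lit 43) (nat_lit 5) (nat_lit 48) (nat_lit 5) (nat_lit 44) (nat_lit 5) (nat_lit 276) (nat_lit 262) (nat_lit 182)) (XT.lf (nat_lit 0) (nat_lit 14133870114) (nat_lit 228) (nat_lit 15123658980) (nat_lit 304) (nat_lit 14307178735) (nat_lit 40) (nat_lit 5) (nat_lit 43) (nat_lit 5) (nat_lit 44) (nat_lit 5) (nat_lit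 277) (nat_lit 262) (nat_lit 181))) (XT.nd (nat_lit 78) (nat_lit 532) (nat_lit 0) (XT.lf (nat_lit 0) (nat_lit 38720126685) (nat_lit 304) (nat_lit 281998016) (nat_lit 76) (nat_lit 6828007642) (nat_lit 40) (nat_lit 5) (nat_lit 44) (nat_lit 5) (nat_lit 41) (nat_lit 5) (nat_lit 278) (nat_lit 262) (nat_lit 180)) (XT.nd (nat_lit 78) (nat_lit 228) (nat_lit 0) (XT.lf (nat_lit 0) (nat_lit 1401183410) (nat_lit 304) (nat_lit 16303857226) (nat_lit 76) (nat_lit 30533280829) (nat_lit 36) (nat_lit 5) (nat_lit 40) (nat_lit 5) (nat_lit 37) (nat_lit 5) (nat_lit 279) (nat_lit 262) (nat_lit 179)) (XT.lf (nat_lit 0) (nat_lit 10689247902) (nat_lit 304) (nat_lit 34616801222) (nat_lit 76) (nat_lit 5510054321) (nat_lit 33) (nat_lit 5) (nat_lit 37) (nat_lit 5) (nat_lit 34) (nat_lit 5) (nat_lit 280) (nat_lit 262) (nat_lit 178)))))) (XT.nd (nat_lit 390) (nat_lit 532) (nat_lit 0) (XT.nd (nat_lit 156) (nat_lit 456)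 (nat_lit 0) (XT.nd (nat_lit 78) (nat_lit 228) (nat_lit 0) (XT.lf (nat_lit 0) (nat_lit 21301396572) (nat_lit 304) (nat_lit 2012393458) (nat_lit 76) (nat_lit 30257284163) (nat_lit 33) (nat_lit 5) (nat_lit 37) (nat_lit 5) (nat_lit 34) (nat_lit 5) (nat_lit 281) (nat_lit 262) (nat_lit 177)) (XT.lf (nat_lit 0) (nat_lit 33307764663) (nat_lit 304) (nat_lit 22245291705) (nat_lit 76) (nat_lit 966140673) (nat_lit 30) (nat_lit 5) (nat_lit 34) (nat_lit 5) (nat_lit 31) (nat_lit 5) (nat_lit 282) (nat_lit 262) (nat_lit 176))) (XT.nd (nat_lit 78) (nat_lit 304) (nat_lit 0) (XT.lf (nat_lit 0) (nat_lit 13876471172) (nat_lit 152) (nat_lit 33038140978) (nat_lit 228) (nat_lit 12756574642) (nat_lit 28) (nat_lit 5) (nat_lit 30) (nat_lit 5) (nat_lit 31) (nat_lit 5) (nat_lit 283) (nat_lit 262) (nat_lit 175)) (XT.nd (nat_lit 78) (nat_lit 304) (nat_lit 0) (XT.lf (nat_lit 0) (nat_lit 53675146638) (nat_lit 152) (nat_lit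 8317225703) (nat_lit 228) (nat_lit 1063859551) (nat_lit 28) (nat_lit 5) (nat_lit 30) (nat_lit 5) (nat_lit 31) (nat_lit 5) (nat_lit 284) (nat_lit 262) (nat_lit 174)) (XT.lf (nat_lit 0) (nat_lit 11967052855) (nat_lit 304) (nat_lit 36234904420) (nat_lit 76) (nat_lit 18462463053) (nat_lit 24) (nat_lit 5) (nat_lit 28) (nat_lit 5) (nat_lit 25) (nat_lit 5) (nat_lit 285) (nat_lit 262) (nat_lit 173))))) (XT.nd (nat_lit 156) (nat_lit 380) (nat_lit 0) (XT.nd (nat_lit 78) (nat_lit 0) (nat_lit 0) (XT.lf (nat_lit 0) (nat_lit 3139744273) (nat_lit 152) (nat_lit 23214656852) (nat_lit 228) (nat_lit 44188440702) (nat_lit 22) (nat_lit 5) (nat_lit 24) (nat_lit 5) (nat_lit 25) (nat_lit 5) (nat_lit 286) (nat_lit 262) (nat_lit 172)) (XT.lf (nat_lit 0) (nat_lit 42588749513) (nat_lit 228) (nat_lit 27817566261) (nat_lit 76) (nat_lit 4290431561) (nat_lit 22) (nat_lit 5) (nat_lit 25) (nat_lit 5) (nat_lit 23) (nat_lit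 5) (nat_lit 287) (nat_lit 262) (nat_lit 171))) (XT.nd (nat_lit 78) (nat_lit 228) (nat_lit 0) (XT.lf (nat_lit 0) (nat_lit 15017867465) (nat_lit 152) (nat_lit 45725808015) (nat_lit 228) (nat_lit 18408208409) (nat_lit 20) (nat_lit 5) (nat_lit 22) (nat_lit 5) (nat_lit 23) (nat_lit 5) (nat_lit 288) (nat_lit 262) (nat_lit 170)) (XT.nd (nat_lit 78) (nat_lit 228) (nat_lit 0) (XT.lf (nat_lit 0) (nat_lit 62267595994) (nat_lit 152) (nat_lit 18564091152) (nat_lit 228) (nat_lit 3107718986) (nat_lit 20) (nat_lit 5) (nat_lit 22) (nat_lit 5) (nat_lit 23) (nat_lit 5) (nat_lit 289) (nat_lit 262) (nat_lit 169)) (XT.lf (nat_lit 0) (nat_lit 13548286292) (nat_lit 228) (nat_lit 64493272788) (nat_lit 76) (nat_lit 11029860694) (nat_lit 17) (nat_lit 5) (nat_lit 20) (nat_lit 5) (nat_lit 18) (nat_lit 5) (nat_lit 290) (nat_lit 262) (nat_lit 168))))))))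
noncomputable def xc92 : XT := (XT.nd (nat_lit 1404) (nat_lit 228) (nat_lit 0) (XT.nd (nat_lit 702) (nat_lit 304) (nat_lit 0) (XT.nd (nat_lit 312) (nat_lit 304) (nat_lit 0) (XT.nd (nat_lit 156) (nat_lit 76) (nat_lit 0) (XT.nd (nat_lit 78) (nat_lit 152) (nat_lit 0) (XT.lf (nat_lit 0) (nat_lit 32122575392) (nat_lit 228) (nat_lit 19670237174) (nat_lit 76) (nat_lit 42783908127) (nat_lit 17) (nat_lit 5) (nat_lit 20) (nat_lit 5) (nat_lit 18) (nat_lit 5) (nat_lit 291) (nat_lit 262) (nat_lit 167)) (XT.lf (nat_lit 0) (nat_lit 29683612291) (nat_lit 152) (nat_lit 22959403608) (nat_lit 228) (nat_lit 47856426435) (nat_lit 15) (nat_lit 5) (nat_lit 17) (nat_lit 5) (nat_lit 18) (nat_lit 5) (nat_lit 292) (nat_lit 262) (nat_lit 166))) (XT.nd (nat_lit 78) (nat_lit 76) (nat_lit 0) (XT.lf (nat_lit 0) (nat_lit 75277974451) (nat_lit 228) (nat_lit 23329003314) (nat_lit 76) (nat_lit 8265366345) (nat_lit 15) (nat_lit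 5) (nat_lit 18) (nat_lit 5) (nat_lit 16) (nat_lit 4) (nat_lit 293) (nat_lit 262) (nat_lit 165)) (XT.lf (nat_lit 0) (nat_lit 28476425065) (nat_lit 76) (nat_lit 72076168122) (nat_lit 152) (nat_lit 13161047721) (nat_lit 14) (nat_lit 5) (nat_lit 15) (nat_lit 5) (nat_lit 16) (nat_lit 4) (nat_lit 294) (nat_lit 262) (nat_lit 164)))) (XT.nd (nat_lit 156) (nat_lit 76) (nat_lit 0) (XT.nd (nat_lit 78) (nat_lit 152) (nat_lit 0) (XT.lf (nat_lit 0) (nat_lit 6941256424) (nat_lit 152) (nat_lit 35939090677) (nat_lit 76) (nat_lit 78196119727) (nat_lit 13) (nat_lit 5) (nat_lit 15) (nat_lit 5) (nat_lit 14) (nat_lit 5) (nat_lit 295) (nat_lit 262) (nat_lit 163)) (XT.lf (nat_lit 0) (nat_lit 17641409371) (nat_lit 152) (nat_lit 10828261106) (nat_lit 228) (nat_lit 100533914317) (nat_lit 11) (nat_lit 5) (nat_lit 13) (nat_lit 5) (nat_lit 14) (nat_lit 5) (nat_lit 296) (nat_lit 262) (nat_lit 162))) (XT.nd (nat_lit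 78) (nat_lit 76) (nat_lit 0) (XT.lf (nat_lit 0) (nat_lit 52725585305) (nat_lit 228) (nat_lit 61127619039) (nat_lit 76) (nat_lit 23661411049) (nat_lit 11) (nat_lit 5) (nat_lit 14) (nat_lit 5) (nat_lit 12) (nat_lit 4) (nat_lit 297) (nat_lit 262) (nat_lit 161)) (XT.nd (nat_lit 78) (nat_lit 76) (nat_lit 0) (XT.lf (nat_lit 0) (nat_lit 79102272192) (nat_lit 228) (nat_lit 7060689156) (nat_lit 76) (nat_lit 60534556388) (nat_lit 11) (nat_lit 5) (nat_lit 14) (nat_lit 5) (nat_lit 12) (nat_lit 4) (nat_lit 298) (nat_lit 262) (nat_lit 160)) (XT.lf (nat_lit 0) (nat_lit 53025208156) (nat_lit 76) (nat_lit 55389641874) (nat_lit 152) (nat_lit 48158918364) (nat_lit 10) (nat_lit 5) (nat_lit 11) (nat_lit 5) (nat_lit 12) (nat_lit 4) (nat_lit 299) (nat_lit 262) (nat_lit 159)))))) (XT.nd (nat_lit 312) (nat_lit 152) (nat_lit 0) (XT.nd (nat_lit 156) (nat_lit 76) (nat_lit 0) (XT.nd (nat_lit 78) (nat_lit 76) (nat_lit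 0) (XT.lf (nat_lit 0) (nat_lit 118166740601) (nat_lit 76) (nat_lit 22026674152) (nat_lit 152) (nat_lit 27040658954) (nat_lit 10) (nat_lit 5) (nat_lit 11) (nat_lit 5) (nat_lit 12) (nat_lit 4) (nat_lit 300) (nat_lit 262) (nat_lit 158)) (XT.lf (nat_lit 0) (nat_lit 9866314717) (nat_lit 76) (nat_lit 165018770615) (nat_lit 76) (nat_lit 3843580445) (nat_lit 9) (nat_lit 4) (nat_lit 10) (nat_lit 5) (nat_lit 10) (nat_lit 4) (nat_lit 301) (nat_lit 262) (nat_lit 157))) (XT.nd (nat_lit 78) (nat_lit 0) (nat_lit 0) (XT.lf (nat_lit 0) (nat_lit 21768755198) (nat_lit 152) (nat_lit 116552936928) (nat_lit 76) (nat_lit 52742663264) (nat_lit 8) (nat_lit 5) (nat_lit 10) (nat_lit 5) (nat_lit 9) (nat_lit 4) (nat_lit 302) (nat_lit 262) (nat_lit 156)) (XT.lf (nat_lit 0) (nat_lit 49295529383) (nat_lit 152) (nat_lit 60126471066) (nat_lit 76) (nat_lit 94961746393) (nat_lit 8) (nat_lit 5) (nat_lit 10) (nat_lit 5) (nat_lit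 9) (nat_lit 4) (nat_lit 303) (nat_lit 262) (nat_lit 155)))) (XT.nd (nat_lit 156) (nat_lit 76) (nat_lit 0) (XT.nd (nat_lit 78) (nat_lit 0) (nat_lit 0) (XT.lf (nat_lit 0) (nat_lit 838264339) (nat_lit 76) (nat_lit 78197705629) (nat_lit 152) (nat_lit 139732145965) (nat_lit 7) (nat_lit 5) (nat_lit 8) (nat_lit 5) (nat_lit 9) (nat_lit 4) (nat_lit 304) (nat_lit 262) (nat_lit 154)) (XT.lf (nat_lit 0) (nat_lit 68824714401) (nat_lit 76) (nat_lit 43376808350) (nat_lit 152) (nat_lit 122049420308) (nat_lit 7) (nat_lit 5) (nat_lit 8) (nat_lit 5) (nat_lit 9) (nat_lit 4) (nat_lit 305) (nat_lit 262) (nat_lit 153))) (XT.nd (nat_lit 78) (nat_lit 76) (nat_lit 0) (XT.lf (nat_lit 0) (nat_lit 142247709115) (nat_lit 76) (nat_lit 5771233434) (nat_lit 152) (nat_lit 102953524849) (nat_lit 7) (nat_lit 5) (nat_lit 8) (nat_lit 5) (nat_lit 9) (nat_lit 4) (nat_lit 306) (nat_lit 262) (nat_lit 152)) (XT.nd (nat_lit 78)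 (nat_lit 76) (nat_lit 0) (XT.lf (nat_lit 0) (nat_lit 187244459928) (nat_lit 152) (nat_lit 48033410944) (nat_lit 0) (nat_lit 33726709632) (nat_lit 7) (nat_lit 5) (nat_lit 9) (nat_lit 4) (nat_lit 7) (nat_lit 4) (nat_lit 307) (nat_lit 262) (nat_lit 151)) (XT.lf (nat_lit 0) (nat_lit 17989630514) (nat_lit 76) (nat_lit 211995376227) (nat_lit 76) (nat_lit 58475408386) (nat_lit 6) (nat_lit 4) (nat_lit 7) (nat_lit 5) (nat_lit 7) (nat_lit 4) (nat_lit 308) (nat_lit 262) (nat_lit 150))))))) (XT.nd (nat_lit 702) (nat_lit 76) (nat_lit 0) (XT.nd (nat_lit 312) (nat_lit 76) (nat_lit 0) (XT.nd (nat_lit 156) (nat_lit 76) (nat_lit 0) (XT.nd (nat_lit 78) (nat_lit 0) (nat_lit 0) (XT.lf (nat_lit 0) (nat_lit 91007782668) (nat_lit 76) (nat_lit 185972588995) (nat_lit 76) (nat_lit 32450567871) (nat_lit 6) (nat_lit 4) (nat_lit 7) (nat_lit 5) (nat_lit 7) (nat_lit 4) (nat_lit 309) (nat_lit 262) (nat_lit 149)) (XT.lf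 (nat_lit 0) (nat_lit 169865544188) (nat_lit 76) (nat_lit 157868769122) (nat_lit 76) (nat_lit 4344846809) (nat_lit 6) (nat_lit 4) (nat_lit 7) (nat_lit 5) (nat_lit 7) (nat_lit 4) (nat_lit 310) (nat_lit 262) (nat_lit 148))) (XT.nd (nat_lit 78) (nat_lit 0) (nat_lit 0) (XT.lf (nat_lit 0) (nat_lit 25175878961) (nat_lit 152) (nat_lit 101915130800) (nat_lit 76) (nat_lit 229427975674) (nat_lit 5) (nat_lit 5) (nat_lit 7) (nat_lit 5) (nat_lit 6) (nat_lit 4) (nat_lit 311) (nat_lit 262) (nat_lit 147)) (XT.lf (nat_lit 0) (nat_lit 56907157139) (nat_lit 152) (nat_lit 36867640498) (nat_lit 76) (nat_lit 289135583267) (nat_lit 5) (nat_lit 5) (nat_lit 7) (nat_lit 5) (nat_lit 6) (nat_lit 4) (nat_lit 312) (nat_lit 262) (nat_lit 146)))) (XT.nd (nat_lit 156) (nat_lit 0) (nat_lit 0) (XT.nd (nat_lit 78) (nat_lit 0) (nat_lit 0) (XT.lf (nat_lit 0) (nat_lit 34485921679) (nat_lit 76) (nat_lit 57228587363) (nat_lit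 152) (nat_lit 319671701608) (nat_lit 4) (nat_lit 5) (nat_lit 5) (nat_lit 5) (nat_lit 6) (nat_lit 4) (nat_lit 313) (nat_lit 262) (nat_lit 145)) (XT.lf (nat_lit 0) (nat_lit 112862873021) (nat_lit 76) (nat_lit 17084976886) (nat_lit 152) (nat_lit 312160187951) (nat_lit 4) (nat_lit 5) (nat_lit 5) (nat_lit 5) (nat_lit 6) (nat_lit 4) (nat_lit 314) (nat_lit 262) (nat_lit 144))) (XT.nd (nat_lit 78) (nat_lit 0) (nat_lit 0) (XT.lf (nat_lit 0) (nat_lit 171649249619) (nat_lit 152) (nat_lit 278189132232) (nat_lit 0) (nat_lit 25428760851) (nat_lit 4) (nat_lit 5) (nat_lit 6) (nat_lit 4) (nat_lit 4) (nat_lit 4) (nat_lit 315) (nat_lit 262) (nat_lit 143)) (XT.nd (nat_lit 78) (nat_lit 0) (nat_lit 0) (XT.lf (nat_lit 0) (nat_lit 216974142769) (nat_lit 152) (nat_lit 223337952074) (nat_lit 0) (nat_lit 70752512981) (nat_lit 4) (nat_lit 5) (nat_lit 6) (nat_lit 4) (nat_lit 4) (nat_lit 4) (nat_lit 316) (nat_lit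 262) (nat_lit 142)) (XT.lf (nat_lit 0) (nat_lit 265924376947) (nat_lit 152) (nat_lit 164099835963) (nat_lit 0) (nat_lit 119701690658) (nat_lit 4) (nat_lit 5) (nat_lit 6) (nat_lit 4) (nat_lit 4) (nat_lit 4) (nat_lit 317) (nat_lit 262) (nat_lit 141)))))) (XT.nd (nat_lit 33384) (nat_lit 0) (nat_lit 4788) (XT.nd (nat_lit 156) (nat_lit 76) (nat_lit 0) (XT.nd (nat_lit 78) (nat_lit 0) (nat_lit 0) (XT.lf (nat_lit 0) (nat_lit 318790027614) (nat_lit 152) (nat_lit 100123743210) (nat_lit 0) (nat_lit 172566363085) (nat_lit 4) (nat_lit 5) (nat_lit 6) (nat_lit 4) (nat_lit 4) (nat_lit 4) (nat_lit 318) (nat_lit 262) (nat_lit 140)) (XT.lf (nat_lit 0) (nat_lit 375884372701) (nat_lit 152) (nat_lit 31030556229) (nat_lit 0) (nat_lit 229659802393) (nat_lit 4) (nat_lit 5) (nat_lit 6) (nat_lit 4) (nat_lit 4) (nat_lit 4) (nat_lit 319) (nat_lit 262) (nat_lit 139))) (XT.nd (nat_lit 33072) (nat_lit 0) (nat_lit 4712)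 (XT.lf (nat_lit 0) (nat_lit 45030420773) (nat_lit 76) (nat_lit 393218379360) (nat_lit 76) (nat_lit 246992970368) (nat_lit 3) (nat_lit 4) (nat_lit 4) (nat_lit 5) (nat_lit 4) (nat_lit 4) (nat_lit 320) (nat_lit 262) (nat_lit 138)) (XT.nd (nat_lit 78) (nat_lit 0) (nat_lit 0) (XT.lf (nat_lit 0) (nat_lit 1260836433) (nat_lit 0) (nat_lit 1260836433) (nat_lit 684) (nat_lit 9593041736) (nat_lit 65) (nat_lit 5) (nat_lit 65) (nat_lit 3) (nat_lit 74) (nat_lit 3) (nat_lit 263) (nat_lit 263) (nat_lit 194)) (XT.lf (nat_lit 0) (nat_lit 5623800661) (nat_lit 684) (nat_lit 5945461584) (nat_lit 760) (nat_lit 13609773208) (nat_lit 65) (nat_lit 5) (nat_lit 74) (nat_lit 3) (nat_lit 75) (nat_lit 5) (nat_lit 264) (nat_lit 263) (nat_lit 193))))) (XT.nd (nat_lit 156) (nat_lit 0) (nat_lit 76) (XT.nd (nat_lit 78) (nat_lit 0) (nat_lit 0) (XT.lf (nat_lit 0) (nat_lit 6532311891) (nat_lit 684) (nat_lit 14880576394) (nat_lit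 760) (nat_lit 4777704434) (nat_lit 66) (nat_lit 5) (nat_lit 75) (nat_lit 5) (nat_lit 76) (nat_lit 5) (nat_lit 265) (nat_lit 263) (nat_lit 192)) (XT.lf (nat_lit 76) (nat_lit 2762534640) (nat_lit 0) (nat_lit 5079772871) (nat_lit 760) (nat_lit 19424385694) (nat_lit 67) (nat_lit 5) (nat_lit 66) (nat_lit 5) (nat_lit 76) (nat_lit 5) (nat_lit 266) (nat_lit 263) (nat_lit 191))) (XT.nd (nat_lit 78) (nat_lit 0) (nat_lit 76) (XT.lf (nat_lit 0) (nat_lit 9703007213) (nat_lit 684) (nat_lit 6277648784) (nat_lit 760) (nat_lit 12425984968) (nat_lit 67) (nat_lit 5) (nat_lit 76) (nat_lit 5) (nat_lit 77) (nat_lit 5) (nat_lit 267) (nat_lit 263) (nat_lit 190)) (XT.nd (nat_lit 78) (nat_lit 0) (nat_lit 0) (XT.lf (nat_lit 0) (nat_lit 12027644431) (nat_lit 684) (nat_lit 15898440938) (nat_lit 760) (nat_lit 1695995521) (nat_lit 68) (nat_lit 5) (nat_lit 77) (nat_lit 5) (nat_lit 78) (nat_lit 5) (nat_lit 268) (nat_lit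 263) (nat_lit 189)) (XT.lf (nat_lit 76) (nat_lit 4482718288) (nat_lit 0) (nat_lit 10494338637) (nat_lit 760) (nat_lit 15935805555) (nat_lit 69) (nat_lit 5) (nat_lit 68) (nat_lit 5) (nat_lit 78) (nat_lit 5) (nat_lit 269) (nat_lit 263) (nat_lit 188))))))))
noncomputable def xc93 : XT := (XT.nd (nat_lit 1404) (nat_lit 1140) (nat_lit 0) (XT.nd (nat_lit 702) (nat_lit 1368) (nat_lit 0) (XT.nd (nat_lit 312) (nat_lit 1216) (nat_lit 0) (XT.nd (nat_lit 156) (nat_lit 304) (nat_lit 0) (XT.nd (nat_lit 78) (nat_lit 684) (nat_lit 0) (XT.lf (nat_lit 0) (nat_lit 18562961115) (nat_lit 684) (nat_lit 5375222320) (nat_lit 76) (nat_lit 8348739457) (nat_lit 69) (nat_lit 5) (nat_lit 78) (nat_lit 5) (nat_lit 70) (nat_lit 5) (nat_lit 270) (nat_lit 263) (nat_lit 187)) (XT.lf (nat_lit 0) (nat_lit 17746206674) (nat_lit 684) (nat_lit 5133342563) (nat_lit 760) (nat_lit 10869208349) (nat_lit 60) (nat_lit 5) (nat_lit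 69) (nat_lit 5) (nat_lit 70) (nat_lit 5) (nat_lit 271) (nat_lit 263) (nat_lit 186))) (XT.nd (nat_lit 78) (nat_lit 0) (nat_lit 0) (XT.lf (nat_lit 0) (nat_lit 7581556684) (nat_lit 304) (nat_lit 20400812393) (nat_lit 380) (nat_lit 7323161804) (nat_lit 56) (nat_lit 5) (nat_lit 60) (nat_lit 5) (nat_lit 61) (nat_lit 5) (nat_lit 272) (nat_lit 263) (nat_lit 185)) (XT.lf (nat_lit 0) (nat_lit 33525745922) (nat_lit 304) (nat_lit 322587008) (nat_lit 380) (nat_lit 3120801507) (nat_lit 56) (nat_lit 5) (nat_lit 60) (nat_lit 5) (nat_lit 61) (nat_lit 5) (nat_lit 273) (nat_lit 263) (nat_lit 184)))) (XT.nd (nat_lit 156) (nat_lit 532) (nat_lit 0) (XT.nd (nat_lit 78) (nat_lit 304) (nat_lit 0) (XT.lf (nat_lit 0) (nat_lit 2070694367) (nat_lit 380) (nat_lit 15585371023) (nat_lit 76) (nat_lit 21073768220) (nat_lit 51) (nat_lit 5) (nat_lit 56) (nat_lit 5) (nat_lit 52) (nat_lit 5) (nat_lit 274) (nat_lit 263) (nat_lit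 183)) (XT.lf (nat_lit 0) (nat_lit 7870187482) (nat_lit 380) (nat_lit 29017222243) (nat_lit 76) (nat_lit 3726348215) (nat_lit 47) (nat_lit 5) (nat_lit 52) (nat_lit 5) (nat_lit 48) (nat_lit 5) (nat_lit 275) (nat_lit 263) (nat_lit 182))) (XT.nd (nat_lit 78) (nat_lit 532) (nat_lit 0) (XT.lf (nat_lit 0) (nat_lit 14699756838) (nat_lit 380) (nat_lit 1435878788) (nat_lit 76) (nat_lit 26484480697) (nat_lit 47) (nat_lit 5) (nat_lit 52) (nat_lit 5) (nat_lit 48) (nat_lit 5) (nat_lit 276) (nat_lit 263) (nat_lit 181)) (XT.nd (nat_lit 78) (nat_lit 228) (nat_lit 0) (XT.lf (nat_lit 0) (nat_lit 22631351068) (nat_lit 380) (nat_lit 15588623113) (nat_lit 76) (nat_lit 6539250249) (nat_lit 43) (nat_lit 5) (nat_lit 48) (nat_lit 5) (nat_lit 44) (nat_lit 5) (nat_lit 277) (nat_lit 263) (nat_lit 180)) (XT.lf (nat_lit 0) (nat_lit 15421967965) (nat_lit 228) (nat_lit 16307193209) (nat_lit 304) (nat_lit 15313737840)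 (nat_lit 40) (nat_lit 5) (nat_lit 43) (nat_lit 5) (nat_lit 44) (nat_lit 5) (nat_lit 278) (nat_lit 263) (nat_lit 179)))))) (XT.nd (nat_lit 312) (nat_lit 836) (nat_lit 0) (XT.nd (nat_lit 156) (nat_lit 228) (nat_lit 0) (XT.nd (nat_lit 78) (nat_lit 304) (nat_lit 0) (XT.lf (nat_lit 0) (nat_lit 41939441712) (nat_lit 304) (nat_lit 152741049) (nat_lit 76) (nat_lit 7397873117) (nat_lit 40) (nat_lit 5) (nat_lit 44) (nat_lit 5) (nat_lit 41) (nat_lit 5) (nat_lit 279) (nat_lit 263) (nat_lit 178)) (XT.lf (nat_lit 0) (nat_lit 1630479751) (nat_lit 304) (nat_lit 17458717224) (nat_lit 76) (nat_lit 33001975795) (nat_lit 36) (nat_lit 5) (nat_lit 40) (nat_lit 5) (nat_lit 37) (nat_lit 5) (nat_lit 280) (nat_lit 263) (nat_lit 177))) (XT.nd (nat_lit 78) (nat_lit 0) (nat_lit 0) (XT.lf (nat_lit 0) (nat_lit 11655642465) (nat_lit 304) (nat_lit 37237828672) (nat_lit 76) (nat_lit 5982029764) (nat_lit 33) (nat_lit 5)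 (nat_lit 37) (nat_lit 5) (nat_lit 34) (nat_lit 5) (nat_lit 281) (nat_lit 263) (nat_lit 176)) (XT.lf (nat_lit 0) (nat_lit 23108521938) (nat_lit 304) (nat_lit 2036054706) (nat_lit 76) (nat_lit 32706729023) (nat_lit 33) (nat_lit 5) (nat_lit 37) (nat_lit 5) (nat_lit 34) (nat_lit 5) (nat_lit 282) (nat_lit 263) (nat_lit 175)))) (XT.nd (nat_lit 156) (nat_lit 456) (nat_lit 0) (XT.nd (nat_lit 78) (nat_lit 152) (nat_lit 0) (XT.lf (nat_lit 0) (nat_lit 36070349479) (nat_lit 304) (nat_lit 23888929756) (nat_lit 76) (nat_lit 1076274111) (nat_lit 30) (nat_lit 5) (nat_lit 34) (nat_lit 5) (nat_lit 31) (nat_lit 5) (nat_lit 283) (nat_lit 263) (nat_lit 174)) (XT.lf (nat_lit 0) (nat_lit 15116664397) (nat_lit 152) (nat_lit 35643854644) (nat_lit 228) (nat_lit 13679465355) (nat_lit 28) (nat_lit 5) (nat_lit 30) (nat_lit 5) (nat_lit 31) (nat_lit 5) (nat_lit 284) (nat_lit 263) (nat_lit 173))) (XT.nd (nat_lit 78)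 (nat_lit 456) (nat_lit 0) (XT.lf (nat_lit 0) (nat_lit 58089598676) (nat_lit 152) (nat_lit 8948031897) (nat_lit 228) (nat_lit 1058565298) (nat_lit 28) (nat_lit 5) (nat_lit 30) (nat_lit 5) (nat_lit 31) (nat_lit 5) (nat_lit 285) (nat_lit 263) (nat_lit 172)) (XT.nd (nat_lit 78) (nat_lit 152) (nat_lit 0) (XT.lf (nat_lit 0) (nat_lit 13007841238) (nat_lit 304) (nat_lit 39011698423) (nat_lit 76) (nat_lit 19973650431) (nat_lit 24) (nat_lit 5) (nat_lit 28) (nat_lit 5) (nat_lit 25) (nat_lit 5) (nat_lit 286) (nat_lit 263) (nat_lit 171)) (XT.lf (nat_lit 0) (nat_lit 3507620266) (nat_lit 152) (nat_lit 25034199496) (nat_lit 228) (nat_lit 47640299182) (nat_lit 22) (nat_lit 5) (nat_lit 24) (nat_lit 5) (nat_lit 25) (nat_lit 5) (nat_lit 287) (nat_lit 263) (nat_lit 170))))))) (XT.nd (nat_lit 702) (nat_lit 456) (nat_lit 0) (XT.nd (nat_lit 312) (nat_lit 304) (nat_lit 0) (XT.nd (nat_lit 156) (nat_lit 228) (nat_lit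 0) (XT.nd (nat_lit 78) (nat_lit 152) (nat_lit 0) (XT.lf (nat_lit 0) (nat_lit 46069603228) (nat_lit 228) (nat_lit 29931620476) (nat_lit 76) (nat_lit 4667393412) (nat_lit 22) (nat_lit 5) (nat_lit 25) (nat_lit 5) (nat_lit 23) (nat_lit 5) (nat_lit 288) (nat_lit 263) (nat_lit 169)) (XT.lf (nat_lit 0) (nat_lit 16325808765) (nat_lit 152) (nat_lit 49347314216) (nat_lit 228) (nat_lit 19807245134) (nat_lit 20) (nat_lit 5) (nat_lit 22) (nat_lit 5) (nat_lit 23) (nat_lit 5) (nat_lit 289) (nat_lit 263) (nat_lit 168))) (XT.nd (nat_lit 78) (nat_lit 228) (nat_lit 0) (XT.lf (nat_lit 0) (nat_lit 67347625806) (nat_lit 152) (nat_lit 20015368036) (nat_lit 228) (nat_lit 3288169886) (nat_lit 20) (nat_lit 5) (nat_lit 22) (nat_lit 5) (nat_lit 23) (nat_lit 5) (nat_lit 290) (nat_lit 263) (nat_lit 167)) (XT.lf (nat_lit 0) (nat_lit 14695284169) (nat_lit 228) (nat_lit 69553431288) (nat_lit 76) (nat_lit 11945123314)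 (nat_lit 17) (nat_lit 5) (nat_lit 20) (nat_lit 5) (nat_lit 18) (nat_lit 5) (nat_lit 291) (nat_lit 263) (nat_lit 166)))) (XT.nd (nat_lit 156) (nat_lit 152) (nat_lit 0) (XT.nd (nat_lit 78) (nat_lit 152) (nat_lit 0) (XT.lf (nat_lit 0) (nat_lit 34750839731) (nat_lit 228) (nat_lit 21151908627) (nat_lit 76) (nat_lit 46237059448) (nat_lit 17) (nat_lit 5) (nat_lit 20) (nat_lit 5) (nat_lit 18) (nat_lit 5) (nat_lit 292) (nat_lit 263) (nat_lit 165)) (XT.lf (nat_lit 0) (nat_lit 32146252869) (nat_lit 152) (nat_lit 24763705537) (nat_lit 228) (nat_lit 51626546081) (nat_lit 15) (nat_lit 5) (nat_lit 17) (nat_lit 5) (nat_lit 18) (nat_lit 5) (nat_lit 293) (nat_lit 263) (nat_lit 164))) (XT.nd (nat_lit 78) (nat_lit 152) (nat_lit 0) (XT.lf (nat_lit 0) (nat_lit 81352071551) (nat_lit 228) (nat_lit 25111677109) (nat_lit 76) (nat_lit 8955680602) (nat_lit 15) (nat_lit 5) (nat_lit 18) (nat_lit 5) (nat_lit 16) (nat_lit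 4) (nat_lit 294) (nat_lit 263) (nat_lit 163)) (XT.nd (nat_lit 78) (nat_lit 76) (nat_lit 0) (XT.lf (nat_lit 0) (nat_lit 30834550367) (nat_lit 76) (nat_lit 77811517202) (nat_lit 152) (nat_lit 14162099952) (nat_lit 14) (nat_lit 5) (nat_lit 15) (nat_lit 5) (nat_lit 16) (nat_lit 4) (nat_lit 295) (nat_lit 263) (nat_lit 162)) (XT.lf (nat_lit 0) (nat_lit 7543013098) (nat_lit 152) (nat_lit 38738508004) (nat_lit 76) (nat_lit 84478650921) (nat_lit 13) (nat_lit 5) (nat_lit 15) (nat_lit 5) (nat_lit 14) (nat_lit 5) (nat_lit 296) (nat_lit 263) (nat_lit 161)))))) (XT.nd (nat_lit 390) (nat_lit 228) (nat_lit 0) (XT.nd (nat_lit 156) (nat_lit 76) (nat_lit 0) (XT.nd (nat_lit 78) (nat_lit 0) (nat_lit 0) (XT.lf (nat_lit 0) (nat_lit 19125141786) (nat_lit 152) (nat_lit 11666247965) (nat_lit 228) (nat_lit 108530191819) (nat_lit 11) (nat_lit 5) (nat_lit 13) (nat_lit 5) (nat_lit 14) (nat_lit 5) (nat_lit 297) (nat_lit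 263) (nat_lit 160)) (XT.lf (nat_lit 0) (nat_lit 56984916457) (nat_lit 228) (nat_lit 65949061677) (nat_lit 76) (nat_lit 25579665677) (nat_lit 11) (nat_lit 5) (nat_lit 14) (nat_lit 5) (nat_lit 12) (nat_lit 4) (nat_lit 298) (nat_lit 263) (nat_lit 159))) (XT.nd (nat_lit 78) (nat_lit 76) (nat_lit 0) (XT.lf (nat_lit 0) (nat_lit 85468680196) (nat_lit 228) (nat_lit 7561871248) (nat_lit 76) (nat_lit 65400785477) (nat_lit 11) (nat_lit 5) (nat_lit 14) (nat_lit 5) (nat_lit 12) (nat_lit 4) (nat_lit 299) (nat_lit 263) (nat_lit 158)) (XT.nd (nat_lit 78) (nat_lit 0) (nat_lit 0) (XT.lf (nat_lit 0) (nat_lit 57328130697) (nat_lit 76) (nat_lit 59796252903) (nat_lit 152) (nat_lit 51973403317) (nat_lit 10) (nat_lit 5) (nat_lit 11) (nat_lit 5) (nat_lit 12) (nat_lit 4) (nat_lit 300) (nat_lit 263) (nat_lit 157)) (XT.lf (nat_lit 0) (nat_lit 127676474190) (nat_lit 76) (nat_lit 23766067047) (nat_lit 152) (nat_lit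 29168514896) (nat_lit 10) (nat_lit 5) (nat_lit 11) (nat_lit 5) (nat_lit 12) (nat_lit 4) (nat_lit 301) (nat_lit 263) (nat_lit 156))))) (XT.nd (nat_lit 156) (nat_lit 76) (nat_lit 0) (XT.nd (nat_lit 78) (nat_lit 76) (nat_lit 0) (XT.lf (nat_lit 0) (nat_lit 10710891486) (nat_lit 76) (nat_lit 178197352834) (nat_lit 76) (nat_lit 4117040810) (nat_lit 9) (nat_lit 4) (nat_lit 10) (nat_lit 5) (nat_lit 10) (nat_lit 4) (nat_lit 302) (nat_lit 263) (nat_lit 155)) (XT.lf (nat_lit 0) (nat_lit 23540752858) (nat_lit 152) (nat_lit 125824936458) (nat_lit 76) (nat_lit 56982239994) (nat_lit 8) (nat_lit 5) (nat_lit 10) (nat_lit 5) (nat_lit 9) (nat_lit 4) (nat_lit 303) (nat_lit 263) (nat_lit 154))) (XT.nd (nat_lit 78) (nat_lit 76) (nat_lit 0) (XT.lf (nat_lit 0) (nat_lit 53267409923) (nat_lit 152) (nat_lit 64888222617) (nat_lit 76) (nat_lit 102577356169) (nat_lit 8) (nat_lit 5) (nat_lit 10) (nat_lit 5) (nat_lit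 9) (nat_lit 4) (nat_lit 304) (nat_lit 263) (nat_lit 153)) (XT.nd (nat_lit 78) (nat_lit 0) (nat_lit 0) (XT.lf (nat_lit 0) (nat_lit 951589687) (nat_lit 76) (nat_lit 84434126664) (nat_lit 152) (nat_lit 150882462851) (nat_lit 7) (nat_lit 5) (nat_lit 8) (nat_lit 5) (nat_lit 9) (nat_lit 4) (nat_lit 305) (nat_lit 263) (nat_lit 152)) (XT.lf (nat_lit 0) (nat_lit 74373528776) (nat_lit 76) (nat_lit 46828994300) (nat_lit 152) (nat_lit 131787212090) (nat_lit 7) (nat_lit 5) (nat_lit 8) (nat_lit 5) (nat_lit 9) (nat_lit 4) (nat_lit 306) (nat_lit 263) (nat_lit 151))))))))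
noncomputable def xc94 : XT := (XT.nd (nat_lit 34476) (nat_lit 0) (nat_lit 1824) (XT.nd (nat_lit 702) (nat_lit 0) (nat_lit 0) (XT.nd (nat_lit 312) (nat_lit 152) (nat_lit 0) (XT.nd (nat_lit 156) (nat_lit 76) (nat_lit 0) (XT.nd (nat_lit 78) (nat_lit 0) (nat_lit 0) (XT.lf (nat_lit 0) (nat_lit 153667189939) (nat_lit 76) (nat_lit 6216303667) (nat_lit 152) (nat_lit 111165582908) (nat_lit 7) (nat_lit 5) (nat_lit 8) (nat_lit 5) (nat_lit 9) (nat_lit 4) (nat_lit 307) (nat_lit 263) (nat_lit 150)) (XT.lf (nat_lit 0) (nat_lit 202245586416) (nat_lit 152) (nat_lit 51838497936) (nat_lit 0) (nat_lit 36439750318) (nat_lit 7) (nat_lit 5) (nat_lit 9) (nat_lit 4) (nat_lit 7) (nat_lit 4) (nat_lit 308) (nat_lit 263) (nat_lit 149))) (XT.nd (nat_lit 78) (nat_lit 0) (nat_lit 0) (XT.lf (nat_lit 0) (nat_lit 19464753401) (nat_lit 76) (nat_lit 228939587136) (nat_lit 76) (nat_lit 63131849850) (nat_lit 6) (nat_lit 4)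 (nat_lit 7) (nat_lit 5) (nat_lit 7) (nat_lit 4) (nat_lit 309) (nat_lit 263) (nat_lit 148)) (XT.lf (nat_lit 0) (nat_lit 98321694584) (nat_lit 76) (nat_lit 200836119088) (nat_lit 76) (nat_lit 35026621442) (nat_lit 6) (nat_lit 4) (nat_lit 7) (nat_lit 5) (nat_lit 7) (nat_lit 4) (nat_lit 310) (nat_lit 263) (nat_lit 147)))) (XT.nd (nat_lit 156) (nat_lit 76) (nat_lit 0) (XT.nd (nat_lit 78) (nat_lit 76) (nat_lit 0) (XT.lf (nat_lit 0) (nat_lit 183485611152) (nat_lit 76) (nat_lit 170485051183) (nat_lit 76) (nat_lit 4673923574) (nat_lit 6) (nat_lit 4) (nat_lit 7) (nat_lit 5) (nat_lit 7) (nat_lit 4) (nat_lit 311) (nat_lit 263) (nat_lit 146)) (XT.lf (nat_lit 0) (nat_lit 27206540494) (nat_lit 152) (nat_lit 110039228819) (nat_lit 76) (nat_lit 247793881743) (nat_lit 5) (nat_lit 5) (nat_lit 7) (nat_lit 5) (nat_lit 6) (nat_lit 4) (nat_lit 312) (nat_lit 263) (nat_lit 145))) (XT.nd (nat_lit 78) (nat_lit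 76) (nat_lit 0) (XT.lf (nat_lit 0) (nat_lit 61475091947) (nat_lit 152) (nat_lit 39790095770) (nat_lit 76) (nat_lit 312277233646) (nat_lit 5) (nat_lit 5) (nat_lit 7) (nat_lit 5) (nat_lit 6) (nat_lit 4) (nat_lit 313) (nat_lit 263) (nat_lit 144)) (XT.nd (nat_lit 78) (nat_lit 0) (nat_lit 0) (XT.lf (nat_lit 0) (nat_lit 37270579908) (nat_lit 76) (nat_lit 61795716719) (nat_lit 152) (nat_lit 345230059252) (nat_lit 4) (nat_lit 5) (nat_lit 5) (nat_lit 5) (nat_lit 6) (nat_lit 4) (nat_lit 314) (nat_lit 263) (nat_lit 143)) (XT.lf (nat_lit 0) (nat_lit 121915777395) (nat_lit 76) (nat_lit 18441443895) (nat_lit 152) (nat_lit 337118763650) (nat_lit 4) (nat_lit 5) (nat_lit 5) (nat_lit 5) (nat_lit 6) (nat_lit 4) (nat_lit 315) (nat_lit 263) (nat_lit 142)))))) (XT.nd (nat_lit 312) (nat_lit 0) (nat_lit 0) (XT.nd (nat_lit 156) (nat_lit 0) (nat_lit 0) (XT.nd (nat_lit 78) (nat_lit 0) (nat_lit 0) (XT.lf (nat_lit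 0) (nat_lit 185393879115) (nat_lit 152) (nat_lit 300421661718) (nat_lit 0) (nat_lit 27472321423) (nat_lit 4) (nat_lit 5) (nat_lit 6) (nat_lit 4) (nat_lit 4) (nat_lit 4) (nat_lit 316) (nat_lit 263) (nat_lit 141)) (XT.lf (nat_lit 0) (nat_lit 234343823752) (nat_lit 152) (nat_lit 241184061302) (nat_lit 0) (nat_lit 76421287820) (nat_lit 4) (nat_lit 5) (nat_lit 6) (nat_lit 4) (nat_lit 4) (nat_lit 4) (nat_lit 317) (nat_lit 263) (nat_lit 140))) (XT.nd (nat_lit 78) (nat_lit 0) (nat_lit 0) (XT.lf (nat_lit 0) (nat_lit 287209206326) (nat_lit 152) (nat_lit 177208446046) (nat_lit 0) (nat_lit 129285764615) (nat_lit 4) (nat_lit 5) (nat_lit 6) (nat_lit 4) (nat_lit 4) (nat_lit 4) (nat_lit 318) (nat_lit 263) (nat_lit 139)) (XT.lf (nat_lit 0) (nat_lit 344303303179) (nat_lit 152) (nat_lit 108115701190) (nat_lit 0) (nat_lit 186379022783) (nat_lit 4) (nat_lit 5) (nat_lit 6) (nat_lit 4) (nat_lit 4) (nat_lit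 4) (nat_lit 319) (nat_lit 263) (nat_lit 138)))) (XT.nd (nat_lit 33228) (nat_lit 0) (nat_lit 4636) (XT.nd (nat_lit 33150) (nat_lit 0) (nat_lit 4636) (XT.lf (nat_lit 0) (nat_lit 405964449698) (nat_lit 152) (nat_lit 33496388249) (nat_lit 0) (nat_lit 248039392744) (nat_lit 4) (nat_lit 5) (nat_lit 6) (nat_lit 4) (nat_lit 4) (nat_lit 4) (nat_lit 320) (nat_lit 263) (nat_lit 137)) (XT.lf (nat_lit 0) (nat_lit 1439393175) (nat_lit 0) (nat_lit 1439393175) (nat_lit 684) (nat_lit 10196716838) (nat_lit 65) (nat_lit 5) (nat_lit 65) (nat_lit 3) (nat_lit 74) (nat_lit 3) (nat_lit 264) (nat_lit 264) (nat_lit 192))) (XT.nd (nat_lit 78) (nat_lit 0) (nat_lit 76) (XT.lf (nat_lit 0) (nat_lit 6359198601) (nat_lit 684) (nat_lit 6259447833) (nat_lit 760) (nat_lit 14559289754) (nat_lit 65) (nat_lit 5) (nat_lit 74) (nat_lit 3) (nat_lit 75) (nat_lit 5) (nat_lit 265) (nat_lit 264) (nat_lit 191)) (XT.nd (nat_lit 78)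 (nat_lit 0) (nat_lit 0) (XT.lf (nat_lit 0) (nat_lit 7319906433) (nat_lit 684) (nat_lit 15900245802) (nat_lit 760) (nat_lit 5051375009) (nat_lit 66) (nat_lit 5) (nat_lit 75) (nat_lit 5) (nat_lit 76) (nat_lit 5) (nat_lit 266) (nat_lit 264) (nat_lit 190)) (XT.lf (nat_lit 76) (nat_lit 3146892368) (nat_lit 0) (nat_lit 5570729424) (nat_lit 760) (nat_lit 20717026670) (nat_lit 67) (nat_lit 5) (nat_lit 66) (nat_lit 5) (nat_lit 76) (nat_lit 5) (nat_lit 267) (nat_lit 264) (nat_lit 189))))))) (XT.nd (nat_lit 702) (nat_lit 1444) (nat_lit 0) (XT.nd (nat_lit 312) (nat_lit 1520) (nat_lit 0) (XT.nd (nat_lit 156) (nat_lit 0) (nat_lit 76) (XT.nd (nat_lit 78) (nat_lit 0) (nat_lit 76) (XT.lf (nat_lit 0) (nat_lit 10707589670) (nat_lit 684) (nat_lit 6614994385) (nat_lit 760) (nat_lit 13344260244) (nat_lit 67) (nat_lit 5) (nat_lit 76) (nat_lit 5) (nat_lit 77) (nat_lit 5) (nat_lit 268) (nat_lit 264) (nat_lit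 188)) (XT.lf (nat_lit 0) (nat_lit 13202868555) (nat_lit 684) (nat_lit 17000199672) (nat_lit 760) (nat_lit 1777285128) (nat_lit 68) (nat_lit 5) (nat_lit 77) (nat_lit 5) (nat_lit 78) (nat_lit 5) (nat_lit 269) (nat_lit 264) (nat_lit 187))) (XT.nd (nat_lit 78) (nat_lit 0) (nat_lit 76) (XT.lf (nat_lit 76) (nat_lit 5004059235) (nat_lit 0) (nat_lit 11370936674) (nat_lit 760) (nat_lit 17000125942) (nat_lit 69) (nat_lit 5) (nat_lit 68) (nat_lit 5) (nat_lit 78) (nat_lit 5) (nat_lit 270) (nat_lit 264) (nat_lit 186)) (XT.lf (nat_lit 0) (nat_lit 20232438709) (nat_lit 684) (nat_lit 5644062717) (nat_lit 76) (nat_lit 8983430201) (nat_lit 69) (nat_lit 5) (nat_lit 78) (nat_lit 5) (nat_lit 70) (nat_lit 5) (nat_lit 271) (nat_lit 264) (nat_lit 185)))) (XT.nd (nat_lit 156) (nat_lit 684) (nat_lit 0) (XT.nd (nat_lit 78) (nat_lit 304) (nat_lit 0) (XT.lf (nat_lit 0) (nat_lit 19320076023) (nat_lit 684) (nat_lit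 5563022652) (nat_lit 760) (nat_lit 11556230741) (nat_lit 60) (nat_lit 5) (nat_lit 69) (nat_lit 5) (nat_lit 70) (nat_lit 5) (nat_lit 272) (nat_lit 264) (nat_lit 184)) (XT.lf (nat_lit 0) (nat_lit 8344761171) (nat_lit 304) (nat_lit 22038725737) (nat_lit 380) (nat_lit 7737740121) (nat_lit 56) (nat_lit 5) (nat_lit 60) (nat_lit 5) (nat_lit 61) (nat_lit 5) (nat_lit 273) (nat_lit 264) (nat_lit 183))) (XT.nd (nat_lit 78) (nat_lit 684) (nat_lit 0) (XT.lf (nat_lit 0) (nat_lit 36352879626) (nat_lit 304) (nat_lit 353809109) (nat_lit 380) (nat_lit 3211878009) (nat_lit 56) (nat_lit 5) (nat_lit 60) (nat_lit 5) (nat_lit 61) (nat_lit 5) (nat_lit 274) (nat_lit 264) (nat_lit 182)) (XT.nd (nat_lit 78) (nat_lit 304) (nat_lit 0) (XT.lf (nat_lit 0) (nat_lit 2380737234) (nat_lit 380) (nat_lit 16680323785) (nat_lit 76) (nat_lit 22759433751) (nat_lit 51) (nat_lit 5) (nat_lit 56) (nat_lit 5) (nat_lit 52) (nat_lit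 5) (nat_lit 275) (nat_lit 264) (nat_lit 181)) (XT.lf (nat_lit 0) (nat_lit 8635908070) (nat_lit 380) (nat_lit 31186202267) (nat_lit 76) (nat_lit 4033474289) (nat_lit 47) (nat_lit 5) (nat_lit 52) (nat_lit 5) (nat_lit 48) (nat_lit 5) (nat_lit 276) (nat_lit 264) (nat_lit 180)))))) (XT.nd (nat_lit 390) (nat_lit 608) (nat_lit 0) (XT.nd (nat_lit 156) (nat_lit 532) (nat_lit 0) (XT.nd (nat_lit 78) (nat_lit 304) (nat_lit 0) (XT.lf (nat_lit 0) (nat_lit 16001761079) (nat_lit 380) (nat_lit 1409640058) (nat_lit 76) (nat_lit 28611589353) (nat_lit 47) (nat_lit 5) (nat_lit 52) (nat_lit 5) (nat_lit 48) (nat_lit 5) (nat_lit 277) (nat_lit 264) (nat_lit 179)) (XT.lf (nat_lit 0) (nat_lit 24560907748) (nat_lit 380) (nat_lit 16694647374) (nat_lit 76) (nat_lit 7078053025) (nat_lit 43) (nat_lit 5) (nat_lit 48) (nat_lit 5) (nat_lit 44) (nat_lit 5) (nat_lit 278) (nat_lit 264) (nat_lit 178))) (XT.nd (nat_lit 78)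 (nat_lit 304) (nat_lit 0) (XT.lf (nat_lit 0) (nat_lit 16790660451) (nat_lit 228) (nat_lit 17589170510) (nat_lit 304) (nat_lit 16420511084) (nat_lit 40) (nat_lit 5) (nat_lit 43) (nat_lit 5) (nat_lit 44) (nat_lit 5) (nat_lit 279) (nat_lit 264) (nat_lit 177)) (XT.nd (nat_lit 78) (nat_lit 304) (nat_lit 0) (XT.lf (nat_lit 0) (nat_lit 45398939377) (nat_lit 304) (nat_lit 34801890) (nat_lit 76) (nat_lit 8009957479) (nat_lit 40) (nat_lit 5) (nat_lit 44) (nat_lit 5) (nat_lit 41) (nat_lit 5) (nat_lit 280) (nat_lit 264) (nat_lit 176)) (XT.lf (nat_lit 0) (nat_lit 1861399671) (nat_lit 304) (nat_lit 18727286533) (nat_lit 76) (nat_lit 35664452531) (nat_lit 36) (nat_lit 5) (nat_lit 40) (nat_lit 5) (nat_lit 37) (nat_lit 5) (nat_lit 281) (nat_lit 264) (nat_lit 175))))) (XT.nd (nat_lit 156) (nat_lit 380) (nat_lit 0) (XT.nd (nat_lit 78) (nat_lit 0) (nat_lit 0) (XT.lf (nat_lit 0) (nat_lit 12683476863) (nat_lit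 304) (nat_lit 40089697346) (nat_lit 76) (nat_lit 6487316337) (nat_lit 33) (nat_lit 5) (nat_lit 37) (nat_lit 5) (nat_lit 34) (nat_lit 5) (nat_lit 282) (nat_lit 264) (nat_lit 174)) (XT.lf (nat_lit 0) (nat_lit 25045521286) (nat_lit 304) (nat_lit 2081200545) (nat_lit 76) (nat_lit 35348011968) (nat_lit 33) (nat_lit 5) (nat_lit 37) (nat_lit 5) (nat_lit 34) (nat_lit 5) (nat_lit 283) (nat_lit 264) (nat_lit 173))) (XT.nd (nat_lit 78) (nat_lit 152) (nat_lit 0) (XT.lf (nat_lit 0) (nat_lit 39039965470) (nat_lit 304) (nat_lit 25683458672) (nat_lit 76) (nat_lit 1190532919) (nat_lit 30) (nat_lit 5) (nat_lit 34) (nat_lit 5) (nat_lit 31) (nat_lit 5) (nat_lit 284) (nat_lit 264) (nat_lit 172)) (XT.nd (nat_lit 78) (nat_lit 0) (nat_lit 0) (XT.lf (nat_lit 0) (nat_lit 16437516351) (nat_lit 152) (nat_lit 38463352032) (nat_lit 228) (nat_lit 14690116087) (nat_lit 28) (nat_lit 5) (nat_lit 30) (nat_lit 5) (nat_lit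 31) (nat_lit 5) (nat_lit 285) (nat_lit 264) (nat_lit 171)) (XT.lf (nat_lit 0) (nat_lit 62840024721) (nat_lit 152) (nat_lit 9634234649) (nat_lit 228) (nat_lit 1065744507) (nat_lit 28) (nat_lit 5) (nat_lit 30) (nat_lit 5) (nat_lit 31) (nat_lit 5) (nat_lit 286) (nat_lit 264) (nat_lit 170))))))))
noncomputable def xc95 : XT := (XT.nd (nat_lit 1482) (nat_lit 304) (nat_lit 0) (XT.nd (nat_lit 702) (nat_lit 532) (nat_lit 0) (XT.nd (nat_lit 312) (nat_lit 380) (nat_lit 0) (XT.nd (nat_lit 156) (nat_lit 152) (nat_lit 0) (XT.nd (nat_lit 78) (nat_lit 152) (nat_lit 0) (XT.lf (nat_lit 0) (nat_lit 14119991304) (nat_lit 304) (nat_lit 42028040375) (nat_lit 76) (nat_lit 21600855165) (nat_lit 24) (nat_lit 5) (nat_lit 28) (nat_lit 5) (nat_lit 25) (nat_lit 5) (nat_lit 287) (nat_lit 264) (nat_lit 169)) (XT.lf (nat_lit 0) (nat_lit 3888278285) (nat_lit 152) (nat_lit 27004673877) (nat_lit 228) (nat_lit 51380178144)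 (nat_lit 22) (nat_lit 5) (nat_lit 24) (nat_lit 5) (nat_lit 25) (nat_lit 5) (nat_lit 288) (nat_lit 264) (nat_lit 168))) (XT.nd (nat_lit 78) (nat_lit 152) (nat_lit 0) (XT.lf (nat_lit 0) (nat_lit 49818403444) (nat_lit 228) (nat_lit 32230684506) (nat_lit 76) (nat_lit 5069700631) (nat_lit 22) (nat_lit 5) (nat_lit 25) (nat_lit 5) (nat_lit 23) (nat_lit 5) (nat_lit 289) (nat_lit 264) (nat_lit 167)) (XT.lf (nat_lit 0) (nat_lit 17723190256) (nat_lit 152) (nat_lit 53263756383) (nat_lit 228) (nat_lit 21328707505) (nat_lit 20) (nat_lit 5) (nat_lit 22) (nat_lit 5) (nat_lit 23) (nat_lit 5) (nat_lit 290) (nat_lit 264) (nat_lit 166)))) (XT.nd (nat_lit 156) (nat_lit 152) (nat_lit 0) (XT.nd (nat_lit 78) (nat_lit 228) (nat_lit 0) (XT.lf (nat_lit 0) (nat_lit 72819988454) (nat_lit 152) (nat_lit 21587576211) (nat_lit 228) (nat_lit 3492781589) (nat_lit 20) (nat_lit 5) (nat_lit 22) (nat_lit 5) (nat_lit 23) (nat_lit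 5) (nat_lit 291) (nat_lit 264) (nat_lit 165)) (XT.lf (nat_lit 0) (nat_lit 15925034966) (nat_lit 228) (nat_lit 75032569197) (nat_lit 76) (nat_lit 12928917134) (nat_lit 17) (nat_lit 5) (nat_lit 20) (nat_lit 5) (nat_lit 18) (nat_lit 5) (nat_lit 292) (nat_lit 264) (nat_lit 164))) (XT.nd (nat_lit 78) (nat_lit 152) (nat_lit 0) (XT.lf (nat_lit 0) (nat_lit 37581025487) (nat_lit 228) (nat_lit 22765231137) (nat_lit 76) (nat_lit 49962120457) (nat_lit 17) (nat_lit 5) (nat_lit 20) (nat_lit 5) (nat_lit 18) (nat_lit 5) (nat_lit 293) (nat_lit 264) (nat_lit 163)) (XT.nd (nat_lit 78) (nat_lit 0) (nat_lit 0) (XT.lf (nat_lit 0) (nat_lit 34793357414) (nat_lit 152) (nat_lit 26716981027) (nat_lit 228) (nat_lit 55706605922) (nat_lit 15) (nat_lit 5) (nat_lit 17) (nat_lit 5) (nat_lit 18) (nat_lit 5) (nat_lit 294) (nat_lit 264) (nat_lit 162)) (XT.lf (nat_lit 0) (nat_lit 87904698132) (nat_lit 228) (nat_lit 27048897911)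 (nat_lit 76) (nat_lit 9697070707) (nat_lit 15) (nat_lit 5) (nat_lit 18) (nat_lit 5) (nat_lit 16) (nat_lit 4) (nat_lit 295) (nat_lit 264) (nat_lit 161)))))) (XT.nd (nat_lit 390) (nat_lit 228) (nat_lit 0) (XT.nd (nat_lit 156) (nat_lit 152) (nat_lit 0) (XT.nd (nat_lit 78) (nat_lit 76) (nat_lit 0) (XT.lf (nat_lit 0) (nat_lit 33369911187) (nat_lit 76) (nat_lit 84010080236) (nat_lit 152) (nat_lit 15250630717) (nat_lit 14) (nat_lit 5) (nat_lit 15) (nat_lit 5) (nat_lit 16) (nat_lit 4) (nat_lit 296) (nat_lit 264) (nat_lit 160)) (XT.lf (nat_lit 0) (nat_lit 8186282815) (nat_lit 152) (nat_lit 41772679585) (nat_lit 76) (nat_lit 91259955355) (nat_lit 13) (nat_lit 5) (nat_lit 15) (nat_lit 5) (nat_lit 14) (nat_lit 5) (nat_lit 297) (nat_lit 264) (nat_lit 159))) (XT.nd (nat_lit 78) (nat_lit 0) (nat_lit 0) (XT.lf (nat_lit 0) (nat_lit 20717241320) (nat_lit 152) (nat_lit 12575307380) (nat_lit 228) (nat_lit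 117172796085) (nat_lit 11) (nat_lit 5) (nat_lit 13) (nat_lit 5) (nat_lit 14) (nat_lit 5) (nat_lit 298) (nat_lit 264) (nat_lit 158)) (XT.nd (nat_lit 78) (nat_lit 0) (nat_lit 0) (XT.lf (nat_lit 0) (nat_lit 61579104430) (nat_lit 228) (nat_lit 71166030092) (nat_lit 76) (nat_lit 27647765392) (nat_lit 11) (nat_lit 5) (nat_lit 14) (nat_lit 5) (nat_lit 12) (nat_lit 4) (nat_lit 299) (nat_lit 264) (nat_lit 157)) (XT.lf (nat_lit 0) (nat_lit 92338947442) (nat_lit 228) (nat_lit 8112231578) (nat_lit 76) (nat_lit 70652965409) (nat_lit 11) (nat_lit 5) (nat_lit 14) (nat_lit 5) (nat_lit 12) (nat_lit 4) (nat_lit 300) (nat_lit 264) (nat_lit 156))))) (XT.nd (nat_lit 156) (nat_lit 152) (nat_lit 0) (XT.nd (nat_lit 78) (nat_lit 0) (nat_lit 0) (XT.lf (nat_lit 0) (nat_lit 61966598136) (nat_lit 76) (nat_lit 64558896620) (nat_lit 152) (nat_lit 56098500792) (nat_lit 10) (nat_lit 5) (nat_lit 11) (nat_lit 5) (nat_lit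 12) (nat_lit 4) (nat_lit 301) (nat_lit 264) (nat_lit 155)) (XT.lf (nat_lit 0) (nat_lit 137938941183) (nat_lit 76) (nat_lit 25647855636) (nat_lit 152) (nat_lit 31471649060) (nat_lit 10) (nat_lit 5) (nat_lit 11) (nat_lit 5) (nat_lit 12) (nat_lit 4) (nat_lit 302) (nat_lit 264) (nat_lit 154))) (XT.nd (nat_lit 78) (nat_lit 76) (nat_lit 0) (XT.lf (nat_lit 0) (nat_lit 11615149286) (nat_lit 76) (nat_lit 192433491344) (nat_lit 76) (nat_lit 4417232203) (nat_lit 9) (nat_lit 4) (nat_lit 10) (nat_lit 5) (nat_lit 10) (nat_lit 4) (nat_lit 303) (nat_lit 264) (nat_lit 153)) (XT.nd (nat_lit 78) (nat_lit 0) (nat_lit 0) (XT.lf (nat_lit 0) (nat_lit 25450159559) (nat_lit 152) (nat_lit 135846147917) (nat_lit 76) (nat_lit 61558106290) (nat_lit 8) (nat_lit 5) (nat_lit 10) (nat_lit 5) (nat_lit 9) (nat_lit 4) (nat_lit 304) (nat_lit 264) (nat_lit 152)) (XT.lf (nat_lit 0) (nat_lit 57553012414) (nat_lit 152) (nat_lit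 70037814263) (nat_lit 76) (nat_lit 110799551233) (nat_lit 8) (nat_lit 5) (nat_lit 10) (nat_lit 5) (nat_lit 9) (nat_lit 4) (nat_lit 305) (nat_lit 264) (nat_lit 151))))))) (XT.nd (nat_lit 702) (nat_lit 76) (nat_lit 0) (XT.nd (nat_lit 312) (nat_lit 152) (nat_lit 0) (XT.nd (nat_lit 156) (nat_lit 0) (nat_lit 0) (XT.nd (nat_lit 78) (nat_lit 0) (nat_lit 0) (XT.lf (nat_lit 0) (nat_lit 1067380957) (nat_lit 76) (nat_lit 91172228356) (nat_lit 152) (nat_lit 162928835951) (nat_lit 7) (nat_lit 5) (nat_lit 8) (nat_lit 5) (nat_lit 9) (nat_lit 4) (nat_lit 306) (nat_lit 264) (nat_lit 150)) (XT.lf (nat_lit 0) (nat_lit 80360137092) (nat_lit 76) (nat_lit 50559917139) (nat_lit 152) (nat_lit 142307759494) (nat_lit 7) (nat_lit 5) (nat_lit 8) (nat_lit 5) (nat_lit 9) (nat_lit 4) (nat_lit 307) (nat_lit 264) (nat_lit 149))) (XT.nd (nat_lit 78) (nat_lit 0) (nat_lit 0) (XT.lf (nat_lit 0) (nat_lit 165994570703) (nat_lit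 76) (nat_lit 6699351752) (nat_lit 152) (nat_lit 120038061426) (nat_lit 7) (nat_lit 5) (nat_lit 8) (nat_lit 5) (nat_lit 9) (nat_lit 4) (nat_lit 308) (nat_lit 264) (nat_lit 148)) (XT.lf (nat_lit 0) (nat_lit 218443725865) (nat_lit 152) (nat_lit 55953353934) (nat_lit 0) (nat_lit 39367708048) (nat_lit 7) (nat_lit 5) (nat_lit 9) (nat_lit 4) (nat_lit 7) (nat_lit 4) (nat_lit 309) (nat_lit 264) (nat_lit 147)))) (XT.nd (nat_lit 156) (nat_lit 76) (nat_lit 0) (XT.nd (nat_lit 78) (nat_lit 0) (nat_lit 0) (XT.lf (nat_lit 0) (nat_lit 21052757102) (nat_lit 76) (nat_lit 247241534638) (nat_lit 76) (nat_lit 68163886858) (nat_lit 6) (nat_lit 4) (nat_lit 7) (nat_lit 5) (nat_lit 7) (nat_lit 4) (nat_lit 310) (nat_lit 264) (nat_lit 146)) (XT.lf (nat_lit 0) (nat_lit 106215970362) (nat_lit 76) (nat_lit 216890768365) (nat_lit 76) (nat_lit 37811611361) (nat_lit 6) (nat_lit 4) (nat_lit 7) (nat_lit 5) (nat_lit 7) (nat_lit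 4) (nat_lit 311) (nat_lit 264) (nat_lit 145))) (XT.nd (nat_lit 78) (nat_lit 76) (nat_lit 0) (XT.lf (nat_lit 0) (nat_lit 198190886165) (nat_lit 76) (nat_lit 184112521713) (nat_lit 76) (nat_lit 5031967278) (nat_lit 6) (nat_lit 4) (nat_lit 7) (nat_lit 5) (nat_lit 7) (nat_lit 4) (nat_lit 312) (nat_lit 264) (nat_lit 144)) (XT.nd (nat_lit 78) (nat_lit 0) (nat_lit 0) (XT.lf (nat_lit 0) (nat_lit 29397288027) (nat_lit 152) (nat_lit 118817407894) (nat_lit 76) (nat_lit 267627395725) (nat_lit 5) (nat_lit 5) (nat_lit 7) (nat_lit 5) (nat_lit 6) (nat_lit 4) (nat_lit 313) (nat_lit 264) (nat_lit 143)) (XT.lf (nat_lit 0) (nat_lit 66406269945) (nat_lit 152) (nat_lit 42950193034) (nat_lit 76) (nat_lit 337268674785) (nat_lit 5) (nat_lit 5) (nat_lit 7) (nat_lit 5) (nat_lit 6) (nat_lit 4) (nat_lit 314) (nat_lit 264) (nat_lit 142)))))) (XT.nd (nat_lit 390) (nat_lit 0) (nat_lit 0) (XT.nd (nat_lit 156) (nat_lit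 0) (nat_lit 0) (XT.nd (nat_lit 78) (nat_lit 0) (nat_lit 0) (XT.lf (nat_lit 0) (nat_lit 40274332349) (nat_lit 76) (nat_lit 66729808185) (nat_lit 152) (nat_lit 372835279421) (nat_lit 4) (nat_lit 5) (nat_lit 5) (nat_lit 5) (nat_lit 6) (nat_lit 4) (nat_lit 315) (nat_lit 264) (nat_lit 141)) (XT.lf (nat_lit 0) (nat_lit 131689508150) (nat_lit 76) (nat_lit 19907902118) (nat_lit 152) (nat_lit 364076056806) (nat_lit 4) (nat_lit 5) (nat_lit 5) (nat_lit 5) (nat_lit 6) (nat_lit 4) (nat_lit 316) (nat_lit 264) (nat_lit 140))) (XT.nd (nat_lit 78) (nat_lit 0) (nat_lit 0) (XT.lf (nat_lit 0) (nat_lit 200236268668) (nat_lit 152) (nat_lit 324436017861) (nat_lit 0) (nat_lit 29678045841) (nat_lit 4) (nat_lit 5) (nat_lit 6) (nat_lit 4) (nat_lit 4) (nat_lit 4) (nat_lit 317) (nat_lit 264) (nat_lit 139)) (XT.nd (nat_lit 78) (nat_lit 0) (nat_lit 0) (XT.lf (nat_lit 0) (nat_lit 253101403008) (nat_lit 152) (nat_lit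 260460844730) (nat_lit 0) (nat_lit 82542341497) (nat_lit 4) (nat_lit 5) (nat_lit 6) (nat_lit 4) (nat_lit 4) (nat_lit 4) (nat_lit 318) (nat_lit 264) (nat_lit 138)) (XT.lf (nat_lit 0) (nat_lit 310195270013) (nat_lit 152) (nat_lit 191368509251) (nat_lit 0) (nat_lit 139635431943) (nat_lit 4) (nat_lit 5) (nat_lit 6) (nat_lit 4) (nat_lit 4) (nat_lit 4) (nat_lit 319) (nat_lit 264) (nat_lit 137))))) (XT.nd (nat_lit 33306) (nat_lit 0) (nat_lit 4636) (XT.nd (nat_lit 33228) (nat_lit 0) (nat_lit 4636) (XT.lf (nat_lit 0) (nat_lit 371856203711) (nat_lit 152) (nat_lit 116749575361) (nat_lit 0) (nat_lit 201295646605) (nat_lit 4) (nat_lit 5) (nat_lit 6) (nat_lit 4) (nat_lit 4) (nat_lit 4) (nat_lit 320) (nat_lit 264) (nat_lit 136)) (XT.lf (nat_lit 0) (nat_lit 1621151134) (nat_lit 0) (nat_lit 1621151134) (nat_lit 684) (nat_lit 10872049318) (nat_lit 65) (nat_lit 5) (nat_lit 65) (nat_lit 3) (nat_lit 74) (nat_lit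 3) (nat_lit 265) (nat_lit 265) (nat_lit 190))) (XT.nd (nat_lit 78) (nat_lit 0) (nat_lit 76) (XT.lf (nat_lit 0) (nat_lit 7112699481) (nat_lit 684) (nat_lit 6621614259) (nat_lit 760) (nat_lit 15604635377) (nat_lit 65) (nat_lit 5) (nat_lit 74) (nat_lit 3) (nat_lit 75) (nat_lit 5) (nat_lit 266) (nat_lit 265) (nat_lit 189)) (XT.nd (nat_lit 78) (nat_lit 0) (nat_lit 0) (XT.lf (nat_lit 0) (nat_lit 8132701958) (nat_lit 684) (nat_lit 17025851968) (nat_lit 760) (nat_lit 5362424499) (nat_lit 66) (nat_lit 5) (nat_lit 75) (nat_lit 5) (nat_lit 76) (nat_lit 5) (nat_lit 267) (nat_lit 265) (nat_lit 188)) (XT.lf (nat_lit 76) (nat_lit 3538694303) (nat_lit 0) (nat_lit 6088896971) (nat_lit 760) (nat_lit 22150357699) (nat_lit 67) (nat_lit 5) (nat_lit 66) (nat_lit 5) (nat_lit 76) (nat_lit 5) (nat_lit 268) (nat_lit 265) (nat_lit 187))))))))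
noncomputable def xc96 : XT := (XT.nd (nat_lit 1404) (nat_lit 1520) (nat_lit 0) (XT.nd (nat_lit 702) (nat_lit 1444) (nat_lit 0) (XT.nd (nat_lit 312) (nat_lit 1520) (nat_lit 0) (XT.nd (nat_lit 156) (nat_lit 0) (nat_lit 76) (XT.nd (nat_lit 78) (nat_lit 0) (nat_lit 76) (XT.lf (nat_lit 0) (nat_lit 11759963202) (nat_lit 684) (nat_lit 7002847656) (nat_lit 760) (nat_lit 14346811761) (nat_lit 67) (nat_lit 5) (nat_lit 76) (nat_lit 5) (nat_lit 77) (nat_lit 5) (nat_lit 269) (nat_lit 265) (nat_lit 186)) (XT.lf (nat_lit 0) (nat_lit 14441721984) (nat_lit 684) (nat_lit 18214368131) (nat_lit 760) (nat_lit 1872837249) (nat_lit 68) (nat_lit 5) (nat_lit 77) (nat_lit 5) (nat_lit 78) (nat_lit 5) (nat_lit 270) (nat_lit 265) (nat_lit 185))) (XT.nd (nat_lit 78) (nat_lit 0) (nat_lit 76) (XT.lf (nat_lit 76) (nat_lit 5543893133) (nat_lit 0) (nat_lit 12312376823) (nat_lit 760) (nat_lit 18179628424) (nat_lit 69)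 (nat_lit 5) (nat_lit 68) (nat_lit 5) (nat_lit 78) (nat_lit 5) (nat_lit 271) (nat_lit 265) (nat_lit 184)) (XT.lf (nat_lit 0) (nat_lit 22009161982) (nat_lit 684) (nat_lit 5957404103) (nat_lit 76) (nat_lit 9673633757) (nat_lit 69) (nat_lit 5) (nat_lit 78) (nat_lit 5) (nat_lit 70) (nat_lit 5) (nat_lit 272) (nat_lit 265) (nat_lit 183)))) (XT.nd (nat_lit 156) (nat_lit 684) (nat_lit 0) (XT.nd (nat_lit 78) (nat_lit 304) (nat_lit 0) (XT.lf (nat_lit 0) (nat_lit 20997860445) (nat_lit 684) (nat_lit 6024364776) (nat_lit 760) (nat_lit 12324252626) (nat_lit 60) (nat_lit 5) (nat_lit 69) (nat_lit 5) (nat_lit 70) (nat_lit 5) (nat_lit 273) (nat_lit 265) (nat_lit 182)) (XT.lf (nat_lit 0) (nat_lit 9146669871) (nat_lit 304) (nat_lit 23806837815) (nat_lit 380) (nat_lit 8209918943) (nat_lit 56) (nat_lit 5) (nat_lit 60) (nat_lit 5) (nat_lit 61) (nat_lit 5) (nat_lit 274) (nat_lit 265) (nat_lit 181))) (XT.nd (nat_lit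 78) (nat_lit 684) (nat_lit 0) (XT.lf (nat_lit 0) (nat_lit 39385487594) (nat_lit 304) (nat_lit 386756448) (nat_lit 380) (nat_lit 3332864928) (nat_lit 56) (nat_lit 5) (nat_lit 60) (nat_lit 5) (nat_lit 61) (nat_lit 5) (nat_lit 275) (nat_lit 265) (nat_lit 180)) (XT.nd (nat_lit 78) (nat_lit 304) (nat_lit 0) (XT.lf (nat_lit 0) (nat_lit 2694985065) (nat_lit 380) (nat_lit 17884539708) (nat_lit 76) (nat_lit 24579986182) (nat_lit 51) (nat_lit 5) (nat_lit 56) (nat_lit 5) (nat_lit 52) (nat_lit 5) (nat_lit 276) (nat_lit 265) (nat_lit 179)) (XT.lf (nat_lit 0) (nat_lit 9443469322) (nat_lit 380) (nat_lit 33550441937) (nat_lit 76) (nat_lit 4363883899) (nat_lit 47) (nat_lit 5) (nat_lit 52) (nat_lit 5) (nat_lit 48) (nat_lit 5) (nat_lit 277) (nat_lit 265) (nat_lit 178)))))) (XT.nd (nat_lit 312) (nat_lit 684) (nat_lit 0) (XT.nd (nat_lit 156) (nat_lit 456) (nat_lit 0) (XT.nd (nat_lit 78) (nat_lit 304) (nat_lit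 0) (XT.lf (nat_lit 0) (nat_lit 17389946970) (nat_lit 380) (nat_lit 1401433011) (nat_lit 76) (nat_lit 30907675453) (nat_lit 47) (nat_lit 5) (nat_lit 52) (nat_lit 5) (nat_lit 48) (nat_lit 5) (nat_lit 278) (nat_lit 265) (nat_lit 177)) (XT.lf (nat_lit 0) (nat_lit 26627845349) (nat_lit 380) (nat_lit 17909278159) (nat_lit 76) (nat_lit 7657725555) (nat_lit 43) (nat_lit 5) (nat_lit 48) (nat_lit 5) (nat_lit 44) (nat_lit 5) (nat_lit 279) (nat_lit 265) (nat_lit 176))) (XT.nd (nat_lit 78) (nat_lit 228) (nat_lit 0) (XT.lf (nat_lit 0) (nat_lit 18249598344) (nat_lit 228) (nat_lit 18976929875) (nat_lit 304) (nat_lit 17632706683) (nat_lit 40) (nat_lit 5) (nat_lit 43) (nat_lit 5) (nat_lit 44) (nat_lit 5) (nat_lit 280) (nat_lit 265) (nat_lit 175)) (XT.lf (nat_lit 0) (nat_lit 76450745) (nat_lit 228) (nat_lit 49045054120) (nat_lit 304) (nat_lit 8592861922) (nat_lit 37) (nat_lit 5) (nat_lit 40) (nat_lit 5)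 (nat_lit 41) (nat_lit 5) (nat_lit 281) (nat_lit 265) (nat_lit 174)))) (XT.nd (nat_lit 156) (nat_lit 380) (nat_lit 0) (XT.nd (nat_lit 78) (nat_lit 228) (nat_lit 0) (XT.lf (nat_lit 0) (nat_lit 2096458370) (nat_lit 304) (nat_lit 20115620288) (nat_lit 76) (nat_lit 38536743397) (nat_lit 36) (nat_lit 5) (nat_lit 40) (nat_lit 5) (nat_lit 37) (nat_lit 5) (nat_lit 282) (nat_lit 265) (nat_lit 173)) (XT.lf (nat_lit 0) (nat_lit 13779930560) (nat_lit 304) (nat_lit 43187855971) (nat_lit 76) (nat_lit 7029213332) (nat_lit 33) (nat_lit 5) (nat_lit 37) (nat_lit 5) (nat_lit 34) (nat_lit 5) (nat_lit 283) (nat_lit 265) (nat_lit 172))) (XT.nd (nat_lit 78) (nat_lit 380) (nat_lit 0) (XT.lf (nat_lit 0) (nat_lit 27124881089) (nat_lit 304) (nat_lit 2146754771) (nat_lit 76) (nat_lit 38197067450) (nat_lit 33) (nat_lit 5) (nat_lit 37) (nat_lit 5) (nat_lit 34) (nat_lit 5) (nat_lit 284) (nat_lit 265) (nat_lit 171))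 (XT.nd (nat_lit 78) (nat_lit 152) (nat_lit 0) (XT.lf (nat_lit 0) (nat_lit 42235168909) (nat_lit 304) (nat_lit 27638182120) (nat_lit 76) (nat_lit 1309915539) (nat_lit 30) (nat_lit 5) (nat_lit 34) (nat_lit 5) (nat_lit 31) (nat_lit 5) (nat_lit 285) (nat_lit 265) (nat_lit 170)) (XT.lf (nat_lit 0) (nat_lit 17848127058) (nat_lit 152) (nat_lit 41512975935) (nat_lit 228) (nat_lit 15793560545) (nat_lit 28) (nat_lit 5) (nat_lit 30) (nat_lit 5) (nat_lit 31) (nat_lit 5) (nat_lit 286) (nat_lit 265) (nat_lit 169))))))) (XT.nd (nat_lit 702) (nat_lit 532) (nat_lit 0) (XT.nd (nat_lit 312) (nat_lit 532) (nat_lit 0) (XT.nd (nat_lit 156) (nat_lit 152) (nat_lit 0) (XT.nd (nat_lit 78) (nat_lit 304) (nat_lit 0) (XT.lf (nat_lit 0) (nat_lit 67955753920) (nat_lit 152) (nat_lit 10379562070) (nat_lit 228) (nat_lit 1084555152) (nat_lit 28) (nat_lit 5) (nat_lit 30) (nat_lit 5) (nat_lit 31) (nat_lit 5) (nat_lit 287)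 (nat_lit 265) (nat_lit 168)) (XT.lf (nat_lit 0) (nat_lit 15310909853) (nat_lit 304) (nat_lit 45300611175) (nat_lit 76) (nat_lit 23354054494) (nat_lit 24) (nat_lit 5) (nat_lit 28) (nat_lit 5) (nat_lit 25) (nat_lit 5) (nat_lit 288) (nat_lit 265) (nat_lit 167))) (XT.nd (nat_lit 78) (nat_lit 0) (nat_lit 0) (XT.lf (nat_lit 0) (nat_lit 4285115923) (nat_lit 152) (nat_lit 29137388685) (nat_lit 228) (nat_lit 55429425581) (nat_lit 22) (nat_lit 5) (nat_lit 24) (nat_lit 5) (nat_lit 25) (nat_lit 5) (nat_lit 289) (nat_lit 265) (nat_lit 166)) (XT.lf (nat_lit 0) (nat_lit 53858086931) (nat_lit 228) (nat_lit 34727292894) (nat_lit 76) (nat_lit 5500067274) (nat_lit 22) (nat_lit 5) (nat_lit 25) (nat_lit 5) (nat_lit 23) (nat_lit 5) (nat_lit 290) (nat_lit 265) (nat_lit 165)))) (XT.nd (nat_lit 156) (nat_lit 380) (nat_lit 0) (XT.nd (nat_lit 78) (nat_lit 0) (nat_lit 0) (XT.lf (nat_lit 0) (nat_lit 19219334905)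 (nat_lit 152) (nat_lit 57497985349) (nat_lit 228) (nat_lit 22980891246) (nat_lit 20) (nat_lit 5) (nat_lit 22) (nat_lit 5) (nat_lit 23) (nat_lit 5) (nat_lit 291) (nat_lit 265) (nat_lit 164)) (XT.lf (nat_lit 0) (nat_lit 78718077741) (nat_lit 152) (nat_lit 23289701247) (nat_lit 228) (nat_lit 3722099617) (nat_lit 20) (nat_lit 5) (nat_lit 22) (nat_lit 5) (nat_lit 23) (nat_lit 5) (nat_lit 292) (nat_lit 265) (nat_lit 163))) (XT.nd (nat_lit 78) (nat_lit 152) (nat_lit 0) (XT.lf (nat_lit 0) (nat_lit 17245443853) (nat_lit 228) (nat_lit 80962183826) (nat_lit 76) (nat_lit 13987393702) (nat_lit 17) (nat_lit 5) (nat_lit 20) (nat_lit 5) (nat_lit 18) (nat_lit 5) (nat_lit 293) (nat_lit 265) (nat_lit 162)) (XT.nd (nat_lit 78) (nat_lit 152) (nat_lit 0) (XT.lf (nat_lit 0) (nat_lit 40630476128) (nat_lit 228) (nat_lit 24518865455) (nat_lit 76) (nat_lit 53981463425) (nat_lit 17) (nat_lit 5) (nat_lit 20) (nat_lit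 5) (nat_lit 18) (nat_lit 5) (nat_lit 294) (nat_lit 265) (nat_lit 161)) (XT.lf (nat_lit 0) (nat_lit 37641473055) (nat_lit 152) (nat_lit 28830487526) (nat_lit 228) (nat_lit 60120212718) (nat_lit 15) (nat_lit 5) (nat_lit 17) (nat_lit 5) (nat_lit 18) (nat_lit 5) (nat_lit 295) (nat_lit 265) (nat_lit 160)))))) (XT.nd (nat_lit 390) (nat_lit 228) (nat_lit 0) (XT.nd (nat_lit 156) (nat_lit 228) (nat_lit 0) (XT.nd (nat_lit 78) (nat_lit 76) (nat_lit 0) (XT.lf (nat_lit 0) (nat_lit 94975192001) (nat_lit 228) (nat_lit 29151327092) (nat_lit 76) (nat_lit 10494214670) (nat_lit 15) (nat_lit 5) (nat_lit 18) (nat_lit 5) (nat_lit 16) (nat_lit 4) (nat_lit 296) (nat_lit 265) (nat_lit 159)) (XT.lf (nat_lit 0) (nat_lit 36098314774) (nat_lit 76) (nat_lit 90708288625) (nat_lit 152) (nat_lit 16432583410) (nat_lit 14) (nat_lit 5) (nat_lit 15) (nat_lit 5) (nat_lit 16) (nat_lit 4) (nat_lit 297) (nat_lit 265) (nat_lit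 158))) (XT.nd (nat_lit 78) (nat_lit 152) (nat_lit 0) (XT.lf (nat_lit 0) (nat_lit 8875332104) (nat_lit 152) (nat_lit 45058844896) (nat_lit 76) (nat_lit 98580481173) (nat_lit 13) (nat_lit 5) (nat_lit 15) (nat_lit 5) (nat_lit 14) (nat_lit 5) (nat_lit 298) (nat_lit 265) (nat_lit 157)) (XT.nd (nat_lit 78) (nat_lit 0) (nat_lit 0) (XT.lf (nat_lit 0) (nat_lit 22427851242) (nat_lit 152) (nat_lit 13560549715) (nat_lit 228) (nat_lit 126512488188) (nat_lit 11) (nat_lit 5) (nat_lit 13) (nat_lit 5) (nat_lit 14) (nat_lit 5) (nat_lit 299) (nat_lit 265) (nat_lit 156)) (XT.lf (nat_lit 0) (nat_lit 66535777997) (nat_lit 228) (nat_lit 76808766786) (nat_lit 76) (nat_lit 29878213562) (nat_lit 11) (nat_lit 5) (nat_lit 14) (nat_lit 5) (nat_lit 12) (nat_lit 4) (nat_lit 300) (nat_lit 265) (nat_lit 155))))) (XT.nd (nat_lit 156) (nat_lit 152) (nat_lit 0) (XT.nd (nat_lit 78) (nat_lit 76) (nat_lit 0) (XT.lf (nat_lit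 0) (nat_lit 99754160657) (nat_lit 228) (nat_lit 8714408518) (nat_lit 76) (nat_lit 76322449807) (nat_lit 11) (nat_lit 5) (nat_lit 14) (nat_lit 5) (nat_lit 12) (nat_lit 4) (nat_lit 301) (nat_lit 265) (nat_lit 154)) (XT.lf (nat_lit 0) (nat_lit 66968693633) (nat_lit 76) (nat_lit 69705555781) (nat_lit 152) (nat_lit 60558281755) (nat_lit 10) (nat_lit 5) (nat_lit 11) (nat_lit 5) (nat_lit 12) (nat_lit 4) (nat_lit 302) (nat_lit 265) (nat_lit 153))) (XT.nd (nat_lit 78) (nat_lit 152) (nat_lit 0) (XT.lf (nat_lit 0) (nat_lit 149015508002) (nat_lit 76) (nat_lit 27682968746) (nat_lit 152) (nat_lit 33963363299) (nat_lit 10) (nat_lit 5) (nat_lit 11) (nat_lit 5) (nat_lit 12) (nat_lit 4) (nat_lit 303) (nat_lit 265) (nat_lit 152)) (XT.nd (nat_lit 78) (nat_lit 76) (nat_lit 0) (XT.lf (nat_lit 0) (nat_lit 12584987499) (nat_lit 76) (nat_lit 207811324187) (nat_lit 76) (nat_lit 4745600601) (nat_lit 9) (nat_lit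 4) (nat_lit 10) (nat_lit 5) (nat_lit 10) (nat_lit 4) (nat_lit 304) (nat_lit 265) (nat_lit 151)) (XT.lf (nat_lit 0) (nat_lit 27508588709) (nat_lit 152) (nat_lit 146675445154) (nat_lit 76) (nat_lit 66497575692) (nat_lit 8) (nat_lit 5) (nat_lit 10) (nat_lit 5) (nat_lit 9) (nat_lit 4) (nat_lit 305) (nat_lit 265) (nat_lit 150))))))))
noncomputable def xc97 : XT := (XT.nd (nat_lit 34632) (nat_lit 0) (nat_lit 1824) (XT.nd (nat_lit 702) (nat_lit 76) (nat_lit 0) (XT.nd (nat_lit 312) (nat_lit 152) (nat_lit 0) (XT.nd (nat_lit 156) (nat_lit 0) (nat_lit 0) (XT.nd (nat_lit 78) (nat_lit 76) (nat_lit 0) (XT.lf (nat_lit 0) (nat_lit 62178009319) (nat_lit 152) (nat_lit 75605288851) (nat_lit 76) (nat_lit 119677238386) (nat_lit 8) (nat_lit 5) (nat_lit 10) (nat_lit 5) (nat_lit 9) (nat_lit 4) (nat_lit 306) (nat_lit 265) (nat_lit 149)) (XT.lf (nat_lit 0) (nat_lit 1186777002) (nat_lit 76) (nat_lit 98451750415)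 (nat_lit 152) (nat_lit 175942374713) (nat_lit 7) (nat_lit 5) (nat_lit 8) (nat_lit 5) (nat_lit 9) (nat_lit 4) (nat_lit 307) (nat_lit 265) (nat_lit 148))) (XT.nd (nat_lit 78) (nat_lit 0) (nat_lit 0) (XT.lf (nat_lit 0) (nat_lit 86820434697) (nat_lit 76) (nat_lit 54591510316) (nat_lit 152) (nat_lit 153673150518) (nat_lit 7) (nat_lit 5) (nat_lit 8) (nat_lit 5) (nat_lit 9) (nat_lit 4) (nat_lit 308) (nat_lit 265) (nat_lit 147)) (XT.lf (nat_lit 0) (nat_lit 179303290653) (nat_lit 76) (nat_lit 7223077490) (nat_lit 152) (nat_lit 129623301030) (nat_lit 7) (nat_lit 5) (nat_lit 8) (nat_lit 5) (nat_lit 9) (nat_lit 4) (nat_lit 309) (nat_lit 265) (nat_lit 146)))) (XT.nd (nat_lit 156) (nat_lit 76) (nat_lit 0) (XT.nd (nat_lit 78) (nat_lit 76) (nat_lit 0) (XT.lf (nat_lit 0) (nat_lit 235935078304) (nat_lit 152) (nat_lit 60401995503) (nat_lit 0) (nat_lit 42528079514) (nat_lit 7) (nat_lit 5) (nat_lit 9) (nat_lit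 4) (nat_lit 7) (nat_lit 4) (nat_lit 310) (nat_lit 265) (nat_lit 145)) (XT.lf (nat_lit 0) (nat_lit 22763403791) (nat_lit 76) (nat_lit 267009523845) (nat_lit 76) (nat_lit 73601127625) (nat_lit 6) (nat_lit 4) (nat_lit 7) (nat_lit 5) (nat_lit 7) (nat_lit 4) (nat_lit 311) (nat_lit 265) (nat_lit 144))) (XT.nd (nat_lit 78) (nat_lit 76) (nat_lit 0) (XT.lf (nat_lit 0) (nat_lit 114737716622) (nat_lit 76) (nat_lit 234231535794) (nat_lit 76) (nat_lit 40821845657) (nat_lit 6) (nat_lit 4) (nat_lit 7) (nat_lit 5) (nat_lit 7) (nat_lit 4) (nat_lit 312) (nat_lit 265) (nat_lit 143)) (XT.nd (nat_lit 78) (nat_lit 76) (nat_lit 0) (XT.lf (nat_lit 0) (nat_lit 214068813198) (nat_lit 76) (nat_lit 198831806745) (nat_lit 76) (nat_lit 5420918538) (nat_lit 6) (nat_lit 4) (nat_lit 7) (nat_lit 5) (nat_lit 7) (nat_lit 4) (nat_lit 313) (nat_lit 265) (nat_lit 142)) (XT.lf (nat_lit 0) (nat_lit 31761266108) (nat_lit 152)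 (nat_lit 128301402009) (nat_lit 76) (nat_lit 289046163722) (nat_lit 5) (nat_lit 5) (nat_lit 7) (nat_lit 5) (nat_lit 6) (nat_lit 4) (nat_lit 314) (nat_lit 265) (nat_lit 141)))))) (XT.nd (nat_lit 312) (nat_lit 0) (nat_lit 0) (XT.nd (nat_lit 156) (nat_lit 0) (nat_lit 0) (XT.nd (nat_lit 78) (nat_lit 76) (nat_lit 0) (XT.lf (nat_lit 0) (nat_lit 71730063243) (nat_lit 152) (nat_lit 46366395035) (nat_lit 76) (nat_lit 364258109823) (nat_lit 5) (nat_lit 5) (nat_lit 7) (nat_lit 5) (nat_lit 6) (nat_lit 4) (nat_lit 315) (nat_lit 265) (nat_lit 140)) (XT.lf (nat_lit 0) (nat_lit 43515231311) (nat_lit 76) (nat_lit 72059991647) (nat_lit 152) (nat_lit 402650798130) (nat_lit 4) (nat_lit 5) (nat_lit 5) (nat_lit 5) (nat_lit 6) (nat_lit 4) (nat_lit 316) (nat_lit 265) (nat_lit 139))) (XT.nd (nat_lit 78) (nat_lit 0) (nat_lit 0) (XT.lf (nat_lit 0) (nat_lit 142242217295) (nat_lit 76) (nat_lit 21492940590) (nat_lit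 152) (nat_lit 393191675013) (nat_lit 4) (nat_lit 5) (nat_lit 5) (nat_lit 5) (nat_lit 6) (nat_lit 4) (nat_lit 317) (nat_lit 265) (nat_lit 138)) (XT.lf (nat_lit 0) (nat_lit 216264497342) (nat_lit 152) (nat_lit 350374286812) (nat_lit 0) (nat_lit 32059095668) (nat_lit 4) (nat_lit 5) (nat_lit 6) (nat_lit 4) (nat_lit 4) (nat_lit 4) (nat_lit 318) (nat_lit 265) (nat_lit 137)))) (XT.nd (nat_lit 33384) (nat_lit 0) (nat_lit 4636) (XT.nd (nat_lit 78) (nat_lit 0) (nat_lit 0) (XT.lf (nat_lit 0) (nat_lit 273358151527) (nat_lit 152) (nat_lit 281282330384) (nat_lit 0) (nat_lit 89152030816) (nat_lit 4) (nat_lit 5) (nat_lit 6) (nat_lit 4) (nat_lit 4) (nat_lit 4) (nat_lit 319) (nat_lit 265) (nat_lit 136)) (XT.lf (nat_lit 0) (nat_lit 335018888168) (nat_lit 152) (nat_lit 206663747469) (nat_lit 0) (nat_lit 150812101683) (nat_lit 4) (nat_lit 5) (nat_lit 6) (nat_lit 4) (nat_lit 4) (nat_lit 4) (nat_lit 320) (nat_lit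 265) (nat_lit 135))) (XT.nd (nat_lit 78) (nat_lit 0) (nat_lit 0) (XT.lf (nat_lit 0) (nat_lit 1807947567) (nat_lit 0) (nat_lit 1807947567) (nat_lit 684) (nat_lit 11621438721) (nat_lit 65) (nat_lit 5) (nat_lit 65) (nat_lit 3) (nat_lit 74) (nat_lit 3) (nat_lit 266) (nat_lit 266) (nat_lit 188)) (XT.nd (nat_lit 78) (nat_lit 0) (nat_lit 76) (XT.lf (nat_lit 0) (nat_lit 7891561968) (nat_lit 684) (nat_lit 7032525327) (nat_lit 760) (nat_lit 16750642047) (nat_lit 65) (nat_lit 5) (nat_lit 74) (nat_lit 3) (nat_lit 75) (nat_lit 5) (nat_lit 267) (nat_lit 266) (nat_lit 187)) (XT.lf (nat_lit 0) (nat_lit 8978108075) (nat_lit 684) (nat_lit 18262394150) (nat_lit 760) (nat_lit 5711634070) (nat_lit 66) (nat_lit 5) (nat_lit 75) (nat_lit 5) (nat_lit 76) (nat_lit 5) (nat_lit 268) (nat_lit 266) (nat_lit 186))))))) (XT.nd (nat_lit 702) (nat_lit 1748) (nat_lit 0) (XT.nd (nat_lit 312) (nat_lit 1140) (nat_lit 0) (XT.nd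 (nat_lit 156) (nat_lit 0) (nat_lit 152) (XT.nd (nat_lit 78) (nat_lit 0) (nat_lit 76) (XT.lf (nat_lit 76) (nat_lit 3941860617) (nat_lit 0) (nat_lit 6638173674) (nat_lit 760) (nat_lit 23730315753) (nat_lit 67) (nat_lit 5) (nat_lit 66) (nat_lit 5) (nat_lit 76) (nat_lit 5) (nat_lit 269) (nat_lit 266) (nat_lit 185)) (XT.lf (nat_lit 0) (nat_lit 12868598357) (nat_lit 684) (nat_lit 7441893815) (nat_lit 760) (nat_lit 15438838851) (nat_lit 67) (nat_lit 5) (nat_lit 76) (nat_lit 5) (nat_lit 77) (nat_lit 5) (nat_lit 270) (nat_lit 266) (nat_lit 184))) (XT.nd (nat_lit 78) (nat_lit 0) (nat_lit 0) (XT.lf (nat_lit 0) (nat_lit 15753630340) (nat_lit 684) (nat_lit 19546476845) (nat_lit 760) (nat_lit 1982685930) (nat_lit 68) (nat_lit 5) (nat_lit 77) (nat_lit 5) (nat_lit 78) (nat_lit 5) (nat_lit 271) (nat_lit 266) (nat_lit 183)) (XT.lf (nat_lit 76) (nat_lit 6107011202) (nat_lit 0) (nat_lit 13324600521) (nat_lit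 760) (nat_lit 19479242530) (nat_lit 69) (nat_lit 5) (nat_lit 68) (nat_lit 5) (nat_lit 78) (nat_lit 5) (nat_lit 272) (nat_lit 266) (nat_lit 182)))) (XT.nd (nat_lit 156) (nat_lit 684) (nat_lit 0) (XT.nd (nat_lit 78) (nat_lit 684) (nat_lit 0) (XT.lf (nat_lit 0) (nat_lit 23905464365) (nat_lit 684) (nat_lit 6315526238) (nat_lit 76) (nat_lit 10423115283) (nat_lit 69) (nat_lit 5) (nat_lit 78) (nat_lit 5) (nat_lit 70) (nat_lit 5) (nat_lit 273) (nat_lit 266) (nat_lit 181)) (XT.lf (nat_lit 0) (nat_lit 22791010903) (nat_lit 684) (nat_lit 6520288849) (nat_lit 760) (nat_lit 13176039395) (nat_lit 60) (nat_lit 5) (nat_lit 69) (nat_lit 5) (nat_lit 70) (nat_lit 5) (nat_lit 274) (nat_lit 266) (nat_lit 180))) (XT.nd (nat_lit 78) (nat_lit 380) (nat_lit 0) (XT.lf (nat_lit 0) (nat_lit 9993567903) (nat_lit 304) (nat_lit 25715683553) (nat_lit 380) (nat_lit 8740820494) (nat_lit 56) (nat_lit 5) (nat_lit 60) (nat_lit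 5) (nat_lit 61) (nat_lit 5) (nat_lit 275) (nat_lit 266) (nat_lit 179)) (XT.nd (nat_lit 78) (nat_lit 380) (nat_lit 0) (XT.lf (nat_lit 0) (nat_lit 42642960344) (nat_lit 304) (nat_lit 421677254) (nat_lit 380) (nat_lit 3482927488) (nat_lit 56) (nat_lit 5) (nat_lit 60) (nat_lit 5) (nat_lit 61) (nat_lit 5) (nat_lit 276) (nat_lit 266) (nat_lit 178)) (XT.lf (nat_lit 0) (nat_lit 3016712859) (nat_lit 380) (nat_lit 19203668815) (nat_lit 76) (nat_lit 26546211663) (nat_lit 51) (nat_lit 5) (nat_lit 56) (nat_lit 5) (nat_lit 52) (nat_lit 5) (nat_lit 277) (nat_lit 266) (nat_lit 177)))))) (XT.nd (nat_lit 390) (nat_lit 684) (nat_lit 0) (XT.nd (nat_lit 156) (nat_lit 760) (nat_lit 0) (XT.nd (nat_lit 78) (nat_lit 0) (nat_lit 0) (XT.lf (nat_lit 0) (nat_lit 10298988539) (nat_lit 380) (nat_lit 36122460392) (nat_lit 76) (nat_lit 4719623269) (nat_lit 47) (nat_lit 5) (nat_lit 52) (nat_lit 5) (nat_lit 48) (nat_lit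 5) (nat_lit 278) (nat_lit 266) (nat_lit 176)) (XT.lf (nat_lit 0) (nat_lit 18873773905) (nat_lit 380) (nat_lit 1409828301) (nat_lit 76) (nat_lit 33386427135) (nat_lit 47) (nat_lit 5) (nat_lit 52) (nat_lit 5) (nat_lit 48) (nat_lit 5) (nat_lit 279) (nat_lit 266) (nat_lit 175))) (XT.nd (nat_lit 78) (nat_lit 456) (nat_lit 0) (XT.lf (nat_lit 0) (nat_lit 28845577247) (nat_lit 380) (nat_lit 19238332994) (nat_lit 76) (nat_lit 8281856193) (nat_lit 43) (nat_lit 5) (nat_lit 48) (nat_lit 5) (nat_lit 44) (nat_lit 5) (nat_lit 280) (nat_lit 266) (nat_lit 174)) (XT.nd (nat_lit 78) (nat_lit 228) (nat_lit 0) (XT.lf (nat_lit 0) (nat_lit 19808747501) (nat_lit 228) (nat_lit 20478473946) (nat_lit 304) (nat_lit 18956350234) (nat_lit 40) (nat_lit 5) (nat_lit 43) (nat_lit 5) (nat_lit 44) (nat_lit 5) (nat_lit 281) (nat_lit 266) (nat_lit 173)) (XT.lf (nat_lit 0) (nat_lit 181400439) (nat_lit 228) (nat_lit 52948062611)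 (nat_lit 304) (nat_lit 9197887983) (nat_lit 37) (nat_lit 5) (nat_lit 40) (nat_lit 5) (nat_lit 41) (nat_lit 5) (nat_lit 282) (nat_lit 266) (nat_lit 172))))) (XT.nd (nat_lit 156) (nat_lit 380) (nat_lit 0) (XT.nd (nat_lit 78) (nat_lit 228) (nat_lit 0) (XT.lf (nat_lit 0) (nat_lit 2338031972) (nat_lit 304) (nat_lit 21630691956) (nat_lit 76) (nat_lit 41636087759) (nat_lit 36) (nat_lit 5) (nat_lit 40) (nat_lit 5) (nat_lit 37) (nat_lit 5) (nat_lit 283) (nat_lit 266) (nat_lit 171)) (XT.lf (nat_lit 0) (nat_lit 14952434358) (nat_lit 304) (nat_lit 46549419802) (nat_lit 76) (nat_lit 7611193477) (nat_lit 33) (nat_lit 5) (nat_lit 37) (nat_lit 5) (nat_lit 34) (nat_lit 5) (nat_lit 284) (nat_lit 266) (nat_lit 170))) (XT.nd (nat_lit 78) (nat_lit 380) (nat_lit 0) (XT.lf (nat_lit 0) (nat_lit 29359787644) (nat_lit 304) (nat_lit 2231953813) (nat_lit 76) (nat_lit 41271020882) (nat_lit 33) (nat_lit 5) (nat_lit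 37) (nat_lit 5) (nat_lit 34) (nat_lit 5) (nat_lit 285) (nat_lit 266) (nat_lit 169)) (XT.nd (nat_lit 78) (nat_lit 152) (nat_lit 0) (XT.lf (nat_lit 0) (nat_lit 45675716134) (nat_lit 304) (nat_lit 29763542893) (nat_lit 76) (nat_lit 1435404929) (nat_lit 30) (nat_lit 5) (nat_lit 34) (nat_lit 5) (nat_lit 31) (nat_lit 5) (nat_lit 286) (nat_lit 266) (nat_lit 168)) (XT.lf (nat_lit 0) (nat_lit 19357946872) (nat_lit 152) (nat_lit 44810484981) (nat_lit 228) (nat_lit 16995518615) (nat_lit 28) (nat_lit 5) (nat_lit 30) (nat_lit 5) (nat_lit 31) (nat_lit 5) (nat_lit 287) (nat_lit 266) (nat_lit 167))))))))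
noncomputable def xc98 : XT := (XT.nd (nat_lit 1404) (nat_lit 380) (nat_lit 0) (XT.nd (nat_lit 702) (nat_lit 456) (nat_lit 0) (XT.nd (nat_lit 312) (nat_lit 532) (nat_lit 0) (XT.nd (nat_lit 156) (nat_lit 152) (nat_lit 0) (XT.nd (nat_lit 78) (nat_lit 304) (nat_lit 0) (XT.lf (nat_lit 0) (nat_lit 73468112056) (nat_lit 152) (nat_lit 11188140897) (nat_lit 228) (nat_lit 1114350329) (nat_lit 28) (nat_lit 5) (nat_lit 30) (nat_lit 5) (nat_lit 31) (nat_lit 5) (nat_lit 288) (nat_lit 266) (nat_lit 166)) (XT.lf (nat_lit 0) (nat_lit 16588354010) (nat_lit 304) (nat_lit 48847780414) (nat_lit 76) (nat_lit 25243924564) (nat_lit 24) (nat_lit 5) (nat_lit 28) (nat_lit 5) (nat_lit 25) (nat_lit 5) (nat_lit 289) (nat_lit 266) (nat_lit 165))) (XT.nd (nat_lit 78) (nat_lit 0) (nat_lit 0) (XT.lf (nat_lit 0) (nat_lit 4701463756) (nat_lit 152) (nat_lit 31444666557) (nat_lit 228) (nat_lit 59811338943) (nat_lit 22) (nat_lit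 5) (nat_lit 24) (nat_lit 5) (nat_lit 25) (nat_lit 5) (nat_lit 290) (nat_lit 266) (nat_lit 164)) (XT.lf (nat_lit 0) (nat_lit 58213211261) (nat_lit 228) (nat_lit 37435306254) (nat_lit 76) (nat_lit 5961326592) (nat_lit 22) (nat_lit 5) (nat_lit 25) (nat_lit 5) (nat_lit 23) (nat_lit 5) (nat_lit 291) (nat_lit 266) (nat_lit 163)))) (XT.nd (nat_lit 156) (nat_lit 380) (nat_lit 0) (XT.nd (nat_lit 78) (nat_lit 0) (nat_lit 0) (XT.lf (nat_lit 0) (nat_lit 20824002264) (nat_lit 152) (nat_lit 62074786158) (nat_lit 228) (nat_lit 24772969491) (nat_lit 20) (nat_lit 5) (nat_lit 22) (nat_lit 5) (nat_lit 23) (nat_lit 5) (nat_lit 292) (nat_lit 266) (nat_lit 162)) (XT.lf (nat_lit 0) (nat_lit 85077672633) (nat_lit 152) (nat_lit 25131545848) (nat_lit 228) (nat_lit 3976911053) (nat_lit 20) (nat_lit 5) (nat_lit 22) (nat_lit 5) (nat_lit 23) (nat_lit 5) (nat_lit 293) (nat_lit 266) (nat_lit 161))) (XT.nd (nat_lit 78)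 (nat_lit 152) (nat_lit 0) (XT.lf (nat_lit 0) (nat_lit 18664865103) (nat_lit 228) (nat_lit 87376580594) (nat_lit 76) (nat_lit 15127101246) (nat_lit 17) (nat_lit 5) (nat_lit 20) (nat_lit 5) (nat_lit 18) (nat_lit 5) (nat_lit 294) (nat_lit 266) (nat_lit 160)) (XT.nd (nat_lit 78) (nat_lit 152) (nat_lit 0) (XT.lf (nat_lit 0) (nat_lit 43917752869) (nat_lit 228) (nat_lit 26422432156) (nat_lit 76) (nat_lit 58319162025) (nat_lit 17) (nat_lit 5) (nat_lit 20) (nat_lit 5) (nat_lit 18) (nat_lit 5) (nat_lit 295) (nat_lit 266) (nat_lit 159)) (XT.lf (nat_lit 0) (nat_lit 40708215322) (nat_lit 152) (nat_lit 31116477296) (nat_lit 228) (nat_lit 64893031315) (nat_lit 15) (nat_lit 5) (nat_lit 17) (nat_lit 5) (nat_lit 18) (nat_lit 5) (nat_lit 296) (nat_lit 266) (nat_lit 158)))))) (XT.nd (nat_lit 312) (nat_lit 152) (nat_lit 0) (XT.nd (nat_lit 156) (nat_lit 228) (nat_lit 0) (XT.nd (nat_lit 78) (nat_lit 76) (nat_lit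 0) (XT.lf (nat_lit 0) (nat_lit 102605887419) (nat_lit 228) (nat_lit 31430721794) (nat_lit 76) (nat_lit 11352080295) (nat_lit 15) (nat_lit 5) (nat_lit 18) (nat_lit 5) (nat_lit 16) (nat_lit 4) (nat_lit 297) (nat_lit 266) (nat_lit 157)) (XT.lf (nat_lit 0) (nat_lit 39036600644) (nat_lit 76) (nat_lit 97945577546) (nat_lit 152) (nat_lit 17714527391) (nat_lit 14) (nat_lit 5) (nat_lit 15) (nat_lit 5) (nat_lit 16) (nat_lit 4) (nat_lit 298) (nat_lit 266) (nat_lit 156))) (XT.nd (nat_lit 78) (nat_lit 152) (nat_lit 0) (XT.lf (nat_lit 0) (nat_lit 9614633934) (nat_lit 152) (nat_lit 48615842391) (nat_lit 76) (nat_lit 106483834438) (nat_lit 13) (nat_lit 5) (nat_lit 15) (nat_lit 5) (nat_lit 14) (nat_lit 5) (nat_lit 299) (nat_lit 266) (nat_lit 155)) (XT.lf (nat_lit 0) (nat_lit 24267716015) (nat_lit 152) (nat_lit 14627576258) (nat_lit 228) (nat_lit 136604224911) (nat_lit 11) (nat_lit 5) (nat_lit 13) (nat_lit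 5) (nat_lit 14) (nat_lit 5) (nat_lit 300) (nat_lit 266) (nat_lit 154)))) (XT.nd (nat_lit 156) (nat_lit 152) (nat_lit 0) (XT.nd (nat_lit 78) (nat_lit 0) (nat_lit 0) (XT.lf (nat_lit 0) (nat_lit 71884656366) (nat_lit 228) (nat_lit 82910133327) (nat_lit 76) (nat_lit 32284440244) (nat_lit 11) (nat_lit 5) (nat_lit 14) (nat_lit 5) (nat_lit 12) (nat_lit 4) (nat_lit 301) (nat_lit 266) (nat_lit 153)) (XT.lf (nat_lit 0) (nat_lit 107758582518) (nat_lit 228) (nat_lit 9371436382) (nat_lit 76) (nat_lit 82443032455) (nat_lit 11) (nat_lit 5) (nat_lit 14) (nat_lit 5) (nat_lit 12) (nat_lit 4) (nat_lit 302) (nat_lit 266) (nat_lit 152))) (XT.nd (nat_lit 78) (nat_lit 76) (nat_lit 0) (XT.lf (nat_lit 0) (nat_lit 72364570165) (nat_lit 76) (nat_lit 75266523075) (nat_lit 152) (nat_lit 65378853846) (nat_lit 10) (nat_lit 5) (nat_lit 11) (nat_lit 5) (nat_lit 12) (nat_lit 4) (nat_lit 303) (nat_lit 266) (nat_lit 151))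 (XT.nd (nat_lit 78) (nat_lit 76) (nat_lit 0) (XT.lf (nat_lit 0) (nat_lit 160972286644) (nat_lit 76) (nat_lit 29883275535) (nat_lit 152) (nat_lit 36658126391) (nat_lit 10) (nat_lit 5) (nat_lit 11) (nat_lit 5) (nat_lit 12) (nat_lit 4) (nat_lit 304) (nat_lit 266) (nat_lit 150)) (XT.lf (nat_lit 0) (nat_lit 13626616977) (nat_lit 76) (nat_lit 224421786994) (nat_lit 76) (nat_lit 5103806452) (nat_lit 9) (nat_lit 4) (nat_lit 10) (nat_lit 5) (nat_lit 10) (nat_lit 4) (nat_lit 305) (nat_lit 266) (nat_lit 149))))))) (XT.nd (nat_lit 702) (nat_lit 152) (nat_lit 0) (XT.nd (nat_lit 312) (nat_lit 76) (nat_lit 0) (XT.nd (nat_lit 156) (nat_lit 76) (nat_lit 0) (XT.nd (nat_lit 78) (nat_lit 0) (nat_lit 0) (XT.lf (nat_lit 0) (nat_lit 29728494243) (nat_lit 152) (nat_lit 158376563589) (nat_lit 76) (nat_lit 71830088279) (nat_lit 8) (nat_lit 5) (nat_lit 10) (nat_lit 5) (nat_lit 9) (nat_lit 4) (nat_lit 306) (nat_lit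 266) (nat_lit 148)) (XT.lf (nat_lit 0) (nat_lit 67170044914) (nat_lit 152) (nat_lit 81623233091) (nat_lit 76) (nat_lit 129263182765) (nat_lit 8) (nat_lit 5) (nat_lit 10) (nat_lit 5) (nat_lit 9) (nat_lit 4) (nat_lit 307) (nat_lit 266) (nat_lit 147))) (XT.nd (nat_lit 78) (nat_lit 0) (nat_lit 0) (XT.lf (nat_lit 0) (nat_lit 1310873456) (nat_lit 76) (nat_lit 106315668047) (nat_lit 152) (nat_lit 189999959379) (nat_lit 7) (nat_lit 5) (nat_lit 8) (nat_lit 5) (nat_lit 9) (nat_lit 4) (nat_lit 308) (nat_lit 266) (nat_lit 146)) (XT.lf (nat_lit 0) (nat_lit 93793064190) (nat_lit 76) (nat_lit 58947514103) (nat_lit 152) (nat_lit 165950516160) (nat_lit 7) (nat_lit 5) (nat_lit 8) (nat_lit 5) (nat_lit 9) (nat_lit 4) (nat_lit 309) (nat_lit 266) (nat_lit 145)))) (XT.nd (nat_lit 156) (nat_lit 76) (nat_lit 0) (XT.nd (nat_lit 78) (nat_lit 0) (nat_lit 0) (XT.lf (nat_lit 0) (nat_lit 193672549014) (nat_lit 76)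 (nat_lit 7790444951) (nat_lit 152) (nat_lit 139977899928) (nat_lit 7) (nat_lit 5) (nat_lit 8) (nat_lit 5) (nat_lit 9) (nat_lit 4) (nat_lit 310) (nat_lit 266) (nat_lit 144)) (XT.lf (nat_lit 0) (nat_lit 254823477134) (nat_lit 152) (nat_lit 65210469661) (nat_lit 0) (nat_lit 45939717870) (nat_lit 7) (nat_lit 5) (nat_lit 9) (nat_lit 4) (nat_lit 7) (nat_lit 4) (nat_lit 311) (nat_lit 266) (nat_lit 143))) (XT.nd (nat_lit 78) (nat_lit 0) (nat_lit 0) (XT.lf (nat_lit 0) (nat_lit 24607132235) (nat_lit 76) (nat_lit 288360569047) (nat_lit 76) (nat_lit 79475611712) (nat_lit 6) (nat_lit 4) (nat_lit 7) (nat_lit 5) (nat_lit 7) (nat_lit 4) (nat_lit 312) (nat_lit 266) (nat_lit 142)) (XT.nd (nat_lit 78) (nat_lit 0) (nat_lit 0) (XT.lf (nat_lit 0) (nat_lit 123937711859) (nat_lit 76) (nat_lit 252961061708) (nat_lit 76) (nat_lit 44074995048) (nat_lit 6) (nat_lit 4) (nat_lit 7) (nat_lit 5) (nat_lit 7) (nat_lit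 4) (nat_lit 313) (nat_lit 266) (nat_lit 141)) (XT.lf (nat_lit 0) (nat_lit 231213742243) (nat_lit 76) (nat_lit 214730020777) (nat_lit 76) (nat_lit 5842926964) (nat_lit 6) (nat_lit 4) (nat_lit 7) (nat_lit 5) (nat_lit 7) (nat_lit 4) (nat_lit 314) (nat_lit 266) (nat_lit 140)))))) (XT.nd (nat_lit 390) (nat_lit 0) (nat_lit 0) (XT.nd (nat_lit 156) (nat_lit 76) (nat_lit 0) (XT.nd (nat_lit 78) (nat_lit 0) (nat_lit 0) (XT.lf (nat_lit 0) (nat_lit 34312622677) (nat_lit 152) (nat_lit 138547168391) (nat_lit 76) (nat_lit 312177209649) (nat_lit 5) (nat_lit 5) (nat_lit 7) (nat_lit 5) (nat_lit 6) (nat_lit 4) (nat_lit 315) (nat_lit 266) (nat_lit 139)) (XT.lf (nat_lit 0) (nat_lit 77478149118) (nat_lit 152) (nat_lit 50058719806) (nat_lit 76) (nat_lit 393405566784) (nat_lit 5) (nat_lit 5) (nat_lit 7) (nat_lit 5) (nat_lit 6) (nat_lit 4) (nat_lit 316) (nat_lit 266) (nat_lit 138))) (XT.nd (nat_lit 78) (nat_lit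 0) (nat_lit 0) (XT.lf (nat_lit 0) (nat_lit 47012698421) (nat_lit 76) (nat_lit 77817759777) (nat_lit 152) (nat_lit 434853170927) (nat_lit 4) (nat_lit 5) (nat_lit 5) (nat_lit 5) (nat_lit 6) (nat_lit 4) (nat_lit 317) (nat_lit 266) (nat_lit 137)) (XT.nd (nat_lit 78) (nat_lit 0) (nat_lit 0) (XT.lf (nat_lit 0) (nat_lit 153636639684) (nat_lit 76) (nat_lit 23205865465) (nat_lit 152) (nat_lit 424638035816) (nat_lit 4) (nat_lit 5) (nat_lit 5) (nat_lit 5) (nat_lit 6) (nat_lit 4) (nat_lit 318) (nat_lit 266) (nat_lit 136)) (XT.lf (nat_lit 0) (nat_lit 233573653684) (nat_lit 152) (nat_lit 378389987234) (nat_lit 0) (nat_lit 34629658506) (nat_lit 4) (nat_lit 5) (nat_lit 6) (nat_lit 4) (nat_lit 4) (nat_lit 4) (nat_lit 319) (nat_lit 266) (nat_lit 135))))) (XT.nd (nat_lit 33462) (nat_lit 0) (nat_lit 4636) (XT.nd (nat_lit 33384) (nat_lit 0) (nat_lit 4636) (XT.lf (nat_lit 0) (nat_lit 295234207865) (nat_lit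 152) (nat_lit 303771729294) (nat_lit 0) (nat_lit 96289596230) (nat_lit 4) (nat_lit 5) (nat_lit 6) (nat_lit 4) (nat_lit 4) (nat_lit 4) (nat_lit 320) (nat_lit 266) (nat_lit 134)) (XT.lf (nat_lit 0) (nat_lit 2001541142) (nat_lit 0) (nat_lit 2001541142) (nat_lit 684) (nat_lit 12447952049) (nat_lit 65) (nat_lit 5) (nat_lit 65) (nat_lit 3) (nat_lit 74) (nat_lit 3) (nat_lit 267) (nat_lit 267) (nat_lit 186))) (XT.nd (nat_lit 78) (nat_lit 0) (nat_lit 76) (XT.lf (nat_lit 0) (nat_lit 8702796502) (nat_lit 684) (nat_lit 7493260006) (nat_lit 760) (nat_lit 18002932642) (nat_lit 65) (nat_lit 5) (nat_lit 74) (nat_lit 3) (nat_lit 75) (nat_lit 5) (nat_lit 268) (nat_lit 267) (nat_lit 185)) (XT.nd (nat_lit 78) (nat_lit 0) (nat_lit 0) (XT.lf (nat_lit 0) (nat_lit 9863357716) (nat_lit 684) (nat_lit 19615767390) (nat_lit 760) (nat_lit 6100162542) (nat_lit 66) (nat_lit 5) (nat_lit 75) (nat_lit 5) (nat_lit 76)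 (nat_lit 5) (nat_lit 269) (nat_lit 267) (nat_lit 184)) (XT.lf (nat_lit 76) (nat_lit 4360150799) (nat_lit 0) (nat_lit 7222523990) (nat_lit 760) (nat_lit 25464071464) (nat_lit 67) (nat_lit 5) (nat_lit 66) (nat_lit 5) (nat_lit 76) (nat_lit 5) (nat_lit 270) (nat_lit 267) (nat_lit 183))))))))
noncomputable def xc99 : XT := (XT.nd (nat_lit 1404) (nat_lit 1520) (nat_lit 0) (XT.nd (nat_lit 702) (nat_lit 1444) (nat_lit 0) (XT.nd (nat_lit 312) (nat_lit 1520) (nat_lit 0) (XT.nd (nat_lit 156) (nat_lit 0) (nat_lit 76) (XT.nd (nat_lit 78) (nat_lit 0) (nat_lit 76) (XT.lf (nat_lit 0) (nat_lit 14041980344) (nat_lit 684) (nat_lit 7933351585) (nat_lit 760) (nat_lit 16626176882) (nat_lit 67) (nat_lit 5) (nat_lit 76) (nat_lit 5) (nat_lit 77) (nat_lit 5) (nat_lit 271) (nat_lit 267) (nat_lit 182)) (XT.lf (nat_lit 0) (nat_lit 17148154819) (nat_lit 684) (nat_lit 21002992716) (nat_lit 760) (nat_lit 2107025856)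 (nat_lit 68) (nat_lit 5) (nat_lit 77) (nat_lit 5) (nat_lit 78) (nat_lit 5) (nat_lit 272) (nat_lit 267) (nat_lit 181))) (XT.nd (nat_lit 78) (nat_lit 0) (nat_lit 76) (XT.lf (nat_lit 76) (nat_lit 6698115495) (nat_lit 0) (nat_lit 14413916944) (nat_lit 760) (nat_lit 20904903463) (nat_lit 69) (nat_lit 5) (nat_lit 68) (nat_lit 5) (nat_lit 78) (nat_lit 5) (nat_lit 273) (nat_lit 267) (nat_lit 180)) (XT.lf (nat_lit 0) (nat_lit 25934130444) (nat_lit 684) (nat_lit 6719199243) (nat_lit 76) (nat_lit 11236037573) (nat_lit 69) (nat_lit 5) (nat_lit 78) (nat_lit 5) (nat_lit 70) (nat_lit 5) (nat_lit 274) (nat_lit 267) (nat_lit 179)))) (XT.nd (nat_lit 156) (nat_lit 684) (nat_lit 0) (XT.nd (nat_lit 78) (nat_lit 304) (nat_lit 0) (XT.lf (nat_lit 0) (nat_lit 24711446801) (nat_lit 684) (nat_lit 7053893173) (nat_lit 760) (nat_lit 14115107594) (nat_lit 60) (nat_lit 5) (nat_lit 69) (nat_lit 5) (nat_lit 70) (nat_lit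 5) (nat_lit 275) (nat_lit 267) (nat_lit 178)) (XT.lf (nat_lit 0) (nat_lit 10891788282) (nat_lit 304) (nat_lit 27776623691) (nat_lit 380) (nat_lit 9332154065) (nat_lit 56) (nat_lit 5) (nat_lit 60) (nat_lit 5) (nat_lit 61) (nat_lit 5) (nat_lit 276) (nat_lit 267) (nat_lit 177))) (XT.nd (nat_lit 78) (nat_lit 684) (nat_lit 0) (XT.lf (nat_lit 0) (nat_lit 46145818419) (nat_lit 304) (nat_lit 458823892) (nat_lit 380) (nat_lit 3661624587) (nat_lit 56) (nat_lit 5) (nat_lit 60) (nat_lit 5) (nat_lit 61) (nat_lit 5) (nat_lit 277) (nat_lit 267) (nat_lit 176)) (XT.nd (nat_lit 78) (nat_lit 304) (nat_lit 0) (XT.lf (nat_lit 0) (nat_lit 3349038390) (nat_lit 380) (nat_lit 20644254098) (nat_lit 76) (nat_lit 28669759922) (nat_lit 51) (nat_lit 5) (nat_lit 56) (nat_lit 5) (nat_lit 52) (nat_lit 5) (nat_lit 278) (nat_lit 267) (nat_lit 175)) (XT.lf (nat_lit 0) (nat_lit 11208677231) (nat_lit 380) (nat_lit 38916220787)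 (nat_lit 76) (nat_lit 5102876137) (nat_lit 47) (nat_lit 5) (nat_lit 52) (nat_lit 5) (nat_lit 48) (nat_lit 5) (nat_lit 279) (nat_lit 267) (nat_lit 174)))))) (XT.nd (nat_lit 312) (nat_lit 684) (nat_lit 0) (XT.nd (nat_lit 156) (nat_lit 456) (nat_lit 0) (XT.nd (nat_lit 78) (nat_lit 304) (nat_lit 0) (XT.lf (nat_lit 0) (nat_lit 20463092122) (nat_lit 380) (nat_lit 1433691938) (nat_lit 76) (nat_lit 36062603349) (nat_lit 47) (nat_lit 5) (nat_lit 52) (nat_lit 5) (nat_lit 48) (nat_lit 5) (nat_lit 280) (nat_lit 267) (nat_lit 173)) (XT.lf (nat_lit 0) (nat_lit 31228244235) (nat_lit 380) (nat_lit 20688504384) (nat_lit 76) (nat_lit 8954274881) (nat_lit 43) (nat_lit 5) (nat_lit 48) (nat_lit 5) (nat_lit 44) (nat_lit 5) (nat_lit 281) (nat_lit 267) (nat_lit 172))) (XT.nd (nat_lit 78) (nat_lit 228) (nat_lit 0) (XT.lf (nat_lit 0) (nat_lit 21478479271) (nat_lit 228) (nat_lit 22102511191) (nat_lit 304) (nat_lit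 20398292938) (nat_lit 40) (nat_lit 5) (nat_lit 43) (nat_lit 5) (nat_lit 44) (nat_lit 5) (nat_lit 282) (nat_lit 267) (nat_lit 171)) (XT.lf (nat_lit 0) (nat_lit 280646387) (nat_lit 228) (nat_lit 57166250008) (nat_lit 304) (nat_lit 9863071822) (nat_lit 37) (nat_lit 5) (nat_lit 40) (nat_lit 5) (nat_lit 41) (nat_lit 5) (nat_lit 283) (nat_lit 267) (nat_lit 170)))) (XT.nd (nat_lit 156) (nat_lit 380) (nat_lit 0) (XT.nd (nat_lit 78) (nat_lit 228) (nat_lit 0) (XT.lf (nat_lit 0) (nat_lit 2588394944) (nat_lit 304) (nat_lit 23280404895) (nat_lit 76) (nat_lit 44981039330) (nat_lit 36) (nat_lit 5) (nat_lit 40) (nat_lit 5) (nat_lit 37) (nat_lit 5) (nat_lit 284) (nat_lit 267) (nat_lit 169)) (XT.lf (nat_lit 0) (nat_lit 16208736576) (nat_lit 304) (nat_lit 50193242516) (nat_lit 76) (nat_lit 8236929730) (nat_lit 33) (nat_lit 5) (nat_lit 37) (nat_lit 5) (nat_lit 34) (nat_lit 5) (nat_lit 285) (nat_lit 267)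 (nat_lit 168))) (XT.nd (nat_lit 78) (nat_lit 380) (nat_lit 0) (XT.lf (nat_lit 0) (nat_lit 31764225720) (nat_lit 304) (nat_lit 2336314869) (nat_lit 76) (nat_lit 44588295862) (nat_lit 33) (nat_lit 5) (nat_lit 37) (nat_lit 5) (nat_lit 34) (nat_lit 5) (nat_lit 286) (nat_lit 267) (nat_lit 167)) (XT.nd (nat_lit 78) (nat_lit 152) (nat_lit 0) (XT.lf (nat_lit 0) (nat_lit 49382700133) (nat_lit 304) (nat_lit 32071157706) (nat_lit 76) (nat_lit 1567980934) (nat_lit 30) (nat_lit 5) (nat_lit 34) (nat_lit 5) (nat_lit 31) (nat_lit 5) (nat_lit 287) (nat_lit 267) (nat_lit 166)) (XT.lf (nat_lit 0) (nat_lit 20976858384) (nat_lit 152) (nat_lit 48375151430) (nat_lit 228) (nat_lit 18302410812) (nat_lit 28) (nat_lit 5) (nat_lit 30) (nat_lit 5) (nat_lit 31) (nat_lit 5) (nat_lit 288) (nat_lit 267) (nat_lit 165))))))) (XT.nd (nat_lit 702) (nat_lit 532) (nat_lit 0) (XT.nd (nat_lit 312) (nat_lit 532) (nat_lit 0) (XT.nd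 (nat_lit 156) (nat_lit 152) (nat_lit 0) (XT.nd (nat_lit 78) (nat_lit 304) (nat_lit 0) (XT.lf (nat_lit 0) (nat_lit 79410631171) (nat_lit 152) (nat_lit 12064514068) (nat_lit 228) (nat_lit 1154656418) (nat_lit 28) (nat_lit 5) (nat_lit 30) (nat_lit 5) (nat_lit 31) (nat_lit 5) (nat_lit 289) (nat_lit 267) (nat_lit 164)) (XT.lf (nat_lit 0) (nat_lit 17960493806) (nat_lit 304) (nat_lit 52689690934) (nat_lit 76) (nat_lit 27281910502) (nat_lit 24) (nat_lit 5) (nat_lit 28) (nat_lit 5) (nat_lit 25) (nat_lit 5) (nat_lit 290) (nat_lit 267) (nat_lit 163))) (XT.nd (nat_lit 78) (nat_lit 0) (nat_lit 0) (XT.lf (nat_lit 0) (nat_lit 5140628318) (nat_lit 152) (nat_lit 33939909615) (nat_lit 228) (nat_lit 64551286623) (nat_lit 22) (nat_lit 5) (nat_lit 24) (nat_lit 5) (nat_lit 25) (nat_lit 5) (nat_lit 291) (nat_lit 267) (nat_lit 162)) (XT.lf (nat_lit 0) (nat_lit 62910115021) (nat_lit 228) (nat_lit 40369971227)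 (nat_lit 76) (nat_lit 6456454545) (nat_lit 22) (nat_lit 5) (nat_lit 25) (nat_lit 5) (nat_lit 23) (nat_lit 5) (nat_lit 292) (nat_lit 267) (nat_lit 161)))) (XT.nd (nat_lit 156) (nat_lit 380) (nat_lit 0) (XT.nd (nat_lit 78) (nat_lit 0) (nat_lit 0) (XT.lf (nat_lit 0) (nat_lit 22547467512) (nat_lit 152) (nat_lit 67021017663) (nat_lit 228) (nat_lit 26715032483) (nat_lit 20) (nat_lit 5) (nat_lit 22) (nat_lit 5) (nat_lit 23) (nat_lit 5) (nat_lit 293) (nat_lit 267) (nat_lit 160)) (XT.lf (nat_lit 0) (nat_lit 91937168913) (nat_lit 152) (nat_lit 27123781194) (nat_lit 228) (nat_lit 4258235635) (nat_lit 20) (nat_lit 5) (nat_lit 22) (nat_lit 5) (nat_lit 23) (nat_lit 5) (nat_lit 294) (nat_lit 267) (nat_lit 159))) (XT.nd (nat_lit 78) (nat_lit 152) (nat_lit 0) (XT.lf (nat_lit 0) (nat_lit 20192164173) (nat_lit 228) (nat_lit 94313056546) (nat_lit 76) (nat_lit 16355030018) (nat_lit 17) (nat_lit 5) (nat_lit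 20) (nat_lit 5) (nat_lit 18) (nat_lit 5) (nat_lit 295) (nat_lit 267) (nat_lit 158)) (XT.nd (nat_lit 78) (nat_lit 152) (nat_lit 0) (XT.lf (nat_lit 0) (nat_lit 47462756303) (nat_lit 228) (nat_lit 28486550344) (nat_lit 76) (nat_lit 63001140054) (nat_lit 17) (nat_lit 5) (nat_lit 20) (nat_lit 5) (nat_lit 18) (nat_lit 5) (nat_lit 296) (nat_lit 267) (nat_lit 157)) (XT.lf (nat_lit 0) (nat_lit 44012390058) (nat_lit 152) (nat_lit 33588263560) (nat_lit 228) (nat_lit 70052925105) (nat_lit 15) (nat_lit 5) (nat_lit 17) (nat_lit 5) (nat_lit 18) (nat_lit 5) (nat_lit 297) (nat_lit 267) (nat_lit 156)))))) (XT.nd (nat_lit 390) (nat_lit 228) (nat_lit 0) (XT.nd (nat_lit 156) (nat_lit 228) (nat_lit 0) (XT.nd (nat_lit 78) (nat_lit 76) (nat_lit 0) (XT.lf (nat_lit 0) (nat_lit 110842376294) (nat_lit 228) (nat_lit 33899987952) (nat_lit 76) (nat_lit 12275960412) (nat_lit 15) (nat_lit 5) (nat_lit 18) (nat_lit 5)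 (nat_lit 16) (nat_lit 4) (nat_lit 298) (nat_lit 267) (nat_lit 155)) (XT.lf (nat_lit 0) (nat_lit 42202756310) (nat_lit 76) (nat_lit 105764613523) (nat_lit 152) (nat_lit 19103686589) (nat_lit 14) (nat_lit 5) (nat_lit 15) (nat_lit 5) (nat_lit 16) (nat_lit 4) (nat_lit 299) (nat_lit 267) (nat_lit 154))) (XT.nd (nat_lit 78) (nat_lit 152) (nat_lit 0) (XT.lf (nat_lit 0) (nat_lit 10408903466) (nat_lit 152) (nat_lit 52464206065) (nat_lit 76) (nat_lit 115017042884) (nat_lit 13) (nat_lit 5) (nat_lit 15) (nat_lit 5) (nat_lit 14) (nat_lit 5) (nat_lit 300) (nat_lit 267) (nat_lit 153)) (XT.nd (nat_lit 78) (nat_lit 0) (nat_lit 0) (XT.lf (nat_lit 0) (nat_lit 26248259388) (nat_lit 152) (nat_lit 15782506780) (nat_lit 228) (nat_lit 147507475171) (nat_lit 11) (nat_lit 5) (nat_lit 13) (nat_lit 5) (nat_lit 14) (nat_lit 5) (nat_lit 301) (nat_lit 267) (nat_lit 152)) (XT.lf (nat_lit 0) (nat_lit 77657733513) (nat_lit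 228) (nat_lit 89505791385) (nat_lit 76) (nat_lit 34880886819) (nat_lit 11) (nat_lit 5) (nat_lit 14) (nat_lit 5) (nat_lit 12) (nat_lit 4) (nat_lit 302) (nat_lit 267) (nat_lit 151))))) (XT.nd (nat_lit 156) (nat_lit 152) (nat_lit 0) (XT.nd (nat_lit 78) (nat_lit 76) (nat_lit 0) (XT.lf (nat_lit 0) (nat_lit 116399921562) (nat_lit 228) (nat_lit 10086750730) (nat_lit 76) (nat_lit 89051152233) (nat_lit 11) (nat_lit 5) (nat_lit 14) (nat_lit 5) (nat_lit 12) (nat_lit 4) (nat_lit 303) (nat_lit 267) (nat_lit 150)) (XT.lf (nat_lit 0) (nat_lit 78186641334) (nat_lit 76) (nat_lit 81274575744) (nat_lit 152) (nat_lit 70588508476) (nat_lit 10) (nat_lit 5) (nat_lit 11) (nat_lit 5) (nat_lit 12) (nat_lit 4) (nat_lit 304) (nat_lit 267) (nat_lit 149))) (XT.nd (nat_lit 78) (nat_lit 152) (nat_lit 0) (XT.lf (nat_lit 0) (nat_lit 173880537683) (nat_lit 76) (nat_lit 32261651302) (nat_lit 152) (nat_lit 39571652727) (nat_lit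 10) (nat_lit 5) (nat_lit 11) (nat_lit 5) (nat_lit 12) (nat_lit 4) (nat_lit 305) (nat_lit 267) (nat_lit 148)) (XT.nd (nat_lit 78) (nat_lit 76) (nat_lit 0) (XT.lf (nat_lit 0) (nat_lit 14746607857) (nat_lit 76) (nat_lit 242363147298) (nat_lit 76) (nat_lit 5493727741) (nat_lit 9) (nat_lit 4) (nat_lit 10) (nat_lit 5) (nat_lit 10) (nat_lit 4) (nat_lit 306) (nat_lit 267) (nat_lit 147)) (XT.lf (nat_lit 0) (nat_lit 32123250495) (nat_lit 152) (nat_lit 171018467501) (nat_lit 76) (nat_lit 77587389145) (nat_lit 8) (nat_lit 5) (nat_lit 10) (nat_lit 5) (nat_lit 9) (nat_lit 4) (nat_lit 307) (nat_lit 267) (nat_lit 146))))))))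
noncomputable def xc100 : XT := (XT.nd (nat_lit 34866) (nat_lit 0) (nat_lit 1368) (XT.nd (nat_lit 702) (nat_lit 76) (nat_lit 0) (XT.nd (nat_lit 312) (nat_lit 152) (nat_lit 0) (XT.nd (nat_lit 156) (nat_lit 0) (nat_lit 0) (XT.nd (nat_lit 78) (nat_lit 76) (nat_lit 0) (XT.lf (nat_lit 0) (nat_lit 72558904722) (nat_lit 152) (nat_lit 88126961021) (nat_lit 76) (nat_lit 139614324241) (nat_lit 8) (nat_lit 5) (nat_lit 10) (nat_lit 5) (nat_lit 9) (nat_lit 4) (nat_lit 308) (nat_lit 267) (nat_lit 145)) (XT.lf (nat_lit 0) (nat_lit 1440738441) (nat_lit 76) (nat_lit 114810442752) (nat_lit 152) (nat_lit 205184690946) (nat_lit 7) (nat_lit 5) (nat_lit 8) (nat_lit 5) (nat_lit 9) (nat_lit 4) (nat_lit 309) (nat_lit 267) (nat_lit 144))) (XT.nd (nat_lit 78) (nat_lit 0) (nat_lit 0) (XT.lf (nat_lit 0) (nat_lit 101319652944) (nat_lit 76) (nat_lit 63653612695) (nat_lit 152) (nat_lit 179212423024) (nat_lit 7) (nat_lit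 5) (nat_lit 8) (nat_lit 5) (nat_lit 9) (nat_lit 4) (nat_lit 310) (nat_lit 267) (nat_lit 143)) (XT.lf (nat_lit 0) (nat_lit 209187782211) (nat_lit 76) (nat_lit 8404696717) (nat_lit 152) (nat_lit 151163044488) (nat_lit 7) (nat_lit 5) (nat_lit 8) (nat_lit 5) (nat_lit 9) (nat_lit 4) (nat_lit 311) (nat_lit 267) (nat_lit 142)))) (XT.nd (nat_lit 156) (nat_lit 76) (nat_lit 0) (XT.nd (nat_lit 78) (nat_lit 76) (nat_lit 0) (XT.lf (nat_lit 0) (nat_lit 275221008740) (nat_lit 152) (nat_lit 70407000751) (nat_lit 0) (nat_lit 49622947421) (nat_lit 7) (nat_lit 5) (nat_lit 9) (nat_lit 4) (nat_lit 7) (nat_lit 4) (nat_lit 312) (nat_lit 267) (nat_lit 141)) (XT.lf (nat_lit 0) (nat_lit 26595126802) (nat_lit 76) (nat_lit 311421084063) (nat_lit 76) (nat_lit 85821995592) (nat_lit 6) (nat_lit 4) (nat_lit 7) (nat_lit 5) (nat_lit 7) (nat_lit 4) (nat_lit 313) (nat_lit 267) (nat_lit 140))) (XT.nd (nat_lit 78) (nat_lit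 76) (nat_lit 0) (XT.lf (nat_lit 0) (nat_lit 133870713982) (nat_lit 76) (nat_lit 273190233211) (nat_lit 76) (nat_lit 47590193673) (nat_lit 6) (nat_lit 4) (nat_lit 7) (nat_lit 5) (nat_lit 7) (nat_lit 4) (nat_lit 314) (nat_lit 267) (nat_lit 139)) (XT.nd (nat_lit 78) (nat_lit 76) (nat_lit 0) (XT.lf (nat_lit 0) (nat_lit 249727494561) (nat_lit 76) (nat_lit 231901280371) (nat_lit 76) (nat_lit 6300360214) (nat_lit 6) (nat_lit 4) (nat_lit 7) (nat_lit 5) (nat_lit 7) (nat_lit 4) (nat_lit 315) (nat_lit 267) (nat_lit 138)) (XT.lf (nat_lit 0) (nat_lit 37066596209) (nat_lit 152) (nat_lit 149615213314) (nat_lit 76) (nat_lit 337157690287) (nat_lit 5) (nat_lit 5) (nat_lit 7) (nat_lit 5) (nat_lit 6) (nat_lit 4) (nat_lit 316) (nat_lit 267) (nat_lit 137)))))) (XT.nd (nat_lit 33774) (nat_lit 0) (nat_lit 4636) (XT.nd (nat_lit 156) (nat_lit 0) (nat_lit 0) (XT.nd (nat_lit 78) (nat_lit 76) (nat_lit 0) (XT.lf (nat_lit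 0) (nat_lit 83684700786) (nat_lit 152) (nat_lit 54048853919) (nat_lit 76) (nat_lit 424883849039) (nat_lit 5) (nat_lit 5) (nat_lit 7) (nat_lit 5) (nat_lit 6) (nat_lit 4) (nat_lit 317) (nat_lit 267) (nat_lit 136)) (XT.lf (nat_lit 0) (nat_lit 50787644855) (nat_lit 76) (nat_lit 84037152437) (nat_lit 152) (nat_lit 469633116085) (nat_lit 4) (nat_lit 5) (nat_lit 5) (nat_lit 5) (nat_lit 6) (nat_lit 4) (nat_lit 318) (nat_lit 267) (nat_lit 135))) (XT.nd (nat_lit 33540) (nat_lit 0) (nat_lit 4636) (XT.lf (nat_lit 0) (nat_lit 165940469526) (nat_lit 76) (nat_lit 25056753108) (nat_lit 152) (nat_lit 458601385611) (nat_lit 4) (nat_lit 5) (nat_lit 5) (nat_lit 5) (nat_lit 6) (nat_lit 4) (nat_lit 319) (nat_lit 267) (nat_lit 134)) (XT.lf (nat_lit 0) (nat_lit 2203637830) (nat_lit 0) (nat_lit 2203637830) (nat_lit 684) (nat_lit 13355309331) (nat_lit 65) (nat_lit 5) (nat_lit 65) (nat_lit 3) (nat_lit 74) (nat_lit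 3) (nat_lit 268) (nat_lit 268) (nat_lit 184)))) (XT.nd (nat_lit 156) (nat_lit 0) (nat_lit 76) (XT.nd (nat_lit 78) (nat_lit 0) (nat_lit 76) (XT.lf (nat_lit 0) (nat_lit 9553263685) (nat_lit 684) (nat_lit 8005385976) (nat_lit 760) (nat_lit 19367926539) (nat_lit 65) (nat_lit 5) (nat_lit 74) (nat_lit 3) (nat_lit 75) (nat_lit 5) (nat_lit 269) (nat_lit 268) (nat_lit 183)) (XT.lf (nat_lit 0) (nat_lit 10795602769) (nat_lit 684) (nat_lit 21092763442) (nat_lit 760) (nat_lit 6529531638) (nat_lit 66) (nat_lit 5) (nat_lit 75) (nat_lit 5) (nat_lit 76) (nat_lit 5) (nat_lit 270) (nat_lit 268) (nat_lit 182))) (XT.nd (nat_lit 78) (nat_lit 0) (nat_lit 76) (XT.lf (nat_lit 76) (nat_lit 4797218463) (nat_lit 0) (nat_lit 7846019000) (nat_lit 760) (nat_lit 27360019584) (nat_lit 67) (nat_lit 5) (nat_lit 66) (nat_lit 5) (nat_lit 76) (nat_lit 5) (nat_lit 271) (nat_lit 268) (nat_lit 181)) (XT.nd (nat_lit 78) (nat_lit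 0) (nat_lit 76) (XT.lf (nat_lit 0) (nat_lit 15288704784) (nat_lit 684) (nat_lit 8478947579) (nat_lit 760) (nat_lit 17915316749) (nat_lit 67) (nat_lit 5) (nat_lit 76) (nat_lit 5) (nat_lit 77) (nat_lit 5) (nat_lit 272) (nat_lit 268) (nat_lit 180)) (XT.lf (nat_lit 0) (nat_lit 18635091268) (nat_lit 684) (nat_lit 22591323459) (nat_lit 760) (nat_lit 2246202681) (nat_lit 68) (nat_lit 5) (nat_lit 77) (nat_lit 5) (nat_lit 78) (nat_lit 5) (nat_lit 273) (nat_lit 268) (nat_lit 179))))))) (XT.nd (nat_lit 702) (nat_lit 1596) (nat_lit 0) (XT.nd (nat_lit 312) (nat_lit 988) (nat_lit 0) (XT.nd (nat_lit 156) (nat_lit 912) (nat_lit 0) (XT.nd (nat_lit 78) (nat_lit 0) (nat_lit 76) (XT.lf (nat_lit 76) (nat_lit 7321879170) (nat_lit 0) (nat_lit 15587047773) (nat_lit 760) (nat_lit 22463545337) (nat_lit 69) (nat_lit 5) (nat_lit 68) (nat_lit 5) (nat_lit 78) (nat_lit 5) (nat_lit 274) (nat_lit 268) (nat_lit 178))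 (XT.lf (nat_lit 0) (nat_lit 28108508454) (nat_lit 684) (nat_lit 7169656054) (nat_lit 76) (nat_lit 12116979107) (nat_lit 69) (nat_lit 5) (nat_lit 78) (nat_lit 5) (nat_lit 70) (nat_lit 5) (nat_lit 275) (nat_lit 268) (nat_lit 177))) (XT.nd (nat_lit 78) (nat_lit 304) (nat_lit 0) (XT.lf (nat_lit 0) (nat_lit 26771657321) (nat_lit 684) (nat_lit 7628476589) (nat_lit 760) (nat_lit 15145709417) (nat_lit 60) (nat_lit 5) (nat_lit 69) (nat_lit 5) (nat_lit 70) (nat_lit 5) (nat_lit 276) (nat_lit 268) (nat_lit 176)) (XT.lf (nat_lit 0) (nat_lit 11847780648) (nat_lit 304) (nat_lit 30001913269) (nat_lit 380) (nat_lit 9986192038) (nat_lit 56) (nat_lit 5) (nat_lit 60) (nat_lit 5) (nat_lit 61) (nat_lit 5) (nat_lit 277) (nat_lit 268) (nat_lit 175)))) (XT.nd (nat_lit 156) (nat_lit 608) (nat_lit 0) (XT.nd (nat_lit 78) (nat_lit 380) (nat_lit 0) (XT.lf (nat_lit 0) (nat_lit 49915862877) (nat_lit 304) (nat_lit 498455435)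 (nat_lit 380) (nat_lit 3868874598) (nat_lit 56) (nat_lit 5) (nat_lit 60) (nat_lit 5) (nat_lit 61) (nat_lit 5) (nat_lit 278) (nat_lit 268) (nat_lit 174)) (XT.lf (nat_lit 0) (nat_lit 3694969436) (nat_lit 380) (nat_lit 22213740052) (nat_lit 76) (nat_lit 30963213252) (nat_lit 51) (nat_lit 5) (nat_lit 56) (nat_lit 5) (nat_lit 52) (nat_lit 5) (nat_lit 279) (nat_lit 268) (nat_lit 173))) (XT.nd (nat_lit 78) (nat_lit 304) (nat_lit 0) (XT.lf (nat_lit 0) (nat_lit 12178905025) (nat_lit 380) (nat_lit 41947182685) (nat_lit 76) (nat_lit 5515978490) (nat_lit 47) (nat_lit 5) (nat_lit 52) (nat_lit 5) (nat_lit 48) (nat_lit 5) (nat_lit 280) (nat_lit 268) (nat_lit 172)) (XT.nd (nat_lit 78) (nat_lit 304) (nat_lit 0) (XT.lf (nat_lit 0) (nat_lit 22168226173) (nat_lit 380) (nat_lit 1472150474) (nat_lit 76) (nat_lit 38952122970) (nat_lit 47) (nat_lit 5) (nat_lit 52) (nat_lit 5) (nat_lit 48) (nat_lit 5) (nat_lit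 281) (nat_lit 268) (nat_lit 171)) (XT.lf (nat_lit 0) (nat_lit 33790822025) (nat_lit 380) (nat_lit 22267371387) (nat_lit 76) (nat_lit 9679078972) (nat_lit 43) (nat_lit 5) (nat_lit 48) (nat_lit 5) (nat_lit 44) (nat_lit 5) (nat_lit 282) (nat_lit 268) (nat_lit 170)))))) (XT.nd (nat_lit 390) (nat_lit 836) (nat_lit 0) (XT.nd (nat_lit 156) (nat_lit 304) (nat_lit 0) (XT.nd (nat_lit 78) (nat_lit 228) (nat_lit 0) (XT.lf (nat_lit 0) (nat_lit 23269658821) (nat_lit 228) (nat_lit 23858503006) (nat_lit 304) (nat_lit 21966228634) (nat_lit 40) (nat_lit 5) (nat_lit 43) (nat_lit 5) (nat_lit 44) (nat_lit 5) (nat_lit 283) (nat_lit 268) (nat_lit 169)) (XT.lf (nat_lit 0) (nat_lit 375743770) (nat_lit 228) (nat_lit 61724411452) (nat_lit 304) (nat_lit 10591548981) (nat_lit 37) (nat_lit 5) (nat_lit 40) (nat_lit 5) (nat_lit 41) (nat_lit 5) (nat_lit 284) (nat_lit 268) (nat_lit 168))) (XT.nd (nat_lit 78) (nat_lit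 228) (nat_lit 0) (XT.lf (nat_lit 0) (nat_lit 2849753589) (nat_lit 304) (nat_lit 25073613678) (nat_lit 76) (nat_lit 48591580560) (nat_lit 36) (nat_lit 5) (nat_lit 40) (nat_lit 5) (nat_lit 37) (nat_lit 5) (nat_lit 285) (nat_lit 268) (nat_lit 167)) (XT.nd (nat_lit 78) (nat_lit 0) (nat_lit 0) (XT.lf (nat_lit 0) (nat_lit 17556967969) (nat_lit 304) (nat_lit 54140002612) (nat_lit 76) (nat_lit 8910322357) (nat_lit 33) (nat_lit 5) (nat_lit 37) (nat_lit 5) (nat_lit 34) (nat_lit 5) (nat_lit 286) (nat_lit 268) (nat_lit 166)) (XT.lf (nat_lit 0) (nat_lit 34353079025) (nat_lit 304) (nat_lit 2459609590) (nat_lit 76) (nat_lit 48168728281) (nat_lit 33) (nat_lit 5) (nat_lit 37) (nat_lit 5) (nat_lit 34) (nat_lit 5) (nat_lit 287) (nat_lit 268) (nat_lit 165))))) (XT.nd (nat_lit 156) (nat_lit 456) (nat_lit 0) (XT.nd (nat_lit 78) (nat_lit 152) (nat_lit 0) (XT.lf (nat_lit 0) (nat_lit 53378692264) (nat_lit 304)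 (nat_lit 34573862823) (nat_lit 76) (nat_lit 1708631694) (nat_lit 30) (nat_lit 5) (nat_lit 34) (nat_lit 5) (nat_lit 31) (nat_lit 5) (nat_lit 288) (nat_lit 268) (nat_lit 164)) (XT.lf (nat_lit 0) (nat_lit 22715257193) (nat_lit 152) (nat_lit 52227869006) (nat_lit 228) (nat_lit 19721379661) (nat_lit 28) (nat_lit 5) (nat_lit 30) (nat_lit 5) (nat_lit 31) (nat_lit 5) (nat_lit 289) (nat_lit 268) (nat_lit 163))) (XT.nd (nat_lit 78) (nat_lit 456) (nat_lit 0) (XT.lf (nat_lit 0) (nat_lit 85819268831) (nat_lit 152) (nat_lit 13013661731) (nat_lit 228) (nat_lit 1205154843) (nat_lit 28) (nat_lit 5) (nat_lit 30) (nat_lit 5) (nat_lit 31) (nat_lit 5) (nat_lit 290) (nat_lit 268) (nat_lit 162)) (XT.nd (nat_lit 78) (nat_lit 152) (nat_lit 0) (XT.lf (nat_lit 0) (nat_lit 19435974836) (nat_lit 304) (nat_lit 56848357368) (nat_lit 76) (nat_lit 29480300082) (nat_lit 24) (nat_lit 5) (nat_lit 28) (nat_lit 5) (nat_lit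 25) (nat_lit 5) (nat_lit 291) (nat_lit 268) (nat_lit 161)) (XT.lf (nat_lit 0) (nat_lit 5605931620) (nat_lit 152) (nat_lit 36637672457) (nat_lit 228) (nat_lit 69676844084) (nat_lit 22) (nat_lit 5) (nat_lit 24) (nat_lit 5) (nat_lit 25) (nat_lit 5) (nat_lit 292) (nat_lit 268) (nat_lit 160))))))))
noncomputable def xc101 : XT := (XT.nd (nat_lit 1404) (nat_lit 228) (nat_lit 0) (XT.nd (nat_lit 702) (nat_lit 456) (nat_lit 0) (XT.nd (nat_lit 312) (nat_lit 304) (nat_lit 0) (XT.nd (nat_lit 156) (nat_lit 228) (nat_lit 0) (XT.nd (nat_lit 78) (nat_lit 152) (nat_lit 0) (XT.lf (nat_lit 0) (nat_lit 67977086481) (nat_lit 228) (nat_lit 43547991828) (nat_lit 76) (nat_lit 6988593186) (nat_lit 22) (nat_lit 5) (nat_lit 25) (nat_lit 5) (nat_lit 23) (nat_lit 5) (nat_lit 293) (nat_lit 268) (nat_lit 159)) (XT.lf (nat_lit 0) (nat_lit 24400600533) (nat_lit 152) (nat_lit 72365765445) (nat_lit 228) (nat_lit 28818134802)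 (nat_lit 20) (nat_lit 5) (nat_lit 22) (nat_lit 5) (nat_lit 23) (nat_lit 5) (nat_lit 294) (nat_lit 268) (nat_lit 158))) (XT.nd (nat_lit 78) (nat_lit 228) (nat_lit 0) (XT.lf (nat_lit 0) (nat_lit 99337823556) (nat_lit 152) (nat_lit 29278004402) (nat_lit 228) (nat_lit 4567320152) (nat_lit 20) (nat_lit 5) (nat_lit 22) (nat_lit 5) (nat_lit 23) (nat_lit 5) (nat_lit 295) (nat_lit 268) (nat_lit 157)) (XT.lf (nat_lit 0) (nat_lit 21836781016) (nat_lit 228) (nat_lit 101812104418) (nat_lit 76) (nat_lit 17678659333) (nat_lit 17) (nat_lit 5) (nat_lit 20) (nat_lit 5) (nat_lit 18) (nat_lit 5) (nat_lit 296) (nat_lit 268) (nat_lit 156)))) (XT.nd (nat_lit 156) (nat_lit 152) (nat_lit 0) (XT.nd (nat_lit 78) (nat_lit 152) (nat_lit 0) (XT.lf (nat_lit 0) (nat_lit 51286854315) (nat_lit 228) (nat_lit 30722884878) (nat_lit 76) (nat_lit 68055330252) (nat_lit 17) (nat_lit 5) (nat_lit 20) (nat_lit 5) (nat_lit 18) (nat_lit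 5) (nat_lit 297) (nat_lit 268) (nat_lit 155)) (XT.lf (nat_lit 0) (nat_lit 47574119868) (nat_lit 152) (nat_lit 36260293850) (nat_lit 228) (nat_lit 75630111176) (nat_lit 15) (nat_lit 5) (nat_lit 17) (nat_lit 5) (nat_lit 18) (nat_lit 5) (nat_lit 298) (nat_lit 268) (nat_lit 154))) (XT.nd (nat_lit 78) (nat_lit 152) (nat_lit 0) (XT.lf (nat_lit 0) (nat_lit 119733787215) (nat_lit 228) (nat_lit 36573242488) (nat_lit 76) (nat_lit 13271509205) (nat_lit 15) (nat_lit 5) (nat_lit 18) (nat_lit 5) (nat_lit 16) (nat_lit 4) (nat_lit 299) (nat_lit 268) (nat_lit 153)) (XT.nd (nat_lit 78) (nat_lit 76) (nat_lit 0) (XT.lf (nat_lit 0) (nat_lit 45616037526) (nat_lit 76) (nat_lit 114211542013) (nat_lit 152) (nat_lit 20607973462) (nat_lit 14) (nat_lit 5) (nat_lit 15) (nat_lit 5) (nat_lit 16) (nat_lit 4) (nat_lit 300) (nat_lit 268) (nat_lit 152)) (XT.lf (nat_lit 0) (nat_lit 11263133934) (nat_lit 152) (nat_lit 56626274205)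 (nat_lit 76) (nat_lit 124230839177) (nat_lit 13) (nat_lit 5) (nat_lit 15) (nat_lit 5) (nat_lit 14) (nat_lit 5) (nat_lit 301) (nat_lit 268) (nat_lit 151)))))) (XT.nd (nat_lit 312) (nat_lit 228) (nat_lit 0) (XT.nd (nat_lit 156) (nat_lit 76) (nat_lit 0) (XT.nd (nat_lit 78) (nat_lit 0) (nat_lit 0) (XT.lf (nat_lit 0) (nat_lit 28381664457) (nat_lit 152) (nat_lit 17032010976) (nat_lit 228) (nat_lit 159286564497) (nat_lit 11) (nat_lit 5) (nat_lit 13) (nat_lit 5) (nat_lit 14) (nat_lit 5) (nat_lit 302) (nat_lit 268) (nat_lit 150)) (XT.lf (nat_lit 0) (nat_lit 83889474826) (nat_lit 228) (nat_lit 96634402323) (nat_lit 76) (nat_lit 37683095896) (nat_lit 11) (nat_lit 5) (nat_lit 14) (nat_lit 5) (nat_lit 12) (nat_lit 4) (nat_lit 303) (nat_lit 268) (nat_lit 149))) (XT.nd (nat_lit 78) (nat_lit 76) (nat_lit 0) (XT.lf (nat_lit 0) (nat_lit 125729621427) (nat_lit 228) (nat_lit 10864197850) (nat_lit 76) (nat_lit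 96186113051) (nat_lit 11) (nat_lit 5) (nat_lit 14) (nat_lit 5) (nat_lit 12) (nat_lit 4) (nat_lit 304) (nat_lit 268) (nat_lit 148)) (XT.lf (nat_lit 0) (nat_lit 84469783852) (nat_lit 76) (nat_lit 87765165623) (nat_lit 152) (nat_lit 76217881954) (nat_lit 10) (nat_lit 5) (nat_lit 11) (nat_lit 5) (nat_lit 12) (nat_lit 4) (nat_lit 305) (nat_lit 268) (nat_lit 147)))) (XT.nd (nat_lit 156) (nat_lit 152) (nat_lit 0) (XT.nd (nat_lit 78) (nat_lit 76) (nat_lit 0) (XT.lf (nat_lit 0) (nat_lit 187817102189) (nat_lit 76) (nat_lit 34832049906) (nat_lit 152) (nat_lit 42720989390) (nat_lit 10) (nat_lit 5) (nat_lit 11) (nat_lit 5) (nat_lit 12) (nat_lit 4) (nat_lit 306) (nat_lit 268) (nat_lit 146)) (XT.lf (nat_lit 0) (nat_lit 15951937927) (nat_lit 76) (nat_lit 261741582952) (nat_lit 76) (nat_lit 5917465306) (nat_lit 9) (nat_lit 4) (nat_lit 10) (nat_lit 5) (nat_lit 10) (nat_lit 4) (nat_lit 307) (nat_lit 268)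 (nat_lit 145))) (XT.nd (nat_lit 78) (nat_lit 76) (nat_lit 0) (XT.lf (nat_lit 0) (nat_lit 34707236660) (nat_lit 152) (nat_lit 184675749793) (nat_lit 76) (nat_lit 83803719957) (nat_lit 8) (nat_lit 5) (nat_lit 10) (nat_lit 5) (nat_lit 9) (nat_lit 4) (nat_lit 308) (nat_lit 268) (nat_lit 144)) (XT.nd (nat_lit 78) (nat_lit 76) (nat_lit 0) (XT.lf (nat_lit 0) (nat_lit 78376696846) (nat_lit 152) (nat_lit 95154715025) (nat_lit 76) (nat_lit 150792118032) (nat_lit 8) (nat_lit 5) (nat_lit 10) (nat_lit 5) (nat_lit 9) (nat_lit 4) (nat_lit 309) (nat_lit 268) (nat_lit 143)) (XT.lf (nat_lit 0) (nat_lit 1577426793) (nat_lit 76) (nat_lit 123986294342) (nat_lit 152) (nat_lit 221586378787) (nat_lit 7) (nat_lit 5) (nat_lit 8) (nat_lit 5) (nat_lit 9) (nat_lit 4) (nat_lit 310) (nat_lit 268) (nat_lit 142))))))) (XT.nd (nat_lit 34242) (nat_lit 0) (nat_lit 3952) (XT.nd (nat_lit 312) (nat_lit 152) (nat_lit 0) (XT.nd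 (nat_lit 156) (nat_lit 76) (nat_lit 0) (XT.nd (nat_lit 78) (nat_lit 0) (nat_lit 0) (XT.lf (nat_lit 0) (nat_lit 109445067102) (nat_lit 76) (nat_lit 68737583350) (nat_lit 152) (nat_lit 193537298870) (nat_lit 7) (nat_lit 5) (nat_lit 8) (nat_lit 5) (nat_lit 9) (nat_lit 4) (nat_lit 311) (nat_lit 268) (nat_lit 141)) (XT.lf (nat_lit 0) (nat_lit 225941176939) (nat_lit 76) (nat_lit 9069370268) (nat_lit 152) (nat_lit 163244867681) (nat_lit 7) (nat_lit 5) (nat_lit 8) (nat_lit 5) (nat_lit 9) (nat_lit 4) (nat_lit 312) (nat_lit 268) (nat_lit 140))) (XT.nd (nat_lit 78) (nat_lit 76) (nat_lit 0) (XT.lf (nat_lit 0) (nat_lit 297248680381) (nat_lit 152) (nat_lit 76022151274) (nat_lit 0) (nat_lit 53599686611) (nat_lit 7) (nat_lit 5) (nat_lit 9) (nat_lit 4) (nat_lit 7) (nat_lit 4) (nat_lit 313) (nat_lit 268) (nat_lit 139)) (XT.lf (nat_lit 0) (nat_lit 28739389885) (nat_lit 76) (nat_lit 336327628720) (nat_lit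 76) (nat_lit 92677754333) (nat_lit 6) (nat_lit 4) (nat_lit 7) (nat_lit 5) (nat_lit 7) (nat_lit 4) (nat_lit 314) (nat_lit 268) (nat_lit 138)))) (XT.nd (nat_lit 156) (nat_lit 152) (nat_lit 0) (XT.nd (nat_lit 78) (nat_lit 0) (nat_lit 0) (XT.lf (nat_lit 0) (nat_lit 144595790489) (nat_lit 76) (nat_lit 295038838842) (nat_lit 76) (nat_lit 51388149068) (nat_lit 6) (nat_lit 4) (nat_lit 7) (nat_lit 5) (nat_lit 7) (nat_lit 4) (nat_lit 315) (nat_lit 268) (nat_lit 137)) (XT.lf (nat_lit 0) (nat_lit 269719971337) (nat_lit 76) (nat_lit 250447259629) (nat_lit 76) (nat_lit 6795814866) (nat_lit 6) (nat_lit 4) (nat_lit 7) (nat_lit 5) (nat_lit 7) (nat_lit 4) (nat_lit 316) (nat_lit 268) (nat_lit 136))) (XT.nd (nat_lit 78) (nat_lit 76) (nat_lit 0) (XT.lf (nat_lit 0) (nat_lit 40039608849) (nat_lit 152) (nat_lit 161570945684) (nat_lit 76) (nat_lit 364135710058) (nat_lit 5) (nat_lit 5) (nat_lit 7) (nat_lit 5)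 (nat_lit 6) (nat_lit 4) (nat_lit 317) (nat_lit 268) (nat_lit 135)) (XT.nd (nat_lit 78) (nat_lit 76) (nat_lit 0) (XT.lf (nat_lit 0) (nat_lit 90386592537) (nat_lit 152) (nat_lit 58360276404) (nat_lit 76) (nat_lit 458879561174) (nat_lit 5) (nat_lit 5) (nat_lit 7) (nat_lit 5) (nat_lit 6) (nat_lit 4) (nat_lit 318) (nat_lit 268) (nat_lit 134)) (XT.lf (nat_lit 0) (nat_lit 54862599653) (nat_lit 76) (nat_lit 90754956489) (nat_lit 152) (nat_lit 507196642158) (nat_lit 4) (nat_lit 5) (nat_lit 5) (nat_lit 5) (nat_lit 6) (nat_lit 4) (nat_lit 319) (nat_lit 268) (nat_lit 133)))))) (XT.nd (nat_lit 390) (nat_lit 684) (nat_lit 0) (XT.nd (nat_lit 156) (nat_lit 0) (nat_lit 76) (XT.nd (nat_lit 78) (nat_lit 0) (nat_lit 0) (XT.lf (nat_lit 0) (nat_lit 2415914279) (nat_lit 0) (nat_lit 2415914279) (nat_lit 684) (nat_lit 14347877696) (nat_lit 65) (nat_lit 5) (nat_lit 65) (nat_lit 3) (nat_lit 74) (nat_lit 3) (nat_lit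 269) (nat_lit 269) (nat_lit 182)) (XT.lf (nat_lit 0) (nat_lit 10449763689) (nat_lit 684) (nat_lit 8570941313) (nat_lit 760) (nat_lit 20852853878) (nat_lit 65) (nat_lit 5) (nat_lit 74) (nat_lit 3) (nat_lit 75) (nat_lit 5) (nat_lit 270) (nat_lit 269) (nat_lit 181))) (XT.nd (nat_lit 78) (nat_lit 0) (nat_lit 0) (XT.lf (nat_lit 0) (nat_lit 11782001707) (nat_lit 684) (nat_lit 22701081860) (nat_lit 760) (nat_lit 7001616471) (nat_lit 66) (nat_lit 5) (nat_lit 75) (nat_lit 5) (nat_lit 76) (nat_lit 5) (nat_lit 271) (nat_lit 269) (nat_lit 180)) (XT.nd (nat_lit 78) (nat_lit 0) (nat_lit 76) (XT.lf (nat_lit 76) (nat_lit 5256660892) (nat_lit 0) (nat_lit 8512874981) (nat_lit 760) (nat_lit 29427784116) (nat_lit 67) (nat_lit 5) (nat_lit 66) (nat_lit 5) (nat_lit 76) (nat_lit 5) (nat_lit 272) (nat_lit 269) (nat_lit 179)) (XT.lf (nat_lit 0) (nat_lit 16617567639) (nat_lit 684) (nat_lit 9080898388) (nat_lit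 760) (nat_lit 19313430391) (nat_lit 67) (nat_lit 5) (nat_lit 76) (nat_lit 5) (nat_lit 77) (nat_lit 5) (nat_lit 273) (nat_lit 269) (nat_lit 178))))) (XT.nd (nat_lit 156) (nat_lit 912) (nat_lit 0) (XT.nd (nat_lit 78) (nat_lit 0) (nat_lit 0) (XT.lf (nat_lit 0) (nat_lit 20224564604) (nat_lit 684) (nat_lit 24319832462) (nat_lit 760) (nat_lit 2400705785) (nat_lit 68) (nat_lit 5) (nat_lit 77) (nat_lit 5) (nat_lit 78) (nat_lit 5) (nat_lit 274) (nat_lit 269) (nat_lit 177)) (XT.lf (nat_lit 76) (nat_lit 7983001961) (nat_lit 0) (nat_lit 16851173353) (nat_lit 760) (nat_lit 24163106327) (nat_lit 69) (nat_lit 5) (nat_lit 68) (nat_lit 5) (nat_lit 78) (nat_lit 5) (nat_lit 275) (nat_lit 269) (nat_lit 176))) (XT.nd (nat_lit 78) (nat_lit 988) (nat_lit 0) (XT.lf (nat_lit 0) (nat_lit 30442620863) (nat_lit 684) (nat_lit 7668572222) (nat_lit 76) (nat_lit 13070955516) (nat_lit 69) (nat_lit 5) (nat_lit 78) (nat_lit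 5) (nat_lit 70) (nat_lit 5) (nat_lit 276) (nat_lit 269) (nat_lit 175)) (XT.nd (nat_lit 78) (nat_lit 304) (nat_lit 0) (XT.lf (nat_lit 0) (nat_lit 28984801751) (nat_lit 684) (nat_lit 8247561267) (nat_lit 760) (nat_lit 16272826747) (nat_lit 60) (nat_lit 5) (nat_lit 69) (nat_lit 5) (nat_lit 70) (nat_lit 5) (nat_lit 277) (nat_lit 269) (nat_lit 174)) (XT.lf (nat_lit 0) (nat_lit 12868176234) (nat_lit 304) (nat_lit 32404775249) (nat_lit 380) (nat_lit 10705754109) (nat_lit 56) (nat_lit 5) (nat_lit 60) (nat_lit 5) (nat_lit 61) (nat_lit 5) (nat_lit 278) (nat_lit 269) (nat_lit 173))))))))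
noncomputable def xc102 : XT := (XT.nd (nat_lit 1404) (nat_lit 1064) (nat_lit 0) (XT.nd (nat_lit 702) (nat_lit 988) (nat_lit 0) (XT.nd (nat_lit 312) (nat_lit 1064) (nat_lit 0) (XT.nd (nat_lit 156) (nat_lit 304) (nat_lit 0) (XT.nd (nat_lit 78) (nat_lit 380) (nat_lit 0) (XT.lf (nat_lit 0) (nat_lit 53976329254) (nat_lit 304) (nat_lit 540840128) (nat_lit 380) (nat_lit 4104927814) (nat_lit 56) (nat_lit 5) (nat_lit 60) (nat_lit 5) (nat_lit 61) (nat_lit 5) (nat_lit 279) (nat_lit 269) (nat_lit 172)) (XT.lf (nat_lit 0) (nat_lit 4057446256) (nat_lit 380) (nat_lit 23920490856) (nat_lit 76) (nat_lit 33440161033) (nat_lit 51) (nat_lit 5) (nat_lit 56) (nat_lit 5) (nat_lit 52) (nat_lit 5) (nat_lit 280) (nat_lit 269) (nat_lit 171))) (XT.nd (nat_lit 78) (nat_lit 0) (nat_lit 0) (XT.lf (nat_lit 0) (nat_lit 13216260649) (nat_lit 380) (nat_lit 45232367652) (nat_lit 76) (nat_lit 5961433948) (nat_lit 47) (nat_lit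 5) (nat_lit 52) (nat_lit 5) (nat_lit 48) (nat_lit 5) (nat_lit 281) (nat_lit 269) (nat_lit 170)) (XT.lf (nat_lit 0) (nat_lit 24000057621) (nat_lit 380) (nat_lit 1524561727) (nat_lit 76) (nat_lit 42072160567) (nat_lit 47) (nat_lit 5) (nat_lit 52) (nat_lit 5) (nat_lit 48) (nat_lit 5) (nat_lit 282) (nat_lit 269) (nat_lit 169)))) (XT.nd (nat_lit 156) (nat_lit 532) (nat_lit 0) (XT.nd (nat_lit 78) (nat_lit 228) (nat_lit 0) (XT.lf (nat_lit 0) (nat_lit 36549230320) (nat_lit 380) (nat_lit 23983420436) (nat_lit 76) (nat_lit 10460660176) (nat_lit 43) (nat_lit 5) (nat_lit 48) (nat_lit 5) (nat_lit 44) (nat_lit 5) (nat_lit 283) (nat_lit 269) (nat_lit 168)) (XT.lf (nat_lit 0) (nat_lit 25193732563) (nat_lit 228) (nat_lit 25756715927) (nat_lit 304) (nat_lit 23668719192) (nat_lit 40) (nat_lit 5) (nat_lit 43) (nat_lit 5) (nat_lit 44) (nat_lit 5) (nat_lit 284) (nat_lit 269) (nat_lit 167))) (XT.nd (nat_lit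 78) (nat_lit 304) (nat_lit 0) (XT.lf (nat_lit 0) (nat_lit 468085226) (nat_lit 228) (nat_lit 66649385496) (nat_lit 304) (nat_lit 11386945099) (nat_lit 37) (nat_lit 5) (nat_lit 40) (nat_lit 5) (nat_lit 41) (nat_lit 5) (nat_lit 285) (nat_lit 269) (nat_lit 166)) (XT.nd (nat_lit 78) (nat_lit 228) (nat_lit 0) (XT.lf (nat_lit 0) (nat_lit 3124276272) (nat_lit 304) (nat_lit 27020154685) (nat_lit 76) (nat_lit 52489244869) (nat_lit 36) (nat_lit 5) (nat_lit 40) (nat_lit 5) (nat_lit 37) (nat_lit 5) (nat_lit 286) (nat_lit 269) (nat_lit 165)) (XT.lf (nat_lit 0) (nat_lit 19005706192) (nat_lit 304) (nat_lit 58412304240) (nat_lit 76) (nat_lit 9635526618) (nat_lit 33) (nat_lit 5) (nat_lit 37) (nat_lit 5) (nat_lit 34) (nat_lit 5) (nat_lit 287) (nat_lit 269) (nat_lit 164)))))) (XT.nd (nat_lit 312) (nat_lit 608) (nat_lit 0) (XT.nd (nat_lit 156) (nat_lit 152) (nat_lit 0) (XT.nd (nat_lit 78) (nat_lit 228) (nat_lit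 0) (XT.lf (nat_lit 0) (nat_lit 37142233480) (nat_lit 304) (nat_lit 2601842634) (nat_lit 76) (nat_lit 52033688091) (nat_lit 33) (nat_lit 5) (nat_lit 37) (nat_lit 5) (nat_lit 34) (nat_lit 5) (nat_lit 288) (nat_lit 269) (nat_lit 163)) (XT.lf (nat_lit 0) (nat_lit 57687890356) (nat_lit 304) (nat_lit 37285770221) (nat_lit 76) (nat_lit 1858364313) (nat_lit 30) (nat_lit 5) (nat_lit 34) (nat_lit 5) (nat_lit 31) (nat_lit 5) (nat_lit 289) (nat_lit 269) (nat_lit 162))) (XT.nd (nat_lit 78) (nat_lit 0) (nat_lit 0) (XT.lf (nat_lit 0) (nat_lit 24584132552) (nat_lit 152) (nat_lit 56391271247) (nat_lit 228) (nat_lit 21260317730) (nat_lit 28) (nat_lit 5) (nat_lit 30) (nat_lit 5) (nat_lit 31) (nat_lit 5) (nat_lit 290) (nat_lit 269) (nat_lit 161)) (XT.lf (nat_lit 0) (nat_lit 92732638840) (nat_lit 152) (nat_lit 14041025708) (nat_lit 228) (nat_lit 1265666949) (nat_lit 28) (nat_lit 5) (nat_lit 30) (nat_lit 5)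 (nat_lit 31) (nat_lit 5) (nat_lit 291) (nat_lit 269) (nat_lit 160)))) (XT.nd (nat_lit 156) (nat_lit 152) (nat_lit 0) (XT.nd (nat_lit 78) (nat_lit 152) (nat_lit 0) (XT.lf (nat_lit 0) (nat_lit 21023981702) (nat_lit 304) (nat_lit 61347778733) (nat_lit 76) (nat_lit 31852301541) (nat_lit 24) (nat_lit 5) (nat_lit 28) (nat_lit 5) (nat_lit 25) (nat_lit 5) (nat_lit 292) (nat_lit 269) (nat_lit 159)) (XT.lf (nat_lit 0) (nat_lit 6100747916) (nat_lit 152) (nat_lit 39553742901) (nat_lit 228) (nat_lit 75217945084) (nat_lit 22) (nat_lit 5) (nat_lit 24) (nat_lit 5) (nat_lit 25) (nat_lit 5) (nat_lit 293) (nat_lit 269) (nat_lit 158))) (XT.nd (nat_lit 78) (nat_lit 152) (nat_lit 0) (XT.lf (nat_lit 0) (nat_lit 73444542031) (nat_lit 228) (nat_lit 46987612126) (nat_lit 76) (nat_lit 7561074226) (nat_lit 22) (nat_lit 5) (nat_lit 25) (nat_lit 5) (nat_lit 23) (nat_lit 5) (nat_lit 294) (nat_lit 269) (nat_lit 157))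 (XT.nd (nat_lit 78) (nat_lit 0) (nat_lit 0) (XT.lf (nat_lit 0) (nat_lit 26394945917) (nat_lit 152) (nat_lit 78140508821) (nat_lit 228) (nat_lit 31094350092) (nat_lit 20) (nat_lit 5) (nat_lit 22) (nat_lit 5) (nat_lit 23) (nat_lit 5) (nat_lit 295) (nat_lit 269) (nat_lit 156)) (XT.lf (nat_lit 0) (nat_lit 107324013646) (nat_lit 152) (nat_lit 31606802291) (nat_lit 228) (nat_lit 4905635862) (nat_lit 20) (nat_lit 5) (nat_lit 22) (nat_lit 5) (nat_lit 23) (nat_lit 5) (nat_lit 296) (nat_lit 269) (nat_lit 155))))))) (XT.nd (nat_lit 702) (nat_lit 380) (nat_lit 0) (XT.nd (nat_lit 312) (nat_lit 304) (nat_lit 0) (XT.nd (nat_lit 156) (nat_lit 152) (nat_lit 0) (XT.nd (nat_lit 78) (nat_lit 0) (nat_lit 0) (XT.lf (nat_lit 0) (nat_lit 23608795263) (nat_lit 228) (nat_lit 109917638055) (nat_lit 76) (nat_lit 19106006704) (nat_lit 17) (nat_lit 5) (nat_lit 20) (nat_lit 5) (nat_lit 18) (nat_lit 5) (nat_lit 297)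 (nat_lit 269) (nat_lit 154)) (XT.lf (nat_lit 0) (nat_lit 55413017259) (nat_lit 228) (nat_lit 33144202043) (nat_lit 76) (nat_lit 73511844287) (nat_lit 17) (nat_lit 5) (nat_lit 20) (nat_lit 5) (nat_lit 18) (nat_lit 5) (nat_lit 298) (nat_lit 269) (nat_lit 153))) (XT.nd (nat_lit 78) (nat_lit 0) (nat_lit 0) (XT.lf (nat_lit 0) (nat_lit 51414976246) (nat_lit 152) (nat_lit 39148230873) (nat_lit 228) (nat_lit 81657330823) (nat_lit 15) (nat_lit 5) (nat_lit 17) (nat_lit 5) (nat_lit 18) (nat_lit 5) (nat_lit 299) (nat_lit 269) (nat_lit 152)) (XT.lf (nat_lit 0) (nat_lit 129333084172) (nat_lit 228) (nat_lit 39465884723) (nat_lit 76) (nat_lit 14344779975) (nat_lit 15) (nat_lit 5) (nat_lit 18) (nat_lit 5) (nat_lit 16) (nat_lit 4) (nat_lit 300) (nat_lit 269) (nat_lit 151)))) (XT.nd (nat_lit 156) (nat_lit 152) (nat_lit 0) (XT.nd (nat_lit 78) (nat_lit 76) (nat_lit 0) (XT.lf (nat_lit 0) (nat_lit 49297094115)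 (nat_lit 76) (nat_lit 123336256362) (nat_lit 152) (nat_lit 22236028303) (nat_lit 14) (nat_lit 5) (nat_lit 15) (nat_lit 5) (nat_lit 16) (nat_lit 4) (nat_lit 301) (nat_lit 269) (nat_lit 150)) (XT.lf (nat_lit 0) (nat_lit 12182633029) (nat_lit 152) (nat_lit 61126310687) (nat_lit 76) (nat_lit 134179965486) (nat_lit 13) (nat_lit 5) (nat_lit 15) (nat_lit 5) (nat_lit 14) (nat_lit 5) (nat_lit 302) (nat_lit 269) (nat_lit 149))) (XT.nd (nat_lit 78) (nat_lit 0) (nat_lit 0) (XT.lf (nat_lit 0) (nat_lit 30680956459) (nat_lit 152) (nat_lit 18383343849) (nat_lit 228) (nat_lit 172011049424) (nat_lit 11) (nat_lit 5) (nat_lit 13) (nat_lit 5) (nat_lit 14) (nat_lit 5) (nat_lit 303) (nat_lit 269) (nat_lit 148)) (XT.nd (nat_lit 78) (nat_lit 0) (nat_lit 0) (XT.lf (nat_lit 0) (nat_lit 90617027386) (nat_lit 228) (nat_lit 104337846233) (nat_lit 76) (nat_lit 40707807123) (nat_lit 11) (nat_lit 5) (nat_lit 14) (nat_lit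 5) (nat_lit 12) (nat_lit 4) (nat_lit 304) (nat_lit 269) (nat_lit 147)) (XT.lf (nat_lit 0) (nat_lit 135803171303) (nat_lit 228) (nat_lit 11708048238) (nat_lit 76) (nat_lit 103890320202) (nat_lit 11) (nat_lit 5) (nat_lit 14) (nat_lit 5) (nat_lit 12) (nat_lit 4) (nat_lit 305) (nat_lit 269) (nat_lit 146)))))) (XT.nd (nat_lit 390) (nat_lit 152) (nat_lit 0) (XT.nd (nat_lit 156) (nat_lit 152) (nat_lit 0) (XT.nd (nat_lit 78) (nat_lit 0) (nat_lit 0) (XT.lf (nat_lit 0) (nat_lit 91251553127) (nat_lit 76) (nat_lit 94776625632) (nat_lit 152) (nat_lit 82300131441) (nat_lit 10) (nat_lit 5) (nat_lit 11) (nat_lit 5) (nat_lit 12) (nat_lit 4) (nat_lit 306) (nat_lit 269) (nat_lit 145)) (XT.lf (nat_lit 0) (nat_lit 202864865333) (nat_lit 76) (nat_lit 37609583120) (nat_lit 152) (nat_lit 46124611995) (nat_lit 10) (nat_lit 5) (nat_lit 11) (nat_lit 5) (nat_lit 12) (nat_lit 4) (nat_lit 307) (nat_lit 269) (nat_lit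 144))) (XT.nd (nat_lit 78) (nat_lit 76) (nat_lit 0) (XT.lf (nat_lit 0) (nat_lit 17250042070) (nat_lit 76) (nat_lit 282671807967) (nat_lit 76) (nat_lit 6377350309) (nat_lit 9) (nat_lit 4) (nat_lit 10) (nat_lit 5) (nat_lit 10) (nat_lit 4) (nat_lit 308) (nat_lit 269) (nat_lit 143)) (XT.nd (nat_lit 78) (nat_lit 0) (nat_lit 0) (XT.lf (nat_lit 0) (nat_lit 37495926468) (nat_lit 152) (nat_lit 199429066371) (nat_lit 76) (nat_lit 90516024824) (nat_lit 8) (nat_lit 5) (nat_lit 10) (nat_lit 5) (nat_lit 9) (nat_lit 4) (nat_lit 309) (nat_lit 269) (nat_lit 142)) (XT.lf (nat_lit 0) (nat_lit 84658046367) (nat_lit 152) (nat_lit 102747885370) (nat_lit 76) (nat_lit 162862901614) (nat_lit 8) (nat_lit 5) (nat_lit 10) (nat_lit 5) (nat_lit 9) (nat_lit 4) (nat_lit 310) (nat_lit 269) (nat_lit 141))))) (XT.nd (nat_lit 156) (nat_lit 76) (nat_lit 0) (XT.nd (nat_lit 78) (nat_lit 0) (nat_lit 0) (XT.lf (nat_lit 0) (nat_lit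 1721993087) (nat_lit 76) (nat_lit 133897495703) (nat_lit 152) (nat_lit 239302068723) (nat_lit 7) (nat_lit 5) (nat_lit 8) (nat_lit 5) (nat_lit 9) (nat_lit 4) (nat_lit 311) (nat_lit 269) (nat_lit 140)) (XT.lf (nat_lit 0) (nat_lit 118217683721) (nat_lit 76) (nat_lit 74229458364) (nat_lit 152) (nat_lit 209009893552) (nat_lit 7) (nat_lit 5) (nat_lit 8) (nat_lit 5) (nat_lit 9) (nat_lit 4) (nat_lit 312) (nat_lit 269) (nat_lit 139))) (XT.nd (nat_lit 78) (nat_lit 76) (nat_lit 0) (XT.lf (nat_lit 0) (nat_lit 244032222252) (nat_lit 76) (nat_lit 9788316506) (nat_lit 152) (nat_lit 176294837440) (nat_lit 7) (nat_lit 5) (nat_lit 8) (nat_lit 5) (nat_lit 9) (nat_lit 4) (nat_lit 313) (nat_lit 269) (nat_lit 138)) (XT.nd (nat_lit 78) (nat_lit 76) (nat_lit 0) (XT.lf (nat_lit 0) (nat_lit 321037140433) (nat_lit 152) (nat_lit 82088997505) (nat_lit 0) (nat_lit 57893580090) (nat_lit 7) (nat_lit 5) (nat_lit 9) (nat_lit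 4) (nat_lit 7) (nat_lit 4) (nat_lit 314) (nat_lit 269) (nat_lit 137)) (XT.lf (nat_lit 0) (nat_lit 31052818287) (nat_lit 76) (nat_lit 363227715846) (nat_lit 76) (nat_lit 100083400514) (nat_lit 6) (nat_lit 4) (nat_lit 7) (nat_lit 5) (nat_lit 7) (nat_lit 4) (nat_lit 315) (nat_lit 269) (nat_lit 136))))))))
noncomputable def xc103 : XT := (XT.nd (nat_lit 35100) (nat_lit 0) (nat_lit 608) (XT.nd (nat_lit 34320) (nat_lit 0) (nat_lit 2888) (XT.nd (nat_lit 33930) (nat_lit 0) (nat_lit 4560) (XT.nd (nat_lit 156) (nat_lit 76) (nat_lit 0) (XT.nd (nat_lit 78) (nat_lit 0) (nat_lit 0) (XT.lf (nat_lit 0) (nat_lit 156176673368) (nat_lit 76) (nat_lit 318636276346) (nat_lit 76) (nat_lit 55491261951) (nat_lit 6) (nat_lit 4) (nat_lit 7) (nat_lit 5) (nat_lit 7) (nat_lit 4) (nat_lit 316) (nat_lit 269) (nat_lit 135)) (XT.lf (nat_lit 0) (nat_lit 291309809452) (nat_lit 76) (nat_lit 270477790766) (nat_lit 76) (nat_lit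 7332129090) (nat_lit 6) (nat_lit 4) (nat_lit 7) (nat_lit 5) (nat_lit 7) (nat_lit 4) (nat_lit 317) (nat_lit 269) (nat_lit 134))) (XT.nd (nat_lit 78) (nat_lit 0) (nat_lit 0) (XT.lf (nat_lit 0) (nat_lit 43249366157) (nat_lit 152) (nat_lit 174485060386) (nat_lit 76) (nat_lit 393271200393) (nat_lit 5) (nat_lit 5) (nat_lit 7) (nat_lit 5) (nat_lit 6) (nat_lit 4) (nat_lit 318) (nat_lit 269) (nat_lit 133)) (XT.lf (nat_lit 0) (nat_lit 97623620496) (nat_lit 152) (nat_lit 63018393930) (nat_lit 76) (nat_lit 495594216373) (nat_lit 5) (nat_lit 5) (nat_lit 7) (nat_lit 5) (nat_lit 6) (nat_lit 4) (nat_lit 319) (nat_lit 269) (nat_lit 132)))) (XT.nd (nat_lit 156) (nat_lit 0) (nat_lit 76) (XT.nd (nat_lit 78) (nat_lit 0) (nat_lit 0) (XT.lf (nat_lit 0) (nat_lit 2640039120) (nat_lit 0) (nat_lit 2640039120) (nat_lit 684) (nat_lit 15430673292) (nat_lit 65) (nat_lit 5) (nat_lit 65) (nat_lit 3) (nat_lit 74) (nat_lit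 3) (nat_lit 270) (nat_lit 270) (nat_lit 180)) (XT.lf (nat_lit 0) (nat_lit 11399118335) (nat_lit 684) (nat_lit 9192422910) (nat_lit 760) (nat_lit 22465778017) (nat_lit 65) (nat_lit 5) (nat_lit 74) (nat_lit 3) (nat_lit 75) (nat_lit 5) (nat_lit 271) (nat_lit 270) (nat_lit 179))) (XT.nd (nat_lit 78) (nat_lit 0) (nat_lit 0) (XT.lf (nat_lit 0) (nat_lit 12829800799) (nat_lit 684) (nat_lit 24449350630) (nat_lit 760) (nat_lit 7518640766) (nat_lit 66) (nat_lit 5) (nat_lit 75) (nat_lit 5) (nat_lit 76) (nat_lit 5) (nat_lit 272) (nat_lit 270) (nat_lit 178)) (XT.nd (nat_lit 78) (nat_lit 0) (nat_lit 76) (XT.lf (nat_lit 76) (nat_lit 5742064265) (nat_lit 0) (nat_lit 9227490765) (nat_lit 760) (nat_lit 31678237097) (nat_lit 67) (nat_lit 5) (nat_lit 66) (nat_lit 5) (nat_lit 76) (nat_lit 5) (nat_lit 273) (nat_lit 270) (nat_lit 177)) (XT.lf (nat_lit 0) (nat_lit 18037650752) (nat_lit 684) (nat_lit 9741899583)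 (nat_lit 760) (nat_lit 20828402201) (nat_lit 67) (nat_lit 5) (nat_lit 76) (nat_lit 5) (nat_lit 77) (nat_lit 5) (nat_lit 274) (nat_lit 270) (nat_lit 176)))))) (XT.nd (nat_lit 390) (nat_lit 988) (nat_lit 0) (XT.nd (nat_lit 156) (nat_lit 912) (nat_lit 0) (XT.nd (nat_lit 78) (nat_lit 0) (nat_lit 0) (XT.lf (nat_lit 0) (nat_lit 21927119995) (nat_lit 684) (nat_lit 26197863440) (nat_lit 760) (nat_lit 2571163217) (nat_lit 68) (nat_lit 5) (nat_lit 77) (nat_lit 5) (nat_lit 78) (nat_lit 5) (nat_lit 275) (nat_lit 270) (nat_lit 175)) (XT.lf (nat_lit 76) (nat_lit 8686261852) (nat_lit 0) (nat_lit 18213980662) (nat_lit 760) (nat_lit 26012544891) (nat_lit 69) (nat_lit 5) (nat_lit 68) (nat_lit 5) (nat_lit 78) (nat_lit 5) (nat_lit 276) (nat_lit 270) (nat_lit 174))) (XT.nd (nat_lit 78) (nat_lit 988) (nat_lit 0) (XT.lf (nat_lit 0) (nat_lit 32951274474) (nat_lit 684) (nat_lit 8218052241) (nat_lit 76) (nat_lit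 14103444440) (nat_lit 69) (nat_lit 5) (nat_lit 78) (nat_lit 5) (nat_lit 70) (nat_lit 5) (nat_lit 277) (nat_lit 270) (nat_lit 173)) (XT.nd (nat_lit 78) (nat_lit 304) (nat_lit 0) (XT.lf (nat_lit 0) (nat_lit 31364810037) (nat_lit 684) (nat_lit 8914916367) (nat_lit 760) (nat_lit 17502173956) (nat_lit 60) (nat_lit 5) (nat_lit 69) (nat_lit 5) (nat_lit 70) (nat_lit 5) (nat_lit 278) (nat_lit 270) (nat_lit 172)) (XT.lf (nat_lit 0) (nat_lit 13959850098) (nat_lit 304) (nat_lit 34999479730) (nat_lit 380) (nat_lit 11494198926) (nat_lit 56) (nat_lit 5) (nat_lit 60) (nat_lit 5) (nat_lit 61) (nat_lit 5) (nat_lit 279) (nat_lit 270) (nat_lit 171))))) (XT.nd (nat_lit 156) (nat_lit 608) (nat_lit 0) (XT.nd (nat_lit 78) (nat_lit 380) (nat_lit 0) (XT.lf (nat_lit 0) (nat_lit 58352046487) (nat_lit 304) (nat_lit 586257765) (nat_lit 380) (nat_lit 4370344714) (nat_lit 56) (nat_lit 5) (nat_lit 60) (nat_lit 5) (nat_lit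 61) (nat_lit 5) (nat_lit 280) (nat_lit 270) (nat_lit 170)) (XT.lf (nat_lit 0) (nat_lit 4439380147) (nat_lit 380) (nat_lit 25773817710) (nat_lit 76) (nat_lit 36115280226) (nat_lit 51) (nat_lit 5) (nat_lit 56) (nat_lit 5) (nat_lit 52) (nat_lit 5) (nat_lit 281) (nat_lit 270) (nat_lit 169))) (XT.nd (nat_lit 78) (nat_lit 304) (nat_lit 0) (XT.lf (nat_lit 0) (nat_lit 14327610904) (nat_lit 380) (nat_lit 48790437819) (nat_lit 76) (nat_lit 6441929922) (nat_lit 47) (nat_lit 5) (nat_lit 52) (nat_lit 5) (nat_lit 48) (nat_lit 5) (nat_lit 282) (nat_lit 270) (nat_lit 168)) (XT.nd (nat_lit 78) (nat_lit 304) (nat_lit 0) (XT.lf (nat_lit 0) (nat_lit 25970107973) (nat_lit 380) (nat_lit 1590490326) (nat_lit 76) (nat_lit 45441249391) (nat_lit 47) (nat_lit 5) (nat_lit 52) (nat_lit 5) (nat_lit 48) (nat_lit 5) (nat_lit 283) (nat_lit 270) (nat_lit 167)) (XT.lf (nat_lit 0) (nat_lit 39520444580) (nat_lit 380) (nat_lit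 25846074986) (nat_lit 76) (nat_lit 11303732886) (nat_lit 43) (nat_lit 5) (nat_lit 48) (nat_lit 5) (nat_lit 44) (nat_lit 5) (nat_lit 284) (nat_lit 270) (nat_lit 166))))))) (XT.nd (nat_lit 702) (nat_lit 836) (nat_lit 0) (XT.nd (nat_lit 312) (nat_lit 684) (nat_lit 0) (XT.nd (nat_lit 156) (nat_lit 304) (nat_lit 0) (XT.nd (nat_lit 78) (nat_lit 228) (nat_lit 0) (XT.lf (nat_lit 0) (nat_lit 27262815733) (nat_lit 228) (nat_lit 27808279163) (nat_lit 304) (nat_lit 25515227931) (nat_lit 40) (nat_lit 5) (nat_lit 43) (nat_lit 5) (nat_lit 44) (nat_lit 5) (nat_lit 285) (nat_lit 270) (nat_lit 165)) (XT.lf (nat_lit 0) (nat_lit 558928782) (nat_lit 228) (nat_lit 71970209045) (nat_lit 304) (nat_lit 12253380987) (nat_lit 37) (nat_lit 5) (nat_lit 40) (nat_lit 5) (nat_lit 41) (nat_lit 5) (nat_lit 286) (nat_lit 270) (nat_lit 164))) (XT.nd (nat_lit 78) (nat_lit 228) (nat_lit 0) (XT.lf (nat_lit 0) (nat_lit 3414120976)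 (nat_lit 304) (nat_lit 29130885640) (nat_lit 76) (nat_lit 56697247510) (nat_lit 36) (nat_lit 5) (nat_lit 40) (nat_lit 5) (nat_lit 37) (nat_lit 5) (nat_lit 287) (nat_lit 270) (nat_lit 163)) (XT.lf (nat_lit 0) (nat_lit 20564040589) (nat_lit 304) (nat_lit 63034792539) (nat_lit 76) (nat_lit 10416981291) (nat_lit 33) (nat_lit 5) (nat_lit 37) (nat_lit 5) (nat_lit 34) (nat_lit 5) (nat_lit 288) (nat_lit 270) (nat_lit 162)))) (XT.nd (nat_lit 156) (nat_lit 456) (nat_lit 0) (XT.nd (nat_lit 78) (nat_lit 228) (nat_lit 0) (XT.lf (nat_lit 0) (nat_lit 40148684290) (nat_lit 304) (nat_lit 2763234452) (nat_lit 76) (nat_lit 56206209569) (nat_lit 33) (nat_lit 5) (nat_lit 37) (nat_lit 5) (nat_lit 34) (nat_lit 5) (nat_lit 289) (nat_lit 270) (nat_lit 161)) (XT.lf (nat_lit 0) (nat_lit 62336274388) (nat_lit 304) (nat_lit 40222334146) (nat_lit 76) (nat_lit 2018214943) (nat_lit 30) (nat_lit 5) (nat_lit 34) (nat_lit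 5) (nat_lit 31) (nat_lit 5) (nat_lit 290) (nat_lit 270) (nat_lit 160))) (XT.nd (nat_lit 78) (nat_lit 304) (nat_lit 0) (XT.lf (nat_lit 0) (nat_lit 26595148807) (nat_lit 152) (nat_lit 60889860945) (nat_lit 228) (nat_lit 22927902147) (nat_lit 28) (nat_lit 5) (nat_lit 30) (nat_lit 5) (nat_lit 31) (nat_lit 5) (nat_lit 291) (nat_lit 270) (nat_lit 159)) (XT.nd (nat_lit 78) (nat_lit 304) (nat_lit 0) (XT.lf (nat_lit 0) (nat_lit 100192255180) (nat_lit 152) (nat_lit 15152537392) (nat_lit 228) (nat_lit 1336141600) (nat_lit 28) (nat_lit 5) (nat_lit 30) (nat_lit 5) (nat_lit 31) (nat_lit 5) (nat_lit 292) (nat_lit 270) (nat_lit 158)) (XT.lf (nat_lit 0) (nat_lit 22734302913) (nat_lit 304) (nat_lit 66214065347) (nat_lit 76) (nat_lit 34412126140) (nat_lit 24) (nat_lit 5) (nat_lit 28) (nat_lit 5) (nat_lit 25) (nat_lit 5) (nat_lit 293) (nat_lit 270) (nat_lit 157)))))) (XT.nd (nat_lit 390) (nat_lit 304) (nat_lit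 0) (XT.nd (nat_lit 156) (nat_lit 380) (nat_lit 0) (XT.nd (nat_lit 78) (nat_lit 0) (nat_lit 0) (XT.lf (nat_lit 0) (nat_lit 6628538344) (nat_lit 152) (nat_lit 42705230817) (nat_lit 228) (nat_lit 81207048621) (nat_lit 22) (nat_lit 5) (nat_lit 24) (nat_lit 5) (nat_lit 25) (nat_lit 5) (nat_lit 294) (nat_lit 270) (nat_lit 156)) (XT.lf (nat_lit 0) (nat_lit 79345215673) (nat_lit 228) (nat_lit 50708710390) (nat_lit 76) (nat_lit 8177443005) (nat_lit 22) (nat_lit 5) (nat_lit 25) (nat_lit 5) (nat_lit 23) (nat_lit 5) (nat_lit 295) (nat_lit 270) (nat_lit 155))) (XT.nd (nat_lit 78) (nat_lit 228) (nat_lit 0) (XT.lf (nat_lit 0) (nat_lit 28542804744) (nat_lit 152) (nat_lit 84379302802) (nat_lit 228) (nat_lit 33556833375) (nat_lit 20) (nat_lit 5) (nat_lit 22) (nat_lit 5) (nat_lit 23) (nat_lit 5) (nat_lit 296) (nat_lit 270) (nat_lit 154)) (XT.nd (nat_lit 78) (nat_lit 228) (nat_lit 0) (XT.lf (nat_lit 0) (nat_lit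 115943511732) (nat_lit 152) (nat_lit 34123821730) (nat_lit 228) (nat_lit 5274878653) (nat_lit 20) (nat_lit 5) (nat_lit 22) (nat_lit 5) (nat_lit 23) (nat_lit 5) (nat_lit 297) (nat_lit 270) (nat_lit 153)) (XT.lf (nat_lit 0) (nat_lit 25518993883) (nat_lit 228) (nat_lit 118677240187) (nat_lit 76) (nat_lit 20645679476) (nat_lit 17) (nat_lit 5) (nat_lit 20) (nat_lit 5) (nat_lit 18) (nat_lit 5) (nat_lit 298) (nat_lit 270) (nat_lit 152))))) (XT.nd (nat_lit 156) (nat_lit 152) (nat_lit 0) (XT.nd (nat_lit 78) (nat_lit 152) (nat_lit 0) (XT.lf (nat_lit 0) (nat_lit 59865961416) (nat_lit 228) (nat_lit 35764433658) (nat_lit 76) (nat_lit 79403155012) (nat_lit 17) (nat_lit 5) (nat_lit 20) (nat_lit 5) (nat_lit 18) (nat_lit 5) (nat_lit 299) (nat_lit 270) (nat_lit 151)) (XT.lf (nat_lit 0) (nat_lit 55558118437) (nat_lit 152) (nat_lit 42269041260) (nat_lit 228) (nat_lit 88170036247) (nat_lit 15) (nat_lit 5)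 (nat_lit 17) (nat_lit 5) (nat_lit 18) (nat_lit 5) (nat_lit 300) (nat_lit 270) (nat_lit 150))) (XT.nd (nat_lit 78) (nat_lit 152) (nat_lit 0) (XT.lf (nat_lit 0) (nat_lit 139697386924) (nat_lit 228) (nat_lit 42594677136) (nat_lit 76) (nat_lit 15502264665) (nat_lit 15) (nat_lit 5) (nat_lit 18) (nat_lit 5) (nat_lit 16) (nat_lit 4) (nat_lit 301) (nat_lit 270) (nat_lit 149)) (XT.nd (nat_lit 78) (nat_lit 76) (nat_lit 0) (XT.lf (nat_lit 0) (nat_lit 53268102374) (nat_lit 76) (nat_lit 133192689610) (nat_lit 152) (nat_lit 23997263931) (nat_lit 14) (nat_lit 5) (nat_lit 15) (nat_lit 5) (nat_lit 16) (nat_lit 4) (nat_lit 302) (nat_lit 270) (nat_lit 148)) (XT.lf (nat_lit 0) (nat_lit 13173060184) (nat_lit 152) (nat_lit 65990639262) (nat_lit 76) (nat_lit 144923501250) (nat_lit 13) (nat_lit 5) (nat_lit 15) (nat_lit 5) (nat_lit 14) (nat_lit 5) (nat_lit 303) (nat_lit 270) (nat_lit 147))))))))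
noncomputable def xc104 : XT := (XT.nd (nat_lit 35100) (nat_lit 0) (nat_lit 1900) (XT.nd (nat_lit 702) (nat_lit 152) (nat_lit 0) (XT.nd (nat_lit 312) (nat_lit 228) (nat_lit 0) (XT.nd (nat_lit 156) (nat_lit 76) (nat_lit 0) (XT.nd (nat_lit 78) (nat_lit 0) (nat_lit 0) (XT.lf (nat_lit 0) (nat_lit 33160089051) (nat_lit 152) (nat_lit 19844385151) (nat_lit 228) (nat_lit 185756123851) (nat_lit 11) (nat_lit 5) (nat_lit 13) (nat_lit 5) (nat_lit 14) (nat_lit 5) (nat_lit 304) (nat_lit 270) (nat_lit 146)) (XT.lf (nat_lit 0) (nat_lit 97880445282) (nat_lit 228) (nat_lit 112661461487) (nat_lit 76) (nat_lit 43973059569) (nat_lit 11) (nat_lit 5) (nat_lit 14) (nat_lit 5) (nat_lit 12) (nat_lit 4) (nat_lit 305) (nat_lit 270) (nat_lit 145))) (XT.nd (nat_lit 78) (nat_lit 76) (nat_lit 0) (XT.lf (nat_lit 0) (nat_lit 146680439549) (nat_lit 228) (nat_lit 12623013907) (nat_lit 76) (nat_lit 112209534593) (nat_lit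 11) (nat_lit 5) (nat_lit 14) (nat_lit 5) (nat_lit 12) (nat_lit 4) (nat_lit 306) (nat_lit 270) (nat_lit 144)) (XT.lf (nat_lit 0) (nat_lit 98572413459) (nat_lit 76) (nat_lit 102350393851) (nat_lit 152) (nat_lit 88871126636) (nat_lit 10) (nat_lit 5) (nat_lit 11) (nat_lit 5) (nat_lit 12) (nat_lit 4) (nat_lit 307) (nat_lit 270) (nat_lit 143)))) (XT.nd (nat_lit 156) (nat_lit 152) (nat_lit 0) (XT.nd (nat_lit 78) (nat_lit 76) (nat_lit 0) (XT.lf (nat_lit 0) (nat_lit 219113254636) (nat_lit 76) (nat_lit 40610607332) (nat_lit 152) (nat_lit 49802529732) (nat_lit 10) (nat_lit 5) (nat_lit 11) (nat_lit 5) (nat_lit 12) (nat_lit 4) (nat_lit 308) (nat_lit 270) (nat_lit 142)) (XT.lf (nat_lit 0) (nat_lit 18648863260) (nat_lit 76) (nat_lit 305277749432) (nat_lit 76) (nat_lit 6875953782) (nat_lit 9) (nat_lit 4) (nat_lit 10) (nat_lit 5) (nat_lit 10) (nat_lit 4) (nat_lit 309) (nat_lit 270) (nat_lit 141))) (XT.nd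 (nat_lit 78) (nat_lit 76) (nat_lit 0) (XT.lf (nat_lit 0) (nat_lit 40505983710) (nat_lit 152) (nat_lit 215365607554) (nat_lit 76) (nat_lit 97764171754) (nat_lit 8) (nat_lit 5) (nat_lit 10) (nat_lit 5) (nat_lit 9) (nat_lit 4) (nat_lit 310) (nat_lit 270) (nat_lit 140)) (XT.nd (nat_lit 78) (nat_lit 76) (nat_lit 0) (XT.lf (nat_lit 0) (nat_lit 91440304080) (nat_lit 152) (nat_lit 110951249415) (nat_lit 76) (nat_lit 175898290173) (nat_lit 8) (nat_lit 5) (nat_lit 10) (nat_lit 5) (nat_lit 9) (nat_lit 4) (nat_lit 311) (nat_lit 270) (nat_lit 139)) (XT.lf (nat_lit 0) (nat_lit 1875503692) (nat_lit 76) (nat_lit 144602691977) (nat_lit 152) (nat_lit 258436614566) (nat_lit 7) (nat_lit 5) (nat_lit 8) (nat_lit 5) (nat_lit 9) (nat_lit 4) (nat_lit 312) (nat_lit 270) (nat_lit 138)))))) (XT.nd (nat_lit 312) (nat_lit 76) (nat_lit 0) (XT.nd (nat_lit 156) (nat_lit 76) (nat_lit 0) (XT.nd (nat_lit 78) (nat_lit 0)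 (nat_lit 0) (XT.lf (nat_lit 0) (nat_lit 127689682824) (nat_lit 76) (nat_lit 80161700790) (nat_lit 152) (nat_lit 225721777948) (nat_lit 7) (nat_lit 5) (nat_lit 8) (nat_lit 5) (nat_lit 9) (nat_lit 4) (nat_lit 313) (nat_lit 270) (nat_lit 137)) (XT.lf (nat_lit 0) (nat_lit 263568304111) (nat_lit 76) (nat_lit 10565720490) (nat_lit 152) (nat_lit 190390177131) (nat_lit 7) (nat_lit 5) (nat_lit 8) (nat_lit 5) (nat_lit 9) (nat_lit 4) (nat_lit 314) (nat_lit 270) (nat_lit 136))) (XT.nd (nat_lit 78) (nat_lit 76) (nat_lit 0) (XT.lf (nat_lit 0) (nat_lit 346727455309) (nat_lit 152) (nat_lit 88643320776) (nat_lit 0) (nat_lit 62530140700) (nat_lit 7) (nat_lit 5) (nat_lit 9) (nat_lit 4) (nat_lit 7) (nat_lit 4) (nat_lit 315) (nat_lit 270) (nat_lit 135)) (XT.lf (nat_lit 0) (nat_lit 33549284158) (nat_lit 76) (nat_lit 392280683480) (nat_lit 76) (nat_lit 108082721590) (nat_lit 6) (nat_lit 4) (nat_lit 7) (nat_lit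 5) (nat_lit 7) (nat_lit 4) (nat_lit 316) (nat_lit 270) (nat_lit 134)))) (XT.nd (nat_lit 156) (nat_lit 76) (nat_lit 0) (XT.nd (nat_lit 78) (nat_lit 0) (nat_lit 0) (XT.lf (nat_lit 0) (nat_lit 168682140948) (nat_lit 76) (nat_lit 344122317682) (nat_lit 76) (nat_lit 59923756459) (nat_lit 6) (nat_lit 4) (nat_lit 7) (nat_lit 5) (nat_lit 7) (nat_lit 4) (nat_lit 317) (nat_lit 270) (nat_lit 133)) (XT.lf (nat_lit 0) (nat_lit 314625088385) (nat_lit 76) (nat_lit 292111513313) (nat_lit 76) (nat_lit 7912397150) (nat_lit 6) (nat_lit 4) (nat_lit 7) (nat_lit 5) (nat_lit 7) (nat_lit 4) (nat_lit 318) (nat_lit 270) (nat_lit 132))) (XT.nd (nat_lit 33774) (nat_lit 0) (nat_lit 4560) (XT.lf (nat_lit 0) (nat_lit 46714964112) (nat_lit 152) (nat_lit 188433953563) (nat_lit 76) (nat_lit 424736868929) (nat_lit 5) (nat_lit 5) (nat_lit 7) (nat_lit 5) (nat_lit 6) (nat_lit 4) (nat_lit 319) (nat_lit 270) (nat_lit 131))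 (XT.nd (nat_lit 78) (nat_lit 0) (nat_lit 0) (XT.lf (nat_lit 0) (nat_lit 2877692609) (nat_lit 0) (nat_lit 2877692609) (nat_lit 684) (nat_lit 16609370451) (nat_lit 65) (nat_lit 5) (nat_lit 65) (nat_lit 3) (nat_lit 74) (nat_lit 3) (nat_lit 271) (nat_lit 271) (nat_lit 178)) (XT.lf (nat_lit 0) (nat_lit 12408247348) (nat_lit 684) (nat_lit 9872780985) (nat_lit 760) (nat_lit 24215625846) (nat_lit 65) (nat_lit 5) (nat_lit 74) (nat_lit 3) (nat_lit 75) (nat_lit 5) (nat_lit 272) (nat_lit 271) (nat_lit 177))))))) (XT.nd (nat_lit 702) (nat_lit 1976) (nat_lit 0) (XT.nd (nat_lit 312) (nat_lit 760) (nat_lit 0) (XT.nd (nat_lit 156) (nat_lit 0) (nat_lit 76) (XT.nd (nat_lit 78) (nat_lit 0) (nat_lit 0) (XT.lf (nat_lit 0) (nat_lit 13946410304) (nat_lit 684) (nat_lit 26347155866) (nat_lit 760) (nat_lit 8083176418) (nat_lit 66) (nat_lit 5) (nat_lit 75) (nat_lit 5) (nat_lit 76) (nat_lit 5) (nat_lit 273) (nat_lit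 271) (nat_lit 176)) (XT.lf (nat_lit 76) (nat_lit 6257045404) (nat_lit 0) (nat_lit 9994484425) (nat_lit 760) (nat_lit 34123530231) (nat_lit 67) (nat_lit 5) (nat_lit 66) (nat_lit 5) (nat_lit 76) (nat_lit 5) (nat_lit 274) (nat_lit 271) (nat_lit 175))) (XT.nd (nat_lit 78) (nat_lit 0) (nat_lit 76) (XT.lf (nat_lit 0) (nat_lit 19558404327) (nat_lit 684) (nat_lit 10465120997) (nat_lit 760) (nat_lit 22468866231) (nat_lit 67) (nat_lit 5) (nat_lit 76) (nat_lit 5) (nat_lit 77) (nat_lit 5) (nat_lit 275) (nat_lit 271) (nat_lit 174)) (XT.lf (nat_lit 0) (nat_lit 23753812076) (nat_lit 684) (nat_lit 28235774461) (nat_lit 760) (nat_lit 2758338586) (nat_lit 68) (nat_lit 5) (nat_lit 77) (nat_lit 5) (nat_lit 78) (nat_lit 5) (nat_lit 276) (nat_lit 271) (nat_lit 173)))) (XT.nd (nat_lit 156) (nat_lit 912) (nat_lit 0) (XT.nd (nat_lit 78) (nat_lit 0) (nat_lit 76) (XT.lf (nat_lit 76) (nat_lit 9436563807) (nat_lit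 0) (nat_lit 19683713518) (nat_lit 760) (nat_lit 28021866434) (nat_lit 69) (nat_lit 5) (nat_lit 68) (nat_lit 5) (nat_lit 78) (nat_lit 5) (nat_lit 277) (nat_lit 271) (nat_lit 172)) (XT.lf (nat_lit 0) (nat_lit 35650171306) (nat_lit 684) (nat_lit 8820621798) (nat_lit 76) (nat_lit 15220413824) (nat_lit 69) (nat_lit 5) (nat_lit 78) (nat_lit 5) (nat_lit 70) (nat_lit 5) (nat_lit 278) (nat_lit 271) (nat_lit 171))) (XT.nd (nat_lit 78) (nat_lit 304) (nat_lit 0) (XT.lf (nat_lit 0) (nat_lit 33926484677) (nat_lit 684) (nat_lit 9634582755) (nat_lit 760) (nat_lit 18840208872) (nat_lit 60) (nat_lit 5) (nat_lit 69) (nat_lit 5) (nat_lit 70) (nat_lit 5) (nat_lit 279) (nat_lit 271) (nat_lit 170)) (XT.nd (nat_lit 78) (nat_lit 0) (nat_lit 0) (XT.lf (nat_lit 0) (nat_lit 15129981525) (nat_lit 304) (nat_lit 37801429245) (nat_lit 380) (nat_lit 12355422502) (nat_lit 56) (nat_lit 5) (nat_lit 60) (nat_lit 5) (nat_lit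 61) (nat_lit 5) (nat_lit 280) (nat_lit 271) (nat_lit 169)) (XT.lf (nat_lit 0) (nat_lit 63069602262) (nat_lit 304) (nat_lit 635002031) (nat_lit 380) (nat_lit 4665979385) (nat_lit 56) (nat_lit 5) (nat_lit 60) (nat_lit 5) (nat_lit 61) (nat_lit 5) (nat_lit 281) (nat_lit 271) (nat_lit 168)))))) (XT.nd (nat_lit 390) (nat_lit 760) (nat_lit 0) (XT.nd (nat_lit 156) (nat_lit 532) (nat_lit 0) (XT.nd (nat_lit 78) (nat_lit 304) (nat_lit 0) (XT.lf (nat_lit 0) (nat_lit 4843688816) (nat_lit 380) (nat_lit 27784014953) (nat_lit 76) (nat_lit 39004422320) (nat_lit 51) (nat_lit 5) (nat_lit 56) (nat_lit 5) (nat_lit 52) (nat_lit 5) (nat_lit 282) (nat_lit 271) (nat_lit 167)) (XT.lf (nat_lit 0) (nat_lit 15520158427) (nat_lit 380) (nat_lit 52641787346) (nat_lit 76) (nat_lit 6960354667) (nat_lit 47) (nat_lit 5) (nat_lit 52) (nat_lit 5) (nat_lit 48) (nat_lit 5) (nat_lit 283) (nat_lit 271) (nat_lit 166))) (XT.nd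 (nat_lit 78) (nat_lit 532) (nat_lit 0) (XT.lf (nat_lit 0) (nat_lit 28090622770) (nat_lit 380) (nat_lit 1669687424) (nat_lit 76) (nat_lit 49079392261) (nat_lit 47) (nat_lit 5) (nat_lit 52) (nat_lit 5) (nat_lit 48) (nat_lit 5) (nat_lit 284) (nat_lit 271) (nat_lit 165)) (XT.nd (nat_lit 78) (nat_lit 228) (nat_lit 0) (XT.lf (nat_lit 0) (nat_lit 42722611555) (nat_lit 380) (nat_lit 27865733647) (nat_lit 76) (nat_lit 12213364075) (nat_lit 43) (nat_lit 5) (nat_lit 48) (nat_lit 5) (nat_lit 44) (nat_lit 5) (nat_lit 285) (nat_lit 271) (nat_lit 164)) (XT.lf (nat_lit 0) (nat_lit 29489781119) (nat_lit 228) (nat_lit 30025247705) (nat_lit 304) (nat_lit 27516160846) (nat_lit 40) (nat_lit 5) (nat_lit 43) (nat_lit 5) (nat_lit 44) (nat_lit 5) (nat_lit 286) (nat_lit 271) (nat_lit 163))))) (XT.nd (nat_lit 156) (nat_lit 456) (nat_lit 0) (XT.nd (nat_lit 78) (nat_lit 76) (nat_lit 0) (XT.lf (nat_lit 0) (nat_lit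 649422181) (nat_lit 228) (nat_lit 77718285910) (nat_lit 304) (nat_lit 13195482983) (nat_lit 37) (nat_lit 5) (nat_lit 40) (nat_lit 5) (nat_lit 41) (nat_lit 5) (nat_lit 287) (nat_lit 271) (nat_lit 162)) (XT.lf (nat_lit 0) (nat_lit 3721460704) (nat_lit 304) (nat_lit 31417733876) (nat_lit 76) (nat_lit 61240625949) (nat_lit 36) (nat_lit 5) (nat_lit 40) (nat_lit 5) (nat_lit 37) (nat_lit 5) (nat_lit 288) (nat_lit 271) (nat_lit 161))) (XT.nd (nat_lit 78) (nat_lit 228) (nat_lit 0) (XT.lf (nat_lit 0) (nat_lit 22241638031) (nat_lit 304) (nat_lit 68034283726) (nat_lit 76) (nat_lit 11259438341) (nat_lit 33) (nat_lit 5) (nat_lit 37) (nat_lit 5) (nat_lit 34) (nat_lit 5) (nat_lit 289) (nat_lit 271) (nat_lit 160)) (XT.nd (nat_lit 78) (nat_lit 228) (nat_lit 0) (XT.lf (nat_lit 0) (nat_lit 43390647733) (nat_lit 304) (nat_lit 2944207823) (nat_lit 76) (nat_lit 60711130914) (nat_lit 33) (nat_lit 5) (nat_lit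 37) (nat_lit 5) (nat_lit 34) (nat_lit 5) (nat_lit 290) (nat_lit 271) (nat_lit 159)) (XT.lf (nat_lit 0) (nat_lit 67351770992) (nat_lit 304) (nat_lit 43400428069) (nat_lit 76) (nat_lit 2189258459) (nat_lit 30) (nat_lit 5) (nat_lit 34) (nat_lit 5) (nat_lit 31) (nat_lit 5) (nat_lit 291) (nat_lit 271) (nat_lit 158))))))))
noncomputable def xc105 : XT := (XT.nd (nat_lit 1404) (nat_lit 304) (nat_lit 0) (XT.nd (nat_lit 702) (nat_lit 532) (nat_lit 0) (XT.nd (nat_lit 312) (nat_lit 380) (nat_lit 0) (XT.nd (nat_lit 156) (nat_lit 456) (nat_lit 0) (XT.nd (nat_lit 78) (nat_lit 0) (nat_lit 0) (XT.lf (nat_lit 0) (nat_lit 28760728519) (nat_lit 152) (nat_lit 65750151327) (nat_lit 228) (nat_lit 24733635518) (nat_lit 28) (nat_lit 5) (nat_lit 30) (nat_lit 5) (nat_lit 31) (nat_lit 5) (nat_lit 292) (nat_lit 271) (nat_lit 157)) (XT.lf (nat_lit 0) (nat_lit 108242790972) (nat_lit 152) (nat_lit 16354649186) (nat_lit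 228) (nat_lit 1416645149) (nat_lit 28) (nat_lit 5) (nat_lit 30) (nat_lit 5) (nat_lit 31) (nat_lit 5) (nat_lit 293) (nat_lit 271) (nat_lit 156))) (XT.nd (nat_lit 78) (nat_lit 152) (nat_lit 0) (XT.lf (nat_lit 0) (nat_lit 24577397862) (nat_lit 304) (nat_lit 71475580419) (nat_lit 76) (nat_lit 37175076064) (nat_lit 24) (nat_lit 5) (nat_lit 28) (nat_lit 5) (nat_lit 25) (nat_lit 5) (nat_lit 294) (nat_lit 271) (nat_lit 155)) (XT.lf (nat_lit 0) (nat_lit 7192883994) (nat_lit 152) (nat_lit 46110665472) (nat_lit 228) (nat_lit 87679322327) (nat_lit 22) (nat_lit 5) (nat_lit 24) (nat_lit 5) (nat_lit 25) (nat_lit 5) (nat_lit 295) (nat_lit 271) (nat_lit 154)))) (XT.nd (nat_lit 156) (nat_lit 228) (nat_lit 0) (XT.nd (nat_lit 78) (nat_lit 152) (nat_lit 0) (XT.lf (nat_lit 0) (nat_lit 85714360945) (nat_lit 228) (nat_lit 54732904901) (nat_lit 76) (nat_lit 8841483131) (nat_lit 22) (nat_lit 5) (nat_lit 25) (nat_lit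 5) (nat_lit 23) (nat_lit 5) (nat_lit 296) (nat_lit 271) (nat_lit 153)) (XT.lf (nat_lit 0) (nat_lit 30857318933) (nat_lit 152) (nat_lit 91118975966) (nat_lit 228) (nat_lit 36219891084) (nat_lit 20) (nat_lit 5) (nat_lit 22) (nat_lit 5) (nat_lit 23) (nat_lit 5) (nat_lit 297) (nat_lit 271) (nat_lit 152))) (XT.nd (nat_lit 78) (nat_lit 228) (nat_lit 0) (XT.lf (nat_lit 0) (nat_lit 125247779531) (nat_lit 152) (nat_lit 36843846857) (nat_lit 228) (nat_lit 5676971759) (nat_lit 20) (nat_lit 5) (nat_lit 22) (nat_lit 5) (nat_lit 23) (nat_lit 5) (nat_lit 298) (nat_lit 271) (nat_lit 151)) (XT.nd (nat_lit 78) (nat_lit 0) (nat_lit 0) (XT.lf (nat_lit 0) (nat_lit 27578941891) (nat_lit 228) (nat_lit 128142433708) (nat_lit 76) (nat_lit 22306929373) (nat_lit 17) (nat_lit 5) (nat_lit 20) (nat_lit 5) (nat_lit 18) (nat_lit 5) (nat_lit 299) (nat_lit 271) (nat_lit 150)) (XT.lf (nat_lit 0) (nat_lit 64672301753) (nat_lit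 228) (nat_lit 38598749745) (nat_lit 76) (nat_lit 85764292171) (nat_lit 17) (nat_lit 5) (nat_lit 20) (nat_lit 5) (nat_lit 18) (nat_lit 5) (nat_lit 300) (nat_lit 271) (nat_lit 149)))))) (XT.nd (nat_lit 312) (nat_lit 228) (nat_lit 0) (XT.nd (nat_lit 156) (nat_lit 152) (nat_lit 0) (XT.nd (nat_lit 78) (nat_lit 0) (nat_lit 0) (XT.lf (nat_lit 0) (nat_lit 60028440144) (nat_lit 152) (nat_lit 45641092610) (nat_lit 228) (nat_lit 95206594358) (nat_lit 15) (nat_lit 5) (nat_lit 17) (nat_lit 5) (nat_lit 18) (nat_lit 5) (nat_lit 301) (nat_lit 271) (nat_lit 148)) (XT.lf (nat_lit 0) (nat_lit 150888315068) (nat_lit 228) (nat_lit 45977835700) (nat_lit 76) (nat_lit 16750935458) (nat_lit 15) (nat_lit 5) (nat_lit 18) (nat_lit 5) (nat_lit 16) (nat_lit 4) (nat_lit 302) (nat_lit 271) (nat_lit 147))) (XT.nd (nat_lit 78) (nat_lit 76) (nat_lit 0) (XT.lf (nat_lit 0) (nat_lit 57552905099) (nat_lit 76) (nat_lit 143839130790)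 (nat_lit 152) (nat_lit 25901915900) (nat_lit 14) (nat_lit 5) (nat_lit 15) (nat_lit 5) (nat_lit 16) (nat_lit 4) (nat_lit 303) (nat_lit 271) (nat_lit 146)) (XT.lf (nat_lit 0) (nat_lit 14240465109) (nat_lit 152) (nat_lit 71247791397) (nat_lit 76) (nat_lit 156525216162) (nat_lit 13) (nat_lit 5) (nat_lit 15) (nat_lit 5) (nat_lit 14) (nat_lit 5) (nat_lit 304) (nat_lit 271) (nat_lit 145)))) (XT.nd (nat_lit 156) (nat_lit 76) (nat_lit 0) (XT.nd (nat_lit 78) (nat_lit 0) (nat_lit 0) (XT.lf (nat_lit 0) (nat_lit 35834034785) (nat_lit 152) (nat_lit 21423683044) (nat_lit 228) (nat_lit 200603059638) (nat_lit 11) (nat_lit 5) (nat_lit 13) (nat_lit 5) (nat_lit 14) (nat_lit 5) (nat_lit 305) (nat_lit 271) (nat_lit 144)) (XT.lf (nat_lit 0) (nat_lit 105722931407) (nat_lit 228) (nat_lit 121654306008) (nat_lit 76) (nat_lit 47498301348) (nat_lit 11) (nat_lit 5) (nat_lit 14) (nat_lit 5) (nat_lit 12) (nat_lit 4)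 (nat_lit 306) (nat_lit 271) (nat_lit 143))) (XT.nd (nat_lit 78) (nat_lit 76) (nat_lit 0) (XT.lf (nat_lit 0) (nat_lit 158426032585) (nat_lit 228) (nat_lit 13614269466) (nat_lit 76) (nat_lit 121193146447) (nat_lit 11) (nat_lit 5) (nat_lit 14) (nat_lit 5) (nat_lit 12) (nat_lit 4) (nat_lit 307) (nat_lit 271) (nat_lit 142)) (XT.nd (nat_lit 78) (nat_lit 0) (nat_lit 0) (XT.lf (nat_lit 0) (nat_lit 106475984384) (nat_lit 76) (nat_lit 110531256435) (nat_lit 152) (nat_lit 95969658227) (nat_lit 10) (nat_lit 5) (nat_lit 11) (nat_lit 5) (nat_lit 12) (nat_lit 4) (nat_lit 308) (nat_lit 271) (nat_lit 141)) (XT.lf (nat_lit 0) (nat_lit 236658775978) (nat_lit 76) (nat_lit 43852818027) (nat_lit 152) (nat_lit 53776400130) (nat_lit 10) (nat_lit 5) (nat_lit 11) (nat_lit 5) (nat_lit 12) (nat_lit 4) (nat_lit 309) (nat_lit 271) (nat_lit 140))))))) (XT.nd (nat_lit 702) (nat_lit 0) (nat_lit 0) (XT.nd (nat_lit 312)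 (nat_lit 76) (nat_lit 0) (XT.nd (nat_lit 156) (nat_lit 76) (nat_lit 0) (XT.nd (nat_lit 78) (nat_lit 76) (nat_lit 0) (XT.lf (nat_lit 0) (nat_lit 20156905571) (nat_lit 76) (nat_lit 329693279423) (nat_lit 76) (nat_lit 7416098199) (nat_lit 9) (nat_lit 4) (nat_lit 10) (nat_lit 5) (nat_lit 10) (nat_lit 4) (nat_lit 310) (nat_lit 271) (nat_lit 139)) (XT.lf (nat_lit 0) (nat_lit 43755364261) (nat_lit 152) (nat_lit 232579609135) (nat_lit 76) (nat_lit 105591191077) (nat_lit 8) (nat_lit 5) (nat_lit 10) (nat_lit 5) (nat_lit 9) (nat_lit 4) (nat_lit 311) (nat_lit 271) (nat_lit 138))) (XT.nd (nat_lit 78) (nat_lit 76) (nat_lit 0) (XT.lf (nat_lit 0) (nat_lit 98763770865) (nat_lit 152) (nat_lit 119813231755) (nat_lit 76) (nat_lit 189975603001) (nat_lit 8) (nat_lit 5) (nat_lit 10) (nat_lit 5) (nat_lit 9) (nat_lit 4) (nat_lit 312) (nat_lit 271) (nat_lit 137)) (XT.lf (nat_lit 0) (nat_lit 2039048066) (nat_lit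 76) (nat_lit 156165245998) (nat_lit 152) (nat_lit 279103296427) (nat_lit 7) (nat_lit 5) (nat_lit 8) (nat_lit 5) (nat_lit 9) (nat_lit 4) (nat_lit 313) (nat_lit 271) (nat_lit 136)))) (XT.nd (nat_lit 156) (nat_lit 76) (nat_lit 0) (XT.nd (nat_lit 78) (nat_lit 0) (nat_lit 0) (XT.lf (nat_lit 0) (nat_lit 137917361227) (nat_lit 76) (nat_lit 86569394875) (nat_lit 152) (nat_lit 243771883792) (nat_lit 7) (nat_lit 5) (nat_lit 8) (nat_lit 5) (nat_lit 9) (nat_lit 4) (nat_lit 314) (nat_lit 271) (nat_lit 135)) (XT.lf (nat_lit 0) (nat_lit 284665346011) (nat_lit 76) (nat_lit 11406124446) (nat_lit 152) (nat_lit 205614320568) (nat_lit 7) (nat_lit 5) (nat_lit 8) (nat_lit 5) (nat_lit 9) (nat_lit 4) (nat_lit 315) (nat_lit 271) (nat_lit 134))) (XT.nd (nat_lit 78) (nat_lit 76) (nat_lit 0) (XT.lf (nat_lit 0) (nat_lit 374471947722) (nat_lit 152) (nat_lit 95723815477) (nat_lit 0) (nat_lit 67536902266) (nat_lit 7)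 (nat_lit 5) (nat_lit 9) (nat_lit 4) (nat_lit 7) (nat_lit 4) (nat_lit 316) (nat_lit 271) (nat_lit 133)) (XT.nd (nat_lit 78) (nat_lit 0) (nat_lit 0) (XT.lf (nat_lit 0) (nat_lit 36243721067) (nat_lit 76) (nat_lit 423658637444) (nat_lit 76) (nat_lit 116723037050) (nat_lit 6) (nat_lit 4) (nat_lit 7) (nat_lit 5) (nat_lit 7) (nat_lit 4) (nat_lit 317) (nat_lit 271) (nat_lit 132)) (XT.lf (nat_lit 0) (nat_lit 182186429054) (nat_lit 76) (nat_lit 371647935769) (nat_lit 76) (nat_lit 64711821542) (nat_lit 6) (nat_lit 4) (nat_lit 7) (nat_lit 5) (nat_lit 7) (nat_lit 4) (nat_lit 318) (nat_lit 271) (nat_lit 131)))))) (XT.nd (nat_lit 34164) (nat_lit 0) (nat_lit 4104) (XT.nd (nat_lit 33930) (nat_lit 0) (nat_lit 4484) (XT.nd (nat_lit 33852) (nat_lit 0) (nat_lit 4484) (XT.lf (nat_lit 0) (nat_lit 339804092520) (nat_lit 76) (nat_lit 315476575740) (nat_lit 76) (nat_lit 8539985744) (nat_lit 6) (nat_lit 4) (nat_lit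 7) (nat_lit 5) (nat_lit 7) (nat_lit 4) (nat_lit 319) (nat_lit 271) (nat_lit 130)) (XT.lf (nat_lit 0) (nat_lit 3130584938) (nat_lit 0) (nat_lit 3130584938) (nat_lit 684) (nat_lit 17890317700) (nat_lit 65) (nat_lit 5) (nat_lit 65) (nat_lit 3) (nat_lit 74) (nat_lit 3) (nat_lit 272) (nat_lit 272) (nat_lit 176))) (XT.nd (nat_lit 78) (nat_lit 0) (nat_lit 76) (XT.lf (nat_lit 0) (nat_lit 13484240079) (nat_lit 684) (nat_lit 10615419172) (nat_lit 760) (nat_lit 26112225697) (nat_lit 65) (nat_lit 5) (nat_lit 74) (nat_lit 3) (nat_lit 75) (nat_lit 5) (nat_lit 273) (nat_lit 272) (nat_lit 175)) (XT.nd (nat_lit 78) (nat_lit 0) (nat_lit 0) (XT.lf (nat_lit 0) (nat_lit 15139476901) (nat_lit 684) (nat_lit 28405080243) (nat_lit 760) (nat_lit 8698147053) (nat_lit 66) (nat_lit 5) (nat_lit 75) (nat_lit 5) (nat_lit 76) (nat_lit 5) (nat_lit 274) (nat_lit 272) (nat_lit 174)) (XT.lf (nat_lit 76) (nat_lit 6805290791)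 (nat_lit 0) (nat_lit 10818729734) (nat_lit 760) (nat_lit 36777138787) (nat_lit 67) (nat_lit 5) (nat_lit 66) (nat_lit 5) (nat_lit 76) (nat_lit 5) (nat_lit 275) (nat_lit 272) (nat_lit 173))))) (XT.nd (nat_lit 156) (nat_lit 532) (nat_lit 0) (XT.nd (nat_lit 78) (nat_lit 0) (nat_lit 76) (XT.lf (nat_lit 0) (nat_lit 21189727492) (nat_lit 684) (nat_lit 11254207775) (nat_lit 760) (nat_lit 24244249204) (nat_lit 67) (nat_lit 5) (nat_lit 76) (nat_lit 5) (nat_lit 77) (nat_lit 5) (nat_lit 276) (nat_lit 272) (nat_lit 172)) (XT.lf (nat_lit 0) (nat_lit 25716293380) (nat_lit 684) (nat_lit 30444981021) (nat_lit 760) (nat_lit 2963129741) (nat_lit 68) (nat_lit 5) (nat_lit 77) (nat_lit 5) (nat_lit 78) (nat_lit 5) (nat_lit 277) (nat_lit 272) (nat_lit 171))) (XT.nd (nat_lit 78) (nat_lit 608) (nat_lit 0) (XT.lf (nat_lit 76) (nat_lit 10238986345) (nat_lit 0) (nat_lit 21269225418) (nat_lit 760) (nat_lit 30202159945)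 (nat_lit 69) (nat_lit 5) (nat_lit 68) (nat_lit 5) (nat_lit 78) (nat_lit 5) (nat_lit 278) (nat_lit 272) (nat_lit 170)) (XT.nd (nat_lit 78) (nat_lit 684) (nat_lit 0) (XT.lf (nat_lit 0) (nat_lit 38556021495) (nat_lit 684) (nat_lit 9479225399) (nat_lit 76) (nat_lit 16428353711) (nat_lit 69) (nat_lit 5) (nat_lit 78) (nat_lit 5) (nat_lit 70) (nat_lit 5) (nat_lit 279) (nat_lit 272) (nat_lit 169)) (XT.lf (nat_lit 0) (nat_lit 36685605027) (nat_lit 684) (nat_lit 10410898997) (nat_lit 760) (nat_lit 20294151405) (nat_lit 60) (nat_lit 5) (nat_lit 69) (nat_lit 5) (nat_lit 70) (nat_lit 5) (nat_lit 280) (nat_lit 272) (nat_lit 168))))))))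
noncomputable def xc106 : XT := (XT.nd (nat_lit 1404) (nat_lit 988) (nat_lit 0) (XT.nd (nat_lit 702) (nat_lit 1216) (nat_lit 0) (XT.nd (nat_lit 312) (nat_lit 836) (nat_lit 0) (XT.nd (nat_lit 156) (nat_lit 684) (nat_lit 0) (XT.nd (nat_lit 78) (nat_lit 0) (nat_lit 0) (XT.lf (nat_lit 0) (nat_lit 16386113432) (nat_lit 304) (nat_lit 40827250662) (nat_lit 380) (nat_lit 13293862871) (nat_lit 56) (nat_lit 5) (nat_lit 60) (nat_lit 5) (nat_lit 61) (nat_lit 5) (nat_lit 281) (nat_lit 272) (nat_lit 167)) (XT.lf (nat_lit 0) (nat_lit 68157516169) (nat_lit 304) (nat_lit 687382822) (nat_lit 380) (nat_lit 4992967522) (nat_lit 56) (nat_lit 5) (nat_lit 60) (nat_lit 5) (nat_lit 61) (nat_lit 5) (nat_lit 282) (nat_lit 272) (nat_lit 166))) (XT.nd (nat_lit 78) (nat_lit 304) (nat_lit 0) (XT.lf (nat_lit 0) (nat_lit 5273329203) (nat_lit 380) (nat_lit 29962404724) (nat_lit 76) (nat_lit 42124707241) (nat_lit 51) (nat_lit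 5) (nat_lit 56) (nat_lit 5) (nat_lit 52) (nat_lit 5) (nat_lit 283) (nat_lit 272) (nat_lit 165)) (XT.lf (nat_lit 0) (nat_lit 16801499025) (nat_lit 380) (nat_lit 56808646882) (nat_lit 76) (nat_lit 7519815372) (nat_lit 47) (nat_lit 5) (nat_lit 52) (nat_lit 5) (nat_lit 48) (nat_lit 5) (nat_lit 284) (nat_lit 272) (nat_lit 164)))) (XT.nd (nat_lit 156) (nat_lit 532) (nat_lit 0) (XT.nd (nat_lit 78) (nat_lit 304) (nat_lit 0) (XT.lf (nat_lit 0) (nat_lit 30374657706) (nat_lit 380) (nat_lit 1762074037) (nat_lit 76) (nat_lit 53008180985) (nat_lit 47) (nat_lit 5) (nat_lit 52) (nat_lit 5) (nat_lit 48) (nat_lit 5) (nat_lit 285) (nat_lit 272) (nat_lit 163)) (XT.lf (nat_lit 0) (nat_lit 46175169629) (nat_lit 380) (nat_lit 30053816639) (nat_lit 76) (nat_lit 13195005010) (nat_lit 43) (nat_lit 5) (nat_lit 48) (nat_lit 5) (nat_lit 44) (nat_lit 5) (nat_lit 286) (nat_lit 272) (nat_lit 162))) (XT.nd (nat_lit 78)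 (nat_lit 304) (nat_lit 0) (XT.lf (nat_lit 0) (nat_lit 31888349863) (nat_lit 228) (nat_lit 32420671335) (nat_lit 304) (nat_lit 29682915546) (nat_lit 40) (nat_lit 5) (nat_lit 43) (nat_lit 5) (nat_lit 44) (nat_lit 5) (nat_lit 287) (nat_lit 272) (nat_lit 161)) (XT.nd (nat_lit 78) (nat_lit 76) (nat_lit 0) (XT.lf (nat_lit 0) (nat_lit 740624151) (nat_lit 228) (nat_lit 83927569892) (nat_lit 304) (nat_lit 14218398299) (nat_lit 37) (nat_lit 5) (nat_lit 40) (nat_lit 5) (nat_lit 41) (nat_lit 5) (nat_lit 288) (nat_lit 272) (nat_lit 160)) (XT.lf (nat_lit 0) (nat_lit 4048507164) (nat_lit 304) (nat_lit 33893753224) (nat_lit 76) (nat_lit 66146390633) (nat_lit 36) (nat_lit 5) (nat_lit 40) (nat_lit 5) (nat_lit 37) (nat_lit 5) (nat_lit 289) (nat_lit 272) (nat_lit 159)))))) (XT.nd (nat_lit 312) (nat_lit 608) (nat_lit 0) (XT.nd (nat_lit 156) (nat_lit 380) (nat_lit 0) (XT.nd (nat_lit 78) (nat_lit 0) (nat_lit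 0) (XT.lf (nat_lit 0) (nat_lit 24048810462) (nat_lit 304) (nat_lit 73439910327) (nat_lit 76) (nat_lit 12167993945) (nat_lit 33) (nat_lit 5) (nat_lit 37) (nat_lit 5) (nat_lit 34) (nat_lit 5) (nat_lit 290) (nat_lit 272) (nat_lit 158)) (XT.lf (nat_lit 0) (nat_lit 46887678615) (nat_lit 304) (nat_lit 3145377692) (nat_lit 76) (nat_lit 65575244106) (nat_lit 33) (nat_lit 5) (nat_lit 37) (nat_lit 5) (nat_lit 34) (nat_lit 5) (nat_lit 291) (nat_lit 272) (nat_lit 157))) (XT.nd (nat_lit 78) (nat_lit 152) (nat_lit 0) (XT.lf (nat_lit 0) (nat_lit 72764427978) (nat_lit 304) (nat_lit 46838432129) (nat_lit 76) (nat_lit 2372617860) (nat_lit 30) (nat_lit 5) (nat_lit 34) (nat_lit 5) (nat_lit 31) (nat_lit 5) (nat_lit 292) (nat_lit 272) (nat_lit 156)) (XT.lf (nat_lit 0) (nat_lit 31094138076) (nat_lit 152) (nat_lit 71000819732) (nat_lit 228) (nat_lit 26687893231) (nat_lit 28) (nat_lit 5) (nat_lit 30) (nat_lit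 5) (nat_lit 31) (nat_lit 5) (nat_lit 293) (nat_lit 272) (nat_lit 155)))) (XT.nd (nat_lit 156) (nat_lit 304) (nat_lit 0) (XT.nd (nat_lit 78) (nat_lit 304) (nat_lit 0) (XT.lf (nat_lit 0) (nat_lit 116932354319) (nat_lit 152) (nat_lit 17654369546) (nat_lit 228) (nat_lit 1507353494) (nat_lit 28) (nat_lit 5) (nat_lit 30) (nat_lit 5) (nat_lit 31) (nat_lit 5) (nat_lit 294) (nat_lit 272) (nat_lit 154)) (XT.lf (nat_lit 0) (nat_lit 26564466505) (nat_lit 304) (nat_lit 77163096884) (nat_lit 76) (nat_lit 40157638247) (nat_lit 24) (nat_lit 5) (nat_lit 28) (nat_lit 5) (nat_lit 25) (nat_lit 5) (nat_lit 295) (nat_lit 272) (nat_lit 153))) (XT.nd (nat_lit 78) (nat_lit 152) (nat_lit 0) (XT.lf (nat_lit 0) (nat_lit 7797517887) (nat_lit 152) (nat_lit 49790101863) (nat_lit 228) (nat_lit 94672843195) (nat_lit 22) (nat_lit 5) (nat_lit 24) (nat_lit 5) (nat_lit 25) (nat_lit 5) (nat_lit 296) (nat_lit 272) (nat_lit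 152)) (XT.nd (nat_lit 78) (nat_lit 152) (nat_lit 0) (XT.lf (nat_lit 0) (nat_lit 92589966626) (nat_lit 228) (nat_lit 59083671792) (nat_lit 76) (nat_lit 9557242012) (nat_lit 22) (nat_lit 5) (nat_lit 25) (nat_lit 5) (nat_lit 23) (nat_lit 5) (nat_lit 297) (nat_lit 272) (nat_lit 151)) (XT.lf (nat_lit 0) (nat_lit 33352558948) (nat_lit 152) (nat_lit 98399345329) (nat_lit 228) (nat_lit 39099059050) (nat_lit 20) (nat_lit 5) (nat_lit 22) (nat_lit 5) (nat_lit 23) (nat_lit 5) (nat_lit 298) (nat_lit 272) (nat_lit 150))))))) (XT.nd (nat_lit 702) (nat_lit 304) (nat_lit 0) (XT.nd (nat_lit 312) (nat_lit 304) (nat_lit 0) (XT.nd (nat_lit 156) (nat_lit 152) (nat_lit 0) (XT.nd (nat_lit 78) (nat_lit 228) (nat_lit 0) (XT.lf (nat_lit 0) (nat_lit 135292281986) (nat_lit 152) (nat_lit 39782883574) (nat_lit 228) (nat_lit 6114070870) (nat_lit 20) (nat_lit 5) (nat_lit 22) (nat_lit 5) (nat_lit 23) (nat_lit 5) (nat_lit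 299) (nat_lit 272) (nat_lit 149)) (XT.lf (nat_lit 0) (nat_lit 29801056708) (nat_lit 228) (nat_lit 138368977845) (nat_lit 76) (nat_lit 24099710350) (nat_lit 17) (nat_lit 5) (nat_lit 20) (nat_lit 5) (nat_lit 18) (nat_lit 5) (nat_lit 300) (nat_lit 272) (nat_lit 148))) (XT.nd (nat_lit 78) (nat_lit 152) (nat_lit 0) (XT.lf (nat_lit 0) (nat_lit 69860715028) (nat_lit 228) (nat_lit 41663639947) (nat_lit 76) (nat_lit 92633052792) (nat_lit 17) (nat_lit 5) (nat_lit 20) (nat_lit 5) (nat_lit 18) (nat_lit 5) (nat_lit 301) (nat_lit 272) (nat_lit 147)) (XT.lf (nat_lit 0) (nat_lit 64852725156) (nat_lit 152) (nat_lit 49284259348) (nat_lit 228) (nat_lit 102808508747) (nat_lit 15) (nat_lit 5) (nat_lit 17) (nat_lit 5) (nat_lit 18) (nat_lit 5) (nat_lit 302) (nat_lit 272) (nat_lit 146)))) (XT.nd (nat_lit 156) (nat_lit 228) (nat_lit 0) (XT.nd (nat_lit 78) (nat_lit 76) (nat_lit 0) (XT.lf (nat_lit 0) (nat_lit 162972357973)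 (nat_lit 228) (nat_lit 49635130108) (nat_lit 76) (nat_lit 18098288775) (nat_lit 15) (nat_lit 5) (nat_lit 18) (nat_lit 5) (nat_lit 16) (nat_lit 4) (nat_lit 303) (nat_lit 272) (nat_lit 145)) (XT.lf (nat_lit 0) (nat_lit 62177160256) (nat_lit 76) (nat_lit 155338567505) (nat_lit 152) (nat_lit 27961098367) (nat_lit 14) (nat_lit 5) (nat_lit 15) (nat_lit 5) (nat_lit 16) (nat_lit 4) (nat_lit 304) (nat_lit 272) (nat_lit 144))) (XT.nd (nat_lit 78) (nat_lit 152) (nat_lit 0) (XT.lf (nat_lit 0) (nat_lit 15391327926) (nat_lit 152) (nat_lit 76928668373) (nat_lit 76) (nat_lit 169053950543) (nat_lit 13) (nat_lit 5) (nat_lit 15) (nat_lit 5) (nat_lit 14) (nat_lit 5) (nat_lit 305) (nat_lit 272) (nat_lit 143)) (XT.nd (nat_lit 78) (nat_lit 0) (nat_lit 0) (XT.lf (nat_lit 0) (nat_lit 38718880519) (nat_lit 152) (nat_lit 23130502139) (nat_lit 228) (nat_lit 216639683934) (nat_lit 11) (nat_lit 5) (nat_lit 13) (nat_lit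 5) (nat_lit 14) (nat_lit 5) (nat_lit 306) (nat_lit 272) (nat_lit 142)) (XT.lf (nat_lit 0) (nat_lit 114191097282) (nat_lit 228) (nat_lit 131369441642) (nat_lit 76) (nat_lit 51304507203) (nat_lit 11) (nat_lit 5) (nat_lit 14) (nat_lit 5) (nat_lit 12) (nat_lit 4) (nat_lit 307) (nat_lit 272) (nat_lit 141)))))) (XT.nd (nat_lit 390) (nat_lit 76) (nat_lit 0) (XT.nd (nat_lit 156) (nat_lit 152) (nat_lit 0) (XT.nd (nat_lit 78) (nat_lit 76) (nat_lit 0) (XT.lf (nat_lit 0) (nat_lit 171109681268) (nat_lit 228) (nat_lit 14687476906) (nat_lit 76) (nat_lit 130894470151) (nat_lit 11) (nat_lit 5) (nat_lit 14) (nat_lit 5) (nat_lit 12) (nat_lit 4) (nat_lit 308) (nat_lit 272) (nat_lit 140)) (XT.lf (nat_lit 0) (nat_lit 115009304774) (nat_lit 76) (nat_lit 119367610754) (nat_lit 152) (nat_lit 103637664236) (nat_lit 10) (nat_lit 5) (nat_lit 11) (nat_lit 5) (nat_lit 12) (nat_lit 4) (nat_lit 309) (nat_lit 272) (nat_lit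 139))) (XT.nd (nat_lit 78) (nat_lit 152) (nat_lit 0) (XT.lf (nat_lit 0) (nat_lit 255605590685) (nat_lit 76) (nat_lit 47355352547) (nat_lit 152) (nat_lit 58069654132) (nat_lit 10) (nat_lit 5) (nat_lit 11) (nat_lit 5) (nat_lit 12) (nat_lit 4) (nat_lit 310) (nat_lit 272) (nat_lit 138)) (XT.nd (nat_lit 78) (nat_lit 76) (nat_lit 0) (XT.lf (nat_lit 0) (nat_lit 21783289679) (nat_lit 76) (nat_lit 356063006212) (nat_lit 76) (nat_lit 8000871064) (nat_lit 9) (nat_lit 4) (nat_lit 10) (nat_lit 5) (nat_lit 10) (nat_lit 4) (nat_lit 311) (nat_lit 272) (nat_lit 137)) (XT.lf (nat_lit 0) (nat_lit 47263425308) (nat_lit 152) (nat_lit 251172906002) (nat_lit 76) (nat_lit 114043532302) (nat_lit 8) (nat_lit 5) (nat_lit 10) (nat_lit 5) (nat_lit 9) (nat_lit 4) (nat_lit 312) (nat_lit 272) (nat_lit 136))))) (XT.nd (nat_lit 156) (nat_lit 0) (nat_lit 0) (XT.nd (nat_lit 78) (nat_lit 76) (nat_lit 0) (XT.lf (nat_lit 0)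 (nat_lit 106671939114) (nat_lit 152) (nat_lit 129386186717) (nat_lit 76) (nat_lit 205178323406) (nat_lit 8) (nat_lit 5) (nat_lit 10) (nat_lit 5) (nat_lit 9) (nat_lit 4) (nat_lit 313) (nat_lit 272) (nat_lit 135)) (XT.lf (nat_lit 0) (nat_lit 2213749483) (nat_lit 76) (nat_lit 168653611994) (nat_lit 152) (nat_lit 301424489408) (nat_lit 7) (nat_lit 5) (nat_lit 8) (nat_lit 5) (nat_lit 9) (nat_lit 4) (nat_lit 314) (nat_lit 272) (nat_lit 134))) (XT.nd (nat_lit 78) (nat_lit 0) (nat_lit 0) (XT.lf (nat_lit 0) (nat_lit 148961470098) (nat_lit 76) (nat_lit 93490452313) (nat_lit 152) (nat_lit 263267087519) (nat_lit 7) (nat_lit 5) (nat_lit 8) (nat_lit 5) (nat_lit 9) (nat_lit 4) (nat_lit 315) (nat_lit 272) (nat_lit 133)) (XT.nd (nat_lit 78) (nat_lit 0) (nat_lit 0) (XT.lf (nat_lit 0) (nat_lit 307448499594) (nat_lit 76) (nat_lit 12314453150) (nat_lit 152) (nat_lit 222057404199) (nat_lit 7) (nat_lit 5) (nat_lit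 8) (nat_lit 5) (nat_lit 9) (nat_lit 4) (nat_lit 316) (nat_lit 272) (nat_lit 132)) (XT.lf (nat_lit 0) (nat_lit 404435101334) (nat_lit 152) (nat_lit 103372314885) (nat_lit 0) (nat_lit 72943584138) (nat_lit 7) (nat_lit 5) (nat_lit 9) (nat_lit 4) (nat_lit 7) (nat_lit 4) (nat_lit 317) (nat_lit 272) (nat_lit 131))))))))
noncomputable def xc107 : XT := (XT.nd (nat_lit 35412) (nat_lit 0) (nat_lit 380) (XT.nd (nat_lit 34632) (nat_lit 0) (nat_lit 2280) (XT.nd (nat_lit 34242) (nat_lit 0) (nat_lit 4560) (XT.nd (nat_lit 34086) (nat_lit 0) (nat_lit 4484) (XT.nd (nat_lit 34008) (nat_lit 0) (nat_lit 4484) (XT.lf (nat_lit 0) (nat_lit 39152215817) (nat_lit 76) (nat_lit 457547469803) (nat_lit 76) (nat_lit 126055476836) (nat_lit 6) (nat_lit 4) (nat_lit 7) (nat_lit 5) (nat_lit 7) (nat_lit 4) (nat_lit 318) (nat_lit 272) (nat_lit 130)) (XT.lf (nat_lit 0) (nat_lit 3400473537) (nat_lit 0) (nat_lit 3400473537)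 (nat_lit 684) (nat_lit 19280560274) (nat_lit 65) (nat_lit 5) (nat_lit 65) (nat_lit 3) (nat_lit 74) (nat_lit 3) (nat_lit 273) (nat_lit 273) (nat_lit 174))) (XT.nd (nat_lit 78) (nat_lit 0) (nat_lit 76) (XT.lf (nat_lit 0) (nat_lit 14634423854) (nat_lit 684) (nat_lit 11424199781) (nat_lit 760) (nat_lit 28166352744) (nat_lit 65) (nat_lit 5) (nat_lit 74) (nat_lit 3) (nat_lit 75) (nat_lit 5) (nat_lit 274) (nat_lit 273) (nat_lit 173)) (XT.lf (nat_lit 0) (nat_lit 16416953446) (nat_lit 684) (nat_lit 30634749958) (nat_lit 760) (nat_lit 9366835341) (nat_lit 66) (nat_lit 5) (nat_lit 75) (nat_lit 5) (nat_lit 76) (nat_lit 5) (nat_lit 275) (nat_lit 273) (nat_lit 172)))) (XT.nd (nat_lit 156) (nat_lit 0) (nat_lit 152) (XT.nd (nat_lit 78) (nat_lit 0) (nat_lit 76) (XT.lf (nat_lit 76) (nat_lit 7390593474) (nat_lit 0) (nat_lit 11705392855) (nat_lit 760) (nat_lit 39653917346) (nat_lit 67) (nat_lit 5) (nat_lit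 66) (nat_lit 5) (nat_lit 76) (nat_lit 5) (nat_lit 276) (nat_lit 273) (nat_lit 171)) (XT.lf (nat_lit 0) (nat_lit 22942048025) (nat_lit 684) (nat_lit 12113286765) (nat_lit 760) (nat_lit 26164819383) (nat_lit 67) (nat_lit 5) (nat_lit 76) (nat_lit 5) (nat_lit 77) (nat_lit 5) (nat_lit 277) (nat_lit 273) (nat_lit 170))) (XT.nd (nat_lit 78) (nat_lit 0) (nat_lit 0) (XT.lf (nat_lit 0) (nat_lit 27826903039) (nat_lit 684) (nat_lit 32838008003) (nat_lit 760) (nat_lit 3186569066) (nat_lit 68) (nat_lit 5) (nat_lit 77) (nat_lit 5) (nat_lit 78) (nat_lit 5) (nat_lit 278) (nat_lit 273) (nat_lit 169)) (XT.nd (nat_lit 78) (nat_lit 0) (nat_lit 76) (XT.lf (nat_lit 76) (nat_lit 11098826647) (nat_lit 0) (nat_lit 22980035415) (nat_lit 760) (nat_lit 32565644295) (nat_lit 69) (nat_lit 5) (nat_lit 68) (nat_lit 5) (nat_lit 78) (nat_lit 5) (nat_lit 279) (nat_lit 273) (nat_lit 168)) (XT.lf (nat_lit 0) (nat_lit 41686659321)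 (nat_lit 684) (nat_lit 10197228946) (nat_lit 76) (nat_lit 17734311635) (nat_lit 69) (nat_lit 5) (nat_lit 78) (nat_lit 5) (nat_lit 70) (nat_lit 5) (nat_lit 280) (nat_lit 273) (nat_lit 167)))))) (XT.nd (nat_lit 390) (nat_lit 836) (nat_lit 0) (XT.nd (nat_lit 156) (nat_lit 684) (nat_lit 0) (XT.nd (nat_lit 78) (nat_lit 304) (nat_lit 0) (XT.lf (nat_lit 0) (nat_lit 39659035027) (nat_lit 684) (nat_lit 11248528822) (nat_lit 760) (nat_lit 21872009497) (nat_lit 60) (nat_lit 5) (nat_lit 69) (nat_lit 5) (nat_lit 70) (nat_lit 5) (nat_lit 281) (nat_lit 273) (nat_lit 166)) (XT.lf (nat_lit 0) (nat_lit 17736211513) (nat_lit 304) (nat_lit 44094894260) (nat_lit 380) (nat_lit 14314510592) (nat_lit 56) (nat_lit 5) (nat_lit 60) (nat_lit 5) (nat_lit 61) (nat_lit 5) (nat_lit 282) (nat_lit 273) (nat_lit 165))) (XT.nd (nat_lit 78) (nat_lit 684) (nat_lit 0) (XT.lf (nat_lit 0) (nat_lit 73646422098) (nat_lit 304)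 (nat_lit 743728581) (nat_lit 380) (nat_lit 5352718526) (nat_lit 56) (nat_lit 5) (nat_lit 60) (nat_lit 5) (nat_lit 61) (nat_lit 5) (nat_lit 283) (nat_lit 273) (nat_lit 164)) (XT.nd (nat_lit 78) (nat_lit 304) (nat_lit 0) (XT.lf (nat_lit 0) (nat_lit 5731328325) (nat_lit 380) (nat_lit 32321390050) (nat_lit 76) (nat_lit 45494624780) (nat_lit 51) (nat_lit 5) (nat_lit 56) (nat_lit 5) (nat_lit 52) (nat_lit 5) (nat_lit 284) (nat_lit 273) (nat_lit 163)) (XT.lf (nat_lit 0) (nat_lit 18179679239) (nat_lit 380) (nat_lit 61315201242) (nat_lit 76) (nat_lit 8123657402) (nat_lit 47) (nat_lit 5) (nat_lit 52) (nat_lit 5) (nat_lit 48) (nat_lit 5) (nat_lit 285) (nat_lit 273) (nat_lit 162))))) (XT.nd (nat_lit 156) (nat_lit 532) (nat_lit 0) (XT.nd (nat_lit 78) (nat_lit 304) (nat_lit 0) (XT.lf (nat_lit 0) (nat_lit 32836167630) (nat_lit 380) (nat_lit 1867727561) (nat_lit 76) (nat_lit 57250925094) (nat_lit 47)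 (nat_lit 5) (nat_lit 52) (nat_lit 5) (nat_lit 48) (nat_lit 5) (nat_lit 286) (nat_lit 273) (nat_lit 161)) (XT.lf (nat_lit 0) (nat_lit 49898974995) (nat_lit 380) (nat_lit 32422820444) (nat_lit 76) (nat_lit 14254525000) (nat_lit 43) (nat_lit 5) (nat_lit 48) (nat_lit 5) (nat_lit 44) (nat_lit 5) (nat_lit 287) (nat_lit 273) (nat_lit 160))) (XT.nd (nat_lit 78) (nat_lit 304) (nat_lit 0) (XT.lf (nat_lit 0) (nat_lit 34473185217) (nat_lit 228) (nat_lit 35008669875) (nat_lit 304) (nat_lit 32027937877) (nat_lit 40) (nat_lit 5) (nat_lit 43) (nat_lit 5) (nat_lit 44) (nat_lit 5) (nat_lit 288) (nat_lit 273) (nat_lit 159)) (XT.nd (nat_lit 78) (nat_lit 76) (nat_lit 0) (XT.lf (nat_lit 0) (nat_lit 833523086) (nat_lit 228) (nat_lit 90634763403) (nat_lit 304) (nat_lit 15327815188) (nat_lit 37) (nat_lit 5) (nat_lit 40) (nat_lit 5) (nat_lit 41) (nat_lit 5) (nat_lit 289) (nat_lit 273) (nat_lit 158)) (XT.lf (nat_lit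 0) (nat_lit 4397533145) (nat_lit 304) (nat_lit 36573189557) (nat_lit 76) (nat_lit 71443687109) (nat_lit 36) (nat_lit 5) (nat_lit 40) (nat_lit 5) (nat_lit 37) (nat_lit 5) (nat_lit 290) (nat_lit 273) (nat_lit 157))))))) (XT.nd (nat_lit 702) (nat_lit 684) (nat_lit 0) (XT.nd (nat_lit 312) (nat_lit 608) (nat_lit 0) (XT.nd (nat_lit 156) (nat_lit 380) (nat_lit 0) (XT.nd (nat_lit 78) (nat_lit 0) (nat_lit 0) (XT.lf (nat_lit 0) (nat_lit 25996584803) (nat_lit 304) (nat_lit 79283282083) (nat_lit 76) (nat_lit 13148121164) (nat_lit 33) (nat_lit 5) (nat_lit 37) (nat_lit 5) (nat_lit 34) (nat_lit 5) (nat_lit 291) (nat_lit 273) (nat_lit 156)) (XT.lf (nat_lit 0) (nat_lit 50660794296) (nat_lit 304) (nat_lit 3367543953) (nat_lit 76) (nat_lit 70827455953) (nat_lit 33) (nat_lit 5) (nat_lit 37) (nat_lit 5) (nat_lit 34) (nat_lit 5) (nat_lit 292) (nat_lit 273) (nat_lit 155))) (XT.nd (nat_lit 78) (nat_lit 152)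 (nat_lit 0) (XT.lf (nat_lit 0) (nat_lit 78606600140) (nat_lit 304) (nat_lit 50556331300) (nat_lit 76) (nat_lit 2569473521) (nat_lit 30) (nat_lit 5) (nat_lit 34) (nat_lit 5) (nat_lit 31) (nat_lit 5) (nat_lit 293) (nat_lit 273) (nat_lit 154)) (XT.lf (nat_lit 0) (nat_lit 33609576595) (nat_lit 152) (nat_lit 76672874593) (nat_lit 228) (nat_lit 28801977220) (nat_lit 28) (nat_lit 5) (nat_lit 30) (nat_lit 5) (nat_lit 31) (nat_lit 5) (nat_lit 294) (nat_lit 273) (nat_lit 153)))) (XT.nd (nat_lit 156) (nat_lit 304) (nat_lit 0) (XT.nd (nat_lit 78) (nat_lit 304) (nat_lit 0) (XT.lf (nat_lit 0) (nat_lit 126312782917) (nat_lit 152) (nat_lit 19059301779) (nat_lit 228) (nat_lit 1608545968) (nat_lit 28) (nat_lit 5) (nat_lit 30) (nat_lit 5) (nat_lit 31) (nat_lit 5) (nat_lit 295) (nat_lit 273) (nat_lit 152)) (XT.lf (nat_lit 0) (nat_lit 28707522328) (nat_lit 304) (nat_lit 83309970107) (nat_lit 76) (nat_lit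 43377584781) (nat_lit 24) (nat_lit 5) (nat_lit 28) (nat_lit 5) (nat_lit 25) (nat_lit 5) (nat_lit 296) (nat_lit 273) (nat_lit 151))) (XT.nd (nat_lit 78) (nat_lit 152) (nat_lit 0) (XT.lf (nat_lit 0) (nat_lit 8446356332) (nat_lit 152) (nat_lit 53765236583) (nat_lit 228) (nat_lit 102228816641) (nat_lit 22) (nat_lit 5) (nat_lit 24) (nat_lit 5) (nat_lit 25) (nat_lit 5) (nat_lit 297) (nat_lit 273) (nat_lit 150)) (XT.nd (nat_lit 78) (nat_lit 152) (nat_lit 0) (XT.lf (nat_lit 0) (nat_lit 100012987692) (nat_lit 228) (nat_lit 63786475359) (nat_lit 76) (nat_lit 10329057510) (nat_lit 22) (nat_lit 5) (nat_lit 25) (nat_lit 5) (nat_lit 23) (nat_lit 5) (nat_lit 298) (nat_lit 273) (nat_lit 149)) (XT.lf (nat_lit 0) (nat_lit 36043615602) (nat_lit 152) (nat_lit 106263449407) (nat_lit 228) (nat_lit 42211188746) (nat_lit 20) (nat_lit 5) (nat_lit 22) (nat_lit 5) (nat_lit 23) (nat_lit 5) (nat_lit 299) (nat_lit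 273) (nat_lit 148)))))) (XT.nd (nat_lit 390) (nat_lit 304) (nat_lit 0) (XT.nd (nat_lit 156) (nat_lit 152) (nat_lit 0) (XT.nd (nat_lit 78) (nat_lit 228) (nat_lit 0) (XT.lf (nat_lit 0) (nat_lit 146136823747) (nat_lit 152) (nat_lit 42958251715) (nat_lit 228) (nat_lit 6588571514) (nat_lit 20) (nat_lit 5) (nat_lit 22) (nat_lit 5) (nat_lit 23) (nat_lit 5) (nat_lit 300) (nat_lit 273) (nat_lit 147)) (XT.lf (nat_lit 0) (nat_lit 32198686740) (nat_lit 228) (nat_lit 149417190722) (nat_lit 76) (nat_lit 26034740185) (nat_lit 17) (nat_lit 5) (nat_lit 20) (nat_lit 5) (nat_lit 18) (nat_lit 5) (nat_lit 301) (nat_lit 273) (nat_lit 146))) (XT.nd (nat_lit 78) (nat_lit 152) (nat_lit 0) (XT.lf (nat_lit 0) (nat_lit 75462114355) (nat_lit 228) (nat_lit 44977003967) (nat_lit 76) (nat_lit 100050227578) (nat_lit 17) (nat_lit 5) (nat_lit 20) (nat_lit 5) (nat_lit 18) (nat_lit 5) (nat_lit 302) (nat_lit 273) (nat_lit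 145)) (XT.nd (nat_lit 78) (nat_lit 0) (nat_lit 0) (XT.lf (nat_lit 0) (nat_lit 70059813026) (nat_lit 152) (nat_lit 53220037929) (nat_lit 228) (nat_lit 111020661019) (nat_lit 15) (nat_lit 5) (nat_lit 17) (nat_lit 5) (nat_lit 18) (nat_lit 5) (nat_lit 303) (nat_lit 273) (nat_lit 144)) (XT.lf (nat_lit 0) (nat_lit 176021272898) (nat_lit 228) (nat_lit 53587994317) (nat_lit 76) (nat_lit 19552392001) (nat_lit 15) (nat_lit 5) (nat_lit 18) (nat_lit 5) (nat_lit 16) (nat_lit 4) (nat_lit 304) (nat_lit 273) (nat_lit 143))))) (XT.nd (nat_lit 156) (nat_lit 152) (nat_lit 0) (XT.nd (nat_lit 78) (nat_lit 76) (nat_lit 0) (XT.lf (nat_lit 0) (nat_lit 67168499357) (nat_lit 76) (nat_lit 167759056756) (nat_lit 152) (nat_lit 30186865863) (nat_lit 14) (nat_lit 5) (nat_lit 15) (nat_lit 5) (nat_lit 16) (nat_lit 4) (nat_lit 305) (nat_lit 273) (nat_lit 142)) (XT.lf (nat_lit 0) (nat_lit 16632601246) (nat_lit 152) (nat_lit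 83066718414) (nat_lit 76) (nat_lit 182584025408) (nat_lit 13) (nat_lit 5) (nat_lit 15) (nat_lit 5) (nat_lit 14) (nat_lit 5) (nat_lit 306) (nat_lit 273) (nat_lit 141))) (XT.nd (nat_lit 78) (nat_lit 0) (nat_lit 0) (XT.lf (nat_lit 0) (nat_lit 41831928470) (nat_lit 152) (nat_lit 24974876168) (nat_lit 228) (nat_lit 233960895965) (nat_lit 11) (nat_lit 5) (nat_lit 13) (nat_lit 5) (nat_lit 14) (nat_lit 5) (nat_lit 307) (nat_lit 273) (nat_lit 140)) (XT.nd (nat_lit 78) (nat_lit 0) (nat_lit 0) (XT.lf (nat_lit 0) (nat_lit 123335242543) (nat_lit 228) (nat_lit 141864243162) (nat_lit 76) (nat_lit 55414304805) (nat_lit 11) (nat_lit 5) (nat_lit 14) (nat_lit 5) (nat_lit 12) (nat_lit 4) (nat_lit 308) (nat_lit 273) (nat_lit 139)) (XT.lf (nat_lit 0) (nat_lit 184806657139) (nat_lit 228) (nat_lit 15848814122) (nat_lit 76) (nat_lit 141371062046) (nat_lit 11) (nat_lit 5) (nat_lit 14) (nat_lit 5) (nat_lit 12)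 (nat_lit 4) (nat_lit 309) (nat_lit 273) (nat_lit 138))))))))
noncomputable def xc108 : XT := (XT.nd (nat_lit 35412) (nat_lit 0) (nat_lit 988) (XT.nd (nat_lit 34710) (nat_lit 0) (nat_lit 4028) (XT.nd (nat_lit 312) (nat_lit 76) (nat_lit 0) (XT.nd (nat_lit 156) (nat_lit 152) (nat_lit 0) (XT.nd (nat_lit 78) (nat_lit 0) (nat_lit 0) (XT.lf (nat_lit 0) (nat_lit 124223116406) (nat_lit 76) (nat_lit 128911750241) (nat_lit 152) (nat_lit 111920475516) (nat_lit 10) (nat_lit 5) (nat_lit 11) (nat_lit 5) (nat_lit 12) (nat_lit 4) (nat_lit 310) (nat_lit 273) (nat_lit 137)) (XT.lf (nat_lit 0) (nat_lit 276066137245) (nat_lit 76) (nat_lit 51138901701) (nat_lit 152) (nat_lit 62707632148) (nat_lit 10) (nat_lit 5) (nat_lit 11) (nat_lit 5) (nat_lit 12) (nat_lit 4) (nat_lit 311) (nat_lit 273) (nat_lit 136))) (XT.nd (nat_lit 78) (nat_lit 76) (nat_lit 0) (XT.lf (nat_lit 0) (nat_lit 23537811275) (nat_lit 76) (nat_lit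 384543129387) (nat_lit 76) (nat_lit 8633640517) (nat_lit 9) (nat_lit 4) (nat_lit 10) (nat_lit 5) (nat_lit 10) (nat_lit 4) (nat_lit 312) (nat_lit 273) (nat_lit 135)) (XT.lf (nat_lit 0) (nat_lit 51051042462) (nat_lit 152) (nat_lit 271255531465) (nat_lit 76) (nat_lit 123171340965) (nat_lit 8) (nat_lit 5) (nat_lit 10) (nat_lit 5) (nat_lit 9) (nat_lit 4) (nat_lit 313) (nat_lit 273) (nat_lit 134)))) (XT.nd (nat_lit 156) (nat_lit 0) (nat_lit 0) (XT.nd (nat_lit 78) (nat_lit 76) (nat_lit 0) (XT.lf (nat_lit 0) (nat_lit 115211752696) (nat_lit 152) (nat_lit 139726704787) (nat_lit 76) (nat_lit 221596594907) (nat_lit 8) (nat_lit 5) (nat_lit 10) (nat_lit 5) (nat_lit 9) (nat_lit 4) (nat_lit 314) (nat_lit 273) (nat_lit 133)) (XT.lf (nat_lit 0) (nat_lit 2400775343) (nat_lit 76) (nat_lit 182141739702) (nat_lit 152) (nat_lit 325532386546) (nat_lit 7) (nat_lit 5) (nat_lit 8) (nat_lit 5) (nat_lit 9) (nat_lit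 4) (nat_lit 315) (nat_lit 273) (nat_lit 132))) (XT.nd (nat_lit 78) (nat_lit 0) (nat_lit 0) (XT.lf (nat_lit 0) (nat_lit 160887578356) (nat_lit 76) (nat_lit 100965835488) (nat_lit 152) (nat_lit 284322841544) (nat_lit 7) (nat_lit 5) (nat_lit 8) (nat_lit 5) (nat_lit 9) (nat_lit 4) (nat_lit 316) (nat_lit 273) (nat_lit 131)) (XT.nd (nat_lit 78) (nat_lit 0) (nat_lit 0) (XT.lf (nat_lit 0) (nat_lit 332052889422) (nat_lit 76) (nat_lit 13296041800) (nat_lit 152) (nat_lit 239816799334) (nat_lit 7) (nat_lit 5) (nat_lit 8) (nat_lit 5) (nat_lit 9) (nat_lit 4) (nat_lit 317) (nat_lit 273) (nat_lit 130)) (XT.lf (nat_lit 0) (nat_lit 436794537180) (nat_lit 152) (nat_lit 111634036092) (nat_lit 0) (nat_lit 78782268477) (nat_lit 7) (nat_lit 5) (nat_lit 9) (nat_lit 4) (nat_lit 7) (nat_lit 4) (nat_lit 318) (nat_lit 273) (nat_lit 129)))))) (XT.nd (nat_lit 312) (nat_lit 380) (nat_lit 0) (XT.nd (nat_lit 156) (nat_lit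 0) (nat_lit 76) (XT.nd (nat_lit 78) (nat_lit 0) (nat_lit 0) (XT.lf (nat_lit 0) (nat_lit 3689179633) (nat_lit 0) (nat_lit 3689179633) (nat_lit 684) (nat_lit 20787868914) (nat_lit 65) (nat_lit 5) (nat_lit 65) (nat_lit 3) (nat_lit 74) (nat_lit 3) (nat_lit 274) (nat_lit 274) (nat_lit 172)) (XT.lf (nat_lit 0) (nat_lit 15866429964) (nat_lit 684) (nat_lit 12303453900) (nat_lit 760) (nat_lit 30389781841) (nat_lit 65) (nat_lit 5) (nat_lit 74) (nat_lit 3) (nat_lit 75) (nat_lit 5) (nat_lit 275) (nat_lit 274) (nat_lit 171))) (XT.nd (nat_lit 78) (nat_lit 0) (nat_lit 0) (XT.lf (nat_lit 0) (nat_lit 17787167055) (nat_lit 684) (nat_lit 33048890119) (nat_lit 760) (nat_lit 10092893866) (nat_lit 66) (nat_lit 5) (nat_lit 75) (nat_lit 5) (nat_lit 76) (nat_lit 5) (nat_lit 276) (nat_lit 274) (nat_lit 170)) (XT.lf (nat_lit 76) (nat_lit 8016888465) (nat_lit 0) (nat_lit 12659969639) (nat_lit 760) (nat_lit 42770167168)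 (nat_lit 67) (nat_lit 5) (nat_lit 66) (nat_lit 5) (nat_lit 76) (nat_lit 5) (nat_lit 277) (nat_lit 274) (nat_lit 169)))) (XT.nd (nat_lit 156) (nat_lit 532) (nat_lit 0) (XT.nd (nat_lit 78) (nat_lit 0) (nat_lit 76) (XT.lf (nat_lit 0) (nat_lit 24826402208) (nat_lit 684) (nat_lit 13046977937) (nat_lit 760) (nat_lit 28241741424) (nat_lit 67) (nat_lit 5) (nat_lit 76) (nat_lit 5) (nat_lit 77) (nat_lit 5) (nat_lit 278) (nat_lit 274) (nat_lit 168)) (XT.lf (nat_lit 0) (nat_lit 30098756747) (nat_lit 684) (nat_lit 35428550445) (nat_lit 760) (nat_lit 3429825307) (nat_lit 68) (nat_lit 5) (nat_lit 77) (nat_lit 5) (nat_lit 78) (nat_lit 5) (nat_lit 279) (nat_lit 274) (nat_lit 167))) (XT.nd (nat_lit 78) (nat_lit 608) (nat_lit 0) (XT.lf (nat_lit 76) (nat_lit 12021644810) (nat_lit 0) (nat_lit 24826387463) (nat_lit 760) (nat_lit 35125723988) (nat_lit 69) (nat_lit 5) (nat_lit 68) (nat_lit 5) (nat_lit 78) (nat_lit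 5) (nat_lit 280) (nat_lit 274) (nat_lit 166)) (XT.nd (nat_lit 78) (nat_lit 684) (nat_lit 0) (XT.lf (nat_lit 0) (nat_lit 45061163490) (nat_lit 684) (nat_lit 10978426942) (nat_lit 76) (nat_lit 19145931761) (nat_lit 69) (nat_lit 5) (nat_lit 78) (nat_lit 5) (nat_lit 70) (nat_lit 5) (nat_lit 281) (nat_lit 274) (nat_lit 165)) (XT.lf (nat_lit 0) (nat_lit 42864835330) (nat_lit 684) (nat_lit 12152490265) (nat_lit 760) (nat_lit 23582612146) (nat_lit 60) (nat_lit 5) (nat_lit 69) (nat_lit 5) (nat_lit 70) (nat_lit 5) (nat_lit 282) (nat_lit 274) (nat_lit 164))))))) (XT.nd (nat_lit 702) (nat_lit 1216) (nat_lit 0) (XT.nd (nat_lit 312) (nat_lit 836) (nat_lit 0) (XT.nd (nat_lit 156) (nat_lit 684) (nat_lit 0) (XT.nd (nat_lit 78) (nat_lit 0) (nat_lit 0) (XT.lf (nat_lit 0) (nat_lit 19188723837) (nat_lit 304) (nat_lit 47623740554) (nat_lit 380) (nat_lit 15422924775) (nat_lit 56) (nat_lit 5) (nat_lit 60) (nat_lit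 5) (nat_lit 61) (nat_lit 5) (nat_lit 283) (nat_lit 274) (nat_lit 163)) (XT.lf (nat_lit 0) (nat_lit 79569261239) (nat_lit 304) (nat_lit 804388676) (nat_lit 380) (nat_lit 5746911319) (nat_lit 56) (nat_lit 5) (nat_lit 60) (nat_lit 5) (nat_lit 61) (nat_lit 5) (nat_lit 284) (nat_lit 274) (nat_lit 162))) (XT.nd (nat_lit 78) (nat_lit 304) (nat_lit 0) (XT.lf (nat_lit 0) (nat_lit 6220812631) (nat_lit 380) (nat_lit 34874516333) (nat_lit 76) (nat_lit 49134144144) (nat_lit 51) (nat_lit 5) (nat_lit 56) (nat_lit 5) (nat_lit 52) (nat_lit 5) (nat_lit 285) (nat_lit 274) (nat_lit 161)) (XT.lf (nat_lit 0) (nat_lit 19663254788) (nat_lit 380) (nat_lit 66187720676) (nat_lit 76) (nat_lit 8775484836) (nat_lit 47) (nat_lit 5) (nat_lit 52) (nat_lit 5) (nat_lit 48) (nat_lit 5) (nat_lit 286) (nat_lit 274) (nat_lit 160)))) (XT.nd (nat_lit 156) (nat_lit 532) (nat_lit 0) (XT.nd (nat_lit 78) (nat_lit 304) (nat_lit 0)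 (XT.lf (nat_lit 0) (nat_lit 35490099198) (nat_lit 380) (nat_lit 1986871076) (nat_lit 76) (nat_lit 61832790622) (nat_lit 47) (nat_lit 5) (nat_lit 52) (nat_lit 5) (nat_lit 48) (nat_lit 5) (nat_lit 287) (nat_lit 274) (nat_lit 159)) (XT.lf (nat_lit 0) (nat_lit 53916434657) (nat_lit 380) (nat_lit 34986380710) (nat_lit 76) (nat_lit 15398247417) (nat_lit 43) (nat_lit 5) (nat_lit 48) (nat_lit 5) (nat_lit 44) (nat_lit 5) (nat_lit 288) (nat_lit 274) (nat_lit 158))) (XT.nd (nat_lit 78) (nat_lit 304) (nat_lit 0) (XT.lf (nat_lit 0) (nat_lit 37259990108) (nat_lit 228) (nat_lit 37804515071) (nat_lit 304) (nat_lit 34564786322) (nat_lit 40) (nat_lit 5) (nat_lit 43) (nat_lit 5) (nat_lit 44) (nat_lit 5) (nat_lit 289) (nat_lit 274) (nat_lit 157)) (XT.nd (nat_lit 78) (nat_lit 76) (nat_lit 0) (XT.lf (nat_lit 0) (nat_lit 929053528) (nat_lit 228) (nat_lit 97879532746) (nat_lit 304) (nat_lit 16529987784) (nat_lit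 37) (nat_lit 5) (nat_lit 40) (nat_lit 5) (nat_lit 41) (nat_lit 5) (nat_lit 290) (nat_lit 274) (nat_lit 156)) (XT.lf (nat_lit 0) (nat_lit 4770893931) (nat_lit 304) (nat_lit 39471555074) (nat_lit 76) (nat_lit 77163970509) (nat_lit 36) (nat_lit 5) (nat_lit 40) (nat_lit 5) (nat_lit 37) (nat_lit 5) (nat_lit 291) (nat_lit 274) (nat_lit 155)))))) (XT.nd (nat_lit 390) (nat_lit 608) (nat_lit 0) (XT.nd (nat_lit 156) (nat_lit 380) (nat_lit 0) (XT.nd (nat_lit 78) (nat_lit 0) (nat_lit 0) (XT.lf (nat_lit 0) (nat_lit 28096775838) (nat_lit 304) (nat_lit 85598663210) (nat_lit 76) (nat_lit 14205704485) (nat_lit 33) (nat_lit 5) (nat_lit 37) (nat_lit 5) (nat_lit 34) (nat_lit 5) (nat_lit 292) (nat_lit 274) (nat_lit 154)) (XT.lf (nat_lit 0) (nat_lit 54732606221) (nat_lit 304) (nat_lit 3611686878) (nat_lit 76) (nat_lit 76498961343) (nat_lit 33) (nat_lit 5) (nat_lit 37) (nat_lit 5) (nat_lit 34) (nat_lit 5) (nat_lit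 293) (nat_lit 274) (nat_lit 153))) (XT.nd (nat_lit 78) (nat_lit 152) (nat_lit 0) (XT.lf (nat_lit 0) (nat_lit 84913147633) (nat_lit 304) (nat_lit 54575824602) (nat_lit 76) (nat_lit 2781072411) (nat_lit 30) (nat_lit 5) (nat_lit 34) (nat_lit 5) (nat_lit 31) (nat_lit 5) (nat_lit 294) (nat_lit 274) (nat_lit 152)) (XT.nd (nat_lit 78) (nat_lit 0) (nat_lit 0) (XT.lf (nat_lit 0) (nat_lit 36322268882) (nat_lit 152) (nat_lit 82799836662) (nat_lit 228) (nat_lit 31088176319) (nat_lit 28) (nat_lit 5) (nat_lit 30) (nat_lit 5) (nat_lit 31) (nat_lit 5) (nat_lit 295) (nat_lit 274) (nat_lit 151)) (XT.lf (nat_lit 0) (nat_lit 136439959401) (nat_lit 152) (nat_lit 20577686755) (nat_lit 228) (nat_lit 1720600869) (nat_lit 28) (nat_lit 5) (nat_lit 30) (nat_lit 5) (nat_lit 31) (nat_lit 5) (nat_lit 296) (nat_lit 274) (nat_lit 150))))) (XT.nd (nat_lit 156) (nat_lit 152) (nat_lit 0) (XT.nd (nat_lit 78) (nat_lit 152)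 (nat_lit 0) (XT.lf (nat_lit 0) (nat_lit 31019469196) (nat_lit 304) (nat_lit 89952327277) (nat_lit 76) (nat_lit 46854080551) (nat_lit 24) (nat_lit 5) (nat_lit 28) (nat_lit 5) (nat_lit 25) (nat_lit 5) (nat_lit 297) (nat_lit 274) (nat_lit 149)) (XT.lf (nat_lit 0) (nat_lit 9143530043) (nat_lit 152) (nat_lit 58059533846) (nat_lit 228) (nat_lit 110391815036) (nat_lit 22) (nat_lit 5) (nat_lit 24) (nat_lit 5) (nat_lit 25) (nat_lit 5) (nat_lit 298) (nat_lit 274) (nat_lit 148))) (XT.nd (nat_lit 78) (nat_lit 152) (nat_lit 0) (XT.lf (nat_lit 0) (nat_lit 108027593010) (nat_lit 228) (nat_lit 68868911413) (nat_lit 76) (nat_lit 11161585932) (nat_lit 22) (nat_lit 5) (nat_lit 25) (nat_lit 5) (nat_lit 23) (nat_lit 5) (nat_lit 299) (nat_lit 274) (nat_lit 147)) (XT.nd (nat_lit 78) (nat_lit 0) (nat_lit 0) (XT.lf (nat_lit 0) (nat_lit 38946696703) (nat_lit 152) (nat_lit 114757800782) (nat_lit 228) (nat_lit 45574542155)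 (nat_lit 20) (nat_lit 5) (nat_lit 22) (nat_lit 5) (nat_lit 23) (nat_lit 5) (nat_lit 300) (nat_lit 274) (nat_lit 146)) (XT.lf (nat_lit 0) (nat_lit 157845910252) (nat_lit 152) (nat_lit 46388685391) (nat_lit 228) (nat_lit 7103118633) (nat_lit 20) (nat_lit 5) (nat_lit 22) (nat_lit 5) (nat_lit 23) (nat_lit 5) (nat_lit 301) (nat_lit 274) (nat_lit 145))))))))
noncomputable def xc109 : XT := (XT.nd (nat_lit 35490) (nat_lit 0) (nat_lit 1976) (XT.nd (nat_lit 702) (nat_lit 304) (nat_lit 0) (XT.nd (nat_lit 312) (nat_lit 304) (nat_lit 0) (XT.nd (nat_lit 156) (nat_lit 152) (nat_lit 0) (XT.nd (nat_lit 78) (nat_lit 0) (nat_lit 0) (XT.lf (nat_lit 0) (nat_lit 34786194758) (nat_lit 228) (nat_lit 161352300077) (nat_lit 76) (nat_lit 28123566217) (nat_lit 17) (nat_lit 5) (nat_lit 20) (nat_lit 5) (nat_lit 18) (nat_lit 5) (nat_lit 302) (nat_lit 274) (nat_lit 144)) (XT.lf (nat_lit 0) (nat_lit 81509836355) (nat_lit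 228) (nat_lit 48558251410) (nat_lit 76) (nat_lit 108059844688) (nat_lit 17) (nat_lit 5) (nat_lit 20) (nat_lit 5) (nat_lit 18) (nat_lit 5) (nat_lit 303) (nat_lit 274) (nat_lit 143))) (XT.nd (nat_lit 78) (nat_lit 0) (nat_lit 0) (XT.lf (nat_lit 0) (nat_lit 75680775929) (nat_lit 152) (nat_lit 57471672028) (nat_lit 228) (nat_lit 119891572792) (nat_lit 15) (nat_lit 5) (nat_lit 17) (nat_lit 5) (nat_lit 18) (nat_lit 5) (nat_lit 304) (nat_lit 274) (nat_lit 142)) (XT.lf (nat_lit 0) (nat_lit 190112513727) (nat_lit 228) (nat_lit 57859647888) (nat_lit 76) (nat_lit 21121933262) (nat_lit 15) (nat_lit 5) (nat_lit 18) (nat_lit 5) (nat_lit 16) (nat_lit 4) (nat_lit 305) (nat_lit 274) (nat_lit 141)))) (XT.nd (nat_lit 156) (nat_lit 152) (nat_lit 0) (XT.nd (nat_lit 78) (nat_lit 76) (nat_lit 0) (XT.lf (nat_lit 0) (nat_lit 72556696624) (nat_lit 76) (nat_lit 181174126161) (nat_lit 152) (nat_lit 32592281203) (nat_lit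 14) (nat_lit 5) (nat_lit 15) (nat_lit 5) (nat_lit 16) (nat_lit 4) (nat_lit 306) (nat_lit 274) (nat_lit 140)) (XT.lf (nat_lit 0) (nat_lit 17971754515) (nat_lit 152) (nat_lit 89698129765) (nat_lit 76) (nat_lit 197195684701) (nat_lit 13) (nat_lit 5) (nat_lit 15) (nat_lit 5) (nat_lit 14) (nat_lit 5) (nat_lit 307) (nat_lit 274) (nat_lit 139))) (XT.nd (nat_lit 78) (nat_lit 0) (nat_lit 0) (XT.lf (nat_lit 0) (nat_lit 45191803657) (nat_lit 152) (nat_lit 26967665522) (nat_lit 228) (nat_lit 252669226246) (nat_lit 11) (nat_lit 5) (nat_lit 13) (nat_lit 5) (nat_lit 14) (nat_lit 5) (nat_lit 308) (nat_lit 274) (nat_lit 138)) (XT.nd (nat_lit 78) (nat_lit 0) (nat_lit 0) (XT.lf (nat_lit 0) (nat_lit 133209655807) (nat_lit 228) (nat_lit 153200733599) (nat_lit 76) (nat_lit 59852110563) (nat_lit 11) (nat_lit 5) (nat_lit 14) (nat_lit 5) (nat_lit 12) (nat_lit 4) (nat_lit 309) (nat_lit 274) (nat_lit 137)) (XT.lf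 (nat_lit 0) (nat_lit 199598221062) (nat_lit 228) (nat_lit 17105007200) (nat_lit 76) (nat_lit 152685063096) (nat_lit 11) (nat_lit 5) (nat_lit 14) (nat_lit 5) (nat_lit 12) (nat_lit 4) (nat_lit 310) (nat_lit 274) (nat_lit 136)))))) (XT.nd (nat_lit 312) (nat_lit 76) (nat_lit 0) (XT.nd (nat_lit 156) (nat_lit 152) (nat_lit 0) (XT.nd (nat_lit 78) (nat_lit 0) (nat_lit 0) (XT.lf (nat_lit 0) (nat_lit 134172168778) (nat_lit 76) (nat_lit 139220172623) (nat_lit 152) (nat_lit 120867081785) (nat_lit 10) (nat_lit 5) (nat_lit 11) (nat_lit 5) (nat_lit 12) (nat_lit 4) (nat_lit 311) (nat_lit 274) (nat_lit 135)) (XT.lf (nat_lit 0) (nat_lit 298161801428) (nat_lit 76) (nat_lit 55225830840) (nat_lit 152) (nat_lit 67717731819) (nat_lit 10) (nat_lit 5) (nat_lit 11) (nat_lit 5) (nat_lit 12) (nat_lit 4) (nat_lit 312) (nat_lit 274) (nat_lit 134))) (XT.nd (nat_lit 78) (nat_lit 76) (nat_lit 0) (XT.lf (nat_lit 0) (nat_lit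 25431002861) (nat_lit 76) (nat_lit 415302363926) (nat_lit 76) (nat_lit 9318072985) (nat_lit 9) (nat_lit 4) (nat_lit 10) (nat_lit 5) (nat_lit 10) (nat_lit 4) (nat_lit 313) (nat_lit 274) (nat_lit 133)) (XT.lf (nat_lit 0) (nat_lit 55140735538) (nat_lit 152) (nat_lit 292946365772) (nat_lit 76) (nat_lit 133028757158) (nat_lit 8) (nat_lit 5) (nat_lit 10) (nat_lit 5) (nat_lit 9) (nat_lit 4) (nat_lit 314) (nat_lit 274) (nat_lit 132)))) (XT.nd (nat_lit 156) (nat_lit 0) (nat_lit 0) (XT.nd (nat_lit 78) (nat_lit 76) (nat_lit 0) (XT.lf (nat_lit 0) (nat_lit 124433887058) (nat_lit 152) (nat_lit 150895944679) (nat_lit 76) (nat_lit 239327756681) (nat_lit 8) (nat_lit 5) (nat_lit 10) (nat_lit 5) (nat_lit 9) (nat_lit 4) (nat_lit 315) (nat_lit 274) (nat_lit 131)) (XT.lf (nat_lit 0) (nat_lit 2601347231) (nat_lit 76) (nat_lit 196709511276) (nat_lit 152) (nat_lit 351569780269) (nat_lit 7) (nat_lit 5) (nat_lit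 8) (nat_lit 5) (nat_lit 9) (nat_lit 4) (nat_lit 316) (nat_lit 274) (nat_lit 130))) (XT.nd (nat_lit 78) (nat_lit 0) (nat_lit 0) (XT.lf (nat_lit 0) (nat_lit 173766464125) (nat_lit 76) (nat_lit 109039798991) (nat_lit 152) (nat_lit 307063856645) (nat_lit 7) (nat_lit 5) (nat_lit 8) (nat_lit 5) (nat_lit 9) (nat_lit 4) (nat_lit 317) (nat_lit 274) (nat_lit 129)) (XT.nd (nat_lit 34164) (nat_lit 0) (nat_lit 4408) (XT.lf (nat_lit 0) (nat_lit 358624416409) (nat_lit 76) (nat_lit 14356666500) (nat_lit 152) (nat_lit 258997687519) (nat_lit 7) (nat_lit 5) (nat_lit 8) (nat_lit 5) (nat_lit 9) (nat_lit 4) (nat_lit 318) (nat_lit 274) (nat_lit 128)) (XT.lf (nat_lit 0) (nat_lit 3998604310) (nat_lit 0) (nat_lit 3998604310) (nat_lit 684) (nat_lit 22420774814) (nat_lit 65) (nat_lit 5) (nat_lit 65) (nat_lit 3) (nat_lit 74) (nat_lit 3) (nat_lit 275) (nat_lit 275) (nat_lit 170))))))) (XT.nd (nat_lit 702) (nat_lit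 1748) (nat_lit 0) (XT.nd (nat_lit 312) (nat_lit 684) (nat_lit 0) (XT.nd (nat_lit 156) (nat_lit 0) (nat_lit 76) (XT.nd (nat_lit 78) (nat_lit 0) (nat_lit 76) (XT.lf (nat_lit 0) (nat_lit 17188258251) (nat_lit 684) (nat_lit 13257996105) (nat_lit 760) (nat_lit 32795347857) (nat_lit 65) (nat_lit 5) (nat_lit 74) (nat_lit 3) (nat_lit 75) (nat_lit 5) (nat_lit 276) (nat_lit 275) (nat_lit 169)) (XT.lf (nat_lit 0) (nat_lit 19258886418) (nat_lit 684) (nat_lit 35661388576) (nat_lit 760) (nat_lit 10880359410) (nat_lit 66) (nat_lit 5) (nat_lit 75) (nat_lit 5) (nat_lit 76) (nat_lit 5) (nat_lit 277) (nat_lit 275) (nat_lit 168))) (XT.nd (nat_lit 78) (nat_lit 0) (nat_lit 76) (XT.lf (nat_lit 76) (nat_lit 8688287136) (nat_lit 0) (nat_lit 13688323927) (nat_lit 760) (nat_lit 46143715069) (nat_lit 67) (nat_lit 5) (nat_lit 66) (nat_lit 5) (nat_lit 76) (nat_lit 5) (nat_lit 278) (nat_lit 275) (nat_lit 167)) (XT.lf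 (nat_lit 0) (nat_lit 26854515706) (nat_lit 684) (nat_lit 14060410581) (nat_lit 760) (nat_lit 30487137400) (nat_lit 67) (nat_lit 5) (nat_lit 76) (nat_lit 5) (nat_lit 77) (nat_lit 5) (nat_lit 279) (nat_lit 275) (nat_lit 166)))) (XT.nd (nat_lit 156) (nat_lit 912) (nat_lit 0) (XT.nd (nat_lit 78) (nat_lit 0) (nat_lit 0) (XT.lf (nat_lit 0) (nat_lit 32545838927) (nat_lit 684) (nat_lit 38231543157) (nat_lit 760) (nat_lit 3694206801) (nat_lit 68) (nat_lit 5) (nat_lit 77) (nat_lit 5) (nat_lit 78) (nat_lit 5) (nat_lit 280) (nat_lit 275) (nat_lit 165)) (XT.lf (nat_lit 76) (nat_lit 13013307835) (nat_lit 0) (nat_lit 26819313630) (nat_lit 760) (nat_lit 37897054327) (nat_lit 69) (nat_lit 5) (nat_lit 68) (nat_lit 5) (nat_lit 78) (nat_lit 5) (nat_lit 281) (nat_lit 275) (nat_lit 164))) (XT.nd (nat_lit 78) (nat_lit 988) (nat_lit 0) (XT.lf (nat_lit 0) (nat_lit 48699982686) (nat_lit 684) (nat_lit 11827054047)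 (nat_lit 76) (nat_lit 20671497930) (nat_lit 69) (nat_lit 5) (nat_lit 78) (nat_lit 5) (nat_lit 70) (nat_lit 5) (nat_lit 282) (nat_lit 275) (nat_lit 163)) (XT.nd (nat_lit 78) (nat_lit 304) (nat_lit 0) (XT.lf (nat_lit 0) (nat_lit 46322380782) (nat_lit 684) (nat_lit 13128186689) (nat_lit 760) (nat_lit 25435649349) (nat_lit 60) (nat_lit 5) (nat_lit 69) (nat_lit 5) (nat_lit 70) (nat_lit 5) (nat_lit 283) (nat_lit 275) (nat_lit 162)) (XT.lf (nat_lit 0) (nat_lit 20752641533) (nat_lit 304) (nat_lit 51434715547) (nat_lit 380) (nat_lit 16625254415) (nat_lit 56) (nat_lit 5) (nat_lit 60) (nat_lit 5) (nat_lit 61) (nat_lit 5) (nat_lit 284) (nat_lit 275) (nat_lit 161)))))) (XT.nd (nat_lit 390) (nat_lit 760) (nat_lit 0) (XT.nd (nat_lit 156) (nat_lit 608) (nat_lit 0) (XT.nd (nat_lit 78) (nat_lit 380) (nat_lit 0) (XT.lf (nat_lit 0) (nat_lit 85961487129) (nat_lit 304) (nat_lit 869735834) (nat_lit 380) (nat_lit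 6177493537) (nat_lit 56) (nat_lit 5) (nat_lit 60) (nat_lit 5) (nat_lit 61) (nat_lit 5) (nat_lit 285) (nat_lit 275) (nat_lit 160)) (XT.lf (nat_lit 0) (nat_lit 6745036318) (nat_lit 380) (nat_lit 37636541323) (nat_lit 76) (nat_lit 53064832279) (nat_lit 51) (nat_lit 5) (nat_lit 56) (nat_lit 5) (nat_lit 52) (nat_lit 5) (nat_lit 286) (nat_lit 275) (nat_lit 159))) (XT.nd (nat_lit 78) (nat_lit 304) (nat_lit 0) (XT.lf (nat_lit 0) (nat_lit 21261350503) (nat_lit 380) (nat_lit 71454706210) (nat_lit 76) (nat_lit 9479182438) (nat_lit 47) (nat_lit 5) (nat_lit 52) (nat_lit 5) (nat_lit 48) (nat_lit 5) (nat_lit 287) (nat_lit 275) (nat_lit 158)) (XT.nd (nat_lit 78) (nat_lit 304) (nat_lit 0) (XT.lf (nat_lit 0) (nat_lit 38352487996) (nat_lit 380) (nat_lit 2119865096) (nat_lit 76) (nat_lit 66780949812) (nat_lit 47) (nat_lit 5) (nat_lit 52) (nat_lit 5) (nat_lit 48) (nat_lit 5) (nat_lit 288) (nat_lit 275) (nat_lit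 157)) (XT.lf (nat_lit 0) (nat_lit 58251647288) (nat_lit 380) (nat_lit 37759343491) (nat_lit 76) (nat_lit 16632988225) (nat_lit 43) (nat_lit 5) (nat_lit 48) (nat_lit 5) (nat_lit 44) (nat_lit 5) (nat_lit 289) (nat_lit 275) (nat_lit 156))))) (XT.nd (nat_lit 156) (nat_lit 304) (nat_lit 0) (XT.nd (nat_lit 78) (nat_lit 228) (nat_lit 0) (XT.lf (nat_lit 0) (nat_lit 40265609338) (nat_lit 228) (nat_lit 40824719561) (nat_lit 304) (nat_lit 37308204323) (nat_lit 40) (nat_lit 5) (nat_lit 43) (nat_lit 5) (nat_lit 44) (nat_lit 5) (nat_lit 290) (nat_lit 275) (nat_lit 155)) (XT.lf (nat_lit 0) (nat_lit 1028110832) (nat_lit 228) (nat_lit 105704741277) (nat_lit 304) (nat_lit 17831765562) (nat_lit 37) (nat_lit 5) (nat_lit 40) (nat_lit 5) (nat_lit 41) (nat_lit 5) (nat_lit 291) (nat_lit 275) (nat_lit 154))) (XT.nd (nat_lit 78) (nat_lit 228) (nat_lit 0) (XT.lf (nat_lit 0) (nat_lit 5171048071) (nat_lit 304) (nat_lit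 42605711538) (nat_lit 76) (nat_lit 83341193458) (nat_lit 36) (nat_lit 5) (nat_lit 40) (nat_lit 5) (nat_lit 37) (nat_lit 5) (nat_lit 292) (nat_lit 275) (nat_lit 153)) (XT.nd (nat_lit 78) (nat_lit 0) (nat_lit 0) (XT.lf (nat_lit 0) (nat_lit 30362062703) (nat_lit 304) (nat_lit 92423166830) (nat_lit 76) (nat_lit 15347076505) (nat_lit 33) (nat_lit 5) (nat_lit 37) (nat_lit 5) (nat_lit 34) (nat_lit 5) (nat_lit 293) (nat_lit 275) (nat_lit 152)) (XT.lf (nat_lit 0) (nat_lit 59127459902) (nat_lit 304) (nat_lit 3878964942) (nat_lit 76) (nat_lit 82623429789) (nat_lit 33) (nat_lit 5) (nat_lit 37) (nat_lit 5) (nat_lit 34) (nat_lit 5) (nat_lit 294) (nat_lit 275) (nat_lit 151))))))))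
noncomputable def xc110 : XT := (XT.nd (nat_lit 1404) (nat_lit 228) (nat_lit 0) (XT.nd (nat_lit 702) (nat_lit 532) (nat_lit 0) (XT.nd (nat_lit 312) (nat_lit 532) (nat_lit 0) (XT.nd (nat_lit 156) (nat_lit 304) (nat_lit 0) (XT.nd (nat_lit 78) (nat_lit 152) (nat_lit 0) (XT.lf (nat_lit 0) (nat_lit 91721648245) (nat_lit 304) (nat_lit 58920445781) (nat_lit 76) (nat_lit 3008737394) (nat_lit 30) (nat_lit 5) (nat_lit 34) (nat_lit 5) (nat_lit 31) (nat_lit 5) (nat_lit 295) (nat_lit 275) (nat_lit 150)) (XT.lf (nat_lit 0) (nat_lit 39248563217) (nat_lit 152) (nat_lit 89417935478) (nat_lit 228) (nat_lit 33559833409) (nat_lit 28) (nat_lit 5) (nat_lit 30) (nat_lit 5) (nat_lit 31) (nat_lit 5) (nat_lit 296) (nat_lit 275) (nat_lit 149))) (XT.nd (nat_lit 78) (nat_lit 304) (nat_lit 0) (XT.lf (nat_lit 0) (nat_lit 147374149510) (nat_lit 152) (nat_lit 22218449736) (nat_lit 228) (nat_lit 1843992443) (nat_lit 28)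 (nat_lit 5) (nat_lit 30) (nat_lit 5) (nat_lit 31) (nat_lit 5) (nat_lit 297) (nat_lit 275) (nat_lit 148)) (XT.lf (nat_lit 0) (nat_lit 33514182665) (nat_lit 304) (nat_lit 97129274400) (nat_lit 76) (nat_lit 50607798788) (nat_lit 24) (nat_lit 5) (nat_lit 28) (nat_lit 5) (nat_lit 25) (nat_lit 5) (nat_lit 298) (nat_lit 275) (nat_lit 147)))) (XT.nd (nat_lit 156) (nat_lit 380) (nat_lit 0) (XT.nd (nat_lit 78) (nat_lit 0) (nat_lit 0) (XT.lf (nat_lit 0) (nat_lit 9893415400) (nat_lit 152) (nat_lit 62698362343) (nat_lit 228) (nat_lit 119210037009) (nat_lit 22) (nat_lit 5) (nat_lit 24) (nat_lit 5) (nat_lit 25) (nat_lit 5) (nat_lit 299) (nat_lit 275) (nat_lit 146)) (XT.lf (nat_lit 0) (nat_lit 116681431370) (nat_lit 228) (nat_lit 74360864333) (nat_lit 76) (nat_lit 12059831584) (nat_lit 22) (nat_lit 5) (nat_lit 25) (nat_lit 5) (nat_lit 23) (nat_lit 5) (nat_lit 300) (nat_lit 275) (nat_lit 145))) (XT.nd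 (nat_lit 78) (nat_lit 228) (nat_lit 0) (XT.lf (nat_lit 0) (nat_lit 42079229296) (nat_lit 152) (nat_lit 123932659603) (nat_lit 228) (nat_lit 49208895711) (nat_lit 20) (nat_lit 5) (nat_lit 22) (nat_lit 5) (nat_lit 23) (nat_lit 5) (nat_lit 301) (nat_lit 275) (nat_lit 144)) (XT.nd (nat_lit 78) (nat_lit 228) (nat_lit 0) (XT.lf (nat_lit 0) (nat_lit 170489135717) (nat_lit 152) (nat_lit 50094442036) (nat_lit 228) (nat_lit 7660618293) (nat_lit 20) (nat_lit 5) (nat_lit 22) (nat_lit 5) (nat_lit 23) (nat_lit 5) (nat_lit 302) (nat_lit 275) (nat_lit 143)) (XT.lf (nat_lit 0) (nat_lit 37579046682) (nat_lit 228) (nat_lit 174244824015) (nat_lit 76) (nat_lit 30378635685) (nat_lit 17) (nat_lit 5) (nat_lit 20) (nat_lit 5) (nat_lit 18) (nat_lit 5) (nat_lit 303) (nat_lit 275) (nat_lit 142)))))) (XT.nd (nat_lit 312) (nat_lit 304) (nat_lit 0) (XT.nd (nat_lit 156) (nat_lit 76) (nat_lit 0) (XT.nd (nat_lit 78) (nat_lit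 152) (nat_lit 0) (XT.lf (nat_lit 0) (nat_lit 88039842100) (nat_lit 228) (nat_lit 52428411460) (nat_lit 76) (nat_lit 116709432422) (nat_lit 17) (nat_lit 5) (nat_lit 20) (nat_lit 5) (nat_lit 18) (nat_lit 5) (nat_lit 304) (nat_lit 275) (nat_lit 141)) (XT.lf (nat_lit 0) (nat_lit 81749107911) (nat_lit 152) (nat_lit 62064288390) (nat_lit 228) (nat_lit 129473689846) (nat_lit 15) (nat_lit 5) (nat_lit 17) (nat_lit 5) (nat_lit 18) (nat_lit 5) (nat_lit 305) (nat_lit 275) (nat_lit 140))) (XT.nd (nat_lit 78) (nat_lit 76) (nat_lit 0) (XT.lf (nat_lit 0) (nat_lit 205329692978) (nat_lit 228) (nat_lit 62475228726) (nat_lit 76) (nat_lit 22816274600) (nat_lit 15) (nat_lit 5) (nat_lit 18) (nat_lit 5) (nat_lit 16) (nat_lit 4) (nat_lit 306) (nat_lit 275) (nat_lit 139)) (XT.lf (nat_lit 0) (nat_lit 78373850082) (nat_lit 76) (nat_lit 195663207887) (nat_lit 152) (nat_lit 35191489893) (nat_lit 14) (nat_lit 5) (nat_lit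 15) (nat_lit 5) (nat_lit 16) (nat_lit 4) (nat_lit 307) (nat_lit 275) (nat_lit 138)))) (XT.nd (nat_lit 156) (nat_lit 76) (nat_lit 0) (XT.nd (nat_lit 78) (nat_lit 152) (nat_lit 0) (XT.lf (nat_lit 0) (nat_lit 19416820982) (nat_lit 152) (nat_lit 96862040740) (nat_lit 76) (nat_lit 212975572382) (nat_lit 13) (nat_lit 5) (nat_lit 15) (nat_lit 5) (nat_lit 14) (nat_lit 5) (nat_lit 308) (nat_lit 275) (nat_lit 137)) (XT.lf (nat_lit 0) (nat_lit 48818568483) (nat_lit 152) (nat_lit 29120619968) (nat_lit 228) (nat_lit 272875441476) (nat_lit 11) (nat_lit 5) (nat_lit 13) (nat_lit 5) (nat_lit 14) (nat_lit 5) (nat_lit 309) (nat_lit 275) (nat_lit 136))) (XT.nd (nat_lit 78) (nat_lit 76) (nat_lit 0) (XT.lf (nat_lit 0) (nat_lit 143872938782) (nat_lit 228) (nat_lit 165445947795) (nat_lit 76) (nat_lit 64644275784) (nat_lit 11) (nat_lit 5) (nat_lit 14) (nat_lit 5) (nat_lit 12) (nat_lit 4) (nat_lit 310) (nat_lit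 275) (nat_lit 135)) (XT.nd (nat_lit 78) (nat_lit 76) (nat_lit 0) (XT.lf (nat_lit 0) (nat_lit 215572106998) (nat_lit 228) (nat_lit 18463366580) (nat_lit 76) (nat_lit 164903568492) (nat_lit 11) (nat_lit 5) (nat_lit 14) (nat_lit 5) (nat_lit 12) (nat_lit 4) (nat_lit 311) (nat_lit 275) (nat_lit 134)) (XT.lf (nat_lit 0) (nat_lit 144915547099) (nat_lit 76) (nat_lit 150353913287) (nat_lit 152) (nat_lit 130530419716) (nat_lit 10) (nat_lit 5) (nat_lit 11) (nat_lit 5) (nat_lit 12) (nat_lit 4) (nat_lit 312) (nat_lit 275) (nat_lit 133))))))) (XT.nd (nat_lit 34866) (nat_lit 0) (nat_lit 3040) (XT.nd (nat_lit 312) (nat_lit 76) (nat_lit 0) (XT.nd (nat_lit 156) (nat_lit 76) (nat_lit 0) (XT.nd (nat_lit 78) (nat_lit 76) (nat_lit 0) (XT.lf (nat_lit 0) (nat_lit 322023638893) (nat_lit 76) (nat_lit 59640311060) (nat_lit 152) (nat_lit 73129568317) (nat_lit 10) (nat_lit 5) (nat_lit 11) (nat_lit 5) (nat_lit 12)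 (nat_lit 4) (nat_lit 313) (nat_lit 275) (nat_lit 132)) (XT.lf (nat_lit 0) (nat_lit 27474199384) (nat_lit 76) (nat_lit 448522938661) (nat_lit 76) (nat_lit 10058152935) (nat_lit 9) (nat_lit 4) (nat_lit 10) (nat_lit 5) (nat_lit 10) (nat_lit 4) (nat_lit 314) (nat_lit 275) (nat_lit 131))) (XT.nd (nat_lit 78) (nat_lit 0) (nat_lit 0) (XT.lf (nat_lit 0) (nat_lit 59556803776) (nat_lit 152) (nat_lit 316373837542) (nat_lit 76) (nat_lit 143674237528) (nat_lit 8) (nat_lit 5) (nat_lit 10) (nat_lit 5) (nat_lit 9) (nat_lit 4) (nat_lit 315) (nat_lit 275) (nat_lit 130)) (XT.lf (nat_lit 0) (nat_lit 134393051167) (nat_lit 152) (nat_lit 162959992946) (nat_lit 76) (nat_lit 258476921472) (nat_lit 8) (nat_lit 5) (nat_lit 10) (nat_lit 5) (nat_lit 9) (nat_lit 4) (nat_lit 316) (nat_lit 275) (nat_lit 129)))) (XT.nd (nat_lit 34320) (nat_lit 0) (nat_lit 4408) (XT.nd (nat_lit 78) (nat_lit 0) (nat_lit 0) (XT.lf (nat_lit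 0) (nat_lit 2816750843) (nat_lit 76) (nat_lit 212443213534) (nat_lit 152) (nat_lit 379690906929) (nat_lit 7) (nat_lit 5) (nat_lit 8) (nat_lit 5) (nat_lit 9) (nat_lit 4) (nat_lit 317) (nat_lit 275) (nat_lit 128)) (XT.lf (nat_lit 0) (nat_lit 187674536656) (nat_lit 76) (nat_lit 117760150833) (nat_lit 152) (nat_lit 331624839472) (nat_lit 7) (nat_lit 5) (nat_lit 8) (nat_lit 5) (nat_lit 9) (nat_lit 4) (nat_lit 318) (nat_lit 275) (nat_lit 127))) (XT.nd (nat_lit 78) (nat_lit 0) (nat_lit 0) (XT.lf (nat_lit 0) (nat_lit 4330744289) (nat_lit 0) (nat_lit 4330744289) (nat_lit 684) (nat_lit 24188610657) (nat_lit 65) (nat_lit 5) (nat_lit 65) (nat_lit 3) (nat_lit 74) (nat_lit 3) (nat_lit 276) (nat_lit 276) (nat_lit 168)) (XT.nd (nat_lit 78) (nat_lit 0) (nat_lit 76) (XT.lf (nat_lit 0) (nat_lit 18608341108) (nat_lit 684) (nat_lit 14293143589) (nat_lit 760) (nat_lit 35397013638) (nat_lit 65) (nat_lit 5)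 (nat_lit 74) (nat_lit 3) (nat_lit 75) (nat_lit 5) (nat_lit 277) (nat_lit 276) (nat_lit 167)) (XT.lf (nat_lit 0) (nat_lit 20841389168) (nat_lit 684) (nat_lit 38487368289) (nat_lit 760) (nat_lit 11733670565) (nat_lit 66) (nat_lit 5) (nat_lit 75) (nat_lit 5) (nat_lit 76) (nat_lit 5) (nat_lit 278) (nat_lit 276) (nat_lit 166)))))) (XT.nd (nat_lit 390) (nat_lit 1444) (nat_lit 0) (XT.nd (nat_lit 156) (nat_lit 0) (nat_lit 152) (XT.nd (nat_lit 78) (nat_lit 0) (nat_lit 76) (XT.lf (nat_lit 76) (nat_lit 9409111075) (nat_lit 0) (nat_lit 14796727219) (nat_lit 760) (nat_lit 49794003880) (nat_lit 67) (nat_lit 5) (nat_lit 66) (nat_lit 5) (nat_lit 76) (nat_lit 5) (nat_lit 279) (nat_lit 276) (nat_lit 165)) (XT.lf (nat_lit 0) (nat_lit 29038886326) (nat_lit 684) (nat_lit 15159244121) (nat_lit 760) (nat_lit 32914154227) (nat_lit 67) (nat_lit 5) (nat_lit 76) (nat_lit 5) (nat_lit 77) (nat_lit 5) (nat_lit 280)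 (nat_lit 276) (nat_lit 164))) (XT.nd (nat_lit 78) (nat_lit 0) (nat_lit 0) (XT.lf (nat_lit 0) (nat_lit 35183097983) (nat_lit 684) (nat_lit 41263239344) (nat_lit 760) (nat_lit 3981166073) (nat_lit 68) (nat_lit 5) (nat_lit 77) (nat_lit 5) (nat_lit 78) (nat_lit 5) (nat_lit 281) (nat_lit 276) (nat_lit 163)) (XT.nd (nat_lit 78) (nat_lit 0) (nat_lit 76) (XT.lf (nat_lit 76) (nat_lit 14080033847) (nat_lit 0) (nat_lit 28970701630) (nat_lit 760) (nat_lit 40895616015) (nat_lit 69) (nat_lit 5) (nat_lit 68) (nat_lit 5) (nat_lit 78) (nat_lit 5) (nat_lit 282) (nat_lit 276) (nat_lit 162)) (XT.lf (nat_lit 0) (nat_lit 52625067477) (nat_lit 684) (nat_lit 12747800803) (nat_lit 76) (nat_lit 22319980820) (nat_lit 69) (nat_lit 5) (nat_lit 78) (nat_lit 5) (nat_lit 70) (nat_lit 5) (nat_lit 283) (nat_lit 276) (nat_lit 161))))) (XT.nd (nat_lit 156) (nat_lit 684) (nat_lit 0) (XT.nd (nat_lit 78) (nat_lit 304) (nat_lit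 0) (XT.lf (nat_lit 0) (nat_lit 50052484196) (nat_lit 684) (nat_lit 14181439912) (nat_lit 760) (nat_lit 27441718917) (nat_lit 60) (nat_lit 5) (nat_lit 69) (nat_lit 5) (nat_lit 70) (nat_lit 5) (nat_lit 284) (nat_lit 276) (nat_lit 160)) (XT.lf (nat_lit 0) (nat_lit 22437561181) (nat_lit 304) (nat_lit 55550415072) (nat_lit 380) (nat_lit 17928264873) (nat_lit 56) (nat_lit 5) (nat_lit 60) (nat_lit 5) (nat_lit 61) (nat_lit 5) (nat_lit 285) (nat_lit 276) (nat_lit 159))) (XT.nd (nat_lit 78) (nat_lit 684) (nat_lit 0) (XT.lf (nat_lit 0) (nat_lit 92861284178) (nat_lit 304) (nat_lit 940168665) (nat_lit 380) (nat_lit 6646683858) (nat_lit 56) (nat_lit 5) (nat_lit 60) (nat_lit 5) (nat_lit 61) (nat_lit 5) (nat_lit 286) (nat_lit 276) (nat_lit 158)) (XT.nd (nat_lit 78) (nat_lit 304) (nat_lit 0) (XT.lf (nat_lit 0) (nat_lit 7307409008) (nat_lit 380) (nat_lit 40623513739) (nat_lit 76) (nat_lit 57309981656)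 (nat_lit 51) (nat_lit 5) (nat_lit 56) (nat_lit 5) (nat_lit 52) (nat_lit 5) (nat_lit 287) (nat_lit 276) (nat_lit 157)) (XT.lf (nat_lit 0) (nat_lit 22983722304) (nat_lit 380) (nat_lit 77147049682) (nat_lit 76) (nat_lit 10238939200) (nat_lit 47) (nat_lit 5) (nat_lit 52) (nat_lit 5) (nat_lit 48) (nat_lit 5) (nat_lit 288) (nat_lit 276) (nat_lit 156))))))))
noncomputable def xc111 : XT := (XT.nd (nat_lit 1482) (nat_lit 532) (nat_lit 0) (XT.nd (nat_lit 702) (nat_lit 988) (nat_lit 0) (XT.nd (nat_lit 312) (nat_lit 684) (nat_lit 0) (XT.nd (nat_lit 156) (nat_lit 456) (nat_lit 0) (XT.nd (nat_lit 78) (nat_lit 304) (nat_lit 0) (XT.lf (nat_lit 0) (nat_lit 41440560889) (nat_lit 380) (nat_lit 2267201502) (nat_lit 76) (nat_lit 72124742618) (nat_lit 47) (nat_lit 5) (nat_lit 52) (nat_lit 5) (nat_lit 48) (nat_lit 5) (nat_lit 289) (nat_lit 276) (nat_lit 155)) (XT.lf (nat_lit 0) (nat_lit 62930552955) (nat_lit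 380) (nat_lit 40757845021) (nat_lit 76) (nat_lit 17966097289) (nat_lit 43) (nat_lit 5) (nat_lit 48) (nat_lit 5) (nat_lit 44) (nat_lit 5) (nat_lit 290) (nat_lit 276) (nat_lit 154))) (XT.nd (nat_lit 78) (nat_lit 228) (nat_lit 0) (XT.lf (nat_lit 0) (nat_lit 43508137253) (nat_lit 228) (nat_lit 44087133412) (nat_lit 304) (nat_lit 40274200772) (nat_lit 40) (nat_lit 5) (nat_lit 43) (nat_lit 5) (nat_lit 44) (nat_lit 5) (nat_lit 291) (nat_lit 276) (nat_lit 153)) (XT.lf (nat_lit 0) (nat_lit 1131564278) (nat_lit 228) (nat_lit 114156701779) (nat_lit 304) (nat_lit 19240627414) (nat_lit 37) (nat_lit 5) (nat_lit 40) (nat_lit 5) (nat_lit 41) (nat_lit 5) (nat_lit 292) (nat_lit 276) (nat_lit 152)))) (XT.nd (nat_lit 156) (nat_lit 380) (nat_lit 0) (XT.nd (nat_lit 78) (nat_lit 228) (nat_lit 0) (XT.lf (nat_lit 0) (nat_lit 5600577789) (nat_lit 304) (nat_lit 45993962749) (nat_lit 76) (nat_lit 90012008574) (nat_lit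 36) (nat_lit 5) (nat_lit 40) (nat_lit 5) (nat_lit 37) (nat_lit 5) (nat_lit 293) (nat_lit 276) (nat_lit 151)) (XT.lf (nat_lit 0) (nat_lit 32806069555) (nat_lit 304) (nat_lit 99796967504) (nat_lit 76) (nat_lit 16579057013) (nat_lit 33) (nat_lit 5) (nat_lit 37) (nat_lit 5) (nat_lit 34) (nat_lit 5) (nat_lit 294) (nat_lit 276) (nat_lit 150))) (XT.nd (nat_lit 78) (nat_lit 380) (nat_lit 0) (XT.lf (nat_lit 0) (nat_lit 63871584320) (nat_lit 304) (nat_lit 4170714848) (nat_lit 76) (nat_lit 89237206383) (nat_lit 33) (nat_lit 5) (nat_lit 37) (nat_lit 5) (nat_lit 34) (nat_lit 5) (nat_lit 295) (nat_lit 276) (nat_lit 149)) (XT.nd (nat_lit 78) (nat_lit 152) (nat_lit 0) (XT.lf (nat_lit 0) (nat_lit 99072624962) (nat_lit 304) (nat_lit 63615695992) (nat_lit 76) (nat_lit 3253876707) (nat_lit 30) (nat_lit 5) (nat_lit 34) (nat_lit 5) (nat_lit 31) (nat_lit 5) (nat_lit 296) (nat_lit 276) (nat_lit 148)) (XT.lf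 (nat_lit 0) (nat_lit 42406034716) (nat_lit 152) (nat_lit 96566322205) (nat_lit 228) (nat_lit 36231419622) (nat_lit 28) (nat_lit 5) (nat_lit 30) (nat_lit 5) (nat_lit 31) (nat_lit 5) (nat_lit 297) (nat_lit 276) (nat_lit 147)))))) (XT.nd (nat_lit 390) (nat_lit 380) (nat_lit 0) (XT.nd (nat_lit 156) (nat_lit 304) (nat_lit 0) (XT.nd (nat_lit 78) (nat_lit 304) (nat_lit 0) (XT.lf (nat_lit 0) (nat_lit 159180365213) (nat_lit 152) (nat_lit 23991251538) (nat_lit 228) (nat_lit 1979289191) (nat_lit 28) (nat_lit 5) (nat_lit 30) (nat_lit 5) (nat_lit 31) (nat_lit 5) (nat_lit 298) (nat_lit 276) (nat_lit 146)) (XT.lf (nat_lit 0) (nat_lit 36206596372) (nat_lit 304) (nat_lit 104883121960) (nat_lit 76) (nat_lit 54661045285) (nat_lit 24) (nat_lit 5) (nat_lit 28) (nat_lit 5) (nat_lit 25) (nat_lit 5) (nat_lit 299) (nat_lit 276) (nat_lit 145))) (XT.nd (nat_lit 78) (nat_lit 152) (nat_lit 0) (XT.lf (nat_lit 0) (nat_lit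 10700666198) (nat_lit 152) (nat_lit 67709143701) (nat_lit 228) (nat_lit 128735588914) (nat_lit 22) (nat_lit 5) (nat_lit 24) (nat_lit 5) (nat_lit 25) (nat_lit 5) (nat_lit 300) (nat_lit 276) (nat_lit 144)) (XT.nd (nat_lit 78) (nat_lit 152) (nat_lit 0) (XT.lf (nat_lit 0) (nat_lit 126025917517) (nat_lit 228) (nat_lit 80294678617) (nat_lit 76) (nat_lit 13029178105) (nat_lit 22) (nat_lit 5) (nat_lit 25) (nat_lit 5) (nat_lit 23) (nat_lit 5) (nat_lit 301) (nat_lit 276) (nat_lit 143)) (XT.lf (nat_lit 0) (nat_lit 45459968237) (nat_lit 152) (nat_lit 133842329605) (nat_lit 228) (nat_lit 53135653821) (nat_lit 20) (nat_lit 5) (nat_lit 22) (nat_lit 5) (nat_lit 23) (nat_lit 5) (nat_lit 302) (nat_lit 276) (nat_lit 142))))) (XT.nd (nat_lit 156) (nat_lit 152) (nat_lit 0) (XT.nd (nat_lit 78) (nat_lit 228) (nat_lit 0) (XT.lf (nat_lit 0) (nat_lit 184141600460) (nat_lit 152) (nat_lit 54097420764) (nat_lit 228)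 (nat_lit 8264251509) (nat_lit 20) (nat_lit 5) (nat_lit 22) (nat_lit 5) (nat_lit 23) (nat_lit 5) (nat_lit 303) (nat_lit 276) (nat_lit 141)) (XT.lf (nat_lit 0) (nat_lit 40593906376) (nat_lit 228) (nat_lit 188170983951) (nat_lit 76) (nat_lit 32813371131) (nat_lit 17) (nat_lit 5) (nat_lit 20) (nat_lit 5) (nat_lit 18) (nat_lit 5) (nat_lit 304) (nat_lit 276) (nat_lit 140))) (XT.nd (nat_lit 78) (nat_lit 152) (nat_lit 0) (XT.lf (nat_lit 0) (nat_lit 95090933134) (nat_lit 228) (nat_lit 56610252910) (nat_lit 76) (nat_lit 126050302378) (nat_lit 17) (nat_lit 5) (nat_lit 20) (nat_lit 5) (nat_lit 18) (nat_lit 5) (nat_lit 305) (nat_lit 276) (nat_lit 139)) (XT.nd (nat_lit 78) (nat_lit 0) (nat_lit 0) (XT.lf (nat_lit 0) (nat_lit 88300927755) (nat_lit 152) (nat_lit 67025044115) (nat_lit 228) (nat_lit 139823689999) (nat_lit 15) (nat_lit 5) (nat_lit 17) (nat_lit 5) (nat_lit 18) (nat_lit 5) (nat_lit 306) (nat_lit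 276) (nat_lit 138)) (XT.lf (nat_lit 0) (nat_lit 221763079863) (nat_lit 228) (nat_lit 67461937874) (nat_lit 76) (nat_lit 24645508905) (nat_lit 15) (nat_lit 5) (nat_lit 18) (nat_lit 5) (nat_lit 16) (nat_lit 4) (nat_lit 307) (nat_lit 276) (nat_lit 137))))))) (XT.nd (nat_lit 702) (nat_lit 0) (nat_lit 0) (XT.nd (nat_lit 312) (nat_lit 228) (nat_lit 0) (XT.nd (nat_lit 156) (nat_lit 152) (nat_lit 0) (XT.nd (nat_lit 78) (nat_lit 76) (nat_lit 0) (XT.lf (nat_lit 0) (nat_lit 84654575757) (nat_lit 76) (nat_lit 211312107825) (nat_lit 152) (nat_lit 37999801362) (nat_lit 14) (nat_lit 5) (nat_lit 15) (nat_lit 5) (nat_lit 16) (nat_lit 4) (nat_lit 308) (nat_lit 276) (nat_lit 136)) (XT.lf (nat_lit 0) (nat_lit 20976447616) (nat_lit 152) (nat_lit 104600767884) (nat_lit 76) (nat_lit 230017247207) (nat_lit 13) (nat_lit 5) (nat_lit 15) (nat_lit 5) (nat_lit 14) (nat_lit 5) (nat_lit 309) (nat_lit 276) (nat_lit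 135))) (XT.nd (nat_lit 78) (nat_lit 0) (nat_lit 0) (XT.lf (nat_lit 0) (nat_lit 52733845228) (nat_lit 152) (nat_lit 31446446867) (nat_lit 228) (nat_lit 294699198613) (nat_lit 11) (nat_lit 5) (nat_lit 13) (nat_lit 5) (nat_lit 14) (nat_lit 5) (nat_lit 310) (nat_lit 276) (nat_lit 134)) (XT.lf (nat_lit 0) (nat_lit 155388355599) (nat_lit 228) (nat_lit 178672326214) (nat_lit 76) (nat_lit 69819244095) (nat_lit 11) (nat_lit 5) (nat_lit 14) (nat_lit 5) (nat_lit 12) (nat_lit 4) (nat_lit 311) (nat_lit 276) (nat_lit 133)))) (XT.nd (nat_lit 156) (nat_lit 152) (nat_lit 0) (XT.nd (nat_lit 78) (nat_lit 76) (nat_lit 0) (XT.lf (nat_lit 0) (nat_lit 232823043811) (nat_lit 228) (nat_lit 19931827199) (nat_lit 76) (nat_lit 178099026424) (nat_lit 11) (nat_lit 5) (nat_lit 14) (nat_lit 5) (nat_lit 12) (nat_lit 4) (nat_lit 312) (nat_lit 276) (nat_lit 132)) (XT.lf (nat_lit 0) (nat_lit 156517025450) (nat_lit 76) (nat_lit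 162378905751) (nat_lit 152) (nat_lit 140967684730) (nat_lit 10) (nat_lit 5) (nat_lit 11) (nat_lit 5) (nat_lit 12) (nat_lit 4) (nat_lit 313) (nat_lit 276) (nat_lit 131))) (XT.nd (nat_lit 78) (nat_lit 152) (nat_lit 0) (XT.lf (nat_lit 0) (nat_lit 347793154618) (nat_lit 76) (nat_lit 64408461317) (nat_lit 152) (nat_lit 78975148076) (nat_lit 10) (nat_lit 5) (nat_lit 11) (nat_lit 5) (nat_lit 12) (nat_lit 4) (nat_lit 314) (nat_lit 276) (nat_lit 130)) (XT.nd (nat_lit 78) (nat_lit 76) (nat_lit 0) (XT.lf (nat_lit 0) (nat_lit 29679608151) (nat_lit 76) (nat_lit 484401675007) (nat_lit 76) (nat_lit 10858204785) (nat_lit 9) (nat_lit 4) (nat_lit 10) (nat_lit 5) (nat_lit 10) (nat_lit 4) (nat_lit 315) (nat_lit 276) (nat_lit 129)) (XT.lf (nat_lit 0) (nat_lit 64325471360) (nat_lit 152) (nat_lit 341676682224) (nat_lit 76) (nat_lit 155170902694) (nat_lit 8) (nat_lit 5) (nat_lit 10) (nat_lit 5) (nat_lit 9) (nat_lit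 4) (nat_lit 316) (nat_lit 276) (nat_lit 128)))))) (XT.nd (nat_lit 34710) (nat_lit 0) (nat_lit 3952) (XT.nd (nat_lit 34476) (nat_lit 0) (nat_lit 4332) (XT.nd (nat_lit 34398) (nat_lit 0) (nat_lit 4332) (XT.lf (nat_lit 0) (nat_lit 145148313113) (nat_lit 152) (nat_lit 175990253195) (nat_lit 76) (nat_lit 279157599416) (nat_lit 8) (nat_lit 5) (nat_lit 10) (nat_lit 5) (nat_lit 9) (nat_lit 4) (nat_lit 317) (nat_lit 276) (nat_lit 127)) (XT.lf (nat_lit 0) (nat_lit 4687707634) (nat_lit 0) (nat_lit 4687707634) (nat_lit 684) (nat_lit 26101557755) (nat_lit 65) (nat_lit 5) (nat_lit 65) (nat_lit 3) (nat_lit 74) (nat_lit 3) (nat_lit 277) (nat_lit 277) (nat_lit 166))) (XT.nd (nat_lit 78) (nat_lit 0) (nat_lit 76) (XT.lf (nat_lit 0) (nat_lit 20135607673) (nat_lit 684) (nat_lit 15414739619) (nat_lit 760) (nat_lit 38209945813) (nat_lit 65) (nat_lit 5) (nat_lit 74) (nat_lit 3) (nat_lit 75) (nat_lit 5) (nat_lit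 278) (nat_lit 277) (nat_lit 165)) (XT.nd (nat_lit 78) (nat_lit 0) (nat_lit 0) (XT.lf (nat_lit 0) (nat_lit 22544530065) (nat_lit 684) (nat_lit 41543268440) (nat_lit 760) (nat_lit 12657688630) (nat_lit 66) (nat_lit 5) (nat_lit 75) (nat_lit 5) (nat_lit 76) (nat_lit 5) (nat_lit 279) (nat_lit 277) (nat_lit 164)) (XT.lf (nat_lit 76) (nat_lit 10183925840) (nat_lit 0) (nat_lit 15991900048) (nat_lit 760) (nat_lit 53742194634) (nat_lit 67) (nat_lit 5) (nat_lit 66) (nat_lit 5) (nat_lit 76) (nat_lit 5) (nat_lit 280) (nat_lit 277) (nat_lit 163))))) (XT.nd (nat_lit 156) (nat_lit 532) (nat_lit 0) (XT.nd (nat_lit 78) (nat_lit 0) (nat_lit 76) (XT.lf (nat_lit 0) (nat_lit 31392869457) (nat_lit 684) (nat_lit 16349693436) (nat_lit 760) (nat_lit 35537037795) (nat_lit 67) (nat_lit 5) (nat_lit 76) (nat_lit 5) (nat_lit 77) (nat_lit 5) (nat_lit 281) (nat_lit 277) (nat_lit 162)) (XT.lf (nat_lit 0) (nat_lit 38026545496)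 (nat_lit 684) (nat_lit 44541298435) (nat_lit 760) (nat_lit 4292305730) (nat_lit 68) (nat_lit 5) (nat_lit 77) (nat_lit 5) (nat_lit 78) (nat_lit 5) (nat_lit 282) (nat_lit 277) (nat_lit 161))) (XT.nd (nat_lit 78) (nat_lit 608) (nat_lit 0) (XT.lf (nat_lit 76) (nat_lit 15228437057) (nat_lit 0) (nat_lit 31293367113) (nat_lit 760) (nat_lit 44138799368) (nat_lit 69) (nat_lit 5) (nat_lit 68) (nat_lit 5) (nat_lit 78) (nat_lit 5) (nat_lit 283) (nat_lit 277) (nat_lit 160)) (XT.nd (nat_lit 78) (nat_lit 684) (nat_lit 0) (XT.lf (nat_lit 0) (nat_lit 56860009584) (nat_lit 684) (nat_lit 13745833400) (nat_lit 76) (nat_lit 24101089449) (nat_lit 69) (nat_lit 5) (nat_lit 78) (nat_lit 5) (nat_lit 70) (nat_lit 5) (nat_lit 284) (nat_lit 277) (nat_lit 159)) (XT.lf (nat_lit 0) (nat_lit 54077527368) (nat_lit 684) (nat_lit 15318525654) (nat_lit 760) (nat_lit 29612380178) (nat_lit 60) (nat_lit 5) (nat_lit 69) (nat_lit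 5) (nat_lit 70) (nat_lit 5) (nat_lit 285) (nat_lit 277) (nat_lit 158))))))))
noncomputable def xc112 : XT := (XT.nd (nat_lit 1404) (nat_lit 912) (nat_lit 0) (XT.nd (nat_lit 702) (nat_lit 1216) (nat_lit 0) (XT.nd (nat_lit 312) (nat_lit 836) (nat_lit 0) (XT.nd (nat_lit 156) (nat_lit 684) (nat_lit 0) (XT.nd (nat_lit 78) (nat_lit 0) (nat_lit 0) (XT.lf (nat_lit 0) (nat_lit 24253749481) (nat_lit 304) (nat_lit 59995238986) (nat_lit 380) (nat_lit 19339369431) (nat_lit 56) (nat_lit 5) (nat_lit 60) (nat_lit 5) (nat_lit 61) (nat_lit 5) (nat_lit 286) (nat_lit 277) (nat_lit 157)) (XT.lf (nat_lit 0) (nat_lit 100309801177) (nat_lit 304) (nat_lit 1016114295) (nat_lit 380) (nat_lit 7156977241) (nat_lit 56) (nat_lit 5) (nat_lit 60) (nat_lit 5) (nat_lit 61) (nat_lit 5) (nat_lit 287) (nat_lit 277) (nat_lit 156))) (XT.nd (nat_lit 78) (nat_lit 304) (nat_lit 0) (XT.lf (nat_lit 0) (nat_lit 7911523148) (nat_lit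 380) (nat_lit 43852860810) (nat_lit 76) (nat_lit 61894748291) (nat_lit 51) (nat_lit 5) (nat_lit 56) (nat_lit 5) (nat_lit 52) (nat_lit 5) (nat_lit 288) (nat_lit 277) (nat_lit 155)) (XT.lf (nat_lit 0) (nat_lit 24840821804) (nat_lit 380) (nat_lit 83298209211) (nat_lit 76) (nat_lit 11059273615) (nat_lit 47) (nat_lit 5) (nat_lit 52) (nat_lit 5) (nat_lit 48) (nat_lit 5) (nat_lit 289) (nat_lit 277) (nat_lit 154)))) (XT.nd (nat_lit 156) (nat_lit 532) (nat_lit 0) (XT.nd (nat_lit 78) (nat_lit 304) (nat_lit 0) (XT.lf (nat_lit 0) (nat_lit 44772844386) (nat_lit 380) (nat_lit 2429499432) (nat_lit 76) (nat_lit 77895850989) (nat_lit 47) (nat_lit 5) (nat_lit 52) (nat_lit 5) (nat_lit 48) (nat_lit 5) (nat_lit 290) (nat_lit 277) (nat_lit 153)) (XT.lf (nat_lit 0) (nat_lit 67981092772) (nat_lit 380) (nat_lit 43999400306) (nat_lit 76) (nat_lit 19405502705) (nat_lit 43) (nat_lit 5) (nat_lit 48) (nat_lit 5) (nat_lit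 44) (nat_lit 5) (nat_lit 291) (nat_lit 277) (nat_lit 152))) (XT.nd (nat_lit 78) (nat_lit 304) (nat_lit 0) (XT.lf (nat_lit 0) (nat_lit 47007031690) (nat_lit 228) (nat_lit 47611048774) (nat_lit 304) (nat_lit 43480138979) (nat_lit 40) (nat_lit 5) (nat_lit 43) (nat_lit 5) (nat_lit 44) (nat_lit 5) (nat_lit 292) (nat_lit 277) (nat_lit 151)) (XT.nd (nat_lit 78) (nat_lit 76) (nat_lit 0) (XT.lf (nat_lit 0) (nat_lit 1240268929) (nat_lit 228) (nat_lit 123285449513) (nat_lit 304) (nat_lit 20764720378) (nat_lit 37) (nat_lit 5) (nat_lit 40) (nat_lit 5) (nat_lit 41) (nat_lit 5) (nat_lit 293) (nat_lit 277) (nat_lit 150)) (XT.lf (nat_lit 0) (nat_lit 6062209293) (nat_lit 304) (nat_lit 49656156629) (nat_lit 76) (nat_lit 97215986784) (nat_lit 36) (nat_lit 5) (nat_lit 40) (nat_lit 5) (nat_lit 37) (nat_lit 5) (nat_lit 294) (nat_lit 277) (nat_lit 149)))))) (XT.nd (nat_lit 312) (nat_lit 608) (nat_lit 0) (XT.nd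 (nat_lit 156) (nat_lit 380) (nat_lit 0) (XT.nd (nat_lit 78) (nat_lit 0) (nat_lit 0) (XT.lf (nat_lit 0) (nat_lit 35443451070) (nat_lit 304) (nat_lit 107763532970) (nat_lit 76) (nat_lit 17908994732) (nat_lit 33) (nat_lit 5) (nat_lit 37) (nat_lit 5) (nat_lit 34) (nat_lit 5) (nat_lit 295) (nat_lit 277) (nat_lit 148)) (XT.lf (nat_lit 0) (nat_lit 68993251759) (nat_lit 304) (nat_lit 4488453578) (nat_lit 76) (nat_lit 96379528410) (nat_lit 33) (nat_lit 5) (nat_lit 37) (nat_lit 5) (nat_lit 34) (nat_lit 5) (nat_lit 296) (nat_lit 277) (nat_lit 147))) (XT.nd (nat_lit 78) (nat_lit 152) (nat_lit 0) (XT.lf (nat_lit 0) (nat_lit 107009790289) (nat_lit 304) (nat_lit 68689189111) (nat_lit 76) (nat_lit 3517993703) (nat_lit 30) (nat_lit 5) (nat_lit 34) (nat_lit 5) (nat_lit 31) (nat_lit 5) (nat_lit 297) (nat_lit 277) (nat_lit 146)) (XT.lf (nat_lit 0) (nat_lit 45813595032) (nat_lit 152) (nat_lit 104287300040)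 (nat_lit 228) (nat_lit 39118615926) (nat_lit 28) (nat_lit 5) (nat_lit 30) (nat_lit 5) (nat_lit 31) (nat_lit 5) (nat_lit 298) (nat_lit 277) (nat_lit 145)))) (XT.nd (nat_lit 156) (nat_lit 304) (nat_lit 0) (XT.nd (nat_lit 78) (nat_lit 304) (nat_lit 0) (XT.lf (nat_lit 0) (nat_lit 171928755114) (nat_lit 152) (nat_lit 25906544308) (nat_lit 228) (nat_lit 2127153376) (nat_lit 28) (nat_lit 5) (nat_lit 30) (nat_lit 5) (nat_lit 31) (nat_lit 5) (nat_lit 299) (nat_lit 277) (nat_lit 144)) (XT.lf (nat_lit 0) (nat_lit 39112794086) (nat_lit 304) (nat_lit 113259630434) (nat_lit 76) (nat_lit 59037892036) (nat_lit 24) (nat_lit 5) (nat_lit 28) (nat_lit 5) (nat_lit 25) (nat_lit 5) (nat_lit 300) (nat_lit 277) (nat_lit 143))) (XT.nd (nat_lit 78) (nat_lit 152) (nat_lit 0) (XT.lf (nat_lit 0) (nat_lit 11570246213) (nat_lit 152) (nat_lit 73121513375) (nat_lit 228) (nat_lit 139024790062) (nat_lit 22) (nat_lit 5)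 (nat_lit 24) (nat_lit 5) (nat_lit 25) (nat_lit 5) (nat_lit 301) (nat_lit 277) (nat_lit 142)) (XT.nd (nat_lit 78) (nat_lit 152) (nat_lit 0) (XT.lf (nat_lit 0) (nat_lit 136116539990) (nat_lit 228) (nat_lit 86705345788) (nat_lit 76) (nat_lit 14075421813) (nat_lit 22) (nat_lit 5) (nat_lit 25) (nat_lit 5) (nat_lit 23) (nat_lit 5) (nat_lit 302) (nat_lit 277) (nat_lit 141)) (XT.lf (nat_lit 0) (nat_lit 49109111887) (nat_lit 152) (nat_lit 144545478349) (nat_lit 228) (nat_lit 57377972565) (nat_lit 20) (nat_lit 5) (nat_lit 22) (nat_lit 5) (nat_lit 23) (nat_lit 5) (nat_lit 303) (nat_lit 277) (nat_lit 140))))))) (XT.nd (nat_lit 702) (nat_lit 228) (nat_lit 0) (XT.nd (nat_lit 312) (nat_lit 304) (nat_lit 0) (XT.nd (nat_lit 156) (nat_lit 152) (nat_lit 0) (XT.nd (nat_lit 78) (nat_lit 228) (nat_lit 0) (XT.lf (nat_lit 0) (nat_lit 198884360156) (nat_lit 152) (nat_lit 58421290698) (nat_lit 228) (nat_lit 8917490184)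 (nat_lit 20) (nat_lit 5) (nat_lit 22) (nat_lit 5) (nat_lit 23) (nat_lit 5) (nat_lit 304) (nat_lit 277) (nat_lit 139)) (XT.lf (nat_lit 0) (nat_lit 43848737096) (nat_lit 228) (nat_lit 203213152050) (nat_lit 76) (nat_lit 35442251342) (nat_lit 17) (nat_lit 5) (nat_lit 20) (nat_lit 5) (nat_lit 18) (nat_lit 5) (nat_lit 305) (nat_lit 277) (nat_lit 138))) (XT.nd (nat_lit 78) (nat_lit 152) (nat_lit 0) (XT.lf (nat_lit 0) (nat_lit 102704983905) (nat_lit 228) (nat_lit 61128415163) (nat_lit 76) (nat_lit 136137854827) (nat_lit 17) (nat_lit 5) (nat_lit 20) (nat_lit 5) (nat_lit 18) (nat_lit 5) (nat_lit 306) (nat_lit 277) (nat_lit 137)) (XT.lf (nat_lit 0) (nat_lit 95375196772) (nat_lit 152) (nat_lit 72383286202) (nat_lit 228) (nat_lit 151002816478) (nat_lit 15) (nat_lit 5) (nat_lit 17) (nat_lit 5) (nat_lit 18) (nat_lit 5) (nat_lit 307) (nat_lit 277) (nat_lit 136)))) (XT.nd (nat_lit 156) (nat_lit 228)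 (nat_lit 0) (XT.nd (nat_lit 78) (nat_lit 76) (nat_lit 0) (XT.lf (nat_lit 0) (nat_lit 239510137439) (nat_lit 228) (nat_lit 72849197130) (nat_lit 76) (nat_lit 26620520962) (nat_lit 15) (nat_lit 5) (nat_lit 18) (nat_lit 5) (nat_lit 16) (nat_lit 4) (nat_lit 308) (nat_lit 277) (nat_lit 135)) (XT.lf (nat_lit 0) (nat_lit 91436216225) (nat_lit 76) (nat_lit 228213512757) (nat_lit 152) (nat_lit 41033777479) (nat_lit 14) (nat_lit 5) (nat_lit 15) (nat_lit 5) (nat_lit 16) (nat_lit 4) (nat_lit 309) (nat_lit 277) (nat_lit 134))) (XT.nd (nat_lit 78) (nat_lit 152) (nat_lit 0) (XT.lf (nat_lit 0) (nat_lit 22659948331) (nat_lit 152) (nat_lit 112960053496) (nat_lit 76) (nat_lit 248421738295) (nat_lit 13) (nat_lit 5) (nat_lit 15) (nat_lit 5) (nat_lit 14) (nat_lit 5) (nat_lit 310) (nat_lit 277) (nat_lit 133)) (XT.nd (nat_lit 78) (nat_lit 0) (nat_lit 0) (XT.lf (nat_lit 0) (nat_lit 56960947280) (nat_lit 152)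 (nat_lit 33958885268) (nat_lit 228) (nat_lit 318269751974) (nat_lit 11) (nat_lit 5) (nat_lit 13) (nat_lit 5) (nat_lit 14) (nat_lit 5) (nat_lit 311) (nat_lit 277) (nat_lit 132)) (XT.lf (nat_lit 0) (nat_lit 167824209467) (nat_lit 228) (nat_lit 192958141286) (nat_lit 76) (nat_lit 75407721079) (nat_lit 11) (nat_lit 5) (nat_lit 14) (nat_lit 5) (nat_lit 12) (nat_lit 4) (nat_lit 312) (nat_lit 277) (nat_lit 131)))))) (XT.nd (nat_lit 34788) (nat_lit 0) (nat_lit 4332) (XT.nd (nat_lit 156) (nat_lit 152) (nat_lit 0) (XT.nd (nat_lit 78) (nat_lit 76) (nat_lit 0) (XT.lf (nat_lit 0) (nat_lit 251453318261) (nat_lit 228) (nat_lit 21518992796) (nat_lit 76) (nat_lit 192349668405) (nat_lit 11) (nat_lit 5) (nat_lit 14) (nat_lit 5) (nat_lit 12) (nat_lit 4) (nat_lit 313) (nat_lit 277) (nat_lit 130)) (XT.lf (nat_lit 0) (nat_lit 169045447314) (nat_lit 76) (nat_lit 175366371333) (nat_lit 152) (nat_lit 152240668299)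 (nat_lit 10) (nat_lit 5) (nat_lit 11) (nat_lit 5) (nat_lit 12) (nat_lit 4) (nat_lit 314) (nat_lit 277) (nat_lit 129))) (XT.nd (nat_lit 78) (nat_lit 152) (nat_lit 0) (XT.lf (nat_lit 0) (nat_lit 375623143866) (nat_lit 76) (nat_lit 69558502224) (nat_lit 152) (nat_lit 85289056951) (nat_lit 10) (nat_lit 5) (nat_lit 11) (nat_lit 5) (nat_lit 12) (nat_lit 4) (nat_lit 315) (nat_lit 277) (nat_lit 128)) (XT.nd (nat_lit 78) (nat_lit 76) (nat_lit 0) (XT.lf (nat_lit 0) (nat_lit 32060383539) (nat_lit 76) (nat_lit 523151152331) (nat_lit 76) (nat_lit 11722917079) (nat_lit 9) (nat_lit 4) (nat_lit 10) (nat_lit 5) (nat_lit 10) (nat_lit 4) (nat_lit 316) (nat_lit 277) (nat_lit 127)) (XT.lf (nat_lit 0) (nat_lit 69475044118) (nat_lit 152) (nat_lit 369004762000) (nat_lit 76) (nat_lit 167586912156) (nat_lit 8) (nat_lit 5) (nat_lit 10) (nat_lit 5) (nat_lit 9) (nat_lit 4) (nat_lit 317) (nat_lit 277) (nat_lit 126)))))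 (XT.nd (nat_lit 156) (nat_lit 0) (nat_lit 76) (XT.nd (nat_lit 78) (nat_lit 0) (nat_lit 0) (XT.lf (nat_lit 0) (nat_lit 5071729562) (nat_lit 0) (nat_lit 5071729562) (nat_lit 684) (nat_lit 28170699390) (nat_lit 65) (nat_lit 5) (nat_lit 65) (nat_lit 3) (nat_lit 74) (nat_lit 3) (nat_lit 278) (nat_lit 278) (nat_lit 164)) (XT.lf (nat_lit 0) (nat_lit 21779548946) (nat_lit 684) (nat_lit 16629181257) (nat_lit 760) (nat_lit 41250598718) (nat_lit 65) (nat_lit 5) (nat_lit 74) (nat_lit 3) (nat_lit 75) (nat_lit 5) (nat_lit 279) (nat_lit 278) (nat_lit 163))) (XT.nd (nat_lit 78) (nat_lit 0) (nat_lit 0) (XT.lf (nat_lit 0) (nat_lit 24378810718) (nat_lit 684) (nat_lit 44846934552) (nat_lit 760) (nat_lit 13657721775) (nat_lit 66) (nat_lit 5) (nat_lit 75) (nat_lit 5) (nat_lit 76) (nat_lit 5) (nat_lit 280) (nat_lit 278) (nat_lit 162)) (XT.nd (nat_lit 78) (nat_lit 0) (nat_lit 76) (XT.lf (nat_lit 76) (nat_lit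 11017574988) (nat_lit 0) (nat_lit 17281055423) (nat_lit 760) (nat_lit 58011280804) (nat_lit 67) (nat_lit 5) (nat_lit 66) (nat_lit 5) (nat_lit 76) (nat_lit 5) (nat_lit 281) (nat_lit 278) (nat_lit 161)) (XT.lf (nat_lit 0) (nat_lit 33930766970) (nat_lit 684) (nat_lit 17638558644) (nat_lit 760) (nat_lit 38371214150) (nat_lit 67) (nat_lit 5) (nat_lit 76) (nat_lit 5) (nat_lit 77) (nat_lit 5) (nat_lit 282) (nat_lit 278) (nat_lit 160))))))))
noncomputable def xc113 : XT := (XT.nd (nat_lit 1404) (nat_lit 1444) (nat_lit 0) (XT.nd (nat_lit 702) (nat_lit 1444) (nat_lit 0) (XT.nd (nat_lit 312) (nat_lit 988) (nat_lit 0) (XT.nd (nat_lit 156) (nat_lit 608) (nat_lit 0) (XT.nd (nat_lit 78) (nat_lit 0) (nat_lit 0) (XT.lf (nat_lit 0) (nat_lit 41093360215) (nat_lit 684) (nat_lit 48084883469) (nat_lit 760) (nat_lit 4629385637) (nat_lit 68) (nat_lit 5) (nat_lit 77) (nat_lit 5) (nat_lit 78) (nat_lit 5) (nat_lit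 283) (nat_lit 278) (nat_lit 159)) (XT.lf (nat_lit 76) (nat_lit 16465573906) (nat_lit 0) (nat_lit 33801131196) (nat_lit 760) (nat_lit 47645498372) (nat_lit 69) (nat_lit 5) (nat_lit 68) (nat_lit 5) (nat_lit 78) (nat_lit 5) (nat_lit 284) (nat_lit 278) (nat_lit 158))) (XT.nd (nat_lit 78) (nat_lit 684) (nat_lit 0) (XT.lf (nat_lit 0) (nat_lit 61430189559) (nat_lit 684) (nat_lit 14826817401) (nat_lit 76) (nat_lit 26025327295) (nat_lit 69) (nat_lit 5) (nat_lit 78) (nat_lit 5) (nat_lit 70) (nat_lit 5) (nat_lit 285) (nat_lit 278) (nat_lit 157)) (XT.lf (nat_lit 0) (nat_lit 58421600303) (nat_lit 684) (nat_lit 16546211537) (nat_lit 760) (nat_lit 31960214684) (nat_lit 60) (nat_lit 5) (nat_lit 69) (nat_lit 5) (nat_lit 70) (nat_lit 5) (nat_lit 286) (nat_lit 278) (nat_lit 156)))) (XT.nd (nat_lit 156) (nat_lit 684) (nat_lit 0) (XT.nd (nat_lit 78) (nat_lit 0) (nat_lit 0) (XT.lf (nat_lit 0) (nat_lit 26212210796)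 (nat_lit 304) (nat_lit 64795536009) (nat_lit 380) (nat_lit 20866665906) (nat_lit 56) (nat_lit 5) (nat_lit 60) (nat_lit 5) (nat_lit 61) (nat_lit 5) (nat_lit 287) (nat_lit 278) (nat_lit 155)) (XT.lf (nat_lit 0) (nat_lit 108351401342) (nat_lit 304) (nat_lit 1098031127) (nat_lit 380) (nat_lit 7711152940) (nat_lit 56) (nat_lit 5) (nat_lit 60) (nat_lit 5) (nat_lit 61) (nat_lit 5) (nat_lit 288) (nat_lit 278) (nat_lit 154))) (XT.nd (nat_lit 78) (nat_lit 304) (nat_lit 0) (XT.lf (nat_lit 0) (nat_lit 8561181472) (nat_lit 380) (nat_lit 47343485056) (nat_lit 76) (nat_lit 66846300807) (nat_lit 51) (nat_lit 5) (nat_lit 56) (nat_lit 5) (nat_lit 52) (nat_lit 5) (nat_lit 289) (nat_lit 278) (nat_lit 153)) (XT.nd (nat_lit 78) (nat_lit 0) (nat_lit 0) (XT.lf (nat_lit 0) (nat_lit 26843864054) (nat_lit 380) (nat_lit 89944400957) (nat_lit 76) (nat_lit 11945060839) (nat_lit 47) (nat_lit 5) (nat_lit 52) (nat_lit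 5) (nat_lit 48) (nat_lit 5) (nat_lit 290) (nat_lit 278) (nat_lit 152)) (XT.lf (nat_lit 0) (nat_lit 48369279812) (nat_lit 380) (nat_lit 2607502914) (nat_lit 76) (nat_lit 84128486971) (nat_lit 47) (nat_lit 5) (nat_lit 52) (nat_lit 5) (nat_lit 48) (nat_lit 5) (nat_lit 291) (nat_lit 278) (nat_lit 151)))))) (XT.nd (nat_lit 312) (nat_lit 608) (nat_lit 0) (XT.nd (nat_lit 156) (nat_lit 304) (nat_lit 0) (XT.nd (nat_lit 78) (nat_lit 228) (nat_lit 0) (XT.lf (nat_lit 0) (nat_lit 73433379559) (nat_lit 380) (nat_lit 47503000893) (nat_lit 76) (nat_lit 20959758450) (nat_lit 43) (nat_lit 5) (nat_lit 48) (nat_lit 5) (nat_lit 44) (nat_lit 5) (nat_lit 292) (nat_lit 278) (nat_lit 150)) (XT.lf (nat_lit 0) (nat_lit 50783235048) (nat_lit 228) (nat_lit 51417313240) (nat_lit 304) (nat_lit 46944834515) (nat_lit 40) (nat_lit 5) (nat_lit 43) (nat_lit 5) (nat_lit 44) (nat_lit 5) (nat_lit 293) (nat_lit 278) (nat_lit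 149))) (XT.nd (nat_lit 78) (nat_lit 76) (nat_lit 0) (XT.lf (nat_lit 0) (nat_lit 1355076442) (nat_lit 228) (nat_lit 133145037524) (nat_lit 304) (nat_lit 22412903126) (nat_lit 37) (nat_lit 5) (nat_lit 40) (nat_lit 5) (nat_lit 41) (nat_lit 5) (nat_lit 294) (nat_lit 278) (nat_lit 148)) (XT.lf (nat_lit 0) (nat_lit 6558833226) (nat_lit 304) (nat_lit 53613797358) (nat_lit 76) (nat_lit 104995852767) (nat_lit 36) (nat_lit 5) (nat_lit 40) (nat_lit 5) (nat_lit 37) (nat_lit 5) (nat_lit 295) (nat_lit 278) (nat_lit 147)))) (XT.nd (nat_lit 156) (nat_lit 380) (nat_lit 0) (XT.nd (nat_lit 78) (nat_lit 0) (nat_lit 0) (XT.lf (nat_lit 0) (nat_lit 38289983354) (nat_lit 304) (nat_lit 116369876294) (nat_lit 76) (nat_lit 19344812011) (nat_lit 33) (nat_lit 5) (nat_lit 37) (nat_lit 5) (nat_lit 34) (nat_lit 5) (nat_lit 296) (nat_lit 278) (nat_lit 146)) (XT.lf (nat_lit 0) (nat_lit 74522949121) (nat_lit 304) (nat_lit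 4833882352) (nat_lit 76) (nat_lit 104092758924) (nat_lit 33) (nat_lit 5) (nat_lit 37) (nat_lit 5) (nat_lit 34) (nat_lit 5) (nat_lit 297) (nat_lit 278) (nat_lit 145))) (XT.nd (nat_lit 78) (nat_lit 152) (nat_lit 0) (XT.lf (nat_lit 0) (nat_lit 115580308878) (nat_lit 304) (nat_lit 74170810385) (nat_lit 76) (nat_lit 3802696968) (nat_lit 30) (nat_lit 5) (nat_lit 34) (nat_lit 5) (nat_lit 31) (nat_lit 5) (nat_lit 298) (nat_lit 278) (nat_lit 144)) (XT.nd (nat_lit 78) (nat_lit 0) (nat_lit 0) (XT.lf (nat_lit 0) (nat_lit 49491609194) (nat_lit 152) (nat_lit 112626573531) (nat_lit 228) (nat_lit 42238402469) (nat_lit 28) (nat_lit 5) (nat_lit 30) (nat_lit 5) (nat_lit 31) (nat_lit 5) (nat_lit 299) (nat_lit 278) (nat_lit 143)) (XT.lf (nat_lit 0) (nat_lit 185695024559) (nat_lit 152) (nat_lit 27975632193) (nat_lit 228) (nat_lit 2288341636) (nat_lit 28) (nat_lit 5) (nat_lit 30) (nat_lit 5) (nat_lit 31) (nat_lit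 5) (nat_lit 300) (nat_lit 278) (nat_lit 142))))))) (XT.nd (nat_lit 702) (nat_lit 456) (nat_lit 0) (XT.nd (nat_lit 312) (nat_lit 380) (nat_lit 0) (XT.nd (nat_lit 156) (nat_lit 152) (nat_lit 0) (XT.nd (nat_lit 78) (nat_lit 152) (nat_lit 0) (XT.lf (nat_lit 0) (nat_lit 42250108082) (nat_lit 304) (nat_lit 122308276998) (nat_lit 76) (nat_lit 63764321144) (nat_lit 24) (nat_lit 5) (nat_lit 28) (nat_lit 5) (nat_lit 25) (nat_lit 5) (nat_lit 301) (nat_lit 278) (nat_lit 141)) (XT.lf (nat_lit 0) (nat_lit 12507462892) (nat_lit 152) (nat_lit 78967494885) (nat_lit 228) (nat_lit 150138503405) (nat_lit 22) (nat_lit 5) (nat_lit 24) (nat_lit 5) (nat_lit 25) (nat_lit 5) (nat_lit 302) (nat_lit 278) (nat_lit 140))) (XT.nd (nat_lit 78) (nat_lit 152) (nat_lit 0) (XT.lf (nat_lit 0) (nat_lit 147013192641) (nat_lit 228) (nat_lit 93630707677) (nat_lit 76) (nat_lit 15204807290) (nat_lit 22) (nat_lit 5) (nat_lit 25)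 (nat_lit 5) (nat_lit 23) (nat_lit 5) (nat_lit 303) (nat_lit 278) (nat_lit 139)) (XT.lf (nat_lit 0) (nat_lit 53048425707) (nat_lit 152) (nat_lit 156105483537) (nat_lit 228) (nat_lit 61960894216) (nat_lit 20) (nat_lit 5) (nat_lit 22) (nat_lit 5) (nat_lit 23) (nat_lit 5) (nat_lit 304) (nat_lit 278) (nat_lit 138)))) (XT.nd (nat_lit 156) (nat_lit 152) (nat_lit 0) (XT.nd (nat_lit 78) (nat_lit 228) (nat_lit 0) (XT.lf (nat_lit 0) (nat_lit 214804909773) (nat_lit 152) (nat_lit 63091629991) (nat_lit 228) (nat_lit 9624115182) (nat_lit 20) (nat_lit 5) (nat_lit 22) (nat_lit 5) (nat_lit 23) (nat_lit 5) (nat_lit 305) (nat_lit 278) (nat_lit 137)) (XT.lf (nat_lit 0) (nat_lit 47362910249) (nat_lit 228) (nat_lit 219460335715) (nat_lit 76) (nat_lit 38280898356) (nat_lit 17) (nat_lit 5) (nat_lit 20) (nat_lit 5) (nat_lit 18) (nat_lit 5) (nat_lit 306) (nat_lit 278) (nat_lit 136))) (XT.nd (nat_lit 78) (nat_lit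 152) (nat_lit 0) (XT.lf (nat_lit 0) (nat_lit 110927192048) (nat_lit 228) (nat_lit 66009550877) (nat_lit 76) (nat_lit 147031908127) (nat_lit 17) (nat_lit 5) (nat_lit 20) (nat_lit 5) (nat_lit 18) (nat_lit 5) (nat_lit 307) (nat_lit 278) (nat_lit 135)) (XT.nd (nat_lit 78) (nat_lit 0) (nat_lit 0) (XT.lf (nat_lit 0) (nat_lit 103013952908) (nat_lit 152) (nat_lit 78170724268) (nat_lit 228) (nat_lit 163077238710) (nat_lit 15) (nat_lit 5) (nat_lit 17) (nat_lit 5) (nat_lit 18) (nat_lit 5) (nat_lit 308) (nat_lit 278) (nat_lit 134)) (XT.lf (nat_lit 0) (nat_lit 258676102057) (nat_lit 228) (nat_lit 78668820337) (nat_lit 76) (nat_lit 28753053024) (nat_lit 15) (nat_lit 5) (nat_lit 18) (nat_lit 5) (nat_lit 16) (nat_lit 4) (nat_lit 309) (nat_lit 278) (nat_lit 133)))))) (XT.nd (nat_lit 390) (nat_lit 152) (nat_lit 0) (XT.nd (nat_lit 156) (nat_lit 152) (nat_lit 0) (XT.nd (nat_lit 78) (nat_lit 76) (nat_lit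 0) (XT.lf (nat_lit 0) (nat_lit 98759064832) (nat_lit 76) (nat_lit 246467538484) (nat_lit 152) (nat_lit 44311328792) (nat_lit 14) (nat_lit 5) (nat_lit 15) (nat_lit 5) (nat_lit 16) (nat_lit 4) (nat_lit 310) (nat_lit 278) (nat_lit 132)) (XT.lf (nat_lit 0) (nat_lit 24477360887) (nat_lit 152) (nat_lit 121989333925) (nat_lit 76) (nat_lit 268298144807) (nat_lit 13) (nat_lit 5) (nat_lit 15) (nat_lit 5) (nat_lit 14) (nat_lit 5) (nat_lit 311) (nat_lit 278) (nat_lit 131))) (XT.nd (nat_lit 78) (nat_lit 0) (nat_lit 0) (XT.lf (nat_lit 0) (nat_lit 61525019935) (nat_lit 152) (nat_lit 36672786292) (nat_lit 228) (nat_lit 343726717482) (nat_lit 11) (nat_lit 5) (nat_lit 13) (nat_lit 5) (nat_lit 14) (nat_lit 5) (nat_lit 312) (nat_lit 278) (nat_lit 130)) (XT.nd (nat_lit 78) (nat_lit 0) (nat_lit 0) (XT.lf (nat_lit 0) (nat_lit 181254248950) (nat_lit 228) (nat_lit 208387958720) (nat_lit 76) (nat_lit 81442857160)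 (nat_lit 11) (nat_lit 5) (nat_lit 14) (nat_lit 5) (nat_lit 12) (nat_lit 4) (nat_lit 313) (nat_lit 278) (nat_lit 129)) (XT.lf (nat_lit 0) (nat_lit 271573382542) (nat_lit 228) (nat_lit 23234184562) (nat_lit 76) (nat_lit 207739973724) (nat_lit 11) (nat_lit 5) (nat_lit 14) (nat_lit 5) (nat_lit 12) (nat_lit 4) (nat_lit 314) (nat_lit 278) (nat_lit 128))))) (XT.nd (nat_lit 156) (nat_lit 76) (nat_lit 0) (XT.nd (nat_lit 78) (nat_lit 0) (nat_lit 0) (XT.lf (nat_lit 0) (nat_lit 182575135764) (nat_lit 76) (nat_lit 189393240300) (nat_lit 152) (nat_lit 164416122715) (nat_lit 10) (nat_lit 5) (nat_lit 11) (nat_lit 5) (nat_lit 12) (nat_lit 4) (nat_lit 315) (nat_lit 278) (nat_lit 127)) (XT.lf (nat_lit 0) (nat_lit 405678599694) (nat_lit 76) (nat_lit 75120922458) (nat_lit 152) (nat_lit 92108663870) (nat_lit 10) (nat_lit 5) (nat_lit 11) (nat_lit 5) (nat_lit 12) (nat_lit 4) (nat_lit 316) (nat_lit 278) (nat_lit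 126))) (XT.nd (nat_lit 34554) (nat_lit 0) (nat_lit 4256) (XT.lf (nat_lit 0) (nat_lit 34630706966) (nat_lit 76) (nat_lit 565000966846) (nat_lit 76) (nat_lit 12657369026) (nat_lit 9) (nat_lit 4) (nat_lit 10) (nat_lit 5) (nat_lit 10) (nat_lit 4) (nat_lit 317) (nat_lit 278) (nat_lit 125)) (XT.nd (nat_lit 78) (nat_lit 0) (nat_lit 0) (XT.lf (nat_lit 0) (nat_lit 5485188535) (nat_lit 0) (nat_lit 5485188535) (nat_lit 684) (nat_lit 30408080491) (nat_lit 65) (nat_lit 5) (nat_lit 65) (nat_lit 3) (nat_lit 74) (nat_lit 3) (nat_lit 279) (nat_lit 279) (nat_lit 162)) (XT.lf (nat_lit 0) (nat_lit 23550284482) (nat_lit 684) (nat_lit 17943451345) (nat_lit 760) (nat_lit 44536806801) (nat_lit 65) (nat_lit 5) (nat_lit 74) (nat_lit 3) (nat_lit 75) (nat_lit 5) (nat_lit 280) (nat_lit 279) (nat_lit 161))))))))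
noncomputable def xc114 : XT := (XT.nd (nat_lit 1404) (nat_lit 1748) (nat_lit 0) (XT.nd (nat_lit 702) (nat_lit 1748) (nat_lit 0) (XT.nd (nat_lit 312) (nat_lit 760) (nat_lit 0) (XT.nd (nat_lit 156) (nat_lit 0) (nat_lit 76) (XT.nd (nat_lit 78) (nat_lit 0) (nat_lit 0) (XT.lf (nat_lit 0) (nat_lit 26355451522) (nat_lit 684) (nat_lit 48417717983) (nat_lit 760) (nat_lit 14739552527) (nat_lit 66) (nat_lit 5) (nat_lit 75) (nat_lit 5) (nat_lit 76) (nat_lit 5) (nat_lit 281) (nat_lit 279) (nat_lit 160)) (XT.lf (nat_lit 76) (nat_lit 11915214767) (nat_lit 0) (nat_lit 18671944667) (nat_lit 760) (nat_lit 62626214990) (nat_lit 67) (nat_lit 5) (nat_lit 66) (nat_lit 5) (nat_lit 76) (nat_lit 5) (nat_lit 282) (nat_lit 279) (nat_lit 159))) (XT.nd (nat_lit 78) (nat_lit 0) (nat_lit 76) (XT.lf (nat_lit 0) (nat_lit 36667920335) (nat_lit 684) (nat_lit 19033259363) (nat_lit 760) (nat_lit 41433378131) (nat_lit 67)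 (nat_lit 5) (nat_lit 76) (nat_lit 5) (nat_lit 77) (nat_lit 5) (nat_lit 283) (nat_lit 279) (nat_lit 158)) (XT.lf (nat_lit 0) (nat_lit 44401997654) (nat_lit 684) (nat_lit 51914768419) (nat_lit 760) (nat_lit 4994331352) (nat_lit 68) (nat_lit 5) (nat_lit 77) (nat_lit 5) (nat_lit 78) (nat_lit 5) (nat_lit 284) (nat_lit 279) (nat_lit 157)))) (XT.nd (nat_lit 156) (nat_lit 912) (nat_lit 0) (XT.nd (nat_lit 78) (nat_lit 0) (nat_lit 76) (XT.lf (nat_lit 76) (nat_lit 17798990844) (nat_lit 0) (nat_lit 36508903716) (nat_lit 760) (nat_lit 51436214935) (nat_lit 69) (nat_lit 5) (nat_lit 68) (nat_lit 5) (nat_lit 78) (nat_lit 5) (nat_lit 285) (nat_lit 279) (nat_lit 156)) (XT.lf (nat_lit 0) (nat_lit 66362933949) (nat_lit 684) (nat_lit 15996945414) (nat_lit 76) (nat_lit 28104053315) (nat_lit 69) (nat_lit 5) (nat_lit 78) (nat_lit 5) (nat_lit 70) (nat_lit 5) (nat_lit 286) (nat_lit 279) (nat_lit 155))) (XT.nd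 (nat_lit 78) (nat_lit 304) (nat_lit 0) (XT.lf (nat_lit 0) (nat_lit 63110649610) (nat_lit 684) (nat_lit 17871797890) (nat_lit 760) (nat_lit 34498894077) (nat_lit 60) (nat_lit 5) (nat_lit 69) (nat_lit 5) (nat_lit 70) (nat_lit 5) (nat_lit 287) (nat_lit 279) (nat_lit 154)) (XT.nd (nat_lit 78) (nat_lit 0) (nat_lit 0) (XT.lf (nat_lit 0) (nat_lit 28324758096) (nat_lit 304) (nat_lit 69979760083) (nat_lit 380) (nat_lit 22518978363) (nat_lit 56) (nat_lit 5) (nat_lit 60) (nat_lit 5) (nat_lit 61) (nat_lit 5) (nat_lit 288) (nat_lit 279) (nat_lit 153)) (XT.lf (nat_lit 0) (nat_lit 117033930519) (nat_lit 304) (nat_lit 1186411760) (nat_lit 380) (nat_lit 8312285160) (nat_lit 56) (nat_lit 5) (nat_lit 60) (nat_lit 5) (nat_lit 61) (nat_lit 5) (nat_lit 289) (nat_lit 279) (nat_lit 152)))))) (XT.nd (nat_lit 312) (nat_lit 760) (nat_lit 0) (XT.nd (nat_lit 156) (nat_lit 304) (nat_lit 0) (XT.nd (nat_lit 78) (nat_lit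 304) (nat_lit 0) (XT.lf (nat_lit 0) (nat_lit 9260424816) (nat_lit 380) (nat_lit 51115870738) (nat_lit 76) (nat_lit 72193981426) (nat_lit 51) (nat_lit 5) (nat_lit 56) (nat_lit 5) (nat_lit 52) (nat_lit 5) (nat_lit 290) (nat_lit 279) (nat_lit 151)) (XT.lf (nat_lit 0) (nat_lit 29004898989) (nat_lit 380) (nat_lit 97124808151) (nat_lit 76) (nat_lit 12901561913) (nat_lit 47) (nat_lit 5) (nat_lit 52) (nat_lit 5) (nat_lit 48) (nat_lit 5) (nat_lit 291) (nat_lit 279) (nat_lit 150))) (XT.nd (nat_lit 78) (nat_lit 304) (nat_lit 0) (XT.lf (nat_lit 0) (nat_lit 52251346095) (nat_lit 380) (nat_lit 2802080108) (nat_lit 76) (nat_lit 90859595750) (nat_lit 47) (nat_lit 5) (nat_lit 52) (nat_lit 5) (nat_lit 48) (nat_lit 5) (nat_lit 292) (nat_lit 279) (nat_lit 149)) (XT.lf (nat_lit 0) (nat_lit 79319880655) (nat_lit 380) (nat_lit 51289222243) (nat_lit 76) (nat_lit 22638095648) (nat_lit 43) (nat_lit 5) (nat_lit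 48) (nat_lit 5) (nat_lit 44) (nat_lit 5) (nat_lit 293) (nat_lit 279) (nat_lit 148)))) (XT.nd (nat_lit 156) (nat_lit 304) (nat_lit 0) (XT.nd (nat_lit 78) (nat_lit 228) (nat_lit 0) (XT.lf (nat_lit 0) (nat_lit 54859303338) (nat_lit 228) (nat_lit 55528452555) (nat_lit 304) (nat_lit 50688662376) (nat_lit 40) (nat_lit 5) (nat_lit 43) (nat_lit 5) (nat_lit 44) (nat_lit 5) (nat_lit 294) (nat_lit 279) (nat_lit 147)) (XT.lf (nat_lit 0) (nat_lit 1476845039) (nat_lit 228) (nat_lit 143793855932) (nat_lit 304) (nat_lit 24194794360) (nat_lit 37) (nat_lit 5) (nat_lit 40) (nat_lit 5) (nat_lit 41) (nat_lit 5) (nat_lit 295) (nat_lit 279) (nat_lit 146))) (XT.nd (nat_lit 78) (nat_lit 228) (nat_lit 0) (XT.lf (nat_lit 0) (nat_lit 7093525471) (nat_lit 304) (nat_lit 57890168121) (nat_lit 76) (nat_lit 113397738959) (nat_lit 36) (nat_lit 5) (nat_lit 40) (nat_lit 5) (nat_lit 37) (nat_lit 5) (nat_lit 296) (nat_lit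 279) (nat_lit 145)) (XT.nd (nat_lit 78) (nat_lit 0) (nat_lit 0) (XT.lf (nat_lit 0) (nat_lit 41362660930) (nat_lit 304) (nat_lit 125666829813) (nat_lit 76) (nat_lit 20895052751) (nat_lit 33) (nat_lit 5) (nat_lit 37) (nat_lit 5) (nat_lit 34) (nat_lit 5) (nat_lit 297) (nat_lit 279) (nat_lit 144)) (XT.lf (nat_lit 0) (nat_lit 80493561818) (nat_lit 304) (nat_lit 5208892399) (nat_lit 76) (nat_lit 112422638693) (nat_lit 33) (nat_lit 5) (nat_lit 37) (nat_lit 5) (nat_lit 34) (nat_lit 5) (nat_lit 298) (nat_lit 279) (nat_lit 143))))))) (XT.nd (nat_lit 702) (nat_lit 532) (nat_lit 0) (XT.nd (nat_lit 312) (nat_lit 532) (nat_lit 0) (XT.nd (nat_lit 156) (nat_lit 304) (nat_lit 0) (XT.nd (nat_lit 78) (nat_lit 152) (nat_lit 0) (XT.lf (nat_lit 0) (nat_lit 124835080095) (nat_lit 304) (nat_lit 80092889264) (nat_lit 76) (nat_lit 4109710882) (nat_lit 30) (nat_lit 5) (nat_lit 34) (nat_lit 5) (nat_lit 31) (nat_lit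 5) (nat_lit 299) (nat_lit 279) (nat_lit 142)) (XT.lf (nat_lit 0) (nat_lit 53462020371) (nat_lit 152) (nat_lit 121633518248) (nat_lit 228) (nat_lit 45609156138) (nat_lit 28) (nat_lit 5) (nat_lit 30) (nat_lit 5) (nat_lit 31) (nat_lit 5) (nat_lit 300) (nat_lit 279) (nat_lit 141))) (XT.nd (nat_lit 78) (nat_lit 304) (nat_lit 0) (XT.lf (nat_lit 0) (nat_lit 200560888044) (nat_lit 152) (nat_lit 30210737244) (nat_lit 228) (nat_lit 2463706626) (nat_lit 28) (nat_lit 5) (nat_lit 30) (nat_lit 5) (nat_lit 31) (nat_lit 5) (nat_lit 301) (nat_lit 279) (nat_lit 140)) (XT.lf (nat_lit 0) (nat_lit 45637224471) (nat_lit 304) (nat_lit 132082544893) (nat_lit 76) (nat_lit 68868379853) (nat_lit 24) (nat_lit 5) (nat_lit 28) (nat_lit 5) (nat_lit 25) (nat_lit 5) (nat_lit 302) (nat_lit 279) (nat_lit 139)))) (XT.nd (nat_lit 156) (nat_lit 380) (nat_lit 0) (XT.nd (nat_lit 78) (nat_lit 0) (nat_lit 0) (XT.lf (nat_lit 0)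 (nat_lit 13518002467) (nat_lit 152) (nat_lit 85281688407) (nat_lit 228) (nat_lit 162142493605) (nat_lit 22) (nat_lit 5) (nat_lit 24) (nat_lit 5) (nat_lit 25) (nat_lit 5) (nat_lit 303) (nat_lit 279) (nat_lit 138)) (XT.lf (nat_lit 0) (nat_lit 158780531876) (nat_lit 228) (nat_lit 101111677174) (nat_lit 76) (nat_lit 16424065443) (nat_lit 22) (nat_lit 5) (nat_lit 25) (nat_lit 5) (nat_lit 23) (nat_lit 5) (nat_lit 304) (nat_lit 279) (nat_lit 137))) (XT.nd (nat_lit 78) (nat_lit 228) (nat_lit 0) (XT.lf (nat_lit 0) (nat_lit 57301374582) (nat_lit 152) (nat_lit 168590807439) (nat_lit 228) (nat_lit 66911493330) (nat_lit 20) (nat_lit 5) (nat_lit 22) (nat_lit 5) (nat_lit 23) (nat_lit 5) (nat_lit 305) (nat_lit 279) (nat_lit 136)) (XT.nd (nat_lit 78) (nat_lit 228) (nat_lit 0) (XT.lf (nat_lit 0) (nat_lit 231997705165) (nat_lit 152) (nat_lit 68136076334) (nat_lit 228) (nat_lit 10388236597) (nat_lit 20)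 (nat_lit 5) (nat_lit 22) (nat_lit 5) (nat_lit 23) (nat_lit 5) (nat_lit 306) (nat_lit 279) (nat_lit 135)) (XT.lf (nat_lit 0) (nat_lit 51157322171) (nat_lit 228) (nat_lit 237008701924) (nat_lit 76) (nat_lit 41346171071) (nat_lit 17) (nat_lit 5) (nat_lit 20) (nat_lit 5) (nat_lit 18) (nat_lit 5) (nat_lit 307) (nat_lit 279) (nat_lit 134)))))) (XT.nd (nat_lit 390) (nat_lit 228) (nat_lit 0) (XT.nd (nat_lit 156) (nat_lit 152) (nat_lit 0) (XT.nd (nat_lit 78) (nat_lit 152) (nat_lit 0) (XT.lf (nat_lit 0) (nat_lit 119806348063) (nat_lit 228) (nat_lit 71282481014) (nat_lit 76) (nat_lit 158797054154) (nat_lit 17) (nat_lit 5) (nat_lit 20) (nat_lit 5) (nat_lit 18) (nat_lit 5) (nat_lit 308) (nat_lit 279) (nat_lit 133)) (XT.lf (nat_lit 0) (nat_lit 111262562621) (nat_lit 152) (nat_lit 84421617438) (nat_lit 228) (nat_lit 176118442596) (nat_lit 15) (nat_lit 5) (nat_lit 17) (nat_lit 5) (nat_lit 18) (nat_lit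 5) (nat_lit 309) (nat_lit 279) (nat_lit 132))) (XT.nd (nat_lit 78) (nat_lit 152) (nat_lit 0) (XT.lf (nat_lit 0) (nat_lit 279374608623) (nat_lit 228) (nat_lit 84955199281) (nat_lit 76) (nat_lit 31055775305) (nat_lit 15) (nat_lit 5) (nat_lit 18) (nat_lit 5) (nat_lit 16) (nat_lit 4) (nat_lit 310) (nat_lit 279) (nat_lit 131)) (XT.nd (nat_lit 78) (nat_lit 76) (nat_lit 0) (XT.lf (nat_lit 0) (nat_lit 106666606985) (nat_lit 76) (nat_lit 266182322141) (nat_lit 152) (nat_lit 47851819042) (nat_lit 14) (nat_lit 5) (nat_lit 15) (nat_lit 5) (nat_lit 16) (nat_lit 4) (nat_lit 311) (nat_lit 279) (nat_lit 130)) (XT.lf (nat_lit 0) (nat_lit 26439507825) (nat_lit 152) (nat_lit 131742030149) (nat_lit 76) (nat_lit 289764283298) (nat_lit 13) (nat_lit 5) (nat_lit 15) (nat_lit 5) (nat_lit 14) (nat_lit 5) (nat_lit 312) (nat_lit 279) (nat_lit 129))))) (XT.nd (nat_lit 156) (nat_lit 76) (nat_lit 0) (XT.nd (nat_lit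 78) (nat_lit 0) (nat_lit 0) (XT.lf (nat_lit 0) (nat_lit 66453191689) (nat_lit 152) (nat_lit 39604200247) (nat_lit 228) (nat_lit 371220898561) (nat_lit 11) (nat_lit 5) (nat_lit 13) (nat_lit 5) (nat_lit 14) (nat_lit 5) (nat_lit 313) (nat_lit 279) (nat_lit 128)) (XT.lf (nat_lit 0) (nat_lit 195758106293) (nat_lit 228) (nat_lit 225053136475) (nat_lit 76) (nat_lit 87960444850) (nat_lit 11) (nat_lit 5) (nat_lit 14) (nat_lit 5) (nat_lit 12) (nat_lit 4) (nat_lit 314) (nat_lit 279) (nat_lit 127))) (XT.nd (nat_lit 78) (nat_lit 76) (nat_lit 0) (XT.lf (nat_lit 0) (nat_lit 293302510022) (nat_lit 228) (nat_lit 25087494381) (nat_lit 76) (nat_lit 224361170805) (nat_lit 11) (nat_lit 5) (nat_lit 14) (nat_lit 5) (nat_lit 12) (nat_lit 4) (nat_lit 315) (nat_lit 279) (nat_lit 126)) (XT.nd (nat_lit 78) (nat_lit 0) (nat_lit 0) (XT.lf (nat_lit 0) (nat_lit 197186335810) (nat_lit 76) (nat_lit 204542606984) (nat_lit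 152) (nat_lit 177566155461) (nat_lit 10) (nat_lit 5) (nat_lit 11) (nat_lit 5) (nat_lit 12) (nat_lit 4) (nat_lit 316) (nat_lit 279) (nat_lit 125)) (XT.lf (nat_lit 0) (nat_lit 438137692470) (nat_lit 76) (nat_lit 81128658718) (nat_lit 152) (nat_lit 99474341173) (nat_lit 10) (nat_lit 5) (nat_lit 11) (nat_lit 5) (nat_lit 12) (nat_lit 4) (nat_lit 317) (nat_lit 279) (nat_lit 124))))))))
noncomputable def xc115 : XT := (XT.nd (nat_lit 1404) (nat_lit 1900) (nat_lit 0) (XT.nd (nat_lit 702) (nat_lit 1824) (nat_lit 0) (XT.nd (nat_lit 312) (nat_lit 380) (nat_lit 0) (XT.nd (nat_lit 156) (nat_lit 0) (nat_lit 76) (XT.nd (nat_lit 78) (nat_lit 0) (nat_lit 0) (XT.lf (nat_lit 0) (nat_lit 5930622795) (nat_lit 0) (nat_lit 5930622795) (nat_lit 684) (nat_lit 32826773869) (nat_lit 65) (nat_lit 5) (nat_lit 65) (nat_lit 3) (nat_lit 74) (nat_lit 3) (nat_lit 280) (nat_lit 280) (nat_lit 160)) (XT.lf (nat_lit 0) (nat_lit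 25458631333) (nat_lit 684) (nat_lit 19365154807) (nat_lit 760) (nat_lit 48087885934) (nat_lit 65) (nat_lit 5) (nat_lit 74) (nat_lit 3) (nat_lit 75) (nat_lit 5) (nat_lit 281) (nat_lit 280) (nat_lit 159))) (XT.nd (nat_lit 78) (nat_lit 0) (nat_lit 0) (XT.lf (nat_lit 0) (nat_lit 28486466473) (nat_lit 684) (nat_lit 52276585239) (nat_lit 760) (nat_lit 15909468624) (nat_lit 66) (nat_lit 5) (nat_lit 75) (nat_lit 5) (nat_lit 76) (nat_lit 5) (nat_lit 282) (nat_lit 280) (nat_lit 158)) (XT.lf (nat_lit 76) (nat_lit 12882349798) (nat_lit 0) (nat_lit 20172906011) (nat_lit 760) (nat_lit 67614048575) (nat_lit 67) (nat_lit 5) (nat_lit 66) (nat_lit 5) (nat_lit 76) (nat_lit 5) (nat_lit 283) (nat_lit 280) (nat_lit 157)))) (XT.nd (nat_lit 156) (nat_lit 532) (nat_lit 0) (XT.nd (nat_lit 78) (nat_lit 0) (nat_lit 76) (XT.lf (nat_lit 0) (nat_lit 39620808700) (nat_lit 684) (nat_lit 20541873496) (nat_lit 760) (nat_lit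 44741589918) (nat_lit 67) (nat_lit 5) (nat_lit 76) (nat_lit 5) (nat_lit 77) (nat_lit 5) (nat_lit 284) (nat_lit 280) (nat_lit 156)) (XT.lf (nat_lit 0) (nat_lit 47972306147) (nat_lit 684) (nat_lit 56053455955) (nat_lit 760) (nat_lit 5389243826) (nat_lit 68) (nat_lit 5) (nat_lit 77) (nat_lit 5) (nat_lit 78) (nat_lit 5) (nat_lit 285) (nat_lit 280) (nat_lit 155))) (XT.nd (nat_lit 78) (nat_lit 608) (nat_lit 0) (XT.lf (nat_lit 76) (nat_lit 19236774160) (nat_lit 0) (nat_lit 39432772755) (nat_lit 760) (nat_lit 55533173767) (nat_lit 69) (nat_lit 5) (nat_lit 68) (nat_lit 5) (nat_lit 78) (nat_lit 5) (nat_lit 286) (nat_lit 280) (nat_lit 154)) (XT.nd (nat_lit 78) (nat_lit 684) (nat_lit 0) (XT.lf (nat_lit 0) (nat_lit 71687683022) (nat_lit 684) (nat_lit 17262968727) (nat_lit 76) (nat_lit 30349548222) (nat_lit 69) (nat_lit 5) (nat_lit 78) (nat_lit 5) (nat_lit 70) (nat_lit 5) (nat_lit 287) (nat_lit 280)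 (nat_lit 153)) (XT.lf (nat_lit 0) (nat_lit 68172637110) (nat_lit 684) (nat_lit 19303161602) (nat_lit 760) (nat_lit 37243255379) (nat_lit 60) (nat_lit 5) (nat_lit 69) (nat_lit 5) (nat_lit 70) (nat_lit 5) (nat_lit 288) (nat_lit 280) (nat_lit 152)))))) (XT.nd (nat_lit 312) (nat_lit 836) (nat_lit 0) (XT.nd (nat_lit 156) (nat_lit 684) (nat_lit 0) (XT.nd (nat_lit 78) (nat_lit 0) (nat_lit 0) (XT.lf (nat_lit 0) (nat_lit 30604087882) (nat_lit 304) (nat_lit 75578639170) (nat_lit 380) (nat_lit 24305904026) (nat_lit 56) (nat_lit 5) (nat_lit 60) (nat_lit 5) (nat_lit 61) (nat_lit 5) (nat_lit 289) (nat_lit 280) (nat_lit 151)) (XT.lf (nat_lit 0) (nat_lit 126409005275) (nat_lit 304) (nat_lit 1281786071) (nat_lit 380) (nat_lit 8963756301) (nat_lit 56) (nat_lit 5) (nat_lit 60) (nat_lit 5) (nat_lit 61) (nat_lit 5) (nat_lit 290) (nat_lit 280) (nat_lit 150))) (XT.nd (nat_lit 78) (nat_lit 304) (nat_lit 0) (XT.lf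 (nat_lit 0) (nat_lit 10013560607) (nat_lit 380) (nat_lit 55192200477) (nat_lit 76) (nat_lit 77969479839) (nat_lit 51) (nat_lit 5) (nat_lit 56) (nat_lit 5) (nat_lit 52) (nat_lit 5) (nat_lit 291) (nat_lit 280) (nat_lit 149)) (XT.lf (nat_lit 0) (nat_lit 31336887110) (nat_lit 380) (nat_lit 104881808508) (nat_lit 76) (nat_lit 13934455218) (nat_lit 47) (nat_lit 5) (nat_lit 52) (nat_lit 5) (nat_lit 48) (nat_lit 5) (nat_lit 292) (nat_lit 280) (nat_lit 148)))) (XT.nd (nat_lit 156) (nat_lit 532) (nat_lit 0) (XT.nd (nat_lit 78) (nat_lit 304) (nat_lit 0) (XT.lf (nat_lit 0) (nat_lit 56442191007) (nat_lit 380) (nat_lit 3014224021) (nat_lit 76) (nat_lit 98129074847) (nat_lit 47) (nat_lit 5) (nat_lit 52) (nat_lit 5) (nat_lit 48) (nat_lit 5) (nat_lit 293) (nat_lit 280) (nat_lit 147)) (XT.lf (nat_lit 0) (nat_lit 85675614053) (nat_lit 380) (nat_lit 55380341228) (nat_lit 76) (nat_lit 24450477768) (nat_lit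 43) (nat_lit 5) (nat_lit 48) (nat_lit 5) (nat_lit 44) (nat_lit 5) (nat_lit 294) (nat_lit 280) (nat_lit 146))) (XT.nd (nat_lit 78) (nat_lit 304) (nat_lit 0) (XT.lf (nat_lit 0) (nat_lit 59259544077) (nat_lit 228) (nat_lit 59968803395) (nat_lit 304) (nat_lit 54733674004) (nat_lit 40) (nat_lit 5) (nat_lit 43) (nat_lit 5) (nat_lit 44) (nat_lit 5) (nat_lit 295) (nat_lit 280) (nat_lit 145)) (XT.nd (nat_lit 78) (nat_lit 76) (nat_lit 0) (XT.lf (nat_lit 0) (nat_lit 1606448817) (nat_lit 228) (nat_lit 155294977066) (nat_lit 304) (nat_lit 26120826283) (nat_lit 37) (nat_lit 5) (nat_lit 40) (nat_lit 5) (nat_lit 41) (nat_lit 5) (nat_lit 296) (nat_lit 280) (nat_lit 144)) (XT.lf (nat_lit 0) (nat_lit 7669568541) (nat_lit 304) (nat_lit 62510465053) (nat_lit 76) (nat_lit 122471459627) (nat_lit 36) (nat_lit 5) (nat_lit 40) (nat_lit 5) (nat_lit 37) (nat_lit 5) (nat_lit 297) (nat_lit 280) (nat_lit 143)))))))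 (XT.nd (nat_lit 702) (nat_lit 684) (nat_lit 0) (XT.nd (nat_lit 312) (nat_lit 608) (nat_lit 0) (XT.nd (nat_lit 156) (nat_lit 380) (nat_lit 0) (XT.nd (nat_lit 78) (nat_lit 0) (nat_lit 0) (XT.lf (nat_lit 0) (nat_lit 44679800440) (nat_lit 304) (nat_lit 135709342363) (nat_lit 76) (nat_lit 22568933873) (nat_lit 33) (nat_lit 5) (nat_lit 37) (nat_lit 5) (nat_lit 34) (nat_lit 5) (nat_lit 298) (nat_lit 280) (nat_lit 142)) (XT.lf (nat_lit 0) (nat_lit 86940571426) (nat_lit 304) (nat_lit 5615572462) (nat_lit 76) (nat_lit 121418558031) (nat_lit 33) (nat_lit 5) (nat_lit 37) (nat_lit 5) (nat_lit 34) (nat_lit 5) (nat_lit 299) (nat_lit 280) (nat_lit 141))) (XT.nd (nat_lit 78) (nat_lit 152) (nat_lit 0) (XT.lf (nat_lit 0) (nat_lit 134829042287) (nat_lit 304) (nat_lit 86490387318) (nat_lit 76) (nat_lit 4440886720) (nat_lit 30) (nat_lit 5) (nat_lit 34) (nat_lit 5) (nat_lit 31) (nat_lit 5) (nat_lit 300) (nat_lit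 280) (nat_lit 140)) (XT.lf (nat_lit 0) (nat_lit 57748483407) (nat_lit 152) (nat_lit 131361472370) (nat_lit 228) (nat_lit 49250756832) (nat_lit 28) (nat_lit 5) (nat_lit 30) (nat_lit 5) (nat_lit 31) (nat_lit 5) (nat_lit 301) (nat_lit 280) (nat_lit 139)))) (XT.nd (nat_lit 156) (nat_lit 304) (nat_lit 0) (XT.nd (nat_lit 78) (nat_lit 304) (nat_lit 0) (XT.lf (nat_lit 0) (nat_lit 216614556686) (nat_lit 152) (nat_lit 32625070911) (nat_lit 228) (nat_lit 2654199640) (nat_lit 28) (nat_lit 5) (nat_lit 30) (nat_lit 5) (nat_lit 31) (nat_lit 5) (nat_lit 302) (nat_lit 280) (nat_lit 138)) (XT.lf (nat_lit 0) (nat_lit 49294296172) (nat_lit 304) (nat_lit 142640237078) (nat_lit 76) (nat_lit 74380347685) (nat_lit 24) (nat_lit 5) (nat_lit 28) (nat_lit 5) (nat_lit 25) (nat_lit 5) (nat_lit 303) (nat_lit 280) (nat_lit 137))) (XT.nd (nat_lit 78) (nat_lit 152) (nat_lit 0) (XT.lf (nat_lit 0) (nat_lit 14607966792)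 (nat_lit 152) (nat_lit 92101474792) (nat_lit 228) (nat_lit 175107814498) (nat_lit 22) (nat_lit 5) (nat_lit 24) (nat_lit 5) (nat_lit 25) (nat_lit 5) (nat_lit 304) (nat_lit 280) (nat_lit 136)) (XT.nd (nat_lit 78) (nat_lit 152) (nat_lit 0) (XT.lf (nat_lit 0) (nat_lit 171488361791) (nat_lit 228) (nat_lit 109192477674) (nat_lit 76) (nat_lit 17740454301) (nat_lit 22) (nat_lit 5) (nat_lit 25) (nat_lit 5) (nat_lit 23) (nat_lit 5) (nat_lit 305) (nat_lit 280) (nat_lit 135)) (XT.lf (nat_lit 0) (nat_lit 61893264744) (nat_lit 152) (nat_lit 182075401612) (nat_lit 228) (nat_lit 72259035205) (nat_lit 20) (nat_lit 5) (nat_lit 22) (nat_lit 5) (nat_lit 23) (nat_lit 5) (nat_lit 306) (nat_lit 280) (nat_lit 134)))))) (XT.nd (nat_lit 390) (nat_lit 304) (nat_lit 0) (XT.nd (nat_lit 156) (nat_lit 152) (nat_lit 0) (XT.nd (nat_lit 78) (nat_lit 228) (nat_lit 0) (XT.lf (nat_lit 0) (nat_lit 250564725462) (nat_lit 152)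 (nat_lit 73584489828) (nat_lit 228) (nat_lit 11214316274) (nat_lit 20) (nat_lit 5) (nat_lit 22) (nat_lit 5) (nat_lit 23) (nat_lit 5) (nat_lit 307) (nat_lit 280) (nat_lit 133)) (XT.lf (nat_lit 0) (nat_lit 55254519658) (nat_lit 228) (nat_lit 255962144436) (nat_lit 76) (nat_lit 44656266031) (nat_lit 17) (nat_lit 5) (nat_lit 20) (nat_lit 5) (nat_lit 18) (nat_lit 5) (nat_lit 308) (nat_lit 280) (nat_lit 132))) (XT.nd (nat_lit 78) (nat_lit 152) (nat_lit 0) (XT.lf (nat_lit 0) (nat_lit 129395126013) (nat_lit 228) (nat_lit 76978363161) (nat_lit 76) (nat_lit 171503041888) (nat_lit 17) (nat_lit 5) (nat_lit 20) (nat_lit 5) (nat_lit 18) (nat_lit 5) (nat_lit 309) (nat_lit 280) (nat_lit 131)) (XT.nd (nat_lit 78) (nat_lit 0) (nat_lit 0) (XT.lf (nat_lit 0) (nat_lit 120169992082) (nat_lit 152) (nat_lit 91172976486) (nat_lit 228) (nat_lit 190203652561) (nat_lit 15) (nat_lit 5) (nat_lit 17) (nat_lit 5) (nat_lit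 18) (nat_lit 5) (nat_lit 310) (nat_lit 280) (nat_lit 130)) (XT.lf (nat_lit 0) (nat_lit 301728365380) (nat_lit 228) (nat_lit 91745505242) (nat_lit 76) (nat_lit 33542361848) (nat_lit 15) (nat_lit 5) (nat_lit 18) (nat_lit 5) (nat_lit 16) (nat_lit 4) (nat_lit 311) (nat_lit 280) (nat_lit 129))))) (XT.nd (nat_lit 156) (nat_lit 152) (nat_lit 0) (XT.nd (nat_lit 78) (nat_lit 76) (nat_lit 0) (XT.lf (nat_lit 0) (nat_lit 115205779994) (nat_lit 76) (nat_lit 287474662180) (nat_lit 152) (nat_lit 51676178512) (nat_lit 14) (nat_lit 5) (nat_lit 15) (nat_lit 5) (nat_lit 16) (nat_lit 4) (nat_lit 312) (nat_lit 280) (nat_lit 128)) (XT.lf (nat_lit 0) (nat_lit 28558061856) (nat_lit 152) (nat_lit 142275862307) (nat_lit 76) (nat_lit 312947386616) (nat_lit 13) (nat_lit 5) (nat_lit 15) (nat_lit 5) (nat_lit 14) (nat_lit 5) (nat_lit 313) (nat_lit 280) (nat_lit 127))) (XT.nd (nat_lit 78) (nat_lit 0) (nat_lit 0) (XT.lf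 (nat_lit 0) (nat_lit 71774736941) (nat_lit 152) (nat_lit 42770470982) (nat_lit 228) (nat_lit 400915178541) (nat_lit 11) (nat_lit 5) (nat_lit 13) (nat_lit 5) (nat_lit 14) (nat_lit 5) (nat_lit 314) (nat_lit 280) (nat_lit 126)) (XT.nd (nat_lit 78) (nat_lit 0) (nat_lit 0) (XT.lf (nat_lit 0) (nat_lit 211421770423) (nat_lit 228) (nat_lit 243052364295) (nat_lit 76) (nat_lit 94999131534) (nat_lit 11) (nat_lit 5) (nat_lit 14) (nat_lit 5) (nat_lit 12) (nat_lit 4) (nat_lit 315) (nat_lit 280) (nat_lit 125)) (XT.lf (nat_lit 0) (nat_lit 316769503070) (nat_lit 228) (nat_lit 27089842915) (nat_lit 76) (nat_lit 242311778447) (nat_lit 11) (nat_lit 5) (nat_lit 14) (nat_lit 5) (nat_lit 12) (nat_lit 4) (nat_lit 316) (nat_lit 280) (nat_lit 124))))))))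
noncomputable def xc116 : XT := (XT.nd (nat_lit 1404) (nat_lit 1900) (nat_lit 0) (XT.nd (nat_lit 702) (nat_lit 1824) (nat_lit 0) (XT.nd (nat_lit 312) (nat_lit 380) (nat_lit 0) (XT.nd (nat_lit 156) (nat_lit 0) (nat_lit 76) (XT.nd (nat_lit 78) (nat_lit 0) (nat_lit 0) (XT.lf (nat_lit 0) (nat_lit 6410747495) (nat_lit 0) (nat_lit 6410747495) (nat_lit 684) (nat_lit 35440953277) (nat_lit 65) (nat_lit 5) (nat_lit 65) (nat_lit 3) (nat_lit 74) (nat_lit 3) (nat_lit 281) (nat_lit 281) (nat_lit 158)) (XT.lf (nat_lit 0) (nat_lit 27516175828) (nat_lit 684) (nat_lit 20902559369) (nat_lit 760) (nat_lit 51924744132) (nat_lit 65) (nat_lit 5) (nat_lit 74) (nat_lit 3) (nat_lit 75) (nat_lit 5) (nat_lit 282) (nat_lit 281) (nat_lit 157))) (XT.nd (nat_lit 78) (nat_lit 0) (nat_lit 0) (XT.lf (nat_lit 0) (nat_lit 30784741497) (nat_lit 684) (nat_lit 56446237621) (nat_lit 760) (nat_lit 17174297354) (nat_lit 66) (nat_lit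 5) (nat_lit 75) (nat_lit 5) (nat_lit 76) (nat_lit 5) (nat_lit 283) (nat_lit 281) (nat_lit 156)) (XT.lf (nat_lit 76) (nat_lit 13924870094) (nat_lit 0) (nat_lit 21792916278) (nat_lit 760) (nat_lit 73004085001) (nat_lit 67) (nat_lit 5) (nat_lit 66) (nat_lit 5) (nat_lit 76) (nat_lit 5) (nat_lit 284) (nat_lit 281) (nat_lit 155)))) (XT.nd (nat_lit 156) (nat_lit 532) (nat_lit 0) (XT.nd (nat_lit 78) (nat_lit 0) (nat_lit 76) (XT.lf (nat_lit 0) (nat_lit 42807152699) (nat_lit 684) (nat_lit 22173180666) (nat_lit 760) (nat_lit 48315380020) (nat_lit 67) (nat_lit 5) (nat_lit 76) (nat_lit 5) (nat_lit 77) (nat_lit 5) (nat_lit 285) (nat_lit 281) (nat_lit 154)) (XT.lf (nat_lit 0) (nat_lit 51825650207) (nat_lit 684) (nat_lit 60525306217) (nat_lit 760) (nat_lit 5816410396) (nat_lit 68) (nat_lit 5) (nat_lit 77) (nat_lit 5) (nat_lit 78) (nat_lit 5) (nat_lit 286) (nat_lit 281) (nat_lit 153))) (XT.nd (nat_lit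 78) (nat_lit 608) (nat_lit 0) (XT.lf (nat_lit 76) (nat_lit 20787602280) (nat_lit 0) (nat_lit 42590100973) (nat_lit 760) (nat_lit 59960448413) (nat_lit 69) (nat_lit 5) (nat_lit 68) (nat_lit 5) (nat_lit 78) (nat_lit 5) (nat_lit 287) (nat_lit 281) (nat_lit 152)) (XT.nd (nat_lit 78) (nat_lit 684) (nat_lit 0) (XT.lf (nat_lit 0) (nat_lit 77436170191) (nat_lit 684) (nat_lit 18632232973) (nat_lit 76) (nat_lit 32775086361) (nat_lit 69) (nat_lit 5) (nat_lit 78) (nat_lit 5) (nat_lit 70) (nat_lit 5) (nat_lit 288) (nat_lit 281) (nat_lit 151)) (XT.lf (nat_lit 0) (nat_lit 73637709679) (nat_lit 684) (nat_lit 20848803318) (nat_lit 760) (nat_lit 40209383998) (nat_lit 60) (nat_lit 5) (nat_lit 69) (nat_lit 5) (nat_lit 70) (nat_lit 5) (nat_lit 289) (nat_lit 281) (nat_lit 150)))))) (XT.nd (nat_lit 312) (nat_lit 836) (nat_lit 0) (XT.nd (nat_lit 156) (nat_lit 684) (nat_lit 0) (XT.nd (nat_lit 78) (nat_lit 0)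 (nat_lit 0) (XT.lf (nat_lit 0) (nat_lit 33063859648) (nat_lit 304) (nat_lit 81625357498) (nat_lit 380) (nat_lit 26237865540) (nat_lit 56) (nat_lit 5) (nat_lit 60) (nat_lit 5) (nat_lit 61) (nat_lit 5) (nat_lit 290) (nat_lit 281) (nat_lit 149)) (XT.lf (nat_lit 0) (nat_lit 136532322674) (nat_lit 304) (nat_lit 1384724507) (nat_lit 380) (nat_lit 9669272724) (nat_lit 56) (nat_lit 5) (nat_lit 60) (nat_lit 5) (nat_lit 61) (nat_lit 5) (nat_lit 291) (nat_lit 281) (nat_lit 148))) (XT.nd (nat_lit 78) (nat_lit 304) (nat_lit 0) (XT.lf (nat_lit 0) (nat_lit 10825192271) (nat_lit 380) (nat_lit 59596482619) (nat_lit 76) (nat_lit 84207020993) (nat_lit 51) (nat_lit 5) (nat_lit 56) (nat_lit 5) (nat_lit 52) (nat_lit 5) (nat_lit 292) (nat_lit 281) (nat_lit 147)) (XT.lf (nat_lit 0) (nat_lit 33853779954) (nat_lit 380) (nat_lit 113261221248) (nat_lit 76) (nat_lit 15049870374) (nat_lit 47) (nat_lit 5) (nat_lit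 52) (nat_lit 5) (nat_lit 48) (nat_lit 5) (nat_lit 293) (nat_lit 281) (nat_lit 146)))) (XT.nd (nat_lit 156) (nat_lit 532) (nat_lit 0) (XT.nd (nat_lit 78) (nat_lit 304) (nat_lit 0) (XT.lf (nat_lit 0) (nat_lit 60966771727) (nat_lit 380) (nat_lit 3245054590) (nat_lit 76) (nat_lit 105980010778) (nat_lit 47) (nat_lit 5) (nat_lit 52) (nat_lit 5) (nat_lit 48) (nat_lit 5) (nat_lit 294) (nat_lit 281) (nat_lit 145)) (XT.lf (nat_lit 0) (nat_lit 92538359119) (nat_lit 380) (nat_lit 59800464347) (nat_lit 76) (nat_lit 26407660080) (nat_lit 43) (nat_lit 5) (nat_lit 48) (nat_lit 5) (nat_lit 44) (nat_lit 5) (nat_lit 295) (nat_lit 281) (nat_lit 144))) (XT.nd (nat_lit 78) (nat_lit 304) (nat_lit 0) (XT.lf (nat_lit 0) (nat_lit 64010163975) (nat_lit 228) (nat_lit 64764656978) (nat_lit 304) (nat_lit 59103724781) (nat_lit 40) (nat_lit 5) (nat_lit 43) (nat_lit 5) (nat_lit 44) (nat_lit 5) (nat_lit 296) (nat_lit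 281) (nat_lit 143)) (XT.nd (nat_lit 78) (nat_lit 76) (nat_lit 0) (XT.lf (nat_lit 0) (nat_lit 1744786545) (nat_lit 228) (nat_lit 167716528472) (nat_lit 304) (nat_lit 28202303405) (nat_lit 37) (nat_lit 5) (nat_lit 40) (nat_lit 5) (nat_lit 41) (nat_lit 5) (nat_lit 297) (nat_lit 281) (nat_lit 142)) (XT.lf (nat_lit 0) (nat_lit 8290473729) (nat_lit 304) (nat_lit 67501943103) (nat_lit 76) (nat_lit 132270806672) (nat_lit 36) (nat_lit 5) (nat_lit 40) (nat_lit 5) (nat_lit 37) (nat_lit 5) (nat_lit 298) (nat_lit 281) (nat_lit 141))))))) (XT.nd (nat_lit 702) (nat_lit 684) (nat_lit 0) (XT.nd (nat_lit 312) (nat_lit 608) (nat_lit 0) (XT.nd (nat_lit 156) (nat_lit 380) (nat_lit 0) (XT.nd (nat_lit 78) (nat_lit 0) (nat_lit 0) (XT.lf (nat_lit 0) (nat_lit 48261151756) (nat_lit 304) (nat_lit 146556801485) (nat_lit 76) (nat_lit 24376400660) (nat_lit 33) (nat_lit 5) (nat_lit 37) (nat_lit 5) (nat_lit 34) (nat_lit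 5) (nat_lit 299) (nat_lit 281) (nat_lit 140)) (XT.lf (nat_lit 0) (nat_lit 93902268326) (nat_lit 304) (nat_lit 6056218012) (nat_lit 76) (nat_lit 131133850152) (nat_lit 33) (nat_lit 5) (nat_lit 37) (nat_lit 5) (nat_lit 34) (nat_lit 5) (nat_lit 300) (nat_lit 281) (nat_lit 139))) (XT.nd (nat_lit 78) (nat_lit 152) (nat_lit 0) (XT.lf (nat_lit 0) (nat_lit 145621500602) (nat_lit 304) (nat_lit 93401102283) (nat_lit 76) (nat_lit 4798214385) (nat_lit 30) (nat_lit 5) (nat_lit 34) (nat_lit 5) (nat_lit 31) (nat_lit 5) (nat_lit 301) (nat_lit 281) (nat_lit 138)) (XT.lf (nat_lit 0) (nat_lit 62376508005) (nat_lit 152) (nat_lit 141868051908) (nat_lit 228) (nat_lit 53184703012) (nat_lit 28) (nat_lit 5) (nat_lit 30) (nat_lit 5) (nat_lit 31) (nat_lit 5) (nat_lit 302) (nat_lit 281) (nat_lit 137)))) (XT.nd (nat_lit 156) (nat_lit 304) (nat_lit 0) (XT.nd (nat_lit 78) (nat_lit 304) (nat_lit 0) (XT.lf (nat_lit 0)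 (nat_lit 233951263744) (nat_lit 152) (nat_lit 35232911536) (nat_lit 228) (nat_lit 2860874161) (nat_lit 28) (nat_lit 5) (nat_lit 30) (nat_lit 5) (nat_lit 31) (nat_lit 5) (nat_lit 303) (nat_lit 281) (nat_lit 136)) (XT.lf (nat_lit 0) (nat_lit 53243064268) (nat_lit 304) (nat_lit 154043815949) (nat_lit 76) (nat_lit 80332916655) (nat_lit 24) (nat_lit 5) (nat_lit 28) (nat_lit 5) (nat_lit 25) (nat_lit 5) (nat_lit 304) (nat_lit 281) (nat_lit 135))) (XT.nd (nat_lit 78) (nat_lit 152) (nat_lit 0) (XT.lf (nat_lit 0) (nat_lit 15783912201) (nat_lit 152) (nat_lit 99467236218) (nat_lit 228) (nat_lit 189111228243) (nat_lit 22) (nat_lit 5) (nat_lit 24) (nat_lit 5) (nat_lit 25) (nat_lit 5) (nat_lit 305) (nat_lit 281) (nat_lit 134)) (XT.nd (nat_lit 78) (nat_lit 152) (nat_lit 0) (XT.lf (nat_lit 0) (nat_lit 185212049532) (nat_lit 228) (nat_lit 117920902573) (nat_lit 76) (nat_lit 19161802805) (nat_lit 22) (nat_lit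 5) (nat_lit 25) (nat_lit 5) (nat_lit 23) (nat_lit 5) (nat_lit 306) (nat_lit 281) (nat_lit 133)) (XT.lf (nat_lit 0) (nat_lit 66851396186) (nat_lit 152) (nat_lit 196639144284) (nat_lit 228) (nat_lit 78035147603) (nat_lit 20) (nat_lit 5) (nat_lit 22) (nat_lit 5) (nat_lit 23) (nat_lit 5) (nat_lit 307) (nat_lit 281) (nat_lit 132)))))) (XT.nd (nat_lit 390) (nat_lit 304) (nat_lit 0) (XT.nd (nat_lit 156) (nat_lit 152) (nat_lit 0) (XT.nd (nat_lit 78) (nat_lit 228) (nat_lit 0) (XT.lf (nat_lit 0) (nat_lit 270616079668) (nat_lit 152) (nat_lit 79469129146) (nat_lit 228) (nat_lit 12107192670) (nat_lit 20) (nat_lit 5) (nat_lit 22) (nat_lit 5) (nat_lit 23) (nat_lit 5) (nat_lit 308) (nat_lit 281) (nat_lit 131)) (XT.lf (nat_lit 0) (nat_lit 59678835032) (nat_lit 228) (nat_lit 276432897163) (nat_lit 76) (nat_lit 48230826019) (nat_lit 17) (nat_lit 5) (nat_lit 20) (nat_lit 5) (nat_lit 18) (nat_lit 5) (nat_lit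 309) (nat_lit 281) (nat_lit 130))) (XT.nd (nat_lit 78) (nat_lit 152) (nat_lit 0) (XT.lf (nat_lit 0) (nat_lit 139750397020) (nat_lit 228) (nat_lit 83130874039) (nat_lit 76) (nat_lit 185225191448) (nat_lit 17) (nat_lit 5) (nat_lit 20) (nat_lit 5) (nat_lit 18) (nat_lit 5) (nat_lit 310) (nat_lit 281) (nat_lit 129)) (XT.nd (nat_lit 78) (nat_lit 0) (nat_lit 0) (XT.lf (nat_lit 0) (nat_lit 129789099380) (nat_lit 152) (nat_lit 98464782415) (nat_lit 228) (nat_lit 205416287838) (nat_lit 15) (nat_lit 5) (nat_lit 17) (nat_lit 5) (nat_lit 18) (nat_lit 5) (nat_lit 311) (nat_lit 281) (nat_lit 128)) (XT.lf (nat_lit 0) (nat_lit 325869882268) (nat_lit 228) (nat_lit 99079907336) (nat_lit 76) (nat_lit 36227572229) (nat_lit 15) (nat_lit 5) (nat_lit 18) (nat_lit 5) (nat_lit 16) (nat_lit 4) (nat_lit 312) (nat_lit 281) (nat_lit 127))))) (XT.nd (nat_lit 234) (nat_lit 152) (nat_lit 0) (XT.nd (nat_lit 78) (nat_lit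 76) (nat_lit 0) (XT.lf (nat_lit 0) (nat_lit 124427253067) (nat_lit 76) (nat_lit 310470709802) (nat_lit 152) (nat_lit 55807026861) (nat_lit 14) (nat_lit 5) (nat_lit 15) (nat_lit 5) (nat_lit 16) (nat_lit 4) (nat_lit 313) (nat_lit 281) (nat_lit 126)) (XT.lf (nat_lit 0) (nat_lit 30845616101) (nat_lit 152) (nat_lit 153653189989) (nat_lit 76) (nat_lit 337984858490) (nat_lit 13) (nat_lit 5) (nat_lit 15) (nat_lit 5) (nat_lit 14) (nat_lit 5) (nat_lit 314) (nat_lit 281) (nat_lit 125))) (XT.nd (nat_lit 34866) (nat_lit 0) (nat_lit 4104) (XT.lf (nat_lit 0) (nat_lit 228338097470) (nat_lit 228) (nat_lit 262492246942) (nat_lit 76) (nat_lit 102600649073) (nat_lit 11) (nat_lit 5) (nat_lit 14) (nat_lit 5) (nat_lit 12) (nat_lit 4) (nat_lit 316) (nat_lit 281) (nat_lit 123)) (XT.nd (nat_lit 78) (nat_lit 0) (nat_lit 0) (XT.lf (nat_lit 0) (nat_lit 6928472588) (nat_lit 0) (nat_lit 6928472588) (nat_lit 684) (nat_lit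 38265973623) (nat_lit 65) (nat_lit 5) (nat_lit 65) (nat_lit 3) (nat_lit 74) (nat_lit 3) (nat_lit 282) (nat_lit 282) (nat_lit 156)) (XT.lf (nat_lit 0) (nat_lit 29735348828) (nat_lit 684) (nat_lit 22564640813) (nat_lit 760) (nat_lit 56070002231) (nat_lit 65) (nat_lit 5) (nat_lit 74) (nat_lit 3) (nat_lit 75) (nat_lit 5) (nat_lit 283) (nat_lit 282) (nat_lit 155))))))))
noncomputable def xc117 : XT := (XT.nd (nat_lit 1404) (nat_lit 1672) (nat_lit 0) (XT.nd (nat_lit 702) (nat_lit 1748) (nat_lit 0) (XT.nd (nat_lit 312) (nat_lit 760) (nat_lit 0) (XT.nd (nat_lit 156) (nat_lit 0) (nat_lit 76) (XT.nd (nat_lit 78) (nat_lit 0) (nat_lit 0) (XT.lf (nat_lit 0) (nat_lit 33264116931) (nat_lit 684) (nat_lit 60951241812) (nat_lit 760) (nat_lit 18541443509) (nat_lit 66) (nat_lit 5) (nat_lit 75) (nat_lit 5) (nat_lit 76) (nat_lit 5) (nat_lit 284) (nat_lit 282) (nat_lit 154)) (XT.lf (nat_lit 76) (nat_lit 15049089737)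 (nat_lit 0) (nat_lit 23541646037) (nat_lit 760) (nat_lit 78828047381) (nat_lit 67) (nat_lit 5) (nat_lit 66) (nat_lit 5) (nat_lit 76) (nat_lit 5) (nat_lit 285) (nat_lit 282) (nat_lit 153))) (XT.nd (nat_lit 78) (nat_lit 0) (nat_lit 76) (XT.lf (nat_lit 0) (nat_lit 46246024728) (nat_lit 684) (nat_lit 23936710437) (nat_lit 760) (nat_lit 52175863258) (nat_lit 67) (nat_lit 5) (nat_lit 76) (nat_lit 5) (nat_lit 77) (nat_lit 5) (nat_lit 286) (nat_lit 282) (nat_lit 152)) (XT.lf (nat_lit 0) (nat_lit 55985042045) (nat_lit 684) (nat_lit 65356677238) (nat_lit 760) (nat_lit 6278317075) (nat_lit 68) (nat_lit 5) (nat_lit 77) (nat_lit 5) (nat_lit 78) (nat_lit 5) (nat_lit 287) (nat_lit 282) (nat_lit 151)))) (XT.nd (nat_lit 156) (nat_lit 912) (nat_lit 0) (XT.nd (nat_lit 78) (nat_lit 0) (nat_lit 76) (XT.lf (nat_lit 76) (nat_lit 22460800951) (nat_lit 0) (nat_lit 45999629351) (nat_lit 760) (nat_lit 64744099054)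 (nat_lit 69) (nat_lit 5) (nat_lit 68) (nat_lit 5) (nat_lit 78) (nat_lit 5) (nat_lit 288) (nat_lit 282) (nat_lit 150)) (XT.lf (nat_lit 0) (nat_lit 83642614328) (nat_lit 684) (nat_lit 20112717945) (nat_lit 76) (nat_lit 35395013607) (nat_lit 69) (nat_lit 5) (nat_lit 78) (nat_lit 5) (nat_lit 70) (nat_lit 5) (nat_lit 289) (nat_lit 282) (nat_lit 149))) (XT.nd (nat_lit 78) (nat_lit 304) (nat_lit 0) (XT.lf (nat_lit 0) (nat_lit 79538381461) (nat_lit 684) (nat_lit 22517898245) (nat_lit 760) (nat_lit 43414704838) (nat_lit 60) (nat_lit 5) (nat_lit 69) (nat_lit 5) (nat_lit 70) (nat_lit 5) (nat_lit 290) (nat_lit 282) (nat_lit 148)) (XT.nd (nat_lit 78) (nat_lit 0) (nat_lit 0) (XT.lf (nat_lit 0) (nat_lit 35718780436) (nat_lit 304) (nat_lit 88155752348) (nat_lit 380) (nat_lit 28326168783) (nat_lit 56) (nat_lit 5) (nat_lit 60) (nat_lit 5) (nat_lit 61) (nat_lit 5) (nat_lit 291) (nat_lit 282) (nat_lit 147))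 (XT.lf (nat_lit 0) (nat_lit 147463993687) (nat_lit 304) (nat_lit 1495841589) (nat_lit 380) (nat_lit 10432883059) (nat_lit 56) (nat_lit 5) (nat_lit 60) (nat_lit 5) (nat_lit 61) (nat_lit 5) (nat_lit 292) (nat_lit 282) (nat_lit 146)))))) (XT.nd (nat_lit 312) (nat_lit 760) (nat_lit 0) (XT.nd (nat_lit 156) (nat_lit 304) (nat_lit 0) (XT.nd (nat_lit 78) (nat_lit 304) (nat_lit 0) (XT.lf (nat_lit 0) (nat_lit 11700249848) (nat_lit 380) (nat_lit 64354690000) (nat_lit 76) (nat_lit 90943567898) (nat_lit 51) (nat_lit 5) (nat_lit 56) (nat_lit 5) (nat_lit 52) (nat_lit 5) (nat_lit 293) (nat_lit 282) (nat_lit 145)) (XT.lf (nat_lit 0) (nat_lit 36570605905) (nat_lit 380) (nat_lit 122312575103) (nat_lit 76) (nat_lit 16254424766) (nat_lit 47) (nat_lit 5) (nat_lit 52) (nat_lit 5) (nat_lit 48) (nat_lit 5) (nat_lit 294) (nat_lit 282) (nat_lit 144))) (XT.nd (nat_lit 78) (nat_lit 304) (nat_lit 0) (XT.lf (nat_lit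 0) (nat_lit 65852005646) (nat_lit 380) (nat_lit 3495822064) (nat_lit 76) (nat_lit 114458934568) (nat_lit 47) (nat_lit 5) (nat_lit 52) (nat_lit 5) (nat_lit 48) (nat_lit 5) (nat_lit 295) (nat_lit 282) (nat_lit 143)) (XT.lf (nat_lit 0) (nat_lit 99948883216) (nat_lit 380) (nat_lit 64575667322) (nat_lit 76) (nat_lit 28521253760) (nat_lit 43) (nat_lit 5) (nat_lit 48) (nat_lit 5) (nat_lit 44) (nat_lit 5) (nat_lit 296) (nat_lit 282) (nat_lit 142)))) (XT.nd (nat_lit 156) (nat_lit 304) (nat_lit 0) (XT.nd (nat_lit 78) (nat_lit 228) (nat_lit 0) (XT.lf (nat_lit 0) (nat_lit 69139427343) (nat_lit 228) (nat_lit 69944414336) (nat_lit 304) (nat_lit 63824612662) (nat_lit 40) (nat_lit 5) (nat_lit 43) (nat_lit 5) (nat_lit 44) (nat_lit 5) (nat_lit 297) (nat_lit 282) (nat_lit 141)) (XT.lf (nat_lit 0) (nat_lit 1892790099) (nat_lit 228) (nat_lit 181132095983) (nat_lit 304) (nat_lit 30451466948) (nat_lit 37) (nat_lit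 5) (nat_lit 40) (nat_lit 5) (nat_lit 41) (nat_lit 5) (nat_lit 298) (nat_lit 282) (nat_lit 140))) (XT.nd (nat_lit 78) (nat_lit 228) (nat_lit 0) (XT.lf (nat_lit 0) (nat_lit 8960004241) (nat_lit 304) (nat_lit 72894074585) (nat_lit 76) (nat_lit 142853868903) (nat_lit 36) (nat_lit 5) (nat_lit 40) (nat_lit 5) (nat_lit 37) (nat_lit 5) (nat_lit 299) (nat_lit 282) (nat_lit 139)) (XT.nd (nat_lit 78) (nat_lit 0) (nat_lit 0) (XT.lf (nat_lit 0) (nat_lit 52128017217) (nat_lit 304) (nat_lit 158273382412) (nat_lit 76) (nat_lit 26328186304) (nat_lit 33) (nat_lit 5) (nat_lit 37) (nat_lit 5) (nat_lit 34) (nat_lit 5) (nat_lit 300) (nat_lit 282) (nat_lit 138)) (XT.lf (nat_lit 0) (nat_lit 101419980644) (nat_lit 304) (nat_lit 6533342127) (nat_lit 76) (nat_lit 141626107786) (nat_lit 33) (nat_lit 5) (nat_lit 37) (nat_lit 5) (nat_lit 34) (nat_lit 5) (nat_lit 301) (nat_lit 282) (nat_lit 137))))))) (XT.nd (nat_lit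 702) (nat_lit 456) (nat_lit 0) (XT.nd (nat_lit 312) (nat_lit 532) (nat_lit 0) (XT.nd (nat_lit 156) (nat_lit 304) (nat_lit 0) (XT.nd (nat_lit 78) (nat_lit 152) (nat_lit 0) (XT.lf (nat_lit 0) (nat_lit 157276480365) (nat_lit 304) (nat_lit 100865889350) (nat_lit 76) (nat_lit 5183834849) (nat_lit 30) (nat_lit 5) (nat_lit 34) (nat_lit 5) (nat_lit 31) (nat_lit 5) (nat_lit 302) (nat_lit 282) (nat_lit 136)) (XT.lf (nat_lit 0) (nat_lit 67373612463) (nat_lit 152) (nat_lit 153215491386) (nat_lit 228) (nat_lit 57434237169) (nat_lit 28) (nat_lit 5) (nat_lit 30) (nat_lit 5) (nat_lit 31) (nat_lit 5) (nat_lit 303) (nat_lit 282) (nat_lit 135))) (XT.nd (nat_lit 78) (nat_lit 304) (nat_lit 0) (XT.lf (nat_lit 0) (nat_lit 252673831342) (nat_lit 152) (nat_lit 38049688279) (nat_lit 228) (nat_lit 3084890312) (nat_lit 28) (nat_lit 5) (nat_lit 30) (nat_lit 5) (nat_lit 31) (nat_lit 5) (nat_lit 304) (nat_lit 282)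 (nat_lit 134)) (XT.lf (nat_lit 0) (nat_lit 57506988492) (nat_lit 304) (nat_lit 166360771075) (nat_lit 76) (nat_lit 86761385682) (nat_lit 24) (nat_lit 5) (nat_lit 28) (nat_lit 5) (nat_lit 25) (nat_lit 5) (nat_lit 305) (nat_lit 282) (nat_lit 133)))) (XT.nd (nat_lit 156) (nat_lit 380) (nat_lit 0) (XT.nd (nat_lit 78) (nat_lit 0) (nat_lit 0) (XT.lf (nat_lit 0) (nat_lit 17052890666) (nat_lit 152) (nat_lit 107422594748) (nat_lit 228) (nat_lit 204235658553) (nat_lit 22) (nat_lit 5) (nat_lit 24) (nat_lit 5) (nat_lit 25) (nat_lit 5) (nat_lit 306) (nat_lit 282) (nat_lit 132)) (XT.lf (nat_lit 0) (nat_lit 200032973369) (nat_lit 228) (nat_lit 127348596285) (nat_lit 76) (nat_lit 20696557866) (nat_lit 22) (nat_lit 5) (nat_lit 25) (nat_lit 5) (nat_lit 23) (nat_lit 5) (nat_lit 307) (nat_lit 282) (nat_lit 131))) (XT.nd (nat_lit 78) (nat_lit 228) (nat_lit 0) (XT.lf (nat_lit 0) (nat_lit 72205226556) (nat_lit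 152) (nat_lit 212368312986) (nat_lit 228) (nat_lit 84274006721) (nat_lit 20) (nat_lit 5) (nat_lit 22) (nat_lit 5) (nat_lit 23) (nat_lit 5) (nat_lit 308) (nat_lit 282) (nat_lit 130)) (XT.nd (nat_lit 78) (nat_lit 228) (nat_lit 0) (XT.lf (nat_lit 0) (nat_lit 292270661111) (nat_lit 152) (nat_lit 85824842034) (nat_lit 228) (nat_lit 13072108185) (nat_lit 20) (nat_lit 5) (nat_lit 22) (nat_lit 5) (nat_lit 23) (nat_lit 5) (nat_lit 309) (nat_lit 282) (nat_lit 129)) (XT.lf (nat_lit 0) (nat_lit 64456531582) (nat_lit 228) (nat_lit 298542197293) (nat_lit 76) (nat_lit 52091057109) (nat_lit 17) (nat_lit 5) (nat_lit 20) (nat_lit 5) (nat_lit 18) (nat_lit 5) (nat_lit 310) (nat_lit 282) (nat_lit 128)))))) (XT.nd (nat_lit 35334) (nat_lit 0) (nat_lit 4104) (XT.nd (nat_lit 156) (nat_lit 304) (nat_lit 0) (XT.nd (nat_lit 78) (nat_lit 152) (nat_lit 0) (XT.lf (nat_lit 0) (nat_lit 150933567437) (nat_lit 228) (nat_lit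 89776407256) (nat_lit 76) (nat_lit 200044841031) (nat_lit 17) (nat_lit 5) (nat_lit 20) (nat_lit 5) (nat_lit 18) (nat_lit 5) (nat_lit 311) (nat_lit 282) (nat_lit 127)) (XT.lf (nat_lit 0) (nat_lit 140176949493) (nat_lit 152) (nat_lit 106340222733) (nat_lit 228) (nat_lit 221846455637) (nat_lit 15) (nat_lit 5) (nat_lit 17) (nat_lit 5) (nat_lit 18) (nat_lit 5) (nat_lit 312) (nat_lit 282) (nat_lit 126))) (XT.nd (nat_lit 78) (nat_lit 304) (nat_lit 0) (XT.lf (nat_lit 0) (nat_lit 351942257192) (nat_lit 228) (nat_lit 107001808904) (nat_lit 76) (nat_lit 39127339592) (nat_lit 15) (nat_lit 5) (nat_lit 18) (nat_lit 5) (nat_lit 16) (nat_lit 4) (nat_lit 313) (nat_lit 282) (nat_lit 125)) (XT.nd (nat_lit 156) (nat_lit 228) (nat_lit 0) (XT.lf (nat_lit 0) (nat_lit 134385729157) (nat_lit 76) (nat_lit 335306715906) (nat_lit 152) (nat_lit 60268806148) (nat_lit 14) (nat_lit 5) (nat_lit 15) (nat_lit 5) (nat_lit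 16) (nat_lit 4) (nat_lit 314) (nat_lit 282) (nat_lit 124)) (XT.lf (nat_lit 0) (nat_lit 83726839485) (nat_lit 152) (nat_lit 49884047006) (nat_lit 228) (nat_lit 467621830444) (nat_lit 11) (nat_lit 5) (nat_lit 13) (nat_lit 5) (nat_lit 14) (nat_lit 5) (nat_lit 316) (nat_lit 282) (nat_lit 122))))) (XT.nd (nat_lit 156) (nat_lit 0) (nat_lit 76) (XT.nd (nat_lit 78) (nat_lit 0) (nat_lit 0) (XT.lf (nat_lit 0) (nat_lit 7486921599) (nat_lit 0) (nat_lit 7486921599) (nat_lit 684) (nat_lit 41318458718) (nat_lit 65) (nat_lit 5) (nat_lit 65) (nat_lit 3) (nat_lit 74) (nat_lit 3) (nat_lit 283) (nat_lit 283) (nat_lit 154)) (XT.lf (nat_lit 0) (nat_lit 32129505038) (nat_lit 684) (nat_lit 24361132976) (nat_lit 760) (nat_lit 60548125188) (nat_lit 65) (nat_lit 5) (nat_lit 74) (nat_lit 3) (nat_lit 75) (nat_lit 5) (nat_lit 284) (nat_lit 283) (nat_lit 153))) (XT.nd (nat_lit 78) (nat_lit 0) (nat_lit 0) (XT.lf (nat_lit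 0) (nat_lit 35939474778) (nat_lit 684) (nat_lit 65818172074) (nat_lit 760) (nat_lit 20018931114) (nat_lit 66) (nat_lit 5) (nat_lit 75) (nat_lit 5) (nat_lit 76) (nat_lit 5) (nat_lit 285) (nat_lit 283) (nat_lit 152)) (XT.nd (nat_lit 78) (nat_lit 0) (nat_lit 76) (XT.lf (nat_lit 76) (nat_lit 16261787522) (nat_lit 0) (nat_lit 25429518577) (nat_lit 760) (nat_lit 85120261318) (nat_lit 67) (nat_lit 5) (nat_lit 66) (nat_lit 5) (nat_lit 76) (nat_lit 5) (nat_lit 286) (nat_lit 283) (nat_lit 151)) (XT.lf (nat_lit 0) (nat_lit 49957966492) (nat_lit 684) (nat_lit 25842795521) (nat_lit 760) (nat_lit 56345862391) (nat_lit 67) (nat_lit 5) (nat_lit 76) (nat_lit 5) (nat_lit 77) (nat_lit 5) (nat_lit 287) (nat_lit 283) (nat_lit 150))))))))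
noncomputable def xc118 : XT := (XT.nd (nat_lit 1404) (nat_lit 1140) (nat_lit 0) (XT.nd (nat_lit 702) (nat_lit 1444) (nat_lit 0) (XT.nd (nat_lit 312) (nat_lit 988) (nat_lit 0) (XT.nd (nat_lit 156) (nat_lit 608) (nat_lit 0) (XT.nd (nat_lit 78) (nat_lit 0) (nat_lit 0) (XT.lf (nat_lit 0) (nat_lit 60475282156) (nat_lit 684) (nat_lit 70576077778) (nat_lit 760) (nat_lit 6777662213) (nat_lit 68) (nat_lit 5) (nat_lit 77) (nat_lit 5) (nat_lit 78) (nat_lit 5) (nat_lit 288) (nat_lit 283) (nat_lit 149)) (XT.lf (nat_lit 76) (nat_lit 24266401729) (nat_lit 0) (nat_lit 49681588983) (nat_lit 760) (nat_lit 69912322767) (nat_lit 69) (nat_lit 5) (nat_lit 68) (nat_lit 5) (nat_lit 78) (nat_lit 5) (nat_lit 289) (nat_lit 283) (nat_lit 148))) (XT.nd (nat_lit 78) (nat_lit 684) (nat_lit 0) (XT.lf (nat_lit 0) (nat_lit 90343926184) (nat_lit 684) (nat_lit 21713081690) (nat_lit 76) (nat_lit 38224831720) (nat_lit 69)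 (nat_lit 5) (nat_lit 78) (nat_lit 5) (nat_lit 70) (nat_lit 5) (nat_lit 290) (nat_lit 283) (nat_lit 147)) (XT.lf (nat_lit 0) (nat_lit 85909729590) (nat_lit 684) (nat_lit 24320350905) (nat_lit 760) (nat_lit 46878081946) (nat_lit 60) (nat_lit 5) (nat_lit 69) (nat_lit 5) (nat_lit 70) (nat_lit 5) (nat_lit 291) (nat_lit 283) (nat_lit 146)))) (XT.nd (nat_lit 156) (nat_lit 684) (nat_lit 0) (XT.nd (nat_lit 78) (nat_lit 0) (nat_lit 0) (XT.lf (nat_lit 0) (nat_lit 38584695093) (nat_lit 304) (nat_lit 95208526537) (nat_lit 380) (nat_lit 30583066468) (nat_lit 56) (nat_lit 5) (nat_lit 60) (nat_lit 5) (nat_lit 61) (nat_lit 5) (nat_lit 292) (nat_lit 283) (nat_lit 145)) (XT.lf (nat_lit 0) (nat_lit 159268902277) (nat_lit 304) (nat_lit 1615799657) (nat_lit 380) (nat_lit 11258999059) (nat_lit 56) (nat_lit 5) (nat_lit 60) (nat_lit 5) (nat_lit 61) (nat_lit 5) (nat_lit 293) (nat_lit 283) (nat_lit 144))) (XT.nd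 (nat_lit 78) (nat_lit 304) (nat_lit 0) (XT.lf (nat_lit 0) (nat_lit 12644022060) (nat_lit 380) (nat_lit 69494910856) (nat_lit 76) (nat_lit 98219040663) (nat_lit 51) (nat_lit 5) (nat_lit 56) (nat_lit 5) (nat_lit 52) (nat_lit 5) (nat_lit 294) (nat_lit 283) (nat_lit 143)) (XT.nd (nat_lit 78) (nat_lit 0) (nat_lit 0) (XT.lf (nat_lit 0) (nat_lit 39503561952) (nat_lit 380) (nat_lit 132089398802) (nat_lit 76) (nat_lit 17555262940) (nat_lit 47) (nat_lit 5) (nat_lit 52) (nat_lit 5) (nat_lit 48) (nat_lit 5) (nat_lit 295) (nat_lit 283) (nat_lit 142)) (XT.lf (nat_lit 0) (nat_lit 71126932370) (nat_lit 380) (nat_lit 3767911617) (nat_lit 76) (nat_lit 123616097660) (nat_lit 47) (nat_lit 5) (nat_lit 52) (nat_lit 5) (nat_lit 48) (nat_lit 5) (nat_lit 296) (nat_lit 283) (nat_lit 141)))))) (XT.nd (nat_lit 312) (nat_lit 608) (nat_lit 0) (XT.nd (nat_lit 156) (nat_lit 304) (nat_lit 0) (XT.nd (nat_lit 78) (nat_lit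 228) (nat_lit 0) (XT.lf (nat_lit 0) (nat_lit 107951185650) (nat_lit 380) (nat_lit 69734146829) (nat_lit 76) (nat_lit 30803795002) (nat_lit 43) (nat_lit 5) (nat_lit 48) (nat_lit 5) (nat_lit 44) (nat_lit 5) (nat_lit 297) (nat_lit 283) (nat_lit 140)) (XT.lf (nat_lit 0) (nat_lit 74677826259) (nat_lit 228) (nat_lit 75538754177) (nat_lit 304) (nat_lit 68924228706) (nat_lit 40) (nat_lit 5) (nat_lit 43) (nat_lit 5) (nat_lit 44) (nat_lit 5) (nat_lit 298) (nat_lit 283) (nat_lit 139))) (XT.nd (nat_lit 78) (nat_lit 76) (nat_lit 0) (XT.lf (nat_lit 0) (nat_lit 2051432640) (nat_lit 228) (nat_lit 195621159233) (nat_lit 304) (nat_lit 32881565159) (nat_lit 37) (nat_lit 5) (nat_lit 40) (nat_lit 5) (nat_lit 41) (nat_lit 5) (nat_lit 299) (nat_lit 283) (nat_lit 138)) (XT.lf (nat_lit 0) (nat_lit 9682199483) (nat_lit 304) (nat_lit 78718721295) (nat_lit 76) (nat_lit 154283376715) (nat_lit 36) (nat_lit 5) (nat_lit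 40) (nat_lit 5) (nat_lit 37) (nat_lit 5) (nat_lit 300) (nat_lit 283) (nat_lit 137)))) (XT.nd (nat_lit 156) (nat_lit 380) (nat_lit 0) (XT.nd (nat_lit 78) (nat_lit 0) (nat_lit 0) (XT.lf (nat_lit 0) (nat_lit 56303379753) (nat_lit 304) (nat_lit 170928425851) (nat_lit 76) (nat_lit 28435876043) (nat_lit 33) (nat_lit 5) (nat_lit 37) (nat_lit 5) (nat_lit 34) (nat_lit 5) (nat_lit 301) (nat_lit 283) (nat_lit 136)) (XT.lf (nat_lit 0) (nat_lit 109538320909) (nat_lit 304) (nat_lit 7049688058) (nat_lit 76) (nat_lit 152957524959) (nat_lit 33) (nat_lit 5) (nat_lit 37) (nat_lit 5) (nat_lit 34) (nat_lit 5) (nat_lit 302) (nat_lit 283) (nat_lit 135))) (XT.nd (nat_lit 78) (nat_lit 152) (nat_lit 0) (XT.lf (nat_lit 0) (nat_lit 169863108152) (nat_lit 304) (nat_lit 108928900968) (nat_lit 76) (nat_lit 5600053393) (nat_lit 30) (nat_lit 5) (nat_lit 34) (nat_lit 5) (nat_lit 31) (nat_lit 5) (nat_lit 303) (nat_lit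 283) (nat_lit 134)) (XT.nd (nat_lit 78) (nat_lit 0) (nat_lit 0) (XT.lf (nat_lit 0) (nat_lit 72769488958) (nat_lit 152) (nat_lit 165471012012) (nat_lit 228) (nat_lit 62024481900) (nat_lit 28) (nat_lit 5) (nat_lit 30) (nat_lit 5) (nat_lit 31) (nat_lit 5) (nat_lit 304) (nat_lit 283) (nat_lit 133)) (XT.lf (nat_lit 0) (nat_lit 272893281829) (nat_lit 152) (nat_lit 41092071966) (nat_lit 228) (nat_lit 3327520202) (nat_lit 28) (nat_lit 5) (nat_lit 30) (nat_lit 5) (nat_lit 31) (nat_lit 5) (nat_lit 305) (nat_lit 283) (nat_lit 132))))))) (XT.nd (nat_lit 780) (nat_lit 152) (nat_lit 0) (XT.nd (nat_lit 312) (nat_lit 380) (nat_lit 0) (XT.nd (nat_lit 156) (nat_lit 152) (nat_lit 0) (XT.nd (nat_lit 78) (nat_lit 152) (nat_lit 0) (XT.lf (nat_lit 0) (nat_lit 62111387663) (nat_lit 304) (nat_lit 179664017063) (nat_lit 76) (nat_lit 93703870350) (nat_lit 24) (nat_lit 5) (nat_lit 28) (nat_lit 5) (nat_lit 25) (nat_lit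 5) (nat_lit 306) (nat_lit 283) (nat_lit 131)) (XT.lf (nat_lit 0) (nat_lit 18422493566) (nat_lit 152) (nat_lit 116014670188) (nat_lit 228) (nat_lit 220570680692) (nat_lit 22) (nat_lit 5) (nat_lit 24) (nat_lit 5) (nat_lit 25) (nat_lit 5) (nat_lit 307) (nat_lit 283) (nat_lit 130))) (XT.nd (nat_lit 78) (nat_lit 152) (nat_lit 0) (XT.lf (nat_lit 0) (nat_lit 216039006193) (nat_lit 228) (nat_lit 137531358394) (nat_lit 76) (nat_lit 22353834995) (nat_lit 22) (nat_lit 5) (nat_lit 25) (nat_lit 5) (nat_lit 23) (nat_lit 5) (nat_lit 308) (nat_lit 283) (nat_lit 129)) (XT.lf (nat_lit 0) (nat_lit 77986547523) (nat_lit 152) (nat_lit 229356095206) (nat_lit 228) (nat_lit 91012538464) (nat_lit 20) (nat_lit 5) (nat_lit 22) (nat_lit 5) (nat_lit 23) (nat_lit 5) (nat_lit 309) (nat_lit 283) (nat_lit 128)))) (XT.nd (nat_lit 156) (nat_lit 152) (nat_lit 0) (XT.nd (nat_lit 78) (nat_lit 228) (nat_lit 0) (XT.lf (nat_lit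 0) (nat_lit 315656853669) (nat_lit 152) (nat_lit 92689271230) (nat_lit 228) (nat_lit 14114739067) (nat_lit 20) (nat_lit 5) (nat_lit 22) (nat_lit 5) (nat_lit 23) (nat_lit 5) (nat_lit 310) (nat_lit 283) (nat_lit 127)) (XT.lf (nat_lit 0) (nat_lit 69615960270) (nat_lit 228) (nat_lit 322421002052) (nat_lit 76) (nat_lit 56259854888) (nat_lit 17) (nat_lit 5) (nat_lit 20) (nat_lit 5) (nat_lit 18) (nat_lit 5) (nat_lit 311) (nat_lit 283) (nat_lit 126))) (XT.nd (nat_lit 78) (nat_lit 152) (nat_lit 0) (XT.lf (nat_lit 0) (nat_lit 163010943722) (nat_lit 228) (nat_lit 96954287406) (nat_lit 76) (nat_lit 216049829434) (nat_lit 17) (nat_lit 5) (nat_lit 20) (nat_lit 5) (nat_lit 18) (nat_lit 5) (nat_lit 312) (nat_lit 283) (nat_lit 125)) (XT.nd (nat_lit 78) (nat_lit 0) (nat_lit 0) (XT.lf (nat_lit 0) (nat_lit 151395153947) (nat_lit 152) (nat_lit 114845946832) (nat_lit 228) (nat_lit 239591484137) (nat_lit 15)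 (nat_lit 5) (nat_lit 17) (nat_lit 5) (nat_lit 18) (nat_lit 5) (nat_lit 313) (nat_lit 283) (nat_lit 124)) (XT.lf (nat_lit 0) (nat_lit 380100024892) (nat_lit 228) (nat_lit 115558103291) (nat_lit 76) (nat_lit 42258865567) (nat_lit 15) (nat_lit 5) (nat_lit 18) (nat_lit 5) (nat_lit 16) (nat_lit 4) (nat_lit 314) (nat_lit 283) (nat_lit 123)))))) (XT.nd (nat_lit 35334) (nat_lit 0) (nat_lit 3572) (XT.nd (nat_lit 35100) (nat_lit 0) (nat_lit 3952) (XT.nd (nat_lit 35022) (nat_lit 0) (nat_lit 3952) (XT.lf (nat_lit 0) (nat_lit 35983158835) (nat_lit 152) (nat_lit 179213205710) (nat_lit 76) (nat_lit 394228330919) (nat_lit 13) (nat_lit 5) (nat_lit 15) (nat_lit 5) (nat_lit 14) (nat_lit 5) (nat_lit 316) (nat_lit 283) (nat_lit 121)) (XT.lf (nat_lit 0) (nat_lit 8089451462) (nat_lit 0) (nat_lit 8089451462) (nat_lit 684) (nat_lit 44616397010) (nat_lit 65) (nat_lit 5) (nat_lit 65) (nat_lit 3) (nat_lit 74) (nat_lit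 3) (nat_lit 284) (nat_lit 284) (nat_lit 152))) (XT.nd (nat_lit 78) (nat_lit 0) (nat_lit 76) (XT.lf (nat_lit 0) (nat_lit 34713006992) (nat_lit 684) (nat_lit 26302582682) (nat_lit 760) (nat_lit 65385564691) (nat_lit 65) (nat_lit 5) (nat_lit 74) (nat_lit 3) (nat_lit 75) (nat_lit 5) (nat_lit 285) (nat_lit 284) (nat_lit 151)) (XT.nd (nat_lit 78) (nat_lit 0) (nat_lit 0) (XT.lf (nat_lit 0) (nat_lit 38826831399) (nat_lit 684) (nat_lit 71075764829) (nat_lit 760) (nat_lit 21615449140) (nat_lit 66) (nat_lit 5) (nat_lit 75) (nat_lit 5) (nat_lit 76) (nat_lit 5) (nat_lit 286) (nat_lit 284) (nat_lit 150)) (XT.lf (nat_lit 76) (nat_lit 17570249905) (nat_lit 0) (nat_lit 27467773117) (nat_lit 760) (nat_lit 91917853886) (nat_lit 67) (nat_lit 5) (nat_lit 66) (nat_lit 5) (nat_lit 76) (nat_lit 5) (nat_lit 287) (nat_lit 284) (nat_lit 149))))) (XT.nd (nat_lit 156) (nat_lit 532) (nat_lit 0) (XT.nd (nat_lit 78)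 (nat_lit 0) (nat_lit 76) (XT.lf (nat_lit 0) (nat_lit 53965114601) (nat_lit 684) (nat_lit 27902630213) (nat_lit 760) (nat_lit 60850042075) (nat_lit 67) (nat_lit 5) (nat_lit 76) (nat_lit 5) (nat_lit 77) (nat_lit 5) (nat_lit 288) (nat_lit 284) (nat_lit 148)) (XT.lf (nat_lit 0) (nat_lit 65323109896) (nat_lit 684) (nat_lit 76214333377) (nat_lit 760) (nat_lit 7317371567) (nat_lit 68) (nat_lit 5) (nat_lit 77) (nat_lit 5) (nat_lit 78) (nat_lit 5) (nat_lit 289) (nat_lit 284) (nat_lit 147))) (XT.nd (nat_lit 78) (nat_lit 608) (nat_lit 0) (XT.lf (nat_lit 76) (nat_lit 26215204182) (nat_lit 0) (nat_lit 53657821591) (nat_lit 760) (nat_lit 75495617048) (nat_lit 69) (nat_lit 5) (nat_lit 68) (nat_lit 5) (nat_lit 78) (nat_lit 5) (nat_lit 290) (nat_lit 284) (nat_lit 146)) (XT.nd (nat_lit 78) (nat_lit 684) (nat_lit 0) (XT.lf (nat_lit 0) (nat_lit 97579930257) (nat_lit 684) (nat_lit 23442709079) (nat_lit 76)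 (nat_lit 41281289644) (nat_lit 69) (nat_lit 5) (nat_lit 78) (nat_lit 5) (nat_lit 70) (nat_lit 5) (nat_lit 291) (nat_lit 284) (nat_lit 145)) (XT.lf (nat_lit 0) (nat_lit 92789604676) (nat_lit 684) (nat_lit 26266854149) (nat_lit 760) (nat_lit 50619927200) (nat_lit 60) (nat_lit 5) (nat_lit 69) (nat_lit 5) (nat_lit 70) (nat_lit 5) (nat_lit 292) (nat_lit 284) (nat_lit 144))))))))
noncomputable def xc119 : XT := (XT.nd (nat_lit 1482) (nat_lit 380) (nat_lit 0) (XT.nd (nat_lit 702) (nat_lit 1216) (nat_lit 0) (XT.nd (nat_lit 312) (nat_lit 836) (nat_lit 0) (XT.nd (nat_lit 156) (nat_lit 684) (nat_lit 0) (XT.nd (nat_lit 78) (nat_lit 0) (nat_lit 0) (XT.lf (nat_lit 0) (nat_lit 41678682824) (nat_lit 304) (nat_lit 102825477865) (nat_lit 380) (nat_lit 33021827855) (nat_lit 56) (nat_lit 5) (nat_lit 60) (nat_lit 5) (nat_lit 61) (nat_lit 5) (nat_lit 293) (nat_lit 284) (nat_lit 143)) (XT.lf (nat_lit 0) (nat_lit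 172017092352) (nat_lit 304) (nat_lit 1745312894) (nat_lit 380) (nat_lit 12152419047) (nat_lit 56) (nat_lit 5) (nat_lit 60) (nat_lit 5) (nat_lit 61) (nat_lit 5) (nat_lit 294) (nat_lit 284) (nat_lit 142))) (XT.nd (nat_lit 78) (nat_lit 304) (nat_lit 0) (XT.lf (nat_lit 0) (nat_lit 13662190108) (nat_lit 380) (nat_lit 75047512688) (nat_lit 76) (nat_lit 106076553056) (nat_lit 51) (nat_lit 5) (nat_lit 56) (nat_lit 5) (nat_lit 52) (nat_lit 5) (nat_lit 295) (nat_lit 284) (nat_lit 141)) (XT.lf (nat_lit 0) (nat_lit 42670111976) (nat_lit 380) (nat_lit 142649535696) (nat_lit 76) (nat_lit 18960099092) (nat_lit 47) (nat_lit 5) (nat_lit 52) (nat_lit 5) (nat_lit 48) (nat_lit 5) (nat_lit 296) (nat_lit 284) (nat_lit 140)))) (XT.nd (nat_lit 156) (nat_lit 532) (nat_lit 0) (XT.nd (nat_lit 78) (nat_lit 304) (nat_lit 0) (XT.lf (nat_lit 0) (nat_lit 76822887948) (nat_lit 380) (nat_lit 4062849166) (nat_lit 76) (nat_lit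 133505769840) (nat_lit 47) (nat_lit 5) (nat_lit 52) (nat_lit 5) (nat_lit 48) (nat_lit 5) (nat_lit 297) (nat_lit 284) (nat_lit 139)) (XT.lf (nat_lit 0) (nat_lit 116592760419) (nat_lit 380) (nat_lit 75306385195) (nat_lit 76) (nat_lit 33268819573) (nat_lit 43) (nat_lit 5) (nat_lit 48) (nat_lit 5) (nat_lit 44) (nat_lit 5) (nat_lit 298) (nat_lit 284) (nat_lit 138))) (XT.nd (nat_lit 78) (nat_lit 304) (nat_lit 0) (XT.lf (nat_lit 0) (nat_lit 80658263546) (nat_lit 228) (nat_lit 81580814297) (nat_lit 304) (nat_lit 74432720357) (nat_lit 40) (nat_lit 5) (nat_lit 43) (nat_lit 5) (nat_lit 44) (nat_lit 5) (nat_lit 299) (nat_lit 284) (nat_lit 137)) (XT.nd (nat_lit 78) (nat_lit 76) (nat_lit 0) (XT.lf (nat_lit 0) (nat_lit 2221736666) (nat_lit 228) (nat_lit 211269562165) (nat_lit 304) (nat_lit 35506929925) (nat_lit 37) (nat_lit 5) (nat_lit 40) (nat_lit 5) (nat_lit 41) (nat_lit 5) (nat_lit 300) (nat_lit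 284) (nat_lit 136)) (XT.lf (nat_lit 0) (nat_lit 10461400701) (nat_lit 304) (nat_lit 85010321144) (nat_lit 76) (nat_lit 166627074202) (nat_lit 36) (nat_lit 5) (nat_lit 40) (nat_lit 5) (nat_lit 37) (nat_lit 5) (nat_lit 301) (nat_lit 284) (nat_lit 135)))))) (XT.nd (nat_lit 390) (nat_lit 608) (nat_lit 0) (XT.nd (nat_lit 156) (nat_lit 380) (nat_lit 0) (XT.nd (nat_lit 78) (nat_lit 0) (nat_lit 0) (XT.lf (nat_lit 0) (nat_lit 60812040702) (nat_lit 304) (nat_lit 184596846735) (nat_lit 76) (nat_lit 30711976266) (nat_lit 33) (nat_lit 5) (nat_lit 37) (nat_lit 5) (nat_lit 34) (nat_lit 5) (nat_lit 302) (nat_lit 284) (nat_lit 134)) (XT.lf (nat_lit 0) (nat_lit 118305451923) (nat_lit 304) (nat_lit 7608243488) (nat_lit 76) (nat_lit 165195265974) (nat_lit 33) (nat_lit 5) (nat_lit 37) (nat_lit 5) (nat_lit 34) (nat_lit 5) (nat_lit 303) (nat_lit 284) (nat_lit 133))) (XT.nd (nat_lit 78) (nat_lit 152) (nat_lit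 0) (XT.lf (nat_lit 0) (nat_lit 183456022852) (nat_lit 304) (nat_lit 117637846508) (nat_lit 76) (nat_lit 6049353752) (nat_lit 30) (nat_lit 5) (nat_lit 34) (nat_lit 5) (nat_lit 31) (nat_lit 5) (nat_lit 304) (nat_lit 284) (nat_lit 132)) (XT.nd (nat_lit 78) (nat_lit 0) (nat_lit 0) (XT.lf (nat_lit 0) (nat_lit 78596181390) (nat_lit 152) (nat_lit 178707219477) (nat_lit 228) (nat_lit 66982587364) (nat_lit 28) (nat_lit 5) (nat_lit 30) (nat_lit 5) (nat_lit 31) (nat_lit 5) (nat_lit 305) (nat_lit 284) (nat_lit 131)) (XT.lf (nat_lit 0) (nat_lit 294729497444) (nat_lit 152) (nat_lit 44378073376) (nat_lit 228) (nat_lit 3590154144) (nat_lit 28) (nat_lit 5) (nat_lit 30) (nat_lit 5) (nat_lit 31) (nat_lit 5) (nat_lit 306) (nat_lit 284) (nat_lit 130))))) (XT.nd (nat_lit 156) (nat_lit 152) (nat_lit 0) (XT.nd (nat_lit 78) (nat_lit 152) (nat_lit 0) (XT.lf (nat_lit 0) (nat_lit 67083590936) (nat_lit 304) (nat_lit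 194032323872) (nat_lit 76) (nat_lit 101201529269) (nat_lit 24) (nat_lit 5) (nat_lit 28) (nat_lit 5) (nat_lit 25) (nat_lit 5) (nat_lit 307) (nat_lit 284) (nat_lit 129)) (XT.lf (nat_lit 0) (nat_lit 19900898372) (nat_lit 152) (nat_lit 125294358773) (nat_lit 228) (nat_lit 238213051071) (nat_lit 22) (nat_lit 5) (nat_lit 24) (nat_lit 5) (nat_lit 25) (nat_lit 5) (nat_lit 308) (nat_lit 284) (nat_lit 128))) (XT.nd (nat_lit 78) (nat_lit 152) (nat_lit 0) (XT.lf (nat_lit 0) (nat_lit 233325037315) (nat_lit 228) (nat_lit 148529472694) (nat_lit 76) (nat_lit 24143472814) (nat_lit 22) (nat_lit 5) (nat_lit 25) (nat_lit 5) (nat_lit 23) (nat_lit 5) (nat_lit 309) (nat_lit 284) (nat_lit 127)) (XT.nd (nat_lit 78) (nat_lit 0) (nat_lit 0) (XT.lf (nat_lit 0) (nat_lit 84229674722) (nat_lit 152) (nat_lit 247703140076) (nat_lit 228) (nat_lit 98290636196) (nat_lit 20) (nat_lit 5) (nat_lit 22) (nat_lit 5) (nat_lit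 23) (nat_lit 5) (nat_lit 310) (nat_lit 284) (nat_lit 126)) (XT.lf (nat_lit 0) (nat_lit 340913293997) (nat_lit 152) (nat_lit 100103077053) (nat_lit 228) (nat_lit 15241228057) (nat_lit 20) (nat_lit 5) (nat_lit 22) (nat_lit 5) (nat_lit 23) (nat_lit 5) (nat_lit 311) (nat_lit 284) (nat_lit 125))))))) (XT.nd (nat_lit 35880) (nat_lit 0) (nat_lit 1900) (XT.nd (nat_lit 35490) (nat_lit 0) (nat_lit 3800) (XT.nd (nat_lit 234) (nat_lit 152) (nat_lit 0) (XT.nd (nat_lit 78) (nat_lit 0) (nat_lit 0) (XT.lf (nat_lit 0) (nat_lit 75187728657) (nat_lit 228) (nat_lit 348210763299) (nat_lit 76) (nat_lit 60761940613) (nat_lit 17) (nat_lit 5) (nat_lit 20) (nat_lit 5) (nat_lit 18) (nat_lit 5) (nat_lit 312) (nat_lit 284) (nat_lit 124)) (XT.lf (nat_lit 0) (nat_lit 176054126225) (nat_lit 228) (nat_lit 104707001772) (nat_lit 76) (nat_lit 233335017023) (nat_lit 17) (nat_lit 5) (nat_lit 20) (nat_lit 5) (nat_lit 18)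 (nat_lit 5) (nat_lit 313) (nat_lit 284) (nat_lit 123))) (XT.nd (nat_lit 35178) (nat_lit 0) (nat_lit 3800) (XT.lf (nat_lit 0) (nat_lit 410510073458) (nat_lit 228) (nat_lit 124799450522) (nat_lit 76) (nat_lit 45640722623) (nat_lit 15) (nat_lit 5) (nat_lit 18) (nat_lit 5) (nat_lit 16) (nat_lit 4) (nat_lit 315) (nat_lit 284) (nat_lit 121)) (XT.lf (nat_lit 0) (nat_lit 8739673539) (nat_lit 0) (nat_lit 8739673539) (nat_lit 684) (nat_lit 48179245804) (nat_lit 65) (nat_lit 5) (nat_lit 65) (nat_lit 3) (nat_lit 74) (nat_lit 3) (nat_lit 285) (nat_lit 285) (nat_lit 150)))) (XT.nd (nat_lit 156) (nat_lit 0) (nat_lit 76) (XT.nd (nat_lit 78) (nat_lit 0) (nat_lit 76) (XT.lf (nat_lit 0) (nat_lit 37501314312) (nat_lit 684) (nat_lit 28400409898) (nat_lit 760) (nat_lit 70610913885) (nat_lit 65) (nat_lit 5) (nat_lit 74) (nat_lit 3) (nat_lit 75) (nat_lit 5) (nat_lit 286) (nat_lit 285) (nat_lit 149)) (XT.lf (nat_lit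 0) (nat_lit 41943436277) (nat_lit 684) (nat_lit 76755086465) (nat_lit 760) (nat_lit 23340401409) (nat_lit 66) (nat_lit 5) (nat_lit 75) (nat_lit 5) (nat_lit 76) (nat_lit 5) (nat_lit 287) (nat_lit 285) (nat_lit 148))) (XT.nd (nat_lit 78) (nat_lit 0) (nat_lit 76) (XT.lf (nat_lit 76) (nat_lit 18982316555) (nat_lit 0) (nat_lit 29668532632) (nat_lit 760) (nat_lit 99260969836) (nat_lit 67) (nat_lit 5) (nat_lit 66) (nat_lit 5) (nat_lit 76) (nat_lit 5) (nat_lit 288) (nat_lit 285) (nat_lit 147)) (XT.nd (nat_lit 78) (nat_lit 0) (nat_lit 76) (XT.lf (nat_lit 0) (nat_lit 58291335077) (nat_lit 684) (nat_lit 30128334329) (nat_lit 760) (nat_lit 65715053923) (nat_lit 67) (nat_lit 5) (nat_lit 76) (nat_lit 5) (nat_lit 77) (nat_lit 5) (nat_lit 289) (nat_lit 285) (nat_lit 146)) (XT.lf (nat_lit 0) (nat_lit 70557365038) (nat_lit 684) (nat_lit 82304766550) (nat_lit 760) (nat_lit 7900614838) (nat_lit 68) (nat_lit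 5) (nat_lit 77) (nat_lit 5) (nat_lit 78) (nat_lit 5) (nat_lit 290) (nat_lit 285) (nat_lit 145)))))) (XT.nd (nat_lit 390) (nat_lit 1216) (nat_lit 0) (XT.nd (nat_lit 156) (nat_lit 912) (nat_lit 0) (XT.nd (nat_lit 78) (nat_lit 0) (nat_lit 76) (XT.lf (nat_lit 76) (nat_lit 28318842253) (nat_lit 0) (nat_lit 57951909501) (nat_lit 760) (nat_lit 81526957479) (nat_lit 69) (nat_lit 5) (nat_lit 68) (nat_lit 5) (nat_lit 78) (nat_lit 5) (nat_lit 291) (nat_lit 285) (nat_lit 144)) (XT.lf (nat_lit 0) (nat_lit 105393603465) (nat_lit 684) (nat_lit 25311765084) (nat_lit 76) (nat_lit 44582482275) (nat_lit 69) (nat_lit 5) (nat_lit 78) (nat_lit 5) (nat_lit 70) (nat_lit 5) (nat_lit 292) (nat_lit 285) (nat_lit 143))) (XT.nd (nat_lit 78) (nat_lit 304) (nat_lit 0) (XT.lf (nat_lit 0) (nat_lit 100218857343) (nat_lit 684) (nat_lit 28368952799) (nat_lit 760) (nat_lit 54662318613) (nat_lit 60) (nat_lit 5) (nat_lit 69)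 (nat_lit 5) (nat_lit 70) (nat_lit 5) (nat_lit 293) (nat_lit 285) (nat_lit 142)) (XT.nd (nat_lit 78) (nat_lit 0) (nat_lit 0) (XT.lf (nat_lit 0) (nat_lit 45019160685) (nat_lit 304) (nat_lit 111051746894) (nat_lit 380) (nat_lit 35656814883) (nat_lit 56) (nat_lit 5) (nat_lit 60) (nat_lit 5) (nat_lit 61) (nat_lit 5) (nat_lit 294) (nat_lit 285) (nat_lit 141)) (XT.lf (nat_lit 0) (nat_lit 185784184957) (nat_lit 304) (nat_lit 1885151629) (nat_lit 380) (nat_lit 13118354053) (nat_lit 56) (nat_lit 5) (nat_lit 60) (nat_lit 5) (nat_lit 61) (nat_lit 5) (nat_lit 295) (nat_lit 285) (nat_lit 140))))) (XT.nd (nat_lit 156) (nat_lit 532) (nat_lit 0) (XT.nd (nat_lit 78) (nat_lit 304) (nat_lit 0) (XT.lf (nat_lit 0) (nat_lit 14760863433) (nat_lit 380) (nat_lit 81045320016) (nat_lit 76) (nat_lit 114562667990) (nat_lit 51) (nat_lit 5) (nat_lit 56) (nat_lit 5) (nat_lit 52) (nat_lit 5) (nat_lit 296) (nat_lit 285)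 (nat_lit 139)) (XT.lf (nat_lit 0) (nat_lit 46089092219) (nat_lit 380) (nat_lit 154055484310) (nat_lit 76) (nat_lit 20477262915) (nat_lit 47) (nat_lit 5) (nat_lit 52) (nat_lit 5) (nat_lit 48) (nat_lit 5) (nat_lit 297) (nat_lit 285) (nat_lit 138))) (XT.nd (nat_lit 78) (nat_lit 532) (nat_lit 0) (XT.lf (nat_lit 0) (nat_lit 82973692397) (nat_lit 380) (nat_lit 4382308357) (nat_lit 76) (nat_lit 144186560960) (nat_lit 47) (nat_lit 5) (nat_lit 52) (nat_lit 5) (nat_lit 48) (nat_lit 5) (nat_lit 298) (nat_lit 285) (nat_lit 137)) (XT.nd (nat_lit 78) (nat_lit 228) (nat_lit 0) (XT.lf (nat_lit 0) (nat_lit 125924879399) (nat_lit 380) (nat_lit 81325328983) (nat_lit 76) (nat_lit 35930943256) (nat_lit 43) (nat_lit 5) (nat_lit 48) (nat_lit 5) (nat_lit 44) (nat_lit 5) (nat_lit 299) (nat_lit 285) (nat_lit 136)) (XT.lf (nat_lit 0) (nat_lit 87116249720) (nat_lit 228) (nat_lit 88106387625) (nat_lit 304) (nat_lit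 80382668364) (nat_lit 40) (nat_lit 5) (nat_lit 43) (nat_lit 5) (nat_lit 44) (nat_lit 5) (nat_lit 300) (nat_lit 285) (nat_lit 135))))))))
noncomputable def xc120 : XT := (XT.nd (nat_lit 36660) (nat_lit 0) (nat_lit 988) (XT.nd (nat_lit 702) (nat_lit 532) (nat_lit 0) (XT.nd (nat_lit 312) (nat_lit 836) (nat_lit 0) (XT.nd (nat_lit 156) (nat_lit 228) (nat_lit 0) (XT.nd (nat_lit 78) (nat_lit 76) (nat_lit 0) (XT.lf (nat_lit 0) (nat_lit 2404782024) (nat_lit 228) (nat_lit 228170021338) (nat_lit 304) (nat_lit 38343060068) (nat_lit 37) (nat_lit 5) (nat_lit 40) (nat_lit 5) (nat_lit 41) (nat_lit 5) (nat_lit 301) (nat_lit 285) (nat_lit 134)) (XT.lf (nat_lit 0) (nat_lit 11302278171) (nat_lit 304) (nat_lit 91806090376) (nat_lit 76) (nat_lit 179958120925) (nat_lit 36) (nat_lit 5) (nat_lit 40) (nat_lit 5) (nat_lit 37) (nat_lit 5) (nat_lit 302) (nat_lit 285) (nat_lit 133))) (XT.nd (nat_lit 78) (nat_lit 0)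 (nat_lit 0) (XT.lf (nat_lit 0) (nat_lit 65680768163) (nat_lit 304) (nat_lit 199359576312) (nat_lit 76) (nat_lit 33169989014) (nat_lit 33) (nat_lit 5) (nat_lit 37) (nat_lit 5) (nat_lit 34) (nat_lit 5) (nat_lit 303) (nat_lit 285) (nat_lit 132)) (XT.lf (nat_lit 0) (nat_lit 127773373452) (nat_lit 304) (nat_lit 8212256521) (nat_lit 76) (nat_lit 178411863777) (nat_lit 33) (nat_lit 5) (nat_lit 37) (nat_lit 5) (nat_lit 34) (nat_lit 5) (nat_lit 304) (nat_lit 285) (nat_lit 131)))) (XT.nd (nat_lit 156) (nat_lit 456) (nat_lit 0) (XT.nd (nat_lit 78) (nat_lit 152) (nat_lit 0) (XT.lf (nat_lit 0) (nat_lit 198135819193) (nat_lit 304) (nat_lit 127044273287) (nat_lit 76) (nat_lit 6534413238) (nat_lit 30) (nat_lit 5) (nat_lit 34) (nat_lit 5) (nat_lit 31) (nat_lit 5) (nat_lit 305) (nat_lit 285) (nat_lit 130)) (XT.lf (nat_lit 0) (nat_lit 84888276891) (nat_lit 152) (nat_lit 193002533751) (nat_lit 228) (nat_lit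 72337890951) (nat_lit 28) (nat_lit 5) (nat_lit 30) (nat_lit 5) (nat_lit 31) (nat_lit 5) (nat_lit 306) (nat_lit 285) (nat_lit 129))) (XT.nd (nat_lit 78) (nat_lit 456) (nat_lit 0) (XT.lf (nat_lit 0) (nat_lit 318311932231) (nat_lit 152) (nat_lit 47927149538) (nat_lit 228) (nat_lit 3874307770) (nat_lit 28) (nat_lit 5) (nat_lit 30) (nat_lit 5) (nat_lit 31) (nat_lit 5) (nat_lit 307) (nat_lit 285) (nat_lit 128)) (XT.nd (nat_lit 78) (nat_lit 152) (nat_lit 0) (XT.lf (nat_lit 0) (nat_lit 72453100793) (nat_lit 304) (nat_lit 209550782076) (nat_lit 76) (nat_lit 109298808410) (nat_lit 24) (nat_lit 5) (nat_lit 28) (nat_lit 5) (nat_lit 25) (nat_lit 5) (nat_lit 308) (nat_lit 285) (nat_lit 127)) (XT.lf (nat_lit 0) (nat_lit 21496918563) (nat_lit 152) (nat_lit 135316634300) (nat_lit 228) (nat_lit 257267279592) (nat_lit 22) (nat_lit 5) (nat_lit 24) (nat_lit 5) (nat_lit 25) (nat_lit 5) (nat_lit 309) (nat_lit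 285) (nat_lit 126)))))) (XT.nd (nat_lit 390) (nat_lit 152) (nat_lit 0) (XT.nd (nat_lit 156) (nat_lit 228) (nat_lit 0) (XT.nd (nat_lit 78) (nat_lit 152) (nat_lit 0) (XT.lf (nat_lit 0) (nat_lit 251993535693) (nat_lit 228) (nat_lit 160408063045) (nat_lit 76) (nat_lit 26076091773) (nat_lit 22) (nat_lit 5) (nat_lit 25) (nat_lit 5) (nat_lit 23) (nat_lit 5) (nat_lit 310) (nat_lit 285) (nat_lit 125)) (XT.lf (nat_lit 0) (nat_lit 90971652435) (nat_lit 152) (nat_lit 267518154360) (nat_lit 228) (nat_lit 106151396226) (nat_lit 20) (nat_lit 5) (nat_lit 22) (nat_lit 5) (nat_lit 23) (nat_lit 5) (nat_lit 311) (nat_lit 285) (nat_lit 124))) (XT.nd (nat_lit 78) (nat_lit 228) (nat_lit 0) (XT.lf (nat_lit 0) (nat_lit 368189694308) (nat_lit 152) (nat_lit 108110177919) (nat_lit 228) (nat_lit 16458219945) (nat_lit 20) (nat_lit 5) (nat_lit 22) (nat_lit 5) (nat_lit 23) (nat_lit 5) (nat_lit 312) (nat_lit 285) (nat_lit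 123)) (XT.lf (nat_lit 0) (nat_lit 81204883065) (nat_lit 228) (nat_lit 376064264523) (nat_lit 76) (nat_lit 65624008116) (nat_lit 17) (nat_lit 5) (nat_lit 20) (nat_lit 5) (nat_lit 18) (nat_lit 5) (nat_lit 313) (nat_lit 285) (nat_lit 122)))) (XT.nd (nat_lit 35334) (nat_lit 0) (nat_lit 3800) (XT.nd (nat_lit 35256) (nat_lit 0) (nat_lit 3800) (XT.lf (nat_lit 0) (nat_lit 176594031933) (nat_lit 152) (nat_lit 133953831381) (nat_lit 228) (nat_lit 279455042528) (nat_lit 15) (nat_lit 5) (nat_lit 17) (nat_lit 5) (nat_lit 18) (nat_lit 5) (nat_lit 315) (nat_lit 285) (nat_lit 120)) (XT.lf (nat_lit 0) (nat_lit 9441475988) (nat_lit 0) (nat_lit 9441475988) (nat_lit 684) (nat_lit 52028044516) (nat_lit 65) (nat_lit 5) (nat_lit 65) (nat_lit 3) (nat_lit 74) (nat_lit 3) (nat_lit 286) (nat_lit 286) (nat_lit 148))) (XT.nd (nat_lit 78) (nat_lit 0) (nat_lit 76) (XT.lf (nat_lit 0) (nat_lit 40511078888) (nat_lit 684)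 (nat_lit 30666973383) (nat_lit 760) (nat_lit 76255075078) (nat_lit 65) (nat_lit 5) (nat_lit 74) (nat_lit 3) (nat_lit 75) (nat_lit 5) (nat_lit 287) (nat_lit 286) (nat_lit 147)) (XT.nd (nat_lit 78) (nat_lit 0) (nat_lit 0) (XT.lf (nat_lit 0) (nat_lit 45307877543) (nat_lit 684) (nat_lit 82889715305) (nat_lit 760) (nat_lit 25203960972) (nat_lit 66) (nat_lit 5) (nat_lit 75) (nat_lit 5) (nat_lit 76) (nat_lit 5) (nat_lit 288) (nat_lit 286) (nat_lit 146)) (XT.lf (nat_lit 76) (nat_lit 20506428849) (nat_lit 0) (nat_lit 32044876753) (nat_lit 760) (nat_lit 107193006236) (nat_lit 67) (nat_lit 5) (nat_lit 66) (nat_lit 5) (nat_lit 76) (nat_lit 5) (nat_lit 289) (nat_lit 286) (nat_lit 145))))))) (XT.nd (nat_lit 702) (nat_lit 1444) (nat_lit 0) (XT.nd (nat_lit 312) (nat_lit 1520) (nat_lit 0) (XT.nd (nat_lit 156) (nat_lit 0) (nat_lit 76) (XT.nd (nat_lit 78) (nat_lit 0) (nat_lit 76) (XT.lf (nat_lit 0) (nat_lit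 62962367628) (nat_lit 684) (nat_lit 32533022971) (nat_lit 760) (nat_lit 70969693493) (nat_lit 67) (nat_lit 5) (nat_lit 76) (nat_lit 5) (nat_lit 77) (nat_lit 5) (nat_lit 290) (nat_lit 286) (nat_lit 144)) (XT.lf (nat_lit 0) (nat_lit 76209161332) (nat_lit 684) (nat_lit 88883392133) (nat_lit 760) (nat_lit 8530823786) (nat_lit 68) (nat_lit 5) (nat_lit 77) (nat_lit 5) (nat_lit 78) (nat_lit 5) (nat_lit 291) (nat_lit 286) (nat_lit 143))) (XT.nd (nat_lit 78) (nat_lit 0) (nat_lit 76) (XT.lf (nat_lit 76) (nat_lit 30589855237) (nat_lit 0) (nat_lit 62589315847) (nat_lit 760) (nat_lit 88041990507) (nat_lit 69) (nat_lit 5) (nat_lit 68) (nat_lit 5) (nat_lit 78) (nat_lit 5) (nat_lit 292) (nat_lit 286) (nat_lit 142)) (XT.lf (nat_lit 0) (nat_lit 113831332129) (nat_lit 684) (nat_lit 27331252997) (nat_lit 76) (nat_lit 48147957280) (nat_lit 69) (nat_lit 5) (nat_lit 78) (nat_lit 5) (nat_lit 70) (nat_lit 5)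 (nat_lit 293) (nat_lit 286) (nat_lit 141)))) (XT.nd (nat_lit 156) (nat_lit 684) (nat_lit 0) (XT.nd (nat_lit 78) (nat_lit 304) (nat_lit 0) (XT.lf (nat_lit 0) (nat_lit 108241582230) (nat_lit 684) (nat_lit 30639112300) (nat_lit 760) (nat_lit 59029128894) (nat_lit 60) (nat_lit 5) (nat_lit 69) (nat_lit 5) (nat_lit 70) (nat_lit 5) (nat_lit 294) (nat_lit 286) (nat_lit 140)) (XT.lf (nat_lit 0) (nat_lit 48625994666) (nat_lit 304) (nat_lit 119936084520) (nat_lit 380) (nat_lit 38503565149) (nat_lit 56) (nat_lit 5) (nat_lit 60) (nat_lit 5) (nat_lit 61) (nat_lit 5) (nat_lit 295) (nat_lit 286) (nat_lit 139))) (XT.nd (nat_lit 78) (nat_lit 684) (nat_lit 0) (XT.lf (nat_lit 0) (nat_lit 200651828204) (nat_lit 304) (nat_lit 2036146976) (nat_lit 380) (nat_lit 14162456706) (nat_lit 56) (nat_lit 5) (nat_lit 60) (nat_lit 5) (nat_lit 61) (nat_lit 5) (nat_lit 296) (nat_lit 286) (nat_lit 138)) (XT.nd (nat_lit 78)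 (nat_lit 304) (nat_lit 0) (XT.lf (nat_lit 0) (nat_lit 15946617724) (nat_lit 380) (nat_lit 87523806997) (nat_lit 76) (nat_lit 123727673446) (nat_lit 51) (nat_lit 5) (nat_lit 56) (nat_lit 5) (nat_lit 52) (nat_lit 5) (nat_lit 297) (nat_lit 286) (nat_lit 137)) (XT.lf (nat_lit 0) (nat_lit 49780824608) (nat_lit 380) (nat_lit 166374766813) (nat_lit 76) (nat_lit 22115749072) (nat_lit 47) (nat_lit 5) (nat_lit 52) (nat_lit 5) (nat_lit 48) (nat_lit 5) (nat_lit 298) (nat_lit 286) (nat_lit 136)))))) (XT.nd (nat_lit 390) (nat_lit 608) (nat_lit 0) (XT.nd (nat_lit 156) (nat_lit 532) (nat_lit 0) (XT.nd (nat_lit 78) (nat_lit 304) (nat_lit 0) (XT.lf (nat_lit 0) (nat_lit 89615851688) (nat_lit 380) (nat_lit 4728118728) (nat_lit 76) (nat_lit 155721768359) (nat_lit 47) (nat_lit 5) (nat_lit 52) (nat_lit 5) (nat_lit 48) (nat_lit 5) (nat_lit 299) (nat_lit 286) (nat_lit 135)) (XT.lf (nat_lit 0) (nat_lit 136002897655)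 (nat_lit 380) (nat_lit 87826582473) (nat_lit 76) (nat_lit 38805948652) (nat_lit 43) (nat_lit 5) (nat_lit 48) (nat_lit 5) (nat_lit 44) (nat_lit 5) (nat_lit 300) (nat_lit 286) (nat_lit 134))) (XT.nd (nat_lit 78) (nat_lit 304) (nat_lit 0) (XT.lf (nat_lit 0) (nat_lit 94090115105) (nat_lit 228) (nat_lit 95154134046) (nat_lit 304) (nat_lit 86809278386) (nat_lit 40) (nat_lit 5) (nat_lit 43) (nat_lit 5) (nat_lit 44) (nat_lit 5) (nat_lit 301) (nat_lit 286) (nat_lit 133)) (XT.nd (nat_lit 78) (nat_lit 76) (nat_lit 0) (XT.lf (nat_lit 0) (nat_lit 2601713991) (nat_lit 228) (nat_lit 246422675000) (nat_lit 304) (nat_lit 41406711792) (nat_lit 37) (nat_lit 5) (nat_lit 40) (nat_lit 5) (nat_lit 41) (nat_lit 5) (nat_lit 302) (nat_lit 286) (nat_lit 132)) (XT.lf (nat_lit 0) (nat_lit 12209860128) (nat_lit 304) (nat_lit 99146242506) (nat_lit 76) (nat_lit 194355525731) (nat_lit 36) (nat_lit 5) (nat_lit 40) (nat_lit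 5) (nat_lit 37) (nat_lit 5) (nat_lit 303) (nat_lit 286) (nat_lit 131))))) (XT.nd (nat_lit 156) (nat_lit 380) (nat_lit 0) (XT.nd (nat_lit 78) (nat_lit 0) (nat_lit 0) (XT.lf (nat_lit 0) (nat_lit 70938456815) (nat_lit 304) (nat_lit 215304040152) (nat_lit 76) (nat_lit 35824492324) (nat_lit 33) (nat_lit 5) (nat_lit 37) (nat_lit 5) (nat_lit 34) (nat_lit 5) (nat_lit 304) (nat_lit 286) (nat_lit 130)) (XT.lf (nat_lit 0) (nat_lit 137998231475) (nat_lit 304) (nat_lit 8865253465) (nat_lit 76) (nat_lit 192685650091) (nat_lit 33) (nat_lit 5) (nat_lit 37) (nat_lit 5) (nat_lit 34) (nat_lit 5) (nat_lit 305) (nat_lit 286) (nat_lit 129))) (XT.nd (nat_lit 78) (nat_lit 152) (nat_lit 0) (XT.lf (nat_lit 0) (nat_lit 213989526388) (nat_lit 304) (nat_lit 137203870585) (nat_lit 76) (nat_lit 7058118960) (nat_lit 30) (nat_lit 5) (nat_lit 34) (nat_lit 5) (nat_lit 31) (nat_lit 5) (nat_lit 306) (nat_lit 286) (nat_lit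 128)) (XT.nd (nat_lit 78) (nat_lit 0) (nat_lit 0) (XT.lf (nat_lit 0) (nat_lit 91683112182) (nat_lit 152) (nat_lit 208441653388) (nat_lit 228) (nat_lit 78122090093) (nat_lit 28) (nat_lit 5) (nat_lit 30) (nat_lit 5) (nat_lit 31) (nat_lit 5) (nat_lit 307) (nat_lit 286) (nat_lit 127)) (XT.lf (nat_lit 0) (nat_lit 343780380457) (nat_lit 152) (nat_lit 51760318664) (nat_lit 228) (nat_lit 4181630044) (nat_lit 28) (nat_lit 5) (nat_lit 30) (nat_lit 5) (nat_lit 31) (nat_lit 5) (nat_lit 308) (nat_lit 286) (nat_lit 126))))))))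
noncomputable def xc121 : XT := (XT.nd (nat_lit 36738) (nat_lit 0) (nat_lit 380) (XT.nd (nat_lit 36036) (nat_lit 0) (nat_lit 2584) (XT.nd (nat_lit 312) (nat_lit 228) (nat_lit 0) (XT.nd (nat_lit 156) (nat_lit 152) (nat_lit 0) (XT.nd (nat_lit 78) (nat_lit 152) (nat_lit 0) (XT.lf (nat_lit 0) (nat_lit 78251768766) (nat_lit 304) (nat_lit 226311305800) (nat_lit 76) (nat_lit 118043704852) (nat_lit 24) (nat_lit 5) (nat_lit 28) (nat_lit 5) (nat_lit 25) (nat_lit 5) (nat_lit 309) (nat_lit 286) (nat_lit 125)) (XT.lf (nat_lit 0) (nat_lit 23220057096) (nat_lit 152) (nat_lit 146140873503) (nat_lit 228) (nat_lit 277846248065) (nat_lit 22) (nat_lit 5) (nat_lit 24) (nat_lit 5) (nat_lit 25) (nat_lit 5) (nat_lit 310) (nat_lit 286) (nat_lit 124))) (XT.nd (nat_lit 78) (nat_lit 152) (nat_lit 0) (XT.lf (nat_lit 0) (nat_lit 272155157945) (nat_lit 228) (nat_lit 173237478095) (nat_lit 76) (nat_lit 28163157454)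 (nat_lit 22) (nat_lit 5) (nat_lit 25) (nat_lit 5) (nat_lit 23) (nat_lit 5) (nat_lit 311) (nat_lit 286) (nat_lit 123)) (XT.lf (nat_lit 0) (nat_lit 98252474252) (nat_lit 152) (nat_lit 288918546248) (nat_lit 228) (nat_lit 114641372409) (nat_lit 20) (nat_lit 5) (nat_lit 22) (nat_lit 5) (nat_lit 23) (nat_lit 5) (nat_lit 312) (nat_lit 286) (nat_lit 122)))) (XT.nd (nat_lit 35490) (nat_lit 0) (nat_lit 3648) (XT.nd (nat_lit 156) (nat_lit 228) (nat_lit 0) (XT.lf (nat_lit 0) (nat_lit 397647730615) (nat_lit 152) (nat_lit 116758010243) (nat_lit 228) (nat_lit 17772900212) (nat_lit 20) (nat_lit 5) (nat_lit 22) (nat_lit 5) (nat_lit 23) (nat_lit 5) (nat_lit 313) (nat_lit 286) (nat_lit 121)) (XT.lf (nat_lit 0) (nat_lit 205353364662) (nat_lit 228) (nat_lit 122124219878) (nat_lit 76) (nat_lit 272163959054) (nat_lit 17) (nat_lit 5) (nat_lit 20) (nat_lit 5) (nat_lit 18) (nat_lit 5) (nat_lit 315) (nat_lit 286)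 (nat_lit 119))) (XT.nd (nat_lit 78) (nat_lit 0) (nat_lit 0) (XT.lf (nat_lit 0) (nat_lit 10199047639) (nat_lit 0) (nat_lit 10199047639) (nat_lit 684) (nat_lit 56185537603) (nat_lit 65) (nat_lit 5) (nat_lit 65) (nat_lit 3) (nat_lit 74) (nat_lit 3) (nat_lit 287) (nat_lit 287) (nat_lit 146)) (XT.nd (nat_lit 78) (nat_lit 0) (nat_lit 76) (XT.lf (nat_lit 0) (nat_lit 43760246605) (nat_lit 684) (nat_lit 33115642204) (nat_lit 760) (nat_lit 82351441375) (nat_lit 65) (nat_lit 5) (nat_lit 74) (nat_lit 3) (nat_lit 75) (nat_lit 5) (nat_lit 288) (nat_lit 287) (nat_lit 145)) (XT.lf (nat_lit 0) (nat_lit 48940194958) (nat_lit 684) (nat_lit 89515938759) (nat_lit 760) (nat_lit 27217129230) (nat_lit 66) (nat_lit 5) (nat_lit 75) (nat_lit 5) (nat_lit 76) (nat_lit 5) (nat_lit 289) (nat_lit 287) (nat_lit 144)))))) (XT.nd (nat_lit 312) (nat_lit 1140) (nat_lit 0) (XT.nd (nat_lit 156) (nat_lit 0) (nat_lit 152) (XT.nd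 (nat_lit 78) (nat_lit 0) (nat_lit 76) (XT.lf (nat_lit 76) (nat_lit 22151681642) (nat_lit 0) (nat_lit 34610920177) (nat_lit 760) (nat_lit 115760866842) (nat_lit 67) (nat_lit 5) (nat_lit 66) (nat_lit 5) (nat_lit 76) (nat_lit 5) (nat_lit 290) (nat_lit 287) (nat_lit 143)) (XT.lf (nat_lit 0) (nat_lit 68005980619) (nat_lit 684) (nat_lit 35130882483) (nat_lit 760) (nat_lit 76645070117) (nat_lit 67) (nat_lit 5) (nat_lit 76) (nat_lit 5) (nat_lit 77) (nat_lit 5) (nat_lit 291) (nat_lit 287) (nat_lit 142))) (XT.nd (nat_lit 78) (nat_lit 0) (nat_lit 0) (XT.lf (nat_lit 0) (nat_lit 82312073157) (nat_lit 684) (nat_lit 95989128882) (nat_lit 760) (nat_lit 9211711982) (nat_lit 68) (nat_lit 5) (nat_lit 77) (nat_lit 5) (nat_lit 78) (nat_lit 5) (nat_lit 292) (nat_lit 287) (nat_lit 141)) (XT.lf (nat_lit 76) (nat_lit 33041763825) (nat_lit 0) (nat_lit 67597535862) (nat_lit 760) (nat_lit 95079242434) (nat_lit 69)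 (nat_lit 5) (nat_lit 68) (nat_lit 5) (nat_lit 78) (nat_lit 5) (nat_lit 293) (nat_lit 287) (nat_lit 140)))) (XT.nd (nat_lit 156) (nat_lit 684) (nat_lit 0) (XT.nd (nat_lit 78) (nat_lit 684) (nat_lit 0) (XT.lf (nat_lit 0) (nat_lit 122943188825) (nat_lit 684) (nat_lit 29513077917) (nat_lit 76) (nat_lit 51998830576) (nat_lit 69) (nat_lit 5) (nat_lit 78) (nat_lit 5) (nat_lit 70) (nat_lit 5) (nat_lit 294) (nat_lit 287) (nat_lit 139)) (XT.lf (nat_lit 0) (nat_lit 116905380945) (nat_lit 684) (nat_lit 33090792791) (nat_lit 760) (nat_lit 63746164960) (nat_lit 60) (nat_lit 5) (nat_lit 69) (nat_lit 5) (nat_lit 70) (nat_lit 5) (nat_lit 295) (nat_lit 287) (nat_lit 138))) (XT.nd (nat_lit 78) (nat_lit 380) (nat_lit 0) (XT.lf (nat_lit 0) (nat_lit 52520619101) (nat_lit 304) (nat_lit 129531140926) (nat_lit 380) (nat_lit 41578882147) (nat_lit 56) (nat_lit 5) (nat_lit 60) (nat_lit 5) (nat_lit 61) (nat_lit 5)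 (nat_lit 296) (nat_lit 287) (nat_lit 137)) (XT.nd (nat_lit 78) (nat_lit 380) (nat_lit 0) (XT.lf (nat_lit 0) (nat_lit 216708182666) (nat_lit 304) (nat_lit 2199195813) (nat_lit 380) (nat_lit 15290853044) (nat_lit 56) (nat_lit 5) (nat_lit 60) (nat_lit 5) (nat_lit 61) (nat_lit 5) (nat_lit 297) (nat_lit 287) (nat_lit 136)) (XT.lf (nat_lit 0) (nat_lit 17226535428) (nat_lit 380) (nat_lit 94521306018) (nat_lit 76) (nat_lit 133625880479) (nat_lit 51) (nat_lit 5) (nat_lit 56) (nat_lit 5) (nat_lit 52) (nat_lit 5) (nat_lit 298) (nat_lit 287) (nat_lit 135))))))) (XT.nd (nat_lit 702) (nat_lit 608) (nat_lit 0) (XT.nd (nat_lit 312) (nat_lit 760) (nat_lit 0) (XT.nd (nat_lit 156) (nat_lit 532) (nat_lit 0) (XT.nd (nat_lit 78) (nat_lit 0) (nat_lit 0) (XT.lf (nat_lit 0) (nat_lit 53767238632) (nat_lit 380) (nat_lit 179680327511) (nat_lit 76) (nat_lit 23885270592) (nat_lit 47) (nat_lit 5) (nat_lit 52) (nat_lit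 5) (nat_lit 48) (nat_lit 5) (nat_lit 299) (nat_lit 287) (nat_lit 134)) (XT.lf (nat_lit 0) (nat_lit 96788775430) (nat_lit 380) (nat_lit 5102275034) (nat_lit 76) (nat_lit 168179752044) (nat_lit 47) (nat_lit 5) (nat_lit 52) (nat_lit 5) (nat_lit 48) (nat_lit 5) (nat_lit 300) (nat_lit 287) (nat_lit 133))) (XT.nd (nat_lit 78) (nat_lit 228) (nat_lit 0) (XT.lf (nat_lit 0) (nat_lit 146886582745) (nat_lit 380) (nat_lit 94848617140) (nat_lit 76) (nat_lit 41910878878) (nat_lit 43) (nat_lit 5) (nat_lit 48) (nat_lit 5) (nat_lit 44) (nat_lit 5) (nat_lit 301) (nat_lit 287) (nat_lit 132)) (XT.lf (nat_lit 0) (nat_lit 101621238415) (nat_lit 228) (nat_lit 102765809259) (nat_lit 304) (nat_lit 93750588346) (nat_lit 40) (nat_lit 5) (nat_lit 43) (nat_lit 5) (nat_lit 44) (nat_lit 5) (nat_lit 302) (nat_lit 287) (nat_lit 131)))) (XT.nd (nat_lit 156) (nat_lit 456) (nat_lit 0) (XT.nd (nat_lit 78) (nat_lit 76) (nat_lit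 0) (XT.lf (nat_lit 0) (nat_lit 2813751491) (nat_lit 228) (nat_lit 266135676203) (nat_lit 304) (nat_lit 44715996779) (nat_lit 37) (nat_lit 5) (nat_lit 40) (nat_lit 5) (nat_lit 41) (nat_lit 5) (nat_lit 303) (nat_lit 287) (nat_lit 130)) (XT.lf (nat_lit 0) (nat_lit 13189563636) (nat_lit 304) (nat_lit 107074225258) (nat_lit 76) (nat_lit 209904615194) (nat_lit 36) (nat_lit 5) (nat_lit 40) (nat_lit 5) (nat_lit 37) (nat_lit 5) (nat_lit 304) (nat_lit 287) (nat_lit 129))) (XT.nd (nat_lit 78) (nat_lit 228) (nat_lit 0) (XT.lf (nat_lit 0) (nat_lit 76616300163) (nat_lit 304) (nat_lit 232524674866) (nat_lit 76) (nat_lit 38691226907) (nat_lit 33) (nat_lit 5) (nat_lit 37) (nat_lit 5) (nat_lit 34) (nat_lit 5) (nat_lit 305) (nat_lit 287) (nat_lit 128)) (XT.nd (nat_lit 78) (nat_lit 228) (nat_lit 0) (XT.lf (nat_lit 0) (nat_lit 149040651848) (nat_lit 304) (nat_lit 9571058465) (nat_lit 76) (nat_lit 208101219873)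 (nat_lit 33) (nat_lit 5) (nat_lit 37) (nat_lit 5) (nat_lit 34) (nat_lit 5) (nat_lit 306) (nat_lit 287) (nat_lit 127)) (XT.lf (nat_lit 0) (nat_lit 231111124765) (nat_lit 304) (nat_lit 148176798403) (nat_lit 76) (nat_lit 7623585232) (nat_lit 30) (nat_lit 5) (nat_lit 34) (nat_lit 5) (nat_lit 31) (nat_lit 5) (nat_lit 307) (nat_lit 287) (nat_lit 126)))))) (XT.nd (nat_lit 35958) (nat_lit 0) (nat_lit 3268) (XT.nd (nat_lit 156) (nat_lit 456) (nat_lit 0) (XT.nd (nat_lit 78) (nat_lit 0) (nat_lit 0) (XT.lf (nat_lit 0) (nat_lit 99020996015) (nat_lit 152) (nat_lit 225116057107) (nat_lit 228) (nat_lit 84369429201) (nat_lit 28) (nat_lit 5) (nat_lit 30) (nat_lit 5) (nat_lit 31) (nat_lit 5) (nat_lit 308) (nat_lit 287) (nat_lit 125)) (XT.lf (nat_lit 0) (nat_lit 371285806133) (nat_lit 152) (nat_lit 55900284387) (nat_lit 228) (nat_lit 4513912208) (nat_lit 28) (nat_lit 5) (nat_lit 30) (nat_lit 5) (nat_lit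 31) (nat_lit 5) (nat_lit 309) (nat_lit 287) (nat_lit 124))) (XT.nd (nat_lit 78) (nat_lit 152) (nat_lit 0) (XT.lf (nat_lit 0) (nat_lit 84513984949) (nat_lit 304) (nat_lit 244413176277) (nat_lit 76) (nat_lit 127488051523) (nat_lit 24) (nat_lit 5) (nat_lit 28) (nat_lit 5) (nat_lit 25) (nat_lit 5) (nat_lit 310) (nat_lit 287) (nat_lit 123)) (XT.nd (nat_lit 78) (nat_lit 0) (nat_lit 0) (XT.lf (nat_lit 0) (nat_lit 25080563798) (nat_lit 152) (nat_lit 157831207562) (nat_lit 228) (nat_lit 300071878386) (nat_lit 22) (nat_lit 5) (nat_lit 24) (nat_lit 5) (nat_lit 25) (nat_lit 5) (nat_lit 311) (nat_lit 287) (nat_lit 122)) (XT.lf (nat_lit 0) (nat_lit 293929404769) (nat_lit 228) (nat_lit 187093707143) (nat_lit 76) (nat_lit 30417048817) (nat_lit 22) (nat_lit 5) (nat_lit 25) (nat_lit 5) (nat_lit 23) (nat_lit 5) (nat_lit 312) (nat_lit 287) (nat_lit 121))))) (XT.nd (nat_lit 156) (nat_lit 0) (nat_lit 76) (XT.nd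 (nat_lit 78) (nat_lit 0) (nat_lit 0) (XT.lf (nat_lit 0) (nat_lit 11016903524) (nat_lit 0) (nat_lit 11016903524) (nat_lit 684) (nat_lit 60676307846) (nat_lit 65) (nat_lit 5) (nat_lit 65) (nat_lit 3) (nat_lit 74) (nat_lit 3) (nat_lit 288) (nat_lit 288) (nat_lit 144)) (XT.lf (nat_lit 0) (nat_lit 47268166304) (nat_lit 684) (nat_lit 35760873477) (nat_lit 760) (nat_lit 88936093284) (nat_lit 65) (nat_lit 5) (nat_lit 74) (nat_lit 3) (nat_lit 75) (nat_lit 5) (nat_lit 289) (nat_lit 288) (nat_lit 143))) (XT.nd (nat_lit 78) (nat_lit 0) (nat_lit 0) (XT.lf (nat_lit 0) (nat_lit 52862001100) (nat_lit 684) (nat_lit 96672966800) (nat_lit 760) (nat_lit 29391800135) (nat_lit 66) (nat_lit 5) (nat_lit 75) (nat_lit 5) (nat_lit 76) (nat_lit 5) (nat_lit 290) (nat_lit 288) (nat_lit 142)) (XT.nd (nat_lit 78) (nat_lit 0) (nat_lit 76) (XT.lf (nat_lit 76) (nat_lit 23927878661) (nat_lit 0) (nat_lit 37381897087) (nat_lit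 760) (nat_lit 125015237653) (nat_lit 67) (nat_lit 5) (nat_lit 66) (nat_lit 5) (nat_lit 76) (nat_lit 5) (nat_lit 291) (nat_lit 288) (nat_lit 141)) (XT.lf (nat_lit 0) (nat_lit 73452137721) (nat_lit 684) (nat_lit 37937253008) (nat_lit 760) (nat_lit 82774790562) (nat_lit 67) (nat_lit 5) (nat_lit 76) (nat_lit 5) (nat_lit 77) (nat_lit 5) (nat_lit 292) (nat_lit 288) (nat_lit 140))))))))
noncomputable def xc122 : XT := (XT.nd (nat_lit 1404) (nat_lit 456) (nat_lit 0) (XT.nd (nat_lit 702) (nat_lit 1444) (nat_lit 0) (XT.nd (nat_lit 312) (nat_lit 988) (nat_lit 0) (XT.nd (nat_lit 156) (nat_lit 608) (nat_lit 0) (XT.nd (nat_lit 78) (nat_lit 0) (nat_lit 0) (XT.lf (nat_lit 0) (nat_lit 88902336437) (nat_lit 684) (nat_lit 103664028551) (nat_lit 760) (nat_lit 9947296310) (nat_lit 68) (nat_lit 5) (nat_lit 77) (nat_lit 5) (nat_lit 78) (nat_lit 5) (nat_lit 293) (nat_lit 288) (nat_lit 139)) (XT.lf (nat_lit 76)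 (nat_lit 35689151714) (nat_lit 0) (nat_lit 73006260154) (nat_lit 760) (nat_lit 102680345791) (nat_lit 69) (nat_lit 5) (nat_lit 68) (nat_lit 5) (nat_lit 78) (nat_lit 5) (nat_lit 294) (nat_lit 288) (nat_lit 138))) (XT.nd (nat_lit 78) (nat_lit 684) (nat_lit 0) (XT.lf (nat_lit 0) (nat_lit 132783230802) (nat_lit 684) (nat_lit 31870115817) (nat_lit 76) (nat_lit 56157911160) (nat_lit 69) (nat_lit 5) (nat_lit 78) (nat_lit 5) (nat_lit 70) (nat_lit 5) (nat_lit 295) (nat_lit 288) (nat_lit 137)) (XT.lf (nat_lit 0) (nat_lit 126261645557) (nat_lit 684) (nat_lit 35738529042) (nat_lit 760) (nat_lit 68841319194) (nat_lit 60) (nat_lit 5) (nat_lit 69) (nat_lit 5) (nat_lit 70) (nat_lit 5) (nat_lit 296) (nat_lit 288) (nat_lit 136)))) (XT.nd (nat_lit 156) (nat_lit 684) (nat_lit 0) (XT.nd (nat_lit 78) (nat_lit 0) (nat_lit 0) (XT.lf (nat_lit 0) (nat_lit 56726165116) (nat_lit 304) (nat_lit 139893777644) (nat_lit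 380) (nat_lit 44900933276) (nat_lit 56) (nat_lit 5) (nat_lit 60) (nat_lit 5) (nat_lit 61) (nat_lit 5) (nat_lit 297) (nat_lit 288) (nat_lit 135)) (XT.lf (nat_lit 0) (nat_lit 234048445137) (nat_lit 304) (nat_lit 2375266148) (nat_lit 380) (nat_lit 16510177360) (nat_lit 56) (nat_lit 5) (nat_lit 60) (nat_lit 5) (nat_lit 61) (nat_lit 5) (nat_lit 298) (nat_lit 288) (nat_lit 134))) (XT.nd (nat_lit 78) (nat_lit 304) (nat_lit 0) (XT.lf (nat_lit 0) (nat_lit 18608249042) (nat_lit 380) (nat_lit 102079233460) (nat_lit 76) (nat_lit 144315945050) (nat_lit 51) (nat_lit 5) (nat_lit 56) (nat_lit 5) (nat_lit 52) (nat_lit 5) (nat_lit 299) (nat_lit 288) (nat_lit 133)) (XT.nd (nat_lit 78) (nat_lit 0) (nat_lit 0) (XT.lf (nat_lit 0) (nat_lit 58072002544) (nat_lit 380) (nat_lit 194050963720) (nat_lit 76) (nat_lit 25796316514) (nat_lit 47) (nat_lit 5) (nat_lit 52) (nat_lit 5) (nat_lit 48) (nat_lit 5) (nat_lit 300)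 (nat_lit 288) (nat_lit 132)) (XT.lf (nat_lit 0) (nat_lit 104535011558) (nat_lit 380) (nat_lit 5506947785) (nat_lit 76) (nat_lit 181634339870) (nat_lit 47) (nat_lit 5) (nat_lit 52) (nat_lit 5) (nat_lit 48) (nat_lit 5) (nat_lit 301) (nat_lit 288) (nat_lit 131)))))) (XT.nd (nat_lit 312) (nat_lit 608) (nat_lit 0) (XT.nd (nat_lit 156) (nat_lit 304) (nat_lit 0) (XT.nd (nat_lit 78) (nat_lit 228) (nat_lit 0) (XT.lf (nat_lit 0) (nat_lit 158640469994) (nat_lit 380) (nat_lit 102432998339) (nat_lit 76) (nat_lit 45264138707) (nat_lit 43) (nat_lit 5) (nat_lit 48) (nat_lit 5) (nat_lit 44) (nat_lit 5) (nat_lit 302) (nat_lit 288) (nat_lit 130)) (XT.lf (nat_lit 0) (nat_lit 109754293199) (nat_lit 228) (nat_lit 110986512004) (nat_lit 304) (nat_lit 101247692760) (nat_lit 40) (nat_lit 5) (nat_lit 43) (nat_lit 5) (nat_lit 44) (nat_lit 5) (nat_lit 303) (nat_lit 288) (nat_lit 129))) (XT.nd (nat_lit 78) (nat_lit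 76) (nat_lit 0) (XT.lf (nat_lit 0) (nat_lit 3042195559) (nat_lit 228) (nat_lit 287425833458) (nat_lit 304) (nat_lit 48290488493) (nat_lit 37) (nat_lit 5) (nat_lit 40) (nat_lit 5) (nat_lit 41) (nat_lit 5) (nat_lit 304) (nat_lit 288) (nat_lit 128)) (XT.lf (nat_lit 0) (nat_lit 14247227611) (nat_lit 304) (nat_lit 115636976852) (nat_lit 76) (nat_lit 226697539454) (nat_lit 36) (nat_lit 5) (nat_lit 40) (nat_lit 5) (nat_lit 37) (nat_lit 5) (nat_lit 305) (nat_lit 288) (nat_lit 127)))) (XT.nd (nat_lit 156) (nat_lit 380) (nat_lit 0) (XT.nd (nat_lit 78) (nat_lit 0) (nat_lit 0) (XT.lf (nat_lit 0) (nat_lit 82747976264) (nat_lit 304) (nat_lit 251123486562) (nat_lit 76) (nat_lit 41787189665) (nat_lit 33) (nat_lit 5) (nat_lit 37) (nat_lit 5) (nat_lit 34) (nat_lit 5) (nat_lit 306) (nat_lit 288) (nat_lit 126)) (XT.lf (nat_lit 0) (nat_lit 160966100373) (nat_lit 304) (nat_lit 10333815093) (nat_lit 76) (nat_lit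 224749932839) (nat_lit 33) (nat_lit 5) (nat_lit 37) (nat_lit 5) (nat_lit 34) (nat_lit 5) (nat_lit 307) (nat_lit 288) (nat_lit 125))) (XT.nd (nat_lit 78) (nat_lit 152) (nat_lit 0) (XT.lf (nat_lit 0) (nat_lit 249602103452) (nat_lit 304) (nat_lit 160028042902) (nat_lit 76) (nat_lit 8234172286) (nat_lit 30) (nat_lit 5) (nat_lit 34) (nat_lit 5) (nat_lit 31) (nat_lit 5) (nat_lit 308) (nat_lit 288) (nat_lit 124)) (XT.nd (nat_lit 78) (nat_lit 0) (nat_lit 0) (XT.lf (nat_lit 0) (nat_lit 106945449066) (nat_lit 152) (nat_lit 243124545591) (nat_lit 228) (nat_lit 91116901834) (nat_lit 28) (nat_lit 5) (nat_lit 30) (nat_lit 5) (nat_lit 31) (nat_lit 5) (nat_lit 309) (nat_lit 288) (nat_lit 123)) (XT.lf (nat_lit 0) (nat_lit 400991238559) (nat_lit 152) (nat_lit 60371570024) (nat_lit 228) (nat_lit 4873097681) (nat_lit 28) (nat_lit 5) (nat_lit 30) (nat_lit 5) (nat_lit 31) (nat_lit 5) (nat_lit 310) (nat_lit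 288) (nat_lit 122))))))) (XT.nd (nat_lit 36348) (nat_lit 0) (nat_lit 1140) (XT.nd (nat_lit 35958) (nat_lit 0) (nat_lit 3344) (XT.nd (nat_lit 35802) (nat_lit 0) (nat_lit 3268) (XT.nd (nat_lit 78) (nat_lit 152) (nat_lit 0) (XT.lf (nat_lit 0) (nat_lit 91276882450) (nat_lit 304) (nat_lit 263963629225) (nat_lit 76) (nat_lit 137687824624) (nat_lit 24) (nat_lit 5) (nat_lit 28) (nat_lit 5) (nat_lit 25) (nat_lit 5) (nat_lit 311) (nat_lit 288) (nat_lit 121)) (XT.lf (nat_lit 0) (nat_lit 27089497013) (nat_lit 152) (nat_lit 170456901851) (nat_lit 228) (nat_lit 324075854373) (nat_lit 22) (nat_lit 5) (nat_lit 24) (nat_lit 5) (nat_lit 25) (nat_lit 5) (nat_lit 312) (nat_lit 288) (nat_lit 120))) (XT.nd (nat_lit 78) (nat_lit 0) (nat_lit 0) (XT.lf (nat_lit 0) (nat_lit 11899912249) (nat_lit 0) (nat_lit 11899912249) (nat_lit 684) (nat_lit 65526920734) (nat_lit 65) (nat_lit 5) (nat_lit 65) (nat_lit 3) (nat_lit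 74) (nat_lit 3) (nat_lit 289) (nat_lit 289) (nat_lit 142)) (XT.lf (nat_lit 0) (nat_lit 51055706689) (nat_lit 684) (nat_lit 38618296764) (nat_lit 760) (nat_lit 96048011440) (nat_lit 65) (nat_lit 5) (nat_lit 74) (nat_lit 3) (nat_lit 75) (nat_lit 5) (nat_lit 290) (nat_lit 289) (nat_lit 141)))) (XT.nd (nat_lit 156) (nat_lit 0) (nat_lit 76) (XT.nd (nat_lit 78) (nat_lit 0) (nat_lit 0) (XT.lf (nat_lit 0) (nat_lit 57096611518) (nat_lit 684) (nat_lit 104403162975) (nat_lit 760) (nat_lit 31740829816) (nat_lit 66) (nat_lit 5) (nat_lit 75) (nat_lit 5) (nat_lit 76) (nat_lit 5) (nat_lit 291) (nat_lit 289) (nat_lit 140)) (XT.lf (nat_lit 76) (nat_lit 25845591882) (nat_lit 0) (nat_lit 40374252091) (nat_lit 760) (nat_lit 135010885218) (nat_lit 67) (nat_lit 5) (nat_lit 66) (nat_lit 5) (nat_lit 76) (nat_lit 5) (nat_lit 292) (nat_lit 289) (nat_lit 139))) (XT.nd (nat_lit 78) (nat_lit 0) (nat_lit 76) (XT.lf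 (nat_lit 0) (nat_lit 79333177268) (nat_lit 684) (nat_lit 40968718096) (nat_lit 760) (nat_lit 89395157583) (nat_lit 67) (nat_lit 5) (nat_lit 76) (nat_lit 5) (nat_lit 77) (nat_lit 5) (nat_lit 293) (nat_lit 289) (nat_lit 138)) (XT.nd (nat_lit 78) (nat_lit 0) (nat_lit 0) (XT.lf (nat_lit 0) (nat_lit 96019065042) (nat_lit 684) (nat_lit 111953523741) (nat_lit 760) (nat_lit 10741920352) (nat_lit 68) (nat_lit 5) (nat_lit 77) (nat_lit 5) (nat_lit 78) (nat_lit 5) (nat_lit 294) (nat_lit 289) (nat_lit 137)) (XT.lf (nat_lit 76) (nat_lit 38547753316) (nat_lit 0) (nat_lit 78847550938) (nat_lit 760) (nat_lit 110890284397) (nat_lit 69) (nat_lit 5) (nat_lit 68) (nat_lit 5) (nat_lit 78) (nat_lit 5) (nat_lit 295) (nat_lit 289) (nat_lit 136)))))) (XT.nd (nat_lit 390) (nat_lit 1064) (nat_lit 0) (XT.nd (nat_lit 156) (nat_lit 684) (nat_lit 0) (XT.nd (nat_lit 78) (nat_lit 684) (nat_lit 0) (XT.lf (nat_lit 0) (nat_lit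 143409821769) (nat_lit 684) (nat_lit 34416288582) (nat_lit 76) (nat_lit 60649836008) (nat_lit 69) (nat_lit 5) (nat_lit 78) (nat_lit 5) (nat_lit 70) (nat_lit 5) (nat_lit 296) (nat_lit 289) (nat_lit 135)) (XT.lf (nat_lit 0) (nat_lit 136365864355) (nat_lit 684) (nat_lit 38598016739) (nat_lit 760) (nat_lit 74344733301) (nat_lit 60) (nat_lit 5) (nat_lit 69) (nat_lit 5) (nat_lit 70) (nat_lit 5) (nat_lit 297) (nat_lit 289) (nat_lit 134))) (XT.nd (nat_lit 78) (nat_lit 380) (nat_lit 0) (XT.lf (nat_lit 0) (nat_lit 61267598934) (nat_lit 304) (nat_lit 151085404549) (nat_lit 380) (nat_lit 48489356153) (nat_lit 56) (nat_lit 5) (nat_lit 60) (nat_lit 5) (nat_lit 61) (nat_lit 5) (nat_lit 298) (nat_lit 289) (nat_lit 133)) (XT.nd (nat_lit 78) (nat_lit 380) (nat_lit 0) (XT.lf (nat_lit 0) (nat_lit 252775413905) (nat_lit 304) (nat_lit 2565402897) (nat_lit 380) (nat_lit 17827610266) (nat_lit 56) (nat_lit 5)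 (nat_lit 60) (nat_lit 5) (nat_lit 61) (nat_lit 5) (nat_lit 299) (nat_lit 289) (nat_lit 132)) (XT.lf (nat_lit 0) (nat_lit 20099987480) (nat_lit 380) (nat_lit 110242333934) (nat_lit 76) (nat_lit 155861215623) (nat_lit 51) (nat_lit 5) (nat_lit 56) (nat_lit 5) (nat_lit 52) (nat_lit 5) (nat_lit 300) (nat_lit 289) (nat_lit 131))))) (XT.nd (nat_lit 156) (nat_lit 760) (nat_lit 0) (XT.nd (nat_lit 78) (nat_lit 0) (nat_lit 0) (XT.lf (nat_lit 0) (nat_lit 62720664685) (nat_lit 380) (nat_lit 209571791510) (nat_lit 76) (nat_lit 27860214114) (nat_lit 47) (nat_lit 5) (nat_lit 52) (nat_lit 5) (nat_lit 48) (nat_lit 5) (nat_lit 301) (nat_lit 289) (nat_lit 130)) (XT.lf (nat_lit 0) (nat_lit 112900499462) (nat_lit 380) (nat_lit 5944494990) (nat_lit 76) (nat_lit 196165265096) (nat_lit 47) (nat_lit 5) (nat_lit 52) (nat_lit 5) (nat_lit 48) (nat_lit 5) (nat_lit 302) (nat_lit 289) (nat_lit 129))) (XT.nd (nat_lit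 78) (nat_lit 456) (nat_lit 0) (XT.lf (nat_lit 0) (nat_lit 171334245855) (nat_lit 380) (nat_lit 110624630515) (nat_lit 76) (nat_lit 48885603752) (nat_lit 43) (nat_lit 5) (nat_lit 48) (nat_lit 5) (nat_lit 44) (nat_lit 5) (nat_lit 303) (nat_lit 289) (nat_lit 128)) (XT.nd (nat_lit 78) (nat_lit 228) (nat_lit 0) (XT.lf (nat_lit 0) (nat_lit 118537513636) (nat_lit 228) (nat_lit 119864951144) (nat_lit 304) (nat_lit 109344985329) (nat_lit 40) (nat_lit 5) (nat_lit 43) (nat_lit 5) (nat_lit 44) (nat_lit 5) (nat_lit 304) (nat_lit 289) (nat_lit 127)) (XT.lf (nat_lit 0) (nat_lit 3288438100) (nat_lit 228) (nat_lit 310419302705) (nat_lit 304) (nat_lit 52151337287) (nat_lit 37) (nat_lit 5) (nat_lit 40) (nat_lit 5) (nat_lit 41) (nat_lit 5) (nat_lit 305) (nat_lit 289) (nat_lit 126))))))))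
noncomputable def xc123 : XT := (XT.nd (nat_lit 37206) (nat_lit 0) (nat_lit 304) (XT.nd (nat_lit 36426) (nat_lit 0) (nat_lit 2052) (XT.nd (nat_lit 312) (nat_lit 456) (nat_lit 0) (XT.nd (nat_lit 156) (nat_lit 228) (nat_lit 0) (XT.nd (nat_lit 78) (nat_lit 228) (nat_lit 0) (XT.lf (nat_lit 0) (nat_lit 15389148210) (nat_lit 304) (nat_lit 124885203152) (nat_lit 76) (nat_lit 244833818472) (nat_lit 36) (nat_lit 5) (nat_lit 40) (nat_lit 5) (nat_lit 37) (nat_lit 5) (nat_lit 306) (nat_lit 289) (nat_lit 125)) (XT.lf (nat_lit 0) (nat_lit 89369848048) (nat_lit 304) (nat_lit 271210654330) (nat_lit 76) (nat_lit 45130734631) (nat_lit 33) (nat_lit 5) (nat_lit 37) (nat_lit 5) (nat_lit 34) (nat_lit 5) (nat_lit 307) (nat_lit 289) (nat_lit 124))) (XT.nd (nat_lit 78) (nat_lit 228) (nat_lit 0) (XT.lf (nat_lit 0) (nat_lit 173845271442) (nat_lit 304) (nat_lit 11158009971) (nat_lit 76) (nat_lit 242730455052) (nat_lit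 33) (nat_lit 5) (nat_lit 37) (nat_lit 5) (nat_lit 34) (nat_lit 5) (nat_lit 308) (nat_lit 289) (nat_lit 123)) (XT.lf (nat_lit 0) (nat_lit 269572062456) (nat_lit 304) (nat_lit 172827800589) (nat_lit 76) (nat_lit 8893506408) (nat_lit 30) (nat_lit 5) (nat_lit 34) (nat_lit 5) (nat_lit 31) (nat_lit 5) (nat_lit 309) (nat_lit 289) (nat_lit 122)))) (XT.nd (nat_lit 156) (nat_lit 304) (nat_lit 0) (XT.nd (nat_lit 78) (nat_lit 0) (nat_lit 0) (XT.lf (nat_lit 0) (nat_lit 115503462710) (nat_lit 152) (nat_lit 262573826725) (nat_lit 228) (nat_lit 98404469255) (nat_lit 28) (nat_lit 5) (nat_lit 30) (nat_lit 5) (nat_lit 31) (nat_lit 5) (nat_lit 310) (nat_lit 289) (nat_lit 121)) (XT.lf (nat_lit 0) (nat_lit 433072739234) (nat_lit 152) (nat_lit 65200663668) (nat_lit 228) (nat_lit 5261292972) (nat_lit 28) (nat_lit 5) (nat_lit 30) (nat_lit 5) (nat_lit 31) (nat_lit 5) (nat_lit 311) (nat_lit 289) (nat_lit 120)))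 (XT.nd (nat_lit 35802) (nat_lit 0) (nat_lit 3116) (XT.lf (nat_lit 0) (nat_lit 98580558000) (nat_lit 304) (nat_lit 285078489492) (nat_lit 76) (nat_lit 148703475577) (nat_lit 24) (nat_lit 5) (nat_lit 28) (nat_lit 5) (nat_lit 25) (nat_lit 5) (nat_lit 312) (nat_lit 289) (nat_lit 119)) (XT.nd (nat_lit 78) (nat_lit 0) (nat_lit 0) (XT.lf (nat_lit 0) (nat_lit 12853325361) (nat_lit 0) (nat_lit 12853325361) (nat_lit 684) (nat_lit 70766080788) (nat_lit 65) (nat_lit 5) (nat_lit 65) (nat_lit 3) (nat_lit 74) (nat_lit 3) (nat_lit 290) (nat_lit 290) (nat_lit 140)) (XT.lf (nat_lit 0) (nat_lit 55145381915) (nat_lit 684) (nat_lit 41704805609) (nat_lit 760) (nat_lit 103729306652) (nat_lit 65) (nat_lit 5) (nat_lit 74) (nat_lit 3) (nat_lit 75) (nat_lit 5) (nat_lit 291) (nat_lit 290) (nat_lit 139)))))) (XT.nd (nat_lit 390) (nat_lit 1140) (nat_lit 0) (XT.nd (nat_lit 156) (nat_lit 0) (nat_lit 76) (XT.nd (nat_lit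 78) (nat_lit 0) (nat_lit 0) (XT.lf (nat_lit 0) (nat_lit 61669184687) (nat_lit 684) (nat_lit 112752294297) (nat_lit 760) (nat_lit 34278112037) (nat_lit 66) (nat_lit 5) (nat_lit 75) (nat_lit 5) (nat_lit 76) (nat_lit 5) (nat_lit 292) (nat_lit 290) (nat_lit 138)) (XT.lf (nat_lit 76) (nat_lit 27916225283) (nat_lit 0) (nat_lit 43605738243) (nat_lit 760) (nat_lit 145806979417) (nat_lit 67) (nat_lit 5) (nat_lit 66) (nat_lit 5) (nat_lit 76) (nat_lit 5) (nat_lit 293) (nat_lit 290) (nat_lit 137))) (XT.nd (nat_lit 78) (nat_lit 0) (nat_lit 76) (XT.lf (nat_lit 0) (nat_lit 85684005429) (nat_lit 684) (nat_lit 44243201868) (nat_lit 760) (nat_lit 96545384538) (nat_lit 67) (nat_lit 5) (nat_lit 76) (nat_lit 5) (nat_lit 77) (nat_lit 5) (nat_lit 294) (nat_lit 290) (nat_lit 136)) (XT.nd (nat_lit 78) (nat_lit 0) (nat_lit 0) (XT.lf (nat_lit 0) (nat_lit 103704484012) (nat_lit 684) (nat_lit 120906695993) (nat_lit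 760) (nat_lit 11600279757) (nat_lit 68) (nat_lit 5) (nat_lit 77) (nat_lit 5) (nat_lit 78) (nat_lit 5) (nat_lit 295) (nat_lit 290) (nat_lit 135)) (XT.lf (nat_lit 76) (nat_lit 41634548088) (nat_lit 0) (nat_lit 85156032287) (nat_lit 760) (nat_lit 119757658505) (nat_lit 69) (nat_lit 5) (nat_lit 68) (nat_lit 5) (nat_lit 78) (nat_lit 5) (nat_lit 296) (nat_lit 290) (nat_lit 134))))) (XT.nd (nat_lit 156) (nat_lit 684) (nat_lit 0) (XT.nd (nat_lit 78) (nat_lit 684) (nat_lit 0) (XT.lf (nat_lit 0) (nat_lit 154885978998) (nat_lit 684) (nat_lit 37166645424) (nat_lit 76) (nat_lit 65501215855) (nat_lit 69) (nat_lit 5) (nat_lit 78) (nat_lit 5) (nat_lit 70) (nat_lit 5) (nat_lit 297) (nat_lit 290) (nat_lit 133)) (XT.lf (nat_lit 0) (nat_lit 147277951708) (nat_lit 684) (nat_lit 41686205621) (nat_lit 760) (nat_lit 80288975692) (nat_lit 60) (nat_lit 5) (nat_lit 69) (nat_lit 5) (nat_lit 70) (nat_lit 5) (nat_lit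 298) (nat_lit 290) (nat_lit 132))) (XT.nd (nat_lit 78) (nat_lit 380) (nat_lit 0) (XT.lf (nat_lit 0) (nat_lit 66171870883) (nat_lit 304) (nat_lit 163172343818) (nat_lit 380) (nat_lit 52365373828) (nat_lit 56) (nat_lit 5) (nat_lit 60) (nat_lit 5) (nat_lit 61) (nat_lit 5) (nat_lit 299) (nat_lit 290) (nat_lit 131)) (XT.nd (nat_lit 78) (nat_lit 380) (nat_lit 0) (XT.lf (nat_lit 0) (nat_lit 273000098901) (nat_lit 304) (nat_lit 2770734115) (nat_lit 380) (nat_lit 19250920182) (nat_lit 56) (nat_lit 5) (nat_lit 60) (nat_lit 5) (nat_lit 61) (nat_lit 5) (nat_lit 300) (nat_lit 290) (nat_lit 130)) (XT.lf (nat_lit 0) (nat_lit 21710625809) (nat_lit 380) (nat_lit 119058944412) (nat_lit 76) (nat_lit 168330108561) (nat_lit 51) (nat_lit 5) (nat_lit 56) (nat_lit 5) (nat_lit 52) (nat_lit 5) (nat_lit 301) (nat_lit 290) (nat_lit 129))))))) (XT.nd (nat_lit 702) (nat_lit 152) (nat_lit 0) (XT.nd (nat_lit 312) (nat_lit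 760) (nat_lit 0) (XT.nd (nat_lit 156) (nat_lit 532) (nat_lit 0) (XT.nd (nat_lit 78) (nat_lit 0) (nat_lit 0) (XT.lf (nat_lit 0) (nat_lit 67740805805) (nat_lit 380) (nat_lit 226334749073) (nat_lit 76) (nat_lit 30089196092) (nat_lit 47) (nat_lit 5) (nat_lit 52) (nat_lit 5) (nat_lit 48) (nat_lit 5) (nat_lit 302) (nat_lit 290) (nat_lit 128)) (XT.lf (nat_lit 0) (nat_lit 121934843071) (nat_lit 380) (nat_lit 6417475184) (nat_lit 76) (nat_lit 211858638941) (nat_lit 47) (nat_lit 5) (nat_lit 52) (nat_lit 5) (nat_lit 48) (nat_lit 5) (nat_lit 303) (nat_lit 290) (nat_lit 127))) (XT.nd (nat_lit 78) (nat_lit 228) (nat_lit 0) (XT.lf (nat_lit 0) (nat_lit 185043161675) (nat_lit 380) (nat_lit 119472022345) (nat_lit 76) (nat_lit 52796738360) (nat_lit 43) (nat_lit 5) (nat_lit 48) (nat_lit 5) (nat_lit 44) (nat_lit 5) (nat_lit 304) (nat_lit 290) (nat_lit 126)) (XT.lf (nat_lit 0) (nat_lit 128022981274) (nat_lit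 228) (nat_lit 129453734152) (nat_lit 304) (nat_lit 118090421218) (nat_lit 40) (nat_lit 5) (nat_lit 43) (nat_lit 5) (nat_lit 44) (nat_lit 5) (nat_lit 305) (nat_lit 290) (nat_lit 125)))) (XT.nd (nat_lit 156) (nat_lit 456) (nat_lit 0) (XT.nd (nat_lit 78) (nat_lit 76) (nat_lit 0) (XT.lf (nat_lit 0) (nat_lit 3553971049) (nat_lit 228) (nat_lit 335252334722) (nat_lit 304) (nat_lit 56321394986) (nat_lit 37) (nat_lit 5) (nat_lit 40) (nat_lit 5) (nat_lit 41) (nat_lit 5) (nat_lit 306) (nat_lit 290) (nat_lit 124)) (XT.lf (nat_lit 0) (nat_lit 16622116820) (nat_lit 304) (nat_lit 134873677285) (nat_lit 76) (nat_lit 264420931925) (nat_lit 36) (nat_lit 5) (nat_lit 40) (nat_lit 5) (nat_lit 37) (nat_lit 5) (nat_lit 307) (nat_lit 290) (nat_lit 123))) (XT.nd (nat_lit 78) (nat_lit 228) (nat_lit 0) (XT.lf (nat_lit 0) (nat_lit 96521179447) (nat_lit 304) (nat_lit 292905182297) (nat_lit 76) (nat_lit 48741681907)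 (nat_lit 33) (nat_lit 5) (nat_lit 37) (nat_lit 5) (nat_lit 34) (nat_lit 5) (nat_lit 308) (nat_lit 290) (nat_lit 122)) (XT.nd (nat_lit 78) (nat_lit 228) (nat_lit 0) (XT.lf (nat_lit 0) (nat_lit 187754507561) (nat_lit 304) (nat_lit 12048498565) (nat_lit 76) (nat_lit 262149343776) (nat_lit 33) (nat_lit 5) (nat_lit 37) (nat_lit 5) (nat_lit 34) (nat_lit 5) (nat_lit 309) (nat_lit 290) (nat_lit 121)) (XT.lf (nat_lit 0) (nat_lit 291139362713) (nat_lit 304) (nat_lit 186651893510) (nat_lit 76) (nat_lit 9605501615) (nat_lit 30) (nat_lit 5) (nat_lit 34) (nat_lit 5) (nat_lit 31) (nat_lit 5) (nat_lit 310) (nat_lit 290) (nat_lit 120)))))) (XT.nd (nat_lit 36270) (nat_lit 0) (nat_lit 2432) (XT.nd (nat_lit 36036) (nat_lit 0) (nat_lit 2812) (XT.nd (nat_lit 35958) (nat_lit 0) (nat_lit 2812) (XT.lf (nat_lit 0) (nat_lit 124745778236) (nat_lit 152) (nat_lit 283579147718) (nat_lit 228) (nat_lit 106275296681)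 (nat_lit 28) (nat_lit 5) (nat_lit 30) (nat_lit 5) (nat_lit 31) (nat_lit 5) (nat_lit 311) (nat_lit 290) (nat_lit 119)) (XT.lf (nat_lit 0) (nat_lit 13882808925) (nat_lit 0) (nat_lit 13882808925) (nat_lit 684) (nat_lit 76424800718) (nat_lit 65) (nat_lit 5) (nat_lit 65) (nat_lit 3) (nat_lit 74) (nat_lit 3) (nat_lit 291) (nat_lit 291) (nat_lit 138))) (XT.nd (nat_lit 78) (nat_lit 0) (nat_lit 76) (XT.lf (nat_lit 0) (nat_lit 59561486654) (nat_lit 684) (nat_lit 45038656710) (nat_lit 760) (nat_lit 112025468655) (nat_lit 65) (nat_lit 5) (nat_lit 74) (nat_lit 3) (nat_lit 75) (nat_lit 5) (nat_lit 292) (nat_lit 291) (nat_lit 137)) (XT.nd (nat_lit 78) (nat_lit 0) (nat_lit 0) (XT.lf (nat_lit 0) (nat_lit 66606872623) (nat_lit 684) (nat_lit 121769801473) (nat_lit 760) (nat_lit 37018659899) (nat_lit 66) (nat_lit 5) (nat_lit 75) (nat_lit 5) (nat_lit 76) (nat_lit 5) (nat_lit 293) (nat_lit 291) (nat_lit 136))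 (XT.lf (nat_lit 76) (nat_lit 30152083362) (nat_lit 0) (nat_lit 47095522736) (nat_lit 760) (nat_lit 157467442590) (nat_lit 67) (nat_lit 5) (nat_lit 66) (nat_lit 5) (nat_lit 76) (nat_lit 5) (nat_lit 294) (nat_lit 291) (nat_lit 135))))) (XT.nd (nat_lit 156) (nat_lit 532) (nat_lit 0) (XT.nd (nat_lit 78) (nat_lit 0) (nat_lit 76) (XT.lf (nat_lit 0) (nat_lit 92542304378) (nat_lit 684) (nat_lit 47780074276) (nat_lit 760) (nat_lit 104267827328) (nat_lit 67) (nat_lit 5) (nat_lit 76) (nat_lit 5) (nat_lit 77) (nat_lit 5) (nat_lit 295) (nat_lit 291) (nat_lit 134)) (XT.lf (nat_lit 0) (nat_lit 112004181010) (nat_lit 684) (nat_lit 130576565650) (nat_lit 760) (nat_lit 12527449751) (nat_lit 68) (nat_lit 5) (nat_lit 77) (nat_lit 5) (nat_lit 78) (nat_lit 5) (nat_lit 296) (nat_lit 291) (nat_lit 133))) (XT.nd (nat_lit 78) (nat_lit 608) (nat_lit 0) (XT.lf (nat_lit 76) (nat_lit 44967862095) (nat_lit 0) (nat_lit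 91969095522) (nat_lit 760) (nat_lit 129334971593) (nat_lit 69) (nat_lit 5) (nat_lit 68) (nat_lit 5) (nat_lit 78) (nat_lit 5) (nat_lit 297) (nat_lit 291) (nat_lit 132)) (XT.nd (nat_lit 78) (nat_lit 684) (nat_lit 0) (XT.lf (nat_lit 0) (nat_lit 167279747824) (nat_lit 684) (nat_lit 40137451128) (nat_lit 76) (nat_lit 70740792690) (nat_lit 69) (nat_lit 5) (nat_lit 78) (nat_lit 5) (nat_lit 70) (nat_lit 5) (nat_lit 298) (nat_lit 291) (nat_lit 131)) (XT.lf (nat_lit 0) (nat_lit 159062604001) (nat_lit 684) (nat_lit 45021400033) (nat_lit 760) (nat_lit 86709233432) (nat_lit 60) (nat_lit 5) (nat_lit 69) (nat_lit 5) (nat_lit 70) (nat_lit 5) (nat_lit 299) (nat_lit 291) (nat_lit 130))))))))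
noncomputable def xc124 : XT := (XT.nd (nat_lit 37362) (nat_lit 0) (nat_lit 228) (XT.nd (nat_lit 702) (nat_lit 456) (nat_lit 0) (XT.nd (nat_lit 312) (nat_lit 836) (nat_lit 0) (XT.nd (nat_lit 156) (nat_lit 684) (nat_lit 0) (XT.nd (nat_lit 78) (nat_lit 0) (nat_lit 0) (XT.lf (nat_lit 0) (nat_lit 71468076001) (nat_lit 304) (nat_lit 176226222978) (nat_lit 380) (nat_lit 56551919563) (nat_lit 56) (nat_lit 5) (nat_lit 60) (nat_lit 5) (nat_lit 61) (nat_lit 5) (nat_lit 300) (nat_lit 291) (nat_lit 129)) (XT.lf (nat_lit 0) (nat_lit 294842380375) (nat_lit 304) (nat_lit 2992477709) (nat_lit 380) (nat_lit 20788508453) (nat_lit 56) (nat_lit 5) (nat_lit 60) (nat_lit 5) (nat_lit 61) (nat_lit 5) (nat_lit 301) (nat_lit 291) (nat_lit 128))) (XT.nd (nat_lit 78) (nat_lit 304) (nat_lit 0) (XT.lf (nat_lit 0) (nat_lit 23449738674) (nat_lit 380) (nat_lit 128581279790) (nat_lit 76) (nat_lit 181796513548) (nat_lit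 51) (nat_lit 5) (nat_lit 56) (nat_lit 5) (nat_lit 52) (nat_lit 5) (nat_lit 302) (nat_lit 291) (nat_lit 127)) (XT.lf (nat_lit 0) (nat_lit 73162203281) (nat_lit 380) (nat_lit 244439140661) (nat_lit 76) (nat_lit 32496473111) (nat_lit 47) (nat_lit 5) (nat_lit 52) (nat_lit 5) (nat_lit 48) (nat_lit 5) (nat_lit 303) (nat_lit 291) (nat_lit 126)))) (XT.nd (nat_lit 156) (nat_lit 532) (nat_lit 0) (XT.nd (nat_lit 78) (nat_lit 304) (nat_lit 0) (XT.lf (nat_lit 0) (nat_lit 131691605528) (nat_lit 380) (nat_lit 6928661775) (nat_lit 76) (nat_lit 228807460919) (nat_lit 47) (nat_lit 5) (nat_lit 52) (nat_lit 5) (nat_lit 48) (nat_lit 5) (nat_lit 304) (nat_lit 291) (nat_lit 125)) (XT.lf (nat_lit 0) (nat_lit 199848480307) (nat_lit 380) (nat_lit 129027573390) (nat_lit 76) (nat_lit 57020722892) (nat_lit 43) (nat_lit 5) (nat_lit 48) (nat_lit 5) (nat_lit 44) (nat_lit 5) (nat_lit 305) (nat_lit 291) (nat_lit 124)))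 (XT.nd (nat_lit 78) (nat_lit 304) (nat_lit 0) (XT.lf (nat_lit 0) (nat_lit 138266934443) (nat_lit 228) (nat_lit 139809678732) (nat_lit 304) (nat_lit 127535800544) (nat_lit 40) (nat_lit 5) (nat_lit 43) (nat_lit 5) (nat_lit 44) (nat_lit 5) (nat_lit 306) (nat_lit 291) (nat_lit 123)) (XT.nd (nat_lit 78) (nat_lit 76) (nat_lit 0) (XT.lf (nat_lit 0) (nat_lit 3840395988) (nat_lit 228) (nat_lit 362072082371) (nat_lit 304) (nat_lit 60825349654) (nat_lit 37) (nat_lit 5) (nat_lit 40) (nat_lit 5) (nat_lit 41) (nat_lit 5) (nat_lit 307) (nat_lit 291) (nat_lit 122)) (XT.lf (nat_lit 0) (nat_lit 17953460887) (nat_lit 304) (nat_lit 145661563478) (nat_lit 76) (nat_lit 285574956251) (nat_lit 36) (nat_lit 5) (nat_lit 40) (nat_lit 5) (nat_lit 37) (nat_lit 5) (nat_lit 308) (nat_lit 291) (nat_lit 121)))))) (XT.nd (nat_lit 36270) (nat_lit 0) (nat_lit 2660) (XT.nd (nat_lit 156) (nat_lit 228) (nat_lit 0) (XT.nd (nat_lit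 78) (nat_lit 0) (nat_lit 0) (XT.lf (nat_lit 0) (nat_lit 104244368620) (nat_lit 304) (nat_lit 316335604100) (nat_lit 76) (nat_lit 52641435274) (nat_lit 33) (nat_lit 5) (nat_lit 37) (nat_lit 5) (nat_lit 34) (nat_lit 5) (nat_lit 309) (nat_lit 291) (nat_lit 120)) (XT.lf (nat_lit 0) (nat_lit 202776252256) (nat_lit 304) (nat_lit 13010533282) (nat_lit 76) (nat_lit 283121679069) (nat_lit 33) (nat_lit 5) (nat_lit 37) (nat_lit 5) (nat_lit 34) (nat_lit 5) (nat_lit 310) (nat_lit 291) (nat_lit 119))) (XT.nd (nat_lit 36036) (nat_lit 0) (nat_lit 2660) (XT.lf (nat_lit 0) (nat_lit 314431827969) (nat_lit 304) (nat_lit 201582217893) (nat_lit 76) (nat_lit 10374383012) (nat_lit 30) (nat_lit 5) (nat_lit 34) (nat_lit 5) (nat_lit 31) (nat_lit 5) (nat_lit 311) (nat_lit 291) (nat_lit 118)) (XT.lf (nat_lit 0) (nat_lit 14994477479) (nat_lit 0) (nat_lit 14994477479) (nat_lit 684) (nat_lit 82536584387) (nat_lit 65)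 (nat_lit 5) (nat_lit 65) (nat_lit 3) (nat_lit 74) (nat_lit 3) (nat_lit 292) (nat_lit 292) (nat_lit 136)))) (XT.nd (nat_lit 156) (nat_lit 0) (nat_lit 76) (XT.nd (nat_lit 78) (nat_lit 0) (nat_lit 76) (XT.lf (nat_lit 0) (nat_lit 64330241479) (nat_lit 684) (nat_lit 48639577310) (nat_lit 760) (nat_lit 120985634980) (nat_lit 65) (nat_lit 5) (nat_lit 74) (nat_lit 3) (nat_lit 75) (nat_lit 5) (nat_lit 293) (nat_lit 292) (nat_lit 135)) (XT.lf (nat_lit 0) (nat_lit 71938983099) (nat_lit 684) (nat_lit 131509091037) (nat_lit 760) (nat_lit 39978694271) (nat_lit 66) (nat_lit 5) (nat_lit 75) (nat_lit 5) (nat_lit 76) (nat_lit 5) (nat_lit 294) (nat_lit 292) (nat_lit 134))) (XT.nd (nat_lit 78) (nat_lit 0) (nat_lit 76) (XT.lf (nat_lit 76) (nat_lit 32566444866) (nat_lit 0) (nat_lit 50864300900) (nat_lit 760) (nat_lit 170061327040) (nat_lit 67) (nat_lit 5) (nat_lit 66) (nat_lit 5) (nat_lit 76) (nat_lit 5) (nat_lit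 295) (nat_lit 292) (nat_lit 133)) (XT.nd (nat_lit 78) (nat_lit 0) (nat_lit 76) (XT.lf (nat_lit 0) (nat_lit 99948756727) (nat_lit 684) (nat_lit 51600265076) (nat_lit 760) (nat_lit 112608235019) (nat_lit 67) (nat_lit 5) (nat_lit 76) (nat_lit 5) (nat_lit 77) (nat_lit 5) (nat_lit 296) (nat_lit 292) (nat_lit 132)) (XT.lf (nat_lit 0) (nat_lit 120967377526) (nat_lit 684) (nat_lit 141020405218) (nat_lit 760) (nat_lit 13528914947) (nat_lit 68) (nat_lit 5) (nat_lit 77) (nat_lit 5) (nat_lit 78) (nat_lit 5) (nat_lit 297) (nat_lit 292) (nat_lit 131))))))) (XT.nd (nat_lit 702) (nat_lit 760) (nat_lit 0) (XT.nd (nat_lit 312) (nat_lit 988) (nat_lit 0) (XT.nd (nat_lit 156) (nat_lit 912) (nat_lit 0) (XT.nd (nat_lit 78) (nat_lit 0) (nat_lit 76) (XT.lf (nat_lit 76) (nat_lit 48567477414) (nat_lit 0) (nat_lit 99327120980) (nat_lit 760) (nat_lit 139678940453) (nat_lit 69) (nat_lit 5) (nat_lit 68) (nat_lit 5)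 (nat_lit 78) (nat_lit 5) (nat_lit 298) (nat_lit 292) (nat_lit 130)) (XT.lf (nat_lit 0) (nat_lit 180664605794) (nat_lit 684) (nat_lit 43346281640) (nat_lit 76) (nat_lit 76399609917) (nat_lit 69) (nat_lit 5) (nat_lit 78) (nat_lit 5) (nat_lit 70) (nat_lit 5) (nat_lit 299) (nat_lit 292) (nat_lit 129))) (XT.nd (nat_lit 78) (nat_lit 304) (nat_lit 0) (XT.lf (nat_lit 0) (nat_lit 171789683786) (nat_lit 684) (nat_lit 48623367490) (nat_lit 760) (nat_lit 93643519846) (nat_lit 60) (nat_lit 5) (nat_lit 69) (nat_lit 5) (nat_lit 70) (nat_lit 5) (nat_lit 300) (nat_lit 292) (nat_lit 128)) (XT.lf (nat_lit 0) (nat_lit 77187627232) (nat_lit 304) (nat_lit 190324399394) (nat_lit 380) (nat_lit 61073771883) (nat_lit 56) (nat_lit 5) (nat_lit 60) (nat_lit 5) (nat_lit 61) (nat_lit 5) (nat_lit 301) (nat_lit 292) (nat_lit 127)))) (XT.nd (nat_lit 156) (nat_lit 608) (nat_lit 0) (XT.nd (nat_lit 78) (nat_lit 380) (nat_lit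 0) (XT.lf (nat_lit 0) (nat_lit 318431720018) (nat_lit 304) (nat_lit 3231948683) (nat_lit 380) (nat_lit 22449458347) (nat_lit 56) (nat_lit 5) (nat_lit 60) (nat_lit 5) (nat_lit 61) (nat_lit 5) (nat_lit 302) (nat_lit 292) (nat_lit 126)) (XT.lf (nat_lit 0) (nat_lit 25327657755) (nat_lit 380) (nat_lit 138865741556) (nat_lit 76) (nat_lit 196340231462) (nat_lit 51) (nat_lit 5) (nat_lit 56) (nat_lit 5) (nat_lit 52) (nat_lit 5) (nat_lit 303) (nat_lit 292) (nat_lit 125))) (XT.nd (nat_lit 78) (nat_lit 304) (nat_lit 0) (XT.lf (nat_lit 0) (nat_lit 79017008256) (nat_lit 380) (nat_lit 263992224299) (nat_lit 76) (nat_lit 35096312128) (nat_lit 47) (nat_lit 5) (nat_lit 52) (nat_lit 5) (nat_lit 48) (nat_lit 5) (nat_lit 304) (nat_lit 292) (nat_lit 124)) (XT.nd (nat_lit 78) (nat_lit 304) (nat_lit 0) (XT.lf (nat_lit 0) (nat_lit 142228627223) (nat_lit 380) (nat_lit 7481058778) (nat_lit 76) (nat_lit 247112169985)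 (nat_lit 47) (nat_lit 5) (nat_lit 52) (nat_lit 5) (nat_lit 48) (nat_lit 5) (nat_lit 305) (nat_lit 292) (nat_lit 123)) (XT.lf (nat_lit 0) (nat_lit 215837958268) (nat_lit 380) (nat_lit 139347883905) (nat_lit 76) (nat_lit 61582591168) (nat_lit 43) (nat_lit 5) (nat_lit 48) (nat_lit 5) (nat_lit 44) (nat_lit 5) (nat_lit 306) (nat_lit 292) (nat_lit 122)))))) (XT.nd (nat_lit 36426) (nat_lit 0) (nat_lit 2432) (XT.nd (nat_lit 156) (nat_lit 304) (nat_lit 0) (XT.nd (nat_lit 78) (nat_lit 228) (nat_lit 0) (XT.lf (nat_lit 0) (nat_lit 149330102184) (nat_lit 228) (nat_lit 150994149402) (nat_lit 304) (nat_lit 137737074764) (nat_lit 40) (nat_lit 5) (nat_lit 43) (nat_lit 5) (nat_lit 44) (nat_lit 5) (nat_lit 307) (nat_lit 292) (nat_lit 121)) (XT.lf (nat_lit 0) (nat_lit 4149434298) (nat_lit 228) (nat_lit 391037472479) (nat_lit 304) (nat_lit 65689871341) (nat_lit 37) (nat_lit 5) (nat_lit 40) (nat_lit 5) (nat_lit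 41) (nat_lit 5) (nat_lit 308) (nat_lit 292) (nat_lit 120))) (XT.nd (nat_lit 78) (nat_lit 228) (nat_lit 0) (XT.lf (nat_lit 0) (nat_lit 19391087827) (nat_lit 304) (nat_lit 157312767029) (nat_lit 76) (nat_lit 308421252625) (nat_lit 36) (nat_lit 5) (nat_lit 40) (nat_lit 5) (nat_lit 37) (nat_lit 5) (nat_lit 309) (nat_lit 292) (nat_lit 119)) (XT.nd (nat_lit 78) (nat_lit 0) (nat_lit 0) (XT.lf (nat_lit 0) (nat_lit 112585199675) (nat_lit 304) (nat_lit 341640743939) (nat_lit 76) (nat_lit 56853109162) (nat_lit 33) (nat_lit 5) (nat_lit 37) (nat_lit 5) (nat_lit 34) (nat_lit 5) (nat_lit 310) (nat_lit 292) (nat_lit 118)) (XT.lf (nat_lit 0) (nat_lit 218999539071) (nat_lit 304) (nat_lit 14049794011) (nat_lit 76) (nat_lit 305771745863) (nat_lit 33) (nat_lit 5) (nat_lit 37) (nat_lit 5) (nat_lit 34) (nat_lit 5) (nat_lit 311) (nat_lit 292) (nat_lit 117))))) (XT.nd (nat_lit 156) (nat_lit 0) (nat_lit 76) (XT.nd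 (nat_lit 78) (nat_lit 0) (nat_lit 0) (XT.lf (nat_lit 0) (nat_lit 16194930602) (nat_lit 0) (nat_lit 16194930602) (nat_lit 684) (nat_lit 89137624660) (nat_lit 65) (nat_lit 5) (nat_lit 65) (nat_lit 3) (nat_lit 74) (nat_lit 3) (nat_lit 293) (nat_lit 293) (nat_lit 134)) (XT.lf (nat_lit 0) (nat_lit 69479949458) (nat_lit 684) (nat_lit 52528881409) (nat_lit 760) (nat_lit 130662881554) (nat_lit 65) (nat_lit 5) (nat_lit 74) (nat_lit 3) (nat_lit 75) (nat_lit 5) (nat_lit 294) (nat_lit 293) (nat_lit 133))) (XT.nd (nat_lit 78) (nat_lit 0) (nat_lit 0) (XT.lf (nat_lit 0) (nat_lit 77697154444) (nat_lit 684) (nat_lit 142027851109) (nat_lit 760) (nat_lit 43175739452) (nat_lit 66) (nat_lit 5) (nat_lit 75) (nat_lit 5) (nat_lit 76) (nat_lit 5) (nat_lit 295) (nat_lit 293) (nat_lit 132)) (XT.nd (nat_lit 78) (nat_lit 0) (nat_lit 76) (XT.lf (nat_lit 76) (nat_lit 35173642174) (nat_lit 0) (nat_lit 54934419205) (nat_lit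 760) (nat_lit 183663223123) (nat_lit 67) (nat_lit 5) (nat_lit 66) (nat_lit 5) (nat_lit 76) (nat_lit 5) (nat_lit 296) (nat_lit 293) (nat_lit 131)) (XT.lf (nat_lit 0) (nat_lit 107947287580) (nat_lit 684) (nat_lit 55726387154) (nat_lit 760) (nat_lit 121616020625) (nat_lit 67) (nat_lit 5) (nat_lit 76) (nat_lit 5) (nat_lit 77) (nat_lit 5) (nat_lit 297) (nat_lit 293) (nat_lit 130))))))))
noncomputable def xc125 : XT := (XT.nd (nat_lit 37596) (nat_lit 0) (nat_lit 76) (XT.nd (nat_lit 702) (nat_lit 836) (nat_lit 0) (XT.nd (nat_lit 312) (nat_lit 988) (nat_lit 0) (XT.nd (nat_lit 156) (nat_lit 608) (nat_lit 0) (XT.nd (nat_lit 78) (nat_lit 0) (nat_lit 0) (XT.lf (nat_lit 0) (nat_lit 130647221462) (nat_lit 684) (nat_lit 152300078029) (nat_lit 760) (nat_lit 14610601614) (nat_lit 68) (nat_lit 5) (nat_lit 77) (nat_lit 5) (nat_lit 78) (nat_lit 5) (nat_lit 298) (nat_lit 293) (nat_lit 129)) (XT.lf (nat_lit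 76) (nat_lit 52454750051) (nat_lit 0) (nat_lit 107273717456) (nat_lit 760) (nat_lit 150850830391) (nat_lit 69) (nat_lit 5) (nat_lit 68) (nat_lit 5) (nat_lit 78) (nat_lit 5) (nat_lit 299) (nat_lit 293) (nat_lit 128))) (XT.nd (nat_lit 78) (nat_lit 684) (nat_lit 0) (XT.lf (nat_lit 0) (nat_lit 195119898866) (nat_lit 684) (nat_lit 46812127537) (nat_lit 76) (nat_lit 82511196177) (nat_lit 69) (nat_lit 5) (nat_lit 78) (nat_lit 5) (nat_lit 70) (nat_lit 5) (nat_lit 300) (nat_lit 293) (nat_lit 127)) (XT.lf (nat_lit 0) (nat_lit 185534634436) (nat_lit 684) (nat_lit 52513455900) (nat_lit 760) (nat_lit 101132899016) (nat_lit 60) (nat_lit 5) (nat_lit 69) (nat_lit 5) (nat_lit 70) (nat_lit 5) (nat_lit 301) (nat_lit 293) (nat_lit 126)))) (XT.nd (nat_lit 156) (nat_lit 684) (nat_lit 0) (XT.nd (nat_lit 78) (nat_lit 0) (nat_lit 0) (XT.lf (nat_lit 0) (nat_lit 83364442237) (nat_lit 304) (nat_lit 205550418714)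 (nat_lit 380) (nat_lit 65957700688) (nat_lit 56) (nat_lit 5) (nat_lit 60) (nat_lit 5) (nat_lit 61) (nat_lit 5) (nat_lit 302) (nat_lit 293) (nat_lit 125)) (XT.lf (nat_lit 0) (nat_lit 343907928756) (nat_lit 304) (nat_lit 3490566956) (nat_lit 380) (nat_lit 24243588213) (nat_lit 56) (nat_lit 5) (nat_lit 60) (nat_lit 5) (nat_lit 61) (nat_lit 5) (nat_lit 303) (nat_lit 293) (nat_lit 124))) (XT.nd (nat_lit 78) (nat_lit 304) (nat_lit 0) (XT.lf (nat_lit 0) (nat_lit 27355533601) (nat_lit 380) (nat_lit 149973251380) (nat_lit 76) (nat_lit 212047447261) (nat_lit 51) (nat_lit 5) (nat_lit 56) (nat_lit 5) (nat_lit 52) (nat_lit 5) (nat_lit 304) (nat_lit 293) (nat_lit 123)) (XT.nd (nat_lit 78) (nat_lit 0) (nat_lit 0) (XT.lf (nat_lit 0) (nat_lit 85339936744) (nat_lit 380) (nat_lit 285109846744) (nat_lit 76) (nat_lit 37904120981) (nat_lit 47) (nat_lit 5) (nat_lit 52) (nat_lit 5) (nat_lit 48) (nat_lit 5) (nat_lit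 305) (nat_lit 293) (nat_lit 122)) (XT.lf (nat_lit 0) (nat_lit 153608369093) (nat_lit 380) (nat_lit 8077918017) (nat_lit 76) (nat_lit 266881239772) (nat_lit 47) (nat_lit 5) (nat_lit 52) (nat_lit 5) (nat_lit 48) (nat_lit 5) (nat_lit 306) (nat_lit 293) (nat_lit 121)))))) (XT.nd (nat_lit 36504) (nat_lit 0) (nat_lit 2204) (XT.nd (nat_lit 156) (nat_lit 304) (nat_lit 0) (XT.nd (nat_lit 78) (nat_lit 228) (nat_lit 0) (XT.lf (nat_lit 0) (nat_lit 233106366273) (nat_lit 380) (nat_lit 150494089656) (nat_lit 76) (nat_lit 66509378884) (nat_lit 43) (nat_lit 5) (nat_lit 48) (nat_lit 5) (nat_lit 44) (nat_lit 5) (nat_lit 307) (nat_lit 293) (nat_lit 120)) (XT.lf (nat_lit 0) (nat_lit 161278064703) (nat_lit 228) (nat_lit 163073421042) (nat_lit 304) (nat_lit 148754677727) (nat_lit 40) (nat_lit 5) (nat_lit 43) (nat_lit 5) (nat_lit 44) (nat_lit 5) (nat_lit 308) (nat_lit 293) (nat_lit 119))) (XT.nd (nat_lit 78)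 (nat_lit 76) (nat_lit 0) (XT.lf (nat_lit 0) (nat_lit 4482937937) (nat_lit 228) (nat_lit 422320147504) (nat_lit 304) (nat_lit 70943769651) (nat_lit 37) (nat_lit 5) (nat_lit 40) (nat_lit 5) (nat_lit 41) (nat_lit 5) (nat_lit 309) (nat_lit 293) (nat_lit 118)) (XT.lf (nat_lit 0) (nat_lit 20943532319) (nat_lit 304) (nat_lit 169896312459) (nat_lit 76) (nat_lit 333095209928) (nat_lit 36) (nat_lit 5) (nat_lit 40) (nat_lit 5) (nat_lit 37) (nat_lit 5) (nat_lit 310) (nat_lit 293) (nat_lit 117)))) (XT.nd (nat_lit 156) (nat_lit 0) (nat_lit 76) (XT.nd (nat_lit 78) (nat_lit 0) (nat_lit 0) (XT.lf (nat_lit 0) (nat_lit 17491292303) (nat_lit 0) (nat_lit 17491292303) (nat_lit 684) (nat_lit 96267017282) (nat_lit 65) (nat_lit 5) (nat_lit 65) (nat_lit 3) (nat_lit 74) (nat_lit 3) (nat_lit 294) (nat_lit 294) (nat_lit 132)) (XT.lf (nat_lit 0) (nat_lit 75041164910) (nat_lit 684) (nat_lit 56729595483) (nat_lit 760)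 (nat_lit 141114536714) (nat_lit 65) (nat_lit 5) (nat_lit 74) (nat_lit 3) (nat_lit 75) (nat_lit 5) (nat_lit 295) (nat_lit 294) (nat_lit 131))) (XT.nd (nat_lit 78) (nat_lit 0) (nat_lit 0) (XT.lf (nat_lit 0) (nat_lit 83915543996) (nat_lit 684) (nat_lit 153388392632) (nat_lit 760) (nat_lit 46628726626) (nat_lit 66) (nat_lit 5) (nat_lit 75) (nat_lit 5) (nat_lit 76) (nat_lit 5) (nat_lit 296) (nat_lit 294) (nat_lit 130)) (XT.nd (nat_lit 78) (nat_lit 0) (nat_lit 76) (XT.lf (nat_lit 76) (nat_lit 37989146817) (nat_lit 0) (nat_lit 59330007989) (nat_lit 760) (nat_lit 198353700315) (nat_lit 67) (nat_lit 5) (nat_lit 66) (nat_lit 5) (nat_lit 76) (nat_lit 5) (nat_lit 297) (nat_lit 294) (nat_lit 129)) (XT.lf (nat_lit 0) (nat_lit 116585325658) (nat_lit 684) (nat_lit 60182869931) (nat_lit 760) (nat_lit 131344553650) (nat_lit 67) (nat_lit 5) (nat_lit 76) (nat_lit 5) (nat_lit 77) (nat_lit 5) (nat_lit 298)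 (nat_lit 294) (nat_lit 128))))))) (XT.nd (nat_lit 702) (nat_lit 760) (nat_lit 0) (XT.nd (nat_lit 312) (nat_lit 988) (nat_lit 0) (XT.nd (nat_lit 156) (nat_lit 608) (nat_lit 0) (XT.nd (nat_lit 78) (nat_lit 0) (nat_lit 0) (XT.lf (nat_lit 0) (nat_lit 141101102860) (nat_lit 684) (nat_lit 164482404225) (nat_lit 760) (nat_lit 15778912595) (nat_lit 68) (nat_lit 5) (nat_lit 77) (nat_lit 5) (nat_lit 78) (nat_lit 5) (nat_lit 299) (nat_lit 294) (nat_lit 127)) (XT.lf (nat_lit 76) (nat_lit 56652737088) (nat_lit 0) (nat_lit 115855980762) (nat_lit 760) (nat_lit 162916817520) (nat_lit 69) (nat_lit 5) (nat_lit 68) (nat_lit 5) (nat_lit 78) (nat_lit 5) (nat_lit 300) (nat_lit 294) (nat_lit 126))) (XT.nd (nat_lit 78) (nat_lit 684) (nat_lit 0) (XT.lf (nat_lit 0) (nat_lit 210731312285) (nat_lit 684) (nat_lit 50555505976) (nat_lit 76) (nat_lit 89111763909) (nat_lit 69) (nat_lit 5) (nat_lit 78) (nat_lit 5) (nat_lit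 70) (nat_lit 5) (nat_lit 301) (nat_lit 294) (nat_lit 125)) (XT.lf (nat_lit 0) (nat_lit 200378927779) (nat_lit 684) (nat_lit 56714720138) (nat_lit 760) (nat_lit 109221728453) (nat_lit 60) (nat_lit 5) (nat_lit 69) (nat_lit 5) (nat_lit 70) (nat_lit 5) (nat_lit 302) (nat_lit 294) (nat_lit 124)))) (XT.nd (nat_lit 156) (nat_lit 684) (nat_lit 0) (XT.nd (nat_lit 78) (nat_lit 0) (nat_lit 0) (XT.lf (nat_lit 0) (nat_lit 90035144965) (nat_lit 304) (nat_lit 221994509969) (nat_lit 380) (nat_lit 71232625260) (nat_lit 56) (nat_lit 5) (nat_lit 60) (nat_lit 5) (nat_lit 61) (nat_lit 5) (nat_lit 303) (nat_lit 294) (nat_lit 123)) (XT.lf (nat_lit 0) (nat_lit 371421995787) (nat_lit 304) (nat_lit 3769865792) (nat_lit 380) (nat_lit 26181509082) (nat_lit 56) (nat_lit 5) (nat_lit 60) (nat_lit 5) (nat_lit 61) (nat_lit 5) (nat_lit 304) (nat_lit 294) (nat_lit 122))) (XT.nd (nat_lit 78) (nat_lit 304) (nat_lit 0) (XT.lf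 (nat_lit 0) (nat_lit 29545402238) (nat_lit 380) (nat_lit 161969611577) (nat_lit 76) (nat_lit 229011240712) (nat_lit 51) (nat_lit 5) (nat_lit 56) (nat_lit 5) (nat_lit 52) (nat_lit 5) (nat_lit 305) (nat_lit 294) (nat_lit 121)) (XT.nd (nat_lit 78) (nat_lit 0) (nat_lit 0) (XT.lf (nat_lit 0) (nat_lit 92168475843) (nat_lit 380) (nat_lit 307917129425) (nat_lit 76) (nat_lit 40936539723) (nat_lit 47) (nat_lit 5) (nat_lit 52) (nat_lit 5) (nat_lit 48) (nat_lit 5) (nat_lit 306) (nat_lit 294) (nat_lit 120)) (XT.lf (nat_lit 0) (nat_lit 165898283212) (nat_lit 380) (nat_lit 8722757886) (nat_lit 76) (nat_lit 288231821419) (nat_lit 47) (nat_lit 5) (nat_lit 52) (nat_lit 5) (nat_lit 48) (nat_lit 5) (nat_lit 307) (nat_lit 294) (nat_lit 119)))))) (XT.nd (nat_lit 36660) (nat_lit 0) (nat_lit 2204) (XT.nd (nat_lit 156) (nat_lit 228) (nat_lit 0) (XT.nd (nat_lit 78) (nat_lit 228) (nat_lit 0) (XT.lf (nat_lit 0)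 (nat_lit 251756051282) (nat_lit 380) (nat_lit 162532223685) (nat_lit 76) (nat_lit 71830283877) (nat_lit 43) (nat_lit 5) (nat_lit 48) (nat_lit 5) (nat_lit 44) (nat_lit 5) (nat_lit 308) (nat_lit 294) (nat_lit 118)) (XT.lf (nat_lit 0) (nat_lit 174181642478) (nat_lit 228) (nat_lit 176119071549) (nat_lit 304) (nat_lit 160653883377) (nat_lit 40) (nat_lit 5) (nat_lit 43) (nat_lit 5) (nat_lit 44) (nat_lit 5) (nat_lit 309) (nat_lit 294) (nat_lit 117))) (XT.nd (nat_lit 36348) (nat_lit 0) (nat_lit 2128) (XT.lf (nat_lit 0) (nat_lit 4842900900) (nat_lit 228) (nat_lit 456105482579) (nat_lit 304) (nat_lit 76618164059) (nat_lit 37) (nat_lit 5) (nat_lit 40) (nat_lit 5) (nat_lit 41) (nat_lit 5) (nat_lit 310) (nat_lit 294) (nat_lit 116)) (XT.nd (nat_lit 78) (nat_lit 0) (nat_lit 0) (XT.lf (nat_lit 0) (nat_lit 18891253484) (nat_lit 0) (nat_lit 18891253484) (nat_lit 684) (nat_lit 103966992046) (nat_lit 65)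 (nat_lit 5) (nat_lit 65) (nat_lit 3) (nat_lit 74) (nat_lit 3) (nat_lit 295) (nat_lit 295) (nat_lit 130)) (XT.lf (nat_lit 0) (nat_lit 81046875367) (nat_lit 684) (nat_lit 61266594433) (nat_lit 760) (nat_lit 152402520498) (nat_lit 65) (nat_lit 5) (nat_lit 74) (nat_lit 3) (nat_lit 75) (nat_lit 5) (nat_lit 296) (nat_lit 295) (nat_lit 129))))) (XT.nd (nat_lit 156) (nat_lit 0) (nat_lit 76) (XT.nd (nat_lit 78) (nat_lit 0) (nat_lit 0) (XT.lf (nat_lit 0) (nat_lit 90631031340) (nat_lit 684) (nat_lit 165658018084) (nat_lit 760) (nat_lit 50358105704) (nat_lit 66) (nat_lit 5) (nat_lit 75) (nat_lit 5) (nat_lit 76) (nat_lit 5) (nat_lit 297) (nat_lit 295) (nat_lit 128)) (XT.lf (nat_lit 76) (nat_lit 41029661682) (nat_lit 0) (nat_lit 64077124718) (nat_lit 760) (nat_lit 214219783841) (nat_lit 67) (nat_lit 5) (nat_lit 66) (nat_lit 5) (nat_lit 76) (nat_lit 5) (nat_lit 298) (nat_lit 295) (nat_lit 127))) (XT.nd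 (nat_lit 78) (nat_lit 0) (nat_lit 76) (XT.lf (nat_lit 0) (nat_lit 125914085071) (nat_lit 684) (nat_lit 64996103610) (nat_lit 760) (nat_lit 141851476117) (nat_lit 67) (nat_lit 5) (nat_lit 76) (nat_lit 5) (nat_lit 77) (nat_lit 5) (nat_lit 299) (nat_lit 295) (nat_lit 126)) (XT.nd (nat_lit 78) (nat_lit 0) (nat_lit 0) (XT.lf (nat_lit 0) (nat_lit 152390994656) (nat_lit 684) (nat_lit 177639556195) (nat_lit 760) (nat_lit 17040765084) (nat_lit 68) (nat_lit 5) (nat_lit 77) (nat_lit 5) (nat_lit 78) (nat_lit 5) (nat_lit 300) (nat_lit 295) (nat_lit 125)) (XT.lf (nat_lit 76) (nat_lit 61186333828) (nat_lit 0) (nat_lit 125124772932) (nat_lit 760) (nat_lit 175948380255) (nat_lit 69) (nat_lit 5) (nat_lit 68) (nat_lit 5) (nat_lit 78) (nat_lit 5) (nat_lit 301) (nat_lit 295) (nat_lit 124))))))))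
noncomputable def xc126 : XT := (XT.nd (nat_lit 37830) (nat_lit 0) (nat_lit 304) (XT.nd (nat_lit 37128) (nat_lit 0) (nat_lit 988) (XT.nd (nat_lit 312) (nat_lit 988) (nat_lit 0) (XT.nd (nat_lit 156) (nat_lit 304) (nat_lit 0) (XT.nd (nat_lit 78) (nat_lit 684) (nat_lit 0) (XT.lf (nat_lit 0) (nat_lit 227591378918) (nat_lit 684) (nat_lit 54598581773) (nat_lit 76) (nat_lit 96240423848) (nat_lit 69) (nat_lit 5) (nat_lit 78) (nat_lit 5) (nat_lit 70) (nat_lit 5) (nat_lit 302) (nat_lit 295) (nat_lit 123)) (XT.lf (nat_lit 0) (nat_lit 216410547375) (nat_lit 684) (nat_lit 61252058729) (nat_lit 760) (nat_lit 117957921390) (nat_lit 60) (nat_lit 5) (nat_lit 69) (nat_lit 5) (nat_lit 70) (nat_lit 5) (nat_lit 303) (nat_lit 295) (nat_lit 122))) (XT.nd (nat_lit 78) (nat_lit 0) (nat_lit 0) (XT.lf (nat_lit 0) (nat_lit 97239283164) (nat_lit 304) (nat_lit 239754120284) (nat_lit 380) (nat_lit 76929785107) (nat_lit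 56) (nat_lit 5) (nat_lit 60) (nat_lit 5) (nat_lit 61) (nat_lit 5) (nat_lit 304) (nat_lit 295) (nat_lit 121)) (XT.lf (nat_lit 0) (nat_lit 401136983785) (nat_lit 304) (nat_lit 4071500905) (nat_lit 380) (nat_lit 28274687054) (nat_lit 56) (nat_lit 5) (nat_lit 60) (nat_lit 5) (nat_lit 61) (nat_lit 5) (nat_lit 305) (nat_lit 295) (nat_lit 120)))) (XT.nd (nat_lit 156) (nat_lit 304) (nat_lit 0) (XT.nd (nat_lit 78) (nat_lit 304) (nat_lit 0) (XT.lf (nat_lit 0) (nat_lit 31910256937) (nat_lit 380) (nat_lit 174925894568) (nat_lit 76) (nat_lit 247332137972) (nat_lit 51) (nat_lit 5) (nat_lit 56) (nat_lit 5) (nat_lit 52) (nat_lit 5) (nat_lit 306) (nat_lit 295) (nat_lit 119)) (XT.lf (nat_lit 0) (nat_lit 99543106310) (nat_lit 380) (nat_lit 332549209435) (nat_lit 76) (nat_lit 44211539257) (nat_lit 47) (nat_lit 5) (nat_lit 52) (nat_lit 5) (nat_lit 48) (nat_lit 5) (nat_lit 307) (nat_lit 295) (nat_lit 118)))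 (XT.nd (nat_lit 78) (nat_lit 304) (nat_lit 0) (XT.lf (nat_lit 0) (nat_lit 179171212906) (nat_lit 380) (nat_lit 9419383754) (nat_lit 76) (nat_lit 311290437833) (nat_lit 47) (nat_lit 5) (nat_lit 52) (nat_lit 5) (nat_lit 48) (nat_lit 5) (nat_lit 308) (nat_lit 295) (nat_lit 117)) (XT.nd (nat_lit 36504) (nat_lit 0) (nat_lit 1672) (XT.lf (nat_lit 0) (nat_lit 271897543363) (nat_lit 380) (nat_lit 175533607184) (nat_lit 76) (nat_lit 77576839203) (nat_lit 43) (nat_lit 5) (nat_lit 48) (nat_lit 5) (nat_lit 44) (nat_lit 5) (nat_lit 309) (nat_lit 295) (nat_lit 116)) (XT.lf (nat_lit 0) (nat_lit 20403117717) (nat_lit 0) (nat_lit 20403117717) (nat_lit 684) (nat_lit 112283162609) (nat_lit 65) (nat_lit 5) (nat_lit 65) (nat_lit 3) (nat_lit 74) (nat_lit 3) (nat_lit 296) (nat_lit 296) (nat_lit 128)))))) (XT.nd (nat_lit 312) (nat_lit 684) (nat_lit 0) (XT.nd (nat_lit 156) (nat_lit 0) (nat_lit 76) (XT.nd (nat_lit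 78) (nat_lit 0) (nat_lit 76) (XT.lf (nat_lit 0) (nat_lit 87532697810) (nat_lit 684) (nat_lit 66166748558) (nat_lit 760) (nat_lit 164593711205) (nat_lit 65) (nat_lit 5) (nat_lit 74) (nat_lit 3) (nat_lit 75) (nat_lit 5) (nat_lit 297) (nat_lit 296) (nat_lit 127)) (XT.lf (nat_lit 0) (nat_lit 97883437564) (nat_lit 684) (nat_lit 178909419855) (nat_lit 760) (nat_lit 54385966222) (nat_lit 66) (nat_lit 5) (nat_lit 75) (nat_lit 5) (nat_lit 76) (nat_lit 5) (nat_lit 298) (nat_lit 296) (nat_lit 126))) (XT.nd (nat_lit 78) (nat_lit 0) (nat_lit 76) (XT.lf (nat_lit 76) (nat_lit 44313220418) (nat_lit 0) (nat_lit 69203908628) (nat_lit 760) (nat_lit 231355469688) (nat_lit 67) (nat_lit 5) (nat_lit 66) (nat_lit 5) (nat_lit 76) (nat_lit 5) (nat_lit 299) (nat_lit 296) (nat_lit 125)) (XT.lf (nat_lit 0) (nat_lit 135988869421) (nat_lit 684) (nat_lit 70194595127) (nat_lit 760) (nat_lit 153199043946) (nat_lit 67)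 (nat_lit 5) (nat_lit 76) (nat_lit 5) (nat_lit 77) (nat_lit 5) (nat_lit 300) (nat_lit 296) (nat_lit 124)))) (XT.nd (nat_lit 156) (nat_lit 912) (nat_lit 0) (XT.nd (nat_lit 78) (nat_lit 0) (nat_lit 0) (XT.lf (nat_lit 0) (nat_lit 164583820497) (nat_lit 684) (nat_lit 191849485806) (nat_lit 760) (nat_lit 18403631471) (nat_lit 68) (nat_lit 5) (nat_lit 77) (nat_lit 5) (nat_lit 78) (nat_lit 5) (nat_lit 301) (nat_lit 296) (nat_lit 123)) (XT.lf (nat_lit 76) (nat_lit 66082421751) (nat_lit 0) (nat_lit 135135023721) (nat_lit 760) (nat_lit 190022722326) (nat_lit 69) (nat_lit 5) (nat_lit 68) (nat_lit 5) (nat_lit 78) (nat_lit 5) (nat_lit 302) (nat_lit 296) (nat_lit 122))) (XT.nd (nat_lit 78) (nat_lit 988) (nat_lit 0) (XT.lf (nat_lit 0) (nat_lit 245800028096) (nat_lit 684) (nat_lit 58965298320) (nat_lit 76) (nat_lit 103939416695) (nat_lit 69) (nat_lit 5) (nat_lit 78) (nat_lit 5) (nat_lit 70) (nat_lit 5)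 (nat_lit 303) (nat_lit 296) (nat_lit 121)) (XT.nd (nat_lit 78) (nat_lit 304) (nat_lit 0) (XT.lf (nat_lit 0) (nat_lit 233724510313) (nat_lit 684) (nat_lit 66152361441) (nat_lit 760) (nat_lit 127393230221) (nat_lit 60) (nat_lit 5) (nat_lit 69) (nat_lit 5) (nat_lit 70) (nat_lit 5) (nat_lit 304) (nat_lit 296) (nat_lit 120)) (XT.lf (nat_lit 0) (nat_lit 105019563164) (nat_lit 304) (nat_lit 258934492360) (nat_lit 380) (nat_lit 83082924624) (nat_lit 56) (nat_lit 5) (nat_lit 60) (nat_lit 5) (nat_lit 61) (nat_lit 5) (nat_lit 305) (nat_lit 296) (nat_lit 119))))))) (XT.nd (nat_lit 37206) (nat_lit 0) (nat_lit 304) (XT.nd (nat_lit 36816) (nat_lit 0) (nat_lit 1368) (XT.nd (nat_lit 156) (nat_lit 304) (nat_lit 0) (XT.nd (nat_lit 78) (nat_lit 380) (nat_lit 0) (XT.lf (nat_lit 0) (nat_lit 433228995587) (nat_lit 304) (nat_lit 4397260286) (nat_lit 380) (nat_lit 30535510824) (nat_lit 56) (nat_lit 5) (nat_lit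 60) (nat_lit 5) (nat_lit 61) (nat_lit 5) (nat_lit 306) (nat_lit 296) (nat_lit 118)) (XT.lf (nat_lit 0) (nat_lit 34464125607) (nat_lit 380) (nat_lit 188918863652) (nat_lit 76) (nat_lit 267118707297) (nat_lit 51) (nat_lit 5) (nat_lit 56) (nat_lit 5) (nat_lit 52) (nat_lit 5) (nat_lit 307) (nat_lit 296) (nat_lit 117))) (XT.nd (nat_lit 78) (nat_lit 0) (nat_lit 0) (XT.lf (nat_lit 0) (nat_lit 107507542811) (nat_lit 380) (nat_lit 359152039927) (nat_lit 76) (nat_lit 47748527861) (nat_lit 47) (nat_lit 5) (nat_lit 52) (nat_lit 5) (nat_lit 48) (nat_lit 5) (nat_lit 308) (nat_lit 296) (nat_lit 116)) (XT.lf (nat_lit 0) (nat_lit 193505824750) (nat_lit 380) (nat_lit 10171910137) (nat_lit 76) (nat_lit 336193733475) (nat_lit 47) (nat_lit 5) (nat_lit 52) (nat_lit 5) (nat_lit 48) (nat_lit 5) (nat_lit 309) (nat_lit 296) (nat_lit 115)))) (XT.nd (nat_lit 156) (nat_lit 0) (nat_lit 76) (XT.nd (nat_lit 78) (nat_lit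 0) (nat_lit 0) (XT.lf (nat_lit 0) (nat_lit 22035850634) (nat_lit 0) (nat_lit 22035850634) (nat_lit 684) (nat_lit 121264796412) (nat_lit 65) (nat_lit 5) (nat_lit 65) (nat_lit 3) (nat_lit 74) (nat_lit 3) (nat_lit 297) (nat_lit 297) (nat_lit 126)) (XT.lf (nat_lit 0) (nat_lit 94537090395) (nat_lit 684) (nat_lit 71459082416) (nat_lit 760) (nat_lit 177760341389) (nat_lit 65) (nat_lit 5) (nat_lit 74) (nat_lit 3) (nat_lit 75) (nat_lit 5) (nat_lit 298) (nat_lit 297) (nat_lit 125))) (XT.nd (nat_lit 78) (nat_lit 0) (nat_lit 0) (XT.lf (nat_lit 0) (nat_lit 105715761847) (nat_lit 684) (nat_lit 193221110621) (nat_lit 760) (nat_lit 58736167989) (nat_lit 66) (nat_lit 5) (nat_lit 75) (nat_lit 5) (nat_lit 76) (nat_lit 5) (nat_lit 299) (nat_lit 297) (nat_lit 124)) (XT.nd (nat_lit 78) (nat_lit 0) (nat_lit 76) (XT.lf (nat_lit 76) (nat_lit 47859294685) (nat_lit 0) (nat_lit 74740747666) (nat_lit 760) (nat_lit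 249862281011) (nat_lit 67) (nat_lit 5) (nat_lit 66) (nat_lit 5) (nat_lit 76) (nat_lit 5) (nat_lit 300) (nat_lit 297) (nat_lit 123)) (XT.lf (nat_lit 0) (nat_lit 146869400052) (nat_lit 684) (nat_lit 75809136698) (nat_lit 760) (nat_lit 165454495701) (nat_lit 67) (nat_lit 5) (nat_lit 76) (nat_lit 5) (nat_lit 77) (nat_lit 5) (nat_lit 301) (nat_lit 297) (nat_lit 122)))))) (XT.nd (nat_lit 390) (nat_lit 380) (nat_lit 0) (XT.nd (nat_lit 156) (nat_lit 912) (nat_lit 0) (XT.nd (nat_lit 78) (nat_lit 0) (nat_lit 0) (XT.lf (nat_lit 0) (nat_lit 177751851813) (nat_lit 684) (nat_lit 207196385957) (nat_lit 760) (nat_lit 19875583495) (nat_lit 68) (nat_lit 5) (nat_lit 77) (nat_lit 5) (nat_lit 78) (nat_lit 5) (nat_lit 302) (nat_lit 297) (nat_lit 121)) (XT.lf (nat_lit 76) (nat_lit 71370028195) (nat_lit 0) (nat_lit 145946056204) (nat_lit 760) (nat_lit 205223229799) (nat_lit 69) (nat_lit 5) (nat_lit 68) (nat_lit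 5) (nat_lit 78) (nat_lit 5) (nat_lit 303) (nat_lit 297) (nat_lit 120))) (XT.nd (nat_lit 78) (nat_lit 988) (nat_lit 0) (XT.lf (nat_lit 0) (nat_lit 265465178203) (nat_lit 684) (nat_lit 63681519104) (nat_lit 76) (nat_lit 112254363359) (nat_lit 69) (nat_lit 5) (nat_lit 78) (nat_lit 5) (nat_lit 70) (nat_lit 5) (nat_lit 304) (nat_lit 297) (nat_lit 119)) (XT.nd (nat_lit 78) (nat_lit 304) (nat_lit 0) (XT.lf (nat_lit 0) (nat_lit 252423430627) (nat_lit 684) (nat_lit 71444668681) (nat_lit 760) (nat_lit 137583552768) (nat_lit 60) (nat_lit 5) (nat_lit 69) (nat_lit 5) (nat_lit 70) (nat_lit 5) (nat_lit 305) (nat_lit 297) (nat_lit 118)) (XT.lf (nat_lit 0) (nat_lit 113422103309) (nat_lit 304) (nat_lit 279649288146) (nat_lit 380) (nat_lit 89728492673) (nat_lit 56) (nat_lit 5) (nat_lit 60) (nat_lit 5) (nat_lit 61) (nat_lit 5) (nat_lit 306) (nat_lit 297) (nat_lit 117))))) (XT.nd (nat_lit 36816) (nat_lit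 0) (nat_lit 1064) (XT.nd (nat_lit 78) (nat_lit 380) (nat_lit 0) (XT.lf (nat_lit 0) (nat_lit 467888218097) (nat_lit 304) (nat_lit 4749074810) (nat_lit 380) (nat_lit 32977364725) (nat_lit 56) (nat_lit 5) (nat_lit 60) (nat_lit 5) (nat_lit 61) (nat_lit 5) (nat_lit 307) (nat_lit 297) (nat_lit 116)) (XT.lf (nat_lit 0) (nat_lit 37222154245) (nat_lit 380) (nat_lit 204031427543) (nat_lit 76) (nat_lit 288488202413) (nat_lit 51) (nat_lit 5) (nat_lit 56) (nat_lit 5) (nat_lit 52) (nat_lit 5) (nat_lit 308) (nat_lit 297) (nat_lit 115))) (XT.nd (nat_lit 78) (nat_lit 0) (nat_lit 0) (XT.lf (nat_lit 0) (nat_lit 23799133208) (nat_lit 0) (nat_lit 23799133208) (nat_lit 684) (nat_lit 130965106320) (nat_lit 65) (nat_lit 5) (nat_lit 65) (nat_lit 3) (nat_lit 74) (nat_lit 3) (nat_lit 298) (nat_lit 298) (nat_lit 124)) (XT.nd (nat_lit 78) (nat_lit 0) (nat_lit 76) (XT.lf (nat_lit 0) (nat_lit 102101580913) (nat_lit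 684) (nat_lit 77174946503) (nat_lit 760) (nat_lit 191980425633) (nat_lit 65) (nat_lit 5) (nat_lit 74) (nat_lit 3) (nat_lit 75) (nat_lit 5) (nat_lit 299) (nat_lit 298) (nat_lit 123)) (XT.lf (nat_lit 0) (nat_lit 114174436784) (nat_lit 684) (nat_lit 208677888271) (nat_lit 760) (nat_lit 63434482269) (nat_lit 66) (nat_lit 5) (nat_lit 75) (nat_lit 5) (nat_lit 76) (nat_lit 5) (nat_lit 300) (nat_lit 298) (nat_lit 122))))))))
noncomputable def xc127 : XT := (XT.nd (nat_lit 75114) (nat_lit 0) (nat_lit 684) (XT.nd (nat_lit 37440) (nat_lit 0) (nat_lit 304) (XT.nd (nat_lit 312) (nat_lit 760) (nat_lit 0) (XT.nd (nat_lit 156) (nat_lit 0) (nat_lit 152) (XT.nd (nat_lit 78) (nat_lit 0) (nat_lit 76) (XT.lf (nat_lit 76) (nat_lit 51688909859) (nat_lit 0) (nat_lit 80720458738) (nat_lit 760) (nat_lit 269849869242) (nat_lit 67) (nat_lit 5) (nat_lit 66) (nat_lit 5) (nat_lit 76) (nat_lit 5) (nat_lit 301) (nat_lit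 298) (nat_lit 121)) (XT.lf (nat_lit 0) (nat_lit 158620170401) (nat_lit 684) (nat_lit 81872987970) (nat_lit 760) (nat_lit 178690450898) (nat_lit 67) (nat_lit 5) (nat_lit 76) (nat_lit 5) (nat_lit 77) (nat_lit 5) (nat_lit 302) (nat_lit 298) (nat_lit 120))) (XT.nd (nat_lit 78) (nat_lit 0) (nat_lit 0) (XT.lf (nat_lit 0) (nat_lit 191973136511) (nat_lit 684) (nat_lit 223771189157) (nat_lit 760) (nat_lit 21465339970) (nat_lit 68) (nat_lit 5) (nat_lit 77) (nat_lit 5) (nat_lit 78) (nat_lit 5) (nat_lit 303) (nat_lit 298) (nat_lit 119)) (XT.lf (nat_lit 76) (nat_lit 77080498681) (nat_lit 0) (nat_lit 157621938390) (nat_lit 760) (nat_lit 221639964800) (nat_lit 69) (nat_lit 5) (nat_lit 68) (nat_lit 5) (nat_lit 78) (nat_lit 5) (nat_lit 304) (nat_lit 298) (nat_lit 118)))) (XT.nd (nat_lit 156) (nat_lit 304) (nat_lit 0) (XT.nd (nat_lit 78) (nat_lit 684) (nat_lit 0) (XT.lf (nat_lit 0) (nat_lit 286703376564)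 (nat_lit 684) (nat_lit 68775180652) (nat_lit 76) (nat_lit 121234535240) (nat_lit 69) (nat_lit 5) (nat_lit 78) (nat_lit 5) (nat_lit 70) (nat_lit 5) (nat_lit 305) (nat_lit 298) (nat_lit 117)) (XT.lf (nat_lit 0) (nat_lit 272618127684) (nat_lit 684) (nat_lit 77160343620) (nat_lit 760) (nat_lit 148589263163) (nat_lit 60) (nat_lit 5) (nat_lit 69) (nat_lit 5) (nat_lit 70) (nat_lit 5) (nat_lit 306) (nat_lit 298) (nat_lit 116))) (XT.nd (nat_lit 78) (nat_lit 0) (nat_lit 0) (XT.lf (nat_lit 0) (nat_lit 122496707558) (nat_lit 304) (nat_lit 302021262402) (nat_lit 380) (nat_lit 96905858231) (nat_lit 56) (nat_lit 5) (nat_lit 60) (nat_lit 5) (nat_lit 61) (nat_lit 5) (nat_lit 307) (nat_lit 298) (nat_lit 115)) (XT.nd (nat_lit 36816) (nat_lit 0) (nat_lit 684) (XT.lf (nat_lit 0) (nat_lit 505320049604) (nat_lit 304) (nat_lit 5129029688) (nat_lit 380) (nat_lit 35614707741) (nat_lit 56) (nat_lit 5) (nat_lit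 60) (nat_lit 5) (nat_lit 61) (nat_lit 5) (nat_lit 308) (nat_lit 298) (nat_lit 114)) (XT.lf (nat_lit 0) (nat_lit 25703419251) (nat_lit 0) (nat_lit 25703419251) (nat_lit 684) (nat_lit 141441565679) (nat_lit 65) (nat_lit 5) (nat_lit 65) (nat_lit 3) (nat_lit 74) (nat_lit 3) (nat_lit 299) (nat_lit 299) (nat_lit 122)))))) (XT.nd (nat_lit 390) (nat_lit 380) (nat_lit 0) (XT.nd (nat_lit 156) (nat_lit 0) (nat_lit 76) (XT.nd (nat_lit 78) (nat_lit 0) (nat_lit 76) (XT.lf (nat_lit 0) (nat_lit 110271013358) (nat_lit 684) (nat_lit 83348202763) (nat_lit 760) (nat_lit 207338222624) (nat_lit 65) (nat_lit 5) (nat_lit 74) (nat_lit 3) (nat_lit 75) (nat_lit 5) (nat_lit 300) (nat_lit 299) (nat_lit 121)) (XT.lf (nat_lit 0) (nat_lit 123309603995) (nat_lit 684) (nat_lit 225371338127) (nat_lit 760) (nat_lit 68508744316) (nat_lit 66) (nat_lit 5) (nat_lit 75) (nat_lit 5) (nat_lit 76) (nat_lit 5) (nat_lit 301) (nat_lit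 299) (nat_lit 120))) (XT.nd (nat_lit 78) (nat_lit 0) (nat_lit 76) (XT.lf (nat_lit 76) (nat_lit 55824769904) (nat_lit 0) (nat_lit 87178482318) (nat_lit 760) (nat_lit 291436663437) (nat_lit 67) (nat_lit 5) (nat_lit 66) (nat_lit 5) (nat_lit 76) (nat_lit 5) (nat_lit 302) (nat_lit 299) (nat_lit 119)) (XT.nd (nat_lit 78) (nat_lit 0) (nat_lit 76) (XT.lf (nat_lit 0) (nat_lit 171310828568) (nat_lit 684) (nat_lit 88422072838) (nat_lit 760) (nat_lit 192985340212) (nat_lit 67) (nat_lit 5) (nat_lit 76) (nat_lit 5) (nat_lit 77) (nat_lit 5) (nat_lit 303) (nat_lit 299) (nat_lit 118)) (XT.lf (nat_lit 0) (nat_lit 207331961844) (nat_lit 684) (nat_lit 241672106103) (nat_lit 760) (nat_lit 23182318364) (nat_lit 68) (nat_lit 5) (nat_lit 77) (nat_lit 5) (nat_lit 78) (nat_lit 5) (nat_lit 304) (nat_lit 299) (nat_lit 117))))) (XT.nd (nat_lit 156) (nat_lit 608) (nat_lit 0) (XT.nd (nat_lit 78) (nat_lit 0) (nat_lit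 76) (XT.lf (nat_lit 76) (nat_lit 83247682943) (nat_lit 0) (nat_lit 170231862948) (nat_lit 760) (nat_lit 239370198865) (nat_lit 69) (nat_lit 5) (nat_lit 68) (nat_lit 5) (nat_lit 78) (nat_lit 5) (nat_lit 305) (nat_lit 299) (nat_lit 116)) (XT.lf (nat_lit 0) (nat_lit 309640490401) (nat_lit 684) (nat_lit 74276457809) (nat_lit 76) (nat_lit 130933146150) (nat_lit 69) (nat_lit 5) (nat_lit 78) (nat_lit 5) (nat_lit 70) (nat_lit 5) (nat_lit 306) (nat_lit 299) (nat_lit 115))) (XT.nd (nat_lit 36972) (nat_lit 0) (nat_lit 380) (XT.lf (nat_lit 0) (nat_lit 294428283152) (nat_lit 684) (nat_lit 83333258082) (nat_lit 760) (nat_lit 160475569317) (nat_lit 60) (nat_lit 5) (nat_lit 69) (nat_lit 5) (nat_lit 70) (nat_lit 5) (nat_lit 307) (nat_lit 299) (nat_lit 114)) (XT.nd (nat_lit 78) (nat_lit 0) (nat_lit 0) (XT.lf (nat_lit 0) (nat_lit 27759997478) (nat_lit 0) (nat_lit 27759997478) (nat_lit 684) (nat_lit 152756248661)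 (nat_lit 65) (nat_lit 5) (nat_lit 65) (nat_lit 3) (nat_lit 74) (nat_lit 3) (nat_lit 300) (nat_lit 300) (nat_lit 120)) (XT.lf (nat_lit 0) (nat_lit 119093814087) (nat_lit 684) (nat_lit 90015425017) (nat_lit 760) (nat_lit 223924734259) (nat_lit 65) (nat_lit 5) (nat_lit 74) (nat_lit 3) (nat_lit 75) (nat_lit 5) (nat_lit 301) (nat_lit 300) (nat_lit 119))))))) (XT.nd (nat_lit 37674) (nat_lit 0) (nat_lit 0) (XT.nd (nat_lit 312) (nat_lit 76) (nat_lit 0) (XT.nd (nat_lit 156) (nat_lit 0) (nat_lit 76) (XT.nd (nat_lit 78) (nat_lit 0) (nat_lit 0) (XT.lf (nat_lit 0) (nat_lit 133175411639) (nat_lit 684) (nat_lit 243400375418) (nat_lit 760) (nat_lit 73989018162) (nat_lit 66) (nat_lit 5) (nat_lit 75) (nat_lit 5) (nat_lit 76) (nat_lit 5) (nat_lit 302) (nat_lit 300) (nat_lit 118)) (XT.lf (nat_lit 76) (nat_lit 60291392147) (nat_lit 0) (nat_lit 94153092592) (nat_lit 760) (nat_lit 314750571698) (nat_lit 67)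 (nat_lit 5) (nat_lit 66) (nat_lit 5) (nat_lit 76) (nat_lit 5) (nat_lit 303) (nat_lit 300) (nat_lit 117))) (XT.nd (nat_lit 78) (nat_lit 0) (nat_lit 76) (XT.lf (nat_lit 0) (nat_lit 185016590373) (nat_lit 684) (nat_lit 95495192087) (nat_lit 760) (nat_lit 208423870140) (nat_lit 67) (nat_lit 5) (nat_lit 76) (nat_lit 5) (nat_lit 77) (nat_lit 5) (nat_lit 304) (nat_lit 300) (nat_lit 116)) (XT.lf (nat_lit 0) (nat_lit 223919354192) (nat_lit 684) (nat_lit 261005207422) (nat_lit 760) (nat_lit 25036690524) (nat_lit 68) (nat_lit 5) (nat_lit 77) (nat_lit 5) (nat_lit 78) (nat_lit 5) (nat_lit 305) (nat_lit 300) (nat_lit 115)))) (XT.nd (nat_lit 37128) (nat_lit 228) (nat_lit 0) (XT.nd (nat_lit 78) (nat_lit 0) (nat_lit 76) (XT.lf (nat_lit 76) (nat_lit 89908135754) (nat_lit 0) (nat_lit 183850557292) (nat_lit 760) (nat_lit 258518989055) (nat_lit 69) (nat_lit 5) (nat_lit 68) (nat_lit 5) (nat_lit 78) (nat_lit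 5) (nat_lit 306) (nat_lit 300) (nat_lit 114)) (XT.lf (nat_lit 0) (nat_lit 334412452980) (nat_lit 684) (nat_lit 80217942323) (nat_lit 76) (nat_lit 141407667604) (nat_lit 69) (nat_lit 5) (nat_lit 78) (nat_lit 5) (nat_lit 70) (nat_lit 5) (nat_lit 307) (nat_lit 300) (nat_lit 113))) (XT.nd (nat_lit 78) (nat_lit 0) (nat_lit 0) (XT.lf (nat_lit 0) (nat_lit 29981058496) (nat_lit 0) (nat_lit 29981058496) (nat_lit 684) (nat_lit 164976197909) (nat_lit 65) (nat_lit 5) (nat_lit 65) (nat_lit 3) (nat_lit 74) (nat_lit 3) (nat_lit 301) (nat_lit 301) (nat_lit 118)) (XT.nd (nat_lit 78) (nat_lit 0) (nat_lit 76) (XT.lf (nat_lit 0) (nat_lit 128622279143) (nat_lit 684) (nat_lit 97216115493) (nat_lit 760) (nat_lit 241838244741) (nat_lit 65) (nat_lit 5) (nat_lit 74) (nat_lit 3) (nat_lit 75) (nat_lit 5) (nat_lit 302) (nat_lit 301) (nat_lit 117)) (XT.lf (nat_lit 0) (nat_lit 143830335624) (nat_lit 684) (nat_lit 262871831242)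 (nat_lit 760) (nat_lit 79907774647) (nat_lit 66) (nat_lit 5) (nat_lit 75) (nat_lit 5) (nat_lit 76) (nat_lit 5) (nat_lit 303) (nat_lit 301) (nat_lit 116)))))) (XT.nd (nat_lit 37518) (nat_lit 0) (nat_lit 0) (XT.nd (nat_lit 156) (nat_lit 76) (nat_lit 0) (XT.nd (nat_lit 78) (nat_lit 0) (nat_lit 76) (XT.lf (nat_lit 76) (nat_lit 65115252775) (nat_lit 0) (nat_lit 101685624368) (nat_lit 760) (nat_lit 339929738820) (nat_lit 67) (nat_lit 5) (nat_lit 66) (nat_lit 5) (nat_lit 76) (nat_lit 5) (nat_lit 304) (nat_lit 301) (nat_lit 115)) (XT.lf (nat_lit 0) (nat_lit 199818685366) (nat_lit 684) (nat_lit 103134253116) (nat_lit 760) (nat_lit 225097524874) (nat_lit 67) (nat_lit 5) (nat_lit 76) (nat_lit 5) (nat_lit 77) (nat_lit 5) (nat_lit 305) (nat_lit 301) (nat_lit 114))) (XT.nd (nat_lit 37206) (nat_lit 228) (nat_lit 0) (XT.lf (nat_lit 0) (nat_lit 241833618749) (nat_lit 684) (nat_lit 281885052025) (nat_lit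 760) (nat_lit 27039442888) (nat_lit 68) (nat_lit 5) (nat_lit 77) (nat_lit 5) (nat_lit 78) (nat_lit 5) (nat_lit 306) (nat_lit 301) (nat_lit 113)) (XT.nd (nat_lit 78) (nat_lit 0) (nat_lit 0) (XT.lf (nat_lit 0) (nat_lit 32379767130) (nat_lit 0) (nat_lit 32379767130) (nat_lit 684) (nat_lit 178173821652) (nat_lit 65) (nat_lit 5) (nat_lit 65) (nat_lit 3) (nat_lit 74) (nat_lit 3) (nat_lit 302) (nat_lit 302) (nat_lit 116)) (XT.lf (nat_lit 0) (nat_lit 138912884458) (nat_lit 684) (nat_lit 104992938747) (nat_lit 760) (nat_lit 261184902865) (nat_lit 65) (nat_lit 5) (nat_lit 74) (nat_lit 3) (nat_lit 75) (nat_lit 5) (nat_lit 303) (nat_lit 302) (nat_lit 115))))) (XT.nd (nat_lit 37440) (nat_lit 76) (nat_lit 0) (XT.nd (nat_lit 78) (nat_lit 0) (nat_lit 0) (XT.lf (nat_lit 0) (nat_lit 155337526408) (nat_lit 684) (nat_lit 283901085449) (nat_lit 760) (nat_lit 86300083717) (nat_lit 66) (nat_lit 5) (nat_lit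 75) (nat_lit 5) (nat_lit 76) (nat_lit 5) (nat_lit 304) (nat_lit 302) (nat_lit 114)) (XT.lf (nat_lit 76) (nat_lit 70324943895) (nat_lit 0) (nat_lit 109820718119) (nat_lit 760) (nat_lit 367123364656) (nat_lit 67) (nat_lit 5) (nat_lit 66) (nat_lit 5) (nat_lit 76) (nat_lit 5) (nat_lit 305) (nat_lit 302) (nat_lit 113))) (XT.nd (nat_lit 78) (nat_lit 0) (nat_lit 0) (XT.lf (nat_lit 0) (nat_lit 34970340505) (nat_lit 0) (nat_lit 34970340505) (nat_lit 684) (nat_lit 192427322644) (nat_lit 65) (nat_lit 5) (nat_lit 65) (nat_lit 3) (nat_lit 74) (nat_lit 3) (nat_lit 303) (nat_lit 303) (nat_lit 114)) (XT.nd (nat_lit 78) (nat_lit 0) (nat_lit 76) (XT.lf (nat_lit 0) (nat_lit 150026620791) (nat_lit 684) (nat_lit 113391974340) (nat_lit 760) (nat_lit 282079350911) (nat_lit 65) (nat_lit 5) (nat_lit 74) (nat_lit 3) (nat_lit 75) (nat_lit 5) (nat_lit 304) (nat_lit 303) (nat_lit 113)) (XT.lf (nat_lit 0) (nat_lit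 167765183472) (nat_lit 684) (nat_lit 306612750223) (nat_lit 760) (nat_lit 93203822152) (nat_lit 66) (nat_lit 5) (nat_lit 75) (nat_lit 5) (nat_lit 76) (nat_lit 5) (nat_lit 305) (nat_lit 303) (nat_lit 112))))))))

set_option maxRecDepth 10000000 in
noncomputable def Tp : PT := (PT.nd (nat_lit 4586400) (PT.nd (nat_lit 4361526) (PT.nd (nat_lit 4136808) pc0 pc1) (PT.nd (nat_lit 112788) pc2 pc3)) (PT.nd (nat_lit 149370) (PT.nd (nat_lit 74958) pc4 pc5) (PT.nd (nat_lit 39078) pc6 pc7)))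

set_option maxRecDepth 10000000 in
noncomputable def Tx : XT := (XT.nd (nat_lit 7416474) (nat_lit 0) (nat_lit 76) XT.nil (XT.nd (nat_lit 3975348) (nat_lit 0) (nat_lit 0) (XT.nd (nat_lit 1870986) (nat_lit 0) (nat_lit 0) (XT.nd (nat_lit 1275456) (nat_lit 0) (nat_lit 0) (XT.nd (nat_lit 899496) (nat_lit 0) (nat_lit 0) (XT.nd (nat_lit 636636) (nat_lit 0) (nat_lit 0) (XT.nd (nat_lit 449124) (nat_lit 0) (nat_lit 0) (XT.nd (nat_lit 299832) (nat_lit 0) (nat_lit 0) (XT.nd (nat_lit 224250) (nat_lit 0) (nat_lit 0) xc0 xc1) (XT.nd (nat_lit 74958) (nat_lit 0) (nat_lit 0) xc2 xc3)) (XT.nd (nat_lit 111774) (nat_lit 0) (nat_lit 0) (XT.nd (nat_lit 38376) (nat_lit 0) (nat_lit 0) xc4 xc5) (XT.nd (nat_lit 37908) (nat_lit 0) (nat_lit 0) xc6 xc7))) (XT.nd (nat_lit 149448) (nat_lit 0) (nat_lit 0) (XT.nd (nat_lit 75036) (nat_lit 0) (nat_lit 0) (XT.nd (nat_lit 37596) (nat_lit 0) (nat_lit 0) xc8 xc9) (XT.nd (nat_lit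 37284) (nat_lit 0) (nat_lit 0) xc10 xc11)) (XT.nd (nat_lit 73788) (nat_lit 0) (nat_lit 0) (XT.nd (nat_lit 36972) (nat_lit 0) (nat_lit 0) xc12 xc13) (XT.nd (nat_lit 2886) (nat_lit 0) (nat_lit 0) xc14 xc15)))) (XT.nd (nat_lit 222612) (nat_lit 0) (nat_lit 0) (XT.nd (nat_lit 111930) (nat_lit 0) (nat_lit 0) (XT.nd (nat_lit 72852) (nat_lit 0) (nat_lit 0) (XT.nd (nat_lit 36504) (nat_lit 0) (nat_lit 0) xc16 xc17) (XT.nd (nat_lit 2886) (nat_lit 0) (nat_lit 0) xc18 xc19)) (XT.nd (nat_lit 38922) (nat_lit 0) (nat_lit 0) (XT.nd (nat_lit 36036) (nat_lit 0) (nat_lit 0) xc20 xc21) (XT.nd (nat_lit 35880) (nat_lit 0) (nat_lit 0) xc22 xc23))) (XT.nd (nat_lit 76986) (nat_lit 0) (nat_lit 0) (XT.nd (nat_lit 38532) (nat_lit 0) (nat_lit 0) (XT.nd (nat_lit 2886) (nat_lit 0) (nat_lit 0) xc24 xc25) (XT.nd (nat_lit 35490) (nat_lit 0) (nat_lit 0) xc26 xc27)) (XT.nd (nat_lit 38220) (nat_lit 0) (nat_lit 0) (XT.nd (nat_lit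 35334) (nat_lit 0) (nat_lit 0) xc28 xc29) (XT.nd (nat_lit 35178) (nat_lit 0) (nat_lit 0) xc30 xc31))))) (XT.nd (nat_lit 299208) (nat_lit 0) (nat_lit 0) (XT.nd (nat_lit 182286) (nat_lit 0) (nat_lit 0) (XT.nd (nat_lit 107484) (nat_lit 0) (nat_lit 0) (XT.nd (nat_lit 69888) (nat_lit 0) (nat_lit 0) (XT.nd (nat_lit 35022) (nat_lit 0) (nat_lit 0) xc32 xc33) (XT.nd (nat_lit 2886) (nat_lit 152) (nat_lit 0) xc34 xc35)) (XT.nd (nat_lit 37440) (nat_lit 0) (nat_lit 0) (XT.nd (nat_lit 2886) (nat_lit 152) (nat_lit 0) xc36 xc37) (XT.nd (nat_lit 2886) (nat_lit 152) (nat_lit 0) xc38 xc39))) (XT.nd (nat_lit 74178) (nat_lit 0) (nat_lit 0) (XT.nd (nat_lit 37128) (nat_lit 0) (nat_lit 0) (XT.nd (nat_lit 2886) (nat_lit 228) (nat_lit 0) xc40 xc41) (XT.nd (nat_lit 2886) (nat_lit 304) (nat_lit 0) xc42 xc43)) (XT.nd (nat_lit 5772) (nat_lit 0) (nat_lit 0) (XT.nd (nat_lit 2886) (nat_lit 456) (nat_lit 0) xc44 xc45)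 (XT.nd (nat_lit 34008) (nat_lit 0) (nat_lit 0) xc46 xc47)))) (XT.nd (nat_lit 147498) (nat_lit 0) (nat_lit 0) (XT.nd (nat_lit 73554) (nat_lit 0) (nat_lit 0) (XT.nd (nat_lit 36738) (nat_lit 0) (nat_lit 0) (XT.nd (nat_lit 33852) (nat_lit 0) (nat_lit 152) xc48 xc49) (XT.nd (nat_lit 33930) (nat_lit 0) (nat_lit 228) xc50 xc51)) (XT.nd (nat_lit 36894) (nat_lit 0) (nat_lit 0) (XT.nd (nat_lit 34008) (nat_lit 0) (nat_lit 532) xc52 xc53) (XT.nd (nat_lit 2886) (nat_lit 0) (nat_lit 0) xc54 xc55))) (XT.nd (nat_lit 74256) (nat_lit 0) (nat_lit 0) (XT.nd (nat_lit 37050) (nat_lit 0) (nat_lit 0) (XT.nd (nat_lit 2886) (nat_lit 0) (nat_lit 0) xc56 xc57) (XT.nd (nat_lit 2886) (nat_lit 152) (nat_lit 0) xc58 xc59)) (XT.nd (nat_lit 37206) (nat_lit 0) (nat_lit 0) (XT.nd (nat_lit 2886) (nat_lit 152) (nat_lit 0) xc60 xc61) (XT.nd (nat_lit 2886) (nat_lit 228) (nat_lit 0) xc62 xc63)))))) (XT.nd (nat_lit 675792) (nat_lit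 0) (nat_lit 228) (XT.nd (nat_lit 301860) (nat_lit 0) (nat_lit 152) (XT.nd (nat_lit 150306) (nat_lit 0) (nat_lit 0) (XT.nd (nat_lit 74958) (nat_lit 0) (nat_lit 0) (XT.nd (nat_lit 37440) (nat_lit 0) (nat_lit 0) (XT.nd (nat_lit 2886) (nat_lit 228) (nat_lit 0) xc64 xc65) (XT.nd (nat_lit 2886) (nat_lit 304) (nat_lit 0) xc66 xc67)) (XT.nd (nat_lit 37596) (nat_lit 0) (nat_lit 0) (XT.nd (nat_lit 2886) (nat_lit 304) (nat_lit 0) xc68 xc69) (XT.nd (nat_lit 2886) (nat_lit 304) (nat_lit 0) xc70 xc71))) (XT.nd (nat_lit 75582) (nat_lit 0) (nat_lit 76) (XT.nd (nat_lit 37752) (nat_lit 0) (nat_lit 76) (XT.nd (nat_lit 2886) (nat_lit 228) (nat_lit 0) xc72 xc73) (XT.nd (nat_lit 2886) (nat_lit 152) (nat_lit 0) xc74 xc75)) (XT.nd (nat_lit 37908) (nat_lit 0) (nat_lit 76) (XT.nd (nat_lit 2886) (nat_lit 152) (nat_lit 0) xc76 xc77) (XT.nd (nat_lit 2886) (nat_lit 0) (nat_lit 0) xc78 xc79)))) (XT.nd (nat_lit 185796)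 (nat_lit 0) (nat_lit 0) (XT.nd (nat_lit 76362) (nat_lit 0) (nat_lit 0) (XT.nd (nat_lit 38142) (nat_lit 0) (nat_lit 0) (XT.nd (nat_lit 35256) (nat_lit 0) (nat_lit 608) xc80 xc81) (XT.nd (nat_lit 35334) (nat_lit 0) (nat_lit 304) xc82 xc83)) (XT.nd (nat_lit 38298) (nat_lit 0) (nat_lit 0) (XT.nd (nat_lit 35412) (nat_lit 0) (nat_lit 76) xc84 xc85) (XT.nd (nat_lit 35490) (nat_lit 0) (nat_lit 0) xc86 xc87))) (XT.nd (nat_lit 77298) (nat_lit 0) (nat_lit 0) (XT.nd (nat_lit 38532) (nat_lit 0) (nat_lit 0) (XT.nd (nat_lit 2886) (nat_lit 532) (nat_lit 0) xc88 xc89) (XT.nd (nat_lit 2886) (nat_lit 152) (nat_lit 0) xc90 xc91)) (XT.nd (nat_lit 38766) (nat_lit 0) (nat_lit 76) (XT.nd (nat_lit 35880) (nat_lit 0) (nat_lit 304) xc92 xc93) (XT.nd (nat_lit 35958) (nat_lit 0) (nat_lit 0) xc94 xc95))))) (XT.nd (nat_lit 451542) (nat_lit 0) (nat_lit 304) (XT.nd (nat_lit 190320) (nat_lit 0) (nat_lit 76) (XT.nd (nat_lit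 78078) (nat_lit 0) (nat_lit 0) (XT.nd (nat_lit 39000) (nat_lit 0) (nat_lit 0) (XT.nd (nat_lit 2886) (nat_lit 304) (nat_lit 0) xc96 xc97) (XT.nd (nat_lit 36192) (nat_lit 0) (nat_lit 304) xc98 xc99)) (XT.nd (nat_lit 72774) (nat_lit 0) (nat_lit 76) (XT.nd (nat_lit 36348) (nat_lit 0) (nat_lit 0) xc100 xc101) (XT.nd (nat_lit 2886) (nat_lit 76) (nat_lit 0) xc102 xc103))) (XT.nd (nat_lit 113022) (nat_lit 0) (nat_lit 152) (XT.nd (nat_lit 73242) (nat_lit 0) (nat_lit 76) (XT.nd (nat_lit 36582) (nat_lit 0) (nat_lit 76) xc104 xc105) (XT.nd (nat_lit 2886) (nat_lit 76) (nat_lit 0) xc106 xc107)) (XT.nd (nat_lit 73866) (nat_lit 0) (nat_lit 0) (XT.nd (nat_lit 36894) (nat_lit 0) (nat_lit 0) xc108 xc109) (XT.nd (nat_lit 37050) (nat_lit 0) (nat_lit 76) xc110 xc111)))) (XT.nd (nat_lit 301314) (nat_lit 0) (nat_lit 532) (XT.nd (nat_lit 149682) (nat_lit 0) (nat_lit 228) (XT.nd (nat_lit 74646) (nat_lit 0) (nat_lit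 152) (XT.nd (nat_lit 37284) (nat_lit 0) (nat_lit 76) xc112 xc113) (XT.nd (nat_lit 37440) (nat_lit 0) (nat_lit 76) xc114 xc115)) (XT.nd (nat_lit 75582) (nat_lit 0) (nat_lit 152) (XT.nd (nat_lit 37752) (nat_lit 0) (nat_lit 0) xc116 xc117) (XT.nd (nat_lit 37908) (nat_lit 0) (nat_lit 152) xc118 xc119))) (XT.nd (nat_lit 225030) (nat_lit 0) (nat_lit 1140) (XT.nd (nat_lit 111930) (nat_lit 0) (nat_lit 532) (XT.nd (nat_lit 38142) (nat_lit 0) (nat_lit 152) xc120 xc121) (XT.nd (nat_lit 38532) (nat_lit 0) (nat_lit 152) xc122 xc123)) (XT.nd (nat_lit 150228) (nat_lit 0) (nat_lit 988) (XT.nd (nat_lit 74880) (nat_lit 0) (nat_lit 456) xc124 xc125) (XT.nd (nat_lit 112476) (nat_lit 0) (nat_lit 988) xc126 xc127))))))) XT.nil))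

set_option maxRecDepth 10000000 in
noncomputable def Te : XT := XT.nil

set_option maxRecDepth 10000000 in
noncomputable def Tz : ZL := (ZL.cons (nat_lit 76) (nat_lit 6) (nat_lit 173001672969307358530) (ZL.cons (nat_lit 152) (nat_lit 6) (nat_lit 167687980965519299798) (ZL.cons (nat_lit 228) (nat_lit 3) (nat_lit 83607989671506167304) (ZL.cons (nat_lit 304) (nat_lit 6) (nat_lit 161949193601428196370) (ZL.cons (nat_lit 380) (nat_lit 6) (nat_lit 157170105162382593364) (ZL.cons (nat_lit 456) (nat_lit 3) (nat_lit 78366533311512146131) (ZL.cons (nat_lit 532) (nat_lit 6) (nat_lit 152008689648213342118) (ZL.cons (nat_lit 608) (nat_lit 6) (nat_lit 147748066368996466234) (ZL.cons (nat_lit 684) (nat_lit 3) (nat_lit 73671700527387908532) (ZL.cons (nat_lit 760) (nat_lit 6) (nat_lit 143925948647422749786) (ZL.cons (nat_lit 836) (nat_lit 6) (nat_lit 143146593227442240276) (ZL.cons (nat_lit 912) (nat_lit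 6) (nat_lit 139393396193902486856) (ZL.cons (nat_lit 988) (nat_lit 3) (nat_lit 69509353044071313258) (ZL.cons (nat_lit 1064) (nat_lit 6) (nat_lit 136061568786550395298) (ZL.cons (nat_lit 1140) (nat_lit 6) (nat_lit 135339943397679553162) (ZL.cons (nat_lit 1216) (nat_lit 6) (nat_lit 132088505080850276076) (ZL.cons (nat_lit 1292) (nat_lit 3) (nat_lit 65870784898869647140) (ZL.cons (nat_lit 1368) (nat_lit 6) (nat_lit 129245123355036547696) (ZL.cons (nat_lit 1444) (nat_lit 6) (nat_lit 128576951698674656826) (ZL.cons (nat_lit 1520) (nat_lit 6) (nat_lit 126792948550752064442) (ZL.cons (nat_lit 1596) (nat_lit 6) (nat_lit 125827335808046739248) (ZL.cons (nat_lit 1672) (nat_lit 3) (nat_lit 62753049717397915087) (ZL.cons (nat_lit 1748) (nat_lit 6) (nat_lit 124717449261749214560) (ZL.cons (nat_lit 1824) (nat_lit 6) (nat_lit 123476428105762931658) (ZL.cons (nat_lit 1900) (nat_lit 6) (nat_lit 122857750646168588260)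 (ZL.cons (nat_lit 1976) (nat_lit 6) (nat_lit 121510297286920811494) (ZL.cons (nat_lit 2052) (nat_lit 6) (nat_lit 120616211414045510388) (ZL.cons (nat_lit 2128) (nat_lit 3) (nat_lit 60159385163851038032) (ZL.cons (nat_lit 2204) (nat_lit 6) (nat_lit 119917292205927240270) (ZL.cons (nat_lit 2280) (nat_lit 6) (nat_lit 118768198542976978320) (ZL.cons (nat_lit 2356) (nat_lit 6) (nat_lit 118195349043352586288) (ZL.cons (nat_lit 2432) (nat_lit 3) (nat_lit 58559904887605864442) (ZL.cons (nat_lit 2508) (nat_lit 6) (nat_lit 117293363792249457920) (ZL.cons (nat_lit 2584) (nat_lit 6) (nat_lit 117815054311611757506) (ZL.cons (nat_lit 2660) (nat_lit 6) (nat_lit 118687972832672626450) (ZL.cons (nat_lit 2736) (nat_lit 6) (nat_lit 117302760845578882240) (ZL.cons (nat_lit 2812) (nat_lit 6) (nat_lit 116474903555879529364) (ZL.cons (nat_lit 2888) (nat_lit 3) (nat_lit 58099747571299285828) (ZL.cons (nat_lit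 2964) (nat_lit 6) (nat_lit 115126097966333798438) (ZL.cons (nat_lit 3040) (nat_lit 6) (nat_lit 115487090321772274838) (ZL.cons (nat_lit 3116) (nat_lit 6) (nat_lit 116211214246607381574) (ZL.cons (nat_lit 3192) (nat_lit 6) (nat_lit 115147238632764546438) (ZL.cons (nat_lit 3268) (nat_lit 6) (nat_lit 114616822429408627886) (ZL.cons (nat_lit 3344) (nat_lit 3) (nat_lit 56726811265353388533) (ZL.cons (nat_lit 3420) (nat_lit 6) (nat_lit 113641060869107524430) (ZL.cons (nat_lit 3496) (nat_lit 6) (nat_lit 114204486630018807980) (ZL.cons (nat_lit 3572) (nat_lit 6) (nat_lit 113437952102519407168) (ZL.cons (nat_lit 3648) (nat_lit 3) (nat_lit 56591472156222223162) (ZL.cons (nat_lit 3724) (nat_lit 6) (nat_lit 112266026519823937382) (ZL.cons (nat_lit 3800) (nat_lit 6) (nat_lit 112655898263697491896) (ZL.cons (nat_lit 3876) (nat_lit 6) (nat_lit 112164772149479048792) (ZL.cons (nat_lit 3952) (nat_lit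 3) (nat_lit 55676919461111027703) (ZL.cons (nat_lit 4028) (nat_lit 6) (nat_lit 111556272327694862556) (ZL.cons (nat_lit 4104) (nat_lit 3) (nat_lit 55660077001775690148) (ZL.cons (nat_lit 4180) (nat_lit 6) (nat_lit 110899092520167941424) (ZL.cons (nat_lit 4256) (nat_lit 1) (nat_lit 18446744073709551617) ZL.nil))))))))))))))))))))))))))))))))))))))))))))))))))))))))

noncomputable def vl : XL := ⟨(nat_lit 0), (nat_lit 76), (nat_lit 206705025), (nat_lit 228), (nat_lit 281629978), (nat_lit 76), (nat_lit 206705025), (nat_lit 1), (nat_lit 5), (nat_lit 3), (nat_lit 4), (nat_lit 1), (nat_lit 4), (nat_lit 0), (nat_lit 0), (nat_lit 0)⟩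

noncomputable def cp0 : Nat := (nat_lit 3571301419466165076494522212305890850554387910512396220297825692555639593143391605295634366855494962558051122628037278565428484425246614627317298523088967493287436282837835809824604751460776629810711198287021108371705309386552926595017363983977979320300667719225939813117227919451700281737313570156498938726436214826068263720911343626256460535642976718043155628222558856171126756063102315753734139258601121511668535113503267025786277284938543825251750363150581413613854249798982168310648182280887404814599540124481679241928278332829598734062241874658842961912505220710172306831733833899109311193324576440195957490641833184359070874817157668496839441629226990562452297926010621169551287436894471552229108373457981321834271095387903592464771813669945948513931136656322485702426889043143477957202641617448261013459266962344474805966038990807383394944986594598087604445355660092016336433062215965738052181463747915593948354266369807969345609761746692879717427082305750495125189010487854075962753755754225495185809513904710303832830508993423990705507556254791522504368590881549111360698293248378804696159570385346455170369507472068399353853622120950623711540524752290907718040654236505277967320249753326501944675288777187727410732822177759276663749926640650520474444977623432629023891997324229442361360384)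

noncomputable def cp1 : Nat := (nat_lit 259485610339996137095618128983857558458533528508078628929758178110098477483891612631524836981360977719933131548649207815741187735121910550255969733390448242948581928981034505667718305739538659986554131086755496464881128538573163125163701707521772205449825110272673310098192994677821707348216393405175736363805295412899062905847898629677568950543216443739416463293208676951831332591648798288857823310979739704539400403866919163238429523560554614755293114713636097459151639114434735245108683559557650819357626560347214289522056412308241264925206807497540345441974869116622588580125936269179586349258567355965259921235066269924300844453435350164289063582269018204965472248154733971904921629679769600288317356219274689009151687040699386073800081176465455284319168616284466532430916991130205310775204370391408747143473551443862516310080046970478978222079042088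057541940346370963682704767394137355000478554617108421236757404203948785551492065773522373349079825436881289370131964015300731227494230762560369973310494705657198853199075619066497441776093764670986261471462099641721304866362720556351453301457926895248746714536343876930415776599837194392344488139506175157975164749668339816478379130854268170111527031966802517128146555598832880834932815570304367394009431555404445693734152035917756679067888494481911016142980982563579142810467101977071270382383811016235906830013340917692141102175292154722864381389225038967503653989784994442057064581822121263172804026124020500099739211892172691392529337531227255643175714131069125835778715810982969322701484716005151321321024215157459465144687150005224839712875306161584159277190003696798123707877486652939139220958700561654980677746102671464814713194621750966100553914701411341734830434246296553410785356690100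27415278180058533847673900816235264426728850602599312788358510396116629324247098321559017941318302476266449967387306376691468727398066511689303970171950548803232262794734706075113280330923075609209595843699650144033697206564456968703389712892997596572187835051743365724988786245121791780086700841617754959176358735766190822900530068047298051416686249418473118643895748028044367633165789277037815529483743087705263515260522696087727529411904142566345448829288476337060218135118141639471649379718026362345854745565966311211495259425317869728017574187923588763589751050176340277529561304359864559033567274531907890462095468692688441652078038791713651022361821270636599729459802003528452617380290822136690819085119815202750739333591916394909936777377707849410142587837714407148324585134806393658726042687478593801299905404400733183858364081485662754220784653346864888791250763776)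

noncomputable def rc0 : Nat := (nat_lit 259485610339996137095618128983857558458533528508078628929758178110098477483891612631524836981360977719933131548649207815741187735121910550255969733390448242948581928981034505667718305739538659986554131086755496464881128538573163125163701707521772205449825110272673310098192994677821707348216393405175736363805295412899062905847898629677568950543216443739416463293208676951831332591648798288857823310979739704539400403866919163238429523560554614755293114713636097459151639114434735245108683559557650819357626560347214289522056412308241264925206807497540345441974869116622588580125936269179586349258567355965259921235066269924300844453435350164289063582269018204965472248154733971904921629679769600288317356219274689009151687040699386073800081176465455284319168616284466532430916991130205310775204370391408747143473551443862516310080046970478978222079042088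057541940346370963682704767394137355000478554617108421236757404203948785551492065773522373349079825436881289370131964015300731227494230762560369973310494705657198853199075619066497441776093764670986261471462099641721304866362720556351453301457926895248746714536343876930415776599837194392344488139506175157975164749668339816478379130854268170111527031966802517128146555598832880834932815570304367394009431555404445693734152035917756679067888494481911016142980982563579142810467101977071270382383811016235906830013340917692141102175292154722864381389225038967503653989784994442057064581822121263172804026124020500099739211892172691392529337531227255643175714131069125835778715810982969322701484716005151321321024215157459465144687150005224839712875306161584159277190003696798123707877486652939139220958700561654980677746102671464814713194621750966100553914701411341734830434246296553410785356690100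27415278180058533847673900816235264426728850602599312788358510396116629324247098321559017941318302476266449967387306376691468727398066511689303970171950548803232262794734706075113280330923075609209595843699650144033697206564456968703389712892997596572187835051743365724988786245121791780086700841617754959176358735766190822900530068047298051416686249418473118643895748028044367633165789277037815529483743087705263515260522696087727529411904142566345448829288476337060218135118141639471649379718026362345854745565966311211495259425317869728017574187923588763589751050176340277529561304359864559033567274531907890462095468692688441652078038791713651022361821270636599729459802003528452617380290822136690819085119815202750739333591916394909936777377707849410142587837714407148324585134806393658726042687478593801299905404400733183858364081485662754220784653346864888791250763776)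

end Vale.Agent.Lib.P154.PChain.BU.S3
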