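import Vale.Agent.Lib.P154.PChain.BU.R3_0

set_option linter.all false

namespace Vale.Agent.Lib.P154.PChain.BU.S4

open Vale.Agent.Lib.P154.Chain

noncomputable def pc0 : PT := (PT.nd (nat_lit 3537144) (PT.nd (nat_lit 3387228) (PT.nd (nat_lit 3312270) (PT.nd (nat_lit 3312114) (PT.nd (nat_lit 3274752) (PT.nd (nat_lit 3274674) PT.nil (PT.lf (nat_lit 76) (nat_lit 6) (nat_lit 1) (nat_lit 3) (nat_lit 136) (nat_lit 87) (nat_lit 137))) (PT.lf (nat_lit 76) (nat_lit 6) (nat_lit 1) (nat_lit 1) (nat_lit 137) (nat_lit 87) (nat_lit 136))) (PT.nd (nat_lit 78) (PT.lf (nat_lit 152) (nat_lit 6) (nat_lit 2) (nat_lit 3) (nat_lit 135) (nat_lit 88) (nat_lit 137)) (PT.lf (nat_lit 228) (nat_lit 3) (nat_lit 3) (nat_lit 1) (nat_lit 136) (nat_lit 88) (nat_lit 136)))) (PT.nd (nat_lit 37440) (PT.nd (nat_lit 37362) (PT.lf (nat_lit 152) (nat_lit 6) (nat_lit 2) (nat_lit 1) (nat_lit 137) (nat_lit 88) (nat_lit 135))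 (PT.lf (nat_lit 304) (nat_lit 6) (nat_lit 4) (nat_lit 3) (nat_lit 135) (nat_lit 89) (nat_lit 136))) (PT.nd (nat_lit 37362) (PT.lf (nat_lit 304) (nat_lit 6) (nat_lit 4) (nat_lit 1) (nat_lit 136) (nat_lit 89) (nat_lit 135)) (PT.nd (nat_lit 78) (PT.lf (nat_lit 380) (nat_lit 6) (nat_lit 5) (nat_lit 3) (nat_lit 134) (nat_lit 90) (nat_lit 136)) (PT.lf (nat_lit 456) (nat_lit 3) (nat_lit 6) (nat_lit 1) (nat_lit 135) (nat_lit 90) (nat_lit 135)))))) (PT.nd (nat_lit 74958) (PT.nd (nat_lit 37440) (PT.nd (nat_lit 37362) (PT.lf (nat_lit 380) (nat_lit 6) (nat_lit 5) (nat_lit 1) (nat_lit 136) (nat_lit 90) (nat_lit 134)) (PT.lf (nat_lit 532) (nat_lit 6) (nat_lit 7) (nat_lit 3) (nat_lit 134) (nat_lit 91) (nat_lit 135))) (PT.nd (nat_lit 37362) (PT.lf (nat_lit 532) (nat_lit 6) (nat_lit 7) (nat_lit 1) (nat_lit 135) (nat_lit 91) (nat_lit 134)) (PT.nd (nat_lit 78) (PT.lf (nat_lit 608) (nat_lit 6) (nat_lit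 8) (nat_lit 3) (nat_lit 133) (nat_lit 92) (nat_lit 135)) (PT.lf (nat_lit 684) (nat_lit 3) (nat_lit 9) (nat_lit 1) (nat_lit 134) (nat_lit 92) (nat_lit 134))))) (PT.nd (nat_lit 37440) (PT.nd (nat_lit 37362) (PT.lf (nat_lit 608) (nat_lit 6) (nat_lit 8) (nat_lit 1) (nat_lit 135) (nat_lit 92) (nat_lit 133)) (PT.lf (nat_lit 760) (nat_lit 6) (nat_lit 10) (nat_lit 3) (nat_lit 133) (nat_lit 93) (nat_lit 134))) (PT.nd (nat_lit 37362) (PT.lf (nat_lit 760) (nat_lit 6) (nat_lit 10) (nat_lit 1) (nat_lit 134) (nat_lit 93) (nat_lit 133)) (PT.nd (nat_lit 78) (PT.lf (nat_lit 836) (nat_lit 6) (nat_lit 11) (nat_lit 3) (nat_lit 132) (nat_lit 94) (nat_lit 134)) (PT.lf (nat_lit 912) (nat_lit 3) (nat_lit 12) (nat_lit 1) (nat_lit 133) (nat_lit 94) (nat_lit 133))))))) (PT.nd (nat_lit 112320) (PT.nd (nat_lit 37518) (PT.nd (nat_lit 37362) (PT.nd (nat_lit 37284) (PT.lf (nat_lit 836) (nat_lit 6) (nat_lit 11) (nat_lit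 1) (nat_lit 134) (nat_lit 94) (nat_lit 132)) (PT.lf (nat_lit 988) (nat_lit 6) (nat_lit 13) (nat_lit 3) (nat_lit 131) (nat_lit 95) (nat_lit 134))) (PT.nd (nat_lit 78) (PT.lf (nat_lit 1064) (nat_lit 6) (nat_lit 14) (nat_lit 3) (nat_lit 132) (nat_lit 95) (nat_lit 133)) (PT.lf (nat_lit 1064) (nat_lit 6) (nat_lit 14) (nat_lit 1) (nat_lit 133) (nat_lit 95) (nat_lit 132)))) (PT.nd (nat_lit 37362) (PT.nd (nat_lit 37284) (PT.lf (nat_lit 988) (nat_lit 6) (nat_lit 13) (nat_lit 1) (nat_lit 134) (nat_lit 95) (nat_lit 131)) (PT.lf (nat_lit 1140) (nat_lit 6) (nat_lit 15) (nat_lit 3) (nat_lit 131) (nat_lit 96) (nat_lit 133))) (PT.nd (nat_lit 78) (PT.lf (nat_lit 1216) (nat_lit 3) (nat_lit 16) (nat_lit 1) (nat_lit 132) (nat_lit 96) (nat_lit 132)) (PT.nd (nat_lit 37284) (PT.lf (nat_lit 1140) (nat_lit 6) (nat_lit 15) (nat_lit 1) (nat_lit 133) (nat_lit 96) (nat_lit 131)) (PT.lf (nat_lit 1292) (nat_lit 6)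 (nat_lit 17) (nat_lit 3) (nat_lit 130) (nat_lit 97) (nat_lit 133)))))) (PT.nd (nat_lit 37518) (PT.nd (nat_lit 156) (PT.nd (nat_lit 78) (PT.lf (nat_lit 1368) (nat_lit 6) (nat_lit 18) (nat_lit 3) (nat_lit 131) (nat_lit 97) (nat_lit 132)) (PT.lf (nat_lit 1368) (nat_lit 6) (nat_lit 18) (nat_lit 1) (nat_lit 132) (nat_lit 97) (nat_lit 131))) (PT.nd (nat_lit 37206) (PT.lf (nat_lit 1292) (nat_lit 6) (nat_lit 17) (nat_lit 1) (nat_lit 133) (nat_lit 97) (nat_lit 130)) (PT.nd (nat_lit 78) (PT.lf (nat_lit 1444) (nat_lit 6) (nat_lit 19) (nat_lit 3) (nat_lit 129) (nat_lit 98) (nat_lit 133)) (PT.lf (nat_lit 1520) (nat_lit 6) (nat_lit 20) (nat_lit 3) (nat_lit 130) (nat_lit 98) (nat_lit 132))))) (PT.nd (nat_lit 156) (PT.nd (nat_lit 78) (PT.lf (nat_lit 1596) (nat_lit 3) (nat_lit 21) (nat_lit 1) (nat_lit 131) (nat_lit 98) (nat_lit 131)) (PT.lf (nat_lit 1520) (nat_lit 6) (nat_lit 20) (nat_lit 1) (nat_lit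 132) (nat_lit 98) (nat_lit 130))) (PT.nd (nat_lit 37206) (PT.lf (nat_lit 1444) (nat_lit 6) (nat_lit 19) (nat_lit 1) (nat_lit 133) (nat_lit 98) (nat_lit 129)) (PT.nd (nat_lit 78) (PT.lf (nat_lit 1672) (nat_lit 6) (nat_lit 22) (nat_lit 3) (nat_lit 129) (nat_lit 99) (nat_lit 132)) (PT.lf (nat_lit 1748) (nat_lit 6) (nat_lit 23) (nat_lit 3) (nat_lit 130) (nat_lit 99) (nat_lit 131))))))))
noncomputable def pc1 : PT := (PT.nd (nat_lit 149760) (PT.nd (nat_lit 74880) (PT.nd (nat_lit 37440) (PT.nd (nat_lit 37284) (PT.nd (nat_lit 78) (PT.lf (nat_lit 1748) (nat_lit 6) (nat_lit 23) (nat_lit 1) (nat_lit 131) (nat_lit 99) (nat_lit 130)) (PT.lf (nat_lit 1672) (nat_lit 6) (nat_lit 22) (nat_lit 1) (nat_lit 132) (nat_lit 99) (nat_lit 129))) (PT.nd (nat_lit 78) (PT.lf (nat_lit 1824) (nat_lit 6) (nat_lit 24) (nat_lit 3) (nat_lit 128) (nat_lit 100) (nat_lit 132)) (PT.lf (nat_lit 1900) (nat_lit 6) (nat_lit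 25) (nat_lit 3) (nat_lit 129) (nat_lit 100) (nat_lit 131)))) (PT.nd (nat_lit 156) (PT.nd (nat_lit 78) (PT.lf (nat_lit 1976) (nat_lit 3) (nat_lit 26) (nat_lit 1) (nat_lit 130) (nat_lit 100) (nat_lit 130)) (PT.lf (nat_lit 1900) (nat_lit 6) (nat_lit 25) (nat_lit 1) (nat_lit 131) (nat_lit 100) (nat_lit 129))) (PT.nd (nat_lit 37128) (PT.lf (nat_lit 1824) (nat_lit 6) (nat_lit 24) (nat_lit 1) (nat_lit 132) (nat_lit 100) (nat_lit 128)) (PT.nd (nat_lit 78) (PT.lf (nat_lit 2052) (nat_lit 6) (nat_lit 27) (nat_lit 3) (nat_lit 127) (nat_lit 101) (nat_lit 132)) (PT.lf (nat_lit 2128) (nat_lit 6) (nat_lit 28) (nat_lit 3) (nat_lit 128) (nat_lit 101) (nat_lit 131)))))) (PT.nd (nat_lit 37440) (PT.nd (nat_lit 156) (PT.nd (nat_lit 78) (PT.lf (nat_lit 2204) (nat_lit 6) (nat_lit 29) (nat_lit 3) (nat_lit 129) (nat_lit 101) (nat_lit 130)) (PT.lf (nat_lit 2204) (nat_lit 6) (nat_lit 29) (nat_lit 1) (nat_lit 130)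 (nat_lit 101) (nat_lit 129))) (PT.nd (nat_lit 78) (PT.lf (nat_lit 2128) (nat_lit 6) (nat_lit 28) (nat_lit 1) (nat_lit 131) (nat_lit 101) (nat_lit 128)) (PT.nd (nat_lit 37128) (PT.lf (nat_lit 2052) (nat_lit 6) (nat_lit 27) (nat_lit 1) (nat_lit 132) (nat_lit 101) (nat_lit 127)) (PT.lf (nat_lit 2280) (nat_lit 6) (nat_lit 30) (nat_lit 3) (nat_lit 127) (nat_lit 102) (nat_lit 131))))) (PT.nd (nat_lit 156) (PT.nd (nat_lit 78) (PT.lf (nat_lit 2356) (nat_lit 6) (nat_lit 31) (nat_lit 3) (nat_lit 128) (nat_lit 102) (nat_lit 130)) (PT.lf (nat_lit 2432) (nat_lit 3) (nat_lit 32) (nat_lit 1) (nat_lit 129) (nat_lit 102) (nat_lit 129))) (PT.nd (nat_lit 78) (PT.lf (nat_lit 2356) (nat_lit 6) (nat_lit 31) (nat_lit 1) (nat_lit 130) (nat_lit 102) (nat_lit 128)) (PT.nd (nat_lit 37128) (PT.lf (nat_lit 2280) (nat_lit 6) (nat_lit 30) (nat_lit 1) (nat_lit 131) (nat_lit 102) (nat_lit 127)) (PT.lf (nat_lit 2508)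 (nat_lit 6) (nat_lit 33) (nat_lit 3) (nat_lit 126) (nat_lit 103) (nat_lit 131))))))) (PT.nd (nat_lit 37752) (PT.nd (nat_lit 37362) (PT.nd (nat_lit 156) (PT.nd (nat_lit 78) (PT.lf (nat_lit 2584) (nat_lit 6) (nat_lit 34) (nat_lit 3) (nat_lit 127) (nat_lit 103) (nat_lit 130)) (PT.lf (nat_lit 2660) (nat_lit 6) (nat_lit 35) (nat_lit 3) (nat_lit 128) (nat_lit 103) (nat_lit 129))) (PT.nd (nat_lit 78) (PT.lf (nat_lit 2660) (nat_lit 6) (nat_lit 35) (nat_lit 1) (nat_lit 129) (nat_lit 103) (nat_lit 128)) (PT.nd (nat_lit 78) (PT.lf (nat_lit 2584) (nat_lit 6) (nat_lit 34) (nat_lit 1) (nat_lit 130) (nat_lit 103) (nat_lit 127)) (PT.lf (nat_lit 2508) (nat_lit 6) (nat_lit 33) (nat_lit 1) (nat_lit 131) (nat_lit 103) (nat_lit 126))))) (PT.nd (nat_lit 156) (PT.nd (nat_lit 78) (PT.lf (nat_lit 2736) (nat_lit 6) (nat_lit 36) (nat_lit 3) (nat_lit 125) (nat_lit 104) (nat_lit 131)) (PT.lf (nat_lit 2812) (nat_lit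 6) (nat_lit 37) (nat_lit 3) (nat_lit 126) (nat_lit 104) (nat_lit 130))) (PT.nd (nat_lit 78) (PT.lf (nat_lit 2888) (nat_lit 6) (nat_lit 38) (nat_lit 3) (nat_lit 127) (nat_lit 104) (nat_lit 129)) (PT.nd (nat_lit 78) (PT.lf (nat_lit 2964) (nat_lit 3) (nat_lit 39) (nat_lit 1) (nat_lit 128) (nat_lit 104) (nat_lit 128)) (PT.lf (nat_lit 2888) (nat_lit 6) (nat_lit 38) (nat_lit 1) (nat_lit 129) (nat_lit 104) (nat_lit 127)))))) (PT.nd (nat_lit 37362) (PT.nd (nat_lit 37128) (PT.nd (nat_lit 78) (PT.lf (nat_lit 2812) (nat_lit 6) (nat_lit 37) (nat_lit 1) (nat_lit 130) (nat_lit 104) (nat_lit 126)) (PT.lf (nat_lit 2736) (nat_lit 6) (nat_lit 36) (nat_lit 1) (nat_lit 131) (nat_lit 104) (nat_lit 125))) (PT.nd (nat_lit 78) (PT.lf (nat_lit 3040) (nat_lit 6) (nat_lit 40) (nat_lit 3) (nat_lit 125) (nat_lit 105) (nat_lit 130)) (PT.nd (nat_lit 78) (PT.lf (nat_lit 3116) (nat_lit 6) (nat_lit 41) (nat_lit 3) (nat_lit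 126) (nat_lit 105) (nat_lit 129)) (PT.lf (nat_lit 3192) (nat_lit 6) (nat_lit 42) (nat_lit 3) (nat_lit 127) (nat_lit 105) (nat_lit 128))))) (PT.nd (nat_lit 156) (PT.nd (nat_lit 78) (PT.lf (nat_lit 3192) (nat_lit 6) (nat_lit 42) (nat_lit 1) (nat_lit 128) (nat_lit 105) (nat_lit 127)) (PT.lf (nat_lit 3116) (nat_lit 6) (nat_lit 41) (nat_lit 1) (nat_lit 129) (nat_lit 105) (nat_lit 126))) (PT.nd (nat_lit 37050) (PT.lf (nat_lit 3040) (nat_lit 6) (nat_lit 40) (nat_lit 1) (nat_lit 130) (nat_lit 105) (nat_lit 125)) (PT.nd (nat_lit 78) (PT.lf (nat_lit 3268) (nat_lit 6) (nat_lit 43) (nat_lit 3) (nat_lit 124) (nat_lit 106) (nat_lit 130)) (PT.lf (nat_lit 3344) (nat_lit 6) (nat_lit 44) (nat_lit 3) (nat_lit 125) (nat_lit 106) (nat_lit 129))))))))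
noncomputable def pc2 : PT := (PT.nd (nat_lit 75192) (PT.nd (nat_lit 37596) (PT.nd (nat_lit 312) (PT.nd (nat_lit 156) (PT.nd (nat_lit 78) (PT.lf (nat_lit 3420) (nat_lit 6) (nat_lit 45) (nat_lit 3) (nat_lit 126) (nat_lit 106) (nat_lit 128)) (PT.lf (nat_lit 3496) (nat_lit 3) (nat_lit 46) (nat_lit 1) (nat_lit 127) (nat_lit 106) (nat_lit 127))) (PT.nd (nat_lit 78) (PT.lf (nat_lit 3420) (nat_lit 6) (nat_lit 45) (nat_lit 1) (nat_lit 128) (nat_lit 106) (nat_lit 126)) (PT.lf (nat_lit 3344) (nat_lit 6) (nat_lit 44) (nat_lit 1) (nat_lit 129) (nat_lit 106) (nat_lit 125)))) (PT.nd (nat_lit 37050) (PT.nd (nat_lit 36972) (PT.lf (nat_lit 3268) (nat_lit 6) (nat_lit 43) (nat_lit 1) (nat_lit 130) (nat_lit 106) (nat_lit 124)) (PT.lf (nat_lit 3572) (nat_lit 6) (nat_lit 47) (nat_lit 3) (nat_lit 123) (nat_lit 107) (nat_lit 130))) (PT.nd (nat_lit 78) (PT.lf (nat_lit 3648) (nat_lit 6) (nat_lit 48) (nat_lit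 3) (nat_lit 124) (nat_lit 107) (nat_lit 129)) (PT.nd (nat_lit 78) (PT.lf (nat_lit 3724) (nat_lit 6) (nat_lit 49) (nat_lit 3) (nat_lit 125) (nat_lit 107) (nat_lit 128)) (PT.lf (nat_lit 3800) (nat_lit 6) (nat_lit 50) (nat_lit 3) (nat_lit 126) (nat_lit 107) (nat_lit 127)))))) (PT.nd (nat_lit 37206) (PT.nd (nat_lit 156) (PT.nd (nat_lit 78) (PT.lf (nat_lit 3800) (nat_lit 6) (nat_lit 50) (nat_lit 1) (nat_lit 127) (nat_lit 107) (nat_lit 126)) (PT.lf (nat_lit 3724) (nat_lit 6) (nat_lit 49) (nat_lit 1) (nat_lit 128) (nat_lit 107) (nat_lit 125))) (PT.nd (nat_lit 78) (PT.lf (nat_lit 3648) (nat_lit 6) (nat_lit 48) (nat_lit 1) (nat_lit 129) (nat_lit 107) (nat_lit 124)) (PT.nd (nat_lit 36894) (PT.lf (nat_lit 3572) (nat_lit 6) (nat_lit 47) (nat_lit 1) (nat_lit 130) (nat_lit 107) (nat_lit 123)) (PT.lf (nat_lit 3876) (nat_lit 6) (nat_lit 51) (nat_lit 3) (nat_lit 122) (nat_lit 108) (nat_lit 130)))))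 (PT.nd (nat_lit 156) (PT.nd (nat_lit 78) (PT.lf (nat_lit 3952) (nat_lit 6) (nat_lit 52) (nat_lit 3) (nat_lit 123) (nat_lit 108) (nat_lit 129)) (PT.lf (nat_lit 4028) (nat_lit 6) (nat_lit 53) (nat_lit 3) (nat_lit 124) (nat_lit 108) (nat_lit 128))) (PT.nd (nat_lit 78) (PT.lf (nat_lit 4104) (nat_lit 6) (nat_lit 54) (nat_lit 3) (nat_lit 125) (nat_lit 108) (nat_lit 127)) (PT.nd (nat_lit 78) (PT.lf (nat_lit 4180) (nat_lit 3) (nat_lit 55) (nat_lit 1) (nat_lit 126) (nat_lit 108) (nat_lit 126)) (PT.lf (nat_lit 4104) (nat_lit 6) (nat_lit 54) (nat_lit 1) (nat_lit 127) (nat_lit 108) (nat_lit 125))))))) (PT.nd (nat_lit 37518) (PT.nd (nat_lit 37128) (PT.nd (nat_lit 156) (PT.nd (nat_lit 78) (PT.lf (nat_lit 4028) (nat_lit 6) (nat_lit 53) (nat_lit 1) (nat_lit 128) (nat_lit 108) (nat_lit 124)) (PT.lf (nat_lit 3952) (nat_lit 6) (nat_lit 52) (nat_lit 1) (nat_lit 129) (nat_lit 108) (nat_lit 123))) (PT.nd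 (nat_lit 36894) (PT.lf (nat_lit 3876) (nat_lit 6) (nat_lit 51) (nat_lit 1) (nat_lit 130) (nat_lit 108) (nat_lit 122)) (PT.lf (nat_lit 4256) (nat_lit 6) (nat_lit 56) (nat_lit 3) (nat_lit 122) (nat_lit 109) (nat_lit 129)))) (PT.nd (nat_lit 156) (PT.nd (nat_lit 78) (PT.lf (nat_lit 4332) (nat_lit 6) (nat_lit 57) (nat_lit 3) (nat_lit 123) (nat_lit 109) (nat_lit 128)) (PT.lf (nat_lit 4408) (nat_lit 6) (nat_lit 58) (nat_lit 3) (nat_lit 124) (nat_lit 109) (nat_lit 127))) (PT.nd (nat_lit 78) (PT.lf (nat_lit 4484) (nat_lit 6) (nat_lit 59) (nat_lit 3) (nat_lit 125) (nat_lit 109) (nat_lit 126)) (PT.nd (nat_lit 78) (PT.lf (nat_lit 4484) (nat_lit 6) (nat_lit 59) (nat_lit 1) (nat_lit 126) (nat_lit 109) (nat_lit 125)) (PT.lf (nat_lit 4408) (nat_lit 6) (nat_lit 58) (nat_lit 1) (nat_lit 127) (nat_lit 109) (nat_lit 124)))))) (PT.nd (nat_lit 37206) (PT.nd (nat_lit 36972) (PT.nd (nat_lit 78) (PT.lf (nat_lit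 4332) (nat_lit 6) (nat_lit 57) (nat_lit 1) (nat_lit 128) (nat_lit 109) (nat_lit 123)) (PT.lf (nat_lit 4256) (nat_lit 6) (nat_lit 56) (nat_lit 1) (nat_lit 129) (nat_lit 109) (nat_lit 122))) (PT.nd (nat_lit 78) (PT.lf (nat_lit 4560) (nat_lit 6) (nat_lit 60) (nat_lit 3) (nat_lit 121) (nat_lit 110) (nat_lit 129)) (PT.nd (nat_lit 78) (PT.lf (nat_lit 4636) (nat_lit 6) (nat_lit 61) (nat_lit 3) (nat_lit 122) (nat_lit 110) (nat_lit 128)) (PT.lf (nat_lit 4712) (nat_lit 6) (nat_lit 62) (nat_lit 3) (nat_lit 123) (nat_lit 110) (nat_lit 127))))) (PT.nd (nat_lit 156) (PT.nd (nat_lit 78) (PT.lf (nat_lit 4788) (nat_lit 6) (nat_lit 63) (nat_lit 3) (nat_lit 124) (nat_lit 110) (nat_lit 126)) (PT.lf (nat_lit 4864) (nat_lit 3) (nat_lit 64) (nat_lit 1) (nat_lit 125) (nat_lit 110) (nat_lit 125))) (PT.nd (nat_lit 78) (PT.lf (nat_lit 4788) (nat_lit 6) (nat_lit 63) (nat_lit 1) (nat_lit 126) (nat_lit 110) (nat_lit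 124)) (PT.nd (nat_lit 78) (PT.lf (nat_lit 4712) (nat_lit 6) (nat_lit 62) (nat_lit 1) (nat_lit 127) (nat_lit 110) (nat_lit 123)) (PT.lf (nat_lit 4636) (nat_lit 6) (nat_lit 61) (nat_lit 1) (nat_lit 128) (nat_lit 110) (nat_lit 122))))))))
noncomputable def pc3 : PT := (PT.nd (nat_lit 74880) (PT.nd (nat_lit 37440) (PT.nd (nat_lit 37050) (PT.nd (nat_lit 36894) (PT.nd (nat_lit 36816) (PT.lf (nat_lit 4560) (nat_lit 6) (nat_lit 60) (nat_lit 1) (nat_lit 129) (nat_lit 110) (nat_lit 121)) (PT.lf (nat_lit 5244) (nat_lit 6) (nat_lit 69) (nat_lit 3) (nat_lit 120) (nat_lit 111) (nat_lit 129))) (PT.nd (nat_lit 78) (PT.lf (nat_lit 5320) (nat_lit 6) (nat_lit 70) (nat_lit 3) (nat_lit 121) (nat_lit 111) (nat_lit 128)) (PT.lf (nat_lit 5396) (nat_lit 6) (nat_lit 71) (nat_lit 3) (nat_lit 122) (nat_lit 111) (nat_lit 127)))) (PT.nd (nat_lit 156) (PT.nd (nat_lit 78) (PT.lf (nat_lit 5472) (nat_lit 6) (nat_lit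 72) (nat_lit 3) (nat_lit 123) (nat_lit 111) (nat_lit 126)) (PT.lf (nat_lit 5548) (nat_lit 6) (nat_lit 73) (nat_lit 3) (nat_lit 124) (nat_lit 111) (nat_lit 125))) (PT.nd (nat_lit 78) (PT.lf (nat_lit 5548) (nat_lit 6) (nat_lit 73) (nat_lit 1) (nat_lit 125) (nat_lit 111) (nat_lit 124)) (PT.nd (nat_lit 78) (PT.lf (nat_lit 5472) (nat_lit 6) (nat_lit 72) (nat_lit 1) (nat_lit 126) (nat_lit 111) (nat_lit 123)) (PT.lf (nat_lit 5396) (nat_lit 6) (nat_lit 71) (nat_lit 1) (nat_lit 127) (nat_lit 111) (nat_lit 122)))))) (PT.nd (nat_lit 37050) (PT.nd (nat_lit 36816) (PT.nd (nat_lit 78) (PT.lf (nat_lit 5320) (nat_lit 6) (nat_lit 70) (nat_lit 1) (nat_lit 128) (nat_lit 111) (nat_lit 121)) (PT.lf (nat_lit 5244) (nat_lit 6) (nat_lit 69) (nat_lit 1) (nat_lit 129) (nat_lit 111) (nat_lit 120))) (PT.nd (nat_lit 78) (PT.lf (nat_lit 5168) (nat_lit 6) (nat_lit 68) (nat_lit 3) (nat_lit 119) (nat_lit 112) (nat_lit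 129)) (PT.nd (nat_lit 78) (PT.lf (nat_lit 5928) (nat_lit 6) (nat_lit 78) (nat_lit 3) (nat_lit 120) (nat_lit 112) (nat_lit 128)) (PT.lf (nat_lit 6004) (nat_lit 6) (nat_lit 79) (nat_lit 3) (nat_lit 121) (nat_lit 112) (nat_lit 127))))) (PT.nd (nat_lit 156) (PT.nd (nat_lit 78) (PT.lf (nat_lit 6080) (nat_lit 6) (nat_lit 80) (nat_lit 3) (nat_lit 122) (nat_lit 112) (nat_lit 126)) (PT.lf (nat_lit 6156) (nat_lit 6) (nat_lit 81) (nat_lit 3) (nat_lit 123) (nat_lit 112) (nat_lit 125))) (PT.nd (nat_lit 78) (PT.lf (nat_lit 6232) (nat_lit 3) (nat_lit 82) (nat_lit 1) (nat_lit 124) (nat_lit 112) (nat_lit 124)) (PT.nd (nat_lit 78) (PT.lf (nat_lit 6156) (nat_lit 6) (nat_lit 81) (nat_lit 1) (nat_lit 125) (nat_lit 112) (nat_lit 123)) (PT.lf (nat_lit 6080) (nat_lit 6) (nat_lit 80) (nat_lit 1) (nat_lit 126) (nat_lit 112) (nat_lit 122))))))) (PT.nd (nat_lit 37362) (PT.nd (nat_lit 36972) (PT.nd (nat_lit 156)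 (PT.nd (nat_lit 78) (PT.lf (nat_lit 6004) (nat_lit 6) (nat_lit 79) (nat_lit 1) (nat_lit 127) (nat_lit 112) (nat_lit 121)) (PT.lf (nat_lit 5928) (nat_lit 6) (nat_lit 78) (nat_lit 1) (nat_lit 128) (nat_lit 112) (nat_lit 120))) (PT.nd (nat_lit 36660) (PT.lf (nat_lit 5168) (nat_lit 6) (nat_lit 68) (nat_lit 1) (nat_lit 129) (nat_lit 112) (nat_lit 119)) (PT.nd (nat_lit 78) (PT.lf (nat_lit 5092) (nat_lit 6) (nat_lit 67) (nat_lit 3) (nat_lit 118) (nat_lit 113) (nat_lit 129)) (PT.lf (nat_lit 5852) (nat_lit 6) (nat_lit 77) (nat_lit 3) (nat_lit 119) (nat_lit 113) (nat_lit 128))))) (PT.nd (nat_lit 156) (PT.nd (nat_lit 78) (PT.lf (nat_lit 6536) (nat_lit 6) (nat_lit 86) (nat_lit 3) (nat_lit 120) (nat_lit 113) (nat_lit 127)) (PT.lf (nat_lit 6612) (nat_lit 6) (nat_lit 87) (nat_lit 3) (nat_lit 121) (nat_lit 113) (nat_lit 126))) (PT.nd (nat_lit 78) (PT.lf (nat_lit 6688) (nat_lit 6) (nat_lit 88) (nat_lit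 3) (nat_lit 122) (nat_lit 113) (nat_lit 125)) (PT.nd (nat_lit 78) (PT.lf (nat_lit 6764) (nat_lit 6) (nat_lit 89) (nat_lit 3) (nat_lit 123) (nat_lit 113) (nat_lit 124)) (PT.lf (nat_lit 6764) (nat_lit 6) (nat_lit 89) (nat_lit 1) (nat_lit 124) (nat_lit 113) (nat_lit 123)))))) (PT.nd (nat_lit 36894) (PT.nd (nat_lit 156) (PT.nd (nat_lit 78) (PT.lf (nat_lit 6688) (nat_lit 6) (nat_lit 88) (nat_lit 1) (nat_lit 125) (nat_lit 113) (nat_lit 122)) (PT.lf (nat_lit 6612) (nat_lit 6) (nat_lit 87) (nat_lit 1) (nat_lit 126) (nat_lit 113) (nat_lit 121))) (PT.nd (nat_lit 78) (PT.lf (nat_lit 6536) (nat_lit 6) (nat_lit 86) (nat_lit 1) (nat_lit 127) (nat_lit 113) (nat_lit 120)) (PT.nd (nat_lit 78) (PT.lf (nat_lit 5852) (nat_lit 6) (nat_lit 77) (nat_lit 1) (nat_lit 128) (nat_lit 113) (nat_lit 119)) (PT.lf (nat_lit 5092) (nat_lit 6) (nat_lit 67) (nat_lit 1) (nat_lit 129) (nat_lit 113) (nat_lit 118))))) (PT.nd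 (nat_lit 156) (PT.nd (nat_lit 78) (PT.lf (nat_lit 5016) (nat_lit 6) (nat_lit 66) (nat_lit 3) (nat_lit 117) (nat_lit 114) (nat_lit 129)) (PT.lf (nat_lit 5776) (nat_lit 6) (nat_lit 76) (nat_lit 3) (nat_lit 118) (nat_lit 114) (nat_lit 128))) (PT.nd (nat_lit 78) (PT.lf (nat_lit 6460) (nat_lit 6) (nat_lit 85) (nat_lit 3) (nat_lit 119) (nat_lit 114) (nat_lit 127)) (PT.nd (nat_lit 78) (PT.lf (nat_lit 7068) (nat_lit 6) (nat_lit 93) (nat_lit 3) (nat_lit 120) (nat_lit 114) (nat_lit 126)) (PT.lf (nat_lit 7144) (nat_lit 6) (nat_lit 94) (nat_lit 3) (nat_lit 121) (nat_lit 114) (nat_lit 125))))))))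
noncomputable def pc4 : PT := (PT.nd (nat_lit 37908) (PT.nd (nat_lit 37128) (PT.nd (nat_lit 312) (PT.nd (nat_lit 156) (PT.nd (nat_lit 78) (PT.lf (nat_lit 7220) (nat_lit 6) (nat_lit 95) (nat_lit 3) (nat_lit 122) (nat_lit 114) (nat_lit 124)) (PT.lf (nat_lit 7296) (nat_lit 3) (nat_lit 96) (nat_lit 1) (nat_lit 123) (nat_lit 114) (nat_lit 123))) (PT.nd (nat_lit 78) (PT.lf (nat_lit 7220) (nat_lit 6) (nat_lit 95) (nat_lit 1) (nat_lit 124) (nat_lit 114) (nat_lit 122)) (PT.lf (nat_lit 7144) (nat_lit 6) (nat_lit 94) (nat_lit 1) (nat_lit 125) (nat_lit 114) (nat_lit 121)))) (PT.nd (nat_lit 156) (PT.nd (nat_lit 78) (PT.lf (nat_lit 7068) (nat_lit 6) (nat_lit 93) (nat_lit 1) (nat_lit 126) (nat_lit 114) (nat_lit 120)) (PT.lf (nat_lit 6460) (nat_lit 6) (nat_lit 85) (nat_lit 1) (nat_lit 127) (nat_lit 114) (nat_lit 119))) (PT.nd (nat_lit 78) (PT.lf (nat_lit 5776) (nat_lit 6) (nat_lit 76) (nat_lit 1) (nat_lit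 128) (nat_lit 114) (nat_lit 118)) (PT.nd (nat_lit 36504) (PT.lf (nat_lit 5016) (nat_lit 6) (nat_lit 66) (nat_lit 1) (nat_lit 129) (nat_lit 114) (nat_lit 117)) (PT.lf (nat_lit 4940) (nat_lit 6) (nat_lit 65) (nat_lit 3) (nat_lit 116) (nat_lit 115) (nat_lit 129)))))) (PT.nd (nat_lit 390) (PT.nd (nat_lit 156) (PT.nd (nat_lit 78) (PT.lf (nat_lit 5700) (nat_lit 6) (nat_lit 75) (nat_lit 3) (nat_lit 117) (nat_lit 115) (nat_lit 128)) (PT.lf (nat_lit 6384) (nat_lit 6) (nat_lit 84) (nat_lit 3) (nat_lit 118) (nat_lit 115) (nat_lit 127))) (PT.nd (nat_lit 78) (PT.lf (nat_lit 6992) (nat_lit 6) (nat_lit 92) (nat_lit 3) (nat_lit 119) (nat_lit 115) (nat_lit 126)) (PT.nd (nat_lit 78) (PT.lf (nat_lit 7524) (nat_lit 6) (nat_lit 99) (nat_lit 3) (nat_lit 120) (nat_lit 115) (nat_lit 125)) (PT.lf (nat_lit 7600) (nat_lit 6) (nat_lit 100) (nat_lit 3) (nat_lit 121) (nat_lit 115) (nat_lit 124))))) (PT.nd (nat_lit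 156) (PT.nd (nat_lit 78) (PT.lf (nat_lit 7676) (nat_lit 6) (nat_lit 101) (nat_lit 3) (nat_lit 122) (nat_lit 115) (nat_lit 123)) (PT.lf (nat_lit 7676) (nat_lit 6) (nat_lit 101) (nat_lit 1) (nat_lit 123) (nat_lit 115) (nat_lit 122))) (PT.nd (nat_lit 78) (PT.lf (nat_lit 7600) (nat_lit 6) (nat_lit 100) (nat_lit 1) (nat_lit 124) (nat_lit 115) (nat_lit 121)) (PT.nd (nat_lit 78) (PT.lf (nat_lit 7524) (nat_lit 6) (nat_lit 99) (nat_lit 1) (nat_lit 125) (nat_lit 115) (nat_lit 120)) (PT.lf (nat_lit 6992) (nat_lit 6) (nat_lit 92) (nat_lit 1) (nat_lit 126) (nat_lit 115) (nat_lit 119))))))) (PT.nd (nat_lit 37050) (PT.nd (nat_lit 36660) (PT.nd (nat_lit 156) (PT.nd (nat_lit 78) (PT.lf (nat_lit 6384) (nat_lit 6) (nat_lit 84) (nat_lit 1) (nat_lit 127) (nat_lit 115) (nat_lit 118)) (PT.lf (nat_lit 5700) (nat_lit 6) (nat_lit 75) (nat_lit 1) (nat_lit 128) (nat_lit 115) (nat_lit 117))) (PT.nd (nat_lit 36426)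 (PT.lf (nat_lit 4940) (nat_lit 6) (nat_lit 65) (nat_lit 1) (nat_lit 129) (nat_lit 115) (nat_lit 116)) (PT.lf (nat_lit 4940) (nat_lit 6) (nat_lit 65) (nat_lit 5) (nat_lit 115) (nat_lit 116) (nat_lit 129)))) (PT.nd (nat_lit 156) (PT.nd (nat_lit 78) (PT.lf (nat_lit 5624) (nat_lit 3) (nat_lit 74) (nat_lit 3) (nat_lit 116) (nat_lit 116) (nat_lit 128)) (PT.lf (nat_lit 6308) (nat_lit 6) (nat_lit 83) (nat_lit 3) (nat_lit 117) (nat_lit 116) (nat_lit 127))) (PT.nd (nat_lit 78) (PT.lf (nat_lit 6916) (nat_lit 6) (nat_lit 91) (nat_lit 3) (nat_lit 118) (nat_lit 116) (nat_lit 126)) (PT.nd (nat_lit 78) (PT.lf (nat_lit 7448) (nat_lit 6) (nat_lit 98) (nat_lit 3) (nat_lit 119) (nat_lit 116) (nat_lit 125)) (PT.lf (nat_lit 7904) (nat_lit 6) (nat_lit 104) (nat_lit 3) (nat_lit 120) (nat_lit 116) (nat_lit 124)))))) (PT.nd (nat_lit 390) (PT.nd (nat_lit 156) (PT.nd (nat_lit 78) (PT.lf (nat_lit 7980) (nat_lit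 6) (nat_lit 105) (nat_lit 3) (nat_lit 121) (nat_lit 116) (nat_lit 123)) (PT.lf (nat_lit 8056) (nat_lit 3) (nat_lit 106) (nat_lit 1) (nat_lit 122) (nat_lit 116) (nat_lit 122))) (PT.nd (nat_lit 78) (PT.lf (nat_lit 7980) (nat_lit 6) (nat_lit 105) (nat_lit 1) (nat_lit 123) (nat_lit 116) (nat_lit 121)) (PT.nd (nat_lit 78) (PT.lf (nat_lit 7904) (nat_lit 6) (nat_lit 104) (nat_lit 1) (nat_lit 124) (nat_lit 116) (nat_lit 120)) (PT.lf (nat_lit 7448) (nat_lit 6) (nat_lit 98) (nat_lit 1) (nat_lit 125) (nat_lit 116) (nat_lit 119))))) (PT.nd (nat_lit 156) (PT.nd (nat_lit 78) (PT.lf (nat_lit 6916) (nat_lit 6) (nat_lit 91) (nat_lit 1) (nat_lit 126) (nat_lit 116) (nat_lit 118)) (PT.lf (nat_lit 6308) (nat_lit 6) (nat_lit 83) (nat_lit 1) (nat_lit 127) (nat_lit 116) (nat_lit 117))) (PT.nd (nat_lit 78) (PT.lf (nat_lit 5624) (nat_lit 3) (nat_lit 74) (nat_lit 0) (nat_lit 128) (nat_lit 116) (nat_lit 116))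 (PT.nd (nat_lit 36348) (PT.lf (nat_lit 4940) (nat_lit 6) (nat_lit 65) (nat_lit 0) (nat_lit 129) (nat_lit 116) (nat_lit 115)) (PT.lf (nat_lit 5016) (nat_lit 6) (nat_lit 66) (nat_lit 5) (nat_lit 114) (nat_lit 117) (nat_lit 129))))))))
noncomputable def pc5 : PT := (PT.nd (nat_lit 37674) (PT.nd (nat_lit 702) (PT.nd (nat_lit 312) (PT.nd (nat_lit 156) (PT.nd (nat_lit 78) (PT.lf (nat_lit 5700) (nat_lit 6) (nat_lit 75) (nat_lit 5) (nat_lit 115) (nat_lit 117) (nat_lit 128)) (PT.lf (nat_lit 6308) (nat_lit 6) (nat_lit 83) (nat_lit 5) (nat_lit 116) (nat_lit 117) (nat_lit 127))) (PT.nd (nat_lit 78) (PT.lf (nat_lit 6840) (nat_lit 3) (nat_lit 90) (nat_lit 3) (nat_lit 117) (nat_lit 117) (nat_lit 126)) (PT.lf (nat_lit 7372) (nat_lit 6) (nat_lit 97) (nat_lit 3) (nat_lit 118) (nat_lit 117) (nat_lit 125)))) (PT.nd (nat_lit 156) (PT.nd (nat_lit 78) (PT.lf (nat_lit 7828) (nat_lit 6) (nat_lit 103) (nat_lit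 3) (nat_lit 119) (nat_lit 117) (nat_lit 124)) (PT.lf (nat_lit 8208) (nat_lit 6) (nat_lit 108) (nat_lit 3) (nat_lit 120) (nat_lit 117) (nat_lit 123))) (PT.nd (nat_lit 78) (PT.lf (nat_lit 8284) (nat_lit 6) (nat_lit 109) (nat_lit 3) (nat_lit 121) (nat_lit 117) (nat_lit 122)) (PT.nd (nat_lit 78) (PT.lf (nat_lit 8284) (nat_lit 6) (nat_lit 109) (nat_lit 1) (nat_lit 122) (nat_lit 117) (nat_lit 121)) (PT.lf (nat_lit 8208) (nat_lit 6) (nat_lit 108) (nat_lit 1) (nat_lit 123) (nat_lit 117) (nat_lit 120)))))) (PT.nd (nat_lit 390) (PT.nd (nat_lit 156) (PT.nd (nat_lit 78) (PT.lf (nat_lit 7828) (nat_lit 6) (nat_lit 103) (nat_lit 1) (nat_lit 124) (nat_lit 117) (nat_lit 119)) (PT.lf (nat_lit 7372) (nat_lit 6) (nat_lit 97) (nat_lit 1) (nat_lit 125) (nat_lit 117) (nat_lit 118))) (PT.nd (nat_lit 78) (PT.lf (nat_lit 6840) (nat_lit 3) (nat_lit 90) (nat_lit 0) (nat_lit 126) (nat_lit 117) (nat_lit 117)) (PT.nd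 (nat_lit 78) (PT.lf (nat_lit 6308) (nat_lit 6) (nat_lit 83) (nat_lit 0) (nat_lit 127) (nat_lit 117) (nat_lit 116)) (PT.lf (nat_lit 5700) (nat_lit 6) (nat_lit 75) (nat_lit 0) (nat_lit 128) (nat_lit 117) (nat_lit 115))))) (PT.nd (nat_lit 36348) (PT.nd (nat_lit 36270) (PT.lf (nat_lit 5016) (nat_lit 6) (nat_lit 66) (nat_lit 0) (nat_lit 129) (nat_lit 117) (nat_lit 114)) (PT.lf (nat_lit 5092) (nat_lit 6) (nat_lit 67) (nat_lit 5) (nat_lit 113) (nat_lit 118) (nat_lit 129))) (PT.nd (nat_lit 78) (PT.lf (nat_lit 5776) (nat_lit 6) (nat_lit 76) (nat_lit 5) (nat_lit 114) (nat_lit 118) (nat_lit 128)) (PT.nd (nat_lit 78) (PT.lf (nat_lit 6384) (nat_lit 6) (nat_lit 84) (nat_lit 5) (nat_lit 115) (nat_lit 118) (nat_lit 127)) (PT.lf (nat_lit 6916) (nat_lit 6) (nat_lit 91) (nat_lit 5) (nat_lit 116) (nat_lit 118) (nat_lit 126))))))) (PT.nd (nat_lit 780) (PT.nd (nat_lit 390) (PT.nd (nat_lit 156) (PT.nd (nat_lit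 78) (PT.lf (nat_lit 7372) (nat_lit 6) (nat_lit 97) (nat_lit 5) (nat_lit 117) (nat_lit 118) (nat_lit 125)) (PT.lf (nat_lit 7752) (nat_lit 3) (nat_lit 102) (nat_lit 3) (nat_lit 118) (nat_lit 118) (nat_lit 124))) (PT.nd (nat_lit 78) (PT.lf (nat_lit 8132) (nat_lit 6) (nat_lit 107) (nat_lit 3) (nat_lit 119) (nat_lit 118) (nat_lit 123)) (PT.nd (nat_lit 78) (PT.lf (nat_lit 8436) (nat_lit 6) (nat_lit 111) (nat_lit 3) (nat_lit 120) (nat_lit 118) (nat_lit 122)) (PT.lf (nat_lit 8512) (nat_lit 3) (nat_lit 112) (nat_lit 1) (nat_lit 121) (nat_lit 118) (nat_lit 121))))) (PT.nd (nat_lit 156) (PT.nd (nat_lit 78) (PT.lf (nat_lit 8436) (nat_lit 6) (nat_lit 111) (nat_lit 1) (nat_lit 122) (nat_lit 118) (nat_lit 120)) (PT.lf (nat_lit 8132) (nat_lit 6) (nat_lit 107) (nat_lit 1) (nat_lit 123) (nat_lit 118) (nat_lit 119))) (PT.nd (nat_lit 78) (PT.lf (nat_lit 7752) (nat_lit 3) (nat_lit 102) (nat_lit 0) (nat_lit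 124) (nat_lit 118) (nat_lit 118)) (PT.nd (nat_lit 78) (PT.lf (nat_lit 7372) (nat_lit 6) (nat_lit 97) (nat_lit 0) (nat_lit 125) (nat_lit 118) (nat_lit 117)) (PT.lf (nat_lit 6916) (nat_lit 6) (nat_lit 91) (nat_lit 0) (nat_lit 126) (nat_lit 118) (nat_lit 116)))))) (PT.nd (nat_lit 36504) (PT.nd (nat_lit 156) (PT.nd (nat_lit 78) (PT.lf (nat_lit 6384) (nat_lit 6) (nat_lit 84) (nat_lit 0) (nat_lit 127) (nat_lit 118) (nat_lit 115)) (PT.lf (nat_lit 5776) (nat_lit 6) (nat_lit 76) (nat_lit 0) (nat_lit 128) (nat_lit 118) (nat_lit 114))) (PT.nd (nat_lit 36192) (PT.lf (nat_lit 5092) (nat_lit 6) (nat_lit 67) (nat_lit 0) (nat_lit 129) (nat_lit 118) (nat_lit 113)) (PT.nd (nat_lit 78) (PT.lf (nat_lit 5168) (nat_lit 6) (nat_lit 68) (nat_lit 5) (nat_lit 112) (nat_lit 119) (nat_lit 129)) (PT.lf (nat_lit 5852) (nat_lit 6) (nat_lit 77) (nat_lit 5) (nat_lit 113) (nat_lit 119) (nat_lit 128))))) (PT.nd (nat_lit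 156) (PT.nd (nat_lit 78) (PT.lf (nat_lit 6460) (nat_lit 6) (nat_lit 85) (nat_lit 5) (nat_lit 114) (nat_lit 119) (nat_lit 127)) (PT.lf (nat_lit 6992) (nat_lit 6) (nat_lit 92) (nat_lit 5) (nat_lit 115) (nat_lit 119) (nat_lit 126))) (PT.nd (nat_lit 78) (PT.lf (nat_lit 7448) (nat_lit 6) (nat_lit 98) (nat_lit 5) (nat_lit 116) (nat_lit 119) (nat_lit 125)) (PT.nd (nat_lit 78) (PT.lf (nat_lit 7828) (nat_lit 6) (nat_lit 103) (nat_lit 5) (nat_lit 117) (nat_lit 119) (nat_lit 124)) (PT.lf (nat_lit 8132) (nat_lit 6) (nat_lit 107) (nat_lit 5) (nat_lit 118) (nat_lit 119) (nat_lit 123))))))))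
noncomputable def pc6 : PT := (PT.nd (nat_lit 37518) (PT.nd (nat_lit 702) (PT.nd (nat_lit 312) (PT.nd (nat_lit 156) (PT.nd (nat_lit 78) (PT.lf (nat_lit 8360) (nat_lit 3) (nat_lit 110) (nat_lit 3) (nat_lit 119) (nat_lit 119) (nat_lit 122)) (PT.lf (nat_lit 8588) (nat_lit 6) (nat_lit 113) (nat_lit 3) (nat_lit 120) (nat_lit 119) (nat_lit 121))) (PT.nd (nat_lit 78) (PT.lf (nat_lit 8588) (nat_lit 6) (nat_lit 113) (nat_lit 1) (nat_lit 121) (nat_lit 119) (nat_lit 120)) (PT.lf (nat_lit 8360) (nat_lit 3) (nat_lit 110) (nat_lit 0) (nat_lit 122) (nat_lit 119) (nat_lit 119)))) (PT.nd (nat_lit 156) (PT.nd (nat_lit 78) (PT.lf (nat_lit 8132) (nat_lit 6) (nat_lit 107) (nat_lit 0) (nat_lit 123) (nat_lit 119) (nat_lit 118)) (PT.lf (nat_lit 7828) (nat_lit 6) (nat_lit 103) (nat_lit 0) (nat_lit 124) (nat_lit 119) (nat_lit 117))) (PT.nd (nat_lit 78) (PT.lf (nat_lit 7448) (nat_lit 6) (nat_lit 98) (nat_lit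 0) (nat_lit 125) (nat_lit 119) (nat_lit 116)) (PT.nd (nat_lit 78) (PT.lf (nat_lit 6992) (nat_lit 6) (nat_lit 92) (nat_lit 0) (nat_lit 126) (nat_lit 119) (nat_lit 115)) (PT.lf (nat_lit 6460) (nat_lit 6) (nat_lit 85) (nat_lit 0) (nat_lit 127) (nat_lit 119) (nat_lit 114)))))) (PT.nd (nat_lit 36426) (PT.nd (nat_lit 36192) (PT.nd (nat_lit 78) (PT.lf (nat_lit 5852) (nat_lit 6) (nat_lit 77) (nat_lit 0) (nat_lit 128) (nat_lit 119) (nat_lit 113)) (PT.lf (nat_lit 5168) (nat_lit 6) (nat_lit 68) (nat_lit 0) (nat_lit 129) (nat_lit 119) (nat_lit 112))) (PT.nd (nat_lit 78) (PT.lf (nat_lit 5244) (nat_lit 6) (nat_lit 69) (nat_lit 5) (nat_lit 111) (nat_lit 120) (nat_lit 129)) (PT.nd (nat_lit 78) (PT.lf (nat_lit 5928) (nat_lit 6) (nat_lit 78) (nat_lit 5) (nat_lit 112) (nat_lit 120) (nat_lit 128)) (PT.lf (nat_lit 6536) (nat_lit 6) (nat_lit 86) (nat_lit 5) (nat_lit 113) (nat_lit 120) (nat_lit 127))))) (PT.nd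 (nat_lit 156) (PT.nd (nat_lit 78) (PT.lf (nat_lit 7068) (nat_lit 6) (nat_lit 93) (nat_lit 5) (nat_lit 114) (nat_lit 120) (nat_lit 126)) (PT.lf (nat_lit 7524) (nat_lit 6) (nat_lit 99) (nat_lit 5) (nat_lit 115) (nat_lit 120) (nat_lit 125))) (PT.nd (nat_lit 78) (PT.lf (nat_lit 7904) (nat_lit 6) (nat_lit 104) (nat_lit 5) (nat_lit 116) (nat_lit 120) (nat_lit 124)) (PT.nd (nat_lit 78) (PT.lf (nat_lit 8208) (nat_lit 6) (nat_lit 108) (nat_lit 5) (nat_lit 117) (nat_lit 120) (nat_lit 123)) (PT.lf (nat_lit 8436) (nat_lit 6) (nat_lit 111) (nat_lit 5) (nat_lit 118) (nat_lit 120) (nat_lit 122))))))) (PT.nd (nat_lit 780) (PT.nd (nat_lit 390) (PT.nd (nat_lit 156) (PT.nd (nat_lit 78) (PT.lf (nat_lit 8588) (nat_lit 6) (nat_lit 113) (nat_lit 5) (nat_lit 119) (nat_lit 120) (nat_lit 121)) (PT.lf (nat_lit 8664) (nat_lit 1) (nat_lit 114) (nat_lit 0) (nat_lit 120) (nat_lit 120) (nat_lit 120))) (PT.nd (nat_lit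 78) (PT.lf (nat_lit 8588) (nat_lit 6) (nat_lit 113) (nat_lit 0) (nat_lit 121) (nat_lit 120) (nat_lit 119)) (PT.nd (nat_lit 78) (PT.lf (nat_lit 8436) (nat_lit 6) (nat_lit 111) (nat_lit 0) (nat_lit 122) (nat_lit 120) (nat_lit 118)) (PT.lf (nat_lit 8208) (nat_lit 6) (nat_lit 108) (nat_lit 0) (nat_lit 123) (nat_lit 120) (nat_lit 117))))) (PT.nd (nat_lit 156) (PT.nd (nat_lit 78) (PT.lf (nat_lit 7904) (nat_lit 6) (nat_lit 104) (nat_lit 0) (nat_lit 124) (nat_lit 120) (nat_lit 116)) (PT.lf (nat_lit 7524) (nat_lit 6) (nat_lit 99) (nat_lit 0) (nat_lit 125) (nat_lit 120) (nat_lit 115))) (PT.nd (nat_lit 78) (PT.lf (nat_lit 7068) (nat_lit 6) (nat_lit 93) (nat_lit 0) (nat_lit 126) (nat_lit 120) (nat_lit 114)) (PT.nd (nat_lit 78) (PT.lf (nat_lit 6536) (nat_lit 6) (nat_lit 86) (nat_lit 0) (nat_lit 127) (nat_lit 120) (nat_lit 113)) (PT.lf (nat_lit 5928) (nat_lit 6) (nat_lit 78) (nat_lit 0) (nat_lit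 128) (nat_lit 120) (nat_lit 112)))))) (PT.nd (nat_lit 36348) (PT.nd (nat_lit 36114) (PT.nd (nat_lit 36036) (PT.lf (nat_lit 5244) (nat_lit 6) (nat_lit 69) (nat_lit 0) (nat_lit 129) (nat_lit 120) (nat_lit 111)) (PT.lf (nat_lit 4560) (nat_lit 6) (nat_lit 60) (nat_lit 5) (nat_lit 110) (nat_lit 121) (nat_lit 129))) (PT.nd (nat_lit 78) (PT.lf (nat_lit 5320) (nat_lit 6) (nat_lit 70) (nat_lit 5) (nat_lit 111) (nat_lit 121) (nat_lit 128)) (PT.nd (nat_lit 78) (PT.lf (nat_lit 6004) (nat_lit 6) (nat_lit 79) (nat_lit 5) (nat_lit 112) (nat_lit 121) (nat_lit 127)) (PT.lf (nat_lit 6612) (nat_lit 6) (nat_lit 87) (nat_lit 5) (nat_lit 113) (nat_lit 121) (nat_lit 126))))) (PT.nd (nat_lit 156) (PT.nd (nat_lit 78) (PT.lf (nat_lit 7144) (nat_lit 6) (nat_lit 94) (nat_lit 5) (nat_lit 114) (nat_lit 121) (nat_lit 125)) (PT.lf (nat_lit 7600) (nat_lit 6) (nat_lit 100) (nat_lit 5) (nat_lit 115) (nat_lit 121) (nat_lit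 124))) (PT.nd (nat_lit 78) (PT.lf (nat_lit 7980) (nat_lit 6) (nat_lit 105) (nat_lit 5) (nat_lit 116) (nat_lit 121) (nat_lit 123)) (PT.nd (nat_lit 78) (PT.lf (nat_lit 8284) (nat_lit 6) (nat_lit 109) (nat_lit 5) (nat_lit 117) (nat_lit 121) (nat_lit 122)) (PT.lf (nat_lit 8512) (nat_lit 3) (nat_lit 112) (nat_lit 4) (nat_lit 118) (nat_lit 121) (nat_lit 121))))))))
noncomputable def pc7 : PT := (PT.nd (nat_lit 37284) (PT.nd (nat_lit 702) (PT.nd (nat_lit 312) (PT.nd (nat_lit 156) (PT.nd (nat_lit 78) (PT.lf (nat_lit 8588) (nat_lit 6) (nat_lit 113) (nat_lit 4) (nat_lit 119) (nat_lit 121) (nat_lit 120)) (PT.lf (nat_lit 8588) (nat_lit 6) (nat_lit 113) (nat_lit 2) (nat_lit 120) (nat_lit 121) (nat_lit 119))) (PT.nd (nat_lit 78) (PT.lf (nat_lit 8512) (nat_lit 3) (nat_lit 112) (nat_lit 0) (nat_lit 121) (nat_lit 121) (nat_lit 118)) (PT.lf (nat_lit 8284) (nat_lit 6) (nat_lit 109) (nat_lit 0) (nat_lit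 122) (nat_lit 121) (nat_lit 117)))) (PT.nd (nat_lit 156) (PT.nd (nat_lit 78) (PT.lf (nat_lit 7980) (nat_lit 6) (nat_lit 105) (nat_lit 0) (nat_lit 123) (nat_lit 121) (nat_lit 116)) (PT.lf (nat_lit 7600) (nat_lit 6) (nat_lit 100) (nat_lit 0) (nat_lit 124) (nat_lit 121) (nat_lit 115))) (PT.nd (nat_lit 78) (PT.lf (nat_lit 7144) (nat_lit 6) (nat_lit 94) (nat_lit 0) (nat_lit 125) (nat_lit 121) (nat_lit 114)) (PT.nd (nat_lit 78) (PT.lf (nat_lit 6612) (nat_lit 6) (nat_lit 87) (nat_lit 0) (nat_lit 126) (nat_lit 121) (nat_lit 113)) (PT.lf (nat_lit 6004) (nat_lit 6) (nat_lit 79) (nat_lit 0) (nat_lit 127) (nat_lit 121) (nat_lit 112)))))) (PT.nd (nat_lit 36192) (PT.nd (nat_lit 35958) (PT.nd (nat_lit 78) (PT.lf (nat_lit 5320) (nat_lit 6) (nat_lit 70) (nat_lit 0) (nat_lit 128) (nat_lit 121) (nat_lit 111)) (PT.lf (nat_lit 4560) (nat_lit 6) (nat_lit 60) (nat_lit 0) (nat_lit 129) (nat_lit 121) (nat_lit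 110))) (PT.nd (nat_lit 78) (PT.lf (nat_lit 3876) (nat_lit 6) (nat_lit 51) (nat_lit 5) (nat_lit 108) (nat_lit 122) (nat_lit 130)) (PT.nd (nat_lit 78) (PT.lf (nat_lit 4256) (nat_lit 6) (nat_lit 56) (nat_lit 5) (nat_lit 109) (nat_lit 122) (nat_lit 129)) (PT.lf (nat_lit 4636) (nat_lit 6) (nat_lit 61) (nat_lit 5) (nat_lit 110) (nat_lit 122) (nat_lit 128))))) (PT.nd (nat_lit 156) (PT.nd (nat_lit 78) (PT.lf (nat_lit 5396) (nat_lit 6) (nat_lit 71) (nat_lit 5) (nat_lit 111) (nat_lit 122) (nat_lit 127)) (PT.lf (nat_lit 6080) (nat_lit 6) (nat_lit 80) (nat_lit 5) (nat_lit 112) (nat_lit 122) (nat_lit 126))) (PT.nd (nat_lit 78) (PT.lf (nat_lit 6688) (nat_lit 6) (nat_lit 88) (nat_lit 5) (nat_lit 113) (nat_lit 122) (nat_lit 125)) (PT.nd (nat_lit 78) (PT.lf (nat_lit 7220) (nat_lit 6) (nat_lit 95) (nat_lit 5) (nat_lit 114) (nat_lit 122) (nat_lit 124)) (PT.lf (nat_lit 7676) (nat_lit 6) (nat_lit 101) (nat_lit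 5) (nat_lit 115) (nat_lit 122) (nat_lit 123))))))) (PT.nd (nat_lit 780) (PT.nd (nat_lit 390) (PT.nd (nat_lit 156) (PT.nd (nat_lit 78) (PT.lf (nat_lit 8056) (nat_lit 3) (nat_lit 106) (nat_lit 4) (nat_lit 116) (nat_lit 122) (nat_lit 122)) (PT.lf (nat_lit 8284) (nat_lit 6) (nat_lit 109) (nat_lit 4) (nat_lit 117) (nat_lit 122) (nat_lit 121))) (PT.nd (nat_lit 78) (PT.lf (nat_lit 8436) (nat_lit 6) (nat_lit 111) (nat_lit 4) (nat_lit 118) (nat_lit 122) (nat_lit 120)) (PT.nd (nat_lit 78) (PT.lf (nat_lit 8360) (nat_lit 3) (nat_lit 110) (nat_lit 2) (nat_lit 119) (nat_lit 122) (nat_lit 119)) (PT.lf (nat_lit 8436) (nat_lit 6) (nat_lit 111) (nat_lit 2) (nat_lit 120) (nat_lit 122) (nat_lit 118))))) (PT.nd (nat_lit 156) (PT.nd (nat_lit 78) (PT.lf (nat_lit 8284) (nat_lit 6) (nat_lit 109) (nat_lit 2) (nat_lit 121) (nat_lit 122) (nat_lit 117)) (PT.lf (nat_lit 8056) (nat_lit 3) (nat_lit 106) (nat_lit 0)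 (nat_lit 122) (nat_lit 122) (nat_lit 116))) (PT.nd (nat_lit 78) (PT.lf (nat_lit 7676) (nat_lit 6) (nat_lit 101) (nat_lit 0) (nat_lit 123) (nat_lit 122) (nat_lit 115)) (PT.nd (nat_lit 78) (PT.lf (nat_lit 7220) (nat_lit 6) (nat_lit 95) (nat_lit 0) (nat_lit 124) (nat_lit 122) (nat_lit 114)) (PT.lf (nat_lit 6688) (nat_lit 6) (nat_lit 88) (nat_lit 0) (nat_lit 125) (nat_lit 122) (nat_lit 113)))))) (PT.nd (nat_lit 36036) (PT.nd (nat_lit 156) (PT.nd (nat_lit 78) (PT.lf (nat_lit 6080) (nat_lit 6) (nat_lit 80) (nat_lit 0) (nat_lit 126) (nat_lit 122) (nat_lit 112)) (PT.lf (nat_lit 5396) (nat_lit 6) (nat_lit 71) (nat_lit 0) (nat_lit 127) (nat_lit 122) (nat_lit 111))) (PT.nd (nat_lit 78) (PT.lf (nat_lit 4636) (nat_lit 6) (nat_lit 61) (nat_lit 0) (nat_lit 128) (nat_lit 122) (nat_lit 110)) (PT.nd (nat_lit 78) (PT.lf (nat_lit 4256) (nat_lit 6) (nat_lit 56) (nat_lit 0) (nat_lit 129) (nat_lit 122) (nat_lit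 109)) (PT.lf (nat_lit 3876) (nat_lit 6) (nat_lit 51) (nat_lit 0) (nat_lit 130) (nat_lit 122) (nat_lit 108))))) (PT.nd (nat_lit 156) (PT.nd (nat_lit 78) (PT.lf (nat_lit 3572) (nat_lit 6) (nat_lit 47) (nat_lit 5) (nat_lit 107) (nat_lit 123) (nat_lit 130)) (PT.lf (nat_lit 3952) (nat_lit 6) (nat_lit 52) (nat_lit 5) (nat_lit 108) (nat_lit 123) (nat_lit 129))) (PT.nd (nat_lit 78) (PT.lf (nat_lit 4332) (nat_lit 6) (nat_lit 57) (nat_lit 5) (nat_lit 109) (nat_lit 123) (nat_lit 128)) (PT.nd (nat_lit 78) (PT.lf (nat_lit 4712) (nat_lit 6) (nat_lit 62) (nat_lit 5) (nat_lit 110) (nat_lit 123) (nat_lit 127)) (PT.lf (nat_lit 5472) (nat_lit 6) (nat_lit 72) (nat_lit 5) (nat_lit 111) (nat_lit 123) (nat_lit 126))))))))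
noncomputable def pc8 : PT := (PT.nd (nat_lit 37050) (PT.nd (nat_lit 702) (PT.nd (nat_lit 312) (PT.nd (nat_lit 156) (PT.nd (nat_lit 78) (PT.lf (nat_lit 6156) (nat_lit 6) (nat_lit 81) (nat_lit 5) (nat_lit 112) (nat_lit 123) (nat_lit 125)) (PT.lf (nat_lit 6764) (nat_lit 6) (nat_lit 89) (nat_lit 5) (nat_lit 113) (nat_lit 123) (nat_lit 124))) (PT.nd (nat_lit 78) (PT.lf (nat_lit 7296) (nat_lit 3) (nat_lit 96) (nat_lit 4) (nat_lit 114) (nat_lit 123) (nat_lit 123)) (PT.lf (nat_lit 7676) (nat_lit 6) (nat_lit 101) (nat_lit 4) (nat_lit 115) (nat_lit 123) (nat_lit 122)))) (PT.nd (nat_lit 156) (PT.nd (nat_lit 78) (PT.lf (nat_lit 7980) (nat_lit 6) (nat_lit 105) (nat_lit 4) (nat_lit 116) (nat_lit 123) (nat_lit 121)) (PT.lf (nat_lit 8208) (nat_lit 6) (nat_lit 108) (nat_lit 4) (nat_lit 117) (nat_lit 123) (nat_lit 120))) (PT.nd (nat_lit 78) (PT.lf (nat_lit 8132) (nat_lit 6) (nat_lit 107) (nat_lit 4)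 (nat_lit 118) (nat_lit 123) (nat_lit 119)) (PT.nd (nat_lit 78) (PT.lf (nat_lit 8132) (nat_lit 6) (nat_lit 107) (nat_lit 2) (nat_lit 119) (nat_lit 123) (nat_lit 118)) (PT.lf (nat_lit 8208) (nat_lit 6) (nat_lit 108) (nat_lit 2) (nat_lit 120) (nat_lit 123) (nat_lit 117)))))) (PT.nd (nat_lit 390) (PT.nd (nat_lit 156) (PT.nd (nat_lit 78) (PT.lf (nat_lit 7980) (nat_lit 6) (nat_lit 105) (nat_lit 2) (nat_lit 121) (nat_lit 123) (nat_lit 116)) (PT.lf (nat_lit 7676) (nat_lit 6) (nat_lit 101) (nat_lit 2) (nat_lit 122) (nat_lit 123) (nat_lit 115))) (PT.nd (nat_lit 78) (PT.lf (nat_lit 7296) (nat_lit 3) (nat_lit 96) (nat_lit 0) (nat_lit 123) (nat_lit 123) (nat_lit 114)) (PT.nd (nat_lit 78) (PT.lf (nat_lit 6764) (nat_lit 6) (nat_lit 89) (nat_lit 0) (nat_lit 124) (nat_lit 123) (nat_lit 113)) (PT.lf (nat_lit 6156) (nat_lit 6) (nat_lit 81) (nat_lit 0) (nat_lit 125) (nat_lit 123) (nat_lit 112))))) (PT.nd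 (nat_lit 156) (PT.nd (nat_lit 78) (PT.lf (nat_lit 5472) (nat_lit 6) (nat_lit 72) (nat_lit 0) (nat_lit 126) (nat_lit 123) (nat_lit 111)) (PT.lf (nat_lit 4712) (nat_lit 6) (nat_lit 62) (nat_lit 0) (nat_lit 127) (nat_lit 123) (nat_lit 110))) (PT.nd (nat_lit 78) (PT.lf (nat_lit 4332) (nat_lit 6) (nat_lit 57) (nat_lit 0) (nat_lit 128) (nat_lit 123) (nat_lit 109)) (PT.nd (nat_lit 78) (PT.lf (nat_lit 3952) (nat_lit 6) (nat_lit 52) (nat_lit 0) (nat_lit 129) (nat_lit 123) (nat_lit 108)) (PT.lf (nat_lit 3572) (nat_lit 6) (nat_lit 47) (nat_lit 0) (nat_lit 130) (nat_lit 123) (nat_lit 107))))))) (PT.nd (nat_lit 702) (PT.nd (nat_lit 312) (PT.nd (nat_lit 156) (PT.nd (nat_lit 78) (PT.lf (nat_lit 3268) (nat_lit 6) (nat_lit 43) (nat_lit 5) (nat_lit 106) (nat_lit 124) (nat_lit 130)) (PT.lf (nat_lit 3648) (nat_lit 6) (nat_lit 48) (nat_lit 5) (nat_lit 107) (nat_lit 124) (nat_lit 129))) (PT.nd (nat_lit 78)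 (PT.lf (nat_lit 4028) (nat_lit 6) (nat_lit 53) (nat_lit 5) (nat_lit 108) (nat_lit 124) (nat_lit 128)) (PT.lf (nat_lit 4408) (nat_lit 6) (nat_lit 58) (nat_lit 5) (nat_lit 109) (nat_lit 124) (nat_lit 127)))) (PT.nd (nat_lit 156) (PT.nd (nat_lit 78) (PT.lf (nat_lit 4788) (nat_lit 6) (nat_lit 63) (nat_lit 5) (nat_lit 110) (nat_lit 124) (nat_lit 126)) (PT.lf (nat_lit 5548) (nat_lit 6) (nat_lit 73) (nat_lit 5) (nat_lit 111) (nat_lit 124) (nat_lit 125))) (PT.nd (nat_lit 78) (PT.lf (nat_lit 6232) (nat_lit 3) (nat_lit 82) (nat_lit 4) (nat_lit 112) (nat_lit 124) (nat_lit 124)) (PT.nd (nat_lit 78) (PT.lf (nat_lit 6764) (nat_lit 6) (nat_lit 89) (nat_lit 4) (nat_lit 113) (nat_lit 124) (nat_lit 123)) (PT.lf (nat_lit 7220) (nat_lit 6) (nat_lit 95) (nat_lit 4) (nat_lit 114) (nat_lit 124) (nat_lit 122)))))) (PT.nd (nat_lit 390) (PT.nd (nat_lit 156) (PT.nd (nat_lit 78) (PT.lf (nat_lit 7600) (nat_lit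 6) (nat_lit 100) (nat_lit 4) (nat_lit 115) (nat_lit 124) (nat_lit 121)) (PT.lf (nat_lit 7904) (nat_lit 6) (nat_lit 104) (nat_lit 4) (nat_lit 116) (nat_lit 124) (nat_lit 120))) (PT.nd (nat_lit 78) (PT.lf (nat_lit 7828) (nat_lit 6) (nat_lit 103) (nat_lit 4) (nat_lit 117) (nat_lit 124) (nat_lit 119)) (PT.nd (nat_lit 78) (PT.lf (nat_lit 7752) (nat_lit 3) (nat_lit 102) (nat_lit 2) (nat_lit 118) (nat_lit 124) (nat_lit 118)) (PT.lf (nat_lit 7828) (nat_lit 6) (nat_lit 103) (nat_lit 2) (nat_lit 119) (nat_lit 124) (nat_lit 117))))) (PT.nd (nat_lit 156) (PT.nd (nat_lit 78) (PT.lf (nat_lit 7904) (nat_lit 6) (nat_lit 104) (nat_lit 2) (nat_lit 120) (nat_lit 124) (nat_lit 116)) (PT.lf (nat_lit 7600) (nat_lit 6) (nat_lit 100) (nat_lit 2) (nat_lit 121) (nat_lit 124) (nat_lit 115))) (PT.nd (nat_lit 78) (PT.lf (nat_lit 7220) (nat_lit 6) (nat_lit 95) (nat_lit 2) (nat_lit 122) (nat_lit 124) (nat_lit 114))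 (PT.nd (nat_lit 78) (PT.lf (nat_lit 6764) (nat_lit 6) (nat_lit 89) (nat_lit 2) (nat_lit 123) (nat_lit 124) (nat_lit 113)) (PT.lf (nat_lit 6232) (nat_lit 3) (nat_lit 82) (nat_lit 0) (nat_lit 124) (nat_lit 124) (nat_lit 112))))))))
noncomputable def pc9 : PT := (PT.nd (nat_lit 36894) (PT.nd (nat_lit 36114) (PT.nd (nat_lit 312) (PT.nd (nat_lit 156) (PT.nd (nat_lit 78) (PT.lf (nat_lit 5548) (nat_lit 6) (nat_lit 73) (nat_lit 0) (nat_lit 125) (nat_lit 124) (nat_lit 111)) (PT.lf (nat_lit 4788) (nat_lit 6) (nat_lit 63) (nat_lit 0) (nat_lit 126) (nat_lit 124) (nat_lit 110))) (PT.nd (nat_lit 78) (PT.lf (nat_lit 4408) (nat_lit 6) (nat_lit 58) (nat_lit 0) (nat_lit 127) (nat_lit 124) (nat_lit 109)) (PT.lf (nat_lit 4028) (nat_lit 6) (nat_lit 53) (nat_lit 0) (nat_lit 128) (nat_lit 124) (nat_lit 108)))) (PT.nd (nat_lit 35568) (PT.nd (nat_lit 78) (PT.lf (nat_lit 3648) (nat_lit 6) (nat_lit 48) (nat_lit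 0) (nat_lit 129) (nat_lit 124) (nat_lit 107)) (PT.lf (nat_lit 3268) (nat_lit 6) (nat_lit 43) (nat_lit 0) (nat_lit 130) (nat_lit 124) (nat_lit 106))) (PT.nd (nat_lit 78) (PT.lf (nat_lit 2736) (nat_lit 6) (nat_lit 36) (nat_lit 5) (nat_lit 104) (nat_lit 125) (nat_lit 131)) (PT.nd (nat_lit 78) (PT.lf (nat_lit 3040) (nat_lit 6) (nat_lit 40) (nat_lit 5) (nat_lit 105) (nat_lit 125) (nat_lit 130)) (PT.lf (nat_lit 3344) (nat_lit 6) (nat_lit 44) (nat_lit 5) (nat_lit 106) (nat_lit 125) (nat_lit 129)))))) (PT.nd (nat_lit 390) (PT.nd (nat_lit 156) (PT.nd (nat_lit 78) (PT.lf (nat_lit 3724) (nat_lit 6) (nat_lit 49) (nat_lit 5) (nat_lit 107) (nat_lit 125) (nat_lit 128)) (PT.lf (nat_lit 4104) (nat_lit 6) (nat_lit 54) (nat_lit 5) (nat_lit 108) (nat_lit 125) (nat_lit 127))) (PT.nd (nat_lit 78) (PT.lf (nat_lit 4484) (nat_lit 6) (nat_lit 59) (nat_lit 5) (nat_lit 109) (nat_lit 125) (nat_lit 126)) (PT.nd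 (nat_lit 78) (PT.lf (nat_lit 4864) (nat_lit 3) (nat_lit 64) (nat_lit 4) (nat_lit 110) (nat_lit 125) (nat_lit 125)) (PT.lf (nat_lit 5548) (nat_lit 6) (nat_lit 73) (nat_lit 4) (nat_lit 111) (nat_lit 125) (nat_lit 124))))) (PT.nd (nat_lit 156) (PT.nd (nat_lit 78) (PT.lf (nat_lit 6156) (nat_lit 6) (nat_lit 81) (nat_lit 4) (nat_lit 112) (nat_lit 125) (nat_lit 123)) (PT.lf (nat_lit 6688) (nat_lit 6) (nat_lit 88) (nat_lit 4) (nat_lit 113) (nat_lit 125) (nat_lit 122))) (PT.nd (nat_lit 78) (PT.lf (nat_lit 7144) (nat_lit 6) (nat_lit 94) (nat_lit 4) (nat_lit 114) (nat_lit 125) (nat_lit 121)) (PT.nd (nat_lit 78) (PT.lf (nat_lit 7524) (nat_lit 6) (nat_lit 99) (nat_lit 4) (nat_lit 115) (nat_lit 125) (nat_lit 120)) (PT.lf (nat_lit 7448) (nat_lit 6) (nat_lit 98) (nat_lit 4) (nat_lit 116) (nat_lit 125) (nat_lit 119))))))) (PT.nd (nat_lit 780) (PT.nd (nat_lit 390) (PT.nd (nat_lit 156) (PT.nd (nat_lit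 78) (PT.lf (nat_lit 7372) (nat_lit 6) (nat_lit 97) (nat_lit 4) (nat_lit 117) (nat_lit 125) (nat_lit 118)) (PT.lf (nat_lit 7372) (nat_lit 6) (nat_lit 97) (nat_lit 2) (nat_lit 118) (nat_lit 125) (nat_lit 117))) (PT.nd (nat_lit 78) (PT.lf (nat_lit 7448) (nat_lit 6) (nat_lit 98) (nat_lit 2) (nat_lit 119) (nat_lit 125) (nat_lit 116)) (PT.nd (nat_lit 78) (PT.lf (nat_lit 7524) (nat_lit 6) (nat_lit 99) (nat_lit 2) (nat_lit 120) (nat_lit 125) (nat_lit 115)) (PT.lf (nat_lit 7144) (nat_lit 6) (nat_lit 94) (nat_lit 2) (nat_lit 121) (nat_lit 125) (nat_lit 114))))) (PT.nd (nat_lit 156) (PT.nd (nat_lit 78) (PT.lf (nat_lit 6688) (nat_lit 6) (nat_lit 88) (nat_lit 2) (nat_lit 122) (nat_lit 125) (nat_lit 113)) (PT.lf (nat_lit 6156) (nat_lit 6) (nat_lit 81) (nat_lit 2) (nat_lit 123) (nat_lit 125) (nat_lit 112))) (PT.nd (nat_lit 78) (PT.lf (nat_lit 5548) (nat_lit 6) (nat_lit 73) (nat_lit 2) (nat_lit 124)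 (nat_lit 125) (nat_lit 111)) (PT.nd (nat_lit 78) (PT.lf (nat_lit 4864) (nat_lit 3) (nat_lit 64) (nat_lit 0) (nat_lit 125) (nat_lit 125) (nat_lit 110)) (PT.lf (nat_lit 4484) (nat_lit 6) (nat_lit 59) (nat_lit 0) (nat_lit 126) (nat_lit 125) (nat_lit 109)))))) (PT.nd (nat_lit 35646) (PT.nd (nat_lit 156) (PT.nd (nat_lit 78) (PT.lf (nat_lit 4104) (nat_lit 6) (nat_lit 54) (nat_lit 0) (nat_lit 127) (nat_lit 125) (nat_lit 108)) (PT.lf (nat_lit 3724) (nat_lit 6) (nat_lit 49) (nat_lit 0) (nat_lit 128) (nat_lit 125) (nat_lit 107))) (PT.nd (nat_lit 78) (PT.lf (nat_lit 3344) (nat_lit 6) (nat_lit 44) (nat_lit 0) (nat_lit 129) (nat_lit 125) (nat_lit 106)) (PT.nd (nat_lit 78) (PT.lf (nat_lit 3040) (nat_lit 6) (nat_lit 40) (nat_lit 0) (nat_lit 130) (nat_lit 125) (nat_lit 105)) (PT.lf (nat_lit 2736) (nat_lit 6) (nat_lit 36) (nat_lit 0) (nat_lit 131) (nat_lit 125) (nat_lit 104))))) (PT.nd (nat_lit 156)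 (PT.nd (nat_lit 78) (PT.lf (nat_lit 2508) (nat_lit 6) (nat_lit 33) (nat_lit 5) (nat_lit 103) (nat_lit 126) (nat_lit 131)) (PT.lf (nat_lit 2812) (nat_lit 6) (nat_lit 37) (nat_lit 5) (nat_lit 104) (nat_lit 126) (nat_lit 130))) (PT.nd (nat_lit 78) (PT.lf (nat_lit 3116) (nat_lit 6) (nat_lit 41) (nat_lit 5) (nat_lit 105) (nat_lit 126) (nat_lit 129)) (PT.nd (nat_lit 78) (PT.lf (nat_lit 3420) (nat_lit 6) (nat_lit 45) (nat_lit 5) (nat_lit 106) (nat_lit 126) (nat_lit 128)) (PT.lf (nat_lit 3800) (nat_lit 6) (nat_lit 50) (nat_lit 5) (nat_lit 107) (nat_lit 126) (nat_lit 127))))))))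
noncomputable def pc10 : PT := (PT.nd (nat_lit 1482) (PT.nd (nat_lit 702) (PT.nd (nat_lit 312) (PT.nd (nat_lit 156) (PT.nd (nat_lit 78) (PT.lf (nat_lit 4180) (nat_lit 3) (nat_lit 55) (nat_lit 4) (nat_lit 108) (nat_lit 126) (nat_lit 126)) (PT.lf (nat_lit 4484) (nat_lit 6) (nat_lit 59) (nat_lit 4) (nat_lit 109) (nat_lit 126) (nat_lit 125))) (PT.nd (nat_lit 78) (PT.lf (nat_lit 4788) (nat_lit 6) (nat_lit 63) (nat_lit 4) (nat_lit 110) (nat_lit 126) (nat_lit 124)) (PT.lf (nat_lit 5472) (nat_lit 6) (nat_lit 72) (nat_lit 4) (nat_lit 111) (nat_lit 126) (nat_lit 123)))) (PT.nd (nat_lit 156) (PT.nd (nat_lit 78) (PT.lf (nat_lit 6080) (nat_lit 6) (nat_lit 80) (nat_lit 4) (nat_lit 112) (nat_lit 126) (nat_lit 122)) (PT.lf (nat_lit 6612) (nat_lit 6) (nat_lit 87) (nat_lit 4) (nat_lit 113) (nat_lit 126) (nat_lit 121))) (PT.nd (nat_lit 78) (PT.lf (nat_lit 7068) (nat_lit 6) (nat_lit 93) (nat_lit 4) (nat_lit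 114) (nat_lit 126) (nat_lit 120)) (PT.nd (nat_lit 78) (PT.lf (nat_lit 6992) (nat_lit 6) (nat_lit 92) (nat_lit 4) (nat_lit 115) (nat_lit 126) (nat_lit 119)) (PT.lf (nat_lit 6916) (nat_lit 6) (nat_lit 91) (nat_lit 4) (nat_lit 116) (nat_lit 126) (nat_lit 118)))))) (PT.nd (nat_lit 390) (PT.nd (nat_lit 156) (PT.nd (nat_lit 78) (PT.lf (nat_lit 6840) (nat_lit 3) (nat_lit 90) (nat_lit 2) (nat_lit 117) (nat_lit 126) (nat_lit 117)) (PT.lf (nat_lit 6916) (nat_lit 6) (nat_lit 91) (nat_lit 2) (nat_lit 118) (nat_lit 126) (nat_lit 116))) (PT.nd (nat_lit 78) (PT.lf (nat_lit 6992) (nat_lit 6) (nat_lit 92) (nat_lit 2) (nat_lit 119) (nat_lit 126) (nat_lit 115)) (PT.nd (nat_lit 78) (PT.lf (nat_lit 7068) (nat_lit 6) (nat_lit 93) (nat_lit 2) (nat_lit 120) (nat_lit 126) (nat_lit 114)) (PT.lf (nat_lit 6612) (nat_lit 6) (nat_lit 87) (nat_lit 2) (nat_lit 121) (nat_lit 126) (nat_lit 113))))) (PT.nd (nat_lit 156)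 (PT.nd (nat_lit 78) (PT.lf (nat_lit 6080) (nat_lit 6) (nat_lit 80) (nat_lit 2) (nat_lit 122) (nat_lit 126) (nat_lit 112)) (PT.lf (nat_lit 5472) (nat_lit 6) (nat_lit 72) (nat_lit 2) (nat_lit 123) (nat_lit 126) (nat_lit 111))) (PT.nd (nat_lit 78) (PT.lf (nat_lit 4788) (nat_lit 6) (nat_lit 63) (nat_lit 2) (nat_lit 124) (nat_lit 126) (nat_lit 110)) (PT.nd (nat_lit 78) (PT.lf (nat_lit 4484) (nat_lit 6) (nat_lit 59) (nat_lit 2) (nat_lit 125) (nat_lit 126) (nat_lit 109)) (PT.lf (nat_lit 4180) (nat_lit 3) (nat_lit 55) (nat_lit 0) (nat_lit 126) (nat_lit 126) (nat_lit 108))))))) (PT.nd (nat_lit 35880) (PT.nd (nat_lit 35490) (PT.nd (nat_lit 156) (PT.nd (nat_lit 78) (PT.lf (nat_lit 3800) (nat_lit 6) (nat_lit 50) (nat_lit 0) (nat_lit 127) (nat_lit 126) (nat_lit 107)) (PT.lf (nat_lit 3420) (nat_lit 6) (nat_lit 45) (nat_lit 0) (nat_lit 128) (nat_lit 126) (nat_lit 106))) (PT.nd (nat_lit 78) (PT.lf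 (nat_lit 3116) (nat_lit 6) (nat_lit 41) (nat_lit 0) (nat_lit 129) (nat_lit 126) (nat_lit 105)) (PT.nd (nat_lit 78) (PT.lf (nat_lit 2812) (nat_lit 6) (nat_lit 37) (nat_lit 0) (nat_lit 130) (nat_lit 126) (nat_lit 104)) (PT.lf (nat_lit 2508) (nat_lit 6) (nat_lit 33) (nat_lit 0) (nat_lit 131) (nat_lit 126) (nat_lit 103))))) (PT.nd (nat_lit 156) (PT.nd (nat_lit 78) (PT.lf (nat_lit 2052) (nat_lit 6) (nat_lit 27) (nat_lit 5) (nat_lit 101) (nat_lit 127) (nat_lit 132)) (PT.lf (nat_lit 2280) (nat_lit 6) (nat_lit 30) (nat_lit 5) (nat_lit 102) (nat_lit 127) (nat_lit 131))) (PT.nd (nat_lit 78) (PT.lf (nat_lit 2584) (nat_lit 6) (nat_lit 34) (nat_lit 5) (nat_lit 103) (nat_lit 127) (nat_lit 130)) (PT.nd (nat_lit 78) (PT.lf (nat_lit 2888) (nat_lit 6) (nat_lit 38) (nat_lit 5) (nat_lit 104) (nat_lit 127) (nat_lit 129)) (PT.lf (nat_lit 3192) (nat_lit 6) (nat_lit 42) (nat_lit 5) (nat_lit 105) (nat_lit 127)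 (nat_lit 128)))))) (PT.nd (nat_lit 390) (PT.nd (nat_lit 156) (PT.nd (nat_lit 78) (PT.lf (nat_lit 3496) (nat_lit 3) (nat_lit 46) (nat_lit 4) (nat_lit 106) (nat_lit 127) (nat_lit 127)) (PT.lf (nat_lit 3800) (nat_lit 6) (nat_lit 50) (nat_lit 4) (nat_lit 107) (nat_lit 127) (nat_lit 126))) (PT.nd (nat_lit 78) (PT.lf (nat_lit 4104) (nat_lit 6) (nat_lit 54) (nat_lit 4) (nat_lit 108) (nat_lit 127) (nat_lit 125)) (PT.nd (nat_lit 78) (PT.lf (nat_lit 4408) (nat_lit 6) (nat_lit 58) (nat_lit 4) (nat_lit 109) (nat_lit 127) (nat_lit 124)) (PT.lf (nat_lit 4712) (nat_lit 6) (nat_lit 62) (nat_lit 4) (nat_lit 110) (nat_lit 127) (nat_lit 123))))) (PT.nd (nat_lit 156) (PT.nd (nat_lit 78) (PT.lf (nat_lit 5396) (nat_lit 6) (nat_lit 71) (nat_lit 4) (nat_lit 111) (nat_lit 127) (nat_lit 122)) (PT.lf (nat_lit 6004) (nat_lit 6) (nat_lit 79) (nat_lit 4) (nat_lit 112) (nat_lit 127) (nat_lit 121))) (PT.nd (nat_lit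 78) (PT.lf (nat_lit 6536) (nat_lit 6) (nat_lit 86) (nat_lit 4) (nat_lit 113) (nat_lit 127) (nat_lit 120)) (PT.nd (nat_lit 78) (PT.lf (nat_lit 6460) (nat_lit 6) (nat_lit 85) (nat_lit 4) (nat_lit 114) (nat_lit 127) (nat_lit 119)) (PT.lf (nat_lit 6384) (nat_lit 6) (nat_lit 84) (nat_lit 4) (nat_lit 115) (nat_lit 127) (nat_lit 118))))))))
noncomputable def pc11 : PT := (PT.nd (nat_lit 36426) (PT.nd (nat_lit 702) (PT.nd (nat_lit 312) (PT.nd (nat_lit 156) (PT.nd (nat_lit 78) (PT.lf (nat_lit 6308) (nat_lit 6) (nat_lit 83) (nat_lit 4) (nat_lit 116) (nat_lit 127) (nat_lit 117)) (PT.lf (nat_lit 6308) (nat_lit 6) (nat_lit 83) (nat_lit 2) (nat_lit 117) (nat_lit 127) (nat_lit 116))) (PT.nd (nat_lit 78) (PT.lf (nat_lit 6384) (nat_lit 6) (nat_lit 84) (nat_lit 2) (nat_lit 118) (nat_lit 127) (nat_lit 115)) (PT.lf (nat_lit 6460) (nat_lit 6) (nat_lit 85) (nat_lit 2) (nat_lit 119) (nat_lit 127) (nat_lit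 114)))) (PT.nd (nat_lit 156) (PT.nd (nat_lit 78) (PT.lf (nat_lit 6536) (nat_lit 6) (nat_lit 86) (nat_lit 2) (nat_lit 120) (nat_lit 127) (nat_lit 113)) (PT.lf (nat_lit 6004) (nat_lit 6) (nat_lit 79) (nat_lit 2) (nat_lit 121) (nat_lit 127) (nat_lit 112))) (PT.nd (nat_lit 78) (PT.lf (nat_lit 5396) (nat_lit 6) (nat_lit 71) (nat_lit 2) (nat_lit 122) (nat_lit 127) (nat_lit 111)) (PT.nd (nat_lit 78) (PT.lf (nat_lit 4712) (nat_lit 6) (nat_lit 62) (nat_lit 2) (nat_lit 123) (nat_lit 127) (nat_lit 110)) (PT.lf (nat_lit 4408) (nat_lit 6) (nat_lit 58) (nat_lit 2) (nat_lit 124) (nat_lit 127) (nat_lit 109)))))) (PT.nd (nat_lit 390) (PT.nd (nat_lit 156) (PT.nd (nat_lit 78) (PT.lf (nat_lit 4104) (nat_lit 6) (nat_lit 54) (nat_lit 2) (nat_lit 125) (nat_lit 127) (nat_lit 108)) (PT.lf (nat_lit 3800) (nat_lit 6) (nat_lit 50) (nat_lit 2) (nat_lit 126) (nat_lit 127) (nat_lit 107))) (PT.nd (nat_lit 78) (PT.lf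 (nat_lit 3496) (nat_lit 3) (nat_lit 46) (nat_lit 0) (nat_lit 127) (nat_lit 127) (nat_lit 106)) (PT.nd (nat_lit 78) (PT.lf (nat_lit 3192) (nat_lit 6) (nat_lit 42) (nat_lit 0) (nat_lit 128) (nat_lit 127) (nat_lit 105)) (PT.lf (nat_lit 2888) (nat_lit 6) (nat_lit 38) (nat_lit 0) (nat_lit 129) (nat_lit 127) (nat_lit 104))))) (PT.nd (nat_lit 156) (PT.nd (nat_lit 78) (PT.lf (nat_lit 2584) (nat_lit 6) (nat_lit 34) (nat_lit 0) (nat_lit 130) (nat_lit 127) (nat_lit 103)) (PT.lf (nat_lit 2280) (nat_lit 6) (nat_lit 30) (nat_lit 0) (nat_lit 131) (nat_lit 127) (nat_lit 102))) (PT.nd (nat_lit 35022) (PT.lf (nat_lit 2052) (nat_lit 6) (nat_lit 27) (nat_lit 0) (nat_lit 132) (nat_lit 127) (nat_lit 101)) (PT.nd (nat_lit 78) (PT.lf (nat_lit 1824) (nat_lit 6) (nat_lit 24) (nat_lit 5) (nat_lit 100) (nat_lit 128) (nat_lit 132)) (PT.lf (nat_lit 2128) (nat_lit 6) (nat_lit 28) (nat_lit 5) (nat_lit 101) (nat_lit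 128) (nat_lit 131))))))) (PT.nd (nat_lit 780) (PT.nd (nat_lit 390) (PT.nd (nat_lit 156) (PT.nd (nat_lit 78) (PT.lf (nat_lit 2356) (nat_lit 6) (nat_lit 31) (nat_lit 5) (nat_lit 102) (nat_lit 128) (nat_lit 130)) (PT.lf (nat_lit 2660) (nat_lit 6) (nat_lit 35) (nat_lit 5) (nat_lit 103) (nat_lit 128) (nat_lit 129))) (PT.nd (nat_lit 78) (PT.lf (nat_lit 2964) (nat_lit 3) (nat_lit 39) (nat_lit 4) (nat_lit 104) (nat_lit 128) (nat_lit 128)) (PT.nd (nat_lit 78) (PT.lf (nat_lit 3192) (nat_lit 6) (nat_lit 42) (nat_lit 4) (nat_lit 105) (nat_lit 128) (nat_lit 127)) (PT.lf (nat_lit 3420) (nat_lit 6) (nat_lit 45) (nat_lit 4) (nat_lit 106) (nat_lit 128) (nat_lit 126))))) (PT.nd (nat_lit 156) (PT.nd (nat_lit 78) (PT.lf (nat_lit 3724) (nat_lit 6) (nat_lit 49) (nat_lit 4) (nat_lit 107) (nat_lit 128) (nat_lit 125)) (PT.lf (nat_lit 4028) (nat_lit 6) (nat_lit 53) (nat_lit 4) (nat_lit 108) (nat_lit 128) (nat_lit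 124))) (PT.nd (nat_lit 78) (PT.lf (nat_lit 4332) (nat_lit 6) (nat_lit 57) (nat_lit 4) (nat_lit 109) (nat_lit 128) (nat_lit 123)) (PT.nd (nat_lit 78) (PT.lf (nat_lit 4636) (nat_lit 6) (nat_lit 61) (nat_lit 4) (nat_lit 110) (nat_lit 128) (nat_lit 122)) (PT.lf (nat_lit 5320) (nat_lit 6) (nat_lit 70) (nat_lit 4) (nat_lit 111) (nat_lit 128) (nat_lit 121)))))) (PT.nd (nat_lit 390) (PT.nd (nat_lit 156) (PT.nd (nat_lit 78) (PT.lf (nat_lit 5928) (nat_lit 6) (nat_lit 78) (nat_lit 4) (nat_lit 112) (nat_lit 128) (nat_lit 120)) (PT.lf (nat_lit 5852) (nat_lit 6) (nat_lit 77) (nat_lit 4) (nat_lit 113) (nat_lit 128) (nat_lit 119))) (PT.nd (nat_lit 78) (PT.lf (nat_lit 5776) (nat_lit 6) (nat_lit 76) (nat_lit 4) (nat_lit 114) (nat_lit 128) (nat_lit 118)) (PT.nd (nat_lit 78) (PT.lf (nat_lit 5700) (nat_lit 6) (nat_lit 75) (nat_lit 4) (nat_lit 115) (nat_lit 128) (nat_lit 117)) (PT.lf (nat_lit 5624) (nat_lit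 3) (nat_lit 74) (nat_lit 2) (nat_lit 116) (nat_lit 128) (nat_lit 116))))) (PT.nd (nat_lit 156) (PT.nd (nat_lit 78) (PT.lf (nat_lit 5700) (nat_lit 6) (nat_lit 75) (nat_lit 2) (nat_lit 117) (nat_lit 128) (nat_lit 115)) (PT.lf (nat_lit 5776) (nat_lit 6) (nat_lit 76) (nat_lit 2) (nat_lit 118) (nat_lit 128) (nat_lit 114))) (PT.nd (nat_lit 78) (PT.lf (nat_lit 5852) (nat_lit 6) (nat_lit 77) (nat_lit 2) (nat_lit 119) (nat_lit 128) (nat_lit 113)) (PT.nd (nat_lit 78) (PT.lf (nat_lit 5928) (nat_lit 6) (nat_lit 78) (nat_lit 2) (nat_lit 120) (nat_lit 128) (nat_lit 112)) (PT.lf (nat_lit 5320) (nat_lit 6) (nat_lit 70) (nat_lit 2) (nat_lit 121) (nat_lit 128) (nat_lit 111))))))))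
noncomputable def pc12 : PT := (PT.nd (nat_lit 36270) (PT.nd (nat_lit 702) (PT.nd (nat_lit 312) (PT.nd (nat_lit 156) (PT.nd (nat_lit 78) (PT.lf (nat_lit 4636) (nat_lit 6) (nat_lit 61) (nat_lit 2) (nat_lit 122) (nat_lit 128) (nat_lit 110)) (PT.lf (nat_lit 4332) (nat_lit 6) (nat_lit 57) (nat_lit 2) (nat_lit 123) (nat_lit 128) (nat_lit 109))) (PT.nd (nat_lit 78) (PT.lf (nat_lit 4028) (nat_lit 6) (nat_lit 53) (nat_lit 2) (nat_lit 124) (nat_lit 128) (nat_lit 108)) (PT.lf (nat_lit 3724) (nat_lit 6) (nat_lit 49) (nat_lit 2) (nat_lit 125) (nat_lit 128) (nat_lit 107)))) (PT.nd (nat_lit 156) (PT.nd (nat_lit 78) (PT.lf (nat_lit 3420) (nat_lit 6) (nat_lit 45) (nat_lit 2) (nat_lit 126) (nat_lit 128) (nat_lit 106)) (PT.lf (nat_lit 3192) (nat_lit 6) (nat_lit 42) (nat_lit 2) (nat_lit 127) (nat_lit 128) (nat_lit 105))) (PT.nd (nat_lit 78) (PT.lf (nat_lit 2964) (nat_lit 3) (nat_lit 39) (nat_lit 0) (nat_lit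 128) (nat_lit 128) (nat_lit 104)) (PT.nd (nat_lit 78) (PT.lf (nat_lit 2660) (nat_lit 6) (nat_lit 35) (nat_lit 0) (nat_lit 129) (nat_lit 128) (nat_lit 103)) (PT.lf (nat_lit 2356) (nat_lit 6) (nat_lit 31) (nat_lit 0) (nat_lit 130) (nat_lit 128) (nat_lit 102)))))) (PT.nd (nat_lit 35178) (PT.nd (nat_lit 34944) (PT.nd (nat_lit 78) (PT.lf (nat_lit 2128) (nat_lit 6) (nat_lit 28) (nat_lit 0) (nat_lit 131) (nat_lit 128) (nat_lit 101)) (PT.lf (nat_lit 1824) (nat_lit 6) (nat_lit 24) (nat_lit 0) (nat_lit 132) (nat_lit 128) (nat_lit 100))) (PT.nd (nat_lit 78) (PT.lf (nat_lit 1444) (nat_lit 6) (nat_lit 19) (nat_lit 5) (nat_lit 98) (nat_lit 129) (nat_lit 133)) (PT.nd (nat_lit 78) (PT.lf (nat_lit 1672) (nat_lit 6) (nat_lit 22) (nat_lit 5) (nat_lit 99) (nat_lit 129) (nat_lit 132)) (PT.lf (nat_lit 1900) (nat_lit 6) (nat_lit 25) (nat_lit 5) (nat_lit 100) (nat_lit 129) (nat_lit 131))))) (PT.nd (nat_lit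 156) (PT.nd (nat_lit 78) (PT.lf (nat_lit 2204) (nat_lit 6) (nat_lit 29) (nat_lit 5) (nat_lit 101) (nat_lit 129) (nat_lit 130)) (PT.lf (nat_lit 2432) (nat_lit 3) (nat_lit 32) (nat_lit 4) (nat_lit 102) (nat_lit 129) (nat_lit 129))) (PT.nd (nat_lit 78) (PT.lf (nat_lit 2660) (nat_lit 6) (nat_lit 35) (nat_lit 4) (nat_lit 103) (nat_lit 129) (nat_lit 128)) (PT.nd (nat_lit 78) (PT.lf (nat_lit 2888) (nat_lit 6) (nat_lit 38) (nat_lit 4) (nat_lit 104) (nat_lit 129) (nat_lit 127)) (PT.lf (nat_lit 3116) (nat_lit 6) (nat_lit 41) (nat_lit 4) (nat_lit 105) (nat_lit 129) (nat_lit 126))))))) (PT.nd (nat_lit 702) (PT.nd (nat_lit 312) (PT.nd (nat_lit 156) (PT.nd (nat_lit 78) (PT.lf (nat_lit 3344) (nat_lit 6) (nat_lit 44) (nat_lit 4) (nat_lit 106) (nat_lit 129) (nat_lit 125)) (PT.lf (nat_lit 3648) (nat_lit 6) (nat_lit 48) (nat_lit 4) (nat_lit 107) (nat_lit 129) (nat_lit 124))) (PT.nd (nat_lit 78) (PT.lf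 (nat_lit 3952) (nat_lit 6) (nat_lit 52) (nat_lit 4) (nat_lit 108) (nat_lit 129) (nat_lit 123)) (PT.lf (nat_lit 4256) (nat_lit 6) (nat_lit 56) (nat_lit 4) (nat_lit 109) (nat_lit 129) (nat_lit 122)))) (PT.nd (nat_lit 156) (PT.nd (nat_lit 78) (PT.lf (nat_lit 4560) (nat_lit 6) (nat_lit 60) (nat_lit 4) (nat_lit 110) (nat_lit 129) (nat_lit 121)) (PT.lf (nat_lit 5244) (nat_lit 6) (nat_lit 69) (nat_lit 4) (nat_lit 111) (nat_lit 129) (nat_lit 120))) (PT.nd (nat_lit 78) (PT.lf (nat_lit 5168) (nat_lit 6) (nat_lit 68) (nat_lit 4) (nat_lit 112) (nat_lit 129) (nat_lit 119)) (PT.nd (nat_lit 78) (PT.lf (nat_lit 5092) (nat_lit 6) (nat_lit 67) (nat_lit 4) (nat_lit 113) (nat_lit 129) (nat_lit 118)) (PT.lf (nat_lit 5016) (nat_lit 6) (nat_lit 66) (nat_lit 4) (nat_lit 114) (nat_lit 129) (nat_lit 117)))))) (PT.nd (nat_lit 390) (PT.nd (nat_lit 156) (PT.nd (nat_lit 78) (PT.lf (nat_lit 4940) (nat_lit 6) (nat_lit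 65) (nat_lit 4) (nat_lit 115) (nat_lit 129) (nat_lit 116)) (PT.lf (nat_lit 4940) (nat_lit 6) (nat_lit 65) (nat_lit 2) (nat_lit 116) (nat_lit 129) (nat_lit 115))) (PT.nd (nat_lit 78) (PT.lf (nat_lit 5016) (nat_lit 6) (nat_lit 66) (nat_lit 2) (nat_lit 117) (nat_lit 129) (nat_lit 114)) (PT.nd (nat_lit 78) (PT.lf (nat_lit 5092) (nat_lit 6) (nat_lit 67) (nat_lit 2) (nat_lit 118) (nat_lit 129) (nat_lit 113)) (PT.lf (nat_lit 5168) (nat_lit 6) (nat_lit 68) (nat_lit 2) (nat_lit 119) (nat_lit 129) (nat_lit 112))))) (PT.nd (nat_lit 156) (PT.nd (nat_lit 78) (PT.lf (nat_lit 5244) (nat_lit 6) (nat_lit 69) (nat_lit 2) (nat_lit 120) (nat_lit 129) (nat_lit 111)) (PT.lf (nat_lit 4560) (nat_lit 6) (nat_lit 60) (nat_lit 2) (nat_lit 121) (nat_lit 129) (nat_lit 110))) (PT.nd (nat_lit 78) (PT.lf (nat_lit 4256) (nat_lit 6) (nat_lit 56) (nat_lit 2) (nat_lit 122) (nat_lit 129) (nat_lit 109)) (PT.nd (nat_lit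 78) (PT.lf (nat_lit 3952) (nat_lit 6) (nat_lit 52) (nat_lit 2) (nat_lit 123) (nat_lit 129) (nat_lit 108)) (PT.lf (nat_lit 3648) (nat_lit 6) (nat_lit 48) (nat_lit 2) (nat_lit 124) (nat_lit 129) (nat_lit 107))))))))
noncomputable def pc13 : PT := (PT.nd (nat_lit 36114) (PT.nd (nat_lit 35334) (PT.nd (nat_lit 312) (PT.nd (nat_lit 156) (PT.nd (nat_lit 78) (PT.lf (nat_lit 3344) (nat_lit 6) (nat_lit 44) (nat_lit 2) (nat_lit 125) (nat_lit 129) (nat_lit 106)) (PT.lf (nat_lit 3116) (nat_lit 6) (nat_lit 41) (nat_lit 2) (nat_lit 126) (nat_lit 129) (nat_lit 105))) (PT.nd (nat_lit 78) (PT.lf (nat_lit 2888) (nat_lit 6) (nat_lit 38) (nat_lit 2) (nat_lit 127) (nat_lit 129) (nat_lit 104)) (PT.lf (nat_lit 2660) (nat_lit 6) (nat_lit 35) (nat_lit 2) (nat_lit 128) (nat_lit 129) (nat_lit 103)))) (PT.nd (nat_lit 156) (PT.nd (nat_lit 78) (PT.lf (nat_lit 2432) (nat_lit 3) (nat_lit 32) (nat_lit 0) (nat_lit 129)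 (nat_lit 129) (nat_lit 102)) (PT.lf (nat_lit 2204) (nat_lit 6) (nat_lit 29) (nat_lit 0) (nat_lit 130) (nat_lit 129) (nat_lit 101))) (PT.nd (nat_lit 78) (PT.lf (nat_lit 1900) (nat_lit 6) (nat_lit 25) (nat_lit 0) (nat_lit 131) (nat_lit 129) (nat_lit 100)) (PT.nd (nat_lit 78) (PT.lf (nat_lit 1672) (nat_lit 6) (nat_lit 22) (nat_lit 0) (nat_lit 132) (nat_lit 129) (nat_lit 99)) (PT.lf (nat_lit 1444) (nat_lit 6) (nat_lit 19) (nat_lit 0) (nat_lit 133) (nat_lit 129) (nat_lit 98)))))) (PT.nd (nat_lit 390) (PT.nd (nat_lit 156) (PT.nd (nat_lit 78) (PT.lf (nat_lit 1292) (nat_lit 6) (nat_lit 17) (nat_lit 5) (nat_lit 97) (nat_lit 130) (nat_lit 133)) (PT.lf (nat_lit 1520) (nat_lit 6) (nat_lit 20) (nat_lit 5) (nat_lit 98) (nat_lit 130) (nat_lit 132))) (PT.nd (nat_lit 78) (PT.lf (nat_lit 1748) (nat_lit 6) (nat_lit 23) (nat_lit 5) (nat_lit 99) (nat_lit 130) (nat_lit 131)) (PT.nd (nat_lit 78) (PT.lf (nat_lit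 1976) (nat_lit 3) (nat_lit 26) (nat_lit 4) (nat_lit 100) (nat_lit 130) (nat_lit 130)) (PT.lf (nat_lit 2204) (nat_lit 6) (nat_lit 29) (nat_lit 4) (nat_lit 101) (nat_lit 130) (nat_lit 129))))) (PT.nd (nat_lit 156) (PT.nd (nat_lit 78) (PT.lf (nat_lit 2356) (nat_lit 6) (nat_lit 31) (nat_lit 4) (nat_lit 102) (nat_lit 130) (nat_lit 128)) (PT.lf (nat_lit 2584) (nat_lit 6) (nat_lit 34) (nat_lit 4) (nat_lit 103) (nat_lit 130) (nat_lit 127))) (PT.nd (nat_lit 78) (PT.lf (nat_lit 2812) (nat_lit 6) (nat_lit 37) (nat_lit 4) (nat_lit 104) (nat_lit 130) (nat_lit 126)) (PT.nd (nat_lit 78) (PT.lf (nat_lit 3040) (nat_lit 6) (nat_lit 40) (nat_lit 4) (nat_lit 105) (nat_lit 130) (nat_lit 125)) (PT.lf (nat_lit 3268) (nat_lit 6) (nat_lit 43) (nat_lit 4) (nat_lit 106) (nat_lit 130) (nat_lit 124))))))) (PT.nd (nat_lit 1794) (PT.nd (nat_lit 1404) (PT.nd (nat_lit 1170) (PT.nd (nat_lit 78) (PT.lf (nat_lit 3572)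 (nat_lit 6) (nat_lit 47) (nat_lit 4) (nat_lit 107) (nat_lit 130) (nat_lit 123)) (PT.lf (nat_lit 3876) (nat_lit 6) (nat_lit 51) (nat_lit 4) (nat_lit 108) (nat_lit 130) (nat_lit 122))) (PT.nd (nat_lit 78) (PT.lf (nat_lit 3876) (nat_lit 6) (nat_lit 51) (nat_lit 2) (nat_lit 122) (nat_lit 130) (nat_lit 108)) (PT.nd (nat_lit 78) (PT.lf (nat_lit 3572) (nat_lit 6) (nat_lit 47) (nat_lit 2) (nat_lit 123) (nat_lit 130) (nat_lit 107)) (PT.lf (nat_lit 3268) (nat_lit 6) (nat_lit 43) (nat_lit 2) (nat_lit 124) (nat_lit 130) (nat_lit 106))))) (PT.nd (nat_lit 156) (PT.nd (nat_lit 78) (PT.lf (nat_lit 3040) (nat_lit 6) (nat_lit 40) (nat_lit 2) (nat_lit 125) (nat_lit 130) (nat_lit 105)) (PT.lf (nat_lit 2812) (nat_lit 6) (nat_lit 37) (nat_lit 2) (nat_lit 126) (nat_lit 130) (nat_lit 104))) (PT.nd (nat_lit 78) (PT.lf (nat_lit 2584) (nat_lit 6) (nat_lit 34) (nat_lit 2) (nat_lit 127) (nat_lit 130) (nat_lit 103))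 (PT.nd (nat_lit 78) (PT.lf (nat_lit 2356) (nat_lit 6) (nat_lit 31) (nat_lit 2) (nat_lit 128) (nat_lit 130) (nat_lit 102)) (PT.lf (nat_lit 2204) (nat_lit 6) (nat_lit 29) (nat_lit 2) (nat_lit 129) (nat_lit 130) (nat_lit 101)))))) (PT.nd (nat_lit 34866) (PT.nd (nat_lit 156) (PT.nd (nat_lit 78) (PT.lf (nat_lit 1976) (nat_lit 3) (nat_lit 26) (nat_lit 0) (nat_lit 130) (nat_lit 130) (nat_lit 100)) (PT.lf (nat_lit 1748) (nat_lit 6) (nat_lit 23) (nat_lit 0) (nat_lit 131) (nat_lit 130) (nat_lit 99))) (PT.nd (nat_lit 78) (PT.lf (nat_lit 1520) (nat_lit 6) (nat_lit 20) (nat_lit 0) (nat_lit 132) (nat_lit 130) (nat_lit 98)) (PT.nd (nat_lit 34554) (PT.lf (nat_lit 1292) (nat_lit 6) (nat_lit 17) (nat_lit 0) (nat_lit 133) (nat_lit 130) (nat_lit 97)) (PT.lf (nat_lit 988) (nat_lit 6) (nat_lit 13) (nat_lit 5) (nat_lit 95) (nat_lit 131) (nat_lit 134))))) (PT.nd (nat_lit 156) (PT.nd (nat_lit 78) (PT.lf (nat_lit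 1140) (nat_lit 6) (nat_lit 15) (nat_lit 5) (nat_lit 96) (nat_lit 131) (nat_lit 133)) (PT.lf (nat_lit 1368) (nat_lit 6) (nat_lit 18) (nat_lit 5) (nat_lit 97) (nat_lit 131) (nat_lit 132))) (PT.nd (nat_lit 78) (PT.lf (nat_lit 1596) (nat_lit 3) (nat_lit 21) (nat_lit 4) (nat_lit 98) (nat_lit 131) (nat_lit 131)) (PT.nd (nat_lit 78) (PT.lf (nat_lit 1748) (nat_lit 6) (nat_lit 23) (nat_lit 4) (nat_lit 99) (nat_lit 131) (nat_lit 130)) (PT.lf (nat_lit 1900) (nat_lit 6) (nat_lit 25) (nat_lit 4) (nat_lit 100) (nat_lit 131) (nat_lit 129))))))))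
noncomputable def pc14 : PT := (PT.nd (nat_lit 37362) (PT.nd (nat_lit 2262) (PT.nd (nat_lit 1872) (PT.nd (nat_lit 156) (PT.nd (nat_lit 78) (PT.lf (nat_lit 2128) (nat_lit 6) (nat_lit 28) (nat_lit 4) (nat_lit 101) (nat_lit 131) (nat_lit 128)) (PT.lf (nat_lit 2280) (nat_lit 6) (nat_lit 30) (nat_lit 4) (nat_lit 102) (nat_lit 131) (nat_lit 127))) (PT.nd (nat_lit 78) (PT.lf (nat_lit 2508) (nat_lit 6) (nat_lit 33) (nat_lit 4) (nat_lit 103) (nat_lit 131) (nat_lit 126)) (PT.lf (nat_lit 2736) (nat_lit 6) (nat_lit 36) (nat_lit 4) (nat_lit 104) (nat_lit 131) (nat_lit 125)))) (PT.nd (nat_lit 156) (PT.nd (nat_lit 78) (PT.lf (nat_lit 2736) (nat_lit 6) (nat_lit 36) (nat_lit 2) (nat_lit 125) (nat_lit 131) (nat_lit 104)) (PT.lf (nat_lit 2508) (nat_lit 6) (nat_lit 33) (nat_lit 2) (nat_lit 126) (nat_lit 131) (nat_lit 103))) (PT.nd (nat_lit 78) (PT.lf (nat_lit 2280) (nat_lit 6) (nat_lit 30) (nat_lit 2)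 (nat_lit 127) (nat_lit 131) (nat_lit 102)) (PT.nd (nat_lit 78) (PT.lf (nat_lit 2128) (nat_lit 6) (nat_lit 28) (nat_lit 2) (nat_lit 128) (nat_lit 131) (nat_lit 101)) (PT.lf (nat_lit 1900) (nat_lit 6) (nat_lit 25) (nat_lit 2) (nat_lit 129) (nat_lit 131) (nat_lit 100)))))) (PT.nd (nat_lit 34710) (PT.nd (nat_lit 156) (PT.nd (nat_lit 78) (PT.lf (nat_lit 1748) (nat_lit 6) (nat_lit 23) (nat_lit 2) (nat_lit 130) (nat_lit 131) (nat_lit 99)) (PT.lf (nat_lit 1596) (nat_lit 3) (nat_lit 21) (nat_lit 0) (nat_lit 131) (nat_lit 131) (nat_lit 98))) (PT.nd (nat_lit 78) (PT.lf (nat_lit 1368) (nat_lit 6) (nat_lit 18) (nat_lit 0) (nat_lit 132) (nat_lit 131) (nat_lit 97)) (PT.nd (nat_lit 78) (PT.lf (nat_lit 1140) (nat_lit 6) (nat_lit 15) (nat_lit 0) (nat_lit 133) (nat_lit 131) (nat_lit 96)) (PT.lf (nat_lit 988) (nat_lit 6) (nat_lit 13) (nat_lit 0) (nat_lit 134) (nat_lit 131) (nat_lit 95))))) (PT.nd (nat_lit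 156) (PT.nd (nat_lit 78) (PT.lf (nat_lit 836) (nat_lit 6) (nat_lit 11) (nat_lit 5) (nat_lit 94) (nat_lit 132) (nat_lit 134)) (PT.lf (nat_lit 1064) (nat_lit 6) (nat_lit 14) (nat_lit 5) (nat_lit 95) (nat_lit 132) (nat_lit 133))) (PT.nd (nat_lit 78) (PT.lf (nat_lit 1216) (nat_lit 3) (nat_lit 16) (nat_lit 4) (nat_lit 96) (nat_lit 132) (nat_lit 132)) (PT.nd (nat_lit 78) (PT.lf (nat_lit 1368) (nat_lit 6) (nat_lit 18) (nat_lit 4) (nat_lit 97) (nat_lit 132) (nat_lit 131)) (PT.lf (nat_lit 1520) (nat_lit 6) (nat_lit 20) (nat_lit 4) (nat_lit 98) (nat_lit 132) (nat_lit 130))))))) (PT.nd (nat_lit 2730) (PT.nd (nat_lit 2340) (PT.nd (nat_lit 156) (PT.nd (nat_lit 78) (PT.lf (nat_lit 1672) (nat_lit 6) (nat_lit 22) (nat_lit 4) (nat_lit 99) (nat_lit 132) (nat_lit 129)) (PT.lf (nat_lit 1824) (nat_lit 6) (nat_lit 24) (nat_lit 4) (nat_lit 100) (nat_lit 132) (nat_lit 128))) (PT.nd (nat_lit 2028) (PT.lf (nat_lit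 2052) (nat_lit 6) (nat_lit 27) (nat_lit 4) (nat_lit 101) (nat_lit 132) (nat_lit 127)) (PT.nd (nat_lit 78) (PT.lf (nat_lit 2052) (nat_lit 6) (nat_lit 27) (nat_lit 2) (nat_lit 127) (nat_lit 132) (nat_lit 101)) (PT.lf (nat_lit 1824) (nat_lit 6) (nat_lit 24) (nat_lit 2) (nat_lit 128) (nat_lit 132) (nat_lit 100))))) (PT.nd (nat_lit 156) (PT.nd (nat_lit 78) (PT.lf (nat_lit 1672) (nat_lit 6) (nat_lit 22) (nat_lit 2) (nat_lit 129) (nat_lit 132) (nat_lit 99)) (PT.lf (nat_lit 1520) (nat_lit 6) (nat_lit 20) (nat_lit 2) (nat_lit 130) (nat_lit 132) (nat_lit 98))) (PT.nd (nat_lit 78) (PT.lf (nat_lit 1368) (nat_lit 6) (nat_lit 18) (nat_lit 2) (nat_lit 131) (nat_lit 132) (nat_lit 97)) (PT.nd (nat_lit 78) (PT.lf (nat_lit 1216) (nat_lit 3) (nat_lit 16) (nat_lit 0) (nat_lit 132) (nat_lit 132) (nat_lit 96)) (PT.lf (nat_lit 1064) (nat_lit 6) (nat_lit 14) (nat_lit 0) (nat_lit 133) (nat_lit 132) (nat_lit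 95)))))) (PT.nd (nat_lit 34554) (PT.nd (nat_lit 34320) (PT.nd (nat_lit 34242) (PT.lf (nat_lit 836) (nat_lit 6) (nat_lit 11) (nat_lit 0) (nat_lit 134) (nat_lit 132) (nat_lit 94)) (PT.lf (nat_lit 608) (nat_lit 6) (nat_lit 8) (nat_lit 5) (nat_lit 92) (nat_lit 133) (nat_lit 135))) (PT.nd (nat_lit 78) (PT.lf (nat_lit 760) (nat_lit 6) (nat_lit 10) (nat_lit 5) (nat_lit 93) (nat_lit 133) (nat_lit 134)) (PT.nd (nat_lit 78) (PT.lf (nat_lit 912) (nat_lit 3) (nat_lit 12) (nat_lit 4) (nat_lit 94) (nat_lit 133) (nat_lit 133)) (PT.lf (nat_lit 1064) (nat_lit 6) (nat_lit 14) (nat_lit 4) (nat_lit 95) (nat_lit 133) (nat_lit 132))))) (PT.nd (nat_lit 156) (PT.nd (nat_lit 78) (PT.lf (nat_lit 1140) (nat_lit 6) (nat_lit 15) (nat_lit 4) (nat_lit 96) (nat_lit 133) (nat_lit 131)) (PT.lf (nat_lit 1292) (nat_lit 6) (nat_lit 17) (nat_lit 4) (nat_lit 97) (nat_lit 133) (nat_lit 130))) (PT.nd (nat_lit 2418) (PT.lf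 (nat_lit 1444) (nat_lit 6) (nat_lit 19) (nat_lit 4) (nat_lit 98) (nat_lit 133) (nat_lit 129)) (PT.nd (nat_lit 78) (PT.lf (nat_lit 1444) (nat_lit 6) (nat_lit 19) (nat_lit 2) (nat_lit 129) (nat_lit 133) (nat_lit 98)) (PT.lf (nat_lit 1292) (nat_lit 6) (nat_lit 17) (nat_lit 2) (nat_lit 130) (nat_lit 133) (nat_lit 97))))))))
noncomputable def pc15 : PT := (PT.nd (nat_lit 71838) (PT.nd (nat_lit 34632) (PT.nd (nat_lit 312) (PT.nd (nat_lit 156) (PT.nd (nat_lit 78) (PT.lf (nat_lit 1140) (nat_lit 6) (nat_lit 15) (nat_lit 2) (nat_lit 131) (nat_lit 133) (nat_lit 96)) (PT.lf (nat_lit 1064) (nat_lit 6) (nat_lit 14) (nat_lit 2) (nat_lit 132) (nat_lit 133) (nat_lit 95))) (PT.nd (nat_lit 78) (PT.lf (nat_lit 912) (nat_lit 3) (nat_lit 12) (nat_lit 0) (nat_lit 133) (nat_lit 133) (nat_lit 94)) (PT.lf (nat_lit 760) (nat_lit 6) (nat_lit 10) (nat_lit 0) (nat_lit 134) (nat_lit 133) (nat_lit 93)))) (PT.nd (nat_lit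 34086) (PT.nd (nat_lit 34008) (PT.lf (nat_lit 608) (nat_lit 6) (nat_lit 8) (nat_lit 0) (nat_lit 135) (nat_lit 133) (nat_lit 92)) (PT.lf (nat_lit 380) (nat_lit 6) (nat_lit 5) (nat_lit 5) (nat_lit 90) (nat_lit 134) (nat_lit 136))) (PT.nd (nat_lit 78) (PT.lf (nat_lit 532) (nat_lit 6) (nat_lit 7) (nat_lit 5) (nat_lit 91) (nat_lit 134) (nat_lit 135)) (PT.nd (nat_lit 78) (PT.lf (nat_lit 684) (nat_lit 3) (nat_lit 9) (nat_lit 4) (nat_lit 92) (nat_lit 134) (nat_lit 134)) (PT.lf (nat_lit 760) (nat_lit 6) (nat_lit 10) (nat_lit 4) (nat_lit 93) (nat_lit 134) (nat_lit 133)))))) (PT.nd (nat_lit 3120) (PT.nd (nat_lit 2886) (PT.nd (nat_lit 78) (PT.lf (nat_lit 836) (nat_lit 6) (nat_lit 11) (nat_lit 4) (nat_lit 94) (nat_lit 134) (nat_lit 132)) (PT.lf (nat_lit 988) (nat_lit 6) (nat_lit 13) (nat_lit 4) (nat_lit 95) (nat_lit 134) (nat_lit 131))) (PT.nd (nat_lit 78) (PT.lf (nat_lit 988) (nat_lit 6) (nat_lit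 13) (nat_lit 2) (nat_lit 131) (nat_lit 134) (nat_lit 95)) (PT.nd (nat_lit 78) (PT.lf (nat_lit 836) (nat_lit 6) (nat_lit 11) (nat_lit 2) (nat_lit 132) (nat_lit 134) (nat_lit 94)) (PT.lf (nat_lit 760) (nat_lit 6) (nat_lit 10) (nat_lit 2) (nat_lit 133) (nat_lit 134) (nat_lit 93))))) (PT.nd (nat_lit 156) (PT.nd (nat_lit 78) (PT.lf (nat_lit 684) (nat_lit 3) (nat_lit 9) (nat_lit 0) (nat_lit 134) (nat_lit 134) (nat_lit 92)) (PT.lf (nat_lit 532) (nat_lit 6) (nat_lit 7) (nat_lit 0) (nat_lit 135) (nat_lit 134) (nat_lit 91))) (PT.nd (nat_lit 33774) (PT.lf (nat_lit 380) (nat_lit 6) (nat_lit 5) (nat_lit 0) (nat_lit 136) (nat_lit 134) (nat_lit 90)) (PT.nd (nat_lit 78) (PT.lf (nat_lit 152) (nat_lit 6) (nat_lit 2) (nat_lit 5) (nat_lit 88) (nat_lit 135) (nat_lit 137)) (PT.lf (nat_lit 304) (nat_lit 6) (nat_lit 4) (nat_lit 5) (nat_lit 89) (nat_lit 135) (nat_lit 136))))))) (PT.nd (nat_lit 37440) (PT.nd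 (nat_lit 3510) (PT.nd (nat_lit 156) (PT.nd (nat_lit 78) (PT.lf (nat_lit 456) (nat_lit 3) (nat_lit 6) (nat_lit 4) (nat_lit 90) (nat_lit 135) (nat_lit 135)) (PT.lf (nat_lit 532) (nat_lit 6) (nat_lit 7) (nat_lit 4) (nat_lit 91) (nat_lit 135) (nat_lit 134))) (PT.nd (nat_lit 3198) (PT.lf (nat_lit 608) (nat_lit 6) (nat_lit 8) (nat_lit 4) (nat_lit 92) (nat_lit 135) (nat_lit 133)) (PT.nd (nat_lit 78) (PT.lf (nat_lit 608) (nat_lit 6) (nat_lit 8) (nat_lit 2) (nat_lit 133) (nat_lit 135) (nat_lit 92)) (PT.lf (nat_lit 532) (nat_lit 6) (nat_lit 7) (nat_lit 2) (nat_lit 134) (nat_lit 135) (nat_lit 91))))) (PT.nd (nat_lit 156) (PT.nd (nat_lit 78) (PT.lf (nat_lit 456) (nat_lit 3) (nat_lit 6) (nat_lit 0) (nat_lit 135) (nat_lit 135) (nat_lit 90)) (PT.lf (nat_lit 304) (nat_lit 6) (nat_lit 4) (nat_lit 0) (nat_lit 136) (nat_lit 135) (nat_lit 89))) (PT.nd (nat_lit 33618) (PT.lf (nat_lit 152) (nat_lit 6) (nat_lit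 2) (nat_lit 0) (nat_lit 137) (nat_lit 135) (nat_lit 88)) (PT.nd (nat_lit 78) (PT.lf (nat_lit 76) (nat_lit 6) (nat_lit 1) (nat_lit 5) (nat_lit 87) (nat_lit 136) (nat_lit 137)) (PT.lf (nat_lit 228) (nat_lit 3) (nat_lit 3) (nat_lit 4) (nat_lit 88) (nat_lit 136) (nat_lit 136)))))) (PT.nd (nat_lit 3744) (PT.nd (nat_lit 3510) (PT.nd (nat_lit 78) (PT.lf (nat_lit 304) (nat_lit 6) (nat_lit 4) (nat_lit 4) (nat_lit 89) (nat_lit 136) (nat_lit 135)) (PT.lf (nat_lit 380) (nat_lit 6) (nat_lit 5) (nat_lit 4) (nat_lit 90) (nat_lit 136) (nat_lit 134))) (PT.nd (nat_lit 78) (PT.lf (nat_lit 380) (nat_lit 6) (nat_lit 5) (nat_lit 2) (nat_lit 134) (nat_lit 136) (nat_lit 90)) (PT.nd (nat_lit 78) (PT.lf (nat_lit 304) (nat_lit 6) (nat_lit 4) (nat_lit 2) (nat_lit 135) (nat_lit 136) (nat_lit 89)) (PT.lf (nat_lit 228) (nat_lit 3) (nat_lit 3) (nat_lit 0) (nat_lit 136) (nat_lit 136) (nat_lit 88))))) (PT.nd (nat_lit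 33696) (PT.nd (nat_lit 33618) (PT.lf (nat_lit 76) (nat_lit 6) (nat_lit 1) (nat_lit 0) (nat_lit 137) (nat_lit 136) (nat_lit 87)) (PT.lf (nat_lit 76) (nat_lit 6) (nat_lit 1) (nat_lit 4) (nat_lit 87) (nat_lit 137) (nat_lit 136))) (PT.nd (nat_lit 3666) (PT.lf (nat_lit 152) (nat_lit 6) (nat_lit 2) (nat_lit 4) (nat_lit 88) (nat_lit 137) (nat_lit 135)) (PT.nd (nat_lit 78) (PT.lf (nat_lit 152) (nat_lit 6) (nat_lit 2) (nat_lit 2) (nat_lit 135) (nat_lit 137) (nat_lit 88)) (PT.lf (nat_lit 76) (nat_lit 6) (nat_lit 1) (nat_lit 2) (nat_lit 136) (nat_lit 137) (nat_lit 87))))))))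
noncomputable def xc0 : XT := (XT.nd (nat_lit 112476) (nat_lit 0) (nat_lit 0) (XT.nd (nat_lit 74880) (nat_lit 0) (nat_lit 0) (XT.nd (nat_lit 37518) (nat_lit 0) (nat_lit 0) (XT.nd (nat_lit 37362) (nat_lit 0) (nat_lit 0) (XT.nd (nat_lit 37284) (nat_lit 0) (nat_lit 0) (XT.lf (nat_lit 0) (nat_lit 175049834482) (nat_lit 152) (nat_lit 269502824289) (nat_lit 0) (nat_lit 174990598414) (nat_lit 1) (nat_lit 5) (nat_lit 3) (nat_lit 4) (nat_lit 1) (nat_lit 4) (nat_lit 365) (nat_lit 178) (nat_lit 177)) (XT.lf (nat_lit 0) (nat_lit 74633564685) (nat_lit 152) (nat_lit 118381030894) (nat_lit 0) (nat_lit 74633564685) (nat_lit 1) (nat_lit 5) (nat_lit 3) (nat_lit 4) (nat_lit 1) (nat_lit 4) (nat_lit 362) (nat_lit 179) (nat_lit 179))) (XT.nd (nat_lit 78) (nat_lit 0) (nat_lit 0) (XT.lf (nat_lit 0) (nat_lit 157482081893) (nat_lit 152) (nat_lit 247117348054) (nat_lit 0) (nat_lit 157419884021) (nat_lit 1) (nat_lit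 5) (nat_lit 3) (nat_lit 4) (nat_lit 1) (nat_lit 4) (nat_lit 363) (nat_lit 179) (nat_lit 178)) (XT.lf (nat_lit 0) (nat_lit 166082057727) (nat_lit 152) (nat_lit 258037092559) (nat_lit 0) (nat_lit 165960623788) (nat_lit 1) (nat_lit 5) (nat_lit 3) (nat_lit 4) (nat_lit 1) (nat_lit 4) (nat_lit 364) (nat_lit 179) (nat_lit 177)))) (XT.nd (nat_lit 37206) (nat_lit 0) (nat_lit 0) (XT.nd (nat_lit 37128) (nat_lit 0) (nat_lit 0) (XT.lf (nat_lit 0) (nat_lit 175087533007) (nat_lit 152) (nat_lit 269547294694) (nat_lit 0) (nat_lit 174909683765) (nat_lit 1) (nat_lit 5) (nat_lit 3) (nat_lit 4) (nat_lit 1) (nat_lit 4) (nat_lit 365) (nat_lit 179) (nat_lit 176)) (XT.lf (nat_lit 0) (nat_lit 66997034599) (nat_lit 152) (nat_lit 108811207609) (nat_lit 0) (nat_lit 66997034599) (nat_lit 1) (nat_lit 5) (nat_lit 3) (nat_lit 4) (nat_lit 1) (nat_lit 4) (nat_lit 360) (nat_lit 180) (nat_lit 180))) (XT.nd (nat_lit 78)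 (nat_lit 0) (nat_lit 0) (XT.lf (nat_lit 0) (nat_lit 141482948514) (nat_lit 152) (nat_lit 226946578315) (nat_lit 0) (nat_lit 141417640749) (nat_lit 1) (nat_lit 5) (nat_lit 3) (nat_lit 4) (nat_lit 1) (nat_lit 4) (nat_lit 361) (nat_lit 180) (nat_lit 179)) (XT.lf (nat_lit 0) (nat_lit 149319261267) (nat_lit 152) (nat_lit 236785978188) (nat_lit 0) (nat_lit 149191755631) (nat_lit 1) (nat_lit 5) (nat_lit 3) (nat_lit 4) (nat_lit 1) (nat_lit 4) (nat_lit 362) (nat_lit 180) (nat_lit 178))))) (XT.nd (nat_lit 37206) (nat_lit 0) (nat_lit 0) (XT.nd (nat_lit 156) (nat_lit 0) (nat_lit 0) (XT.nd (nat_lit 78) (nat_lit 0) (nat_lit 0) (XT.lf (nat_lit 0) (nat_lit 157521665344) (nat_lit 152) (nat_lit 247164041979) (nat_lit 0) (nat_lit 157334923639) (nat_lit 1) (nat_lit 5) (nat_lit 3) (nat_lit 4) (nat_lit 1) (nat_lit 4) (nat_lit 363) (nat_lit 180) (nat_lit 177)) (XT.lf (nat_lit 0) (nat_lit 166109690278) (nat_lit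 152) (nat_lit 258105479364) (nat_lit 0) (nat_lit 165866533270) (nat_lit 1) (nat_lit 5) (nat_lit 3) (nat_lit 4) (nat_lit 1) (nat_lit 4) (nat_lit 364) (nat_lit 180) (nat_lit 176))) (XT.nd (nat_lit 36972) (nat_lit 0) (nat_lit 0) (XT.lf (nat_lit 0) (nat_lit 175103783748) (nat_lit 152) (nat_lit 269636341384) (nat_lit 0) (nat_lit 174806897880) (nat_lit 1) (nat_lit 5) (nat_lit 3) (nat_lit 4) (nat_lit 1) (nat_lit 4) (nat_lit 365) (nat_lit 180) (nat_lit 175)) (XT.lf (nat_lit 0) (nat_lit 60035586265) (nat_lit 152) (nat_lit 100202901930) (nat_lit 0) (nat_lit 60035586265) (nat_lit 1) (nat_lit 5) (nat_lit 3) (nat_lit 4) (nat_lit 1) (nat_lit 4) (nat_lit 358) (nat_lit 181) (nat_lit 181)))) (XT.nd (nat_lit 156) (nat_lit 0) (nat_lit 0) (XT.nd (nat_lit 78) (nat_lit 0) (nat_lit 0) (XT.lf (nat_lit 0) (nat_lit 126903365806) (nat_lit 152) (nat_lit 208791288508) (nat_lit 0) (nat_lit 126834792652) (nat_lit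 1) (nat_lit 5) (nat_lit 3) (nat_lit 4) (nat_lit 1) (nat_lit 4) (nat_lit 359) (nat_lit 181) (nat_lit 180)) (XT.lf (nat_lit 0) (nat_lit 134048807689) (nat_lit 152) (nat_lit 217647527438) (nat_lit 0) (nat_lit 133914926771) (nat_lit 1) (nat_lit 5) (nat_lit 3) (nat_lit 4) (nat_lit 1) (nat_lit 4) (nat_lit 360) (nat_lit 181) (nat_lit 179))) (XT.nd (nat_lit 78) (nat_lit 0) (nat_lit 0) (XT.lf (nat_lit 0) (nat_lit 141524511138) (nat_lit 152) (nat_lit 226995606936) (nat_lit 0) (nat_lit 141328432348) (nat_lit 1) (nat_lit 5) (nat_lit 3) (nat_lit 4) (nat_lit 1) (nat_lit 4) (nat_lit 361) (nat_lit 181) (nat_lit 178)) (XT.nd (nat_lit 78) (nat_lit 0) (nat_lit 0) (XT.lf (nat_lit 0) (nat_lit 149348275445) (nat_lit 152) (nat_lit 236857784333) (nat_lit 0) (nat_lit 149092960587) (nat_lit 1) (nat_lit 5) (nat_lit 3) (nat_lit 4) (nat_lit 1) (nat_lit 4) (nat_lit 362) (nat_lit 181) (nat_lit 177)) (XT.lf (nat_lit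 0) (nat_lit 157538728621) (nat_lit 152) (nat_lit 247257541004) (nat_lit 0) (nat_lit 157226998460) (nat_lit 1) (nat_lit 5) (nat_lit 3) (nat_lit 4) (nat_lit 1) (nat_lit 4) (nat_lit 363) (nat_lit 181) (nat_lit 176))))))) (XT.nd (nat_lit 37440) (nat_lit 0) (nat_lit 0) (XT.nd (nat_lit 37050) (nat_lit 0) (nat_lit 0) (XT.nd (nat_lit 36894) (nat_lit 0) (nat_lit 0) (XT.nd (nat_lit 78) (nat_lit 0) (nat_lit 0) (XT.lf (nat_lit 0) (nat_lit 166115371745) (nat_lit 152) (nat_lit 258219638275) (nat_lit 0) (nat_lit 165749912724) (nat_lit 1) (nat_lit 5) (nat_lit 3) (nat_lit 4) (nat_lit 1) (nat_lit 4) (nat_lit 364) (nat_lit 181) (nat_lit 175)) (XT.lf (nat_lit 0) (nat_lit 175098625395) (nat_lit 152) (nat_lit 269770176377) (nat_lit 0) (nat_lit 174681996032) (nat_lit 1) (nat_lit 5) (nat_lit 3) (nat_lit 4) (nat_lit 1) (nat_lit 4) (nat_lit 365) (nat_lit 181) (nat_lit 174))) (XT.nd (nat_lit 78) (nat_lit 0) (nat_lit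 0) (XT.lf (nat_lit 0) (nat_lit 53684712459) (nat_lit 152) (nat_lit 92470311373) (nat_lit 0) (nat_lit 53684712459) (nat_lit 1) (nat_lit 5) (nat_lit 3) (nat_lit 4) (nat_lit 1) (nat_lit 4) (nat_lit 356) (nat_lit 182) (nat_lit 182)) (XT.lf (nat_lit 0) (nat_lit 113607962546) (nat_lit 152) (nat_lit 192471108060) (nat_lit 0) (nat_lit 113535960735) (nat_lit 1) (nat_lit 5) (nat_lit 3) (nat_lit 4) (nat_lit 1) (nat_lit 4) (nat_lit 357) (nat_lit 182) (nat_lit 181)))) (XT.nd (nat_lit 156) (nat_lit 0) (nat_lit 0) (XT.nd (nat_lit 78) (nat_lit 0) (nat_lit 0) (XT.lf (nat_lit 0) (nat_lit 120128647946) (nat_lit 152) (nat_lit 200432171693) (nat_lit 0) (nat_lit 119988072982) (nat_lit 1) (nat_lit 5) (nat_lit 3) (nat_lit 4) (nat_lit 1) (nat_lit 4) (nat_lit 358) (nat_lit 182) (nat_lit 180)) (XT.lf (nat_lit 0) (nat_lit 126947006561) (nat_lit 152) (nat_lit 208842768559) (nat_lit 0) (nat_lit 126741123831) (nat_lit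 1) (nat_lit 5) (nat_lit 3) (nat_lit 4) (nat_lit 1) (nat_lit 4) (nat_lit 359) (nat_lit 182) (nat_lit 179))) (XT.nd (nat_lit 78) (nat_lit 0) (nat_lit 0) (XT.lf (nat_lit 0) (nat_lit 134079272576) (nat_lit 152) (nat_lit 217722923890) (nat_lit 0) (nat_lit 133811191976) (nat_lit 1) (nat_lit 5) (nat_lit 3) (nat_lit 4) (nat_lit 1) (nat_lit 4) (nat_lit 360) (nat_lit 182) (nat_lit 178)) (XT.nd (nat_lit 78) (nat_lit 0) (nat_lit 0) (XT.lf (nat_lit 0) (nat_lit 141542427579) (nat_lit 152) (nat_lit 227093780912) (nat_lit 0) (nat_lit 141215110910) (nat_lit 1) (nat_lit 5) (nat_lit 3) (nat_lit 4) (nat_lit 1) (nat_lit 4) (nat_lit 361) (nat_lit 182) (nat_lit 177)) (XT.lf (nat_lit 0) (nat_lit 149354240985) (nat_lit 152) (nat_lit 236977651189) (nat_lit 0) (nat_lit 148970509014) (nat_lit 1) (nat_lit 5) (nat_lit 3) (nat_lit 4) (nat_lit 1) (nat_lit 4) (nat_lit 362) (nat_lit 182) (nat_lit 176)))))) (XT.nd (nat_lit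 36894) (nat_lit 0) (nat_lit 0) (XT.nd (nat_lit 156) (nat_lit 0) (nat_lit 0) (XT.nd (nat_lit 78) (nat_lit 0) (nat_lit 0) (XT.lf (nat_lit 0) (nat_lit 157533312351) (nat_lit 152) (nat_lit 247398067746) (nat_lit 0) (nat_lit 157095851520) (nat_lit 1) (nat_lit 5) (nat_lit 3) (nat_lit 4) (nat_lit 1) (nat_lit 4) (nat_lit 363) (nat_lit 182) (nat_lit 175)) (XT.lf (nat_lit 0) (nat_lit 166099115656) (nat_lit 152) (nat_lit 258379841099) (nat_lit 0) (nat_lit 165610484482) (nat_lit 1) (nat_lit 5) (nat_lit 3) (nat_lit 4) (nat_lit 1) (nat_lit 4) (nat_lit 364) (nat_lit 182) (nat_lit 174))) (XT.nd (nat_lit 36660) (nat_lit 0) (nat_lit 0) (XT.lf (nat_lit 0) (nat_lit 175072045669) (nat_lit 152) (nat_lit 269949118326) (nat_lit 0) (nat_lit 174534680835) (nat_lit 1) (nat_lit 5) (nat_lit 3) (nat_lit 4) (nat_lit 1) (nat_lit 4) (nat_lit 365) (nat_lit 182) (nat_lit 173)) (XT.lf (nat_lit 0) (nat_lit 47885816001)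 (nat_lit 152) (nat_lit 85535790067) (nat_lit 0) (nat_lit 47885816001) (nat_lit 1) (nat_lit 5) (nat_lit 3) (nat_lit 4) (nat_lit 1) (nat_lit 4) (nat_lit 354) (nat_lit 183) (nat_lit 183)))) (XT.nd (nat_lit 156) (nat_lit 0) (nat_lit 0) (XT.nd (nat_lit 78) (nat_lit 0) (nat_lit 0) (XT.lf (nat_lit 0) (nat_lit 101473783303) (nat_lit 152) (nat_lit 177822786026) (nat_lit 0) (nat_lit 101398181402) (nat_lit 1) (nat_lit 5) (nat_lit 3) (nat_lit 4) (nat_lit 1) (nat_lit 4) (nat_lit 355) (nat_lit 183) (nat_lit 182)) (XT.lf (nat_lit 0) (nat_lit 107429774105) (nat_lit 152) (nat_lit 184968308969) (nat_lit 0) (nat_lit 107282170393) (nat_lit 1) (nat_lit 5) (nat_lit 3) (nat_lit 4) (nat_lit 1) (nat_lit 4) (nat_lit 356) (nat_lit 183) (nat_lit 181))) (XT.nd (nat_lit 78) (nat_lit 0) (nat_lit 0) (XT.lf (nat_lit 0) (nat_lit 113653785338) (nat_lit 152) (nat_lit 192525162114) (nat_lit 0) (nat_lit 113437608473) (nat_lit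 1) (nat_lit 5) (nat_lit 3) (nat_lit 4) (nat_lit 1) (nat_lit 4) (nat_lit 357) (nat_lit 183) (nat_lit 180)) (XT.nd (nat_lit 78) (nat_lit 0) (nat_lit 0) (XT.lf (nat_lit 0) (nat_lit 120160636077) (nat_lit 152) (nat_lit 200511337968) (nat_lit 0) (nat_lit 119879151447) (nat_lit 1) (nat_lit 5) (nat_lit 3) (nat_lit 4) (nat_lit 1) (nat_lit 4) (nat_lit 358) (nat_lit 183) (nat_lit 179)) (XT.lf (nat_lit 0) (nat_lit 126965818824) (nat_lit 152) (nat_lit 208945851235) (nat_lit 0) (nat_lit 126622136322) (nat_lit 1) (nat_lit 5) (nat_lit 3) (nat_lit 4) (nat_lit 1) (nat_lit 4) (nat_lit 359) (nat_lit 183) (nat_lit 178))))))))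
noncomputable def xc1 : XT := (XT.nd (nat_lit 37752) (nat_lit 0) (nat_lit 0) (XT.nd (nat_lit 37050) (nat_lit 0) (nat_lit 0) (XT.nd (nat_lit 312) (nat_lit 0) (nat_lit 0) (XT.nd (nat_lit 156) (nat_lit 0) (nat_lit 0) (XT.nd (nat_lit 78) (nat_lit 0) (nat_lit 0) (XT.lf (nat_lit 0) (nat_lit 134085536394) (nat_lit 152) (nat_lit 217848784090) (nat_lit 0) (nat_lit 133682617824) (nat_lit 1) (nat_lit 5) (nat_lit 3) (nat_lit 4) (nat_lit 1) (nat_lit 4) (nat_lit 360) (nat_lit 183) (nat_lit 177)) (XT.lf (nat_lit 0) (nat_lit 141536740496) (nat_lit 152) (nat_lit 227241333991) (nat_lit 0) (nat_lit 141077406623) (nat_lit 1) (nat_lit 5) (nat_lit 3) (nat_lit 4) (nat_lit 1) (nat_lit 4) (nat_lit 361) (nat_lit 183) (nat_lit 176))) (XT.nd (nat_lit 78) (nat_lit 0) (nat_lit 0) (XT.lf (nat_lit 0) (nat_lit 149337172092) (nat_lit 152) (nat_lit 237145864155) (nat_lit 0) (nat_lit 148824109359) (nat_lit 1) (nat_lit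 5) (nat_lit 3) (nat_lit 4) (nat_lit 1) (nat_lit 4) (nat_lit 362) (nat_lit 183) (nat_lit 175)) (XT.lf (nat_lit 0) (nat_lit 157505403638) (nat_lit 152) (nat_lit 247585956793) (nat_lit 0) (nat_lit 156941170563) (nat_lit 1) (nat_lit 5) (nat_lit 3) (nat_lit 4) (nat_lit 1) (nat_lit 4) (nat_lit 363) (nat_lit 183) (nat_lit 174)))) (XT.nd (nat_lit 36582) (nat_lit 0) (nat_lit 0) (XT.nd (nat_lit 78) (nat_lit 0) (nat_lit 0) (XT.lf (nat_lit 0) (nat_lit 166060883306) (nat_lit 152) (nat_lit 258586469271) (nat_lit 0) (nat_lit 165447916570) (nat_lit 1) (nat_lit 5) (nat_lit 3) (nat_lit 4) (nat_lit 1) (nat_lit 4) (nat_lit 364) (nat_lit 183) (nat_lit 173)) (XT.lf (nat_lit 0) (nat_lit 175023981283) (nat_lit 152) (nat_lit 270173593285) (nat_lit 0) (nat_lit 174364601538) (nat_lit 1) (nat_lit 5) (nat_lit 3) (nat_lit 4) (nat_lit 1) (nat_lit 4) (nat_lit 365) (nat_lit 183) (nat_lit 172))) (XT.nd (nat_lit 78)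 (nat_lit 0) (nat_lit 0) (XT.lf (nat_lit 0) (nat_lit 42585655934) (nat_lit 152) (nat_lit 79329099412) (nat_lit 0) (nat_lit 42585655934) (nat_lit 1) (nat_lit 5) (nat_lit 3) (nat_lit 4) (nat_lit 1) (nat_lit 4) (nat_lit 352) (nat_lit 184) (nat_lit 184)) (XT.lf (nat_lit 0) (nat_lit 90389125647) (nat_lit 152) (nat_lit 164698616995) (nat_lit 0) (nat_lit 90309743651) (nat_lit 1) (nat_lit 5) (nat_lit 3) (nat_lit 4) (nat_lit 1) (nat_lit 4) (nat_lit 353) (nat_lit 184) (nat_lit 183))))) (XT.nd (nat_lit 312) (nat_lit 0) (nat_lit 0) (XT.nd (nat_lit 156) (nat_lit 0) (nat_lit 0) (XT.nd (nat_lit 78) (nat_lit 0) (nat_lit 0) (XT.lf (nat_lit 0) (nat_lit 95834998648) (nat_lit 152) (nat_lit 171100650669) (nat_lit 0) (nat_lit 95680014750) (nat_lit 1) (nat_lit 5) (nat_lit 3) (nat_lit 4) (nat_lit 1) (nat_lit 4) (nat_lit 354) (nat_lit 184) (nat_lit 182)) (XT.lf (nat_lit 0) (nat_lit 101521897235) (nat_lit 152)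 (nat_lit 177879542783) (nat_lit 0) (nat_lit 101294911526) (nat_lit 1) (nat_lit 5) (nat_lit 3) (nat_lit 4) (nat_lit 1) (nat_lit 4) (nat_lit 355) (nat_lit 184) (nat_lit 181))) (XT.nd (nat_lit 78) (nat_lit 0) (nat_lit 0) (XT.lf (nat_lit 0) (nat_lit 107463361643) (nat_lit 152) (nat_lit 185051433558) (nat_lit 0) (nat_lit 107167802781) (nat_lit 1) (nat_lit 5) (nat_lit 3) (nat_lit 4) (nat_lit 1) (nat_lit 4) (nat_lit 356) (nat_lit 184) (nat_lit 180)) (XT.lf (nat_lit 0) (nat_lit 113673538215) (nat_lit 152) (nat_lit 192633398923) (nat_lit 0) (nat_lit 113312671587) (nat_lit 1) (nat_lit 5) (nat_lit 3) (nat_lit 4) (nat_lit 1) (nat_lit 4) (nat_lit 357) (nat_lit 184) (nat_lit 179)))) (XT.nd (nat_lit 156) (nat_lit 0) (nat_lit 0) (XT.nd (nat_lit 78) (nat_lit 0) (nat_lit 0) (XT.lf (nat_lit 0) (nat_lit 120167213086) (nat_lit 152) (nat_lit 200643491177) (nat_lit 0) (nat_lit 119744148587) (nat_lit 1) (nat_lit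 5) (nat_lit 3) (nat_lit 4) (nat_lit 1) (nat_lit 4) (nat_lit 358) (nat_lit 184) (nat_lit 178)) (XT.lf (nat_lit 0) (nat_lit 126959847386) (nat_lit 152) (nat_lit 209100781968) (nat_lit 0) (nat_lit 126477546820) (nat_lit 1) (nat_lit 5) (nat_lit 3) (nat_lit 4) (nat_lit 1) (nat_lit 4) (nat_lit 359) (nat_lit 184) (nat_lit 177))) (XT.nd (nat_lit 78) (nat_lit 0) (nat_lit 0) (XT.lf (nat_lit 0) (nat_lit 134067614056) (nat_lit 152) (nat_lit 218025407703) (nat_lit 0) (nat_lit 133528898186) (nat_lit 1) (nat_lit 5) (nat_lit 3) (nat_lit 4) (nat_lit 1) (nat_lit 4) (nat_lit 360) (nat_lit 184) (nat_lit 176)) (XT.nd (nat_lit 78) (nat_lit 0) (nat_lit 0) (XT.lf (nat_lit 0) (nat_lit 141507436347) (nat_lit 152) (nat_lit 227438617491) (nat_lit 0) (nat_lit 140914991618) (nat_lit 1) (nat_lit 5) (nat_lit 3) (nat_lit 4) (nat_lit 1) (nat_lit 4) (nat_lit 361) (nat_lit 184) (nat_lit 175)) (XT.lf (nat_lit 0) (nat_lit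 149297028124) (nat_lit 152) (nat_lit 237362823736) (nat_lit 0) (nat_lit 148653413052) (nat_lit 1) (nat_lit 5) (nat_lit 3) (nat_lit 4) (nat_lit 1) (nat_lit 4) (nat_lit 362) (nat_lit 184) (nat_lit 174))))))) (XT.nd (nat_lit 36972) (nat_lit 0) (nat_lit 0) (XT.nd (nat_lit 36582) (nat_lit 0) (nat_lit 0) (XT.nd (nat_lit 156) (nat_lit 0) (nat_lit 0) (XT.nd (nat_lit 78) (nat_lit 0) (nat_lit 0) (XT.lf (nat_lit 0) (nat_lit 157454936033) (nat_lit 152) (nat_lit 247821655500) (nat_lit 0) (nat_lit 156762587301) (nat_lit 1) (nat_lit 5) (nat_lit 3) (nat_lit 4) (nat_lit 1) (nat_lit 4) (nat_lit 363) (nat_lit 184) (nat_lit 173)) (XT.lf (nat_lit 0) (nat_lit 166000583665) (nat_lit 152) (nat_lit 258840014764) (nat_lit 0) (nat_lit 165261821924) (nat_lit 1) (nat_lit 5) (nat_lit 3) (nat_lit 4) (nat_lit 1) (nat_lit 4) (nat_lit 364) (nat_lit 184) (nat_lit 172))) (XT.nd (nat_lit 36348) (nat_lit 0) (nat_lit 0)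 (XT.lf (nat_lit 0) (nat_lit 174954317799) (nat_lit 152) (nat_lit 270444135717) (nat_lit 0) (nat_lit 174171353192) (nat_lit 1) (nat_lit 5) (nat_lit 3) (nat_lit 4) (nat_lit 1) (nat_lit 4) (nat_lit 365) (nat_lit 184) (nat_lit 171)) (XT.lf (nat_lit 0) (nat_lit 37735844973) (nat_lit 152) (nat_lit 73786728843) (nat_lit 0) (nat_lit 37735844973) (nat_lit 1) (nat_lit 5) (nat_lit 3) (nat_lit 4) (nat_lit 1) (nat_lit 4) (nat_lit 350) (nat_lit 185) (nat_lit 185)))) (XT.nd (nat_lit 156) (nat_lit 0) (nat_lit 0) (XT.nd (nat_lit 78) (nat_lit 0) (nat_lit 0) (XT.lf (nat_lit 0) (nat_lit 80252485040) (nat_lit 152) (nat_lit 152965014210) (nat_lit 0) (nat_lit 80169133944) (nat_lit 1) (nat_lit 5) (nat_lit 3) (nat_lit 4) (nat_lit 1) (nat_lit 4) (nat_lit 351) (nat_lit 185) (nat_lit 184)) (XT.lf (nat_lit 0) (nat_lit 85237846847) (nat_lit 152) (nat_lit 158688722886) (nat_lit 0) (nat_lit 85075113754) (nat_lit 1)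 (nat_lit 5) (nat_lit 3) (nat_lit 4) (nat_lit 1) (nat_lit 4) (nat_lit 352) (nat_lit 185) (nat_lit 183))) (XT.nd (nat_lit 78) (nat_lit 0) (nat_lit 0) (XT.lf (nat_lit 0) (nat_lit 90439645276) (nat_lit 152) (nat_lit 164758211590) (nat_lit 0) (nat_lit 90201310282) (nat_lit 1) (nat_lit 5) (nat_lit 3) (nat_lit 4) (nat_lit 1) (nat_lit 4) (nat_lit 353) (nat_lit 185) (nat_lit 182)) (XT.nd (nat_lit 78) (nat_lit 0) (nat_lit 0) (XT.lf (nat_lit 0) (nat_lit 95870265563) (nat_lit 152) (nat_lit 171187931487) (nat_lit 0) (nat_lit 95559928758) (nat_lit 1) (nat_lit 5) (nat_lit 3) (nat_lit 4) (nat_lit 1) (nat_lit 4) (nat_lit 354) (nat_lit 185) (nat_lit 181)) (XT.lf (nat_lit 0) (nat_lit 101542637756) (nat_lit 152) (nat_lit 177993191433) (nat_lit 0) (nat_lit 101163727797) (nat_lit 1) (nat_lit 5) (nat_lit 3) (nat_lit 4) (nat_lit 1) (nat_lit 4) (nat_lit 355) (nat_lit 185) (nat_lit 180)))))) (XT.nd (nat_lit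 312) (nat_lit 0) (nat_lit 0) (XT.nd (nat_lit 156) (nat_lit 0) (nat_lit 0) (XT.nd (nat_lit 78) (nat_lit 0) (nat_lit 0) (XT.lf (nat_lit 0) (nat_lit 107470267502) (nat_lit 152) (nat_lit 185190194427) (nat_lit 0) (nat_lit 107026049778) (nat_lit 1) (nat_lit 5) (nat_lit 3) (nat_lit 4) (nat_lit 1) (nat_lit 4) (nat_lit 356) (nat_lit 185) (nat_lit 179)) (XT.lf (nat_lit 0) (nat_lit 113667268205) (nat_lit 152) (nat_lit 192796076193) (nat_lit 0) (nat_lit 113160852610) (nat_lit 1) (nat_lit 5) (nat_lit 3) (nat_lit 4) (nat_lit 1) (nat_lit 4) (nat_lit 357) (nat_lit 185) (nat_lit 178))) (XT.nd (nat_lit 78) (nat_lit 0) (nat_lit 0) (XT.lf (nat_lit 0) (nat_lit 120148394631) (nat_lit 152) (nat_lit 200828945971) (nat_lit 0) (nat_lit 119582742968) (nat_lit 1) (nat_lit 5) (nat_lit 3) (nat_lit 4) (nat_lit 1) (nat_lit 4) (nat_lit 358) (nat_lit 185) (nat_lit 177)) (XT.lf (nat_lit 0) (nat_lit 126929078031) (nat_lit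 152) (nat_lit 209307929642) (nat_lit 0) (nat_lit 126307011065) (nat_lit 1) (nat_lit 5) (nat_lit 3) (nat_lit 4) (nat_lit 1) (nat_lit 4) (nat_lit 359) (nat_lit 185) (nat_lit 176)))) (XT.nd (nat_lit 156) (nat_lit 0) (nat_lit 0) (XT.nd (nat_lit 78) (nat_lit 0) (nat_lit 0) (XT.lf (nat_lit 0) (nat_lit 134025462890) (nat_lit 152) (nat_lit 218253215263) (nat_lit 0) (nat_lit 133349667064) (nat_lit 1) (nat_lit 5) (nat_lit 3) (nat_lit 4) (nat_lit 1) (nat_lit 4) (nat_lit 360) (nat_lit 185) (nat_lit 175)) (XT.lf (nat_lit 0) (nat_lit 141454445362) (nat_lit 152) (nat_lit 227686101133) (nat_lit 0) (nat_lit 140727479194) (nat_lit 1) (nat_lit 5) (nat_lit 3) (nat_lit 4) (nat_lit 1) (nat_lit 4) (nat_lit 361) (nat_lit 185) (nat_lit 174))) (XT.nd (nat_lit 78) (nat_lit 0) (nat_lit 0) (XT.lf (nat_lit 0) (nat_lit 149233713502) (nat_lit 152) (nat_lit 237629046503) (nat_lit 0) (nat_lit 148458013673) (nat_lit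 1) (nat_lit 5) (nat_lit 3) (nat_lit 4) (nat_lit 1) (nat_lit 4) (nat_lit 362) (nat_lit 185) (nat_lit 173)) (XT.nd (nat_lit 78) (nat_lit 0) (nat_lit 0) (XT.lf (nat_lit 0) (nat_lit 157381789375) (nat_lit 152) (nat_lit 248105725054) (nat_lit 0) (nat_lit 156559676538) (nat_lit 1) (nat_lit 5) (nat_lit 3) (nat_lit 4) (nat_lit 1) (nat_lit 4) (nat_lit 363) (nat_lit 185) (nat_lit 172)) (XT.lf (nat_lit 0) (nat_lit 165918073163) (nat_lit 152) (nat_lit 259141081257) (nat_lit 0) (nat_lit 165051757460) (nat_lit 1) (nat_lit 5) (nat_lit 3) (nat_lit 4) (nat_lit 1) (nat_lit 4) (nat_lit 364) (nat_lit 185) (nat_lit 171))))))))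
noncomputable def xc2 : XT := (XT.nd (nat_lit 37440) (nat_lit 0) (nat_lit 0) (XT.nd (nat_lit 36738) (nat_lit 0) (nat_lit 0) (XT.nd (nat_lit 36426) (nat_lit 0) (nat_lit 0) (XT.nd (nat_lit 36270) (nat_lit 0) (nat_lit 0) (XT.nd (nat_lit 36192) (nat_lit 0) (nat_lit 0) (XT.lf (nat_lit 0) (nat_lit 174862889351) (nat_lit 152) (nat_lit 270761389771) (nat_lit 0) (nat_lit 173954475680) (nat_lit 1) (nat_lit 5) (nat_lit 3) (nat_lit 4) (nat_lit 1) (nat_lit 4) (nat_lit 365) (nat_lit 185) (nat_lit 170)) (XT.lf (nat_lit 0) (nat_lit 33292393452) (nat_lit 152) (nat_lit 68851280214) (nat_lit 0) (nat_lit 33292393452) (nat_lit 1) (nat_lit 5) (nat_lit 3) (nat_lit 4) (nat_lit 1) (nat_lit 4) (nat_lit 348) (nat_lit 186) (nat_lit 186))) (XT.nd (nat_lit 78) (nat_lit 0) (nat_lit 0) (XT.lf (nat_lit 0) (nat_lit 70971597374) (nat_lit 152) (nat_lit 142501216273) (nat_lit 0) (nat_lit 70884078723) (nat_lit 1) (nat_lit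 5) (nat_lit 3) (nat_lit 4) (nat_lit 1) (nat_lit 4) (nat_lit 349) (nat_lit 186) (nat_lit 185)) (XT.lf (nat_lit 0) (nat_lit 75541551675) (nat_lit 152) (nat_lit 147605507950) (nat_lit 0) (nat_lit 75370681928) (nat_lit 1) (nat_lit 5) (nat_lit 3) (nat_lit 4) (nat_lit 1) (nat_lit 4) (nat_lit 350) (nat_lit 186) (nat_lit 184)))) (XT.nd (nat_lit 156) (nat_lit 0) (nat_lit 0) (XT.nd (nat_lit 78) (nat_lit 0) (nat_lit 0) (XT.lf (nat_lit 0) (nat_lit 80305530651) (nat_lit 152) (nat_lit 153027588535) (nat_lit 0) (nat_lit 80055278906) (nat_lit 1) (nat_lit 5) (nat_lit 3) (nat_lit 4) (nat_lit 1) (nat_lit 4) (nat_lit 351) (nat_lit 186) (nat_lit 183)) (XT.lf (nat_lit 0) (nat_lit 85274877107) (nat_lit 152) (nat_lit 158780367745) (nat_lit 0) (nat_lit 84949023462) (nat_lit 1) (nat_lit 5) (nat_lit 3) (nat_lit 4) (nat_lit 1) (nat_lit 4) (nat_lit 352) (nat_lit 186) (nat_lit 182))) (XT.nd (nat_lit 78) (nat_lit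 0) (nat_lit 0) (XT.lf (nat_lit 0) (nat_lit 90461422823) (nat_lit 152) (nat_lit 164877542672) (nat_lit 0) (nat_lit 90063567366) (nat_lit 1) (nat_lit 5) (nat_lit 3) (nat_lit 4) (nat_lit 1) (nat_lit 4) (nat_lit 353) (nat_lit 186) (nat_lit 181)) (XT.lf (nat_lit 0) (nat_lit 95877516715) (nat_lit 152) (nat_lit 171333630400) (nat_lit 0) (nat_lit 95411088105) (nat_lit 1) (nat_lit 5) (nat_lit 3) (nat_lit 4) (nat_lit 1) (nat_lit 4) (nat_lit 354) (nat_lit 186) (nat_lit 180))))) (XT.nd (nat_lit 312) (nat_lit 0) (nat_lit 0) (XT.nd (nat_lit 156) (nat_lit 0) (nat_lit 0) (XT.nd (nat_lit 78) (nat_lit 0) (nat_lit 0) (XT.lf (nat_lit 0) (nat_lit 101536054246) (nat_lit 152) (nat_lit 178164002566) (nat_lit 0) (nat_lit 101004317871) (nat_lit 1) (nat_lit 5) (nat_lit 3) (nat_lit 4) (nat_lit 1) (nat_lit 4) (nat_lit 355) (nat_lit 186) (nat_lit 179)) (XT.lf (nat_lit 0) (nat_lit 107450508124) (nat_lit 152) (nat_lit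 185384921961) (nat_lit 0) (nat_lit 106856573877) (nat_lit 1) (nat_lit 5) (nat_lit 3) (nat_lit 4) (nat_lit 1) (nat_lit 4) (nat_lit 356) (nat_lit 186) (nat_lit 178))) (XT.nd (nat_lit 78) (nat_lit 0) (nat_lit 0) (XT.lf (nat_lit 0) (nat_lit 113634960382) (nat_lit 152) (nat_lit 193013581251) (nat_lit 0) (nat_lit 112981790068) (nat_lit 1) (nat_lit 5) (nat_lit 3) (nat_lit 4) (nat_lit 1) (nat_lit 4) (nat_lit 357) (nat_lit 186) (nat_lit 177)) (XT.lf (nat_lit 0) (nat_lit 120104135906) (nat_lit 152) (nat_lit 201068143909) (nat_lit 0) (nat_lit 119394550289) (nat_lit 1) (nat_lit 5) (nat_lit 3) (nat_lit 4) (nat_lit 1) (nat_lit 4) (nat_lit 358) (nat_lit 186) (nat_lit 176)))) (XT.nd (nat_lit 156) (nat_lit 0) (nat_lit 0) (XT.nd (nat_lit 78) (nat_lit 0) (nat_lit 0) (XT.lf (nat_lit 0) (nat_lit 126873437496) (nat_lit 152) (nat_lit 209567787466) (nat_lit 0) (nat_lit 126110123019) (nat_lit 1) (nat_lit 5)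 (nat_lit 3) (nat_lit 4) (nat_lit 1) (nat_lit 4) (nat_lit 359) (nat_lit 186) (nat_lit 175)) (XT.lf (nat_lit 0) (nat_lit 133958982536) (nat_lit 152) (nat_lit 218532749169) (nat_lit 0) (nat_lit 133144497716) (nat_lit 1) (nat_lit 5) (nat_lit 3) (nat_lit 4) (nat_lit 1) (nat_lit 4) (nat_lit 360) (nat_lit 186) (nat_lit 174))) (XT.nd (nat_lit 78) (nat_lit 0) (nat_lit 0) (XT.lf (nat_lit 0) (nat_lit 141377641371) (nat_lit 152) (nat_lit 227984374164) (nat_lit 0) (nat_lit 140514422891) (nat_lit 1) (nat_lit 5) (nat_lit 3) (nat_lit 4) (nat_lit 1) (nat_lit 4) (nat_lit 361) (nat_lit 186) (nat_lit 173)) (XT.nd (nat_lit 78) (nat_lit 0) (nat_lit 0) (XT.lf (nat_lit 0) (nat_lit 149147077475) (nat_lit 152) (nat_lit 237945166321) (nat_lit 0) (nat_lit 148237445986) (nat_lit 1) (nat_lit 5) (nat_lit 3) (nat_lit 4) (nat_lit 1) (nat_lit 4) (nat_lit 362) (nat_lit 186) (nat_lit 172)) (XT.lf (nat_lit 0) (nat_lit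 157285789505) (nat_lit 152) (nat_lit 248438841810) (nat_lit 0) (nat_lit 156331955150) (nat_lit 1) (nat_lit 5) (nat_lit 3) (nat_lit 4) (nat_lit 1) (nat_lit 4) (nat_lit 363) (nat_lit 186) (nat_lit 171))))))) (XT.nd (nat_lit 36660) (nat_lit 0) (nat_lit 0) (XT.nd (nat_lit 36270) (nat_lit 0) (nat_lit 0) (XT.nd (nat_lit 36114) (nat_lit 0) (nat_lit 0) (XT.nd (nat_lit 78) (nat_lit 0) (nat_lit 0) (XT.lf (nat_lit 0) (nat_lit 165813155347) (nat_lit 152) (nat_lit 259490385575) (nat_lit 0) (nat_lit 164817223025) (nat_lit 1) (nat_lit 5) (nat_lit 3) (nat_lit 4) (nat_lit 1) (nat_lit 4) (nat_lit 364) (nat_lit 186) (nat_lit 170)) (XT.lf (nat_lit 0) (nat_lit 174749478253) (nat_lit 152) (nat_lit 271126110814) (nat_lit 0) (nat_lit 173713452628) (nat_lit 1) (nat_lit 5) (nat_lit 3) (nat_lit 4) (nat_lit 1) (nat_lit 4) (nat_lit 365) (nat_lit 186) (nat_lit 169))) (XT.nd (nat_lit 78) (nat_lit 0) (nat_lit 0) (XT.lf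 (nat_lit 0) (nat_lit 29215295419) (nat_lit 152) (nat_lit 64470909920) (nat_lit 0) (nat_lit 29215295419) (nat_lit 1) (nat_lit 5) (nat_lit 3) (nat_lit 4) (nat_lit 1) (nat_lit 4) (nat_lit 346) (nat_lit 187) (nat_lit 187)) (XT.lf (nat_lit 0) (nat_lit 62462570061) (nat_lit 152) (nat_lit 133198115047) (nat_lit 0) (nat_lit 62370675477) (nat_lit 1) (nat_lit 5) (nat_lit 3) (nat_lit 4) (nat_lit 1) (nat_lit 4) (nat_lit 347) (nat_lit 187) (nat_lit 186)))) (XT.nd (nat_lit 156) (nat_lit 0) (nat_lit 0) (XT.nd (nat_lit 78) (nat_lit 0) (nat_lit 0) (XT.lf (nat_lit 0) (nat_lit 66658141718) (nat_lit 152) (nat_lit 137736213206) (nat_lit 0) (nat_lit 66478728483) (nat_lit 1) (nat_lit 5) (nat_lit 3) (nat_lit 4) (nat_lit 1) (nat_lit 4) (nat_lit 348) (nat_lit 187) (nat_lit 185)) (XT.lf (nat_lit 0) (nat_lit 71027295265) (nat_lit 152) (nat_lit 142566919314) (nat_lit 0) (nat_lit 70764530934) (nat_lit 1) (nat_lit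 5) (nat_lit 3) (nat_lit 4) (nat_lit 1) (nat_lit 4) (nat_lit 349) (nat_lit 187) (nat_lit 184))) (XT.nd (nat_lit 78) (nat_lit 0) (nat_lit 0) (XT.lf (nat_lit 0) (nat_lit 75580433449) (nat_lit 152) (nat_lit 147701735051) (nat_lit 0) (nat_lit 75238287121) (nat_lit 1) (nat_lit 5) (nat_lit 3) (nat_lit 4) (nat_lit 1) (nat_lit 4) (nat_lit 350) (nat_lit 187) (nat_lit 183)) (XT.nd (nat_lit 78) (nat_lit 0) (nat_lit 0) (XT.lf (nat_lit 0) (nat_lit 80328397074) (nat_lit 152) (nat_lit 153152886171) (nat_lit 0) (nat_lit 79910648845) (nat_lit 1) (nat_lit 5) (nat_lit 3) (nat_lit 4) (nat_lit 1) (nat_lit 4) (nat_lit 351) (nat_lit 187) (nat_lit 182)) (XT.lf (nat_lit 0) (nat_lit 85282490817) (nat_lit 152) (nat_lit 158933351604) (nat_lit 0) (nat_lit 84792740776) (nat_lit 1) (nat_lit 5) (nat_lit 3) (nat_lit 4) (nat_lit 1) (nat_lit 4) (nat_lit 352) (nat_lit 187) (nat_lit 181)))))) (XT.nd (nat_lit 312) (nat_lit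 0) (nat_lit 0) (XT.nd (nat_lit 156) (nat_lit 0) (nat_lit 0) (XT.nd (nat_lit 78) (nat_lit 0) (nat_lit 0) (XT.lf (nat_lit 0) (nat_lit 90454510137) (nat_lit 152) (nat_lit 165056894362) (nat_lit 0) (nat_lit 89896186944) (nat_lit 1) (nat_lit 5) (nat_lit 3) (nat_lit 4) (nat_lit 1) (nat_lit 4) (nat_lit 353) (nat_lit 187) (nat_lit 180)) (XT.lf (nat_lit 0) (nat_lit 95856769368) (nat_lit 152) (nat_lit 171538094311) (nat_lit 0) (nat_lit 95233138410) (nat_lit 1) (nat_lit 5) (nat_lit 3) (nat_lit 4) (nat_lit 1) (nat_lit 4) (nat_lit 354) (nat_lit 187) (nat_lit 179))) (XT.nd (nat_lit 78) (nat_lit 0) (nat_lit 0) (XT.lf (nat_lit 0) (nat_lit 101502131031) (nat_lit 152) (nat_lit 178392382877) (nat_lit 0) (nat_lit 100816302201) (nat_lit 1) (nat_lit 5) (nat_lit 3) (nat_lit 4) (nat_lit 1) (nat_lit 4) (nat_lit 355) (nat_lit 187) (nat_lit 178)) (XT.lf (nat_lit 0) (nat_lit 107404036463) (nat_lit 152) (nat_lit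 185636079797) (nat_lit 0) (nat_lit 106658971565) (nat_lit 1) (nat_lit 5) (nat_lit 3) (nat_lit 4) (nat_lit 1) (nat_lit 4) (nat_lit 356) (nat_lit 187) (nat_lit 177)))) (XT.nd (nat_lit 156) (nat_lit 0) (nat_lit 0) (XT.nd (nat_lit 78) (nat_lit 0) (nat_lit 0) (XT.lf (nat_lit 0) (nat_lit 113576537821) (nat_lit 152) (nat_lit 193286431966) (nat_lit 0) (nat_lit 112775057620) (nat_lit 1) (nat_lit 5) (nat_lit 3) (nat_lit 4) (nat_lit 1) (nat_lit 4) (nat_lit 357) (nat_lit 187) (nat_lit 176)) (XT.lf (nat_lit 0) (nat_lit 120034331535) (nat_lit 152) (nat_lit 201361654510) (nat_lit 0) (nat_lit 119179122474) (nat_lit 1) (nat_lit 5) (nat_lit 3) (nat_lit 4) (nat_lit 1) (nat_lit 4) (nat_lit 358) (nat_lit 187) (nat_lit 175))) (XT.nd (nat_lit 78) (nat_lit 0) (nat_lit 0) (XT.lf (nat_lit 0) (nat_lit 126792793305) (nat_lit 152) (nat_lit 209880974149) (nat_lit 0) (nat_lit 125886413902) (nat_lit 1) (nat_lit 5)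 (nat_lit 3) (nat_lit 4) (nat_lit 1) (nat_lit 4) (nat_lit 359) (nat_lit 187) (nat_lit 174)) (XT.nd (nat_lit 78) (nat_lit 0) (nat_lit 0) (XT.lf (nat_lit 0) (nat_lit 133868014708) (nat_lit 152) (nat_lit 218864674977) (nat_lit 0) (nat_lit 132912901644) (nat_lit 1) (nat_lit 5) (nat_lit 3) (nat_lit 4) (nat_lit 1) (nat_lit 4) (nat_lit 360) (nat_lit 187) (nat_lit 173)) (XT.lf (nat_lit 0) (nat_lit 141276841507) (nat_lit 152) (nat_lit 228334146759) (nat_lit 0) (nat_lit 140275315435) (nat_lit 1) (nat_lit 5) (nat_lit 3) (nat_lit 4) (nat_lit 1) (nat_lit 4) (nat_lit 361) (nat_lit 187) (nat_lit 172))))))))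
noncomputable def xc3 : XT := (XT.nd (nat_lit 37128) (nat_lit 0) (nat_lit 0) (XT.nd (nat_lit 36426) (nat_lit 0) (nat_lit 0) (XT.nd (nat_lit 36114) (nat_lit 0) (nat_lit 0) (XT.nd (nat_lit 156) (nat_lit 0) (nat_lit 0) (XT.nd (nat_lit 78) (nat_lit 0) (nat_lit 0) (XT.lf (nat_lit 0) (nat_lit 149036913768) (nat_lit 152) (nat_lit 238311935854) (nat_lit 0) (nat_lit 147991184829) (nat_lit 1) (nat_lit 5) (nat_lit 3) (nat_lit 4) (nat_lit 1) (nat_lit 4) (nat_lit 362) (nat_lit 187) (nat_lit 171)) (XT.lf (nat_lit 0) (nat_lit 157166707852) (nat_lit 152) (nat_lit 248821798905) (nat_lit 0) (nat_lit 156078880945) (nat_lit 1) (nat_lit 5) (nat_lit 3) (nat_lit 4) (nat_lit 1) (nat_lit 4) (nat_lit 363) (nat_lit 187) (nat_lit 170))) (XT.nd (nat_lit 78) (nat_lit 0) (nat_lit 0) (XT.lf (nat_lit 0) (nat_lit 165685580412) (nat_lit 152) (nat_lit 259888759395) (nat_lit 0) (nat_lit 164557660203) (nat_lit 1) (nat_lit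 5) (nat_lit 3) (nat_lit 4) (nat_lit 1) (nat_lit 4) (nat_lit 364) (nat_lit 187) (nat_lit 169)) (XT.lf (nat_lit 0) (nat_lit 174613814478) (nat_lit 152) (nat_lit 271539167229) (nat_lit 0) (nat_lit 173447710171) (nat_lit 1) (nat_lit 5) (nat_lit 3) (nat_lit 4) (nat_lit 1) (nat_lit 4) (nat_lit 365) (nat_lit 187) (nat_lit 168)))) (XT.nd (nat_lit 156) (nat_lit 0) (nat_lit 0) (XT.nd (nat_lit 78) (nat_lit 0) (nat_lit 0) (XT.lf (nat_lit 0) (nat_lit 25468152974) (nat_lit 152) (nat_lit 60598823394) (nat_lit 0) (nat_lit 25468152974) (nat_lit 1) (nat_lit 5) (nat_lit 3) (nat_lit 4) (nat_lit 1) (nat_lit 4) (nat_lit 344) (nat_lit 188) (nat_lit 188)) (XT.lf (nat_lit 0) (nat_lit 54649093411) (nat_lit 152) (nat_lit 124957193553) (nat_lit 0) (nat_lit 54552604098) (nat_lit 1) (nat_lit 5) (nat_lit 3) (nat_lit 4) (nat_lit 1) (nat_lit 4) (nat_lit 345) (nat_lit 188) (nat_lit 187))) (XT.nd (nat_lit 78) (nat_lit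 0) (nat_lit 0) (XT.lf (nat_lit 0) (nat_lit 58507613393) (nat_lit 152) (nat_lit 128977155257) (nat_lit 0) (nat_lit 58319229496) (nat_lit 1) (nat_lit 5) (nat_lit 3) (nat_lit 4) (nat_lit 1) (nat_lit 4) (nat_lit 346) (nat_lit 188) (nat_lit 186)) (XT.lf (nat_lit 0) (nat_lit 62521052847) (nat_lit 152) (nat_lit 133267103240) (nat_lit 0) (nat_lit 62245150299) (nat_lit 1) (nat_lit 5) (nat_lit 3) (nat_lit 4) (nat_lit 1) (nat_lit 4) (nat_lit 347) (nat_lit 188) (nat_lit 185))))) (XT.nd (nat_lit 312) (nat_lit 0) (nat_lit 0) (XT.nd (nat_lit 156) (nat_lit 0) (nat_lit 0) (XT.nd (nat_lit 78) (nat_lit 0) (nat_lit 0) (XT.lf (nat_lit 0) (nat_lit 66698967580) (nat_lit 152) (nat_lit 137837251663) (nat_lit 0) (nat_lit 66339713936) (nat_lit 1) (nat_lit 5) (nat_lit 3) (nat_lit 4) (nat_lit 1) (nat_lit 4) (nat_lit 348) (nat_lit 188) (nat_lit 184)) (XT.lf (nat_lit 0) (nat_lit 71051305010) (nat_lit 152) (nat_lit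 142698481831) (nat_lit 0) (nat_lit 70612669369) (nat_lit 1) (nat_lit 5) (nat_lit 3) (nat_lit 4) (nat_lit 1) (nat_lit 4) (nat_lit 349) (nat_lit 188) (nat_lit 183))) (XT.nd (nat_lit 78) (nat_lit 0) (nat_lit 0) (XT.lf (nat_lit 0) (nat_lit 75588427843) (nat_lit 152) (nat_lit 147862368103) (nat_lit 0) (nat_lit 75074190301) (nat_lit 1) (nat_lit 5) (nat_lit 3) (nat_lit 4) (nat_lit 1) (nat_lit 4) (nat_lit 350) (nat_lit 188) (nat_lit 182)) (XT.lf (nat_lit 0) (nat_lit 80321138755) (nat_lit 152) (nat_lit 153341205446) (nat_lit 0) (nat_lit 79734899401) (nat_lit 1) (nat_lit 5) (nat_lit 3) (nat_lit 4) (nat_lit 1) (nat_lit 4) (nat_lit 351) (nat_lit 188) (nat_lit 181)))) (XT.nd (nat_lit 156) (nat_lit 0) (nat_lit 0) (XT.nd (nat_lit 78) (nat_lit 0) (nat_lit 0) (XT.lf (nat_lit 0) (nat_lit 85260706102) (nat_lit 152) (nat_lit 159148038710) (nat_lit 0) (nat_lit 84605893596) (nat_lit 1) (nat_lit 5) (nat_lit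 3) (nat_lit 4) (nat_lit 1) (nat_lit 4) (nat_lit 352) (nat_lit 188) (nat_lit 180)) (XT.lf (nat_lit 0) (nat_lit 90418890762) (nat_lit 152) (nat_lit 165296693689) (nat_lit 0) (nat_lit 89698770490) (nat_lit 1) (nat_lit 5) (nat_lit 3) (nat_lit 4) (nat_lit 1) (nat_lit 4) (nat_lit 353) (nat_lit 188) (nat_lit 179))) (XT.nd (nat_lit 78) (nat_lit 0) (nat_lit 0) (XT.lf (nat_lit 0) (nat_lit 95807974125) (nat_lit 152) (nat_lit 171801810038) (nat_lit 0) (nat_lit 95025655982) (nat_lit 1) (nat_lit 5) (nat_lit 3) (nat_lit 4) (nat_lit 1) (nat_lit 4) (nat_lit 354) (nat_lit 188) (nat_lit 178)) (XT.nd (nat_lit 78) (nat_lit 0) (nat_lit 0) (XT.lf (nat_lit 0) (nat_lit 101440787342) (nat_lit 152) (nat_lit 178678876128) (nat_lit 0) (nat_lit 100599233131) (nat_lit 1) (nat_lit 5) (nat_lit 3) (nat_lit 4) (nat_lit 1) (nat_lit 4) (nat_lit 355) (nat_lit 188) (nat_lit 177)) (XT.lf (nat_lit 0) (nat_lit 107330741873)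 (nat_lit 152) (nat_lit 185944265928) (nat_lit 0) (nat_lit 106432772359) (nat_lit 1) (nat_lit 5) (nat_lit 3) (nat_lit 4) (nat_lit 1) (nat_lit 4) (nat_lit 356) (nat_lit 188) (nat_lit 176))))))) (XT.nd (nat_lit 36348) (nat_lit 0) (nat_lit 0) (XT.nd (nat_lit 312) (nat_lit 0) (nat_lit 0) (XT.nd (nat_lit 156) (nat_lit 0) (nat_lit 0) (XT.nd (nat_lit 78) (nat_lit 0) (nat_lit 0) (XT.lf (nat_lit 0) (nat_lit 113491861420) (nat_lit 152) (nat_lit 193615277983) (nat_lit 0) (nat_lit 112540163047) (nat_lit 1) (nat_lit 5) (nat_lit 3) (nat_lit 4) (nat_lit 1) (nat_lit 4) (nat_lit 357) (nat_lit 188) (nat_lit 175)) (XT.lf (nat_lit 0) (nat_lit 119938815315) (nat_lit 152) (nat_lit 201710176609) (nat_lit 0) (nat_lit 118935946599) (nat_lit 1) (nat_lit 5) (nat_lit 3) (nat_lit 4) (nat_lit 1) (nat_lit 4) (nat_lit 358) (nat_lit 188) (nat_lit 174))) (XT.nd (nat_lit 78) (nat_lit 0) (nat_lit 0) (XT.lf (nat_lit 0)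 (nat_lit 126686953448) (nat_lit 152) (nat_lit 210248235374) (nat_lit 0) (nat_lit 125635351072) (nat_lit 1) (nat_lit 5) (nat_lit 3) (nat_lit 4) (nat_lit 1) (nat_lit 4) (nat_lit 359) (nat_lit 188) (nat_lit 173)) (XT.lf (nat_lit 0) (nat_lit 133752342815) (nat_lit 152) (nat_lit 219249782988) (nat_lit 0) (nat_lit 132654327430) (nat_lit 1) (nat_lit 5) (nat_lit 3) (nat_lit 4) (nat_lit 1) (nat_lit 4) (nat_lit 360) (nat_lit 188) (nat_lit 172)))) (XT.nd (nat_lit 156) (nat_lit 0) (nat_lit 0) (XT.nd (nat_lit 78) (nat_lit 0) (nat_lit 0) (XT.lf (nat_lit 0) (nat_lit 141151805771) (nat_lit 152) (nat_lit 228736251708) (nat_lit 0) (nat_lit 140009587520) (nat_lit 1) (nat_lit 5) (nat_lit 3) (nat_lit 4) (nat_lit 1) (nat_lit 4) (nat_lit 361) (nat_lit 188) (nat_lit 171)) (XT.lf (nat_lit 0) (nat_lit 148902960086) (nat_lit 152) (nat_lit 238730228365) (nat_lit 0) (nat_lit 147718643867) (nat_lit 1) (nat_lit 5)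 (nat_lit 3) (nat_lit 4) (nat_lit 1) (nat_lit 4) (nat_lit 362) (nat_lit 188) (nat_lit 170))) (XT.nd (nat_lit 78) (nat_lit 0) (nat_lit 0) (XT.lf (nat_lit 0) (nat_lit 157024260888) (nat_lit 152) (nat_lit 249255508141) (nat_lit 0) (nat_lit 155799851366) (nat_lit 1) (nat_lit 5) (nat_lit 3) (nat_lit 4) (nat_lit 1) (nat_lit 4) (nat_lit 363) (nat_lit 188) (nat_lit 169)) (XT.nd (nat_lit 78) (nat_lit 0) (nat_lit 0) (XT.lf (nat_lit 0) (nat_lit 165535044608) (nat_lit 152) (nat_lit 260337151226) (nat_lit 0) (nat_lit 164272450988) (nat_lit 1) (nat_lit 5) (nat_lit 3) (nat_lit 4) (nat_lit 1) (nat_lit 4) (nat_lit 364) (nat_lit 188) (nat_lit 168)) (XT.lf (nat_lit 0) (nat_lit 174455575017) (nat_lit 152) (nat_lit 272001542484) (nat_lit 0) (nat_lit 173156615590) (nat_lit 1) (nat_lit 5) (nat_lit 3) (nat_lit 4) (nat_lit 1) (nat_lit 4) (nat_lit 365) (nat_lit 188) (nat_lit 167)))))) (XT.nd (nat_lit 312) (nat_lit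 0) (nat_lit 0) (XT.nd (nat_lit 156) (nat_lit 0) (nat_lit 0) (XT.nd (nat_lit 78) (nat_lit 0) (nat_lit 0) (XT.lf (nat_lit 0) (nat_lit 22017835256) (nat_lit 152) (nat_lit 57192817152) (nat_lit 0) (nat_lit 22017835256) (nat_lit 1) (nat_lit 5) (nat_lit 3) (nat_lit 4) (nat_lit 1) (nat_lit 4) (nat_lit 342) (nat_lit 189) (nat_lit 189)) (XT.lf (nat_lit 0) (nat_lit 47461724813) (nat_lit 152) (nat_lit 117689563665) (nat_lit 0) (nat_lit 47360411034) (nat_lit 1) (nat_lit 5) (nat_lit 3) (nat_lit 4) (nat_lit 1) (nat_lit 4) (nat_lit 343) (nat_lit 189) (nat_lit 188))) (XT.nd (nat_lit 78) (nat_lit 0) (nat_lit 0) (XT.lf (nat_lit 0) (nat_lit 51017179630) (nat_lit 152) (nat_lit 121234748976) (nat_lit 0) (nat_lit 50819376539) (nat_lit 1) (nat_lit 5) (nat_lit 3) (nat_lit 4) (nat_lit 1) (nat_lit 4) (nat_lit 344) (nat_lit 189) (nat_lit 187)) (XT.lf (nat_lit 0) (nat_lit 54710500335) (nat_lit 152) (nat_lit 125029631156)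 (nat_lit 0) (nat_lit 54420802660) (nat_lit 1) (nat_lit 5) (nat_lit 3) (nat_lit 4) (nat_lit 1) (nat_lit 4) (nat_lit 345) (nat_lit 189) (nat_lit 186)))) (XT.nd (nat_lit 156) (nat_lit 0) (nat_lit 0) (XT.nd (nat_lit 78) (nat_lit 0) (nat_lit 0) (XT.lf (nat_lit 0) (nat_lit 58550480548) (nat_lit 152) (nat_lit 129083245637) (nat_lit 0) (nat_lit 58173264222) (nat_lit 1) (nat_lit 5) (nat_lit 3) (nat_lit 4) (nat_lit 1) (nat_lit 4) (nat_lit 346) (nat_lit 189) (nat_lit 185)) (XT.lf (nat_lit 0) (nat_lit 62546263078) (nat_lit 152) (nat_lit 133405243884) (nat_lit 0) (nat_lit 62085695656) (nat_lit 1) (nat_lit 5) (nat_lit 3) (nat_lit 4) (nat_lit 1) (nat_lit 4) (nat_lit 347) (nat_lit 189) (nat_lit 184))) (XT.nd (nat_lit 78) (nat_lit 0) (nat_lit 0) (XT.lf (nat_lit 0) (nat_lit 66707361695) (nat_lit 152) (nat_lit 138005916367) (nat_lit 0) (nat_lit 66167412275) (nat_lit 1) (nat_lit 5) (nat_lit 3) (nat_lit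 4) (nat_lit 1) (nat_lit 4) (nat_lit 348) (nat_lit 189) (nat_lit 183)) (XT.nd (nat_lit 78) (nat_lit 0) (nat_lit 0) (XT.lf (nat_lit 0) (nat_lit 71043683774) (nat_lit 152) (nat_lit 142896217070) (nat_lit 0) (nat_lit 70428132453) (nat_lit 1) (nat_lit 5) (nat_lit 3) (nat_lit 4) (nat_lit 1) (nat_lit 4) (nat_lit 349) (nat_lit 189) (nat_lit 182)) (XT.lf (nat_lit 0) (nat_lit 75565553894) (nat_lit 152) (nat_lit 148087789565) (nat_lit 0) (nat_lit 74878000762) (nat_lit 1) (nat_lit 5) (nat_lit 3) (nat_lit 4) (nat_lit 1) (nat_lit 4) (nat_lit 350) (nat_lit 189) (nat_lit 181))))))))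
noncomputable def xc4 : XT := (XT.nd (nat_lit 36816) (nat_lit 0) (nat_lit 0) (XT.nd (nat_lit 624) (nat_lit 0) (nat_lit 0) (XT.nd (nat_lit 312) (nat_lit 0) (nat_lit 0) (XT.nd (nat_lit 156) (nat_lit 0) (nat_lit 0) (XT.nd (nat_lit 78) (nat_lit 0) (nat_lit 0) (XT.lf (nat_lit 0) (nat_lit 80283738410) (nat_lit 152) (nat_lit 153592994739) (nat_lit 0) (nat_lit 79527612125) (nat_lit 1) (nat_lit 5) (nat_lit 3) (nat_lit 4) (nat_lit 1) (nat_lit 4) (nat_lit 351) (nat_lit 189) (nat_lit 180)) (XT.lf (nat_lit 0) (nat_lit 85209471097) (nat_lit 152) (nat_lit 159424940223) (nat_lit 0) (nat_lit 84388037047) (nat_lit 1) (nat_lit 5) (nat_lit 3) (nat_lit 4) (nat_lit 1) (nat_lit 4) (nat_lit 352) (nat_lit 189) (nat_lit 179))) (XT.nd (nat_lit 78) (nat_lit 0) (nat_lit 0) (XT.lf (nat_lit 0) (nat_lit 90354479888) (nat_lit 152) (nat_lit 165597511602) (nat_lit 0) (nat_lit 89470847966) (nat_lit 1) (nat_lit 5) (nat_lit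 3) (nat_lit 4) (nat_lit 1) (nat_lit 4) (nat_lit 353) (nat_lit 189) (nat_lit 178)) (XT.lf (nat_lit 0) (nat_lit 95731014805) (nat_lit 152) (nat_lit 172125405475) (nat_lit 0) (nat_lit 94788146815) (nat_lit 1) (nat_lit 5) (nat_lit 3) (nat_lit 4) (nat_lit 1) (nat_lit 4) (nat_lit 354) (nat_lit 189) (nat_lit 177)))) (XT.nd (nat_lit 156) (nat_lit 0) (nat_lit 0) (XT.nd (nat_lit 78) (nat_lit 0) (nat_lit 0) (XT.lf (nat_lit 0) (nat_lit 101351877121) (nat_lit 152) (nat_lit 179024164446) (nat_lit 0) (nat_lit 100352593829) (nat_lit 1) (nat_lit 5) (nat_lit 3) (nat_lit 4) (nat_lit 1) (nat_lit 4) (nat_lit 355) (nat_lit 189) (nat_lit 176)) (XT.lf (nat_lit 0) (nat_lit 107230449843) (nat_lit 152) (nat_lit 186310214132) (nat_lit 0) (nat_lit 106177437690) (nat_lit 1) (nat_lit 5) (nat_lit 3) (nat_lit 4) (nat_lit 1) (nat_lit 4) (nat_lit 356) (nat_lit 189) (nat_lit 175))) (XT.nd (nat_lit 78) (nat_lit 0) (nat_lit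 0) (XT.lf (nat_lit 0) (nat_lit 113380729571) (nat_lit 152) (nat_lit 194000902269) (nat_lit 0) (nat_lit 112276547075) (nat_lit 1) (nat_lit 5) (nat_lit 3) (nat_lit 4) (nat_lit 1) (nat_lit 4) (nat_lit 357) (nat_lit 189) (nat_lit 174)) (XT.lf (nat_lit 0) (nat_lit 119817359828) (nat_lit 152) (nat_lit 202114540020) (nat_lit 0) (nat_lit 118664443673) (nat_lit 1) (nat_lit 5) (nat_lit 3) (nat_lit 4) (nat_lit 1) (nat_lit 4) (nat_lit 358) (nat_lit 189) (nat_lit 173))))) (XT.nd (nat_lit 312) (nat_lit 0) (nat_lit 0) (XT.nd (nat_lit 156) (nat_lit 0) (nat_lit 0) (XT.nd (nat_lit 78) (nat_lit 0) (nat_lit 0) (XT.lf (nat_lit 0) (nat_lit 126555665926) (nat_lit 152) (nat_lit 210670445571) (nat_lit 0) (nat_lit 125356336762) (nat_lit 1) (nat_lit 5) (nat_lit 3) (nat_lit 4) (nat_lit 1) (nat_lit 4) (nat_lit 359) (nat_lit 189) (nat_lit 172)) (XT.lf (nat_lit 0) (nat_lit 133611691449) (nat_lit 152) (nat_lit 219688990124)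 (nat_lit 0) (nat_lit 132368159419) (nat_lit 1) (nat_lit 5) (nat_lit 3) (nat_lit 4) (nat_lit 1) (nat_lit 4) (nat_lit 360) (nat_lit 189) (nat_lit 171))) (XT.nd (nat_lit 78) (nat_lit 0) (nat_lit 0) (XT.lf (nat_lit 0) (nat_lit 141002236459) (nat_lit 152) (nat_lit 229191646406) (nat_lit 0) (nat_lit 139716606461) (nat_lit 1) (nat_lit 5) (nat_lit 3) (nat_lit 4) (nat_lit 1) (nat_lit 4) (nat_lit 361) (nat_lit 189) (nat_lit 170)) (XT.lf (nat_lit 0) (nat_lit 148744897492) (nat_lit 152) (nat_lit 239201039788) (nat_lit 0) (nat_lit 147419174191) (nat_lit 1) (nat_lit 5) (nat_lit 3) (nat_lit 4) (nat_lit 1) (nat_lit 4) (nat_lit 362) (nat_lit 189) (nat_lit 169)))) (XT.nd (nat_lit 156) (nat_lit 0) (nat_lit 0) (XT.nd (nat_lit 78) (nat_lit 0) (nat_lit 0) (XT.lf (nat_lit 0) (nat_lit 156858109453) (nat_lit 152) (nat_lit 249741002159) (nat_lit 0) (nat_lit 155494202055) (nat_lit 1) (nat_lit 5) (nat_lit 3) (nat_lit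 4) (nat_lit 1) (nat_lit 4) (nat_lit 363) (nat_lit 189) (nat_lit 168)) (XT.lf (nat_lit 0) (nat_lit 165361189516) (nat_lit 152) (nat_lit 260836628667) (nat_lit 0) (nat_lit 163960916311) (nat_lit 1) (nat_lit 5) (nat_lit 3) (nat_lit 4) (nat_lit 1) (nat_lit 4) (nat_lit 364) (nat_lit 189) (nat_lit 167))) (XT.nd (nat_lit 35568) (nat_lit 0) (nat_lit 0) (XT.lf (nat_lit 0) (nat_lit 174274383109) (nat_lit 152) (nat_lit 272514337472) (nat_lit 0) (nat_lit 172839475801) (nat_lit 1) (nat_lit 5) (nat_lit 3) (nat_lit 4) (nat_lit 1) (nat_lit 4) (nat_lit 365) (nat_lit 189) (nat_lit 166)) (XT.nd (nat_lit 78) (nat_lit 0) (nat_lit 0) (XT.lf (nat_lit 0) (nat_lit 18834168864) (nat_lit 152) (nat_lit 54214863985) (nat_lit 0) (nat_lit 18834168864) (nat_lit 1) (nat_lit 5) (nat_lit 3) (nat_lit 4) (nat_lit 1) (nat_lit 4) (nat_lit 340) (nat_lit 190) (nat_lit 190)) (XT.lf (nat_lit 0) (nat_lit 40837238927) (nat_lit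 152) (nat_lit 111315094396) (nat_lit 0) (nat_lit 40730859460) (nat_lit 1) (nat_lit 5) (nat_lit 3) (nat_lit 4) (nat_lit 1) (nat_lit 4) (nat_lit 341) (nat_lit 190) (nat_lit 189))))))) (XT.nd (nat_lit 702) (nat_lit 0) (nat_lit 0) (XT.nd (nat_lit 312) (nat_lit 0) (nat_lit 0) (XT.nd (nat_lit 156) (nat_lit 0) (nat_lit 0) (XT.nd (nat_lit 78) (nat_lit 0) (nat_lit 0) (XT.lf (nat_lit 0) (nat_lit 44120587880) (nat_lit 152) (nat_lit 114424591600) (nat_lit 0) (nat_lit 43912894634) (nat_lit 1) (nat_lit 5) (nat_lit 3) (nat_lit 4) (nat_lit 1) (nat_lit 4) (nat_lit 342) (nat_lit 190) (nat_lit 188)) (XT.lf (nat_lit 0) (nat_lit 47526202083) (nat_lit 152) (nat_lit 117765623147) (nat_lit 0) (nat_lit 47222019524) (nat_lit 1) (nat_lit 5) (nat_lit 3) (nat_lit 4) (nat_lit 1) (nat_lit 4) (nat_lit 343) (nat_lit 190) (nat_lit 187))) (XT.nd (nat_lit 78) (nat_lit 0) (nat_lit 0) (XT.lf (nat_lit 0) (nat_lit 51062190143)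 (nat_lit 152) (nat_lit 121346143875) (nat_lit 0) (nat_lit 50666113001) (nat_lit 1) (nat_lit 5) (nat_lit 3) (nat_lit 4) (nat_lit 1) (nat_lit 4) (nat_lit 344) (nat_lit 190) (nat_lit 186)) (XT.lf (nat_lit 0) (nat_lit 54736971079) (nat_lit 152) (nat_lit 125174678831) (nat_lit 0) (nat_lit 54253375285) (nat_lit 1) (nat_lit 5) (nat_lit 3) (nat_lit 4) (nat_lit 1) (nat_lit 4) (nat_lit 345) (nat_lit 190) (nat_lit 185)))) (XT.nd (nat_lit 156) (nat_lit 0) (nat_lit 0) (XT.nd (nat_lit 78) (nat_lit 0) (nat_lit 0) (XT.lf (nat_lit 0) (nat_lit 58559294368) (nat_lit 152) (nat_lit 129260343577) (nat_lit 0) (nat_lit 57992347478) (nat_lit 1) (nat_lit 5) (nat_lit 3) (nat_lit 4) (nat_lit 1) (nat_lit 4) (nat_lit 346) (nat_lit 190) (nat_lit 184)) (XT.lf (nat_lit 0) (nat_lit 62538260781) (nat_lit 152) (nat_lit 133612865884) (nat_lit 0) (nat_lit 61891931894) (nat_lit 1) (nat_lit 5) (nat_lit 3) (nat_lit 4) (nat_lit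 1) (nat_lit 4) (nat_lit 347) (nat_lit 190) (nat_lit 183))) (XT.nd (nat_lit 78) (nat_lit 0) (nat_lit 0) (XT.lf (nat_lit 0) (nat_lit 66683344047) (nat_lit 152) (nat_lit 138242608902) (nat_lit 0) (nat_lit 65961413259) (nat_lit 1) (nat_lit 5) (nat_lit 3) (nat_lit 4) (nat_lit 1) (nat_lit 4) (nat_lit 348) (nat_lit 190) (nat_lit 182)) (XT.nd (nat_lit 78) (nat_lit 0) (nat_lit 0) (XT.lf (nat_lit 0) (nat_lit 71004413413) (nat_lit 152) (nat_lit 143160595827) (nat_lit 0) (nat_lit 70210480814) (nat_lit 1) (nat_lit 5) (nat_lit 3) (nat_lit 4) (nat_lit 1) (nat_lit 4) (nat_lit 349) (nat_lit 190) (nat_lit 181)) (XT.lf (nat_lit 0) (nat_lit 75511757138) (nat_lit 152) (nat_lit 148378536153) (nat_lit 0) (nat_lit 74649251385) (nat_lit 1) (nat_lit 5) (nat_lit 3) (nat_lit 4) (nat_lit 1) (nat_lit 4) (nat_lit 350) (nat_lit 190) (nat_lit 180)))))) (XT.nd (nat_lit 312) (nat_lit 0) (nat_lit 0) (XT.nd (nat_lit 156)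 (nat_lit 0) (nat_lit 0) (XT.nd (nat_lit 78) (nat_lit 0) (nat_lit 0) (XT.lf (nat_lit 0) (nat_lit 80216106993) (nat_lit 152) (nat_lit 153908853548) (nat_lit 0) (nat_lit 79288293475) (nat_lit 1) (nat_lit 5) (nat_lit 3) (nat_lit 4) (nat_lit 1) (nat_lit 4) (nat_lit 351) (nat_lit 190) (nat_lit 179)) (XT.lf (nat_lit 0) (nat_lit 85128663811) (nat_lit 152) (nat_lit 159764715433) (nat_lit 0) (nat_lit 84138652422) (nat_lit 1) (nat_lit 5) (nat_lit 3) (nat_lit 4) (nat_lit 1) (nat_lit 4) (nat_lit 352) (nat_lit 190) (nat_lit 178))) (XT.nd (nat_lit 78) (nat_lit 0) (nat_lit 0) (XT.lf (nat_lit 0) (nat_lit 90261124157) (nat_lit 152) (nat_lit 165960064336) (nat_lit 0) (nat_lit 89211876700) (nat_lit 1) (nat_lit 5) (nat_lit 3) (nat_lit 4) (nat_lit 1) (nat_lit 4) (nat_lit 353) (nat_lit 190) (nat_lit 177)) (XT.lf (nat_lit 0) (nat_lit 95625708173) (nat_lit 152) (nat_lit 172509651089) (nat_lit 0) (nat_lit 94520045413)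 (nat_lit 1) (nat_lit 5) (nat_lit 3) (nat_lit 4) (nat_lit 1) (nat_lit 4) (nat_lit 354) (nat_lit 190) (nat_lit 176)))) (XT.nd (nat_lit 156) (nat_lit 0) (nat_lit 0) (XT.nd (nat_lit 78) (nat_lit 0) (nat_lit 0) (XT.lf (nat_lit 0) (nat_lit 101235188679) (nat_lit 152) (nat_lit 179429069946) (nat_lit 0) (nat_lit 100075797059) (nat_lit 1) (nat_lit 5) (nat_lit 3) (nat_lit 4) (nat_lit 1) (nat_lit 4) (nat_lit 355) (nat_lit 190) (nat_lit 175)) (XT.lf (nat_lit 0) (nat_lit 107102921581) (nat_lit 152) (nat_lit 186734795713) (nat_lit 0) (nat_lit 105892359619) (nat_lit 1) (nat_lit 5) (nat_lit 3) (nat_lit 4) (nat_lit 1) (nat_lit 4) (nat_lit 356) (nat_lit 190) (nat_lit 174))) (XT.nd (nat_lit 78) (nat_lit 0) (nat_lit 0) (XT.lf (nat_lit 0) (nat_lit 113242877672) (nat_lit 152) (nat_lit 194444222976) (nat_lit 0) (nat_lit 111983582049) (nat_lit 1) (nat_lit 5) (nat_lit 3) (nat_lit 4) (nat_lit 1) (nat_lit 4)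 (nat_lit 357) (nat_lit 190) (nat_lit 173)) (XT.nd (nat_lit 78) (nat_lit 0) (nat_lit 0) (XT.lf (nat_lit 0) (nat_lit 119669675894) (nat_lit 152) (nat_lit 202575707513) (nat_lit 0) (nat_lit 118363967262) (nat_lit 1) (nat_lit 5) (nat_lit 3) (nat_lit 4) (nat_lit 1) (nat_lit 4) (nat_lit 358) (nat_lit 190) (nat_lit 172)) (XT.lf (nat_lit 0) (nat_lit 126398618148) (nat_lit 152) (nat_lit 211148610003) (nat_lit 0) (nat_lit 125048706650) (nat_lit 1) (nat_lit 5) (nat_lit 3) (nat_lit 4) (nat_lit 1) (nat_lit 4) (nat_lit 359) (nat_lit 190) (nat_lit 171))))))))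
noncomputable def xc5 : XT := (XT.nd (nat_lit 36660) (nat_lit 0) (nat_lit 0) (XT.nd (nat_lit 35958) (nat_lit 0) (nat_lit 0) (XT.nd (nat_lit 312) (nat_lit 0) (nat_lit 0) (XT.nd (nat_lit 156) (nat_lit 0) (nat_lit 0) (XT.nd (nat_lit 78) (nat_lit 0) (nat_lit 0) (XT.lf (nat_lit 0) (nat_lit 133445725725) (nat_lit 152) (nat_lit 220183342118) (nat_lit 0) (nat_lit 132053716260) (nat_lit 1) (nat_lit 5) (nat_lit 3) (nat_lit 4) (nat_lit 1) (nat_lit 4) (nat_lit 360) (nat_lit 190) (nat_lit 170)) (XT.lf (nat_lit 0) (nat_lit 140827777453) (nat_lit 152) (nat_lit 229701415125) (nat_lit 0) (nat_lit 139395674685) (nat_lit 1) (nat_lit 5) (nat_lit 3) (nat_lit 4) (nat_lit 1) (nat_lit 4) (nat_lit 361) (nat_lit 190) (nat_lit 169))) (XT.nd (nat_lit 78) (nat_lit 0) (nat_lit 0) (XT.lf (nat_lit 0) (nat_lit 148562349645) (nat_lit 152) (nat_lit 239725491102) (nat_lit 0) (nat_lit 147092062780) (nat_lit 1) (nat_lit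 5) (nat_lit 3) (nat_lit 4) (nat_lit 1) (nat_lit 4) (nat_lit 362) (nat_lit 190) (nat_lit 168)) (XT.lf (nat_lit 0) (nat_lit 156667857950) (nat_lit 152) (nat_lit 250279436897) (nat_lit 0) (nat_lit 155161205278) (nat_lit 1) (nat_lit 5) (nat_lit 3) (nat_lit 4) (nat_lit 1) (nat_lit 4) (nat_lit 363) (nat_lit 190) (nat_lit 167)))) (XT.nd (nat_lit 35490) (nat_lit 0) (nat_lit 0) (XT.nd (nat_lit 78) (nat_lit 0) (nat_lit 0) (XT.lf (nat_lit 0) (nat_lit 165163601197) (nat_lit 152) (nat_lit 261388380952) (nat_lit 0) (nat_lit 163622314422) (nat_lit 1) (nat_lit 5) (nat_lit 3) (nat_lit 4) (nat_lit 1) (nat_lit 4) (nat_lit 364) (nat_lit 190) (nat_lit 166)) (XT.lf (nat_lit 0) (nat_lit 174069807345) (nat_lit 152) (nat_lit 273078773134) (nat_lit 0) (nat_lit 172495535711) (nat_lit 1) (nat_lit 5) (nat_lit 3) (nat_lit 4) (nat_lit 1) (nat_lit 4) (nat_lit 365) (nat_lit 190) (nat_lit 165))) (XT.nd (nat_lit 78)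 (nat_lit 0) (nat_lit 0) (XT.lf (nat_lit 0) (nat_lit 15889656758) (nat_lit 152) (nat_lit 51630737320) (nat_lit 0) (nat_lit 15889656758) (nat_lit 1) (nat_lit 5) (nat_lit 3) (nat_lit 4) (nat_lit 1) (nat_lit 4) (nat_lit 338) (nat_lit 191) (nat_lit 191)) (XT.lf (nat_lit 0) (nat_lit 34718037721) (nat_lit 152) (nat_lit 105761622402) (nat_lit 0) (nat_lit 34606339280) (nat_lit 1) (nat_lit 5) (nat_lit 3) (nat_lit 4) (nat_lit 1) (nat_lit 4) (nat_lit 339) (nat_lit 191) (nat_lit 190))))) (XT.nd (nat_lit 312) (nat_lit 0) (nat_lit 0) (XT.nd (nat_lit 156) (nat_lit 0) (nat_lit 0) (XT.nd (nat_lit 78) (nat_lit 0) (nat_lit 0) (XT.lf (nat_lit 0) (nat_lit 37757500964) (nat_lit 152) (nat_lit 108470633131) (nat_lit 0) (nat_lit 37539423055) (nat_lit 1) (nat_lit 5) (nat_lit 3) (nat_lit 4) (nat_lit 1) (nat_lit 4) (nat_lit 340) (nat_lit 191) (nat_lit 189)) (XT.lf (nat_lit 0) (nat_lit 40904940062) (nat_lit 152)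 (nat_lit 111394956853) (nat_lit 0) (nat_lit 40585548375) (nat_lit 1) (nat_lit 5) (nat_lit 3) (nat_lit 4) (nat_lit 1) (nat_lit 4) (nat_lit 341) (nat_lit 191) (nat_lit 188))) (XT.nd (nat_lit 78) (nat_lit 0) (nat_lit 0) (XT.lf (nat_lit 0) (nat_lit 44167848919) (nat_lit 152) (nat_lit 114541556244) (nat_lit 0) (nat_lit 43751967919) (nat_lit 1) (nat_lit 5) (nat_lit 3) (nat_lit 4) (nat_lit 1) (nat_lit 4) (nat_lit 342) (nat_lit 191) (nat_lit 187)) (XT.lf (nat_lit 0) (nat_lit 47553996364) (nat_lit 152) (nat_lit 117917923207) (nat_lit 0) (nat_lit 47046220780) (nat_lit 1) (nat_lit 5) (nat_lit 3) (nat_lit 4) (nat_lit 1) (nat_lit 4) (nat_lit 343) (nat_lit 191) (nat_lit 186)))) (XT.nd (nat_lit 156) (nat_lit 0) (nat_lit 0) (XT.nd (nat_lit 78) (nat_lit 0) (nat_lit 0) (XT.lf (nat_lit 0) (nat_lit 51071444655) (nat_lit 152) (nat_lit 121532096711) (nat_lit 0) (nat_lit 50476150420) (nat_lit 1) (nat_lit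 5) (nat_lit 3) (nat_lit 4) (nat_lit 1) (nat_lit 4) (nat_lit 344) (nat_lit 191) (nat_lit 185)) (XT.lf (nat_lit 0) (nat_lit 54728568667) (nat_lit 152) (nat_lit 125392681932) (nat_lit 0) (nat_lit 54049923335) (nat_lit 1) (nat_lit 5) (nat_lit 3) (nat_lit 4) (nat_lit 1) (nat_lit 4) (nat_lit 345) (nat_lit 191) (nat_lit 184))) (XT.nd (nat_lit 78) (nat_lit 0) (nat_lit 0) (XT.lf (nat_lit 0) (nat_lit 58534075839) (nat_lit 152) (nat_lit 129508870738) (nat_lit 0) (nat_lit 57776048511) (nat_lit 1) (nat_lit 5) (nat_lit 3) (nat_lit 4) (nat_lit 1) (nat_lit 4) (nat_lit 346) (nat_lit 191) (nat_lit 183)) (XT.nd (nat_lit 78) (nat_lit 0) (nat_lit 0) (XT.lf (nat_lit 0) (nat_lit 62497026902) (nat_lit 152) (nat_lit 133890463579) (nat_lit 0) (nat_lit 61663397672) (nat_lit 1) (nat_lit 5) (nat_lit 3) (nat_lit 4) (nat_lit 1) (nat_lit 4) (nat_lit 347) (nat_lit 191) (nat_lit 182)) (XT.lf (nat_lit 0) (nat_lit 66626857454)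 (nat_lit 152) (nat_lit 138547892820) (nat_lit 0) (nat_lit 65721226413) (nat_lit 1) (nat_lit 5) (nat_lit 3) (nat_lit 4) (nat_lit 1) (nat_lit 4) (nat_lit 348) (nat_lit 191) (nat_lit 181))))))) (XT.nd (nat_lit 702) (nat_lit 0) (nat_lit 0) (XT.nd (nat_lit 312) (nat_lit 0) (nat_lit 0) (XT.nd (nat_lit 156) (nat_lit 0) (nat_lit 0) (XT.nd (nat_lit 78) (nat_lit 0) (nat_lit 0) (XT.lf (nat_lit 0) (nat_lit 70933400424) (nat_lit 152) (nat_lit 143492247577) (nat_lit 0) (nat_lit 69959196231) (nat_lit 1) (nat_lit 5) (nat_lit 3) (nat_lit 4) (nat_lit 1) (nat_lit 4) (nat_lit 349) (nat_lit 191) (nat_lit 180)) (XT.lf (nat_lit 0) (nat_lit 75426909488) (nat_lit 152) (nat_lit 148735300124) (nat_lit 0) (nat_lit 74387397529) (nat_lit 1) (nat_lit 5) (nat_lit 3) (nat_lit 4) (nat_lit 1) (nat_lit 4) (nat_lit 350) (nat_lit 191) (nat_lit 179))) (XT.nd (nat_lit 78) (nat_lit 0) (nat_lit 0) (XT.lf (nat_lit 0) (nat_lit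 80118083475) (nat_lit 152) (nat_lit 154289533918) (nat_lit 0) (nat_lit 79016373645) (nat_lit 1) (nat_lit 5) (nat_lit 3) (nat_lit 4) (nat_lit 1) (nat_lit 4) (nat_lit 351) (nat_lit 191) (nat_lit 178)) (XT.lf (nat_lit 0) (nat_lit 85018091848) (nat_lit 152) (nat_lit 160168173327) (nat_lit 0) (nat_lit 83857145950) (nat_lit 1) (nat_lit 5) (nat_lit 3) (nat_lit 4) (nat_lit 1) (nat_lit 4) (nat_lit 352) (nat_lit 191) (nat_lit 177)))) (XT.nd (nat_lit 156) (nat_lit 0) (nat_lit 0) (XT.nd (nat_lit 78) (nat_lit 0) (nat_lit 0) (XT.lf (nat_lit 0) (nat_lit 90138601292) (nat_lit 152) (nat_lit 166385215111) (nat_lit 0) (nat_lit 88921240092) (nat_lit 1) (nat_lit 5) (nat_lit 3) (nat_lit 4) (nat_lit 1) (nat_lit 4) (nat_lit 353) (nat_lit 191) (nat_lit 176)) (XT.lf (nat_lit 0) (nat_lit 95491803498) (nat_lit 152) (nat_lit 172955461750) (nat_lit 0) (nat_lit 94220713438) (nat_lit 1) (nat_lit 5) (nat_lit 3) (nat_lit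 4) (nat_lit 1) (nat_lit 4) (nat_lit 354) (nat_lit 191) (nat_lit 175))) (XT.nd (nat_lit 78) (nat_lit 0) (nat_lit 0) (XT.lf (nat_lit 0) (nat_lit 101090444185) (nat_lit 152) (nat_lit 179894556688) (nat_lit 0) (nat_lit 99768183782) (nat_lit 1) (nat_lit 5) (nat_lit 3) (nat_lit 4) (nat_lit 1) (nat_lit 4) (nat_lit 355) (nat_lit 191) (nat_lit 174)) (XT.nd (nat_lit 78) (nat_lit 0) (nat_lit 0) (XT.lf (nat_lit 0) (nat_lit 106947853450) (nat_lit 152) (nat_lit 187219021581) (nat_lit 0) (nat_lit 105576859387) (nat_lit 1) (nat_lit 5) (nat_lit 3) (nat_lit 4) (nat_lit 1) (nat_lit 4) (nat_lit 356) (nat_lit 191) (nat_lit 173)) (XT.lf (nat_lit 0) (nat_lit 113077977505) (nat_lit 152) (nat_lit 194946295630) (nat_lit 0) (nat_lit 111660570432) (nat_lit 1) (nat_lit 5) (nat_lit 3) (nat_lit 4) (nat_lit 1) (nat_lit 4) (nat_lit 357) (nat_lit 191) (nat_lit 172)))))) (XT.nd (nat_lit 312) (nat_lit 0) (nat_lit 0) (XT.nd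 (nat_lit 156) (nat_lit 0) (nat_lit 0) (XT.nd (nat_lit 78) (nat_lit 0) (nat_lit 0) (XT.lf (nat_lit 0) (nat_lit 119495411884) (nat_lit 152) (nat_lit 203094777107) (nat_lit 0) (nat_lit 118033801945) (nat_lit 1) (nat_lit 5) (nat_lit 3) (nat_lit 4) (nat_lit 1) (nat_lit 4) (nat_lit 358) (nat_lit 191) (nat_lit 171)) (XT.lf (nat_lit 0) (nat_lit 126215436192) (nat_lit 152) (nat_lit 211683867158) (nat_lit 0) (nat_lit 124711728285) (nat_lit 1) (nat_lit 5) (nat_lit 3) (nat_lit 4) (nat_lit 1) (nat_lit 4) (nat_lit 359) (nat_lit 191) (nat_lit 170))) (XT.nd (nat_lit 78) (nat_lit 0) (nat_lit 0) (XT.lf (nat_lit 0) (nat_lit 133254050487) (nat_lit 152) (nat_lit 220734015997) (nat_lit 0) (nat_lit 131710249278) (nat_lit 1) (nat_lit 5) (nat_lit 3) (nat_lit 4) (nat_lit 1) (nat_lit 4) (nat_lit 360) (nat_lit 191) (nat_lit 169)) (XT.lf (nat_lit 0) (nat_lit 140628013375) (nat_lit 152) (nat_lit 230266771599) (nat_lit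 0) (nat_lit 139046028068) (nat_lit 1) (nat_lit 5) (nat_lit 3) (nat_lit 4) (nat_lit 1) (nat_lit 4) (nat_lit 361) (nat_lit 191) (nat_lit 168)))) (XT.nd (nat_lit 156) (nat_lit 0) (nat_lit 0) (XT.nd (nat_lit 78) (nat_lit 0) (nat_lit 0) (XT.lf (nat_lit 0) (nat_lit 148354881910) (nat_lit 152) (nat_lit 240304831000) (nat_lit 0) (nat_lit 146736530796) (nat_lit 1) (nat_lit 5) (nat_lit 3) (nat_lit 4) (nat_lit 1) (nat_lit 4) (nat_lit 362) (nat_lit 191) (nat_lit 167)) (XT.lf (nat_lit 0) (nat_lit 156453053398) (nat_lit 152) (nat_lit 250872094342) (nat_lit 0) (nat_lit 154800068183) (nat_lit 1) (nat_lit 5) (nat_lit 3) (nat_lit 4) (nat_lit 1) (nat_lit 4) (nat_lit 363) (nat_lit 191) (nat_lit 166))) (XT.nd (nat_lit 78) (nat_lit 0) (nat_lit 0) (XT.lf (nat_lit 0) (nat_lit 164941809201) (nat_lit 152) (nat_lit 261993721775) (nat_lit 0) (nat_lit 163255839126) (nat_lit 1) (nat_lit 5) (nat_lit 3) (nat_lit 4)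 (nat_lit 1) (nat_lit 4) (nat_lit 364) (nat_lit 191) (nat_lit 165)) (XT.nd (nat_lit 35256) (nat_lit 0) (nat_lit 0) (XT.lf (nat_lit 0) (nat_lit 173841360640) (nat_lit 152) (nat_lit 273696193364) (nat_lit 0) (nat_lit 172123976414) (nat_lit 1) (nat_lit 5) (nat_lit 3) (nat_lit 4) (nat_lit 1) (nat_lit 4) (nat_lit 365) (nat_lit 191) (nat_lit 164)) (XT.lf (nat_lit 0) (nat_lit 13159222999) (nat_lit 152) (nat_lit 49409671135) (nat_lit 0) (nat_lit 13159222999) (nat_lit 1) (nat_lit 5) (nat_lit 3) (nat_lit 4) (nat_lit 1) (nat_lit 4) (nat_lit 336) (nat_lit 192) (nat_lit 192))))))))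
noncomputable def xc6 : XT := (XT.nd (nat_lit 1326) (nat_lit 0) (nat_lit 0) (XT.nd (nat_lit 624) (nat_lit 0) (nat_lit 0) (XT.nd (nat_lit 312) (nat_lit 0) (nat_lit 0) (XT.nd (nat_lit 156) (nat_lit 0) (nat_lit 0) (XT.nd (nat_lit 78) (nat_lit 0) (nat_lit 0) (XT.lf (nat_lit 0) (nat_lit 29051614752) (nat_lit 152) (nat_lit 100964237115) (nat_lit 0) (nat_lit 28934331390) (nat_lit 1) (nat_lit 5) (nat_lit 3) (nat_lit 4) (nat_lit 1) (nat_lit 4) (nat_lit 337) (nat_lit 192) (nat_lit 191)) (XT.lf (nat_lit 0) (nat_lit 31872934914) (nat_lit 152) (nat_lit 103304425059) (nat_lit 0) (nat_lit 31643953110) (nat_lit 1) (nat_lit 5) (nat_lit 3) (nat_lit 4) (nat_lit 1) (nat_lit 4) (nat_lit 338) (nat_lit 192) (nat_lit 190))) (XT.nd (nat_lit 78) (nat_lit 0) (nat_lit 0) (XT.lf (nat_lit 0) (nat_lit 34789123913) (nat_lit 152) (nat_lit 105845477981) (nat_lit 0) (nat_lit 34453762641) (nat_lit 1) (nat_lit 5) (nat_lit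 3) (nat_lit 4) (nat_lit 1) (nat_lit 4) (nat_lit 339) (nat_lit 192) (nat_lit 189)) (XT.lf (nat_lit 0) (nat_lit 37807125054) (nat_lit 152) (nat_lit 108593446006) (nat_lit 0) (nat_lit 37370450004) (nat_lit 1) (nat_lit 5) (nat_lit 3) (nat_lit 4) (nat_lit 1) (nat_lit 4) (nat_lit 340) (nat_lit 192) (nat_lit 188)))) (XT.nd (nat_lit 156) (nat_lit 0) (nat_lit 0) (XT.nd (nat_lit 78) (nat_lit 0) (nat_lit 0) (XT.lf (nat_lit 0) (nat_lit 40934124057) (nat_lit 152) (nat_lit 111554871915) (nat_lit 0) (nat_lit 40400959694) (nat_lit 1) (nat_lit 5) (nat_lit 3) (nat_lit 4) (nat_lit 1) (nat_lit 4) (nat_lit 341) (nat_lit 192) (nat_lit 187)) (XT.lf (nat_lit 0) (nat_lit 44177566155) (nat_lit 152) (nat_lit 114736806722) (nat_lit 0) (nat_lit 43552507209) (nat_lit 1) (nat_lit 5) (nat_lit 3) (nat_lit 4) (nat_lit 1) (nat_lit 4) (nat_lit 342) (nat_lit 192) (nat_lit 186))) (XT.nd (nat_lit 78) (nat_lit 0) (nat_lit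 0) (XT.lf (nat_lit 0) (nat_lit 47545173831) (nat_lit 152) (nat_lit 118146826462) (nat_lit 0) (nat_lit 46832596234) (nat_lit 1) (nat_lit 5) (nat_lit 3) (nat_lit 4) (nat_lit 1) (nat_lit 4) (nat_lit 343) (nat_lit 192) (nat_lit 185)) (XT.lf (nat_lit 0) (nat_lit 51044965198) (nat_lit 152) (nat_lit 121793050231) (nat_lit 0) (nat_lit 50249036504) (nat_lit 1) (nat_lit 5) (nat_lit 3) (nat_lit 4) (nat_lit 1) (nat_lit 4) (nat_lit 344) (nat_lit 192) (nat_lit 184))))) (XT.nd (nat_lit 312) (nat_lit 0) (nat_lit 0) (XT.nd (nat_lit 156) (nat_lit 0) (nat_lit 0) (XT.nd (nat_lit 78) (nat_lit 0) (nat_lit 0) (XT.lf (nat_lit 0) (nat_lit 54685273093) (nat_lit 152) (nat_lit 125684159512) (nat_lit 0) (nat_lit 53809962402) (nat_lit 1) (nat_lit 5) (nat_lit 3) (nat_lit 4) (nat_lit 1) (nat_lit 4) (nat_lit 345) (nat_lit 192) (nat_lit 183)) (XT.lf (nat_lit 0) (nat_lit 58474764915) (nat_lit 152) (nat_lit 129829418852)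 (nat_lit 0) (nat_lit 57523852323) (nat_lit 1) (nat_lit 5) (nat_lit 3) (nat_lit 4) (nat_lit 1) (nat_lit 4) (nat_lit 346) (nat_lit 192) (nat_lit 182))) (XT.nd (nat_lit 78) (nat_lit 0) (nat_lit 0) (XT.lf (nat_lit 0) (nat_lit 62422463264) (nat_lit 152) (nat_lit 134238697917) (nat_lit 0) (nat_lit 61399548861) (nat_lit 1) (nat_lit 5) (nat_lit 3) (nat_lit 4) (nat_lit 1) (nat_lit 4) (nat_lit 347) (nat_lit 192) (nat_lit 181)) (XT.lf (nat_lit 0) (nat_lit 66537767421) (nat_lit 152) (nat_lit 138922494989) (nat_lit 0) (nat_lit 65446279865) (nat_lit 1) (nat_lit 5) (nat_lit 3) (nat_lit 4) (nat_lit 1) (nat_lit 4) (nat_lit 348) (nat_lit 192) (nat_lit 180)))) (XT.nd (nat_lit 156) (nat_lit 0) (nat_lit 0) (XT.nd (nat_lit 78) (nat_lit 0) (nat_lit 0) (XT.lf (nat_lit 0) (nat_lit 70830475731) (nat_lit 152) (nat_lit 143891961966) (nat_lit 0) (nat_lit 69673680409) (nat_lit 1) (nat_lit 5) (nat_lit 3) (nat_lit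 4) (nat_lit 1) (nat_lit 4) (nat_lit 349) (nat_lit 192) (nat_lit 179)) (XT.lf (nat_lit 0) (nat_lit 75310808926) (nat_lit 152) (nat_lit 149158930913) (nat_lit 0) (nat_lit 74091815733) (nat_lit 1) (nat_lit 5) (nat_lit 3) (nat_lit 4) (nat_lit 1) (nat_lit 4) (nat_lit 350) (nat_lit 192) (nat_lit 178))) (XT.nd (nat_lit 78) (nat_lit 0) (nat_lit 0) (XT.lf (nat_lit 0) (nat_lit 79989434467) (nat_lit 152) (nat_lit 154735942232) (nat_lit 0) (nat_lit 78711205207) (nat_lit 1) (nat_lit 5) (nat_lit 3) (nat_lit 4) (nat_lit 1) (nat_lit 4) (nat_lit 351) (nat_lit 192) (nat_lit 177)) (XT.nd (nat_lit 78) (nat_lit 0) (nat_lit 0) (XT.lf (nat_lit 0) (nat_lit 84877491939) (nat_lit 152) (nat_lit 160636274521) (nat_lit 0) (nat_lit 83542847376) (nat_lit 1) (nat_lit 5) (nat_lit 3) (nat_lit 4) (nat_lit 1) (nat_lit 4) (nat_lit 352) (nat_lit 192) (nat_lit 176)) (XT.lf (nat_lit 0) (nat_lit 89986619574) (nat_lit 152)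 (nat_lit 166873976190) (nat_lit 0) (nat_lit 88598246150) (nat_lit 1) (nat_lit 5) (nat_lit 3) (nat_lit 4) (nat_lit 1) (nat_lit 4) (nat_lit 353) (nat_lit 192) (nat_lit 175))))))) (XT.nd (nat_lit 702) (nat_lit 0) (nat_lit 0) (XT.nd (nat_lit 312) (nat_lit 0) (nat_lit 0) (XT.nd (nat_lit 156) (nat_lit 0) (nat_lit 0) (XT.nd (nat_lit 78) (nat_lit 0) (nat_lit 0) (XT.lf (nat_lit 0) (nat_lit 95328981961) (nat_lit 152) (nat_lit 173463898911) (nat_lit 0) (nat_lit 93889438194) (nat_lit 1) (nat_lit 5) (nat_lit 3) (nat_lit 4) (nat_lit 1) (nat_lit 4) (nat_lit 354) (nat_lit 192) (nat_lit 174)) (XT.lf (nat_lit 0) (nat_lit 100917299010) (nat_lit 152) (nat_lit 180421732975) (nat_lit 0) (nat_lit 99429021584) (nat_lit 1) (nat_lit 5) (nat_lit 3) (nat_lit 4) (nat_lit 1) (nat_lit 4) (nat_lit 355) (nat_lit 192) (nat_lit 173))) (XT.nd (nat_lit 78) (nat_lit 0) (nat_lit 0) (XT.lf (nat_lit 0) (nat_lit 106764876239)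 (nat_lit 152) (nat_lit 187764044654) (nat_lit 0) (nat_lit 105230185804) (nat_lit 1) (nat_lit 5) (nat_lit 3) (nat_lit 4) (nat_lit 1) (nat_lit 4) (nat_lit 356) (nat_lit 192) (nat_lit 172)) (XT.lf (nat_lit 0) (nat_lit 112885636451) (nat_lit 152) (nat_lit 195508315642) (nat_lit 0) (nat_lit 111306743149) (nat_lit 1) (nat_lit 5) (nat_lit 3) (nat_lit 4) (nat_lit 1) (nat_lit 4) (nat_lit 357) (nat_lit 192) (nat_lit 171)))) (XT.nd (nat_lit 156) (nat_lit 0) (nat_lit 0) (XT.nd (nat_lit 78) (nat_lit 0) (nat_lit 0) (XT.lf (nat_lit 0) (nat_lit 119294152883) (nat_lit 152) (nat_lit 203672984680) (nat_lit 0) (nat_lit 117673161614) (nat_lit 1) (nat_lit 5) (nat_lit 3) (nat_lit 4) (nat_lit 1) (nat_lit 4) (nat_lit 358) (nat_lit 192) (nat_lit 170)) (XT.lf (nat_lit 0) (nat_lit 126005683909) (nat_lit 152) (nat_lit 212277491456) (nat_lit 0) (nat_lit 124344599338) (nat_lit 1) (nat_lit 5) (nat_lit 3) (nat_lit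 4) (nat_lit 1) (nat_lit 4) (nat_lit 359) (nat_lit 192) (nat_lit 169))) (XT.nd (nat_lit 78) (nat_lit 0) (nat_lit 0) (XT.lf (nat_lit 0) (nat_lit 133036209365) (nat_lit 152) (nat_lit 221342322891) (nat_lit 0) (nat_lit 131336940695) (nat_lit 1) (nat_lit 5) (nat_lit 3) (nat_lit 4) (nat_lit 1) (nat_lit 4) (nat_lit 360) (nat_lit 192) (nat_lit 168)) (XT.nd (nat_lit 78) (nat_lit 0) (nat_lit 0) (XT.lf (nat_lit 0) (nat_lit 140402468595) (nat_lit 152) (nat_lit 230889061917) (nat_lit 0) (nat_lit 138666834119) (nat_lit 1) (nat_lit 5) (nat_lit 3) (nat_lit 4) (nat_lit 1) (nat_lit 4) (nat_lit 361) (nat_lit 192) (nat_lit 167)) (XT.lf (nat_lit 0) (nat_lit 148122000314) (nat_lit 152) (nat_lit 240940438864) (nat_lit 0) (nat_lit 146351731735) (nat_lit 1) (nat_lit 5) (nat_lit 3) (nat_lit 4) (nat_lit 1) (nat_lit 4) (nat_lit 362) (nat_lit 192) (nat_lit 166)))))) (XT.nd (nat_lit 35334) (nat_lit 0) (nat_lit 0)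 (XT.nd (nat_lit 156) (nat_lit 0) (nat_lit 0) (XT.nd (nat_lit 78) (nat_lit 0) (nat_lit 0) (XT.lf (nat_lit 0) (nat_lit 156213184358) (nat_lit 152) (nat_lit 251520385583) (nat_lit 0) (nat_lit 154409930921) (nat_lit 1) (nat_lit 5) (nat_lit 3) (nat_lit 4) (nat_lit 1) (nat_lit 4) (nat_lit 363) (nat_lit 192) (nat_lit 165)) (XT.lf (nat_lit 0) (nat_lit 164695285452) (nat_lit 152) (nat_lit 262654092424) (nat_lit 0) (nat_lit 162860617863) (nat_lit 1) (nat_lit 5) (nat_lit 3) (nat_lit 4) (nat_lit 1) (nat_lit 4) (nat_lit 364) (nat_lit 192) (nat_lit 164))) (XT.nd (nat_lit 35100) (nat_lit 0) (nat_lit 0) (XT.lf (nat_lit 0) (nat_lit 173588499074) (nat_lit 152) (nat_lit 274368068211) (nat_lit 0) (nat_lit 171723913245) (nat_lit 1) (nat_lit 5) (nat_lit 3) (nat_lit 4) (nat_lit 1) (nat_lit 4) (nat_lit 365) (nat_lit 192) (nat_lit 163)) (XT.lf (nat_lit 0) (nat_lit 10619980886) (nat_lit 152) (nat_lit 47524052151)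 (nat_lit 0) (nat_lit 10619980886) (nat_lit 1) (nat_lit 5) (nat_lit 3) (nat_lit 4) (nat_lit 1) (nat_lit 4) (nat_lit 334) (nat_lit 193) (nat_lit 193)))) (XT.nd (nat_lit 156) (nat_lit 0) (nat_lit 0) (XT.nd (nat_lit 78) (nat_lit 0) (nat_lit 0) (XT.lf (nat_lit 0) (nat_lit 23790068638) (nat_lit 152) (nat_lit 96864633635) (nat_lit 0) (nat_lit 23666921106) (nat_lit 1) (nat_lit 5) (nat_lit 3) (nat_lit 4) (nat_lit 1) (nat_lit 4) (nat_lit 335) (nat_lit 193) (nat_lit 192)) (XT.lf (nat_lit 0) (nat_lit 26416748465) (nat_lit 152) (nat_lit 98864440210) (nat_lit 0) (nat_lit 26176317571) (nat_lit 1) (nat_lit 5) (nat_lit 3) (nat_lit 4) (nat_lit 1) (nat_lit 4) (nat_lit 336) (nat_lit 193) (nat_lit 191))) (XT.nd (nat_lit 78) (nat_lit 0) (nat_lit 0) (XT.lf (nat_lit 0) (nat_lit 29126255253) (nat_lit 152) (nat_lit 101052285473) (nat_lit 0) (nat_lit 28774125918) (nat_lit 1) (nat_lit 5) (nat_lit 3) (nat_lit 4)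 (nat_lit 1) (nat_lit 4) (nat_lit 337) (nat_lit 193) (nat_lit 190)) (XT.nd (nat_lit 78) (nat_lit 0) (nat_lit 0) (XT.lf (nat_lit 0) (nat_lit 31925040209) (nat_lit 152) (nat_lit 103433378579) (nat_lit 0) (nat_lit 31466531407) (nat_lit 1) (nat_lit 5) (nat_lit 3) (nat_lit 4) (nat_lit 1) (nat_lit 4) (nat_lit 338) (nat_lit 193) (nat_lit 189)) (XT.lf (nat_lit 0) (nat_lit 34819767107) (nat_lit 152) (nat_lit 106013388797) (nat_lit 0) (nat_lit 34259944526) (nat_lit 1) (nat_lit 5) (nat_lit 3) (nat_lit 4) (nat_lit 1) (nat_lit 4) (nat_lit 339) (nat_lit 193) (nat_lit 188))))))))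
noncomputable def xc7 : XT := (XT.nd (nat_lit 1326) (nat_lit 0) (nat_lit 0) (XT.nd (nat_lit 624) (nat_lit 0) (nat_lit 0) (XT.nd (nat_lit 312) (nat_lit 0) (nat_lit 0) (XT.nd (nat_lit 156) (nat_lit 0) (nat_lit 0) (XT.nd (nat_lit 78) (nat_lit 0) (nat_lit 0) (XT.lf (nat_lit 0) (nat_lit 37817328153) (nat_lit 152) (nat_lit 108798459009) (nat_lit 0) (nat_lit 37161016259) (nat_lit 1) (nat_lit 5) (nat_lit 3) (nat_lit 4) (nat_lit 1) (nat_lit 4) (nat_lit 340) (nat_lit 193) (nat_lit 187)) (XT.lf (nat_lit 0) (nat_lit 40924860397) (nat_lit 152) (nat_lit 111795220333) (nat_lit 0) (nat_lit 40176653920) (nat_lit 1) (nat_lit 5) (nat_lit 3) (nat_lit 4) (nat_lit 1) (nat_lit 4) (nat_lit 341) (nat_lit 193) (nat_lit 186))) (XT.nd (nat_lit 78) (nat_lit 0) (nat_lit 0) (XT.lf (nat_lit 0) (nat_lit 44149762726) (nat_lit 152) (nat_lit 115010807917) (nat_lit 0) (nat_lit 43314037598) (nat_lit 1) (nat_lit 5) (nat_lit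 3) (nat_lit 4) (nat_lit 1) (nat_lit 4) (nat_lit 342) (nat_lit 193) (nat_lit 185)) (XT.lf (nat_lit 0) (nat_lit 47499713479) (nat_lit 152) (nat_lit 118452877922) (nat_lit 0) (nat_lit 46580637254) (nat_lit 1) (nat_lit 5) (nat_lit 3) (nat_lit 4) (nat_lit 1) (nat_lit 4) (nat_lit 343) (nat_lit 193) (nat_lit 184)))) (XT.nd (nat_lit 156) (nat_lit 0) (nat_lit 0) (XT.nd (nat_lit 78) (nat_lit 0) (nat_lit 0) (XT.lf (nat_lit 0) (nat_lit 50982688729) (nat_lit 152) (nat_lit 122129625751) (nat_lit 0) (nat_lit 49984230507) (nat_lit 1) (nat_lit 5) (nat_lit 3) (nat_lit 4) (nat_lit 1) (nat_lit 4) (nat_lit 344) (nat_lit 193) (nat_lit 183)) (XT.lf (nat_lit 0) (nat_lit 54606981273) (nat_lit 152) (nat_lit 126049805566) (nat_lit 0) (nat_lit 53532921150) (nat_lit 1) (nat_lit 5) (nat_lit 3) (nat_lit 4) (nat_lit 1) (nat_lit 4) (nat_lit 345) (nat_lit 193) (nat_lit 182))) (XT.nd (nat_lit 78) (nat_lit 0) (nat_lit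 0) (XT.lf (nat_lit 0) (nat_lit 58381220381) (nat_lit 152) (nat_lit 130222751129) (nat_lit 0) (nat_lit 57235158447) (nat_lit 1) (nat_lit 5) (nat_lit 3) (nat_lit 4) (nat_lit 1) (nat_lit 4) (nat_lit 346) (nat_lit 193) (nat_lit 181)) (XT.lf (nat_lit 0) (nat_lit 62314392335) (nat_lit 152) (nat_lit 134658398025) (nat_lit 0) (nat_lit 61099757248) (nat_lit 1) (nat_lit 5) (nat_lit 3) (nat_lit 4) (nat_lit 1) (nat_lit 4) (nat_lit 347) (nat_lit 193) (nat_lit 180))))) (XT.nd (nat_lit 312) (nat_lit 0) (nat_lit 0) (XT.nd (nat_lit 156) (nat_lit 0) (nat_lit 0) (XT.nd (nat_lit 78) (nat_lit 0) (nat_lit 0) (XT.lf (nat_lit 0) (nat_lit 66415861831) (nat_lit 152) (nat_lit 139367307317) (nat_lit 0) (nat_lit 65135918979) (nat_lit 1) (nat_lit 5) (nat_lit 3) (nat_lit 4) (nat_lit 1) (nat_lit 4) (nat_lit 348) (nat_lit 193) (nat_lit 179)) (XT.lf (nat_lit 0) (nat_lit 70695394273) (nat_lit 152) (nat_lit 144360690695)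 (nat_lit 0) (nat_lit 69353253549) (nat_lit 1) (nat_lit 5) (nat_lit 3) (nat_lit 4) (nat_lit 1) (nat_lit 4) (nat_lit 349) (nat_lit 193) (nat_lit 178))) (XT.nd (nat_lit 78) (nat_lit 0) (nat_lit 0) (XT.lf (nat_lit 0) (nat_lit 75163179022) (nat_lit 152) (nat_lit 149650437166) (nat_lit 0) (nat_lit 73761802230) (nat_lit 1) (nat_lit 5) (nat_lit 3) (nat_lit 4) (nat_lit 1) (nat_lit 4) (nat_lit 350) (nat_lit 193) (nat_lit 177)) (XT.lf (nat_lit 0) (nat_lit 79829853663) (nat_lit 152) (nat_lit 155249141365) (nat_lit 0) (nat_lit 78372061568) (nat_lit 1) (nat_lit 5) (nat_lit 3) (nat_lit 4) (nat_lit 1) (nat_lit 4) (nat_lit 351) (nat_lit 193) (nat_lit 176)))) (XT.nd (nat_lit 156) (nat_lit 0) (nat_lit 0) (XT.nd (nat_lit 78) (nat_lit 0) (nat_lit 0) (XT.lf (nat_lit 0) (nat_lit 84706529325) (nat_lit 152) (nat_lit 161170133540) (nat_lit 0) (nat_lit 83195008370) (nat_lit 1) (nat_lit 5) (nat_lit 3) (nat_lit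 4) (nat_lit 1) (nat_lit 4) (nat_lit 352) (nat_lit 193) (nat_lit 175)) (XT.lf (nat_lit 0) (nat_lit 89804817140) (nat_lit 152) (nat_lit 167427511292) (nat_lit 0) (nat_lit 88242125843) (nat_lit 1) (nat_lit 5) (nat_lit 3) (nat_lit 4) (nat_lit 1) (nat_lit 4) (nat_lit 353) (nat_lit 193) (nat_lit 174))) (XT.nd (nat_lit 78) (nat_lit 0) (nat_lit 0) (XT.lf (nat_lit 0) (nat_lit 95136855890) (nat_lit 152) (nat_lit 174036173138) (nat_lit 0) (nat_lit 93525430932) (nat_lit 1) (nat_lit 5) (nat_lit 3) (nat_lit 4) (nat_lit 1) (nat_lit 4) (nat_lit 354) (nat_lit 193) (nat_lit 173)) (XT.nd (nat_lit 78) (nat_lit 0) (nat_lit 0) (XT.lf (nat_lit 0) (nat_lit 100715340903) (nat_lit 152) (nat_lit 181011853988) (nat_lit 0) (nat_lit 99057502937) (nat_lit 1) (nat_lit 5) (nat_lit 3) (nat_lit 4) (nat_lit 1) (nat_lit 4) (nat_lit 355) (nat_lit 193) (nat_lit 172)) (XT.lf (nat_lit 0) (nat_lit 106553554289) (nat_lit 152)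 (nat_lit 188371162606) (nat_lit 0) (nat_lit 104851513456) (nat_lit 1) (nat_lit 5) (nat_lit 3) (nat_lit 4) (nat_lit 1) (nat_lit 4) (nat_lit 356) (nat_lit 193) (nat_lit 171))))))) (XT.nd (nat_lit 35568) (nat_lit 0) (nat_lit 0) (XT.nd (nat_lit 312) (nat_lit 0) (nat_lit 0) (XT.nd (nat_lit 156) (nat_lit 0) (nat_lit 0) (XT.nd (nat_lit 78) (nat_lit 0) (nat_lit 0) (XT.lf (nat_lit 0) (nat_lit 112665396554) (nat_lit 152) (nat_lit 196131621155) (nat_lit 0) (nat_lit 110921257754) (nat_lit 1) (nat_lit 5) (nat_lit 3) (nat_lit 4) (nat_lit 1) (nat_lit 4) (nat_lit 357) (nat_lit 193) (nat_lit 170)) (XT.lf (nat_lit 0) (nat_lit 119065419705) (nat_lit 152) (nat_lit 204311706918) (nat_lit 0) (nat_lit 117281187602) (nat_lit 1) (nat_lit 5) (nat_lit 3) (nat_lit 4) (nat_lit 1) (nat_lit 4) (nat_lit 358) (nat_lit 193) (nat_lit 169))) (XT.nd (nat_lit 78) (nat_lit 0) (nat_lit 0) (XT.lf (nat_lit 0) (nat_lit 125768861891)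 (nat_lit 152) (nat_lit 212930896289) (nat_lit 0) (nat_lit 123946445690) (nat_lit 1) (nat_lit 5) (nat_lit 3) (nat_lit 4) (nat_lit 1) (nat_lit 4) (nat_lit 359) (nat_lit 193) (nat_lit 168)) (XT.lf (nat_lit 0) (nat_lit 132791683689) (nat_lit 152) (nat_lit 222009711148) (nat_lit 0) (nat_lit 130932901681) (nat_lit 1) (nat_lit 5) (nat_lit 3) (nat_lit 4) (nat_lit 1) (nat_lit 4) (nat_lit 360) (nat_lit 193) (nat_lit 167)))) (XT.nd (nat_lit 156) (nat_lit 0) (nat_lit 0) (XT.nd (nat_lit 78) (nat_lit 0) (nat_lit 0) (XT.lf (nat_lit 0) (nat_lit 140150606103) (nat_lit 152) (nat_lit 231569767720) (nat_lit 0) (nat_lit 138257189994) (nat_lit 1) (nat_lit 5) (nat_lit 3) (nat_lit 4) (nat_lit 1) (nat_lit 4) (nat_lit 361) (nat_lit 193) (nat_lit 166)) (XT.lf (nat_lit 0) (nat_lit 147863150378) (nat_lit 152) (nat_lit 241633828046) (nat_lit 0) (nat_lit 145936749409) (nat_lit 1) (nat_lit 5) (nat_lit 3) (nat_lit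 4) (nat_lit 1) (nat_lit 4) (nat_lit 362) (nat_lit 193) (nat_lit 165))) (XT.nd (nat_lit 78) (nat_lit 0) (nat_lit 0) (XT.lf (nat_lit 0) (nat_lit 155947679714) (nat_lit 152) (nat_lit 252225854172) (nat_lit 0) (nat_lit 153989864593) (nat_lit 1) (nat_lit 5) (nat_lit 3) (nat_lit 4) (nat_lit 1) (nat_lit 4) (nat_lit 363) (nat_lit 193) (nat_lit 164)) (XT.nd (nat_lit 78) (nat_lit 0) (nat_lit 0) (XT.lf (nat_lit 0) (nat_lit 164423442989) (nat_lit 152) (nat_lit 263371065210) (nat_lit 0) (nat_lit 162435709629) (nat_lit 1) (nat_lit 5) (nat_lit 3) (nat_lit 4) (nat_lit 1) (nat_lit 4) (nat_lit 364) (nat_lit 193) (nat_lit 163)) (XT.lf (nat_lit 0) (nat_lit 173310620594) (nat_lit 152) (nat_lit 275095997376) (nat_lit 0) (nat_lit 171294393673) (nat_lit 1) (nat_lit 5) (nat_lit 3) (nat_lit 4) (nat_lit 1) (nat_lit 4) (nat_lit 365) (nat_lit 193) (nat_lit 162)))))) (XT.nd (nat_lit 312) (nat_lit 0) (nat_lit 0)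 (XT.nd (nat_lit 156) (nat_lit 0) (nat_lit 0) (XT.nd (nat_lit 78) (nat_lit 0) (nat_lit 0) (XT.lf (nat_lit 0) (nat_lit 8251022322) (nat_lit 152) (nat_lit 45949141343) (nat_lit 0) (nat_lit 8251022322) (nat_lit 1) (nat_lit 5) (nat_lit 3) (nat_lit 4) (nat_lit 1) (nat_lit 4) (nat_lit 332) (nat_lit 194) (nat_lit 194)) (XT.lf (nat_lit 0) (nat_lit 18889661092) (nat_lit 152) (nat_lit 93410527144) (nat_lit 0) (nat_lit 18760356184) (nat_lit 1) (nat_lit 5) (nat_lit 3) (nat_lit 4) (nat_lit 1) (nat_lit 4) (nat_lit 333) (nat_lit 194) (nat_lit 193))) (XT.nd (nat_lit 78) (nat_lit 0) (nat_lit 0) (XT.lf (nat_lit 0) (nat_lit 21343179362) (nat_lit 152) (nat_lit 95095457140) (nat_lit 0) (nat_lit 21090726923) (nat_lit 1) (nat_lit 5) (nat_lit 3) (nat_lit 4) (nat_lit 1) (nat_lit 4) (nat_lit 334) (nat_lit 194) (nat_lit 192)) (XT.lf (nat_lit 0) (nat_lit 23868441163) (nat_lit 152) (nat_lit 96957084412) (nat_lit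 0) (nat_lit 23498705362) (nat_lit 1) (nat_lit 5) (nat_lit 3) (nat_lit 4) (nat_lit 1) (nat_lit 4) (nat_lit 335) (nat_lit 194) (nat_lit 191)))) (XT.nd (nat_lit 156) (nat_lit 0) (nat_lit 0) (XT.nd (nat_lit 78) (nat_lit 0) (nat_lit 0) (XT.lf (nat_lit 0) (nat_lit 26471459025) (nat_lit 152) (nat_lit 98999841406) (nat_lit 0) (nat_lit 25990024782) (nat_lit 1) (nat_lit 5) (nat_lit 3) (nat_lit 4) (nat_lit 1) (nat_lit 4) (nat_lit 336) (nat_lit 194) (nat_lit 190)) (XT.lf (nat_lit 0) (nat_lit 29158430607) (nat_lit 152) (nat_lit 101228591830) (nat_lit 0) (nat_lit 28570616897) (nat_lit 1) (nat_lit 5) (nat_lit 3) (nat_lit 4) (nat_lit 1) (nat_lit 4) (nat_lit 337) (nat_lit 194) (nat_lit 189))) (XT.nd (nat_lit 78) (nat_lit 0) (nat_lit 0) (XT.lf (nat_lit 0) (nat_lit 31935753463) (nat_lit 152) (nat_lit 103648642231) (nat_lit 0) (nat_lit 31246625974) (nat_lit 1) (nat_lit 5) (nat_lit 3) (nat_lit 4) (nat_lit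 1) (nat_lit 4) (nat_lit 338) (nat_lit 194) (nat_lit 188)) (XT.nd (nat_lit 78) (nat_lit 0) (nat_lit 0) (XT.lf (nat_lit 0) (nat_lit 34810040265) (nat_lit 152) (nat_lit 106265754636) (nat_lit 0) (nat_lit 34024423463) (nat_lit 1) (nat_lit 5) (nat_lit 3) (nat_lit 4) (nat_lit 1) (nat_lit 4) (nat_lit 339) (nat_lit 194) (nat_lit 187)) (XT.lf (nat_lit 0) (nat_lit 37788134553) (nat_lit 152) (nat_lit 109086160264) (nat_lit 0) (nat_lit 36910623167) (nat_lit 1) (nat_lit 5) (nat_lit 3) (nat_lit 4) (nat_lit 1) (nat_lit 4) (nat_lit 340) (nat_lit 194) (nat_lit 186))))))))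
noncomputable def xc8 : XT := (XT.nd (nat_lit 1326) (nat_lit 0) (nat_lit 0) (XT.nd (nat_lit 624) (nat_lit 0) (nat_lit 0) (XT.nd (nat_lit 312) (nat_lit 0) (nat_lit 0) (XT.nd (nat_lit 156) (nat_lit 0) (nat_lit 0) (XT.nd (nat_lit 78) (nat_lit 0) (nat_lit 0) (XT.lf (nat_lit 0) (nat_lit 40877127027) (nat_lit 152) (nat_lit 112116574365) (nat_lit 0) (nat_lit 39912096991) (nat_lit 1) (nat_lit 5) (nat_lit 3) (nat_lit 4) (nat_lit 1) (nat_lit 4) (nat_lit 341) (nat_lit 194) (nat_lit 185)) (XT.lf (nat_lit 0) (nat_lit 44084372433) (nat_lit 152) (nat_lit 115364212213) (nat_lit 0) (nat_lit 43035991300) (nat_lit 1) (nat_lit 5) (nat_lit 3) (nat_lit 4) (nat_lit 1) (nat_lit 4) (nat_lit 342) (nat_lit 194) (nat_lit 184))) (XT.nd (nat_lit 78) (nat_lit 0) (nat_lit 0) (XT.lf (nat_lit 0) (nat_lit 47417507069) (nat_lit 152) (nat_lit 118836806278) (nat_lit 0) (nat_lit 46289743939) (nat_lit 1) (nat_lit 5) (nat_lit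 3) (nat_lit 4) (nat_lit 1) (nat_lit 4) (nat_lit 343) (nat_lit 194) (nat_lit 183)) (XT.lf (nat_lit 0) (nat_lit 50884466968) (nat_lit 152) (nat_lit 122542624641) (nat_lit 0) (nat_lit 49681101937) (nat_lit 1) (nat_lit 5) (nat_lit 3) (nat_lit 4) (nat_lit 1) (nat_lit 4) (nat_lit 344) (nat_lit 194) (nat_lit 182)))) (XT.nd (nat_lit 156) (nat_lit 0) (nat_lit 0) (XT.nd (nat_lit 78) (nat_lit 0) (nat_lit 0) (XT.lf (nat_lit 0) (nat_lit 54493506799) (nat_lit 152) (nat_lit 126490490680) (nat_lit 0) (nat_lit 53218139957) (nat_lit 1) (nat_lit 5) (nat_lit 3) (nat_lit 4) (nat_lit 1) (nat_lit 4) (nat_lit 345) (nat_lit 194) (nat_lit 181)) (XT.lf (nat_lit 0) (nat_lit 58253219512) (nat_lit 152) (nat_lit 130689804075) (nat_lit 0) (nat_lit 56909279517) (nat_lit 1) (nat_lit 5) (nat_lit 3) (nat_lit 4) (nat_lit 1) (nat_lit 4) (nat_lit 346) (nat_lit 194) (nat_lit 180))) (XT.nd (nat_lit 78) (nat_lit 0) (nat_lit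 0) (XT.lf (nat_lit 0) (nat_lit 62172556805) (nat_lit 152) (nat_lit 135150563191) (nat_lit 0) (nat_lit 60763309045) (nat_lit 1) (nat_lit 5) (nat_lit 3) (nat_lit 4) (nat_lit 1) (nat_lit 4) (nat_lit 347) (nat_lit 194) (nat_lit 179)) (XT.lf (nat_lit 0) (nat_lit 66260850433) (nat_lit 152) (nat_lit 139883388883) (nat_lit 0) (nat_lit 64789404801) (nat_lit 1) (nat_lit 5) (nat_lit 3) (nat_lit 4) (nat_lit 1) (nat_lit 4) (nat_lit 348) (nat_lit 194) (nat_lit 178))))) (XT.nd (nat_lit 312) (nat_lit 0) (nat_lit 0) (XT.nd (nat_lit 156) (nat_lit 0) (nat_lit 0) (XT.nd (nat_lit 78) (nat_lit 0) (nat_lit 0) (XT.lf (nat_lit 0) (nat_lit 70527834428) (nat_lit 152) (nat_lit 144899549785) (nat_lit 0) (nat_lit 68997152729) (nat_lit 1) (nat_lit 5) (nat_lit 3) (nat_lit 4) (nat_lit 1) (nat_lit 4) (nat_lit 349) (nat_lit 194) (nat_lit 177)) (XT.lf (nat_lit 0) (nat_lit 74983668277) (nat_lit 152) (nat_lit 150210989137)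 (nat_lit 0) (nat_lit 73396571275) (nat_lit 1) (nat_lit 5) (nat_lit 3) (nat_lit 4) (nat_lit 1) (nat_lit 4) (nat_lit 350) (nat_lit 194) (nat_lit 176))) (XT.nd (nat_lit 78) (nat_lit 0) (nat_lit 0) (XT.lf (nat_lit 0) (nat_lit 79638961108) (nat_lit 152) (nat_lit 155830353222) (nat_lit 0) (nat_lit 77998135245) (nat_lit 1) (nat_lit 5) (nat_lit 3) (nat_lit 4) (nat_lit 1) (nat_lit 4) (nat_lit 351) (nat_lit 194) (nat_lit 175)) (XT.lf (nat_lit 0) (nat_lit 84504796950) (nat_lit 152) (nat_lit 161771021478) (nat_lit 0) (nat_lit 82812800745) (nat_lit 1) (nat_lit 5) (nat_lit 3) (nat_lit 4) (nat_lit 1) (nat_lit 4) (nat_lit 352) (nat_lit 194) (nat_lit 174)))) (XT.nd (nat_lit 156) (nat_lit 0) (nat_lit 0) (XT.nd (nat_lit 78) (nat_lit 0) (nat_lit 0) (XT.lf (nat_lit 0) (nat_lit 89592761128) (nat_lit 152) (nat_lit 168047138355) (nat_lit 0) (nat_lit 87852031263) (nat_lit 1) (nat_lit 5) (nat_lit 3) (nat_lit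 4) (nat_lit 1) (nat_lit 4) (nat_lit 353) (nat_lit 194) (nat_lit 173)) (XT.lf (nat_lit 0) (nat_lit 94914967842) (nat_lit 152) (nat_lit 174673646987) (nat_lit 0) (nat_lit 93127824967) (nat_lit 1) (nat_lit 5) (nat_lit 3) (nat_lit 4) (nat_lit 1) (nat_lit 4) (nat_lit 354) (nat_lit 194) (nat_lit 172))) (XT.nd (nat_lit 78) (nat_lit 0) (nat_lit 0) (XT.lf (nat_lit 0) (nat_lit 100484089012) (nat_lit 152) (nat_lit 181666324777) (nat_lit 0) (nat_lit 98652743272) (nat_lit 1) (nat_lit 5) (nat_lit 3) (nat_lit 4) (nat_lit 1) (nat_lit 4) (nat_lit 355) (nat_lit 194) (nat_lit 171)) (XT.nd (nat_lit 78) (nat_lit 0) (nat_lit 0) (XT.lf (nat_lit 0) (nat_lit 106313384452) (nat_lit 152) (nat_lit 189041820956) (nat_lit 0) (nat_lit 104439940744) (nat_lit 1) (nat_lit 5) (nat_lit 3) (nat_lit 4) (nat_lit 1) (nat_lit 4) (nat_lit 356) (nat_lit 194) (nat_lit 170)) (XT.lf (nat_lit 0) (nat_lit 112416733435) (nat_lit 152)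 (nat_lit 196817696230) (nat_lit 0) (nat_lit 110503196425) (nat_lit 1) (nat_lit 5) (nat_lit 3) (nat_lit 4) (nat_lit 1) (nat_lit 4) (nat_lit 357) (nat_lit 194) (nat_lit 169))))))) (XT.nd (nat_lit 35412) (nat_lit 0) (nat_lit 0) (XT.nd (nat_lit 312) (nat_lit 0) (nat_lit 0) (XT.nd (nat_lit 156) (nat_lit 0) (nat_lit 0) (XT.nd (nat_lit 78) (nat_lit 0) (nat_lit 0) (XT.lf (nat_lit 0) (nat_lit 118808667746) (nat_lit 152) (nat_lit 205012464588) (nat_lit 0) (nat_lit 116856946638) (nat_lit 1) (nat_lit 5) (nat_lit 3) (nat_lit 4) (nat_lit 1) (nat_lit 4) (nat_lit 358) (nat_lit 194) (nat_lit 168)) (XT.lf (nat_lit 0) (nat_lit 125504406274) (nat_lit 152) (nat_lit 213645637383) (nat_lit 0) (nat_lit 123516319359) (nat_lit 1) (nat_lit 5) (nat_lit 3) (nat_lit 4) (nat_lit 1) (nat_lit 4) (nat_lit 359) (nat_lit 194) (nat_lit 167))) (XT.nd (nat_lit 78) (nat_lit 0) (nat_lit 0) (XT.lf (nat_lit 0) (nat_lit 132519891256)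 (nat_lit 152) (nat_lit 222737769789) (nat_lit 0) (nat_lit 130497170239) (nat_lit 1) (nat_lit 5) (nat_lit 3) (nat_lit 4) (nat_lit 1) (nat_lit 4) (nat_lit 360) (nat_lit 194) (nat_lit 166)) (XT.lf (nat_lit 0) (nat_lit 139871826226) (nat_lit 152) (nat_lit 232310509739) (nat_lit 0) (nat_lit 137816120350) (nat_lit 1) (nat_lit 5) (nat_lit 3) (nat_lit 4) (nat_lit 1) (nat_lit 4) (nat_lit 361) (nat_lit 194) (nat_lit 165)))) (XT.nd (nat_lit 156) (nat_lit 0) (nat_lit 0) (XT.nd (nat_lit 78) (nat_lit 0) (nat_lit 0) (XT.lf (nat_lit 0) (nat_lit 147577715792) (nat_lit 152) (nat_lit 242386649472) (nat_lit 0) (nat_lit 145490595764) (nat_lit 1) (nat_lit 5) (nat_lit 3) (nat_lit 4) (nat_lit 1) (nat_lit 4) (nat_lit 362) (nat_lit 194) (nat_lit 164)) (XT.lf (nat_lit 0) (nat_lit 155655907310) (nat_lit 152) (nat_lit 252990179796) (nat_lit 0) (nat_lit 153538869042) (nat_lit 1) (nat_lit 5) (nat_lit 3) (nat_lit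 4) (nat_lit 1) (nat_lit 4) (nat_lit 363) (nat_lit 194) (nat_lit 163))) (XT.nd (nat_lit 78) (nat_lit 0) (nat_lit 0) (XT.lf (nat_lit 0) (nat_lit 164125634569) (nat_lit 152) (nat_lit 264146347212) (nat_lit 0) (nat_lit 161980102740) (nat_lit 1) (nat_lit 5) (nat_lit 3) (nat_lit 4) (nat_lit 1) (nat_lit 4) (nat_lit 364) (nat_lit 194) (nat_lit 162)) (XT.nd (nat_lit 34788) (nat_lit 0) (nat_lit 0) (XT.lf (nat_lit 0) (nat_lit 173007063586) (nat_lit 152) (nat_lit 275881714024) (nat_lit 0) (nat_lit 170834395032) (nat_lit 1) (nat_lit 5) (nat_lit 3) (nat_lit 4) (nat_lit 1) (nat_lit 4) (nat_lit 365) (nat_lit 194) (nat_lit 161)) (XT.lf (nat_lit 0) (nat_lit 6033226401) (nat_lit 152) (nat_lit 44662822070) (nat_lit 0) (nat_lit 6033226401) (nat_lit 1) (nat_lit 5) (nat_lit 3) (nat_lit 4) (nat_lit 1) (nat_lit 4) (nat_lit 330) (nat_lit 195) (nat_lit 195)))))) (XT.nd (nat_lit 312) (nat_lit 0) (nat_lit 0) (XT.nd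 (nat_lit 156) (nat_lit 0) (nat_lit 0) (XT.nd (nat_lit 78) (nat_lit 0) (nat_lit 0) (XT.lf (nat_lit 0) (nat_lit 14310415369) (nat_lit 152) (nat_lit 90555123186) (nat_lit 0) (nat_lit 14174645216) (nat_lit 1) (nat_lit 5) (nat_lit 3) (nat_lit 4) (nat_lit 1) (nat_lit 4) (nat_lit 331) (nat_lit 195) (nat_lit 194)) (XT.lf (nat_lit 0) (nat_lit 16610423113) (nat_lit 152) (nat_lit 91948003166) (nat_lit 0) (nat_lit 16345348053) (nat_lit 1) (nat_lit 5) (nat_lit 3) (nat_lit 4) (nat_lit 1) (nat_lit 4) (nat_lit 332) (nat_lit 195) (nat_lit 193))) (XT.nd (nat_lit 78) (nat_lit 0) (nat_lit 0) (XT.lf (nat_lit 0) (nat_lit 18971952244) (nat_lit 152) (nat_lit 93507600460) (nat_lit 0) (nat_lit 18583729652) (nat_lit 1) (nat_lit 5) (nat_lit 3) (nat_lit 4) (nat_lit 1) (nat_lit 4) (nat_lit 333) (nat_lit 195) (nat_lit 192)) (XT.lf (nat_lit 0) (nat_lit 21400625450) (nat_lit 152) (nat_lit 95237628395) (nat_lit 0) (nat_lit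 20895119495) (nat_lit 1) (nat_lit 5) (nat_lit 3) (nat_lit 4) (nat_lit 1) (nat_lit 4) (nat_lit 334) (nat_lit 195) (nat_lit 191)))) (XT.nd (nat_lit 156) (nat_lit 0) (nat_lit 0) (XT.nd (nat_lit 78) (nat_lit 0) (nat_lit 0) (XT.lf (nat_lit 0) (nat_lit 23902225285) (nat_lit 152) (nat_lit 97142206086) (nat_lit 0) (nat_lit 23285020890) (nat_lit 1) (nat_lit 5) (nat_lit 3) (nat_lit 4) (nat_lit 1) (nat_lit 4) (nat_lit 335) (nat_lit 195) (nat_lit 190)) (XT.lf (nat_lit 0) (nat_lit 26482707941) (nat_lit 152) (nat_lit 99225868241) (nat_lit 0) (nat_lit 25759124078) (nat_lit 1) (nat_lit 5) (nat_lit 3) (nat_lit 4) (nat_lit 1) (nat_lit 4) (nat_lit 336) (nat_lit 195) (nat_lit 189))) (XT.nd (nat_lit 78) (nat_lit 0) (nat_lit 0) (XT.lf (nat_lit 0) (nat_lit 29148217423) (nat_lit 152) (nat_lit 101493575961) (nat_lit 0) (nat_lit 28323319781) (nat_lit 1) (nat_lit 5) (nat_lit 3) (nat_lit 4) (nat_lit 1) (nat_lit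 4) (nat_lit 337) (nat_lit 195) (nat_lit 188)) (XT.nd (nat_lit 78) (nat_lit 0) (nat_lit 0) (XT.lf (nat_lit 0) (nat_lit 31905100183) (nat_lit 152) (nat_lit 103950728549) (nat_lit 0) (nat_lit 30983713228) (nat_lit 1) (nat_lit 5) (nat_lit 3) (nat_lit 4) (nat_lit 1) (nat_lit 4) (nat_lit 338) (nat_lit 195) (nat_lit 187)) (XT.lf (nat_lit 0) (nat_lit 34759920226) (nat_lit 152) (nat_lit 106603176370) (nat_lit 0) (nat_lit 33746638688) (nat_lit 1) (nat_lit 5) (nat_lit 3) (nat_lit 4) (nat_lit 1) (nat_lit 4) (nat_lit 339) (nat_lit 195) (nat_lit 186))))))))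
noncomputable def xc9 : XT := (XT.nd (nat_lit 1326) (nat_lit 0) (nat_lit 0) (XT.nd (nat_lit 624) (nat_lit 0) (nat_lit 0) (XT.nd (nat_lit 312) (nat_lit 0) (nat_lit 0) (XT.nd (nat_lit 156) (nat_lit 0) (nat_lit 0) (XT.nd (nat_lit 78) (nat_lit 0) (nat_lit 0) (XT.lf (nat_lit 0) (nat_lit 37719474745) (nat_lit 152) (nat_lit 109457234774) (nat_lit 0) (nat_lit 36618674555) (nat_lit 1) (nat_lit 5) (nat_lit 3) (nat_lit 4) (nat_lit 1) (nat_lit 4) (nat_lit 340) (nat_lit 195) (nat_lit 185)) (XT.lf (nat_lit 0) (nat_lit 40790810296) (nat_lit 152) (nat_lit 112519699140) (nat_lit 0) (nat_lit 39606659010) (nat_lit 1) (nat_lit 5) (nat_lit 3) (nat_lit 4) (nat_lit 1) (nat_lit 4) (nat_lit 341) (nat_lit 195) (nat_lit 184))) (XT.nd (nat_lit 78) (nat_lit 0) (nat_lit 0) (XT.lf (nat_lit 0) (nat_lit 43981239585) (nat_lit 152) (nat_lit 115797861049) (nat_lit 0) (nat_lit 42717706302) (nat_lit 1) (nat_lit 5) (nat_lit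 3) (nat_lit 4) (nat_lit 1) (nat_lit 4) (nat_lit 342) (nat_lit 195) (nat_lit 183)) (XT.lf (nat_lit 0) (nat_lit 47298358870) (nat_lit 152) (nat_lit 119299525648) (nat_lit 0) (nat_lit 45959223686) (nat_lit 1) (nat_lit 5) (nat_lit 3) (nat_lit 4) (nat_lit 1) (nat_lit 4) (nat_lit 343) (nat_lit 195) (nat_lit 182)))) (XT.nd (nat_lit 156) (nat_lit 0) (nat_lit 0) (XT.nd (nat_lit 78) (nat_lit 0) (nat_lit 0) (XT.lf (nat_lit 0) (nat_lit 50750066055) (nat_lit 152) (nat_lit 123033030234) (nat_lit 0) (nat_lit 49338929061) (nat_lit 1) (nat_lit 5) (nat_lit 3) (nat_lit 4) (nat_lit 1) (nat_lit 4) (nat_lit 344) (nat_lit 195) (nat_lit 181)) (XT.lf (nat_lit 0) (nat_lit 54344579491) (nat_lit 152) (nat_lit 127007264104) (nat_lit 0) (nat_lit 52864869343) (nat_lit 1) (nat_lit 5) (nat_lit 3) (nat_lit 4) (nat_lit 1) (nat_lit 4) (nat_lit 345) (nat_lit 195) (nat_lit 180))) (XT.nd (nat_lit 78) (nat_lit 0) (nat_lit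 0) (XT.lf (nat_lit 0) (nat_lit 58090457543) (nat_lit 152) (nat_lit 131231689719) (nat_lit 0) (nat_lit 56545439630) (nat_lit 1) (nat_lit 5) (nat_lit 3) (nat_lit 4) (nat_lit 1) (nat_lit 4) (nat_lit 346) (nat_lit 195) (nat_lit 179)) (XT.lf (nat_lit 0) (nat_lit 61996618968) (nat_lit 152) (nat_lit 135716365235) (nat_lit 0) (nat_lit 60389403183) (nat_lit 1) (nat_lit 5) (nat_lit 3) (nat_lit 4) (nat_lit 1) (nat_lit 4) (nat_lit 347) (nat_lit 195) (nat_lit 178))))) (XT.nd (nat_lit 312) (nat_lit 0) (nat_lit 0) (XT.nd (nat_lit 156) (nat_lit 0) (nat_lit 0) (XT.nd (nat_lit 78) (nat_lit 0) (nat_lit 0) (XT.lf (nat_lit 0) (nat_lit 66072364150) (nat_lit 152) (nat_lit 140471968452) (nat_lit 0) (nat_lit 64405912297) (nat_lit 1) (nat_lit 5) (nat_lit 3) (nat_lit 4) (nat_lit 1) (nat_lit 4) (nat_lit 348) (nat_lit 195) (nat_lit 177)) (XT.lf (nat_lit 0) (nat_lit 70327397245) (nat_lit 152) (nat_lit 145509822234)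 (nat_lit 0) (nat_lit 68604530089) (nat_lit 1) (nat_lit 5) (nat_lit 3) (nat_lit 4) (nat_lit 1) (nat_lit 4) (nat_lit 349) (nat_lit 195) (nat_lit 176))) (XT.nd (nat_lit 78) (nat_lit 0) (nat_lit 0) (XT.lf (nat_lit 0) (nat_lit 74771849284) (nat_lit 152) (nat_lit 150841921472) (nat_lit 0) (nat_lit 72995253268) (nat_lit 1) (nat_lit 5) (nat_lit 3) (nat_lit 4) (nat_lit 1) (nat_lit 4) (nat_lit 350) (nat_lit 195) (nat_lit 175)) (XT.lf (nat_lit 0) (nat_lit 79416302295) (nat_lit 152) (nat_lit 156480961638) (nat_lit 0) (nat_lit 77588535937) (nat_lit 1) (nat_lit 5) (nat_lit 3) (nat_lit 4) (nat_lit 1) (nat_lit 4) (nat_lit 351) (nat_lit 195) (nat_lit 174)))) (XT.nd (nat_lit 156) (nat_lit 0) (nat_lit 0) (XT.nd (nat_lit 78) (nat_lit 0) (nat_lit 0) (XT.lf (nat_lit 0) (nat_lit 84271814500) (nat_lit 152) (nat_lit 162440369020) (nat_lit 0) (nat_lit 82395314482) (nat_lit 1) (nat_lit 5) (nat_lit 3) (nat_lit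 4) (nat_lit 1) (nat_lit 4) (nat_lit 352) (nat_lit 195) (nat_lit 173)) (XT.lf (nat_lit 0) (nat_lit 89349946642) (nat_lit 152) (nat_lit 168734332683) (nat_lit 0) (nat_lit 87427033615) (nat_lit 1) (nat_lit 5) (nat_lit 3) (nat_lit 4) (nat_lit 1) (nat_lit 4) (nat_lit 353) (nat_lit 195) (nat_lit 172))) (XT.nd (nat_lit 78) (nat_lit 0) (nat_lit 0) (XT.lf (nat_lit 0) (nat_lit 94662789513) (nat_lit 152) (nat_lit 175377838255) (nat_lit 0) (nat_lit 92695673619) (nat_lit 1) (nat_lit 5) (nat_lit 3) (nat_lit 4) (nat_lit 1) (nat_lit 4) (nat_lit 354) (nat_lit 195) (nat_lit 171)) (XT.nd (nat_lit 78) (nat_lit 0) (nat_lit 0) (XT.lf (nat_lit 0) (nat_lit 100222992737) (nat_lit 152) (nat_lit 182386703605) (nat_lit 0) (nat_lit 98213778876) (nat_lit 1) (nat_lit 5) (nat_lit 3) (nat_lit 4) (nat_lit 1) (nat_lit 4) (nat_lit 355) (nat_lit 195) (nat_lit 170)) (XT.lf (nat_lit 0) (nat_lit 106043794894) (nat_lit 152)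 (nat_lit 189777616510) (nat_lit 0) (nat_lit 103994487731) (nat_lit 1) (nat_lit 5) (nat_lit 3) (nat_lit 4) (nat_lit 1) (nat_lit 4) (nat_lit 356) (nat_lit 195) (nat_lit 169))))))) (XT.nd (nat_lit 35256) (nat_lit 0) (nat_lit 0) (XT.nd (nat_lit 312) (nat_lit 0) (nat_lit 0) (XT.nd (nat_lit 156) (nat_lit 0) (nat_lit 0) (XT.nd (nat_lit 78) (nat_lit 0) (nat_lit 0) (XT.lf (nat_lit 0) (nat_lit 112139055038) (nat_lit 152) (nat_lit 197568174379) (nat_lit 0) (nat_lit 110051563777) (nat_lit 1) (nat_lit 5) (nat_lit 3) (nat_lit 4) (nat_lit 1) (nat_lit 4) (nat_lit 357) (nat_lit 195) (nat_lit 168)) (XT.lf (nat_lit 0) (nat_lit 118523285691) (nat_lit 152) (nat_lit 205776926161) (nat_lit 0) (nat_lit 116399428623) (nat_lit 1) (nat_lit 5) (nat_lit 3) (nat_lit 4) (nat_lit 1) (nat_lit 4) (nat_lit 358) (nat_lit 195) (nat_lit 167))) (XT.nd (nat_lit 78) (nat_lit 0) (nat_lit 0) (XT.lf (nat_lit 0) (nat_lit 125211687403)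 (nat_lit 152) (nat_lit 214423416503) (nat_lit 0) (nat_lit 123053196233) (nat_lit 1) (nat_lit 5) (nat_lit 3) (nat_lit 4) (nat_lit 1) (nat_lit 4) (nat_lit 359) (nat_lit 195) (nat_lit 166)) (XT.lf (nat_lit 0) (nat_lit 132220184941) (nat_lit 152) (nat_lit 223528232286) (nat_lit 0) (nat_lit 130028708911) (nat_lit 1) (nat_lit 5) (nat_lit 3) (nat_lit 4) (nat_lit 1) (nat_lit 4) (nat_lit 360) (nat_lit 195) (nat_lit 165)))) (XT.nd (nat_lit 156) (nat_lit 0) (nat_lit 0) (XT.nd (nat_lit 78) (nat_lit 0) (nat_lit 0) (XT.lf (nat_lit 0) (nat_lit 139565465203) (nat_lit 152) (nat_lit 233113051643) (nat_lit 0) (nat_lit 137342575021) (nat_lit 1) (nat_lit 5) (nat_lit 3) (nat_lit 4) (nat_lit 1) (nat_lit 4) (nat_lit 361) (nat_lit 195) (nat_lit 164)) (XT.lf (nat_lit 0) (nat_lit 147265016951) (nat_lit 152) (nat_lit 243200695573) (nat_lit 0) (nat_lit 145012208530) (nat_lit 1) (nat_lit 5) (nat_lit 3) (nat_lit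 4) (nat_lit 1) (nat_lit 4) (nat_lit 362) (nat_lit 195) (nat_lit 163))) (XT.nd (nat_lit 78) (nat_lit 0) (nat_lit 0) (XT.lf (nat_lit 0) (nat_lit 155337172452) (nat_lit 152) (nat_lit 253815182276) (nat_lit 0) (nat_lit 153055870469) (nat_lit 1) (nat_lit 5) (nat_lit 3) (nat_lit 4) (nat_lit 1) (nat_lit 4) (nat_lit 363) (nat_lit 195) (nat_lit 162)) (XT.nd (nat_lit 78) (nat_lit 0) (nat_lit 0) (XT.lf (nat_lit 0) (nat_lit 163801151123) (nat_lit 152) (nat_lit 264981784339) (nat_lit 0) (nat_lit 161492712415) (nat_lit 1) (nat_lit 5) (nat_lit 3) (nat_lit 4) (nat_lit 1) (nat_lit 4) (nat_lit 364) (nat_lit 195) (nat_lit 161)) (XT.lf (nat_lit 0) (nat_lit 172677105295) (nat_lit 152) (nat_lit 276727088909) (nat_lit 0) (nat_lit 170342822087) (nat_lit 1) (nat_lit 5) (nat_lit 3) (nat_lit 4) (nat_lit 1) (nat_lit 4) (nat_lit 365) (nat_lit 195) (nat_lit 160)))))) (XT.nd (nat_lit 312) (nat_lit 0) (nat_lit 0)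 (XT.nd (nat_lit 156) (nat_lit 0) (nat_lit 0) (XT.nd (nat_lit 78) (nat_lit 0) (nat_lit 0) (XT.lf (nat_lit 0) (nat_lit 3949085420) (nat_lit 152) (nat_lit 43645372388) (nat_lit 0) (nat_lit 3949085420) (nat_lit 1) (nat_lit 5) (nat_lit 3) (nat_lit 4) (nat_lit 1) (nat_lit 4) (nat_lit 328) (nat_lit 196) (nat_lit 196)) (XT.lf (nat_lit 0) (nat_lit 10015751305) (nat_lit 152) (nat_lit 88256638697) (nat_lit 0) (nat_lit 9873192645) (nat_lit 1) (nat_lit 5) (nat_lit 3) (nat_lit 4) (nat_lit 1) (nat_lit 4) (nat_lit 329) (nat_lit 196) (nat_lit 195))) (XT.nd (nat_lit 78) (nat_lit 0) (nat_lit 0) (XT.lf (nat_lit 0) (nat_lit 12180250195) (nat_lit 152) (nat_lit 89377850643) (nat_lit 0) (nat_lit 11901921382) (nat_lit 1) (nat_lit 5) (nat_lit 3) (nat_lit 4) (nat_lit 1) (nat_lit 4) (nat_lit 330) (nat_lit 196) (nat_lit 194)) (XT.lf (nat_lit 0) (nat_lit 14396821079) (nat_lit 152) (nat_lit 90657050167) (nat_lit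 0) (nat_lit 13989187357) (nat_lit 1) (nat_lit 5) (nat_lit 3) (nat_lit 4) (nat_lit 1) (nat_lit 4) (nat_lit 331) (nat_lit 196) (nat_lit 193)))) (XT.nd (nat_lit 156) (nat_lit 0) (nat_lit 0) (XT.nd (nat_lit 78) (nat_lit 0) (nat_lit 0) (XT.lf (nat_lit 0) (nat_lit 16670741506) (nat_lit 152) (nat_lit 92097282984) (nat_lit 0) (nat_lit 16139960253) (nat_lit 1) (nat_lit 5) (nat_lit 3) (nat_lit 4) (nat_lit 1) (nat_lit 4) (nat_lit 332) (nat_lit 196) (nat_lit 192)) (XT.lf (nat_lit 0) (nat_lit 19007425572) (nat_lit 152) (nat_lit 93701978218) (nat_lit 0) (nat_lit 18359360957) (nat_lit 1) (nat_lit 5) (nat_lit 3) (nat_lit 4) (nat_lit 1) (nat_lit 4) (nat_lit 333) (nat_lit 196) (nat_lit 191))) (XT.nd (nat_lit 78) (nat_lit 0) (nat_lit 0) (XT.lf (nat_lit 0) (nat_lit 21412436812) (nat_lit 152) (nat_lit 95474956572) (nat_lit 0) (nat_lit 20652673755) (nat_lit 1) (nat_lit 5) (nat_lit 3) (nat_lit 4) (nat_lit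 1) (nat_lit 4) (nat_lit 334) (nat_lit 196) (nat_lit 190)) (XT.nd (nat_lit 78) (nat_lit 0) (nat_lit 0) (XT.lf (nat_lit 0) (nat_lit 23891501442) (nat_lit 152) (nat_lit 97420439423) (nat_lit 0) (nat_lit 23025358918) (nat_lit 1) (nat_lit 5) (nat_lit 3) (nat_lit 4) (nat_lit 1) (nat_lit 4) (nat_lit 335) (nat_lit 196) (nat_lit 189)) (XT.lf (nat_lit 0) (nat_lit 26450521997) (nat_lit 152) (nat_lit 99543058875) (nat_lit 0) (nat_lit 25483065694) (nat_lit 1) (nat_lit 5) (nat_lit 3) (nat_lit 4) (nat_lit 1) (nat_lit 4) (nat_lit 336) (nat_lit 196) (nat_lit 188))))))))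
noncomputable def xc10 : XT := (XT.nd (nat_lit 1326) (nat_lit 0) (nat_lit 0) (XT.nd (nat_lit 624) (nat_lit 0) (nat_lit 0) (XT.nd (nat_lit 312) (nat_lit 0) (nat_lit 0) (XT.nd (nat_lit 156) (nat_lit 0) (nat_lit 0) (XT.nd (nat_lit 78) (nat_lit 0) (nat_lit 0) (XT.lf (nat_lit 0) (nat_lit 29095591383) (nat_lit 152) (nat_lit 101847868781) (nat_lit 0) (nat_lit 28031645767) (nat_lit 1) (nat_lit 5) (nat_lit 3) (nat_lit 4) (nat_lit 1) (nat_lit 4) (nat_lit 337) (nat_lit 196) (nat_lit 187)) (XT.lf (nat_lit 0) (nat_lit 31833007384) (nat_lit 152) (nat_lit 104340356786) (nat_lit 0) (nat_lit 30677167185) (nat_lit 1) (nat_lit 5) (nat_lit 3) (nat_lit 4) (nat_lit 1) (nat_lit 4) (nat_lit 338) (nat_lit 196) (nat_lit 186))) (XT.nd (nat_lit 78) (nat_lit 0) (nat_lit 0) (XT.lf (nat_lit 0) (nat_lit 34669287659) (nat_lit 152) (nat_lit 107026457383) (nat_lit 0) (nat_lit 33425928808) (nat_lit 1) (nat_lit 5) (nat_lit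 3) (nat_lit 4) (nat_lit 1) (nat_lit 4) (nat_lit 339) (nat_lit 196) (nat_lit 185)) (XT.lf (nat_lit 0) (nat_lit 37611185254) (nat_lit 152) (nat_lit 109912566052) (nat_lit 0) (nat_lit 36284475307) (nat_lit 1) (nat_lit 5) (nat_lit 3) (nat_lit 4) (nat_lit 1) (nat_lit 4) (nat_lit 340) (nat_lit 196) (nat_lit 184)))) (XT.nd (nat_lit 156) (nat_lit 0) (nat_lit 0) (XT.nd (nat_lit 78) (nat_lit 0) (nat_lit 0) (XT.lf (nat_lit 0) (nat_lit 40665704688) (nat_lit 152) (nat_lit 113005554478) (nat_lit 0) (nat_lit 39259612745) (nat_lit 1) (nat_lit 5) (nat_lit 3) (nat_lit 4) (nat_lit 1) (nat_lit 4) (nat_lit 341) (nat_lit 196) (nat_lit 183)) (XT.lf (nat_lit 0) (nat_lit 43840118626) (nat_lit 152) (nat_lit 116312786921) (nat_lit 0) (nat_lit 42358424782) (nat_lit 1) (nat_lit 5) (nat_lit 3) (nat_lit 4) (nat_lit 1) (nat_lit 4) (nat_lit 342) (nat_lit 196) (nat_lit 182))) (XT.nd (nat_lit 78) (nat_lit 0) (nat_lit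 0) (XT.lf (nat_lit 0) (nat_lit 47141985197) (nat_lit 152) (nat_lit 119842137743) (nat_lit 0) (nat_lit 45588289542) (nat_lit 1) (nat_lit 5) (nat_lit 3) (nat_lit 4) (nat_lit 1) (nat_lit 4) (nat_lit 343) (nat_lit 196) (nat_lit 181)) (XT.lf (nat_lit 0) (nat_lit 50579165988) (nat_lit 152) (nat_lit 123602010161) (nat_lit 0) (nat_lit 48956897179) (nat_lit 1) (nat_lit 5) (nat_lit 3) (nat_lit 4) (nat_lit 1) (nat_lit 4) (nat_lit 344) (nat_lit 196) (nat_lit 180))))) (XT.nd (nat_lit 312) (nat_lit 0) (nat_lit 0) (XT.nd (nat_lit 156) (nat_lit 0) (nat_lit 0) (XT.nd (nat_lit 78) (nat_lit 0) (nat_lit 0) (XT.lf (nat_lit 0) (nat_lit 54159844763) (nat_lit 152) (nat_lit 127601356251) (nat_lit 0) (nat_lit 52472268189) (nat_lit 1) (nat_lit 5) (nat_lit 3) (nat_lit 4) (nat_lit 1) (nat_lit 4) (nat_lit 345) (nat_lit 196) (nat_lit 179)) (XT.lf (nat_lit 0) (nat_lit 57892546946) (nat_lit 152) (nat_lit 131849698266)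 (nat_lit 0) (nat_lit 56142772501) (nat_lit 1) (nat_lit 5) (nat_lit 3) (nat_lit 4) (nat_lit 1) (nat_lit 4) (nat_lit 346) (nat_lit 196) (nat_lit 178))) (XT.nd (nat_lit 78) (nat_lit 0) (nat_lit 0) (XT.lf (nat_lit 0) (nat_lit 61786159925) (nat_lit 152) (nat_lit 136357151307) (nat_lit 0) (nat_lit 59977149412) (nat_lit 1) (nat_lit 5) (nat_lit 3) (nat_lit 4) (nat_lit 1) (nat_lit 4) (nat_lit 347) (nat_lit 196) (nat_lit 177)) (XT.lf (nat_lit 0) (nat_lit 65849954207) (nat_lit 152) (nat_lit 141134447404) (nat_lit 0) (nat_lit 63984528391) (nat_lit 1) (nat_lit 5) (nat_lit 3) (nat_lit 4) (nat_lit 1) (nat_lit 4) (nat_lit 348) (nat_lit 196) (nat_lit 176)))) (XT.nd (nat_lit 156) (nat_lit 0) (nat_lit 0) (XT.nd (nat_lit 78) (nat_lit 0) (nat_lit 0) (XT.lf (nat_lit 0) (nat_lit 70093605491) (nat_lit 152) (nat_lit 146192961072) (nat_lit 0) (nat_lit 68174450815) (nat_lit 1) (nat_lit 5) (nat_lit 3) (nat_lit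 4) (nat_lit 1) (nat_lit 4) (nat_lit 349) (nat_lit 196) (nat_lit 175)) (XT.lf (nat_lit 0) (nat_lit 74527217711) (nat_lit 152) (nat_lit 151544736391) (nat_lit 0) (nat_lit 72556892692) (nat_lit 1) (nat_lit 5) (nat_lit 3) (nat_lit 4) (nat_lit 1) (nat_lit 4) (nat_lit 350) (nat_lit 196) (nat_lit 174))) (XT.nd (nat_lit 78) (nat_lit 0) (nat_lit 0) (XT.lf (nat_lit 0) (nat_lit 79161347085) (nat_lit 152) (nat_lit 157202515683) (nat_lit 0) (nat_lit 77142288406) (nat_lit 1) (nat_lit 5) (nat_lit 3) (nat_lit 4) (nat_lit 1) (nat_lit 4) (nat_lit 351) (nat_lit 196) (nat_lit 173)) (XT.nd (nat_lit 78) (nat_lit 0) (nat_lit 0) (XT.lf (nat_lit 0) (nat_lit 84007027254) (nat_lit 152) (nat_lit 163179769851) (nat_lit 0) (nat_lit 81941555566) (nat_lit 1) (nat_lit 5) (nat_lit 3) (nat_lit 4) (nat_lit 1) (nat_lit 4) (nat_lit 352) (nat_lit 196) (nat_lit 172)) (XT.lf (nat_lit 0) (nat_lit 89075795553) (nat_lit 152)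 (nat_lit 169490730453) (nat_lit 0) (nat_lit 86966120999) (nat_lit 1) (nat_lit 5) (nat_lit 3) (nat_lit 4) (nat_lit 1) (nat_lit 4) (nat_lit 353) (nat_lit 196) (nat_lit 171))))))) (XT.nd (nat_lit 702) (nat_lit 0) (nat_lit 0) (XT.nd (nat_lit 312) (nat_lit 0) (nat_lit 0) (XT.nd (nat_lit 156) (nat_lit 0) (nat_lit 0) (XT.nd (nat_lit 78) (nat_lit 0) (nat_lit 0) (XT.lf (nat_lit 0) (nat_lit 94379720477) (nat_lit 152) (nat_lit 176150423586) (nat_lit 0) (nat_lit 92227947956) (nat_lit 1) (nat_lit 5) (nat_lit 3) (nat_lit 4) (nat_lit 1) (nat_lit 4) (nat_lit 354) (nat_lit 196) (nat_lit 170)) (XT.lf (nat_lit 0) (nat_lit 99931430420) (nat_lit 152) (nat_lit 183174705662) (nat_lit 0) (nat_lit 97739564596) (nat_lit 1) (nat_lit 5) (nat_lit 3) (nat_lit 4) (nat_lit 1) (nat_lit 4) (nat_lit 355) (nat_lit 196) (nat_lit 169))) (XT.nd (nat_lit 78) (nat_lit 0) (nat_lit 0) (XT.lf (nat_lit 0) (nat_lit 105744143737)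 (nat_lit 152) (nat_lit 190580301161) (nat_lit 0) (nat_lit 103514093815) (nat_lit 1) (nat_lit 5) (nat_lit 3) (nat_lit 4) (nat_lit 1) (nat_lit 4) (nat_lit 356) (nat_lit 196) (nat_lit 168)) (XT.lf (nat_lit 0) (nat_lit 111831700223) (nat_lit 152) (nat_lit 198384842454) (nat_lit 0) (nat_lit 109565284494) (nat_lit 1) (nat_lit 5) (nat_lit 3) (nat_lit 4) (nat_lit 1) (nat_lit 4) (nat_lit 357) (nat_lit 196) (nat_lit 167)))) (XT.nd (nat_lit 156) (nat_lit 0) (nat_lit 0) (XT.nd (nat_lit 78) (nat_lit 0) (nat_lit 0) (XT.lf (nat_lit 0) (nat_lit 118208594060) (nat_lit 152) (nat_lit 206606911783) (nat_lit 0) (nat_lit 115907544229) (nat_lit 1) (nat_lit 5) (nat_lit 3) (nat_lit 4) (nat_lit 1) (nat_lit 4) (nat_lit 358) (nat_lit 196) (nat_lit 166)) (XT.lf (nat_lit 0) (nat_lit 124890008329) (nat_lit 152) (nat_lit 215266085502) (nat_lit 0) (nat_lit 122555973638) (nat_lit 1) (nat_lit 5) (nat_lit 3) (nat_lit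 4) (nat_lit 1) (nat_lit 4) (nat_lit 359) (nat_lit 196) (nat_lit 165))) (XT.nd (nat_lit 78) (nat_lit 0) (nat_lit 0) (XT.lf (nat_lit 0) (nat_lit 131891851157) (nat_lit 152) (nat_lit 224382980693) (nat_lit 0) (nat_lit 129526402315) (nat_lit 1) (nat_lit 5) (nat_lit 3) (nat_lit 4) (nat_lit 1) (nat_lit 4) (nat_lit 360) (nat_lit 196) (nat_lit 164)) (XT.nd (nat_lit 78) (nat_lit 0) (nat_lit 0) (XT.lf (nat_lit 0) (nat_lit 139230793601) (nat_lit 152) (nat_lit 233979304248) (nat_lit 0) (nat_lit 136835426520) (nat_lit 1) (nat_lit 5) (nat_lit 3) (nat_lit 4) (nat_lit 1) (nat_lit 4) (nat_lit 361) (nat_lit 196) (nat_lit 163)) (XT.lf (nat_lit 0) (nat_lit 146924309332) (nat_lit 152) (nat_lit 244077904557) (nat_lit 0) (nat_lit 144500448689) (nat_lit 1) (nat_lit 5) (nat_lit 3) (nat_lit 4) (nat_lit 1) (nat_lit 4) (nat_lit 362) (nat_lit 196) (nat_lit 162)))))) (XT.nd (nat_lit 34710) (nat_lit 0) (nat_lit 0)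 (XT.nd (nat_lit 156) (nat_lit 0) (nat_lit 0) (XT.nd (nat_lit 78) (nat_lit 0) (nat_lit 0) (XT.lf (nat_lit 0) (nat_lit 154990716246) (nat_lit 152) (nat_lit 254702825906) (nat_lit 0) (nat_lit 152539718877) (nat_lit 1) (nat_lit 5) (nat_lit 3) (nat_lit 4) (nat_lit 1) (nat_lit 4) (nat_lit 363) (nat_lit 196) (nat_lit 161)) (XT.lf (nat_lit 0) (nat_lit 163449220072) (nat_lit 152) (nat_lit 265879365727) (nat_lit 0) (nat_lit 160972378203) (nat_lit 1) (nat_lit 5) (nat_lit 3) (nat_lit 4) (nat_lit 1) (nat_lit 4) (nat_lit 364) (nat_lit 196) (nat_lit 160))) (XT.nd (nat_lit 34476) (nat_lit 0) (nat_lit 0) (XT.lf (nat_lit 0) (nat_lit 172319960105) (nat_lit 152) (nat_lit 277634134829) (nat_lit 0) (nat_lit 169818504427) (nat_lit 1) (nat_lit 5) (nat_lit 3) (nat_lit 4) (nat_lit 1) (nat_lit 4) (nat_lit 365) (nat_lit 196) (nat_lit 159)) (XT.lf (nat_lit 0) (nat_lit 1982546674) (nat_lit 152) (nat_lit 42879259343)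 (nat_lit 0) (nat_lit 1982546674) (nat_lit 1) (nat_lit 5) (nat_lit 3) (nat_lit 4) (nat_lit 1) (nat_lit 4) (nat_lit 326) (nat_lit 197) (nat_lit 197)))) (XT.nd (nat_lit 156) (nat_lit 0) (nat_lit 0) (XT.nd (nat_lit 78) (nat_lit 0) (nat_lit 0) (XT.lf (nat_lit 0) (nat_lit 5972153535) (nat_lit 152) (nat_lit 86477869136) (nat_lit 0) (nat_lit 5822466941) (nat_lit 1) (nat_lit 5) (nat_lit 3) (nat_lit 4) (nat_lit 1) (nat_lit 4) (nat_lit 327) (nat_lit 197) (nat_lit 196)) (XT.lf (nat_lit 0) (nat_lit 8017658103) (nat_lit 152) (nat_lit 87345561604) (nat_lit 0) (nat_lit 7725412848) (nat_lit 1) (nat_lit 5) (nat_lit 3) (nat_lit 4) (nat_lit 1) (nat_lit 4) (nat_lit 328) (nat_lit 197) (nat_lit 195))) (XT.nd (nat_lit 78) (nat_lit 0) (nat_lit 0) (XT.lf (nat_lit 0) (nat_lit 10106477300) (nat_lit 152) (nat_lit 88363662027) (nat_lit 0) (nat_lit 9678461893) (nat_lit 1) (nat_lit 5) (nat_lit 3) (nat_lit 4) (nat_lit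 1) (nat_lit 4) (nat_lit 329) (nat_lit 197) (nat_lit 194)) (XT.nd (nat_lit 78) (nat_lit 0) (nat_lit 0) (XT.lf (nat_lit 0) (nat_lit 12243584507) (nat_lit 152) (nat_lit 89534594452) (nat_lit 0) (nat_lit 11686264192) (nat_lit 1) (nat_lit 5) (nat_lit 3) (nat_lit 4) (nat_lit 1) (nat_lit 4) (nat_lit 330) (nat_lit 197) (nat_lit 193)) (XT.lf (nat_lit 0) (nat_lit 14434068073) (nat_lit 152) (nat_lit 90861146813) (nat_lit 0) (nat_lit 13753600227) (nat_lit 1) (nat_lit 5) (nat_lit 3) (nat_lit 4) (nat_lit 1) (nat_lit 4) (nat_lit 331) (nat_lit 197) (nat_lit 192))))))))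
noncomputable def xc11 : XT := (XT.nd (nat_lit 1326) (nat_lit 0) (nat_lit 0) (XT.nd (nat_lit 624) (nat_lit 0) (nat_lit 0) (XT.nd (nat_lit 312) (nat_lit 0) (nat_lit 0) (XT.nd (nat_lit 156) (nat_lit 0) (nat_lit 0) (XT.nd (nat_lit 78) (nat_lit 0) (nat_lit 0) (XT.lf (nat_lit 0) (nat_lit 16683143436) (nat_lit 152) (nat_lit 92346477569) (nat_lit 0) (nat_lit 15885392227) (nat_lit 1) (nat_lit 5) (nat_lit 3) (nat_lit 4) (nat_lit 1) (nat_lit 4) (nat_lit 332) (nat_lit 197) (nat_lit 191)) (XT.lf (nat_lit 0) (nat_lit 18996165536) (nat_lit 152) (nat_lit 93994123222) (nat_lit 0) (nat_lit 18086715886) (nat_lit 1) (nat_lit 5) (nat_lit 3) (nat_lit 4) (nat_lit 1) (nat_lit 4) (nat_lit 333) (nat_lit 197) (nat_lit 190))) (XT.nd (nat_lit 78) (nat_lit 0) (nat_lit 0) (XT.lf (nat_lit 0) (nat_lit 21378641570) (nat_lit 152) (nat_lit 95808006737) (nat_lit 0) (nat_lit 20362812453) (nat_lit 1) (nat_lit 5) (nat_lit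 3) (nat_lit 4) (nat_lit 1) (nat_lit 4) (nat_lit 334) (nat_lit 197) (nat_lit 189)) (XT.lf (nat_lit 0) (nat_lit 23836244099) (nat_lit 152) (nat_lit 97792446885) (nat_lit 0) (nat_lit 22719101203) (nat_lit 1) (nat_lit 5) (nat_lit 3) (nat_lit 4) (nat_lit 1) (nat_lit 4) (nat_lit 335) (nat_lit 197) (nat_lit 188)))) (XT.nd (nat_lit 156) (nat_lit 0) (nat_lit 0) (XT.nd (nat_lit 78) (nat_lit 0) (nat_lit 0) (XT.lf (nat_lit 0) (nat_lit 26374824558) (nat_lit 152) (nat_lit 99952168523) (nat_lit 0) (nat_lit 25161192349) (nat_lit 1) (nat_lit 5) (nat_lit 3) (nat_lit 4) (nat_lit 1) (nat_lit 4) (nat_lit 336) (nat_lit 197) (nat_lit 187)) (XT.lf (nat_lit 0) (nat_lit 29000427187) (nat_lit 152) (nat_lit 102292313845) (nat_lit 0) (nat_lit 27694900394) (nat_lit 1) (nat_lit 5) (nat_lit 3) (nat_lit 4) (nat_lit 1) (nat_lit 4) (nat_lit 337) (nat_lit 197) (nat_lit 186))) (XT.nd (nat_lit 78) (nat_lit 0) (nat_lit 0)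 (XT.lf (nat_lit 0) (nat_lit 31719303419) (nat_lit 152) (nat_lit 104818454627) (nat_lit 0) (nat_lit 30326257975) (nat_lit 1) (nat_lit 5) (nat_lit 3) (nat_lit 4) (nat_lit 1) (nat_lit 4) (nat_lit 338) (nat_lit 197) (nat_lit 185)) (XT.lf (nat_lit 0) (nat_lit 34537926770) (nat_lit 152) (nat_lit 107536605488) (nat_lit 0) (nat_lit 33061530229) (nat_lit 1) (nat_lit 5) (nat_lit 3) (nat_lit 4) (nat_lit 1) (nat_lit 4) (nat_lit 339) (nat_lit 197) (nat_lit 184))))) (XT.nd (nat_lit 312) (nat_lit 0) (nat_lit 0) (XT.nd (nat_lit 156) (nat_lit 0) (nat_lit 0) (XT.nd (nat_lit 78) (nat_lit 0) (nat_lit 0) (XT.lf (nat_lit 0) (nat_lit 37463008247) (nat_lit 152) (nat_lit 110453238217) (nat_lit 0) (nat_lit 35907229710) (nat_lit 1) (nat_lit 5) (nat_lit 3) (nat_lit 4) (nat_lit 1) (nat_lit 4) (nat_lit 340) (nat_lit 197) (nat_lit 183)) (XT.lf (nat_lit 0) (nat_lit 40501512331) (nat_lit 152) (nat_lit 113575297178)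 (nat_lit 0) (nat_lit 38870131893) (nat_lit 1) (nat_lit 5) (nat_lit 3) (nat_lit 4) (nat_lit 1) (nat_lit 4) (nat_lit 341) (nat_lit 197) (nat_lit 182))) (XT.nd (nat_lit 78) (nat_lit 0) (nat_lit 0) (XT.lf (nat_lit 0) (nat_lit 43660673556) (nat_lit 152) (nat_lit 116910215844) (nat_lit 0) (nat_lit 41957291306) (nat_lit 1) (nat_lit 5) (nat_lit 3) (nat_lit 4) (nat_lit 1) (nat_lit 4) (nat_lit 342) (nat_lit 197) (nat_lit 181)) (XT.lf (nat_lit 0) (nat_lit 46948013732) (nat_lit 152) (nat_lit 120465934497) (nat_lit 0) (nat_lit 45176058330) (nat_lit 1) (nat_lit 5) (nat_lit 3) (nat_lit 4) (nat_lit 1) (nat_lit 4) (nat_lit 343) (nat_lit 197) (nat_lit 180)))) (XT.nd (nat_lit 156) (nat_lit 0) (nat_lit 0) (XT.nd (nat_lit 78) (nat_lit 0) (nat_lit 0) (XT.lf (nat_lit 0) (nat_lit 50371359862) (nat_lit 152) (nat_lit 124250919135) (nat_lit 0) (nat_lit 48534096694) (nat_lit 1) (nat_lit 5) (nat_lit 3) (nat_lit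 4) (nat_lit 1) (nat_lit 4) (nat_lit 344) (nat_lit 197) (nat_lit 179)) (XT.lf (nat_lit 0) (nat_lit 53938862768) (nat_lit 152) (nat_lit 128274181626) (nat_lit 0) (nat_lit 52039401729) (nat_lit 1) (nat_lit 5) (nat_lit 3) (nat_lit 4) (nat_lit 1) (nat_lit 4) (nat_lit 345) (nat_lit 197) (nat_lit 178))) (XT.nd (nat_lit 78) (nat_lit 0) (nat_lit 0) (XT.lf (nat_lit 0) (nat_lit 57659016506) (nat_lit 152) (nat_lit 132545301165) (nat_lit 0) (nat_lit 55700319399) (nat_lit 1) (nat_lit 5) (nat_lit 3) (nat_lit 4) (nat_lit 1) (nat_lit 4) (nat_lit 346) (nat_lit 197) (nat_lit 177)) (XT.nd (nat_lit 78) (nat_lit 0) (nat_lit 0) (XT.lf (nat_lit 0) (nat_lit 61540678584) (nat_lit 152) (nat_lit 137074447086) (nat_lit 0) (nat_lit 59525566174) (nat_lit 1) (nat_lit 5) (nat_lit 3) (nat_lit 4) (nat_lit 1) (nat_lit 4) (nat_lit 347) (nat_lit 197) (nat_lit 176)) (XT.lf (nat_lit 0) (nat_lit 65593091056) (nat_lit 152)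 (nat_lit 141872403069) (nat_lit 0) (nat_lit 63524249786) (nat_lit 1) (nat_lit 5) (nat_lit 3) (nat_lit 4) (nat_lit 1) (nat_lit 4) (nat_lit 348) (nat_lit 197) (nat_lit 175))))))) (XT.nd (nat_lit 702) (nat_lit 0) (nat_lit 0) (XT.nd (nat_lit 312) (nat_lit 0) (nat_lit 0) (XT.nd (nat_lit 156) (nat_lit 0) (nat_lit 0) (XT.nd (nat_lit 78) (nat_lit 0) (nat_lit 0) (XT.lf (nat_lit 0) (nat_lit 69825902521) (nat_lit 152) (nat_lit 146950592819) (nat_lit 0) (nat_lit 67705890908) (nat_lit 1) (nat_lit 5) (nat_lit 3) (nat_lit 4) (nat_lit 1) (nat_lit 4) (nat_lit 349) (nat_lit 197) (nat_lit 174)) (XT.lf (nat_lit 0) (nat_lit 74249191103) (nat_lit 152) (nat_lit 152321107263) (nat_lit 0) (nat_lit 72080445831) (nat_lit 1) (nat_lit 5) (nat_lit 3) (nat_lit 4) (nat_lit 1) (nat_lit 4) (nat_lit 350) (nat_lit 197) (nat_lit 173))) (XT.nd (nat_lit 78) (nat_lit 0) (nat_lit 0) (XT.lf (nat_lit 0) (nat_lit 78873488441)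 (nat_lit 152) (nat_lit 157996733341) (nat_lit 0) (nat_lit 76658330159) (nat_lit 1) (nat_lit 5) (nat_lit 3) (nat_lit 4) (nat_lit 1) (nat_lit 4) (nat_lit 351) (nat_lit 197) (nat_lit 172)) (XT.lf (nat_lit 0) (nat_lit 83709804767) (nat_lit 152) (nat_lit 163990984449) (nat_lit 0) (nat_lit 81450443619) (nat_lit 1) (nat_lit 5) (nat_lit 3) (nat_lit 4) (nat_lit 1) (nat_lit 4) (nat_lit 352) (nat_lit 197) (nat_lit 171)))) (XT.nd (nat_lit 156) (nat_lit 0) (nat_lit 0) (XT.nd (nat_lit 78) (nat_lit 0) (nat_lit 0) (XT.lf (nat_lit 0) (nat_lit 88769655120) (nat_lit 152) (nat_lit 170318132612) (nat_lit 0) (nat_lit 86468196005) (nat_lit 1) (nat_lit 5) (nat_lit 3) (nat_lit 4) (nat_lit 1) (nat_lit 4) (nat_lit 353) (nat_lit 197) (nat_lit 170)) (XT.lf (nat_lit 0) (nat_lit 94065086762) (nat_lit 152) (nat_lit 176993242470) (nat_lit 0) (nat_lit 91723534344) (nat_lit 1) (nat_lit 5) (nat_lit 3) (nat_lit 4) (nat_lit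 1) (nat_lit 4) (nat_lit 354) (nat_lit 197) (nat_lit 169))) (XT.nd (nat_lit 78) (nat_lit 0) (nat_lit 0) (XT.lf (nat_lit 0) (nat_lit 99608707865) (nat_lit 152) (nat_lit 184032207141) (nat_lit 0) (nat_lit 97228971349) (nat_lit 1) (nat_lit 5) (nat_lit 3) (nat_lit 4) (nat_lit 1) (nat_lit 4) (nat_lit 355) (nat_lit 197) (nat_lit 168)) (XT.nd (nat_lit 78) (nat_lit 0) (nat_lit 0) (XT.lf (nat_lit 0) (nat_lit 105413717525) (nat_lit 152) (nat_lit 191451786064) (nat_lit 0) (nat_lit 102997615202) (nat_lit 1) (nat_lit 5) (nat_lit 3) (nat_lit 4) (nat_lit 1) (nat_lit 4) (nat_lit 356) (nat_lit 197) (nat_lit 167)) (XT.lf (nat_lit 0) (nat_lit 111493937195) (nat_lit 152) (nat_lit 199269644904) (nat_lit 0) (nat_lit 109043200770) (nat_lit 1) (nat_lit 5) (nat_lit 3) (nat_lit 4) (nat_lit 1) (nat_lit 4) (nat_lit 357) (nat_lit 197) (nat_lit 166)))))) (XT.nd (nat_lit 312) (nat_lit 0) (nat_lit 0) (XT.nd (nat_lit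 156) (nat_lit 0) (nat_lit 0) (XT.nd (nat_lit 78) (nat_lit 0) (nat_lit 0) (XT.lf (nat_lit 0) (nat_lit 117863843587) (nat_lit 152) (nat_lit 207504397610) (nat_lit 0) (nat_lit 115380122303) (nat_lit 1) (nat_lit 5) (nat_lit 3) (nat_lit 4) (nat_lit 1) (nat_lit 4) (nat_lit 358) (nat_lit 197) (nat_lit 165)) (XT.lf (nat_lit 0) (nat_lit 124538603147) (nat_lit 152) (nat_lit 216175650737) (nat_lit 0) (nat_lit 122023467711) (nat_lit 1) (nat_lit 5) (nat_lit 3) (nat_lit 4) (nat_lit 1) (nat_lit 4) (nat_lit 359) (nat_lit 197) (nat_lit 164))) (XT.nd (nat_lit 78) (nat_lit 0) (nat_lit 0) (XT.lf (nat_lit 0) (nat_lit 131534108158) (nat_lit 152) (nat_lit 225304050125) (nat_lit 0) (nat_lit 128989054483) (nat_lit 1) (nat_lit 5) (nat_lit 3) (nat_lit 4) (nat_lit 1) (nat_lit 4) (nat_lit 360) (nat_lit 197) (nat_lit 163)) (XT.lf (nat_lit 0) (nat_lit 138867014585) (nat_lit 152) (nat_lit 234911330059) (nat_lit 0)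 (nat_lit 136293467348) (nat_lit 1) (nat_lit 5) (nat_lit 3) (nat_lit 4) (nat_lit 1) (nat_lit 4) (nat_lit 361) (nat_lit 197) (nat_lit 162)))) (XT.nd (nat_lit 156) (nat_lit 0) (nat_lit 0) (XT.nd (nat_lit 78) (nat_lit 0) (nat_lit 0) (XT.lf (nat_lit 0) (nat_lit 146554781729) (nat_lit 152) (nat_lit 245020365014) (nat_lit 0) (nat_lit 143954097766) (nat_lit 1) (nat_lit 5) (nat_lit 3) (nat_lit 4) (nat_lit 1) (nat_lit 4) (nat_lit 362) (nat_lit 197) (nat_lit 161)) (XT.lf (nat_lit 0) (nat_lit 154615713796) (nat_lit 152) (nat_lit 255655224121) (nat_lit 0) (nat_lit 151989185334) (nat_lit 1) (nat_lit 5) (nat_lit 3) (nat_lit 4) (nat_lit 1) (nat_lit 4) (nat_lit 363) (nat_lit 197) (nat_lit 160))) (XT.nd (nat_lit 78) (nat_lit 0) (nat_lit 0) (XT.lf (nat_lit 0) (nat_lit 163069003484) (nat_lit 152) (nat_lit 266841228474) (nat_lit 0) (nat_lit 160417861212) (nat_lit 1) (nat_lit 5) (nat_lit 3) (nat_lit 4) (nat_lit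 1) (nat_lit 4) (nat_lit 364) (nat_lit 197) (nat_lit 159)) (XT.nd (nat_lit 34320) (nat_lit 0) (nat_lit 0) (XT.lf (nat_lit 0) (nat_lit 171934777671) (nat_lit 152) (nat_lit 278605011416) (nat_lit 0) (nat_lit 169260193676) (nat_lit 1) (nat_lit 5) (nat_lit 3) (nat_lit 4) (nat_lit 1) (nat_lit 4) (nat_lit 365) (nat_lit 197) (nat_lit 158)) (XT.lf (nat_lit 0) (nat_lit 118868550) (nat_lit 152) (nat_lit 42348953227) (nat_lit 0) (nat_lit 118868550) (nat_lit 1) (nat_lit 5) (nat_lit 3) (nat_lit 4) (nat_lit 1) (nat_lit 4) (nat_lit 324) (nat_lit 198) (nat_lit 198))))))))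
noncomputable def xc12 : XT := (XT.nd (nat_lit 1326) (nat_lit 0) (nat_lit 0) (XT.nd (nat_lit 624) (nat_lit 0) (nat_lit 0) (XT.nd (nat_lit 312) (nat_lit 0) (nat_lit 0) (XT.nd (nat_lit 156) (nat_lit 0) (nat_lit 0) (XT.nd (nat_lit 78) (nat_lit 0) (nat_lit 0) (XT.lf (nat_lit 0) (nat_lit 2148869751) (nat_lit 152) (nat_lit 85185797517) (nat_lit 0) (nat_lit 1991698828) (nat_lit 1) (nat_lit 5) (nat_lit 3) (nat_lit 4) (nat_lit 1) (nat_lit 4) (nat_lit 325) (nat_lit 198) (nat_lit 197)) (XT.lf (nat_lit 0) (nat_lit 4090554974) (nat_lit 152) (nat_lit 85816076356) (nat_lit 0) (nat_lit 3783697457) (nat_lit 1) (nat_lit 5) (nat_lit 3) (nat_lit 4) (nat_lit 1) (nat_lit 4) (nat_lit 326) (nat_lit 198) (nat_lit 196))) (XT.nd (nat_lit 78) (nat_lit 0) (nat_lit 0) (XT.lf (nat_lit 0) (nat_lit 6067415830) (nat_lit 152) (nat_lit 86590243633) (nat_lit 0) (nat_lit 5617999652) (nat_lit 1) (nat_lit 5) (nat_lit 3) (nat_lit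 4) (nat_lit 1) (nat_lit 4) (nat_lit 327) (nat_lit 198) (nat_lit 195)) (XT.lf (nat_lit 0) (nat_lit 8084159130) (nat_lit 152) (nat_lit 87510142604) (nat_lit 0) (nat_lit 7498972799) (nat_lit 1) (nat_lit 5) (nat_lit 3) (nat_lit 4) (nat_lit 1) (nat_lit 4) (nat_lit 328) (nat_lit 198) (nat_lit 194)))) (XT.nd (nat_lit 156) (nat_lit 0) (nat_lit 0) (XT.nd (nat_lit 78) (nat_lit 0) (nat_lit 0) (XT.lf (nat_lit 0) (nat_lit 10145586645) (nat_lit 152) (nat_lit 88577963505) (nat_lit 0) (nat_lit 9431095406) (nat_lit 1) (nat_lit 5) (nat_lit 3) (nat_lit 4) (nat_lit 1) (nat_lit 4) (nat_lit 329) (nat_lit 198) (nat_lit 193)) (XT.lf (nat_lit 0) (nat_lit 12256606534) (nat_lit 152) (nat_lit 89796248767) (nat_lit 0) (nat_lit 11418967764) (nat_lit 1) (nat_lit 5) (nat_lit 3) (nat_lit 4) (nat_lit 1) (nat_lit 4) (nat_lit 330) (nat_lit 198) (nat_lit 192))) (XT.nd (nat_lit 78) (nat_lit 0) (nat_lit 0) (XT.lf (nat_lit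 0) (nat_lit 14422245035) (nat_lit 152) (nat_lit 91167899068) (nat_lit 0) (nat_lit 13467322903) (nat_lit 1) (nat_lit 5) (nat_lit 3) (nat_lit 4) (nat_lit 1) (nat_lit 4) (nat_lit 331) (nat_lit 198) (nat_lit 191)) (XT.lf (nat_lit 0) (nat_lit 16647658432) (nat_lit 152) (nat_lit 92696180243) (nat_lit 0) (nat_lit 15581037859) (nat_lit 1) (nat_lit 5) (nat_lit 3) (nat_lit 4) (nat_lit 1) (nat_lit 4) (nat_lit 332) (nat_lit 198) (nat_lit 190))))) (XT.nd (nat_lit 312) (nat_lit 0) (nat_lit 0) (XT.nd (nat_lit 156) (nat_lit 0) (nat_lit 0) (XT.nd (nat_lit 78) (nat_lit 0) (nat_lit 0) (XT.lf (nat_lit 0) (nat_lit 18938145327) (nat_lit 152) (nat_lit 94384731057) (nat_lit 0) (nat_lit 17765145286) (nat_lit 1) (nat_lit 5) (nat_lit 3) (nat_lit 4) (nat_lit 1) (nat_lit 4) (nat_lit 333) (nat_lit 198) (nat_lit 189)) (XT.lf (nat_lit 0) (nat_lit 21299159260) (nat_lit 152) (nat_lit 96237571868) (nat_lit 0) (nat_lit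 20024845441) (nat_lit 1) (nat_lit 5) (nat_lit 3) (nat_lit 4) (nat_lit 1) (nat_lit 4) (nat_lit 334) (nat_lit 198) (nat_lit 188))) (XT.nd (nat_lit 78) (nat_lit 0) (nat_lit 0) (XT.lf (nat_lit 0) (nat_lit 23736321693) (nat_lit 152) (nat_lit 98259114202) (nat_lit 0) (nat_lit 22365518561) (nat_lit 1) (nat_lit 5) (nat_lit 3) (nat_lit 4) (nat_lit 1) (nat_lit 4) (nat_lit 335) (nat_lit 198) (nat_lit 187)) (XT.lf (nat_lit 0) (nat_lit 26255435395) (nat_lit 152) (nat_lit 100454171256) (nat_lit 0) (nat_lit 24792737678) (nat_lit 1) (nat_lit 5) (nat_lit 3) (nat_lit 4) (nat_lit 1) (nat_lit 4) (nat_lit 336) (nat_lit 198) (nat_lit 186)))) (XT.nd (nat_lit 156) (nat_lit 0) (nat_lit 0) (XT.nd (nat_lit 78) (nat_lit 0) (nat_lit 0) (XT.lf (nat_lit 0) (nat_lit 28862498253) (nat_lit 152) (nat_lit 102827969355) (nat_lit 0) (nat_lit 27312281886) (nat_lit 1) (nat_lit 5) (nat_lit 3) (nat_lit 4) (nat_lit 1) (nat_lit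 4) (nat_lit 337) (nat_lit 198) (nat_lit 185)) (XT.lf (nat_lit 0) (nat_lit 31563717562) (nat_lit 152) (nat_lit 105386160401) (nat_lit 0) (nat_lit 29930150098) (nat_lit 1) (nat_lit 5) (nat_lit 3) (nat_lit 4) (nat_lit 1) (nat_lit 4) (nat_lit 338) (nat_lit 198) (nat_lit 184))) (XT.nd (nat_lit 78) (nat_lit 0) (nat_lit 0) (XT.lf (nat_lit 0) (nat_lit 34365524795) (nat_lit 152) (nat_lit 108134835323) (nat_lit 0) (nat_lit 32652575335) (nat_lit 1) (nat_lit 5) (nat_lit 3) (nat_lit 4) (nat_lit 1) (nat_lit 4) (nat_lit 339) (nat_lit 198) (nat_lit 183)) (XT.nd (nat_lit 78) (nat_lit 0) (nat_lit 0) (XT.lf (nat_lit 0) (nat_lit 37274590923) (nat_lit 152) (nat_lit 111080538586) (nat_lit 0) (nat_lit 35486039561) (nat_lit 1) (nat_lit 5) (nat_lit 3) (nat_lit 4) (nat_lit 1) (nat_lit 4) (nat_lit 340) (nat_lit 198) (nat_lit 182)) (XT.lf (nat_lit 0) (nat_lit 40297842293) (nat_lit 152) (nat_lit 114230283770) (nat_lit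 0) (nat_lit 38437289120) (nat_lit 1) (nat_lit 5) (nat_lit 3) (nat_lit 4) (nat_lit 1) (nat_lit 4) (nat_lit 341) (nat_lit 198) (nat_lit 181))))))) (XT.nd (nat_lit 702) (nat_lit 0) (nat_lit 0) (XT.nd (nat_lit 312) (nat_lit 0) (nat_lit 0) (XT.nd (nat_lit 156) (nat_lit 0) (nat_lit 0) (XT.nd (nat_lit 78) (nat_lit 0) (nat_lit 0) (XT.lf (nat_lit 0) (nat_lit 43442477123) (nat_lit 152) (nat_lit 117591570267) (nat_lit 0) (nat_lit 41513350797) (nat_lit 1) (nat_lit 5) (nat_lit 3) (nat_lit 4) (nat_lit 1) (nat_lit 4) (nat_lit 342) (nat_lit 198) (nat_lit 180)) (XT.lf (nat_lit 0) (nat_lit 46715982638) (nat_lit 152) (nat_lit 121172401141) (nat_lit 0) (nat_lit 44721548547) (nat_lit 1) (nat_lit 5) (nat_lit 3) (nat_lit 4) (nat_lit 1) (nat_lit 4) (nat_lit 343) (nat_lit 198) (nat_lit 179))) (XT.nd (nat_lit 78) (nat_lit 0) (nat_lit 0) (XT.lf (nat_lit 0) (nat_lit 50126152899) (nat_lit 152) (nat_lit 124981302179)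 (nat_lit 0) (nat_lit 48069520937) (nat_lit 1) (nat_lit 5) (nat_lit 3) (nat_lit 4) (nat_lit 1) (nat_lit 4) (nat_lit 344) (nat_lit 198) (nat_lit 178)) (XT.lf (nat_lit 0) (nat_lit 53681107360) (nat_lit 152) (nat_lit 129027342194) (nat_lit 0) (nat_lit 51565239329) (nat_lit 1) (nat_lit 5) (nat_lit 3) (nat_lit 4) (nat_lit 1) (nat_lit 4) (nat_lit 345) (nat_lit 198) (nat_lit 177)))) (XT.nd (nat_lit 156) (nat_lit 0) (nat_lit 0) (XT.nd (nat_lit 78) (nat_lit 0) (nat_lit 0) (XT.lf (nat_lit 0) (nat_lit 57389310197) (nat_lit 152) (nat_lit 133320154614) (nat_lit 0) (nat_lit 55217026864) (nat_lit 1) (nat_lit 5) (nat_lit 3) (nat_lit 4) (nat_lit 1) (nat_lit 4) (nat_lit 346) (nat_lit 198) (nat_lit 176)) (XT.lf (nat_lit 0) (nat_lit 61259590465) (nat_lit 152) (nat_lit 137869960420) (nat_lit 0) (nat_lit 59033578272) (nat_lit 1) (nat_lit 5) (nat_lit 3) (nat_lit 4) (nat_lit 1) (nat_lit 4) (nat_lit 347) (nat_lit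 198) (nat_lit 175))) (XT.nd (nat_lit 78) (nat_lit 0) (nat_lit 0) (XT.lf (nat_lit 0) (nat_lit 65301163117) (nat_lit 152) (nat_lit 142687592485) (nat_lit 0) (nat_lit 63023980581) (nat_lit 1) (nat_lit 5) (nat_lit 3) (nat_lit 4) (nat_lit 1) (nat_lit 4) (nat_lit 348) (nat_lit 198) (nat_lit 174)) (XT.nd (nat_lit 78) (nat_lit 0) (nat_lit 0) (XT.lf (nat_lit 0) (nat_lit 69523650945) (nat_lit 152) (nat_lit 147784521360) (nat_lit 0) (nat_lit 67197734749) (nat_lit 1) (nat_lit 5) (nat_lit 3) (nat_lit 4) (nat_lit 1) (nat_lit 4) (nat_lit 349) (nat_lit 198) (nat_lit 173)) (XT.lf (nat_lit 0) (nat_lit 73937107492) (nat_lit 152) (nat_lit 153172882591) (nat_lit 0) (nat_lit 71564778287) (nat_lit 1) (nat_lit 5) (nat_lit 3) (nat_lit 4) (nat_lit 1) (nat_lit 4) (nat_lit 350) (nat_lit 198) (nat_lit 172)))))) (XT.nd (nat_lit 312) (nat_lit 0) (nat_lit 0) (XT.nd (nat_lit 156) (nat_lit 0) (nat_lit 0) (XT.nd (nat_lit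 78) (nat_lit 0) (nat_lit 0) (XT.lf (nat_lit 0) (nat_lit 78552040986) (nat_lit 152) (nat_lit 158865505608) (nat_lit 0) (nat_lit 76135508915) (nat_lit 1) (nat_lit 5) (nat_lit 3) (nat_lit 4) (nat_lit 1) (nat_lit 4) (nat_lit 351) (nat_lit 198) (nat_lit 171)) (XT.lf (nat_lit 0) (nat_lit 83379439366) (nat_lit 152) (nat_lit 164875944277) (nat_lit 0) (nat_lit 80920809328) (nat_lit 1) (nat_lit 5) (nat_lit 3) (nat_lit 4) (nat_lit 1) (nat_lit 4) (nat_lit 352) (nat_lit 198) (nat_lit 170))) (XT.nd (nat_lit 78) (nat_lit 0) (nat_lit 0) (XT.lf (nat_lit 0) (nat_lit 88430796437) (nat_lit 152) (nat_lit 171218509166) (nat_lit 0) (nat_lit 85932073096) (nat_lit 1) (nat_lit 5) (nat_lit 3) (nat_lit 4) (nat_lit 1) (nat_lit 4) (nat_lit 353) (nat_lit 198) (nat_lit 169)) (XT.lf (nat_lit 0) (nat_lit 93718139239) (nat_lit 152) (nat_lit 177908301618) (nat_lit 0) (nat_lit 91181231801) (nat_lit 1) (nat_lit 5) (nat_lit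 3) (nat_lit 4) (nat_lit 1) (nat_lit 4) (nat_lit 354) (nat_lit 198) (nat_lit 168)))) (XT.nd (nat_lit 156) (nat_lit 0) (nat_lit 0) (XT.nd (nat_lit 78) (nat_lit 0) (nat_lit 0) (XT.lf (nat_lit 0) (nat_lit 99254056684) (nat_lit 152) (nat_lit 184961249713) (nat_lit 0) (nat_lit 96680783438) (nat_lit 1) (nat_lit 5) (nat_lit 3) (nat_lit 4) (nat_lit 1) (nat_lit 4) (nat_lit 355) (nat_lit 198) (nat_lit 167)) (XT.lf (nat_lit 0) (nat_lit 105051729528) (nat_lit 152) (nat_lit 192394146183) (nat_lit 0) (nat_lit 102443822180) (nat_lit 1) (nat_lit 5) (nat_lit 3) (nat_lit 4) (nat_lit 1) (nat_lit 4) (nat_lit 356) (nat_lit 198) (nat_lit 166))) (XT.nd (nat_lit 78) (nat_lit 0) (nat_lit 0) (XT.lf (nat_lit 0) (nat_lit 111124961754) (nat_lit 152) (nat_lit 200224688400) (nat_lit 0) (nat_lit 108484069547) (nat_lit 1) (nat_lit 5) (nat_lit 3) (nat_lit 4) (nat_lit 1) (nat_lit 4) (nat_lit 357) (nat_lit 198) (nat_lit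 165)) (XT.nd (nat_lit 78) (nat_lit 0) (nat_lit 0) (XT.lf (nat_lit 0) (nat_lit 117488213438) (nat_lit 152) (nat_lit 208471520514) (nat_lit 0) (nat_lit 114815907079) (nat_lit 1) (nat_lit 5) (nat_lit 3) (nat_lit 4) (nat_lit 1) (nat_lit 4) (nat_lit 358) (nat_lit 198) (nat_lit 164)) (XT.lf (nat_lit 0) (nat_lit 124156635180) (nat_lit 152) (nat_lit 217154277839) (nat_lit 0) (nat_lit 121454410581) (nat_lit 1) (nat_lit 5) (nat_lit 3) (nat_lit 4) (nat_lit 1) (nat_lit 4) (nat_lit 359) (nat_lit 198) (nat_lit 163))))))))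
noncomputable def xc13 : XT := (XT.nd (nat_lit 35412) (nat_lit 0) (nat_lit 0) (XT.nd (nat_lit 34710) (nat_lit 0) (nat_lit 0) (XT.nd (nat_lit 312) (nat_lit 0) (nat_lit 0) (XT.nd (nat_lit 156) (nat_lit 0) (nat_lit 0) (XT.nd (nat_lit 78) (nat_lit 0) (nat_lit 0) (XT.lf (nat_lit 0) (nat_lit 131146104174) (nat_lit 152) (nat_lit 226293633605) (nat_lit 0) (nat_lit 128415386014) (nat_lit 1) (nat_lit 5) (nat_lit 3) (nat_lit 4) (nat_lit 1) (nat_lit 4) (nat_lit 360) (nat_lit 198) (nat_lit 162)) (XT.lf (nat_lit 0) (nat_lit 138473262013) (nat_lit 152) (nat_lit 235911348185) (nat_lit 0) (nat_lit 135715407128) (nat_lit 1) (nat_lit 5) (nat_lit 3) (nat_lit 4) (nat_lit 1) (nat_lit 4) (nat_lit 361) (nat_lit 198) (nat_lit 161))) (XT.nd (nat_lit 78) (nat_lit 0) (nat_lit 0) (XT.lf (nat_lit 0) (nat_lit 146155554312) (nat_lit 152) (nat_lit 246030320898) (nat_lit 0) (nat_lit 143371854926) (nat_lit 1) (nat_lit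 5) (nat_lit 3) (nat_lit 4) (nat_lit 1) (nat_lit 4) (nat_lit 362) (nat_lit 198) (nat_lit 160)) (XT.lf (nat_lit 0) (nat_lit 154211272241) (nat_lit 152) (nat_lit 256674644537) (nat_lit 0) (nat_lit 151402959046) (nat_lit 1) (nat_lit 5) (nat_lit 3) (nat_lit 4) (nat_lit 1) (nat_lit 4) (nat_lit 363) (nat_lit 198) (nat_lit 159)))) (XT.nd (nat_lit 34242) (nat_lit 0) (nat_lit 152) (XT.nd (nat_lit 78) (nat_lit 0) (nat_lit 0) (XT.lf (nat_lit 0) (nat_lit 162659596083) (nat_lit 152) (nat_lit 267869662730) (nat_lit 0) (nat_lit 159827841163) (nat_lit 1) (nat_lit 5) (nat_lit 3) (nat_lit 4) (nat_lit 1) (nat_lit 4) (nat_lit 364) (nat_lit 198) (nat_lit 158)) (XT.lf (nat_lit 0) (nat_lit 171520640893) (nat_lit 152) (nat_lit 279642030281) (nat_lit 0) (nat_lit 168666560523) (nat_lit 1) (nat_lit 5) (nat_lit 3) (nat_lit 4) (nat_lit 1) (nat_lit 4) (nat_lit 365) (nat_lit 198) (nat_lit 157))) (XT.nd (nat_lit 78)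 (nat_lit 0) (nat_lit 0) (XT.lf (nat_lit 0) (nat_lit 35466908624) (nat_lit 76) (nat_lit 1628808651) (nat_lit 76) (nat_lit 1628808651) (nat_lit 3) (nat_lit 4) (nat_lit 4) (nat_lit 5) (nat_lit 4) (nat_lit 4) (nat_lit 322) (nat_lit 199) (nat_lit 199)) (XT.lf (nat_lit 0) (nat_lit 78137279438) (nat_lit 76) (nat_lit 1626279052) (nat_lit 76) (nat_lit 1452998109) (nat_lit 3) (nat_lit 4) (nat_lit 4) (nat_lit 5) (nat_lit 4) (nat_lit 4) (nat_lit 323) (nat_lit 199) (nat_lit 198))))) (XT.nd (nat_lit 312) (nat_lit 0) (nat_lit 0) (XT.nd (nat_lit 156) (nat_lit 0) (nat_lit 0) (XT.nd (nat_lit 78) (nat_lit 0) (nat_lit 0) (XT.lf (nat_lit 0) (nat_lit 369471808) (nat_lit 152) (nat_lit 84758342007) (nat_lit 0) (nat_lit 47271415) (nat_lit 1) (nat_lit 5) (nat_lit 3) (nat_lit 4) (nat_lit 1) (nat_lit 4) (nat_lit 324) (nat_lit 199) (nat_lit 197)) (XT.lf (nat_lit 0) (nat_lit 2248895161) (nat_lit 152) (nat_lit 85303790739)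 (nat_lit 0) (nat_lit 1777008174) (nat_lit 1) (nat_lit 5) (nat_lit 3) (nat_lit 4) (nat_lit 1) (nat_lit 4) (nat_lit 325) (nat_lit 199) (nat_lit 196))) (XT.nd (nat_lit 78) (nat_lit 0) (nat_lit 0) (XT.lf (nat_lit 0) (nat_lit 4160381053) (nat_lit 152) (nat_lit 85988886405) (nat_lit 0) (nat_lit 3545935406) (nat_lit 1) (nat_lit 5) (nat_lit 3) (nat_lit 4) (nat_lit 1) (nat_lit 4) (nat_lit 326) (nat_lit 199) (nat_lit 195)) (XT.lf (nat_lit 0) (nat_lit 6108480641) (nat_lit 152) (nat_lit 86815260185) (nat_lit 0) (nat_lit 5358264841) (nat_lit 1) (nat_lit 5) (nat_lit 3) (nat_lit 4) (nat_lit 1) (nat_lit 4) (nat_lit 327) (nat_lit 199) (nat_lit 194)))) (XT.nd (nat_lit 156) (nat_lit 0) (nat_lit 0) (XT.nd (nat_lit 78) (nat_lit 0) (nat_lit 0) (XT.lf (nat_lit 0) (nat_lit 8097832258) (nat_lit 152) (nat_lit 87784879635) (nat_lit 0) (nat_lit 7218311550) (nat_lit 1) (nat_lit 5) (nat_lit 3) (nat_lit 4) (nat_lit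 1) (nat_lit 4) (nat_lit 328) (nat_lit 199) (nat_lit 193)) (XT.lf (nat_lit 0) (nat_lit 10133172455) (nat_lit 152) (nat_lit 88900053372) (nat_lit 0) (nat_lit 9130504216) (nat_lit 1) (nat_lit 5) (nat_lit 3) (nat_lit 4) (nat_lit 1) (nat_lit 4) (nat_lit 329) (nat_lit 199) (nat_lit 192))) (XT.nd (nat_lit 78) (nat_lit 0) (nat_lit 0) (XT.lf (nat_lit 0) (nat_lit 12219347280) (nat_lit 152) (nat_lit 90163436574) (nat_lit 0) (nat_lit 11099395678) (nat_lit 1) (nat_lit 5) (nat_lit 3) (nat_lit 4) (nat_lit 1) (nat_lit 4) (nat_lit 330) (nat_lit 199) (nat_lit 191)) (XT.nd (nat_lit 78) (nat_lit 0) (nat_lit 0) (XT.lf (nat_lit 0) (nat_lit 14361323816) (nat_lit 152) (nat_lit 91578037294) (nat_lit 0) (nat_lit 13129673773) (nat_lit 1) (nat_lit 5) (nat_lit 3) (nat_lit 4) (nat_lit 1) (nat_lit 4) (nat_lit 331) (nat_lit 199) (nat_lit 190)) (XT.lf (nat_lit 0) (nat_lit 16564202007) (nat_lit 152) (nat_lit 93147223630)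 (nat_lit 0) (nat_lit 15226172496) (nat_lit 1) (nat_lit 5) (nat_lit 3) (nat_lit 4) (nat_lit 1) (nat_lit 4) (nat_lit 332) (nat_lit 199) (nat_lit 189))))))) (XT.nd (nat_lit 702) (nat_lit 0) (nat_lit 0) (XT.nd (nat_lit 312) (nat_lit 0) (nat_lit 0) (XT.nd (nat_lit 156) (nat_lit 0) (nat_lit 0) (XT.nd (nat_lit 78) (nat_lit 0) (nat_lit 0) (XT.lf (nat_lit 0) (nat_lit 18833226801) (nat_lit 152) (nat_lit 94874731740) (nat_lit 0) (nat_lit 17393883512) (nat_lit 1) (nat_lit 5) (nat_lit 3) (nat_lit 4) (nat_lit 1) (nat_lit 4) (nat_lit 333) (nat_lit 199) (nat_lit 188)) (XT.lf (nat_lit 0) (nat_lit 21173800638) (nat_lit 152) (nat_lit 96764674737) (nat_lit 0) (nat_lit 19637968036) (nat_lit 1) (nat_lit 5) (nat_lit 3) (nat_lit 4) (nat_lit 1) (nat_lit 4) (nat_lit 334) (nat_lit 199) (nat_lit 187))) (XT.nd (nat_lit 78) (nat_lit 0) (nat_lit 0) (XT.lf (nat_lit 0) (nat_lit 23591496313) (nat_lit 152) (nat_lit 98821552488)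 (nat_lit 0) (nat_lit 21963769128) (nat_lit 1) (nat_lit 5) (nat_lit 3) (nat_lit 4) (nat_lit 1) (nat_lit 4) (nat_lit 335) (nat_lit 199) (nat_lit 186)) (XT.lf (nat_lit 0) (nat_lit 26092070245) (nat_lit 152) (nat_lit 101050262319) (nat_lit 0) (nat_lit 24376824408) (nat_lit 1) (nat_lit 5) (nat_lit 3) (nat_lit 4) (nat_lit 1) (nat_lit 4) (nat_lit 336) (nat_lit 199) (nat_lit 185)))) (XT.nd (nat_lit 156) (nat_lit 0) (nat_lit 0) (XT.nd (nat_lit 78) (nat_lit 0) (nat_lit 0) (XT.lf (nat_lit 0) (nat_lit 28681476180) (nat_lit 152) (nat_lit 103456110682) (nat_lit 0) (nat_lit 26882879247) (nat_lit 1) (nat_lit 5) (nat_lit 3) (nat_lit 4) (nat_lit 1) (nat_lit 4) (nat_lit 337) (nat_lit 199) (nat_lit 184)) (XT.lf (nat_lit 0) (nat_lit 31365879372) (nat_lit 152) (nat_lit 106044825788) (nat_lit 0) (nat_lit 29487900442) (nat_lit 1) (nat_lit 5) (nat_lit 3) (nat_lit 4) (nat_lit 1) (nat_lit 4) (nat_lit 338) (nat_lit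 199) (nat_lit 183))) (XT.nd (nat_lit 78) (nat_lit 0) (nat_lit 0) (XT.lf (nat_lit 0) (nat_lit 34151671255) (nat_lit 152) (nat_lit 108822571245) (nat_lit 0) (nat_lit 32198090424) (nat_lit 1) (nat_lit 5) (nat_lit 3) (nat_lit 4) (nat_lit 1) (nat_lit 4) (nat_lit 339) (nat_lit 199) (nat_lit 182)) (XT.nd (nat_lit 78) (nat_lit 0) (nat_lit 0) (XT.lf (nat_lit 0) (nat_lit 37045484669) (nat_lit 152) (nat_lit 111795960731) (nat_lit 0) (nat_lit 35019902026) (nat_lit 1) (nat_lit 5) (nat_lit 3) (nat_lit 4) (nat_lit 1) (nat_lit 4) (nat_lit 340) (nat_lit 199) (nat_lit 181)) (XT.lf (nat_lit 0) (nat_lit 40054209644) (nat_lit 152) (nat_lit 114972073746) (nat_lit 0) (nat_lit 37960053849) (nat_lit 1) (nat_lit 5) (nat_lit 3) (nat_lit 4) (nat_lit 1) (nat_lit 4) (nat_lit 341) (nat_lit 199) (nat_lit 180)))))) (XT.nd (nat_lit 312) (nat_lit 0) (nat_lit 0) (XT.nd (nat_lit 156) (nat_lit 0) (nat_lit 0) (XT.nd (nat_lit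 78) (nat_lit 0) (nat_lit 0) (XT.lf (nat_lit 0) (nat_lit 43185009812) (nat_lit 152) (nat_lit 118358472464) (nat_lit 0) (nat_lit 41025546252) (nat_lit 1) (nat_lit 5) (nat_lit 3) (nat_lit 4) (nat_lit 1) (nat_lit 4) (nat_lit 342) (nat_lit 199) (nat_lit 179)) (XT.lf (nat_lit 0) (nat_lit 46445339459) (nat_lit 152) (nat_lit 121963219738) (nat_lit 0) (nat_lit 44223678027) (nat_lit 1) (nat_lit 5) (nat_lit 3) (nat_lit 4) (nat_lit 1) (nat_lit 4) (nat_lit 343) (nat_lit 199) (nat_lit 178))) (XT.nd (nat_lit 78) (nat_lit 0) (nat_lit 0) (XT.lf (nat_lit 0) (nat_lit 49842961275) (nat_lit 152) (nat_lit 125794898300) (nat_lit 0) (nat_lit 47562063775) (nat_lit 1) (nat_lit 5) (nat_lit 3) (nat_lit 4) (nat_lit 1) (nat_lit 4) (nat_lit 344) (nat_lit 199) (nat_lit 177)) (XT.lf (nat_lit 0) (nat_lit 53385964835) (nat_lit 152) (nat_lit 129862631195) (nat_lit 0) (nat_lit 51048652032) (nat_lit 1) (nat_lit 5) (nat_lit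 3) (nat_lit 4) (nat_lit 1) (nat_lit 4) (nat_lit 345) (nat_lit 199) (nat_lit 176)))) (XT.nd (nat_lit 156) (nat_lit 0) (nat_lit 0) (XT.nd (nat_lit 78) (nat_lit 0) (nat_lit 0) (XT.lf (nat_lit 0) (nat_lit 57082785862) (nat_lit 152) (nat_lit 134176103501) (nat_lit 0) (nat_lit 54691744199) (nat_lit 1) (nat_lit 5) (nat_lit 3) (nat_lit 4) (nat_lit 1) (nat_lit 4) (nat_lit 346) (nat_lit 199) (nat_lit 175)) (XT.lf (nat_lit 0) (nat_lit 60942226311) (nat_lit 152) (nat_lit 138745585389) (nat_lit 0) (nat_lit 58500014305) (nat_lit 1) (nat_lit 5) (nat_lit 3) (nat_lit 4) (nat_lit 1) (nat_lit 4) (nat_lit 347) (nat_lit 199) (nat_lit 174))) (XT.nd (nat_lit 78) (nat_lit 0) (nat_lit 0) (XT.lf (nat_lit 0) (nat_lit 64973475325) (nat_lit 152) (nat_lit 143581956579) (nat_lit 0) (nat_lit 62482529660) (nat_lit 1) (nat_lit 5) (nat_lit 3) (nat_lit 4) (nat_lit 1) (nat_lit 4) (nat_lit 348) (nat_lit 199) (nat_lit 173))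 (XT.nd (nat_lit 78) (nat_lit 0) (nat_lit 0) (XT.lf (nat_lit 0) (nat_lit 69186131118) (nat_lit 152) (nat_lit 148696732241) (nat_lit 0) (nat_lit 66648772443) (nat_lit 1) (nat_lit 5) (nat_lit 3) (nat_lit 4) (nat_lit 1) (nat_lit 4) (nat_lit 349) (nat_lit 199) (nat_lit 172)) (XT.lf (nat_lit 0) (nat_lit 73590223821) (nat_lit 152) (nat_lit 154102090410) (nat_lit 0) (nat_lit 71008662280) (nat_lit 1) (nat_lit 5) (nat_lit 3) (nat_lit 4) (nat_lit 1) (nat_lit 4) (nat_lit 350) (nat_lit 199) (nat_lit 171))))))))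
noncomputable def xc14 : XT := (XT.nd (nat_lit 35256) (nat_lit 0) (nat_lit 0) (XT.nd (nat_lit 624) (nat_lit 0) (nat_lit 0) (XT.nd (nat_lit 312) (nat_lit 0) (nat_lit 0) (XT.nd (nat_lit 156) (nat_lit 0) (nat_lit 0) (XT.nd (nat_lit 78) (nat_lit 0) (nat_lit 0) (XT.lf (nat_lit 0) (nat_lit 78196239369) (nat_lit 152) (nat_lit 159810900989) (nat_lit 0) (nat_lit 75572579861) (nat_lit 1) (nat_lit 5) (nat_lit 3) (nat_lit 4) (nat_lit 1) (nat_lit 4) (nat_lit 351) (nat_lit 199) (nat_lit 170)) (XT.lf (nat_lit 0) (nat_lit 83015144467) (nat_lit 152) (nat_lit 165836756383) (nat_lit 0) (nat_lit 80351391656) (nat_lit 1) (nat_lit 5) (nat_lit 3) (nat_lit 4) (nat_lit 1) (nat_lit 4) (nat_lit 352) (nat_lit 199) (nat_lit 169))) (XT.nd (nat_lit 78) (nat_lit 0) (nat_lit 0) (XT.lf (nat_lit 0) (nat_lit 88058412698) (nat_lit 152) (nat_lit 172194003866) (nat_lit 0) (nat_lit 85356475790) (nat_lit 1) (nat_lit 5) (nat_lit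 3) (nat_lit 4) (nat_lit 1) (nat_lit 4) (nat_lit 353) (nat_lit 199) (nat_lit 168)) (XT.lf (nat_lit 0) (nat_lit 93338051843) (nat_lit 152) (nat_lit 178897779743) (nat_lit 0) (nat_lit 90599749127) (nat_lit 1) (nat_lit 5) (nat_lit 3) (nat_lit 4) (nat_lit 1) (nat_lit 4) (nat_lit 354) (nat_lit 199) (nat_lit 167)))) (XT.nd (nat_lit 156) (nat_lit 0) (nat_lit 0) (XT.nd (nat_lit 78) (nat_lit 0) (nat_lit 0) (XT.lf (nat_lit 0) (nat_lit 98866632472) (nat_lit 152) (nat_lit 185964045384) (nat_lit 0) (nat_lit 96093695654) (nat_lit 1) (nat_lit 5) (nat_lit 3) (nat_lit 4) (nat_lit 1) (nat_lit 4) (nat_lit 355) (nat_lit 199) (nat_lit 166)) (XT.lf (nat_lit 0) (nat_lit 104657317872) (nat_lit 152) (nat_lit 193409625232) (nat_lit 0) (nat_lit 101851396195) (nat_lit 1) (nat_lit 5) (nat_lit 3) (nat_lit 4) (nat_lit 1) (nat_lit 4) (nat_lit 356) (nat_lit 199) (nat_lit 165))) (XT.nd (nat_lit 78) (nat_lit 0) (nat_lit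 0) (XT.lf (nat_lit 0) (nat_lit 110723895389) (nat_lit 152) (nat_lit 201252246857) (nat_lit 0) (nat_lit 107886559560) (nat_lit 1) (nat_lit 5) (nat_lit 3) (nat_lit 4) (nat_lit 1) (nat_lit 4) (nat_lit 357) (nat_lit 199) (nat_lit 164)) (XT.lf (nat_lit 0) (nat_lit 117080809255) (nat_lit 152) (nat_lit 209510583168) (nat_lit 0) (nat_lit 114213555187) (nat_lit 1) (nat_lit 5) (nat_lit 3) (nat_lit 4) (nat_lit 1) (nat_lit 4) (nat_lit 358) (nat_lit 199) (nat_lit 163))))) (XT.nd (nat_lit 312) (nat_lit 0) (nat_lit 0) (XT.nd (nat_lit 156) (nat_lit 0) (nat_lit 0) (XT.nd (nat_lit 78) (nat_lit 0) (nat_lit 0) (XT.lf (nat_lit 0) (nat_lit 123743194980) (nat_lit 152) (nat_lit 218204296871) (nat_lit 0) (nat_lit 120847447350) (nat_lit 1) (nat_lit 5) (nat_lit 3) (nat_lit 4) (nat_lit 1) (nat_lit 4) (nat_lit 359) (nat_lit 199) (nat_lit 162)) (XT.lf (nat_lit 0) (nat_lit 130726915386) (nat_lit 152) (nat_lit 227354087284)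 (nat_lit 0) (nat_lit 127804031031) (nat_lit 1) (nat_lit 5) (nat_lit 3) (nat_lit 4) (nat_lit 1) (nat_lit 4) (nat_lit 360) (nat_lit 199) (nat_lit 161))) (XT.nd (nat_lit 78) (nat_lit 0) (nat_lit 0) (XT.lf (nat_lit 0) (nat_lit 138048598380) (nat_lit 152) (nat_lit 236981739622) (nat_lit 0) (nat_lit 135099869525) (nat_lit 1) (nat_lit 5) (nat_lit 3) (nat_lit 4) (nat_lit 1) (nat_lit 4) (nat_lit 361) (nat_lit 199) (nat_lit 160)) (XT.lf (nat_lit 0) (nat_lit 145725676540) (nat_lit 152) (nat_lit 247110176867) (nat_lit 0) (nat_lit 142752333875) (nat_lit 1) (nat_lit 5) (nat_lit 3) (nat_lit 4) (nat_lit 1) (nat_lit 4) (nat_lit 362) (nat_lit 199) (nat_lit 159)))) (XT.nd (nat_lit 156) (nat_lit 0) (nat_lit 0) (XT.nd (nat_lit 78) (nat_lit 0) (nat_lit 0) (XT.lf (nat_lit 0) (nat_lit 153776428623) (nat_lit 152) (nat_lit 257763514346) (nat_lit 0) (nat_lit 150779644235) (nat_lit 1) (nat_lit 5) (nat_lit 3) (nat_lit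 4) (nat_lit 1) (nat_lit 4) (nat_lit 363) (nat_lit 199) (nat_lit 158)) (XT.lf (nat_lit 0) (nat_lit 162220023088) (nat_lit 152) (nat_lit 268967117148) (nat_lit 0) (nat_lit 159200913248) (nat_lit 1) (nat_lit 5) (nat_lit 3) (nat_lit 4) (nat_lit 1) (nat_lit 4) (nat_lit 364) (nat_lit 199) (nat_lit 157))) (XT.nd (nat_lit 34008) (nat_lit 0) (nat_lit 152) (XT.lf (nat_lit 0) (nat_lit 171076563729) (nat_lit 152) (nat_lit 280747660518) (nat_lit 0) (nat_lit 168036191555) (nat_lit 1) (nat_lit 5) (nat_lit 3) (nat_lit 4) (nat_lit 1) (nat_lit 4) (nat_lit 365) (nat_lit 199) (nat_lit 156)) (XT.nd (nat_lit 78) (nat_lit 0) (nat_lit 0) (XT.lf (nat_lit 0) (nat_lit 28627912090) (nat_lit 76) (nat_lit 3299008750) (nat_lit 76) (nat_lit 3299008750) (nat_lit 3) (nat_lit 4) (nat_lit 4) (nat_lit 5) (nat_lit 4) (nat_lit 4) (nat_lit 320) (nat_lit 200) (nat_lit 200)) (XT.lf (nat_lit 0) (nat_lit 63958225283) (nat_lit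 76) (nat_lit 5043988305) (nat_lit 76) (nat_lit 4862043315) (nat_lit 3) (nat_lit 4) (nat_lit 4) (nat_lit 5) (nat_lit 4) (nat_lit 4) (nat_lit 321) (nat_lit 200) (nat_lit 199))))))) (XT.nd (nat_lit 702) (nat_lit 0) (nat_lit 0) (XT.nd (nat_lit 312) (nat_lit 0) (nat_lit 0) (XT.nd (nat_lit 156) (nat_lit 152) (nat_lit 0) (XT.nd (nat_lit 78) (nat_lit 0) (nat_lit 0) (XT.lf (nat_lit 0) (nat_lit 70874837066) (nat_lit 76) (nat_lit 3465566713) (nat_lit 76) (nat_lit 3110340780) (nat_lit 3) (nat_lit 4) (nat_lit 4) (nat_lit 5) (nat_lit 4) (nat_lit 4) (nat_lit 322) (nat_lit 200) (nat_lit 198)) (XT.lf (nat_lit 0) (nat_lit 78022127653) (nat_lit 76) (nat_lit 1858994579) (nat_lit 76) (nat_lit 1338739176) (nat_lit 3) (nat_lit 4) (nat_lit 4) (nat_lit 5) (nat_lit 4) (nat_lit 4) (nat_lit 323) (nat_lit 200) (nat_lit 197))) (XT.nd (nat_lit 78) (nat_lit 0) (nat_lit 0) (XT.lf (nat_lit 0) (nat_lit 236983070) (nat_lit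 76) (nat_lit 209070293) (nat_lit 152) (nat_lit 84733986438) (nat_lit 1) (nat_lit 5) (nat_lit 2) (nat_lit 5) (nat_lit 3) (nat_lit 4) (nat_lit 324) (nat_lit 200) (nat_lit 196)) (XT.lf (nat_lit 0) (nat_lit 2292013213) (nat_lit 152) (nat_lit 85540058119) (nat_lit 0) (nat_lit 1504286622) (nat_lit 1) (nat_lit 5) (nat_lit 3) (nat_lit 4) (nat_lit 1) (nat_lit 4) (nat_lit 325) (nat_lit 200) (nat_lit 195)))) (XT.nd (nat_lit 156) (nat_lit 0) (nat_lit 0) (XT.nd (nat_lit 78) (nat_lit 0) (nat_lit 0) (XT.lf (nat_lit 0) (nat_lit 4174737837) (nat_lit 152) (nat_lit 86277360287) (nat_lit 0) (nat_lit 3251241094) (nat_lit 1) (nat_lit 5) (nat_lit 3) (nat_lit 4) (nat_lit 1) (nat_lit 4) (nat_lit 326) (nat_lit 200) (nat_lit 194)) (XT.lf (nat_lit 0) (nat_lit 6095445742) (nat_lit 152) (nat_lit 87153454546) (nat_lit 0) (nat_lit 5042644091) (nat_lit 1) (nat_lit 5) (nat_lit 3) (nat_lit 4) (nat_lit 1) (nat_lit 4)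 (nat_lit 327) (nat_lit 200) (nat_lit 193))) (XT.nd (nat_lit 78) (nat_lit 0) (nat_lit 0) (XT.lf (nat_lit 0) (nat_lit 8058710042) (nat_lit 152) (nat_lit 88170426832) (nat_lit 0) (nat_lit 6882760859) (nat_lit 1) (nat_lit 5) (nat_lit 3) (nat_lit 4) (nat_lit 1) (nat_lit 4) (nat_lit 328) (nat_lit 200) (nat_lit 192)) (XT.nd (nat_lit 78) (nat_lit 0) (nat_lit 0) (XT.lf (nat_lit 0) (nat_lit 10069205174) (nat_lit 152) (nat_lit 89330698510) (nat_lit 0) (nat_lit 8775972629) (nat_lit 1) (nat_lit 5) (nat_lit 3) (nat_lit 4) (nat_lit 1) (nat_lit 4) (nat_lit 329) (nat_lit 200) (nat_lit 191)) (XT.lf (nat_lit 0) (nat_lit 12131718033) (nat_lit 152) (nat_lit 90637032130) (nat_lit 0) (nat_lit 10726787047) (nat_lit 1) (nat_lit 5) (nat_lit 3) (nat_lit 4) (nat_lit 1) (nat_lit 4) (nat_lit 330) (nat_lit 200) (nat_lit 190)))))) (XT.nd (nat_lit 312) (nat_lit 0) (nat_lit 0) (XT.nd (nat_lit 156) (nat_lit 0) (nat_lit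 0) (XT.nd (nat_lit 78) (nat_lit 0) (nat_lit 0) (XT.lf (nat_lit 0) (nat_lit 14251159363) (nat_lit 152) (nat_lit 92092538011) (nat_lit 0) (nat_lit 12739848910) (nat_lit 1) (nat_lit 5) (nat_lit 3) (nat_lit 4) (nat_lit 1) (nat_lit 4) (nat_lit 331) (nat_lit 200) (nat_lit 189)) (XT.lf (nat_lit 0) (nat_lit 16432575453) (nat_lit 152) (nat_lit 93700681643) (nat_lit 0) (nat_lit 14819951221) (nat_lit 1) (nat_lit 5) (nat_lit 3) (nat_lit 4) (nat_lit 1) (nat_lit 4) (nat_lit 332) (nat_lit 200) (nat_lit 188))) (XT.nd (nat_lit 78) (nat_lit 0) (nat_lit 0) (XT.lf (nat_lit 0) (nat_lit 18681160152) (nat_lit 152) (nat_lit 95465291940) (nat_lit 0) (nat_lit 16972046607) (nat_lit 1) (nat_lit 5) (nat_lit 3) (nat_lit 4) (nat_lit 1) (nat_lit 4) (nat_lit 333) (nat_lit 200) (nat_lit 187)) (XT.lf (nat_lit 0) (nat_lit 21002267231) (nat_lit 152) (nat_lit 97390570353) (nat_lit 0) (nat_lit 19201259102) (nat_lit 1) (nat_lit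 5) (nat_lit 3) (nat_lit 4) (nat_lit 1) (nat_lit 4) (nat_lit 334) (nat_lit 200) (nat_lit 186)))) (XT.nd (nat_lit 156) (nat_lit 0) (nat_lit 0) (XT.nd (nat_lit 78) (nat_lit 0) (nat_lit 0) (XT.lf (nat_lit 0) (nat_lit 23401423137) (nat_lit 152) (nat_lit 99481100881) (nat_lit 0) (nat_lit 21512896357) (nat_lit 1) (nat_lit 5) (nat_lit 3) (nat_lit 4) (nat_lit 1) (nat_lit 4) (nat_lit 335) (nat_lit 200) (nat_lit 185)) (XT.lf (nat_lit 0) (nat_lit 25884340145) (nat_lit 152) (nat_lit 101741860976) (nat_lit 0) (nat_lit 23912462269) (nat_lit 1) (nat_lit 5) (nat_lit 3) (nat_lit 4) (nat_lit 1) (nat_lit 4) (nat_lit 336) (nat_lit 200) (nat_lit 184))) (XT.nd (nat_lit 78) (nat_lit 0) (nat_lit 0) (XT.lf (nat_lit 0) (nat_lit 28456929963) (nat_lit 152) (nat_lit 104178233400) (nat_lit 0) (nat_lit 26405670090) (nat_lit 1) (nat_lit 5) (nat_lit 3) (nat_lit 4) (nat_lit 1) (nat_lit 4) (nat_lit 337) (nat_lit 200)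 (nat_lit 183)) (XT.nd (nat_lit 78) (nat_lit 0) (nat_lit 0) (XT.lf (nat_lit 0) (nat_lit 31125317804) (nat_lit 152) (nat_lit 106796019040) (nat_lit 0) (nat_lit 28998456030) (nat_lit 1) (nat_lit 5) (nat_lit 3) (nat_lit 4) (nat_lit 1) (nat_lit 4) (nat_lit 338) (nat_lit 200) (nat_lit 182)) (XT.lf (nat_lit 0) (nat_lit 33895856974) (nat_lit 152) (nat_lit 109601450719) (nat_lit 0) (nat_lit 31696993388) (nat_lit 1) (nat_lit 5) (nat_lit 3) (nat_lit 4) (nat_lit 1) (nat_lit 4) (nat_lit 339) (nat_lit 200) (nat_lit 181))))))))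
noncomputable def xc15 : XT := (XT.nd (nat_lit 1326) (nat_lit 0) (nat_lit 0) (XT.nd (nat_lit 624) (nat_lit 0) (nat_lit 0) (XT.nd (nat_lit 312) (nat_lit 0) (nat_lit 0) (XT.nd (nat_lit 156) (nat_lit 0) (nat_lit 0) (XT.nd (nat_lit 78) (nat_lit 0) (nat_lit 0) (XT.lf (nat_lit 0) (nat_lit 36775143993) (nat_lit 152) (nat_lit 112601208037) (nat_lit 0) (nat_lit 34507707254) (nat_lit 1) (nat_lit 5) (nat_lit 3) (nat_lit 4) (nat_lit 1) (nat_lit 4) (nat_lit 340) (nat_lit 200) (nat_lit 180)) (XT.lf (nat_lit 0) (nat_lit 39770034307) (nat_lit 152) (nat_lit 115802433273) (nat_lit 0) (nat_lit 37437289803) (nat_lit 1) (nat_lit 5) (nat_lit 3) (nat_lit 4) (nat_lit 1) (nat_lit 4) (nat_lit 341) (nat_lit 200) (nat_lit 179))) (XT.nd (nat_lit 78) (nat_lit 0) (nat_lit 0) (XT.lf (nat_lit 0) (nat_lit 42887658607) (nat_lit 152) (nat_lit 119212748390) (nat_lit 0) (nat_lit 40492716232) (nat_lit 1) (nat_lit 5) (nat_lit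 3) (nat_lit 4) (nat_lit 1) (nat_lit 4) (nat_lit 342) (nat_lit 200) (nat_lit 178)) (XT.lf (nat_lit 0) (nat_lit 46135439808) (nat_lit 152) (nat_lit 122840273189) (nat_lit 0) (nat_lit 43681261365) (nat_lit 1) (nat_lit 5) (nat_lit 3) (nat_lit 4) (nat_lit 1) (nat_lit 4) (nat_lit 343) (nat_lit 200) (nat_lit 177)))) (XT.nd (nat_lit 156) (nat_lit 0) (nat_lit 0) (XT.nd (nat_lit 78) (nat_lit 0) (nat_lit 0) (XT.lf (nat_lit 0) (nat_lit 49521110723) (nat_lit 152) (nat_lit 126693644631) (nat_lit 0) (nat_lit 47010516977) (nat_lit 1) (nat_lit 5) (nat_lit 3) (nat_lit 4) (nat_lit 1) (nat_lit 4) (nat_lit 344) (nat_lit 200) (nat_lit 176)) (XT.lf (nat_lit 0) (nat_lit 53052732473) (nat_lit 152) (nat_lit 130782037412) (nat_lit 0) (nat_lit 50488409867) (nat_lit 1) (nat_lit 5) (nat_lit 3) (nat_lit 4) (nat_lit 1) (nat_lit 4) (nat_lit 345) (nat_lit 200) (nat_lit 175))) (XT.nd (nat_lit 78) (nat_lit 0) (nat_lit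 0) (XT.lf (nat_lit 0) (nat_lit 56738713680) (nat_lit 152) (nat_lit 135115185799) (nat_lit 0) (nat_lit 54123220732) (nat_lit 1) (nat_lit 5) (nat_lit 3) (nat_lit 4) (nat_lit 1) (nat_lit 4) (nat_lit 346) (nat_lit 200) (nat_lit 174)) (XT.lf (nat_lit 0) (nat_lit 60587830492) (nat_lit 152) (nat_lit 139703406813) (nat_lit 0) (nat_lit 57923603883) (nat_lit 1) (nat_lit 5) (nat_lit 3) (nat_lit 4) (nat_lit 1) (nat_lit 4) (nat_lit 347) (nat_lit 200) (nat_lit 173))))) (XT.nd (nat_lit 312) (nat_lit 0) (nat_lit 0) (XT.nd (nat_lit 156) (nat_lit 0) (nat_lit 0) (XT.nd (nat_lit 78) (nat_lit 0) (nat_lit 0) (XT.lf (nat_lit 0) (nat_lit 64609247471) (nat_lit 152) (nat_lit 144557624790) (nat_lit 0) (nat_lit 61898607853) (nat_lit 1) (nat_lit 5) (nat_lit 3) (nat_lit 4) (nat_lit 1) (nat_lit 4) (nat_lit 348) (nat_lit 200) (nat_lit 172)) (XT.lf (nat_lit 0) (nat_lit 68812539420) (nat_lit 152) (nat_lit 149689397390)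 (nat_lit 0) (nat_lit 66057696936) (nat_lit 1) (nat_lit 5) (nat_lit 3) (nat_lit 4) (nat_lit 1) (nat_lit 4) (nat_lit 349) (nat_lit 200) (nat_lit 171))) (XT.nd (nat_lit 78) (nat_lit 0) (nat_lit 0) (XT.lf (nat_lit 0) (nat_lit 73207714177) (nat_lit 152) (nat_lit 155110943121) (nat_lit 0) (nat_lit 70410773725) (nat_lit 1) (nat_lit 5) (nat_lit 3) (nat_lit 4) (nat_lit 1) (nat_lit 4) (nat_lit 350) (nat_lit 200) (nat_lit 170)) (XT.lf (nat_lit 0) (nat_lit 77805236443) (nat_lit 152) (nat_lit 160835170425) (nat_lit 0) (nat_lit 74968202689) (nat_lit 1) (nat_lit 5) (nat_lit 3) (nat_lit 4) (nat_lit 1) (nat_lit 4) (nat_lit 351) (nat_lit 200) (nat_lit 169)))) (XT.nd (nat_lit 156) (nat_lit 0) (nat_lit 0) (XT.nd (nat_lit 78) (nat_lit 0) (nat_lit 0) (XT.lf (nat_lit 0) (nat_lit 82616052701) (nat_lit 152) (nat_lit 166875708414) (nat_lit 0) (nat_lit 79740834850) (nat_lit 1) (nat_lit 5) (nat_lit 3) (nat_lit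 4) (nat_lit 1) (nat_lit 4) (nat_lit 352) (nat_lit 200) (nat_lit 168)) (XT.lf (nat_lit 0) (nat_lit 87651617275) (nat_lit 152) (nat_lit 173246939321) (nat_lit 0) (nat_lit 84740033616) (nat_lit 1) (nat_lit 5) (nat_lit 3) (nat_lit 4) (nat_lit 1) (nat_lit 4) (nat_lit 353) (nat_lit 200) (nat_lit 167))) (XT.nd (nat_lit 78) (nat_lit 0) (nat_lit 0) (XT.lf (nat_lit 0) (nat_lit 92923919603) (nat_lit 152) (nat_lit 179964032745) (nat_lit 0) (nat_lit 89977701843) (nat_lit 1) (nat_lit 5) (nat_lit 3) (nat_lit 4) (nat_lit 1) (nat_lit 4) (nat_lit 354) (nat_lit 200) (nat_lit 166)) (XT.nd (nat_lit 78) (nat_lit 0) (nat_lit 0) (XT.lf (nat_lit 0) (nat_lit 98445512788) (nat_lit 152) (nat_lit 187042981764) (nat_lit 0) (nat_lit 95466310168) (nat_lit 1) (nat_lit 5) (nat_lit 3) (nat_lit 4) (nat_lit 1) (nat_lit 4) (nat_lit 355) (nat_lit 200) (nat_lit 165)) (XT.lf (nat_lit 0) (nat_lit 104229543479) (nat_lit 152)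 (nat_lit 194500641019) (nat_lit 0) (nat_lit 101218926708) (nat_lit 1) (nat_lit 5) (nat_lit 3) (nat_lit 4) (nat_lit 1) (nat_lit 4) (nat_lit 356) (nat_lit 200) (nat_lit 164))))))) (XT.nd (nat_lit 34476) (nat_lit 0) (nat_lit 0) (XT.nd (nat_lit 312) (nat_lit 0) (nat_lit 0) (XT.nd (nat_lit 156) (nat_lit 0) (nat_lit 0) (XT.nd (nat_lit 78) (nat_lit 0) (nat_lit 0) (XT.lf (nat_lit 0) (nat_lit 110289783178) (nat_lit 152) (nat_lit 202354766841) (nat_lit 0) (nat_lit 107249248167) (nat_lit 1) (nat_lit 5) (nat_lit 3) (nat_lit 4) (nat_lit 1) (nat_lit 4) (nat_lit 357) (nat_lit 200) (nat_lit 163)) (XT.lf (nat_lit 0) (nat_lit 116640661028) (nat_lit 152) (nat_lit 210624059531) (nat_lit 0) (nat_lit 113571632455) (nat_lit 1) (nat_lit 5) (nat_lit 3) (nat_lit 4) (nat_lit 1) (nat_lit 4) (nat_lit 358) (nat_lit 200) (nat_lit 162))) (XT.nd (nat_lit 78) (nat_lit 0) (nat_lit 0) (XT.lf (nat_lit 0) (nat_lit 123297298165)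 (nat_lit 152) (nat_lit 219328207880) (nat_lit 0) (nat_lit 120201132867) (nat_lit 1) (nat_lit 5) (nat_lit 3) (nat_lit 4) (nat_lit 1) (nat_lit 4) (nat_lit 359) (nat_lit 200) (nat_lit 161)) (XT.lf (nat_lit 0) (nat_lit 130275543726) (nat_lit 152) (nat_lit 228487936051) (nat_lit 0) (nat_lit 127153533928) (nat_lit 1) (nat_lit 5) (nat_lit 3) (nat_lit 4) (nat_lit 1) (nat_lit 4) (nat_lit 360) (nat_lit 200) (nat_lit 160)))) (XT.nd (nat_lit 156) (nat_lit 0) (nat_lit 0) (XT.nd (nat_lit 78) (nat_lit 0) (nat_lit 0) (XT.lf (nat_lit 0) (nat_lit 137592012582) (nat_lit 152) (nat_lit 238125052921) (nat_lit 0) (nat_lit 134445388974) (nat_lit 1) (nat_lit 5) (nat_lit 3) (nat_lit 4) (nat_lit 1) (nat_lit 4) (nat_lit 361) (nat_lit 200) (nat_lit 159)) (XT.lf (nat_lit 0) (nat_lit 145264124895) (nat_lit 152) (nat_lit 248262504006) (nat_lit 0) (nat_lit 142094059564) (nat_lit 1) (nat_lit 5) (nat_lit 3) (nat_lit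 4) (nat_lit 1) (nat_lit 4) (nat_lit 362) (nat_lit 200) (nat_lit 158))) (XT.nd (nat_lit 78) (nat_lit 0) (nat_lit 0) (XT.lf (nat_lit 0) (nat_lit 153310147602) (nat_lit 152) (nat_lit 258924426094) (nat_lit 0) (nat_lit 150117756819) (nat_lit 1) (nat_lit 5) (nat_lit 3) (nat_lit 4) (nat_lit 1) (nat_lit 4) (nat_lit 363) (nat_lit 200) (nat_lit 157)) (XT.nd (nat_lit 78) (nat_lit 0) (nat_lit 0) (XT.lf (nat_lit 0) (nat_lit 161749237897) (nat_lit 152) (nat_lit 270136204714) (nat_lit 0) (nat_lit 158535584780) (nat_lit 1) (nat_lit 5) (nat_lit 3) (nat_lit 4) (nat_lit 1) (nat_lit 4) (nat_lit 364) (nat_lit 200) (nat_lit 156)) (XT.lf (nat_lit 0) (nat_lit 170601488854) (nat_lit 152) (nat_lit 281924534578) (nat_lit 0) (nat_lit 167367585895) (nat_lit 1) (nat_lit 5) (nat_lit 3) (nat_lit 4) (nat_lit 1) (nat_lit 4) (nat_lit 365) (nat_lit 200) (nat_lit 155)))))) (XT.nd (nat_lit 312) (nat_lit 152) (nat_lit 0)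 (XT.nd (nat_lit 156) (nat_lit 0) (nat_lit 0) (XT.nd (nat_lit 78) (nat_lit 0) (nat_lit 0) (XT.lf (nat_lit 0) (nat_lit 22247659654) (nat_lit 76) (nat_lit 4905011040) (nat_lit 76) (nat_lit 4905011040) (nat_lit 3) (nat_lit 4) (nat_lit 4) (nat_lit 5) (nat_lit 4) (nat_lit 4) (nat_lit 318) (nat_lit 201) (nat_lit 201)) (XT.lf (nat_lit 0) (nat_lit 50751675662) (nat_lit 76) (nat_lit 8322396610) (nat_lit 76) (nat_lit 8131354370) (nat_lit 3) (nat_lit 4) (nat_lit 4) (nat_lit 5) (nat_lit 4) (nat_lit 4) (nat_lit 319) (nat_lit 201) (nat_lit 200))) (XT.nd (nat_lit 78) (nat_lit 0) (nat_lit 0) (XT.lf (nat_lit 0) (nat_lit 57193894989) (nat_lit 76) (nat_lit 6816364383) (nat_lit 76) (nat_lit 6443377153) (nat_lit 3) (nat_lit 4) (nat_lit 4) (nat_lit 5) (nat_lit 4) (nat_lit 4) (nat_lit 320) (nat_lit 201) (nat_lit 199)) (XT.lf (nat_lit 0) (nat_lit 63837315909) (nat_lit 76) (nat_lit 5288339609) (nat_lit 76) (nat_lit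 4742071436) (nat_lit 3) (nat_lit 4) (nat_lit 4) (nat_lit 5) (nat_lit 4) (nat_lit 4) (nat_lit 321) (nat_lit 201) (nat_lit 198)))) (XT.nd (nat_lit 156) (nat_lit 152) (nat_lit 0) (XT.nd (nat_lit 78) (nat_lit 0) (nat_lit 0) (XT.lf (nat_lit 0) (nat_lit 70697756089) (nat_lit 76) (nat_lit 3734684132) (nat_lit 76) (nat_lit 3023386490) (nat_lit 3) (nat_lit 4) (nat_lit 4) (nat_lit 5) (nat_lit 4) (nat_lit 4) (nat_lit 322) (nat_lit 201) (nat_lit 197)) (XT.lf (nat_lit 0) (nat_lit 77791549912) (nat_lit 76) (nat_lit 2151698775) (nat_lit 76) (nat_lit 1283230209) (nat_lit 3) (nat_lit 4) (nat_lit 4) (nat_lit 5) (nat_lit 4) (nat_lit 4) (nat_lit 323) (nat_lit 201) (nat_lit 196))) (XT.nd (nat_lit 78) (nat_lit 76) (nat_lit 0) (XT.lf (nat_lit 0) (nat_lit 467096322) (nat_lit 152) (nat_lit 60607699) (nat_lit 76) (nat_lit 84660580537) (nat_lit 2) (nat_lit 5) (nat_lit 4) (nat_lit 5) (nat_lit 3) (nat_lit 4) (nat_lit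 324) (nat_lit 201) (nat_lit 195)) (XT.nd (nat_lit 78) (nat_lit 0) (nat_lit 0) (XT.lf (nat_lit 0) (nat_lit 2278326569) (nat_lit 152) (nat_lit 85895162198) (nat_lit 0) (nat_lit 1172884835) (nat_lit 1) (nat_lit 5) (nat_lit 3) (nat_lit 4) (nat_lit 1) (nat_lit 4) (nat_lit 325) (nat_lit 201) (nat_lit 194)) (XT.lf (nat_lit 0) (nat_lit 4133659510) (nat_lit 152) (nat_lit 86682184845) (nat_lit 0) (nat_lit 2898912869) (nat_lit 1) (nat_lit 5) (nat_lit 3) (nat_lit 4) (nat_lit 1) (nat_lit 4) (nat_lit 326) (nat_lit 201) (nat_lit 193))))))))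
noncomputable def xc16 : XT := (XT.nd (nat_lit 1326) (nat_lit 0) (nat_lit 0) (XT.nd (nat_lit 624) (nat_lit 0) (nat_lit 0) (XT.nd (nat_lit 312) (nat_lit 0) (nat_lit 0) (XT.nd (nat_lit 156) (nat_lit 0) (nat_lit 0) (XT.nd (nat_lit 78) (nat_lit 0) (nat_lit 0) (XT.lf (nat_lit 0) (nat_lit 6028280097) (nat_lit 152) (nat_lit 87605631940) (nat_lit 0) (nat_lit 4670385925) (nat_lit 1) (nat_lit 5) (nat_lit 3) (nat_lit 4) (nat_lit 1) (nat_lit 4) (nat_lit 327) (nat_lit 201) (nat_lit 192)) (XT.lf (nat_lit 0) (nat_lit 7966699332) (nat_lit 152) (nat_lit 88667702167) (nat_lit 0) (nat_lit 6491521797) (nat_lit 1) (nat_lit 5) (nat_lit 3) (nat_lit 4) (nat_lit 1) (nat_lit 4) (nat_lit 328) (nat_lit 201) (nat_lit 191))) (XT.nd (nat_lit 78) (nat_lit 0) (nat_lit 0) (XT.lf (nat_lit 0) (nat_lit 9953532499) (nat_lit 152) (nat_lit 89870924263) (nat_lit 0) (nat_lit 8366656523) (nat_lit 1) (nat_lit 5) (nat_lit 3) (nat_lit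 4) (nat_lit 1) (nat_lit 4) (nat_lit 329) (nat_lit 201) (nat_lit 190)) (XT.lf (nat_lit 0) (nat_lit 11993510152) (nat_lit 152) (nat_lit 91218163044) (nat_lit 0) (nat_lit 10300254709) (nat_lit 1) (nat_lit 5) (nat_lit 3) (nat_lit 4) (nat_lit 1) (nat_lit 4) (nat_lit 330) (nat_lit 201) (nat_lit 189)))) (XT.nd (nat_lit 156) (nat_lit 0) (nat_lit 0) (XT.nd (nat_lit 78) (nat_lit 0) (nat_lit 0) (XT.lf (nat_lit 0) (nat_lit 14091489382) (nat_lit 152) (nat_lit 92712626221) (nat_lit 0) (nat_lit 12296920159) (nat_lit 1) (nat_lit 5) (nat_lit 3) (nat_lit 4) (nat_lit 1) (nat_lit 4) (nat_lit 331) (nat_lit 201) (nat_lit 188)) (XT.lf (nat_lit 0) (nat_lit 16252465376) (nat_lit 152) (nat_lit 94357872040) (nat_lit 0) (nat_lit 14361406841) (nat_lit 1) (nat_lit 5) (nat_lit 3) (nat_lit 4) (nat_lit 1) (nat_lit 4) (nat_lit 332) (nat_lit 201) (nat_lit 187))) (XT.nd (nat_lit 78) (nat_lit 0) (nat_lit 0) (XT.lf (nat_lit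 0) (nat_lit 18481583316) (nat_lit 152) (nat_lit 96157817752) (nat_lit 0) (nat_lit 16498630197) (nat_lit 1) (nat_lit 5) (nat_lit 3) (nat_lit 4) (nat_lit 1) (nat_lit 4) (nat_lit 333) (nat_lit 201) (nat_lit 186)) (XT.lf (nat_lit 0) (nat_lit 20784150626) (nat_lit 152) (nat_lit 98116748943) (nat_lit 0) (nat_lit 18713678856) (nat_lit 1) (nat_lit 5) (nat_lit 3) (nat_lit 4) (nat_lit 1) (nat_lit 4) (nat_lit 334) (nat_lit 201) (nat_lit 185))))) (XT.nd (nat_lit 312) (nat_lit 0) (nat_lit 0) (XT.nd (nat_lit 156) (nat_lit 0) (nat_lit 0) (XT.nd (nat_lit 78) (nat_lit 0) (nat_lit 0) (XT.lf (nat_lit 0) (nat_lit 23165649609) (nat_lit 152) (nat_lit 100239329734) (nat_lit 0) (nat_lit 21011826742) (nat_lit 1) (nat_lit 5) (nat_lit 3) (nat_lit 4) (nat_lit 1) (nat_lit 4) (nat_lit 335) (nat_lit 201) (nat_lit 184)) (XT.lf (nat_lit 0) (nat_lit 25631750500) (nat_lit 152) (nat_lit 102530613890) (nat_lit 0) (nat_lit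 23398545636) (nat_lit 1) (nat_lit 5) (nat_lit 3) (nat_lit 4) (nat_lit 1) (nat_lit 4) (nat_lit 336) (nat_lit 201) (nat_lit 183))) (XT.nd (nat_lit 78) (nat_lit 0) (nat_lit 0) (XT.lf (nat_lit 0) (nat_lit 28188324967) (nat_lit 152) (nat_lit 104996056848) (nat_lit 0) (nat_lit 25879518203) (nat_lit 1) (nat_lit 5) (nat_lit 3) (nat_lit 4) (nat_lit 1) (nat_lit 4) (nat_lit 337) (nat_lit 201) (nat_lit 182)) (XT.lf (nat_lit 0) (nat_lit 30841460095) (nat_lit 152) (nat_lit 107641528711) (nat_lit 0) (nat_lit 28460651519) (nat_lit 1) (nat_lit 5) (nat_lit 3) (nat_lit 4) (nat_lit 1) (nat_lit 4) (nat_lit 338) (nat_lit 201) (nat_lit 181)))) (XT.nd (nat_lit 156) (nat_lit 0) (nat_lit 0) (XT.nd (nat_lit 78) (nat_lit 0) (nat_lit 0) (XT.lf (nat_lit 0) (nat_lit 33597472869) (nat_lit 152) (nat_lit 110473328222) (nat_lit 0) (nat_lit 31148091141) (nat_lit 1) (nat_lit 5) (nat_lit 3) (nat_lit 4) (nat_lit 1) (nat_lit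 4) (nat_lit 339) (nat_lit 201) (nat_lit 180)) (XT.lf (nat_lit 0) (nat_lit 36462925227) (nat_lit 152) (nat_lit 113498197760) (nat_lit 0) (nat_lit 33948235733) (nat_lit 1) (nat_lit 5) (nat_lit 3) (nat_lit 4) (nat_lit 1) (nat_lit 4) (nat_lit 340) (nat_lit 201) (nat_lit 179))) (XT.nd (nat_lit 78) (nat_lit 0) (nat_lit 0) (XT.lf (nat_lit 0) (nat_lit 39444639673) (nat_lit 152) (nat_lit 116723339396) (nat_lit 0) (nat_lit 36867752308) (nat_lit 1) (nat_lit 5) (nat_lit 3) (nat_lit 4) (nat_lit 1) (nat_lit 4) (nat_lit 341) (nat_lit 201) (nat_lit 178)) (XT.nd (nat_lit 78) (nat_lit 0) (nat_lit 0) (XT.lf (nat_lit 0) (nat_lit 42549715527) (nat_lit 152) (nat_lit 120156432038) (nat_lit 0) (nat_lit 39913592094) (nat_lit 1) (nat_lit 5) (nat_lit 3) (nat_lit 4) (nat_lit 1) (nat_lit 4) (nat_lit 342) (nat_lit 201) (nat_lit 177)) (XT.lf (nat_lit 0) (nat_lit 45785545828) (nat_lit 152) (nat_lit 123805649717) (nat_lit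 0) (nat_lit 43093007092) (nat_lit 1) (nat_lit 5) (nat_lit 3) (nat_lit 4) (nat_lit 1) (nat_lit 4) (nat_lit 343) (nat_lit 201) (nat_lit 176))))))) (XT.nd (nat_lit 702) (nat_lit 0) (nat_lit 0) (XT.nd (nat_lit 312) (nat_lit 0) (nat_lit 0) (XT.nd (nat_lit 156) (nat_lit 0) (nat_lit 0) (XT.nd (nat_lit 78) (nat_lit 0) (nat_lit 0) (XT.lf (nat_lit 0) (nat_lit 49159834932) (nat_lit 152) (nat_lit 127679681045) (nat_lit 0) (nat_lit 46413567336) (nat_lit 1) (nat_lit 5) (nat_lit 3) (nat_lit 4) (nat_lit 1) (nat_lit 4) (nat_lit 344) (nat_lit 201) (nat_lit 175)) (XT.lf (nat_lit 0) (nat_lit 52680616863) (nat_lit 152) (nat_lit 131787749908) (nat_lit 0) (nat_lit 49883178924) (nat_lit 1) (nat_lit 5) (nat_lit 3) (nat_lit 4) (nat_lit 1) (nat_lit 4) (nat_lit 345) (nat_lit 201) (nat_lit 174))) (XT.nd (nat_lit 78) (nat_lit 0) (nat_lit 0) (XT.lf (nat_lit 0) (nat_lit 56356274433) (nat_lit 152) (nat_lit 136139637420)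 (nat_lit 0) (nat_lit 53510102835) (nat_lit 1) (nat_lit 5) (nat_lit 3) (nat_lit 4) (nat_lit 1) (nat_lit 4) (nat_lit 346) (nat_lit 201) (nat_lit 173)) (XT.lf (nat_lit 0) (nat_lit 60195559209) (nat_lit 152) (nat_lit 140745705221) (nat_lit 0) (nat_lit 57302974601) (nat_lit 1) (nat_lit 5) (nat_lit 3) (nat_lit 4) (nat_lit 1) (nat_lit 4) (nat_lit 347) (nat_lit 201) (nat_lit 172)))) (XT.nd (nat_lit 156) (nat_lit 0) (nat_lit 0) (XT.nd (nat_lit 78) (nat_lit 0) (nat_lit 0) (XT.lf (nat_lit 0) (nat_lit 64207612345) (nat_lit 152) (nat_lit 145616920136) (nat_lit 0) (nat_lit 61270824871) (nat_lit 1) (nat_lit 5) (nat_lit 3) (nat_lit 4) (nat_lit 1) (nat_lit 4) (nat_lit 348) (nat_lit 201) (nat_lit 171)) (XT.lf (nat_lit 0) (nat_lit 68401986347) (nat_lit 152) (nat_lit 150764880298) (nat_lit 0) (nat_lit 65423100906) (nat_lit 1) (nat_lit 5) (nat_lit 3) (nat_lit 4) (nat_lit 1) (nat_lit 4) (nat_lit 349) (nat_lit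 201) (nat_lit 170))) (XT.nd (nat_lit 78) (nat_lit 0) (nat_lit 0) (XT.lf (nat_lit 0) (nat_lit 72788667822) (nat_lit 152) (nat_lit 156201842754) (nat_lit 0) (nat_lit 69769689078) (nat_lit 1) (nat_lit 5) (nat_lit 3) (nat_lit 4) (nat_lit 1) (nat_lit 4) (nat_lit 350) (nat_lit 201) (nat_lit 169)) (XT.nd (nat_lit 78) (nat_lit 0) (nat_lit 0) (XT.lf (nat_lit 0) (nat_lit 77378101249) (nat_lit 152) (nat_lit 161940752653) (nat_lit 0) (nat_lit 74320938407) (nat_lit 1) (nat_lit 5) (nat_lit 3) (nat_lit 4) (nat_lit 1) (nat_lit 4) (nat_lit 351) (nat_lit 201) (nat_lit 168)) (XT.lf (nat_lit 0) (nat_lit 82181213850) (nat_lit 152) (nat_lit 167995274065) (nat_lit 0) (nat_lit 79087685201) (nat_lit 1) (nat_lit 5) (nat_lit 3) (nat_lit 4) (nat_lit 1) (nat_lit 4) (nat_lit 352) (nat_lit 201) (nat_lit 167)))))) (XT.nd (nat_lit 312) (nat_lit 0) (nat_lit 0) (XT.nd (nat_lit 156) (nat_lit 0) (nat_lit 0) (XT.nd (nat_lit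 78) (nat_lit 0) (nat_lit 0) (XT.lf (nat_lit 0) (nat_lit 87209441607) (nat_lit 152) (nat_lit 174379822519) (nat_lit 0) (nat_lit 84081278856) (nat_lit 1) (nat_lit 5) (nat_lit 3) (nat_lit 4) (nat_lit 1) (nat_lit 4) (nat_lit 353) (nat_lit 201) (nat_lit 166)) (XT.lf (nat_lit 0) (nat_lit 92474756491) (nat_lit 152) (nat_lit 181109599321) (nat_lit 0) (nat_lit 89313608881) (nat_lit 1) (nat_lit 5) (nat_lit 3) (nat_lit 4) (nat_lit 1) (nat_lit 4) (nat_lit 354) (nat_lit 201) (nat_lit 165))) (XT.nd (nat_lit 78) (nat_lit 0) (nat_lit 0) (XT.lf (nat_lit 0) (nat_lit 97989694967) (nat_lit 152) (nat_lit 188200627747) (nat_lit 0) (nat_lit 94797133206) (nat_lit 1) (nat_lit 5) (nat_lit 3) (nat_lit 4) (nat_lit 1) (nat_lit 4) (nat_lit 355) (nat_lit 201) (nat_lit 164)) (XT.lf (nat_lit 0) (nat_lit 103767387841) (nat_lit 152) (nat_lit 195669791199) (nat_lit 0) (nat_lit 100544907839) (nat_lit 1) (nat_lit 5) (nat_lit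 3) (nat_lit 4) (nat_lit 1) (nat_lit 4) (nat_lit 356) (nat_lit 201) (nat_lit 163)))) (XT.nd (nat_lit 156) (nat_lit 0) (nat_lit 0) (XT.nd (nat_lit 78) (nat_lit 0) (nat_lit 0) (XT.lf (nat_lit 0) (nat_lit 109821591523) (nat_lit 152) (nat_lit 203534873401) (nat_lit 0) (nat_lit 106570617960) (nat_lit 1) (nat_lit 5) (nat_lit 3) (nat_lit 4) (nat_lit 1) (nat_lit 4) (nat_lit 357) (nat_lit 201) (nat_lit 162)) (XT.lf (nat_lit 0) (nat_lit 116166720785) (nat_lit 152) (nat_lit 211814600737) (nat_lit 0) (nat_lit 112888610496) (nat_lit 1) (nat_lit 5) (nat_lit 3) (nat_lit 4) (nat_lit 1) (nat_lit 4) (nat_lit 358) (nat_lit 201) (nat_lit 161))) (XT.nd (nat_lit 78) (nat_lit 0) (nat_lit 0) (XT.lf (nat_lit 0) (nat_lit 122817883077) (nat_lit 152) (nat_lit 220528686844) (nat_lit 0) (nat_lit 119513928288) (nat_lit 1) (nat_lit 5) (nat_lit 3) (nat_lit 4) (nat_lit 1) (nat_lit 4) (nat_lit 359) (nat_lit 201) (nat_lit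 160)) (XT.nd (nat_lit 78) (nat_lit 0) (nat_lit 0) (XT.lf (nat_lit 0) (nat_lit 129790914499) (nat_lit 152) (nat_lit 229697879547) (nat_lit 0) (nat_lit 126462345901) (nat_lit 1) (nat_lit 5) (nat_lit 3) (nat_lit 4) (nat_lit 1) (nat_lit 4) (nat_lit 360) (nat_lit 201) (nat_lit 159)) (XT.lf (nat_lit 0) (nat_lit 137102417509) (nat_lit 152) (nat_lit 239344010257) (nat_lit 0) (nat_lit 133750407187) (nat_lit 1) (nat_lit 5) (nat_lit 3) (nat_lit 4) (nat_lit 1) (nat_lit 4) (nat_lit 361) (nat_lit 201) (nat_lit 158))))))))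
noncomputable def xc17 : XT := (XT.nd (nat_lit 34944) (nat_lit 0) (nat_lit 0) (XT.nd (nat_lit 34242) (nat_lit 0) (nat_lit 0) (XT.nd (nat_lit 33930) (nat_lit 0) (nat_lit 152) (XT.nd (nat_lit 156) (nat_lit 0) (nat_lit 0) (XT.nd (nat_lit 78) (nat_lit 0) (nat_lit 0) (XT.lf (nat_lit 0) (nat_lit 144769800445) (nat_lit 152) (nat_lit 249490045951) (nat_lit 0) (nat_lit 141395464672) (nat_lit 1) (nat_lit 5) (nat_lit 3) (nat_lit 4) (nat_lit 1) (nat_lit 4) (nat_lit 362) (nat_lit 201) (nat_lit 157)) (XT.lf (nat_lit 0) (nat_lit 152811318983) (nat_lit 152) (nat_lit 260160143857) (nat_lit 0) (nat_lit 149415720875) (nat_lit 1) (nat_lit 5) (nat_lit 3) (nat_lit 4) (nat_lit 1) (nat_lit 4) (nat_lit 363) (nat_lit 201) (nat_lit 156))) (XT.nd (nat_lit 78) (nat_lit 0) (nat_lit 0) (XT.lf (nat_lit 0) (nat_lit 161246119594) (nat_lit 152) (nat_lit 271379708971) (nat_lit 0) (nat_lit 157830271644) (nat_lit 1) (nat_lit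 5) (nat_lit 3) (nat_lit 4) (nat_lit 1) (nat_lit 4) (nat_lit 364) (nat_lit 201) (nat_lit 155)) (XT.lf (nat_lit 0) (nat_lit 170094285137) (nat_lit 152) (nat_lit 283175454543) (nat_lit 0) (nat_lit 166659151623) (nat_lit 1) (nat_lit 5) (nat_lit 3) (nat_lit 4) (nat_lit 1) (nat_lit 4) (nat_lit 365) (nat_lit 201) (nat_lit 154)))) (XT.nd (nat_lit 156) (nat_lit 0) (nat_lit 0) (XT.nd (nat_lit 78) (nat_lit 0) (nat_lit 0) (XT.lf (nat_lit 0) (nat_lit 16274647588) (nat_lit 76) (nat_lit 6457338102) (nat_lit 76) (nat_lit 6457338102) (nat_lit 3) (nat_lit 4) (nat_lit 4) (nat_lit 5) (nat_lit 4) (nat_lit 4) (nat_lit 316) (nat_lit 202) (nat_lit 202)) (XT.lf (nat_lit 0) (nat_lit 38409929843) (nat_lit 76) (nat_lit 11483377111) (nat_lit 76) (nat_lit 11282782759) (nat_lit 3) (nat_lit 4) (nat_lit 4) (nat_lit 5) (nat_lit 4) (nat_lit 4) (nat_lit 317) (nat_lit 202) (nat_lit 201))) (XT.nd (nat_lit 78) (nat_lit 0)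 (nat_lit 0) (XT.lf (nat_lit 0) (nat_lit 44430293657) (nat_lit 76) (nat_lit 10039286306) (nat_lit 76) (nat_lit 9647649715) (nat_lit 3) (nat_lit 4) (nat_lit 4) (nat_lit 5) (nat_lit 4) (nat_lit 4) (nat_lit 318) (nat_lit 202) (nat_lit 200)) (XT.lf (nat_lit 0) (nat_lit 50624720818) (nat_lit 76) (nat_lit 8578965479) (nat_lit 76) (nat_lit 8005383897) (nat_lit 3) (nat_lit 4) (nat_lit 4) (nat_lit 5) (nat_lit 4) (nat_lit 4) (nat_lit 319) (nat_lit 202) (nat_lit 199))))) (XT.nd (nat_lit 312) (nat_lit 152) (nat_lit 0) (XT.nd (nat_lit 156) (nat_lit 0) (nat_lit 0) (XT.nd (nat_lit 78) (nat_lit 0) (nat_lit 0) (XT.lf (nat_lit 0) (nat_lit 57007959963) (nat_lit 76) (nat_lit 7098937673) (nat_lit 76) (nat_lit 6352075148) (nat_lit 3) (nat_lit 4) (nat_lit 4) (nat_lit 5) (nat_lit 4) (nat_lit 4) (nat_lit 320) (nat_lit 202) (nat_lit 198)) (XT.lf (nat_lit 0) (nat_lit 63595209280) (nat_lit 76) (nat_lit 5595679014)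 (nat_lit 76) (nat_lit 4683787020) (nat_lit 3) (nat_lit 4) (nat_lit 4) (nat_lit 5) (nat_lit 4) (nat_lit 4) (nat_lit 321) (nat_lit 202) (nat_lit 197))) (XT.nd (nat_lit 78) (nat_lit 0) (nat_lit 0) (XT.lf (nat_lit 0) (nat_lit 70402152696) (nat_lit 76) (nat_lit 4065610315) (nat_lit 76) (nat_lit 2996547397) (nat_lit 3) (nat_lit 4) (nat_lit 4) (nat_lit 5) (nat_lit 4) (nat_lit 4) (nat_lit 322) (nat_lit 202) (nat_lit 196)) (XT.lf (nat_lit 0) (nat_lit 77444997219) (nat_lit 76) (nat_lit 2505088554) (nat_lit 76) (nat_lit 1286339043) (nat_lit 3) (nat_lit 4) (nat_lit 4) (nat_lit 5) (nat_lit 4) (nat_lit 4) (nat_lit 323) (nat_lit 202) (nat_lit 195)))) (XT.nd (nat_lit 156) (nat_lit 0) (nat_lit 0) (XT.nd (nat_lit 78) (nat_lit 76) (nat_lit 0) (XT.lf (nat_lit 0) (nat_lit 436478032) (nat_lit 152) (nat_lit 466528205) (nat_lit 76) (nat_lit 84296641528) (nat_lit 2) (nat_lit 5) (nat_lit 4) (nat_lit 5) (nat_lit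 3) (nat_lit 4) (nat_lit 324) (nat_lit 202) (nat_lit 194)) (XT.lf (nat_lit 0) (nat_lit 2207802642) (nat_lit 152) (nat_lit 86369948462) (nat_lit 0) (nat_lit 782013761) (nat_lit 1) (nat_lit 5) (nat_lit 3) (nat_lit 4) (nat_lit 1) (nat_lit 4) (nat_lit 325) (nat_lit 202) (nat_lit 193))) (XT.nd (nat_lit 78) (nat_lit 0) (nat_lit 0) (XT.lf (nat_lit 0) (nat_lit 4037048265) (nat_lit 152) (nat_lit 87204323946) (nat_lit 0) (nat_lit 2488111853) (nat_lit 1) (nat_lit 5) (nat_lit 3) (nat_lit 4) (nat_lit 1) (nat_lit 4) (nat_lit 326) (nat_lit 202) (nat_lit 192)) (XT.nd (nat_lit 78) (nat_lit 0) (nat_lit 0) (XT.lf (nat_lit 0) (nat_lit 5906823789) (nat_lit 152) (nat_lit 88172868981) (nat_lit 0) (nat_lit 4240604014) (nat_lit 1) (nat_lit 5) (nat_lit 3) (nat_lit 4) (nat_lit 1) (nat_lit 4) (nat_lit 327) (nat_lit 202) (nat_lit 191)) (XT.lf (nat_lit 0) (nat_lit 7821581058) (nat_lit 152) (nat_lit 89277889626) (nat_lit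 0) (nat_lit 6043662842) (nat_lit 1) (nat_lit 5) (nat_lit 3) (nat_lit 4) (nat_lit 1) (nat_lit 4) (nat_lit 328) (nat_lit 202) (nat_lit 190))))))) (XT.nd (nat_lit 702) (nat_lit 0) (nat_lit 0) (XT.nd (nat_lit 312) (nat_lit 0) (nat_lit 0) (XT.nd (nat_lit 156) (nat_lit 0) (nat_lit 0) (XT.nd (nat_lit 78) (nat_lit 0) (nat_lit 0) (XT.lf (nat_lit 0) (nat_lit 9785879018) (nat_lit 152) (nat_lit 90522016884) (nat_lit 0) (nat_lit 7901581335) (nat_lit 1) (nat_lit 5) (nat_lit 3) (nat_lit 4) (nat_lit 1) (nat_lit 4) (nat_lit 329) (nat_lit 202) (nat_lit 189)) (XT.lf (nat_lit 0) (nat_lit 11804394571) (nat_lit 152) (nat_lit 91908212961) (nat_lit 0) (nat_lit 9818783109) (nat_lit 1) (nat_lit 5) (nat_lit 3) (nat_lit 4) (nat_lit 1) (nat_lit 4) (nat_lit 330) (nat_lit 202) (nat_lit 188))) (XT.nd (nat_lit 78) (nat_lit 0) (nat_lit 0) (XT.lf (nat_lit 0) (nat_lit 13881933705) (nat_lit 152) (nat_lit 93439778325) (nat_lit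 0) (nat_lit 11799832930) (nat_lit 1) (nat_lit 5) (nat_lit 3) (nat_lit 4) (nat_lit 1) (nat_lit 4) (nat_lit 331) (nat_lit 202) (nat_lit 187)) (XT.lf (nat_lit 0) (nat_lit 16023442941) (nat_lit 152) (nat_lit 95120359559) (nat_lit 0) (nat_lit 13849447582) (nat_lit 1) (nat_lit 5) (nat_lit 3) (nat_lit 4) (nat_lit 1) (nat_lit 4) (nat_lit 332) (nat_lit 202) (nat_lit 186)))) (XT.nd (nat_lit 156) (nat_lit 0) (nat_lit 0) (XT.nd (nat_lit 78) (nat_lit 0) (nat_lit 0) (XT.lf (nat_lit 0) (nat_lit 18234021112) (nat_lit 152) (nat_lit 96953958048) (nat_lit 0) (nat_lit 15972507102) (nat_lit 1) (nat_lit 5) (nat_lit 3) (nat_lit 4) (nat_lit 1) (nat_lit 4) (nat_lit 333) (nat_lit 202) (nat_lit 185)) (XT.lf (nat_lit 0) (nat_lit 20518931498) (nat_lit 152) (nat_lit 98944939503) (nat_lit 0) (nat_lit 18174066392) (nat_lit 1) (nat_lit 5) (nat_lit 3) (nat_lit 4) (nat_lit 1) (nat_lit 4) (nat_lit 334) (nat_lit 202) (nat_lit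 184))) (XT.nd (nat_lit 78) (nat_lit 0) (nat_lit 0) (XT.lf (nat_lit 0) (nat_lit 22883614363) (nat_lit 152) (nat_lit 101098044355) (nat_lit 0) (nat_lit 20459367261) (nat_lit 1) (nat_lit 5) (nat_lit 3) (nat_lit 4) (nat_lit 1) (nat_lit 4) (nat_lit 335) (nat_lit 202) (nat_lit 183)) (XT.nd (nat_lit 78) (nat_lit 0) (nat_lit 0) (XT.lf (nat_lit 0) (nat_lit 25333699904) (nat_lit 152) (nat_lit 103418399045) (nat_lit 0) (nat_lit 22833850900) (nat_lit 1) (nat_lit 5) (nat_lit 3) (nat_lit 4) (nat_lit 1) (nat_lit 4) (nat_lit 336) (nat_lit 202) (nat_lit 182)) (XT.lf (nat_lit 0) (nat_lit 27875021658) (nat_lit 152) (nat_lit 105911528226) (nat_lit 0) (nat_lit 25303170843) (nat_lit 1) (nat_lit 5) (nat_lit 3) (nat_lit 4) (nat_lit 1) (nat_lit 4) (nat_lit 337) (nat_lit 202) (nat_lit 181)))))) (XT.nd (nat_lit 312) (nat_lit 0) (nat_lit 0) (XT.nd (nat_lit 156) (nat_lit 0) (nat_lit 0) (XT.nd (nat_lit 78) (nat_lit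 0) (nat_lit 0) (XT.lf (nat_lit 0) (nat_lit 30513630390) (nat_lit 152) (nat_lit 108583367921) (nat_lit 0) (nat_lit 27873206422) (nat_lit 1) (nat_lit 5) (nat_lit 3) (nat_lit 4) (nat_lit 1) (nat_lit 4) (nat_lit 338) (nat_lit 202) (nat_lit 180)) (XT.lf (nat_lit 0) (nat_lit 33255808504) (nat_lit 152) (nat_lit 111440279652) (nat_lit 0) (nat_lit 30550076770) (nat_lit 1) (nat_lit 5) (nat_lit 3) (nat_lit 4) (nat_lit 1) (nat_lit 4) (nat_lit 339) (nat_lit 202) (nat_lit 179))) (XT.nd (nat_lit 78) (nat_lit 0) (nat_lit 0) (XT.lf (nat_lit 0) (nat_lit 36108084993) (nat_lit 152) (nat_lit 114489065591) (nat_lit 0) (nat_lit 33340155388) (nat_lit 1) (nat_lit 5) (nat_lit 3) (nat_lit 4) (nat_lit 1) (nat_lit 4) (nat_lit 340) (nat_lit 202) (nat_lit 178)) (XT.lf (nat_lit 0) (nat_lit 39077250993) (nat_lit 152) (nat_lit 117736984750) (nat_lit 0) (nat_lit 36250085320) (nat_lit 1) (nat_lit 5) (nat_lit 3) (nat_lit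 4) (nat_lit 1) (nat_lit 4) (nat_lit 341) (nat_lit 202) (nat_lit 177)))) (XT.nd (nat_lit 156) (nat_lit 0) (nat_lit 0) (XT.nd (nat_lit 78) (nat_lit 0) (nat_lit 0) (XT.lf (nat_lit 0) (nat_lit 42170375947) (nat_lit 152) (nat_lit 121191770273) (nat_lit 0) (nat_lit 39286794971) (nat_lit 1) (nat_lit 5) (nat_lit 3) (nat_lit 4) (nat_lit 1) (nat_lit 4) (nat_lit 342) (nat_lit 202) (nat_lit 176)) (XT.lf (nat_lit 0) (nat_lit 45394824437) (nat_lit 152) (nat_lit 124861647837) (nat_lit 0) (nat_lit 42457514602) (nat_lit 1) (nat_lit 5) (nat_lit 3) (nat_lit 4) (nat_lit 1) (nat_lit 4) (nat_lit 343) (nat_lit 202) (nat_lit 175))) (XT.nd (nat_lit 78) (nat_lit 0) (nat_lit 0) (XT.lf (nat_lit 0) (nat_lit 48758273723) (nat_lit 152) (nat_lit 128755355247) (nat_lit 0) (nat_lit 45769793544) (nat_lit 1) (nat_lit 5) (nat_lit 3) (nat_lit 4) (nat_lit 1) (nat_lit 4) (nat_lit 344) (nat_lit 202) (nat_lit 174)) (XT.nd (nat_lit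 78) (nat_lit 0) (nat_lit 0) (XT.lf (nat_lit 0) (nat_lit 52268732016) (nat_lit 152) (nat_lit 132882163235) (nat_lit 0) (nat_lit 49231518178) (nat_lit 1) (nat_lit 5) (nat_lit 3) (nat_lit 4) (nat_lit 1) (nat_lit 4) (nat_lit 345) (nat_lit 202) (nat_lit 173)) (XT.lf (nat_lit 0) (nat_lit 55934557551) (nat_lit 152) (nat_lit 137251897534) (nat_lit 0) (nat_lit 52850930703) (nat_lit 1) (nat_lit 5) (nat_lit 3) (nat_lit 4) (nat_lit 1) (nat_lit 4) (nat_lit 346) (nat_lit 202) (nat_lit 172))))))))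
noncomputable def xc18 : XT := (XT.nd (nat_lit 1326) (nat_lit 0) (nat_lit 0) (XT.nd (nat_lit 624) (nat_lit 0) (nat_lit 0) (XT.nd (nat_lit 312) (nat_lit 0) (nat_lit 0) (XT.nd (nat_lit 156) (nat_lit 0) (nat_lit 0) (XT.nd (nat_lit 78) (nat_lit 0) (nat_lit 0) (XT.lf (nat_lit 0) (nat_lit 59764478483) (nat_lit 152) (nat_lit 141874962274) (nat_lit 0) (nat_lit 56636648769) (nat_lit 1) (nat_lit 5) (nat_lit 3) (nat_lit 4) (nat_lit 1) (nat_lit 4) (nat_lit 347) (nat_lit 202) (nat_lit 171)) (XT.lf (nat_lit 0) (nat_lit 63767613672) (nat_lit 152) (nat_lit 146762364750) (nat_lit 0) (nat_lit 60597685991) (nat_lit 1) (nat_lit 5) (nat_lit 3) (nat_lit 4) (nat_lit 1) (nat_lit 4) (nat_lit 348) (nat_lit 202) (nat_lit 170))) (XT.nd (nat_lit 78) (nat_lit 0) (nat_lit 0) (XT.lf (nat_lit 0) (nat_lit 67953494393) (nat_lit 152) (nat_lit 151925741637) (nat_lit 0) (nat_lit 64743473410) (nat_lit 1) (nat_lit 5) (nat_lit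 3) (nat_lit 4) (nat_lit 1) (nat_lit 4) (nat_lit 349) (nat_lit 202) (nat_lit 169)) (XT.lf (nat_lit 0) (nat_lit 72332087028) (nat_lit 152) (nat_lit 157377386688) (nat_lit 0) (nat_lit 69083881947) (nat_lit 1) (nat_lit 5) (nat_lit 3) (nat_lit 4) (nat_lit 1) (nat_lit 4) (nat_lit 350) (nat_lit 202) (nat_lit 168)))) (XT.nd (nat_lit 156) (nat_lit 0) (nat_lit 0) (XT.nd (nat_lit 78) (nat_lit 0) (nat_lit 0) (XT.lf (nat_lit 0) (nat_lit 76913816798) (nat_lit 152) (nat_lit 163130280011) (nat_lit 0) (nat_lit 73629245909) (nat_lit 1) (nat_lit 5) (nat_lit 3) (nat_lit 4) (nat_lit 1) (nat_lit 4) (nat_lit 351) (nat_lit 202) (nat_lit 167)) (XT.lf (nat_lit 0) (nat_lit 81709592582) (nat_lit 152) (nat_lit 169198118970) (nat_lit 0) (nat_lit 78390387591) (nat_lit 1) (nat_lit 5) (nat_lit 3) (nat_lit 4) (nat_lit 1) (nat_lit 4) (nat_lit 352) (nat_lit 202) (nat_lit 166))) (XT.nd (nat_lit 78) (nat_lit 0) (nat_lit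 0) (XT.lf (nat_lit 0) (nat_lit 86730832895) (nat_lit 152) (nat_lit 175595350802) (nat_lit 0) (nat_lit 83378643045) (nat_lit 1) (nat_lit 5) (nat_lit 3) (nat_lit 4) (nat_lit 1) (nat_lit 4) (nat_lit 353) (nat_lit 202) (nat_lit 165)) (XT.lf (nat_lit 0) (nat_lit 91989493071) (nat_lit 152) (nat_lit 182337207010) (nat_lit 0) (nat_lit 88605889069) (nat_lit 1) (nat_lit 5) (nat_lit 3) (nat_lit 4) (nat_lit 1) (nat_lit 4) (nat_lit 354) (nat_lit 202) (nat_lit 164))))) (XT.nd (nat_lit 312) (nat_lit 0) (nat_lit 0) (XT.nd (nat_lit 156) (nat_lit 0) (nat_lit 0) (XT.nd (nat_lit 78) (nat_lit 0) (nat_lit 0) (XT.lf (nat_lit 0) (nat_lit 97498093729) (nat_lit 152) (nat_lit 189439739634) (nat_lit 0) (nat_lit 94084571488) (nat_lit 1) (nat_lit 5) (nat_lit 3) (nat_lit 4) (nat_lit 1) (nat_lit 4) (nat_lit 355) (nat_lit 202) (nat_lit 163)) (XT.lf (nat_lit 0) (nat_lit 103269750585) (nat_lit 152) (nat_lit 196919859465)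 (nat_lit 0) (nat_lit 99827734783) (nat_lit 1) (nat_lit 5) (nat_lit 3) (nat_lit 4) (nat_lit 1) (nat_lit 4) (nat_lit 356) (nat_lit 202) (nat_lit 162))) (XT.nd (nat_lit 78) (nat_lit 0) (nat_lit 0) (XT.lf (nat_lit 0) (nat_lit 109318205680) (nat_lit 152) (nat_lit 204795376313) (nat_lit 0) (nat_lit 105849053152) (nat_lit 1) (nat_lit 5) (nat_lit 3) (nat_lit 4) (nat_lit 1) (nat_lit 4) (nat_lit 357) (nat_lit 202) (nat_lit 161)) (XT.lf (nat_lit 0) (nat_lit 115657860096) (nat_lit 152) (nat_lit 213085041407) (nat_lit 0) (nat_lit 112162863068) (nat_lit 1) (nat_lit 5) (nat_lit 3) (nat_lit 4) (nat_lit 1) (nat_lit 4) (nat_lit 358) (nat_lit 202) (nat_lit 160)))) (XT.nd (nat_lit 156) (nat_lit 0) (nat_lit 0) (XT.nd (nat_lit 78) (nat_lit 0) (nat_lit 0) (XT.lf (nat_lit 0) (nat_lit 122303808250) (nat_lit 152) (nat_lit 221808592046) (nat_lit 0) (nat_lit 118784197412) (nat_lit 1) (nat_lit 5) (nat_lit 3) (nat_lit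 4) (nat_lit 1) (nat_lit 4) (nat_lit 359) (nat_lit 202) (nat_lit 159)) (XT.lf (nat_lit 0) (nat_lit 129271873827) (nat_lit 152) (nat_lit 230986798589) (nat_lit 0) (nat_lit 125728821265) (nat_lit 1) (nat_lit 5) (nat_lit 3) (nat_lit 4) (nat_lit 1) (nat_lit 4) (nat_lit 360) (nat_lit 202) (nat_lit 158))) (XT.nd (nat_lit 78) (nat_lit 0) (nat_lit 0) (XT.lf (nat_lit 0) (nat_lit 136578647459) (nat_lit 152) (nat_lit 240641513908) (nat_lit 0) (nat_lit 133013269446) (nat_lit 1) (nat_lit 5) (nat_lit 3) (nat_lit 4) (nat_lit 1) (nat_lit 4) (nat_lit 361) (nat_lit 202) (nat_lit 157)) (XT.nd (nat_lit 78) (nat_lit 0) (nat_lit 0) (XT.lf (nat_lit 0) (nat_lit 144241526227) (nat_lit 152) (nat_lit 250795725421) (nat_lit 0) (nat_lit 140654885880) (nat_lit 1) (nat_lit 5) (nat_lit 3) (nat_lit 4) (nat_lit 1) (nat_lit 4) (nat_lit 362) (nat_lit 202) (nat_lit 156)) (XT.lf (nat_lit 0) (nat_lit 152278755079) (nat_lit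 152) (nat_lit 261473609821) (nat_lit 0) (nat_lit 148671864890) (nat_lit 1) (nat_lit 5) (nat_lit 3) (nat_lit 4) (nat_lit 1) (nat_lit 4) (nat_lit 363) (nat_lit 202) (nat_lit 155))))))) (XT.nd (nat_lit 34164) (nat_lit 0) (nat_lit 0) (XT.nd (nat_lit 33774) (nat_lit 0) (nat_lit 152) (XT.nd (nat_lit 33618) (nat_lit 0) (nat_lit 152) (XT.nd (nat_lit 78) (nat_lit 0) (nat_lit 0) (XT.lf (nat_lit 0) (nat_lit 160709470276) (nat_lit 152) (nat_lit 272700590643) (nat_lit 0) (nat_lit 157083294523) (nat_lit 1) (nat_lit 5) (nat_lit 3) (nat_lit 4) (nat_lit 1) (nat_lit 4) (nat_lit 364) (nat_lit 202) (nat_lit 154)) (XT.lf (nat_lit 0) (nat_lit 169553744949) (nat_lit 152) (nat_lit 284503398794) (nat_lit 0) (nat_lit 165909201992) (nat_lit 1) (nat_lit 5) (nat_lit 3) (nat_lit 4) (nat_lit 1) (nat_lit 4) (nat_lit 365) (nat_lit 202) (nat_lit 153))) (XT.nd (nat_lit 78) (nat_lit 0) (nat_lit 0) (XT.lf (nat_lit 0) (nat_lit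 10661717792) (nat_lit 76) (nat_lit 7965761932) (nat_lit 76) (nat_lit 7965761932) (nat_lit 3) (nat_lit 4) (nat_lit 4) (nat_lit 5) (nat_lit 4) (nat_lit 4) (nat_lit 314) (nat_lit 203) (nat_lit 203)) (XT.lf (nat_lit 0) (nat_lit 26834435767) (nat_lit 76) (nat_lit 14547215509) (nat_lit 76) (nat_lit 14336591440) (nat_lit 3) (nat_lit 4) (nat_lit 4) (nat_lit 5) (nat_lit 4) (nat_lit 4) (nat_lit 315) (nat_lit 203) (nat_lit 202)))) (XT.nd (nat_lit 156) (nat_lit 0) (nat_lit 0) (XT.nd (nat_lit 78) (nat_lit 0) (nat_lit 0) (XT.lf (nat_lit 0) (nat_lit 32481018243) (nat_lit 76) (nat_lit 13155403641) (nat_lit 76) (nat_lit 12744185221) (nat_lit 3) (nat_lit 4) (nat_lit 4) (nat_lit 5) (nat_lit 4) (nat_lit 4) (nat_lit 316) (nat_lit 203) (nat_lit 201)) (XT.lf (nat_lit 0) (nat_lit 38276627258) (nat_lit 76) (nat_lit 11752774423) (nat_lit 76) (nat_lit 11150513763) (nat_lit 3) (nat_lit 4) (nat_lit 4) (nat_lit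 5) (nat_lit 4) (nat_lit 4) (nat_lit 317) (nat_lit 203) (nat_lit 200))) (XT.nd (nat_lit 78) (nat_lit 0) (nat_lit 0) (XT.lf (nat_lit 0) (nat_lit 44235061880) (nat_lit 76) (nat_lit 10335988261) (nat_lit 76) (nat_lit 9551782610) (nat_lit 3) (nat_lit 4) (nat_lit 4) (nat_lit 5) (nat_lit 4) (nat_lit 4) (nat_lit 318) (nat_lit 203) (nat_lit 199)) (XT.nd (nat_lit 78) (nat_lit 0) (nat_lit 0) (XT.lf (nat_lit 0) (nat_lit 50370508858) (nat_lit 76) (nat_lit 8901671854) (nat_lit 76) (nat_lit 7944185261) (nat_lit 3) (nat_lit 4) (nat_lit 4) (nat_lit 5) (nat_lit 4) (nat_lit 4) (nat_lit 319) (nat_lit 203) (nat_lit 198)) (XT.lf (nat_lit 0) (nat_lit 56697576401) (nat_lit 76) (nat_lit 7446410165) (nat_lit 76) (nat_lit 6323894101) (nat_lit 3) (nat_lit 4) (nat_lit 4) (nat_lit 5) (nat_lit 4) (nat_lit 4) (nat_lit 320) (nat_lit 203) (nat_lit 197)))))) (XT.nd (nat_lit 312) (nat_lit 76) (nat_lit 0) (XT.nd (nat_lit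 156) (nat_lit 76) (nat_lit 0) (XT.nd (nat_lit 78) (nat_lit 0) (nat_lit 0) (XT.lf (nat_lit 0) (nat_lit 63231328954) (nat_lit 76) (nat_lit 5966738282) (nat_lit 76) (nat_lit 4687051296) (nat_lit 3) (nat_lit 4) (nat_lit 4) (nat_lit 5) (nat_lit 4) (nat_lit 4) (nat_lit 321) (nat_lit 203) (nat_lit 196)) (XT.lf (nat_lit 0) (nat_lit 69987323070) (nat_lit 76) (nat_lit 4459133180) (nat_lit 76) (nat_lit 3029759599) (nat_lit 3) (nat_lit 4) (nat_lit 4) (nat_lit 5) (nat_lit 4) (nat_lit 4) (nat_lit 322) (nat_lit 203) (nat_lit 195))) (XT.nd (nat_lit 78) (nat_lit 76) (nat_lit 0) (XT.lf (nat_lit 0) (nat_lit 76981644451) (nat_lit 76) (nat_lit 2920005321) (nat_lit 76) (nat_lit 1348073080) (nat_lit 3) (nat_lit 4) (nat_lit 4) (nat_lit 5) (nat_lit 4) (nat_lit 4) (nat_lit 323) (nat_lit 203) (nat_lit 194)) (XT.lf (nat_lit 0) (nat_lit 350425624) (nat_lit 152) (nat_lit 989329864) (nat_lit 76) (nat_lit 83874585990)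 (nat_lit 2) (nat_lit 5) (nat_lit 4) (nat_lit 5) (nat_lit 3) (nat_lit 4) (nat_lit 324) (nat_lit 203) (nat_lit 193)))) (XT.nd (nat_lit 156) (nat_lit 0) (nat_lit 0) (XT.nd (nat_lit 78) (nat_lit 0) (nat_lit 0) (XT.lf (nat_lit 0) (nat_lit 2080273517) (nat_lit 152) (nat_lit 86965547355) (nat_lit 0) (nat_lit 330742754) (nat_lit 1) (nat_lit 5) (nat_lit 3) (nat_lit 4) (nat_lit 1) (nat_lit 4) (nat_lit 325) (nat_lit 203) (nat_lit 192)) (XT.lf (nat_lit 0) (nat_lit 3884674077) (nat_lit 152) (nat_lit 87845020778) (nat_lit 0) (nat_lit 2017859950) (nat_lit 1) (nat_lit 5) (nat_lit 3) (nat_lit 4) (nat_lit 1) (nat_lit 4) (nat_lit 326) (nat_lit 203) (nat_lit 191))) (XT.nd (nat_lit 78) (nat_lit 0) (nat_lit 0) (XT.lf (nat_lit 0) (nat_lit 5730787634) (nat_lit 152) (nat_lit 88856516232) (nat_lit 0) (nat_lit 3752275066) (nat_lit 1) (nat_lit 5) (nat_lit 3) (nat_lit 4) (nat_lit 1) (nat_lit 4) (nat_lit 327) (nat_lit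 203) (nat_lit 190)) (XT.nd (nat_lit 78) (nat_lit 0) (nat_lit 0) (XT.lf (nat_lit 0) (nat_lit 7623009697) (nat_lit 152) (nat_lit 90002442039) (nat_lit 0) (nat_lit 5538117662) (nat_lit 1) (nat_lit 5) (nat_lit 3) (nat_lit 4) (nat_lit 1) (nat_lit 4) (nat_lit 328) (nat_lit 203) (nat_lit 189)) (XT.lf (nat_lit 0) (nat_lit 9565845557) (nat_lit 152) (nat_lit 91285526592) (nat_lit 0) (nat_lit 7379639744) (nat_lit 1) (nat_lit 5) (nat_lit 3) (nat_lit 4) (nat_lit 1) (nat_lit 4) (nat_lit 329) (nat_lit 203) (nat_lit 188))))))))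
noncomputable def xc19 : XT := (XT.nd (nat_lit 1326) (nat_lit 0) (nat_lit 0) (XT.nd (nat_lit 624) (nat_lit 0) (nat_lit 0) (XT.nd (nat_lit 312) (nat_lit 0) (nat_lit 0) (XT.nd (nat_lit 156) (nat_lit 0) (nat_lit 0) (XT.nd (nat_lit 78) (nat_lit 0) (nat_lit 0) (XT.lf (nat_lit 0) (nat_lit 11563921014) (nat_lit 152) (nat_lit 92708824856) (nat_lit 0) (nat_lit 9281225888) (nat_lit 1) (nat_lit 5) (nat_lit 3) (nat_lit 4) (nat_lit 1) (nat_lit 4) (nat_lit 330) (nat_lit 203) (nat_lit 187)) (XT.lf (nat_lit 0) (nat_lit 13621993390) (nat_lit 152) (nat_lit 94275725636) (nat_lit 0) (nat_lit 11247403679) (nat_lit 1) (nat_lit 5) (nat_lit 3) (nat_lit 4) (nat_lit 1) (nat_lit 4) (nat_lit 331) (nat_lit 203) (nat_lit 186))) (XT.nd (nat_lit 78) (nat_lit 0) (nat_lit 0) (XT.lf (nat_lit 0) (nat_lit 15744962857) (nat_lit 152) (nat_lit 95989959647) (nat_lit 0) (nat_lit 13282854495) (nat_lit 1) (nat_lit 5) (nat_lit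 3) (nat_lit 4) (nat_lit 1) (nat_lit 4) (nat_lit 332) (nat_lit 203) (nat_lit 185)) (XT.lf (nat_lit 0) (nat_lit 17937884104) (nat_lit 152) (nat_lit 97855608400) (nat_lit 0) (nat_lit 15392424646) (nat_lit 1) (nat_lit 5) (nat_lit 3) (nat_lit 4) (nat_lit 1) (nat_lit 4) (nat_lit 333) (nat_lit 203) (nat_lit 184)))) (XT.nd (nat_lit 156) (nat_lit 0) (nat_lit 0) (XT.nd (nat_lit 78) (nat_lit 0) (nat_lit 0) (XT.lf (nat_lit 0) (nat_lit 20205978373) (nat_lit 152) (nat_lit 99877113916) (nat_lit 0) (nat_lit 17581136919) (nat_lit 1) (nat_lit 5) (nat_lit 3) (nat_lit 4) (nat_lit 1) (nat_lit 4) (nat_lit 334) (nat_lit 203) (nat_lit 183)) (XT.lf (nat_lit 0) (nat_lit 22554645888) (nat_lit 152) (nat_lit 102059289302) (nat_lit 0) (nat_lit 19854202532) (nat_lit 1) (nat_lit 5) (nat_lit 3) (nat_lit 4) (nat_lit 1) (nat_lit 4) (nat_lit 335) (nat_lit 203) (nat_lit 182))) (XT.nd (nat_lit 78) (nat_lit 0) (nat_lit 0)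 (XT.lf (nat_lit 0) (nat_lit 24989478715) (nat_lit 152) (nat_lit 104407330215) (nat_lit 0) (nat_lit 22217033548) (nat_lit 1) (nat_lit 5) (nat_lit 3) (nat_lit 4) (nat_lit 1) (nat_lit 4) (nat_lit 336) (nat_lit 203) (nat_lit 181)) (XT.lf (nat_lit 0) (nat_lit 27516274074) (nat_lit 152) (nat_lit 106926827227) (nat_lit 0) (nat_lit 24675255754) (nat_lit 1) (nat_lit 5) (nat_lit 3) (nat_lit 4) (nat_lit 1) (nat_lit 4) (nat_lit 337) (nat_lit 203) (nat_lit 180))))) (XT.nd (nat_lit 312) (nat_lit 0) (nat_lit 0) (XT.nd (nat_lit 156) (nat_lit 0) (nat_lit 0) (XT.nd (nat_lit 78) (nat_lit 0) (nat_lit 0) (XT.lf (nat_lit 0) (nat_lit 30141048145) (nat_lit 152) (nat_lit 109623779143) (nat_lit 0) (nat_lit 27234722060) (nat_lit 1) (nat_lit 5) (nat_lit 3) (nat_lit 4) (nat_lit 1) (nat_lit 4) (nat_lit 338) (nat_lit 203) (nat_lit 179)) (XT.lf (nat_lit 0) (nat_lit 32870050390) (nat_lit 152) (nat_lit 112504607274)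 (nat_lit 0) (nat_lit 29901526434) (nat_lit 1) (nat_lit 5) (nat_lit 3) (nat_lit 4) (nat_lit 1) (nat_lit 4) (nat_lit 339) (nat_lit 203) (nat_lit 178))) (XT.nd (nat_lit 78) (nat_lit 0) (nat_lit 0) (XT.lf (nat_lit 0) (nat_lit 35709778434) (nat_lit 152) (nat_lit 115576170737) (nat_lit 0) (nat_lit 32682018410) (nat_lit 1) (nat_lit 5) (nat_lit 3) (nat_lit 4) (nat_lit 1) (nat_lit 4) (nat_lit 340) (nat_lit 203) (nat_lit 177)) (XT.lf (nat_lit 0) (nat_lit 38666993533) (nat_lit 152) (nat_lit 118845782777) (nat_lit 0) (nat_lit 35582818206) (nat_lit 1) (nat_lit 5) (nat_lit 3) (nat_lit 4) (nat_lit 1) (nat_lit 4) (nat_lit 341) (nat_lit 203) (nat_lit 176)))) (XT.nd (nat_lit 156) (nat_lit 0) (nat_lit 0) (XT.nd (nat_lit 78) (nat_lit 0) (nat_lit 0) (XT.lf (nat_lit 0) (nat_lit 41748736677) (nat_lit 152) (nat_lit 122321228185) (nat_lit 0) (nat_lit 38610832490) (nat_lit 1) (nat_lit 5) (nat_lit 3) (nat_lit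 4) (nat_lit 1) (nat_lit 4) (nat_lit 342) (nat_lit 203) (nat_lit 175)) (XT.lf (nat_lit 0) (nat_lit 44962345348) (nat_lit 152) (nat_lit 126010781831) (nat_lit 0) (nat_lit 41773270818) (nat_lit 1) (nat_lit 5) (nat_lit 3) (nat_lit 4) (nat_lit 1) (nat_lit 4) (nat_lit 343) (nat_lit 203) (nat_lit 174))) (XT.nd (nat_lit 78) (nat_lit 0) (nat_lit 0) (XT.lf (nat_lit 0) (nat_lit 48315470996) (nat_lit 152) (nat_lit 129923228367) (nat_lit 0) (nat_lit 45077662806) (nat_lit 1) (nat_lit 5) (nat_lit 3) (nat_lit 4) (nat_lit 1) (nat_lit 4) (nat_lit 344) (nat_lit 203) (nat_lit 173)) (XT.nd (nat_lit 78) (nat_lit 0) (nat_lit 0) (XT.lf (nat_lit 0) (nat_lit 51816097254) (nat_lit 152) (nat_lit 134067883141) (nat_lit 0) (nat_lit 48531876054) (nat_lit 1) (nat_lit 5) (nat_lit 3) (nat_lit 4) (nat_lit 1) (nat_lit 4) (nat_lit 345) (nat_lit 203) (nat_lit 172)) (XT.lf (nat_lit 0) (nat_lit 55472558945) (nat_lit 152)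 (nat_lit 138454614379) (nat_lit 0) (nat_lit 52144134880) (nat_lit 1) (nat_lit 5) (nat_lit 3) (nat_lit 4) (nat_lit 1) (nat_lit 4) (nat_lit 346) (nat_lit 203) (nat_lit 171))))))) (XT.nd (nat_lit 702) (nat_lit 0) (nat_lit 0) (XT.nd (nat_lit 312) (nat_lit 0) (nat_lit 0) (XT.nd (nat_lit 156) (nat_lit 0) (nat_lit 0) (XT.nd (nat_lit 78) (nat_lit 0) (nat_lit 0) (XT.lf (nat_lit 0) (nat_lit 59293561931) (nat_lit 152) (nat_lit 143093866680) (nat_lit 0) (nat_lit 55923039898) (nat_lit 1) (nat_lit 5) (nat_lit 3) (nat_lit 4) (nat_lit 1) (nat_lit 4) (nat_lit 347) (nat_lit 203) (nat_lit 170)) (XT.lf (nat_lit 0) (nat_lit 63288203839) (nat_lit 152) (nat_lit 147996685881) (nat_lit 0) (nat_lit 59877588503) (nat_lit 1) (nat_lit 5) (nat_lit 3) (nat_lit 4) (nat_lit 1) (nat_lit 4) (nat_lit 348) (nat_lit 203) (nat_lit 169))) (XT.nd (nat_lit 78) (nat_lit 0) (nat_lit 0) (XT.lf (nat_lit 0) (nat_lit 67465995719)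 (nat_lit 152) (nat_lit 153174745363) (nat_lit 0) (nat_lit 64017196287) (nat_lit 1) (nat_lit 5) (nat_lit 3) (nat_lit 4) (nat_lit 1) (nat_lit 4) (nat_lit 349) (nat_lit 203) (nat_lit 168)) (XT.lf (nat_lit 0) (nat_lit 71836884697) (nat_lit 152) (nat_lit 158640373838) (nat_lit 0) (nat_lit 68351719457) (nat_lit 1) (nat_lit 5) (nat_lit 3) (nat_lit 4) (nat_lit 1) (nat_lit 4) (nat_lit 350) (nat_lit 203) (nat_lit 167)))) (XT.nd (nat_lit 156) (nat_lit 0) (nat_lit 0) (XT.nd (nat_lit 78) (nat_lit 0) (nat_lit 0) (XT.lf (nat_lit 0) (nat_lit 76411277650) (nat_lit 152) (nat_lit 164406584707) (nat_lit 0) (nat_lit 72891478308) (nat_lit 1) (nat_lit 5) (nat_lit 3) (nat_lit 4) (nat_lit 1) (nat_lit 4) (nat_lit 351) (nat_lit 203) (nat_lit 166)) (XT.lf (nat_lit 0) (nat_lit 81200065990) (nat_lit 152) (nat_lit 170487107045) (nat_lit 0) (nat_lit 77647281789) (nat_lit 1) (nat_lit 5) (nat_lit 3) (nat_lit 4) (nat_lit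 1) (nat_lit 4) (nat_lit 352) (nat_lit 203) (nat_lit 165))) (XT.nd (nat_lit 78) (nat_lit 0) (nat_lit 0) (XT.lf (nat_lit 0) (nat_lit 86214651595) (nat_lit 152) (nat_lit 176896418284) (nat_lit 0) (nat_lit 82630453242) (nat_lit 1) (nat_lit 5) (nat_lit 3) (nat_lit 4) (nat_lit 1) (nat_lit 4) (nat_lit 353) (nat_lit 203) (nat_lit 164)) (XT.nd (nat_lit 78) (nat_lit 0) (nat_lit 0) (XT.lf (nat_lit 0) (nat_lit 91466973953) (nat_lit 152) (nat_lit 183649778690) (nat_lit 0) (nat_lit 87852857360) (nat_lit 1) (nat_lit 5) (nat_lit 3) (nat_lit 4) (nat_lit 1) (nat_lit 4) (nat_lit 354) (nat_lit 203) (nat_lit 163)) (XT.lf (nat_lit 0) (nat_lit 96969538594) (nat_lit 152) (nat_lit 190763267692) (nat_lit 0) (nat_lit 93326928440) (nat_lit 1) (nat_lit 5) (nat_lit 3) (nat_lit 4) (nat_lit 1) (nat_lit 4) (nat_lit 355) (nat_lit 203) (nat_lit 162)))))) (XT.nd (nat_lit 312) (nat_lit 0) (nat_lit 0) (XT.nd (nat_lit 156)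 (nat_lit 0) (nat_lit 0) (XT.nd (nat_lit 78) (nat_lit 0) (nat_lit 0) (XT.lf (nat_lit 0) (nat_lit 102735446863) (nat_lit 152) (nat_lit 198253822169) (nat_lit 0) (nat_lit 99065699983) (nat_lit 1) (nat_lit 5) (nat_lit 3) (nat_lit 4) (nat_lit 1) (nat_lit 4) (nat_lit 356) (nat_lit 203) (nat_lit 161)) (XT.lf (nat_lit 0) (nat_lit 108778427112) (nat_lit 152) (nat_lit 206139276775) (nat_lit 0) (nat_lit 105082835732) (nat_lit 1) (nat_lit 5) (nat_lit 3) (nat_lit 4) (nat_lit 1) (nat_lit 4) (nat_lit 357) (nat_lit 203) (nat_lit 160))) (XT.nd (nat_lit 78) (nat_lit 0) (nat_lit 0) (XT.lf (nat_lit 0) (nat_lit 115112867390) (nat_lit 152) (nat_lit 214438406401) (nat_lit 0) (nat_lit 111392662200) (nat_lit 1) (nat_lit 5) (nat_lit 3) (nat_lit 4) (nat_lit 1) (nat_lit 4) (nat_lit 358) (nat_lit 203) (nat_lit 159)) (XT.lf (nat_lit 0) (nat_lit 121753849698) (nat_lit 152) (nat_lit 223170970880) (nat_lit 0) (nat_lit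 118010202784) (nat_lit 1) (nat_lit 5) (nat_lit 3) (nat_lit 4) (nat_lit 1) (nat_lit 4) (nat_lit 359) (nat_lit 203) (nat_lit 158)))) (XT.nd (nat_lit 156) (nat_lit 0) (nat_lit 0) (XT.nd (nat_lit 78) (nat_lit 0) (nat_lit 0) (XT.lf (nat_lit 0) (nat_lit 128717185897) (nat_lit 152) (nat_lit 232357762032) (nat_lit 0) (nat_lit 124951213533) (nat_lit 1) (nat_lit 5) (nat_lit 3) (nat_lit 4) (nat_lit 1) (nat_lit 4) (nat_lit 360) (nat_lit 203) (nat_lit 157)) (XT.lf (nat_lit 0) (nat_lit 136019455360) (nat_lit 152) (nat_lit 242020653170) (nat_lit 0) (nat_lit 132232220662) (nat_lit 1) (nat_lit 5) (nat_lit 3) (nat_lit 4) (nat_lit 1) (nat_lit 4) (nat_lit 361) (nat_lit 203) (nat_lit 156))) (XT.nd (nat_lit 78) (nat_lit 0) (nat_lit 0) (XT.lf (nat_lit 0) (nat_lit 143678044444) (nat_lit 152) (nat_lit 252182651176) (nat_lit 0) (nat_lit 139870559903) (nat_lit 1) (nat_lit 5) (nat_lit 3) (nat_lit 4) (nat_lit 1)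 (nat_lit 4) (nat_lit 362) (nat_lit 203) (nat_lit 155)) (XT.nd (nat_lit 78) (nat_lit 0) (nat_lit 0) (XT.lf (nat_lit 0) (nat_lit 151711187883) (nat_lit 152) (nat_lit 262867951285) (nat_lit 0) (nat_lit 147884417778) (nat_lit 1) (nat_lit 5) (nat_lit 3) (nat_lit 4) (nat_lit 1) (nat_lit 4) (nat_lit 363) (nat_lit 203) (nat_lit 154)) (XT.lf (nat_lit 0) (nat_lit 160138012209) (nat_lit 152) (nat_lit 274101994686) (nat_lit 0) (nat_lit 156292874901) (nat_lit 1) (nat_lit 5) (nat_lit 3) (nat_lit 4) (nat_lit 1) (nat_lit 4) (nat_lit 364) (nat_lit 203) (nat_lit 153))))))))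
noncomputable def xc20 : XT := (XT.nd (nat_lit 34632) (nat_lit 0) (nat_lit 0) (XT.nd (nat_lit 33930) (nat_lit 0) (nat_lit 0) (XT.nd (nat_lit 33618) (nat_lit 0) (nat_lit 152) (XT.nd (nat_lit 33462) (nat_lit 0) (nat_lit 152) (XT.nd (nat_lit 33384) (nat_lit 0) (nat_lit 152) (XT.lf (nat_lit 0) (nat_lit 168978581291) (nat_lit 152) (nat_lit 285911529103) (nat_lit 0) (nat_lit 165115951407) (nat_lit 1) (nat_lit 5) (nat_lit 3) (nat_lit 4) (nat_lit 1) (nat_lit 4) (nat_lit 365) (nat_lit 203) (nat_lit 152)) (XT.lf (nat_lit 0) (nat_lit 5365631640) (nat_lit 76) (nat_lit 9439385108) (nat_lit 76) (nat_lit 9439385108) (nat_lit 3) (nat_lit 4) (nat_lit 4) (nat_lit 5) (nat_lit 4) (nat_lit 4) (nat_lit 312) (nat_lit 204) (nat_lit 204))) (XT.nd (nat_lit 78) (nat_lit 0) (nat_lit 0) (XT.lf (nat_lit 0) (nat_lit 15934896268) (nat_lit 76) (nat_lit 17532779952) (nat_lit 76) (nat_lit 17311624679) (nat_lit 3) (nat_lit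 4) (nat_lit 4) (nat_lit 5) (nat_lit 4) (nat_lit 4) (nat_lit 313) (nat_lit 204) (nat_lit 203)) (XT.lf (nat_lit 0) (nat_lit 21251744804) (nat_lit 76) (nat_lit 16184287674) (nat_lit 76) (nat_lit 15752508332) (nat_lit 3) (nat_lit 4) (nat_lit 4) (nat_lit 5) (nat_lit 4) (nat_lit 4) (nat_lit 314) (nat_lit 204) (nat_lit 202)))) (XT.nd (nat_lit 156) (nat_lit 0) (nat_lit 0) (XT.nd (nat_lit 78) (nat_lit 0) (nat_lit 0) (XT.lf (nat_lit 0) (nat_lit 26694468052) (nat_lit 76) (nat_lit 14830082687) (nat_lit 76) (nat_lit 14197708993) (nat_lit 3) (nat_lit 4) (nat_lit 4) (nat_lit 5) (nat_lit 4) (nat_lit 4) (nat_lit 315) (nat_lit 204) (nat_lit 201)) (XT.lf (nat_lit 0) (nat_lit 32276024877) (nat_lit 76) (nat_lit 13466940694) (nat_lit 76) (nat_lit 12643524760) (nat_lit 3) (nat_lit 4) (nat_lit 4) (nat_lit 5) (nat_lit 4) (nat_lit 4) (nat_lit 316) (nat_lit 204) (nat_lit 200))) (XT.nd (nat_lit 78) (nat_lit 0)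 (nat_lit 0) (XT.lf (nat_lit 0) (nat_lit 38009704700) (nat_lit 76) (nat_lit 12091616118) (nat_lit 76) (nat_lit 11086255194) (nat_lit 3) (nat_lit 4) (nat_lit 4) (nat_lit 5) (nat_lit 4) (nat_lit 4) (nat_lit 317) (nat_lit 204) (nat_lit 199)) (XT.lf (nat_lit 0) (nat_lit 43909159139) (nat_lit 76) (nat_lit 10700834377) (nat_lit 76) (nat_lit 9522192510) (nat_lit 3) (nat_lit 4) (nat_lit 4) (nat_lit 5) (nat_lit 4) (nat_lit 4) (nat_lit 318) (nat_lit 204) (nat_lit 198))))) (XT.nd (nat_lit 312) (nat_lit 152) (nat_lit 0) (XT.nd (nat_lit 156) (nat_lit 0) (nat_lit 0) (XT.nd (nat_lit 78) (nat_lit 0) (nat_lit 0) (XT.lf (nat_lit 0) (nat_lit 49988434515) (nat_lit 76) (nat_lit 9291284086) (nat_lit 76) (nat_lit 7947612750) (nat_lit 3) (nat_lit 4) (nat_lit 4) (nat_lit 5) (nat_lit 4) (nat_lit 4) (nat_lit 319) (nat_lit 204) (nat_lit 197)) (XT.lf (nat_lit 0) (nat_lit 56262005293) (nat_lit 76) (nat_lit 7859609173)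 (nat_lit 76) (nat_lit 6358766913) (nat_lit 3) (nat_lit 4) (nat_lit 4) (nat_lit 5) (nat_lit 4) (nat_lit 4) (nat_lit 320) (nat_lit 204) (nat_lit 196))) (XT.nd (nat_lit 78) (nat_lit 0) (nat_lit 0) (XT.lf (nat_lit 0) (nat_lit 62744808547) (nat_lit 76) (nat_lit 6402400888) (nat_lit 76) (nat_lit 4751872035) (nat_lit 3) (nat_lit 4) (nat_lit 4) (nat_lit 5) (nat_lit 4) (nat_lit 4) (nat_lit 321) (nat_lit 204) (nat_lit 195)) (XT.lf (nat_lit 0) (nat_lit 69452279521) (nat_lit 76) (nat_lit 4916189687) (nat_lit 76) (nat_lit 3123102173) (nat_lit 3) (nat_lit 4) (nat_lit 4) (nat_lit 5) (nat_lit 4) (nat_lit 4) (nat_lit 322) (nat_lit 204) (nat_lit 194)))) (XT.nd (nat_lit 156) (nat_lit 76) (nat_lit 0) (XT.nd (nat_lit 78) (nat_lit 76) (nat_lit 0) (XT.lf (nat_lit 0) (nat_lit 76400388385) (nat_lit 76) (nat_lit 3397436973) (nat_lit 76) (nat_lit 1468579306) (nat_lit 3) (nat_lit 4) (nat_lit 4) (nat_lit 5) (nat_lit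 4) (nat_lit 4) (nat_lit 323) (nat_lit 204) (nat_lit 193)) (XT.lf (nat_lit 0) (nat_lit 208734211) (nat_lit 152) (nat_lit 1630257441) (nat_lit 76) (nat_lit 83393409030) (nat_lit 2) (nat_lit 5) (nat_lit 4) (nat_lit 5) (nat_lit 3) (nat_lit 4) (nat_lit 324) (nat_lit 204) (nat_lit 192))) (XT.nd (nat_lit 78) (nat_lit 0) (nat_lit 0) (XT.lf (nat_lit 0) (nat_lit 1710350612) (nat_lit 76) (nat_lit 188020469) (nat_lit 152) (nat_lit 87498292025) (nat_lit 1) (nat_lit 5) (nat_lit 2) (nat_lit 5) (nat_lit 3) (nat_lit 4) (nat_lit 325) (nat_lit 204) (nat_lit 191)) (XT.nd (nat_lit 78) (nat_lit 0) (nat_lit 0) (XT.lf (nat_lit 0) (nat_lit 3676174148) (nat_lit 152) (nat_lit 88605800811) (nat_lit 0) (nat_lit 1487037512) (nat_lit 1) (nat_lit 5) (nat_lit 3) (nat_lit 4) (nat_lit 1) (nat_lit 4) (nat_lit 326) (nat_lit 204) (nat_lit 190)) (XT.lf (nat_lit 0) (nat_lit 5499752500) (nat_lit 152) (nat_lit 89658201426)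 (nat_lit 0) (nat_lit 3204236396) (nat_lit 1) (nat_lit 5) (nat_lit 3) (nat_lit 4) (nat_lit 1) (nat_lit 4) (nat_lit 327) (nat_lit 204) (nat_lit 189))))))) (XT.nd (nat_lit 702) (nat_lit 0) (nat_lit 0) (XT.nd (nat_lit 312) (nat_lit 0) (nat_lit 0) (XT.nd (nat_lit 156) (nat_lit 0) (nat_lit 0) (XT.nd (nat_lit 78) (nat_lit 0) (nat_lit 0) (XT.lf (nat_lit 0) (nat_lit 7370512463) (nat_lit 152) (nat_lit 90843084528) (nat_lit 0) (nat_lit 4973682580) (nat_lit 1) (nat_lit 5) (nat_lit 3) (nat_lit 4) (nat_lit 1) (nat_lit 4) (nat_lit 328) (nat_lit 204) (nat_lit 188)) (XT.lf (nat_lit 0) (nat_lit 9292908227) (nat_lit 152) (nat_lit 92163271269) (nat_lit 0) (nat_lit 6799589031) (nat_lit 1) (nat_lit 5) (nat_lit 3) (nat_lit 4) (nat_lit 1) (nat_lit 4) (nat_lit 329) (nat_lit 204) (nat_lit 187))) (XT.nd (nat_lit 78) (nat_lit 0) (nat_lit 0) (XT.lf (nat_lit 0) (nat_lit 11271516926) (nat_lit 152) (nat_lit 93621904948)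 (nat_lit 0) (nat_lit 8686303146) (nat_lit 1) (nat_lit 5) (nat_lit 3) (nat_lit 4) (nat_lit 1) (nat_lit 4) (nat_lit 330) (nat_lit 204) (nat_lit 186)) (XT.lf (nat_lit 0) (nat_lit 13311049532) (nat_lit 152) (nat_lit 95222458505) (nat_lit 0) (nat_lit 10638317101) (nat_lit 1) (nat_lit 5) (nat_lit 3) (nat_lit 4) (nat_lit 1) (nat_lit 4) (nat_lit 331) (nat_lit 204) (nat_lit 185)))) (XT.nd (nat_lit 156) (nat_lit 0) (nat_lit 0) (XT.nd (nat_lit 78) (nat_lit 0) (nat_lit 0) (XT.lf (nat_lit 0) (nat_lit 15416362075) (nat_lit 152) (nat_lit 96968742781) (nat_lit 0) (nat_lit 12660278548) (nat_lit 1) (nat_lit 5) (nat_lit 3) (nat_lit 4) (nat_lit 1) (nat_lit 4) (nat_lit 332) (nat_lit 204) (nat_lit 184)) (XT.lf (nat_lit 0) (nat_lit 17592467205) (nat_lit 152) (nat_lit 98864915595) (nat_lit 0) (nat_lit 14757001682) (nat_lit 1) (nat_lit 5) (nat_lit 3) (nat_lit 4) (nat_lit 1) (nat_lit 4) (nat_lit 333) (nat_lit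 204) (nat_lit 183))) (XT.nd (nat_lit 78) (nat_lit 0) (nat_lit 0) (XT.lf (nat_lit 0) (nat_lit 19844546124) (nat_lit 152) (nat_lit 100915491644) (nat_lit 0) (nat_lit 16933478699) (nat_lit 1) (nat_lit 5) (nat_lit 3) (nat_lit 4) (nat_lit 1) (nat_lit 4) (nat_lit 334) (nat_lit 204) (nat_lit 182)) (XT.nd (nat_lit 78) (nat_lit 0) (nat_lit 0) (XT.lf (nat_lit 0) (nat_lit 22177960925) (nat_lit 152) (nat_lit 103125353254) (nat_lit 0) (nat_lit 19194891689) (nat_lit 1) (nat_lit 5) (nat_lit 3) (nat_lit 4) (nat_lit 1) (nat_lit 4) (nat_lit 335) (nat_lit 204) (nat_lit 181)) (XT.lf (nat_lit 0) (nat_lit 24598267357) (nat_lit 152) (nat_lit 105499761998) (nat_lit 0) (nat_lit 21546624968) (nat_lit 1) (nat_lit 5) (nat_lit 3) (nat_lit 4) (nat_lit 1) (nat_lit 4) (nat_lit 336) (nat_lit 204) (nat_lit 180)))))) (XT.nd (nat_lit 312) (nat_lit 0) (nat_lit 0) (XT.nd (nat_lit 156) (nat_lit 0) (nat_lit 0) (XT.nd (nat_lit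 78) (nat_lit 0) (nat_lit 0) (XT.lf (nat_lit 0) (nat_lit 27111228055) (nat_lit 152) (nat_lit 108044371231) (nat_lit 0) (nat_lit 23994277901) (nat_lit 1) (nat_lit 5) (nat_lit 3) (nat_lit 4) (nat_lit 1) (nat_lit 4) (nat_lit 337) (nat_lit 204) (nat_lit 179)) (XT.lf (nat_lit 0) (nat_lit 29722826258) (nat_lit 152) (nat_lit 110765239546) (nat_lit 0) (nat_lit 26543678232) (nat_lit 1) (nat_lit 5) (nat_lit 3) (nat_lit 4) (nat_lit 1) (nat_lit 4) (nat_lit 338) (nat_lit 204) (nat_lit 178))) (XT.nd (nat_lit 78) (nat_lit 0) (nat_lit 0) (XT.lf (nat_lit 0) (nat_lit 32439280058) (nat_lit 152) (nat_lit 113668845202) (nat_lit 0) (nat_lit 29200895964) (nat_lit 1) (nat_lit 5) (nat_lit 3) (nat_lit 4) (nat_lit 1) (nat_lit 4) (nat_lit 339) (nat_lit 204) (nat_lit 177)) (XT.lf (nat_lit 0) (nat_lit 35267057201) (nat_lit 152) (nat_lit 116762101545) (nat_lit 0) (nat_lit 31972257804) (nat_lit 1) (nat_lit 5) (nat_lit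 3) (nat_lit 4) (nat_lit 1) (nat_lit 4) (nat_lit 340) (nat_lit 204) (nat_lit 176)))) (XT.nd (nat_lit 156) (nat_lit 0) (nat_lit 0) (XT.nd (nat_lit 78) (nat_lit 0) (nat_lit 0) (XT.lf (nat_lit 0) (nat_lit 38212890490) (nat_lit 152) (nat_lit 120052373470) (nat_lit 0) (nat_lit 34864362233) (nat_lit 1) (nat_lit 5) (nat_lit 3) (nat_lit 4) (nat_lit 1) (nat_lit 4) (nat_lit 341) (nat_lit 204) (nat_lit 175)) (XT.lf (nat_lit 0) (nat_lit 41283793814) (nat_lit 152) (nat_lit 123547494960) (nat_lit 0) (nat_lit 37884095215) (nat_lit 1) (nat_lit 5) (nat_lit 3) (nat_lit 4) (nat_lit 1) (nat_lit 4) (nat_lit 342) (nat_lit 204) (nat_lit 174))) (XT.nd (nat_lit 78) (nat_lit 0) (nat_lit 0) (XT.lf (nat_lit 0) (nat_lit 44487078848) (nat_lit 152) (nat_lit 127255787732) (nat_lit 0) (nat_lit 41038646588) (nat_lit 1) (nat_lit 5) (nat_lit 3) (nat_lit 4) (nat_lit 1) (nat_lit 4) (nat_lit 343) (nat_lit 204) (nat_lit 173))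 (XT.nd (nat_lit 78) (nat_lit 0) (nat_lit 0) (XT.lf (nat_lit 0) (nat_lit 47830372460) (nat_lit 152) (nat_lit 131186081054) (nat_lit 0) (nat_lit 44335527192) (nat_lit 1) (nat_lit 5) (nat_lit 3) (nat_lit 4) (nat_lit 1) (nat_lit 4) (nat_lit 344) (nat_lit 204) (nat_lit 172)) (XT.lf (nat_lit 0) (nat_lit 51321634874) (nat_lit 152) (nat_lit 135347732767) (nat_lit 0) (nat_lit 47782586740) (nat_lit 1) (nat_lit 5) (nat_lit 3) (nat_lit 4) (nat_lit 1) (nat_lit 4) (nat_lit 345) (nat_lit 204) (nat_lit 171))))))))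
noncomputable def xc21 : XT := (XT.nd (nat_lit 1326) (nat_lit 0) (nat_lit 0) (XT.nd (nat_lit 624) (nat_lit 0) (nat_lit 0) (XT.nd (nat_lit 312) (nat_lit 0) (nat_lit 0) (XT.nd (nat_lit 156) (nat_lit 0) (nat_lit 0) (XT.nd (nat_lit 78) (nat_lit 0) (nat_lit 0) (XT.lf (nat_lit 0) (nat_lit 54969178619) (nat_lit 152) (nat_lit 139750651566) (nat_lit 0) (nat_lit 51388032517) (nat_lit 1) (nat_lit 5) (nat_lit 3) (nat_lit 4) (nat_lit 1) (nat_lit 4) (nat_lit 346) (nat_lit 204) (nat_lit 170)) (XT.lf (nat_lit 0) (nat_lit 58781688324) (nat_lit 152) (nat_lit 144405320592) (nat_lit 0) (nat_lit 55160448919) (nat_lit 1) (nat_lit 5) (nat_lit 3) (nat_lit 4) (nat_lit 1) (nat_lit 4) (nat_lit 347) (nat_lit 204) (nat_lit 169))) (XT.nd (nat_lit 78) (nat_lit 0) (nat_lit 0) (XT.lf (nat_lit 0) (nat_lit 62768241391) (nat_lit 152) (nat_lit 149322822389) (nat_lit 0) (nat_lit 59108817889) (nat_lit 1) (nat_lit 5) (nat_lit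 3) (nat_lit 4) (nat_lit 1) (nat_lit 4) (nat_lit 348) (nat_lit 204) (nat_lit 168)) (XT.lf (nat_lit 0) (nat_lit 66938329615) (nat_lit 152) (nat_lit 154514865295) (nat_lit 0) (nat_lit 63242540305) (nat_lit 1) (nat_lit 5) (nat_lit 3) (nat_lit 4) (nat_lit 1) (nat_lit 4) (nat_lit 349) (nat_lit 204) (nat_lit 167)))) (XT.nd (nat_lit 156) (nat_lit 0) (nat_lit 0) (XT.nd (nat_lit 78) (nat_lit 0) (nat_lit 0) (XT.lf (nat_lit 0) (nat_lit 71301881776) (nat_lit 152) (nat_lit 159993811316) (nat_lit 0) (nat_lit 67571458364) (nat_lit 1) (nat_lit 5) (nat_lit 3) (nat_lit 4) (nat_lit 1) (nat_lit 4) (nat_lit 350) (nat_lit 204) (nat_lit 166)) (XT.lf (nat_lit 0) (nat_lit 75869287285) (nat_lit 152) (nat_lit 165772705563) (nat_lit 0) (nat_lit 72105879014) (nat_lit 1) (nat_lit 5) (nat_lit 3) (nat_lit 4) (nat_lit 1) (nat_lit 4) (nat_lit 351) (nat_lit 204) (nat_lit 165))) (XT.nd (nat_lit 78) (nat_lit 0) (nat_lit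 0) (XT.lf (nat_lit 0) (nat_lit 80651420917) (nat_lit 152) (nat_lit 171865307308) (nat_lit 0) (nat_lit 76856598494) (nat_lit 1) (nat_lit 5) (nat_lit 3) (nat_lit 4) (nat_lit 1) (nat_lit 4) (nat_lit 352) (nat_lit 204) (nat_lit 164)) (XT.lf (nat_lit 0) (nat_lit 85659668703) (nat_lit 152) (nat_lit 178286122745) (nat_lit 0) (nat_lit 81834928041) (nat_lit 1) (nat_lit 5) (nat_lit 3) (nat_lit 4) (nat_lit 1) (nat_lit 4) (nat_lit 353) (nat_lit 204) (nat_lit 163))))) (XT.nd (nat_lit 312) (nat_lit 0) (nat_lit 0) (XT.nd (nat_lit 156) (nat_lit 0) (nat_lit 0) (XT.nd (nat_lit 78) (nat_lit 0) (nat_lit 0) (XT.lf (nat_lit 0) (nat_lit 90905955044) (nat_lit 152) (nat_lit 185050439529) (nat_lit 0) (nat_lit 87052720821) (nat_lit 1) (nat_lit 5) (nat_lit 3) (nat_lit 4) (nat_lit 1) (nat_lit 4) (nat_lit 354) (nat_lit 204) (nat_lit 162)) (XT.lf (nat_lit 0) (nat_lit 96402771098) (nat_lit 152) (nat_lit 192174363178)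 (nat_lit 0) (nat_lit 92522400149) (nat_lit 1) (nat_lit 5) (nat_lit 3) (nat_lit 4) (nat_lit 1) (nat_lit 4) (nat_lit 355) (nat_lit 204) (nat_lit 161))) (XT.nd (nat_lit 78) (nat_lit 0) (nat_lit 0) (XT.lf (nat_lit 0) (nat_lit 102163204521) (nat_lit 152) (nat_lit 199674855413) (nat_lit 0) (nat_lit 98256989072) (nat_lit 1) (nat_lit 5) (nat_lit 3) (nat_lit 4) (nat_lit 1) (nat_lit 4) (nat_lit 356) (nat_lit 204) (nat_lit 160)) (XT.lf (nat_lit 0) (nat_lit 108200970632) (nat_lit 152) (nat_lit 207569774551) (nat_lit 0) (nat_lit 104270141373) (nat_lit 1) (nat_lit 5) (nat_lit 3) (nat_lit 4) (nat_lit 1) (nat_lit 4) (nat_lit 357) (nat_lit 204) (nat_lit 159)))) (XT.nd (nat_lit 156) (nat_lit 0) (nat_lit 0) (XT.nd (nat_lit 78) (nat_lit 0) (nat_lit 0) (XT.lf (nat_lit 0) (nat_lit 114530445064) (nat_lit 152) (nat_lit 215877918017) (nat_lit 0) (nat_lit 110576174082) (nat_lit 1) (nat_lit 5) (nat_lit 3) (nat_lit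 4) (nat_lit 1) (nat_lit 4) (nat_lit 358) (nat_lit 204) (nat_lit 158)) (XT.lf (nat_lit 0) (nat_lit 121166697994) (nat_lit 152) (nat_lit 224619067105) (nat_lit 0) (nat_lit 117190101561) (nat_lit 1) (nat_lit 5) (nat_lit 3) (nat_lit 4) (nat_lit 1) (nat_lit 4) (nat_lit 359) (nat_lit 204) (nat_lit 157))) (XT.nd (nat_lit 78) (nat_lit 0) (nat_lit 0) (XT.lf (nat_lit 0) (nat_lit 128125530025) (nat_lit 152) (nat_lit 233814034076) (nat_lit 0) (nat_lit 124127671257) (nat_lit 1) (nat_lit 5) (nat_lit 3) (nat_lit 4) (nat_lit 1) (nat_lit 4) (nat_lit 360) (nat_lit 204) (nat_lit 156)) (XT.nd (nat_lit 78) (nat_lit 0) (nat_lit 0) (XT.lf (nat_lit 0) (nat_lit 135423509804) (nat_lit 152) (nat_lit 243484711707) (nat_lit 0) (nat_lit 131405401194) (nat_lit 1) (nat_lit 5) (nat_lit 3) (nat_lit 4) (nat_lit 1) (nat_lit 4) (nat_lit 361) (nat_lit 204) (nat_lit 155)) (XT.lf (nat_lit 0) (nat_lit 143078013473) (nat_lit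 152) (nat_lit 253654125421) (nat_lit 0) (nat_lit 139040619299) (nat_lit 1) (nat_lit 5) (nat_lit 3) (nat_lit 4) (nat_lit 1) (nat_lit 4) (nat_lit 362) (nat_lit 204) (nat_lit 154))))))) (XT.nd (nat_lit 33852) (nat_lit 0) (nat_lit 76) (XT.nd (nat_lit 33462) (nat_lit 0) (nat_lit 152) (XT.nd (nat_lit 156) (nat_lit 0) (nat_lit 0) (XT.nd (nat_lit 78) (nat_lit 0) (nat_lit 0) (XT.lf (nat_lit 0) (nat_lit 151107266042) (nat_lit 152) (nat_lit 264346488109) (nat_lit 0) (nat_lit 147051504664) (nat_lit 1) (nat_lit 5) (nat_lit 3) (nat_lit 4) (nat_lit 1) (nat_lit 4) (nat_lit 363) (nat_lit 204) (nat_lit 153)) (XT.lf (nat_lit 0) (nat_lit 159530384778) (nat_lit 152) (nat_lit 275587257777) (nat_lit 0) (nat_lit 155457130824) (nat_lit 1) (nat_lit 5) (nat_lit 3) (nat_lit 4) (nat_lit 1) (nat_lit 4) (nat_lit 364) (nat_lit 204) (nat_lit 152))) (XT.nd (nat_lit 33228) (nat_lit 0) (nat_lit 152) (XT.lf (nat_lit 0)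 (nat_lit 168367424725) (nat_lit 152) (nat_lit 287403198161) (nat_lit 0) (nat_lit 164277511177) (nat_lit 1) (nat_lit 5) (nat_lit 3) (nat_lit 4) (nat_lit 1) (nat_lit 4) (nat_lit 365) (nat_lit 204) (nat_lit 151)) (XT.lf (nat_lit 0) (nat_lit 346682346) (nat_lit 76) (nat_lit 10886714980) (nat_lit 76) (nat_lit 10886714980) (nat_lit 3) (nat_lit 4) (nat_lit 4) (nat_lit 5) (nat_lit 4) (nat_lit 4) (nat_lit 310) (nat_lit 205) (nat_lit 205)))) (XT.nd (nat_lit 156) (nat_lit 0) (nat_lit 0) (XT.nd (nat_lit 78) (nat_lit 0) (nat_lit 0) (XT.lf (nat_lit 0) (nat_lit 5628456241) (nat_lit 76) (nat_lit 20457676243) (nat_lit 76) (nat_lit 20225463207) (nat_lit 3) (nat_lit 4) (nat_lit 4) (nat_lit 5) (nat_lit 4) (nat_lit 4) (nat_lit 311) (nat_lit 205) (nat_lit 204)) (XT.lf (nat_lit 0) (nat_lit 10655987962) (nat_lit 76) (nat_lit 19144172216) (nat_lit 76) (nat_lit 18690803907) (nat_lit 3) (nat_lit 4) (nat_lit 4)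 (nat_lit 5) (nat_lit 4) (nat_lit 4) (nat_lit 312) (nat_lit 205) (nat_lit 203))) (XT.nd (nat_lit 78) (nat_lit 0) (nat_lit 0) (XT.lf (nat_lit 0) (nat_lit 15787930168) (nat_lit 76) (nat_lit 17829790488) (nat_lit 76) (nat_lit 17165798110) (nat_lit 3) (nat_lit 4) (nat_lit 4) (nat_lit 5) (nat_lit 4) (nat_lit 4) (nat_lit 313) (nat_lit 205) (nat_lit 202)) (XT.nd (nat_lit 78) (nat_lit 0) (nat_lit 0) (XT.lf (nat_lit 0) (nat_lit 21036501770) (nat_lit 76) (nat_lit 16511401579) (nat_lit 76) (nat_lit 15646814849) (nat_lit 3) (nat_lit 4) (nat_lit 4) (nat_lit 5) (nat_lit 4) (nat_lit 4) (nat_lit 314) (nat_lit 205) (nat_lit 201)) (XT.lf (nat_lit 0) (nat_lit 26414199366) (nat_lit 76) (nat_lit 15185866466) (nat_lit 76) (nat_lit 14130237497) (nat_lit 3) (nat_lit 4) (nat_lit 4) (nat_lit 5) (nat_lit 4) (nat_lit 4) (nat_lit 315) (nat_lit 205) (nat_lit 200)))))) (XT.nd (nat_lit 312) (nat_lit 76) (nat_lit 0)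 (XT.nd (nat_lit 156) (nat_lit 0) (nat_lit 0) (XT.nd (nat_lit 78) (nat_lit 0) (nat_lit 0) (XT.lf (nat_lit 0) (nat_lit 31933826999) (nat_lit 76) (nat_lit 13850029116) (nat_lit 76) (nat_lit 12612455156) (nat_lit 3) (nat_lit 4) (nat_lit 4) (nat_lit 5) (nat_lit 4) (nat_lit 4) (nat_lit 316) (nat_lit 205) (nat_lit 199)) (XT.lf (nat_lit 0) (nat_lit 37608526639) (nat_lit 76) (nat_lit 12500708961) (nat_lit 76) (nat_lit 11089854058) (nat_lit 3) (nat_lit 4) (nat_lit 4) (nat_lit 5) (nat_lit 4) (nat_lit 4) (nat_lit 317) (nat_lit 205) (nat_lit 198))) (XT.nd (nat_lit 78) (nat_lit 0) (nat_lit 0) (XT.lf (nat_lit 0) (nat_lit 43451809476) (nat_lit 76) (nat_lit 11134693336) (nat_lit 76) (nat_lit 9558808963) (nat_lit 3) (nat_lit 4) (nat_lit 4) (nat_lit 5) (nat_lit 4) (nat_lit 4) (nat_lit 318) (nat_lit 205) (nat_lit 197)) (XT.lf (nat_lit 0) (nat_lit 49477588088) (nat_lit 76) (nat_lit 9748729822) (nat_lit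 76) (nat_lit 8015674526) (nat_lit 3) (nat_lit 4) (nat_lit 4) (nat_lit 5) (nat_lit 4) (nat_lit 4) (nat_lit 319) (nat_lit 205) (nat_lit 196)))) (XT.nd (nat_lit 156) (nat_lit 76) (nat_lit 0) (XT.nd (nat_lit 78) (nat_lit 0) (nat_lit 0) (XT.lf (nat_lit 0) (nat_lit 55700209567) (nat_lit 76) (nat_lit 8339518505) (nat_lit 76) (nat_lit 6456776616) (nat_lit 3) (nat_lit 4) (nat_lit 4) (nat_lit 5) (nat_lit 4) (nat_lit 4) (nat_lit 320) (nat_lit 205) (nat_lit 195)) (XT.lf (nat_lit 0) (nat_lit 62134489678) (nat_lit 76) (nat_lit 6903704122) (nat_lit 76) (nat_lit 4878403572) (nat_lit 3) (nat_lit 4) (nat_lit 4) (nat_lit 5) (nat_lit 4) (nat_lit 4) (nat_lit 321) (nat_lit 205) (nat_lit 194))) (XT.nd (nat_lit 78) (nat_lit 76) (nat_lit 0) (XT.lf (nat_lit 0) (nat_lit 68795748136) (nat_lit 76) (nat_lit 5437868066) (nat_lit 76) (nat_lit 3276797363) (nat_lit 3) (nat_lit 4) (nat_lit 4) (nat_lit 5) (nat_lit 4)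 (nat_lit 4) (nat_lit 322) (nat_lit 205) (nat_lit 193)) (XT.nd (nat_lit 78) (nat_lit 76) (nat_lit 0) (XT.lf (nat_lit 0) (nat_lit 75699845080) (nat_lit 76) (nat_lit 3938520251) (nat_lit 76) (nat_lit 1648144640) (nat_lit 3) (nat_lit 4) (nat_lit 4) (nat_lit 5) (nat_lit 4) (nat_lit 4) (nat_lit 323) (nat_lit 205) (nat_lit 192)) (XT.lf (nat_lit 0) (nat_lit 11066432) (nat_lit 152) (nat_lit 2390836954) (nat_lit 76) (nat_lit 82851964987) (nat_lit 2) (nat_lit 5) (nat_lit 4) (nat_lit 5) (nat_lit 3) (nat_lit 4) (nat_lit 324) (nat_lit 205) (nat_lit 191))))))))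
noncomputable def xc22 : XT := (XT.nd (nat_lit 1326) (nat_lit 0) (nat_lit 0) (XT.nd (nat_lit 624) (nat_lit 0) (nat_lit 0) (XT.nd (nat_lit 312) (nat_lit 0) (nat_lit 0) (XT.nd (nat_lit 156) (nat_lit 0) (nat_lit 0) (XT.nd (nat_lit 78) (nat_lit 0) (nat_lit 0) (XT.lf (nat_lit 0) (nat_lit 882577751) (nat_lit 76) (nat_lit 782487739) (nat_lit 152) (nat_lit 87754875509) (nat_lit 1) (nat_lit 5) (nat_lit 2) (nat_lit 5) (nat_lit 3) (nat_lit 4) (nat_lit 325) (nat_lit 205) (nat_lit 190)) (XT.lf (nat_lit 0) (nat_lit 3411052052) (nat_lit 152) (nat_lit 89488475426) (nat_lit 0) (nat_lit 894380675) (nat_lit 1) (nat_lit 5) (nat_lit 3) (nat_lit 4) (nat_lit 1) (nat_lit 4) (nat_lit 326) (nat_lit 205) (nat_lit 189))) (XT.nd (nat_lit 78) (nat_lit 0) (nat_lit 0) (XT.lf (nat_lit 0) (nat_lit 5213168303) (nat_lit 152) (nat_lit 90579833337) (nat_lit 0) (nat_lit 2595183147) (nat_lit 1) (nat_lit 5) (nat_lit 3) (nat_lit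 4) (nat_lit 1) (nat_lit 4) (nat_lit 327) (nat_lit 205) (nat_lit 188)) (XT.lf (nat_lit 0) (nat_lit 7063488170) (nat_lit 152) (nat_lit 91801818626) (nat_lit 0) (nat_lit 4349013701) (nat_lit 1) (nat_lit 5) (nat_lit 3) (nat_lit 4) (nat_lit 1) (nat_lit 4) (nat_lit 328) (nat_lit 205) (nat_lit 187)))) (XT.nd (nat_lit 156) (nat_lit 0) (nat_lit 0) (XT.nd (nat_lit 78) (nat_lit 0) (nat_lit 0) (XT.lf (nat_lit 0) (nat_lit 8966417176) (nat_lit 152) (nat_lit 93157340782) (nat_lit 0) (nat_lit 6160048124) (nat_lit 1) (nat_lit 5) (nat_lit 3) (nat_lit 4) (nat_lit 1) (nat_lit 4) (nat_lit 329) (nat_lit 205) (nat_lit 186)) (XT.lf (nat_lit 0) (nat_lit 10926486105) (nat_lit 152) (nat_lit 94649627239) (nat_lit 0) (nat_lit 8032598402) (nat_lit 1) (nat_lit 5) (nat_lit 3) (nat_lit 4) (nat_lit 1) (nat_lit 4) (nat_lit 330) (nat_lit 205) (nat_lit 185))) (XT.nd (nat_lit 78) (nat_lit 0) (nat_lit 0) (XT.lf (nat_lit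 0) (nat_lit 12948361788) (nat_lit 152) (nat_lit 96282231059) (nat_lit 0) (nat_lit 9971122988) (nat_lit 1) (nat_lit 5) (nat_lit 3) (nat_lit 4) (nat_lit 1) (nat_lit 4) (nat_lit 331) (nat_lit 205) (nat_lit 184)) (XT.lf (nat_lit 0) (nat_lit 15036858214) (nat_lit 152) (nat_lit 98059039395) (nat_lit 0) (nat_lit 11980237418) (nat_lit 1) (nat_lit 5) (nat_lit 3) (nat_lit 4) (nat_lit 1) (nat_lit 4) (nat_lit 332) (nat_lit 205) (nat_lit 183))))) (XT.nd (nat_lit 312) (nat_lit 0) (nat_lit 0) (XT.nd (nat_lit 156) (nat_lit 0) (nat_lit 0) (XT.nd (nat_lit 78) (nat_lit 0) (nat_lit 0) (XT.lf (nat_lit 0) (nat_lit 17196947994) (nat_lit 152) (nat_lit 99984282744) (nat_lit 0) (nat_lit 14064725296) (nat_lit 1) (nat_lit 5) (nat_lit 3) (nat_lit 4) (nat_lit 1) (nat_lit 4) (nat_lit 333) (nat_lit 205) (nat_lit 182)) (XT.lf (nat_lit 0) (nat_lit 19433774199) (nat_lit 152) (nat_lit 102062545016) (nat_lit 0) (nat_lit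 16229549690) (nat_lit 1) (nat_lit 5) (nat_lit 3) (nat_lit 4) (nat_lit 1) (nat_lit 4) (nat_lit 334) (nat_lit 205) (nat_lit 181))) (XT.nd (nat_lit 78) (nat_lit 0) (nat_lit 0) (XT.lf (nat_lit 0) (nat_lit 21752662605) (nat_lit 152) (nat_lit 104298774457) (nat_lit 0) (nat_lit 18479864943) (nat_lit 1) (nat_lit 5) (nat_lit 3) (nat_lit 4) (nat_lit 1) (nat_lit 4) (nat_lit 335) (nat_lit 205) (nat_lit 180)) (XT.lf (nat_lit 0) (nat_lit 24159134376) (nat_lit 152) (nat_lit 106698295421) (nat_lit 0) (nat_lit 20821028949) (nat_lit 1) (nat_lit 5) (nat_lit 3) (nat_lit 4) (nat_lit 1) (nat_lit 4) (nat_lit 336) (nat_lit 205) (nat_lit 179)))) (XT.nd (nat_lit 156) (nat_lit 0) (nat_lit 0) (XT.nd (nat_lit 78) (nat_lit 0) (nat_lit 0) (XT.lf (nat_lit 0) (nat_lit 26658919206) (nat_lit 152) (nat_lit 109266821055) (nat_lit 0) (nat_lit 23258615907) (nat_lit 1) (nat_lit 5) (nat_lit 3) (nat_lit 4) (nat_lit 1) (nat_lit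 4) (nat_lit 337) (nat_lit 205) (nat_lit 178)) (XT.lf (nat_lit 0) (nat_lit 29257968963) (nat_lit 152) (nat_lit 112010466894) (nat_lit 0) (nat_lit 25798429596) (nat_lit 1) (nat_lit 5) (nat_lit 3) (nat_lit 4) (nat_lit 1) (nat_lit 4) (nat_lit 338) (nat_lit 205) (nat_lit 177))) (XT.nd (nat_lit 78) (nat_lit 0) (nat_lit 0) (XT.lf (nat_lit 0) (nat_lit 31962471862) (nat_lit 152) (nat_lit 114935765430) (nat_lit 0) (nat_lit 28446517192) (nat_lit 1) (nat_lit 5) (nat_lit 3) (nat_lit 4) (nat_lit 1) (nat_lit 4) (nat_lit 339) (nat_lit 205) (nat_lit 176)) (XT.nd (nat_lit 78) (nat_lit 0) (nat_lit 0) (XT.lf (nat_lit 0) (nat_lit 34778867194) (nat_lit 152) (nat_lit 118049681659) (nat_lit 0) (nat_lit 31209183665) (nat_lit 1) (nat_lit 5) (nat_lit 3) (nat_lit 4) (nat_lit 1) (nat_lit 4) (nat_lit 340) (nat_lit 205) (nat_lit 175)) (XT.lf (nat_lit 0) (nat_lit 37713860664) (nat_lit 152) (nat_lit 121359629666) (nat_lit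 0) (nat_lit 34093006792) (nat_lit 1) (nat_lit 5) (nat_lit 3) (nat_lit 4) (nat_lit 1) (nat_lit 4) (nat_lit 341) (nat_lit 205) (nat_lit 174))))))) (XT.nd (nat_lit 702) (nat_lit 0) (nat_lit 0) (XT.nd (nat_lit 312) (nat_lit 0) (nat_lit 0) (XT.nd (nat_lit 156) (nat_lit 0) (nat_lit 0) (XT.nd (nat_lit 78) (nat_lit 0) (nat_lit 0) (XT.lf (nat_lit 0) (nat_lit 40774440351) (nat_lit 152) (nat_lit 124873490282) (nat_lit 0) (nat_lit 37104852819) (nat_lit 1) (nat_lit 5) (nat_lit 3) (nat_lit 4) (nat_lit 1) (nat_lit 4) (nat_lit 342) (nat_lit 205) (nat_lit 173)) (XT.lf (nat_lit 0) (nat_lit 43967893349) (nat_lit 152) (nat_lit 128599629839) (nat_lit 0) (nat_lit 40251892808) (nat_lit 1) (nat_lit 5) (nat_lit 3) (nat_lit 4) (nat_lit 1) (nat_lit 4) (nat_lit 343) (nat_lit 205) (nat_lit 172))) (XT.nd (nat_lit 78) (nat_lit 0) (nat_lit 0) (XT.lf (nat_lit 0) (nat_lit 47301823118) (nat_lit 152) (nat_lit 132546920101)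 (nat_lit 0) (nat_lit 43541619711) (nat_lit 1) (nat_lit 5) (nat_lit 3) (nat_lit 4) (nat_lit 1) (nat_lit 4) (nat_lit 344) (nat_lit 205) (nat_lit 171)) (XT.lf (nat_lit 0) (nat_lit 50784167586) (nat_lit 152) (nat_lit 136724759375) (nat_lit 0) (nat_lit 46981866211) (nat_lit 1) (nat_lit 5) (nat_lit 3) (nat_lit 4) (nat_lit 1) (nat_lit 4) (nat_lit 345) (nat_lit 205) (nat_lit 170)))) (XT.nd (nat_lit 156) (nat_lit 0) (nat_lit 0) (XT.nd (nat_lit 78) (nat_lit 0) (nat_lit 0) (XT.lf (nat_lit 0) (nat_lit 54423218049) (nat_lit 152) (nat_lit 141143094899) (nat_lit 0) (nat_lit 50580823372) (nat_lit 1) (nat_lit 5) (nat_lit 3) (nat_lit 4) (nat_lit 1) (nat_lit 4) (nat_lit 346) (nat_lit 205) (nat_lit 169)) (XT.lf (nat_lit 0) (nat_lit 58227638914) (nat_lit 152) (nat_lit 145812446520) (nat_lit 0) (nat_lit 54347060139) (nat_lit 1) (nat_lit 5) (nat_lit 3) (nat_lit 4) (nat_lit 1) (nat_lit 4) (nat_lit 347) (nat_lit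 205) (nat_lit 168))) (XT.nd (nat_lit 78) (nat_lit 0) (nat_lit 0) (XT.lf (nat_lit 0) (nat_lit 62206488324) (nat_lit 152) (nat_lit 150743931741) (nat_lit 0) (nat_lit 58289543742) (nat_lit 1) (nat_lit 5) (nat_lit 3) (nat_lit 4) (nat_lit 1) (nat_lit 4) (nat_lit 348) (nat_lit 205) (nat_lit 167)) (XT.nd (nat_lit 78) (nat_lit 0) (nat_lit 0) (XT.lf (nat_lit 0) (nat_lit 66369239731) (nat_lit 152) (nat_lit 155949292193) (nat_lit 0) (nat_lit 62417661047) (nat_lit 1) (nat_lit 5) (nat_lit 3) (nat_lit 4) (nat_lit 1) (nat_lit 4) (nat_lit 349) (nat_lit 205) (nat_lit 166)) (XT.lf (nat_lit 0) (nat_lit 70725804448) (nat_lit 152) (nat_lit 161440921593) (nat_lit 0) (nat_lit 66741240905) (nat_lit 1) (nat_lit 5) (nat_lit 3) (nat_lit 4) (nat_lit 1) (nat_lit 4) (nat_lit 350) (nat_lit 205) (nat_lit 165)))))) (XT.nd (nat_lit 312) (nat_lit 0) (nat_lit 0) (XT.nd (nat_lit 156) (nat_lit 0) (nat_lit 0) (XT.nd (nat_lit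 78) (nat_lit 0) (nat_lit 0) (XT.lf (nat_lit 0) (nat_lit 75286555249) (nat_lit 152) (nat_lit 167231895247) (nat_lit 0) (nat_lit 71270577554) (nat_lit 1) (nat_lit 5) (nat_lit 3) (nat_lit 4) (nat_lit 1) (nat_lit 4) (nat_lit 351) (nat_lit 205) (nat_lit 164)) (XT.lf (nat_lit 0) (nat_lit 80062351062) (nat_lit 152) (nat_lit 173336001189) (nat_lit 0) (nat_lit 76016455128) (nat_lit 1) (nat_lit 5) (nat_lit 3) (nat_lit 4) (nat_lit 1) (nat_lit 4) (nat_lit 352) (nat_lit 205) (nat_lit 163))) (XT.nd (nat_lit 78) (nat_lit 0) (nat_lit 0) (XT.lf (nat_lit 0) (nat_lit 85064562832) (nat_lit 152) (nat_lit 179767773004) (nat_lit 0) (nat_lit 80990173336) (nat_lit 1) (nat_lit 5) (nat_lit 3) (nat_lit 4) (nat_lit 1) (nat_lit 4) (nat_lit 353) (nat_lit 205) (nat_lit 162)) (XT.lf (nat_lit 0) (nat_lit 90305100586) (nat_lit 152) (nat_lit 186542524435) (nat_lit 0) (nat_lit 86203574364) (nat_lit 1) (nat_lit 5) (nat_lit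 3) (nat_lit 4) (nat_lit 1) (nat_lit 4) (nat_lit 354) (nat_lit 205) (nat_lit 161)))) (XT.nd (nat_lit 156) (nat_lit 0) (nat_lit 0) (XT.nd (nat_lit 78) (nat_lit 0) (nat_lit 0) (XT.lf (nat_lit 0) (nat_lit 95796441794) (nat_lit 152) (nat_lit 193676385842) (nat_lit 0) (nat_lit 91669071072) (nat_lit 1) (nat_lit 5) (nat_lit 3) (nat_lit 4) (nat_lit 1) (nat_lit 4) (nat_lit 355) (nat_lit 205) (nat_lit 160)) (XT.lf (nat_lit 0) (nat_lit 101551661079) (nat_lit 152) (nat_lit 201186342610) (nat_lit 0) (nat_lit 97399676547) (nat_lit 1) (nat_lit 5) (nat_lit 3) (nat_lit 4) (nat_lit 1) (nat_lit 4) (nat_lit 356) (nat_lit 205) (nat_lit 159))) (XT.nd (nat_lit 78) (nat_lit 0) (nat_lit 0) (XT.lf (nat_lit 0) (nat_lit 107584461344) (nat_lit 152) (nat_lit 209090275587) (nat_lit 0) (nat_lit 103409035088) (nat_lit 1) (nat_lit 5) (nat_lit 3) (nat_lit 4) (nat_lit 1) (nat_lit 4) (nat_lit 357) (nat_lit 205) (nat_lit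 158)) (XT.nd (nat_lit 78) (nat_lit 0) (nat_lit 0) (XT.lf (nat_lit 0) (nat_lit 113909206398) (nat_lit 152) (nat_lit 217407003662) (nat_lit 0) (nat_lit 109711454692) (nat_lit 1) (nat_lit 5) (nat_lit 3) (nat_lit 4) (nat_lit 1) (nat_lit 4) (nat_lit 358) (nat_lit 205) (nat_lit 157)) (XT.lf (nat_lit 0) (nat_lit 120540955160) (nat_lit 152) (nat_lit 226156328569) (nat_lit 0) (nat_lit 116321941119) (nat_lit 1) (nat_lit 5) (nat_lit 3) (nat_lit 4) (nat_lit 1) (nat_lit 4) (nat_lit 359) (nat_lit 205) (nat_lit 156))))))))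
noncomputable def xc23 : XT := (XT.nd (nat_lit 34320) (nat_lit 0) (nat_lit 0) (XT.nd (nat_lit 33618) (nat_lit 0) (nat_lit 152) (XT.nd (nat_lit 312) (nat_lit 0) (nat_lit 0) (XT.nd (nat_lit 156) (nat_lit 0) (nat_lit 0) (XT.nd (nat_lit 78) (nat_lit 0) (nat_lit 0) (XT.lf (nat_lit 0) (nat_lit 127495497506) (nat_lit 152) (nat_lit 235359082033) (nat_lit 0) (nat_lit 123256233623) (nat_lit 1) (nat_lit 5) (nat_lit 3) (nat_lit 4) (nat_lit 1) (nat_lit 4) (nat_lit 360) (nat_lit 205) (nat_lit 155)) (XT.lf (nat_lit 0) (nat_lit 134789391871) (nat_lit 152) (nat_lit 245037175372) (nat_lit 0) (nat_lit 130530842424) (nat_lit 1) (nat_lit 5) (nat_lit 3) (nat_lit 4) (nat_lit 1) (nat_lit 4) (nat_lit 361) (nat_lit 205) (nat_lit 154))) (XT.nd (nat_lit 78) (nat_lit 0) (nat_lit 0) (XT.lf (nat_lit 0) (nat_lit 142440004670) (nat_lit 152) (nat_lit 255213651666) (nat_lit 0) (nat_lit 138163088019) (nat_lit 1) (nat_lit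 5) (nat_lit 3) (nat_lit 4) (nat_lit 1) (nat_lit 4) (nat_lit 362) (nat_lit 205) (nat_lit 153)) (XT.lf (nat_lit 0) (nat_lit 150465551648) (nat_lit 152) (nat_lit 265912740620) (nat_lit 0) (nat_lit 146171142422) (nat_lit 1) (nat_lit 5) (nat_lit 3) (nat_lit 4) (nat_lit 1) (nat_lit 4) (nat_lit 363) (nat_lit 205) (nat_lit 152)))) (XT.nd (nat_lit 33150) (nat_lit 0) (nat_lit 228) (XT.nd (nat_lit 78) (nat_lit 0) (nat_lit 0) (XT.lf (nat_lit 0) (nat_lit 158885141249) (nat_lit 152) (nat_lit 277159916255) (nat_lit 0) (nat_lit 154574072428) (nat_lit 1) (nat_lit 5) (nat_lit 3) (nat_lit 4) (nat_lit 1) (nat_lit 4) (nat_lit 364) (nat_lit 205) (nat_lit 151)) (XT.lf (nat_lit 0) (nat_lit 167718820117) (nat_lit 152) (nat_lit 288981957561) (nat_lit 0) (nat_lit 163391885015) (nat_lit 1) (nat_lit 5) (nat_lit 3) (nat_lit 4) (nat_lit 1) (nat_lit 4) (nat_lit 365) (nat_lit 205) (nat_lit 150))) (XT.nd (nat_lit 78)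 (nat_lit 0) (nat_lit 0) (XT.lf (nat_lit 0) (nat_lit 7953264357) (nat_lit 152) (nat_lit 4289817074) (nat_lit 0) (nat_lit 7953264357) (nat_lit 4) (nat_lit 5) (nat_lit 6) (nat_lit 4) (nat_lit 4) (nat_lit 4) (nat_lit 308) (nat_lit 206) (nat_lit 206)) (XT.lf (nat_lit 0) (nat_lit 19242318347) (nat_lit 152) (nat_lit 4027857734) (nat_lit 0) (nat_lit 18998494658) (nat_lit 4) (nat_lit 5) (nat_lit 6) (nat_lit 4) (nat_lit 4) (nat_lit 4) (nat_lit 309) (nat_lit 206) (nat_lit 205))))) (XT.nd (nat_lit 312) (nat_lit 0) (nat_lit 0) (XT.nd (nat_lit 156) (nat_lit 0) (nat_lit 0) (XT.nd (nat_lit 78) (nat_lit 0) (nat_lit 0) (XT.lf (nat_lit 0) (nat_lit 614325607) (nat_lit 76) (nat_lit 22052102060) (nat_lit 76) (nat_lit 21576065335) (nat_lit 3) (nat_lit 4) (nat_lit 4) (nat_lit 5) (nat_lit 4) (nat_lit 4) (nat_lit 310) (nat_lit 206) (nat_lit 204)) (XT.lf (nat_lit 0) (nat_lit 5474141836) (nat_lit 76) (nat_lit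 20769537307) (nat_lit 76) (nat_lit 20072345309) (nat_lit 3) (nat_lit 4) (nat_lit 4) (nat_lit 5) (nat_lit 4) (nat_lit 4) (nat_lit 311) (nat_lit 206) (nat_lit 203))) (XT.nd (nat_lit 78) (nat_lit 0) (nat_lit 0) (XT.lf (nat_lit 0) (nat_lit 10429982776) (nat_lit 76) (nat_lit 19487641816) (nat_lit 76) (nat_lit 18579825750) (nat_lit 3) (nat_lit 4) (nat_lit 4) (nat_lit 5) (nat_lit 4) (nat_lit 4) (nat_lit 312) (nat_lit 206) (nat_lit 202)) (XT.lf (nat_lit 0) (nat_lit 15493648048) (nat_lit 76) (nat_lit 18203363457) (nat_lit 76) (nat_lit 17094953038) (nat_lit 3) (nat_lit 4) (nat_lit 4) (nat_lit 5) (nat_lit 4) (nat_lit 4) (nat_lit 313) (nat_lit 206) (nat_lit 201)))) (XT.nd (nat_lit 156) (nat_lit 0) (nat_lit 0) (XT.nd (nat_lit 78) (nat_lit 0) (nat_lit 0) (XT.lf (nat_lit 0) (nat_lit 20677193998) (nat_lit 76) (nat_lit 16913644422) (nat_lit 76) (nat_lit 15614191764) (nat_lit 3) (nat_lit 4) (nat_lit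 4) (nat_lit 5) (nat_lit 4) (nat_lit 4) (nat_lit 314) (nat_lit 206) (nat_lit 200)) (XT.lf (nat_lit 0) (nat_lit 25992962403) (nat_lit 76) (nat_lit 15615413952) (nat_lit 76) (nat_lit 14134016304) (nat_lit 3) (nat_lit 4) (nat_lit 4) (nat_lit 5) (nat_lit 4) (nat_lit 4) (nat_lit 315) (nat_lit 206) (nat_lit 199))) (XT.nd (nat_lit 78) (nat_lit 0) (nat_lit 0) (XT.lf (nat_lit 0) (nat_lit 31453609853) (nat_lit 76) (nat_lit 14305581022) (nat_lit 76) (nat_lit 12650902431) (nat_lit 3) (nat_lit 4) (nat_lit 4) (nat_lit 5) (nat_lit 4) (nat_lit 4) (nat_lit 316) (nat_lit 206) (nat_lit 198)) (XT.nd (nat_lit 78) (nat_lit 0) (nat_lit 0) (XT.lf (nat_lit 0) (nat_lit 37072137891) (nat_lit 76) (nat_lit 12981026984) (nat_lit 76) (nat_lit 11161318923) (nat_lit 3) (nat_lit 4) (nat_lit 4) (nat_lit 5) (nat_lit 4) (nat_lit 4) (nat_lit 317) (nat_lit 206) (nat_lit 197)) (XT.lf (nat_lit 0) (nat_lit 42861923963) (nat_lit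 76) (nat_lit 11638598135) (nat_lit 76) (nat_lit 9661719151) (nat_lit 3) (nat_lit 4) (nat_lit 4) (nat_lit 5) (nat_lit 4) (nat_lit 4) (nat_lit 318) (nat_lit 206) (nat_lit 196))))))) (XT.nd (nat_lit 702) (nat_lit 0) (nat_lit 0) (XT.nd (nat_lit 312) (nat_lit 152) (nat_lit 0) (XT.nd (nat_lit 156) (nat_lit 0) (nat_lit 0) (XT.nd (nat_lit 78) (nat_lit 0) (nat_lit 0) (XT.lf (nat_lit 0) (nat_lit 48836753276) (nat_lit 76) (nat_lit 10275098218) (nat_lit 76) (nat_lit 8148532640) (nat_lit 3) (nat_lit 4) (nat_lit 4) (nat_lit 5) (nat_lit 4) (nat_lit 4) (nat_lit 319) (nat_lit 206) (nat_lit 195)) (XT.lf (nat_lit 0) (nat_lit 55010851612) (nat_lit 76) (nat_lit 8887280803) (nat_lit 76) (nat_lit 6618156565) (nat_lit 3) (nat_lit 4) (nat_lit 4) (nat_lit 5) (nat_lit 4) (nat_lit 4) (nat_lit 320) (nat_lit 206) (nat_lit 194))) (XT.nd (nat_lit 78) (nat_lit 0) (nat_lit 0) (XT.lf (nat_lit 0) (nat_lit 61398919207)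 (nat_lit 76) (nat_lit 7471841565) (nat_lit 76) (nat_lit 5066947173) (nat_lit 3) (nat_lit 4) (nat_lit 4) (nat_lit 5) (nat_lit 4) (nat_lit 4) (nat_lit 321) (nat_lit 206) (nat_lit 193)) (XT.lf (nat_lit 0) (nat_lit 68016165744) (nat_lit 76) (nat_lit 6025410408) (nat_lit 76) (nat_lit 3491211109) (nat_lit 3) (nat_lit 4) (nat_lit 4) (nat_lit 5) (nat_lit 4) (nat_lit 4) (nat_lit 322) (nat_lit 206) (nat_lit 192)))) (XT.nd (nat_lit 156) (nat_lit 152) (nat_lit 0) (XT.nd (nat_lit 78) (nat_lit 0) (nat_lit 0) (XT.lf (nat_lit 0) (nat_lit 74878346573) (nat_lit 76) (nat_lit 4544543450) (nat_lit 76) (nat_lit 1887196620) (nat_lit 3) (nat_lit 4) (nat_lit 4) (nat_lit 5) (nat_lit 4) (nat_lit 4) (nat_lit 323) (nat_lit 206) (nat_lit 191)) (XT.lf (nat_lit 0) (nat_lit 82001800220) (nat_lit 76) (nat_lit 3025714817) (nat_lit 76) (nat_lit 251084624) (nat_lit 3) (nat_lit 4) (nat_lit 4) (nat_lit 5) (nat_lit 4) (nat_lit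 4) (nat_lit 324) (nat_lit 206) (nat_lit 190))) (XT.nd (nat_lit 78) (nat_lit 76) (nat_lit 0) (XT.lf (nat_lit 0) (nat_lit 1375538856) (nat_lit 152) (nat_lit 66473977) (nat_lit 76) (nat_lit 88004653016) (nat_lit 2) (nat_lit 5) (nat_lit 4) (nat_lit 5) (nat_lit 3) (nat_lit 4) (nat_lit 325) (nat_lit 206) (nat_lit 189)) (XT.nd (nat_lit 78) (nat_lit 0) (nat_lit 0) (XT.lf (nat_lit 0) (nat_lit 3088676544) (nat_lit 152) (nat_lit 90495146228) (nat_lit 0) (nat_lit 238478352) (nat_lit 1) (nat_lit 5) (nat_lit 3) (nat_lit 4) (nat_lit 1) (nat_lit 4) (nat_lit 326) (nat_lit 206) (nat_lit 188)) (XT.lf (nat_lit 0) (nat_lit 4870352699) (nat_lit 152) (nat_lit 91623606325) (nat_lit 0) (nat_lit 1923665194) (nat_lit 1) (nat_lit 5) (nat_lit 3) (nat_lit 4) (nat_lit 1) (nat_lit 4) (nat_lit 327) (nat_lit 206) (nat_lit 187)))))) (XT.nd (nat_lit 312) (nat_lit 0) (nat_lit 0) (XT.nd (nat_lit 156) (nat_lit 0) (nat_lit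 0) (XT.nd (nat_lit 78) (nat_lit 0) (nat_lit 0) (XT.lf (nat_lit 0) (nat_lit 6701205808) (nat_lit 152) (nat_lit 92880927030) (nat_lit 0) (nat_lit 3662623720) (nat_lit 1) (nat_lit 5) (nat_lit 3) (nat_lit 4) (nat_lit 1) (nat_lit 4) (nat_lit 328) (nat_lit 206) (nat_lit 186)) (XT.lf (nat_lit 0) (nat_lit 8585595045) (nat_lit 152) (nat_lit 94270101963) (nat_lit 0) (nat_lit 5459494305) (nat_lit 1) (nat_lit 5) (nat_lit 3) (nat_lit 4) (nat_lit 1) (nat_lit 4) (nat_lit 329) (nat_lit 206) (nat_lit 185))) (XT.nd (nat_lit 78) (nat_lit 0) (nat_lit 0) (XT.lf (nat_lit 0) (nat_lit 10528007051) (nat_lit 152) (nat_lit 95794438684) (nat_lit 0) (nat_lit 7318555215) (nat_lit 1) (nat_lit 5) (nat_lit 3) (nat_lit 4) (nat_lit 1) (nat_lit 4) (nat_lit 330) (nat_lit 206) (nat_lit 184)) (XT.lf (nat_lit 0) (nat_lit 12533066616) (nat_lit 152) (nat_lit 97457566565) (nat_lit 0) (nat_lit 9244232783) (nat_lit 1) (nat_lit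 5) (nat_lit 3) (nat_lit 4) (nat_lit 1) (nat_lit 4) (nat_lit 331) (nat_lit 206) (nat_lit 183)))) (XT.nd (nat_lit 156) (nat_lit 0) (nat_lit 0) (XT.nd (nat_lit 78) (nat_lit 0) (nat_lit 0) (XT.lf (nat_lit 0) (nat_lit 14605547692) (nat_lit 152) (nat_lit 99263445436) (nat_lit 0) (nat_lit 11241111958) (nat_lit 1) (nat_lit 5) (nat_lit 3) (nat_lit 4) (nat_lit 1) (nat_lit 4) (nat_lit 332) (nat_lit 206) (nat_lit 182)) (XT.lf (nat_lit 0) (nat_lit 16750384758) (nat_lit 152) (nat_lit 101216375007) (nat_lit 0) (nat_lit 13313947213) (nat_lit 1) (nat_lit 5) (nat_lit 3) (nat_lit 4) (nat_lit 1) (nat_lit 4) (nat_lit 333) (nat_lit 206) (nat_lit 181))) (XT.nd (nat_lit 78) (nat_lit 0) (nat_lit 0) (XT.lf (nat_lit 0) (nat_lit 18972684568) (nat_lit 152) (nat_lit 103321005111) (nat_lit 0) (nat_lit 15467673870) (nat_lit 1) (nat_lit 5) (nat_lit 3) (nat_lit 4) (nat_lit 1) (nat_lit 4) (nat_lit 334) (nat_lit 206)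 (nat_lit 180)) (XT.nd (nat_lit 78) (nat_lit 0) (nat_lit 0) (XT.lf (nat_lit 0) (nat_lit 21277738313) (nat_lit 152) (nat_lit 105582346772) (nat_lit 0) (nat_lit 17707419850) (nat_lit 1) (nat_lit 5) (nat_lit 3) (nat_lit 4) (nat_lit 1) (nat_lit 4) (nat_lit 335) (nat_lit 206) (nat_lit 179)) (XT.lf (nat_lit 0) (nat_lit 23671034216) (nat_lit 152) (nat_lit 108005784137) (nat_lit 0) (nat_lit 20038517881) (nat_lit 1) (nat_lit 5) (nat_lit 3) (nat_lit 4) (nat_lit 1) (nat_lit 4) (nat_lit 336) (nat_lit 206) (nat_lit 178))))))))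
noncomputable def xc24 : XT := (XT.nd (nat_lit 1326) (nat_lit 0) (nat_lit 0) (XT.nd (nat_lit 624) (nat_lit 0) (nat_lit 0) (XT.nd (nat_lit 312) (nat_lit 0) (nat_lit 0) (XT.nd (nat_lit 156) (nat_lit 0) (nat_lit 0) (XT.nd (nat_lit 78) (nat_lit 0) (nat_lit 0) (XT.lf (nat_lit 0) (nat_lit 26158270600) (nat_lit 152) (nat_lit 110597087294) (nat_lit 0) (nat_lit 22466518197) (nat_lit 1) (nat_lit 5) (nat_lit 3) (nat_lit 4) (nat_lit 1) (nat_lit 4) (nat_lit 337) (nat_lit 206) (nat_lit 177)) (XT.lf (nat_lit 0) (nat_lit 28745369456) (nat_lit 152) (nat_lit 113362426014) (nat_lit 0) (nat_lit 24997201751) (nat_lit 1) (nat_lit 5) (nat_lit 3) (nat_lit 4) (nat_lit 1) (nat_lit 4) (nat_lit 338) (nat_lit 206) (nat_lit 176))) (XT.nd (nat_lit 78) (nat_lit 0) (nat_lit 0) (XT.lf (nat_lit 0) (nat_lit 31438490545) (nat_lit 152) (nat_lit 116308384436) (nat_lit 0) (nat_lit 27636593979) (nat_lit 1) (nat_lit 5) (nat_lit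 3) (nat_lit 4) (nat_lit 1) (nat_lit 4) (nat_lit 339) (nat_lit 206) (nat_lit 175)) (XT.lf (nat_lit 0) (nat_lit 34244046059) (nat_lit 152) (nat_lit 119441976746) (nat_lit 0) (nat_lit 30390979150) (nat_lit 1) (nat_lit 5) (nat_lit 3) (nat_lit 4) (nat_lit 1) (nat_lit 4) (nat_lit 340) (nat_lit 206) (nat_lit 174)))) (XT.nd (nat_lit 156) (nat_lit 0) (nat_lit 0) (XT.nd (nat_lit 78) (nat_lit 0) (nat_lit 0) (XT.lf (nat_lit 0) (nat_lit 37168715891) (nat_lit 152) (nat_lit 122770663879) (nat_lit 0) (nat_lit 33266915323) (nat_lit 1) (nat_lit 5) (nat_lit 3) (nat_lit 4) (nat_lit 1) (nat_lit 4) (nat_lit 341) (nat_lit 206) (nat_lit 173)) (XT.lf (nat_lit 0) (nat_lit 40219463542) (nat_lit 152) (nat_lit 126302371281) (nat_lit 0) (nat_lit 36271249965) (nat_lit 1) (nat_lit 5) (nat_lit 3) (nat_lit 4) (nat_lit 1) (nat_lit 4) (nat_lit 342) (nat_lit 206) (nat_lit 172))) (XT.nd (nat_lit 78) (nat_lit 0) (nat_lit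 0) (XT.lf (nat_lit 0) (nat_lit 43403552697) (nat_lit 152) (nat_lit 130045507778) (nat_lit 0) (nat_lit 39411136253) (nat_lit 1) (nat_lit 5) (nat_lit 3) (nat_lit 4) (nat_lit 1) (nat_lit 4) (nat_lit 343) (nat_lit 206) (nat_lit 171)) (XT.lf (nat_lit 0) (nat_lit 46728564520) (nat_lit 152) (nat_lit 134008985600) (nat_lit 0) (nat_lit 42694050109) (nat_lit 1) (nat_lit 5) (nat_lit 3) (nat_lit 4) (nat_lit 1) (nat_lit 4) (nat_lit 344) (nat_lit 206) (nat_lit 170))))) (XT.nd (nat_lit 312) (nat_lit 0) (nat_lit 0) (XT.nd (nat_lit 156) (nat_lit 0) (nat_lit 0) (XT.nd (nat_lit 78) (nat_lit 0) (nat_lit 0) (XT.lf (nat_lit 0) (nat_lit 50202415706) (nat_lit 152) (nat_lit 138202241600) (nat_lit 0) (nat_lit 46127807992) (nat_lit 1) (nat_lit 5) (nat_lit 3) (nat_lit 4) (nat_lit 1) (nat_lit 4) (nat_lit 345) (nat_lit 206) (nat_lit 169)) (XT.lf (nat_lit 0) (nat_lit 53833377329) (nat_lit 152) (nat_lit 142635259719)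 (nat_lit 0) (nat_lit 49720585518) (nat_lit 1) (nat_lit 5) (nat_lit 3) (nat_lit 4) (nat_lit 1) (nat_lit 4) (nat_lit 346) (nat_lit 206) (nat_lit 168))) (XT.nd (nat_lit 78) (nat_lit 0) (nat_lit 0) (XT.lf (nat_lit 0) (nat_lit 57630094536) (nat_lit 152) (nat_lit 147318594764) (nat_lit 0) (nat_lit 53480936917) (nat_lit 1) (nat_lit 5) (nat_lit 3) (nat_lit 4) (nat_lit 1) (nat_lit 4) (nat_lit 347) (nat_lit 206) (nat_lit 167)) (XT.lf (nat_lit 0) (nat_lit 61601607130) (nat_lit 152) (nat_lit 152263397531) (nat_lit 0) (nat_lit 57417815409) (nat_lit 1) (nat_lit 5) (nat_lit 3) (nat_lit 4) (nat_lit 1) (nat_lit 4) (nat_lit 348) (nat_lit 206) (nat_lit 166)))) (XT.nd (nat_lit 156) (nat_lit 0) (nat_lit 0) (XT.nd (nat_lit 78) (nat_lit 0) (nat_lit 0) (XT.lf (nat_lit 0) (nat_lit 65757371093) (nat_lit 152) (nat_lit 157481441361) (nat_lit 0) (nat_lit 61540594513) (nat_lit 1) (nat_lit 5) (nat_lit 3) (nat_lit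 4) (nat_lit 1) (nat_lit 4) (nat_lit 349) (nat_lit 206) (nat_lit 165)) (XT.lf (nat_lit 0) (nat_lit 70107281102) (nat_lit 152) (nat_lit 162985150168) (nat_lit 0) (nat_lit 65859090370) (nat_lit 1) (nat_lit 5) (nat_lit 3) (nat_lit 4) (nat_lit 1) (nat_lit 4) (nat_lit 350) (nat_lit 206) (nat_lit 164))) (XT.nd (nat_lit 78) (nat_lit 0) (nat_lit 0) (XT.lf (nat_lit 0) (nat_lit 74661694084) (nat_lit 152) (nat_lit 168787628020) (nat_lit 0) (nat_lit 70383585113) (nat_lit 1) (nat_lit 5) (nat_lit 3) (nat_lit 4) (nat_lit 1) (nat_lit 4) (nat_lit 351) (nat_lit 206) (nat_lit 163)) (XT.nd (nat_lit 78) (nat_lit 0) (nat_lit 0) (XT.lf (nat_lit 0) (nat_lit 79431453881) (nat_lit 152) (nat_lit 174902690341) (nat_lit 0) (nat_lit 75124851348) (nat_lit 1) (nat_lit 5) (nat_lit 3) (nat_lit 4) (nat_lit 1) (nat_lit 4) (nat_lit 352) (nat_lit 206) (nat_lit 162)) (XT.lf (nat_lit 0) (nat_lit 84427917063) (nat_lit 152)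 (nat_lit 181344896802) (nat_lit 0) (nat_lit 80094177805) (nat_lit 1) (nat_lit 5) (nat_lit 3) (nat_lit 4) (nat_lit 1) (nat_lit 4) (nat_lit 353) (nat_lit 206) (nat_lit 161))))))) (XT.nd (nat_lit 702) (nat_lit 0) (nat_lit 0) (XT.nd (nat_lit 312) (nat_lit 0) (nat_lit 0) (XT.nd (nat_lit 156) (nat_lit 0) (nat_lit 0) (XT.nd (nat_lit 78) (nat_lit 0) (nat_lit 0) (XT.lf (nat_lit 0) (nat_lit 89662979971) (nat_lit 152) (nat_lit 188129585991) (nat_lit 0) (nat_lit 85303396213) (nat_lit 1) (nat_lit 5) (nat_lit 3) (nat_lit 4) (nat_lit 1) (nat_lit 4) (nat_lit 354) (nat_lit 206) (nat_lit 160)) (XT.lf (nat_lit 0) (nat_lit 95149107041) (nat_lit 152) (nat_lit 195272911930) (nat_lit 0) (nat_lit 90764909473) (nat_lit 1) (nat_lit 5) (nat_lit 3) (nat_lit 4) (nat_lit 1) (nat_lit 4) (nat_lit 355) (nat_lit 206) (nat_lit 159))) (XT.nd (nat_lit 78) (nat_lit 0) (nat_lit 0) (XT.lf (nat_lit 0) (nat_lit 100899360480)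 (nat_lit 152) (nat_lit 202791882537) (nat_lit 0) (nat_lit 96491721188) (nat_lit 1) (nat_lit 5) (nat_lit 3) (nat_lit 4) (nat_lit 1) (nat_lit 4) (nat_lit 356) (nat_lit 206) (nat_lit 158)) (XT.lf (nat_lit 0) (nat_lit 106927431367) (nat_lit 152) (nat_lit 210704400124) (nat_lit 0) (nat_lit 102497466625) (nat_lit 1) (nat_lit 5) (nat_lit 3) (nat_lit 4) (nat_lit 1) (nat_lit 4) (nat_lit 357) (nat_lit 206) (nat_lit 157)))) (XT.nd (nat_lit 156) (nat_lit 0) (nat_lit 0) (XT.nd (nat_lit 78) (nat_lit 0) (nat_lit 0) (XT.lf (nat_lit 0) (nat_lit 113247672253) (nat_lit 152) (nat_lit 219029304017) (nat_lit 0) (nat_lit 108796445176) (nat_lit 1) (nat_lit 5) (nat_lit 3) (nat_lit 4) (nat_lit 1) (nat_lit 4) (nat_lit 358) (nat_lit 206) (nat_lit 156)) (XT.lf (nat_lit 0) (nat_lit 119875131330) (nat_lit 152) (nat_lit 227786415418) (nat_lit 0) (nat_lit 115403654411) (nat_lit 1) (nat_lit 5) (nat_lit 3) (nat_lit 4)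 (nat_lit 1) (nat_lit 4) (nat_lit 359) (nat_lit 206) (nat_lit 155))) (XT.nd (nat_lit 78) (nat_lit 0) (nat_lit 0) (XT.lf (nat_lit 0) (nat_lit 126825588262) (nat_lit 152) (nat_lit 236996584590) (nat_lit 0) (nat_lit 122334825779) (nat_lit 1) (nat_lit 5) (nat_lit 3) (nat_lit 4) (nat_lit 1) (nat_lit 4) (nat_lit 360) (nat_lit 206) (nat_lit 154)) (XT.nd (nat_lit 78) (nat_lit 0) (nat_lit 0) (XT.lf (nat_lit 0) (nat_lit 134115591757) (nat_lit 152) (nat_lit 246681740509) (nat_lit 0) (nat_lit 129606462070) (nat_lit 1) (nat_lit 5) (nat_lit 3) (nat_lit 4) (nat_lit 1) (nat_lit 4) (nat_lit 361) (nat_lit 206) (nat_lit 153)) (XT.lf (nat_lit 0) (nat_lit 141762498965) (nat_lit 152) (nat_lit 256864943069) (nat_lit 0) (nat_lit 137235876703) (nat_lit 1) (nat_lit 5) (nat_lit 3) (nat_lit 4) (nat_lit 1) (nat_lit 4) (nat_lit 362) (nat_lit 206) (nat_lit 152)))))) (XT.nd (nat_lit 33150) (nat_lit 0) (nat_lit 152)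 (XT.nd (nat_lit 156) (nat_lit 0) (nat_lit 0) (XT.nd (nat_lit 78) (nat_lit 0) (nat_lit 0) (XT.lf (nat_lit 0) (nat_lit 149784516809) (nat_lit 152) (nat_lit 267570437990) (nat_lit 0) (nat_lit 145241234951) (nat_lit 1) (nat_lit 5) (nat_lit 3) (nat_lit 4) (nat_lit 1) (nat_lit 4) (nat_lit 363) (nat_lit 206) (nat_lit 151)) (XT.lf (nat_lit 0) (nat_lit 158200745330) (nat_lit 152) (nat_lit 278823714547) (nat_lit 0) (nat_lit 153641597192) (nat_lit 1) (nat_lit 5) (nat_lit 3) (nat_lit 4) (nat_lit 1) (nat_lit 4) (nat_lit 364) (nat_lit 206) (nat_lit 150))) (XT.nd (nat_lit 32916) (nat_lit 0) (nat_lit 228) (XT.lf (nat_lit 0) (nat_lit 167031223169) (nat_lit 152) (nat_lit 290651566254) (nat_lit 0) (nat_lit 162456964287) (nat_lit 1) (nat_lit 5) (nat_lit 3) (nat_lit 4) (nat_lit 1) (nat_lit 4) (nat_lit 365) (nat_lit 206) (nat_lit 149)) (XT.lf (nat_lit 0) (nat_lit 4871454089) (nat_lit 152) (nat_lit 8714904516)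 (nat_lit 0) (nat_lit 4871454089) (nat_lit 4) (nat_lit 5) (nat_lit 6) (nat_lit 4) (nat_lit 4) (nat_lit 4) (nat_lit 306) (nat_lit 207) (nat_lit 207)))) (XT.nd (nat_lit 156) (nat_lit 76) (nat_lit 0) (XT.nd (nat_lit 78) (nat_lit 0) (nat_lit 0) (XT.lf (nat_lit 0) (nat_lit 12897539944) (nat_lit 152) (nat_lit 13071503455) (nat_lit 0) (nat_lit 12641525071) (nat_lit 4) (nat_lit 5) (nat_lit 6) (nat_lit 4) (nat_lit 4) (nat_lit 4) (nat_lit 307) (nat_lit 207) (nat_lit 206)) (XT.lf (nat_lit 0) (nat_lit 16117439103) (nat_lit 152) (nat_lit 8659968957) (nat_lit 0) (nat_lit 15617600542) (nat_lit 4) (nat_lit 5) (nat_lit 6) (nat_lit 4) (nat_lit 4) (nat_lit 4) (nat_lit 308) (nat_lit 207) (nat_lit 205))) (XT.nd (nat_lit 78) (nat_lit 76) (nat_lit 0) (XT.lf (nat_lit 0) (nat_lit 19410272082) (nat_lit 152) (nat_lit 4184701884) (nat_lit 0) (nat_lit 18678220485) (nat_lit 4) (nat_lit 5) (nat_lit 6) (nat_lit 4)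 (nat_lit 4) (nat_lit 4) (nat_lit 309) (nat_lit 207) (nat_lit 204)) (XT.nd (nat_lit 78) (nat_lit 0) (nat_lit 0) (XT.lf (nat_lit 0) (nat_lit 377020162) (nat_lit 76) (nat_lit 22412745140) (nat_lit 76) (nat_lit 21459538270) (nat_lit 3) (nat_lit 4) (nat_lit 4) (nat_lit 5) (nat_lit 4) (nat_lit 4) (nat_lit 310) (nat_lit 207) (nat_lit 203)) (XT.lf (nat_lit 0) (nat_lit 5165145610) (nat_lit 76) (nat_lit 21161788924) (nat_lit 76) (nat_lit 19997957984) (nat_lit 3) (nat_lit 4) (nat_lit 4) (nat_lit 5) (nat_lit 4) (nat_lit 4) (nat_lit 311) (nat_lit 207) (nat_lit 202))))))))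
noncomputable def xc25 : XT := (XT.nd (nat_lit 1326) (nat_lit 0) (nat_lit 0) (XT.nd (nat_lit 624) (nat_lit 152) (nat_lit 0) (XT.nd (nat_lit 312) (nat_lit 0) (nat_lit 0) (XT.nd (nat_lit 156) (nat_lit 0) (nat_lit 0) (XT.nd (nat_lit 78) (nat_lit 0) (nat_lit 0) (XT.lf (nat_lit 0) (nat_lit 10052709616) (nat_lit 76) (nat_lit 19909996802) (nat_lit 76) (nat_lit 18545571511) (nat_lit 3) (nat_lit 4) (nat_lit 4) (nat_lit 5) (nat_lit 4) (nat_lit 4) (nat_lit 312) (nat_lit 207) (nat_lit 201)) (XT.lf (nat_lit 0) (nat_lit 15051349236) (nat_lit 76) (nat_lit 18654388316) (nat_lit 76) (nat_lit 17098920786) (nat_lit 3) (nat_lit 4) (nat_lit 4) (nat_lit 5) (nat_lit 4) (nat_lit 4) (nat_lit 313) (nat_lit 207) (nat_lit 200))) (XT.nd (nat_lit 78) (nat_lit 0) (nat_lit 0) (XT.lf (nat_lit 0) (nat_lit 20172965995) (nat_lit 76) (nat_lit 17391973924) (nat_lit 76) (nat_lit 15654561403) (nat_lit 3) (nat_lit 4) (nat_lit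 4) (nat_lit 5) (nat_lit 4) (nat_lit 4) (nat_lit 314) (nat_lit 207) (nat_lit 199)) (XT.lf (nat_lit 0) (nat_lit 25429754217) (nat_lit 76) (nat_lit 16119747875) (nat_lit 76) (nat_lit 14209054412) (nat_lit 3) (nat_lit 4) (nat_lit 4) (nat_lit 5) (nat_lit 4) (nat_lit 4) (nat_lit 315) (nat_lit 207) (nat_lit 198)))) (XT.nd (nat_lit 156) (nat_lit 0) (nat_lit 0) (XT.nd (nat_lit 78) (nat_lit 0) (nat_lit 0) (XT.lf (nat_lit 0) (nat_lit 30834230064) (nat_lit 76) (nat_lit 14834681062) (nat_lit 76) (nat_lit 12758958128) (nat_lit 3) (nat_lit 4) (nat_lit 4) (nat_lit 5) (nat_lit 4) (nat_lit 4) (nat_lit 316) (nat_lit 207) (nat_lit 197)) (XT.lf (nat_lit 0) (nat_lit 36399261338) (nat_lit 76) (nat_lit 13533713799) (nat_lit 76) (nat_lit 11300819943) (nat_lit 3) (nat_lit 4) (nat_lit 4) (nat_lit 5) (nat_lit 4) (nat_lit 4) (nat_lit 317) (nat_lit 207) (nat_lit 196))) (XT.nd (nat_lit 78) (nat_lit 0) (nat_lit 0)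 (XT.lf (nat_lit 0) (nat_lit 42138098111) (nat_lit 76) (nat_lit 12213748548) (nat_lit 76) (nat_lit 9831168097) (nat_lit 3) (nat_lit 4) (nat_lit 4) (nat_lit 5) (nat_lit 4) (nat_lit 4) (nat_lit 318) (nat_lit 207) (nat_lit 195)) (XT.lf (nat_lit 0) (nat_lit 48064404281) (nat_lit 76) (nat_lit 10871642532) (nat_lit 76) (nat_lit 8346503421) (nat_lit 3) (nat_lit 4) (nat_lit 4) (nat_lit 5) (nat_lit 4) (nat_lit 4) (nat_lit 319) (nat_lit 207) (nat_lit 194))))) (XT.nd (nat_lit 312) (nat_lit 152) (nat_lit 0) (XT.nd (nat_lit 156) (nat_lit 0) (nat_lit 0) (XT.nd (nat_lit 78) (nat_lit 0) (nat_lit 0) (XT.lf (nat_lit 0) (nat_lit 54192290101) (nat_lit 76) (nat_lit 9504200262) (nat_lit 76) (nat_lit 6843290998) (nat_lit 3) (nat_lit 4) (nat_lit 4) (nat_lit 5) (nat_lit 4) (nat_lit 4) (nat_lit 320) (nat_lit 207) (nat_lit 193)) (XT.lf (nat_lit 0) (nat_lit 60536345775) (nat_lit 76) (nat_lit 8108165923) (nat_lit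 76) (nat_lit 5317951752) (nat_lit 3) (nat_lit 4) (nat_lit 4) (nat_lit 5) (nat_lit 4) (nat_lit 4) (nat_lit 321) (nat_lit 207) (nat_lit 192))) (XT.nd (nat_lit 78) (nat_lit 0) (nat_lit 0) (XT.lf (nat_lit 0) (nat_lit 67111676198) (nat_lit 76) (nat_lit 6680215624) (nat_lit 76) (nat_lit 3766853921) (nat_lit 3) (nat_lit 4) (nat_lit 4) (nat_lit 5) (nat_lit 4) (nat_lit 4) (nat_lit 322) (nat_lit 207) (nat_lit 191)) (XT.lf (nat_lit 0) (nat_lit 73933936918) (nat_lit 76) (nat_lit 5216949482) (nat_lit 76) (nat_lit 2186304416) (nat_lit 3) (nat_lit 4) (nat_lit 4) (nat_lit 5) (nat_lit 4) (nat_lit 4) (nat_lit 323) (nat_lit 207) (nat_lit 190)))) (XT.nd (nat_lit 156) (nat_lit 76) (nat_lit 0) (XT.nd (nat_lit 78) (nat_lit 76) (nat_lit 0) (XT.lf (nat_lit 0) (nat_lit 81019371413) (nat_lit 76) (nat_lit 3714883530) (nat_lit 76) (nat_lit 572540024) (nat_lit 3) (nat_lit 4) (nat_lit 4) (nat_lit 5) (nat_lit 4) (nat_lit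 4) (nat_lit 324) (nat_lit 207) (nat_lit 189)) (XT.lf (nat_lit 0) (nat_lit 1043769807) (nat_lit 152) (nat_lit 1108994868) (nat_lit 76) (nat_lit 87323403211) (nat_lit 2) (nat_lit 5) (nat_lit 4) (nat_lit 5) (nat_lit 3) (nat_lit 4) (nat_lit 325) (nat_lit 207) (nat_lit 188))) (XT.nd (nat_lit 78) (nat_lit 0) (nat_lit 0) (XT.lf (nat_lit 0) (nat_lit 2217882120) (nat_lit 76) (nat_lit 498175866) (nat_lit 152) (nat_lit 91137812107) (nat_lit 1) (nat_lit 5) (nat_lit 2) (nat_lit 5) (nat_lit 3) (nat_lit 4) (nat_lit 326) (nat_lit 207) (nat_lit 187)) (XT.nd (nat_lit 78) (nat_lit 0) (nat_lit 0) (XT.lf (nat_lit 0) (nat_lit 4470489462) (nat_lit 152) (nat_lit 92792005566) (nat_lit 0) (nat_lit 1188083685) (nat_lit 1) (nat_lit 5) (nat_lit 3) (nat_lit 4) (nat_lit 1) (nat_lit 4) (nat_lit 327) (nat_lit 207) (nat_lit 186)) (XT.lf (nat_lit 0) (nat_lit 6282802801) (nat_lit 152) (nat_lit 94082979048) (nat_lit 0)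 (nat_lit 2912878373) (nat_lit 1) (nat_lit 5) (nat_lit 3) (nat_lit 4) (nat_lit 1) (nat_lit 4) (nat_lit 328) (nat_lit 207) (nat_lit 185))))))) (XT.nd (nat_lit 702) (nat_lit 0) (nat_lit 0) (XT.nd (nat_lit 312) (nat_lit 0) (nat_lit 0) (XT.nd (nat_lit 156) (nat_lit 0) (nat_lit 0) (XT.nd (nat_lit 78) (nat_lit 0) (nat_lit 0) (XT.lf (nat_lit 0) (nat_lit 8149535115) (nat_lit 152) (nat_lit 95504204245) (nat_lit 0) (nat_lit 4696259590) (nat_lit 1) (nat_lit 5) (nat_lit 3) (nat_lit 4) (nat_lit 1) (nat_lit 4) (nat_lit 329) (nat_lit 207) (nat_lit 184)) (XT.lf (nat_lit 0) (nat_lit 10075131003) (nat_lit 152) (nat_lit 97059065027) (nat_lit 0) (nat_lit 6542473482) (nat_lit 1) (nat_lit 5) (nat_lit 3) (nat_lit 4) (nat_lit 1) (nat_lit 4) (nat_lit 330) (nat_lit 207) (nat_lit 183))) (XT.nd (nat_lit 78) (nat_lit 0) (nat_lit 0) (XT.lf (nat_lit 0) (nat_lit 12064175218) (nat_lit 152) (nat_lit 98751263442) (nat_lit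 0) (nat_lit 8455915796) (nat_lit 1) (nat_lit 5) (nat_lit 3) (nat_lit 4) (nat_lit 1) (nat_lit 4) (nat_lit 331) (nat_lit 207) (nat_lit 182)) (XT.lf (nat_lit 0) (nat_lit 14121403580) (nat_lit 152) (nat_lit 100584828536) (nat_lit 0) (nat_lit 10441142347) (nat_lit 1) (nat_lit 5) (nat_lit 3) (nat_lit 4) (nat_lit 1) (nat_lit 4) (nat_lit 332) (nat_lit 207) (nat_lit 181)))) (XT.nd (nat_lit 156) (nat_lit 0) (nat_lit 0) (XT.nd (nat_lit 78) (nat_lit 0) (nat_lit 0) (XT.lf (nat_lit 0) (nat_lit 16251714252) (nat_lit 152) (nat_lit 102564125938) (nat_lit 0) (nat_lit 12502879865) (nat_lit 1) (nat_lit 5) (nat_lit 3) (nat_lit 4) (nat_lit 1) (nat_lit 4) (nat_lit 333) (nat_lit 207) (nat_lit 180)) (XT.lf (nat_lit 0) (nat_lit 18460179401) (nat_lit 152) (nat_lit 104693868262) (nat_lit 0) (nat_lit 14646037249) (nat_lit 1) (nat_lit 5) (nat_lit 3) (nat_lit 4) (nat_lit 1) (nat_lit 4) (nat_lit 334) (nat_lit 207)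 (nat_lit 179))) (XT.nd (nat_lit 78) (nat_lit 0) (nat_lit 0) (XT.lf (nat_lit 0) (nat_lit 20752057277) (nat_lit 152) (nat_lit 106979126324) (nat_lit 0) (nat_lit 16875717254) (nat_lit 1) (nat_lit 5) (nat_lit 3) (nat_lit 4) (nat_lit 1) (nat_lit 4) (nat_lit 335) (nat_lit 207) (nat_lit 178)) (XT.nd (nat_lit 78) (nat_lit 0) (nat_lit 0) (XT.lf (nat_lit 0) (nat_lit 23132804734) (nat_lit 152) (nat_lit 109425341213) (nat_lit 0) (nat_lit 19197228643) (nat_lit 1) (nat_lit 5) (nat_lit 3) (nat_lit 4) (nat_lit 1) (nat_lit 4) (nat_lit 336) (nat_lit 207) (nat_lit 177)) (XT.lf (nat_lit 0) (nat_lit 25608090217) (nat_lit 152) (nat_lit 112038337250) (nat_lit 0) (nat_lit 21616098823) (nat_lit 1) (nat_lit 5) (nat_lit 3) (nat_lit 4) (nat_lit 1) (nat_lit 4) (nat_lit 337) (nat_lit 207) (nat_lit 176)))))) (XT.nd (nat_lit 312) (nat_lit 0) (nat_lit 0) (XT.nd (nat_lit 156) (nat_lit 0) (nat_lit 0) (XT.nd (nat_lit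 78) (nat_lit 0) (nat_lit 0) (XT.lf (nat_lit 0) (nat_lit 28183807264) (nat_lit 152) (nat_lit 114824335856) (nat_lit 0) (nat_lit 24138087010) (nat_lit 1) (nat_lit 5) (nat_lit 3) (nat_lit 4) (nat_lit 1) (nat_lit 4) (nat_lit 338) (nat_lit 207) (nat_lit 175)) (XT.lf (nat_lit 0) (nat_lit 30866088533) (nat_lit 152) (nat_lit 117789970359) (nat_lit 0) (nat_lit 26769197936) (nat_lit 1) (nat_lit 5) (nat_lit 3) (nat_lit 4) (nat_lit 1) (nat_lit 4) (nat_lit 339) (nat_lit 207) (nat_lit 174))) (XT.nd (nat_lit 78) (nat_lit 0) (nat_lit 0) (XT.lf (nat_lit 0) (nat_lit 33661320409) (nat_lit 152) (nat_lit 120942301795) (nat_lit 0) (nat_lit 29515696153) (nat_lit 1) (nat_lit 5) (nat_lit 3) (nat_lit 4) (nat_lit 1) (nat_lit 4) (nat_lit 340) (nat_lit 207) (nat_lit 173)) (XT.lf (nat_lit 0) (nat_lit 36576158206) (nat_lit 152) (nat_lit 124288835715) (nat_lit 0) (nat_lit 32384120940) (nat_lit 1) (nat_lit 5) (nat_lit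 3) (nat_lit 4) (nat_lit 1) (nat_lit 4) (nat_lit 341) (nat_lit 207) (nat_lit 172)))) (XT.nd (nat_lit 156) (nat_lit 0) (nat_lit 0) (XT.nd (nat_lit 78) (nat_lit 0) (nat_lit 0) (XT.lf (nat_lit 0) (nat_lit 39617542014) (nat_lit 152) (nat_lit 127837540055) (nat_lit 0) (nat_lit 35381301882) (nat_lit 1) (nat_lit 5) (nat_lit 3) (nat_lit 4) (nat_lit 1) (nat_lit 4) (nat_lit 342) (nat_lit 207) (nat_lit 171)) (XT.lf (nat_lit 0) (nat_lit 42792713222) (nat_lit 152) (nat_lit 131596864114) (nat_lit 0) (nat_lit 38514375123) (nat_lit 1) (nat_lit 5) (nat_lit 3) (nat_lit 4) (nat_lit 1) (nat_lit 4) (nat_lit 343) (nat_lit 207) (nat_lit 170))) (XT.nd (nat_lit 78) (nat_lit 0) (nat_lit 0) (XT.lf (nat_lit 0) (nat_lit 46109231763) (nat_lit 152) (nat_lit 135575758661) (nat_lit 0) (nat_lit 41790800361) (nat_lit 1) (nat_lit 5) (nat_lit 3) (nat_lit 4) (nat_lit 1) (nat_lit 4) (nat_lit 344) (nat_lit 207) (nat_lit 169))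 (XT.nd (nat_lit 78) (nat_lit 0) (nat_lit 0) (XT.lf (nat_lit 0) (nat_lit 49574994109) (nat_lit 152) (nat_lit 139783697255) (nat_lit 0) (nat_lit 45218378610) (nat_lit 1) (nat_lit 5) (nat_lit 3) (nat_lit 4) (nat_lit 1) (nat_lit 4) (nat_lit 345) (nat_lit 207) (nat_lit 168)) (XT.lf (nat_lit 0) (nat_lit 53198252075) (nat_lit 152) (nat_lit 144230698799) (nat_lit 0) (nat_lit 48805270768) (nat_lit 1) (nat_lit 5) (nat_lit 3) (nat_lit 4) (nat_lit 1) (nat_lit 4) (nat_lit 346) (nat_lit 207) (nat_lit 167))))))))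
noncomputable def xc26 : XT := (XT.nd (nat_lit 1326) (nat_lit 0) (nat_lit 0) (XT.nd (nat_lit 624) (nat_lit 0) (nat_lit 0) (XT.nd (nat_lit 312) (nat_lit 0) (nat_lit 0) (XT.nd (nat_lit 156) (nat_lit 0) (nat_lit 0) (XT.nd (nat_lit 78) (nat_lit 0) (nat_lit 0) (XT.lf (nat_lit 0) (nat_lit 56987632466) (nat_lit 152) (nat_lit 148927351390) (nat_lit 0) (nat_lit 52560017057) (nat_lit 1) (nat_lit 5) (nat_lit 3) (nat_lit 4) (nat_lit 1) (nat_lit 4) (nat_lit 347) (nat_lit 207) (nat_lit 166)) (XT.lf (nat_lit 0) (nat_lit 60952157616) (nat_lit 152) (nat_lit 153884837535) (nat_lit 0) (nat_lit 56491557348) (nat_lit 1) (nat_lit 5) (nat_lit 3) (nat_lit 4) (nat_lit 1) (nat_lit 4) (nat_lit 348) (nat_lit 207) (nat_lit 165))) (XT.nd (nat_lit 78) (nat_lit 0) (nat_lit 0) (XT.lf (nat_lit 0) (nat_lit 65101266870) (nat_lit 152) (nat_lit 159114960773) (nat_lit 0) (nat_lit 60609252451) (nat_lit 1) (nat_lit 5) (nat_lit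 3) (nat_lit 4) (nat_lit 1) (nat_lit 4) (nat_lit 349) (nat_lit 207) (nat_lit 164)) (XT.lf (nat_lit 0) (nat_lit 69444839061) (nat_lit 152) (nat_lit 164630173777) (nat_lit 0) (nat_lit 64922906402) (nat_lit 1) (nat_lit 5) (nat_lit 3) (nat_lit 4) (nat_lit 1) (nat_lit 4) (nat_lit 350) (nat_lit 207) (nat_lit 163)))) (XT.nd (nat_lit 156) (nat_lit 0) (nat_lit 0) (XT.nd (nat_lit 78) (nat_lit 0) (nat_lit 0) (XT.lf (nat_lit 0) (nat_lit 73993216026) (nat_lit 152) (nat_lit 170443608007) (nat_lit 0) (nat_lit 69442789805) (nat_lit 1) (nat_lit 5) (nat_lit 3) (nat_lit 4) (nat_lit 1) (nat_lit 4) (nat_lit 351) (nat_lit 207) (nat_lit 162)) (XT.lf (nat_lit 0) (nat_lit 78757227236) (nat_lit 152) (nat_lit 176569104974) (nat_lit 0) (nat_lit 74179664289) (nat_lit 1) (nat_lit 5) (nat_lit 3) (nat_lit 4) (nat_lit 1) (nat_lit 4) (nat_lit 352) (nat_lit 207) (nat_lit 161))) (XT.nd (nat_lit 78) (nat_lit 0) (nat_lit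 0) (XT.lf (nat_lit 0) (nat_lit 83748215572) (nat_lit 152) (nat_lit 183021249194) (nat_lit 0) (nat_lit 79144808126) (nat_lit 1) (nat_lit 5) (nat_lit 3) (nat_lit 4) (nat_lit 1) (nat_lit 4) (nat_lit 353) (nat_lit 207) (nat_lit 160)) (XT.lf (nat_lit 0) (nat_lit 88978064342) (nat_lit 152) (nat_lit 189815402915) (nat_lit 0) (nat_lit 84350043086) (nat_lit 1) (nat_lit 5) (nat_lit 3) (nat_lit 4) (nat_lit 1) (nat_lit 4) (nat_lit 354) (nat_lit 207) (nat_lit 159))))) (XT.nd (nat_lit 312) (nat_lit 0) (nat_lit 0) (XT.nd (nat_lit 156) (nat_lit 0) (nat_lit 0) (XT.nd (nat_lit 78) (nat_lit 0) (nat_lit 0) (XT.lf (nat_lit 0) (nat_lit 94459225566) (nat_lit 152) (nat_lit 196967742694) (nat_lit 0) (nat_lit 89807762586) (nat_lit 1) (nat_lit 5) (nat_lit 3) (nat_lit 4) (nat_lit 1) (nat_lit 4) (nat_lit 355) (nat_lit 207) (nat_lit 158)) (XT.lf (nat_lit 0) (nat_lit 100204749628) (nat_lit 152) (nat_lit 204495297910)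 (nat_lit 0) (nat_lit 95530961197) (nat_lit 1) (nat_lit 5) (nat_lit 3) (nat_lit 4) (nat_lit 1) (nat_lit 4) (nat_lit 356) (nat_lit 207) (nat_lit 157))) (XT.nd (nat_lit 78) (nat_lit 0) (nat_lit 0) (XT.lf (nat_lit 0) (nat_lit 106228316346) (nat_lit 152) (nat_lit 212415991315) (nat_lit 0) (nat_lit 101533265581) (nat_lit 1) (nat_lit 5) (nat_lit 3) (nat_lit 4) (nat_lit 1) (nat_lit 4) (nat_lit 357) (nat_lit 207) (nat_lit 156)) (XT.lf (nat_lit 0) (nat_lit 112544267548) (nat_lit 152) (nat_lit 220748681702) (nat_lit 0) (nat_lit 107828966940) (nat_lit 1) (nat_lit 5) (nat_lit 3) (nat_lit 4) (nat_lit 1) (nat_lit 4) (nat_lit 358) (nat_lit 207) (nat_lit 155)))) (XT.nd (nat_lit 156) (nat_lit 0) (nat_lit 0) (XT.nd (nat_lit 78) (nat_lit 0) (nat_lit 0) (XT.lf (nat_lit 0) (nat_lit 119167641211) (nat_lit 152) (nat_lit 229513208811) (nat_lit 0) (nat_lit 114433055039) (nat_lit 1) (nat_lit 5) (nat_lit 3) (nat_lit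 4) (nat_lit 1) (nat_lit 4) (nat_lit 359) (nat_lit 207) (nat_lit 154)) (XT.lf (nat_lit 0) (nat_lit 126114207272) (nat_lit 152) (nat_lit 238730440563) (nat_lit 0) (nat_lit 121361253897) (nat_lit 1) (nat_lit 5) (nat_lit 3) (nat_lit 4) (nat_lit 1) (nat_lit 4) (nat_lit 360) (nat_lit 207) (nat_lit 153))) (XT.nd (nat_lit 78) (nat_lit 0) (nat_lit 0) (XT.lf (nat_lit 0) (nat_lit 133400505176) (nat_lit 152) (nat_lit 248422322747) (nat_lit 0) (nat_lit 128630059226) (nat_lit 1) (nat_lit 5) (nat_lit 3) (nat_lit 4) (nat_lit 1) (nat_lit 4) (nat_lit 361) (nat_lit 207) (nat_lit 152)) (XT.nd (nat_lit 78) (nat_lit 0) (nat_lit 0) (XT.lf (nat_lit 0) (nat_lit 141043883250) (nat_lit 152) (nat_lit 258611931275) (nat_lit 0) (nat_lit 136256777705) (nat_lit 1) (nat_lit 5) (nat_lit 3) (nat_lit 4) (nat_lit 1) (nat_lit 4) (nat_lit 362) (nat_lit 207) (nat_lit 151)) (XT.lf (nat_lit 0) (nat_lit 149062540014) (nat_lit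 152) (nat_lit 269323527118) (nat_lit 0) (nat_lit 144259568187) (nat_lit 1) (nat_lit 5) (nat_lit 3) (nat_lit 4) (nat_lit 1) (nat_lit 4) (nat_lit 363) (nat_lit 207) (nat_lit 150))))))) (XT.nd (nat_lit 33384) (nat_lit 0) (nat_lit 152) (XT.nd (nat_lit 32994) (nat_lit 0) (nat_lit 228) (XT.nd (nat_lit 32838) (nat_lit 0) (nat_lit 228) (XT.nd (nat_lit 78) (nat_lit 0) (nat_lit 0) (XT.lf (nat_lit 0) (nat_lit 157475567507) (nat_lit 152) (nat_lit 280582614076) (nat_lit 0) (nat_lit 152657484936) (nat_lit 1) (nat_lit 5) (nat_lit 3) (nat_lit 4) (nat_lit 1) (nat_lit 4) (nat_lit 364) (nat_lit 207) (nat_lit 149)) (XT.lf (nat_lit 0) (nat_lit 166302996747) (nat_lit 152) (nat_lit 292415999500) (nat_lit 0) (nat_lit 161470522991) (nat_lit 1) (nat_lit 5) (nat_lit 3) (nat_lit 4) (nat_lit 1) (nat_lit 4) (nat_lit 365) (nat_lit 207) (nat_lit 148))) (XT.nd (nat_lit 78) (nat_lit 0) (nat_lit 0) (XT.lf (nat_lit 0)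 (nat_lit 1959041773) (nat_lit 152) (nat_lit 12969784969) (nat_lit 0) (nat_lit 1959041773) (nat_lit 4) (nat_lit 5) (nat_lit 6) (nat_lit 4) (nat_lit 4) (nat_lit 4) (nat_lit 304) (nat_lit 208) (nat_lit 208)) (XT.lf (nat_lit 0) (nat_lit 6914848397) (nat_lit 152) (nat_lit 21745262605) (nat_lit 0) (nat_lit 6646032780) (nat_lit 4) (nat_lit 5) (nat_lit 6) (nat_lit 4) (nat_lit 4) (nat_lit 4) (nat_lit 305) (nat_lit 208) (nat_lit 207)))) (XT.nd (nat_lit 156) (nat_lit 0) (nat_lit 0) (XT.nd (nat_lit 78) (nat_lit 0) (nat_lit 0) (XT.lf (nat_lit 0) (nat_lit 9964364086) (nat_lit 152) (nat_lit 17514160581) (nat_lit 0) (nat_lit 9439533597) (nat_lit 4) (nat_lit 5) (nat_lit 6) (nat_lit 4) (nat_lit 4) (nat_lit 4) (nat_lit 306) (nat_lit 208) (nat_lit 206)) (XT.lf (nat_lit 0) (nat_lit 13073891366) (nat_lit 152) (nat_lit 13236189813) (nat_lit 0) (nat_lit 12305237189) (nat_lit 4) (nat_lit 5) (nat_lit 6) (nat_lit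 4) (nat_lit 4) (nat_lit 4) (nat_lit 307) (nat_lit 208) (nat_lit 205))) (XT.nd (nat_lit 78) (nat_lit 0) (nat_lit 0) (XT.lf (nat_lit 0) (nat_lit 16250833872) (nat_lit 152) (nat_lit 8901164656) (nat_lit 0) (nat_lit 15249966659) (nat_lit 4) (nat_lit 5) (nat_lit 6) (nat_lit 4) (nat_lit 4) (nat_lit 4) (nat_lit 308) (nat_lit 208) (nat_lit 204)) (XT.nd (nat_lit 78) (nat_lit 0) (nat_lit 0) (XT.lf (nat_lit 0) (nat_lit 19502755754) (nat_lit 152) (nat_lit 4498763622) (nat_lit 0) (nat_lit 18280733268) (nat_lit 4) (nat_lit 5) (nat_lit 6) (nat_lit 4) (nat_lit 4) (nat_lit 4) (nat_lit 309) (nat_lit 208) (nat_lit 203)) (XT.lf (nat_lit 0) (nat_lit 22837399683) (nat_lit 152) (nat_lit 18504803) (nat_lit 0) (nat_lit 21404753127) (nat_lit 4) (nat_lit 5) (nat_lit 6) (nat_lit 4) (nat_lit 4) (nat_lit 4) (nat_lit 310) (nat_lit 208) (nat_lit 202)))))) (XT.nd (nat_lit 312) (nat_lit 0) (nat_lit 0) (XT.nd (nat_lit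 156) (nat_lit 0) (nat_lit 0) (XT.nd (nat_lit 78) (nat_lit 0) (nat_lit 0) (XT.lf (nat_lit 0) (nat_lit 4700731858) (nat_lit 76) (nat_lit 21635365026) (nat_lit 76) (nat_lit 20002124119) (nat_lit 3) (nat_lit 4) (nat_lit 4) (nat_lit 5) (nat_lit 4) (nat_lit 4) (nat_lit 311) (nat_lit 208) (nat_lit 201)) (XT.lf (nat_lit 0) (nat_lit 9523270212) (nat_lit 76) (nat_lit 20412242779) (nat_lit 76) (nat_lit 18587959632) (nat_lit 3) (nat_lit 4) (nat_lit 4) (nat_lit 5) (nat_lit 4) (nat_lit 4) (nat_lit 312) (nat_lit 208) (nat_lit 200))) (XT.nd (nat_lit 78) (nat_lit 0) (nat_lit 0) (XT.lf (nat_lit 0) (nat_lit 14459980641) (nat_lit 76) (nat_lit 19183938936) (nat_lit 76) (nat_lit 17177710799) (nat_lit 3) (nat_lit 4) (nat_lit 4) (nat_lit 5) (nat_lit 4) (nat_lit 4) (nat_lit 313) (nat_lit 208) (nat_lit 199)) (XT.lf (nat_lit 0) (nat_lit 19522617217) (nat_lit 76) (nat_lit 17947528965) (nat_lit 76) (nat_lit 15768019885)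 (nat_lit 3) (nat_lit 4) (nat_lit 4) (nat_lit 5) (nat_lit 4) (nat_lit 4) (nat_lit 314) (nat_lit 208) (nat_lit 198)))) (XT.nd (nat_lit 156) (nat_lit 0) (nat_lit 0) (XT.nd (nat_lit 78) (nat_lit 0) (nat_lit 0) (XT.lf (nat_lit 0) (nat_lit 24723233836) (nat_lit 76) (nat_lit 16700069032) (nat_lit 76) (nat_lit 14355530482) (nat_lit 3) (nat_lit 4) (nat_lit 4) (nat_lit 5) (nat_lit 4) (nat_lit 4) (nat_lit 315) (nat_lit 208) (nat_lit 197)) (XT.lf (nat_lit 0) (nat_lit 30074212920) (nat_lit 76) (nat_lit 15438588995) (nat_lit 76) (nat_lit 12936879522) (nat_lit 3) (nat_lit 4) (nat_lit 4) (nat_lit 5) (nat_lit 4) (nat_lit 4) (nat_lit 316) (nat_lit 208) (nat_lit 196))) (XT.nd (nat_lit 78) (nat_lit 0) (nat_lit 0) (XT.lf (nat_lit 0) (nat_lit 35588294893) (nat_lit 76) (nat_lit 14160085330) (nat_lit 76) (nat_lit 11508689263) (nat_lit 3) (nat_lit 4) (nat_lit 4) (nat_lit 5) (nat_lit 4) (nat_lit 4) (nat_lit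 317) (nat_lit 208) (nat_lit 195)) (XT.nd (nat_lit 78) (nat_lit 0) (nat_lit 0) (XT.lf (nat_lit 0) (nat_lit 41278608524) (nat_lit 76) (nat_lit 12861513980) (nat_lit 76) (nat_lit 10067559253) (nat_lit 3) (nat_lit 4) (nat_lit 4) (nat_lit 5) (nat_lit 4) (nat_lit 4) (nat_lit 318) (nat_lit 208) (nat_lit 194)) (XT.lf (nat_lit 0) (nat_lit 47158702178) (nat_lit 76) (nat_lit 11539783109) (nat_lit 76) (nat_lit 8610058229) (nat_lit 3) (nat_lit 4) (nat_lit 4) (nat_lit 5) (nat_lit 4) (nat_lit 4) (nat_lit 319) (nat_lit 208) (nat_lit 193))))))))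
noncomputable def xc27 : XT := (XT.nd (nat_lit 1326) (nat_lit 0) (nat_lit 0) (XT.nd (nat_lit 624) (nat_lit 0) (nat_lit 0) (XT.nd (nat_lit 312) (nat_lit 152) (nat_lit 0) (XT.nd (nat_lit 156) (nat_lit 0) (nat_lit 0) (XT.nd (nat_lit 78) (nat_lit 0) (nat_lit 0) (XT.lf (nat_lit 0) (nat_lit 53242576078) (nat_lit 76) (nat_lit 10191745739) (nat_lit 76) (nat_lit 7132715951) (nat_lit 3) (nat_lit 4) (nat_lit 4) (nat_lit 5) (nat_lit 4) (nat_lit 4) (nat_lit 320) (nat_lit 208) (nat_lit 192)) (XT.lf (nat_lit 0) (nat_lit 59544715637) (nat_lit 76) (nat_lit 8814192256) (nat_lit 76) (nat_lit 5632014937) (nat_lit 3) (nat_lit 4) (nat_lit 4) (nat_lit 5) (nat_lit 4) (nat_lit 4) (nat_lit 321) (nat_lit 208) (nat_lit 191))) (XT.nd (nat_lit 78) (nat_lit 0) (nat_lit 0) (XT.lf (nat_lit 0) (nat_lit 66080125951) (nat_lit 76) (nat_lit 7403842773) (nat_lit 76) (nat_lit 4104382091) (nat_lit 3) (nat_lit 4) (nat_lit 4)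 (nat_lit 5) (nat_lit 4) (nat_lit 4) (nat_lit 322) (nat_lit 208) (nat_lit 190)) (XT.lf (nat_lit 0) (nat_lit 72864367519) (nat_lit 76) (nat_lit 5957339313) (nat_lit 76) (nat_lit 2546180190) (nat_lit 3) (nat_lit 4) (nat_lit 4) (nat_lit 5) (nat_lit 4) (nat_lit 4) (nat_lit 323) (nat_lit 208) (nat_lit 189)))) (XT.nd (nat_lit 156) (nat_lit 76) (nat_lit 0) (XT.nd (nat_lit 78) (nat_lit 76) (nat_lit 0) (XT.lf (nat_lit 0) (nat_lit 79913593298) (nat_lit 76) (nat_lit 4471237820) (nat_lit 76) (nat_lit 953699230) (nat_lit 3) (nat_lit 4) (nat_lit 4) (nat_lit 5) (nat_lit 4) (nat_lit 4) (nat_lit 324) (nat_lit 208) (nat_lit 188)) (XT.lf (nat_lit 0) (nat_lit 655188905) (nat_lit 152) (nat_lit 2275715112) (nat_lit 76) (nat_lit 86578302313) (nat_lit 2) (nat_lit 5) (nat_lit 4) (nat_lit 5) (nat_lit 3) (nat_lit 4) (nat_lit 325) (nat_lit 208) (nat_lit 187))) (XT.nd (nat_lit 78) (nat_lit 0) (nat_lit 0) (XT.lf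 (nat_lit 0) (nat_lit 977994183) (nat_lit 76) (nat_lit 1311437945) (nat_lit 152) (nat_lit 91599401947) (nat_lit 1) (nat_lit 5) (nat_lit 2) (nat_lit 5) (nat_lit 3) (nat_lit 4) (nat_lit 326) (nat_lit 208) (nat_lit 186)) (XT.lf (nat_lit 0) (nat_lit 4012626535) (nat_lit 152) (nat_lit 94087812962) (nat_lit 0) (nat_lit 386687234) (nat_lit 1) (nat_lit 5) (nat_lit 3) (nat_lit 4) (nat_lit 1) (nat_lit 4) (nat_lit 327) (nat_lit 208) (nat_lit 185))))) (XT.nd (nat_lit 312) (nat_lit 0) (nat_lit 0) (XT.nd (nat_lit 156) (nat_lit 0) (nat_lit 0) (XT.nd (nat_lit 78) (nat_lit 0) (nat_lit 0) (XT.lf (nat_lit 0) (nat_lit 5807282951) (nat_lit 152) (nat_lit 95410836708) (nat_lit 0) (nat_lit 2097992554) (nat_lit 1) (nat_lit 5) (nat_lit 3) (nat_lit 4) (nat_lit 1) (nat_lit 4) (nat_lit 328) (nat_lit 208) (nat_lit 184)) (XT.lf (nat_lit 0) (nat_lit 7657199147) (nat_lit 152) (nat_lit 96862585965) (nat_lit 0) (nat_lit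 3868526753) (nat_lit 1) (nat_lit 5) (nat_lit 3) (nat_lit 4) (nat_lit 1) (nat_lit 4) (nat_lit 329) (nat_lit 208) (nat_lit 183))) (XT.nd (nat_lit 78) (nat_lit 0) (nat_lit 0) (XT.lf (nat_lit 0) (nat_lit 9566779685) (nat_lit 152) (nat_lit 98446517281) (nat_lit 0) (nat_lit 5702505390) (nat_lit 1) (nat_lit 5) (nat_lit 3) (nat_lit 4) (nat_lit 1) (nat_lit 4) (nat_lit 330) (nat_lit 208) (nat_lit 182)) (XT.lf (nat_lit 0) (nat_lit 11540571187) (nat_lit 152) (nat_lit 100166401920) (nat_lit 0) (nat_lit 7604295081) (nat_lit 1) (nat_lit 5) (nat_lit 3) (nat_lit 4) (nat_lit 1) (nat_lit 4) (nat_lit 331) (nat_lit 208) (nat_lit 181)))) (XT.nd (nat_lit 156) (nat_lit 0) (nat_lit 0) (XT.nd (nat_lit 78) (nat_lit 0) (nat_lit 0) (XT.lf (nat_lit 0) (nat_lit 13583273154) (nat_lit 152) (nat_lit 102026334844) (nat_lit 0) (nat_lit 9578423895) (nat_lit 1) (nat_lit 5) (nat_lit 3) (nat_lit 4) (nat_lit 1) (nat_lit 4)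 (nat_lit 332) (nat_lit 208) (nat_lit 180)) (XT.lf (nat_lit 0) (nat_lit 15699749164) (nat_lit 152) (nat_lit 104030744467) (nat_lit 0) (nat_lit 11629592140) (nat_lit 1) (nat_lit 5) (nat_lit 3) (nat_lit 4) (nat_lit 1) (nat_lit 4) (nat_lit 333) (nat_lit 208) (nat_lit 179))) (XT.nd (nat_lit 78) (nat_lit 0) (nat_lit 0) (XT.lf (nat_lit 0) (nat_lit 17895038445) (nat_lit 152) (nat_lit 106184403192) (nat_lit 0) (nat_lit 13762683549) (nat_lit 1) (nat_lit 5) (nat_lit 3) (nat_lit 4) (nat_lit 1) (nat_lit 4) (nat_lit 334) (nat_lit 208) (nat_lit 178)) (XT.nd (nat_lit 78) (nat_lit 0) (nat_lit 0) (XT.lf (nat_lit 0) (nat_lit 20174367876) (nat_lit 152) (nat_lit 108492438778) (nat_lit 0) (nat_lit 15982776912) (nat_lit 1) (nat_lit 5) (nat_lit 3) (nat_lit 4) (nat_lit 1) (nat_lit 4) (nat_lit 335) (nat_lit 208) (nat_lit 177)) (XT.lf (nat_lit 0) (nat_lit 22543164432) (nat_lit 152) (nat_lit 110960346547) (nat_lit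 0) (nat_lit 18295158165) (nat_lit 1) (nat_lit 5) (nat_lit 3) (nat_lit 4) (nat_lit 1) (nat_lit 4) (nat_lit 336) (nat_lit 208) (nat_lit 176))))))) (XT.nd (nat_lit 702) (nat_lit 0) (nat_lit 0) (XT.nd (nat_lit 312) (nat_lit 0) (nat_lit 0) (XT.nd (nat_lit 156) (nat_lit 0) (nat_lit 0) (XT.nd (nat_lit 78) (nat_lit 0) (nat_lit 0) (XT.lf (nat_lit 0) (nat_lit 25007068105) (nat_lit 152) (nat_lit 113594002470) (nat_lit 0) (nat_lit 20705332978) (nat_lit 1) (nat_lit 5) (nat_lit 3) (nat_lit 4) (nat_lit 1) (nat_lit 4) (nat_lit 337) (nat_lit 208) (nat_lit 175)) (XT.lf (nat_lit 0) (nat_lit 27571945332) (nat_lit 152) (nat_lit 116399677158) (nat_lit 0) (nat_lit 23219039863) (nat_lit 1) (nat_lit 5) (nat_lit 3) (nat_lit 4) (nat_lit 1) (nat_lit 4) (nat_lit 338) (nat_lit 208) (nat_lit 174))) (XT.nd (nat_lit 78) (nat_lit 0) (nat_lit 0) (XT.lf (nat_lit 0) (nat_lit 30243902964) (nat_lit 152) (nat_lit 119384050787)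 (nat_lit 0) (nat_lit 25842263835) (nat_lit 1) (nat_lit 5) (nat_lit 3) (nat_lit 4) (nat_lit 1) (nat_lit 4) (nat_lit 339) (nat_lit 208) (nat_lit 173)) (XT.lf (nat_lit 0) (nat_lit 33029302804) (nat_lit 152) (nat_lit 122554229009) (nat_lit 0) (nat_lit 28581250666) (nat_lit 1) (nat_lit 5) (nat_lit 3) (nat_lit 4) (nat_lit 1) (nat_lit 4) (nat_lit 340) (nat_lit 208) (nat_lit 172)))) (XT.nd (nat_lit 156) (nat_lit 0) (nat_lit 0) (XT.nd (nat_lit 78) (nat_lit 0) (nat_lit 0) (XT.lf (nat_lit 0) (nat_lit 35934776758) (nat_lit 152) (nat_lit 125917759867) (nat_lit 0) (nat_lit 31442521754) (nat_lit 1) (nat_lit 5) (nat_lit 3) (nat_lit 4) (nat_lit 1) (nat_lit 4) (nat_lit 341) (nat_lit 208) (nat_lit 171)) (XT.lf (nat_lit 0) (nat_lit 38967242620) (nat_lit 152) (nat_lit 129482651769) (nat_lit 0) (nat_lit 34432889648) (nat_lit 1) (nat_lit 5) (nat_lit 3) (nat_lit 4) (nat_lit 1) (nat_lit 4) (nat_lit 342) (nat_lit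 208) (nat_lit 170))) (XT.nd (nat_lit 78) (nat_lit 0) (nat_lit 0) (XT.lf (nat_lit 0) (nat_lit 42133920546) (nat_lit 152) (nat_lit 133257392552) (nat_lit 0) (nat_lit 37559474272) (nat_lit 1) (nat_lit 5) (nat_lit 3) (nat_lit 4) (nat_lit 1) (nat_lit 4) (nat_lit 343) (nat_lit 208) (nat_lit 169)) (XT.nd (nat_lit 78) (nat_lit 0) (nat_lit 0) (XT.lf (nat_lit 0) (nat_lit 45442350247) (nat_lit 152) (nat_lit 137250969694) (nat_lit 0) (nat_lit 40829719875) (nat_lit 1) (nat_lit 5) (nat_lit 3) (nat_lit 4) (nat_lit 1) (nat_lit 4) (nat_lit 344) (nat_lit 208) (nat_lit 168)) (XT.lf (nat_lit 0) (nat_lit 48900408936) (nat_lit 152) (nat_lit 141472891713) (nat_lit 0) (nat_lit 44251412756) (nat_lit 1) (nat_lit 5) (nat_lit 3) (nat_lit 4) (nat_lit 1) (nat_lit 4) (nat_lit 345) (nat_lit 208) (nat_lit 167)))))) (XT.nd (nat_lit 312) (nat_lit 0) (nat_lit 0) (XT.nd (nat_lit 156) (nat_lit 0) (nat_lit 0) (XT.nd (nat_lit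 78) (nat_lit 0) (nat_lit 0) (XT.lf (nat_lit 0) (nat_lit 52516330085) (nat_lit 152) (nat_lit 145933210803) (nat_lit 0) (nat_lit 47832699804) (nat_lit 1) (nat_lit 5) (nat_lit 3) (nat_lit 4) (nat_lit 1) (nat_lit 4) (nat_lit 346) (nat_lit 208) (nat_lit 166)) (XT.lf (nat_lit 0) (nat_lit 56298723032) (nat_lit 152) (nat_lit 150642546772) (nat_lit 0) (nat_lit 51582107891) (nat_lit 1) (nat_lit 5) (nat_lit 3) (nat_lit 4) (nat_lit 1) (nat_lit 4) (nat_lit 347) (nat_lit 208) (nat_lit 165))) (XT.nd (nat_lit 78) (nat_lit 0) (nat_lit 0) (XT.lf (nat_lit 0) (nat_lit 60256593473) (nat_lit 152) (nat_lit 155612112325) (nat_lit 0) (nat_lit 55508564181) (nat_lit 1) (nat_lit 5) (nat_lit 3) (nat_lit 4) (nat_lit 1) (nat_lit 4) (nat_lit 348) (nat_lit 208) (nat_lit 164)) (XT.lf (nat_lit 0) (nat_lit 64399364910) (nat_lit 152) (nat_lit 160853739760) (nat_lit 0) (nat_lit 59621417378) (nat_lit 1) (nat_lit 5) (nat_lit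 3) (nat_lit 4) (nat_lit 1) (nat_lit 4) (nat_lit 349) (nat_lit 208) (nat_lit 163)))) (XT.nd (nat_lit 156) (nat_lit 0) (nat_lit 0) (XT.nd (nat_lit 78) (nat_lit 0) (nat_lit 0) (XT.lf (nat_lit 0) (nat_lit 68736901083) (nat_lit 152) (nat_lit 166379909142) (nat_lit 0) (nat_lit 63930459990) (nat_lit 1) (nat_lit 5) (nat_lit 3) (nat_lit 4) (nat_lit 1) (nat_lit 4) (nat_lit 350) (nat_lit 208) (nat_lit 162)) (XT.lf (nat_lit 0) (nat_lit 73279529461) (nat_lit 152) (nat_lit 172203778019) (nat_lit 0) (nat_lit 68445951642) (nat_lit 1) (nat_lit 5) (nat_lit 3) (nat_lit 4) (nat_lit 1) (nat_lit 4) (nat_lit 351) (nat_lit 208) (nat_lit 161))) (XT.nd (nat_lit 78) (nat_lit 0) (nat_lit 0) (XT.lf (nat_lit 0) (nat_lit 78038065825) (nat_lit 152) (nat_lit 178339212744) (nat_lit 0) (nat_lit 73178643506) (nat_lit 1) (nat_lit 5) (nat_lit 3) (nat_lit 4) (nat_lit 1) (nat_lit 4) (nat_lit 352) (nat_lit 208) (nat_lit 160))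 (XT.nd (nat_lit 78) (nat_lit 0) (nat_lit 0) (XT.lf (nat_lit 0) (nat_lit 83023840023) (nat_lit 152) (nat_lit 184800821496) (nat_lit 0) (nat_lit 78139803895) (nat_lit 1) (nat_lit 5) (nat_lit 3) (nat_lit 4) (nat_lit 1) (nat_lit 4) (nat_lit 353) (nat_lit 208) (nat_lit 159)) (XT.lf (nat_lit 0) (nat_lit 88248722947) (nat_lit 152) (nat_lit 191603989057) (nat_lit 0) (nat_lit 83341245095) (nat_lit 1) (nat_lit 5) (nat_lit 3) (nat_lit 4) (nat_lit 1) (nat_lit 4) (nat_lit 354) (nat_lit 208) (nat_lit 158))))))))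
noncomputable def xc28 : XT := (XT.nd (nat_lit 33930) (nat_lit 0) (nat_lit 76) (XT.nd (nat_lit 624) (nat_lit 0) (nat_lit 0) (XT.nd (nat_lit 312) (nat_lit 0) (nat_lit 0) (XT.nd (nat_lit 156) (nat_lit 0) (nat_lit 0) (XT.nd (nat_lit 78) (nat_lit 0) (nat_lit 0) (XT.lf (nat_lit 0) (nat_lit 93725154794) (nat_lit 152) (nat_lit 198764913445) (nat_lit 0) (nat_lit 88795351490) (nat_lit 1) (nat_lit 5) (nat_lit 3) (nat_lit 4) (nat_lit 1) (nat_lit 4) (nat_lit 355) (nat_lit 208) (nat_lit 157)) (XT.lf (nat_lit 0) (nat_lit 99466174687) (nat_lit 152) (nat_lit 206300644479) (nat_lit 0) (nat_lit 94515109049) (nat_lit 1) (nat_lit 5) (nat_lit 3) (nat_lit 4) (nat_lit 1) (nat_lit 4) (nat_lit 356) (nat_lit 208) (nat_lit 156))) (XT.nd (nat_lit 78) (nat_lit 0) (nat_lit 0) (XT.lf (nat_lit 0) (nat_lit 105485451721) (nat_lit 152) (nat_lit 214229124378) (nat_lit 0) (nat_lit 100514136241) (nat_lit 1) (nat_lit 5)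 (nat_lit 3) (nat_lit 4) (nat_lit 1) (nat_lit 4) (nat_lit 357) (nat_lit 208) (nat_lit 155)) (XT.lf (nat_lit 0) (nat_lit 111797317508) (nat_lit 152) (nat_lit 222569230474) (nat_lit 0) (nat_lit 106806716464) (nat_lit 1) (nat_lit 5) (nat_lit 3) (nat_lit 4) (nat_lit 1) (nat_lit 4) (nat_lit 358) (nat_lit 208) (nat_lit 154)))) (XT.nd (nat_lit 156) (nat_lit 0) (nat_lit 0) (XT.nd (nat_lit 78) (nat_lit 0) (nat_lit 0) (XT.lf (nat_lit 0) (nat_lit 118416800301) (nat_lit 152) (nat_lit 231340820162) (nat_lit 0) (nat_lit 113407832053) (nat_lit 1) (nat_lit 5) (nat_lit 3) (nat_lit 4) (nat_lit 1) (nat_lit 4) (nat_lit 359) (nat_lit 208) (nat_lit 153)) (XT.lf (nat_lit 0) (nat_lit 125359660772) (nat_lit 152) (nat_lit 240564778179) (nat_lit 0) (nat_lit 120333199949) (nat_lit 1) (nat_lit 5) (nat_lit 3) (nat_lit 4) (nat_lit 1) (nat_lit 4) (nat_lit 360) (nat_lit 208) (nat_lit 152))) (XT.nd (nat_lit 78) (nat_lit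 0) (nat_lit 0) (XT.lf (nat_lit 0) (nat_lit 132642429542) (nat_lit 152) (nat_lit 250263066332) (nat_lit 0) (nat_lit 127599309123) (nat_lit 1) (nat_lit 5) (nat_lit 3) (nat_lit 4) (nat_lit 1) (nat_lit 4) (nat_lit 361) (nat_lit 208) (nat_lit 151)) (XT.lf (nat_lit 0) (nat_lit 140282446536) (nat_lit 152) (nat_lit 260458775781) (nat_lit 0) (nat_lit 135223459836) (nat_lit 1) (nat_lit 5) (nat_lit 3) (nat_lit 4) (nat_lit 1) (nat_lit 4) (nat_lit 362) (nat_lit 208) (nat_lit 150))))) (XT.nd (nat_lit 32916) (nat_lit 0) (nat_lit 228) (XT.nd (nat_lit 32760) (nat_lit 0) (nat_lit 228) (XT.nd (nat_lit 78) (nat_lit 0) (nat_lit 0) (XT.lf (nat_lit 0) (nat_lit 148297902270) (nat_lit 152) (nat_lit 271176182025) (nat_lit 0) (nat_lit 143223804827) (nat_lit 1) (nat_lit 5) (nat_lit 3) (nat_lit 4) (nat_lit 1) (nat_lit 4) (nat_lit 363) (nat_lit 208) (nat_lit 149)) (XT.lf (nat_lit 0) (nat_lit 156707881165) (nat_lit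 152) (nat_lit 282440802699) (nat_lit 0) (nat_lit 151619392536) (nat_lit 1) (nat_lit 5) (nat_lit 3) (nat_lit 4) (nat_lit 1) (nat_lit 4) (nat_lit 364) (nat_lit 208) (nat_lit 148))) (XT.nd (nat_lit 78) (nat_lit 152) (nat_lit 0) (XT.lf (nat_lit 0) (nat_lit 13883481715) (nat_lit 76) (nat_lit 792584399) (nat_lit 76) (nat_lit 792584399) (nat_lit 6) (nat_lit 4) (nat_lit 7) (nat_lit 5) (nat_lit 7) (nat_lit 4) (nat_lit 302) (nat_lit 209) (nat_lit 209)) (XT.lf (nat_lit 0) (nat_lit 1249190776) (nat_lit 152) (nat_lit 30107069026) (nat_lit 0) (nat_lit 966934379) (nat_lit 4) (nat_lit 5) (nat_lit 6) (nat_lit 4) (nat_lit 4) (nat_lit 4) (nat_lit 303) (nat_lit 209) (nat_lit 208)))) (XT.nd (nat_lit 156) (nat_lit 0) (nat_lit 0) (XT.nd (nat_lit 78) (nat_lit 0) (nat_lit 0) (XT.lf (nat_lit 0) (nat_lit 4150612248) (nat_lit 152) (nat_lit 26028139065) (nat_lit 0) (nat_lit 3599540235) (nat_lit 4) (nat_lit 5) (nat_lit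 6) (nat_lit 4) (nat_lit 4) (nat_lit 4) (nat_lit 304) (nat_lit 209) (nat_lit 207)) (XT.lf (nat_lit 0) (nat_lit 7100017390) (nat_lit 152) (nat_lit 21918183280) (nat_lit 0) (nat_lit 6292930504) (nat_lit 4) (nat_lit 5) (nat_lit 6) (nat_lit 4) (nat_lit 4) (nat_lit 4) (nat_lit 305) (nat_lit 209) (nat_lit 206))) (XT.nd (nat_lit 78) (nat_lit 0) (nat_lit 0) (XT.lf (nat_lit 0) (nat_lit 10104428594) (nat_lit 152) (nat_lit 17767416065) (nat_lit 0) (nat_lit 9053518020) (nat_lit 4) (nat_lit 5) (nat_lit 6) (nat_lit 4) (nat_lit 4) (nat_lit 4) (nat_lit 306) (nat_lit 209) (nat_lit 205)) (XT.nd (nat_lit 78) (nat_lit 0) (nat_lit 0) (XT.lf (nat_lit 0) (nat_lit 13170999222) (nat_lit 152) (nat_lit 13565954638) (nat_lit 0) (nat_lit 11887875611) (nat_lit 4) (nat_lit 5) (nat_lit 6) (nat_lit 4) (nat_lit 4) (nat_lit 4) (nat_lit 307) (nat_lit 209) (nat_lit 204)) (XT.lf (nat_lit 0) (nat_lit 16307030631) (nat_lit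 152) (nat_lit 9303795520) (nat_lit 0) (nat_lit 14802751747) (nat_lit 4) (nat_lit 5) (nat_lit 6) (nat_lit 4) (nat_lit 4) (nat_lit 4) (nat_lit 308) (nat_lit 209) (nat_lit 203))))))) (XT.nd (nat_lit 702) (nat_lit 76) (nat_lit 0) (XT.nd (nat_lit 312) (nat_lit 0) (nat_lit 0) (XT.nd (nat_lit 156) (nat_lit 76) (nat_lit 0) (XT.nd (nat_lit 78) (nat_lit 0) (nat_lit 0) (XT.lf (nat_lit 0) (nat_lit 19519989562) (nat_lit 152) (nat_lit 4970790714) (nat_lit 0) (nat_lit 17805086610) (nat_lit 4) (nat_lit 5) (nat_lit 6) (nat_lit 4) (nat_lit 4) (nat_lit 4) (nat_lit 309) (nat_lit 209) (nat_lit 202)) (XT.lf (nat_lit 0) (nat_lit 22817525920) (nat_lit 152) (nat_lit 556623541) (nat_lit 0) (nat_lit 20902028615) (nat_lit 4) (nat_lit 5) (nat_lit 6) (nat_lit 4) (nat_lit 4) (nat_lit 4) (nat_lit 310) (nat_lit 209) (nat_lit 201))) (XT.nd (nat_lit 78) (nat_lit 0) (nat_lit 0) (XT.lf (nat_lit 0) (nat_lit 4079794832)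 (nat_lit 76) (nat_lit 22191393177) (nat_lit 76) (nat_lit 20084853633) (nat_lit 3) (nat_lit 4) (nat_lit 4) (nat_lit 5) (nat_lit 4) (nat_lit 4) (nat_lit 311) (nat_lit 209) (nat_lit 200)) (XT.lf (nat_lit 0) (nat_lit 8840403995) (nat_lit 76) (nat_lit 20995575572) (nat_lit 76) (nat_lit 18707091038) (nat_lit 3) (nat_lit 4) (nat_lit 4) (nat_lit 5) (nat_lit 4) (nat_lit 4) (nat_lit 312) (nat_lit 209) (nat_lit 199)))) (XT.nd (nat_lit 156) (nat_lit 0) (nat_lit 0) (XT.nd (nat_lit 78) (nat_lit 0) (nat_lit 0) (XT.lf (nat_lit 0) (nat_lit 13718134241) (nat_lit 76) (nat_lit 19793276150) (nat_lit 76) (nat_lit 17331510673) (nat_lit 3) (nat_lit 4) (nat_lit 4) (nat_lit 5) (nat_lit 4) (nat_lit 4) (nat_lit 313) (nat_lit 209) (nat_lit 198)) (XT.lf (nat_lit 0) (nat_lit 18724599215) (nat_lit 76) (nat_lit 18581632295) (nat_lit 76) (nat_lit 15954837348) (nat_lit 3) (nat_lit 4) (nat_lit 4) (nat_lit 5) (nat_lit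 4) (nat_lit 4) (nat_lit 314) (nat_lit 209) (nat_lit 197))) (XT.nd (nat_lit 78) (nat_lit 0) (nat_lit 0) (XT.lf (nat_lit 0) (nat_lit 23871719070) (nat_lit 76) (nat_lit 17357759139) (nat_lit 76) (nat_lit 14573793269) (nat_lit 3) (nat_lit 4) (nat_lit 4) (nat_lit 5) (nat_lit 4) (nat_lit 4) (nat_lit 315) (nat_lit 209) (nat_lit 196)) (XT.nd (nat_lit 78) (nat_lit 0) (nat_lit 0) (XT.lf (nat_lit 0) (nat_lit 29171748854) (nat_lit 76) (nat_lit 16118742699) (nat_lit 76) (nat_lit 13185090235) (nat_lit 3) (nat_lit 4) (nat_lit 4) (nat_lit 5) (nat_lit 4) (nat_lit 4) (nat_lit 316) (nat_lit 209) (nat_lit 195)) (XT.lf (nat_lit 0) (nat_lit 34637307685) (nat_lit 76) (nat_lit 14861632935) (nat_lit 76) (nat_lit 11785421811) (nat_lit 3) (nat_lit 4) (nat_lit 4) (nat_lit 5) (nat_lit 4) (nat_lit 4) (nat_lit 317) (nat_lit 209) (nat_lit 194)))))) (XT.nd (nat_lit 312) (nat_lit 76) (nat_lit 0) (XT.nd (nat_lit 156)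 (nat_lit 0) (nat_lit 0) (XT.nd (nat_lit 78) (nat_lit 0) (nat_lit 0) (XT.lf (nat_lit 0) (nat_lit 40281408800) (nat_lit 76) (nat_lit 13583436730) (nat_lit 76) (nat_lit 10371455453) (nat_lit 3) (nat_lit 4) (nat_lit 4) (nat_lit 5) (nat_lit 4) (nat_lit 4) (nat_lit 318) (nat_lit 209) (nat_lit 193)) (XT.lf (nat_lit 0) (nat_lit 46117490533) (nat_lit 76) (nat_lit 12281110759) (nat_lit 76) (nat_lit 8939824574) (nat_lit 3) (nat_lit 4) (nat_lit 4) (nat_lit 5) (nat_lit 4) (nat_lit 4) (nat_lit 319) (nat_lit 209) (nat_lit 192))) (XT.nd (nat_lit 78) (nat_lit 0) (nat_lit 0) (XT.lf (nat_lit 0) (nat_lit 52159448318) (nat_lit 76) (nat_lit 10951554245) (nat_lit 76) (nat_lit 7487120529) (nat_lit 3) (nat_lit 4) (nat_lit 4) (nat_lit 5) (nat_lit 4) (nat_lit 4) (nat_lit 320) (nat_lit 209) (nat_lit 191)) (XT.lf (nat_lit 0) (nat_lit 58421667768) (nat_lit 76) (nat_lit 9591601579) (nat_lit 76) (nat_lit 6009884500)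 (nat_lit 3) (nat_lit 4) (nat_lit 4) (nat_lit 5) (nat_lit 4) (nat_lit 4) (nat_lit 321) (nat_lit 209) (nat_lit 190)))) (XT.nd (nat_lit 156) (nat_lit 76) (nat_lit 0) (XT.nd (nat_lit 78) (nat_lit 0) (nat_lit 0) (XT.lf (nat_lit 0) (nat_lit 64919058930) (nat_lit 76) (nat_lit 8198014777) (nat_lit 76) (nat_lit 4504599257) (nat_lit 3) (nat_lit 4) (nat_lit 4) (nat_lit 5) (nat_lit 4) (nat_lit 4) (nat_lit 322) (nat_lit 209) (nat_lit 189)) (XT.lf (nat_lit 0) (nat_lit 71667091783) (nat_lit 76) (nat_lit 6767475776) (nat_lit 76) (nat_lit 2967680788) (nat_lit 3) (nat_lit 4) (nat_lit 4) (nat_lit 5) (nat_lit 4) (nat_lit 4) (nat_lit 323) (nat_lit 209) (nat_lit 188))) (XT.nd (nat_lit 78) (nat_lit 76) (nat_lit 0) (XT.lf (nat_lit 0) (nat_lit 78681833071) (nat_lit 76) (nat_lit 5296578530) (nat_lit 76) (nat_lit 1395469764) (nat_lit 3) (nat_lit 4) (nat_lit 4) (nat_lit 5) (nat_lit 4) (nat_lit 4) (nat_lit 324)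 (nat_lit 209) (nat_lit 187)) (XT.nd (nat_lit 78) (nat_lit 0) (nat_lit 0) (XT.lf (nat_lit 0) (nat_lit 208870957) (nat_lit 152) (nat_lit 3569412615) (nat_lit 76) (nat_lit 85767576271) (nat_lit 2) (nat_lit 5) (nat_lit 4) (nat_lit 5) (nat_lit 3) (nat_lit 4) (nat_lit 325) (nat_lit 209) (nat_lit 186)) (XT.lf (nat_lit 0) (nat_lit 1810047971) (nat_lit 152) (nat_lit 378894321) (nat_lit 76) (nat_lit 91738220790) (nat_lit 2) (nat_lit 5) (nat_lit 4) (nat_lit 5) (nat_lit 3) (nat_lit 4) (nat_lit 326) (nat_lit 209) (nat_lit 185))))))))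
noncomputable def xc29 : XT := (XT.nd (nat_lit 1326) (nat_lit 0) (nat_lit 0) (XT.nd (nat_lit 624) (nat_lit 0) (nat_lit 0) (XT.nd (nat_lit 312) (nat_lit 0) (nat_lit 0) (XT.nd (nat_lit 156) (nat_lit 0) (nat_lit 0) (XT.nd (nat_lit 78) (nat_lit 0) (nat_lit 0) (XT.lf (nat_lit 0) (nat_lit 3005071302) (nat_lit 76) (nat_lit 498383632) (nat_lit 152) (nat_lit 95023511301) (nat_lit 1) (nat_lit 5) (nat_lit 2) (nat_lit 5) (nat_lit 3) (nat_lit 4) (nat_lit 327) (nat_lit 209) (nat_lit 184)) (XT.lf (nat_lit 0) (nat_lit 5273514068) (nat_lit 152) (nat_lit 96867661575) (nat_lit 0) (nat_lit 1216026058) (nat_lit 1) (nat_lit 5) (nat_lit 3) (nat_lit 4) (nat_lit 1) (nat_lit 4) (nat_lit 328) (nat_lit 209) (nat_lit 183))) (XT.nd (nat_lit 78) (nat_lit 0) (nat_lit 0) (XT.lf (nat_lit 0) (nat_lit 7107414914) (nat_lit 152) (nat_lit 98348481367) (nat_lit 0) (nat_lit 2974325002) (nat_lit 1) (nat_lit 5) (nat_lit 3) (nat_lit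 4) (nat_lit 1) (nat_lit 4) (nat_lit 329) (nat_lit 209) (nat_lit 182)) (XT.lf (nat_lit 0) (nat_lit 9001742738) (nat_lit 152) (nat_lit 99960098905) (nat_lit 0) (nat_lit 4796651016) (nat_lit 1) (nat_lit 5) (nat_lit 3) (nat_lit 4) (nat_lit 1) (nat_lit 4) (nat_lit 330) (nat_lit 209) (nat_lit 181)))) (XT.nd (nat_lit 156) (nat_lit 0) (nat_lit 0) (XT.nd (nat_lit 78) (nat_lit 0) (nat_lit 0) (XT.lf (nat_lit 0) (nat_lit 10961007844) (nat_lit 152) (nat_lit 101706351375) (nat_lit 0) (nat_lit 6687342969) (nat_lit 1) (nat_lit 5) (nat_lit 3) (nat_lit 4) (nat_lit 1) (nat_lit 4) (nat_lit 331) (nat_lit 209) (nat_lit 180)) (XT.lf (nat_lit 0) (nat_lit 12989875150) (nat_lit 152) (nat_lit 103591396521) (nat_lit 0) (nat_lit 8650902510) (nat_lit 1) (nat_lit 5) (nat_lit 3) (nat_lit 4) (nat_lit 1) (nat_lit 4) (nat_lit 332) (nat_lit 209) (nat_lit 179))) (XT.nd (nat_lit 78) (nat_lit 0) (nat_lit 0) (XT.lf (nat_lit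 0) (nat_lit 15093175292) (nat_lit 152) (nat_lit 105619722544) (nat_lit 0) (nat_lit 10692004780) (nat_lit 1) (nat_lit 5) (nat_lit 3) (nat_lit 4) (nat_lit 1) (nat_lit 4) (nat_lit 333) (nat_lit 209) (nat_lit 178)) (XT.lf (nat_lit 0) (nat_lit 17275916127) (nat_lit 152) (nat_lit 107796158793) (nat_lit 0) (nat_lit 12815509547) (nat_lit 1) (nat_lit 5) (nat_lit 3) (nat_lit 4) (nat_lit 1) (nat_lit 4) (nat_lit 334) (nat_lit 209) (nat_lit 177))))) (XT.nd (nat_lit 312) (nat_lit 0) (nat_lit 0) (XT.nd (nat_lit 156) (nat_lit 0) (nat_lit 0) (XT.nd (nat_lit 78) (nat_lit 0) (nat_lit 0) (XT.lf (nat_lit 0) (nat_lit 19543294658) (nat_lit 152) (nat_lit 110125887258) (nat_lit 0) (nat_lit 15026472775) (nat_lit 1) (nat_lit 5) (nat_lit 3) (nat_lit 4) (nat_lit 1) (nat_lit 4) (nat_lit 335) (nat_lit 209) (nat_lit 176)) (XT.lf (nat_lit 0) (nat_lit 21900709403) (nat_lit 152) (nat_lit 112614454913) (nat_lit 0) (nat_lit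 17330158661) (nat_lit 1) (nat_lit 5) (nat_lit 3) (nat_lit 4) (nat_lit 1) (nat_lit 4) (nat_lit 336) (nat_lit 209) (nat_lit 175))) (XT.nd (nat_lit 78) (nat_lit 0) (nat_lit 0) (XT.lf (nat_lit 0) (nat_lit 24353773257) (nat_lit 152) (nat_lit 115267786919) (nat_lit 0) (nat_lit 19732052172) (nat_lit 1) (nat_lit 5) (nat_lit 3) (nat_lit 4) (nat_lit 1) (nat_lit 4) (nat_lit 337) (nat_lit 209) (nat_lit 174)) (XT.lf (nat_lit 0) (nat_lit 26908326847) (nat_lit 152) (nat_lit 118092200731) (nat_lit 0) (nat_lit 22237872102) (nat_lit 1) (nat_lit 5) (nat_lit 3) (nat_lit 4) (nat_lit 1) (nat_lit 4) (nat_lit 338) (nat_lit 209) (nat_lit 173)))) (XT.nd (nat_lit 156) (nat_lit 0) (nat_lit 0) (XT.nd (nat_lit 78) (nat_lit 0) (nat_lit 0) (XT.lf (nat_lit 0) (nat_lit 29570452443) (nat_lit 152) (nat_lit 121094421147) (nat_lit 0) (nat_lit 24853584689) (nat_lit 1) (nat_lit 5) (nat_lit 3) (nat_lit 4) (nat_lit 1) (nat_lit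 4) (nat_lit 339) (nat_lit 209) (nat_lit 172)) (XT.lf (nat_lit 0) (nat_lit 32346488440) (nat_lit 152) (nat_lit 124281596308) (nat_lit 0) (nat_lit 27585417820) (nat_lit 1) (nat_lit 5) (nat_lit 3) (nat_lit 4) (nat_lit 1) (nat_lit 4) (nat_lit 340) (nat_lit 209) (nat_lit 171))) (XT.nd (nat_lit 78) (nat_lit 0) (nat_lit 0) (XT.lf (nat_lit 0) (nat_lit 35243044448) (nat_lit 152) (nat_lit 127661314728) (nat_lit 0) (nat_lit 30439875860) (nat_lit 1) (nat_lit 5) (nat_lit 3) (nat_lit 4) (nat_lit 1) (nat_lit 4) (nat_lit 341) (nat_lit 209) (nat_lit 170)) (XT.nd (nat_lit 78) (nat_lit 0) (nat_lit 0) (XT.lf (nat_lit 0) (nat_lit 38267017027) (nat_lit 152) (nat_lit 131241623355) (nat_lit 0) (nat_lit 33423755137) (nat_lit 1) (nat_lit 5) (nat_lit 3) (nat_lit 4) (nat_lit 1) (nat_lit 4) (nat_lit 342) (nat_lit 209) (nat_lit 169)) (XT.lf (nat_lit 0) (nat_lit 41425606114) (nat_lit 152) (nat_lit 135031046733) (nat_lit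 0) (nat_lit 36544160126) (nat_lit 1) (nat_lit 5) (nat_lit 3) (nat_lit 4) (nat_lit 1) (nat_lit 4) (nat_lit 343) (nat_lit 209) (nat_lit 168))))))) (XT.nd (nat_lit 702) (nat_lit 0) (nat_lit 0) (XT.nd (nat_lit 312) (nat_lit 0) (nat_lit 0) (XT.nd (nat_lit 156) (nat_lit 0) (nat_lit 0) (XT.nd (nat_lit 78) (nat_lit 0) (nat_lit 0) (XT.lf (nat_lit 0) (nat_lit 44726332158) (nat_lit 152) (nat_lit 139038607299) (nat_lit 0) (nat_lit 39808520362) (nat_lit 1) (nat_lit 5) (nat_lit 3) (nat_lit 4) (nat_lit 1) (nat_lit 4) (nat_lit 344) (nat_lit 209) (nat_lit 167)) (XT.lf (nat_lit 0) (nat_lit 48177054030) (nat_lit 152) (nat_lit 143273846864) (nat_lit 0) (nat_lit 43224608132) (nat_lit 1) (nat_lit 5) (nat_lit 3) (nat_lit 4) (nat_lit 1) (nat_lit 4) (nat_lit 345) (nat_lit 209) (nat_lit 166))) (XT.nd (nat_lit 78) (nat_lit 0) (nat_lit 0) (XT.lf (nat_lit 0) (nat_lit 51785987735) (nat_lit 152) (nat_lit 147746849332)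 (nat_lit 0) (nat_lit 46800556978) (nat_lit 1) (nat_lit 5) (nat_lit 3) (nat_lit 4) (nat_lit 1) (nat_lit 4) (nat_lit 346) (nat_lit 209) (nat_lit 165)) (XT.lf (nat_lit 0) (nat_lit 55561725973) (nat_lit 152) (nat_lit 152468264708) (nat_lit 0) (nat_lit 50544881065) (nat_lit 1) (nat_lit 5) (nat_lit 3) (nat_lit 4) (nat_lit 1) (nat_lit 4) (nat_lit 347) (nat_lit 209) (nat_lit 164)))) (XT.nd (nat_lit 156) (nat_lit 0) (nat_lit 0) (XT.nd (nat_lit 78) (nat_lit 0) (nat_lit 0) (XT.lf (nat_lit 0) (nat_lit 59513258597) (nat_lit 152) (nat_lit 157449334458) (nat_lit 0) (nat_lit 54466495448) (nat_lit 1) (nat_lit 5) (nat_lit 3) (nat_lit 4) (nat_lit 1) (nat_lit 4) (nat_lit 348) (nat_lit 209) (nat_lit 163)) (XT.lf (nat_lit 0) (nat_lit 63649994016) (nat_lit 152) (nat_lit 162701918272) (nat_lit 0) (nat_lit 58574737307) (nat_lit 1) (nat_lit 5) (nat_lit 3) (nat_lit 4) (nat_lit 1) (nat_lit 4) (nat_lit 349) (nat_lit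 209) (nat_lit 162))) (XT.nd (nat_lit 78) (nat_lit 0) (nat_lit 0) (XT.lf (nat_lit 0) (nat_lit 67981781602) (nat_lit 152) (nat_lit 168238522301) (nat_lit 0) (nat_lit 62879388167) (nat_lit 1) (nat_lit 5) (nat_lit 3) (nat_lit 4) (nat_lit 1) (nat_lit 4) (nat_lit 350) (nat_lit 209) (nat_lit 161)) (XT.nd (nat_lit 78) (nat_lit 0) (nat_lit 0) (XT.lf (nat_lit 0) (nat_lit 72518935135) (nat_lit 152) (nat_lit 174072328936) (nat_lit 0) (nat_lit 67390697200) (nat_lit 1) (nat_lit 5) (nat_lit 3) (nat_lit 4) (nat_lit 1) (nat_lit 4) (nat_lit 351) (nat_lit 209) (nat_lit 160)) (XT.lf (nat_lit 0) (nat_lit 77272257360) (nat_lit 152) (nat_lit 180217228193) (nat_lit 0) (nat_lit 72119405615) (nat_lit 1) (nat_lit 5) (nat_lit 3) (nat_lit 4) (nat_lit 1) (nat_lit 4) (nat_lit 352) (nat_lit 209) (nat_lit 159)))))) (XT.nd (nat_lit 312) (nat_lit 0) (nat_lit 0) (XT.nd (nat_lit 156) (nat_lit 0) (nat_lit 0) (XT.nd (nat_lit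 78) (nat_lit 0) (nat_lit 0) (XT.lf (nat_lit 0) (nat_lit 82253065713) (nat_lit 152) (nat_lit 186687850785) (nat_lit 0) (nat_lit 77076772244) (nat_lit 1) (nat_lit 5) (nat_lit 3) (nat_lit 4) (nat_lit 1) (nat_lit 4) (nat_lit 353) (nat_lit 209) (nat_lit 158)) (XT.lf (nat_lit 0) (nat_lit 87473219259) (nat_lit 152) (nat_lit 193499602955) (nat_lit 0) (nat_lit 82274600339) (nat_lit 1) (nat_lit 5) (nat_lit 3) (nat_lit 4) (nat_lit 1) (nat_lit 4) (nat_lit 354) (nat_lit 209) (nat_lit 157))) (XT.nd (nat_lit 78) (nat_lit 0) (nat_lit 0) (XT.lf (nat_lit 0) (nat_lit 92945146937) (nat_lit 152) (nat_lit 200668703161) (nat_lit 0) (nat_lit 87725265683) (nat_lit 1) (nat_lit 5) (nat_lit 3) (nat_lit 4) (nat_lit 1) (nat_lit 4) (nat_lit 355) (nat_lit 209) (nat_lit 156)) (XT.lf (nat_lit 0) (nat_lit 98681877145) (nat_lit 152) (nat_lit 208212220689) (nat_lit 0) (nat_lit 93441746049) (nat_lit 1) (nat_lit 5) (nat_lit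 3) (nat_lit 4) (nat_lit 1) (nat_lit 4) (nat_lit 356) (nat_lit 209) (nat_lit 155)))) (XT.nd (nat_lit 156) (nat_lit 0) (nat_lit 0) (XT.nd (nat_lit 78) (nat_lit 0) (nat_lit 0) (XT.lf (nat_lit 0) (nat_lit 104697068766) (nat_lit 152) (nat_lit 216148116296) (nat_lit 0) (nat_lit 99437652105) (nat_lit 1) (nat_lit 5) (nat_lit 3) (nat_lit 4) (nat_lit 1) (nat_lit 4) (nat_lit 357) (nat_lit 209) (nat_lit 154)) (XT.lf (nat_lit 0) (nat_lit 111005043683) (nat_lit 152) (nat_lit 224495284971) (nat_lit 0) (nat_lit 105727259819) (nat_lit 1) (nat_lit 5) (nat_lit 3) (nat_lit 4) (nat_lit 1) (nat_lit 4) (nat_lit 358) (nat_lit 209) (nat_lit 153))) (XT.nd (nat_lit 78) (nat_lit 0) (nat_lit 0) (XT.lf (nat_lit 0) (nat_lit 117620820884) (nat_lit 152) (nat_lit 233273600925) (nat_lit 0) (nat_lit 112325544445) (nat_lit 1) (nat_lit 5) (nat_lit 3) (nat_lit 4) (nat_lit 1) (nat_lit 4) (nat_lit 359) (nat_lit 209) (nat_lit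 152)) (XT.nd (nat_lit 78) (nat_lit 0) (nat_lit 0) (XT.lf (nat_lit 0) (nat_lit 124560152221) (nat_lit 152) (nat_lit 242503964911) (nat_lit 0) (nat_lit 119248216187) (nat_lit 1) (nat_lit 5) (nat_lit 3) (nat_lit 4) (nat_lit 1) (nat_lit 4) (nat_lit 360) (nat_lit 209) (nat_lit 151)) (XT.lf (nat_lit 0) (nat_lit 131839559911) (nat_lit 152) (nat_lit 252208353984) (nat_lit 0) (nat_lit 126511757595) (nat_lit 1) (nat_lit 5) (nat_lit 3) (nat_lit 4) (nat_lit 1) (nat_lit 4) (nat_lit 361) (nat_lit 209) (nat_lit 150))))))))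
noncomputable def xc30 : XT := (XT.nd (nat_lit 33774) (nat_lit 0) (nat_lit 0) (XT.nd (nat_lit 33072) (nat_lit 0) (nat_lit 152) (XT.nd (nat_lit 32760) (nat_lit 0) (nat_lit 228) (XT.nd (nat_lit 156) (nat_lit 0) (nat_lit 0) (XT.nd (nat_lit 78) (nat_lit 0) (nat_lit 0) (XT.lf (nat_lit 0) (nat_lit 139476375876) (nat_lit 152) (nat_lit 262409873835) (nat_lit 0) (nat_lit 134133462817) (nat_lit 1) (nat_lit 5) (nat_lit 3) (nat_lit 4) (nat_lit 1) (nat_lit 4) (nat_lit 362) (nat_lit 209) (nat_lit 149)) (XT.lf (nat_lit 0) (nat_lit 147488783012) (nat_lit 152) (nat_lit 273132813795) (nat_lit 0) (nat_lit 142131478768) (nat_lit 1) (nat_lit 5) (nat_lit 3) (nat_lit 4) (nat_lit 1) (nat_lit 4) (nat_lit 363) (nat_lit 209) (nat_lit 148))) (XT.nd (nat_lit 32526) (nat_lit 0) (nat_lit 380) (XT.lf (nat_lit 0) (nat_lit 155895858479) (nat_lit 152) (nat_lit 284402704674) (nat_lit 0) (nat_lit 150524848344) (nat_lit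 1) (nat_lit 5) (nat_lit 3) (nat_lit 4) (nat_lit 1) (nat_lit 4) (nat_lit 364) (nat_lit 209) (nat_lit 147)) (XT.lf (nat_lit 0) (nat_lit 7409500894) (nat_lit 76) (nat_lit 3386772295) (nat_lit 76) (nat_lit 3386772295) (nat_lit 6) (nat_lit 4) (nat_lit 7) (nat_lit 5) (nat_lit 7) (nat_lit 4) (nat_lit 300) (nat_lit 210) (nat_lit 210)))) (XT.nd (nat_lit 156) (nat_lit 152) (nat_lit 0) (XT.nd (nat_lit 78) (nat_lit 0) (nat_lit 0) (XT.lf (nat_lit 0) (nat_lit 21179292603) (nat_lit 76) (nat_lit 4375466927) (nat_lit 76) (nat_lit 4064279250) (nat_lit 6) (nat_lit 4) (nat_lit 7) (nat_lit 5) (nat_lit 7) (nat_lit 4) (nat_lit 301) (nat_lit 210) (nat_lit 209)) (XT.lf (nat_lit 0) (nat_lit 27680644833) (nat_lit 76) (nat_lit 1933376565) (nat_lit 76) (nat_lit 1325819671) (nat_lit 6) (nat_lit 4) (nat_lit 7) (nat_lit 5) (nat_lit 7) (nat_lit 4) (nat_lit 302) (nat_lit 210) (nat_lit 208))) (XT.nd (nat_lit 78) (nat_lit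 0) (nat_lit 0) (XT.lf (nat_lit 0) (nat_lit 1443618219) (nat_lit 152) (nat_lit 30288635735) (nat_lit 0) (nat_lit 596176989) (nat_lit 4) (nat_lit 5) (nat_lit 6) (nat_lit 4) (nat_lit 4) (nat_lit 4) (nat_lit 303) (nat_lit 210) (nat_lit 207)) (XT.lf (nat_lit 0) (nat_lit 4297679982) (nat_lit 152) (nat_lit 26294057322) (nat_lit 0) (nat_lit 3194223879) (nat_lit 4) (nat_lit 5) (nat_lit 6) (nat_lit 4) (nat_lit 4) (nat_lit 4) (nat_lit 304) (nat_lit 210) (nat_lit 206))))) (XT.nd (nat_lit 312) (nat_lit 76) (nat_lit 0) (XT.nd (nat_lit 156) (nat_lit 0) (nat_lit 0) (XT.nd (nat_lit 78) (nat_lit 0) (nat_lit 0) (XT.lf (nat_lit 0) (nat_lit 7201980638) (nat_lit 152) (nat_lit 22264436347) (nat_lit 0) (nat_lit 5854700847) (nat_lit 4) (nat_lit 5) (nat_lit 6) (nat_lit 4) (nat_lit 4) (nat_lit 4) (nat_lit 305) (nat_lit 210) (nat_lit 205)) (XT.lf (nat_lit 0) (nat_lit 10163435190) (nat_lit 152) (nat_lit 18190178472)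 (nat_lit 0) (nat_lit 8583942363) (nat_lit 4) (nat_lit 5) (nat_lit 6) (nat_lit 4) (nat_lit 4) (nat_lit 4) (nat_lit 306) (nat_lit 210) (nat_lit 204))) (XT.nd (nat_lit 78) (nat_lit 0) (nat_lit 0) (XT.lf (nat_lit 0) (nat_lit 13189094720) (nat_lit 152) (nat_lit 14061583084) (nat_lit 0) (nat_lit 11388446620) (nat_lit 4) (nat_lit 5) (nat_lit 6) (nat_lit 4) (nat_lit 4) (nat_lit 4) (nat_lit 307) (nat_lit 210) (nat_lit 203)) (XT.lf (nat_lit 0) (nat_lit 16286163179) (nat_lit 152) (nat_lit 9868820195) (nat_lit 0) (nat_lit 14274891010) (nat_lit 4) (nat_lit 5) (nat_lit 6) (nat_lit 4) (nat_lit 4) (nat_lit 4) (nat_lit 308) (nat_lit 210) (nat_lit 202)))) (XT.nd (nat_lit 156) (nat_lit 76) (nat_lit 0) (XT.nd (nat_lit 78) (nat_lit 0) (nat_lit 0) (XT.lf (nat_lit 0) (nat_lit 19462014540) (nat_lit 152) (nat_lit 5601907034) (nat_lit 0) (nat_lit 17250148019) (nat_lit 4) (nat_lit 5) (nat_lit 6) (nat_lit 4) (nat_lit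 4) (nat_lit 4) (nat_lit 309) (nat_lit 210) (nat_lit 201)) (XT.lf (nat_lit 0) (nat_lit 22724210353) (nat_lit 152) (nat_lit 1250684286) (nat_lit 0) (nat_lit 20321301592) (nat_lit 4) (nat_lit 5) (nat_lit 6) (nat_lit 4) (nat_lit 4) (nat_lit 4) (nat_lit 310) (nat_lit 210) (nat_lit 200))) (XT.nd (nat_lit 78) (nat_lit 0) (nat_lit 0) (XT.lf (nat_lit 0) (nat_lit 3300856113) (nat_lit 76) (nat_lit 22831197252) (nat_lit 76) (nat_lit 20246343501) (nat_lit 3) (nat_lit 4) (nat_lit 4) (nat_lit 5) (nat_lit 4) (nat_lit 4) (nat_lit 311) (nat_lit 210) (nat_lit 199)) (XT.nd (nat_lit 78) (nat_lit 0) (nat_lit 0) (XT.lf (nat_lit 0) (nat_lit 8002485093) (nat_lit 76) (nat_lit 21661384068) (nat_lit 76) (nat_lit 18903249374) (nat_lit 3) (nat_lit 4) (nat_lit 4) (nat_lit 5) (nat_lit 4) (nat_lit 4) (nat_lit 312) (nat_lit 210) (nat_lit 198)) (XT.lf (nat_lit 0) (nat_lit 12824043736) (nat_lit 76) (nat_lit 20483850763)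 (nat_lit 76) (nat_lit 17560686599) (nat_lit 3) (nat_lit 4) (nat_lit 4) (nat_lit 5) (nat_lit 4) (nat_lit 4) (nat_lit 313) (nat_lit 210) (nat_lit 197))))))) (XT.nd (nat_lit 702) (nat_lit 152) (nat_lit 0) (XT.nd (nat_lit 312) (nat_lit 0) (nat_lit 0) (XT.nd (nat_lit 156) (nat_lit 0) (nat_lit 0) (XT.nd (nat_lit 78) (nat_lit 0) (nat_lit 0) (XT.lf (nat_lit 0) (nat_lit 17777011945) (nat_lit 76) (nat_lit 19295793684) (nat_lit 76) (nat_lit 16215458597) (nat_lit 3) (nat_lit 4) (nat_lit 4) (nat_lit 5) (nat_lit 4) (nat_lit 4) (nat_lit 314) (nat_lit 210) (nat_lit 196)) (XT.lf (nat_lit 0) (nat_lit 22873182501) (nat_lit 76) (nat_lit 18094384125) (nat_lit 76) (nat_lit 14864362444) (nat_lit 3) (nat_lit 4) (nat_lit 4) (nat_lit 5) (nat_lit 4) (nat_lit 4) (nat_lit 315) (nat_lit 210) (nat_lit 195))) (XT.nd (nat_lit 78) (nat_lit 0) (nat_lit 0) (XT.lf (nat_lit 0) (nat_lit 28124689143) (nat_lit 76) (nat_lit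 16876761586) (nat_lit 76) (nat_lit 13504181245) (nat_lit 3) (nat_lit 4) (nat_lit 4) (nat_lit 5) (nat_lit 4) (nat_lit 4) (nat_lit 316) (nat_lit 210) (nat_lit 194)) (XT.lf (nat_lit 0) (nat_lit 33544035458) (nat_lit 76) (nat_lit 15640026967) (nat_lit 76) (nat_lit 12131676473) (nat_lit 3) (nat_lit 4) (nat_lit 4) (nat_lit 5) (nat_lit 4) (nat_lit 4) (nat_lit 317) (nat_lit 210) (nat_lit 193)))) (XT.nd (nat_lit 156) (nat_lit 0) (nat_lit 0) (XT.nd (nat_lit 78) (nat_lit 0) (nat_lit 0) (XT.lf (nat_lit 0) (nat_lit 39144124652) (nat_lit 76) (nat_lit 14381235662) (nat_lit 76) (nat_lit 10743580260) (nat_lit 3) (nat_lit 4) (nat_lit 4) (nat_lit 5) (nat_lit 4) (nat_lit 4) (nat_lit 318) (nat_lit 210) (nat_lit 192)) (XT.lf (nat_lit 0) (nat_lit 44938290271) (nat_lit 76) (nat_lit 13097390547) (nat_lit 76) (nat_lit 9336587614) (nat_lit 3) (nat_lit 4) (nat_lit 4) (nat_lit 5) (nat_lit 4) (nat_lit 4) (nat_lit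 319) (nat_lit 210) (nat_lit 191))) (XT.nd (nat_lit 78) (nat_lit 0) (nat_lit 0) (XT.lf (nat_lit 0) (nat_lit 50940327946) (nat_lit 76) (nat_lit 11785434850) (nat_lit 76) (nat_lit 7907348554) (nat_lit 3) (nat_lit 4) (nat_lit 4) (nat_lit 5) (nat_lit 4) (nat_lit 4) (nat_lit 320) (nat_lit 210) (nat_lit 190)) (XT.nd (nat_lit 78) (nat_lit 0) (nat_lit 0) (XT.lf (nat_lit 0) (nat_lit 57164528245) (nat_lit 76) (nat_lit 10442244865) (nat_lit 76) (nat_lit 6452460129) (nat_lit 3) (nat_lit 4) (nat_lit 4) (nat_lit 5) (nat_lit 4) (nat_lit 4) (nat_lit 321) (nat_lit 210) (nat_lit 189)) (XT.lf (nat_lit 0) (nat_lit 63625710691) (nat_lit 76) (nat_lit 9064622522) (nat_lit 76) (nat_lit 4968458318) (nat_lit 3) (nat_lit 4) (nat_lit 4) (nat_lit 5) (nat_lit 4) (nat_lit 4) (nat_lit 322) (nat_lit 210) (nat_lit 188)))))) (XT.nd (nat_lit 312) (nat_lit 76) (nat_lit 0) (XT.nd (nat_lit 156) (nat_lit 76) (nat_lit 0) (XT.nd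 (nat_lit 78) (nat_lit 0) (nat_lit 0) (XT.lf (nat_lit 0) (nat_lit 70339259052) (nat_lit 76) (nat_lit 7649287768) (nat_lit 76) (nat_lit 3451809785) (nat_lit 3) (nat_lit 4) (nat_lit 4) (nat_lit 5) (nat_lit 4) (nat_lit 4) (nat_lit 323) (nat_lit 210) (nat_lit 187)) (XT.lf (nat_lit 0) (nat_lit 77321157968) (nat_lit 76) (nat_lit 6192870757) (nat_lit 76) (nat_lit 1898903461) (nat_lit 3) (nat_lit 4) (nat_lit 4) (nat_lit 5) (nat_lit 4) (nat_lit 4) (nat_lit 324) (nat_lit 210) (nat_lit 186))) (XT.nd (nat_lit 78) (nat_lit 76) (nat_lit 0) (XT.lf (nat_lit 0) (nat_lit 84588031006) (nat_lit 76) (nat_lit 4691903830) (nat_lit 76) (nat_lit 306041951) (nat_lit 3) (nat_lit 4) (nat_lit 4) (nat_lit 5) (nat_lit 4) (nat_lit 4) (nat_lit 325) (nat_lit 210) (nat_lit 185)) (XT.lf (nat_lit 0) (nat_lit 1287980810) (nat_lit 152) (nat_lit 1833019868) (nat_lit 76) (nat_lit 90847386857) (nat_lit 2) (nat_lit 5) (nat_lit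 4) (nat_lit 5) (nat_lit 3) (nat_lit 4) (nat_lit 326) (nat_lit 210) (nat_lit 184)))) (XT.nd (nat_lit 156) (nat_lit 0) (nat_lit 0) (XT.nd (nat_lit 78) (nat_lit 0) (nat_lit 0) (XT.lf (nat_lit 0) (nat_lit 1472985092) (nat_lit 76) (nat_lit 1468340136) (nat_lit 152) (nat_lit 95628888707) (nat_lit 1) (nat_lit 5) (nat_lit 2) (nat_lit 5) (nat_lit 3) (nat_lit 4) (nat_lit 327) (nat_lit 210) (nat_lit 183)) (XT.lf (nat_lit 0) (nat_lit 4680225272) (nat_lit 152) (nat_lit 98456922280) (nat_lit 0) (nat_lit 264878964) (nat_lit 1) (nat_lit 5) (nat_lit 3) (nat_lit 4) (nat_lit 1) (nat_lit 4) (nat_lit 328) (nat_lit 210) (nat_lit 182))) (XT.nd (nat_lit 78) (nat_lit 0) (nat_lit 0) (XT.lf (nat_lit 0) (nat_lit 6498873404) (nat_lit 152) (nat_lit 99965428295) (nat_lit 0) (nat_lit 2011525285) (nat_lit 1) (nat_lit 5) (nat_lit 3) (nat_lit 4) (nat_lit 1) (nat_lit 4) (nat_lit 329) (nat_lit 210) (nat_lit 181)) (XT.nd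 (nat_lit 78) (nat_lit 0) (nat_lit 0) (XT.lf (nat_lit 0) (nat_lit 8378674834) (nat_lit 152) (nat_lit 101603413665) (nat_lit 0) (nat_lit 3822753561) (nat_lit 1) (nat_lit 5) (nat_lit 3) (nat_lit 4) (nat_lit 1) (nat_lit 4) (nat_lit 330) (nat_lit 210) (nat_lit 180)) (XT.lf (nat_lit 0) (nat_lit 10324105279) (nat_lit 152) (nat_lit 103374778356) (nat_lit 0) (nat_lit 5702876242) (nat_lit 1) (nat_lit 5) (nat_lit 3) (nat_lit 4) (nat_lit 1) (nat_lit 4) (nat_lit 331) (nat_lit 210) (nat_lit 179))))))))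
noncomputable def xc31 : XT := (XT.nd (nat_lit 1326) (nat_lit 0) (nat_lit 0) (XT.nd (nat_lit 624) (nat_lit 0) (nat_lit 0) (XT.nd (nat_lit 312) (nat_lit 0) (nat_lit 0) (XT.nd (nat_lit 156) (nat_lit 0) (nat_lit 0) (XT.nd (nat_lit 78) (nat_lit 0) (nat_lit 0) (XT.lf (nat_lit 0) (nat_lit 12339796717) (nat_lit 152) (nat_lit 105283739901) (nat_lit 0) (nat_lit 7656369808) (nat_lit 1) (nat_lit 5) (nat_lit 3) (nat_lit 4) (nat_lit 1) (nat_lit 4) (nat_lit 332) (nat_lit 210) (nat_lit 178)) (XT.lf (nat_lit 0) (nat_lit 14430548413) (nat_lit 152) (nat_lit 107334843449) (nat_lit 0) (nat_lit 9687885436) (nat_lit 1) (nat_lit 5) (nat_lit 3) (nat_lit 4) (nat_lit 1) (nat_lit 4) (nat_lit 333) (nat_lit 210) (nat_lit 177))) (XT.nd (nat_lit 78) (nat_lit 0) (nat_lit 0) (XT.lf (nat_lit 0) (nat_lit 16601338347) (nat_lit 152) (nat_lit 109532972578) (nat_lit 0) (nat_lit 11802260068) (nat_lit 1) (nat_lit 5) (nat_lit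 3) (nat_lit 4) (nat_lit 1) (nat_lit 4) (nat_lit 334) (nat_lit 210) (nat_lit 176)) (XT.lf (nat_lit 0) (nat_lit 18857335068) (nat_lit 152) (nat_lit 111883360929) (nat_lit 0) (nat_lit 14004527928) (nat_lit 1) (nat_lit 5) (nat_lit 3) (nat_lit 4) (nat_lit 1) (nat_lit 4) (nat_lit 335) (nat_lit 210) (nat_lit 175)))) (XT.nd (nat_lit 156) (nat_lit 0) (nat_lit 0) (XT.nd (nat_lit 78) (nat_lit 0) (nat_lit 0) (XT.lf (nat_lit 0) (nat_lit 21203909994) (nat_lit 152) (nat_lit 114391604666) (nat_lit 0) (nat_lit 16299932512) (nat_lit 1) (nat_lit 5) (nat_lit 3) (nat_lit 4) (nat_lit 1) (nat_lit 4) (nat_lit 336) (nat_lit 210) (nat_lit 174)) (XT.lf (nat_lit 0) (nat_lit 23646650211) (nat_lit 152) (nat_lit 117063675797) (nat_lit 0) (nat_lit 18693939068) (nat_lit 1) (nat_lit 5) (nat_lit 3) (nat_lit 4) (nat_lit 1) (nat_lit 4) (nat_lit 337) (nat_lit 210) (nat_lit 173))) (XT.nd (nat_lit 78) (nat_lit 0) (nat_lit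 0) (XT.lf (nat_lit 0) (nat_lit 26191371765) (nat_lit 152) (nat_lit 119905936396) (nat_lit 0) (nat_lit 21192247613) (nat_lit 1) (nat_lit 5) (nat_lit 3) (nat_lit 4) (nat_lit 1) (nat_lit 4) (nat_lit 338) (nat_lit 210) (nat_lit 172)) (XT.lf (nat_lit 0) (nat_lit 28844133518) (nat_lit 152) (nat_lit 122925153750) (nat_lit 0) (nat_lit 23800806500) (nat_lit 1) (nat_lit 5) (nat_lit 3) (nat_lit 4) (nat_lit 1) (nat_lit 4) (nat_lit 339) (nat_lit 210) (nat_lit 171))))) (XT.nd (nat_lit 312) (nat_lit 0) (nat_lit 0) (XT.nd (nat_lit 156) (nat_lit 0) (nat_lit 0) (XT.nd (nat_lit 78) (nat_lit 0) (nat_lit 0) (XT.lf (nat_lit 0) (nat_lit 31611251569) (nat_lit 152) (nat_lit 126128516473) (nat_lit 0) (nat_lit 26525826583) (nat_lit 1) (nat_lit 5) (nat_lit 3) (nat_lit 4) (nat_lit 1) (nat_lit 4) (nat_lit 340) (nat_lit 210) (nat_lit 170)) (XT.lf (nat_lit 0) (nat_lit 34499314294) (nat_lit 152) (nat_lit 129523651617)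 (nat_lit 0) (nat_lit 29373796006) (nat_lit 1) (nat_lit 5) (nat_lit 3) (nat_lit 4) (nat_lit 1) (nat_lit 4) (nat_lit 341) (nat_lit 210) (nat_lit 169))) (XT.nd (nat_lit 78) (nat_lit 0) (nat_lit 0) (XT.lf (nat_lit 0) (nat_lit 37515198033) (nat_lit 152) (nat_lit 133118642839) (nat_lit 0) (nat_lit 32351495648) (nat_lit 1) (nat_lit 5) (nat_lit 3) (nat_lit 4) (nat_lit 1) (nat_lit 4) (nat_lit 342) (nat_lit 210) (nat_lit 168)) (XT.lf (nat_lit 0) (nat_lit 40666083463) (nat_lit 152) (nat_lit 136922049641) (nat_lit 0) (nat_lit 35466015270) (nat_lit 1) (nat_lit 5) (nat_lit 3) (nat_lit 4) (nat_lit 1) (nat_lit 4) (nat_lit 343) (nat_lit 210) (nat_lit 167)))) (XT.nd (nat_lit 156) (nat_lit 0) (nat_lit 0) (XT.nd (nat_lit 78) (nat_lit 0) (nat_lit 0) (XT.lf (nat_lit 0) (nat_lit 43959472690) (nat_lit 152) (nat_lit 140942927754) (nat_lit 0) (nat_lit 38724770395) (nat_lit 1) (nat_lit 5) (nat_lit 3) (nat_lit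 4) (nat_lit 1) (nat_lit 4) (nat_lit 344) (nat_lit 210) (nat_lit 166)) (XT.lf (nat_lit 0) (nat_lit 47403207118) (nat_lit 152) (nat_lit 145190850697) (nat_lit 0) (nat_lit 42135519964) (nat_lit 1) (nat_lit 5) (nat_lit 3) (nat_lit 4) (nat_lit 1) (nat_lit 4) (nat_lit 345) (nat_lit 210) (nat_lit 165))) (XT.nd (nat_lit 78) (nat_lit 0) (nat_lit 0) (XT.lf (nat_lit 0) (nat_lit 51005486115) (nat_lit 152) (nat_lit 149675932573) (nat_lit 0) (nat_lit 45706384810) (nat_lit 1) (nat_lit 5) (nat_lit 3) (nat_lit 4) (nat_lit 1) (nat_lit 4) (nat_lit 346) (nat_lit 210) (nat_lit 164)) (XT.nd (nat_lit 78) (nat_lit 0) (nat_lit 0) (XT.lf (nat_lit 0) (nat_lit 54774886535) (nat_lit 152) (nat_lit 154408852146) (nat_lit 0) (nat_lit 49445866990) (nat_lit 1) (nat_lit 5) (nat_lit 3) (nat_lit 4) (nat_lit 1) (nat_lit 4) (nat_lit 347) (nat_lit 210) (nat_lit 163)) (XT.lf (nat_lit 0) (nat_lit 58720383142) (nat_lit 152)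 (nat_lit 159400878275) (nat_lit 0) (nat_lit 53362870035) (nat_lit 1) (nat_lit 5) (nat_lit 3) (nat_lit 4) (nat_lit 1) (nat_lit 4) (nat_lit 348) (nat_lit 210) (nat_lit 162))))))) (XT.nd (nat_lit 702) (nat_lit 0) (nat_lit 0) (XT.nd (nat_lit 312) (nat_lit 0) (nat_lit 0) (XT.nd (nat_lit 156) (nat_lit 0) (nat_lit 0) (XT.nd (nat_lit 78) (nat_lit 0) (nat_lit 0) (XT.lf (nat_lit 0) (nat_lit 62851369974) (nat_lit 152) (nat_lit 164663896735) (nat_lit 0) (nat_lit 57466720142) (nat_lit 1) (nat_lit 5) (nat_lit 3) (nat_lit 4) (nat_lit 1) (nat_lit 4) (nat_lit 349) (nat_lit 210) (nat_lit 161)) (XT.lf (nat_lit 0) (nat_lit 67177682715) (nat_lit 152) (nat_lit 170210438522) (nat_lit 0) (nat_lit 61767188382) (nat_lit 1) (nat_lit 5) (nat_lit 3) (nat_lit 4) (nat_lit 1) (nat_lit 4) (nat_lit 350) (nat_lit 210) (nat_lit 160))) (XT.nd (nat_lit 78) (nat_lit 0) (nat_lit 0) (XT.lf (nat_lit 0) (nat_lit 71709622109)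 (nat_lit 152) (nat_lit 176053709689) (nat_lit 0) (nat_lit 66274513967) (nat_lit 1) (nat_lit 5) (nat_lit 3) (nat_lit 4) (nat_lit 1) (nat_lit 4) (nat_lit 351) (nat_lit 210) (nat_lit 159)) (XT.lf (nat_lit 0) (nat_lit 76457978488) (nat_lit 152) (nat_lit 182207622786) (nat_lit 0) (nat_lit 70999428622) (nat_lit 1) (nat_lit 5) (nat_lit 3) (nat_lit 4) (nat_lit 1) (nat_lit 4) (nat_lit 352) (nat_lit 210) (nat_lit 158)))) (XT.nd (nat_lit 156) (nat_lit 0) (nat_lit 0) (XT.nd (nat_lit 78) (nat_lit 0) (nat_lit 0) (XT.lf (nat_lit 0) (nat_lit 81434057463) (nat_lit 152) (nat_lit 188686829987) (nat_lit 0) (nat_lit 75953182146) (nat_lit 1) (nat_lit 5) (nat_lit 3) (nat_lit 4) (nat_lit 1) (nat_lit 4) (nat_lit 353) (nat_lit 210) (nat_lit 157)) (XT.lf (nat_lit 0) (nat_lit 86649706841) (nat_lit 152) (nat_lit 195506757975) (nat_lit 0) (nat_lit 81147569190) (nat_lit 1) (nat_lit 5) (nat_lit 3) (nat_lit 4) (nat_lit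 1) (nat_lit 4) (nat_lit 354) (nat_lit 210) (nat_lit 156))) (XT.nd (nat_lit 78) (nat_lit 0) (nat_lit 0) (XT.lf (nat_lit 0) (nat_lit 92117344834) (nat_lit 152) (nat_lit 202683644675) (nat_lit 0) (nat_lit 86594957341) (nat_lit 1) (nat_lit 5) (nat_lit 3) (nat_lit 4) (nat_lit 1) (nat_lit 4) (nat_lit 355) (nat_lit 210) (nat_lit 155)) (XT.nd (nat_lit 78) (nat_lit 0) (nat_lit 0) (XT.lf (nat_lit 0) (nat_lit 97849989628) (nat_lit 152) (nat_lit 210234577912) (nat_lit 0) (nat_lit 92308316571) (nat_lit 1) (nat_lit 5) (nat_lit 3) (nat_lit 4) (nat_lit 1) (nat_lit 4) (nat_lit 356) (nat_lit 210) (nat_lit 154)) (XT.lf (nat_lit 0) (nat_lit 103861290378) (nat_lit 152) (nat_lit 218177536098) (nat_lit 0) (nat_lit 98301250117) (nat_lit 1) (nat_lit 5) (nat_lit 3) (nat_lit 4) (nat_lit 1) (nat_lit 4) (nat_lit 357) (nat_lit 210) (nat_lit 153)))))) (XT.nd (nat_lit 312) (nat_lit 0) (nat_lit 0) (XT.nd (nat_lit 156)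 (nat_lit 0) (nat_lit 0) (XT.nd (nat_lit 78) (nat_lit 0) (nat_lit 0) (XT.lf (nat_lit 0) (nat_lit 110165559705) (nat_lit 152) (nat_lit 226531431039) (nat_lit 0) (nat_lit 104588026868) (nat_lit 1) (nat_lit 5) (nat_lit 3) (nat_lit 4) (nat_lit 1) (nat_lit 4) (nat_lit 358) (nat_lit 210) (nat_lit 152)) (XT.lf (nat_lit 0) (nat_lit 116777807772) (nat_lit 152) (nat_lit 235316152960) (nat_lit 0) (nat_lit 111183615341) (nat_lit 1) (nat_lit 5) (nat_lit 3) (nat_lit 4) (nat_lit 1) (nat_lit 4) (nat_lit 359) (nat_lit 210) (nat_lit 151))) (XT.nd (nat_lit 78) (nat_lit 0) (nat_lit 0) (XT.lf (nat_lit 0) (nat_lit 123713778029) (nat_lit 152) (nat_lit 244552617867) (nat_lit 0) (nat_lit 118103719316) (nat_lit 1) (nat_lit 5) (nat_lit 3) (nat_lit 4) (nat_lit 1) (nat_lit 4) (nat_lit 360) (nat_lit 210) (nat_lit 150)) (XT.lf (nat_lit 0) (nat_lit 130989984690) (nat_lit 152) (nat_lit 254262817343) (nat_lit 0) (nat_lit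 125364815233) (nat_lit 1) (nat_lit 5) (nat_lit 3) (nat_lit 4) (nat_lit 1) (nat_lit 4) (nat_lit 361) (nat_lit 210) (nat_lit 149)))) (XT.nd (nat_lit 156) (nat_lit 0) (nat_lit 0) (XT.nd (nat_lit 78) (nat_lit 0) (nat_lit 0) (XT.lf (nat_lit 0) (nat_lit 138623752057) (nat_lit 152) (nat_lit 264469870909) (nat_lit 0) (nat_lit 132984191415) (nat_lit 1) (nat_lit 5) (nat_lit 3) (nat_lit 4) (nat_lit 1) (nat_lit 4) (nat_lit 362) (nat_lit 210) (nat_lit 148)) (XT.lf (nat_lit 0) (nat_lit 146633255765) (nat_lit 152) (nat_lit 275198081075) (nat_lit 0) (nat_lit 140979989234) (nat_lit 1) (nat_lit 5) (nat_lit 3) (nat_lit 4) (nat_lit 1) (nat_lit 4) (nat_lit 363) (nat_lit 210) (nat_lit 147))) (XT.nd (nat_lit 32370) (nat_lit 0) (nat_lit 380) (XT.lf (nat_lit 0) (nat_lit 155037566063) (nat_lit 152) (nat_lit 286472991197) (nat_lit 0) (nat_lit 149371246303) (nat_lit 1) (nat_lit 5) (nat_lit 3) (nat_lit 4) (nat_lit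 1) (nat_lit 4) (nat_lit 364) (nat_lit 210) (nat_lit 146)) (XT.nd (nat_lit 78) (nat_lit 0) (nat_lit 0) (XT.lf (nat_lit 0) (nat_lit 1278248131) (nat_lit 76) (nat_lit 5873170933) (nat_lit 76) (nat_lit 5873170933) (nat_lit 6) (nat_lit 4) (nat_lit 7) (nat_lit 5) (nat_lit 7) (nat_lit 4) (nat_lit 298) (nat_lit 211) (nat_lit 211)) (XT.lf (nat_lit 0) (nat_lit 8584628839) (nat_lit 76) (nat_lit 9460066324) (nat_lit 76) (nat_lit 9133319262) (nat_lit 6) (nat_lit 4) (nat_lit 7) (nat_lit 5) (nat_lit 7) (nat_lit 4) (nat_lit 299) (nat_lit 211) (nat_lit 210))))))))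
noncomputable def xc32 : XT := (XT.nd (nat_lit 1326) (nat_lit 152) (nat_lit 0) (XT.nd (nat_lit 624) (nat_lit 76) (nat_lit 0) (XT.nd (nat_lit 312) (nat_lit 0) (nat_lit 0) (XT.nd (nat_lit 156) (nat_lit 152) (nat_lit 0) (XT.nd (nat_lit 78) (nat_lit 0) (nat_lit 0) (XT.lf (nat_lit 0) (nat_lit 14728367260) (nat_lit 76) (nat_lit 7139162746) (nat_lit 76) (nat_lit 6501228007) (nat_lit 6) (nat_lit 4) (nat_lit 7) (nat_lit 5) (nat_lit 7) (nat_lit 4) (nat_lit 300) (nat_lit 211) (nat_lit 209)) (XT.lf (nat_lit 0) (nat_lit 21002339477) (nat_lit 76) (nat_lit 4778105173) (nat_lit 76) (nat_lit 3843801216) (nat_lit 6) (nat_lit 4) (nat_lit 7) (nat_lit 5) (nat_lit 7) (nat_lit 4) (nat_lit 301) (nat_lit 211) (nat_lit 208))) (XT.nd (nat_lit 78) (nat_lit 152) (nat_lit 0) (XT.lf (nat_lit 0) (nat_lit 27421483519) (nat_lit 76) (nat_lit 2371272039) (nat_lit 76) (nat_lit 1154711685) (nat_lit 6) (nat_lit 4) (nat_lit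 7) (nat_lit 5) (nat_lit 7) (nat_lit 4) (nat_lit 302) (nat_lit 211) (nat_lit 207)) (XT.lf (nat_lit 0) (nat_lit 1550679630) (nat_lit 152) (nat_lit 30652201454) (nat_lit 0) (nat_lit 136035849) (nat_lit 4) (nat_lit 5) (nat_lit 6) (nat_lit 4) (nat_lit 4) (nat_lit 4) (nat_lit 303) (nat_lit 211) (nat_lit 206)))) (XT.nd (nat_lit 156) (nat_lit 0) (nat_lit 0) (XT.nd (nat_lit 78) (nat_lit 0) (nat_lit 0) (XT.lf (nat_lit 0) (nat_lit 4359636908) (nat_lit 152) (nat_lit 26737957850) (nat_lit 0) (nat_lit 2701169439) (nat_lit 4) (nat_lit 5) (nat_lit 6) (nat_lit 4) (nat_lit 4) (nat_lit 4) (nat_lit 304) (nat_lit 211) (nat_lit 205)) (XT.lf (nat_lit 0) (nat_lit 7220980912) (nat_lit 152) (nat_lit 22784846216) (nat_lit 0) (nat_lit 5330300407) (nat_lit 4) (nat_lit 5) (nat_lit 6) (nat_lit 4) (nat_lit 4) (nat_lit 4) (nat_lit 305) (nat_lit 211) (nat_lit 204))) (XT.nd (nat_lit 78) (nat_lit 0) (nat_lit 0) (XT.lf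 (nat_lit 0) (nat_lit 10141524367) (nat_lit 152) (nat_lit 18783454381) (nat_lit 0) (nat_lit 8029688589) (nat_lit 4) (nat_lit 5) (nat_lit 6) (nat_lit 4) (nat_lit 4) (nat_lit 4) (nat_lit 306) (nat_lit 211) (nat_lit 203)) (XT.lf (nat_lit 0) (nat_lit 13128220947) (nat_lit 152) (nat_lit 14724255221) (nat_lit 0) (nat_lit 10805761099) (nat_lit 4) (nat_lit 5) (nat_lit 6) (nat_lit 4) (nat_lit 4) (nat_lit 4) (nat_lit 307) (nat_lit 211) (nat_lit 202))))) (XT.nd (nat_lit 312) (nat_lit 0) (nat_lit 0) (XT.nd (nat_lit 156) (nat_lit 76) (nat_lit 0) (XT.nd (nat_lit 78) (nat_lit 0) (nat_lit 0) (XT.lf (nat_lit 0) (nat_lit 16188181834) (nat_lit 152) (nat_lit 10597583977) (nat_lit 0) (nat_lit 13665127635) (nat_lit 4) (nat_lit 5) (nat_lit 6) (nat_lit 4) (nat_lit 4) (nat_lit 4) (nat_lit 308) (nat_lit 211) (nat_lit 201)) (XT.lf (nat_lit 0) (nat_lit 19328692650) (nat_lit 152) (nat_lit 6393615241) (nat_lit 0)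 (nat_lit 16614596212) (nat_lit 4) (nat_lit 5) (nat_lit 6) (nat_lit 4) (nat_lit 4) (nat_lit 4) (nat_lit 309) (nat_lit 211) (nat_lit 200))) (XT.nd (nat_lit 78) (nat_lit 76) (nat_lit 0) (XT.lf (nat_lit 0) (nat_lit 22557230802) (nat_lit 152) (nat_lit 2102339564) (nat_lit 0) (nat_lit 19661189373) (nat_lit 4) (nat_lit 5) (nat_lit 6) (nat_lit 4) (nat_lit 4) (nat_lit 4) (nat_lit 310) (nat_lit 211) (nat_lit 199)) (XT.lf (nat_lit 0) (nat_lit 2362061083) (nat_lit 76) (nat_lit 23556300595) (nat_lit 76) (nat_lit 20486978223) (nat_lit 3) (nat_lit 4) (nat_lit 4) (nat_lit 5) (nat_lit 4) (nat_lit 4) (nat_lit 311) (nat_lit 211) (nat_lit 198)))) (XT.nd (nat_lit 156) (nat_lit 0) (nat_lit 0) (XT.nd (nat_lit 78) (nat_lit 0) (nat_lit 0) (XT.lf (nat_lit 0) (nat_lit 7007518460) (nat_lit 76) (nat_lit 22411253527) (nat_lit 76) (nat_lit 19176901686) (nat_lit 3) (nat_lit 4) (nat_lit 4) (nat_lit 5) (nat_lit 4) (nat_lit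 4) (nat_lit 312) (nat_lit 211) (nat_lit 197)) (XT.lf (nat_lit 0) (nat_lit 11775580339) (nat_lit 76) (nat_lit 21257306998) (nat_lit 76) (nat_lit 17865784233) (nat_lit 3) (nat_lit 4) (nat_lit 4) (nat_lit 5) (nat_lit 4) (nat_lit 4) (nat_lit 313) (nat_lit 211) (nat_lit 196))) (XT.nd (nat_lit 78) (nat_lit 0) (nat_lit 0) (XT.lf (nat_lit 0) (nat_lit 16677599249) (nat_lit 76) (nat_lit 20091713516) (nat_lit 76) (nat_lit 16550504157) (nat_lit 3) (nat_lit 4) (nat_lit 4) (nat_lit 5) (nat_lit 4) (nat_lit 4) (nat_lit 314) (nat_lit 211) (nat_lit 195)) (XT.nd (nat_lit 78) (nat_lit 0) (nat_lit 0) (XT.lf (nat_lit 0) (nat_lit 21725246662) (nat_lit 76) (nat_lit 18911697858) (nat_lit 76) (nat_lit 15227929839) (nat_lit 3) (nat_lit 4) (nat_lit 4) (nat_lit 5) (nat_lit 4) (nat_lit 4) (nat_lit 315) (nat_lit 211) (nat_lit 194)) (XT.lf (nat_lit 0) (nat_lit 26930540788) (nat_lit 76) (nat_lit 17714450465) (nat_lit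 76) (nat_lit 13894912293) (nat_lit 3) (nat_lit 4) (nat_lit 4) (nat_lit 5) (nat_lit 4) (nat_lit 4) (nat_lit 316) (nat_lit 211) (nat_lit 193))))))) (XT.nd (nat_lit 702) (nat_lit 152) (nat_lit 0) (XT.nd (nat_lit 312) (nat_lit 0) (nat_lit 0) (XT.nd (nat_lit 156) (nat_lit 0) (nat_lit 0) (XT.nd (nat_lit 78) (nat_lit 0) (nat_lit 0) (XT.lf (nat_lit 0) (nat_lit 32305875182) (nat_lit 76) (nat_lit 16497120745) (nat_lit 76) (nat_lit 12548277666) (nat_lit 3) (nat_lit 4) (nat_lit 4) (nat_lit 5) (nat_lit 4) (nat_lit 4) (nat_lit 317) (nat_lit 211) (nat_lit 192)) (XT.lf (nat_lit 0) (nat_lit 37864048262) (nat_lit 76) (nat_lit 15256810297) (nat_lit 76) (nat_lit 11184819686) (nat_lit 3) (nat_lit 4) (nat_lit 4) (nat_lit 5) (nat_lit 4) (nat_lit 4) (nat_lit 318) (nat_lit 211) (nat_lit 191))) (XT.nd (nat_lit 78) (nat_lit 0) (nat_lit 0) (XT.lf (nat_lit 0) (nat_lit 43618293771) (nat_lit 76) (nat_lit 13990565998)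 (nat_lit 76) (nat_lit 9801292024) (nat_lit 3) (nat_lit 4) (nat_lit 4) (nat_lit 5) (nat_lit 4) (nat_lit 4) (nat_lit 319) (nat_lit 211) (nat_lit 190)) (XT.lf (nat_lit 0) (nat_lit 49582312295) (nat_lit 76) (nat_lit 12695372982) (nat_lit 76) (nat_lit 8394400568) (nat_lit 3) (nat_lit 4) (nat_lit 4) (nat_lit 5) (nat_lit 4) (nat_lit 4) (nat_lit 320) (nat_lit 211) (nat_lit 189)))) (XT.nd (nat_lit 156) (nat_lit 0) (nat_lit 0) (XT.nd (nat_lit 78) (nat_lit 0) (nat_lit 0) (XT.lf (nat_lit 0) (nat_lit 55770303878) (nat_lit 76) (nat_lit 11368147457) (nat_lit 76) (nat_lit 6960795575) (nat_lit 3) (nat_lit 4) (nat_lit 4) (nat_lit 5) (nat_lit 4) (nat_lit 4) (nat_lit 321) (nat_lit 211) (nat_lit 188)) (XT.lf (nat_lit 0) (nat_lit 62197001833) (nat_lit 76) (nat_lit 10005729361) (nat_lit 76) (nat_lit 5497063700) (nat_lit 3) (nat_lit 4) (nat_lit 4) (nat_lit 5) (nat_lit 4) (nat_lit 4) (nat_lit 322) (nat_lit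 211) (nat_lit 187))) (XT.nd (nat_lit 78) (nat_lit 0) (nat_lit 0) (XT.lf (nat_lit 0) (nat_lit 68877707821) (nat_lit 76) (nat_lit 8604874841) (nat_lit 76) (nat_lit 3999719867) (nat_lit 3) (nat_lit 4) (nat_lit 4) (nat_lit 5) (nat_lit 4) (nat_lit 4) (nat_lit 323) (nat_lit 211) (nat_lit 186)) (XT.nd (nat_lit 78) (nat_lit 0) (nat_lit 0) (XT.lf (nat_lit 0) (nat_lit 75828328287) (nat_lit 76) (nat_lit 7162248530) (nat_lit 76) (nat_lit 2465198973) (nat_lit 3) (nat_lit 4) (nat_lit 4) (nat_lit 5) (nat_lit 4) (nat_lit 4) (nat_lit 324) (nat_lit 211) (nat_lit 185)) (XT.lf (nat_lit 0) (nat_lit 83065412325) (nat_lit 76) (nat_lit 5674415603) (nat_lit 76) (nat_lit 889847395) (nat_lit 3) (nat_lit 4) (nat_lit 4) (nat_lit 5) (nat_lit 4) (nat_lit 4) (nat_lit 325) (nat_lit 211) (nat_lit 184)))))) (XT.nd (nat_lit 312) (nat_lit 0) (nat_lit 0) (XT.nd (nat_lit 156) (nat_lit 76) (nat_lit 0) (XT.nd (nat_lit 78)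 (nat_lit 0) (nat_lit 0) (XT.lf (nat_lit 0) (nat_lit 706718401) (nat_lit 152) (nat_lit 3419146582) (nat_lit 76) (nat_lit 89887504069) (nat_lit 2) (nat_lit 5) (nat_lit 4) (nat_lit 5) (nat_lit 3) (nat_lit 4) (nat_lit 326) (nat_lit 211) (nat_lit 183)) (XT.lf (nat_lit 0) (nat_lit 2321691693) (nat_lit 152) (nat_lit 187833330) (nat_lit 76) (nat_lit 96107608147) (nat_lit 2) (nat_lit 5) (nat_lit 4) (nat_lit 5) (nat_lit 3) (nat_lit 4) (nat_lit 327) (nat_lit 211) (nat_lit 182))) (XT.nd (nat_lit 78) (nat_lit 0) (nat_lit 0) (XT.lf (nat_lit 0) (nat_lit 3255458369) (nat_lit 76) (nat_lit 782766787) (nat_lit 152) (nat_lit 99411857174) (nat_lit 1) (nat_lit 5) (nat_lit 2) (nat_lit 5) (nat_lit 3) (nat_lit 4) (nat_lit 328) (nat_lit 211) (nat_lit 181)) (XT.lf (nat_lit 0) (nat_lit 5830125711) (nat_lit 152) (nat_lit 101717276625) (nat_lit 0) (nat_lit 977835221) (nat_lit 1) (nat_lit 5) (nat_lit 3) (nat_lit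 4) (nat_lit 1) (nat_lit 4) (nat_lit 329) (nat_lit 211) (nat_lit 180)))) (XT.nd (nat_lit 156) (nat_lit 0) (nat_lit 0) (XT.nd (nat_lit 78) (nat_lit 0) (nat_lit 0) (XT.lf (nat_lit 0) (nat_lit 7696092479) (nat_lit 152) (nat_lit 103380374215) (nat_lit 0) (nat_lit 2778494225) (nat_lit 1) (nat_lit 5) (nat_lit 3) (nat_lit 4) (nat_lit 1) (nat_lit 4) (nat_lit 330) (nat_lit 211) (nat_lit 179)) (XT.lf (nat_lit 0) (nat_lit 9628347056) (nat_lit 152) (nat_lit 105175655306) (nat_lit 0) (nat_lit 4648550930) (nat_lit 1) (nat_lit 5) (nat_lit 3) (nat_lit 4) (nat_lit 1) (nat_lit 4) (nat_lit 331) (nat_lit 211) (nat_lit 178))) (XT.nd (nat_lit 78) (nat_lit 0) (nat_lit 0) (XT.lf (nat_lit 0) (nat_lit 11631490048) (nat_lit 152) (nat_lit 107107394376) (nat_lit 0) (nat_lit 6592457854) (nat_lit 1) (nat_lit 5) (nat_lit 3) (nat_lit 4) (nat_lit 1) (nat_lit 4) (nat_lit 332) (nat_lit 211) (nat_lit 177)) (XT.nd (nat_lit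 78) (nat_lit 0) (nat_lit 0) (XT.lf (nat_lit 0) (nat_lit 13710290844) (nat_lit 152) (nat_lit 109180190803) (nat_lit 0) (nat_lit 8614843347) (nat_lit 1) (nat_lit 5) (nat_lit 3) (nat_lit 4) (nat_lit 1) (nat_lit 4) (nat_lit 333) (nat_lit 211) (nat_lit 176)) (XT.lf (nat_lit 0) (nat_lit 15869698968) (nat_lit 152) (nat_lit 111398979818) (nat_lit 0) (nat_lit 10720522611) (nat_lit 1) (nat_lit 5) (nat_lit 3) (nat_lit 4) (nat_lit 1) (nat_lit 4) (nat_lit 334) (nat_lit 211) (nat_lit 175))))))))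
noncomputable def xc33 : XT := (XT.nd (nat_lit 1326) (nat_lit 0) (nat_lit 0) (XT.nd (nat_lit 624) (nat_lit 0) (nat_lit 0) (XT.nd (nat_lit 312) (nat_lit 0) (nat_lit 0) (XT.nd (nat_lit 156) (nat_lit 0) (nat_lit 0) (XT.nd (nat_lit 78) (nat_lit 0) (nat_lit 0) (XT.lf (nat_lit 0) (nat_lit 18114855869) (nat_lit 152) (nat_lit 113769044251) (nat_lit 0) (nat_lit 12914509169) (nat_lit 1) (nat_lit 5) (nat_lit 3) (nat_lit 4) (nat_lit 1) (nat_lit 4) (nat_lit 335) (nat_lit 211) (nat_lit 174)) (XT.lf (nat_lit 0) (nat_lit 20451107158) (nat_lit 152) (nat_lit 116296027114) (nat_lit 0) (nat_lit 15202026799) (nat_lit 1) (nat_lit 5) (nat_lit 3) (nat_lit 4) (nat_lit 1) (nat_lit 4) (nat_lit 336) (nat_lit 211) (nat_lit 173))) (XT.nd (nat_lit 78) (nat_lit 0) (nat_lit 0) (XT.lf (nat_lit 0) (nat_lit 22884015339) (nat_lit 152) (nat_lit 118985945030) (nat_lit 0) (nat_lit 17588521970) (nat_lit 1) (nat_lit 5) (nat_lit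 3) (nat_lit 4) (nat_lit 1) (nat_lit 4) (nat_lit 337) (nat_lit 211) (nat_lit 172)) (XT.lf (nat_lit 0) (nat_lit 25419373049) (nat_lit 152) (nat_lit 121845202569) (nat_lit 0) (nat_lit 20079676815) (nat_lit 1) (nat_lit 5) (nat_lit 3) (nat_lit 4) (nat_lit 1) (nat_lit 4) (nat_lit 338) (nat_lit 211) (nat_lit 171)))) (XT.nd (nat_lit 156) (nat_lit 0) (nat_lit 0) (XT.nd (nat_lit 78) (nat_lit 0) (nat_lit 0) (XT.lf (nat_lit 0) (nat_lit 28063216856) (nat_lit 152) (nat_lit 124880607484) (nat_lit 0) (nat_lit 22681422654) (nat_lit 1) (nat_lit 5) (nat_lit 3) (nat_lit 4) (nat_lit 1) (nat_lit 4) (nat_lit 339) (nat_lit 211) (nat_lit 170)) (XT.lf (nat_lit 0) (nat_lit 30821841625) (nat_lit 152) (nat_lit 128099386932) (nat_lit 0) (nat_lit 25399954120) (nat_lit 1) (nat_lit 5) (nat_lit 3) (nat_lit 4) (nat_lit 1) (nat_lit 4) (nat_lit 340) (nat_lit 211) (nat_lit 169))) (XT.nd (nat_lit 78) (nat_lit 0) (nat_lit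 0) (XT.lf (nat_lit 0) (nat_lit 33701815510) (nat_lit 152) (nat_lit 131509204671) (nat_lit 0) (nat_lit 28241743908) (nat_lit 1) (nat_lit 5) (nat_lit 3) (nat_lit 4) (nat_lit 1) (nat_lit 4) (nat_lit 341) (nat_lit 211) (nat_lit 168)) (XT.lf (nat_lit 0) (nat_lit 36709995593) (nat_lit 152) (nat_lit 135118179317) (nat_lit 0) (nat_lit 31213558183) (nat_lit 1) (nat_lit 5) (nat_lit 3) (nat_lit 4) (nat_lit 1) (nat_lit 4) (nat_lit 342) (nat_lit 211) (nat_lit 167))))) (XT.nd (nat_lit 312) (nat_lit 0) (nat_lit 0) (XT.nd (nat_lit 156) (nat_lit 0) (nat_lit 0) (XT.nd (nat_lit 78) (nat_lit 0) (nat_lit 0) (XT.lf (nat_lit 0) (nat_lit 39853544206) (nat_lit 152) (nat_lit 138934903666) (nat_lit 0) (nat_lit 34322472694) (nat_lit 1) (nat_lit 5) (nat_lit 3) (nat_lit 4) (nat_lit 1) (nat_lit 4) (nat_lit 343) (nat_lit 211) (nat_lit 166)) (XT.lf (nat_lit 0) (nat_lit 43139945989) (nat_lit 152) (nat_lit 142968465157)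 (nat_lit 0) (nat_lit 37575889618) (nat_lit 1) (nat_lit 5) (nat_lit 3) (nat_lit 4) (nat_lit 1) (nat_lit 4) (nat_lit 344) (nat_lit 211) (nat_lit 165))) (XT.nd (nat_lit 78) (nat_lit 0) (nat_lit 0) (XT.lf (nat_lit 0) (nat_lit 46577025708) (nat_lit 152) (nat_lit 147228467507) (nat_lit 0) (nat_lit 40981555186) (nat_lit 1) (nat_lit 5) (nat_lit 3) (nat_lit 4) (nat_lit 1) (nat_lit 4) (nat_lit 345) (nat_lit 211) (nat_lit 164)) (XT.lf (nat_lit 0) (nat_lit 50172966887) (nat_lit 152) (nat_lit 151725053580) (nat_lit 0) (nat_lit 44547578125) (nat_lit 1) (nat_lit 5) (nat_lit 3) (nat_lit 4) (nat_lit 1) (nat_lit 4) (nat_lit 346) (nat_lit 211) (nat_lit 163)))) (XT.nd (nat_lit 156) (nat_lit 0) (nat_lit 0) (XT.nd (nat_lit 78) (nat_lit 0) (nat_lit 0) (XT.lf (nat_lit 0) (nat_lit 53936331291) (nat_lit 152) (nat_lit 156468929532) (nat_lit 0) (nat_lit 48282448967) (nat_lit 1) (nat_lit 5) (nat_lit 3) (nat_lit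 4) (nat_lit 1) (nat_lit 4) (nat_lit 347) (nat_lit 211) (nat_lit 162)) (XT.lf (nat_lit 0) (nat_lit 57876079309) (nat_lit 152) (nat_lit 161471390307) (nat_lit 0) (nat_lit 52195060260) (nat_lit 1) (nat_lit 5) (nat_lit 3) (nat_lit 4) (nat_lit 1) (nat_lit 4) (nat_lit 348) (nat_lit 211) (nat_lit 161))) (XT.nd (nat_lit 78) (nat_lit 0) (nat_lit 0) (XT.lf (nat_lit 0) (nat_lit 62001591296) (nat_lit 152) (nat_lit 166744346525) (nat_lit 0) (nat_lit 56294727747) (nat_lit 1) (nat_lit 5) (nat_lit 3) (nat_lit 4) (nat_lit 1) (nat_lit 4) (nat_lit 349) (nat_lit 211) (nat_lit 160)) (XT.nd (nat_lit 78) (nat_lit 0) (nat_lit 0) (XT.lf (nat_lit 0) (nat_lit 66322689899) (nat_lit 152) (nat_lit 172300352844) (nat_lit 0) (nat_lit 60591212540) (nat_lit 1) (nat_lit 5) (nat_lit 3) (nat_lit 4) (nat_lit 1) (nat_lit 4) (nat_lit 350) (nat_lit 211) (nat_lit 159)) (XT.lf (nat_lit 0) (nat_lit 70849663447) (nat_lit 152)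 (nat_lit 178152637851) (nat_lit 0) (nat_lit 65094744364) (nat_lit 1) (nat_lit 5) (nat_lit 3) (nat_lit 4) (nat_lit 1) (nat_lit 4) (nat_lit 351) (nat_lit 211) (nat_lit 158))))))) (XT.nd (nat_lit 702) (nat_lit 0) (nat_lit 0) (XT.nd (nat_lit 312) (nat_lit 0) (nat_lit 0) (XT.nd (nat_lit 156) (nat_lit 0) (nat_lit 0) (XT.nd (nat_lit 78) (nat_lit 0) (nat_lit 0) (XT.lf (nat_lit 0) (nat_lit 75593290449) (nat_lit 152) (nat_lit 184315135557) (nat_lit 0) (nat_lit 69816045915) (nat_lit 1) (nat_lit 5) (nat_lit 3) (nat_lit 4) (nat_lit 1) (nat_lit 4) (nat_lit 352) (nat_lit 211) (nat_lit 157)) (XT.lf (nat_lit 0) (nat_lit 80564865255) (nat_lit 152) (nat_lit 190802518576) (nat_lit 0) (nat_lit 74766358387) (nat_lit 1) (nat_lit 5) (nat_lit 3) (nat_lit 4) (nat_lit 1) (nat_lit 4) (nat_lit 353) (nat_lit 211) (nat_lit 156))) (XT.nd (nat_lit 78) (nat_lit 0) (nat_lit 0) (XT.lf (nat_lit 0) (nat_lit 85776224948)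 (nat_lit 152) (nat_lit 197630233058) (nat_lit 0) (nat_lit 79957468238) (nat_lit 1) (nat_lit 5) (nat_lit 3) (nat_lit 4) (nat_lit 1) (nat_lit 4) (nat_lit 354) (nat_lit 211) (nat_lit 155)) (XT.lf (nat_lit 0) (nat_lit 91239777527) (nat_lit 152) (nat_lit 204814535466) (nat_lit 0) (nat_lit 85401735253) (nat_lit 1) (nat_lit 5) (nat_lit 3) (nat_lit 4) (nat_lit 1) (nat_lit 4) (nat_lit 355) (nat_lit 211) (nat_lit 154)))) (XT.nd (nat_lit 156) (nat_lit 0) (nat_lit 0) (XT.nd (nat_lit 78) (nat_lit 0) (nat_lit 0) (XT.lf (nat_lit 0) (nat_lit 96968531452) (nat_lit 152) (nat_lit 212372531283) (nat_lit 0) (nat_lit 91112121973) (nat_lit 1) (nat_lit 5) (nat_lit 3) (nat_lit 4) (nat_lit 1) (nat_lit 4) (nat_lit 356) (nat_lit 211) (nat_lit 153)) (XT.lf (nat_lit 0) (nat_lit 102976126611) (nat_lit 152) (nat_lit 220322215735) (nat_lit 0) (nat_lit 97102224558) (nat_lit 1) (nat_lit 5) (nat_lit 3) (nat_lit 4) (nat_lit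 1) (nat_lit 4) (nat_lit 357) (nat_lit 211) (nat_lit 152))) (XT.nd (nat_lit 78) (nat_lit 0) (nat_lit 0) (XT.lf (nat_lit 0) (nat_lit 109276866803) (nat_lit 152) (nat_lit 228682516644) (nat_lit 0) (nat_lit 103386305154) (nat_lit 1) (nat_lit 5) (nat_lit 3) (nat_lit 4) (nat_lit 1) (nat_lit 4) (nat_lit 358) (nat_lit 211) (nat_lit 151)) (XT.nd (nat_lit 78) (nat_lit 0) (nat_lit 0) (XT.lf (nat_lit 0) (nat_lit 115885753790) (nat_lit 152) (nat_lit 237473339487) (nat_lit 0) (nat_lit 109979325861) (nat_lit 1) (nat_lit 5) (nat_lit 3) (nat_lit 4) (nat_lit 1) (nat_lit 4) (nat_lit 359) (nat_lit 211) (nat_lit 150)) (XT.lf (nat_lit 0) (nat_lit 122818523019) (nat_lit 152) (nat_lit 246715614795) (nat_lit 0) (nat_lit 116896984345) (nat_lit 1) (nat_lit 5) (nat_lit 3) (nat_lit 4) (nat_lit 1) (nat_lit 4) (nat_lit 360) (nat_lit 211) (nat_lit 149)))))) (XT.nd (nat_lit 32448) (nat_lit 0) (nat_lit 380) (XT.nd (nat_lit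 156) (nat_lit 0) (nat_lit 0) (XT.nd (nat_lit 78) (nat_lit 0) (nat_lit 0) (XT.lf (nat_lit 0) (nat_lit 130091681081) (nat_lit 152) (nat_lit 256431347986) (nat_lit 0) (nat_lit 124155751222) (nat_lit 1) (nat_lit 5) (nat_lit 3) (nat_lit 4) (nat_lit 1) (nat_lit 4) (nat_lit 361) (nat_lit 211) (nat_lit 148)) (XT.lf (nat_lit 0) (nat_lit 137722545020) (nat_lit 152) (nat_lit 266643671758) (nat_lit 0) (nat_lit 131772909271) (nat_lit 1) (nat_lit 5) (nat_lit 3) (nat_lit 4) (nat_lit 1) (nat_lit 4) (nat_lit 362) (nat_lit 211) (nat_lit 147))) (XT.nd (nat_lit 78) (nat_lit 0) (nat_lit 0) (XT.lf (nat_lit 0) (nat_lit 145729283560) (nat_lit 152) (nat_lit 277376901167) (nat_lit 0) (nat_lit 139766594582) (nat_lit 1) (nat_lit 5) (nat_lit 3) (nat_lit 4) (nat_lit 1) (nat_lit 4) (nat_lit 363) (nat_lit 211) (nat_lit 146)) (XT.lf (nat_lit 0) (nat_lit 154130960364) (nat_lit 152) (nat_lit 288656591521) (nat_lit 0)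 (nat_lit 148155839739) (nat_lit 1) (nat_lit 5) (nat_lit 3) (nat_lit 4) (nat_lit 1) (nat_lit 4) (nat_lit 364) (nat_lit 211) (nat_lit 145)))) (XT.nd (nat_lit 156) (nat_lit 76) (nat_lit 0) (XT.nd (nat_lit 78) (nat_lit 0) (nat_lit 0) (XT.lf (nat_lit 0) (nat_lit 3784490831) (nat_lit 152) (nat_lit 4409306652) (nat_lit 0) (nat_lit 3784490831) (nat_lit 7) (nat_lit 5) (nat_lit 9) (nat_lit 4) (nat_lit 7) (nat_lit 4) (nat_lit 296) (nat_lit 212) (nat_lit 212)) (XT.lf (nat_lit 0) (nat_lit 11028755270) (nat_lit 152) (nat_lit 3262509851) (nat_lit 0) (nat_lit 10685670855) (nat_lit 7) (nat_lit 5) (nat_lit 9) (nat_lit 4) (nat_lit 7) (nat_lit 4) (nat_lit 297) (nat_lit 212) (nat_lit 211))) (XT.nd (nat_lit 78) (nat_lit 0) (nat_lit 0) (XT.lf (nat_lit 0) (nat_lit 2461330009) (nat_lit 76) (nat_lit 12130240931) (nat_lit 76) (nat_lit 11460409454) (nat_lit 6) (nat_lit 4) (nat_lit 7) (nat_lit 5) (nat_lit 7) (nat_lit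 4) (nat_lit 298) (nat_lit 212) (nat_lit 210)) (XT.nd (nat_lit 78) (nat_lit 0) (nat_lit 0) (XT.lf (nat_lit 0) (nat_lit 8398828056) (nat_lit 76) (nat_lit 9882836481) (nat_lit 76) (nat_lit 8901817327) (nat_lit 6) (nat_lit 4) (nat_lit 7) (nat_lit 5) (nat_lit 7) (nat_lit 4) (nat_lit 299) (nat_lit 212) (nat_lit 209)) (XT.lf (nat_lit 0) (nat_lit 14456247880) (nat_lit 76) (nat_lit 7598952993) (nat_lit 76) (nat_lit 6321564622) (nat_lit 6) (nat_lit 4) (nat_lit 7) (nat_lit 5) (nat_lit 7) (nat_lit 4) (nat_lit 300) (nat_lit 212) (nat_lit 208))))))))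
noncomputable def xc34 : XT := (XT.nd (nat_lit 1326) (nat_lit 152) (nat_lit 0) (XT.nd (nat_lit 624) (nat_lit 76) (nat_lit 0) (XT.nd (nat_lit 312) (nat_lit 0) (nat_lit 0) (XT.nd (nat_lit 156) (nat_lit 152) (nat_lit 0) (XT.nd (nat_lit 78) (nat_lit 0) (nat_lit 0) (XT.lf (nat_lit 0) (nat_lit 20648011909) (nat_lit 76) (nat_lit 5273152648) (nat_lit 76) (nat_lit 3713507880) (nat_lit 6) (nat_lit 4) (nat_lit 7) (nat_lit 5) (nat_lit 7) (nat_lit 4) (nat_lit 301) (nat_lit 212) (nat_lit 207)) (XT.lf (nat_lit 0) (nat_lit 26988862437) (nat_lit 76) (nat_lit 2899897826) (nat_lit 76) (nat_lit 1071437442) (nat_lit 6) (nat_lit 4) (nat_lit 7) (nat_lit 5) (nat_lit 7) (nat_lit 4) (nat_lit 302) (nat_lit 212) (nat_lit 206))) (XT.nd (nat_lit 78) (nat_lit 0) (nat_lit 0) (XT.lf (nat_lit 0) (nat_lit 1149024114) (nat_lit 76) (nat_lit 428292652) (nat_lit 152) (nat_lit 30777026013) (nat_lit 4) (nat_lit 5) (nat_lit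 5) (nat_lit 5) (nat_lit 6) (nat_lit 4) (nat_lit 303) (nat_lit 212) (nat_lit 205)) (XT.lf (nat_lit 0) (nat_lit 4336630543) (nat_lit 152) (nat_lit 27360897554) (nat_lit 0) (nat_lit 2119202976) (nat_lit 4) (nat_lit 5) (nat_lit 6) (nat_lit 4) (nat_lit 4) (nat_lit 4) (nat_lit 304) (nat_lit 212) (nat_lit 204)))) (XT.nd (nat_lit 156) (nat_lit 0) (nat_lit 0) (XT.nd (nat_lit 78) (nat_lit 0) (nat_lit 0) (XT.lf (nat_lit 0) (nat_lit 7157063449) (nat_lit 152) (nat_lit 23480651959) (nat_lit 0) (nat_lit 4718480610) (nat_lit 4) (nat_lit 5) (nat_lit 6) (nat_lit 4) (nat_lit 4) (nat_lit 4) (nat_lit 305) (nat_lit 212) (nat_lit 203)) (XT.lf (nat_lit 0) (nat_lit 10038643954) (nat_lit 152) (nat_lit 19548656352) (nat_lit 0) (nat_lit 7389437045) (nat_lit 4) (nat_lit 5) (nat_lit 6) (nat_lit 4) (nat_lit 4) (nat_lit 4) (nat_lit 306) (nat_lit 212) (nat_lit 202))) (XT.nd (nat_lit 78) (nat_lit 0) (nat_lit 0) (XT.lf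 (nat_lit 0) (nat_lit 12988232963) (nat_lit 152) (nat_lit 15555548838) (nat_lit 0) (nat_lit 10138431702) (nat_lit 4) (nat_lit 5) (nat_lit 6) (nat_lit 4) (nat_lit 4) (nat_lit 4) (nat_lit 307) (nat_lit 212) (nat_lit 201)) (XT.lf (nat_lit 0) (nat_lit 16012853306) (nat_lit 152) (nat_lit 11491822019) (nat_lit 0) (nat_lit 12972009806) (nat_lit 4) (nat_lit 5) (nat_lit 6) (nat_lit 4) (nat_lit 4) (nat_lit 4) (nat_lit 308) (nat_lit 212) (nat_lit 200))))) (XT.nd (nat_lit 312) (nat_lit 0) (nat_lit 0) (XT.nd (nat_lit 156) (nat_lit 76) (nat_lit 0) (XT.nd (nat_lit 78) (nat_lit 0) (nat_lit 0) (XT.lf (nat_lit 0) (nat_lit 19119706461) (nat_lit 152) (nat_lit 7347800354) (nat_lit 0) (nat_lit 15896917971) (nat_lit 4) (nat_lit 5) (nat_lit 6) (nat_lit 4) (nat_lit 4) (nat_lit 4) (nat_lit 309) (nat_lit 212) (nat_lit 199)) (XT.lf (nat_lit 0) (nat_lit 22316189697) (nat_lit 152) (nat_lit 3113617125) (nat_lit 0)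 (nat_lit 18920120264) (nat_lit 4) (nat_lit 5) (nat_lit 6) (nat_lit 4) (nat_lit 4) (nat_lit 4) (nat_lit 310) (nat_lit 212) (nat_lit 198))) (XT.nd (nat_lit 78) (nat_lit 0) (nat_lit 0) (XT.lf (nat_lit 0) (nat_lit 1261174516) (nat_lit 76) (nat_lit 24368429642) (nat_lit 76) (nat_lit 20807330739) (nat_lit 3) (nat_lit 4) (nat_lit 4) (nat_lit 5) (nat_lit 4) (nat_lit 4) (nat_lit 311) (nat_lit 212) (nat_lit 197)) (XT.lf (nat_lit 0) (nat_lit 5853135129) (nat_lit 76) (nat_lit 23246969350) (nat_lit 76) (nat_lit 19528699524) (nat_lit 3) (nat_lit 4) (nat_lit 4) (nat_lit 5) (nat_lit 4) (nat_lit 4) (nat_lit 312) (nat_lit 212) (nat_lit 196)))) (XT.nd (nat_lit 156) (nat_lit 0) (nat_lit 0) (XT.nd (nat_lit 78) (nat_lit 0) (nat_lit 0) (XT.lf (nat_lit 0) (nat_lit 10570247709) (nat_lit 76) (nat_lit 22115486418) (nat_lit 76) (nat_lit 18247529998) (nat_lit 3) (nat_lit 4) (nat_lit 4) (nat_lit 5) (nat_lit 4) (nat_lit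 4) (nat_lit 313) (nat_lit 212) (nat_lit 195)) (XT.lf (nat_lit 0) (nat_lit 15423743476) (nat_lit 76) (nat_lit 20971286838) (nat_lit 76) (nat_lit 16960771757) (nat_lit 3) (nat_lit 4) (nat_lit 4) (nat_lit 5) (nat_lit 4) (nat_lit 4) (nat_lit 314) (nat_lit 212) (nat_lit 194))) (XT.nd (nat_lit 78) (nat_lit 0) (nat_lit 0) (XT.lf (nat_lit 0) (nat_lit 20425178373) (nat_lit 76) (nat_lit 19811646325) (nat_lit 76) (nat_lit 15665361092) (nat_lit 3) (nat_lit 4) (nat_lit 4) (nat_lit 5) (nat_lit 4) (nat_lit 4) (nat_lit 315) (nat_lit 212) (nat_lit 193)) (XT.nd (nat_lit 78) (nat_lit 0) (nat_lit 0) (XT.lf (nat_lit 0) (nat_lit 25586460578) (nat_lit 76) (nat_lit 18633803831) (nat_lit 76) (nat_lit 14358213690) (nat_lit 3) (nat_lit 4) (nat_lit 4) (nat_lit 5) (nat_lit 4) (nat_lit 4) (nat_lit 316) (nat_lit 212) (nat_lit 192)) (XT.lf (nat_lit 0) (nat_lit 30919878858) (nat_lit 76) (nat_lit 17434954969) (nat_lit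 76) (nat_lit 13036217296) (nat_lit 3) (nat_lit 4) (nat_lit 4) (nat_lit 5) (nat_lit 4) (nat_lit 4) (nat_lit 317) (nat_lit 212) (nat_lit 191))))))) (XT.nd (nat_lit 702) (nat_lit 76) (nat_lit 0) (XT.nd (nat_lit 312) (nat_lit 76) (nat_lit 0) (XT.nd (nat_lit 156) (nat_lit 0) (nat_lit 0) (XT.nd (nat_lit 78) (nat_lit 0) (nat_lit 0) (XT.lf (nat_lit 0) (nat_lit 36438131828) (nat_lit 76) (nat_lit 16212245336) (nat_lit 76) (nat_lit 11696224301) (nat_lit 3) (nat_lit 4) (nat_lit 4) (nat_lit 5) (nat_lit 4) (nat_lit 4) (nat_lit 318) (nat_lit 212) (nat_lit 190)) (XT.lf (nat_lit 0) (nat_lit 42154358186) (nat_lit 76) (nat_lit 14962763719) (nat_lit 76) (nat_lit 10335044243) (nat_lit 3) (nat_lit 4) (nat_lit 4) (nat_lit 5) (nat_lit 4) (nat_lit 4) (nat_lit 319) (nat_lit 212) (nat_lit 189))) (XT.nd (nat_lit 78) (nat_lit 0) (nat_lit 0) (XT.lf (nat_lit 0) (nat_lit 48082167994) (nat_lit 76) (nat_lit 13683535163)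 (nat_lit 76) (nat_lit 8949436219) (nat_lit 3) (nat_lit 4) (nat_lit 4) (nat_lit 5) (nat_lit 4) (nat_lit 4) (nat_lit 320) (nat_lit 212) (nat_lit 188)) (XT.lf (nat_lit 0) (nat_lit 54235675086) (nat_lit 76) (nat_lit 12371513884) (nat_lit 76) (nat_lit 7536101161) (nat_lit 3) (nat_lit 4) (nat_lit 4) (nat_lit 5) (nat_lit 4) (nat_lit 4) (nat_lit 321) (nat_lit 212) (nat_lit 187)))) (XT.nd (nat_lit 156) (nat_lit 76) (nat_lit 0) (XT.nd (nat_lit 78) (nat_lit 0) (nat_lit 0) (XT.lf (nat_lit 0) (nat_lit 60629530668) (nat_lit 76) (nat_lit 11023576022) (nat_lit 76) (nat_lit 6091673987) (nat_lit 3) (nat_lit 4) (nat_lit 4) (nat_lit 5) (nat_lit 4) (nat_lit 4) (nat_lit 322) (nat_lit 212) (nat_lit 186)) (XT.lf (nat_lit 0) (nat_lit 67278958206) (nat_lit 76) (nat_lit 9636512202) (nat_lit 76) (nat_lit 4612715583) (nat_lit 3) (nat_lit 4) (nat_lit 4) (nat_lit 5) (nat_lit 4) (nat_lit 4) (nat_lit 323) (nat_lit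 212) (nat_lit 185))) (XT.nd (nat_lit 78) (nat_lit 76) (nat_lit 0) (XT.lf (nat_lit 0) (nat_lit 74199789671) (nat_lit 76) (nat_lit 8207019891) (nat_lit 76) (nat_lit 3095704621) (nat_lit 3) (nat_lit 4) (nat_lit 4) (nat_lit 5) (nat_lit 4) (nat_lit 4) (nat_lit 324) (nat_lit 212) (nat_lit 184)) (XT.nd (nat_lit 78) (nat_lit 76) (nat_lit 0) (XT.lf (nat_lit 0) (nat_lit 81408503233) (nat_lit 76) (nat_lit 6731695536) (nat_lit 76) (nat_lit 1537029169) (nat_lit 3) (nat_lit 4) (nat_lit 4) (nat_lit 5) (nat_lit 4) (nat_lit 4) (nat_lit 325) (nat_lit 212) (nat_lit 183)) (XT.lf (nat_lit 0) (nat_lit 64876784) (nat_lit 152) (nat_lit 5141050955) (nat_lit 76) (nat_lit 88856286991) (nat_lit 2) (nat_lit 5) (nat_lit 4) (nat_lit 5) (nat_lit 3) (nat_lit 4) (nat_lit 326) (nat_lit 212) (nat_lit 182)))))) (XT.nd (nat_lit 312) (nat_lit 0) (nat_lit 0) (XT.nd (nat_lit 156) (nat_lit 0) (nat_lit 0) (XT.nd (nat_lit 78)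 (nat_lit 76) (nat_lit 0) (XT.lf (nat_lit 0) (nat_lit 1665208456) (nat_lit 152) (nat_lit 1935972929) (nat_lit 76) (nat_lit 95065547794) (nat_lit 2) (nat_lit 5) (nat_lit 4) (nat_lit 5) (nat_lit 3) (nat_lit 4) (nat_lit 327) (nat_lit 212) (nat_lit 181)) (XT.lf (nat_lit 0) (nat_lit 1423705303) (nat_lit 76) (nat_lit 1915493417) (nat_lit 152) (nat_lit 100162624158) (nat_lit 1) (nat_lit 5) (nat_lit 2) (nat_lit 5) (nat_lit 3) (nat_lit 4) (nat_lit 328) (nat_lit 212) (nat_lit 180))) (XT.nd (nat_lit 78) (nat_lit 0) (nat_lit 0) (XT.lf (nat_lit 0) (nat_lit 4968185049) (nat_lit 76) (nat_lit 133478500) (nat_lit 152) (nat_lit 103476802895) (nat_lit 1) (nat_lit 5) (nat_lit 2) (nat_lit 5) (nat_lit 3) (nat_lit 4) (nat_lit 329) (nat_lit 212) (nat_lit 179)) (XT.lf (nat_lit 0) (nat_lit 6952370477) (nat_lit 152) (nat_lit 105295211413) (nat_lit 0) (nat_lit 1661386673) (nat_lit 1) (nat_lit 5) (nat_lit 3) (nat_lit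 4) (nat_lit 1) (nat_lit 4) (nat_lit 330) (nat_lit 212) (nat_lit 178)))) (XT.nd (nat_lit 156) (nat_lit 0) (nat_lit 0) (XT.nd (nat_lit 78) (nat_lit 0) (nat_lit 0) (XT.lf (nat_lit 0) (nat_lit 8872076608) (nat_lit 152) (nat_lit 107113270028) (nat_lit 0) (nat_lit 3521856736) (nat_lit 1) (nat_lit 5) (nat_lit 3) (nat_lit 4) (nat_lit 1) (nat_lit 4) (nat_lit 331) (nat_lit 212) (nat_lit 177)) (XT.lf (nat_lit 0) (nat_lit 10863268700) (nat_lit 152) (nat_lit 109066701978) (nat_lit 0) (nat_lit 5456633525) (nat_lit 1) (nat_lit 5) (nat_lit 3) (nat_lit 4) (nat_lit 1) (nat_lit 4) (nat_lit 332) (nat_lit 212) (nat_lit 176))) (XT.nd (nat_lit 78) (nat_lit 0) (nat_lit 0) (XT.lf (nat_lit 0) (nat_lit 12930687685) (nat_lit 152) (nat_lit 111160158291) (nat_lit 0) (nat_lit 7470323650) (nat_lit 1) (nat_lit 5) (nat_lit 3) (nat_lit 4) (nat_lit 1) (nat_lit 4) (nat_lit 333) (nat_lit 212) (nat_lit 175)) (XT.nd (nat_lit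 78) (nat_lit 0) (nat_lit 0) (XT.lf (nat_lit 0) (nat_lit 15079255989) (nat_lit 152) (nat_lit 113398623388) (nat_lit 0) (nat_lit 9567721612) (nat_lit 1) (nat_lit 5) (nat_lit 3) (nat_lit 4) (nat_lit 1) (nat_lit 4) (nat_lit 334) (nat_lit 212) (nat_lit 174)) (XT.lf (nat_lit 0) (nat_lit 17314089253) (nat_lit 152) (nat_lit 115787426947) (nat_lit 0) (nat_lit 11753821216) (nat_lit 1) (nat_lit 5) (nat_lit 3) (nat_lit 4) (nat_lit 1) (nat_lit 4) (nat_lit 335) (nat_lit 212) (nat_lit 173))))))))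
noncomputable def xc35 : XT := (XT.nd (nat_lit 1326) (nat_lit 0) (nat_lit 0) (XT.nd (nat_lit 624) (nat_lit 0) (nat_lit 0) (XT.nd (nat_lit 312) (nat_lit 0) (nat_lit 0) (XT.nd (nat_lit 156) (nat_lit 0) (nat_lit 0) (XT.nd (nat_lit 78) (nat_lit 0) (nat_lit 0) (XT.lf (nat_lit 0) (nat_lit 19640508507) (nat_lit 152) (nat_lit 118332256595) (nat_lit 0) (nat_lit 14033827460) (nat_lit 1) (nat_lit 5) (nat_lit 3) (nat_lit 4) (nat_lit 1) (nat_lit 4) (nat_lit 336) (nat_lit 212) (nat_lit 172)) (XT.lf (nat_lit 0) (nat_lit 22064052844) (nat_lit 152) (nat_lit 121039171451) (nat_lit 0) (nat_lit 16413168932) (nat_lit 1) (nat_lit 5) (nat_lit 3) (nat_lit 4) (nat_lit 1) (nat_lit 4) (nat_lit 337) (nat_lit 212) (nat_lit 171))) (XT.nd (nat_lit 78) (nat_lit 0) (nat_lit 0) (XT.lf (nat_lit 0) (nat_lit 24590492609) (nat_lit 152) (nat_lit 123914616551) (nat_lit 0) (nat_lit 18897510729) (nat_lit 1) (nat_lit 5) (nat_lit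 3) (nat_lit 4) (nat_lit 1) (nat_lit 4) (nat_lit 338) (nat_lit 212) (nat_lit 170)) (XT.lf (nat_lit 0) (nat_lit 27225843133) (nat_lit 152) (nat_lit 126965438191) (nat_lit 0) (nat_lit 21492767951) (nat_lit 1) (nat_lit 5) (nat_lit 3) (nat_lit 4) (nat_lit 1) (nat_lit 4) (nat_lit 339) (nat_lit 212) (nat_lit 169)))) (XT.nd (nat_lit 156) (nat_lit 0) (nat_lit 0) (XT.nd (nat_lit 78) (nat_lit 0) (nat_lit 0) (XT.lf (nat_lit 0) (nat_lit 29976379062) (nat_lit 152) (nat_lit 130198900234) (nat_lit 0) (nat_lit 24205119782) (nat_lit 1) (nat_lit 5) (nat_lit 3) (nat_lit 4) (nat_lit 1) (nat_lit 4) (nat_lit 340) (nat_lit 212) (nat_lit 168)) (XT.lf (nat_lit 0) (nat_lit 32848649290) (nat_lit 152) (nat_lit 133622701397) (nat_lit 0) (nat_lit 27041024203) (nat_lit 1) (nat_lit 5) (nat_lit 3) (nat_lit 4) (nat_lit 1) (nat_lit 4) (nat_lit 341) (nat_lit 212) (nat_lit 167))) (XT.nd (nat_lit 78) (nat_lit 0) (nat_lit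 0) (XT.lf (nat_lit 0) (nat_lit 35849492556) (nat_lit 152) (nat_lit 137244993590) (nat_lit 0) (nat_lit 30007233367) (nat_lit 1) (nat_lit 5) (nat_lit 3) (nat_lit 4) (nat_lit 1) (nat_lit 4) (nat_lit 342) (nat_lit 212) (nat_lit 166)) (XT.lf (nat_lit 0) (nat_lit 38986053725) (nat_lit 152) (nat_lit 141074401317) (nat_lit 0) (nat_lit 33110809677) (nat_lit 1) (nat_lit 5) (nat_lit 3) (nat_lit 4) (nat_lit 1) (nat_lit 4) (nat_lit 343) (nat_lit 212) (nat_lit 165))))) (XT.nd (nat_lit 312) (nat_lit 0) (nat_lit 0) (XT.nd (nat_lit 156) (nat_lit 0) (nat_lit 0) (XT.nd (nat_lit 78) (nat_lit 0) (nat_lit 0) (XT.lf (nat_lit 0) (nat_lit 42265800800) (nat_lit 152) (nat_lit 145120042215) (nat_lit 0) (nat_lit 36359142600) (nat_lit 1) (nat_lit 5) (nat_lit 3) (nat_lit 4) (nat_lit 1) (nat_lit 4) (nat_lit 344) (nat_lit 212) (nat_lit 164)) (XT.lf (nat_lit 0) (nat_lit 45696542702) (nat_lit 152) (nat_lit 149391548762)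 (nat_lit 0) (nat_lit 39759966262) (nat_lit 1) (nat_lit 5) (nat_lit 3) (nat_lit 4) (nat_lit 1) (nat_lit 4) (nat_lit 345) (nat_lit 212) (nat_lit 163))) (XT.nd (nat_lit 78) (nat_lit 0) (nat_lit 0) (XT.lf (nat_lit 0) (nat_lit 49286447864) (nat_lit 152) (nat_lit 153899091214) (nat_lit 0) (nat_lit 43321377862) (nat_lit 1) (nat_lit 5) (nat_lit 3) (nat_lit 4) (nat_lit 1) (nat_lit 4) (nat_lit 346) (nat_lit 212) (nat_lit 162)) (XT.lf (nat_lit 0) (nat_lit 53044063679) (nat_lit 152) (nat_lit 158653401812) (nat_lit 0) (nat_lit 47051856952) (nat_lit 1) (nat_lit 5) (nat_lit 3) (nat_lit 4) (nat_lit 1) (nat_lit 4) (nat_lit 347) (nat_lit 212) (nat_lit 161)))) (XT.nd (nat_lit 156) (nat_lit 0) (nat_lit 0) (XT.nd (nat_lit 78) (nat_lit 0) (nat_lit 0) (XT.lf (nat_lit 0) (nat_lit 56978336853) (nat_lit 152) (nat_lit 163665800346) (nat_lit 0) (nat_lit 50960285626) (nat_lit 1) (nat_lit 5) (nat_lit 3) (nat_lit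 4) (nat_lit 1) (nat_lit 4) (nat_lit 348) (nat_lit 212) (nat_lit 160)) (XT.lf (nat_lit 0) (nat_lit 61098634701) (nat_lit 152) (nat_lit 168948221095) (nat_lit 0) (nat_lit 55055969664) (nat_lit 1) (nat_lit 5) (nat_lit 3) (nat_lit 4) (nat_lit 1) (nat_lit 4) (nat_lit 349) (nat_lit 212) (nat_lit 159))) (XT.nd (nat_lit 78) (nat_lit 0) (nat_lit 0) (XT.lf (nat_lit 0) (nat_lit 65414767457) (nat_lit 152) (nat_lit 174513241254) (nat_lit 0) (nat_lit 59348660697) (nat_lit 1) (nat_lit 5) (nat_lit 3) (nat_lit 4) (nat_lit 1) (nat_lit 4) (nat_lit 350) (nat_lit 212) (nat_lit 158)) (XT.nd (nat_lit 78) (nat_lit 0) (nat_lit 0) (XT.lf (nat_lit 0) (nat_lit 69937011628) (nat_lit 152) (nat_lit 180374110870) (nat_lit 0) (nat_lit 63848579417) (nat_lit 1) (nat_lit 5) (nat_lit 3) (nat_lit 4) (nat_lit 1) (nat_lit 4) (nat_lit 351) (nat_lit 212) (nat_lit 157)) (XT.lf (nat_lit 0) (nat_lit 74676134461) (nat_lit 152)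 (nat_lit 186544784395) (nat_lit 0) (nat_lit 68566439916) (nat_lit 1) (nat_lit 5) (nat_lit 3) (nat_lit 4) (nat_lit 1) (nat_lit 4) (nat_lit 352) (nat_lit 212) (nat_lit 156))))))) (XT.nd (nat_lit 702) (nat_lit 0) (nat_lit 0) (XT.nd (nat_lit 312) (nat_lit 0) (nat_lit 0) (XT.nd (nat_lit 156) (nat_lit 0) (nat_lit 0) (XT.nd (nat_lit 78) (nat_lit 0) (nat_lit 0) (XT.lf (nat_lit 0) (nat_lit 79643419583) (nat_lit 152) (nat_lit 193039953908) (nat_lit 0) (nat_lit 73513475195) (nat_lit 1) (nat_lit 5) (nat_lit 3) (nat_lit 4) (nat_lit 1) (nat_lit 4) (nat_lit 353) (nat_lit 212) (nat_lit 155)) (XT.lf (nat_lit 0) (nat_lit 84850693862) (nat_lit 152) (nat_lit 199875084098) (nat_lit 0) (nat_lit 78701463910) (nat_lit 1) (nat_lit 5) (nat_lit 3) (nat_lit 4) (nat_lit 1) (nat_lit 4) (nat_lit 354) (nat_lit 212) (nat_lit 154))) (XT.nd (nat_lit 78) (nat_lit 0) (nat_lit 0) (XT.lf (nat_lit 0) (nat_lit 90310355571)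 (nat_lit 152) (nat_lit 207066449085) (nat_lit 0) (nat_lit 84142758416) (nat_lit 1) (nat_lit 5) (nat_lit 3) (nat_lit 4) (nat_lit 1) (nat_lit 4) (nat_lit 355) (nat_lit 212) (nat_lit 153)) (XT.lf (nat_lit 0) (nat_lit 96035403905) (nat_lit 152) (nat_lit 214631171168) (nat_lit 0) (nat_lit 89850314174) (nat_lit 1) (nat_lit 5) (nat_lit 3) (nat_lit 4) (nat_lit 1) (nat_lit 4) (nat_lit 356) (nat_lit 212) (nat_lit 152)))) (XT.nd (nat_lit 156) (nat_lit 0) (nat_lit 0) (XT.nd (nat_lit 78) (nat_lit 0) (nat_lit 0) (XT.lf (nat_lit 0) (nat_lit 102039469930) (nat_lit 152) (nat_lit 222587261588) (nat_lit 0) (nat_lit 95837720603) (nat_lit 1) (nat_lit 5) (nat_lit 3) (nat_lit 4) (nat_lit 1) (nat_lit 4) (nat_lit 357) (nat_lit 212) (nat_lit 151)) (XT.lf (nat_lit 0) (nat_lit 108336849042) (nat_lit 152) (nat_lit 230953663418) (nat_lit 0) (nat_lit 102119233434) (nat_lit 1) (nat_lit 5) (nat_lit 3) (nat_lit 4) (nat_lit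 1) (nat_lit 4) (nat_lit 358) (nat_lit 212) (nat_lit 150))) (XT.nd (nat_lit 78) (nat_lit 0) (nat_lit 0) (XT.lf (nat_lit 0) (nat_lit 114942535001) (nat_lit 152) (nat_lit 239750296662) (nat_lit 0) (nat_lit 108709808649) (nat_lit 1) (nat_lit 5) (nat_lit 3) (nat_lit 4) (nat_lit 1) (nat_lit 4) (nat_lit 359) (nat_lit 212) (nat_lit 149)) (XT.nd (nat_lit 78) (nat_lit 0) (nat_lit 0) (XT.lf (nat_lit 0) (nat_lit 121872255630) (nat_lit 152) (nat_lit 248998105686) (nat_lit 0) (nat_lit 115625138094) (nat_lit 1) (nat_lit 5) (nat_lit 3) (nat_lit 4) (nat_lit 1) (nat_lit 4) (nat_lit 360) (nat_lit 212) (nat_lit 148)) (XT.lf (nat_lit 0) (nat_lit 129142510265) (nat_lit 152) (nat_lit 258719109083) (nat_lit 0) (nat_lit 122881686838) (nat_lit 1) (nat_lit 5) (nat_lit 3) (nat_lit 4) (nat_lit 1) (nat_lit 4) (nat_lit 361) (nat_lit 212) (nat_lit 147)))))) (XT.nd (nat_lit 32292) (nat_lit 0) (nat_lit 380) (XT.nd (nat_lit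 156) (nat_lit 0) (nat_lit 0) (XT.nd (nat_lit 78) (nat_lit 0) (nat_lit 0) (XT.lf (nat_lit 0) (nat_lit 136770609035) (nat_lit 152) (nat_lit 268936452098) (nat_lit 0) (nat_lit 130496732380) (nat_lit 1) (nat_lit 5) (nat_lit 3) (nat_lit 4) (nat_lit 1) (nat_lit 4) (nat_lit 362) (nat_lit 212) (nat_lit 146)) (XT.lf (nat_lit 0) (nat_lit 144774714081) (nat_lit 152) (nat_lit 279674461738) (nat_lit 0) (nat_lit 138488405779) (nat_lit 1) (nat_lit 5) (nat_lit 3) (nat_lit 4) (nat_lit 1) (nat_lit 4) (nat_lit 363) (nat_lit 212) (nat_lit 145))) (XT.nd (nat_lit 32058) (nat_lit 0) (nat_lit 456) (XT.lf (nat_lit 0) (nat_lit 153173882795) (nat_lit 152) (nat_lit 290958704694) (nat_lit 0) (nat_lit 146875734830) (nat_lit 1) (nat_lit 5) (nat_lit 3) (nat_lit 4) (nat_lit 1) (nat_lit 4) (nat_lit 364) (nat_lit 212) (nat_lit 144)) (XT.lf (nat_lit 0) (nat_lit 614491517) (nat_lit 152) (nat_lit 9807558535) (nat_lit 0)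 (nat_lit 614491517) (nat_lit 7) (nat_lit 5) (nat_lit 9) (nat_lit 4) (nat_lit 7) (nat_lit 4) (nat_lit 294) (nat_lit 213) (nat_lit 213)))) (XT.nd (nat_lit 156) (nat_lit 76) (nat_lit 0) (XT.nd (nat_lit 78) (nat_lit 0) (nat_lit 0) (XT.lf (nat_lit 0) (nat_lit 4525822938) (nat_lit 152) (nat_lit 14298987099) (nat_lit 0) (nat_lit 4165584302) (nat_lit 7) (nat_lit 5) (nat_lit 9) (nat_lit 4) (nat_lit 7) (nat_lit 4) (nat_lit 295) (nat_lit 213) (nat_lit 212)) (XT.lf (nat_lit 0) (nat_lit 7873711215) (nat_lit 152) (nat_lit 8915339661) (nat_lit 0) (nat_lit 7170388165) (nat_lit 7) (nat_lit 5) (nat_lit 9) (nat_lit 4) (nat_lit 7) (nat_lit 4) (nat_lit 296) (nat_lit 213) (nat_lit 211))) (XT.nd (nat_lit 78) (nat_lit 76) (nat_lit 0) (XT.lf (nat_lit 0) (nat_lit 11280619029) (nat_lit 152) (nat_lit 3451356547) (nat_lit 0) (nat_lit 10250548917) (nat_lit 7) (nat_lit 5) (nat_lit 9) (nat_lit 4) (nat_lit 7) (nat_lit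 4) (nat_lit 297) (nat_lit 213) (nat_lit 210)) (XT.nd (nat_lit 78) (nat_lit 0) (nat_lit 0) (XT.lf (nat_lit 0) (nat_lit 2175604660) (nat_lit 76) (nat_lit 12613020690) (nat_lit 76) (nat_lit 11271762901) (nat_lit 6) (nat_lit 4) (nat_lit 7) (nat_lit 5) (nat_lit 7) (nat_lit 4) (nat_lit 298) (nat_lit 213) (nat_lit 209)) (XT.lf (nat_lit 0) (nat_lit 8026784110) (nat_lit 76) (nat_lit 10402636330) (nat_lit 76) (nat_lit 8765009324) (nat_lit 6) (nat_lit 4) (nat_lit 7) (nat_lit 5) (nat_lit 7) (nat_lit 4) (nat_lit 299) (nat_lit 213) (nat_lit 208))))))))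
noncomputable def xc36 : XT := (XT.nd (nat_lit 1326) (nat_lit 152) (nat_lit 0) (XT.nd (nat_lit 624) (nat_lit 76) (nat_lit 0) (XT.nd (nat_lit 312) (nat_lit 0) (nat_lit 0) (XT.nd (nat_lit 156) (nat_lit 152) (nat_lit 0) (XT.nd (nat_lit 78) (nat_lit 0) (nat_lit 0) (XT.lf (nat_lit 0) (nat_lit 14001995745) (nat_lit 76) (nat_lit 8154010070) (nat_lit 76) (nat_lit 6234126667) (nat_lit 6) (nat_lit 4) (nat_lit 7) (nat_lit 5) (nat_lit 7) (nat_lit 4) (nat_lit 300) (nat_lit 213) (nat_lit 207)) (XT.lf (nat_lit 0) (nat_lit 20115466260) (nat_lit 76) (nat_lit 5861788038) (nat_lit 76) (nat_lit 3673089018) (nat_lit 6) (nat_lit 4) (nat_lit 7) (nat_lit 5) (nat_lit 7) (nat_lit 4) (nat_lit 301) (nat_lit 213) (nat_lit 206))) (XT.nd (nat_lit 78) (nat_lit 152) (nat_lit 0) (XT.lf (nat_lit 0) (nat_lit 26381751539) (nat_lit 76) (nat_lit 3520512561) (nat_lit 76) (nat_lit 1075798669) (nat_lit 6) (nat_lit 4) (nat_lit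 7) (nat_lit 5) (nat_lit 7) (nat_lit 4) (nat_lit 302) (nat_lit 213) (nat_lit 205)) (XT.lf (nat_lit 0) (nat_lit 428620454) (nat_lit 76) (nat_lit 1091944440) (nat_lit 152) (nat_lit 30854331720) (nat_lit 4) (nat_lit 5) (nat_lit 5) (nat_lit 5) (nat_lit 6) (nat_lit 4) (nat_lit 303) (nat_lit 213) (nat_lit 204)))) (XT.nd (nat_lit 156) (nat_lit 0) (nat_lit 0) (XT.nd (nat_lit 78) (nat_lit 0) (nat_lit 0) (XT.lf (nat_lit 0) (nat_lit 4228606109) (nat_lit 152) (nat_lit 28164359624) (nat_lit 0) (nat_lit 1446938855) (nat_lit 4) (nat_lit 5) (nat_lit 6) (nat_lit 4) (nat_lit 4) (nat_lit 4) (nat_lit 304) (nat_lit 213) (nat_lit 203)) (XT.lf (nat_lit 0) (nat_lit 7010076066) (nat_lit 152) (nat_lit 24353510257) (nat_lit 0) (nat_lit 4017784743) (nat_lit 4) (nat_lit 5) (nat_lit 6) (nat_lit 4) (nat_lit 4) (nat_lit 4) (nat_lit 305) (nat_lit 213) (nat_lit 202))) (XT.nd (nat_lit 78) (nat_lit 0) (nat_lit 0) (XT.lf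 (nat_lit 0) (nat_lit 9854549000) (nat_lit 152) (nat_lit 20487606296) (nat_lit 0) (nat_lit 6661663325) (nat_lit 4) (nat_lit 5) (nat_lit 6) (nat_lit 4) (nat_lit 4) (nat_lit 4) (nat_lit 306) (nat_lit 213) (nat_lit 201)) (XT.lf (nat_lit 0) (nat_lit 12768797464) (nat_lit 152) (nat_lit 16557443206) (nat_lit 0) (nat_lit 9384869549) (nat_lit 4) (nat_lit 5) (nat_lit 6) (nat_lit 4) (nat_lit 4) (nat_lit 4) (nat_lit 307) (nat_lit 213) (nat_lit 200))))) (XT.nd (nat_lit 312) (nat_lit 76) (nat_lit 0) (XT.nd (nat_lit 156) (nat_lit 0) (nat_lit 0) (XT.nd (nat_lit 78) (nat_lit 0) (nat_lit 0) (XT.lf (nat_lit 0) (nat_lit 15759760146) (nat_lit 152) (nat_lit 12553663458) (nat_lit 0) (nat_lit 12193887241) (nat_lit 4) (nat_lit 5) (nat_lit 6) (nat_lit 4) (nat_lit 4) (nat_lit 4) (nat_lit 308) (nat_lit 213) (nat_lit 199)) (XT.lf (nat_lit 0) (nat_lit 18834558386) (nat_lit 152) (nat_lit 8466734241) (nat_lit 0) (nat_lit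 15095404538) (nat_lit 4) (nat_lit 5) (nat_lit 6) (nat_lit 4) (nat_lit 4) (nat_lit 4) (nat_lit 309) (nat_lit 213) (nat_lit 198))) (XT.nd (nat_lit 78) (nat_lit 0) (nat_lit 0) (XT.lf (nat_lit 0) (nat_lit 22000513131) (nat_lit 152) (nat_lit 4286924773) (nat_lit 0) (nat_lit 18096329814) (nat_lit 4) (nat_lit 5) (nat_lit 6) (nat_lit 4) (nat_lit 4) (nat_lit 4) (nat_lit 310) (nat_lit 213) (nat_lit 197)) (XT.lf (nat_lit 0) (nat_lit 25265162370) (nat_lit 152) (nat_lit 4283126) (nat_lit 0) (nat_lit 21203808129) (nat_lit 4) (nat_lit 5) (nat_lit 6) (nat_lit 4) (nat_lit 4) (nat_lit 4) (nat_lit 311) (nat_lit 213) (nat_lit 196)))) (XT.nd (nat_lit 156) (nat_lit 0) (nat_lit 0) (XT.nd (nat_lit 78) (nat_lit 0) (nat_lit 0) (XT.lf (nat_lit 0) (nat_lit 4536586567) (nat_lit 76) (nat_lit 24170521339) (nat_lit 76) (nat_lit 19959480504) (nat_lit 3) (nat_lit 4) (nat_lit 4) (nat_lit 5) (nat_lit 4) (nat_lit 4) (nat_lit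 312) (nat_lit 213) (nat_lit 195)) (XT.lf (nat_lit 0) (nat_lit 9205176005) (nat_lit 76) (nat_lit 23060432308) (nat_lit 76) (nat_lit 18706832813) (nat_lit 3) (nat_lit 4) (nat_lit 4) (nat_lit 5) (nat_lit 4) (nat_lit 4) (nat_lit 313) (nat_lit 213) (nat_lit 194))) (XT.nd (nat_lit 78) (nat_lit 0) (nat_lit 0) (XT.lf (nat_lit 0) (nat_lit 14012459256) (nat_lit 76) (nat_lit 21936607873) (nat_lit 76) (nat_lit 17447238225) (nat_lit 3) (nat_lit 4) (nat_lit 4) (nat_lit 5) (nat_lit 4) (nat_lit 4) (nat_lit 314) (nat_lit 213) (nat_lit 193)) (XT.nd (nat_lit 78) (nat_lit 0) (nat_lit 0) (XT.lf (nat_lit 0) (nat_lit 18969882233) (nat_lit 76) (nat_lit 20796372260) (nat_lit 76) (nat_lit 16177697704) (nat_lit 3) (nat_lit 4) (nat_lit 4) (nat_lit 5) (nat_lit 4) (nat_lit 4) (nat_lit 315) (nat_lit 213) (nat_lit 192)) (XT.lf (nat_lit 0) (nat_lit 24089248323) (nat_lit 76) (nat_lit 19637010622) (nat_lit 76) (nat_lit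 14895188535) (nat_lit 3) (nat_lit 4) (nat_lit 4) (nat_lit 5) (nat_lit 4) (nat_lit 4) (nat_lit 316) (nat_lit 213) (nat_lit 191))))))) (XT.nd (nat_lit 702) (nat_lit 152) (nat_lit 0) (XT.nd (nat_lit 312) (nat_lit 0) (nat_lit 0) (XT.nd (nat_lit 156) (nat_lit 0) (nat_lit 0) (XT.nd (nat_lit 78) (nat_lit 0) (nat_lit 0) (XT.lf (nat_lit 0) (nat_lit 29382746494) (nat_lit 76) (nat_lit 18455762576) (nat_lit 76) (nat_lit 13596657126) (nat_lit 3) (nat_lit 4) (nat_lit 4) (nat_lit 5) (nat_lit 4) (nat_lit 4) (nat_lit 317) (nat_lit 213) (nat_lit 190)) (XT.lf (nat_lit 0) (nat_lit 34862980312) (nat_lit 76) (nat_lit 17249815625) (nat_lit 76) (nat_lit 12279011734) (nat_lit 3) (nat_lit 4) (nat_lit 4) (nat_lit 5) (nat_lit 4) (nat_lit 4) (nat_lit 318) (nat_lit 213) (nat_lit 189))) (XT.nd (nat_lit 78) (nat_lit 0) (nat_lit 0) (XT.lf (nat_lit 0) (nat_lit 40542997954) (nat_lit 76) (nat_lit 16016298467) (nat_lit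 76) (nat_lit 10939115109) (nat_lit 3) (nat_lit 4) (nat_lit 4) (nat_lit 5) (nat_lit 4) (nat_lit 4) (nat_lit 319) (nat_lit 213) (nat_lit 188)) (XT.lf (nat_lit 0) (nat_lit 46436323271) (nat_lit 76) (nat_lit 14752274157) (nat_lit 76) (nat_lit 9573777020) (nat_lit 3) (nat_lit 4) (nat_lit 4) (nat_lit 5) (nat_lit 4) (nat_lit 4) (nat_lit 320) (nat_lit 213) (nat_lit 187)))) (XT.nd (nat_lit 156) (nat_lit 0) (nat_lit 0) (XT.nd (nat_lit 78) (nat_lit 0) (nat_lit 0) (XT.lf (nat_lit 0) (nat_lit 52556987990) (nat_lit 76) (nat_lit 13454733113) (nat_lit 76) (nat_lit 8179746663) (nat_lit 3) (nat_lit 4) (nat_lit 4) (nat_lit 5) (nat_lit 4) (nat_lit 4) (nat_lit 321) (nat_lit 213) (nat_lit 186)) (XT.lf (nat_lit 0) (nat_lit 58919565122) (nat_lit 76) (nat_lit 12120585951) (nat_lit 76) (nat_lit 6753704918) (nat_lit 3) (nat_lit 4) (nat_lit 4) (nat_lit 5) (nat_lit 4) (nat_lit 4) (nat_lit 322) (nat_lit 213) (nat_lit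 185))) (XT.nd (nat_lit 78) (nat_lit 0) (nat_lit 0) (XT.lf (nat_lit 0) (nat_lit 65539203660) (nat_lit 76) (nat_lit 10746656131) (nat_lit 76) (nat_lit 5292256447) (nat_lit 3) (nat_lit 4) (nat_lit 4) (nat_lit 5) (nat_lit 4) (nat_lit 4) (nat_lit 323) (nat_lit 213) (nat_lit 184)) (XT.nd (nat_lit 78) (nat_lit 0) (nat_lit 0) (XT.lf (nat_lit 0) (nat_lit 72431664649) (nat_lit 76) (nat_lit 9329672392) (nat_lit 76) (nat_lit 3791921610) (nat_lit 3) (nat_lit 4) (nat_lit 4) (nat_lit 5) (nat_lit 4) (nat_lit 4) (nat_lit 324) (nat_lit 213) (nat_lit 183)) (XT.lf (nat_lit 0) (nat_lit 79613358709) (nat_lit 76) (nat_lit 7866260961) (nat_lit 76) (nat_lit 2249128183) (nat_lit 3) (nat_lit 4) (nat_lit 4) (nat_lit 5) (nat_lit 4) (nat_lit 4) (nat_lit 325) (nat_lit 213) (nat_lit 182)))))) (XT.nd (nat_lit 312) (nat_lit 0) (nat_lit 0) (XT.nd (nat_lit 156) (nat_lit 76) (nat_lit 0) (XT.nd (nat_lit 78) (nat_lit 76)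 (nat_lit 0) (XT.lf (nat_lit 0) (nat_lit 87101385113) (nat_lit 76) (nat_lit 6352937527) (nat_lit 76) (nat_lit 660202848) (nat_lit 3) (nat_lit 4) (nat_lit 4) (nat_lit 5) (nat_lit 4) (nat_lit 4) (nat_lit 326) (nat_lit 213) (nat_lit 181)) (XT.lf (nat_lit 0) (nat_lit 947315037) (nat_lit 152) (nat_lit 3822740662) (nat_lit 76) (nat_lit 93950214219) (nat_lit 2) (nat_lit 5) (nat_lit 4) (nat_lit 5) (nat_lit 3) (nat_lit 4) (nat_lit 327) (nat_lit 213) (nat_lit 180))) (XT.nd (nat_lit 78) (nat_lit 76) (nat_lit 0) (XT.lf (nat_lit 0) (nat_lit 2585796892) (nat_lit 152) (nat_lit 532426013) (nat_lit 76) (nat_lit 100438932687) (nat_lit 2) (nat_lit 5) (nat_lit 4) (nat_lit 5) (nat_lit 3) (nat_lit 4) (nat_lit 328) (nat_lit 213) (nat_lit 179)) (XT.lf (nat_lit 0) (nat_lit 2971037009) (nat_lit 76) (nat_lit 1355623682) (nat_lit 152) (nat_lit 104308234283) (nat_lit 1) (nat_lit 5) (nat_lit 2) (nat_lit 5) (nat_lit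 3) (nat_lit 4) (nat_lit 329) (nat_lit 213) (nat_lit 178)))) (XT.nd (nat_lit 156) (nat_lit 0) (nat_lit 0) (XT.nd (nat_lit 78) (nat_lit 0) (nat_lit 0) (XT.lf (nat_lit 0) (nat_lit 6145738061) (nat_lit 152) (nat_lit 107352484396) (nat_lit 0) (nat_lit 468771127) (nat_lit 1) (nat_lit 5) (nat_lit 3) (nat_lit 4) (nat_lit 1) (nat_lit 4) (nat_lit 330) (nat_lit 213) (nat_lit 177)) (XT.lf (nat_lit 0) (nat_lit 8053493291) (nat_lit 152) (nat_lit 109192235891) (nat_lit 0) (nat_lit 2320111055) (nat_lit 1) (nat_lit 5) (nat_lit 3) (nat_lit 4) (nat_lit 1) (nat_lit 4) (nat_lit 331) (nat_lit 213) (nat_lit 176))) (XT.nd (nat_lit 78) (nat_lit 0) (nat_lit 0) (XT.lf (nat_lit 0) (nat_lit 10033303572) (nat_lit 152) (nat_lit 111166327726) (nat_lit 0) (nat_lit 4246192476) (nat_lit 1) (nat_lit 5) (nat_lit 3) (nat_lit 4) (nat_lit 1) (nat_lit 4) (nat_lit 332) (nat_lit 213) (nat_lit 175)) (XT.nd (nat_lit 78) (nat_lit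 0) (nat_lit 0) (XT.lf (nat_lit 0) (nat_lit 12089882738) (nat_lit 152) (nat_lit 113279460121) (nat_lit 0) (nat_lit 6251601299) (nat_lit 1) (nat_lit 5) (nat_lit 3) (nat_lit 4) (nat_lit 1) (nat_lit 4) (nat_lit 333) (nat_lit 213) (nat_lit 174)) (XT.lf (nat_lit 0) (nat_lit 14228127406) (nat_lit 152) (nat_lit 115536664344) (nat_lit 0) (nat_lit 8341112307) (nat_lit 1) (nat_lit 5) (nat_lit 3) (nat_lit 4) (nat_lit 1) (nat_lit 4) (nat_lit 334) (nat_lit 213) (nat_lit 173))))))))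
noncomputable def xc37 : XT := (XT.nd (nat_lit 1326) (nat_lit 0) (nat_lit 0) (XT.nd (nat_lit 624) (nat_lit 0) (nat_lit 0) (XT.nd (nat_lit 312) (nat_lit 0) (nat_lit 0) (XT.nd (nat_lit 156) (nat_lit 0) (nat_lit 0) (XT.nd (nat_lit 78) (nat_lit 0) (nat_lit 0) (XT.lf (nat_lit 0) (nat_lit 16453128634) (nat_lit 152) (nat_lit 117943314689) (nat_lit 0) (nat_lit 10519700526) (nat_lit 1) (nat_lit 5) (nat_lit 3) (nat_lit 4) (nat_lit 1) (nat_lit 4) (nat_lit 335) (nat_lit 213) (nat_lit 172)) (XT.lf (nat_lit 0) (nat_lit 18770184044) (nat_lit 152) (nat_lit 120505141276) (nat_lit 0) (nat_lit 12792553070) (nat_lit 1) (nat_lit 5) (nat_lit 3) (nat_lit 4) (nat_lit 1) (nat_lit 4) (nat_lit 336) (nat_lit 213) (nat_lit 171))) (XT.nd (nat_lit 78) (nat_lit 0) (nat_lit 0) (XT.lf (nat_lit 0) (nat_lit 21184810435) (nat_lit 152) (nat_lit 123228243693) (nat_lit 0) (nat_lit 15165081494) (nat_lit 1) (nat_lit 5) (nat_lit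 3) (nat_lit 4) (nat_lit 1) (nat_lit 4) (nat_lit 337) (nat_lit 213) (nat_lit 170)) (XT.lf (nat_lit 0) (nat_lit 23702756918) (nat_lit 152) (nat_lit 126119105518) (nat_lit 0) (nat_lit 17642934674) (nat_lit 1) (nat_lit 5) (nat_lit 3) (nat_lit 4) (nat_lit 1) (nat_lit 4) (nat_lit 338) (nat_lit 213) (nat_lit 169)))) (XT.nd (nat_lit 156) (nat_lit 0) (nat_lit 0) (XT.nd (nat_lit 78) (nat_lit 0) (nat_lit 0) (XT.lf (nat_lit 0) (nat_lit 26330018602) (nat_lit 152) (nat_lit 129184609753) (nat_lit 0) (nat_lit 20232012261) (nat_lit 1) (nat_lit 5) (nat_lit 3) (nat_lit 4) (nat_lit 1) (nat_lit 4) (nat_lit 339) (nat_lit 213) (nat_lit 168)) (XT.lf (nat_lit 0) (nat_lit 29072850874) (nat_lit 152) (nat_lit 132432055220) (nat_lit 0) (nat_lit 22938478725) (nat_lit 1) (nat_lit 5) (nat_lit 3) (nat_lit 4) (nat_lit 1) (nat_lit 4) (nat_lit 340) (nat_lit 213) (nat_lit 167))) (XT.nd (nat_lit 78) (nat_lit 0) (nat_lit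 0) (XT.lf (nat_lit 0) (nat_lit 31937784286) (nat_lit 152) (nat_lit 135869173930) (nat_lit 0) (nat_lit 25768778035) (nat_lit 1) (nat_lit 5) (nat_lit 3) (nat_lit 4) (nat_lit 1) (nat_lit 4) (nat_lit 341) (nat_lit 213) (nat_lit 166)) (XT.lf (nat_lit 0) (nat_lit 34931640108) (nat_lit 152) (nat_lit 139504149501) (nat_lit 0) (nat_lit 28729648998) (nat_lit 1) (nat_lit 5) (nat_lit 3) (nat_lit 4) (nat_lit 1) (nat_lit 4) (nat_lit 342) (nat_lit 213) (nat_lit 165))))) (XT.nd (nat_lit 312) (nat_lit 0) (nat_lit 0) (XT.nd (nat_lit 156) (nat_lit 0) (nat_lit 0) (XT.nd (nat_lit 78) (nat_lit 0) (nat_lit 0) (XT.lf (nat_lit 0) (nat_lit 38061546568) (nat_lit 152) (nat_lit 143345636635) (nat_lit 0) (nat_lit 31828141306) (nat_lit 1) (nat_lit 5) (nat_lit 3) (nat_lit 4) (nat_lit 1) (nat_lit 4) (nat_lit 343) (nat_lit 213) (nat_lit 164)) (XT.lf (nat_lit 0) (nat_lit 41334955825) (nat_lit 152) (nat_lit 147402781730)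 (nat_lit 0) (nat_lit 35071632323) (nat_lit 1) (nat_lit 5) (nat_lit 3) (nat_lit 4) (nat_lit 1) (nat_lit 4) (nat_lit 344) (nat_lit 213) (nat_lit 163))) (XT.nd (nat_lit 78) (nat_lit 0) (nat_lit 0) (XT.lf (nat_lit 0) (nat_lit 44759661710) (nat_lit 152) (nat_lit 151685244657) (nat_lit 0) (nat_lit 38467844647) (nat_lit 1) (nat_lit 5) (nat_lit 3) (nat_lit 4) (nat_lit 1) (nat_lit 4) (nat_lit 345) (nat_lit 213) (nat_lit 162)) (XT.lf (nat_lit 0) (nat_lit 48343818284) (nat_lit 152) (nat_lit 156203221754) (nat_lit 0) (nat_lit 42024864496) (nat_lit 1) (nat_lit 5) (nat_lit 3) (nat_lit 4) (nat_lit 1) (nat_lit 4) (nat_lit 346) (nat_lit 213) (nat_lit 161)))) (XT.nd (nat_lit 156) (nat_lit 0) (nat_lit 0) (XT.nd (nat_lit 78) (nat_lit 0) (nat_lit 0) (XT.lf (nat_lit 0) (nat_lit 52095959254) (nat_lit 152) (nat_lit 160967470111) (nat_lit 0) (nat_lit 45751160966) (nat_lit 1) (nat_lit 5) (nat_lit 3) (nat_lit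 4) (nat_lit 1) (nat_lit 4) (nat_lit 347) (nat_lit 213) (nat_lit 160)) (XT.lf (nat_lit 0) (nat_lit 56025018289) (nat_lit 152) (nat_lit 165989333176) (nat_lit 0) (nat_lit 49655606191) (nat_lit 1) (nat_lit 5) (nat_lit 3) (nat_lit 4) (nat_lit 1) (nat_lit 4) (nat_lit 348) (nat_lit 213) (nat_lit 159))) (XT.nd (nat_lit 78) (nat_lit 0) (nat_lit 0) (XT.lf (nat_lit 0) (nat_lit 60140350292) (nat_lit 152) (nat_lit 171280767766) (nat_lit 0) (nat_lit 53747496470) (nat_lit 1) (nat_lit 5) (nat_lit 3) (nat_lit 4) (nat_lit 1) (nat_lit 4) (nat_lit 349) (nat_lit 213) (nat_lit 158)) (XT.nd (nat_lit 78) (nat_lit 0) (nat_lit 0) (XT.lf (nat_lit 0) (nat_lit 64451753671) (nat_lit 152) (nat_lit 176854372534) (nat_lit 0) (nat_lit 58036574398) (nat_lit 1) (nat_lit 5) (nat_lit 3) (nat_lit 4) (nat_lit 1) (nat_lit 4) (nat_lit 350) (nat_lit 213) (nat_lit 157)) (XT.lf (nat_lit 0) (nat_lit 68969493673) (nat_lit 152)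 (nat_lit 182723417968) (nat_lit 0) (nat_lit 62533052065) (nat_lit 1) (nat_lit 5) (nat_lit 3) (nat_lit 4) (nat_lit 1) (nat_lit 4) (nat_lit 351) (nat_lit 213) (nat_lit 156))))))) (XT.nd (nat_lit 702) (nat_lit 0) (nat_lit 0) (XT.nd (nat_lit 312) (nat_lit 0) (nat_lit 0) (XT.nd (nat_lit 156) (nat_lit 0) (nat_lit 0) (XT.nd (nat_lit 78) (nat_lit 0) (nat_lit 0) (XT.lf (nat_lit 0) (nat_lit 73704326821) (nat_lit 152) (nat_lit 188901877986) (nat_lit 0) (nat_lit 67247635372) (nat_lit 1) (nat_lit 5) (nat_lit 3) (nat_lit 4) (nat_lit 1) (nat_lit 4) (nat_lit 352) (nat_lit 213) (nat_lit 155)) (XT.lf (nat_lit 0) (nat_lit 78667526529) (nat_lit 152) (nat_lit 195404463207) (nat_lit 0) (nat_lit 72191549516) (nat_lit 1) (nat_lit 5) (nat_lit 3) (nat_lit 4) (nat_lit 1) (nat_lit 4) (nat_lit 353) (nat_lit 213) (nat_lit 154))) (XT.nd (nat_lit 78) (nat_lit 0) (nat_lit 0) (XT.lf (nat_lit 0) (nat_lit 83870909938)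 (nat_lit 152) (nat_lit 202246655977) (nat_lit 0) (nat_lit 77376565721) (nat_lit 1) (nat_lit 5) (nat_lit 3) (nat_lit 4) (nat_lit 1) (nat_lit 4) (nat_lit 354) (nat_lit 213) (nat_lit 153)) (XT.lf (nat_lit 0) (nat_lit 89326866056) (nat_lit 152) (nat_lit 209444747231) (nat_lit 0) (nat_lit 82815029264) (nat_lit 1) (nat_lit 5) (nat_lit 3) (nat_lit 4) (nat_lit 1) (nat_lit 4) (nat_lit 355) (nat_lit 213) (nat_lit 152)))) (XT.nd (nat_lit 156) (nat_lit 0) (nat_lit 0) (XT.nd (nat_lit 78) (nat_lit 0) (nat_lit 0) (XT.lf (nat_lit 0) (nat_lit 95048385255) (nat_lit 152) (nat_lit 217015875280) (nat_lit 0) (nat_lit 88519888868) (nat_lit 1) (nat_lit 5) (nat_lit 3) (nat_lit 4) (nat_lit 1) (nat_lit 4) (nat_lit 356) (nat_lit 213) (nat_lit 151)) (XT.lf (nat_lit 0) (nat_lit 101049090200) (nat_lit 152) (nat_lit 224978066622) (nat_lit 0) (nat_lit 94504727531) (nat_lit 1) (nat_lit 5) (nat_lit 3) (nat_lit 4) (nat_lit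 1) (nat_lit 4) (nat_lit 357) (nat_lit 213) (nat_lit 150))) (XT.nd (nat_lit 78) (nat_lit 0) (nat_lit 0) (XT.lf (nat_lit 0) (nat_lit 107343268284) (nat_lit 152) (nat_lit 233350278853) (nat_lit 0) (nat_lit 100783794871) (nat_lit 1) (nat_lit 5) (nat_lit 3) (nat_lit 4) (nat_lit 1) (nat_lit 4) (nat_lit 358) (nat_lit 213) (nat_lit 149)) (XT.nd (nat_lit 78) (nat_lit 0) (nat_lit 0) (XT.lf (nat_lit 0) (nat_lit 113945905644) (nat_lit 152) (nat_lit 242152445814) (nat_lit 0) (nat_lit 107372041046) (nat_lit 1) (nat_lit 5) (nat_lit 3) (nat_lit 4) (nat_lit 1) (nat_lit 4) (nat_lit 359) (nat_lit 213) (nat_lit 148)) (XT.lf (nat_lit 0) (nat_lit 120872722846) (nat_lit 152) (nat_lit 251405525043) (nat_lit 0) (nat_lit 114285152358) (nat_lit 1) (nat_lit 5) (nat_lit 3) (nat_lit 4) (nat_lit 1) (nat_lit 4) (nat_lit 360) (nat_lit 213) (nat_lit 147)))))) (XT.nd (nat_lit 32136) (nat_lit 0) (nat_lit 456) (XT.nd (nat_lit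 156) (nat_lit 0) (nat_lit 0) (XT.nd (nat_lit 78) (nat_lit 0) (nat_lit 0) (XT.lf (nat_lit 0) (nat_lit 128140212312) (nat_lit 152) (nat_lit 261131547683) (nat_lit 0) (nat_lit 121539588595) (nat_lit 1) (nat_lit 5) (nat_lit 3) (nat_lit 4) (nat_lit 1) (nat_lit 4) (nat_lit 361) (nat_lit 213) (nat_lit 146)) (XT.lf (nat_lit 0) (nat_lit 135765677588) (nat_lit 152) (nat_lit 271353670930) (nat_lit 0) (nat_lit 129152622224) (nat_lit 1) (nat_lit 5) (nat_lit 3) (nat_lit 4) (nat_lit 1) (nat_lit 4) (nat_lit 362) (nat_lit 213) (nat_lit 145))) (XT.nd (nat_lit 78) (nat_lit 0) (nat_lit 0) (XT.lf (nat_lit 0) (nat_lit 143767274544) (nat_lit 152) (nat_lit 282096233172) (nat_lit 0) (nat_lit 137142379517) (nat_lit 1) (nat_lit 5) (nat_lit 3) (nat_lit 4) (nat_lit 1) (nat_lit 4) (nat_lit 363) (nat_lit 213) (nat_lit 144)) (XT.lf (nat_lit 0) (nat_lit 152164054601) (nat_lit 152) (nat_lit 293384811939) (nat_lit 0)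 (nat_lit 145527883704) (nat_lit 1) (nat_lit 5) (nat_lit 3) (nat_lit 4) (nat_lit 1) (nat_lit 4) (nat_lit 364) (nat_lit 213) (nat_lit 143)))) (XT.nd (nat_lit 156) (nat_lit 152) (nat_lit 0) (XT.nd (nat_lit 78) (nat_lit 0) (nat_lit 0) (XT.lf (nat_lit 0) (nat_lit 5457456833) (nat_lit 76) (nat_lit 2362961887) (nat_lit 76) (nat_lit 2362961887) (nat_lit 9) (nat_lit 4) (nat_lit 10) (nat_lit 5) (nat_lit 10) (nat_lit 4) (nat_lit 292) (nat_lit 214) (nat_lit 214)) (XT.lf (nat_lit 0) (nat_lit 17587686358) (nat_lit 76) (nat_lit 2004509006) (nat_lit 76) (nat_lit 1607345911) (nat_lit 9) (nat_lit 4) (nat_lit 10) (nat_lit 5) (nat_lit 10) (nat_lit 4) (nat_lit 293) (nat_lit 214) (nat_lit 213))) (XT.nd (nat_lit 78) (nat_lit 0) (nat_lit 0) (XT.lf (nat_lit 0) (nat_lit 1548949065) (nat_lit 152) (nat_lit 19716679745) (nat_lit 0) (nat_lit 810459863) (nat_lit 7) (nat_lit 5) (nat_lit 9) (nat_lit 4) (nat_lit 7)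 (nat_lit 4) (nat_lit 294) (nat_lit 214) (nat_lit 212)) (XT.nd (nat_lit 78) (nat_lit 0) (nat_lit 0) (XT.lf (nat_lit 0) (nat_lit 4790279884) (nat_lit 152) (nat_lit 14497276130) (nat_lit 0) (nat_lit 3708706267) (nat_lit 7) (nat_lit 5) (nat_lit 9) (nat_lit 4) (nat_lit 7) (nat_lit 4) (nat_lit 295) (nat_lit 214) (nat_lit 211)) (XT.lf (nat_lit 0) (nat_lit 8085302368) (nat_lit 152) (nat_lit 9205749032) (nat_lit 0) (nat_lit 6676981689) (nat_lit 7) (nat_lit 5) (nat_lit 9) (nat_lit 4) (nat_lit 7) (nat_lit 4) (nat_lit 296) (nat_lit 214) (nat_lit 210))))))))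
noncomputable def xc38 : XT := (XT.nd (nat_lit 1326) (nat_lit 152) (nat_lit 0) (XT.nd (nat_lit 624) (nat_lit 76) (nat_lit 0) (XT.nd (nat_lit 312) (nat_lit 152) (nat_lit 0) (XT.nd (nat_lit 156) (nat_lit 0) (nat_lit 0) (XT.nd (nat_lit 78) (nat_lit 76) (nat_lit 0) (XT.lf (nat_lit 0) (nat_lit 11441861807) (nat_lit 152) (nat_lit 3829499575) (nat_lit 0) (nat_lit 9722353450) (nat_lit 7) (nat_lit 5) (nat_lit 9) (nat_lit 4) (nat_lit 7) (nat_lit 4) (nat_lit 297) (nat_lit 214) (nat_lit 209)) (XT.lf (nat_lit 0) (nat_lit 1698639918) (nat_lit 76) (nat_lit 13195830621) (nat_lit 76) (nat_lit 11179953048) (nat_lit 6) (nat_lit 4) (nat_lit 7) (nat_lit 5) (nat_lit 7) (nat_lit 4) (nat_lit 298) (nat_lit 214) (nat_lit 208))) (XT.nd (nat_lit 78) (nat_lit 0) (nat_lit 0) (XT.lf (nat_lit 0) (nat_lit 7467611179) (nat_lit 76) (nat_lit 11020703489) (nat_lit 76) (nat_lit 8722569519) (nat_lit 6) (nat_lit 4) (nat_lit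 7) (nat_lit 5) (nat_lit 7) (nat_lit 4) (nat_lit 299) (nat_lit 214) (nat_lit 207)) (XT.lf (nat_lit 0) (nat_lit 13364529301) (nat_lit 76) (nat_lit 8805655542) (nat_lit 76) (nat_lit 6238705955) (nat_lit 6) (nat_lit 4) (nat_lit 7) (nat_lit 5) (nat_lit 7) (nat_lit 4) (nat_lit 300) (nat_lit 214) (nat_lit 206)))) (XT.nd (nat_lit 156) (nat_lit 152) (nat_lit 0) (XT.nd (nat_lit 78) (nat_lit 0) (nat_lit 0) (XT.lf (nat_lit 0) (nat_lit 19403434567) (nat_lit 76) (nat_lit 6545412854) (nat_lit 76) (nat_lit 3722448395) (nat_lit 6) (nat_lit 4) (nat_lit 7) (nat_lit 5) (nat_lit 7) (nat_lit 4) (nat_lit 301) (nat_lit 214) (nat_lit 205)) (XT.lf (nat_lit 0) (nat_lit 25598705321) (nat_lit 76) (nat_lit 4234593897) (nat_lit 76) (nat_lit 1167805750) (nat_lit 6) (nat_lit 4) (nat_lit 7) (nat_lit 5) (nat_lit 7) (nat_lit 4) (nat_lit 302) (nat_lit 214) (nat_lit 204))) (XT.nd (nat_lit 78) (nat_lit 76) (nat_lit 0) (XT.lf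 (nat_lit 0) (nat_lit 1385493781) (nat_lit 152) (nat_lit 458738932) (nat_lit 76) (nat_lit 30556134419) (nat_lit 5) (nat_lit 5) (nat_lit 7) (nat_lit 5) (nat_lit 6) (nat_lit 4) (nat_lit 303) (nat_lit 214) (nat_lit 203)) (XT.lf (nat_lit 0) (nat_lit 4035306407) (nat_lit 152) (nat_lit 29150257065) (nat_lit 0) (nat_lit 682776448) (nat_lit 4) (nat_lit 5) (nat_lit 6) (nat_lit 4) (nat_lit 4) (nat_lit 4) (nat_lit 304) (nat_lit 214) (nat_lit 202))))) (XT.nd (nat_lit 312) (nat_lit 76) (nat_lit 0) (XT.nd (nat_lit 156) (nat_lit 0) (nat_lit 0) (XT.nd (nat_lit 78) (nat_lit 0) (nat_lit 0) (XT.lf (nat_lit 0) (nat_lit 6779668793) (nat_lit 152) (nat_lit 25405499344) (nat_lit 0) (nat_lit 3226544482) (nat_lit 4) (nat_lit 5) (nat_lit 6) (nat_lit 4) (nat_lit 4) (nat_lit 4) (nat_lit 305) (nat_lit 214) (nat_lit 201)) (XT.lf (nat_lit 0) (nat_lit 9588801182) (nat_lit 152) (nat_lit 21602539807) (nat_lit 0) (nat_lit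 5844634632) (nat_lit 4) (nat_lit 5) (nat_lit 6) (nat_lit 4) (nat_lit 4) (nat_lit 4) (nat_lit 306) (nat_lit 214) (nat_lit 200))) (XT.nd (nat_lit 78) (nat_lit 0) (nat_lit 0) (XT.lf (nat_lit 0) (nat_lit 12469391985) (nat_lit 152) (nat_lit 17732323788) (nat_lit 0) (nat_lit 8543280445) (nat_lit 4) (nat_lit 5) (nat_lit 6) (nat_lit 4) (nat_lit 4) (nat_lit 4) (nat_lit 307) (nat_lit 214) (nat_lit 199)) (XT.lf (nat_lit 0) (nat_lit 15428299752) (nat_lit 152) (nat_lit 13785636488) (nat_lit 0) (nat_lit 11328907268) (nat_lit 4) (nat_lit 5) (nat_lit 6) (nat_lit 4) (nat_lit 4) (nat_lit 4) (nat_lit 308) (nat_lit 214) (nat_lit 198)))) (XT.nd (nat_lit 156) (nat_lit 76) (nat_lit 0) (XT.nd (nat_lit 78) (nat_lit 0) (nat_lit 0) (XT.lf (nat_lit 0) (nat_lit 18472569501) (nat_lit 152) (nat_lit 9753081032) (nat_lit 0) (nat_lit 14208147548) (nat_lit 4) (nat_lit 5) (nat_lit 6) (nat_lit 4) (nat_lit 4) (nat_lit 4)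 (nat_lit 309) (nat_lit 214) (nat_lit 197)) (XT.lf (nat_lit 0) (nat_lit 21609449493) (nat_lit 152) (nat_lit 5625056098) (nat_lit 0) (nat_lit 17187856617) (nat_lit 4) (nat_lit 5) (nat_lit 6) (nat_lit 4) (nat_lit 4) (nat_lit 4) (nat_lit 310) (nat_lit 214) (nat_lit 196))) (XT.nd (nat_lit 78) (nat_lit 76) (nat_lit 0) (XT.lf (nat_lit 0) (nat_lit 24846408491) (nat_lit 152) (nat_lit 1391733054) (nat_lit 0) (nat_lit 20275129021) (nat_lit 4) (nat_lit 5) (nat_lit 6) (nat_lit 4) (nat_lit 4) (nat_lit 4) (nat_lit 311) (nat_lit 214) (nat_lit 195)) (XT.nd (nat_lit 78) (nat_lit 0) (nat_lit 0) (XT.lf (nat_lit 0) (nat_lit 3054738136) (nat_lit 76) (nat_lit 25184108425) (nat_lit 76) (nat_lit 20470270295) (nat_lit 3) (nat_lit 4) (nat_lit 4) (nat_lit 5) (nat_lit 4) (nat_lit 4) (nat_lit 312) (nat_lit 214) (nat_lit 194)) (XT.lf (nat_lit 0) (nat_lit 7677115058) (nat_lit 76) (nat_lit 24094394540) (nat_lit 76)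 (nat_lit 19244786256) (nat_lit 3) (nat_lit 4) (nat_lit 4) (nat_lit 5) (nat_lit 4) (nat_lit 4) (nat_lit 313) (nat_lit 214) (nat_lit 193))))))) (XT.nd (nat_lit 702) (nat_lit 152) (nat_lit 0) (XT.nd (nat_lit 312) (nat_lit 0) (nat_lit 0) (XT.nd (nat_lit 156) (nat_lit 0) (nat_lit 0) (XT.nd (nat_lit 78) (nat_lit 0) (nat_lit 0) (XT.lf (nat_lit 0) (nat_lit 12440386388) (nat_lit 76) (nat_lit 22989975004) (nat_lit 76) (nat_lit 18011061812) (nat_lit 3) (nat_lit 4) (nat_lit 4) (nat_lit 5) (nat_lit 4) (nat_lit 4) (nat_lit 314) (nat_lit 214) (nat_lit 192)) (XT.lf (nat_lit 0) (nat_lit 17355893250) (nat_lit 76) (nat_lit 21868220247) (nat_lit 76) (nat_lit 16766159525) (nat_lit 3) (nat_lit 4) (nat_lit 4) (nat_lit 5) (nat_lit 4) (nat_lit 4) (nat_lit 315) (nat_lit 214) (nat_lit 191))) (XT.nd (nat_lit 78) (nat_lit 0) (nat_lit 0) (XT.lf (nat_lit 0) (nat_lit 22435339231) (nat_lit 76) (nat_lit 20726459426)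 (nat_lit 76) (nat_lit 15507115341) (nat_lit 3) (nat_lit 4) (nat_lit 4) (nat_lit 5) (nat_lit 4) (nat_lit 4) (nat_lit 316) (nat_lit 214) (nat_lit 190)) (XT.lf (nat_lit 0) (nat_lit 27690818250) (nat_lit 76) (nat_lit 19561974061) (nat_lit 76) (nat_lit 14230931535) (nat_lit 3) (nat_lit 4) (nat_lit 4) (nat_lit 5) (nat_lit 4) (nat_lit 4) (nat_lit 317) (nat_lit 214) (nat_lit 189)))) (XT.nd (nat_lit 156) (nat_lit 0) (nat_lit 0) (XT.nd (nat_lit 78) (nat_lit 0) (nat_lit 0) (XT.lf (nat_lit 0) (nat_lit 33134843353) (nat_lit 76) (nat_lit 18371991569) (nat_lit 76) (nat_lit 12934569575) (nat_lit 3) (nat_lit 4) (nat_lit 4) (nat_lit 5) (nat_lit 4) (nat_lit 4) (nat_lit 318) (nat_lit 214) (nat_lit 188)) (XT.lf (nat_lit 0) (nat_lit 38780376503) (nat_lit 76) (nat_lit 17153678658) (nat_lit 76) (nat_lit 11614942886) (nat_lit 3) (nat_lit 4) (nat_lit 4) (nat_lit 5) (nat_lit 4) (nat_lit 4) (nat_lit 319) (nat_lit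 214) (nat_lit 187))) (XT.nd (nat_lit 78) (nat_lit 0) (nat_lit 0) (XT.lf (nat_lit 0) (nat_lit 44640859448) (nat_lit 76) (nat_lit 15904134583) (nat_lit 76) (nat_lit 10268909498) (nat_lit 3) (nat_lit 4) (nat_lit 4) (nat_lit 5) (nat_lit 4) (nat_lit 4) (nat_lit 320) (nat_lit 214) (nat_lit 186)) (XT.nd (nat_lit 78) (nat_lit 0) (nat_lit 0) (XT.lf (nat_lit 0) (nat_lit 50730245716) (nat_lit 76) (nat_lit 14620384239) (nat_lit 76) (nat_lit 8893264570) (nat_lit 3) (nat_lit 4) (nat_lit 4) (nat_lit 5) (nat_lit 4) (nat_lit 4) (nat_lit 321) (nat_lit 214) (nat_lit 185)) (XT.lf (nat_lit 0) (nat_lit 57063033848) (nat_lit 76) (nat_lit 13299371077) (nat_lit 76) (nat_lit 7484732757) (nat_lit 3) (nat_lit 4) (nat_lit 4) (nat_lit 5) (nat_lit 4) (nat_lit 4) (nat_lit 322) (nat_lit 214) (nat_lit 184)))))) (XT.nd (nat_lit 312) (nat_lit 152) (nat_lit 0) (XT.nd (nat_lit 156) (nat_lit 0) (nat_lit 0) (XT.nd (nat_lit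 78) (nat_lit 0) (nat_lit 0) (XT.lf (nat_lit 0) (nat_lit 63654301910) (nat_lit 76) (nat_lit 11937949828) (nat_lit 76) (nat_lit 6039960412) (nat_lit 3) (nat_lit 4) (nat_lit 4) (nat_lit 5) (nat_lit 4) (nat_lit 4) (nat_lit 323) (nat_lit 214) (nat_lit 183)) (XT.lf (nat_lit 0) (nat_lit 70519743397) (nat_lit 76) (nat_lit 10532879013) (nat_lit 76) (nat_lit 4555507600) (nat_lit 3) (nat_lit 4) (nat_lit 4) (nat_lit 5) (nat_lit 4) (nat_lit 4) (nat_lit 324) (nat_lit 214) (nat_lit 182))) (XT.nd (nat_lit 78) (nat_lit 0) (nat_lit 0) (XT.lf (nat_lit 0) (nat_lit 77675704600) (nat_lit 76) (nat_lit 9080813226) (nat_lit 76) (nat_lit 3027839911) (nat_lit 3) (nat_lit 4) (nat_lit 4) (nat_lit 5) (nat_lit 4) (nat_lit 4) (nat_lit 325) (nat_lit 214) (nat_lit 181)) (XT.lf (nat_lit 0) (nat_lit 85139223520) (nat_lit 76) (nat_lit 7578295166) (nat_lit 76) (nat_lit 1453320041) (nat_lit 3) (nat_lit 4) (nat_lit 4) (nat_lit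 5) (nat_lit 4) (nat_lit 4) (nat_lit 326) (nat_lit 214) (nat_lit 180)))) (XT.nd (nat_lit 156) (nat_lit 76) (nat_lit 0) (XT.nd (nat_lit 78) (nat_lit 0) (nat_lit 0) (XT.lf (nat_lit 0) (nat_lit 166302167) (nat_lit 152) (nat_lit 5852628835) (nat_lit 76) (nat_lit 92758951865) (nat_lit 2) (nat_lit 5) (nat_lit 4) (nat_lit 5) (nat_lit 3) (nat_lit 4) (nat_lit 327) (nat_lit 214) (nat_lit 179)) (XT.lf (nat_lit 0) (nat_lit 1792136040) (nat_lit 152) (nat_lit 2584977160) (nat_lit 76) (nat_lit 99238303504) (nat_lit 2) (nat_lit 5) (nat_lit 4) (nat_lit 5) (nat_lit 3) (nat_lit 4) (nat_lit 328) (nat_lit 214) (nat_lit 178))) (XT.nd (nat_lit 78) (nat_lit 0) (nat_lit 0) (XT.lf (nat_lit 0) (nat_lit 828321809) (nat_lit 76) (nat_lit 2659178544) (nat_lit 152) (nat_lit 105207945721) (nat_lit 1) (nat_lit 5) (nat_lit 2) (nat_lit 5) (nat_lit 3) (nat_lit 4) (nat_lit 329) (nat_lit 214) (nat_lit 177)) (XT.nd (nat_lit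 78) (nat_lit 0) (nat_lit 0) (XT.lf (nat_lit 0) (nat_lit 4458497195) (nat_lit 76) (nat_lit 828716062) (nat_lit 152) (nat_lit 108741313949) (nat_lit 1) (nat_lit 5) (nat_lit 2) (nat_lit 5) (nat_lit 3) (nat_lit 4) (nat_lit 330) (nat_lit 214) (nat_lit 176)) (XT.lf (nat_lit 0) (nat_lit 7170648098) (nat_lit 152) (nat_lit 111417502812) (nat_lit 0) (nat_lit 1040452587) (nat_lit 1) (nat_lit 5) (nat_lit 3) (nat_lit 4) (nat_lit 1) (nat_lit 4) (nat_lit 331) (nat_lit 214) (nat_lit 175))))))))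
noncomputable def xc39 : XT := (XT.nd (nat_lit 1326) (nat_lit 0) (nat_lit 0) (XT.nd (nat_lit 624) (nat_lit 0) (nat_lit 0) (XT.nd (nat_lit 312) (nat_lit 0) (nat_lit 0) (XT.nd (nat_lit 156) (nat_lit 0) (nat_lit 0) (XT.nd (nat_lit 78) (nat_lit 0) (nat_lit 0) (XT.lf (nat_lit 0) (nat_lit 9139618559) (nat_lit 152) (nat_lit 113411270730) (nat_lit 0) (nat_lit 2958252706) (nat_lit 1) (nat_lit 5) (nat_lit 3) (nat_lit 4) (nat_lit 1) (nat_lit 4) (nat_lit 332) (nat_lit 214) (nat_lit 174)) (XT.lf (nat_lit 0) (nat_lit 11185874088) (nat_lit 152) (nat_lit 115543142250) (nat_lit 0) (nat_lit 4955774575) (nat_lit 1) (nat_lit 5) (nat_lit 3) (nat_lit 4) (nat_lit 1) (nat_lit 4) (nat_lit 333) (nat_lit 214) (nat_lit 173))) (XT.nd (nat_lit 78) (nat_lit 0) (nat_lit 0) (XT.lf (nat_lit 0) (nat_lit 13314286720) (nat_lit 152) (nat_lit 117818193259) (nat_lit 0) (nat_lit 7037774197) (nat_lit 1) (nat_lit 5) (nat_lit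 3) (nat_lit 4) (nat_lit 1) (nat_lit 4) (nat_lit 334) (nat_lit 214) (nat_lit 172)) (XT.lf (nat_lit 0) (nat_lit 15529924104) (nat_lit 152) (nat_lit 120241840543) (nat_lit 0) (nat_lit 9209208716) (nat_lit 1) (nat_lit 5) (nat_lit 3) (nat_lit 4) (nat_lit 1) (nat_lit 4) (nat_lit 335) (nat_lit 214) (nat_lit 171)))) (XT.nd (nat_lit 156) (nat_lit 0) (nat_lit 0) (XT.nd (nat_lit 78) (nat_lit 0) (nat_lit 0) (XT.lf (nat_lit 0) (nat_lit 17838061568) (nat_lit 152) (nat_lit 122819854692) (nat_lit 0) (nat_lit 11475248212) (nat_lit 1) (nat_lit 5) (nat_lit 3) (nat_lit 4) (nat_lit 1) (nat_lit 4) (nat_lit 336) (nat_lit 214) (nat_lit 170)) (XT.lf (nat_lit 0) (nat_lit 20244194678) (nat_lit 152) (nat_lit 125558373834) (nat_lit 0) (nat_lit 13841288019) (nat_lit 1) (nat_lit 5) (nat_lit 3) (nat_lit 4) (nat_lit 1) (nat_lit 4) (nat_lit 337) (nat_lit 214) (nat_lit 169))) (XT.nd (nat_lit 78) (nat_lit 0) (nat_lit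 0) (XT.lf (nat_lit 0) (nat_lit 22754052320) (nat_lit 152) (nat_lit 128463918253) (nat_lit 0) (nat_lit 16312961564) (nat_lit 1) (nat_lit 5) (nat_lit 3) (nat_lit 4) (nat_lit 1) (nat_lit 4) (nat_lit 338) (nat_lit 214) (nat_lit 168)) (XT.lf (nat_lit 0) (nat_lit 25373610348) (nat_lit 152) (nat_lit 131543405913) (nat_lit 0) (nat_lit 18896153784) (nat_lit 1) (nat_lit 5) (nat_lit 3) (nat_lit 4) (nat_lit 1) (nat_lit 4) (nat_lit 339) (nat_lit 214) (nat_lit 167))))) (XT.nd (nat_lit 312) (nat_lit 0) (nat_lit 0) (XT.nd (nat_lit 156) (nat_lit 0) (nat_lit 0) (XT.nd (nat_lit 78) (nat_lit 0) (nat_lit 0) (XT.lf (nat_lit 0) (nat_lit 28109105803) (nat_lit 152) (nat_lit 134804168926) (nat_lit 0) (nat_lit 21597015137) (nat_lit 1) (nat_lit 5) (nat_lit 3) (nat_lit 4) (nat_lit 1) (nat_lit 4) (nat_lit 340) (nat_lit 214) (nat_lit 166)) (XT.lf (nat_lit 0) (nat_lit 30967051771) (nat_lit 152) (nat_lit 138253971014)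 (nat_lit 0) (nat_lit 24421976246) (nat_lit 1) (nat_lit 5) (nat_lit 3) (nat_lit 4) (nat_lit 1) (nat_lit 4) (nat_lit 341) (nat_lit 214) (nat_lit 165))) (XT.nd (nat_lit 78) (nat_lit 0) (nat_lit 0) (XT.lf (nat_lit 0) (nat_lit 33954252884) (nat_lit 152) (nat_lit 141901025992) (nat_lit 0) (nat_lit 27377763208) (nat_lit 1) (nat_lit 5) (nat_lit 3) (nat_lit 4) (nat_lit 1) (nat_lit 4) (nat_lit 342) (nat_lit 214) (nat_lit 164)) (XT.lf (nat_lit 0) (nat_lit 37077821526) (nat_lit 152) (nat_lit 145754017323) (nat_lit 0) (nat_lit 30471413610) (nat_lit 1) (nat_lit 5) (nat_lit 3) (nat_lit 4) (nat_lit 1) (nat_lit 4) (nat_lit 343) (nat_lit 214) (nat_lit 163)))) (XT.nd (nat_lit 156) (nat_lit 0) (nat_lit 0) (XT.nd (nat_lit 78) (nat_lit 0) (nat_lit 0) (XT.lf (nat_lit 0) (nat_lit 40345194766) (nat_lit 152) (nat_lit 149822118797) (nat_lit 0) (nat_lit 33710293288) (nat_lit 1) (nat_lit 5) (nat_lit 3) (nat_lit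 4) (nat_lit 1) (nat_lit 4) (nat_lit 344) (nat_lit 214) (nat_lit 162)) (XT.lf (nat_lit 0) (nat_lit 43764152063) (nat_lit 152) (nat_lit 154115016370) (nat_lit 0) (nat_lit 37102113860) (nat_lit 1) (nat_lit 5) (nat_lit 3) (nat_lit 4) (nat_lit 1) (nat_lit 4) (nat_lit 345) (nat_lit 214) (nat_lit 161))) (XT.nd (nat_lit 78) (nat_lit 0) (nat_lit 0) (XT.lf (nat_lit 0) (nat_lit 47342833792) (nat_lit 152) (nat_lit 158642931226) (nat_lit 0) (nat_lit 40654951089) (nat_lit 1) (nat_lit 5) (nat_lit 3) (nat_lit 4) (nat_lit 1) (nat_lit 4) (nat_lit 346) (nat_lit 214) (nat_lit 160)) (XT.nd (nat_lit 78) (nat_lit 0) (nat_lit 0) (XT.lf (nat_lit 0) (nat_lit 51089760624) (nat_lit 152) (nat_lit 163416644115) (nat_lit 0) (nat_lit 44377264111) (nat_lit 1) (nat_lit 5) (nat_lit 3) (nat_lit 4) (nat_lit 1) (nat_lit 4) (nat_lit 347) (nat_lit 214) (nat_lit 159)) (XT.lf (nat_lit 0) (nat_lit 55013853813) (nat_lit 152)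 (nat_lit 168447521019) (nat_lit 0) (nat_lit 48277915577) (nat_lit 1) (nat_lit 5) (nat_lit 3) (nat_lit 4) (nat_lit 1) (nat_lit 4) (nat_lit 348) (nat_lit 214) (nat_lit 158))))))) (XT.nd (nat_lit 702) (nat_lit 0) (nat_lit 0) (XT.nd (nat_lit 312) (nat_lit 0) (nat_lit 0) (XT.nd (nat_lit 156) (nat_lit 0) (nat_lit 0) (XT.nd (nat_lit 78) (nat_lit 0) (nat_lit 0) (XT.lf (nat_lit 0) (nat_lit 59124456438) (nat_lit 152) (nat_lit 173747540218) (nat_lit 0) (nat_lit 52366192751) (nat_lit 1) (nat_lit 5) (nat_lit 3) (nat_lit 4) (nat_lit 1) (nat_lit 4) (nat_lit 349) (nat_lit 214) (nat_lit 157)) (XT.lf (nat_lit 0) (nat_lit 63431355649) (nat_lit 152) (nat_lit 179329320805) (nat_lit 0) (nat_lit 56651829627) (nat_lit 1) (nat_lit 5) (nat_lit 3) (nat_lit 4) (nat_lit 1) (nat_lit 4) (nat_lit 350) (nat_lit 214) (nat_lit 156))) (XT.nd (nat_lit 78) (nat_lit 0) (nat_lit 0) (XT.lf (nat_lit 0) (nat_lit 67944805966)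 (nat_lit 152) (nat_lit 185206152733) (nat_lit 0) (nat_lit 61145030102) (nat_lit 1) (nat_lit 5) (nat_lit 3) (nat_lit 4) (nat_lit 1) (nat_lit 4) (nat_lit 351) (nat_lit 214) (nat_lit 155)) (XT.lf (nat_lit 0) (nat_lit 72675553701) (nat_lit 152) (nat_lit 191392028460) (nat_lit 0) (nat_lit 65856492273) (nat_lit 1) (nat_lit 5) (nat_lit 3) (nat_lit 4) (nat_lit 1) (nat_lit 4) (nat_lit 352) (nat_lit 214) (nat_lit 154)))) (XT.nd (nat_lit 156) (nat_lit 0) (nat_lit 0) (XT.nd (nat_lit 78) (nat_lit 0) (nat_lit 0) (XT.lf (nat_lit 0) (nat_lit 77634862538) (nat_lit 152) (nat_lit 197901676260) (nat_lit 0) (nat_lit 70797433906) (nat_lit 1) (nat_lit 5) (nat_lit 3) (nat_lit 4) (nat_lit 1) (nat_lit 4) (nat_lit 353) (nat_lit 214) (nat_lit 153)) (XT.lf (nat_lit 0) (nat_lit 82834540356) (nat_lit 152) (nat_lit 204750595296) (nat_lit 0) (nat_lit 75979619149) (nat_lit 1) (nat_lit 5) (nat_lit 3) (nat_lit 4) (nat_lit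 1) (nat_lit 4) (nat_lit 354) (nat_lit 214) (nat_lit 152))) (XT.nd (nat_lit 78) (nat_lit 0) (nat_lit 0) (XT.lf (nat_lit 0) (nat_lit 88286967340) (nat_lit 152) (nat_lit 211955092517) (nat_lit 0) (nat_lit 81415386538) (nat_lit 1) (nat_lit 5) (nat_lit 3) (nat_lit 4) (nat_lit 1) (nat_lit 4) (nat_lit 355) (nat_lit 214) (nat_lit 151)) (XT.nd (nat_lit 78) (nat_lit 0) (nat_lit 0) (XT.lf (nat_lit 0) (nat_lit 94005125460) (nat_lit 152) (nat_lit 219532321488) (nat_lit 0) (nat_lit 87117678376) (nat_lit 1) (nat_lit 5) (nat_lit 3) (nat_lit 4) (nat_lit 1) (nat_lit 4) (nat_lit 356) (nat_lit 214) (nat_lit 150)) (XT.lf (nat_lit 0) (nat_lit 100002629376) (nat_lit 152) (nat_lit 227500323231) (nat_lit 0) (nat_lit 93100071548) (nat_lit 1) (nat_lit 5) (nat_lit 3) (nat_lit 4) (nat_lit 1) (nat_lit 4) (nat_lit 357) (nat_lit 214) (nat_lit 149)))))) (XT.nd (nat_lit 312) (nat_lit 0) (nat_lit 0) (XT.nd (nat_lit 156)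 (nat_lit 0) (nat_lit 0) (XT.nd (nat_lit 78) (nat_lit 0) (nat_lit 0) (XT.lf (nat_lit 0) (nat_lit 106293758860) (nat_lit 152) (nat_lit 235878069178) (nat_lit 0) (nat_lit 99376809848) (nat_lit 1) (nat_lit 5) (nat_lit 3) (nat_lit 4) (nat_lit 1) (nat_lit 4) (nat_lit 358) (nat_lit 214) (nat_lit 148)) (XT.lf (nat_lit 0) (nat_lit 112893492793) (nat_lit 152) (nat_lit 244685506344) (nat_lit 0) (nat_lit 105962837890) (nat_lit 1) (nat_lit 5) (nat_lit 3) (nat_lit 4) (nat_lit 1) (nat_lit 4) (nat_lit 359) (nat_lit 214) (nat_lit 147))) (XT.nd (nat_lit 78) (nat_lit 0) (nat_lit 0) (XT.lf (nat_lit 0) (nat_lit 119817544826) (nat_lit 152) (nat_lit 253943604817) (nat_lit 0) (nat_lit 112873836695) (nat_lit 1) (nat_lit 5) (nat_lit 3) (nat_lit 4) (nat_lit 1) (nat_lit 4) (nat_lit 360) (nat_lit 214) (nat_lit 146)) (XT.lf (nat_lit 0) (nat_lit 127082400798) (nat_lit 152) (nat_lit 263674407688) (nat_lit 0) (nat_lit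 120126261020) (nat_lit 1) (nat_lit 5) (nat_lit 3) (nat_lit 4) (nat_lit 1) (nat_lit 4) (nat_lit 361) (nat_lit 214) (nat_lit 145)))) (XT.nd (nat_lit 156) (nat_lit 0) (nat_lit 0) (XT.nd (nat_lit 78) (nat_lit 0) (nat_lit 0) (XT.lf (nat_lit 0) (nat_lit 134705357984) (nat_lit 152) (nat_lit 273901083536) (nat_lit 0) (nat_lit 127737378543) (nat_lit 1) (nat_lit 5) (nat_lit 3) (nat_lit 4) (nat_lit 1) (nat_lit 4) (nat_lit 362) (nat_lit 214) (nat_lit 144)) (XT.lf (nat_lit 0) (nat_lit 142704566284) (nat_lit 152) (nat_lit 284647981590) (nat_lit 0) (nat_lit 135725310972) (nat_lit 1) (nat_lit 5) (nat_lit 3) (nat_lit 4) (nat_lit 1) (nat_lit 4) (nat_lit 363) (nat_lit 214) (nat_lit 143))) (XT.nd (nat_lit 31746) (nat_lit 0) (nat_lit 608) (XT.lf (nat_lit 0) (nat_lit 151099071429) (nat_lit 152) (nat_lit 295940689700) (nat_lit 0) (nat_lit 144109077194) (nat_lit 1) (nat_lit 5) (nat_lit 3) (nat_lit 4) (nat_lit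 1) (nat_lit 4) (nat_lit 364) (nat_lit 214) (nat_lit 142)) (XT.nd (nat_lit 78) (nat_lit 76) (nat_lit 0) (XT.lf (nat_lit 0) (nat_lit 4231527478) (nat_lit 152) (nat_lit 952518060) (nat_lit 0) (nat_lit 4231527478) (nat_lit 10) (nat_lit 5) (nat_lit 12) (nat_lit 4) (nat_lit 10) (nat_lit 4) (nat_lit 290) (nat_lit 215) (nat_lit 215)) (XT.lf (nat_lit 0) (nat_lit 4366951879) (nat_lit 76) (nat_lit 7814774971) (nat_lit 76) (nat_lit 7397753721) (nat_lit 9) (nat_lit 4) (nat_lit 10) (nat_lit 5) (nat_lit 10) (nat_lit 4) (nat_lit 291) (nat_lit 215) (nat_lit 214))))))))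
noncomputable def xc40 : XT := (XT.nd (nat_lit 1326) (nat_lit 76) (nat_lit 0) (XT.nd (nat_lit 624) (nat_lit 152) (nat_lit 0) (XT.nd (nat_lit 312) (nat_lit 76) (nat_lit 0) (XT.nd (nat_lit 156) (nat_lit 152) (nat_lit 0) (XT.nd (nat_lit 78) (nat_lit 0) (nat_lit 0) (XT.lf (nat_lit 0) (nat_lit 10816090649) (nat_lit 76) (nat_lit 5183923891) (nat_lit 76) (nat_lit 4369739545) (nat_lit 9) (nat_lit 4) (nat_lit 10) (nat_lit 5) (nat_lit 10) (nat_lit 4) (nat_lit 292) (nat_lit 215) (nat_lit 213)) (XT.lf (nat_lit 0) (nat_lit 17394746184) (nat_lit 76) (nat_lit 2501536614) (nat_lit 76) (nat_lit 1309101701) (nat_lit 9) (nat_lit 4) (nat_lit 10) (nat_lit 5) (nat_lit 10) (nat_lit 4) (nat_lit 293) (nat_lit 215) (nat_lit 212))) (XT.nd (nat_lit 78) (nat_lit 0) (nat_lit 0) (XT.lf (nat_lit 0) (nat_lit 1771119776) (nat_lit 152) (nat_lit 20021609584) (nat_lit 0) (nat_lit 292383063) (nat_lit 7) (nat_lit 5) (nat_lit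 9) (nat_lit 4) (nat_lit 7) (nat_lit 4) (nat_lit 294) (nat_lit 215) (nat_lit 211)) (XT.lf (nat_lit 0) (nat_lit 4959584802) (nat_lit 152) (nat_lit 14894326310) (nat_lit 0) (nat_lit 3154101027) (nat_lit 7) (nat_lit 5) (nat_lit 9) (nat_lit 4) (nat_lit 7) (nat_lit 4) (nat_lit 295) (nat_lit 215) (nat_lit 210)))) (XT.nd (nat_lit 156) (nat_lit 76) (nat_lit 0) (XT.nd (nat_lit 78) (nat_lit 0) (nat_lit 0) (XT.lf (nat_lit 0) (nat_lit 8204258910) (nat_lit 152) (nat_lit 9690532868) (nat_lit 0) (nat_lit 6087587458) (nat_lit 7) (nat_lit 5) (nat_lit 9) (nat_lit 4) (nat_lit 7) (nat_lit 4) (nat_lit 296) (nat_lit 215) (nat_lit 209)) (XT.lf (nat_lit 0) (nat_lit 11512867516) (nat_lit 152) (nat_lit 4397839275) (nat_lit 0) (nat_lit 9099826847) (nat_lit 7) (nat_lit 5) (nat_lit 9) (nat_lit 4) (nat_lit 7) (nat_lit 4) (nat_lit 297) (nat_lit 215) (nat_lit 208))) (XT.nd (nat_lit 78) (nat_lit 0) (nat_lit 0) (XT.lf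 (nat_lit 0) (nat_lit 1029300152) (nat_lit 76) (nat_lit 13880058366) (nat_lit 76) (nat_lit 11184761300) (nat_lit 6) (nat_lit 4) (nat_lit 7) (nat_lit 5) (nat_lit 7) (nat_lit 4) (nat_lit 298) (nat_lit 215) (nat_lit 207)) (XT.lf (nat_lit 0) (nat_lit 6719977900) (nat_lit 76) (nat_lit 11738509547) (nat_lit 76) (nat_lit 8774396865) (nat_lit 6) (nat_lit 4) (nat_lit 7) (nat_lit 5) (nat_lit 7) (nat_lit 4) (nat_lit 299) (nat_lit 215) (nat_lit 206))))) (XT.nd (nat_lit 312) (nat_lit 76) (nat_lit 0) (XT.nd (nat_lit 156) (nat_lit 76) (nat_lit 0) (XT.nd (nat_lit 78) (nat_lit 0) (nat_lit 0) (XT.lf (nat_lit 0) (nat_lit 12542330772) (nat_lit 76) (nat_lit 9555440945) (nat_lit 76) (nat_lit 6335313390) (nat_lit 6) (nat_lit 4) (nat_lit 7) (nat_lit 5) (nat_lit 7) (nat_lit 4) (nat_lit 300) (nat_lit 215) (nat_lit 205)) (XT.lf (nat_lit 0) (nat_lit 18510221513) (nat_lit 76) (nat_lit 7325654777) (nat_lit 76) (nat_lit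 3861703534) (nat_lit 6) (nat_lit 4) (nat_lit 7) (nat_lit 5) (nat_lit 7) (nat_lit 4) (nat_lit 301) (nat_lit 215) (nat_lit 204))) (XT.nd (nat_lit 78) (nat_lit 76) (nat_lit 0) (XT.lf (nat_lit 0) (nat_lit 24637859387) (nat_lit 76) (nat_lit 5043842029) (nat_lit 76) (nat_lit 1347677749) (nat_lit 6) (nat_lit 4) (nat_lit 7) (nat_lit 5) (nat_lit 7) (nat_lit 4) (nat_lit 302) (nat_lit 215) (nat_lit 203)) (XT.lf (nat_lit 0) (nat_lit 1173934173) (nat_lit 152) (nat_lit 1510754496) (nat_lit 76) (nat_lit 29746018691) (nat_lit 5) (nat_lit 5) (nat_lit 7) (nat_lit 5) (nat_lit 6) (nat_lit 4) (nat_lit 303) (nat_lit 215) (nat_lit 202)))) (XT.nd (nat_lit 156) (nat_lit 0) (nat_lit 0) (XT.nd (nat_lit 78) (nat_lit 0) (nat_lit 0) (XT.lf (nat_lit 0) (nat_lit 3578202054) (nat_lit 76) (nat_lit 180893397) (nat_lit 152) (nat_lit 30142868108) (nat_lit 4) (nat_lit 5) (nat_lit 5) (nat_lit 5) (nat_lit 6) (nat_lit 4) (nat_lit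 304) (nat_lit 215) (nat_lit 201)) (XT.lf (nat_lit 0) (nat_lit 6465293040) (nat_lit 152) (nat_lit 26639123955) (nat_lit 0) (nat_lit 2342875922) (nat_lit 4) (nat_lit 5) (nat_lit 6) (nat_lit 4) (nat_lit 4) (nat_lit 4) (nat_lit 305) (nat_lit 215) (nat_lit 200))) (XT.nd (nat_lit 78) (nat_lit 0) (nat_lit 0) (XT.lf (nat_lit 0) (nat_lit 9240767768) (nat_lit 152) (nat_lit 22896111489) (nat_lit 0) (nat_lit 4936405660) (nat_lit 4) (nat_lit 5) (nat_lit 6) (nat_lit 4) (nat_lit 4) (nat_lit 4) (nat_lit 306) (nat_lit 215) (nat_lit 199)) (XT.nd (nat_lit 78) (nat_lit 0) (nat_lit 0) (XT.lf (nat_lit 0) (nat_lit 12089303655) (nat_lit 152) (nat_lit 19082987919) (nat_lit 0) (nat_lit 7611660605) (nat_lit 4) (nat_lit 5) (nat_lit 6) (nat_lit 4) (nat_lit 4) (nat_lit 4) (nat_lit 307) (nat_lit 215) (nat_lit 198)) (XT.lf (nat_lit 0) (nat_lit 15017682931) (nat_lit 152) (nat_lit 15190674379) (nat_lit 0) (nat_lit 10375010411)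 (nat_lit 4) (nat_lit 5) (nat_lit 6) (nat_lit 4) (nat_lit 4) (nat_lit 4) (nat_lit 308) (nat_lit 215) (nat_lit 197))))))) (XT.nd (nat_lit 702) (nat_lit 0) (nat_lit 0) (XT.nd (nat_lit 312) (nat_lit 0) (nat_lit 0) (XT.nd (nat_lit 156) (nat_lit 76) (nat_lit 0) (XT.nd (nat_lit 78) (nat_lit 0) (nat_lit 0) (XT.lf (nat_lit 0) (nat_lit 18032877927) (nat_lit 152) (nat_lit 11209903457) (nat_lit 0) (nat_lit 13233034484) (nat_lit 4) (nat_lit 5) (nat_lit 6) (nat_lit 4) (nat_lit 4) (nat_lit 4) (nat_lit 309) (nat_lit 215) (nat_lit 196)) (XT.lf (nat_lit 0) (nat_lit 21142067678) (nat_lit 152) (nat_lit 7131197126) (nat_lit 0) (nat_lit 16192537641) (nat_lit 4) (nat_lit 5) (nat_lit 6) (nat_lit 4) (nat_lit 4) (nat_lit 4) (nat_lit 310) (nat_lit 215) (nat_lit 195))) (XT.nd (nat_lit 78) (nat_lit 76) (nat_lit 0) (XT.lf (nat_lit 0) (nat_lit 24352655018) (nat_lit 152) (nat_lit 2944844181) (nat_lit 0) (nat_lit 19260566320)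 (nat_lit 4) (nat_lit 5) (nat_lit 6) (nat_lit 4) (nat_lit 4) (nat_lit 4) (nat_lit 311) (nat_lit 215) (nat_lit 194)) (XT.lf (nat_lit 0) (nat_lit 1404061625) (nat_lit 76) (nat_lit 26290143913) (nat_lit 76) (nat_lit 21062285062) (nat_lit 3) (nat_lit 4) (nat_lit 4) (nat_lit 5) (nat_lit 4) (nat_lit 4) (nat_lit 312) (nat_lit 215) (nat_lit 193)))) (XT.nd (nat_lit 156) (nat_lit 0) (nat_lit 0) (XT.nd (nat_lit 78) (nat_lit 0) (nat_lit 0) (XT.lf (nat_lit 0) (nat_lit 5982426626) (nat_lit 76) (nat_lit 25219834926) (nat_lit 76) (nat_lit 19862671168) (nat_lit 3) (nat_lit 4) (nat_lit 4) (nat_lit 5) (nat_lit 4) (nat_lit 4) (nat_lit 313) (nat_lit 215) (nat_lit 192)) (XT.lf (nat_lit 0) (nat_lit 10703781841) (nat_lit 76) (nat_lit 24133896247) (nat_lit 76) (nat_lit 18653584958) (nat_lit 3) (nat_lit 4) (nat_lit 4) (nat_lit 5) (nat_lit 4) (nat_lit 4) (nat_lit 314) (nat_lit 215) (nat_lit 191))) (XT.nd (nat_lit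 78) (nat_lit 0) (nat_lit 0) (XT.lf (nat_lit 0) (nat_lit 15579368594) (nat_lit 76) (nat_lit 23029742307) (nat_lit 76) (nat_lit 17432147654) (nat_lit 3) (nat_lit 4) (nat_lit 4) (nat_lit 5) (nat_lit 4) (nat_lit 4) (nat_lit 315) (nat_lit 215) (nat_lit 190)) (XT.nd (nat_lit 78) (nat_lit 0) (nat_lit 0) (XT.lf (nat_lit 0) (nat_lit 20620795423) (nat_lit 76) (nat_lit 21904744167) (nat_lit 76) (nat_lit 16195451074) (nat_lit 3) (nat_lit 4) (nat_lit 4) (nat_lit 5) (nat_lit 4) (nat_lit 4) (nat_lit 316) (nat_lit 215) (nat_lit 189)) (XT.lf (nat_lit 0) (nat_lit 25840065727) (nat_lit 76) (nat_lit 20756223262) (nat_lit 76) (nat_lit 14940550701) (nat_lit 3) (nat_lit 4) (nat_lit 4) (nat_lit 5) (nat_lit 4) (nat_lit 4) (nat_lit 317) (nat_lit 215) (nat_lit 188)))))) (XT.nd (nat_lit 312) (nat_lit 0) (nat_lit 0) (XT.nd (nat_lit 156) (nat_lit 0) (nat_lit 0) (XT.nd (nat_lit 78) (nat_lit 0) (nat_lit 0) (XT.lf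 (nat_lit 0) (nat_lit 31249606338) (nat_lit 76) (nat_lit 19581445016) (nat_lit 76) (nat_lit 13664458677) (nat_lit 3) (nat_lit 4) (nat_lit 4) (nat_lit 5) (nat_lit 4) (nat_lit 4) (nat_lit 318) (nat_lit 215) (nat_lit 187)) (XT.lf (nat_lit 0) (nat_lit 36862297116) (nat_lit 76) (nat_lit 18377612340) (nat_lit 76) (nat_lit 12364136688) (nat_lit 3) (nat_lit 4) (nat_lit 4) (nat_lit 5) (nat_lit 4) (nat_lit 4) (nat_lit 319) (nat_lit 215) (nat_lit 186))) (XT.nd (nat_lit 78) (nat_lit 0) (nat_lit 0) (XT.lf (nat_lit 0) (nat_lit 42691501610) (nat_lit 76) (nat_lit 17141858965) (nat_lit 76) (nat_lit 11036488728) (nat_lit 3) (nat_lit 4) (nat_lit 4) (nat_lit 5) (nat_lit 4) (nat_lit 4) (nat_lit 320) (nat_lit 215) (nat_lit 185)) (XT.lf (nat_lit 0) (nat_lit 48751098879) (nat_lit 76) (nat_lit 15871242620) (nat_lit 76) (nat_lit 9678353733) (nat_lit 3) (nat_lit 4) (nat_lit 4) (nat_lit 5) (nat_lit 4) (nat_lit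 4) (nat_lit 321) (nat_lit 215) (nat_lit 184)))) (XT.nd (nat_lit 156) (nat_lit 0) (nat_lit 0) (XT.nd (nat_lit 78) (nat_lit 0) (nat_lit 0) (XT.lf (nat_lit 0) (nat_lit 55055516534) (nat_lit 76) (nat_lit 14562738030) (nat_lit 76) (nat_lit 8286498046) (nat_lit 3) (nat_lit 4) (nat_lit 4) (nat_lit 5) (nat_lit 4) (nat_lit 4) (nat_lit 322) (nat_lit 215) (nat_lit 183)) (XT.lf (nat_lit 0) (nat_lit 61619765095) (nat_lit 76) (nat_lit 13213229706) (nat_lit 76) (nat_lit 6857607726) (nat_lit 3) (nat_lit 4) (nat_lit 4) (nat_lit 5) (nat_lit 4) (nat_lit 4) (nat_lit 323) (nat_lit 215) (nat_lit 182))) (XT.nd (nat_lit 78) (nat_lit 0) (nat_lit 0) (XT.lf (nat_lit 0) (nat_lit 68459473724) (nat_lit 76) (nat_lit 11819504534) (nat_lit 76) (nat_lit 5388280652) (nat_lit 3) (nat_lit 4) (nat_lit 4) (nat_lit 5) (nat_lit 4) (nat_lit 4) (nat_lit 324) (nat_lit 215) (nat_lit 181)) (XT.nd (nat_lit 78) (nat_lit 0) (nat_lit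 0) (XT.lf (nat_lit 0) (nat_lit 75590927442) (nat_lit 76) (nat_lit 10378244121) (nat_lit 76) (nat_lit 3875018428) (nat_lit 3) (nat_lit 4) (nat_lit 4) (nat_lit 5) (nat_lit 4) (nat_lit 4) (nat_lit 325) (nat_lit 215) (nat_lit 180)) (XT.lf (nat_lit 0) (nat_lit 83031105901) (nat_lit 76) (nat_lit 8886016894) (nat_lit 76) (nat_lit 2314218048) (nat_lit 3) (nat_lit 4) (nat_lit 4) (nat_lit 5) (nat_lit 4) (nat_lit 4) (nat_lit 326) (nat_lit 215) (nat_lit 179))))))))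
noncomputable def xc41 : XT := (XT.nd (nat_lit 1326) (nat_lit 0) (nat_lit 0) (XT.nd (nat_lit 624) (nat_lit 0) (nat_lit 0) (XT.nd (nat_lit 312) (nat_lit 0) (nat_lit 0) (XT.nd (nat_lit 156) (nat_lit 76) (nat_lit 0) (XT.nd (nat_lit 78) (nat_lit 76) (nat_lit 0) (XT.lf (nat_lit 0) (nat_lit 90797723811) (nat_lit 76) (nat_lit 7339269931) (nat_lit 76) (nat_lit 702163320) (nat_lit 3) (nat_lit 4) (nat_lit 4) (nat_lit 5) (nat_lit 4) (nat_lit 4) (nat_lit 327) (nat_lit 215) (nat_lit 178)) (XT.lf (nat_lit 0) (nat_lit 934098467) (nat_lit 152) (nat_lit 4784402624) (nat_lit 76) (nat_lit 97959355243) (nat_lit 2) (nat_lit 5) (nat_lit 4) (nat_lit 5) (nat_lit 3) (nat_lit 4) (nat_lit 328) (nat_lit 215) (nat_lit 177))) (XT.nd (nat_lit 78) (nat_lit 76) (nat_lit 0) (XT.lf (nat_lit 0) (nat_lit 2605058262) (nat_lit 152) (nat_lit 1418171111) (nat_lit 76) (nat_lit 104735890855) (nat_lit 2) (nat_lit 5) (nat_lit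 4) (nat_lit 5) (nat_lit 3) (nat_lit 4) (nat_lit 329) (nat_lit 215) (nat_lit 176)) (XT.lf (nat_lit 0) (nat_lit 2144888695) (nat_lit 76) (nat_lit 2225767182) (nat_lit 152) (nat_lit 109723264866) (nat_lit 1) (nat_lit 5) (nat_lit 2) (nat_lit 5) (nat_lit 3) (nat_lit 4) (nat_lit 330) (nat_lit 215) (nat_lit 175)))) (XT.nd (nat_lit 156) (nat_lit 0) (nat_lit 0) (XT.nd (nat_lit 78) (nat_lit 0) (nat_lit 0) (XT.lf (nat_lit 0) (nat_lit 5895851384) (nat_lit 76) (nat_lit 330751590) (nat_lit 152) (nat_lit 113468781417) (nat_lit 1) (nat_lit 5) (nat_lit 2) (nat_lit 5) (nat_lit 3) (nat_lit 4) (nat_lit 331) (nat_lit 215) (nat_lit 174)) (XT.lf (nat_lit 0) (nat_lit 8180085839) (nat_lit 152) (nat_lit 115806876091) (nat_lit 0) (nat_lit 1589747691) (nat_lit 1) (nat_lit 5) (nat_lit 3) (nat_lit 4) (nat_lit 1) (nat_lit 4) (nat_lit 332) (nat_lit 215) (nat_lit 173))) (XT.nd (nat_lit 78) (nat_lit 0) (nat_lit 0) (XT.lf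 (nat_lit 0) (nat_lit 10216509332) (nat_lit 152) (nat_lit 117956594397) (nat_lit 0) (nat_lit 3579758174) (nat_lit 1) (nat_lit 5) (nat_lit 3) (nat_lit 4) (nat_lit 1) (nat_lit 4) (nat_lit 333) (nat_lit 215) (nat_lit 172)) (XT.lf (nat_lit 0) (nat_lit 12335558121) (nat_lit 152) (nat_lit 120248642345) (nat_lit 0) (nat_lit 5654604097) (nat_lit 1) (nat_lit 5) (nat_lit 3) (nat_lit 4) (nat_lit 1) (nat_lit 4) (nat_lit 334) (nat_lit 215) (nat_lit 171))))) (XT.nd (nat_lit 312) (nat_lit 0) (nat_lit 0) (XT.nd (nat_lit 156) (nat_lit 0) (nat_lit 0) (XT.nd (nat_lit 78) (nat_lit 0) (nat_lit 0) (XT.lf (nat_lit 0) (nat_lit 14542277559) (nat_lit 152) (nat_lit 122688477190) (nat_lit 0) (nat_lit 7819225567) (nat_lit 1) (nat_lit 5) (nat_lit 3) (nat_lit 4) (nat_lit 1) (nat_lit 4) (nat_lit 335) (nat_lit 215) (nat_lit 170)) (XT.lf (nat_lit 0) (nat_lit 16841921741) (nat_lit 152) (nat_lit 125281908064) (nat_lit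 0) (nat_lit 10078776447) (nat_lit 1) (nat_lit 5) (nat_lit 3) (nat_lit 4) (nat_lit 1) (nat_lit 4) (nat_lit 336) (nat_lit 215) (nat_lit 169))) (XT.nd (nat_lit 78) (nat_lit 0) (nat_lit 0) (XT.lf (nat_lit 0) (nat_lit 19239966010) (nat_lit 152) (nat_lit 128035109801) (nat_lit 0) (nat_lit 12438636618) (nat_lit 1) (nat_lit 5) (nat_lit 3) (nat_lit 4) (nat_lit 1) (nat_lit 4) (nat_lit 337) (nat_lit 215) (nat_lit 168)) (XT.lf (nat_lit 0) (nat_lit 21742119996) (nat_lit 152) (nat_lit 130954637645) (nat_lit 0) (nat_lit 14904424797) (nat_lit 1) (nat_lit 5) (nat_lit 3) (nat_lit 4) (nat_lit 1) (nat_lit 4) (nat_lit 338) (nat_lit 215) (nat_lit 167)))) (XT.nd (nat_lit 156) (nat_lit 0) (nat_lit 0) (XT.nd (nat_lit 78) (nat_lit 0) (nat_lit 0) (XT.lf (nat_lit 0) (nat_lit 24354341207) (nat_lit 152) (nat_lit 134047442851) (nat_lit 0) (nat_lit 17482011906) (nat_lit 1) (nat_lit 5) (nat_lit 3) (nat_lit 4) (nat_lit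 1) (nat_lit 4) (nat_lit 339) (nat_lit 215) (nat_lit 166)) (XT.lf (nat_lit 0) (nat_lit 27082849218) (nat_lit 152) (nat_lit 137320889242) (nat_lit 0) (nat_lit 20177535058) (nat_lit 1) (nat_lit 5) (nat_lit 3) (nat_lit 4) (nat_lit 1) (nat_lit 4) (nat_lit 340) (nat_lit 215) (nat_lit 165))) (XT.nd (nat_lit 78) (nat_lit 0) (nat_lit 0) (XT.lf (nat_lit 0) (nat_lit 29934140477) (nat_lit 152) (nat_lit 140782770737) (nat_lit 0) (nat_lit 22997412165) (nat_lit 1) (nat_lit 5) (nat_lit 3) (nat_lit 4) (nat_lit 1) (nat_lit 4) (nat_lit 341) (nat_lit 215) (nat_lit 164)) (XT.nd (nat_lit 78) (nat_lit 0) (nat_lit 0) (XT.lf (nat_lit 0) (nat_lit 32915003772) (nat_lit 152) (nat_lit 144441329913) (nat_lit 0) (nat_lit 25948357221) (nat_lit 1) (nat_lit 5) (nat_lit 3) (nat_lit 4) (nat_lit 1) (nat_lit 4) (nat_lit 342) (nat_lit 215) (nat_lit 163)) (XT.lf (nat_lit 0) (nat_lit 36032536398) (nat_lit 152) (nat_lit 148305277623)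 (nat_lit 0) (nat_lit 29037396285) (nat_lit 1) (nat_lit 5) (nat_lit 3) (nat_lit 4) (nat_lit 1) (nat_lit 4) (nat_lit 343) (nat_lit 215) (nat_lit 162))))))) (XT.nd (nat_lit 702) (nat_lit 0) (nat_lit 0) (XT.nd (nat_lit 312) (nat_lit 0) (nat_lit 0) (XT.nd (nat_lit 156) (nat_lit 0) (nat_lit 0) (XT.nd (nat_lit 78) (nat_lit 0) (nat_lit 0) (XT.lf (nat_lit 0) (nat_lit 39294161050) (nat_lit 152) (nat_lit 152383813743) (nat_lit 0) (nat_lit 32271884212) (nat_lit 1) (nat_lit 5) (nat_lit 3) (nat_lit 4) (nat_lit 1) (nat_lit 4) (nat_lit 344) (nat_lit 215) (nat_lit 161)) (XT.lf (nat_lit 0) (nat_lit 42707643502) (nat_lit 152) (nat_lit 156686649074) (nat_lit 0) (nat_lit 35659522163) (nat_lit 1) (nat_lit 5) (nat_lit 3) (nat_lit 4) (nat_lit 1) (nat_lit 4) (nat_lit 345) (nat_lit 215) (nat_lit 160))) (XT.nd (nat_lit 78) (nat_lit 0) (nat_lit 0) (XT.lf (nat_lit 0) (nat_lit 46281111093) (nat_lit 152) (nat_lit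 161224028462) (nat_lit 0) (nat_lit 39208375944) (nat_lit 1) (nat_lit 5) (nat_lit 3) (nat_lit 4) (nat_lit 1) (nat_lit 4) (nat_lit 346) (nat_lit 215) (nat_lit 159)) (XT.lf (nat_lit 0) (nat_lit 50023072078) (nat_lit 152) (nat_lit 166006755190) (nat_lit 0) (nat_lit 42926895206) (nat_lit 1) (nat_lit 5) (nat_lit 3) (nat_lit 4) (nat_lit 1) (nat_lit 4) (nat_lit 347) (nat_lit 215) (nat_lit 158)))) (XT.nd (nat_lit 156) (nat_lit 0) (nat_lit 0) (XT.nd (nat_lit 78) (nat_lit 0) (nat_lit 0) (XT.lf (nat_lit 0) (nat_lit 53942435890) (nat_lit 152) (nat_lit 171046216704) (nat_lit 0) (nat_lit 46823933567) (nat_lit 1) (nat_lit 5) (nat_lit 3) (nat_lit 4) (nat_lit 1) (nat_lit 4) (nat_lit 348) (nat_lit 215) (nat_lit 157)) (XT.lf (nat_lit 0) (nat_lit 58048534346) (nat_lit 152) (nat_lit 176354411722) (nat_lit 0) (nat_lit 50908769689) (nat_lit 1) (nat_lit 5) (nat_lit 3) (nat_lit 4) (nat_lit 1) (nat_lit 4) (nat_lit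 349) (nat_lit 215) (nat_lit 156))) (XT.nd (nat_lit 78) (nat_lit 0) (nat_lit 0) (XT.lf (nat_lit 0) (nat_lit 62351143872) (nat_lit 152) (nat_lit 181943978802) (nat_lit 0) (nat_lit 55191129372) (nat_lit 1) (nat_lit 5) (nat_lit 3) (nat_lit 4) (nat_lit 1) (nat_lit 4) (nat_lit 350) (nat_lit 215) (nat_lit 155)) (XT.nd (nat_lit 78) (nat_lit 0) (nat_lit 0) (XT.lf (nat_lit 0) (nat_lit 66860508776) (nat_lit 152) (nat_lit 187828226438) (nat_lit 0) (nat_lit 59681208712) (nat_lit 1) (nat_lit 5) (nat_lit 3) (nat_lit 4) (nat_lit 1) (nat_lit 4) (nat_lit 351) (nat_lit 215) (nat_lit 154)) (XT.lf (nat_lit 0) (nat_lit 71587365640) (nat_lit 152) (nat_lit 194021164744) (nat_lit 0) (nat_lit 64389698373) (nat_lit 1) (nat_lit 5) (nat_lit 3) (nat_lit 4) (nat_lit 1) (nat_lit 4) (nat_lit 352) (nat_lit 215) (nat_lit 153)))))) (XT.nd (nat_lit 312) (nat_lit 0) (nat_lit 0) (XT.nd (nat_lit 156) (nat_lit 0) (nat_lit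 0) (XT.nd (nat_lit 78) (nat_lit 0) (nat_lit 0) (XT.lf (nat_lit 0) (nat_lit 76542968887) (nat_lit 152) (nat_lit 200537538810) (nat_lit 0) (nat_lit 69327809044) (nat_lit 1) (nat_lit 5) (nat_lit 3) (nat_lit 4) (nat_lit 1) (nat_lit 4) (nat_lit 353) (nat_lit 215) (nat_lit 152)) (XT.lf (nat_lit 0) (nat_lit 81739117571) (nat_lit 152) (nat_lit 207392863814) (nat_lit 0) (nat_lit 74507298133) (nat_lit 1) (nat_lit 5) (nat_lit 3) (nat_lit 4) (nat_lit 1) (nat_lit 4) (nat_lit 354) (nat_lit 215) (nat_lit 151))) (XT.nd (nat_lit 78) (nat_lit 0) (nat_lit 0) (XT.lf (nat_lit 0) (nat_lit 87188183475) (nat_lit 152) (nat_lit 214603461956) (nat_lit 0) (nat_lit 79940497756) (nat_lit 1) (nat_lit 5) (nat_lit 3) (nat_lit 4) (nat_lit 1) (nat_lit 4) (nat_lit 355) (nat_lit 215) (nat_lit 150)) (XT.lf (nat_lit 0) (nat_lit 92903140565) (nat_lit 152) (nat_lit 222186501329) (nat_lit 0) (nat_lit 85640344102) (nat_lit 1)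 (nat_lit 5) (nat_lit 3) (nat_lit 4) (nat_lit 1) (nat_lit 4) (nat_lit 356) (nat_lit 215) (nat_lit 149)))) (XT.nd (nat_lit 156) (nat_lit 0) (nat_lit 0) (XT.nd (nat_lit 78) (nat_lit 0) (nat_lit 0) (XT.lf (nat_lit 0) (nat_lit 98897595883) (nat_lit 152) (nat_lit 230160036788) (nat_lit 0) (nat_lit 91620408235) (nat_lit 1) (nat_lit 5) (nat_lit 3) (nat_lit 4) (nat_lit 1) (nat_lit 4) (nat_lit 357) (nat_lit 215) (nat_lit 148)) (XT.lf (nat_lit 0) (nat_lit 105185821940) (nat_lit 152) (nat_lit 238543052940) (nat_lit 0) (nat_lit 97894928402) (nat_lit 1) (nat_lit 5) (nat_lit 3) (nat_lit 4) (nat_lit 1) (nat_lit 4) (nat_lit 358) (nat_lit 215) (nat_lit 147))) (XT.nd (nat_lit 78) (nat_lit 0) (nat_lit 0) (XT.lf (nat_lit 0) (nat_lit 111782790704) (nat_lit 152) (nat_lit 247355509350) (nat_lit 0) (nat_lit 104478843937) (nat_lit 1) (nat_lit 5) (nat_lit 3) (nat_lit 4) (nat_lit 1) (nat_lit 4) (nat_lit 359) (nat_lit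 215) (nat_lit 146)) (XT.nd (nat_lit 78) (nat_lit 0) (nat_lit 0) (XT.lf (nat_lit 0) (nat_lit 118704209243) (nat_lit 152) (nat_lit 256618388054) (nat_lit 0) (nat_lit 111387830829) (nat_lit 1) (nat_lit 5) (nat_lit 3) (nat_lit 4) (nat_lit 1) (nat_lit 4) (nat_lit 360) (nat_lit 215) (nat_lit 145)) (XT.lf (nat_lit 0) (nat_lit 125966557125) (nat_lit 152) (nat_lit 266353743527) (nat_lit 0) (nat_lit 118638339048) (nat_lit 1) (nat_lit 5) (nat_lit 3) (nat_lit 4) (nat_lit 1) (nat_lit 4) (nat_lit 361) (nat_lit 215) (nat_lit 144))))))))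
noncomputable def xc42 : XT := (XT.nd (nat_lit 32838) (nat_lit 0) (nat_lit 152) (XT.nd (nat_lit 32136) (nat_lit 0) (nat_lit 380) (XT.nd (nat_lit 31824) (nat_lit 0) (nat_lit 608) (XT.nd (nat_lit 156) (nat_lit 0) (nat_lit 0) (XT.nd (nat_lit 78) (nat_lit 0) (nat_lit 0) (XT.lf (nat_lit 0) (nat_lit 133587125654) (nat_lit 152) (nat_lit 276584755186) (nat_lit 0) (nat_lit 126247631707) (nat_lit 1) (nat_lit 5) (nat_lit 3) (nat_lit 4) (nat_lit 1) (nat_lit 4) (nat_lit 362) (nat_lit 215) (nat_lit 143)) (XT.lf (nat_lit 0) (nat_lit 141584059042) (nat_lit 152) (nat_lit 287335782583) (nat_lit 0) (nat_lit 134233826171) (nat_lit 1) (nat_lit 5) (nat_lit 3) (nat_lit 4) (nat_lit 1) (nat_lit 4) (nat_lit 363) (nat_lit 215) (nat_lit 142))) (XT.nd (nat_lit 31590) (nat_lit 0) (nat_lit 684) (XT.lf (nat_lit 0) (nat_lit 149976397606) (nat_lit 152) (nat_lit 298632423402) (nat_lit 0) (nat_lit 142615937189) (nat_lit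 1) (nat_lit 5) (nat_lit 3) (nat_lit 4) (nat_lit 1) (nat_lit 4) (nat_lit 364) (nat_lit 215) (nat_lit 141)) (XT.lf (nat_lit 0) (nat_lit 914354942) (nat_lit 152) (nat_lit 6895328906) (nat_lit 0) (nat_lit 914354942) (nat_lit 10) (nat_lit 5) (nat_lit 12) (nat_lit 4) (nat_lit 10) (nat_lit 4) (nat_lit 288) (nat_lit 216) (nat_lit 216)))) (XT.nd (nat_lit 156) (nat_lit 76) (nat_lit 0) (XT.nd (nat_lit 78) (nat_lit 0) (nat_lit 0) (XT.lf (nat_lit 0) (nat_lit 5308851107) (nat_lit 152) (nat_lit 7941347125) (nat_lit 0) (nat_lit 4870978795) (nat_lit 10) (nat_lit 5) (nat_lit 12) (nat_lit 4) (nat_lit 10) (nat_lit 4) (nat_lit 289) (nat_lit 216) (nat_lit 215)) (XT.lf (nat_lit 0) (nat_lit 8841810960) (nat_lit 152) (nat_lit 2005479187) (nat_lit 0) (nat_lit 7986917397) (nat_lit 10) (nat_lit 5) (nat_lit 12) (nat_lit 4) (nat_lit 10) (nat_lit 4) (nat_lit 290) (nat_lit 216) (nat_lit 214))) (XT.nd (nat_lit 78)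 (nat_lit 0) (nat_lit 0) (XT.lf (nat_lit 0) (nat_lit 4164364695) (nat_lit 76) (nat_lit 8336653960) (nat_lit 76) (nat_lit 7084597301) (nat_lit 9) (nat_lit 4) (nat_lit 10) (nat_lit 5) (nat_lit 10) (nat_lit 4) (nat_lit 291) (nat_lit 216) (nat_lit 213)) (XT.lf (nat_lit 0) (nat_lit 10519386308) (nat_lit 76) (nat_lit 5744830371) (nat_lit 76) (nat_lit 4114523145) (nat_lit 9) (nat_lit 4) (nat_lit 10) (nat_lit 5) (nat_lit 10) (nat_lit 4) (nat_lit 292) (nat_lit 216) (nat_lit 212))))) (XT.nd (nat_lit 312) (nat_lit 76) (nat_lit 0) (XT.nd (nat_lit 156) (nat_lit 0) (nat_lit 0) (XT.nd (nat_lit 78) (nat_lit 152) (nat_lit 0) (XT.lf (nat_lit 0) (nat_lit 17008406453) (nat_lit 76) (nat_lit 3099612134) (nat_lit 76) (nat_lit 1109066273) (nat_lit 9) (nat_lit 4) (nat_lit 10) (nat_lit 5) (nat_lit 10) (nat_lit 4) (nat_lit 293) (nat_lit 216) (nat_lit 211)) (XT.lf (nat_lit 0) (nat_lit 1564014155) (nat_lit 76) (nat_lit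 337275811) (nat_lit 152) (nat_lit 20198622622) (nat_lit 7) (nat_lit 5) (nat_lit 8) (nat_lit 5) (nat_lit 9) (nat_lit 4) (nat_lit 294) (nat_lit 216) (nat_lit 210))) (XT.nd (nat_lit 78) (nat_lit 0) (nat_lit 0) (XT.lf (nat_lit 0) (nat_lit 5034140796) (nat_lit 152) (nat_lit 15491082995) (nat_lit 0) (nat_lit 2500448094) (nat_lit 7) (nat_lit 5) (nat_lit 9) (nat_lit 4) (nat_lit 7) (nat_lit 4) (nat_lit 295) (nat_lit 216) (nat_lit 209)) (XT.lf (nat_lit 0) (nat_lit 8230864072) (nat_lit 152) (nat_lit 10370845417) (nat_lit 0) (nat_lit 5400802152) (nat_lit 7) (nat_lit 5) (nat_lit 9) (nat_lit 4) (nat_lit 7) (nat_lit 4) (nat_lit 296) (nat_lit 216) (nat_lit 208)))) (XT.nd (nat_lit 156) (nat_lit 0) (nat_lit 0) (XT.nd (nat_lit 78) (nat_lit 76) (nat_lit 0) (XT.lf (nat_lit 0) (nat_lit 11493805218) (nat_lit 152) (nat_lit 5157728837) (nat_lit 0) (nat_lit 8381486901) (nat_lit 7) (nat_lit 5) (nat_lit 9) (nat_lit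 4) (nat_lit 7) (nat_lit 4) (nat_lit 297) (nat_lit 216) (nat_lit 207)) (XT.lf (nat_lit 0) (nat_lit 165991697) (nat_lit 76) (nat_lit 14667333040) (nat_lit 76) (nat_lit 11286199107) (nat_lit 6) (nat_lit 4) (nat_lit 7) (nat_lit 5) (nat_lit 7) (nat_lit 4) (nat_lit 298) (nat_lit 216) (nat_lit 206))) (XT.nd (nat_lit 78) (nat_lit 0) (nat_lit 0) (XT.lf (nat_lit 0) (nat_lit 5782104194) (nat_lit 76) (nat_lit 12557763566) (nat_lit 76) (nat_lit 8920614760) (nat_lit 6) (nat_lit 4) (nat_lit 7) (nat_lit 5) (nat_lit 7) (nat_lit 4) (nat_lit 299) (nat_lit 216) (nat_lit 205)) (XT.nd (nat_lit 78) (nat_lit 0) (nat_lit 0) (XT.lf (nat_lit 0) (nat_lit 11533442542) (nat_lit 76) (nat_lit 10405151483) (nat_lit 76) (nat_lit 6524178989) (nat_lit 6) (nat_lit 4) (nat_lit 7) (nat_lit 5) (nat_lit 7) (nat_lit 4) (nat_lit 300) (nat_lit 216) (nat_lit 204)) (XT.lf (nat_lit 0) (nat_lit 17433700403) (nat_lit 76) (nat_lit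 8204371523) (nat_lit 76) (nat_lit 4091185994) (nat_lit 6) (nat_lit 4) (nat_lit 7) (nat_lit 5) (nat_lit 7) (nat_lit 4) (nat_lit 301) (nat_lit 216) (nat_lit 203))))))) (XT.nd (nat_lit 702) (nat_lit 76) (nat_lit 0) (XT.nd (nat_lit 312) (nat_lit 0) (nat_lit 0) (XT.nd (nat_lit 156) (nat_lit 76) (nat_lit 0) (XT.nd (nat_lit 78) (nat_lit 76) (nat_lit 0) (XT.lf (nat_lit 0) (nat_lit 23496926011) (nat_lit 76) (nat_lit 5950183736) (nat_lit 76) (nat_lit 1615842933) (nat_lit 6) (nat_lit 4) (nat_lit 7) (nat_lit 5) (nat_lit 7) (nat_lit 4) (nat_lit 302) (nat_lit 216) (nat_lit 202)) (XT.lf (nat_lit 0) (nat_lit 878690392) (nat_lit 152) (nat_lit 2743649568) (nat_lit 76) (nat_lit 28843984176) (nat_lit 5) (nat_lit 5) (nat_lit 7) (nat_lit 5) (nat_lit 6) (nat_lit 4) (nat_lit 303) (nat_lit 216) (nat_lit 201))) (XT.nd (nat_lit 78) (nat_lit 0) (nat_lit 0) (XT.lf (nat_lit 0) (nat_lit 2242976188) (nat_lit 76) (nat_lit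 1166065476) (nat_lit 152) (nat_lit 30531327592) (nat_lit 4) (nat_lit 5) (nat_lit 5) (nat_lit 5) (nat_lit 6) (nat_lit 4) (nat_lit 304) (nat_lit 216) (nat_lit 200)) (XT.lf (nat_lit 0) (nat_lit 6066200294) (nat_lit 152) (nat_lit 28057321292) (nat_lit 0) (nat_lit 1364675091) (nat_lit 4) (nat_lit 5) (nat_lit 6) (nat_lit 4) (nat_lit 4) (nat_lit 4) (nat_lit 305) (nat_lit 216) (nat_lit 199)))) (XT.nd (nat_lit 156) (nat_lit 0) (nat_lit 0) (XT.nd (nat_lit 78) (nat_lit 0) (nat_lit 0) (XT.lf (nat_lit 0) (nat_lit 8809620106) (nat_lit 152) (nat_lit 24371401274) (nat_lit 0) (nat_lit 3934813960) (nat_lit 4) (nat_lit 5) (nat_lit 6) (nat_lit 4) (nat_lit 4) (nat_lit 4) (nat_lit 306) (nat_lit 216) (nat_lit 198)) (XT.lf (nat_lit 0) (nat_lit 11627627503) (nat_lit 152) (nat_lit 20612651465) (nat_lit 0) (nat_lit 6587791888) (nat_lit 4) (nat_lit 5) (nat_lit 6) (nat_lit 4) (nat_lit 4) (nat_lit 4) (nat_lit 307)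 (nat_lit 216) (nat_lit 197))) (XT.nd (nat_lit 78) (nat_lit 0) (nat_lit 0) (XT.lf (nat_lit 0) (nat_lit 14526932026) (nat_lit 152) (nat_lit 16772122459) (nat_lit 0) (nat_lit 9329925487) (nat_lit 4) (nat_lit 5) (nat_lit 6) (nat_lit 4) (nat_lit 4) (nat_lit 4) (nat_lit 308) (nat_lit 216) (nat_lit 196)) (XT.nd (nat_lit 78) (nat_lit 0) (nat_lit 0) (XT.lf (nat_lit 0) (nat_lit 17514436781) (nat_lit 152) (nat_lit 12840670141) (nat_lit 0) (nat_lit 12167743648) (nat_lit 4) (nat_lit 5) (nat_lit 6) (nat_lit 4) (nat_lit 4) (nat_lit 4) (nat_lit 309) (nat_lit 216) (nat_lit 195)) (XT.lf (nat_lit 0) (nat_lit 20597254874) (nat_lit 152) (nat_lit 8808933908) (nat_lit 0) (nat_lit 15108003080) (nat_lit 4) (nat_lit 5) (nat_lit 6) (nat_lit 4) (nat_lit 4) (nat_lit 4) (nat_lit 310) (nat_lit 216) (nat_lit 194)))))) (XT.nd (nat_lit 312) (nat_lit 0) (nat_lit 0) (XT.nd (nat_lit 156) (nat_lit 76) (nat_lit 0) (XT.nd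 (nat_lit 78) (nat_lit 0) (nat_lit 0) (XT.lf (nat_lit 0) (nat_lit 23782726348) (nat_lit 152) (nat_lit 4667314391) (nat_lit 0) (nat_lit 18157704402) (nat_lit 4) (nat_lit 5) (nat_lit 6) (nat_lit 4) (nat_lit 4) (nat_lit 4) (nat_lit 311) (nat_lit 216) (nat_lit 193)) (XT.lf (nat_lit 0) (nat_lit 27078435660) (nat_lit 152) (nat_lit 405950588) (nat_lit 0) (nat_lit 21324108806) (nat_lit 4) (nat_lit 5) (nat_lit 6) (nat_lit 4) (nat_lit 4) (nat_lit 4) (nat_lit 312) (nat_lit 216) (nat_lit 192))) (XT.nd (nat_lit 78) (nat_lit 0) (nat_lit 0) (XT.lf (nat_lit 0) (nat_lit 4117075737) (nat_lit 76) (nat_lit 26439433089) (nat_lit 76) (nat_lit 20561958704) (nat_lit 3) (nat_lit 4) (nat_lit 4) (nat_lit 5) (nat_lit 4) (nat_lit 4) (nat_lit 313) (nat_lit 216) (nat_lit 191)) (XT.lf (nat_lit 0) (nat_lit 8798510844) (nat_lit 76) (nat_lit 25371095226) (nat_lit 76) (nat_lit 19376337478) (nat_lit 3) (nat_lit 4) (nat_lit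 4) (nat_lit 5) (nat_lit 4) (nat_lit 4) (nat_lit 314) (nat_lit 216) (nat_lit 190)))) (XT.nd (nat_lit 156) (nat_lit 0) (nat_lit 0) (XT.nd (nat_lit 78) (nat_lit 0) (nat_lit 0) (XT.lf (nat_lit 0) (nat_lit 13636078445) (nat_lit 76) (nat_lit 24283703967) (nat_lit 76) (nat_lit 18177247778) (nat_lit 3) (nat_lit 4) (nat_lit 4) (nat_lit 5) (nat_lit 4) (nat_lit 4) (nat_lit 315) (nat_lit 216) (nat_lit 189)) (XT.lf (nat_lit 0) (nat_lit 18641296558) (nat_lit 76) (nat_lit 23174670287) (nat_lit 76) (nat_lit 16961834630) (nat_lit 3) (nat_lit 4) (nat_lit 4) (nat_lit 5) (nat_lit 4) (nat_lit 4) (nat_lit 316) (nat_lit 216) (nat_lit 188))) (XT.nd (nat_lit 78) (nat_lit 0) (nat_lit 0) (XT.lf (nat_lit 0) (nat_lit 23826082370) (nat_lit 76) (nat_lit 22041353628) (nat_lit 76) (nat_lit 15727204193) (nat_lit 3) (nat_lit 4) (nat_lit 4) (nat_lit 5) (nat_lit 4) (nat_lit 4) (nat_lit 317) (nat_lit 216) (nat_lit 187))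 (XT.nd (nat_lit 78) (nat_lit 0) (nat_lit 0) (XT.lf (nat_lit 0) (nat_lit 29202780609) (nat_lit 76) (nat_lit 20881055617) (nat_lit 76) (nat_lit 14470416869) (nat_lit 3) (nat_lit 4) (nat_lit 4) (nat_lit 5) (nat_lit 4) (nat_lit 4) (nat_lit 318) (nat_lit 216) (nat_lit 186)) (XT.lf (nat_lit 0) (nat_lit 34784192937) (nat_lit 76) (nat_lit 19691013641) (nat_lit 76) (nat_lit 13188480309) (nat_lit 3) (nat_lit 4) (nat_lit 4) (nat_lit 5) (nat_lit 4) (nat_lit 4) (nat_lit 319) (nat_lit 216) (nat_lit 185))))))))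
noncomputable def xc43 : XT := (XT.nd (nat_lit 1326) (nat_lit 0) (nat_lit 0) (XT.nd (nat_lit 624) (nat_lit 152) (nat_lit 0) (XT.nd (nat_lit 312) (nat_lit 0) (nat_lit 0) (XT.nd (nat_lit 156) (nat_lit 0) (nat_lit 0) (XT.nd (nat_lit 78) (nat_lit 0) (nat_lit 0) (XT.lf (nat_lit 0) (nat_lit 40583608431) (nat_lit 76) (nat_lit 18468394265) (nat_lit 76) (nat_lit 11878342282) (nat_lit 3) (nat_lit 4) (nat_lit 4) (nat_lit 5) (nat_lit 4) (nat_lit 4) (nat_lit 320) (nat_lit 216) (nat_lit 184)) (XT.lf (nat_lit 0) (nat_lit 46614835223) (nat_lit 76) (nat_lit 17210286492) (nat_lit 76) (nat_lit 10536883413) (nat_lit 3) (nat_lit 4) (nat_lit 4) (nat_lit 5) (nat_lit 4) (nat_lit 4) (nat_lit 321) (nat_lit 216) (nat_lit 183))) (XT.nd (nat_lit 78) (nat_lit 0) (nat_lit 0) (XT.lf (nat_lit 0) (nat_lit 52892233377) (nat_lit 76) (nat_lit 15913694827) (nat_lit 76) (nat_lit 9160909751) (nat_lit 3) (nat_lit 4) (nat_lit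 4) (nat_lit 5) (nat_lit 4) (nat_lit 4) (nat_lit 322) (nat_lit 216) (nat_lit 182)) (XT.lf (nat_lit 0) (nat_lit 59430749079) (nat_lit 76) (nat_lit 14575532146) (nat_lit 76) (nat_lit 7747145169) (nat_lit 3) (nat_lit 4) (nat_lit 4) (nat_lit 5) (nat_lit 4) (nat_lit 4) (nat_lit 323) (nat_lit 216) (nat_lit 181)))) (XT.nd (nat_lit 156) (nat_lit 0) (nat_lit 0) (XT.nd (nat_lit 78) (nat_lit 0) (nat_lit 0) (XT.lf (nat_lit 0) (nat_lit 66245950224) (nat_lit 76) (nat_lit 13192612348) (nat_lit 76) (nat_lit 6292223560) (nat_lit 3) (nat_lit 4) (nat_lit 4) (nat_lit 5) (nat_lit 4) (nat_lit 4) (nat_lit 324) (nat_lit 216) (nat_lit 180)) (XT.lf (nat_lit 0) (nat_lit 73354063481) (nat_lit 76) (nat_lit 11761642768) (nat_lit 76) (nat_lit 4792680826) (nat_lit 3) (nat_lit 4) (nat_lit 4) (nat_lit 5) (nat_lit 4) (nat_lit 4) (nat_lit 325) (nat_lit 216) (nat_lit 179))) (XT.nd (nat_lit 78) (nat_lit 0) (nat_lit 0) (XT.lf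 (nat_lit 0) (nat_lit 80772012930) (nat_lit 76) (nat_lit 10279216333) (nat_lit 76) (nat_lit 3244946627) (nat_lit 3) (nat_lit 4) (nat_lit 4) (nat_lit 5) (nat_lit 4) (nat_lit 4) (nat_lit 326) (nat_lit 216) (nat_lit 178)) (XT.lf (nat_lit 0) (nat_lit 88517460354) (nat_lit 76) (nat_lit 8741803459) (nat_lit 76) (nat_lit 1645335881) (nat_lit 3) (nat_lit 4) (nat_lit 4) (nat_lit 5) (nat_lit 4) (nat_lit 4) (nat_lit 327) (nat_lit 216) (nat_lit 177))))) (XT.nd (nat_lit 312) (nat_lit 0) (nat_lit 0) (XT.nd (nat_lit 156) (nat_lit 76) (nat_lit 0) (XT.nd (nat_lit 78) (nat_lit 0) (nat_lit 0) (XT.lf (nat_lit 0) (nat_lit 9641226) (nat_lit 152) (nat_lit 7135939132) (nat_lit 76) (nat_lit 96599042790) (nat_lit 2) (nat_lit 5) (nat_lit 4) (nat_lit 5) (nat_lit 3) (nat_lit 4) (nat_lit 328) (nat_lit 216) (nat_lit 176)) (XT.lf (nat_lit 0) (nat_lit 1669675219) (nat_lit 152) (nat_lit 3789284748) (nat_lit 76) (nat_lit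 103367486982) (nat_lit 2) (nat_lit 5) (nat_lit 4) (nat_lit 5) (nat_lit 3) (nat_lit 4) (nat_lit 329) (nat_lit 216) (nat_lit 175))) (XT.nd (nat_lit 78) (nat_lit 76) (nat_lit 0) (XT.lf (nat_lit 0) (nat_lit 3391379584) (nat_lit 152) (nat_lit 313519660) (nat_lit 76) (nat_lit 110458555852) (nat_lit 2) (nat_lit 5) (nat_lit 4) (nat_lit 5) (nat_lit 3) (nat_lit 4) (nat_lit 330) (nat_lit 216) (nat_lit 174)) (XT.lf (nat_lit 0) (nat_lit 3408732491) (nat_lit 76) (nat_lit 1823340993) (nat_lit 152) (nat_lit 114533620272) (nat_lit 1) (nat_lit 5) (nat_lit 2) (nat_lit 5) (nat_lit 3) (nat_lit 4) (nat_lit 331) (nat_lit 216) (nat_lit 173)))) (XT.nd (nat_lit 156) (nat_lit 0) (nat_lit 0) (XT.nd (nat_lit 78) (nat_lit 0) (nat_lit 0) (XT.lf (nat_lit 0) (nat_lit 7152420810) (nat_lit 152) (nat_lit 118358847631) (nat_lit 0) (nat_lit 137419085) (nat_lit 1) (nat_lit 5) (nat_lit 3) (nat_lit 4) (nat_lit 1) (nat_lit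 4) (nat_lit 332) (nat_lit 216) (nat_lit 172)) (XT.lf (nat_lit 0) (nat_lit 9179480460) (nat_lit 152) (nat_lit 120525562877) (nat_lit 0) (nat_lit 2120275868) (nat_lit 1) (nat_lit 5) (nat_lit 3) (nat_lit 4) (nat_lit 1) (nat_lit 4) (nat_lit 333) (nat_lit 216) (nat_lit 171))) (XT.nd (nat_lit 78) (nat_lit 0) (nat_lit 0) (XT.lf (nat_lit 0) (nat_lit 11289611302) (nat_lit 152) (nat_lit 122833798386) (nat_lit 0) (nat_lit 4188308743) (nat_lit 1) (nat_lit 5) (nat_lit 3) (nat_lit 4) (nat_lit 1) (nat_lit 4) (nat_lit 334) (nat_lit 216) (nat_lit 170)) (XT.nd (nat_lit 78) (nat_lit 0) (nat_lit 0) (XT.lf (nat_lit 0) (nat_lit 13487837458) (nat_lit 152) (nat_lit 125289049956) (nat_lit 0) (nat_lit 6346441597) (nat_lit 1) (nat_lit 5) (nat_lit 3) (nat_lit 4) (nat_lit 1) (nat_lit 4) (nat_lit 335) (nat_lit 216) (nat_lit 169)) (XT.lf (nat_lit 0) (nat_lit 15779392800) (nat_lit 152) (nat_lit 127897163425) (nat_lit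 0) (nat_lit 8599812841) (nat_lit 1) (nat_lit 5) (nat_lit 3) (nat_lit 4) (nat_lit 1) (nat_lit 4) (nat_lit 336) (nat_lit 216) (nat_lit 168))))))) (XT.nd (nat_lit 702) (nat_lit 0) (nat_lit 0) (XT.nd (nat_lit 312) (nat_lit 0) (nat_lit 0) (XT.nd (nat_lit 156) (nat_lit 0) (nat_lit 0) (XT.nd (nat_lit 78) (nat_lit 0) (nat_lit 0) (XT.lf (nat_lit 0) (nat_lit 18169733412) (nat_lit 152) (nat_lit 130664348586) (nat_lit 0) (nat_lit 10953787646) (nat_lit 1) (nat_lit 5) (nat_lit 3) (nat_lit 4) (nat_lit 1) (nat_lit 4) (nat_lit 337) (nat_lit 216) (nat_lit 167)) (XT.lf (nat_lit 0) (nat_lit 20664550581) (nat_lit 152) (nat_lit 133597193976) (nat_lit 0) (nat_lit 13413970713) (nat_lit 1) (nat_lit 5) (nat_lit 3) (nat_lit 4) (nat_lit 1) (nat_lit 4) (nat_lit 338) (nat_lit 216) (nat_lit 166))) (XT.nd (nat_lit 78) (nat_lit 0) (nat_lit 0) (XT.lf (nat_lit 0) (nat_lit 23269784348) (nat_lit 152) (nat_lit 136702682560)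 (nat_lit 0) (nat_lit 15986219621) (nat_lit 1) (nat_lit 5) (nat_lit 3) (nat_lit 4) (nat_lit 1) (nat_lit 4) (nat_lit 339) (nat_lit 216) (nat_lit 165)) (XT.lf (nat_lit 0) (nat_lit 25991637651) (nat_lit 152) (nat_lit 139988208359) (nat_lit 0) (nat_lit 18676658772) (nat_lit 1) (nat_lit 5) (nat_lit 3) (nat_lit 4) (nat_lit 1) (nat_lit 4) (nat_lit 340) (nat_lit 216) (nat_lit 164)))) (XT.nd (nat_lit 156) (nat_lit 0) (nat_lit 0) (XT.nd (nat_lit 78) (nat_lit 0) (nat_lit 0) (XT.lf (nat_lit 0) (nat_lit 28836591092) (nat_lit 152) (nat_lit 143461594052) (nat_lit 0) (nat_lit 21491693973) (nat_lit 1) (nat_lit 5) (nat_lit 3) (nat_lit 4) (nat_lit 1) (nat_lit 4) (nat_lit 341) (nat_lit 216) (nat_lit 163)) (XT.lf (nat_lit 0) (nat_lit 31811418371) (nat_lit 152) (nat_lit 147131109605) (nat_lit 0) (nat_lit 24438027690) (nat_lit 1) (nat_lit 5) (nat_lit 3) (nat_lit 4) (nat_lit 1) (nat_lit 4) (nat_lit 342) (nat_lit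 216) (nat_lit 162))) (XT.nd (nat_lit 78) (nat_lit 0) (nat_lit 0) (XT.lf (nat_lit 0) (nat_lit 34923202408) (nat_lit 152) (nat_lit 151005491962) (nat_lit 0) (nat_lit 27522675003) (nat_lit 1) (nat_lit 5) (nat_lit 3) (nat_lit 4) (nat_lit 1) (nat_lit 4) (nat_lit 343) (nat_lit 216) (nat_lit 161)) (XT.nd (nat_lit 78) (nat_lit 0) (nat_lit 0) (XT.lf (nat_lit 0) (nat_lit 38179352215) (nat_lit 152) (nat_lit 155093965840) (nat_lit 0) (nat_lit 30752980309) (nat_lit 1) (nat_lit 5) (nat_lit 3) (nat_lit 4) (nat_lit 1) (nat_lit 4) (nat_lit 344) (nat_lit 216) (nat_lit 160)) (XT.lf (nat_lit 0) (nat_lit 41587620529) (nat_lit 152) (nat_lit 159406265703) (nat_lit 0) (nat_lit 34136634813) (nat_lit 1) (nat_lit 5) (nat_lit 3) (nat_lit 4) (nat_lit 1) (nat_lit 4) (nat_lit 345) (nat_lit 216) (nat_lit 159)))))) (XT.nd (nat_lit 312) (nat_lit 0) (nat_lit 0) (XT.nd (nat_lit 156) (nat_lit 0) (nat_lit 0) (XT.nd (nat_lit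 78) (nat_lit 0) (nat_lit 0) (XT.lf (nat_lit 0) (nat_lit 45156122273) (nat_lit 152) (nat_lit 163952658931) (nat_lit 0) (nat_lit 37681694834) (nat_lit 1) (nat_lit 5) (nat_lit 3) (nat_lit 4) (nat_lit 1) (nat_lit 4) (nat_lit 346) (nat_lit 216) (nat_lit 158)) (XT.lf (nat_lit 0) (nat_lit 48893353882) (nat_lit 152) (nat_lit 168743970268) (nat_lit 0) (nat_lit 41396600991) (nat_lit 1) (nat_lit 5) (nat_lit 3) (nat_lit 4) (nat_lit 1) (nat_lit 4) (nat_lit 347) (nat_lit 216) (nat_lit 157))) (XT.nd (nat_lit 78) (nat_lit 0) (nat_lit 0) (XT.lf (nat_lit 0) (nat_lit 52808213525) (nat_lit 152) (nat_lit 173791607601) (nat_lit 0) (nat_lit 45290198300) (nat_lit 1) (nat_lit 5) (nat_lit 3) (nat_lit 4) (nat_lit 1) (nat_lit 4) (nat_lit 348) (nat_lit 216) (nat_lit 156)) (XT.lf (nat_lit 0) (nat_lit 56910022296) (nat_lit 152) (nat_lit 179107589112) (nat_lit 0) (nat_lit 49371757230) (nat_lit 1) (nat_lit 5) (nat_lit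 3) (nat_lit 4) (nat_lit 1) (nat_lit 4) (nat_lit 349) (nat_lit 216) (nat_lit 155)))) (XT.nd (nat_lit 156) (nat_lit 0) (nat_lit 0) (XT.nd (nat_lit 78) (nat_lit 0) (nat_lit 0) (XT.lf (nat_lit 0) (nat_lit 61208546408) (nat_lit 152) (nat_lit 184704571900) (nat_lit 0) (nat_lit 53650995777) (nat_lit 1) (nat_lit 5) (nat_lit 3) (nat_lit 4) (nat_lit 1) (nat_lit 4) (nat_lit 350) (nat_lit 216) (nat_lit 154)) (XT.lf (nat_lit 0) (nat_lit 65714020441) (nat_lit 152) (nat_lit 190595882116) (nat_lit 0) (nat_lit 58138102607) (nat_lit 1) (nat_lit 5) (nat_lit 3) (nat_lit 4) (nat_lit 1) (nat_lit 4) (nat_lit 351) (nat_lit 216) (nat_lit 153))) (XT.nd (nat_lit 78) (nat_lit 0) (nat_lit 0) (XT.lf (nat_lit 0) (nat_lit 70437171715) (nat_lit 152) (nat_lit 196795546688) (nat_lit 0) (nat_lit 62843761305) (nat_lit 1) (nat_lit 5) (nat_lit 3) (nat_lit 4) (nat_lit 1) (nat_lit 4) (nat_lit 352) (nat_lit 216) (nat_lit 152))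 (XT.nd (nat_lit 78) (nat_lit 0) (nat_lit 0) (XT.lf (nat_lit 0) (nat_lit 75389245828) (nat_lit 152) (nat_lit 203318326722) (nat_lit 0) (nat_lit 67779175823) (nat_lit 1) (nat_lit 5) (nat_lit 3) (nat_lit 4) (nat_lit 1) (nat_lit 4) (nat_lit 353) (nat_lit 216) (nat_lit 151)) (XT.lf (nat_lit 0) (nat_lit 80582033432) (nat_lit 152) (nat_lit 210179752647) (nat_lit 0) (nat_lit 72956097145) (nat_lit 1) (nat_lit 5) (nat_lit 3) (nat_lit 4) (nat_lit 1) (nat_lit 4) (nat_lit 354) (nat_lit 216) (nat_lit 150))))))))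
noncomputable def xc44 : XT := (XT.nd (nat_lit 32682) (nat_lit 0) (nat_lit 228) (XT.nd (nat_lit 624) (nat_lit 0) (nat_lit 0) (XT.nd (nat_lit 312) (nat_lit 0) (nat_lit 0) (XT.nd (nat_lit 156) (nat_lit 0) (nat_lit 0) (XT.nd (nat_lit 78) (nat_lit 0) (nat_lit 0) (XT.lf (nat_lit 0) (nat_lit 86027898307) (nat_lit 152) (nat_lit 217396161191) (nat_lit 0) (nat_lit 78386851276) (nat_lit 1) (nat_lit 5) (nat_lit 3) (nat_lit 4) (nat_lit 1) (nat_lit 4) (nat_lit 355) (nat_lit 216) (nat_lit 149)) (XT.lf (nat_lit 0) (nat_lit 91739806799) (nat_lit 152) (nat_lit 224984734279) (nat_lit 0) (nat_lit 84084368583) (nat_lit 1) (nat_lit 5) (nat_lit 3) (nat_lit 4) (nat_lit 1) (nat_lit 4) (nat_lit 356) (nat_lit 216) (nat_lit 148))) (XT.nd (nat_lit 78) (nat_lit 0) (nat_lit 0) (XT.lf (nat_lit 0) (nat_lit 97731358689) (nat_lit 152) (nat_lit 232963539943) (nat_lit 0) (nat_lit 90062214583) (nat_lit 1) (nat_lit 5) (nat_lit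 3) (nat_lit 4) (nat_lit 1) (nat_lit 4) (nat_lit 357) (nat_lit 216) (nat_lit 147)) (XT.lf (nat_lit 0) (nat_lit 104016819577) (nat_lit 152) (nat_lit 241351575339) (nat_lit 0) (nat_lit 96334622243) (nat_lit 1) (nat_lit 5) (nat_lit 3) (nat_lit 4) (nat_lit 1) (nat_lit 4) (nat_lit 358) (nat_lit 216) (nat_lit 146)))) (XT.nd (nat_lit 156) (nat_lit 0) (nat_lit 0) (XT.nd (nat_lit 78) (nat_lit 0) (nat_lit 0) (XT.lf (nat_lit 0) (nat_lit 110611154847) (nat_lit 152) (nat_lit 250168811980) (nat_lit 0) (nat_lit 102916525866) (nat_lit 1) (nat_lit 5) (nat_lit 3) (nat_lit 4) (nat_lit 1) (nat_lit 4) (nat_lit 359) (nat_lit 216) (nat_lit 145)) (XT.lf (nat_lit 0) (nat_lit 117530065296) (nat_lit 152) (nat_lit 259436243286) (nat_lit 0) (nat_lit 109823596652) (nat_lit 1) (nat_lit 5) (nat_lit 3) (nat_lit 4) (nat_lit 1) (nat_lit 4) (nat_lit 360) (nat_lit 216) (nat_lit 144))) (XT.nd (nat_lit 78) (nat_lit 0) (nat_lit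 0) (XT.lf (nat_lit 0) (nat_lit 124790024521) (nat_lit 152) (nat_lit 269175934570) (nat_lit 0) (nat_lit 117072280007) (nat_lit 1) (nat_lit 5) (nat_lit 3) (nat_lit 4) (nat_lit 1) (nat_lit 4) (nat_lit 361) (nat_lit 216) (nat_lit 143)) (XT.lf (nat_lit 0) (nat_lit 132408318139) (nat_lit 152) (nat_lit 279411075573) (nat_lit 0) (nat_lit 124679834701) (nat_lit 1) (nat_lit 5) (nat_lit 3) (nat_lit 4) (nat_lit 1) (nat_lit 4) (nat_lit 362) (nat_lit 216) (nat_lit 142))))) (XT.nd (nat_lit 31668) (nat_lit 0) (nat_lit 608) (XT.nd (nat_lit 31512) (nat_lit 0) (nat_lit 836) (XT.nd (nat_lit 78) (nat_lit 0) (nat_lit 0) (XT.lf (nat_lit 0) (nat_lit 140403084945) (nat_lit 152) (nat_lit 290166035679) (nat_lit 0) (nat_lit 132664373961) (nat_lit 1) (nat_lit 5) (nat_lit 3) (nat_lit 4) (nat_lit 1) (nat_lit 4) (nat_lit 363) (nat_lit 216) (nat_lit 141)) (XT.lf (nat_lit 0) (nat_lit 148793360097) (nat_lit 152) (nat_lit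 301466421935) (nat_lit 0) (nat_lit 141044908592) (nat_lit 1) (nat_lit 5) (nat_lit 3) (nat_lit 4) (nat_lit 1) (nat_lit 4) (nat_lit 364) (nat_lit 216) (nat_lit 140))) (XT.nd (nat_lit 78) (nat_lit 0) (nat_lit 0) (XT.lf (nat_lit 0) (nat_lit 3689997459) (nat_lit 152) (nat_lit 2204467777) (nat_lit 152) (nat_lit 2204467777) (nat_lit 12) (nat_lit 4) (nat_lit 14) (nat_lit 5) (nat_lit 14) (nat_lit 4) (nat_lit 286) (nat_lit 217) (nat_lit 217)) (XT.lf (nat_lit 0) (nat_lit 14099358640) (nat_lit 152) (nat_lit 1596182975) (nat_lit 152) (nat_lit 1113428750) (nat_lit 12) (nat_lit 4) (nat_lit 14) (nat_lit 5) (nat_lit 14) (nat_lit 4) (nat_lit 287) (nat_lit 217) (nat_lit 216)))) (XT.nd (nat_lit 156) (nat_lit 76) (nat_lit 0) (XT.nd (nat_lit 78) (nat_lit 0) (nat_lit 0) (XT.lf (nat_lit 0) (nat_lit 2226403689) (nat_lit 152) (nat_lit 13896123032) (nat_lit 0) (nat_lit 1328765448) (nat_lit 10) (nat_lit 5) (nat_lit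 12) (nat_lit 4) (nat_lit 10) (nat_lit 4) (nat_lit 288) (nat_lit 217) (nat_lit 215)) (XT.lf (nat_lit 0) (nat_lit 5647428604) (nat_lit 152) (nat_lit 8147255410) (nat_lit 0) (nat_lit 4332769113) (nat_lit 10) (nat_lit 5) (nat_lit 12) (nat_lit 4) (nat_lit 10) (nat_lit 4) (nat_lit 289) (nat_lit 217) (nat_lit 214))) (XT.nd (nat_lit 78) (nat_lit 76) (nat_lit 0) (XT.lf (nat_lit 0) (nat_lit 9124087211) (nat_lit 152) (nat_lit 2307047535) (nat_lit 0) (nat_lit 7412264624) (nat_lit 10) (nat_lit 5) (nat_lit 12) (nat_lit 4) (nat_lit 10) (nat_lit 4) (nat_lit 290) (nat_lit 217) (nat_lit 213)) (XT.nd (nat_lit 78) (nat_lit 0) (nat_lit 0) (XT.lf (nat_lit 0) (nat_lit 3758707978) (nat_lit 76) (nat_lit 8964633256) (nat_lit 76) (nat_lit 6874560101) (nat_lit 9) (nat_lit 4) (nat_lit 10) (nat_lit 5) (nat_lit 10) (nat_lit 4) (nat_lit 291) (nat_lit 217) (nat_lit 212)) (XT.lf (nat_lit 0) (nat_lit 10024094201) (nat_lit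 76) (nat_lit 6409978707) (nat_lit 76) (nat_lit 3959666917) (nat_lit 9) (nat_lit 4) (nat_lit 10) (nat_lit 5) (nat_lit 10) (nat_lit 4) (nat_lit 292) (nat_lit 217) (nat_lit 211))))))) (XT.nd (nat_lit 702) (nat_lit 152) (nat_lit 0) (XT.nd (nat_lit 312) (nat_lit 76) (nat_lit 0) (XT.nd (nat_lit 156) (nat_lit 0) (nat_lit 0) (XT.nd (nat_lit 78) (nat_lit 152) (nat_lit 0) (XT.lf (nat_lit 0) (nat_lit 16427747310) (nat_lit 76) (nat_lit 3800159555) (nat_lit 76) (nat_lit 1006763351) (nat_lit 9) (nat_lit 4) (nat_lit 10) (nat_lit 5) (nat_lit 10) (nat_lit 4) (nat_lit 293) (nat_lit 217) (nat_lit 210)) (XT.lf (nat_lit 0) (nat_lit 858612410) (nat_lit 76) (nat_lit 1082244017) (nat_lit 152) (nat_lit 20179613634) (nat_lit 7) (nat_lit 5) (nat_lit 8) (nat_lit 5) (nat_lit 9) (nat_lit 4) (nat_lit 294) (nat_lit 217) (nat_lit 209))) (XT.nd (nat_lit 78) (nat_lit 0) (nat_lit 0) (XT.lf (nat_lit 0) (nat_lit 5014125383)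 (nat_lit 152) (nat_lit 16288967035) (nat_lit 0) (nat_lit 1746191150) (nat_lit 7) (nat_lit 5) (nat_lit 9) (nat_lit 4) (nat_lit 7) (nat_lit 4) (nat_lit 295) (nat_lit 217) (nat_lit 208)) (XT.lf (nat_lit 0) (nat_lit 8165181198) (nat_lit 152) (nat_lit 11248306470) (nat_lit 0) (nat_lit 4614990569) (nat_lit 7) (nat_lit 5) (nat_lit 9) (nat_lit 4) (nat_lit 7) (nat_lit 4) (nat_lit 296) (nat_lit 217) (nat_lit 207)))) (XT.nd (nat_lit 156) (nat_lit 76) (nat_lit 0) (XT.nd (nat_lit 78) (nat_lit 0) (nat_lit 0) (XT.lf (nat_lit 0) (nat_lit 11384629525) (nat_lit 152) (nat_lit 6110977522) (nat_lit 0) (nat_lit 7565623279) (nat_lit 7) (nat_lit 5) (nat_lit 9) (nat_lit 4) (nat_lit 7) (nat_lit 4) (nat_lit 297) (nat_lit 217) (nat_lit 206)) (XT.lf (nat_lit 0) (nat_lit 14680135716) (nat_lit 152) (nat_lit 864748454) (nat_lit 0) (nat_lit 10605114598) (nat_lit 7) (nat_lit 5) (nat_lit 9) (nat_lit 4) (nat_lit 7) (nat_lit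 4) (nat_lit 298) (nat_lit 217) (nat_lit 205))) (XT.nd (nat_lit 78) (nat_lit 0) (nat_lit 0) (XT.lf (nat_lit 0) (nat_lit 4651757029) (nat_lit 76) (nat_lit 13480416150) (nat_lit 76) (nat_lit 9161571343) (nat_lit 6) (nat_lit 4) (nat_lit 7) (nat_lit 5) (nat_lit 7) (nat_lit 4) (nat_lit 299) (nat_lit 217) (nat_lit 204)) (XT.nd (nat_lit 78) (nat_lit 0) (nat_lit 0) (XT.lf (nat_lit 0) (nat_lit 10335462497) (nat_lit 76) (nat_lit 11356810275) (nat_lit 76) (nat_lit 6805752433) (nat_lit 6) (nat_lit 4) (nat_lit 7) (nat_lit 5) (nat_lit 7) (nat_lit 4) (nat_lit 300) (nat_lit 217) (nat_lit 203)) (XT.lf (nat_lit 0) (nat_lit 16171308091) (nat_lit 76) (nat_lit 9183655277) (nat_lit 76) (nat_lit 4411442162) (nat_lit 6) (nat_lit 4) (nat_lit 7) (nat_lit 5) (nat_lit 7) (nat_lit 4) (nat_lit 301) (nat_lit 217) (nat_lit 202)))))) (XT.nd (nat_lit 312) (nat_lit 0) (nat_lit 0) (XT.nd (nat_lit 156) (nat_lit 76) (nat_lit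 0) (XT.nd (nat_lit 78) (nat_lit 76) (nat_lit 0) (XT.lf (nat_lit 0) (nat_lit 22173188682) (nat_lit 76) (nat_lit 6955776976) (nat_lit 76) (nat_lit 1972939791) (nat_lit 6) (nat_lit 4) (nat_lit 7) (nat_lit 5) (nat_lit 7) (nat_lit 4) (nat_lit 302) (nat_lit 217) (nat_lit 201)) (XT.lf (nat_lit 0) (nat_lit 499059475) (nat_lit 152) (nat_lit 4160359612) (nat_lit 76) (nat_lit 27847883173) (nat_lit 5) (nat_lit 5) (nat_lit 7) (nat_lit 5) (nat_lit 6) (nat_lit 4) (nat_lit 303) (nat_lit 217) (nat_lit 200))) (XT.nd (nat_lit 78) (nat_lit 0) (nat_lit 0) (XT.lf (nat_lit 0) (nat_lit 720789296) (nat_lit 76) (nat_lit 2252509763) (nat_lit 152) (nat_lit 31010900020) (nat_lit 4) (nat_lit 5) (nat_lit 5) (nat_lit 5) (nat_lit 6) (nat_lit 4) (nat_lit 304) (nat_lit 217) (nat_lit 199)) (XT.lf (nat_lit 0) (nat_lit 5581440334) (nat_lit 152) (nat_lit 29663468015) (nat_lit 0) (nat_lit 289612938) (nat_lit 4) (nat_lit 5)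 (nat_lit 6) (nat_lit 4) (nat_lit 4) (nat_lit 4) (nat_lit 305) (nat_lit 217) (nat_lit 198)))) (XT.nd (nat_lit 156) (nat_lit 0) (nat_lit 0) (XT.nd (nat_lit 78) (nat_lit 0) (nat_lit 0) (XT.lf (nat_lit 0) (nat_lit 8294331656) (nat_lit 152) (nat_lit 26031921758) (nat_lit 0) (nat_lit 2837474790) (nat_lit 4) (nat_lit 5) (nat_lit 6) (nat_lit 4) (nat_lit 4) (nat_lit 4) (nat_lit 306) (nat_lit 217) (nat_lit 197)) (XT.lf (nat_lit 0) (nat_lit 11083264300) (nat_lit 152) (nat_lit 22324956483) (nat_lit 0) (nat_lit 5469236510) (nat_lit 4) (nat_lit 5) (nat_lit 6) (nat_lit 4) (nat_lit 4) (nat_lit 4) (nat_lit 307) (nat_lit 217) (nat_lit 196))) (XT.nd (nat_lit 78) (nat_lit 0) (nat_lit 0) (XT.lf (nat_lit 0) (nat_lit 13954878581) (nat_lit 152) (nat_lit 18533746080) (nat_lit 0) (nat_lit 8191164198) (nat_lit 4) (nat_lit 5) (nat_lit 6) (nat_lit 4) (nat_lit 4) (nat_lit 4) (nat_lit 308) (nat_lit 217) (nat_lit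 195)) (XT.nd (nat_lit 78) (nat_lit 0) (nat_lit 0) (XT.lf (nat_lit 0) (nat_lit 16916011678) (nat_lit 152) (nat_lit 14649263861) (nat_lit 0) (nat_lit 11009738634) (nat_lit 4) (nat_lit 5) (nat_lit 6) (nat_lit 4) (nat_lit 4) (nat_lit 4) (nat_lit 309) (nat_lit 217) (nat_lit 194)) (XT.lf (nat_lit 0) (nat_lit 19973713906) (nat_lit 152) (nat_lit 10662261056) (nat_lit 0) (nat_lit 13931670709) (nat_lit 4) (nat_lit 5) (nat_lit 6) (nat_lit 4) (nat_lit 4) (nat_lit 4) (nat_lit 310) (nat_lit 217) (nat_lit 193))))))))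
noncomputable def xc45 : XT := (XT.nd (nat_lit 1326) (nat_lit 152) (nat_lit 0) (XT.nd (nat_lit 624) (nat_lit 0) (nat_lit 0) (XT.nd (nat_lit 312) (nat_lit 0) (nat_lit 0) (XT.nd (nat_lit 156) (nat_lit 76) (nat_lit 0) (XT.nd (nat_lit 78) (nat_lit 0) (nat_lit 0) (XT.lf (nat_lit 0) (nat_lit 23135265509) (nat_lit 152) (nat_lit 6563244802) (nat_lit 0) (nat_lit 16963917404) (nat_lit 4) (nat_lit 5) (nat_lit 6) (nat_lit 4) (nat_lit 4) (nat_lit 4) (nat_lit 311) (nat_lit 217) (nat_lit 192)) (XT.lf (nat_lit 0) (nat_lit 26408193991) (nat_lit 152) (nat_lit 2342455537) (nat_lit 0) (nat_lit 20113698355) (nat_lit 4) (nat_lit 5) (nat_lit 6) (nat_lit 4) (nat_lit 4) (nat_lit 4) (nat_lit 312) (nat_lit 217) (nat_lit 191))) (XT.nd (nat_lit 78) (nat_lit 0) (nat_lit 0) (XT.lf (nat_lit 0) (nat_lit 2076621080) (nat_lit 76) (nat_lit 27756092833) (nat_lit 76) (nat_lit 21344313834) (nat_lit 3) (nat_lit 4) (nat_lit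 4) (nat_lit 5) (nat_lit 4) (nat_lit 4) (nat_lit 313) (nat_lit 217) (nat_lit 190)) (XT.lf (nat_lit 0) (nat_lit 6720037035) (nat_lit 76) (nat_lit 26704517651) (nat_lit 76) (nat_lit 20181040212) (nat_lit 3) (nat_lit 4) (nat_lit 4) (nat_lit 5) (nat_lit 4) (nat_lit 4) (nat_lit 314) (nat_lit 217) (nat_lit 189)))) (XT.nd (nat_lit 156) (nat_lit 0) (nat_lit 0) (XT.nd (nat_lit 78) (nat_lit 0) (nat_lit 0) (XT.lf (nat_lit 0) (nat_lit 11521395920) (nat_lit 76) (nat_lit 25633090852) (nat_lit 76) (nat_lit 19003233945) (nat_lit 3) (nat_lit 4) (nat_lit 4) (nat_lit 5) (nat_lit 4) (nat_lit 4) (nat_lit 315) (nat_lit 217) (nat_lit 188)) (XT.lf (nat_lit 0) (nat_lit 16492129542) (nat_lit 76) (nat_lit 24539261418) (nat_lit 76) (nat_lit 17808090732) (nat_lit 3) (nat_lit 4) (nat_lit 4) (nat_lit 5) (nat_lit 4) (nat_lit 4) (nat_lit 316) (nat_lit 217) (nat_lit 187))) (XT.nd (nat_lit 78) (nat_lit 0) (nat_lit 0)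 (XT.lf (nat_lit 0) (nat_lit 21644072982) (nat_lit 76) (nat_lit 23420424994) (nat_lit 76) (nat_lit 16592764995) (nat_lit 3) (nat_lit 4) (nat_lit 4) (nat_lit 5) (nat_lit 4) (nat_lit 4) (nat_lit 317) (nat_lit 217) (nat_lit 186)) (XT.lf (nat_lit 0) (nat_lit 26989492770) (nat_lit 76) (nat_lit 22273917683) (nat_lit 76) (nat_lit 15354363101) (nat_lit 3) (nat_lit 4) (nat_lit 4) (nat_lit 5) (nat_lit 4) (nat_lit 4) (nat_lit 318) (nat_lit 217) (nat_lit 185))))) (XT.nd (nat_lit 312) (nat_lit 0) (nat_lit 0) (XT.nd (nat_lit 156) (nat_lit 0) (nat_lit 0) (XT.nd (nat_lit 78) (nat_lit 0) (nat_lit 0) (XT.lf (nat_lit 0) (nat_lit 32541116098) (nat_lit 76) (nat_lit 21097009706) (nat_lit 76) (nat_lit 14089936473) (nat_lit 3) (nat_lit 4) (nat_lit 4) (nat_lit 5) (nat_lit 4) (nat_lit 4) (nat_lit 319) (nat_lit 217) (nat_lit 184)) (XT.lf (nat_lit 0) (nat_lit 38312161116) (nat_lit 76) (nat_lit 19886898902) (nat_lit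 76) (nat_lit 12796474572) (nat_lit 3) (nat_lit 4) (nat_lit 4) (nat_lit 5) (nat_lit 4) (nat_lit 4) (nat_lit 320) (nat_lit 217) (nat_lit 183))) (XT.nd (nat_lit 78) (nat_lit 0) (nat_lit 0) (XT.lf (nat_lit 0) (nat_lit 44316368407) (nat_lit 76) (nat_lit 18640704054) (nat_lit 76) (nat_lit 11470897728) (nat_lit 3) (nat_lit 4) (nat_lit 4) (nat_lit 5) (nat_lit 4) (nat_lit 4) (nat_lit 321) (nat_lit 217) (nat_lit 182)) (XT.lf (nat_lit 0) (nat_lit 50568033703) (nat_lit 76) (nat_lit 17355458032) (nat_lit 76) (nat_lit 10110049804) (nat_lit 3) (nat_lit 4) (nat_lit 4) (nat_lit 5) (nat_lit 4) (nat_lit 4) (nat_lit 322) (nat_lit 217) (nat_lit 181)))) (XT.nd (nat_lit 156) (nat_lit 0) (nat_lit 0) (XT.nd (nat_lit 78) (nat_lit 0) (nat_lit 0) (XT.lf (nat_lit 0) (nat_lit 57082041921) (nat_lit 76) (nat_lit 16028100725) (nat_lit 76) (nat_lit 8710690686) (nat_lit 3) (nat_lit 4) (nat_lit 4) (nat_lit 5) (nat_lit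 4) (nat_lit 4) (nat_lit 323) (nat_lit 217) (nat_lit 180)) (XT.lf (nat_lit 0) (nat_lit 63873902605) (nat_lit 76) (nat_lit 14655471760) (nat_lit 76) (nat_lit 7269488568) (nat_lit 3) (nat_lit 4) (nat_lit 4) (nat_lit 5) (nat_lit 4) (nat_lit 4) (nat_lit 324) (nat_lit 217) (nat_lit 179))) (XT.nd (nat_lit 78) (nat_lit 0) (nat_lit 0) (XT.lf (nat_lit 0) (nat_lit 70959786851) (nat_lit 76) (nat_lit 13234302972) (nat_lit 76) (nat_lit 5783012015) (nat_lit 3) (nat_lit 4) (nat_lit 4) (nat_lit 5) (nat_lit 4) (nat_lit 4) (nat_lit 325) (nat_lit 217) (nat_lit 178)) (XT.nd (nat_lit 78) (nat_lit 0) (nat_lit 0) (XT.lf (nat_lit 0) (nat_lit 78356565813) (nat_lit 76) (nat_lit 11761210626) (nat_lit 76) (nat_lit 4247721798) (nat_lit 3) (nat_lit 4) (nat_lit 4) (nat_lit 5) (nat_lit 4) (nat_lit 4) (nat_lit 326) (nat_lit 217) (nat_lit 177)) (XT.lf (nat_lit 0) (nat_lit 86081850869) (nat_lit 76) (nat_lit 10232687360)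 (nat_lit 76) (nat_lit 2659962463) (nat_lit 3) (nat_lit 4) (nat_lit 4) (nat_lit 5) (nat_lit 4) (nat_lit 4) (nat_lit 327) (nat_lit 217) (nat_lit 176))))))) (XT.nd (nat_lit 702) (nat_lit 0) (nat_lit 0) (XT.nd (nat_lit 312) (nat_lit 0) (nat_lit 0) (XT.nd (nat_lit 156) (nat_lit 76) (nat_lit 0) (XT.nd (nat_lit 78) (nat_lit 76) (nat_lit 0) (XT.lf (nat_lit 0) (nat_lit 94154035555) (nat_lit 76) (nat_lit 8645093832) (nat_lit 76) (nat_lit 1015953632) (nat_lit 3) (nat_lit 4) (nat_lit 4) (nat_lit 5) (nat_lit 4) (nat_lit 4) (nat_lit 328) (nat_lit 217) (nat_lit 175)) (XT.lf (nat_lit 0) (nat_lit 666191695) (nat_lit 152) (nat_lit 6317176082) (nat_lit 76) (nat_lit 101914865383) (nat_lit 2) (nat_lit 5) (nat_lit 4) (nat_lit 5) (nat_lit 3) (nat_lit 4) (nat_lit 329) (nat_lit 217) (nat_lit 174))) (XT.nd (nat_lit 78) (nat_lit 76) (nat_lit 0) (XT.lf (nat_lit 0) (nat_lit 2377986036) (nat_lit 152) (nat_lit 2859168027)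 (nat_lit 76) (nat_lit 108998595097) (nat_lit 2) (nat_lit 5) (nat_lit 4) (nat_lit 5) (nat_lit 3) (nat_lit 4) (nat_lit 330) (nat_lit 217) (nat_lit 173)) (XT.lf (nat_lit 0) (nat_lit 761442863) (nat_lit 76) (nat_lit 3406467344) (nat_lit 152) (nat_lit 115672627863) (nat_lit 1) (nat_lit 5) (nat_lit 2) (nat_lit 5) (nat_lit 3) (nat_lit 4) (nat_lit 331) (nat_lit 217) (nat_lit 172)))) (XT.nd (nat_lit 156) (nat_lit 0) (nat_lit 0) (XT.nd (nat_lit 78) (nat_lit 0) (nat_lit 0) (XT.lf (nat_lit 0) (nat_lit 4628238831) (nat_lit 76) (nat_lit 1448553803) (nat_lit 152) (nat_lit 119647323655) (nat_lit 1) (nat_lit 5) (nat_lit 2) (nat_lit 5) (nat_lit 3) (nat_lit 4) (nat_lit 332) (nat_lit 217) (nat_lit 171)) (XT.lf (nat_lit 0) (nat_lit 8072318354) (nat_lit 152) (nat_lit 123256164281) (nat_lit 0) (nat_lit 573852699) (nat_lit 1) (nat_lit 5) (nat_lit 3) (nat_lit 4) (nat_lit 1) (nat_lit 4) (nat_lit 333) (nat_lit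 217) (nat_lit 170))) (XT.nd (nat_lit 78) (nat_lit 0) (nat_lit 0) (XT.lf (nat_lit 0) (nat_lit 10173955914) (nat_lit 152) (nat_lit 125579816515) (nat_lit 0) (nat_lit 2635396957) (nat_lit 1) (nat_lit 5) (nat_lit 3) (nat_lit 4) (nat_lit 1) (nat_lit 4) (nat_lit 334) (nat_lit 217) (nat_lit 169)) (XT.nd (nat_lit 78) (nat_lit 0) (nat_lit 0) (XT.lf (nat_lit 0) (nat_lit 12364093230) (nat_lit 152) (nat_lit 128049750680) (nat_lit 0) (nat_lit 4787350176) (nat_lit 1) (nat_lit 5) (nat_lit 3) (nat_lit 4) (nat_lit 1) (nat_lit 4) (nat_lit 335) (nat_lit 217) (nat_lit 168)) (XT.lf (nat_lit 0) (nat_lit 14647944915) (nat_lit 152) (nat_lit 130671847573) (nat_lit 0) (nat_lit 7034836053) (nat_lit 1) (nat_lit 5) (nat_lit 3) (nat_lit 4) (nat_lit 1) (nat_lit 4) (nat_lit 336) (nat_lit 217) (nat_lit 167)))))) (XT.nd (nat_lit 312) (nat_lit 0) (nat_lit 0) (XT.nd (nat_lit 156) (nat_lit 0) (nat_lit 0) (XT.nd (nat_lit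 78) (nat_lit 0) (nat_lit 0) (XT.lf (nat_lit 0) (nat_lit 17030948711) (nat_lit 152) (nat_lit 133452350281) (nat_lit 0) (nat_lit 9383205747) (nat_lit 1) (nat_lit 5) (nat_lit 3) (nat_lit 4) (nat_lit 1) (nat_lit 4) (nat_lit 337) (nat_lit 217) (nat_lit 166)) (XT.lf (nat_lit 0) (nat_lit 19518778436) (nat_lit 152) (nat_lit 136397879049) (nat_lit 0) (nat_lit 11838050613) (nat_lit 1) (nat_lit 5) (nat_lit 3) (nat_lit 4) (nat_lit 1) (nat_lit 4) (nat_lit 338) (nat_lit 217) (nat_lit 165))) (XT.nd (nat_lit 78) (nat_lit 0) (nat_lit 0) (XT.lf (nat_lit 0) (nat_lit 22117357494) (nat_lit 152) (nat_lit 139515447040) (nat_lit 0) (nat_lit 14405215519) (nat_lit 1) (nat_lit 5) (nat_lit 3) (nat_lit 4) (nat_lit 1) (nat_lit 4) (nat_lit 339) (nat_lit 217) (nat_lit 164)) (XT.lf (nat_lit 0) (nat_lit 24832872979) (nat_lit 152) (nat_lit 142812477036) (nat_lit 0) (nat_lit 17090812765) (nat_lit 1) (nat_lit 5) (nat_lit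 3) (nat_lit 4) (nat_lit 1) (nat_lit 4) (nat_lit 340) (nat_lit 217) (nat_lit 163)))) (XT.nd (nat_lit 156) (nat_lit 0) (nat_lit 0) (XT.nd (nat_lit 78) (nat_lit 0) (nat_lit 0) (XT.lf (nat_lit 0) (nat_lit 27671790403) (nat_lit 152) (nat_lit 146296819108) (nat_lit 0) (nat_lit 19901236627) (nat_lit 1) (nat_lit 5) (nat_lit 3) (nat_lit 4) (nat_lit 1) (nat_lit 4) (nat_lit 341) (nat_lit 217) (nat_lit 162)) (XT.lf (nat_lit 0) (nat_lit 30640869094) (nat_lit 152) (nat_lit 149976769308) (nat_lit 0) (nat_lit 22843178593) (nat_lit 1) (nat_lit 5) (nat_lit 3) (nat_lit 4) (nat_lit 1) (nat_lit 4) (nat_lit 342) (nat_lit 217) (nat_lit 161))) (XT.nd (nat_lit 78) (nat_lit 0) (nat_lit 0) (XT.lf (nat_lit 0) (nat_lit 33747178287) (nat_lit 152) (nat_lit 153861089422) (nat_lit 0) (nat_lit 25923643285) (nat_lit 1) (nat_lit 5) (nat_lit 3) (nat_lit 4) (nat_lit 1) (nat_lit 4) (nat_lit 343) (nat_lit 217) (nat_lit 160))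 (XT.nd (nat_lit 78) (nat_lit 0) (nat_lit 0) (XT.lf (nat_lit 0) (nat_lit 36998113955) (nat_lit 152) (nat_lit 157959027833) (nat_lit 0) (nat_lit 29149965144) (nat_lit 1) (nat_lit 5) (nat_lit 3) (nat_lit 4) (nat_lit 1) (nat_lit 4) (nat_lit 344) (nat_lit 217) (nat_lit 159)) (XT.lf (nat_lit 0) (nat_lit 40401416422) (nat_lit 152) (nat_lit 162280341535) (nat_lit 0) (nat_lit 32529825887) (nat_lit 1) (nat_lit 5) (nat_lit 3) (nat_lit 4) (nat_lit 1) (nat_lit 4) (nat_lit 345) (nat_lit 217) (nat_lit 158))))))))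
noncomputable def xc46 : XT := (XT.nd (nat_lit 1326) (nat_lit 0) (nat_lit 0) (XT.nd (nat_lit 624) (nat_lit 0) (nat_lit 0) (XT.nd (nat_lit 312) (nat_lit 0) (nat_lit 0) (XT.nd (nat_lit 156) (nat_lit 0) (nat_lit 0) (XT.nd (nat_lit 78) (nat_lit 0) (nat_lit 0) (XT.lf (nat_lit 0) (nat_lit 43965188790) (nat_lit 152) (nat_lit 166835319372) (nat_lit 0) (nat_lit 36071272804) (nat_lit 1) (nat_lit 5) (nat_lit 3) (nat_lit 4) (nat_lit 1) (nat_lit 4) (nat_lit 346) (nat_lit 217) (nat_lit 157)) (XT.lf (nat_lit 0) (nat_lit 47697916229) (nat_lit 152) (nat_lit 171634806528) (nat_lit 0) (nat_lit 39782737909) (nat_lit 1) (nat_lit 5) (nat_lit 3) (nat_lit 4) (nat_lit 1) (nat_lit 4) (nat_lit 347) (nat_lit 217) (nat_lit 156))) (XT.nd (nat_lit 78) (nat_lit 0) (nat_lit 0) (XT.lf (nat_lit 0) (nat_lit 51608486188) (nat_lit 152) (nat_lit 176690230354) (nat_lit 0) (nat_lit 43673058025) (nat_lit 1) (nat_lit 5) (nat_lit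 3) (nat_lit 4) (nat_lit 1) (nat_lit 4) (nat_lit 348) (nat_lit 217) (nat_lit 155)) (XT.lf (nat_lit 0) (nat_lit 55706209546) (nat_lit 152) (nat_lit 182013627574) (nat_lit 0) (nat_lit 47751495819) (nat_lit 1) (nat_lit 5) (nat_lit 3) (nat_lit 4) (nat_lit 1) (nat_lit 4) (nat_lit 349) (nat_lit 217) (nat_lit 154)))) (XT.nd (nat_lit 156) (nat_lit 0) (nat_lit 0) (XT.nd (nat_lit 78) (nat_lit 0) (nat_lit 0) (XT.lf (nat_lit 0) (nat_lit 60000842787) (nat_lit 152) (nat_lit 187617672942) (nat_lit 0) (nat_lit 52027761857) (nat_lit 1) (nat_lit 5) (nat_lit 3) (nat_lit 4) (nat_lit 1) (nat_lit 4) (nat_lit 350) (nat_lit 217) (nat_lit 153)) (XT.lf (nat_lit 0) (nat_lit 64502611229) (nat_lit 152) (nat_lit 193515709423) (nat_lit 0) (nat_lit 56512037724) (nat_lit 1) (nat_lit 5) (nat_lit 3) (nat_lit 4) (nat_lit 1) (nat_lit 4) (nat_lit 351) (nat_lit 217) (nat_lit 152))) (XT.nd (nat_lit 78) (nat_lit 0) (nat_lit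 0) (XT.lf (nat_lit 0) (nat_lit 69222233369) (nat_lit 152) (nat_lit 199721779963) (nat_lit 0) (nat_lit 61215000268) (nat_lit 1) (nat_lit 5) (nat_lit 3) (nat_lit 4) (nat_lit 1) (nat_lit 4) (nat_lit 352) (nat_lit 217) (nat_lit 151)) (XT.lf (nat_lit 0) (nat_lit 74170946401) (nat_lit 152) (nat_lit 206250660918) (nat_lit 0) (nat_lit 66147847019) (nat_lit 1) (nat_lit 5) (nat_lit 3) (nat_lit 4) (nat_lit 1) (nat_lit 4) (nat_lit 353) (nat_lit 217) (nat_lit 150))))) (XT.nd (nat_lit 312) (nat_lit 0) (nat_lit 0) (XT.nd (nat_lit 156) (nat_lit 0) (nat_lit 0) (XT.nd (nat_lit 78) (nat_lit 0) (nat_lit 0) (XT.lf (nat_lit 0) (nat_lit 79360532977) (nat_lit 152) (nat_lit 213117897244) (nat_lit 0) (nat_lit 71322322851) (nat_lit 1) (nat_lit 5) (nat_lit 3) (nat_lit 4) (nat_lit 1) (nat_lit 4) (nat_lit 354) (nat_lit 217) (nat_lit 149)) (XT.lf (nat_lit 0) (nat_lit 84803349253) (nat_lit 152) (nat_lit 220339839504)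 (nat_lit 0) (nat_lit 76750747942) (nat_lit 1) (nat_lit 5) (nat_lit 3) (nat_lit 4) (nat_lit 1) (nat_lit 4) (nat_lit 355) (nat_lit 217) (nat_lit 148))) (XT.nd (nat_lit 78) (nat_lit 0) (nat_lit 0) (XT.lf (nat_lit 0) (nat_lit 90512354318) (nat_lit 152) (nat_lit 227933682798) (nat_lit 0) (nat_lit 82446047116) (nat_lit 1) (nat_lit 5) (nat_lit 3) (nat_lit 4) (nat_lit 1) (nat_lit 4) (nat_lit 356) (nat_lit 217) (nat_lit 147)) (XT.lf (nat_lit 0) (nat_lit 96501141039) (nat_lit 152) (nat_lit 235917507706) (nat_lit 0) (nat_lit 88421780609) (nat_lit 1) (nat_lit 5) (nat_lit 3) (nat_lit 4) (nat_lit 1) (nat_lit 4) (nat_lit 357) (nat_lit 217) (nat_lit 146)))) (XT.nd (nat_lit 156) (nat_lit 0) (nat_lit 0) (XT.nd (nat_lit 78) (nat_lit 0) (nat_lit 0) (XT.lf (nat_lit 0) (nat_lit 102783968433) (nat_lit 152) (nat_lit 244310323333) (nat_lit 0) (nat_lit 94692176357) (nat_lit 1) (nat_lit 5) (nat_lit 3) (nat_lit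 4) (nat_lit 1) (nat_lit 4) (nat_lit 358) (nat_lit 217) (nat_lit 145)) (XT.lf (nat_lit 0) (nat_lit 109375795613) (nat_lit 152) (nat_lit 253132112576) (nat_lit 0) (nat_lit 101272163873) (nat_lit 1) (nat_lit 5) (nat_lit 3) (nat_lit 4) (nat_lit 1) (nat_lit 4) (nat_lit 359) (nat_lit 217) (nat_lit 144))) (XT.nd (nat_lit 78) (nat_lit 0) (nat_lit 0) (XT.lf (nat_lit 0) (nat_lit 116292317405) (nat_lit 152) (nat_lit 262403879693) (nat_lit 0) (nat_lit 108177409796) (nat_lit 1) (nat_lit 5) (nat_lit 3) (nat_lit 4) (nat_lit 1) (nat_lit 4) (nat_lit 360) (nat_lit 217) (nat_lit 143)) (XT.nd (nat_lit 78) (nat_lit 0) (nat_lit 0) (XT.lf (nat_lit 0) (nat_lit 123550001719) (nat_lit 152) (nat_lit 272147700321) (nat_lit 0) (nat_lit 115424355186) (nat_lit 1) (nat_lit 5) (nat_lit 3) (nat_lit 4) (nat_lit 1) (nat_lit 4) (nat_lit 361) (nat_lit 217) (nat_lit 142)) (XT.lf (nat_lit 0) (nat_lit 131166128755) (nat_lit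 152) (nat_lit 282386774032) (nat_lit 0) (nat_lit 123030254675) (nat_lit 1) (nat_lit 5) (nat_lit 3) (nat_lit 4) (nat_lit 1) (nat_lit 4) (nat_lit 362) (nat_lit 217) (nat_lit 141))))))) (XT.nd (nat_lit 31902) (nat_lit 0) (nat_lit 380) (XT.nd (nat_lit 31512) (nat_lit 0) (nat_lit 684) (XT.nd (nat_lit 31356) (nat_lit 0) (nat_lit 836) (XT.nd (nat_lit 78) (nat_lit 0) (nat_lit 0) (XT.lf (nat_lit 0) (nat_lit 139158832149) (nat_lit 152) (nat_lit 293145479574) (nat_lit 0) (nat_lit 131013217549) (nat_lit 1) (nat_lit 5) (nat_lit 3) (nat_lit 4) (nat_lit 1) (nat_lit 4) (nat_lit 363) (nat_lit 217) (nat_lit 140)) (XT.lf (nat_lit 0) (nat_lit 147547142147) (nat_lit 152) (nat_lit 304449432913) (nat_lit 0) (nat_lit 139392250861) (nat_lit 1) (nat_lit 5) (nat_lit 3) (nat_lit 4) (nat_lit 1) (nat_lit 4) (nat_lit 364) (nat_lit 217) (nat_lit 139))) (XT.nd (nat_lit 78) (nat_lit 152) (nat_lit 0) (XT.lf (nat_lit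 0) (nat_lit 2411292602) (nat_lit 152) (nat_lit 2713726393) (nat_lit 0) (nat_lit 2411292602) (nat_lit 14) (nat_lit 5) (nat_lit 16) (nat_lit 4) (nat_lit 14) (nat_lit 4) (nat_lit 284) (nat_lit 218) (nat_lit 218)) (XT.lf (nat_lit 0) (nat_lit 780627841) (nat_lit 152) (nat_lit 7674192931) (nat_lit 152) (nat_lit 7167300995) (nat_lit 12) (nat_lit 4) (nat_lit 14) (nat_lit 5) (nat_lit 14) (nat_lit 4) (nat_lit 285) (nat_lit 218) (nat_lit 217)))) (XT.nd (nat_lit 156) (nat_lit 152) (nat_lit 0) (XT.nd (nat_lit 78) (nat_lit 0) (nat_lit 0) (XT.lf (nat_lit 0) (nat_lit 7277569694) (nat_lit 152) (nat_lit 4956574385) (nat_lit 152) (nat_lit 3966928224) (nat_lit 12) (nat_lit 4) (nat_lit 14) (nat_lit 5) (nat_lit 14) (nat_lit 4) (nat_lit 286) (nat_lit 218) (nat_lit 216)) (XT.lf (nat_lit 0) (nat_lit 13899385581) (nat_lit 152) (nat_lit 2182628371) (nat_lit 152) (nat_lit 733216281) (nat_lit 12) (nat_lit 4) (nat_lit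 14) (nat_lit 5) (nat_lit 14) (nat_lit 4) (nat_lit 287) (nat_lit 218) (nat_lit 215))) (XT.nd (nat_lit 78) (nat_lit 0) (nat_lit 0) (XT.lf (nat_lit 0) (nat_lit 2522793753) (nat_lit 152) (nat_lit 14212769797) (nat_lit 0) (nat_lit 725380036) (nat_lit 10) (nat_lit 5) (nat_lit 12) (nat_lit 4) (nat_lit 10) (nat_lit 4) (nat_lit 288) (nat_lit 218) (nat_lit 214)) (XT.nd (nat_lit 78) (nat_lit 0) (nat_lit 0) (XT.lf (nat_lit 0) (nat_lit 5887517422) (nat_lit 152) (nat_lit 8559562237) (nat_lit 0) (nat_lit 3692940610) (nat_lit 10) (nat_lit 5) (nat_lit 12) (nat_lit 4) (nat_lit 10) (nat_lit 4) (nat_lit 289) (nat_lit 218) (nat_lit 213)) (XT.lf (nat_lit 0) (nat_lit 9310555795) (nat_lit 152) (nat_lit 2810459183) (nat_lit 0) (nat_lit 6737728416) (nat_lit 10) (nat_lit 5) (nat_lit 12) (nat_lit 4) (nat_lit 10) (nat_lit 4) (nat_lit 290) (nat_lit 218) (nat_lit 212)))))) (XT.nd (nat_lit 312) (nat_lit 152) (nat_lit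 0) (XT.nd (nat_lit 156) (nat_lit 76) (nat_lit 0) (XT.nd (nat_lit 78) (nat_lit 0) (nat_lit 0) (XT.lf (nat_lit 0) (nat_lit 3149015878) (nat_lit 76) (nat_lit 9700208048) (nat_lit 76) (nat_lit 6767142033) (nat_lit 9) (nat_lit 4) (nat_lit 10) (nat_lit 5) (nat_lit 10) (nat_lit 4) (nat_lit 291) (nat_lit 218) (nat_lit 211)) (XT.lf (nat_lit 0) (nat_lit 9329035064) (nat_lit 76) (nat_lit 7180952584) (nat_lit 76) (nat_lit 3904802155) (nat_lit 9) (nat_lit 4) (nat_lit 10) (nat_lit 5) (nat_lit 10) (nat_lit 4) (nat_lit 292) (nat_lit 218) (nat_lit 210))) (XT.nd (nat_lit 78) (nat_lit 76) (nat_lit 0) (XT.lf (nat_lit 0) (nat_lit 15651386232) (nat_lit 76) (nat_lit 4604846848) (nat_lit 76) (nat_lit 1001949356) (nat_lit 9) (nat_lit 4) (nat_lit 10) (nat_lit 5) (nat_lit 10) (nat_lit 4) (nat_lit 293) (nat_lit 218) (nat_lit 209)) (XT.lf (nat_lit 0) (nat_lit 1885969254) (nat_lit 152) (nat_lit 47848196) (nat_lit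 76) (nat_lit 20213213543) (nat_lit 8) (nat_lit 5) (nat_lit 10) (nat_lit 5) (nat_lit 9) (nat_lit 4) (nat_lit 294) (nat_lit 218) (nat_lit 208)))) (XT.nd (nat_lit 156) (nat_lit 76) (nat_lit 0) (XT.nd (nat_lit 78) (nat_lit 0) (nat_lit 0) (XT.lf (nat_lit 0) (nat_lit 4899490905) (nat_lit 152) (nat_lit 17289878154) (nat_lit 0) (nat_lit 889534347) (nat_lit 7) (nat_lit 5) (nat_lit 9) (nat_lit 4) (nat_lit 7) (nat_lit 4) (nat_lit 295) (nat_lit 218) (nat_lit 207)) (XT.lf (nat_lit 0) (nat_lit 8007053901) (nat_lit 152) (nat_lit 12325005221) (nat_lit 0) (nat_lit 3728281727) (nat_lit 7) (nat_lit 5) (nat_lit 9) (nat_lit 4) (nat_lit 7) (nat_lit 4) (nat_lit 296) (nat_lit 218) (nat_lit 206))) (XT.nd (nat_lit 78) (nat_lit 76) (nat_lit 0) (XT.lf (nat_lit 0) (nat_lit 11185080495) (nat_lit 152) (nat_lit 7259854969) (nat_lit 0) (nat_lit 6650293449) (nat_lit 7) (nat_lit 5) (nat_lit 9) (nat_lit 4) (nat_lit 7)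 (nat_lit 4) (nat_lit 297) (nat_lit 218) (nat_lit 205)) (XT.nd (nat_lit 78) (nat_lit 76) (nat_lit 0) (XT.lf (nat_lit 0) (nat_lit 14441137418) (nat_lit 152) (nat_lit 2082367517) (nat_lit 0) (nat_lit 9662526683) (nat_lit 7) (nat_lit 5) (nat_lit 9) (nat_lit 4) (nat_lit 7) (nat_lit 4) (nat_lit 298) (nat_lit 218) (nat_lit 204)) (XT.lf (nat_lit 0) (nat_lit 3326245101) (nat_lit 76) (nat_lit 14508664091) (nat_lit 76) (nat_lit 9497840320) (nat_lit 6) (nat_lit 4) (nat_lit 7) (nat_lit 5) (nat_lit 7) (nat_lit 4) (nat_lit 299) (nat_lit 218) (nat_lit 203))))))))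
noncomputable def xc47 : XT := (XT.nd (nat_lit 1326) (nat_lit 152) (nat_lit 0) (XT.nd (nat_lit 624) (nat_lit 76) (nat_lit 0) (XT.nd (nat_lit 312) (nat_lit 76) (nat_lit 0) (XT.nd (nat_lit 156) (nat_lit 76) (nat_lit 0) (XT.nd (nat_lit 78) (nat_lit 0) (nat_lit 0) (XT.lf (nat_lit 0) (nat_lit 8945538302) (nat_lit 76) (nat_lit 12412683178) (nat_lit 76) (nat_lit 7180704134) (nat_lit 6) (nat_lit 4) (nat_lit 7) (nat_lit 5) (nat_lit 7) (nat_lit 4) (nat_lit 300) (nat_lit 218) (nat_lit 202)) (XT.lf (nat_lit 0) (nat_lit 14720038880) (nat_lit 76) (nat_lit 10265837666) (nat_lit 76) (nat_lit 4823234552) (nat_lit 6) (nat_lit 4) (nat_lit 7) (nat_lit 5) (nat_lit 7) (nat_lit 4) (nat_lit 301) (nat_lit 218) (nat_lit 201))) (XT.nd (nat_lit 78) (nat_lit 76) (nat_lit 0) (XT.lf (nat_lit 0) (nat_lit 20663495646) (nat_lit 76) (nat_lit 8063016019) (nat_lit 76) (nat_lit 2419818554) (nat_lit 6) (nat_lit 4) (nat_lit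 7) (nat_lit 5) (nat_lit 7) (nat_lit 4) (nat_lit 302) (nat_lit 218) (nat_lit 200)) (XT.lf (nat_lit 0) (nat_lit 34137540) (nat_lit 152) (nat_lit 5764257747) (nat_lit 76) (nat_lit 26755344013) (nat_lit 5) (nat_lit 5) (nat_lit 7) (nat_lit 5) (nat_lit 6) (nat_lit 4) (nat_lit 303) (nat_lit 218) (nat_lit 199)))) (XT.nd (nat_lit 156) (nat_lit 0) (nat_lit 0) (XT.nd (nat_lit 78) (nat_lit 76) (nat_lit 0) (XT.lf (nat_lit 0) (nat_lit 2466317789) (nat_lit 152) (nat_lit 960233226) (nat_lit 76) (nat_lit 30606231989) (nat_lit 5) (nat_lit 5) (nat_lit 7) (nat_lit 5) (nat_lit 6) (nat_lit 4) (nat_lit 304) (nat_lit 218) (nat_lit 198)) (XT.lf (nat_lit 0) (nat_lit 4110003057) (nat_lit 76) (nat_lit 914128013) (nat_lit 152) (nat_lit 30561532370) (nat_lit 4) (nat_lit 5) (nat_lit 5) (nat_lit 5) (nat_lit 6) (nat_lit 4) (nat_lit 305) (nat_lit 218) (nat_lit 197))) (XT.nd (nat_lit 78) (nat_lit 0) (nat_lit 0) (XT.lf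 (nat_lit 0) (nat_lit 7693675539) (nat_lit 152) (nat_lit 27881626561) (nat_lit 0) (nat_lit 1641775436) (nat_lit 4) (nat_lit 5) (nat_lit 6) (nat_lit 4) (nat_lit 4) (nat_lit 4) (nat_lit 306) (nat_lit 218) (nat_lit 196)) (XT.lf (nat_lit 0) (nat_lit 10454917941) (nat_lit 152) (nat_lit 24223979889) (nat_lit 0) (nat_lit 4253331245) (nat_lit 4) (nat_lit 5) (nat_lit 6) (nat_lit 4) (nat_lit 4) (nat_lit 4) (nat_lit 307) (nat_lit 218) (nat_lit 195))))) (XT.nd (nat_lit 312) (nat_lit 76) (nat_lit 0) (XT.nd (nat_lit 156) (nat_lit 0) (nat_lit 0) (XT.nd (nat_lit 78) (nat_lit 0) (nat_lit 0) (XT.lf (nat_lit 0) (nat_lit 13300160565) (nat_lit 152) (nat_lit 20479739585) (nat_lit 0) (nat_lit 6956015208) (nat_lit 4) (nat_lit 5) (nat_lit 6) (nat_lit 4) (nat_lit 4) (nat_lit 4) (nat_lit 308) (nat_lit 218) (nat_lit 194)) (XT.lf (nat_lit 0) (nat_lit 16236177796) (nat_lit 152) (nat_lit 16639990792) (nat_lit 0) (nat_lit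 9756262286) (nat_lit 4) (nat_lit 5) (nat_lit 6) (nat_lit 4) (nat_lit 4) (nat_lit 4) (nat_lit 309) (nat_lit 218) (nat_lit 193))) (XT.nd (nat_lit 78) (nat_lit 0) (nat_lit 0) (XT.lf (nat_lit 0) (nat_lit 19269960153) (nat_lit 152) (nat_lit 12695591252) (nat_lit 0) (nat_lit 12660739736) (nat_lit 4) (nat_lit 5) (nat_lit 6) (nat_lit 4) (nat_lit 4) (nat_lit 4) (nat_lit 310) (nat_lit 218) (nat_lit 192)) (XT.lf (nat_lit 0) (nat_lit 22408730926) (nat_lit 152) (nat_lit 8637149535) (nat_lit 0) (nat_lit 15676362978) (nat_lit 4) (nat_lit 5) (nat_lit 6) (nat_lit 4) (nat_lit 4) (nat_lit 4) (nat_lit 311) (nat_lit 218) (nat_lit 191)))) (XT.nd (nat_lit 156) (nat_lit 76) (nat_lit 0) (XT.nd (nat_lit 78) (nat_lit 0) (nat_lit 0) (XT.lf (nat_lit 0) (nat_lit 25659963380) (nat_lit 152) (nat_lit 4455002687) (nat_lit 0) (nat_lit 18810312068) (nat_lit 4) (nat_lit 5) (nat_lit 6) (nat_lit 4) (nat_lit 4) (nat_lit 4)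 (nat_lit 312) (nat_lit 218) (nat_lit 190)) (XT.lf (nat_lit 0) (nat_lit 29031398543) (nat_lit 152) (nat_lit 139193213) (nat_lit 0) (nat_lit 22070048791) (nat_lit 4) (nat_lit 5) (nat_lit 6) (nat_lit 4) (nat_lit 4) (nat_lit 4) (nat_lit 313) (nat_lit 218) (nat_lit 189))) (XT.nd (nat_lit 78) (nat_lit 0) (nat_lit 0) (XT.lf (nat_lit 0) (nat_lit 4463411669) (nat_lit 76) (nat_lit 28137338339) (nat_lit 76) (nat_lit 21069609119) (nat_lit 3) (nat_lit 4) (nat_lit 4) (nat_lit 5) (nat_lit 4) (nat_lit 4) (nat_lit 314) (nat_lit 218) (nat_lit 188)) (XT.nd (nat_lit 78) (nat_lit 0) (nat_lit 0) (XT.lf (nat_lit 0) (nat_lit 9230286062) (nat_lit 76) (nat_lit 27081115786) (nat_lit 76) (nat_lit 19912072787) (nat_lit 3) (nat_lit 4) (nat_lit 4) (nat_lit 5) (nat_lit 4) (nat_lit 4) (nat_lit 315) (nat_lit 218) (nat_lit 187)) (XT.lf (nat_lit 0) (nat_lit 14168177312) (nat_lit 76) (nat_lit 26001766587) (nat_lit 76)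 (nat_lit 18736234275) (nat_lit 3) (nat_lit 4) (nat_lit 4) (nat_lit 5) (nat_lit 4) (nat_lit 4) (nat_lit 316) (nat_lit 218) (nat_lit 186))))))) (XT.nd (nat_lit 702) (nat_lit 152) (nat_lit 0) (XT.nd (nat_lit 312) (nat_lit 0) (nat_lit 0) (XT.nd (nat_lit 156) (nat_lit 0) (nat_lit 0) (XT.nd (nat_lit 78) (nat_lit 0) (nat_lit 0) (XT.lf (nat_lit 0) (nat_lit 19288842301) (nat_lit 76) (nat_lit 24896720862) (nat_lit 76) (nat_lit 17539293967) (nat_lit 3) (nat_lit 4) (nat_lit 4) (nat_lit 5) (nat_lit 4) (nat_lit 4) (nat_lit 317) (nat_lit 218) (nat_lit 185)) (XT.lf (nat_lit 0) (nat_lit 24604473090) (nat_lit 76) (nat_lit 23763347551) (nat_lit 76) (nat_lit 16318402005) (nat_lit 3) (nat_lit 4) (nat_lit 4) (nat_lit 5) (nat_lit 4) (nat_lit 4) (nat_lit 318) (nat_lit 218) (nat_lit 184))) (XT.nd (nat_lit 78) (nat_lit 0) (nat_lit 0) (XT.lf (nat_lit 0) (nat_lit 30127725941) (nat_lit 76) (nat_lit 22598948146)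 (nat_lit 76) (nat_lit 15070651504) (nat_lit 3) (nat_lit 4) (nat_lit 4) (nat_lit 5) (nat_lit 4) (nat_lit 4) (nat_lit 319) (nat_lit 218) (nat_lit 183)) (XT.lf (nat_lit 0) (nat_lit 35871751457) (nat_lit 76) (nat_lit 21400750267) (nat_lit 76) (nat_lit 13793071628) (nat_lit 3) (nat_lit 4) (nat_lit 4) (nat_lit 5) (nat_lit 4) (nat_lit 4) (nat_lit 320) (nat_lit 218) (nat_lit 182)))) (XT.nd (nat_lit 156) (nat_lit 0) (nat_lit 0) (XT.nd (nat_lit 78) (nat_lit 0) (nat_lit 0) (XT.lf (nat_lit 0) (nat_lit 41850225890) (nat_lit 76) (nat_lit 20165901062) (nat_lit 76) (nat_lit 12482620521) (nat_lit 3) (nat_lit 4) (nat_lit 4) (nat_lit 5) (nat_lit 4) (nat_lit 4) (nat_lit 321) (nat_lit 218) (nat_lit 181)) (XT.lf (nat_lit 0) (nat_lit 48077383702) (nat_lit 76) (nat_lit 18891460414) (nat_lit 76) (nat_lit 11136178062) (nat_lit 3) (nat_lit 4) (nat_lit 4) (nat_lit 5) (nat_lit 4) (nat_lit 4) (nat_lit 322) (nat_lit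 218) (nat_lit 180))) (XT.nd (nat_lit 78) (nat_lit 0) (nat_lit 0) (XT.lf (nat_lit 0) (nat_lit 54568051459) (nat_lit 76) (nat_lit 17574393940) (nat_lit 76) (nat_lit 9750538435) (nat_lit 3) (nat_lit 4) (nat_lit 4) (nat_lit 5) (nat_lit 4) (nat_lit 4) (nat_lit 323) (nat_lit 218) (nat_lit 179)) (XT.nd (nat_lit 78) (nat_lit 0) (nat_lit 0) (XT.lf (nat_lit 0) (nat_lit 61337683132) (nat_lit 76) (nat_lit 16211565768) (nat_lit 76) (nat_lit 8322402498) (nat_lit 3) (nat_lit 4) (nat_lit 4) (nat_lit 5) (nat_lit 4) (nat_lit 4) (nat_lit 324) (nat_lit 218) (nat_lit 178)) (XT.lf (nat_lit 0) (nat_lit 68402396893) (nat_lit 76) (nat_lit 14799731068) (nat_lit 76) (nat_lit 6848369927) (nat_lit 3) (nat_lit 4) (nat_lit 4) (nat_lit 5) (nat_lit 4) (nat_lit 4) (nat_lit 325) (nat_lit 218) (nat_lit 177)))))) (XT.nd (nat_lit 312) (nat_lit 152) (nat_lit 0) (XT.nd (nat_lit 156) (nat_lit 0) (nat_lit 0) (XT.nd (nat_lit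 78) (nat_lit 0) (nat_lit 0) (XT.lf (nat_lit 0) (nat_lit 75779013487) (nat_lit 76) (nat_lit 13335528331) (nat_lit 76) (nat_lit 5324931121) (nat_lit 3) (nat_lit 4) (nat_lit 4) (nat_lit 5) (nat_lit 4) (nat_lit 4) (nat_lit 326) (nat_lit 218) (nat_lit 176)) (XT.lf (nat_lit 0) (nat_lit 83485096288) (nat_lit 76) (nat_lit 11815471357) (nat_lit 76) (nat_lit 3748458845) (nat_lit 3) (nat_lit 4) (nat_lit 4) (nat_lit 5) (nat_lit 4) (nat_lit 4) (nat_lit 327) (nat_lit 218) (nat_lit 175))) (XT.nd (nat_lit 78) (nat_lit 0) (nat_lit 0) (XT.lf (nat_lit 0) (nat_lit 91538993111) (nat_lit 76) (nat_lit 10235940966) (nat_lit 76) (nat_lit 2115199594) (nat_lit 3) (nat_lit 4) (nat_lit 4) (nat_lit 5) (nat_lit 4) (nat_lit 4) (nat_lit 328) (nat_lit 218) (nat_lit 174)) (XT.lf (nat_lit 0) (nat_lit 99959879903) (nat_lit 76) (nat_lit 8593176369) (nat_lit 76) (nat_lit 421264654) (nat_lit 3) (nat_lit 4) (nat_lit 4) (nat_lit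 5) (nat_lit 4) (nat_lit 4) (nat_lit 329) (nat_lit 218) (nat_lit 173)))) (XT.nd (nat_lit 156) (nat_lit 76) (nat_lit 0) (XT.nd (nat_lit 78) (nat_lit 0) (nat_lit 0) (XT.lf (nat_lit 0) (nat_lit 1294574667) (nat_lit 152) (nat_lit 5566767307) (nat_lit 76) (nat_lit 107451307477) (nat_lit 2) (nat_lit 5) (nat_lit 4) (nat_lit 5) (nat_lit 3) (nat_lit 4) (nat_lit 330) (nat_lit 218) (nat_lit 172)) (XT.lf (nat_lit 0) (nat_lit 3063621896) (nat_lit 152) (nat_lit 1986633496) (nat_lit 76) (nat_lit 114868238019) (nat_lit 2) (nat_lit 5) (nat_lit 4) (nat_lit 5) (nat_lit 3) (nat_lit 4) (nat_lit 331) (nat_lit 218) (nat_lit 171))) (XT.nd (nat_lit 78) (nat_lit 0) (nat_lit 0) (XT.lf (nat_lit 0) (nat_lit 1798629020) (nat_lit 76) (nat_lit 3133024769) (nat_lit 152) (nat_lit 120872471037) (nat_lit 1) (nat_lit 5) (nat_lit 2) (nat_lit 5) (nat_lit 3) (nat_lit 4) (nat_lit 332) (nat_lit 218) (nat_lit 170)) (XT.nd (nat_lit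 78) (nat_lit 0) (nat_lit 0) (XT.lf (nat_lit 0) (nat_lit 5811187929) (nat_lit 76) (nat_lit 1098347264) (nat_lit 152) (nat_lit 125073701057) (nat_lit 1) (nat_lit 5) (nat_lit 2) (nat_lit 5) (nat_lit 3) (nat_lit 4) (nat_lit 333) (nat_lit 218) (nat_lit 169)) (XT.lf (nat_lit 0) (nat_lit 8985935635) (nat_lit 152) (nat_lit 128493234871) (nat_lit 0) (nat_lit 992171330) (nat_lit 1) (nat_lit 5) (nat_lit 3) (nat_lit 4) (nat_lit 1) (nat_lit 4) (nat_lit 334) (nat_lit 218) (nat_lit 168))))))))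
noncomputable def xc48 : XT := (XT.nd (nat_lit 1326) (nat_lit 0) (nat_lit 0) (XT.nd (nat_lit 624) (nat_lit 0) (nat_lit 0) (XT.nd (nat_lit 312) (nat_lit 0) (nat_lit 0) (XT.nd (nat_lit 156) (nat_lit 0) (nat_lit 0) (XT.nd (nat_lit 78) (nat_lit 0) (nat_lit 0) (XT.lf (nat_lit 0) (nat_lit 11168369294) (nat_lit 152) (nat_lit 130977152460) (nat_lit 0) (nat_lit 3138239182) (nat_lit 1) (nat_lit 5) (nat_lit 3) (nat_lit 4) (nat_lit 1) (nat_lit 4) (nat_lit 335) (nat_lit 218) (nat_lit 167)) (XT.lf (nat_lit 0) (nat_lit 13444884162) (nat_lit 152) (nat_lit 133612566899) (nat_lit 0) (nat_lit 5380119948) (nat_lit 1) (nat_lit 5) (nat_lit 3) (nat_lit 4) (nat_lit 1) (nat_lit 4) (nat_lit 336) (nat_lit 218) (nat_lit 166))) (XT.nd (nat_lit 78) (nat_lit 0) (nat_lit 0) (XT.lf (nat_lit 0) (nat_lit 15820900514) (nat_lit 152) (nat_lit 136405752985) (nat_lit 0) (nat_lit 7723151441) (nat_lit 1) (nat_lit 5) (nat_lit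 3) (nat_lit 4) (nat_lit 1) (nat_lit 4) (nat_lit 337) (nat_lit 218) (nat_lit 165)) (XT.lf (nat_lit 0) (nat_lit 18302075530) (nat_lit 152) (nat_lit 139363361160) (nat_lit 0) (nat_lit 10172912305) (nat_lit 1) (nat_lit 5) (nat_lit 3) (nat_lit 4) (nat_lit 1) (nat_lit 4) (nat_lit 338) (nat_lit 218) (nat_lit 164)))) (XT.nd (nat_lit 156) (nat_lit 0) (nat_lit 0) (XT.nd (nat_lit 78) (nat_lit 0) (nat_lit 0) (XT.lf (nat_lit 0) (nat_lit 20894316771) (nat_lit 152) (nat_lit 142492433349) (nat_lit 0) (nat_lit 12735235306) (nat_lit 1) (nat_lit 5) (nat_lit 3) (nat_lit 4) (nat_lit 1) (nat_lit 4) (nat_lit 339) (nat_lit 218) (nat_lit 163)) (XT.lf (nat_lit 0) (nat_lit 23603796239) (nat_lit 152) (nat_lit 145800419724) (nat_lit 0) (nat_lit 15416221212) (nat_lit 1) (nat_lit 5) (nat_lit 3) (nat_lit 4) (nat_lit 1) (nat_lit 4) (nat_lit 340) (nat_lit 218) (nat_lit 162))) (XT.nd (nat_lit 78) (nat_lit 0) (nat_lit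 0) (XT.lf (nat_lit 0) (nat_lit 26436965075) (nat_lit 152) (nat_lit 149295196441) (nat_lit 0) (nat_lit 18222253324) (nat_lit 1) (nat_lit 5) (nat_lit 3) (nat_lit 4) (nat_lit 1) (nat_lit 4) (nat_lit 341) (nat_lit 218) (nat_lit 161)) (XT.lf (nat_lit 0) (nat_lit 29400568921) (nat_lit 152) (nat_lit 152985084400) (nat_lit 0) (nat_lit 21160012669) (nat_lit 1) (nat_lit 5) (nat_lit 3) (nat_lit 4) (nat_lit 1) (nat_lit 4) (nat_lit 342) (nat_lit 218) (nat_lit 160))))) (XT.nd (nat_lit 312) (nat_lit 0) (nat_lit 0) (XT.nd (nat_lit 156) (nat_lit 0) (nat_lit 0) (XT.nd (nat_lit 78) (nat_lit 0) (nat_lit 0) (XT.lf (nat_lit 0) (nat_lit 32501663975) (nat_lit 152) (nat_lit 156878869046) (nat_lit 0) (nat_lit 24236493913) (nat_lit 1) (nat_lit 5) (nat_lit 3) (nat_lit 4) (nat_lit 1) (nat_lit 4) (nat_lit 343) (nat_lit 218) (nat_lit 159)) (XT.lf (nat_lit 0) (nat_lit 35747633797) (nat_lit 152) (nat_lit 160985821296)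 (nat_lit 0) (nat_lit 27459022012) (nat_lit 1) (nat_lit 5) (nat_lit 3) (nat_lit 4) (nat_lit 1) (nat_lit 4) (nat_lit 344) (nat_lit 218) (nat_lit 158))) (XT.nd (nat_lit 78) (nat_lit 0) (nat_lit 0) (XT.lf (nat_lit 0) (nat_lit 39146206887) (nat_lit 152) (nat_lit 165315719608) (nat_lit 0) (nat_lit 30835269651) (nat_lit 1) (nat_lit 5) (nat_lit 3) (nat_lit 4) (nat_lit 1) (nat_lit 4) (nat_lit 345) (nat_lit 218) (nat_lit 157)) (XT.lf (nat_lit 0) (nat_lit 42705475086) (nat_lit 152) (nat_lit 169878873263) (nat_lit 0) (nat_lit 34373275515) (nat_lit 1) (nat_lit 5) (nat_lit 3) (nat_lit 4) (nat_lit 1) (nat_lit 4) (nat_lit 346) (nat_lit 218) (nat_lit 156)))) (XT.nd (nat_lit 156) (nat_lit 0) (nat_lit 0) (XT.nd (nat_lit 78) (nat_lit 0) (nat_lit 0) (XT.lf (nat_lit 0) (nat_lit 46433912841) (nat_lit 152) (nat_lit 174686146913) (nat_lit 0) (nat_lit 38081463428) (nat_lit 1) (nat_lit 5) (nat_lit 3) (nat_lit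 4) (nat_lit 1) (nat_lit 4) (nat_lit 347) (nat_lit 218) (nat_lit 155)) (XT.lf (nat_lit 0) (nat_lit 50340397385) (nat_lit 152) (nat_lit 179748986447) (nat_lit 0) (nat_lit 41968662409) (nat_lit 1) (nat_lit 5) (nat_lit 3) (nat_lit 4) (nat_lit 1) (nat_lit 4) (nat_lit 348) (nat_lit 218) (nat_lit 154))) (XT.nd (nat_lit 78) (nat_lit 0) (nat_lit 0) (XT.lf (nat_lit 0) (nat_lit 54434229873) (nat_lit 152) (nat_lit 185079446246) (nat_lit 0) (nat_lit 46044127692) (nat_lit 1) (nat_lit 5) (nat_lit 3) (nat_lit 4) (nat_lit 1) (nat_lit 4) (nat_lit 349) (nat_lit 218) (nat_lit 153)) (XT.nd (nat_lit 78) (nat_lit 0) (nat_lit 0) (XT.lf (nat_lit 0) (nat_lit 58725157524) (nat_lit 152) (nat_lit 190690217880) (nat_lit 0) (nat_lit 50317562768) (nat_lit 1) (nat_lit 5) (nat_lit 3) (nat_lit 4) (nat_lit 1) (nat_lit 4) (nat_lit 350) (nat_lit 218) (nat_lit 152)) (XT.lf (nat_lit 0) (nat_lit 63223396832) (nat_lit 152)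 (nat_lit 196594660329) (nat_lit 0) (nat_lit 54799142481) (nat_lit 1) (nat_lit 5) (nat_lit 3) (nat_lit 4) (nat_lit 1) (nat_lit 4) (nat_lit 351) (nat_lit 218) (nat_lit 151))))))) (XT.nd (nat_lit 702) (nat_lit 0) (nat_lit 0) (XT.nd (nat_lit 312) (nat_lit 0) (nat_lit 0) (XT.nd (nat_lit 156) (nat_lit 0) (nat_lit 0) (XT.nd (nat_lit 78) (nat_lit 0) (nat_lit 0) (XT.lf (nat_lit 0) (nat_lit 67939657891) (nat_lit 152) (nat_lit 202806831790) (nat_lit 0) (nat_lit 59499537259) (nat_lit 1) (nat_lit 5) (nat_lit 3) (nat_lit 4) (nat_lit 1) (nat_lit 4) (nat_lit 352) (nat_lit 218) (nat_lit 150)) (XT.lf (nat_lit 0) (nat_lit 72885169895) (nat_lit 152) (nat_lit 209341523147) (nat_lit 0) (nat_lit 64429938519) (nat_lit 1) (nat_lit 5) (nat_lit 3) (nat_lit 4) (nat_lit 1) (nat_lit 4) (nat_lit 353) (nat_lit 218) (nat_lit 149))) (XT.nd (nat_lit 78) (nat_lit 0) (nat_lit 0) (XT.lf (nat_lit 0) (nat_lit 78071707872)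 (nat_lit 152) (nat_lit 216214293189) (nat_lit 0) (nat_lit 69602085310) (nat_lit 1) (nat_lit 5) (nat_lit 3) (nat_lit 4) (nat_lit 1) (nat_lit 4) (nat_lit 354) (nat_lit 218) (nat_lit 148)) (XT.lf (nat_lit 0) (nat_lit 83511620721) (nat_lit 152) (nat_lit 223441505655) (nat_lit 0) (nat_lit 75028292269) (nat_lit 1) (nat_lit 5) (nat_lit 3) (nat_lit 4) (nat_lit 1) (nat_lit 4) (nat_lit 355) (nat_lit 218) (nat_lit 147)))) (XT.nd (nat_lit 156) (nat_lit 0) (nat_lit 0) (XT.nd (nat_lit 78) (nat_lit 0) (nat_lit 0) (XT.lf (nat_lit 0) (nat_lit 89217860616) (nat_lit 152) (nat_lit 231040368192) (nat_lit 0) (nat_lit 80721478936) (nat_lit 1) (nat_lit 5) (nat_lit 3) (nat_lit 4) (nat_lit 1) (nat_lit 4) (nat_lit 356) (nat_lit 218) (nat_lit 146)) (XT.lf (nat_lit 0) (nat_lit 95204013843) (nat_lit 152) (nat_lit 239028973331) (nat_lit 0) (nat_lit 86695200516) (nat_lit 1) (nat_lit 5) (nat_lit 3) (nat_lit 4) (nat_lit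 1) (nat_lit 4) (nat_lit 357) (nat_lit 218) (nat_lit 145))) (XT.nd (nat_lit 78) (nat_lit 0) (nat_lit 0) (XT.lf (nat_lit 0) (nat_lit 101484333148) (nat_lit 152) (nat_lit 247426341560) (nat_lit 0) (nat_lit 92963680158) (nat_lit 1) (nat_lit 5) (nat_lit 3) (nat_lit 4) (nat_lit 1) (nat_lit 4) (nat_lit 358) (nat_lit 218) (nat_lit 144)) (XT.nd (nat_lit 78) (nat_lit 0) (nat_lit 0) (XT.lf (nat_lit 0) (nat_lit 108073771671) (nat_lit 152) (nat_lit 256252466614) (nat_lit 0) (nat_lit 99541842811) (nat_lit 1) (nat_lit 5) (nat_lit 3) (nat_lit 4) (nat_lit 1) (nat_lit 4) (nat_lit 359) (nat_lit 218) (nat_lit 143)) (XT.lf (nat_lit 0) (nat_lit 114988018552) (nat_lit 152) (nat_lit 265528363075) (nat_lit 0) (nat_lit 106445350768) (nat_lit 1) (nat_lit 5) (nat_lit 3) (nat_lit 4) (nat_lit 1) (nat_lit 4) (nat_lit 360) (nat_lit 218) (nat_lit 142)))))) (XT.nd (nat_lit 31356) (nat_lit 0) (nat_lit 836) (XT.nd (nat_lit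 156) (nat_lit 0) (nat_lit 0) (XT.nd (nat_lit 78) (nat_lit 0) (nat_lit 0) (XT.lf (nat_lit 0) (nat_lit 122243536283) (nat_lit 152) (nat_lit 275276116411) (nat_lit 0) (nat_lit 113690640953) (nat_lit 1) (nat_lit 5) (nat_lit 3) (nat_lit 4) (nat_lit 1) (nat_lit 4) (nat_lit 361) (nat_lit 218) (nat_lit 141)) (XT.lf (nat_lit 0) (nat_lit 129857599908) (nat_lit 152) (nat_lit 285518935559) (nat_lit 0) (nat_lit 121294964057) (nat_lit 1) (nat_lit 5) (nat_lit 3) (nat_lit 4) (nat_lit 1) (nat_lit 4) (nat_lit 362) (nat_lit 218) (nat_lit 140))) (XT.nd (nat_lit 78) (nat_lit 0) (nat_lit 0) (XT.lf (nat_lit 0) (nat_lit 137848338148) (nat_lit 152) (nat_lit 296281208184) (nat_lit 0) (nat_lit 129276425611) (nat_lit 1) (nat_lit 5) (nat_lit 3) (nat_lit 4) (nat_lit 1) (nat_lit 4) (nat_lit 363) (nat_lit 218) (nat_lit 139)) (XT.lf (nat_lit 0) (nat_lit 146234776571) (nat_lit 152) (nat_lit 307588558743) (nat_lit 0)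 (nat_lit 137654029095) (nat_lit 1) (nat_lit 5) (nat_lit 3) (nat_lit 4) (nat_lit 1) (nat_lit 4) (nat_lit 364) (nat_lit 218) (nat_lit 138)))) (XT.nd (nat_lit 156) (nat_lit 152) (nat_lit 0) (XT.nd (nat_lit 78) (nat_lit 152) (nat_lit 0) (XT.lf (nat_lit 0) (nat_lit 5377345027) (nat_lit 152) (nat_lit 826390516) (nat_lit 152) (nat_lit 826390516) (nat_lit 16) (nat_lit 4) (nat_lit 18) (nat_lit 5) (nat_lit 18) (nat_lit 4) (nat_lit 282) (nat_lit 219) (nat_lit 219)) (XT.lf (nat_lit 0) (nat_lit 1783994851) (nat_lit 152) (nat_lit 11519366628) (nat_lit 0) (nat_lit 1251758318) (nat_lit 14) (nat_lit 5) (nat_lit 16) (nat_lit 4) (nat_lit 14) (nat_lit 4) (nat_lit 283) (nat_lit 219) (nat_lit 218))) (XT.nd (nat_lit 78) (nat_lit 152) (nat_lit 0) (XT.lf (nat_lit 0) (nat_lit 5291738591) (nat_lit 152) (nat_lit 5531557114) (nat_lit 0) (nat_lit 4252610122) (nat_lit 14) (nat_lit 5) (nat_lit 16) (nat_lit 4) (nat_lit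 14) (nat_lit 4) (nat_lit 284) (nat_lit 219) (nat_lit 217)) (XT.nd (nat_lit 78) (nat_lit 0) (nat_lit 0) (XT.lf (nat_lit 0) (nat_lit 570656129) (nat_lit 152) (nat_lit 8289960597) (nat_lit 152) (nat_lit 6768077902) (nat_lit 12) (nat_lit 4) (nat_lit 14) (nat_lit 5) (nat_lit 14) (nat_lit 4) (nat_lit 285) (nat_lit 219) (nat_lit 216)) (XT.lf (nat_lit 0) (nat_lit 6970050148) (nat_lit 152) (nat_lit 5611148616) (nat_lit 152) (nat_lit 3629499993) (nat_lit 12) (nat_lit 4) (nat_lit 14) (nat_lit 5) (nat_lit 14) (nat_lit 4) (nat_lit 286) (nat_lit 219) (nat_lit 215))))))))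
noncomputable def xc49 : XT := (XT.nd (nat_lit 1326) (nat_lit 228) (nat_lit 0) (XT.nd (nat_lit 624) (nat_lit 152) (nat_lit 0) (XT.nd (nat_lit 312) (nat_lit 152) (nat_lit 0) (XT.nd (nat_lit 156) (nat_lit 0) (nat_lit 0) (XT.nd (nat_lit 78) (nat_lit 152) (nat_lit 0) (XT.lf (nat_lit 0) (nat_lit 13498963336) (nat_lit 152) (nat_lit 2874161236) (nat_lit 152) (nat_lit 454640300) (nat_lit 12) (nat_lit 4) (nat_lit 14) (nat_lit 5) (nat_lit 14) (nat_lit 4) (nat_lit 287) (nat_lit 219) (nat_lit 214)) (XT.lf (nat_lit 0) (nat_lit 2718585766) (nat_lit 152) (nat_lit 14741352028) (nat_lit 0) (nat_lit 17117017) (nat_lit 10) (nat_lit 5) (nat_lit 12) (nat_lit 4) (nat_lit 10) (nat_lit 4) (nat_lit 288) (nat_lit 219) (nat_lit 213))) (XT.nd (nat_lit 78) (nat_lit 0) (nat_lit 0) (XT.lf (nat_lit 0) (nat_lit 6029689201) (nat_lit 152) (nat_lit 9179249290) (nat_lit 0) (nat_lit 2949969885) (nat_lit 10) (nat_lit 5)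 (nat_lit 12) (nat_lit 4) (nat_lit 10) (nat_lit 4) (nat_lit 289) (nat_lit 219) (nat_lit 212)) (XT.lf (nat_lit 0) (nat_lit 9401660684) (nat_lit 152) (nat_lit 3516912733) (nat_lit 0) (nat_lit 5961702733) (nat_lit 10) (nat_lit 5) (nat_lit 12) (nat_lit 4) (nat_lit 10) (nat_lit 4) (nat_lit 290) (nat_lit 219) (nat_lit 211)))) (XT.nd (nat_lit 156) (nat_lit 76) (nat_lit 0) (XT.nd (nat_lit 78) (nat_lit 0) (nat_lit 0) (XT.lf (nat_lit 0) (nat_lit 2333836747) (nat_lit 76) (nat_lit 10545129704) (nat_lit 76) (nat_lit 6762087339) (nat_lit 9) (nat_lit 4) (nat_lit 10) (nat_lit 5) (nat_lit 10) (nat_lit 4) (nat_lit 291) (nat_lit 219) (nat_lit 210)) (XT.lf (nat_lit 0) (nat_lit 8432553993) (nat_lit 76) (nat_lit 8059587655) (nat_lit 76) (nat_lit 3949798228) (nat_lit 9) (nat_lit 4) (nat_lit 10) (nat_lit 5) (nat_lit 10) (nat_lit 4) (nat_lit 292) (nat_lit 219) (nat_lit 209))) (XT.nd (nat_lit 78) (nat_lit 76)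 (nat_lit 0) (XT.lf (nat_lit 0) (nat_lit 14677474742) (nat_lit 76) (nat_lit 5515589933) (nat_lit 76) (nat_lit 1094612828) (nat_lit 9) (nat_lit 4) (nat_lit 10) (nat_lit 5) (nat_lit 10) (nat_lit 4) (nat_lit 293) (nat_lit 219) (nat_lit 208)) (XT.lf (nat_lit 0) (nat_lit 1752327075) (nat_lit 152) (nat_lit 1125075817) (nat_lit 76) (nat_lit 19301464271) (nat_lit 8) (nat_lit 5) (nat_lit 10) (nat_lit 5) (nat_lit 9) (nat_lit 4) (nat_lit 294) (nat_lit 219) (nat_lit 207))))) (XT.nd (nat_lit 312) (nat_lit 76) (nat_lit 0) (XT.nd (nat_lit 156) (nat_lit 0) (nat_lit 0) (XT.nd (nat_lit 78) (nat_lit 0) (nat_lit 0) (XT.lf (nat_lit 0) (nat_lit 4617190514) (nat_lit 76) (nat_lit 73928136) (nat_lit 152) (nat_lit 18423425562) (nat_lit 7) (nat_lit 5) (nat_lit 8) (nat_lit 5) (nat_lit 9) (nat_lit 4) (nat_lit 295) (nat_lit 219) (nat_lit 206)) (XT.lf (nat_lit 0) (nat_lit 7756105688) (nat_lit 152) (nat_lit 13603505236)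 (nat_lit 0) (nat_lit 2738564416) (nat_lit 7) (nat_lit 5) (nat_lit 9) (nat_lit 4) (nat_lit 7) (nat_lit 4) (nat_lit 296) (nat_lit 219) (nat_lit 205))) (XT.nd (nat_lit 78) (nat_lit 0) (nat_lit 0) (XT.lf (nat_lit 0) (nat_lit 10894683013) (nat_lit 152) (nat_lit 8607096601) (nat_lit 0) (nat_lit 5633318053) (nat_lit 7) (nat_lit 5) (nat_lit 9) (nat_lit 4) (nat_lit 7) (nat_lit 4) (nat_lit 297) (nat_lit 219) (nat_lit 204)) (XT.lf (nat_lit 0) (nat_lit 14113169203) (nat_lit 152) (nat_lit 3495077355) (nat_lit 0) (nat_lit 8619591207) (nat_lit 7) (nat_lit 5) (nat_lit 9) (nat_lit 4) (nat_lit 7) (nat_lit 4) (nat_lit 298) (nat_lit 219) (nat_lit 203)))) (XT.nd (nat_lit 156) (nat_lit 0) (nat_lit 0) (XT.nd (nat_lit 78) (nat_lit 0) (nat_lit 0) (XT.lf (nat_lit 0) (nat_lit 1802412429) (nat_lit 76) (nat_lit 15644955599) (nat_lit 76) (nat_lit 9930222330) (nat_lit 6) (nat_lit 4) (nat_lit 7) (nat_lit 5) (nat_lit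 7) (nat_lit 4) (nat_lit 299) (nat_lit 219) (nat_lit 202)) (XT.lf (nat_lit 0) (nat_lit 7360360614) (nat_lit 76) (nat_lit 13575284172) (nat_lit 76) (nat_lit 7649926834) (nat_lit 6) (nat_lit 4) (nat_lit 7) (nat_lit 5) (nat_lit 7) (nat_lit 4) (nat_lit 300) (nat_lit 219) (nat_lit 201))) (XT.nd (nat_lit 78) (nat_lit 0) (nat_lit 0) (XT.lf (nat_lit 0) (nat_lit 13076437368) (nat_lit 76) (nat_lit 11453495314) (nat_lit 76) (nat_lit 5327543624) (nat_lit 6) (nat_lit 4) (nat_lit 7) (nat_lit 5) (nat_lit 7) (nat_lit 4) (nat_lit 301) (nat_lit 219) (nat_lit 200)) (XT.nd (nat_lit 78) (nat_lit 0) (nat_lit 0) (XT.lf (nat_lit 0) (nat_lit 18964252396) (nat_lit 76) (nat_lit 9274537147) (nat_lit 76) (nat_lit 2957543217) (nat_lit 6) (nat_lit 4) (nat_lit 7) (nat_lit 5) (nat_lit 7) (nat_lit 4) (nat_lit 302) (nat_lit 219) (nat_lit 199)) (XT.lf (nat_lit 0) (nat_lit 25037824307) (nat_lit 76) (nat_lit 7033221675)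 (nat_lit 76) (nat_lit 534282755) (nat_lit 6) (nat_lit 4) (nat_lit 7) (nat_lit 5) (nat_lit 7) (nat_lit 4) (nat_lit 303) (nat_lit 219) (nat_lit 198))))))) (XT.nd (nat_lit 702) (nat_lit 76) (nat_lit 0) (XT.nd (nat_lit 312) (nat_lit 0) (nat_lit 0) (XT.nd (nat_lit 156) (nat_lit 0) (nat_lit 0) (XT.nd (nat_lit 78) (nat_lit 76) (nat_lit 0) (XT.lf (nat_lit 0) (nat_lit 1885659026) (nat_lit 152) (nat_lit 2806618857) (nat_lit 76) (nat_lit 29394020411) (nat_lit 5) (nat_lit 5) (nat_lit 7) (nat_lit 5) (nat_lit 6) (nat_lit 4) (nat_lit 304) (nat_lit 219) (nat_lit 197)) (XT.lf (nat_lit 0) (nat_lit 2151917311) (nat_lit 76) (nat_lit 2233042026) (nat_lit 152) (nat_lit 31257184877) (nat_lit 4) (nat_lit 5) (nat_lit 5) (nat_lit 5) (nat_lit 6) (nat_lit 4) (nat_lit 305) (nat_lit 219) (nat_lit 196))) (XT.nd (nat_lit 78) (nat_lit 0) (nat_lit 0) (XT.lf (nat_lit 0) (nat_lit 7006221621) (nat_lit 152) (nat_lit 29924919740)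 (nat_lit 0) (nat_lit 344868997) (nat_lit 4) (nat_lit 5) (nat_lit 6) (nat_lit 4) (nat_lit 4) (nat_lit 4) (nat_lit 306) (nat_lit 219) (nat_lit 195)) (XT.lf (nat_lit 0) (nat_lit 9741092366) (nat_lit 152) (nat_lit 26314243167) (nat_lit 0) (nat_lit 2937181081) (nat_lit 4) (nat_lit 5) (nat_lit 6) (nat_lit 4) (nat_lit 4) (nat_lit 4) (nat_lit 307) (nat_lit 219) (nat_lit 194)))) (XT.nd (nat_lit 156) (nat_lit 0) (nat_lit 0) (XT.nd (nat_lit 78) (nat_lit 0) (nat_lit 0) (XT.lf (nat_lit 0) (nat_lit 12561219124) (nat_lit 152) (nat_lit 22614736291) (nat_lit 0) (nat_lit 5621537686) (nat_lit 4) (nat_lit 5) (nat_lit 6) (nat_lit 4) (nat_lit 4) (nat_lit 4) (nat_lit 308) (nat_lit 219) (nat_lit 193)) (XT.lf (nat_lit 0) (nat_lit 15473316484) (nat_lit 152) (nat_lit 18817590762) (nat_lit 0) (nat_lit 8404330138) (nat_lit 4) (nat_lit 5) (nat_lit 6) (nat_lit 4) (nat_lit 4) (nat_lit 4) (nat_lit 309) (nat_lit 219)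 (nat_lit 192))) (XT.nd (nat_lit 78) (nat_lit 0) (nat_lit 0) (XT.lf (nat_lit 0) (nat_lit 18484318011) (nat_lit 152) (nat_lit 14913765759) (nat_lit 0) (nat_lit 11292184134) (nat_lit 4) (nat_lit 5) (nat_lit 6) (nat_lit 4) (nat_lit 4) (nat_lit 4) (nat_lit 310) (nat_lit 219) (nat_lit 191)) (XT.nd (nat_lit 78) (nat_lit 0) (nat_lit 0) (XT.lf (nat_lit 0) (nat_lit 21601392756) (nat_lit 152) (nat_lit 10893966459) (nat_lit 0) (nat_lit 14291975516) (nat_lit 4) (nat_lit 5) (nat_lit 6) (nat_lit 4) (nat_lit 4) (nat_lit 4) (nat_lit 311) (nat_lit 219) (nat_lit 190)) (XT.lf (nat_lit 0) (nat_lit 24831962325) (nat_lit 152) (nat_lit 6748621911) (nat_lit 0) (nat_lit 17410846644) (nat_lit 4) (nat_lit 5) (nat_lit 6) (nat_lit 4) (nat_lit 4) (nat_lit 4) (nat_lit 312) (nat_lit 219) (nat_lit 189)))))) (XT.nd (nat_lit 312) (nat_lit 0) (nat_lit 0) (XT.nd (nat_lit 156) (nat_lit 0) (nat_lit 0) (XT.nd (nat_lit 78)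 (nat_lit 76) (nat_lit 0) (XT.lf (nat_lit 0) (nat_lit 28183718551) (nat_lit 152) (nat_lit 2467862249) (nat_lit 0) (nat_lit 20656223403) (nat_lit 4) (nat_lit 5) (nat_lit 6) (nat_lit 4) (nat_lit 4) (nat_lit 4) (nat_lit 313) (nat_lit 219) (nat_lit 188)) (XT.lf (nat_lit 0) (nat_lit 2023261827) (nat_lit 76) (nat_lit 29672968766) (nat_lit 76) (nat_lit 22044159839) (nat_lit 3) (nat_lit 4) (nat_lit 4) (nat_lit 5) (nat_lit 4) (nat_lit 4) (nat_lit 314) (nat_lit 219) (nat_lit 187))) (XT.nd (nat_lit 78) (nat_lit 0) (nat_lit 0) (XT.lf (nat_lit 0) (nat_lit 6757293848) (nat_lit 76) (nat_lit 28631226448) (nat_lit 76) (nat_lit 20905928208) (nat_lit 3) (nat_lit 4) (nat_lit 4) (nat_lit 5) (nat_lit 4) (nat_lit 4) (nat_lit 315) (nat_lit 219) (nat_lit 186)) (XT.lf (nat_lit 0) (nat_lit 11663906647) (nat_lit 76) (nat_lit 27565667949) (nat_lit 76) (nat_lit 19748475125) (nat_lit 3) (nat_lit 4) (nat_lit 4) (nat_lit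 5) (nat_lit 4) (nat_lit 4) (nat_lit 316) (nat_lit 219) (nat_lit 185)))) (XT.nd (nat_lit 156) (nat_lit 0) (nat_lit 0) (XT.nd (nat_lit 78) (nat_lit 0) (nat_lit 0) (XT.lf (nat_lit 0) (nat_lit 16754782636) (nat_lit 76) (nat_lit 26473756224) (nat_lit 76) (nat_lit 18569044750) (nat_lit 3) (nat_lit 4) (nat_lit 4) (nat_lit 5) (nat_lit 4) (nat_lit 4) (nat_lit 317) (nat_lit 219) (nat_lit 184)) (XT.lf (nat_lit 0) (nat_lit 22042042948) (nat_lit 76) (nat_lit 25352891485) (nat_lit 76) (nat_lit 17364828914) (nat_lit 3) (nat_lit 4) (nat_lit 4) (nat_lit 5) (nat_lit 4) (nat_lit 4) (nat_lit 318) (nat_lit 219) (nat_lit 183))) (XT.nd (nat_lit 78) (nat_lit 0) (nat_lit 0) (XT.lf (nat_lit 0) (nat_lit 27538276299) (nat_lit 76) (nat_lit 24200405005) (nat_lit 76) (nat_lit 16132960437) (nat_lit 3) (nat_lit 4) (nat_lit 4) (nat_lit 5) (nat_lit 4) (nat_lit 4) (nat_lit 319) (nat_lit 219) (nat_lit 182)) (XT.nd (nat_lit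 78) (nat_lit 0) (nat_lit 0) (XT.lf (nat_lit 0) (nat_lit 33256568957) (nat_lit 76) (nat_lit 23013552768) (nat_lit 76) (nat_lit 14870506299) (nat_lit 3) (nat_lit 4) (nat_lit 4) (nat_lit 5) (nat_lit 4) (nat_lit 4) (nat_lit 320) (nat_lit 219) (nat_lit 181)) (XT.lf (nat_lit 0) (nat_lit 39210535905) (nat_lit 76) (nat_lit 21789508937) (nat_lit 76) (nat_lit 13574460657) (nat_lit 3) (nat_lit 4) (nat_lit 4) (nat_lit 5) (nat_lit 4) (nat_lit 4) (nat_lit 321) (nat_lit 219) (nat_lit 180))))))))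
noncomputable def xc50 : XT := (XT.nd (nat_lit 1326) (nat_lit 0) (nat_lit 0) (XT.nd (nat_lit 624) (nat_lit 152) (nat_lit 0) (XT.nd (nat_lit 312) (nat_lit 0) (nat_lit 0) (XT.nd (nat_lit 156) (nat_lit 0) (nat_lit 0) (XT.nd (nat_lit 78) (nat_lit 0) (nat_lit 0) (XT.lf (nat_lit 0) (nat_lit 45414353256) (nat_lit 76) (nat_lit 20525359122) (nat_lit 76) (nat_lit 12241737688) (nat_lit 3) (nat_lit 4) (nat_lit 4) (nat_lit 5) (nat_lit 4) (nat_lit 4) (nat_lit 322) (nat_lit 219) (nat_lit 179)) (XT.lf (nat_lit 0) (nat_lit 51882792002) (nat_lit 76) (nat_lit 19218093441) (nat_lit 76) (nat_lit 10869164242) (nat_lit 3) (nat_lit 4) (nat_lit 4) (nat_lit 5) (nat_lit 4) (nat_lit 4) (nat_lit 323) (nat_lit 219) (nat_lit 178))) (XT.nd (nat_lit 78) (nat_lit 0) (nat_lit 0) (XT.lf (nat_lit 0) (nat_lit 58631253189) (nat_lit 76) (nat_lit 17864599357) (nat_lit 76) (nat_lit 9453472287) (nat_lit 3) (nat_lit 4) (nat_lit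 4) (nat_lit 5) (nat_lit 4) (nat_lit 4) (nat_lit 324) (nat_lit 219) (nat_lit 177)) (XT.lf (nat_lit 0) (nat_lit 65675804582) (nat_lit 76) (nat_lit 16461654266) (nat_lit 76) (nat_lit 7991291128) (nat_lit 3) (nat_lit 4) (nat_lit 4) (nat_lit 5) (nat_lit 4) (nat_lit 4) (nat_lit 325) (nat_lit 219) (nat_lit 176)))) (XT.nd (nat_lit 156) (nat_lit 0) (nat_lit 0) (XT.nd (nat_lit 78) (nat_lit 0) (nat_lit 0) (XT.lf (nat_lit 0) (nat_lit 73033218921) (nat_lit 76) (nat_lit 15005917821) (nat_lit 76) (nat_lit 6479139381) (nat_lit 3) (nat_lit 4) (nat_lit 4) (nat_lit 5) (nat_lit 4) (nat_lit 4) (nat_lit 326) (nat_lit 219) (nat_lit 175)) (XT.lf (nat_lit 0) (nat_lit 80721013860) (nat_lit 76) (nat_lit 13493923985) (nat_lit 76) (nat_lit 4913416684) (nat_lit 3) (nat_lit 4) (nat_lit 4) (nat_lit 5) (nat_lit 4) (nat_lit 4) (nat_lit 327) (nat_lit 219) (nat_lit 174))) (XT.nd (nat_lit 78) (nat_lit 0) (nat_lit 0) (XT.lf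 (nat_lit 0) (nat_lit 88757493672) (nat_lit 76) (nat_lit 11922072771) (nat_lit 76) (nat_lit 3290395128) (nat_lit 3) (nat_lit 4) (nat_lit 4) (nat_lit 5) (nat_lit 4) (nat_lit 4) (nat_lit 328) (nat_lit 219) (nat_lit 173)) (XT.lf (nat_lit 0) (nat_lit 97161792834) (nat_lit 76) (nat_lit 10286621677) (nat_lit 76) (nat_lit 1606210373) (nat_lit 3) (nat_lit 4) (nat_lit 4) (nat_lit 5) (nat_lit 4) (nat_lit 4) (nat_lit 329) (nat_lit 219) (nat_lit 172))))) (XT.nd (nat_lit 312) (nat_lit 0) (nat_lit 0) (XT.nd (nat_lit 156) (nat_lit 76) (nat_lit 0) (XT.nd (nat_lit 78) (nat_lit 0) (nat_lit 0) (XT.lf (nat_lit 0) (nat_lit 138565926) (nat_lit 152) (nat_lit 8442764163) (nat_lit 76) (nat_lit 105813008974) (nat_lit 2) (nat_lit 5) (nat_lit 4) (nat_lit 5) (nat_lit 3) (nat_lit 4) (nat_lit 330) (nat_lit 219) (nat_lit 171)) (XT.lf (nat_lit 0) (nat_lit 1899052503) (nat_lit 152) (nat_lit 4877969545) (nat_lit 76) (nat_lit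 113223599677) (nat_lit 2) (nat_lit 5) (nat_lit 4) (nat_lit 5) (nat_lit 3) (nat_lit 4) (nat_lit 331) (nat_lit 219) (nat_lit 170))) (XT.nd (nat_lit 78) (nat_lit 76) (nat_lit 0) (XT.lf (nat_lit 0) (nat_lit 3730849756) (nat_lit 152) (nat_lit 1164883145) (nat_lit 76) (nat_lit 120992342134) (nat_lit 2) (nat_lit 5) (nat_lit 4) (nat_lit 5) (nat_lit 3) (nat_lit 4) (nat_lit 332) (nat_lit 219) (nat_lit 169)) (XT.lf (nat_lit 0) (nat_lit 2794786335) (nat_lit 76) (nat_lit 2887167217) (nat_lit 152) (nat_lit 126386581464) (nat_lit 1) (nat_lit 5) (nat_lit 2) (nat_lit 5) (nat_lit 3) (nat_lit 4) (nat_lit 333) (nat_lit 219) (nat_lit 168)))) (XT.nd (nat_lit 156) (nat_lit 0) (nat_lit 0) (XT.nd (nat_lit 78) (nat_lit 0) (nat_lit 0) (XT.lf (nat_lit 0) (nat_lit 6964819577) (nat_lit 76) (nat_lit 769922921) (nat_lit 152) (nat_lit 130823087896) (nat_lit 1) (nat_lit 5) (nat_lit 2) (nat_lit 5) (nat_lit 3) (nat_lit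 4) (nat_lit 334) (nat_lit 219) (nat_lit 167)) (XT.lf (nat_lit 0) (nat_lit 9897818687) (nat_lit 152) (nat_lit 134078225299) (nat_lit 0) (nat_lit 1395182160) (nat_lit 1) (nat_lit 5) (nat_lit 3) (nat_lit 4) (nat_lit 1) (nat_lit 4) (nat_lit 335) (nat_lit 219) (nat_lit 166))) (XT.nd (nat_lit 78) (nat_lit 0) (nat_lit 0) (XT.lf (nat_lit 0) (nat_lit 12167346112) (nat_lit 152) (nat_lit 136726323116) (nat_lit 0) (nat_lit 3631724725) (nat_lit 1) (nat_lit 5) (nat_lit 3) (nat_lit 4) (nat_lit 1) (nat_lit 4) (nat_lit 336) (nat_lit 219) (nat_lit 165)) (XT.nd (nat_lit 78) (nat_lit 0) (nat_lit 0) (XT.lf (nat_lit 0) (nat_lit 14536707754) (nat_lit 152) (nat_lit 139531588609) (nat_lit 0) (nat_lit 5969672216) (nat_lit 1) (nat_lit 5) (nat_lit 3) (nat_lit 4) (nat_lit 1) (nat_lit 4) (nat_lit 337) (nat_lit 219) (nat_lit 164)) (XT.lf (nat_lit 0) (nat_lit 17011544953) (nat_lit 152) (nat_lit 142500700982) (nat_lit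 0) (nat_lit 8414591175) (nat_lit 1) (nat_lit 5) (nat_lit 3) (nat_lit 4) (nat_lit 1) (nat_lit 4) (nat_lit 338) (nat_lit 219) (nat_lit 163))))))) (XT.nd (nat_lit 702) (nat_lit 0) (nat_lit 0) (XT.nd (nat_lit 312) (nat_lit 0) (nat_lit 0) (XT.nd (nat_lit 156) (nat_lit 0) (nat_lit 0) (XT.nd (nat_lit 78) (nat_lit 0) (nat_lit 0) (XT.lf (nat_lit 0) (nat_lit 19597750176) (nat_lit 152) (nat_lit 145640729550) (nat_lit 0) (nat_lit 10972302837) (nat_lit 1) (nat_lit 5) (nat_lit 3) (nat_lit 4) (nat_lit 1) (nat_lit 4) (nat_lit 339) (nat_lit 219) (nat_lit 162)) (XT.lf (nat_lit 0) (nat_lit 22301481057) (nat_lit 152) (nat_lit 148959150570) (nat_lit 0) (nat_lit 13648896992) (nat_lit 1) (nat_lit 5) (nat_lit 3) (nat_lit 4) (nat_lit 1) (nat_lit 4) (nat_lit 340) (nat_lit 219) (nat_lit 161))) (XT.nd (nat_lit 78) (nat_lit 0) (nat_lit 0) (XT.lf (nat_lit 0) (nat_lit 25129175048) (nat_lit 152) (nat_lit 152463865046)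 (nat_lit 0) (nat_lit 16450746483) (nat_lit 1) (nat_lit 5) (nat_lit 3) (nat_lit 4) (nat_lit 1) (nat_lit 4) (nat_lit 341) (nat_lit 219) (nat_lit 160)) (XT.lf (nat_lit 0) (nat_lit 28087564755) (nat_lit 152) (nat_lit 156163217536) (nat_lit 0) (nat_lit 19384522381) (nat_lit 1) (nat_lit 5) (nat_lit 3) (nat_lit 4) (nat_lit 1) (nat_lit 4) (nat_lit 342) (nat_lit 219) (nat_lit 159)))) (XT.nd (nat_lit 156) (nat_lit 0) (nat_lit 0) (XT.nd (nat_lit 78) (nat_lit 0) (nat_lit 0) (XT.lf (nat_lit 0) (nat_lit 31183693963) (nat_lit 152) (nat_lit 160066016023) (nat_lit 0) (nat_lit 22457209865) (nat_lit 1) (nat_lit 5) (nat_lit 3) (nat_lit 4) (nat_lit 1) (nat_lit 4) (nat_lit 343) (nat_lit 219) (nat_lit 158)) (XT.lf (nat_lit 0) (nat_lit 34424934408) (nat_lit 152) (nat_lit 164181552882) (nat_lit 0) (nat_lit 25676124859) (nat_lit 1) (nat_lit 5) (nat_lit 3) (nat_lit 4) (nat_lit 1) (nat_lit 4) (nat_lit 344) (nat_lit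 219) (nat_lit 157))) (XT.nd (nat_lit 78) (nat_lit 0) (nat_lit 0) (XT.lf (nat_lit 0) (nat_lit 37819003329) (nat_lit 152) (nat_lit 168519627012) (nat_lit 0) (nat_lit 29048931446) (nat_lit 1) (nat_lit 5) (nat_lit 3) (nat_lit 4) (nat_lit 1) (nat_lit 4) (nat_lit 345) (nat_lit 219) (nat_lit 156)) (XT.nd (nat_lit 78) (nat_lit 0) (nat_lit 0) (XT.lf (nat_lit 0) (nat_lit 41373981843) (nat_lit 152) (nat_lit 173090567161) (nat_lit 0) (nat_lit 32583660118) (nat_lit 1) (nat_lit 5) (nat_lit 3) (nat_lit 4) (nat_lit 1) (nat_lit 4) (nat_lit 346) (nat_lit 219) (nat_lit 155)) (XT.lf (nat_lit 0) (nat_lit 45098334185) (nat_lit 152) (nat_lit 177905256519) (nat_lit 0) (nat_lit 36288726895) (nat_lit 1) (nat_lit 5) (nat_lit 3) (nat_lit 4) (nat_lit 1) (nat_lit 4) (nat_lit 347) (nat_lit 219) (nat_lit 154)))))) (XT.nd (nat_lit 312) (nat_lit 0) (nat_lit 0) (XT.nd (nat_lit 156) (nat_lit 0) (nat_lit 0) (XT.nd (nat_lit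 78) (nat_lit 0) (nat_lit 0) (XT.lf (nat_lit 0) (nat_lit 49000927859) (nat_lit 152) (nat_lit 182975158633) (nat_lit 0) (nat_lit 40172953365) (nat_lit 1) (nat_lit 5) (nat_lit 3) (nat_lit 4) (nat_lit 1) (nat_lit 4) (nat_lit 348) (nat_lit 219) (nat_lit 153)) (XT.lf (nat_lit 0) (nat_lit 53091054756) (nat_lit 152) (nat_lit 188312344698) (nat_lit 0) (nat_lit 44245587687) (nat_lit 1) (nat_lit 5) (nat_lit 3) (nat_lit 4) (nat_lit 1) (nat_lit 4) (nat_lit 349) (nat_lit 219) (nat_lit 152))) (XT.nd (nat_lit 78) (nat_lit 0) (nat_lit 0) (XT.lf (nat_lit 0) (nat_lit 57378453272) (nat_lit 152) (nat_lit 193929522299) (nat_lit 0) (nat_lit 48516326608) (nat_lit 1) (nat_lit 5) (nat_lit 3) (nat_lit 4) (nat_lit 1) (nat_lit 4) (nat_lit 350) (nat_lit 219) (nat_lit 151)) (XT.lf (nat_lit 0) (nat_lit 61873331500) (nat_lit 152) (nat_lit 199840065670) (nat_lit 0) (nat_lit 52995338555) (nat_lit 1) (nat_lit 5) (nat_lit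 3) (nat_lit 4) (nat_lit 1) (nat_lit 4) (nat_lit 351) (nat_lit 219) (nat_lit 150)))) (XT.nd (nat_lit 156) (nat_lit 0) (nat_lit 0) (XT.nd (nat_lit 78) (nat_lit 0) (nat_lit 0) (XT.lf (nat_lit 0) (nat_lit 66586391531) (nat_lit 152) (nat_lit 206058047532) (nat_lit 0) (nat_lit 57693287842) (nat_lit 1) (nat_lit 5) (nat_lit 3) (nat_lit 4) (nat_lit 1) (nat_lit 4) (nat_lit 352) (nat_lit 219) (nat_lit 149)) (XT.lf (nat_lit 0) (nat_lit 71528854936) (nat_lit 152) (nat_lit 212598272605) (nat_lit 0) (nat_lit 62621360062) (nat_lit 1) (nat_lit 5) (nat_lit 3) (nat_lit 4) (nat_lit 1) (nat_lit 4) (nat_lit 353) (nat_lit 219) (nat_lit 148))) (XT.nd (nat_lit 78) (nat_lit 0) (nat_lit 0) (XT.lf (nat_lit 0) (nat_lit 76712489485) (nat_lit 152) (nat_lit 219476312853) (nat_lit 0) (nat_lit 67791288721) (nat_lit 1) (nat_lit 5) (nat_lit 3) (nat_lit 4) (nat_lit 1) (nat_lit 4) (nat_lit 354) (nat_lit 219) (nat_lit 147))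 (XT.nd (nat_lit 78) (nat_lit 0) (nat_lit 0) (XT.lf (nat_lit 0) (nat_lit 82149637166) (nat_lit 152) (nat_lit 226708544561) (nat_lit 0) (nat_lit 73215383172) (nat_lit 1) (nat_lit 5) (nat_lit 3) (nat_lit 4) (nat_lit 1) (nat_lit 4) (nat_lit 355) (nat_lit 219) (nat_lit 146)) (XT.lf (nat_lit 0) (nat_lit 87853243567) (nat_lit 152) (nat_lit 234312187330) (nat_lit 0) (nat_lit 78906557927) (nat_lit 1) (nat_lit 5) (nat_lit 3) (nat_lit 4) (nat_lit 1) (nat_lit 4) (nat_lit 356) (nat_lit 219) (nat_lit 145))))))))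
noncomputable def xc51 : XT := (XT.nd (nat_lit 32214) (nat_lit 0) (nat_lit 228) (XT.nd (nat_lit 31512) (nat_lit 0) (nat_lit 684) (XT.nd (nat_lit 312) (nat_lit 0) (nat_lit 0) (XT.nd (nat_lit 156) (nat_lit 0) (nat_lit 0) (XT.nd (nat_lit 78) (nat_lit 0) (nat_lit 0) (XT.lf (nat_lit 0) (nat_lit 93836888704) (nat_lit 152) (nat_lit 242305345071) (nat_lit 0) (nat_lit 84878363401) (nat_lit 1) (nat_lit 5) (nat_lit 3) (nat_lit 4) (nat_lit 1) (nat_lit 4) (nat_lit 357) (nat_lit 219) (nat_lit 144)) (XT.lf (nat_lit 0) (nat_lit 100114819352) (nat_lit 152) (nat_lit 250707049111) (nat_lit 0) (nat_lit 91145018179) (nat_lit 1) (nat_lit 5) (nat_lit 3) (nat_lit 4) (nat_lit 1) (nat_lit 4) (nat_lit 358) (nat_lit 219) (nat_lit 143))) (XT.nd (nat_lit 78) (nat_lit 0) (nat_lit 0) (XT.lf (nat_lit 0) (nat_lit 106701982963) (nat_lit 152) (nat_lit 259537303508) (nat_lit 0) (nat_lit 97721442867) (nat_lit 1) (nat_lit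 5) (nat_lit 3) (nat_lit 4) (nat_lit 1) (nat_lit 4) (nat_lit 359) (nat_lit 219) (nat_lit 142)) (XT.lf (nat_lit 0) (nat_lit 113614063262) (nat_lit 152) (nat_lit 268817132678) (nat_lit 0) (nat_lit 104623295619) (nat_lit 1) (nat_lit 5) (nat_lit 3) (nat_lit 4) (nat_lit 1) (nat_lit 4) (nat_lit 360) (nat_lit 219) (nat_lit 141)))) (XT.nd (nat_lit 156) (nat_lit 0) (nat_lit 0) (XT.nd (nat_lit 78) (nat_lit 0) (nat_lit 0) (XT.lf (nat_lit 0) (nat_lit 120867517582) (nat_lit 152) (nat_lit 278568631451) (nat_lit 0) (nat_lit 111867009419) (nat_lit 1) (nat_lit 5) (nat_lit 3) (nat_lit 4) (nat_lit 1) (nat_lit 4) (nat_lit 361) (nat_lit 219) (nat_lit 140)) (XT.lf (nat_lit 0) (nat_lit 128479616053) (nat_lit 152) (nat_lit 288815017681) (nat_lit 0) (nat_lit 119469831203) (nat_lit 1) (nat_lit 5) (nat_lit 3) (nat_lit 4) (nat_lit 1) (nat_lit 4) (nat_lit 362) (nat_lit 219) (nat_lit 139))) (XT.nd (nat_lit 78) (nat_lit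 0) (nat_lit 0) (XT.lf (nat_lit 0) (nat_lit 136468482717) (nat_lit 152) (nat_lit 299580687527) (nat_lit 0) (nat_lit 127449862929) (nat_lit 1) (nat_lit 5) (nat_lit 3) (nat_lit 4) (nat_lit 1) (nat_lit 4) (nat_lit 363) (nat_lit 219) (nat_lit 138)) (XT.lf (nat_lit 0) (nat_lit 144853138688) (nat_lit 152) (nat_lit 310891273536) (nat_lit 0) (nat_lit 135826104672) (nat_lit 1) (nat_lit 5) (nat_lit 3) (nat_lit 4) (nat_lit 1) (nat_lit 4) (nat_lit 364) (nat_lit 219) (nat_lit 137))))) (XT.nd (nat_lit 312) (nat_lit 304) (nat_lit 0) (XT.nd (nat_lit 156) (nat_lit 152) (nat_lit 0) (XT.nd (nat_lit 78) (nat_lit 152) (nat_lit 0) (XT.lf (nat_lit 0) (nat_lit 2715214471) (nat_lit 228) (nat_lit 1142142710) (nat_lit 0) (nat_lit 2715214471) (nat_lit 18) (nat_lit 5) (nat_lit 21) (nat_lit 4) (nat_lit 18) (nat_lit 4) (nat_lit 280) (nat_lit 220) (nat_lit 220)) (XT.lf (nat_lit 0) (nat_lit 4089172745) (nat_lit 152)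 (nat_lit 5044209695) (nat_lit 152) (nat_lit 4457418917) (nat_lit 16) (nat_lit 4) (nat_lit 18) (nat_lit 5) (nat_lit 18) (nat_lit 4) (nat_lit 281) (nat_lit 220) (nat_lit 219))) (XT.nd (nat_lit 78) (nat_lit 152) (nat_lit 0) (XT.lf (nat_lit 0) (nat_lit 10653814822) (nat_lit 152) (nat_lit 2277678259) (nat_lit 152) (nat_lit 1132039122) (nat_lit 16) (nat_lit 4) (nat_lit 18) (nat_lit 5) (nat_lit 18) (nat_lit 4) (nat_lit 282) (nat_lit 220) (nat_lit 218)) (XT.lf (nat_lit 0) (nat_lit 2213522762) (nat_lit 152) (nat_lit 11732780499) (nat_lit 0) (nat_lit 615545933) (nat_lit 14) (nat_lit 5) (nat_lit 16) (nat_lit 4) (nat_lit 14) (nat_lit 4) (nat_lit 283) (nat_lit 220) (nat_lit 217)))) (XT.nd (nat_lit 156) (nat_lit 152) (nat_lit 0) (XT.nd (nat_lit 78) (nat_lit 152) (nat_lit 0) (XT.lf (nat_lit 0) (nat_lit 5661187315) (nat_lit 152) (nat_lit 5844117964) (nat_lit 0) (nat_lit 3580456261) (nat_lit 14) (nat_lit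 5) (nat_lit 16) (nat_lit 4) (nat_lit 14) (nat_lit 4) (nat_lit 284) (nat_lit 220) (nat_lit 216)) (XT.lf (nat_lit 0) (nat_lit 150212772) (nat_lit 152) (nat_lit 9016070105) (nat_lit 152) (nat_lit 6475573123) (nat_lit 12) (nat_lit 4) (nat_lit 14) (nat_lit 5) (nat_lit 14) (nat_lit 4) (nat_lit 285) (nat_lit 220) (nat_lit 215))) (XT.nd (nat_lit 78) (nat_lit 152) (nat_lit 0) (XT.lf (nat_lit 0) (nat_lit 6456704093) (nat_lit 152) (nat_lit 6374216758) (nat_lit 152) (nat_lit 3395847463) (nat_lit 12) (nat_lit 4) (nat_lit 14) (nat_lit 5) (nat_lit 14) (nat_lit 4) (nat_lit 286) (nat_lit 220) (nat_lit 214)) (XT.nd (nat_lit 78) (nat_lit 152) (nat_lit 0) (XT.lf (nat_lit 0) (nat_lit 12897138520) (nat_lit 152) (nat_lit 3672428077) (nat_lit 152) (nat_lit 277037532) (nat_lit 12) (nat_lit 4) (nat_lit 14) (nat_lit 5) (nat_lit 14) (nat_lit 4) (nat_lit 287) (nat_lit 220) (nat_lit 213)) (XT.lf (nat_lit 0) (nat_lit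 2003026346) (nat_lit 76) (nat_lit 824085842) (nat_lit 152) (nat_lit 14671908702) (nat_lit 10) (nat_lit 5) (nat_lit 11) (nat_lit 5) (nat_lit 12) (nat_lit 4) (nat_lit 288) (nat_lit 220) (nat_lit 212))))))) (XT.nd (nat_lit 702) (nat_lit 228) (nat_lit 0) (XT.nd (nat_lit 312) (nat_lit 152) (nat_lit 0) (XT.nd (nat_lit 156) (nat_lit 76) (nat_lit 0) (XT.nd (nat_lit 78) (nat_lit 0) (nat_lit 0) (XT.lf (nat_lit 0) (nat_lit 6074282445) (nat_lit 152) (nat_lit 10007792014) (nat_lit 0) (nat_lit 2102087961) (nat_lit 10) (nat_lit 5) (nat_lit 12) (nat_lit 4) (nat_lit 10) (nat_lit 4) (nat_lit 289) (nat_lit 220) (nat_lit 211)) (XT.lf (nat_lit 0) (nat_lit 9397618795) (nat_lit 152) (nat_lit 4428090215) (nat_lit 0) (nat_lit 5082339897) (nat_lit 10) (nat_lit 5) (nat_lit 12) (nat_lit 4) (nat_lit 10) (nat_lit 4) (nat_lit 290) (nat_lit 220) (nat_lit 210))) (XT.nd (nat_lit 78) (nat_lit 0) (nat_lit 0) (XT.lf (nat_lit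 0) (nat_lit 1311229682) (nat_lit 76) (nat_lit 11501409944) (nat_lit 76) (nat_lit 6859383984) (nat_lit 9) (nat_lit 4) (nat_lit 10) (nat_lit 5) (nat_lit 10) (nat_lit 4) (nat_lit 291) (nat_lit 220) (nat_lit 209)) (XT.lf (nat_lit 0) (nat_lit 7332516509) (nat_lit 76) (nat_lit 9047975909) (nat_lit 76) (nat_lit 4094762271) (nat_lit 9) (nat_lit 4) (nat_lit 10) (nat_lit 5) (nat_lit 10) (nat_lit 4) (nat_lit 292) (nat_lit 220) (nat_lit 208)))) (XT.nd (nat_lit 156) (nat_lit 76) (nat_lit 0) (XT.nd (nat_lit 78) (nat_lit 76) (nat_lit 0) (XT.lf (nat_lit 0) (nat_lit 13503694001) (nat_lit 76) (nat_lit 6534557247) (nat_lit 76) (nat_lit 1284974392) (nat_lit 9) (nat_lit 4) (nat_lit 10) (nat_lit 5) (nat_lit 10) (nat_lit 4) (nat_lit 293) (nat_lit 220) (nat_lit 207)) (XT.lf (nat_lit 0) (nat_lit 1526206348) (nat_lit 152) (nat_lit 2403116237) (nat_lit 76) (nat_lit 18287402049) (nat_lit 8) (nat_lit 5) (nat_lit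 10) (nat_lit 5) (nat_lit 9) (nat_lit 4) (nat_lit 294) (nat_lit 220) (nat_lit 206))) (XT.nd (nat_lit 78) (nat_lit 0) (nat_lit 0) (XT.lf (nat_lit 0) (nat_lit 3226364873) (nat_lit 76) (nat_lit 1177059390) (nat_lit 152) (nat_lit 18752120992) (nat_lit 7) (nat_lit 5) (nat_lit 8) (nat_lit 5) (nat_lit 9) (nat_lit 4) (nat_lit 295) (nat_lit 220) (nat_lit 205)) (XT.nd (nat_lit 78) (nat_lit 0) (nat_lit 0) (XT.lf (nat_lit 0) (nat_lit 7411739062) (nat_lit 152) (nat_lit 15086850566) (nat_lit 0) (nat_lit 1643482166) (nat_lit 7) (nat_lit 5) (nat_lit 9) (nat_lit 4) (nat_lit 7) (nat_lit 4) (nat_lit 296) (nat_lit 220) (nat_lit 204)) (XT.lf (nat_lit 0) (nat_lit 10512745655) (nat_lit 152) (nat_lit 10155910136) (nat_lit 0) (nat_lit 4512275723) (nat_lit 7) (nat_lit 5) (nat_lit 9) (nat_lit 4) (nat_lit 7) (nat_lit 4) (nat_lit 297) (nat_lit 220) (nat_lit 203)))))) (XT.nd (nat_lit 312) (nat_lit 152) (nat_lit 0)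 (XT.nd (nat_lit 156) (nat_lit 0) (nat_lit 0) (XT.nd (nat_lit 78) (nat_lit 76) (nat_lit 0) (XT.lf (nat_lit 0) (nat_lit 13695450195) (nat_lit 152) (nat_lit 5106241561) (nat_lit 0) (nat_lit 7473824990) (nat_lit 7) (nat_lit 5) (nat_lit 9) (nat_lit 4) (nat_lit 7) (nat_lit 4) (nat_lit 298) (nat_lit 220) (nat_lit 202)) (XT.lf (nat_lit 0) (nat_lit 76630842) (nat_lit 76) (nat_lit 16891996130) (nat_lit 76) (nat_lit 10459746855) (nat_lit 6) (nat_lit 4) (nat_lit 7) (nat_lit 5) (nat_lit 7) (nat_lit 4) (nat_lit 299) (nat_lit 220) (nat_lit 201))) (XT.nd (nat_lit 78) (nat_lit 0) (nat_lit 0) (XT.lf (nat_lit 0) (nat_lit 5576155202) (nat_lit 76) (nat_lit 14847381357) (nat_lit 76) (nat_lit 8214537731) (nat_lit 6) (nat_lit 4) (nat_lit 7) (nat_lit 5) (nat_lit 7) (nat_lit 4) (nat_lit 300) (nat_lit 220) (nat_lit 200)) (XT.lf (nat_lit 0) (nat_lit 11236590217) (nat_lit 76) (nat_lit 12749455979) (nat_lit 76)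 (nat_lit 5925570113) (nat_lit 6) (nat_lit 4) (nat_lit 7) (nat_lit 5) (nat_lit 7) (nat_lit 4) (nat_lit 301) (nat_lit 220) (nat_lit 199)))) (XT.nd (nat_lit 156) (nat_lit 152) (nat_lit 0) (XT.nd (nat_lit 78) (nat_lit 0) (nat_lit 0) (XT.lf (nat_lit 0) (nat_lit 17071413115) (nat_lit 76) (nat_lit 10593224935) (nat_lit 76) (nat_lit 3587394079) (nat_lit 6) (nat_lit 4) (nat_lit 7) (nat_lit 5) (nat_lit 7) (nat_lit 4) (nat_lit 302) (nat_lit 220) (nat_lit 198)) (XT.lf (nat_lit 0) (nat_lit 23094516329) (nat_lit 76) (nat_lit 8373554342) (nat_lit 76) (nat_lit 1194442543) (nat_lit 6) (nat_lit 4) (nat_lit 7) (nat_lit 5) (nat_lit 7) (nat_lit 4) (nat_lit 303) (nat_lit 220) (nat_lit 197))) (XT.nd (nat_lit 78) (nat_lit 76) (nat_lit 0) (XT.lf (nat_lit 0) (nat_lit 1218686710) (nat_lit 152) (nat_lit 4845833511) (nat_lit 76) (nat_lit 28080914823) (nat_lit 5) (nat_lit 5) (nat_lit 7) (nat_lit 5) (nat_lit 6) (nat_lit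 4) (nat_lit 304) (nat_lit 220) (nat_lit 196)) (XT.nd (nat_lit 78) (nat_lit 76) (nat_lit 0) (XT.lf (nat_lit 0) (nat_lit 3657778358) (nat_lit 152) (nat_lit 2866556) (nat_lit 76) (nat_lit 32043684422) (nat_lit 5) (nat_lit 5) (nat_lit 7) (nat_lit 5) (nat_lit 6) (nat_lit 4) (nat_lit 305) (nat_lit 220) (nat_lit 195)) (XT.lf (nat_lit 0) (nat_lit 5156111208) (nat_lit 76) (nat_lit 1091259520) (nat_lit 152) (nat_lit 31092444380) (nat_lit 4) (nat_lit 5) (nat_lit 5) (nat_lit 5) (nat_lit 6) (nat_lit 4) (nat_lit 306) (nat_lit 220) (nat_lit 194))))))))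
noncomputable def xc52 : XT := (XT.nd (nat_lit 1326) (nat_lit 152) (nat_lit 0) (XT.nd (nat_lit 624) (nat_lit 76) (nat_lit 0) (XT.nd (nat_lit 312) (nat_lit 0) (nat_lit 0) (XT.nd (nat_lit 156) (nat_lit 0) (nat_lit 0) (XT.nd (nat_lit 78) (nat_lit 0) (nat_lit 0) (XT.lf (nat_lit 0) (nat_lit 8940087988) (nat_lit 152) (nat_lit 28600723135) (nat_lit 0) (nat_lit 1517652325) (nat_lit 4) (nat_lit 5) (nat_lit 6) (nat_lit 4) (nat_lit 4) (nat_lit 4) (nat_lit 307) (nat_lit 220) (nat_lit 193)) (XT.lf (nat_lit 0) (nat_lit 11736294875) (nat_lit 152) (nat_lit 24943819523) (nat_lit 0) (nat_lit 4184554305) (nat_lit 4) (nat_lit 5) (nat_lit 6) (nat_lit 4) (nat_lit 4) (nat_lit 4) (nat_lit 308) (nat_lit 220) (nat_lit 192))) (XT.nd (nat_lit 78) (nat_lit 0) (nat_lit 0) (XT.lf (nat_lit 0) (nat_lit 14625611406) (nat_lit 152) (nat_lit 21187248532) (nat_lit 0) (nat_lit 6950723304) (nat_lit 4) (nat_lit 5) (nat_lit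 6) (nat_lit 4) (nat_lit 4) (nat_lit 4) (nat_lit 309) (nat_lit 220) (nat_lit 191)) (XT.lf (nat_lit 0) (nat_lit 17614916904) (nat_lit 152) (nat_lit 17322065945) (nat_lit 0) (nat_lit 9822745439) (nat_lit 4) (nat_lit 5) (nat_lit 6) (nat_lit 4) (nat_lit 4) (nat_lit 4) (nat_lit 310) (nat_lit 220) (nat_lit 190)))) (XT.nd (nat_lit 156) (nat_lit 0) (nat_lit 0) (XT.nd (nat_lit 78) (nat_lit 0) (nat_lit 0) (XT.lf (nat_lit 0) (nat_lit 20711328764) (nat_lit 152) (nat_lit 13339068946) (nat_lit 0) (nat_lit 12807458859) (nat_lit 4) (nat_lit 5) (nat_lit 6) (nat_lit 4) (nat_lit 4) (nat_lit 4) (nat_lit 311) (nat_lit 220) (nat_lit 189)) (XT.lf (nat_lit 0) (nat_lit 23922219396) (nat_lit 152) (nat_lit 9228774210) (nat_lit 0) (nat_lit 15911970023) (nat_lit 4) (nat_lit 5) (nat_lit 6) (nat_lit 4) (nat_lit 4) (nat_lit 4) (nat_lit 312) (nat_lit 220) (nat_lit 188))) (XT.nd (nat_lit 78) (nat_lit 0) (nat_lit 0) (XT.lf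 (nat_lit 0) (nat_lit 27255233777) (nat_lit 152) (nat_lit 4981395320) (nat_lit 0) (nat_lit 19143670625) (nat_lit 4) (nat_lit 5) (nat_lit 6) (nat_lit 4) (nat_lit 4) (nat_lit 4) (nat_lit 313) (nat_lit 220) (nat_lit 187)) (XT.lf (nat_lit 0) (nat_lit 30718307656) (nat_lit 152) (nat_lit 586819469) (nat_lit 0) (nat_lit 22510255191) (nat_lit 4) (nat_lit 5) (nat_lit 6) (nat_lit 4) (nat_lit 4) (nat_lit 4) (nat_lit 314) (nat_lit 220) (nat_lit 186))))) (XT.nd (nat_lit 312) (nat_lit 0) (nat_lit 0) (XT.nd (nat_lit 156) (nat_lit 0) (nat_lit 0) (XT.nd (nat_lit 78) (nat_lit 0) (nat_lit 0) (XT.lf (nat_lit 0) (nat_lit 4096531200) (nat_lit 76) (nat_lit 30287113578) (nat_lit 76) (nat_lit 21987166530) (nat_lit 3) (nat_lit 4) (nat_lit 4) (nat_lit 5) (nat_lit 4) (nat_lit 4) (nat_lit 315) (nat_lit 220) (nat_lit 185)) (XT.lf (nat_lit 0) (nat_lit 8973354999) (nat_lit 76) (nat_lit 29234689079) (nat_lit 76) (nat_lit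 20847223379) (nat_lit 3) (nat_lit 4) (nat_lit 4) (nat_lit 5) (nat_lit 4) (nat_lit 4) (nat_lit 316) (nat_lit 220) (nat_lit 184))) (XT.nd (nat_lit 78) (nat_lit 0) (nat_lit 0) (XT.lf (nat_lit 0) (nat_lit 14035860512) (nat_lit 76) (nat_lit 28155285926) (nat_lit 76) (nat_lit 19684469129) (nat_lit 3) (nat_lit 4) (nat_lit 4) (nat_lit 5) (nat_lit 4) (nat_lit 4) (nat_lit 317) (nat_lit 220) (nat_lit 183)) (XT.lf (nat_lit 0) (nat_lit 19296101323) (nat_lit 76) (nat_lit 27046334111) (nat_lit 76) (nat_lit 18496135318) (nat_lit 3) (nat_lit 4) (nat_lit 4) (nat_lit 5) (nat_lit 4) (nat_lit 4) (nat_lit 318) (nat_lit 220) (nat_lit 182)))) (XT.nd (nat_lit 156) (nat_lit 0) (nat_lit 0) (XT.nd (nat_lit 78) (nat_lit 0) (nat_lit 0) (XT.lf (nat_lit 0) (nat_lit 24766601814) (nat_lit 76) (nat_lit 25905193274) (nat_lit 76) (nat_lit 17279392580) (nat_lit 3) (nat_lit 4) (nat_lit 4) (nat_lit 5) (nat_lit 4) (nat_lit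 4) (nat_lit 319) (nat_lit 220) (nat_lit 181)) (XT.lf (nat_lit 0) (nat_lit 30460386988) (nat_lit 76) (nat_lit 24729146412) (nat_lit 76) (nat_lit 16031343907) (nat_lit 3) (nat_lit 4) (nat_lit 4) (nat_lit 5) (nat_lit 4) (nat_lit 4) (nat_lit 320) (nat_lit 220) (nat_lit 180))) (XT.nd (nat_lit 78) (nat_lit 0) (nat_lit 0) (XT.lf (nat_lit 0) (nat_lit 36391013476) (nat_lit 76) (nat_lit 23515393413) (nat_lit 76) (nat_lit 14749017755) (nat_lit 3) (nat_lit 4) (nat_lit 4) (nat_lit 5) (nat_lit 4) (nat_lit 4) (nat_lit 321) (nat_lit 220) (nat_lit 179)) (XT.nd (nat_lit 78) (nat_lit 0) (nat_lit 0) (XT.lf (nat_lit 0) (nat_lit 42572601816) (nat_lit 76) (nat_lit 22261044391) (nat_lit 76) (nat_lit 13429360967) (nat_lit 3) (nat_lit 4) (nat_lit 4) (nat_lit 5) (nat_lit 4) (nat_lit 4) (nat_lit 322) (nat_lit 220) (nat_lit 178)) (XT.lf (nat_lit 0) (nat_lit 49019870076) (nat_lit 76) (nat_lit 20963112798) (nat_lit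 76) (nat_lit 12069231503) (nat_lit 3) (nat_lit 4) (nat_lit 4) (nat_lit 5) (nat_lit 4) (nat_lit 4) (nat_lit 323) (nat_lit 220) (nat_lit 177))))))) (XT.nd (nat_lit 702) (nat_lit 76) (nat_lit 0) (XT.nd (nat_lit 312) (nat_lit 76) (nat_lit 0) (XT.nd (nat_lit 156) (nat_lit 0) (nat_lit 0) (XT.nd (nat_lit 78) (nat_lit 0) (nat_lit 0) (XT.lf (nat_lit 0) (nat_lit 55748168895) (nat_lit 76) (nat_lit 19618508322) (nat_lit 76) (nat_lit 10665390960) (nat_lit 3) (nat_lit 4) (nat_lit 4) (nat_lit 5) (nat_lit 4) (nat_lit 4) (nat_lit 324) (nat_lit 220) (nat_lit 176)) (XT.lf (nat_lit 0) (nat_lit 62773518033) (nat_lit 76) (nat_lit 18224029525) (nat_lit 76) (nat_lit 9214496859) (nat_lit 3) (nat_lit 4) (nat_lit 4) (nat_lit 5) (nat_lit 4) (nat_lit 4) (nat_lit 325) (nat_lit 220) (nat_lit 175))) (XT.nd (nat_lit 78) (nat_lit 0) (nat_lit 0) (XT.lf (nat_lit 0) (nat_lit 70112644510) (nat_lit 76) (nat_lit 16776356217)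 (nat_lit 76) (nat_lit 7713094691) (nat_lit 3) (nat_lit 4) (nat_lit 4) (nat_lit 5) (nat_lit 4) (nat_lit 4) (nat_lit 326) (nat_lit 220) (nat_lit 174)) (XT.lf (nat_lit 0) (nat_lit 77783022437) (nat_lit 76) (nat_lit 15272041558) (nat_lit 76) (nat_lit 6157609690) (nat_lit 3) (nat_lit 4) (nat_lit 4) (nat_lit 5) (nat_lit 4) (nat_lit 4) (nat_lit 327) (nat_lit 220) (nat_lit 173)))) (XT.nd (nat_lit 156) (nat_lit 76) (nat_lit 0) (XT.nd (nat_lit 78) (nat_lit 0) (nat_lit 0) (XT.lf (nat_lit 0) (nat_lit 85802914620) (nat_lit 76) (nat_lit 13707503847) (nat_lit 76) (nat_lit 4544338319) (nat_lit 3) (nat_lit 4) (nat_lit 4) (nat_lit 5) (nat_lit 4) (nat_lit 4) (nat_lit 328) (nat_lit 220) (nat_lit 172)) (XT.lf (nat_lit 0) (nat_lit 94191416039) (nat_lit 76) (nat_lit 12079017993) (nat_lit 76) (nat_lit 2869439455) (nat_lit 3) (nat_lit 4) (nat_lit 4) (nat_lit 5) (nat_lit 4) (nat_lit 4) (nat_lit 329) (nat_lit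 220) (nat_lit 171))) (XT.nd (nat_lit 78) (nat_lit 76) (nat_lit 0) (XT.lf (nat_lit 0) (nat_lit 102968499316) (nat_lit 76) (nat_lit 10382706649) (nat_lit 76) (nat_lit 1128925246) (nat_lit 3) (nat_lit 4) (nat_lit 4) (nat_lit 5) (nat_lit 4) (nat_lit 4) (nat_lit 330) (nat_lit 220) (nat_lit 170)) (XT.nd (nat_lit 78) (nat_lit 0) (nat_lit 0) (XT.lf (nat_lit 0) (nat_lit 659540987) (nat_lit 152) (nat_lit 7943820346) (nat_lit 76) (nat_lit 111484351637) (nat_lit 2) (nat_lit 5) (nat_lit 4) (nat_lit 5) (nat_lit 3) (nat_lit 4) (nat_lit 331) (nat_lit 220) (nat_lit 169)) (XT.lf (nat_lit 0) (nat_lit 2483573476) (nat_lit 152) (nat_lit 4244647046) (nat_lit 76) (nat_lit 119247343674) (nat_lit 2) (nat_lit 5) (nat_lit 4) (nat_lit 5) (nat_lit 3) (nat_lit 4) (nat_lit 332) (nat_lit 220) (nat_lit 168)))))) (XT.nd (nat_lit 312) (nat_lit 0) (nat_lit 0) (XT.nd (nat_lit 156) (nat_lit 0) (nat_lit 0) (XT.nd (nat_lit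 78) (nat_lit 76) (nat_lit 0) (XT.lf (nat_lit 0) (nat_lit 4383647813) (nat_lit 152) (nat_lit 387678753) (nat_lit 76) (nat_lit 127387258302) (nat_lit 2) (nat_lit 5) (nat_lit 4) (nat_lit 5) (nat_lit 3) (nat_lit 4) (nat_lit 333) (nat_lit 220) (nat_lit 167)) (XT.lf (nat_lit 0) (nat_lit 3756499224) (nat_lit 76) (nat_lit 2666438240) (nat_lit 152) (nat_lit 132225626524) (nat_lit 1) (nat_lit 5) (nat_lit 2) (nat_lit 5) (nat_lit 3) (nat_lit 4) (nat_lit 334) (nat_lit 220) (nat_lit 166))) (XT.nd (nat_lit 78) (nat_lit 0) (nat_lit 0) (XT.lf (nat_lit 0) (nat_lit 8095892530) (nat_lit 76) (nat_lit 460716840) (nat_lit 152) (nat_lit 136906828945) (nat_lit 1) (nat_lit 5) (nat_lit 2) (nat_lit 5) (nat_lit 3) (nat_lit 4) (nat_lit 335) (nat_lit 220) (nat_lit 165)) (XT.lf (nat_lit 0) (nat_lit 10812289005) (nat_lit 152) (nat_lit 140020529929) (nat_lit 0) (nat_lit 1785487539) (nat_lit 1) (nat_lit 5) (nat_lit 3)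 (nat_lit 4) (nat_lit 1) (nat_lit 4) (nat_lit 336) (nat_lit 220) (nat_lit 164)))) (XT.nd (nat_lit 156) (nat_lit 0) (nat_lit 0) (XT.nd (nat_lit 78) (nat_lit 0) (nat_lit 0) (XT.lf (nat_lit 0) (nat_lit 13175312830) (nat_lit 152) (nat_lit 142837299620) (nat_lit 0) (nat_lit 4118593124) (nat_lit 1) (nat_lit 5) (nat_lit 3) (nat_lit 4) (nat_lit 1) (nat_lit 4) (nat_lit 337) (nat_lit 220) (nat_lit 163)) (XT.lf (nat_lit 0) (nat_lit 15644114012) (nat_lit 152) (nat_lit 145817368371) (nat_lit 0) (nat_lit 6558900744) (nat_lit 1) (nat_lit 5) (nat_lit 3) (nat_lit 4) (nat_lit 1) (nat_lit 4) (nat_lit 338) (nat_lit 220) (nat_lit 162))) (XT.nd (nat_lit 78) (nat_lit 0) (nat_lit 0) (XT.lf (nat_lit 0) (nat_lit 18224570648) (nat_lit 152) (nat_lit 148967831585) (nat_lit 0) (nat_lit 9112220655) (nat_lit 1) (nat_lit 5) (nat_lit 3) (nat_lit 4) (nat_lit 1) (nat_lit 4) (nat_lit 339) (nat_lit 220) (nat_lit 161)) (XT.nd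 (nat_lit 78) (nat_lit 0) (nat_lit 0) (XT.lf (nat_lit 0) (nat_lit 20922826683) (nat_lit 152) (nat_lit 152296190364) (nat_lit 0) (nat_lit 11784632189) (nat_lit 1) (nat_lit 5) (nat_lit 3) (nat_lit 4) (nat_lit 1) (nat_lit 4) (nat_lit 340) (nat_lit 220) (nat_lit 160)) (XT.lf (nat_lit 0) (nat_lit 23745306536) (nat_lit 152) (nat_lit 155810369372) (nat_lit 0) (nat_lit 14582498233) (nat_lit 1) (nat_lit 5) (nat_lit 3) (nat_lit 4) (nat_lit 1) (nat_lit 4) (nat_lit 341) (nat_lit 220) (nat_lit 159))))))))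
noncomputable def xc53 : XT := (XT.nd (nat_lit 1326) (nat_lit 0) (nat_lit 0) (XT.nd (nat_lit 624) (nat_lit 0) (nat_lit 0) (XT.nd (nat_lit 312) (nat_lit 0) (nat_lit 0) (XT.nd (nat_lit 156) (nat_lit 0) (nat_lit 0) (XT.nd (nat_lit 78) (nat_lit 0) (nat_lit 0) (XT.lf (nat_lit 0) (nat_lit 26698730397) (nat_lit 152) (nat_lit 159518735702) (nat_lit 0) (nat_lit 17512480370) (nat_lit 1) (nat_lit 5) (nat_lit 3) (nat_lit 4) (nat_lit 1) (nat_lit 4) (nat_lit 342) (nat_lit 220) (nat_lit 158)) (XT.lf (nat_lit 0) (nat_lit 29790130227) (nat_lit 152) (nat_lit 163430118797) (nat_lit 0) (nat_lit 20581554750) (nat_lit 1) (nat_lit 5) (nat_lit 3) (nat_lit 4) (nat_lit 1) (nat_lit 4) (nat_lit 343) (nat_lit 220) (nat_lit 157))) (XT.nd (nat_lit 78) (nat_lit 0) (nat_lit 0) (XT.lf (nat_lit 0) (nat_lit 33026866504) (nat_lit 152) (nat_lit 167553831475) (nat_lit 0) (nat_lit 23797028692) (nat_lit 1) (nat_lit 5) (nat_lit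 3) (nat_lit 4) (nat_lit 1) (nat_lit 4) (nat_lit 344) (nat_lit 220) (nat_lit 156)) (XT.lf (nat_lit 0) (nat_lit 36416645740) (nat_lit 152) (nat_lit 171899692099) (nat_lit 0) (nat_lit 27166558086) (nat_lit 1) (nat_lit 5) (nat_lit 3) (nat_lit 4) (nat_lit 1) (nat_lit 4) (nat_lit 345) (nat_lit 220) (nat_lit 155)))) (XT.nd (nat_lit 156) (nat_lit 0) (nat_lit 0) (XT.nd (nat_lit 78) (nat_lit 0) (nat_lit 0) (XT.lf (nat_lit 0) (nat_lit 39967538841) (nat_lit 152) (nat_lit 176478047956) (nat_lit 0) (nat_lit 30698165622) (nat_lit 1) (nat_lit 5) (nat_lit 3) (nat_lit 4) (nat_lit 1) (nat_lit 4) (nat_lit 346) (nat_lit 220) (nat_lit 154)) (XT.lf (nat_lit 0) (nat_lit 43688000311) (nat_lit 152) (nat_lit 181299799893) (nat_lit 0) (nat_lit 34400259889) (nat_lit 1) (nat_lit 5) (nat_lit 3) (nat_lit 4) (nat_lit 1) (nat_lit 4) (nat_lit 347) (nat_lit 220) (nat_lit 153))) (XT.nd (nat_lit 78) (nat_lit 0) (nat_lit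 0) (XT.lf (nat_lit 0) (nat_lit 47586888395) (nat_lit 152) (nat_lit 186376428273) (nat_lit 0) (nat_lit 38281655398) (nat_lit 1) (nat_lit 5) (nat_lit 3) (nat_lit 4) (nat_lit 1) (nat_lit 4) (nat_lit 348) (nat_lit 220) (nat_lit 152)) (XT.lf (nat_lit 0) (nat_lit 51673486157) (nat_lit 152) (nat_lit 191720020305) (nat_lit 0) (nat_lit 42351593565) (nat_lit 1) (nat_lit 5) (nat_lit 3) (nat_lit 4) (nat_lit 1) (nat_lit 4) (nat_lit 349) (nat_lit 220) (nat_lit 151))))) (XT.nd (nat_lit 312) (nat_lit 0) (nat_lit 0) (XT.nd (nat_lit 156) (nat_lit 0) (nat_lit 0) (XT.nd (nat_lit 78) (nat_lit 0) (nat_lit 0) (XT.lf (nat_lit 0) (nat_lit 55957523594) (nat_lit 152) (nat_lit 197343298828) (nat_lit 0) (nat_lit 46619764720) (nat_lit 1) (nat_lit 5) (nat_lit 3) (nat_lit 4) (nat_lit 1) (nat_lit 4) (nat_lit 350) (nat_lit 220) (nat_lit 150)) (XT.lf (nat_lit 0) (nat_lit 60449200793) (nat_lit 152) (nat_lit 203259652601)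 (nat_lit 0) (nat_lit 51096331176) (nat_lit 1) (nat_lit 5) (nat_lit 3) (nat_lit 4) (nat_lit 1) (nat_lit 4) (nat_lit 351) (nat_lit 220) (nat_lit 149))) (XT.nd (nat_lit 78) (nat_lit 0) (nat_lit 0) (XT.lf (nat_lit 0) (nat_lit 65159212225) (nat_lit 152) (nat_lit 209483168179) (nat_lit 0) (nat_lit 55791951423) (nat_lit 1) (nat_lit 5) (nat_lit 3) (nat_lit 4) (nat_lit 1) (nat_lit 4) (nat_lit 352) (nat_lit 220) (nat_lit 148)) (XT.lf (nat_lit 0) (nat_lit 70098772203) (nat_lit 152) (nat_lit 216028663457) (nat_lit 0) (nat_lit 60717805510) (nat_lit 1) (nat_lit 5) (nat_lit 3) (nat_lit 4) (nat_lit 1) (nat_lit 4) (nat_lit 353) (nat_lit 220) (nat_lit 147)))) (XT.nd (nat_lit 156) (nat_lit 0) (nat_lit 0) (XT.nd (nat_lit 78) (nat_lit 0) (nat_lit 0) (XT.lf (nat_lit 0) (nat_lit 75279641583) (nat_lit 152) (nat_lit 222911722948) (nat_lit 0) (nat_lit 65885621662) (nat_lit 1) (nat_lit 5) (nat_lit 3) (nat_lit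 4) (nat_lit 1) (nat_lit 4) (nat_lit 354) (nat_lit 220) (nat_lit 146)) (XT.lf (nat_lit 0) (nat_lit 80714155769) (nat_lit 152) (nat_lit 230148734888) (nat_lit 0) (nat_lit 71307704201) (nat_lit 1) (nat_lit 5) (nat_lit 3) (nat_lit 4) (nat_lit 1) (nat_lit 4) (nat_lit 355) (nat_lit 220) (nat_lit 145))) (XT.nd (nat_lit 78) (nat_lit 0) (nat_lit 0) (XT.lf (nat_lit 0) (nat_lit 86415254081) (nat_lit 152) (nat_lit 237756930258) (nat_lit 0) (nat_lit 76996962849) (nat_lit 1) (nat_lit 5) (nat_lit 3) (nat_lit 4) (nat_lit 1) (nat_lit 4) (nat_lit 356) (nat_lit 220) (nat_lit 144)) (XT.nd (nat_lit 78) (nat_lit 0) (nat_lit 0) (XT.lf (nat_lit 0) (nat_lit 92396510561) (nat_lit 152) (nat_lit 245754423810) (nat_lit 0) (nat_lit 82966943460) (nat_lit 1) (nat_lit 5) (nat_lit 3) (nat_lit 4) (nat_lit 1) (nat_lit 4) (nat_lit 357) (nat_lit 220) (nat_lit 143)) (XT.lf (nat_lit 0) (nat_lit 98672166298) (nat_lit 152)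 (nat_lit 254160257194) (nat_lit 0) (nat_lit 89231860272) (nat_lit 1) (nat_lit 5) (nat_lit 3) (nat_lit 4) (nat_lit 1) (nat_lit 4) (nat_lit 358) (nat_lit 220) (nat_lit 142))))))) (XT.nd (nat_lit 31434) (nat_lit 0) (nat_lit 684) (XT.nd (nat_lit 312) (nat_lit 0) (nat_lit 0) (XT.nd (nat_lit 156) (nat_lit 0) (nat_lit 0) (XT.nd (nat_lit 78) (nat_lit 0) (nat_lit 0) (XT.lf (nat_lit 0) (nat_lit 105257163327) (nat_lit 152) (nat_lit 262994444300) (nat_lit 0) (nat_lit 95806629756) (nat_lit 1) (nat_lit 5) (nat_lit 3) (nat_lit 4) (nat_lit 1) (nat_lit 4) (nat_lit 359) (nat_lit 220) (nat_lit 141)) (XT.lf (nat_lit 0) (nat_lit 112167180214) (nat_lit 152) (nat_lit 272278018906) (nat_lit 0) (nat_lit 102706906123) (nat_lit 1) (nat_lit 5) (nat_lit 3) (nat_lit 4) (nat_lit 1) (nat_lit 4) (nat_lit 360) (nat_lit 220) (nat_lit 140))) (XT.nd (nat_lit 78) (nat_lit 0) (nat_lit 0) (XT.lf (nat_lit 0) (nat_lit 119418669380)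 (nat_lit 152) (nat_lit 282033084761) (nat_lit 0) (nat_lit 109949118603) (nat_lit 1) (nat_lit 5) (nat_lit 3) (nat_lit 4) (nat_lit 1) (nat_lit 4) (nat_lit 361) (nat_lit 220) (nat_lit 139)) (XT.lf (nat_lit 0) (nat_lit 127028896276) (nat_lit 152) (nat_lit 292282868213) (nat_lit 0) (nat_lit 117550510559) (nat_lit 1) (nat_lit 5) (nat_lit 3) (nat_lit 4) (nat_lit 1) (nat_lit 4) (nat_lit 362) (nat_lit 220) (nat_lit 138)))) (XT.nd (nat_lit 30888) (nat_lit 0) (nat_lit 1292) (XT.nd (nat_lit 78) (nat_lit 0) (nat_lit 0) (XT.lf (nat_lit 0) (nat_lit 135015980488) (nat_lit 152) (nat_lit 303051773508) (nat_lit 0) (nat_lit 125529180543) (nat_lit 1) (nat_lit 5) (nat_lit 3) (nat_lit 4) (nat_lit 1) (nat_lit 4) (nat_lit 363) (nat_lit 220) (nat_lit 137)) (XT.lf (nat_lit 0) (nat_lit 143398938884) (nat_lit 152) (nat_lit 314365440897) (nat_lit 0) (nat_lit 133904125390) (nat_lit 1) (nat_lit 5) (nat_lit 3) (nat_lit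 4) (nat_lit 1) (nat_lit 4) (nat_lit 364) (nat_lit 220) (nat_lit 136))) (XT.nd (nat_lit 78) (nat_lit 228) (nat_lit 0) (XT.lf (nat_lit 0) (nat_lit 5149125668) (nat_lit 152) (nat_lit 506307138) (nat_lit 152) (nat_lit 506307138) (nat_lit 21) (nat_lit 4) (nat_lit 23) (nat_lit 5) (nat_lit 23) (nat_lit 4) (nat_lit 278) (nat_lit 221) (nat_lit 221)) (XT.nd (nat_lit 78) (nat_lit 0) (nat_lit 0) (XT.lf (nat_lit 0) (nat_lit 2455292795) (nat_lit 228) (nat_lit 8429774370) (nat_lit 0) (nat_lit 1839162478) (nat_lit 18) (nat_lit 5) (nat_lit 21) (nat_lit 4) (nat_lit 18) (nat_lit 4) (nat_lit 279) (nat_lit 221) (nat_lit 220)) (XT.lf (nat_lit 0) (nat_lit 5982305729) (nat_lit 228) (nat_lit 2386814345) (nat_lit 0) (nat_lit 4779384635) (nat_lit 18) (nat_lit 5) (nat_lit 21) (nat_lit 4) (nat_lit 18) (nat_lit 4) (nat_lit 280) (nat_lit 221) (nat_lit 219)))))) (XT.nd (nat_lit 312) (nat_lit 304) (nat_lit 0) (XT.nd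 (nat_lit 156) (nat_lit 152) (nat_lit 0) (XT.nd (nat_lit 78) (nat_lit 0) (nat_lit 0) (XT.lf (nat_lit 0) (nat_lit 3882378517) (nat_lit 152) (nat_lit 5738458231) (nat_lit 152) (nat_lit 3976688778) (nat_lit 16) (nat_lit 4) (nat_lit 18) (nat_lit 5) (nat_lit 18) (nat_lit 4) (nat_lit 281) (nat_lit 221) (nat_lit 218)) (XT.lf (nat_lit 0) (nat_lit 10350948944) (nat_lit 152) (nat_lit 3008218652) (nat_lit 152) (nat_lit 714212665) (nat_lit 16) (nat_lit 4) (nat_lit 18) (nat_lit 5) (nat_lit 18) (nat_lit 4) (nat_lit 282) (nat_lit 221) (nat_lit 217))) (XT.nd (nat_lit 78) (nat_lit 0) (nat_lit 0) (XT.lf (nat_lit 0) (nat_lit 2413071107) (nat_lit 76) (nat_lit 130328419) (nat_lit 152) (nat_lit 12031822742) (nat_lit 14) (nat_lit 5) (nat_lit 15) (nat_lit 5) (nat_lit 16) (nat_lit 4) (nat_lit 283) (nat_lit 221) (nat_lit 216)) (XT.lf (nat_lit 0) (nat_lit 5931811015) (nat_lit 152) (nat_lit 6365879528) (nat_lit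 0) (nat_lit 2804523255) (nat_lit 14) (nat_lit 5) (nat_lit 16) (nat_lit 4) (nat_lit 14) (nat_lit 4) (nat_lit 284) (nat_lit 221) (nat_lit 215)))) (XT.nd (nat_lit 156) (nat_lit 152) (nat_lit 0) (XT.nd (nat_lit 78) (nat_lit 152) (nat_lit 0) (XT.lf (nat_lit 0) (nat_lit 9380067742) (nat_lit 152) (nat_lit 466285770) (nat_lit 0) (nat_lit 5814907669) (nat_lit 14) (nat_lit 5) (nat_lit 16) (nat_lit 4) (nat_lit 14) (nat_lit 4) (nat_lit 285) (nat_lit 221) (nat_lit 214)) (XT.lf (nat_lit 0) (nat_lit 5736309275) (nat_lit 152) (nat_lit 7247595640) (nat_lit 152) (nat_lit 3265414317) (nat_lit 12) (nat_lit 4) (nat_lit 14) (nat_lit 5) (nat_lit 14) (nat_lit 4) (nat_lit 286) (nat_lit 221) (nat_lit 213))) (XT.nd (nat_lit 78) (nat_lit 152) (nat_lit 0) (XT.lf (nat_lit 0) (nat_lit 12092478216) (nat_lit 152) (nat_lit 4579329530) (nat_lit 152) (nat_lit 199985111) (nat_lit 12) (nat_lit 4) (nat_lit 14) (nat_lit 5)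 (nat_lit 14) (nat_lit 4) (nat_lit 287) (nat_lit 221) (nat_lit 212)) (XT.nd (nat_lit 78) (nat_lit 0) (nat_lit 0) (XT.lf (nat_lit 0) (nat_lit 1059814328) (nat_lit 76) (nat_lit 1777946312) (nat_lit 152) (nat_lit 14689677023) (nat_lit 10) (nat_lit 5) (nat_lit 11) (nat_lit 5) (nat_lit 12) (nat_lit 4) (nat_lit 288) (nat_lit 221) (nat_lit 211)) (XT.lf (nat_lit 0) (nat_lit 6021403329) (nat_lit 152) (nat_lit 11047163129) (nat_lit 0) (nat_lit 1147276070) (nat_lit 10) (nat_lit 5) (nat_lit 12) (nat_lit 4) (nat_lit 10) (nat_lit 4) (nat_lit 289) (nat_lit 221) (nat_lit 210))))))))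
noncomputable def xc54 : XT := (XT.nd (nat_lit 1326) (nat_lit 76) (nat_lit 0) (XT.nd (nat_lit 624) (nat_lit 228) (nat_lit 0) (XT.nd (nat_lit 312) (nat_lit 152) (nat_lit 0) (XT.nd (nat_lit 156) (nat_lit 0) (nat_lit 0) (XT.nd (nat_lit 78) (nat_lit 76) (nat_lit 0) (XT.lf (nat_lit 0) (nat_lit 9298420505) (nat_lit 152) (nat_lit 5546161101) (nat_lit 0) (nat_lit 4097546185) (nat_lit 10) (nat_lit 5) (nat_lit 12) (nat_lit 4) (nat_lit 10) (nat_lit 4) (nat_lit 290) (nat_lit 221) (nat_lit 209)) (XT.lf (nat_lit 0) (nat_lit 78759904) (nat_lit 76) (nat_lit 12571325624) (nat_lit 76) (nat_lit 7059263626) (nat_lit 9) (nat_lit 4) (nat_lit 10) (nat_lit 5) (nat_lit 10) (nat_lit 4) (nat_lit 291) (nat_lit 221) (nat_lit 208))) (XT.nd (nat_lit 78) (nat_lit 0) (nat_lit 0) (XT.lf (nat_lit 0) (nat_lit 6026303475) (nat_lit 76) (nat_lit 10148470650) (nat_lit 76) (nat_lit 4340039436) (nat_lit 9) (nat_lit 4) (nat_lit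 10) (nat_lit 5) (nat_lit 10) (nat_lit 4) (nat_lit 292) (nat_lit 221) (nat_lit 207)) (XT.lf (nat_lit 0) (nat_lit 12127249295) (nat_lit 76) (nat_lit 7664174904) (nat_lit 76) (nat_lit 1573487292) (nat_lit 9) (nat_lit 4) (nat_lit 10) (nat_lit 5) (nat_lit 10) (nat_lit 4) (nat_lit 293) (nat_lit 221) (nat_lit 206)))) (XT.nd (nat_lit 156) (nat_lit 0) (nat_lit 0) (XT.nd (nat_lit 78) (nat_lit 76) (nat_lit 0) (XT.lf (nat_lit 0) (nat_lit 1207068690) (nat_lit 152) (nat_lit 3885012412) (nat_lit 76) (nat_lit 17168612444) (nat_lit 8) (nat_lit 5) (nat_lit 10) (nat_lit 5) (nat_lit 9) (nat_lit 4) (nat_lit 294) (nat_lit 221) (nat_lit 205)) (XT.lf (nat_lit 0) (nat_lit 1628301536) (nat_lit 76) (nat_lit 2393073896) (nat_lit 152) (nat_lit 19181346092) (nat_lit 7) (nat_lit 5) (nat_lit 8) (nat_lit 5) (nat_lit 9) (nat_lit 4) (nat_lit 295) (nat_lit 221) (nat_lit 204))) (XT.nd (nat_lit 78) (nat_lit 0) (nat_lit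 0) (XT.lf (nat_lit 0) (nat_lit 6973134104) (nat_lit 152) (nat_lit 16778572983) (nat_lit 0) (nat_lit 440427639) (nat_lit 7) (nat_lit 5) (nat_lit 9) (nat_lit 4) (nat_lit 7) (nat_lit 4) (nat_lit 296) (nat_lit 221) (nat_lit 203)) (XT.lf (nat_lit 0) (nat_lit 10038359047) (nat_lit 152) (nat_lit 11909983225) (nat_lit 0) (nat_lit 3284497309) (nat_lit 7) (nat_lit 5) (nat_lit 9) (nat_lit 4) (nat_lit 7) (nat_lit 4) (nat_lit 297) (nat_lit 221) (nat_lit 202))))) (XT.nd (nat_lit 312) (nat_lit 152) (nat_lit 0) (XT.nd (nat_lit 156) (nat_lit 76) (nat_lit 0) (XT.nd (nat_lit 78) (nat_lit 0) (nat_lit 0) (XT.lf (nat_lit 0) (nat_lit 13186985825) (nat_lit 152) (nat_lit 6919696243) (nat_lit 0) (nat_lit 6222500017) (nat_lit 7) (nat_lit 5) (nat_lit 9) (nat_lit 4) (nat_lit 7) (nat_lit 4) (nat_lit 298) (nat_lit 221) (nat_lit 201)) (XT.lf (nat_lit 0) (nat_lit 16426511168) (nat_lit 152) (nat_lit 1795830402) (nat_lit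 0) (nat_lit 9261431009) (nat_lit 7) (nat_lit 5) (nat_lit 9) (nat_lit 4) (nat_lit 7) (nat_lit 4) (nat_lit 299) (nat_lit 221) (nat_lit 200))) (XT.nd (nat_lit 78) (nat_lit 0) (nat_lit 0) (XT.lf (nat_lit 0) (nat_lit 3588673956) (nat_lit 76) (nat_lit 16232003534) (nat_lit 76) (nat_lit 8875881135) (nat_lit 6) (nat_lit 4) (nat_lit 7) (nat_lit 5) (nat_lit 7) (nat_lit 4) (nat_lit 300) (nat_lit 221) (nat_lit 199)) (XT.lf (nat_lit 0) (nat_lit 9196116840) (nat_lit 76) (nat_lit 14156805280) (nat_lit 76) (nat_lit 6618737891) (nat_lit 6) (nat_lit 4) (nat_lit 7) (nat_lit 5) (nat_lit 7) (nat_lit 4) (nat_lit 301) (nat_lit 221) (nat_lit 198)))) (XT.nd (nat_lit 156) (nat_lit 152) (nat_lit 0) (XT.nd (nat_lit 78) (nat_lit 0) (nat_lit 0) (XT.lf (nat_lit 0) (nat_lit 14980471041) (nat_lit 76) (nat_lit 12022219116) (nat_lit 76) (nat_lit 4310870784) (nat_lit 6) (nat_lit 4) (nat_lit 7) (nat_lit 5) (nat_lit 7)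 (nat_lit 4) (nat_lit 302) (nat_lit 221) (nat_lit 197)) (XT.lf (nat_lit 0) (nat_lit 20955508830) (nat_lit 76) (nat_lit 9823162694) (nat_lit 76) (nat_lit 1946784893) (nat_lit 6) (nat_lit 4) (nat_lit 7) (nat_lit 5) (nat_lit 7) (nat_lit 4) (nat_lit 303) (nat_lit 221) (nat_lit 196))) (XT.nd (nat_lit 78) (nat_lit 76) (nat_lit 0) (XT.lf (nat_lit 0) (nat_lit 463812811) (nat_lit 152) (nat_lit 7082732461) (nat_lit 76) (nat_lit 26663788782) (nat_lit 5) (nat_lit 5) (nat_lit 7) (nat_lit 5) (nat_lit 6) (nat_lit 4) (nat_lit 304) (nat_lit 221) (nat_lit 195)) (XT.nd (nat_lit 78) (nat_lit 76) (nat_lit 0) (XT.lf (nat_lit 0) (nat_lit 2877560456) (nat_lit 152) (nat_lit 2284236382) (nat_lit 76) (nat_lit 30608734841) (nat_lit 5) (nat_lit 5) (nat_lit 7) (nat_lit 5) (nat_lit 6) (nat_lit 4) (nat_lit 305) (nat_lit 221) (nat_lit 194)) (XT.lf (nat_lit 0) (nat_lit 2755555387) (nat_lit 76) (nat_lit 2649980889) (nat_lit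 152) (nat_lit 32003596415) (nat_lit 4) (nat_lit 5) (nat_lit 5) (nat_lit 5) (nat_lit 6) (nat_lit 4) (nat_lit 306) (nat_lit 221) (nat_lit 193))))))) (XT.nd (nat_lit 702) (nat_lit 0) (nat_lit 0) (XT.nd (nat_lit 312) (nat_lit 76) (nat_lit 0) (XT.nd (nat_lit 156) (nat_lit 0) (nat_lit 0) (XT.nd (nat_lit 78) (nat_lit 0) (nat_lit 0) (XT.lf (nat_lit 0) (nat_lit 8041216569) (nat_lit 76) (nat_lit 8920358) (nat_lit 152) (nat_lit 31080082707) (nat_lit 4) (nat_lit 5) (nat_lit 5) (nat_lit 5) (nat_lit 6) (nat_lit 4) (nat_lit 307) (nat_lit 221) (nat_lit 192)) (XT.lf (nat_lit 0) (nat_lit 10823423713) (nat_lit 152) (nat_lit 27472534719) (nat_lit 0) (nat_lit 2641643675) (nat_lit 4) (nat_lit 5) (nat_lit 6) (nat_lit 4) (nat_lit 4) (nat_lit 4) (nat_lit 308) (nat_lit 221) (nat_lit 191))) (XT.nd (nat_lit 78) (nat_lit 0) (nat_lit 0) (XT.lf (nat_lit 0) (nat_lit 13691044215) (nat_lit 152) (nat_lit 23754606144)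 (nat_lit 0) (nat_lit 5391980814) (nat_lit 4) (nat_lit 5) (nat_lit 6) (nat_lit 4) (nat_lit 4) (nat_lit 4) (nat_lit 309) (nat_lit 221) (nat_lit 190)) (XT.lf (nat_lit 0) (nat_lit 16659686829) (nat_lit 152) (nat_lit 19926225858) (nat_lit 0) (nat_lit 8248924987) (nat_lit 4) (nat_lit 5) (nat_lit 6) (nat_lit 4) (nat_lit 4) (nat_lit 4) (nat_lit 310) (nat_lit 221) (nat_lit 189)))) (XT.nd (nat_lit 156) (nat_lit 76) (nat_lit 0) (XT.nd (nat_lit 78) (nat_lit 0) (nat_lit 0) (XT.lf (nat_lit 0) (nat_lit 19736419752) (nat_lit 152) (nat_lit 15978278670) (nat_lit 0) (nat_lit 11219278442) (nat_lit 4) (nat_lit 5) (nat_lit 6) (nat_lit 4) (nat_lit 4) (nat_lit 4) (nat_lit 311) (nat_lit 221) (nat_lit 188)) (XT.lf (nat_lit 0) (nat_lit 22928568538) (nat_lit 152) (nat_lit 11901364706) (nat_lit 0) (nat_lit 14310113450) (nat_lit 4) (nat_lit 5) (nat_lit 6) (nat_lit 4) (nat_lit 4) (nat_lit 4) (nat_lit 312) (nat_lit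 221) (nat_lit 187))) (XT.nd (nat_lit 78) (nat_lit 76) (nat_lit 0) (XT.lf (nat_lit 0) (nat_lit 26243733543) (nat_lit 152) (nat_lit 7685777027) (nat_lit 0) (nat_lit 17528789142) (nat_lit 4) (nat_lit 5) (nat_lit 6) (nat_lit 4) (nat_lit 4) (nat_lit 4) (nat_lit 313) (nat_lit 221) (nat_lit 186)) (XT.nd (nat_lit 78) (nat_lit 76) (nat_lit 0) (XT.lf (nat_lit 0) (nat_lit 29689808015) (nat_lit 152) (nat_lit 3321478521) (nat_lit 0) (nat_lit 20882969031) (nat_lit 4) (nat_lit 5) (nat_lit 6) (nat_lit 4) (nat_lit 4) (nat_lit 4) (nat_lit 314) (nat_lit 221) (nat_lit 185)) (XT.lf (nat_lit 0) (nat_lit 1241662969) (nat_lit 76) (nat_lit 32052719764) (nat_lit 76) (nat_lit 23158362129) (nat_lit 3) (nat_lit 4) (nat_lit 4) (nat_lit 5) (nat_lit 4) (nat_lit 4) (nat_lit 315) (nat_lit 221) (nat_lit 184)))))) (XT.nd (nat_lit 312) (nat_lit 0) (nat_lit 0) (XT.nd (nat_lit 156) (nat_lit 0) (nat_lit 0) (XT.nd (nat_lit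 78) (nat_lit 0) (nat_lit 0) (XT.lf (nat_lit 0) (nat_lit 6090116292) (nat_lit 76) (nat_lit 31012803836) (nat_lit 76) (nat_lit 22035095104) (nat_lit 3) (nat_lit 4) (nat_lit 4) (nat_lit 5) (nat_lit 4) (nat_lit 4) (nat_lit 316) (nat_lit 221) (nat_lit 183)) (XT.lf (nat_lit 0) (nat_lit 11125602303) (nat_lit 76) (nat_lit 29945313608) (nat_lit 76) (nat_lit 20888222879) (nat_lit 3) (nat_lit 4) (nat_lit 4) (nat_lit 5) (nat_lit 4) (nat_lit 4) (nat_lit 317) (nat_lit 221) (nat_lit 182))) (XT.nd (nat_lit 78) (nat_lit 0) (nat_lit 0) (XT.lf (nat_lit 0) (nat_lit 16360110256) (nat_lit 76) (nat_lit 28847707437) (nat_lit 76) (nat_lit 19715014806) (nat_lit 3) (nat_lit 4) (nat_lit 4) (nat_lit 5) (nat_lit 4) (nat_lit 4) (nat_lit 318) (nat_lit 221) (nat_lit 181)) (XT.lf (nat_lit 0) (nat_lit 21806103264) (nat_lit 76) (nat_lit 27717371974) (nat_lit 76) (nat_lit 18512677532) (nat_lit 3) (nat_lit 4) (nat_lit 4)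 (nat_lit 5) (nat_lit 4) (nat_lit 4) (nat_lit 319) (nat_lit 221) (nat_lit 180)))) (XT.nd (nat_lit 156) (nat_lit 0) (nat_lit 0) (XT.nd (nat_lit 78) (nat_lit 0) (nat_lit 0) (XT.lf (nat_lit 0) (nat_lit 27476547976) (nat_lit 76) (nat_lit 26551615944) (nat_lit 76) (nat_lit 17278348350) (nat_lit 3) (nat_lit 4) (nat_lit 4) (nat_lit 5) (nat_lit 4) (nat_lit 4) (nat_lit 320) (nat_lit 221) (nat_lit 179)) (XT.lf (nat_lit 0) (nat_lit 33384945453) (nat_lit 76) (nat_lit 25347663739) (nat_lit 76) (nat_lit 16009088379) (nat_lit 3) (nat_lit 4) (nat_lit 4) (nat_lit 5) (nat_lit 4) (nat_lit 4) (nat_lit 321) (nat_lit 221) (nat_lit 178))) (XT.nd (nat_lit 78) (nat_lit 0) (nat_lit 0) (XT.lf (nat_lit 0) (nat_lit 39545363307) (nat_lit 76) (nat_lit 24102648804) (nat_lit 76) (nat_lit 14701875573) (nat_lit 3) (nat_lit 4) (nat_lit 4) (nat_lit 5) (nat_lit 4) (nat_lit 4) (nat_lit 322) (nat_lit 221) (nat_lit 177)) (XT.nd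 (nat_lit 78) (nat_lit 0) (nat_lit 0) (XT.lf (nat_lit 0) (nat_lit 45972469200) (nat_lit 76) (nat_lit 22813606820) (nat_lit 76) (nat_lit 13353597521) (nat_lit 3) (nat_lit 4) (nat_lit 4) (nat_lit 5) (nat_lit 4) (nat_lit 4) (nat_lit 323) (nat_lit 221) (nat_lit 176)) (XT.lf (nat_lit 0) (nat_lit 52681565764) (nat_lit 76) (nat_lit 21477468638) (nat_lit 76) (nat_lit 11961044036) (nat_lit 3) (nat_lit 4) (nat_lit 4) (nat_lit 5) (nat_lit 4) (nat_lit 4) (nat_lit 324) (nat_lit 221) (nat_lit 175))))))))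
noncomputable def xc55 : XT := (XT.nd (nat_lit 1326) (nat_lit 0) (nat_lit 0) (XT.nd (nat_lit 624) (nat_lit 76) (nat_lit 0) (XT.nd (nat_lit 312) (nat_lit 76) (nat_lit 0) (XT.nd (nat_lit 156) (nat_lit 0) (nat_lit 0) (XT.nd (nat_lit 78) (nat_lit 0) (nat_lit 0) (XT.lf (nat_lit 0) (nat_lit 59688627039) (nat_lit 76) (nat_lit 20091052976) (nat_lit 76) (nat_lit 10520899515) (nat_lit 3) (nat_lit 4) (nat_lit 4) (nat_lit 5) (nat_lit 4) (nat_lit 4) (nat_lit 325) (nat_lit 221) (nat_lit 174)) (XT.lf (nat_lit 0) (nat_lit 67010336505) (nat_lit 76) (nat_lit 18651058846) (nat_lit 76) (nat_lit 9029735042) (nat_lit 3) (nat_lit 4) (nat_lit 4) (nat_lit 5) (nat_lit 4) (nat_lit 4) (nat_lit 326) (nat_lit 221) (nat_lit 173))) (XT.nd (nat_lit 78) (nat_lit 0) (nat_lit 0) (XT.lf (nat_lit 0) (nat_lit 74664126802) (nat_lit 76) (nat_lit 17154057690) (nat_lit 76) (nat_lit 7484000226) (nat_lit 3) (nat_lit 4) (nat_lit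 4) (nat_lit 5) (nat_lit 4) (nat_lit 4) (nat_lit 327) (nat_lit 221) (nat_lit 172)) (XT.lf (nat_lit 0) (nat_lit 82668221242) (nat_lit 76) (nat_lit 15596485219) (nat_lit 76) (nat_lit 5880014746) (nat_lit 3) (nat_lit 4) (nat_lit 4) (nat_lit 5) (nat_lit 4) (nat_lit 4) (nat_lit 328) (nat_lit 221) (nat_lit 171)))) (XT.nd (nat_lit 156) (nat_lit 76) (nat_lit 0) (XT.nd (nat_lit 78) (nat_lit 0) (nat_lit 0) (XT.lf (nat_lit 0) (nat_lit 91041677192) (nat_lit 76) (nat_lit 13974632928) (nat_lit 76) (nat_lit 4213959588) (nat_lit 3) (nat_lit 4) (nat_lit 4) (nat_lit 5) (nat_lit 4) (nat_lit 4) (nat_lit 329) (nat_lit 221) (nat_lit 170)) (XT.lf (nat_lit 0) (nat_lit 99804431451) (nat_lit 76) (nat_lit 12284639263) (nat_lit 76) (nat_lit 2481867956) (nat_lit 3) (nat_lit 4) (nat_lit 4) (nat_lit 5) (nat_lit 4) (nat_lit 4) (nat_lit 330) (nat_lit 221) (nat_lit 169))) (XT.nd (nat_lit 78) (nat_lit 76) (nat_lit 0)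 (XT.lf (nat_lit 0) (nat_lit 108977347721) (nat_lit 76) (nat_lit 10522480430) (nat_lit 76) (nat_lit 679615820) (nat_lit 3) (nat_lit 4) (nat_lit 4) (nat_lit 5) (nat_lit 4) (nat_lit 4) (nat_lit 331) (nat_lit 221) (nat_lit 168)) (XT.lf (nat_lit 0) (nat_lit 1158773606) (nat_lit 152) (nat_lit 7505562814) (nat_lit 76) (nat_lit 117403868280) (nat_lit 2) (nat_lit 5) (nat_lit 4) (nat_lit 5) (nat_lit 3) (nat_lit 4) (nat_lit 332) (nat_lit 221) (nat_lit 167))))) (XT.nd (nat_lit 312) (nat_lit 0) (nat_lit 0) (XT.nd (nat_lit 156) (nat_lit 0) (nat_lit 0) (XT.nd (nat_lit 78) (nat_lit 76) (nat_lit 0) (XT.lf (nat_lit 0) (nat_lit 3051805073) (nat_lit 152) (nat_lit 3661214114) (nat_lit 76) (nat_lit 125538567106) (nat_lit 2) (nat_lit 5) (nat_lit 4) (nat_lit 5) (nat_lit 3) (nat_lit 4) (nat_lit 333) (nat_lit 221) (nat_lit 166)) (XT.lf (nat_lit 0) (nat_lit 362309951) (nat_lit 76) (nat_lit 4669084472) (nat_lit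 152) (nat_lit 133713164366) (nat_lit 1) (nat_lit 5) (nat_lit 2) (nat_lit 5) (nat_lit 3) (nat_lit 4) (nat_lit 334) (nat_lit 221) (nat_lit 165))) (XT.nd (nat_lit 78) (nat_lit 0) (nat_lit 0) (XT.lf (nat_lit 0) (nat_lit 4689878446) (nat_lit 76) (nat_lit 2468615173) (nat_lit 152) (nat_lit 138401276093) (nat_lit 1) (nat_lit 5) (nat_lit 2) (nat_lit 5) (nat_lit 3) (nat_lit 4) (nat_lit 335) (nat_lit 221) (nat_lit 164)) (XT.lf (nat_lit 0) (nat_lit 9210738833) (nat_lit 76) (nat_lit 168376513) (nat_lit 152) (nat_lit 143337283004) (nat_lit 1) (nat_lit 5) (nat_lit 2) (nat_lit 5) (nat_lit 3) (nat_lit 4) (nat_lit 336) (nat_lit 221) (nat_lit 163)))) (XT.nd (nat_lit 156) (nat_lit 0) (nat_lit 0) (XT.nd (nat_lit 78) (nat_lit 0) (nat_lit 0) (XT.lf (nat_lit 0) (nat_lit 11733474325) (nat_lit 152) (nat_lit 146330756757) (nat_lit 0) (nat_lit 2165506833) (nat_lit 1) (nat_lit 5) (nat_lit 3) (nat_lit 4) (nat_lit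 1) (nat_lit 4) (nat_lit 337) (nat_lit 221) (nat_lit 162)) (XT.lf (nat_lit 0) (nat_lit 14196526919) (nat_lit 152) (nat_lit 149321260154) (nat_lit 0) (nat_lit 4601422701) (nat_lit 1) (nat_lit 5) (nat_lit 3) (nat_lit 4) (nat_lit 1) (nat_lit 4) (nat_lit 338) (nat_lit 221) (nat_lit 161))) (XT.nd (nat_lit 78) (nat_lit 0) (nat_lit 0) (XT.lf (nat_lit 0) (nat_lit 16771508710) (nat_lit 152) (nat_lit 152481661126) (nat_lit 0) (nat_lit 7150559992) (nat_lit 1) (nat_lit 5) (nat_lit 3) (nat_lit 4) (nat_lit 1) (nat_lit 4) (nat_lit 339) (nat_lit 221) (nat_lit 160)) (XT.nd (nat_lit 78) (nat_lit 0) (nat_lit 0) (XT.lf (nat_lit 0) (nat_lit 19464550606) (nat_lit 152) (nat_lit 155819484437) (nat_lit 0) (nat_lit 9818988078) (nat_lit 1) (nat_lit 5) (nat_lit 3) (nat_lit 4) (nat_lit 1) (nat_lit 4) (nat_lit 340) (nat_lit 221) (nat_lit 159)) (XT.lf (nat_lit 0) (nat_lit 22282064613) (nat_lit 152) (nat_lit 159342677285)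 (nat_lit 0) (nat_lit 12613060362) (nat_lit 1) (nat_lit 5) (nat_lit 3) (nat_lit 4) (nat_lit 1) (nat_lit 4) (nat_lit 341) (nat_lit 221) (nat_lit 158))))))) (XT.nd (nat_lit 702) (nat_lit 0) (nat_lit 0) (XT.nd (nat_lit 312) (nat_lit 0) (nat_lit 0) (XT.nd (nat_lit 156) (nat_lit 0) (nat_lit 0) (XT.nd (nat_lit 78) (nat_lit 0) (nat_lit 0) (XT.lf (nat_lit 0) (nat_lit 25230759097) (nat_lit 152) (nat_lit 163059628224) (nat_lit 0) (nat_lit 15539429394) (nat_lit 1) (nat_lit 5) (nat_lit 3) (nat_lit 4) (nat_lit 1) (nat_lit 4) (nat_lit 342) (nat_lit 221) (nat_lit 157)) (XT.lf (nat_lit 0) (nat_lit 28317654759) (nat_lit 152) (nat_lit 166979187138) (nat_lit 0) (nat_lit 18605062722) (nat_lit 1) (nat_lit 5) (nat_lit 3) (nat_lit 4) (nat_lit 1) (nat_lit 4) (nat_lit 343) (nat_lit 221) (nat_lit 156))) (XT.nd (nat_lit 78) (nat_lit 0) (nat_lit 0) (XT.lf (nat_lit 0) (nat_lit 31550101351) (nat_lit 152) (nat_lit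 171110686309) (nat_lit 0) (nat_lit 21817259471) (nat_lit 1) (nat_lit 5) (nat_lit 3) (nat_lit 4) (nat_lit 1) (nat_lit 4) (nat_lit 344) (nat_lit 221) (nat_lit 155)) (XT.lf (nat_lit 0) (nat_lit 34935795173) (nat_lit 152) (nat_lit 175463962641) (nat_lit 0) (nat_lit 25183667730) (nat_lit 1) (nat_lit 5) (nat_lit 3) (nat_lit 4) (nat_lit 1) (nat_lit 4) (nat_lit 345) (nat_lit 221) (nat_lit 154)))) (XT.nd (nat_lit 156) (nat_lit 0) (nat_lit 0) (XT.nd (nat_lit 78) (nat_lit 0) (nat_lit 0) (XT.lf (nat_lit 0) (nat_lit 38482797403) (nat_lit 152) (nat_lit 180049381078) (nat_lit 0) (nat_lit 28712302756) (nat_lit 1) (nat_lit 5) (nat_lit 3) (nat_lit 4) (nat_lit 1) (nat_lit 4) (nat_lit 346) (nat_lit 221) (nat_lit 153)) (XT.lf (nat_lit 0) (nat_lit 42199553283) (nat_lit 152) (nat_lit 184877859281) (nat_lit 0) (nat_lit 32411566061) (nat_lit 1) (nat_lit 5) (nat_lit 3) (nat_lit 4) (nat_lit 1) (nat_lit 4) (nat_lit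 347) (nat_lit 221) (nat_lit 152))) (XT.nd (nat_lit 78) (nat_lit 0) (nat_lit 0) (XT.lf (nat_lit 0) (nat_lit 46094912233) (nat_lit 152) (nat_lit 189960893629) (nat_lit 0) (nat_lit 36290265415) (nat_lit 1) (nat_lit 5) (nat_lit 3) (nat_lit 4) (nat_lit 1) (nat_lit 4) (nat_lit 348) (nat_lit 221) (nat_lit 151)) (XT.nd (nat_lit 78) (nat_lit 0) (nat_lit 0) (XT.lf (nat_lit 0) (nat_lit 50178148915) (nat_lit 152) (nat_lit 195310586583) (nat_lit 0) (nat_lit 40357635816) (nat_lit 1) (nat_lit 5) (nat_lit 3) (nat_lit 4) (nat_lit 1) (nat_lit 4) (nat_lit 349) (nat_lit 221) (nat_lit 150)) (XT.lf (nat_lit 0) (nat_lit 54458985323) (nat_lit 152) (nat_lit 200939675507) (nat_lit 0) (nat_lit 44623361480) (nat_lit 1) (nat_lit 5) (nat_lit 3) (nat_lit 4) (nat_lit 1) (nat_lit 4) (nat_lit 350) (nat_lit 221) (nat_lit 149)))))) (XT.nd (nat_lit 312) (nat_lit 0) (nat_lit 0) (XT.nd (nat_lit 156) (nat_lit 0) (nat_lit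 0) (XT.nd (nat_lit 78) (nat_lit 0) (nat_lit 0) (XT.lf (nat_lit 0) (nat_lit 58947613924) (nat_lit 152) (nat_lit 206861562995) (nat_lit 0) (nat_lit 49097598896) (nat_lit 1) (nat_lit 5) (nat_lit 3) (nat_lit 4) (nat_lit 1) (nat_lit 4) (nat_lit 351) (nat_lit 221) (nat_lit 148)) (XT.lf (nat_lit 0) (nat_lit 63654721928) (nat_lit 152) (nat_lit 213090348779) (nat_lit 0) (nat_lit 53791001011) (nat_lit 1) (nat_lit 5) (nat_lit 3) (nat_lit 4) (nat_lit 1) (nat_lit 4) (nat_lit 352) (nat_lit 221) (nat_lit 147))) (XT.nd (nat_lit 78) (nat_lit 0) (nat_lit 0) (XT.lf (nat_lit 0) (nat_lit 68591516737) (nat_lit 152) (nat_lit 219640863300) (nat_lit 0) (nat_lit 58714742590) (nat_lit 1) (nat_lit 5) (nat_lit 3) (nat_lit 4) (nat_lit 1) (nat_lit 4) (nat_lit 353) (nat_lit 221) (nat_lit 146)) (XT.lf (nat_lit 0) (nat_lit 73769752623) (nat_lit 152) (nat_lit 226528703023) (nat_lit 0) (nat_lit 63880546830) (nat_lit 1)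 (nat_lit 5) (nat_lit 3) (nat_lit 4) (nat_lit 1) (nat_lit 4) (nat_lit 354) (nat_lit 221) (nat_lit 145)))) (XT.nd (nat_lit 156) (nat_lit 0) (nat_lit 0) (XT.nd (nat_lit 78) (nat_lit 0) (nat_lit 0) (XT.lf (nat_lit 0) (nat_lit 79201758719) (nat_lit 152) (nat_lit 233770267564) (nat_lit 0) (nat_lit 69300713263) (nat_lit 1) (nat_lit 5) (nat_lit 3) (nat_lit 4) (nat_lit 1) (nat_lit 4) (nat_lit 355) (nat_lit 221) (nat_lit 144)) (XT.lf (nat_lit 0) (nat_lit 84900468374) (nat_lit 152) (nat_lit 241382798746) (nat_lit 0) (nat_lit 74988147048) (nat_lit 1) (nat_lit 5) (nat_lit 3) (nat_lit 4) (nat_lit 1) (nat_lit 4) (nat_lit 356) (nat_lit 221) (nat_lit 143))) (XT.nd (nat_lit 78) (nat_lit 0) (nat_lit 0) (XT.lf (nat_lit 0) (nat_lit 90879449943) (nat_lit 152) (nat_lit 249384421641) (nat_lit 0) (nat_lit 80956389693) (nat_lit 1) (nat_lit 5) (nat_lit 3) (nat_lit 4) (nat_lit 1) (nat_lit 4) (nat_lit 357) (nat_lit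 221) (nat_lit 142)) (XT.nd (nat_lit 78) (nat_lit 0) (nat_lit 0) (XT.lf (nat_lit 0) (nat_lit 97152939097) (nat_lit 152) (nat_lit 257794187734) (nat_lit 0) (nat_lit 87219651301) (nat_lit 1) (nat_lit 5) (nat_lit 3) (nat_lit 4) (nat_lit 1) (nat_lit 4) (nat_lit 358) (nat_lit 221) (nat_lit 141)) (XT.lf (nat_lit 0) (nat_lit 103735872715) (nat_lit 152) (nat_lit 266632120276) (nat_lit 0) (nat_lit 93792844398) (nat_lit 1) (nat_lit 5) (nat_lit 3) (nat_lit 4) (nat_lit 1) (nat_lit 4) (nat_lit 359) (nat_lit 221) (nat_lit 140))))))))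
noncomputable def xc56 : XT := (XT.nd (nat_lit 31980) (nat_lit 0) (nat_lit 228) (XT.nd (nat_lit 31278) (nat_lit 0) (nat_lit 760) (XT.nd (nat_lit 30966) (nat_lit 0) (nat_lit 1292) (XT.nd (nat_lit 156) (nat_lit 0) (nat_lit 0) (XT.nd (nat_lit 78) (nat_lit 0) (nat_lit 0) (XT.lf (nat_lit 0) (nat_lit 110643924448) (nat_lit 152) (nat_lit 275919261965) (nat_lit 0) (nat_lit 100691619446) (nat_lit 1) (nat_lit 5) (nat_lit 3) (nat_lit 4) (nat_lit 1) (nat_lit 4) (nat_lit 360) (nat_lit 221) (nat_lit 139)) (XT.lf (nat_lit 0) (nat_lit 117893542039) (nat_lit 152) (nat_lit 285677725042) (nat_lit 0) (nat_lit 107932402097) (nat_lit 1) (nat_lit 5) (nat_lit 3) (nat_lit 4) (nat_lit 1) (nat_lit 4) (nat_lit 361) (nat_lit 221) (nat_lit 138))) (XT.nd (nat_lit 78) (nat_lit 0) (nat_lit 0) (XT.lf (nat_lit 0) (nat_lit 125501986482) (nat_lit 152) (nat_lit 295930743942) (nat_lit 0) (nat_lit 115532432312) (nat_lit 1)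 (nat_lit 5) (nat_lit 3) (nat_lit 4) (nat_lit 1) (nat_lit 4) (nat_lit 362) (nat_lit 221) (nat_lit 137)) (XT.lf (nat_lit 0) (nat_lit 133487373120) (nat_lit 152) (nat_lit 306702730617) (nat_lit 0) (nat_lit 123509805401) (nat_lit 1) (nat_lit 5) (nat_lit 3) (nat_lit 4) (nat_lit 1) (nat_lit 4) (nat_lit 363) (nat_lit 221) (nat_lit 136)))) (XT.nd (nat_lit 156) (nat_lit 228) (nat_lit 0) (XT.nd (nat_lit 78) (nat_lit 152) (nat_lit 0) (XT.lf (nat_lit 0) (nat_lit 2275874770) (nat_lit 228) (nat_lit 1238223492) (nat_lit 0) (nat_lit 2275874770) (nat_lit 23) (nat_lit 5) (nat_lit 26) (nat_lit 4) (nat_lit 23) (nat_lit 4) (nat_lit 276) (nat_lit 222) (nat_lit 222)) (XT.lf (nat_lit 0) (nat_lit 3763922110) (nat_lit 152) (nat_lit 4428653087) (nat_lit 152) (nat_lit 3749369413) (nat_lit 21) (nat_lit 4) (nat_lit 23) (nat_lit 5) (nat_lit 23) (nat_lit 4) (nat_lit 277) (nat_lit 222) (nat_lit 221))) (XT.nd (nat_lit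 78) (nat_lit 228) (nat_lit 0) (XT.lf (nat_lit 0) (nat_lit 10199170414) (nat_lit 152) (nat_lit 1726947755) (nat_lit 152) (nat_lit 400727249) (nat_lit 21) (nat_lit 4) (nat_lit 23) (nat_lit 5) (nat_lit 23) (nat_lit 4) (nat_lit 278) (nat_lit 222) (nat_lit 220)) (XT.lf (nat_lit 0) (nat_lit 2970509889) (nat_lit 228) (nat_lit 8639958667) (nat_lit 0) (nat_lit 1120651962) (nat_lit 18) (nat_lit 5) (nat_lit 21) (nat_lit 4) (nat_lit 18) (nat_lit 4) (nat_lit 279) (nat_lit 222) (nat_lit 219))))) (XT.nd (nat_lit 312) (nat_lit 228) (nat_lit 0) (XT.nd (nat_lit 156) (nat_lit 152) (nat_lit 0) (XT.nd (nat_lit 78) (nat_lit 152) (nat_lit 0) (XT.lf (nat_lit 0) (nat_lit 6436328984) (nat_lit 228) (nat_lit 2694645238) (nat_lit 0) (nat_lit 4027622698) (nat_lit 18) (nat_lit 5) (nat_lit 21) (nat_lit 4) (nat_lit 18) (nat_lit 4) (nat_lit 280) (nat_lit 222) (nat_lit 218)) (XT.lf (nat_lit 0) (nat_lit 3468297694) (nat_lit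 152) (nat_lit 6541817500) (nat_lit 152) (nat_lit 3600874681) (nat_lit 16) (nat_lit 4) (nat_lit 18) (nat_lit 5) (nat_lit 18) (nat_lit 4) (nat_lit 281) (nat_lit 222) (nat_lit 217))) (XT.nd (nat_lit 78) (nat_lit 152) (nat_lit 0) (XT.lf (nat_lit 0) (nat_lit 9845371312) (nat_lit 152) (nat_lit 3846141593) (nat_lit 152) (nat_lit 398306838) (nat_lit 16) (nat_lit 4) (nat_lit 18) (nat_lit 5) (nat_lit 18) (nat_lit 4) (nat_lit 282) (nat_lit 222) (nat_lit 216)) (XT.lf (nat_lit 0) (nat_lit 1776670544) (nat_lit 76) (nat_lit 1007358491) (nat_lit 152) (nat_lit 11810760904) (nat_lit 14) (nat_lit 5) (nat_lit 15) (nat_lit 5) (nat_lit 16) (nat_lit 4) (nat_lit 283) (nat_lit 222) (nat_lit 215)))) (XT.nd (nat_lit 156) (nat_lit 228) (nat_lit 0) (XT.nd (nat_lit 78) (nat_lit 0) (nat_lit 0) (XT.lf (nat_lit 0) (nat_lit 6104254033) (nat_lit 152) (nat_lit 7098084097) (nat_lit 0) (nat_lit 1922963644) (nat_lit 14)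 (nat_lit 5) (nat_lit 16) (nat_lit 4) (nat_lit 14) (nat_lit 4) (nat_lit 284) (nat_lit 222) (nat_lit 214)) (XT.lf (nat_lit 0) (nat_lit 9500612100) (nat_lit 152) (nat_lit 1284137227) (nat_lit 0) (nat_lit 4902300461) (nat_lit 14) (nat_lit 5) (nat_lit 16) (nat_lit 4) (nat_lit 14) (nat_lit 4) (nat_lit 285) (nat_lit 222) (nat_lit 213))) (XT.nd (nat_lit 78) (nat_lit 76) (nat_lit 0) (XT.lf (nat_lit 0) (nat_lit 4807150469) (nat_lit 152) (nat_lit 8233364736) (nat_lit 152) (nat_lit 3237890001) (nat_lit 12) (nat_lit 4) (nat_lit 14) (nat_lit 5) (nat_lit 14) (nat_lit 4) (nat_lit 286) (nat_lit 222) (nat_lit 212)) (XT.nd (nat_lit 78) (nat_lit 76) (nat_lit 0) (XT.lf (nat_lit 0) (nat_lit 11083066566) (nat_lit 152) (nat_lit 5597024883) (nat_lit 152) (nat_lit 223299580) (nat_lit 12) (nat_lit 4) (nat_lit 14) (nat_lit 5) (nat_lit 14) (nat_lit 4) (nat_lit 287) (nat_lit 222) (nat_lit 211)) (XT.lf (nat_lit 0)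 (nat_lit 2751777491) (nat_lit 228) (nat_lit 92820079) (nat_lit 76) (nat_lit 14717714167) (nat_lit 11) (nat_lit 5) (nat_lit 14) (nat_lit 5) (nat_lit 12) (nat_lit 4) (nat_lit 288) (nat_lit 222) (nat_lit 210))))))) (XT.nd (nat_lit 702) (nat_lit 228) (nat_lit 0) (XT.nd (nat_lit 312) (nat_lit 152) (nat_lit 0) (XT.nd (nat_lit 156) (nat_lit 76) (nat_lit 0) (XT.nd (nat_lit 78) (nat_lit 0) (nat_lit 0) (XT.lf (nat_lit 0) (nat_lit 5870925949) (nat_lit 152) (nat_lit 12299837329) (nat_lit 0) (nat_lit 83260851) (nat_lit 10) (nat_lit 5) (nat_lit 12) (nat_lit 4) (nat_lit 10) (nat_lit 4) (nat_lit 289) (nat_lit 222) (nat_lit 209)) (XT.lf (nat_lit 0) (nat_lit 9103829626) (nat_lit 152) (nat_lit 6873787463) (nat_lit 0) (nat_lit 3004976851) (nat_lit 10) (nat_lit 5) (nat_lit 12) (nat_lit 4) (nat_lit 10) (nat_lit 4) (nat_lit 290) (nat_lit 222) (nat_lit 208))) (XT.nd (nat_lit 78) (nat_lit 76) (nat_lit 0) (XT.lf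 (nat_lit 0) (nat_lit 12412252131) (nat_lit 152) (nat_lit 1322770277) (nat_lit 0) (nat_lit 6017030138) (nat_lit 10) (nat_lit 5) (nat_lit 12) (nat_lit 4) (nat_lit 10) (nat_lit 4) (nat_lit 291) (nat_lit 222) (nat_lit 207)) (XT.lf (nat_lit 0) (nat_lit 4510804860) (nat_lit 76) (nat_lit 11363692105) (nat_lit 76) (nat_lit 4686213715) (nat_lit 9) (nat_lit 4) (nat_lit 10) (nat_lit 5) (nat_lit 10) (nat_lit 4) (nat_lit 292) (nat_lit 222) (nat_lit 206)))) (XT.nd (nat_lit 156) (nat_lit 76) (nat_lit 0) (XT.nd (nat_lit 78) (nat_lit 76) (nat_lit 0) (XT.lf (nat_lit 0) (nat_lit 10544863373) (nat_lit 76) (nat_lit 8907132468) (nat_lit 76) (nat_lit 1960838462) (nat_lit 9) (nat_lit 4) (nat_lit 10) (nat_lit 5) (nat_lit 10) (nat_lit 4) (nat_lit 293) (nat_lit 222) (nat_lit 205)) (XT.lf (nat_lit 0) (nat_lit 794154250) (nat_lit 152) (nat_lit 5574292664) (nat_lit 76) (nat_lit 15942431670) (nat_lit 8) (nat_lit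 5) (nat_lit 10) (nat_lit 5) (nat_lit 9) (nat_lit 4) (nat_lit 294) (nat_lit 222) (nat_lit 204))) (XT.nd (nat_lit 78) (nat_lit 76) (nat_lit 0) (XT.lf (nat_lit 0) (nat_lit 3546885378) (nat_lit 152) (nat_lit 175017539) (nat_lit 76) (nat_lit 19534141282) (nat_lit 8) (nat_lit 5) (nat_lit 10) (nat_lit 5) (nat_lit 9) (nat_lit 4) (nat_lit 295) (nat_lit 222) (nat_lit 203)) (XT.nd (nat_lit 78) (nat_lit 0) (nat_lit 0) (XT.lf (nat_lit 0) (nat_lit 5550990405) (nat_lit 76) (nat_lit 902344232) (nat_lit 152) (nat_lit 17794444288) (nat_lit 7) (nat_lit 5) (nat_lit 8) (nat_lit 5) (nat_lit 9) (nat_lit 4) (nat_lit 296) (nat_lit 222) (nat_lit 202)) (XT.lf (nat_lit 0) (nat_lit 9470393696) (nat_lit 152) (nat_lit 13873492233) (nat_lit 0) (nat_lit 1947059529) (nat_lit 7) (nat_lit 5) (nat_lit 9) (nat_lit 4) (nat_lit 7) (nat_lit 4) (nat_lit 297) (nat_lit 222) (nat_lit 201)))))) (XT.nd (nat_lit 312) (nat_lit 152)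 (nat_lit 0) (XT.nd (nat_lit 156) (nat_lit 76) (nat_lit 0) (XT.nd (nat_lit 78) (nat_lit 0) (nat_lit 0) (XT.lf (nat_lit 0) (nat_lit 12586565462) (nat_lit 152) (nat_lit 8939759149) (nat_lit 0) (nat_lit 4862636944) (nat_lit 7) (nat_lit 5) (nat_lit 9) (nat_lit 4) (nat_lit 7) (nat_lit 4) (nat_lit 298) (nat_lit 222) (nat_lit 200)) (XT.lf (nat_lit 0) (nat_lit 15795181271) (nat_lit 152) (nat_lit 3869754162) (nat_lit 0) (nat_lit 7880210513) (nat_lit 7) (nat_lit 5) (nat_lit 9) (nat_lit 4) (nat_lit 7) (nat_lit 4) (nat_lit 299) (nat_lit 222) (nat_lit 199))) (XT.nd (nat_lit 78) (nat_lit 0) (nat_lit 0) (XT.lf (nat_lit 0) (nat_lit 1393184779) (nat_lit 76) (nat_lit 17732447424) (nat_lit 76) (nat_lit 9635531675) (nat_lit 6) (nat_lit 4) (nat_lit 7) (nat_lit 5) (nat_lit 7) (nat_lit 4) (nat_lit 300) (nat_lit 222) (nat_lit 198)) (XT.lf (nat_lit 0) (nat_lit 6950158967) (nat_lit 76) (nat_lit 15678894049) (nat_lit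 76) (nat_lit 7408697357) (nat_lit 6) (nat_lit 4) (nat_lit 7) (nat_lit 5) (nat_lit 7) (nat_lit 4) (nat_lit 301) (nat_lit 222) (nat_lit 197)))) (XT.nd (nat_lit 156) (nat_lit 152) (nat_lit 0) (XT.nd (nat_lit 78) (nat_lit 0) (nat_lit 0) (XT.lf (nat_lit 0) (nat_lit 12686447742) (nat_lit 76) (nat_lit 13564922056) (nat_lit 76) (nat_lit 5129695895) (nat_lit 6) (nat_lit 4) (nat_lit 7) (nat_lit 5) (nat_lit 7) (nat_lit 4) (nat_lit 302) (nat_lit 222) (nat_lit 196)) (XT.lf (nat_lit 0) (nat_lit 18615708936) (nat_lit 76) (nat_lit 11385498179) (nat_lit 76) (nat_lit 2793101094) (nat_lit 6) (nat_lit 4) (nat_lit 7) (nat_lit 5) (nat_lit 7) (nat_lit 4) (nat_lit 303) (nat_lit 222) (nat_lit 195))) (XT.nd (nat_lit 78) (nat_lit 152) (nat_lit 0) (XT.lf (nat_lit 0) (nat_lit 24752059836) (nat_lit 76) (nat_lit 9135433312) (nat_lit 76) (nat_lit 393349634) (nat_lit 6) (nat_lit 4) (nat_lit 7) (nat_lit 5) (nat_lit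 7) (nat_lit 4) (nat_lit 304) (nat_lit 222) (nat_lit 194)) (XT.nd (nat_lit 78) (nat_lit 76) (nat_lit 0) (XT.lf (nat_lit 0) (nat_lit 2008850509) (nat_lit 152) (nat_lit 4766498794) (nat_lit 76) (nat_lit 29067239438) (nat_lit 5) (nat_lit 5) (nat_lit 7) (nat_lit 5) (nat_lit 6) (nat_lit 4) (nat_lit 305) (nat_lit 222) (nat_lit 193)) (XT.lf (nat_lit 0) (nat_lit 149548070) (nat_lit 76) (nat_lit 4323603423) (nat_lit 152) (nat_lit 33011254774) (nat_lit 4) (nat_lit 5) (nat_lit 5) (nat_lit 5) (nat_lit 6) (nat_lit 4) (nat_lit 306) (nat_lit 222) (nat_lit 192))))))))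
noncomputable def xc57 : XT := (XT.nd (nat_lit 1326) (nat_lit 152) (nat_lit 0) (XT.nd (nat_lit 624) (nat_lit 76) (nat_lit 0) (XT.nd (nat_lit 312) (nat_lit 0) (nat_lit 0) (XT.nd (nat_lit 156) (nat_lit 0) (nat_lit 0) (XT.nd (nat_lit 78) (nat_lit 0) (nat_lit 0) (XT.lf (nat_lit 0) (nat_lit 5395523443) (nat_lit 76) (nat_lit 1699715992) (nat_lit 152) (nat_lit 32111410624) (nat_lit 4) (nat_lit 5) (nat_lit 5) (nat_lit 5) (nat_lit 6) (nat_lit 4) (nat_lit 307) (nat_lit 222) (nat_lit 191)) (XT.lf (nat_lit 0) (nat_lit 9820432134) (nat_lit 152) (nat_lit 30206902628) (nat_lit 0) (nat_lit 989132200) (nat_lit 4) (nat_lit 5) (nat_lit 6) (nat_lit 4) (nat_lit 4) (nat_lit 4) (nat_lit 308) (nat_lit 222) (nat_lit 190))) (XT.nd (nat_lit 78) (nat_lit 0) (nat_lit 0) (XT.lf (nat_lit 0) (nat_lit 12667389751) (nat_lit 152) (nat_lit 26525776354) (nat_lit 0) (nat_lit 3724391376) (nat_lit 4) (nat_lit 5) (nat_lit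 6) (nat_lit 4) (nat_lit 4) (nat_lit 4) (nat_lit 309) (nat_lit 222) (nat_lit 189)) (XT.lf (nat_lit 0) (nat_lit 15616353428) (nat_lit 152) (nat_lit 22732445879) (nat_lit 0) (nat_lit 6566975585) (nat_lit 4) (nat_lit 5) (nat_lit 6) (nat_lit 4) (nat_lit 4) (nat_lit 4) (nat_lit 310) (nat_lit 222) (nat_lit 188)))) (XT.nd (nat_lit 156) (nat_lit 0) (nat_lit 0) (XT.nd (nat_lit 78) (nat_lit 0) (nat_lit 0) (XT.lf (nat_lit 0) (nat_lit 18674344506) (nat_lit 152) (nat_lit 18817879464) (nat_lit 0) (nat_lit 9523652885) (nat_lit 4) (nat_lit 5) (nat_lit 6) (nat_lit 4) (nat_lit 4) (nat_lit 4) (nat_lit 311) (nat_lit 222) (nat_lit 187)) (XT.lf (nat_lit 0) (nat_lit 21848643916) (nat_lit 152) (nat_lit 14772756711) (nat_lit 0) (nat_lit 12601462982) (nat_lit 4) (nat_lit 5) (nat_lit 6) (nat_lit 4) (nat_lit 4) (nat_lit 4) (nat_lit 312) (nat_lit 222) (nat_lit 186))) (XT.nd (nat_lit 78) (nat_lit 0) (nat_lit 0) (XT.lf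 (nat_lit 0) (nat_lit 25146809515) (nat_lit 152) (nat_lit 10587446377) (nat_lit 0) (nat_lit 15807733997) (nat_lit 4) (nat_lit 5) (nat_lit 6) (nat_lit 4) (nat_lit 4) (nat_lit 4) (nat_lit 313) (nat_lit 222) (nat_lit 185)) (XT.lf (nat_lit 0) (nat_lit 28576694077) (nat_lit 152) (nat_lit 6251983436) (nat_lit 0) (nat_lit 19150099908) (nat_lit 4) (nat_lit 5) (nat_lit 6) (nat_lit 4) (nat_lit 4) (nat_lit 4) (nat_lit 314) (nat_lit 222) (nat_lit 184))))) (XT.nd (nat_lit 312) (nat_lit 0) (nat_lit 0) (XT.nd (nat_lit 156) (nat_lit 0) (nat_lit 0) (XT.nd (nat_lit 78) (nat_lit 76) (nat_lit 0) (XT.lf (nat_lit 0) (nat_lit 32146463994) (nat_lit 152) (nat_lit 1756045359) (nat_lit 0) (nat_lit 22636518729) (nat_lit 4) (nat_lit 5) (nat_lit 6) (nat_lit 4) (nat_lit 4) (nat_lit 4) (nat_lit 315) (nat_lit 222) (nat_lit 183)) (XT.lf (nat_lit 0) (nat_lit 3007325672) (nat_lit 76) (nat_lit 32904245828) (nat_lit 76)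 (nat_lit 23314918566) (nat_lit 3) (nat_lit 4) (nat_lit 4) (nat_lit 5) (nat_lit 4) (nat_lit 4) (nat_lit 316) (nat_lit 222) (nat_lit 182))) (XT.nd (nat_lit 78) (nat_lit 0) (nat_lit 0) (XT.lf (nat_lit 0) (nat_lit 8017078825) (nat_lit 76) (nat_lit 31848101243) (nat_lit 76) (nat_lit 22183172080) (nat_lit 3) (nat_lit 4) (nat_lit 4) (nat_lit 5) (nat_lit 4) (nat_lit 4) (nat_lit 317) (nat_lit 222) (nat_lit 181)) (XT.lf (nat_lit 0) (nat_lit 13227079293) (nat_lit 76) (nat_lit 30761300446) (nat_lit 76) (nat_lit 21024369471) (nat_lit 3) (nat_lit 4) (nat_lit 4) (nat_lit 5) (nat_lit 4) (nat_lit 4) (nat_lit 318) (nat_lit 222) (nat_lit 180)))) (XT.nd (nat_lit 156) (nat_lit 0) (nat_lit 0) (XT.nd (nat_lit 78) (nat_lit 0) (nat_lit 0) (XT.lf (nat_lit 0) (nat_lit 18649731840) (nat_lit 76) (nat_lit 29641255815) (nat_lit 76) (nat_lit 19835751688) (nat_lit 3) (nat_lit 4) (nat_lit 4) (nat_lit 5) (nat_lit 4)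 (nat_lit 4) (nat_lit 319) (nat_lit 222) (nat_lit 179)) (XT.lf (nat_lit 0) (nat_lit 24297947542) (nat_lit 76) (nat_lit 28485300578) (nat_lit 76) (nat_lit 18614488686) (nat_lit 3) (nat_lit 4) (nat_lit 4) (nat_lit 5) (nat_lit 4) (nat_lit 4) (nat_lit 320) (nat_lit 222) (nat_lit 178))) (XT.nd (nat_lit 78) (nat_lit 0) (nat_lit 0) (XT.lf (nat_lit 0) (nat_lit 30185174533) (nat_lit 76) (nat_lit 27290682462) (nat_lit 76) (nat_lit 17357672698) (nat_lit 3) (nat_lit 4) (nat_lit 4) (nat_lit 5) (nat_lit 4) (nat_lit 4) (nat_lit 321) (nat_lit 222) (nat_lit 177)) (XT.nd (nat_lit 78) (nat_lit 0) (nat_lit 0) (XT.lf (nat_lit 0) (nat_lit 36325430019) (nat_lit 76) (nat_lit 26054557135) (nat_lit 76) (nat_lit 16062311303) (nat_lit 3) (nat_lit 4) (nat_lit 4) (nat_lit 5) (nat_lit 4) (nat_lit 4) (nat_lit 322) (nat_lit 222) (nat_lit 176)) (XT.lf (nat_lit 0) (nat_lit 42733333656) (nat_lit 76) (nat_lit 24773981444)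 (nat_lit 76) (nat_lit 14725320309) (nat_lit 3) (nat_lit 4) (nat_lit 4) (nat_lit 5) (nat_lit 4) (nat_lit 4) (nat_lit 323) (nat_lit 222) (nat_lit 175))))))) (XT.nd (nat_lit 702) (nat_lit 152) (nat_lit 0) (XT.nd (nat_lit 312) (nat_lit 0) (nat_lit 0) (XT.nd (nat_lit 156) (nat_lit 0) (nat_lit 0) (XT.nd (nat_lit 78) (nat_lit 0) (nat_lit 0) (XT.lf (nat_lit 0) (nat_lit 49424142358) (nat_lit 76) (nat_lit 23445906399) (nat_lit 76) (nat_lit 13343516404) (nat_lit 3) (nat_lit 4) (nat_lit 4) (nat_lit 5) (nat_lit 4) (nat_lit 4) (nat_lit 324) (nat_lit 222) (nat_lit 174)) (XT.lf (nat_lit 0) (nat_lit 56413786622) (nat_lit 76) (nat_lit 22067169915) (nat_lit 76) (nat_lit 11913609578) (nat_lit 3) (nat_lit 4) (nat_lit 4) (nat_lit 5) (nat_lit 4) (nat_lit 4) (nat_lit 325) (nat_lit 222) (nat_lit 173))) (XT.nd (nat_lit 78) (nat_lit 0) (nat_lit 0) (XT.lf (nat_lit 0) (nat_lit 63718908458) (nat_lit 76) (nat_lit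 20634489288) (nat_lit 76) (nat_lit 10432195291) (nat_lit 3) (nat_lit 4) (nat_lit 4) (nat_lit 5) (nat_lit 4) (nat_lit 4) (nat_lit 326) (nat_lit 222) (nat_lit 172)) (XT.lf (nat_lit 0) (nat_lit 71356901013) (nat_lit 76) (nat_lit 19144453372) (nat_lit 76) (nat_lit 8895746366) (nat_lit 3) (nat_lit 4) (nat_lit 4) (nat_lit 5) (nat_lit 4) (nat_lit 4) (nat_lit 327) (nat_lit 222) (nat_lit 171)))) (XT.nd (nat_lit 156) (nat_lit 0) (nat_lit 0) (XT.nd (nat_lit 78) (nat_lit 0) (nat_lit 0) (XT.lf (nat_lit 0) (nat_lit 79345949983) (nat_lit 76) (nat_lit 17593514464) (nat_lit 76) (nat_lit 7300604591) (nat_lit 3) (nat_lit 4) (nat_lit 4) (nat_lit 5) (nat_lit 4) (nat_lit 4) (nat_lit 328) (nat_lit 222) (nat_lit 170)) (XT.lf (nat_lit 0) (nat_lit 87705076914) (nat_lit 76) (nat_lit 15977979851) (nat_lit 76) (nat_lit 5642972011) (nat_lit 3) (nat_lit 4) (nat_lit 4) (nat_lit 5) (nat_lit 4) (nat_lit 4) (nat_lit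 329) (nat_lit 222) (nat_lit 169))) (XT.nd (nat_lit 78) (nat_lit 0) (nat_lit 0) (XT.lf (nat_lit 0) (nat_lit 96454184489) (nat_lit 76) (nat_lit 14294003022) (nat_lit 76) (nat_lit 3918901880) (nat_lit 3) (nat_lit 4) (nat_lit 4) (nat_lit 5) (nat_lit 4) (nat_lit 4) (nat_lit 330) (nat_lit 222) (nat_lit 168)) (XT.nd (nat_lit 78) (nat_lit 0) (nat_lit 0) (XT.lf (nat_lit 0) (nat_lit 105614103917) (nat_lit 76) (nat_lit 12537574510) (nat_lit 76) (nat_lit 2124289269) (nat_lit 3) (nat_lit 4) (nat_lit 4) (nat_lit 5) (nat_lit 4) (nat_lit 4) (nat_lit 331) (nat_lit 222) (nat_lit 167)) (XT.lf (nat_lit 0) (nat_lit 115206644529) (nat_lit 76) (nat_lit 10704512340) (nat_lit 76) (nat_lit 254861293) (nat_lit 3) (nat_lit 4) (nat_lit 4) (nat_lit 5) (nat_lit 4) (nat_lit 4) (nat_lit 332) (nat_lit 222) (nat_lit 166)))))) (XT.nd (nat_lit 312) (nat_lit 0) (nat_lit 0) (XT.nd (nat_lit 156) (nat_lit 76) (nat_lit 0) (XT.nd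 (nat_lit 78) (nat_lit 0) (nat_lit 0) (XT.lf (nat_lit 0) (nat_lit 1639619832) (nat_lit 152) (nat_lit 7123064493) (nat_lit 76) (nat_lit 123587258121) (nat_lit 2) (nat_lit 5) (nat_lit 4) (nat_lit 5) (nat_lit 3) (nat_lit 4) (nat_lit 333) (nat_lit 222) (nat_lit 165)) (XT.lf (nat_lit 0) (nat_lit 3607164418) (nat_lit 152) (nat_lit 3122582951) (nat_lit 76) (nat_lit 132113777773) (nat_lit 2) (nat_lit 5) (nat_lit 4) (nat_lit 5) (nat_lit 3) (nat_lit 4) (nat_lit 334) (nat_lit 222) (nat_lit 164))) (XT.nd (nat_lit 78) (nat_lit 0) (nat_lit 0) (XT.lf (nat_lit 0) (nat_lit 1090477126) (nat_lit 76) (nat_lit 4587162525) (nat_lit 152) (nat_lit 139983935196) (nat_lit 1) (nat_lit 5) (nat_lit 2) (nat_lit 5) (nat_lit 3) (nat_lit 4) (nat_lit 335) (nat_lit 222) (nat_lit 163)) (XT.lf (nat_lit 0) (nat_lit 5600612061) (nat_lit 76) (nat_lit 2291687675) (nat_lit 152) (nat_lit 144926209051) (nat_lit 1) (nat_lit 5)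 (nat_lit 2) (nat_lit 5) (nat_lit 3) (nat_lit 4) (nat_lit 336) (nat_lit 222) (nat_lit 162)))) (XT.nd (nat_lit 156) (nat_lit 0) (nat_lit 0) (XT.nd (nat_lit 78) (nat_lit 0) (nat_lit 0) (XT.lf (nat_lit 0) (nat_lit 10207759290) (nat_lit 152) (nat_lit 150020277775) (nat_lit 0) (nat_lit 105763136) (nat_lit 1) (nat_lit 5) (nat_lit 3) (nat_lit 4) (nat_lit 1) (nat_lit 4) (nat_lit 337) (nat_lit 222) (nat_lit 161)) (XT.lf (nat_lit 0) (nat_lit 12665337039) (nat_lit 152) (nat_lit 153020718931) (nat_lit 0) (nat_lit 2537496385) (nat_lit 1) (nat_lit 5) (nat_lit 3) (nat_lit 4) (nat_lit 1) (nat_lit 4) (nat_lit 338) (nat_lit 222) (nat_lit 160))) (XT.nd (nat_lit 78) (nat_lit 0) (nat_lit 0) (XT.lf (nat_lit 0) (nat_lit 15235104691) (nat_lit 152) (nat_lit 156190584435) (nat_lit 0) (nat_lit 5082650227) (nat_lit 1) (nat_lit 5) (nat_lit 3) (nat_lit 4) (nat_lit 1) (nat_lit 4) (nat_lit 339) (nat_lit 222) (nat_lit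 159)) (XT.nd (nat_lit 78) (nat_lit 0) (nat_lit 0) (XT.lf (nat_lit 0) (nat_lit 17923180742) (nat_lit 152) (nat_lit 159537421585) (nat_lit 0) (nat_lit 7747284554) (nat_lit 1) (nat_lit 5) (nat_lit 3) (nat_lit 4) (nat_lit 1) (nat_lit 4) (nat_lit 340) (nat_lit 222) (nat_lit 158)) (XT.lf (nat_lit 0) (nat_lit 20735965371) (nat_lit 152) (nat_lit 163069199043) (nat_lit 0) (nat_lit 10537743732) (nat_lit 1) (nat_lit 5) (nat_lit 3) (nat_lit 4) (nat_lit 1) (nat_lit 4) (nat_lit 341) (nat_lit 222) (nat_lit 157))))))))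
noncomputable def xc58 : XT := (XT.nd (nat_lit 1326) (nat_lit 0) (nat_lit 0) (XT.nd (nat_lit 624) (nat_lit 0) (nat_lit 0) (XT.nd (nat_lit 312) (nat_lit 0) (nat_lit 0) (XT.nd (nat_lit 156) (nat_lit 0) (nat_lit 0) (XT.nd (nat_lit 78) (nat_lit 0) (nat_lit 0) (XT.lf (nat_lit 0) (nat_lit 23680155686) (nat_lit 152) (nat_lit 166794325800) (nat_lit 0) (nat_lit 13460671713) (nat_lit 1) (nat_lit 5) (nat_lit 3) (nat_lit 4) (nat_lit 1) (nat_lit 4) (nat_lit 342) (nat_lit 222) (nat_lit 156)) (XT.lf (nat_lit 0) (nat_lit 26762761664) (nat_lit 152) (nat_lit 170721671208) (nat_lit 0) (nat_lit 16523027848) (nat_lit 1) (nat_lit 5) (nat_lit 3) (nat_lit 4) (nat_lit 1) (nat_lit 4) (nat_lit 343) (nat_lit 222) (nat_lit 155))) (XT.nd (nat_lit 78) (nat_lit 0) (nat_lit 0) (XT.lf (nat_lit 0) (nat_lit 29991122841) (nat_lit 152) (nat_lit 174860586087) (nat_lit 0) (nat_lit 19732103462) (nat_lit 1) (nat_lit 5) (nat_lit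 3) (nat_lit 4) (nat_lit 1) (nat_lit 4) (nat_lit 344) (nat_lit 222) (nat_lit 154)) (XT.lf (nat_lit 0) (nat_lit 33372925794) (nat_lit 152) (nat_lit 179220924999) (nat_lit 0) (nat_lit 23095539211) (nat_lit 1) (nat_lit 5) (nat_lit 3) (nat_lit 4) (nat_lit 1) (nat_lit 4) (nat_lit 345) (nat_lit 222) (nat_lit 153)))) (XT.nd (nat_lit 156) (nat_lit 0) (nat_lit 0) (XT.nd (nat_lit 78) (nat_lit 0) (nat_lit 0) (XT.lf (nat_lit 0) (nat_lit 36916222433) (nat_lit 152) (nat_lit 183813069701) (nat_lit 0) (nat_lit 26621343275) (nat_lit 1) (nat_lit 5) (nat_lit 3) (nat_lit 4) (nat_lit 1) (nat_lit 4) (nat_lit 346) (nat_lit 222) (nat_lit 152)) (XT.lf (nat_lit 0) (nat_lit 40629449179) (nat_lit 152) (nat_lit 188647953872) (nat_lit 0) (nat_lit 30317910425) (nat_lit 1) (nat_lit 5) (nat_lit 3) (nat_lit 4) (nat_lit 1) (nat_lit 4) (nat_lit 347) (nat_lit 222) (nat_lit 151))) (XT.nd (nat_lit 78) (nat_lit 0) (nat_lit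 0) (XT.lf (nat_lit 0) (nat_lit 44521447048) (nat_lit 152) (nat_lit 193737089141) (nat_lit 0) (nat_lit 34194042013) (nat_lit 1) (nat_lit 5) (nat_lit 3) (nat_lit 4) (nat_lit 1) (nat_lit 4) (nat_lit 348) (nat_lit 222) (nat_lit 150)) (XT.lf (nat_lit 0) (nat_lit 48601482702) (nat_lit 152) (nat_lit 199092592497) (nat_lit 0) (nat_lit 38258966923) (nat_lit 1) (nat_lit 5) (nat_lit 3) (nat_lit 4) (nat_lit 1) (nat_lit 4) (nat_lit 349) (nat_lit 222) (nat_lit 149))))) (XT.nd (nat_lit 312) (nat_lit 0) (nat_lit 0) (XT.nd (nat_lit 156) (nat_lit 0) (nat_lit 0) (XT.nd (nat_lit 78) (nat_lit 0) (nat_lit 0) (XT.lf (nat_lit 0) (nat_lit 52879270511) (nat_lit 152) (nat_lit 204727215137) (nat_lit 0) (nat_lit 42522363547) (nat_lit 1) (nat_lit 5) (nat_lit 3) (nat_lit 4) (nat_lit 1) (nat_lit 4) (nat_lit 350) (nat_lit 222) (nat_lit 148)) (XT.lf (nat_lit 0) (nat_lit 57364995684) (nat_lit 152) (nat_lit 210654372830)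 (nat_lit 0) (nat_lit 46994382830) (nat_lit 1) (nat_lit 5) (nat_lit 3) (nat_lit 4) (nat_lit 1) (nat_lit 4) (nat_lit 351) (nat_lit 222) (nat_lit 147))) (XT.nd (nat_lit 78) (nat_lit 0) (nat_lit 0) (XT.lf (nat_lit 0) (nat_lit 62069338520) (nat_lit 152) (nat_lit 216888177857) (nat_lit 0) (nat_lit 51685672437) (nat_lit 1) (nat_lit 5) (nat_lit 3) (nat_lit 4) (nat_lit 1) (nat_lit 4) (nat_lit 352) (nat_lit 222) (nat_lit 146)) (XT.lf (nat_lit 0) (nat_lit 67003499835) (nat_lit 152) (nat_lit 223443472610) (nat_lit 0) (nat_lit 56607402105) (nat_lit 1) (nat_lit 5) (nat_lit 3) (nat_lit 4) (nat_lit 1) (nat_lit 4) (nat_lit 353) (nat_lit 222) (nat_lit 145)))) (XT.nd (nat_lit 156) (nat_lit 0) (nat_lit 0) (XT.nd (nat_lit 78) (nat_lit 0) (nat_lit 0) (XT.lf (nat_lit 0) (nat_lit 72179227631) (nat_lit 152) (nat_lit 230335864934) (nat_lit 0) (nat_lit 61771290238) (nat_lit 1) (nat_lit 5) (nat_lit 3) (nat_lit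 4) (nat_lit 1) (nat_lit 4) (nat_lit 354) (nat_lit 222) (nat_lit 144)) (XT.lf (nat_lit 0) (nat_lit 77608845070) (nat_lit 152) (nat_lit 237581765287) (nat_lit 0) (nat_lit 67189631808) (nat_lit 1) (nat_lit 5) (nat_lit 3) (nat_lit 4) (nat_lit 1) (nat_lit 4) (nat_lit 355) (nat_lit 222) (nat_lit 143))) (XT.nd (nat_lit 78) (nat_lit 0) (nat_lit 0) (XT.lf (nat_lit 0) (nat_lit 83305279814) (nat_lit 152) (nat_lit 245198425813) (nat_lit 0) (nat_lit 72875327627) (nat_lit 1) (nat_lit 5) (nat_lit 3) (nat_lit 4) (nat_lit 1) (nat_lit 4) (nat_lit 356) (nat_lit 222) (nat_lit 142)) (XT.nd (nat_lit 78) (nat_lit 0) (nat_lit 0) (XT.lf (nat_lit 0) (nat_lit 89282094801) (nat_lit 152) (nat_lit 253203981417) (nat_lit 0) (nat_lit 78841915068) (nat_lit 1) (nat_lit 5) (nat_lit 3) (nat_lit 4) (nat_lit 1) (nat_lit 4) (nat_lit 357) (nat_lit 222) (nat_lit 141)) (XT.lf (nat_lit 0) (nat_lit 95553520543) (nat_lit 152)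 (nat_lit 261617492946) (nat_lit 0) (nat_lit 85103600290) (nat_lit 1) (nat_lit 5) (nat_lit 3) (nat_lit 4) (nat_lit 1) (nat_lit 4) (nat_lit 358) (nat_lit 222) (nat_lit 140))))))) (XT.nd (nat_lit 31200) (nat_lit 0) (nat_lit 836) (XT.nd (nat_lit 312) (nat_lit 0) (nat_lit 0) (XT.nd (nat_lit 156) (nat_lit 0) (nat_lit 0) (XT.nd (nat_lit 78) (nat_lit 0) (nat_lit 0) (XT.lf (nat_lit 0) (nat_lit 102134489007) (nat_lit 152) (nat_lit 270458992571) (nat_lit 0) (nat_lit 91675292068) (nat_lit 1) (nat_lit 5) (nat_lit 3) (nat_lit 4) (nat_lit 1) (nat_lit 4) (nat_lit 359) (nat_lit 222) (nat_lit 139)) (XT.lf (nat_lit 0) (nat_lit 109040669165) (nat_lit 152) (nat_lit 279749531480) (nat_lit 0) (nat_lit 98572637287) (nat_lit 1) (nat_lit 5) (nat_lit 3) (nat_lit 4) (nat_lit 1) (nat_lit 4) (nat_lit 360) (nat_lit 222) (nat_lit 138))) (XT.nd (nat_lit 78) (nat_lit 0) (nat_lit 0) (XT.lf (nat_lit 0) (nat_lit 116288504304)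 (nat_lit 152) (nat_lit 289511230006) (nat_lit 0) (nat_lit 105812058198) (nat_lit 1) (nat_lit 5) (nat_lit 3) (nat_lit 4) (nat_lit 1) (nat_lit 4) (nat_lit 361) (nat_lit 222) (nat_lit 137)) (XT.lf (nat_lit 0) (nat_lit 123895251172) (nat_lit 152) (nat_lit 299767330287) (nat_lit 0) (nat_lit 113410791516) (nat_lit 1) (nat_lit 5) (nat_lit 3) (nat_lit 4) (nat_lit 1) (nat_lit 4) (nat_lit 362) (nat_lit 222) (nat_lit 136)))) (XT.nd (nat_lit 30654) (nat_lit 0) (nat_lit 1520) (XT.nd (nat_lit 30576) (nat_lit 0) (nat_lit 1900) (XT.lf (nat_lit 0) (nat_lit 131879021074) (nat_lit 152) (nat_lit 310542251610) (nat_lit 0) (nat_lit 121386929465) (nat_lit 1) (nat_lit 5) (nat_lit 3) (nat_lit 4) (nat_lit 1) (nat_lit 4) (nat_lit 363) (nat_lit 222) (nat_lit 135)) (XT.lf (nat_lit 0) (nat_lit 3772685122) (nat_lit 228) (nat_lit 841808254) (nat_lit 228) (nat_lit 841808254) (nat_lit 26) (nat_lit 4) (nat_lit 29) (nat_lit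 5) (nat_lit 29) (nat_lit 4) (nat_lit 274) (nat_lit 223) (nat_lit 223))) (XT.nd (nat_lit 78) (nat_lit 152) (nat_lit 0) (XT.lf (nat_lit 0) (nat_lit 1725418828) (nat_lit 228) (nat_lit 8501538167) (nat_lit 0) (nat_lit 1012170970) (nat_lit 23) (nat_lit 5) (nat_lit 26) (nat_lit 4) (nat_lit 23) (nat_lit 4) (nat_lit 275) (nat_lit 223) (nat_lit 222)) (XT.nd (nat_lit 78) (nat_lit 152) (nat_lit 0) (XT.lf (nat_lit 0) (nat_lit 5199389001) (nat_lit 228) (nat_lit 2577152184) (nat_lit 0) (nat_lit 3806857469) (nat_lit 23) (nat_lit 5) (nat_lit 26) (nat_lit 4) (nat_lit 23) (nat_lit 4) (nat_lit 276) (nat_lit 223) (nat_lit 221)) (XT.lf (nat_lit 0) (nat_lit 3560806218) (nat_lit 152) (nat_lit 5213753042) (nat_lit 152) (nat_lit 3174284678) (nat_lit 21) (nat_lit 4) (nat_lit 23) (nat_lit 5) (nat_lit 23) (nat_lit 4) (nat_lit 277) (nat_lit 223) (nat_lit 220)))))) (XT.nd (nat_lit 312) (nat_lit 304) (nat_lit 0)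 (XT.nd (nat_lit 156) (nat_lit 152) (nat_lit 0) (XT.nd (nat_lit 78) (nat_lit 152) (nat_lit 0) (XT.lf (nat_lit 0) (nat_lit 106644069) (nat_lit 228) (nat_lit 2436978337) (nat_lit 76) (nat_lit 9793241600) (nat_lit 20) (nat_lit 5) (nat_lit 23) (nat_lit 5) (nat_lit 21) (nat_lit 4) (nat_lit 278) (nat_lit 223) (nat_lit 219)) (XT.lf (nat_lit 0) (nat_lit 3386040467) (nat_lit 228) (nat_lit 9060827700) (nat_lit 0) (nat_lit 298050507) (nat_lit 18) (nat_lit 5) (nat_lit 21) (nat_lit 4) (nat_lit 18) (nat_lit 4) (nat_lit 279) (nat_lit 223) (nat_lit 218))) (XT.nd (nat_lit 78) (nat_lit 152) (nat_lit 0) (XT.lf (nat_lit 0) (nat_lit 6793579716) (nat_lit 228) (nat_lit 3208511028) (nat_lit 0) (nat_lit 3173353223) (nat_lit 18) (nat_lit 5) (nat_lit 21) (nat_lit 4) (nat_lit 18) (nat_lit 4) (nat_lit 280) (nat_lit 223) (nat_lit 217)) (XT.lf (nat_lit 0) (nat_lit 2845944370) (nat_lit 152) (nat_lit 7456200261) (nat_lit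 152) (nat_lit 3329081831) (nat_lit 16) (nat_lit 4) (nat_lit 18) (nat_lit 5) (nat_lit 18) (nat_lit 4) (nat_lit 281) (nat_lit 223) (nat_lit 216)))) (XT.nd (nat_lit 156) (nat_lit 152) (nat_lit 0) (XT.nd (nat_lit 78) (nat_lit 152) (nat_lit 0) (XT.lf (nat_lit 0) (nat_lit 9135878169) (nat_lit 152) (nat_lit 4793442137) (nat_lit 152) (nat_lit 183569483) (nat_lit 16) (nat_lit 4) (nat_lit 18) (nat_lit 5) (nat_lit 18) (nat_lit 4) (nat_lit 282) (nat_lit 223) (nat_lit 215)) (XT.lf (nat_lit 0) (nat_lit 928776335) (nat_lit 76) (nat_lit 1997279722) (nat_lit 152) (nat_lit 11695039148) (nat_lit 14) (nat_lit 5) (nat_lit 15) (nat_lit 5) (nat_lit 16) (nat_lit 4) (nat_lit 283) (nat_lit 223) (nat_lit 214))) (XT.nd (nat_lit 78) (nat_lit 152) (nat_lit 0) (XT.lf (nat_lit 0) (nat_lit 6178926949) (nat_lit 152) (nat_lit 8042475014) (nat_lit 0) (nat_lit 933678477) (nat_lit 14) (nat_lit 5) (nat_lit 16) (nat_lit 4)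 (nat_lit 14) (nat_lit 4) (nat_lit 284) (nat_lit 223) (nat_lit 213)) (XT.nd (nat_lit 78) (nat_lit 152) (nat_lit 0) (XT.lf (nat_lit 0) (nat_lit 9525857721) (nat_lit 152) (nat_lit 2310096609) (nat_lit 0) (nat_lit 3883446153) (nat_lit 14) (nat_lit 5) (nat_lit 16) (nat_lit 4) (nat_lit 14) (nat_lit 4) (nat_lit 285) (nat_lit 223) (nat_lit 212)) (XT.lf (nat_lit 0) (nat_lit 3667015392) (nat_lit 152) (nat_lit 9333871114) (nat_lit 152) (nat_lit 3313208980) (nat_lit 12) (nat_lit 4) (nat_lit 14) (nat_lit 5) (nat_lit 14) (nat_lit 4) (nat_lit 286) (nat_lit 223) (nat_lit 211))))))))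
noncomputable def xc59 : XT := (XT.nd (nat_lit 1326) (nat_lit 228) (nat_lit 0) (XT.nd (nat_lit 624) (nat_lit 152) (nat_lit 0) (XT.nd (nat_lit 312) (nat_lit 152) (nat_lit 0) (XT.nd (nat_lit 156) (nat_lit 76) (nat_lit 0) (XT.nd (nat_lit 78) (nat_lit 76) (nat_lit 0) (XT.lf (nat_lit 0) (nat_lit 9866500209) (nat_lit 152) (nat_lit 6727937221) (nat_lit 152) (nat_lit 347036451) (nat_lit 12) (nat_lit 4) (nat_lit 14) (nat_lit 5) (nat_lit 14) (nat_lit 4) (nat_lit 287) (nat_lit 223) (nat_lit 210)) (XT.lf (nat_lit 0) (nat_lit 2587364577) (nat_lit 228) (nat_lit 1419887800) (nat_lit 76) (nat_lit 13595553441) (nat_lit 11) (nat_lit 5) (nat_lit 14) (nat_lit 5) (nat_lit 12) (nat_lit 4) (nat_lit 288) (nat_lit 223) (nat_lit 209))) (XT.nd (nat_lit 78) (nat_lit 0) (nat_lit 0) (XT.lf (nat_lit 0) (nat_lit 4511499098) (nat_lit 76) (nat_lit 1128613752) (nat_lit 152) (nat_lit 12657804242) (nat_lit 10) (nat_lit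 5) (nat_lit 11) (nat_lit 5) (nat_lit 12) (nat_lit 4) (nat_lit 289) (nat_lit 223) (nat_lit 208)) (XT.lf (nat_lit 0) (nat_lit 8813382847) (nat_lit 152) (nat_lit 8414130317) (nat_lit 0) (nat_lit 1802030539) (nat_lit 10) (nat_lit 5) (nat_lit 12) (nat_lit 4) (nat_lit 10) (nat_lit 4) (nat_lit 290) (nat_lit 223) (nat_lit 207)))) (XT.nd (nat_lit 156) (nat_lit 76) (nat_lit 0) (XT.nd (nat_lit 78) (nat_lit 76) (nat_lit 0) (XT.lf (nat_lit 0) (nat_lit 12081793108) (nat_lit 152) (nat_lit 2931096952) (nat_lit 0) (nat_lit 4788184402) (nat_lit 10) (nat_lit 5) (nat_lit 12) (nat_lit 4) (nat_lit 10) (nat_lit 4) (nat_lit 291) (nat_lit 223) (nat_lit 206)) (XT.lf (nat_lit 0) (nat_lit 2782412335) (nat_lit 76) (nat_lit 12696533656) (nat_lit 76) (nat_lit 5134109334) (nat_lit 9) (nat_lit 4) (nat_lit 10) (nat_lit 5) (nat_lit 10) (nat_lit 4) (nat_lit 292) (nat_lit 223) (nat_lit 205))) (XT.nd (nat_lit 78) (nat_lit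 76) (nat_lit 0) (XT.lf (nat_lit 0) (nat_lit 8752768651) (nat_lit 76) (nat_lit 10266389362) (nat_lit 76) (nat_lit 2447950167) (nat_lit 9) (nat_lit 4) (nat_lit 10) (nat_lit 5) (nat_lit 10) (nat_lit 4) (nat_lit 293) (nat_lit 223) (nat_lit 204)) (XT.lf (nat_lit 0) (nat_lit 286479898) (nat_lit 152) (nat_lit 7474979091) (nat_lit 76) (nat_lit 14605940251) (nat_lit 8) (nat_lit 5) (nat_lit 10) (nat_lit 5) (nat_lit 9) (nat_lit 4) (nat_lit 294) (nat_lit 223) (nat_lit 203))))) (XT.nd (nat_lit 312) (nat_lit 76) (nat_lit 0) (XT.nd (nat_lit 156) (nat_lit 0) (nat_lit 0) (XT.nd (nat_lit 78) (nat_lit 76) (nat_lit 0) (XT.lf (nat_lit 0) (nat_lit 3004779347) (nat_lit 152) (nat_lit 2134678256) (nat_lit 76) (nat_lit 18174884889) (nat_lit 8) (nat_lit 5) (nat_lit 10) (nat_lit 5) (nat_lit 9) (nat_lit 4) (nat_lit 295) (nat_lit 223) (nat_lit 202)) (XT.lf (nat_lit 0) (nat_lit 3468511362) (nat_lit 76) (nat_lit 2377411834)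 (nat_lit 152) (nat_lit 18463472676) (nat_lit 7) (nat_lit 5) (nat_lit 8) (nat_lit 5) (nat_lit 9) (nat_lit 4) (nat_lit 296) (nat_lit 223) (nat_lit 201))) (XT.nd (nat_lit 78) (nat_lit 0) (nat_lit 0) (XT.lf (nat_lit 0) (nat_lit 8807497304) (nat_lit 152) (nat_lit 16051112181) (nat_lit 0) (nat_lit 496778008) (nat_lit 7) (nat_lit 5) (nat_lit 9) (nat_lit 4) (nat_lit 7) (nat_lit 4) (nat_lit 297) (nat_lit 223) (nat_lit 200)) (XT.lf (nat_lit 0) (nat_lit 11892759536) (nat_lit 152) (nat_lit 11171239952) (nat_lit 0) (nat_lit 3390998000) (nat_lit 7) (nat_lit 5) (nat_lit 9) (nat_lit 4) (nat_lit 7) (nat_lit 4) (nat_lit 298) (nat_lit 223) (nat_lit 199)))) (XT.nd (nat_lit 156) (nat_lit 76) (nat_lit 0) (XT.nd (nat_lit 78) (nat_lit 0) (nat_lit 0) (XT.lf (nat_lit 0) (nat_lit 15071937693) (nat_lit 152) (nat_lit 6152531018) (nat_lit 0) (nat_lit 6388231167) (nat_lit 7) (nat_lit 5) (nat_lit 9) (nat_lit 4) (nat_lit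 7) (nat_lit 4) (nat_lit 299) (nat_lit 223) (nat_lit 198)) (XT.lf (nat_lit 0) (nat_lit 18352601247) (nat_lit 152) (nat_lit 983036072) (nat_lit 0) (nat_lit 9495613778) (nat_lit 7) (nat_lit 5) (nat_lit 9) (nat_lit 4) (nat_lit 7) (nat_lit 4) (nat_lit 300) (nat_lit 223) (nat_lit 197))) (XT.nd (nat_lit 78) (nat_lit 0) (nat_lit 0) (XT.lf (nat_lit 0) (nat_lit 4493369077) (nat_lit 76) (nat_lit 17319346308) (nat_lit 76) (nat_lit 8297329369) (nat_lit 6) (nat_lit 4) (nat_lit 7) (nat_lit 5) (nat_lit 7) (nat_lit 4) (nat_lit 301) (nat_lit 223) (nat_lit 196)) (XT.nd (nat_lit 78) (nat_lit 0) (nat_lit 0) (XT.lf (nat_lit 0) (nat_lit 10183881258) (nat_lit 76) (nat_lit 15225006859) (nat_lit 76) (nat_lit 6045818996) (nat_lit 6) (nat_lit 4) (nat_lit 7) (nat_lit 5) (nat_lit 7) (nat_lit 4) (nat_lit 302) (nat_lit 223) (nat_lit 195)) (XT.lf (nat_lit 0) (nat_lit 16069545694) (nat_lit 76) (nat_lit 13064280642)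 (nat_lit 76) (nat_lit 3735406186) (nat_lit 6) (nat_lit 4) (nat_lit 7) (nat_lit 5) (nat_lit 7) (nat_lit 4) (nat_lit 303) (nat_lit 223) (nat_lit 194))))))) (XT.nd (nat_lit 702) (nat_lit 76) (nat_lit 0) (XT.nd (nat_lit 312) (nat_lit 0) (nat_lit 0) (XT.nd (nat_lit 156) (nat_lit 76) (nat_lit 0) (XT.nd (nat_lit 78) (nat_lit 76) (nat_lit 0) (XT.lf (nat_lit 0) (nat_lit 22164375873) (nat_lit 76) (nat_lit 10832023071) (nat_lit 76) (nat_lit 1360589955) (nat_lit 6) (nat_lit 4) (nat_lit 7) (nat_lit 5) (nat_lit 7) (nat_lit 4) (nat_lit 304) (nat_lit 223) (nat_lit 193)) (XT.lf (nat_lit 0) (nat_lit 1049580161) (nat_lit 152) (nat_lit 7455563939) (nat_lit 76) (nat_lit 27415527986) (nat_lit 5) (nat_lit 5) (nat_lit 7) (nat_lit 5) (nat_lit 6) (nat_lit 4) (nat_lit 305) (nat_lit 223) (nat_lit 192))) (XT.nd (nat_lit 78) (nat_lit 76) (nat_lit 0) (XT.lf (nat_lit 0) (nat_lit 3489653177) (nat_lit 152) (nat_lit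 2582719162) (nat_lit 76) (nat_lit 31491359882) (nat_lit 5) (nat_lit 5) (nat_lit 7) (nat_lit 5) (nat_lit 6) (nat_lit 4) (nat_lit 306) (nat_lit 223) (nat_lit 191)) (XT.lf (nat_lit 0) (nat_lit 2540063842) (nat_lit 76) (nat_lit 3508579841) (nat_lit 152) (nat_lit 33240516930) (nat_lit 4) (nat_lit 5) (nat_lit 5) (nat_lit 5) (nat_lit 6) (nat_lit 4) (nat_lit 307) (nat_lit 223) (nat_lit 190)))) (XT.nd (nat_lit 156) (nat_lit 0) (nat_lit 0) (XT.nd (nat_lit 78) (nat_lit 0) (nat_lit 0) (XT.lf (nat_lit 0) (nat_lit 7934859966) (nat_lit 76) (nat_lit 802602978) (nat_lit 152) (nat_lit 32363361553) (nat_lit 4) (nat_lit 5) (nat_lit 5) (nat_lit 5) (nat_lit 6) (nat_lit 4) (nat_lit 308) (nat_lit 223) (nat_lit 189)) (XT.lf (nat_lit 0) (nat_lit 11552210743) (nat_lit 152) (nat_lit 29507357187) (nat_lit 0) (nat_lit 1943984541) (nat_lit 4) (nat_lit 5) (nat_lit 6) (nat_lit 4) (nat_lit 4) (nat_lit 4) (nat_lit 309)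 (nat_lit 223) (nat_lit 188))) (XT.nd (nat_lit 78) (nat_lit 0) (nat_lit 0) (XT.lf (nat_lit 0) (nat_lit 14482432575) (nat_lit 152) (nat_lit 25747407485) (nat_lit 0) (nat_lit 4772892594) (nat_lit 4) (nat_lit 5) (nat_lit 6) (nat_lit 4) (nat_lit 4) (nat_lit 4) (nat_lit 310) (nat_lit 223) (nat_lit 187)) (XT.nd (nat_lit 78) (nat_lit 0) (nat_lit 0) (XT.lf (nat_lit 0) (nat_lit 17522574276) (nat_lit 152) (nat_lit 21864632281) (nat_lit 0) (nat_lit 7716544983) (nat_lit 4) (nat_lit 5) (nat_lit 6) (nat_lit 4) (nat_lit 4) (nat_lit 4) (nat_lit 311) (nat_lit 223) (nat_lit 186)) (XT.lf (nat_lit 0) (nat_lit 20679874281) (nat_lit 152) (nat_lit 17849786872) (nat_lit 0) (nat_lit 10781950403) (nat_lit 4) (nat_lit 5) (nat_lit 6) (nat_lit 4) (nat_lit 4) (nat_lit 4) (nat_lit 312) (nat_lit 223) (nat_lit 185)))))) (XT.nd (nat_lit 312) (nat_lit 76) (nat_lit 0) (XT.nd (nat_lit 156) (nat_lit 0) (nat_lit 0) (XT.nd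 (nat_lit 78) (nat_lit 0) (nat_lit 0) (XT.lf (nat_lit 0) (nat_lit 23961849969) (nat_lit 152) (nat_lit 13693312104) (nat_lit 0) (nat_lit 13976407440) (nat_lit 4) (nat_lit 5) (nat_lit 6) (nat_lit 4) (nat_lit 4) (nat_lit 4) (nat_lit 313) (nat_lit 223) (nat_lit 184)) (XT.lf (nat_lit 0) (nat_lit 27376315568) (nat_lit 152) (nat_lit 9385311608) (nat_lit 0) (nat_lit 17307521943) (nat_lit 4) (nat_lit 5) (nat_lit 6) (nat_lit 4) (nat_lit 4) (nat_lit 4) (nat_lit 314) (nat_lit 223) (nat_lit 183))) (XT.nd (nat_lit 78) (nat_lit 0) (nat_lit 0) (XT.lf (nat_lit 0) (nat_lit 30931400759) (nat_lit 152) (nat_lit 4915528239) (nat_lit 0) (nat_lit 20783225138) (nat_lit 4) (nat_lit 5) (nat_lit 6) (nat_lit 4) (nat_lit 4) (nat_lit 4) (nat_lit 315) (nat_lit 223) (nat_lit 182)) (XT.lf (nat_lit 0) (nat_lit 34635570031) (nat_lit 152) (nat_lit 273319656) (nat_lit 0) (nat_lit 24411792508) (nat_lit 4) (nat_lit 5) (nat_lit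 6) (nat_lit 4) (nat_lit 4) (nat_lit 4) (nat_lit 316) (nat_lit 223) (nat_lit 181)))) (XT.nd (nat_lit 156) (nat_lit 0) (nat_lit 0) (XT.nd (nat_lit 78) (nat_lit 0) (nat_lit 0) (XT.lf (nat_lit 0) (nat_lit 4702888830) (nat_lit 76) (nat_lit 33868179277) (nat_lit 76) (nat_lit 23572399943) (nat_lit 3) (nat_lit 4) (nat_lit 4) (nat_lit 5) (nat_lit 4) (nat_lit 4) (nat_lit 317) (nat_lit 223) (nat_lit 180)) (XT.lf (nat_lit 0) (nat_lit 9889548837) (nat_lit 76) (nat_lit 32791669312) (nat_lit 76) (nat_lit 22427316825) (nat_lit 3) (nat_lit 4) (nat_lit 4) (nat_lit 5) (nat_lit 4) (nat_lit 4) (nat_lit 318) (nat_lit 223) (nat_lit 179))) (XT.nd (nat_lit 78) (nat_lit 0) (nat_lit 0) (XT.lf (nat_lit 0) (nat_lit 15289972373) (nat_lit 76) (nat_lit 31681425474) (nat_lit 76) (nat_lit 21251765222) (nat_lit 3) (nat_lit 4) (nat_lit 4) (nat_lit 5) (nat_lit 4) (nat_lit 4) (nat_lit 319) (nat_lit 223) (nat_lit 178)) (XT.nd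 (nat_lit 78) (nat_lit 0) (nat_lit 0) (XT.lf (nat_lit 0) (nat_lit 20917017589) (nat_lit 76) (nat_lit 30534804326) (nat_lit 76) (nat_lit 20042946202) (nat_lit 3) (nat_lit 4) (nat_lit 4) (nat_lit 5) (nat_lit 4) (nat_lit 4) (nat_lit 320) (nat_lit 223) (nat_lit 177)) (XT.lf (nat_lit 0) (nat_lit 26784082212) (nat_lit 76) (nat_lit 29349075817) (nat_lit 76) (nat_lit 18797981626) (nat_lit 3) (nat_lit 4) (nat_lit 4) (nat_lit 5) (nat_lit 4) (nat_lit 4) (nat_lit 321) (nat_lit 223) (nat_lit 176))))))))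
noncomputable def xc60 : XT := (XT.nd (nat_lit 1326) (nat_lit 0) (nat_lit 0) (XT.nd (nat_lit 624) (nat_lit 152) (nat_lit 0) (XT.nd (nat_lit 312) (nat_lit 0) (nat_lit 0) (XT.nd (nat_lit 156) (nat_lit 0) (nat_lit 0) (XT.nd (nat_lit 78) (nat_lit 0) (nat_lit 0) (XT.lf (nat_lit 0) (nat_lit 32905135443) (nat_lit 76) (nat_lit 28121416784) (nat_lit 76) (nat_lit 17513907290) (nat_lit 3) (nat_lit 4) (nat_lit 4) (nat_lit 5) (nat_lit 4) (nat_lit 4) (nat_lit 322) (nat_lit 223) (nat_lit 175)) (XT.lf (nat_lit 0) (nat_lit 39294751219) (nat_lit 76) (nat_lit 26848904230) (nat_lit 76) (nat_lit 16187665876) (nat_lit 3) (nat_lit 4) (nat_lit 4) (nat_lit 5) (nat_lit 4) (nat_lit 4) (nat_lit 323) (nat_lit 223) (nat_lit 174))) (XT.nd (nat_lit 78) (nat_lit 0) (nat_lit 0) (XT.lf (nat_lit 0) (nat_lit 45968142909) (nat_lit 76) (nat_lit 25528508362) (nat_lit 76) (nat_lit 14816099665) (nat_lit 3) (nat_lit 4) (nat_lit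 4) (nat_lit 5) (nat_lit 4) (nat_lit 4) (nat_lit 324) (nat_lit 223) (nat_lit 173)) (XT.lf (nat_lit 0) (nat_lit 52941199543) (nat_lit 76) (nat_lit 24157085381) (nat_lit 76) (nat_lit 13395943024) (nat_lit 3) (nat_lit 4) (nat_lit 4) (nat_lit 5) (nat_lit 4) (nat_lit 4) (nat_lit 325) (nat_lit 223) (nat_lit 172)))) (XT.nd (nat_lit 156) (nat_lit 0) (nat_lit 0) (XT.nd (nat_lit 78) (nat_lit 0) (nat_lit 0) (XT.lf (nat_lit 0) (nat_lit 60230523636) (nat_lit 76) (nat_lit 22731369994) (nat_lit 76) (nat_lit 11923814628) (nat_lit 3) (nat_lit 4) (nat_lit 4) (nat_lit 5) (nat_lit 4) (nat_lit 4) (nat_lit 326) (nat_lit 223) (nat_lit 171)) (XT.lf (nat_lit 0) (nat_lit 67853470722) (nat_lit 76) (nat_lit 21247967641) (nat_lit 76) (nat_lit 10396209409) (nat_lit 3) (nat_lit 4) (nat_lit 4) (nat_lit 5) (nat_lit 4) (nat_lit 4) (nat_lit 327) (nat_lit 223) (nat_lit 170))) (XT.nd (nat_lit 78) (nat_lit 0) (nat_lit 0)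 (XT.lf (nat_lit 0) (nat_lit 75828190674) (nat_lit 76) (nat_lit 19703346411) (nat_lit 76) (nat_lit 8809490211) (nat_lit 3) (nat_lit 4) (nat_lit 4) (nat_lit 5) (nat_lit 4) (nat_lit 4) (nat_lit 328) (nat_lit 223) (nat_lit 169)) (XT.lf (nat_lit 0) (nat_lit 84173670921) (nat_lit 76) (nat_lit 18093828635) (nat_lit 76) (nat_lit 7159879132) (nat_lit 3) (nat_lit 4) (nat_lit 4) (nat_lit 5) (nat_lit 4) (nat_lit 4) (nat_lit 329) (nat_lit 223) (nat_lit 168))))) (XT.nd (nat_lit 312) (nat_lit 76) (nat_lit 0) (XT.nd (nat_lit 156) (nat_lit 76) (nat_lit 0) (XT.nd (nat_lit 78) (nat_lit 0) (nat_lit 0) (XT.lf (nat_lit 0) (nat_lit 92909781654) (nat_lit 76) (nat_lit 16415582127) (nat_lit 76) (nat_lit 5443448527) (nat_lit 3) (nat_lit 4) (nat_lit 4) (nat_lit 5) (nat_lit 4) (nat_lit 4) (nat_lit 330) (nat_lit 223) (nat_lit 167)) (XT.lf (nat_lit 0) (nat_lit 102057323136) (nat_lit 76) (nat_lit 14664611063) (nat_lit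 76) (nat_lit 3656111655) (nat_lit 3) (nat_lit 4) (nat_lit 4) (nat_lit 5) (nat_lit 4) (nat_lit 4) (nat_lit 331) (nat_lit 223) (nat_lit 166))) (XT.nd (nat_lit 78) (nat_lit 76) (nat_lit 0) (XT.lf (nat_lit 0) (nat_lit 111638075230) (nat_lit 76) (nat_lit 12836746463) (nat_lit 76) (nat_lit 1793612954) (nat_lit 3) (nat_lit 4) (nat_lit 4) (nat_lit 5) (nat_lit 4) (nat_lit 4) (nat_lit 332) (nat_lit 223) (nat_lit 165)) (XT.lf (nat_lit 0) (nat_lit 143729743) (nat_lit 152) (nat_lit 10781472393) (nat_lit 76) (nat_lit 121528685371) (nat_lit 2) (nat_lit 5) (nat_lit 4) (nat_lit 5) (nat_lit 3) (nat_lit 4) (nat_lit 333) (nat_lit 223) (nat_lit 164)))) (XT.nd (nat_lit 156) (nat_lit 76) (nat_lit 0) (XT.nd (nat_lit 78) (nat_lit 0) (nat_lit 0) (XT.lf (nat_lit 0) (nat_lit 2105190434) (nat_lit 152) (nat_lit 6791892129) (nat_lit 76) (nat_lit 130050699419) (nat_lit 2) (nat_lit 5) (nat_lit 4) (nat_lit 5) (nat_lit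 3) (nat_lit 4) (nat_lit 334) (nat_lit 223) (nat_lit 163)) (XT.lf (nat_lit 0) (nat_lit 4152846077) (nat_lit 152) (nat_lit 2624116299) (nat_lit 76) (nat_lit 138990017511) (nat_lit 2) (nat_lit 5) (nat_lit 4) (nat_lit 5) (nat_lit 3) (nat_lit 4) (nat_lit 335) (nat_lit 223) (nat_lit 162))) (XT.nd (nat_lit 78) (nat_lit 0) (nat_lit 0) (XT.lf (nat_lit 0) (nat_lit 1789038784) (nat_lit 76) (nat_lit 4530465169) (nat_lit 152) (nat_lit 146606816864) (nat_lit 1) (nat_lit 5) (nat_lit 2) (nat_lit 5) (nat_lit 3) (nat_lit 4) (nat_lit 336) (nat_lit 223) (nat_lit 161)) (XT.nd (nat_lit 78) (nat_lit 0) (nat_lit 0) (XT.lf (nat_lit 0) (nat_lit 6494012000) (nat_lit 76) (nat_lit 2133838266) (nat_lit 152) (nat_lit 151814124178) (nat_lit 1) (nat_lit 5) (nat_lit 2) (nat_lit 5) (nat_lit 3) (nat_lit 4) (nat_lit 337) (nat_lit 223) (nat_lit 160)) (XT.lf (nat_lit 0) (nat_lit 11046898681) (nat_lit 152) (nat_lit 156924552937)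 (nat_lit 0) (nat_lit 362207684) (nat_lit 1) (nat_lit 5) (nat_lit 3) (nat_lit 4) (nat_lit 1) (nat_lit 4) (nat_lit 338) (nat_lit 223) (nat_lit 159))))))) (XT.nd (nat_lit 702) (nat_lit 0) (nat_lit 0) (XT.nd (nat_lit 312) (nat_lit 0) (nat_lit 0) (XT.nd (nat_lit 156) (nat_lit 0) (nat_lit 0) (XT.nd (nat_lit 78) (nat_lit 0) (nat_lit 0) (XT.lf (nat_lit 0) (nat_lit 13611700487) (nat_lit 152) (nat_lit 160103432281) (nat_lit 0) (nat_lit 2903567766) (nat_lit 1) (nat_lit 5) (nat_lit 3) (nat_lit 4) (nat_lit 1) (nat_lit 4) (nat_lit 339) (nat_lit 223) (nat_lit 158)) (XT.lf (nat_lit 0) (nat_lit 16295047160) (nat_lit 152) (nat_lit 163458854040) (nat_lit 0) (nat_lit 5564588989) (nat_lit 1) (nat_lit 5) (nat_lit 3) (nat_lit 4) (nat_lit 1) (nat_lit 4) (nat_lit 340) (nat_lit 223) (nat_lit 157))) (XT.nd (nat_lit 78) (nat_lit 0) (nat_lit 0) (XT.lf (nat_lit 0) (nat_lit 19103327621) (nat_lit 152) (nat_lit 166998807316)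 (nat_lit 0) (nat_lit 8351607115) (nat_lit 1) (nat_lit 5) (nat_lit 3) (nat_lit 4) (nat_lit 1) (nat_lit 4) (nat_lit 341) (nat_lit 223) (nat_lit 156)) (XT.lf (nat_lit 0) (nat_lit 22043228252) (nat_lit 152) (nat_lit 170731720567) (nat_lit 0) (nat_lit 11271257903) (nat_lit 1) (nat_lit 5) (nat_lit 3) (nat_lit 4) (nat_lit 1) (nat_lit 4) (nat_lit 342) (nat_lit 223) (nat_lit 155)))) (XT.nd (nat_lit 156) (nat_lit 0) (nat_lit 0) (XT.nd (nat_lit 78) (nat_lit 0) (nat_lit 0) (XT.lf (nat_lit 0) (nat_lit 25121748815) (nat_lit 152) (nat_lit 174666481683) (nat_lit 0) (nat_lit 14330492903) (nat_lit 1) (nat_lit 5) (nat_lit 3) (nat_lit 4) (nat_lit 1) (nat_lit 4) (nat_lit 343) (nat_lit 223) (nat_lit 154)) (XT.lf (nat_lit 0) (nat_lit 28346219123) (nat_lit 152) (nat_lit 178812459142) (nat_lit 0) (nat_lit 17536596006) (nat_lit 1) (nat_lit 5) (nat_lit 3) (nat_lit 4) (nat_lit 1) (nat_lit 4) (nat_lit 344) (nat_lit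 223) (nat_lit 153))) (XT.nd (nat_lit 78) (nat_lit 0) (nat_lit 0) (XT.lf (nat_lit 0) (nat_lit 31724316484) (nat_lit 152) (nat_lit 183179524320) (nat_lit 0) (nat_lit 20897200793) (nat_lit 1) (nat_lit 5) (nat_lit 3) (nat_lit 4) (nat_lit 1) (nat_lit 4) (nat_lit 345) (nat_lit 223) (nat_lit 152)) (XT.nd (nat_lit 78) (nat_lit 0) (nat_lit 0) (XT.lf (nat_lit 0) (nat_lit 35264083989) (nat_lit 152) (nat_lit 187778074990) (nat_lit 0) (nat_lit 24420308703) (nat_lit 1) (nat_lit 5) (nat_lit 3) (nat_lit 4) (nat_lit 1) (nat_lit 4) (nat_lit 346) (nat_lit 223) (nat_lit 151)) (XT.lf (nat_lit 0) (nat_lit 38973949655) (nat_lit 152) (nat_lit 192619060082) (nat_lit 0) (nat_lit 28114308087) (nat_lit 1) (nat_lit 5) (nat_lit 3) (nat_lit 4) (nat_lit 1) (nat_lit 4) (nat_lit 347) (nat_lit 223) (nat_lit 150)))))) (XT.nd (nat_lit 312) (nat_lit 0) (nat_lit 0) (XT.nd (nat_lit 156) (nat_lit 0) (nat_lit 0) (XT.nd (nat_lit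 78) (nat_lit 0) (nat_lit 0) (XT.lf (nat_lit 0) (nat_lit 42862746496) (nat_lit 152) (nat_lit 197714005753) (nat_lit 0) (nat_lit 31987994184) (nat_lit 1) (nat_lit 5) (nat_lit 3) (nat_lit 4) (nat_lit 1) (nat_lit 4) (nat_lit 348) (nat_lit 223) (nat_lit 149)) (XT.lf (nat_lit 0) (nat_lit 46939733551) (nat_lit 152) (nat_lit 203075042824) (nat_lit 0) (nat_lit 36050590054) (nat_lit 1) (nat_lit 5) (nat_lit 3) (nat_lit 4) (nat_lit 1) (nat_lit 4) (nat_lit 349) (nat_lit 223) (nat_lit 148))) (XT.nd (nat_lit 78) (nat_lit 0) (nat_lit 0) (XT.lf (nat_lit 0) (nat_lit 51214617932) (nat_lit 152) (nat_lit 208714935669) (nat_lit 0) (nat_lit 40311768545) (nat_lit 1) (nat_lit 5) (nat_lit 3) (nat_lit 4) (nat_lit 1) (nat_lit 4) (nat_lit 350) (nat_lit 223) (nat_lit 147)) (XT.lf (nat_lit 0) (nat_lit 55697577937) (nat_lit 152) (nat_lit 214647112606) (nat_lit 0) (nat_lit 44781675321) (nat_lit 1) (nat_lit 5) (nat_lit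 3) (nat_lit 4) (nat_lit 1) (nat_lit 4) (nat_lit 351) (nat_lit 223) (nat_lit 146)))) (XT.nd (nat_lit 156) (nat_lit 0) (nat_lit 0) (XT.nd (nat_lit 78) (nat_lit 0) (nat_lit 0) (XT.lf (nat_lit 0) (nat_lit 60399287278) (nat_lit 152) (nat_lit 220885697865) (nat_lit 0) (nat_lit 49470953016) (nat_lit 1) (nat_lit 5) (nat_lit 3) (nat_lit 4) (nat_lit 1) (nat_lit 4) (nat_lit 352) (nat_lit 223) (nat_lit 145)) (XT.lf (nat_lit 0) (nat_lit 65330940503) (nat_lit 152) (nat_lit 227445545219) (nat_lit 0) (nat_lit 54390766578) (nat_lit 1) (nat_lit 5) (nat_lit 3) (nat_lit 4) (nat_lit 1) (nat_lit 4) (nat_lit 353) (nat_lit 223) (nat_lit 144))) (XT.nd (nat_lit 78) (nat_lit 0) (nat_lit 0) (XT.lf (nat_lit 0) (nat_lit 70504279643) (nat_lit 152) (nat_lit 234342273354) (nat_lit 0) (nat_lit 59552829847) (nat_lit 1) (nat_lit 5) (nat_lit 3) (nat_lit 4) (nat_lit 1) (nat_lit 4) (nat_lit 354) (nat_lit 223) (nat_lit 143))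 (XT.nd (nat_lit 78) (nat_lit 0) (nat_lit 0) (XT.lf (nat_lit 0) (nat_lit 75931622171) (nat_lit 152) (nat_lit 241592303051) (nat_lit 0) (nat_lit 64969433452) (nat_lit 1) (nat_lit 5) (nat_lit 3) (nat_lit 4) (nat_lit 1) (nat_lit 4) (nat_lit 355) (nat_lit 223) (nat_lit 142)) (XT.lf (nat_lit 0) (nat_lit 81625890332) (nat_lit 152) (nat_lit 249212896285) (nat_lit 0) (nat_lit 70653474066) (nat_lit 1) (nat_lit 5) (nat_lit 3) (nat_lit 4) (nat_lit 1) (nat_lit 4) (nat_lit 356) (nat_lit 223) (nat_lit 141))))))))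
noncomputable def xc61 : XT := (XT.nd (nat_lit 31668) (nat_lit 0) (nat_lit 456) (XT.nd (nat_lit 30966) (nat_lit 0) (nat_lit 1140) (XT.nd (nat_lit 312) (nat_lit 0) (nat_lit 0) (XT.nd (nat_lit 156) (nat_lit 0) (nat_lit 0) (XT.nd (nat_lit 78) (nat_lit 0) (nat_lit 0) (XT.lf (nat_lit 0) (nat_lit 87600641907) (nat_lit 152) (nat_lit 257222197326) (nat_lit 0) (nat_lit 76618485121) (nat_lit 1) (nat_lit 5) (nat_lit 3) (nat_lit 4) (nat_lit 1) (nat_lit 4) (nat_lit 357) (nat_lit 223) (nat_lit 140)) (XT.lf (nat_lit 0) (nat_lit 93870102496) (nat_lit 152) (nat_lit 265639275937) (nat_lit 0) (nat_lit 82878669024) (nat_lit 1) (nat_lit 5) (nat_lit 3) (nat_lit 4) (nat_lit 1) (nat_lit 4) (nat_lit 358) (nat_lit 223) (nat_lit 139))) (XT.nd (nat_lit 78) (nat_lit 0) (nat_lit 0) (XT.lf (nat_lit 0) (nat_lit 100449199384) (nat_lit 152) (nat_lit 274484172783) (nat_lit 0) (nat_lit 89448930973) (nat_lit 1) (nat_lit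 5) (nat_lit 3) (nat_lit 4) (nat_lit 1) (nat_lit 4) (nat_lit 359) (nat_lit 223) (nat_lit 138)) (XT.lf (nat_lit 0) (nat_lit 107353597090) (nat_lit 152) (nat_lit 283777947142) (nat_lit 0) (nat_lit 96344914451) (nat_lit 1) (nat_lit 5) (nat_lit 3) (nat_lit 4) (nat_lit 1) (nat_lit 4) (nat_lit 360) (nat_lit 223) (nat_lit 137)))) (XT.nd (nat_lit 156) (nat_lit 0) (nat_lit 0) (XT.nd (nat_lit 78) (nat_lit 0) (nat_lit 0) (XT.lf (nat_lit 0) (nat_lit 114599734655) (nat_lit 152) (nat_lit 293542727048) (nat_lit 0) (nat_lit 103583038466) (nat_lit 1) (nat_lit 5) (nat_lit 3) (nat_lit 4) (nat_lit 1) (nat_lit 4) (nat_lit 361) (nat_lit 223) (nat_lit 136)) (XT.lf (nat_lit 0) (nat_lit 122204864786) (nat_lit 152) (nat_lit 303801761976) (nat_lit 0) (nat_lit 111180536645) (nat_lit 1) (nat_lit 5) (nat_lit 3) (nat_lit 4) (nat_lit 1) (nat_lit 4) (nat_lit 362) (nat_lit 223) (nat_lit 135))) (XT.nd (nat_lit 30420)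 (nat_lit 0) (nat_lit 2128) (XT.lf (nat_lit 0) (nat_lit 130187094938) (nat_lit 152) (nat_lit 314579478201) (nat_lit 0) (nat_lit 119155498271) (nat_lit 1) (nat_lit 5) (nat_lit 3) (nat_lit 4) (nat_lit 1) (nat_lit 4) (nat_lit 363) (nat_lit 223) (nat_lit 134)) (XT.lf (nat_lit 0) (nat_lit 1414590122) (nat_lit 228) (nat_lit 2326001592) (nat_lit 0) (nat_lit 1414590122) (nat_lit 29) (nat_lit 5) (nat_lit 32) (nat_lit 4) (nat_lit 29) (nat_lit 4) (nat_lit 272) (nat_lit 224) (nat_lit 224))))) (XT.nd (nat_lit 312) (nat_lit 532) (nat_lit 0) (XT.nd (nat_lit 156) (nat_lit 228) (nat_lit 0) (XT.nd (nat_lit 78) (nat_lit 0) (nat_lit 0) (XT.lf (nat_lit 0) (nat_lit 1268836014) (nat_lit 228) (nat_lit 5060902961) (nat_lit 228) (nat_lit 4274547198) (nat_lit 26) (nat_lit 4) (nat_lit 29) (nat_lit 5) (nat_lit 29) (nat_lit 4) (nat_lit 273) (nat_lit 224) (nat_lit 223)) (XT.lf (nat_lit 0) (nat_lit 7448366460) (nat_lit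 228) (nat_lit 2501483626) (nat_lit 228) (nat_lit 966217613) (nat_lit 26) (nat_lit 4) (nat_lit 29) (nat_lit 5) (nat_lit 29) (nat_lit 4) (nat_lit 274) (nat_lit 224) (nat_lit 222))) (XT.nd (nat_lit 78) (nat_lit 0) (nat_lit 0) (XT.lf (nat_lit 0) (nat_lit 2339831863) (nat_lit 228) (nat_lit 8707983828) (nat_lit 0) (nat_lit 198390081) (nat_lit 23) (nat_lit 5) (nat_lit 26) (nat_lit 4) (nat_lit 23) (nat_lit 4) (nat_lit 275) (nat_lit 224) (nat_lit 221)) (XT.lf (nat_lit 0) (nat_lit 5751317847) (nat_lit 228) (nat_lit 2879507560) (nat_lit 0) (nat_lit 2962939233) (nat_lit 23) (nat_lit 5) (nat_lit 26) (nat_lit 4) (nat_lit 23) (nat_lit 4) (nat_lit 276) (nat_lit 224) (nat_lit 220)))) (XT.nd (nat_lit 156) (nat_lit 304) (nat_lit 0) (XT.nd (nat_lit 78) (nat_lit 76) (nat_lit 0) (XT.lf (nat_lit 0) (nat_lit 3154090824) (nat_lit 152) (nat_lit 6106538565) (nat_lit 152) (nat_lit 2702029634) (nat_lit 21) (nat_lit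 4) (nat_lit 23) (nat_lit 5) (nat_lit 23) (nat_lit 4) (nat_lit 277) (nat_lit 224) (nat_lit 219)) (XT.lf (nat_lit 0) (nat_lit 504609824) (nat_lit 228) (nat_lit 2956849567) (nat_lit 76) (nat_lit 8891951390) (nat_lit 20) (nat_lit 5) (nat_lit 23) (nat_lit 5) (nat_lit 21) (nat_lit 4) (nat_lit 278) (nat_lit 224) (nat_lit 218))) (XT.nd (nat_lit 78) (nat_lit 152) (nat_lit 0) (XT.lf (nat_lit 0) (nat_lit 3061593904) (nat_lit 152) (nat_lit 651450959) (nat_lit 228) (nat_lit 9052103552) (nat_lit 18) (nat_lit 5) (nat_lit 20) (nat_lit 5) (nat_lit 21) (nat_lit 4) (nat_lit 279) (nat_lit 224) (nat_lit 217)) (XT.nd (nat_lit 78) (nat_lit 152) (nat_lit 0) (XT.lf (nat_lit 0) (nat_lit 7054908522) (nat_lit 228) (nat_lit 3929635207) (nat_lit 0) (nat_lit 2214542235) (nat_lit 18) (nat_lit 5) (nat_lit 21) (nat_lit 4) (nat_lit 18) (nat_lit 4) (nat_lit 280) (nat_lit 224) (nat_lit 216)) (XT.lf (nat_lit 0) (nat_lit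 2013836751) (nat_lit 152) (nat_lit 8483783615) (nat_lit 152) (nat_lit 3160663103) (nat_lit 16) (nat_lit 4) (nat_lit 18) (nat_lit 5) (nat_lit 18) (nat_lit 4) (nat_lit 281) (nat_lit 224) (nat_lit 215))))))) (XT.nd (nat_lit 702) (nat_lit 228) (nat_lit 0) (XT.nd (nat_lit 312) (nat_lit 304) (nat_lit 0) (XT.nd (nat_lit 156) (nat_lit 76) (nat_lit 0) (XT.nd (nat_lit 78) (nat_lit 76) (nat_lit 0) (XT.lf (nat_lit 0) (nat_lit 8220780246) (nat_lit 152) (nat_lit 5852375761) (nat_lit 152) (nat_lit 69489321) (nat_lit 16) (nat_lit 4) (nat_lit 18) (nat_lit 5) (nat_lit 18) (nat_lit 4) (nat_lit 282) (nat_lit 224) (nat_lit 214)) (XT.lf (nat_lit 0) (nat_lit 2971889480) (nat_lit 228) (nat_lit 128385318) (nat_lit 76) (nat_lit 11553822360) (nat_lit 15) (nat_lit 5) (nat_lit 18) (nat_lit 5) (nat_lit 16) (nat_lit 4) (nat_lit 283) (nat_lit 224) (nat_lit 213))) (XT.nd (nat_lit 78) (nat_lit 0) (nat_lit 0) (XT.lf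 (nat_lit 0) (nat_lit 5987513868) (nat_lit 76) (nat_lit 171166069) (nat_lit 152) (nat_lit 9032807143) (nat_lit 14) (nat_lit 5) (nat_lit 15) (nat_lit 5) (nat_lit 16) (nat_lit 4) (nat_lit 284) (nat_lit 224) (nat_lit 212)) (XT.lf (nat_lit 0) (nat_lit 9455864712) (nat_lit 152) (nat_lit 3546606677) (nat_lit 0) (nat_lit 2755918903) (nat_lit 14) (nat_lit 5) (nat_lit 16) (nat_lit 4) (nat_lit 14) (nat_lit 4) (nat_lit 285) (nat_lit 224) (nat_lit 211)))) (XT.nd (nat_lit 156) (nat_lit 152) (nat_lit 0) (XT.nd (nat_lit 78) (nat_lit 0) (nat_lit 0) (XT.lf (nat_lit 0) (nat_lit 2313189437) (nat_lit 152) (nat_lit 10551735029) (nat_lit 152) (nat_lit 3491550585) (nat_lit 12) (nat_lit 4) (nat_lit 14) (nat_lit 5) (nat_lit 14) (nat_lit 4) (nat_lit 286) (nat_lit 224) (nat_lit 210)) (XT.lf (nat_lit 0) (nat_lit 8439882558) (nat_lit 152) (nat_lit 7974759192) (nat_lit 152) (nat_lit 571490333) (nat_lit 12) (nat_lit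 4) (nat_lit 14) (nat_lit 5) (nat_lit 14) (nat_lit 4) (nat_lit 287) (nat_lit 224) (nat_lit 209))) (XT.nd (nat_lit 78) (nat_lit 76) (nat_lit 0) (XT.lf (nat_lit 0) (nat_lit 2327583766) (nat_lit 228) (nat_lit 2958469198) (nat_lit 76) (nat_lit 12363790691) (nat_lit 11) (nat_lit 5) (nat_lit 14) (nat_lit 5) (nat_lit 12) (nat_lit 4) (nat_lit 288) (nat_lit 224) (nat_lit 208)) (XT.nd (nat_lit 78) (nat_lit 0) (nat_lit 0) (XT.lf (nat_lit 0) (nat_lit 2852377449) (nat_lit 76) (nat_lit 2461564524) (nat_lit 152) (nat_lit 13034407575) (nat_lit 10) (nat_lit 5) (nat_lit 11) (nat_lit 5) (nat_lit 12) (nat_lit 4) (nat_lit 289) (nat_lit 224) (nat_lit 207)) (XT.lf (nat_lit 0) (nat_lit 8426388629) (nat_lit 152) (nat_lit 10170857146) (nat_lit 0) (nat_lit 485843091) (nat_lit 10) (nat_lit 5) (nat_lit 12) (nat_lit 4) (nat_lit 10) (nat_lit 4) (nat_lit 290) (nat_lit 224) (nat_lit 206)))))) (XT.nd (nat_lit 312) (nat_lit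 152) (nat_lit 0) (XT.nd (nat_lit 156) (nat_lit 0) (nat_lit 0) (XT.nd (nat_lit 78) (nat_lit 76) (nat_lit 0) (XT.lf (nat_lit 0) (nat_lit 11656691990) (nat_lit 152) (nat_lit 4752570276) (nat_lit 0) (nat_lit 3447330836) (nat_lit 10) (nat_lit 5) (nat_lit 12) (nat_lit 4) (nat_lit 10) (nat_lit 4) (nat_lit 291) (nat_lit 224) (nat_lit 205)) (XT.lf (nat_lit 0) (nat_lit 837010679) (nat_lit 76) (nat_lit 14150168738) (nat_lit 76) (nat_lit 5684792711) (nat_lit 9) (nat_lit 4) (nat_lit 10) (nat_lit 5) (nat_lit 10) (nat_lit 4) (nat_lit 292) (nat_lit 224) (nat_lit 204))) (XT.nd (nat_lit 78) (nat_lit 0) (nat_lit 0) (XT.lf (nat_lit 0) (nat_lit 6746698236) (nat_lit 76) (nat_lit 11745181913) (nat_lit 76) (nat_lit 3035982198) (nat_lit 9) (nat_lit 4) (nat_lit 10) (nat_lit 5) (nat_lit 10) (nat_lit 4) (nat_lit 293) (nat_lit 224) (nat_lit 203)) (XT.lf (nat_lit 0) (nat_lit 12833421639) (nat_lit 76) (nat_lit 9269062710)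 (nat_lit 76) (nat_lit 327649958) (nat_lit 9) (nat_lit 4) (nat_lit 10) (nat_lit 5) (nat_lit 10) (nat_lit 4) (nat_lit 294) (nat_lit 224) (nat_lit 202)))) (XT.nd (nat_lit 156) (nat_lit 0) (nat_lit 0) (XT.nd (nat_lit 78) (nat_lit 76) (nat_lit 0) (XT.lf (nat_lit 0) (nat_lit 2368344259) (nat_lit 152) (nat_lit 4307462291) (nat_lit 76) (nat_lit 16703219773) (nat_lit 8) (nat_lit 5) (nat_lit 10) (nat_lit 5) (nat_lit 9) (nat_lit 4) (nat_lit 295) (nat_lit 224) (nat_lit 201)) (XT.lf (nat_lit 0) (nat_lit 1168625185) (nat_lit 76) (nat_lit 3973724706) (nat_lit 152) (nat_lit 19235137565) (nat_lit 7) (nat_lit 5) (nat_lit 8) (nat_lit 5) (nat_lit 9) (nat_lit 4) (nat_lit 296) (nat_lit 224) (nat_lit 200))) (XT.nd (nat_lit 78) (nat_lit 0) (nat_lit 0) (XT.lf (nat_lit 0) (nat_lit 6960173657) (nat_lit 76) (nat_lit 1105172733) (nat_lit 152) (nat_lit 17360109989) (nat_lit 7) (nat_lit 5) (nat_lit 8) (nat_lit 5)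 (nat_lit 9) (nat_lit 4) (nat_lit 297) (nat_lit 224) (nat_lit 199)) (XT.nd (nat_lit 78) (nat_lit 0) (nat_lit 0) (XT.lf (nat_lit 0) (nat_lit 11103916128) (nat_lit 152) (nat_lit 13619451702) (nat_lit 0) (nat_lit 1804079285) (nat_lit 7) (nat_lit 5) (nat_lit 9) (nat_lit 4) (nat_lit 7) (nat_lit 4) (nat_lit 298) (nat_lit 224) (nat_lit 198)) (XT.lf (nat_lit 0) (nat_lit 14255058426) (nat_lit 152) (nat_lit 8649596151) (nat_lit 0) (nat_lit 4781940640) (nat_lit 7) (nat_lit 5) (nat_lit 9) (nat_lit 4) (nat_lit 7) (nat_lit 4) (nat_lit 299) (nat_lit 224) (nat_lit 197))))))))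
noncomputable def xc62 : XT := (XT.nd (nat_lit 1326) (nat_lit 152) (nat_lit 0) (XT.nd (nat_lit 624) (nat_lit 76) (nat_lit 0) (XT.nd (nat_lit 312) (nat_lit 76) (nat_lit 0) (XT.nd (nat_lit 156) (nat_lit 0) (nat_lit 0) (XT.nd (nat_lit 78) (nat_lit 76) (nat_lit 0) (XT.lf (nat_lit 0) (nat_lit 17509021161) (nat_lit 152) (nat_lit 3526628237) (nat_lit 0) (nat_lit 7870873906) (nat_lit 7) (nat_lit 5) (nat_lit 9) (nat_lit 4) (nat_lit 7) (nat_lit 4) (nat_lit 300) (nat_lit 224) (nat_lit 196)) (XT.lf (nat_lit 0) (nat_lit 1819897673) (nat_lit 76) (nat_lit 19082067894) (nat_lit 76) (nat_lit 9286749716) (nat_lit 6) (nat_lit 4) (nat_lit 7) (nat_lit 5) (nat_lit 7) (nat_lit 4) (nat_lit 301) (nat_lit 224) (nat_lit 195))) (XT.nd (nat_lit 78) (nat_lit 0) (nat_lit 0) (XT.lf (nat_lit 0) (nat_lit 7466813096) (nat_lit 76) (nat_lit 17006426106) (nat_lit 76) (nat_lit 7061421334) (nat_lit 6) (nat_lit 4) (nat_lit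 7) (nat_lit 5) (nat_lit 7) (nat_lit 4) (nat_lit 302) (nat_lit 224) (nat_lit 194)) (XT.lf (nat_lit 0) (nat_lit 13310956810) (nat_lit 76) (nat_lit 14863507185) (nat_lit 76) (nat_lit 4775943752) (nat_lit 6) (nat_lit 4) (nat_lit 7) (nat_lit 5) (nat_lit 7) (nat_lit 4) (nat_lit 303) (nat_lit 224) (nat_lit 193)))) (XT.nd (nat_lit 156) (nat_lit 76) (nat_lit 0) (XT.nd (nat_lit 78) (nat_lit 0) (nat_lit 0) (XT.lf (nat_lit 0) (nat_lit 19366243445) (nat_lit 76) (nat_lit 12648208944) (nat_lit 76) (nat_lit 2424875358) (nat_lit 6) (nat_lit 4) (nat_lit 7) (nat_lit 5) (nat_lit 7) (nat_lit 4) (nat_lit 304) (nat_lit 224) (nat_lit 192)) (XT.lf (nat_lit 0) (nat_lit 25647090349) (nat_lit 76) (nat_lit 10355256863) (nat_lit 76) (nat_lit 2618370) (nat_lit 6) (nat_lit 4) (nat_lit 7) (nat_lit 5) (nat_lit 7) (nat_lit 4) (nat_lit 305) (nat_lit 224) (nat_lit 191))) (XT.nd (nat_lit 78) (nat_lit 0) (nat_lit 0) (XT.lf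 (nat_lit 0) (nat_lit 2416687876) (nat_lit 152) (nat_lit 5521575877) (nat_lit 76) (nat_lit 29710836264) (nat_lit 5) (nat_lit 5) (nat_lit 7) (nat_lit 5) (nat_lit 6) (nat_lit 4) (nat_lit 306) (nat_lit 224) (nat_lit 190)) (XT.lf (nat_lit 0) (nat_lit 4916163176) (nat_lit 152) (nat_lit 514934874) (nat_lit 76) (nat_lit 33946434428) (nat_lit 5) (nat_lit 5) (nat_lit 7) (nat_lit 5) (nat_lit 6) (nat_lit 4) (nat_lit 307) (nat_lit 224) (nat_lit 189))))) (XT.nd (nat_lit 312) (nat_lit 0) (nat_lit 0) (XT.nd (nat_lit 156) (nat_lit 0) (nat_lit 0) (XT.nd (nat_lit 78) (nat_lit 0) (nat_lit 0) (XT.lf (nat_lit 0) (nat_lit 4828553082) (nat_lit 76) (nat_lit 2748676630) (nat_lit 152) (nat_lit 33613381251) (nat_lit 4) (nat_lit 5) (nat_lit 5) (nat_lit 5) (nat_lit 6) (nat_lit 4) (nat_lit 308) (nat_lit 224) (nat_lit 188)) (XT.lf (nat_lit 0) (nat_lit 10342852002) (nat_lit 152) (nat_lit 32706447645) (nat_lit 0) (nat_lit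 46521244) (nat_lit 4) (nat_lit 5) (nat_lit 6) (nat_lit 4) (nat_lit 4) (nat_lit 4) (nat_lit 309) (nat_lit 224) (nat_lit 187))) (XT.nd (nat_lit 78) (nat_lit 0) (nat_lit 0) (XT.lf (nat_lit 0) (nat_lit 13255224457) (nat_lit 152) (nat_lit 28978289154) (nat_lit 0) (nat_lit 2862404386) (nat_lit 4) (nat_lit 5) (nat_lit 6) (nat_lit 4) (nat_lit 4) (nat_lit 4) (nat_lit 310) (nat_lit 224) (nat_lit 186)) (XT.lf (nat_lit 0) (nat_lit 16278366753) (nat_lit 152) (nat_lit 25125791294) (nat_lit 0) (nat_lit 5793652098) (nat_lit 4) (nat_lit 5) (nat_lit 6) (nat_lit 4) (nat_lit 4) (nat_lit 4) (nat_lit 311) (nat_lit 224) (nat_lit 185)))) (XT.nd (nat_lit 156) (nat_lit 0) (nat_lit 0) (XT.nd (nat_lit 78) (nat_lit 0) (nat_lit 0) (XT.lf (nat_lit 0) (nat_lit 19419476847) (nat_lit 152) (nat_lit 21139781452) (nat_lit 0) (nat_lit 8847243540) (nat_lit 4) (nat_lit 5) (nat_lit 6) (nat_lit 4) (nat_lit 4) (nat_lit 4) (nat_lit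 312) (nat_lit 224) (nat_lit 184)) (XT.lf (nat_lit 0) (nat_lit 22686033572) (nat_lit 152) (nat_lit 17010769128) (nat_lit 0) (nat_lit 12030449170) (nat_lit 4) (nat_lit 5) (nat_lit 6) (nat_lit 4) (nat_lit 4) (nat_lit 4) (nat_lit 313) (nat_lit 224) (nat_lit 183))) (XT.nd (nat_lit 78) (nat_lit 0) (nat_lit 0) (XT.lf (nat_lit 0) (nat_lit 26085814446) (nat_lit 152) (nat_lit 12728923340) (nat_lit 0) (nat_lit 15350848047) (nat_lit 4) (nat_lit 5) (nat_lit 6) (nat_lit 4) (nat_lit 4) (nat_lit 4) (nat_lit 314) (nat_lit 224) (nat_lit 182)) (XT.nd (nat_lit 78) (nat_lit 0) (nat_lit 0) (XT.lf (nat_lit 0) (nat_lit 29626914184) (nat_lit 152) (nat_lit 8284049217) (nat_lit 0) (nat_lit 18816345883) (nat_lit 4) (nat_lit 5) (nat_lit 6) (nat_lit 4) (nat_lit 4) (nat_lit 4) (nat_lit 315) (nat_lit 224) (nat_lit 181)) (XT.lf (nat_lit 0) (nat_lit 33317763975) (nat_lit 152) (nat_lit 3665563726) (nat_lit 0) (nat_lit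 22435193864) (nat_lit 4) (nat_lit 5) (nat_lit 6) (nat_lit 4) (nat_lit 4) (nat_lit 4) (nat_lit 316) (nat_lit 224) (nat_lit 180))))))) (XT.nd (nat_lit 702) (nat_lit 76) (nat_lit 0) (XT.nd (nat_lit 312) (nat_lit 0) (nat_lit 0) (XT.nd (nat_lit 156) (nat_lit 0) (nat_lit 0) (XT.nd (nat_lit 78) (nat_lit 0) (nat_lit 0) (XT.lf (nat_lit 0) (nat_lit 1175141390) (nat_lit 76) (nat_lit 36010357419) (nat_lit 76) (nat_lit 25059214154) (nat_lit 3) (nat_lit 4) (nat_lit 4) (nat_lit 5) (nat_lit 4) (nat_lit 4) (nat_lit 317) (nat_lit 224) (nat_lit 179)) (XT.lf (nat_lit 0) (nat_lit 6339572387) (nat_lit 76) (nat_lit 34943648247) (nat_lit 76) (nat_lit 23927197217) (nat_lit 3) (nat_lit 4) (nat_lit 4) (nat_lit 5) (nat_lit 4) (nat_lit 4) (nat_lit 318) (nat_lit 224) (nat_lit 178))) (XT.nd (nat_lit 78) (nat_lit 0) (nat_lit 0) (XT.lf (nat_lit 0) (nat_lit 11718825437) (nat_lit 76) (nat_lit 33842738498) (nat_lit 76)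 (nat_lit 22764089596) (nat_lit 3) (nat_lit 4) (nat_lit 4) (nat_lit 5) (nat_lit 4) (nat_lit 4) (nat_lit 319) (nat_lit 224) (nat_lit 177)) (XT.lf (nat_lit 0) (nat_lit 17325708285) (nat_lit 76) (nat_lit 32705006958) (nat_lit 76) (nat_lit 21567121988) (nat_lit 3) (nat_lit 4) (nat_lit 4) (nat_lit 5) (nat_lit 4) (nat_lit 4) (nat_lit 320) (nat_lit 224) (nat_lit 176)))) (XT.nd (nat_lit 156) (nat_lit 0) (nat_lit 0) (XT.nd (nat_lit 78) (nat_lit 0) (nat_lit 0) (XT.lf (nat_lit 0) (nat_lit 23173570653) (nat_lit 76) (nat_lit 31527744742) (nat_lit 76) (nat_lit 20333444470) (nat_lit 3) (nat_lit 4) (nat_lit 4) (nat_lit 5) (nat_lit 4) (nat_lit 4) (nat_lit 321) (nat_lit 224) (nat_lit 175)) (XT.lf (nat_lit 0) (nat_lit 29276336022) (nat_lit 76) (nat_lit 30308148846) (nat_lit 76) (nat_lit 19060119714) (nat_lit 3) (nat_lit 4) (nat_lit 4) (nat_lit 5) (nat_lit 4) (nat_lit 4) (nat_lit 322) (nat_lit 224) (nat_lit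 174))) (XT.nd (nat_lit 78) (nat_lit 0) (nat_lit 0) (XT.lf (nat_lit 0) (nat_lit 35648534786) (nat_lit 76) (nat_lit 29043315469) (nat_lit 76) (nat_lit 17744115994) (nat_lit 3) (nat_lit 4) (nat_lit 4) (nat_lit 5) (nat_lit 4) (nat_lit 4) (nat_lit 323) (nat_lit 224) (nat_lit 173)) (XT.nd (nat_lit 78) (nat_lit 0) (nat_lit 0) (XT.lf (nat_lit 0) (nat_lit 42305338846) (nat_lit 76) (nat_lit 27730233104) (nat_lit 76) (nat_lit 16382299969) (nat_lit 3) (nat_lit 4) (nat_lit 4) (nat_lit 5) (nat_lit 4) (nat_lit 4) (nat_lit 324) (nat_lit 224) (nat_lit 172)) (XT.lf (nat_lit 0) (nat_lit 49262597738) (nat_lit 76) (nat_lit 26365775364) (nat_lit 76) (nat_lit 14971429220) (nat_lit 3) (nat_lit 4) (nat_lit 4) (nat_lit 5) (nat_lit 4) (nat_lit 4) (nat_lit 325) (nat_lit 224) (nat_lit 171)))))) (XT.nd (nat_lit 312) (nat_lit 76) (nat_lit 0) (XT.nd (nat_lit 156) (nat_lit 0) (nat_lit 0) (XT.nd (nat_lit 78) (nat_lit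 0) (nat_lit 0) (XT.lf (nat_lit 0) (nat_lit 56536876361) (nat_lit 76) (nat_lit 24946693539) (nat_lit 76) (nat_lit 13508144529) (nat_lit 3) (nat_lit 4) (nat_lit 4) (nat_lit 5) (nat_lit 4) (nat_lit 4) (nat_lit 326) (nat_lit 224) (nat_lit 170)) (XT.lf (nat_lit 0) (nat_lit 64145494428) (nat_lit 76) (nat_lit 23469608864) (nat_lit 76) (nat_lit 11988961887) (nat_lit 3) (nat_lit 4) (nat_lit 4) (nat_lit 5) (nat_lit 4) (nat_lit 4) (nat_lit 327) (nat_lit 224) (nat_lit 169))) (XT.nd (nat_lit 78) (nat_lit 0) (nat_lit 0) (XT.lf (nat_lit 0) (nat_lit 72106567696) (nat_lit 76) (nat_lit 21931004471) (nat_lit 76) (nat_lit 10410264191) (nat_lit 3) (nat_lit 4) (nat_lit 4) (nat_lit 5) (nat_lit 4) (nat_lit 4) (nat_lit 328) (nat_lit 224) (nat_lit 168)) (XT.lf (nat_lit 0) (nat_lit 80439051101) (nat_lit 76) (nat_lit 20327217015) (nat_lit 76) (nat_lit 8768292638) (nat_lit 3) (nat_lit 4) (nat_lit 4) (nat_lit 5)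 (nat_lit 4) (nat_lit 4) (nat_lit 329) (nat_lit 224) (nat_lit 167)))) (XT.nd (nat_lit 156) (nat_lit 76) (nat_lit 0) (XT.nd (nat_lit 78) (nat_lit 0) (nat_lit 0) (XT.lf (nat_lit 0) (nat_lit 89162783889) (nat_lit 76) (nat_lit 18654427956) (nat_lit 76) (nat_lit 7059137771) (nat_lit 3) (nat_lit 4) (nat_lit 4) (nat_lit 5) (nat_lit 4) (nat_lit 4) (nat_lit 330) (nat_lit 224) (nat_lit 166)) (XT.lf (nat_lit 0) (nat_lit 98298536853) (nat_lit 76) (nat_lit 16908654461) (nat_lit 76) (nat_lit 5278730174) (nat_lit 3) (nat_lit 4) (nat_lit 4) (nat_lit 5) (nat_lit 4) (nat_lit 4) (nat_lit 331) (nat_lit 224) (nat_lit 165))) (XT.nd (nat_lit 78) (nat_lit 76) (nat_lit 0) (XT.lf (nat_lit 0) (nat_lit 107868061785) (nat_lit 76) (nat_lit 15085739928) (nat_lit 76) (nat_lit 3422830782) (nat_lit 3) (nat_lit 4) (nat_lit 4) (nat_lit 5) (nat_lit 4) (nat_lit 4) (nat_lit 332) (nat_lit 224) (nat_lit 164)) (XT.nd (nat_lit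 78) (nat_lit 76) (nat_lit 0) (XT.lf (nat_lit 0) (nat_lit 117894143269) (nat_lit 76) (nat_lit 13181344084) (nat_lit 76) (nat_lit 1487020786) (nat_lit 3) (nat_lit 4) (nat_lit 4) (nat_lit 5) (nat_lit 4) (nat_lit 4) (nat_lit 333) (nat_lit 224) (nat_lit 163)) (XT.lf (nat_lit 0) (nat_lit 516239669) (nat_lit 152) (nat_lit 10665950214) (nat_lit 76) (nat_lit 127875670489) (nat_lit 2) (nat_lit 5) (nat_lit 4) (nat_lit 5) (nat_lit 3) (nat_lit 4) (nat_lit 334) (nat_lit 224) (nat_lit 162))))))))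
noncomputable def xc63 : XT := (XT.nd (nat_lit 1404) (nat_lit 0) (nat_lit 0) (XT.nd (nat_lit 702) (nat_lit 0) (nat_lit 0) (XT.nd (nat_lit 312) (nat_lit 0) (nat_lit 0) (XT.nd (nat_lit 156) (nat_lit 76) (nat_lit 0) (XT.nd (nat_lit 78) (nat_lit 0) (nat_lit 0) (XT.lf (nat_lit 0) (nat_lit 2558377040) (nat_lit 152) (nat_lit 6508062165) (nat_lit 76) (nat_lit 136810901865) (nat_lit 2) (nat_lit 5) (nat_lit 4) (nat_lit 5) (nat_lit 3) (nat_lit 4) (nat_lit 335) (nat_lit 224) (nat_lit 161)) (XT.lf (nat_lit 0) (nat_lit 4691847509) (nat_lit 152) (nat_lit 2161584428) (nat_lit 76) (nat_lit 146184915983) (nat_lit 2) (nat_lit 5) (nat_lit 4) (nat_lit 5) (nat_lit 3) (nat_lit 4) (nat_lit 336) (nat_lit 224) (nat_lit 160))) (XT.nd (nat_lit 78) (nat_lit 0) (nat_lit 0) (XT.lf (nat_lit 0) (nat_lit 2462651995) (nat_lit 76) (nat_lit 4497527672) (nat_lit 152) (nat_lit 153595828826) (nat_lit 1) (nat_lit 5) (nat_lit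 2) (nat_lit 5) (nat_lit 3) (nat_lit 4) (nat_lit 337) (nat_lit 224) (nat_lit 159)) (XT.lf (nat_lit 0) (nat_lit 7375056668) (nat_lit 76) (nat_lit 1993424698) (nat_lit 152) (nat_lit 159079755262) (nat_lit 1) (nat_lit 5) (nat_lit 2) (nat_lit 5) (nat_lit 3) (nat_lit 4) (nat_lit 338) (nat_lit 224) (nat_lit 158)))) (XT.nd (nat_lit 156) (nat_lit 0) (nat_lit 0) (XT.nd (nat_lit 78) (nat_lit 0) (nat_lit 0) (XT.lf (nat_lit 0) (nat_lit 11897430850) (nat_lit 152) (nat_lit 164229520968) (nat_lit 0) (nat_lit 608124318) (nat_lit 1) (nat_lit 5) (nat_lit 3) (nat_lit 4) (nat_lit 1) (nat_lit 4) (nat_lit 339) (nat_lit 224) (nat_lit 157)) (XT.lf (nat_lit 0) (nat_lit 14576273354) (nat_lit 152) (nat_lit 167593118546) (nat_lit 0) (nat_lit 3265704488) (nat_lit 1) (nat_lit 5) (nat_lit 3) (nat_lit 4) (nat_lit 1) (nat_lit 4) (nat_lit 340) (nat_lit 224) (nat_lit 156))) (XT.nd (nat_lit 78) (nat_lit 0) (nat_lit 0)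 (XT.lf (nat_lit 0) (nat_lit 17380264130) (nat_lit 152) (nat_lit 171140858315) (nat_lit 0) (nat_lit 6049445422) (nat_lit 1) (nat_lit 5) (nat_lit 3) (nat_lit 4) (nat_lit 1) (nat_lit 4) (nat_lit 341) (nat_lit 224) (nat_lit 155)) (XT.nd (nat_lit 78) (nat_lit 0) (nat_lit 0) (XT.lf (nat_lit 0) (nat_lit 20316079347) (nat_lit 152) (nat_lit 174881187275) (nat_lit 0) (nat_lit 8965975075) (nat_lit 1) (nat_lit 5) (nat_lit 3) (nat_lit 4) (nat_lit 1) (nat_lit 4) (nat_lit 342) (nat_lit 224) (nat_lit 154)) (XT.lf (nat_lit 0) (nat_lit 23390709040) (nat_lit 152) (nat_lit 178823010970) (nat_lit 0) (nat_lit 12022237564) (nat_lit 1) (nat_lit 5) (nat_lit 3) (nat_lit 4) (nat_lit 1) (nat_lit 4) (nat_lit 343) (nat_lit 224) (nat_lit 153)))))) (XT.nd (nat_lit 312) (nat_lit 0) (nat_lit 0) (XT.nd (nat_lit 156) (nat_lit 0) (nat_lit 0) (XT.nd (nat_lit 78) (nat_lit 0) (nat_lit 0) (XT.lf (nat_lit 0) (nat_lit 26611473757)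 (nat_lit 152) (nat_lit 182975714695) (nat_lit 0) (nat_lit 15225509706) (nat_lit 1) (nat_lit 5) (nat_lit 3) (nat_lit 4) (nat_lit 1) (nat_lit 4) (nat_lit 344) (nat_lit 224) (nat_lit 152)) (XT.lf (nat_lit 0) (nat_lit 29986041984) (nat_lit 152) (nat_lit 187349185840) (nat_lit 0) (nat_lit 18583418338) (nat_lit 1) (nat_lit 5) (nat_lit 3) (nat_lit 4) (nat_lit 1) (nat_lit 4) (nat_lit 345) (nat_lit 224) (nat_lit 151))) (XT.nd (nat_lit 78) (nat_lit 0) (nat_lit 0) (XT.lf (nat_lit 0) (nat_lit 33522448409) (nat_lit 152) (nat_lit 191953837431) (nat_lit 0) (nat_lit 22103958482) (nat_lit 1) (nat_lit 5) (nat_lit 3) (nat_lit 4) (nat_lit 1) (nat_lit 4) (nat_lit 346) (nat_lit 224) (nat_lit 150)) (XT.lf (nat_lit 0) (nat_lit 37229113046) (nat_lit 152) (nat_lit 196800632926) (nat_lit 0) (nat_lit 25795512375) (nat_lit 1) (nat_lit 5) (nat_lit 3) (nat_lit 4) (nat_lit 1) (nat_lit 4) (nat_lit 347) (nat_lit 224)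 (nat_lit 149)))) (XT.nd (nat_lit 156) (nat_lit 0) (nat_lit 0) (XT.nd (nat_lit 78) (nat_lit 0) (nat_lit 0) (XT.lf (nat_lit 0) (nat_lit 41114861288) (nat_lit 152) (nat_lit 201901112312) (nat_lit 0) (nat_lit 29666869432) (nat_lit 1) (nat_lit 5) (nat_lit 3) (nat_lit 4) (nat_lit 1) (nat_lit 4) (nat_lit 348) (nat_lit 224) (nat_lit 148)) (XT.lf (nat_lit 0) (nat_lit 45188944916) (nat_lit 152) (nat_lit 207267419588) (nat_lit 0) (nat_lit 33727247169) (nat_lit 1) (nat_lit 5) (nat_lit 3) (nat_lit 4) (nat_lit 1) (nat_lit 4) (nat_lit 349) (nat_lit 224) (nat_lit 147))) (XT.nd (nat_lit 78) (nat_lit 0) (nat_lit 0) (XT.lf (nat_lit 0) (nat_lit 49461064128) (nat_lit 152) (nat_lit 212912331677) (nat_lit 0) (nat_lit 37986313153) (nat_lit 1) (nat_lit 5) (nat_lit 3) (nat_lit 4) (nat_lit 1) (nat_lit 4) (nat_lit 350) (nat_lit 224) (nat_lit 146)) (XT.nd (nat_lit 78) (nat_lit 0) (nat_lit 0) (XT.lf (nat_lit 0)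 (nat_lit 53941390639) (nat_lit 152) (nat_lit 218849288846) (nat_lit 0) (nat_lit 42454208017) (nat_lit 1) (nat_lit 5) (nat_lit 3) (nat_lit 4) (nat_lit 1) (nat_lit 4) (nat_lit 351) (nat_lit 224) (nat_lit 145)) (XT.lf (nat_lit 0) (nat_lit 58640591891) (nat_lit 152) (nat_lit 225092426706) (nat_lit 0) (nat_lit 47141569605) (nat_lit 1) (nat_lit 5) (nat_lit 3) (nat_lit 4) (nat_lit 1) (nat_lit 4) (nat_lit 352) (nat_lit 224) (nat_lit 144))))))) (XT.nd (nat_lit 702) (nat_lit 0) (nat_lit 0) (XT.nd (nat_lit 312) (nat_lit 0) (nat_lit 0) (XT.nd (nat_lit 156) (nat_lit 0) (nat_lit 0) (XT.nd (nat_lit 78) (nat_lit 0) (nat_lit 0) (XT.lf (nat_lit 0) (nat_lit 63569856459) (nat_lit 152) (nat_lit 231656609871) (nat_lit 0) (nat_lit 52059558303) (nat_lit 1) (nat_lit 5) (nat_lit 3) (nat_lit 4) (nat_lit 1) (nat_lit 4) (nat_lit 353) (nat_lit 224) (nat_lit 143)) (XT.lf (nat_lit 0) (nat_lit 68740920687) (nat_lit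 152) (nat_lit 238557467350) (nat_lit 0) (nat_lit 57219883608) (nat_lit 1) (nat_lit 5) (nat_lit 3) (nat_lit 4) (nat_lit 1) (nat_lit 4) (nat_lit 354) (nat_lit 224) (nat_lit 142))) (XT.nd (nat_lit 78) (nat_lit 0) (nat_lit 0) (XT.lf (nat_lit 0) (nat_lit 74166096633) (nat_lit 152) (nat_lit 245811429755) (nat_lit 0) (nat_lit 62634832007) (nat_lit 1) (nat_lit 5) (nat_lit 3) (nat_lit 4) (nat_lit 1) (nat_lit 4) (nat_lit 355) (nat_lit 224) (nat_lit 141)) (XT.lf (nat_lit 0) (nat_lit 79858301382) (nat_lit 152) (nat_lit 253435768426) (nat_lit 0) (nat_lit 68317296237) (nat_lit 1) (nat_lit 5) (nat_lit 3) (nat_lit 4) (nat_lit 1) (nat_lit 4) (nat_lit 356) (nat_lit 224) (nat_lit 140)))) (XT.nd (nat_lit 156) (nat_lit 0) (nat_lit 0) (XT.nd (nat_lit 78) (nat_lit 0) (nat_lit 0) (XT.lf (nat_lit 0) (nat_lit 85831087803) (nat_lit 152) (nat_lit 261448636549) (nat_lit 0) (nat_lit 74280805972) (nat_lit 1) (nat_lit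 5) (nat_lit 3) (nat_lit 4) (nat_lit 1) (nat_lit 4) (nat_lit 357) (nat_lit 224) (nat_lit 139)) (XT.lf (nat_lit 0) (nat_lit 92098676817) (nat_lit 152) (nat_lit 269869112382) (nat_lit 0) (nat_lit 80539560046) (nat_lit 1) (nat_lit 5) (nat_lit 3) (nat_lit 4) (nat_lit 1) (nat_lit 4) (nat_lit 358) (nat_lit 224) (nat_lit 138))) (XT.nd (nat_lit 78) (nat_lit 0) (nat_lit 0) (XT.lf (nat_lit 0) (nat_lit 98675991253) (nat_lit 152) (nat_lit 278717244677) (nat_lit 0) (nat_lit 87108460255) (nat_lit 1) (nat_lit 5) (nat_lit 3) (nat_lit 4) (nat_lit 1) (nat_lit 4) (nat_lit 359) (nat_lit 224) (nat_lit 137)) (XT.nd (nat_lit 78) (nat_lit 0) (nat_lit 0) (XT.lf (nat_lit 0) (nat_lit 105578691385) (nat_lit 152) (nat_lit 288014100416) (nat_lit 0) (nat_lit 94003146836) (nat_lit 1) (nat_lit 5) (nat_lit 3) (nat_lit 4) (nat_lit 1) (nat_lit 4) (nat_lit 360) (nat_lit 224) (nat_lit 136)) (XT.lf (nat_lit 0) (nat_lit 112823212212)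 (nat_lit 152) (nat_lit 297781814969) (nat_lit 0) (nat_lit 101240035711) (nat_lit 1) (nat_lit 5) (nat_lit 3) (nat_lit 4) (nat_lit 1) (nat_lit 4) (nat_lit 361) (nat_lit 224) (nat_lit 135)))))) (XT.nd (nat_lit 30498) (nat_lit 0) (nat_lit 1672) (XT.nd (nat_lit 30342) (nat_lit 0) (nat_lit 2280) (XT.nd (nat_lit 78) (nat_lit 0) (nat_lit 0) (XT.lf (nat_lit 0) (nat_lit 120426802595) (nat_lit 152) (nat_lit 308043644800) (nat_lit 0) (nat_lit 108836357567) (nat_lit 1) (nat_lit 5) (nat_lit 3) (nat_lit 4) (nat_lit 1) (nat_lit 4) (nat_lit 362) (nat_lit 224) (nat_lit 134)) (XT.lf (nat_lit 0) (nat_lit 128407566318) (nat_lit 152) (nat_lit 318824022837) (nat_lit 0) (nat_lit 116810198885) (nat_lit 1) (nat_lit 5) (nat_lit 3) (nat_lit 4) (nat_lit 1) (nat_lit 4) (nat_lit 363) (nat_lit 224) (nat_lit 133))) (XT.nd (nat_lit 78) (nat_lit 76) (nat_lit 0) (XT.lf (nat_lit 0) (nat_lit 1794741702) (nat_lit 228) (nat_lit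 1544936872) (nat_lit 228) (nat_lit 1544936872) (nat_lit 32) (nat_lit 4) (nat_lit 35) (nat_lit 5) (nat_lit 35) (nat_lit 4) (nat_lit 270) (nat_lit 225) (nat_lit 225)) (XT.lf (nat_lit 0) (nat_lit 225188929) (nat_lit 304) (nat_lit 405319922) (nat_lit 76) (nat_lit 9405107722) (nat_lit 31) (nat_lit 5) (nat_lit 35) (nat_lit 5) (nat_lit 32) (nat_lit 4) (nat_lit 271) (nat_lit 225) (nat_lit 224)))) (XT.nd (nat_lit 156) (nat_lit 228) (nat_lit 0) (XT.nd (nat_lit 78) (nat_lit 228) (nat_lit 0) (XT.lf (nat_lit 0) (nat_lit 3587676970) (nat_lit 228) (nat_lit 4750597195) (nat_lit 0) (nat_lit 1975647655) (nat_lit 29) (nat_lit 5) (nat_lit 32) (nat_lit 4) (nat_lit 29) (nat_lit 4) (nat_lit 272) (nat_lit 225) (nat_lit 223)) (XT.lf (nat_lit 0) (nat_lit 1069978255) (nat_lit 228) (nat_lit 5951174790) (nat_lit 228) (nat_lit 3590235225) (nat_lit 26) (nat_lit 4) (nat_lit 29) (nat_lit 5) (nat_lit 29) (nat_lit 4)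 (nat_lit 273) (nat_lit 225) (nat_lit 222))) (XT.nd (nat_lit 78) (nat_lit 228) (nat_lit 0) (XT.lf (nat_lit 0) (nat_lit 7157124144) (nat_lit 228) (nat_lit 3421766270) (nat_lit 228) (nat_lit 347578847) (nat_lit 26) (nat_lit 4) (nat_lit 29) (nat_lit 5) (nat_lit 29) (nat_lit 4) (nat_lit 274) (nat_lit 225) (nat_lit 221)) (XT.nd (nat_lit 78) (nat_lit 0) (nat_lit 0) (XT.lf (nat_lit 0) (nat_lit 2126854220) (nat_lit 152) (nat_lit 741597153) (nat_lit 228) (nat_lit 8391347943) (nat_lit 23) (nat_lit 5) (nat_lit 25) (nat_lit 5) (nat_lit 26) (nat_lit 4) (nat_lit 275) (nat_lit 225) (nat_lit 220)) (XT.lf (nat_lit 0) (nat_lit 6208850197) (nat_lit 228) (nat_lit 3384233005) (nat_lit 0) (nat_lit 2017985503) (nat_lit 23) (nat_lit 5) (nat_lit 26) (nat_lit 4) (nat_lit 23) (nat_lit 4) (nat_lit 276) (nat_lit 225) (nat_lit 219))))))))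
noncomputable def xc64 : XT := (XT.nd (nat_lit 1326) (nat_lit 380) (nat_lit 0) (XT.nd (nat_lit 624) (nat_lit 380) (nat_lit 0) (XT.nd (nat_lit 312) (nat_lit 304) (nat_lit 0) (XT.nd (nat_lit 156) (nat_lit 152) (nat_lit 0) (XT.nd (nat_lit 78) (nat_lit 76) (nat_lit 0) (XT.lf (nat_lit 0) (nat_lit 2542807558) (nat_lit 152) (nat_lit 7109135334) (nat_lit 152) (nat_lit 2331479862) (nat_lit 21) (nat_lit 4) (nat_lit 23) (nat_lit 5) (nat_lit 23) (nat_lit 4) (nat_lit 277) (nat_lit 225) (nat_lit 218)) (XT.lf (nat_lit 0) (nat_lit 806943328) (nat_lit 228) (nat_lit 3682270007) (nat_lit 76) (nat_lit 7887624630) (nat_lit 20) (nat_lit 5) (nat_lit 23) (nat_lit 5) (nat_lit 21) (nat_lit 4) (nat_lit 278) (nat_lit 225) (nat_lit 217))) (XT.nd (nat_lit 78) (nat_lit 0) (nat_lit 0) (XT.lf (nat_lit 0) (nat_lit 2226012380) (nat_lit 152) (nat_lit 1722647495) (nat_lit 228) (nat_lit 8843380125) (nat_lit 18) (nat_lit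 5) (nat_lit 20) (nat_lit 5) (nat_lit 21) (nat_lit 4) (nat_lit 279) (nat_lit 225) (nat_lit 216)) (XT.lf (nat_lit 0) (nat_lit 7220937613) (nat_lit 228) (nat_lit 4859734735) (nat_lit 0) (nat_lit 1148906851) (nat_lit 18) (nat_lit 5) (nat_lit 21) (nat_lit 4) (nat_lit 18) (nat_lit 4) (nat_lit 280) (nat_lit 225) (nat_lit 215)))) (XT.nd (nat_lit 156) (nat_lit 152) (nat_lit 0) (XT.nd (nat_lit 78) (nat_lit 0) (nat_lit 0) (XT.lf (nat_lit 0) (nat_lit 969993628) (nat_lit 152) (nat_lit 9627014190) (nat_lit 152) (nat_lit 3095217500) (nat_lit 16) (nat_lit 4) (nat_lit 18) (nat_lit 5) (nat_lit 18) (nat_lit 4) (nat_lit 281) (nat_lit 225) (nat_lit 214)) (XT.lf (nat_lit 0) (nat_lit 7097898738) (nat_lit 152) (nat_lit 7025463736) (nat_lit 152) (nat_lit 55794733) (nat_lit 16) (nat_lit 4) (nat_lit 18) (nat_lit 5) (nat_lit 18) (nat_lit 4) (nat_lit 282) (nat_lit 225) (nat_lit 213))) (XT.nd (nat_lit 78) (nat_lit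 76) (nat_lit 0) (XT.lf (nat_lit 0) (nat_lit 2937436556) (nat_lit 228) (nat_lit 1364945313) (nat_lit 76) (nat_lit 10390702601) (nat_lit 15) (nat_lit 5) (nat_lit 18) (nat_lit 5) (nat_lit 16) (nat_lit 4) (nat_lit 283) (nat_lit 225) (nat_lit 212)) (XT.lf (nat_lit 0) (nat_lit 4634355992) (nat_lit 76) (nat_lit 1423307101) (nat_lit 152) (nat_lit 9176235365) (nat_lit 14) (nat_lit 5) (nat_lit 15) (nat_lit 5) (nat_lit 16) (nat_lit 4) (nat_lit 284) (nat_lit 225) (nat_lit 211))))) (XT.nd (nat_lit 312) (nat_lit 152) (nat_lit 0) (XT.nd (nat_lit 156) (nat_lit 76) (nat_lit 0) (XT.nd (nat_lit 78) (nat_lit 152) (nat_lit 0) (XT.lf (nat_lit 0) (nat_lit 9290466423) (nat_lit 152) (nat_lit 4996611502) (nat_lit 0) (nat_lit 1517034121) (nat_lit 14) (nat_lit 5) (nat_lit 16) (nat_lit 4) (nat_lit 14) (nat_lit 4) (nat_lit 285) (nat_lit 225) (nat_lit 210)) (XT.lf (nat_lit 0) (nat_lit 742449209) (nat_lit 152) (nat_lit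 11889856155) (nat_lit 152) (nat_lit 3773339439) (nat_lit 12) (nat_lit 4) (nat_lit 14) (nat_lit 5) (nat_lit 14) (nat_lit 4) (nat_lit 286) (nat_lit 225) (nat_lit 209))) (XT.nd (nat_lit 78) (nat_lit 76) (nat_lit 0) (XT.lf (nat_lit 0) (nat_lit 6799816906) (nat_lit 152) (nat_lit 9340459420) (nat_lit 152) (nat_lit 897195642) (nat_lit 12) (nat_lit 4) (nat_lit 14) (nat_lit 5) (nat_lit 14) (nat_lit 4) (nat_lit 287) (nat_lit 225) (nat_lit 208)) (XT.lf (nat_lit 0) (nat_lit 1971816534) (nat_lit 228) (nat_lit 4712227560) (nat_lit 76) (nat_lit 11019493148) (nat_lit 11) (nat_lit 5) (nat_lit 14) (nat_lit 5) (nat_lit 12) (nat_lit 4) (nat_lit 288) (nat_lit 225) (nat_lit 207)))) (XT.nd (nat_lit 156) (nat_lit 76) (nat_lit 0) (XT.nd (nat_lit 78) (nat_lit 0) (nat_lit 0) (XT.lf (nat_lit 0) (nat_lit 974281627) (nat_lit 76) (nat_lit 3916012177) (nat_lit 152) (nat_lit 13515214917) (nat_lit 10) (nat_lit 5) (nat_lit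 11) (nat_lit 5) (nat_lit 12) (nat_lit 4) (nat_lit 289) (nat_lit 225) (nat_lit 206)) (XT.lf (nat_lit 0) (nat_lit 6979173136) (nat_lit 76) (nat_lit 978022085) (nat_lit 152) (nat_lit 11185398212) (nat_lit 10) (nat_lit 5) (nat_lit 11) (nat_lit 5) (nat_lit 12) (nat_lit 4) (nat_lit 290) (nat_lit 225) (nat_lit 205))) (XT.nd (nat_lit 78) (nat_lit 76) (nat_lit 0) (XT.lf (nat_lit 0) (nat_lit 11135936633) (nat_lit 152) (nat_lit 6791527092) (nat_lit 0) (nat_lit 1991276932) (nat_lit 10) (nat_lit 5) (nat_lit 12) (nat_lit 4) (nat_lit 10) (nat_lit 4) (nat_lit 291) (nat_lit 225) (nat_lit 204)) (XT.nd (nat_lit 78) (nat_lit 76) (nat_lit 0) (XT.lf (nat_lit 0) (nat_lit 14418791897) (nat_lit 152) (nat_lit 1287462684) (nat_lit 0) (nat_lit 5030308508) (nat_lit 10) (nat_lit 5) (nat_lit 12) (nat_lit 4) (nat_lit 10) (nat_lit 4) (nat_lit 292) (nat_lit 225) (nat_lit 203)) (XT.lf (nat_lit 0) (nat_lit 4521875769)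 (nat_lit 76) (nat_lit 13347031055) (nat_lit 76) (nat_lit 3726334629) (nat_lit 9) (nat_lit 4) (nat_lit 10) (nat_lit 5) (nat_lit 10) (nat_lit 4) (nat_lit 293) (nat_lit 225) (nat_lit 202))))))) (XT.nd (nat_lit 702) (nat_lit 152) (nat_lit 0) (XT.nd (nat_lit 312) (nat_lit 76) (nat_lit 0) (XT.nd (nat_lit 156) (nat_lit 76) (nat_lit 0) (XT.nd (nat_lit 78) (nat_lit 76) (nat_lit 0) (XT.lf (nat_lit 0) (nat_lit 10553570819) (nat_lit 76) (nat_lit 10893730418) (nat_lit 76) (nat_lit 1051878719) (nat_lit 9) (nat_lit 4) (nat_lit 10) (nat_lit 5) (nat_lit 10) (nat_lit 4) (nat_lit 294) (nat_lit 225) (nat_lit 201)) (XT.lf (nat_lit 0) (nat_lit 1636064793) (nat_lit 152) (nat_lit 6698542940) (nat_lit 76) (nat_lit 15115641971) (nat_lit 8) (nat_lit 5) (nat_lit 10) (nat_lit 5) (nat_lit 9) (nat_lit 4) (nat_lit 295) (nat_lit 225) (nat_lit 200))) (XT.nd (nat_lit 78) (nat_lit 76) (nat_lit 0) (XT.lf (nat_lit 0) (nat_lit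 4362081532) (nat_lit 152) (nat_lit 1310802976) (nat_lit 76) (nat_lit 18778274194) (nat_lit 8) (nat_lit 5) (nat_lit 10) (nat_lit 5) (nat_lit 9) (nat_lit 4) (nat_lit 296) (nat_lit 225) (nat_lit 199)) (XT.lf (nat_lit 0) (nat_lit 4387281900) (nat_lit 76) (nat_lit 2847544567) (nat_lit 152) (nat_lit 18266859852) (nat_lit 7) (nat_lit 5) (nat_lit 8) (nat_lit 5) (nat_lit 9) (nat_lit 4) (nat_lit 297) (nat_lit 225) (nat_lit 198)))) (XT.nd (nat_lit 156) (nat_lit 76) (nat_lit 0) (XT.nd (nat_lit 78) (nat_lit 0) (nat_lit 0) (XT.lf (nat_lit 0) (nat_lit 10218157037) (nat_lit 152) (nat_lit 16290223475) (nat_lit 0) (nat_lit 98102419) (nat_lit 7) (nat_lit 5) (nat_lit 9) (nat_lit 4) (nat_lit 7) (nat_lit 4) (nat_lit 298) (nat_lit 225) (nat_lit 197)) (XT.lf (nat_lit 0) (nat_lit 13342598517) (nat_lit 152) (nat_lit 11366894955) (nat_lit 0) (nat_lit 3057514429) (nat_lit 7) (nat_lit 5) (nat_lit 9) (nat_lit 4)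 (nat_lit 7) (nat_lit 4) (nat_lit 299) (nat_lit 225) (nat_lit 196))) (XT.nd (nat_lit 78) (nat_lit 76) (nat_lit 0) (XT.lf (nat_lit 0) (nat_lit 16571131902) (nat_lit 152) (nat_lit 6288238500) (nat_lit 0) (nat_lit 6128876891) (nat_lit 7) (nat_lit 5) (nat_lit 9) (nat_lit 4) (nat_lit 7) (nat_lit 4) (nat_lit 300) (nat_lit 225) (nat_lit 195)) (XT.nd (nat_lit 78) (nat_lit 76) (nat_lit 0) (XT.lf (nat_lit 0) (nat_lit 19911444177) (nat_lit 152) (nat_lit 1042162069) (nat_lit 0) (nat_lit 9319502572) (nat_lit 7) (nat_lit 5) (nat_lit 9) (nat_lit 4) (nat_lit 7) (nat_lit 4) (nat_lit 301) (nat_lit 225) (nat_lit 194)) (XT.lf (nat_lit 0) (nat_lit 4528774047) (nat_lit 76) (nat_lit 18913421273) (nat_lit 76) (nat_lit 8178921007) (nat_lit 6) (nat_lit 4) (nat_lit 7) (nat_lit 5) (nat_lit 7) (nat_lit 4) (nat_lit 302) (nat_lit 225) (nat_lit 193)))))) (XT.nd (nat_lit 312) (nat_lit 76) (nat_lit 0) (XT.nd (nat_lit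 156) (nat_lit 76) (nat_lit 0) (XT.nd (nat_lit 78) (nat_lit 0) (nat_lit 0) (XT.lf (nat_lit 0) (nat_lit 10333374217) (nat_lit 76) (nat_lit 16787461682) (nat_lit 76) (nat_lit 5917191263) (nat_lit 6) (nat_lit 4) (nat_lit 7) (nat_lit 5) (nat_lit 7) (nat_lit 4) (nat_lit 303) (nat_lit 225) (nat_lit 192)) (XT.lf (nat_lit 0) (nat_lit 16351000333) (nat_lit 76) (nat_lit 14588315183) (nat_lit 76) (nat_lit 3588739857) (nat_lit 6) (nat_lit 4) (nat_lit 7) (nat_lit 5) (nat_lit 7) (nat_lit 4) (nat_lit 304) (nat_lit 225) (nat_lit 191))) (XT.nd (nat_lit 78) (nat_lit 76) (nat_lit 0) (XT.lf (nat_lit 0) (nat_lit 22595980077) (nat_lit 76) (nat_lit 12310745714) (nat_lit 76) (nat_lit 1188022857) (nat_lit 6) (nat_lit 4) (nat_lit 7) (nat_lit 5) (nat_lit 7) (nat_lit 4) (nat_lit 305) (nat_lit 225) (nat_lit 190)) (XT.lf (nat_lit 0) (nat_lit 1249366046) (nat_lit 152) (nat_lit 8678805825) (nat_lit 76) (nat_lit 27812657782)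 (nat_lit 5) (nat_lit 5) (nat_lit 7) (nat_lit 5) (nat_lit 6) (nat_lit 4) (nat_lit 306) (nat_lit 225) (nat_lit 189)))) (XT.nd (nat_lit 156) (nat_lit 0) (nat_lit 0) (XT.nd (nat_lit 78) (nat_lit 76) (nat_lit 0) (XT.lf (nat_lit 0) (nat_lit 3729929261) (nat_lit 152) (nat_lit 3705349675) (nat_lit 76) (nat_lit 32034955745) (nat_lit 5) (nat_lit 5) (nat_lit 7) (nat_lit 5) (nat_lit 6) (nat_lit 4) (nat_lit 307) (nat_lit 225) (nat_lit 188)) (XT.lf (nat_lit 0) (nat_lit 1499999146) (nat_lit 76) (nat_lit 4821017085) (nat_lit 152) (nat_lit 34965821591) (nat_lit 4) (nat_lit 5) (nat_lit 5) (nat_lit 5) (nat_lit 6) (nat_lit 4) (nat_lit 308) (nat_lit 225) (nat_lit 187))) (XT.nd (nat_lit 78) (nat_lit 0) (nat_lit 0) (XT.lf (nat_lit 0) (nat_lit 7030512300) (nat_lit 76) (nat_lit 2037736581) (nat_lit 152) (nat_lit 34124742807) (nat_lit 4) (nat_lit 5) (nat_lit 5) (nat_lit 5) (nat_lit 6) (nat_lit 4) (nat_lit 309)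 (nat_lit 225) (nat_lit 186)) (XT.nd (nat_lit 78) (nat_lit 0) (nat_lit 0) (XT.lf (nat_lit 0) (nat_lit 11931807151) (nat_lit 152) (nat_lit 32432783463) (nat_lit 0) (nat_lit 830962180) (nat_lit 4) (nat_lit 5) (nat_lit 6) (nat_lit 4) (nat_lit 4) (nat_lit 4) (nat_lit 310) (nat_lit 225) (nat_lit 185)) (XT.lf (nat_lit 0) (nat_lit 14938759537) (nat_lit 152) (nat_lit 28609121169) (nat_lit 0) (nat_lit 3750395914) (nat_lit 4) (nat_lit 5) (nat_lit 6) (nat_lit 4) (nat_lit 4) (nat_lit 4) (nat_lit 311) (nat_lit 225) (nat_lit 184))))))))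
noncomputable def xc65 : XT := (XT.nd (nat_lit 1326) (nat_lit 152) (nat_lit 0) (XT.nd (nat_lit 624) (nat_lit 0) (nat_lit 0) (XT.nd (nat_lit 312) (nat_lit 76) (nat_lit 0) (XT.nd (nat_lit 156) (nat_lit 0) (nat_lit 0) (XT.nd (nat_lit 78) (nat_lit 0) (nat_lit 0) (XT.lf (nat_lit 0) (nat_lit 18064450668) (nat_lit 152) (nat_lit 24650573771) (nat_lit 0) (nat_lit 6792735949) (nat_lit 4) (nat_lit 5) (nat_lit 6) (nat_lit 4) (nat_lit 4) (nat_lit 4) (nat_lit 312) (nat_lit 225) (nat_lit 183)) (XT.lf (nat_lit 0) (nat_lit 21316322668) (nat_lit 152) (nat_lit 20547716155) (nat_lit 0) (nat_lit 9965225952) (nat_lit 4) (nat_lit 5) (nat_lit 6) (nat_lit 4) (nat_lit 4) (nat_lit 4) (nat_lit 313) (nat_lit 225) (nat_lit 182))) (XT.nd (nat_lit 78) (nat_lit 0) (nat_lit 0) (XT.lf (nat_lit 0) (nat_lit 24702118088) (nat_lit 152) (nat_lit 16290779613) (nat_lit 0) (nat_lit 13275419471) (nat_lit 4) (nat_lit 5) (nat_lit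 6) (nat_lit 4) (nat_lit 4) (nat_lit 4) (nat_lit 314) (nat_lit 225) (nat_lit 181)) (XT.lf (nat_lit 0) (nat_lit 28229898346) (nat_lit 152) (nat_lit 11869628582) (nat_lit 0) (nat_lit 16731197918) (nat_lit 4) (nat_lit 5) (nat_lit 6) (nat_lit 4) (nat_lit 4) (nat_lit 4) (nat_lit 315) (nat_lit 225) (nat_lit 180)))) (XT.nd (nat_lit 156) (nat_lit 76) (nat_lit 0) (XT.nd (nat_lit 78) (nat_lit 0) (nat_lit 0) (XT.lf (nat_lit 0) (nat_lit 31908062920) (nat_lit 152) (nat_lit 7273736511) (nat_lit 0) (nat_lit 20340789338) (nat_lit 4) (nat_lit 5) (nat_lit 6) (nat_lit 4) (nat_lit 4) (nat_lit 4) (nat_lit 316) (nat_lit 225) (nat_lit 179)) (XT.lf (nat_lit 0) (nat_lit 35745369343) (nat_lit 152) (nat_lit 2492160801) (nat_lit 0) (nat_lit 24112787996) (nat_lit 4) (nat_lit 5) (nat_lit 6) (nat_lit 4) (nat_lit 4) (nat_lit 4) (nat_lit 317) (nat_lit 225) (nat_lit 178))) (XT.nd (nat_lit 78) (nat_lit 0) (nat_lit 0)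 (XT.lf (nat_lit 0) (nat_lit 2568697617) (nat_lit 76) (nat_lit 37222361010) (nat_lit 76) (nat_lit 25527581792) (nat_lit 3) (nat_lit 4) (nat_lit 4) (nat_lit 5) (nat_lit 4) (nat_lit 4) (nat_lit 318) (nat_lit 225) (nat_lit 177)) (XT.lf (nat_lit 0) (nat_lit 7927788299) (nat_lit 76) (nat_lit 36130340869) (nat_lit 76) (nat_lit 24376325583) (nat_lit 3) (nat_lit 4) (nat_lit 4) (nat_lit 5) (nat_lit 4) (nat_lit 4) (nat_lit 319) (nat_lit 225) (nat_lit 176))))) (XT.nd (nat_lit 312) (nat_lit 0) (nat_lit 0) (XT.nd (nat_lit 156) (nat_lit 0) (nat_lit 0) (XT.nd (nat_lit 78) (nat_lit 0) (nat_lit 0) (XT.lf (nat_lit 0) (nat_lit 13515468892) (nat_lit 76) (nat_lit 35001075622) (nat_lit 76) (nat_lit 23190645034) (nat_lit 3) (nat_lit 4) (nat_lit 4) (nat_lit 5) (nat_lit 4) (nat_lit 4) (nat_lit 320) (nat_lit 225) (nat_lit 175)) (XT.lf (nat_lit 0) (nat_lit 19345043398) (nat_lit 76) (nat_lit 33831876543) (nat_lit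 76) (nat_lit 21967717095) (nat_lit 3) (nat_lit 4) (nat_lit 4) (nat_lit 5) (nat_lit 4) (nat_lit 4) (nat_lit 321) (nat_lit 225) (nat_lit 174))) (XT.nd (nat_lit 78) (nat_lit 0) (nat_lit 0) (XT.lf (nat_lit 0) (nat_lit 25430391756) (nat_lit 76) (nat_lit 32619959825) (nat_lit 76) (nat_lit 20704630034) (nat_lit 3) (nat_lit 4) (nat_lit 4) (nat_lit 5) (nat_lit 4) (nat_lit 4) (nat_lit 322) (nat_lit 225) (nat_lit 173)) (XT.lf (nat_lit 0) (nat_lit 31786002890) (nat_lit 76) (nat_lit 31362439951) (nat_lit 76) (nat_lit 19398376500) (nat_lit 3) (nat_lit 4) (nat_lit 4) (nat_lit 5) (nat_lit 4) (nat_lit 4) (nat_lit 323) (nat_lit 225) (nat_lit 172)))) (XT.nd (nat_lit 156) (nat_lit 0) (nat_lit 0) (XT.nd (nat_lit 78) (nat_lit 0) (nat_lit 0) (XT.lf (nat_lit 0) (nat_lit 38427009208) (nat_lit 76) (nat_lit 30056322826) (nat_lit 76) (nat_lit 18045846366) (nat_lit 3) (nat_lit 4) (nat_lit 4) (nat_lit 5) (nat_lit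 4) (nat_lit 4) (nat_lit 324) (nat_lit 225) (nat_lit 171)) (XT.lf (nat_lit 0) (nat_lit 45369222630) (nat_lit 76) (nat_lit 28698498648) (nat_lit 76) (nat_lit 16643819322) (nat_lit 3) (nat_lit 4) (nat_lit 4) (nat_lit 5) (nat_lit 4) (nat_lit 4) (nat_lit 325) (nat_lit 225) (nat_lit 170))) (XT.nd (nat_lit 78) (nat_lit 0) (nat_lit 0) (XT.lf (nat_lit 0) (nat_lit 52629172235) (nat_lit 76) (nat_lit 27285734502) (nat_lit 76) (nat_lit 15188957208) (nat_lit 3) (nat_lit 4) (nat_lit 4) (nat_lit 5) (nat_lit 4) (nat_lit 4) (nat_lit 326) (nat_lit 225) (nat_lit 169)) (XT.nd (nat_lit 78) (nat_lit 0) (nat_lit 0) (XT.lf (nat_lit 0) (nat_lit 60224143618) (nat_lit 76) (nat_lit 25814666664) (nat_lit 76) (nat_lit 13677796068) (nat_lit 3) (nat_lit 4) (nat_lit 4) (nat_lit 5) (nat_lit 4) (nat_lit 4) (nat_lit 327) (nat_lit 225) (nat_lit 168)) (XT.lf (nat_lit 0) (nat_lit 68172220043) (nat_lit 76) (nat_lit 24281792591)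 (nat_lit 76) (nat_lit 12106737897) (nat_lit 3) (nat_lit 4) (nat_lit 4) (nat_lit 5) (nat_lit 4) (nat_lit 4) (nat_lit 328) (nat_lit 225) (nat_lit 167))))))) (XT.nd (nat_lit 702) (nat_lit 76) (nat_lit 0) (XT.nd (nat_lit 312) (nat_lit 76) (nat_lit 0) (XT.nd (nat_lit 156) (nat_lit 0) (nat_lit 0) (XT.nd (nat_lit 78) (nat_lit 0) (nat_lit 0) (XT.lf (nat_lit 0) (nat_lit 76492325503) (nat_lit 76) (nat_lit 22683462584) (nat_lit 76) (nat_lit 10472042083) (nat_lit 3) (nat_lit 4) (nat_lit 4) (nat_lit 5) (nat_lit 4) (nat_lit 4) (nat_lit 329) (nat_lit 225) (nat_lit 166)) (XT.lf (nat_lit 0) (nat_lit 85204269773) (nat_lit 76) (nat_lit 21015871094) (nat_lit 76) (nat_lit 8769816491) (nat_lit 3) (nat_lit 4) (nat_lit 4) (nat_lit 5) (nat_lit 4) (nat_lit 4) (nat_lit 330) (nat_lit 225) (nat_lit 165))) (XT.nd (nat_lit 78) (nat_lit 0) (nat_lit 0) (XT.lf (nat_lit 0) (nat_lit 94328795576) (nat_lit 76) (nat_lit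 19275047666) (nat_lit 76) (nat_lit 6996008203) (nat_lit 3) (nat_lit 4) (nat_lit 4) (nat_lit 5) (nat_lit 4) (nat_lit 4) (nat_lit 331) (nat_lit 225) (nat_lit 164)) (XT.lf (nat_lit 0) (nat_lit 103887627974) (nat_lit 76) (nat_lit 17456847482) (nat_lit 76) (nat_lit 5146393868) (nat_lit 3) (nat_lit 4) (nat_lit 4) (nat_lit 5) (nat_lit 4) (nat_lit 4) (nat_lit 332) (nat_lit 225) (nat_lit 163)))) (XT.nd (nat_lit 156) (nat_lit 76) (nat_lit 0) (XT.nd (nat_lit 78) (nat_lit 0) (nat_lit 0) (XT.lf (nat_lit 0) (nat_lit 113903526092) (nat_lit 76) (nat_lit 15556941494) (nat_lit 76) (nat_lit 3216569640) (nat_lit 3) (nat_lit 4) (nat_lit 4) (nat_lit 5) (nat_lit 4) (nat_lit 4) (nat_lit 333) (nat_lit 225) (nat_lit 162)) (XT.lf (nat_lit 0) (nat_lit 124400337306) (nat_lit 76) (nat_lit 13570806116) (nat_lit 76) (nat_lit 1201940700) (nat_lit 3) (nat_lit 4) (nat_lit 4) (nat_lit 5) (nat_lit 4) (nat_lit 4) (nat_lit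 334) (nat_lit 225) (nat_lit 161))) (XT.nd (nat_lit 78) (nat_lit 0) (nat_lit 0) (XT.lf (nat_lit 0) (nat_lit 873410781) (nat_lit 152) (nat_lit 10605510038) (nat_lit 76) (nat_lit 134514851609) (nat_lit 2) (nat_lit 5) (nat_lit 4) (nat_lit 5) (nat_lit 3) (nat_lit 4) (nat_lit 335) (nat_lit 225) (nat_lit 160)) (XT.nd (nat_lit 78) (nat_lit 0) (nat_lit 0) (XT.lf (nat_lit 0) (nat_lit 3001876014) (nat_lit 152) (nat_lit 6268000810) (nat_lit 76) (nat_lit 143885158954) (nat_lit 2) (nat_lit 5) (nat_lit 4) (nat_lit 5) (nat_lit 3) (nat_lit 4) (nat_lit 336) (nat_lit 225) (nat_lit 159)) (XT.lf (nat_lit 0) (nat_lit 5226992382) (nat_lit 152) (nat_lit 1731126066) (nat_lit 76) (nat_lit 153716744635) (nat_lit 2) (nat_lit 5) (nat_lit 4) (nat_lit 5) (nat_lit 3) (nat_lit 4) (nat_lit 337) (nat_lit 225) (nat_lit 158)))))) (XT.nd (nat_lit 312) (nat_lit 0) (nat_lit 0) (XT.nd (nat_lit 156) (nat_lit 0) (nat_lit 0)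 (XT.nd (nat_lit 78) (nat_lit 0) (nat_lit 0) (XT.lf (nat_lit 0) (nat_lit 3115636089) (nat_lit 76) (nat_lit 4487065502) (nat_lit 152) (nat_lit 160966024910) (nat_lit 1) (nat_lit 5) (nat_lit 2) (nat_lit 5) (nat_lit 3) (nat_lit 4) (nat_lit 338) (nat_lit 225) (nat_lit 157)) (XT.lf (nat_lit 0) (nat_lit 8248429972) (nat_lit 76) (nat_lit 1868963977) (nat_lit 152) (nat_lit 166738890304) (nat_lit 1) (nat_lit 5) (nat_lit 2) (nat_lit 5) (nat_lit 3) (nat_lit 4) (nat_lit 339) (nat_lit 225) (nat_lit 156))) (XT.nd (nat_lit 78) (nat_lit 0) (nat_lit 0) (XT.lf (nat_lit 0) (nat_lit 12762767004) (nat_lit 152) (nat_lit 171950058589) (nat_lit 0) (nat_lit 845157518) (nat_lit 1) (nat_lit 5) (nat_lit 3) (nat_lit 4) (nat_lit 1) (nat_lit 4) (nat_lit 340) (nat_lit 225) (nat_lit 155)) (XT.lf (nat_lit 0) (nat_lit 15562672366) (nat_lit 152) (nat_lit 175505214066) (nat_lit 0) (nat_lit 3625777317) (nat_lit 1) (nat_lit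 5) (nat_lit 3) (nat_lit 4) (nat_lit 1) (nat_lit 4) (nat_lit 341) (nat_lit 225) (nat_lit 154)))) (XT.nd (nat_lit 156) (nat_lit 0) (nat_lit 0) (XT.nd (nat_lit 78) (nat_lit 0) (nat_lit 0) (XT.lf (nat_lit 0) (nat_lit 18494596713) (nat_lit 152) (nat_lit 179252605605) (nat_lit 0) (nat_lit 6539334459) (nat_lit 1) (nat_lit 5) (nat_lit 3) (nat_lit 4) (nat_lit 1) (nat_lit 4) (nat_lit 342) (nat_lit 225) (nat_lit 153)) (XT.lf (nat_lit 0) (nat_lit 21565520815) (nat_lit 152) (nat_lit 183201155566) (nat_lit 0) (nat_lit 9592765986) (nat_lit 1) (nat_lit 5) (nat_lit 3) (nat_lit 4) (nat_lit 1) (nat_lit 4) (nat_lit 343) (nat_lit 225) (nat_lit 152))) (XT.nd (nat_lit 78) (nat_lit 0) (nat_lit 0) (XT.lf (nat_lit 0) (nat_lit 24782756397) (nat_lit 152) (nat_lit 187360265259) (nat_lit 0) (nat_lit 12793341974) (nat_lit 1) (nat_lit 5) (nat_lit 3) (nat_lit 4) (nat_lit 1) (nat_lit 4) (nat_lit 344) (nat_lit 225) (nat_lit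 151)) (XT.nd (nat_lit 78) (nat_lit 0) (nat_lit 0) (XT.lf (nat_lit 0) (nat_lit 28153963545) (nat_lit 152) (nat_lit 191739837325) (nat_lit 0) (nat_lit 16148682840) (nat_lit 1) (nat_lit 5) (nat_lit 3) (nat_lit 4) (nat_lit 1) (nat_lit 4) (nat_lit 345) (nat_lit 225) (nat_lit 150)) (XT.lf (nat_lit 0) (nat_lit 31687168941) (nat_lit 152) (nat_lit 196350299319) (nat_lit 0) (nat_lit 19666777492) (nat_lit 1) (nat_lit 5) (nat_lit 3) (nat_lit 4) (nat_lit 1) (nat_lit 4) (nat_lit 346) (nat_lit 225) (nat_lit 149))))))))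
noncomputable def xc66 : XT := (XT.nd (nat_lit 31356) (nat_lit 0) (nat_lit 988) (XT.nd (nat_lit 624) (nat_lit 0) (nat_lit 0) (XT.nd (nat_lit 312) (nat_lit 0) (nat_lit 0) (XT.nd (nat_lit 156) (nat_lit 0) (nat_lit 0) (XT.nd (nat_lit 78) (nat_lit 0) (nat_lit 0) (XT.lf (nat_lit 0) (nat_lit 35390784980) (nat_lit 152) (nat_lit 201202628528) (nat_lit 0) (nat_lit 23356002346) (nat_lit 1) (nat_lit 5) (nat_lit 3) (nat_lit 4) (nat_lit 1) (nat_lit 4) (nat_lit 347) (nat_lit 225) (nat_lit 148)) (XT.lf (nat_lit 0) (nat_lit 39273629794) (nat_lit 152) (nat_lit 206308378120) (nat_lit 0) (nat_lit 27225141270) (nat_lit 1) (nat_lit 5) (nat_lit 3) (nat_lit 4) (nat_lit 1) (nat_lit 4) (nat_lit 348) (nat_lit 225) (nat_lit 147))) (XT.nd (nat_lit 78) (nat_lit 0) (nat_lit 0) (XT.lf (nat_lit 0) (nat_lit 43344948253) (nat_lit 152) (nat_lit 211679704640) (nat_lit 0) (nat_lit 31283406500) (nat_lit 1) (nat_lit 5) (nat_lit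 3) (nat_lit 4) (nat_lit 1) (nat_lit 4) (nat_lit 349) (nat_lit 225) (nat_lit 146)) (XT.lf (nat_lit 0) (nat_lit 47614433971) (nat_lit 152) (nat_lit 217329396960) (nat_lit 0) (nat_lit 35540460572) (nat_lit 1) (nat_lit 5) (nat_lit 3) (nat_lit 4) (nat_lit 1) (nat_lit 4) (nat_lit 350) (nat_lit 225) (nat_lit 145)))) (XT.nd (nat_lit 156) (nat_lit 0) (nat_lit 0) (XT.nd (nat_lit 78) (nat_lit 0) (nat_lit 0) (XT.lf (nat_lit 0) (nat_lit 52092252392) (nat_lit 152) (nat_lit 223270906730) (nat_lit 0) (nat_lit 40006439329) (nat_lit 1) (nat_lit 5) (nat_lit 3) (nat_lit 4) (nat_lit 1) (nat_lit 4) (nat_lit 351) (nat_lit 225) (nat_lit 144)) (XT.lf (nat_lit 0) (nat_lit 56789064987) (nat_lit 152) (nat_lit 229518380401) (nat_lit 0) (nat_lit 44691976054) (nat_lit 1) (nat_lit 5) (nat_lit 3) (nat_lit 4) (nat_lit 1) (nat_lit 4) (nat_lit 352) (nat_lit 225) (nat_lit 143))) (XT.nd (nat_lit 78) (nat_lit 0) (nat_lit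 0) (XT.lf (nat_lit 0) (nat_lit 61716054643) (nat_lit 152) (nat_lit 236086692911) (nat_lit 0) (nat_lit 49608226787) (nat_lit 1) (nat_lit 5) (nat_lit 3) (nat_lit 4) (nat_lit 1) (nat_lit 4) (nat_lit 353) (nat_lit 225) (nat_lit 142)) (XT.lf (nat_lit 0) (nat_lit 66884952289) (nat_lit 152) (nat_lit 242991483098) (nat_lit 0) (nat_lit 54766896887) (nat_lit 1) (nat_lit 5) (nat_lit 3) (nat_lit 4) (nat_lit 1) (nat_lit 4) (nat_lit 354) (nat_lit 225) (nat_lit 141))))) (XT.nd (nat_lit 312) (nat_lit 0) (nat_lit 0) (XT.nd (nat_lit 156) (nat_lit 0) (nat_lit 0) (XT.nd (nat_lit 78) (nat_lit 0) (nat_lit 0) (XT.lf (nat_lit 0) (nat_lit 72308064824) (nat_lit 152) (nat_lit 250249190940) (nat_lit 0) (nat_lit 60180268901) (nat_lit 1) (nat_lit 5) (nat_lit 3) (nat_lit 4) (nat_lit 1) (nat_lit 4) (nat_lit 355) (nat_lit 225) (nat_lit 140)) (XT.lf (nat_lit 0) (nat_lit 77998304419) (nat_lit 152) (nat_lit 257877096693)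 (nat_lit 0) (nat_lit 65861231810) (nat_lit 1) (nat_lit 5) (nat_lit 3) (nat_lit 4) (nat_lit 1) (nat_lit 4) (nat_lit 356) (nat_lit 225) (nat_lit 139))) (XT.nd (nat_lit 78) (nat_lit 0) (nat_lit 0) (XT.lf (nat_lit 0) (nat_lit 83969219265) (nat_lit 152) (nat_lit 265893362037) (nat_lit 0) (nat_lit 71823311717) (nat_lit 1) (nat_lit 5) (nat_lit 3) (nat_lit 4) (nat_lit 1) (nat_lit 4) (nat_lit 357) (nat_lit 225) (nat_lit 138)) (XT.lf (nat_lit 0) (nat_lit 90235025826) (nat_lit 152) (nat_lit 274317073320) (nat_lit 0) (nat_lit 78080704050) (nat_lit 1) (nat_lit 5) (nat_lit 3) (nat_lit 4) (nat_lit 1) (nat_lit 4) (nat_lit 358) (nat_lit 225) (nat_lit 137)))) (XT.nd (nat_lit 156) (nat_lit 0) (nat_lit 0) (XT.nd (nat_lit 78) (nat_lit 0) (nat_lit 0) (XT.lf (nat_lit 0) (nat_lit 96810642689) (nat_lit 152) (nat_lit 283168286995) (nat_lit 0) (nat_lit 84648307363) (nat_lit 1) (nat_lit 5) (nat_lit 3) (nat_lit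 4) (nat_lit 1) (nat_lit 4) (nat_lit 359) (nat_lit 225) (nat_lit 136)) (XT.lf (nat_lit 0) (nat_lit 103711726083) (nat_lit 152) (nat_lit 292468077381) (nat_lit 0) (nat_lit 91541758805) (nat_lit 1) (nat_lit 5) (nat_lit 3) (nat_lit 4) (nat_lit 1) (nat_lit 4) (nat_lit 360) (nat_lit 225) (nat_lit 135))) (XT.nd (nat_lit 78) (nat_lit 0) (nat_lit 0) (XT.lf (nat_lit 0) (nat_lit 110954707161) (nat_lit 152) (nat_lit 302238586837) (nat_lit 0) (nat_lit 98777471356) (nat_lit 1) (nat_lit 5) (nat_lit 3) (nat_lit 4) (nat_lit 1) (nat_lit 4) (nat_lit 361) (nat_lit 225) (nat_lit 134)) (XT.nd (nat_lit 78) (nat_lit 0) (nat_lit 0) (XT.lf (nat_lit 0) (nat_lit 118556831116) (nat_lit 152) (nat_lit 312503078480) (nat_lit 0) (nat_lit 106372672905) (nat_lit 1) (nat_lit 5) (nat_lit 3) (nat_lit 4) (nat_lit 1) (nat_lit 4) (nat_lit 362) (nat_lit 225) (nat_lit 133)) (XT.lf (nat_lit 0) (nat_lit 126536198241) (nat_lit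 152) (nat_lit 323285991575) (nat_lit 0) (nat_lit 114345447263) (nat_lit 1) (nat_lit 5) (nat_lit 3) (nat_lit 4) (nat_lit 1) (nat_lit 4) (nat_lit 363) (nat_lit 225) (nat_lit 132))))))) (XT.nd (nat_lit 702) (nat_lit 684) (nat_lit 0) (XT.nd (nat_lit 312) (nat_lit 608) (nat_lit 0) (XT.nd (nat_lit 156) (nat_lit 304) (nat_lit 0) (XT.nd (nat_lit 78) (nat_lit 0) (nat_lit 0) (XT.lf (nat_lit 0) (nat_lit 359682873) (nat_lit 304) (nat_lit 3922867659) (nat_lit 0) (nat_lit 359682873) (nat_lit 35) (nat_lit 5) (nat_lit 39) (nat_lit 4) (nat_lit 35) (nat_lit 4) (nat_lit 268) (nat_lit 226) (nat_lit 226)) (XT.lf (nat_lit 0) (nat_lit 4077047246) (nat_lit 304) (nat_lit 2276719278) (nat_lit 0) (nat_lit 3166742156) (nat_lit 35) (nat_lit 5) (nat_lit 39) (nat_lit 4) (nat_lit 35) (nat_lit 4) (nat_lit 269) (nat_lit 226) (nat_lit 225))) (XT.nd (nat_lit 78) (nat_lit 76) (nat_lit 0) (XT.lf (nat_lit 0) (nat_lit 3494884166)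 (nat_lit 228) (nat_lit 4027593993) (nat_lit 228) (nat_lit 2250331674) (nat_lit 32) (nat_lit 4) (nat_lit 35) (nat_lit 5) (nat_lit 35) (nat_lit 4) (nat_lit 270) (nat_lit 226) (nat_lit 224)) (XT.lf (nat_lit 0) (nat_lit 972624067) (nat_lit 304) (nat_lit 609056532) (nat_lit 76) (nat_lit 8460320658) (nat_lit 31) (nat_lit 5) (nat_lit 35) (nat_lit 5) (nat_lit 32) (nat_lit 4) (nat_lit 271) (nat_lit 226) (nat_lit 223)))) (XT.nd (nat_lit 156) (nat_lit 228) (nat_lit 0) (XT.nd (nat_lit 78) (nat_lit 228) (nat_lit 0) (XT.lf (nat_lit 0) (nat_lit 4252943777) (nat_lit 228) (nat_lit 5046613976) (nat_lit 0) (nat_lit 1025046983) (nat_lit 29) (nat_lit 5) (nat_lit 32) (nat_lit 4) (nat_lit 29) (nat_lit 4) (nat_lit 272) (nat_lit 226) (nat_lit 222)) (XT.lf (nat_lit 0) (nat_lit 671789266) (nat_lit 228) (nat_lit 6947482379) (nat_lit 228) (nat_lit 3006337728) (nat_lit 26) (nat_lit 4) (nat_lit 29) (nat_lit 5) (nat_lit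 29) (nat_lit 4) (nat_lit 273) (nat_lit 226) (nat_lit 221))) (XT.nd (nat_lit 78) (nat_lit 152) (nat_lit 0) (XT.lf (nat_lit 0) (nat_lit 168210924) (nat_lit 304) (nat_lit 4275595929) (nat_lit 76) (nat_lit 6499890204) (nat_lit 25) (nat_lit 5) (nat_lit 29) (nat_lit 5) (nat_lit 26) (nat_lit 4) (nat_lit 274) (nat_lit 226) (nat_lit 220)) (XT.nd (nat_lit 78) (nat_lit 0) (nat_lit 0) (XT.lf (nat_lit 0) (nat_lit 1509561287) (nat_lit 152) (nat_lit 1796256490) (nat_lit 228) (nat_lit 7974459097) (nat_lit 23) (nat_lit 5) (nat_lit 25) (nat_lit 5) (nat_lit 26) (nat_lit 4) (nat_lit 275) (nat_lit 226) (nat_lit 219)) (XT.lf (nat_lit 0) (nat_lit 6573075413) (nat_lit 228) (nat_lit 4092530246) (nat_lit 0) (nat_lit 969746390) (nat_lit 23) (nat_lit 5) (nat_lit 26) (nat_lit 4) (nat_lit 23) (nat_lit 4) (nat_lit 276) (nat_lit 226) (nat_lit 218)))))) (XT.nd (nat_lit 312) (nat_lit 304) (nat_lit 0) (XT.nd (nat_lit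 156) (nat_lit 152) (nat_lit 0) (XT.nd (nat_lit 78) (nat_lit 76) (nat_lit 0) (XT.lf (nat_lit 0) (nat_lit 1725500985) (nat_lit 152) (nat_lit 8223930485) (nat_lit 152) (nat_lit 2061753103) (nat_lit 21) (nat_lit 4) (nat_lit 23) (nat_lit 5) (nat_lit 23) (nat_lit 4) (nat_lit 277) (nat_lit 226) (nat_lit 217)) (XT.lf (nat_lit 0) (nat_lit 1014364423) (nat_lit 228) (nat_lit 4614966847) (nat_lit 76) (nat_lit 6777870065) (nat_lit 20) (nat_lit 5) (nat_lit 23) (nat_lit 5) (nat_lit 21) (nat_lit 4) (nat_lit 278) (nat_lit 226) (nat_lit 216))) (XT.nd (nat_lit 78) (nat_lit 0) (nat_lit 0) (XT.lf (nat_lit 0) (nat_lit 1180404551) (nat_lit 152) (nat_lit 2908234669) (nat_lit 228) (nat_lit 8737258594) (nat_lit 18) (nat_lit 5) (nat_lit 20) (nat_lit 5) (nat_lit 21) (nat_lit 4) (nat_lit 279) (nat_lit 226) (nat_lit 215)) (XT.lf (nat_lit 0) (nat_lit 7265530292) (nat_lit 152) (nat_lit 26952814) (nat_lit 228) (nat_lit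 5974492131) (nat_lit 18) (nat_lit 5) (nat_lit 20) (nat_lit 5) (nat_lit 21) (nat_lit 4) (nat_lit 280) (nat_lit 226) (nat_lit 214)))) (XT.nd (nat_lit 156) (nat_lit 152) (nat_lit 0) (XT.nd (nat_lit 78) (nat_lit 152) (nat_lit 0) (XT.lf (nat_lit 0) (nat_lit 10605041210) (nat_lit 228) (nat_lit 278850289) (nat_lit 0) (nat_lit 2849016443) (nat_lit 18) (nat_lit 5) (nat_lit 21) (nat_lit 4) (nat_lit 18) (nat_lit 4) (nat_lit 281) (nat_lit 226) (nat_lit 213)) (XT.lf (nat_lit 0) (nat_lit 5764560118) (nat_lit 152) (nat_lit 8315499129) (nat_lit 152) (nat_lit 142453112) (nat_lit 16) (nat_lit 4) (nat_lit 18) (nat_lit 5) (nat_lit 18) (nat_lit 4) (nat_lit 282) (nat_lit 226) (nat_lit 212))) (XT.nd (nat_lit 78) (nat_lit 76) (nat_lit 0) (XT.lf (nat_lit 0) (nat_lit 2808114453) (nat_lit 228) (nat_lit 2813574483) (nat_lit 76) (nat_lit 9117186072) (nat_lit 15) (nat_lit 5) (nat_lit 18) (nat_lit 5) (nat_lit 16)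 (nat_lit 4) (nat_lit 283) (nat_lit 226) (nat_lit 211)) (XT.nd (nat_lit 78) (nat_lit 0) (nat_lit 0) (XT.lf (nat_lit 0) (nat_lit 3065722292) (nat_lit 76) (nat_lit 2794854279) (nat_lit 152) (nat_lit 9422591950) (nat_lit 14) (nat_lit 5) (nat_lit 15) (nat_lit 5) (nat_lit 16) (nat_lit 4) (nat_lit 284) (nat_lit 226) (nat_lit 210)) (XT.lf (nat_lit 0) (nat_lit 9029269050) (nat_lit 152) (nat_lit 6663563476) (nat_lit 0) (nat_lit 163842083) (nat_lit 14) (nat_lit 5) (nat_lit 16) (nat_lit 4) (nat_lit 14) (nat_lit 4) (nat_lit 285) (nat_lit 226) (nat_lit 209))))))))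
noncomputable def xc67 : XT := (XT.nd (nat_lit 1326) (nat_lit 228) (nat_lit 0) (XT.nd (nat_lit 624) (nat_lit 228) (nat_lit 0) (XT.nd (nat_lit 312) (nat_lit 152) (nat_lit 0) (XT.nd (nat_lit 156) (nat_lit 76) (nat_lit 0) (XT.nd (nat_lit 78) (nat_lit 152) (nat_lit 0) (XT.lf (nat_lit 0) (nat_lit 12318852321) (nat_lit 152) (nat_lit 1015372354) (nat_lit 0) (nat_lit 3126678292) (nat_lit 14) (nat_lit 5) (nat_lit 16) (nat_lit 4) (nat_lit 14) (nat_lit 4) (nat_lit 286) (nat_lit 226) (nat_lit 208)) (XT.lf (nat_lit 0) (nat_lit 4942398333) (nat_lit 152) (nat_lit 10828289573) (nat_lit 152) (nat_lit 1324927867) (nat_lit 12) (nat_lit 4) (nat_lit 14) (nat_lit 5) (nat_lit 14) (nat_lit 4) (nat_lit 287) (nat_lit 226) (nat_lit 207))) (XT.nd (nat_lit 78) (nat_lit 0) (nat_lit 0) (XT.lf (nat_lit 0) (nat_lit 1519215814) (nat_lit 228) (nat_lit 6685338502) (nat_lit 76) (nat_lit 9559460103) (nat_lit 11) (nat_lit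 5) (nat_lit 14) (nat_lit 5) (nat_lit 12) (nat_lit 4) (nat_lit 288) (nat_lit 226) (nat_lit 206)) (XT.lf (nat_lit 0) (nat_lit 4385759344) (nat_lit 228) (nat_lit 1091180663) (nat_lit 76) (nat_lit 12991710713) (nat_lit 11) (nat_lit 5) (nat_lit 14) (nat_lit 5) (nat_lit 12) (nat_lit 4) (nat_lit 289) (nat_lit 226) (nat_lit 205)))) (XT.nd (nat_lit 156) (nat_lit 76) (nat_lit 0) (XT.nd (nat_lit 78) (nat_lit 0) (nat_lit 0) (XT.lf (nat_lit 0) (nat_lit 4817449818) (nat_lit 76) (nat_lit 2581697866) (nat_lit 152) (nat_lit 11809328290) (nat_lit 10) (nat_lit 5) (nat_lit 11) (nat_lit 5) (nat_lit 12) (nat_lit 4) (nat_lit 290) (nat_lit 226) (nat_lit 204)) (XT.lf (nat_lit 0) (nat_lit 10518287141) (nat_lit 152) (nat_lit 9052822058) (nat_lit 0) (nat_lit 416555895) (nat_lit 10) (nat_lit 5) (nat_lit 12) (nat_lit 4) (nat_lit 10) (nat_lit 4) (nat_lit 291) (nat_lit 226) (nat_lit 203))) (XT.nd (nat_lit 78) (nat_lit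 76) (nat_lit 0) (XT.lf (nat_lit 0) (nat_lit 13768224233) (nat_lit 152) (nat_lit 3604688108) (nat_lit 0) (nat_lit 3434279950) (nat_lit 10) (nat_lit 5) (nat_lit 12) (nat_lit 4) (nat_lit 10) (nat_lit 4) (nat_lit 292) (nat_lit 226) (nat_lit 202)) (XT.lf (nat_lit 0) (nat_lit 2073004055) (nat_lit 76) (nat_lit 15075750714) (nat_lit 76) (nat_lit 4520651158) (nat_lit 9) (nat_lit 4) (nat_lit 10) (nat_lit 5) (nat_lit 10) (nat_lit 4) (nat_lit 293) (nat_lit 226) (nat_lit 201))))) (XT.nd (nat_lit 312) (nat_lit 76) (nat_lit 0) (XT.nd (nat_lit 156) (nat_lit 76) (nat_lit 0) (XT.nd (nat_lit 78) (nat_lit 76) (nat_lit 0) (XT.lf (nat_lit 0) (nat_lit 8052291150) (nat_lit 76) (nat_lit 12644182045) (nat_lit 76) (nat_lit 1878458420) (nat_lit 9) (nat_lit 4) (nat_lit 10) (nat_lit 5) (nat_lit 10) (nat_lit 4) (nat_lit 294) (nat_lit 226) (nat_lit 200)) (XT.lf (nat_lit 0) (nat_lit 806197426) (nat_lit 152) (nat_lit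 9313613251) (nat_lit 76) (nat_lit 13408371535) (nat_lit 8) (nat_lit 5) (nat_lit 10) (nat_lit 5) (nat_lit 9) (nat_lit 4) (nat_lit 295) (nat_lit 226) (nat_lit 199))) (XT.nd (nat_lit 78) (nat_lit 76) (nat_lit 0) (XT.lf (nat_lit 0) (nat_lit 3503887138) (nat_lit 152) (nat_lit 3974391583) (nat_lit 76) (nat_lit 17052274957) (nat_lit 8) (nat_lit 5) (nat_lit 10) (nat_lit 5) (nat_lit 9) (nat_lit 4) (nat_lit 296) (nat_lit 226) (nat_lit 198)) (XT.lf (nat_lit 0) (nat_lit 1587887283) (nat_lit 76) (nat_lit 4718060272) (nat_lit 152) (nat_lit 19278711884) (nat_lit 7) (nat_lit 5) (nat_lit 8) (nat_lit 5) (nat_lit 9) (nat_lit 4) (nat_lit 297) (nat_lit 226) (nat_lit 197)))) (XT.nd (nat_lit 156) (nat_lit 76) (nat_lit 0) (XT.nd (nat_lit 78) (nat_lit 0) (nat_lit 0) (XT.lf (nat_lit 0) (nat_lit 7473063641) (nat_lit 76) (nat_lit 1788228939) (nat_lit 152) (nat_lit 17429604576) (nat_lit 7) (nat_lit 5) (nat_lit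 8) (nat_lit 5) (nat_lit 9) (nat_lit 4) (nat_lit 298) (nat_lit 226) (nat_lit 196)) (XT.lf (nat_lit 0) (nat_lit 12332385444) (nat_lit 152) (nat_lit 14310897190) (nat_lit 0) (nat_lit 1210846759) (nat_lit 7) (nat_lit 5) (nat_lit 9) (nat_lit 4) (nat_lit 7) (nat_lit 4) (nat_lit 299) (nat_lit 226) (nat_lit 195))) (XT.nd (nat_lit 78) (nat_lit 76) (nat_lit 0) (XT.lf (nat_lit 0) (nat_lit 15536700400) (nat_lit 152) (nat_lit 9274442123) (nat_lit 0) (nat_lit 4265475122) (nat_lit 7) (nat_lit 5) (nat_lit 9) (nat_lit 4) (nat_lit 7) (nat_lit 4) (nat_lit 300) (nat_lit 226) (nat_lit 194)) (XT.nd (nat_lit 78) (nat_lit 76) (nat_lit 0) (XT.lf (nat_lit 0) (nat_lit 18853947504) (nat_lit 152) (nat_lit 4068557491) (nat_lit 0) (nat_lit 7440163565) (nat_lit 7) (nat_lit 5) (nat_lit 9) (nat_lit 4) (nat_lit 7) (nat_lit 4) (nat_lit 301) (nat_lit 226) (nat_lit 193)) (XT.lf (nat_lit 0) (nat_lit 1362768780) (nat_lit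 76) (nat_lit 20950532823) (nat_lit 76) (nat_lit 9400978731) (nat_lit 6) (nat_lit 4) (nat_lit 7) (nat_lit 5) (nat_lit 7) (nat_lit 4) (nat_lit 302) (nat_lit 226) (nat_lit 192))))))) (XT.nd (nat_lit 702) (nat_lit 76) (nat_lit 0) (XT.nd (nat_lit 312) (nat_lit 152) (nat_lit 0) (XT.nd (nat_lit 156) (nat_lit 0) (nat_lit 0) (XT.nd (nat_lit 78) (nat_lit 0) (nat_lit 0) (XT.lf (nat_lit 0) (nat_lit 7129708432) (nat_lit 76) (nat_lit 18840724975) (nat_lit 76) (nat_lit 7161865975) (nat_lit 6) (nat_lit 4) (nat_lit 7) (nat_lit 5) (nat_lit 7) (nat_lit 4) (nat_lit 303) (nat_lit 226) (nat_lit 191)) (XT.lf (nat_lit 0) (nat_lit 13111467388) (nat_lit 76) (nat_lit 16656961088) (nat_lit 76) (nat_lit 4854954557) (nat_lit 6) (nat_lit 4) (nat_lit 7) (nat_lit 5) (nat_lit 7) (nat_lit 4) (nat_lit 304) (nat_lit 226) (nat_lit 190))) (XT.nd (nat_lit 78) (nat_lit 0) (nat_lit 0) (XT.lf (nat_lit 0) (nat_lit 19322287931)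 (nat_lit 76) (nat_lit 14394041725) (nat_lit 76) (nat_lit 2474751831) (nat_lit 6) (nat_lit 4) (nat_lit 7) (nat_lit 5) (nat_lit 7) (nat_lit 4) (nat_lit 305) (nat_lit 226) (nat_lit 189)) (XT.lf (nat_lit 0) (nat_lit 25776957729) (nat_lit 76) (nat_lit 12046578984) (nat_lit 76) (nat_lit 15590649) (nat_lit 6) (nat_lit 4) (nat_lit 7) (nat_lit 5) (nat_lit 7) (nat_lit 4) (nat_lit 306) (nat_lit 226) (nat_lit 188)))) (XT.nd (nat_lit 156) (nat_lit 76) (nat_lit 0) (XT.nd (nat_lit 78) (nat_lit 0) (nat_lit 0) (XT.lf (nat_lit 0) (nat_lit 2447460053) (nat_lit 152) (nat_lit 7120074691) (nat_lit 76) (nat_lit 30001936069) (nat_lit 5) (nat_lit 5) (nat_lit 7) (nat_lit 5) (nat_lit 6) (nat_lit 4) (nat_lit 307) (nat_lit 226) (nat_lit 187)) (XT.lf (nat_lit 0) (nat_lit 4997974015) (nat_lit 152) (nat_lit 1992834849) (nat_lit 76) (nat_lit 34397318197) (nat_lit 5) (nat_lit 5) (nat_lit 7) (nat_lit 5) (nat_lit 6) (nat_lit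 4) (nat_lit 308) (nat_lit 226) (nat_lit 186))) (XT.nd (nat_lit 78) (nat_lit 0) (nat_lit 0) (XT.lf (nat_lit 0) (nat_lit 3442172021) (nat_lit 76) (nat_lit 4254092815) (nat_lit 152) (nat_lit 35600486474) (nat_lit 4) (nat_lit 5) (nat_lit 5) (nat_lit 5) (nat_lit 6) (nat_lit 4) (nat_lit 309) (nat_lit 226) (nat_lit 185)) (XT.nd (nat_lit 78) (nat_lit 0) (nat_lit 0) (XT.lf (nat_lit 0) (nat_lit 9160297836) (nat_lit 76) (nat_lit 1370123292) (nat_lit 152) (nat_lit 34770383569) (nat_lit 4) (nat_lit 5) (nat_lit 5) (nat_lit 5) (nat_lit 6) (nat_lit 4) (nat_lit 310) (nat_lit 226) (nat_lit 184)) (XT.lf (nat_lit 0) (nat_lit 13500563087) (nat_lit 152) (nat_lit 32322915548) (nat_lit 0) (nat_lit 1581911535) (nat_lit 4) (nat_lit 5) (nat_lit 6) (nat_lit 4) (nat_lit 4) (nat_lit 4) (nat_lit 311) (nat_lit 226) (nat_lit 183)))))) (XT.nd (nat_lit 312) (nat_lit 76) (nat_lit 0) (XT.nd (nat_lit 156) (nat_lit 0) (nat_lit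 0) (XT.nd (nat_lit 78) (nat_lit 0) (nat_lit 0) (XT.lf (nat_lit 0) (nat_lit 16611569492) (nat_lit 152) (nat_lit 28390522858) (nat_lit 0) (nat_lit 4613535944) (nat_lit 4) (nat_lit 5) (nat_lit 6) (nat_lit 4) (nat_lit 4) (nat_lit 4) (nat_lit 312) (nat_lit 226) (nat_lit 182)) (XT.lf (nat_lit 0) (nat_lit 19849456038) (nat_lit 152) (nat_lit 24312574488) (nat_lit 0) (nat_lit 7775820589) (nat_lit 4) (nat_lit 5) (nat_lit 6) (nat_lit 4) (nat_lit 4) (nat_lit 4) (nat_lit 313) (nat_lit 226) (nat_lit 181))) (XT.nd (nat_lit 78) (nat_lit 0) (nat_lit 0) (XT.lf (nat_lit 0) (nat_lit 23221931979) (nat_lit 152) (nat_lit 20079361038) (nat_lit 0) (nat_lit 11076294719) (nat_lit 4) (nat_lit 5) (nat_lit 6) (nat_lit 4) (nat_lit 4) (nat_lit 4) (nat_lit 314) (nat_lit 226) (nat_lit 180)) (XT.lf (nat_lit 0) (nat_lit 26737027019) (nat_lit 152) (nat_lit 15680803427) (nat_lit 0) (nat_lit 14522816606) (nat_lit 4) (nat_lit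 5) (nat_lit 6) (nat_lit 4) (nat_lit 4) (nat_lit 4) (nat_lit 315) (nat_lit 226) (nat_lit 179)))) (XT.nd (nat_lit 156) (nat_lit 76) (nat_lit 0) (XT.nd (nat_lit 78) (nat_lit 0) (nat_lit 0) (XT.lf (nat_lit 0) (nat_lit 30403110432) (nat_lit 152) (nat_lit 11106428900) (nat_lit 0) (nat_lit 18123592253) (nat_lit 4) (nat_lit 5) (nat_lit 6) (nat_lit 4) (nat_lit 4) (nat_lit 4) (nat_lit 316) (nat_lit 226) (nat_lit 178)) (XT.lf (nat_lit 0) (nat_lit 34228910988) (nat_lit 152) (nat_lit 6345346088) (nat_lit 0) (nat_lit 21887194938) (nat_lit 4) (nat_lit 5) (nat_lit 6) (nat_lit 4) (nat_lit 4) (nat_lit 4) (nat_lit 317) (nat_lit 226) (nat_lit 177))) (XT.nd (nat_lit 78) (nat_lit 76) (nat_lit 0) (XT.lf (nat_lit 0) (nat_lit 38223537736) (nat_lit 152) (nat_lit 1386219081) (nat_lit 0) (nat_lit 25822585618) (nat_lit 4) (nat_lit 5) (nat_lit 6) (nat_lit 4) (nat_lit 4) (nat_lit 4) (nat_lit 318) (nat_lit 226) (nat_lit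 176)) (XT.nd (nat_lit 78) (nat_lit 0) (nat_lit 0) (XT.lf (nat_lit 0) (nat_lit 3907834682) (nat_lit 76) (nat_lit 38549679260) (nat_lit 76) (nat_lit 26092311839) (nat_lit 3) (nat_lit 4) (nat_lit 4) (nat_lit 5) (nat_lit 4) (nat_lit 4) (nat_lit 319) (nat_lit 226) (nat_lit 175)) (XT.lf (nat_lit 0) (nat_lit 9477227413) (nat_lit 76) (nat_lit 37428477150) (nat_lit 76) (nat_lit 24917380869) (nat_lit 3) (nat_lit 4) (nat_lit 4) (nat_lit 5) (nat_lit 4) (nat_lit 4) (nat_lit 320) (nat_lit 226) (nat_lit 174))))))))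
noncomputable def xc68 : XT := (XT.nd (nat_lit 1326) (nat_lit 76) (nat_lit 0) (XT.nd (nat_lit 624) (nat_lit 76) (nat_lit 0) (XT.nd (nat_lit 312) (nat_lit 0) (nat_lit 0) (XT.nd (nat_lit 156) (nat_lit 0) (nat_lit 0) (XT.nd (nat_lit 78) (nat_lit 0) (nat_lit 0) (XT.lf (nat_lit 0) (nat_lit 15289384907) (nat_lit 76) (nat_lit 36266957249) (nat_lit 76) (nat_lit 23704690625) (nat_lit 3) (nat_lit 4) (nat_lit 4) (nat_lit 5) (nat_lit 4) (nat_lit 4) (nat_lit 321) (nat_lit 226) (nat_lit 173)) (XT.lf (nat_lit 0) (nat_lit 21358145635) (nat_lit 76) (nat_lit 35062354033) (nat_lit 76) (nat_lit 22451353750) (nat_lit 3) (nat_lit 4) (nat_lit 4) (nat_lit 5) (nat_lit 4) (nat_lit 4) (nat_lit 322) (nat_lit 226) (nat_lit 172))) (XT.nd (nat_lit 78) (nat_lit 0) (nat_lit 0) (XT.lf (nat_lit 0) (nat_lit 27697959026) (nat_lit 76) (nat_lit 33811799399) (nat_lit 76) (nat_lit 21154386107) (nat_lit 3) (nat_lit 4) (nat_lit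 4) (nat_lit 5) (nat_lit 4) (nat_lit 4) (nat_lit 323) (nat_lit 226) (nat_lit 171)) (XT.lf (nat_lit 0) (nat_lit 34323919875) (nat_lit 76) (nat_lit 32512315837) (nat_lit 76) (nat_lit 19810699678) (nat_lit 3) (nat_lit 4) (nat_lit 4) (nat_lit 5) (nat_lit 4) (nat_lit 4) (nat_lit 324) (nat_lit 226) (nat_lit 170)))) (XT.nd (nat_lit 156) (nat_lit 0) (nat_lit 0) (XT.nd (nat_lit 78) (nat_lit 0) (nat_lit 0) (XT.lf (nat_lit 0) (nat_lit 41251804278) (nat_lit 76) (nat_lit 31160809338) (nat_lit 76) (nat_lit 18417095211) (nat_lit 3) (nat_lit 4) (nat_lit 4) (nat_lit 5) (nat_lit 4) (nat_lit 4) (nat_lit 325) (nat_lit 226) (nat_lit 169)) (XT.lf (nat_lit 0) (nat_lit 48498107199) (nat_lit 76) (nat_lit 29754062028) (nat_lit 76) (nat_lit 16970254600) (nat_lit 3) (nat_lit 4) (nat_lit 4) (nat_lit 5) (nat_lit 4) (nat_lit 4) (nat_lit 326) (nat_lit 226) (nat_lit 168))) (XT.nd (nat_lit 78) (nat_lit 0) (nat_lit 0)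 (XT.lf (nat_lit 0) (nat_lit 56080081740) (nat_lit 76) (nat_lit 28288724511) (nat_lit 76) (nat_lit 15466732985) (nat_lit 3) (nat_lit 4) (nat_lit 4) (nat_lit 5) (nat_lit 4) (nat_lit 4) (nat_lit 327) (nat_lit 226) (nat_lit 167)) (XT.lf (nat_lit 0) (nat_lit 64015780221) (nat_lit 76) (nat_lit 26761307887) (nat_lit 76) (nat_lit 13902950553) (nat_lit 3) (nat_lit 4) (nat_lit 4) (nat_lit 5) (nat_lit 4) (nat_lit 4) (nat_lit 328) (nat_lit 226) (nat_lit 166))))) (XT.nd (nat_lit 312) (nat_lit 76) (nat_lit 0) (XT.nd (nat_lit 156) (nat_lit 0) (nat_lit 0) (XT.nd (nat_lit 78) (nat_lit 0) (nat_lit 0) (XT.lf (nat_lit 0) (nat_lit 72324097162) (nat_lit 76) (nat_lit 25168175449) (nat_lit 76) (nat_lit 12275184013) (nat_lit 3) (nat_lit 4) (nat_lit 4) (nat_lit 5) (nat_lit 4) (nat_lit 4) (nat_lit 329) (nat_lit 226) (nat_lit 165)) (XT.lf (nat_lit 0) (nat_lit 81024814271) (nat_lit 76) (nat_lit 23505534025) (nat_lit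 76) (nat_lit 10579557730) (nat_lit 3) (nat_lit 4) (nat_lit 4) (nat_lit 5) (nat_lit 4) (nat_lit 4) (nat_lit 330) (nat_lit 226) (nat_lit 164))) (XT.nd (nat_lit 78) (nat_lit 0) (nat_lit 0) (XT.lf (nat_lit 0) (nat_lit 90138647540) (nat_lit 76) (nat_lit 21769424946) (nat_lit 76) (nat_lit 8812034500) (nat_lit 3) (nat_lit 4) (nat_lit 4) (nat_lit 5) (nat_lit 4) (nat_lit 4) (nat_lit 331) (nat_lit 226) (nat_lit 163)) (XT.lf (nat_lit 0) (nat_lit 99687296572) (nat_lit 76) (nat_lit 19955714618) (nat_lit 76) (nat_lit 6968405932) (nat_lit 3) (nat_lit 4) (nat_lit 4) (nat_lit 5) (nat_lit 4) (nat_lit 4) (nat_lit 332) (nat_lit 226) (nat_lit 162)))) (XT.nd (nat_lit 156) (nat_lit 76) (nat_lit 0) (XT.nd (nat_lit 78) (nat_lit 0) (nat_lit 0) (XT.lf (nat_lit 0) (nat_lit 109693496246) (nat_lit 76) (nat_lit 18060084684) (nat_lit 76) (nat_lit 5044282436) (nat_lit 3) (nat_lit 4) (nat_lit 4) (nat_lit 5) (nat_lit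 4) (nat_lit 4) (nat_lit 333) (nat_lit 226) (nat_lit 161)) (XT.lf (nat_lit 0) (nat_lit 120181070848) (nat_lit 76) (nat_lit 16078021737) (nat_lit 76) (nat_lit 3035082764) (nat_lit 3) (nat_lit 4) (nat_lit 4) (nat_lit 5) (nat_lit 4) (nat_lit 4) (nat_lit 334) (nat_lit 226) (nat_lit 160))) (XT.nd (nat_lit 78) (nat_lit 76) (nat_lit 0) (XT.lf (nat_lit 0) (nat_lit 131174990792) (nat_lit 76) (nat_lit 14004806582) (nat_lit 76) (nat_lit 936023109) (nat_lit 3) (nat_lit 4) (nat_lit 4) (nat_lit 5) (nat_lit 4) (nat_lit 4) (nat_lit 335) (nat_lit 226) (nat_lit 159)) (XT.nd (nat_lit 78) (nat_lit 0) (nat_lit 0) (XT.lf (nat_lit 0) (nat_lit 1217633817) (nat_lit 152) (nat_lit 10597247957) (nat_lit 76) (nat_lit 141463177043) (nat_lit 2) (nat_lit 5) (nat_lit 4) (nat_lit 5) (nat_lit 3) (nat_lit 4) (nat_lit 336) (nat_lit 226) (nat_lit 158)) (XT.lf (nat_lit 0) (nat_lit 3438210288) (nat_lit 152) (nat_lit 6068507914)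 (nat_lit 76) (nat_lit 151291400572) (nat_lit 2) (nat_lit 5) (nat_lit 4) (nat_lit 5) (nat_lit 3) (nat_lit 4) (nat_lit 337) (nat_lit 226) (nat_lit 157))))))) (XT.nd (nat_lit 702) (nat_lit 0) (nat_lit 0) (XT.nd (nat_lit 312) (nat_lit 0) (nat_lit 0) (XT.nd (nat_lit 156) (nat_lit 0) (nat_lit 0) (XT.nd (nat_lit 78) (nat_lit 76) (nat_lit 0) (XT.lf (nat_lit 0) (nat_lit 5760951976) (nat_lit 152) (nat_lit 1329212906) (nat_lit 76) (nat_lit 161604471076) (nat_lit 2) (nat_lit 5) (nat_lit 4) (nat_lit 5) (nat_lit 3) (nat_lit 4) (nat_lit 338) (nat_lit 226) (nat_lit 156)) (XT.lf (nat_lit 0) (nat_lit 3752008817) (nat_lit 76) (nat_lit 4497959772) (nat_lit 152) (nat_lit 168733514040) (nat_lit 1) (nat_lit 5) (nat_lit 2) (nat_lit 5) (nat_lit 3) (nat_lit 4) (nat_lit 339) (nat_lit 226) (nat_lit 155))) (XT.nd (nat_lit 78) (nat_lit 0) (nat_lit 0) (XT.lf (nat_lit 0) (nat_lit 9118557112) (nat_lit 76) (nat_lit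 1759117885) (nat_lit 152) (nat_lit 174808394710) (nat_lit 1) (nat_lit 5) (nat_lit 2) (nat_lit 5) (nat_lit 3) (nat_lit 4) (nat_lit 340) (nat_lit 226) (nat_lit 154)) (XT.lf (nat_lit 0) (nat_lit 13646224730) (nat_lit 152) (nat_lit 180102265892) (nat_lit 0) (nat_lit 1074832160) (nat_lit 1) (nat_lit 5) (nat_lit 3) (nat_lit 4) (nat_lit 1) (nat_lit 4) (nat_lit 341) (nat_lit 226) (nat_lit 153)))) (XT.nd (nat_lit 156) (nat_lit 0) (nat_lit 0) (XT.nd (nat_lit 78) (nat_lit 0) (nat_lit 0) (XT.lf (nat_lit 0) (nat_lit 16574443485) (nat_lit 152) (nat_lit 183856383697) (nat_lit 0) (nat_lit 3985558340) (nat_lit 1) (nat_lit 5) (nat_lit 3) (nat_lit 4) (nat_lit 1) (nat_lit 4) (nat_lit 342) (nat_lit 226) (nat_lit 152)) (XT.lf (nat_lit 0) (nat_lit 19641838454) (nat_lit 152) (nat_lit 187811339626) (nat_lit 0) (nat_lit 7036293713) (nat_lit 1) (nat_lit 5) (nat_lit 3) (nat_lit 4) (nat_lit 1) (nat_lit 4) (nat_lit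 343) (nat_lit 226) (nat_lit 151))) (XT.nd (nat_lit 78) (nat_lit 0) (nat_lit 0) (XT.lf (nat_lit 0) (nat_lit 22855712956) (nat_lit 152) (nat_lit 191976550240) (nat_lit 0) (nat_lit 10234301935) (nat_lit 1) (nat_lit 5) (nat_lit 3) (nat_lit 4) (nat_lit 1) (nat_lit 4) (nat_lit 344) (nat_lit 226) (nat_lit 150)) (XT.nd (nat_lit 78) (nat_lit 0) (nat_lit 0) (XT.lf (nat_lit 0) (nat_lit 26223719075) (nat_lit 152) (nat_lit 196361932708) (nat_lit 0) (nat_lit 13587197309) (nat_lit 1) (nat_lit 5) (nat_lit 3) (nat_lit 4) (nat_lit 1) (nat_lit 4) (nat_lit 345) (nat_lit 226) (nat_lit 149)) (XT.lf (nat_lit 0) (nat_lit 29753875872) (nat_lit 152) (nat_lit 200977928417) (nat_lit 0) (nat_lit 17102962922) (nat_lit 1) (nat_lit 5) (nat_lit 3) (nat_lit 4) (nat_lit 1) (nat_lit 4) (nat_lit 346) (nat_lit 226) (nat_lit 148)))))) (XT.nd (nat_lit 312) (nat_lit 0) (nat_lit 0) (XT.nd (nat_lit 156) (nat_lit 0) (nat_lit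 0) (XT.nd (nat_lit 78) (nat_lit 0) (nat_lit 0) (XT.lf (nat_lit 0) (nat_lit 33454588483) (nat_lit 152) (nat_lit 205835527832) (nat_lit 0) (nat_lit 20789969643) (nat_lit 1) (nat_lit 5) (nat_lit 3) (nat_lit 4) (nat_lit 1) (nat_lit 4) (nat_lit 347) (nat_lit 226) (nat_lit 147)) (XT.lf (nat_lit 0) (nat_lit 37334668129) (nat_lit 152) (nat_lit 210946296667) (nat_lit 0) (nat_lit 24656996059) (nat_lit 1) (nat_lit 5) (nat_lit 3) (nat_lit 4) (nat_lit 1) (nat_lit 4) (nat_lit 348) (nat_lit 226) (nat_lit 146))) (XT.nd (nat_lit 78) (nat_lit 0) (nat_lit 0) (XT.lf (nat_lit 0) (nat_lit 41403353093) (nat_lit 152) (nat_lit 216322403419) (nat_lit 0) (nat_lit 28713249377) (nat_lit 1) (nat_lit 5) (nat_lit 3) (nat_lit 4) (nat_lit 1) (nat_lit 4) (nat_lit 349) (nat_lit 226) (nat_lit 145)) (XT.lf (nat_lit 0) (nat_lit 45670330722) (nat_lit 152) (nat_lit 221976648341) (nat_lit 0) (nat_lit 32968387343) (nat_lit 1)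 (nat_lit 5) (nat_lit 3) (nat_lit 4) (nat_lit 1) (nat_lit 4) (nat_lit 350) (nat_lit 226) (nat_lit 144)))) (XT.nd (nat_lit 156) (nat_lit 0) (nat_lit 0) (XT.nd (nat_lit 78) (nat_lit 0) (nat_lit 0) (XT.lf (nat_lit 0) (nat_lit 50145760486) (nat_lit 152) (nat_lit 227922493922) (nat_lit 0) (nat_lit 37432541237) (nat_lit 1) (nat_lit 5) (nat_lit 3) (nat_lit 4) (nat_lit 1) (nat_lit 4) (nat_lit 351) (nat_lit 226) (nat_lit 143)) (XT.lf (nat_lit 0) (nat_lit 54840298170) (nat_lit 152) (nat_lit 234174096937) (nat_lit 0) (nat_lit 42116339997) (nat_lit 1) (nat_lit 5) (nat_lit 3) (nat_lit 4) (nat_lit 1) (nat_lit 4) (nat_lit 352) (nat_lit 226) (nat_lit 142))) (XT.nd (nat_lit 78) (nat_lit 0) (nat_lit 0) (XT.lf (nat_lit 0) (nat_lit 59765121244) (nat_lit 152) (nat_lit 240746342155) (nat_lit 0) (nat_lit 47030935525) (nat_lit 1) (nat_lit 5) (nat_lit 3) (nat_lit 4) (nat_lit 1) (nat_lit 4) (nat_lit 353) (nat_lit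 226) (nat_lit 141)) (XT.nd (nat_lit 78) (nat_lit 0) (nat_lit 0) (XT.lf (nat_lit 0) (nat_lit 64931955478) (nat_lit 152) (nat_lit 247654877779) (nat_lit 0) (nat_lit 52188029239) (nat_lit 1) (nat_lit 5) (nat_lit 3) (nat_lit 4) (nat_lit 1) (nat_lit 4) (nat_lit 354) (nat_lit 226) (nat_lit 140)) (XT.lf (nat_lit 0) (nat_lit 70353102859) (nat_lit 152) (nat_lit 254916152703) (nat_lit 0) (nat_lit 57599899933) (nat_lit 1) (nat_lit 5) (nat_lit 3) (nat_lit 4) (nat_lit 1) (nat_lit 4) (nat_lit 355) (nat_lit 226) (nat_lit 139))))))))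
noncomputable def xc69 : XT := (XT.nd (nat_lit 31200) (nat_lit 0) (nat_lit 684) (XT.nd (nat_lit 30498) (nat_lit 0) (nat_lit 1824) (XT.nd (nat_lit 312) (nat_lit 0) (nat_lit 0) (XT.nd (nat_lit 156) (nat_lit 0) (nat_lit 0) (XT.nd (nat_lit 78) (nat_lit 0) (nat_lit 0) (XT.lf (nat_lit 0) (nat_lit 76041470879) (nat_lit 152) (nat_lit 262547455677) (nat_lit 0) (nat_lit 63279433014) (nat_lit 1) (nat_lit 5) (nat_lit 3) (nat_lit 4) (nat_lit 1) (nat_lit 4) (nat_lit 356) (nat_lit 226) (nat_lit 138)) (XT.lf (nat_lit 0) (nat_lit 82010603273) (nat_lit 152) (nat_lit 270566956471) (nat_lit 0) (nat_lit 69240151180) (nat_lit 1) (nat_lit 5) (nat_lit 3) (nat_lit 4) (nat_lit 1) (nat_lit 4) (nat_lit 357) (nat_lit 226) (nat_lit 137))) (XT.nd (nat_lit 78) (nat_lit 0) (nat_lit 0) (XT.lf (nat_lit 0) (nat_lit 88274712260) (nat_lit 152) (nat_lit 278993749133) (nat_lit 0) (nat_lit 75496246617) (nat_lit 1) (nat_lit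 5) (nat_lit 3) (nat_lit 4) (nat_lit 1) (nat_lit 4) (nat_lit 358) (nat_lit 226) (nat_lit 136)) (XT.lf (nat_lit 0) (nat_lit 94848712385) (nat_lit 152) (nat_lit 287847897455) (nat_lit 0) (nat_lit 82062614790) (nat_lit 1) (nat_lit 5) (nat_lit 3) (nat_lit 4) (nat_lit 1) (nat_lit 4) (nat_lit 359) (nat_lit 226) (nat_lit 135)))) (XT.nd (nat_lit 156) (nat_lit 0) (nat_lit 0) (XT.nd (nat_lit 78) (nat_lit 0) (nat_lit 0) (XT.lf (nat_lit 0) (nat_lit 101748256030) (nat_lit 152) (nat_lit 297150482744) (nat_lit 0) (nat_lit 88954889909) (nat_lit 1) (nat_lit 5) (nat_lit 3) (nat_lit 4) (nat_lit 1) (nat_lit 4) (nat_lit 360) (nat_lit 226) (nat_lit 134)) (XT.lf (nat_lit 0) (nat_lit 108989770680) (nat_lit 152) (nat_lit 306923654012) (nat_lit 0) (nat_lit 96189482153) (nat_lit 1) (nat_lit 5) (nat_lit 3) (nat_lit 4) (nat_lit 1) (nat_lit 4) (nat_lit 361) (nat_lit 226) (nat_lit 133))) (XT.nd (nat_lit 78) (nat_lit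 0) (nat_lit 0) (XT.lf (nat_lit 0) (nat_lit 116590498036) (nat_lit 152) (nat_lit 317190680714) (nat_lit 0) (nat_lit 103783616741) (nat_lit 1) (nat_lit 5) (nat_lit 3) (nat_lit 4) (nat_lit 1) (nat_lit 4) (nat_lit 362) (nat_lit 226) (nat_lit 132)) (XT.lf (nat_lit 0) (nat_lit 124568535068) (nat_lit 152) (nat_lit 327976008151) (nat_lit 0) (nat_lit 111755374947) (nat_lit 1) (nat_lit 5) (nat_lit 3) (nat_lit 4) (nat_lit 1) (nat_lit 4) (nat_lit 363) (nat_lit 226) (nat_lit 131))))) (XT.nd (nat_lit 312) (nat_lit 760) (nat_lit 0) (XT.nd (nat_lit 156) (nat_lit 304) (nat_lit 0) (XT.nd (nat_lit 78) (nat_lit 228) (nat_lit 0) (XT.lf (nat_lit 0) (nat_lit 2019591142) (nat_lit 304) (nat_lit 384431060) (nat_lit 0) (nat_lit 2019591142) (nat_lit 42) (nat_lit 5) (nat_lit 46) (nat_lit 4) (nat_lit 42) (nat_lit 4) (nat_lit 266) (nat_lit 227) (nat_lit 227)) (XT.lf (nat_lit 0) (nat_lit 4858573431) (nat_lit 228)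 (nat_lit 2602582302) (nat_lit 228) (nat_lit 1598970940) (nat_lit 39) (nat_lit 4) (nat_lit 42) (nat_lit 5) (nat_lit 42) (nat_lit 4) (nat_lit 267) (nat_lit 227) (nat_lit 226))) (XT.nd (nat_lit 78) (nat_lit 0) (nat_lit 0) (XT.lf (nat_lit 0) (nat_lit 1341859724) (nat_lit 228) (nat_lit 268526339) (nat_lit 304) (nat_lit 7677551473) (nat_lit 35) (nat_lit 5) (nat_lit 38) (nat_lit 5) (nat_lit 39) (nat_lit 4) (nat_lit 268) (nat_lit 227) (nat_lit 225)) (XT.lf (nat_lit 0) (nat_lit 4898167994) (nat_lit 304) (nat_lit 2464440795) (nat_lit 0) (nat_lit 2165085330) (nat_lit 35) (nat_lit 5) (nat_lit 39) (nat_lit 4) (nat_lit 35) (nat_lit 4) (nat_lit 269) (nat_lit 227) (nat_lit 224)))) (XT.nd (nat_lit 156) (nat_lit 456) (nat_lit 0) (XT.nd (nat_lit 78) (nat_lit 76) (nat_lit 0) (XT.lf (nat_lit 0) (nat_lit 3210861215) (nat_lit 228) (nat_lit 5065725087) (nat_lit 228) (nat_lit 1506968872) (nat_lit 32) (nat_lit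 4) (nat_lit 35) (nat_lit 5) (nat_lit 35) (nat_lit 4) (nat_lit 270) (nat_lit 227) (nat_lit 223)) (XT.lf (nat_lit 0) (nat_lit 1630064766) (nat_lit 304) (nat_lit 1003479206) (nat_lit 76) (nat_lit 7421918635) (nat_lit 31) (nat_lit 5) (nat_lit 35) (nat_lit 5) (nat_lit 32) (nat_lit 4) (nat_lit 271) (nat_lit 227) (nat_lit 222))) (XT.nd (nat_lit 78) (nat_lit 304) (nat_lit 0) (XT.lf (nat_lit 0) (nat_lit 4801258086) (nat_lit 152) (nat_lit 25707920) (nat_lit 228) (nat_lit 5515451780) (nat_lit 29) (nat_lit 5) (nat_lit 31) (nat_lit 5) (nat_lit 32) (nat_lit 4) (nat_lit 272) (nat_lit 227) (nat_lit 221)) (XT.nd (nat_lit 78) (nat_lit 76) (nat_lit 0) (XT.lf (nat_lit 0) (nat_lit 73320977) (nat_lit 228) (nat_lit 8052197890) (nat_lit 228) (nat_lit 2521464475) (nat_lit 26) (nat_lit 4) (nat_lit 29) (nat_lit 5) (nat_lit 29) (nat_lit 4) (nat_lit 273) (nat_lit 227) (nat_lit 220)) (XT.lf (nat_lit 0) (nat_lit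 579904203) (nat_lit 304) (nat_lit 4988866629) (nat_lit 76) (nat_lit 5398960894) (nat_lit 25) (nat_lit 5) (nat_lit 29) (nat_lit 5) (nat_lit 26) (nat_lit 4) (nat_lit 274) (nat_lit 227) (nat_lit 219))))))) (XT.nd (nat_lit 702) (nat_lit 380) (nat_lit 0) (XT.nd (nat_lit 312) (nat_lit 380) (nat_lit 0) (XT.nd (nat_lit 156) (nat_lit 228) (nat_lit 0) (XT.nd (nat_lit 78) (nat_lit 0) (nat_lit 0) (XT.lf (nat_lit 0) (nat_lit 688233234) (nat_lit 152) (nat_lit 2961539349) (nat_lit 228) (nat_lit 7658074610) (nat_lit 23) (nat_lit 5) (nat_lit 25) (nat_lit 5) (nat_lit 26) (nat_lit 4) (nat_lit 275) (nat_lit 227) (nat_lit 218)) (XT.lf (nat_lit 0) (nat_lit 6657466015) (nat_lit 152) (nat_lit 190366841) (nat_lit 228) (nat_lit 4818691024) (nat_lit 23) (nat_lit 5) (nat_lit 25) (nat_lit 5) (nat_lit 26) (nat_lit 4) (nat_lit 276) (nat_lit 227) (nat_lit 217))) (XT.nd (nat_lit 78) (nat_lit 76) (nat_lit 0) (XT.lf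 (nat_lit 0) (nat_lit 700225136) (nat_lit 152) (nat_lit 9453578293) (nat_lit 152) (nat_lit 1892207149) (nat_lit 21) (nat_lit 4) (nat_lit 23) (nat_lit 5) (nat_lit 23) (nat_lit 4) (nat_lit 277) (nat_lit 227) (nat_lit 216)) (XT.lf (nat_lit 0) (nat_lit 1127366967) (nat_lit 228) (nat_lit 5757160796) (nat_lit 76) (nat_lit 5560045423) (nat_lit 20) (nat_lit 5) (nat_lit 23) (nat_lit 5) (nat_lit 21) (nat_lit 4) (nat_lit 278) (nat_lit 227) (nat_lit 215)))) (XT.nd (nat_lit 156) (nat_lit 228) (nat_lit 0) (XT.nd (nat_lit 78) (nat_lit 152) (nat_lit 0) (XT.lf (nat_lit 0) (nat_lit 4134529599) (nat_lit 228) (nat_lit 75231627) (nat_lit 76) (nat_lit 8656980579) (nat_lit 20) (nat_lit 5) (nat_lit 23) (nat_lit 5) (nat_lit 21) (nat_lit 4) (nat_lit 279) (nat_lit 227) (nat_lit 214)) (XT.lf (nat_lit 0) (nat_lit 5932965058) (nat_lit 152) (nat_lit 1356668254) (nat_lit 228) (nat_lit 6020733905) (nat_lit 18) (nat_lit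 5) (nat_lit 20) (nat_lit 5) (nat_lit 21) (nat_lit 4) (nat_lit 280) (nat_lit 227) (nat_lit 213))) (XT.nd (nat_lit 78) (nat_lit 228) (nat_lit 0) (XT.lf (nat_lit 0) (nat_lit 10535767047) (nat_lit 228) (nat_lit 1706912312) (nat_lit 0) (nat_lit 1537047479) (nat_lit 18) (nat_lit 5) (nat_lit 21) (nat_lit 4) (nat_lit 18) (nat_lit 4) (nat_lit 281) (nat_lit 227) (nat_lit 212)) (XT.nd (nat_lit 78) (nat_lit 76) (nat_lit 0) (XT.lf (nat_lit 0) (nat_lit 4217589771) (nat_lit 152) (nat_lit 9725553452) (nat_lit 152) (nat_lit 329670788) (nat_lit 16) (nat_lit 4) (nat_lit 18) (nat_lit 5) (nat_lit 18) (nat_lit 4) (nat_lit 282) (nat_lit 227) (nat_lit 211)) (XT.lf (nat_lit 0) (nat_lit 2583615261) (nat_lit 228) (nat_lit 4477721944) (nat_lit 76) (nat_lit 7730240590) (nat_lit 15) (nat_lit 5) (nat_lit 18) (nat_lit 5) (nat_lit 16) (nat_lit 4) (nat_lit 283) (nat_lit 227) (nat_lit 210)))))) (XT.nd (nat_lit 312) (nat_lit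 152) (nat_lit 0) (XT.nd (nat_lit 156) (nat_lit 152) (nat_lit 0) (XT.nd (nat_lit 78) (nat_lit 0) (nat_lit 0) (XT.lf (nat_lit 0) (nat_lit 1277877926) (nat_lit 76) (nat_lit 4289073192) (nat_lit 152) (nat_lit 9772463462) (nat_lit 14) (nat_lit 5) (nat_lit 15) (nat_lit 5) (nat_lit 16) (nat_lit 4) (nat_lit 284) (nat_lit 227) (nat_lit 209)) (XT.lf (nat_lit 0) (nat_lit 7342638965) (nat_lit 76) (nat_lit 1350090422) (nat_lit 152) (nat_lit 7222419806) (nat_lit 14) (nat_lit 5) (nat_lit 15) (nat_lit 5) (nat_lit 16) (nat_lit 4) (nat_lit 285) (nat_lit 227) (nat_lit 208))) (XT.nd (nat_lit 78) (nat_lit 152) (nat_lit 0) (XT.lf (nat_lit 0) (nat_lit 11922506385) (nat_lit 152) (nat_lit 2967151438) (nat_lit 0) (nat_lit 1632788915) (nat_lit 14) (nat_lit 5) (nat_lit 16) (nat_lit 4) (nat_lit 14) (nat_lit 4) (nat_lit 286) (nat_lit 227) (nat_lit 207)) (XT.lf (nat_lit 0) (nat_lit 2863204414) (nat_lit 152) (nat_lit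 12441792102) (nat_lit 152) (nat_lit 1855705416) (nat_lit 12) (nat_lit 4) (nat_lit 14) (nat_lit 5) (nat_lit 14) (nat_lit 4) (nat_lit 287) (nat_lit 227) (nat_lit 206)))) (XT.nd (nat_lit 156) (nat_lit 76) (nat_lit 0) (XT.nd (nat_lit 78) (nat_lit 0) (nat_lit 0) (XT.lf (nat_lit 0) (nat_lit 968703987) (nat_lit 228) (nat_lit 8882499908) (nat_lit 76) (nat_lit 7980215288) (nat_lit 11) (nat_lit 5) (nat_lit 14) (nat_lit 5) (nat_lit 12) (nat_lit 4) (nat_lit 288) (nat_lit 227) (nat_lit 205)) (XT.lf (nat_lit 0) (nat_lit 3800273733) (nat_lit 228) (nat_lit 3346597546) (nat_lit 76) (nat_lit 11390997782) (nat_lit 11) (nat_lit 5) (nat_lit 14) (nat_lit 5) (nat_lit 12) (nat_lit 4) (nat_lit 289) (nat_lit 227) (nat_lit 204))) (XT.nd (nat_lit 78) (nat_lit 0) (nat_lit 0) (XT.lf (nat_lit 0) (nat_lit 2430142793) (nat_lit 76) (nat_lit 4312938360) (nat_lit 152) (nat_lit 12538204007) (nat_lit 10) (nat_lit 5) (nat_lit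 11) (nat_lit 5) (nat_lit 12) (nat_lit 4) (nat_lit 290) (nat_lit 227) (nat_lit 203)) (XT.nd (nat_lit 78) (nat_lit 0) (nat_lit 0) (XT.lf (nat_lit 0) (nat_lit 8500004041) (nat_lit 76) (nat_lit 1322923422) (nat_lit 152) (nat_lit 10239570329) (nat_lit 10) (nat_lit 5) (nat_lit 11) (nat_lit 5) (nat_lit 12) (nat_lit 4) (nat_lit 291) (nat_lit 227) (nat_lit 202)) (XT.lf (nat_lit 0) (nat_lit 13020859373) (nat_lit 152) (nat_lit 6146972362) (nat_lit 0) (nat_lit 1716849567) (nat_lit 10) (nat_lit 5) (nat_lit 12) (nat_lit 4) (nat_lit 10) (nat_lit 4) (nat_lit 292) (nat_lit 227) (nat_lit 201))))))))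
noncomputable def xc70 : XT := (XT.nd (nat_lit 1326) (nat_lit 152) (nat_lit 0) (XT.nd (nat_lit 624) (nat_lit 152) (nat_lit 0) (XT.nd (nat_lit 312) (nat_lit 76) (nat_lit 0) (XT.nd (nat_lit 156) (nat_lit 76) (nat_lit 0) (XT.nd (nat_lit 78) (nat_lit 76) (nat_lit 0) (XT.lf (nat_lit 0) (nat_lit 16339166754) (nat_lit 152) (nat_lit 586359848) (nat_lit 0) (nat_lit 4824532878) (nat_lit 10) (nat_lit 5) (nat_lit 12) (nat_lit 4) (nat_lit 10) (nat_lit 4) (nat_lit 293) (nat_lit 227) (nat_lit 200)) (XT.lf (nat_lit 0) (nat_lit 5323627203) (nat_lit 76) (nat_lit 14524585333) (nat_lit 76) (nat_lit 2809357105) (nat_lit 9) (nat_lit 4) (nat_lit 10) (nat_lit 5) (nat_lit 10) (nat_lit 4) (nat_lit 294) (nat_lit 227) (nat_lit 199))) (XT.nd (nat_lit 78) (nat_lit 76) (nat_lit 0) (XT.lf (nat_lit 0) (nat_lit 11452022798) (nat_lit 76) (nat_lit 12033578845) (nat_lit 76) (nat_lit 127308378) (nat_lit 9) (nat_lit 4) (nat_lit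 10) (nat_lit 5) (nat_lit 10) (nat_lit 4) (nat_lit 295) (nat_lit 227) (nat_lit 198)) (XT.lf (nat_lit 0) (nat_lit 2547477874) (nat_lit 152) (nat_lit 6865885815) (nat_lit 76) (nat_lit 15203410005) (nat_lit 8) (nat_lit 5) (nat_lit 10) (nat_lit 5) (nat_lit 9) (nat_lit 4) (nat_lit 296) (nat_lit 227) (nat_lit 197)))) (XT.nd (nat_lit 156) (nat_lit 0) (nat_lit 0) (XT.nd (nat_lit 78) (nat_lit 76) (nat_lit 0) (XT.lf (nat_lit 0) (nat_lit 5299053472) (nat_lit 152) (nat_lit 1398436781) (nat_lit 76) (nat_lit 18975955270) (nat_lit 8) (nat_lit 5) (nat_lit 10) (nat_lit 5) (nat_lit 9) (nat_lit 4) (nat_lit 297) (nat_lit 227) (nat_lit 196)) (XT.lf (nat_lit 0) (nat_lit 4397203215) (nat_lit 76) (nat_lit 3809493899) (nat_lit 152) (nat_lit 18575411032) (nat_lit 7) (nat_lit 5) (nat_lit 8) (nat_lit 5) (nat_lit 9) (nat_lit 4) (nat_lit 298) (nat_lit 227) (nat_lit 195))) (XT.nd (nat_lit 78) (nat_lit 0) (nat_lit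 0) (XT.lf (nat_lit 0) (nat_lit 10446642126) (nat_lit 76) (nat_lit 787669541) (nat_lit 152) (nat_lit 16713240570) (nat_lit 7) (nat_lit 5) (nat_lit 8) (nat_lit 5) (nat_lit 9) (nat_lit 4) (nat_lit 299) (nat_lit 227) (nat_lit 194)) (XT.lf (nat_lit 0) (nat_lit 14403263724) (nat_lit 152) (nat_lit 12492349116) (nat_lit 0) (nat_lit 2276231927) (nat_lit 7) (nat_lit 5) (nat_lit 9) (nat_lit 4) (nat_lit 7) (nat_lit 4) (nat_lit 300) (nat_lit 227) (nat_lit 193))))) (XT.nd (nat_lit 312) (nat_lit 76) (nat_lit 0) (XT.nd (nat_lit 156) (nat_lit 76) (nat_lit 0) (XT.nd (nat_lit 78) (nat_lit 0) (nat_lit 0) (XT.lf (nat_lit 0) (nat_lit 17698543999) (nat_lit 152) (nat_lit 7324742388) (nat_lit 0) (nat_lit 5435742049) (nat_lit 7) (nat_lit 5) (nat_lit 9) (nat_lit 4) (nat_lit 7) (nat_lit 4) (nat_lit 301) (nat_lit 227) (nat_lit 192)) (XT.lf (nat_lit 0) (nat_lit 21115700668) (nat_lit 152) (nat_lit 1973488374) (nat_lit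 0) (nat_lit 8723593811) (nat_lit 7) (nat_lit 5) (nat_lit 9) (nat_lit 4) (nat_lit 7) (nat_lit 4) (nat_lit 302) (nat_lit 227) (nat_lit 191))) (XT.nd (nat_lit 78) (nat_lit 0) (nat_lit 0) (XT.lf (nat_lit 0) (nat_lit 3692331678) (nat_lit 76) (nat_lit 21028185787) (nat_lit 76) (nat_lit 8512931398) (nat_lit 6) (nat_lit 4) (nat_lit 7) (nat_lit 5) (nat_lit 7) (nat_lit 4) (nat_lit 303) (nat_lit 227) (nat_lit 190)) (XT.lf (nat_lit 0) (nat_lit 9639931434) (nat_lit 76) (nat_lit 18859072007) (nat_lit 76) (nat_lit 6226534255) (nat_lit 6) (nat_lit 4) (nat_lit 7) (nat_lit 5) (nat_lit 7) (nat_lit 4) (nat_lit 304) (nat_lit 227) (nat_lit 189)))) (XT.nd (nat_lit 156) (nat_lit 76) (nat_lit 0) (XT.nd (nat_lit 78) (nat_lit 0) (nat_lit 0) (XT.lf (nat_lit 0) (nat_lit 15818219405) (nat_lit 76) (nat_lit 16610105126) (nat_lit 76) (nat_lit 3865868934) (nat_lit 6) (nat_lit 4) (nat_lit 7) (nat_lit 5) (nat_lit 7) (nat_lit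 4) (nat_lit 305) (nat_lit 227) (nat_lit 188)) (XT.lf (nat_lit 0) (nat_lit 22241905802) (nat_lit 76) (nat_lit 14275930463) (nat_lit 76) (nat_lit 1425314803) (nat_lit 6) (nat_lit 4) (nat_lit 7) (nat_lit 5) (nat_lit 7) (nat_lit 4) (nat_lit 306) (nat_lit 227) (nat_lit 187))) (XT.nd (nat_lit 78) (nat_lit 0) (nat_lit 0) (XT.lf (nat_lit 0) (nat_lit 1065702057) (nat_lit 152) (nat_lit 10767240220) (nat_lit 76) (nat_lit 27842534877) (nat_lit 5) (nat_lit 5) (nat_lit 7) (nat_lit 5) (nat_lit 6) (nat_lit 4) (nat_lit 307) (nat_lit 227) (nat_lit 186)) (XT.nd (nat_lit 78) (nat_lit 0) (nat_lit 0) (XT.lf (nat_lit 0) (nat_lit 3599879048) (nat_lit 152) (nat_lit 5668666702) (nat_lit 76) (nat_lit 32226427791) (nat_lit 5) (nat_lit 5) (nat_lit 7) (nat_lit 5) (nat_lit 6) (nat_lit 4) (nat_lit 308) (nat_lit 227) (nat_lit 185)) (XT.lf (nat_lit 0) (nat_lit 6228868898) (nat_lit 152) (nat_lit 371132093) (nat_lit 76)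 (nat_lit 36807084029) (nat_lit 5) (nat_lit 5) (nat_lit 7) (nat_lit 5) (nat_lit 6) (nat_lit 4) (nat_lit 309) (nat_lit 227) (nat_lit 184))))))) (XT.nd (nat_lit 702) (nat_lit 76) (nat_lit 0) (XT.nd (nat_lit 312) (nat_lit 0) (nat_lit 0) (XT.nd (nat_lit 156) (nat_lit 0) (nat_lit 0) (XT.nd (nat_lit 78) (nat_lit 0) (nat_lit 0) (XT.lf (nat_lit 0) (nat_lit 5307861500) (nat_lit 76) (nat_lit 3733940200) (nat_lit 152) (nat_lit 36370419009) (nat_lit 4) (nat_lit 5) (nat_lit 5) (nat_lit 5) (nat_lit 6) (nat_lit 4) (nat_lit 310) (nat_lit 227) (nat_lit 183)) (XT.lf (nat_lit 0) (nat_lit 11231246897) (nat_lit 76) (nat_lit 740670166) (nat_lit 152) (nat_lit 35546910569) (nat_lit 4) (nat_lit 5) (nat_lit 5) (nat_lit 5) (nat_lit 6) (nat_lit 4) (nat_lit 311) (nat_lit 227) (nat_lit 182))) (XT.nd (nat_lit 78) (nat_lit 0) (nat_lit 0) (XT.lf (nat_lit 0) (nat_lit 15057374078) (nat_lit 152) (nat_lit 32368533354) (nat_lit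 0) (nat_lit 2304454955) (nat_lit 4) (nat_lit 5) (nat_lit 6) (nat_lit 4) (nat_lit 4) (nat_lit 4) (nat_lit 312) (nat_lit 227) (nat_lit 181)) (XT.lf (nat_lit 0) (nat_lit 18281941145) (nat_lit 152) (nat_lit 28314308076) (nat_lit 0) (nat_lit 5457020211) (nat_lit 4) (nat_lit 5) (nat_lit 6) (nat_lit 4) (nat_lit 4) (nat_lit 4) (nat_lit 313) (nat_lit 227) (nat_lit 180)))) (XT.nd (nat_lit 156) (nat_lit 0) (nat_lit 0) (XT.nd (nat_lit 78) (nat_lit 0) (nat_lit 0) (XT.lf (nat_lit 0) (nat_lit 21641731867) (nat_lit 152) (nat_lit 24103688046) (nat_lit 0) (nat_lit 8748237780) (nat_lit 4) (nat_lit 5) (nat_lit 6) (nat_lit 4) (nat_lit 4) (nat_lit 4) (nat_lit 314) (nat_lit 227) (nat_lit 179)) (XT.lf (nat_lit 0) (nat_lit 25144745746) (nat_lit 152) (nat_lit 19726647979) (nat_lit 0) (nat_lit 12185943894) (nat_lit 4) (nat_lit 5) (nat_lit 6) (nat_lit 4) (nat_lit 4) (nat_lit 4) (nat_lit 315) (nat_lit 227) (nat_lit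 178))) (XT.nd (nat_lit 78) (nat_lit 0) (nat_lit 0) (XT.lf (nat_lit 0) (nat_lit 28799323292) (nat_lit 152) (nat_lit 15172766350) (nat_lit 0) (nat_lit 15778323568) (nat_lit 4) (nat_lit 5) (nat_lit 6) (nat_lit 4) (nat_lit 4) (nat_lit 4) (nat_lit 316) (nat_lit 227) (nat_lit 177)) (XT.nd (nat_lit 78) (nat_lit 0) (nat_lit 0) (XT.lf (nat_lit 0) (nat_lit 32614165879) (nat_lit 152) (nat_lit 10431200585) (nat_lit 0) (nat_lit 19533930087) (nat_lit 4) (nat_lit 5) (nat_lit 6) (nat_lit 4) (nat_lit 4) (nat_lit 4) (nat_lit 317) (nat_lit 227) (nat_lit 176)) (XT.lf (nat_lit 0) (nat_lit 36598356467) (nat_lit 152) (nat_lit 5490661240) (nat_lit 0) (nat_lit 23461705372) (nat_lit 4) (nat_lit 5) (nat_lit 6) (nat_lit 4) (nat_lit 4) (nat_lit 4) (nat_lit 318) (nat_lit 227) (nat_lit 175)))))) (XT.nd (nat_lit 312) (nat_lit 0) (nat_lit 0) (XT.nd (nat_lit 156) (nat_lit 0) (nat_lit 0) (XT.nd (nat_lit 78) (nat_lit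 76) (nat_lit 0) (XT.lf (nat_lit 0) (nat_lit 40761381222) (nat_lit 152) (nat_lit 339385127) (nat_lit 0) (nat_lit 27571001267) (nat_lit 4) (nat_lit 5) (nat_lit 6) (nat_lit 4) (nat_lit 4) (nat_lit 4) (nat_lit 319) (nat_lit 227) (nat_lit 174)) (XT.lf (nat_lit 0) (nat_lit 5201368986) (nat_lit 76) (nat_lit 39992991069) (nat_lit 76) (nat_lit 26751440771) (nat_lit 3) (nat_lit 4) (nat_lit 4) (nat_lit 5) (nat_lit 4) (nat_lit 4) (nat_lit 320) (nat_lit 227) (nat_lit 173))) (XT.nd (nat_lit 78) (nat_lit 0) (nat_lit 0) (XT.lf (nat_lit 0) (nat_lit 10996938851) (nat_lit 76) (nat_lit 38838784670) (nat_lit 76) (nat_lit 25548500713) (nat_lit 3) (nat_lit 4) (nat_lit 4) (nat_lit 5) (nat_lit 4) (nat_lit 4) (nat_lit 321) (nat_lit 227) (nat_lit 172)) (XT.lf (nat_lit 0) (nat_lit 17049901836) (nat_lit 76) (nat_lit 37641146695) (nat_lit 76) (nat_lit 24304449728) (nat_lit 3) (nat_lit 4) (nat_lit 4) (nat_lit 5)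 (nat_lit 4) (nat_lit 4) (nat_lit 322) (nat_lit 227) (nat_lit 171)))) (XT.nd (nat_lit 156) (nat_lit 0) (nat_lit 0) (XT.nd (nat_lit 78) (nat_lit 0) (nat_lit 0) (XT.lf (nat_lit 0) (nat_lit 23374669758) (nat_lit 76) (nat_lit 36397225624) (nat_lit 76) (nat_lit 23016325791) (nat_lit 3) (nat_lit 4) (nat_lit 4) (nat_lit 5) (nat_lit 4) (nat_lit 4) (nat_lit 323) (nat_lit 227) (nat_lit 170)) (XT.lf (nat_lit 0) (nat_lit 29986301588) (nat_lit 76) (nat_lit 35104059740) (nat_lit 76) (nat_lit 21681061940) (nat_lit 3) (nat_lit 4) (nat_lit 4) (nat_lit 5) (nat_lit 4) (nat_lit 4) (nat_lit 324) (nat_lit 227) (nat_lit 169))) (XT.nd (nat_lit 78) (nat_lit 0) (nat_lit 0) (XT.lf (nat_lit 0) (nat_lit 36900539307) (nat_lit 76) (nat_lit 33758570077) (nat_lit 76) (nat_lit 20295478974) (nat_lit 3) (nat_lit 4) (nat_lit 4) (nat_lit 5) (nat_lit 4) (nat_lit 4) (nat_lit 325) (nat_lit 227) (nat_lit 168)) (XT.nd (nat_lit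 78) (nat_lit 0) (nat_lit 0) (XT.lf (nat_lit 0) (nat_lit 44133845386) (nat_lit 76) (nat_lit 32357553088) (nat_lit 76) (nat_lit 18856277888) (nat_lit 3) (nat_lit 4) (nat_lit 4) (nat_lit 5) (nat_lit 4) (nat_lit 4) (nat_lit 326) (nat_lit 227) (nat_lit 167)) (XT.lf (nat_lit 0) (nat_lit 51703441982) (nat_lit 76) (nat_lit 30897673019) (nat_lit 76) (nat_lit 17360032012) (nat_lit 3) (nat_lit 4) (nat_lit 4) (nat_lit 5) (nat_lit 4) (nat_lit 4) (nat_lit 327) (nat_lit 227) (nat_lit 166))))))))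
noncomputable def xc71 : XT := (XT.nd (nat_lit 1326) (nat_lit 0) (nat_lit 0) (XT.nd (nat_lit 624) (nat_lit 152) (nat_lit 0) (XT.nd (nat_lit 312) (nat_lit 0) (nat_lit 0) (XT.nd (nat_lit 156) (nat_lit 0) (nat_lit 0) (XT.nd (nat_lit 78) (nat_lit 0) (nat_lit 0) (XT.lf (nat_lit 0) (nat_lit 59627351944) (nat_lit 76) (nat_lit 29375453964) (nat_lit 76) (nat_lit 15803178855) (nat_lit 3) (nat_lit 4) (nat_lit 4) (nat_lit 5) (nat_lit 4) (nat_lit 4) (nat_lit 328) (nat_lit 227) (nat_lit 165)) (XT.lf (nat_lit 0) (nat_lit 67924441724) (nat_lit 76) (nat_lit 27787271593) (nat_lit 76) (nat_lit 14182011624) (nat_lit 3) (nat_lit 4) (nat_lit 4) (nat_lit 5) (nat_lit 4) (nat_lit 4) (nat_lit 329) (nat_lit 227) (nat_lit 164))) (XT.nd (nat_lit 78) (nat_lit 0) (nat_lit 0) (XT.lf (nat_lit 0) (nat_lit 76614466298) (nat_lit 76) (nat_lit 26129344519) (nat_lit 76) (nat_lit 12492670398) (nat_lit 3) (nat_lit 4) (nat_lit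 4) (nat_lit 5) (nat_lit 4) (nat_lit 4) (nat_lit 330) (nat_lit 227) (nat_lit 163)) (XT.lf (nat_lit 0) (nat_lit 85718116202) (nat_lit 76) (nat_lit 24397725296) (nat_lit 76) (nat_lit 10731132936) (nat_lit 3) (nat_lit 4) (nat_lit 4) (nat_lit 5) (nat_lit 4) (nat_lit 4) (nat_lit 331) (nat_lit 227) (nat_lit 162)))) (XT.nd (nat_lit 156) (nat_lit 0) (nat_lit 0) (XT.nd (nat_lit 78) (nat_lit 0) (nat_lit 0) (XT.lf (nat_lit 0) (nat_lit 95257066790) (nat_lit 76) (nat_lit 22588291021) (nat_lit 76) (nat_lit 8893205099) (nat_lit 3) (nat_lit 4) (nat_lit 4) (nat_lit 5) (nat_lit 4) (nat_lit 4) (nat_lit 332) (nat_lit 227) (nat_lit 161)) (XT.lf (nat_lit 0) (nat_lit 105254029852) (nat_lit 76) (nat_lit 20696733518) (nat_lit 76) (nat_lit 6974510871) (nat_lit 3) (nat_lit 4) (nat_lit 4) (nat_lit 5) (nat_lit 4) (nat_lit 4) (nat_lit 333) (nat_lit 227) (nat_lit 160))) (XT.nd (nat_lit 78) (nat_lit 0) (nat_lit 0)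 (XT.lf (nat_lit 0) (nat_lit 115732807679) (nat_lit 76) (nat_lit 18718549079) (nat_lit 76) (nat_lit 4970481932) (nat_lit 3) (nat_lit 4) (nat_lit 4) (nat_lit 5) (nat_lit 4) (nat_lit 4) (nat_lit 334) (nat_lit 227) (nat_lit 159)) (XT.lf (nat_lit 0) (nat_lit 126718349743) (nat_lit 76) (nat_lit 16649027740) (nat_lit 76) (nat_lit 2876346783) (nat_lit 3) (nat_lit 4) (nat_lit 4) (nat_lit 5) (nat_lit 4) (nat_lit 4) (nat_lit 335) (nat_lit 227) (nat_lit 158))))) (XT.nd (nat_lit 312) (nat_lit 76) (nat_lit 0) (XT.nd (nat_lit 156) (nat_lit 0) (nat_lit 0) (XT.nd (nat_lit 78) (nat_lit 76) (nat_lit 0) (XT.lf (nat_lit 0) (nat_lit 138236812096) (nat_lit 76) (nat_lit 14483242069) (nat_lit 76) (nat_lit 687119388) (nat_lit 3) (nat_lit 4) (nat_lit 4) (nat_lit 5) (nat_lit 4) (nat_lit 4) (nat_lit 336) (nat_lit 227) (nat_lit 157)) (XT.lf (nat_lit 0) (nat_lit 1551125483) (nat_lit 152) (nat_lit 10638640891) (nat_lit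 76) (nat_lit 148738225105) (nat_lit 2) (nat_lit 5) (nat_lit 4) (nat_lit 5) (nat_lit 3) (nat_lit 4) (nat_lit 337) (nat_lit 227) (nat_lit 156))) (XT.nd (nat_lit 78) (nat_lit 0) (nat_lit 0) (XT.lf (nat_lit 0) (nat_lit 3869749350) (nat_lit 152) (nat_lit 5906724297) (nat_lit 76) (nat_lit 159048246038) (nat_lit 2) (nat_lit 5) (nat_lit 4) (nat_lit 5) (nat_lit 3) (nat_lit 4) (nat_lit 338) (nat_lit 227) (nat_lit 155)) (XT.lf (nat_lit 0) (nat_lit 6296264858) (nat_lit 152) (nat_lit 952617348) (nat_lit 76) (nat_lit 169867814094) (nat_lit 2) (nat_lit 5) (nat_lit 4) (nat_lit 5) (nat_lit 3) (nat_lit 4) (nat_lit 339) (nat_lit 227) (nat_lit 154)))) (XT.nd (nat_lit 156) (nat_lit 0) (nat_lit 0) (XT.nd (nat_lit 78) (nat_lit 0) (nat_lit 0) (XT.lf (nat_lit 0) (nat_lit 4375519393) (nat_lit 76) (nat_lit 4529244150) (nat_lit 152) (nat_lit 176915484876) (nat_lit 1) (nat_lit 5) (nat_lit 2) (nat_lit 5) (nat_lit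 3) (nat_lit 4) (nat_lit 340) (nat_lit 227) (nat_lit 153)) (XT.lf (nat_lit 0) (nat_lit 9989637478) (nat_lit 76) (nat_lit 1662679865) (nat_lit 152) (nat_lit 183306238382) (nat_lit 1) (nat_lit 5) (nat_lit 2) (nat_lit 5) (nat_lit 3) (nat_lit 4) (nat_lit 341) (nat_lit 227) (nat_lit 152))) (XT.nd (nat_lit 78) (nat_lit 0) (nat_lit 0) (XT.lf (nat_lit 0) (nat_lit 14551047872) (nat_lit 152) (nat_lit 188703482928) (nat_lit 0) (nat_lit 1298566299) (nat_lit 1) (nat_lit 5) (nat_lit 3) (nat_lit 4) (nat_lit 1) (nat_lit 4) (nat_lit 342) (nat_lit 227) (nat_lit 151)) (XT.nd (nat_lit 78) (nat_lit 0) (nat_lit 0) (XT.lf (nat_lit 0) (nat_lit 17615081760) (nat_lit 152) (nat_lit 192664539778) (nat_lit 0) (nat_lit 4346733906) (nat_lit 1) (nat_lit 5) (nat_lit 3) (nat_lit 4) (nat_lit 1) (nat_lit 4) (nat_lit 343) (nat_lit 227) (nat_lit 150)) (XT.lf (nat_lit 0) (nat_lit 20825755234) (nat_lit 152) (nat_lit 196835560794)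 (nat_lit 0) (nat_lit 7542296636) (nat_lit 1) (nat_lit 5) (nat_lit 3) (nat_lit 4) (nat_lit 1) (nat_lit 4) (nat_lit 344) (nat_lit 227) (nat_lit 149))))))) (XT.nd (nat_lit 702) (nat_lit 0) (nat_lit 0) (XT.nd (nat_lit 312) (nat_lit 0) (nat_lit 0) (XT.nd (nat_lit 156) (nat_lit 0) (nat_lit 0) (XT.nd (nat_lit 78) (nat_lit 0) (nat_lit 0) (XT.lf (nat_lit 0) (nat_lit 24190712754) (nat_lit 152) (nat_lit 201226476978) (nat_lit 0) (nat_lit 10892862971) (nat_lit 1) (nat_lit 5) (nat_lit 3) (nat_lit 4) (nat_lit 1) (nat_lit 4) (nat_lit 345) (nat_lit 227) (nat_lit 148)) (XT.lf (nat_lit 0) (nat_lit 27717966124) (nat_lit 152) (nat_lit 205847742892) (nat_lit 0) (nat_lit 14406410451) (nat_lit 1) (nat_lit 5) (nat_lit 3) (nat_lit 4) (nat_lit 1) (nat_lit 4) (nat_lit 346) (nat_lit 227) (nat_lit 147))) (XT.nd (nat_lit 78) (nat_lit 0) (nat_lit 0) (XT.lf (nat_lit 0) (nat_lit 31415913566) (nat_lit 152) (nat_lit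 210710361550) (nat_lit 0) (nat_lit 18091304664) (nat_lit 1) (nat_lit 5) (nat_lit 3) (nat_lit 4) (nat_lit 1) (nat_lit 4) (nat_lit 347) (nat_lit 227) (nat_lit 146)) (XT.lf (nat_lit 0) (nat_lit 35293359718) (nat_lit 152) (nat_lit 215825910617) (nat_lit 0) (nat_lit 21956319169) (nat_lit 1) (nat_lit 5) (nat_lit 3) (nat_lit 4) (nat_lit 1) (nat_lit 4) (nat_lit 348) (nat_lit 227) (nat_lit 145)))) (XT.nd (nat_lit 156) (nat_lit 0) (nat_lit 0) (XT.nd (nat_lit 78) (nat_lit 0) (nat_lit 0) (XT.lf (nat_lit 0) (nat_lit 39359536592) (nat_lit 152) (nat_lit 221206569970) (nat_lit 0) (nat_lit 26010656381) (nat_lit 1) (nat_lit 5) (nat_lit 3) (nat_lit 4) (nat_lit 1) (nat_lit 4) (nat_lit 349) (nat_lit 227) (nat_lit 144)) (XT.lf (nat_lit 0) (nat_lit 43624125564) (nat_lit 152) (nat_lit 226865150703) (nat_lit 0) (nat_lit 30263969483) (nat_lit 1) (nat_lit 5) (nat_lit 3) (nat_lit 4) (nat_lit 1) (nat_lit 4) (nat_lit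 350) (nat_lit 227) (nat_lit 143))) (XT.nd (nat_lit 78) (nat_lit 0) (nat_lit 0) (XT.lf (nat_lit 0) (nat_lit 48097280417) (nat_lit 152) (nat_lit 232815125628) (nat_lit 0) (nat_lit 34726385411) (nat_lit 1) (nat_lit 5) (nat_lit 3) (nat_lit 4) (nat_lit 1) (nat_lit 4) (nat_lit 351) (nat_lit 227) (nat_lit 142)) (XT.nd (nat_lit 78) (nat_lit 0) (nat_lit 0) (XT.lf (nat_lit 0) (nat_lit 52789651518) (nat_lit 152) (nat_lit 239070661351) (nat_lit 0) (nat_lit 39408528967) (nat_lit 1) (nat_lit 5) (nat_lit 3) (nat_lit 4) (nat_lit 1) (nat_lit 4) (nat_lit 352) (nat_lit 227) (nat_lit 141)) (XT.lf (nat_lit 0) (nat_lit 57712411181) (nat_lit 152) (nat_lit 245646652006) (nat_lit 0) (nat_lit 44321548109) (nat_lit 1) (nat_lit 5) (nat_lit 3) (nat_lit 4) (nat_lit 1) (nat_lit 4) (nat_lit 353) (nat_lit 227) (nat_lit 140)))))) (XT.nd (nat_lit 312) (nat_lit 0) (nat_lit 0) (XT.nd (nat_lit 156) (nat_lit 0) (nat_lit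 0) (XT.nd (nat_lit 78) (nat_lit 0) (nat_lit 0) (XT.lf (nat_lit 0) (nat_lit 62877280261) (nat_lit 152) (nat_lit 252558754712) (nat_lit 0) (nat_lit 49477140503) (nat_lit 1) (nat_lit 5) (nat_lit 3) (nat_lit 4) (nat_lit 1) (nat_lit 4) (nat_lit 354) (nat_lit 227) (nat_lit 139)) (XT.lf (nat_lit 0) (nat_lit 68296556067) (nat_lit 152) (nat_lit 259823426858) (nat_lit 0) (nat_lit 54887581369) (nat_lit 1) (nat_lit 5) (nat_lit 3) (nat_lit 4) (nat_lit 1) (nat_lit 4) (nat_lit 355) (nat_lit 227) (nat_lit 138))) (XT.nd (nat_lit 78) (nat_lit 0) (nat_lit 0) (XT.lf (nat_lit 0) (nat_lit 73983141634) (nat_lit 152) (nat_lit 267457965281) (nat_lit 0) (nat_lit 60565752710) (nat_lit 1) (nat_lit 5) (nat_lit 3) (nat_lit 4) (nat_lit 1) (nat_lit 4) (nat_lit 356) (nat_lit 227) (nat_lit 137)) (XT.lf (nat_lit 0) (nat_lit 79950576454) (nat_lit 152) (nat_lit 275480547455) (nat_lit 0) (nat_lit 66525173979) (nat_lit 1)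 (nat_lit 5) (nat_lit 3) (nat_lit 4) (nat_lit 1) (nat_lit 4) (nat_lit 357) (nat_lit 227) (nat_lit 136)))) (XT.nd (nat_lit 156) (nat_lit 0) (nat_lit 0) (XT.nd (nat_lit 78) (nat_lit 0) (nat_lit 0) (XT.lf (nat_lit 0) (nat_lit 86213068704) (nat_lit 152) (nat_lit 283910274764) (nat_lit 0) (nat_lit 72780034277) (nat_lit 1) (nat_lit 5) (nat_lit 3) (nat_lit 4) (nat_lit 1) (nat_lit 4) (nat_lit 358) (nat_lit 227) (nat_lit 135)) (XT.lf (nat_lit 0) (nat_lit 92785529080) (nat_lit 152) (nat_lit 292767217989) (nat_lit 0) (nat_lit 79345226126) (nat_lit 1) (nat_lit 5) (nat_lit 3) (nat_lit 4) (nat_lit 1) (nat_lit 4) (nat_lit 359) (nat_lit 227) (nat_lit 134))) (XT.nd (nat_lit 78) (nat_lit 0) (nat_lit 0) (XT.lf (nat_lit 0) (nat_lit 99683606297) (nat_lit 152) (nat_lit 302072465090) (nat_lit 0) (nat_lit 86236380937) (nat_lit 1) (nat_lit 5) (nat_lit 3) (nat_lit 4) (nat_lit 1) (nat_lit 4) (nat_lit 360) (nat_lit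 227) (nat_lit 133)) (XT.nd (nat_lit 78) (nat_lit 0) (nat_lit 0) (XT.lf (nat_lit 0) (nat_lit 106923724349) (nat_lit 152) (nat_lit 311848171417) (nat_lit 0) (nat_lit 93469906222) (nat_lit 1) (nat_lit 5) (nat_lit 3) (nat_lit 4) (nat_lit 1) (nat_lit 4) (nat_lit 361) (nat_lit 227) (nat_lit 132)) (XT.lf (nat_lit 0) (nat_lit 114523121611) (nat_lit 152) (nat_lit 322117612460) (nat_lit 0) (nat_lit 101063024658) (nat_lit 1) (nat_lit 5) (nat_lit 3) (nat_lit 4) (nat_lit 1) (nat_lit 4) (nat_lit 362) (nat_lit 227) (nat_lit 131))))))))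
noncomputable def xc72 : XT := (XT.nd (nat_lit 31044) (nat_lit 0) (nat_lit 532) (XT.nd (nat_lit 30342) (nat_lit 0) (nat_lit 1444) (XT.nd (nat_lit 30030) (nat_lit 0) (nat_lit 2356) (XT.nd (nat_lit 29874) (nat_lit 0) (nat_lit 3116) (XT.nd (nat_lit 29796) (nat_lit 0) (nat_lit 3420) (XT.lf (nat_lit 0) (nat_lit 122499891888) (nat_lit 152) (nat_lit 332905239271) (nat_lit 0) (nat_lit 109033815100) (nat_lit 1) (nat_lit 5) (nat_lit 3) (nat_lit 4) (nat_lit 1) (nat_lit 4) (nat_lit 363) (nat_lit 227) (nat_lit 130)) (XT.lf (nat_lit 0) (nat_lit 2797448885) (nat_lit 304) (nat_lit 715585372) (nat_lit 304) (nat_lit 715585372) (nat_lit 46) (nat_lit 4) (nat_lit 50) (nat_lit 5) (nat_lit 50) (nat_lit 4) (nat_lit 264) (nat_lit 228) (nat_lit 228))) (XT.nd (nat_lit 78) (nat_lit 0) (nat_lit 0) (XT.lf (nat_lit 0) (nat_lit 1774002119) (nat_lit 304) (nat_lit 6153746606) (nat_lit 0) (nat_lit 720210189) (nat_lit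 42) (nat_lit 5) (nat_lit 46) (nat_lit 4) (nat_lit 42) (nat_lit 4) (nat_lit 265) (nat_lit 228) (nat_lit 227)) (XT.lf (nat_lit 0) (nat_lit 5025265337) (nat_lit 304) (nat_lit 857739120) (nat_lit 0) (nat_lit 2967862045) (nat_lit 42) (nat_lit 5) (nat_lit 46) (nat_lit 4) (nat_lit 42) (nat_lit 4) (nat_lit 266) (nat_lit 228) (nat_lit 226)))) (XT.nd (nat_lit 156) (nat_lit 228) (nat_lit 0) (XT.nd (nat_lit 78) (nat_lit 304) (nat_lit 0) (XT.lf (nat_lit 0) (nat_lit 4679314257) (nat_lit 228) (nat_lit 3700641148) (nat_lit 228) (nat_lit 687417511) (nat_lit 39) (nat_lit 4) (nat_lit 42) (nat_lit 5) (nat_lit 42) (nat_lit 4) (nat_lit 267) (nat_lit 228) (nat_lit 225)) (XT.lf (nat_lit 0) (nat_lit 1046040076) (nat_lit 228) (nat_lit 1378139827) (nat_lit 304) (nat_lit 6873941226) (nat_lit 35) (nat_lit 5) (nat_lit 38) (nat_lit 5) (nat_lit 39) (nat_lit 4) (nat_lit 268) (nat_lit 228) (nat_lit 224))) (XT.nd (nat_lit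 78) (nat_lit 228) (nat_lit 0) (XT.lf (nat_lit 0) (nat_lit 5632059447) (nat_lit 304) (nat_lit 2840330785) (nat_lit 0) (nat_lit 1069691871) (nat_lit 35) (nat_lit 5) (nat_lit 39) (nat_lit 4) (nat_lit 35) (nat_lit 4) (nat_lit 269) (nat_lit 228) (nat_lit 223)) (XT.lf (nat_lit 0) (nat_lit 2736738307) (nat_lit 228) (nat_lit 6206738766) (nat_lit 228) (nat_lit 858015426) (nat_lit 32) (nat_lit 4) (nat_lit 35) (nat_lit 5) (nat_lit 35) (nat_lit 4) (nat_lit 270) (nat_lit 228) (nat_lit 222))))) (XT.nd (nat_lit 312) (nat_lit 380) (nat_lit 0) (XT.nd (nat_lit 156) (nat_lit 304) (nat_lit 0) (XT.nd (nat_lit 78) (nat_lit 152) (nat_lit 0) (XT.lf (nat_lit 0) (nat_lit 2199076362) (nat_lit 304) (nat_lit 1589527047) (nat_lit 76) (nat_lit 6287429266) (nat_lit 31) (nat_lit 5) (nat_lit 35) (nat_lit 5) (nat_lit 32) (nat_lit 4) (nat_lit 271) (nat_lit 228) (nat_lit 221)) (XT.lf (nat_lit 0) (nat_lit 4113329741) (nat_lit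 152) (nat_lit 1215553765) (nat_lit 228) (nat_lit 5037631221) (nat_lit 29) (nat_lit 5) (nat_lit 31) (nat_lit 5) (nat_lit 32) (nat_lit 4) (nat_lit 272) (nat_lit 228) (nat_lit 220))) (XT.nd (nat_lit 78) (nat_lit 304) (nat_lit 0) (XT.lf (nat_lit 0) (nat_lit 8552448253) (nat_lit 228) (nat_lit 703587746) (nat_lit 0) (nat_lit 1418957661) (nat_lit 29) (nat_lit 5) (nat_lit 32) (nat_lit 4) (nat_lit 29) (nat_lit 4) (nat_lit 273) (nat_lit 228) (nat_lit 219)) (XT.lf (nat_lit 0) (nat_lit 899605905) (nat_lit 304) (nat_lit 5905428802) (nat_lit 76) (nat_lit 4193867124) (nat_lit 25) (nat_lit 5) (nat_lit 29) (nat_lit 5) (nat_lit 26) (nat_lit 4) (nat_lit 274) (nat_lit 228) (nat_lit 218)))) (XT.nd (nat_lit 156) (nat_lit 228) (nat_lit 0) (XT.nd (nat_lit 78) (nat_lit 152) (nat_lit 0) (XT.lf (nat_lit 0) (nat_lit 3906428808) (nat_lit 304) (nat_lit 328232628) (nat_lit 76) (nat_lit 7107649779) (nat_lit 25) (nat_lit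 5) (nat_lit 29) (nat_lit 5) (nat_lit 26) (nat_lit 4) (nat_lit 275) (nat_lit 228) (nat_lit 217)) (XT.lf (nat_lit 0) (nat_lit 5553527433) (nat_lit 152) (nat_lit 1494661581) (nat_lit 228) (nat_lit 4655748790) (nat_lit 23) (nat_lit 5) (nat_lit 25) (nat_lit 5) (nat_lit 26) (nat_lit 4) (nat_lit 276) (nat_lit 228) (nat_lit 216))) (XT.nd (nat_lit 78) (nat_lit 228) (nat_lit 0) (XT.lf (nat_lit 0) (nat_lit 10273905417) (nat_lit 228) (nat_lit 518323021) (nat_lit 0) (nat_lit 1295337247) (nat_lit 23) (nat_lit 5) (nat_lit 26) (nat_lit 4) (nat_lit 23) (nat_lit 4) (nat_lit 277) (nat_lit 228) (nat_lit 215)) (XT.nd (nat_lit 78) (nat_lit 0) (nat_lit 0) (XT.lf (nat_lit 0) (nat_lit 1146220015) (nat_lit 228) (nat_lit 7111571362) (nat_lit 76) (nat_lit 4231251121) (nat_lit 20) (nat_lit 5) (nat_lit 23) (nat_lit 5) (nat_lit 21) (nat_lit 4) (nat_lit 278) (nat_lit 228) (nat_lit 214)) (XT.lf (nat_lit 0) (nat_lit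 4107018130) (nat_lit 228) (nat_lit 1501701157) (nat_lit 76) (nat_lit 7304921037) (nat_lit 20) (nat_lit 5) (nat_lit 23) (nat_lit 5) (nat_lit 21) (nat_lit 4) (nat_lit 279) (nat_lit 228) (nat_lit 213))))))) (XT.nd (nat_lit 702) (nat_lit 228) (nat_lit 0) (XT.nd (nat_lit 312) (nat_lit 304) (nat_lit 0) (XT.nd (nat_lit 156) (nat_lit 228) (nat_lit 0) (XT.nd (nat_lit 78) (nat_lit 0) (nat_lit 0) (XT.lf (nat_lit 0) (nat_lit 4388433280) (nat_lit 152) (nat_lit 2805417410) (nat_lit 228) (nat_lit 6166934301) (nat_lit 18) (nat_lit 5) (nat_lit 20) (nat_lit 5) (nat_lit 21) (nat_lit 4) (nat_lit 280) (nat_lit 228) (nat_lit 212)) (XT.lf (nat_lit 0) (nat_lit 10373876072) (nat_lit 228) (nat_lit 3348638441) (nat_lit 0) (nat_lit 111036179) (nat_lit 18) (nat_lit 5) (nat_lit 21) (nat_lit 4) (nat_lit 18) (nat_lit 4) (nat_lit 281) (nat_lit 228) (nat_lit 211))) (XT.nd (nat_lit 78) (nat_lit 76) (nat_lit 0) (XT.lf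 (nat_lit 0) (nat_lit 2453304433) (nat_lit 152) (nat_lit 11258983977) (nat_lit 152) (nat_lit 617893518) (nat_lit 16) (nat_lit 4) (nat_lit 18) (nat_lit 5) (nat_lit 18) (nat_lit 4) (nat_lit 282) (nat_lit 228) (nat_lit 210)) (XT.lf (nat_lit 0) (nat_lit 2263404458) (nat_lit 228) (nat_lit 6361349954) (nat_lit 76) (nat_lit 6226563905) (nat_lit 15) (nat_lit 5) (nat_lit 18) (nat_lit 5) (nat_lit 16) (nat_lit 4) (nat_lit 283) (nat_lit 228) (nat_lit 209)))) (XT.nd (nat_lit 156) (nat_lit 228) (nat_lit 0) (XT.nd (nat_lit 78) (nat_lit 76) (nat_lit 0) (XT.lf (nat_lit 0) (nat_lit 5187538583) (nat_lit 228) (nat_lit 709959414) (nat_lit 76) (nat_lit 9504700008) (nat_lit 15) (nat_lit 5) (nat_lit 18) (nat_lit 5) (nat_lit 16) (nat_lit 4) (nat_lit 284) (nat_lit 228) (nat_lit 208)) (XT.lf (nat_lit 0) (nat_lit 5269039021) (nat_lit 76) (nat_lit 2994472975) (nat_lit 152) (nat_lit 7716989739) (nat_lit 14) (nat_lit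 5) (nat_lit 15) (nat_lit 5) (nat_lit 16) (nat_lit 4) (nat_lit 285) (nat_lit 228) (nat_lit 207))) (XT.nd (nat_lit 78) (nat_lit 228) (nat_lit 0) (XT.lf (nat_lit 0) (nat_lit 11430732163) (nat_lit 152) (nat_lit 5141298146) (nat_lit 0) (nat_lit 18971926) (nat_lit 14) (nat_lit 5) (nat_lit 16) (nat_lit 4) (nat_lit 14) (nat_lit 4) (nat_lit 286) (nat_lit 228) (nat_lit 206)) (XT.nd (nat_lit 78) (nat_lit 76) (nat_lit 0) (XT.lf (nat_lit 0) (nat_lit 557284689) (nat_lit 152) (nat_lit 14184808681) (nat_lit 152) (nat_lit 2490792047) (nat_lit 12) (nat_lit 4) (nat_lit 14) (nat_lit 5) (nat_lit 14) (nat_lit 4) (nat_lit 287) (nat_lit 228) (nat_lit 205)) (XT.lf (nat_lit 0) (nat_lit 318970310) (nat_lit 228) (nat_lit 11308943113) (nat_lit 76) (nat_lit 6277998596) (nat_lit 11) (nat_lit 5) (nat_lit 14) (nat_lit 5) (nat_lit 12) (nat_lit 4) (nat_lit 288) (nat_lit 228) (nat_lit 204)))))) (XT.nd (nat_lit 312) (nat_lit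 152) (nat_lit 0) (XT.nd (nat_lit 156) (nat_lit 76) (nat_lit 0) (XT.nd (nat_lit 78) (nat_lit 0) (nat_lit 0) (XT.lf (nat_lit 0) (nat_lit 3117231689) (nat_lit 228) (nat_lit 5828522159) (nat_lit 76) (nat_lit 9668335265) (nat_lit 11) (nat_lit 5) (nat_lit 14) (nat_lit 5) (nat_lit 12) (nat_lit 4) (nat_lit 289) (nat_lit 228) (nat_lit 203)) (XT.lf (nat_lit 0) (nat_lit 5990375517) (nat_lit 228) (nat_lit 182401000) (nat_lit 76) (nat_lit 13188270731) (nat_lit 11) (nat_lit 5) (nat_lit 14) (nat_lit 5) (nat_lit 12) (nat_lit 4) (nat_lit 290) (nat_lit 228) (nat_lit 202))) (XT.nd (nat_lit 78) (nat_lit 0) (nat_lit 0) (XT.lf (nat_lit 0) (nat_lit 5829442059) (nat_lit 76) (nat_lit 3206814480) (nat_lit 152) (nat_lit 11107757660) (nat_lit 10) (nat_lit 5) (nat_lit 11) (nat_lit 5) (nat_lit 12) (nat_lit 4) (nat_lit 291) (nat_lit 228) (nat_lit 201)) (XT.lf (nat_lit 0) (nat_lit 12046711030) (nat_lit 76) (nat_lit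 130240262) (nat_lit 152) (nat_lit 8792161658) (nat_lit 10) (nat_lit 5) (nat_lit 11) (nat_lit 5) (nat_lit 12) (nat_lit 4) (nat_lit 292) (nat_lit 228) (nat_lit 200)))) (XT.nd (nat_lit 156) (nat_lit 76) (nat_lit 0) (XT.nd (nat_lit 78) (nat_lit 76) (nat_lit 0) (XT.lf (nat_lit 0) (nat_lit 15464789303) (nat_lit 152) (nat_lit 3408070823) (nat_lit 0) (nat_lit 2963205312) (nat_lit 10) (nat_lit 5) (nat_lit 12) (nat_lit 4) (nat_lit 10) (nat_lit 4) (nat_lit 293) (nat_lit 228) (nat_lit 199)) (XT.lf (nat_lit 0) (nat_lit 2361082159) (nat_lit 76) (nat_lit 16539417433) (nat_lit 76) (nat_lit 3846791203) (nat_lit 9) (nat_lit 4) (nat_lit 10) (nat_lit 5) (nat_lit 10) (nat_lit 4) (nat_lit 294) (nat_lit 228) (nat_lit 198))) (XT.nd (nat_lit 78) (nat_lit 76) (nat_lit 0) (XT.lf (nat_lit 0) (nat_lit 8444205792) (nat_lit 76) (nat_lit 14067183836) (nat_lit 76) (nat_lit 1192612616) (nat_lit 9) (nat_lit 4) (nat_lit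 10) (nat_lit 5) (nat_lit 10) (nat_lit 4) (nat_lit 295) (nat_lit 228) (nat_lit 197)) (XT.nd (nat_lit 78) (nat_lit 0) (nat_lit 0) (XT.lf (nat_lit 0) (nat_lit 1490576576) (nat_lit 152) (nat_lit 9992170182) (nat_lit 76) (nat_lit 13227277278) (nat_lit 8) (nat_lit 5) (nat_lit 10) (nat_lit 5) (nat_lit 9) (nat_lit 4) (nat_lit 296) (nat_lit 228) (nat_lit 196)) (XT.lf (nat_lit 0) (nat_lit 4217682222) (nat_lit 152) (nat_lit 4566633076) (nat_lit 76) (nat_lit 16983643901) (nat_lit 8) (nat_lit 5) (nat_lit 10) (nat_lit 5) (nat_lit 9) (nat_lit 4) (nat_lit 297) (nat_lit 228) (nat_lit 195))))))))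
noncomputable def xc73 : XT := (XT.nd (nat_lit 1326) (nat_lit 76) (nat_lit 0) (XT.nd (nat_lit 624) (nat_lit 152) (nat_lit 0) (XT.nd (nat_lit 312) (nat_lit 76) (nat_lit 0) (XT.nd (nat_lit 156) (nat_lit 0) (nat_lit 0) (XT.nd (nat_lit 78) (nat_lit 0) (nat_lit 0) (XT.lf (nat_lit 0) (nat_lit 1083016114) (nat_lit 76) (nat_lit 5967261285) (nat_lit 152) (nat_lit 19830134784) (nat_lit 7) (nat_lit 5) (nat_lit 8) (nat_lit 5) (nat_lit 9) (nat_lit 4) (nat_lit 298) (nat_lit 228) (nat_lit 194)) (XT.lf (nat_lit 0) (nat_lit 7093182712) (nat_lit 76) (nat_lit 2961901123) (nat_lit 152) (nat_lit 17991948979) (nat_lit 7) (nat_lit 5) (nat_lit 8) (nat_lit 5) (nat_lit 9) (nat_lit 4) (nat_lit 299) (nat_lit 228) (nat_lit 193))) (XT.nd (nat_lit 78) (nat_lit 0) (nat_lit 0) (XT.lf (nat_lit 0) (nat_lit 13168123213) (nat_lit 152) (nat_lit 15949621161) (nat_lit 0) (nat_lit 156411013) (nat_lit 7) (nat_lit 5) (nat_lit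 9) (nat_lit 4) (nat_lit 7) (nat_lit 4) (nat_lit 300) (nat_lit 228) (nat_lit 192)) (XT.lf (nat_lit 0) (nat_lit 16442482699) (nat_lit 152) (nat_lit 10818469580) (nat_lit 0) (nat_lit 3301465591) (nat_lit 7) (nat_lit 5) (nat_lit 9) (nat_lit 4) (nat_lit 7) (nat_lit 4) (nat_lit 301) (nat_lit 228) (nat_lit 191)))) (XT.nd (nat_lit 156) (nat_lit 0) (nat_lit 0) (XT.nd (nat_lit 78) (nat_lit 76) (nat_lit 0) (XT.lf (nat_lit 0) (nat_lit 19839714807) (nat_lit 152) (nat_lit 5501934753) (nat_lit 0) (nat_lit 6575550168) (nat_lit 7) (nat_lit 5) (nat_lit 9) (nat_lit 4) (nat_lit 7) (nat_lit 4) (nat_lit 302) (nat_lit 228) (nat_lit 190)) (XT.lf (nat_lit 0) (nat_lit 13059726) (nat_lit 76) (nat_lit 23355052358) (nat_lit 76) (nat_lit 9973604356) (nat_lit 6) (nat_lit 4) (nat_lit 7) (nat_lit 5) (nat_lit 7) (nat_lit 4) (nat_lit 303) (nat_lit 228) (nat_lit 189))) (XT.nd (nat_lit 78) (nat_lit 0) (nat_lit 0) (XT.lf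 (nat_lit 0) (nat_lit 5928126910) (nat_lit 76) (nat_lit 21199891060) (nat_lit 76) (nat_lit 7706744617) (nat_lit 6) (nat_lit 4) (nat_lit 7) (nat_lit 5) (nat_lit 7) (nat_lit 4) (nat_lit 304) (nat_lit 228) (nat_lit 188)) (XT.lf (nat_lit 0) (nat_lit 12075431480) (nat_lit 76) (nat_lit 18964212258) (nat_lit 76) (nat_lit 5364686348) (nat_lit 6) (nat_lit 4) (nat_lit 7) (nat_lit 5) (nat_lit 7) (nat_lit 4) (nat_lit 305) (nat_lit 228) (nat_lit 187))))) (XT.nd (nat_lit 312) (nat_lit 76) (nat_lit 0) (XT.nd (nat_lit 156) (nat_lit 76) (nat_lit 0) (XT.nd (nat_lit 78) (nat_lit 0) (nat_lit 0) (XT.lf (nat_lit 0) (nat_lit 18469609875) (nat_lit 76) (nat_lit 16642692908) (nat_lit 76) (nat_lit 2941853219) (nat_lit 6) (nat_lit 4) (nat_lit 7) (nat_lit 5) (nat_lit 7) (nat_lit 4) (nat_lit 306) (nat_lit 228) (nat_lit 186)) (XT.lf (nat_lit 0) (nat_lit 25125886329) (nat_lit 76) (nat_lit 14229805582) (nat_lit 76)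 (nat_lit 432476579) (nat_lit 6) (nat_lit 4) (nat_lit 7) (nat_lit 5) (nat_lit 7) (nat_lit 4) (nat_lit 307) (nat_lit 228) (nat_lit 185))) (XT.nd (nat_lit 78) (nat_lit 0) (nat_lit 0) (XT.lf (nat_lit 0) (nat_lit 2099983342) (nat_lit 152) (nat_lit 9584257733) (nat_lit 76) (nat_lit 29924561544) (nat_lit 5) (nat_lit 5) (nat_lit 7) (nat_lit 5) (nat_lit 6) (nat_lit 4) (nat_lit 308) (nat_lit 228) (nat_lit 184)) (XT.lf (nat_lit 0) (nat_lit 4714155078) (nat_lit 152) (nat_lit 4312724325) (nat_lit 76) (nat_lit 34494796726) (nat_lit 5) (nat_lit 5) (nat_lit 7) (nat_lit 5) (nat_lit 6) (nat_lit 4) (nat_lit 309) (nat_lit 228) (nat_lit 183)))) (XT.nd (nat_lit 156) (nat_lit 0) (nat_lit 0) (XT.nd (nat_lit 78) (nat_lit 0) (nat_lit 0) (XT.lf (nat_lit 0) (nat_lit 1210360602) (nat_lit 76) (nat_lit 6238641317) (nat_lit 152) (nat_lit 38081734317) (nat_lit 4) (nat_lit 5) (nat_lit 5) (nat_lit 5) (nat_lit 6) (nat_lit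 4) (nat_lit 310) (nat_lit 228) (nat_lit 182)) (XT.lf (nat_lit 0) (nat_lit 7109382355) (nat_lit 76) (nat_lit 3255914076) (nat_lit 152) (nat_lit 37272756932) (nat_lit 4) (nat_lit 5) (nat_lit 5) (nat_lit 5) (nat_lit 6) (nat_lit 4) (nat_lit 311) (nat_lit 228) (nat_lit 181))) (XT.nd (nat_lit 78) (nat_lit 0) (nat_lit 0) (XT.lf (nat_lit 0) (nat_lit 13255788080) (nat_lit 76) (nat_lit 144634022) (nat_lit 152) (nat_lit 36451700832) (nat_lit 4) (nat_lit 5) (nat_lit 5) (nat_lit 5) (nat_lit 6) (nat_lit 4) (nat_lit 312) (nat_lit 228) (nat_lit 180)) (XT.nd (nat_lit 78) (nat_lit 0) (nat_lit 0) (XT.lf (nat_lit 0) (nat_lit 16610045809) (nat_lit 152) (nat_lit 32562444855) (nat_lit 0) (nat_lit 3003303864) (nat_lit 4) (nat_lit 5) (nat_lit 6) (nat_lit 4) (nat_lit 4) (nat_lit 4) (nat_lit 313) (nat_lit 228) (nat_lit 179)) (XT.lf (nat_lit 0) (nat_lit 19957755370) (nat_lit 152) (nat_lit 28373342369) (nat_lit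 0) (nat_lit 6285705660) (nat_lit 4) (nat_lit 5) (nat_lit 6) (nat_lit 4) (nat_lit 4) (nat_lit 4) (nat_lit 314) (nat_lit 228) (nat_lit 178))))))) (XT.nd (nat_lit 702) (nat_lit 0) (nat_lit 0) (XT.nd (nat_lit 312) (nat_lit 76) (nat_lit 0) (XT.nd (nat_lit 156) (nat_lit 0) (nat_lit 0) (XT.nd (nat_lit 78) (nat_lit 0) (nat_lit 0) (XT.lf (nat_lit 0) (nat_lit 23449263383) (nat_lit 152) (nat_lit 24016795200) (nat_lit 0) (nat_lit 9715015801) (nat_lit 4) (nat_lit 5) (nat_lit 6) (nat_lit 4) (nat_lit 4) (nat_lit 4) (nat_lit 315) (nat_lit 228) (nat_lit 177)) (XT.lf (nat_lit 0) (nat_lit 27092882960) (nat_lit 152) (nat_lit 19482430617) (nat_lit 0) (nat_lit 13299399310) (nat_lit 4) (nat_lit 5) (nat_lit 6) (nat_lit 4) (nat_lit 4) (nat_lit 4) (nat_lit 316) (nat_lit 228) (nat_lit 176))) (XT.nd (nat_lit 78) (nat_lit 0) (nat_lit 0) (XT.lf (nat_lit 0) (nat_lit 30897289386) (nat_lit 152) (nat_lit 14759452515)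 (nat_lit 0) (nat_lit 17047390434) (nat_lit 4) (nat_lit 5) (nat_lit 6) (nat_lit 4) (nat_lit 4) (nat_lit 4) (nat_lit 317) (nat_lit 228) (nat_lit 175)) (XT.lf (nat_lit 0) (nat_lit 34871540773) (nat_lit 152) (nat_lit 9836615706) (nat_lit 0) (nat_lit 20967912960) (nat_lit 4) (nat_lit 5) (nat_lit 6) (nat_lit 4) (nat_lit 4) (nat_lit 4) (nat_lit 318) (nat_lit 228) (nat_lit 174)))) (XT.nd (nat_lit 156) (nat_lit 0) (nat_lit 0) (XT.nd (nat_lit 78) (nat_lit 76) (nat_lit 0) (XT.lf (nat_lit 0) (nat_lit 39025099623) (nat_lit 152) (nat_lit 4702199152) (nat_lit 0) (nat_lit 25070301468) (nat_lit 4) (nat_lit 5) (nat_lit 6) (nat_lit 4) (nat_lit 4) (nat_lit 4) (nat_lit 319) (nat_lit 228) (nat_lit 173)) (XT.lf (nat_lit 0) (nat_lit 677712997) (nat_lit 76) (nat_lit 42700723363) (nat_lit 76) (nat_lit 28697191548) (nat_lit 3) (nat_lit 4) (nat_lit 4) (nat_lit 5) (nat_lit 4) (nat_lit 4) (nat_lit 320) (nat_lit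 228) (nat_lit 172))) (XT.nd (nat_lit 78) (nat_lit 0) (nat_lit 0) (XT.lf (nat_lit 0) (nat_lit 6457485119) (nat_lit 76) (nat_lit 41553482205) (nat_lit 76) (nat_lit 27503537381) (nat_lit 3) (nat_lit 4) (nat_lit 4) (nat_lit 5) (nat_lit 4) (nat_lit 4) (nat_lit 321) (nat_lit 228) (nat_lit 171)) (XT.nd (nat_lit 78) (nat_lit 0) (nat_lit 0) (XT.lf (nat_lit 0) (nat_lit 12495402634) (nat_lit 76) (nat_lit 40362477792) (nat_lit 76) (nat_lit 26268330102) (nat_lit 3) (nat_lit 4) (nat_lit 4) (nat_lit 5) (nat_lit 4) (nat_lit 4) (nat_lit 322) (nat_lit 228) (nat_lit 170)) (XT.lf (nat_lit 0) (nat_lit 18805841538) (nat_lit 76) (nat_lit 39124874400) (nat_lit 76) (nat_lit 24988628742) (nat_lit 3) (nat_lit 4) (nat_lit 4) (nat_lit 5) (nat_lit 4) (nat_lit 4) (nat_lit 323) (nat_lit 228) (nat_lit 169)))))) (XT.nd (nat_lit 312) (nat_lit 0) (nat_lit 0) (XT.nd (nat_lit 156) (nat_lit 0) (nat_lit 0) (XT.nd (nat_lit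 78) (nat_lit 0) (nat_lit 0) (XT.lf (nat_lit 0) (nat_lit 25403826684) (nat_lit 76) (nat_lit 37837725353) (nat_lit 76) (nat_lit 23661386392) (nat_lit 3) (nat_lit 4) (nat_lit 4) (nat_lit 5) (nat_lit 4) (nat_lit 4) (nat_lit 324) (nat_lit 228) (nat_lit 168)) (XT.lf (nat_lit 0) (nat_lit 32305067561) (nat_lit 76) (nat_lit 36497966011) (nat_lit 76) (nat_lit 22283442953) (nat_lit 3) (nat_lit 4) (nat_lit 4) (nat_lit 5) (nat_lit 4) (nat_lit 4) (nat_lit 325) (nat_lit 228) (nat_lit 167))) (XT.nd (nat_lit 78) (nat_lit 0) (nat_lit 0) (XT.lf (nat_lit 0) (nat_lit 39525995695) (nat_lit 76) (nat_lit 35102406470) (nat_lit 76) (nat_lit 20851517605) (nat_lit 3) (nat_lit 4) (nat_lit 4) (nat_lit 5) (nat_lit 4) (nat_lit 4) (nat_lit 326) (nat_lit 228) (nat_lit 166)) (XT.lf (nat_lit 0) (nat_lit 47083803772) (nat_lit 76) (nat_lit 33647723971) (nat_lit 76) (nat_lit 19362201003) (nat_lit 3) (nat_lit 4) (nat_lit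 4) (nat_lit 5) (nat_lit 4) (nat_lit 4) (nat_lit 327) (nat_lit 228) (nat_lit 165)))) (XT.nd (nat_lit 156) (nat_lit 0) (nat_lit 0) (XT.nd (nat_lit 78) (nat_lit 0) (nat_lit 0) (XT.lf (nat_lit 0) (nat_lit 54996486573) (nat_lit 76) (nat_lit 32130454982) (nat_lit 76) (nat_lit 17811947156) (nat_lit 3) (nat_lit 4) (nat_lit 4) (nat_lit 5) (nat_lit 4) (nat_lit 4) (nat_lit 328) (nat_lit 228) (nat_lit 164)) (XT.lf (nat_lit 0) (nat_lit 63282883819) (nat_lit 76) (nat_lit 30546986960) (nat_lit 76) (nat_lit 16197064982) (nat_lit 3) (nat_lit 4) (nat_lit 4) (nat_lit 5) (nat_lit 4) (nat_lit 4) (nat_lit 329) (nat_lit 228) (nat_lit 163))) (XT.nd (nat_lit 78) (nat_lit 0) (nat_lit 0) (XT.lf (nat_lit 0) (nat_lit 71962725028) (nat_lit 76) (nat_lit 28893549742) (nat_lit 76) (nat_lit 14513709524) (nat_lit 3) (nat_lit 4) (nat_lit 4) (nat_lit 5) (nat_lit 4) (nat_lit 4) (nat_lit 330) (nat_lit 228) (nat_lit 162))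 (XT.nd (nat_lit 78) (nat_lit 0) (nat_lit 0) (XT.lf (nat_lit 0) (nat_lit 81056676487) (nat_lit 76) (nat_lit 27166206572) (nat_lit 76) (nat_lit 12757872793) (nat_lit 3) (nat_lit 4) (nat_lit 4) (nat_lit 5) (nat_lit 4) (nat_lit 4) (nat_lit 331) (nat_lit 228) (nat_lit 161)) (XT.lf (nat_lit 0) (nat_lit 90586390463) (nat_lit 76) (nat_lit 25360844730) (nat_lit 76) (nat_lit 10925374225) (nat_lit 3) (nat_lit 4) (nat_lit 4) (nat_lit 5) (nat_lit 4) (nat_lit 4) (nat_lit 332) (nat_lit 228) (nat_lit 160))))))))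
noncomputable def xc74 : XT := (XT.nd (nat_lit 1326) (nat_lit 0) (nat_lit 0) (XT.nd (nat_lit 624) (nat_lit 76) (nat_lit 0) (XT.nd (nat_lit 312) (nat_lit 76) (nat_lit 0) (XT.nd (nat_lit 156) (nat_lit 0) (nat_lit 0) (XT.nd (nat_lit 78) (nat_lit 0) (nat_lit 0) (XT.lf (nat_lit 0) (nat_lit 100574556750) (nat_lit 76) (nat_lit 23473165733) (nat_lit 76) (nat_lit 9011850728) (nat_lit 3) (nat_lit 4) (nat_lit 4) (nat_lit 5) (nat_lit 4) (nat_lit 4) (nat_lit 333) (nat_lit 228) (nat_lit 159)) (XT.lf (nat_lit 0) (nat_lit 111044956697) (nat_lit 76) (nat_lit 21498675110) (nat_lit 76) (nat_lit 7012746295) (nat_lit 3) (nat_lit 4) (nat_lit 4) (nat_lit 5) (nat_lit 4) (nat_lit 4) (nat_lit 334) (nat_lit 228) (nat_lit 158))) (XT.nd (nat_lit 78) (nat_lit 0) (nat_lit 0) (XT.lf (nat_lit 0) (nat_lit 122022519827) (nat_lit 76) (nat_lit 19432671690) (nat_lit 76) (nat_lit 4923301152) (nat_lit 3) (nat_lit 4) (nat_lit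 4) (nat_lit 5) (nat_lit 4) (nat_lit 4) (nat_lit 335) (nat_lit 228) (nat_lit 157)) (XT.lf (nat_lit 0) (nat_lit 133533383196) (nat_lit 76) (nat_lit 17270236419) (nat_lit 76) (nat_lit 2738540430) (nat_lit 3) (nat_lit 4) (nat_lit 4) (nat_lit 5) (nat_lit 4) (nat_lit 4) (nat_lit 336) (nat_lit 228) (nat_lit 156)))) (XT.nd (nat_lit 156) (nat_lit 0) (nat_lit 0) (XT.nd (nat_lit 78) (nat_lit 76) (nat_lit 0) (XT.lf (nat_lit 0) (nat_lit 145604953620) (nat_lit 76) (nat_lit 15006220642) (nat_lit 76) (nat_lit 453262318) (nat_lit 3) (nat_lit 4) (nat_lit 4) (nat_lit 5) (nat_lit 4) (nat_lit 4) (nat_lit 337) (nat_lit 228) (nat_lit 155)) (XT.lf (nat_lit 0) (nat_lit 1875947040) (nat_lit 152) (nat_lit 10727516732) (nat_lit 76) (nat_lit 156358255824) (nat_lit 2) (nat_lit 5) (nat_lit 4) (nat_lit 5) (nat_lit 3) (nat_lit 4) (nat_lit 338) (nat_lit 228) (nat_lit 154))) (XT.nd (nat_lit 78) (nat_lit 0) (nat_lit 0)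 (XT.lf (nat_lit 0) (nat_lit 4298727564) (nat_lit 152) (nat_lit 5780102223) (nat_lit 76) (nat_lit 167175057830) (nat_lit 2) (nat_lit 5) (nat_lit 4) (nat_lit 5) (nat_lit 3) (nat_lit 4) (nat_lit 339) (nat_lit 228) (nat_lit 153)) (XT.lf (nat_lit 0) (nat_lit 6835355002) (nat_lit 152) (nat_lit 598383179) (nat_lit 76) (nat_lit 178527299551) (nat_lit 2) (nat_lit 5) (nat_lit 4) (nat_lit 5) (nat_lit 3) (nat_lit 4) (nat_lit 340) (nat_lit 228) (nat_lit 152))))) (XT.nd (nat_lit 312) (nat_lit 0) (nat_lit 0) (XT.nd (nat_lit 156) (nat_lit 0) (nat_lit 0) (XT.nd (nat_lit 78) (nat_lit 0) (nat_lit 0) (XT.lf (nat_lit 0) (nat_lit 4989678705) (nat_lit 76) (nat_lit 4580093106) (nat_lit 152) (nat_lit 185530234298) (nat_lit 1) (nat_lit 5) (nat_lit 2) (nat_lit 5) (nat_lit 3) (nat_lit 4) (nat_lit 341) (nat_lit 228) (nat_lit 151)) (XT.lf (nat_lit 0) (nat_lit 10865674916) (nat_lit 76) (nat_lit 1578563142) (nat_lit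 152) (nat_lit 192251526661) (nat_lit 1) (nat_lit 5) (nat_lit 2) (nat_lit 5) (nat_lit 3) (nat_lit 4) (nat_lit 342) (nat_lit 228) (nat_lit 150))) (XT.nd (nat_lit 78) (nat_lit 0) (nat_lit 0) (XT.lf (nat_lit 0) (nat_lit 15480425123) (nat_lit 152) (nat_lit 197772311260) (nat_lit 0) (nat_lit 1517682851) (nat_lit 1) (nat_lit 5) (nat_lit 3) (nat_lit 4) (nat_lit 1) (nat_lit 4) (nat_lit 343) (nat_lit 228) (nat_lit 149)) (XT.lf (nat_lit 0) (nat_lit 18688049998) (nat_lit 152) (nat_lit 201948865992) (nat_lit 0) (nat_lit 4710916542) (nat_lit 1) (nat_lit 5) (nat_lit 3) (nat_lit 4) (nat_lit 1) (nat_lit 4) (nat_lit 344) (nat_lit 228) (nat_lit 148)))) (XT.nd (nat_lit 156) (nat_lit 0) (nat_lit 0) (XT.nd (nat_lit 78) (nat_lit 0) (nat_lit 0) (XT.lf (nat_lit 0) (nat_lit 22050104091) (nat_lit 152) (nat_lit 206345052381) (nat_lit 0) (nat_lit 8059264744) (nat_lit 1) (nat_lit 5) (nat_lit 3) (nat_lit 4) (nat_lit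 1) (nat_lit 4) (nat_lit 345) (nat_lit 228) (nat_lit 147)) (XT.lf (nat_lit 0) (nat_lit 25574592292) (nat_lit 152) (nat_lit 210971337539) (nat_lit 0) (nat_lit 11570699716) (nat_lit 1) (nat_lit 5) (nat_lit 3) (nat_lit 4) (nat_lit 1) (nat_lit 4) (nat_lit 346) (nat_lit 228) (nat_lit 146))) (XT.nd (nat_lit 78) (nat_lit 0) (nat_lit 0) (XT.lf (nat_lit 0) (nat_lit 29269906240) (nat_lit 152) (nat_lit 215838736429) (nat_lit 0) (nat_lit 15253582018) (nat_lit 1) (nat_lit 5) (nat_lit 3) (nat_lit 4) (nat_lit 1) (nat_lit 4) (nat_lit 347) (nat_lit 228) (nat_lit 145)) (XT.nd (nat_lit 78) (nat_lit 0) (nat_lit 0) (XT.lf (nat_lit 0) (nat_lit 33144844302) (nat_lit 152) (nat_lit 220958838097) (nat_lit 0) (nat_lit 19116680416) (nat_lit 1) (nat_lit 5) (nat_lit 3) (nat_lit 4) (nat_lit 1) (nat_lit 4) (nat_lit 348) (nat_lit 228) (nat_lit 144)) (XT.lf (nat_lit 0) (nat_lit 37208632520) (nat_lit 152) (nat_lit 226343833261)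 (nat_lit 0) (nat_lit 23169192764) (nat_lit 1) (nat_lit 5) (nat_lit 3) (nat_lit 4) (nat_lit 1) (nat_lit 4) (nat_lit 349) (nat_lit 228) (nat_lit 143))))))) (XT.nd (nat_lit 702) (nat_lit 0) (nat_lit 0) (XT.nd (nat_lit 312) (nat_lit 0) (nat_lit 0) (XT.nd (nat_lit 156) (nat_lit 0) (nat_lit 0) (XT.nd (nat_lit 78) (nat_lit 0) (nat_lit 0) (XT.lf (nat_lit 0) (nat_lit 41470946580) (nat_lit 152) (nat_lit 232006543338) (nat_lit 0) (nat_lit 27420767901) (nat_lit 1) (nat_lit 5) (nat_lit 3) (nat_lit 4) (nat_lit 1) (nat_lit 4) (nat_lit 350) (nat_lit 228) (nat_lit 142)) (XT.lf (nat_lit 0) (nat_lit 45941934850) (nat_lit 152) (nat_lit 237960450972) (nat_lit 0) (nat_lit 31881528625) (nat_lit 1) (nat_lit 5) (nat_lit 3) (nat_lit 4) (nat_lit 1) (nat_lit 4) (nat_lit 351) (nat_lit 228) (nat_lit 141))) (XT.nd (nat_lit 78) (nat_lit 0) (nat_lit 0) (XT.lf (nat_lit 0) (nat_lit 50632242540) (nat_lit 152) (nat_lit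 244219732132) (nat_lit 0) (nat_lit 36562095794) (nat_lit 1) (nat_lit 5) (nat_lit 3) (nat_lit 4) (nat_lit 1) (nat_lit 4) (nat_lit 352) (nat_lit 228) (nat_lit 140)) (XT.lf (nat_lit 0) (nat_lit 55553037049) (nat_lit 152) (nat_lit 250799289869) (nat_lit 0) (nat_lit 41473613617) (nat_lit 1) (nat_lit 5) (nat_lit 3) (nat_lit 4) (nat_lit 1) (nat_lit 4) (nat_lit 353) (nat_lit 228) (nat_lit 139)))) (XT.nd (nat_lit 156) (nat_lit 0) (nat_lit 0) (XT.nd (nat_lit 78) (nat_lit 0) (nat_lit 0) (XT.lf (nat_lit 0) (nat_lit 60716034554) (nat_lit 152) (nat_lit 257714789797) (nat_lit 0) (nat_lit 46627776183) (nat_lit 1) (nat_lit 5) (nat_lit 3) (nat_lit 4) (nat_lit 1) (nat_lit 4) (nat_lit 354) (nat_lit 228) (nat_lit 138)) (XT.lf (nat_lit 0) (nat_lit 66133527907) (nat_lit 152) (nat_lit 264982697391) (nat_lit 0) (nat_lit 52036855308) (nat_lit 1) (nat_lit 5) (nat_lit 3) (nat_lit 4) (nat_lit 1) (nat_lit 4) (nat_lit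 355) (nat_lit 228) (nat_lit 137))) (XT.nd (nat_lit 78) (nat_lit 0) (nat_lit 0) (XT.lf (nat_lit 0) (nat_lit 71818415901) (nat_lit 152) (nat_lit 272620317194) (nat_lit 0) (nat_lit 57713729752) (nat_lit 1) (nat_lit 5) (nat_lit 3) (nat_lit 4) (nat_lit 1) (nat_lit 4) (nat_lit 356) (nat_lit 228) (nat_lit 136)) (XT.nd (nat_lit 78) (nat_lit 0) (nat_lit 0) (XT.lf (nat_lit 0) (nat_lit 77784233984) (nat_lit 152) (nat_lit 280645834015) (nat_lit 0) (nat_lit 63671915882) (nat_lit 1) (nat_lit 5) (nat_lit 3) (nat_lit 4) (nat_lit 1) (nat_lit 4) (nat_lit 357) (nat_lit 228) (nat_lit 135)) (XT.lf (nat_lit 0) (nat_lit 84045186484) (nat_lit 152) (nat_lit 289078356227) (nat_lit 0) (nat_lit 69925599857) (nat_lit 1) (nat_lit 5) (nat_lit 3) (nat_lit 4) (nat_lit 1) (nat_lit 4) (nat_lit 358) (nat_lit 228) (nat_lit 134)))))) (XT.nd (nat_lit 29952) (nat_lit 0) (nat_lit 3116) (XT.nd (nat_lit 156) (nat_lit 0) (nat_lit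 0) (XT.nd (nat_lit 78) (nat_lit 0) (nat_lit 0) (XT.lf (nat_lit 0) (nat_lit 90616180432) (nat_lit 152) (nat_lit 297937961264) (nat_lit 0) (nat_lit 76489671398) (nat_lit 1) (nat_lit 5) (nat_lit 3) (nat_lit 4) (nat_lit 1) (nat_lit 4) (nat_lit 359) (nat_lit 228) (nat_lit 133)) (XT.lf (nat_lit 0) (nat_lit 97512861051) (nat_lit 152) (nat_lit 307245743424) (nat_lit 0) (nat_lit 83379759250) (nat_lit 1) (nat_lit 5) (nat_lit 3) (nat_lit 4) (nat_lit 1) (nat_lit 4) (nat_lit 360) (nat_lit 228) (nat_lit 132))) (XT.nd (nat_lit 78) (nat_lit 0) (nat_lit 0) (XT.lf (nat_lit 0) (nat_lit 104751649009) (nat_lit 152) (nat_lit 317023864092) (nat_lit 0) (nat_lit 90612268382) (nat_lit 1) (nat_lit 5) (nat_lit 3) (nat_lit 4) (nat_lit 1) (nat_lit 4) (nat_lit 361) (nat_lit 228) (nat_lit 131)) (XT.lf (nat_lit 0) (nat_lit 112349779516) (nat_lit 152) (nat_lit 327295604509) (nat_lit 0) (nat_lit 98204419054) (nat_lit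 1) (nat_lit 5) (nat_lit 3) (nat_lit 4) (nat_lit 1) (nat_lit 4) (nat_lit 362) (nat_lit 228) (nat_lit 130)))) (XT.nd (nat_lit 156) (nat_lit 304) (nat_lit 0) (XT.nd (nat_lit 78) (nat_lit 304) (nat_lit 0) (XT.lf (nat_lit 0) (nat_lit 803179180) (nat_lit 380) (nat_lit 2448178627) (nat_lit 0) (nat_lit 803179180) (nat_lit 50) (nat_lit 5) (nat_lit 55) (nat_lit 4) (nat_lit 50) (nat_lit 4) (nat_lit 262) (nat_lit 229) (nat_lit 229)) (XT.lf (nat_lit 0) (nat_lit 181622213) (nat_lit 304) (nat_lit 4629615624) (nat_lit 304) (nat_lit 3467810021) (nat_lit 46) (nat_lit 4) (nat_lit 50) (nat_lit 5) (nat_lit 50) (nat_lit 4) (nat_lit 263) (nat_lit 229) (nat_lit 228))) (XT.nd (nat_lit 78) (nat_lit 304) (nat_lit 0) (XT.lf (nat_lit 0) (nat_lit 5510523150) (nat_lit 304) (nat_lit 2609342064) (nat_lit 304) (nat_lit 341054935) (nat_lit 46) (nat_lit 4) (nat_lit 50) (nat_lit 5) (nat_lit 50) (nat_lit 4) (nat_lit 264)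 (nat_lit 229) (nat_lit 227)) (XT.nd (nat_lit 78) (nat_lit 0) (nat_lit 0) (XT.lf (nat_lit 0) (nat_lit 2312325847) (nat_lit 228) (nat_lit 436164351) (nat_lit 304) (nat_lit 5906589852) (nat_lit 42) (nat_lit 5) (nat_lit 45) (nat_lit 5) (nat_lit 46) (nat_lit 4) (nat_lit 265) (nat_lit 229) (nat_lit 226)) (XT.lf (nat_lit 0) (nat_lit 5928459024) (nat_lit 304) (nat_lit 1124581730) (nat_lit 0) (nat_lit 1808753861) (nat_lit 42) (nat_lit 5) (nat_lit 46) (nat_lit 4) (nat_lit 42) (nat_lit 4) (nat_lit 266) (nat_lit 229) (nat_lit 225))))))))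
noncomputable def xc75 : XT := (XT.nd (nat_lit 1326) (nat_lit 608) (nat_lit 0) (XT.nd (nat_lit 624) (nat_lit 760) (nat_lit 0) (XT.nd (nat_lit 312) (nat_lit 532) (nat_lit 0) (XT.nd (nat_lit 156) (nat_lit 228) (nat_lit 0) (XT.nd (nat_lit 78) (nat_lit 228) (nat_lit 0) (XT.lf (nat_lit 0) (nat_lit 129951563) (nat_lit 304) (nat_lit 4763609547) (nat_lit 76) (nat_lit 4188216745) (nat_lit 38) (nat_lit 5) (nat_lit 42) (nat_lit 5) (nat_lit 39) (nat_lit 4) (nat_lit 267) (nat_lit 229) (nat_lit 224)) (XT.lf (nat_lit 0) (nat_lit 562751025) (nat_lit 228) (nat_lit 2588331173) (nat_lit 304) (nat_lit 6164539773) (nat_lit 35) (nat_lit 5) (nat_lit 38) (nat_lit 5) (nat_lit 39) (nat_lit 4) (nat_lit 268) (nat_lit 229) (nat_lit 223))) (XT.nd (nat_lit 78) (nat_lit 228) (nat_lit 0) (XT.lf (nat_lit 0) (nat_lit 6156355754) (nat_lit 228) (nat_lit 126081703) (nat_lit 304) (nat_lit 3281171010) (nat_lit 35) (nat_lit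 5) (nat_lit 38) (nat_lit 5) (nat_lit 39) (nat_lit 4) (nat_lit 269) (nat_lit 229) (nat_lit 222)) (XT.lf (nat_lit 0) (nat_lit 2071386578) (nat_lit 228) (nat_lit 7453351730) (nat_lit 228) (nat_lit 301926210) (nat_lit 32) (nat_lit 4) (nat_lit 35) (nat_lit 5) (nat_lit 35) (nat_lit 4) (nat_lit 270) (nat_lit 229) (nat_lit 221)))) (XT.nd (nat_lit 156) (nat_lit 304) (nat_lit 0) (XT.nd (nat_lit 78) (nat_lit 152) (nat_lit 0) (XT.lf (nat_lit 0) (nat_lit 2681013644) (nat_lit 304) (nat_lit 2368595407) (nat_lit 76) (nat_lit 5054151385) (nat_lit 31) (nat_lit 5) (nat_lit 35) (nat_lit 5) (nat_lit 32) (nat_lit 4) (nat_lit 271) (nat_lit 229) (nat_lit 220)) (XT.lf (nat_lit 0) (nat_lit 3229927468) (nat_lit 152) (nat_lit 2513430834) (nat_lit 228) (nat_lit 4654421282) (nat_lit 29) (nat_lit 5) (nat_lit 31) (nat_lit 5) (nat_lit 32) (nat_lit 4) (nat_lit 272) (nat_lit 229) (nat_lit 219))) (XT.nd (nat_lit 78) (nat_lit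 304) (nat_lit 0) (XT.lf (nat_lit 0) (nat_lit 8894024749) (nat_lit 228) (nat_lit 1675242365) (nat_lit 0) (nat_lit 140792479) (nat_lit 29) (nat_lit 5) (nat_lit 32) (nat_lit 4) (nat_lit 29) (nat_lit 4) (nat_lit 273) (nat_lit 229) (nat_lit 218)) (XT.lf (nat_lit 0) (nat_lit 1128077224) (nat_lit 304) (nat_lit 7027464739) (nat_lit 76) (nat_lit 2881739620) (nat_lit 25) (nat_lit 5) (nat_lit 29) (nat_lit 5) (nat_lit 26) (nat_lit 4) (nat_lit 274) (nat_lit 229) (nat_lit 217))))) (XT.nd (nat_lit 312) (nat_lit 380) (nat_lit 0) (XT.nd (nat_lit 156) (nat_lit 228) (nat_lit 0) (XT.nd (nat_lit 78) (nat_lit 152) (nat_lit 0) (XT.lf (nat_lit 0) (nat_lit 4085090385) (nat_lit 304) (nat_lit 1524436116) (nat_lit 76) (nat_lit 5773789851) (nat_lit 25) (nat_lit 5) (nat_lit 29) (nat_lit 5) (nat_lit 26) (nat_lit 4) (nat_lit 275) (nat_lit 229) (nat_lit 216)) (XT.lf (nat_lit 0) (nat_lit 4244800755) (nat_lit 152) (nat_lit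 2914179096) (nat_lit 228) (nat_lit 4589485102) (nat_lit 23) (nat_lit 5) (nat_lit 25) (nat_lit 5) (nat_lit 26) (nat_lit 4) (nat_lit 276) (nat_lit 229) (nat_lit 215))) (XT.nd (nat_lit 78) (nat_lit 228) (nat_lit 0) (XT.lf (nat_lit 0) (nat_lit 10212956672) (nat_lit 152) (nat_lit 104583107) (nat_lit 228) (nat_lit 1818033235) (nat_lit 23) (nat_lit 5) (nat_lit 25) (nat_lit 5) (nat_lit 26) (nat_lit 4) (nat_lit 277) (nat_lit 229) (nat_lit 214)) (XT.lf (nat_lit 0) (nat_lit 1070968456) (nat_lit 228) (nat_lit 8681423333) (nat_lit 76) (nat_lit 2788323363) (nat_lit 20) (nat_lit 5) (nat_lit 23) (nat_lit 5) (nat_lit 21) (nat_lit 4) (nat_lit 278) (nat_lit 229) (nat_lit 213)))) (XT.nd (nat_lit 156) (nat_lit 228) (nat_lit 0) (XT.nd (nat_lit 78) (nat_lit 152) (nat_lit 0) (XT.lf (nat_lit 0) (nat_lit 3987609887) (nat_lit 228) (nat_lit 3140180712) (nat_lit 76) (nat_lit 5839835909) (nat_lit 20) (nat_lit 5)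 (nat_lit 23) (nat_lit 5) (nat_lit 21) (nat_lit 4) (nat_lit 279) (nat_lit 229) (nat_lit 212)) (XT.lf (nat_lit 0) (nat_lit 2628257503) (nat_lit 152) (nat_lit 4376649684) (nat_lit 228) (nat_lit 6413441414) (nat_lit 18) (nat_lit 5) (nat_lit 20) (nat_lit 5) (nat_lit 21) (nat_lit 4) (nat_lit 280) (nat_lit 229) (nat_lit 211))) (XT.nd (nat_lit 78) (nat_lit 228) (nat_lit 0) (XT.lf (nat_lit 0) (nat_lit 8662311508) (nat_lit 152) (nat_lit 1479774752) (nat_lit 228) (nat_lit 3751266227) (nat_lit 18) (nat_lit 5) (nat_lit 20) (nat_lit 5) (nat_lit 21) (nat_lit 4) (nat_lit 281) (nat_lit 229) (nat_lit 210)) (XT.nd (nat_lit 78) (nat_lit 76) (nat_lit 0) (XT.lf (nat_lit 0) (nat_lit 467503425) (nat_lit 152) (nat_lit 12919441730) (nat_lit 152) (nat_lit 1007807545) (nat_lit 16) (nat_lit 4) (nat_lit 18) (nat_lit 5) (nat_lit 18) (nat_lit 4) (nat_lit 282) (nat_lit 229) (nat_lit 209)) (XT.lf (nat_lit 0) (nat_lit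 1846719638) (nat_lit 228) (nat_lit 8468943340) (nat_lit 76) (nat_lit 4602575834) (nat_lit 15) (nat_lit 5) (nat_lit 18) (nat_lit 5) (nat_lit 16) (nat_lit 4) (nat_lit 283) (nat_lit 229) (nat_lit 208))))))) (XT.nd (nat_lit 702) (nat_lit 228) (nat_lit 0) (XT.nd (nat_lit 312) (nat_lit 304) (nat_lit 0) (XT.nd (nat_lit 156) (nat_lit 0) (nat_lit 0) (XT.nd (nat_lit 78) (nat_lit 76) (nat_lit 0) (XT.lf (nat_lit 0) (nat_lit 4733472356) (nat_lit 228) (nat_lit 2877847330) (nat_lit 76) (nat_lit 7859746756) (nat_lit 15) (nat_lit 5) (nat_lit 18) (nat_lit 5) (nat_lit 16) (nat_lit 4) (nat_lit 284) (nat_lit 229) (nat_lit 207)) (XT.lf (nat_lit 0) (nat_lit 2970148902) (nat_lit 76) (nat_lit 4767803410) (nat_lit 152) (nat_lit 8315067649) (nat_lit 14) (nat_lit 5) (nat_lit 15) (nat_lit 5) (nat_lit 16) (nat_lit 4) (nat_lit 285) (nat_lit 229) (nat_lit 206))) (XT.nd (nat_lit 78) (nat_lit 0) (nat_lit 0) (XT.lf (nat_lit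 0) (nat_lit 9094638091) (nat_lit 76) (nat_lit 1775440273) (nat_lit 152) (nat_lit 5795268345) (nat_lit 14) (nat_lit 5) (nat_lit 15) (nat_lit 5) (nat_lit 16) (nat_lit 4) (nat_lit 286) (nat_lit 229) (nat_lit 205)) (XT.lf (nat_lit 0) (nat_lit 14111564858) (nat_lit 152) (nat_lit 1917451521) (nat_lit 0) (nat_lit 1281775379) (nat_lit 14) (nat_lit 5) (nat_lit 16) (nat_lit 4) (nat_lit 14) (nat_lit 4) (nat_lit 287) (nat_lit 229) (nat_lit 204)))) (XT.nd (nat_lit 156) (nat_lit 76) (nat_lit 0) (XT.nd (nat_lit 78) (nat_lit 76) (nat_lit 0) (XT.lf (nat_lit 0) (nat_lit 4009916721) (nat_lit 152) (nat_lit 13531604956) (nat_lit 152) (nat_lit 445800604) (nat_lit 12) (nat_lit 4) (nat_lit 14) (nat_lit 5) (nat_lit 14) (nat_lit 4) (nat_lit 288) (nat_lit 229) (nat_lit 203)) (XT.lf (nat_lit 0) (nat_lit 2335006923) (nat_lit 228) (nat_lit 8542863846) (nat_lit 76) (nat_lit 7819621585) (nat_lit 11) (nat_lit 5) (nat_lit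 14) (nat_lit 5) (nat_lit 12) (nat_lit 4) (nat_lit 289) (nat_lit 229) (nat_lit 202))) (XT.nd (nat_lit 78) (nat_lit 76) (nat_lit 0) (XT.lf (nat_lit 0) (nat_lit 5177939081) (nat_lit 228) (nat_lit 2947065959) (nat_lit 76) (nat_lit 11321012086) (nat_lit 11) (nat_lit 5) (nat_lit 14) (nat_lit 5) (nat_lit 12) (nat_lit 4) (nat_lit 290) (nat_lit 229) (nat_lit 201)) (XT.nd (nat_lit 78) (nat_lit 0) (nat_lit 0) (XT.lf (nat_lit 0) (nat_lit 2923853184) (nat_lit 76) (nat_lit 5225829514) (nat_lit 152) (nat_lit 12083061632) (nat_lit 10) (nat_lit 5) (nat_lit 11) (nat_lit 5) (nat_lit 12) (nat_lit 4) (nat_lit 291) (nat_lit 229) (nat_lit 200)) (XT.lf (nat_lit 0) (nat_lit 9093968244) (nat_lit 76) (nat_lit 2168270127) (nat_lit 152) (nat_lit 9797062506) (nat_lit 10) (nat_lit 5) (nat_lit 11) (nat_lit 5) (nat_lit 12) (nat_lit 4) (nat_lit 292) (nat_lit 229) (nat_lit 199)))))) (XT.nd (nat_lit 312) (nat_lit 76)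 (nat_lit 0) (XT.nd (nat_lit 156) (nat_lit 152) (nat_lit 0) (XT.nd (nat_lit 78) (nat_lit 0) (nat_lit 0) (XT.lf (nat_lit 0) (nat_lit 14491175162) (nat_lit 152) (nat_lit 6465196304) (nat_lit 0) (nat_lit 972875381) (nat_lit 10) (nat_lit 5) (nat_lit 12) (nat_lit 4) (nat_lit 10) (nat_lit 4) (nat_lit 293) (nat_lit 229) (nat_lit 198)) (XT.lf (nat_lit 0) (nat_lit 17864230093) (nat_lit 152) (nat_lit 815435672) (nat_lit 0) (nat_lit 4163985322) (nat_lit 10) (nat_lit 5) (nat_lit 12) (nat_lit 4) (nat_lit 10) (nat_lit 4) (nat_lit 294) (nat_lit 229) (nat_lit 197))) (XT.nd (nat_lit 78) (nat_lit 76) (nat_lit 0) (XT.lf (nat_lit 0) (nat_lit 5197609819) (nat_lit 76) (nat_lit 16239120910) (nat_lit 76) (nat_lit 2365595196) (nat_lit 9) (nat_lit 4) (nat_lit 10) (nat_lit 5) (nat_lit 10) (nat_lit 4) (nat_lit 295) (nat_lit 229) (nat_lit 196)) (XT.lf (nat_lit 0) (nat_lit 330666811) (nat_lit 152) (nat_lit 13360688219)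 (nat_lit 76) (nat_lit 11119171697) (nat_lit 8) (nat_lit 5) (nat_lit 10) (nat_lit 5) (nat_lit 9) (nat_lit 4) (nat_lit 296) (nat_lit 229) (nat_lit 195)))) (XT.nd (nat_lit 156) (nat_lit 76) (nat_lit 0) (XT.nd (nat_lit 78) (nat_lit 0) (nat_lit 0) (XT.lf (nat_lit 0) (nat_lit 3034467742) (nat_lit 152) (nat_lit 7975067235) (nat_lit 76) (nat_lit 14860130089) (nat_lit 8) (nat_lit 5) (nat_lit 10) (nat_lit 5) (nat_lit 9) (nat_lit 4) (nat_lit 297) (nat_lit 229) (nat_lit 194)) (XT.lf (nat_lit 0) (nat_lit 5827959036) (nat_lit 152) (nat_lit 2398096677) (nat_lit 76) (nat_lit 18758053665) (nat_lit 8) (nat_lit 5) (nat_lit 10) (nat_lit 5) (nat_lit 9) (nat_lit 4) (nat_lit 298) (nat_lit 229) (nat_lit 193))) (XT.nd (nat_lit 78) (nat_lit 0) (nat_lit 0) (XT.lf (nat_lit 0) (nat_lit 3495375811) (nat_lit 76) (nat_lit 5276988663) (nat_lit 152) (nat_lit 19381419995) (nat_lit 7) (nat_lit 5) (nat_lit 8) (nat_lit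 5) (nat_lit 9) (nat_lit 4) (nat_lit 299) (nat_lit 229) (nat_lit 192)) (XT.nd (nat_lit 78) (nat_lit 0) (nat_lit 0) (XT.lf (nat_lit 0) (nat_lit 9693755077) (nat_lit 76) (nat_lit 2168438382) (nat_lit 152) (nat_lit 17519906878) (nat_lit 7) (nat_lit 5) (nat_lit 8) (nat_lit 5) (nat_lit 9) (nat_lit 4) (nat_lit 300) (nat_lit 229) (nat_lit 191)) (XT.lf (nat_lit 0) (nat_lit 15082772983) (nat_lit 152) (nat_lit 14558057465) (nat_lit 0) (nat_lit 1032252580) (nat_lit 7) (nat_lit 5) (nat_lit 9) (nat_lit 4) (nat_lit 7) (nat_lit 4) (nat_lit 301) (nat_lit 229) (nat_lit 190))))))))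
noncomputable def xc76 : XT := (XT.nd (nat_lit 1326) (nat_lit 76) (nat_lit 0) (XT.nd (nat_lit 624) (nat_lit 76) (nat_lit 0) (XT.nd (nat_lit 312) (nat_lit 76) (nat_lit 0) (XT.nd (nat_lit 156) (nat_lit 76) (nat_lit 0) (XT.nd (nat_lit 78) (nat_lit 0) (nat_lit 0) (XT.lf (nat_lit 0) (nat_lit 18461029318) (nat_lit 152) (nat_lit 9274588532) (nat_lit 0) (nat_lit 4293225553) (nat_lit 7) (nat_lit 5) (nat_lit 9) (nat_lit 4) (nat_lit 7) (nat_lit 4) (nat_lit 302) (nat_lit 229) (nat_lit 189)) (XT.lf (nat_lit 0) (nat_lit 21971150532) (nat_lit 152) (nat_lit 3791503370) (nat_lit 0) (nat_lit 7691648326) (nat_lit 7) (nat_lit 5) (nat_lit 9) (nat_lit 4) (nat_lit 7) (nat_lit 4) (nat_lit 303) (nat_lit 229) (nat_lit 188))) (XT.nd (nat_lit 78) (nat_lit 0) (nat_lit 0) (XT.lf (nat_lit 0) (nat_lit 1967216187) (nat_lit 76) (nat_lit 23684991627) (nat_lit 76) (nat_lit 9299109954) (nat_lit 6) (nat_lit 4) (nat_lit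 7) (nat_lit 5) (nat_lit 7) (nat_lit 4) (nat_lit 304) (nat_lit 229) (nat_lit 187)) (XT.lf (nat_lit 0) (nat_lit 8085012755) (nat_lit 76) (nat_lit 21461968138) (nat_lit 76) (nat_lit 6974772686) (nat_lit 6) (nat_lit 4) (nat_lit 7) (nat_lit 5) (nat_lit 7) (nat_lit 4) (nat_lit 305) (nat_lit 229) (nat_lit 186)))) (XT.nd (nat_lit 156) (nat_lit 76) (nat_lit 0) (XT.nd (nat_lit 78) (nat_lit 0) (nat_lit 0) (XT.lf (nat_lit 0) (nat_lit 14451088291) (nat_lit 76) (nat_lit 19152501467) (nat_lit 76) (nat_lit 4568816701) (nat_lit 6) (nat_lit 4) (nat_lit 7) (nat_lit 5) (nat_lit 7) (nat_lit 4) (nat_lit 306) (nat_lit 229) (nat_lit 185)) (XT.lf (nat_lit 0) (nat_lit 21080600119) (nat_lit 76) (nat_lit 16751092882) (nat_lit 76) (nat_lit 2075513533) (nat_lit 6) (nat_lit 4) (nat_lit 7) (nat_lit 5) (nat_lit 7) (nat_lit 4) (nat_lit 307) (nat_lit 229) (nat_lit 184))) (XT.nd (nat_lit 78) (nat_lit 0) (nat_lit 0) (XT.lf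 (nat_lit 0) (nat_lit 494715718) (nat_lit 152) (nat_lit 13748930777) (nat_lit 76) (nat_lit 27486238820) (nat_lit 5) (nat_lit 5) (nat_lit 7) (nat_lit 5) (nat_lit 6) (nat_lit 4) (nat_lit 308) (nat_lit 229) (nat_lit 183)) (XT.lf (nat_lit 0) (nat_lit 3094774965) (nat_lit 152) (nat_lit 8502160417) (nat_lit 76) (nat_lit 32046549188) (nat_lit 5) (nat_lit 5) (nat_lit 7) (nat_lit 5) (nat_lit 6) (nat_lit 4) (nat_lit 309) (nat_lit 229) (nat_lit 182))))) (XT.nd (nat_lit 312) (nat_lit 0) (nat_lit 0) (XT.nd (nat_lit 156) (nat_lit 0) (nat_lit 0) (XT.nd (nat_lit 78) (nat_lit 76) (nat_lit 0) (XT.lf (nat_lit 0) (nat_lit 5797284219) (nat_lit 152) (nat_lit 3041398443) (nat_lit 76) (nat_lit 36815498055) (nat_lit 5) (nat_lit 5) (nat_lit 7) (nat_lit 5) (nat_lit 6) (nat_lit 4) (nat_lit 310) (nat_lit 229) (nat_lit 181)) (XT.lf (nat_lit 0) (nat_lit 2733857470) (nat_lit 76) (nat_lit 5917503731) (nat_lit 152) (nat_lit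 39113265768) (nat_lit 4) (nat_lit 5) (nat_lit 5) (nat_lit 5) (nat_lit 6) (nat_lit 4) (nat_lit 311) (nat_lit 229) (nat_lit 180))) (XT.nd (nat_lit 78) (nat_lit 0) (nat_lit 0) (XT.lf (nat_lit 0) (nat_lit 8858164652) (nat_lit 76) (nat_lit 2815786302) (nat_lit 152) (nat_lit 38305389764) (nat_lit 4) (nat_lit 5) (nat_lit 5) (nat_lit 5) (nat_lit 6) (nat_lit 4) (nat_lit 312) (nat_lit 229) (nat_lit 179)) (XT.lf (nat_lit 0) (nat_lit 14829789327) (nat_lit 152) (nat_lit 37067099437) (nat_lit 0) (nat_lit 408829366) (nat_lit 4) (nat_lit 5) (nat_lit 6) (nat_lit 4) (nat_lit 4) (nat_lit 4) (nat_lit 313) (nat_lit 229) (nat_lit 178)))) (XT.nd (nat_lit 156) (nat_lit 0) (nat_lit 0) (XT.nd (nat_lit 78) (nat_lit 0) (nat_lit 0) (XT.lf (nat_lit 0) (nat_lit 18165993021) (nat_lit 152) (nat_lit 32898489850) (nat_lit 0) (nat_lit 3682835189) (nat_lit 4) (nat_lit 5) (nat_lit 6) (nat_lit 4) (nat_lit 4) (nat_lit 4)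 (nat_lit 314) (nat_lit 229) (nat_lit 177)) (XT.lf (nat_lit 0) (nat_lit 21646543065) (nat_lit 152) (nat_lit 28561459727) (nat_lit 0) (nat_lit 7104149165) (nat_lit 4) (nat_lit 5) (nat_lit 6) (nat_lit 4) (nat_lit 4) (nat_lit 4) (nat_lit 315) (nat_lit 229) (nat_lit 176))) (XT.nd (nat_lit 78) (nat_lit 0) (nat_lit 0) (XT.lf (nat_lit 0) (nat_lit 25279726481) (nat_lit 152) (nat_lit 24045682807) (nat_lit 0) (nat_lit 10680917278) (nat_lit 4) (nat_lit 5) (nat_lit 6) (nat_lit 4) (nat_lit 4) (nat_lit 4) (nat_lit 316) (nat_lit 229) (nat_lit 175)) (XT.nd (nat_lit 78) (nat_lit 0) (nat_lit 0) (XT.lf (nat_lit 0) (nat_lit 29074193707) (nat_lit 152) (nat_lit 19340407241) (nat_lit 0) (nat_lit 14421655644) (nat_lit 4) (nat_lit 5) (nat_lit 6) (nat_lit 4) (nat_lit 4) (nat_lit 4) (nat_lit 317) (nat_lit 229) (nat_lit 174)) (XT.lf (nat_lit 0) (nat_lit 33038979188) (nat_lit 152) (nat_lit 14434429991) (nat_lit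 0) (nat_lit 18335270783) (nat_lit 4) (nat_lit 5) (nat_lit 6) (nat_lit 4) (nat_lit 4) (nat_lit 4) (nat_lit 318) (nat_lit 229) (nat_lit 173))))))) (XT.nd (nat_lit 702) (nat_lit 0) (nat_lit 0) (XT.nd (nat_lit 312) (nat_lit 0) (nat_lit 0) (XT.nd (nat_lit 156) (nat_lit 76) (nat_lit 0) (XT.nd (nat_lit 78) (nat_lit 0) (nat_lit 0) (XT.lf (nat_lit 0) (nat_lit 37183522890) (nat_lit 152) (nat_lit 9316070158) (nat_lit 0) (nat_lit 22431080825) (nat_lit 4) (nat_lit 5) (nat_lit 6) (nat_lit 4) (nat_lit 4) (nat_lit 4) (nat_lit 319) (nat_lit 229) (nat_lit 172)) (XT.lf (nat_lit 0) (nat_lit 41517692774) (nat_lit 152) (nat_lit 3973141173) (nat_lit 0) (nat_lit 26718837699) (nat_lit 4) (nat_lit 5) (nat_lit 6) (nat_lit 4) (nat_lit 4) (nat_lit 4) (nat_lit 320) (nat_lit 229) (nat_lit 171))) (XT.nd (nat_lit 78) (nat_lit 0) (nat_lit 0) (XT.lf (nat_lit 0) (nat_lit 1660215488) (nat_lit 76) (nat_lit 44417513420)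 (nat_lit 76) (nat_lit 29574455480) (nat_lit 3) (nat_lit 4) (nat_lit 4) (nat_lit 5) (nat_lit 4) (nat_lit 4) (nat_lit 321) (nat_lit 229) (nat_lit 170)) (XT.lf (nat_lit 0) (nat_lit 7683803985) (nat_lit 76) (nat_lit 43232826686) (nat_lit 76) (nat_lit 28347670778) (nat_lit 3) (nat_lit 4) (nat_lit 4) (nat_lit 5) (nat_lit 4) (nat_lit 4) (nat_lit 322) (nat_lit 229) (nat_lit 169)))) (XT.nd (nat_lit 156) (nat_lit 0) (nat_lit 0) (XT.nd (nat_lit 78) (nat_lit 0) (nat_lit 0) (XT.lf (nat_lit 0) (nat_lit 13980596204) (nat_lit 76) (nat_lit 42001240130) (nat_lit 76) (nat_lit 27075990919) (nat_lit 3) (nat_lit 4) (nat_lit 4) (nat_lit 5) (nat_lit 4) (nat_lit 4) (nat_lit 323) (nat_lit 229) (nat_lit 168)) (XT.lf (nat_lit 0) (nat_lit 20565584508) (nat_lit 76) (nat_lit 40719821404) (nat_lit 76) (nat_lit 25756388095) (nat_lit 3) (nat_lit 4) (nat_lit 4) (nat_lit 5) (nat_lit 4) (nat_lit 4) (nat_lit 324) (nat_lit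 229) (nat_lit 167))) (XT.nd (nat_lit 78) (nat_lit 0) (nat_lit 0) (XT.lf (nat_lit 0) (nat_lit 27454447440) (nat_lit 76) (nat_lit 39385519510) (nat_lit 76) (nat_lit 24385720394) (nat_lit 3) (nat_lit 4) (nat_lit 4) (nat_lit 5) (nat_lit 4) (nat_lit 4) (nat_lit 325) (nat_lit 229) (nat_lit 166)) (XT.nd (nat_lit 78) (nat_lit 0) (nat_lit 0) (XT.lf (nat_lit 0) (nat_lit 34663587056) (nat_lit 76) (nat_lit 37995157539) (nat_lit 76) (nat_lit 22960724321) (nat_lit 3) (nat_lit 4) (nat_lit 4) (nat_lit 5) (nat_lit 4) (nat_lit 4) (nat_lit 326) (nat_lit 229) (nat_lit 165)) (XT.lf (nat_lit 0) (nat_lit 42210167972) (nat_lit 76) (nat_lit 36545425106) (nat_lit 76) (nat_lit 21478007029) (nat_lit 3) (nat_lit 4) (nat_lit 4) (nat_lit 5) (nat_lit 4) (nat_lit 4) (nat_lit 327) (nat_lit 229) (nat_lit 164)))))) (XT.nd (nat_lit 312) (nat_lit 0) (nat_lit 0) (XT.nd (nat_lit 156) (nat_lit 0) (nat_lit 0) (XT.nd (nat_lit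 78) (nat_lit 0) (nat_lit 0) (XT.lf (nat_lit 0) (nat_lit 50112158239) (nat_lit 76) (nat_lit 35032870467) (nat_lit 76) (nat_lit 19934038238) (nat_lit 3) (nat_lit 4) (nat_lit 4) (nat_lit 5) (nat_lit 4) (nat_lit 4) (nat_lit 328) (nat_lit 229) (nat_lit 163)) (XT.lf (nat_lit 0) (nat_lit 58388372119) (nat_lit 76) (nat_lit 33453892301) (nat_lit 76) (nat_lit 18325141832) (nat_lit 3) (nat_lit 4) (nat_lit 4) (nat_lit 5) (nat_lit 4) (nat_lit 4) (nat_lit 329) (nat_lit 229) (nat_lit 162))) (XT.nd (nat_lit 78) (nat_lit 0) (nat_lit 0) (XT.lf (nat_lit 0) (nat_lit 67058514884) (nat_lit 76) (nat_lit 31804731136) (nat_lit 76) (nat_lit 16647487106) (nat_lit 3) (nat_lit 4) (nat_lit 4) (nat_lit 5) (nat_lit 4) (nat_lit 4) (nat_lit 330) (nat_lit 229) (nat_lit 161)) (XT.lf (nat_lit 0) (nat_lit 76143229730) (nat_lit 76) (nat_lit 30081460398) (nat_lit 76) (nat_lit 14897079643) (nat_lit 3) (nat_lit 4) (nat_lit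 4) (nat_lit 5) (nat_lit 4) (nat_lit 4) (nat_lit 331) (nat_lit 229) (nat_lit 160)))) (XT.nd (nat_lit 156) (nat_lit 0) (nat_lit 0) (XT.nd (nat_lit 78) (nat_lit 0) (nat_lit 0) (XT.lf (nat_lit 0) (nat_lit 85664146931) (nat_lit 76) (nat_lit 28279977062) (nat_lit 76) (nat_lit 13069751807) (nat_lit 3) (nat_lit 4) (nat_lit 4) (nat_lit 5) (nat_lit 4) (nat_lit 4) (nat_lit 332) (nat_lit 229) (nat_lit 159)) (XT.lf (nat_lit 0) (nat_lit 95643935338) (nat_lit 76) (nat_lit 26395991882) (nat_lit 76) (nat_lit 11161152816) (nat_lit 3) (nat_lit 4) (nat_lit 4) (nat_lit 5) (nat_lit 4) (nat_lit 4) (nat_lit 333) (nat_lit 229) (nat_lit 158))) (XT.nd (nat_lit 78) (nat_lit 0) (nat_lit 0) (XT.lf (nat_lit 0) (nat_lit 106106356351) (nat_lit 76) (nat_lit 24425019178) (nat_lit 76) (nat_lit 9166738389) (nat_lit 3) (nat_lit 4) (nat_lit 4) (nat_lit 5) (nat_lit 4) (nat_lit 4) (nat_lit 334) (nat_lit 229) (nat_lit 157))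 (XT.nd (nat_lit 78) (nat_lit 0) (nat_lit 0) (XT.lf (nat_lit 0) (nat_lit 117076320497) (nat_lit 76) (nat_lit 22362366158) (nat_lit 76) (nat_lit 7081759918) (nat_lit 3) (nat_lit 4) (nat_lit 4) (nat_lit 5) (nat_lit 4) (nat_lit 4) (nat_lit 335) (nat_lit 229) (nat_lit 156)) (XT.lf (nat_lit 0) (nat_lit 128579946738) (nat_lit 76) (nat_lit 20203121744) (nat_lit 76) (nat_lit 4901253170) (nat_lit 3) (nat_lit 4) (nat_lit 4) (nat_lit 5) (nat_lit 4) (nat_lit 4) (nat_lit 336) (nat_lit 229) (nat_lit 155))))))))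
noncomputable def xc77 : XT := (XT.nd (nat_lit 1326) (nat_lit 0) (nat_lit 0) (XT.nd (nat_lit 624) (nat_lit 0) (nat_lit 0) (XT.nd (nat_lit 312) (nat_lit 76) (nat_lit 0) (XT.nd (nat_lit 156) (nat_lit 76) (nat_lit 0) (XT.nd (nat_lit 78) (nat_lit 0) (nat_lit 0) (XT.lf (nat_lit 0) (nat_lit 140644624660) (nat_lit 76) (nat_lit 17942144878) (nat_lit 76) (nat_lit 2620026461) (nat_lit 3) (nat_lit 4) (nat_lit 4) (nat_lit 5) (nat_lit 4) (nat_lit 4) (nat_lit 337) (nat_lit 229) (nat_lit 154)) (XT.lf (nat_lit 0) (nat_lit 153299079687) (nat_lit 76) (nat_lit 15574052281) (nat_lit 76) (nat_lit 232648301) (nat_lit 3) (nat_lit 4) (nat_lit 4) (nat_lit 5) (nat_lit 4) (nat_lit 4) (nat_lit 338) (nat_lit 229) (nat_lit 153))) (XT.nd (nat_lit 78) (nat_lit 0) (nat_lit 0) (XT.lf (nat_lit 0) (nat_lit 2194021293) (nat_lit 152) (nat_lit 10862027532) (nat_lit 76) (nat_lit 164342263368) (nat_lit 2) (nat_lit 5) (nat_lit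 4) (nat_lit 5) (nat_lit 3) (nat_lit 4) (nat_lit 339) (nat_lit 229) (nat_lit 152)) (XT.lf (nat_lit 0) (nat_lit 4727260990) (nat_lit 152) (nat_lit 5686378728) (nat_lit 76) (nat_lit 175691996200) (nat_lit 2) (nat_lit 5) (nat_lit 4) (nat_lit 5) (nat_lit 3) (nat_lit 4) (nat_lit 340) (nat_lit 229) (nat_lit 151)))) (XT.nd (nat_lit 156) (nat_lit 0) (nat_lit 0) (XT.nd (nat_lit 78) (nat_lit 76) (nat_lit 0) (XT.lf (nat_lit 0) (nat_lit 7380548512) (nat_lit 152) (nat_lit 263798903) (nat_lit 76) (nat_lit 187604317365) (nat_lit 2) (nat_lit 5) (nat_lit 4) (nat_lit 5) (nat_lit 3) (nat_lit 4) (nat_lit 341) (nat_lit 229) (nat_lit 150)) (XT.lf (nat_lit 0) (nat_lit 5597786988) (nat_lit 76) (nat_lit 4649811365) (nat_lit 152) (nat_lit 194597199688) (nat_lit 1) (nat_lit 5) (nat_lit 2) (nat_lit 5) (nat_lit 3) (nat_lit 4) (nat_lit 342) (nat_lit 229) (nat_lit 149))) (XT.nd (nat_lit 78) (nat_lit 0) (nat_lit 0)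 (XT.lf (nat_lit 0) (nat_lit 11750505659) (nat_lit 76) (nat_lit 1505789969) (nat_lit 152) (nat_lit 201664535066) (nat_lit 1) (nat_lit 5) (nat_lit 2) (nat_lit 5) (nat_lit 3) (nat_lit 4) (nat_lit 343) (nat_lit 229) (nat_lit 148)) (XT.lf (nat_lit 0) (nat_lit 16437507475) (nat_lit 152) (nat_lit 207328640371) (nat_lit 0) (nat_lit 1733420270) (nat_lit 1) (nat_lit 5) (nat_lit 3) (nat_lit 4) (nat_lit 1) (nat_lit 4) (nat_lit 344) (nat_lit 229) (nat_lit 147))))) (XT.nd (nat_lit 312) (nat_lit 0) (nat_lit 0) (XT.nd (nat_lit 156) (nat_lit 0) (nat_lit 0) (XT.nd (nat_lit 78) (nat_lit 0) (nat_lit 0) (XT.lf (nat_lit 0) (nat_lit 19796796399) (nat_lit 152) (nat_lit 211729846004) (nat_lit 0) (nat_lit 5079655965) (nat_lit 1) (nat_lit 5) (nat_lit 3) (nat_lit 4) (nat_lit 1) (nat_lit 4) (nat_lit 345) (nat_lit 229) (nat_lit 146)) (XT.lf (nat_lit 0) (nat_lit 23318651105) (nat_lit 152) (nat_lit 216360911393) (nat_lit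 0) (nat_lit 8589079025) (nat_lit 1) (nat_lit 5) (nat_lit 3) (nat_lit 4) (nat_lit 1) (nat_lit 4) (nat_lit 346) (nat_lit 229) (nat_lit 145))) (XT.nd (nat_lit 78) (nat_lit 0) (nat_lit 0) (XT.lf (nat_lit 0) (nat_lit 27011456964) (nat_lit 152) (nat_lit 221232862885) (nat_lit 0) (nat_lit 12270045220) (nat_lit 1) (nat_lit 5) (nat_lit 3) (nat_lit 4) (nat_lit 1) (nat_lit 4) (nat_lit 347) (nat_lit 229) (nat_lit 144)) (XT.lf (nat_lit 0) (nat_lit 30884006368) (nat_lit 152) (nat_lit 226357300364) (nat_lit 0) (nat_lit 16131318755) (nat_lit 1) (nat_lit 5) (nat_lit 3) (nat_lit 4) (nat_lit 1) (nat_lit 4) (nat_lit 348) (nat_lit 229) (nat_lit 143)))) (XT.nd (nat_lit 156) (nat_lit 0) (nat_lit 0) (XT.nd (nat_lit 78) (nat_lit 0) (nat_lit 0) (XT.lf (nat_lit 0) (nat_lit 34945519675) (nat_lit 152) (nat_lit 231746424872) (nat_lit 0) (nat_lit 20182093138) (nat_lit 1) (nat_lit 5) (nat_lit 3) (nat_lit 4) (nat_lit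 1) (nat_lit 4) (nat_lit 349) (nat_lit 229) (nat_lit 142)) (XT.lf (nat_lit 0) (nat_lit 39205667153) (nat_lit 152) (nat_lit 237413067658) (nat_lit 0) (nat_lit 24432013070) (nat_lit 1) (nat_lit 5) (nat_lit 3) (nat_lit 4) (nat_lit 1) (nat_lit 4) (nat_lit 350) (nat_lit 229) (nat_lit 141))) (XT.nd (nat_lit 78) (nat_lit 0) (nat_lit 0) (XT.lf (nat_lit 0) (nat_lit 43674592012) (nat_lit 152) (nat_lit 243370720727) (nat_lit 0) (nat_lit 28891197408) (nat_lit 1) (nat_lit 5) (nat_lit 3) (nat_lit 4) (nat_lit 1) (nat_lit 4) (nat_lit 351) (nat_lit 229) (nat_lit 140)) (XT.nd (nat_lit 78) (nat_lit 0) (nat_lit 0) (XT.lf (nat_lit 0) (nat_lit 48362934548) (nat_lit 152) (nat_lit 249633568970) (nat_lit 0) (nat_lit 33570263258) (nat_lit 1) (nat_lit 5) (nat_lit 3) (nat_lit 4) (nat_lit 1) (nat_lit 4) (nat_lit 352) (nat_lit 229) (nat_lit 139)) (XT.lf (nat_lit 0) (nat_lit 53281857482) (nat_lit 152) (nat_lit 256216523928)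 (nat_lit 0) (nat_lit 38480351253) (nat_lit 1) (nat_lit 5) (nat_lit 3) (nat_lit 4) (nat_lit 1) (nat_lit 4) (nat_lit 353) (nat_lit 229) (nat_lit 138))))))) (XT.nd (nat_lit 30186) (nat_lit 0) (nat_lit 2812) (XT.nd (nat_lit 312) (nat_lit 0) (nat_lit 0) (XT.nd (nat_lit 156) (nat_lit 0) (nat_lit 0) (XT.nd (nat_lit 78) (nat_lit 0) (nat_lit 0) (XT.lf (nat_lit 0) (nat_lit 58443072534) (nat_lit 152) (nat_lit 263135259305) (nat_lit 0) (nat_lit 43633152078) (nat_lit 1) (nat_lit 5) (nat_lit 3) (nat_lit 4) (nat_lit 1) (nat_lit 4) (nat_lit 354) (nat_lit 229) (nat_lit 137)) (XT.lf (nat_lit 0) (nat_lit 63858868313) (nat_lit 152) (nat_lit 270406248280) (nat_lit 0) (nat_lit 49040934307) (nat_lit 1) (nat_lit 5) (nat_lit 3) (nat_lit 4) (nat_lit 1) (nat_lit 4) (nat_lit 355) (nat_lit 229) (nat_lit 136))) (XT.nd (nat_lit 78) (nat_lit 0) (nat_lit 0) (XT.lf (nat_lit 0) (nat_lit 69542139570) (nat_lit 152) (nat_lit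 278046802731) (nat_lit 0) (nat_lit 54716573611) (nat_lit 1) (nat_lit 5) (nat_lit 3) (nat_lit 4) (nat_lit 1) (nat_lit 4) (nat_lit 356) (nat_lit 229) (nat_lit 135)) (XT.lf (nat_lit 0) (nat_lit 75506417903) (nat_lit 152) (nat_lit 286075114454) (nat_lit 0) (nat_lit 60673583418) (nat_lit 1) (nat_lit 5) (nat_lit 3) (nat_lit 4) (nat_lit 1) (nat_lit 4) (nat_lit 357) (nat_lit 229) (nat_lit 134)))) (XT.nd (nat_lit 156) (nat_lit 0) (nat_lit 0) (XT.nd (nat_lit 78) (nat_lit 0) (nat_lit 0) (XT.lf (nat_lit 0) (nat_lit 81765903976) (nat_lit 152) (nat_lit 294510298478) (nat_lit 0) (nat_lit 66926147084) (nat_lit 1) (nat_lit 5) (nat_lit 3) (nat_lit 4) (nat_lit 1) (nat_lit 4) (nat_lit 358) (nat_lit 229) (nat_lit 133)) (XT.lf (nat_lit 0) (nat_lit 88335501325) (nat_lit 152) (nat_lit 303372438574) (nat_lit 0) (nat_lit 73489151666) (nat_lit 1) (nat_lit 5) (nat_lit 3) (nat_lit 4) (nat_lit 1) (nat_lit 4) (nat_lit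 359) (nat_lit 229) (nat_lit 132))) (XT.nd (nat_lit 78) (nat_lit 0) (nat_lit 0) (XT.lf (nat_lit 0) (nat_lit 95230851851) (nat_lit 152) (nat_lit 312682635075) (nat_lit 0) (nat_lit 80378223366) (nat_lit 1) (nat_lit 5) (nat_lit 3) (nat_lit 4) (nat_lit 1) (nat_lit 4) (nat_lit 360) (nat_lit 229) (nat_lit 131)) (XT.nd (nat_lit 78) (nat_lit 0) (nat_lit 0) (XT.lf (nat_lit 0) (nat_lit 102468373053) (nat_lit 152) (nat_lit 322463055117) (nat_lit 0) (nat_lit 87609764733) (nat_lit 1) (nat_lit 5) (nat_lit 3) (nat_lit 4) (nat_lit 1) (nat_lit 4) (nat_lit 361) (nat_lit 229) (nat_lit 130)) (XT.lf (nat_lit 0) (nat_lit 110065297126) (nat_lit 152) (nat_lit 332736985413) (nat_lit 0) (nat_lit 95200993726) (nat_lit 1) (nat_lit 5) (nat_lit 3) (nat_lit 4) (nat_lit 1) (nat_lit 4) (nat_lit 362) (nat_lit 229) (nat_lit 129)))))) (XT.nd (nat_lit 312) (nat_lit 608) (nat_lit 0) (XT.nd (nat_lit 156) (nat_lit 684) (nat_lit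 0) (XT.nd (nat_lit 78) (nat_lit 0) (nat_lit 0) (XT.lf (nat_lit 0) (nat_lit 491326849) (nat_lit 304) (nat_lit 1704364963) (nat_lit 304) (nat_lit 1704364963) (nat_lit 55) (nat_lit 4) (nat_lit 59) (nat_lit 5) (nat_lit 59) (nat_lit 4) (nat_lit 260) (nat_lit 230) (nat_lit 230)) (XT.lf (nat_lit 0) (nat_lit 6042750979) (nat_lit 304) (nat_lit 1594777548) (nat_lit 304) (nat_lit 313886871) (nat_lit 55) (nat_lit 4) (nat_lit 59) (nat_lit 5) (nat_lit 59) (nat_lit 4) (nat_lit 261) (nat_lit 230) (nat_lit 229))) (XT.nd (nat_lit 78) (nat_lit 304) (nat_lit 0) (XT.lf (nat_lit 0) (nat_lit 2756228086) (nat_lit 380) (nat_lit 4982115065) (nat_lit 0) (nat_lit 374526600) (nat_lit 50) (nat_lit 5) (nat_lit 55) (nat_lit 4) (nat_lit 50) (nat_lit 4) (nat_lit 262) (nat_lit 230) (nat_lit 228)) (XT.lf (nat_lit 0) (nat_lit 8654241) (nat_lit 304) (nat_lit 5883061227) (nat_lit 304) (nat_lit 2394878214) (nat_lit 46) (nat_lit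 4) (nat_lit 50) (nat_lit 5) (nat_lit 50) (nat_lit 4) (nat_lit 263) (nat_lit 230) (nat_lit 227)))) (XT.nd (nat_lit 156) (nat_lit 304) (nat_lit 0) (XT.nd (nat_lit 78) (nat_lit 228) (nat_lit 0) (XT.lf (nat_lit 0) (nat_lit 642361505) (nat_lit 380) (nat_lit 3225133855) (nat_lit 76) (nat_lit 4603958188) (nat_lit 45) (nat_lit 5) (nat_lit 50) (nat_lit 5) (nat_lit 46) (nat_lit 4) (nat_lit 264) (nat_lit 230) (nat_lit 226)) (XT.lf (nat_lit 0) (nat_lit 1941543078) (nat_lit 228) (nat_lit 1710715157) (nat_lit 304) (nat_lit 5016767858) (nat_lit 42) (nat_lit 5) (nat_lit 45) (nat_lit 5) (nat_lit 46) (nat_lit 4) (nat_lit 265) (nat_lit 230) (nat_lit 225))) (XT.nd (nat_lit 78) (nat_lit 304) (nat_lit 0) (XT.lf (nat_lit 0) (nat_lit 6750913805) (nat_lit 304) (nat_lit 1570025291) (nat_lit 0) (nat_lit 559097948) (nat_lit 42) (nat_lit 5) (nat_lit 46) (nat_lit 4) (nat_lit 42) (nat_lit 4) (nat_lit 266) (nat_lit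 230) (nat_lit 224)) (XT.nd (nat_lit 78) (nat_lit 0) (nat_lit 0) (XT.lf (nat_lit 0) (nat_lit 840202113) (nat_lit 304) (nat_lit 5336358751) (nat_lit 76) (nat_lit 2926451991) (nat_lit 38) (nat_lit 5) (nat_lit 42) (nat_lit 5) (nat_lit 39) (nat_lit 4) (nat_lit 267) (nat_lit 230) (nat_lit 223)) (XT.lf (nat_lit 0) (nat_lit 3794527931) (nat_lit 304) (nat_lit 105664375) (nat_lit 76) (nat_lit 5440204211) (nat_lit 38) (nat_lit 5) (nat_lit 42) (nat_lit 5) (nat_lit 39) (nat_lit 4) (nat_lit 268) (nat_lit 230) (nat_lit 222))))))))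
noncomputable def xc78 : XT := (XT.nd (nat_lit 1326) (nat_lit 532) (nat_lit 0) (XT.nd (nat_lit 624) (nat_lit 684) (nat_lit 0) (XT.nd (nat_lit 312) (nat_lit 456) (nat_lit 0) (XT.nd (nat_lit 156) (nat_lit 152) (nat_lit 0) (XT.nd (nat_lit 78) (nat_lit 304) (nat_lit 0) (XT.lf (nat_lit 0) (nat_lit 5408044456) (nat_lit 228) (nat_lit 1459685716) (nat_lit 304) (nat_lit 2723750307) (nat_lit 35) (nat_lit 5) (nat_lit 38) (nat_lit 5) (nat_lit 39) (nat_lit 4) (nat_lit 269) (nat_lit 230) (nat_lit 221)) (XT.lf (nat_lit 0) (nat_lit 157417853) (nat_lit 304) (nat_lit 8648448304) (nat_lit 76) (nat_lit 1053138054) (nat_lit 31) (nat_lit 5) (nat_lit 35) (nat_lit 5) (nat_lit 32) (nat_lit 4) (nat_lit 270) (nat_lit 230) (nat_lit 220))) (XT.nd (nat_lit 78) (nat_lit 152) (nat_lit 0) (XT.lf (nat_lit 0) (nat_lit 3077024082) (nat_lit 304) (nat_lit 3342539209) (nat_lit 76) (nat_lit 3719148618) (nat_lit 31) (nat_lit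 5) (nat_lit 35) (nat_lit 5) (nat_lit 32) (nat_lit 4) (nat_lit 271) (nat_lit 230) (nat_lit 219)) (XT.lf (nat_lit 0) (nat_lit 2148947927) (nat_lit 152) (nat_lit 3922429310) (nat_lit 228) (nat_lit 4364909557) (nat_lit 29) (nat_lit 5) (nat_lit 31) (nat_lit 5) (nat_lit 32) (nat_lit 4) (nat_lit 272) (nat_lit 230) (nat_lit 218)))) (XT.nd (nat_lit 156) (nat_lit 152) (nat_lit 0) (XT.nd (nat_lit 78) (nat_lit 304) (nat_lit 0) (XT.lf (nat_lit 0) (nat_lit 7884952783) (nat_lit 152) (nat_lit 1285026978) (nat_lit 228) (nat_lit 1581338965) (nat_lit 29) (nat_lit 5) (nat_lit 31) (nat_lit 5) (nat_lit 32) (nat_lit 4) (nat_lit 273) (nat_lit 230) (nat_lit 217)) (XT.lf (nat_lit 0) (nat_lit 1265862139) (nat_lit 304) (nat_lit 8357645952) (nat_lit 76) (nat_lit 1459454271) (nat_lit 25) (nat_lit 5) (nat_lit 29) (nat_lit 5) (nat_lit 26) (nat_lit 4) (nat_lit 274) (nat_lit 230) (nat_lit 216))) (XT.nd (nat_lit 78)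 (nat_lit 152) (nat_lit 0) (XT.lf (nat_lit 0) (nat_lit 4175437452) (nat_lit 304) (nat_lit 2925253094) (nat_lit 76) (nat_lit 4330806955) (nat_lit 25) (nat_lit 5) (nat_lit 29) (nat_lit 5) (nat_lit 26) (nat_lit 4) (nat_lit 275) (nat_lit 230) (nat_lit 215)) (XT.lf (nat_lit 0) (nat_lit 2728169965) (nat_lit 152) (nat_lit 4452299191) (nat_lit 228) (nat_lit 4619742188) (nat_lit 23) (nat_lit 5) (nat_lit 25) (nat_lit 5) (nat_lit 26) (nat_lit 4) (nat_lit 276) (nat_lit 230) (nat_lit 214))))) (XT.nd (nat_lit 312) (nat_lit 304) (nat_lit 0) (XT.nd (nat_lit 156) (nat_lit 152) (nat_lit 0) (XT.nd (nat_lit 78) (nat_lit 228) (nat_lit 0) (XT.lf (nat_lit 0) (nat_lit 8630138762) (nat_lit 152) (nat_lit 1664829430) (nat_lit 228) (nat_lit 1894670791) (nat_lit 23) (nat_lit 5) (nat_lit 25) (nat_lit 5) (nat_lit 26) (nat_lit 4) (nat_lit 277) (nat_lit 230) (nat_lit 213)) (XT.lf (nat_lit 0) (nat_lit 901433118) (nat_lit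 228) (nat_lit 10470454451) (nat_lit 76) (nat_lit 1227826607) (nat_lit 20) (nat_lit 5) (nat_lit 23) (nat_lit 5) (nat_lit 21) (nat_lit 4) (nat_lit 278) (nat_lit 230) (nat_lit 212))) (XT.nd (nat_lit 78) (nat_lit 152) (nat_lit 0) (XT.lf (nat_lit 0) (nat_lit 3776020565) (nat_lit 228) (nat_lit 4994571435) (nat_lit 76) (nat_lit 4258236895) (nat_lit 20) (nat_lit 5) (nat_lit 23) (nat_lit 5) (nat_lit 21) (nat_lit 4) (nat_lit 279) (nat_lit 230) (nat_lit 211)) (XT.lf (nat_lit 0) (nat_lit 648246831) (nat_lit 152) (nat_lit 6074106105) (nat_lit 228) (nat_lit 6760842168) (nat_lit 18) (nat_lit 5) (nat_lit 20) (nat_lit 5) (nat_lit 21) (nat_lit 4) (nat_lit 280) (nat_lit 230) (nat_lit 210)))) (XT.nd (nat_lit 156) (nat_lit 304) (nat_lit 0) (XT.nd (nat_lit 78) (nat_lit 0) (nat_lit 0) (XT.lf (nat_lit 0) (nat_lit 6621057582) (nat_lit 152) (nat_lit 3199374046) (nat_lit 228) (nat_lit 4139813687) (nat_lit 18)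 (nat_lit 5) (nat_lit 20) (nat_lit 5) (nat_lit 21) (nat_lit 4) (nat_lit 281) (nat_lit 230) (nat_lit 209)) (XT.lf (nat_lit 0) (nat_lit 12772938706) (nat_lit 152) (nat_lit 224136707) (nat_lit 228) (nat_lit 1468067826) (nat_lit 18) (nat_lit 5) (nat_lit 20) (nat_lit 5) (nat_lit 21) (nat_lit 4) (nat_lit 282) (nat_lit 230) (nat_lit 208))) (XT.nd (nat_lit 78) (nat_lit 76) (nat_lit 0) (XT.lf (nat_lit 0) (nat_lit 1332568694) (nat_lit 228) (nat_lit 10805520183) (nat_lit 76) (nat_lit 2854409739) (nat_lit 15) (nat_lit 5) (nat_lit 18) (nat_lit 5) (nat_lit 16) (nat_lit 4) (nat_lit 283) (nat_lit 230) (nat_lit 207)) (XT.nd (nat_lit 78) (nat_lit 76) (nat_lit 0) (XT.lf (nat_lit 0) (nat_lit 4183720072) (nat_lit 228) (nat_lit 5271847534) (nat_lit 76) (nat_lit 6091613821) (nat_lit 15) (nat_lit 5) (nat_lit 18) (nat_lit 5) (nat_lit 16) (nat_lit 4) (nat_lit 284) (nat_lit 230) (nat_lit 206)) (XT.lf (nat_lit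 0) (nat_lit 440495060) (nat_lit 76) (nat_lit 6674303944) (nat_lit 152) (nat_lit 9018077533) (nat_lit 14) (nat_lit 5) (nat_lit 15) (nat_lit 5) (nat_lit 16) (nat_lit 4) (nat_lit 285) (nat_lit 230) (nat_lit 205))))))) (XT.nd (nat_lit 702) (nat_lit 228) (nat_lit 0) (XT.nd (nat_lit 312) (nat_lit 76) (nat_lit 0) (XT.nd (nat_lit 156) (nat_lit 228) (nat_lit 0) (XT.nd (nat_lit 78) (nat_lit 0) (nat_lit 0) (XT.lf (nat_lit 0) (nat_lit 6511177412) (nat_lit 76) (nat_lit 3702616104) (nat_lit 152) (nat_lit 6533134478) (nat_lit 14) (nat_lit 5) (nat_lit 15) (nat_lit 5) (nat_lit 16) (nat_lit 4) (nat_lit 286) (nat_lit 230) (nat_lit 204)) (XT.lf (nat_lit 0) (nat_lit 12780342439) (nat_lit 76) (nat_lit 622709928) (nat_lit 152) (nat_lit 3991996949) (nat_lit 14) (nat_lit 5) (nat_lit 15) (nat_lit 5) (nat_lit 16) (nat_lit 4) (nat_lit 287) (nat_lit 230) (nat_lit 203))) (XT.nd (nat_lit 78) (nat_lit 76) (nat_lit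 0) (XT.lf (nat_lit 0) (nat_lit 1181789931) (nat_lit 152) (nat_lit 15566997951) (nat_lit 152) (nat_lit 1327064821) (nat_lit 12) (nat_lit 4) (nat_lit 14) (nat_lit 5) (nat_lit 14) (nat_lit 4) (nat_lit 288) (nat_lit 230) (nat_lit 202)) (XT.lf (nat_lit 0) (nat_lit 1451736995) (nat_lit 228) (nat_lit 11496085325) (nat_lit 76) (nat_lit 5840455043) (nat_lit 11) (nat_lit 5) (nat_lit 14) (nat_lit 5) (nat_lit 12) (nat_lit 4) (nat_lit 289) (nat_lit 230) (nat_lit 201)))) (XT.nd (nat_lit 156) (nat_lit 76) (nat_lit 0) (XT.nd (nat_lit 78) (nat_lit 0) (nat_lit 0) (XT.lf (nat_lit 0) (nat_lit 4265896133) (nat_lit 228) (nat_lit 5948214364) (nat_lit 76) (nat_lit 9324183671) (nat_lit 11) (nat_lit 5) (nat_lit 14) (nat_lit 5) (nat_lit 12) (nat_lit 4) (nat_lit 290) (nat_lit 230) (nat_lit 200)) (XT.lf (nat_lit 0) (nat_lit 7164587334) (nat_lit 228) (nat_lit 216521473) (nat_lit 76) (nat_lit 12947616030) (nat_lit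 11) (nat_lit 5) (nat_lit 14) (nat_lit 5) (nat_lit 12) (nat_lit 4) (nat_lit 291) (nat_lit 230) (nat_lit 199))) (XT.nd (nat_lit 78) (nat_lit 0) (nat_lit 0) (XT.lf (nat_lit 0) (nat_lit 5901525922) (nat_lit 76) (nat_lit 4345325679) (nat_lit 152) (nat_lit 10909992774) (nat_lit 10) (nat_lit 5) (nat_lit 11) (nat_lit 5) (nat_lit 12) (nat_lit 4) (nat_lit 292) (nat_lit 230) (nat_lit 198)) (XT.nd (nat_lit 78) (nat_lit 0) (nat_lit 0) (XT.lf (nat_lit 0) (nat_lit 12245314350) (nat_lit 76) (nat_lit 1189259527) (nat_lit 152) (nat_lit 8594323308) (nat_lit 10) (nat_lit 5) (nat_lit 11) (nat_lit 5) (nat_lit 12) (nat_lit 4) (nat_lit 293) (nat_lit 230) (nat_lit 197)) (XT.lf (nat_lit 0) (nat_lit 16764497087) (nat_lit 152) (nat_lit 4156990699) (nat_lit 0) (nat_lit 2024014144) (nat_lit 10) (nat_lit 5) (nat_lit 12) (nat_lit 4) (nat_lit 10) (nat_lit 4) (nat_lit 294) (nat_lit 230) (nat_lit 196)))))) (XT.nd (nat_lit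 312) (nat_lit 76) (nat_lit 0) (XT.nd (nat_lit 156) (nat_lit 76) (nat_lit 0) (XT.nd (nat_lit 78) (nat_lit 0) (nat_lit 0) (XT.lf (nat_lit 0) (nat_lit 1704504888) (nat_lit 76) (nat_lit 18554561348) (nat_lit 76) (nat_lit 3649048935) (nat_lit 9) (nat_lit 4) (nat_lit 10) (nat_lit 5) (nat_lit 10) (nat_lit 4) (nat_lit 295) (nat_lit 230) (nat_lit 195)) (XT.lf (nat_lit 0) (nat_lit 7923225957) (nat_lit 76) (nat_lit 16028612199) (nat_lit 76) (nat_lit 965928863) (nat_lit 9) (nat_lit 4) (nat_lit 10) (nat_lit 5) (nat_lit 10) (nat_lit 4) (nat_lit 296) (nat_lit 230) (nat_lit 194))) (XT.nd (nat_lit 78) (nat_lit 0) (nat_lit 0) (XT.lf (nat_lit 0) (nat_lit 1746592855) (nat_lit 152) (nat_lit 11631854576) (nat_lit 76) (nat_lit 12600357851) (nat_lit 8) (nat_lit 5) (nat_lit 10) (nat_lit 5) (nat_lit 9) (nat_lit 4) (nat_lit 297) (nat_lit 230) (nat_lit 193)) (XT.lf (nat_lit 0) (nat_lit 4518946084) (nat_lit 152)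 (nat_lit 6091089117) (nat_lit 76) (nat_lit 16484305707) (nat_lit 8) (nat_lit 5) (nat_lit 10) (nat_lit 5) (nat_lit 9) (nat_lit 4) (nat_lit 298) (nat_lit 230) (nat_lit 192)))) (XT.nd (nat_lit 156) (nat_lit 0) (nat_lit 0) (XT.nd (nat_lit 78) (nat_lit 76) (nat_lit 0) (XT.lf (nat_lit 0) (nat_lit 7388647420) (nat_lit 152) (nat_lit 343971530) (nat_lit 76) (nat_lit 20535165028) (nat_lit 8) (nat_lit 5) (nat_lit 10) (nat_lit 5) (nat_lit 9) (nat_lit 4) (nat_lit 299) (nat_lit 230) (nat_lit 191)) (XT.lf (nat_lit 0) (nat_lit 5809109582) (nat_lit 76) (nat_lit 4644116384) (nat_lit 152) (nat_lit 19044167613) (nat_lit 7) (nat_lit 5) (nat_lit 8) (nat_lit 5) (nat_lit 9) (nat_lit 4) (nat_lit 300) (nat_lit 230) (nat_lit 190))) (XT.nd (nat_lit 78) (nat_lit 0) (nat_lit 0) (XT.lf (nat_lit 0) (nat_lit 12215552336) (nat_lit 76) (nat_lit 1422839623) (nat_lit 152) (nat_lit 17151784715) (nat_lit 7) (nat_lit 5) (nat_lit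 8) (nat_lit 5) (nat_lit 9) (nat_lit 4) (nat_lit 301) (nat_lit 230) (nat_lit 189)) (XT.nd (nat_lit 78) (nat_lit 0) (nat_lit 0) (XT.lf (nat_lit 0) (nat_lit 16976361617) (nat_lit 152) (nat_lit 13300432217) (nat_lit 0) (nat_lit 1871185859) (nat_lit 7) (nat_lit 5) (nat_lit 9) (nat_lit 4) (nat_lit 7) (nat_lit 4) (nat_lit 302) (nat_lit 230) (nat_lit 188)) (XT.lf (nat_lit 0) (nat_lit 20469271245) (nat_lit 152) (nat_lit 7847338795) (nat_lit 0) (nat_lit 5257716021) (nat_lit 7) (nat_lit 5) (nat_lit 9) (nat_lit 4) (nat_lit 7) (nat_lit 4) (nat_lit 303) (nat_lit 230) (nat_lit 187))))))))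
noncomputable def xc79 : XT := (XT.nd (nat_lit 1326) (nat_lit 76) (nat_lit 0) (XT.nd (nat_lit 624) (nat_lit 76) (nat_lit 0) (XT.nd (nat_lit 312) (nat_lit 76) (nat_lit 0) (XT.nd (nat_lit 156) (nat_lit 0) (nat_lit 0) (XT.nd (nat_lit 78) (nat_lit 76) (nat_lit 0) (XT.lf (nat_lit 0) (nat_lit 24103222784) (nat_lit 152) (nat_lit 2180146002) (nat_lit 0) (nat_lit 8790353781) (nat_lit 7) (nat_lit 5) (nat_lit 9) (nat_lit 4) (nat_lit 7) (nat_lit 4) (nat_lit 304) (nat_lit 230) (nat_lit 186)) (XT.lf (nat_lit 0) (nat_lit 3837462234) (nat_lit 76) (nat_lit 24109319804) (nat_lit 76) (nat_lit 8699961488) (nat_lit 6) (nat_lit 4) (nat_lit 7) (nat_lit 5) (nat_lit 7) (nat_lit 4) (nat_lit 305) (nat_lit 230) (nat_lit 185))) (XT.nd (nat_lit 78) (nat_lit 0) (nat_lit 0) (XT.lf (nat_lit 0) (nat_lit 10176773143) (nat_lit 76) (nat_lit 21811331874) (nat_lit 76) (nat_lit 6310078974) (nat_lit 6) (nat_lit 4) (nat_lit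 7) (nat_lit 5) (nat_lit 7) (nat_lit 4) (nat_lit 306) (nat_lit 230) (nat_lit 184)) (XT.lf (nat_lit 0) (nat_lit 16780794849) (nat_lit 76) (nat_lit 19420855425) (nat_lit 76) (nat_lit 3832083873) (nat_lit 6) (nat_lit 4) (nat_lit 7) (nat_lit 5) (nat_lit 7) (nat_lit 4) (nat_lit 307) (nat_lit 230) (nat_lit 183)))) (XT.nd (nat_lit 156) (nat_lit 0) (nat_lit 0) (XT.nd (nat_lit 78) (nat_lit 76) (nat_lit 0) (XT.lf (nat_lit 0) (nat_lit 23665251213) (nat_lit 76) (nat_lit 16932198845) (nat_lit 76) (nat_lit 1260076197) (nat_lit 6) (nat_lit 4) (nat_lit 7) (nat_lit 5) (nat_lit 7) (nat_lit 4) (nat_lit 308) (nat_lit 230) (nat_lit 182)) (XT.lf (nat_lit 0) (nat_lit 1366872890) (nat_lit 152) (nat_lit 12949415218) (nat_lit 76) (nat_lit 29456512253) (nat_lit 5) (nat_lit 5) (nat_lit 7) (nat_lit 5) (nat_lit 6) (nat_lit 4) (nat_lit 309) (nat_lit 230) (nat_lit 181))) (XT.nd (nat_lit 78) (nat_lit 0) (nat_lit 0)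 (XT.lf (nat_lit 0) (nat_lit 4056581700) (nat_lit 152) (nat_lit 7511114059) (nat_lit 76) (nat_lit 34216459021) (nat_lit 5) (nat_lit 5) (nat_lit 7) (nat_lit 5) (nat_lit 6) (nat_lit 4) (nat_lit 310) (nat_lit 230) (nat_lit 180)) (XT.lf (nat_lit 0) (nat_lit 6855784608) (nat_lit 152) (nat_lit 1844749909) (nat_lit 76) (nat_lit 39196827600) (nat_lit 5) (nat_lit 5) (nat_lit 7) (nat_lit 5) (nat_lit 6) (nat_lit 4) (nat_lit 311) (nat_lit 230) (nat_lit 179))))) (XT.nd (nat_lit 312) (nat_lit 0) (nat_lit 0) (XT.nd (nat_lit 156) (nat_lit 0) (nat_lit 0) (XT.nd (nat_lit 78) (nat_lit 0) (nat_lit 0) (XT.lf (nat_lit 0) (nat_lit 4197515276) (nat_lit 76) (nat_lit 5639166082) (nat_lit 152) (nat_lit 40277495710) (nat_lit 4) (nat_lit 5) (nat_lit 5) (nat_lit 5) (nat_lit 6) (nat_lit 4) (nat_lit 312) (nat_lit 230) (nat_lit 178)) (XT.lf (nat_lit 0) (nat_lit 10564849010) (nat_lit 76) (nat_lit 2409706250) (nat_lit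 152) (nat_lit 39466913208) (nat_lit 4) (nat_lit 5) (nat_lit 5) (nat_lit 5) (nat_lit 6) (nat_lit 4) (nat_lit 313) (nat_lit 230) (nat_lit 177))) (XT.nd (nat_lit 78) (nat_lit 0) (nat_lit 0) (XT.lf (nat_lit 0) (nat_lit 16262178719) (nat_lit 152) (nat_lit 37689904649) (nat_lit 0) (nat_lit 933429056) (nat_lit 4) (nat_lit 5) (nat_lit 6) (nat_lit 4) (nat_lit 4) (nat_lit 4) (nat_lit 314) (nat_lit 230) (nat_lit 176)) (XT.lf (nat_lit 0) (nat_lit 19732292602) (nat_lit 152) (nat_lit 33371462189) (nat_lit 0) (nat_lit 4347127636) (nat_lit 4) (nat_lit 5) (nat_lit 6) (nat_lit 4) (nat_lit 4) (nat_lit 4) (nat_lit 315) (nat_lit 230) (nat_lit 175)))) (XT.nd (nat_lit 156) (nat_lit 0) (nat_lit 0) (XT.nd (nat_lit 78) (nat_lit 0) (nat_lit 0) (XT.lf (nat_lit 0) (nat_lit 23355536818) (nat_lit 152) (nat_lit 28873387806) (nat_lit 0) (nat_lit 7916642992) (nat_lit 4) (nat_lit 5) (nat_lit 6) (nat_lit 4) (nat_lit 4)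 (nat_lit 4) (nat_lit 316) (nat_lit 230) (nat_lit 174)) (XT.lf (nat_lit 0) (nat_lit 27140538138) (nat_lit 152) (nat_lit 24184971798) (nat_lit 0) (nat_lit 11650473969) (nat_lit 4) (nat_lit 5) (nat_lit 6) (nat_lit 4) (nat_lit 4) (nat_lit 4) (nat_lit 317) (nat_lit 230) (nat_lit 173))) (XT.nd (nat_lit 78) (nat_lit 0) (nat_lit 0) (XT.lf (nat_lit 0) (nat_lit 31096308471) (nat_lit 152) (nat_lit 19295051270) (nat_lit 0) (nat_lit 15557510643) (nat_lit 4) (nat_lit 5) (nat_lit 6) (nat_lit 4) (nat_lit 4) (nat_lit 4) (nat_lit 318) (nat_lit 230) (nat_lit 172)) (XT.nd (nat_lit 78) (nat_lit 0) (nat_lit 0) (XT.lf (nat_lit 0) (nat_lit 35232266318) (nat_lit 152) (nat_lit 14191983554) (nat_lit 0) (nat_lit 19647055480) (nat_lit 4) (nat_lit 5) (nat_lit 6) (nat_lit 4) (nat_lit 4) (nat_lit 4) (nat_lit 319) (nat_lit 230) (nat_lit 171)) (XT.lf (nat_lit 0) (nat_lit 39558259197) (nat_lit 152) (nat_lit 8863618489)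 (nat_lit 0) (nat_lit 23928845493) (nat_lit 4) (nat_lit 5) (nat_lit 6) (nat_lit 4) (nat_lit 4) (nat_lit 4) (nat_lit 320) (nat_lit 230) (nat_lit 170))))))) (XT.nd (nat_lit 702) (nat_lit 0) (nat_lit 0) (XT.nd (nat_lit 312) (nat_lit 0) (nat_lit 0) (XT.nd (nat_lit 156) (nat_lit 0) (nat_lit 0) (XT.nd (nat_lit 78) (nat_lit 76) (nat_lit 0) (XT.lf (nat_lit 0) (nat_lit 44084587091) (nat_lit 152) (nat_lit 3297269491) (nat_lit 0) (nat_lit 28413075420) (nat_lit 4) (nat_lit 5) (nat_lit 6) (nat_lit 4) (nat_lit 4) (nat_lit 4) (nat_lit 321) (nat_lit 230) (nat_lit 169)) (XT.lf (nat_lit 0) (nat_lit 2603649700) (nat_lit 76) (nat_lit 46259027539) (nat_lit 76) (nat_lit 30547422565) (nat_lit 3) (nat_lit 4) (nat_lit 4) (nat_lit 5) (nat_lit 4) (nat_lit 4) (nat_lit 322) (nat_lit 230) (nat_lit 168))) (XT.nd (nat_lit 78) (nat_lit 0) (nat_lit 0) (XT.lf (nat_lit 0) (nat_lit 8887445078) (nat_lit 76) (nat_lit 45033171304)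 (nat_lit 76) (nat_lit 29283382233) (nat_lit 3) (nat_lit 4) (nat_lit 4) (nat_lit 5) (nat_lit 4) (nat_lit 4) (nat_lit 323) (nat_lit 230) (nat_lit 167)) (XT.lf (nat_lit 0) (nat_lit 15460055437) (nat_lit 76) (nat_lit 43757210026) (nat_lit 76) (nat_lit 27971055147) (nat_lit 3) (nat_lit 4) (nat_lit 4) (nat_lit 5) (nat_lit 4) (nat_lit 4) (nat_lit 324) (nat_lit 230) (nat_lit 166)))) (XT.nd (nat_lit 156) (nat_lit 0) (nat_lit 0) (XT.nd (nat_lit 78) (nat_lit 0) (nat_lit 0) (XT.lf (nat_lit 0) (nat_lit 22337129850) (nat_lit 76) (nat_lit 42428105702) (nat_lit 76) (nat_lit 26607316721) (nat_lit 3) (nat_lit 4) (nat_lit 4) (nat_lit 5) (nat_lit 4) (nat_lit 4) (nat_lit 325) (nat_lit 230) (nat_lit 165)) (XT.lf (nat_lit 0) (nat_lit 29535042305) (nat_lit 76) (nat_lit 41042693797) (nat_lit 76) (nat_lit 25188919957) (nat_lit 3) (nat_lit 4) (nat_lit 4) (nat_lit 5) (nat_lit 4) (nat_lit 4) (nat_lit 326) (nat_lit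 230) (nat_lit 164))) (XT.nd (nat_lit 78) (nat_lit 0) (nat_lit 0) (XT.lf (nat_lit 0) (nat_lit 37070930687) (nat_lit 76) (nat_lit 39597675713) (nat_lit 76) (nat_lit 23712487722) (nat_lit 3) (nat_lit 4) (nat_lit 4) (nat_lit 5) (nat_lit 4) (nat_lit 4) (nat_lit 327) (nat_lit 230) (nat_lit 163)) (XT.nd (nat_lit 78) (nat_lit 0) (nat_lit 0) (XT.lf (nat_lit 0) (nat_lit 44962737588) (nat_lit 76) (nat_lit 38089610930) (nat_lit 76) (nat_lit 22174504699) (nat_lit 3) (nat_lit 4) (nat_lit 4) (nat_lit 5) (nat_lit 4) (nat_lit 4) (nat_lit 328) (nat_lit 230) (nat_lit 162)) (XT.lf (nat_lit 0) (nat_lit 53229253024) (nat_lit 76) (nat_lit 36514908818) (nat_lit 76) (nat_lit 20571309025) (nat_lit 3) (nat_lit 4) (nat_lit 4) (nat_lit 5) (nat_lit 4) (nat_lit 4) (nat_lit 329) (nat_lit 230) (nat_lit 161)))))) (XT.nd (nat_lit 312) (nat_lit 0) (nat_lit 0) (XT.nd (nat_lit 156) (nat_lit 0) (nat_lit 0) (XT.nd (nat_lit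 78) (nat_lit 0) (nat_lit 0) (XT.lf (nat_lit 0) (nat_lit 61890159176) (nat_lit 76) (nat_lit 34869820085) (nat_lit 76) (nat_lit 18899083566) (nat_lit 3) (nat_lit 4) (nat_lit 4) (nat_lit 5) (nat_lit 4) (nat_lit 4) (nat_lit 330) (nat_lit 230) (nat_lit 160)) (XT.lf (nat_lit 0) (nat_lit 70966077248) (nat_lit 76) (nat_lit 33150427854) (nat_lit 76) (nat_lit 17153846835) (nat_lit 3) (nat_lit 4) (nat_lit 4) (nat_lit 5) (nat_lit 4) (nat_lit 4) (nat_lit 331) (nat_lit 230) (nat_lit 159))) (XT.nd (nat_lit 78) (nat_lit 0) (nat_lit 0) (XT.lf (nat_lit 0) (nat_lit 80478616569) (nat_lit 76) (nat_lit 31352638333) (nat_lit 76) (nat_lit 15331443505) (nat_lit 3) (nat_lit 4) (nat_lit 4) (nat_lit 5) (nat_lit 4) (nat_lit 4) (nat_lit 332) (nat_lit 230) (nat_lit 158)) (XT.lf (nat_lit 0) (nat_lit 90450426042) (nat_lit 76) (nat_lit 29472171073) (nat_lit 76) (nat_lit 13427534521) (nat_lit 3) (nat_lit 4) (nat_lit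 4) (nat_lit 5) (nat_lit 4) (nat_lit 4) (nat_lit 333) (nat_lit 230) (nat_lit 157)))) (XT.nd (nat_lit 156) (nat_lit 0) (nat_lit 0) (XT.nd (nat_lit 78) (nat_lit 0) (nat_lit 0) (XT.lf (nat_lit 0) (nat_lit 100905248071) (nat_lit 76) (nat_lit 27504548768) (nat_lit 76) (nat_lit 11437586765) (nat_lit 3) (nat_lit 4) (nat_lit 4) (nat_lit 5) (nat_lit 4) (nat_lit 4) (nat_lit 334) (nat_lit 230) (nat_lit 156)) (XT.lf (nat_lit 0) (nat_lit 111867975089) (nat_lit 76) (nat_lit 25445086606) (nat_lit 76) (nat_lit 9356862268) (nat_lit 3) (nat_lit 4) (nat_lit 4) (nat_lit 5) (nat_lit 4) (nat_lit 4) (nat_lit 335) (nat_lit 230) (nat_lit 155))) (XT.nd (nat_lit 78) (nat_lit 0) (nat_lit 0) (XT.lf (nat_lit 0) (nat_lit 123364708827) (nat_lit 76) (nat_lit 23288881103) (nat_lit 76) (nat_lit 7180406924) (nat_lit 3) (nat_lit 4) (nat_lit 4) (nat_lit 5) (nat_lit 4) (nat_lit 4) (nat_lit 336) (nat_lit 230) (nat_lit 154))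 (XT.nd (nat_lit 78) (nat_lit 0) (nat_lit 0) (XT.lf (nat_lit 0) (nat_lit 135422822461) (nat_lit 76) (nat_lit 21030798438) (nat_lit 76) (nat_lit 4903038695) (nat_lit 3) (nat_lit 4) (nat_lit 4) (nat_lit 5) (nat_lit 4) (nat_lit 4) (nat_lit 337) (nat_lit 230) (nat_lit 153)) (XT.lf (nat_lit 0) (nat_lit 148071025784) (nat_lit 76) (nat_lit 18665462224) (nat_lit 76) (nat_lit 2519335276) (nat_lit 3) (nat_lit 4) (nat_lit 4) (nat_lit 5) (nat_lit 4) (nat_lit 4) (nat_lit 338) (nat_lit 230) (nat_lit 152))))))))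
noncomputable def xc80 : XT := (XT.nd (nat_lit 1326) (nat_lit 0) (nat_lit 0) (XT.nd (nat_lit 624) (nat_lit 0) (nat_lit 0) (XT.nd (nat_lit 312) (nat_lit 0) (nat_lit 0) (XT.nd (nat_lit 156) (nat_lit 76) (nat_lit 0) (XT.nd (nat_lit 78) (nat_lit 76) (nat_lit 0) (XT.lf (nat_lit 0) (nat_lit 161339433567) (nat_lit 76) (nat_lit 16187240707) (nat_lit 76) (nat_lit 23621184) (nat_lit 3) (nat_lit 4) (nat_lit 4) (nat_lit 5) (nat_lit 4) (nat_lit 4) (nat_lit 339) (nat_lit 230) (nat_lit 151)) (XT.lf (nat_lit 0) (nat_lit 2507148118) (nat_lit 152) (nat_lit 11040625474) (nat_lit 76) (nat_lit 172710029373) (nat_lit 2) (nat_lit 5) (nat_lit 4) (nat_lit 5) (nat_lit 3) (nat_lit 4) (nat_lit 340) (nat_lit 230) (nat_lit 150))) (XT.nd (nat_lit 78) (nat_lit 76) (nat_lit 0) (XT.lf (nat_lit 0) (nat_lit 5157362859) (nat_lit 152) (nat_lit 5623551536) (nat_lit 76) (nat_lit 184620074901) (nat_lit 2) (nat_lit 5) (nat_lit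 4) (nat_lit 5) (nat_lit 3) (nat_lit 4) (nat_lit 341) (nat_lit 230) (nat_lit 149)) (XT.lf (nat_lit 0) (nat_lit 55399646) (nat_lit 76) (nat_lit 7879554397) (nat_lit 152) (nat_lit 197066645095) (nat_lit 1) (nat_lit 5) (nat_lit 2) (nat_lit 5) (nat_lit 3) (nat_lit 4) (nat_lit 342) (nat_lit 230) (nat_lit 148)))) (XT.nd (nat_lit 156) (nat_lit 0) (nat_lit 0) (XT.nd (nat_lit 78) (nat_lit 0) (nat_lit 0) (XT.lf (nat_lit 0) (nat_lit 6202959192) (nat_lit 76) (nat_lit 4737824476) (nat_lit 152) (nat_lit 204136994980) (nat_lit 1) (nat_lit 5) (nat_lit 2) (nat_lit 5) (nat_lit 3) (nat_lit 4) (nat_lit 343) (nat_lit 230) (nat_lit 147)) (XT.lf (nat_lit 0) (nat_lit 12647824136) (nat_lit 76) (nat_lit 1443481889) (nat_lit 152) (nat_lit 211566747826) (nat_lit 1) (nat_lit 5) (nat_lit 2) (nat_lit 5) (nat_lit 3) (nat_lit 4) (nat_lit 344) (nat_lit 230) (nat_lit 146))) (XT.nd (nat_lit 78) (nat_lit 0) (nat_lit 0)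 (XT.lf (nat_lit 0) (nat_lit 17425424658) (nat_lit 152) (nat_lit 217393678783) (nat_lit 0) (nat_lit 1946942328) (nat_lit 1) (nat_lit 5) (nat_lit 3) (nat_lit 4) (nat_lit 1) (nat_lit 4) (nat_lit 345) (nat_lit 230) (nat_lit 145)) (XT.lf (nat_lit 0) (nat_lit 20944771275) (nat_lit 152) (nat_lit 222029296773) (nat_lit 0) (nat_lit 5454449282) (nat_lit 1) (nat_lit 5) (nat_lit 3) (nat_lit 4) (nat_lit 1) (nat_lit 4) (nat_lit 346) (nat_lit 230) (nat_lit 144))))) (XT.nd (nat_lit 312) (nat_lit 0) (nat_lit 0) (XT.nd (nat_lit 156) (nat_lit 0) (nat_lit 0) (XT.nd (nat_lit 78) (nat_lit 0) (nat_lit 0) (XT.lf (nat_lit 0) (nat_lit 24635188477) (nat_lit 152) (nat_lit 226905584076) (nat_lit 0) (nat_lit 9133590613) (nat_lit 1) (nat_lit 5) (nat_lit 3) (nat_lit 4) (nat_lit 1) (nat_lit 4) (nat_lit 347) (nat_lit 230) (nat_lit 143)) (XT.lf (nat_lit 0) (nat_lit 28505462970) (nat_lit 152) (nat_lit 232034150899) (nat_lit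 0) (nat_lit 12993126183) (nat_lit 1) (nat_lit 5) (nat_lit 3) (nat_lit 4) (nat_lit 1) (nat_lit 4) (nat_lit 348) (nat_lit 230) (nat_lit 142))) (XT.nd (nat_lit 78) (nat_lit 0) (nat_lit 0) (XT.lf (nat_lit 0) (nat_lit 32564809695) (nat_lit 152) (nat_lit 237427208116) (nat_lit 0) (nat_lit 17042245361) (nat_lit 1) (nat_lit 5) (nat_lit 3) (nat_lit 4) (nat_lit 1) (nat_lit 4) (nat_lit 349) (nat_lit 230) (nat_lit 141)) (XT.lf (nat_lit 0) (nat_lit 36822893761) (nat_lit 152) (nat_lit 243097596338) (nat_lit 0) (nat_lit 21290588907) (nat_lit 1) (nat_lit 5) (nat_lit 3) (nat_lit 4) (nat_lit 1) (nat_lit 4) (nat_lit 350) (nat_lit 230) (nat_lit 140)))) (XT.nd (nat_lit 156) (nat_lit 0) (nat_lit 0) (XT.nd (nat_lit 78) (nat_lit 0) (nat_lit 0) (XT.lf (nat_lit 0) (nat_lit 41289853466) (nat_lit 152) (nat_lit 249058816490) (nat_lit 0) (nat_lit 25748271926) (nat_lit 1) (nat_lit 5) (nat_lit 3) (nat_lit 4) (nat_lit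 1) (nat_lit 4) (nat_lit 351) (nat_lit 230) (nat_lit 139)) (XT.lf (nat_lit 0) (nat_lit 45976324427) (nat_lit 152) (nat_lit 255325061954) (nat_lit 0) (nat_lit 30425907948) (nat_lit 1) (nat_lit 5) (nat_lit 3) (nat_lit 4) (nat_lit 1) (nat_lit 4) (nat_lit 352) (nat_lit 230) (nat_lit 138))) (XT.nd (nat_lit 78) (nat_lit 0) (nat_lit 0) (XT.lf (nat_lit 0) (nat_lit 50893464908) (nat_lit 152) (nat_lit 261911252362) (nat_lit 0) (nat_lit 35334634201) (nat_lit 1) (nat_lit 5) (nat_lit 3) (nat_lit 4) (nat_lit 1) (nat_lit 4) (nat_lit 353) (nat_lit 230) (nat_lit 137)) (XT.nd (nat_lit 78) (nat_lit 0) (nat_lit 0) (XT.lf (nat_lit 0) (nat_lit 56052982387) (nat_lit 152) (nat_lit 268833069118) (nat_lit 0) (nat_lit 40486138130) (nat_lit 1) (nat_lit 5) (nat_lit 3) (nat_lit 4) (nat_lit 1) (nat_lit 4) (nat_lit 354) (nat_lit 230) (nat_lit 136)) (XT.lf (nat_lit 0) (nat_lit 61467161429) (nat_lit 152) (nat_lit 276106992740)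 (nat_lit 0) (nat_lit 45892685219) (nat_lit 1) (nat_lit 5) (nat_lit 3) (nat_lit 4) (nat_lit 1) (nat_lit 4) (nat_lit 355) (nat_lit 230) (nat_lit 135))))))) (XT.nd (nat_lit 30030) (nat_lit 0) (nat_lit 2812) (XT.nd (nat_lit 312) (nat_lit 0) (nat_lit 0) (XT.nd (nat_lit 156) (nat_lit 0) (nat_lit 0) (XT.nd (nat_lit 78) (nat_lit 0) (nat_lit 0) (XT.lf (nat_lit 0) (nat_lit 67148892936) (nat_lit 152) (nat_lit 283750342094) (nat_lit 0) (nat_lit 51567148200) (nat_lit 1) (nat_lit 5) (nat_lit 3) (nat_lit 4) (nat_lit 1) (nat_lit 4) (nat_lit 356) (nat_lit 230) (nat_lit 134)) (XT.lf (nat_lit 0) (nat_lit 73111704841) (nat_lit 152) (nat_lit 291781315629) (nat_lit 0) (nat_lit 57523037699) (nat_lit 1) (nat_lit 5) (nat_lit 3) (nat_lit 4) (nat_lit 1) (nat_lit 4) (nat_lit 357) (nat_lit 230) (nat_lit 133))) (XT.nd (nat_lit 78) (nat_lit 0) (nat_lit 0) (XT.lf (nat_lit 0) (nat_lit 79369794315) (nat_lit 152) (nat_lit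 300219034712) (nat_lit 0) (nat_lit 63774534406) (nat_lit 1) (nat_lit 5) (nat_lit 3) (nat_lit 4) (nat_lit 1) (nat_lit 4) (nat_lit 358) (nat_lit 230) (nat_lit 132)) (XT.lf (nat_lit 0) (nat_lit 85938061572) (nat_lit 152) (nat_lit 309083589150) (nat_lit 0) (nat_lit 70336522836) (nat_lit 1) (nat_lit 5) (nat_lit 3) (nat_lit 4) (nat_lit 1) (nat_lit 4) (nat_lit 359) (nat_lit 230) (nat_lit 131)))) (XT.nd (nat_lit 156) (nat_lit 0) (nat_lit 0) (XT.nd (nat_lit 78) (nat_lit 0) (nat_lit 0) (XT.lf (nat_lit 0) (nat_lit 92832145341) (nat_lit 152) (nat_lit 318396085024) (nat_lit 0) (nat_lit 77224626771) (nat_lit 1) (nat_lit 5) (nat_lit 3) (nat_lit 4) (nat_lit 1) (nat_lit 4) (nat_lit 360) (nat_lit 230) (nat_lit 130)) (XT.lf (nat_lit 0) (nat_lit 100068460109) (nat_lit 152) (nat_lit 328178694945) (nat_lit 0) (nat_lit 84455246459) (nat_lit 1) (nat_lit 5) (nat_lit 3) (nat_lit 4) (nat_lit 1) (nat_lit 4) (nat_lit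 361) (nat_lit 230) (nat_lit 129))) (XT.nd (nat_lit 29406) (nat_lit 0) (nat_lit 4408) (XT.lf (nat_lit 0) (nat_lit 107664235197) (nat_lit 152) (nat_lit 338454710840) (nat_lit 0) (nat_lit 92045597660) (nat_lit 1) (nat_lit 5) (nat_lit 3) (nat_lit 4) (nat_lit 1) (nat_lit 4) (nat_lit 362) (nat_lit 230) (nat_lit 128)) (XT.nd (nat_lit 78) (nat_lit 380) (nat_lit 0) (XT.lf (nat_lit 0) (nat_lit 3271267849) (nat_lit 684) (nat_lit 246577881) (nat_lit 684) (nat_lit 246577881) (nat_lit 64) (nat_lit 4) (nat_lit 73) (nat_lit 5) (nat_lit 73) (nat_lit 4) (nat_lit 258) (nat_lit 231) (nat_lit 231)) (XT.lf (nat_lit 0) (nat_lit 2569455249) (nat_lit 380) (nat_lit 3866439954) (nat_lit 0) (nat_lit 1224520038) (nat_lit 59) (nat_lit 5) (nat_lit 64) (nat_lit 4) (nat_lit 59) (nat_lit 4) (nat_lit 259) (nat_lit 231) (nat_lit 230)))))) (XT.nd (nat_lit 312) (nat_lit 912) (nat_lit 0) (XT.nd (nat_lit 156) (nat_lit 304)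 (nat_lit 0) (XT.nd (nat_lit 78) (nat_lit 76) (nat_lit 0) (XT.lf (nat_lit 0) (nat_lit 901831688) (nat_lit 304) (nat_lit 4763978906) (nat_lit 304) (nat_lit 2138153017) (nat_lit 55) (nat_lit 4) (nat_lit 59) (nat_lit 5) (nat_lit 59) (nat_lit 4) (nat_lit 260) (nat_lit 231) (nat_lit 229)) (XT.lf (nat_lit 0) (nat_lit 857519149) (nat_lit 380) (nat_lit 2087807513) (nat_lit 76) (nat_lit 5012913975) (nat_lit 54) (nat_lit 5) (nat_lit 59) (nat_lit 5) (nat_lit 55) (nat_lit 4) (nat_lit 261) (nat_lit 231) (nat_lit 228))) (XT.nd (nat_lit 78) (nat_lit 0) (nat_lit 0) (XT.lf (nat_lit 0) (nat_lit 2868716815) (nat_lit 304) (nat_lit 973353520) (nat_lit 380) (nat_lit 4281435939) (nat_lit 50) (nat_lit 5) (nat_lit 54) (nat_lit 5) (nat_lit 55) (nat_lit 4) (nat_lit 262) (nat_lit 231) (nat_lit 227)) (XT.lf (nat_lit 0) (nat_lit 6898710035) (nat_lit 380) (nat_lit 326885229) (nat_lit 0) (nat_lit 1075844415) (nat_lit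 50) (nat_lit 5) (nat_lit 55) (nat_lit 4) (nat_lit 50) (nat_lit 4) (nat_lit 263) (nat_lit 231) (nat_lit 226)))) (XT.nd (nat_lit 156) (nat_lit 304) (nat_lit 0) (XT.nd (nat_lit 78) (nat_lit 228) (nat_lit 0) (XT.lf (nat_lit 0) (nat_lit 1534452792) (nat_lit 380) (nat_lit 3680848755) (nat_lit 76) (nat_lit 3273880862) (nat_lit 45) (nat_lit 5) (nat_lit 50) (nat_lit 5) (nat_lit 46) (nat_lit 4) (nat_lit 264) (nat_lit 231) (nat_lit 225)) (XT.lf (nat_lit 0) (nat_lit 1393178294) (nat_lit 228) (nat_lit 3082663471) (nat_lit 304) (nat_lit 4214569299) (nat_lit 42) (nat_lit 5) (nat_lit 45) (nat_lit 5) (nat_lit 46) (nat_lit 4) (nat_lit 265) (nat_lit 231) (nat_lit 224))) (XT.nd (nat_lit 78) (nat_lit 304) (nat_lit 0) (XT.lf (nat_lit 0) (nat_lit 6697228049) (nat_lit 228) (nat_lit 810006324) (nat_lit 304) (nat_lit 1397770527) (nat_lit 42) (nat_lit 5) (nat_lit 45) (nat_lit 5) (nat_lit 46) (nat_lit 4) (nat_lit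 266) (nat_lit 231) (nat_lit 223)) (XT.nd (nat_lit 78) (nat_lit 0) (nat_lit 0) (XT.lf (nat_lit 0) (nat_lit 1467026864) (nat_lit 304) (nat_lit 6096937447) (nat_lit 76) (nat_lit 1567700789) (nat_lit 38) (nat_lit 5) (nat_lit 42) (nat_lit 5) (nat_lit 39) (nat_lit 4) (nat_lit 267) (nat_lit 231) (nat_lit 222)) (XT.lf (nat_lit 0) (nat_lit 4366096781) (nat_lit 304) (nat_lit 940199880) (nat_lit 76) (nat_lit 4065704712) (nat_lit 38) (nat_lit 5) (nat_lit 42) (nat_lit 5) (nat_lit 39) (nat_lit 4) (nat_lit 268) (nat_lit 231) (nat_lit 221))))))))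
noncomputable def xc81 : XT := (XT.nd (nat_lit 1326) (nat_lit 608) (nat_lit 0) (XT.nd (nat_lit 624) (nat_lit 608) (nat_lit 0) (XT.nd (nat_lit 312) (nat_lit 456) (nat_lit 0) (XT.nd (nat_lit 156) (nat_lit 152) (nat_lit 0) (XT.nd (nat_lit 78) (nat_lit 304) (nat_lit 0) (XT.lf (nat_lit 0) (nat_lit 4473151481) (nat_lit 228) (nat_lit 2898926574) (nat_lit 304) (nat_lit 2254549106) (nat_lit 35) (nat_lit 5) (nat_lit 38) (nat_lit 5) (nat_lit 39) (nat_lit 4) (nat_lit 269) (nat_lit 231) (nat_lit 220)) (XT.lf (nat_lit 0) (nat_lit 145167000) (nat_lit 228) (nat_lit 380329724) (nat_lit 304) (nat_lit 9372757109) (nat_lit 31) (nat_lit 5) (nat_lit 34) (nat_lit 5) (nat_lit 35) (nat_lit 5) (nat_lit 270) (nat_lit 231) (nat_lit 219))) (XT.nd (nat_lit 78) (nat_lit 152) (nat_lit 0) (XT.lf (nat_lit 0) (nat_lit 3388050558) (nat_lit 304) (nat_lit 4513677369) (nat_lit 76) (nat_lit 2279242387) (nat_lit 31) (nat_lit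 5) (nat_lit 35) (nat_lit 5) (nat_lit 32) (nat_lit 4) (nat_lit 271) (nat_lit 231) (nat_lit 218)) (XT.lf (nat_lit 0) (nat_lit 867817357) (nat_lit 152) (nat_lit 5445903953) (nat_lit 228) (nat_lit 4168406734) (nat_lit 29) (nat_lit 5) (nat_lit 31) (nat_lit 5) (nat_lit 32) (nat_lit 4) (nat_lit 272) (nat_lit 231) (nat_lit 217)))) (XT.nd (nat_lit 156) (nat_lit 152) (nat_lit 0) (XT.nd (nat_lit 78) (nat_lit 304) (nat_lit 0) (XT.lf (nat_lit 0) (nat_lit 6535946696) (nat_lit 152) (nat_lit 2828955159) (nat_lit 228) (nat_lit 1434770863) (nat_lit 29) (nat_lit 5) (nat_lit 31) (nat_lit 5) (nat_lit 32) (nat_lit 4) (nat_lit 273) (nat_lit 231) (nat_lit 216)) (XT.lf (nat_lit 0) (nat_lit 1235619940) (nat_lit 228) (nat_lit 78900629) (nat_lit 304) (nat_lit 9821470773) (nat_lit 25) (nat_lit 5) (nat_lit 28) (nat_lit 5) (nat_lit 29) (nat_lit 5) (nat_lit 274) (nat_lit 231) (nat_lit 215))) (XT.nd (nat_lit 78) (nat_lit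 152) (nat_lit 0) (XT.lf (nat_lit 0) (nat_lit 4177685119) (nat_lit 304) (nat_lit 4534018839) (nat_lit 76) (nat_lit 2775265417) (nat_lit 25) (nat_lit 5) (nat_lit 29) (nat_lit 5) (nat_lit 26) (nat_lit 4) (nat_lit 275) (nat_lit 231) (nat_lit 214)) (XT.lf (nat_lit 0) (nat_lit 1000024038) (nat_lit 152) (nat_lit 6112684057) (nat_lit 228) (nat_lit 4746592091) (nat_lit 23) (nat_lit 5) (nat_lit 25) (nat_lit 5) (nat_lit 26) (nat_lit 4) (nat_lit 276) (nat_lit 231) (nat_lit 213))))) (XT.nd (nat_lit 312) (nat_lit 380) (nat_lit 0) (XT.nd (nat_lit 156) (nat_lit 0) (nat_lit 0) (XT.nd (nat_lit 78) (nat_lit 228) (nat_lit 0) (XT.lf (nat_lit 0) (nat_lit 6838957482) (nat_lit 152) (nat_lit 3346286893) (nat_lit 228) (nat_lit 2065692569) (nat_lit 23) (nat_lit 5) (nat_lit 25) (nat_lit 5) (nat_lit 26) (nat_lit 4) (nat_lit 277) (nat_lit 231) (nat_lit 212)) (XT.lf (nat_lit 0) (nat_lit 175567789) (nat_lit 152) (nat_lit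 468964404) (nat_lit 228) (nat_lit 12021281758) (nat_lit 20) (nat_lit 5) (nat_lit 22) (nat_lit 5) (nat_lit 23) (nat_lit 5) (nat_lit 278) (nat_lit 231) (nat_lit 211))) (XT.nd (nat_lit 78) (nat_lit 0) (nat_lit 0) (XT.lf (nat_lit 0) (nat_lit 3471746379) (nat_lit 228) (nat_lit 7069288540) (nat_lit 76) (nat_lit 2556358283) (nat_lit 20) (nat_lit 5) (nat_lit 23) (nat_lit 5) (nat_lit 21) (nat_lit 4) (nat_lit 279) (nat_lit 231) (nat_lit 210)) (XT.lf (nat_lit 0) (nat_lit 6369813599) (nat_lit 228) (nat_lit 1506501308) (nat_lit 76) (nat_lit 5677949069) (nat_lit 20) (nat_lit 5) (nat_lit 23) (nat_lit 5) (nat_lit 21) (nat_lit 4) (nat_lit 280) (nat_lit 231) (nat_lit 209)))) (XT.nd (nat_lit 156) (nat_lit 228) (nat_lit 0) (XT.nd (nat_lit 78) (nat_lit 0) (nat_lit 0) (XT.lf (nat_lit 0) (nat_lit 4358170795) (nat_lit 152) (nat_lit 5048184627) (nat_lit 228) (nat_lit 4628122564) (nat_lit 18) (nat_lit 5) (nat_lit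 20) (nat_lit 5) (nat_lit 21) (nat_lit 4) (nat_lit 281) (nat_lit 231) (nat_lit 208)) (XT.lf (nat_lit 0) (nat_lit 10454502482) (nat_lit 152) (nat_lit 2093031526) (nat_lit 228) (nat_lit 1993697978) (nat_lit 18) (nat_lit 5) (nat_lit 20) (nat_lit 5) (nat_lit 21) (nat_lit 4) (nat_lit 282) (nat_lit 231) (nat_lit 207))) (XT.nd (nat_lit 78) (nat_lit 0) (nat_lit 0) (XT.lf (nat_lit 0) (nat_lit 719727456) (nat_lit 228) (nat_lit 13376643759) (nat_lit 76) (nat_lit 977903319) (nat_lit 15) (nat_lit 5) (nat_lit 18) (nat_lit 5) (nat_lit 16) (nat_lit 4) (nat_lit 283) (nat_lit 231) (nat_lit 206)) (XT.nd (nat_lit 78) (nat_lit 0) (nat_lit 0) (XT.lf (nat_lit 0) (nat_lit 3536972797) (nat_lit 228) (nat_lit 7897660027) (nat_lit 76) (nat_lit 4196091364) (nat_lit 15) (nat_lit 5) (nat_lit 18) (nat_lit 5) (nat_lit 16) (nat_lit 4) (nat_lit 284) (nat_lit 231) (nat_lit 205)) (XT.lf (nat_lit 0) (nat_lit 6428882904)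 (nat_lit 228) (nat_lit 2251500706) (nat_lit 76) (nat_lit 7538062263) (nat_lit 15) (nat_lit 5) (nat_lit 18) (nat_lit 5) (nat_lit 16) (nat_lit 4) (nat_lit 285) (nat_lit 231) (nat_lit 204))))))) (XT.nd (nat_lit 702) (nat_lit 228) (nat_lit 0) (XT.nd (nat_lit 312) (nat_lit 76) (nat_lit 0) (XT.nd (nat_lit 156) (nat_lit 228) (nat_lit 0) (XT.nd (nat_lit 78) (nat_lit 0) (nat_lit 0) (XT.lf (nat_lit 0) (nat_lit 3693492257) (nat_lit 76) (nat_lit 5766516783) (nat_lit 152) (nat_lit 7375946597) (nat_lit 14) (nat_lit 5) (nat_lit 15) (nat_lit 5) (nat_lit 16) (nat_lit 4) (nat_lit 286) (nat_lit 231) (nat_lit 203)) (XT.lf (nat_lit 0) (nat_lit 9913852896) (nat_lit 76) (nat_lit 2705363711) (nat_lit 152) (nat_lit 4866424714) (nat_lit 14) (nat_lit 5) (nat_lit 15) (nat_lit 5) (nat_lit 16) (nat_lit 4) (nat_lit 287) (nat_lit 231) (nat_lit 202))) (XT.nd (nat_lit 78) (nat_lit 228) (nat_lit 0) (XT.lf (nat_lit 0)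 (nat_lit 15885085892) (nat_lit 152) (nat_lit 1828291603) (nat_lit 0) (nat_lit 457119380) (nat_lit 14) (nat_lit 5) (nat_lit 16) (nat_lit 4) (nat_lit 14) (nat_lit 4) (nat_lit 288) (nat_lit 231) (nat_lit 201)) (XT.lf (nat_lit 0) (nat_lit 465318881) (nat_lit 228) (nat_lit 14695218076) (nat_lit 76) (nat_lit 3726123336) (nat_lit 11) (nat_lit 5) (nat_lit 14) (nat_lit 5) (nat_lit 12) (nat_lit 4) (nat_lit 289) (nat_lit 231) (nat_lit 200)))) (XT.nd (nat_lit 156) (nat_lit 76) (nat_lit 0) (XT.nd (nat_lit 78) (nat_lit 0) (nat_lit 0) (XT.lf (nat_lit 0) (nat_lit 3252075144) (nat_lit 228) (nat_lit 9192991807) (nat_lit 76) (nat_lit 7193031135) (nat_lit 11) (nat_lit 5) (nat_lit 14) (nat_lit 5) (nat_lit 12) (nat_lit 4) (nat_lit 290) (nat_lit 231) (nat_lit 199)) (XT.lf (nat_lit 0) (nat_lit 6124668368) (nat_lit 228) (nat_lit 3504770050) (nat_lit 76) (nat_lit 10800443655) (nat_lit 11) (nat_lit 5) (nat_lit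 14) (nat_lit 5) (nat_lit 12) (nat_lit 4) (nat_lit 291) (nat_lit 231) (nat_lit 198))) (XT.nd (nat_lit 78) (nat_lit 0) (nat_lit 0) (XT.lf (nat_lit 0) (nat_lit 2461783010) (nat_lit 76) (nat_lit 6666590382) (nat_lit 152) (nat_lit 12133602296) (nat_lit 10) (nat_lit 5) (nat_lit 11) (nat_lit 5) (nat_lit 12) (nat_lit 4) (nat_lit 292) (nat_lit 231) (nat_lit 197)) (XT.nd (nat_lit 78) (nat_lit 0) (nat_lit 0) (XT.lf (nat_lit 0) (nat_lit 8764838117) (nat_lit 76) (nat_lit 3526949957) (nat_lit 152) (nat_lit 9843499724) (nat_lit 10) (nat_lit 5) (nat_lit 11) (nat_lit 5) (nat_lit 12) (nat_lit 4) (nat_lit 293) (nat_lit 231) (nat_lit 196)) (XT.lf (nat_lit 0) (nat_lit 15303519019) (nat_lit 76) (nat_lit 262396784) (nat_lit 152) (nat_lit 7488808341) (nat_lit 10) (nat_lit 5) (nat_lit 11) (nat_lit 5) (nat_lit 12) (nat_lit 4) (nat_lit 294) (nat_lit 231) (nat_lit 195)))))) (XT.nd (nat_lit 312) (nat_lit 76) (nat_lit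 0) (XT.nd (nat_lit 156) (nat_lit 76) (nat_lit 0) (XT.nd (nat_lit 78) (nat_lit 76) (nat_lit 0) (XT.lf (nat_lit 0) (nat_lit 19007495789) (nat_lit 152) (nat_lit 1978023525) (nat_lit 0) (nat_lit 3034507363) (nat_lit 10) (nat_lit 5) (nat_lit 12) (nat_lit 4) (nat_lit 10) (nat_lit 4) (nat_lit 295) (nat_lit 231) (nat_lit 194)) (XT.lf (nat_lit 0) (nat_lit 4138049797) (nat_lit 76) (nat_lit 18508513457) (nat_lit 76) (nat_lit 2385838437) (nat_lit 9) (nat_lit 4) (nat_lit 10) (nat_lit 5) (nat_lit 10) (nat_lit 4) (nat_lit 296) (nat_lit 231) (nat_lit 193))) (XT.nd (nat_lit 78) (nat_lit 0) (nat_lit 0) (XT.lf (nat_lit 0) (nat_lit 350991191) (nat_lit 152) (nat_lit 15545701738) (nat_lit 76) (nat_lit 10198946777) (nat_lit 8) (nat_lit 5) (nat_lit 10) (nat_lit 5) (nat_lit 9) (nat_lit 4) (nat_lit 297) (nat_lit 231) (nat_lit 192)) (XT.lf (nat_lit 0) (nat_lit 3103212930) (nat_lit 152) (nat_lit 10039417325) (nat_lit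 76) (nat_lit 14069584424) (nat_lit 8) (nat_lit 5) (nat_lit 10) (nat_lit 5) (nat_lit 9) (nat_lit 4) (nat_lit 298) (nat_lit 231) (nat_lit 191)))) (XT.nd (nat_lit 156) (nat_lit 0) (nat_lit 0) (XT.nd (nat_lit 78) (nat_lit 76) (nat_lit 0) (XT.lf (nat_lit 0) (nat_lit 5953741420) (nat_lit 152) (nat_lit 4325138830) (nat_lit 76) (nat_lit 18107767354) (nat_lit 8) (nat_lit 5) (nat_lit 10) (nat_lit 5) (nat_lit 9) (nat_lit 4) (nat_lit 299) (nat_lit 231) (nat_lit 190)) (XT.lf (nat_lit 0) (nat_lit 1663997483) (nat_lit 76) (nat_lit 7271345811) (nat_lit 152) (nat_lit 20685092471) (nat_lit 7) (nat_lit 5) (nat_lit 8) (nat_lit 5) (nat_lit 9) (nat_lit 4) (nat_lit 300) (nat_lit 231) (nat_lit 189))) (XT.nd (nat_lit 78) (nat_lit 0) (nat_lit 0) (XT.lf (nat_lit 0) (nat_lit 8039669352) (nat_lit 76) (nat_lit 4062969177) (nat_lit 152) (nat_lit 18811502179) (nat_lit 7) (nat_lit 5) (nat_lit 8) (nat_lit 5) (nat_lit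 9) (nat_lit 4) (nat_lit 301) (nat_lit 231) (nat_lit 188)) (XT.nd (nat_lit 78) (nat_lit 0) (nat_lit 0) (XT.lf (nat_lit 0) (nat_lit 14674048326) (nat_lit 76) (nat_lit 719359675) (nat_lit 152) (nat_lit 16880922698) (nat_lit 7) (nat_lit 5) (nat_lit 8) (nat_lit 5) (nat_lit 9) (nat_lit 4) (nat_lit 302) (nat_lit 231) (nat_lit 187)) (XT.lf (nat_lit 0) (nat_lit 18858694423) (nat_lit 152) (nat_lit 12164521292) (nat_lit 0) (nat_lit 2678868191) (nat_lit 7) (nat_lit 5) (nat_lit 9) (nat_lit 4) (nat_lit 7) (nat_lit 4) (nat_lit 303) (nat_lit 231) (nat_lit 186))))))))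
noncomputable def xc82 : XT := (XT.nd (nat_lit 1326) (nat_lit 76) (nat_lit 0) (XT.nd (nat_lit 624) (nat_lit 76) (nat_lit 0) (XT.nd (nat_lit 312) (nat_lit 76) (nat_lit 0) (XT.nd (nat_lit 156) (nat_lit 76) (nat_lit 0) (XT.nd (nat_lit 78) (nat_lit 0) (nat_lit 0) (XT.lf (nat_lit 0) (nat_lit 22477034546) (nat_lit 152) (nat_lit 6524531890) (nat_lit 0) (nat_lit 6200719001) (nat_lit 7) (nat_lit 5) (nat_lit 9) (nat_lit 4) (nat_lit 7) (nat_lit 4) (nat_lit 304) (nat_lit 231) (nat_lit 185)) (XT.lf (nat_lit 0) (nat_lit 26245812246) (nat_lit 152) (nat_lit 655654403) (nat_lit 0) (nat_lit 9877602117) (nat_lit 7) (nat_lit 5) (nat_lit 9) (nat_lit 4) (nat_lit 7) (nat_lit 4) (nat_lit 305) (nat_lit 231) (nat_lit 184))) (XT.nd (nat_lit 78) (nat_lit 0) (nat_lit 0) (XT.lf (nat_lit 0) (nat_lit 5636487489) (nat_lit 76) (nat_lit 24625514679) (nat_lit 76) (nat_lit 8169785899) (nat_lit 6) (nat_lit 4) (nat_lit 7)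 (nat_lit 5) (nat_lit 7) (nat_lit 4) (nat_lit 306) (nat_lit 231) (nat_lit 183)) (XT.lf (nat_lit 0) (nat_lit 12216232889) (nat_lit 76) (nat_lit 22245449787) (nat_lit 76) (nat_lit 5706369910) (nat_lit 6) (nat_lit 4) (nat_lit 7) (nat_lit 5) (nat_lit 7) (nat_lit 4) (nat_lit 307) (nat_lit 231) (nat_lit 182)))) (XT.nd (nat_lit 156) (nat_lit 76) (nat_lit 0) (XT.nd (nat_lit 78) (nat_lit 0) (nat_lit 0) (XT.lf (nat_lit 0) (nat_lit 19077568961) (nat_lit 76) (nat_lit 19766708976) (nat_lit 76) (nat_lit 3148247103) (nat_lit 6) (nat_lit 4) (nat_lit 7) (nat_lit 5) (nat_lit 7) (nat_lit 4) (nat_lit 308) (nat_lit 231) (nat_lit 181)) (XT.lf (nat_lit 0) (nat_lit 26236832221) (nat_lit 76) (nat_lit 17183390482) (nat_lit 76) (nat_lit 489326708) (nat_lit 6) (nat_lit 4) (nat_lit 7) (nat_lit 5) (nat_lit 7) (nat_lit 4) (nat_lit 309) (nat_lit 231) (nat_lit 180))) (XT.nd (nat_lit 78) (nat_lit 0) (nat_lit 0) (XT.lf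 (nat_lit 0) (nat_lit 2203852713) (nat_lit 152) (nat_lit 12248167523) (nat_lit 76) (nat_lit 31469892508) (nat_lit 5) (nat_lit 5) (nat_lit 7) (nat_lit 5) (nat_lit 6) (nat_lit 4) (nat_lit 310) (nat_lit 231) (nat_lit 179)) (XT.lf (nat_lit 0) (nat_lit 4991445240) (nat_lit 152) (nat_lit 6602175994) (nat_lit 76) (nat_lit 36442095917) (nat_lit 5) (nat_lit 5) (nat_lit 7) (nat_lit 5) (nat_lit 6) (nat_lit 4) (nat_lit 311) (nat_lit 231) (nat_lit 178))))) (XT.nd (nat_lit 312) (nat_lit 0) (nat_lit 0) (XT.nd (nat_lit 156) (nat_lit 0) (nat_lit 0) (XT.nd (nat_lit 78) (nat_lit 76) (nat_lit 0) (XT.lf (nat_lit 0) (nat_lit 7895749510) (nat_lit 152) (nat_lit 713660007) (nat_lit 76) (nat_lit 41646967974) (nat_lit 5) (nat_lit 5) (nat_lit 7) (nat_lit 5) (nat_lit 6) (nat_lit 4) (nat_lit 312) (nat_lit 231) (nat_lit 177)) (XT.lf (nat_lit 0) (nat_lit 5610987351) (nat_lit 76) (nat_lit 5400296417) (nat_lit 152) (nat_lit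 41573517120) (nat_lit 4) (nat_lit 5) (nat_lit 5) (nat_lit 5) (nat_lit 6) (nat_lit 4) (nat_lit 313) (nat_lit 231) (nat_lit 176))) (XT.nd (nat_lit 78) (nat_lit 0) (nat_lit 0) (XT.lf (nat_lit 0) (nat_lit 12239373662) (nat_lit 76) (nat_lit 2034164925) (nat_lit 152) (nat_lit 40756588987) (nat_lit 4) (nat_lit 5) (nat_lit 5) (nat_lit 5) (nat_lit 6) (nat_lit 4) (nat_lit 314) (nat_lit 231) (nat_lit 175)) (XT.lf (nat_lit 0) (nat_lit 17701954254) (nat_lit 152) (nat_lit 38458254974) (nat_lit 0) (nat_lit 1437386877) (nat_lit 4) (nat_lit 5) (nat_lit 6) (nat_lit 4) (nat_lit 4) (nat_lit 4) (nat_lit 315) (nat_lit 231) (nat_lit 174)))) (XT.nd (nat_lit 156) (nat_lit 0) (nat_lit 0) (XT.nd (nat_lit 78) (nat_lit 0) (nat_lit 0) (XT.lf (nat_lit 0) (nat_lit 21315732565) (nat_lit 152) (nat_lit 33977040149) (nat_lit 0) (nat_lit 4999994845) (nat_lit 4) (nat_lit 5) (nat_lit 6) (nat_lit 4) (nat_lit 4) (nat_lit 4)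 (nat_lit 316) (nat_lit 231) (nat_lit 173)) (XT.lf (nat_lit 0) (nat_lit 25091718737) (nat_lit 152) (nat_lit 29304680863) (nat_lit 0) (nat_lit 8727247358) (nat_lit 4) (nat_lit 5) (nat_lit 6) (nat_lit 4) (nat_lit 4) (nat_lit 4) (nat_lit 317) (nat_lit 231) (nat_lit 172))) (XT.nd (nat_lit 78) (nat_lit 0) (nat_lit 0) (XT.lf (nat_lit 0) (nat_lit 29038903215) (nat_lit 152) (nat_lit 24430052451) (nat_lit 0) (nat_lit 12628018826) (nat_lit 4) (nat_lit 5) (nat_lit 6) (nat_lit 4) (nat_lit 4) (nat_lit 4) (nat_lit 318) (nat_lit 231) (nat_lit 171)) (XT.nd (nat_lit 78) (nat_lit 0) (nat_lit 0) (XT.lf (nat_lit 0) (nat_lit 33166684057) (nat_lit 152) (nat_lit 19341548655) (nat_lit 0) (nat_lit 16711596802) (nat_lit 4) (nat_lit 5) (nat_lit 6) (nat_lit 4) (nat_lit 4) (nat_lit 4) (nat_lit 319) (nat_lit 231) (nat_lit 170)) (XT.lf (nat_lit 0) (nat_lit 37484889312) (nat_lit 152) (nat_lit 14027053991) (nat_lit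 0) (nat_lit 20987704090) (nat_lit 4) (nat_lit 5) (nat_lit 6) (nat_lit 4) (nat_lit 4) (nat_lit 4) (nat_lit 320) (nat_lit 231) (nat_lit 169))))))) (XT.nd (nat_lit 702) (nat_lit 0) (nat_lit 0) (XT.nd (nat_lit 312) (nat_lit 0) (nat_lit 0) (XT.nd (nat_lit 156) (nat_lit 76) (nat_lit 0) (XT.nd (nat_lit 78) (nat_lit 0) (nat_lit 0) (XT.lf (nat_lit 0) (nat_lit 42003800422) (nat_lit 152) (nat_lit 8473914898) (nat_lit 0) (nat_lit 25466521897) (nat_lit 4) (nat_lit 5) (nat_lit 6) (nat_lit 4) (nat_lit 4) (nat_lit 4) (nat_lit 321) (nat_lit 231) (nat_lit 168)) (XT.lf (nat_lit 0) (nat_lit 46734176698) (nat_lit 152) (nat_lit 2668909618) (nat_lit 0) (nat_lit 30158714076) (nat_lit 4) (nat_lit 5) (nat_lit 6) (nat_lit 4) (nat_lit 4) (nat_lit 4) (nat_lit 322) (nat_lit 231) (nat_lit 167))) (XT.nd (nat_lit 78) (nat_lit 0) (nat_lit 0) (XT.lf (nat_lit 0) (nat_lit 3514261608) (nat_lit 76) (nat_lit 48227886806)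 (nat_lit 76) (nat_lit 31616058376) (nat_lit 3) (nat_lit 4) (nat_lit 4) (nat_lit 5) (nat_lit 4) (nat_lit 4) (nat_lit 323) (nat_lit 231) (nat_lit 166)) (XT.lf (nat_lit 0) (nat_lit 10075083448) (nat_lit 76) (nat_lit 46957123097) (nat_lit 76) (nat_lit 30310660565) (nat_lit 3) (nat_lit 4) (nat_lit 4) (nat_lit 5) (nat_lit 4) (nat_lit 4) (nat_lit 324) (nat_lit 231) (nat_lit 165)))) (XT.nd (nat_lit 156) (nat_lit 0) (nat_lit 0) (XT.nd (nat_lit 78) (nat_lit 0) (nat_lit 0) (XT.lf (nat_lit 0) (nat_lit 16940930701) (nat_lit 76) (nat_lit 45632968839) (nat_lit 76) (nat_lit 28953521448) (nat_lit 3) (nat_lit 4) (nat_lit 4) (nat_lit 5) (nat_lit 4) (nat_lit 4) (nat_lit 325) (nat_lit 231) (nat_lit 164)) (XT.lf (nat_lit 0) (nat_lit 24128150621) (nat_lit 76) (nat_lit 44252271284) (nat_lit 76) (nat_lit 27541409741) (nat_lit 3) (nat_lit 4) (nat_lit 4) (nat_lit 5) (nat_lit 4) (nat_lit 4) (nat_lit 326) (nat_lit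 231) (nat_lit 163))) (XT.nd (nat_lit 78) (nat_lit 0) (nat_lit 0) (XT.lf (nat_lit 0) (nat_lit 31653855637) (nat_lit 76) (nat_lit 42811743056) (nat_lit 76) (nat_lit 26070963274) (nat_lit 3) (nat_lit 4) (nat_lit 4) (nat_lit 5) (nat_lit 4) (nat_lit 4) (nat_lit 327) (nat_lit 231) (nat_lit 162)) (XT.nd (nat_lit 78) (nat_lit 0) (nat_lit 0) (XT.lf (nat_lit 0) (nat_lit 39535964095) (nat_lit 76) (nat_lit 41307954327) (nat_lit 76) (nat_lit 24538680983) (nat_lit 3) (nat_lit 4) (nat_lit 4) (nat_lit 5) (nat_lit 4) (nat_lit 4) (nat_lit 328) (nat_lit 231) (nat_lit 161)) (XT.lf (nat_lit 0) (nat_lit 47793242918) (nat_lit 76) (nat_lit 39737324646) (nat_lit 76) (nat_lit 22940914576) (nat_lit 3) (nat_lit 4) (nat_lit 4) (nat_lit 5) (nat_lit 4) (nat_lit 4) (nat_lit 329) (nat_lit 231) (nat_lit 160)))))) (XT.nd (nat_lit 312) (nat_lit 0) (nat_lit 0) (XT.nd (nat_lit 156) (nat_lit 0) (nat_lit 0) (XT.nd (nat_lit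 78) (nat_lit 0) (nat_lit 0) (XT.lf (nat_lit 0) (nat_lit 56445352296) (nat_lit 76) (nat_lit 38096114420) (nat_lit 76) (nat_lit 21273859850) (nat_lit 3) (nat_lit 4) (nat_lit 4) (nat_lit 5) (nat_lit 4) (nat_lit 4) (nat_lit 330) (nat_lit 231) (nat_lit 159)) (XT.lf (nat_lit 0) (nat_lit 65512892487) (nat_lit 76) (nat_lit 36380416004) (nat_lit 76) (nat_lit 19533547625) (nat_lit 3) (nat_lit 4) (nat_lit 4) (nat_lit 5) (nat_lit 4) (nat_lit 4) (nat_lit 331) (nat_lit 231) (nat_lit 158))) (XT.nd (nat_lit 78) (nat_lit 0) (nat_lit 0) (XT.lf (nat_lit 0) (nat_lit 75017452875) (nat_lit 76) (nat_lit 34586144404) (nat_lit 76) (nat_lit 17715834301) (nat_lit 3) (nat_lit 4) (nat_lit 4) (nat_lit 5) (nat_lit 4) (nat_lit 4) (nat_lit 332) (nat_lit 231) (nat_lit 157)) (XT.lf (nat_lit 0) (nat_lit 84981663364) (nat_lit 76) (nat_lit 32709027543) (nat_lit 76) (nat_lit 15816391989) (nat_lit 3) (nat_lit 4) (nat_lit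 4) (nat_lit 5) (nat_lit 4) (nat_lit 4) (nat_lit 333) (nat_lit 231) (nat_lit 156)))) (XT.nd (nat_lit 156) (nat_lit 0) (nat_lit 0) (XT.nd (nat_lit 78) (nat_lit 0) (nat_lit 0) (XT.lf (nat_lit 0) (nat_lit 95429248264) (nat_lit 76) (nat_lit 30744596096) (nat_lit 76) (nat_lit 13830698207) (nat_lit 3) (nat_lit 4) (nat_lit 4) (nat_lit 5) (nat_lit 4) (nat_lit 4) (nat_lit 334) (nat_lit 231) (nat_lit 155)) (XT.lf (nat_lit 0) (nat_lit 106385082779) (nat_lit 76) (nat_lit 28688172844) (nat_lit 76) (nat_lit 11754025114) (nat_lit 3) (nat_lit 4) (nat_lit 4) (nat_lit 5) (nat_lit 4) (nat_lit 4) (nat_lit 335) (nat_lit 231) (nat_lit 154))) (XT.nd (nat_lit 78) (nat_lit 0) (nat_lit 0) (XT.lf (nat_lit 0) (nat_lit 117875252229) (nat_lit 76) (nat_lit 26534861543) (nat_lit 76) (nat_lit 9581428248) (nat_lit 3) (nat_lit 4) (nat_lit 4) (nat_lit 5) (nat_lit 4) (nat_lit 4) (nat_lit 336) (nat_lit 231) (nat_lit 153))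 (XT.nd (nat_lit 78) (nat_lit 0) (nat_lit 0) (XT.lf (nat_lit 0) (nat_lit 129927114159) (nat_lit 76) (nat_lit 24279535260) (nat_lit 76) (nat_lit 7307734762) (nat_lit 3) (nat_lit 4) (nat_lit 4) (nat_lit 5) (nat_lit 4) (nat_lit 4) (nat_lit 337) (nat_lit 231) (nat_lit 152)) (XT.lf (nat_lit 0) (nat_lit 142569363480) (nat_lit 76) (nat_lit 21916824172) (nat_lit 76) (nat_lit 4927531098) (nat_lit 3) (nat_lit 4) (nat_lit 4) (nat_lit 5) (nat_lit 4) (nat_lit 4) (nat_lit 338) (nat_lit 231) (nat_lit 151))))))))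
noncomputable def xc83 : XT := (XT.nd (nat_lit 1326) (nat_lit 0) (nat_lit 0) (XT.nd (nat_lit 624) (nat_lit 0) (nat_lit 0) (XT.nd (nat_lit 312) (nat_lit 76) (nat_lit 0) (XT.nd (nat_lit 156) (nat_lit 0) (nat_lit 0) (XT.nd (nat_lit 78) (nat_lit 76) (nat_lit 0) (XT.lf (nat_lit 0) (nat_lit 155832100784) (nat_lit 76) (nat_lit 19441102774) (nat_lit 76) (nat_lit 2435150106) (nat_lit 3) (nat_lit 4) (nat_lit 4) (nat_lit 5) (nat_lit 4) (nat_lit 4) (nat_lit 339) (nat_lit 231) (nat_lit 150)) (XT.lf (nat_lit 0) (nat_lit 169730402) (nat_lit 152) (nat_lit 16673871625) (nat_lit 76) (nat_lit 169574299149) (nat_lit 2) (nat_lit 5) (nat_lit 4) (nat_lit 5) (nat_lit 3) (nat_lit 4) (nat_lit 340) (nat_lit 231) (nat_lit 149))) (XT.nd (nat_lit 78) (nat_lit 0) (nat_lit 0) (XT.lf (nat_lit 0) (nat_lit 2817018685) (nat_lit 152) (nat_lit 11262041388) (nat_lit 76) (nat_lit 181482177405) (nat_lit 2) (nat_lit 5) (nat_lit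 4) (nat_lit 5) (nat_lit 3) (nat_lit 4) (nat_lit 341) (nat_lit 231) (nat_lit 148)) (XT.lf (nat_lit 0) (nat_lit 5590957823) (nat_lit 152) (nat_lit 5589857341) (nat_lit 76) (nat_lit 193981218231) (nat_lit 2) (nat_lit 5) (nat_lit 4) (nat_lit 5) (nat_lit 3) (nat_lit 4) (nat_lit 342) (nat_lit 231) (nat_lit 147)))) (XT.nd (nat_lit 156) (nat_lit 0) (nat_lit 0) (XT.nd (nat_lit 78) (nat_lit 0) (nat_lit 0) (XT.lf (nat_lit 0) (nat_lit 367962823) (nat_lit 76) (nat_lit 8135934538) (nat_lit 152) (nat_lit 206738963356) (nat_lit 1) (nat_lit 5) (nat_lit 2) (nat_lit 5) (nat_lit 3) (nat_lit 4) (nat_lit 343) (nat_lit 231) (nat_lit 146)) (XT.lf (nat_lit 0) (nat_lit 6808148289) (nat_lit 76) (nat_lit 4843670387) (nat_lit 152) (nat_lit 214171450450) (nat_lit 1) (nat_lit 5) (nat_lit 2) (nat_lit 5) (nat_lit 3) (nat_lit 4) (nat_lit 344) (nat_lit 231) (nat_lit 145))) (XT.nd (nat_lit 78) (nat_lit 0) (nat_lit 0)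 (XT.lf (nat_lit 0) (nat_lit 13561206903) (nat_lit 76) (nat_lit 1390850924) (nat_lit 152) (nat_lit 221980900190) (nat_lit 1) (nat_lit 5) (nat_lit 2) (nat_lit 5) (nat_lit 3) (nat_lit 4) (nat_lit 345) (nat_lit 231) (nat_lit 144)) (XT.lf (nat_lit 0) (nat_lit 18447300707) (nat_lit 152) (nat_lit 227989989835) (nat_lit 0) (nat_lit 2159347081) (nat_lit 1) (nat_lit 5) (nat_lit 3) (nat_lit 4) (nat_lit 1) (nat_lit 4) (nat_lit 346) (nat_lit 231) (nat_lit 143))))) (XT.nd (nat_lit 312) (nat_lit 0) (nat_lit 0) (XT.nd (nat_lit 156) (nat_lit 0) (nat_lit 0) (XT.nd (nat_lit 78) (nat_lit 0) (nat_lit 0) (XT.lf (nat_lit 0) (nat_lit 22135442998) (nat_lit 152) (nat_lit 232870406482) (nat_lit 0) (nat_lit 5836750447) (nat_lit 1) (nat_lit 5) (nat_lit 3) (nat_lit 4) (nat_lit 1) (nat_lit 4) (nat_lit 347) (nat_lit 231) (nat_lit 142)) (XT.lf (nat_lit 0) (nat_lit 26003550909) (nat_lit 152) (nat_lit 238002906013) (nat_lit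 0) (nat_lit 9694630812) (nat_lit 1) (nat_lit 5) (nat_lit 3) (nat_lit 4) (nat_lit 1) (nat_lit 4) (nat_lit 348) (nat_lit 231) (nat_lit 141))) (XT.nd (nat_lit 78) (nat_lit 0) (nat_lit 0) (XT.lf (nat_lit 0) (nat_lit 30060834221) (nat_lit 152) (nat_lit 243399708666) (nat_lit 0) (nat_lit 13742173604) (nat_lit 1) (nat_lit 5) (nat_lit 3) (nat_lit 4) (nat_lit 1) (nat_lit 4) (nat_lit 349) (nat_lit 231) (nat_lit 140)) (XT.lf (nat_lit 0) (nat_lit 34316953134) (nat_lit 152) (nat_lit 249073663971) (nat_lit 0) (nat_lit 17989015831) (nat_lit 1) (nat_lit 5) (nat_lit 3) (nat_lit 4) (nat_lit 1) (nat_lit 4) (nat_lit 350) (nat_lit 231) (nat_lit 139)))) (XT.nd (nat_lit 156) (nat_lit 0) (nat_lit 0) (XT.nd (nat_lit 78) (nat_lit 0) (nat_lit 0) (XT.lf (nat_lit 0) (nat_lit 38782041264) (nat_lit 152) (nat_lit 255038281345) (nat_lit 0) (nat_lit 22445269022) (nat_lit 1) (nat_lit 5) (nat_lit 3) (nat_lit 4) (nat_lit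 1) (nat_lit 4) (nat_lit 351) (nat_lit 231) (nat_lit 138)) (XT.lf (nat_lit 0) (nat_lit 43466729772) (nat_lit 152) (nat_lit 261307762258) (nat_lit 0) (nat_lit 27121543302) (nat_lit 1) (nat_lit 5) (nat_lit 3) (nat_lit 4) (nat_lit 1) (nat_lit 4) (nat_lit 352) (nat_lit 231) (nat_lit 137))) (XT.nd (nat_lit 78) (nat_lit 0) (nat_lit 0) (XT.lf (nat_lit 0) (nat_lit 48382172679) (nat_lit 152) (nat_lit 267897034045) (nat_lit 0) (nat_lit 32028972659) (nat_lit 1) (nat_lit 5) (nat_lit 3) (nat_lit 4) (nat_lit 1) (nat_lit 4) (nat_lit 353) (nat_lit 231) (nat_lit 136)) (XT.nd (nat_lit 78) (nat_lit 0) (nat_lit 0) (XT.lf (nat_lit 0) (nat_lit 53540073421) (nat_lit 152) (nat_lit 274821785450) (nat_lit 0) (nat_lit 37179241448) (nat_lit 1) (nat_lit 5) (nat_lit 3) (nat_lit 4) (nat_lit 1) (nat_lit 4) (nat_lit 354) (nat_lit 231) (nat_lit 135)) (XT.lf (nat_lit 0) (nat_lit 58952712713) (nat_lit 152) (nat_lit 282098503974)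 (nat_lit 0) (nat_lit 42584612215) (nat_lit 1) (nat_lit 5) (nat_lit 3) (nat_lit 4) (nat_lit 1) (nat_lit 4) (nat_lit 355) (nat_lit 231) (nat_lit 134))))))) (XT.nd (nat_lit 29874) (nat_lit 0) (nat_lit 3116) (XT.nd (nat_lit 312) (nat_lit 0) (nat_lit 0) (XT.nd (nat_lit 156) (nat_lit 0) (nat_lit 0) (XT.nd (nat_lit 78) (nat_lit 0) (nat_lit 0) (XT.lf (nat_lit 0) (nat_lit 64632977793) (nat_lit 152) (nat_lit 289744515139) (nat_lit 0) (nat_lit 48257954888) (nat_lit 1) (nat_lit 5) (nat_lit 3) (nat_lit 4) (nat_lit 1) (nat_lit 4) (nat_lit 356) (nat_lit 231) (nat_lit 133)) (XT.lf (nat_lit 0) (nat_lit 70594393100) (nat_lit 152) (nat_lit 297778023734) (nat_lit 0) (nat_lit 54212777427) (nat_lit 1) (nat_lit 5) (nat_lit 3) (nat_lit 4) (nat_lit 1) (nat_lit 4) (nat_lit 357) (nat_lit 231) (nat_lit 132))) (XT.nd (nat_lit 78) (nat_lit 0) (nat_lit 0) (XT.lf (nat_lit 0) (nat_lit 76851152480) (nat_lit 152) (nat_lit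 306218157158) (nat_lit 0) (nat_lit 60463257982) (nat_lit 1) (nat_lit 5) (nat_lit 3) (nat_lit 4) (nat_lit 1) (nat_lit 4) (nat_lit 358) (nat_lit 231) (nat_lit 131)) (XT.lf (nat_lit 0) (nat_lit 83418152981) (nat_lit 152) (nat_lit 315085010969) (nat_lit 0) (nat_lit 67024278647) (nat_lit 1) (nat_lit 5) (nat_lit 3) (nat_lit 4) (nat_lit 1) (nat_lit 4) (nat_lit 359) (nat_lit 231) (nat_lit 130)))) (XT.nd (nat_lit 156) (nat_lit 0) (nat_lit 0) (XT.nd (nat_lit 78) (nat_lit 0) (nat_lit 0) (XT.lf (nat_lit 0) (nat_lit 90311030316) (nat_lit 152) (nat_lit 324399696723) (nat_lit 0) (nat_lit 73911460903) (nat_lit 1) (nat_lit 5) (nat_lit 3) (nat_lit 4) (nat_lit 1) (nat_lit 4) (nat_lit 360) (nat_lit 231) (nat_lit 129)) (XT.lf (nat_lit 0) (nat_lit 97546196100) (nat_lit 152) (nat_lit 334184392243) (nat_lit 0) (nat_lit 81141202800) (nat_lit 1) (nat_lit 5) (nat_lit 3) (nat_lit 4) (nat_lit 1) (nat_lit 4) (nat_lit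 361) (nat_lit 231) (nat_lit 128))) (XT.nd (nat_lit 29250) (nat_lit 0) (nat_lit 4788) (XT.lf (nat_lit 0) (nat_lit 105140876917) (nat_lit 152) (nat_lit 344462394423) (nat_lit 0) (nat_lit 88730718011) (nat_lit 1) (nat_lit 5) (nat_lit 3) (nat_lit 4) (nat_lit 1) (nat_lit 4) (nat_lit 362) (nat_lit 231) (nat_lit 127)) (XT.nd (nat_lit 78) (nat_lit 684) (nat_lit 0) (XT.lf (nat_lit 0) (nat_lit 1135207626) (nat_lit 684) (nat_lit 1374297370) (nat_lit 0) (nat_lit 1135207626) (nat_lit 73) (nat_lit 5) (nat_lit 82) (nat_lit 4) (nat_lit 73) (nat_lit 4) (nat_lit 256) (nat_lit 232) (nat_lit 232)) (XT.lf (nat_lit 0) (nat_lit 1774534456) (nat_lit 684) (nat_lit 3556817397) (nat_lit 684) (nat_lit 2074026327) (nat_lit 64) (nat_lit 4) (nat_lit 73) (nat_lit 5) (nat_lit 73) (nat_lit 4) (nat_lit 257) (nat_lit 232) (nat_lit 231)))))) (XT.nd (nat_lit 312) (nat_lit 912) (nat_lit 0) (XT.nd (nat_lit 156) (nat_lit 380)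 (nat_lit 0) (XT.nd (nat_lit 78) (nat_lit 304) (nat_lit 0) (XT.lf (nat_lit 0) (nat_lit 886562097) (nat_lit 760) (nat_lit 1077520741) (nat_lit 76) (nat_lit 5567902655) (nat_lit 63) (nat_lit 5) (nat_lit 73) (nat_lit 5) (nat_lit 64) (nat_lit 4) (nat_lit 258) (nat_lit 232) (nat_lit 230)) (XT.lf (nat_lit 0) (nat_lit 3637997670) (nat_lit 304) (nat_lit 204883267) (nat_lit 380) (nat_lit 3825137650) (nat_lit 59) (nat_lit 5) (nat_lit 63) (nat_lit 5) (nat_lit 64) (nat_lit 4) (nat_lit 259) (nat_lit 232) (nat_lit 229))) (XT.nd (nat_lit 78) (nat_lit 76) (nat_lit 0) (XT.lf (nat_lit 0) (nat_lit 659173226) (nat_lit 304) (nat_lit 6207126740) (nat_lit 304) (nat_lit 949222997) (nat_lit 55) (nat_lit 4) (nat_lit 59) (nat_lit 5) (nat_lit 59) (nat_lit 4) (nat_lit 260) (nat_lit 232) (nat_lit 228)) (XT.lf (nat_lit 0) (nat_lit 1943109478) (nat_lit 380) (nat_lit 2436334914) (nat_lit 76) (nat_lit 3592972241) (nat_lit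 54) (nat_lit 5) (nat_lit 59) (nat_lit 5) (nat_lit 55) (nat_lit 4) (nat_lit 261) (nat_lit 232) (nat_lit 227)))) (XT.nd (nat_lit 156) (nat_lit 608) (nat_lit 0) (XT.nd (nat_lit 78) (nat_lit 0) (nat_lit 0) (XT.lf (nat_lit 0) (nat_lit 2434140195) (nat_lit 304) (nat_lit 2424557886) (nat_lit 380) (nat_lit 3282699408) (nat_lit 50) (nat_lit 5) (nat_lit 54) (nat_lit 5) (nat_lit 55) (nat_lit 4) (nat_lit 262) (nat_lit 232) (nat_lit 226)) (XT.lf (nat_lit 0) (nat_lit 7487221272) (nat_lit 304) (nat_lit 350439251) (nat_lit 380) (nat_lit 485808605) (nat_lit 50) (nat_lit 5) (nat_lit 54) (nat_lit 5) (nat_lit 55) (nat_lit 4) (nat_lit 263) (nat_lit 232) (nat_lit 225))) (XT.nd (nat_lit 78) (nat_lit 228) (nat_lit 0) (XT.lf (nat_lit 0) (nat_lit 2348258841) (nat_lit 380) (nat_lit 4313301911) (nat_lit 76) (nat_lit 1852854434) (nat_lit 45) (nat_lit 5) (nat_lit 50) (nat_lit 5) (nat_lit 46) (nat_lit 4) (nat_lit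 264) (nat_lit 232) (nat_lit 224)) (XT.nd (nat_lit 78) (nat_lit 0) (nat_lit 0) (XT.lf (nat_lit 0) (nat_lit 665925866) (nat_lit 228) (nat_lit 4555275837) (nat_lit 304) (nat_lit 3498084178) (nat_lit 42) (nat_lit 5) (nat_lit 45) (nat_lit 5) (nat_lit 46) (nat_lit 4) (nat_lit 265) (nat_lit 232) (nat_lit 223)) (XT.lf (nat_lit 0) (nat_lit 5899606559) (nat_lit 228) (nat_lit 2297516082) (nat_lit 304) (nat_lit 739739931) (nat_lit 42) (nat_lit 5) (nat_lit 45) (nat_lit 5) (nat_lit 46) (nat_lit 4) (nat_lit 266) (nat_lit 232) (nat_lit 222))))))))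
noncomputable def xc84 : XT := (XT.nd (nat_lit 1326) (nat_lit 760) (nat_lit 0) (XT.nd (nat_lit 624) (nat_lit 836) (nat_lit 0) (XT.nd (nat_lit 312) (nat_lit 456) (nat_lit 0) (XT.nd (nat_lit 156) (nat_lit 304) (nat_lit 0) (XT.nd (nat_lit 78) (nat_lit 0) (nat_lit 0) (XT.lf (nat_lit 0) (nat_lit 2011918254) (nat_lit 304) (nat_lit 7047156536) (nat_lit 76) (nat_lit 108728018) (nat_lit 38) (nat_lit 5) (nat_lit 42) (nat_lit 5) (nat_lit 39) (nat_lit 4) (nat_lit 267) (nat_lit 232) (nat_lit 221)) (XT.lf (nat_lit 0) (nat_lit 4858363504) (nat_lit 304) (nat_lit 1960854026) (nat_lit 76) (nat_lit 2591733564) (nat_lit 38) (nat_lit 5) (nat_lit 42) (nat_lit 5) (nat_lit 39) (nat_lit 4) (nat_lit 268) (nat_lit 232) (nat_lit 220))) (XT.nd (nat_lit 78) (nat_lit 76) (nat_lit 0) (XT.lf (nat_lit 0) (nat_lit 3349450893) (nat_lit 228) (nat_lit 4447231038) (nat_lit 304) (nat_lit 1872450260) (nat_lit 35) (nat_lit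 5) (nat_lit 38) (nat_lit 5) (nat_lit 39) (nat_lit 4) (nat_lit 269) (nat_lit 232) (nat_lit 219)) (XT.lf (nat_lit 0) (nat_lit 843378894) (nat_lit 304) (nat_lit 1099449708) (nat_lit 76) (nat_lit 8000387499) (nat_lit 34) (nat_lit 5) (nat_lit 38) (nat_lit 5) (nat_lit 35) (nat_lit 5) (nat_lit 270) (nat_lit 232) (nat_lit 218)))) (XT.nd (nat_lit 156) (nat_lit 228) (nat_lit 0) (XT.nd (nat_lit 78) (nat_lit 0) (nat_lit 0) (XT.lf (nat_lit 0) (nat_lit 3614833611) (nat_lit 304) (nat_lit 5884798310) (nat_lit 76) (nat_lit 731004342) (nat_lit 31) (nat_lit 5) (nat_lit 35) (nat_lit 5) (nat_lit 32) (nat_lit 4) (nat_lit 271) (nat_lit 232) (nat_lit 217)) (XT.lf (nat_lit 0) (nat_lit 6480593051) (nat_lit 304) (nat_lit 596782235) (nat_lit 76) (nat_lit 3457555917) (nat_lit 31) (nat_lit 5) (nat_lit 35) (nat_lit 5) (nat_lit 32) (nat_lit 4) (nat_lit 272) (nat_lit 232) (nat_lit 216))) (XT.nd (nat_lit 78) (nat_lit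 76) (nat_lit 0) (XT.lf (nat_lit 0) (nat_lit 4986971437) (nat_lit 152) (nat_lit 4490012849) (nat_lit 228) (nat_lit 1378365954) (nat_lit 29) (nat_lit 5) (nat_lit 31) (nat_lit 5) (nat_lit 32) (nat_lit 4) (nat_lit 273) (nat_lit 232) (nat_lit 215)) (XT.lf (nat_lit 0) (nat_lit 1305986050) (nat_lit 228) (nat_lit 472598121) (nat_lit 76) (nat_lit 9416319724) (nat_lit 28) (nat_lit 5) (nat_lit 31) (nat_lit 5) (nat_lit 29) (nat_lit 5) (nat_lit 274) (nat_lit 232) (nat_lit 214))))) (XT.nd (nat_lit 312) (nat_lit 380) (nat_lit 0) (XT.nd (nat_lit 156) (nat_lit 228) (nat_lit 0) (XT.nd (nat_lit 78) (nat_lit 0) (nat_lit 0) (XT.lf (nat_lit 0) (nat_lit 4091838738) (nat_lit 304) (nat_lit 6354563746) (nat_lit 76) (nat_lit 1103461567) (nat_lit 25) (nat_lit 5) (nat_lit 29) (nat_lit 5) (nat_lit 26) (nat_lit 4) (nat_lit 275) (nat_lit 232) (nat_lit 213)) (XT.lf (nat_lit 0) (nat_lit 6970269940) (nat_lit 304) (nat_lit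 913545711) (nat_lit 76) (nat_lit 4041319782) (nat_lit 25) (nat_lit 5) (nat_lit 29) (nat_lit 5) (nat_lit 26) (nat_lit 4) (nat_lit 276) (nat_lit 232) (nat_lit 212))) (XT.nd (nat_lit 78) (nat_lit 76) (nat_lit 0) (XT.lf (nat_lit 0) (nat_lit 4835148115) (nat_lit 152) (nat_lit 5152958966) (nat_lit 228) (nat_lit 2331505763) (nat_lit 23) (nat_lit 5) (nat_lit 25) (nat_lit 5) (nat_lit 26) (nat_lit 4) (nat_lit 277) (nat_lit 232) (nat_lit 211)) (XT.lf (nat_lit 0) (nat_lit 345702721) (nat_lit 228) (nat_lit 1956939784) (nat_lit 76) (nat_lit 10434226920) (nat_lit 22) (nat_lit 5) (nat_lit 25) (nat_lit 5) (nat_lit 23) (nat_lit 5) (nat_lit 278) (nat_lit 232) (nat_lit 210)))) (XT.nd (nat_lit 156) (nat_lit 228) (nat_lit 0) (XT.nd (nat_lit 78) (nat_lit 0) (nat_lit 0) (XT.lf (nat_lit 0) (nat_lit 3074062868) (nat_lit 228) (nat_lit 9369271831) (nat_lit 76) (nat_lit 730147983) (nat_lit 20) (nat_lit 5) (nat_lit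 23) (nat_lit 5) (nat_lit 21) (nat_lit 4) (nat_lit 279) (nat_lit 232) (nat_lit 209)) (XT.lf (nat_lit 0) (nat_lit 5935802275) (nat_lit 228) (nat_lit 3862944683) (nat_lit 76) (nat_lit 3833509845) (nat_lit 20) (nat_lit 5) (nat_lit 23) (nat_lit 5) (nat_lit 21) (nat_lit 4) (nat_lit 280) (nat_lit 232) (nat_lit 208))) (XT.nd (nat_lit 78) (nat_lit 76) (nat_lit 0) (XT.lf (nat_lit 0) (nat_lit 1868263323) (nat_lit 152) (nat_lit 7030608426) (nat_lit 228) (nat_lit 5217355499) (nat_lit 18) (nat_lit 5) (nat_lit 20) (nat_lit 5) (nat_lit 21) (nat_lit 4) (nat_lit 281) (nat_lit 232) (nat_lit 207)) (XT.nd (nat_lit 78) (nat_lit 76) (nat_lit 0) (XT.lf (nat_lit 0) (nat_lit 7911690784) (nat_lit 152) (nat_lit 4094583171) (nat_lit 228) (nat_lit 2618474985) (nat_lit 18) (nat_lit 5) (nat_lit 20) (nat_lit 5) (nat_lit 21) (nat_lit 4) (nat_lit 282) (nat_lit 232) (nat_lit 206)) (XT.lf (nat_lit 0) (nat_lit 39643203)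 (nat_lit 228) (nat_lit 1008786915) (nat_lit 76) (nat_lit 14113685835) (nat_lit 17) (nat_lit 5) (nat_lit 20) (nat_lit 5) (nat_lit 18) (nat_lit 5) (nat_lit 283) (nat_lit 232) (nat_lit 205))))))) (XT.nd (nat_lit 702) (nat_lit 304) (nat_lit 0) (XT.nd (nat_lit 312) (nat_lit 228) (nat_lit 0) (XT.nd (nat_lit 156) (nat_lit 76) (nat_lit 0) (XT.nd (nat_lit 78) (nat_lit 0) (nat_lit 0) (XT.lf (nat_lit 0) (nat_lit 2791690657) (nat_lit 228) (nat_lit 10761536742) (nat_lit 76) (nat_lit 2168666235) (nat_lit 15) (nat_lit 5) (nat_lit 18) (nat_lit 5) (nat_lit 16) (nat_lit 4) (nat_lit 284) (nat_lit 232) (nat_lit 204)) (XT.lf (nat_lit 0) (nat_lit 5652846987) (nat_lit 228) (nat_lit 5164981881) (nat_lit 76) (nat_lit 5493389028) (nat_lit 15) (nat_lit 5) (nat_lit 18) (nat_lit 5) (nat_lit 16) (nat_lit 4) (nat_lit 285) (nat_lit 232) (nat_lit 203))) (XT.nd (nat_lit 78) (nat_lit 0) (nat_lit 0) (XT.lf (nat_lit 0)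 (nat_lit 634873850) (nat_lit 76) (nat_lit 7972056359) (nat_lit 152) (nat_lit 8325711397) (nat_lit 14) (nat_lit 5) (nat_lit 15) (nat_lit 5) (nat_lit 16) (nat_lit 4) (nat_lit 286) (nat_lit 232) (nat_lit 202)) (XT.lf (nat_lit 0) (nat_lit 6808754120) (nat_lit 76) (nat_lit 4928763385) (nat_lit 152) (nat_lit 5846299653) (nat_lit 14) (nat_lit 5) (nat_lit 15) (nat_lit 5) (nat_lit 16) (nat_lit 4) (nat_lit 287) (nat_lit 232) (nat_lit 201)))) (XT.nd (nat_lit 156) (nat_lit 76) (nat_lit 0) (XT.nd (nat_lit 78) (nat_lit 152) (nat_lit 0) (XT.lf (nat_lit 0) (nat_lit 13200581017) (nat_lit 76) (nat_lit 1768175480) (nat_lit 152) (nat_lit 3301703784) (nat_lit 14) (nat_lit 5) (nat_lit 15) (nat_lit 5) (nat_lit 16) (nat_lit 4) (nat_lit 288) (nat_lit 232) (nat_lit 200)) (XT.lf (nat_lit 0) (nat_lit 834384603) (nat_lit 152) (nat_lit 17510671342) (nat_lit 152) (nat_lit 647314127) (nat_lit 12) (nat_lit 4) (nat_lit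 14) (nat_lit 5) (nat_lit 14) (nat_lit 4) (nat_lit 289) (nat_lit 232) (nat_lit 199))) (XT.nd (nat_lit 78) (nat_lit 0) (nat_lit 0) (XT.lf (nat_lit 0) (nat_lit 2134062253) (nat_lit 228) (nat_lit 12689123947) (nat_lit 76) (nat_lit 4922480303) (nat_lit 11) (nat_lit 5) (nat_lit 14) (nat_lit 5) (nat_lit 12) (nat_lit 4) (nat_lit 290) (nat_lit 232) (nat_lit 198)) (XT.nd (nat_lit 78) (nat_lit 0) (nat_lit 0) (XT.lf (nat_lit 0) (nat_lit 4981800261) (nat_lit 228) (nat_lit 7042303270) (nat_lit 76) (nat_lit 8514635834) (nat_lit 11) (nat_lit 5) (nat_lit 14) (nat_lit 5) (nat_lit 12) (nat_lit 4) (nat_lit 291) (nat_lit 232) (nat_lit 197)) (XT.lf (nat_lit 0) (nat_lit 7923398319) (nat_lit 228) (nat_lit 1193972241) (nat_lit 76) (nat_lit 12256611688) (nat_lit 11) (nat_lit 5) (nat_lit 14) (nat_lit 5) (nat_lit 12) (nat_lit 4) (nat_lit 292) (nat_lit 232) (nat_lit 196)))))) (XT.nd (nat_lit 312) (nat_lit 152)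 (nat_lit 0) (XT.nd (nat_lit 156) (nat_lit 76) (nat_lit 0) (XT.nd (nat_lit 78) (nat_lit 0) (nat_lit 0) (XT.lf (nat_lit 0) (nat_lit 5030811111) (nat_lit 76) (nat_lit 6013594181) (nat_lit 152) (nat_lit 11205051278) (nat_lit 10) (nat_lit 5) (nat_lit 11) (nat_lit 5) (nat_lit 12) (nat_lit 4) (nat_lit 293) (nat_lit 232) (nat_lit 195)) (XT.lf (nat_lit 0) (nat_lit 11532545690) (nat_lit 76) (nat_lit 2763939626) (nat_lit 152) (nat_lit 8873549823) (nat_lit 10) (nat_lit 5) (nat_lit 11) (nat_lit 5) (nat_lit 12) (nat_lit 4) (nat_lit 294) (nat_lit 232) (nat_lit 194))) (XT.nd (nat_lit 78) (nat_lit 76) (nat_lit 0) (XT.lf (nat_lit 0) (nat_lit 17677789861) (nat_lit 152) (nat_lit 5861305026) (nat_lit 0) (nat_lit 599294497) (nat_lit 10) (nat_lit 5) (nat_lit 12) (nat_lit 4) (nat_lit 10) (nat_lit 4) (nat_lit 295) (nat_lit 232) (nat_lit 193)) (XT.lf (nat_lit 0) (nat_lit 90897705) (nat_lit 76) (nat_lit 21142563331)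 (nat_lit 76) (nat_lit 3921509306) (nat_lit 9) (nat_lit 4) (nat_lit 10) (nat_lit 5) (nat_lit 10) (nat_lit 4) (nat_lit 296) (nat_lit 232) (nat_lit 192)))) (XT.nd (nat_lit 156) (nat_lit 76) (nat_lit 0) (XT.nd (nat_lit 78) (nat_lit 76) (nat_lit 0) (XT.lf (nat_lit 0) (nat_lit 6474947447) (nat_lit 76) (nat_lit 18550695630) (nat_lit 76) (nat_lit 1193871451) (nat_lit 9) (nat_lit 4) (nat_lit 10) (nat_lit 5) (nat_lit 10) (nat_lit 4) (nat_lit 297) (nat_lit 232) (nat_lit 191)) (XT.lf (nat_lit 0) (nat_lit 1577388782) (nat_lit 152) (nat_lit 14252482081) (nat_lit 76) (nat_lit 11508140477) (nat_lit 8) (nat_lit 5) (nat_lit 10) (nat_lit 5) (nat_lit 9) (nat_lit 4) (nat_lit 298) (nat_lit 232) (nat_lit 190))) (XT.nd (nat_lit 78) (nat_lit 76) (nat_lit 0) (XT.lf (nat_lit 0) (nat_lit 4409657417) (nat_lit 152) (nat_lit 8569478912) (nat_lit 76) (nat_lit 15534250656) (nat_lit 8) (nat_lit 5) (nat_lit 10) (nat_lit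 5) (nat_lit 9) (nat_lit 4) (nat_lit 299) (nat_lit 232) (nat_lit 189)) (XT.nd (nat_lit 78) (nat_lit 76) (nat_lit 0) (XT.lf (nat_lit 0) (nat_lit 7347889290) (nat_lit 152) (nat_lit 2663386934) (nat_lit 76) (nat_lit 19738095733) (nat_lit 8) (nat_lit 5) (nat_lit 10) (nat_lit 5) (nat_lit 9) (nat_lit 4) (nat_lit 300) (nat_lit 232) (nat_lit 188)) (XT.lf (nat_lit 0) (nat_lit 3594915730) (nat_lit 76) (nat_lit 6860291172) (nat_lit 152) (nat_lit 20590895842) (nat_lit 7) (nat_lit 5) (nat_lit 8) (nat_lit 5) (nat_lit 9) (nat_lit 4) (nat_lit 301) (nat_lit 232) (nat_lit 187))))))))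
noncomputable def xc85 : XT := (XT.nd (nat_lit 1326) (nat_lit 76) (nat_lit 0) (XT.nd (nat_lit 624) (nat_lit 152) (nat_lit 0) (XT.nd (nat_lit 312) (nat_lit 76) (nat_lit 0) (XT.nd (nat_lit 156) (nat_lit 0) (nat_lit 0) (XT.nd (nat_lit 78) (nat_lit 0) (nat_lit 0) (XT.lf (nat_lit 0) (nat_lit 10201384603) (nat_lit 76) (nat_lit 3528382465) (nat_lit 152) (nat_lit 18677361809) (nat_lit 7) (nat_lit 5) (nat_lit 8) (nat_lit 5) (nat_lit 9) (nat_lit 4) (nat_lit 302) (nat_lit 232) (nat_lit 186)) (XT.lf (nat_lit 0) (nat_lit 17083685774) (nat_lit 76) (nat_lit 52722733) (nat_lit 152) (nat_lit 16701430282) (nat_lit 7) (nat_lit 5) (nat_lit 8) (nat_lit 5) (nat_lit 9) (nat_lit 4) (nat_lit 303) (nat_lit 232) (nat_lit 185))) (XT.nd (nat_lit 78) (nat_lit 0) (nat_lit 0) (XT.lf (nat_lit 0) (nat_lit 20739057467) (nat_lit 152) (nat_lit 11139248457) (nat_lit 0) (nat_lit 3460542247) (nat_lit 7) (nat_lit 5) (nat_lit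 9) (nat_lit 4) (nat_lit 7) (nat_lit 4) (nat_lit 304) (nat_lit 232) (nat_lit 184)) (XT.lf (nat_lit 0) (nat_lit 24493675152) (nat_lit 152) (nat_lit 5295045247) (nat_lit 0) (nat_lit 7127641282) (nat_lit 7) (nat_lit 5) (nat_lit 9) (nat_lit 4) (nat_lit 7) (nat_lit 4) (nat_lit 305) (nat_lit 232) (nat_lit 183)))) (XT.nd (nat_lit 156) (nat_lit 0) (nat_lit 0) (XT.nd (nat_lit 78) (nat_lit 0) (nat_lit 0) (XT.lf (nat_lit 0) (nat_lit 819421124) (nat_lit 76) (nat_lit 27601750316) (nat_lit 76) (nat_lit 10152365349) (nat_lit 6) (nat_lit 4) (nat_lit 7) (nat_lit 5) (nat_lit 7) (nat_lit 4) (nat_lit 306) (nat_lit 232) (nat_lit 182)) (XT.lf (nat_lit 0) (nat_lit 7376046233) (nat_lit 76) (nat_lit 25231601192) (nat_lit 76) (nat_lit 7702834229) (nat_lit 6) (nat_lit 4) (nat_lit 7) (nat_lit 5) (nat_lit 7) (nat_lit 4) (nat_lit 307) (nat_lit 232) (nat_lit 181))) (XT.nd (nat_lit 78) (nat_lit 0) (nat_lit 0) (XT.lf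 (nat_lit 0) (nat_lit 14215362981) (nat_lit 76) (nat_lit 22762303971) (nat_lit 76) (nat_lit 5157935106) (nat_lit 6) (nat_lit 4) (nat_lit 7) (nat_lit 5) (nat_lit 7) (nat_lit 4) (nat_lit 308) (nat_lit 232) (nat_lit 180)) (XT.lf (nat_lit 0) (nat_lit 21353655455) (nat_lit 76) (nat_lit 20187979372) (nat_lit 76) (nat_lit 2511608696) (nat_lit 6) (nat_lit 4) (nat_lit 7) (nat_lit 5) (nat_lit 7) (nat_lit 4) (nat_lit 309) (nat_lit 232) (nat_lit 179))))) (XT.nd (nat_lit 312) (nat_lit 0) (nat_lit 0) (XT.nd (nat_lit 156) (nat_lit 76) (nat_lit 0) (XT.nd (nat_lit 78) (nat_lit 0) (nat_lit 0) (XT.lf (nat_lit 0) (nat_lit 234685997) (nat_lit 152) (nat_lit 17263837533) (nat_lit 76) (nat_lit 28569259071) (nat_lit 5) (nat_lit 5) (nat_lit 7) (nat_lit 5) (nat_lit 6) (nat_lit 4) (nat_lit 310) (nat_lit 232) (nat_lit 178)) (XT.lf (nat_lit 0) (nat_lit 3011221020) (nat_lit 152) (nat_lit 11637248501) (nat_lit 76)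 (nat_lit 33533686128) (nat_lit 5) (nat_lit 5) (nat_lit 7) (nat_lit 5) (nat_lit 6) (nat_lit 4) (nat_lit 311) (nat_lit 232) (nat_lit 177))) (XT.nd (nat_lit 78) (nat_lit 76) (nat_lit 0) (XT.lf (nat_lit 0) (nat_lit 5904994333) (nat_lit 152) (nat_lit 5767211082) (nat_lit 76) (nat_lit 38731152136) (nat_lit 5) (nat_lit 5) (nat_lit 7) (nat_lit 5) (nat_lit 6) (nat_lit 4) (nat_lit 312) (nat_lit 232) (nat_lit 176)) (XT.lf (nat_lit 0) (nat_lit 372162528) (nat_lit 76) (nat_lit 8556543843) (nat_lit 152) (nat_lit 43807679986) (nat_lit 4) (nat_lit 5) (nat_lit 5) (nat_lit 5) (nat_lit 6) (nat_lit 4) (nat_lit 313) (nat_lit 232) (nat_lit 175)))) (XT.nd (nat_lit 156) (nat_lit 0) (nat_lit 0) (XT.nd (nat_lit 78) (nat_lit 0) (nat_lit 0) (XT.lf (nat_lit 0) (nat_lit 6983234052) (nat_lit 76) (nat_lit 5197904917) (nat_lit 152) (nat_lit 43001078803) (nat_lit 4) (nat_lit 5) (nat_lit 5) (nat_lit 5) (nat_lit 6) (nat_lit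 4) (nat_lit 314) (nat_lit 232) (nat_lit 174)) (XT.lf (nat_lit 0) (nat_lit 13891054091) (nat_lit 76) (nat_lit 1685962390) (nat_lit 152) (nat_lit 42174309700) (nat_lit 4) (nat_lit 5) (nat_lit 5) (nat_lit 5) (nat_lit 6) (nat_lit 4) (nat_lit 315) (nat_lit 232) (nat_lit 173))) (XT.nd (nat_lit 78) (nat_lit 0) (nat_lit 0) (XT.lf (nat_lit 0) (nat_lit 19155457046) (nat_lit 152) (nat_lit 39368791389) (nat_lit 0) (nat_lit 1924028438) (nat_lit 4) (nat_lit 5) (nat_lit 6) (nat_lit 4) (nat_lit 4) (nat_lit 4) (nat_lit 316) (nat_lit 232) (nat_lit 172)) (XT.nd (nat_lit 78) (nat_lit 0) (nat_lit 0) (XT.lf (nat_lit 0) (nat_lit 22922857363) (nat_lit 152) (nat_lit 34711724220) (nat_lit 0) (nat_lit 5645015746) (nat_lit 4) (nat_lit 5) (nat_lit 6) (nat_lit 4) (nat_lit 4) (nat_lit 4) (nat_lit 317) (nat_lit 232) (nat_lit 171)) (XT.lf (nat_lit 0) (nat_lit 26861864837) (nat_lit 152) (nat_lit 29851659728) (nat_lit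 0) (nat_lit 9539820353) (nat_lit 4) (nat_lit 5) (nat_lit 6) (nat_lit 4) (nat_lit 4) (nat_lit 4) (nat_lit 318) (nat_lit 232) (nat_lit 170))))))) (XT.nd (nat_lit 702) (nat_lit 0) (nat_lit 0) (XT.nd (nat_lit 312) (nat_lit 76) (nat_lit 0) (XT.nd (nat_lit 156) (nat_lit 0) (nat_lit 0) (XT.nd (nat_lit 78) (nat_lit 0) (nat_lit 0) (XT.lf (nat_lit 0) (nat_lit 30981858055) (nat_lit 152) (nat_lit 24777026333) (nat_lit 0) (nat_lit 13617715603) (nat_lit 4) (nat_lit 5) (nat_lit 6) (nat_lit 4) (nat_lit 4) (nat_lit 4) (nat_lit 319) (nat_lit 232) (nat_lit 169)) (XT.lf (nat_lit 0) (nat_lit 35292646525) (nat_lit 152) (nat_lit 19475741573) (nat_lit 0) (nat_lit 17888410771) (nat_lit 4) (nat_lit 5) (nat_lit 6) (nat_lit 4) (nat_lit 4) (nat_lit 4) (nat_lit 320) (nat_lit 232) (nat_lit 168))) (XT.nd (nat_lit 78) (nat_lit 0) (nat_lit 0) (XT.lf (nat_lit 0) (nat_lit 39804494031) (nat_lit 152) (nat_lit 13935183343)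 (nat_lit 0) (nat_lit 22362074179) (nat_lit 4) (nat_lit 5) (nat_lit 6) (nat_lit 4) (nat_lit 4) (nat_lit 4) (nat_lit 321) (nat_lit 232) (nat_lit 167)) (XT.lf (nat_lit 0) (nat_lit 44528143065) (nat_lit 152) (nat_lit 8142159836) (nat_lit 0) (nat_lit 27049357406) (nat_lit 4) (nat_lit 5) (nat_lit 6) (nat_lit 4) (nat_lit 4) (nat_lit 4) (nat_lit 322) (nat_lit 232) (nat_lit 166)))) (XT.nd (nat_lit 156) (nat_lit 0) (nat_lit 0) (XT.nd (nat_lit 78) (nat_lit 76) (nat_lit 0) (XT.lf (nat_lit 0) (nat_lit 49474840411) (nat_lit 152) (nat_lit 2082878140) (nat_lit 0) (nat_lit 31961420650) (nat_lit 4) (nat_lit 5) (nat_lit 6) (nat_lit 4) (nat_lit 4) (nat_lit 4) (nat_lit 323) (nat_lit 232) (nat_lit 165)) (XT.lf (nat_lit 0) (nat_lit 4397847181) (nat_lit 76) (nat_lit 50327179458) (nat_lit 76) (nat_lit 32780774838) (nat_lit 3) (nat_lit 4) (nat_lit 4) (nat_lit 5) (nat_lit 4) (nat_lit 4) (nat_lit 324) (nat_lit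 232) (nat_lit 164))) (XT.nd (nat_lit 78) (nat_lit 0) (nat_lit 0) (XT.lf (nat_lit 0) (nat_lit 11253001899) (nat_lit 76) (nat_lit 49007739550) (nat_lit 76) (nat_lit 31429920778) (nat_lit 3) (nat_lit 4) (nat_lit 4) (nat_lit 5) (nat_lit 4) (nat_lit 4) (nat_lit 325) (nat_lit 232) (nat_lit 163)) (XT.nd (nat_lit 78) (nat_lit 0) (nat_lit 0) (XT.lf (nat_lit 0) (nat_lit 18430038453) (nat_lit 76) (nat_lit 47631531850) (nat_lit 76) (nat_lit 30023794839) (nat_lit 3) (nat_lit 4) (nat_lit 4) (nat_lit 5) (nat_lit 4) (nat_lit 4) (nat_lit 326) (nat_lit 232) (nat_lit 162)) (XT.lf (nat_lit 0) (nat_lit 25946045026) (nat_lit 76) (nat_lit 46195279676) (nat_lit 76) (nat_lit 28559049103) (nat_lit 3) (nat_lit 4) (nat_lit 4) (nat_lit 5) (nat_lit 4) (nat_lit 4) (nat_lit 327) (nat_lit 232) (nat_lit 161)))))) (XT.nd (nat_lit 312) (nat_lit 0) (nat_lit 0) (XT.nd (nat_lit 156) (nat_lit 0) (nat_lit 0) (XT.nd (nat_lit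 78) (nat_lit 0) (nat_lit 0) (XT.lf (nat_lit 0) (nat_lit 33818916870) (nat_lit 76) (nat_lit 44695563378) (nat_lit 76) (nat_lit 27032196080) (nat_lit 3) (nat_lit 4) (nat_lit 4) (nat_lit 5) (nat_lit 4) (nat_lit 4) (nat_lit 328) (nat_lit 232) (nat_lit 160)) (XT.lf (nat_lit 0) (nat_lit 42067398919) (nat_lit 76) (nat_lit 43128812204) (nat_lit 76) (nat_lit 25439600406) (nat_lit 3) (nat_lit 4) (nat_lit 4) (nat_lit 5) (nat_lit 4) (nat_lit 4) (nat_lit 329) (nat_lit 232) (nat_lit 159))) (XT.nd (nat_lit 78) (nat_lit 0) (nat_lit 0) (XT.lf (nat_lit 0) (nat_lit 50711130417) (nat_lit 76) (nat_lit 41491295794) (nat_lit 76) (nat_lit 23777470185) (nat_lit 3) (nat_lit 4) (nat_lit 4) (nat_lit 5) (nat_lit 4) (nat_lit 4) (nat_lit 330) (nat_lit 232) (nat_lit 158)) (XT.lf (nat_lit 0) (nat_lit 59770691675) (nat_lit 76) (nat_lit 39779115298) (nat_lit 76) (nat_lit 22041847966) (nat_lit 3) (nat_lit 4) (nat_lit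 4) (nat_lit 5) (nat_lit 4) (nat_lit 4) (nat_lit 331) (nat_lit 232) (nat_lit 157)))) (XT.nd (nat_lit 156) (nat_lit 0) (nat_lit 0) (XT.nd (nat_lit 78) (nat_lit 0) (nat_lit 0) (XT.lf (nat_lit 0) (nat_lit 69267653078) (nat_lit 76) (nat_lit 37988194097) (nat_lit 76) (nat_lit 20228601314) (nat_lit 3) (nat_lit 4) (nat_lit 4) (nat_lit 5) (nat_lit 4) (nat_lit 4) (nat_lit 332) (nat_lit 232) (nat_lit 156)) (XT.lf (nat_lit 0) (nat_lit 79224626439) (nat_lit 76) (nat_lit 36114268093) (nat_lit 76) (nat_lit 18333412976) (nat_lit 3) (nat_lit 4) (nat_lit 4) (nat_lit 5) (nat_lit 4) (nat_lit 4) (nat_lit 333) (nat_lit 232) (nat_lit 155))) (XT.nd (nat_lit 78) (nat_lit 0) (nat_lit 0) (XT.lf (nat_lit 0) (nat_lit 89665318836) (nat_lit 76) (nat_lit 34152875557) (nat_lit 76) (nat_lit 16351770598) (nat_lit 3) (nat_lit 4) (nat_lit 4) (nat_lit 5) (nat_lit 4) (nat_lit 4) (nat_lit 334) (nat_lit 232) (nat_lit 154))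 (XT.nd (nat_lit 78) (nat_lit 0) (nat_lit 0) (XT.lf (nat_lit 0) (nat_lit 100614589063) (nat_lit 76) (nat_lit 32099346507) (nat_lit 76) (nat_lit 14278955984) (nat_lit 3) (nat_lit 4) (nat_lit 4) (nat_lit 5) (nat_lit 4) (nat_lit 4) (nat_lit 335) (nat_lit 232) (nat_lit 153)) (XT.lf (nat_lit 0) (nat_lit 112098506809) (nat_lit 76) (nat_lit 29948791589) (nat_lit 76) (nat_lit 12110033861) (nat_lit 3) (nat_lit 4) (nat_lit 4) (nat_lit 5) (nat_lit 4) (nat_lit 4) (nat_lit 336) (nat_lit 232) (nat_lit 152))))))))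
noncomputable def xc86 : XT := (XT.nd (nat_lit 1326) (nat_lit 0) (nat_lit 0) (XT.nd (nat_lit 624) (nat_lit 0) (nat_lit 0) (XT.nd (nat_lit 312) (nat_lit 152) (nat_lit 0) (XT.nd (nat_lit 156) (nat_lit 0) (nat_lit 0) (XT.nd (nat_lit 78) (nat_lit 0) (nat_lit 0) (XT.lf (nat_lit 0) (nat_lit 124144414736) (nat_lit 76) (nat_lit 27696090432) (nat_lit 76) (nat_lit 9839840129) (nat_lit 3) (nat_lit 4) (nat_lit 4) (nat_lit 5) (nat_lit 4) (nat_lit 4) (nat_lit 337) (nat_lit 232) (nat_lit 151)) (XT.lf (nat_lit 0) (nat_lit 136780993578) (nat_lit 76) (nat_lit 25335879463) (nat_lit 76) (nat_lit 7462969565) (nat_lit 3) (nat_lit 4) (nat_lit 4) (nat_lit 5) (nat_lit 4) (nat_lit 4) (nat_lit 338) (nat_lit 232) (nat_lit 150))) (XT.nd (nat_lit 78) (nat_lit 0) (nat_lit 0) (XT.lf (nat_lit 0) (nat_lit 150038330426) (nat_lit 76) (nat_lit 22862539132) (nat_lit 76) (nat_lit 4973762953) (nat_lit 3) (nat_lit 4) (nat_lit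 4) (nat_lit 5) (nat_lit 4) (nat_lit 4) (nat_lit 339) (nat_lit 232) (nat_lit 149)) (XT.lf (nat_lit 0) (nat_lit 163947990368) (nat_lit 76) (nat_lit 20270180534) (nat_lit 76) (nat_lit 2366293611) (nat_lit 3) (nat_lit 4) (nat_lit 4) (nat_lit 5) (nat_lit 4) (nat_lit 4) (nat_lit 340) (nat_lit 232) (nat_lit 148)))) (XT.nd (nat_lit 156) (nat_lit 76) (nat_lit 0) (XT.nd (nat_lit 78) (nat_lit 0) (nat_lit 0) (XT.lf (nat_lit 0) (nat_lit 353943742) (nat_lit 152) (nat_lit 17192693435) (nat_lit 76) (nat_lit 178183153691) (nat_lit 2) (nat_lit 5) (nat_lit 4) (nat_lit 5) (nat_lit 3) (nat_lit 4) (nat_lit 341) (nat_lit 232) (nat_lit 147)) (XT.lf (nat_lit 0) (nat_lit 3125228496) (nat_lit 152) (nat_lit 11525265579) (nat_lit 76) (nat_lit 190680228737) (nat_lit 2) (nat_lit 5) (nat_lit 4) (nat_lit 5) (nat_lit 3) (nat_lit 4) (nat_lit 342) (nat_lit 232) (nat_lit 146))) (XT.nd (nat_lit 78) (nat_lit 76) (nat_lit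 0) (XT.lf (nat_lit 0) (nat_lit 6029895120) (nat_lit 152) (nat_lit 5583752229) (nat_lit 76) (nat_lit 203798319582) (nat_lit 2) (nat_lit 5) (nat_lit 4) (nat_lit 5) (nat_lit 3) (nat_lit 4) (nat_lit 343) (nat_lit 232) (nat_lit 145)) (XT.lf (nat_lit 0) (nat_lit 667352524) (nat_lit 76) (nat_lit 8417926206) (nat_lit 152) (nat_lit 216911726496) (nat_lit 1) (nat_lit 5) (nat_lit 2) (nat_lit 5) (nat_lit 3) (nat_lit 4) (nat_lit 344) (nat_lit 232) (nat_lit 144))))) (XT.nd (nat_lit 312) (nat_lit 0) (nat_lit 0) (XT.nd (nat_lit 156) (nat_lit 0) (nat_lit 0) (XT.nd (nat_lit 78) (nat_lit 0) (nat_lit 0) (XT.lf (nat_lit 0) (nat_lit 7416166713) (nat_lit 76) (nat_lit 4966991945) (nat_lit 152) (nat_lit 224723656279) (nat_lit 1) (nat_lit 5) (nat_lit 2) (nat_lit 5) (nat_lit 3) (nat_lit 4) (nat_lit 345) (nat_lit 232) (nat_lit 143)) (XT.lf (nat_lit 0) (nat_lit 14494134876) (nat_lit 76) (nat_lit 1347191602) (nat_lit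 152) (nat_lit 232931024539) (nat_lit 1) (nat_lit 5) (nat_lit 2) (nat_lit 5) (nat_lit 3) (nat_lit 4) (nat_lit 346) (nat_lit 232) (nat_lit 142))) (XT.nd (nat_lit 78) (nat_lit 0) (nat_lit 0) (XT.lf (nat_lit 0) (nat_lit 19506268751) (nat_lit 152) (nat_lit 239141532061) (nat_lit 0) (nat_lit 2371675103) (nat_lit 1) (nat_lit 5) (nat_lit 3) (nat_lit 4) (nat_lit 1) (nat_lit 4) (nat_lit 347) (nat_lit 232) (nat_lit 141)) (XT.lf (nat_lit 0) (nat_lit 23372313250) (nat_lit 152) (nat_lit 244277777029) (nat_lit 0) (nat_lit 6227979082) (nat_lit 1) (nat_lit 5) (nat_lit 3) (nat_lit 4) (nat_lit 1) (nat_lit 4) (nat_lit 348) (nat_lit 232) (nat_lit 140)))) (XT.nd (nat_lit 156) (nat_lit 0) (nat_lit 0) (XT.nd (nat_lit 78) (nat_lit 0) (nat_lit 0) (XT.lf (nat_lit 0) (nat_lit 27427631409) (nat_lit 152) (nat_lit 249678146764) (nat_lit 0) (nat_lit 10274020555) (nat_lit 1) (nat_lit 5) (nat_lit 3) (nat_lit 4) (nat_lit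 1) (nat_lit 4) (nat_lit 349) (nat_lit 232) (nat_lit 139)) (XT.lf (nat_lit 0) (nat_lit 31681878747) (nat_lit 152) (nat_lit 255355499290) (nat_lit 0) (nat_lit 14519432953) (nat_lit 1) (nat_lit 5) (nat_lit 3) (nat_lit 4) (nat_lit 1) (nat_lit 4) (nat_lit 350) (nat_lit 232) (nat_lit 138))) (XT.nd (nat_lit 78) (nat_lit 0) (nat_lit 0) (XT.lf (nat_lit 0) (nat_lit 36145184424) (nat_lit 152) (nat_lit 261323352113) (nat_lit 0) (nat_lit 18974324403) (nat_lit 1) (nat_lit 5) (nat_lit 3) (nat_lit 4) (nat_lit 1) (nat_lit 4) (nat_lit 351) (nat_lit 232) (nat_lit 137)) (XT.nd (nat_lit 78) (nat_lit 0) (nat_lit 0) (XT.lf (nat_lit 0) (nat_lit 40828175358) (nat_lit 152) (nat_lit 267595914406) (nat_lit 0) (nat_lit 23649301787) (nat_lit 1) (nat_lit 5) (nat_lit 3) (nat_lit 4) (nat_lit 1) (nat_lit 4) (nat_lit 352) (nat_lit 232) (nat_lit 136)) (XT.lf (nat_lit 0) (nat_lit 45742001528) (nat_lit 152) (nat_lit 274188120841)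 (nat_lit 0) (nat_lit 28555496005) (nat_lit 1) (nat_lit 5) (nat_lit 3) (nat_lit 4) (nat_lit 1) (nat_lit 4) (nat_lit 353) (nat_lit 232) (nat_lit 135))))))) (XT.nd (nat_lit 29718) (nat_lit 0) (nat_lit 3724) (XT.nd (nat_lit 312) (nat_lit 0) (nat_lit 0) (XT.nd (nat_lit 156) (nat_lit 0) (nat_lit 0) (XT.nd (nat_lit 78) (nat_lit 0) (nat_lit 0) (XT.lf (nat_lit 0) (nat_lit 50898362521) (nat_lit 152) (nat_lit 281115667147) (nat_lit 0) (nat_lit 33704588471) (nat_lit 1) (nat_lit 5) (nat_lit 3) (nat_lit 4) (nat_lit 1) (nat_lit 4) (nat_lit 354) (nat_lit 232) (nat_lit 134)) (XT.lf (nat_lit 0) (nat_lit 56309535385) (nat_lit 152) (nat_lit 288395047484) (nat_lit 0) (nat_lit 39108838929) (nat_lit 1) (nat_lit 5) (nat_lit 3) (nat_lit 4) (nat_lit 1) (nat_lit 4) (nat_lit 355) (nat_lit 232) (nat_lit 133))) (XT.nd (nat_lit 78) (nat_lit 0) (nat_lit 0) (XT.lf (nat_lit 0) (nat_lit 61988403866) (nat_lit 152) (nat_lit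 296043593708) (nat_lit 0) (nat_lit 44781114642) (nat_lit 1) (nat_lit 5) (nat_lit 3) (nat_lit 4) (nat_lit 1) (nat_lit 4) (nat_lit 356) (nat_lit 232) (nat_lit 132)) (XT.lf (nat_lit 0) (nat_lit 67948489079) (nat_lit 152) (nat_lit 304079516644) (nat_lit 0) (nat_lit 50734921030) (nat_lit 1) (nat_lit 5) (nat_lit 3) (nat_lit 4) (nat_lit 1) (nat_lit 4) (nat_lit 357) (nat_lit 232) (nat_lit 131)))) (XT.nd (nat_lit 156) (nat_lit 0) (nat_lit 0) (XT.nd (nat_lit 78) (nat_lit 0) (nat_lit 0) (XT.lf (nat_lit 0) (nat_lit 74203981704) (nat_lit 152) (nat_lit 312521949442) (nat_lit 0) (nat_lit 56984433820) (nat_lit 1) (nat_lit 5) (nat_lit 3) (nat_lit 4) (nat_lit 1) (nat_lit 4) (nat_lit 358) (nat_lit 232) (nat_lit 130)) (XT.lf (nat_lit 0) (nat_lit 80769775771) (nat_lit 152) (nat_lit 321390993132) (nat_lit 0) (nat_lit 63544532806) (nat_lit 1) (nat_lit 5) (nat_lit 3) (nat_lit 4) (nat_lit 1) (nat_lit 4) (nat_lit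 359) (nat_lit 232) (nat_lit 129))) (XT.nd (nat_lit 78) (nat_lit 0) (nat_lit 0) (XT.lf (nat_lit 0) (nat_lit 87661504121) (nat_lit 152) (nat_lit 330707764485) (nat_lit 0) (nat_lit 70430837270) (nat_lit 1) (nat_lit 5) (nat_lit 3) (nat_lit 4) (nat_lit 1) (nat_lit 4) (nat_lit 360) (nat_lit 232) (nat_lit 128)) (XT.nd (nat_lit 78) (nat_lit 0) (nat_lit 0) (XT.lf (nat_lit 0) (nat_lit 94895575634) (nat_lit 152) (nat_lit 340494446290) (nat_lit 0) (nat_lit 77659743177) (nat_lit 1) (nat_lit 5) (nat_lit 3) (nat_lit 4) (nat_lit 1) (nat_lit 4) (nat_lit 361) (nat_lit 232) (nat_lit 127)) (XT.lf (nat_lit 0) (nat_lit 102489214287) (nat_lit 152) (nat_lit 350774340170) (nat_lit 0) (nat_lit 85248462206) (nat_lit 1) (nat_lit 5) (nat_lit 3) (nat_lit 4) (nat_lit 1) (nat_lit 4) (nat_lit 362) (nat_lit 232) (nat_lit 126)))))) (XT.nd (nat_lit 312) (nat_lit 1064) (nat_lit 0) (XT.nd (nat_lit 156) (nat_lit 684) (nat_lit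 0) (XT.nd (nat_lit 78) (nat_lit 684) (nat_lit 0) (XT.lf (nat_lit 0) (nat_lit 1416546147) (nat_lit 532) (nat_lit 1062632691) (nat_lit 532) (nat_lit 1062632691) (nat_lit 82) (nat_lit 4) (nat_lit 89) (nat_lit 5) (nat_lit 89) (nat_lit 4) (nat_lit 254) (nat_lit 233) (nat_lit 233)) (XT.lf (nat_lit 0) (nat_lit 25379115) (nat_lit 608) (nat_lit 784453211) (nat_lit 684) (nat_lit 6375012091) (nat_lit 73) (nat_lit 5) (nat_lit 81) (nat_lit 5) (nat_lit 82) (nat_lit 4) (nat_lit 255) (nat_lit 233) (nat_lit 232))) (XT.nd (nat_lit 78) (nat_lit 684) (nat_lit 0) (XT.lf (nat_lit 0) (nat_lit 3755141988) (nat_lit 684) (nat_lit 2822848979) (nat_lit 0) (nat_lit 715420295) (nat_lit 73) (nat_lit 5) (nat_lit 82) (nat_lit 4) (nat_lit 73) (nat_lit 4) (nat_lit 256) (nat_lit 233) (nat_lit 231)) (XT.lf (nat_lit 0) (nat_lit 1624768449) (nat_lit 684) (nat_lit 5120206267) (nat_lit 684) (nat_lit 668302602) (nat_lit 64)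 (nat_lit 4) (nat_lit 73) (nat_lit 5) (nat_lit 73) (nat_lit 4) (nat_lit 257) (nat_lit 233) (nat_lit 230)))) (XT.nd (nat_lit 156) (nat_lit 684) (nat_lit 0) (XT.nd (nat_lit 78) (nat_lit 304) (nat_lit 0) (XT.lf (nat_lit 0) (nat_lit 2179295123) (nat_lit 760) (nat_lit 1329283872) (nat_lit 76) (nat_lit 4033932858) (nat_lit 63) (nat_lit 5) (nat_lit 73) (nat_lit 5) (nat_lit 64) (nat_lit 4) (nat_lit 258) (nat_lit 233) (nat_lit 229)) (XT.lf (nat_lit 0) (nat_lit 3306923135) (nat_lit 304) (nat_lit 1758761103) (nat_lit 380) (nat_lit 2616666387) (nat_lit 59) (nat_lit 5) (nat_lit 63) (nat_lit 5) (nat_lit 64) (nat_lit 4) (nat_lit 259) (nat_lit 233) (nat_lit 228))) (XT.nd (nat_lit 78) (nat_lit 304) (nat_lit 0) (XT.lf (nat_lit 0) (nat_lit 155741405) (nat_lit 380) (nat_lit 7583230533) (nat_lit 76) (nat_lit 95721591) (nat_lit 54) (nat_lit 5) (nat_lit 59) (nat_lit 5) (nat_lit 55) (nat_lit 4) (nat_lit 260)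 (nat_lit 233) (nat_lit 227)) (XT.nd (nat_lit 78) (nat_lit 304) (nat_lit 0) (XT.lf (nat_lit 0) (nat_lit 2955515193) (nat_lit 380) (nat_lit 2950175795) (nat_lit 76) (nat_lit 2088531182) (nat_lit 54) (nat_lit 5) (nat_lit 59) (nat_lit 5) (nat_lit 55) (nat_lit 4) (nat_lit 261) (nat_lit 233) (nat_lit 226)) (XT.lf (nat_lit 0) (nat_lit 1832332909) (nat_lit 304) (nat_lit 3970158203) (nat_lit 380) (nat_lit 2364396919) (nat_lit 50) (nat_lit 5) (nat_lit 54) (nat_lit 5) (nat_lit 55) (nat_lit 4) (nat_lit 262) (nat_lit 233) (nat_lit 225))))))))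
noncomputable def xc87 : XT := (XT.nd (nat_lit 1326) (nat_lit 836) (nat_lit 0) (XT.nd (nat_lit 624) (nat_lit 1064) (nat_lit 0) (XT.nd (nat_lit 312) (nat_lit 608) (nat_lit 0) (XT.nd (nat_lit 156) (nat_lit 228) (nat_lit 0) (XT.nd (nat_lit 78) (nat_lit 304) (nat_lit 0) (XT.lf (nat_lit 0) (nat_lit 360022720) (nat_lit 380) (nat_lit 1540064048) (nat_lit 76) (nat_lit 6451697436) (nat_lit 49) (nat_lit 5) (nat_lit 54) (nat_lit 5) (nat_lit 50) (nat_lit 5) (nat_lit 263) (nat_lit 233) (nat_lit 224)) (XT.lf (nat_lit 0) (nat_lit 3085717285) (nat_lit 380) (nat_lit 5123999163) (nat_lit 76) (nat_lit 337495506) (nat_lit 45) (nat_lit 5) (nat_lit 50) (nat_lit 5) (nat_lit 46) (nat_lit 4) (nat_lit 264) (nat_lit 233) (nat_lit 223))) (XT.nd (nat_lit 78) (nat_lit 228) (nat_lit 0) (XT.lf (nat_lit 0) (nat_lit 5893890167) (nat_lit 380) (nat_lit 234201984) (nat_lit 76) (nat_lit 2627438270) (nat_lit 45) (nat_lit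 5) (nat_lit 50) (nat_lit 5) (nat_lit 46) (nat_lit 4) (nat_lit 265) (nat_lit 233) (nat_lit 222)) (XT.lf (nat_lit 0) (nat_lit 4924716779) (nat_lit 228) (nat_lit 3888486712) (nat_lit 304) (nat_lit 162933308) (nat_lit 42) (nat_lit 5) (nat_lit 45) (nat_lit 5) (nat_lit 46) (nat_lit 4) (nat_lit 266) (nat_lit 233) (nat_lit 221)))) (XT.nd (nat_lit 156) (nat_lit 304) (nat_lit 0) (XT.nd (nat_lit 78) (nat_lit 0) (nat_lit 0) (XT.lf (nat_lit 0) (nat_lit 997610402) (nat_lit 228) (nat_lit 1502013890) (nat_lit 304) (nat_lit 6710715201) (nat_lit 38) (nat_lit 5) (nat_lit 41) (nat_lit 5) (nat_lit 42) (nat_lit 5) (nat_lit 267) (nat_lit 233) (nat_lit 220)) (XT.lf (nat_lit 0) (nat_lit 5272500164) (nat_lit 304) (nat_lit 3170056941) (nat_lit 76) (nat_lit 1014781310) (nat_lit 38) (nat_lit 5) (nat_lit 42) (nat_lit 5) (nat_lit 39) (nat_lit 4) (nat_lit 268) (nat_lit 233) (nat_lit 219))) (XT.nd (nat_lit 78) (nat_lit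 76) (nat_lit 0) (XT.lf (nat_lit 0) (nat_lit 2034267215) (nat_lit 228) (nat_lit 6108285549) (nat_lit 304) (nat_lit 1576544011) (nat_lit 35) (nat_lit 5) (nat_lit 38) (nat_lit 5) (nat_lit 39) (nat_lit 4) (nat_lit 269) (nat_lit 233) (nat_lit 218)) (XT.lf (nat_lit 0) (nat_lit 1082461282) (nat_lit 304) (nat_lit 2533788568) (nat_lit 76) (nat_lit 6379216214) (nat_lit 34) (nat_lit 5) (nat_lit 38) (nat_lit 5) (nat_lit 35) (nat_lit 5) (nat_lit 270) (nat_lit 233) (nat_lit 217))))) (XT.nd (nat_lit 312) (nat_lit 608) (nat_lit 0) (XT.nd (nat_lit 156) (nat_lit 228) (nat_lit 0) (XT.nd (nat_lit 78) (nat_lit 0) (nat_lit 0) (XT.lf (nat_lit 0) (nat_lit 2812924076) (nat_lit 228) (nat_lit 959977056) (nat_lit 304) (nat_lit 6514177480) (nat_lit 31) (nat_lit 5) (nat_lit 34) (nat_lit 5) (nat_lit 35) (nat_lit 5) (nat_lit 271) (nat_lit 233) (nat_lit 216)) (XT.lf (nat_lit 0) (nat_lit 6579518116) (nat_lit 304) (nat_lit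 2233724889) (nat_lit 76) (nat_lit 1781222569) (nat_lit 31) (nat_lit 5) (nat_lit 35) (nat_lit 5) (nat_lit 32) (nat_lit 4) (nat_lit 272) (nat_lit 233) (nat_lit 215))) (XT.nd (nat_lit 78) (nat_lit 76) (nat_lit 0) (XT.lf (nat_lit 0) (nat_lit 3234338971) (nat_lit 152) (nat_lit 6272154946) (nat_lit 228) (nat_lit 1411989941) (nat_lit 29) (nat_lit 5) (nat_lit 31) (nat_lit 5) (nat_lit 32) (nat_lit 4) (nat_lit 273) (nat_lit 233) (nat_lit 214)) (XT.lf (nat_lit 0) (nat_lit 1231683355) (nat_lit 228) (nat_lit 2347969801) (nat_lit 76) (nat_lit 7680614880) (nat_lit 28) (nat_lit 5) (nat_lit 31) (nat_lit 5) (nat_lit 29) (nat_lit 5) (nat_lit 274) (nat_lit 233) (nat_lit 213)))) (XT.nd (nat_lit 156) (nat_lit 380) (nat_lit 0) (XT.nd (nat_lit 78) (nat_lit 0) (nat_lit 0) (XT.lf (nat_lit 0) (nat_lit 3217447312) (nat_lit 228) (nat_lit 711352812) (nat_lit 304) (nat_lit 7690975845) (nat_lit 25) (nat_lit 5) (nat_lit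 28) (nat_lit 5) (nat_lit 29) (nat_lit 5) (nat_lit 275) (nat_lit 233) (nat_lit 212)) (XT.lf (nat_lit 0) (nat_lit 6757097880) (nat_lit 304) (nat_lit 3008316630) (nat_lit 76) (nat_lit 2232245211) (nat_lit 25) (nat_lit 5) (nat_lit 29) (nat_lit 5) (nat_lit 26) (nat_lit 4) (nat_lit 276) (nat_lit 233) (nat_lit 211))) (XT.nd (nat_lit 78) (nat_lit 228) (nat_lit 0) (XT.lf (nat_lit 0) (nat_lit 2613939686) (nat_lit 152) (nat_lit 7089147251) (nat_lit 228) (nat_lit 2692743262) (nat_lit 23) (nat_lit 5) (nat_lit 25) (nat_lit 5) (nat_lit 26) (nat_lit 4) (nat_lit 277) (nat_lit 233) (nat_lit 210)) (XT.nd (nat_lit 78) (nat_lit 228) (nat_lit 0) (XT.lf (nat_lit 0) (nat_lit 8510123547) (nat_lit 152) (nat_lit 4262888734) (nat_lit 228) (nat_lit 42261611) (nat_lit 23) (nat_lit 5) (nat_lit 25) (nat_lit 5) (nat_lit 26) (nat_lit 4) (nat_lit 278) (nat_lit 233) (nat_lit 209)) (XT.lf (nat_lit 0) (nat_lit 1336539441)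 (nat_lit 152) (nat_lit 1265237631) (nat_lit 228) (nat_lit 10654513733) (nat_lit 20) (nat_lit 5) (nat_lit 22) (nat_lit 5) (nat_lit 23) (nat_lit 5) (nat_lit 279) (nat_lit 233) (nat_lit 208))))))) (XT.nd (nat_lit 702) (nat_lit 380) (nat_lit 0) (XT.nd (nat_lit 312) (nat_lit 304) (nat_lit 0) (XT.nd (nat_lit 156) (nat_lit 152) (nat_lit 0) (XT.nd (nat_lit 78) (nat_lit 0) (nat_lit 0) (XT.lf (nat_lit 0) (nat_lit 5409164656) (nat_lit 228) (nat_lit 6447441819) (nat_lit 76) (nat_lit 1861258856) (nat_lit 20) (nat_lit 5) (nat_lit 23) (nat_lit 5) (nat_lit 21) (nat_lit 4) (nat_lit 280) (nat_lit 233) (nat_lit 207)) (XT.lf (nat_lit 0) (nat_lit 8310114907) (nat_lit 228) (nat_lit 827240866) (nat_lit 76) (nat_lit 5067664836) (nat_lit 20) (nat_lit 5) (nat_lit 23) (nat_lit 5) (nat_lit 21) (nat_lit 4) (nat_lit 281) (nat_lit 233) (nat_lit 206))) (XT.nd (nat_lit 78) (nat_lit 0) (nat_lit 0) (XT.lf (nat_lit 0)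 (nat_lit 5138449298) (nat_lit 152) (nat_lit 6233557240) (nat_lit 228) (nat_lit 3343886409) (nat_lit 18) (nat_lit 5) (nat_lit 20) (nat_lit 5) (nat_lit 21) (nat_lit 4) (nat_lit 282) (nat_lit 233) (nat_lit 205)) (XT.lf (nat_lit 0) (nat_lit 11332773236) (nat_lit 152) (nat_lit 3205425084) (nat_lit 228) (nat_lit 716696958) (nat_lit 18) (nat_lit 5) (nat_lit 20) (nat_lit 5) (nat_lit 21) (nat_lit 4) (nat_lit 283) (nat_lit 233) (nat_lit 204)))) (XT.nd (nat_lit 156) (nat_lit 76) (nat_lit 0) (XT.nd (nat_lit 78) (nat_lit 0) (nat_lit 0) (XT.lf (nat_lit 0) (nat_lit 1946099169) (nat_lit 228) (nat_lit 13870296435) (nat_lit 76) (nat_lit 4511233) (nat_lit 15) (nat_lit 5) (nat_lit 18) (nat_lit 5) (nat_lit 16) (nat_lit 4) (nat_lit 284) (nat_lit 233) (nat_lit 203)) (XT.lf (nat_lit 0) (nat_lit 4777966190) (nat_lit 228) (nat_lit 8320983915) (nat_lit 76) (nat_lit 3312807258) (nat_lit 15) (nat_lit 5) (nat_lit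 18) (nat_lit 5) (nat_lit 16) (nat_lit 4) (nat_lit 285) (nat_lit 233) (nat_lit 202))) (XT.nd (nat_lit 78) (nat_lit 76) (nat_lit 0) (XT.lf (nat_lit 0) (nat_lit 7694242670) (nat_lit 228) (nat_lit 2586440819) (nat_lit 76) (nat_lit 6754446776) (nat_lit 15) (nat_lit 5) (nat_lit 18) (nat_lit 5) (nat_lit 16) (nat_lit 4) (nat_lit 286) (nat_lit 233) (nat_lit 201)) (XT.nd (nat_lit 78) (nat_lit 0) (nat_lit 0) (XT.lf (nat_lit 0) (nat_lit 3457653019) (nat_lit 76) (nat_lit 7298202760) (nat_lit 152) (nat_lit 6933954800) (nat_lit 14) (nat_lit 5) (nat_lit 15) (nat_lit 5) (nat_lit 16) (nat_lit 4) (nat_lit 287) (nat_lit 233) (nat_lit 200)) (XT.lf (nat_lit 0) (nat_lit 9807320851) (nat_lit 76) (nat_lit 4153814491) (nat_lit 152) (nat_lit 4416669715) (nat_lit 14) (nat_lit 5) (nat_lit 15) (nat_lit 5) (nat_lit 16) (nat_lit 4) (nat_lit 288) (nat_lit 233) (nat_lit 199)))))) (XT.nd (nat_lit 312) (nat_lit 152) (nat_lit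 0) (XT.nd (nat_lit 156) (nat_lit 0) (nat_lit 0) (XT.nd (nat_lit 78) (nat_lit 228) (nat_lit 0) (XT.lf (nat_lit 0) (nat_lit 16392161520) (nat_lit 76) (nat_lit 883834670) (nat_lit 152) (nat_lit 1826841430) (nat_lit 14) (nat_lit 5) (nat_lit 15) (nat_lit 5) (nat_lit 16) (nat_lit 4) (nat_lit 289) (nat_lit 233) (nat_lit 198)) (XT.lf (nat_lit 0) (nat_lit 909195525) (nat_lit 228) (nat_lit 16444934909) (nat_lit 76) (nat_lit 2507125102) (nat_lit 11) (nat_lit 5) (nat_lit 14) (nat_lit 5) (nat_lit 12) (nat_lit 4) (nat_lit 290) (nat_lit 233) (nat_lit 197))) (XT.nd (nat_lit 78) (nat_lit 0) (nat_lit 0) (XT.lf (nat_lit 0) (nat_lit 3733261899) (nat_lit 228) (nat_lit 10837543833) (nat_lit 76) (nat_lit 6084750168) (nat_lit 11) (nat_lit 5) (nat_lit 14) (nat_lit 5) (nat_lit 12) (nat_lit 4) (nat_lit 291) (nat_lit 233) (nat_lit 196)) (XT.lf (nat_lit 0) (nat_lit 6652315543) (nat_lit 228) (nat_lit 5026764804)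 (nat_lit 76) (nat_lit 9812887483) (nat_lit 11) (nat_lit 5) (nat_lit 14) (nat_lit 5) (nat_lit 12) (nat_lit 4) (nat_lit 292) (nat_lit 233) (nat_lit 195)))) (XT.nd (nat_lit 156) (nat_lit 76) (nat_lit 0) (XT.nd (nat_lit 78) (nat_lit 0) (nat_lit 0) (XT.lf (nat_lit 0) (nat_lit 1034342793) (nat_lit 76) (nat_lit 8655112783) (nat_lit 152) (nat_lit 12682219760) (nat_lit 10) (nat_lit 5) (nat_lit 11) (nat_lit 5) (nat_lit 12) (nat_lit 4) (nat_lit 293) (nat_lit 233) (nat_lit 194)) (XT.lf (nat_lit 0) (nat_lit 7500890398) (nat_lit 76) (nat_lit 5419647387) (nat_lit 152) (nat_lit 10372803949) (nat_lit 10) (nat_lit 5) (nat_lit 11) (nat_lit 5) (nat_lit 12) (nat_lit 4) (nat_lit 294) (nat_lit 233) (nat_lit 193))) (XT.nd (nat_lit 78) (nat_lit 76) (nat_lit 0) (XT.lf (nat_lit 0) (nat_lit 14222067005) (nat_lit 76) (nat_lit 2050111366) (nat_lit 152) (nat_lit 7991036939) (nat_lit 10) (nat_lit 5) (nat_lit 11) (nat_lit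 5) (nat_lit 12) (nat_lit 4) (nat_lit 295) (nat_lit 233) (nat_lit 192)) (XT.nd (nat_lit 78) (nat_lit 76) (nat_lit 0) (XT.lf (nat_lit 0) (nat_lit 19775175821) (nat_lit 152) (nat_lit 4092548264) (nat_lit 0) (nat_lit 1414740281) (nat_lit 10) (nat_lit 5) (nat_lit 12) (nat_lit 4) (nat_lit 10) (nat_lit 4) (nat_lit 296) (nat_lit 233) (nat_lit 191)) (XT.lf (nat_lit 0) (nat_lit 2124009410) (nat_lit 76) (nat_lit 21358507212) (nat_lit 76) (nat_lit 2868766764) (nat_lit 9) (nat_lit 4) (nat_lit 10) (nat_lit 5) (nat_lit 10) (nat_lit 4) (nat_lit 297) (nat_lit 233) (nat_lit 190))))))))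
noncomputable def xc88 : XT := (XT.nd (nat_lit 1326) (nat_lit 76) (nat_lit 0) (XT.nd (nat_lit 624) (nat_lit 228) (nat_lit 0) (XT.nd (nat_lit 312) (nat_lit 76) (nat_lit 0) (XT.nd (nat_lit 156) (nat_lit 0) (nat_lit 0) (XT.nd (nat_lit 78) (nat_lit 76) (nat_lit 0) (XT.lf (nat_lit 0) (nat_lit 8730663219) (nat_lit 76) (nat_lit 18677102520) (nat_lit 76) (nat_lit 64214541) (nat_lit 9) (nat_lit 4) (nat_lit 10) (nat_lit 5) (nat_lit 10) (nat_lit 4) (nat_lit 298) (nat_lit 233) (nat_lit 189)) (XT.lf (nat_lit 0) (nat_lit 2752719021) (nat_lit 152) (nat_lit 13087097348) (nat_lit 76) (nat_lit 12808487512) (nat_lit 8) (nat_lit 5) (nat_lit 10) (nat_lit 5) (nat_lit 9) (nat_lit 4) (nat_lit 299) (nat_lit 233) (nat_lit 188))) (XT.nd (nat_lit 78) (nat_lit 0) (nat_lit 0) (XT.lf (nat_lit 0) (nat_lit 5674388668) (nat_lit 152) (nat_lit 7209373012) (nat_lit 76) (nat_lit 17001382246) (nat_lit 8) (nat_lit 5) (nat_lit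 10) (nat_lit 5) (nat_lit 9) (nat_lit 4) (nat_lit 300) (nat_lit 233) (nat_lit 187)) (XT.lf (nat_lit 0) (nat_lit 8709806022) (nat_lit 152) (nat_lit 1093146904) (nat_lit 76) (nat_lit 21382542479) (nat_lit 8) (nat_lit 5) (nat_lit 10) (nat_lit 5) (nat_lit 9) (nat_lit 4) (nat_lit 301) (nat_lit 233) (nat_lit 186)))) (XT.nd (nat_lit 156) (nat_lit 0) (nat_lit 0) (XT.nd (nat_lit 78) (nat_lit 0) (nat_lit 0) (XT.lf (nat_lit 0) (nat_lit 5450596548) (nat_lit 76) (nat_lit 6500700806) (nat_lit 152) (nat_lit 20596902082) (nat_lit 7) (nat_lit 5) (nat_lit 8) (nat_lit 5) (nat_lit 9) (nat_lit 4) (nat_lit 302) (nat_lit 233) (nat_lit 185)) (XT.lf (nat_lit 0) (nat_lit 12307582435) (nat_lit 76) (nat_lit 3035654041) (nat_lit 152) (nat_lit 18636431279) (nat_lit 7) (nat_lit 5) (nat_lit 8) (nat_lit 5) (nat_lit 9) (nat_lit 4) (nat_lit 303) (nat_lit 233) (nat_lit 184))) (XT.nd (nat_lit 78) (nat_lit 0) (nat_lit 0)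 (XT.lf (nat_lit 0) (nat_lit 18885153504) (nat_lit 152) (nat_lit 16035283122) (nat_lit 0) (nat_lit 563299289) (nat_lit 7) (nat_lit 5) (nat_lit 9) (nat_lit 4) (nat_lit 7) (nat_lit 4) (nat_lit 304) (nat_lit 233) (nat_lit 183)) (XT.lf (nat_lit 0) (nat_lit 22626285462) (nat_lit 152) (nat_lit 10214579225) (nat_lit 0) (nat_lit 4221080151) (nat_lit 7) (nat_lit 5) (nat_lit 9) (nat_lit 4) (nat_lit 7) (nat_lit 4) (nat_lit 305) (nat_lit 233) (nat_lit 182))))) (XT.nd (nat_lit 312) (nat_lit 152) (nat_lit 0) (XT.nd (nat_lit 156) (nat_lit 0) (nat_lit 0) (XT.nd (nat_lit 78) (nat_lit 76) (nat_lit 0) (XT.lf (nat_lit 0) (nat_lit 26528144741) (nat_lit 152) (nat_lit 4148719743) (nat_lit 0) (nat_lit 8043557433) (nat_lit 7) (nat_lit 5) (nat_lit 9) (nat_lit 4) (nat_lit 7) (nat_lit 4) (nat_lit 306) (nat_lit 233) (nat_lit 181)) (XT.lf (nat_lit 0) (nat_lit 2248710628) (nat_lit 76) (nat_lit 28386419527) (nat_lit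 76) (nat_lit 9826230317) (nat_lit 6) (nat_lit 4) (nat_lit 7) (nat_lit 5) (nat_lit 7) (nat_lit 4) (nat_lit 307) (nat_lit 233) (nat_lit 180))) (XT.nd (nat_lit 78) (nat_lit 0) (nat_lit 0) (XT.lf (nat_lit 0) (nat_lit 9067056590) (nat_lit 76) (nat_lit 25926116200) (nat_lit 76) (nat_lit 7293925179) (nat_lit 6) (nat_lit 4) (nat_lit 7) (nat_lit 5) (nat_lit 7) (nat_lit 4) (nat_lit 308) (nat_lit 233) (nat_lit 179)) (XT.lf (nat_lit 0) (nat_lit 16185376887) (nat_lit 76) (nat_lit 23360357215) (nat_lit 76) (nat_lit 4659593041) (nat_lit 6) (nat_lit 4) (nat_lit 7) (nat_lit 5) (nat_lit 7) (nat_lit 4) (nat_lit 309) (nat_lit 233) (nat_lit 178)))) (XT.nd (nat_lit 156) (nat_lit 76) (nat_lit 0) (XT.nd (nat_lit 78) (nat_lit 76) (nat_lit 0) (XT.lf (nat_lit 0) (nat_lit 23620619901) (nat_lit 76) (nat_lit 20683033622) (nat_lit 76) (nat_lit 1916961683) (nat_lit 6) (nat_lit 4) (nat_lit 7) (nat_lit 5) (nat_lit 7)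 (nat_lit 4) (nat_lit 310) (nat_lit 233) (nat_lit 177)) (XT.lf (nat_lit 0) (nat_lit 910397127) (nat_lit 152) (nat_lit 16961955698) (nat_lit 76) (nat_lit 30464673448) (nat_lit 5) (nat_lit 5) (nat_lit 7) (nat_lit 5) (nat_lit 6) (nat_lit 4) (nat_lit 311) (nat_lit 233) (nat_lit 176))) (XT.nd (nat_lit 78) (nat_lit 76) (nat_lit 0) (XT.lf (nat_lit 0) (nat_lit 3794140957) (nat_lit 152) (nat_lit 11109516915) (nat_lit 76) (nat_lit 35655086076) (nat_lit 5) (nat_lit 5) (nat_lit 7) (nat_lit 5) (nat_lit 6) (nat_lit 4) (nat_lit 312) (nat_lit 233) (nat_lit 175)) (XT.nd (nat_lit 78) (nat_lit 76) (nat_lit 0) (XT.lf (nat_lit 0) (nat_lit 6802490607) (nat_lit 152) (nat_lit 4998815435) (nat_lit 76) (nat_lit 41091248449) (nat_lit 5) (nat_lit 5) (nat_lit 7) (nat_lit 5) (nat_lit 6) (nat_lit 4) (nat_lit 313) (nat_lit 233) (nat_lit 174)) (XT.lf (nat_lit 0) (nat_lit 1430482401) (nat_lit 76) (nat_lit 8534460253)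 (nat_lit 152) (nat_lit 45377955249) (nat_lit 4) (nat_lit 5) (nat_lit 5) (nat_lit 5) (nat_lit 6) (nat_lit 4) (nat_lit 314) (nat_lit 233) (nat_lit 173))))))) (XT.nd (nat_lit 702) (nat_lit 76) (nat_lit 0) (XT.nd (nat_lit 312) (nat_lit 0) (nat_lit 0) (XT.nd (nat_lit 156) (nat_lit 0) (nat_lit 0) (XT.nd (nat_lit 78) (nat_lit 0) (nat_lit 0) (XT.lf (nat_lit 0) (nat_lit 8322597418) (nat_lit 76) (nat_lit 5029313704) (nat_lit 152) (nat_lit 44560552994) (nat_lit 4) (nat_lit 5) (nat_lit 5) (nat_lit 5) (nat_lit 6) (nat_lit 4) (nat_lit 315) (nat_lit 233) (nat_lit 172)) (XT.lf (nat_lit 0) (nat_lit 15528655999) (nat_lit 76) (nat_lit 1362178167) (nat_lit 152) (nat_lit 43720568281) (nat_lit 4) (nat_lit 5) (nat_lit 5) (nat_lit 5) (nat_lit 6) (nat_lit 4) (nat_lit 316) (nat_lit 233) (nat_lit 171))) (XT.nd (nat_lit 78) (nat_lit 0) (nat_lit 0) (XT.lf (nat_lit 0) (nat_lit 20628790061) (nat_lit 152) (nat_lit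 40418975781) (nat_lit 0) (nat_lit 2396440487) (nat_lit 4) (nat_lit 5) (nat_lit 6) (nat_lit 4) (nat_lit 4) (nat_lit 4) (nat_lit 317) (nat_lit 233) (nat_lit 170)) (XT.lf (nat_lit 0) (nat_lit 24560009910) (nat_lit 152) (nat_lit 35572781690) (nat_lit 0) (nat_lit 6285562368) (nat_lit 4) (nat_lit 5) (nat_lit 6) (nat_lit 4) (nat_lit 4) (nat_lit 4) (nat_lit 318) (nat_lit 233) (nat_lit 169)))) (XT.nd (nat_lit 156) (nat_lit 0) (nat_lit 0) (XT.nd (nat_lit 78) (nat_lit 0) (nat_lit 0) (XT.lf (nat_lit 0) (nat_lit 28672586343) (nat_lit 152) (nat_lit 30511358200) (nat_lit 0) (nat_lit 10358045499) (nat_lit 4) (nat_lit 5) (nat_lit 6) (nat_lit 4) (nat_lit 4) (nat_lit 4) (nat_lit 319) (nat_lit 233) (nat_lit 168)) (XT.lf (nat_lit 0) (nat_lit 32976311210) (nat_lit 152) (nat_lit 25222654302) (nat_lit 0) (nat_lit 14623586268) (nat_lit 4) (nat_lit 5) (nat_lit 6) (nat_lit 4) (nat_lit 4) (nat_lit 4) (nat_lit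 320) (nat_lit 233) (nat_lit 167))) (XT.nd (nat_lit 78) (nat_lit 0) (nat_lit 0) (XT.lf (nat_lit 0) (nat_lit 37481431473) (nat_lit 152) (nat_lit 19694077845) (nat_lit 0) (nat_lit 19092340724) (nat_lit 4) (nat_lit 5) (nat_lit 6) (nat_lit 4) (nat_lit 4) (nat_lit 4) (nat_lit 321) (nat_lit 233) (nat_lit 166)) (XT.nd (nat_lit 78) (nat_lit 0) (nat_lit 0) (XT.lf (nat_lit 0) (nat_lit 42198673610) (nat_lit 152) (nat_lit 13912465551) (nat_lit 0) (nat_lit 23774948758) (nat_lit 4) (nat_lit 5) (nat_lit 6) (nat_lit 4) (nat_lit 4) (nat_lit 4) (nat_lit 322) (nat_lit 233) (nat_lit 165)) (XT.lf (nat_lit 0) (nat_lit 47139269149) (nat_lit 152) (nat_lit 7864051676) (nat_lit 0) (nat_lit 28682559438) (nat_lit 4) (nat_lit 5) (nat_lit 6) (nat_lit 4) (nat_lit 4) (nat_lit 4) (nat_lit 323) (nat_lit 233) (nat_lit 164)))))) (XT.nd (nat_lit 312) (nat_lit 0) (nat_lit 0) (XT.nd (nat_lit 156) (nat_lit 0) (nat_lit 0) (XT.nd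 (nat_lit 78) (nat_lit 76) (nat_lit 0) (XT.lf (nat_lit 0) (nat_lit 52314981413) (nat_lit 152) (nat_lit 1534435236) (nat_lit 0) (nat_lit 33826857551) (nat_lit 4) (nat_lit 5) (nat_lit 6) (nat_lit 4) (nat_lit 4) (nat_lit 4) (nat_lit 324) (nat_lit 233) (nat_lit 163)) (XT.lf (nat_lit 0) (nat_lit 5259800757) (nat_lit 76) (nat_lit 52560453000) (nat_lit 76) (nat_lit 34042410899) (nat_lit 3) (nat_lit 4) (nat_lit 4) (nat_lit 5) (nat_lit 4) (nat_lit 4) (nat_lit 325) (nat_lit 233) (nat_lit 162))) (XT.nd (nat_lit 78) (nat_lit 0) (nat_lit 0) (XT.lf (nat_lit 0) (nat_lit 12427138868) (nat_lit 76) (nat_lit 51188521355) (nat_lit 76) (nat_lit 32641985692) (nat_lit 3) (nat_lit 4) (nat_lit 4) (nat_lit 5) (nat_lit 4) (nat_lit 4) (nat_lit 326) (nat_lit 233) (nat_lit 161)) (XT.lf (nat_lit 0) (nat_lit 19933908827) (nat_lit 76) (nat_lit 49756341612) (nat_lit 76) (nat_lit 31182669224) (nat_lit 3) (nat_lit 4) (nat_lit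 4) (nat_lit 5) (nat_lit 4) (nat_lit 4) (nat_lit 327) (nat_lit 233) (nat_lit 160)))) (XT.nd (nat_lit 156) (nat_lit 0) (nat_lit 0) (XT.nd (nat_lit 78) (nat_lit 0) (nat_lit 0) (XT.lf (nat_lit 0) (nat_lit 27797983897) (nat_lit 76) (nat_lit 48260503821) (nat_lit 76) (nat_lit 29660986932) (nat_lit 3) (nat_lit 4) (nat_lit 4) (nat_lit 5) (nat_lit 4) (nat_lit 4) (nat_lit 328) (nat_lit 233) (nat_lit 159)) (XT.lf (nat_lit 0) (nat_lit 36038088066) (nat_lit 76) (nat_lit 46697446463) (nat_lit 76) (nat_lit 28073315764) (nat_lit 3) (nat_lit 4) (nat_lit 4) (nat_lit 5) (nat_lit 4) (nat_lit 4) (nat_lit 329) (nat_lit 233) (nat_lit 158))) (XT.nd (nat_lit 78) (nat_lit 0) (nat_lit 0) (XT.lf (nat_lit 0) (nat_lit 44673840630) (nat_lit 76) (nat_lit 45063447972) (nat_lit 76) (nat_lit 26415875550) (nat_lit 3) (nat_lit 4) (nat_lit 4) (nat_lit 5) (nat_lit 4) (nat_lit 4) (nat_lit 330) (nat_lit 233) (nat_lit 157))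 (XT.nd (nat_lit 78) (nat_lit 0) (nat_lit 0) (XT.lf (nat_lit 0) (nat_lit 53725802903) (nat_lit 76) (nat_lit 43354617876) (nat_lit 76) (nat_lit 24684720003) (nat_lit 3) (nat_lit 4) (nat_lit 4) (nat_lit 5) (nat_lit 4) (nat_lit 4) (nat_lit 331) (nat_lit 233) (nat_lit 156)) (XT.lf (nat_lit 0) (nat_lit 63215527178) (nat_lit 76) (nat_lit 41566887532) (nat_lit 76) (nat_lit 22875727325) (nat_lit 3) (nat_lit 4) (nat_lit 4) (nat_lit 5) (nat_lit 4) (nat_lit 4) (nat_lit 332) (nat_lit 233) (nat_lit 155))))))))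
noncomputable def xc89 : XT := (XT.nd (nat_lit 1326) (nat_lit 0) (nat_lit 0) (XT.nd (nat_lit 624) (nat_lit 152) (nat_lit 0) (XT.nd (nat_lit 312) (nat_lit 0) (nat_lit 0) (XT.nd (nat_lit 156) (nat_lit 0) (nat_lit 0) (XT.nd (nat_lit 78) (nat_lit 0) (nat_lit 0) (XT.lf (nat_lit 0) (nat_lit 73165608036) (nat_lit 76) (nat_lit 39696000440) (nat_lit 76) (nat_lit 20984590390) (nat_lit 3) (nat_lit 4) (nat_lit 4) (nat_lit 5) (nat_lit 4) (nat_lit 4) (nat_lit 333) (nat_lit 233) (nat_lit 154)) (XT.lf (nat_lit 0) (nat_lit 83599736146) (nat_lit 76) (nat_lit 37737502105) (nat_lit 76) (nat_lit 19006806491) (nat_lit 3) (nat_lit 4) (nat_lit 4) (nat_lit 5) (nat_lit 4) (nat_lit 4) (nat_lit 334) (nat_lit 233) (nat_lit 153))) (XT.nd (nat_lit 78) (nat_lit 0) (nat_lit 0) (XT.lf (nat_lit 0) (nat_lit 94542754669) (nat_lit 76) (nat_lit 35686729437) (nat_lit 76) (nat_lit 16937666620) (nat_lit 3) (nat_lit 4) (nat_lit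 4) (nat_lit 5) (nat_lit 4) (nat_lit 4) (nat_lit 335) (nat_lit 233) (nat_lit 152)) (XT.lf (nat_lit 0) (nat_lit 106020718412) (nat_lit 76) (nat_lit 33538799644) (nat_lit 76) (nat_lit 14772244252) (nat_lit 3) (nat_lit 4) (nat_lit 4) (nat_lit 5) (nat_lit 4) (nat_lit 4) (nat_lit 336) (nat_lit 233) (nat_lit 151)))) (XT.nd (nat_lit 156) (nat_lit 0) (nat_lit 0) (XT.nd (nat_lit 78) (nat_lit 0) (nat_lit 0) (XT.lf (nat_lit 0) (nat_lit 118060955860) (nat_lit 76) (nat_lit 31288598607) (nat_lit 76) (nat_lit 12505383620) (nat_lit 3) (nat_lit 4) (nat_lit 4) (nat_lit 5) (nat_lit 4) (nat_lit 4) (nat_lit 337) (nat_lit 233) (nat_lit 150)) (XT.lf (nat_lit 0) (nat_lit 130692134245) (nat_lit 76) (nat_lit 28930768705) (nat_lit 76) (nat_lit 10131687436) (nat_lit 3) (nat_lit 4) (nat_lit 4) (nat_lit 5) (nat_lit 4) (nat_lit 4) (nat_lit 338) (nat_lit 233) (nat_lit 149))) (XT.nd (nat_lit 78) (nat_lit 0) (nat_lit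 0) (XT.lf (nat_lit 0) (nat_lit 143944327801) (nat_lit 76) (nat_lit 26459696057) (nat_lit 76) (nat_lit 7645504044) (nat_lit 3) (nat_lit 4) (nat_lit 4) (nat_lit 5) (nat_lit 4) (nat_lit 4) (nat_lit 339) (nat_lit 233) (nat_lit 148)) (XT.lf (nat_lit 0) (nat_lit 157849089370) (nat_lit 76) (nat_lit 23869497156) (nat_lit 76) (nat_lit 5040913958) (nat_lit 3) (nat_lit 4) (nat_lit 4) (nat_lit 5) (nat_lit 4) (nat_lit 4) (nat_lit 340) (nat_lit 233) (nat_lit 147))))) (XT.nd (nat_lit 312) (nat_lit 76) (nat_lit 0) (XT.nd (nat_lit 156) (nat_lit 0) (nat_lit 0) (XT.nd (nat_lit 78) (nat_lit 76) (nat_lit 0) (XT.lf (nat_lit 0) (nat_lit 172439525528) (nat_lit 76) (nat_lit 21154004863) (nat_lit 76) (nat_lit 2311715775) (nat_lit 3) (nat_lit 4) (nat_lit 4) (nat_lit 5) (nat_lit 4) (nat_lit 4) (nat_lit 341) (nat_lit 233) (nat_lit 146)) (XT.lf (nat_lit 0) (nat_lit 531030336) (nat_lit 152) (nat_lit 17766730128)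 (nat_lit 76) (nat_lit 187210351815) (nat_lit 2) (nat_lit 5) (nat_lit 4) (nat_lit 5) (nat_lit 3) (nat_lit 4) (nat_lit 342) (nat_lit 233) (nat_lit 145))) (XT.nd (nat_lit 78) (nat_lit 0) (nat_lit 0) (XT.lf (nat_lit 0) (nat_lit 3433289355) (nat_lit 152) (nat_lit 11829530783) (nat_lit 76) (nat_lit 200326659639) (nat_lit 2) (nat_lit 5) (nat_lit 4) (nat_lit 5) (nat_lit 3) (nat_lit 4) (nat_lit 343) (nat_lit 233) (nat_lit 144)) (XT.lf (nat_lit 0) (nat_lit 6475960766) (nat_lit 152) (nat_lit 5603894055) (nat_lit 76) (nat_lit 214095301719) (nat_lit 2) (nat_lit 5) (nat_lit 4) (nat_lit 5) (nat_lit 3) (nat_lit 4) (nat_lit 344) (nat_lit 233) (nat_lit 143)))) (XT.nd (nat_lit 156) (nat_lit 0) (nat_lit 0) (XT.nd (nat_lit 78) (nat_lit 0) (nat_lit 0) (XT.lf (nat_lit 0) (nat_lit 955587778) (nat_lit 76) (nat_lit 8725620648) (nat_lit 152) (nat_lit 227608392160) (nat_lit 1) (nat_lit 5) (nat_lit 2) (nat_lit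 5) (nat_lit 3) (nat_lit 4) (nat_lit 345) (nat_lit 233) (nat_lit 142)) (XT.lf (nat_lit 0) (nat_lit 8029706123) (nat_lit 76) (nat_lit 5107530239) (nat_lit 152) (nat_lit 235818009892) (nat_lit 1) (nat_lit 5) (nat_lit 2) (nat_lit 5) (nat_lit 3) (nat_lit 4) (nat_lit 346) (nat_lit 233) (nat_lit 141))) (XT.nd (nat_lit 78) (nat_lit 0) (nat_lit 0) (XT.lf (nat_lit 0) (nat_lit 15450014072) (nat_lit 76) (nat_lit 1311873751) (nat_lit 152) (nat_lit 244442500337) (nat_lit 1) (nat_lit 5) (nat_lit 2) (nat_lit 5) (nat_lit 3) (nat_lit 4) (nat_lit 347) (nat_lit 233) (nat_lit 140)) (XT.nd (nat_lit 78) (nat_lit 0) (nat_lit 0) (XT.lf (nat_lit 0) (nat_lit 20605485143) (nat_lit 152) (nat_lit 250873704113) (nat_lit 0) (nat_lit 2584917060) (nat_lit 1) (nat_lit 5) (nat_lit 3) (nat_lit 4) (nat_lit 1) (nat_lit 4) (nat_lit 348) (nat_lit 233) (nat_lit 139)) (XT.lf (nat_lit 0) (nat_lit 24658931727) (nat_lit 152) (nat_lit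 256277471070) (nat_lit 0) (nat_lit 6629528705) (nat_lit 1) (nat_lit 5) (nat_lit 3) (nat_lit 4) (nat_lit 1) (nat_lit 4) (nat_lit 349) (nat_lit 233) (nat_lit 138))))))) (XT.nd (nat_lit 702) (nat_lit 0) (nat_lit 0) (XT.nd (nat_lit 312) (nat_lit 0) (nat_lit 0) (XT.nd (nat_lit 156) (nat_lit 0) (nat_lit 0) (XT.nd (nat_lit 78) (nat_lit 0) (nat_lit 0) (XT.lf (nat_lit 0) (nat_lit 28911396612) (nat_lit 152) (nat_lit 261958059045) (nat_lit 0) (nat_lit 10873579362) (nat_lit 1) (nat_lit 5) (nat_lit 3) (nat_lit 4) (nat_lit 1) (nat_lit 4) (nat_lit 350) (nat_lit 233) (nat_lit 137)) (XT.lf (nat_lit 0) (nat_lit 33373004715) (nat_lit 152) (nat_lit 267928993248) (nat_lit 0) (nat_lit 15327173915) (nat_lit 1) (nat_lit 5) (nat_lit 3) (nat_lit 4) (nat_lit 1) (nat_lit 4) (nat_lit 351) (nat_lit 233) (nat_lit 136))) (XT.nd (nat_lit 78) (nat_lit 0) (nat_lit 0) (XT.lf (nat_lit 0) (nat_lit 38054378913) (nat_lit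 152) (nat_lit 274204490188) (nat_lit 0) (nat_lit 20000916160) (nat_lit 1) (nat_lit 5) (nat_lit 3) (nat_lit 4) (nat_lit 1) (nat_lit 4) (nat_lit 352) (nat_lit 233) (nat_lit 135)) (XT.lf (nat_lit 0) (nat_lit 42966665333) (nat_lit 152) (nat_lit 280799491526) (nat_lit 0) (nat_lit 24905934054) (nat_lit 1) (nat_lit 5) (nat_lit 3) (nat_lit 4) (nat_lit 1) (nat_lit 4) (nat_lit 353) (nat_lit 233) (nat_lit 134)))) (XT.nd (nat_lit 156) (nat_lit 0) (nat_lit 0) (XT.nd (nat_lit 78) (nat_lit 0) (nat_lit 0) (XT.lf (nat_lit 0) (nat_lit 48121559898) (nat_lit 152) (nat_lit 287729699645) (nat_lit 0) (nat_lit 30053906213) (nat_lit 1) (nat_lit 5) (nat_lit 3) (nat_lit 4) (nat_lit 1) (nat_lit 4) (nat_lit 354) (nat_lit 233) (nat_lit 133)) (XT.lf (nat_lit 0) (nat_lit 53531336164) (nat_lit 152) (nat_lit 295011615040) (nat_lit 0) (nat_lit 35457089711) (nat_lit 1) (nat_lit 5) (nat_lit 3) (nat_lit 4) (nat_lit 1) (nat_lit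 4) (nat_lit 355) (nat_lit 233) (nat_lit 132))) (XT.nd (nat_lit 78) (nat_lit 0) (nat_lit 0) (XT.lf (nat_lit 0) (nat_lit 59208874551) (nat_lit 152) (nat_lit 302662575606) (nat_lit 0) (nat_lit 41128349272) (nat_lit 1) (nat_lit 5) (nat_lit 3) (nat_lit 4) (nat_lit 1) (nat_lit 4) (nat_lit 356) (nat_lit 233) (nat_lit 131)) (XT.nd (nat_lit 78) (nat_lit 0) (nat_lit 0) (XT.lf (nat_lit 0) (nat_lit 65167693009) (nat_lit 152) (nat_lit 310700797915) (nat_lit 0) (nat_lit 47081187896) (nat_lit 1) (nat_lit 5) (nat_lit 3) (nat_lit 4) (nat_lit 1) (nat_lit 4) (nat_lit 357) (nat_lit 233) (nat_lit 130)) (XT.lf (nat_lit 0) (nat_lit 71421979200) (nat_lit 152) (nat_lit 319145420592) (nat_lit 0) (nat_lit 53329779006) (nat_lit 1) (nat_lit 5) (nat_lit 3) (nat_lit 4) (nat_lit 1) (nat_lit 4) (nat_lit 358) (nat_lit 233) (nat_lit 129)))))) (XT.nd (nat_lit 29172) (nat_lit 0) (nat_lit 5472) (XT.nd (nat_lit 156) (nat_lit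 0) (nat_lit 0) (XT.nd (nat_lit 78) (nat_lit 0) (nat_lit 0) (XT.lf (nat_lit 0) (nat_lit 77986624281) (nat_lit 152) (nat_lit 328016549881) (nat_lit 0) (nat_lit 59889000201) (nat_lit 1) (nat_lit 5) (nat_lit 3) (nat_lit 4) (nat_lit 1) (nat_lit 4) (nat_lit 359) (nat_lit 233) (nat_lit 128)) (XT.lf (nat_lit 0) (nat_lit 84877258361) (nat_lit 152) (nat_lit 337335307519) (nat_lit 0) (nat_lit 66774468675) (nat_lit 1) (nat_lit 5) (nat_lit 3) (nat_lit 4) (nat_lit 1) (nat_lit 4) (nat_lit 360) (nat_lit 233) (nat_lit 127))) (XT.nd (nat_lit 78) (nat_lit 0) (nat_lit 0) (XT.lf (nat_lit 0) (nat_lit 92110287710) (nat_lit 152) (nat_lit 347123881024) (nat_lit 0) (nat_lit 74002578399) (nat_lit 1) (nat_lit 5) (nat_lit 3) (nat_lit 4) (nat_lit 1) (nat_lit 4) (nat_lit 361) (nat_lit 233) (nat_lit 126)) (XT.lf (nat_lit 0) (nat_lit 99702933827) (nat_lit 152) (nat_lit 357405576524) (nat_lit 0) (nat_lit 81590539160)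 (nat_lit 1) (nat_lit 5) (nat_lit 3) (nat_lit 4) (nat_lit 1) (nat_lit 4) (nat_lit 362) (nat_lit 233) (nat_lit 125)))) (XT.nd (nat_lit 156) (nat_lit 1216) (nat_lit 0) (XT.nd (nat_lit 78) (nat_lit 0) (nat_lit 0) (XT.lf (nat_lit 0) (nat_lit 357734937) (nat_lit 532) (nat_lit 2739191250) (nat_lit 0) (nat_lit 357734937) (nat_lit 89) (nat_lit 5) (nat_lit 96) (nat_lit 4) (nat_lit 89) (nat_lit 4) (nat_lit 252) (nat_lit 234) (nat_lit 234)) (XT.lf (nat_lit 0) (nat_lit 3637810788) (nat_lit 532) (nat_lit 1434263513) (nat_lit 0) (nat_lit 1921294775) (nat_lit 89) (nat_lit 5) (nat_lit 96) (nat_lit 4) (nat_lit 89) (nat_lit 4) (nat_lit 253) (nat_lit 234) (nat_lit 233))) (XT.nd (nat_lit 78) (nat_lit 684) (nat_lit 0) (XT.lf (nat_lit 0) (nat_lit 2764569838) (nat_lit 532) (nat_lit 3837207769) (nat_lit 532) (nat_lit 485914602) (nat_lit 82) (nat_lit 4) (nat_lit 89) (nat_lit 5) (nat_lit 89) (nat_lit 4) (nat_lit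 254) (nat_lit 234) (nat_lit 232)) (XT.nd (nat_lit 78) (nat_lit 608) (nat_lit 0) (XT.lf (nat_lit 0) (nat_lit 2325178870) (nat_lit 608) (nat_lit 141607107) (nat_lit 76) (nat_lit 4724800408) (nat_lit 81) (nat_lit 5) (nat_lit 89) (nat_lit 5) (nat_lit 82) (nat_lit 4) (nat_lit 255) (nat_lit 234) (nat_lit 231)) (XT.lf (nat_lit 0) (nat_lit 4244118985) (nat_lit 608) (nat_lit 943751183) (nat_lit 684) (nat_lit 2116771905) (nat_lit 73) (nat_lit 5) (nat_lit 81) (nat_lit 5) (nat_lit 82) (nat_lit 4) (nat_lit 256) (nat_lit 234) (nat_lit 230))))))))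
noncomputable def xc90 : XT := (XT.nd (nat_lit 1326) (nat_lit 1368) (nat_lit 0) (XT.nd (nat_lit 624) (nat_lit 1216) (nat_lit 0) (XT.nd (nat_lit 312) (nat_lit 988) (nat_lit 0) (XT.nd (nat_lit 156) (nat_lit 380) (nat_lit 0) (XT.nd (nat_lit 78) (nat_lit 0) (nat_lit 0) (XT.lf (nat_lit 0) (nat_lit 642458171) (nat_lit 760) (nat_lit 6114576780) (nat_lit 76) (nat_lit 671541338) (nat_lit 63) (nat_lit 5) (nat_lit 73) (nat_lit 5) (nat_lit 64) (nat_lit 4) (nat_lit 257) (nat_lit 234) (nat_lit 229)) (XT.lf (nat_lit 0) (nat_lit 3403905315) (nat_lit 760) (nat_lit 1734500811) (nat_lit 76) (nat_lit 2422430220) (nat_lit 63) (nat_lit 5) (nat_lit 73) (nat_lit 5) (nat_lit 64) (nat_lit 4) (nat_lit 258) (nat_lit 234) (nat_lit 228))) (XT.nd (nat_lit 78) (nat_lit 76) (nat_lit 0) (XT.lf (nat_lit 0) (nat_lit 2820701248) (nat_lit 304) (nat_lit 3400325015) (nat_lit 380) (nat_lit 1483406730) (nat_lit 59) (nat_lit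 5) (nat_lit 63) (nat_lit 5) (nat_lit 64) (nat_lit 4) (nat_lit 259) (nat_lit 234) (nat_lit 227)) (XT.lf (nat_lit 0) (nat_lit 1186238378) (nat_lit 380) (nat_lit 347684973) (nat_lit 76) (nat_lit 6325559534) (nat_lit 58) (nat_lit 5) (nat_lit 63) (nat_lit 5) (nat_lit 59) (nat_lit 5) (nat_lit 260) (nat_lit 234) (nat_lit 226)))) (XT.nd (nat_lit 156) (nat_lit 380) (nat_lit 0) (XT.nd (nat_lit 78) (nat_lit 304) (nat_lit 0) (XT.lf (nat_lit 0) (nat_lit 3897146784) (nat_lit 380) (nat_lit 3630553587) (nat_lit 76) (nat_lit 496008794) (nat_lit 54) (nat_lit 5) (nat_lit 59) (nat_lit 5) (nat_lit 55) (nat_lit 4) (nat_lit 261) (nat_lit 234) (nat_lit 225)) (XT.lf (nat_lit 0) (nat_lit 1061862084) (nat_lit 304) (nat_lit 5613834473) (nat_lit 380) (nat_lit 1524342037) (nat_lit 50) (nat_lit 5) (nat_lit 54) (nat_lit 5) (nat_lit 55) (nat_lit 4) (nat_lit 262) (nat_lit 234) (nat_lit 224))) (XT.nd (nat_lit 78) (nat_lit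 304) (nat_lit 0) (XT.lf (nat_lit 0) (nat_lit 1117353783) (nat_lit 380) (nat_lit 2423244781) (nat_lit 76) (nat_lit 4846691997) (nat_lit 49) (nat_lit 5) (nat_lit 54) (nat_lit 5) (nat_lit 50) (nat_lit 5) (nat_lit 263) (nat_lit 234) (nat_lit 223)) (XT.lf (nat_lit 0) (nat_lit 2451173703) (nat_lit 304) (nat_lit 1317987756) (nat_lit 380) (nat_lit 4817460469) (nat_lit 45) (nat_lit 5) (nat_lit 49) (nat_lit 5) (nat_lit 50) (nat_lit 5) (nat_lit 264) (nat_lit 234) (nat_lit 222))))) (XT.nd (nat_lit 312) (nat_lit 684) (nat_lit 0) (XT.nd (nat_lit 156) (nat_lit 228) (nat_lit 0) (XT.nd (nat_lit 78) (nat_lit 304) (nat_lit 0) (XT.lf (nat_lit 0) (nat_lit 6504973038) (nat_lit 380) (nat_lit 1289946719) (nat_lit 76) (nat_lit 1003838009) (nat_lit 45) (nat_lit 5) (nat_lit 50) (nat_lit 5) (nat_lit 46) (nat_lit 4) (nat_lit 265) (nat_lit 234) (nat_lit 221)) (XT.lf (nat_lit 0) (nat_lit 323331878) (nat_lit 304)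 (nat_lit 5257898579) (nat_lit 76) (nat_lit 3441429881) (nat_lit 41) (nat_lit 5) (nat_lit 45) (nat_lit 5) (nat_lit 42) (nat_lit 5) (nat_lit 266) (nat_lit 234) (nat_lit 220))) (XT.nd (nat_lit 78) (nat_lit 228) (nat_lit 0) (XT.lf (nat_lit 0) (nat_lit 2916220048) (nat_lit 304) (nat_lit 305917536) (nat_lit 76) (nat_lit 6037993152) (nat_lit 41) (nat_lit 5) (nat_lit 45) (nat_lit 5) (nat_lit 42) (nat_lit 5) (nat_lit 267) (nat_lit 234) (nat_lit 219)) (XT.lf (nat_lit 0) (nat_lit 4929257847) (nat_lit 228) (nat_lit 691023772) (nat_lit 304) (nat_lit 3890452725) (nat_lit 38) (nat_lit 5) (nat_lit 41) (nat_lit 5) (nat_lit 42) (nat_lit 5) (nat_lit 268) (nat_lit 234) (nat_lit 218)))) (XT.nd (nat_lit 156) (nat_lit 380) (nat_lit 0) (XT.nd (nat_lit 78) (nat_lit 76) (nat_lit 0) (XT.lf (nat_lit 0) (nat_lit 524469057) (nat_lit 228) (nat_lit 7886044998) (nat_lit 304) (nat_lit 1366125819) (nat_lit 35) (nat_lit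 5) (nat_lit 38) (nat_lit 5) (nat_lit 39) (nat_lit 4) (nat_lit 269) (nat_lit 234) (nat_lit 217)) (XT.lf (nat_lit 0) (nat_lit 1241046671) (nat_lit 304) (nat_lit 4165910921) (nat_lit 76) (nat_lit 4648283859) (nat_lit 34) (nat_lit 5) (nat_lit 38) (nat_lit 5) (nat_lit 35) (nat_lit 5) (nat_lit 270) (nat_lit 234) (nat_lit 216))) (XT.nd (nat_lit 78) (nat_lit 152) (nat_lit 0) (XT.lf (nat_lit 0) (nat_lit 1066332377) (nat_lit 228) (nat_lit 2794934374) (nat_lit 304) (nat_lit 6489233136) (nat_lit 31) (nat_lit 5) (nat_lit 34) (nat_lit 5) (nat_lit 35) (nat_lit 5) (nat_lit 271) (nat_lit 234) (nat_lit 215)) (XT.nd (nat_lit 78) (nat_lit 152) (nat_lit 0) (XT.lf (nat_lit 0) (nat_lit 6586691987) (nat_lit 228) (nat_lit 10657383) (nat_lit 304) (nat_lit 4064192671) (nat_lit 31) (nat_lit 5) (nat_lit 34) (nat_lit 5) (nat_lit 35) (nat_lit 5) (nat_lit 272) (nat_lit 234) (nat_lit 214)) (XT.lf (nat_lit 0) (nat_lit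 1273876362) (nat_lit 152) (nat_lit 8179624647) (nat_lit 228) (nat_lit 1535722882) (nat_lit 29) (nat_lit 5) (nat_lit 31) (nat_lit 5) (nat_lit 32) (nat_lit 4) (nat_lit 273) (nat_lit 234) (nat_lit 213))))))) (XT.nd (nat_lit 702) (nat_lit 532) (nat_lit 0) (XT.nd (nat_lit 312) (nat_lit 380) (nat_lit 0) (XT.nd (nat_lit 156) (nat_lit 152) (nat_lit 0) (XT.nd (nat_lit 78) (nat_lit 228) (nat_lit 0) (XT.lf (nat_lit 0) (nat_lit 1072144085) (nat_lit 228) (nat_lit 4434507824) (nat_lit 76) (nat_lit 5826552060) (nat_lit 28) (nat_lit 5) (nat_lit 31) (nat_lit 5) (nat_lit 29) (nat_lit 5) (nat_lit 274) (nat_lit 234) (nat_lit 212)) (XT.lf (nat_lit 0) (nat_lit 1005575384) (nat_lit 228) (nat_lit 2691279039) (nat_lit 304) (nat_lit 7999583497) (nat_lit 25) (nat_lit 5) (nat_lit 28) (nat_lit 5) (nat_lit 29) (nat_lit 5) (nat_lit 275) (nat_lit 234) (nat_lit 211))) (XT.nd (nat_lit 78) (nat_lit 152) (nat_lit 0) (XT.lf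 (nat_lit 0) (nat_lit 6457071186) (nat_lit 304) (nat_lit 5321283280) (nat_lit 76) (nat_lit 299471919) (nat_lit 25) (nat_lit 5) (nat_lit 29) (nat_lit 5) (nat_lit 26) (nat_lit 4) (nat_lit 276) (nat_lit 234) (nat_lit 210)) (XT.lf (nat_lit 0) (nat_lit 170043604) (nat_lit 152) (nat_lit 9159461718) (nat_lit 228) (nat_lit 3150265156) (nat_lit 23) (nat_lit 5) (nat_lit 25) (nat_lit 5) (nat_lit 26) (nat_lit 4) (nat_lit 277) (nat_lit 234) (nat_lit 209)))) (XT.nd (nat_lit 156) (nat_lit 304) (nat_lit 0) (XT.nd (nat_lit 78) (nat_lit 76) (nat_lit 0) (XT.lf (nat_lit 0) (nat_lit 6014368125) (nat_lit 152) (nat_lit 6350539680) (nat_lit 228) (nat_lit 536123816) (nat_lit 23) (nat_lit 5) (nat_lit 25) (nat_lit 5) (nat_lit 26) (nat_lit 4) (nat_lit 278) (nat_lit 234) (nat_lit 208)) (XT.lf (nat_lit 0) (nat_lit 2069352326) (nat_lit 228) (nat_lit 1330621140) (nat_lit 76) (nat_lit 9945261872) (nat_lit 22) (nat_lit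 5) (nat_lit 25) (nat_lit 5) (nat_lit 23) (nat_lit 5) (nat_lit 279) (nat_lit 234) (nat_lit 207))) (XT.nd (nat_lit 78) (nat_lit 152) (nat_lit 0) (XT.lf (nat_lit 0) (nat_lit 4541023325) (nat_lit 152) (nat_lit 251550933) (nat_lit 228) (nat_lit 9018522762) (nat_lit 20) (nat_lit 5) (nat_lit 22) (nat_lit 5) (nat_lit 23) (nat_lit 5) (nat_lit 280) (nat_lit 234) (nat_lit 206)) (XT.nd (nat_lit 78) (nat_lit 152) (nat_lit 0) (XT.lf (nat_lit 0) (nat_lit 7658215764) (nat_lit 228) (nat_lit 3694717671) (nat_lit 76) (nat_lit 2947159417) (nat_lit 20) (nat_lit 5) (nat_lit 23) (nat_lit 5) (nat_lit 21) (nat_lit 4) (nat_lit 281) (nat_lit 234) (nat_lit 205)) (XT.lf (nat_lit 0) (nat_lit 2128175068) (nat_lit 152) (nat_lit 8515046528) (nat_lit 228) (nat_lit 4171659422) (nat_lit 18) (nat_lit 5) (nat_lit 20) (nat_lit 5) (nat_lit 21) (nat_lit 4) (nat_lit 282) (nat_lit 234) (nat_lit 204)))))) (XT.nd (nat_lit 312)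 (nat_lit 304) (nat_lit 0) (XT.nd (nat_lit 156) (nat_lit 152) (nat_lit 0) (XT.nd (nat_lit 78) (nat_lit 76) (nat_lit 0) (XT.lf (nat_lit 0) (nat_lit 8276798347) (nat_lit 152) (nat_lit 5503437725) (nat_lit 228) (nat_lit 1575174277) (nat_lit 18) (nat_lit 5) (nat_lit 20) (nat_lit 5) (nat_lit 21) (nat_lit 4) (nat_lit 283) (nat_lit 234) (nat_lit 203)) (XT.lf (nat_lit 0) (nat_lit 1056263774) (nat_lit 228) (nat_lit 1299356249) (nat_lit 76) (nat_lit 13569475580) (nat_lit 17) (nat_lit 5) (nat_lit 20) (nat_lit 5) (nat_lit 18) (nat_lit 5) (nat_lit 284) (nat_lit 234) (nat_lit 202))) (XT.nd (nat_lit 78) (nat_lit 0) (nat_lit 0) (XT.lf (nat_lit 0) (nat_lit 3802157461) (nat_lit 228) (nat_lit 11727021100) (nat_lit 76) (nat_lit 991125090) (nat_lit 15) (nat_lit 5) (nat_lit 18) (nat_lit 5) (nat_lit 16) (nat_lit 4) (nat_lit 285) (nat_lit 234) (nat_lit 201)) (XT.lf (nat_lit 0) (nat_lit 6691867674) (nat_lit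 228) (nat_lit 6035328200) (nat_lit 76) (nat_lit 4417865045) (nat_lit 15) (nat_lit 5) (nat_lit 18) (nat_lit 5) (nat_lit 16) (nat_lit 4) (nat_lit 286) (nat_lit 234) (nat_lit 200)))) (XT.nd (nat_lit 156) (nat_lit 228) (nat_lit 0) (XT.nd (nat_lit 78) (nat_lit 76) (nat_lit 0) (XT.lf (nat_lit 0) (nat_lit 9674195922) (nat_lit 228) (nat_lit 142710564) (nat_lit 76) (nat_lit 7986852376) (nat_lit 15) (nat_lit 5) (nat_lit 18) (nat_lit 5) (nat_lit 16) (nat_lit 4) (nat_lit 287) (nat_lit 234) (nat_lit 199)) (XT.lf (nat_lit 0) (nat_lit 6162087122) (nat_lit 76) (nat_lit 6690363315) (nat_lit 152) (nat_lit 5640704997) (nat_lit 14) (nat_lit 5) (nat_lit 15) (nat_lit 5) (nat_lit 16) (nat_lit 4) (nat_lit 288) (nat_lit 234) (nat_lit 198))) (XT.nd (nat_lit 78) (nat_lit 228) (nat_lit 0) (XT.lf (nat_lit 0) (nat_lit 12708688277) (nat_lit 76) (nat_lit 3435077041) (nat_lit 152) (nat_lit 3075648398) (nat_lit 14)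 (nat_lit 5) (nat_lit 15) (nat_lit 5) (nat_lit 16) (nat_lit 4) (nat_lit 289) (nat_lit 234) (nat_lit 197)) (XT.nd (nat_lit 78) (nat_lit 228) (nat_lit 0) (XT.lf (nat_lit 0) (nat_lit 19507961390) (nat_lit 76) (nat_lit 45713856) (nat_lit 152) (nat_lit 430702736) (nat_lit 14) (nat_lit 5) (nat_lit 15) (nat_lit 5) (nat_lit 16) (nat_lit 4) (nat_lit 290) (nat_lit 234) (nat_lit 196)) (XT.lf (nat_lit 0) (nat_lit 2376080571) (nat_lit 228) (nat_lit 14899528025) (nat_lit 76) (nat_lit 3505001214) (nat_lit 11) (nat_lit 5) (nat_lit 14) (nat_lit 5) (nat_lit 12) (nat_lit 4) (nat_lit 291) (nat_lit 234) (nat_lit 195))))))))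
noncomputable def xc91 : XT := (XT.nd (nat_lit 1326) (nat_lit 228) (nat_lit 0) (XT.nd (nat_lit 624) (nat_lit 152) (nat_lit 0) (XT.nd (nat_lit 312) (nat_lit 152) (nat_lit 0) (XT.nd (nat_lit 156) (nat_lit 76) (nat_lit 0) (XT.nd (nat_lit 78) (nat_lit 0) (nat_lit 0) (XT.lf (nat_lit 0) (nat_lit 5273663346) (nat_lit 228) (nat_lit 9124512806) (nat_lit 76) (nat_lit 7219958969) (nat_lit 11) (nat_lit 5) (nat_lit 14) (nat_lit 5) (nat_lit 12) (nat_lit 4) (nat_lit 292) (nat_lit 234) (nat_lit 194)) (XT.lf (nat_lit 0) (nat_lit 8274205942) (nat_lit 228) (nat_lit 3130571408) (nat_lit 76) (nat_lit 11094933088) (nat_lit 11) (nat_lit 5) (nat_lit 14) (nat_lit 5) (nat_lit 12) (nat_lit 4) (nat_lit 293) (nat_lit 234) (nat_lit 193))) (XT.nd (nat_lit 78) (nat_lit 0) (nat_lit 0) (XT.lf (nat_lit 0) (nat_lit 3198953963) (nat_lit 76) (nat_lit 8235843181) (nat_lit 152) (nat_lit 11990140374) (nat_lit 10) (nat_lit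 5) (nat_lit 11) (nat_lit 5) (nat_lit 12) (nat_lit 4) (nat_lit 294) (nat_lit 234) (nat_lit 192)) (XT.lf (nat_lit 0) (nat_lit 9888214946) (nat_lit 76) (nat_lit 4879177146) (nat_lit 152) (nat_lit 9628405695) (nat_lit 10) (nat_lit 5) (nat_lit 11) (nat_lit 5) (nat_lit 12) (nat_lit 4) (nat_lit 295) (nat_lit 234) (nat_lit 191)))) (XT.nd (nat_lit 156) (nat_lit 152) (nat_lit 0) (XT.nd (nat_lit 78) (nat_lit 0) (nat_lit 0) (XT.lf (nat_lit 0) (nat_lit 16849627525) (nat_lit 76) (nat_lit 1379804924) (nat_lit 152) (nat_lit 7187695023) (nat_lit 10) (nat_lit 5) (nat_lit 11) (nat_lit 5) (nat_lit 12) (nat_lit 4) (nat_lit 296) (nat_lit 234) (nat_lit 190)) (XT.lf (nat_lit 0) (nat_lit 21864611680) (nat_lit 152) (nat_lit 2427042332) (nat_lit 0) (nat_lit 2197931771) (nat_lit 10) (nat_lit 5) (nat_lit 12) (nat_lit 4) (nat_lit 10) (nat_lit 4) (nat_lit 297) (nat_lit 234) (nat_lit 189))) (XT.nd (nat_lit 78) (nat_lit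 76) (nat_lit 0) (XT.lf (nat_lit 0) (nat_lit 4070179785) (nat_lit 76) (nat_lit 21663453629) (nat_lit 76) (nat_lit 1879490357) (nat_lit 9) (nat_lit 4) (nat_lit 10) (nat_lit 5) (nat_lit 10) (nat_lit 4) (nat_lit 298) (nat_lit 234) (nat_lit 188)) (XT.lf (nat_lit 0) (nat_lit 978981141) (nat_lit 152) (nat_lit 17888750372) (nat_lit 76) (nat_lit 9923988009) (nat_lit 8) (nat_lit 5) (nat_lit 10) (nat_lit 5) (nat_lit 9) (nat_lit 4) (nat_lit 299) (nat_lit 234) (nat_lit 187))))) (XT.nd (nat_lit 312) (nat_lit 76) (nat_lit 0) (XT.nd (nat_lit 156) (nat_lit 76) (nat_lit 0) (XT.nd (nat_lit 78) (nat_lit 0) (nat_lit 0) (XT.lf (nat_lit 0) (nat_lit 3884877239) (nat_lit 152) (nat_lit 12038042839) (nat_lit 76) (nat_lit 14106453847) (nat_lit 8) (nat_lit 5) (nat_lit 10) (nat_lit 5) (nat_lit 9) (nat_lit 4) (nat_lit 300) (nat_lit 234) (nat_lit 186)) (XT.lf (nat_lit 0) (nat_lit 6905272165) (nat_lit 152) (nat_lit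 5947547018) (nat_lit 76) (nat_lit 18477681797) (nat_lit 8) (nat_lit 5) (nat_lit 10) (nat_lit 5) (nat_lit 9) (nat_lit 4) (nat_lit 301) (nat_lit 234) (nat_lit 185))) (XT.nd (nat_lit 78) (nat_lit 0) (nat_lit 0) (XT.lf (nat_lit 0) (nat_lit 410372759) (nat_lit 76) (nat_lit 9643391645) (nat_lit 152) (nat_lit 22644113853) (nat_lit 7) (nat_lit 5) (nat_lit 8) (nat_lit 5) (nat_lit 9) (nat_lit 4) (nat_lit 302) (nat_lit 234) (nat_lit 184)) (XT.lf (nat_lit 0) (nat_lit 7243248853) (nat_lit 76) (nat_lit 6188452468) (nat_lit 152) (nat_lit 20698367548) (nat_lit 7) (nat_lit 5) (nat_lit 8) (nat_lit 5) (nat_lit 9) (nat_lit 4) (nat_lit 303) (nat_lit 234) (nat_lit 183)))) (XT.nd (nat_lit 156) (nat_lit 76) (nat_lit 0) (XT.nd (nat_lit 78) (nat_lit 0) (nat_lit 0) (XT.lf (nat_lit 0) (nat_lit 14370697250) (nat_lit 76) (nat_lit 2580500192) (nat_lit 152) (nat_lit 18684081759) (nat_lit 7) (nat_lit 5) (nat_lit 8)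 (nat_lit 5) (nat_lit 9) (nat_lit 4) (nat_lit 304) (nat_lit 234) (nat_lit 182)) (XT.lf (nat_lit 0) (nat_lit 20639197010) (nat_lit 152) (nat_lit 15425969512) (nat_lit 0) (nat_lit 1150998340) (nat_lit 7) (nat_lit 5) (nat_lit 9) (nat_lit 4) (nat_lit 7) (nat_lit 4) (nat_lit 305) (nat_lit 234) (nat_lit 181))) (XT.nd (nat_lit 78) (nat_lit 76) (nat_lit 0) (XT.lf (nat_lit 0) (nat_lit 24528824336) (nat_lit 152) (nat_lit 9381424599) (nat_lit 0) (nat_lit 4965023765) (nat_lit 7) (nat_lit 5) (nat_lit 9) (nat_lit 4) (nat_lit 7) (nat_lit 4) (nat_lit 306) (nat_lit 234) (nat_lit 180)) (XT.nd (nat_lit 78) (nat_lit 76) (nat_lit 0) (XT.lf (nat_lit 0) (nat_lit 28589051598) (nat_lit 152) (nat_lit 3076266600) (nat_lit 0) (nat_lit 8953249215) (nat_lit 7) (nat_lit 5) (nat_lit 9) (nat_lit 4) (nat_lit 7) (nat_lit 4) (nat_lit 307) (nat_lit 234) (nat_lit 179)) (XT.lf (nat_lit 0) (nat_lit 3620391917) (nat_lit 76)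 (nat_lit 29265678548) (nat_lit 76) (nat_lit 9561303013) (nat_lit 6) (nat_lit 4) (nat_lit 7) (nat_lit 5) (nat_lit 7) (nat_lit 4) (nat_lit 308) (nat_lit 234) (nat_lit 178))))))) (XT.nd (nat_lit 702) (nat_lit 76) (nat_lit 0) (XT.nd (nat_lit 312) (nat_lit 76) (nat_lit 0) (XT.nd (nat_lit 156) (nat_lit 76) (nat_lit 0) (XT.nd (nat_lit 78) (nat_lit 0) (nat_lit 0) (XT.lf (nat_lit 0) (nat_lit 10719691093) (nat_lit 76) (nat_lit 26708077291) (nat_lit 76) (nat_lit 6938393990) (nat_lit 6) (nat_lit 4) (nat_lit 7) (nat_lit 5) (nat_lit 7) (nat_lit 4) (nat_lit 309) (nat_lit 234) (nat_lit 177)) (XT.lf (nat_lit 0) (nat_lit 18136818754) (nat_lit 76) (nat_lit 24038522962) (nat_lit 76) (nat_lit 4206641790) (nat_lit 6) (nat_lit 4) (nat_lit 7) (nat_lit 5) (nat_lit 7) (nat_lit 4) (nat_lit 310) (nat_lit 234) (nat_lit 176))) (XT.nd (nat_lit 78) (nat_lit 76) (nat_lit 0) (XT.lf (nat_lit 0) (nat_lit 25889434727)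 (nat_lit 76) (nat_lit 21250659481) (nat_lit 76) (nat_lit 1359542241) (nat_lit 6) (nat_lit 4) (nat_lit 7) (nat_lit 5) (nat_lit 7) (nat_lit 4) (nat_lit 311) (nat_lit 234) (nat_lit 175)) (XT.lf (nat_lit 0) (nat_lit 1558163542) (nat_lit 152) (nat_lit 16753297281) (nat_lit 76) (nat_lit 32411445827) (nat_lit 5) (nat_lit 5) (nat_lit 7) (nat_lit 5) (nat_lit 6) (nat_lit 4) (nat_lit 312) (nat_lit 234) (nat_lit 174)))) (XT.nd (nat_lit 156) (nat_lit 76) (nat_lit 0) (XT.nd (nat_lit 78) (nat_lit 0) (nat_lit 0) (XT.lf (nat_lit 0) (nat_lit 4557416155) (nat_lit 152) (nat_lit 10658558283) (nat_lit 76) (nat_lit 37841210576) (nat_lit 5) (nat_lit 5) (nat_lit 7) (nat_lit 5) (nat_lit 6) (nat_lit 4) (nat_lit 313) (nat_lit 234) (nat_lit 173)) (XT.lf (nat_lit 0) (nat_lit 7688870519) (nat_lit 152) (nat_lit 4290247180) (nat_lit 76) (nat_lit 43529972963) (nat_lit 5) (nat_lit 5) (nat_lit 7) (nat_lit 5) (nat_lit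 6) (nat_lit 4) (nat_lit 314) (nat_lit 234) (nat_lit 172))) (XT.nd (nat_lit 78) (nat_lit 0) (nat_lit 0) (XT.lf (nat_lit 0) (nat_lit 2445055725) (nat_lit 76) (nat_lit 8553100923) (nat_lit 152) (nat_lit 47084396108) (nat_lit 4) (nat_lit 5) (nat_lit 5) (nat_lit 5) (nat_lit 6) (nat_lit 4) (nat_lit 315) (nat_lit 234) (nat_lit 171)) (XT.nd (nat_lit 78) (nat_lit 0) (nat_lit 0) (XT.lf (nat_lit 0) (nat_lit 9636869387) (nat_lit 76) (nat_lit 4892129540) (nat_lit 152) (nat_lit 46252907402) (nat_lit 4) (nat_lit 5) (nat_lit 5) (nat_lit 5) (nat_lit 6) (nat_lit 4) (nat_lit 316) (nat_lit 234) (nat_lit 170)) (XT.lf (nat_lit 0) (nat_lit 17160462226) (nat_lit 76) (nat_lit 1060144362) (nat_lit 152) (nat_lit 45396431704) (nat_lit 4) (nat_lit 5) (nat_lit 5) (nat_lit 5) (nat_lit 6) (nat_lit 4) (nat_lit 317) (nat_lit 234) (nat_lit 169)))))) (XT.nd (nat_lit 312) (nat_lit 76) (nat_lit 0) (XT.nd (nat_lit 156) (nat_lit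 0) (nat_lit 0) (XT.nd (nat_lit 78) (nat_lit 0) (nat_lit 0) (XT.lf (nat_lit 0) (nat_lit 22127857829) (nat_lit 152) (nat_lit 41607040055) (nat_lit 0) (nat_lit 2857496640) (nat_lit 4) (nat_lit 5) (nat_lit 6) (nat_lit 4) (nat_lit 4) (nat_lit 4) (nat_lit 318) (nat_lit 234) (nat_lit 168)) (XT.lf (nat_lit 0) (nat_lit 26233370658) (nat_lit 152) (nat_lit 36558197427) (nat_lit 0) (nat_lit 6924825372) (nat_lit 4) (nat_lit 5) (nat_lit 6) (nat_lit 4) (nat_lit 4) (nat_lit 4) (nat_lit 319) (nat_lit 234) (nat_lit 167))) (XT.nd (nat_lit 78) (nat_lit 0) (nat_lit 0) (XT.lf (nat_lit 0) (nat_lit 30530368282) (nat_lit 152) (nat_lit 31281475303) (nat_lit 0) (nat_lit 11185457188) (nat_lit 4) (nat_lit 5) (nat_lit 6) (nat_lit 4) (nat_lit 4) (nat_lit 4) (nat_lit 320) (nat_lit 234) (nat_lit 166)) (XT.lf (nat_lit 0) (nat_lit 35029081648) (nat_lit 152) (nat_lit 25764310058) (nat_lit 0) (nat_lit 15649536452) (nat_lit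 4) (nat_lit 5) (nat_lit 6) (nat_lit 4) (nat_lit 4) (nat_lit 4) (nat_lit 321) (nat_lit 234) (nat_lit 165)))) (XT.nd (nat_lit 156) (nat_lit 76) (nat_lit 0) (XT.nd (nat_lit 78) (nat_lit 0) (nat_lit 0) (XT.lf (nat_lit 0) (nat_lit 39740221977) (nat_lit 152) (nat_lit 19993565586) (nat_lit 0) (nat_lit 20327691922) (nat_lit 4) (nat_lit 5) (nat_lit 6) (nat_lit 4) (nat_lit 4) (nat_lit 4) (nat_lit 322) (nat_lit 234) (nat_lit 164)) (XT.lf (nat_lit 0) (nat_lit 44675006272) (nat_lit 152) (nat_lit 13955502017) (nat_lit 0) (nat_lit 25231062065) (nat_lit 4) (nat_lit 5) (nat_lit 6) (nat_lit 4) (nat_lit 4) (nat_lit 4) (nat_lit 323) (nat_lit 234) (nat_lit 163))) (XT.nd (nat_lit 78) (nat_lit 76) (nat_lit 0) (XT.lf (nat_lit 0) (nat_lit 49845184018) (nat_lit 152) (nat_lit 7635743012) (nat_lit 0) (nat_lit 30371321571) (nat_lit 4) (nat_lit 5) (nat_lit 6) (nat_lit 4) (nat_lit 4) (nat_lit 4) (nat_lit 324) (nat_lit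 234) (nat_lit 162)) (XT.nd (nat_lit 78) (nat_lit 76) (nat_lit 0) (XT.lf (nat_lit 0) (nat_lit 55263065161) (nat_lit 152) (nat_lit 1019241523) (nat_lit 0) (nat_lit 35760709153) (nat_lit 4) (nat_lit 5) (nat_lit 6) (nat_lit 4) (nat_lit 4) (nat_lit 4) (nat_lit 325) (nat_lit 234) (nat_lit 161)) (XT.lf (nat_lit 0) (nat_lit 6105159246) (nat_lit 76) (nat_lit 54931708819) (nat_lit 76) (nat_lit 35402216086) (nat_lit 3) (nat_lit 4) (nat_lit 4) (nat_lit 5) (nat_lit 4) (nat_lit 4) (nat_lit 326) (nat_lit 234) (nat_lit 160))))))))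
noncomputable def xc92 : XT := (XT.nd (nat_lit 1326) (nat_lit 76) (nat_lit 0) (XT.nd (nat_lit 624) (nat_lit 76) (nat_lit 0) (XT.nd (nat_lit 312) (nat_lit 0) (nat_lit 0) (XT.nd (nat_lit 156) (nat_lit 0) (nat_lit 0) (XT.nd (nat_lit 78) (nat_lit 0) (nat_lit 0) (XT.lf (nat_lit 0) (nat_lit 13603132431) (nat_lit 76) (nat_lit 53503407583) (nat_lit 76) (nat_lit 33948070350) (nat_lit 3) (nat_lit 4) (nat_lit 4) (nat_lit 5) (nat_lit 4) (nat_lit 4) (nat_lit 327) (nat_lit 234) (nat_lit 159)) (XT.lf (nat_lit 0) (nat_lit 21458829621) (nat_lit 76) (nat_lit 52011263608) (nat_lit 76) (nat_lit 32431312565) (nat_lit 3) (nat_lit 4) (nat_lit 4) (nat_lit 5) (nat_lit 4) (nat_lit 4) (nat_lit 328) (nat_lit 234) (nat_lit 158))) (XT.nd (nat_lit 78) (nat_lit 0) (nat_lit 0) (XT.lf (nat_lit 0) (nat_lit 29690954856) (nat_lit 76) (nat_lit 50451724169) (nat_lit 76) (nat_lit 30848331403) (nat_lit 3) (nat_lit 4) (nat_lit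 4) (nat_lit 5) (nat_lit 4) (nat_lit 4) (nat_lit 329) (nat_lit 234) (nat_lit 157)) (XT.lf (nat_lit 0) (nat_lit 38319108435) (nat_lit 76) (nat_lit 48821076078) (nat_lit 76) (nat_lit 29195357861) (nat_lit 3) (nat_lit 4) (nat_lit 4) (nat_lit 5) (nat_lit 4) (nat_lit 4) (nat_lit 330) (nat_lit 234) (nat_lit 156)))) (XT.nd (nat_lit 156) (nat_lit 0) (nat_lit 0) (XT.nd (nat_lit 78) (nat_lit 0) (nat_lit 0) (XT.lf (nat_lit 0) (nat_lit 47363833581) (nat_lit 76) (nat_lit 47115436840) (nat_lit 76) (nat_lit 27468456288) (nat_lit 3) (nat_lit 4) (nat_lit 4) (nat_lit 5) (nat_lit 4) (nat_lit 4) (nat_lit 331) (nat_lit 234) (nat_lit 155)) (XT.lf (nat_lit 0) (nat_lit 56846665353) (nat_lit 76) (nat_lit 45330745407) (nat_lit 76) (nat_lit 25663515013) (nat_lit 3) (nat_lit 4) (nat_lit 4) (nat_lit 5) (nat_lit 4) (nat_lit 4) (nat_lit 332) (nat_lit 234) (nat_lit 154))) (XT.nd (nat_lit 78) (nat_lit 0) (nat_lit 0)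 (XT.lf (nat_lit 0) (nat_lit 66790181923) (nat_lit 76) (nat_lit 43462752516) (nat_lit 76) (nat_lit 23776236558) (nat_lit 3) (nat_lit 4) (nat_lit 4) (nat_lit 5) (nat_lit 4) (nat_lit 4) (nat_lit 333) (nat_lit 234) (nat_lit 153)) (XT.lf (nat_lit 0) (nat_lit 77218058329) (nat_lit 76) (nat_lit 41507010564) (nat_lit 76) (nat_lit 21802127401) (nat_lit 3) (nat_lit 4) (nat_lit 4) (nat_lit 5) (nat_lit 4) (nat_lit 4) (nat_lit 334) (nat_lit 234) (nat_lit 152))))) (XT.nd (nat_lit 312) (nat_lit 76) (nat_lit 0) (XT.nd (nat_lit 156) (nat_lit 0) (nat_lit 0) (XT.nd (nat_lit 78) (nat_lit 0) (nat_lit 0) (XT.lf (nat_lit 0) (nat_lit 88155122849) (nat_lit 76) (nat_lit 39458863022) (nat_lit 76) (nat_lit 19736487285) (nat_lit 3) (nat_lit 4) (nat_lit 4) (nat_lit 5) (nat_lit 4) (nat_lit 4) (nat_lit 335) (nat_lit 234) (nat_lit 151)) (XT.lf (nat_lit 0) (nat_lit 99627416113) (nat_lit 76) (nat_lit 37313433349) (nat_lit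 76) (nat_lit 17574398016) (nat_lit 3) (nat_lit 4) (nat_lit 4) (nat_lit 5) (nat_lit 4) (nat_lit 4) (nat_lit 336) (nat_lit 234) (nat_lit 150))) (XT.nd (nat_lit 78) (nat_lit 0) (nat_lit 0) (XT.lf (nat_lit 0) (nat_lit 111662253105) (nat_lit 76) (nat_lit 35065613378) (nat_lit 76) (nat_lit 15310711765) (nat_lit 3) (nat_lit 4) (nat_lit 4) (nat_lit 5) (nat_lit 4) (nat_lit 4) (nat_lit 337) (nat_lit 234) (nat_lit 149)) (XT.lf (nat_lit 0) (nat_lit 124288288198) (nat_lit 76) (nat_lit 32710051159) (nat_lit 76) (nat_lit 12940038801) (nat_lit 3) (nat_lit 4) (nat_lit 4) (nat_lit 5) (nat_lit 4) (nat_lit 4) (nat_lit 338) (nat_lit 234) (nat_lit 148)))) (XT.nd (nat_lit 156) (nat_lit 76) (nat_lit 0) (XT.nd (nat_lit 78) (nat_lit 0) (nat_lit 0) (XT.lf (nat_lit 0) (nat_lit 137535583381) (nat_lit 76) (nat_lit 30241138208) (nat_lit 76) (nat_lit 10456734665) (nat_lit 3) (nat_lit 4) (nat_lit 4) (nat_lit 5) (nat_lit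 4) (nat_lit 4) (nat_lit 339) (nat_lit 234) (nat_lit 147)) (XT.lf (nat_lit 0) (nat_lit 151435679833) (nat_lit 76) (nat_lit 27652996162) (nat_lit 76) (nat_lit 7854886729) (nat_lit 3) (nat_lit 4) (nat_lit 4) (nat_lit 5) (nat_lit 4) (nat_lit 4) (nat_lit 340) (nat_lit 234) (nat_lit 146))) (XT.nd (nat_lit 78) (nat_lit 76) (nat_lit 0) (XT.lf (nat_lit 0) (nat_lit 166021673021) (nat_lit 76) (nat_lit 24939462778) (nat_lit 76) (nat_lit 5128300116) (nat_lit 3) (nat_lit 4) (nat_lit 4) (nat_lit 5) (nat_lit 4) (nat_lit 4) (nat_lit 341) (nat_lit 234) (nat_lit 145)) (XT.nd (nat_lit 78) (nat_lit 76) (nat_lit 0) (XT.lf (nat_lit 0) (nat_lit 181328291502) (nat_lit 76) (nat_lit 22094077263) (nat_lit 76) (nat_lit 2270482954) (nat_lit 3) (nat_lit 4) (nat_lit 4) (nat_lit 5) (nat_lit 4) (nat_lit 4) (nat_lit 342) (nat_lit 234) (nat_lit 144)) (XT.lf (nat_lit 0) (nat_lit 702152742) (nat_lit 152) (nat_lit 18396020848)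 (nat_lit 76) (nat_lit 196677935564) (nat_lit 2) (nat_lit 5) (nat_lit 4) (nat_lit 5) (nat_lit 3) (nat_lit 4) (nat_lit 343) (nat_lit 234) (nat_lit 143))))))) (XT.nd (nat_lit 702) (nat_lit 0) (nat_lit 0) (XT.nd (nat_lit 312) (nat_lit 0) (nat_lit 0) (XT.nd (nat_lit 156) (nat_lit 76) (nat_lit 0) (XT.nd (nat_lit 78) (nat_lit 0) (nat_lit 0) (XT.lf (nat_lit 0) (nat_lit 3742640385) (nat_lit 152) (nat_lit 12174297050) (nat_lit 76) (nat_lit 210444960391) (nat_lit 2) (nat_lit 5) (nat_lit 4) (nat_lit 5) (nat_lit 3) (nat_lit 4) (nat_lit 344) (nat_lit 234) (nat_lit 142)) (XT.lf (nat_lit 0) (nat_lit 6930888863) (nat_lit 152) (nat_lit 5649126594) (nat_lit 76) (nat_lit 224897178967) (nat_lit 2) (nat_lit 5) (nat_lit 4) (nat_lit 5) (nat_lit 3) (nat_lit 4) (nat_lit 345) (nat_lit 234) (nat_lit 141))) (XT.nd (nat_lit 78) (nat_lit 0) (nat_lit 0) (XT.lf (nat_lit 0) (nat_lit 1234539618) (nat_lit 76) (nat_lit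 9059224249) (nat_lit 152) (nat_lit 238853736340) (nat_lit 1) (nat_lit 5) (nat_lit 2) (nat_lit 5) (nat_lit 3) (nat_lit 4) (nat_lit 346) (nat_lit 234) (nat_lit 140)) (XT.lf (nat_lit 0) (nat_lit 8651355668) (nat_lit 76) (nat_lit 5265118721) (nat_lit 152) (nat_lit 247480267121) (nat_lit 1) (nat_lit 5) (nat_lit 2) (nat_lit 5) (nat_lit 3) (nat_lit 4) (nat_lit 347) (nat_lit 234) (nat_lit 139)))) (XT.nd (nat_lit 156) (nat_lit 0) (nat_lit 0) (XT.nd (nat_lit 78) (nat_lit 0) (nat_lit 0) (XT.lf (nat_lit 0) (nat_lit 16432195004) (nat_lit 76) (nat_lit 1284335982) (nat_lit 152) (nat_lit 256542107958) (nat_lit 1) (nat_lit 5) (nat_lit 2) (nat_lit 5) (nat_lit 3) (nat_lit 4) (nat_lit 348) (nat_lit 234) (nat_lit 138)) (XT.lf (nat_lit 0) (nat_lit 21748143033) (nat_lit 152) (nat_lit 263213394262) (nat_lit 0) (nat_lit 2800020693) (nat_lit 1) (nat_lit 5) (nat_lit 3) (nat_lit 4) (nat_lit 1) (nat_lit 4) (nat_lit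 349) (nat_lit 234) (nat_lit 137))) (XT.nd (nat_lit 78) (nat_lit 0) (nat_lit 0) (XT.lf (nat_lit 0) (nat_lit 25998910344) (nat_lit 152) (nat_lit 268897063617) (nat_lit 0) (nat_lit 7042774454) (nat_lit 1) (nat_lit 5) (nat_lit 3) (nat_lit 4) (nat_lit 1) (nat_lit 4) (nat_lit 350) (nat_lit 234) (nat_lit 136)) (XT.nd (nat_lit 78) (nat_lit 0) (nat_lit 0) (XT.lf (nat_lit 0) (nat_lit 30458901710) (nat_lit 152) (nat_lit 274870932467) (nat_lit 0) (nat_lit 11495133868) (nat_lit 1) (nat_lit 5) (nat_lit 3) (nat_lit 4) (nat_lit 1) (nat_lit 4) (nat_lit 351) (nat_lit 234) (nat_lit 135)) (XT.lf (nat_lit 0) (nat_lit 35138736158) (nat_lit 152) (nat_lit 281149224310) (nat_lit 0) (nat_lit 16167699789) (nat_lit 1) (nat_lit 5) (nat_lit 3) (nat_lit 4) (nat_lit 1) (nat_lit 4) (nat_lit 352) (nat_lit 234) (nat_lit 134)))))) (XT.nd (nat_lit 312) (nat_lit 0) (nat_lit 0) (XT.nd (nat_lit 156) (nat_lit 0) (nat_lit 0)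 (XT.nd (nat_lit 78) (nat_lit 0) (nat_lit 0) (XT.lf (nat_lit 0) (nat_lit 40049556151) (nat_lit 152) (nat_lit 287746887460) (nat_lit 0) (nat_lit 21071597376) (nat_lit 1) (nat_lit 5) (nat_lit 3) (nat_lit 4) (nat_lit 1) (nat_lit 4) (nat_lit 353) (nat_lit 234) (nat_lit 133)) (XT.lf (nat_lit 0) (nat_lit 45203054117) (nat_lit 152) (nat_lit 294679630637) (nat_lit 0) (nat_lit 26218502574) (nat_lit 1) (nat_lit 5) (nat_lit 3) (nat_lit 4) (nat_lit 1) (nat_lit 4) (nat_lit 354) (nat_lit 234) (nat_lit 132))) (XT.nd (nat_lit 78) (nat_lit 0) (nat_lit 0) (XT.lf (nat_lit 0) (nat_lit 50611500289) (nat_lit 152) (nat_lit 301963960374) (nat_lit 0) (nat_lit 31620669921) (nat_lit 1) (nat_lit 5) (nat_lit 3) (nat_lit 4) (nat_lit 1) (nat_lit 4) (nat_lit 355) (nat_lit 234) (nat_lit 131)) (XT.lf (nat_lit 0) (nat_lit 56287771921) (nat_lit 152) (nat_lit 309617220314) (nat_lit 0) (nat_lit 37290961718) (nat_lit 1) (nat_lit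 5) (nat_lit 3) (nat_lit 4) (nat_lit 1) (nat_lit 4) (nat_lit 356) (nat_lit 234) (nat_lit 130)))) (XT.nd (nat_lit 156) (nat_lit 0) (nat_lit 0) (XT.nd (nat_lit 78) (nat_lit 0) (nat_lit 0) (XT.lf (nat_lit 0) (nat_lit 62245383945) (nat_lit 152) (nat_lit 317657632502) (nat_lit 0) (nat_lit 43242878661) (nat_lit 1) (nat_lit 5) (nat_lit 3) (nat_lit 4) (nat_lit 1) (nat_lit 4) (nat_lit 357) (nat_lit 234) (nat_lit 129)) (XT.lf (nat_lit 0) (nat_lit 68498521151) (nat_lit 152) (nat_lit 326104340778) (nat_lit 0) (nat_lit 49490591981) (nat_lit 1) (nat_lit 5) (nat_lit 3) (nat_lit 4) (nat_lit 1) (nat_lit 4) (nat_lit 358) (nat_lit 234) (nat_lit 128))) (XT.nd (nat_lit 78) (nat_lit 0) (nat_lit 0) (XT.lf (nat_lit 0) (nat_lit 75062071961) (nat_lit 152) (nat_lit 334977456353) (nat_lit 0) (nat_lit 56048977185) (nat_lit 1) (nat_lit 5) (nat_lit 3) (nat_lit 4) (nat_lit 1) (nat_lit 4) (nat_lit 359) (nat_lit 234)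 (nat_lit 127)) (XT.nd (nat_lit 78) (nat_lit 0) (nat_lit 0) (XT.lf (nat_lit 0) (nat_lit 81951663878) (nat_lit 152) (nat_lit 344298105691) (nat_lit 0) (nat_lit 62933649477) (nat_lit 1) (nat_lit 5) (nat_lit 3) (nat_lit 4) (nat_lit 1) (nat_lit 4) (nat_lit 360) (nat_lit 234) (nat_lit 126)) (XT.lf (nat_lit 0) (nat_lit 89183700691) (nat_lit 152) (nat_lit 354088480815) (nat_lit 0) (nat_lit 70161000933) (nat_lit 1) (nat_lit 5) (nat_lit 3) (nat_lit 4) (nat_lit 1) (nat_lit 4) (nat_lit 361) (nat_lit 234) (nat_lit 125))))))))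
noncomputable def xc93 : XT := (XT.nd (nat_lit 30030) (nat_lit 0) (nat_lit 1292) (XT.nd (nat_lit 29328) (nat_lit 0) (nat_lit 3344) (XT.nd (nat_lit 29016) (nat_lit 0) (nat_lit 5472) (XT.nd (nat_lit 28860) (nat_lit 0) (nat_lit 6688) (XT.nd (nat_lit 28782) (nat_lit 0) (nat_lit 7220) (XT.lf (nat_lit 0) (nat_lit 96775401535) (nat_lit 152) (nat_lit 364371892142) (nat_lit 0) (nat_lit 77748239533) (nat_lit 1) (nat_lit 5) (nat_lit 3) (nat_lit 4) (nat_lit 1) (nat_lit 4) (nat_lit 362) (nat_lit 234) (nat_lit 124)) (XT.lf (nat_lit 0) (nat_lit 154480843) (nat_lit 380) (nat_lit 1613510789) (nat_lit 380) (nat_lit 1613510789) (nat_lit 96) (nat_lit 4) (nat_lit 101) (nat_lit 5) (nat_lit 101) (nat_lit 4) (nat_lit 250) (nat_lit 235) (nat_lit 235))) (XT.nd (nat_lit 78) (nat_lit 532) (nat_lit 0) (XT.lf (nat_lit 0) (nat_lit 4247374997) (nat_lit 380) (nat_lit 2239227626) (nat_lit 380) (nat_lit 346768723) (nat_lit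 96) (nat_lit 4) (nat_lit 101) (nat_lit 5) (nat_lit 101) (nat_lit 4) (nat_lit 251) (nat_lit 235) (nat_lit 234)) (XT.lf (nat_lit 0) (nat_lit 1347276422) (nat_lit 456) (nat_lit 1112273401) (nat_lit 532) (nat_lit 4453120580) (nat_lit 89) (nat_lit 5) (nat_lit 95) (nat_lit 5) (nat_lit 96) (nat_lit 4) (nat_lit 252) (nat_lit 235) (nat_lit 233)))) (XT.nd (nat_lit 156) (nat_lit 608) (nat_lit 0) (XT.nd (nat_lit 78) (nat_lit 608) (nat_lit 0) (XT.lf (nat_lit 0) (nat_lit 5292498777) (nat_lit 532) (nat_lit 1570238599) (nat_lit 0) (nat_lit 138863797) (nat_lit 89) (nat_lit 5) (nat_lit 96) (nat_lit 4) (nat_lit 89) (nat_lit 4) (nat_lit 253) (nat_lit 235) (nat_lit 232)) (XT.lf (nat_lit 0) (nat_lit 1050029085) (nat_lit 608) (nat_lit 4558005978) (nat_lit 76) (nat_lit 1491027482) (nat_lit 81) (nat_lit 5) (nat_lit 89) (nat_lit 5) (nat_lit 82) (nat_lit 4) (nat_lit 254) (nat_lit 235) (nat_lit 231))) (XT.nd (nat_lit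 78) (nat_lit 608) (nat_lit 0) (XT.lf (nat_lit 0) (nat_lit 3777819269) (nat_lit 608) (nat_lit 448827171) (nat_lit 76) (nat_lit 2979676432) (nat_lit 81) (nat_lit 5) (nat_lit 89) (nat_lit 5) (nat_lit 82) (nat_lit 4) (nat_lit 255) (nat_lit 235) (nat_lit 230)) (XT.lf (nat_lit 0) (nat_lit 3863035224) (nat_lit 608) (nat_lit 2707000810) (nat_lit 684) (nat_lit 753207137) (nat_lit 73) (nat_lit 5) (nat_lit 81) (nat_lit 5) (nat_lit 82) (nat_lit 4) (nat_lit 256) (nat_lit 235) (nat_lit 229))))) (XT.nd (nat_lit 312) (nat_lit 988) (nat_lit 0) (XT.nd (nat_lit 156) (nat_lit 380) (nat_lit 0) (XT.nd (nat_lit 78) (nat_lit 0) (nat_lit 0) (XT.lf (nat_lit 0) (nat_lit 825304544) (nat_lit 684) (nat_lit 1054700432) (nat_lit 760) (nat_lit 5570535914) (nat_lit 63) (nat_lit 5) (nat_lit 72) (nat_lit 5) (nat_lit 73) (nat_lit 5) (nat_lit 257) (nat_lit 235) (nat_lit 228)) (XT.lf (nat_lit 0) (nat_lit 4563308411) (nat_lit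 760) (nat_lit 2294136360) (nat_lit 76) (nat_lit 729557830) (nat_lit 63) (nat_lit 5) (nat_lit 73) (nat_lit 5) (nat_lit 64) (nat_lit 4) (nat_lit 258) (nat_lit 235) (nat_lit 227))) (XT.nd (nat_lit 78) (nat_lit 76) (nat_lit 0) (XT.lf (nat_lit 0) (nat_lit 2178174338) (nat_lit 304) (nat_lit 5133483488) (nat_lit 380) (nat_lit 422660442) (nat_lit 59) (nat_lit 5) (nat_lit 63) (nat_lit 5) (nat_lit 64) (nat_lit 4) (nat_lit 259) (nat_lit 235) (nat_lit 226)) (XT.lf (nat_lit 0) (nat_lit 2154942684) (nat_lit 380) (nat_lit 1100154740) (nat_lit 76) (nat_lit 4636601621) (nat_lit 58) (nat_lit 5) (nat_lit 63) (nat_lit 5) (nat_lit 59) (nat_lit 5) (nat_lit 260) (nat_lit 235) (nat_lit 225)))) (XT.nd (nat_lit 156) (nat_lit 380) (nat_lit 0) (XT.nd (nat_lit 78) (nat_lit 304) (nat_lit 0) (XT.lf (nat_lit 0) (nat_lit 3561733688) (nat_lit 304) (nat_lit 1227680070) (nat_lit 380) (nat_lit 3270575693) (nat_lit 54)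 (nat_lit 5) (nat_lit 58) (nat_lit 5) (nat_lit 59) (nat_lit 5) (nat_lit 261) (nat_lit 235) (nat_lit 224)) (XT.lf (nat_lit 0) (nat_lit 120893264) (nat_lit 304) (nat_lit 7359500209) (nat_lit 380) (nat_lit 760534630) (nat_lit 50) (nat_lit 5) (nat_lit 54) (nat_lit 5) (nat_lit 55) (nat_lit 4) (nat_lit 262) (nat_lit 235) (nat_lit 223))) (XT.nd (nat_lit 78) (nat_lit 304) (nat_lit 0) (XT.lf (nat_lit 0) (nat_lit 1803536661) (nat_lit 380) (nat_lit 3480308034) (nat_lit 76) (nat_lit 3146607287) (nat_lit 49) (nat_lit 5) (nat_lit 54) (nat_lit 5) (nat_lit 50) (nat_lit 5) (nat_lit 263) (nat_lit 235) (nat_lit 222)) (XT.nd (nat_lit 78) (nat_lit 0) (nat_lit 0) (XT.lf (nat_lit 0) (nat_lit 1296900059) (nat_lit 304) (nat_lit 3089777193) (nat_lit 380) (nat_lit 4246738758) (nat_lit 45) (nat_lit 5) (nat_lit 49) (nat_lit 5) (nat_lit 50) (nat_lit 5) (nat_lit 264) (nat_lit 235) (nat_lit 221)) (XT.lf (nat_lit 0)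 (nat_lit 6312243499) (nat_lit 304) (nat_lit 744894702) (nat_lit 380) (nat_lit 1791870993) (nat_lit 45) (nat_lit 5) (nat_lit 49) (nat_lit 5) (nat_lit 50) (nat_lit 5) (nat_lit 265) (nat_lit 235) (nat_lit 220))))))) (XT.nd (nat_lit 702) (nat_lit 760) (nat_lit 0) (XT.nd (nat_lit 312) (nat_lit 760) (nat_lit 0) (XT.nd (nat_lit 156) (nat_lit 228) (nat_lit 0) (XT.nd (nat_lit 78) (nat_lit 0) (nat_lit 0) (XT.lf (nat_lit 0) (nat_lit 728232636) (nat_lit 304) (nat_lit 6655652437) (nat_lit 76) (nat_lit 1692854479) (nat_lit 41) (nat_lit 5) (nat_lit 45) (nat_lit 5) (nat_lit 42) (nat_lit 5) (nat_lit 266) (nat_lit 235) (nat_lit 219)) (XT.lf (nat_lit 0) (nat_lit 3274569324) (nat_lit 304) (nat_lit 1763267368) (nat_lit 76) (nat_lit 4278864802) (nat_lit 41) (nat_lit 5) (nat_lit 45) (nat_lit 5) (nat_lit 42) (nat_lit 5) (nat_lit 267) (nat_lit 235) (nat_lit 218))) (XT.nd (nat_lit 78) (nat_lit 0) (nat_lit 0)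 (XT.lf (nat_lit 0) (nat_lit 3365086700) (nat_lit 228) (nat_lit 2544788357) (nat_lit 304) (nat_lit 3661023998) (nat_lit 38) (nat_lit 5) (nat_lit 41) (nat_lit 5) (nat_lit 42) (nat_lit 5) (nat_lit 268) (nat_lit 235) (nat_lit 217)) (XT.lf (nat_lit 0) (nat_lit 8619682157) (nat_lit 304) (nat_lit 1145657720) (nat_lit 76) (nat_lit 75634701) (nat_lit 38) (nat_lit 5) (nat_lit 42) (nat_lit 5) (nat_lit 39) (nat_lit 4) (nat_lit 269) (nat_lit 235) (nat_lit 216)))) (XT.nd (nat_lit 156) (nat_lit 456) (nat_lit 0) (XT.nd (nat_lit 78) (nat_lit 0) (nat_lit 0) (XT.lf (nat_lit 0) (nat_lit 1319512643) (nat_lit 304) (nat_lit 5999702774) (nat_lit 76) (nat_lit 2803469167) (nat_lit 34) (nat_lit 5) (nat_lit 38) (nat_lit 5) (nat_lit 35) (nat_lit 5) (nat_lit 270) (nat_lit 235) (nat_lit 215)) (XT.lf (nat_lit 0) (nat_lit 3882178974) (nat_lit 304) (nat_lit 857367344) (nat_lit 76) (nat_lit 5681402864) (nat_lit 34) (nat_lit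 5) (nat_lit 38) (nat_lit 5) (nat_lit 35) (nat_lit 5) (nat_lit 271) (nat_lit 235) (nat_lit 214))) (XT.nd (nat_lit 78) (nat_lit 228) (nat_lit 0) (XT.lf (nat_lit 0) (nat_lit 4579764908) (nat_lit 228) (nat_lit 1984853925) (nat_lit 304) (nat_lit 4170176999) (nat_lit 31) (nat_lit 5) (nat_lit 34) (nat_lit 5) (nat_lit 35) (nat_lit 5) (nat_lit 272) (nat_lit 235) (nat_lit 213)) (XT.nd (nat_lit 78) (nat_lit 228) (nat_lit 0) (XT.lf (nat_lit 0) (nat_lit 9331916612) (nat_lit 304) (nat_lit 870307849) (nat_lit 76) (nat_lit 864812444) (nat_lit 31) (nat_lit 5) (nat_lit 35) (nat_lit 5) (nat_lit 32) (nat_lit 4) (nat_lit 273) (nat_lit 235) (nat_lit 212)) (XT.lf (nat_lit 0) (nat_lit 826988383) (nat_lit 228) (nat_lit 6737180137) (nat_lit 76) (nat_lit 3849716829) (nat_lit 28) (nat_lit 5) (nat_lit 31) (nat_lit 5) (nat_lit 29) (nat_lit 5) (nat_lit 274) (nat_lit 235) (nat_lit 211)))))) (XT.nd (nat_lit 312) (nat_lit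 380) (nat_lit 0) (XT.nd (nat_lit 156) (nat_lit 152) (nat_lit 0) (XT.nd (nat_lit 78) (nat_lit 228) (nat_lit 0) (XT.lf (nat_lit 0) (nat_lit 3399929433) (nat_lit 228) (nat_lit 1381224659) (nat_lit 76) (nat_lit 6998654337) (nat_lit 28) (nat_lit 5) (nat_lit 31) (nat_lit 5) (nat_lit 29) (nat_lit 5) (nat_lit 275) (nat_lit 235) (nat_lit 210)) (XT.lf (nat_lit 0) (nat_lit 4278039991) (nat_lit 228) (nat_lit 1819848451) (nat_lit 304) (nat_lit 6066517209) (nat_lit 25) (nat_lit 5) (nat_lit 28) (nat_lit 5) (nat_lit 29) (nat_lit 5) (nat_lit 276) (nat_lit 235) (nat_lit 209))) (XT.nd (nat_lit 78) (nat_lit 152) (nat_lit 0) (XT.lf (nat_lit 0) (nat_lit 8905541595) (nat_lit 304) (nat_lit 2422267816) (nat_lit 76) (nat_lit 1241870688) (nat_lit 25) (nat_lit 5) (nat_lit 29) (nat_lit 5) (nat_lit 26) (nat_lit 4) (nat_lit 277) (nat_lit 235) (nat_lit 208)) (XT.lf (nat_lit 0) (nat_lit 3292575741) (nat_lit 152) (nat_lit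 8576420582) (nat_lit 228) (nat_lit 1125629262) (nat_lit 23) (nat_lit 5) (nat_lit 25) (nat_lit 5) (nat_lit 26) (nat_lit 4) (nat_lit 278) (nat_lit 235) (nat_lit 207)))) (XT.nd (nat_lit 156) (nat_lit 152) (nat_lit 0) (XT.nd (nat_lit 78) (nat_lit 152) (nat_lit 0) (XT.lf (nat_lit 0) (nat_lit 1466807983) (nat_lit 228) (nat_lit 4184975461) (nat_lit 76) (nat_lit 7789180259) (nat_lit 22) (nat_lit 5) (nat_lit 25) (nat_lit 5) (nat_lit 23) (nat_lit 5) (nat_lit 279) (nat_lit 235) (nat_lit 206)) (XT.lf (nat_lit 0) (nat_lit 1544896319) (nat_lit 152) (nat_lit 2567968274) (nat_lit 228) (nat_lit 9797894175) (nat_lit 20) (nat_lit 5) (nat_lit 22) (nat_lit 5) (nat_lit 23) (nat_lit 5) (nat_lit 280) (nat_lit 235) (nat_lit 205))) (XT.nd (nat_lit 78) (nat_lit 152) (nat_lit 0) (XT.lf (nat_lit 0) (nat_lit 6912453352) (nat_lit 228) (nat_lit 6800790509) (nat_lit 76) (nat_lit 689884916) (nat_lit 20) (nat_lit 5)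 (nat_lit 23) (nat_lit 5) (nat_lit 21) (nat_lit 4) (nat_lit 281) (nat_lit 235) (nat_lit 204)) (XT.nd (nat_lit 78) (nat_lit 152) (nat_lit 0) (XT.lf (nat_lit 0) (nat_lit 9835768616) (nat_lit 228) (nat_lit 1090250616) (nat_lit 76) (nat_lit 3995050374) (nat_lit 20) (nat_lit 5) (nat_lit 23) (nat_lit 5) (nat_lit 21) (nat_lit 4) (nat_lit 282) (nat_lit 235) (nat_lit 203)) (XT.lf (nat_lit 0) (nat_lit 4978799615) (nat_lit 152) (nat_lit 7948610877) (nat_lit 228) (nat_lit 2536521962) (nat_lit 18) (nat_lit 5) (nat_lit 20) (nat_lit 5) (nat_lit 21) (nat_lit 4) (nat_lit 283) (nat_lit 235) (nat_lit 202))))))))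
noncomputable def xc94 : XT := (XT.nd (nat_lit 1326) (nat_lit 304) (nat_lit 0) (XT.nd (nat_lit 624) (nat_lit 228) (nat_lit 0) (XT.nd (nat_lit 312) (nat_lit 304) (nat_lit 0) (XT.nd (nat_lit 156) (nat_lit 0) (nat_lit 0) (XT.nd (nat_lit 78) (nat_lit 152) (nat_lit 0) (XT.lf (nat_lit 0) (nat_lit 98726872) (nat_lit 228) (nat_lit 4733269821) (nat_lit 76) (nat_lit 11203778255) (nat_lit 17) (nat_lit 5) (nat_lit 20) (nat_lit 5) (nat_lit 18) (nat_lit 5) (nat_lit 284) (nat_lit 235) (nat_lit 201)) (XT.lf (nat_lit 0) (nat_lit 1220895310) (nat_lit 152) (nat_lit 1526027705) (nat_lit 228) (nat_lit 13889000911) (nat_lit 15) (nat_lit 5) (nat_lit 17) (nat_lit 5) (nat_lit 18) (nat_lit 5) (nat_lit 285) (nat_lit 235) (nat_lit 200))) (XT.nd (nat_lit 78) (nat_lit 0) (nat_lit 0) (XT.lf (nat_lit 0) (nat_lit 5587506453) (nat_lit 228) (nat_lit 9740319859) (nat_lit 76) (nat_lit 1935364606) (nat_lit 15) (nat_lit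 5) (nat_lit 18) (nat_lit 5) (nat_lit 16) (nat_lit 4) (nat_lit 286) (nat_lit 235) (nat_lit 199)) (XT.lf (nat_lit 0) (nat_lit 8545738313) (nat_lit 228) (nat_lit 3886568614) (nat_lit 76) (nat_lit 5490837594) (nat_lit 15) (nat_lit 5) (nat_lit 18) (nat_lit 5) (nat_lit 16) (nat_lit 4) (nat_lit 287) (nat_lit 235) (nat_lit 198)))) (XT.nd (nat_lit 156) (nat_lit 228) (nat_lit 0) (XT.nd (nat_lit 78) (nat_lit 0) (nat_lit 0) (XT.lf (nat_lit 0) (nat_lit 2256200702) (nat_lit 76) (nat_lit 9383861352) (nat_lit 152) (nat_lit 6976724000) (nat_lit 14) (nat_lit 5) (nat_lit 15) (nat_lit 5) (nat_lit 16) (nat_lit 4) (nat_lit 288) (nat_lit 235) (nat_lit 197)) (XT.lf (nat_lit 0) (nat_lit 8766383272) (nat_lit 76) (nat_lit 6142568933) (nat_lit 152) (nat_lit 4435259482) (nat_lit 14) (nat_lit 5) (nat_lit 15) (nat_lit 5) (nat_lit 16) (nat_lit 4) (nat_lit 289) (nat_lit 235) (nat_lit 196))) (XT.nd (nat_lit 78) (nat_lit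 228) (nat_lit 0) (XT.lf (nat_lit 0) (nat_lit 15530972018) (nat_lit 76) (nat_lit 2766533229) (nat_lit 152) (nat_lit 1812782470) (nat_lit 14) (nat_lit 5) (nat_lit 15) (nat_lit 5) (nat_lit 16) (nat_lit 4) (nat_lit 290) (nat_lit 235) (nat_lit 195)) (XT.lf (nat_lit 0) (nat_lit 907024893) (nat_lit 228) (nat_lit 19237927237) (nat_lit 76) (nat_lit 769246714) (nat_lit 11) (nat_lit 5) (nat_lit 14) (nat_lit 5) (nat_lit 12) (nat_lit 4) (nat_lit 291) (nat_lit 235) (nat_lit 194))))) (XT.nd (nat_lit 312) (nat_lit 152) (nat_lit 0) (XT.nd (nat_lit 156) (nat_lit 76) (nat_lit 0) (XT.nd (nat_lit 78) (nat_lit 0) (nat_lit 0) (XT.lf (nat_lit 0) (nat_lit 3784159220) (nat_lit 228) (nat_lit 13496972790) (nat_lit 76) (nat_lit 4471652506) (nat_lit 11) (nat_lit 5) (nat_lit 14) (nat_lit 5) (nat_lit 12) (nat_lit 4) (nat_lit 292) (nat_lit 235) (nat_lit 193)) (XT.lf (nat_lit 0) (nat_lit 6765227104) (nat_lit 228) (nat_lit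 7535470221) (nat_lit 76) (nat_lit 8334672375) (nat_lit 11) (nat_lit 5) (nat_lit 14) (nat_lit 5) (nat_lit 12) (nat_lit 4) (nat_lit 293) (nat_lit 235) (nat_lit 192))) (XT.nd (nat_lit 78) (nat_lit 76) (nat_lit 0) (XT.lf (nat_lit 0) (nat_lit 9857326326) (nat_lit 228) (nat_lit 1339225478) (nat_lit 76) (nat_lit 12367503988) (nat_lit 11) (nat_lit 5) (nat_lit 14) (nat_lit 5) (nat_lit 12) (nat_lit 4) (nat_lit 294) (nat_lit 235) (nat_lit 191)) (XT.lf (nat_lit 0) (nat_lit 5275358831) (nat_lit 76) (nat_lit 7874823330) (nat_lit 152) (nat_lit 11386753629) (nat_lit 10) (nat_lit 5) (nat_lit 11) (nat_lit 5) (nat_lit 12) (nat_lit 4) (nat_lit 295) (nat_lit 235) (nat_lit 190)))) (XT.nd (nat_lit 156) (nat_lit 152) (nat_lit 0) (XT.nd (nat_lit 78) (nat_lit 0) (nat_lit 0) (XT.lf (nat_lit 0) (nat_lit 12207822998) (nat_lit 76) (nat_lit 4387124565) (nat_lit 152) (nat_lit 8964212871) (nat_lit 10) (nat_lit 5) (nat_lit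 11) (nat_lit 5) (nat_lit 12) (nat_lit 4) (nat_lit 296) (nat_lit 235) (nat_lit 189)) (XT.lf (nat_lit 0) (nat_lit 19430392048) (nat_lit 76) (nat_lit 747831896) (nat_lit 152) (nat_lit 6456019671) (nat_lit 10) (nat_lit 5) (nat_lit 11) (nat_lit 5) (nat_lit 12) (nat_lit 4) (nat_lit 297) (nat_lit 235) (nat_lit 188))) (XT.nd (nat_lit 78) (nat_lit 152) (nat_lit 0) (XT.lf (nat_lit 0) (nat_lit 23956188811) (nat_lit 152) (nat_lit 852128376) (nat_lit 0) (nat_lit 2954045571) (nat_lit 10) (nat_lit 5) (nat_lit 12) (nat_lit 4) (nat_lit 10) (nat_lit 4) (nat_lit 298) (nat_lit 235) (nat_lit 187)) (XT.nd (nat_lit 78) (nat_lit 76) (nat_lit 0) (XT.lf (nat_lit 0) (nat_lit 5942595717) (nat_lit 76) (nat_lit 22054581917) (nat_lit 76) (nat_lit 946059210) (nat_lit 9) (nat_lit 4) (nat_lit 10) (nat_lit 5) (nat_lit 10) (nat_lit 4) (nat_lit 299) (nat_lit 235) (nat_lit 186)) (XT.lf (nat_lit 0) (nat_lit 1975094262) (nat_lit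 152) (nat_lit 17160893247) (nat_lit 76) (nat_lit 11046417847) (nat_lit 8) (nat_lit 5) (nat_lit 10) (nat_lit 5) (nat_lit 9) (nat_lit 4) (nat_lit 300) (nat_lit 235) (nat_lit 185))))))) (XT.nd (nat_lit 702) (nat_lit 152) (nat_lit 0) (XT.nd (nat_lit 312) (nat_lit 76) (nat_lit 0) (XT.nd (nat_lit 156) (nat_lit 76) (nat_lit 0) (XT.nd (nat_lit 78) (nat_lit 0) (nat_lit 0) (XT.lf (nat_lit 0) (nat_lit 4981182114) (nat_lit 152) (nat_lit 11094902462) (nat_lit 76) (nat_lit 15408186480) (nat_lit 8) (nat_lit 5) (nat_lit 10) (nat_lit 5) (nat_lit 9) (nat_lit 4) (nat_lit 301) (nat_lit 235) (nat_lit 184)) (XT.lf (nat_lit 0) (nat_lit 8109641501) (nat_lit 152) (nat_lit 4773455304) (nat_lit 76) (nat_lit 19969575354) (nat_lit 8) (nat_lit 5) (nat_lit 10) (nat_lit 5) (nat_lit 9) (nat_lit 4) (nat_lit 302) (nat_lit 235) (nat_lit 183))) (XT.nd (nat_lit 78) (nat_lit 0) (nat_lit 0) (XT.lf (nat_lit 0) (nat_lit 1878627090)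 (nat_lit 76) (nat_lit 9518624677) (nat_lit 152) (nat_lit 22892148461) (nat_lit 7) (nat_lit 5) (nat_lit 8) (nat_lit 5) (nat_lit 9) (nat_lit 4) (nat_lit 303) (nat_lit 235) (nat_lit 182)) (XT.lf (nat_lit 0) (nat_lit 8984207194) (nat_lit 76) (nat_lit 5919840280) (nat_lit 152) (nat_lit 20891218227) (nat_lit 7) (nat_lit 5) (nat_lit 8) (nat_lit 5) (nat_lit 9) (nat_lit 4) (nat_lit 304) (nat_lit 235) (nat_lit 181)))) (XT.nd (nat_lit 156) (nat_lit 76) (nat_lit 0) (XT.nd (nat_lit 78) (nat_lit 0) (nat_lit 0) (XT.lf (nat_lit 0) (nat_lit 16402371063) (nat_lit 76) (nat_lit 2159015858) (nat_lit 152) (nat_lit 18816316610) (nat_lit 7) (nat_lit 5) (nat_lit 8) (nat_lit 5) (nat_lit 9) (nat_lit 4) (nat_lit 305) (nat_lit 235) (nat_lit 180)) (XT.lf (nat_lit 0) (nat_lit 22405656481) (nat_lit 152) (nat_lit 14917378857) (nat_lit 0) (nat_lit 1716062168) (nat_lit 7) (nat_lit 5) (nat_lit 9) (nat_lit 4) (nat_lit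 7) (nat_lit 4) (nat_lit 306) (nat_lit 235) (nat_lit 179))) (XT.nd (nat_lit 78) (nat_lit 76) (nat_lit 0) (XT.lf (nat_lit 0) (nat_lit 26454789001) (nat_lit 152) (nat_lit 8631553800) (nat_lit 0) (nat_lit 5696621535) (nat_lit 7) (nat_lit 5) (nat_lit 9) (nat_lit 4) (nat_lit 7) (nat_lit 4) (nat_lit 307) (nat_lit 235) (nat_lit 178)) (XT.nd (nat_lit 78) (nat_lit 76) (nat_lit 0) (XT.lf (nat_lit 0) (nat_lit 30684716985) (nat_lit 152) (nat_lit 2069182760) (nat_lit 0) (nat_lit 9861241754) (nat_lit 7) (nat_lit 5) (nat_lit 9) (nat_lit 4) (nat_lit 7) (nat_lit 4) (nat_lit 308) (nat_lit 235) (nat_lit 177)) (XT.lf (nat_lit 0) (nat_lit 4943584536) (nat_lit 76) (nat_lit 30239110363) (nat_lit 76) (nat_lit 9353437261) (nat_lit 6) (nat_lit 4) (nat_lit 7) (nat_lit 5) (nat_lit 7) (nat_lit 4) (nat_lit 309) (nat_lit 235) (nat_lit 176)))))) (XT.nd (nat_lit 312) (nat_lit 76) (nat_lit 0) (XT.nd (nat_lit 156) (nat_lit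 76) (nat_lit 0) (XT.nd (nat_lit 78) (nat_lit 0) (nat_lit 0) (XT.lf (nat_lit 0) (nat_lit 12343459479) (nat_lit 76) (nat_lit 27576955334) (nat_lit 76) (nat_lit 6632046164) (nat_lit 6) (nat_lit 4) (nat_lit 7) (nat_lit 5) (nat_lit 7) (nat_lit 4) (nat_lit 310) (nat_lit 235) (nat_lit 175)) (XT.lf (nat_lit 0) (nat_lit 20079644293) (nat_lit 76) (nat_lit 24796138804) (nat_lit 76) (nat_lit 3794814331) (nat_lit 6) (nat_lit 4) (nat_lit 7) (nat_lit 5) (nat_lit 7) (nat_lit 4) (nat_lit 311) (nat_lit 235) (nat_lit 174))) (XT.nd (nat_lit 78) (nat_lit 76) (nat_lit 0) (XT.lf (nat_lit 0) (nat_lit 28170558465) (nat_lit 76) (nat_lit 21890039782) (nat_lit 76) (nat_lit 834986449) (nat_lit 6) (nat_lit 4) (nat_lit 7) (nat_lit 5) (nat_lit 7) (nat_lit 4) (nat_lit 312) (nat_lit 235) (nat_lit 173)) (XT.lf (nat_lit 0) (nat_lit 2182327100) (nat_lit 152) (nat_lit 16632453119) (nat_lit 76) (nat_lit 34416180210) (nat_lit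 5) (nat_lit 5) (nat_lit 7) (nat_lit 5) (nat_lit 6) (nat_lit 4) (nat_lit 313) (nat_lit 235) (nat_lit 172)))) (XT.nd (nat_lit 156) (nat_lit 76) (nat_lit 0) (XT.nd (nat_lit 78) (nat_lit 0) (nat_lit 0) (XT.lf (nat_lit 0) (nat_lit 5305530184) (nat_lit 152) (nat_lit 10278620458) (nat_lit 76) (nat_lit 40099139764) (nat_lit 5) (nat_lit 5) (nat_lit 7) (nat_lit 5) (nat_lit 6) (nat_lit 4) (nat_lit 314) (nat_lit 235) (nat_lit 171)) (XT.lf (nat_lit 0) (nat_lit 8568783779) (nat_lit 152) (nat_lit 3635363597) (nat_lit 76) (nat_lit 46054917953) (nat_lit 5) (nat_lit 5) (nat_lit 7) (nat_lit 5) (nat_lit 6) (nat_lit 4) (nat_lit 315) (nat_lit 235) (nat_lit 170))) (XT.nd (nat_lit 78) (nat_lit 0) (nat_lit 0) (XT.lf (nat_lit 0) (nat_lit 3422681938) (nat_lit 76) (nat_lit 8610613256) (nat_lit 152) (nat_lit 48928450922) (nat_lit 4) (nat_lit 5) (nat_lit 5) (nat_lit 5) (nat_lit 6) (nat_lit 4) (nat_lit 316) (nat_lit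 235) (nat_lit 169)) (XT.nd (nat_lit 78) (nat_lit 0) (nat_lit 0) (XT.lf (nat_lit 0) (nat_lit 10933354216) (nat_lit 76) (nat_lit 4784219146) (nat_lit 152) (nat_lit 48079681352) (nat_lit 4) (nat_lit 5) (nat_lit 5) (nat_lit 5) (nat_lit 6) (nat_lit 4) (nat_lit 317) (nat_lit 235) (nat_lit 168)) (XT.lf (nat_lit 0) (nat_lit 18794334251) (nat_lit 76) (nat_lit 777421227) (nat_lit 152) (nat_lit 47203518602) (nat_lit 4) (nat_lit 5) (nat_lit 5) (nat_lit 5) (nat_lit 6) (nat_lit 4) (nat_lit 318) (nat_lit 235) (nat_lit 167))))))))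
noncomputable def xc95 : XT := (XT.nd (nat_lit 1404) (nat_lit 152) (nat_lit 0) (XT.nd (nat_lit 702) (nat_lit 0) (nat_lit 0) (XT.nd (nat_lit 312) (nat_lit 76) (nat_lit 0) (XT.nd (nat_lit 156) (nat_lit 0) (nat_lit 0) (XT.nd (nat_lit 78) (nat_lit 0) (nat_lit 0) (XT.lf (nat_lit 0) (nat_lit 23658403342) (nat_lit 152) (nat_lit 42931941251) (nat_lit 0) (nat_lit 3309880886) (nat_lit 4) (nat_lit 5) (nat_lit 6) (nat_lit 4) (nat_lit 4) (nat_lit 4) (nat_lit 319) (nat_lit 235) (nat_lit 166)) (XT.lf (nat_lit 0) (nat_lit 27948994068) (nat_lit 152) (nat_lit 37666630339) (nat_lit 0) (nat_lit 7565837511) (nat_lit 4) (nat_lit 5) (nat_lit 6) (nat_lit 4) (nat_lit 4) (nat_lit 4) (nat_lit 320) (nat_lit 235) (nat_lit 165))) (XT.nd (nat_lit 78) (nat_lit 0) (nat_lit 0) (XT.lf (nat_lit 0) (nat_lit 32441605627) (nat_lit 152) (nat_lit 32160332916) (nat_lit 0) (nat_lit 12025464210) (nat_lit 4) (nat_lit 5) (nat_lit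 6) (nat_lit 4) (nat_lit 4) (nat_lit 4) (nat_lit 321) (nat_lit 235) (nat_lit 164)) (XT.lf (nat_lit 0) (nat_lit 37146934712) (nat_lit 152) (nat_lit 26399938750) (nat_lit 0) (nat_lit 16699379144) (nat_lit 4) (nat_lit 5) (nat_lit 6) (nat_lit 4) (nat_lit 4) (nat_lit 4) (nat_lit 322) (nat_lit 235) (nat_lit 163)))) (XT.nd (nat_lit 156) (nat_lit 76) (nat_lit 0) (XT.nd (nat_lit 78) (nat_lit 0) (nat_lit 0) (XT.lf (nat_lit 0) (nat_lit 42076184488) (nat_lit 152) (nat_lit 20371732616) (nat_lit 0) (nat_lit 21598710679) (nat_lit 4) (nat_lit 5) (nat_lit 6) (nat_lit 4) (nat_lit 4) (nat_lit 4) (nat_lit 323) (nat_lit 235) (nat_lit 162)) (XT.lf (nat_lit 0) (nat_lit 47241091263) (nat_lit 152) (nat_lit 14061361643) (nat_lit 0) (nat_lit 26735123893) (nat_lit 4) (nat_lit 5) (nat_lit 6) (nat_lit 4) (nat_lit 4) (nat_lit 4) (nat_lit 324) (nat_lit 235) (nat_lit 161))) (XT.nd (nat_lit 78) (nat_lit 76) (nat_lit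 0) (XT.lf (nat_lit 0) (nat_lit 52653952435) (nat_lit 152) (nat_lit 7453801139) (nat_lit 0) (nat_lit 32120848340) (nat_lit 4) (nat_lit 5) (nat_lit 6) (nat_lit 4) (nat_lit 4) (nat_lit 4) (nat_lit 325) (nat_lit 235) (nat_lit 160)) (XT.nd (nat_lit 78) (nat_lit 76) (nat_lit 0) (XT.lf (nat_lit 0) (nat_lit 58327655769) (nat_lit 152) (nat_lit 533318815) (nat_lit 0) (nat_lit 37768707173) (nat_lit 4) (nat_lit 5) (nat_lit 6) (nat_lit 4) (nat_lit 4) (nat_lit 4) (nat_lit 326) (nat_lit 235) (nat_lit 159)) (XT.lf (nat_lit 0) (nat_lit 6938642561) (nat_lit 76) (nat_lit 57445399176) (nat_lit 76) (nat_lit 36861836771) (nat_lit 3) (nat_lit 4) (nat_lit 4) (nat_lit 5) (nat_lit 4) (nat_lit 4) (nat_lit 327) (nat_lit 235) (nat_lit 158)))))) (XT.nd (nat_lit 312) (nat_lit 0) (nat_lit 0) (XT.nd (nat_lit 156) (nat_lit 0) (nat_lit 0) (XT.nd (nat_lit 78) (nat_lit 0) (nat_lit 0) (XT.lf (nat_lit 0) (nat_lit 14786360817)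 (nat_lit 76) (nat_lit 55956773120) (nat_lit 76) (nat_lit 35349768991) (nat_lit 3) (nat_lit 4) (nat_lit 4) (nat_lit 5) (nat_lit 4) (nat_lit 4) (nat_lit 328) (nat_lit 235) (nat_lit 157)) (XT.lf (nat_lit 0) (nat_lit 23010887068) (nat_lit 76) (nat_lit 54400584081) (nat_lit 76) (nat_lit 33771254502) (nat_lit 3) (nat_lit 4) (nat_lit 4) (nat_lit 5) (nat_lit 4) (nat_lit 4) (nat_lit 329) (nat_lit 235) (nat_lit 156))) (XT.nd (nat_lit 78) (nat_lit 0) (nat_lit 0) (XT.lf (nat_lit 0) (nat_lit 31631803519) (nat_lit 76) (nat_lit 52773126847) (nat_lit 76) (nat_lit 32122534933) (nat_lit 3) (nat_lit 4) (nat_lit 4) (nat_lit 5) (nat_lit 4) (nat_lit 4) (nat_lit 330) (nat_lit 235) (nat_lit 155)) (XT.lf (nat_lit 0) (nat_lit 40669636162) (nat_lit 76) (nat_lit 51070526520) (nat_lit 76) (nat_lit 30399684764) (nat_lit 3) (nat_lit 4) (nat_lit 4) (nat_lit 5) (nat_lit 4) (nat_lit 4) (nat_lit 331) (nat_lit 235) (nat_lit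 154)))) (XT.nd (nat_lit 156) (nat_lit 0) (nat_lit 0) (XT.nd (nat_lit 78) (nat_lit 0) (nat_lit 0) (XT.lf (nat_lit 0) (nat_lit 50145903646) (nat_lit 76) (nat_lit 49288729289) (nat_lit 76) (nat_lit 28598601968) (nat_lit 3) (nat_lit 4) (nat_lit 4) (nat_lit 5) (nat_lit 4) (nat_lit 4) (nat_lit 332) (nat_lit 235) (nat_lit 153)) (XT.lf (nat_lit 0) (nat_lit 60083168512) (nat_lit 76) (nat_lit 47423492780) (nat_lit 76) (nat_lit 26714998256) (nat_lit 3) (nat_lit 4) (nat_lit 4) (nat_lit 5) (nat_lit 4) (nat_lit 4) (nat_lit 333) (nat_lit 235) (nat_lit 152))) (XT.nd (nat_lit 78) (nat_lit 0) (nat_lit 0) (XT.lf (nat_lit 0) (nat_lit 70505090915) (nat_lit 76) (nat_lit 45470375953) (nat_lit 76) (nat_lit 24744388854) (nat_lit 3) (nat_lit 4) (nat_lit 4) (nat_lit 5) (nat_lit 4) (nat_lit 4) (nat_lit 334) (nat_lit 235) (nat_lit 151)) (XT.nd (nat_lit 78) (nat_lit 0) (nat_lit 0) (XT.lf (nat_lit 0) (nat_lit 81436484956)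 (nat_lit 76) (nat_lit 43424728531) (nat_lit 76) (nat_lit 22682081837) (nat_lit 3) (nat_lit 4) (nat_lit 4) (nat_lit 5) (nat_lit 4) (nat_lit 4) (nat_lit 335) (nat_lit 235) (nat_lit 150)) (XT.lf (nat_lit 0) (nat_lit 92903377764) (nat_lit 76) (nat_lit 41281679925) (nat_lit 76) (nat_lit 20523166949) (nat_lit 3) (nat_lit 4) (nat_lit 4) (nat_lit 5) (nat_lit 4) (nat_lit 4) (nat_lit 336) (nat_lit 235) (nat_lit 149))))))) (XT.nd (nat_lit 702) (nat_lit 76) (nat_lit 0) (XT.nd (nat_lit 312) (nat_lit 76) (nat_lit 0) (XT.nd (nat_lit 156) (nat_lit 0) (nat_lit 0) (XT.nd (nat_lit 78) (nat_lit 0) (nat_lit 0) (XT.lf (nat_lit 0) (nat_lit 104933071464) (nat_lit 76) (nat_lit 39036127637) (nat_lit 76) (nat_lit 18262503917) (nat_lit 3) (nat_lit 4) (nat_lit 4) (nat_lit 5) (nat_lit 4) (nat_lit 4) (nat_lit 337) (nat_lit 235) (nat_lit 148)) (XT.lf (nat_lit 0) (nat_lit 117554208184) (nat_lit 76) (nat_lit 36682725115)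 (nat_lit 76) (nat_lit 15894710210) (nat_lit 3) (nat_lit 4) (nat_lit 4) (nat_lit 5) (nat_lit 4) (nat_lit 4) (nat_lit 338) (nat_lit 235) (nat_lit 147))) (XT.nd (nat_lit 78) (nat_lit 0) (nat_lit 0) (XT.lf (nat_lit 0) (nat_lit 130796838250) (nat_lit 76) (nat_lit 34215869019) (nat_lit 76) (nat_lit 13414148224) (nat_lit 3) (nat_lit 4) (nat_lit 4) (nat_lit 5) (nat_lit 4) (nat_lit 4) (nat_lit 339) (nat_lit 235) (nat_lit 146)) (XT.lf (nat_lit 0) (nat_lit 144692491733) (nat_lit 76) (nat_lit 31629685883) (nat_lit 76) (nat_lit 10814911859) (nat_lit 3) (nat_lit 4) (nat_lit 4) (nat_lit 5) (nat_lit 4) (nat_lit 4) (nat_lit 340) (nat_lit 235) (nat_lit 145)))) (XT.nd (nat_lit 156) (nat_lit 76) (nat_lit 0) (XT.nd (nat_lit 78) (nat_lit 0) (nat_lit 0) (XT.lf (nat_lit 0) (nat_lit 159274253522) (nat_lit 76) (nat_lit 28918018127) (nat_lit 76) (nat_lit 8090812456) (nat_lit 3) (nat_lit 4) (nat_lit 4) (nat_lit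 5) (nat_lit 4) (nat_lit 4) (nat_lit 341) (nat_lit 235) (nat_lit 144)) (XT.lf (nat_lit 0) (nat_lit 174576842099) (nat_lit 76) (nat_lit 26074409399) (nat_lit 76) (nat_lit 5235364066) (nat_lit 3) (nat_lit 4) (nat_lit 4) (nat_lit 5) (nat_lit 4) (nat_lit 4) (nat_lit 342) (nat_lit 235) (nat_lit 143))) (XT.nd (nat_lit 78) (nat_lit 76) (nat_lit 0) (XT.lf (nat_lit 0) (nat_lit 190636692197) (nat_lit 76) (nat_lit 23092089204) (nat_lit 76) (nat_lit 2241768001) (nat_lit 3) (nat_lit 4) (nat_lit 4) (nat_lit 5) (nat_lit 4) (nat_lit 4) (nat_lit 343) (nat_lit 235) (nat_lit 142)) (XT.nd (nat_lit 78) (nat_lit 0) (nat_lit 0) (XT.lf (nat_lit 0) (nat_lit 868390439) (nat_lit 152) (nat_lit 19080859727) (nat_lit 76) (nat_lit 206608944504) (nat_lit 2) (nat_lit 5) (nat_lit 4) (nat_lit 5) (nat_lit 3) (nat_lit 4) (nat_lit 344) (nat_lit 235) (nat_lit 141)) (XT.lf (nat_lit 0) (nat_lit 4054658175) (nat_lit 152) (nat_lit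 12559238413) (nat_lit 76) (nat_lit 221059696184) (nat_lit 2) (nat_lit 5) (nat_lit 4) (nat_lit 5) (nat_lit 3) (nat_lit 4) (nat_lit 345) (nat_lit 235) (nat_lit 140)))))) (XT.nd (nat_lit 312) (nat_lit 0) (nat_lit 0) (XT.nd (nat_lit 156) (nat_lit 0) (nat_lit 0) (XT.nd (nat_lit 78) (nat_lit 76) (nat_lit 0) (XT.lf (nat_lit 0) (nat_lit 7396372136) (nat_lit 152) (nat_lit 5718465314) (nat_lit 76) (nat_lit 236230121509) (nat_lit 2) (nat_lit 5) (nat_lit 4) (nat_lit 5) (nat_lit 3) (nat_lit 4) (nat_lit 346) (nat_lit 235) (nat_lit 139)) (XT.lf (nat_lit 0) (nat_lit 1505946828) (nat_lit 76) (nat_lit 9419054005) (nat_lit 152) (nat_lit 250673905761) (nat_lit 1) (nat_lit 5) (nat_lit 2) (nat_lit 5) (nat_lit 3) (nat_lit 4) (nat_lit 347) (nat_lit 235) (nat_lit 138))) (XT.nd (nat_lit 78) (nat_lit 0) (nat_lit 0) (XT.lf (nat_lit 0) (nat_lit 9283618907) (nat_lit 76) (nat_lit 5439678032) (nat_lit 152) (nat_lit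 259737597244) (nat_lit 1) (nat_lit 5) (nat_lit 2) (nat_lit 5) (nat_lit 3) (nat_lit 4) (nat_lit 348) (nat_lit 235) (nat_lit 137)) (XT.lf (nat_lit 0) (nat_lit 17443990902) (nat_lit 76) (nat_lit 1264079804) (nat_lit 152) (nat_lit 269258086466) (nat_lit 1) (nat_lit 5) (nat_lit 2) (nat_lit 5) (nat_lit 3) (nat_lit 4) (nat_lit 349) (nat_lit 235) (nat_lit 136)))) (XT.nd (nat_lit 156) (nat_lit 0) (nat_lit 0) (XT.nd (nat_lit 78) (nat_lit 0) (nat_lit 0) (XT.lf (nat_lit 0) (nat_lit 22937485452) (nat_lit 152) (nat_lit 276189034445) (nat_lit 0) (nat_lit 3017897265) (nat_lit 1) (nat_lit 5) (nat_lit 3) (nat_lit 4) (nat_lit 1) (nat_lit 4) (nat_lit 350) (nat_lit 235) (nat_lit 135)) (XT.lf (nat_lit 0) (nat_lit 27395937069) (nat_lit 152) (nat_lit 282165698198) (nat_lit 0) (nat_lit 7469080355) (nat_lit 1) (nat_lit 5) (nat_lit 3) (nat_lit 4) (nat_lit 1) (nat_lit 4) (nat_lit 351) (nat_lit 235) (nat_lit 134)))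 (XT.nd (nat_lit 78) (nat_lit 0) (nat_lit 0) (XT.lf (nat_lit 0) (nat_lit 32074305089) (nat_lit 152) (nat_lit 288446651853) (nat_lit 0) (nat_lit 12140525969) (nat_lit 1) (nat_lit 5) (nat_lit 3) (nat_lit 4) (nat_lit 1) (nat_lit 4) (nat_lit 352) (nat_lit 235) (nat_lit 133)) (XT.nd (nat_lit 78) (nat_lit 0) (nat_lit 0) (XT.lf (nat_lit 0) (nat_lit 36983728483) (nat_lit 152) (nat_lit 295046850061) (nat_lit 0) (nat_lit 17043356596) (nat_lit 1) (nat_lit 5) (nat_lit 3) (nat_lit 4) (nat_lit 1) (nat_lit 4) (nat_lit 353) (nat_lit 235) (nat_lit 132)) (XT.lf (nat_lit 0) (nat_lit 42135896356) (nat_lit 152) (nat_lit 301982007580) (nat_lit 0) (nat_lit 22189245642) (nat_lit 1) (nat_lit 5) (nat_lit 3) (nat_lit 4) (nat_lit 1) (nat_lit 4) (nat_lit 354) (nat_lit 235) (nat_lit 131))))))))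
noncomputable def xc96 : XT := (XT.nd (nat_lit 29952) (nat_lit 0) (nat_lit 2052) (XT.nd (nat_lit 29250) (nat_lit 0) (nat_lit 4712) (XT.nd (nat_lit 312) (nat_lit 0) (nat_lit 0) (XT.nd (nat_lit 156) (nat_lit 0) (nat_lit 0) (XT.nd (nat_lit 78) (nat_lit 0) (nat_lit 0) (XT.lf (nat_lit 0) (nat_lit 47543075772) (nat_lit 152) (nat_lit 309268636691) (nat_lit 0) (nat_lit 27590445224) (nat_lit 1) (nat_lit 5) (nat_lit 3) (nat_lit 4) (nat_lit 1) (nat_lit 4) (nat_lit 355) (nat_lit 235) (nat_lit 130)) (XT.lf (nat_lit 0) (nat_lit 53218140970) (nat_lit 152) (nat_lit 316924086509) (nat_lit 0) (nat_lit 33259815342) (nat_lit 1) (nat_lit 5) (nat_lit 3) (nat_lit 4) (nat_lit 1) (nat_lit 4) (nat_lit 356) (nat_lit 235) (nat_lit 129))) (XT.nd (nat_lit 78) (nat_lit 0) (nat_lit 0) (XT.lf (nat_lit 0) (nat_lit 59174604009) (nat_lit 152) (nat_lit 324966584297) (nat_lit 0) (nat_lit 39210854494) (nat_lit 1) (nat_lit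 5) (nat_lit 3) (nat_lit 4) (nat_lit 1) (nat_lit 4) (nat_lit 357) (nat_lit 235) (nat_lit 128)) (XT.lf (nat_lit 0) (nat_lit 65426646944) (nat_lit 152) (nat_lit 333415278858) (nat_lit 0) (nat_lit 45457731823) (nat_lit 1) (nat_lit 5) (nat_lit 3) (nat_lit 4) (nat_lit 1) (nat_lit 4) (nat_lit 358) (nat_lit 235) (nat_lit 127)))) (XT.nd (nat_lit 156) (nat_lit 0) (nat_lit 0) (XT.nd (nat_lit 78) (nat_lit 0) (nat_lit 0) (XT.lf (nat_lit 0) (nat_lit 71989155591) (nat_lit 152) (nat_lit 342290286132) (nat_lit 0) (nat_lit 52015320846) (nat_lit 1) (nat_lit 5) (nat_lit 3) (nat_lit 4) (nat_lit 1) (nat_lit 4) (nat_lit 359) (nat_lit 235) (nat_lit 126)) (XT.lf (nat_lit 0) (nat_lit 78877754971) (nat_lit 152) (nat_lit 351612737089) (nat_lit 0) (nat_lit 58899234869) (nat_lit 1) (nat_lit 5) (nat_lit 3) (nat_lit 4) (nat_lit 1) (nat_lit 4) (nat_lit 360) (nat_lit 235) (nat_lit 125))) (XT.nd (nat_lit 28704) (nat_lit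 0) (nat_lit 7980) (XT.lf (nat_lit 0) (nat_lit 86108846511) (nat_lit 152) (nat_lit 361404828041) (nat_lit 0) (nat_lit 66125864165) (nat_lit 1) (nat_lit 5) (nat_lit 3) (nat_lit 4) (nat_lit 1) (nat_lit 4) (nat_lit 361) (nat_lit 235) (nat_lit 124)) (XT.lf (nat_lit 0) (nat_lit 3108223787) (nat_lit 228) (nat_lit 107524534) (nat_lit 228) (nat_lit 107524534) (nat_lit 106) (nat_lit 4) (nat_lit 109) (nat_lit 5) (nat_lit 109) (nat_lit 4) (nat_lit 248) (nat_lit 236) (nat_lit 236))))) (XT.nd (nat_lit 312) (nat_lit 1976) (nat_lit 0) (XT.nd (nat_lit 156) (nat_lit 532) (nat_lit 0) (XT.nd (nat_lit 78) (nat_lit 380) (nat_lit 0) (XT.lf (nat_lit 0) (nat_lit 2618697112) (nat_lit 380) (nat_lit 3451325944) (nat_lit 0) (nat_lit 631615263) (nat_lit 101) (nat_lit 5) (nat_lit 106) (nat_lit 4) (nat_lit 101) (nat_lit 4) (nat_lit 249) (nat_lit 236) (nat_lit 235)) (XT.lf (nat_lit 0) (nat_lit 245688055) (nat_lit 380)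 (nat_lit 5200588318) (nat_lit 380) (nat_lit 1321047566) (nat_lit 96) (nat_lit 4) (nat_lit 101) (nat_lit 5) (nat_lit 101) (nat_lit 4) (nat_lit 250) (nat_lit 236) (nat_lit 234))) (XT.nd (nat_lit 78) (nat_lit 456) (nat_lit 0) (XT.lf (nat_lit 0) (nat_lit 1434527766) (nat_lit 456) (nat_lit 2741100644) (nat_lit 76) (nat_lit 2665018573) (nat_lit 95) (nat_lit 5) (nat_lit 101) (nat_lit 5) (nat_lit 96) (nat_lit 4) (nat_lit 251) (nat_lit 236) (nat_lit 233)) (XT.lf (nat_lit 0) (nat_lit 1119301470) (nat_lit 456) (nat_lit 3035674163) (nat_lit 532) (nat_lit 2768852646) (nat_lit 89) (nat_lit 5) (nat_lit 95) (nat_lit 5) (nat_lit 96) (nat_lit 4) (nat_lit 252) (nat_lit 236) (nat_lit 232)))) (XT.nd (nat_lit 156) (nat_lit 1368) (nat_lit 0) (XT.nd (nat_lit 78) (nat_lit 608) (nat_lit 0) (XT.lf (nat_lit 0) (nat_lit 5146549667) (nat_lit 456) (nat_lit 1770389552) (nat_lit 532) (nat_lit 99763712) (nat_lit 89)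 (nat_lit 5) (nat_lit 95) (nat_lit 5) (nat_lit 96) (nat_lit 4) (nat_lit 253) (nat_lit 236) (nat_lit 231)) (XT.lf (nat_lit 0) (nat_lit 2167277601) (nat_lit 532) (nat_lit 345669791) (nat_lit 608) (nat_lit 4605064097) (nat_lit 81) (nat_lit 5) (nat_lit 88) (nat_lit 5) (nat_lit 89) (nat_lit 5) (nat_lit 254) (nat_lit 236) (nat_lit 230))) (XT.nd (nat_lit 78) (nat_lit 1368) (nat_lit 0) (XT.lf (nat_lit 0) (nat_lit 5170815954) (nat_lit 608) (nat_lit 897824843) (nat_lit 76) (nat_lit 1160467982) (nat_lit 81) (nat_lit 5) (nat_lit 89) (nat_lit 5) (nat_lit 82) (nat_lit 4) (nat_lit 255) (nat_lit 236) (nat_lit 229)) (XT.nd (nat_lit 78) (nat_lit 684) (nat_lit 0) (XT.lf (nat_lit 0) (nat_lit 526158450) (nat_lit 684) (nat_lit 4019802572) (nat_lit 76) (nat_lit 2803450448) (nat_lit 72) (nat_lit 5) (nat_lit 81) (nat_lit 5) (nat_lit 73) (nat_lit 5) (nat_lit 256) (nat_lit 236) (nat_lit 228)) (XT.lf (nat_lit 0)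 (nat_lit 172987626) (nat_lit 684) (nat_lit 2891389585) (nat_lit 760) (nat_lit 4415582764) (nat_lit 63) (nat_lit 5) (nat_lit 72) (nat_lit 5) (nat_lit 73) (nat_lit 5) (nat_lit 257) (nat_lit 236) (nat_lit 227))))))) (XT.nd (nat_lit 702) (nat_lit 988) (nat_lit 0) (XT.nd (nat_lit 312) (nat_lit 988) (nat_lit 0) (XT.nd (nat_lit 156) (nat_lit 304) (nat_lit 0) (XT.nd (nat_lit 78) (nat_lit 380) (nat_lit 0) (XT.lf (nat_lit 0) (nat_lit 4593789438) (nat_lit 684) (nat_lit 1083390213) (nat_lit 760) (nat_lit 1943047529) (nat_lit 63) (nat_lit 5) (nat_lit 72) (nat_lit 5) (nat_lit 73) (nat_lit 5) (nat_lit 258) (nat_lit 236) (nat_lit 226)) (XT.lf (nat_lit 0) (nat_lit 549915376) (nat_lit 380) (nat_lit 6403134631) (nat_lit 76) (nat_lit 818584119) (nat_lit 58) (nat_lit 5) (nat_lit 63) (nat_lit 5) (nat_lit 59) (nat_lit 5) (nat_lit 259) (nat_lit 236) (nat_lit 225))) (XT.nd (nat_lit 78) (nat_lit 304) (nat_lit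 0) (XT.lf (nat_lit 0) (nat_lit 3058665514) (nat_lit 380) (nat_lit 2014217078) (nat_lit 76) (nat_lit 2858810885) (nat_lit 58) (nat_lit 5) (nat_lit 63) (nat_lit 5) (nat_lit 59) (nat_lit 5) (nat_lit 260) (nat_lit 236) (nat_lit 224)) (XT.lf (nat_lit 0) (nat_lit 2557950964) (nat_lit 304) (nat_lit 3066823081) (nat_lit 380) (nat_lit 2478858688) (nat_lit 54) (nat_lit 5) (nat_lit 58) (nat_lit 5) (nat_lit 59) (nat_lit 5) (nat_lit 261) (nat_lit 236) (nat_lit 223)))) (XT.nd (nat_lit 156) (nat_lit 608) (nat_lit 0) (XT.nd (nat_lit 78) (nat_lit 380) (nat_lit 0) (XT.lf (nat_lit 0) (nat_lit 7312494973) (nat_lit 304) (nat_lit 936118882) (nat_lit 380) (nat_lit 39534261) (nat_lit 54) (nat_lit 5) (nat_lit 58) (nat_lit 5) (nat_lit 59) (nat_lit 5) (nat_lit 262) (nat_lit 236) (nat_lit 222)) (XT.lf (nat_lit 0) (nat_lit 2420205124) (nat_lit 380) (nat_lit 4713770622) (nat_lit 76) (nat_lit 1347395483) (nat_lit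 49) (nat_lit 5) (nat_lit 54) (nat_lit 5) (nat_lit 50) (nat_lit 5) (nat_lit 263) (nat_lit 236) (nat_lit 221))) (XT.nd (nat_lit 78) (nat_lit 608) (nat_lit 0) (XT.lf (nat_lit 0) (nat_lit 4934863528) (nat_lit 380) (nat_lit 35468027) (nat_lit 76) (nat_lit 3717617627) (nat_lit 49) (nat_lit 5) (nat_lit 54) (nat_lit 5) (nat_lit 50) (nat_lit 5) (nat_lit 264) (nat_lit 236) (nat_lit 220)) (XT.nd (nat_lit 78) (nat_lit 304) (nat_lit 0) (XT.lf (nat_lit 0) (nat_lit 4922231835) (nat_lit 304) (nat_lit 2635701822) (nat_lit 380) (nat_lit 1348159029) (nat_lit 45) (nat_lit 5) (nat_lit 49) (nat_lit 5) (nat_lit 50) (nat_lit 5) (nat_lit 265) (nat_lit 236) (nat_lit 219)) (XT.lf (nat_lit 0) (nat_lit 890373974) (nat_lit 228) (nat_lit 170231715) (nat_lit 304) (nat_lit 8077891812) (nat_lit 41) (nat_lit 5) (nat_lit 44) (nat_lit 5) (nat_lit 45) (nat_lit 5) (nat_lit 266) (nat_lit 236) (nat_lit 218)))))) (XT.nd (nat_lit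 312) (nat_lit 456) (nat_lit 0) (XT.nd (nat_lit 156) (nat_lit 304) (nat_lit 0) (XT.nd (nat_lit 78) (nat_lit 228) (nat_lit 0) (XT.lf (nat_lit 0) (nat_lit 3559949841) (nat_lit 304) (nat_lit 3409838734) (nat_lit 76) (nat_lit 2411176657) (nat_lit 41) (nat_lit 5) (nat_lit 45) (nat_lit 5) (nat_lit 42) (nat_lit 5) (nat_lit 267) (nat_lit 236) (nat_lit 217)) (XT.lf (nat_lit 0) (nat_lit 1608229631) (nat_lit 228) (nat_lit 4517372916) (nat_lit 304) (nat_lit 3513191625) (nat_lit 38) (nat_lit 5) (nat_lit 41) (nat_lit 5) (nat_lit 42) (nat_lit 5) (nat_lit 268) (nat_lit 236) (nat_lit 216))) (XT.nd (nat_lit 78) (nat_lit 304) (nat_lit 0) (XT.lf (nat_lit 0) (nat_lit 6886557253) (nat_lit 228) (nat_lit 1906589216) (nat_lit 304) (nat_lit 1117978027) (nat_lit 38) (nat_lit 5) (nat_lit 41) (nat_lit 5) (nat_lit 42) (nat_lit 5) (nat_lit 269) (nat_lit 236) (nat_lit 215)) (XT.lf (nat_lit 0) (nat_lit 1318046022) (nat_lit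 304) (nat_lit 8039530297) (nat_lit 76) (nat_lit 840379722) (nat_lit 34) (nat_lit 5) (nat_lit 38) (nat_lit 5) (nat_lit 35) (nat_lit 5) (nat_lit 270) (nat_lit 236) (nat_lit 214)))) (XT.nd (nat_lit 156) (nat_lit 228) (nat_lit 0) (XT.nd (nat_lit 78) (nat_lit 228) (nat_lit 0) (XT.lf (nat_lit 0) (nat_lit 3841754912) (nat_lit 304) (nat_lit 2950317319) (nat_lit 76) (nat_lit 3706218637) (nat_lit 34) (nat_lit 5) (nat_lit 38) (nat_lit 5) (nat_lit 35) (nat_lit 5) (nat_lit 271) (nat_lit 236) (nat_lit 213)) (XT.lf (nat_lit 0) (nat_lit 2365346916) (nat_lit 228) (nat_lit 4087172259) (nat_lit 304) (nat_lit 4363318652) (nat_lit 31) (nat_lit 5) (nat_lit 34) (nat_lit 5) (nat_lit 35) (nat_lit 5) (nat_lit 272) (nat_lit 236) (nat_lit 212))) (XT.nd (nat_lit 78) (nat_lit 228) (nat_lit 0) (XT.lf (nat_lit 0) (nat_lit 7947180284) (nat_lit 228) (nat_lit 1222575381) (nat_lit 304) (nat_lit 1980937283) (nat_lit 31)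 (nat_lit 5) (nat_lit 34) (nat_lit 5) (nat_lit 35) (nat_lit 5) (nat_lit 273) (nat_lit 236) (nat_lit 211)) (XT.nd (nat_lit 78) (nat_lit 0) (nat_lit 0) (XT.lf (nat_lit 0) (nat_lit 495632546) (nat_lit 228) (nat_lit 9261469295) (nat_lit 76) (nat_lit 1745402436) (nat_lit 28) (nat_lit 5) (nat_lit 31) (nat_lit 5) (nat_lit 29) (nat_lit 5) (nat_lit 274) (nat_lit 236) (nat_lit 210)) (XT.lf (nat_lit 0) (nat_lit 3034221749) (nat_lit 228) (nat_lit 3954983376) (nat_lit 76) (nat_lit 4881035693) (nat_lit 28) (nat_lit 5) (nat_lit 31) (nat_lit 5) (nat_lit 29) (nat_lit 5) (nat_lit 275) (nat_lit 236) (nat_lit 209))))))))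
noncomputable def xc97 : XT := (XT.nd (nat_lit 1326) (nat_lit 380) (nat_lit 0) (XT.nd (nat_lit 624) (nat_lit 532) (nat_lit 0) (XT.nd (nat_lit 312) (nat_lit 304) (nat_lit 0) (XT.nd (nat_lit 156) (nat_lit 228) (nat_lit 0) (XT.nd (nat_lit 78) (nat_lit 0) (nat_lit 0) (XT.lf (nat_lit 0) (nat_lit 1570509523) (nat_lit 228) (nat_lit 4086683052) (nat_lit 304) (nat_lit 6601486179) (nat_lit 25) (nat_lit 5) (nat_lit 28) (nat_lit 5) (nat_lit 29) (nat_lit 5) (nat_lit 276) (nat_lit 236) (nat_lit 208)) (XT.lf (nat_lit 0) (nat_lit 7414559530) (nat_lit 228) (nat_lit 998374171) (nat_lit 304) (nat_lit 4253702059) (nat_lit 25) (nat_lit 5) (nat_lit 28) (nat_lit 5) (nat_lit 29) (nat_lit 5) (nat_lit 277) (nat_lit 236) (nat_lit 207))) (XT.nd (nat_lit 78) (nat_lit 76) (nat_lit 0) (XT.lf (nat_lit 0) (nat_lit 338265939) (nat_lit 152) (nat_lit 10945831157) (nat_lit 228) (nat_lit 1812181534) (nat_lit 23) (nat_lit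 5) (nat_lit 25) (nat_lit 5) (nat_lit 26) (nat_lit 4) (nat_lit 278) (nat_lit 236) (nat_lit 206)) (XT.lf (nat_lit 0) (nat_lit 771842289) (nat_lit 228) (nat_lit 7276097212) (nat_lit 76) (nat_lit 5496807683) (nat_lit 22) (nat_lit 5) (nat_lit 25) (nat_lit 5) (nat_lit 23) (nat_lit 5) (nat_lit 279) (nat_lit 236) (nat_lit 205)))) (XT.nd (nat_lit 156) (nat_lit 152) (nat_lit 0) (XT.nd (nat_lit 78) (nat_lit 152) (nat_lit 0) (XT.lf (nat_lit 0) (nat_lit 3364838374) (nat_lit 228) (nat_lit 1639365008) (nat_lit 76) (nat_lit 9013063432) (nat_lit 22) (nat_lit 5) (nat_lit 25) (nat_lit 5) (nat_lit 23) (nat_lit 5) (nat_lit 280) (nat_lit 236) (nat_lit 204)) (XT.lf (nat_lit 0) (nat_lit 4332567147) (nat_lit 152) (nat_lit 1766058014) (nat_lit 228) (nat_lit 8414369894) (nat_lit 20) (nat_lit 5) (nat_lit 22) (nat_lit 5) (nat_lit 23) (nat_lit 5) (nat_lit 281) (nat_lit 236) (nat_lit 203))) (XT.nd (nat_lit 78) (nat_lit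 152) (nat_lit 0) (XT.lf (nat_lit 0) (nat_lit 8967258937) (nat_lit 228) (nat_lit 4484446284) (nat_lit 76) (nat_lit 1582029625) (nat_lit 20) (nat_lit 5) (nat_lit 23) (nat_lit 5) (nat_lit 21) (nat_lit 4) (nat_lit 282) (nat_lit 236) (nat_lit 202)) (XT.lf (nat_lit 0) (nat_lit 1430924664) (nat_lit 152) (nat_lit 10546766381) (nat_lit 228) (nat_lit 3603028938) (nat_lit 18) (nat_lit 5) (nat_lit 20) (nat_lit 5) (nat_lit 21) (nat_lit 4) (nat_lit 283) (nat_lit 236) (nat_lit 201))))) (XT.nd (nat_lit 312) (nat_lit 304) (nat_lit 0) (XT.nd (nat_lit 156) (nat_lit 152) (nat_lit 0) (XT.nd (nat_lit 78) (nat_lit 76) (nat_lit 0) (XT.lf (nat_lit 0) (nat_lit 7716824216) (nat_lit 152) (nat_lit 7446097677) (nat_lit 228) (nat_lit 991039279) (nat_lit 18) (nat_lit 5) (nat_lit 20) (nat_lit 5) (nat_lit 21) (nat_lit 4) (nat_lit 284) (nat_lit 236) (nat_lit 200)) (XT.lf (nat_lit 0) (nat_lit 1645362698) (nat_lit 228)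 (nat_lit 2545035123) (nat_lit 76) (nat_lit 12566715040) (nat_lit 17) (nat_lit 5) (nat_lit 20) (nat_lit 5) (nat_lit 18) (nat_lit 5) (nat_lit 285) (nat_lit 236) (nat_lit 199))) (XT.nd (nat_lit 78) (nat_lit 0) (nat_lit 0) (XT.lf (nat_lit 0) (nat_lit 3667727004) (nat_lit 152) (nat_lit 722076204) (nat_lit 228) (nat_lit 12999434633) (nat_lit 15) (nat_lit 5) (nat_lit 17) (nat_lit 5) (nat_lit 18) (nat_lit 5) (nat_lit 286) (nat_lit 236) (nat_lit 198)) (XT.lf (nat_lit 0) (nat_lit 7313812495) (nat_lit 228) (nat_lit 7893501570) (nat_lit 76) (nat_lit 2843636928) (nat_lit 15) (nat_lit 5) (nat_lit 18) (nat_lit 5) (nat_lit 16) (nat_lit 4) (nat_lit 287) (nat_lit 236) (nat_lit 197)))) (XT.nd (nat_lit 156) (nat_lit 228) (nat_lit 0) (XT.nd (nat_lit 78) (nat_lit 76) (nat_lit 0) (XT.lf (nat_lit 0) (nat_lit 10351054486) (nat_lit 228) (nat_lit 1858197729) (nat_lit 76) (nat_lit 6538240514) (nat_lit 15) (nat_lit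 5) (nat_lit 18) (nat_lit 5) (nat_lit 16) (nat_lit 4) (nat_lit 288) (nat_lit 236) (nat_lit 196)) (XT.lf (nat_lit 0) (nat_lit 4555860065) (nat_lit 76) (nat_lit 9012756755) (nat_lit 152) (nat_lit 5908911853) (nat_lit 14) (nat_lit 5) (nat_lit 15) (nat_lit 5) (nat_lit 16) (nat_lit 4) (nat_lit 289) (nat_lit 236) (nat_lit 195))) (XT.nd (nat_lit 78) (nat_lit 228) (nat_lit 0) (XT.lf (nat_lit 0) (nat_lit 11287416081) (nat_lit 76) (nat_lit 5649413889) (nat_lit 152) (nat_lit 3307833554) (nat_lit 14) (nat_lit 5) (nat_lit 15) (nat_lit 5) (nat_lit 16) (nat_lit 4) (nat_lit 290) (nat_lit 236) (nat_lit 194)) (XT.nd (nat_lit 78) (nat_lit 228) (nat_lit 0) (XT.lf (nat_lit 0) (nat_lit 18291057424) (nat_lit 76) (nat_lit 2142685138) (nat_lit 152) (nat_lit 618479782) (nat_lit 14) (nat_lit 5) (nat_lit 15) (nat_lit 5) (nat_lit 16) (nat_lit 4) (nat_lit 291) (nat_lit 236) (nat_lit 193)) (XT.lf (nat_lit 0) (nat_lit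 2180256729) (nat_lit 228) (nat_lit 18154555373) (nat_lit 76) (nat_lit 1561424508) (nat_lit 11) (nat_lit 5) (nat_lit 14) (nat_lit 5) (nat_lit 12) (nat_lit 4) (nat_lit 292) (nat_lit 236) (nat_lit 192))))))) (XT.nd (nat_lit 702) (nat_lit 152) (nat_lit 0) (XT.nd (nat_lit 312) (nat_lit 152) (nat_lit 0) (XT.nd (nat_lit 156) (nat_lit 76) (nat_lit 0) (XT.nd (nat_lit 78) (nat_lit 0) (nat_lit 0) (XT.lf (nat_lit 0) (nat_lit 5142777268) (nat_lit 228) (nat_lit 12223946929) (nat_lit 76) (nat_lit 5413059377) (nat_lit 11) (nat_lit 5) (nat_lit 14) (nat_lit 5) (nat_lit 12) (nat_lit 4) (nat_lit 293) (nat_lit 236) (nat_lit 191)) (XT.lf (nat_lit 0) (nat_lit 8217212352) (nat_lit 228) (nat_lit 6057125160) (nat_lit 76) (nat_lit 9435048133) (nat_lit 11) (nat_lit 5) (nat_lit 14) (nat_lit 5) (nat_lit 12) (nat_lit 4) (nat_lit 294) (nat_lit 236) (nat_lit 190))) (XT.nd (nat_lit 78) (nat_lit 0) (nat_lit 0) (XT.lf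 (nat_lit 0) (nat_lit 372515667) (nat_lit 76) (nat_lit 11044182409) (nat_lit 152) (nat_lit 13270267285) (nat_lit 10) (nat_lit 5) (nat_lit 11) (nat_lit 5) (nat_lit 12) (nat_lit 4) (nat_lit 295) (nat_lit 236) (nat_lit 189)) (XT.lf (nat_lit 0) (nat_lit 7277409920) (nat_lit 76) (nat_lit 7567601222) (nat_lit 152) (nat_lit 10865031207) (nat_lit 10) (nat_lit 5) (nat_lit 11) (nat_lit 5) (nat_lit 12) (nat_lit 4) (nat_lit 296) (nat_lit 236) (nat_lit 188)))) (XT.nd (nat_lit 156) (nat_lit 152) (nat_lit 0) (XT.nd (nat_lit 78) (nat_lit 0) (nat_lit 0) (XT.lf (nat_lit 0) (nat_lit 14473721908) (nat_lit 76) (nat_lit 3938896722) (nat_lit 152) (nat_lit 8373318655) (nat_lit 10) (nat_lit 5) (nat_lit 11) (nat_lit 5) (nat_lit 12) (nat_lit 4) (nat_lit 297) (nat_lit 236) (nat_lit 187)) (XT.lf (nat_lit 0) (nat_lit 21978585707) (nat_lit 76) (nat_lit 149429137) (nat_lit 152) (nat_lit 5789196978) (nat_lit 10) (nat_lit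 5) (nat_lit 11) (nat_lit 5) (nat_lit 12) (nat_lit 4) (nat_lit 298) (nat_lit 236) (nat_lit 186))) (XT.nd (nat_lit 78) (nat_lit 76) (nat_lit 0) (XT.lf (nat_lit 0) (nat_lit 665116415) (nat_lit 76) (nat_lit 25404795914) (nat_lit 76) (nat_lit 3033153826) (nat_lit 9) (nat_lit 4) (nat_lit 10) (nat_lit 5) (nat_lit 10) (nat_lit 4) (nat_lit 299) (nat_lit 236) (nat_lit 185)) (XT.nd (nat_lit 78) (nat_lit 76) (nat_lit 0) (XT.lf (nat_lit 0) (nat_lit 7753473297) (nat_lit 76) (nat_lit 22529606348) (nat_lit 76) (nat_lit 61474947) (nat_lit 9) (nat_lit 4) (nat_lit 10) (nat_lit 5) (nat_lit 10) (nat_lit 4) (nat_lit 300) (nat_lit 236) (nat_lit 184)) (XT.lf (nat_lit 0) (nat_lit 2932954702) (nat_lit 152) (nat_lit 16547468844) (nat_lit 76) (nat_lit 12166748207) (nat_lit 8) (nat_lit 5) (nat_lit 10) (nat_lit 5) (nat_lit 9) (nat_lit 4) (nat_lit 301) (nat_lit 236) (nat_lit 183)))))) (XT.nd (nat_lit 312) (nat_lit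 76) (nat_lit 0) (XT.nd (nat_lit 156) (nat_lit 76) (nat_lit 0) (XT.nd (nat_lit 78) (nat_lit 0) (nat_lit 0) (XT.lf (nat_lit 0) (nat_lit 6048437151) (nat_lit 152) (nat_lit 10248248476) (nat_lit 76) (nat_lit 16719557201) (nat_lit 8) (nat_lit 5) (nat_lit 10) (nat_lit 5) (nat_lit 9) (nat_lit 4) (nat_lit 302) (nat_lit 236) (nat_lit 182)) (XT.lf (nat_lit 0) (nat_lit 9294357795) (nat_lit 152) (nat_lit 3677462251) (nat_lit 76) (nat_lit 21483255452) (nat_lit 8) (nat_lit 5) (nat_lit 10) (nat_lit 5) (nat_lit 9) (nat_lit 4) (nat_lit 303) (nat_lit 236) (nat_lit 181))) (XT.nd (nat_lit 78) (nat_lit 0) (nat_lit 0) (XT.lf (nat_lit 0) (nat_lit 3285697395) (nat_lit 76) (nat_lit 9444046567) (nat_lit 152) (nat_lit 23234786647) (nat_lit 7) (nat_lit 5) (nat_lit 8) (nat_lit 5) (nat_lit 9) (nat_lit 4) (nat_lit 304) (nat_lit 236) (nat_lit 180)) (XT.lf (nat_lit 0) (nat_lit 10684026078) (nat_lit 76) (nat_lit 5691537682)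 (nat_lit 152) (nat_lit 21171998912) (nat_lit 7) (nat_lit 5) (nat_lit 8) (nat_lit 5) (nat_lit 9) (nat_lit 4) (nat_lit 305) (nat_lit 236) (nat_lit 179)))) (XT.nd (nat_lit 156) (nat_lit 76) (nat_lit 0) (XT.nd (nat_lit 78) (nat_lit 0) (nat_lit 0) (XT.lf (nat_lit 0) (nat_lit 18413545354) (nat_lit 76) (nat_lit 1767638448) (nat_lit 152) (nat_lit 19029722701) (nat_lit 7) (nat_lit 5) (nat_lit 8) (nat_lit 5) (nat_lit 9) (nat_lit 4) (nat_lit 306) (nat_lit 236) (nat_lit 178)) (XT.lf (nat_lit 0) (nat_lit 24192152112) (nat_lit 152) (nat_lit 14502350630) (nat_lit 0) (nat_lit 2262195355) (nat_lit 7) (nat_lit 5) (nat_lit 9) (nat_lit 4) (nat_lit 7) (nat_lit 4) (nat_lit 307) (nat_lit 236) (nat_lit 177))) (XT.nd (nat_lit 78) (nat_lit 76) (nat_lit 0) (XT.lf (nat_lit 0) (nat_lit 28412016838) (nat_lit 152) (nat_lit 7957515138) (nat_lit 0) (nat_lit 6419862210) (nat_lit 7) (nat_lit 5) (nat_lit 9) (nat_lit 4)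 (nat_lit 7) (nat_lit 4) (nat_lit 308) (nat_lit 236) (nat_lit 176)) (XT.nd (nat_lit 78) (nat_lit 76) (nat_lit 0) (XT.lf (nat_lit 0) (nat_lit 32823227489) (nat_lit 152) (nat_lit 1119673942) (nat_lit 0) (nat_lit 10771836792) (nat_lit 7) (nat_lit 5) (nat_lit 9) (nat_lit 4) (nat_lit 7) (nat_lit 4) (nat_lit 309) (nat_lit 236) (nat_lit 175)) (XT.lf (nat_lit 0) (nat_lit 6226748363) (nat_lit 76) (nat_lit 31306755574) (nat_lit 76) (nat_lit 9198949575) (nat_lit 6) (nat_lit 4) (nat_lit 7) (nat_lit 5) (nat_lit 7) (nat_lit 4) (nat_lit 310) (nat_lit 236) (nat_lit 174))))))))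
noncomputable def xc98 : XT := (XT.nd (nat_lit 1326) (nat_lit 152) (nat_lit 0) (XT.nd (nat_lit 624) (nat_lit 0) (nat_lit 0) (XT.nd (nat_lit 312) (nat_lit 76) (nat_lit 0) (XT.nd (nat_lit 156) (nat_lit 76) (nat_lit 0) (XT.nd (nat_lit 78) (nat_lit 0) (nat_lit 0) (XT.lf (nat_lit 0) (nat_lit 13947284454) (nat_lit 76) (nat_lit 28532650427) (nat_lit 76) (nat_lit 6371115568) (nat_lit 6) (nat_lit 4) (nat_lit 7) (nat_lit 5) (nat_lit 7) (nat_lit 4) (nat_lit 311) (nat_lit 236) (nat_lit 173)) (XT.lf (nat_lit 0) (nat_lit 22023295080) (nat_lit 76) (nat_lit 25632943198) (nat_lit 76) (nat_lit 3420237996) (nat_lit 6) (nat_lit 4) (nat_lit 7) (nat_lit 5) (nat_lit 7) (nat_lit 4) (nat_lit 312) (nat_lit 236) (nat_lit 172))) (XT.nd (nat_lit 78) (nat_lit 76) (nat_lit 0) (XT.lf (nat_lit 0) (nat_lit 30474008838) (nat_lit 76) (nat_lit 22600729823) (nat_lit 76) (nat_lit 339290961) (nat_lit 6) (nat_lit 4) (nat_lit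 7) (nat_lit 5) (nat_lit 7) (nat_lit 4) (nat_lit 313) (nat_lit 236) (nat_lit 171)) (XT.lf (nat_lit 0) (nat_lit 2786913189) (nat_lit 152) (nat_lit 16594679833) (nat_lit 76) (nat_lit 36485435562) (nat_lit 5) (nat_lit 5) (nat_lit 7) (nat_lit 5) (nat_lit 6) (nat_lit 4) (nat_lit 314) (nat_lit 236) (nat_lit 170)))) (XT.nd (nat_lit 156) (nat_lit 76) (nat_lit 0) (XT.nd (nat_lit 78) (nat_lit 0) (nat_lit 0) (XT.lf (nat_lit 0) (nat_lit 6042682630) (nat_lit 152) (nat_lit 9964555345) (nat_lit 76) (nat_lit 42435950411) (nat_lit 5) (nat_lit 5) (nat_lit 7) (nat_lit 5) (nat_lit 6) (nat_lit 4) (nat_lit 315) (nat_lit 236) (nat_lit 169)) (XT.lf (nat_lit 0) (nat_lit 9446628622) (nat_lit 152) (nat_lit 3028564029) (nat_lit 76) (nat_lit 48673714954) (nat_lit 5) (nat_lit 5) (nat_lit 7) (nat_lit 5) (nat_lit 6) (nat_lit 4) (nat_lit 316) (nat_lit 236) (nat_lit 168))) (XT.nd (nat_lit 78) (nat_lit 0) (nat_lit 0)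 (XT.lf (nat_lit 0) (nat_lit 4369664948) (nat_lit 76) (nat_lit 8705413566) (nat_lit 152) (nat_lit 50912138781) (nat_lit 4) (nat_lit 5) (nat_lit 5) (nat_lit 5) (nat_lit 6) (nat_lit 4) (nat_lit 317) (nat_lit 236) (nat_lit 167)) (XT.lf (nat_lit 0) (nat_lit 12218925654) (nat_lit 76) (nat_lit 4703686911) (nat_lit 152) (nat_lit 50042965718) (nat_lit 4) (nat_lit 5) (nat_lit 5) (nat_lit 5) (nat_lit 6) (nat_lit 4) (nat_lit 318) (nat_lit 236) (nat_lit 166))))) (XT.nd (nat_lit 312) (nat_lit 0) (nat_lit 0) (XT.nd (nat_lit 156) (nat_lit 0) (nat_lit 0) (XT.nd (nat_lit 78) (nat_lit 0) (nat_lit 0) (XT.lf (nat_lit 0) (nat_lit 20437768799) (nat_lit 76) (nat_lit 511774962) (nat_lit 152) (nat_lit 49143980531) (nat_lit 4) (nat_lit 5) (nat_lit 5) (nat_lit 5) (nat_lit 6) (nat_lit 4) (nat_lit 319) (nat_lit 236) (nat_lit 165)) (XT.lf (nat_lit 0) (nat_lit 25226042440) (nat_lit 152) (nat_lit 44393322162) (nat_lit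 0) (nat_lit 3756109093) (nat_lit 4) (nat_lit 5) (nat_lit 6) (nat_lit 4) (nat_lit 4) (nat_lit 4) (nat_lit 320) (nat_lit 236) (nat_lit 164))) (XT.nd (nat_lit 78) (nat_lit 0) (nat_lit 0) (XT.lf (nat_lit 0) (nat_lit 29712842754) (nat_lit 152) (nat_lit 38897375045) (nat_lit 0) (nat_lit 8211495255) (nat_lit 4) (nat_lit 5) (nat_lit 6) (nat_lit 4) (nat_lit 4) (nat_lit 4) (nat_lit 321) (nat_lit 236) (nat_lit 163)) (XT.lf (nat_lit 0) (nat_lit 34412637320) (nat_lit 152) (nat_lit 33146838314) (nat_lit 0) (nat_lit 12881371582) (nat_lit 4) (nat_lit 5) (nat_lit 6) (nat_lit 4) (nat_lit 4) (nat_lit 4) (nat_lit 322) (nat_lit 236) (nat_lit 162)))) (XT.nd (nat_lit 156) (nat_lit 0) (nat_lit 0) (XT.nd (nat_lit 78) (nat_lit 0) (nat_lit 0) (XT.lf (nat_lit 0) (nat_lit 39336616125) (nat_lit 152) (nat_lit 27128020213) (nat_lit 0) (nat_lit 17776856825) (nat_lit 4) (nat_lit 5) (nat_lit 6) (nat_lit 4) (nat_lit 4)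 (nat_lit 4) (nat_lit 323) (nat_lit 236) (nat_lit 161)) (XT.lf (nat_lit 0) (nat_lit 44496502929) (nat_lit 152) (nat_lit 20826590224) (nat_lit 0) (nat_lit 22909606904) (nat_lit 4) (nat_lit 5) (nat_lit 6) (nat_lit 4) (nat_lit 4) (nat_lit 4) (nat_lit 324) (nat_lit 236) (nat_lit 160))) (XT.nd (nat_lit 78) (nat_lit 0) (nat_lit 0) (XT.lf (nat_lit 0) (nat_lit 49904583175) (nat_lit 152) (nat_lit 14227544941) (nat_lit 0) (nat_lit 28291842650) (nat_lit 4) (nat_lit 5) (nat_lit 6) (nat_lit 4) (nat_lit 4) (nat_lit 4) (nat_lit 325) (nat_lit 236) (nat_lit 159)) (XT.nd (nat_lit 78) (nat_lit 0) (nat_lit 0) (XT.lf (nat_lit 0) (nat_lit 55573733246) (nat_lit 152) (nat_lit 7315172353) (nat_lit 0) (nat_lit 33936378911) (nat_lit 4) (nat_lit 5) (nat_lit 6) (nat_lit 4) (nat_lit 4) (nat_lit 4) (nat_lit 326) (nat_lit 236) (nat_lit 158)) (XT.lf (nat_lit 0) (nat_lit 61517451119) (nat_lit 152) (nat_lit 73014429)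 (nat_lit 0) (nat_lit 39856655060) (nat_lit 4) (nat_lit 5) (nat_lit 6) (nat_lit 4) (nat_lit 4) (nat_lit 4) (nat_lit 327) (nat_lit 236) (nat_lit 157))))))) (XT.nd (nat_lit 702) (nat_lit 76) (nat_lit 0) (XT.nd (nat_lit 312) (nat_lit 0) (nat_lit 0) (XT.nd (nat_lit 156) (nat_lit 0) (nat_lit 0) (XT.nd (nat_lit 78) (nat_lit 0) (nat_lit 0) (XT.lf (nat_lit 0) (nat_lit 7764690655) (nat_lit 76) (nat_lit 60106426427) (nat_lit 76) (nat_lit 38423304918) (nat_lit 3) (nat_lit 4) (nat_lit 4) (nat_lit 5) (nat_lit 4) (nat_lit 4) (nat_lit 328) (nat_lit 236) (nat_lit 156)) (XT.lf (nat_lit 0) (nat_lit 15981979778) (nat_lit 76) (nat_lit 58553428245) (nat_lit 76) (nat_lit 36849044401) (nat_lit 3) (nat_lit 4) (nat_lit 4) (nat_lit 5) (nat_lit 4) (nat_lit 4) (nat_lit 329) (nat_lit 236) (nat_lit 155))) (XT.nd (nat_lit 78) (nat_lit 0) (nat_lit 0) (XT.lf (nat_lit 0) (nat_lit 24596003726) (nat_lit 76) (nat_lit 56929009923)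 (nat_lit 76) (nat_lit 35204376236) (nat_lit 3) (nat_lit 4) (nat_lit 4) (nat_lit 5) (nat_lit 4) (nat_lit 4) (nat_lit 330) (nat_lit 236) (nat_lit 154)) (XT.lf (nat_lit 0) (nat_lit 33627272080) (nat_lit 76) (nat_lit 55229303797) (nat_lit 76) (nat_lit 33485384546) (nat_lit 3) (nat_lit 4) (nat_lit 4) (nat_lit 5) (nat_lit 4) (nat_lit 4) (nat_lit 331) (nat_lit 236) (nat_lit 153)))) (XT.nd (nat_lit 156) (nat_lit 0) (nat_lit 0) (XT.nd (nat_lit 78) (nat_lit 0) (nat_lit 0) (XT.lf (nat_lit 0) (nat_lit 43097287861) (nat_lit 76) (nat_lit 53450262948) (nat_lit 76) (nat_lit 31687976494) (nat_lit 3) (nat_lit 4) (nat_lit 4) (nat_lit 5) (nat_lit 4) (nat_lit 4) (nat_lit 332) (nat_lit 236) (nat_lit 152)) (XT.lf (nat_lit 0) (nat_lit 53028598724) (nat_lit 76) (nat_lit 51587651565) (nat_lit 76) (nat_lit 29807872535) (nat_lit 3) (nat_lit 4) (nat_lit 4) (nat_lit 5) (nat_lit 4) (nat_lit 4) (nat_lit 333) (nat_lit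 236) (nat_lit 151))) (XT.nd (nat_lit 78) (nat_lit 0) (nat_lit 0) (XT.lf (nat_lit 0) (nat_lit 63444850648) (nat_lit 76) (nat_lit 49637034858) (nat_lit 76) (nat_lit 27840596234) (nat_lit 3) (nat_lit 4) (nat_lit 4) (nat_lit 5) (nat_lit 4) (nat_lit 4) (nat_lit 334) (nat_lit 236) (nat_lit 150)) (XT.nd (nat_lit 78) (nat_lit 0) (nat_lit 0) (XT.lf (nat_lit 0) (nat_lit 74370844233) (nat_lit 76) (nat_lit 47593768503) (nat_lit 76) (nat_lit 25781463597) (nat_lit 3) (nat_lit 4) (nat_lit 4) (nat_lit 5) (nat_lit 4) (nat_lit 4) (nat_lit 335) (nat_lit 236) (nat_lit 149)) (XT.lf (nat_lit 0) (nat_lit 85832593749) (nat_lit 76) (nat_lit 45452987579) (nat_lit 76) (nat_lit 23625571929) (nat_lit 3) (nat_lit 4) (nat_lit 4) (nat_lit 5) (nat_lit 4) (nat_lit 4) (nat_lit 336) (nat_lit 236) (nat_lit 148)))))) (XT.nd (nat_lit 312) (nat_lit 76) (nat_lit 0) (XT.nd (nat_lit 156) (nat_lit 0) (nat_lit 0) (XT.nd (nat_lit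 78) (nat_lit 0) (nat_lit 0) (XT.lf (nat_lit 0) (nat_lit 97857389075) (nat_lit 76) (nat_lit 43209594989) (nat_lit 76) (nat_lit 21367788154) (nat_lit 3) (nat_lit 4) (nat_lit 4) (nat_lit 5) (nat_lit 4) (nat_lit 4) (nat_lit 337) (nat_lit 236) (nat_lit 147)) (XT.lf (nat_lit 0) (nat_lit 110473860678) (nat_lit 76) (nat_lit 40858249321) (nat_lit 76) (nat_lit 19002736596) (nat_lit 3) (nat_lit 4) (nat_lit 4) (nat_lit 5) (nat_lit 4) (nat_lit 4) (nat_lit 338) (nat_lit 236) (nat_lit 146))) (XT.nd (nat_lit 78) (nat_lit 0) (nat_lit 0) (XT.lf (nat_lit 0) (nat_lit 123712047775) (nat_lit 76) (nat_lit 38393352135) (nat_lit 76) (nat_lit 16524786181) (nat_lit 3) (nat_lit 4) (nat_lit 4) (nat_lit 5) (nat_lit 4) (nat_lit 4) (nat_lit 339) (nat_lit 236) (nat_lit 145)) (XT.lf (nat_lit 0) (nat_lit 137603469860) (nat_lit 76) (nat_lit 35809034626) (nat_lit 76) (nat_lit 13928037026) (nat_lit 3) (nat_lit 4) (nat_lit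 4) (nat_lit 5) (nat_lit 4) (nat_lit 4) (nat_lit 340) (nat_lit 236) (nat_lit 144)))) (XT.nd (nat_lit 156) (nat_lit 76) (nat_lit 0) (XT.nd (nat_lit 78) (nat_lit 0) (nat_lit 0) (XT.lf (nat_lit 0) (nat_lit 152181201745) (nat_lit 76) (nat_lit 33099143659) (nat_lit 76) (nat_lit 11206306395) (nat_lit 3) (nat_lit 4) (nat_lit 4) (nat_lit 5) (nat_lit 4) (nat_lit 4) (nat_lit 341) (nat_lit 236) (nat_lit 143)) (XT.lf (nat_lit 0) (nat_lit 167479952318) (nat_lit 76) (nat_lit 30257227111) (nat_lit 76) (nat_lit 8353113978) (nat_lit 3) (nat_lit 4) (nat_lit 4) (nat_lit 5) (nat_lit 4) (nat_lit 4) (nat_lit 342) (nat_lit 236) (nat_lit 142))) (XT.nd (nat_lit 78) (nat_lit 76) (nat_lit 0) (XT.lf (nat_lit 0) (nat_lit 183536147175) (nat_lit 76) (nat_lit 27276518515) (nat_lit 76) (nat_lit 5361666458) (nat_lit 3) (nat_lit 4) (nat_lit 4) (nat_lit 5) (nat_lit 4) (nat_lit 4) (nat_lit 343) (nat_lit 236) (nat_lit 141))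 (XT.nd (nat_lit 78) (nat_lit 76) (nat_lit 0) (XT.lf (nat_lit 0) (nat_lit 200388015351) (nat_lit 76) (nat_lit 24149920946) (nat_lit 76) (nat_lit 2224841343) (nat_lit 3) (nat_lit 4) (nat_lit 4) (nat_lit 5) (nat_lit 4) (nat_lit 4) (nat_lit 344) (nat_lit 236) (nat_lit 140)) (XT.lf (nat_lit 0) (nat_lit 1030748789) (nat_lit 152) (nat_lit 19821785104) (nat_lit 76) (nat_lit 217027475322) (nat_lit 2) (nat_lit 5) (nat_lit 4) (nat_lit 5) (nat_lit 3) (nat_lit 4) (nat_lit 345) (nat_lit 236) (nat_lit 139))))))))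
noncomputable def xc99 : XT := (XT.nd (nat_lit 29796) (nat_lit 0) (nat_lit 3648) (XT.nd (nat_lit 624) (nat_lit 0) (nat_lit 0) (XT.nd (nat_lit 312) (nat_lit 0) (nat_lit 0) (XT.nd (nat_lit 156) (nat_lit 76) (nat_lit 0) (XT.nd (nat_lit 78) (nat_lit 0) (nat_lit 0) (XT.lf (nat_lit 0) (nat_lit 4370666159) (nat_lit 152) (nat_lit 12984231183) (nat_lit 76) (nat_lit 232196570129) (nat_lit 2) (nat_lit 5) (nat_lit 4) (nat_lit 5) (nat_lit 3) (nat_lit 4) (nat_lit 346) (nat_lit 236) (nat_lit 138)) (XT.lf (nat_lit 0) (nat_lit 7874071766) (nat_lit 152) (nat_lit 5811084626) (nat_lit 76) (nat_lit 248121522000) (nat_lit 2) (nat_lit 5) (nat_lit 4) (nat_lit 5) (nat_lit 3) (nat_lit 4) (nat_lit 347) (nat_lit 236) (nat_lit 137))) (XT.nd (nat_lit 78) (nat_lit 0) (nat_lit 0) (XT.lf (nat_lit 0) (nat_lit 1771430317) (nat_lit 76) (nat_lit 9805533728) (nat_lit 152) (nat_lit 263096474159) (nat_lit 1) (nat_lit 5) (nat_lit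 2) (nat_lit 5) (nat_lit 3) (nat_lit 4) (nat_lit 348) (nat_lit 236) (nat_lit 136)) (XT.lf (nat_lit 0) (nat_lit 9928929518) (nat_lit 76) (nat_lit 5631211479) (nat_lit 152) (nat_lit 272618641973) (nat_lit 1) (nat_lit 5) (nat_lit 2) (nat_lit 5) (nat_lit 3) (nat_lit 4) (nat_lit 349) (nat_lit 236) (nat_lit 135)))) (XT.nd (nat_lit 156) (nat_lit 0) (nat_lit 0) (XT.nd (nat_lit 78) (nat_lit 0) (nat_lit 0) (XT.lf (nat_lit 0) (nat_lit 18488694890) (nat_lit 76) (nat_lit 1250664314) (nat_lit 152) (nat_lit 282620195425) (nat_lit 1) (nat_lit 5) (nat_lit 2) (nat_lit 5) (nat_lit 3) (nat_lit 4) (nat_lit 350) (nat_lit 236) (nat_lit 134)) (XT.lf (nat_lit 0) (nat_lit 24176818018) (nat_lit 152) (nat_lit 289830658929) (nat_lit 0) (nat_lit 3239427536) (nat_lit 1) (nat_lit 5) (nat_lit 3) (nat_lit 4) (nat_lit 1) (nat_lit 4) (nat_lit 351) (nat_lit 236) (nat_lit 133))) (XT.nd (nat_lit 78) (nat_lit 0) (nat_lit 0)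 (XT.lf (nat_lit 0) (nat_lit 28853789439) (nat_lit 152) (nat_lit 296114147643) (nat_lit 0) (nat_lit 7909806190) (nat_lit 1) (nat_lit 5) (nat_lit 3) (nat_lit 4) (nat_lit 1) (nat_lit 4) (nat_lit 352) (nat_lit 236) (nat_lit 132)) (XT.lf (nat_lit 0) (nat_lit 33761882740) (nat_lit 152) (nat_lit 302716760193) (nat_lit 0) (nat_lit 12811620665) (nat_lit 1) (nat_lit 5) (nat_lit 3) (nat_lit 4) (nat_lit 1) (nat_lit 4) (nat_lit 353) (nat_lit 236) (nat_lit 131))))) (XT.nd (nat_lit 312) (nat_lit 0) (nat_lit 0) (XT.nd (nat_lit 156) (nat_lit 0) (nat_lit 0) (XT.nd (nat_lit 78) (nat_lit 0) (nat_lit 0) (XT.lf (nat_lit 0) (nat_lit 38912783857) (nat_lit 152) (nat_lit 309654217086) (nat_lit 0) (nat_lit 17956541947) (nat_lit 1) (nat_lit 5) (nat_lit 3) (nat_lit 4) (nat_lit 1) (nat_lit 4) (nat_lit 354) (nat_lit 236) (nat_lit 130)) (XT.lf (nat_lit 0) (nat_lit 44318756840) (nat_lit 152) (nat_lit 316943036075)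 (nat_lit 0) (nat_lit 23356819849) (nat_lit 1) (nat_lit 5) (nat_lit 3) (nat_lit 4) (nat_lit 1) (nat_lit 4) (nat_lit 355) (nat_lit 236) (nat_lit 129))) (XT.nd (nat_lit 78) (nat_lit 0) (nat_lit 0) (XT.lf (nat_lit 0) (nat_lit 49992673053) (nat_lit 152) (nat_lit 324600571493) (nat_lit 0) (nat_lit 29025312176) (nat_lit 1) (nat_lit 5) (nat_lit 3) (nat_lit 4) (nat_lit 1) (nat_lit 4) (nat_lit 356) (nat_lit 236) (nat_lit 128)) (XT.lf (nat_lit 0) (nat_lit 55948041820) (nat_lit 152) (nat_lit 332645055565) (nat_lit 0) (nat_lit 34975515338) (nat_lit 1) (nat_lit 5) (nat_lit 3) (nat_lit 4) (nat_lit 1) (nat_lit 4) (nat_lit 357) (nat_lit 236) (nat_lit 127)))) (XT.nd (nat_lit 156) (nat_lit 0) (nat_lit 0) (XT.nd (nat_lit 78) (nat_lit 0) (nat_lit 0) (XT.lf (nat_lit 0) (nat_lit 62199042592) (nat_lit 152) (nat_lit 341095641827) (nat_lit 0) (nat_lit 41221596485) (nat_lit 1) (nat_lit 5) (nat_lit 3) (nat_lit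 4) (nat_lit 1) (nat_lit 4) (nat_lit 358) (nat_lit 236) (nat_lit 126)) (XT.lf (nat_lit 0) (nat_lit 68760558703) (nat_lit 152) (nat_lit 349972450720) (nat_lit 0) (nat_lit 47778427239) (nat_lit 1) (nat_lit 5) (nat_lit 3) (nat_lit 4) (nat_lit 1) (nat_lit 4) (nat_lit 359) (nat_lit 236) (nat_lit 125))) (XT.nd (nat_lit 78) (nat_lit 0) (nat_lit 0) (XT.lf (nat_lit 0) (nat_lit 75648212810) (nat_lit 152) (nat_lit 359296617505) (nat_lit 0) (nat_lit 54661619102) (nat_lit 1) (nat_lit 5) (nat_lit 3) (nat_lit 4) (nat_lit 1) (nat_lit 4) (nat_lit 360) (nat_lit 236) (nat_lit 124)) (XT.nd (nat_lit 28548) (nat_lit 0) (nat_lit 8208) (XT.lf (nat_lit 0) (nat_lit 82878404091) (nat_lit 152) (nat_lit 369090342578) (nat_lit 0) (nat_lit 61887560626) (nat_lit 1) (nat_lit 5) (nat_lit 3) (nat_lit 4) (nat_lit 1) (nat_lit 4) (nat_lit 361) (nat_lit 236) (nat_lit 123)) (XT.lf (nat_lit 0) (nat_lit 1420095756) (nat_lit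 228) (nat_lit 437310351) (nat_lit 0) (nat_lit 1420095756) (nat_lit 109) (nat_lit 5) (nat_lit 112) (nat_lit 4) (nat_lit 109) (nat_lit 4) (nat_lit 246) (nat_lit 237) (nat_lit 237))))))) (XT.nd (nat_lit 702) (nat_lit 2432) (nat_lit 0) (XT.nd (nat_lit 312) (nat_lit 1064) (nat_lit 0) (XT.nd (nat_lit 156) (nat_lit 760) (nat_lit 0) (XT.nd (nat_lit 78) (nat_lit 76) (nat_lit 0) (XT.lf (nat_lit 0) (nat_lit 2597526069) (nat_lit 228) (nat_lit 3095501638) (nat_lit 228) (nat_lit 904743900) (nat_lit 106) (nat_lit 4) (nat_lit 109) (nat_lit 5) (nat_lit 109) (nat_lit 4) (nat_lit 247) (nat_lit 237) (nat_lit 236)) (XT.lf (nat_lit 0) (nat_lit 1833492839) (nat_lit 304) (nat_lit 518533359) (nat_lit 76) (nat_lit 4297429874) (nat_lit 105) (nat_lit 5) (nat_lit 109) (nat_lit 5) (nat_lit 106) (nat_lit 4) (nat_lit 248) (nat_lit 237) (nat_lit 235))) (XT.nd (nat_lit 78) (nat_lit 456) (nat_lit 0) (XT.lf (nat_lit 0)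 (nat_lit 3109521239) (nat_lit 304) (nat_lit 1463062550) (nat_lit 380) (nat_lit 2136665287) (nat_lit 101) (nat_lit 5) (nat_lit 105) (nat_lit 5) (nat_lit 106) (nat_lit 4) (nat_lit 249) (nat_lit 237) (nat_lit 234)) (XT.lf (nat_lit 0) (nat_lit 39404654) (nat_lit 380) (nat_lit 473151161) (nat_lit 456) (nat_lit 6266958930) (nat_lit 95) (nat_lit 5) (nat_lit 100) (nat_lit 5) (nat_lit 101) (nat_lit 5) (nat_lit 250) (nat_lit 237) (nat_lit 233)))) (XT.nd (nat_lit 156) (nat_lit 608) (nat_lit 0) (XT.nd (nat_lit 78) (nat_lit 456) (nat_lit 0) (XT.lf (nat_lit 0) (nat_lit 3147249573) (nat_lit 456) (nat_lit 3032972894) (nat_lit 76) (nat_lit 675928395) (nat_lit 95) (nat_lit 5) (nat_lit 101) (nat_lit 5) (nat_lit 96) (nat_lit 4) (nat_lit 251) (nat_lit 237) (nat_lit 232)) (XT.lf (nat_lit 0) (nat_lit 758588923) (nat_lit 456) (nat_lit 5035655271) (nat_lit 532) (nat_lit 1149155240) (nat_lit 89) (nat_lit 5)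 (nat_lit 95) (nat_lit 5) (nat_lit 96) (nat_lit 4) (nat_lit 252) (nat_lit 237) (nat_lit 231))) (XT.nd (nat_lit 78) (nat_lit 532) (nat_lit 0) (XT.lf (nat_lit 0) (nat_lit 1404377189) (nat_lit 532) (nat_lit 2333108761) (nat_lit 76) (nat_lit 3301304998) (nat_lit 88) (nat_lit 5) (nat_lit 95) (nat_lit 5) (nat_lit 89) (nat_lit 5) (nat_lit 253) (nat_lit 237) (nat_lit 230)) (XT.nd (nat_lit 78) (nat_lit 0) (nat_lit 0) (XT.lf (nat_lit 0) (nat_lit 1629414911) (nat_lit 532) (nat_lit 2312359793) (nat_lit 608) (nat_lit 3202193830) (nat_lit 81) (nat_lit 5) (nat_lit 88) (nat_lit 5) (nat_lit 89) (nat_lit 5) (nat_lit 254) (nat_lit 237) (nat_lit 229)) (XT.lf (nat_lit 0) (nat_lit 5757845093) (nat_lit 532) (nat_lit 761530107) (nat_lit 608) (nat_lit 740028677) (nat_lit 81) (nat_lit 5) (nat_lit 88) (nat_lit 5) (nat_lit 89) (nat_lit 5) (nat_lit 255) (nat_lit 237) (nat_lit 228)))))) (XT.nd (nat_lit 312) (nat_lit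 684) (nat_lit 0) (XT.nd (nat_lit 156) (nat_lit 1064) (nat_lit 0) (XT.nd (nat_lit 78) (nat_lit 0) (nat_lit 0) (XT.lf (nat_lit 0) (nat_lit 1719741491) (nat_lit 684) (nat_lit 4742897613) (nat_lit 76) (nat_lit 920457262) (nat_lit 72) (nat_lit 5) (nat_lit 81) (nat_lit 5) (nat_lit 73) (nat_lit 5) (nat_lit 256) (nat_lit 237) (nat_lit 227)) (XT.lf (nat_lit 0) (nat_lit 4197448454) (nat_lit 684) (nat_lit 612867340) (nat_lit 76) (nat_lit 2706635112) (nat_lit 72) (nat_lit 5) (nat_lit 81) (nat_lit 5) (nat_lit 73) (nat_lit 5) (nat_lit 257) (nat_lit 237) (nat_lit 226))) (XT.nd (nat_lit 78) (nat_lit 380) (nat_lit 0) (XT.lf (nat_lit 0) (nat_lit 3731370023) (nat_lit 684) (nat_lit 3013058835) (nat_lit 760) (nat_lit 916347444) (nat_lit 63) (nat_lit 5) (nat_lit 72) (nat_lit 5) (nat_lit 73) (nat_lit 5) (nat_lit 258) (nat_lit 237) (nat_lit 225)) (XT.lf (nat_lit 0) (nat_lit 375477751) (nat_lit 304) (nat_lit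 1084960658) (nat_lit 380) (nat_lit 6355351428) (nat_lit 58) (nat_lit 5) (nat_lit 62) (nat_lit 5) (nat_lit 63) (nat_lit 5) (nat_lit 259) (nat_lit 237) (nat_lit 224)))) (XT.nd (nat_lit 156) (nat_lit 380) (nat_lit 0) (XT.nd (nat_lit 78) (nat_lit 304) (nat_lit 0) (XT.lf (nat_lit 0) (nat_lit 3899558590) (nat_lit 380) (nat_lit 3092048326) (nat_lit 76) (nat_lit 987954492) (nat_lit 58) (nat_lit 5) (nat_lit 63) (nat_lit 5) (nat_lit 59) (nat_lit 5) (nat_lit 260) (nat_lit 237) (nat_lit 223)) (XT.lf (nat_lit 0) (nat_lit 1387817599) (nat_lit 304) (nat_lit 5009398860) (nat_lit 380) (nat_lit 1757926474) (nat_lit 54) (nat_lit 5) (nat_lit 58) (nat_lit 5) (nat_lit 59) (nat_lit 5) (nat_lit 261) (nat_lit 237) (nat_lit 222))) (XT.nd (nat_lit 78) (nat_lit 304) (nat_lit 0) (XT.lf (nat_lit 0) (nat_lit 609954541) (nat_lit 380) (nat_lit 2263741541) (nat_lit 76) (nat_lit 5468111335) (nat_lit 53) (nat_lit 5) (nat_lit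 58) (nat_lit 5) (nat_lit 54) (nat_lit 5) (nat_lit 262) (nat_lit 237) (nat_lit 221)) (XT.nd (nat_lit 78) (nat_lit 0) (nat_lit 0) (XT.lf (nat_lit 0) (nat_lit 2404197136) (nat_lit 304) (nat_lit 573585570) (nat_lit 380) (nat_lit 5561939072) (nat_lit 49) (nat_lit 5) (nat_lit 53) (nat_lit 5) (nat_lit 54) (nat_lit 5) (nat_lit 263) (nat_lit 237) (nat_lit 220)) (XT.lf (nat_lit 0) (nat_lit 5437548746) (nat_lit 380) (nat_lit 1502930193) (nat_lit 76) (nat_lit 1808746187) (nat_lit 49) (nat_lit 5) (nat_lit 54) (nat_lit 5) (nat_lit 50) (nat_lit 5) (nat_lit 264) (nat_lit 237) (nat_lit 219))))))))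
noncomputable def xc100 : XT := (XT.nd (nat_lit 1326) (nat_lit 760) (nat_lit 0) (XT.nd (nat_lit 624) (nat_lit 1064) (nat_lit 0) (XT.nd (nat_lit 312) (nat_lit 532) (nat_lit 0) (XT.nd (nat_lit 156) (nat_lit 228) (nat_lit 0) (XT.nd (nat_lit 78) (nat_lit 76) (nat_lit 0) (XT.lf (nat_lit 0) (nat_lit 3352466985) (nat_lit 304) (nat_lit 4639893854) (nat_lit 380) (nat_lit 978592862) (nat_lit 45) (nat_lit 5) (nat_lit 49) (nat_lit 5) (nat_lit 50) (nat_lit 5) (nat_lit 265) (nat_lit 237) (nat_lit 218)) (XT.lf (nat_lit 0) (nat_lit 1361121322) (nat_lit 380) (nat_lit 831328647) (nat_lit 76) (nat_lit 7013637317) (nat_lit 44) (nat_lit 5) (nat_lit 49) (nat_lit 5) (nat_lit 45) (nat_lit 5) (nat_lit 266) (nat_lit 237) (nat_lit 217))) (XT.nd (nat_lit 78) (nat_lit 0) (nat_lit 0) (XT.lf (nat_lit 0) (nat_lit 3773041075) (nat_lit 304) (nat_lit 5249552044) (nat_lit 76) (nat_lit 430481842) (nat_lit 41) (nat_lit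 5) (nat_lit 45) (nat_lit 5) (nat_lit 42) (nat_lit 5) (nat_lit 267) (nat_lit 237) (nat_lit 216)) (XT.lf (nat_lit 0) (nat_lit 6273371890) (nat_lit 304) (nat_lit 334438313) (nat_lit 76) (nat_lit 3106501435) (nat_lit 41) (nat_lit 5) (nat_lit 45) (nat_lit 5) (nat_lit 42) (nat_lit 5) (nat_lit 268) (nat_lit 237) (nat_lit 215)))) (XT.nd (nat_lit 156) (nat_lit 228) (nat_lit 0) (XT.nd (nat_lit 78) (nat_lit 76) (nat_lit 0) (XT.lf (nat_lit 0) (nat_lit 4882180367) (nat_lit 228) (nat_lit 4014252457) (nat_lit 304) (nat_lit 1092568187) (nat_lit 38) (nat_lit 5) (nat_lit 41) (nat_lit 5) (nat_lit 42) (nat_lit 5) (nat_lit 269) (nat_lit 237) (nat_lit 214)) (XT.lf (nat_lit 0) (nat_lit 1257204700) (nat_lit 304) (nat_lit 29147269) (nat_lit 76) (nat_lit 8993855003) (nat_lit 37) (nat_lit 5) (nat_lit 41) (nat_lit 5) (nat_lit 38) (nat_lit 5) (nat_lit 270) (nat_lit 237) (nat_lit 213))) (XT.nd (nat_lit 78) (nat_lit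 0) (nat_lit 0) (XT.lf (nat_lit 0) (nat_lit 3723249883) (nat_lit 304) (nat_lit 5251630056) (nat_lit 76) (nat_lit 1608661576) (nat_lit 34) (nat_lit 5) (nat_lit 38) (nat_lit 5) (nat_lit 35) (nat_lit 5) (nat_lit 271) (nat_lit 237) (nat_lit 212)) (XT.lf (nat_lit 0) (nat_lit 6261748905) (nat_lit 304) (nat_lit 59855323) (nat_lit 76) (nat_lit 4583208491) (nat_lit 34) (nat_lit 5) (nat_lit 38) (nat_lit 5) (nat_lit 35) (nat_lit 5) (nat_lit 272) (nat_lit 237) (nat_lit 211))))) (XT.nd (nat_lit 312) (nat_lit 608) (nat_lit 0) (XT.nd (nat_lit 156) (nat_lit 152) (nat_lit 0) (XT.nd (nat_lit 78) (nat_lit 76) (nat_lit 0) (XT.lf (nat_lit 0) (nat_lit 5472592482) (nat_lit 228) (nat_lit 3471034453) (nat_lit 304) (nat_lit 2297914522) (nat_lit 31) (nat_lit 5) (nat_lit 34) (nat_lit 5) (nat_lit 35) (nat_lit 5) (nat_lit 273) (nat_lit 237) (nat_lit 210)) (XT.lf (nat_lit 0) (nat_lit 91808867) (nat_lit 304) (nat_lit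 408915293) (nat_lit 76) (nat_lit 11097821526) (nat_lit 30) (nat_lit 5) (nat_lit 34) (nat_lit 5) (nat_lit 31) (nat_lit 5) (nat_lit 274) (nat_lit 237) (nat_lit 209))) (XT.nd (nat_lit 78) (nat_lit 0) (nat_lit 0) (XT.lf (nat_lit 0) (nat_lit 2583160789) (nat_lit 228) (nat_lit 6754013457) (nat_lit 76) (nat_lit 2631561151) (nat_lit 28) (nat_lit 5) (nat_lit 31) (nat_lit 5) (nat_lit 29) (nat_lit 5) (nat_lit 275) (nat_lit 237) (nat_lit 208)) (XT.lf (nat_lit 0) (nat_lit 5150453423) (nat_lit 228) (nat_lit 1323657019) (nat_lit 76) (nat_lit 5885933757) (nat_lit 28) (nat_lit 5) (nat_lit 31) (nat_lit 5) (nat_lit 29) (nat_lit 5) (nat_lit 276) (nat_lit 237) (nat_lit 207)))) (XT.nd (nat_lit 156) (nat_lit 380) (nat_lit 0) (XT.nd (nat_lit 78) (nat_lit 0) (nat_lit 0) (XT.lf (nat_lit 0) (nat_lit 4432480275) (nat_lit 228) (nat_lit 3422001298) (nat_lit 304) (nat_lit 4916188098) (nat_lit 25) (nat_lit 5) (nat_lit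 28) (nat_lit 5) (nat_lit 29) (nat_lit 5) (nat_lit 277) (nat_lit 237) (nat_lit 206)) (XT.lf (nat_lit 0) (nat_lit 10436187769) (nat_lit 228) (nat_lit 220658682) (nat_lit 304) (nat_lit 2546984885) (nat_lit 25) (nat_lit 5) (nat_lit 28) (nat_lit 5) (nat_lit 29) (nat_lit 5) (nat_lit 278) (nat_lit 237) (nat_lit 205))) (XT.nd (nat_lit 78) (nat_lit 228) (nat_lit 0) (XT.lf (nat_lit 0) (nat_lit 3045195395) (nat_lit 152) (nat_lit 10593855489) (nat_lit 228) (nat_lit 17768128) (nat_lit 23) (nat_lit 5) (nat_lit 25) (nat_lit 5) (nat_lit 26) (nat_lit 4) (nat_lit 279) (nat_lit 237) (nat_lit 204)) (XT.nd (nat_lit 78) (nat_lit 152) (nat_lit 0) (XT.lf (nat_lit 0) (nat_lit 2548234395) (nat_lit 228) (nat_lit 5016226620) (nat_lit 76) (nat_lit 6566337743) (nat_lit 22) (nat_lit 5) (nat_lit 25) (nat_lit 5) (nat_lit 23) (nat_lit 5) (nat_lit 280) (nat_lit 237) (nat_lit 203)) (XT.lf (nat_lit 0) (nat_lit 803109795)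 (nat_lit 152) (nat_lit 4397556903) (nat_lit 228) (nat_lit 9429992914) (nat_lit 20) (nat_lit 5) (nat_lit 22) (nat_lit 5) (nat_lit 23) (nat_lit 5) (nat_lit 281) (nat_lit 237) (nat_lit 202))))))) (XT.nd (nat_lit 702) (nat_lit 304) (nat_lit 0) (XT.nd (nat_lit 312) (nat_lit 228) (nat_lit 0) (XT.nd (nat_lit 156) (nat_lit 228) (nat_lit 0) (XT.nd (nat_lit 78) (nat_lit 0) (nat_lit 0) (XT.lf (nat_lit 0) (nat_lit 7007631796) (nat_lit 152) (nat_lit 1010543523) (nat_lit 228) (nat_lit 7135842140) (nat_lit 20) (nat_lit 5) (nat_lit 22) (nat_lit 5) (nat_lit 23) (nat_lit 5) (nat_lit 282) (nat_lit 237) (nat_lit 201)) (XT.lf (nat_lit 0) (nat_lit 10965901174) (nat_lit 228) (nat_lit 2299250230) (nat_lit 76) (nat_lit 2439045359) (nat_lit 20) (nat_lit 5) (nat_lit 23) (nat_lit 5) (nat_lit 21) (nat_lit 4) (nat_lit 283) (nat_lit 237) (nat_lit 200))) (XT.nd (nat_lit 78) (nat_lit 76) (nat_lit 0) (XT.lf (nat_lit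 0) (nat_lit 3873027679) (nat_lit 152) (nat_lit 10217015420) (nat_lit 228) (nat_lit 2190505355) (nat_lit 18) (nat_lit 5) (nat_lit 20) (nat_lit 5) (nat_lit 21) (nat_lit 4) (nat_lit 284) (nat_lit 237) (nat_lit 199)) (XT.lf (nat_lit 0) (nat_lit 460999396) (nat_lit 228) (nat_lit 6533320413) (nat_lit 76) (nat_lit 9891531908) (nat_lit 17) (nat_lit 5) (nat_lit 20) (nat_lit 5) (nat_lit 18) (nat_lit 5) (nat_lit 285) (nat_lit 237) (nat_lit 198)))) (XT.nd (nat_lit 156) (nat_lit 76) (nat_lit 0) (XT.nd (nat_lit 78) (nat_lit 152) (nat_lit 0) (XT.lf (nat_lit 0) (nat_lit 3125997711) (nat_lit 228) (nat_lit 472832739) (nat_lit 76) (nat_lit 13923166776) (nat_lit 17) (nat_lit 5) (nat_lit 20) (nat_lit 5) (nat_lit 18) (nat_lit 5) (nat_lit 286) (nat_lit 237) (nat_lit 197)) (XT.lf (nat_lit 0) (nat_lit 5975485311) (nat_lit 228) (nat_lit 12173049748) (nat_lit 76) (nat_lit 38947520) (nat_lit 15) (nat_lit 5) (nat_lit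 18) (nat_lit 5) (nat_lit 16) (nat_lit 4) (nat_lit 287) (nat_lit 237) (nat_lit 196))) (XT.nd (nat_lit 78) (nat_lit 76) (nat_lit 0) (XT.lf (nat_lit 0) (nat_lit 8991911936) (nat_lit 228) (nat_lit 6171320157) (nat_lit 76) (nat_lit 3721876908) (nat_lit 15) (nat_lit 5) (nat_lit 18) (nat_lit 5) (nat_lit 16) (nat_lit 4) (nat_lit 288) (nat_lit 237) (nat_lit 195)) (XT.nd (nat_lit 78) (nat_lit 0) (nat_lit 0) (XT.lf (nat_lit 0) (nat_lit 67093600) (nat_lit 76) (nat_lit 12052474287) (nat_lit 152) (nat_lit 7500114204) (nat_lit 14) (nat_lit 5) (nat_lit 15) (nat_lit 5) (nat_lit 16) (nat_lit 4) (nat_lit 289) (nat_lit 237) (nat_lit 194)) (XT.lf (nat_lit 0) (nat_lit 6767189873) (nat_lit 76) (nat_lit 8701219840) (nat_lit 152) (nat_lit 4919415634) (nat_lit 14) (nat_lit 5) (nat_lit 15) (nat_lit 5) (nat_lit 16) (nat_lit 4) (nat_lit 290) (nat_lit 237) (nat_lit 193)))))) (XT.nd (nat_lit 312) (nat_lit 76) (nat_lit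 0) (XT.nd (nat_lit 156) (nat_lit 152) (nat_lit 0) (XT.nd (nat_lit 78) (nat_lit 76) (nat_lit 0) (XT.lf (nat_lit 0) (nat_lit 13740869556) (nat_lit 76) (nat_lit 5206003867) (nat_lit 152) (nat_lit 2249471126) (nat_lit 14) (nat_lit 5) (nat_lit 15) (nat_lit 5) (nat_lit 16) (nat_lit 4) (nat_lit 291) (nat_lit 237) (nat_lit 192)) (XT.lf (nat_lit 0) (nat_lit 499558663) (nat_lit 152) (nat_lit 1050485495) (nat_lit 76) (nat_lit 20496717717) (nat_lit 13) (nat_lit 5) (nat_lit 15) (nat_lit 5) (nat_lit 14) (nat_lit 5) (nat_lit 292) (nat_lit 237) (nat_lit 191))) (XT.nd (nat_lit 78) (nat_lit 0) (nat_lit 0) (XT.lf (nat_lit 0) (nat_lit 3402993458) (nat_lit 228) (nat_lit 17207164570) (nat_lit 76) (nat_lit 2323137872) (nat_lit 11) (nat_lit 5) (nat_lit 14) (nat_lit 5) (nat_lit 12) (nat_lit 4) (nat_lit 293) (nat_lit 237) (nat_lit 190)) (XT.lf (nat_lit 0) (nat_lit 6460605553) (nat_lit 228) (nat_lit 11068364683)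 (nat_lit 76) (nat_lit 6334800097) (nat_lit 11) (nat_lit 5) (nat_lit 14) (nat_lit 5) (nat_lit 12) (nat_lit 4) (nat_lit 294) (nat_lit 237) (nat_lit 189)))) (XT.nd (nat_lit 156) (nat_lit 0) (nat_lit 0) (XT.nd (nat_lit 78) (nat_lit 76) (nat_lit 0) (XT.lf (nat_lit 0) (nat_lit 9638253371) (nat_lit 228) (nat_lit 4677334187) (nat_lit 76) (nat_lit 10526884112) (nat_lit 11) (nat_lit 5) (nat_lit 14) (nat_lit 5) (nat_lit 12) (nat_lit 4) (nat_lit 295) (nat_lit 237) (nat_lit 188)) (XT.lf (nat_lit 0) (nat_lit 2046649210) (nat_lit 76) (nat_lit 10928807458) (nat_lit 152) (nat_lit 12894675789) (nat_lit 10) (nat_lit 5) (nat_lit 11) (nat_lit 5) (nat_lit 12) (nat_lit 4) (nat_lit 296) (nat_lit 237) (nat_lit 187))) (XT.nd (nat_lit 78) (nat_lit 0) (nat_lit 0) (XT.lf (nat_lit 0) (nat_lit 9217954472) (nat_lit 76) (nat_lit 7310186929) (nat_lit 152) (nat_lit 10418659092) (nat_lit 10) (nat_lit 5) (nat_lit 11) (nat_lit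 5) (nat_lit 12) (nat_lit 4) (nat_lit 297) (nat_lit 237) (nat_lit 186)) (XT.nd (nat_lit 78) (nat_lit 0) (nat_lit 0) (XT.lf (nat_lit 0) (nat_lit 16699002343) (nat_lit 76) (nat_lit 3530323126) (nat_lit 152) (nat_lit 7849485848) (nat_lit 10) (nat_lit 5) (nat_lit 11) (nat_lit 5) (nat_lit 12) (nat_lit 4) (nat_lit 298) (nat_lit 237) (nat_lit 185)) (XT.lf (nat_lit 0) (nat_lit 24094375212) (nat_lit 152) (nat_lit 4767809353) (nat_lit 0) (nat_lit 406347928) (nat_lit 10) (nat_lit 5) (nat_lit 12) (nat_lit 4) (nat_lit 10) (nat_lit 4) (nat_lit 299) (nat_lit 237) (nat_lit 184))))))))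
noncomputable def xc101 : XT := (XT.nd (nat_lit 1326) (nat_lit 152) (nat_lit 0) (XT.nd (nat_lit 624) (nat_lit 152) (nat_lit 0) (XT.nd (nat_lit 312) (nat_lit 76) (nat_lit 0) (XT.nd (nat_lit 156) (nat_lit 0) (nat_lit 0) (XT.nd (nat_lit 78) (nat_lit 76) (nat_lit 0) (XT.lf (nat_lit 0) (nat_lit 2140036801) (nat_lit 76) (nat_lit 26077221743) (nat_lit 76) (nat_lit 2297299875) (nat_lit 9) (nat_lit 4) (nat_lit 10) (nat_lit 5) (nat_lit 10) (nat_lit 4) (nat_lit 300) (nat_lit 237) (nat_lit 183)) (XT.lf (nat_lit 0) (nat_lit 755713197) (nat_lit 152) (nat_lit 22318228465) (nat_lit 76) (nat_lit 8745649268) (nat_lit 8) (nat_lit 5) (nat_lit 10) (nat_lit 5) (nat_lit 9) (nat_lit 4) (nat_lit 301) (nat_lit 237) (nat_lit 182))) (XT.nd (nat_lit 78) (nat_lit 0) (nat_lit 0) (XT.lf (nat_lit 0) (nat_lit 3858836657) (nat_lit 152) (nat_lit 16040176468) (nat_lit 76) (nat_lit 13290286948) (nat_lit 8) (nat_lit 5) (nat_lit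 10) (nat_lit 5) (nat_lit 9) (nat_lit 4) (nat_lit 302) (nat_lit 237) (nat_lit 181)) (XT.lf (nat_lit 0) (nat_lit 7092986836) (nat_lit 152) (nat_lit 9489550596) (nat_lit 76) (nat_lit 18046202996) (nat_lit 8) (nat_lit 5) (nat_lit 10) (nat_lit 5) (nat_lit 9) (nat_lit 4) (nat_lit 303) (nat_lit 237) (nat_lit 180)))) (XT.nd (nat_lit 156) (nat_lit 0) (nat_lit 0) (XT.nd (nat_lit 78) (nat_lit 76) (nat_lit 0) (XT.lf (nat_lit 0) (nat_lit 10465864093) (nat_lit 152) (nat_lit 2650754122) (nat_lit 76) (nat_lit 23024721020) (nat_lit 8) (nat_lit 5) (nat_lit 10) (nat_lit 5) (nat_lit 9) (nat_lit 4) (nat_lit 304) (nat_lit 237) (nat_lit 179)) (XT.lf (nat_lit 0) (nat_lit 4641038003) (nat_lit 76) (nat_lit 9416920693) (nat_lit 152) (nat_lit 23669116241) (nat_lit 7) (nat_lit 5) (nat_lit 8) (nat_lit 5) (nat_lit 9) (nat_lit 4) (nat_lit 305) (nat_lit 237) (nat_lit 178))) (XT.nd (nat_lit 78) (nat_lit 0) (nat_lit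 0) (XT.lf (nat_lit 0) (nat_lit 12352566179) (nat_lit 76) (nat_lit 5500563897) (nat_lit 152) (nat_lit 21537827678) (nat_lit 7) (nat_lit 5) (nat_lit 8) (nat_lit 5) (nat_lit 9) (nat_lit 4) (nat_lit 306) (nat_lit 237) (nat_lit 177)) (XT.lf (nat_lit 0) (nat_lit 20414545286) (nat_lit 76) (nat_lit 1403114971) (nat_lit 152) (nat_lit 19321426760) (nat_lit 7) (nat_lit 5) (nat_lit 8) (nat_lit 5) (nat_lit 9) (nat_lit 4) (nat_lit 307) (nat_lit 237) (nat_lit 176))))) (XT.nd (nat_lit 312) (nat_lit 76) (nat_lit 0) (XT.nd (nat_lit 156) (nat_lit 76) (nat_lit 0) (XT.nd (nat_lit 78) (nat_lit 0) (nat_lit 0) (XT.lf (nat_lit 0) (nat_lit 26006034372) (nat_lit 152) (nat_lit 14174500206) (nat_lit 0) (nat_lit 2792838073) (nat_lit 7) (nat_lit 5) (nat_lit 9) (nat_lit 4) (nat_lit 7) (nat_lit 4) (nat_lit 308) (nat_lit 237) (nat_lit 175)) (XT.lf (nat_lit 0) (nat_lit 30408117352) (nat_lit 152) (nat_lit 7352564271)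 (nat_lit 0) (nat_lit 7138505749) (nat_lit 7) (nat_lit 5) (nat_lit 9) (nat_lit 4) (nat_lit 7) (nat_lit 4) (nat_lit 309) (nat_lit 237) (nat_lit 174))) (XT.nd (nat_lit 78) (nat_lit 76) (nat_lit 0) (XT.lf (nat_lit 0) (nat_lit 35012483788) (nat_lit 152) (nat_lit 220584664) (nat_lit 0) (nat_lit 11689143326) (nat_lit 7) (nat_lit 5) (nat_lit 9) (nat_lit 4) (nat_lit 7) (nat_lit 4) (nat_lit 310) (nat_lit 237) (nat_lit 173)) (XT.lf (nat_lit 0) (nat_lit 7477754354) (nat_lit 76) (nat_lit 32469090807) (nat_lit 76) (nat_lit 9094580002) (nat_lit 6) (nat_lit 4) (nat_lit 7) (nat_lit 5) (nat_lit 7) (nat_lit 4) (nat_lit 311) (nat_lit 237) (nat_lit 172)))) (XT.nd (nat_lit 156) (nat_lit 76) (nat_lit 0) (XT.nd (nat_lit 78) (nat_lit 0) (nat_lit 0) (XT.lf (nat_lit 0) (nat_lit 15539571127) (nat_lit 76) (nat_lit 29575471000) (nat_lit 76) (nat_lit 6152226536) (nat_lit 6) (nat_lit 4) (nat_lit 7) (nat_lit 5) (nat_lit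 7) (nat_lit 4) (nat_lit 312) (nat_lit 237) (nat_lit 171)) (XT.lf (nat_lit 0) (nat_lit 23976766929) (nat_lit 76) (nat_lit 26549055170) (nat_lit 76) (nat_lit 3079397695) (nat_lit 6) (nat_lit 4) (nat_lit 7) (nat_lit 5) (nat_lit 7) (nat_lit 4) (nat_lit 313) (nat_lit 237) (nat_lit 170))) (XT.nd (nat_lit 78) (nat_lit 0) (nat_lit 0) (XT.lf (nat_lit 0) (nat_lit 127022828) (nat_lit 152) (nat_lit 23253463541) (nat_lit 76) (nat_lit 32680256301) (nat_lit 5) (nat_lit 5) (nat_lit 7) (nat_lit 5) (nat_lit 6) (nat_lit 4) (nat_lit 314) (nat_lit 237) (nat_lit 169)) (XT.nd (nat_lit 78) (nat_lit 0) (nat_lit 0) (XT.lf (nat_lit 0) (nat_lit 3375664502) (nat_lit 152) (nat_lit 16635846076) (nat_lit 76) (nat_lit 38625758444) (nat_lit 5) (nat_lit 5) (nat_lit 7) (nat_lit 5) (nat_lit 6) (nat_lit 4) (nat_lit 315) (nat_lit 237) (nat_lit 168)) (XT.lf (nat_lit 0) (nat_lit 6772822146) (nat_lit 152) (nat_lit 9711766209)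 (nat_lit 76) (nat_lit 44858748982) (nat_lit 5) (nat_lit 5) (nat_lit 7) (nat_lit 5) (nat_lit 6) (nat_lit 4) (nat_lit 316) (nat_lit 237) (nat_lit 167))))))) (XT.nd (nat_lit 702) (nat_lit 76) (nat_lit 0) (XT.nd (nat_lit 312) (nat_lit 0) (nat_lit 0) (XT.nd (nat_lit 156) (nat_lit 0) (nat_lit 0) (XT.nd (nat_lit 78) (nat_lit 76) (nat_lit 0) (XT.lf (nat_lit 0) (nat_lit 10326584229) (nat_lit 152) (nat_lit 2464738037) (nat_lit 76) (nat_lit 51394068370) (nat_lit 5) (nat_lit 5) (nat_lit 7) (nat_lit 5) (nat_lit 6) (nat_lit 4) (nat_lit 317) (nat_lit 237) (nat_lit 166)) (XT.lf (nat_lit 0) (nat_lit 5291866031) (nat_lit 76) (nat_lit 8836166918) (nat_lit 152) (nat_lit 53038031719) (nat_lit 4) (nat_lit 5) (nat_lit 5) (nat_lit 5) (nat_lit 6) (nat_lit 4) (nat_lit 318) (nat_lit 237) (nat_lit 165))) (XT.nd (nat_lit 78) (nat_lit 0) (nat_lit 0) (XT.lf (nat_lit 0) (nat_lit 13500079399) (nat_lit 76) (nat_lit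 4648854755) (nat_lit 152) (nat_lit 52145386383) (nat_lit 4) (nat_lit 5) (nat_lit 5) (nat_lit 5) (nat_lit 6) (nat_lit 4) (nat_lit 319) (nat_lit 237) (nat_lit 164)) (XT.lf (nat_lit 0) (nat_lit 22097950060) (nat_lit 76) (nat_lit 261157518) (nat_lit 152) (nat_lit 51220486586) (nat_lit 4) (nat_lit 5) (nat_lit 5) (nat_lit 5) (nat_lit 6) (nat_lit 4) (nat_lit 320) (nat_lit 237) (nat_lit 163)))) (XT.nd (nat_lit 156) (nat_lit 0) (nat_lit 0) (XT.nd (nat_lit 78) (nat_lit 0) (nat_lit 0) (XT.lf (nat_lit 0) (nat_lit 26836295973) (nat_lit 152) (nat_lit 45991477021) (nat_lit 0) (nat_lit 4198548708) (nat_lit 4) (nat_lit 5) (nat_lit 6) (nat_lit 4) (nat_lit 4) (nat_lit 4) (nat_lit 321) (nat_lit 237) (nat_lit 162)) (XT.lf (nat_lit 0) (nat_lit 31530819569) (nat_lit 152) (nat_lit 40250328323) (nat_lit 0) (nat_lit 8864578742) (nat_lit 4) (nat_lit 5) (nat_lit 6) (nat_lit 4) (nat_lit 4) (nat_lit 4) (nat_lit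 322) (nat_lit 237) (nat_lit 161))) (XT.nd (nat_lit 78) (nat_lit 0) (nat_lit 0) (XT.lf (nat_lit 0) (nat_lit 36449778402) (nat_lit 152) (nat_lit 34240451206) (nat_lit 0) (nat_lit 13756400851) (nat_lit 4) (nat_lit 5) (nat_lit 6) (nat_lit 4) (nat_lit 4) (nat_lit 4) (nat_lit 323) (nat_lit 237) (nat_lit 160)) (XT.nd (nat_lit 78) (nat_lit 0) (nat_lit 0) (XT.lf (nat_lit 0) (nat_lit 41604884281) (nat_lit 152) (nat_lit 27947536439) (nat_lit 0) (nat_lit 18885662229) (nat_lit 4) (nat_lit 5) (nat_lit 6) (nat_lit 4) (nat_lit 4) (nat_lit 4) (nat_lit 324) (nat_lit 237) (nat_lit 159)) (XT.lf (nat_lit 0) (nat_lit 47008411265) (nat_lit 152) (nat_lit 21356600892) (nat_lit 0) (nat_lit 24264575403) (nat_lit 4) (nat_lit 5) (nat_lit 6) (nat_lit 4) (nat_lit 4) (nat_lit 4) (nat_lit 325) (nat_lit 237) (nat_lit 158)))))) (XT.nd (nat_lit 312) (nat_lit 0) (nat_lit 0) (XT.nd (nat_lit 156) (nat_lit 76) (nat_lit 0)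 (XT.nd (nat_lit 78) (nat_lit 0) (nat_lit 0) (XT.lf (nat_lit 0) (nat_lit 52673224896) (nat_lit 152) (nat_lit 14451951862) (nat_lit 0) (nat_lit 29905947310) (nat_lit 4) (nat_lit 5) (nat_lit 6) (nat_lit 4) (nat_lit 4) (nat_lit 4) (nat_lit 326) (nat_lit 237) (nat_lit 157)) (XT.lf (nat_lit 0) (nat_lit 58612812825) (nat_lit 152) (nat_lit 7217149708) (nat_lit 0) (nat_lit 35823209788) (nat_lit 4) (nat_lit 5) (nat_lit 6) (nat_lit 4) (nat_lit 4) (nat_lit 4) (nat_lit 327) (nat_lit 237) (nat_lit 156))) (XT.nd (nat_lit 78) (nat_lit 0) (nat_lit 0) (XT.lf (nat_lit 0) (nat_lit 377100872) (nat_lit 76) (nat_lit 64470103657) (nat_lit 76) (nat_lit 41659238286) (nat_lit 3) (nat_lit 4) (nat_lit 4) (nat_lit 5) (nat_lit 4) (nat_lit 4) (nat_lit 328) (nat_lit 237) (nat_lit 155)) (XT.lf (nat_lit 0) (nat_lit 8587497492) (nat_lit 76) (nat_lit 62920144386) (nat_lit 76) (nat_lit 40089029173) (nat_lit 3) (nat_lit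 4) (nat_lit 4) (nat_lit 5) (nat_lit 4) (nat_lit 4) (nat_lit 329) (nat_lit 237) (nat_lit 154)))) (XT.nd (nat_lit 156) (nat_lit 0) (nat_lit 0) (XT.nd (nat_lit 78) (nat_lit 0) (nat_lit 0) (XT.lf (nat_lit 0) (nat_lit 17194957152) (nat_lit 76) (nat_lit 61298620265) (nat_lit 76) (nat_lit 38448219488) (nat_lit 3) (nat_lit 4) (nat_lit 4) (nat_lit 5) (nat_lit 4) (nat_lit 4) (nat_lit 330) (nat_lit 237) (nat_lit 153)) (XT.lf (nat_lit 0) (nat_lit 26219973803) (nat_lit 76) (nat_lit 59601670521) (nat_lit 76) (nat_lit 36732902540) (nat_lit 3) (nat_lit 4) (nat_lit 4) (nat_lit 5) (nat_lit 4) (nat_lit 4) (nat_lit 331) (nat_lit 237) (nat_lit 152))) (XT.nd (nat_lit 78) (nat_lit 0) (nat_lit 0) (XT.lf (nat_lit 0) (nat_lit 35684035581) (nat_lit 76) (nat_lit 57825254798) (nat_lit 76) (nat_lit 34938994242) (nat_lit 3) (nat_lit 4) (nat_lit 4) (nat_lit 5) (nat_lit 4) (nat_lit 4) (nat_lit 332) (nat_lit 237) (nat_lit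 151)) (XT.nd (nat_lit 78) (nat_lit 0) (nat_lit 0) (XT.lf (nat_lit 0) (nat_lit 45609675964) (nat_lit 76) (nat_lit 55965143535) (nat_lit 76) (nat_lit 33062223384) (nat_lit 3) (nat_lit 4) (nat_lit 4) (nat_lit 5) (nat_lit 4) (nat_lit 4) (nat_lit 333) (nat_lit 237) (nat_lit 150)) (XT.lf (nat_lit 0) (nat_lit 56020527432) (nat_lit 76) (nat_lit 54016907895) (nat_lit 76) (nat_lit 31098121462) (nat_lit 3) (nat_lit 4) (nat_lit 4) (nat_lit 5) (nat_lit 4) (nat_lit 4) (nat_lit 334) (nat_lit 237) (nat_lit 149))))))))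
noncomputable def xc102 : XT := (XT.nd (nat_lit 1326) (nat_lit 0) (nat_lit 0) (XT.nd (nat_lit 624) (nat_lit 152) (nat_lit 0) (XT.nd (nat_lit 312) (nat_lit 0) (nat_lit 0) (XT.nd (nat_lit 156) (nat_lit 0) (nat_lit 0) (XT.nd (nat_lit 78) (nat_lit 0) (nat_lit 0) (XT.lf (nat_lit 0) (nat_lit 66941377725) (nat_lit 76) (nat_lit 51975909222) (nat_lit 76) (nat_lit 29042012046) (nat_lit 3) (nat_lit 4) (nat_lit 4) (nat_lit 5) (nat_lit 4) (nat_lit 4) (nat_lit 335) (nat_lit 237) (nat_lit 148)) (XT.lf (nat_lit 0) (nat_lit 78398228868) (nat_lit 76) (nat_lit 49837287995) (nat_lit 76) (nat_lit 26888999634) (nat_lit 3) (nat_lit 4) (nat_lit 4) (nat_lit 5) (nat_lit 4) (nat_lit 4) (nat_lit 336) (nat_lit 237) (nat_lit 147))) (XT.nd (nat_lit 78) (nat_lit 0) (nat_lit 0) (XT.lf (nat_lit 0) (nat_lit 90418359078) (nat_lit 76) (nat_lit 47595952260) (nat_lit 76) (nat_lit 24633958009) (nat_lit 3) (nat_lit 4) (nat_lit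 4) (nat_lit 5) (nat_lit 4) (nat_lit 4) (nat_lit 337) (nat_lit 237) (nat_lit 146)) (XT.lf (nat_lit 0) (nat_lit 103030387712) (nat_lit 76) (nat_lit 45246565502) (nat_lit 76) (nat_lit 22271518022) (nat_lit 3) (nat_lit 4) (nat_lit 4) (nat_lit 5) (nat_lit 4) (nat_lit 4) (nat_lit 338) (nat_lit 237) (nat_lit 145)))) (XT.nd (nat_lit 156) (nat_lit 0) (nat_lit 0) (XT.nd (nat_lit 78) (nat_lit 0) (nat_lit 0) (XT.lf (nat_lit 0) (nat_lit 116264343410) (nat_lit 76) (nat_lit 42783533944) (nat_lit 76) (nat_lit 19796054817) (nat_lit 3) (nat_lit 4) (nat_lit 4) (nat_lit 5) (nat_lit 4) (nat_lit 4) (nat_lit 339) (nat_lit 237) (nat_lit 144)) (XT.lf (nat_lit 0) (nat_lit 130151735590) (nat_lit 76) (nat_lit 40200993224) (nat_lit 76) (nat_lit 17201674433) (nat_lit 3) (nat_lit 4) (nat_lit 4) (nat_lit 5) (nat_lit 4) (nat_lit 4) (nat_lit 340) (nat_lit 237) (nat_lit 143))) (XT.nd (nat_lit 78) (nat_lit 0) (nat_lit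 0) (XT.lf (nat_lit 0) (nat_lit 144725629473) (nat_lit 76) (nat_lit 37492794436) (nat_lit 76) (nat_lit 14482199776) (nat_lit 3) (nat_lit 4) (nat_lit 4) (nat_lit 5) (nat_lit 4) (nat_lit 4) (nat_lit 341) (nat_lit 237) (nat_lit 142)) (XT.lf (nat_lit 0) (nat_lit 160020724804) (nat_lit 76) (nat_lit 34652489488) (nat_lit 76) (nat_lit 11631155904) (nat_lit 3) (nat_lit 4) (nat_lit 4) (nat_lit 5) (nat_lit 4) (nat_lit 4) (nat_lit 342) (nat_lit 237) (nat_lit 141))))) (XT.nd (nat_lit 312) (nat_lit 76) (nat_lit 0) (XT.nd (nat_lit 156) (nat_lit 76) (nat_lit 0) (XT.nd (nat_lit 78) (nat_lit 0) (nat_lit 0) (XT.lf (nat_lit 0) (nat_lit 176073438479) (nat_lit 76) (nat_lit 31673315749) (nat_lit 76) (nat_lit 8641754619) (nat_lit 3) (nat_lit 4) (nat_lit 4) (nat_lit 5) (nat_lit 4) (nat_lit 4) (nat_lit 343) (nat_lit 237) (nat_lit 140)) (XT.lf (nat_lit 0) (nat_lit 192921991243) (nat_lit 76) (nat_lit 28548179948)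 (nat_lit 76) (nat_lit 5506878297) (nat_lit 3) (nat_lit 4) (nat_lit 4) (nat_lit 5) (nat_lit 4) (nat_lit 4) (nat_lit 344) (nat_lit 237) (nat_lit 139))) (XT.nd (nat_lit 78) (nat_lit 76) (nat_lit 0) (XT.lf (nat_lit 0) (nat_lit 210606498699) (nat_lit 76) (nat_lit 25269641285) (nat_lit 76) (nat_lit 2219062949) (nat_lit 3) (nat_lit 4) (nat_lit 4) (nat_lit 5) (nat_lit 4) (nat_lit 4) (nat_lit 345) (nat_lit 237) (nat_lit 138)) (XT.lf (nat_lit 0) (nat_lit 1190167253) (nat_lit 152) (nat_lit 20619570405) (nat_lit 76) (nat_lit 227958743504) (nat_lit 2) (nat_lit 5) (nat_lit 4) (nat_lit 5) (nat_lit 3) (nat_lit 4) (nat_lit 346) (nat_lit 237) (nat_lit 137)))) (XT.nd (nat_lit 156) (nat_lit 76) (nat_lit 0) (XT.nd (nat_lit 78) (nat_lit 0) (nat_lit 0) (XT.lf (nat_lit 0) (nat_lit 4691943299) (nat_lit 152) (nat_lit 13449343738) (nat_lit 76) (nat_lit 243882488556) (nat_lit 2) (nat_lit 5) (nat_lit 4) (nat_lit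 5) (nat_lit 3) (nat_lit 4) (nat_lit 347) (nat_lit 237) (nat_lit 136)) (XT.lf (nat_lit 0) (nat_lit 8365626624) (nat_lit 152) (nat_lit 5926306473) (nat_lit 76) (nat_lit 260600064690) (nat_lit 2) (nat_lit 5) (nat_lit 4) (nat_lit 5) (nat_lit 3) (nat_lit 4) (nat_lit 348) (nat_lit 237) (nat_lit 135))) (XT.nd (nat_lit 78) (nat_lit 0) (nat_lit 0) (XT.lf (nat_lit 0) (nat_lit 2032506276) (nat_lit 76) (nat_lit 10219190934) (nat_lit 152) (nat_lit 276150502503) (nat_lit 1) (nat_lit 5) (nat_lit 2) (nat_lit 5) (nat_lit 3) (nat_lit 4) (nat_lit 349) (nat_lit 237) (nat_lit 134)) (XT.nd (nat_lit 78) (nat_lit 0) (nat_lit 0) (XT.lf (nat_lit 0) (nat_lit 10589665939) (nat_lit 76) (nat_lit 5839801119) (nat_lit 152) (nat_lit 286153578486) (nat_lit 1) (nat_lit 5) (nat_lit 2) (nat_lit 5) (nat_lit 3) (nat_lit 4) (nat_lit 350) (nat_lit 237) (nat_lit 133)) (XT.lf (nat_lit 0) (nat_lit 19569596249) (nat_lit 76) (nat_lit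 1243701403) (nat_lit 152) (nat_lit 296659780829) (nat_lit 1) (nat_lit 5) (nat_lit 2) (nat_lit 5) (nat_lit 3) (nat_lit 4) (nat_lit 351) (nat_lit 237) (nat_lit 132))))))) (XT.nd (nat_lit 702) (nat_lit 0) (nat_lit 0) (XT.nd (nat_lit 312) (nat_lit 0) (nat_lit 0) (XT.nd (nat_lit 156) (nat_lit 0) (nat_lit 0) (XT.nd (nat_lit 78) (nat_lit 0) (nat_lit 0) (XT.lf (nat_lit 0) (nat_lit 25469521316) (nat_lit 152) (nat_lit 304169967624) (nat_lit 0) (nat_lit 3465467310) (nat_lit 1) (nat_lit 5) (nat_lit 3) (nat_lit 4) (nat_lit 1) (nat_lit 4) (nat_lit 352) (nat_lit 237) (nat_lit 131)) (XT.lf (nat_lit 0) (nat_lit 30376347861) (nat_lit 152) (nat_lit 310774879547) (nat_lit 0) (nat_lit 8366314021) (nat_lit 1) (nat_lit 5) (nat_lit 3) (nat_lit 4) (nat_lit 1) (nat_lit 4) (nat_lit 353) (nat_lit 237) (nat_lit 130))) (XT.nd (nat_lit 78) (nat_lit 0) (nat_lit 0) (XT.lf (nat_lit 0) (nat_lit 35526042543) (nat_lit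 152) (nat_lit 317714526319) (nat_lit 0) (nat_lit 13510313623) (nat_lit 1) (nat_lit 5) (nat_lit 3) (nat_lit 4) (nat_lit 1) (nat_lit 4) (nat_lit 354) (nat_lit 237) (nat_lit 129)) (XT.lf (nat_lit 0) (nat_lit 40930866541) (nat_lit 152) (nat_lit 325005430907) (nat_lit 0) (nat_lit 18909713735) (nat_lit 1) (nat_lit 5) (nat_lit 3) (nat_lit 4) (nat_lit 1) (nat_lit 4) (nat_lit 355) (nat_lit 237) (nat_lit 128)))) (XT.nd (nat_lit 156) (nat_lit 0) (nat_lit 0) (XT.nd (nat_lit 78) (nat_lit 0) (nat_lit 0) (XT.lf (nat_lit 0) (nat_lit 46603688483) (nat_lit 152) (nat_lit 332664952610) (nat_lit 0) (nat_lit 24577370070) (nat_lit 1) (nat_lit 5) (nat_lit 3) (nat_lit 4) (nat_lit 1) (nat_lit 4) (nat_lit 356) (nat_lit 237) (nat_lit 127)) (XT.lf (nat_lit 0) (nat_lit 52558015088) (nat_lit 152) (nat_lit 340711328383) (nat_lit 0) (nat_lit 30526777050) (nat_lit 1) (nat_lit 5) (nat_lit 3) (nat_lit 4) (nat_lit 1) (nat_lit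 4) (nat_lit 357) (nat_lit 237) (nat_lit 126))) (XT.nd (nat_lit 78) (nat_lit 0) (nat_lit 0) (XT.lf (nat_lit 0) (nat_lit 58808023323) (nat_lit 152) (nat_lit 349163716263) (nat_lit 0) (nat_lit 36772099929) (nat_lit 1) (nat_lit 5) (nat_lit 3) (nat_lit 4) (nat_lit 1) (nat_lit 4) (nat_lit 358) (nat_lit 237) (nat_lit 125)) (XT.nd (nat_lit 78) (nat_lit 0) (nat_lit 0) (XT.lf (nat_lit 0) (nat_lit 65368594161) (nat_lit 152) (nat_lit 358042240984) (nat_lit 0) (nat_lit 43328208523) (nat_lit 1) (nat_lit 5) (nat_lit 3) (nat_lit 4) (nat_lit 1) (nat_lit 4) (nat_lit 359) (nat_lit 237) (nat_lit 124)) (XT.lf (nat_lit 0) (nat_lit 72255348009) (nat_lit 152) (nat_lit 367368041890) (nat_lit 0) (nat_lit 50210712614) (nat_lit 1) (nat_lit 5) (nat_lit 3) (nat_lit 4) (nat_lit 1) (nat_lit 4) (nat_lit 360) (nat_lit 237) (nat_lit 123)))))) (XT.nd (nat_lit 28626) (nat_lit 0) (nat_lit 7144) (XT.nd (nat_lit 28470) (nat_lit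 0) (nat_lit 8208) (XT.nd (nat_lit 28392) (nat_lit 0) (nat_lit 8436) (XT.lf (nat_lit 0) (nat_lit 79484681900) (nat_lit 152) (nat_lit 377163323270) (nat_lit 0) (nat_lit 57435999117) (nat_lit 1) (nat_lit 5) (nat_lit 3) (nat_lit 4) (nat_lit 1) (nat_lit 4) (nat_lit 361) (nat_lit 237) (nat_lit 122)) (XT.lf (nat_lit 0) (nat_lit 2779278766) (nat_lit 76) (nat_lit 233404663) (nat_lit 76) (nat_lit 233404663) (nat_lit 112) (nat_lit 4) (nat_lit 113) (nat_lit 5) (nat_lit 113) (nat_lit 4) (nat_lit 244) (nat_lit 238) (nat_lit 238))) (XT.nd (nat_lit 78) (nat_lit 0) (nat_lit 0) (XT.lf (nat_lit 0) (nat_lit 2305600521) (nat_lit 228) (nat_lit 4210346065) (nat_lit 0) (nat_lit 5304895) (nat_lit 109) (nat_lit 5) (nat_lit 112) (nat_lit 4) (nat_lit 109) (nat_lit 4) (nat_lit 245) (nat_lit 238) (nat_lit 237)) (XT.lf (nat_lit 0) (nat_lit 5060316692) (nat_lit 228) (nat_lit 929987490) (nat_lit 0) (nat_lit 569263328)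 (nat_lit 109) (nat_lit 5) (nat_lit 112) (nat_lit 4) (nat_lit 109) (nat_lit 4) (nat_lit 246) (nat_lit 238) (nat_lit 236)))) (XT.nd (nat_lit 156) (nat_lit 760) (nat_lit 0) (XT.nd (nat_lit 78) (nat_lit 0) (nat_lit 0) (XT.lf (nat_lit 0) (nat_lit 1188974683) (nat_lit 304) (nat_lit 4140091205) (nat_lit 76) (nat_lit 1276744289) (nat_lit 105) (nat_lit 5) (nat_lit 109) (nat_lit 5) (nat_lit 106) (nat_lit 4) (nat_lit 247) (nat_lit 238) (nat_lit 235)) (XT.lf (nat_lit 0) (nat_lit 3823034143) (nat_lit 304) (nat_lit 727351160) (nat_lit 76) (nat_lit 2110643705) (nat_lit 105) (nat_lit 5) (nat_lit 109) (nat_lit 5) (nat_lit 106) (nat_lit 4) (nat_lit 248) (nat_lit 238) (nat_lit 234))) (XT.nd (nat_lit 78) (nat_lit 456) (nat_lit 0) (XT.lf (nat_lit 0) (nat_lit 2839837053) (nat_lit 304) (nat_lit 3646439586) (nat_lit 380) (nat_lit 238794609) (nat_lit 101) (nat_lit 5) (nat_lit 105) (nat_lit 5) (nat_lit 106)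 (nat_lit 4) (nat_lit 249) (nat_lit 238) (nat_lit 233)) (XT.nd (nat_lit 78) (nat_lit 380) (nat_lit 0) (XT.lf (nat_lit 0) (nat_lit 2278485827) (nat_lit 380) (nat_lit 331134384) (nat_lit 76) (nat_lit 4188209346) (nat_lit 100) (nat_lit 5) (nat_lit 105) (nat_lit 5) (nat_lit 101) (nat_lit 5) (nat_lit 250) (nat_lit 238) (nat_lit 232)) (XT.lf (nat_lit 0) (nat_lit 3399870133) (nat_lit 380) (nat_lit 1429014153) (nat_lit 456) (nat_lit 2050190766) (nat_lit 95) (nat_lit 5) (nat_lit 100) (nat_lit 5) (nat_lit 101) (nat_lit 5) (nat_lit 251) (nat_lit 238) (nat_lit 231))))))))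
noncomputable def xc103 : XT := (XT.nd (nat_lit 1326) (nat_lit 1824) (nat_lit 0) (XT.nd (nat_lit 624) (nat_lit 1596) (nat_lit 0) (XT.nd (nat_lit 312) (nat_lit 1368) (nat_lit 0) (XT.nd (nat_lit 156) (nat_lit 608) (nat_lit 0) (XT.nd (nat_lit 78) (nat_lit 0) (nat_lit 0) (XT.lf (nat_lit 0) (nat_lit 255204884) (nat_lit 456) (nat_lit 143750466) (nat_lit 532) (nat_lit 6572042970) (nat_lit 88) (nat_lit 5) (nat_lit 94) (nat_lit 5) (nat_lit 95) (nat_lit 5) (nat_lit 252) (nat_lit 238) (nat_lit 230)) (XT.lf (nat_lit 0) (nat_lit 2849740304) (nat_lit 532) (nat_lit 2935923509) (nat_lit 76) (nat_lit 1283468192) (nat_lit 88) (nat_lit 5) (nat_lit 95) (nat_lit 5) (nat_lit 89) (nat_lit 5) (nat_lit 253) (nat_lit 238) (nat_lit 229))) (XT.nd (nat_lit 78) (nat_lit 76) (nat_lit 0) (XT.lf (nat_lit 0) (nat_lit 951439144) (nat_lit 532) (nat_lit 4364425017) (nat_lit 608) (nat_lit 1862333764) (nat_lit 81) (nat_lit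 5) (nat_lit 88) (nat_lit 5) (nat_lit 89) (nat_lit 5) (nat_lit 254) (nat_lit 238) (nat_lit 228)) (XT.lf (nat_lit 0) (nat_lit 520752915) (nat_lit 608) (nat_lit 2278002642) (nat_lit 76) (nat_lit 4497697931) (nat_lit 80) (nat_lit 5) (nat_lit 88) (nat_lit 5) (nat_lit 81) (nat_lit 5) (nat_lit 255) (nat_lit 238) (nat_lit 227)))) (XT.nd (nat_lit 156) (nat_lit 760) (nat_lit 0) (XT.nd (nat_lit 78) (nat_lit 0) (nat_lit 0) (XT.lf (nat_lit 0) (nat_lit 1787746007) (nat_lit 608) (nat_lit 1083664210) (nat_lit 684) (nat_lit 4552709876) (nat_lit 72) (nat_lit 5) (nat_lit 80) (nat_lit 5) (nat_lit 81) (nat_lit 5) (nat_lit 256) (nat_lit 238) (nat_lit 226)) (XT.lf (nat_lit 0) (nat_lit 5277140072) (nat_lit 684) (nat_lit 1543923103) (nat_lit 76) (nat_lit 740777403) (nat_lit 72) (nat_lit 5) (nat_lit 81) (nat_lit 5) (nat_lit 73) (nat_lit 5) (nat_lit 257) (nat_lit 238) (nat_lit 225))) (XT.nd (nat_lit 78) (nat_lit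 0) (nat_lit 0) (XT.lf (nat_lit 0) (nat_lit 45007035) (nat_lit 760) (nat_lit 4994150756) (nat_lit 76) (nat_lit 2670140781) (nat_lit 62) (nat_lit 5) (nat_lit 72) (nat_lit 5) (nat_lit 63) (nat_lit 5) (nat_lit 258) (nat_lit 238) (nat_lit 224)) (XT.lf (nat_lit 0) (nat_lit 2334798958) (nat_lit 760) (nat_lit 768600685) (nat_lit 76) (nat_lit 4763311102) (nat_lit 62) (nat_lit 5) (nat_lit 72) (nat_lit 5) (nat_lit 63) (nat_lit 5) (nat_lit 259) (nat_lit 238) (nat_lit 223))))) (XT.nd (nat_lit 312) (nat_lit 608) (nat_lit 0) (XT.nd (nat_lit 156) (nat_lit 380) (nat_lit 0) (XT.nd (nat_lit 78) (nat_lit 304) (nat_lit 0) (XT.lf (nat_lit 0) (nat_lit 3682598139) (nat_lit 304) (nat_lit 1012839155) (nat_lit 380) (nat_lit 3339188850) (nat_lit 58) (nat_lit 5) (nat_lit 62) (nat_lit 5) (nat_lit 63) (nat_lit 5) (nat_lit 260) (nat_lit 238) (nat_lit 222)) (XT.lf (nat_lit 0) (nat_lit 48547560) (nat_lit 304) (nat_lit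 7060032586) (nat_lit 380) (nat_lit 1106062545) (nat_lit 54) (nat_lit 5) (nat_lit 58) (nat_lit 5) (nat_lit 59) (nat_lit 5) (nat_lit 261) (nat_lit 238) (nat_lit 221))) (XT.nd (nat_lit 78) (nat_lit 304) (nat_lit 0) (XT.lf (nat_lit 0) (nat_lit 1193683875) (nat_lit 380) (nat_lit 3725837620) (nat_lit 76) (nat_lit 3483830169) (nat_lit 53) (nat_lit 5) (nat_lit 58) (nat_lit 5) (nat_lit 54) (nat_lit 5) (nat_lit 262) (nat_lit 238) (nat_lit 220)) (XT.lf (nat_lit 0) (nat_lit 841465939) (nat_lit 304) (nat_lit 2650627604) (nat_lit 380) (nat_lit 5112824184) (nat_lit 49) (nat_lit 5) (nat_lit 53) (nat_lit 5) (nat_lit 54) (nat_lit 5) (nat_lit 263) (nat_lit 238) (nat_lit 219)))) (XT.nd (nat_lit 156) (nat_lit 304) (nat_lit 0) (XT.nd (nat_lit 78) (nat_lit 304) (nat_lit 0) (XT.lf (nat_lit 0) (nat_lit 5664394187) (nat_lit 304) (nat_lit 214638449) (nat_lit 380) (nat_lit 2939201956) (nat_lit 49) (nat_lit 5)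 (nat_lit 53) (nat_lit 5) (nat_lit 54) (nat_lit 5) (nat_lit 264) (nat_lit 238) (nat_lit 218)) (XT.lf (nat_lit 0) (nat_lit 1599211414) (nat_lit 304) (nat_lit 6762242682) (nat_lit 380) (nat_lit 682292571) (nat_lit 45) (nat_lit 5) (nat_lit 49) (nat_lit 5) (nat_lit 50) (nat_lit 5) (nat_lit 265) (nat_lit 238) (nat_lit 217))) (XT.nd (nat_lit 78) (nat_lit 228) (nat_lit 0) (XT.lf (nat_lit 0) (nat_lit 1606680174) (nat_lit 380) (nat_lit 2712297803) (nat_lit 76) (nat_lit 4961882597) (nat_lit 44) (nat_lit 5) (nat_lit 49) (nat_lit 5) (nat_lit 45) (nat_lit 5) (nat_lit 266) (nat_lit 238) (nat_lit 216)) (XT.nd (nat_lit 78) (nat_lit 0) (nat_lit 0) (XT.lf (nat_lit 0) (nat_lit 2218167507) (nat_lit 228) (nat_lit 1723085065) (nat_lit 304) (nat_lit 5590604689) (nat_lit 41) (nat_lit 5) (nat_lit 44) (nat_lit 5) (nat_lit 45) (nat_lit 5) (nat_lit 267) (nat_lit 238) (nat_lit 215)) (XT.lf (nat_lit 0) (nat_lit 6376383182)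 (nat_lit 304) (nat_lit 2420703592) (nat_lit 76) (nat_lit 999402073) (nat_lit 41) (nat_lit 5) (nat_lit 45) (nat_lit 5) (nat_lit 42) (nat_lit 5) (nat_lit 268) (nat_lit 238) (nat_lit 214))))))) (XT.nd (nat_lit 702) (nat_lit 608) (nat_lit 0) (XT.nd (nat_lit 312) (nat_lit 684) (nat_lit 0) (XT.nd (nat_lit 156) (nat_lit 228) (nat_lit 0) (XT.nd (nat_lit 78) (nat_lit 76) (nat_lit 0) (XT.lf (nat_lit 0) (nat_lit 2678694785) (nat_lit 228) (nat_lit 6249872445) (nat_lit 304) (nat_lit 1146283310) (nat_lit 38) (nat_lit 5) (nat_lit 41) (nat_lit 5) (nat_lit 42) (nat_lit 5) (nat_lit 269) (nat_lit 238) (nat_lit 213)) (XT.lf (nat_lit 0) (nat_lit 1169054417) (nat_lit 304) (nat_lit 2364897553) (nat_lit 76) (nat_lit 6834070711) (nat_lit 37) (nat_lit 5) (nat_lit 41) (nat_lit 5) (nat_lit 38) (nat_lit 5) (nat_lit 270) (nat_lit 238) (nat_lit 212))) (XT.nd (nat_lit 78) (nat_lit 0) (nat_lit 0) (XT.lf (nat_lit 0)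 (nat_lit 2899682525) (nat_lit 228) (nat_lit 636638921) (nat_lit 304) (nat_lit 7140085667) (nat_lit 34) (nat_lit 5) (nat_lit 37) (nat_lit 5) (nat_lit 38) (nat_lit 5) (nat_lit 271) (nat_lit 238) (nat_lit 211)) (XT.lf (nat_lit 0) (nat_lit 6031227850) (nat_lit 304) (nat_lit 2620899309) (nat_lit 76) (nat_lit 2347836485) (nat_lit 34) (nat_lit 5) (nat_lit 38) (nat_lit 5) (nat_lit 35) (nat_lit 5) (nat_lit 272) (nat_lit 238) (nat_lit 210)))) (XT.nd (nat_lit 156) (nat_lit 456) (nat_lit 0) (XT.nd (nat_lit 78) (nat_lit 0) (nat_lit 0) (XT.lf (nat_lit 0) (nat_lit 2781719792) (nat_lit 228) (nat_lit 5857323641) (nat_lit 304) (nat_lit 2701452736) (nat_lit 31) (nat_lit 5) (nat_lit 34) (nat_lit 5) (nat_lit 35) (nat_lit 5) (nat_lit 273) (nat_lit 238) (nat_lit 209)) (XT.lf (nat_lit 0) (nat_lit 8457313461) (nat_lit 228) (nat_lit 2900371736) (nat_lit 304) (nat_lit 341544885) (nat_lit 31) (nat_lit 5) (nat_lit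 34) (nat_lit 5) (nat_lit 35) (nat_lit 5) (nat_lit 274) (nat_lit 238) (nat_lit 208))) (XT.nd (nat_lit 78) (nat_lit 228) (nat_lit 0) (XT.lf (nat_lit 0) (nat_lit 2045672598) (nat_lit 228) (nat_lit 9784979258) (nat_lit 76) (nat_lit 244874819) (nat_lit 28) (nat_lit 5) (nat_lit 31) (nat_lit 5) (nat_lit 29) (nat_lit 5) (nat_lit 275) (nat_lit 238) (nat_lit 207)) (XT.nd (nat_lit 78) (nat_lit 228) (nat_lit 0) (XT.lf (nat_lit 0) (nat_lit 4583290815) (nat_lit 228) (nat_lit 4397356486) (nat_lit 76) (nat_lit 3487754713) (nat_lit 28) (nat_lit 5) (nat_lit 31) (nat_lit 5) (nat_lit 29) (nat_lit 5) (nat_lit 276) (nat_lit 238) (nat_lit 206)) (XT.lf (nat_lit 0) (nat_lit 1215106009) (nat_lit 228) (nat_lit 5993719378) (nat_lit 304) (nat_lit 5674205650) (nat_lit 25) (nat_lit 5) (nat_lit 28) (nat_lit 5) (nat_lit 29) (nat_lit 5) (nat_lit 277) (nat_lit 238) (nat_lit 205)))))) (XT.nd (nat_lit 312) (nat_lit 380)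 (nat_lit 0) (XT.nd (nat_lit 156) (nat_lit 228) (nat_lit 0) (XT.nd (nat_lit 78) (nat_lit 0) (nat_lit 0) (XT.lf (nat_lit 0) (nat_lit 7178771205) (nat_lit 228) (nat_lit 2804878317) (nat_lit 304) (nat_lit 3333995335) (nat_lit 25) (nat_lit 5) (nat_lit 28) (nat_lit 5) (nat_lit 29) (nat_lit 5) (nat_lit 278) (nat_lit 238) (nat_lit 204)) (XT.lf (nat_lit 0) (nat_lit 12851547841) (nat_lit 304) (nat_lit 422485684) (nat_lit 76) (nat_lit 502385852) (nat_lit 25) (nat_lit 5) (nat_lit 29) (nat_lit 5) (nat_lit 26) (nat_lit 4) (nat_lit 279) (nat_lit 238) (nat_lit 203))) (XT.nd (nat_lit 78) (nat_lit 0) (nat_lit 0) (XT.lf (nat_lit 0) (nat_lit 1636988202) (nat_lit 228) (nat_lit 8643174991) (nat_lit 76) (nat_lit 3972667729) (nat_lit 22) (nat_lit 5) (nat_lit 25) (nat_lit 5) (nat_lit 23) (nat_lit 5) (nat_lit 280) (nat_lit 238) (nat_lit 202)) (XT.lf (nat_lit 0) (nat_lit 4251881935) (nat_lit 228) (nat_lit 2887286973)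 (nat_lit 76) (nat_lit 7615461593) (nat_lit 22) (nat_lit 5) (nat_lit 25) (nat_lit 5) (nat_lit 23) (nat_lit 5) (nat_lit 281) (nat_lit 238) (nat_lit 201)))) (XT.nd (nat_lit 156) (nat_lit 228) (nat_lit 0) (XT.nd (nat_lit 78) (nat_lit 0) (nat_lit 0) (XT.lf (nat_lit 0) (nat_lit 3184633182) (nat_lit 152) (nat_lit 3813799137) (nat_lit 228) (nat_lit 8283162798) (nat_lit 20) (nat_lit 5) (nat_lit 22) (nat_lit 5) (nat_lit 23) (nat_lit 5) (nat_lit 282) (nat_lit 238) (nat_lit 200)) (XT.lf (nat_lit 0) (nat_lit 9587887574) (nat_lit 152) (nat_lit 295703451) (nat_lit 228) (nat_lit 5951367808) (nat_lit 20) (nat_lit 5) (nat_lit 22) (nat_lit 5) (nat_lit 23) (nat_lit 5) (nat_lit 283) (nat_lit 238) (nat_lit 199))) (XT.nd (nat_lit 78) (nat_lit 228) (nat_lit 0) (XT.lf (nat_lit 0) (nat_lit 12920345249) (nat_lit 228) (nat_lit 228799256) (nat_lit 76) (nat_lit 3266588786) (nat_lit 20) (nat_lit 5) (nat_lit 23) (nat_lit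 5) (nat_lit 21) (nat_lit 4) (nat_lit 284) (nat_lit 238) (nat_lit 198)) (XT.nd (nat_lit 78) (nat_lit 76) (nat_lit 0) (XT.lf (nat_lit 0) (nat_lit 6216843944) (nat_lit 152) (nat_lit 9950460949) (nat_lit 228) (nat_lit 855427421) (nat_lit 18) (nat_lit 5) (nat_lit 20) (nat_lit 5) (nat_lit 21) (nat_lit 4) (nat_lit 285) (nat_lit 238) (nat_lit 197)) (XT.lf (nat_lit 0) (nat_lit 1815827344) (nat_lit 228) (nat_lit 4765268206) (nat_lit 76) (nat_lit 11079552298) (nat_lit 17) (nat_lit 5) (nat_lit 20) (nat_lit 5) (nat_lit 18) (nat_lit 5) (nat_lit 286) (nat_lit 238) (nat_lit 196))))))))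
noncomputable def xc104 : XT := (XT.nd (nat_lit 1326) (nat_lit 304) (nat_lit 0) (XT.nd (nat_lit 624) (nat_lit 228) (nat_lit 0) (XT.nd (nat_lit 312) (nat_lit 228) (nat_lit 0) (XT.nd (nat_lit 156) (nat_lit 76) (nat_lit 0) (XT.nd (nat_lit 78) (nat_lit 0) (nat_lit 0) (XT.lf (nat_lit 0) (nat_lit 1548042388) (nat_lit 152) (nat_lit 3026784468) (nat_lit 228) (nat_lit 13755874668) (nat_lit 15) (nat_lit 5) (nat_lit 17) (nat_lit 5) (nat_lit 18) (nat_lit 5) (nat_lit 287) (nat_lit 238) (nat_lit 195)) (XT.lf (nat_lit 0) (nat_lit 7524172735) (nat_lit 228) (nat_lit 10765648434) (nat_lit 76) (nat_lit 741902642) (nat_lit 15) (nat_lit 5) (nat_lit 18) (nat_lit 5) (nat_lit 16) (nat_lit 4) (nat_lit 288) (nat_lit 238) (nat_lit 194))) (XT.nd (nat_lit 78) (nat_lit 76) (nat_lit 0) (XT.lf (nat_lit 0) (nat_lit 10631901017) (nat_lit 228) (nat_lit 4559834925) (nat_lit 76) (nat_lit 4575597178) (nat_lit 15) (nat_lit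 5) (nat_lit 18) (nat_lit 5) (nat_lit 16) (nat_lit 4) (nat_lit 289) (nat_lit 238) (nat_lit 193)) (XT.lf (nat_lit 0) (nat_lit 1959530951) (nat_lit 76) (nat_lit 11929217285) (nat_lit 152) (nat_lit 6651365808) (nat_lit 14) (nat_lit 5) (nat_lit 15) (nat_lit 5) (nat_lit 16) (nat_lit 4) (nat_lit 290) (nat_lit 238) (nat_lit 192)))) (XT.nd (nat_lit 156) (nat_lit 228) (nat_lit 0) (XT.nd (nat_lit 78) (nat_lit 0) (nat_lit 0) (XT.lf (nat_lit 0) (nat_lit 8904675720) (nat_lit 76) (nat_lit 8444965864) (nat_lit 152) (nat_lit 3999906314) (nat_lit 14) (nat_lit 5) (nat_lit 15) (nat_lit 5) (nat_lit 16) (nat_lit 4) (nat_lit 291) (nat_lit 238) (nat_lit 191)) (XT.lf (nat_lit 0) (nat_lit 16141366704) (nat_lit 76) (nat_lit 4807908853) (nat_lit 152) (nat_lit 1251963633) (nat_lit 14) (nat_lit 5) (nat_lit 15) (nat_lit 5) (nat_lit 16) (nat_lit 4) (nat_lit 292) (nat_lit 238) (nat_lit 190))) (XT.nd (nat_lit 78) (nat_lit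 0) (nat_lit 0) (XT.lf (nat_lit 0) (nat_lit 583323403) (nat_lit 152) (nat_lit 973610718) (nat_lit 228) (nat_lit 21538578023) (nat_lit 11) (nat_lit 5) (nat_lit 13) (nat_lit 5) (nat_lit 14) (nat_lit 5) (nat_lit 293) (nat_lit 238) (nat_lit 189)) (XT.lf (nat_lit 0) (nat_lit 4583323532) (nat_lit 228) (nat_lit 16384875568) (nat_lit 76) (nat_lit 3059378338) (nat_lit 11) (nat_lit 5) (nat_lit 14) (nat_lit 5) (nat_lit 12) (nat_lit 4) (nat_lit 294) (nat_lit 238) (nat_lit 188))))) (XT.nd (nat_lit 312) (nat_lit 152) (nat_lit 0) (XT.nd (nat_lit 156) (nat_lit 76) (nat_lit 0) (XT.nd (nat_lit 78) (nat_lit 0) (nat_lit 0) (XT.lf (nat_lit 0) (nat_lit 7745712403) (nat_lit 228) (nat_lit 10019261745) (nat_lit 76) (nat_lit 7242095886) (nat_lit 11) (nat_lit 5) (nat_lit 14) (nat_lit 5) (nat_lit 12) (nat_lit 4) (nat_lit 295) (nat_lit 238) (nat_lit 187)) (XT.lf (nat_lit 0) (nat_lit 11036429442) (nat_lit 228) (nat_lit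 3384990257) (nat_lit 76) (nat_lit 11615662398) (nat_lit 11) (nat_lit 5) (nat_lit 14) (nat_lit 5) (nat_lit 12) (nat_lit 4) (nat_lit 296) (nat_lit 238) (nat_lit 186))) (XT.nd (nat_lit 78) (nat_lit 0) (nat_lit 0) (XT.lf (nat_lit 0) (nat_lit 3650576010) (nat_lit 76) (nat_lit 10869729399) (nat_lit 152) (nat_lit 12596910839) (nat_lit 10) (nat_lit 5) (nat_lit 11) (nat_lit 5) (nat_lit 12) (nat_lit 4) (nat_lit 297) (nat_lit 238) (nat_lit 185)) (XT.lf (nat_lit 0) (nat_lit 11108942043) (nat_lit 76) (nat_lit 7099012055) (nat_lit 152) (nat_lit 10041974199) (nat_lit 10) (nat_lit 5) (nat_lit 11) (nat_lit 5) (nat_lit 12) (nat_lit 4) (nat_lit 298) (nat_lit 238) (nat_lit 184)))) (XT.nd (nat_lit 156) (nat_lit 152) (nat_lit 0) (XT.nd (nat_lit 78) (nat_lit 0) (nat_lit 0) (XT.lf (nat_lit 0) (nat_lit 18895942790) (nat_lit 76) (nat_lit 3157616215) (nat_lit 152) (nat_lit 7387086001) (nat_lit 10) (nat_lit 5)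 (nat_lit 11) (nat_lit 5) (nat_lit 12) (nat_lit 4) (nat_lit 299) (nat_lit 238) (nat_lit 183)) (XT.lf (nat_lit 0) (nat_lit 26081324615) (nat_lit 152) (nat_lit 3677130967) (nat_lit 0) (nat_lit 932993419) (nat_lit 10) (nat_lit 5) (nat_lit 12) (nat_lit 4) (nat_lit 10) (nat_lit 4) (nat_lit 300) (nat_lit 238) (nat_lit 182))) (XT.nd (nat_lit 78) (nat_lit 76) (nat_lit 0) (XT.lf (nat_lit 0) (nat_lit 3554670900) (nat_lit 76) (nat_lit 26838847940) (nat_lit 76) (nat_lit 1607165647) (nat_lit 9) (nat_lit 4) (nat_lit 10) (nat_lit 5) (nat_lit 10) (nat_lit 4) (nat_lit 301) (nat_lit 238) (nat_lit 181)) (XT.nd (nat_lit 78) (nat_lit 0) (nat_lit 0) (XT.lf (nat_lit 0) (nat_lit 1535626685) (nat_lit 152) (nat_lit 22163029584) (nat_lit 76) (nat_lit 9673599665) (nat_lit 8) (nat_lit 5) (nat_lit 10) (nat_lit 5) (nat_lit 9) (nat_lit 4) (nat_lit 302) (nat_lit 238) (nat_lit 180)) (XT.lf (nat_lit 0) (nat_lit 4758566897)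 (nat_lit 152) (nat_lit 15631604050) (nat_lit 76) (nat_lit 14422104090) (nat_lit 8) (nat_lit 5) (nat_lit 10) (nat_lit 5) (nat_lit 9) (nat_lit 4) (nat_lit 303) (nat_lit 238) (nat_lit 179))))))) (XT.nd (nat_lit 702) (nat_lit 152) (nat_lit 0) (XT.nd (nat_lit 312) (nat_lit 76) (nat_lit 0) (XT.nd (nat_lit 156) (nat_lit 76) (nat_lit 0) (XT.nd (nat_lit 78) (nat_lit 0) (nat_lit 0) (XT.lf (nat_lit 0) (nat_lit 8120767995) (nat_lit 152) (nat_lit 8811093611) (nat_lit 76) (nat_lit 19393563426) (nat_lit 8) (nat_lit 5) (nat_lit 10) (nat_lit 5) (nat_lit 9) (nat_lit 4) (nat_lit 304) (nat_lit 238) (nat_lit 178)) (XT.lf (nat_lit 0) (nat_lit 11630235218) (nat_lit 152) (nat_lit 1685258956) (nat_lit 76) (nat_lit 24599814481) (nat_lit 8) (nat_lit 5) (nat_lit 10) (nat_lit 5) (nat_lit 9) (nat_lit 4) (nat_lit 305) (nat_lit 238) (nat_lit 177))) (XT.nd (nat_lit 78) (nat_lit 0) (nat_lit 0) (XT.lf (nat_lit 0) (nat_lit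 5953412567) (nat_lit 76) (nat_lit 9434861328) (nat_lit 152) (nat_lit 24192789976) (nat_lit 7) (nat_lit 5) (nat_lit 8) (nat_lit 5) (nat_lit 9) (nat_lit 4) (nat_lit 306) (nat_lit 238) (nat_lit 176)) (XT.lf (nat_lit 0) (nat_lit 13999073216) (nat_lit 76) (nat_lit 5344253616) (nat_lit 152) (nat_lit 21986355179) (nat_lit 7) (nat_lit 5) (nat_lit 8) (nat_lit 5) (nat_lit 9) (nat_lit 4) (nat_lit 307) (nat_lit 238) (nat_lit 175)))) (XT.nd (nat_lit 156) (nat_lit 76) (nat_lit 0) (XT.nd (nat_lit 78) (nat_lit 0) (nat_lit 0) (XT.lf (nat_lit 0) (nat_lit 22415157053) (nat_lit 76) (nat_lit 1062472172) (nat_lit 152) (nat_lit 19689056306) (nat_lit 7) (nat_lit 5) (nat_lit 8) (nat_lit 5) (nat_lit 9) (nat_lit 4) (nat_lit 308) (nat_lit 238) (nat_lit 174)) (XT.lf (nat_lit 0) (nat_lit 27854431016) (nat_lit 152) (nat_lit 13928152241) (nat_lit 0) (nat_lit 3311194671) (nat_lit 7) (nat_lit 5) (nat_lit 9) (nat_lit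 4) (nat_lit 7) (nat_lit 4) (nat_lit 309) (nat_lit 238) (nat_lit 173))) (XT.nd (nat_lit 78) (nat_lit 76) (nat_lit 0) (XT.lf (nat_lit 0) (nat_lit 32450518386) (nat_lit 152) (nat_lit 6810599174) (nat_lit 0) (nat_lit 7856111698) (nat_lit 7) (nat_lit 5) (nat_lit 9) (nat_lit 4) (nat_lit 7) (nat_lit 4) (nat_lit 310) (nat_lit 238) (nat_lit 172)) (XT.nd (nat_lit 78) (nat_lit 0) (nat_lit 0) (XT.lf (nat_lit 0) (nat_lit 655650350) (nat_lit 76) (nat_lit 36614832421) (nat_lit 76) (nat_lit 11971692073) (nat_lit 6) (nat_lit 4) (nat_lit 7) (nat_lit 5) (nat_lit 7) (nat_lit 4) (nat_lit 311) (nat_lit 238) (nat_lit 171)) (XT.lf (nat_lit 0) (nat_lit 8703949167) (nat_lit 76) (nat_lit 33727010159) (nat_lit 76) (nat_lit 9037456802) (nat_lit 6) (nat_lit 4) (nat_lit 7) (nat_lit 5) (nat_lit 7) (nat_lit 4) (nat_lit 312) (nat_lit 238) (nat_lit 170)))))) (XT.nd (nat_lit 312) (nat_lit 76) (nat_lit 0) (XT.nd (nat_lit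 156) (nat_lit 76) (nat_lit 0) (XT.nd (nat_lit 78) (nat_lit 0) (nat_lit 0) (XT.lf (nat_lit 0) (nat_lit 17128270726) (nat_lit 76) (nat_lit 30706115799) (nat_lit 76) (nat_lit 5972359576) (nat_lit 6) (nat_lit 4) (nat_lit 7) (nat_lit 5) (nat_lit 7) (nat_lit 4) (nat_lit 313) (nat_lit 238) (nat_lit 169)) (XT.lf (nat_lit 0) (nat_lit 25948672935) (nat_lit 76) (nat_lit 27544956736) (nat_lit 76) (nat_lit 2769102546) (nat_lit 6) (nat_lit 4) (nat_lit 7) (nat_lit 5) (nat_lit 7) (nat_lit 4) (nat_lit 314) (nat_lit 238) (nat_lit 168))) (XT.nd (nat_lit 78) (nat_lit 0) (nat_lit 0) (XT.lf (nat_lit 0) (nat_lit 561379354) (nat_lit 152) (nat_lit 23665119816) (nat_lit 76) (nat_lit 34615270167) (nat_lit 5) (nat_lit 5) (nat_lit 7) (nat_lit 5) (nat_lit 6) (nat_lit 4) (nat_lit 315) (nat_lit 238) (nat_lit 167)) (XT.lf (nat_lit 0) (nat_lit 3952071904) (nat_lit 152) (nat_lit 16752384187) (nat_lit 76) (nat_lit 40843714034)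 (nat_lit 5) (nat_lit 5) (nat_lit 7) (nat_lit 5) (nat_lit 6) (nat_lit 4) (nat_lit 316) (nat_lit 238) (nat_lit 166)))) (XT.nd (nat_lit 156) (nat_lit 76) (nat_lit 0) (XT.nd (nat_lit 78) (nat_lit 0) (nat_lit 0) (XT.lf (nat_lit 0) (nat_lit 7499676754) (nat_lit 152) (nat_lit 9516160050) (nat_lit 76) (nat_lit 47374703258) (nat_lit 5) (nat_lit 5) (nat_lit 7) (nat_lit 5) (nat_lit 6) (nat_lit 4) (nat_lit 317) (nat_lit 238) (nat_lit 165)) (XT.lf (nat_lit 0) (nat_lit 11212640584) (nat_lit 152) (nat_lit 1939218301) (nat_lit 76) (nat_lit 54223787813) (nat_lit 5) (nat_lit 5) (nat_lit 7) (nat_lit 5) (nat_lit 6) (nat_lit 4) (nat_lit 318) (nat_lit 238) (nat_lit 164))) (XT.nd (nat_lit 78) (nat_lit 0) (nat_lit 0) (XT.lf (nat_lit 0) (nat_lit 6194752154) (nat_lit 76) (nat_lit 9001769071) (nat_lit 152) (nat_lit 55309240333) (nat_lit 4) (nat_lit 5) (nat_lit 5) (nat_lit 5) (nat_lit 6) (nat_lit 4) (nat_lit 319)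 (nat_lit 238) (nat_lit 163)) (XT.nd (nat_lit 78) (nat_lit 0) (nat_lit 0) (XT.lf (nat_lit 0) (nat_lit 14782981294) (nat_lit 76) (nat_lit 4618243976) (nat_lit 152) (nat_lit 54390090968) (nat_lit 4) (nat_lit 5) (nat_lit 5) (nat_lit 5) (nat_lit 6) (nat_lit 4) (nat_lit 320) (nat_lit 238) (nat_lit 162)) (XT.lf (nat_lit 0) (nat_lit 23781797968) (nat_lit 76) (nat_lit 23688236) (nat_lit 152) (nat_lit 53436211168) (nat_lit 4) (nat_lit 5) (nat_lit 5) (nat_lit 5) (nat_lit 6) (nat_lit 4) (nat_lit 321) (nat_lit 238) (nat_lit 161))))))))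
noncomputable def xc105 : XT := (XT.nd (nat_lit 1326) (nat_lit 152) (nat_lit 0) (XT.nd (nat_lit 624) (nat_lit 0) (nat_lit 0) (XT.nd (nat_lit 312) (nat_lit 76) (nat_lit 0) (XT.nd (nat_lit 156) (nat_lit 0) (nat_lit 0) (XT.nd (nat_lit 78) (nat_lit 0) (nat_lit 0) (XT.lf (nat_lit 0) (nat_lit 28494619988) (nat_lit 152) (nat_lit 47727321849) (nat_lit 0) (nat_lit 4639436834) (nat_lit 4) (nat_lit 5) (nat_lit 6) (nat_lit 4) (nat_lit 4) (nat_lit 4) (nat_lit 322) (nat_lit 238) (nat_lit 160)) (XT.lf (nat_lit 0) (nat_lit 33408797896) (nat_lit 152) (nat_lit 41725959954) (nat_lit 0) (nat_lit 9527770242) (nat_lit 4) (nat_lit 5) (nat_lit 6) (nat_lit 4) (nat_lit 4) (nat_lit 4) (nat_lit 323) (nat_lit 238) (nat_lit 159))) (XT.nd (nat_lit 78) (nat_lit 0) (nat_lit 0) (XT.lf (nat_lit 0) (nat_lit 38559350512) (nat_lit 152) (nat_lit 35441154924) (nat_lit 0) (nat_lit 14653709048) (nat_lit 4) (nat_lit 5) (nat_lit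 6) (nat_lit 4) (nat_lit 4) (nat_lit 4) (nat_lit 324) (nat_lit 238) (nat_lit 158)) (XT.lf (nat_lit 0) (nat_lit 43958541056) (nat_lit 152) (nat_lit 28857942935) (nat_lit 0) (nat_lit 20029457868) (nat_lit 4) (nat_lit 5) (nat_lit 6) (nat_lit 4) (nat_lit 4) (nat_lit 4) (nat_lit 325) (nat_lit 238) (nat_lit 157)))) (XT.nd (nat_lit 156) (nat_lit 76) (nat_lit 0) (XT.nd (nat_lit 78) (nat_lit 0) (nat_lit 0) (XT.lf (nat_lit 0) (nat_lit 49619224744) (nat_lit 152) (nat_lit 21960649674) (nat_lit 0) (nat_lit 25667816105) (nat_lit 4) (nat_lit 5) (nat_lit 6) (nat_lit 4) (nat_lit 4) (nat_lit 4) (nat_lit 326) (nat_lit 238) (nat_lit 156)) (XT.lf (nat_lit 0) (nat_lit 55554879394) (nat_lit 152) (nat_lit 14732853015) (nat_lit 0) (nat_lit 31582208420) (nat_lit 4) (nat_lit 5) (nat_lit 6) (nat_lit 4) (nat_lit 4) (nat_lit 4) (nat_lit 327) (nat_lit 238) (nat_lit 155))) (XT.nd (nat_lit 78) (nat_lit 76) (nat_lit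 0) (XT.lf (nat_lit 0) (nat_lit 61779637516) (nat_lit 152) (nat_lit 7157343916) (nat_lit 0) (nat_lit 37786716701) (nat_lit 4) (nat_lit 5) (nat_lit 6) (nat_lit 4) (nat_lit 4) (nat_lit 4) (nat_lit 328) (nat_lit 238) (nat_lit 154)) (XT.lf (nat_lit 0) (nat_lit 809834301) (nat_lit 76) (nat_lit 67511129447) (nat_lit 76) (nat_lit 43498923067) (nat_lit 3) (nat_lit 4) (nat_lit 4) (nat_lit 5) (nat_lit 4) (nat_lit 4) (nat_lit 329) (nat_lit 238) (nat_lit 153))))) (XT.nd (nat_lit 312) (nat_lit 0) (nat_lit 0) (XT.nd (nat_lit 156) (nat_lit 0) (nat_lit 0) (XT.nd (nat_lit 78) (nat_lit 0) (nat_lit 0) (XT.lf (nat_lit 0) (nat_lit 9411042258) (nat_lit 76) (nat_lit 65892361708) (nat_lit 76) (nat_lit 41861788124) (nat_lit 3) (nat_lit 4) (nat_lit 4) (nat_lit 5) (nat_lit 4) (nat_lit 4) (nat_lit 330) (nat_lit 238) (nat_lit 152)) (XT.lf (nat_lit 0) (nat_lit 18430104906) (nat_lit 76) (nat_lit 64198037090) (nat_lit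 76) (nat_lit 40149970931) (nat_lit 3) (nat_lit 4) (nat_lit 4) (nat_lit 5) (nat_lit 4) (nat_lit 4) (nat_lit 331) (nat_lit 238) (nat_lit 151))) (XT.nd (nat_lit 78) (nat_lit 0) (nat_lit 0) (XT.lf (nat_lit 0) (nat_lit 27888496204) (nat_lit 76) (nat_lit 62424121487) (nat_lit 76) (nat_lit 38359395733) (nat_lit 3) (nat_lit 4) (nat_lit 4) (nat_lit 5) (nat_lit 4) (nat_lit 4) (nat_lit 332) (nat_lit 238) (nat_lit 150)) (XT.lf (nat_lit 0) (nat_lit 37808736132) (nat_lit 76) (nat_lit 60566391290) (nat_lit 76) (nat_lit 36485799255) (nat_lit 3) (nat_lit 4) (nat_lit 4) (nat_lit 5) (nat_lit 4) (nat_lit 4) (nat_lit 333) (nat_lit 238) (nat_lit 149)))) (XT.nd (nat_lit 156) (nat_lit 0) (nat_lit 0) (XT.nd (nat_lit 78) (nat_lit 0) (nat_lit 0) (XT.lf (nat_lit 0) (nat_lit 48214444307) (nat_lit 76) (nat_lit 58620423332) (nat_lit 76) (nat_lit 34524720553) (nat_lit 3) (nat_lit 4) (nat_lit 4) (nat_lit 5) (nat_lit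 4) (nat_lit 4) (nat_lit 334) (nat_lit 238) (nat_lit 148)) (XT.lf (nat_lit 0) (nat_lit 59130396227) (nat_lit 76) (nat_lit 56581584357) (nat_lit 76) (nat_lit 32471490393) (nat_lit 3) (nat_lit 4) (nat_lit 4) (nat_lit 5) (nat_lit 4) (nat_lit 4) (nat_lit 335) (nat_lit 238) (nat_lit 147))) (XT.nd (nat_lit 78) (nat_lit 0) (nat_lit 0) (XT.lf (nat_lit 0) (nat_lit 70582582253) (nat_lit 76) (nat_lit 54445019985) (nat_lit 76) (nat_lit 30321220131) (nat_lit 3) (nat_lit 4) (nat_lit 4) (nat_lit 5) (nat_lit 4) (nat_lit 4) (nat_lit 336) (nat_lit 238) (nat_lit 146)) (XT.nd (nat_lit 78) (nat_lit 0) (nat_lit 0) (XT.lf (nat_lit 0) (nat_lit 82598269494) (nat_lit 76) (nat_lit 52205643159) (nat_lit 76) (nat_lit 28068790076) (nat_lit 3) (nat_lit 4) (nat_lit 4) (nat_lit 5) (nat_lit 4) (nat_lit 4) (nat_lit 337) (nat_lit 238) (nat_lit 145)) (XT.lf (nat_lit 0) (nat_lit 95206066729) (nat_lit 76) (nat_lit 49858122029)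 (nat_lit 76) (nat_lit 25708837300) (nat_lit 3) (nat_lit 4) (nat_lit 4) (nat_lit 5) (nat_lit 4) (nat_lit 4) (nat_lit 338) (nat_lit 238) (nat_lit 144))))))) (XT.nd (nat_lit 702) (nat_lit 76) (nat_lit 0) (XT.nd (nat_lit 312) (nat_lit 76) (nat_lit 0) (XT.nd (nat_lit 156) (nat_lit 0) (nat_lit 0) (XT.nd (nat_lit 78) (nat_lit 0) (nat_lit 0) (XT.lf (nat_lit 0) (nat_lit 108435992523) (nat_lit 76) (nat_lit 47396867259) (nat_lit 76) (nat_lit 23235742866) (nat_lit 3) (nat_lit 4) (nat_lit 4) (nat_lit 5) (nat_lit 4) (nat_lit 4) (nat_lit 339) (nat_lit 238) (nat_lit 143)) (XT.lf (nat_lit 0) (nat_lit 122319546700) (nat_lit 76) (nat_lit 44816018719) (nat_lit 76) (nat_lit 20643618456) (nat_lit 3) (nat_lit 4) (nat_lit 4) (nat_lit 5) (nat_lit 4) (nat_lit 4) (nat_lit 340) (nat_lit 238) (nat_lit 142))) (XT.nd (nat_lit 78) (nat_lit 0) (nat_lit 0) (XT.lf (nat_lit 0) (nat_lit 136889785341) (nat_lit 76) (nat_lit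 42109431531) (nat_lit 76) (nat_lit 17926292344) (nat_lit 3) (nat_lit 4) (nat_lit 4) (nat_lit 5) (nat_lit 4) (nat_lit 4) (nat_lit 341) (nat_lit 238) (nat_lit 141)) (XT.lf (nat_lit 0) (nat_lit 152181399491) (nat_lit 76) (nat_lit 39270661440) (nat_lit 76) (nat_lit 15077294707) (nat_lit 3) (nat_lit 4) (nat_lit 4) (nat_lit 5) (nat_lit 4) (nat_lit 4) (nat_lit 342) (nat_lit 238) (nat_lit 140)))) (XT.nd (nat_lit 156) (nat_lit 76) (nat_lit 0) (XT.nd (nat_lit 78) (nat_lit 0) (nat_lit 0) (XT.lf (nat_lit 0) (nat_lit 168230797753) (nat_lit 76) (nat_lit 36292949469) (nat_lit 76) (nat_lit 12089842216) (nat_lit 3) (nat_lit 4) (nat_lit 4) (nat_lit 5) (nat_lit 4) (nat_lit 4) (nat_lit 343) (nat_lit 238) (nat_lit 139)) (XT.lf (nat_lit 0) (nat_lit 185076192983) (nat_lit 76) (nat_lit 33169205828) (nat_lit 76) (nat_lit 8956821889) (nat_lit 3) (nat_lit 4) (nat_lit 4) (nat_lit 5) (nat_lit 4) (nat_lit 4) (nat_lit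 344) (nat_lit 238) (nat_lit 138))) (XT.nd (nat_lit 78) (nat_lit 76) (nat_lit 0) (XT.lf (nat_lit 0) (nat_lit 202757693262) (nat_lit 76) (nat_lit 29891993033) (nat_lit 76) (nat_lit 5670774154) (nat_lit 3) (nat_lit 4) (nat_lit 4) (nat_lit 5) (nat_lit 4) (nat_lit 4) (nat_lit 345) (nat_lit 238) (nat_lit 137)) (XT.nd (nat_lit 78) (nat_lit 76) (nat_lit 0) (XT.lf (nat_lit 0) (nat_lit 221317397402) (nat_lit 76) (nat_lit 26453508195) (nat_lit 76) (nat_lit 2223875089) (nat_lit 3) (nat_lit 4) (nat_lit 4) (nat_lit 5) (nat_lit 4) (nat_lit 4) (nat_lit 346) (nat_lit 238) (nat_lit 136)) (XT.lf (nat_lit 0) (nat_lit 1347526885) (nat_lit 152) (nat_lit 21475216541) (nat_lit 76) (nat_lit 239429147269) (nat_lit 2) (nat_lit 5) (nat_lit 4) (nat_lit 5) (nat_lit 3) (nat_lit 4) (nat_lit 347) (nat_lit 238) (nat_lit 135)))))) (XT.nd (nat_lit 312) (nat_lit 0) (nat_lit 0) (XT.nd (nat_lit 156) (nat_lit 76) (nat_lit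 0) (XT.nd (nat_lit 78) (nat_lit 0) (nat_lit 0) (XT.lf (nat_lit 0) (nat_lit 5019732149) (nat_lit 152) (nat_lit 13954827702) (nat_lit 76) (nat_lit 256145628784) (nat_lit 2) (nat_lit 5) (nat_lit 4) (nat_lit 5) (nat_lit 3) (nat_lit 4) (nat_lit 348) (nat_lit 238) (nat_lit 134)) (XT.lf (nat_lit 0) (nat_lit 8872661940) (nat_lit 152) (nat_lit 6063590156) (nat_lit 76) (nat_lit 273695797258) (nat_lit 2) (nat_lit 5) (nat_lit 4) (nat_lit 5) (nat_lit 3) (nat_lit 4) (nat_lit 349) (nat_lit 238) (nat_lit 133))) (XT.nd (nat_lit 78) (nat_lit 0) (nat_lit 0) (XT.lf (nat_lit 0) (nat_lit 2290598204) (nat_lit 76) (nat_lit 10660654354) (nat_lit 152) (nat_lit 289866603261) (nat_lit 1) (nat_lit 5) (nat_lit 2) (nat_lit 5) (nat_lit 3) (nat_lit 4) (nat_lit 350) (nat_lit 238) (nat_lit 132)) (XT.lf (nat_lit 0) (nat_lit 11268165059) (nat_lit 76) (nat_lit 6065604388) (nat_lit 152) (nat_lit 300374186585) (nat_lit 1)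 (nat_lit 5) (nat_lit 2) (nat_lit 5) (nat_lit 3) (nat_lit 4) (nat_lit 351) (nat_lit 238) (nat_lit 131)))) (XT.nd (nat_lit 156) (nat_lit 0) (nat_lit 0) (XT.nd (nat_lit 78) (nat_lit 0) (nat_lit 0) (XT.lf (nat_lit 0) (nat_lit 20689995893) (nat_lit 76) (nat_lit 1242851437) (nat_lit 152) (nat_lit 311409845275) (nat_lit 1) (nat_lit 5) (nat_lit 2) (nat_lit 5) (nat_lit 3) (nat_lit 4) (nat_lit 352) (nat_lit 238) (nat_lit 130)) (XT.lf (nat_lit 0) (nat_lit 26819063048) (nat_lit 152) (nat_lit 319240394121) (nat_lit 0) (nat_lit 3696852601) (nat_lit 1) (nat_lit 5) (nat_lit 3) (nat_lit 4) (nat_lit 1) (nat_lit 4) (nat_lit 353) (nat_lit 238) (nat_lit 129))) (XT.nd (nat_lit 78) (nat_lit 0) (nat_lit 0) (XT.lf (nat_lit 0) (nat_lit 31967608745) (nat_lit 152) (nat_lit 326182126492) (nat_lit 0) (nat_lit 8839974412) (nat_lit 1) (nat_lit 5) (nat_lit 3) (nat_lit 4) (nat_lit 1) (nat_lit 4) (nat_lit 354) (nat_lit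 238) (nat_lit 128)) (XT.nd (nat_lit 78) (nat_lit 0) (nat_lit 0) (XT.lf (nat_lit 0) (nat_lit 37371338472) (nat_lit 152) (nat_lit 333475017365) (nat_lit 0) (nat_lit 14238538533) (nat_lit 1) (nat_lit 5) (nat_lit 3) (nat_lit 4) (nat_lit 1) (nat_lit 4) (nat_lit 355) (nat_lit 238) (nat_lit 127)) (XT.lf (nat_lit 0) (nat_lit 43043118251) (nat_lit 152) (nat_lit 341136430768) (nat_lit 0) (nat_lit 19905398687) (nat_lit 1) (nat_lit 5) (nat_lit 3) (nat_lit 4) (nat_lit 1) (nat_lit 4) (nat_lit 356) (nat_lit 238) (nat_lit 126))))))))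
noncomputable def xc106 : XT := (XT.nd (nat_lit 29484) (nat_lit 0) (nat_lit 2508) (XT.nd (nat_lit 28782) (nat_lit 0) (nat_lit 6612) (XT.nd (nat_lit 312) (nat_lit 0) (nat_lit 0) (XT.nd (nat_lit 156) (nat_lit 0) (nat_lit 0) (XT.nd (nat_lit 78) (nat_lit 0) (nat_lit 0) (XT.lf (nat_lit 0) (nat_lit 48996452319) (nat_lit 152) (nat_lit 349184608160) (nat_lit 0) (nat_lit 25854047398) (nat_lit 1) (nat_lit 5) (nat_lit 3) (nat_lit 4) (nat_lit 1) (nat_lit 4) (nat_lit 357) (nat_lit 238) (nat_lit 125)) (XT.lf (nat_lit 0) (nat_lit 55245515282) (nat_lit 152) (nat_lit 357638711868) (nat_lit 0) (nat_lit 32098648117) (nat_lit 1) (nat_lit 5) (nat_lit 3) (nat_lit 4) (nat_lit 1) (nat_lit 4) (nat_lit 358) (nat_lit 238) (nat_lit 124))) (XT.nd (nat_lit 78) (nat_lit 0) (nat_lit 0) (XT.lf (nat_lit 0) (nat_lit 61805185861) (nat_lit 152) (nat_lit 366518870710) (nat_lit 0) (nat_lit 38654068938) (nat_lit 1) (nat_lit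 5) (nat_lit 3) (nat_lit 4) (nat_lit 1) (nat_lit 4) (nat_lit 359) (nat_lit 238) (nat_lit 123)) (XT.lf (nat_lit 0) (nat_lit 68691082318) (nat_lit 152) (nat_lit 375846227923) (nat_lit 0) (nat_lit 45535918009) (nat_lit 1) (nat_lit 5) (nat_lit 3) (nat_lit 4) (nat_lit 1) (nat_lit 4) (nat_lit 360) (nat_lit 238) (nat_lit 122)))) (XT.nd (nat_lit 28314) (nat_lit 0) (nat_lit 8360) (XT.nd (nat_lit 28236) (nat_lit 0) (nat_lit 8512) (XT.lf (nat_lit 0) (nat_lit 75919599647) (nat_lit 152) (nat_lit 385642991499) (nat_lit 0) (nat_lit 52760580683) (nat_lit 1) (nat_lit 5) (nat_lit 3) (nat_lit 4) (nat_lit 1) (nat_lit 4) (nat_lit 361) (nat_lit 238) (nat_lit 121)) (XT.lf (nat_lit 0) (nat_lit 1444994220) (nat_lit 76) (nat_lit 336740800) (nat_lit 0) (nat_lit 1444994220) (nat_lit 113) (nat_lit 5) (nat_lit 114) (nat_lit 0) (nat_lit 113) (nat_lit 4) (nat_lit 242) (nat_lit 239) (nat_lit 239))) (XT.nd (nat_lit 78)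 (nat_lit 76) (nat_lit 0) (XT.lf (nat_lit 0) (nat_lit 2379601769) (nat_lit 76) (nat_lit 3313343054) (nat_lit 76) (nat_lit 777267126) (nat_lit 112) (nat_lit 4) (nat_lit 113) (nat_lit 5) (nat_lit 113) (nat_lit 4) (nat_lit 243) (nat_lit 239) (nat_lit 238)) (XT.lf (nat_lit 0) (nat_lit 1919185509) (nat_lit 152) (nat_lit 1017056039) (nat_lit 76) (nat_lit 3559094892) (nat_lit 111) (nat_lit 5) (nat_lit 113) (nat_lit 5) (nat_lit 112) (nat_lit 4) (nat_lit 244) (nat_lit 239) (nat_lit 237))))) (XT.nd (nat_lit 312) (nat_lit 1292) (nat_lit 0) (XT.nd (nat_lit 156) (nat_lit 228) (nat_lit 0) (XT.nd (nat_lit 78) (nat_lit 76) (nat_lit 0) (XT.lf (nat_lit 0) (nat_lit 2166964222) (nat_lit 152) (nat_lit 2427497329) (nat_lit 228) (nat_lit 1934250684) (nat_lit 109) (nat_lit 5) (nat_lit 111) (nat_lit 5) (nat_lit 112) (nat_lit 4) (nat_lit 245) (nat_lit 239) (nat_lit 236)) (XT.lf (nat_lit 0) (nat_lit 669295677)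 (nat_lit 228) (nat_lit 1135367586) (nat_lit 76) (nat_lit 4766649068) (nat_lit 108) (nat_lit 5) (nat_lit 111) (nat_lit 5) (nat_lit 109) (nat_lit 5) (nat_lit 246) (nat_lit 239) (nat_lit 235))) (XT.nd (nat_lit 78) (nat_lit 0) (nat_lit 0) (XT.lf (nat_lit 0) (nat_lit 2191159098) (nat_lit 228) (nat_lit 1027658763) (nat_lit 304) (nat_lit 3402582313) (nat_lit 105) (nat_lit 5) (nat_lit 108) (nat_lit 5) (nat_lit 109) (nat_lit 5) (nat_lit 247) (nat_lit 239) (nat_lit 234)) (XT.lf (nat_lit 0) (nat_lit 5625441368) (nat_lit 228) (nat_lit 141969941) (nat_lit 304) (nat_lit 913937812) (nat_lit 105) (nat_lit 5) (nat_lit 108) (nat_lit 5) (nat_lit 109) (nat_lit 5) (nat_lit 248) (nat_lit 239) (nat_lit 233)))) (XT.nd (nat_lit 156) (nat_lit 912) (nat_lit 0) (XT.nd (nat_lit 78) (nat_lit 0) (nat_lit 0) (XT.lf (nat_lit 0) (nat_lit 1553139063) (nat_lit 380) (nat_lit 4323388083) (nat_lit 76) (nat_lit 871872198)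 (nat_lit 100) (nat_lit 5) (nat_lit 105) (nat_lit 5) (nat_lit 101) (nat_lit 5) (nat_lit 249) (nat_lit 239) (nat_lit 232)) (XT.lf (nat_lit 0) (nat_lit 3995555881) (nat_lit 380) (nat_lit 824578816) (nat_lit 76) (nat_lit 2004592193) (nat_lit 100) (nat_lit 5) (nat_lit 105) (nat_lit 5) (nat_lit 101) (nat_lit 5) (nat_lit 250) (nat_lit 239) (nat_lit 231))) (XT.nd (nat_lit 78) (nat_lit 532) (nat_lit 0) (XT.lf (nat_lit 0) (nat_lit 2839379559) (nat_lit 380) (nat_lit 3633804237) (nat_lit 456) (nat_lit 436802938) (nat_lit 95) (nat_lit 5) (nat_lit 100) (nat_lit 5) (nat_lit 101) (nat_lit 5) (nat_lit 251) (nat_lit 239) (nat_lit 230)) (XT.nd (nat_lit 78) (nat_lit 456) (nat_lit 0) (XT.lf (nat_lit 0) (nat_lit 1893636377) (nat_lit 456) (nat_lit 420296643) (nat_lit 76) (nat_lit 4690411805) (nat_lit 94) (nat_lit 5) (nat_lit 100) (nat_lit 5) (nat_lit 95) (nat_lit 5) (nat_lit 252) (nat_lit 239) (nat_lit 229))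 (XT.lf (nat_lit 0) (nat_lit 3415623017) (nat_lit 456) (nat_lit 840458936) (nat_lit 532) (nat_lit 2851138176) (nat_lit 88) (nat_lit 5) (nat_lit 94) (nat_lit 5) (nat_lit 95) (nat_lit 5) (nat_lit 253) (nat_lit 239) (nat_lit 228))))))) (XT.nd (nat_lit 702) (nat_lit 1444) (nat_lit 0) (XT.nd (nat_lit 312) (nat_lit 1444) (nat_lit 0) (XT.nd (nat_lit 156) (nat_lit 608) (nat_lit 0) (XT.nd (nat_lit 78) (nat_lit 76) (nat_lit 0) (XT.lf (nat_lit 0) (nat_lit 131736072) (nat_lit 532) (nat_lit 6506751332) (nat_lit 608) (nat_lit 582293755) (nat_lit 81) (nat_lit 5) (nat_lit 88) (nat_lit 5) (nat_lit 89) (nat_lit 5) (nat_lit 254) (nat_lit 239) (nat_lit 227)) (XT.lf (nat_lit 0) (nat_lit 1702794961) (nat_lit 608) (nat_lit 3212534581) (nat_lit 76) (nat_lit 2425839809) (nat_lit 80) (nat_lit 5) (nat_lit 88) (nat_lit 5) (nat_lit 81) (nat_lit 5) (nat_lit 255) (nat_lit 239) (nat_lit 226))) (XT.nd (nat_lit 78) (nat_lit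 0) (nat_lit 0) (XT.lf (nat_lit 0) (nat_lit 770896515) (nat_lit 608) (nat_lit 3212366841) (nat_lit 684) (nat_lit 3489349135) (nat_lit 72) (nat_lit 5) (nat_lit 80) (nat_lit 5) (nat_lit 81) (nat_lit 5) (nat_lit 256) (nat_lit 239) (nat_lit 225)) (XT.lf (nat_lit 0) (nat_lit 4964644163) (nat_lit 608) (nat_lit 1359909776) (nat_lit 684) (nat_lit 1289255371) (nat_lit 72) (nat_lit 5) (nat_lit 80) (nat_lit 5) (nat_lit 81) (nat_lit 5) (nat_lit 257) (nat_lit 239) (nat_lit 224)))) (XT.nd (nat_lit 156) (nat_lit 684) (nat_lit 0) (XT.nd (nat_lit 78) (nat_lit 0) (nat_lit 0) (XT.lf (nat_lit 0) (nat_lit 917438154) (nat_lit 760) (nat_lit 6235824177) (nat_lit 76) (nat_lit 612016290) (nat_lit 62) (nat_lit 5) (nat_lit 72) (nat_lit 5) (nat_lit 63) (nat_lit 5) (nat_lit 258) (nat_lit 239) (nat_lit 223)) (XT.lf (nat_lit 0) (nat_lit 3157894047) (nat_lit 760) (nat_lit 2060759417) (nat_lit 76) (nat_lit 2706723867)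 (nat_lit 62) (nat_lit 5) (nat_lit 72) (nat_lit 5) (nat_lit 63) (nat_lit 5) (nat_lit 259) (nat_lit 239) (nat_lit 222))) (XT.nd (nat_lit 78) (nat_lit 380) (nat_lit 0) (XT.lf (nat_lit 0) (nat_lit 2298043771) (nat_lit 304) (nat_lit 3151885143) (nat_lit 380) (nat_lit 2647003262) (nat_lit 58) (nat_lit 5) (nat_lit 62) (nat_lit 5) (nat_lit 63) (nat_lit 5) (nat_lit 260) (nat_lit 239) (nat_lit 221)) (XT.nd (nat_lit 78) (nat_lit 380) (nat_lit 0) (XT.lf (nat_lit 0) (nat_lit 6849355258) (nat_lit 304) (nat_lit 948860218) (nat_lit 380) (nat_lit 482175369) (nat_lit 58) (nat_lit 5) (nat_lit 62) (nat_lit 5) (nat_lit 63) (nat_lit 5) (nat_lit 261) (nat_lit 239) (nat_lit 220)) (XT.lf (nat_lit 0) (nat_lit 1714308916) (nat_lit 380) (nat_lit 5364805322) (nat_lit 76) (nat_lit 1393844019) (nat_lit 53) (nat_lit 5) (nat_lit 58) (nat_lit 5) (nat_lit 54) (nat_lit 5) (nat_lit 262) (nat_lit 239) (nat_lit 219))))))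 (XT.nd (nat_lit 312) (nat_lit 760) (nat_lit 0) (XT.nd (nat_lit 156) (nat_lit 380) (nat_lit 0) (XT.nd (nat_lit 78) (nat_lit 304) (nat_lit 0) (XT.lf (nat_lit 0) (nat_lit 3956704864) (nat_lit 380) (nat_lit 872641508) (nat_lit 76) (nat_lit 3848150802) (nat_lit 53) (nat_lit 5) (nat_lit 58) (nat_lit 5) (nat_lit 54) (nat_lit 5) (nat_lit 263) (nat_lit 239) (nat_lit 218)) (XT.lf (nat_lit 0) (nat_lit 3874003230) (nat_lit 304) (nat_lit 2413990986) (nat_lit 380) (nat_lit 2605766279) (nat_lit 49) (nat_lit 5) (nat_lit 53) (nat_lit 5) (nat_lit 54) (nat_lit 5) (nat_lit 264) (nat_lit 239) (nat_lit 217))) (XT.nd (nat_lit 78) (nat_lit 380) (nat_lit 0) (XT.lf (nat_lit 0) (nat_lit 8671427265) (nat_lit 380) (nat_lit 330772462) (nat_lit 76) (nat_lit 122178427) (nat_lit 49) (nat_lit 5) (nat_lit 54) (nat_lit 5) (nat_lit 50) (nat_lit 5) (nat_lit 265) (nat_lit 239) (nat_lit 216)) (XT.lf (nat_lit 0) (nat_lit 1783965677)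 (nat_lit 380) (nat_lit 4785509518) (nat_lit 76) (nat_lit 2794215265) (nat_lit 44) (nat_lit 5) (nat_lit 49) (nat_lit 5) (nat_lit 45) (nat_lit 5) (nat_lit 266) (nat_lit 239) (nat_lit 215)))) (XT.nd (nat_lit 156) (nat_lit 532) (nat_lit 0) (XT.nd (nat_lit 78) (nat_lit 0) (nat_lit 0) (XT.lf (nat_lit 0) (nat_lit 29279061) (nat_lit 228) (nat_lit 4017662129) (nat_lit 304) (nat_lit 5571460701) (nat_lit 41) (nat_lit 5) (nat_lit 44) (nat_lit 5) (nat_lit 45) (nat_lit 5) (nat_lit 267) (nat_lit 239) (nat_lit 214)) (XT.lf (nat_lit 0) (nat_lit 5158939321) (nat_lit 228) (nat_lit 1270672150) (nat_lit 304) (nat_lit 3456173497) (nat_lit 41) (nat_lit 5) (nat_lit 44) (nat_lit 5) (nat_lit 45) (nat_lit 5) (nat_lit 268) (nat_lit 239) (nat_lit 213))) (XT.nd (nat_lit 78) (nat_lit 304) (nat_lit 0) (XT.lf (nat_lit 0) (nat_lit 270854110) (nat_lit 228) (nat_lit 8618772083) (nat_lit 304) (nat_lit 1279251291) (nat_lit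 38) (nat_lit 5) (nat_lit 41) (nat_lit 5) (nat_lit 42) (nat_lit 5) (nat_lit 269) (nat_lit 239) (nat_lit 212)) (XT.nd (nat_lit 78) (nat_lit 228) (nat_lit 0) (XT.lf (nat_lit 0) (nat_lit 1005909501) (nat_lit 304) (nat_lit 4909692804) (nat_lit 76) (nat_lit 4548383739) (nat_lit 37) (nat_lit 5) (nat_lit 41) (nat_lit 5) (nat_lit 38) (nat_lit 5) (nat_lit 270) (nat_lit 239) (nat_lit 211)) (XT.lf (nat_lit 0) (nat_lit 226467080) (nat_lit 228) (nat_lit 3072179978) (nat_lit 304) (nat_lit 7477555588) (nat_lit 34) (nat_lit 5) (nat_lit 37) (nat_lit 5) (nat_lit 38) (nat_lit 5) (nat_lit 271) (nat_lit 239) (nat_lit 210))))))))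
noncomputable def xc107 : XT := (XT.nd (nat_lit 1326) (nat_lit 532) (nat_lit 0) (XT.nd (nat_lit 624) (nat_lit 760) (nat_lit 0) (XT.nd (nat_lit 312) (nat_lit 380) (nat_lit 0) (XT.nd (nat_lit 156) (nat_lit 304) (nat_lit 0) (XT.nd (nat_lit 78) (nat_lit 0) (nat_lit 0) (XT.lf (nat_lit 0) (nat_lit 5703441333) (nat_lit 228) (nat_lit 20353906) (nat_lit 304) (nat_lit 5379552514) (nat_lit 34) (nat_lit 5) (nat_lit 37) (nat_lit 5) (nat_lit 38) (nat_lit 5) (nat_lit 272) (nat_lit 239) (nat_lit 209)) (XT.lf (nat_lit 0) (nat_lit 8257338425) (nat_lit 304) (nat_lit 127624773) (nat_lit 76) (nat_lit 3062726568) (nat_lit 34) (nat_lit 5) (nat_lit 38) (nat_lit 5) (nat_lit 35) (nat_lit 5) (nat_lit 273) (nat_lit 239) (nat_lit 208))) (XT.nd (nat_lit 78) (nat_lit 76) (nat_lit 0) (XT.lf (nat_lit 0) (nat_lit 5502797549) (nat_lit 228) (nat_lit 5441414167) (nat_lit 304) (nat_lit 863891694) (nat_lit 31) (nat_lit 5)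 (nat_lit 34) (nat_lit 5) (nat_lit 35) (nat_lit 5) (nat_lit 274) (nat_lit 239) (nat_lit 207)) (XT.lf (nat_lit 0) (nat_lit 1471424667) (nat_lit 304) (nat_lit 874021932) (nat_lit 76) (nat_lit 9842874957) (nat_lit 30) (nat_lit 5) (nat_lit 34) (nat_lit 5) (nat_lit 31) (nat_lit 5) (nat_lit 275) (nat_lit 239) (nat_lit 206)))) (XT.nd (nat_lit 156) (nat_lit 228) (nat_lit 0) (XT.nd (nat_lit 78) (nat_lit 0) (nat_lit 0) (XT.lf (nat_lit 0) (nat_lit 3929834311) (nat_lit 228) (nat_lit 7708173321) (nat_lit 76) (nat_lit 947228564) (nat_lit 28) (nat_lit 5) (nat_lit 31) (nat_lit 5) (nat_lit 29) (nat_lit 5) (nat_lit 276) (nat_lit 239) (nat_lit 205)) (XT.lf (nat_lit 0) (nat_lit 6509482102) (nat_lit 228) (nat_lit 2173362501) (nat_lit 76) (nat_lit 4319390071) (nat_lit 28) (nat_lit 5) (nat_lit 31) (nat_lit 5) (nat_lit 29) (nat_lit 5) (nat_lit 277) (nat_lit 239) (nat_lit 204))) (XT.nd (nat_lit 78) (nat_lit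 0) (nat_lit 0) (XT.lf (nat_lit 0) (nat_lit 3680305992) (nat_lit 228) (nat_lit 5542716732) (nat_lit 304) (nat_lit 4216961487) (nat_lit 25) (nat_lit 5) (nat_lit 28) (nat_lit 5) (nat_lit 29) (nat_lit 5) (nat_lit 278) (nat_lit 239) (nat_lit 203)) (XT.lf (nat_lit 0) (nat_lit 9827657082) (nat_lit 228) (nat_lit 2230180696) (nat_lit 304) (nat_lit 1842643248) (nat_lit 25) (nat_lit 5) (nat_lit 28) (nat_lit 5) (nat_lit 29) (nat_lit 5) (nat_lit 279) (nat_lit 239) (nat_lit 202))))) (XT.nd (nat_lit 312) (nat_lit 380) (nat_lit 0) (XT.nd (nat_lit 156) (nat_lit 152) (nat_lit 0) (XT.nd (nat_lit 78) (nat_lit 0) (nat_lit 0) (XT.lf (nat_lit 0) (nat_lit 628930160) (nat_lit 228) (nat_lit 12528845713) (nat_lit 76) (nat_lit 1225877984) (nat_lit 22) (nat_lit 5) (nat_lit 25) (nat_lit 5) (nat_lit 23) (nat_lit 5) (nat_lit 280) (nat_lit 239) (nat_lit 201)) (XT.lf (nat_lit 0) (nat_lit 3220014584) (nat_lit 228) (nat_lit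 6808904238) (nat_lit 76) (nat_lit 4857783937) (nat_lit 22) (nat_lit 5) (nat_lit 25) (nat_lit 5) (nat_lit 23) (nat_lit 5) (nat_lit 281) (nat_lit 239) (nat_lit 200))) (XT.nd (nat_lit 78) (nat_lit 152) (nat_lit 0) (XT.lf (nat_lit 0) (nat_lit 5894168386) (nat_lit 228) (nat_lit 873147034) (nat_lit 76) (nat_lit 8650027836) (nat_lit 22) (nat_lit 5) (nat_lit 25) (nat_lit 5) (nat_lit 23) (nat_lit 5) (nat_lit 282) (nat_lit 239) (nat_lit 199)) (XT.lf (nat_lit 0) (nat_lit 5467554544) (nat_lit 152) (nat_lit 3275567905) (nat_lit 228) (nat_lit 7229448139) (nat_lit 20) (nat_lit 5) (nat_lit 22) (nat_lit 5) (nat_lit 23) (nat_lit 5) (nat_lit 283) (nat_lit 239) (nat_lit 198)))) (XT.nd (nat_lit 156) (nat_lit 228) (nat_lit 0) (XT.nd (nat_lit 78) (nat_lit 152) (nat_lit 0) (XT.lf (nat_lit 0) (nat_lit 11712112518) (nat_lit 228) (nat_lit 4473231048) (nat_lit 76) (nat_lit 371440530) (nat_lit 20) (nat_lit 5) (nat_lit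 23) (nat_lit 5) (nat_lit 21) (nat_lit 4) (nat_lit 284) (nat_lit 239) (nat_lit 197)) (XT.lf (nat_lit 0) (nat_lit 1799593464) (nat_lit 152) (nat_lit 13070284354) (nat_lit 228) (nat_lit 2298413439) (nat_lit 18) (nat_lit 5) (nat_lit 20) (nat_lit 5) (nat_lit 21) (nat_lit 4) (nat_lit 285) (nat_lit 239) (nat_lit 196))) (XT.nd (nat_lit 78) (nat_lit 152) (nat_lit 0) (XT.lf (nat_lit 0) (nat_lit 398909157) (nat_lit 228) (nat_lit 9337189647) (nat_lit 76) (nat_lit 8072284194) (nat_lit 17) (nat_lit 5) (nat_lit 20) (nat_lit 5) (nat_lit 18) (nat_lit 5) (nat_lit 286) (nat_lit 239) (nat_lit 195)) (XT.nd (nat_lit 78) (nat_lit 152) (nat_lit 0) (XT.lf (nat_lit 0) (nat_lit 3114580597) (nat_lit 228) (nat_lit 3103560434) (nat_lit 76) (nat_lit 12262503876) (nat_lit 17) (nat_lit 5) (nat_lit 20) (nat_lit 5) (nat_lit 18) (nat_lit 5) (nat_lit 287) (nat_lit 239) (nat_lit 194)) (XT.lf (nat_lit 0) (nat_lit 3494770993)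 (nat_lit 152) (nat_lit 2488422522) (nat_lit 228) (nat_lit 13202550163) (nat_lit 15) (nat_lit 5) (nat_lit 17) (nat_lit 5) (nat_lit 18) (nat_lit 5) (nat_lit 288) (nat_lit 239) (nat_lit 193))))))) (XT.nd (nat_lit 702) (nat_lit 228) (nat_lit 0) (XT.nd (nat_lit 312) (nat_lit 228) (nat_lit 0) (XT.nd (nat_lit 156) (nat_lit 76) (nat_lit 0) (XT.nd (nat_lit 78) (nat_lit 0) (nat_lit 0) (XT.lf (nat_lit 0) (nat_lit 9034089452) (nat_lit 228) (nat_lit 9475310627) (nat_lit 76) (nat_lit 1414832464) (nat_lit 15) (nat_lit 5) (nat_lit 18) (nat_lit 5) (nat_lit 16) (nat_lit 4) (nat_lit 289) (nat_lit 239) (nat_lit 192)) (XT.lf (nat_lit 0) (nat_lit 12243218049) (nat_lit 228) (nat_lit 3046283597) (nat_lit 76) (nat_lit 5409933885) (nat_lit 15) (nat_lit 5) (nat_lit 18) (nat_lit 5) (nat_lit 16) (nat_lit 4) (nat_lit 290) (nat_lit 239) (nat_lit 191))) (XT.nd (nat_lit 78) (nat_lit 0) (nat_lit 0) (XT.lf (nat_lit 0)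 (nat_lit 3770961169) (nat_lit 76) (nat_lit 11867282942) (nat_lit 152) (nat_lit 5873953050) (nat_lit 14) (nat_lit 5) (nat_lit 15) (nat_lit 5) (nat_lit 16) (nat_lit 4) (nat_lit 291) (nat_lit 239) (nat_lit 190)) (XT.lf (nat_lit 0) (nat_lit 10981770144) (nat_lit 76) (nat_lit 8240171102) (nat_lit 152) (nat_lit 3142776821) (nat_lit 14) (nat_lit 5) (nat_lit 15) (nat_lit 5) (nat_lit 16) (nat_lit 4) (nat_lit 292) (nat_lit 239) (nat_lit 189)))) (XT.nd (nat_lit 156) (nat_lit 0) (nat_lit 0) (XT.nd (nat_lit 78) (nat_lit 228) (nat_lit 0) (XT.lf (nat_lit 0) (nat_lit 18502588028) (nat_lit 76) (nat_lit 4451120434) (nat_lit 152) (nat_lit 307776283) (nat_lit 14) (nat_lit 5) (nat_lit 15) (nat_lit 5) (nat_lit 16) (nat_lit 4) (nat_lit 293) (nat_lit 239) (nat_lit 188)) (XT.lf (nat_lit 0) (nat_lit 2175123278) (nat_lit 152) (nat_lit 412209029) (nat_lit 228) (nat_lit 21613542883) (nat_lit 11) (nat_lit 5) (nat_lit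 13) (nat_lit 5) (nat_lit 14) (nat_lit 5) (nat_lit 294) (nat_lit 239) (nat_lit 187))) (XT.nd (nat_lit 78) (nat_lit 0) (nat_lit 0) (XT.lf (nat_lit 0) (nat_lit 5728753111) (nat_lit 228) (nat_lit 15677908706) (nat_lit 76) (nat_lit 3774781335) (nat_lit 11) (nat_lit 5) (nat_lit 14) (nat_lit 5) (nat_lit 12) (nat_lit 4) (nat_lit 295) (nat_lit 239) (nat_lit 186)) (XT.nd (nat_lit 78) (nat_lit 0) (nat_lit 0) (XT.lf (nat_lit 0) (nat_lit 9005629835) (nat_lit 228) (nat_lit 9066690889) (nat_lit 76) (nat_lit 8139852184) (nat_lit 11) (nat_lit 5) (nat_lit 14) (nat_lit 5) (nat_lit 12) (nat_lit 4) (nat_lit 296) (nat_lit 239) (nat_lit 185)) (XT.lf (nat_lit 0) (nat_lit 12419328830) (nat_lit 228) (nat_lit 2169921729) (nat_lit 76) (nat_lit 12706589807) (nat_lit 11) (nat_lit 5) (nat_lit 14) (nat_lit 5) (nat_lit 12) (nat_lit 4) (nat_lit 297) (nat_lit 239) (nat_lit 184)))))) (XT.nd (nat_lit 312) (nat_lit 152)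 (nat_lit 0) (XT.nd (nat_lit 156) (nat_lit 0) (nat_lit 0) (XT.nd (nat_lit 78) (nat_lit 0) (nat_lit 0) (XT.lf (nat_lit 0) (nat_lit 5195095141) (nat_lit 76) (nat_lit 10863992802) (nat_lit 152) (nat_lit 12371882241) (nat_lit 10) (nat_lit 5) (nat_lit 11) (nat_lit 5) (nat_lit 12) (nat_lit 4) (nat_lit 298) (nat_lit 239) (nat_lit 183)) (XT.lf (nat_lit 0) (nat_lit 12961522793) (nat_lit 76) (nat_lit 6930893070) (nat_lit 152) (nat_lit 9729907062) (nat_lit 10) (nat_lit 5) (nat_lit 11) (nat_lit 5) (nat_lit 12) (nat_lit 4) (nat_lit 299) (nat_lit 239) (nat_lit 182))) (XT.nd (nat_lit 78) (nat_lit 0) (nat_lit 0) (XT.lf (nat_lit 0) (nat_lit 21076105309) (nat_lit 76) (nat_lit 2817335514) (nat_lit 152) (nat_lit 6981044255) (nat_lit 10) (nat_lit 5) (nat_lit 11) (nat_lit 5) (nat_lit 12) (nat_lit 4) (nat_lit 300) (nat_lit 239) (nat_lit 181)) (XT.lf (nat_lit 0) (nat_lit 28094897098) (nat_lit 152) (nat_lit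 2655482886) (nat_lit 0) (nat_lit 1438897597) (nat_lit 10) (nat_lit 5) (nat_lit 12) (nat_lit 4) (nat_lit 10) (nat_lit 4) (nat_lit 301) (nat_lit 239) (nat_lit 180)))) (XT.nd (nat_lit 156) (nat_lit 0) (nat_lit 0) (XT.nd (nat_lit 78) (nat_lit 76) (nat_lit 0) (XT.lf (nat_lit 0) (nat_lit 4918465451) (nat_lit 76) (nat_lit 27688967307) (nat_lit 76) (nat_lit 957365905) (nat_lit 9) (nat_lit 4) (nat_lit 10) (nat_lit 5) (nat_lit 10) (nat_lit 4) (nat_lit 302) (nat_lit 239) (nat_lit 179)) (XT.lf (nat_lit 0) (nat_lit 2285539836) (nat_lit 152) (nat_lit 22118246548) (nat_lit 76) (nat_lit 10602329929) (nat_lit 8) (nat_lit 5) (nat_lit 10) (nat_lit 5) (nat_lit 9) (nat_lit 4) (nat_lit 303) (nat_lit 239) (nat_lit 178))) (XT.nd (nat_lit 78) (nat_lit 0) (nat_lit 0) (XT.lf (nat_lit 0) (nat_lit 5637573163) (nat_lit 152) (nat_lit 15315151380) (nat_lit 76) (nat_lit 15567066705) (nat_lit 8) (nat_lit 5) (nat_lit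 10) (nat_lit 5) (nat_lit 9) (nat_lit 4) (nat_lit 304) (nat_lit 239) (nat_lit 177)) (XT.nd (nat_lit 78) (nat_lit 0) (nat_lit 0) (XT.lf (nat_lit 0) (nat_lit 9137356795) (nat_lit 152) (nat_lit 8205902699) (nat_lit 76) (nat_lit 20766915321) (nat_lit 8) (nat_lit 5) (nat_lit 10) (nat_lit 5) (nat_lit 9) (nat_lit 4) (nat_lit 305) (nat_lit 239) (nat_lit 176)) (XT.lf (nat_lit 0) (nat_lit 12793223551) (nat_lit 152) (nat_lit 773573721) (nat_lit 76) (nat_lit 26214256370) (nat_lit 8) (nat_lit 5) (nat_lit 10) (nat_lit 5) (nat_lit 9) (nat_lit 4) (nat_lit 306) (nat_lit 239) (nat_lit 175))))))))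
noncomputable def xc108 : XT := (XT.nd (nat_lit 1326) (nat_lit 76) (nat_lit 0) (XT.nd (nat_lit 624) (nat_lit 152) (nat_lit 0) (XT.nd (nat_lit 312) (nat_lit 76) (nat_lit 0) (XT.nd (nat_lit 156) (nat_lit 0) (nat_lit 0) (XT.nd (nat_lit 78) (nat_lit 0) (nat_lit 0) (XT.lf (nat_lit 0) (nat_lit 7230967699) (nat_lit 76) (nat_lit 9495805847) (nat_lit 152) (nat_lit 24803987683) (nat_lit 7) (nat_lit 5) (nat_lit 8) (nat_lit 5) (nat_lit 9) (nat_lit 4) (nat_lit 307) (nat_lit 239) (nat_lit 174)) (XT.lf (nat_lit 0) (nat_lit 15632250213) (nat_lit 76) (nat_lit 5220229584) (nat_lit 152) (nat_lit 22515728374) (nat_lit 7) (nat_lit 5) (nat_lit 8) (nat_lit 5) (nat_lit 9) (nat_lit 4) (nat_lit 308) (nat_lit 239) (nat_lit 173))) (XT.nd (nat_lit 78) (nat_lit 0) (nat_lit 0) (XT.lf (nat_lit 0) (nat_lit 24424699035) (nat_lit 76) (nat_lit 742989388) (nat_lit 152) (nat_lit 20130704774) (nat_lit 7) (nat_lit 5) (nat_lit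 8) (nat_lit 5) (nat_lit 9) (nat_lit 4) (nat_lit 309) (nat_lit 239) (nat_lit 172)) (XT.lf (nat_lit 0) (nat_lit 29744290821) (nat_lit 152) (nat_lit 13758280511) (nat_lit 0) (nat_lit 3820259796) (nat_lit 7) (nat_lit 5) (nat_lit 9) (nat_lit 4) (nat_lit 7) (nat_lit 4) (nat_lit 310) (nat_lit 239) (nat_lit 171)))) (XT.nd (nat_lit 156) (nat_lit 0) (nat_lit 0) (XT.nd (nat_lit 78) (nat_lit 76) (nat_lit 0) (XT.lf (nat_lit 0) (nat_lit 34546509309) (nat_lit 152) (nat_lit 6326101188) (nat_lit 0) (nat_lit 8576065275) (nat_lit 7) (nat_lit 5) (nat_lit 9) (nat_lit 4) (nat_lit 7) (nat_lit 4) (nat_lit 311) (nat_lit 239) (nat_lit 170)) (XT.lf (nat_lit 0) (nat_lit 1500153910) (nat_lit 76) (nat_lit 38097445291) (nat_lit 76) (nat_lit 12082798391) (nat_lit 6) (nat_lit 4) (nat_lit 7) (nat_lit 5) (nat_lit 7) (nat_lit 4) (nat_lit 312) (nat_lit 239) (nat_lit 169))) (XT.nd (nat_lit 78) (nat_lit 0) (nat_lit 0) (XT.lf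 (nat_lit 0) (nat_lit 9912214285) (nat_lit 76) (nat_lit 35081809475) (nat_lit 76) (nat_lit 9025064607) (nat_lit 6) (nat_lit 4) (nat_lit 7) (nat_lit 5) (nat_lit 7) (nat_lit 4) (nat_lit 313) (nat_lit 239) (nat_lit 168)) (XT.lf (nat_lit 0) (nat_lit 18720939176) (nat_lit 76) (nat_lit 31925658549) (nat_lit 76) (nat_lit 5828820379) (nat_lit 6) (nat_lit 4) (nat_lit 7) (nat_lit 5) (nat_lit 7) (nat_lit 4) (nat_lit 314) (nat_lit 239) (nat_lit 167))))) (XT.nd (nat_lit 312) (nat_lit 76) (nat_lit 0) (XT.nd (nat_lit 156) (nat_lit 0) (nat_lit 0) (XT.nd (nat_lit 78) (nat_lit 76) (nat_lit 0) (XT.lf (nat_lit 0) (nat_lit 27947301739) (nat_lit 76) (nat_lit 28621477869) (nat_lit 76) (nat_lit 2486455601) (nat_lit 6) (nat_lit 4) (nat_lit 7) (nat_lit 5) (nat_lit 7) (nat_lit 4) (nat_lit 315) (nat_lit 239) (nat_lit 166)) (XT.lf (nat_lit 0) (nat_lit 977661823) (nat_lit 152) (nat_lit 24167181337) (nat_lit 76) (nat_lit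 36619050502) (nat_lit 5) (nat_lit 5) (nat_lit 7) (nat_lit 5) (nat_lit 6) (nat_lit 4) (nat_lit 316) (nat_lit 239) (nat_lit 165))) (XT.nd (nat_lit 78) (nat_lit 0) (nat_lit 0) (XT.lf (nat_lit 0) (nat_lit 4519402643) (nat_lit 152) (nat_lit 16941246758) (nat_lit 76) (nat_lit 43145915761) (nat_lit 5) (nat_lit 5) (nat_lit 7) (nat_lit 5) (nat_lit 6) (nat_lit 4) (nat_lit 317) (nat_lit 239) (nat_lit 164)) (XT.lf (nat_lit 0) (nat_lit 8226781681) (nat_lit 152) (nat_lit 9374104588) (nat_lit 76) (nat_lit 49991072730) (nat_lit 5) (nat_lit 5) (nat_lit 7) (nat_lit 5) (nat_lit 6) (nat_lit 4) (nat_lit 318) (nat_lit 239) (nat_lit 163)))) (XT.nd (nat_lit 156) (nat_lit 0) (nat_lit 0) (XT.nd (nat_lit 78) (nat_lit 76) (nat_lit 0) (XT.lf (nat_lit 0) (nat_lit 12108626032) (nat_lit 152) (nat_lit 1447737821) (nat_lit 76) (nat_lit 57170819404) (nat_lit 5) (nat_lit 5) (nat_lit 7) (nat_lit 5) (nat_lit 6) (nat_lit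 4) (nat_lit 319) (nat_lit 239) (nat_lit 162)) (XT.lf (nat_lit 0) (nat_lit 7083440166) (nat_lit 76) (nat_lit 9201330367) (nat_lit 152) (nat_lit 57729402602) (nat_lit 4) (nat_lit 5) (nat_lit 5) (nat_lit 5) (nat_lit 6) (nat_lit 4) (nat_lit 320) (nat_lit 239) (nat_lit 161))) (XT.nd (nat_lit 78) (nat_lit 0) (nat_lit 0) (XT.lf (nat_lit 0) (nat_lit 16073511696) (nat_lit 76) (nat_lit 4610558881) (nat_lit 152) (nat_lit 56780738613) (nat_lit 4) (nat_lit 5) (nat_lit 5) (nat_lit 5) (nat_lit 6) (nat_lit 4) (nat_lit 321) (nat_lit 239) (nat_lit 160)) (XT.nd (nat_lit 78) (nat_lit 0) (nat_lit 0) (XT.lf (nat_lit 0) (nat_lit 25296809531) (nat_lit 152) (nat_lit 55595621258) (nat_lit 0) (nat_lit 195885994) (nat_lit 4) (nat_lit 5) (nat_lit 6) (nat_lit 4) (nat_lit 4) (nat_lit 4) (nat_lit 322) (nat_lit 239) (nat_lit 159)) (XT.lf (nat_lit 0) (nat_lit 30206434177) (nat_lit 152) (nat_lit 49602369099) (nat_lit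 0) (nat_lit 5080896830) (nat_lit 4) (nat_lit 5) (nat_lit 6) (nat_lit 4) (nat_lit 4) (nat_lit 4) (nat_lit 323) (nat_lit 239) (nat_lit 158))))))) (XT.nd (nat_lit 702) (nat_lit 0) (nat_lit 0) (XT.nd (nat_lit 312) (nat_lit 76) (nat_lit 0) (XT.nd (nat_lit 156) (nat_lit 0) (nat_lit 0) (XT.nd (nat_lit 78) (nat_lit 0) (nat_lit 0) (XT.lf (nat_lit 0) (nat_lit 35352650353) (nat_lit 152) (nat_lit 43325287626) (nat_lit 0) (nat_lit 10203671282) (nat_lit 4) (nat_lit 5) (nat_lit 6) (nat_lit 4) (nat_lit 4) (nat_lit 4) (nat_lit 324) (nat_lit 239) (nat_lit 157)) (XT.lf (nat_lit 0) (nat_lit 40747710954) (nat_lit 152) (nat_lit 36749431407) (nat_lit 0) (nat_lit 15576406431) (nat_lit 4) (nat_lit 5) (nat_lit 6) (nat_lit 4) (nat_lit 4) (nat_lit 4) (nat_lit 325) (nat_lit 239) (nat_lit 156))) (XT.nd (nat_lit 78) (nat_lit 0) (nat_lit 0) (XT.lf (nat_lit 0) (nat_lit 46404461362) (nat_lit 152) (nat_lit 29859143641)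 (nat_lit 0) (nat_lit 21211894506) (nat_lit 4) (nat_lit 5) (nat_lit 6) (nat_lit 4) (nat_lit 4) (nat_lit 4) (nat_lit 326) (nat_lit 239) (nat_lit 155)) (XT.lf (nat_lit 0) (nat_lit 52336370032) (nat_lit 152) (nat_lit 22638018881) (nat_lit 0) (nat_lit 27123553333) (nat_lit 4) (nat_lit 5) (nat_lit 6) (nat_lit 4) (nat_lit 4) (nat_lit 4) (nat_lit 327) (nat_lit 239) (nat_lit 154)))) (XT.nd (nat_lit 156) (nat_lit 76) (nat_lit 0) (XT.nd (nat_lit 78) (nat_lit 0) (nat_lit 0) (XT.lf (nat_lit 0) (nat_lit 58557560554) (nat_lit 152) (nat_lit 15068863973) (nat_lit 0) (nat_lit 33325458292) (nat_lit 4) (nat_lit 5) (nat_lit 6) (nat_lit 4) (nat_lit 4) (nat_lit 4) (nat_lit 328) (nat_lit 239) (nat_lit 153)) (XT.lf (nat_lit 0) (nat_lit 65082845289) (nat_lit 152) (nat_lit 7133657119) (nat_lit 0) (nat_lit 39832375822) (nat_lit 4) (nat_lit 5) (nat_lit 6) (nat_lit 4) (nat_lit 4) (nat_lit 4) (nat_lit 329) (nat_lit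 239) (nat_lit 152))) (XT.nd (nat_lit 78) (nat_lit 0) (nat_lit 0) (XT.lf (nat_lit 0) (nat_lit 1225725912) (nat_lit 76) (nat_lit 70721171730) (nat_lit 76) (nat_lit 45453209689) (nat_lit 3) (nat_lit 4) (nat_lit 4) (nat_lit 5) (nat_lit 4) (nat_lit 4) (nat_lit 330) (nat_lit 239) (nat_lit 151)) (XT.nd (nat_lit 78) (nat_lit 0) (nat_lit 0) (XT.lf (nat_lit 0) (nat_lit 10239118081) (nat_lit 76) (nat_lit 69029347232) (nat_lit 76) (nat_lit 43744725595) (nat_lit 3) (nat_lit 4) (nat_lit 4) (nat_lit 5) (nat_lit 4) (nat_lit 4) (nat_lit 331) (nat_lit 239) (nat_lit 150)) (XT.lf (nat_lit 0) (nat_lit 19692108923) (nat_lit 76) (nat_lit 67257812696) (nat_lit 76) (nat_lit 41957324778) (nat_lit 3) (nat_lit 4) (nat_lit 4) (nat_lit 5) (nat_lit 4) (nat_lit 4) (nat_lit 332) (nat_lit 239) (nat_lit 149)))))) (XT.nd (nat_lit 312) (nat_lit 0) (nat_lit 0) (XT.nd (nat_lit 156) (nat_lit 0) (nat_lit 0) (XT.nd (nat_lit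 78) (nat_lit 0) (nat_lit 0) (XT.lf (nat_lit 0) (nat_lit 29607205559) (nat_lit 76) (nat_lit 65402350182) (nat_lit 76) (nat_lit 40086751519) (nat_lit 3) (nat_lit 4) (nat_lit 4) (nat_lit 5) (nat_lit 4) (nat_lit 4) (nat_lit 333) (nat_lit 239) (nat_lit 148)) (XT.lf (nat_lit 0) (nat_lit 40008015362) (nat_lit 76) (nat_lit 63458541922) (nat_lit 76) (nat_lit 38128552075) (nat_lit 3) (nat_lit 4) (nat_lit 4) (nat_lit 5) (nat_lit 4) (nat_lit 4) (nat_lit 334) (nat_lit 239) (nat_lit 147))) (XT.nd (nat_lit 78) (nat_lit 0) (nat_lit 0) (XT.lf (nat_lit 0) (nat_lit 50919302164) (nat_lit 76) (nat_lit 61421759801) (nat_lit 76) (nat_lit 36078064064) (nat_lit 3) (nat_lit 4) (nat_lit 4) (nat_lit 5) (nat_lit 4) (nat_lit 4) (nat_lit 335) (nat_lit 239) (nat_lit 146)) (XT.lf (nat_lit 0) (nat_lit 62367045221) (nat_lit 76) (nat_lit 59287154339) (nat_lit 76) (nat_lit 33930405373) (nat_lit 3) (nat_lit 4) (nat_lit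 4) (nat_lit 5) (nat_lit 4) (nat_lit 4) (nat_lit 336) (nat_lit 239) (nat_lit 145)))) (XT.nd (nat_lit 156) (nat_lit 0) (nat_lit 0) (XT.nd (nat_lit 78) (nat_lit 0) (nat_lit 0) (XT.lf (nat_lit 0) (nat_lit 74378501063) (nat_lit 76) (nat_lit 57049643141) (nat_lit 76) (nat_lit 31680462528) (nat_lit 3) (nat_lit 4) (nat_lit 4) (nat_lit 5) (nat_lit 4) (nat_lit 4) (nat_lit 337) (nat_lit 239) (nat_lit 144)) (XT.lf (nat_lit 0) (nat_lit 86982268395) (nat_lit 76) (nat_lit 54703898800) (nat_lit 76) (nat_lit 29322878523) (nat_lit 3) (nat_lit 4) (nat_lit 4) (nat_lit 5) (nat_lit 4) (nat_lit 4) (nat_lit 338) (nat_lit 239) (nat_lit 143))) (XT.nd (nat_lit 78) (nat_lit 0) (nat_lit 0) (XT.lf (nat_lit 0) (nat_lit 100208356186) (nat_lit 76) (nat_lit 52244336209) (nat_lit 76) (nat_lit 26852040063) (nat_lit 3) (nat_lit 4) (nat_lit 4) (nat_lit 5) (nat_lit 4) (nat_lit 4) (nat_lit 339) (nat_lit 239) (nat_lit 142))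 (XT.nd (nat_lit 78) (nat_lit 0) (nat_lit 0) (XT.lf (nat_lit 0) (nat_lit 114088255121) (nat_lit 76) (nat_lit 49665099268) (nat_lit 76) (nat_lit 24262064199) (nat_lit 3) (nat_lit 4) (nat_lit 4) (nat_lit 5) (nat_lit 4) (nat_lit 4) (nat_lit 340) (nat_lit 239) (nat_lit 141)) (XT.lf (nat_lit 0) (nat_lit 128655012580) (nat_lit 76) (nat_lit 46960046937) (nat_lit 76) (nat_lit 21546784321) (nat_lit 3) (nat_lit 4) (nat_lit 4) (nat_lit 5) (nat_lit 4) (nat_lit 4) (nat_lit 341) (nat_lit 239) (nat_lit 140))))))))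
noncomputable def xc109 : XT := (XT.nd (nat_lit 1326) (nat_lit 0) (nat_lit 0) (XT.nd (nat_lit 624) (nat_lit 76) (nat_lit 0) (XT.nd (nat_lit 312) (nat_lit 76) (nat_lit 0) (XT.nd (nat_lit 156) (nat_lit 0) (nat_lit 0) (XT.nd (nat_lit 78) (nat_lit 0) (nat_lit 0) (XT.lf (nat_lit 0) (nat_lit 143943311317) (nat_lit 76) (nat_lit 44122738614) (nat_lit 76) (nat_lit 18699735478) (nat_lit 3) (nat_lit 4) (nat_lit 4) (nat_lit 5) (nat_lit 4) (nat_lit 4) (nat_lit 342) (nat_lit 239) (nat_lit 139)) (XT.lf (nat_lit 0) (nat_lit 159989552045) (nat_lit 76) (nat_lit 41146418804) (nat_lit 76) (nat_lit 15714138981) (nat_lit 3) (nat_lit 4) (nat_lit 4) (nat_lit 5) (nat_lit 4) (nat_lit 4) (nat_lit 343) (nat_lit 239) (nat_lit 138))) (XT.nd (nat_lit 78) (nat_lit 0) (nat_lit 0) (XT.lf (nat_lit 0) (nat_lit 176831940098) (nat_lit 76) (nat_lit 38024001030) (nat_lit 76) (nat_lit 12582886268) (nat_lit 3) (nat_lit 4) (nat_lit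 4) (nat_lit 5) (nat_lit 4) (nat_lit 4) (nat_lit 344) (nat_lit 239) (nat_lit 137)) (XT.lf (nat_lit 0) (nat_lit 194510576400) (nat_lit 76) (nat_lit 34748050965) (nat_lit 76) (nat_lit 9298521976) (nat_lit 3) (nat_lit 4) (nat_lit 4) (nat_lit 5) (nat_lit 4) (nat_lit 4) (nat_lit 345) (nat_lit 239) (nat_lit 136)))) (XT.nd (nat_lit 156) (nat_lit 76) (nat_lit 0) (XT.nd (nat_lit 78) (nat_lit 0) (nat_lit 0) (XT.lf (nat_lit 0) (nat_lit 213067552943) (nat_lit 76) (nat_lit 31310768728) (nat_lit 76) (nat_lit 5853226188) (nat_lit 3) (nat_lit 4) (nat_lit 4) (nat_lit 5) (nat_lit 4) (nat_lit 4) (nat_lit 346) (nat_lit 239) (nat_lit 135)) (XT.lf (nat_lit 0) (nat_lit 232547053003) (nat_lit 76) (nat_lit 27703970313) (nat_lit 76) (nat_lit 2238795821) (nat_lit 3) (nat_lit 4) (nat_lit 4) (nat_lit 5) (nat_lit 4) (nat_lit 4) (nat_lit 347) (nat_lit 239) (nat_lit 134))) (XT.nd (nat_lit 78) (nat_lit 0) (nat_lit 0)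 (XT.lf (nat_lit 0) (nat_lit 1503657214) (nat_lit 152) (nat_lit 22389945727) (nat_lit 76) (nat_lit 251466333967) (nat_lit 2) (nat_lit 5) (nat_lit 4) (nat_lit 5) (nat_lit 3) (nat_lit 4) (nat_lit 348) (nat_lit 239) (nat_lit 133)) (XT.lf (nat_lit 0) (nat_lit 5355246362) (nat_lit 152) (nat_lit 14501110381) (nat_lit 76) (nat_lit 269015509588) (nat_lit 2) (nat_lit 5) (nat_lit 4) (nat_lit 5) (nat_lit 3) (nat_lit 4) (nat_lit 349) (nat_lit 239) (nat_lit 132))))) (XT.nd (nat_lit 312) (nat_lit 0) (nat_lit 0) (XT.nd (nat_lit 156) (nat_lit 0) (nat_lit 0) (XT.nd (nat_lit 78) (nat_lit 76) (nat_lit 0) (XT.lf (nat_lit 0) (nat_lit 9396797519) (nat_lit 152) (nat_lit 6222523277) (nat_lit 76) (nat_lit 287440205564) (nat_lit 2) (nat_lit 5) (nat_lit 4) (nat_lit 5) (nat_lit 3) (nat_lit 4) (nat_lit 350) (nat_lit 239) (nat_lit 131)) (XT.lf (nat_lit 0) (nat_lit 2547047946) (nat_lit 76) (nat_lit 11130652035) (nat_lit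 152) (nat_lit 304277008828) (nat_lit 1) (nat_lit 5) (nat_lit 2) (nat_lit 5) (nat_lit 3) (nat_lit 4) (nat_lit 351) (nat_lit 239) (nat_lit 130))) (XT.nd (nat_lit 78) (nat_lit 0) (nat_lit 0) (XT.lf (nat_lit 0) (nat_lit 11966735057) (nat_lit 76) (nat_lit 6308851240) (nat_lit 152) (nat_lit 315313920108) (nat_lit 1) (nat_lit 5) (nat_lit 2) (nat_lit 5) (nat_lit 3) (nat_lit 4) (nat_lit 352) (nat_lit 239) (nat_lit 129)) (XT.lf (nat_lit 0) (nat_lit 21853221159) (nat_lit 76) (nat_lit 1247819373) (nat_lit 152) (nat_lit 326905122485) (nat_lit 1) (nat_lit 5) (nat_lit 2) (nat_lit 5) (nat_lit 3) (nat_lit 4) (nat_lit 353) (nat_lit 239) (nat_lit 128)))) (XT.nd (nat_lit 156) (nat_lit 0) (nat_lit 0) (XT.nd (nat_lit 78) (nat_lit 0) (nat_lit 0) (XT.lf (nat_lit 0) (nat_lit 28229010002) (nat_lit 152) (nat_lit 335077178557) (nat_lit 0) (nat_lit 3934404459) (nat_lit 1) (nat_lit 5) (nat_lit 3) (nat_lit 4) (nat_lit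 1) (nat_lit 4) (nat_lit 354) (nat_lit 239) (nat_lit 127)) (XT.lf (nat_lit 0) (nat_lit 33631697565) (nat_lit 152) (nat_lit 342371961131) (nat_lit 0) (nat_lit 9332172398) (nat_lit 1) (nat_lit 5) (nat_lit 3) (nat_lit 4) (nat_lit 1) (nat_lit 4) (nat_lit 355) (nat_lit 239) (nat_lit 126))) (XT.nd (nat_lit 78) (nat_lit 0) (nat_lit 0) (XT.lf (nat_lit 0) (nat_lit 39302484808) (nat_lit 152) (nat_lit 350035176153) (nat_lit 0) (nat_lit 14998274284) (nat_lit 1) (nat_lit 5) (nat_lit 3) (nat_lit 4) (nat_lit 1) (nat_lit 4) (nat_lit 356) (nat_lit 239) (nat_lit 125)) (XT.nd (nat_lit 78) (nat_lit 0) (nat_lit 0) (XT.lf (nat_lit 0) (nat_lit 45254873603) (nat_lit 152) (nat_lit 358085069372) (nat_lit 0) (nat_lit 20946200835) (nat_lit 1) (nat_lit 5) (nat_lit 3) (nat_lit 4) (nat_lit 1) (nat_lit 4) (nat_lit 357) (nat_lit 239) (nat_lit 124)) (XT.lf (nat_lit 0) (nat_lit 51503036306) (nat_lit 152) (nat_lit 366540807202)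 (nat_lit 0) (nat_lit 27190113781) (nat_lit 1) (nat_lit 5) (nat_lit 3) (nat_lit 4) (nat_lit 1) (nat_lit 4) (nat_lit 358) (nat_lit 239) (nat_lit 123))))))) (XT.nd (nat_lit 28704) (nat_lit 0) (nat_lit 6536) (XT.nd (nat_lit 28314) (nat_lit 0) (nat_lit 8132) (XT.nd (nat_lit 156) (nat_lit 0) (nat_lit 0) (XT.nd (nat_lit 78) (nat_lit 0) (nat_lit 0) (XT.lf (nat_lit 0) (nat_lit 58061849495) (nat_lit 152) (nat_lit 375422522351) (nat_lit 0) (nat_lit 33744879583) (nat_lit 1) (nat_lit 5) (nat_lit 3) (nat_lit 4) (nat_lit 1) (nat_lit 4) (nat_lit 359) (nat_lit 239) (nat_lit 122)) (XT.lf (nat_lit 0) (nat_lit 64946929391) (nat_lit 152) (nat_lit 384751361760) (nat_lit 0) (nat_lit 40626104824) (nat_lit 1) (nat_lit 5) (nat_lit 3) (nat_lit 4) (nat_lit 1) (nat_lit 4) (nat_lit 360) (nat_lit 239) (nat_lit 121))) (XT.nd (nat_lit 28080) (nat_lit 0) (nat_lit 8588) (XT.lf (nat_lit 0) (nat_lit 72174669041) (nat_lit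 152) (nat_lit 394549536951) (nat_lit 0) (nat_lit 47850173374) (nat_lit 1) (nat_lit 5) (nat_lit 3) (nat_lit 4) (nat_lit 1) (nat_lit 4) (nat_lit 361) (nat_lit 239) (nat_lit 120)) (XT.lf (nat_lit 0) (nat_lit 1073741823) (nat_lit 0) (nat_lit 0) (nat_lit 0) (nat_lit 0) (nat_lit 114) (nat_lit 0) (nat_lit 1) (nat_lit 0) (nat_lit 1) (nat_lit 0) (nat_lit 240) (nat_lit 240) (nat_lit 240)))) (XT.nd (nat_lit 156) (nat_lit 380) (nat_lit 0) (XT.nd (nat_lit 78) (nat_lit 0) (nat_lit 0) (XT.lf (nat_lit 0) (nat_lit 2752369943) (nat_lit 76) (nat_lit 3603448391) (nat_lit 0) (nat_lit 89490220) (nat_lit 113) (nat_lit 5) (nat_lit 114) (nat_lit 0) (nat_lit 113) (nat_lit 4) (nat_lit 241) (nat_lit 240) (nat_lit 239)) (XT.lf (nat_lit 0) (nat_lit 5467639383) (nat_lit 76) (nat_lit 722039589) (nat_lit 0) (nat_lit 268683732) (nat_lit 113) (nat_lit 5) (nat_lit 114) (nat_lit 0) (nat_lit 113) (nat_lit 4) (nat_lit 242)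 (nat_lit 240) (nat_lit 238))) (XT.nd (nat_lit 78) (nat_lit 228) (nat_lit 0) (XT.lf (nat_lit 0) (nat_lit 1653365363) (nat_lit 152) (nat_lit 4224867062) (nat_lit 76) (nat_lit 600297532) (nat_lit 111) (nat_lit 5) (nat_lit 113) (nat_lit 5) (nat_lit 112) (nat_lit 4) (nat_lit 243) (nat_lit 240) (nat_lit 237)) (XT.nd (nat_lit 78) (nat_lit 228) (nat_lit 0) (XT.lf (nat_lit 0) (nat_lit 4245081896) (nat_lit 152) (nat_lit 1212143795) (nat_lit 76) (nat_lit 1050370187) (nat_lit 111) (nat_lit 5) (nat_lit 113) (nat_lit 5) (nat_lit 112) (nat_lit 4) (nat_lit 244) (nat_lit 240) (nat_lit 236)) (XT.lf (nat_lit 0) (nat_lit 285470482) (nat_lit 228) (nat_lit 4632586541) (nat_lit 76) (nat_lit 1627210777) (nat_lit 108) (nat_lit 5) (nat_lit 111) (nat_lit 5) (nat_lit 109) (nat_lit 5) (nat_lit 245) (nat_lit 240) (nat_lit 235)))))) (XT.nd (nat_lit 312) (nat_lit 988) (nat_lit 0) (XT.nd (nat_lit 156) (nat_lit 380)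 (nat_lit 0) (XT.nd (nat_lit 78) (nat_lit 228) (nat_lit 0) (XT.lf (nat_lit 0) (nat_lit 2752275511) (nat_lit 228) (nat_lit 1484987876) (nat_lit 76) (nat_lit 2353315872) (nat_lit 108) (nat_lit 5) (nat_lit 111) (nat_lit 5) (nat_lit 109) (nat_lit 5) (nat_lit 246) (nat_lit 240) (nat_lit 234)) (XT.lf (nat_lit 0) (nat_lit 1782179686) (nat_lit 228) (nat_lit 3441962950) (nat_lit 304) (nat_lit 1420864033) (nat_lit 105) (nat_lit 5) (nat_lit 108) (nat_lit 5) (nat_lit 109) (nat_lit 5) (nat_lit 247) (nat_lit 240) (nat_lit 233))) (XT.nd (nat_lit 78) (nat_lit 304) (nat_lit 0) (XT.lf (nat_lit 0) (nat_lit 963472627) (nat_lit 304) (nat_lit 1553420887) (nat_lit 76) (nat_lit 4191149504) (nat_lit 104) (nat_lit 5) (nat_lit 108) (nat_lit 5) (nat_lit 105) (nat_lit 5) (nat_lit 248) (nat_lit 240) (nat_lit 232)) (XT.lf (nat_lit 0) (nat_lit 1863594886) (nat_lit 304) (nat_lit 1447852061) (nat_lit 380) (nat_lit 3467819995)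 (nat_lit 100) (nat_lit 5) (nat_lit 104) (nat_lit 5) (nat_lit 105) (nat_lit 5) (nat_lit 249) (nat_lit 240) (nat_lit 231)))) (XT.nd (nat_lit 156) (nat_lit 532) (nat_lit 0) (XT.nd (nat_lit 78) (nat_lit 456) (nat_lit 0) (XT.lf (nat_lit 0) (nat_lit 5412697854) (nat_lit 304) (nat_lit 258578299) (nat_lit 380) (nat_lit 1188823535) (nat_lit 100) (nat_lit 5) (nat_lit 104) (nat_lit 5) (nat_lit 105) (nat_lit 5) (nat_lit 250) (nat_lit 240) (nat_lit 230)) (XT.lf (nat_lit 0) (nat_lit 1087692396) (nat_lit 456) (nat_lit 4815229119) (nat_lit 76) (nat_lit 1045705925) (nat_lit 94) (nat_lit 5) (nat_lit 100) (nat_lit 5) (nat_lit 95) (nat_lit 5) (nat_lit 251) (nat_lit 240) (nat_lit 229))) (XT.nd (nat_lit 78) (nat_lit 532) (nat_lit 0) (XT.lf (nat_lit 0) (nat_lit 3344071432) (nat_lit 456) (nat_lit 1220063652) (nat_lit 76) (nat_lit 2481838104) (nat_lit 94) (nat_lit 5) (nat_lit 100) (nat_lit 5) (nat_lit 95) (nat_lit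 5) (nat_lit 252) (nat_lit 240) (nat_lit 228)) (XT.nd (nat_lit 78) (nat_lit 76) (nat_lit 0) (XT.lf (nat_lit 0) (nat_lit 2541866192) (nat_lit 456) (nat_lit 3093790111) (nat_lit 532) (nat_lit 1517044416) (nat_lit 88) (nat_lit 5) (nat_lit 94) (nat_lit 5) (nat_lit 95) (nat_lit 5) (nat_lit 253) (nat_lit 240) (nat_lit 227)) (XT.lf (nat_lit 0) (nat_lit 657584374) (nat_lit 532) (nat_lit 839176823) (nat_lit 76) (nat_lit 5772701777) (nat_lit 87) (nat_lit 5) (nat_lit 94) (nat_lit 5) (nat_lit 88) (nat_lit 5) (nat_lit 254) (nat_lit 240) (nat_lit 226))))))))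
noncomputable def xc110 : XT := (XT.nd (nat_lit 1326) (nat_lit 1672) (nat_lit 0) (XT.nd (nat_lit 624) (nat_lit 1216) (nat_lit 0) (XT.nd (nat_lit 312) (nat_lit 684) (nat_lit 0) (XT.nd (nat_lit 156) (nat_lit 1368) (nat_lit 0) (XT.nd (nat_lit 78) (nat_lit 0) (nat_lit 0) (XT.lf (nat_lit 0) (nat_lit 2832597385) (nat_lit 608) (nat_lit 4295825755) (nat_lit 76) (nat_lit 265812488) (nat_lit 80) (nat_lit 5) (nat_lit 88) (nat_lit 5) (nat_lit 81) (nat_lit 5) (nat_lit 255) (nat_lit 240) (nat_lit 225)) (XT.lf (nat_lit 0) (nat_lit 5049303224) (nat_lit 608) (nat_lit 384470083) (nat_lit 76) (nat_lit 2095347960) (nat_lit 80) (nat_lit 5) (nat_lit 88) (nat_lit 5) (nat_lit 81) (nat_lit 5) (nat_lit 256) (nat_lit 240) (nat_lit 224))) (XT.nd (nat_lit 78) (nat_lit 760) (nat_lit 0) (XT.lf (nat_lit 0) (nat_lit 3749927871) (nat_lit 608) (nat_lit 3584473141) (nat_lit 684) (nat_lit 338968974) (nat_lit 72) (nat_lit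 5) (nat_lit 80) (nat_lit 5) (nat_lit 81) (nat_lit 5) (nat_lit 257) (nat_lit 240) (nat_lit 223)) (XT.lf (nat_lit 0) (nat_lit 160308978) (nat_lit 684) (nat_lit 1596976264) (nat_lit 760) (nat_lit 6071033168) (nat_lit 62) (nat_lit 5) (nat_lit 71) (nat_lit 5) (nat_lit 72) (nat_lit 5) (nat_lit 258) (nat_lit 240) (nat_lit 222)))) (XT.nd (nat_lit 156) (nat_lit 380) (nat_lit 0) (XT.nd (nat_lit 78) (nat_lit 304) (nat_lit 0) (XT.lf (nat_lit 0) (nat_lit 3925821166) (nat_lit 760) (nat_lit 3516092647) (nat_lit 76) (nat_lit 550308578) (nat_lit 62) (nat_lit 5) (nat_lit 72) (nat_lit 5) (nat_lit 63) (nat_lit 5) (nat_lit 259) (nat_lit 240) (nat_lit 221)) (XT.lf (nat_lit 0) (nat_lit 747284908) (nat_lit 304) (nat_lit 5401610200) (nat_lit 380) (nat_lit 2018529481) (nat_lit 58) (nat_lit 5) (nat_lit 62) (nat_lit 5) (nat_lit 63) (nat_lit 5) (nat_lit 260) (nat_lit 240) (nat_lit 220))) (XT.nd (nat_lit 78) (nat_lit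 304) (nat_lit 0) (XT.lf (nat_lit 0) (nat_lit 97400294) (nat_lit 380) (nat_lit 3101266828) (nat_lit 76) (nat_lit 5154493489) (nat_lit 57) (nat_lit 5) (nat_lit 62) (nat_lit 5) (nat_lit 58) (nat_lit 5) (nat_lit 261) (nat_lit 240) (nat_lit 219)) (XT.lf (nat_lit 0) (nat_lit 1352582029) (nat_lit 304) (nat_lit 833500495) (nat_lit 380) (nat_lit 6364059733) (nat_lit 53) (nat_lit 5) (nat_lit 57) (nat_lit 5) (nat_lit 58) (nat_lit 5) (nat_lit 262) (nat_lit 240) (nat_lit 218))))) (XT.nd (nat_lit 312) (nat_lit 532) (nat_lit 0) (XT.nd (nat_lit 156) (nat_lit 380) (nat_lit 0) (XT.nd (nat_lit 78) (nat_lit 304) (nat_lit 0) (XT.lf (nat_lit 0) (nat_lit 4374630833) (nat_lit 380) (nat_lit 2738295118) (nat_lit 76) (nat_lit 1644611576) (nat_lit 53) (nat_lit 5) (nat_lit 58) (nat_lit 5) (nat_lit 54) (nat_lit 5) (nat_lit 263) (nat_lit 240) (nat_lit 217)) (XT.lf (nat_lit 0) (nat_lit 1901491220) (nat_lit 304) (nat_lit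 4734742657) (nat_lit 380) (nat_lit 2341207449) (nat_lit 49) (nat_lit 5) (nat_lit 53) (nat_lit 5) (nat_lit 54) (nat_lit 5) (nat_lit 264) (nat_lit 240) (nat_lit 216))) (XT.nd (nat_lit 78) (nat_lit 380) (nat_lit 0) (XT.lf (nat_lit 0) (nat_lit 6780142388) (nat_lit 304) (nat_lit 2199844278) (nat_lit 380) (nat_lit 230205057) (nat_lit 49) (nat_lit 5) (nat_lit 53) (nat_lit 5) (nat_lit 54) (nat_lit 5) (nat_lit 265) (nat_lit 240) (nat_lit 215)) (XT.lf (nat_lit 0) (nat_lit 1893399940) (nat_lit 380) (nat_lit 7055900012) (nat_lit 76) (nat_lit 505474207) (nat_lit 44) (nat_lit 5) (nat_lit 49) (nat_lit 5) (nat_lit 45) (nat_lit 5) (nat_lit 266) (nat_lit 240) (nat_lit 214)))) (XT.nd (nat_lit 156) (nat_lit 304) (nat_lit 0) (XT.nd (nat_lit 78) (nat_lit 228) (nat_lit 0) (XT.lf (nat_lit 0) (nat_lit 4120278133) (nat_lit 380) (nat_lit 2285494859) (nat_lit 76) (nat_lit 3305645940) (nat_lit 44) (nat_lit 5) (nat_lit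 49) (nat_lit 5) (nat_lit 45) (nat_lit 5) (nat_lit 267) (nat_lit 240) (nat_lit 213)) (XT.lf (nat_lit 0) (nat_lit 2725851051) (nat_lit 228) (nat_lit 3705624123) (nat_lit 304) (nat_lit 3551022853) (nat_lit 41) (nat_lit 5) (nat_lit 44) (nat_lit 5) (nat_lit 45) (nat_lit 5) (nat_lit 268) (nat_lit 240) (nat_lit 212))) (XT.nd (nat_lit 78) (nat_lit 304) (nat_lit 0) (XT.lf (nat_lit 0) (nat_lit 7983655846) (nat_lit 228) (nat_lit 845709460) (nat_lit 304) (nat_lit 1439447997) (nat_lit 41) (nat_lit 5) (nat_lit 44) (nat_lit 5) (nat_lit 45) (nat_lit 5) (nat_lit 269) (nat_lit 240) (nat_lit 211)) (XT.nd (nat_lit 78) (nat_lit 0) (nat_lit 0) (XT.lf (nat_lit 0) (nat_lit 767381511) (nat_lit 304) (nat_lit 7669592059) (nat_lit 76) (nat_lit 2131351976) (nat_lit 37) (nat_lit 5) (nat_lit 41) (nat_lit 5) (nat_lit 38) (nat_lit 5) (nat_lit 270) (nat_lit 240) (nat_lit 210)) (XT.lf (nat_lit 0) (nat_lit 3025351772)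 (nat_lit 304) (nat_lit 2581500157) (nat_lit 76) (nat_lit 5275529247) (nat_lit 37) (nat_lit 5) (nat_lit 41) (nat_lit 5) (nat_lit 38) (nat_lit 5) (nat_lit 271) (nat_lit 240) (nat_lit 209))))))) (XT.nd (nat_lit 702) (nat_lit 760) (nat_lit 0) (XT.nd (nat_lit 312) (nat_lit 380) (nat_lit 0) (XT.nd (nat_lit 156) (nat_lit 304) (nat_lit 0) (XT.nd (nat_lit 78) (nat_lit 0) (nat_lit 0) (XT.lf (nat_lit 0) (nat_lit 2769956798) (nat_lit 228) (nat_lit 2608534728) (nat_lit 304) (nat_lit 5834731047) (nat_lit 34) (nat_lit 5) (nat_lit 37) (nat_lit 5) (nat_lit 38) (nat_lit 5) (nat_lit 272) (nat_lit 240) (nat_lit 208)) (XT.lf (nat_lit 0) (nat_lit 7842555314) (nat_lit 304) (nat_lit 3170216165) (nat_lit 76) (nat_lit 548358384) (nat_lit 34) (nat_lit 5) (nat_lit 38) (nat_lit 5) (nat_lit 35) (nat_lit 5) (nat_lit 273) (nat_lit 240) (nat_lit 207))) (XT.nd (nat_lit 78) (nat_lit 76) (nat_lit 0) (XT.lf (nat_lit 0)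 (nat_lit 2320602921) (nat_lit 228) (nat_lit 8131456381) (nat_lit 304) (nat_lit 1473439624) (nat_lit 31) (nat_lit 5) (nat_lit 34) (nat_lit 5) (nat_lit 35) (nat_lit 5) (nat_lit 274) (nat_lit 240) (nat_lit 206)) (XT.lf (nat_lit 0) (nat_lit 853916289) (nat_lit 304) (nat_lit 4202226686) (nat_lit 76) (nat_lit 7251502298) (nat_lit 30) (nat_lit 5) (nat_lit 34) (nat_lit 5) (nat_lit 31) (nat_lit 5) (nat_lit 275) (nat_lit 240) (nat_lit 205)))) (XT.nd (nat_lit 156) (nat_lit 228) (nat_lit 0) (XT.nd (nat_lit 78) (nat_lit 0) (nat_lit 0) (XT.lf (nat_lit 0) (nat_lit 1417338077) (nat_lit 152) (nat_lit 1799281816) (nat_lit 228) (nat_lit 9492800439) (nat_lit 28) (nat_lit 5) (nat_lit 30) (nat_lit 5) (nat_lit 31) (nat_lit 5) (nat_lit 276) (nat_lit 240) (nat_lit 204)) (XT.lf (nat_lit 0) (nat_lit 5742541975) (nat_lit 228) (nat_lit 5766094551) (nat_lit 76) (nat_lit 1620540109) (nat_lit 28) (nat_lit 5) (nat_lit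 31) (nat_lit 5) (nat_lit 29) (nat_lit 5) (nat_lit 277) (nat_lit 240) (nat_lit 203))) (XT.nd (nat_lit 78) (nat_lit 228) (nat_lit 0) (XT.lf (nat_lit 0) (nat_lit 8374209491) (nat_lit 228) (nat_lit 65375925) (nat_lit 76) (nat_lit 5131502543) (nat_lit 28) (nat_lit 5) (nat_lit 31) (nat_lit 5) (nat_lit 29) (nat_lit 5) (nat_lit 278) (nat_lit 240) (nat_lit 202)) (XT.nd (nat_lit 78) (nat_lit 0) (nat_lit 0) (XT.lf (nat_lit 0) (nat_lit 6045223498) (nat_lit 228) (nat_lit 5138955866) (nat_lit 304) (nat_lit 2848712558) (nat_lit 25) (nat_lit 5) (nat_lit 28) (nat_lit 5) (nat_lit 29) (nat_lit 5) (nat_lit 279) (nat_lit 240) (nat_lit 201)) (XT.lf (nat_lit 0) (nat_lit 12396089657) (nat_lit 228) (nat_lit 1693216680) (nat_lit 304) (nat_lit 430873503) (nat_lit 25) (nat_lit 5) (nat_lit 28) (nat_lit 5) (nat_lit 29) (nat_lit 5) (nat_lit 280) (nat_lit 240) (nat_lit 200)))))) (XT.nd (nat_lit 312) (nat_lit 380)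 (nat_lit 0) (XT.nd (nat_lit 156) (nat_lit 152) (nat_lit 0) (XT.nd (nat_lit 78) (nat_lit 0) (nat_lit 0) (XT.lf (nat_lit 0) (nat_lit 2090069022) (nat_lit 228) (nat_lit 10996783711) (nat_lit 76) (nat_lit 1940965047) (nat_lit 22) (nat_lit 5) (nat_lit 25) (nat_lit 5) (nat_lit 23) (nat_lit 5) (nat_lit 281) (nat_lit 240) (nat_lit 199)) (XT.lf (nat_lit 0) (nat_lit 4742627078) (nat_lit 228) (nat_lit 5093631081) (nat_lit 76) (nat_lit 5723333289) (nat_lit 22) (nat_lit 5) (nat_lit 25) (nat_lit 5) (nat_lit 23) (nat_lit 5) (nat_lit 282) (nat_lit 240) (nat_lit 198))) (XT.nd (nat_lit 78) (nat_lit 0) (nat_lit 0) (XT.lf (nat_lit 0) (nat_lit 1075443541) (nat_lit 152) (nat_lit 6426997061) (nat_lit 228) (nat_lit 8616886046) (nat_lit 20) (nat_lit 5) (nat_lit 22) (nat_lit 5) (nat_lit 23) (nat_lit 5) (nat_lit 283) (nat_lit 240) (nat_lit 197)) (XT.lf (nat_lit 0) (nat_lit 7667181435) (nat_lit 152) (nat_lit 2778193294)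 (nat_lit 228) (nat_lit 6259516646) (nat_lit 20) (nat_lit 5) (nat_lit 22) (nat_lit 5) (nat_lit 23) (nat_lit 5) (nat_lit 284) (nat_lit 240) (nat_lit 196)))) (XT.nd (nat_lit 156) (nat_lit 228) (nat_lit 0) (XT.nd (nat_lit 78) (nat_lit 152) (nat_lit 0) (XT.lf (nat_lit 0) (nat_lit 13512402533) (nat_lit 228) (nat_lit 2809050263) (nat_lit 76) (nat_lit 999528729) (nat_lit 20) (nat_lit 5) (nat_lit 23) (nat_lit 5) (nat_lit 21) (nat_lit 4) (nat_lit 285) (nat_lit 240) (nat_lit 195)) (XT.lf (nat_lit 0) (nat_lit 3746966404) (nat_lit 152) (nat_lit 13052246694) (nat_lit 228) (nat_lit 1165431551) (nat_lit 18) (nat_lit 5) (nat_lit 20) (nat_lit 5) (nat_lit 21) (nat_lit 4) (nat_lit 286) (nat_lit 240) (nat_lit 194))) (XT.nd (nat_lit 78) (nat_lit 152) (nat_lit 0) (XT.lf (nat_lit 0) (nat_lit 1569294506) (nat_lit 228) (nat_lit 7994552766) (nat_lit 76) (nat_lit 9074921226) (nat_lit 17) (nat_lit 5) (nat_lit 20)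 (nat_lit 5) (nat_lit 18) (nat_lit 5) (nat_lit 287) (nat_lit 240) (nat_lit 193)) (XT.nd (nat_lit 78) (nat_lit 152) (nat_lit 0) (XT.lf (nat_lit 0) (nat_lit 4365966665) (nat_lit 228) (nat_lit 1535408585) (nat_lit 76) (nat_lit 13446126996) (nat_lit 17) (nat_lit 5) (nat_lit 20) (nat_lit 5) (nat_lit 18) (nat_lit 5) (nat_lit 288) (nat_lit 240) (nat_lit 192)) (XT.lf (nat_lit 0) (nat_lit 5365043769) (nat_lit 152) (nat_lit 1987264356) (nat_lit 228) (nat_lit 12736946843) (nat_lit 15) (nat_lit 5) (nat_lit 17) (nat_lit 5) (nat_lit 18) (nat_lit 5) (nat_lit 289) (nat_lit 240) (nat_lit 191))))))))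
noncomputable def xc111 : XT := (XT.nd (nat_lit 1326) (nat_lit 304) (nat_lit 0) (XT.nd (nat_lit 624) (nat_lit 228) (nat_lit 0) (XT.nd (nat_lit 312) (nat_lit 228) (nat_lit 0) (XT.nd (nat_lit 156) (nat_lit 76) (nat_lit 0) (XT.nd (nat_lit 78) (nat_lit 0) (nat_lit 0) (XT.lf (nat_lit 0) (nat_lit 10514100573) (nat_lit 228) (nat_lit 8290463707) (nat_lit 76) (nat_lit 2062294895) (nat_lit 15) (nat_lit 5) (nat_lit 18) (nat_lit 5) (nat_lit 16) (nat_lit 4) (nat_lit 290) (nat_lit 240) (nat_lit 190)) (XT.lf (nat_lit 0) (nat_lit 13834718617) (nat_lit 228) (nat_lit 1618966870) (nat_lit 76) (nat_lit 6229688491) (nat_lit 15) (nat_lit 5) (nat_lit 18) (nat_lit 5) (nat_lit 16) (nat_lit 4) (nat_lit 291) (nat_lit 240) (nat_lit 189))) (XT.nd (nat_lit 78) (nat_lit 0) (nat_lit 0) (XT.lf (nat_lit 0) (nat_lit 5513662216) (nat_lit 76) (nat_lit 11863463227) (nat_lit 152) (nat_lit 5160865171) (nat_lit 14) (nat_lit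 5) (nat_lit 15) (nat_lit 5) (nat_lit 16) (nat_lit 4) (nat_lit 292) (nat_lit 240) (nat_lit 188)) (XT.lf (nat_lit 0) (nat_lit 13011004355) (nat_lit 76) (nat_lit 8083433122) (nat_lit 152) (nat_lit 2341072299) (nat_lit 14) (nat_lit 5) (nat_lit 15) (nat_lit 5) (nat_lit 16) (nat_lit 4) (nat_lit 293) (nat_lit 240) (nat_lit 187)))) (XT.nd (nat_lit 156) (nat_lit 0) (nat_lit 0) (XT.nd (nat_lit 78) (nat_lit 152) (nat_lit 0) (XT.lf (nat_lit 0) (nat_lit 571134763) (nat_lit 152) (nat_lit 3551205882) (nat_lit 76) (nat_lit 20256572797) (nat_lit 13) (nat_lit 5) (nat_lit 15) (nat_lit 5) (nat_lit 14) (nat_lit 5) (nat_lit 294) (nat_lit 240) (nat_lit 186)) (XT.lf (nat_lit 0) (nat_lit 3582573210) (nat_lit 228) (nat_lit 21666748041) (nat_lit 76) (nat_lit 116684949) (nat_lit 11) (nat_lit 5) (nat_lit 14) (nat_lit 5) (nat_lit 12) (nat_lit 4) (nat_lit 295) (nat_lit 240) (nat_lit 185))) (XT.nd (nat_lit 78) (nat_lit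 0) (nat_lit 0) (XT.lf (nat_lit 0) (nat_lit 6846268683) (nat_lit 228) (nat_lit 15077486101) (nat_lit 76) (nat_lit 4473664691) (nat_lit 11) (nat_lit 5) (nat_lit 14) (nat_lit 5) (nat_lit 12) (nat_lit 4) (nat_lit 296) (nat_lit 240) (nat_lit 184)) (XT.lf (nat_lit 0) (nat_lit 10247414104) (nat_lit 228) (nat_lit 8201627299) (nat_lit 76) (nat_lit 9032696498) (nat_lit 11) (nat_lit 5) (nat_lit 14) (nat_lit 5) (nat_lit 12) (nat_lit 4) (nat_lit 297) (nat_lit 240) (nat_lit 183))))) (XT.nd (nat_lit 312) (nat_lit 152) (nat_lit 0) (XT.nd (nat_lit 156) (nat_lit 0) (nat_lit 0) (XT.nd (nat_lit 78) (nat_lit 76) (nat_lit 0) (XT.lf (nat_lit 0) (nat_lit 13794107440) (nat_lit 228) (nat_lit 1022800544) (nat_lit 76) (nat_lit 13804635207) (nat_lit 11) (nat_lit 5) (nat_lit 14) (nat_lit 5) (nat_lit 12) (nat_lit 4) (nat_lit 298) (nat_lit 240) (nat_lit 182)) (XT.lf (nat_lit 0) (nat_lit 6690215278) (nat_lit 76) (nat_lit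 10909030930) (nat_lit 152) (nat_lit 12215080308) (nat_lit 10) (nat_lit 5) (nat_lit 11) (nat_lit 5) (nat_lit 12) (nat_lit 4) (nat_lit 299) (nat_lit 240) (nat_lit 181))) (XT.nd (nat_lit 78) (nat_lit 0) (nat_lit 0) (XT.lf (nat_lit 0) (nat_lit 14786137390) (nat_lit 76) (nat_lit 6802998188) (nat_lit 152) (nat_lit 9477929991) (nat_lit 10) (nat_lit 5) (nat_lit 11) (nat_lit 5) (nat_lit 12) (nat_lit 4) (nat_lit 300) (nat_lit 240) (nat_lit 180)) (XT.lf (nat_lit 0) (nat_lit 23250423390) (nat_lit 76) (nat_lit 2506355113) (nat_lit 152) (nat_lit 6626789398) (nat_lit 10) (nat_lit 5) (nat_lit 11) (nat_lit 5) (nat_lit 12) (nat_lit 4) (nat_lit 301) (nat_lit 240) (nat_lit 179)))) (XT.nd (nat_lit 156) (nat_lit 76) (nat_lit 0) (XT.nd (nat_lit 78) (nat_lit 76) (nat_lit 0) (XT.lf (nat_lit 0) (nat_lit 30143185038) (nat_lit 152) (nat_lit 1694828796) (nat_lit 0) (nat_lit 1927399854) (nat_lit 10) (nat_lit 5)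 (nat_lit 12) (nat_lit 4) (nat_lit 10) (nat_lit 4) (nat_lit 302) (nat_lit 240) (nat_lit 178)) (XT.lf (nat_lit 0) (nat_lit 6240181020) (nat_lit 76) (nat_lit 28627317686) (nat_lit 76) (nat_lit 342959348) (nat_lit 9) (nat_lit 4) (nat_lit 10) (nat_lit 5) (nat_lit 10) (nat_lit 4) (nat_lit 303) (nat_lit 240) (nat_lit 177))) (XT.nd (nat_lit 78) (nat_lit 0) (nat_lit 0) (XT.lf (nat_lit 0) (nat_lit 3010367228) (nat_lit 152) (nat_lit 22178413283) (nat_lit 76) (nat_lit 11536120149) (nat_lit 8) (nat_lit 5) (nat_lit 10) (nat_lit 5) (nat_lit 9) (nat_lit 4) (nat_lit 304) (nat_lit 240) (nat_lit 176)) (XT.nd (nat_lit 78) (nat_lit 0) (nat_lit 0) (XT.lf (nat_lit 0) (nat_lit 6500928393) (nat_lit 152) (nat_lit 15084960766) (nat_lit 76) (nat_lit 16729871205) (nat_lit 8) (nat_lit 5) (nat_lit 10) (nat_lit 5) (nat_lit 9) (nat_lit 4) (nat_lit 305) (nat_lit 240) (nat_lit 175)) (XT.lf (nat_lit 0) (nat_lit 10148011847)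 (nat_lit 152) (nat_lit 7667675755) (nat_lit 76) (nat_lit 22171405054) (nat_lit 8) (nat_lit 5) (nat_lit 10) (nat_lit 5) (nat_lit 9) (nat_lit 4) (nat_lit 306) (nat_lit 240) (nat_lit 174))))))) (XT.nd (nat_lit 702) (nat_lit 152) (nat_lit 0) (XT.nd (nat_lit 312) (nat_lit 76) (nat_lit 0) (XT.nd (nat_lit 156) (nat_lit 0) (nat_lit 0) (XT.nd (nat_lit 78) (nat_lit 0) (nat_lit 0) (XT.lf (nat_lit 0) (nat_lit 94114195) (nat_lit 76) (nat_lit 13867656311) (nat_lit 152) (nat_lit 27781032919) (nat_lit 7) (nat_lit 5) (nat_lit 8) (nat_lit 5) (nat_lit 9) (nat_lit 4) (nat_lit 307) (nat_lit 240) (nat_lit 173)) (XT.lf (nat_lit 0) (nat_lit 8481300213) (nat_lit 76) (nat_lit 9597989746) (nat_lit 152) (nat_lit 25501382720) (nat_lit 7) (nat_lit 5) (nat_lit 8) (nat_lit 5) (nat_lit 9) (nat_lit 4) (nat_lit 308) (nat_lit 240) (nat_lit 172))) (XT.nd (nat_lit 78) (nat_lit 0) (nat_lit 0) (XT.lf (nat_lit 0) (nat_lit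 17260323800) (nat_lit 76) (nat_lit 5126377832) (nat_lit 152) (nat_lit 23124558272) (nat_lit 7) (nat_lit 5) (nat_lit 8) (nat_lit 5) (nat_lit 9) (nat_lit 4) (nat_lit 309) (nat_lit 240) (nat_lit 171)) (XT.lf (nat_lit 0) (nat_lit 26452087392) (nat_lit 76) (nat_lit 442173875) (nat_lit 152) (nat_lit 20644900469) (nat_lit 7) (nat_lit 5) (nat_lit 8) (nat_lit 5) (nat_lit 9) (nat_lit 4) (nat_lit 310) (nat_lit 240) (nat_lit 170)))) (XT.nd (nat_lit 156) (nat_lit 76) (nat_lit 0) (XT.nd (nat_lit 78) (nat_lit 0) (nat_lit 0) (XT.lf (nat_lit 0) (nat_lit 31682424413) (nat_lit 152) (nat_lit 13660453636) (nat_lit 0) (nat_lit 4322842302) (nat_lit 7) (nat_lit 5) (nat_lit 9) (nat_lit 4) (nat_lit 7) (nat_lit 4) (nat_lit 311) (nat_lit 240) (nat_lit 169)) (XT.lf (nat_lit 0) (nat_lit 36703281490) (nat_lit 152) (nat_lit 5894081580) (nat_lit 0) (nat_lit 9301601411) (nat_lit 7) (nat_lit 5) (nat_lit 9) (nat_lit 4)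 (nat_lit 7) (nat_lit 4) (nat_lit 312) (nat_lit 240) (nat_lit 168))) (XT.nd (nat_lit 78) (nat_lit 0) (nat_lit 0) (XT.lf (nat_lit 0) (nat_lit 2311416520) (nat_lit 76) (nat_lit 39686554516) (nat_lit 76) (nat_lit 12244781134) (nat_lit 6) (nat_lit 4) (nat_lit 7) (nat_lit 5) (nat_lit 7) (nat_lit 4) (nat_lit 313) (nat_lit 240) (nat_lit 167)) (XT.nd (nat_lit 78) (nat_lit 0) (nat_lit 0) (XT.lf (nat_lit 0) (nat_lit 11109020156) (nat_lit 76) (nat_lit 36535173244) (nat_lit 76) (nat_lit 9055215765) (nat_lit 6) (nat_lit 4) (nat_lit 7) (nat_lit 5) (nat_lit 7) (nat_lit 4) (nat_lit 314) (nat_lit 240) (nat_lit 166)) (XT.lf (nat_lit 0) (nat_lit 20324791046) (nat_lit 76) (nat_lit 33235535092) (nat_lit 76) (nat_lit 5719211805) (nat_lit 6) (nat_lit 4) (nat_lit 7) (nat_lit 5) (nat_lit 7) (nat_lit 4) (nat_lit 315) (nat_lit 240) (nat_lit 165)))))) (XT.nd (nat_lit 312) (nat_lit 76) (nat_lit 0) (XT.nd (nat_lit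 156) (nat_lit 0) (nat_lit 0) (XT.nd (nat_lit 78) (nat_lit 76) (nat_lit 0) (XT.lf (nat_lit 0) (nat_lit 29980671503) (nat_lit 76) (nat_lit 29779783776) (nat_lit 76) (nat_lit 2228826388) (nat_lit 6) (nat_lit 4) (nat_lit 7) (nat_lit 5) (nat_lit 7) (nat_lit 4) (nat_lit 316) (nat_lit 240) (nat_lit 164)) (XT.lf (nat_lit 0) (nat_lit 1378666003) (nat_lit 152) (nat_lit 24757676939) (nat_lit 76) (nat_lit 38697637337) (nat_lit 5) (nat_lit 5) (nat_lit 7) (nat_lit 5) (nat_lit 6) (nat_lit 4) (nat_lit 317) (nat_lit 240) (nat_lit 163))) (XT.nd (nat_lit 78) (nat_lit 0) (nat_lit 0) (XT.lf (nat_lit 0) (nat_lit 5080726193) (nat_lit 152) (nat_lit 17199867701) (nat_lit 76) (nat_lit 45539053748) (nat_lit 5) (nat_lit 5) (nat_lit 7) (nat_lit 5) (nat_lit 6) (nat_lit 4) (nat_lit 318) (nat_lit 240) (nat_lit 162)) (XT.lf (nat_lit 0) (nat_lit 8957504974) (nat_lit 152) (nat_lit 9282389441) (nat_lit 76) (nat_lit 52715237985)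 (nat_lit 5) (nat_lit 5) (nat_lit 7) (nat_lit 5) (nat_lit 6) (nat_lit 4) (nat_lit 319) (nat_lit 240) (nat_lit 161)))) (XT.nd (nat_lit 156) (nat_lit 0) (nat_lit 0) (XT.nd (nat_lit 78) (nat_lit 76) (nat_lit 0) (XT.lf (nat_lit 0) (nat_lit 13018232770) (nat_lit 152) (nat_lit 986391021) (nat_lit 76) (nat_lit 60243276201) (nat_lit 5) (nat_lit 5) (nat_lit 7) (nat_lit 5) (nat_lit 6) (nat_lit 4) (nat_lit 320) (nat_lit 240) (nat_lit 160)) (XT.lf (nat_lit 0) (nat_lit 7962737258) (nat_lit 76) (nat_lit 9434161367) (nat_lit 152) (nat_lit 60302675682) (nat_lit 4) (nat_lit 5) (nat_lit 5) (nat_lit 5) (nat_lit 6) (nat_lit 4) (nat_lit 321) (nat_lit 240) (nat_lit 159))) (XT.nd (nat_lit 78) (nat_lit 0) (nat_lit 0) (XT.lf (nat_lit 0) (nat_lit 17377306408) (nat_lit 76) (nat_lit 4624672047) (nat_lit 152) (nat_lit 59321492639) (nat_lit 4) (nat_lit 5) (nat_lit 5) (nat_lit 5) (nat_lit 6) (nat_lit 4) (nat_lit 322)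 (nat_lit 240) (nat_lit 158)) (XT.nd (nat_lit 78) (nat_lit 0) (nat_lit 0) (XT.lf (nat_lit 0) (nat_lit 26835062570) (nat_lit 152) (nat_lit 57888431995) (nat_lit 0) (nat_lit 405192821) (nat_lit 4) (nat_lit 5) (nat_lit 6) (nat_lit 4) (nat_lit 4) (nat_lit 4) (nat_lit 323) (nat_lit 240) (nat_lit 157)) (XT.lf (nat_lit 0) (nat_lit 31977148802) (nat_lit 152) (nat_lit 51618706291) (nat_lit 0) (nat_lit 5524953603) (nat_lit 4) (nat_lit 5) (nat_lit 6) (nat_lit 4) (nat_lit 4) (nat_lit 4) (nat_lit 324) (nat_lit 240) (nat_lit 156))))))))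
noncomputable def xc112 : XT := (XT.nd (nat_lit 1326) (nat_lit 152) (nat_lit 0) (XT.nd (nat_lit 624) (nat_lit 0) (nat_lit 0) (XT.nd (nat_lit 312) (nat_lit 76) (nat_lit 0) (XT.nd (nat_lit 156) (nat_lit 0) (nat_lit 0) (XT.nd (nat_lit 78) (nat_lit 0) (nat_lit 0) (XT.lf (nat_lit 0) (nat_lit 37368276124) (nat_lit 152) (nat_lit 45049855567) (nat_lit 0) (nat_lit 10894818590) (nat_lit 4) (nat_lit 5) (nat_lit 6) (nat_lit 4) (nat_lit 4) (nat_lit 4) (nat_lit 325) (nat_lit 240) (nat_lit 155)) (XT.lf (nat_lit 0) (nat_lit 43021280552) (nat_lit 152) (nat_lit 38166239700) (nat_lit 0) (nat_lit 16527573176) (nat_lit 4) (nat_lit 5) (nat_lit 6) (nat_lit 4) (nat_lit 4) (nat_lit 4) (nat_lit 326) (nat_lit 240) (nat_lit 154))) (XT.nd (nat_lit 78) (nat_lit 0) (nat_lit 0) (XT.lf (nat_lit 0) (nat_lit 48949621621) (nat_lit 152) (nat_lit 30951469131) (nat_lit 0) (nat_lit 22436628681) (nat_lit 4) (nat_lit 5) (nat_lit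 6) (nat_lit 4) (nat_lit 4) (nat_lit 4) (nat_lit 327) (nat_lit 240) (nat_lit 153)) (XT.lf (nat_lit 0) (nat_lit 55167414430) (nat_lit 152) (nat_lit 23388365832) (nat_lit 0) (nat_lit 28636054286) (nat_lit 4) (nat_lit 5) (nat_lit 6) (nat_lit 4) (nat_lit 4) (nat_lit 4) (nat_lit 328) (nat_lit 240) (nat_lit 152)))) (XT.nd (nat_lit 156) (nat_lit 76) (nat_lit 0) (XT.nd (nat_lit 78) (nat_lit 0) (nat_lit 0) (XT.lf (nat_lit 0) (nat_lit 61689463245) (nat_lit 152) (nat_lit 15458922417) (nat_lit 0) (nat_lit 35140610526) (nat_lit 4) (nat_lit 5) (nat_lit 6) (nat_lit 4) (nat_lit 4) (nat_lit 4) (nat_lit 329) (nat_lit 240) (nat_lit 151)) (XT.lf (nat_lit 0) (nat_lit 68531296756) (nat_lit 152) (nat_lit 7144259256) (nat_lit 0) (nat_lit 41965784442) (nat_lit 4) (nat_lit 5) (nat_lit 6) (nat_lit 4) (nat_lit 4) (nat_lit 4) (nat_lit 330) (nat_lit 240) (nat_lit 150))) (XT.nd (nat_lit 78) (nat_lit 0) (nat_lit 0)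 (XT.lf (nat_lit 0) (nat_lit 1627510980) (nat_lit 76) (nat_lit 74107104069) (nat_lit 76) (nat_lit 47525725473) (nat_lit 3) (nat_lit 4) (nat_lit 4) (nat_lit 5) (nat_lit 4) (nat_lit 4) (nat_lit 331) (nat_lit 240) (nat_lit 149)) (XT.lf (nat_lit 0) (nat_lit 11075358530) (nat_lit 76) (nat_lit 72337837215) (nat_lit 76) (nat_lit 45741347875) (nat_lit 3) (nat_lit 4) (nat_lit 4) (nat_lit 5) (nat_lit 4) (nat_lit 4) (nat_lit 332) (nat_lit 240) (nat_lit 148))))) (XT.nd (nat_lit 312) (nat_lit 0) (nat_lit 0) (XT.nd (nat_lit 156) (nat_lit 0) (nat_lit 0) (XT.nd (nat_lit 78) (nat_lit 0) (nat_lit 0) (XT.lf (nat_lit 0) (nat_lit 20985556793) (nat_lit 76) (nat_lit 70484534398) (nat_lit 76) (nat_lit 43873653874) (nat_lit 3) (nat_lit 4) (nat_lit 4) (nat_lit 5) (nat_lit 4) (nat_lit 4) (nat_lit 333) (nat_lit 240) (nat_lit 147)) (XT.lf (nat_lit 0) (nat_lit 31381701478) (nat_lit 76) (nat_lit 68542782993) (nat_lit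 76) (nat_lit 41918196579) (nat_lit 3) (nat_lit 4) (nat_lit 4) (nat_lit 5) (nat_lit 4) (nat_lit 4) (nat_lit 334) (nat_lit 240) (nat_lit 146))) (XT.nd (nat_lit 78) (nat_lit 0) (nat_lit 0) (XT.lf (nat_lit 0) (nat_lit 42288545312) (nat_lit 76) (nat_lit 66507959782) (nat_lit 76) (nat_lit 39870320139) (nat_lit 3) (nat_lit 4) (nat_lit 4) (nat_lit 5) (nat_lit 4) (nat_lit 4) (nat_lit 335) (nat_lit 240) (nat_lit 145)) (XT.lf (nat_lit 0) (nat_lit 53732056970) (nat_lit 76) (nat_lit 64375219948) (nat_lit 76) (nat_lit 37725148658) (nat_lit 3) (nat_lit 4) (nat_lit 4) (nat_lit 5) (nat_lit 4) (nat_lit 4) (nat_lit 336) (nat_lit 240) (nat_lit 144)))) (XT.nd (nat_lit 156) (nat_lit 0) (nat_lit 0) (XT.nd (nat_lit 78) (nat_lit 0) (nat_lit 0) (XT.lf (nat_lit 0) (nat_lit 65739482908) (nat_lit 76) (nat_lit 62139485538) (nat_lit 76) (nat_lit 35477574585) (nat_lit 3) (nat_lit 4) (nat_lit 4) (nat_lit 5) (nat_lit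 4) (nat_lit 4) (nat_lit 337) (nat_lit 240) (nat_lit 143)) (XT.lf (nat_lit 0) (nat_lit 78339412236) (nat_lit 76) (nat_lit 59795433376) (nat_lit 76) (nat_lit 33122246553) (nat_lit 3) (nat_lit 4) (nat_lit 4) (nat_lit 5) (nat_lit 4) (nat_lit 4) (nat_lit 338) (nat_lit 240) (nat_lit 142))) (XT.nd (nat_lit 78) (nat_lit 0) (nat_lit 0) (XT.lf (nat_lit 0) (nat_lit 91561844786) (nat_lit 76) (nat_lit 57337482386) (nat_lit 76) (nat_lit 30653556639) (nat_lit 3) (nat_lit 4) (nat_lit 4) (nat_lit 5) (nat_lit 4) (nat_lit 4) (nat_lit 339) (nat_lit 240) (nat_lit 141)) (XT.nd (nat_lit 78) (nat_lit 0) (nat_lit 0) (XT.lf (nat_lit 0) (nat_lit 105438262539) (nat_lit 76) (nat_lit 54759780302) (nat_lit 76) (nat_lit 28065627008) (nat_lit 3) (nat_lit 4) (nat_lit 4) (nat_lit 5) (nat_lit 4) (nat_lit 4) (nat_lit 340) (nat_lit 240) (nat_lit 140)) (XT.lf (nat_lit 0) (nat_lit 120001704586) (nat_lit 76) (nat_lit 52056189738)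 (nat_lit 76) (nat_lit 25352295925) (nat_lit 3) (nat_lit 4) (nat_lit 4) (nat_lit 5) (nat_lit 4) (nat_lit 4) (nat_lit 341) (nat_lit 240) (nat_lit 139))))))) (XT.nd (nat_lit 702) (nat_lit 76) (nat_lit 0) (XT.nd (nat_lit 312) (nat_lit 76) (nat_lit 0) (XT.nd (nat_lit 156) (nat_lit 0) (nat_lit 0) (XT.nd (nat_lit 78) (nat_lit 0) (nat_lit 0) (XT.lf (nat_lit 0) (nat_lit 135286845789) (nat_lit 76) (nat_lit 49220273576) (nat_lit 76) (nat_lit 22507103076) (nat_lit 3) (nat_lit 4) (nat_lit 4) (nat_lit 5) (nat_lit 4) (nat_lit 4) (nat_lit 342) (nat_lit 240) (nat_lit 138)) (XT.lf (nat_lit 0) (nat_lit 151330079340) (nat_lit 76) (nat_lit 46245279632) (nat_lit 76) (nat_lit 19523274194) (nat_lit 3) (nat_lit 4) (nat_lit 4) (nat_lit 5) (nat_lit 4) (nat_lit 4) (nat_lit 343) (nat_lit 240) (nat_lit 137))) (XT.nd (nat_lit 78) (nat_lit 0) (nat_lit 0) (XT.lf (nat_lit 0) (nat_lit 168169603416) (nat_lit 76) (nat_lit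 43124124589) (nat_lit 76) (nat_lit 16393704923) (nat_lit 3) (nat_lit 4) (nat_lit 4) (nat_lit 5) (nat_lit 4) (nat_lit 4) (nat_lit 344) (nat_lit 240) (nat_lit 136)) (XT.lf (nat_lit 0) (nat_lit 185845512121) (nat_lit 76) (nat_lit 39849377125) (nat_lit 76) (nat_lit 13110943908) (nat_lit 3) (nat_lit 4) (nat_lit 4) (nat_lit 5) (nat_lit 4) (nat_lit 4) (nat_lit 345) (nat_lit 240) (nat_lit 135)))) (XT.nd (nat_lit 156) (nat_lit 76) (nat_lit 0) (XT.nd (nat_lit 78) (nat_lit 0) (nat_lit 0) (XT.lf (nat_lit 0) (nat_lit 204399890952) (nat_lit 76) (nat_lit 36413240221) (nat_lit 76) (nat_lit 9667175052) (nat_lit 3) (nat_lit 4) (nat_lit 4) (nat_lit 5) (nat_lit 4) (nat_lit 4) (nat_lit 346) (nat_lit 240) (nat_lit 134)) (XT.lf (nat_lit 0) (nat_lit 223876917001) (nat_lit 76) (nat_lit 32807532600) (nat_lit 76) (nat_lit 6054198905) (nat_lit 3) (nat_lit 4) (nat_lit 4) (nat_lit 5) (nat_lit 4) (nat_lit 4) (nat_lit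 347) (nat_lit 240) (nat_lit 133))) (XT.nd (nat_lit 78) (nat_lit 76) (nat_lit 0) (XT.lf (nat_lit 0) (nat_lit 244322964140) (nat_lit 76) (nat_lit 29023669244) (nat_lit 76) (nat_lit 2263413142) (nat_lit 3) (nat_lit 4) (nat_lit 4) (nat_lit 5) (nat_lit 4) (nat_lit 4) (nat_lit 348) (nat_lit 240) (nat_lit 132)) (XT.nd (nat_lit 78) (nat_lit 0) (nat_lit 0) (XT.lf (nat_lit 0) (nat_lit 1659342556) (nat_lit 152) (nat_lit 23365196627) (nat_lit 76) (nat_lit 264099269108) (nat_lit 2) (nat_lit 5) (nat_lit 4) (nat_lit 5) (nat_lit 3) (nat_lit 4) (nat_lit 349) (nat_lit 240) (nat_lit 131)) (XT.lf (nat_lit 0) (nat_lit 5699677709) (nat_lit 152) (nat_lit 15088788389) (nat_lit 76) (nat_lit 282523064537) (nat_lit 2) (nat_lit 5) (nat_lit 4) (nat_lit 5) (nat_lit 3) (nat_lit 4) (nat_lit 350) (nat_lit 240) (nat_lit 130)))))) (XT.nd (nat_lit 312) (nat_lit 0) (nat_lit 0) (XT.nd (nat_lit 156) (nat_lit 0) (nat_lit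 0) (XT.nd (nat_lit 78) (nat_lit 76) (nat_lit 0) (XT.lf (nat_lit 0) (nat_lit 9939655518) (nat_lit 152) (nat_lit 6402813716) (nat_lit 76) (nat_lit 301866291528) (nat_lit 2) (nat_lit 5) (nat_lit 4) (nat_lit 5) (nat_lit 3) (nat_lit 4) (nat_lit 351) (nat_lit 240) (nat_lit 129)) (XT.lf (nat_lit 0) (nat_lit 2803125815) (nat_lit 76) (nat_lit 11630010001) (nat_lit 152) (nat_lit 319415644216) (nat_lit 1) (nat_lit 5) (nat_lit 2) (nat_lit 5) (nat_lit 3) (nat_lit 4) (nat_lit 352) (nat_lit 240) (nat_lit 128))) (XT.nd (nat_lit 78) (nat_lit 0) (nat_lit 0) (XT.lf (nat_lit 0) (nat_lit 12687667497) (nat_lit 76) (nat_lit 6569841767) (nat_lit 152) (nat_lit 331007982730) (nat_lit 1) (nat_lit 5) (nat_lit 2) (nat_lit 5) (nat_lit 3) (nat_lit 4) (nat_lit 353) (nat_lit 240) (nat_lit 127)) (XT.lf (nat_lit 0) (nat_lit 23062640014) (nat_lit 76) (nat_lit 1258351262) (nat_lit 152) (nat_lit 343182156339) (nat_lit 1)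 (nat_lit 5) (nat_lit 2) (nat_lit 5) (nat_lit 3) (nat_lit 4) (nat_lit 354) (nat_lit 240) (nat_lit 126)))) (XT.nd (nat_lit 156) (nat_lit 0) (nat_lit 0) (XT.nd (nat_lit 78) (nat_lit 0) (nat_lit 0) (XT.lf (nat_lit 0) (nat_lit 29703039914) (nat_lit 152) (nat_lit 351717445405) (nat_lit 0) (nat_lit 4178933507) (nat_lit 1) (nat_lit 5) (nat_lit 3) (nat_lit 4) (nat_lit 1) (nat_lit 4) (nat_lit 355) (nat_lit 240) (nat_lit 125)) (XT.lf (nat_lit 0) (nat_lit 35372881883) (nat_lit 152) (nat_lit 359382376254) (nat_lit 0) (nat_lit 9844313232) (nat_lit 1) (nat_lit 5) (nat_lit 3) (nat_lit 4) (nat_lit 1) (nat_lit 4) (nat_lit 356) (nat_lit 240) (nat_lit 124))) (XT.nd (nat_lit 78) (nat_lit 0) (nat_lit 0) (XT.lf (nat_lit 0) (nat_lit 41324370419) (nat_lit 152) (nat_lit 367433903595) (nat_lit 0) (nat_lit 15791552011) (nat_lit 1) (nat_lit 5) (nat_lit 3) (nat_lit 4) (nat_lit 1) (nat_lit 4) (nat_lit 357) (nat_lit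 240) (nat_lit 123)) (XT.nd (nat_lit 78) (nat_lit 0) (nat_lit 0) (XT.lf (nat_lit 0) (nat_lit 47571675732) (nat_lit 152) (nat_lit 375891197731) (nat_lit 0) (nat_lit 22034809937) (nat_lit 1) (nat_lit 5) (nat_lit 3) (nat_lit 4) (nat_lit 1) (nat_lit 4) (nat_lit 358) (nat_lit 240) (nat_lit 122)) (XT.lf (nat_lit 0) (nat_lit 54129672359) (nat_lit 152) (nat_lit 384774395076) (nat_lit 0) (nat_lit 28588951909) (nat_lit 1) (nat_lit 5) (nat_lit 3) (nat_lit 4) (nat_lit 1) (nat_lit 4) (nat_lit 359) (nat_lit 240) (nat_lit 121))))))))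
noncomputable def xc113 : XT := (XT.nd (nat_lit 29406) (nat_lit 0) (nat_lit 2508) (XT.nd (nat_lit 28704) (nat_lit 0) (nat_lit 6004) (XT.nd (nat_lit 28392) (nat_lit 0) (nat_lit 8056) (XT.nd (nat_lit 28236) (nat_lit 0) (nat_lit 8284) (XT.nd (nat_lit 78) (nat_lit 0) (nat_lit 0) (XT.lf (nat_lit 0) (nat_lit 61013974576) (nat_lit 152) (nat_lit 394104646101) (nat_lit 0) (nat_lit 35469583027) (nat_lit 1) (nat_lit 5) (nat_lit 3) (nat_lit 4) (nat_lit 1) (nat_lit 4) (nat_lit 360) (nat_lit 240) (nat_lit 120)) (XT.lf (nat_lit 0) (nat_lit 68240973581) (nat_lit 152) (nat_lit 403904165688) (nat_lit 0) (nat_lit 42693085746) (nat_lit 1) (nat_lit 5) (nat_lit 3) (nat_lit 4) (nat_lit 1) (nat_lit 4) (nat_lit 361) (nat_lit 240) (nat_lit 119))) (XT.nd (nat_lit 78) (nat_lit 228) (nat_lit 0) (XT.lf (nat_lit 0) (nat_lit 1353988440) (nat_lit 0) (nat_lit 1353988440) (nat_lit 76) (nat_lit 518647248) (nat_lit 113)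 (nat_lit 5) (nat_lit 113) (nat_lit 3) (nat_lit 114) (nat_lit 0) (nat_lit 241) (nat_lit 241) (nat_lit 238)) (XT.lf (nat_lit 0) (nat_lit 1524952717) (nat_lit 228) (nat_lit 931175440) (nat_lit 228) (nat_lit 4013791580) (nat_lit 110) (nat_lit 3) (nat_lit 113) (nat_lit 3) (nat_lit 113) (nat_lit 5) (nat_lit 242) (nat_lit 241) (nat_lit 237)))) (XT.nd (nat_lit 156) (nat_lit 0) (nat_lit 0) (XT.nd (nat_lit 78) (nat_lit 228) (nat_lit 0) (XT.lf (nat_lit 76) (nat_lit 1983706129) (nat_lit 0) (nat_lit 2064219997) (nat_lit 228) (nat_lit 2446413023) (nat_lit 111) (nat_lit 5) (nat_lit 110) (nat_lit 3) (nat_lit 113) (nat_lit 5) (nat_lit 243) (nat_lit 241) (nat_lit 236)) (XT.lf (nat_lit 0) (nat_lit 26766846) (nat_lit 228) (nat_lit 1536910399) (nat_lit 304) (nat_lit 4964428245) (nat_lit 107) (nat_lit 5) (nat_lit 110) (nat_lit 3) (nat_lit 111) (nat_lit 5) (nat_lit 244) (nat_lit 241) (nat_lit 235))) (XT.nd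 (nat_lit 78) (nat_lit 0) (nat_lit 0) (XT.lf (nat_lit 76) (nat_lit 1506608002) (nat_lit 0) (nat_lit 905292223) (nat_lit 304) (nat_lit 4157112459) (nat_lit 108) (nat_lit 5) (nat_lit 107) (nat_lit 5) (nat_lit 111) (nat_lit 5) (nat_lit 245) (nat_lit 241) (nat_lit 234)) (XT.lf (nat_lit 76) (nat_lit 4670057624) (nat_lit 0) (nat_lit 125198436) (nat_lit 304) (nat_lit 1823697357) (nat_lit 108) (nat_lit 5) (nat_lit 107) (nat_lit 5) (nat_lit 111) (nat_lit 5) (nat_lit 246) (nat_lit 241) (nat_lit 233))))) (XT.nd (nat_lit 312) (nat_lit 1444) (nat_lit 0) (XT.nd (nat_lit 156) (nat_lit 380) (nat_lit 0) (XT.nd (nat_lit 78) (nat_lit 0) (nat_lit 0) (XT.lf (nat_lit 0) (nat_lit 495046951) (nat_lit 304) (nat_lit 5426270873) (nat_lit 76) (nat_lit 755998446) (nat_lit 104) (nat_lit 5) (nat_lit 108) (nat_lit 5) (nat_lit 105) (nat_lit 5) (nat_lit 247) (nat_lit 241) (nat_lit 232)) (XT.lf (nat_lit 0) (nat_lit 2767114521)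 (nat_lit 304) (nat_lit 2185006714) (nat_lit 76) (nat_lit 1790856443) (nat_lit 104) (nat_lit 5) (nat_lit 108) (nat_lit 5) (nat_lit 105) (nat_lit 5) (nat_lit 248) (nat_lit 241) (nat_lit 231))) (XT.nd (nat_lit 78) (nat_lit 76) (nat_lit 0) (XT.lf (nat_lit 0) (nat_lit 1165908975) (nat_lit 304) (nat_lit 3874675064) (nat_lit 380) (nat_lit 1777718624) (nat_lit 100) (nat_lit 5) (nat_lit 104) (nat_lit 5) (nat_lit 105) (nat_lit 5) (nat_lit 249) (nat_lit 241) (nat_lit 230)) (XT.lf (nat_lit 0) (nat_lit 422627984) (nat_lit 380) (nat_lit 2237424548) (nat_lit 76) (nat_lit 4242162735) (nat_lit 99) (nat_lit 5) (nat_lit 104) (nat_lit 5) (nat_lit 100) (nat_lit 5) (nat_lit 250) (nat_lit 241) (nat_lit 229)))) (XT.nd (nat_lit 156) (nat_lit 1064) (nat_lit 0) (XT.nd (nat_lit 78) (nat_lit 0) (nat_lit 0) (XT.lf (nat_lit 0) (nat_lit 1271047588) (nat_lit 380) (nat_lit 1299815520) (nat_lit 456) (nat_lit 4423788068)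 (nat_lit 94) (nat_lit 5) (nat_lit 99) (nat_lit 5) (nat_lit 100) (nat_lit 5) (nat_lit 251) (nat_lit 241) (nat_lit 228)) (XT.lf (nat_lit 0) (nat_lit 4749729469) (nat_lit 456) (nat_lit 2154168500) (nat_lit 76) (nat_lit 192283780) (nat_lit 94) (nat_lit 5) (nat_lit 100) (nat_lit 5) (nat_lit 95) (nat_lit 5) (nat_lit 252) (nat_lit 241) (nat_lit 227))) (XT.nd (nat_lit 78) (nat_lit 608) (nat_lit 0) (XT.lf (nat_lit 0) (nat_lit 1531593803) (nat_lit 456) (nat_lit 5439453150) (nat_lit 532) (nat_lit 235670161) (nat_lit 88) (nat_lit 5) (nat_lit 94) (nat_lit 5) (nat_lit 95) (nat_lit 5) (nat_lit 253) (nat_lit 241) (nat_lit 226)) (XT.nd (nat_lit 78) (nat_lit 532) (nat_lit 0) (XT.lf (nat_lit 0) (nat_lit 1844240785) (nat_lit 532) (nat_lit 1968639839) (nat_lit 76) (nat_lit 3512550837) (nat_lit 87) (nat_lit 5) (nat_lit 94) (nat_lit 5) (nat_lit 88) (nat_lit 5) (nat_lit 254) (nat_lit 241) (nat_lit 225)) (XT.lf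 (nat_lit 0) (nat_lit 1891663507) (nat_lit 532) (nat_lit 2053243571) (nat_lit 608) (nat_lit 3509268745) (nat_lit 80) (nat_lit 5) (nat_lit 87) (nat_lit 5) (nat_lit 88) (nat_lit 5) (nat_lit 255) (nat_lit 241) (nat_lit 224))))))) (XT.nd (nat_lit 702) (nat_lit 1444) (nat_lit 0) (XT.nd (nat_lit 312) (nat_lit 684) (nat_lit 0) (XT.nd (nat_lit 156) (nat_lit 684) (nat_lit 0) (XT.nd (nat_lit 78) (nat_lit 684) (nat_lit 0) (XT.lf (nat_lit 0) (nat_lit 5926565206) (nat_lit 532) (nat_lit 156165481) (nat_lit 608) (nat_lit 1510517146) (nat_lit 80) (nat_lit 5) (nat_lit 87) (nat_lit 5) (nat_lit 88) (nat_lit 5) (nat_lit 256) (nat_lit 241) (nat_lit 223)) (XT.lf (nat_lit 0) (nat_lit 538084349) (nat_lit 684) (nat_lit 5366518755) (nat_lit 76) (nat_lit 1836224772) (nat_lit 71) (nat_lit 5) (nat_lit 80) (nat_lit 5) (nat_lit 72) (nat_lit 5) (nat_lit 257) (nat_lit 241) (nat_lit 222))) (XT.nd (nat_lit 78) (nat_lit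 684) (nat_lit 0) (XT.lf (nat_lit 0) (nat_lit 2574686610) (nat_lit 684) (nat_lit 1337232436) (nat_lit 76) (nat_lit 3986242054) (nat_lit 71) (nat_lit 5) (nat_lit 80) (nat_lit 5) (nat_lit 72) (nat_lit 5) (nat_lit 258) (nat_lit 241) (nat_lit 221)) (XT.lf (nat_lit 0) (nat_lit 2900361845) (nat_lit 684) (nat_lit 1767644756) (nat_lit 760) (nat_lit 3398018584) (nat_lit 62) (nat_lit 5) (nat_lit 71) (nat_lit 5) (nat_lit 72) (nat_lit 5) (nat_lit 259) (nat_lit 241) (nat_lit 220)))) (XT.nd (nat_lit 156) (nat_lit 304) (nat_lit 0) (XT.nd (nat_lit 78) (nat_lit 380) (nat_lit 0) (XT.lf (nat_lit 0) (nat_lit 6809197127) (nat_lit 760) (nat_lit 942216790) (nat_lit 76) (nat_lit 494097452) (nat_lit 62) (nat_lit 5) (nat_lit 72) (nat_lit 5) (nat_lit 63) (nat_lit 5) (nat_lit 260) (nat_lit 241) (nat_lit 219)) (XT.lf (nat_lit 0) (nat_lit 603424683) (nat_lit 380) (nat_lit 4954082207) (nat_lit 76) (nat_lit 2876335985)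 (nat_lit 57) (nat_lit 5) (nat_lit 62) (nat_lit 5) (nat_lit 58) (nat_lit 5) (nat_lit 261) (nat_lit 241) (nat_lit 218))) (XT.nd (nat_lit 78) (nat_lit 304) (nat_lit 0) (XT.lf (nat_lit 0) (nat_lit 2630884415) (nat_lit 380) (nat_lit 585878921) (nat_lit 76) (nat_lit 5417286280) (nat_lit 57) (nat_lit 5) (nat_lit 62) (nat_lit 5) (nat_lit 58) (nat_lit 5) (nat_lit 262) (nat_lit 241) (nat_lit 217)) (XT.nd (nat_lit 78) (nat_lit 0) (nat_lit 0) (XT.lf (nat_lit 0) (nat_lit 4047590584) (nat_lit 304) (nat_lit 697020734) (nat_lit 380) (nat_lit 4100730801) (nat_lit 53) (nat_lit 5) (nat_lit 57) (nat_lit 5) (nat_lit 58) (nat_lit 5) (nat_lit 263) (nat_lit 241) (nat_lit 216)) (XT.lf (nat_lit 0) (nat_lit 6928606340) (nat_lit 380) (nat_lit 249585864) (nat_lit 76) (nat_lit 1891082841) (nat_lit 53) (nat_lit 5) (nat_lit 58) (nat_lit 5) (nat_lit 54) (nat_lit 5) (nat_lit 264) (nat_lit 241) (nat_lit 215)))))) (XT.nd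 (nat_lit 312) (nat_lit 532) (nat_lit 0) (XT.nd (nat_lit 156) (nat_lit 532) (nat_lit 0) (XT.nd (nat_lit 78) (nat_lit 76) (nat_lit 0) (XT.lf (nat_lit 0) (nat_lit 4579841016) (nat_lit 304) (nat_lit 4652578592) (nat_lit 380) (nat_lit 71744454) (nat_lit 49) (nat_lit 5) (nat_lit 53) (nat_lit 5) (nat_lit 54) (nat_lit 5) (nat_lit 265) (nat_lit 241) (nat_lit 214)) (XT.lf (nat_lit 0) (nat_lit 1966154152) (nat_lit 380) (nat_lit 6669142) (nat_lit 76) (nat_lit 7579959712) (nat_lit 48) (nat_lit 5) (nat_lit 53) (nat_lit 5) (nat_lit 49) (nat_lit 5) (nat_lit 266) (nat_lit 241) (nat_lit 213))) (XT.nd (nat_lit 78) (nat_lit 228) (nat_lit 0) (XT.lf (nat_lit 0) (nat_lit 4128178672) (nat_lit 380) (nat_lit 4799847264) (nat_lit 76) (nat_lit 884766882) (nat_lit 44) (nat_lit 5) (nat_lit 49) (nat_lit 5) (nat_lit 45) (nat_lit 5) (nat_lit 267) (nat_lit 241) (nat_lit 212)) (XT.lf (nat_lit 0) (nat_lit 87652735) (nat_lit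 228) (nat_lit 6278206603) (nat_lit 304) (nat_lit 3721804925) (nat_lit 41) (nat_lit 5) (nat_lit 44) (nat_lit 5) (nat_lit 45) (nat_lit 5) (nat_lit 268) (nat_lit 241) (nat_lit 211)))) (XT.nd (nat_lit 156) (nat_lit 228) (nat_lit 0) (XT.nd (nat_lit 78) (nat_lit 304) (nat_lit 0) (XT.lf (nat_lit 0) (nat_lit 5306686040) (nat_lit 228) (nat_lit 3425670760) (nat_lit 304) (nat_lit 1643303354) (nat_lit 41) (nat_lit 5) (nat_lit 44) (nat_lit 5) (nat_lit 45) (nat_lit 5) (nat_lit 269) (nat_lit 241) (nat_lit 210)) (XT.lf (nat_lit 0) (nat_lit 22963133) (nat_lit 228) (nat_lit 436758411) (nat_lit 304) (nat_lit 10221227116) (nat_lit 37) (nat_lit 5) (nat_lit 40) (nat_lit 5) (nat_lit 41) (nat_lit 5) (nat_lit 270) (nat_lit 241) (nat_lit 209))) (XT.nd (nat_lit 78) (nat_lit 228) (nat_lit 0) (XT.lf (nat_lit 0) (nat_lit 2681128486) (nat_lit 304) (nat_lit 5601950436) (nat_lit 76) (nat_lit 2713849405) (nat_lit 37)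 (nat_lit 5) (nat_lit 41) (nat_lit 5) (nat_lit 38) (nat_lit 5) (nat_lit 271) (nat_lit 241) (nat_lit 208)) (XT.nd (nat_lit 78) (nat_lit 228) (nat_lit 0) (XT.lf (nat_lit 0) (nat_lit 4962693551) (nat_lit 304) (nat_lit 376173998) (nat_lit 76) (nat_lit 5992572214) (nat_lit 37) (nat_lit 5) (nat_lit 41) (nat_lit 5) (nat_lit 38) (nat_lit 5) (nat_lit 272) (nat_lit 241) (nat_lit 207)) (XT.lf (nat_lit 0) (nat_lit 5205204173) (nat_lit 228) (nat_lit 2179093664) (nat_lit 304) (nat_lit 4297259146) (nat_lit 34) (nat_lit 5) (nat_lit 37) (nat_lit 5) (nat_lit 38) (nat_lit 5) (nat_lit 273) (nat_lit 241) (nat_lit 206))))))))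
noncomputable def xc114 : XT := (XT.nd (nat_lit 1326) (nat_lit 608) (nat_lit 0) (XT.nd (nat_lit 624) (nat_lit 684) (nat_lit 0) (XT.nd (nat_lit 312) (nat_lit 304) (nat_lit 0) (XT.nd (nat_lit 156) (nat_lit 152) (nat_lit 0) (XT.nd (nat_lit 78) (nat_lit 304) (nat_lit 0) (XT.lf (nat_lit 0) (nat_lit 9897181023) (nat_lit 304) (nat_lit 1061741117) (nat_lit 76) (nat_lit 1091917764) (nat_lit 34) (nat_lit 5) (nat_lit 38) (nat_lit 5) (nat_lit 35) (nat_lit 5) (nat_lit 274) (nat_lit 241) (nat_lit 205)) (XT.lf (nat_lit 0) (nat_lit 151901001) (nat_lit 304) (nat_lit 7771288621) (nat_lit 76) (nat_lit 4512581117) (nat_lit 30) (nat_lit 5) (nat_lit 34) (nat_lit 5) (nat_lit 31) (nat_lit 5) (nat_lit 275) (nat_lit 241) (nat_lit 204))) (XT.nd (nat_lit 78) (nat_lit 152) (nat_lit 0) (XT.lf (nat_lit 0) (nat_lit 2467560078) (nat_lit 304) (nat_lit 2231673795) (nat_lit 76) (nat_lit 8140735690) (nat_lit 30) (nat_lit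 5) (nat_lit 34) (nat_lit 5) (nat_lit 31) (nat_lit 5) (nat_lit 276) (nat_lit 241) (nat_lit 203)) (XT.lf (nat_lit 0) (nat_lit 3633697203) (nat_lit 152) (nat_lit 1273391759) (nat_lit 228) (nat_lit 8357024697) (nat_lit 28) (nat_lit 5) (nat_lit 30) (nat_lit 5) (nat_lit 31) (nat_lit 5) (nat_lit 277) (nat_lit 241) (nat_lit 202)))) (XT.nd (nat_lit 156) (nat_lit 76) (nat_lit 0) (XT.nd (nat_lit 78) (nat_lit 228) (nat_lit 0) (XT.lf (nat_lit 0) (nat_lit 7495624582) (nat_lit 228) (nat_lit 3943299562) (nat_lit 76) (nat_lit 2269322322) (nat_lit 28) (nat_lit 5) (nat_lit 31) (nat_lit 5) (nat_lit 29) (nat_lit 5) (nat_lit 278) (nat_lit 241) (nat_lit 201)) (XT.lf (nat_lit 0) (nat_lit 2006135294) (nat_lit 228) (nat_lit 8214254169) (nat_lit 304) (nat_lit 3953983016) (nat_lit 25) (nat_lit 5) (nat_lit 28) (nat_lit 5) (nat_lit 29) (nat_lit 5) (nat_lit 279) (nat_lit 241) (nat_lit 200))) (XT.nd (nat_lit 78) (nat_lit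 76) (nat_lit 0) (XT.lf (nat_lit 0) (nat_lit 8325627264) (nat_lit 228) (nat_lit 4778310278) (nat_lit 304) (nat_lit 1558860655) (nat_lit 25) (nat_lit 5) (nat_lit 28) (nat_lit 5) (nat_lit 29) (nat_lit 5) (nat_lit 280) (nat_lit 241) (nat_lit 199)) (XT.lf (nat_lit 0) (nat_lit 882487172) (nat_lit 304) (nat_lit 292260822) (nat_lit 76) (nat_lit 14002406944) (nat_lit 24) (nat_lit 5) (nat_lit 28) (nat_lit 5) (nat_lit 25) (nat_lit 5) (nat_lit 281) (nat_lit 241) (nat_lit 198))))) (XT.nd (nat_lit 312) (nat_lit 380) (nat_lit 0) (XT.nd (nat_lit 156) (nat_lit 152) (nat_lit 0) (XT.nd (nat_lit 78) (nat_lit 0) (nat_lit 0) (XT.lf (nat_lit 0) (nat_lit 3491345583) (nat_lit 228) (nat_lit 9588795878) (nat_lit 76) (nat_lit 2631022971) (nat_lit 22) (nat_lit 5) (nat_lit 25) (nat_lit 5) (nat_lit 23) (nat_lit 5) (nat_lit 282) (nat_lit 241) (nat_lit 197)) (XT.lf (nat_lit 0) (nat_lit 6214780442) (nat_lit 228) (nat_lit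 3483715474) (nat_lit 76) (nat_lit 6574271070) (nat_lit 22) (nat_lit 5) (nat_lit 25) (nat_lit 5) (nat_lit 23) (nat_lit 5) (nat_lit 283) (nat_lit 241) (nat_lit 196))) (XT.nd (nat_lit 78) (nat_lit 0) (nat_lit 0) (XT.lf (nat_lit 0) (nat_lit 2963738731) (nat_lit 152) (nat_lit 6118677385) (nat_lit 228) (nat_lit 7779726634) (nat_lit 20) (nat_lit 5) (nat_lit 22) (nat_lit 5) (nat_lit 23) (nat_lit 5) (nat_lit 284) (nat_lit 241) (nat_lit 195)) (XT.lf (nat_lit 0) (nat_lit 9797705280) (nat_lit 152) (nat_lit 2317417692) (nat_lit 228) (nat_lit 5364869894) (nat_lit 20) (nat_lit 5) (nat_lit 22) (nat_lit 5) (nat_lit 23) (nat_lit 5) (nat_lit 285) (nat_lit 241) (nat_lit 194)))) (XT.nd (nat_lit 156) (nat_lit 228) (nat_lit 0) (XT.nd (nat_lit 78) (nat_lit 152) (nat_lit 0) (XT.lf (nat_lit 0) (nat_lit 15289777208) (nat_lit 228) (nat_lit 1237174125) (nat_lit 76) (nat_lit 1602354301) (nat_lit 20) (nat_lit 5)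 (nat_lit 23) (nat_lit 5) (nat_lit 21) (nat_lit 4) (nat_lit 286) (nat_lit 241) (nat_lit 193)) (XT.lf (nat_lit 0) (nat_lit 5619025171) (nat_lit 152) (nat_lit 13095741679) (nat_lit 228) (nat_lit 91818720) (nat_lit 18) (nat_lit 5) (nat_lit 20) (nat_lit 5) (nat_lit 21) (nat_lit 4) (nat_lit 287) (nat_lit 241) (nat_lit 192))) (XT.nd (nat_lit 78) (nat_lit 152) (nat_lit 0) (XT.lf (nat_lit 0) (nat_lit 2691242125) (nat_lit 228) (nat_lit 6753013861) (nat_lit 76) (nat_lit 10071998645) (nat_lit 17) (nat_lit 5) (nat_lit 20) (nat_lit 5) (nat_lit 18) (nat_lit 5) (nat_lit 288) (nat_lit 241) (nat_lit 191)) (XT.nd (nat_lit 78) (nat_lit 152) (nat_lit 0) (XT.lf (nat_lit 0) (nat_lit 5578058231) (nat_lit 228) (nat_lit 49068021) (nat_lit 76) (nat_lit 14635891781) (nat_lit 17) (nat_lit 5) (nat_lit 20) (nat_lit 5) (nat_lit 18) (nat_lit 5) (nat_lit 289) (nat_lit 241) (nat_lit 190)) (XT.lf (nat_lit 0) (nat_lit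 7171195484) (nat_lit 152) (nat_lit 1519208715) (nat_lit 228) (nat_lit 12352723139) (nat_lit 15) (nat_lit 5) (nat_lit 17) (nat_lit 5) (nat_lit 18) (nat_lit 5) (nat_lit 290) (nat_lit 241) (nat_lit 189))))))) (XT.nd (nat_lit 702) (nat_lit 228) (nat_lit 0) (XT.nd (nat_lit 312) (nat_lit 304) (nat_lit 0) (XT.nd (nat_lit 156) (nat_lit 76) (nat_lit 0) (XT.nd (nat_lit 78) (nat_lit 0) (nat_lit 0) (XT.lf (nat_lit 0) (nat_lit 11972510045) (nat_lit 228) (nat_lit 7200576505) (nat_lit 76) (nat_lit 2688512413) (nat_lit 15) (nat_lit 5) (nat_lit 18) (nat_lit 5) (nat_lit 16) (nat_lit 4) (nat_lit 291) (nat_lit 241) (nat_lit 188)) (XT.lf (nat_lit 0) (nat_lit 15414744494) (nat_lit 228) (nat_lit 267143417) (nat_lit 76) (nat_lit 7039366033) (nat_lit 15) (nat_lit 5) (nat_lit 18) (nat_lit 5) (nat_lit 16) (nat_lit 4) (nat_lit 292) (nat_lit 241) (nat_lit 187))) (XT.nd (nat_lit 78) (nat_lit 0) (nat_lit 0) (XT.lf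 (nat_lit 0) (nat_lit 7199007901) (nat_lit 76) (nat_lit 11914973022) (nat_lit 152) (nat_lit 4505724273) (nat_lit 14) (nat_lit 5) (nat_lit 15) (nat_lit 5) (nat_lit 16) (nat_lit 4) (nat_lit 293) (nat_lit 241) (nat_lit 186)) (XT.lf (nat_lit 0) (nat_lit 15004090358) (nat_lit 76) (nat_lit 7971734905) (nat_lit 152) (nat_lit 1588426718) (nat_lit 14) (nat_lit 5) (nat_lit 15) (nat_lit 5) (nat_lit 16) (nat_lit 4) (nat_lit 294) (nat_lit 241) (nat_lit 185)))) (XT.nd (nat_lit 156) (nat_lit 76) (nat_lit 0) (XT.nd (nat_lit 78) (nat_lit 152) (nat_lit 0) (XT.lf (nat_lit 0) (nat_lit 1401466159) (nat_lit 152) (nat_lit 2422108436) (nat_lit 76) (nat_lit 21732653847) (nat_lit 13) (nat_lit 5) (nat_lit 15) (nat_lit 5) (nat_lit 14) (nat_lit 5) (nat_lit 295) (nat_lit 241) (nat_lit 184)) (XT.lf (nat_lit 0) (nat_lit 4553204648) (nat_lit 228) (nat_lit 21431687309) (nat_lit 76) (nat_lit 608370901) (nat_lit 11) (nat_lit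 5) (nat_lit 14) (nat_lit 5) (nat_lit 12) (nat_lit 4) (nat_lit 296) (nat_lit 241) (nat_lit 183))) (XT.nd (nat_lit 78) (nat_lit 76) (nat_lit 0) (XT.lf (nat_lit 0) (nat_lit 7942394285) (nat_lit 228) (nat_lit 14575743135) (nat_lit 76) (nat_lit 5160063835) (nat_lit 11) (nat_lit 5) (nat_lit 14) (nat_lit 5) (nat_lit 12) (nat_lit 4) (nat_lit 297) (nat_lit 241) (nat_lit 182)) (XT.nd (nat_lit 78) (nat_lit 76) (nat_lit 0) (XT.lf (nat_lit 0) (nat_lit 11477701161) (nat_lit 228) (nat_lit 7415882692) (nat_lit 76) (nat_lit 9925013141) (nat_lit 11) (nat_lit 5) (nat_lit 14) (nat_lit 5) (nat_lit 12) (nat_lit 4) (nat_lit 298) (nat_lit 241) (nat_lit 181)) (XT.lf (nat_lit 0) (nat_lit 67088558) (nat_lit 76) (nat_lit 15101501552) (nat_lit 152) (nat_lit 14848522819) (nat_lit 10) (nat_lit 5) (nat_lit 11) (nat_lit 5) (nat_lit 12) (nat_lit 4) (nat_lit 299) (nat_lit 241) (nat_lit 180)))))) (XT.nd (nat_lit 312)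 (nat_lit 228) (nat_lit 0) (XT.nd (nat_lit 156) (nat_lit 0) (nat_lit 0) (XT.nd (nat_lit 78) (nat_lit 0) (nat_lit 0) (XT.lf (nat_lit 0) (nat_lit 8145238857) (nat_lit 76) (nat_lit 11002635300) (nat_lit 152) (nat_lit 12122527253) (nat_lit 10) (nat_lit 5) (nat_lit 11) (nat_lit 5) (nat_lit 12) (nat_lit 4) (nat_lit 300) (nat_lit 241) (nat_lit 179)) (XT.lf (nat_lit 0) (nat_lit 16592599322) (nat_lit 76) (nat_lit 6712817453) (nat_lit 152) (nat_lit 9282010232) (nat_lit 10) (nat_lit 5) (nat_lit 11) (nat_lit 5) (nat_lit 12) (nat_lit 4) (nat_lit 301) (nat_lit 241) (nat_lit 178))) (XT.nd (nat_lit 78) (nat_lit 0) (nat_lit 0) (XT.lf (nat_lit 0) (nat_lit 25429282715) (nat_lit 76) (nat_lit 2221834159) (nat_lit 152) (nat_lit 6320208622) (nat_lit 10) (nat_lit 5) (nat_lit 11) (nat_lit 5) (nat_lit 12) (nat_lit 4) (nat_lit 302) (nat_lit 241) (nat_lit 177)) (XT.lf (nat_lit 0) (nat_lit 32234056839) (nat_lit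 152) (nat_lit 787798594) (nat_lit 0) (nat_lit 2401599666) (nat_lit 10) (nat_lit 5) (nat_lit 12) (nat_lit 4) (nat_lit 10) (nat_lit 4) (nat_lit 303) (nat_lit 241) (nat_lit 176)))) (XT.nd (nat_lit 156) (nat_lit 76) (nat_lit 0) (XT.nd (nat_lit 78) (nat_lit 0) (nat_lit 0) (XT.lf (nat_lit 0) (nat_lit 232894939) (nat_lit 152) (nat_lit 29417220418) (nat_lit 76) (nat_lit 7291126268) (nat_lit 8) (nat_lit 5) (nat_lit 10) (nat_lit 5) (nat_lit 9) (nat_lit 4) (nat_lit 304) (nat_lit 241) (nat_lit 175)) (XT.lf (nat_lit 0) (nat_lit 3714672801) (nat_lit 152) (nat_lit 22338811868) (nat_lit 76) (nat_lit 12479070124) (nat_lit 8) (nat_lit 5) (nat_lit 10) (nat_lit 5) (nat_lit 9) (nat_lit 4) (nat_lit 305) (nat_lit 241) (nat_lit 174))) (XT.nd (nat_lit 78) (nat_lit 76) (nat_lit 0) (XT.lf (nat_lit 0) (nat_lit 7353391205) (nat_lit 152) (nat_lit 14935854443) (nat_lit 76) (nat_lit 17915073306) (nat_lit 8) (nat_lit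 5) (nat_lit 10) (nat_lit 5) (nat_lit 9) (nat_lit 4) (nat_lit 306) (nat_lit 241) (nat_lit 173)) (XT.nd (nat_lit 78) (nat_lit 76) (nat_lit 0) (XT.lf (nat_lit 0) (nat_lit 11157713765) (nat_lit 152) (nat_lit 7190722055) (nat_lit 76) (nat_lit 23612078679) (nat_lit 8) (nat_lit 5) (nat_lit 10) (nat_lit 5) (nat_lit 9) (nat_lit 4) (nat_lit 307) (nat_lit 241) (nat_lit 172)) (XT.lf (nat_lit 0) (nat_lit 945280981) (nat_lit 76) (nat_lit 14206175896) (nat_lit 152) (nat_lit 28653128044) (nat_lit 7) (nat_lit 5) (nat_lit 8) (nat_lit 5) (nat_lit 9) (nat_lit 4) (nat_lit 308) (nat_lit 241) (nat_lit 171))))))))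
noncomputable def xc115 : XT := (XT.nd (nat_lit 1326) (nat_lit 76) (nat_lit 0) (XT.nd (nat_lit 624) (nat_lit 152) (nat_lit 0) (XT.nd (nat_lit 312) (nat_lit 76) (nat_lit 0) (XT.nd (nat_lit 156) (nat_lit 0) (nat_lit 0) (XT.nd (nat_lit 78) (nat_lit 0) (nat_lit 0) (XT.lf (nat_lit 0) (nat_lit 9711518629) (nat_lit 76) (nat_lit 9739924251) (nat_lit 152) (nat_lit 26284112312) (nat_lit 7) (nat_lit 5) (nat_lit 8) (nat_lit 5) (nat_lit 9) (nat_lit 4) (nat_lit 309) (nat_lit 241) (nat_lit 170)) (XT.lf (nat_lit 0) (nat_lit 18891105138) (nat_lit 76) (nat_lit 5060825313) (nat_lit 152) (nat_lit 23811891382) (nat_lit 7) (nat_lit 5) (nat_lit 8) (nat_lit 5) (nat_lit 9) (nat_lit 4) (nat_lit 310) (nat_lit 241) (nat_lit 169))) (XT.nd (nat_lit 78) (nat_lit 0) (nat_lit 0) (XT.lf (nat_lit 0) (nat_lit 28505896665) (nat_lit 76) (nat_lit 157738367) (nat_lit 152) (nat_lit 21230579013) (nat_lit 7) (nat_lit 5) (nat_lit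 8) (nat_lit 5) (nat_lit 9) (nat_lit 4) (nat_lit 311) (nat_lit 241) (nat_lit 168)) (XT.lf (nat_lit 0) (nat_lit 33675542506) (nat_lit 152) (nat_lit 13630786159) (nat_lit 0) (nat_lit 4821587153) (nat_lit 7) (nat_lit 5) (nat_lit 9) (nat_lit 4) (nat_lit 7) (nat_lit 4) (nat_lit 312) (nat_lit 241) (nat_lit 167)))) (XT.nd (nat_lit 156) (nat_lit 0) (nat_lit 0) (XT.nd (nat_lit 78) (nat_lit 76) (nat_lit 0) (XT.lf (nat_lit 0) (nat_lit 38927966395) (nat_lit 152) (nat_lit 5510033127) (nat_lit 0) (nat_lit 10035826945) (nat_lit 7) (nat_lit 5) (nat_lit 9) (nat_lit 4) (nat_lit 7) (nat_lit 4) (nat_lit 313) (nat_lit 241) (nat_lit 166)) (XT.lf (nat_lit 0) (nat_lit 3094792257) (nat_lit 76) (nat_lit 41384475856) (nat_lit 76) (nat_lit 12455970599) (nat_lit 6) (nat_lit 4) (nat_lit 7) (nat_lit 5) (nat_lit 7) (nat_lit 4) (nat_lit 314) (nat_lit 241) (nat_lit 165))) (XT.nd (nat_lit 78) (nat_lit 0) (nat_lit 0) (XT.lf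 (nat_lit 0) (nat_lit 12300475841) (nat_lit 76) (nat_lit 38089163921) (nat_lit 76) (nat_lit 9126024561) (nat_lit 6) (nat_lit 4) (nat_lit 7) (nat_lit 5) (nat_lit 7) (nat_lit 4) (nat_lit 315) (nat_lit 241) (nat_lit 164)) (XT.lf (nat_lit 0) (nat_lit 21946749338) (nat_lit 76) (nat_lit 34637532812) (nat_lit 76) (nat_lit 5641408593) (nat_lit 6) (nat_lit 4) (nat_lit 7) (nat_lit 5) (nat_lit 7) (nat_lit 4) (nat_lit 316) (nat_lit 241) (nat_lit 163))))) (XT.nd (nat_lit 312) (nat_lit 76) (nat_lit 0) (XT.nd (nat_lit 156) (nat_lit 0) (nat_lit 0) (XT.nd (nat_lit 78) (nat_lit 76) (nat_lit 0) (XT.lf (nat_lit 0) (nat_lit 32056580068) (nat_lit 76) (nat_lit 31021364361) (nat_lit 76) (nat_lit 1993825990) (nat_lit 6) (nat_lit 4) (nat_lit 7) (nat_lit 5) (nat_lit 7) (nat_lit 4) (nat_lit 317) (nat_lit 241) (nat_lit 162)) (XT.lf (nat_lit 0) (nat_lit 1766983512) (nat_lit 152) (nat_lit 25435140410) (nat_lit 76)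 (nat_lit 40857130822) (nat_lit 5) (nat_lit 5) (nat_lit 7) (nat_lit 5) (nat_lit 6) (nat_lit 4) (nat_lit 318) (nat_lit 241) (nat_lit 161))) (XT.nd (nat_lit 78) (nat_lit 0) (nat_lit 0) (XT.lf (nat_lit 0) (nat_lit 5638937939) (nat_lit 152) (nat_lit 17526127395) (nat_lit 76) (nat_lit 48029922263) (nat_lit 5) (nat_lit 5) (nat_lit 7) (nat_lit 5) (nat_lit 6) (nat_lit 4) (nat_lit 319) (nat_lit 241) (nat_lit 160)) (XT.lf (nat_lit 0) (nat_lit 9695071114) (nat_lit 152) (nat_lit 9238191112) (nat_lit 76) (nat_lit 55554729244) (nat_lit 5) (nat_lit 5) (nat_lit 7) (nat_lit 5) (nat_lit 6) (nat_lit 4) (nat_lit 320) (nat_lit 241) (nat_lit 159)))) (XT.nd (nat_lit 156) (nat_lit 0) (nat_lit 0) (XT.nd (nat_lit 78) (nat_lit 76) (nat_lit 0) (XT.lf (nat_lit 0) (nat_lit 13945040496) (nat_lit 152) (nat_lit 551598380) (nat_lit 76) (nat_lit 63449467973) (nat_lit 5) (nat_lit 5) (nat_lit 7) (nat_lit 5) (nat_lit 6)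 (nat_lit 4) (nat_lit 321) (nat_lit 241) (nat_lit 158)) (XT.lf (nat_lit 0) (nat_lit 8837178052) (nat_lit 76) (nat_lit 9699760123) (nat_lit 152) (nat_lit 63033730509) (nat_lit 4) (nat_lit 5) (nat_lit 5) (nat_lit 5) (nat_lit 6) (nat_lit 4) (nat_lit 322) (nat_lit 241) (nat_lit 157))) (XT.nd (nat_lit 78) (nat_lit 0) (nat_lit 0) (XT.lf (nat_lit 0) (nat_lit 18699794520) (nat_lit 76) (nat_lit 4659611065) (nat_lit 152) (nat_lit 62017015884) (nat_lit 4) (nat_lit 5) (nat_lit 5) (nat_lit 5) (nat_lit 6) (nat_lit 4) (nat_lit 323) (nat_lit 241) (nat_lit 156)) (XT.nd (nat_lit 78) (nat_lit 0) (nat_lit 0) (XT.lf (nat_lit 0) (nat_lit 28424808951) (nat_lit 152) (nat_lit 60341157153) (nat_lit 0) (nat_lit 606416207) (nat_lit 4) (nat_lit 5) (nat_lit 6) (nat_lit 4) (nat_lit 4) (nat_lit 4) (nat_lit 324) (nat_lit 241) (nat_lit 155)) (XT.lf (nat_lit 0) (nat_lit 33812190293) (nat_lit 152) (nat_lit 53778978329)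 (nat_lit 0) (nat_lit 5973547706) (nat_lit 4) (nat_lit 5) (nat_lit 6) (nat_lit 4) (nat_lit 4) (nat_lit 4) (nat_lit 325) (nat_lit 241) (nat_lit 154))))))) (XT.nd (nat_lit 702) (nat_lit 0) (nat_lit 0) (XT.nd (nat_lit 312) (nat_lit 76) (nat_lit 0) (XT.nd (nat_lit 156) (nat_lit 0) (nat_lit 0) (XT.nd (nat_lit 78) (nat_lit 0) (nat_lit 0) (XT.lf (nat_lit 0) (nat_lit 39461627121) (nat_lit 152) (nat_lit 46901716653) (nat_lit 0) (nat_lit 11603698970) (nat_lit 4) (nat_lit 5) (nat_lit 6) (nat_lit 4) (nat_lit 4) (nat_lit 4) (nat_lit 326) (nat_lit 241) (nat_lit 153)) (XT.lf (nat_lit 0) (nat_lit 45386570476) (nat_lit 152) (nat_lit 39692997693) (nat_lit 0) (nat_lit 17510275121) (nat_lit 4) (nat_lit 5) (nat_lit 6) (nat_lit 4) (nat_lit 4) (nat_lit 4) (nat_lit 327) (nat_lit 241) (nat_lit 152))) (XT.nd (nat_lit 78) (nat_lit 0) (nat_lit 0) (XT.lf (nat_lit 0) (nat_lit 51601127365) (nat_lit 152) (nat_lit 32135657832)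 (nat_lit 0) (nat_lit 23707339436) (nat_lit 4) (nat_lit 5) (nat_lit 6) (nat_lit 4) (nat_lit 4) (nat_lit 4) (nat_lit 328) (nat_lit 241) (nat_lit 151)) (XT.lf (nat_lit 0) (nat_lit 58120094354) (nat_lit 152) (nat_lit 24211703405) (nat_lit 0) (nat_lit 30209646829) (nat_lit 4) (nat_lit 5) (nat_lit 6) (nat_lit 4) (nat_lit 4) (nat_lit 4) (nat_lit 329) (nat_lit 241) (nat_lit 150)))) (XT.nd (nat_lit 156) (nat_lit 76) (nat_lit 0) (XT.nd (nat_lit 78) (nat_lit 0) (nat_lit 0) (XT.lf (nat_lit 0) (nat_lit 64958992791) (nat_lit 152) (nat_lit 15902267853) (nat_lit 0) (nat_lit 37032678985) (nat_lit 4) (nat_lit 5) (nat_lit 6) (nat_lit 4) (nat_lit 4) (nat_lit 4) (nat_lit 330) (nat_lit 241) (nat_lit 149)) (XT.lf (nat_lit 0) (nat_lit 72134105769) (nat_lit 152) (nat_lit 7187566805) (nat_lit 0) (nat_lit 44192681218) (nat_lit 4) (nat_lit 5) (nat_lit 6) (nat_lit 4) (nat_lit 4) (nat_lit 4) (nat_lit 331) (nat_lit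 241) (nat_lit 148))) (XT.nd (nat_lit 78) (nat_lit 0) (nat_lit 0) (XT.lf (nat_lit 0) (nat_lit 2017728952) (nat_lit 76) (nat_lit 77676290340) (nat_lit 76) (nat_lit 49720474604) (nat_lit 3) (nat_lit 4) (nat_lit 4) (nat_lit 5) (nat_lit 4) (nat_lit 4) (nat_lit 332) (nat_lit 241) (nat_lit 147)) (XT.nd (nat_lit 78) (nat_lit 0) (nat_lit 0) (XT.lf (nat_lit 0) (nat_lit 11923262098) (nat_lit 76) (nat_lit 75825044378) (nat_lit 76) (nat_lit 47855522752) (nat_lit 3) (nat_lit 4) (nat_lit 4) (nat_lit 5) (nat_lit 4) (nat_lit 4) (nat_lit 333) (nat_lit 241) (nat_lit 146)) (XT.lf (nat_lit 0) (nat_lit 22314963815) (nat_lit 76) (nat_lit 73885251882) (nat_lit 76) (nat_lit 45902677028) (nat_lit 3) (nat_lit 4) (nat_lit 4) (nat_lit 5) (nat_lit 4) (nat_lit 4) (nat_lit 334) (nat_lit 241) (nat_lit 145)))))) (XT.nd (nat_lit 312) (nat_lit 0) (nat_lit 0) (XT.nd (nat_lit 156) (nat_lit 0) (nat_lit 0) (XT.nd (nat_lit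 78) (nat_lit 0) (nat_lit 0) (XT.lf (nat_lit 0) (nat_lit 33217576250) (nat_lit 76) (nat_lit 71852294299) (nat_lit 76) (nat_lit 43857287798) (nat_lit 3) (nat_lit 4) (nat_lit 4) (nat_lit 5) (nat_lit 4) (nat_lit 4) (nat_lit 335) (nat_lit 241) (nat_lit 144)) (XT.lf (nat_lit 0) (nat_lit 44657058004) (nat_lit 76) (nat_lit 69721331253) (nat_lit 76) (nat_lit 41714485089) (nat_lit 3) (nat_lit 4) (nat_lit 4) (nat_lit 5) (nat_lit 4) (nat_lit 4) (nat_lit 336) (nat_lit 241) (nat_lit 143))) (XT.nd (nat_lit 78) (nat_lit 0) (nat_lit 0) (XT.lf (nat_lit 0) (nat_lit 56660645939) (nat_lit 76) (nat_lit 67487289023) (nat_lit 76) (nat_lit 39469166989) (nat_lit 3) (nat_lit 4) (nat_lit 4) (nat_lit 5) (nat_lit 4) (nat_lit 4) (nat_lit 337) (nat_lit 241) (nat_lit 142)) (XT.lf (nat_lit 0) (nat_lit 69256920025) (nat_lit 76) (nat_lit 65144848461) (nat_lit 76) (nat_lit 37115987503) (nat_lit 3) (nat_lit 4) (nat_lit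 4) (nat_lit 5) (nat_lit 4) (nat_lit 4) (nat_lit 338) (nat_lit 241) (nat_lit 141)))) (XT.nd (nat_lit 156) (nat_lit 0) (nat_lit 0) (XT.nd (nat_lit 78) (nat_lit 0) (nat_lit 0) (XT.lf (nat_lit 0) (nat_lit 82475871393) (nat_lit 76) (nat_lit 62688432327) (nat_lit 76) (nat_lit 34649343823) (nat_lit 3) (nat_lit 4) (nat_lit 4) (nat_lit 5) (nat_lit 4) (nat_lit 4) (nat_lit 339) (nat_lit 241) (nat_lit 140)) (XT.lf (nat_lit 0) (nat_lit 96348973734) (nat_lit 76) (nat_lit 60112192011) (nat_lit 76) (nat_lit 32063362987) (nat_lit 3) (nat_lit 4) (nat_lit 4) (nat_lit 5) (nat_lit 4) (nat_lit 4) (nat_lit 340) (nat_lit 241) (nat_lit 139))) (XT.nd (nat_lit 78) (nat_lit 0) (nat_lit 0) (XT.lf (nat_lit 0) (nat_lit 110909258246) (nat_lit 76) (nat_lit 57409993609) (nat_lit 76) (nat_lit 29351887898) (nat_lit 3) (nat_lit 4) (nat_lit 4) (nat_lit 5) (nat_lit 4) (nat_lit 4) (nat_lit 341) (nat_lit 241) (nat_lit 138))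 (XT.nd (nat_lit 78) (nat_lit 0) (nat_lit 0) (XT.lf (nat_lit 0) (nat_lit 126191392273) (nat_lit 76) (nat_lit 54575403313) (nat_lit 76) (nat_lit 26508462663) (nat_lit 3) (nat_lit 4) (nat_lit 4) (nat_lit 5) (nat_lit 4) (nat_lit 4) (nat_lit 342) (nat_lit 241) (nat_lit 137)) (XT.lf (nat_lit 0) (nat_lit 142231761847) (nat_lit 76) (nat_lit 51601672100) (nat_lit 76) (nat_lit 23526317223) (nat_lit 3) (nat_lit 4) (nat_lit 4) (nat_lit 5) (nat_lit 4) (nat_lit 4) (nat_lit 343) (nat_lit 241) (nat_lit 136))))))))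
noncomputable def xc116 : XT := (XT.nd (nat_lit 1326) (nat_lit 0) (nat_lit 0) (XT.nd (nat_lit 624) (nat_lit 76) (nat_lit 0) (XT.nd (nat_lit 312) (nat_lit 76) (nat_lit 0) (XT.nd (nat_lit 156) (nat_lit 0) (nat_lit 0) (XT.nd (nat_lit 78) (nat_lit 0) (nat_lit 0) (XT.lf (nat_lit 0) (nat_lit 159068558325) (nat_lit 76) (nat_lit 48481719657) (nat_lit 76) (nat_lit 20398351230) (nat_lit 3) (nat_lit 4) (nat_lit 4) (nat_lit 5) (nat_lit 4) (nat_lit 4) (nat_lit 344) (nat_lit 241) (nat_lit 135)) (XT.lf (nat_lit 0) (nat_lit 176741869318) (nat_lit 76) (nat_lit 45208117526) (nat_lit 76) (nat_lit 17117117146) (nat_lit 3) (nat_lit 4) (nat_lit 4) (nat_lit 5) (nat_lit 4) (nat_lit 4) (nat_lit 345) (nat_lit 241) (nat_lit 134))) (XT.nd (nat_lit 78) (nat_lit 0) (nat_lit 0) (XT.lf (nat_lit 0) (nat_lit 195293774138) (nat_lit 76) (nat_lit 41773071417) (nat_lit 76) (nat_lit 13674802510) (nat_lit 3) (nat_lit 4) (nat_lit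 4) (nat_lit 5) (nat_lit 4) (nat_lit 4) (nat_lit 346) (nat_lit 241) (nat_lit 133)) (XT.lf (nat_lit 0) (nat_lit 214768443986) (nat_lit 76) (nat_lit 38168402647) (nat_lit 76) (nat_lit 10063211335) (nat_lit 3) (nat_lit 4) (nat_lit 4) (nat_lit 5) (nat_lit 4) (nat_lit 4) (nat_lit 347) (nat_lit 241) (nat_lit 132)))) (XT.nd (nat_lit 156) (nat_lit 76) (nat_lit 0) (XT.nd (nat_lit 78) (nat_lit 0) (nat_lit 0) (XT.lf (nat_lit 0) (nat_lit 235212247124) (nat_lit 76) (nat_lit 34385528673) (nat_lit 76) (nat_lit 6273744593) (nat_lit 3) (nat_lit 4) (nat_lit 4) (nat_lit 5) (nat_lit 4) (nat_lit 4) (nat_lit 348) (nat_lit 241) (nat_lit 131)) (XT.lf (nat_lit 0) (nat_lit 256673859273) (nat_lit 76) (nat_lit 30415442651) (nat_lit 76) (nat_lit 2297379745) (nat_lit 3) (nat_lit 4) (nat_lit 4) (nat_lit 5) (nat_lit 4) (nat_lit 4) (nat_lit 349) (nat_lit 241) (nat_lit 130))) (XT.nd (nat_lit 78) (nat_lit 0) (nat_lit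 0) (XT.lf (nat_lit 0) (nat_lit 1815327807) (nat_lit 152) (nat_lit 24402620734) (nat_lit 76) (nat_lit 277358308249) (nat_lit 2) (nat_lit 5) (nat_lit 4) (nat_lit 5) (nat_lit 3) (nat_lit 4) (nat_lit 350) (nat_lit 241) (nat_lit 129)) (XT.lf (nat_lit 0) (nat_lit 6054202665) (nat_lit 152) (nat_lit 15718622357) (nat_lit 76) (nat_lit 296700718417) (nat_lit 2) (nat_lit 5) (nat_lit 4) (nat_lit 5) (nat_lit 3) (nat_lit 4) (nat_lit 351) (nat_lit 241) (nat_lit 128))))) (XT.nd (nat_lit 312) (nat_lit 0) (nat_lit 0) (XT.nd (nat_lit 156) (nat_lit 0) (nat_lit 0) (XT.nd (nat_lit 78) (nat_lit 76) (nat_lit 0) (XT.lf (nat_lit 0) (nat_lit 10502867884) (nat_lit 152) (nat_lit 6604282543) (nat_lit 76) (nat_lit 317008654345) (nat_lit 2) (nat_lit 5) (nat_lit 4) (nat_lit 5) (nat_lit 3) (nat_lit 4) (nat_lit 352) (nat_lit 241) (nat_lit 127)) (XT.lf (nat_lit 0) (nat_lit 3060039903) (nat_lit 76) (nat_lit 12159651421)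 (nat_lit 152) (nat_lit 335318204157) (nat_lit 1) (nat_lit 5) (nat_lit 2) (nat_lit 5) (nat_lit 3) (nat_lit 4) (nat_lit 353) (nat_lit 241) (nat_lit 126))) (XT.nd (nat_lit 78) (nat_lit 0) (nat_lit 0) (XT.lf (nat_lit 0) (nat_lit 13433248773) (nat_lit 76) (nat_lit 6848944256) (nat_lit 152) (nat_lit 347493408275) (nat_lit 1) (nat_lit 5) (nat_lit 2) (nat_lit 5) (nat_lit 3) (nat_lit 4) (nat_lit 354) (nat_lit 241) (nat_lit 125)) (XT.lf (nat_lit 0) (nat_lit 24321674778) (nat_lit 76) (nat_lit 1274231110) (nat_lit 152) (nat_lit 360279384546) (nat_lit 1) (nat_lit 5) (nat_lit 2) (nat_lit 5) (nat_lit 3) (nat_lit 4) (nat_lit 355) (nat_lit 241) (nat_lit 124)))) (XT.nd (nat_lit 156) (nat_lit 0) (nat_lit 0) (XT.nd (nat_lit 78) (nat_lit 0) (nat_lit 0) (XT.lf (nat_lit 0) (nat_lit 31244953281) (nat_lit 152) (nat_lit 369200286309) (nat_lit 0) (nat_lit 4431244195) (nat_lit 1) (nat_lit 5) (nat_lit 3) (nat_lit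 4) (nat_lit 1) (nat_lit 4) (nat_lit 356) (nat_lit 241) (nat_lit 123)) (XT.lf (nat_lit 0) (nat_lit 37195584426) (nat_lit 152) (nat_lit 377253369956) (nat_lit 0) (nat_lit 10377827954) (nat_lit 1) (nat_lit 5) (nat_lit 3) (nat_lit 4) (nat_lit 1) (nat_lit 4) (nat_lit 357) (nat_lit 241) (nat_lit 122))) (XT.nd (nat_lit 78) (nat_lit 0) (nat_lit 0) (XT.lf (nat_lit 0) (nat_lit 43442073177) (nat_lit 152) (nat_lit 385712146289) (nat_lit 0) (nat_lit 16620462050) (nat_lit 1) (nat_lit 5) (nat_lit 3) (nat_lit 4) (nat_lit 1) (nat_lit 4) (nat_lit 358) (nat_lit 241) (nat_lit 121)) (XT.nd (nat_lit 78) (nat_lit 0) (nat_lit 0) (XT.lf (nat_lit 0) (nat_lit 49999292126) (nat_lit 152) (nat_lit 394596755250) (nat_lit 0) (nat_lit 23174009899) (nat_lit 1) (nat_lit 5) (nat_lit 3) (nat_lit 4) (nat_lit 1) (nat_lit 4) (nat_lit 359) (nat_lit 241) (nat_lit 120)) (XT.lf (nat_lit 0) (nat_lit 56882853697) (nat_lit 152)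 (nat_lit 403928350670) (nat_lit 0) (nat_lit 30054075185) (nat_lit 1) (nat_lit 5) (nat_lit 3) (nat_lit 4) (nat_lit 1) (nat_lit 4) (nat_lit 360) (nat_lit 241) (nat_lit 119))))))) (XT.nd (nat_lit 28860) (nat_lit 0) (nat_lit 5320) (XT.nd (nat_lit 28470) (nat_lit 0) (nat_lit 7524) (XT.nd (nat_lit 28314) (nat_lit 0) (nat_lit 8056) (XT.nd (nat_lit 28236) (nat_lit 0) (nat_lit 8284) (XT.lf (nat_lit 0) (nat_lit 64109147325) (nat_lit 152) (nat_lit 413729150635) (nat_lit 0) (nat_lit 37277039017) (nat_lit 1) (nat_lit 5) (nat_lit 3) (nat_lit 4) (nat_lit 1) (nat_lit 4) (nat_lit 361) (nat_lit 241) (nat_lit 118)) (XT.lf (nat_lit 0) (nat_lit 1987122581) (nat_lit 228) (nat_lit 629019827) (nat_lit 228) (nat_lit 629019827) (nat_lit 110) (nat_lit 3) (nat_lit 113) (nat_lit 3) (nat_lit 113) (nat_lit 5) (nat_lit 242) (nat_lit 242) (nat_lit 236))) (XT.nd (nat_lit 78) (nat_lit 228) (nat_lit 0) (XT.lf (nat_lit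 76) (nat_lit 1604565194) (nat_lit 0) (nat_lit 4810776907) (nat_lit 228) (nat_lit 104024424) (nat_lit 111) (nat_lit 5) (nat_lit 110) (nat_lit 3) (nat_lit 113) (nat_lit 5) (nat_lit 243) (nat_lit 242) (nat_lit 235)) (XT.lf (nat_lit 0) (nat_lit 2219544216) (nat_lit 228) (nat_lit 2020091953) (nat_lit 304) (nat_lit 2315879798) (nat_lit 107) (nat_lit 5) (nat_lit 110) (nat_lit 3) (nat_lit 111) (nat_lit 5) (nat_lit 244) (nat_lit 242) (nat_lit 234)))) (XT.nd (nat_lit 156) (nat_lit 228) (nat_lit 0) (XT.nd (nat_lit 78) (nat_lit 304) (nat_lit 0) (XT.lf (nat_lit 76) (nat_lit 965692840) (nat_lit 0) (nat_lit 3559453682) (nat_lit 304) (nat_lit 2075710006) (nat_lit 108) (nat_lit 5) (nat_lit 107) (nat_lit 5) (nat_lit 111) (nat_lit 5) (nat_lit 245) (nat_lit 242) (nat_lit 233)) (XT.lf (nat_lit 0) (nat_lit 179594022) (nat_lit 304) (nat_lit 2568171621) (nat_lit 380) (nat_lit 3906737935) (nat_lit 103) (nat_lit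 5) (nat_lit 107) (nat_lit 5) (nat_lit 108) (nat_lit 5) (nat_lit 246) (nat_lit 242) (nat_lit 232))) (XT.nd (nat_lit 78) (nat_lit 228) (nat_lit 0) (XT.lf (nat_lit 76) (nat_lit 552874296) (nat_lit 0) (nat_lit 1797264409) (nat_lit 380) (nat_lit 4366190183) (nat_lit 104) (nat_lit 5) (nat_lit 103) (nat_lit 5) (nat_lit 108) (nat_lit 5) (nat_lit 247) (nat_lit 242) (nat_lit 231)) (XT.nd (nat_lit 78) (nat_lit 228) (nat_lit 0) (XT.lf (nat_lit 76) (nat_lit 3837508593) (nat_lit 0) (nat_lit 704017058) (nat_lit 380) (nat_lit 2244874498) (nat_lit 104) (nat_lit 5) (nat_lit 103) (nat_lit 5) (nat_lit 108) (nat_lit 5) (nat_lit 248) (nat_lit 242) (nat_lit 230)) (XT.lf (nat_lit 0) (nat_lit 345057949) (nat_lit 304) (nat_lit 6385546929) (nat_lit 380) (nat_lit 135697699) (nat_lit 100) (nat_lit 5) (nat_lit 104) (nat_lit 5) (nat_lit 105) (nat_lit 5) (nat_lit 249) (nat_lit 242) (nat_lit 229)))))) (XT.nd (nat_lit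 312) (nat_lit 1216) (nat_lit 0) (XT.nd (nat_lit 156) (nat_lit 532) (nat_lit 0) (XT.nd (nat_lit 78) (nat_lit 380) (nat_lit 0) (XT.lf (nat_lit 0) (nat_lit 1952469387) (nat_lit 380) (nat_lit 3175221301) (nat_lit 76) (nat_lit 1824548545) (nat_lit 99) (nat_lit 5) (nat_lit 104) (nat_lit 5) (nat_lit 100) (nat_lit 5) (nat_lit 250) (nat_lit 242) (nat_lit 228)) (XT.lf (nat_lit 0) (nat_lit 259632312) (nat_lit 380) (nat_lit 3768495840) (nat_lit 456) (nat_lit 3020484998) (nat_lit 94) (nat_lit 5) (nat_lit 99) (nat_lit 5) (nat_lit 100) (nat_lit 5) (nat_lit 251) (nat_lit 242) (nat_lit 227))) (XT.nd (nat_lit 78) (nat_lit 532) (nat_lit 0) (XT.lf (nat_lit 0) (nat_lit 3893272746) (nat_lit 380) (nat_lit 2255905554) (nat_lit 456) (nat_lit 1004150700) (nat_lit 94) (nat_lit 5) (nat_lit 99) (nat_lit 5) (nat_lit 100) (nat_lit 5) (nat_lit 252) (nat_lit 242) (nat_lit 226)) (XT.lf (nat_lit 0) (nat_lit 355943146)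 (nat_lit 456) (nat_lit 617859494) (nat_lit 532) (nat_lit 6294335418) (nat_lit 87) (nat_lit 5) (nat_lit 93) (nat_lit 5) (nat_lit 94) (nat_lit 5) (nat_lit 253) (nat_lit 242) (nat_lit 225)))) (XT.nd (nat_lit 156) (nat_lit 684) (nat_lit 0) (XT.nd (nat_lit 78) (nat_lit 532) (nat_lit 0) (XT.lf (nat_lit 0) (nat_lit 2985375709) (nat_lit 532) (nat_lit 3242761905) (nat_lit 76) (nat_lit 1161824937) (nat_lit 87) (nat_lit 5) (nat_lit 94) (nat_lit 5) (nat_lit 88) (nat_lit 5) (nat_lit 254) (nat_lit 242) (nat_lit 224)) (XT.lf (nat_lit 0) (nat_lit 533089531) (nat_lit 532) (nat_lit 4483028521) (nat_lit 608) (nat_lit 2506327316) (nat_lit 80) (nat_lit 5) (nat_lit 87) (nat_lit 5) (nat_lit 88) (nat_lit 5) (nat_lit 255) (nat_lit 242) (nat_lit 223))) (XT.nd (nat_lit 78) (nat_lit 684) (nat_lit 0) (XT.lf (nat_lit 0) (nat_lit 4527682962) (nat_lit 532) (nat_lit 2579236229) (nat_lit 608) (nat_lit 557180033) (nat_lit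 80) (nat_lit 5) (nat_lit 87) (nat_lit 5) (nat_lit 88) (nat_lit 5) (nat_lit 256) (nat_lit 242) (nat_lit 222)) (XT.nd (nat_lit 78) (nat_lit 0) (nat_lit 0) (XT.lf (nat_lit 0) (nat_lit 830264037) (nat_lit 608) (nat_lit 530705605) (nat_lit 684) (nat_lit 6455171636) (nat_lit 71) (nat_lit 5) (nat_lit 79) (nat_lit 5) (nat_lit 80) (nat_lit 5) (nat_lit 257) (nat_lit 242) (nat_lit 221)) (XT.lf (nat_lit 0) (nat_lit 3345190903) (nat_lit 684) (nat_lit 2990249534) (nat_lit 76) (nat_lit 1640852424) (nat_lit 71) (nat_lit 5) (nat_lit 80) (nat_lit 5) (nat_lit 72) (nat_lit 5) (nat_lit 258) (nat_lit 242) (nat_lit 220))))))))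
noncomputable def xc117 : XT := (XT.nd (nat_lit 1326) (nat_lit 1292) (nat_lit 0) (XT.nd (nat_lit 624) (nat_lit 1292) (nat_lit 0) (XT.nd (nat_lit 312) (nat_lit 684) (nat_lit 0) (XT.nd (nat_lit 156) (nat_lit 380) (nat_lit 0) (XT.nd (nat_lit 78) (nat_lit 0) (nat_lit 0) (XT.lf (nat_lit 0) (nat_lit 1151420648) (nat_lit 684) (nat_lit 4217788944) (nat_lit 760) (nat_lit 2778602234) (nat_lit 62) (nat_lit 5) (nat_lit 71) (nat_lit 5) (nat_lit 72) (nat_lit 5) (nat_lit 259) (nat_lit 242) (nat_lit 219)) (XT.lf (nat_lit 0) (nat_lit 5523418411) (nat_lit 684) (nat_lit 1938403121) (nat_lit 760) (nat_lit 868086186) (nat_lit 62) (nat_lit 5) (nat_lit 71) (nat_lit 5) (nat_lit 72) (nat_lit 5) (nat_lit 260) (nat_lit 242) (nat_lit 218))) (XT.nd (nat_lit 78) (nat_lit 0) (nat_lit 0) (XT.lf (nat_lit 0) (nat_lit 1052535242) (nat_lit 380) (nat_lit 6986365081) (nat_lit 76) (nat_lit 484105821) (nat_lit 57) (nat_lit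 5) (nat_lit 62) (nat_lit 5) (nat_lit 58) (nat_lit 5) (nat_lit 261) (nat_lit 242) (nat_lit 217)) (XT.lf (nat_lit 0) (nat_lit 3041799829) (nat_lit 380) (nat_lit 2658499415) (nat_lit 76) (nat_lit 3024979562) (nat_lit 57) (nat_lit 5) (nat_lit 62) (nat_lit 5) (nat_lit 58) (nat_lit 5) (nat_lit 262) (nat_lit 242) (nat_lit 216)))) (XT.nd (nat_lit 156) (nat_lit 380) (nat_lit 0) (XT.nd (nat_lit 78) (nat_lit 0) (nat_lit 0) (XT.lf (nat_lit 0) (nat_lit 1866752885) (nat_lit 304) (nat_lit 3218348529) (nat_lit 380) (nat_lit 3855139885) (nat_lit 53) (nat_lit 5) (nat_lit 57) (nat_lit 5) (nat_lit 58) (nat_lit 5) (nat_lit 263) (nat_lit 242) (nat_lit 215)) (XT.lf (nat_lit 0) (nat_lit 6633080730) (nat_lit 304) (nat_lit 570280128) (nat_lit 380) (nat_lit 1964241791) (nat_lit 53) (nat_lit 5) (nat_lit 57) (nat_lit 5) (nat_lit 58) (nat_lit 5) (nat_lit 264) (nat_lit 242) (nat_lit 214))) (XT.nd (nat_lit 78) (nat_lit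 0) (nat_lit 0) (XT.lf (nat_lit 0) (nat_lit 20075276) (nat_lit 380) (nat_lit 7217409327) (nat_lit 76) (nat_lit 2169116651) (nat_lit 48) (nat_lit 5) (nat_lit 53) (nat_lit 5) (nat_lit 49) (nat_lit 5) (nat_lit 265) (nat_lit 242) (nat_lit 213)) (XT.lf (nat_lit 0) (nat_lit 2022444229) (nat_lit 380) (nat_lit 2539259434) (nat_lit 76) (nat_lit 5095244555) (nat_lit 48) (nat_lit 5) (nat_lit 53) (nat_lit 5) (nat_lit 49) (nat_lit 5) (nat_lit 266) (nat_lit 242) (nat_lit 212))))) (XT.nd (nat_lit 312) (nat_lit 684) (nat_lit 0) (XT.nd (nat_lit 156) (nat_lit 304) (nat_lit 0) (XT.nd (nat_lit 78) (nat_lit 0) (nat_lit 0) (XT.lf (nat_lit 0) (nat_lit 2373835559) (nat_lit 304) (nat_lit 1723274070) (nat_lit 380) (nat_lit 5824332888) (nat_lit 44) (nat_lit 5) (nat_lit 48) (nat_lit 5) (nat_lit 49) (nat_lit 5) (nat_lit 267) (nat_lit 242) (nat_lit 211)) (XT.lf (nat_lit 0) (nat_lit 6275729315) (nat_lit 380) (nat_lit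 2673537815) (nat_lit 76) (nat_lit 1250110862) (nat_lit 44) (nat_lit 5) (nat_lit 49) (nat_lit 5) (nat_lit 45) (nat_lit 5) (nat_lit 268) (nat_lit 242) (nat_lit 210))) (XT.nd (nat_lit 78) (nat_lit 76) (nat_lit 0) (XT.lf (nat_lit 0) (nat_lit 2420171026) (nat_lit 228) (nat_lit 6149036391) (nat_lit 304) (nat_lit 1921923131) (nat_lit 41) (nat_lit 5) (nat_lit 44) (nat_lit 5) (nat_lit 45) (nat_lit 5) (nat_lit 269) (nat_lit 242) (nat_lit 209)) (XT.lf (nat_lit 0) (nat_lit 160622515) (nat_lit 304) (nat_lit 3011630094) (nat_lit 76) (nat_lit 7625949659) (nat_lit 40) (nat_lit 5) (nat_lit 44) (nat_lit 5) (nat_lit 41) (nat_lit 5) (nat_lit 270) (nat_lit 242) (nat_lit 208)))) (XT.nd (nat_lit 156) (nat_lit 456) (nat_lit 0) (XT.nd (nat_lit 78) (nat_lit 0) (nat_lit 0) (XT.lf (nat_lit 0) (nat_lit 2261621839) (nat_lit 304) (nat_lit 8849323662) (nat_lit 76) (nat_lit 9348119) (nat_lit 37) (nat_lit 5) (nat_lit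 41) (nat_lit 5) (nat_lit 38) (nat_lit 5) (nat_lit 271) (nat_lit 242) (nat_lit 207)) (XT.lf (nat_lit 0) (nat_lit 4516207950) (nat_lit 304) (nat_lit 3658808750) (nat_lit 76) (nat_lit 3281224260) (nat_lit 37) (nat_lit 5) (nat_lit 41) (nat_lit 5) (nat_lit 38) (nat_lit 5) (nat_lit 272) (nat_lit 242) (nat_lit 206))) (XT.nd (nat_lit 78) (nat_lit 228) (nat_lit 0) (XT.lf (nat_lit 0) (nat_lit 1779337900) (nat_lit 228) (nat_lit 5079292721) (nat_lit 304) (nat_lit 4951769457) (nat_lit 34) (nat_lit 5) (nat_lit 37) (nat_lit 5) (nat_lit 38) (nat_lit 5) (nat_lit 273) (nat_lit 242) (nat_lit 205)) (XT.nd (nat_lit 78) (nat_lit 228) (nat_lit 0) (XT.lf (nat_lit 0) (nat_lit 7548683916) (nat_lit 228) (nat_lit 1780231749) (nat_lit 304) (nat_lit 2852976114) (nat_lit 34) (nat_lit 5) (nat_lit 37) (nat_lit 5) (nat_lit 38) (nat_lit 5) (nat_lit 274) (nat_lit 242) (nat_lit 204)) (XT.lf (nat_lit 0) (nat_lit 972521589)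 (nat_lit 228) (nat_lit 10942636916) (nat_lit 304) (nat_lit 657331370) (nat_lit 31) (nat_lit 5) (nat_lit 34) (nat_lit 5) (nat_lit 35) (nat_lit 5) (nat_lit 275) (nat_lit 242) (nat_lit 203))))))) (XT.nd (nat_lit 702) (nat_lit 608) (nat_lit 0) (XT.nd (nat_lit 312) (nat_lit 456) (nat_lit 0) (XT.nd (nat_lit 156) (nat_lit 152) (nat_lit 0) (XT.nd (nat_lit 78) (nat_lit 0) (nat_lit 0) (XT.lf (nat_lit 0) (nat_lit 1655636979) (nat_lit 304) (nat_lit 6083029980) (nat_lit 76) (nat_lit 5239789485) (nat_lit 30) (nat_lit 5) (nat_lit 34) (nat_lit 5) (nat_lit 31) (nat_lit 5) (nat_lit 276) (nat_lit 242) (nat_lit 202)) (XT.lf (nat_lit 0) (nat_lit 4015834204) (nat_lit 304) (nat_lit 365330749) (nat_lit 76) (nat_lit 9025467058) (nat_lit 30) (nat_lit 5) (nat_lit 34) (nat_lit 5) (nat_lit 31) (nat_lit 5) (nat_lit 277) (nat_lit 242) (nat_lit 201))) (XT.nd (nat_lit 78) (nat_lit 0) (nat_lit 0) (XT.lf (nat_lit 0)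 (nat_lit 5761406754) (nat_lit 152) (nat_lit 778463481) (nat_lit 228) (nat_lit 7314181362) (nat_lit 28) (nat_lit 5) (nat_lit 30) (nat_lit 5) (nat_lit 31) (nat_lit 5) (nat_lit 278) (nat_lit 242) (nat_lit 200)) (XT.lf (nat_lit 0) (nat_lit 9200070672) (nat_lit 228) (nat_lit 2225634866) (nat_lit 76) (nat_lit 2897759149) (nat_lit 28) (nat_lit 5) (nat_lit 31) (nat_lit 5) (nat_lit 29) (nat_lit 5) (nat_lit 279) (nat_lit 242) (nat_lit 199)))) (XT.nd (nat_lit 156) (nat_lit 228) (nat_lit 0) (XT.nd (nat_lit 78) (nat_lit 0) (nat_lit 0) (XT.lf (nat_lit 0) (nat_lit 3990387383) (nat_lit 228) (nat_lit 8036782705) (nat_lit 304) (nat_lit 2787598804) (nat_lit 25) (nat_lit 5) (nat_lit 28) (nat_lit 5) (nat_lit 29) (nat_lit 5) (nat_lit 280) (nat_lit 242) (nat_lit 198)) (XT.lf (nat_lit 0) (nat_lit 10536142270) (nat_lit 228) (nat_lit 4457050390) (nat_lit 304) (nat_lit 337676675) (nat_lit 25) (nat_lit 5) (nat_lit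 28) (nat_lit 5) (nat_lit 29) (nat_lit 5) (nat_lit 281) (nat_lit 242) (nat_lit 197))) (XT.nd (nat_lit 78) (nat_lit 0) (nat_lit 0) (XT.lf (nat_lit 0) (nat_lit 1492337298) (nat_lit 152) (nat_lit 655237452) (nat_lit 228) (nat_lit 13724336840) (nat_lit 22) (nat_lit 5) (nat_lit 24) (nat_lit 5) (nat_lit 25) (nat_lit 5) (nat_lit 282) (nat_lit 242) (nat_lit 196)) (XT.nd (nat_lit 78) (nat_lit 0) (nat_lit 0) (XT.lf (nat_lit 0) (nat_lit 4842124300) (nat_lit 228) (nat_lit 8292428853) (nat_lit 76) (nat_lit 3300451373) (nat_lit 22) (nat_lit 5) (nat_lit 25) (nat_lit 5) (nat_lit 23) (nat_lit 5) (nat_lit 283) (nat_lit 242) (nat_lit 195)) (XT.lf (nat_lit 0) (nat_lit 7645720833) (nat_lit 228) (nat_lit 1966656658) (nat_lit 76) (nat_lit 7415248674) (nat_lit 22) (nat_lit 5) (nat_lit 25) (nat_lit 5) (nat_lit 23) (nat_lit 5) (nat_lit 284) (nat_lit 242) (nat_lit 194)))))) (XT.nd (nat_lit 312) (nat_lit 228) (nat_lit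 0) (XT.nd (nat_lit 156) (nat_lit 228) (nat_lit 0) (XT.nd (nat_lit 78) (nat_lit 0) (nat_lit 0) (XT.lf (nat_lit 0) (nat_lit 4775892119) (nat_lit 152) (nat_lit 5853482429) (nat_lit 228) (nat_lit 7018596219) (nat_lit 20) (nat_lit 5) (nat_lit 22) (nat_lit 5) (nat_lit 23) (nat_lit 5) (nat_lit 285) (nat_lit 242) (nat_lit 193)) (XT.lf (nat_lit 0) (nat_lit 11872320498) (nat_lit 152) (nat_lit 1889356363) (nat_lit 228) (nat_lit 4537764106) (nat_lit 20) (nat_lit 5) (nat_lit 22) (nat_lit 5) (nat_lit 23) (nat_lit 5) (nat_lit 286) (nat_lit 242) (nat_lit 192))) (XT.nd (nat_lit 78) (nat_lit 76) (nat_lit 0) (XT.lf (nat_lit 0) (nat_lit 262501415) (nat_lit 152) (nat_lit 16795186889) (nat_lit 228) (nat_lit 1925519447) (nat_lit 18) (nat_lit 5) (nat_lit 20) (nat_lit 5) (nat_lit 21) (nat_lit 4) (nat_lit 287) (nat_lit 242) (nat_lit 191)) (XT.lf (nat_lit 0) (nat_lit 900469287) (nat_lit 228) (nat_lit 12282322201)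 (nat_lit 76) (nat_lit 6512339297) (nat_lit 17) (nat_lit 5) (nat_lit 20) (nat_lit 5) (nat_lit 18) (nat_lit 5) (nat_lit 288) (nat_lit 242) (nat_lit 190)))) (XT.nd (nat_lit 156) (nat_lit 76) (nat_lit 0) (XT.nd (nat_lit 78) (nat_lit 152) (nat_lit 0) (XT.lf (nat_lit 0) (nat_lit 3772273977) (nat_lit 228) (nat_lit 5601987418) (nat_lit 76) (nat_lit 11068416135) (nat_lit 17) (nat_lit 5) (nat_lit 20) (nat_lit 5) (nat_lit 18) (nat_lit 5) (nat_lit 289) (nat_lit 242) (nat_lit 189)) (XT.lf (nat_lit 0) (nat_lit 1411441261) (nat_lit 152) (nat_lit 5368956192) (nat_lit 228) (nat_lit 14447631718) (nat_lit 15) (nat_lit 5) (nat_lit 17) (nat_lit 5) (nat_lit 18) (nat_lit 5) (nat_lit 290) (nat_lit 242) (nat_lit 188))) (XT.nd (nat_lit 78) (nat_lit 76) (nat_lit 0) (XT.lf (nat_lit 0) (nat_lit 8924675463) (nat_lit 152) (nat_lit 1080503519) (nat_lit 228) (nat_lit 12044217758) (nat_lit 15) (nat_lit 5) (nat_lit 17)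 (nat_lit 5) (nat_lit 18) (nat_lit 5) (nat_lit 291) (nat_lit 242) (nat_lit 187)) (XT.nd (nat_lit 78) (nat_lit 76) (nat_lit 0) (XT.lf (nat_lit 0) (nat_lit 13417125972) (nat_lit 228) (nat_lit 6196060761) (nat_lit 76) (nat_lit 3297407669) (nat_lit 15) (nat_lit 5) (nat_lit 18) (nat_lit 5) (nat_lit 16) (nat_lit 4) (nat_lit 292) (nat_lit 242) (nat_lit 186)) (XT.lf (nat_lit 0) (nat_lit 1052760581) (nat_lit 76) (nat_lit 15954862846) (nat_lit 152) (nat_lit 6806886140) (nat_lit 14) (nat_lit 5) (nat_lit 15) (nat_lit 5) (nat_lit 16) (nat_lit 4) (nat_lit 293) (nat_lit 242) (nat_lit 185))))))))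
noncomputable def xc118 : XT := (XT.nd (nat_lit 1326) (nat_lit 228) (nat_lit 0) (XT.nd (nat_lit 624) (nat_lit 228) (nat_lit 0) (XT.nd (nat_lit 312) (nat_lit 76) (nat_lit 0) (XT.nd (nat_lit 156) (nat_lit 228) (nat_lit 0) (XT.nd (nat_lit 78) (nat_lit 0) (nat_lit 0) (XT.lf (nat_lit 0) (nat_lit 8837563807) (nat_lit 76) (nat_lit 12019417032) (nat_lit 152) (nat_lit 3902725538) (nat_lit 14) (nat_lit 5) (nat_lit 15) (nat_lit 5) (nat_lit 16) (nat_lit 4) (nat_lit 294) (nat_lit 242) (nat_lit 184)) (XT.lf (nat_lit 0) (nat_lit 16972014409) (nat_lit 76) (nat_lit 7902412469) (nat_lit 152) (nat_lit 879005245) (nat_lit 14) (nat_lit 5) (nat_lit 15) (nat_lit 5) (nat_lit 16) (nat_lit 4) (nat_lit 295) (nat_lit 242) (nat_lit 183))) (XT.nd (nat_lit 78) (nat_lit 152) (nat_lit 0) (XT.lf (nat_lit 0) (nat_lit 2198772716) (nat_lit 152) (nat_lit 1358036769) (nat_lit 76) (nat_lit 23239470132) (nat_lit 13) (nat_lit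 5) (nat_lit 15) (nat_lit 5) (nat_lit 14) (nat_lit 5) (nat_lit 296) (nat_lit 242) (nat_lit 182)) (XT.lf (nat_lit 0) (nat_lit 5498781231) (nat_lit 228) (nat_lit 21307445702) (nat_lit 76) (nat_lit 1079471264) (nat_lit 11) (nat_lit 5) (nat_lit 14) (nat_lit 5) (nat_lit 12) (nat_lit 4) (nat_lit 297) (nat_lit 242) (nat_lit 181)))) (XT.nd (nat_lit 156) (nat_lit 76) (nat_lit 0) (XT.nd (nat_lit 78) (nat_lit 0) (nat_lit 0) (XT.lf (nat_lit 0) (nat_lit 9023243858) (nat_lit 228) (nat_lit 14165648414) (nat_lit 76) (nat_lit 5837763997) (nat_lit 11) (nat_lit 5) (nat_lit 14) (nat_lit 5) (nat_lit 12) (nat_lit 4) (nat_lit 298) (nat_lit 242) (nat_lit 180)) (XT.lf (nat_lit 0) (nat_lit 12702757512) (nat_lit 228) (nat_lit 6702027419) (nat_lit 76) (nat_lit 10820975198) (nat_lit 11) (nat_lit 5) (nat_lit 14) (nat_lit 5) (nat_lit 12) (nat_lit 4) (nat_lit 299) (nat_lit 242) (nat_lit 179))) (XT.nd (nat_lit 78) (nat_lit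 0) (nat_lit 0) (XT.lf (nat_lit 0) (nat_lit 1137598049) (nat_lit 76) (nat_lit 15426245985) (nat_lit 152) (nat_lit 14921132702) (nat_lit 10) (nat_lit 5) (nat_lit 11) (nat_lit 5) (nat_lit 12) (nat_lit 4) (nat_lit 300) (nat_lit 242) (nat_lit 178)) (XT.lf (nat_lit 0) (nat_lit 9568838955) (nat_lit 76) (nat_lit 11142928356) (nat_lit 152) (nat_lit 12090733370) (nat_lit 10) (nat_lit 5) (nat_lit 11) (nat_lit 5) (nat_lit 12) (nat_lit 4) (nat_lit 301) (nat_lit 242) (nat_lit 177))))) (XT.nd (nat_lit 312) (nat_lit 76) (nat_lit 0) (XT.nd (nat_lit 156) (nat_lit 152) (nat_lit 0) (XT.nd (nat_lit 78) (nat_lit 0) (nat_lit 0) (XT.lf (nat_lit 0) (nat_lit 18390170387) (nat_lit 76) (nat_lit 6658135745) (nat_lit 152) (nat_lit 9138567653) (nat_lit 10) (nat_lit 5) (nat_lit 11) (nat_lit 5) (nat_lit 12) (nat_lit 4) (nat_lit 302) (nat_lit 242) (nat_lit 176)) (XT.lf (nat_lit 0) (nat_lit 27622595517) (nat_lit 76)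 (nat_lit 1961190077) (nat_lit 152) (nat_lit 6057606586) (nat_lit 10) (nat_lit 5) (nat_lit 11) (nat_lit 5) (nat_lit 12) (nat_lit 4) (nat_lit 303) (nat_lit 242) (nat_lit 175))) (XT.nd (nat_lit 78) (nat_lit 76) (nat_lit 0) (XT.lf (nat_lit 0) (nat_lit 74770720) (nat_lit 76) (nat_lit 34301600830) (nat_lit 76) (nat_lit 2790779094) (nat_lit 9) (nat_lit 4) (nat_lit 10) (nat_lit 5) (nat_lit 10) (nat_lit 4) (nat_lit 304) (nat_lit 242) (nat_lit 174)) (XT.lf (nat_lit 0) (nat_lit 771956078) (nat_lit 152) (nat_lit 29984727078) (nat_lit 76) (nat_lit 8004391121) (nat_lit 8) (nat_lit 5) (nat_lit 10) (nat_lit 5) (nat_lit 9) (nat_lit 4) (nat_lit 305) (nat_lit 242) (nat_lit 173)))) (XT.nd (nat_lit 156) (nat_lit 76) (nat_lit 0) (XT.nd (nat_lit 78) (nat_lit 0) (nat_lit 0) (XT.lf (nat_lit 0) (nat_lit 4402707767) (nat_lit 152) (nat_lit 22595414974) (nat_lit 76) (nat_lit 13435127002) (nat_lit 8) (nat_lit 5)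 (nat_lit 10) (nat_lit 5) (nat_lit 9) (nat_lit 4) (nat_lit 306) (nat_lit 242) (nat_lit 172)) (XT.lf (nat_lit 0) (nat_lit 8199442980) (nat_lit 152) (nat_lit 14863278130) (nat_lit 76) (nat_lit 19127115897) (nat_lit 8) (nat_lit 5) (nat_lit 10) (nat_lit 5) (nat_lit 9) (nat_lit 4) (nat_lit 307) (nat_lit 242) (nat_lit 171))) (XT.nd (nat_lit 78) (nat_lit 76) (nat_lit 0) (XT.lf (nat_lit 0) (nat_lit 12171201563) (nat_lit 152) (nat_lit 6769906696) (nat_lit 76) (nat_lit 25093910160) (nat_lit 8) (nat_lit 5) (nat_lit 10) (nat_lit 5) (nat_lit 9) (nat_lit 4) (nat_lit 308) (nat_lit 242) (nat_lit 170)) (XT.nd (nat_lit 78) (nat_lit 0) (nat_lit 0) (XT.lf (nat_lit 0) (nat_lit 1760310178) (nat_lit 76) (nat_lit 14594613279) (nat_lit 152) (nat_lit 29616889643) (nat_lit 7) (nat_lit 5) (nat_lit 8) (nat_lit 5) (nat_lit 9) (nat_lit 4) (nat_lit 309) (nat_lit 242) (nat_lit 169)) (XT.lf (nat_lit 0) (nat_lit 10928299464)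 (nat_lit 76) (nat_lit 9920376263) (nat_lit 152) (nat_lit 27151751448) (nat_lit 7) (nat_lit 5) (nat_lit 8) (nat_lit 5) (nat_lit 9) (nat_lit 4) (nat_lit 310) (nat_lit 242) (nat_lit 168))))))) (XT.nd (nat_lit 702) (nat_lit 76) (nat_lit 0) (XT.nd (nat_lit 312) (nat_lit 152) (nat_lit 0) (XT.nd (nat_lit 156) (nat_lit 0) (nat_lit 0) (XT.nd (nat_lit 78) (nat_lit 0) (nat_lit 0) (XT.lf (nat_lit 0) (nat_lit 20532046017) (nat_lit 76) (nat_lit 5021919720) (nat_lit 152) (nat_lit 24577184542) (nat_lit 7) (nat_lit 5) (nat_lit 8) (nat_lit 5) (nat_lit 9) (nat_lit 4) (nat_lit 311) (nat_lit 242) (nat_lit 167)) (XT.lf (nat_lit 0) (nat_lit 30483751740) (nat_lit 152) (nat_lit 21776394843) (nat_lit 0) (nat_lit 108821219) (nat_lit 7) (nat_lit 5) (nat_lit 9) (nat_lit 4) (nat_lit 7) (nat_lit 4) (nat_lit 312) (nat_lit 242) (nat_lit 166))) (XT.nd (nat_lit 78) (nat_lit 0) (nat_lit 0) (XT.lf (nat_lit 0) (nat_lit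 35730291851) (nat_lit 152) (nat_lit 13665894483) (nat_lit 0) (nat_lit 5318995523) (nat_lit 7) (nat_lit 5) (nat_lit 9) (nat_lit 4) (nat_lit 7) (nat_lit 4) (nat_lit 313) (nat_lit 242) (nat_lit 165)) (XT.lf (nat_lit 0) (nat_lit 41227671591) (nat_lit 152) (nat_lit 5169886228) (nat_lit 0) (nat_lit 10781741161) (nat_lit 7) (nat_lit 5) (nat_lit 9) (nat_lit 4) (nat_lit 7) (nat_lit 4) (nat_lit 314) (nat_lit 242) (nat_lit 164)))) (XT.nd (nat_lit 156) (nat_lit 76) (nat_lit 0) (XT.nd (nat_lit 78) (nat_lit 0) (nat_lit 0) (XT.lf (nat_lit 0) (nat_lit 3855250610) (nat_lit 76) (nat_lit 43193920615) (nat_lit 76) (nat_lit 12715005326) (nat_lit 6) (nat_lit 4) (nat_lit 7) (nat_lit 5) (nat_lit 7) (nat_lit 4) (nat_lit 315) (nat_lit 242) (nat_lit 163)) (XT.lf (nat_lit 0) (nat_lit 13492374623) (nat_lit 76) (nat_lit 39746213513) (nat_lit 76) (nat_lit 9235884072) (nat_lit 6) (nat_lit 4) (nat_lit 7) (nat_lit 5)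 (nat_lit 7) (nat_lit 4) (nat_lit 316) (nat_lit 242) (nat_lit 162))) (XT.nd (nat_lit 78) (nat_lit 76) (nat_lit 0) (XT.lf (nat_lit 0) (nat_lit 23593491558) (nat_lit 76) (nat_lit 36133782211) (nat_lit 76) (nat_lit 5593534530) (nat_lit 6) (nat_lit 4) (nat_lit 7) (nat_lit 5) (nat_lit 7) (nat_lit 4) (nat_lit 317) (nat_lit 242) (nat_lit 161)) (XT.nd (nat_lit 78) (nat_lit 76) (nat_lit 0) (XT.lf (nat_lit 0) (nat_lit 34182651693) (nat_lit 76) (nat_lit 32348025682) (nat_lit 76) (nat_lit 1779284440) (nat_lit 6) (nat_lit 4) (nat_lit 7) (nat_lit 5) (nat_lit 7) (nat_lit 4) (nat_lit 318) (nat_lit 242) (nat_lit 160)) (XT.lf (nat_lit 0) (nat_lit 2145023579) (nat_lit 152) (nat_lit 26198579629) (nat_lit 76) (nat_lit 43103716723) (nat_lit 5) (nat_lit 5) (nat_lit 7) (nat_lit 5) (nat_lit 6) (nat_lit 4) (nat_lit 319) (nat_lit 242) (nat_lit 159)))))) (XT.nd (nat_lit 312) (nat_lit 0) (nat_lit 0) (XT.nd (nat_lit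 156) (nat_lit 76) (nat_lit 0) (XT.nd (nat_lit 78) (nat_lit 0) (nat_lit 0) (XT.lf (nat_lit 0) (nat_lit 6196780924) (nat_lit 152) (nat_lit 17918321573) (nat_lit 76) (nat_lit 50625446337) (nat_lit 5) (nat_lit 5) (nat_lit 7) (nat_lit 5) (nat_lit 6) (nat_lit 4) (nat_lit 320) (nat_lit 242) (nat_lit 158)) (XT.lf (nat_lit 0) (nat_lit 10442582848) (nat_lit 152) (nat_lit 9239041437) (nat_lit 76) (nat_lit 58517254241) (nat_lit 5) (nat_lit 5) (nat_lit 7) (nat_lit 5) (nat_lit 6) (nat_lit 4) (nat_lit 321) (nat_lit 242) (nat_lit 157))) (XT.nd (nat_lit 78) (nat_lit 76) (nat_lit 0) (XT.lf (nat_lit 0) (nat_lit 14892538405) (nat_lit 152) (nat_lit 140074270) (nat_lit 76) (nat_lit 66797930452) (nat_lit 5) (nat_lit 5) (nat_lit 7) (nat_lit 5) (nat_lit 6) (nat_lit 4) (nat_lit 322) (nat_lit 242) (nat_lit 156)) (XT.lf (nat_lit 0) (nat_lit 9711058660) (nat_lit 76) (nat_lit 9997800906) (nat_lit 152) (nat_lit 65927749047)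 (nat_lit 4) (nat_lit 5) (nat_lit 5) (nat_lit 5) (nat_lit 6) (nat_lit 4) (nat_lit 323) (nat_lit 242) (nat_lit 155)))) (XT.nd (nat_lit 156) (nat_lit 0) (nat_lit 0) (XT.nd (nat_lit 78) (nat_lit 0) (nat_lit 0) (XT.lf (nat_lit 0) (nat_lit 20046233489) (nat_lit 76) (nat_lit 4714546644) (nat_lit 152) (nat_lit 64872468594) (nat_lit 4) (nat_lit 5) (nat_lit 5) (nat_lit 5) (nat_lit 6) (nat_lit 4) (nat_lit 324) (nat_lit 242) (nat_lit 154)) (XT.lf (nat_lit 0) (nat_lit 30070986590) (nat_lit 152) (nat_lit 62957583319) (nat_lit 0) (nat_lit 800876467) (nat_lit 4) (nat_lit 5) (nat_lit 6) (nat_lit 4) (nat_lit 4) (nat_lit 4) (nat_lit 325) (nat_lit 242) (nat_lit 153))) (XT.nd (nat_lit 78) (nat_lit 0) (nat_lit 0) (XT.lf (nat_lit 0) (nat_lit 35717025704) (nat_lit 152) (nat_lit 56086373252) (nat_lit 0) (nat_lit 6428548377) (nat_lit 4) (nat_lit 5) (nat_lit 6) (nat_lit 4) (nat_lit 4) (nat_lit 4) (nat_lit 326)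 (nat_lit 242) (nat_lit 152)) (XT.nd (nat_lit 78) (nat_lit 0) (nat_lit 0) (XT.lf (nat_lit 0) (nat_lit 41638733140) (nat_lit 152) (nat_lit 48883417730) (nat_lit 0) (nat_lit 12332763239) (nat_lit 4) (nat_lit 5) (nat_lit 6) (nat_lit 4) (nat_lit 4) (nat_lit 4) (nat_lit 327) (nat_lit 242) (nat_lit 151)) (XT.lf (nat_lit 0) (nat_lit 47850208203) (nat_lit 152) (nat_lit 41331566858) (nat_lit 0) (nat_lit 18527578706) (nat_lit 4) (nat_lit 5) (nat_lit 6) (nat_lit 4) (nat_lit 4) (nat_lit 4) (nat_lit 328) (nat_lit 242) (nat_lit 150))))))))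
noncomputable def xc119 : XT := (XT.nd (nat_lit 1326) (nat_lit 152) (nat_lit 0) (XT.nd (nat_lit 624) (nat_lit 0) (nat_lit 0) (XT.nd (nat_lit 312) (nat_lit 76) (nat_lit 0) (XT.nd (nat_lit 156) (nat_lit 0) (nat_lit 0) (XT.nd (nat_lit 78) (nat_lit 0) (nat_lit 0) (XT.lf (nat_lit 0) (nat_lit 54366240118) (nat_lit 152) (nat_lit 33412840039) (nat_lit 0) (nat_lit 25027744340) (nat_lit 4) (nat_lit 5) (nat_lit 6) (nat_lit 4) (nat_lit 4) (nat_lit 4) (nat_lit 329) (nat_lit 242) (nat_lit 149)) (XT.lf (nat_lit 0) (nat_lit 61202343247) (nat_lit 152) (nat_lit 25108383161) (nat_lit 0) (nat_lit 31848736725) (nat_lit 4) (nat_lit 5) (nat_lit 6) (nat_lit 4) (nat_lit 4) (nat_lit 4) (nat_lit 330) (nat_lit 242) (nat_lit 148))) (XT.nd (nat_lit 78) (nat_lit 0) (nat_lit 0) (XT.lf (nat_lit 0) (nat_lit 68374794026) (nat_lit 152) (nat_lit 16398423708) (nat_lit 0) (nat_lit 39006796319) (nat_lit 4) (nat_lit 5) (nat_lit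 6) (nat_lit 4) (nat_lit 4) (nat_lit 4) (nat_lit 331) (nat_lit 242) (nat_lit 147)) (XT.lf (nat_lit 0) (nat_lit 75900669719) (nat_lit 152) (nat_lit 7262223681) (nat_lit 0) (nat_lit 46518966122) (nat_lit 4) (nat_lit 5) (nat_lit 6) (nat_lit 4) (nat_lit 4) (nat_lit 4) (nat_lit 332) (nat_lit 242) (nat_lit 146)))) (XT.nd (nat_lit 156) (nat_lit 0) (nat_lit 0) (XT.nd (nat_lit 78) (nat_lit 0) (nat_lit 0) (XT.lf (nat_lit 0) (nat_lit 2398744582) (nat_lit 76) (nat_lit 81436595621) (nat_lit 76) (nat_lit 52041838795) (nat_lit 3) (nat_lit 4) (nat_lit 4) (nat_lit 5) (nat_lit 4) (nat_lit 4) (nat_lit 333) (nat_lit 242) (nat_lit 145)) (XT.lf (nat_lit 0) (nat_lit 12786214900) (nat_lit 76) (nat_lit 79498668753) (nat_lit 76) (nat_lit 50091480281) (nat_lit 3) (nat_lit 4) (nat_lit 4) (nat_lit 5) (nat_lit 4) (nat_lit 4) (nat_lit 334) (nat_lit 242) (nat_lit 144))) (XT.nd (nat_lit 78) (nat_lit 0) (nat_lit 0) (XT.lf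 (nat_lit 0) (nat_lit 23684797432) (nat_lit 76) (nat_lit 77467487959) (nat_lit 76) (nat_lit 48048459823) (nat_lit 3) (nat_lit 4) (nat_lit 4) (nat_lit 5) (nat_lit 4) (nat_lit 4) (nat_lit 335) (nat_lit 242) (nat_lit 143)) (XT.lf (nat_lit 0) (nat_lit 35120441182) (nat_lit 76) (nat_lit 75338217092) (nat_lit 76) (nat_lit 45907913087) (nat_lit 3) (nat_lit 4) (nat_lit 4) (nat_lit 5) (nat_lit 4) (nat_lit 4) (nat_lit 336) (nat_lit 242) (nat_lit 142))))) (XT.nd (nat_lit 312) (nat_lit 0) (nat_lit 0) (XT.nd (nat_lit 156) (nat_lit 0) (nat_lit 0) (XT.nd (nat_lit 78) (nat_lit 0) (nat_lit 0) (XT.lf (nat_lit 0) (nat_lit 47120373876) (nat_lit 76) (nat_lit 73105786462) (nat_lit 76) (nat_lit 43664743533) (nat_lit 3) (nat_lit 4) (nat_lit 4) (nat_lit 5) (nat_lit 4) (nat_lit 4) (nat_lit 337) (nat_lit 242) (nat_lit 141)) (XT.lf (nat_lit 0) (nat_lit 59713166780) (nat_lit 76) (nat_lit 70764880757) (nat_lit 76)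 (nat_lit 41313610281) (nat_lit 3) (nat_lit 4) (nat_lit 4) (nat_lit 5) (nat_lit 4) (nat_lit 4) (nat_lit 338) (nat_lit 242) (nat_lit 140))) (XT.nd (nat_lit 78) (nat_lit 0) (nat_lit 0) (XT.lf (nat_lit 0) (nat_lit 72928802736) (nat_lit 76) (nat_lit 68309926391) (nat_lit 76) (nat_lit 38848915395) (nat_lit 3) (nat_lit 4) (nat_lit 4) (nat_lit 5) (nat_lit 4) (nat_lit 4) (nat_lit 339) (nat_lit 242) (nat_lit 139)) (XT.lf (nat_lit 0) (nat_lit 86798747542) (nat_lit 76) (nat_lit 65735078235) (nat_lit 76) (nat_lit 36264790553) (nat_lit 3) (nat_lit 4) (nat_lit 4) (nat_lit 5) (nat_lit 4) (nat_lit 4) (nat_lit 340) (nat_lit 242) (nat_lit 138)))) (XT.nd (nat_lit 156) (nat_lit 0) (nat_lit 0) (XT.nd (nat_lit 78) (nat_lit 0) (nat_lit 0) (XT.lf (nat_lit 0) (nat_lit 101356024878) (nat_lit 76) (nat_lit 63034205700) (nat_lit 76) (nat_lit 33555083078) (nat_lit 3) (nat_lit 4) (nat_lit 4) (nat_lit 5) (nat_lit 4)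 (nat_lit 4) (nat_lit 341) (nat_lit 242) (nat_lit 137)) (XT.lf (nat_lit 0) (nat_lit 116635294927) (nat_lit 76) (nat_lit 60200878134) (nat_lit 76) (nat_lit 30713341285) (nat_lit 3) (nat_lit 4) (nat_lit 4) (nat_lit 5) (nat_lit 4) (nat_lit 4) (nat_lit 342) (nat_lit 242) (nat_lit 136))) (XT.nd (nat_lit 78) (nat_lit 0) (nat_lit 0) (XT.lf (nat_lit 0) (nat_lit 132672936904) (nat_lit 76) (nat_lit 57228349522) (nat_lit 76) (nat_lit 27732799123) (nat_lit 3) (nat_lit 4) (nat_lit 4) (nat_lit 5) (nat_lit 4) (nat_lit 4) (nat_lit 343) (nat_lit 242) (nat_lit 135)) (XT.nd (nat_lit 78) (nat_lit 0) (nat_lit 0) (XT.lf (nat_lit 0) (nat_lit 149507135670) (nat_lit 76) (nat_lit 54109542413) (nat_lit 76) (nat_lit 24606360061) (nat_lit 3) (nat_lit 4) (nat_lit 4) (nat_lit 5) (nat_lit 4) (nat_lit 4) (nat_lit 344) (nat_lit 242) (nat_lit 134)) (XT.lf (nat_lit 0) (nat_lit 167177972652) (nat_lit 76) (nat_lit 50837031076)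 (nat_lit 76) (nat_lit 21326580198) (nat_lit 3) (nat_lit 4) (nat_lit 4) (nat_lit 5) (nat_lit 4) (nat_lit 4) (nat_lit 345) (nat_lit 242) (nat_lit 133))))))) (XT.nd (nat_lit 702) (nat_lit 0) (nat_lit 0) (XT.nd (nat_lit 312) (nat_lit 152) (nat_lit 0) (XT.nd (nat_lit 156) (nat_lit 0) (nat_lit 0) (XT.nd (nat_lit 78) (nat_lit 0) (nat_lit 0) (XT.lf (nat_lit 0) (nat_lit 185727521270) (nat_lit 76) (nat_lit 47403023818) (nat_lit 76) (nat_lit 17885650534) (nat_lit 3) (nat_lit 4) (nat_lit 4) (nat_lit 5) (nat_lit 4) (nat_lit 4) (nat_lit 346) (nat_lit 242) (nat_lit 132)) (XT.lf (nat_lit 0) (nat_lit 205199947117) (nat_lit 76) (nat_lit 43799344431) (nat_lit 76) (nat_lit 14275378379) (nat_lit 3) (nat_lit 4) (nat_lit 4) (nat_lit 5) (nat_lit 4) (nat_lit 4) (nat_lit 347) (nat_lit 242) (nat_lit 131))) (XT.nd (nat_lit 78) (nat_lit 0) (nat_lit 0) (XT.lf (nat_lit 0) (nat_lit 225641613111) (nat_lit 76) (nat_lit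 40017412725) (nat_lit 76) (nat_lit 10487167848) (nat_lit 3) (nat_lit 4) (nat_lit 4) (nat_lit 5) (nat_lit 4) (nat_lit 4) (nat_lit 348) (nat_lit 242) (nat_lit 130)) (XT.lf (nat_lit 0) (nat_lit 247101189886) (nat_lit 76) (nat_lit 36048224103) (nat_lit 76) (nat_lit 6511999391) (nat_lit 3) (nat_lit 4) (nat_lit 4) (nat_lit 5) (nat_lit 4) (nat_lit 4) (nat_lit 349) (nat_lit 242) (nat_lit 129)))) (XT.nd (nat_lit 156) (nat_lit 76) (nat_lit 0) (XT.nd (nat_lit 78) (nat_lit 76) (nat_lit 0) (XT.lf (nat_lit 0) (nat_lit 269629771671) (nat_lit 76) (nat_lit 31882328114) (nat_lit 76) (nat_lit 2340408321) (nat_lit 3) (nat_lit 4) (nat_lit 4) (nat_lit 5) (nat_lit 4) (nat_lit 4) (nat_lit 350) (nat_lit 242) (nat_lit 128)) (XT.lf (nat_lit 0) (nat_lit 1972323788) (nat_lit 152) (nat_lit 25504079911) (nat_lit 76) (nat_lit 291275271902) (nat_lit 2) (nat_lit 5) (nat_lit 4) (nat_lit 5) (nat_lit 3) (nat_lit 4) (nat_lit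 351) (nat_lit 242) (nat_lit 127))) (XT.nd (nat_lit 78) (nat_lit 76) (nat_lit 0) (XT.lf (nat_lit 0) (nat_lit 6419988599) (nat_lit 152) (nat_lit 16391532656) (nat_lit 76) (nat_lit 311582466948) (nat_lit 2) (nat_lit 5) (nat_lit 4) (nat_lit 5) (nat_lit 3) (nat_lit 4) (nat_lit 352) (nat_lit 242) (nat_lit 126)) (XT.nd (nat_lit 78) (nat_lit 76) (nat_lit 0) (XT.lf (nat_lit 0) (nat_lit 11088083469) (nat_lit 152) (nat_lit 6826857796) (nat_lit 76) (nat_lit 332903575262) (nat_lit 2) (nat_lit 5) (nat_lit 4) (nat_lit 5) (nat_lit 3) (nat_lit 4) (nat_lit 353) (nat_lit 242) (nat_lit 125)) (XT.lf (nat_lit 0) (nat_lit 3318944661) (nat_lit 76) (nat_lit 12720596278) (nat_lit 152) (nat_lit 352022234754) (nat_lit 1) (nat_lit 5) (nat_lit 2) (nat_lit 5) (nat_lit 3) (nat_lit 4) (nat_lit 354) (nat_lit 242) (nat_lit 124)))))) (XT.nd (nat_lit 312) (nat_lit 0) (nat_lit 0) (XT.nd (nat_lit 156) (nat_lit 0) (nat_lit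 0) (XT.nd (nat_lit 78) (nat_lit 0) (nat_lit 0) (XT.lf (nat_lit 0) (nat_lit 14205770987) (nat_lit 76) (nat_lit 7146593645) (nat_lit 152) (nat_lit 364809145727) (nat_lit 1) (nat_lit 5) (nat_lit 2) (nat_lit 5) (nat_lit 3) (nat_lit 4) (nat_lit 355) (nat_lit 242) (nat_lit 123)) (XT.lf (nat_lit 0) (nat_lit 25633815446) (nat_lit 76) (nat_lit 1295278072) (nat_lit 152) (nat_lit 378237227143) (nat_lit 1) (nat_lit 5) (nat_lit 2) (nat_lit 5) (nat_lit 3) (nat_lit 4) (nat_lit 356) (nat_lit 242) (nat_lit 122))) (XT.nd (nat_lit 78) (nat_lit 0) (nat_lit 0) (XT.lf (nat_lit 0) (nat_lit 32858685182) (nat_lit 152) (nat_lit 387566848138) (nat_lit 0) (nat_lit 4692138843) (nat_lit 1) (nat_lit 5) (nat_lit 3) (nat_lit 4) (nat_lit 1) (nat_lit 4) (nat_lit 357) (nat_lit 242) (nat_lit 121)) (XT.lf (nat_lit 0) (nat_lit 39104396254) (nat_lit 152) (nat_lit 396027036086) (nat_lit 0) (nat_lit 10934178816) (nat_lit 1)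 (nat_lit 5) (nat_lit 3) (nat_lit 4) (nat_lit 1) (nat_lit 4) (nat_lit 358) (nat_lit 242) (nat_lit 120)))) (XT.nd (nat_lit 28470) (nat_lit 0) (nat_lit 8056) (XT.nd (nat_lit 78) (nat_lit 0) (nat_lit 0) (XT.lf (nat_lit 0) (nat_lit 45660874557) (nat_lit 152) (nat_lit 404912989443) (nat_lit 0) (nat_lit 17487160834) (nat_lit 1) (nat_lit 5) (nat_lit 3) (nat_lit 4) (nat_lit 1) (nat_lit 4) (nat_lit 359) (nat_lit 242) (nat_lit 119)) (XT.lf (nat_lit 0) (nat_lit 52543730752) (nat_lit 152) (nat_lit 414245865241) (nat_lit 0) (nat_lit 24366687233) (nat_lit 1) (nat_lit 5) (nat_lit 3) (nat_lit 4) (nat_lit 1) (nat_lit 4) (nat_lit 360) (nat_lit 242) (nat_lit 118))) (XT.nd (nat_lit 78) (nat_lit 0) (nat_lit 0) (XT.lf (nat_lit 0) (nat_lit 535954143) (nat_lit 0) (nat_lit 535954143) (nat_lit 228) (nat_lit 2203893524) (nat_lit 107) (nat_lit 5) (nat_lit 107) (nat_lit 3) (nat_lit 110) (nat_lit 3) (nat_lit 243)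 (nat_lit 243) (nat_lit 234)) (XT.nd (nat_lit 78) (nat_lit 0) (nat_lit 0) (XT.lf (nat_lit 0) (nat_lit 3975551466) (nat_lit 0) (nat_lit 407037957) (nat_lit 228) (nat_lit 2209612567) (nat_lit 107) (nat_lit 5) (nat_lit 107) (nat_lit 3) (nat_lit 110) (nat_lit 3) (nat_lit 244) (nat_lit 243) (nat_lit 233)) (XT.lf (nat_lit 76) (nat_lit 316205483) (nat_lit 0) (nat_lit 6287790095) (nat_lit 304) (nat_lit 38191841) (nat_lit 108) (nat_lit 5) (nat_lit 107) (nat_lit 5) (nat_lit 111) (nat_lit 5) (nat_lit 245) (nat_lit 243) (nat_lit 232))))))))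
noncomputable def xc120 : XT := (XT.nd (nat_lit 1326) (nat_lit 2204) (nat_lit 0) (XT.nd (nat_lit 624) (nat_lit 2736) (nat_lit 0) (XT.nd (nat_lit 312) (nat_lit 380) (nat_lit 0) (XT.nd (nat_lit 156) (nat_lit 380) (nat_lit 0) (XT.nd (nat_lit 78) (nat_lit 0) (nat_lit 0) (XT.lf (nat_lit 0) (nat_lit 2085362785) (nat_lit 304) (nat_lit 3331271068) (nat_lit 380) (nat_lit 1281331466) (nat_lit 103) (nat_lit 5) (nat_lit 107) (nat_lit 5) (nat_lit 108) (nat_lit 5) (nat_lit 246) (nat_lit 243) (nat_lit 231)) (XT.lf (nat_lit 0) (nat_lit 4183907842) (nat_lit 304) (nat_lit 266463276) (nat_lit 380) (nat_lit 2313395316) (nat_lit 103) (nat_lit 5) (nat_lit 107) (nat_lit 5) (nat_lit 108) (nat_lit 5) (nat_lit 247) (nat_lit 243) (nat_lit 230))) (XT.nd (nat_lit 78) (nat_lit 380) (nat_lit 0) (XT.lf (nat_lit 76) (nat_lit 2971439503) (nat_lit 0) (nat_lit 3338615236) (nat_lit 380) (nat_lit 527402885) (nat_lit 104)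 (nat_lit 5) (nat_lit 103) (nat_lit 5) (nat_lit 108) (nat_lit 5) (nat_lit 248) (nat_lit 243) (nat_lit 229)) (XT.lf (nat_lit 0) (nat_lit 1458557015) (nat_lit 380) (nat_lit 638328676) (nat_lit 456) (nat_lit 4823193726) (nat_lit 98) (nat_lit 5) (nat_lit 103) (nat_lit 5) (nat_lit 104) (nat_lit 5) (nat_lit 249) (nat_lit 243) (nat_lit 228)))) (XT.nd (nat_lit 156) (nat_lit 380) (nat_lit 0) (XT.nd (nat_lit 78) (nat_lit 0) (nat_lit 76) (XT.lf (nat_lit 76) (nat_lit 2755312397) (nat_lit 0) (nat_lit 697977923) (nat_lit 456) (nat_lit 3557383542) (nat_lit 99) (nat_lit 5) (nat_lit 98) (nat_lit 5) (nat_lit 104) (nat_lit 5) (nat_lit 250) (nat_lit 243) (nat_lit 227)) (XT.lf (nat_lit 0) (nat_lit 5459916839) (nat_lit 380) (nat_lit 857203096) (nat_lit 76) (nat_lit 793673925) (nat_lit 99) (nat_lit 5) (nat_lit 104) (nat_lit 5) (nat_lit 100) (nat_lit 5) (nat_lit 251) (nat_lit 243) (nat_lit 226))) (XT.nd (nat_lit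 78) (nat_lit 0) (nat_lit 0) (XT.lf (nat_lit 0) (nat_lit 286472738) (nat_lit 456) (nat_lit 4514262299) (nat_lit 76) (nat_lit 2418120852) (nat_lit 93) (nat_lit 5) (nat_lit 99) (nat_lit 5) (nat_lit 94) (nat_lit 5) (nat_lit 252) (nat_lit 243) (nat_lit 225)) (XT.lf (nat_lit 0) (nat_lit 2176029607) (nat_lit 456) (nat_lit 964072404) (nat_lit 76) (nat_lit 4195846296) (nat_lit 93) (nat_lit 5) (nat_lit 99) (nat_lit 5) (nat_lit 94) (nat_lit 5) (nat_lit 253) (nat_lit 243) (nat_lit 224))))) (XT.nd (nat_lit 312) (nat_lit 1672) (nat_lit 0) (XT.nd (nat_lit 156) (nat_lit 608) (nat_lit 0) (XT.nd (nat_lit 78) (nat_lit 0) (nat_lit 0) (XT.lf (nat_lit 0) (nat_lit 2776869911) (nat_lit 456) (nat_lit 1327563205) (nat_lit 532) (nat_lit 3357740422) (nat_lit 87) (nat_lit 5) (nat_lit 93) (nat_lit 5) (nat_lit 94) (nat_lit 5) (nat_lit 254) (nat_lit 243) (nat_lit 223)) (XT.lf (nat_lit 0) (nat_lit 6059732310) (nat_lit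 532) (nat_lit 944805554) (nat_lit 76) (nat_lit 594121370) (nat_lit 87) (nat_lit 5) (nat_lit 94) (nat_lit 5) (nat_lit 88) (nat_lit 5) (nat_lit 255) (nat_lit 243) (nat_lit 222))) (XT.nd (nat_lit 78) (nat_lit 0) (nat_lit 0) (XT.lf (nat_lit 0) (nat_lit 335871968) (nat_lit 608) (nat_lit 4768791710) (nat_lit 76) (nat_lit 2638599389) (nat_lit 79) (nat_lit 5) (nat_lit 87) (nat_lit 5) (nat_lit 80) (nat_lit 5) (nat_lit 256) (nat_lit 243) (nat_lit 221)) (XT.lf (nat_lit 0) (nat_lit 2179673122) (nat_lit 608) (nat_lit 875584323) (nat_lit 76) (nat_lit 4842637791) (nat_lit 79) (nat_lit 5) (nat_lit 87) (nat_lit 5) (nat_lit 80) (nat_lit 5) (nat_lit 257) (nat_lit 243) (nat_lit 220)))) (XT.nd (nat_lit 156) (nat_lit 1064) (nat_lit 0) (XT.nd (nat_lit 78) (nat_lit 0) (nat_lit 0) (XT.lf (nat_lit 0) (nat_lit 3241448818) (nat_lit 608) (nat_lit 839792478) (nat_lit 684) (nat_lit 3981127992) (nat_lit 71) (nat_lit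 5) (nat_lit 79) (nat_lit 5) (nat_lit 80) (nat_lit 5) (nat_lit 258) (nat_lit 243) (nat_lit 219)) (XT.lf (nat_lit 0) (nat_lit 6034175923) (nat_lit 684) (nat_lit 741036243) (nat_lit 76) (nat_lit 1462411067) (nat_lit 71) (nat_lit 5) (nat_lit 80) (nat_lit 5) (nat_lit 72) (nat_lit 5) (nat_lit 259) (nat_lit 243) (nat_lit 218))) (XT.nd (nat_lit 78) (nat_lit 380) (nat_lit 0) (XT.lf (nat_lit 0) (nat_lit 3569028322) (nat_lit 684) (nat_lit 4507131845) (nat_lit 760) (nat_lit 346262510) (nat_lit 62) (nat_lit 5) (nat_lit 71) (nat_lit 5) (nat_lit 72) (nat_lit 5) (nat_lit 260) (nat_lit 243) (nat_lit 217)) (XT.nd (nat_lit 78) (nat_lit 304) (nat_lit 0) (XT.lf (nat_lit 0) (nat_lit 1488133505) (nat_lit 760) (nat_lit 596705086) (nat_lit 76) (nat_lit 6533907510) (nat_lit 61) (nat_lit 5) (nat_lit 71) (nat_lit 5) (nat_lit 62) (nat_lit 5) (nat_lit 261) (nat_lit 243) (nat_lit 216)) (XT.lf (nat_lit 0) (nat_lit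 3398689539) (nat_lit 380) (nat_lit 4913505332) (nat_lit 76) (nat_lit 512908044) (nat_lit 57) (nat_lit 5) (nat_lit 62) (nat_lit 5) (nat_lit 58) (nat_lit 5) (nat_lit 262) (nat_lit 243) (nat_lit 215))))))) (XT.nd (nat_lit 702) (nat_lit 912) (nat_lit 0) (XT.nd (nat_lit 312) (nat_lit 608) (nat_lit 0) (XT.nd (nat_lit 156) (nat_lit 380) (nat_lit 0) (XT.nd (nat_lit 78) (nat_lit 304) (nat_lit 0) (XT.lf (nat_lit 0) (nat_lit 5378201758) (nat_lit 380) (nat_lit 484588192) (nat_lit 76) (nat_lit 3180606570) (nat_lit 57) (nat_lit 5) (nat_lit 62) (nat_lit 5) (nat_lit 58) (nat_lit 5) (nat_lit 263) (nat_lit 243) (nat_lit 214)) (XT.lf (nat_lit 0) (nat_lit 4229719687) (nat_lit 304) (nat_lit 3225369153) (nat_lit 380) (nat_lit 1817872545) (nat_lit 53) (nat_lit 5) (nat_lit 57) (nat_lit 5) (nat_lit 58) (nat_lit 5) (nat_lit 264) (nat_lit 243) (nat_lit 213))) (XT.nd (nat_lit 78) (nat_lit 304) (nat_lit 0) (XT.lf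 (nat_lit 0) (nat_lit 59414312) (nat_lit 380) (nat_lit 391805228) (nat_lit 76) (nat_lit 9065865822) (nat_lit 52) (nat_lit 5) (nat_lit 57) (nat_lit 5) (nat_lit 53) (nat_lit 5) (nat_lit 265) (nat_lit 243) (nat_lit 212)) (XT.lf (nat_lit 0) (nat_lit 2016664585) (nat_lit 380) (nat_lit 5273419198) (nat_lit 76) (nat_lit 2479721007) (nat_lit 48) (nat_lit 5) (nat_lit 53) (nat_lit 5) (nat_lit 49) (nat_lit 5) (nat_lit 266) (nat_lit 243) (nat_lit 211)))) (XT.nd (nat_lit 156) (nat_lit 304) (nat_lit 0) (XT.nd (nat_lit 78) (nat_lit 304) (nat_lit 0) (XT.lf (nat_lit 0) (nat_lit 4024124102) (nat_lit 380) (nat_lit 471117077) (nat_lit 76) (nat_lit 5542529187) (nat_lit 48) (nat_lit 5) (nat_lit 53) (nat_lit 5) (nat_lit 49) (nat_lit 5) (nat_lit 267) (nat_lit 243) (nat_lit 210)) (XT.lf (nat_lit 0) (nat_lit 4652227742) (nat_lit 304) (nat_lit 1493511260) (nat_lit 380) (nat_lit 4172922774) (nat_lit 44) (nat_lit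 5) (nat_lit 48) (nat_lit 5) (nat_lit 49) (nat_lit 5) (nat_lit 268) (nat_lit 243) (nat_lit 209))) (XT.nd (nat_lit 78) (nat_lit 304) (nat_lit 0) (XT.lf (nat_lit 0) (nat_lit 8350188533) (nat_lit 380) (nat_lit 660909207) (nat_lit 76) (nat_lit 1603868683) (nat_lit 44) (nat_lit 5) (nat_lit 49) (nat_lit 5) (nat_lit 45) (nat_lit 5) (nat_lit 269) (nat_lit 243) (nat_lit 208)) (XT.nd (nat_lit 78) (nat_lit 76) (nat_lit 0) (XT.lf (nat_lit 0) (nat_lit 4652867246) (nat_lit 228) (nat_lit 6054601098) (nat_lit 304) (nat_lit 216684104) (nat_lit 41) (nat_lit 5) (nat_lit 44) (nat_lit 5) (nat_lit 45) (nat_lit 5) (nat_lit 270) (nat_lit 243) (nat_lit 207)) (XT.lf (nat_lit 0) (nat_lit 1829302410) (nat_lit 304) (nat_lit 1090689307) (nat_lit 76) (nat_lit 8329605594) (nat_lit 40) (nat_lit 5) (nat_lit 44) (nat_lit 5) (nat_lit 41) (nat_lit 5) (nat_lit 271) (nat_lit 243) (nat_lit 206)))))) (XT.nd (nat_lit 312) (nat_lit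 456) (nat_lit 0) (XT.nd (nat_lit 156) (nat_lit 228) (nat_lit 0) (XT.nd (nat_lit 78) (nat_lit 0) (nat_lit 0) (XT.lf (nat_lit 0) (nat_lit 3994724873) (nat_lit 304) (nat_lit 7174419172) (nat_lit 76) (nat_lit 420941606) (nat_lit 37) (nat_lit 5) (nat_lit 41) (nat_lit 5) (nat_lit 38) (nat_lit 5) (nat_lit 272) (nat_lit 243) (nat_lit 205)) (XT.lf (nat_lit 0) (nat_lit 6284896387) (nat_lit 304) (nat_lit 1825205689) (nat_lit 76) (nat_lit 3836834122) (nat_lit 37) (nat_lit 5) (nat_lit 41) (nat_lit 5) (nat_lit 38) (nat_lit 5) (nat_lit 273) (nat_lit 243) (nat_lit 204))) (XT.nd (nat_lit 78) (nat_lit 0) (nat_lit 0) (XT.lf (nat_lit 0) (nat_lit 3852323398) (nat_lit 228) (nat_lit 4849622502) (nat_lit 304) (nat_lit 3619218892) (nat_lit 34) (nat_lit 5) (nat_lit 37) (nat_lit 5) (nat_lit 38) (nat_lit 5) (nat_lit 274) (nat_lit 243) (nat_lit 203)) (XT.lf (nat_lit 0) (nat_lit 9815659639) (nat_lit 228) (nat_lit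 1408638712) (nat_lit 304) (nat_lit 1490730597) (nat_lit 34) (nat_lit 5) (nat_lit 37) (nat_lit 5) (nat_lit 38) (nat_lit 5) (nat_lit 275) (nat_lit 243) (nat_lit 202)))) (XT.nd (nat_lit 156) (nat_lit 152) (nat_lit 0) (XT.nd (nat_lit 78) (nat_lit 0) (nat_lit 0) (XT.lf (nat_lit 0) (nat_lit 756788827) (nat_lit 304) (nat_lit 10191264042) (nat_lit 76) (nat_lit 2178264266) (nat_lit 30) (nat_lit 5) (nat_lit 34) (nat_lit 5) (nat_lit 31) (nat_lit 5) (nat_lit 276) (nat_lit 243) (nat_lit 201)) (XT.lf (nat_lit 0) (nat_lit 3095462754) (nat_lit 304) (nat_lit 4503441731) (nat_lit 76) (nat_lit 5956726181) (nat_lit 30) (nat_lit 5) (nat_lit 34) (nat_lit 5) (nat_lit 31) (nat_lit 5) (nat_lit 277) (nat_lit 243) (nat_lit 200))) (XT.nd (nat_lit 78) (nat_lit 0) (nat_lit 0) (XT.lf (nat_lit 0) (nat_lit 1457076102) (nat_lit 152) (nat_lit 4074721640) (nat_lit 228) (nat_lit 8475696418) (nat_lit 28) (nat_lit 5) (nat_lit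 30) (nat_lit 5) (nat_lit 31) (nat_lit 5) (nat_lit 278) (nat_lit 243) (nat_lit 199)) (XT.nd (nat_lit 78) (nat_lit 0) (nat_lit 0) (XT.lf (nat_lit 0) (nat_lit 7814578853) (nat_lit 152) (nat_lit 310721925) (nat_lit 228) (nat_lit 6354997396) (nat_lit 28) (nat_lit 5) (nat_lit 30) (nat_lit 5) (nat_lit 31) (nat_lit 5) (nat_lit 279) (nat_lit 243) (nat_lit 198)) (XT.lf (nat_lit 0) (nat_lit 10866119430) (nat_lit 228) (nat_lit 600109649) (nat_lit 76) (nat_lit 3509740721) (nat_lit 28) (nat_lit 5) (nat_lit 31) (nat_lit 5) (nat_lit 29) (nat_lit 5) (nat_lit 280) (nat_lit 243) (nat_lit 197))))))))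
noncomputable def xc121 : XT := (XT.nd (nat_lit 1326) (nat_lit 456) (nat_lit 0) (XT.nd (nat_lit 624) (nat_lit 380) (nat_lit 0) (XT.nd (nat_lit 312) (nat_lit 304) (nat_lit 0) (XT.nd (nat_lit 156) (nat_lit 152) (nat_lit 0) (XT.nd (nat_lit 78) (nat_lit 76) (nat_lit 0) (XT.lf (nat_lit 0) (nat_lit 5898700698) (nat_lit 228) (nat_lit 7905121457) (nat_lit 304) (nat_lit 1689714923) (nat_lit 25) (nat_lit 5) (nat_lit 28) (nat_lit 5) (nat_lit 29) (nat_lit 5) (nat_lit 281) (nat_lit 243) (nat_lit 196)) (XT.lf (nat_lit 0) (nat_lit 797419690) (nat_lit 304) (nat_lit 3360882928) (nat_lit 76) (nat_lit 11879447809) (nat_lit 24) (nat_lit 5) (nat_lit 28) (nat_lit 5) (nat_lit 25) (nat_lit 5) (nat_lit 282) (nat_lit 243) (nat_lit 195))) (XT.nd (nat_lit 78) (nat_lit 0) (nat_lit 0) (XT.lf (nat_lit 0) (nat_lit 3208095023) (nat_lit 152) (nat_lit 158797511) (nat_lit 228) (nat_lit 13240248583) (nat_lit 22) (nat_lit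 5) (nat_lit 24) (nat_lit 5) (nat_lit 25) (nat_lit 5) (nat_lit 283) (nat_lit 243) (nat_lit 194)) (XT.lf (nat_lit 0) (nat_lit 6151088962) (nat_lit 228) (nat_lit 7096341162) (nat_lit 76) (nat_lit 3953344466) (nat_lit 22) (nat_lit 5) (nat_lit 25) (nat_lit 5) (nat_lit 23) (nat_lit 5) (nat_lit 284) (nat_lit 243) (nat_lit 193)))) (XT.nd (nat_lit 156) (nat_lit 152) (nat_lit 0) (XT.nd (nat_lit 78) (nat_lit 152) (nat_lit 0) (XT.lf (nat_lit 0) (nat_lit 9044062539) (nat_lit 228) (nat_lit 530980793) (nat_lit 76) (nat_lit 8250649703) (nat_lit 22) (nat_lit 5) (nat_lit 25) (nat_lit 5) (nat_lit 23) (nat_lit 5) (nat_lit 285) (nat_lit 243) (nat_lit 192)) (XT.lf (nat_lit 0) (nat_lit 6523953348) (nat_lit 152) (nat_lit 5628125871) (nat_lit 228) (nat_lit 6326336236) (nat_lit 20) (nat_lit 5) (nat_lit 22) (nat_lit 5) (nat_lit 23) (nat_lit 5) (nat_lit 286) (nat_lit 243) (nat_lit 191))) (XT.nd (nat_lit 78) (nat_lit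 152) (nat_lit 0) (XT.lf (nat_lit 0) (nat_lit 13903333306) (nat_lit 152) (nat_lit 1490461628) (nat_lit 228) (nat_lit 3771138222) (nat_lit 20) (nat_lit 5) (nat_lit 22) (nat_lit 5) (nat_lit 23) (nat_lit 5) (nat_lit 287) (nat_lit 243) (nat_lit 190)) (XT.lf (nat_lit 0) (nat_lit 1730942712) (nat_lit 152) (nat_lit 17108767765) (nat_lit 228) (nat_lit 1044031110) (nat_lit 18) (nat_lit 5) (nat_lit 20) (nat_lit 5) (nat_lit 21) (nat_lit 4) (nat_lit 288) (nat_lit 243) (nat_lit 189))))) (XT.nd (nat_lit 312) (nat_lit 152) (nat_lit 0) (XT.nd (nat_lit 156) (nat_lit 152) (nat_lit 0) (XT.nd (nat_lit 78) (nat_lit 0) (nat_lit 0) (XT.lf (nat_lit 0) (nat_lit 1846892509) (nat_lit 228) (nat_lit 11478650562) (nat_lit 76) (nat_lit 7307306317) (nat_lit 17) (nat_lit 5) (nat_lit 20) (nat_lit 5) (nat_lit 18) (nat_lit 5) (nat_lit 289) (nat_lit 243) (nat_lit 188)) (XT.lf (nat_lit 0) (nat_lit 4819363635) (nat_lit 228)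 (nat_lit 4531812742) (nat_lit 76) (nat_lit 12068836995) (nat_lit 17) (nat_lit 5) (nat_lit 20) (nat_lit 5) (nat_lit 18) (nat_lit 5) (nat_lit 290) (nat_lit 243) (nat_lit 187))) (XT.nd (nat_lit 78) (nat_lit 0) (nat_lit 0) (XT.lf (nat_lit 0) (nat_lit 2810508757) (nat_lit 152) (nat_lit 5147246257) (nat_lit 228) (nat_lit 14287973744) (nat_lit 15) (nat_lit 5) (nat_lit 17) (nat_lit 5) (nat_lit 18) (nat_lit 5) (nat_lit 291) (nat_lit 243) (nat_lit 186)) (XT.lf (nat_lit 0) (nat_lit 10636142982) (nat_lit 152) (nat_lit 667711795) (nat_lit 228) (nat_lit 11806390969) (nat_lit 15) (nat_lit 5) (nat_lit 17) (nat_lit 5) (nat_lit 18) (nat_lit 5) (nat_lit 292) (nat_lit 243) (nat_lit 185)))) (XT.nd (nat_lit 156) (nat_lit 76) (nat_lit 0) (XT.nd (nat_lit 78) (nat_lit 76) (nat_lit 0) (XT.lf (nat_lit 0) (nat_lit 14855320524) (nat_lit 228) (nat_lit 5268181651) (nat_lit 76) (nat_lit 3892635999) (nat_lit 15) (nat_lit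 5) (nat_lit 18) (nat_lit 5) (nat_lit 16) (nat_lit 4) (nat_lit 293) (nat_lit 243) (nat_lit 184)) (XT.lf (nat_lit 0) (nat_lit 2323118143) (nat_lit 76) (nat_lit 16284696807) (nat_lit 152) (nat_lit 6358387639) (nat_lit 14) (nat_lit 5) (nat_lit 15) (nat_lit 5) (nat_lit 16) (nat_lit 4) (nat_lit 294) (nat_lit 243) (nat_lit 183))) (XT.nd (nat_lit 78) (nat_lit 76) (nat_lit 0) (XT.lf (nat_lit 0) (nat_lit 10439174886) (nat_lit 76) (nat_lit 12174760091) (nat_lit 152) (nat_lit 3346582950) (nat_lit 14) (nat_lit 5) (nat_lit 15) (nat_lit 5) (nat_lit 16) (nat_lit 4) (nat_lit 295) (nat_lit 243) (nat_lit 182)) (XT.nd (nat_lit 78) (nat_lit 76) (nat_lit 0) (XT.lf (nat_lit 0) (nat_lit 18925122643) (nat_lit 76) (nat_lit 7873125671) (nat_lit 152) (nat_lit 207451827) (nat_lit 14) (nat_lit 5) (nat_lit 15) (nat_lit 5) (nat_lit 16) (nat_lit 4) (nat_lit 296) (nat_lit 243) (nat_lit 181)) (XT.lf (nat_lit 0) (nat_lit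 2968333347) (nat_lit 152) (nat_lit 350948050) (nat_lit 76) (nat_lit 24782562544) (nat_lit 13) (nat_lit 5) (nat_lit 15) (nat_lit 5) (nat_lit 14) (nat_lit 5) (nat_lit 297) (nat_lit 243) (nat_lit 180))))))) (XT.nd (nat_lit 702) (nat_lit 76) (nat_lit 0) (XT.nd (nat_lit 312) (nat_lit 152) (nat_lit 0) (XT.nd (nat_lit 156) (nat_lit 76) (nat_lit 0) (XT.nd (nat_lit 78) (nat_lit 0) (nat_lit 0) (XT.lf (nat_lit 0) (nat_lit 6424891586) (nat_lit 228) (nat_lit 21288168579) (nat_lit 76) (nat_lit 1533156227) (nat_lit 11) (nat_lit 5) (nat_lit 14) (nat_lit 5) (nat_lit 12) (nat_lit 4) (nat_lit 298) (nat_lit 243) (nat_lit 179)) (XT.lf (nat_lit 0) (nat_lit 10094569188) (nat_lit 228) (nat_lit 13840931398) (nat_lit 76) (nat_lit 6510329720) (nat_lit 11) (nat_lit 5) (nat_lit 14) (nat_lit 5) (nat_lit 12) (nat_lit 4) (nat_lit 299) (nat_lit 243) (nat_lit 178))) (XT.nd (nat_lit 78) (nat_lit 76) (nat_lit 0) (XT.lf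 (nat_lit 0) (nat_lit 13928526947) (nat_lit 228) (nat_lit 6053319803) (nat_lit 76) (nat_lit 11724573981) (nat_lit 11) (nat_lit 5) (nat_lit 14) (nat_lit 5) (nat_lit 12) (nat_lit 4) (nat_lit 300) (nat_lit 243) (nat_lit 177)) (XT.lf (nat_lit 0) (nat_lit 2162419051) (nat_lit 76) (nat_lit 15807235704) (nat_lit 152) (nat_lit 15059646246) (nat_lit 10) (nat_lit 5) (nat_lit 11) (nat_lit 5) (nat_lit 12) (nat_lit 4) (nat_lit 301) (nat_lit 243) (nat_lit 176)))) (XT.nd (nat_lit 156) (nat_lit 152) (nat_lit 0) (XT.nd (nat_lit 78) (nat_lit 0) (nat_lit 0) (XT.lf (nat_lit 0) (nat_lit 10969129569) (nat_lit 76) (nat_lit 11328338983) (nat_lit 152) (nat_lit 12116657571) (nat_lit 10) (nat_lit 5) (nat_lit 11) (nat_lit 5) (nat_lit 12) (nat_lit 4) (nat_lit 302) (nat_lit 243) (nat_lit 175)) (XT.lf (nat_lit 0) (nat_lit 20187630018) (nat_lit 76) (nat_lit 6637008446) (nat_lit 152) (nat_lit 9044436543) (nat_lit 10)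 (nat_lit 5) (nat_lit 11) (nat_lit 5) (nat_lit 12) (nat_lit 4) (nat_lit 303) (nat_lit 243) (nat_lit 174))) (XT.nd (nat_lit 78) (nat_lit 152) (nat_lit 0) (XT.lf (nat_lit 0) (nat_lit 29839869208) (nat_lit 76) (nat_lit 1722074260) (nat_lit 152) (nat_lit 5835668350) (nat_lit 10) (nat_lit 5) (nat_lit 11) (nat_lit 5) (nat_lit 12) (nat_lit 4) (nat_lit 304) (nat_lit 243) (nat_lit 173)) (XT.nd (nat_lit 78) (nat_lit 76) (nat_lit 0) (XT.lf (nat_lit 0) (nat_lit 921420669) (nat_lit 76) (nat_lit 35667151426) (nat_lit 76) (nat_lit 2411408373) (nat_lit 9) (nat_lit 4) (nat_lit 10) (nat_lit 5) (nat_lit 10) (nat_lit 4) (nat_lit 305) (nat_lit 243) (nat_lit 172)) (XT.lf (nat_lit 0) (nat_lit 1288936097) (nat_lit 152) (nat_lit 30664594397) (nat_lit 76) (nat_lit 8720899603) (nat_lit 8) (nat_lit 5) (nat_lit 10) (nat_lit 5) (nat_lit 9) (nat_lit 4) (nat_lit 306) (nat_lit 243) (nat_lit 171)))))) (XT.nd (nat_lit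 312) (nat_lit 0) (nat_lit 0) (XT.nd (nat_lit 156) (nat_lit 76) (nat_lit 0) (XT.nd (nat_lit 78) (nat_lit 0) (nat_lit 0) (XT.lf (nat_lit 0) (nat_lit 5078445265) (nat_lit 152) (nat_lit 22944834261) (nat_lit 76) (nat_lit 14408110900) (nat_lit 8) (nat_lit 5) (nat_lit 10) (nat_lit 5) (nat_lit 9) (nat_lit 4) (nat_lit 307) (nat_lit 243) (nat_lit 170)) (XT.lf (nat_lit 0) (nat_lit 9043321900) (nat_lit 152) (nat_lit 14863250168) (nat_lit 76) (nat_lit 20370355070) (nat_lit 8) (nat_lit 5) (nat_lit 10) (nat_lit 5) (nat_lit 9) (nat_lit 4) (nat_lit 308) (nat_lit 243) (nat_lit 169))) (XT.nd (nat_lit 78) (nat_lit 76) (nat_lit 0) (XT.lf (nat_lit 0) (nat_lit 13193006185) (nat_lit 152) (nat_lit 6400600252) (nat_lit 76) (nat_lit 26621827934) (nat_lit 8) (nat_lit 5) (nat_lit 10) (nat_lit 5) (nat_lit 9) (nat_lit 4) (nat_lit 309) (nat_lit 243) (nat_lit 168)) (XT.lf (nat_lit 0) (nat_lit 2544711309) (nat_lit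 76) (nat_lit 15032397085) (nat_lit 152) (nat_lit 30672432716) (nat_lit 7) (nat_lit 5) (nat_lit 8) (nat_lit 5) (nat_lit 9) (nat_lit 4) (nat_lit 310) (nat_lit 243) (nat_lit 167)))) (XT.nd (nat_lit 156) (nat_lit 0) (nat_lit 0) (XT.nd (nat_lit 78) (nat_lit 0) (nat_lit 0) (XT.lf (nat_lit 0) (nat_lit 12137938839) (nat_lit 76) (nat_lit 10138350449) (nat_lit 152) (nat_lit 28104290060) (nat_lit 7) (nat_lit 5) (nat_lit 8) (nat_lit 5) (nat_lit 9) (nat_lit 4) (nat_lit 311) (nat_lit 243) (nat_lit 166)) (XT.lf (nat_lit 0) (nat_lit 22190290605) (nat_lit 76) (nat_lit 5008211299) (nat_lit 152) (nat_lit 25420282854) (nat_lit 7) (nat_lit 5) (nat_lit 8) (nat_lit 5) (nat_lit 9) (nat_lit 4) (nat_lit 312) (nat_lit 243) (nat_lit 165))) (XT.nd (nat_lit 78) (nat_lit 0) (nat_lit 0) (XT.lf (nat_lit 0) (nat_lit 32361246203) (nat_lit 152) (nat_lit 22249566030) (nat_lit 0) (nat_lit 358385149) (nat_lit 7) (nat_lit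 5) (nat_lit 9) (nat_lit 4) (nat_lit 7) (nat_lit 4) (nat_lit 313) (nat_lit 243) (nat_lit 164)) (XT.nd (nat_lit 78) (nat_lit 0) (nat_lit 0) (XT.lf (nat_lit 0) (nat_lit 37853289182) (nat_lit 152) (nat_lit 13762857250) (nat_lit 0) (nat_lit 5817443269) (nat_lit 7) (nat_lit 5) (nat_lit 9) (nat_lit 4) (nat_lit 7) (nat_lit 4) (nat_lit 314) (nat_lit 243) (nat_lit 163)) (XT.lf (nat_lit 0) (nat_lit 43609514921) (nat_lit 152) (nat_lit 4869969151) (nat_lit 0) (nat_lit 11542254857) (nat_lit 7) (nat_lit 5) (nat_lit 9) (nat_lit 4) (nat_lit 7) (nat_lit 4) (nat_lit 315) (nat_lit 243) (nat_lit 162))))))))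
noncomputable def xc122 : XT := (XT.nd (nat_lit 1326) (nat_lit 76) (nat_lit 0) (XT.nd (nat_lit 624) (nat_lit 0) (nat_lit 0) (XT.nd (nat_lit 312) (nat_lit 152) (nat_lit 0) (XT.nd (nat_lit 156) (nat_lit 0) (nat_lit 0) (XT.nd (nat_lit 78) (nat_lit 0) (nat_lit 0) (XT.lf (nat_lit 0) (nat_lit 4597417893) (nat_lit 76) (nat_lit 45117989404) (nat_lit 76) (nat_lit 13020811100) (nat_lit 6) (nat_lit 4) (nat_lit 7) (nat_lit 5) (nat_lit 7) (nat_lit 4) (nat_lit 316) (nat_lit 243) (nat_lit 161)) (XT.lf (nat_lit 0) (nat_lit 14690235976) (nat_lit 76) (nat_lit 41509117291) (nat_lit 76) (nat_lit 9383445426) (nat_lit 6) (nat_lit 4) (nat_lit 7) (nat_lit 5) (nat_lit 7) (nat_lit 4) (nat_lit 317) (nat_lit 243) (nat_lit 160))) (XT.nd (nat_lit 78) (nat_lit 0) (nat_lit 0) (XT.lf (nat_lit 0) (nat_lit 25271492443) (nat_lit 76) (nat_lit 37726750467) (nat_lit 76) (nat_lit 5573941876) (nat_lit 6) (nat_lit 4) (nat_lit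 7) (nat_lit 5) (nat_lit 7) (nat_lit 4) (nat_lit 318) (nat_lit 243) (nat_lit 159)) (XT.lf (nat_lit 0) (nat_lit 36366380760) (nat_lit 76) (nat_lit 33761883295) (nat_lit 76) (nat_lit 1583230204) (nat_lit 6) (nat_lit 4) (nat_lit 7) (nat_lit 5) (nat_lit 7) (nat_lit 4) (nat_lit 319) (nat_lit 243) (nat_lit 158)))) (XT.nd (nat_lit 156) (nat_lit 76) (nat_lit 0) (XT.nd (nat_lit 78) (nat_lit 0) (nat_lit 0) (XT.lf (nat_lit 0) (nat_lit 2515032936) (nat_lit 152) (nat_lit 27047449380) (nat_lit 76) (nat_lit 45443691094) (nat_lit 5) (nat_lit 5) (nat_lit 7) (nat_lit 5) (nat_lit 6) (nat_lit 4) (nat_lit 320) (nat_lit 243) (nat_lit 157)) (XT.lf (nat_lit 0) (nat_lit 6756865854) (nat_lit 152) (nat_lit 18375133623) (nat_lit 76) (nat_lit 53332707735) (nat_lit 5) (nat_lit 5) (nat_lit 7) (nat_lit 5) (nat_lit 6) (nat_lit 4) (nat_lit 321) (nat_lit 243) (nat_lit 156))) (XT.nd (nat_lit 78) (nat_lit 76) (nat_lit 0)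 (XT.lf (nat_lit 0) (nat_lit 11203041404) (nat_lit 152) (nat_lit 9282799196) (nat_lit 76) (nat_lit 61610725601) (nat_lit 5) (nat_lit 5) (nat_lit 7) (nat_lit 5) (nat_lit 6) (nat_lit 4) (nat_lit 322) (nat_lit 243) (nat_lit 155)) (XT.lf (nat_lit 0) (nat_lit 259508197) (nat_lit 76) (nat_lit 15608689172) (nat_lit 152) (nat_lit 70041997711) (nat_lit 4) (nat_lit 5) (nat_lit 5) (nat_lit 5) (nat_lit 6) (nat_lit 4) (nat_lit 323) (nat_lit 243) (nat_lit 154))))) (XT.nd (nat_lit 312) (nat_lit 0) (nat_lit 0) (XT.nd (nat_lit 156) (nat_lit 0) (nat_lit 0) (XT.nd (nat_lit 78) (nat_lit 0) (nat_lit 0) (XT.lf (nat_lit 0) (nat_lit 10588468016) (nat_lit 76) (nat_lit 10328124309) (nat_lit 152) (nat_lit 68990424038) (nat_lit 4) (nat_lit 5) (nat_lit 5) (nat_lit 5) (nat_lit 6) (nat_lit 4) (nat_lit 324) (nat_lit 243) (nat_lit 153)) (XT.lf (nat_lit 0) (nat_lit 21421741757) (nat_lit 76) (nat_lit 4788781937) (nat_lit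 152) (nat_lit 67893508728) (nat_lit 4) (nat_lit 5) (nat_lit 5) (nat_lit 5) (nat_lit 6) (nat_lit 4) (nat_lit 325) (nat_lit 243) (nat_lit 152))) (XT.nd (nat_lit 78) (nat_lit 0) (nat_lit 0) (XT.lf (nat_lit 0) (nat_lit 31778560582) (nat_lit 152) (nat_lit 65742077730) (nat_lit 0) (nat_lit 989799611) (nat_lit 4) (nat_lit 5) (nat_lit 6) (nat_lit 4) (nat_lit 4) (nat_lit 4) (nat_lit 326) (nat_lit 243) (nat_lit 151)) (XT.lf (nat_lit 0) (nat_lit 37697186192) (nat_lit 152) (nat_lit 58544611196) (nat_lit 0) (nat_lit 6891765625) (nat_lit 4) (nat_lit 5) (nat_lit 6) (nat_lit 4) (nat_lit 4) (nat_lit 4) (nat_lit 327) (nat_lit 243) (nat_lit 150)))) (XT.nd (nat_lit 156) (nat_lit 0) (nat_lit 0) (XT.nd (nat_lit 78) (nat_lit 0) (nat_lit 0) (XT.lf (nat_lit 0) (nat_lit 43905726181) (nat_lit 152) (nat_lit 50997987932) (nat_lit 0) (nat_lit 13084439333) (nat_lit 4) (nat_lit 5) (nat_lit 6) (nat_lit 4) (nat_lit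 4) (nat_lit 4) (nat_lit 328) (nat_lit 243) (nat_lit 149)) (XT.lf (nat_lit 0) (nat_lit 50418962788) (nat_lit 152) (nat_lit 43084239787) (nat_lit 0) (nat_lit 19582565195) (nat_lit 4) (nat_lit 5) (nat_lit 6) (nat_lit 4) (nat_lit 4) (nat_lit 4) (nat_lit 329) (nat_lit 243) (nat_lit 148))) (XT.nd (nat_lit 78) (nat_lit 0) (nat_lit 0) (XT.lf (nat_lit 0) (nat_lit 57252403719) (nat_lit 152) (nat_lit 34784524504) (nat_lit 0) (nat_lit 26401614942) (nat_lit 4) (nat_lit 5) (nat_lit 6) (nat_lit 4) (nat_lit 4) (nat_lit 4) (nat_lit 330) (nat_lit 243) (nat_lit 147)) (XT.nd (nat_lit 78) (nat_lit 0) (nat_lit 0) (XT.lf (nat_lit 0) (nat_lit 64422319071) (nat_lit 152) (nat_lit 26079080855) (nat_lit 0) (nat_lit 33557824404) (nat_lit 4) (nat_lit 5) (nat_lit 6) (nat_lit 4) (nat_lit 4) (nat_lit 4) (nat_lit 331) (nat_lit 243) (nat_lit 146)) (XT.lf (nat_lit 0) (nat_lit 71945780072) (nat_lit 152) (nat_lit 16947181594)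 (nat_lit 0) (nat_lit 41068232176) (nat_lit 4) (nat_lit 5) (nat_lit 6) (nat_lit 4) (nat_lit 4) (nat_lit 4) (nat_lit 332) (nat_lit 243) (nat_lit 145))))))) (XT.nd (nat_lit 702) (nat_lit 0) (nat_lit 0) (XT.nd (nat_lit 312) (nat_lit 0) (nat_lit 0) (XT.nd (nat_lit 156) (nat_lit 0) (nat_lit 0) (XT.nd (nat_lit 78) (nat_lit 76) (nat_lit 0) (XT.lf (nat_lit 0) (nat_lit 79840699724) (nat_lit 152) (nat_lit 7367084105) (nat_lit 0) (nat_lit 48950720182) (nat_lit 4) (nat_lit 5) (nat_lit 6) (nat_lit 4) (nat_lit 4) (nat_lit 4) (nat_lit 333) (nat_lit 243) (nat_lit 144)) (XT.lf (nat_lit 0) (nat_lit 2772767238) (nat_lit 76) (nat_lit 85396398884) (nat_lit 76) (nat_lit 54494579678) (nat_lit 3) (nat_lit 4) (nat_lit 4) (nat_lit 5) (nat_lit 4) (nat_lit 4) (nat_lit 334) (nat_lit 243) (nat_lit 143))) (XT.nd (nat_lit 78) (nat_lit 0) (nat_lit 0) (XT.lf (nat_lit 0) (nat_lit 13667511765) (nat_lit 76) (nat_lit 83366910269)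 (nat_lit 76) (nat_lit 52453815193) (nat_lit 3) (nat_lit 4) (nat_lit 4) (nat_lit 5) (nat_lit 4) (nat_lit 4) (nat_lit 335) (nat_lit 243) (nat_lit 142)) (XT.lf (nat_lit 0) (nat_lit 25099500275) (nat_lit 76) (nat_lit 81239251003) (nat_lit 76) (nat_lit 50315417003) (nat_lit 3) (nat_lit 4) (nat_lit 4) (nat_lit 5) (nat_lit 4) (nat_lit 4) (nat_lit 336) (nat_lit 243) (nat_lit 141)))) (XT.nd (nat_lit 156) (nat_lit 0) (nat_lit 0) (XT.nd (nat_lit 78) (nat_lit 0) (nat_lit 0) (XT.lf (nat_lit 0) (nat_lit 37095951786) (nat_lit 76) (nat_lit 79008355229) (nat_lit 76) (nat_lit 48074293683) (nat_lit 3) (nat_lit 4) (nat_lit 4) (nat_lit 5) (nat_lit 4) (nat_lit 4) (nat_lit 337) (nat_lit 243) (nat_lit 140)) (XT.lf (nat_lit 0) (nat_lit 49685429278) (nat_lit 76) (nat_lit 76668911292) (nat_lit 76) (nat_lit 45725109226) (nat_lit 3) (nat_lit 4) (nat_lit 4) (nat_lit 5) (nat_lit 4) (nat_lit 4) (nat_lit 338) (nat_lit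 243) (nat_lit 139))) (XT.nd (nat_lit 78) (nat_lit 0) (nat_lit 0) (XT.lf (nat_lit 0) (nat_lit 62897907699) (nat_lit 76) (nat_lit 74215349086) (nat_lit 76) (nat_lit 43262270334) (nat_lit 3) (nat_lit 4) (nat_lit 4) (nat_lit 5) (nat_lit 4) (nat_lit 4) (nat_lit 339) (nat_lit 243) (nat_lit 138)) (XT.nd (nat_lit 78) (nat_lit 0) (nat_lit 0) (XT.lf (nat_lit 0) (nat_lit 76764845329) (nat_lit 76) (nat_lit 71641826798) (nat_lit 76) (nat_lit 40679913107) (nat_lit 3) (nat_lit 4) (nat_lit 4) (nat_lit 5) (nat_lit 4) (nat_lit 4) (nat_lit 340) (nat_lit 243) (nat_lit 137)) (XT.lf (nat_lit 0) (nat_lit 91319258688) (nat_lit 76) (nat_lit 68942216993) (nat_lit 76) (nat_lit 37971889074) (nat_lit 3) (nat_lit 4) (nat_lit 4) (nat_lit 5) (nat_lit 4) (nat_lit 4) (nat_lit 341) (nat_lit 243) (nat_lit 136)))))) (XT.nd (nat_lit 312) (nat_lit 0) (nat_lit 0) (XT.nd (nat_lit 156) (nat_lit 0) (nat_lit 0) (XT.nd (nat_lit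 78) (nat_lit 0) (nat_lit 0) (XT.lf (nat_lit 0) (nat_lit 106595801140) (nat_lit 76) (nat_lit 66110092028) (nat_lit 76) (nat_lit 35131750559) (nat_lit 3) (nat_lit 4) (nat_lit 4) (nat_lit 5) (nat_lit 4) (nat_lit 4) (nat_lit 342) (nat_lit 243) (nat_lit 135)) (XT.lf (nat_lit 0) (nat_lit 122630845405) (nat_lit 76) (nat_lit 63138708749) (nat_lit 76) (nat_lit 32152735327) (nat_lit 3) (nat_lit 4) (nat_lit 4) (nat_lit 5) (nat_lit 4) (nat_lit 4) (nat_lit 343) (nat_lit 243) (nat_lit 134))) (XT.nd (nat_lit 78) (nat_lit 0) (nat_lit 0) (XT.lf (nat_lit 0) (nat_lit 139462570160) (nat_lit 76) (nat_lit 60020992434) (nat_lit 76) (nat_lit 29027750486) (nat_lit 3) (nat_lit 4) (nat_lit 4) (nat_lit 5) (nat_lit 4) (nat_lit 4) (nat_lit 344) (nat_lit 243) (nat_lit 133)) (XT.lf (nat_lit 0) (nat_lit 157131050940) (nat_lit 76) (nat_lit 56749519949) (nat_lit 76) (nat_lit 25749355595) (nat_lit 3) (nat_lit 4) (nat_lit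 4) (nat_lit 5) (nat_lit 4) (nat_lit 4) (nat_lit 345) (nat_lit 243) (nat_lit 132)))) (XT.nd (nat_lit 156) (nat_lit 0) (nat_lit 0) (XT.nd (nat_lit 78) (nat_lit 0) (nat_lit 0) (XT.lf (nat_lit 0) (nat_lit 175678355557) (nat_lit 76) (nat_lit 53316502073) (nat_lit 76) (nat_lit 22309744951) (nat_lit 3) (nat_lit 4) (nat_lit 4) (nat_lit 5) (nat_lit 4) (nat_lit 4) (nat_lit 346) (nat_lit 243) (nat_lit 131)) (XT.lf (nat_lit 0) (nat_lit 195148644260) (nat_lit 76) (nat_lit 49713764955) (nat_lit 76) (nat_lit 18700729007) (nat_lit 3) (nat_lit 4) (nat_lit 4) (nat_lit 5) (nat_lit 4) (nat_lit 4) (nat_lit 347) (nat_lit 243) (nat_lit 130))) (XT.nd (nat_lit 78) (nat_lit 0) (nat_lit 0) (XT.lf (nat_lit 0) (nat_lit 215588274879) (nat_lit 76) (nat_lit 45932730648) (nat_lit 76) (nat_lit 14913714866) (nat_lit 3) (nat_lit 4) (nat_lit 4) (nat_lit 5) (nat_lit 4) (nat_lit 4) (nat_lit 348) (nat_lit 243) (nat_lit 129))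 (XT.nd (nat_lit 78) (nat_lit 0) (nat_lit 0) (XT.lf (nat_lit 0) (nat_lit 237045913201) (nat_lit 76) (nat_lit 41964396691) (nat_lit 76) (nat_lit 10939685828) (nat_lit 3) (nat_lit 4) (nat_lit 4) (nat_lit 5) (nat_lit 4) (nat_lit 4) (nat_lit 349) (nat_lit 243) (nat_lit 128)) (XT.lf (nat_lit 0) (nat_lit 259572648841) (nat_lit 76) (nat_lit 37799314669) (nat_lit 76) (nat_lit 6769179920) (nat_lit 3) (nat_lit 4) (nat_lit 4) (nat_lit 5) (nat_lit 4) (nat_lit 4) (nat_lit 350) (nat_lit 243) (nat_lit 127))))))))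
noncomputable def xc123 : XT := (XT.nd (nat_lit 29718) (nat_lit 0) (nat_lit 3268) (XT.nd (nat_lit 624) (nat_lit 0) (nat_lit 0) (XT.nd (nat_lit 312) (nat_lit 76) (nat_lit 0) (XT.nd (nat_lit 156) (nat_lit 0) (nat_lit 0) (XT.nd (nat_lit 78) (nat_lit 76) (nat_lit 0) (XT.lf (nat_lit 0) (nat_lit 283222116885) (nat_lit 76) (nat_lit 33427567721) (nat_lit 76) (nat_lit 2392267366) (nat_lit 3) (nat_lit 4) (nat_lit 4) (nat_lit 5) (nat_lit 4) (nat_lit 4) (nat_lit 351) (nat_lit 243) (nat_lit 126)) (XT.lf (nat_lit 0) (nat_lit 2131012169) (nat_lit 152) (nat_lit 26671645032) (nat_lit 76) (nat_lit 305883523697) (nat_lit 2) (nat_lit 5) (nat_lit 4) (nat_lit 5) (nat_lit 3) (nat_lit 4) (nat_lit 352) (nat_lit 243) (nat_lit 125))) (XT.nd (nat_lit 78) (nat_lit 0) (nat_lit 0) (XT.lf (nat_lit 0) (nat_lit 6798199639) (nat_lit 152) (nat_lit 17108596075) (nat_lit 76) (nat_lit 327203960010) (nat_lit 2) (nat_lit 5)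 (nat_lit 4) (nat_lit 5) (nat_lit 3) (nat_lit 4) (nat_lit 353) (nat_lit 243) (nat_lit 124)) (XT.lf (nat_lit 0) (nat_lit 11696974891) (nat_lit 152) (nat_lit 7070569053) (nat_lit 76) (nat_lit 349589106134) (nat_lit 2) (nat_lit 5) (nat_lit 4) (nat_lit 5) (nat_lit 3) (nat_lit 4) (nat_lit 354) (nat_lit 243) (nat_lit 123)))) (XT.nd (nat_lit 156) (nat_lit 0) (nat_lit 0) (XT.nd (nat_lit 78) (nat_lit 0) (nat_lit 0) (XT.lf (nat_lit 0) (nat_lit 3580948823) (nat_lit 76) (nat_lit 13313961499) (nat_lit 152) (nat_lit 369567219861) (nat_lit 1) (nat_lit 5) (nat_lit 2) (nat_lit 5) (nat_lit 3) (nat_lit 4) (nat_lit 355) (nat_lit 243) (nat_lit 122)) (XT.lf (nat_lit 0) (nat_lit 15007542325) (nat_lit 76) (nat_lit 7463290381) (nat_lit 152) (nat_lit 382996149079) (nat_lit 1) (nat_lit 5) (nat_lit 2) (nat_lit 5) (nat_lit 3) (nat_lit 4) (nat_lit 356) (nat_lit 243) (nat_lit 121))) (XT.nd (nat_lit 78) (nat_lit 0)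 (nat_lit 0) (XT.lf (nat_lit 0) (nat_lit 27002632684) (nat_lit 76) (nat_lit 1321343932) (nat_lit 152) (nat_lit 397098179991) (nat_lit 1) (nat_lit 5) (nat_lit 2) (nat_lit 5) (nat_lit 3) (nat_lit 4) (nat_lit 357) (nat_lit 243) (nat_lit 120)) (XT.lf (nat_lit 0) (nat_lit 34548317161) (nat_lit 152) (nat_lit 406860426386) (nat_lit 0) (nat_lit 4962421466) (nat_lit 1) (nat_lit 5) (nat_lit 3) (nat_lit 4) (nat_lit 1) (nat_lit 4) (nat_lit 358) (nat_lit 243) (nat_lit 119))))) (XT.nd (nat_lit 28704) (nat_lit 0) (nat_lit 7372) (XT.nd (nat_lit 28548) (nat_lit 0) (nat_lit 7676) (XT.nd (nat_lit 78) (nat_lit 0) (nat_lit 0) (XT.lf (nat_lit 0) (nat_lit 41104090087) (nat_lit 152) (nat_lit 415747660120) (nat_lit 0) (nat_lit 11514864596) (nat_lit 1) (nat_lit 5) (nat_lit 3) (nat_lit 4) (nat_lit 1) (nat_lit 4) (nat_lit 359) (nat_lit 243) (nat_lit 118)) (XT.lf (nat_lit 0) (nat_lit 47986274494) (nat_lit 152) (nat_lit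 425081755324) (nat_lit 0) (nat_lit 18393877769) (nat_lit 1) (nat_lit 5) (nat_lit 3) (nat_lit 4) (nat_lit 1) (nat_lit 4) (nat_lit 360) (nat_lit 243) (nat_lit 117))) (XT.nd (nat_lit 78) (nat_lit 380) (nat_lit 0) (XT.lf (nat_lit 0) (nat_lit 1638282196) (nat_lit 0) (nat_lit 1638282196) (nat_lit 228) (nat_lit 41759155) (nat_lit 107) (nat_lit 5) (nat_lit 107) (nat_lit 3) (nat_lit 110) (nat_lit 3) (nat_lit 244) (nat_lit 244) (nat_lit 232)) (XT.lf (nat_lit 0) (nat_lit 1943879180) (nat_lit 380) (nat_lit 499219370) (nat_lit 380) (nat_lit 4246158554) (nat_lit 102) (nat_lit 3) (nat_lit 107) (nat_lit 3) (nat_lit 107) (nat_lit 5) (nat_lit 245) (nat_lit 244) (nat_lit 231)))) (XT.nd (nat_lit 156) (nat_lit 304) (nat_lit 0) (XT.nd (nat_lit 78) (nat_lit 0) (nat_lit 0) (XT.lf (nat_lit 76) (nat_lit 2515326990) (nat_lit 0) (nat_lit 1464047068) (nat_lit 380) (nat_lit 2770348822) (nat_lit 103) (nat_lit 5)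 (nat_lit 102) (nat_lit 3) (nat_lit 107) (nat_lit 5) (nat_lit 246) (nat_lit 244) (nat_lit 230)) (XT.lf (nat_lit 76) (nat_lit 5630540074) (nat_lit 0) (nat_lit 369946871) (nat_lit 380) (nat_lit 819266585) (nat_lit 103) (nat_lit 5) (nat_lit 102) (nat_lit 3) (nat_lit 107) (nat_lit 5) (nat_lit 247) (nat_lit 244) (nat_lit 229))) (XT.nd (nat_lit 78) (nat_lit 0) (nat_lit 0) (XT.lf (nat_lit 0) (nat_lit 1113494715) (nat_lit 380) (nat_lit 4927644854) (nat_lit 456) (nat_lit 855678356) (nat_lit 98) (nat_lit 5) (nat_lit 103) (nat_lit 5) (nat_lit 104) (nat_lit 5) (nat_lit 248) (nat_lit 244) (nat_lit 228)) (XT.nd (nat_lit 78) (nat_lit 0) (nat_lit 0) (XT.lf (nat_lit 0) (nat_lit 3026077580) (nat_lit 380) (nat_lit 1744762377) (nat_lit 456) (nat_lit 2211322083) (nat_lit 98) (nat_lit 5) (nat_lit 103) (nat_lit 5) (nat_lit 104) (nat_lit 5) (nat_lit 249) (nat_lit 244) (nat_lit 227)) (XT.lf (nat_lit 76) (nat_lit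 1576312153) (nat_lit 0) (nat_lit 3372284710) (nat_lit 456) (nat_lit 2128064790) (nat_lit 99) (nat_lit 5) (nat_lit 98) (nat_lit 5) (nat_lit 104) (nat_lit 5) (nat_lit 250) (nat_lit 244) (nat_lit 226))))))) (XT.nd (nat_lit 702) (nat_lit 2052) (nat_lit 0) (XT.nd (nat_lit 312) (nat_lit 1216) (nat_lit 0) (XT.nd (nat_lit 156) (nat_lit 380) (nat_lit 0) (XT.nd (nat_lit 78) (nat_lit 456) (nat_lit 0) (XT.lf (nat_lit 76) (nat_lit 5053762392) (nat_lit 0) (nat_lit 1836880446) (nat_lit 456) (nat_lit 289648283) (nat_lit 99) (nat_lit 5) (nat_lit 98) (nat_lit 5) (nat_lit 104) (nat_lit 5) (nat_lit 251) (nat_lit 244) (nat_lit 225)) (XT.lf (nat_lit 76) (nat_lit 1363153491) (nat_lit 0) (nat_lit 143025619) (nat_lit 532) (nat_lit 5786263511) (nat_lit 93) (nat_lit 5) (nat_lit 92) (nat_lit 5) (nat_lit 99) (nat_lit 5) (nat_lit 252) (nat_lit 244) (nat_lit 224))) (XT.nd (nat_lit 78) (nat_lit 456) (nat_lit 0) (XT.lf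 (nat_lit 0) (nat_lit 3345217131) (nat_lit 456) (nat_lit 2413760962) (nat_lit 76) (nat_lit 1653325147) (nat_lit 93) (nat_lit 5) (nat_lit 99) (nat_lit 5) (nat_lit 94) (nat_lit 5) (nat_lit 253) (nat_lit 244) (nat_lit 223)) (XT.lf (nat_lit 0) (nat_lit 1242948422) (nat_lit 456) (nat_lit 3960736912) (nat_lit 532) (nat_lit 2338570623) (nat_lit 87) (nat_lit 5) (nat_lit 93) (nat_lit 5) (nat_lit 94) (nat_lit 5) (nat_lit 254) (nat_lit 244) (nat_lit 222)))) (XT.nd (nat_lit 156) (nat_lit 608) (nat_lit 0) (XT.nd (nat_lit 78) (nat_lit 608) (nat_lit 0) (XT.lf (nat_lit 0) (nat_lit 5095422801) (nat_lit 456) (nat_lit 2009642713) (nat_lit 532) (nat_lit 576591827) (nat_lit 87) (nat_lit 5) (nat_lit 93) (nat_lit 5) (nat_lit 94) (nat_lit 5) (nat_lit 255) (nat_lit 244) (nat_lit 221)) (XT.lf (nat_lit 0) (nat_lit 1165568972) (nat_lit 608) (nat_lit 6570230311) (nat_lit 76) (nat_lit 95001827) (nat_lit 79) (nat_lit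 5) (nat_lit 87) (nat_lit 5) (nat_lit 80) (nat_lit 5) (nat_lit 256) (nat_lit 244) (nat_lit 220))) (XT.nd (nat_lit 78) (nat_lit 608) (nat_lit 0) (XT.lf (nat_lit 0) (nat_lit 2967891523) (nat_lit 608) (nat_lit 2713404007) (nat_lit 76) (nat_lit 2306401496) (nat_lit 79) (nat_lit 5) (nat_lit 87) (nat_lit 5) (nat_lit 80) (nat_lit 5) (nat_lit 257) (nat_lit 244) (nat_lit 219)) (XT.nd (nat_lit 78) (nat_lit 0) (nat_lit 0) (XT.lf (nat_lit 0) (nat_lit 1307068224) (nat_lit 608) (nat_lit 3492686939) (nat_lit 684) (nat_lit 3356081919) (nat_lit 71) (nat_lit 5) (nat_lit 79) (nat_lit 5) (nat_lit 80) (nat_lit 5) (nat_lit 258) (nat_lit 244) (nat_lit 218)) (XT.lf (nat_lit 0) (nat_lit 5552883235) (nat_lit 608) (nat_lit 1138064726) (nat_lit 684) (nat_lit 1643402327) (nat_lit 71) (nat_lit 5) (nat_lit 79) (nat_lit 5) (nat_lit 80) (nat_lit 5) (nat_lit 259) (nat_lit 244) (nat_lit 217)))))) (XT.nd (nat_lit 312)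 (nat_lit 988) (nat_lit 0) (XT.nd (nat_lit 156) (nat_lit 304) (nat_lit 0) (XT.nd (nat_lit 78) (nat_lit 0) (nat_lit 0) (XT.lf (nat_lit 0) (nat_lit 118125672) (nat_lit 760) (nat_lit 7081741461) (nat_lit 76) (nat_lit 1323712596) (nat_lit 61) (nat_lit 5) (nat_lit 71) (nat_lit 5) (nat_lit 62) (nat_lit 5) (nat_lit 260) (nat_lit 244) (nat_lit 216)) (XT.lf (nat_lit 0) (nat_lit 1905633066) (nat_lit 760) (nat_lit 2865742149) (nat_lit 76) (nat_lit 3950196659) (nat_lit 61) (nat_lit 5) (nat_lit 71) (nat_lit 5) (nat_lit 62) (nat_lit 5) (nat_lit 261) (nat_lit 244) (nat_lit 215))) (XT.nd (nat_lit 78) (nat_lit 0) (nat_lit 0) (XT.lf (nat_lit 0) (nat_lit 1541507518) (nat_lit 304) (nat_lit 2195168497) (nat_lit 380) (nat_lit 5195369971) (nat_lit 57) (nat_lit 5) (nat_lit 61) (nat_lit 5) (nat_lit 62) (nat_lit 5) (nat_lit 262) (nat_lit 244) (nat_lit 214)) (XT.lf (nat_lit 0) (nat_lit 5648921099) (nat_lit 380)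 (nat_lit 2962193748) (nat_lit 76) (nat_lit 542722999) (nat_lit 57) (nat_lit 5) (nat_lit 62) (nat_lit 5) (nat_lit 58) (nat_lit 5) (nat_lit 263) (nat_lit 244) (nat_lit 213)))) (XT.nd (nat_lit 156) (nat_lit 608) (nat_lit 0) (XT.nd (nat_lit 78) (nat_lit 76) (nat_lit 0) (XT.lf (nat_lit 0) (nat_lit 1635910168) (nat_lit 304) (nat_lit 6017978137) (nat_lit 380) (nat_lit 1733238875) (nat_lit 53) (nat_lit 5) (nat_lit 57) (nat_lit 5) (nat_lit 58) (nat_lit 5) (nat_lit 264) (nat_lit 244) (nat_lit 212)) (XT.lf (nat_lit 0) (nat_lit 110285111) (nat_lit 380) (nat_lit 3134895831) (nat_lit 76) (nat_lit 6387673380) (nat_lit 52) (nat_lit 5) (nat_lit 57) (nat_lit 5) (nat_lit 53) (nat_lit 5) (nat_lit 265) (nat_lit 244) (nat_lit 211))) (XT.nd (nat_lit 78) (nat_lit 304) (nat_lit 0) (XT.lf (nat_lit 0) (nat_lit 1671342442) (nat_lit 304) (nat_lit 281859635) (nat_lit 380) (nat_lit 7938199319) (nat_lit 48) (nat_lit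 5) (nat_lit 52) (nat_lit 5) (nat_lit 53) (nat_lit 5) (nat_lit 266) (nat_lit 244) (nat_lit 210)) (XT.nd (nat_lit 78) (nat_lit 304) (nat_lit 0) (XT.lf (nat_lit 0) (nat_lit 3927552730) (nat_lit 380) (nat_lit 3446513653) (nat_lit 76) (nat_lit 2787061728) (nat_lit 48) (nat_lit 5) (nat_lit 53) (nat_lit 5) (nat_lit 49) (nat_lit 5) (nat_lit 267) (nat_lit 244) (nat_lit 209)) (XT.lf (nat_lit 0) (nat_lit 1545828476) (nat_lit 304) (nat_lit 4427498370) (nat_lit 380) (nat_lit 4472585380) (nat_lit 44) (nat_lit 5) (nat_lit 48) (nat_lit 5) (nat_lit 49) (nat_lit 5) (nat_lit 268) (nat_lit 244) (nat_lit 208))))))))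
noncomputable def xc124 : XT := (XT.nd (nat_lit 1326) (nat_lit 912) (nat_lit 0) (XT.nd (nat_lit 624) (nat_lit 912) (nat_lit 0) (XT.nd (nat_lit 312) (nat_lit 228) (nat_lit 0) (XT.nd (nat_lit 156) (nat_lit 304) (nat_lit 0) (XT.nd (nat_lit 78) (nat_lit 228) (nat_lit 0) (XT.lf (nat_lit 0) (nat_lit 6843751061) (nat_lit 304) (nat_lit 1281632163) (nat_lit 380) (nat_lit 2619549177) (nat_lit 44) (nat_lit 5) (nat_lit 48) (nat_lit 5) (nat_lit 49) (nat_lit 5) (nat_lit 269) (nat_lit 244) (nat_lit 207)) (XT.lf (nat_lit 0) (nat_lit 1294231169) (nat_lit 228) (nat_lit 9090655454) (nat_lit 304) (nat_lit 674211926) (nat_lit 41) (nat_lit 5) (nat_lit 44) (nat_lit 5) (nat_lit 45) (nat_lit 5) (nat_lit 270) (nat_lit 244) (nat_lit 206))) (XT.nd (nat_lit 78) (nat_lit 228) (nat_lit 0) (XT.lf (nat_lit 0) (nat_lit 1361333954) (nat_lit 304) (nat_lit 4608418890) (nat_lit 76) (nat_lit 5416484769) (nat_lit 40) (nat_lit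 5) (nat_lit 44) (nat_lit 5) (nat_lit 41) (nat_lit 5) (nat_lit 271) (nat_lit 244) (nat_lit 205)) (XT.lf (nat_lit 0) (nat_lit 757967711) (nat_lit 228) (nat_lit 2680891207) (nat_lit 304) (nat_lit 8292340781) (nat_lit 37) (nat_lit 5) (nat_lit 40) (nat_lit 5) (nat_lit 41) (nat_lit 5) (nat_lit 272) (nat_lit 244) (nat_lit 204)))) (XT.nd (nat_lit 156) (nat_lit 228) (nat_lit 0) (XT.nd (nat_lit 78) (nat_lit 0) (nat_lit 0) (XT.lf (nat_lit 0) (nat_lit 5663868773) (nat_lit 304) (nat_lit 5612622513) (nat_lit 76) (nat_lit 814892161) (nat_lit 37) (nat_lit 5) (nat_lit 41) (nat_lit 5) (nat_lit 38) (nat_lit 5) (nat_lit 273) (nat_lit 244) (nat_lit 203)) (XT.lf (nat_lit 0) (nat_lit 7998577070) (nat_lit 304) (nat_lit 87401576) (nat_lit 76) (nat_lit 4383821995) (nat_lit 37) (nat_lit 5) (nat_lit 41) (nat_lit 5) (nat_lit 38) (nat_lit 5) (nat_lit 274) (nat_lit 244) (nat_lit 202))) (XT.nd (nat_lit 78) (nat_lit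 0) (nat_lit 0) (XT.lf (nat_lit 0) (nat_lit 5844502927) (nat_lit 228) (nat_lit 4653432556) (nat_lit 304) (nat_lit 2366947149) (nat_lit 34) (nat_lit 5) (nat_lit 37) (nat_lit 5) (nat_lit 38) (nat_lit 5) (nat_lit 275) (nat_lit 244) (nat_lit 201)) (XT.lf (nat_lit 0) (nat_lit 12020312486) (nat_lit 228) (nat_lit 1061288675) (nat_lit 304) (nat_lit 200283616) (nat_lit 34) (nat_lit 5) (nat_lit 37) (nat_lit 5) (nat_lit 38) (nat_lit 5) (nat_lit 276) (nat_lit 244) (nat_lit 200))))) (XT.nd (nat_lit 312) (nat_lit 456) (nat_lit 0) (XT.nd (nat_lit 156) (nat_lit 152) (nat_lit 0) (XT.nd (nat_lit 78) (nat_lit 0) (nat_lit 0) (XT.lf (nat_lit 0) (nat_lit 2087051055) (nat_lit 304) (nat_lit 8906789389) (nat_lit 76) (nat_lit 2720460548) (nat_lit 30) (nat_lit 5) (nat_lit 34) (nat_lit 5) (nat_lit 31) (nat_lit 5) (nat_lit 277) (nat_lit 244) (nat_lit 199)) (XT.lf (nat_lit 0) (nat_lit 4481114737) (nat_lit 304) (nat_lit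 3020006336) (nat_lit 76) (nat_lit 6667213032) (nat_lit 30) (nat_lit 5) (nat_lit 34) (nat_lit 5) (nat_lit 31) (nat_lit 5) (nat_lit 278) (nat_lit 244) (nat_lit 198))) (XT.nd (nat_lit 78) (nat_lit 0) (nat_lit 0) (XT.lf (nat_lit 0) (nat_lit 3210979203) (nat_lit 152) (nat_lit 3795919883) (nat_lit 228) (nat_lit 7637678349) (nat_lit 28) (nat_lit 5) (nat_lit 30) (nat_lit 5) (nat_lit 31) (nat_lit 5) (nat_lit 279) (nat_lit 244) (nat_lit 197)) (XT.lf (nat_lit 0) (nat_lit 9675086514) (nat_lit 228) (nat_lit 5339809617) (nat_lit 76) (nat_lit 129035334) (nat_lit 28) (nat_lit 5) (nat_lit 31) (nat_lit 5) (nat_lit 29) (nat_lit 5) (nat_lit 280) (nat_lit 244) (nat_lit 196)))) (XT.nd (nat_lit 156) (nat_lit 228) (nat_lit 0) (XT.nd (nat_lit 78) (nat_lit 0) (nat_lit 0) (XT.lf (nat_lit 0) (nat_lit 976473221) (nat_lit 228) (nat_lit 11542116235) (nat_lit 304) (nat_lit 3147667697) (nat_lit 25) (nat_lit 5) (nat_lit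 28) (nat_lit 5) (nat_lit 29) (nat_lit 5) (nat_lit 281) (nat_lit 244) (nat_lit 195)) (XT.lf (nat_lit 0) (nat_lit 7743562214) (nat_lit 228) (nat_lit 7816476956) (nat_lit 304) (nat_lit 651965910) (nat_lit 25) (nat_lit 5) (nat_lit 28) (nat_lit 5) (nat_lit 29) (nat_lit 5) (nat_lit 282) (nat_lit 244) (nat_lit 194))) (XT.nd (nat_lit 78) (nat_lit 152) (nat_lit 0) (XT.lf (nat_lit 0) (nat_lit 1871877568) (nat_lit 304) (nat_lit 2015961261) (nat_lit 76) (nat_lit 12897432535) (nat_lit 24) (nat_lit 5) (nat_lit 28) (nat_lit 5) (nat_lit 25) (nat_lit 5) (nat_lit 283) (nat_lit 244) (nat_lit 193)) (XT.nd (nat_lit 78) (nat_lit 0) (nat_lit 0) (XT.lf (nat_lit 0) (nat_lit 4548689587) (nat_lit 228) (nat_lit 12532386463) (nat_lit 76) (nat_lit 303237845) (nat_lit 22) (nat_lit 5) (nat_lit 25) (nat_lit 5) (nat_lit 23) (nat_lit 5) (nat_lit 284) (nat_lit 244) (nat_lit 192)) (XT.lf (nat_lit 0) (nat_lit 7426315471)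 (nat_lit 228) (nat_lit 5990197555) (nat_lit 76) (nat_lit 4593524637) (nat_lit 22) (nat_lit 5) (nat_lit 25) (nat_lit 5) (nat_lit 23) (nat_lit 5) (nat_lit 285) (nat_lit 244) (nat_lit 191))))))) (XT.nd (nat_lit 702) (nat_lit 380) (nat_lit 0) (XT.nd (nat_lit 312) (nat_lit 228) (nat_lit 0) (XT.nd (nat_lit 156) (nat_lit 152) (nat_lit 0) (XT.nd (nat_lit 78) (nat_lit 0) (nat_lit 0) (XT.lf (nat_lit 0) (nat_lit 861432496) (nat_lit 152) (nat_lit 9569874983) (nat_lit 228) (nat_lit 8236639969) (nat_lit 20) (nat_lit 5) (nat_lit 22) (nat_lit 5) (nat_lit 23) (nat_lit 5) (nat_lit 286) (nat_lit 244) (nat_lit 190)) (XT.lf (nat_lit 0) (nat_lit 8219100333) (nat_lit 152) (nat_lit 5439663066) (nat_lit 228) (nat_lit 5696449154) (nat_lit 20) (nat_lit 5) (nat_lit 22) (nat_lit 5) (nat_lit 23) (nat_lit 5) (nat_lit 287) (nat_lit 244) (nat_lit 189))) (XT.nd (nat_lit 78) (nat_lit 152) (nat_lit 0) (XT.lf (nat_lit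 0) (nat_lit 15902261227) (nat_lit 152) (nat_lit 1117490331) (nat_lit 228) (nat_lit 3058548567) (nat_lit 20) (nat_lit 5) (nat_lit 22) (nat_lit 5) (nat_lit 23) (nat_lit 5) (nat_lit 288) (nat_lit 244) (nat_lit 188)) (XT.lf (nat_lit 0) (nat_lit 3137504565) (nat_lit 152) (nat_lit 17486946772) (nat_lit 228) (nat_lit 209371614) (nat_lit 18) (nat_lit 5) (nat_lit 20) (nat_lit 5) (nat_lit 21) (nat_lit 4) (nat_lit 289) (nat_lit 244) (nat_lit 187)))) (XT.nd (nat_lit 156) (nat_lit 152) (nat_lit 0) (XT.nd (nat_lit 78) (nat_lit 0) (nat_lit 0) (XT.lf (nat_lit 0) (nat_lit 2756833286) (nat_lit 228) (nat_lit 10766607807) (nat_lit 76) (nat_lit 8098385968) (nat_lit 17) (nat_lit 5) (nat_lit 20) (nat_lit 5) (nat_lit 18) (nat_lit 5) (nat_lit 290) (nat_lit 244) (nat_lit 186)) (XT.lf (nat_lit 0) (nat_lit 5838994819) (nat_lit 228) (nat_lit 3533665015) (nat_lit 76) (nat_lit 13077721069) (nat_lit 17) (nat_lit 5)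 (nat_lit 20) (nat_lit 5) (nat_lit 18) (nat_lit 5) (nat_lit 291) (nat_lit 244) (nat_lit 185))) (XT.nd (nat_lit 78) (nat_lit 0) (nat_lit 0) (XT.lf (nat_lit 0) (nat_lit 4156018715) (nat_lit 152) (nat_lit 4960021047) (nat_lit 228) (nat_lit 14202336548) (nat_lit 15) (nat_lit 5) (nat_lit 17) (nat_lit 5) (nat_lit 18) (nat_lit 5) (nat_lit 292) (nat_lit 244) (nat_lit 184)) (XT.nd (nat_lit 78) (nat_lit 0) (nat_lit 0) (XT.lf (nat_lit 0) (nat_lit 12315554435) (nat_lit 152) (nat_lit 277680696) (nat_lit 228) (nat_lit 11634771582) (nat_lit 15) (nat_lit 5) (nat_lit 17) (nat_lit 5) (nat_lit 18) (nat_lit 5) (nat_lit 293) (nat_lit 244) (nat_lit 183)) (XT.lf (nat_lit 0) (nat_lit 16294084966) (nat_lit 228) (nat_lit 4408976540) (nat_lit 76) (nat_lit 4477615142) (nat_lit 15) (nat_lit 5) (nat_lit 18) (nat_lit 5) (nat_lit 16) (nat_lit 4) (nat_lit 294) (nat_lit 244) (nat_lit 182)))))) (XT.nd (nat_lit 312) (nat_lit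 76) (nat_lit 0) (XT.nd (nat_lit 156) (nat_lit 228) (nat_lit 0) (XT.nd (nat_lit 78) (nat_lit 0) (nat_lit 0) (XT.lf (nat_lit 0) (nat_lit 3543781564) (nat_lit 76) (nat_lit 16674524226) (nat_lit 152) (nat_lit 5960803340) (nat_lit 14) (nat_lit 5) (nat_lit 15) (nat_lit 5) (nat_lit 16) (nat_lit 4) (nat_lit 295) (nat_lit 244) (nat_lit 181)) (XT.lf (nat_lit 0) (nat_lit 12013045548) (nat_lit 76) (nat_lit 12379300552) (nat_lit 152) (nat_lit 2832480021) (nat_lit 14) (nat_lit 5) (nat_lit 15) (nat_lit 5) (nat_lit 16) (nat_lit 4) (nat_lit 296) (nat_lit 244) (nat_lit 180))) (XT.nd (nat_lit 78) (nat_lit 152) (nat_lit 0) (XT.lf (nat_lit 0) (nat_lit 417358746) (nat_lit 152) (nat_lit 7457404993) (nat_lit 76) (nat_lit 20448772730) (nat_lit 13) (nat_lit 5) (nat_lit 15) (nat_lit 5) (nat_lit 14) (nat_lit 5) (nat_lit 297) (nat_lit 244) (nat_lit 179)) (XT.lf (nat_lit 0) (nat_lit 626608041) (nat_lit 152) (nat_lit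 3098221675) (nat_lit 228) (nat_lit 25750551819) (nat_lit 11) (nat_lit 5) (nat_lit 13) (nat_lit 5) (nat_lit 14) (nat_lit 5) (nat_lit 298) (nat_lit 244) (nat_lit 178)))) (XT.nd (nat_lit 156) (nat_lit 76) (nat_lit 0) (XT.nd (nat_lit 78) (nat_lit 0) (nat_lit 0) (XT.lf (nat_lit 0) (nat_lit 7336767725) (nat_lit 228) (nat_lit 21368768022) (nat_lit 76) (nat_lit 1972364061) (nat_lit 11) (nat_lit 5) (nat_lit 14) (nat_lit 5) (nat_lit 12) (nat_lit 4) (nat_lit 299) (nat_lit 244) (nat_lit 177)) (XT.lf (nat_lit 0) (nat_lit 11161803894) (nat_lit 228) (nat_lit 13596017029) (nat_lit 76) (nat_lit 7181131942) (nat_lit 11) (nat_lit 5) (nat_lit 14) (nat_lit 5) (nat_lit 12) (nat_lit 4) (nat_lit 300) (nat_lit 244) (nat_lit 176))) (XT.nd (nat_lit 78) (nat_lit 76) (nat_lit 0) (XT.lf (nat_lit 0) (nat_lit 15160673529) (nat_lit 228) (nat_lit 5463642041) (nat_lit 76) (nat_lit 12639646238) (nat_lit 11) (nat_lit 5)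 (nat_lit 14) (nat_lit 5) (nat_lit 12) (nat_lit 4) (nat_lit 301) (nat_lit 244) (nat_lit 175)) (XT.nd (nat_lit 78) (nat_lit 0) (nat_lit 0) (XT.lf (nat_lit 0) (nat_lit 3148491115) (nat_lit 76) (nat_lit 16243563403) (nat_lit 152) (nat_lit 15261569066) (nat_lit 10) (nat_lit 5) (nat_lit 11) (nat_lit 5) (nat_lit 12) (nat_lit 4) (nat_lit 302) (nat_lit 244) (nat_lit 174)) (XT.lf (nat_lit 0) (nat_lit 12353729963) (nat_lit 76) (nat_lit 11557580612) (nat_lit 152) (nat_lit 12197671885) (nat_lit 10) (nat_lit 5) (nat_lit 11) (nat_lit 5) (nat_lit 12) (nat_lit 4) (nat_lit 303) (nat_lit 244) (nat_lit 173))))))))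
noncomputable def xc125 : XT := (XT.nd (nat_lit 1326) (nat_lit 228) (nat_lit 0) (XT.nd (nat_lit 624) (nat_lit 76) (nat_lit 0) (XT.nd (nat_lit 312) (nat_lit 76) (nat_lit 0) (XT.nd (nat_lit 156) (nat_lit 152) (nat_lit 0) (XT.nd (nat_lit 78) (nat_lit 0) (nat_lit 0) (XT.lf (nat_lit 0) (nat_lit 21993339057) (nat_lit 76) (nat_lit 6647739516) (nat_lit 152) (nat_lit 8996831166) (nat_lit 10) (nat_lit 5) (nat_lit 11) (nat_lit 5) (nat_lit 12) (nat_lit 4) (nat_lit 304) (nat_lit 244) (nat_lit 172)) (XT.lf (nat_lit 0) (nat_lit 32090269847) (nat_lit 76) (nat_lit 1502350019) (nat_lit 152) (nat_lit 5651425859) (nat_lit 10) (nat_lit 5) (nat_lit 11) (nat_lit 5) (nat_lit 12) (nat_lit 4) (nat_lit 305) (nat_lit 244) (nat_lit 171))) (XT.nd (nat_lit 78) (nat_lit 76) (nat_lit 0) (XT.lf (nat_lit 0) (nat_lit 1732037203) (nat_lit 76) (nat_lit 37133475487) (nat_lit 76) (nat_lit 2061312419) (nat_lit 9) (nat_lit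 4) (nat_lit 10) (nat_lit 5) (nat_lit 10) (nat_lit 4) (nat_lit 306) (nat_lit 244) (nat_lit 170)) (XT.lf (nat_lit 0) (nat_lit 1787289672) (nat_lit 152) (nat_lit 31454632248) (nat_lit 76) (nat_lit 9443827962) (nat_lit 8) (nat_lit 5) (nat_lit 10) (nat_lit 5) (nat_lit 9) (nat_lit 4) (nat_lit 307) (nat_lit 244) (nat_lit 169)))) (XT.nd (nat_lit 156) (nat_lit 76) (nat_lit 0) (XT.nd (nat_lit 78) (nat_lit 0) (nat_lit 0) (XT.lf (nat_lit 0) (nat_lit 5745612072) (nat_lit 152) (nat_lit 23384274195) (nat_lit 76) (nat_lit 15401738710) (nat_lit 8) (nat_lit 5) (nat_lit 10) (nat_lit 5) (nat_lit 9) (nat_lit 4) (nat_lit 308) (nat_lit 244) (nat_lit 168)) (XT.lf (nat_lit 0) (nat_lit 9889054227) (nat_lit 152) (nat_lit 14932315744) (nat_lit 76) (nat_lit 21649084505) (nat_lit 8) (nat_lit 5) (nat_lit 10) (nat_lit 5) (nat_lit 9) (nat_lit 4) (nat_lit 309) (nat_lit 244) (nat_lit 167))) (XT.nd (nat_lit 78) (nat_lit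 76) (nat_lit 0) (XT.lf (nat_lit 0) (nat_lit 14227481477) (nat_lit 152) (nat_lit 6078633185) (nat_lit 76) (nat_lit 28200739980) (nat_lit 8) (nat_lit 5) (nat_lit 10) (nat_lit 5) (nat_lit 9) (nat_lit 4) (nat_lit 310) (nat_lit 244) (nat_lit 166)) (XT.lf (nat_lit 0) (nat_lit 3303589162) (nat_lit 76) (nat_lit 15519212532) (nat_lit 152) (nat_lit 31820293437) (nat_lit 7) (nat_lit 5) (nat_lit 8) (nat_lit 5) (nat_lit 9) (nat_lit 4) (nat_lit 311) (nat_lit 244) (nat_lit 165))))) (XT.nd (nat_lit 312) (nat_lit 76) (nat_lit 0) (XT.nd (nat_lit 156) (nat_lit 0) (nat_lit 0) (XT.nd (nat_lit 78) (nat_lit 0) (nat_lit 0) (XT.lf (nat_lit 0) (nat_lit 13346399864) (nat_lit 76) (nat_lit 10393073298) (nat_lit 152) (nat_lit 29142113215) (nat_lit 7) (nat_lit 5) (nat_lit 8) (nat_lit 5) (nat_lit 9) (nat_lit 4) (nat_lit 312) (nat_lit 244) (nat_lit 164)) (XT.lf (nat_lit 0) (nat_lit 23872723310) (nat_lit 76) (nat_lit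 5018436461) (nat_lit 152) (nat_lit 26341400475) (nat_lit 7) (nat_lit 5) (nat_lit 8) (nat_lit 5) (nat_lit 9) (nat_lit 4) (nat_lit 313) (nat_lit 244) (nat_lit 163))) (XT.nd (nat_lit 78) (nat_lit 0) (nat_lit 0) (XT.lf (nat_lit 0) (nat_lit 34299768264) (nat_lit 152) (nat_lit 22803632943) (nat_lit 0) (nat_lit 597731045) (nat_lit 7) (nat_lit 5) (nat_lit 9) (nat_lit 4) (nat_lit 7) (nat_lit 4) (nat_lit 314) (nat_lit 244) (nat_lit 162)) (XT.lf (nat_lit 0) (nat_lit 40051153404) (nat_lit 152) (nat_lit 13919179743) (nat_lit 0) (nat_lit 6319197945) (nat_lit 7) (nat_lit 5) (nat_lit 9) (nat_lit 4) (nat_lit 7) (nat_lit 4) (nat_lit 315) (nat_lit 244) (nat_lit 161)))) (XT.nd (nat_lit 156) (nat_lit 0) (nat_lit 0) (XT.nd (nat_lit 78) (nat_lit 76) (nat_lit 0) (XT.lf (nat_lit 0) (nat_lit 46080657109) (nat_lit 152) (nat_lit 4606972019) (nat_lit 0) (nat_lit 12320208088) (nat_lit 7) (nat_lit 5) (nat_lit 9)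 (nat_lit 4) (nat_lit 7) (nat_lit 4) (nat_lit 316) (nat_lit 244) (nat_lit 160)) (XT.lf (nat_lit 0) (nat_lit 5325615094) (nat_lit 76) (nat_lit 47160168020) (nat_lit 76) (nat_lit 13372582274) (nat_lit 6) (nat_lit 4) (nat_lit 7) (nat_lit 5) (nat_lit 7) (nat_lit 4) (nat_lit 317) (nat_lit 244) (nat_lit 159))) (XT.nd (nat_lit 78) (nat_lit 0) (nat_lit 0) (XT.lf (nat_lit 0) (nat_lit 15899344257) (nat_lit 76) (nat_lit 43381029485) (nat_lit 76) (nat_lit 9567599239) (nat_lit 6) (nat_lit 4) (nat_lit 7) (nat_lit 5) (nat_lit 7) (nat_lit 4) (nat_lit 318) (nat_lit 244) (nat_lit 158)) (XT.nd (nat_lit 78) (nat_lit 0) (nat_lit 0) (XT.lf (nat_lit 0) (nat_lit 26987063715) (nat_lit 76) (nat_lit 39419236875) (nat_lit 76) (nat_lit 5581192819) (nat_lit 6) (nat_lit 4) (nat_lit 7) (nat_lit 5) (nat_lit 7) (nat_lit 4) (nat_lit 319) (nat_lit 244) (nat_lit 157)) (XT.lf (nat_lit 0) (nat_lit 38615172798) (nat_lit 76)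 (nat_lit 35265357351) (nat_lit 76) (nat_lit 1403871571) (nat_lit 6) (nat_lit 4) (nat_lit 7) (nat_lit 5) (nat_lit 7) (nat_lit 4) (nat_lit 320) (nat_lit 244) (nat_lit 156))))))) (XT.nd (nat_lit 702) (nat_lit 76) (nat_lit 0) (XT.nd (nat_lit 312) (nat_lit 0) (nat_lit 0) (XT.nd (nat_lit 156) (nat_lit 76) (nat_lit 0) (XT.nd (nat_lit 78) (nat_lit 0) (nat_lit 0) (XT.lf (nat_lit 0) (nat_lit 2879113997) (nat_lit 152) (nat_lit 27981627536) (nat_lit 76) (nat_lit 47883484297) (nat_lit 5) (nat_lit 5) (nat_lit 7) (nat_lit 5) (nat_lit 6) (nat_lit 4) (nat_lit 321) (nat_lit 244) (nat_lit 155)) (XT.lf (nat_lit 0) (nat_lit 7321689541) (nat_lit 152) (nat_lit 18895610005) (nat_lit 76) (nat_lit 56158970406) (nat_lit 5) (nat_lit 5) (nat_lit 7) (nat_lit 5) (nat_lit 6) (nat_lit 4) (nat_lit 322) (nat_lit 244) (nat_lit 154))) (XT.nd (nat_lit 78) (nat_lit 76) (nat_lit 0) (XT.lf (nat_lit 0) (nat_lit 11979365278)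 (nat_lit 152) (nat_lit 9367624586) (nat_lit 76) (nat_lit 64843287866) (nat_lit 5) (nat_lit 5) (nat_lit 7) (nat_lit 5) (nat_lit 6) (nat_lit 4) (nat_lit 323) (nat_lit 244) (nat_lit 153)) (XT.lf (nat_lit 0) (nat_lit 645680200) (nat_lit 76) (nat_lit 16227631590) (nat_lit 152) (nat_lit 73321514301) (nat_lit 4) (nat_lit 5) (nat_lit 5) (nat_lit 5) (nat_lit 6) (nat_lit 4) (nat_lit 324) (nat_lit 244) (nat_lit 152)))) (XT.nd (nat_lit 156) (nat_lit 0) (nat_lit 0) (XT.nd (nat_lit 78) (nat_lit 0) (nat_lit 0) (XT.lf (nat_lit 0) (nat_lit 11473316743) (nat_lit 76) (nat_lit 10690728582) (nat_lit 152) (nat_lit 72227961149) (nat_lit 4) (nat_lit 5) (nat_lit 5) (nat_lit 5) (nat_lit 6) (nat_lit 4) (nat_lit 325) (nat_lit 244) (nat_lit 151)) (XT.lf (nat_lit 0) (nat_lit 22831329156) (nat_lit 76) (nat_lit 4881742993) (nat_lit 152) (nat_lit 71086294553) (nat_lit 4) (nat_lit 5) (nat_lit 5) (nat_lit 5) (nat_lit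 6) (nat_lit 4) (nat_lit 326) (nat_lit 244) (nat_lit 150))) (XT.nd (nat_lit 78) (nat_lit 0) (nat_lit 0) (XT.lf (nat_lit 0) (nat_lit 33552544995) (nat_lit 152) (nat_lit 68699580931) (nat_lit 0) (nat_lit 1174327524) (nat_lit 4) (nat_lit 5) (nat_lit 6) (nat_lit 4) (nat_lit 4) (nat_lit 4) (nat_lit 327) (nat_lit 244) (nat_lit 149)) (XT.nd (nat_lit 78) (nat_lit 0) (nat_lit 0) (XT.lf (nat_lit 0) (nat_lit 39758289676) (nat_lit 152) (nat_lit 61157936342) (nat_lit 0) (nat_lit 7364961461) (nat_lit 4) (nat_lit 5) (nat_lit 6) (nat_lit 4) (nat_lit 4) (nat_lit 4) (nat_lit 328) (nat_lit 244) (nat_lit 148)) (XT.lf (nat_lit 0) (nat_lit 46268864085) (nat_lit 152) (nat_lit 53248929791) (nat_lit 0) (nat_lit 13861144684) (nat_lit 4) (nat_lit 5) (nat_lit 6) (nat_lit 4) (nat_lit 4) (nat_lit 4) (nat_lit 329) (nat_lit 244) (nat_lit 147)))))) (XT.nd (nat_lit 312) (nat_lit 76) (nat_lit 0) (XT.nd (nat_lit 156) (nat_lit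 0) (nat_lit 0) (XT.nd (nat_lit 78) (nat_lit 0) (nat_lit 0) (XT.lf (nat_lit 0) (nat_lit 53099769589) (nat_lit 152) (nat_lit 44953730312) (nat_lit 0) (nat_lit 20678344298) (nat_lit 4) (nat_lit 5) (nat_lit 6) (nat_lit 4) (nat_lit 4) (nat_lit 4) (nat_lit 330) (nat_lit 244) (nat_lit 146)) (XT.lf (nat_lit 0) (nat_lit 60267270249) (nat_lit 152) (nat_lit 36252587430) (nat_lit 0) (nat_lit 27832791730) (nat_lit 4) (nat_lit 5) (nat_lit 6) (nat_lit 4) (nat_lit 4) (nat_lit 4) (nat_lit 331) (nat_lit 244) (nat_lit 145))) (XT.nd (nat_lit 78) (nat_lit 0) (nat_lit 0) (XT.lf (nat_lit 0) (nat_lit 67788431544) (nat_lit 152) (nat_lit 27124784137) (nat_lit 0) (nat_lit 35341521377) (nat_lit 4) (nat_lit 5) (nat_lit 6) (nat_lit 4) (nat_lit 4) (nat_lit 4) (nat_lit 332) (nat_lit 244) (nat_lit 144)) (XT.lf (nat_lit 0) (nat_lit 75681160999) (nat_lit 152) (nat_lit 17548587568) (nat_lit 0) (nat_lit 43222411169) (nat_lit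 4) (nat_lit 5) (nat_lit 6) (nat_lit 4) (nat_lit 4) (nat_lit 4) (nat_lit 333) (nat_lit 244) (nat_lit 143)))) (XT.nd (nat_lit 156) (nat_lit 0) (nat_lit 0) (XT.nd (nat_lit 78) (nat_lit 76) (nat_lit 0) (XT.lf (nat_lit 0) (nat_lit 83964250827) (nat_lit 152) (nat_lit 7501197257) (nat_lit 0) (nat_lit 51494225128) (nat_lit 4) (nat_lit 5) (nat_lit 6) (nat_lit 4) (nat_lit 4) (nat_lit 4) (nat_lit 334) (nat_lit 244) (nat_lit 142)) (XT.lf (nat_lit 0) (nat_lit 3141868571) (nat_lit 76) (nat_lit 89564607474) (nat_lit 76) (nat_lit 57083842851) (nat_lit 3) (nat_lit 4) (nat_lit 4) (nat_lit 5) (nat_lit 4) (nat_lit 4) (nat_lit 335) (nat_lit 244) (nat_lit 141))) (XT.nd (nat_lit 78) (nat_lit 0) (nat_lit 0) (XT.lf (nat_lit 0) (nat_lit 14570375898) (nat_lit 76) (nat_lit 87438483065) (nat_lit 76) (nat_lit 54947490895) (nat_lit 3) (nat_lit 4) (nat_lit 4) (nat_lit 5) (nat_lit 4) (nat_lit 4) (nat_lit 336) (nat_lit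 244) (nat_lit 140)) (XT.nd (nat_lit 78) (nat_lit 0) (nat_lit 0) (XT.lf (nat_lit 0) (nat_lit 26563511997) (nat_lit 76) (nat_lit 85209049059) (nat_lit 76) (nat_lit 52708316369) (nat_lit 3) (nat_lit 4) (nat_lit 4) (nat_lit 5) (nat_lit 4) (nat_lit 4) (nat_lit 337) (nat_lit 244) (nat_lit 139)) (XT.lf (nat_lit 0) (nat_lit 39149831955) (nat_lit 76) (nat_lit 82870997282) (nat_lit 76) (nat_lit 50360987906) (nat_lit 3) (nat_lit 4) (nat_lit 4) (nat_lit 5) (nat_lit 4) (nat_lit 4) (nat_lit 338) (nat_lit 244) (nat_lit 138))))))))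
noncomputable def xc126 : XT := (XT.nd (nat_lit 1326) (nat_lit 76) (nat_lit 0) (XT.nd (nat_lit 624) (nat_lit 76) (nat_lit 0) (XT.nd (nat_lit 312) (nat_lit 0) (nat_lit 0) (XT.nd (nat_lit 156) (nat_lit 0) (nat_lit 0) (XT.nd (nat_lit 78) (nat_lit 0) (nat_lit 0) (XT.lf (nat_lit 0) (nat_lit 52359303199) (nat_lit 76) (nat_lit 80418760944) (nat_lit 76) (nat_lit 47899916629) (nat_lit 3) (nat_lit 4) (nat_lit 4) (nat_lit 5) (nat_lit 4) (nat_lit 4) (nat_lit 339) (nat_lit 244) (nat_lit 137)) (XT.lf (nat_lit 0) (nat_lit 66223376853) (nat_lit 76) (nat_lit 77846501386) (nat_lit 76) (nat_lit 45319242843) (nat_lit 3) (nat_lit 4) (nat_lit 4) (nat_lit 5) (nat_lit 4) (nat_lit 4) (nat_lit 340) (nat_lit 244) (nat_lit 136))) (XT.nd (nat_lit 78) (nat_lit 0) (nat_lit 0) (XT.lf (nat_lit 0) (nat_lit 80775062614) (nat_lit 76) (nat_lit 75148094181) (nat_lit 76) (nat_lit 42612822088) (nat_lit 3) (nat_lit 4) (nat_lit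 4) (nat_lit 5) (nat_lit 4) (nat_lit 4) (nat_lit 341) (nat_lit 244) (nat_lit 135)) (XT.lf (nat_lit 0) (nat_lit 96049007354) (nat_lit 76) (nat_lit 72317114550) (nat_lit 76) (nat_lit 39774210505) (nat_lit 3) (nat_lit 4) (nat_lit 4) (nat_lit 5) (nat_lit 4) (nat_lit 4) (nat_lit 342) (nat_lit 244) (nat_lit 134)))) (XT.nd (nat_lit 156) (nat_lit 0) (nat_lit 0) (XT.nd (nat_lit 78) (nat_lit 0) (nat_lit 0) (XT.lf (nat_lit 0) (nat_lit 112081577607) (nat_lit 76) (nat_lit 69346822065) (nat_lit 76) (nat_lit 36796649493) (nat_lit 3) (nat_lit 4) (nat_lit 4) (nat_lit 5) (nat_lit 4) (nat_lit 4) (nat_lit 343) (nat_lit 244) (nat_lit 133)) (XT.lf (nat_lit 0) (nat_lit 128910946161) (nat_lit 76) (nat_lit 66230144602) (nat_lit 76) (nat_lit 33673049624) (nat_lit 3) (nat_lit 4) (nat_lit 4) (nat_lit 5) (nat_lit 4) (nat_lit 4) (nat_lit 344) (nat_lit 244) (nat_lit 132))) (XT.nd (nat_lit 78) (nat_lit 0) (nat_lit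 0) (XT.lf (nat_lit 0) (nat_lit 146577182941) (nat_lit 76) (nat_lit 62959661499) (nat_lit 76) (nat_lit 30395973753) (nat_lit 3) (nat_lit 4) (nat_lit 4) (nat_lit 5) (nat_lit 4) (nat_lit 4) (nat_lit 345) (nat_lit 244) (nat_lit 131)) (XT.lf (nat_lit 0) (nat_lit 165122350414) (nat_lit 76) (nat_lit 59527585892) (nat_lit 76) (nat_lit 26957619320) (nat_lit 3) (nat_lit 4) (nat_lit 4) (nat_lit 5) (nat_lit 4) (nat_lit 4) (nat_lit 346) (nat_lit 244) (nat_lit 130))))) (XT.nd (nat_lit 312) (nat_lit 76) (nat_lit 0) (XT.nd (nat_lit 156) (nat_lit 0) (nat_lit 0) (XT.nd (nat_lit 78) (nat_lit 0) (nat_lit 0) (XT.lf (nat_lit 0) (nat_lit 184590603741) (nat_lit 76) (nat_lit 55925746173) (nat_lit 76) (nat_lit 23349799766) (nat_lit 3) (nat_lit 4) (nat_lit 4) (nat_lit 5) (nat_lit 4) (nat_lit 4) (nat_lit 347) (nat_lit 244) (nat_lit 129)) (XT.lf (nat_lit 0) (nat_lit 205028295908) (nat_lit 76) (nat_lit 52145566532)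 (nat_lit 76) (nat_lit 19563925045) (nat_lit 3) (nat_lit 4) (nat_lit 4) (nat_lit 5) (nat_lit 4) (nat_lit 4) (nat_lit 348) (nat_lit 244) (nat_lit 128))) (XT.nd (nat_lit 78) (nat_lit 0) (nat_lit 0) (XT.lf (nat_lit 0) (nat_lit 226484088084) (nat_lit 76) (nat_lit 48178046542) (nat_lit 76) (nat_lit 15590981169) (nat_lit 3) (nat_lit 4) (nat_lit 4) (nat_lit 5) (nat_lit 4) (nat_lit 4) (nat_lit 349) (nat_lit 244) (nat_lit 127)) (XT.lf (nat_lit 0) (nat_lit 249009065491) (nat_lit 76) (nat_lit 44013739727) (nat_lit 76) (nat_lit 11421508749) (nat_lit 3) (nat_lit 4) (nat_lit 4) (nat_lit 5) (nat_lit 4) (nat_lit 4) (nat_lit 350) (nat_lit 244) (nat_lit 126)))) (XT.nd (nat_lit 156) (nat_lit 76) (nat_lit 0) (XT.nd (nat_lit 78) (nat_lit 0) (nat_lit 0) (XT.lf (nat_lit 0) (nat_lit 272656859026) (nat_lit 76) (nat_lit 39642731071) (nat_lit 76) (nat_lit 7045580468) (nat_lit 3) (nat_lit 4) (nat_lit 4) (nat_lit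 5) (nat_lit 4) (nat_lit 4) (nat_lit 351) (nat_lit 244) (nat_lit 125)) (XT.lf (nat_lit 0) (nat_lit 297483772960) (nat_lit 76) (nat_lit 35054613410) (nat_lit 76) (nat_lit 2452777449) (nat_lit 3) (nat_lit 4) (nat_lit 4) (nat_lit 5) (nat_lit 4) (nat_lit 4) (nat_lit 352) (nat_lit 244) (nat_lit 124))) (XT.nd (nat_lit 78) (nat_lit 0) (nat_lit 0) (XT.lf (nat_lit 0) (nat_lit 2292050025) (nat_lit 152) (nat_lit 27907595652) (nat_lit 76) (nat_lit 321218051991) (nat_lit 2) (nat_lit 5) (nat_lit 4) (nat_lit 5) (nat_lit 3) (nat_lit 4) (nat_lit 353) (nat_lit 244) (nat_lit 123)) (XT.nd (nat_lit 78) (nat_lit 0) (nat_lit 0) (XT.lf (nat_lit 0) (nat_lit 7190002238) (nat_lit 152) (nat_lit 17871043372) (nat_lit 76) (nat_lit 343602588590) (nat_lit 2) (nat_lit 5) (nat_lit 4) (nat_lit 5) (nat_lit 3) (nat_lit 4) (nat_lit 354) (nat_lit 244) (nat_lit 122)) (XT.lf (nat_lit 0) (nat_lit 12331245176) (nat_lit 152) (nat_lit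 7335542737) (nat_lit 76) (nat_lit 367105161994) (nat_lit 2) (nat_lit 5) (nat_lit 4) (nat_lit 5) (nat_lit 3) (nat_lit 4) (nat_lit 355) (nat_lit 244) (nat_lit 121))))))) (XT.nd (nat_lit 29172) (nat_lit 0) (nat_lit 5928) (XT.nd (nat_lit 312) (nat_lit 0) (nat_lit 0) (XT.nd (nat_lit 156) (nat_lit 0) (nat_lit 0) (XT.nd (nat_lit 78) (nat_lit 0) (nat_lit 0) (XT.lf (nat_lit 0) (nat_lit 3847122730) (nat_lit 76) (nat_lit 13940961530) (nat_lit 152) (nat_lit 387994672346) (nat_lit 1) (nat_lit 5) (nat_lit 2) (nat_lit 5) (nat_lit 3) (nat_lit 4) (nat_lit 356) (nat_lit 244) (nat_lit 120)) (XT.lf (nat_lit 0) (nat_lit 15840897028) (nat_lit 76) (nat_lit 7799599621) (nat_lit 152) (nat_lit 402097472240) (nat_lit 1) (nat_lit 5) (nat_lit 2) (nat_lit 5) (nat_lit 3) (nat_lit 4) (nat_lit 357) (nat_lit 244) (nat_lit 119))) (XT.nd (nat_lit 78) (nat_lit 0) (nat_lit 0) (XT.lf (nat_lit 0) (nat_lit 28431790591) (nat_lit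 76) (nat_lit 1352310862) (nat_lit 152) (nat_lit 416906913473) (nat_lit 1) (nat_lit 5) (nat_lit 2) (nat_lit 5) (nat_lit 3) (nat_lit 4) (nat_lit 358) (nat_lit 244) (nat_lit 118)) (XT.lf (nat_lit 0) (nat_lit 36318089229) (nat_lit 152) (nat_lit 427126564114) (nat_lit 0) (nat_lit 5242901434) (nat_lit 1) (nat_lit 5) (nat_lit 3) (nat_lit 4) (nat_lit 1) (nat_lit 4) (nat_lit 359) (nat_lit 244) (nat_lit 117)))) (XT.nd (nat_lit 28626) (nat_lit 0) (nat_lit 7296) (XT.nd (nat_lit 28548) (nat_lit 0) (nat_lit 7676) (XT.lf (nat_lit 0) (nat_lit 43199633838) (nat_lit 152) (nat_lit 436461820658) (nat_lit 0) (nat_lit 12121425821) (nat_lit 1) (nat_lit 5) (nat_lit 3) (nat_lit 4) (nat_lit 1) (nat_lit 4) (nat_lit 360) (nat_lit 244) (nat_lit 116)) (XT.lf (nat_lit 0) (nat_lit 1952658604) (nat_lit 380) (nat_lit 710006212) (nat_lit 380) (nat_lit 710006212) (nat_lit 102) (nat_lit 3) (nat_lit 107) (nat_lit 3) (nat_lit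 107) (nat_lit 5) (nat_lit 245) (nat_lit 245) (nat_lit 230))) (XT.nd (nat_lit 78) (nat_lit 380) (nat_lit 0) (XT.lf (nat_lit 76) (nat_lit 1531214035) (nat_lit 0) (nat_lit 4333960571) (nat_lit 380) (nat_lit 944773027) (nat_lit 103) (nat_lit 5) (nat_lit 102) (nat_lit 3) (nat_lit 107) (nat_lit 5) (nat_lit 246) (nat_lit 245) (nat_lit 229)) (XT.nd (nat_lit 78) (nat_lit 0) (nat_lit 0) (XT.lf (nat_lit 0) (nat_lit 914930610) (nat_lit 380) (nat_lit 2282852443) (nat_lit 456) (nat_lit 3684692836) (nat_lit 97) (nat_lit 5) (nat_lit 102) (nat_lit 3) (nat_lit 103) (nat_lit 5) (nat_lit 247) (nat_lit 245) (nat_lit 228)) (XT.lf (nat_lit 76) (nat_lit 807602594) (nat_lit 0) (nat_lit 1925352004) (nat_lit 456) (nat_lit 4230681107) (nat_lit 98) (nat_lit 5) (nat_lit 97) (nat_lit 5) (nat_lit 103) (nat_lit 5) (nat_lit 248) (nat_lit 245) (nat_lit 227)))))) (XT.nd (nat_lit 312) (nat_lit 988) (nat_lit 0) (XT.nd (nat_lit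 156) (nat_lit 380) (nat_lit 0) (XT.nd (nat_lit 78) (nat_lit 0) (nat_lit 76) (XT.lf (nat_lit 76) (nat_lit 4067313194) (nat_lit 0) (nat_lit 502198327) (nat_lit 456) (nat_lit 2483564062) (nat_lit 98) (nat_lit 5) (nat_lit 97) (nat_lit 5) (nat_lit 103) (nat_lit 5) (nat_lit 249) (nat_lit 245) (nat_lit 226)) (XT.lf (nat_lit 76) (nat_lit 268109669) (nat_lit 0) (nat_lit 6144411397) (nat_lit 456) (nat_lit 739310062) (nat_lit 99) (nat_lit 5) (nat_lit 98) (nat_lit 5) (nat_lit 104) (nat_lit 5) (nat_lit 250) (nat_lit 245) (nat_lit 225))) (XT.nd (nat_lit 78) (nat_lit 0) (nat_lit 0) (XT.lf (nat_lit 0) (nat_lit 1013547545) (nat_lit 456) (nat_lit 3561618508) (nat_lit 532) (nat_lit 2682209940) (nat_lit 92) (nat_lit 5) (nat_lit 98) (nat_lit 5) (nat_lit 99) (nat_lit 5) (nat_lit 251) (nat_lit 245) (nat_lit 224)) (XT.lf (nat_lit 0) (nat_lit 2730840187) (nat_lit 456) (nat_lit 153000015) (nat_lit 532) (nat_lit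 4489166646) (nat_lit 92) (nat_lit 5) (nat_lit 98) (nat_lit 5) (nat_lit 99) (nat_lit 5) (nat_lit 252) (nat_lit 245) (nat_lit 223)))) (XT.nd (nat_lit 156) (nat_lit 988) (nat_lit 0) (XT.nd (nat_lit 78) (nat_lit 0) (nat_lit 76) (XT.lf (nat_lit 76) (nat_lit 3472948519) (nat_lit 0) (nat_lit 1021593135) (nat_lit 532) (nat_lit 3002323365) (nat_lit 93) (nat_lit 5) (nat_lit 92) (nat_lit 5) (nat_lit 99) (nat_lit 5) (nat_lit 253) (nat_lit 245) (nat_lit 222)) (XT.lf (nat_lit 0) (nat_lit 6273857359) (nat_lit 456) (nat_lit 424503928) (nat_lit 76) (nat_lit 932633811) (nat_lit 93) (nat_lit 5) (nat_lit 99) (nat_lit 5) (nat_lit 94) (nat_lit 5) (nat_lit 254) (nat_lit 245) (nat_lit 221))) (XT.nd (nat_lit 78) (nat_lit 532) (nat_lit 0) (XT.lf (nat_lit 0) (nat_lit 341804590) (nat_lit 532) (nat_lit 4397562778) (nat_lit 76) (nat_lit 3033416336) (nat_lit 86) (nat_lit 5) (nat_lit 93) (nat_lit 5) (nat_lit 87) (nat_lit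 5) (nat_lit 255) (nat_lit 245) (nat_lit 220)) (XT.nd (nat_lit 78) (nat_lit 532) (nat_lit 0) (XT.lf (nat_lit 0) (nat_lit 2003205788) (nat_lit 532) (nat_lit 631453074) (nat_lit 76) (nat_lit 5290123569) (nat_lit 86) (nat_lit 5) (nat_lit 93) (nat_lit 5) (nat_lit 87) (nat_lit 5) (nat_lit 256) (nat_lit 245) (nat_lit 219)) (XT.lf (nat_lit 0) (nat_lit 3366467606) (nat_lit 532) (nat_lit 353591761) (nat_lit 608) (nat_lit 4366073206) (nat_lit 79) (nat_lit 5) (nat_lit 86) (nat_lit 5) (nat_lit 87) (nat_lit 5) (nat_lit 257) (nat_lit 245) (nat_lit 218))))))))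
noncomputable def xc127 : XT := (XT.nd (nat_lit 1404) (nat_lit 1444) (nat_lit 0) (XT.nd (nat_lit 702) (nat_lit 1368) (nat_lit 0) (XT.nd (nat_lit 312) (nat_lit 684) (nat_lit 0) (XT.nd (nat_lit 156) (nat_lit 760) (nat_lit 0) (XT.nd (nat_lit 78) (nat_lit 608) (nat_lit 0) (XT.lf (nat_lit 0) (nat_lit 5488373135) (nat_lit 608) (nat_lit 768505238) (nat_lit 76) (nat_lit 2000743918) (nat_lit 79) (nat_lit 5) (nat_lit 87) (nat_lit 5) (nat_lit 80) (nat_lit 5) (nat_lit 258) (nat_lit 245) (nat_lit 217)) (XT.lf (nat_lit 0) (nat_lit 3419433041) (nat_lit 608) (nat_lit 3911399976) (nat_lit 684) (nat_lit 1107903096) (nat_lit 71) (nat_lit 5) (nat_lit 79) (nat_lit 5) (nat_lit 80) (nat_lit 5) (nat_lit 259) (nat_lit 245) (nat_lit 216))) (XT.nd (nat_lit 78) (nat_lit 684) (nat_lit 0) (XT.lf (nat_lit 0) (nat_lit 556948438) (nat_lit 684) (nat_lit 861043227) (nat_lit 76) (nat_lit 7213681438) (nat_lit 70) (nat_lit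 5) (nat_lit 79) (nat_lit 5) (nat_lit 71) (nat_lit 5) (nat_lit 260) (nat_lit 245) (nat_lit 215)) (XT.lf (nat_lit 0) (nat_lit 2274100538) (nat_lit 760) (nat_lit 5317118543) (nat_lit 76) (nat_lit 1242105577) (nat_lit 61) (nat_lit 5) (nat_lit 71) (nat_lit 5) (nat_lit 62) (nat_lit 5) (nat_lit 261) (nat_lit 245) (nat_lit 214)))) (XT.nd (nat_lit 156) (nat_lit 380) (nat_lit 0) (XT.nd (nat_lit 78) (nat_lit 304) (nat_lit 0) (XT.lf (nat_lit 0) (nat_lit 4048599083) (nat_lit 760) (nat_lit 991210217) (nat_lit 76) (nat_lit 4006951588) (nat_lit 61) (nat_lit 5) (nat_lit 71) (nat_lit 5) (nat_lit 62) (nat_lit 5) (nat_lit 262) (nat_lit 245) (nat_lit 213)) (XT.lf (nat_lit 0) (nat_lit 3603856464) (nat_lit 304) (nat_lit 2300824620) (nat_lit 380) (nat_lit 3366808294) (nat_lit 57) (nat_lit 5) (nat_lit 61) (nat_lit 5) (nat_lit 62) (nat_lit 5) (nat_lit 263) (nat_lit 245) (nat_lit 212))) (XT.nd (nat_lit 78) (nat_lit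 380) (nat_lit 0) (XT.lf (nat_lit 0) (nat_lit 7818257933) (nat_lit 380) (nat_lit 1117571598) (nat_lit 76) (nat_lit 573641056) (nat_lit 57) (nat_lit 5) (nat_lit 62) (nat_lit 5) (nat_lit 58) (nat_lit 5) (nat_lit 264) (nat_lit 245) (nat_lit 211)) (XT.nd (nat_lit 78) (nat_lit 0) (nat_lit 0) (XT.lf (nat_lit 0) (nat_lit 103070083) (nat_lit 380) (nat_lit 6081119574) (nat_lit 76) (nat_lit 3573481053) (nat_lit 52) (nat_lit 5) (nat_lit 57) (nat_lit 5) (nat_lit 53) (nat_lit 5) (nat_lit 265) (nat_lit 245) (nat_lit 210)) (XT.lf (nat_lit 0) (nat_lit 1891725758) (nat_lit 380) (nat_lit 1359026779) (nat_lit 76) (nat_lit 6768284010) (nat_lit 52) (nat_lit 5) (nat_lit 57) (nat_lit 5) (nat_lit 53) (nat_lit 5) (nat_lit 266) (nat_lit 245) (nat_lit 209)))))) (XT.nd (nat_lit 312) (nat_lit 760) (nat_lit 0) (XT.nd (nat_lit 156) (nat_lit 304) (nat_lit 0) (XT.nd (nat_lit 78) (nat_lit 0) (nat_lit 0) (XT.lf (nat_lit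 0) (nat_lit 3656352218) (nat_lit 304) (nat_lit 115555280) (nat_lit 380) (nat_lit 6521664872) (nat_lit 48) (nat_lit 5) (nat_lit 52) (nat_lit 5) (nat_lit 53) (nat_lit 5) (nat_lit 267) (nat_lit 245) (nat_lit 208)) (XT.lf (nat_lit 0) (nat_lit 5765703533) (nat_lit 380) (nat_lit 1722624820) (nat_lit 76) (nat_lit 3092722905) (nat_lit 48) (nat_lit 5) (nat_lit 53) (nat_lit 5) (nat_lit 49) (nat_lit 5) (nat_lit 268) (nat_lit 245) (nat_lit 207))) (XT.nd (nat_lit 78) (nat_lit 0) (nat_lit 0) (XT.lf (nat_lit 0) (nat_lit 3488750311) (nat_lit 304) (nat_lit 4375964088) (nat_lit 380) (nat_lit 3018100615) (nat_lit 44) (nat_lit 5) (nat_lit 48) (nat_lit 5) (nat_lit 49) (nat_lit 5) (nat_lit 269) (nat_lit 245) (nat_lit 206)) (XT.lf (nat_lit 0) (nat_lit 8962729482) (nat_lit 304) (nat_lit 1085800247) (nat_lit 380) (nat_lit 1152322794) (nat_lit 44) (nat_lit 5) (nat_lit 48) (nat_lit 5) (nat_lit 49) (nat_lit 5)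 (nat_lit 270) (nat_lit 245) (nat_lit 205)))) (XT.nd (nat_lit 156) (nat_lit 456) (nat_lit 0) (XT.nd (nat_lit 78) (nat_lit 0) (nat_lit 0) (XT.lf (nat_lit 0) (nat_lit 820992806) (nat_lit 304) (nat_lit 8363126311) (nat_lit 76) (nat_lit 2348201214) (nat_lit 40) (nat_lit 5) (nat_lit 44) (nat_lit 5) (nat_lit 41) (nat_lit 5) (nat_lit 271) (nat_lit 245) (nat_lit 204)) (XT.lf (nat_lit 0) (nat_lit 2863931497) (nat_lit 304) (nat_lit 3049380993) (nat_lit 76) (nat_lit 5965774358) (nat_lit 40) (nat_lit 5) (nat_lit 44) (nat_lit 5) (nat_lit 41) (nat_lit 5) (nat_lit 272) (nat_lit 245) (nat_lit 203))) (XT.nd (nat_lit 78) (nat_lit 228) (nat_lit 0) (XT.lf (nat_lit 0) (nat_lit 2556462699) (nat_lit 228) (nat_lit 2448046865) (nat_lit 304) (nat_lit 7239054161) (nat_lit 37) (nat_lit 5) (nat_lit 40) (nat_lit 5) (nat_lit 41) (nat_lit 5) (nat_lit 273) (nat_lit 245) (nat_lit 202)) (XT.nd (nat_lit 78) (nat_lit 228)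 (nat_lit 0) (XT.lf (nat_lit 0) (nat_lit 7279858273) (nat_lit 304) (nat_lit 4151287545) (nat_lit 76) (nat_lit 1193871213) (nat_lit 37) (nat_lit 5) (nat_lit 41) (nat_lit 5) (nat_lit 38) (nat_lit 5) (nat_lit 274) (nat_lit 245) (nat_lit 201)) (XT.lf (nat_lit 0) (nat_lit 1619063825) (nat_lit 228) (nat_lit 8074049804) (nat_lit 304) (nat_lit 3331355435) (nat_lit 34) (nat_lit 5) (nat_lit 37) (nat_lit 5) (nat_lit 38) (nat_lit 5) (nat_lit 275) (nat_lit 245) (nat_lit 200))))))) (XT.nd (nat_lit 702) (nat_lit 684) (nat_lit 0) (XT.nd (nat_lit 312) (nat_lit 456) (nat_lit 0) (XT.nd (nat_lit 156) (nat_lit 0) (nat_lit 0) (XT.nd (nat_lit 78) (nat_lit 304) (nat_lit 0) (XT.lf (nat_lit 0) (nat_lit 7768985089) (nat_lit 228) (nat_lit 4488216591) (nat_lit 304) (nat_lit 1185310209) (nat_lit 34) (nat_lit 5) (nat_lit 37) (nat_lit 5) (nat_lit 38) (nat_lit 5) (nat_lit 276) (nat_lit 245) (nat_lit 199)) (XT.lf (nat_lit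 0) (nat_lit 285459875) (nat_lit 228) (nat_lit 713883981) (nat_lit 304) (nat_lit 12883119633) (nat_lit 30) (nat_lit 5) (nat_lit 33) (nat_lit 5) (nat_lit 34) (nat_lit 5) (nat_lit 277) (nat_lit 245) (nat_lit 198))) (XT.nd (nat_lit 78) (nat_lit 0) (nat_lit 0) (XT.lf (nat_lit 0) (nat_lit 3363669174) (nat_lit 304) (nat_lit 7724883638) (nat_lit 76) (nat_lit 3249484091) (nat_lit 30) (nat_lit 5) (nat_lit 34) (nat_lit 5) (nat_lit 31) (nat_lit 5) (nat_lit 278) (nat_lit 245) (nat_lit 197)) (XT.lf (nat_lit 0) (nat_lit 5821613870) (nat_lit 304) (nat_lit 1621249300) (nat_lit 76) (nat_lit 7374859889) (nat_lit 30) (nat_lit 5) (nat_lit 34) (nat_lit 5) (nat_lit 31) (nat_lit 5) (nat_lit 279) (nat_lit 245) (nat_lit 196)))) (XT.nd (nat_lit 156) (nat_lit 304) (nat_lit 0) (XT.nd (nat_lit 78) (nat_lit 0) (nat_lit 0) (XT.lf (nat_lit 0) (nat_lit 4896289430) (nat_lit 152) (nat_lit 3548039833) (nat_lit 228) (nat_lit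 6875069849) (nat_lit 28) (nat_lit 5) (nat_lit 30) (nat_lit 5) (nat_lit 31) (nat_lit 5) (nat_lit 280) (nat_lit 245) (nat_lit 195)) (XT.lf (nat_lit 0) (nat_lit 11200668051) (nat_lit 228) (nat_lit 4106480944) (nat_lit 76) (nat_lit 538980127) (nat_lit 28) (nat_lit 5) (nat_lit 31) (nat_lit 5) (nat_lit 29) (nat_lit 5) (nat_lit 281) (nat_lit 245) (nat_lit 194))) (XT.nd (nat_lit 78) (nat_lit 76) (nat_lit 0) (XT.lf (nat_lit 0) (nat_lit 2501417340) (nat_lit 228) (nat_lit 11658364358) (nat_lit 304) (nat_lit 2236256074) (nat_lit 25) (nat_lit 5) (nat_lit 28) (nat_lit 5) (nat_lit 29) (nat_lit 5) (nat_lit 282) (nat_lit 245) (nat_lit 193)) (XT.nd (nat_lit 78) (nat_lit 0) (nat_lit 0) (XT.lf (nat_lit 0) (nat_lit 322666974) (nat_lit 304) (nat_lit 7440257223) (nat_lit 76) (nat_lit 9208437837) (nat_lit 24) (nat_lit 5) (nat_lit 28) (nat_lit 5) (nat_lit 25) (nat_lit 5) (nat_lit 283) (nat_lit 245) (nat_lit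 192)) (XT.lf (nat_lit 0) (nat_lit 2903872257) (nat_lit 304) (nat_lit 744454733) (nat_lit 76) (nat_lit 13926895849) (nat_lit 24) (nat_lit 5) (nat_lit 28) (nat_lit 5) (nat_lit 25) (nat_lit 5) (nat_lit 284) (nat_lit 245) (nat_lit 191)))))) (XT.nd (nat_lit 312) (nat_lit 380) (nat_lit 0) (XT.nd (nat_lit 156) (nat_lit 152) (nat_lit 0) (XT.nd (nat_lit 78) (nat_lit 0) (nat_lit 0) (XT.lf (nat_lit 0) (nat_lit 5697716505) (nat_lit 228) (nat_lit 11767614676) (nat_lit 76) (nat_lit 739840640) (nat_lit 22) (nat_lit 5) (nat_lit 25) (nat_lit 5) (nat_lit 23) (nat_lit 5) (nat_lit 285) (nat_lit 245) (nat_lit 190)) (XT.lf (nat_lit 0) (nat_lit 8675338329) (nat_lit 228) (nat_lit 4964573043) (nat_lit 76) (nat_lit 5224573157) (nat_lit 22) (nat_lit 5) (nat_lit 25) (nat_lit 5) (nat_lit 23) (nat_lit 5) (nat_lit 286) (nat_lit 245) (nat_lit 189))) (XT.nd (nat_lit 78) (nat_lit 0) (nat_lit 0) (XT.lf (nat_lit 0) (nat_lit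 2208265376) (nat_lit 152) (nat_lit 9600874354) (nat_lit 228) (nat_lit 7747325402) (nat_lit 20) (nat_lit 5) (nat_lit 22) (nat_lit 5) (nat_lit 23) (nat_lit 5) (nat_lit 287) (nat_lit 245) (nat_lit 188)) (XT.lf (nat_lit 0) (nat_lit 9871732735) (nat_lit 152) (nat_lit 5285461097) (nat_lit 228) (nat_lit 5123036787) (nat_lit 20) (nat_lit 5) (nat_lit 22) (nat_lit 5) (nat_lit 23) (nat_lit 5) (nat_lit 288) (nat_lit 245) (nat_lit 187)))) (XT.nd (nat_lit 156) (nat_lit 152) (nat_lit 0) (XT.nd (nat_lit 78) (nat_lit 228) (nat_lit 0) (XT.lf (nat_lit 0) (nat_lit 17879924179) (nat_lit 152) (nat_lit 767474255) (nat_lit 228) (nat_lit 2394109496) (nat_lit 20) (nat_lit 5) (nat_lit 22) (nat_lit 5) (nat_lit 23) (nat_lit 5) (nat_lit 289) (nat_lit 245) (nat_lit 186)) (XT.lf (nat_lit 0) (nat_lit 565859065) (nat_lit 228) (nat_lit 17352963620) (nat_lit 76) (nat_lit 3916229892) (nat_lit 17) (nat_lit 5) (nat_lit 20)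 (nat_lit 5) (nat_lit 18) (nat_lit 5) (nat_lit 290) (nat_lit 245) (nat_lit 185))) (XT.nd (nat_lit 78) (nat_lit 152) (nat_lit 0) (XT.lf (nat_lit 0) (nat_lit 3636258761) (nat_lit 228) (nat_lit 10138520708) (nat_lit 76) (nat_lit 8889440719) (nat_lit 17) (nat_lit 5) (nat_lit 20) (nat_lit 5) (nat_lit 18) (nat_lit 5) (nat_lit 291) (nat_lit 245) (nat_lit 184)) (XT.nd (nat_lit 78) (nat_lit 152) (nat_lit 0) (XT.lf (nat_lit 0) (nat_lit 6837214856) (nat_lit 228) (nat_lit 2599474465) (nat_lit 76) (nat_lit 14099355172) (nat_lit 17) (nat_lit 5) (nat_lit 20) (nat_lit 5) (nat_lit 18) (nat_lit 5) (nat_lit 292) (nat_lit 245) (nat_lit 183)) (XT.lf (nat_lit 0) (nat_lit 5456776131) (nat_lit 152) (nat_lit 4804768110) (nat_lit 228) (nat_lit 14186797246) (nat_lit 15) (nat_lit 5) (nat_lit 17) (nat_lit 5) (nat_lit 18) (nat_lit 5) (nat_lit 293) (nat_lit 245) (nat_lit 182))))))))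
noncomputable def xc128 : XT := (XT.nd (nat_lit 1326) (nat_lit 304) (nat_lit 0) (XT.nd (nat_lit 624) (nat_lit 228) (nat_lit 0) (XT.nd (nat_lit 312) (nat_lit 228) (nat_lit 0) (XT.nd (nat_lit 156) (nat_lit 76) (nat_lit 0) (XT.nd (nat_lit 78) (nat_lit 0) (nat_lit 0) (XT.lf (nat_lit 0) (nat_lit 13881200380) (nat_lit 228) (nat_lit 11434366375) (nat_lit 76) (nat_lit 89526535) (nat_lit 15) (nat_lit 5) (nat_lit 18) (nat_lit 5) (nat_lit 16) (nat_lit 4) (nat_lit 294) (nat_lit 245) (nat_lit 181)) (XT.lf (nat_lit 0) (nat_lit 17740080295) (nat_lit 228) (nat_lit 3611181200) (nat_lit 76) (nat_lit 5055552447) (nat_lit 15) (nat_lit 5) (nat_lit 18) (nat_lit 5) (nat_lit 16) (nat_lit 4) (nat_lit 295) (nat_lit 245) (nat_lit 180))) (XT.nd (nat_lit 78) (nat_lit 0) (nat_lit 0) (XT.lf (nat_lit 0) (nat_lit 4722791516) (nat_lit 76) (nat_lit 17123300395) (nat_lit 152) (nat_lit 5609860576) (nat_lit 14) (nat_lit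 5) (nat_lit 15) (nat_lit 5) (nat_lit 16) (nat_lit 4) (nat_lit 296) (nat_lit 245) (nat_lit 179)) (XT.lf (nat_lit 0) (nat_lit 13567812943) (nat_lit 76) (nat_lit 12631646492) (nat_lit 152) (nat_lit 2356025040) (nat_lit 14) (nat_lit 5) (nat_lit 15) (nat_lit 5) (nat_lit 16) (nat_lit 4) (nat_lit 297) (nat_lit 245) (nat_lit 178)))) (XT.nd (nat_lit 156) (nat_lit 0) (nat_lit 0) (XT.nd (nat_lit 78) (nat_lit 152) (nat_lit 0) (XT.lf (nat_lit 0) (nat_lit 1008032964) (nat_lit 152) (nat_lit 6901657982) (nat_lit 76) (nat_lit 21800436206) (nat_lit 13) (nat_lit 5) (nat_lit 15) (nat_lit 5) (nat_lit 14) (nat_lit 5) (nat_lit 298) (nat_lit 245) (nat_lit 177)) (XT.lf (nat_lit 0) (nat_lit 1571578006) (nat_lit 152) (nat_lit 2896430317) (nat_lit 228) (nat_lit 26452251787) (nat_lit 11) (nat_lit 5) (nat_lit 13) (nat_lit 5) (nat_lit 14) (nat_lit 5) (nat_lit 299) (nat_lit 245) (nat_lit 176))) (XT.nd (nat_lit 78)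 (nat_lit 0) (nat_lit 0) (XT.lf (nat_lit 0) (nat_lit 8239326346) (nat_lit 228) (nat_lit 21544862671) (nat_lit 76) (nat_lit 2399825822) (nat_lit 11) (nat_lit 5) (nat_lit 14) (nat_lit 5) (nat_lit 12) (nat_lit 4) (nat_lit 300) (nat_lit 245) (nat_lit 175)) (XT.lf (nat_lit 0) (nat_lit 12230103836) (nat_lit 228) (nat_lit 13425966688) (nat_lit 76) (nat_lit 7853372880) (nat_lit 11) (nat_lit 5) (nat_lit 14) (nat_lit 5) (nat_lit 12) (nat_lit 4) (nat_lit 301) (nat_lit 245) (nat_lit 174))))) (XT.nd (nat_lit 312) (nat_lit 152) (nat_lit 0) (XT.nd (nat_lit 156) (nat_lit 0) (nat_lit 0) (XT.nd (nat_lit 78) (nat_lit 76) (nat_lit 0) (XT.lf (nat_lit 0) (nat_lit 16404621250) (nat_lit 228) (nat_lit 4927442055) (nat_lit 76) (nat_lit 13569899350) (nat_lit 11) (nat_lit 5) (nat_lit 14) (nat_lit 5) (nat_lit 12) (nat_lit 4) (nat_lit 302) (nat_lit 245) (nat_lit 173)) (XT.lf (nat_lit 0) (nat_lit 4102243209) (nat_lit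 76) (nat_lit 16734622221) (nat_lit 152) (nat_lit 15524820314) (nat_lit 10) (nat_lit 5) (nat_lit 11) (nat_lit 5) (nat_lit 12) (nat_lit 4) (nat_lit 303) (nat_lit 245) (nat_lit 172))) (XT.nd (nat_lit 78) (nat_lit 0) (nat_lit 0) (XT.lf (nat_lit 0) (nat_lit 13729823640) (nat_lit 76) (nat_lit 11829631688) (nat_lit 152) (nat_lit 12331529570) (nat_lit 10) (nat_lit 5) (nat_lit 11) (nat_lit 5) (nat_lit 12) (nat_lit 4) (nat_lit 304) (nat_lit 245) (nat_lit 171)) (XT.lf (nat_lit 0) (nat_lit 23815298561) (nat_lit 76) (nat_lit 6688861773) (nat_lit 152) (nat_lit 8993314716) (nat_lit 10) (nat_lit 5) (nat_lit 11) (nat_lit 5) (nat_lit 12) (nat_lit 4) (nat_lit 305) (nat_lit 245) (nat_lit 170)))) (XT.nd (nat_lit 156) (nat_lit 76) (nat_lit 0) (XT.nd (nat_lit 78) (nat_lit 76) (nat_lit 0) (XT.lf (nat_lit 0) (nat_lit 34382681008) (nat_lit 76) (nat_lit 1300072549) (nat_lit 152) (nat_lit 5502227620) (nat_lit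 10) (nat_lit 5) (nat_lit 11) (nat_lit 5) (nat_lit 12) (nat_lit 4) (nat_lit 306) (nat_lit 245) (nat_lit 169)) (XT.lf (nat_lit 0) (nat_lit 2512104368) (nat_lit 76) (nat_lit 38702590522) (nat_lit 76) (nat_lit 1737469765) (nat_lit 9) (nat_lit 4) (nat_lit 10) (nat_lit 5) (nat_lit 10) (nat_lit 4) (nat_lit 307) (nat_lit 245) (nat_lit 168))) (XT.nd (nat_lit 78) (nat_lit 0) (nat_lit 0) (XT.lf (nat_lit 0) (nat_lit 2270220388) (nat_lit 152) (nat_lit 32353266928) (nat_lit 76) (nat_lit 10176231041) (nat_lit 8) (nat_lit 5) (nat_lit 10) (nat_lit 5) (nat_lit 9) (nat_lit 4) (nat_lit 308) (nat_lit 245) (nat_lit 167)) (XT.nd (nat_lit 78) (nat_lit 0) (nat_lit 0) (XT.lf (nat_lit 0) (nat_lit 6407717659) (nat_lit 152) (nat_lit 23911490825) (nat_lit 76) (nat_lit 16419646295) (nat_lit 8) (nat_lit 5) (nat_lit 10) (nat_lit 5) (nat_lit 9) (nat_lit 4) (nat_lit 309) (nat_lit 245) (nat_lit 166)) (XT.lf (nat_lit 0)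 (nat_lit 10740483113) (nat_lit 152) (nat_lit 15067505742) (nat_lit 76) (nat_lit 22967558397) (nat_lit 8) (nat_lit 5) (nat_lit 10) (nat_lit 5) (nat_lit 9) (nat_lit 4) (nat_lit 310) (nat_lit 245) (nat_lit 165))))))) (XT.nd (nat_lit 702) (nat_lit 152) (nat_lit 0) (XT.nd (nat_lit 312) (nat_lit 76) (nat_lit 0) (XT.nd (nat_lit 156) (nat_lit 0) (nat_lit 0) (XT.nd (nat_lit 78) (nat_lit 76) (nat_lit 0) (XT.lf (nat_lit 0) (nat_lit 15278832860) (nat_lit 152) (nat_lit 5800254569) (nat_lit 76) (nat_lit 29835557613) (nat_lit 8) (nat_lit 5) (nat_lit 10) (nat_lit 5) (nat_lit 9) (nat_lit 4) (nat_lit 311) (nat_lit 245) (nat_lit 164)) (XT.lf (nat_lit 0) (nat_lit 4041686794) (nat_lit 76) (nat_lit 16054987756) (nat_lit 152) (nat_lit 33061411587) (nat_lit 7) (nat_lit 5) (nat_lit 8) (nat_lit 5) (nat_lit 9) (nat_lit 4) (nat_lit 312) (nat_lit 245) (nat_lit 163))) (XT.nd (nat_lit 78) (nat_lit 0) (nat_lit 0)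 (XT.lf (nat_lit 0) (nat_lit 14559356214) (nat_lit 76) (nat_lit 10683978960) (nat_lit 152) (nat_lit 30265984093) (nat_lit 7) (nat_lit 5) (nat_lit 8) (nat_lit 5) (nat_lit 9) (nat_lit 4) (nat_lit 313) (nat_lit 245) (nat_lit 162)) (XT.lf (nat_lit 0) (nat_lit 25586013148) (nat_lit 76) (nat_lit 5051503043) (nat_lit 152) (nat_lit 27341104039) (nat_lit 7) (nat_lit 5) (nat_lit 8) (nat_lit 5) (nat_lit 9) (nat_lit 4) (nat_lit 314) (nat_lit 245) (nat_lit 161)))) (XT.nd (nat_lit 156) (nat_lit 76) (nat_lit 0) (XT.nd (nat_lit 78) (nat_lit 0) (nat_lit 0) (XT.lf (nat_lit 0) (nat_lit 36305423118) (nat_lit 152) (nat_lit 23437319000) (nat_lit 0) (nat_lit 828458085) (nat_lit 7) (nat_lit 5) (nat_lit 9) (nat_lit 4) (nat_lit 7) (nat_lit 4) (nat_lit 315) (nat_lit 245) (nat_lit 160)) (XT.lf (nat_lit 0) (nat_lit 42330536257) (nat_lit 152) (nat_lit 14132761978) (nat_lit 0) (nat_lit 6826434498) (nat_lit 7) (nat_lit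 5) (nat_lit 9) (nat_lit 4) (nat_lit 7) (nat_lit 4) (nat_lit 316) (nat_lit 245) (nat_lit 159))) (XT.nd (nat_lit 78) (nat_lit 76) (nat_lit 0) (XT.lf (nat_lit 0) (nat_lit 48648332994) (nat_lit 152) (nat_lit 4377914189) (nat_lit 0) (nat_lit 13118386736) (nat_lit 7) (nat_lit 5) (nat_lit 9) (nat_lit 4) (nat_lit 7) (nat_lit 4) (nat_lit 317) (nat_lit 245) (nat_lit 158)) (XT.nd (nat_lit 78) (nat_lit 0) (nat_lit 0) (XT.lf (nat_lit 0) (nat_lit 6043892499) (nat_lit 76) (nat_lit 49324325306) (nat_lit 76) (nat_lit 13769765237) (nat_lit 6) (nat_lit 4) (nat_lit 7) (nat_lit 5) (nat_lit 7) (nat_lit 4) (nat_lit 318) (nat_lit 245) (nat_lit 157)) (XT.lf (nat_lit 0) (nat_lit 17124784470) (nat_lit 76) (nat_lit 45365460850) (nat_lit 76) (nat_lit 9787459058) (nat_lit 6) (nat_lit 4) (nat_lit 7) (nat_lit 5) (nat_lit 7) (nat_lit 4) (nat_lit 319) (nat_lit 245) (nat_lit 156)))))) (XT.nd (nat_lit 312) (nat_lit 76)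 (nat_lit 0) (XT.nd (nat_lit 156) (nat_lit 76) (nat_lit 0) (XT.nd (nat_lit 78) (nat_lit 0) (nat_lit 0) (XT.lf (nat_lit 0) (nat_lit 28746391186) (nat_lit 76) (nat_lit 41214370043) (nat_lit 76) (nat_lit 5614042800) (nat_lit 6) (nat_lit 4) (nat_lit 7) (nat_lit 5) (nat_lit 7) (nat_lit 4) (nat_lit 320) (nat_lit 245) (nat_lit 155)) (XT.lf (nat_lit 0) (nat_lit 40936383139) (nat_lit 76) (nat_lit 36861169336) (nat_lit 76) (nat_lit 1239579759) (nat_lit 6) (nat_lit 4) (nat_lit 7) (nat_lit 5) (nat_lit 7) (nat_lit 4) (nat_lit 321) (nat_lit 245) (nat_lit 154))) (XT.nd (nat_lit 78) (nat_lit 0) (nat_lit 0) (XT.lf (nat_lit 0) (nat_lit 3239241500) (nat_lit 152) (nat_lit 29001394343) (nat_lit 76) (nat_lit 50429684496) (nat_lit 5) (nat_lit 5) (nat_lit 7) (nat_lit 5) (nat_lit 6) (nat_lit 4) (nat_lit 322) (nat_lit 245) (nat_lit 153)) (XT.lf (nat_lit 0) (nat_lit 7893651926) (nat_lit 152) (nat_lit 19479138534)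 (nat_lit 76) (nat_lit 59111705578) (nat_lit 5) (nat_lit 5) (nat_lit 7) (nat_lit 5) (nat_lit 6) (nat_lit 4) (nat_lit 323) (nat_lit 245) (nat_lit 152)))) (XT.nd (nat_lit 156) (nat_lit 0) (nat_lit 0) (XT.nd (nat_lit 78) (nat_lit 76) (nat_lit 0) (XT.lf (nat_lit 0) (nat_lit 12774407740) (nat_lit 152) (nat_lit 9491956319) (nat_lit 76) (nat_lit 68223344309) (nat_lit 5) (nat_lit 5) (nat_lit 7) (nat_lit 5) (nat_lit 6) (nat_lit 4) (nat_lit 324) (nat_lit 245) (nat_lit 151)) (XT.lf (nat_lit 0) (nat_lit 1016464521) (nat_lit 76) (nat_lit 16892535129) (nat_lit 152) (nat_lit 76785700405) (nat_lit 4) (nat_lit 5) (nat_lit 5) (nat_lit 5) (nat_lit 6) (nat_lit 4) (nat_lit 325) (nat_lit 245) (nat_lit 150))) (XT.nd (nat_lit 78) (nat_lit 0) (nat_lit 0) (XT.lf (nat_lit 0) (nat_lit 12369363829) (nat_lit 76) (nat_lit 11085762115) (nat_lit 152) (nat_lit 75647083386) (nat_lit 4) (nat_lit 5) (nat_lit 5) (nat_lit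 5) (nat_lit 6) (nat_lit 4) (nat_lit 326) (nat_lit 245) (nat_lit 149)) (XT.nd (nat_lit 78) (nat_lit 0) (nat_lit 0) (XT.lf (nat_lit 0) (nat_lit 24279925374) (nat_lit 76) (nat_lit 4992970241) (nat_lit 152) (nat_lit 74457489452) (nat_lit 4) (nat_lit 5) (nat_lit 5) (nat_lit 5) (nat_lit 6) (nat_lit 4) (nat_lit 327) (nat_lit 245) (nat_lit 148)) (XT.lf (nat_lit 0) (nat_lit 35398023840) (nat_lit 152) (nat_lit 71835602441) (nat_lit 0) (nat_lit 1355527285) (nat_lit 4) (nat_lit 5) (nat_lit 6) (nat_lit 4) (nat_lit 4) (nat_lit 4) (nat_lit 328) (nat_lit 245) (nat_lit 147))))))))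
noncomputable def xc129 : XT := (XT.nd (nat_lit 1326) (nat_lit 152) (nat_lit 0) (XT.nd (nat_lit 624) (nat_lit 0) (nat_lit 0) (XT.nd (nat_lit 312) (nat_lit 76) (nat_lit 0) (XT.nd (nat_lit 156) (nat_lit 0) (nat_lit 0) (XT.nd (nat_lit 78) (nat_lit 0) (nat_lit 0) (XT.lf (nat_lit 0) (nat_lit 41906062822) (nat_lit 152) (nat_lit 63931111695) (nat_lit 0) (nat_lit 7849860377) (nat_lit 4) (nat_lit 5) (nat_lit 6) (nat_lit 4) (nat_lit 4) (nat_lit 4) (nat_lit 329) (nat_lit 245) (nat_lit 146)) (XT.lf (nat_lit 0) (nat_lit 48734553634) (nat_lit 152) (nat_lit 55640212982) (nat_lit 0) (nat_lit 14665297960) (nat_lit 4) (nat_lit 5) (nat_lit 6) (nat_lit 4) (nat_lit 4) (nat_lit 4) (nat_lit 330) (nat_lit 245) (nat_lit 145))) (XT.nd (nat_lit 78) (nat_lit 0) (nat_lit 0) (XT.lf (nat_lit 0) (nat_lit 55899754588) (nat_lit 152) (nat_lit 46943166067) (nat_lit 0) (nat_lit 21818067266) (nat_lit 4) (nat_lit 5) (nat_lit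 6) (nat_lit 4) (nat_lit 4) (nat_lit 4) (nat_lit 331) (nat_lit 245) (nat_lit 144)) (XT.lf (nat_lit 0) (nat_lit 63418725685) (nat_lit 152) (nat_lit 37819263696) (nat_lit 0) (nat_lit 29325198700) (nat_lit 4) (nat_lit 5) (nat_lit 6) (nat_lit 4) (nat_lit 4) (nat_lit 4) (nat_lit 332) (nat_lit 245) (nat_lit 143)))) (XT.nd (nat_lit 156) (nat_lit 76) (nat_lit 0) (XT.nd (nat_lit 78) (nat_lit 0) (nat_lit 0) (XT.lf (nat_lit 0) (nat_lit 71309369238) (nat_lit 152) (nat_lit 28246782291) (nat_lit 0) (nat_lit 37204566383) (nat_lit 4) (nat_lit 5) (nat_lit 6) (nat_lit 4) (nat_lit 4) (nat_lit 4) (nat_lit 333) (nat_lit 245) (nat_lit 142)) (XT.lf (nat_lit 0) (nat_lit 79590472493) (nat_lit 152) (nat_lit 18202930230) (nat_lit 0) (nat_lit 45474930715) (nat_lit 4) (nat_lit 5) (nat_lit 6) (nat_lit 4) (nat_lit 4) (nat_lit 4) (nat_lit 334) (nat_lit 245) (nat_lit 141))) (XT.nd (nat_lit 78) (nat_lit 76) (nat_lit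 0) (XT.lf (nat_lit 0) (nat_lit 88281752364) (nat_lit 152) (nat_lit 7663793579) (nat_lit 0) (nat_lit 54155983039) (nat_lit 4) (nat_lit 5) (nat_lit 6) (nat_lit 4) (nat_lit 4) (nat_lit 4) (nat_lit 335) (nat_lit 245) (nat_lit 140)) (XT.lf (nat_lit 0) (nat_lit 3507998709) (nat_lit 76) (nat_lit 93950673355) (nat_lit 76) (nat_lit 59815163510) (nat_lit 3) (nat_lit 4) (nat_lit 4) (nat_lit 5) (nat_lit 4) (nat_lit 4) (nat_lit 336) (nat_lit 245) (nat_lit 139))))) (XT.nd (nat_lit 312) (nat_lit 0) (nat_lit 0) (XT.nd (nat_lit 156) (nat_lit 0) (nat_lit 0) (XT.nd (nat_lit 78) (nat_lit 0) (nat_lit 0) (XT.lf (nat_lit 0) (nat_lit 15497977273) (nat_lit 76) (nat_lit 91722631510) (nat_lit 76) (nat_lit 57577844979) (nat_lit 3) (nat_lit 4) (nat_lit 4) (nat_lit 5) (nat_lit 4) (nat_lit 4) (nat_lit 337) (nat_lit 245) (nat_lit 138)) (XT.lf (nat_lit 0) (nat_lit 28081290054) (nat_lit 76) (nat_lit 89385905600) (nat_lit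 76) (nat_lit 55232284130) (nat_lit 3) (nat_lit 4) (nat_lit 4) (nat_lit 5) (nat_lit 4) (nat_lit 4) (nat_lit 338) (nat_lit 245) (nat_lit 137))) (XT.nd (nat_lit 78) (nat_lit 0) (nat_lit 0) (XT.lf (nat_lit 0) (nat_lit 41287897322) (nat_lit 76) (nat_lit 86934931992) (nat_lit 76) (nat_lit 52772896294) (nat_lit 3) (nat_lit 4) (nat_lit 4) (nat_lit 5) (nat_lit 4) (nat_lit 4) (nat_lit 339) (nat_lit 245) (nat_lit 136)) (XT.lf (nat_lit 0) (nat_lit 55149243377) (nat_lit 76) (nat_lit 84363875034) (nat_lit 76) (nat_lit 50193825787) (nat_lit 3) (nat_lit 4) (nat_lit 4) (nat_lit 5) (nat_lit 4) (nat_lit 4) (nat_lit 340) (nat_lit 245) (nat_lit 135)))) (XT.nd (nat_lit 156) (nat_lit 0) (nat_lit 0) (XT.nd (nat_lit 78) (nat_lit 0) (nat_lit 0) (XT.lf (nat_lit 0) (nat_lit 69698331426) (nat_lit 76) (nat_lit 81666613163) (nat_lit 76) (nat_lit 47488931963) (nat_lit 3) (nat_lit 4) (nat_lit 4) (nat_lit 5) (nat_lit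 4) (nat_lit 4) (nat_lit 341) (nat_lit 245) (nat_lit 134)) (XT.lf (nat_lit 0) (nat_lit 84969802155) (nat_lit 76) (nat_lit 78836724326) (nat_lit 76) (nat_lit 44651774600) (nat_lit 3) (nat_lit 4) (nat_lit 4) (nat_lit 5) (nat_lit 4) (nat_lit 4) (nat_lit 342) (nat_lit 245) (nat_lit 133))) (XT.nd (nat_lit 78) (nat_lit 0) (nat_lit 0) (XT.lf (nat_lit 0) (nat_lit 101000016208) (nat_lit 76) (nat_lit 75867470693) (nat_lit 76) (nat_lit 41675598560) (nat_lit 3) (nat_lit 4) (nat_lit 4) (nat_lit 5) (nat_lit 4) (nat_lit 4) (nat_lit 343) (nat_lit 245) (nat_lit 132)) (XT.nd (nat_lit 78) (nat_lit 0) (nat_lit 0) (XT.lf (nat_lit 0) (nat_lit 117827140760) (nat_lit 76) (nat_lit 72751782612) (nat_lit 76) (nat_lit 38553317711) (nat_lit 3) (nat_lit 4) (nat_lit 4) (nat_lit 5) (nat_lit 4) (nat_lit 4) (nat_lit 344) (nat_lit 245) (nat_lit 131)) (XT.lf (nat_lit 0) (nat_lit 135491240396) (nat_lit 76) (nat_lit 69482241777)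 (nat_lit 76) (nat_lit 35277498051) (nat_lit 3) (nat_lit 4) (nat_lit 4) (nat_lit 5) (nat_lit 4) (nat_lit 4) (nat_lit 345) (nat_lit 245) (nat_lit 130))))))) (XT.nd (nat_lit 702) (nat_lit 76) (nat_lit 0) (XT.nd (nat_lit 312) (nat_lit 76) (nat_lit 0) (XT.nd (nat_lit 156) (nat_lit 0) (nat_lit 0) (XT.nd (nat_lit 78) (nat_lit 0) (nat_lit 0) (XT.lf (nat_lit 0) (nat_lit 154034372494) (nat_lit 76) (nat_lit 66051063570) (nat_lit 76) (nat_lit 31840340009) (nat_lit 3) (nat_lit 4) (nat_lit 4) (nat_lit 5) (nat_lit 4) (nat_lit 4) (nat_lit 346) (nat_lit 245) (nat_lit 129)) (XT.lf (nat_lit 0) (nat_lit 173500687369) (nat_lit 76) (nat_lit 62450078516) (nat_lit 76) (nat_lit 28233659875) (nat_lit 3) (nat_lit 4) (nat_lit 4) (nat_lit 5) (nat_lit 4) (nat_lit 4) (nat_lit 347) (nat_lit 245) (nat_lit 128))) (XT.nd (nat_lit 78) (nat_lit 0) (nat_lit 0) (XT.lf (nat_lit 0) (nat_lit 193936533390) (nat_lit 76) (nat_lit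 58670712843) (nat_lit 76) (nat_lit 24448870315) (nat_lit 3) (nat_lit 4) (nat_lit 4) (nat_lit 5) (nat_lit 4) (nat_lit 4) (nat_lit 348) (nat_lit 245) (nat_lit 127)) (XT.lf (nat_lit 0) (nat_lit 215390567333) (nat_lit 76) (nat_lit 54703968060) (nat_lit 76) (nat_lit 20476959926) (nat_lit 3) (nat_lit 4) (nat_lit 4) (nat_lit 5) (nat_lit 4) (nat_lit 4) (nat_lit 349) (nat_lit 245) (nat_lit 126)))) (XT.nd (nat_lit 156) (nat_lit 76) (nat_lit 0) (XT.nd (nat_lit 78) (nat_lit 0) (nat_lit 0) (XT.lf (nat_lit 0) (nat_lit 237913870231) (nat_lit 76) (nat_lit 50540399537) (nat_lit 76) (nat_lit 16308471779) (nat_lit 3) (nat_lit 4) (nat_lit 4) (nat_lit 5) (nat_lit 4) (nat_lit 4) (nat_lit 350) (nat_lit 245) (nat_lit 125)) (XT.lf (nat_lit 0) (nat_lit 261560068997) (nat_lit 76) (nat_lit 46170094016) (nat_lit 76) (nat_lit 11933480901) (nat_lit 3) (nat_lit 4) (nat_lit 4) (nat_lit 5) (nat_lit 4) (nat_lit 4) (nat_lit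 351) (nat_lit 245) (nat_lit 124))) (XT.nd (nat_lit 78) (nat_lit 76) (nat_lit 0) (XT.lf (nat_lit 0) (nat_lit 286385464102) (nat_lit 76) (nat_lit 41582646008) (nat_lit 76) (nat_lit 7341570648) (nat_lit 3) (nat_lit 4) (nat_lit 4) (nat_lit 5) (nat_lit 4) (nat_lit 4) (nat_lit 352) (nat_lit 245) (nat_lit 123)) (XT.nd (nat_lit 78) (nat_lit 76) (nat_lit 0) (XT.lf (nat_lit 0) (nat_lit 312449163632) (nat_lit 76) (nat_lit 36767133017) (nat_lit 76) (nat_lit 2521807900) (nat_lit 3) (nat_lit 4) (nat_lit 4) (nat_lit 5) (nat_lit 4) (nat_lit 4) (nat_lit 353) (nat_lit 245) (nat_lit 122)) (XT.lf (nat_lit 0) (nat_lit 2456074066) (nat_lit 152) (nat_lit 29214420666) (nat_lit 76) (nat_lit 337315555143) (nat_lit 2) (nat_lit 5) (nat_lit 4) (nat_lit 5) (nat_lit 3) (nat_lit 4) (nat_lit 354) (nat_lit 245) (nat_lit 121)))))) (XT.nd (nat_lit 312) (nat_lit 0) (nat_lit 0) (XT.nd (nat_lit 156) (nat_lit 76) (nat_lit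 0) (XT.nd (nat_lit 78) (nat_lit 0) (nat_lit 0) (XT.lf (nat_lit 0) (nat_lit 7596570483) (nat_lit 152) (nat_lit 18680257666) (nat_lit 76) (nat_lit 360817575689) (nat_lit 2) (nat_lit 5) (nat_lit 4) (nat_lit 5) (nat_lit 3) (nat_lit 4) (nat_lit 355) (nat_lit 245) (nat_lit 120)) (XT.lf (nat_lit 0) (nat_lit 12992634228) (nat_lit 152) (nat_lit 7621998089) (nat_lit 76) (nat_lit 385493617873) (nat_lit 2) (nat_lit 5) (nat_lit 4) (nat_lit 5) (nat_lit 3) (nat_lit 4) (nat_lit 356) (nat_lit 245) (nat_lit 119))) (XT.nd (nat_lit 78) (nat_lit 0) (nat_lit 0) (XT.lf (nat_lit 0) (nat_lit 4118505139) (nat_lit 76) (nat_lit 14602909339) (nat_lit 152) (nat_lit 407348230445) (nat_lit 1) (nat_lit 5) (nat_lit 2) (nat_lit 5) (nat_lit 3) (nat_lit 4) (nat_lit 357) (nat_lit 245) (nat_lit 118)) (XT.lf (nat_lit 0) (nat_lit 16708204997) (nat_lit 76) (nat_lit 8156150776) (nat_lit 152) (nat_lit 422158369168) (nat_lit 1)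 (nat_lit 5) (nat_lit 2) (nat_lit 5) (nat_lit 3) (nat_lit 4) (nat_lit 358) (nat_lit 245) (nat_lit 117)))) (XT.nd (nat_lit 28704) (nat_lit 0) (nat_lit 7296) (XT.nd (nat_lit 78) (nat_lit 0) (nat_lit 0) (XT.lf (nat_lit 0) (nat_lit 29925059279) (nat_lit 76) (nat_lit 1388089428) (nat_lit 152) (nat_lit 437710376591) (nat_lit 1) (nat_lit 5) (nat_lit 2) (nat_lit 5) (nat_lit 3) (nat_lit 4) (nat_lit 359) (nat_lit 245) (nat_lit 116)) (XT.lf (nat_lit 0) (nat_lit 38172412020) (nat_lit 152) (nat_lit 448413156635) (nat_lit 0) (nat_lit 5534396977) (nat_lit 1) (nat_lit 5) (nat_lit 3) (nat_lit 4) (nat_lit 1) (nat_lit 4) (nat_lit 360) (nat_lit 245) (nat_lit 115))) (XT.nd (nat_lit 78) (nat_lit 0) (nat_lit 0) (XT.lf (nat_lit 0) (nat_lit 206529632) (nat_lit 0) (nat_lit 206529632) (nat_lit 380) (nat_lit 3026357149) (nat_lit 97) (nat_lit 5) (nat_lit 97) (nat_lit 3) (nat_lit 102) (nat_lit 3) (nat_lit 246) (nat_lit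 246) (nat_lit 228)) (XT.nd (nat_lit 78) (nat_lit 0) (nat_lit 0) (XT.lf (nat_lit 0) (nat_lit 2592781735) (nat_lit 380) (nat_lit 3510184398) (nat_lit 456) (nat_lit 851106701) (nat_lit 97) (nat_lit 5) (nat_lit 102) (nat_lit 3) (nat_lit 103) (nat_lit 5) (nat_lit 247) (nat_lit 246) (nat_lit 227)) (XT.lf (nat_lit 0) (nat_lit 4344527469) (nat_lit 380) (nat_lit 476044781) (nat_lit 456) (nat_lit 2218268781) (nat_lit 97) (nat_lit 5) (nat_lit 102) (nat_lit 3) (nat_lit 103) (nat_lit 5) (nat_lit 248) (nat_lit 246) (nat_lit 226))))))))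
noncomputable def xc130 : XT := (XT.nd (nat_lit 1326) (nat_lit 2052) (nat_lit 0) (XT.nd (nat_lit 624) (nat_lit 2584) (nat_lit 0) (XT.nd (nat_lit 312) (nat_lit 380) (nat_lit 0) (XT.nd (nat_lit 156) (nat_lit 0) (nat_lit 0) (XT.nd (nat_lit 78) (nat_lit 456) (nat_lit 0) (XT.lf (nat_lit 76) (nat_lit 2737949938) (nat_lit 0) (nat_lit 3383874674) (nat_lit 456) (nat_lit 1009699731) (nat_lit 98) (nat_lit 5) (nat_lit 97) (nat_lit 5) (nat_lit 103) (nat_lit 5) (nat_lit 249) (nat_lit 246) (nat_lit 225)) (XT.lf (nat_lit 0) (nat_lit 640153678) (nat_lit 456) (nat_lit 1173699033) (nat_lit 532) (nat_lit 5419652639) (nat_lit 91) (nat_lit 5) (nat_lit 97) (nat_lit 5) (nat_lit 98) (nat_lit 5) (nat_lit 250) (nat_lit 246) (nat_lit 224))) (XT.nd (nat_lit 78) (nat_lit 0) (nat_lit 76) (XT.lf (nat_lit 76) (nat_lit 2201609214) (nat_lit 0) (nat_lit 73342776) (nat_lit 532) (nat_lit 5068483186) (nat_lit 92) (nat_lit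 5) (nat_lit 91) (nat_lit 5) (nat_lit 98) (nat_lit 5) (nat_lit 251) (nat_lit 246) (nat_lit 223)) (XT.lf (nat_lit 0) (nat_lit 3945402831) (nat_lit 456) (nat_lit 1763407225) (nat_lit 532) (nat_lit 1752828789) (nat_lit 92) (nat_lit 5) (nat_lit 98) (nat_lit 5) (nat_lit 99) (nat_lit 5) (nat_lit 252) (nat_lit 246) (nat_lit 222)))) (XT.nd (nat_lit 156) (nat_lit 456) (nat_lit 0) (XT.nd (nat_lit 78) (nat_lit 0) (nat_lit 0) (XT.lf (nat_lit 76) (nat_lit 1778454696) (nat_lit 0) (nat_lit 3860673123) (nat_lit 532) (nat_lit 1950087755) (nat_lit 93) (nat_lit 5) (nat_lit 92) (nat_lit 5) (nat_lit 99) (nat_lit 5) (nat_lit 253) (nat_lit 246) (nat_lit 221)) (XT.lf (nat_lit 76) (nat_lit 5498421209) (nat_lit 0) (nat_lit 1863073005) (nat_lit 532) (nat_lit 364908176) (nat_lit 93) (nat_lit 5) (nat_lit 92) (nat_lit 5) (nat_lit 99) (nat_lit 5) (nat_lit 254) (nat_lit 246) (nat_lit 220))) (XT.nd (nat_lit 78) (nat_lit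 0) (nat_lit 0) (XT.lf (nat_lit 0) (nat_lit 1202557006) (nat_lit 532) (nat_lit 6376364371) (nat_lit 76) (nat_lit 293670841) (nat_lit 86) (nat_lit 5) (nat_lit 93) (nat_lit 5) (nat_lit 87) (nat_lit 5) (nat_lit 255) (nat_lit 246) (nat_lit 219)) (XT.lf (nat_lit 0) (nat_lit 2824847144) (nat_lit 532) (nat_lit 2641592470) (nat_lit 76) (nat_lit 2560287662) (nat_lit 86) (nat_lit 5) (nat_lit 93) (nat_lit 5) (nat_lit 87) (nat_lit 5) (nat_lit 256) (nat_lit 246) (nat_lit 218))))) (XT.nd (nat_lit 312) (nat_lit 1368) (nat_lit 0) (XT.nd (nat_lit 156) (nat_lit 684) (nat_lit 0) (XT.nd (nat_lit 78) (nat_lit 0) (nat_lit 0) (XT.lf (nat_lit 0) (nat_lit 1259031569) (nat_lit 532) (nat_lit 3212517542) (nat_lit 608) (nat_lit 3720208055) (nat_lit 79) (nat_lit 5) (nat_lit 86) (nat_lit 5) (nat_lit 87) (nat_lit 5) (nat_lit 257) (nat_lit 246) (nat_lit 217)) (XT.lf (nat_lit 0) (nat_lit 5386200436) (nat_lit 532) (nat_lit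 785459039) (nat_lit 608) (nat_lit 2195161549) (nat_lit 79) (nat_lit 5) (nat_lit 86) (nat_lit 5) (nat_lit 87) (nat_lit 5) (nat_lit 258) (nat_lit 246) (nat_lit 216))) (XT.nd (nat_lit 78) (nat_lit 76) (nat_lit 0) (XT.lf (nat_lit 0) (nat_lit 1115923405) (nat_lit 608) (nat_lit 6815843945) (nat_lit 684) (nat_lit 620441259) (nat_lit 71) (nat_lit 5) (nat_lit 79) (nat_lit 5) (nat_lit 80) (nat_lit 5) (nat_lit 259) (nat_lit 246) (nat_lit 215)) (XT.lf (nat_lit 0) (nat_lit 995164831) (nat_lit 684) (nat_lit 3316338111) (nat_lit 76) (nat_lit 4435085951) (nat_lit 70) (nat_lit 5) (nat_lit 79) (nat_lit 5) (nat_lit 71) (nat_lit 5) (nat_lit 260) (nat_lit 246) (nat_lit 214)))) (XT.nd (nat_lit 156) (nat_lit 684) (nat_lit 0) (XT.nd (nat_lit 78) (nat_lit 0) (nat_lit 0) (XT.lf (nat_lit 0) (nat_lit 970556842) (nat_lit 684) (nat_lit 1649611439) (nat_lit 760) (nat_lit 6332814496) (nat_lit 61) (nat_lit 5) (nat_lit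 70) (nat_lit 5) (nat_lit 71) (nat_lit 5) (nat_lit 261) (nat_lit 246) (nat_lit 213)) (XT.lf (nat_lit 0) (nat_lit 4337981150) (nat_lit 760) (nat_lit 3661242051) (nat_lit 76) (nat_lit 1170158566) (nat_lit 61) (nat_lit 5) (nat_lit 71) (nat_lit 5) (nat_lit 62) (nat_lit 5) (nat_lit 262) (nat_lit 246) (nat_lit 212))) (XT.nd (nat_lit 78) (nat_lit 380) (nat_lit 0) (XT.lf (nat_lit 0) (nat_lit 815553425) (nat_lit 304) (nat_lit 5305518768) (nat_lit 380) (nat_lit 3276809970) (nat_lit 57) (nat_lit 5) (nat_lit 61) (nat_lit 5) (nat_lit 62) (nat_lit 5) (nat_lit 263) (nat_lit 246) (nat_lit 211)) (XT.nd (nat_lit 78) (nat_lit 380) (nat_lit 0) (XT.lf (nat_lit 0) (nat_lit 5584750939) (nat_lit 304) (nat_lit 2412144942) (nat_lit 380) (nat_lit 1640971678) (nat_lit 57) (nat_lit 5) (nat_lit 61) (nat_lit 5) (nat_lit 62) (nat_lit 5) (nat_lit 264) (nat_lit 246) (nat_lit 210)) (XT.lf (nat_lit 0) (nat_lit 37752050)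 (nat_lit 380) (nat_lit 9237491275) (nat_lit 76) (nat_lit 616588384) (nat_lit 52) (nat_lit 5) (nat_lit 57) (nat_lit 5) (nat_lit 53) (nat_lit 5) (nat_lit 265) (nat_lit 246) (nat_lit 209))))))) (XT.nd (nat_lit 702) (nat_lit 912) (nat_lit 0) (XT.nd (nat_lit 312) (nat_lit 836) (nat_lit 0) (XT.nd (nat_lit 156) (nat_lit 0) (nat_lit 0) (XT.nd (nat_lit 78) (nat_lit 304) (nat_lit 0) (XT.lf (nat_lit 0) (nat_lit 1799582055) (nat_lit 380) (nat_lit 4544590939) (nat_lit 76) (nat_lit 3810466497) (nat_lit 52) (nat_lit 5) (nat_lit 57) (nat_lit 5) (nat_lit 53) (nat_lit 5) (nat_lit 266) (nat_lit 246) (nat_lit 208)) (XT.lf (nat_lit 0) (nat_lit 336737306) (nat_lit 304) (nat_lit 3265649741) (nat_lit 380) (nat_lit 6830752976) (nat_lit 48) (nat_lit 5) (nat_lit 52) (nat_lit 5) (nat_lit 53) (nat_lit 5) (nat_lit 267) (nat_lit 246) (nat_lit 207))) (XT.nd (nat_lit 78) (nat_lit 0) (nat_lit 0) (XT.lf (nat_lit 0) (nat_lit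 5522202016) (nat_lit 380) (nat_lit 5161268224) (nat_lit 76) (nat_lit 40939028) (nat_lit 48) (nat_lit 5) (nat_lit 53) (nat_lit 5) (nat_lit 49) (nat_lit 5) (nat_lit 268) (nat_lit 246) (nat_lit 206)) (XT.lf (nat_lit 0) (nat_lit 7543125368) (nat_lit 380) (nat_lit 88833597) (nat_lit 76) (nat_lit 3398205392) (nat_lit 48) (nat_lit 5) (nat_lit 53) (nat_lit 5) (nat_lit 49) (nat_lit 5) (nat_lit 269) (nat_lit 246) (nat_lit 205)))) (XT.nd (nat_lit 156) (nat_lit 456) (nat_lit 0) (XT.nd (nat_lit 78) (nat_lit 76) (nat_lit 0) (XT.lf (nat_lit 0) (nat_lit 5355369605) (nat_lit 304) (nat_lit 4347225602) (nat_lit 380) (nat_lit 1646906748) (nat_lit 44) (nat_lit 5) (nat_lit 48) (nat_lit 5) (nat_lit 49) (nat_lit 5) (nat_lit 270) (nat_lit 246) (nat_lit 204)) (XT.lf (nat_lit 0) (nat_lit 232007836) (nat_lit 380) (nat_lit 668404029) (nat_lit 76) (nat_lit 10786530649) (nat_lit 43) (nat_lit 5) (nat_lit 48) (nat_lit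 5) (nat_lit 44) (nat_lit 5) (nat_lit 271) (nat_lit 246) (nat_lit 203))) (XT.nd (nat_lit 78) (nat_lit 228) (nat_lit 0) (XT.lf (nat_lit 0) (nat_lit 2228262299) (nat_lit 304) (nat_lit 7077036111) (nat_lit 76) (nat_lit 2730816371) (nat_lit 40) (nat_lit 5) (nat_lit 44) (nat_lit 5) (nat_lit 41) (nat_lit 5) (nat_lit 272) (nat_lit 246) (nat_lit 202)) (XT.nd (nat_lit 78) (nat_lit 228) (nat_lit 0) (XT.lf (nat_lit 0) (nat_lit 4308289837) (nat_lit 304) (nat_lit 1578758122) (nat_lit 76) (nat_lit 6516639358) (nat_lit 40) (nat_lit 5) (nat_lit 44) (nat_lit 5) (nat_lit 41) (nat_lit 5) (nat_lit 273) (nat_lit 246) (nat_lit 201)) (XT.lf (nat_lit 0) (nat_lit 4281198852) (nat_lit 228) (nat_lit 2237670158) (nat_lit 304) (nat_lit 6269574979) (nat_lit 37) (nat_lit 5) (nat_lit 40) (nat_lit 5) (nat_lit 41) (nat_lit 5) (nat_lit 274) (nat_lit 246) (nat_lit 200)))))) (XT.nd (nat_lit 312) (nat_lit 380) (nat_lit 0)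 (XT.nd (nat_lit 156) (nat_lit 304) (nat_lit 0) (XT.nd (nat_lit 78) (nat_lit 228) (nat_lit 0) (XT.lf (nat_lit 0) (nat_lit 8852736502) (nat_lit 304) (nat_lit 2778837326) (nat_lit 76) (nat_lit 1560353385) (nat_lit 37) (nat_lit 5) (nat_lit 41) (nat_lit 5) (nat_lit 38) (nat_lit 5) (nat_lit 275) (nat_lit 246) (nat_lit 199)) (XT.lf (nat_lit 0) (nat_lit 3254547506) (nat_lit 228) (nat_lit 8098811729) (nat_lit 304) (nat_lit 2259842924) (nat_lit 34) (nat_lit 5) (nat_lit 37) (nat_lit 5) (nat_lit 38) (nat_lit 5) (nat_lit 276) (nat_lit 246) (nat_lit 198))) (XT.nd (nat_lit 78) (nat_lit 304) (nat_lit 0) (XT.lf (nat_lit 0) (nat_lit 9637939572) (nat_lit 228) (nat_lit 4351731644) (nat_lit 304) (nat_lit 65451641) (nat_lit 34) (nat_lit 5) (nat_lit 37) (nat_lit 5) (nat_lit 38) (nat_lit 5) (nat_lit 277) (nat_lit 246) (nat_lit 197)) (XT.lf (nat_lit 0) (nat_lit 1796801188) (nat_lit 228) (nat_lit 362916382)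 (nat_lit 304) (nat_lit 12358143186) (nat_lit 30) (nat_lit 5) (nat_lit 33) (nat_lit 5) (nat_lit 34) (nat_lit 5) (nat_lit 278) (nat_lit 246) (nat_lit 196)))) (XT.nd (nat_lit 156) (nat_lit 380) (nat_lit 0) (XT.nd (nat_lit 78) (nat_lit 0) (nat_lit 0) (XT.lf (nat_lit 0) (nat_lit 4595132058) (nat_lit 304) (nat_lit 6635168437) (nat_lit 76) (nat_lit 3768421349) (nat_lit 30) (nat_lit 5) (nat_lit 34) (nat_lit 5) (nat_lit 31) (nat_lit 5) (nat_lit 279) (nat_lit 246) (nat_lit 195)) (XT.lf (nat_lit 0) (nat_lit 7125341635) (nat_lit 304) (nat_lit 296636162) (nat_lit 76) (nat_lit 8083091505) (nat_lit 30) (nat_lit 5) (nat_lit 34) (nat_lit 5) (nat_lit 31) (nat_lit 5) (nat_lit 280) (nat_lit 246) (nat_lit 194))) (XT.nd (nat_lit 78) (nat_lit 228) (nat_lit 0) (XT.lf (nat_lit 0) (nat_lit 6524107317) (nat_lit 152) (nat_lit 3328456750) (nat_lit 228) (nat_lit 6180734982) (nat_lit 28) (nat_lit 5) (nat_lit 30)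 (nat_lit 5) (nat_lit 31) (nat_lit 5) (nat_lit 281) (nat_lit 246) (nat_lit 193)) (XT.nd (nat_lit 78) (nat_lit 228) (nat_lit 0) (XT.lf (nat_lit 0) (nat_lit 12705669445) (nat_lit 228) (nat_lit 2950971291) (nat_lit 76) (nat_lit 931909203) (nat_lit 28) (nat_lit 5) (nat_lit 31) (nat_lit 5) (nat_lit 29) (nat_lit 5) (nat_lit 282) (nat_lit 246) (nat_lit 192)) (XT.lf (nat_lit 0) (nat_lit 3965372976) (nat_lit 228) (nat_lit 11823271065) (nat_lit 304) (nat_lit 1378640298) (nat_lit 25) (nat_lit 5) (nat_lit 28) (nat_lit 5) (nat_lit 29) (nat_lit 5) (nat_lit 283) (nat_lit 246) (nat_lit 191))))))))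
noncomputable def xc131 : XT := (XT.nd (nat_lit 1326) (nat_lit 304) (nat_lit 0) (XT.nd (nat_lit 624) (nat_lit 456) (nat_lit 0) (XT.nd (nat_lit 312) (nat_lit 380) (nat_lit 0) (XT.nd (nat_lit 156) (nat_lit 0) (nat_lit 0) (XT.nd (nat_lit 78) (nat_lit 152) (nat_lit 0) (XT.lf (nat_lit 0) (nat_lit 1232515379) (nat_lit 304) (nat_lit 6505313330) (nat_lit 76) (nat_lit 10035137526) (nat_lit 24) (nat_lit 5) (nat_lit 28) (nat_lit 5) (nat_lit 25) (nat_lit 5) (nat_lit 284) (nat_lit 246) (nat_lit 190)) (XT.lf (nat_lit 0) (nat_lit 478353549) (nat_lit 152) (nat_lit 3429337957) (nat_lit 228) (nat_lit 14501191530) (nat_lit 22) (nat_lit 5) (nat_lit 24) (nat_lit 5) (nat_lit 25) (nat_lit 5) (nat_lit 285) (nat_lit 246) (nat_lit 189))) (XT.nd (nat_lit 78) (nat_lit 0) (nat_lit 0) (XT.lf (nat_lit 0) (nat_lit 6818513839) (nat_lit 228) (nat_lit 11093962657) (nat_lit 76) (nat_lit 1159091994) (nat_lit 22) (nat_lit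 5) (nat_lit 25) (nat_lit 5) (nat_lit 23) (nat_lit 5) (nat_lit 286) (nat_lit 246) (nat_lit 188)) (XT.lf (nat_lit 0) (nat_lit 9905211444) (nat_lit 228) (nat_lit 4010865740) (nat_lit 76) (nat_lit 5849858312) (nat_lit 22) (nat_lit 5) (nat_lit 25) (nat_lit 5) (nat_lit 23) (nat_lit 5) (nat_lit 287) (nat_lit 246) (nat_lit 187)))) (XT.nd (nat_lit 156) (nat_lit 228) (nat_lit 0) (XT.nd (nat_lit 78) (nat_lit 0) (nat_lit 0) (XT.lf (nat_lit 0) (nat_lit 3501228535) (nat_lit 152) (nat_lit 9675027479) (nat_lit 228) (nat_lit 7317325172) (nat_lit 20) (nat_lit 5) (nat_lit 22) (nat_lit 5) (nat_lit 23) (nat_lit 5) (nat_lit 288) (nat_lit 246) (nat_lit 186)) (XT.lf (nat_lit 0) (nat_lit 11491557363) (nat_lit 152) (nat_lit 5163171683) (nat_lit 228) (nat_lit 4600744341) (nat_lit 20) (nat_lit 5) (nat_lit 22) (nat_lit 5) (nat_lit 23) (nat_lit 5) (nat_lit 289) (nat_lit 246) (nat_lit 185))) (XT.nd (nat_lit 78) (nat_lit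 228) (nat_lit 0) (XT.lf (nat_lit 0) (nat_lit 19846527999) (nat_lit 152) (nat_lit 437693235) (nat_lit 228) (nat_lit 1772439461) (nat_lit 20) (nat_lit 5) (nat_lit 22) (nat_lit 5) (nat_lit 23) (nat_lit 5) (nat_lit 290) (nat_lit 246) (nat_lit 184)) (XT.lf (nat_lit 0) (nat_lit 1300422315) (nat_lit 228) (nat_lit 17109738001) (nat_lit 76) (nat_lit 4479789436) (nat_lit 17) (nat_lit 5) (nat_lit 20) (nat_lit 5) (nat_lit 18) (nat_lit 5) (nat_lit 291) (nat_lit 246) (nat_lit 183))))) (XT.nd (nat_lit 312) (nat_lit 304) (nat_lit 0) (XT.nd (nat_lit 156) (nat_lit 152) (nat_lit 0) (XT.nd (nat_lit 78) (nat_lit 0) (nat_lit 0) (XT.lf (nat_lit 0) (nat_lit 4490710077) (nat_lit 228) (nat_lit 9587471696) (nat_lit 76) (nat_lit 9684148993) (nat_lit 17) (nat_lit 5) (nat_lit 20) (nat_lit 5) (nat_lit 18) (nat_lit 5) (nat_lit 292) (nat_lit 246) (nat_lit 182)) (XT.lf (nat_lit 0) (nat_lit 7819683577) (nat_lit 228)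 (nat_lit 1721852905) (nat_lit 76) (nat_lit 15137881252) (nat_lit 17) (nat_lit 5) (nat_lit 20) (nat_lit 5) (nat_lit 18) (nat_lit 5) (nat_lit 293) (nat_lit 246) (nat_lit 181))) (XT.nd (nat_lit 78) (nat_lit 0) (nat_lit 0) (XT.lf (nat_lit 0) (nat_lit 6720958684) (nat_lit 152) (nat_lit 4679243260) (nat_lit 228) (nat_lit 14237945608) (nat_lit 15) (nat_lit 5) (nat_lit 17) (nat_lit 5) (nat_lit 18) (nat_lit 5) (nat_lit 294) (nat_lit 246) (nat_lit 180)) (XT.lf (nat_lit 0) (nat_lit 15176489999) (nat_lit 228) (nat_lit 11036328344) (nat_lit 76) (nat_lit 431199574) (nat_lit 15) (nat_lit 5) (nat_lit 18) (nat_lit 5) (nat_lit 16) (nat_lit 4) (nat_lit 295) (nat_lit 246) (nat_lit 179)))) (XT.nd (nat_lit 156) (nat_lit 228) (nat_lit 0) (XT.nd (nat_lit 78) (nat_lit 76) (nat_lit 0) (XT.lf (nat_lit 0) (nat_lit 19199683929) (nat_lit 228) (nat_lit 2868162785) (nat_lit 76) (nat_lit 5629469795) (nat_lit 15) (nat_lit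 5) (nat_lit 18) (nat_lit 5) (nat_lit 16) (nat_lit 4) (nat_lit 296) (nat_lit 246) (nat_lit 178)) (XT.lf (nat_lit 0) (nat_lit 5867612156) (nat_lit 76) (nat_lit 17630304379) (nat_lit 152) (nat_lit 5301706956) (nat_lit 14) (nat_lit 5) (nat_lit 15) (nat_lit 5) (nat_lit 16) (nat_lit 4) (nat_lit 297) (nat_lit 246) (nat_lit 177))) (XT.nd (nat_lit 78) (nat_lit 228) (nat_lit 0) (XT.lf (nat_lit 0) (nat_lit 15111614128) (nat_lit 76) (nat_lit 12930694496) (nat_lit 152) (nat_lit 1913210436) (nat_lit 14) (nat_lit 5) (nat_lit 15) (nat_lit 5) (nat_lit 16) (nat_lit 4) (nat_lit 298) (nat_lit 246) (nat_lit 176)) (XT.nd (nat_lit 78) (nat_lit 152) (nat_lit 0) (XT.lf (nat_lit 0) (nat_lit 1575265705) (nat_lit 152) (nat_lit 6404457651) (nat_lit 76) (nat_lit 23189074650) (nat_lit 13) (nat_lit 5) (nat_lit 15) (nat_lit 5) (nat_lit 14) (nat_lit 5) (nat_lit 299) (nat_lit 246) (nat_lit 175)) (XT.lf (nat_lit 0) (nat_lit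 2478854923) (nat_lit 152) (nat_lit 2717712204) (nat_lit 228) (nat_lit 27243501453) (nat_lit 11) (nat_lit 5) (nat_lit 13) (nat_lit 5) (nat_lit 14) (nat_lit 5) (nat_lit 300) (nat_lit 246) (nat_lit 174))))))) (XT.nd (nat_lit 702) (nat_lit 76) (nat_lit 0) (XT.nd (nat_lit 312) (nat_lit 152) (nat_lit 0) (XT.nd (nat_lit 156) (nat_lit 76) (nat_lit 0) (XT.nd (nat_lit 78) (nat_lit 0) (nat_lit 0) (XT.lf (nat_lit 0) (nat_lit 9137206708) (nat_lit 228) (nat_lit 21812723716) (nat_lit 76) (nat_lit 2818087914) (nat_lit 11) (nat_lit 5) (nat_lit 14) (nat_lit 5) (nat_lit 12) (nat_lit 4) (nat_lit 301) (nat_lit 246) (nat_lit 173)) (XT.lf (nat_lit 0) (nat_lit 13304384309) (nat_lit 228) (nat_lit 13326424938) (nat_lit 76) (nat_lit 8530108953) (nat_lit 11) (nat_lit 5) (nat_lit 14) (nat_lit 5) (nat_lit 12) (nat_lit 4) (nat_lit 302) (nat_lit 246) (nat_lit 172))) (XT.nd (nat_lit 78) (nat_lit 76) (nat_lit 0) (XT.lf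 (nat_lit 0) (nat_lit 17665590676) (nat_lit 228) (nat_lit 4439680745) (nat_lit 76) (nat_lit 14518934727) (nat_lit 11) (nat_lit 5) (nat_lit 14) (nat_lit 5) (nat_lit 12) (nat_lit 4) (nat_lit 303) (nat_lit 246) (nat_lit 171)) (XT.lf (nat_lit 0) (nat_lit 5029647921) (nat_lit 76) (nat_lit 17280088613) (nat_lit 152) (nat_lit 15847703322) (nat_lit 10) (nat_lit 5) (nat_lit 11) (nat_lit 5) (nat_lit 12) (nat_lit 4) (nat_lit 304) (nat_lit 246) (nat_lit 170)))) (XT.nd (nat_lit 156) (nat_lit 152) (nat_lit 0) (XT.nd (nat_lit 78) (nat_lit 0) (nat_lit 0) (XT.lf (nat_lit 0) (nat_lit 15104212490) (nat_lit 76) (nat_lit 12143718302) (nat_lit 152) (nat_lit 12516336517) (nat_lit 10) (nat_lit 5) (nat_lit 11) (nat_lit 5) (nat_lit 12) (nat_lit 4) (nat_lit 305) (nat_lit 246) (nat_lit 169)) (XT.lf (nat_lit 0) (nat_lit 25661204126) (nat_lit 76) (nat_lit 6759119176) (nat_lit 152) (nat_lit 9031771373) (nat_lit 10)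 (nat_lit 5) (nat_lit 11) (nat_lit 5) (nat_lit 12) (nat_lit 4) (nat_lit 306) (nat_lit 246) (nat_lit 168))) (XT.nd (nat_lit 78) (nat_lit 152) (nat_lit 0) (XT.lf (nat_lit 0) (nat_lit 36725758522) (nat_lit 76) (nat_lit 1113470761) (nat_lit 152) (nat_lit 5385711308) (nat_lit 10) (nat_lit 5) (nat_lit 11) (nat_lit 5) (nat_lit 12) (nat_lit 4) (nat_lit 307) (nat_lit 246) (nat_lit 167)) (XT.nd (nat_lit 78) (nat_lit 76) (nat_lit 0) (XT.lf (nat_lit 0) (nat_lit 3266703061) (nat_lit 76) (nat_lit 40376895795) (nat_lit 76) (nat_lit 1437124863) (nat_lit 9) (nat_lit 4) (nat_lit 10) (nat_lit 5) (nat_lit 10) (nat_lit 4) (nat_lit 308) (nat_lit 246) (nat_lit 166)) (XT.lf (nat_lit 0) (nat_lit 2740707582) (nat_lit 152) (nat_lit 33359504485) (nat_lit 76) (nat_lit 10921062259) (nat_lit 8) (nat_lit 5) (nat_lit 10) (nat_lit 5) (nat_lit 9) (nat_lit 4) (nat_lit 309) (nat_lit 246) (nat_lit 165)))))) (XT.nd (nat_lit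 312) (nat_lit 0) (nat_lit 0) (XT.nd (nat_lit 156) (nat_lit 76) (nat_lit 0) (XT.nd (nat_lit 78) (nat_lit 0) (nat_lit 0) (XT.lf (nat_lit 0) (nat_lit 7068080851) (nat_lit 152) (nat_lit 24524755091) (nat_lit 76) (nat_lit 17465409244) (nat_lit 8) (nat_lit 5) (nat_lit 10) (nat_lit 5) (nat_lit 9) (nat_lit 4) (nat_lit 310) (nat_lit 246) (nat_lit 164)) (XT.lf (nat_lit 0) (nat_lit 11601295182) (nat_lit 152) (nat_lit 15266299814) (nat_lit 76) (nat_lit 24330013111) (nat_lit 8) (nat_lit 5) (nat_lit 10) (nat_lit 5) (nat_lit 9) (nat_lit 4) (nat_lit 311) (nat_lit 246) (nat_lit 163))) (XT.nd (nat_lit 78) (nat_lit 76) (nat_lit 0) (XT.lf (nat_lit 0) (nat_lit 16351143944) (nat_lit 152) (nat_lit 5562094711) (nat_lit 76) (nat_lit 31531218155) (nat_lit 8) (nat_lit 5) (nat_lit 10) (nat_lit 5) (nat_lit 9) (nat_lit 4) (nat_lit 312) (nat_lit 246) (nat_lit 162)) (XT.lf (nat_lit 0) (nat_lit 4763424807) (nat_lit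 76) (nat_lit 16639881903) (nat_lit 152) (nat_lit 34397115707) (nat_lit 7) (nat_lit 5) (nat_lit 8) (nat_lit 5) (nat_lit 9) (nat_lit 4) (nat_lit 313) (nat_lit 246) (nat_lit 161)))) (XT.nd (nat_lit 156) (nat_lit 0) (nat_lit 0) (XT.nd (nat_lit 78) (nat_lit 0) (nat_lit 0) (XT.lf (nat_lit 0) (nat_lit 15782232284) (nat_lit 76) (nat_lit 11010696726) (nat_lit 152) (nat_lit 31477029527) (nat_lit 7) (nat_lit 5) (nat_lit 8) (nat_lit 5) (nat_lit 9) (nat_lit 4) (nat_lit 314) (nat_lit 246) (nat_lit 160)) (XT.lf (nat_lit 0) (nat_lit 27336655006) (nat_lit 76) (nat_lit 5106477070) (nat_lit 152) (nat_lit 28420298507) (nat_lit 7) (nat_lit 5) (nat_lit 8) (nat_lit 5) (nat_lit 9) (nat_lit 4) (nat_lit 315) (nat_lit 246) (nat_lit 159))) (XT.nd (nat_lit 78) (nat_lit 0) (nat_lit 0) (XT.lf (nat_lit 0) (nat_lit 38384337305) (nat_lit 152) (nat_lit 24149778519) (nat_lit 0) (nat_lit 1052049233) (nat_lit 7) (nat_lit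 5) (nat_lit 9) (nat_lit 4) (nat_lit 7) (nat_lit 4) (nat_lit 316) (nat_lit 246) (nat_lit 158)) (XT.nd (nat_lit 78) (nat_lit 0) (nat_lit 0) (XT.lf (nat_lit 0) (nat_lit 44698151670) (nat_lit 152) (nat_lit 14401870142) (nat_lit 0) (nat_lit 7341249788) (nat_lit 7) (nat_lit 5) (nat_lit 9) (nat_lit 4) (nat_lit 7) (nat_lit 4) (nat_lit 317) (nat_lit 246) (nat_lit 157)) (XT.lf (nat_lit 0) (nat_lit 51319881644) (nat_lit 152) (nat_lit 4180114723) (nat_lit 0) (nat_lit 13939538039) (nat_lit 7) (nat_lit 5) (nat_lit 9) (nat_lit 4) (nat_lit 7) (nat_lit 4) (nat_lit 318) (nat_lit 246) (nat_lit 156))))))))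
noncomputable def xc132 : XT := (XT.nd (nat_lit 1326) (nat_lit 76) (nat_lit 0) (XT.nd (nat_lit 624) (nat_lit 0) (nat_lit 0) (XT.nd (nat_lit 312) (nat_lit 152) (nat_lit 0) (XT.nd (nat_lit 156) (nat_lit 0) (nat_lit 0) (XT.nd (nat_lit 78) (nat_lit 0) (nat_lit 0) (XT.lf (nat_lit 0) (nat_lit 6756061409) (nat_lit 76) (nat_lit 51614712895) (nat_lit 76) (nat_lit 14212043839) (nat_lit 6) (nat_lit 4) (nat_lit 7) (nat_lit 5) (nat_lit 7) (nat_lit 4) (nat_lit 319) (nat_lit 246) (nat_lit 155)) (XT.lf (nat_lit 0) (nat_lit 18371475394) (nat_lit 76) (nat_lit 47466278011) (nat_lit 76) (nat_lit 10042346620) (nat_lit 6) (nat_lit 4) (nat_lit 7) (nat_lit 5) (nat_lit 7) (nat_lit 4) (nat_lit 320) (nat_lit 246) (nat_lit 154))) (XT.nd (nat_lit 78) (nat_lit 0) (nat_lit 0) (XT.lf (nat_lit 0) (nat_lit 30555569508) (nat_lit 76) (nat_lit 43115606753) (nat_lit 76) (nat_lit 5671425520) (nat_lit 6) (nat_lit 4) (nat_lit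 7) (nat_lit 5) (nat_lit 7) (nat_lit 4) (nat_lit 321) (nat_lit 246) (nat_lit 153)) (XT.lf (nat_lit 0) (nat_lit 43337353498) (nat_lit 76) (nat_lit 38552340382) (nat_lit 76) (nat_lit 1088873585) (nat_lit 6) (nat_lit 4) (nat_lit 7) (nat_lit 5) (nat_lit 7) (nat_lit 4) (nat_lit 322) (nat_lit 246) (nat_lit 152)))) (XT.nd (nat_lit 156) (nat_lit 76) (nat_lit 0) (XT.nd (nat_lit 78) (nat_lit 0) (nat_lit 0) (XT.lf (nat_lit 0) (nat_lit 3597277774) (nat_lit 152) (nat_lit 30107414564) (nat_lit 76) (nat_lit 53089060771) (nat_lit 5) (nat_lit 5) (nat_lit 7) (nat_lit 5) (nat_lit 6) (nat_lit 4) (nat_lit 323) (nat_lit 246) (nat_lit 151)) (XT.lf (nat_lit 0) (nat_lit 8475071854) (nat_lit 152) (nat_lit 20125429274) (nat_lit 76) (nat_lit 62198616618) (nat_lit 5) (nat_lit 5) (nat_lit 7) (nat_lit 5) (nat_lit 6) (nat_lit 4) (nat_lit 324) (nat_lit 246) (nat_lit 150))) (XT.nd (nat_lit 78) (nat_lit 76) (nat_lit 0)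 (XT.lf (nat_lit 0) (nat_lit 13590973205) (nat_lit 152) (nat_lit 9654491099) (nat_lit 76) (nat_lit 71759583678) (nat_lit 5) (nat_lit 5) (nat_lit 7) (nat_lit 5) (nat_lit 6) (nat_lit 4) (nat_lit 325) (nat_lit 246) (nat_lit 149)) (XT.lf (nat_lit 0) (nat_lit 1374317507) (nat_lit 76) (nat_lit 17604301984) (nat_lit 152) (nat_lit 80441865597) (nat_lit 4) (nat_lit 5) (nat_lit 5) (nat_lit 5) (nat_lit 6) (nat_lit 4) (nat_lit 326) (nat_lit 246) (nat_lit 148))))) (XT.nd (nat_lit 312) (nat_lit 0) (nat_lit 0) (XT.nd (nat_lit 156) (nat_lit 0) (nat_lit 0) (XT.nd (nat_lit 78) (nat_lit 0) (nat_lit 0) (XT.lf (nat_lit 0) (nat_lit 13280241316) (nat_lit 76) (nat_lit 11513516982) (nat_lit 152) (nat_lit 79255037719) (nat_lit 4) (nat_lit 5) (nat_lit 5) (nat_lit 5) (nat_lit 6) (nat_lit 4) (nat_lit 327) (nat_lit 246) (nat_lit 147)) (XT.lf (nat_lit 0) (nat_lit 25772406686) (nat_lit 76) (nat_lit 5122110907) (nat_lit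 152) (nat_lit 78014268842) (nat_lit 4) (nat_lit 5) (nat_lit 5) (nat_lit 5) (nat_lit 6) (nat_lit 4) (nat_lit 328) (nat_lit 246) (nat_lit 146))) (XT.nd (nat_lit 78) (nat_lit 0) (nat_lit 0) (XT.lf (nat_lit 0) (nat_lit 37320171377) (nat_lit 152) (nat_lit 75156219264) (nat_lit 0) (nat_lit 1534399690) (nat_lit 4) (nat_lit 5) (nat_lit 6) (nat_lit 4) (nat_lit 4) (nat_lit 4) (nat_lit 329) (nat_lit 246) (nat_lit 145)) (XT.lf (nat_lit 0) (nat_lit 44146362482) (nat_lit 152) (nat_lit 66869416519) (nat_lit 0) (nat_lit 8348159149) (nat_lit 4) (nat_lit 5) (nat_lit 6) (nat_lit 4) (nat_lit 4) (nat_lit 4) (nat_lit 330) (nat_lit 246) (nat_lit 144)))) (XT.nd (nat_lit 156) (nat_lit 0) (nat_lit 0) (XT.nd (nat_lit 78) (nat_lit 0) (nat_lit 0) (XT.lf (nat_lit 0) (nat_lit 51309373239) (nat_lit 152) (nat_lit 58176270525) (nat_lit 0) (nat_lit 15499330242) (nat_lit 4) (nat_lit 5) (nat_lit 6) (nat_lit 4) (nat_lit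 4) (nat_lit 4) (nat_lit 331) (nat_lit 246) (nat_lit 143)) (XT.lf (nat_lit 0) (nat_lit 58826258434) (nat_lit 152) (nat_lit 49056083317) (nat_lit 0) (nat_lit 23004939567) (nat_lit 4) (nat_lit 5) (nat_lit 6) (nat_lit 4) (nat_lit 4) (nat_lit 4) (nat_lit 332) (nat_lit 246) (nat_lit 142))) (XT.nd (nat_lit 78) (nat_lit 0) (nat_lit 0) (XT.lf (nat_lit 0) (nat_lit 66714915414) (nat_lit 152) (nat_lit 39487140163) (nat_lit 0) (nat_lit 30882857623) (nat_lit 4) (nat_lit 5) (nat_lit 6) (nat_lit 4) (nat_lit 4) (nat_lit 4) (nat_lit 333) (nat_lit 246) (nat_lit 141)) (XT.nd (nat_lit 78) (nat_lit 0) (nat_lit 0) (XT.lf (nat_lit 0) (nat_lit 74994126695) (nat_lit 152) (nat_lit 29446657865) (nat_lit 0) (nat_lit 39151841358) (nat_lit 4) (nat_lit 5) (nat_lit 6) (nat_lit 4) (nat_lit 4) (nat_lit 4) (nat_lit 334) (nat_lit 246) (nat_lit 140)) (XT.lf (nat_lit 0) (nat_lit 83683604685) (nat_lit 152) (nat_lit 18910730512)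 (nat_lit 0) (nat_lit 47831578827) (nat_lit 4) (nat_lit 5) (nat_lit 6) (nat_lit 4) (nat_lit 4) (nat_lit 4) (nat_lit 335) (nat_lit 246) (nat_lit 139))))))) (XT.nd (nat_lit 702) (nat_lit 0) (nat_lit 0) (XT.nd (nat_lit 312) (nat_lit 0) (nat_lit 0) (XT.nd (nat_lit 156) (nat_lit 0) (nat_lit 0) (XT.nd (nat_lit 78) (nat_lit 76) (nat_lit 0) (XT.lf (nat_lit 0) (nat_lit 92804038617) (nat_lit 152) (nat_lit 7854272564) (nat_lit 0) (nat_lit 56942736074) (nat_lit 4) (nat_lit 5) (nat_lit 6) (nat_lit 4) (nat_lit 4) (nat_lit 4) (nat_lit 336) (nat_lit 246) (nat_lit 138)) (XT.lf (nat_lit 0) (nat_lit 3873001101) (nat_lit 76) (nat_lit 98564611110) (nat_lit 76) (nat_lit 62694473628) (nat_lit 3) (nat_lit 4) (nat_lit 4) (nat_lit 5) (nat_lit 4) (nat_lit 4) (nat_lit 337) (nat_lit 246) (nat_lit 137))) (XT.nd (nat_lit 78) (nat_lit 0) (nat_lit 0) (XT.lf (nat_lit 0) (nat_lit 16453449905) (nat_lit 76) (nat_lit 96229147931)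 (nat_lit 76) (nat_lit 60350596220) (nat_lit 3) (nat_lit 4) (nat_lit 4) (nat_lit 5) (nat_lit 4) (nat_lit 4) (nat_lit 338) (nat_lit 246) (nat_lit 136)) (XT.lf (nat_lit 0) (nat_lit 29657329575) (nat_lit 76) (nat_lit 93779376923) (nat_lit 76) (nat_lit 57892811663) (nat_lit 3) (nat_lit 4) (nat_lit 4) (nat_lit 5) (nat_lit 4) (nat_lit 4) (nat_lit 339) (nat_lit 246) (nat_lit 135)))) (XT.nd (nat_lit 156) (nat_lit 0) (nat_lit 0) (XT.nd (nat_lit 78) (nat_lit 0) (nat_lit 0) (XT.lf (nat_lit 0) (nat_lit 43516077919) (nat_lit 76) (nat_lit 91209465299) (nat_lit 76) (nat_lit 55315268086) (nat_lit 3) (nat_lit 4) (nat_lit 4) (nat_lit 5) (nat_lit 4) (nat_lit 4) (nat_lit 340) (nat_lit 246) (nat_lit 134)) (XT.lf (nat_lit 0) (nat_lit 58062691957) (nat_lit 76) (nat_lit 88513294222) (nat_lit 76) (nat_lit 52611828483) (nat_lit 3) (nat_lit 4) (nat_lit 4) (nat_lit 5) (nat_lit 4) (nat_lit 4) (nat_lit 341) (nat_lit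 246) (nat_lit 133))) (XT.nd (nat_lit 78) (nat_lit 0) (nat_lit 0) (XT.lf (nat_lit 0) (nat_lit 73331806484) (nat_lit 76) (nat_lit 85684444237) (nat_lit 76) (nat_lit 49776056091) (nat_lit 3) (nat_lit 4) (nat_lit 4) (nat_lit 5) (nat_lit 4) (nat_lit 4) (nat_lit 342) (nat_lit 246) (nat_lit 132)) (XT.nd (nat_lit 78) (nat_lit 0) (nat_lit 0) (XT.lf (nat_lit 0) (nat_lit 89359776536) (nat_lit 76) (nat_lit 82716179985) (nat_lit 76) (nat_lit 46801199073) (nat_lit 3) (nat_lit 4) (nat_lit 4) (nat_lit 5) (nat_lit 4) (nat_lit 4) (nat_lit 343) (nat_lit 246) (nat_lit 131)) (XT.lf (nat_lit 0) (nat_lit 106184763944) (nat_lit 76) (nat_lit 79601434173) (nat_lit 76) (nat_lit 43680174434) (nat_lit 3) (nat_lit 4) (nat_lit 4) (nat_lit 5) (nat_lit 4) (nat_lit 4) (nat_lit 344) (nat_lit 246) (nat_lit 130)))))) (XT.nd (nat_lit 312) (nat_lit 0) (nat_lit 0) (XT.nd (nat_lit 156) (nat_lit 0) (nat_lit 0) (XT.nd (nat_lit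 78) (nat_lit 0) (nat_lit 0) (XT.lf (nat_lit 0) (nat_lit 123846828205) (nat_lit 76) (nat_lit 76332790738) (nat_lit 76) (nat_lit 40405551165) (nat_lit 3) (nat_lit 4) (nat_lit 4) (nat_lit 5) (nat_lit 4) (nat_lit 4) (nat_lit 345) (nat_lit 246) (nat_lit 129)) (XT.lf (nat_lit 0) (nat_lit 142388021850) (nat_lit 76) (nat_lit 72902467196) (nat_lit 76) (nat_lit 36969532542) (nat_lit 3) (nat_lit 4) (nat_lit 4) (nat_lit 5) (nat_lit 4) (nat_lit 4) (nat_lit 346) (nat_lit 246) (nat_lit 128))) (XT.nd (nat_lit 78) (nat_lit 0) (nat_lit 0) (XT.lf (nat_lit 0) (nat_lit 161852490580) (nat_lit 76) (nat_lit 69302296110) (nat_lit 76) (nat_lit 33363937569) (nat_lit 3) (nat_lit 4) (nat_lit 4) (nat_lit 5) (nat_lit 4) (nat_lit 4) (nat_lit 347) (nat_lit 246) (nat_lit 127)) (XT.lf (nat_lit 0) (nat_lit 182286578367) (nat_lit 76) (nat_lit 65523705643) (nat_lit 76) (nat_lit 29580181497) (nat_lit 3) (nat_lit 4) (nat_lit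 4) (nat_lit 5) (nat_lit 4) (nat_lit 4) (nat_lit 348) (nat_lit 246) (nat_lit 126)))) (XT.nd (nat_lit 156) (nat_lit 0) (nat_lit 0) (XT.nd (nat_lit 78) (nat_lit 0) (nat_lit 0) (XT.lf (nat_lit 0) (nat_lit 203738937802) (nat_lit 76) (nat_lit 61557699153) (nat_lit 76) (nat_lit 25609255382) (nat_lit 3) (nat_lit 4) (nat_lit 4) (nat_lit 5) (nat_lit 4) (nat_lit 4) (nat_lit 349) (nat_lit 246) (nat_lit 125)) (XT.lf (nat_lit 0) (nat_lit 226260645931) (nat_lit 76) (nat_lit 57394833766) (nat_lit 76) (nat_lit 21441704638) (nat_lit 3) (nat_lit 4) (nat_lit 4) (nat_lit 5) (nat_lit 4) (nat_lit 4) (nat_lit 350) (nat_lit 246) (nat_lit 124))) (XT.nd (nat_lit 78) (nat_lit 0) (nat_lit 0) (XT.lf (nat_lit 0) (nat_lit 249905325868) (nat_lit 76) (nat_lit 53025197898) (nat_lit 76) (nat_lit 17067606526) (nat_lit 3) (nat_lit 4) (nat_lit 4) (nat_lit 5) (nat_lit 4) (nat_lit 4) (nat_lit 351) (nat_lit 246) (nat_lit 123))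 (XT.nd (nat_lit 78) (nat_lit 0) (nat_lit 0) (XT.lf (nat_lit 0) (nat_lit 274729274470) (nat_lit 76) (nat_lit 48438387654) (nat_lit 76) (nat_lit 12476546525) (nat_lit 3) (nat_lit 4) (nat_lit 4) (nat_lit 5) (nat_lit 4) (nat_lit 4) (nat_lit 352) (nat_lit 246) (nat_lit 122)) (XT.lf (nat_lit 0) (nat_lit 300791596378) (nat_lit 76) (nat_lit 43623482058) (nat_lit 76) (nat_lit 7657593541) (nat_lit 3) (nat_lit 4) (nat_lit 4) (nat_lit 5) (nat_lit 4) (nat_lit 4) (nat_lit 353) (nat_lit 246) (nat_lit 121))))))))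
noncomputable def xc133 : XT := (XT.nd (nat_lit 29952) (nat_lit 0) (nat_lit 2964) (XT.nd (nat_lit 29250) (nat_lit 0) (nat_lit 6384) (XT.nd (nat_lit 312) (nat_lit 76) (nat_lit 0) (XT.nd (nat_lit 156) (nat_lit 0) (nat_lit 0) (XT.nd (nat_lit 78) (nat_lit 76) (nat_lit 0) (XT.lf (nat_lit 0) (nat_lit 328154344738) (nat_lit 76) (nat_lit 38569017048) (nat_lit 76) (nat_lit 2599273877) (nat_lit 3) (nat_lit 4) (nat_lit 4) (nat_lit 5) (nat_lit 4) (nat_lit 4) (nat_lit 354) (nat_lit 246) (nat_lit 120)) (XT.lf (nat_lit 0) (nat_lit 2623704564) (nat_lit 152) (nat_lit 30594819914) (nat_lit 76) (nat_lit 354214530680) (nat_lit 2) (nat_lit 5) (nat_lit 4) (nat_lit 5) (nat_lit 3) (nat_lit 4) (nat_lit 355) (nat_lit 246) (nat_lit 119))) (XT.nd (nat_lit 78) (nat_lit 0) (nat_lit 0) (XT.lf (nat_lit 0) (nat_lit 8019091192) (nat_lit 152) (nat_lit 19537773611) (nat_lit 76) (nat_lit 378890071406) (nat_lit 2) (nat_lit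 5) (nat_lit 4) (nat_lit 5) (nat_lit 3) (nat_lit 4) (nat_lit 356) (nat_lit 246) (nat_lit 118)) (XT.lf (nat_lit 0) (nat_lit 13682925163) (nat_lit 152) (nat_lit 7930243766) (nat_lit 76) (nat_lit 404798410132) (nat_lit 2) (nat_lit 5) (nat_lit 4) (nat_lit 5) (nat_lit 3) (nat_lit 4) (nat_lit 357) (nat_lit 246) (nat_lit 117)))) (XT.nd (nat_lit 156) (nat_lit 0) (nat_lit 0) (XT.nd (nat_lit 78) (nat_lit 0) (nat_lit 0) (XT.lf (nat_lit 0) (nat_lit 4396109555) (nat_lit 76) (nat_lit 15301217830) (nat_lit 152) (nat_lit 427673759412) (nat_lit 1) (nat_lit 5) (nat_lit 2) (nat_lit 5) (nat_lit 3) (nat_lit 4) (nat_lit 358) (nat_lit 246) (nat_lit 116)) (XT.lf (nat_lit 0) (nat_lit 17611881112) (nat_lit 76) (nat_lit 8533637385) (nat_lit 152) (nat_lit 443226399478) (nat_lit 1) (nat_lit 5) (nat_lit 2) (nat_lit 5) (nat_lit 3) (nat_lit 4) (nat_lit 359) (nat_lit 246) (nat_lit 115))) (XT.nd (nat_lit 28704) (nat_lit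 0) (nat_lit 7296) (XT.lf (nat_lit 0) (nat_lit 31486327354) (nat_lit 76) (nat_lit 1428616824) (nat_lit 152) (nat_lit 459557906708) (nat_lit 1) (nat_lit 5) (nat_lit 2) (nat_lit 5) (nat_lit 3) (nat_lit 4) (nat_lit 360) (nat_lit 246) (nat_lit 114)) (XT.lf (nat_lit 0) (nat_lit 1069474577) (nat_lit 0) (nat_lit 1069474577) (nat_lit 380) (nat_lit 1377893165) (nat_lit 97) (nat_lit 5) (nat_lit 97) (nat_lit 3) (nat_lit 102) (nat_lit 3) (nat_lit 247) (nat_lit 247) (nat_lit 226))))) (XT.nd (nat_lit 312) (nat_lit 456) (nat_lit 0) (XT.nd (nat_lit 156) (nat_lit 0) (nat_lit 0) (XT.nd (nat_lit 78) (nat_lit 456) (nat_lit 0) (XT.lf (nat_lit 0) (nat_lit 5255252627) (nat_lit 0) (nat_lit 700824630) (nat_lit 380) (nat_lit 1166334364) (nat_lit 97) (nat_lit 5) (nat_lit 97) (nat_lit 3) (nat_lit 102) (nat_lit 3) (nat_lit 248) (nat_lit 247) (nat_lit 225)) (XT.lf (nat_lit 0) (nat_lit 417755054) (nat_lit 456) (nat_lit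 5942621856) (nat_lit 532) (nat_lit 858764616) (nat_lit 91) (nat_lit 5) (nat_lit 97) (nat_lit 5) (nat_lit 98) (nat_lit 5) (nat_lit 249) (nat_lit 247) (nat_lit 224))) (XT.nd (nat_lit 78) (nat_lit 0) (nat_lit 0) (XT.lf (nat_lit 0) (nat_lit 1987492486) (nat_lit 456) (nat_lit 2767522279) (nat_lit 532) (nat_lit 2567951779) (nat_lit 91) (nat_lit 5) (nat_lit 97) (nat_lit 5) (nat_lit 98) (nat_lit 5) (nat_lit 250) (nat_lit 247) (nat_lit 223)) (XT.lf (nat_lit 76) (nat_lit 526543349) (nat_lit 0) (nat_lit 3024071851) (nat_lit 532) (nat_lit 3886095672) (nat_lit 92) (nat_lit 5) (nat_lit 91) (nat_lit 5) (nat_lit 98) (nat_lit 5) (nat_lit 251) (nat_lit 247) (nat_lit 222)))) (XT.nd (nat_lit 156) (nat_lit 456) (nat_lit 0) (XT.nd (nat_lit 78) (nat_lit 0) (nat_lit 76) (XT.lf (nat_lit 76) (nat_lit 4025666355) (nat_lit 0) (nat_lit 1123348472) (nat_lit 532) (nat_lit 2409722010) (nat_lit 92) (nat_lit 5) (nat_lit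 91) (nat_lit 5) (nat_lit 98) (nat_lit 5) (nat_lit 252) (nat_lit 247) (nat_lit 221)) (XT.lf (nat_lit 0) (nat_lit 6755986268) (nat_lit 456) (nat_lit 59022295) (nat_lit 532) (nat_lit 875851953) (nat_lit 92) (nat_lit 5) (nat_lit 98) (nat_lit 5) (nat_lit 99) (nat_lit 5) (nat_lit 253) (nat_lit 247) (nat_lit 220))) (XT.nd (nat_lit 78) (nat_lit 0) (nat_lit 0) (XT.lf (nat_lit 0) (nat_lit 587765445) (nat_lit 532) (nat_lit 4208749350) (nat_lit 608) (nat_lit 3033301002) (nat_lit 85) (nat_lit 5) (nat_lit 92) (nat_lit 5) (nat_lit 93) (nat_lit 5) (nat_lit 254) (nat_lit 247) (nat_lit 219)) (XT.nd (nat_lit 78) (nat_lit 0) (nat_lit 0) (XT.lf (nat_lit 0) (nat_lit 2076559106) (nat_lit 532) (nat_lit 561416309) (nat_lit 608) (nat_lit 5341275734) (nat_lit 85) (nat_lit 5) (nat_lit 92) (nat_lit 5) (nat_lit 93) (nat_lit 5) (nat_lit 255) (nat_lit 247) (nat_lit 218)) (XT.lf (nat_lit 76) (nat_lit 3319662849) (nat_lit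 0) (nat_lit 296172108) (nat_lit 608) (nat_lit 4521874134) (nat_lit 86) (nat_lit 5) (nat_lit 85) (nat_lit 5) (nat_lit 93) (nat_lit 5) (nat_lit 256) (nat_lit 247) (nat_lit 217))))))) (XT.nd (nat_lit 702) (nat_lit 1292) (nat_lit 0) (XT.nd (nat_lit 312) (nat_lit 988) (nat_lit 0) (XT.nd (nat_lit 156) (nat_lit 684) (nat_lit 0) (XT.nd (nat_lit 78) (nat_lit 532) (nat_lit 0) (XT.lf (nat_lit 0) (nat_lit 5202780952) (nat_lit 532) (nat_lit 981519308) (nat_lit 76) (nat_lit 2121590488) (nat_lit 86) (nat_lit 5) (nat_lit 93) (nat_lit 5) (nat_lit 87) (nat_lit 5) (nat_lit 257) (nat_lit 247) (nat_lit 216)) (XT.lf (nat_lit 0) (nat_lit 3085230243) (nat_lit 532) (nat_lit 3767607887) (nat_lit 608) (nat_lit 1630775299) (nat_lit 79) (nat_lit 5) (nat_lit 86) (nat_lit 5) (nat_lit 87) (nat_lit 5) (nat_lit 258) (nat_lit 247) (nat_lit 215))) (XT.nd (nat_lit 78) (nat_lit 684) (nat_lit 0) (XT.lf (nat_lit 0) (nat_lit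 7334793406) (nat_lit 532) (nat_lit 1200412436) (nat_lit 608) (nat_lit 137830904) (nat_lit 79) (nat_lit 5) (nat_lit 86) (nat_lit 5) (nat_lit 87) (nat_lit 5) (nat_lit 259) (nat_lit 247) (nat_lit 214)) (XT.lf (nat_lit 0) (nat_lit 1389606880) (nat_lit 684) (nat_lit 5954339945) (nat_lit 76) (nat_lit 1526864447) (nat_lit 70) (nat_lit 5) (nat_lit 79) (nat_lit 5) (nat_lit 71) (nat_lit 5) (nat_lit 260) (nat_lit 247) (nat_lit 213)))) (XT.nd (nat_lit 156) (nat_lit 304) (nat_lit 0) (XT.nd (nat_lit 78) (nat_lit 684) (nat_lit 0) (XT.lf (nat_lit 0) (nat_lit 2968941462) (nat_lit 684) (nat_lit 1726356587) (nat_lit 76) (nat_lit 4384319026) (nat_lit 70) (nat_lit 5) (nat_lit 79) (nat_lit 5) (nat_lit 71) (nat_lit 5) (nat_lit 261) (nat_lit 247) (nat_lit 212)) (XT.lf (nat_lit 0) (nat_lit 2746563785) (nat_lit 684) (nat_lit 1863982166) (nat_lit 760) (nat_lit 4689402890) (nat_lit 61) (nat_lit 5) (nat_lit 70)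 (nat_lit 5) (nat_lit 71) (nat_lit 5) (nat_lit 262) (nat_lit 247) (nat_lit 211))) (XT.nd (nat_lit 78) (nat_lit 304) (nat_lit 0) (XT.lf (nat_lit 0) (nat_lit 6323746951) (nat_lit 760) (nat_lit 2101236201) (nat_lit 76) (nat_lit 1107077117) (nat_lit 61) (nat_lit 5) (nat_lit 71) (nat_lit 5) (nat_lit 62) (nat_lit 5) (nat_lit 263) (nat_lit 247) (nat_lit 210)) (XT.nd (nat_lit 78) (nat_lit 0) (nat_lit 0) (XT.lf (nat_lit 0) (nat_lit 2571285050) (nat_lit 304) (nat_lit 5567250984) (nat_lit 380) (nat_lit 1636672344) (nat_lit 57) (nat_lit 5) (nat_lit 61) (nat_lit 5) (nat_lit 62) (nat_lit 5) (nat_lit 264) (nat_lit 247) (nat_lit 209)) (XT.lf (nat_lit 0) (nat_lit 7497277966) (nat_lit 304) (nat_lit 2529377216) (nat_lit 380) (nat_lit 4945858) (nat_lit 57) (nat_lit 5) (nat_lit 61) (nat_lit 5) (nat_lit 62) (nat_lit 5) (nat_lit 265) (nat_lit 247) (nat_lit 208)))))) (XT.nd (nat_lit 312) (nat_lit 608) (nat_lit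 0) (XT.nd (nat_lit 156) (nat_lit 304) (nat_lit 0) (XT.nd (nat_lit 78) (nat_lit 0) (nat_lit 0) (XT.lf (nat_lit 0) (nat_lit 1650457241) (nat_lit 380) (nat_lit 7946428111) (nat_lit 76) (nat_lit 702952462) (nat_lit 52) (nat_lit 5) (nat_lit 57) (nat_lit 5) (nat_lit 53) (nat_lit 5) (nat_lit 266) (nat_lit 247) (nat_lit 207)) (XT.lf (nat_lit 0) (nat_lit 3423673147) (nat_lit 380) (nat_lit 3102355984) (nat_lit 76) (nat_lit 4053879973) (nat_lit 52) (nat_lit 5) (nat_lit 57) (nat_lit 5) (nat_lit 53) (nat_lit 5) (nat_lit 267) (nat_lit 247) (nat_lit 206))) (XT.nd (nat_lit 78) (nat_lit 0) (nat_lit 0) (XT.lf (nat_lit 0) (nat_lit 1996111826) (nat_lit 304) (nat_lit 3273098226) (nat_lit 380) (nat_lit 5605769158) (nat_lit 48) (nat_lit 5) (nat_lit 52) (nat_lit 5) (nat_lit 53) (nat_lit 5) (nat_lit 268) (nat_lit 247) (nat_lit 205)) (XT.lf (nat_lit 0) (nat_lit 7216537506) (nat_lit 380) (nat_lit 3781310241)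 (nat_lit 76) (nat_lit 186649161) (nat_lit 48) (nat_lit 5) (nat_lit 53) (nat_lit 5) (nat_lit 49) (nat_lit 5) (nat_lit 269) (nat_lit 247) (nat_lit 204)))) (XT.nd (nat_lit 156) (nat_lit 304) (nat_lit 0) (XT.nd (nat_lit 78) (nat_lit 0) (nat_lit 0) (XT.lf (nat_lit 0) (nat_lit 1515242315) (nat_lit 304) (nat_lit 7779387347) (nat_lit 380) (nat_lit 2213352603) (nat_lit 44) (nat_lit 5) (nat_lit 48) (nat_lit 5) (nat_lit 49) (nat_lit 5) (nat_lit 270) (nat_lit 247) (nat_lit 203)) (XT.lf (nat_lit 0) (nat_lit 7157996842) (nat_lit 304) (nat_lit 4340063808) (nat_lit 380) (nat_lit 348663517) (nat_lit 44) (nat_lit 5) (nat_lit 48) (nat_lit 5) (nat_lit 49) (nat_lit 5) (nat_lit 271) (nat_lit 247) (nat_lit 202))) (XT.nd (nat_lit 78) (nat_lit 0) (nat_lit 0) (XT.lf (nat_lit 0) (nat_lit 832985838) (nat_lit 228) (nat_lit 696390597) (nat_lit 304) (nat_lit 10673329009) (nat_lit 40) (nat_lit 5) (nat_lit 43) (nat_lit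 5) (nat_lit 44) (nat_lit 5) (nat_lit 272) (nat_lit 247) (nat_lit 201)) (XT.nd (nat_lit 78) (nat_lit 0) (nat_lit 0) (XT.lf (nat_lit 0) (nat_lit 3578877095) (nat_lit 304) (nat_lit 5885086088) (nat_lit 76) (nat_lit 3107906030) (nat_lit 40) (nat_lit 5) (nat_lit 44) (nat_lit 5) (nat_lit 41) (nat_lit 5) (nat_lit 273) (nat_lit 247) (nat_lit 200)) (XT.lf (nat_lit 0) (nat_lit 5703896405) (nat_lit 304) (nat_lit 185503811) (nat_lit 76) (nat_lit 7071565460) (nat_lit 40) (nat_lit 5) (nat_lit 44) (nat_lit 5) (nat_lit 41) (nat_lit 5) (nat_lit 274) (nat_lit 247) (nat_lit 199))))))))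
noncomputable def xc134 : XT := (XT.nd (nat_lit 1326) (nat_lit 836) (nat_lit 0) (XT.nd (nat_lit 624) (nat_lit 608) (nat_lit 0) (XT.nd (nat_lit 312) (nat_lit 380) (nat_lit 0) (XT.nd (nat_lit 156) (nat_lit 304) (nat_lit 0) (XT.nd (nat_lit 78) (nat_lit 0) (nat_lit 0) (XT.lf (nat_lit 0) (nat_lit 5943705977) (nat_lit 228) (nat_lit 2047713258) (nat_lit 304) (nat_lit 5375405755) (nat_lit 37) (nat_lit 5) (nat_lit 40) (nat_lit 5) (nat_lit 41) (nat_lit 5) (nat_lit 275) (nat_lit 247) (nat_lit 198)) (XT.lf (nat_lit 0) (nat_lit 10391867945) (nat_lit 304) (nat_lit 1484659376) (nat_lit 76) (nat_lit 1916637369) (nat_lit 37) (nat_lit 5) (nat_lit 41) (nat_lit 5) (nat_lit 38) (nat_lit 5) (nat_lit 276) (nat_lit 247) (nat_lit 197))) (XT.nd (nat_lit 78) (nat_lit 76) (nat_lit 0) (XT.lf (nat_lit 0) (nat_lit 4827279862) (nat_lit 228) (nat_lit 8160042053) (nat_lit 304) (nat_lit 1249859757) (nat_lit 34) (nat_lit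 5) (nat_lit 37) (nat_lit 5) (nat_lit 38) (nat_lit 5) (nat_lit 277) (nat_lit 247) (nat_lit 196)) (XT.lf (nat_lit 0) (nat_lit 968744990) (nat_lit 304) (nat_lit 3256823964) (nat_lit 76) (nat_lit 10477547281) (nat_lit 33) (nat_lit 5) (nat_lit 37) (nat_lit 5) (nat_lit 34) (nat_lit 5) (nat_lit 278) (nat_lit 247) (nat_lit 195)))) (XT.nd (nat_lit 156) (nat_lit 152) (nat_lit 0) (XT.nd (nat_lit 78) (nat_lit 0) (nat_lit 0) (XT.lf (nat_lit 0) (nat_lit 3244526345) (nat_lit 228) (nat_lit 30348552) (nat_lit 304) (nat_lit 11915612768) (nat_lit 30) (nat_lit 5) (nat_lit 33) (nat_lit 5) (nat_lit 34) (nat_lit 5) (nat_lit 279) (nat_lit 247) (nat_lit 194)) (XT.lf (nat_lit 0) (nat_lit 5789314443) (nat_lit 304) (nat_lit 5628188189) (nat_lit 76) (nat_lit 4280164913) (nat_lit 30) (nat_lit 5) (nat_lit 34) (nat_lit 5) (nat_lit 31) (nat_lit 5) (nat_lit 280) (nat_lit 247) (nat_lit 193))) (XT.nd (nat_lit 78) (nat_lit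 0) (nat_lit 0) (XT.lf (nat_lit 0) (nat_lit 995379601) (nat_lit 152) (nat_lit 7420270525) (nat_lit 228) (nat_lit 7815333331) (nat_lit 28) (nat_lit 5) (nat_lit 30) (nat_lit 5) (nat_lit 31) (nat_lit 5) (nat_lit 281) (nat_lit 247) (nat_lit 192)) (XT.lf (nat_lit 0) (nat_lit 8104737550) (nat_lit 152) (nat_lit 3134802422) (nat_lit 228) (nat_lit 5548194987) (nat_lit 28) (nat_lit 5) (nat_lit 30) (nat_lit 5) (nat_lit 31) (nat_lit 5) (nat_lit 282) (nat_lit 247) (nat_lit 191))))) (XT.nd (nat_lit 312) (nat_lit 152) (nat_lit 0) (XT.nd (nat_lit 156) (nat_lit 228) (nat_lit 0) (XT.nd (nat_lit 78) (nat_lit 228) (nat_lit 0) (XT.lf (nat_lit 0) (nat_lit 14198066742) (nat_lit 228) (nat_lit 1864203575) (nat_lit 76) (nat_lit 1310459375) (nat_lit 28) (nat_lit 5) (nat_lit 31) (nat_lit 5) (nat_lit 29) (nat_lit 5) (nat_lit 283) (nat_lit 247) (nat_lit 190)) (XT.lf (nat_lit 0) (nat_lit 5378049579) (nat_lit 228)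 (nat_lit 12035285857) (nat_lit 304) (nat_lit 568272015) (nat_lit 25) (nat_lit 5) (nat_lit 28) (nat_lit 5) (nat_lit 29) (nat_lit 5) (nat_lit 284) (nat_lit 247) (nat_lit 189))) (XT.nd (nat_lit 78) (nat_lit 152) (nat_lit 0) (XT.lf (nat_lit 0) (nat_lit 2104767051) (nat_lit 304) (nat_lit 5645130693) (nat_lit 76) (nat_lit 10869119162) (nat_lit 24) (nat_lit 5) (nat_lit 28) (nat_lit 5) (nat_lit 25) (nat_lit 5) (nat_lit 285) (nat_lit 247) (nat_lit 188)) (XT.lf (nat_lit 0) (nat_lit 1668599395) (nat_lit 152) (nat_lit 3224711006) (nat_lit 228) (nat_lit 14394537121) (nat_lit 22) (nat_lit 5) (nat_lit 24) (nat_lit 5) (nat_lit 25) (nat_lit 5) (nat_lit 286) (nat_lit 247) (nat_lit 187)))) (XT.nd (nat_lit 156) (nat_lit 152) (nat_lit 0) (XT.nd (nat_lit 78) (nat_lit 0) (nat_lit 0) (XT.lf (nat_lit 0) (nat_lit 7917635911) (nat_lit 228) (nat_lit 10503959881) (nat_lit 76) (nat_lit 1563767067) (nat_lit 22) (nat_lit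 5) (nat_lit 25) (nat_lit 5) (nat_lit 23) (nat_lit 5) (nat_lit 287) (nat_lit 247) (nat_lit 186)) (XT.lf (nat_lit 0) (nat_lit 11122563807) (nat_lit 228) (nat_lit 3121217685) (nat_lit 76) (nat_lit 6472561202) (nat_lit 22) (nat_lit 5) (nat_lit 25) (nat_lit 5) (nat_lit 23) (nat_lit 5) (nat_lit 288) (nat_lit 247) (nat_lit 185))) (XT.nd (nat_lit 78) (nat_lit 0) (nat_lit 0) (XT.lf (nat_lit 0) (nat_lit 4748897573) (nat_lit 152) (nat_lit 9790624120) (nat_lit 228) (nat_lit 6941815921) (nat_lit 20) (nat_lit 5) (nat_lit 22) (nat_lit 5) (nat_lit 23) (nat_lit 5) (nat_lit 289) (nat_lit 247) (nat_lit 184)) (XT.nd (nat_lit 78) (nat_lit 0) (nat_lit 0) (XT.lf (nat_lit 0) (nat_lit 13087666289) (nat_lit 152) (nat_lit 5070706712) (nat_lit 228) (nat_lit 4124709644) (nat_lit 20) (nat_lit 5) (nat_lit 22) (nat_lit 5) (nat_lit 23) (nat_lit 5) (nat_lit 290) (nat_lit 247) (nat_lit 183)) (XT.lf (nat_lit 0) (nat_lit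 21811741121) (nat_lit 152) (nat_lit 125650701) (nat_lit 228) (nat_lit 1188611992) (nat_lit 20) (nat_lit 5) (nat_lit 22) (nat_lit 5) (nat_lit 23) (nat_lit 5) (nat_lit 291) (nat_lit 247) (nat_lit 182))))))) (XT.nd (nat_lit 702) (nat_lit 304) (nat_lit 0) (XT.nd (nat_lit 312) (nat_lit 152) (nat_lit 0) (XT.nd (nat_lit 156) (nat_lit 152) (nat_lit 0) (XT.nd (nat_lit 78) (nat_lit 0) (nat_lit 0) (XT.lf (nat_lit 0) (nat_lit 2006051409) (nat_lit 228) (nat_lit 16957629617) (nat_lit 76) (nat_lit 5037337229) (nat_lit 17) (nat_lit 5) (nat_lit 20) (nat_lit 5) (nat_lit 18) (nat_lit 5) (nat_lit 292) (nat_lit 247) (nat_lit 181)) (XT.lf (nat_lit 0) (nat_lit 5325348417) (nat_lit 228) (nat_lit 9107230725) (nat_lit 76) (nat_lit 10486031034) (nat_lit 17) (nat_lit 5) (nat_lit 20) (nat_lit 5) (nat_lit 18) (nat_lit 5) (nat_lit 293) (nat_lit 247) (nat_lit 180))) (XT.nd (nat_lit 78) (nat_lit 152) (nat_lit 0) (XT.lf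 (nat_lit 0) (nat_lit 8791718077) (nat_lit 228) (nat_lit 894026926) (nat_lit 76) (nat_lit 16197322546) (nat_lit 17) (nat_lit 5) (nat_lit 20) (nat_lit 5) (nat_lit 18) (nat_lit 5) (nat_lit 294) (nat_lit 247) (nat_lit 179)) (XT.lf (nat_lit 0) (nat_lit 7956184620) (nat_lit 152) (nat_lit 4581447368) (nat_lit 228) (nat_lit 14352843795) (nat_lit 15) (nat_lit 5) (nat_lit 17) (nat_lit 5) (nat_lit 18) (nat_lit 5) (nat_lit 295) (nat_lit 247) (nat_lit 178)))) (XT.nd (nat_lit 156) (nat_lit 152) (nat_lit 0) (XT.nd (nat_lit 78) (nat_lit 0) (nat_lit 0) (XT.lf (nat_lit 0) (nat_lit 16480647470) (nat_lit 228) (nat_lit 10708547166) (nat_lit 76) (nat_lit 758606910) (nat_lit 15) (nat_lit 5) (nat_lit 18) (nat_lit 5) (nat_lit 16) (nat_lit 4) (nat_lit 296) (nat_lit 247) (nat_lit 177)) (XT.lf (nat_lit 0) (nat_lit 20679032860) (nat_lit 228) (nat_lit 2173858928) (nat_lit 76) (nat_lit 6202226482) (nat_lit 15) (nat_lit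 5) (nat_lit 18) (nat_lit 5) (nat_lit 16) (nat_lit 4) (nat_lit 297) (nat_lit 247) (nat_lit 176))) (XT.nd (nat_lit 78) (nat_lit 76) (nat_lit 0) (XT.lf (nat_lit 0) (nat_lit 6985193276) (nat_lit 76) (nat_lit 18195120246) (nat_lit 152) (nat_lit 5032872441) (nat_lit 14) (nat_lit 5) (nat_lit 15) (nat_lit 5) (nat_lit 16) (nat_lit 4) (nat_lit 298) (nat_lit 247) (nat_lit 175)) (XT.nd (nat_lit 78) (nat_lit 76) (nat_lit 0) (XT.lf (nat_lit 0) (nat_lit 16652147703) (nat_lit 76) (nat_lit 13275610791) (nat_lit 152) (nat_lit 1500375850) (nat_lit 14) (nat_lit 5) (nat_lit 15) (nat_lit 5) (nat_lit 16) (nat_lit 4) (nat_lit 299) (nat_lit 247) (nat_lit 174)) (XT.lf (nat_lit 0) (nat_lit 2122810027) (nat_lit 152) (nat_lit 5960704815) (nat_lit 76) (nat_lit 24619382473) (nat_lit 13) (nat_lit 5) (nat_lit 15) (nat_lit 5) (nat_lit 14) (nat_lit 5) (nat_lit 300) (nat_lit 247) (nat_lit 173)))))) (XT.nd (nat_lit 312)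 (nat_lit 152) (nat_lit 0) (XT.nd (nat_lit 156) (nat_lit 0) (nat_lit 0) (XT.nd (nat_lit 78) (nat_lit 0) (nat_lit 0) (XT.lf (nat_lit 0) (nat_lit 3354451199) (nat_lit 152) (nat_lit 2560137832) (nat_lit 228) (nat_lit 28123714690) (nat_lit 11) (nat_lit 5) (nat_lit 13) (nat_lit 5) (nat_lit 14) (nat_lit 5) (nat_lit 301) (nat_lit 247) (nat_lit 172)) (XT.lf (nat_lit 0) (nat_lit 10034805407) (nat_lit 228) (nat_lit 22169226489) (nat_lit 76) (nat_lit 3229532718) (nat_lit 11) (nat_lit 5) (nat_lit 14) (nat_lit 5) (nat_lit 12) (nat_lit 4) (nat_lit 302) (nat_lit 247) (nat_lit 171))) (XT.nd (nat_lit 78) (nat_lit 0) (nat_lit 0) (XT.lf (nat_lit 0) (nat_lit 14389354346) (nat_lit 228) (nat_lit 13293571506) (nat_lit 76) (nat_lit 9214271933) (nat_lit 11) (nat_lit 5) (nat_lit 14) (nat_lit 5) (nat_lit 12) (nat_lit 4) (nat_lit 303) (nat_lit 247) (nat_lit 170)) (XT.lf (nat_lit 0) (nat_lit 18948632897) (nat_lit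 228) (nat_lit 3995784135) (nat_lit 76) (nat_lit 15490269589) (nat_lit 11) (nat_lit 5) (nat_lit 14) (nat_lit 5) (nat_lit 12) (nat_lit 4) (nat_lit 304) (nat_lit 247) (nat_lit 169)))) (XT.nd (nat_lit 156) (nat_lit 76) (nat_lit 0) (XT.nd (nat_lit 78) (nat_lit 0) (nat_lit 0) (XT.lf (nat_lit 0) (nat_lit 5936270953) (nat_lit 76) (nat_lit 17879907358) (nat_lit 152) (nat_lit 16228879410) (nat_lit 10) (nat_lit 5) (nat_lit 11) (nat_lit 5) (nat_lit 12) (nat_lit 4) (nat_lit 305) (nat_lit 247) (nat_lit 168)) (XT.lf (nat_lit 0) (nat_lit 16483366578) (nat_lit 76) (nat_lit 12499298801) (nat_lit 152) (nat_lit 12750525649) (nat_lit 10) (nat_lit 5) (nat_lit 11) (nat_lit 5) (nat_lit 12) (nat_lit 4) (nat_lit 306) (nat_lit 247) (nat_lit 167))) (XT.nd (nat_lit 78) (nat_lit 76) (nat_lit 0) (XT.lf (nat_lit 0) (nat_lit 27538496202) (nat_lit 76) (nat_lit 6857450929) (nat_lit 152) (nat_lit 9110381186) (nat_lit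 10) (nat_lit 5) (nat_lit 11) (nat_lit 5) (nat_lit 12) (nat_lit 4) (nat_lit 307) (nat_lit 247) (nat_lit 166)) (XT.nd (nat_lit 78) (nat_lit 76) (nat_lit 0) (XT.lf (nat_lit 0) (nat_lit 39127981562) (nat_lit 76) (nat_lit 940930771) (nat_lit 152) (nat_lit 5299779011) (nat_lit 10) (nat_lit 5) (nat_lit 11) (nat_lit 5) (nat_lit 12) (nat_lit 4) (nat_lit 308) (nat_lit 247) (nat_lit 165)) (XT.lf (nat_lit 0) (nat_lit 4000553838) (nat_lit 76) (nat_lit 42159165298) (nat_lit 76) (nat_lit 1157762613) (nat_lit 9) (nat_lit 4) (nat_lit 10) (nat_lit 5) (nat_lit 10) (nat_lit 4) (nat_lit 309) (nat_lit 247) (nat_lit 164))))))))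
noncomputable def xc135 : XT := (XT.nd (nat_lit 1326) (nat_lit 152) (nat_lit 0) (XT.nd (nat_lit 624) (nat_lit 152) (nat_lit 0) (XT.nd (nat_lit 312) (nat_lit 76) (nat_lit 0) (XT.nd (nat_lit 156) (nat_lit 0) (nat_lit 0) (XT.nd (nat_lit 78) (nat_lit 0) (nat_lit 0) (XT.lf (nat_lit 0) (nat_lit 3201530874) (nat_lit 152) (nat_lit 34472898494) (nat_lit 76) (nat_lit 11681192167) (nat_lit 8) (nat_lit 5) (nat_lit 10) (nat_lit 5) (nat_lit 9) (nat_lit 4) (nat_lit 310) (nat_lit 247) (nat_lit 163)) (XT.lf (nat_lit 0) (nat_lit 7729854334) (nat_lit 152) (nat_lit 25222820260) (nat_lit 76) (nat_lit 18542562367) (nat_lit 8) (nat_lit 5) (nat_lit 10) (nat_lit 5) (nat_lit 9) (nat_lit 4) (nat_lit 311) (nat_lit 247) (nat_lit 162))) (XT.nd (nat_lit 78) (nat_lit 0) (nat_lit 0) (XT.lf (nat_lit 0) (nat_lit 12475045123) (nat_lit 152) (nat_lit 15526593294) (nat_lit 76) (nat_lit 25740687730) (nat_lit 8) (nat_lit 5)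 (nat_lit 10) (nat_lit 5) (nat_lit 9) (nat_lit 4) (nat_lit 312) (nat_lit 247) (nat_lit 161)) (XT.lf (nat_lit 0) (nat_lit 17448401314) (nat_lit 152) (nat_lit 5361131342) (nat_lit 76) (nat_lit 33292706647) (nat_lit 8) (nat_lit 5) (nat_lit 10) (nat_lit 5) (nat_lit 9) (nat_lit 4) (nat_lit 313) (nat_lit 247) (nat_lit 160)))) (XT.nd (nat_lit 156) (nat_lit 0) (nat_lit 0) (XT.nd (nat_lit 78) (nat_lit 0) (nat_lit 0) (XT.lf (nat_lit 0) (nat_lit 5472937247) (nat_lit 76) (nat_lit 17274274872) (nat_lit 152) (nat_lit 35829110758) (nat_lit 7) (nat_lit 5) (nat_lit 8) (nat_lit 5) (nat_lit 9) (nat_lit 4) (nat_lit 314) (nat_lit 247) (nat_lit 159)) (XT.lf (nat_lit 0) (nat_lit 17020240280) (nat_lit 76) (nat_lit 11373040014) (nat_lit 152) (nat_lit 32776727923) (nat_lit 7) (nat_lit 5) (nat_lit 8) (nat_lit 5) (nat_lit 9) (nat_lit 4) (nat_lit 315) (nat_lit 247) (nat_lit 158))) (XT.nd (nat_lit 78) (nat_lit 0)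 (nat_lit 0) (XT.lf (nat_lit 0) (nat_lit 29131008119) (nat_lit 76) (nat_lit 5182570877) (nat_lit 152) (nat_lit 29580215260) (nat_lit 7) (nat_lit 5) (nat_lit 8) (nat_lit 5) (nat_lit 9) (nat_lit 4) (nat_lit 316) (nat_lit 247) (nat_lit 157)) (XT.lf (nat_lit 0) (nat_lit 40542686170) (nat_lit 152) (nat_lit 24940572270) (nat_lit 0) (nat_lit 1269883661) (nat_lit 7) (nat_lit 5) (nat_lit 9) (nat_lit 4) (nat_lit 7) (nat_lit 4) (nat_lit 317) (nat_lit 247) (nat_lit 156))))) (XT.nd (nat_lit 312) (nat_lit 76) (nat_lit 0) (XT.nd (nat_lit 156) (nat_lit 76) (nat_lit 0) (XT.nd (nat_lit 78) (nat_lit 0) (nat_lit 0) (XT.lf (nat_lit 0) (nat_lit 47160804016) (nat_lit 152) (nat_lit 14725111101) (nat_lit 0) (nat_lit 7865676055) (nat_lit 7) (nat_lit 5) (nat_lit 9) (nat_lit 4) (nat_lit 7) (nat_lit 4) (nat_lit 318) (nat_lit 247) (nat_lit 155)) (XT.lf (nat_lit 0) (nat_lit 54102775500) (nat_lit 152) (nat_lit 4011165651)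 (nat_lit 0) (nat_lit 14786385206) (nat_lit 7) (nat_lit 5) (nat_lit 9) (nat_lit 4) (nat_lit 7) (nat_lit 4) (nat_lit 319) (nat_lit 247) (nat_lit 154))) (XT.nd (nat_lit 78) (nat_lit 0) (nat_lit 0) (XT.lf (nat_lit 0) (nat_lit 7465723242) (nat_lit 76) (nat_lit 54035966748) (nat_lit 76) (nat_lit 14699326611) (nat_lit 6) (nat_lit 4) (nat_lit 7) (nat_lit 5) (nat_lit 7) (nat_lit 4) (nat_lit 320) (nat_lit 247) (nat_lit 153)) (XT.lf (nat_lit 0) (nat_lit 19644200366) (nat_lit 76) (nat_lit 49687704490) (nat_lit 76) (nat_lit 10331778789) (nat_lit 6) (nat_lit 4) (nat_lit 7) (nat_lit 5) (nat_lit 7) (nat_lit 4) (nat_lit 321) (nat_lit 247) (nat_lit 152)))) (XT.nd (nat_lit 156) (nat_lit 76) (nat_lit 0) (XT.nd (nat_lit 78) (nat_lit 0) (nat_lit 0) (XT.lf (nat_lit 0) (nat_lit 32420634842) (nat_lit 76) (nat_lit 45126732404) (nat_lit 76) (nat_lit 5752439500) (nat_lit 6) (nat_lit 4) (nat_lit 7) (nat_lit 5)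 (nat_lit 7) (nat_lit 4) (nat_lit 322) (nat_lit 247) (nat_lit 151)) (XT.lf (nat_lit 0) (nat_lit 45825446753) (nat_lit 76) (nat_lit 40342191033) (nat_lit 76) (nat_lit 950405553) (nat_lit 6) (nat_lit 4) (nat_lit 7) (nat_lit 5) (nat_lit 7) (nat_lit 4) (nat_lit 323) (nat_lit 247) (nat_lit 150))) (XT.nd (nat_lit 78) (nat_lit 0) (nat_lit 0) (XT.lf (nat_lit 0) (nat_lit 3954986740) (nat_lit 152) (nat_lit 31300722256) (nat_lit 76) (nat_lit 55868585963) (nat_lit 5) (nat_lit 5) (nat_lit 7) (nat_lit 5) (nat_lit 6) (nat_lit 4) (nat_lit 324) (nat_lit 247) (nat_lit 149)) (XT.nd (nat_lit 78) (nat_lit 0) (nat_lit 0) (XT.lf (nat_lit 0) (nat_lit 9068201711) (nat_lit 152) (nat_lit 20834497847) (nat_lit 76) (nat_lit 65427663786) (nat_lit 5) (nat_lit 5) (nat_lit 7) (nat_lit 5) (nat_lit 6) (nat_lit 4) (nat_lit 325) (nat_lit 247) (nat_lit 148)) (XT.lf (nat_lit 0) (nat_lit 14431832593) (nat_lit 152) (nat_lit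 9854165282) (nat_lit 76) (nat_lit 75461006992) (nat_lit 5) (nat_lit 5) (nat_lit 7) (nat_lit 5) (nat_lit 6) (nat_lit 4) (nat_lit 326) (nat_lit 247) (nat_lit 147))))))) (XT.nd (nat_lit 702) (nat_lit 76) (nat_lit 0) (XT.nd (nat_lit 312) (nat_lit 0) (nat_lit 0) (XT.nd (nat_lit 156) (nat_lit 0) (nat_lit 0) (XT.nd (nat_lit 78) (nat_lit 0) (nat_lit 0) (XT.lf (nat_lit 0) (nat_lit 1721518426) (nat_lit 76) (nat_lit 18364009237) (nat_lit 152) (nat_lit 84297863794) (nat_lit 4) (nat_lit 5) (nat_lit 5) (nat_lit 5) (nat_lit 6) (nat_lit 4) (nat_lit 327) (nat_lit 247) (nat_lit 146)) (XT.lf (nat_lit 0) (nat_lit 14209477233) (nat_lit 76) (nat_lit 11974423453) (nat_lit 152) (nat_lit 83059603812) (nat_lit 4) (nat_lit 5) (nat_lit 5) (nat_lit 5) (nat_lit 6) (nat_lit 4) (nat_lit 328) (nat_lit 247) (nat_lit 145))) (XT.nd (nat_lit 78) (nat_lit 0) (nat_lit 0) (XT.lf (nat_lit 0) (nat_lit 27313621164) (nat_lit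 76) (nat_lit 5268912283) (nat_lit 152) (nat_lit 81764329148) (nat_lit 4) (nat_lit 5) (nat_lit 5) (nat_lit 5) (nat_lit 6) (nat_lit 4) (nat_lit 329) (nat_lit 247) (nat_lit 144)) (XT.lf (nat_lit 0) (nat_lit 39324271869) (nat_lit 152) (nat_lit 78668077121) (nat_lit 0) (nat_lit 1711887059) (nat_lit 4) (nat_lit 5) (nat_lit 6) (nat_lit 4) (nat_lit 4) (nat_lit 4) (nat_lit 330) (nat_lit 247) (nat_lit 143)))) (XT.nd (nat_lit 156) (nat_lit 0) (nat_lit 0) (XT.nd (nat_lit 78) (nat_lit 0) (nat_lit 0) (XT.lf (nat_lit 0) (nat_lit 46485196723) (nat_lit 152) (nat_lit 69978646291) (nat_lit 0) (nat_lit 8861536043) (nat_lit 4) (nat_lit 5) (nat_lit 6) (nat_lit 4) (nat_lit 4) (nat_lit 4) (nat_lit 331) (nat_lit 247) (nat_lit 142)) (XT.lf (nat_lit 0) (nat_lit 54000095345) (nat_lit 152) (nat_lit 60861997334) (nat_lit 0) (nat_lit 16365695742) (nat_lit 4) (nat_lit 5) (nat_lit 6) (nat_lit 4) (nat_lit 4) (nat_lit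 4) (nat_lit 332) (nat_lit 247) (nat_lit 141))) (XT.nd (nat_lit 78) (nat_lit 0) (nat_lit 0) (XT.lf (nat_lit 0) (nat_lit 61886860351) (nat_lit 152) (nat_lit 51296423943) (nat_lit 0) (nat_lit 24242233200) (nat_lit 4) (nat_lit 5) (nat_lit 6) (nat_lit 4) (nat_lit 4) (nat_lit 4) (nat_lit 333) (nat_lit 247) (nat_lit 140)) (XT.nd (nat_lit 78) (nat_lit 0) (nat_lit 0) (XT.lf (nat_lit 0) (nat_lit 70164269751) (nat_lit 152) (nat_lit 41259150943) (nat_lit 0) (nat_lit 32509902081) (nat_lit 4) (nat_lit 5) (nat_lit 6) (nat_lit 4) (nat_lit 4) (nat_lit 4) (nat_lit 334) (nat_lit 247) (nat_lit 139)) (XT.lf (nat_lit 0) (nat_lit 78852031664) (nat_lit 152) (nat_lit 30726280064) (nat_lit 0) (nat_lit 41188387308) (nat_lit 4) (nat_lit 5) (nat_lit 6) (nat_lit 4) (nat_lit 4) (nat_lit 4) (nat_lit 335) (nat_lit 247) (nat_lit 138)))))) (XT.nd (nat_lit 312) (nat_lit 0) (nat_lit 0) (XT.nd (nat_lit 156) (nat_lit 76)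 (nat_lit 0) (XT.nd (nat_lit 78) (nat_lit 0) (nat_lit 0) (XT.lf (nat_lit 0) (nat_lit 87970831238) (nat_lit 152) (nat_lit 19672733044) (nat_lit 0) (nat_lit 50298351942) (nat_lit 4) (nat_lit 5) (nat_lit 6) (nat_lit 4) (nat_lit 4) (nat_lit 4) (nat_lit 336) (nat_lit 247) (nat_lit 137)) (XT.lf (nat_lit 0) (nat_lit 97542379899) (nat_lit 152) (nat_lit 8072191912) (nat_lit 0) (nat_lit 59861486376) (nat_lit 4) (nat_lit 5) (nat_lit 6) (nat_lit 4) (nat_lit 4) (nat_lit 4) (nat_lit 337) (nat_lit 247) (nat_lit 136))) (XT.nd (nat_lit 78) (nat_lit 0) (nat_lit 0) (XT.lf (nat_lit 0) (nat_lit 4238626174) (nat_lit 76) (nat_lit 103417017709) (nat_lit 76) (nat_lit 65728110635) (nat_lit 3) (nat_lit 4) (nat_lit 4) (nat_lit 5) (nat_lit 4) (nat_lit 4) (nat_lit 338) (nat_lit 247) (nat_lit 135)) (XT.lf (nat_lit 0) (nat_lit 17439908132) (nat_lit 76) (nat_lit 100968392035) (nat_lit 76) (nat_lit 63271853009) (nat_lit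 3) (nat_lit 4) (nat_lit 4) (nat_lit 5) (nat_lit 4) (nat_lit 4) (nat_lit 339) (nat_lit 247) (nat_lit 134)))) (XT.nd (nat_lit 156) (nat_lit 0) (nat_lit 0) (XT.nd (nat_lit 78) (nat_lit 0) (nat_lit 0) (XT.lf (nat_lit 0) (nat_lit 31296182464) (nat_lit 76) (nat_lit 98399571205) (nat_lit 76) (nat_lit 60695763653) (nat_lit 3) (nat_lit 4) (nat_lit 4) (nat_lit 5) (nat_lit 4) (nat_lit 4) (nat_lit 340) (nat_lit 247) (nat_lit 133)) (XT.lf (nat_lit 0) (nat_lit 45840440301) (nat_lit 76) (nat_lit 95704438979) (nat_lit 76) (nat_lit 57993709021) (nat_lit 3) (nat_lit 4) (nat_lit 4) (nat_lit 5) (nat_lit 4) (nat_lit 4) (nat_lit 341) (nat_lit 247) (nat_lit 132))) (XT.nd (nat_lit 78) (nat_lit 0) (nat_lit 0) (XT.lf (nat_lit 0) (nat_lit 61107310827) (nat_lit 76) (nat_lit 92876578376) (nat_lit 76) (nat_lit 55159255650) (nat_lit 3) (nat_lit 4) (nat_lit 4) (nat_lit 5) (nat_lit 4) (nat_lit 4) (nat_lit 342) (nat_lit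 247) (nat_lit 131)) (XT.nd (nat_lit 78) (nat_lit 0) (nat_lit 0) (XT.lf (nat_lit 0) (nat_lit 77133143735) (nat_lit 76) (nat_lit 89909256394) (nat_lit 76) (nat_lit 52185654842) (nat_lit 3) (nat_lit 4) (nat_lit 4) (nat_lit 5) (nat_lit 4) (nat_lit 4) (nat_lit 343) (nat_lit 247) (nat_lit 130)) (XT.lf (nat_lit 0) (nat_lit 93956095768) (nat_lit 76) (nat_lit 86795407981) (nat_lit 76) (nat_lit 49065826594) (nat_lit 3) (nat_lit 4) (nat_lit 4) (nat_lit 5) (nat_lit 4) (nat_lit 4) (nat_lit 344) (nat_lit 247) (nat_lit 129))))))))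
noncomputable def xc136 : XT := (XT.nd (nat_lit 30030) (nat_lit 0) (nat_lit 4180) (XT.nd (nat_lit 624) (nat_lit 152) (nat_lit 0) (XT.nd (nat_lit 312) (nat_lit 0) (nat_lit 0) (XT.nd (nat_lit 156) (nat_lit 0) (nat_lit 0) (XT.nd (nat_lit 78) (nat_lit 0) (nat_lit 0) (XT.lf (nat_lit 0) (nat_lit 111616221576) (nat_lit 76) (nat_lit 83527619211) (nat_lit 76) (nat_lit 45792342744) (nat_lit 3) (nat_lit 4) (nat_lit 4) (nat_lit 5) (nat_lit 4) (nat_lit 4) (nat_lit 345) (nat_lit 247) (nat_lit 128)) (XT.lf (nat_lit 0) (nat_lit 130155569076) (nat_lit 76) (nat_lit 80098109636) (nat_lit 76) (nat_lit 42357409283) (nat_lit 3) (nat_lit 4) (nat_lit 4) (nat_lit 5) (nat_lit 4) (nat_lit 4) (nat_lit 346) (nat_lit 247) (nat_lit 127))) (XT.nd (nat_lit 78) (nat_lit 0) (nat_lit 0) (XT.lf (nat_lit 0) (nat_lit 149618279572) (nat_lit 76) (nat_lit 76498713757) (nat_lit 76) (nat_lit 38752847798) (nat_lit 3) (nat_lit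 4) (nat_lit 4) (nat_lit 5) (nat_lit 4) (nat_lit 4) (nat_lit 347) (nat_lit 247) (nat_lit 126)) (XT.lf (nat_lit 0) (nat_lit 170050692851) (nat_lit 76) (nat_lit 72720861583) (nat_lit 76) (nat_lit 34970075999) (nat_lit 3) (nat_lit 4) (nat_lit 4) (nat_lit 5) (nat_lit 4) (nat_lit 4) (nat_lit 348) (nat_lit 247) (nat_lit 125)))) (XT.nd (nat_lit 156) (nat_lit 0) (nat_lit 0) (XT.nd (nat_lit 78) (nat_lit 0) (nat_lit 0) (XT.lf (nat_lit 0) (nat_lit 191501457517) (nat_lit 76) (nat_lit 68755558228) (nat_lit 76) (nat_lit 31000087287) (nat_lit 3) (nat_lit 4) (nat_lit 4) (nat_lit 5) (nat_lit 4) (nat_lit 4) (nat_lit 349) (nat_lit 247) (nat_lit 124)) (XT.lf (nat_lit 0) (nat_lit 214021646817) (nat_lit 76) (nat_lit 64593362494) (nat_lit 76) (nat_lit 26833429309) (nat_lit 3) (nat_lit 4) (nat_lit 4) (nat_lit 5) (nat_lit 4) (nat_lit 4) (nat_lit 350) (nat_lit 247) (nat_lit 123))) (XT.nd (nat_lit 78) (nat_lit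 0) (nat_lit 0) (XT.lf (nat_lit 0) (nat_lit 237664880251) (nat_lit 76) (nat_lit 60224364391) (nat_lit 76) (nat_lit 22460181449) (nat_lit 3) (nat_lit 4) (nat_lit 4) (nat_lit 5) (nat_lit 4) (nat_lit 4) (nat_lit 351) (nat_lit 247) (nat_lit 122)) (XT.lf (nat_lit 0) (nat_lit 262487451231) (nat_lit 76) (nat_lit 55638161542) (nat_lit 76) (nat_lit 17869931212) (nat_lit 3) (nat_lit 4) (nat_lit 4) (nat_lit 5) (nat_lit 4) (nat_lit 4) (nat_lit 352) (nat_lit 247) (nat_lit 121))))) (XT.nd (nat_lit 312) (nat_lit 76) (nat_lit 0) (XT.nd (nat_lit 156) (nat_lit 76) (nat_lit 0) (XT.nd (nat_lit 78) (nat_lit 0) (nat_lit 0) (XT.lf (nat_lit 0) (nat_lit 288548461118) (nat_lit 76) (nat_lit 50823834417) (nat_lit 76) (nat_lit 13051749433) (nat_lit 3) (nat_lit 4) (nat_lit 4) (nat_lit 5) (nat_lit 4) (nat_lit 4) (nat_lit 353) (nat_lit 247) (nat_lit 120)) (XT.lf (nat_lit 0) (nat_lit 315909959934) (nat_lit 76) (nat_lit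 45769920332) (nat_lit 76) (nat_lit 7994164249) (nat_lit 3) (nat_lit 4) (nat_lit 4) (nat_lit 5) (nat_lit 4) (nat_lit 4) (nat_lit 354) (nat_lit 247) (nat_lit 119))) (XT.nd (nat_lit 78) (nat_lit 76) (nat_lit 0) (XT.lf (nat_lit 0) (nat_lit 344637094105) (nat_lit 76) (nat_lit 40464386159) (nat_lit 76) (nat_lit 2685133790) (nat_lit 3) (nat_lit 4) (nat_lit 4) (nat_lit 5) (nat_lit 4) (nat_lit 4) (nat_lit 355) (nat_lit 247) (nat_lit 118)) (XT.lf (nat_lit 0) (nat_lit 2795549015) (nat_lit 152) (nat_lit 32051706682) (nat_lit 76) (nat_lit 371955368579) (nat_lit 2) (nat_lit 5) (nat_lit 4) (nat_lit 5) (nat_lit 3) (nat_lit 4) (nat_lit 356) (nat_lit 247) (nat_lit 117)))) (XT.nd (nat_lit 156) (nat_lit 76) (nat_lit 0) (XT.nd (nat_lit 78) (nat_lit 0) (nat_lit 0) (XT.lf (nat_lit 0) (nat_lit 8458768822) (nat_lit 152) (nat_lit 20445277313) (nat_lit 76) (nat_lit 397863252467) (nat_lit 2) (nat_lit 5) (nat_lit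 4) (nat_lit 5) (nat_lit 3) (nat_lit 4) (nat_lit 357) (nat_lit 247) (nat_lit 116)) (XT.lf (nat_lit 0) (nat_lit 14403950535) (nat_lit 152) (nat_lit 8260675023) (nat_lit 76) (nat_lit 425065642534) (nat_lit 2) (nat_lit 5) (nat_lit 4) (nat_lit 5) (nat_lit 3) (nat_lit 4) (nat_lit 358) (nat_lit 247) (nat_lit 115))) (XT.nd (nat_lit 78) (nat_lit 0) (nat_lit 0) (XT.lf (nat_lit 0) (nat_lit 4680930143) (nat_lit 76) (nat_lit 16037401645) (nat_lit 152) (nat_lit 449019458669) (nat_lit 1) (nat_lit 5) (nat_lit 2) (nat_lit 5) (nat_lit 3) (nat_lit 4) (nat_lit 359) (nat_lit 247) (nat_lit 114)) (XT.nd (nat_lit 28782) (nat_lit 0) (nat_lit 6764) (XT.lf (nat_lit 0) (nat_lit 18554394320) (nat_lit 76) (nat_lit 8932817277) (nat_lit 152) (nat_lit 465351539725) (nat_lit 1) (nat_lit 5) (nat_lit 2) (nat_lit 5) (nat_lit 3) (nat_lit 4) (nat_lit 360) (nat_lit 247) (nat_lit 113)) (XT.lf (nat_lit 0) (nat_lit 179724846)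 (nat_lit 532) (nat_lit 1713529813) (nat_lit 532) (nat_lit 1713529813) (nat_lit 90) (nat_lit 3) (nat_lit 97) (nat_lit 3) (nat_lit 97) (nat_lit 5) (nat_lit 248) (nat_lit 248) (nat_lit 224))))))) (XT.nd (nat_lit 702) (nat_lit 2128) (nat_lit 0) (XT.nd (nat_lit 312) (nat_lit 456) (nat_lit 0) (XT.nd (nat_lit 156) (nat_lit 0) (nat_lit 76) (XT.nd (nat_lit 78) (nat_lit 0) (nat_lit 0) (XT.lf (nat_lit 0) (nat_lit 1824462399) (nat_lit 532) (nat_lit 353553081) (nat_lit 532) (nat_lit 5135702478) (nat_lit 90) (nat_lit 3) (nat_lit 97) (nat_lit 3) (nat_lit 97) (nat_lit 5) (nat_lit 249) (nat_lit 248) (nat_lit 223)) (XT.lf (nat_lit 76) (nat_lit 2917849674) (nat_lit 0) (nat_lit 397227995) (nat_lit 532) (nat_lit 4106652136) (nat_lit 91) (nat_lit 5) (nat_lit 90) (nat_lit 3) (nat_lit 97) (nat_lit 5) (nat_lit 250) (nat_lit 248) (nat_lit 222))) (XT.nd (nat_lit 78) (nat_lit 0) (nat_lit 0) (XT.lf (nat_lit 0)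 (nat_lit 4820422368) (nat_lit 456) (nat_lit 1246779670) (nat_lit 532) (nat_lit 1471380733) (nat_lit 91) (nat_lit 5) (nat_lit 97) (nat_lit 5) (nat_lit 98) (nat_lit 5) (nat_lit 251) (nat_lit 248) (nat_lit 221)) (XT.lf (nat_lit 76) (nat_lit 2185229259) (nat_lit 0) (nat_lit 4171788355) (nat_lit 532) (nat_lit 1306890613) (nat_lit 92) (nat_lit 5) (nat_lit 91) (nat_lit 5) (nat_lit 98) (nat_lit 5) (nat_lit 252) (nat_lit 248) (nat_lit 220)))) (XT.nd (nat_lit 156) (nat_lit 0) (nat_lit 76) (XT.nd (nat_lit 78) (nat_lit 0) (nat_lit 76) (XT.lf (nat_lit 0) (nat_lit 107669785) (nat_lit 532) (nat_lit 2019082586) (nat_lit 608) (nat_lit 5672083822) (nat_lit 84) (nat_lit 5) (nat_lit 91) (nat_lit 5) (nat_lit 92) (nat_lit 5) (nat_lit 253) (nat_lit 248) (nat_lit 219)) (XT.lf (nat_lit 0) (nat_lit 1496233369) (nat_lit 532) (nat_lit 6352152029) (nat_lit 608) (nat_lit 94064767) (nat_lit 85) (nat_lit 5) (nat_lit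 92) (nat_lit 5) (nat_lit 93) (nat_lit 5) (nat_lit 254) (nat_lit 248) (nat_lit 218))) (XT.nd (nat_lit 78) (nat_lit 0) (nat_lit 0) (XT.lf (nat_lit 0) (nat_lit 2948057892) (nat_lit 532) (nat_lit 2731585075) (nat_lit 608) (nat_lit 2414263176) (nat_lit 85) (nat_lit 5) (nat_lit 92) (nat_lit 5) (nat_lit 93) (nat_lit 5) (nat_lit 255) (nat_lit 248) (nat_lit 217)) (XT.nd (nat_lit 78) (nat_lit 0) (nat_lit 0) (XT.lf (nat_lit 76) (nat_lit 1051404128) (nat_lit 0) (nat_lit 3365307036) (nat_lit 608) (nat_lit 3839348019) (nat_lit 86) (nat_lit 5) (nat_lit 85) (nat_lit 5) (nat_lit 93) (nat_lit 5) (nat_lit 256) (nat_lit 248) (nat_lit 216)) (XT.lf (nat_lit 76) (nat_lit 5066962524) (nat_lit 0) (nat_lit 868551761) (nat_lit 608) (nat_lit 2492289862) (nat_lit 86) (nat_lit 5) (nat_lit 85) (nat_lit 5) (nat_lit 93) (nat_lit 5) (nat_lit 257) (nat_lit 248) (nat_lit 215)))))) (XT.nd (nat_lit 312) (nat_lit 1064) (nat_lit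 0) (XT.nd (nat_lit 156) (nat_lit 608) (nat_lit 0) (XT.nd (nat_lit 78) (nat_lit 76) (nat_lit 0) (XT.lf (nat_lit 0) (nat_lit 614611539) (nat_lit 532) (nat_lit 6886649349) (nat_lit 608) (nat_lit 1108630194) (nat_lit 79) (nat_lit 5) (nat_lit 86) (nat_lit 5) (nat_lit 87) (nat_lit 5) (nat_lit 258) (nat_lit 248) (nat_lit 214)) (XT.lf (nat_lit 0) (nat_lit 340327203) (nat_lit 608) (nat_lit 3967688372) (nat_lit 76) (nat_lit 4492718040) (nat_lit 78) (nat_lit 5) (nat_lit 86) (nat_lit 5) (nat_lit 79) (nat_lit 5) (nat_lit 259) (nat_lit 248) (nat_lit 213))) (XT.nd (nat_lit 78) (nat_lit 0) (nat_lit 0) (XT.lf (nat_lit 0) (nat_lit 197599825) (nat_lit 608) (nat_lit 1568096284) (nat_lit 684) (nat_lit 7237715780) (nat_lit 70) (nat_lit 5) (nat_lit 78) (nat_lit 5) (nat_lit 79) (nat_lit 5) (nat_lit 260) (nat_lit 248) (nat_lit 212)) (XT.lf (nat_lit 0) (nat_lit 3291485690) (nat_lit 684) (nat_lit 4579867962)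 (nat_lit 76) (nat_lit 1343663648) (nat_lit 70) (nat_lit 5) (nat_lit 79) (nat_lit 5) (nat_lit 71) (nat_lit 5) (nat_lit 261) (nat_lit 248) (nat_lit 211)))) (XT.nd (nat_lit 156) (nat_lit 380) (nat_lit 0) (XT.nd (nat_lit 78) (nat_lit 684) (nat_lit 0) (XT.lf (nat_lit 0) (nat_lit 4862529932) (nat_lit 684) (nat_lit 220113482) (nat_lit 76) (nat_lit 4356350195) (nat_lit 70) (nat_lit 5) (nat_lit 79) (nat_lit 5) (nat_lit 71) (nat_lit 5) (nat_lit 262) (nat_lit 248) (nat_lit 210)) (XT.lf (nat_lit 0) (nat_lit 4450766441) (nat_lit 684) (nat_lit 2076809534) (nat_lit 760) (nat_lit 3146047790) (nat_lit 61) (nat_lit 5) (nat_lit 70) (nat_lit 5) (nat_lit 71) (nat_lit 5) (nat_lit 263) (nat_lit 248) (nat_lit 209))) (XT.nd (nat_lit 78) (nat_lit 380) (nat_lit 0) (XT.lf (nat_lit 0) (nat_lit 8244348579) (nat_lit 760) (nat_lit 625283995) (nat_lit 76) (nat_lit 1052145822) (nat_lit 61) (nat_lit 5) (nat_lit 71) (nat_lit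 5) (nat_lit 62) (nat_lit 5) (nat_lit 264) (nat_lit 248) (nat_lit 208)) (XT.nd (nat_lit 78) (nat_lit 76) (nat_lit 0) (XT.lf (nat_lit 0) (nat_lit 4255363093) (nat_lit 304) (nat_lit 5842399272) (nat_lit 380) (nat_lit 82244624) (nat_lit 57) (nat_lit 5) (nat_lit 61) (nat_lit 5) (nat_lit 62) (nat_lit 5) (nat_lit 265) (nat_lit 248) (nat_lit 207)) (XT.lf (nat_lit 0) (nat_lit 1503440448) (nat_lit 380) (nat_lit 1123882936) (nat_lit 76) (nat_lit 7824681630) (nat_lit 56) (nat_lit 5) (nat_lit 61) (nat_lit 5) (nat_lit 57) (nat_lit 5) (nat_lit 266) (nat_lit 248) (nat_lit 206))))))))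
noncomputable def xc137 : XT := (XT.nd (nat_lit 1326) (nat_lit 1140) (nat_lit 0) (XT.nd (nat_lit 624) (nat_lit 912) (nat_lit 0) (XT.nd (nat_lit 312) (nat_lit 608) (nat_lit 0) (XT.nd (nat_lit 156) (nat_lit 304) (nat_lit 0) (XT.nd (nat_lit 78) (nat_lit 0) (nat_lit 0) (XT.lf (nat_lit 0) (nat_lit 3194039140) (nat_lit 380) (nat_lit 6753783324) (nat_lit 76) (nat_lit 788471657) (nat_lit 52) (nat_lit 5) (nat_lit 57) (nat_lit 5) (nat_lit 53) (nat_lit 5) (nat_lit 267) (nat_lit 248) (nat_lit 205)) (XT.lf (nat_lit 0) (nat_lit 4986341602) (nat_lit 380) (nat_lit 1743220266) (nat_lit 76) (nat_lit 4304546898) (nat_lit 52) (nat_lit 5) (nat_lit 57) (nat_lit 5) (nat_lit 53) (nat_lit 5) (nat_lit 268) (nat_lit 248) (nat_lit 204))) (XT.nd (nat_lit 78) (nat_lit 0) (nat_lit 0) (XT.lf (nat_lit 0) (nat_lit 3585747491) (nat_lit 304) (nat_lit 3295407103) (nat_lit 380) (nat_lit 4465176466) (nat_lit 48) (nat_lit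 5) (nat_lit 52) (nat_lit 5) (nat_lit 53) (nat_lit 5) (nat_lit 269) (nat_lit 248) (nat_lit 203)) (XT.lf (nat_lit 0) (nat_lit 8863736617) (nat_lit 380) (nat_lit 2484642063) (nat_lit 76) (nat_lit 326288360) (nat_lit 48) (nat_lit 5) (nat_lit 53) (nat_lit 5) (nat_lit 49) (nat_lit 5) (nat_lit 270) (nat_lit 248) (nat_lit 202)))) (XT.nd (nat_lit 156) (nat_lit 228) (nat_lit 0) (XT.nd (nat_lit 78) (nat_lit 76) (nat_lit 0) (XT.lf (nat_lit 0) (nat_lit 3052774674) (nat_lit 304) (nat_lit 7954525215) (nat_lit 380) (nat_lit 1009173977) (nat_lit 44) (nat_lit 5) (nat_lit 48) (nat_lit 5) (nat_lit 49) (nat_lit 5) (nat_lit 271) (nat_lit 248) (nat_lit 201)) (XT.lf (nat_lit 0) (nat_lit 857775891) (nat_lit 380) (nat_lit 3481115209) (nat_lit 76) (nat_lit 8035756080) (nat_lit 43) (nat_lit 5) (nat_lit 48) (nat_lit 5) (nat_lit 44) (nat_lit 5) (nat_lit 272) (nat_lit 248) (nat_lit 200))) (XT.nd (nat_lit 78) (nat_lit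 0) (nat_lit 0) (XT.lf (nat_lit 0) (nat_lit 2287801161) (nat_lit 228) (nat_lit 494541107) (nat_lit 304) (nat_lit 9967777195) (nat_lit 40) (nat_lit 5) (nat_lit 43) (nat_lit 5) (nat_lit 44) (nat_lit 5) (nat_lit 273) (nat_lit 248) (nat_lit 199)) (XT.lf (nat_lit 0) (nat_lit 4881813404) (nat_lit 304) (nat_lit 4777252566) (nat_lit 76) (nat_lit 3481486221) (nat_lit 40) (nat_lit 5) (nat_lit 44) (nat_lit 5) (nat_lit 41) (nat_lit 5) (nat_lit 274) (nat_lit 248) (nat_lit 198))))) (XT.nd (nat_lit 312) (nat_lit 456) (nat_lit 0) (XT.nd (nat_lit 156) (nat_lit 228) (nat_lit 0) (XT.nd (nat_lit 78) (nat_lit 0) (nat_lit 0) (XT.lf (nat_lit 0) (nat_lit 1178254231) (nat_lit 228) (nat_lit 5899701849) (nat_lit 304) (nat_lit 6473080485) (nat_lit 37) (nat_lit 5) (nat_lit 40) (nat_lit 5) (nat_lit 41) (nat_lit 5) (nat_lit 275) (nat_lit 248) (nat_lit 197)) (XT.lf (nat_lit 0) (nat_lit 7554675568) (nat_lit 228) (nat_lit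 1876320772) (nat_lit 304) (nat_lit 4548803731) (nat_lit 37) (nat_lit 5) (nat_lit 40) (nat_lit 5) (nat_lit 41) (nat_lit 5) (nat_lit 276) (nat_lit 248) (nat_lit 196))) (XT.nd (nat_lit 78) (nat_lit 228) (nat_lit 0) (XT.lf (nat_lit 0) (nat_lit 11906014283) (nat_lit 304) (nat_lit 259010426) (nat_lit 76) (nat_lit 2264864988) (nat_lit 37) (nat_lit 5) (nat_lit 41) (nat_lit 5) (nat_lit 38) (nat_lit 5) (nat_lit 277) (nat_lit 248) (nat_lit 195)) (XT.lf (nat_lit 0) (nat_lit 6347559937) (nat_lit 228) (nat_lit 8256288816) (nat_lit 304) (nat_lit 293781032) (nat_lit 34) (nat_lit 5) (nat_lit 37) (nat_lit 5) (nat_lit 38) (nat_lit 5) (nat_lit 278) (nat_lit 248) (nat_lit 194)))) (XT.nd (nat_lit 156) (nat_lit 152) (nat_lit 0) (XT.nd (nat_lit 78) (nat_lit 228) (nat_lit 0) (XT.lf (nat_lit 0) (nat_lit 1956202294) (nat_lit 304) (nat_lit 2167832501) (nat_lit 76) (nat_lit 11264517148) (nat_lit 33) (nat_lit 5)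 (nat_lit 37) (nat_lit 5) (nat_lit 34) (nat_lit 5) (nat_lit 279) (nat_lit 248) (nat_lit 193)) (XT.lf (nat_lit 0) (nat_lit 4356621871) (nat_lit 304) (nat_lit 11267772660) (nat_lit 76) (nat_lit 277080117) (nat_lit 30) (nat_lit 5) (nat_lit 34) (nat_lit 5) (nat_lit 31) (nat_lit 5) (nat_lit 280) (nat_lit 248) (nat_lit 192))) (XT.nd (nat_lit 78) (nat_lit 152) (nat_lit 0) (XT.lf (nat_lit 0) (nat_lit 6953542780) (nat_lit 304) (nat_lit 4695322161) (nat_lit 76) (nat_lit 4787436194) (nat_lit 30) (nat_lit 5) (nat_lit 34) (nat_lit 5) (nat_lit 31) (nat_lit 5) (nat_lit 281) (nat_lit 248) (nat_lit 191)) (XT.nd (nat_lit 78) (nat_lit 0) (nat_lit 0) (XT.lf (nat_lit 0) (nat_lit 2239838931) (nat_lit 152) (nat_lit 7448353418) (nat_lit 228) (nat_lit 7309360241) (nat_lit 28) (nat_lit 5) (nat_lit 30) (nat_lit 5) (nat_lit 31) (nat_lit 5) (nat_lit 282) (nat_lit 248) (nat_lit 190)) (XT.lf (nat_lit 0) (nat_lit 9647774761)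 (nat_lit 152) (nat_lit 2964941940) (nat_lit 228) (nat_lit 4971566874) (nat_lit 28) (nat_lit 5) (nat_lit 30) (nat_lit 5) (nat_lit 31) (nat_lit 5) (nat_lit 283) (nat_lit 248) (nat_lit 189))))))) (XT.nd (nat_lit 702) (nat_lit 532) (nat_lit 0) (XT.nd (nat_lit 312) (nat_lit 152) (nat_lit 0) (XT.nd (nat_lit 156) (nat_lit 152) (nat_lit 0) (XT.nd (nat_lit 78) (nat_lit 304) (nat_lit 0) (XT.lf (nat_lit 0) (nat_lit 15685397584) (nat_lit 228) (nat_lit 837852501) (nat_lit 76) (nat_lit 1677075052) (nat_lit 28) (nat_lit 5) (nat_lit 31) (nat_lit 5) (nat_lit 29) (nat_lit 5) (nat_lit 284) (nat_lit 248) (nat_lit 188)) (XT.lf (nat_lit 0) (nat_lit 194436718) (nat_lit 304) (nat_lit 12095421448) (nat_lit 76) (nat_lit 6550726273) (nat_lit 24) (nat_lit 5) (nat_lit 28) (nat_lit 5) (nat_lit 25) (nat_lit 5) (nat_lit 285) (nat_lit 248) (nat_lit 187))) (XT.nd (nat_lit 78) (nat_lit 152) (nat_lit 0) (XT.lf (nat_lit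 0) (nat_lit 2945266993) (nat_lit 304) (nat_lit 4852150672) (nat_lit 76) (nat_lit 11713912771) (nat_lit 24) (nat_lit 5) (nat_lit 28) (nat_lit 5) (nat_lit 25) (nat_lit 5) (nat_lit 286) (nat_lit 248) (nat_lit 186)) (XT.lf (nat_lit 0) (nat_lit 2809923396) (nat_lit 152) (nat_lit 3044818348) (nat_lit 228) (nat_lit 14359874876) (nat_lit 22) (nat_lit 5) (nat_lit 24) (nat_lit 5) (nat_lit 25) (nat_lit 5) (nat_lit 287) (nat_lit 248) (nat_lit 185)))) (XT.nd (nat_lit 156) (nat_lit 152) (nat_lit 0) (XT.nd (nat_lit 78) (nat_lit 0) (nat_lit 0) (XT.lf (nat_lit 0) (nat_lit 9001224174) (nat_lit 228) (nat_lit 9990880406) (nat_lit 76) (nat_lit 1956441110) (nat_lit 22) (nat_lit 5) (nat_lit 25) (nat_lit 5) (nat_lit 23) (nat_lit 5) (nat_lit 288) (nat_lit 248) (nat_lit 184)) (XT.lf (nat_lit 0) (nat_lit 12333650538) (nat_lit 228) (nat_lit 2288442884) (nat_lit 76) (nat_lit 7095699443) (nat_lit 22) (nat_lit 5)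 (nat_lit 25) (nat_lit 5) (nat_lit 23) (nat_lit 5) (nat_lit 289) (nat_lit 248) (nat_lit 183))) (XT.nd (nat_lit 78) (nat_lit 0) (nat_lit 0) (XT.lf (nat_lit 0) (nat_lit 5959229174) (nat_lit 152) (nat_lit 9946228130) (nat_lit 228) (nat_lit 6616457275) (nat_lit 20) (nat_lit 5) (nat_lit 22) (nat_lit 5) (nat_lit 23) (nat_lit 5) (nat_lit 290) (nat_lit 248) (nat_lit 182)) (XT.nd (nat_lit 78) (nat_lit 0) (nat_lit 0) (XT.lf (nat_lit 0) (nat_lit 14668608386) (nat_lit 152) (nat_lit 5006216147) (nat_lit 228) (nat_lit 3690517086) (nat_lit 20) (nat_lit 5) (nat_lit 22) (nat_lit 5) (nat_lit 23) (nat_lit 5) (nat_lit 291) (nat_lit 248) (nat_lit 181)) (XT.lf (nat_lit 0) (nat_lit 23616485526) (nat_lit 228) (nat_lit 469831538) (nat_lit 76) (nat_lit 165477151) (nat_lit 20) (nat_lit 5) (nat_lit 23) (nat_lit 5) (nat_lit 21) (nat_lit 4) (nat_lit 292) (nat_lit 248) (nat_lit 180)))))) (XT.nd (nat_lit 312) (nat_lit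 152) (nat_lit 0) (XT.nd (nat_lit 156) (nat_lit 152) (nat_lit 0) (XT.nd (nat_lit 78) (nat_lit 0) (nat_lit 0) (XT.lf (nat_lit 0) (nat_lit 2687404300) (nat_lit 228) (nat_lit 16891592474) (nat_lit 76) (nat_lit 5591751321) (nat_lit 17) (nat_lit 5) (nat_lit 20) (nat_lit 5) (nat_lit 18) (nat_lit 5) (nat_lit 293) (nat_lit 248) (nat_lit 179)) (XT.lf (nat_lit 0) (nat_lit 6144997096) (nat_lit 228) (nat_lit 8692193571) (nat_lit 76) (nat_lit 11298472805) (nat_lit 17) (nat_lit 5) (nat_lit 20) (nat_lit 5) (nat_lit 18) (nat_lit 5) (nat_lit 294) (nat_lit 248) (nat_lit 178))) (XT.nd (nat_lit 78) (nat_lit 152) (nat_lit 0) (XT.lf (nat_lit 0) (nat_lit 9758333750) (nat_lit 228) (nat_lit 109777139) (nat_lit 76) (nat_lit 17281607929) (nat_lit 17) (nat_lit 5) (nat_lit 20) (nat_lit 5) (nat_lit 18) (nat_lit 5) (nat_lit 295) (nat_lit 248) (nat_lit 177)) (XT.lf (nat_lit 0) (nat_lit 9169574804) (nat_lit 152) (nat_lit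 4509605400) (nat_lit 228) (nat_lit 14528990209) (nat_lit 15) (nat_lit 5) (nat_lit 17) (nat_lit 5) (nat_lit 18) (nat_lit 5) (nat_lit 296) (nat_lit 248) (nat_lit 176)))) (XT.nd (nat_lit 156) (nat_lit 152) (nat_lit 0) (XT.nd (nat_lit 78) (nat_lit 0) (nat_lit 0) (XT.lf (nat_lit 0) (nat_lit 17799312924) (nat_lit 228) (nat_lit 10446153575) (nat_lit 76) (nat_lit 1073949825) (nat_lit 15) (nat_lit 5) (nat_lit 18) (nat_lit 5) (nat_lit 16) (nat_lit 4) (nat_lit 297) (nat_lit 248) (nat_lit 175)) (XT.lf (nat_lit 0) (nat_lit 22184063627) (nat_lit 228) (nat_lit 1522722400) (nat_lit 76) (nat_lit 6776540253) (nat_lit 15) (nat_lit 5) (nat_lit 18) (nat_lit 5) (nat_lit 16) (nat_lit 4) (nat_lit 298) (nat_lit 248) (nat_lit 174))) (XT.nd (nat_lit 78) (nat_lit 76) (nat_lit 0) (XT.lf (nat_lit 0) (nat_lit 8082027100) (nat_lit 76) (nat_lit 18817620610) (nat_lit 152) (nat_lit 4800235008) (nat_lit 14) (nat_lit 5)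 (nat_lit 15) (nat_lit 5) (nat_lit 16) (nat_lit 4) (nat_lit 299) (nat_lit 248) (nat_lit 173)) (XT.nd (nat_lit 78) (nat_lit 76) (nat_lit 0) (XT.lf (nat_lit 0) (nat_lit 18196730479) (nat_lit 76) (nat_lit 13665814522) (nat_lit 152) (nat_lit 1114174591) (nat_lit 14) (nat_lit 5) (nat_lit 15) (nat_lit 5) (nat_lit 16) (nat_lit 4) (nat_lit 300) (nat_lit 248) (nat_lit 172)) (XT.lf (nat_lit 0) (nat_lit 2654148748) (nat_lit 152) (nat_lit 5565791558) (nat_lit 76) (nat_lit 26096024241) (nat_lit 13) (nat_lit 5) (nat_lit 15) (nat_lit 5) (nat_lit 14) (nat_lit 5) (nat_lit 301) (nat_lit 248) (nat_lit 171))))))))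
noncomputable def xc138 : XT := (XT.nd (nat_lit 1326) (nat_lit 228) (nat_lit 0) (XT.nd (nat_lit 624) (nat_lit 228) (nat_lit 0) (XT.nd (nat_lit 312) (nat_lit 76) (nat_lit 0) (XT.nd (nat_lit 156) (nat_lit 0) (nat_lit 0) (XT.nd (nat_lit 78) (nat_lit 0) (nat_lit 0) (XT.lf (nat_lit 0) (nat_lit 4203945668) (nat_lit 152) (nat_lit 2421967870) (nat_lit 228) (nat_lit 29092746833) (nat_lit 11) (nat_lit 5) (nat_lit 13) (nat_lit 5) (nat_lit 14) (nat_lit 5) (nat_lit 302) (nat_lit 248) (nat_lit 170)) (XT.lf (nat_lit 0) (nat_lit 10936308364) (nat_lit 228) (nat_lit 22611807167) (nat_lit 76) (nat_lit 3636397480) (nat_lit 11) (nat_lit 5) (nat_lit 14) (nat_lit 5) (nat_lit 12) (nat_lit 4) (nat_lit 303) (nat_lit 248) (nat_lit 169))) (XT.nd (nat_lit 78) (nat_lit 0) (nat_lit 0) (XT.lf (nat_lit 0) (nat_lit 15489548432) (nat_lit 228) (nat_lit 13324078036) (nat_lit 76) (nat_lit 9908688507) (nat_lit 11) (nat_lit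 5) (nat_lit 14) (nat_lit 5) (nat_lit 12) (nat_lit 4) (nat_lit 304) (nat_lit 248) (nat_lit 168)) (XT.lf (nat_lit 0) (nat_lit 20258661084) (nat_lit 228) (nat_lit 3591599966) (nat_lit 76) (nat_lit 16487357332) (nat_lit 11) (nat_lit 5) (nat_lit 14) (nat_lit 5) (nat_lit 12) (nat_lit 4) (nat_lit 305) (nat_lit 248) (nat_lit 167)))) (XT.nd (nat_lit 156) (nat_lit 0) (nat_lit 0) (XT.nd (nat_lit 78) (nat_lit 0) (nat_lit 0) (XT.lf (nat_lit 0) (nat_lit 6827316371) (nat_lit 76) (nat_lit 18534278521) (nat_lit 152) (nat_lit 16667344625) (nat_lit 10) (nat_lit 5) (nat_lit 11) (nat_lit 5) (nat_lit 12) (nat_lit 4) (nat_lit 306) (nat_lit 248) (nat_lit 166)) (XT.lf (nat_lit 0) (nat_lit 17873470021) (nat_lit 76) (nat_lit 12896050213) (nat_lit 152) (nat_lit 13032834069) (nat_lit 10) (nat_lit 5) (nat_lit 11) (nat_lit 5) (nat_lit 12) (nat_lit 4) (nat_lit 307) (nat_lit 248) (nat_lit 165))) (XT.nd (nat_lit 78)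 (nat_lit 0) (nat_lit 0) (XT.lf (nat_lit 0) (nat_lit 29454406835) (nat_lit 76) (nat_lit 6982977258) (nat_lit 152) (nat_lit 9227597520) (nat_lit 10) (nat_lit 5) (nat_lit 11) (nat_lit 5) (nat_lit 12) (nat_lit 4) (nat_lit 308) (nat_lit 248) (nat_lit 164)) (XT.lf (nat_lit 0) (nat_lit 41597700472) (nat_lit 76) (nat_lit 780980912) (nat_lit 152) (nat_lit 5242574889) (nat_lit 10) (nat_lit 5) (nat_lit 11) (nat_lit 5) (nat_lit 12) (nat_lit 4) (nat_lit 309) (nat_lit 248) (nat_lit 163))))) (XT.nd (nat_lit 312) (nat_lit 76) (nat_lit 0) (XT.nd (nat_lit 156) (nat_lit 0) (nat_lit 0) (XT.nd (nat_lit 78) (nat_lit 76) (nat_lit 0) (XT.lf (nat_lit 0) (nat_lit 4718056018) (nat_lit 76) (nat_lit 44052542804) (nat_lit 76) (nat_lit 897085216) (nat_lit 9) (nat_lit 4) (nat_lit 10) (nat_lit 5) (nat_lit 10) (nat_lit 4) (nat_lit 310) (nat_lit 248) (nat_lit 162)) (XT.lf (nat_lit 0) (nat_lit 3655292600) (nat_lit 152)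 (nat_lit 35693521908) (nat_lit 76) (nat_lit 12459425738) (nat_lit 8) (nat_lit 5) (nat_lit 10) (nat_lit 5) (nat_lit 9) (nat_lit 4) (nat_lit 311) (nat_lit 248) (nat_lit 161))) (XT.nd (nat_lit 78) (nat_lit 0) (nat_lit 0) (XT.lf (nat_lit 0) (nat_lit 8396047224) (nat_lit 152) (nat_lit 26004893168) (nat_lit 76) (nat_lit 19654618070) (nat_lit 8) (nat_lit 5) (nat_lit 10) (nat_lit 5) (nat_lit 9) (nat_lit 4) (nat_lit 312) (nat_lit 248) (nat_lit 160)) (XT.lf (nat_lit 0) (nat_lit 13365178497) (nat_lit 152) (nat_lit 15846667621) (nat_lit 76) (nat_lit 27203843625) (nat_lit 8) (nat_lit 5) (nat_lit 10) (nat_lit 5) (nat_lit 9) (nat_lit 4) (nat_lit 313) (nat_lit 248) (nat_lit 159)))) (XT.nd (nat_lit 156) (nat_lit 0) (nat_lit 0) (XT.nd (nat_lit 78) (nat_lit 76) (nat_lit 0) (XT.lf (nat_lit 0) (nat_lit 18574517682) (nat_lit 152) (nat_lit 5194659016) (nat_lit 76) (nat_lit 35125076750) (nat_lit 8) (nat_lit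 5) (nat_lit 10) (nat_lit 5) (nat_lit 9) (nat_lit 4) (nat_lit 314) (nat_lit 248) (nat_lit 158)) (XT.lf (nat_lit 0) (nat_lit 6174104473) (nat_lit 76) (nat_lit 17958758570) (nat_lit 152) (nat_lit 37359468124) (nat_lit 7) (nat_lit 5) (nat_lit 8) (nat_lit 5) (nat_lit 9) (nat_lit 4) (nat_lit 315) (nat_lit 248) (nat_lit 157))) (XT.nd (nat_lit 78) (nat_lit 0) (nat_lit 0) (XT.lf (nat_lit 0) (nat_lit 18278414544) (nat_lit 76) (nat_lit 11770996733) (nat_lit 152) (nat_lit 34166899393) (nat_lit 7) (nat_lit 5) (nat_lit 8) (nat_lit 5) (nat_lit 9) (nat_lit 4) (nat_lit 316) (nat_lit 248) (nat_lit 156)) (XT.nd (nat_lit 78) (nat_lit 0) (nat_lit 0) (XT.lf (nat_lit 0) (nat_lit 30975332096) (nat_lit 76) (nat_lit 5279132486) (nat_lit 152) (nat_lit 30822402285) (nat_lit 7) (nat_lit 5) (nat_lit 8) (nat_lit 5) (nat_lit 9) (nat_lit 4) (nat_lit 317) (nat_lit 248) (nat_lit 155)) (XT.lf (nat_lit 0) (nat_lit 42786720252)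 (nat_lit 152) (nat_lit 25809646075) (nat_lit 0) (nat_lit 1483248109) (nat_lit 7) (nat_lit 5) (nat_lit 9) (nat_lit 4) (nat_lit 7) (nat_lit 4) (nat_lit 318) (nat_lit 248) (nat_lit 154))))))) (XT.nd (nat_lit 702) (nat_lit 76) (nat_lit 0) (XT.nd (nat_lit 312) (nat_lit 76) (nat_lit 0) (XT.nd (nat_lit 156) (nat_lit 76) (nat_lit 0) (XT.nd (nat_lit 78) (nat_lit 0) (nat_lit 0) (XT.lf (nat_lit 0) (nat_lit 49725415429) (nat_lit 152) (nat_lit 15101409697) (nat_lit 0) (nat_lit 8401693443) (nat_lit 7) (nat_lit 5) (nat_lit 9) (nat_lit 4) (nat_lit 7) (nat_lit 4) (nat_lit 319) (nat_lit 248) (nat_lit 153)) (XT.lf (nat_lit 0) (nat_lit 57004648764) (nat_lit 152) (nat_lit 3868907781) (nat_lit 0) (nat_lit 15661641214) (nat_lit 7) (nat_lit 5) (nat_lit 9) (nat_lit 4) (nat_lit 7) (nat_lit 4) (nat_lit 320) (nat_lit 248) (nat_lit 152))) (XT.nd (nat_lit 78) (nat_lit 0) (nat_lit 0) (XT.lf (nat_lit 0) (nat_lit 8176296264)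 (nat_lit 76) (nat_lit 56593110399) (nat_lit 76) (nat_lit 15231735645) (nat_lit 6) (nat_lit 4) (nat_lit 7) (nat_lit 5) (nat_lit 7) (nat_lit 4) (nat_lit 321) (nat_lit 248) (nat_lit 151)) (XT.lf (nat_lit 0) (nat_lit 20947635965) (nat_lit 76) (nat_lit 52034323346) (nat_lit 76) (nat_lit 10655456018) (nat_lit 6) (nat_lit 4) (nat_lit 7) (nat_lit 5) (nat_lit 7) (nat_lit 4) (nat_lit 322) (nat_lit 248) (nat_lit 150)))) (XT.nd (nat_lit 156) (nat_lit 76) (nat_lit 0) (XT.nd (nat_lit 78) (nat_lit 0) (nat_lit 0) (XT.lf (nat_lit 0) (nat_lit 34347595709) (nat_lit 76) (nat_lit 47251862959) (nat_lit 76) (nat_lit 5856336035) (nat_lit 6) (nat_lit 4) (nat_lit 7) (nat_lit 5) (nat_lit 7) (nat_lit 4) (nat_lit 323) (nat_lit 248) (nat_lit 149)) (XT.lf (nat_lit 0) (nat_lit 48408080162) (nat_lit 76) (nat_lit 42234342427) (nat_lit 76) (nat_lit 822949222) (nat_lit 6) (nat_lit 4) (nat_lit 7) (nat_lit 5) (nat_lit 7)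 (nat_lit 4) (nat_lit 324) (nat_lit 248) (nat_lit 148))) (XT.nd (nat_lit 78) (nat_lit 0) (nat_lit 0) (XT.lf (nat_lit 0) (nat_lit 4314046805) (nat_lit 152) (nat_lit 32582707997) (nat_lit 76) (nat_lit 58775459392) (nat_lit 5) (nat_lit 5) (nat_lit 7) (nat_lit 5) (nat_lit 6) (nat_lit 4) (nat_lit 325) (nat_lit 248) (nat_lit 147)) (XT.nd (nat_lit 78) (nat_lit 0) (nat_lit 0) (XT.lf (nat_lit 0) (nat_lit 9675241062) (nat_lit 152) (nat_lit 21606650956) (nat_lit 76) (nat_lit 68807089005) (nat_lit 5) (nat_lit 5) (nat_lit 7) (nat_lit 5) (nat_lit 6) (nat_lit 4) (nat_lit 326) (nat_lit 248) (nat_lit 146)) (XT.lf (nat_lit 0) (nat_lit 15299737809) (nat_lit 152) (nat_lit 10090138515) (nat_lit 76) (nat_lit 79336954513) (nat_lit 5) (nat_lit 5) (nat_lit 7) (nat_lit 5) (nat_lit 6) (nat_lit 4) (nat_lit 327) (nat_lit 248) (nat_lit 145)))))) (XT.nd (nat_lit 312) (nat_lit 0) (nat_lit 0) (XT.nd (nat_lit 156) (nat_lit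 0) (nat_lit 0) (XT.nd (nat_lit 78) (nat_lit 0) (nat_lit 0) (XT.lf (nat_lit 0) (nat_lit 2060188491) (nat_lit 76) (nat_lit 19172905530) (nat_lit 152) (nat_lit 88362103847) (nat_lit 4) (nat_lit 5) (nat_lit 5) (nat_lit 5) (nat_lit 6) (nat_lit 4) (nat_lit 328) (nat_lit 248) (nat_lit 144)) (XT.lf (nat_lit 0) (nat_lit 15160516946) (nat_lit 76) (nat_lit 12469045417) (nat_lit 152) (nat_lit 87069104825) (nat_lit 4) (nat_lit 5) (nat_lit 5) (nat_lit 5) (nat_lit 6) (nat_lit 4) (nat_lit 329) (nat_lit 248) (nat_lit 143))) (XT.nd (nat_lit 78) (nat_lit 0) (nat_lit 0) (XT.lf (nat_lit 0) (nat_lit 28908412557) (nat_lit 76) (nat_lit 5433215793) (nat_lit 152) (nat_lit 85715898770) (nat_lit 4) (nat_lit 5) (nat_lit 5) (nat_lit 5) (nat_lit 6) (nat_lit 4) (nat_lit 330) (nat_lit 248) (nat_lit 142)) (XT.lf (nat_lit 0) (nat_lit 41415738907) (nat_lit 152) (nat_lit 82378394260) (nat_lit 0) (nat_lit 1888880400) (nat_lit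 4) (nat_lit 5) (nat_lit 6) (nat_lit 4) (nat_lit 4) (nat_lit 4) (nat_lit 331) (nat_lit 248) (nat_lit 141)))) (XT.nd (nat_lit 156) (nat_lit 0) (nat_lit 0) (XT.nd (nat_lit 78) (nat_lit 0) (nat_lit 0) (XT.lf (nat_lit 0) (nat_lit 48928745555) (nat_lit 152) (nat_lit 73265115066) (nat_lit 0) (nat_lit 9391659501) (nat_lit 4) (nat_lit 5) (nat_lit 6) (nat_lit 4) (nat_lit 4) (nat_lit 4) (nat_lit 332) (nat_lit 248) (nat_lit 140)) (XT.lf (nat_lit 0) (nat_lit 56813708679) (nat_lit 152) (nat_lit 63702750972) (nat_lit 0) (nat_lit 17266882105) (nat_lit 4) (nat_lit 5) (nat_lit 6) (nat_lit 4) (nat_lit 4) (nat_lit 4) (nat_lit 333) (nat_lit 248) (nat_lit 139))) (XT.nd (nat_lit 78) (nat_lit 0) (nat_lit 0) (XT.lf (nat_lit 0) (nat_lit 65089402003) (nat_lit 152) (nat_lit 53668534446) (nat_lit 0) (nat_lit 25533298743) (nat_lit 4) (nat_lit 5) (nat_lit 6) (nat_lit 4) (nat_lit 4) (nat_lit 4) (nat_lit 334) (nat_lit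 248) (nat_lit 138)) (XT.nd (nat_lit 78) (nat_lit 0) (nat_lit 0) (XT.lf (nat_lit 0) (nat_lit 73775529558) (nat_lit 152) (nat_lit 43138574495) (nat_lit 0) (nat_lit 34210591358) (nat_lit 4) (nat_lit 5) (nat_lit 6) (nat_lit 4) (nat_lit 4) (nat_lit 4) (nat_lit 335) (nat_lit 248) (nat_lit 137)) (XT.lf (nat_lit 0) (nat_lit 82892772599) (nat_lit 152) (nat_lit 32087799787) (nat_lit 0) (nat_lit 43319420172) (nat_lit 4) (nat_lit 5) (nat_lit 6) (nat_lit 4) (nat_lit 4) (nat_lit 4) (nat_lit 336) (nat_lit 248) (nat_lit 136))))))))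
noncomputable def xc139 : XT := (XT.nd (nat_lit 1326) (nat_lit 76) (nat_lit 0) (XT.nd (nat_lit 624) (nat_lit 0) (nat_lit 0) (XT.nd (nat_lit 312) (nat_lit 0) (nat_lit 0) (XT.nd (nat_lit 156) (nat_lit 76) (nat_lit 0) (XT.nd (nat_lit 78) (nat_lit 0) (nat_lit 0) (XT.lf (nat_lit 0) (nat_lit 92462838849) (nat_lit 152) (nat_lit 20489898953) (nat_lit 0) (nat_lit 52881472871) (nat_lit 4) (nat_lit 5) (nat_lit 6) (nat_lit 4) (nat_lit 4) (nat_lit 4) (nat_lit 337) (nat_lit 248) (nat_lit 135)) (XT.lf (nat_lit 0) (nat_lit 102508514179) (nat_lit 152) (nat_lit 8317257943) (nat_lit 0) (nat_lit 62919516249) (nat_lit 4) (nat_lit 5) (nat_lit 6) (nat_lit 4) (nat_lit 4) (nat_lit 4) (nat_lit 338) (nat_lit 248) (nat_lit 134))) (XT.nd (nat_lit 78) (nat_lit 0) (nat_lit 0) (XT.lf (nat_lit 0) (nat_lit 4606543893) (nat_lit 76) (nat_lit 108519094030) (nat_lit 76) (nat_lit 68922827574) (nat_lit 3) (nat_lit 4) (nat_lit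 4) (nat_lit 5) (nat_lit 4) (nat_lit 4) (nat_lit 339) (nat_lit 248) (nat_lit 133)) (XT.lf (nat_lit 0) (nat_lit 18460462025) (nat_lit 76) (nat_lit 105951312052) (nat_lit 76) (nat_lit 66348123190) (nat_lit 3) (nat_lit 4) (nat_lit 4) (nat_lit 5) (nat_lit 4) (nat_lit 4) (nat_lit 340) (nat_lit 248) (nat_lit 132)))) (XT.nd (nat_lit 156) (nat_lit 0) (nat_lit 0) (XT.nd (nat_lit 78) (nat_lit 0) (nat_lit 0) (XT.lf (nat_lit 0) (nat_lit 33002475860) (nat_lit 76) (nat_lit 103257169209) (nat_lit 76) (nat_lit 63647387579) (nat_lit 3) (nat_lit 4) (nat_lit 4) (nat_lit 5) (nat_lit 4) (nat_lit 4) (nat_lit 341) (nat_lit 248) (nat_lit 131)) (XT.lf (nat_lit 0) (nat_lit 48267209243) (nat_lit 76) (nat_lit 100430250874) (nat_lit 76) (nat_lit 60814190418) (nat_lit 3) (nat_lit 4) (nat_lit 4) (nat_lit 5) (nat_lit 4) (nat_lit 4) (nat_lit 342) (nat_lit 248) (nat_lit 130))) (XT.nd (nat_lit 78) (nat_lit 0) (nat_lit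 0) (XT.lf (nat_lit 0) (nat_lit 64291006775) (nat_lit 76) (nat_lit 97463826291) (nat_lit 76) (nat_lit 57841786001) (nat_lit 3) (nat_lit 4) (nat_lit 4) (nat_lit 5) (nat_lit 4) (nat_lit 4) (nat_lit 343) (nat_lit 248) (nat_lit 129)) (XT.lf (nat_lit 0) (nat_lit 81112020356) (nat_lit 76) (nat_lit 94350832543) (nat_lit 76) (nat_lit 54723097172) (nat_lit 3) (nat_lit 4) (nat_lit 4) (nat_lit 5) (nat_lit 4) (nat_lit 4) (nat_lit 344) (nat_lit 248) (nat_lit 128))))) (XT.nd (nat_lit 312) (nat_lit 0) (nat_lit 0) (XT.nd (nat_lit 156) (nat_lit 0) (nat_lit 0) (XT.nd (nat_lit 78) (nat_lit 0) (nat_lit 0) (XT.lf (nat_lit 0) (nat_lit 98770300018) (nat_lit 76) (nat_lit 91083857741) (nat_lit 76) (nat_lit 51450698484) (nat_lit 3) (nat_lit 4) (nat_lit 4) (nat_lit 5) (nat_lit 4) (nat_lit 4) (nat_lit 345) (nat_lit 248) (nat_lit 127)) (XT.lf (nat_lit 0) (nat_lit 117307889285) (nat_lit 76) (nat_lit 87655123373)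 (nat_lit 76) (nat_lit 48016798510) (nat_lit 3) (nat_lit 4) (nat_lit 4) (nat_lit 5) (nat_lit 4) (nat_lit 4) (nat_lit 346) (nat_lit 248) (nat_lit 126))) (XT.nd (nat_lit 78) (nat_lit 0) (nat_lit 0) (XT.lf (nat_lit 0) (nat_lit 136768925273) (nat_lit 76) (nat_lit 84056465786) (nat_lit 76) (nat_lit 44413221298) (nat_lit 3) (nat_lit 4) (nat_lit 4) (nat_lit 5) (nat_lit 4) (nat_lit 4) (nat_lit 347) (nat_lit 248) (nat_lit 125)) (XT.lf (nat_lit 0) (nat_lit 157199743782) (nat_lit 76) (nat_lit 80279316748) (nat_lit 76) (nat_lit 40631386903) (nat_lit 3) (nat_lit 4) (nat_lit 4) (nat_lit 5) (nat_lit 4) (nat_lit 4) (nat_lit 348) (nat_lit 248) (nat_lit 124)))) (XT.nd (nat_lit 156) (nat_lit 0) (nat_lit 0) (XT.nd (nat_lit 78) (nat_lit 0) (nat_lit 0) (XT.lf (nat_lit 0) (nat_lit 178648989619) (nat_lit 76) (nat_lit 76314683046) (nat_lit 76) (nat_lit 36662290957) (nat_lit 3) (nat_lit 4) (nat_lit 4) (nat_lit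 5) (nat_lit 4) (nat_lit 4) (nat_lit 349) (nat_lit 248) (nat_lit 123)) (XT.lf (nat_lit 0) (nat_lit 201167732416) (nat_lit 76) (nat_lit 72153125076) (nat_lit 76) (nat_lit 32496483230) (nat_lit 3) (nat_lit 4) (nat_lit 4) (nat_lit 5) (nat_lit 4) (nat_lit 4) (nat_lit 350) (nat_lit 248) (nat_lit 122))) (XT.nd (nat_lit 78) (nat_lit 0) (nat_lit 0) (XT.lf (nat_lit 0) (nat_lit 224809588228) (nat_lit 76) (nat_lit 67784734368) (nat_lit 76) (nat_lit 28124045135) (nat_lit 3) (nat_lit 4) (nat_lit 4) (nat_lit 5) (nat_lit 4) (nat_lit 4) (nat_lit 351) (nat_lit 248) (nat_lit 121)) (XT.nd (nat_lit 78) (nat_lit 0) (nat_lit 0) (XT.lf (nat_lit 0) (nat_lit 249630847188) (nat_lit 76) (nat_lit 63199109991) (nat_lit 76) (nat_lit 23534566103) (nat_lit 3) (nat_lit 4) (nat_lit 4) (nat_lit 5) (nat_lit 4) (nat_lit 4) (nat_lit 352) (nat_lit 248) (nat_lit 120)) (XT.lf (nat_lit 0) (nat_lit 275690607530) (nat_lit 76)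 (nat_lit 58385333791) (nat_lit 76) (nat_lit 18717118803) (nat_lit 3) (nat_lit 4) (nat_lit 4) (nat_lit 5) (nat_lit 4) (nat_lit 4) (nat_lit 353) (nat_lit 248) (nat_lit 119))))))) (XT.nd (nat_lit 29562) (nat_lit 0) (nat_lit 5776) (XT.nd (nat_lit 312) (nat_lit 0) (nat_lit 0) (XT.nd (nat_lit 156) (nat_lit 76) (nat_lit 0) (XT.nd (nat_lit 78) (nat_lit 0) (nat_lit 0) (XT.lf (nat_lit 0) (nat_lit 303050916304) (nat_lit 76) (nat_lit 53331944397) (nat_lit 76) (nat_lit 13660233124) (nat_lit 3) (nat_lit 4) (nat_lit 4) (nat_lit 5) (nat_lit 4) (nat_lit 4) (nat_lit 354) (nat_lit 248) (nat_lit 118)) (XT.lf (nat_lit 0) (nat_lit 331776917103) (nat_lit 76) (nat_lit 48026909929) (nat_lit 76) (nat_lit 8351868860) (nat_lit 3) (nat_lit 4) (nat_lit 4) (nat_lit 5) (nat_lit 4) (nat_lit 4) (nat_lit 355) (nat_lit 248) (nat_lit 117))) (XT.nd (nat_lit 78) (nat_lit 76) (nat_lit 0) (XT.lf (nat_lit 0) (nat_lit 361937005165)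 (nat_lit 76) (nat_lit 42457599353) (nat_lit 76) (nat_lit 2779387050) (nat_lit 3) (nat_lit 4) (nat_lit 4) (nat_lit 5) (nat_lit 4) (nat_lit 4) (nat_lit 356) (nat_lit 248) (nat_lit 116)) (XT.lf (nat_lit 0) (nat_lit 2972205580) (nat_lit 152) (nat_lit 33588211085) (nat_lit 76) (nat_lit 390580448904) (nat_lit 2) (nat_lit 5) (nat_lit 4) (nat_lit 5) (nat_lit 3) (nat_lit 4) (nat_lit 357) (nat_lit 248) (nat_lit 115)))) (XT.nd (nat_lit 29016) (nat_lit 0) (nat_lit 6688) (XT.nd (nat_lit 78) (nat_lit 0) (nat_lit 0) (XT.lf (nat_lit 0) (nat_lit 8916830229) (nat_lit 152) (nat_lit 21404606958) (nat_lit 76) (nat_lit 417782426420) (nat_lit 2) (nat_lit 5) (nat_lit 4) (nat_lit 5) (nat_lit 3) (nat_lit 4) (nat_lit 358) (nat_lit 248) (nat_lit 114)) (XT.lf (nat_lit 0) (nat_lit 15157598506) (nat_lit 152) (nat_lit 8613771421) (nat_lit 76) (nat_lit 446343697355) (nat_lit 2) (nat_lit 5) (nat_lit 4) (nat_lit 5) (nat_lit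 3) (nat_lit 4) (nat_lit 359) (nat_lit 248) (nat_lit 113))) (XT.nd (nat_lit 78) (nat_lit 0) (nat_lit 0) (XT.lf (nat_lit 0) (nat_lit 1622004898) (nat_lit 532) (nat_lit 1043090290) (nat_lit 532) (nat_lit 1043090290) (nat_lit 90) (nat_lit 3) (nat_lit 97) (nat_lit 3) (nat_lit 97) (nat_lit 5) (nat_lit 249) (nat_lit 249) (nat_lit 222)) (XT.nd (nat_lit 78) (nat_lit 0) (nat_lit 0) (XT.lf (nat_lit 76) (nat_lit 1104335886) (nat_lit 0) (nat_lit 3558674856) (nat_lit 532) (nat_lit 2865172516) (nat_lit 91) (nat_lit 5) (nat_lit 90) (nat_lit 3) (nat_lit 97) (nat_lit 5) (nat_lit 250) (nat_lit 249) (nat_lit 221)) (XT.lf (nat_lit 76) (nat_lit 4480733765) (nat_lit 0) (nat_lit 1622300471) (nat_lit 532) (nat_lit 1545477321) (nat_lit 91) (nat_lit 5) (nat_lit 90) (nat_lit 3) (nat_lit 97) (nat_lit 5) (nat_lit 251) (nat_lit 249) (nat_lit 220)))))) (XT.nd (nat_lit 312) (nat_lit 456) (nat_lit 0) (XT.nd (nat_lit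 156) (nat_lit 0) (nat_lit 0) (XT.nd (nat_lit 78) (nat_lit 532) (nat_lit 0) (XT.lf (nat_lit 76) (nat_lit 202223345) (nat_lit 0) (nat_lit 7341792615) (nat_lit 532) (nat_lit 234801036) (nat_lit 92) (nat_lit 5) (nat_lit 91) (nat_lit 5) (nat_lit 98) (nat_lit 5) (nat_lit 252) (nat_lit 249) (nat_lit 219)) (XT.lf (nat_lit 0) (nat_lit 1106823460) (nat_lit 532) (nat_lit 4158676308) (nat_lit 608) (nat_lit 2649520170) (nat_lit 84) (nat_lit 5) (nat_lit 91) (nat_lit 5) (nat_lit 92) (nat_lit 5) (nat_lit 253) (nat_lit 249) (nat_lit 218))) (XT.nd (nat_lit 78) (nat_lit 0) (nat_lit 0) (XT.lf (nat_lit 0) (nat_lit 2432232808) (nat_lit 532) (nat_lit 622406075) (nat_lit 608) (nat_lit 5007324908) (nat_lit 84) (nat_lit 5) (nat_lit 91) (nat_lit 5) (nat_lit 92) (nat_lit 5) (nat_lit 254) (nat_lit 249) (nat_lit 217)) (XT.lf (nat_lit 76) (nat_lit 3144961034) (nat_lit 0) (nat_lit 656238462) (nat_lit 608) (nat_lit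 4416527135) (nat_lit 85) (nat_lit 5) (nat_lit 84) (nat_lit 5) (nat_lit 92) (nat_lit 5) (nat_lit 255) (nat_lit 249) (nat_lit 216)))) (XT.nd (nat_lit 156) (nat_lit 532) (nat_lit 0) (XT.nd (nat_lit 78) (nat_lit 0) (nat_lit 0) (XT.lf (nat_lit 0) (nat_lit 5209659584) (nat_lit 532) (nat_lit 1337459800) (nat_lit 608) (nat_lit 1835926108) (nat_lit 85) (nat_lit 5) (nat_lit 92) (nat_lit 5) (nat_lit 93) (nat_lit 5) (nat_lit 256) (nat_lit 249) (nat_lit 215)) (XT.lf (nat_lit 76) (nat_lit 2609990080) (nat_lit 0) (nat_lit 4064592433) (nat_lit 608) (nat_lit 1883050679) (nat_lit 86) (nat_lit 5) (nat_lit 85) (nat_lit 5) (nat_lit 93) (nat_lit 5) (nat_lit 257) (nat_lit 249) (nat_lit 214))) (XT.nd (nat_lit 78) (nat_lit 532) (nat_lit 0) (XT.lf (nat_lit 76) (nat_lit 6754611361) (nat_lit 0) (nat_lit 1417712725) (nat_lit 608) (nat_lit 570937936) (nat_lit 86) (nat_lit 5) (nat_lit 85) (nat_lit 5) (nat_lit 93)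 (nat_lit 5) (nat_lit 258) (nat_lit 249) (nat_lit 213)) (XT.nd (nat_lit 78) (nat_lit 0) (nat_lit 0) (XT.lf (nat_lit 0) (nat_lit 775896991) (nat_lit 608) (nat_lit 6782697872) (nat_lit 76) (nat_lit 1379464070) (nat_lit 78) (nat_lit 5) (nat_lit 86) (nat_lit 5) (nat_lit 79) (nat_lit 5) (nat_lit 259) (nat_lit 249) (nat_lit 212)) (XT.lf (nat_lit 0) (nat_lit 2169440183) (nat_lit 608) (nat_lit 2647814331) (nat_lit 76) (nat_lit 4325196338) (nat_lit 78) (nat_lit 5) (nat_lit 86) (nat_lit 5) (nat_lit 79) (nat_lit 5) (nat_lit 260) (nat_lit 249) (nat_lit 211))))))))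
noncomputable def xc140 : XT := (XT.nd (nat_lit 1326) (nat_lit 1520) (nat_lit 0) (XT.nd (nat_lit 624) (nat_lit 1140) (nat_lit 0) (XT.nd (nat_lit 312) (nat_lit 684) (nat_lit 0) (XT.nd (nat_lit 156) (nat_lit 684) (nat_lit 0) (XT.nd (nat_lit 78) (nat_lit 0) (nat_lit 0) (XT.lf (nat_lit 0) (nat_lit 1701250237) (nat_lit 608) (nat_lit 1901858926) (nat_lit 684) (nat_lit 5755669659) (nat_lit 70) (nat_lit 5) (nat_lit 78) (nat_lit 5) (nat_lit 79) (nat_lit 5) (nat_lit 261) (nat_lit 249) (nat_lit 210)) (XT.lf (nat_lit 0) (nat_lit 5118099400) (nat_lit 684) (nat_lit 3292136661) (nat_lit 76) (nat_lit 1175432752) (nat_lit 70) (nat_lit 5) (nat_lit 79) (nat_lit 5) (nat_lit 71) (nat_lit 5) (nat_lit 262) (nat_lit 249) (nat_lit 209))) (XT.nd (nat_lit 78) (nat_lit 0) (nat_lit 0) (XT.lf (nat_lit 0) (nat_lit 1253500397) (nat_lit 684) (nat_lit 5454621375) (nat_lit 760) (nat_lit 3116034077) (nat_lit 61) (nat_lit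 5) (nat_lit 70) (nat_lit 5) (nat_lit 71) (nat_lit 5) (nat_lit 263) (nat_lit 249) (nat_lit 208)) (XT.lf (nat_lit 0) (nat_lit 6094506094) (nat_lit 684) (nat_lit 2289156368) (nat_lit 760) (nat_lit 1690810276) (nat_lit 61) (nat_lit 5) (nat_lit 70) (nat_lit 5) (nat_lit 71) (nat_lit 5) (nat_lit 264) (nat_lit 249) (nat_lit 207)))) (XT.nd (nat_lit 156) (nat_lit 304) (nat_lit 0) (XT.nd (nat_lit 78) (nat_lit 76) (nat_lit 0) (XT.lf (nat_lit 0) (nat_lit 803185061) (nat_lit 304) (nat_lit 9321171963) (nat_lit 380) (nat_lit 214076139) (nat_lit 57) (nat_lit 5) (nat_lit 61) (nat_lit 5) (nat_lit 62) (nat_lit 5) (nat_lit 265) (nat_lit 249) (nat_lit 206)) (XT.lf (nat_lit 0) (nat_lit 1353042709) (nat_lit 380) (nat_lit 4755646664) (nat_lit 76) (nat_lit 4503070968) (nat_lit 56) (nat_lit 5) (nat_lit 61) (nat_lit 5) (nat_lit 57) (nat_lit 5) (nat_lit 266) (nat_lit 249) (nat_lit 205))) (XT.nd (nat_lit 78) (nat_lit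 0) (nat_lit 0) (XT.lf (nat_lit 0) (nat_lit 221174406) (nat_lit 304) (nat_lit 2729115602) (nat_lit 380) (nat_lit 7950509825) (nat_lit 52) (nat_lit 5) (nat_lit 56) (nat_lit 5) (nat_lit 57) (nat_lit 5) (nat_lit 267) (nat_lit 249) (nat_lit 204)) (XT.lf (nat_lit 0) (nat_lit 4678964714) (nat_lit 380) (nat_lit 5649326284) (nat_lit 76) (nat_lit 873583741) (nat_lit 52) (nat_lit 5) (nat_lit 57) (nat_lit 5) (nat_lit 53) (nat_lit 5) (nat_lit 268) (nat_lit 249) (nat_lit 203))))) (XT.nd (nat_lit 312) (nat_lit 456) (nat_lit 0) (XT.nd (nat_lit 156) (nat_lit 380) (nat_lit 0) (XT.nd (nat_lit 78) (nat_lit 304) (nat_lit 0) (XT.lf (nat_lit 0) (nat_lit 6497776412) (nat_lit 380) (nat_lit 456908702) (nat_lit 76) (nat_lit 4563287101) (nat_lit 52) (nat_lit 5) (nat_lit 57) (nat_lit 5) (nat_lit 53) (nat_lit 5) (nat_lit 269) (nat_lit 249) (nat_lit 202)) (XT.lf (nat_lit 0) (nat_lit 5116354659) (nat_lit 304) (nat_lit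 3331972439) (nat_lit 380) (nat_lit 3399654202) (nat_lit 48) (nat_lit 5) (nat_lit 52) (nat_lit 5) (nat_lit 53) (nat_lit 5) (nat_lit 270) (nat_lit 249) (nat_lit 201))) (XT.nd (nat_lit 78) (nat_lit 380) (nat_lit 0) (XT.lf (nat_lit 0) (nat_lit 10473700985) (nat_lit 380) (nat_lit 1261269911) (nat_lit 76) (nat_lit 460794834) (nat_lit 48) (nat_lit 5) (nat_lit 53) (nat_lit 5) (nat_lit 49) (nat_lit 5) (nat_lit 271) (nat_lit 249) (nat_lit 200)) (XT.lf (nat_lit 0) (nat_lit 128715714) (nat_lit 380) (nat_lit 8027404425) (nat_lit 76) (nat_lit 4400386533) (nat_lit 43) (nat_lit 5) (nat_lit 48) (nat_lit 5) (nat_lit 44) (nat_lit 5) (nat_lit 272) (nat_lit 249) (nat_lit 199)))) (XT.nd (nat_lit 156) (nat_lit 228) (nat_lit 0) (XT.nd (nat_lit 78) (nat_lit 228) (nat_lit 0) (XT.lf (nat_lit 0) (nat_lit 2000125188) (nat_lit 380) (nat_lit 2352374882) (nat_lit 76) (nat_lit 8582195583) (nat_lit 43) (nat_lit 5) (nat_lit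 48) (nat_lit 5) (nat_lit 44) (nat_lit 5) (nat_lit 273) (nat_lit 249) (nat_lit 198)) (XT.lf (nat_lit 0) (nat_lit 3683974466) (nat_lit 228) (nat_lit 304602384) (nat_lit 304) (nat_lit 9342158559) (nat_lit 40) (nat_lit 5) (nat_lit 43) (nat_lit 5) (nat_lit 44) (nat_lit 5) (nat_lit 274) (nat_lit 249) (nat_lit 197))) (XT.nd (nat_lit 78) (nat_lit 228) (nat_lit 0) (XT.lf (nat_lit 0) (nat_lit 6145398363) (nat_lit 304) (nat_lit 3744380204) (nat_lit 76) (nat_lit 3853460658) (nat_lit 40) (nat_lit 5) (nat_lit 44) (nat_lit 5) (nat_lit 41) (nat_lit 5) (nat_lit 275) (nat_lit 249) (nat_lit 196)) (XT.nd (nat_lit 78) (nat_lit 0) (nat_lit 0) (XT.lf (nat_lit 0) (nat_lit 2488390078) (nat_lit 228) (nat_lit 5933945848) (nat_lit 304) (nat_lit 5753522784) (nat_lit 37) (nat_lit 5) (nat_lit 40) (nat_lit 5) (nat_lit 41) (nat_lit 5) (nat_lit 276) (nat_lit 249) (nat_lit 195)) (XT.lf (nat_lit 0) (nat_lit 9124050428)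 (nat_lit 228) (nat_lit 1721811960) (nat_lit 304) (nat_lit 3782708942) (nat_lit 37) (nat_lit 5) (nat_lit 40) (nat_lit 5) (nat_lit 41) (nat_lit 5) (nat_lit 277) (nat_lit 249) (nat_lit 194))))))) (XT.nd (nat_lit 702) (nat_lit 532) (nat_lit 0) (XT.nd (nat_lit 312) (nat_lit 456) (nat_lit 0) (XT.nd (nat_lit 156) (nat_lit 228) (nat_lit 0) (XT.nd (nat_lit 78) (nat_lit 76) (nat_lit 0) (XT.lf (nat_lit 0) (nat_lit 937062111) (nat_lit 228) (nat_lit 12480971887) (nat_lit 304) (nat_lit 1684606677) (nat_lit 34) (nat_lit 5) (nat_lit 37) (nat_lit 5) (nat_lit 38) (nat_lit 5) (nat_lit 278) (nat_lit 249) (nat_lit 193)) (XT.lf (nat_lit 0) (nat_lit 595707698) (nat_lit 304) (nat_lit 7780535676) (nat_lit 76) (nat_lit 7219156224) (nat_lit 33) (nat_lit 5) (nat_lit 37) (nat_lit 5) (nat_lit 34) (nat_lit 5) (nat_lit 279) (nat_lit 249) (nat_lit 192))) (XT.nd (nat_lit 78) (nat_lit 228) (nat_lit 0) (XT.lf (nat_lit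 0) (nat_lit 2905731278) (nat_lit 304) (nat_lit 1140775000) (nat_lit 76) (nat_lit 12066375661) (nat_lit 33) (nat_lit 5) (nat_lit 37) (nat_lit 5) (nat_lit 34) (nat_lit 5) (nat_lit 280) (nat_lit 249) (nat_lit 191)) (XT.lf (nat_lit 0) (nat_lit 5407560217) (nat_lit 304) (nat_lit 10674708496) (nat_lit 76) (nat_lit 570232252) (nat_lit 30) (nat_lit 5) (nat_lit 34) (nat_lit 5) (nat_lit 31) (nat_lit 5) (nat_lit 281) (nat_lit 249) (nat_lit 190)))) (XT.nd (nat_lit 156) (nat_lit 304) (nat_lit 0) (XT.nd (nat_lit 78) (nat_lit 152) (nat_lit 0) (XT.lf (nat_lit 0) (nat_lit 8094655397) (nat_lit 304) (nat_lit 3828704652) (nat_lit 76) (nat_lit 5292806222) (nat_lit 30) (nat_lit 5) (nat_lit 34) (nat_lit 5) (nat_lit 31) (nat_lit 5) (nat_lit 282) (nat_lit 249) (nat_lit 189)) (XT.lf (nat_lit 0) (nat_lit 3435450243) (nat_lit 152) (nat_lit 7509722895) (nat_lit 228) (nat_lit 6861458860) (nat_lit 28) (nat_lit 5)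 (nat_lit 30) (nat_lit 5) (nat_lit 31) (nat_lit 5) (nat_lit 283) (nat_lit 249) (nat_lit 188))) (XT.nd (nat_lit 78) (nat_lit 304) (nat_lit 0) (XT.lf (nat_lit 0) (nat_lit 11162181942) (nat_lit 152) (nat_lit 2816952663) (nat_lit 228) (nat_lit 4445507700) (nat_lit 28) (nat_lit 5) (nat_lit 30) (nat_lit 5) (nat_lit 31) (nat_lit 5) (nat_lit 284) (nat_lit 249) (nat_lit 187)) (XT.nd (nat_lit 78) (nat_lit 76) (nat_lit 0) (XT.lf (nat_lit 0) (nat_lit 140217777) (nat_lit 228) (nat_lit 17036788543) (nat_lit 304) (nat_lit 1896000182) (nat_lit 25) (nat_lit 5) (nat_lit 28) (nat_lit 5) (nat_lit 29) (nat_lit 5) (nat_lit 285) (nat_lit 249) (nat_lit 186)) (XT.lf (nat_lit 0) (nat_lit 904407687) (nat_lit 304) (nat_lit 11676157705) (nat_lit 76) (nat_lit 7165250825) (nat_lit 24) (nat_lit 5) (nat_lit 28) (nat_lit 5) (nat_lit 25) (nat_lit 5) (nat_lit 286) (nat_lit 249) (nat_lit 185)))))) (XT.nd (nat_lit 312) (nat_lit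 380) (nat_lit 0) (XT.nd (nat_lit 156) (nat_lit 0) (nat_lit 0) (XT.nd (nat_lit 78) (nat_lit 152) (nat_lit 0) (XT.lf (nat_lit 0) (nat_lit 3759434278) (nat_lit 304) (nat_lit 4119486953) (nat_lit 76) (nat_lit 12572930541) (nat_lit 24) (nat_lit 5) (nat_lit 28) (nat_lit 5) (nat_lit 25) (nat_lit 5) (nat_lit 287) (nat_lit 249) (nat_lit 184)) (XT.lf (nat_lit 0) (nat_lit 3909960637) (nat_lit 152) (nat_lit 2887645926) (nat_lit 228) (nat_lit 14393615466) (nat_lit 22) (nat_lit 5) (nat_lit 24) (nat_lit 5) (nat_lit 25) (nat_lit 5) (nat_lit 288) (nat_lit 249) (nat_lit 183))) (XT.nd (nat_lit 78) (nat_lit 0) (nat_lit 0) (XT.lf (nat_lit 0) (nat_lit 10075055421) (nat_lit 228) (nat_lit 9548676156) (nat_lit 76) (nat_lit 2339510957) (nat_lit 22) (nat_lit 5) (nat_lit 25) (nat_lit 5) (nat_lit 23) (nat_lit 5) (nat_lit 289) (nat_lit 249) (nat_lit 182)) (XT.lf (nat_lit 0) (nat_lit 13544399768) (nat_lit 228) (nat_lit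 1505961914) (nat_lit 76) (nat_lit 7722148979) (nat_lit 22) (nat_lit 5) (nat_lit 25) (nat_lit 5) (nat_lit 23) (nat_lit 5) (nat_lit 290) (nat_lit 249) (nat_lit 181)))) (XT.nd (nat_lit 156) (nat_lit 228) (nat_lit 0) (XT.nd (nat_lit 78) (nat_lit 0) (nat_lit 0) (XT.lf (nat_lit 0) (nat_lit 7139627568) (nat_lit 152) (nat_lit 10140657727) (nat_lit 228) (nat_lit 6337348672) (nat_lit 20) (nat_lit 5) (nat_lit 22) (nat_lit 5) (nat_lit 23) (nat_lit 5) (nat_lit 291) (nat_lit 249) (nat_lit 180)) (XT.lf (nat_lit 0) (nat_lit 16242454935) (nat_lit 152) (nat_lit 4968068088) (nat_lit 228) (nat_lit 3294155829) (nat_lit 20) (nat_lit 5) (nat_lit 22) (nat_lit 5) (nat_lit 23) (nat_lit 5) (nat_lit 292) (nat_lit 249) (nat_lit 179))) (XT.nd (nat_lit 78) (nat_lit 76) (nat_lit 0) (XT.lf (nat_lit 0) (nat_lit 341258651) (nat_lit 152) (nat_lit 24991341931) (nat_lit 228) (nat_lit 103750248) (nat_lit 18) (nat_lit 5)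 (nat_lit 20) (nat_lit 5) (nat_lit 21) (nat_lit 4) (nat_lit 293) (nat_lit 249) (nat_lit 178)) (XT.nd (nat_lit 78) (nat_lit 0) (nat_lit 0) (XT.lf (nat_lit 0) (nat_lit 3348804285) (nat_lit 228) (nat_lit 16907220964) (nat_lit 76) (nat_lit 6145758144) (nat_lit 17) (nat_lit 5) (nat_lit 20) (nat_lit 5) (nat_lit 18) (nat_lit 5) (nat_lit 294) (nat_lit 249) (nat_lit 177)) (XT.lf (nat_lit 0) (nat_lit 6954180065) (nat_lit 228) (nat_lit 8337325980) (nat_lit 76) (nat_lit 12124748119) (nat_lit 17) (nat_lit 5) (nat_lit 20) (nat_lit 5) (nat_lit 18) (nat_lit 5) (nat_lit 295) (nat_lit 249) (nat_lit 176))))))))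
noncomputable def xc141 : XT := (XT.nd (nat_lit 1326) (nat_lit 304) (nat_lit 0) (XT.nd (nat_lit 624) (nat_lit 228) (nat_lit 0) (XT.nd (nat_lit 312) (nat_lit 304) (nat_lit 0) (XT.nd (nat_lit 156) (nat_lit 0) (nat_lit 0) (XT.nd (nat_lit 78) (nat_lit 0) (nat_lit 0) (XT.lf (nat_lit 0) (nat_lit 657666554) (nat_lit 152) (nat_lit 10076883438) (nat_lit 228) (nat_lit 17747196145) (nat_lit 15) (nat_lit 5) (nat_lit 17) (nat_lit 5) (nat_lit 18) (nat_lit 5) (nat_lit 296) (nat_lit 249) (nat_lit 175)) (XT.lf (nat_lit 0) (nat_lit 10367809512) (nat_lit 152) (nat_lit 4462147497) (nat_lit 228) (nat_lit 14764287088) (nat_lit 15) (nat_lit 5) (nat_lit 17) (nat_lit 5) (nat_lit 18) (nat_lit 5) (nat_lit 297) (nat_lit 249) (nat_lit 174))) (XT.nd (nat_lit 78) (nat_lit 0) (nat_lit 0) (XT.lf (nat_lit 0) (nat_lit 19137925355) (nat_lit 228) (nat_lit 10244814135) (nat_lit 76) (nat_lit 1379268694) (nat_lit 15) (nat_lit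 5) (nat_lit 18) (nat_lit 5) (nat_lit 16) (nat_lit 4) (nat_lit 298) (nat_lit 249) (nat_lit 173)) (XT.lf (nat_lit 0) (nat_lit 23720549460) (nat_lit 228) (nat_lit 909670787) (nat_lit 76) (nat_lit 7355006673) (nat_lit 15) (nat_lit 5) (nat_lit 18) (nat_lit 5) (nat_lit 16) (nat_lit 4) (nat_lit 299) (nat_lit 249) (nat_lit 172)))) (XT.nd (nat_lit 156) (nat_lit 228) (nat_lit 0) (XT.nd (nat_lit 78) (nat_lit 0) (nat_lit 0) (XT.lf (nat_lit 0) (nat_lit 9164200257) (nat_lit 76) (nat_lit 19497952299) (nat_lit 152) (nat_lit 4600989566) (nat_lit 14) (nat_lit 5) (nat_lit 15) (nat_lit 5) (nat_lit 16) (nat_lit 4) (nat_lit 300) (nat_lit 249) (nat_lit 171)) (XT.lf (nat_lit 0) (nat_lit 19752349671) (nat_lit 76) (nat_lit 14100963019) (nat_lit 152) (nat_lit 751543137) (nat_lit 14) (nat_lit 5) (nat_lit 15) (nat_lit 5) (nat_lit 16) (nat_lit 4) (nat_lit 301) (nat_lit 249) (nat_lit 170))) (XT.nd (nat_lit 78) (nat_lit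 152) (nat_lit 0) (XT.lf (nat_lit 0) (nat_lit 3172523504) (nat_lit 152) (nat_lit 5215556422) (nat_lit 76) (nat_lit 27623657783) (nat_lit 13) (nat_lit 5) (nat_lit 15) (nat_lit 5) (nat_lit 14) (nat_lit 5) (nat_lit 302) (nat_lit 249) (nat_lit 169)) (XT.lf (nat_lit 0) (nat_lit 5032530170) (nat_lit 152) (nat_lit 2301636011) (nat_lit 228) (nat_lit 30150872980) (nat_lit 11) (nat_lit 5) (nat_lit 13) (nat_lit 5) (nat_lit 14) (nat_lit 5) (nat_lit 303) (nat_lit 249) (nat_lit 168))))) (XT.nd (nat_lit 312) (nat_lit 152) (nat_lit 0) (XT.nd (nat_lit 156) (nat_lit 76) (nat_lit 0) (XT.nd (nat_lit 78) (nat_lit 0) (nat_lit 0) (XT.lf (nat_lit 0) (nat_lit 11845720325) (nat_lit 228) (nat_lit 23138424149) (nat_lit 76) (nat_lit 4040791618) (nat_lit 11) (nat_lit 5) (nat_lit 14) (nat_lit 5) (nat_lit 12) (nat_lit 4) (nat_lit 304) (nat_lit 249) (nat_lit 167)) (XT.lf (nat_lit 0) (nat_lit 16609355894) (nat_lit 228)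 (nat_lit 13415069199) (nat_lit 76) (nat_lit 10616098421) (nat_lit 11) (nat_lit 5) (nat_lit 14) (nat_lit 5) (nat_lit 12) (nat_lit 4) (nat_lit 305) (nat_lit 249) (nat_lit 166))) (XT.nd (nat_lit 78) (nat_lit 76) (nat_lit 0) (XT.lf (nat_lit 0) (nat_lit 21600479891) (nat_lit 228) (nat_lit 3223358309) (nat_lit 76) (nat_lit 17513606617) (nat_lit 11) (nat_lit 5) (nat_lit 14) (nat_lit 5) (nat_lit 12) (nat_lit 4) (nat_lit 306) (nat_lit 249) (nat_lit 165)) (XT.lf (nat_lit 0) (nat_lit 7707668012) (nat_lit 76) (nat_lit 19243646229) (nat_lit 152) (nat_lit 17162409130) (nat_lit 10) (nat_lit 5) (nat_lit 11) (nat_lit 5) (nat_lit 12) (nat_lit 4) (nat_lit 307) (nat_lit 249) (nat_lit 164)))) (XT.nd (nat_lit 156) (nat_lit 152) (nat_lit 0) (XT.nd (nat_lit 78) (nat_lit 0) (nat_lit 0) (XT.lf (nat_lit 0) (nat_lit 19280463354) (nat_lit 76) (nat_lit 13333856326) (nat_lit 152) (nat_lit 13362282700) (nat_lit 10)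 (nat_lit 5) (nat_lit 11) (nat_lit 5) (nat_lit 12) (nat_lit 4) (nat_lit 308) (nat_lit 249) (nat_lit 163)) (XT.lf (nat_lit 0) (nat_lit 31416003207) (nat_lit 76) (nat_lit 7134986695) (nat_lit 152) (nat_lit 9382126850) (nat_lit 10) (nat_lit 5) (nat_lit 11) (nat_lit 5) (nat_lit 12) (nat_lit 4) (nat_lit 309) (nat_lit 249) (nat_lit 162))) (XT.nd (nat_lit 78) (nat_lit 152) (nat_lit 0) (XT.lf (nat_lit 0) (nat_lit 44143181714) (nat_lit 76) (nat_lit 632278122) (nat_lit 152) (nat_lit 5212465019) (nat_lit 10) (nat_lit 5) (nat_lit 11) (nat_lit 5) (nat_lit 12) (nat_lit 4) (nat_lit 310) (nat_lit 249) (nat_lit 161)) (XT.nd (nat_lit 78) (nat_lit 76) (nat_lit 0) (XT.lf (nat_lit 0) (nat_lit 5423323434) (nat_lit 76) (nat_lit 46060538870) (nat_lit 76) (nat_lit 652991152) (nat_lit 9) (nat_lit 4) (nat_lit 10) (nat_lit 5) (nat_lit 10) (nat_lit 4) (nat_lit 311) (nat_lit 249) (nat_lit 160)) (XT.lf (nat_lit 0)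 (nat_lit 4104438347) (nat_lit 152) (nat_lit 37021942666) (nat_lit 76) (nat_lit 13258518534) (nat_lit 8) (nat_lit 5) (nat_lit 10) (nat_lit 5) (nat_lit 9) (nat_lit 4) (nat_lit 312) (nat_lit 249) (nat_lit 159))))))) (XT.nd (nat_lit 702) (nat_lit 228) (nat_lit 0) (XT.nd (nat_lit 312) (nat_lit 0) (nat_lit 0) (XT.nd (nat_lit 156) (nat_lit 76) (nat_lit 0) (XT.nd (nat_lit 78) (nat_lit 0) (nat_lit 0) (XT.lf (nat_lit 0) (nat_lit 9069545888) (nat_lit 152) (nat_lit 26870608933) (nat_lit 76) (nat_lit 20805083743) (nat_lit 8) (nat_lit 5) (nat_lit 10) (nat_lit 5) (nat_lit 9) (nat_lit 4) (nat_lit 313) (nat_lit 249) (nat_lit 158)) (XT.lf (nat_lit 0) (nat_lit 14275052948) (nat_lit 152) (nat_lit 16225163961) (nat_lit 76) (nat_lit 28723783206) (nat_lit 8) (nat_lit 5) (nat_lit 10) (nat_lit 5) (nat_lit 9) (nat_lit 4) (nat_lit 314) (nat_lit 249) (nat_lit 157))) (XT.nd (nat_lit 78) (nat_lit 76) (nat_lit 0)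 (XT.lf (nat_lit 0) (nat_lit 19733353591) (nat_lit 152) (nat_lit 5060261451) (nat_lit 76) (nat_lit 37033470968) (nat_lit 8) (nat_lit 5) (nat_lit 10) (nat_lit 5) (nat_lit 9) (nat_lit 4) (nat_lit 315) (nat_lit 249) (nat_lit 156)) (XT.lf (nat_lit 0) (nat_lit 6870583268) (nat_lit 76) (nat_lit 18694129564) (nat_lit 152) (nat_lit 38990617791) (nat_lit 7) (nat_lit 5) (nat_lit 8) (nat_lit 5) (nat_lit 9) (nat_lit 4) (nat_lit 316) (nat_lit 249) (nat_lit 155)))) (XT.nd (nat_lit 156) (nat_lit 0) (nat_lit 0) (XT.nd (nat_lit 78) (nat_lit 0) (nat_lit 0) (XT.lf (nat_lit 0) (nat_lit 19561643435) (nat_lit 76) (nat_lit 12204720918) (nat_lit 152) (nat_lit 35649697945) (nat_lit 7) (nat_lit 5) (nat_lit 8) (nat_lit 5) (nat_lit 9) (nat_lit 4) (nat_lit 317) (nat_lit 249) (nat_lit 154)) (XT.lf (nat_lit 0) (nat_lit 32875820762) (nat_lit 76) (nat_lit 5395636108) (nat_lit 152) (nat_lit 32148716287) (nat_lit 7) (nat_lit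 5) (nat_lit 8) (nat_lit 5) (nat_lit 9) (nat_lit 4) (nat_lit 318) (nat_lit 249) (nat_lit 153))) (XT.nd (nat_lit 78) (nat_lit 0) (nat_lit 0) (XT.lf (nat_lit 0) (nat_lit 45122790753) (nat_lit 152) (nat_lit 26757312227) (nat_lit 0) (nat_lit 1693347262) (nat_lit 7) (nat_lit 5) (nat_lit 9) (nat_lit 4) (nat_lit 7) (nat_lit 4) (nat_lit 319) (nat_lit 249) (nat_lit 152)) (XT.nd (nat_lit 78) (nat_lit 0) (nat_lit 0) (XT.lf (nat_lit 0) (nat_lit 52399052380) (nat_lit 152) (nat_lit 15529988608) (nat_lit 0) (nat_lit 8951241685) (nat_lit 7) (nat_lit 5) (nat_lit 9) (nat_lit 4) (nat_lit 7) (nat_lit 4) (nat_lit 320) (nat_lit 249) (nat_lit 151)) (XT.lf (nat_lit 0) (nat_lit 60033325182) (nat_lit 152) (nat_lit 3751408815) (nat_lit 0) (nat_lit 16568021912) (nat_lit 7) (nat_lit 5) (nat_lit 9) (nat_lit 4) (nat_lit 7) (nat_lit 4) (nat_lit 321) (nat_lit 249) (nat_lit 150)))))) (XT.nd (nat_lit 312) (nat_lit 152)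 (nat_lit 0) (XT.nd (nat_lit 156) (nat_lit 0) (nat_lit 0) (XT.nd (nat_lit 78) (nat_lit 0) (nat_lit 0) (XT.lf (nat_lit 0) (nat_lit 8891040201) (nat_lit 76) (nat_lit 59291559854) (nat_lit 76) (nat_lit 15809596988) (nat_lit 6) (nat_lit 4) (nat_lit 7) (nat_lit 5) (nat_lit 7) (nat_lit 4) (nat_lit 322) (nat_lit 249) (nat_lit 149)) (XT.lf (nat_lit 0) (nat_lit 22286378834) (nat_lit 76) (nat_lit 54511081357) (nat_lit 76) (nat_lit 11013252210) (nat_lit 6) (nat_lit 4) (nat_lit 7) (nat_lit 5) (nat_lit 7) (nat_lit 4) (nat_lit 323) (nat_lit 249) (nat_lit 148))) (XT.nd (nat_lit 78) (nat_lit 0) (nat_lit 0) (XT.lf (nat_lit 0) (nat_lit 36342462228) (nat_lit 76) (nat_lit 49495448339) (nat_lit 76) (nat_lit 5982508448) (nat_lit 6) (nat_lit 4) (nat_lit 7) (nat_lit 5) (nat_lit 7) (nat_lit 4) (nat_lit 324) (nat_lit 249) (nat_lit 147)) (XT.lf (nat_lit 0) (nat_lit 51092757250) (nat_lit 76) (nat_lit 44232718817)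 (nat_lit 76) (nat_lit 705387741) (nat_lit 6) (nat_lit 4) (nat_lit 7) (nat_lit 5) (nat_lit 7) (nat_lit 4) (nat_lit 325) (nat_lit 249) (nat_lit 146)))) (XT.nd (nat_lit 156) (nat_lit 76) (nat_lit 0) (XT.nd (nat_lit 78) (nat_lit 0) (nat_lit 0) (XT.lf (nat_lit 0) (nat_lit 4676062731) (nat_lit 152) (nat_lit 33955108366) (nat_lit 76) (nat_lit 61817129532) (nat_lit 5) (nat_lit 5) (nat_lit 7) (nat_lit 5) (nat_lit 6) (nat_lit 4) (nat_lit 326) (nat_lit 249) (nat_lit 145)) (XT.lf (nat_lit 0) (nat_lit 10298349387) (nat_lit 152) (nat_lit 22442473950) (nat_lit 76) (nat_lit 72345440760) (nat_lit 5) (nat_lit 5) (nat_lit 7) (nat_lit 5) (nat_lit 6) (nat_lit 4) (nat_lit 327) (nat_lit 249) (nat_lit 144))) (XT.nd (nat_lit 78) (nat_lit 76) (nat_lit 0) (XT.lf (nat_lit 0) (nat_lit 16197435434) (nat_lit 152) (nat_lit 10361779199) (nat_lit 76) (nat_lit 83397133005) (nat_lit 5) (nat_lit 5) (nat_lit 7) (nat_lit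 5) (nat_lit 6) (nat_lit 4) (nat_lit 328) (nat_lit 249) (nat_lit 143)) (XT.nd (nat_lit 78) (nat_lit 0) (nat_lit 0) (XT.lf (nat_lit 0) (nat_lit 2392308251) (nat_lit 76) (nat_lit 20032408702) (nat_lit 152) (nat_lit 92643562204) (nat_lit 4) (nat_lit 5) (nat_lit 5) (nat_lit 5) (nat_lit 6) (nat_lit 4) (nat_lit 329) (nat_lit 249) (nat_lit 142)) (XT.lf (nat_lit 0) (nat_lit 16136743112) (nat_lit 76) (nat_lit 12998076637) (nat_lit 152) (nat_lit 91292420223) (nat_lit 4) (nat_lit 5) (nat_lit 5) (nat_lit 5) (nat_lit 6) (nat_lit 4) (nat_lit 330) (nat_lit 249) (nat_lit 141))))))))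
noncomputable def xc142 : XT := (XT.nd (nat_lit 1326) (nat_lit 76) (nat_lit 0) (XT.nd (nat_lit 624) (nat_lit 76) (nat_lit 0) (XT.nd (nat_lit 312) (nat_lit 0) (nat_lit 0) (XT.nd (nat_lit 156) (nat_lit 0) (nat_lit 0) (XT.nd (nat_lit 78) (nat_lit 0) (nat_lit 0) (XT.lf (nat_lit 0) (nat_lit 30561643012) (nat_lit 76) (nat_lit 5614951773) (nat_lit 152) (nat_lit 89877751001) (nat_lit 4) (nat_lit 5) (nat_lit 5) (nat_lit 5) (nat_lit 6) (nat_lit 4) (nat_lit 331) (nat_lit 249) (nat_lit 140)) (XT.lf (nat_lit 0) (nat_lit 43600134419) (nat_lit 152) (nat_lit 86294967744) (nat_lit 0) (nat_lit 2066225996) (nat_lit 4) (nat_lit 5) (nat_lit 6) (nat_lit 4) (nat_lit 4) (nat_lit 4) (nat_lit 332) (nat_lit 249) (nat_lit 139))) (XT.nd (nat_lit 78) (nat_lit 0) (nat_lit 0) (XT.lf (nat_lit 0) (nat_lit 51483381467) (nat_lit 152) (nat_lit 76735660125) (nat_lit 0) (nat_lit 9940196358) (nat_lit 4) (nat_lit 5) (nat_lit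 6) (nat_lit 4) (nat_lit 4) (nat_lit 4) (nat_lit 333) (nat_lit 249) (nat_lit 138)) (XT.lf (nat_lit 0) (nat_lit 59757440432) (nat_lit 152) (nat_lit 66704354527) (nat_lit 0) (nat_lit 18205420384) (nat_lit 4) (nat_lit 5) (nat_lit 6) (nat_lit 4) (nat_lit 4) (nat_lit 4) (nat_lit 334) (nat_lit 249) (nat_lit 137)))) (XT.nd (nat_lit 156) (nat_lit 0) (nat_lit 0) (XT.nd (nat_lit 78) (nat_lit 0) (nat_lit 0) (XT.lf (nat_lit 0) (nat_lit 68442011455) (nat_lit 152) (nat_lit 56177166888) (nat_lit 0) (nat_lit 26881577178) (nat_lit 4) (nat_lit 5) (nat_lit 6) (nat_lit 4) (nat_lit 4) (nat_lit 4) (nat_lit 335) (nat_lit 249) (nat_lit 136)) (XT.lf (nat_lit 0) (nat_lit 77557772084) (nat_lit 152) (nat_lit 45129032477) (nat_lit 0) (nat_lit 35989324258) (nat_lit 4) (nat_lit 5) (nat_lit 6) (nat_lit 4) (nat_lit 4) (nat_lit 4) (nat_lit 336) (nat_lit 249) (nat_lit 135))) (XT.nd (nat_lit 78) (nat_lit 0) (nat_lit 0)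 (XT.lf (nat_lit 0) (nat_lit 87126426514) (nat_lit 152) (nat_lit 33533646212) (nat_lit 0) (nat_lit 45550346735) (nat_lit 4) (nat_lit 5) (nat_lit 6) (nat_lit 4) (nat_lit 4) (nat_lit 4) (nat_lit 337) (nat_lit 249) (nat_lit 134)) (XT.lf (nat_lit 0) (nat_lit 97170757253) (nat_lit 152) (nat_lit 21363400029) (nat_lit 0) (nat_lit 55587408947) (nat_lit 4) (nat_lit 5) (nat_lit 6) (nat_lit 4) (nat_lit 4) (nat_lit 4) (nat_lit 338) (nat_lit 249) (nat_lit 133))))) (XT.nd (nat_lit 312) (nat_lit 0) (nat_lit 0) (XT.nd (nat_lit 156) (nat_lit 0) (nat_lit 0) (XT.nd (nat_lit 78) (nat_lit 76) (nat_lit 0) (XT.lf (nat_lit 0) (nat_lit 107714679375) (nat_lit 152) (nat_lit 8589317153) (nat_lit 0) (nat_lit 66124408664) (nat_lit 4) (nat_lit 5) (nat_lit 6) (nat_lit 4) (nat_lit 4) (nat_lit 4) (nat_lit 339) (nat_lit 249) (nat_lit 132)) (XT.lf (nat_lit 0) (nat_lit 4978355361) (nat_lit 76) (nat_lit 113882668175) (nat_lit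 76) (nat_lit 72285804696) (nat_lit 3) (nat_lit 4) (nat_lit 4) (nat_lit 5) (nat_lit 4) (nat_lit 4) (nat_lit 340) (nat_lit 249) (nat_lit 131))) (XT.nd (nat_lit 78) (nat_lit 0) (nat_lit 0) (XT.lf (nat_lit 0) (nat_lit 19518232052) (nat_lit 76) (nat_lit 111189467600) (nat_lit 76) (nat_lit 69586325295) (nat_lit 3) (nat_lit 4) (nat_lit 4) (nat_lit 5) (nat_lit 4) (nat_lit 4) (nat_lit 341) (nat_lit 249) (nat_lit 130)) (XT.lf (nat_lit 0) (nat_lit 34780930059) (nat_lit 76) (nat_lit 108363446665) (nat_lit 76) (nat_lit 66754324525) (nat_lit 3) (nat_lit 4) (nat_lit 4) (nat_lit 5) (nat_lit 4) (nat_lit 4) (nat_lit 342) (nat_lit 249) (nat_lit 129)))) (XT.nd (nat_lit 156) (nat_lit 0) (nat_lit 0) (XT.nd (nat_lit 78) (nat_lit 0) (nat_lit 0) (XT.lf (nat_lit 0) (nat_lit 50802789139) (nat_lit 76) (nat_lit 105397876747) (nat_lit 76) (nat_lit 63783059527) (nat_lit 3) (nat_lit 4) (nat_lit 4) (nat_lit 5) (nat_lit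 4) (nat_lit 4) (nat_lit 343) (nat_lit 249) (nat_lit 128)) (XT.lf (nat_lit 0) (nat_lit 67621956575) (nat_lit 76) (nat_lit 102285696967) (nat_lit 76) (nat_lit 60665455861) (nat_lit 3) (nat_lit 4) (nat_lit 4) (nat_lit 5) (nat_lit 4) (nat_lit 4) (nat_lit 344) (nat_lit 249) (nat_lit 127))) (XT.nd (nat_lit 78) (nat_lit 0) (nat_lit 0) (XT.lf (nat_lit 0) (nat_lit 85278478004) (nat_lit 76) (nat_lit 99019497372) (nat_lit 76) (nat_lit 57394090660) (nat_lit 3) (nat_lit 4) (nat_lit 4) (nat_lit 5) (nat_lit 4) (nat_lit 4) (nat_lit 345) (nat_lit 249) (nat_lit 126)) (XT.nd (nat_lit 78) (nat_lit 0) (nat_lit 0) (XT.lf (nat_lit 0) (nat_lit 103814392762) (nat_lit 76) (nat_lit 95591501296) (nat_lit 76) (nat_lit 53961174959) (nat_lit 3) (nat_lit 4) (nat_lit 4) (nat_lit 5) (nat_lit 4) (nat_lit 4) (nat_lit 346) (nat_lit 249) (nat_lit 125)) (XT.lf (nat_lit 0) (nat_lit 123273833980) (nat_lit 76) (nat_lit 91993546845)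 (nat_lit 76) (nat_lit 50358535151) (nat_lit 3) (nat_lit 4) (nat_lit 4) (nat_lit 5) (nat_lit 4) (nat_lit 4) (nat_lit 347) (nat_lit 249) (nat_lit 124))))))) (XT.nd (nat_lit 702) (nat_lit 76) (nat_lit 0) (XT.nd (nat_lit 312) (nat_lit 0) (nat_lit 0) (XT.nd (nat_lit 156) (nat_lit 0) (nat_lit 0) (XT.nd (nat_lit 78) (nat_lit 0) (nat_lit 0) (XT.lf (nat_lit 0) (nat_lit 143703133661) (nat_lit 76) (nat_lit 88217067459) (nat_lit 76) (nat_lit 46577593521) (nat_lit 3) (nat_lit 4) (nat_lit 4) (nat_lit 5) (nat_lit 4) (nat_lit 4) (nat_lit 348) (nat_lit 249) (nat_lit 123)) (XT.lf (nat_lit 0) (nat_lit 165150932995) (nat_lit 76) (nat_lit 84253071522) (nat_lit 76) (nat_lit 42609347827) (nat_lit 3) (nat_lit 4) (nat_lit 4) (nat_lit 5) (nat_lit 4) (nat_lit 4) (nat_lit 349) (nat_lit 249) (nat_lit 122))) (XT.nd (nat_lit 78) (nat_lit 0) (nat_lit 0) (XT.lf (nat_lit 0) (nat_lit 187668298170) (nat_lit 76) (nat_lit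 80092120947) (nat_lit 76) (nat_lit 38444349865) (nat_lit 3) (nat_lit 4) (nat_lit 4) (nat_lit 5) (nat_lit 4) (nat_lit 4) (nat_lit 350) (nat_lit 249) (nat_lit 121)) (XT.lf (nat_lit 0) (nat_lit 211308841961) (nat_lit 76) (nat_lit 75724308711) (nat_lit 76) (nat_lit 34072682973) (nat_lit 3) (nat_lit 4) (nat_lit 4) (nat_lit 5) (nat_lit 4) (nat_lit 4) (nat_lit 351) (nat_lit 249) (nat_lit 120)))) (XT.nd (nat_lit 156) (nat_lit 0) (nat_lit 0) (XT.nd (nat_lit 78) (nat_lit 0) (nat_lit 0) (XT.lf (nat_lit 0) (nat_lit 236128851377) (nat_lit 76) (nat_lit 71139235258) (nat_lit 76) (nat_lit 29483938421) (nat_lit 3) (nat_lit 4) (nat_lit 4) (nat_lit 5) (nat_lit 4) (nat_lit 4) (nat_lit 352) (nat_lit 249) (nat_lit 119)) (XT.lf (nat_lit 0) (nat_lit 262187421678) (nat_lit 76) (nat_lit 66325983749) (nat_lit 76) (nat_lit 24667190627) (nat_lit 3) (nat_lit 4) (nat_lit 4) (nat_lit 5) (nat_lit 4) (nat_lit 4) (nat_lit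 353) (nat_lit 249) (nat_lit 118))) (XT.nd (nat_lit 78) (nat_lit 0) (nat_lit 0) (XT.lf (nat_lit 0) (nat_lit 289546597079) (nat_lit 76) (nat_lit 61273094060) (nat_lit 76) (nat_lit 19610971142) (nat_lit 3) (nat_lit 4) (nat_lit 4) (nat_lit 5) (nat_lit 4) (nat_lit 4) (nat_lit 354) (nat_lit 249) (nat_lit 117)) (XT.nd (nat_lit 78) (nat_lit 0) (nat_lit 0) (XT.lf (nat_lit 0) (nat_lit 318271518474) (nat_lit 76) (nat_lit 55968535502) (nat_lit 76) (nat_lit 14303241350) (nat_lit 3) (nat_lit 4) (nat_lit 4) (nat_lit 5) (nat_lit 4) (nat_lit 4) (nat_lit 355) (nat_lit 249) (nat_lit 116)) (XT.lf (nat_lit 0) (nat_lit 348430578533) (nat_lit 76) (nat_lit 50399678173) (nat_lit 76) (nat_lit 8731363799) (nat_lit 3) (nat_lit 4) (nat_lit 4) (nat_lit 5) (nat_lit 4) (nat_lit 4) (nat_lit 356) (nat_lit 249) (nat_lit 115)))))) (XT.nd (nat_lit 29250) (nat_lit 0) (nat_lit 6156) (XT.nd (nat_lit 156) (nat_lit 0) (nat_lit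 0) (XT.nd (nat_lit 78) (nat_lit 76) (nat_lit 0) (XT.lf (nat_lit 0) (nat_lit 380095584542) (nat_lit 76) (nat_lit 44553262890) (nat_lit 76) (nat_lit 2882072113) (nat_lit 3) (nat_lit 4) (nat_lit 4) (nat_lit 5) (nat_lit 4) (nat_lit 4) (nat_lit 357) (nat_lit 249) (nat_lit 114)) (XT.lf (nat_lit 0) (nat_lit 3154266303) (nat_lit 152) (nat_lit 35207684286) (nat_lit 76) (nat_lit 410134244044) (nat_lit 2) (nat_lit 5) (nat_lit 4) (nat_lit 5) (nat_lit 3) (nat_lit 4) (nat_lit 358) (nat_lit 249) (nat_lit 113))) (XT.nd (nat_lit 29016) (nat_lit 0) (nat_lit 6688) (XT.lf (nat_lit 0) (nat_lit 9394529305) (nat_lit 152) (nat_lit 22417754113) (nat_lit 76) (nat_lit 438695140783) (nat_lit 2) (nat_lit 5) (nat_lit 4) (nat_lit 5) (nat_lit 3) (nat_lit 4) (nat_lit 359) (nat_lit 249) (nat_lit 112)) (XT.lf (nat_lit 0) (nat_lit 3003144879) (nat_lit 532) (nat_lit 409425292) (nat_lit 532) (nat_lit 409425292) (nat_lit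 90) (nat_lit 3) (nat_lit 97) (nat_lit 3) (nat_lit 97) (nat_lit 5) (nat_lit 250) (nat_lit 250) (nat_lit 220)))) (XT.nd (nat_lit 156) (nat_lit 0) (nat_lit 0) (XT.nd (nat_lit 78) (nat_lit 532) (nat_lit 0) (XT.lf (nat_lit 76) (nat_lit 2509068496) (nat_lit 0) (nat_lit 4884428671) (nat_lit 532) (nat_lit 373662168) (nat_lit 91) (nat_lit 5) (nat_lit 90) (nat_lit 3) (nat_lit 97) (nat_lit 5) (nat_lit 251) (nat_lit 250) (nat_lit 219)) (XT.lf (nat_lit 0) (nat_lit 858177377) (nat_lit 532) (nat_lit 1923866442) (nat_lit 608) (nat_lit 5117312584) (nat_lit 83) (nat_lit 5) (nat_lit 90) (nat_lit 3) (nat_lit 91) (nat_lit 5) (nat_lit 252) (nat_lit 250) (nat_lit 218))) (XT.nd (nat_lit 78) (nat_lit 0) (nat_lit 76) (XT.lf (nat_lit 76) (nat_lit 1578837702) (nat_lit 0) (nat_lit 509648640) (nat_lit 608) (nat_lit 5952251899) (nat_lit 84) (nat_lit 5) (nat_lit 83) (nat_lit 5) (nat_lit 91) (nat_lit 5) (nat_lit 253)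 (nat_lit 250) (nat_lit 217)) (XT.nd (nat_lit 78) (nat_lit 0) (nat_lit 0) (XT.lf (nat_lit 0) (nat_lit 3370907046) (nat_lit 532) (nat_lit 2940295228) (nat_lit 608) (nat_lit 1878793222) (nat_lit 84) (nat_lit 5) (nat_lit 91) (nat_lit 5) (nat_lit 92) (nat_lit 5) (nat_lit 254) (nat_lit 250) (nat_lit 216)) (XT.lf (nat_lit 76) (nat_lit 728174904) (nat_lit 0) (nat_lit 3940602597) (nat_lit 608) (nat_lit 3680691808) (nat_lit 85) (nat_lit 5) (nat_lit 84) (nat_lit 5) (nat_lit 92) (nat_lit 5) (nat_lit 255) (nat_lit 250) (nat_lit 215))))))))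
noncomputable def xc143 : XT := (XT.nd (nat_lit 1326) (nat_lit 1976) (nat_lit 0) (XT.nd (nat_lit 624) (nat_lit 1672) (nat_lit 0) (XT.nd (nat_lit 312) (nat_lit 532) (nat_lit 0) (XT.nd (nat_lit 156) (nat_lit 532) (nat_lit 0) (XT.nd (nat_lit 78) (nat_lit 0) (nat_lit 76) (XT.lf (nat_lit 76) (nat_lit 4638694626) (nat_lit 0) (nat_lit 1376825609) (nat_lit 608) (nat_lit 2502502530) (nat_lit 85) (nat_lit 5) (nat_lit 84) (nat_lit 5) (nat_lit 92) (nat_lit 5) (nat_lit 256) (nat_lit 250) (nat_lit 214)) (XT.lf (nat_lit 0) (nat_lit 7387783197) (nat_lit 532) (nat_lit 15938660) (nat_lit 608) (nat_lit 1293663250) (nat_lit 85) (nat_lit 5) (nat_lit 92) (nat_lit 5) (nat_lit 93) (nat_lit 5) (nat_lit 257) (nat_lit 250) (nat_lit 213))) (XT.nd (nat_lit 78) (nat_lit 608) (nat_lit 0) (XT.lf (nat_lit 76) (nat_lit 4106490260) (nat_lit 0) (nat_lit 4749472889) (nat_lit 608) (nat_lit 28663766) (nat_lit 86) (nat_lit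 5) (nat_lit 85) (nat_lit 5) (nat_lit 93) (nat_lit 5) (nat_lit 258) (nat_lit 250) (nat_lit 212)) (XT.lf (nat_lit 0) (nat_lit 1216058631) (nat_lit 608) (nat_lit 710660270) (nat_lit 684) (nat_lit 7156641781) (nat_lit 77) (nat_lit 5) (nat_lit 85) (nat_lit 5) (nat_lit 86) (nat_lit 5) (nat_lit 259) (nat_lit 250) (nat_lit 211)))) (XT.nd (nat_lit 156) (nat_lit 608) (nat_lit 0) (XT.nd (nat_lit 78) (nat_lit 0) (nat_lit 0) (XT.lf (nat_lit 0) (nat_lit 2540498146) (nat_lit 608) (nat_lit 5675872327) (nat_lit 76) (nat_lit 1074953842) (nat_lit 78) (nat_lit 5) (nat_lit 86) (nat_lit 5) (nat_lit 79) (nat_lit 5) (nat_lit 260) (nat_lit 250) (nat_lit 210)) (XT.lf (nat_lit 0) (nat_lit 3921537244) (nat_lit 608) (nat_lit 1403099868) (nat_lit 76) (nat_lit 4185757647) (nat_lit 78) (nat_lit 5) (nat_lit 86) (nat_lit 5) (nat_lit 79) (nat_lit 5) (nat_lit 261) (nat_lit 250) (nat_lit 209))) (XT.nd (nat_lit 78) (nat_lit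 0) (nat_lit 0) (XT.lf (nat_lit 0) (nat_lit 3141206554) (nat_lit 608) (nat_lit 2228568949) (nat_lit 684) (nat_lit 4370952544) (nat_lit 70) (nat_lit 5) (nat_lit 78) (nat_lit 5) (nat_lit 79) (nat_lit 5) (nat_lit 262) (nat_lit 250) (nat_lit 208)) (XT.lf (nat_lit 0) (nat_lit 6881523122) (nat_lit 684) (nat_lit 2081029481) (nat_lit 76) (nat_lit 1020676881) (nat_lit 70) (nat_lit 5) (nat_lit 79) (nat_lit 5) (nat_lit 71) (nat_lit 5) (nat_lit 263) (nat_lit 250) (nat_lit 207))))) (XT.nd (nat_lit 312) (nat_lit 608) (nat_lit 0) (XT.nd (nat_lit 156) (nat_lit 380) (nat_lit 0) (XT.nd (nat_lit 78) (nat_lit 0) (nat_lit 0) (XT.lf (nat_lit 0) (nat_lit 2669700495) (nat_lit 684) (nat_lit 5830691831) (nat_lit 760) (nat_lit 1736083492) (nat_lit 61) (nat_lit 5) (nat_lit 70) (nat_lit 5) (nat_lit 71) (nat_lit 5) (nat_lit 264) (nat_lit 250) (nat_lit 206)) (XT.lf (nat_lit 0) (nat_lit 7688302901) (nat_lit 684) (nat_lit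 2502032651) (nat_lit 760) (nat_lit 312729562) (nat_lit 61) (nat_lit 5) (nat_lit 70) (nat_lit 5) (nat_lit 71) (nat_lit 5) (nat_lit 265) (nat_lit 250) (nat_lit 205))) (XT.nd (nat_lit 78) (nat_lit 0) (nat_lit 0) (XT.lf (nat_lit 0) (nat_lit 1150638802) (nat_lit 380) (nat_lit 8614328535) (nat_lit 76) (nat_lit 1016930184) (nat_lit 56) (nat_lit 5) (nat_lit 61) (nat_lit 5) (nat_lit 57) (nat_lit 5) (nat_lit 266) (nat_lit 250) (nat_lit 204)) (XT.lf (nat_lit 0) (nat_lit 2723765689) (nat_lit 380) (nat_lit 3665645638) (nat_lit 76) (nat_lit 4682810581) (nat_lit 56) (nat_lit 5) (nat_lit 61) (nat_lit 5) (nat_lit 57) (nat_lit 5) (nat_lit 267) (nat_lit 250) (nat_lit 203)))) (XT.nd (nat_lit 156) (nat_lit 304) (nat_lit 0) (XT.nd (nat_lit 78) (nat_lit 0) (nat_lit 0) (XT.lf (nat_lit 0) (nat_lit 1538600626) (nat_lit 304) (nat_lit 2820619793) (nat_lit 380) (nat_lit 7018812508) (nat_lit 52) (nat_lit 5) (nat_lit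 56) (nat_lit 5) (nat_lit 57) (nat_lit 5) (nat_lit 268) (nat_lit 250) (nat_lit 202)) (XT.lf (nat_lit 0) (nat_lit 6114929835) (nat_lit 380) (nat_lit 4623723477) (nat_lit 76) (nat_lit 958703745) (nat_lit 52) (nat_lit 5) (nat_lit 57) (nat_lit 5) (nat_lit 53) (nat_lit 5) (nat_lit 269) (nat_lit 250) (nat_lit 201))) (XT.nd (nat_lit 78) (nat_lit 0) (nat_lit 0) (XT.lf (nat_lit 0) (nat_lit 791354256) (nat_lit 304) (nat_lit 7188444220) (nat_lit 380) (nat_lit 4051919902) (nat_lit 48) (nat_lit 5) (nat_lit 52) (nat_lit 5) (nat_lit 53) (nat_lit 5) (nat_lit 270) (nat_lit 250) (nat_lit 200)) (XT.nd (nat_lit 78) (nat_lit 0) (nat_lit 0) (XT.lf (nat_lit 0) (nat_lit 6597859280) (nat_lit 304) (nat_lit 3382285329) (nat_lit 380) (nat_lit 2400674474) (nat_lit 48) (nat_lit 5) (nat_lit 52) (nat_lit 5) (nat_lit 53) (nat_lit 5) (nat_lit 271) (nat_lit 250) (nat_lit 199)) (XT.lf (nat_lit 0) (nat_lit 12055687656)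 (nat_lit 380) (nat_lit 102016622) (nat_lit 76) (nat_lit 591038254) (nat_lit 48) (nat_lit 5) (nat_lit 53) (nat_lit 5) (nat_lit 49) (nat_lit 5) (nat_lit 272) (nat_lit 250) (nat_lit 198))))))) (XT.nd (nat_lit 702) (nat_lit 836) (nat_lit 0) (XT.nd (nat_lit 312) (nat_lit 532) (nat_lit 0) (XT.nd (nat_lit 156) (nat_lit 228) (nat_lit 0) (XT.nd (nat_lit 78) (nat_lit 0) (nat_lit 0) (XT.lf (nat_lit 0) (nat_lit 1182256740) (nat_lit 380) (nat_lit 7188016468) (nat_lit 76) (nat_lit 4758169383) (nat_lit 43) (nat_lit 5) (nat_lit 48) (nat_lit 5) (nat_lit 44) (nat_lit 5) (nat_lit 273) (nat_lit 250) (nat_lit 197)) (XT.lf (nat_lit 0) (nat_lit 3097374534) (nat_lit 380) (nat_lit 1288319171) (nat_lit 76) (nat_lit 9142508718) (nat_lit 43) (nat_lit 5) (nat_lit 48) (nat_lit 5) (nat_lit 44) (nat_lit 5) (nat_lit 274) (nat_lit 250) (nat_lit 196))) (XT.nd (nat_lit 78) (nat_lit 0) (nat_lit 0) (XT.lf (nat_lit 0) (nat_lit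 5030788380) (nat_lit 228) (nat_lit 125124314) (nat_lit 304) (nat_lit 8789758554) (nat_lit 40) (nat_lit 5) (nat_lit 43) (nat_lit 5) (nat_lit 44) (nat_lit 5) (nat_lit 275) (nat_lit 250) (nat_lit 195)) (XT.lf (nat_lit 0) (nat_lit 7377379655) (nat_lit 304) (nat_lit 2778098090) (nat_lit 76) (nat_lit 4225634939) (nat_lit 40) (nat_lit 5) (nat_lit 44) (nat_lit 5) (nat_lit 41) (nat_lit 5) (nat_lit 276) (nat_lit 250) (nat_lit 194)))) (XT.nd (nat_lit 156) (nat_lit 304) (nat_lit 0) (XT.nd (nat_lit 78) (nat_lit 0) (nat_lit 0) (XT.lf (nat_lit 0) (nat_lit 3747705849) (nat_lit 228) (nat_lit 5994143282) (nat_lit 304) (nat_lit 5094975137) (nat_lit 37) (nat_lit 5) (nat_lit 40) (nat_lit 5) (nat_lit 41) (nat_lit 5) (nat_lit 277) (nat_lit 250) (nat_lit 193)) (XT.lf (nat_lit 0) (nat_lit 10661106537) (nat_lit 228) (nat_lit 1582664598) (nat_lit 304) (nat_lit 3070678878) (nat_lit 37) (nat_lit 5) (nat_lit 40)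 (nat_lit 5) (nat_lit 41) (nat_lit 5) (nat_lit 278) (nat_lit 250) (nat_lit 192))) (XT.nd (nat_lit 78) (nat_lit 76) (nat_lit 0) (XT.lf (nat_lit 0) (nat_lit 2088691013) (nat_lit 228) (nat_lit 12835714497) (nat_lit 304) (nat_lit 888956469) (nat_lit 34) (nat_lit 5) (nat_lit 37) (nat_lit 5) (nat_lit 38) (nat_lit 5) (nat_lit 279) (nat_lit 250) (nat_lit 191)) (XT.nd (nat_lit 78) (nat_lit 0) (nat_lit 0) (XT.lf (nat_lit 0) (nat_lit 1436653911) (nat_lit 304) (nat_lit 7088182341) (nat_lit 76) (nat_lit 7807383231) (nat_lit 33) (nat_lit 5) (nat_lit 37) (nat_lit 5) (nat_lit 34) (nat_lit 5) (nat_lit 280) (nat_lit 250) (nat_lit 190)) (XT.lf (nat_lit 0) (nat_lit 3823551965) (nat_lit 304) (nat_lit 167927922) (nat_lit 76) (nat_lit 12886141297) (nat_lit 33) (nat_lit 5) (nat_lit 37) (nat_lit 5) (nat_lit 34) (nat_lit 5) (nat_lit 281) (nat_lit 250) (nat_lit 189)))))) (XT.nd (nat_lit 312) (nat_lit 456) (nat_lit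 0) (XT.nd (nat_lit 156) (nat_lit 152) (nat_lit 0) (XT.nd (nat_lit 78) (nat_lit 0) (nat_lit 0) (XT.lf (nat_lit 0) (nat_lit 6433591064) (nat_lit 304) (nat_lit 10159507143) (nat_lit 76) (nat_lit 852075501) (nat_lit 30) (nat_lit 5) (nat_lit 34) (nat_lit 5) (nat_lit 31) (nat_lit 5) (nat_lit 282) (nat_lit 250) (nat_lit 188)) (XT.lf (nat_lit 0) (nat_lit 9219057535) (nat_lit 304) (nat_lit 3021152477) (nat_lit 76) (nat_lit 5798714758) (nat_lit 30) (nat_lit 5) (nat_lit 34) (nat_lit 5) (nat_lit 31) (nat_lit 5) (nat_lit 283) (nat_lit 250) (nat_lit 187))) (XT.nd (nat_lit 78) (nat_lit 0) (nat_lit 0) (XT.lf (nat_lit 0) (nat_lit 4590097462) (nat_lit 152) (nat_lit 7603079160) (nat_lit 228) (nat_lit 6466781787) (nat_lit 28) (nat_lit 5) (nat_lit 30) (nat_lit 5) (nat_lit 31) (nat_lit 5) (nat_lit 284) (nat_lit 250) (nat_lit 186)) (XT.lf (nat_lit 0) (nat_lit 12656362189) (nat_lit 152) (nat_lit 2689105171)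 (nat_lit 228) (nat_lit 3965164022) (nat_lit 28) (nat_lit 5) (nat_lit 30) (nat_lit 5) (nat_lit 31) (nat_lit 5) (nat_lit 285) (nat_lit 250) (nat_lit 185)))) (XT.nd (nat_lit 156) (nat_lit 152) (nat_lit 0) (XT.nd (nat_lit 78) (nat_lit 76) (nat_lit 0) (XT.lf (nat_lit 0) (nat_lit 1098749074) (nat_lit 228) (nat_lit 17591554995) (nat_lit 304) (nat_lit 1301845400) (nat_lit 25) (nat_lit 5) (nat_lit 28) (nat_lit 5) (nat_lit 29) (nat_lit 5) (nat_lit 286) (nat_lit 250) (nat_lit 184)) (XT.lf (nat_lit 0) (nat_lit 1584774677) (nat_lit 304) (nat_lit 11331135826) (nat_lit 76) (nat_lit 7783820159) (nat_lit 24) (nat_lit 5) (nat_lit 28) (nat_lit 5) (nat_lit 25) (nat_lit 5) (nat_lit 287) (nat_lit 250) (nat_lit 183))) (XT.nd (nat_lit 78) (nat_lit 152) (nat_lit 0) (XT.lf (nat_lit 0) (nat_lit 4552307521) (nat_lit 304) (nat_lit 3440861525) (nat_lit 76) (nat_lit 13449488299) (nat_lit 24) (nat_lit 5) (nat_lit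 28) (nat_lit 5) (nat_lit 25) (nat_lit 5) (nat_lit 288) (nat_lit 250) (nat_lit 182)) (XT.nd (nat_lit 78) (nat_lit 0) (nat_lit 0) (XT.lf (nat_lit 0) (nat_lit 4975790706) (nat_lit 152) (nat_lit 2751381201) (nat_lit 228) (nat_lit 14492658458) (nat_lit 22) (nat_lit 5) (nat_lit 24) (nat_lit 5) (nat_lit 25) (nat_lit 5) (nat_lit 289) (nat_lit 250) (nat_lit 181)) (XT.lf (nat_lit 0) (nat_lit 11144586005) (nat_lit 228) (nat_lit 9171916520) (nat_lit 76) (nat_lit 2715214661) (nat_lit 22) (nat_lit 5) (nat_lit 25) (nat_lit 5) (nat_lit 23) (nat_lit 5) (nat_lit 290) (nat_lit 250) (nat_lit 180))))))))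
noncomputable def xc144 : XT := (XT.nd (nat_lit 1326) (nat_lit 380) (nat_lit 0) (XT.nd (nat_lit 624) (nat_lit 304) (nat_lit 0) (XT.nd (nat_lit 312) (nat_lit 152) (nat_lit 0) (XT.nd (nat_lit 156) (nat_lit 228) (nat_lit 0) (XT.nd (nat_lit 78) (nat_lit 152) (nat_lit 0) (XT.lf (nat_lit 0) (nat_lit 14760455768) (nat_lit 228) (nat_lit 767742444) (nat_lit 76) (nat_lit 8354664195) (nat_lit 22) (nat_lit 5) (nat_lit 25) (nat_lit 5) (nat_lit 23) (nat_lit 5) (nat_lit 291) (nat_lit 250) (nat_lit 179)) (XT.lf (nat_lit 0) (nat_lit 8297005261) (nat_lit 152) (nat_lit 10372967884) (nat_lit 228) (nat_lit 6100990285) (nat_lit 20) (nat_lit 5) (nat_lit 22) (nat_lit 5) (nat_lit 23) (nat_lit 5) (nat_lit 292) (nat_lit 250) (nat_lit 178))) (XT.nd (nat_lit 78) (nat_lit 228) (nat_lit 0) (XT.lf (nat_lit 0) (nat_lit 17816859886) (nat_lit 152) (nat_lit 4954830797) (nat_lit 228) (nat_lit 2931981887) (nat_lit 20) (nat_lit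 5) (nat_lit 22) (nat_lit 5) (nat_lit 23) (nat_lit 5) (nat_lit 293) (nat_lit 250) (nat_lit 177)) (XT.lf (nat_lit 0) (nat_lit 396482041) (nat_lit 228) (nat_lit 25558668695) (nat_lit 76) (nat_lit 726910193) (nat_lit 17) (nat_lit 5) (nat_lit 20) (nat_lit 5) (nat_lit 18) (nat_lit 5) (nat_lit 294) (nat_lit 250) (nat_lit 176)))) (XT.nd (nat_lit 156) (nat_lit 152) (nat_lit 0) (XT.nd (nat_lit 78) (nat_lit 0) (nat_lit 0) (XT.lf (nat_lit 0) (nat_lit 3994276036) (nat_lit 228) (nat_lit 17000698899) (nat_lit 76) (nat_lit 6701952407) (nat_lit 17) (nat_lit 5) (nat_lit 20) (nat_lit 5) (nat_lit 18) (nat_lit 5) (nat_lit 295) (nat_lit 250) (nat_lit 175)) (XT.lf (nat_lit 0) (nat_lit 7757157198) (nat_lit 228) (nat_lit 8038113123) (nat_lit 76) (nat_lit 12968039196) (nat_lit 17) (nat_lit 5) (nat_lit 20) (nat_lit 5) (nat_lit 18) (nat_lit 5) (nat_lit 296) (nat_lit 250) (nat_lit 174))) (XT.nd (nat_lit 78) (nat_lit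 0) (nat_lit 0) (XT.lf (nat_lit 0) (nat_lit 1395079374) (nat_lit 152) (nat_lit 10320786493) (nat_lit 228) (nat_lit 18166791541) (nat_lit 15) (nat_lit 5) (nat_lit 17) (nat_lit 5) (nat_lit 18) (nat_lit 5) (nat_lit 297) (nat_lit 250) (nat_lit 173)) (XT.lf (nat_lit 0) (nat_lit 11557180456) (nat_lit 152) (nat_lit 4437691904) (nat_lit 228) (nat_lit 15057011527) (nat_lit 15) (nat_lit 5) (nat_lit 17) (nat_lit 5) (nat_lit 18) (nat_lit 5) (nat_lit 298) (nat_lit 250) (nat_lit 172))))) (XT.nd (nat_lit 312) (nat_lit 228) (nat_lit 0) (XT.nd (nat_lit 156) (nat_lit 76) (nat_lit 0) (XT.nd (nat_lit 78) (nat_lit 0) (nat_lit 0) (XT.lf (nat_lit 0) (nat_lit 20501757481) (nat_lit 228) (nat_lit 10100685573) (nat_lit 76) (nat_lit 1676460136) (nat_lit 15) (nat_lit 5) (nat_lit 18) (nat_lit 5) (nat_lit 16) (nat_lit 4) (nat_lit 299) (nat_lit 250) (nat_lit 171)) (XT.lf (nat_lit 0) (nat_lit 25294134894) (nat_lit 228)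 (nat_lit 330040738) (nat_lit 76) (nat_lit 7940117014) (nat_lit 15) (nat_lit 5) (nat_lit 18) (nat_lit 5) (nat_lit 16) (nat_lit 4) (nat_lit 300) (nat_lit 250) (nat_lit 170))) (XT.nd (nat_lit 78) (nat_lit 0) (nat_lit 0) (XT.lf (nat_lit 0) (nat_lit 10237441381) (nat_lit 76) (nat_lit 20236523982) (nat_lit 152) (nat_lit 4432619822) (nat_lit 14) (nat_lit 5) (nat_lit 15) (nat_lit 5) (nat_lit 16) (nat_lit 4) (nat_lit 301) (nat_lit 250) (nat_lit 169)) (XT.lf (nat_lit 0) (nat_lit 21325711070) (nat_lit 76) (nat_lit 14580938853) (nat_lit 152) (nat_lit 409673415) (nat_lit 14) (nat_lit 5) (nat_lit 15) (nat_lit 5) (nat_lit 16) (nat_lit 4) (nat_lit 302) (nat_lit 250) (nat_lit 168)))) (XT.nd (nat_lit 156) (nat_lit 0) (nat_lit 0) (XT.nd (nat_lit 78) (nat_lit 152) (nat_lit 0) (XT.lf (nat_lit 0) (nat_lit 3680961307) (nat_lit 152) (nat_lit 4906243799) (nat_lit 76) (nat_lit 29206956165) (nat_lit 13) (nat_lit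 5) (nat_lit 15) (nat_lit 5) (nat_lit 14) (nat_lit 5) (nat_lit 303) (nat_lit 250) (nat_lit 167)) (XT.lf (nat_lit 0) (nat_lit 5845052115) (nat_lit 152) (nat_lit 2197733455) (nat_lit 228) (nat_lit 31298769287) (nat_lit 11) (nat_lit 5) (nat_lit 13) (nat_lit 5) (nat_lit 14) (nat_lit 5) (nat_lit 304) (nat_lit 250) (nat_lit 166))) (XT.nd (nat_lit 78) (nat_lit 0) (nat_lit 0) (XT.lf (nat_lit 0) (nat_lit 12766892093) (nat_lit 228) (nat_lit 23747523700) (nat_lit 76) (nat_lit 4444712617) (nat_lit 11) (nat_lit 5) (nat_lit 14) (nat_lit 5) (nat_lit 12) (nat_lit 4) (nat_lit 305) (nat_lit 250) (nat_lit 165)) (XT.nd (nat_lit 78) (nat_lit 0) (nat_lit 0) (XT.lf (nat_lit 0) (nat_lit 17753048215) (nat_lit 228) (nat_lit 13564087749) (nat_lit 76) (nat_lit 11339171360) (nat_lit 11) (nat_lit 5) (nat_lit 14) (nat_lit 5) (nat_lit 12) (nat_lit 4) (nat_lit 306) (nat_lit 250) (nat_lit 164)) (XT.lf (nat_lit 0) (nat_lit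 22978812958) (nat_lit 228) (nat_lit 2887635833) (nat_lit 76) (nat_lit 18572399346) (nat_lit 11) (nat_lit 5) (nat_lit 14) (nat_lit 5) (nat_lit 12) (nat_lit 4) (nat_lit 307) (nat_lit 250) (nat_lit 163))))))) (XT.nd (nat_lit 702) (nat_lit 152) (nat_lit 0) (XT.nd (nat_lit 312) (nat_lit 152) (nat_lit 0) (XT.nd (nat_lit 156) (nat_lit 0) (nat_lit 0) (XT.nd (nat_lit 78) (nat_lit 0) (nat_lit 0) (XT.lf (nat_lit 0) (nat_lit 8581927443) (nat_lit 76) (nat_lit 20008689114) (nat_lit 152) (nat_lit 17713679041) (nat_lit 10) (nat_lit 5) (nat_lit 11) (nat_lit 5) (nat_lit 12) (nat_lit 4) (nat_lit 308) (nat_lit 250) (nat_lit 162)) (XT.lf (nat_lit 0) (nat_lit 20710082740) (nat_lit 76) (nat_lit 13812797307) (nat_lit 152) (nat_lit 13738158221) (nat_lit 10) (nat_lit 5) (nat_lit 11) (nat_lit 5) (nat_lit 12) (nat_lit 4) (nat_lit 309) (nat_lit 250) (nat_lit 161))) (XT.nd (nat_lit 78) (nat_lit 0) (nat_lit 0) (XT.lf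 (nat_lit 0) (nat_lit 33430228338) (nat_lit 76) (nat_lit 7312924758) (nat_lit 152) (nat_lit 9572910703) (nat_lit 10) (nat_lit 5) (nat_lit 11) (nat_lit 5) (nat_lit 12) (nat_lit 4) (nat_lit 310) (nat_lit 250) (nat_lit 160)) (XT.lf (nat_lit 0) (nat_lit 46772650295) (nat_lit 76) (nat_lit 493595580) (nat_lit 152) (nat_lit 5208019231) (nat_lit 10) (nat_lit 5) (nat_lit 11) (nat_lit 5) (nat_lit 12) (nat_lit 4) (nat_lit 311) (nat_lit 250) (nat_lit 159)))) (XT.nd (nat_lit 156) (nat_lit 0) (nat_lit 0) (XT.nd (nat_lit 78) (nat_lit 76) (nat_lit 0) (XT.lf (nat_lit 0) (nat_lit 6120217148) (nat_lit 76) (nat_lit 48187029692) (nat_lit 76) (nat_lit 423556062) (nat_lit 9) (nat_lit 4) (nat_lit 10) (nat_lit 5) (nat_lit 10) (nat_lit 4) (nat_lit 312) (nat_lit 250) (nat_lit 158)) (XT.lf (nat_lit 0) (nat_lit 4551275791) (nat_lit 152) (nat_lit 38459202758) (nat_lit 76) (nat_lit 14081191861) (nat_lit 8) (nat_lit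 5) (nat_lit 10) (nat_lit 5) (nat_lit 9) (nat_lit 4) (nat_lit 313) (nat_lit 250) (nat_lit 157))) (XT.nd (nat_lit 78) (nat_lit 0) (nat_lit 0) (XT.lf (nat_lit 0) (nat_lit 9753133207) (nat_lit 152) (nat_lit 27820008864) (nat_lit 76) (nat_lit 21997478312) (nat_lit 8) (nat_lit 5) (nat_lit 10) (nat_lit 5) (nat_lit 9) (nat_lit 4) (nat_lit 314) (nat_lit 250) (nat_lit 156)) (XT.nd (nat_lit 78) (nat_lit 0) (nat_lit 0) (XT.lf (nat_lit 0) (nat_lit 15207958000) (nat_lit 152) (nat_lit 16661059763) (nat_lit 76) (nat_lit 30304867967) (nat_lit 8) (nat_lit 5) (nat_lit 10) (nat_lit 5) (nat_lit 9) (nat_lit 4) (nat_lit 315) (nat_lit 250) (nat_lit 155)) (XT.lf (nat_lit 0) (nat_lit 20928737847) (nat_lit 152) (nat_lit 4955786528) (nat_lit 76) (nat_lit 39023140327) (nat_lit 8) (nat_lit 5) (nat_lit 10) (nat_lit 5) (nat_lit 9) (nat_lit 4) (nat_lit 316) (nat_lit 250) (nat_lit 154)))))) (XT.nd (nat_lit 312) (nat_lit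 76) (nat_lit 0) (XT.nd (nat_lit 156) (nat_lit 0) (nat_lit 0) (XT.nd (nat_lit 78) (nat_lit 0) (nat_lit 0) (XT.lf (nat_lit 0) (nat_lit 7565834492) (nat_lit 76) (nat_lit 19481383040) (nat_lit 152) (nat_lit 40725342569) (nat_lit 7) (nat_lit 5) (nat_lit 8) (nat_lit 5) (nat_lit 9) (nat_lit 4) (nat_lit 317) (nat_lit 250) (nat_lit 153)) (XT.lf (nat_lit 0) (nat_lit 20874698998) (nat_lit 76) (nat_lit 12674525533) (nat_lit 152) (nat_lit 37227605593) (nat_lit 7) (nat_lit 5) (nat_lit 8) (nat_lit 5) (nat_lit 9) (nat_lit 4) (nat_lit 318) (nat_lit 250) (nat_lit 152))) (XT.nd (nat_lit 78) (nat_lit 0) (nat_lit 0) (XT.lf (nat_lit 0) (nat_lit 34838634077) (nat_lit 76) (nat_lit 5531673694) (nat_lit 152) (nat_lit 33561316625) (nat_lit 7) (nat_lit 5) (nat_lit 8) (nat_lit 5) (nat_lit 9) (nat_lit 4) (nat_lit 319) (nat_lit 250) (nat_lit 151)) (XT.lf (nat_lit 0) (nat_lit 47557374272) (nat_lit 152) (nat_lit 27784233483)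 (nat_lit 0) (nat_lit 1901313263) (nat_lit 7) (nat_lit 5) (nat_lit 9) (nat_lit 4) (nat_lit 7) (nat_lit 4) (nat_lit 320) (nat_lit 250) (nat_lit 150)))) (XT.nd (nat_lit 156) (nat_lit 76) (nat_lit 0) (XT.nd (nat_lit 78) (nat_lit 0) (nat_lit 0) (XT.lf (nat_lit 0) (nat_lit 55188951647) (nat_lit 152) (nat_lit 16010350557) (nat_lit 0) (nat_lit 9516231043) (nat_lit 7) (nat_lit 5) (nat_lit 9) (nat_lit 4) (nat_lit 7) (nat_lit 4) (nat_lit 321) (nat_lit 250) (nat_lit 149)) (XT.lf (nat_lit 0) (nat_lit 63196845392) (nat_lit 152) (nat_lit 3656943559) (nat_lit 0) (nat_lit 17508258507) (nat_lit 7) (nat_lit 5) (nat_lit 9) (nat_lit 4) (nat_lit 7) (nat_lit 4) (nat_lit 322) (nat_lit 250) (nat_lit 148))) (XT.nd (nat_lit 78) (nat_lit 0) (nat_lit 0) (XT.lf (nat_lit 0) (nat_lit 9613078945) (nat_lit 76) (nat_lit 62137130077) (nat_lit 76) (nat_lit 16433432448) (nat_lit 6) (nat_lit 4) (nat_lit 7) (nat_lit 5) (nat_lit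 7) (nat_lit 4) (nat_lit 323) (nat_lit 250) (nat_lit 147)) (XT.nd (nat_lit 78) (nat_lit 0) (nat_lit 0) (XT.lf (nat_lit 0) (nat_lit 23664970855) (nat_lit 76) (nat_lit 57123294692) (nat_lit 76) (nat_lit 11405205878) (nat_lit 6) (nat_lit 4) (nat_lit 7) (nat_lit 5) (nat_lit 7) (nat_lit 4) (nat_lit 324) (nat_lit 250) (nat_lit 146)) (XT.lf (nat_lit 0) (nat_lit 38411273987) (nat_lit 76) (nat_lit 51862277201) (nat_lit 76) (nat_lit 6130482497) (nat_lit 6) (nat_lit 4) (nat_lit 7) (nat_lit 5) (nat_lit 7) (nat_lit 4) (nat_lit 325) (nat_lit 250) (nat_lit 145))))))))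
noncomputable def xc145 : XT := (XT.nd (nat_lit 1326) (nat_lit 76) (nat_lit 0) (XT.nd (nat_lit 624) (nat_lit 76) (nat_lit 0) (XT.nd (nat_lit 312) (nat_lit 76) (nat_lit 0) (XT.nd (nat_lit 156) (nat_lit 0) (nat_lit 0) (XT.nd (nat_lit 78) (nat_lit 76) (nat_lit 0) (XT.lf (nat_lit 0) (nat_lit 53887098586) (nat_lit 76) (nat_lit 46341551372) (nat_lit 76) (nat_lit 596703439) (nat_lit 6) (nat_lit 4) (nat_lit 7) (nat_lit 5) (nat_lit 7) (nat_lit 4) (nat_lit 326) (nat_lit 250) (nat_lit 144)) (XT.lf (nat_lit 0) (nat_lit 5042576603) (nat_lit 152) (nat_lit 35419997542) (nat_lit 76) (nat_lit 65001316775) (nat_lit 5) (nat_lit 5) (nat_lit 7) (nat_lit 5) (nat_lit 6) (nat_lit 4) (nat_lit 327) (nat_lit 250) (nat_lit 143))) (XT.nd (nat_lit 78) (nat_lit 0) (nat_lit 0) (XT.lf (nat_lit 0) (nat_lit 10939658033) (nat_lit 152) (nat_lit 23342820275) (nat_lit 76) (nat_lit 76051599243) (nat_lit 5) (nat_lit 5) (nat_lit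 7) (nat_lit 5) (nat_lit 6) (nat_lit 4) (nat_lit 328) (nat_lit 250) (nat_lit 142)) (XT.lf (nat_lit 0) (nat_lit 17127679755) (nat_lit 152) (nat_lit 10668651613) (nat_lit 76) (nat_lit 87651643412) (nat_lit 5) (nat_lit 5) (nat_lit 7) (nat_lit 5) (nat_lit 6) (nat_lit 4) (nat_lit 329) (nat_lit 250) (nat_lit 141)))) (XT.nd (nat_lit 156) (nat_lit 0) (nat_lit 0) (XT.nd (nat_lit 78) (nat_lit 0) (nat_lit 0) (XT.lf (nat_lit 0) (nat_lit 2719733490) (nat_lit 76) (nat_lit 20944104327) (nat_lit 152) (nat_lit 97151797607) (nat_lit 4) (nat_lit 5) (nat_lit 5) (nat_lit 5) (nat_lit 6) (nat_lit 4) (nat_lit 330) (nat_lit 250) (nat_lit 140)) (XT.lf (nat_lit 0) (nat_lit 17141494388) (nat_lit 76) (nat_lit 13562337792) (nat_lit 152) (nat_lit 95739000560) (nat_lit 4) (nat_lit 5) (nat_lit 5) (nat_lit 5) (nat_lit 6) (nat_lit 4) (nat_lit 331) (nat_lit 250) (nat_lit 139))) (XT.nd (nat_lit 78) (nat_lit 0) (nat_lit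 0) (XT.lf (nat_lit 0) (nat_lit 32278214802) (nat_lit 76) (nat_lit 5814134907) (nat_lit 152) (nat_lit 94259218861) (nat_lit 4) (nat_lit 5) (nat_lit 5) (nat_lit 5) (nat_lit 6) (nat_lit 4) (nat_lit 332) (nat_lit 250) (nat_lit 138)) (XT.lf (nat_lit 0) (nat_lit 45883187459) (nat_lit 152) (nat_lit 90426182137) (nat_lit 0) (nat_lit 2244731469) (nat_lit 4) (nat_lit 5) (nat_lit 6) (nat_lit 4) (nat_lit 4) (nat_lit 4) (nat_lit 333) (nat_lit 250) (nat_lit 137))))) (XT.nd (nat_lit 312) (nat_lit 76) (nat_lit 0) (XT.nd (nat_lit 156) (nat_lit 0) (nat_lit 0) (XT.nd (nat_lit 78) (nat_lit 0) (nat_lit 0) (XT.lf (nat_lit 0) (nat_lit 54155689892) (nat_lit 152) (nat_lit 80397648851) (nat_lit 0) (nat_lit 10508819674) (nat_lit 4) (nat_lit 5) (nat_lit 6) (nat_lit 4) (nat_lit 4) (nat_lit 4) (nat_lit 334) (nat_lit 250) (nat_lit 136)) (XT.lf (nat_lit 0) (nat_lit 62838778503) (nat_lit 152) (nat_lit 69873101510)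 (nat_lit 0) (nat_lit 19183894735) (nat_lit 4) (nat_lit 5) (nat_lit 6) (nat_lit 4) (nat_lit 4) (nat_lit 4) (nat_lit 335) (nat_lit 250) (nat_lit 135))) (XT.nd (nat_lit 78) (nat_lit 0) (nat_lit 0) (XT.lf (nat_lit 0) (nat_lit 71953127312) (nat_lit 152) (nat_lit 58827481668) (nat_lit 0) (nat_lit 28290611592) (nat_lit 4) (nat_lit 5) (nat_lit 6) (nat_lit 4) (nat_lit 4) (nat_lit 4) (nat_lit 336) (nat_lit 250) (nat_lit 134)) (XT.lf (nat_lit 0) (nat_lit 81520437150) (nat_lit 152) (nat_lit 47234490230) (nat_lit 0) (nat_lit 37850652904) (nat_lit 4) (nat_lit 5) (nat_lit 6) (nat_lit 4) (nat_lit 4) (nat_lit 4) (nat_lit 337) (nat_lit 250) (nat_lit 133)))) (XT.nd (nat_lit 156) (nat_lit 76) (nat_lit 0) (XT.nd (nat_lit 78) (nat_lit 0) (nat_lit 0) (XT.lf (nat_lit 0) (nat_lit 91563487327) (nat_lit 152) (nat_lit 35066524835) (nat_lit 0) (nat_lit 47886780674) (nat_lit 4) (nat_lit 5) (nat_lit 6) (nat_lit 4)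 (nat_lit 4) (nat_lit 4) (nat_lit 338) (nat_lit 250) (nat_lit 132)) (XT.lf (nat_lit 0) (nat_lit 102106189865) (nat_lit 152) (nat_lit 22294614138) (nat_lit 0) (nat_lit 58422890445) (nat_lit 4) (nat_lit 5) (nat_lit 6) (nat_lit 4) (nat_lit 4) (nat_lit 4) (nat_lit 339) (nat_lit 250) (nat_lit 131))) (XT.nd (nat_lit 78) (nat_lit 76) (nat_lit 0) (XT.lf (nat_lit 0) (nat_lit 113173646439) (nat_lit 152) (nat_lit 8888348827) (nat_lit 0) (nat_lit 69484068192) (nat_lit 4) (nat_lit 5) (nat_lit 6) (nat_lit 4) (nat_lit 4) (nat_lit 4) (nat_lit 340) (nat_lit 250) (nat_lit 130)) (XT.nd (nat_lit 78) (nat_lit 0) (nat_lit 0) (XT.lf (nat_lit 0) (nat_lit 5355603535) (nat_lit 76) (nat_lit 119520220579) (nat_lit 76) (nat_lit 75824662498) (nat_lit 3) (nat_lit 4) (nat_lit 4) (nat_lit 5) (nat_lit 4) (nat_lit 4) (nat_lit 341) (nat_lit 250) (nat_lit 129)) (XT.lf (nat_lit 0) (nat_lit 20616363089) (nat_lit 76) (nat_lit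 116695054310) (nat_lit 76) (nat_lit 72993801148) (nat_lit 3) (nat_lit 4) (nat_lit 4) (nat_lit 5) (nat_lit 4) (nat_lit 4) (nat_lit 342) (nat_lit 250) (nat_lit 128))))))) (XT.nd (nat_lit 702) (nat_lit 76) (nat_lit 0) (XT.nd (nat_lit 312) (nat_lit 0) (nat_lit 0) (XT.nd (nat_lit 156) (nat_lit 0) (nat_lit 0) (XT.nd (nat_lit 78) (nat_lit 0) (nat_lit 0) (XT.lf (nat_lit 0) (nat_lit 36636376024) (nat_lit 76) (nat_lit 113730298360) (nat_lit 76) (nat_lit 70023621312) (nat_lit 3) (nat_lit 4) (nat_lit 4) (nat_lit 5) (nat_lit 4) (nat_lit 4) (nat_lit 343) (nat_lit 250) (nat_lit 127)) (XT.lf (nat_lit 0) (nat_lit 53453785226) (nat_lit 76) (nat_lit 110618893786) (nat_lit 76) (nat_lit 66907051132) (nat_lit 3) (nat_lit 4) (nat_lit 4) (nat_lit 5) (nat_lit 4) (nat_lit 4) (nat_lit 344) (nat_lit 250) (nat_lit 126))) (XT.nd (nat_lit 78) (nat_lit 0) (nat_lit 0) (XT.lf (nat_lit 0) (nat_lit 71108632146) (nat_lit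 76) (nat_lit 107353432483) (nat_lit 76) (nat_lit 63636670205) (nat_lit 3) (nat_lit 4) (nat_lit 4) (nat_lit 5) (nat_lit 4) (nat_lit 4) (nat_lit 345) (nat_lit 250) (nat_lit 125)) (XT.lf (nat_lit 0) (nat_lit 89642952135) (nat_lit 76) (nat_lit 103926139543) (nat_lit 76) (nat_lit 60204691908) (nat_lit 3) (nat_lit 4) (nat_lit 4) (nat_lit 5) (nat_lit 4) (nat_lit 4) (nat_lit 346) (nat_lit 250) (nat_lit 124)))) (XT.nd (nat_lit 156) (nat_lit 0) (nat_lit 0) (XT.nd (nat_lit 78) (nat_lit 0) (nat_lit 0) (XT.lf (nat_lit 0) (nat_lit 109100874525) (nat_lit 76) (nat_lit 100328854745) (nat_lit 76) (nat_lit 56602944865) (nat_lit 3) (nat_lit 4) (nat_lit 4) (nat_lit 5) (nat_lit 4) (nat_lit 4) (nat_lit 347) (nat_lit 250) (nat_lit 123)) (XT.lf (nat_lit 0) (nat_lit 129528727703) (nat_lit 76) (nat_lit 96553013124) (nat_lit 76) (nat_lit 52822853487) (nat_lit 3) (nat_lit 4) (nat_lit 4) (nat_lit 5) (nat_lit 4)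 (nat_lit 4) (nat_lit 348) (nat_lit 250) (nat_lit 122))) (XT.nd (nat_lit 78) (nat_lit 0) (nat_lit 0) (XT.lf (nat_lit 0) (nat_lit 150975149414) (nat_lit 76) (nat_lit 92589624582) (nat_lit 76) (nat_lit 48855417558) (nat_lit 3) (nat_lit 4) (nat_lit 4) (nat_lit 5) (nat_lit 4) (nat_lit 4) (nat_lit 349) (nat_lit 250) (nat_lit 121)) (XT.nd (nat_lit 78) (nat_lit 0) (nat_lit 0) (XT.lf (nat_lit 0) (nat_lit 173491202569) (nat_lit 76) (nat_lit 88429252478) (nat_lit 76) (nat_lit 44691190800) (nat_lit 3) (nat_lit 4) (nat_lit 4) (nat_lit 5) (nat_lit 4) (nat_lit 4) (nat_lit 350) (nat_lit 250) (nat_lit 120)) (XT.lf (nat_lit 0) (nat_lit 197130496816) (nat_lit 76) (nat_lit 84061991167) (nat_lit 76) (nat_lit 40320258388) (nat_lit 3) (nat_lit 4) (nat_lit 4) (nat_lit 5) (nat_lit 4) (nat_lit 4) (nat_lit 351) (nat_lit 250) (nat_lit 119)))))) (XT.nd (nat_lit 312) (nat_lit 76) (nat_lit 0) (XT.nd (nat_lit 156)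 (nat_lit 0) (nat_lit 0) (XT.nd (nat_lit 78) (nat_lit 0) (nat_lit 0) (XT.lf (nat_lit 0) (nat_lit 221949316190) (nat_lit 76) (nat_lit 79477442405) (nat_lit 76) (nat_lit 35732213341) (nat_lit 3) (nat_lit 4) (nat_lit 4) (nat_lit 5) (nat_lit 4) (nat_lit 4) (nat_lit 352) (nat_lit 250) (nat_lit 118)) (XT.lf (nat_lit 0) (nat_lit 248006753118) (nat_lit 76) (nat_lit 74664690601) (nat_lit 76) (nat_lit 30916131742) (nat_lit 3) (nat_lit 4) (nat_lit 4) (nat_lit 5) (nat_lit 4) (nat_lit 4) (nat_lit 353) (nat_lit 250) (nat_lit 117))) (XT.nd (nat_lit 78) (nat_lit 0) (nat_lit 0) (XT.lf (nat_lit 0) (nat_lit 275364849116) (nat_lit 76) (nat_lit 69612276822) (nat_lit 76) (nat_lit 25860546729) (nat_lit 3) (nat_lit 4) (nat_lit 4) (nat_lit 5) (nat_lit 4) (nat_lit 4) (nat_lit 354) (nat_lit 250) (nat_lit 116)) (XT.lf (nat_lit 0) (nat_lit 304088742508) (nat_lit 76) (nat_lit 64308171511) (nat_lit 76) (nat_lit 20553421195)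 (nat_lit 3) (nat_lit 4) (nat_lit 4) (nat_lit 5) (nat_lit 4) (nat_lit 4) (nat_lit 355) (nat_lit 250) (nat_lit 115)))) (XT.nd (nat_lit 156) (nat_lit 76) (nat_lit 0) (XT.nd (nat_lit 78) (nat_lit 0) (nat_lit 0) (XT.lf (nat_lit 0) (nat_lit 334246823517) (nat_lit 76) (nat_lit 58739745847) (nat_lit 76) (nat_lit 14982119128) (nat_lit 3) (nat_lit 4) (nat_lit 4) (nat_lit 5) (nat_lit 4) (nat_lit 4) (nat_lit 356) (nat_lit 250) (nat_lit 114)) (XT.lf (nat_lit 0) (nat_lit 365910897098) (nat_lit 76) (nat_lit 52893741672) (nat_lit 76) (nat_lit 9133375522) (nat_lit 3) (nat_lit 4) (nat_lit 4) (nat_lit 5) (nat_lit 4) (nat_lit 4) (nat_lit 357) (nat_lit 250) (nat_lit 113))) (XT.nd (nat_lit 78) (nat_lit 76) (nat_lit 0) (XT.lf (nat_lit 0) (nat_lit 399156353901) (nat_lit 76) (nat_lit 46756239930) (nat_lit 76) (nat_lit 2993264798) (nat_lit 3) (nat_lit 4) (nat_lit 4) (nat_lit 5) (nat_lit 4) (nat_lit 4) (nat_lit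 358) (nat_lit 250) (nat_lit 112)) (XT.nd (nat_lit 29094) (nat_lit 0) (nat_lit 6156) (XT.lf (nat_lit 0) (nat_lit 3342320156) (nat_lit 152) (nat_lit 36913703554) (nat_lit 76) (nat_lit 430663425810) (nat_lit 2) (nat_lit 5) (nat_lit 4) (nat_lit 5) (nat_lit 3) (nat_lit 4) (nat_lit 359) (nat_lit 250) (nat_lit 111)) (XT.lf (nat_lit 0) (nat_lit 189062571) (nat_lit 0) (nat_lit 189062571) (nat_lit 532) (nat_lit 3569422309) (nat_lit 83) (nat_lit 5) (nat_lit 83) (nat_lit 3) (nat_lit 90) (nat_lit 3) (nat_lit 251) (nat_lit 251) (nat_lit 218))))))))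
noncomputable def xc146 : XT := (XT.nd (nat_lit 1326) (nat_lit 2128) (nat_lit 0) (XT.nd (nat_lit 624) (nat_lit 1596) (nat_lit 0) (XT.nd (nat_lit 312) (nat_lit 456) (nat_lit 0) (XT.nd (nat_lit 156) (nat_lit 0) (nat_lit 0) (XT.nd (nat_lit 78) (nat_lit 0) (nat_lit 0) (XT.lf (nat_lit 0) (nat_lit 1933536405) (nat_lit 532) (nat_lit 4203474967) (nat_lit 608) (nat_lit 1892290768) (nat_lit 83) (nat_lit 5) (nat_lit 90) (nat_lit 3) (nat_lit 91) (nat_lit 5) (nat_lit 252) (nat_lit 251) (nat_lit 217)) (XT.lf (nat_lit 0) (nat_lit 3104252135) (nat_lit 532) (nat_lit 771112329) (nat_lit 608) (nat_lit 4298463145) (nat_lit 83) (nat_lit 5) (nat_lit 90) (nat_lit 3) (nat_lit 91) (nat_lit 5) (nat_lit 253) (nat_lit 251) (nat_lit 216))) (XT.nd (nat_lit 78) (nat_lit 0) (nat_lit 76) (XT.lf (nat_lit 76) (nat_lit 2886582709) (nat_lit 0) (nat_lit 1423766239) (nat_lit 608) (nat_lit 4016708273) (nat_lit 84) (nat_lit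 5) (nat_lit 83) (nat_lit 5) (nat_lit 91) (nat_lit 5) (nat_lit 254) (nat_lit 251) (nat_lit 215)) (XT.lf (nat_lit 0) (nat_lit 5542846877) (nat_lit 532) (nat_lit 1793600333) (nat_lit 608) (nat_lit 1153501177) (nat_lit 84) (nat_lit 5) (nat_lit 91) (nat_lit 5) (nat_lit 92) (nat_lit 5) (nat_lit 255) (nat_lit 251) (nat_lit 214)))) (XT.nd (nat_lit 156) (nat_lit 532) (nat_lit 0) (XT.nd (nat_lit 78) (nat_lit 0) (nat_lit 0) (XT.lf (nat_lit 76) (nat_lit 2037427020) (nat_lit 0) (nat_lit 4792656750) (nat_lit 608) (nat_lit 1831535007) (nat_lit 85) (nat_lit 5) (nat_lit 84) (nat_lit 5) (nat_lit 92) (nat_lit 5) (nat_lit 256) (nat_lit 251) (nat_lit 213)) (XT.lf (nat_lit 76) (nat_lit 6082861139) (nat_lit 0) (nat_lit 2069499292) (nat_lit 608) (nat_lit 691254902) (nat_lit 85) (nat_lit 5) (nat_lit 84) (nat_lit 5) (nat_lit 92) (nat_lit 5) (nat_lit 257) (nat_lit 251) (nat_lit 212))) (XT.nd (nat_lit 78) (nat_lit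 0) (nat_lit 0) (XT.lf (nat_lit 0) (nat_lit 465011057) (nat_lit 608) (nat_lit 7760020211) (nat_lit 684) (nat_lit 810777833) (nat_lit 77) (nat_lit 5) (nat_lit 85) (nat_lit 5) (nat_lit 86) (nat_lit 5) (nat_lit 258) (nat_lit 251) (nat_lit 211)) (XT.lf (nat_lit 0) (nat_lit 1681681770) (nat_lit 608) (nat_lit 3713656175) (nat_lit 684) (nat_lit 3840655790) (nat_lit 77) (nat_lit 5) (nat_lit 85) (nat_lit 5) (nat_lit 86) (nat_lit 5) (nat_lit 259) (nat_lit 251) (nat_lit 210))))) (XT.nd (nat_lit 312) (nat_lit 1064) (nat_lit 0) (XT.nd (nat_lit 156) (nat_lit 532) (nat_lit 0) (XT.nd (nat_lit 78) (nat_lit 0) (nat_lit 76) (XT.lf (nat_lit 76) (nat_lit 511036815) (nat_lit 0) (nat_lit 2403151496) (nat_lit 684) (nat_lit 6534476686) (nat_lit 78) (nat_lit 5) (nat_lit 77) (nat_lit 5) (nat_lit 86) (nat_lit 5) (nat_lit 260) (nat_lit 251) (nat_lit 209)) (XT.lf (nat_lit 0) (nat_lit 4232880246) (nat_lit 608) (nat_lit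 4648137202) (nat_lit 76) (nat_lit 789941051) (nat_lit 78) (nat_lit 5) (nat_lit 86) (nat_lit 5) (nat_lit 79) (nat_lit 5) (nat_lit 261) (nat_lit 251) (nat_lit 208))) (XT.nd (nat_lit 78) (nat_lit 608) (nat_lit 0) (XT.lf (nat_lit 0) (nat_lit 5608430481) (nat_lit 608) (nat_lit 224179870) (nat_lit 76) (nat_lit 4072416499) (nat_lit 78) (nat_lit 5) (nat_lit 86) (nat_lit 5) (nat_lit 79) (nat_lit 5) (nat_lit 262) (nat_lit 251) (nat_lit 207)) (XT.lf (nat_lit 0) (nat_lit 4527195503) (nat_lit 608) (nat_lit 2550080913) (nat_lit 684) (nat_lit 3072492825) (nat_lit 70) (nat_lit 5) (nat_lit 78) (nat_lit 5) (nat_lit 79) (nat_lit 5) (nat_lit 263) (nat_lit 251) (nat_lit 206)))) (XT.nd (nat_lit 156) (nat_lit 380) (nat_lit 0) (XT.nd (nat_lit 78) (nat_lit 684) (nat_lit 0) (XT.lf (nat_lit 0) (nat_lit 8592963226) (nat_lit 684) (nat_lit 937267792) (nat_lit 76) (nat_lit 878034980) (nat_lit 70) (nat_lit 5) (nat_lit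 79) (nat_lit 5) (nat_lit 71) (nat_lit 5) (nat_lit 264) (nat_lit 251) (nat_lit 205)) (XT.lf (nat_lit 0) (nat_lit 4030872664) (nat_lit 684) (nat_lit 6215958294) (nat_lit 760) (nat_lit 429915068) (nat_lit 61) (nat_lit 5) (nat_lit 70) (nat_lit 5) (nat_lit 71) (nat_lit 5) (nat_lit 265) (nat_lit 251) (nat_lit 204))) (XT.nd (nat_lit 78) (nat_lit 304) (nat_lit 0) (XT.lf (nat_lit 0) (nat_lit 966323509) (nat_lit 760) (nat_lit 1733714067) (nat_lit 76) (nat_lit 8259255232) (nat_lit 60) (nat_lit 5) (nat_lit 70) (nat_lit 5) (nat_lit 61) (nat_lit 5) (nat_lit 266) (nat_lit 251) (nat_lit 203)) (XT.nd (nat_lit 78) (nat_lit 0) (nat_lit 0) (XT.lf (nat_lit 0) (nat_lit 2449190594) (nat_lit 380) (nat_lit 7780489380) (nat_lit 76) (nat_lit 1024525327) (nat_lit 56) (nat_lit 5) (nat_lit 61) (nat_lit 5) (nat_lit 57) (nat_lit 5) (nat_lit 267) (nat_lit 251) (nat_lit 202)) (XT.lf (nat_lit 0) (nat_lit 4041877642)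 (nat_lit 380) (nat_lit 2644589271) (nat_lit 76) (nat_lit 4875759332) (nat_lit 56) (nat_lit 5) (nat_lit 61) (nat_lit 5) (nat_lit 57) (nat_lit 5) (nat_lit 268) (nat_lit 251) (nat_lit 201))))))) (XT.nd (nat_lit 702) (nat_lit 912) (nat_lit 0) (XT.nd (nat_lit 312) (nat_lit 608) (nat_lit 0) (XT.nd (nat_lit 156) (nat_lit 304) (nat_lit 0) (XT.nd (nat_lit 78) (nat_lit 0) (nat_lit 0) (XT.lf (nat_lit 0) (nat_lit 2800444489) (nat_lit 304) (nat_lit 2920878366) (nat_lit 380) (nat_lit 6164108863) (nat_lit 52) (nat_lit 5) (nat_lit 56) (nat_lit 5) (nat_lit 57) (nat_lit 5) (nat_lit 269) (nat_lit 251) (nat_lit 200)) (XT.lf (nat_lit 0) (nat_lit 7510941076) (nat_lit 380) (nat_lit 3668452397) (nat_lit 76) (nat_lit 1044226975) (nat_lit 52) (nat_lit 5) (nat_lit 57) (nat_lit 5) (nat_lit 53) (nat_lit 5) (nat_lit 270) (nat_lit 251) (nat_lit 199))) (XT.nd (nat_lit 78) (nat_lit 0) (nat_lit 0) (XT.lf (nat_lit 0)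 (nat_lit 1998242814) (nat_lit 304) (nat_lit 7437118115) (nat_lit 380) (nat_lit 3141218337) (nat_lit 48) (nat_lit 5) (nat_lit 52) (nat_lit 5) (nat_lit 53) (nat_lit 5) (nat_lit 271) (nat_lit 251) (nat_lit 198)) (XT.lf (nat_lit 0) (nat_lit 8039486383) (nat_lit 304) (nat_lit 3445925009) (nat_lit 380) (nat_lit 1460424807) (nat_lit 48) (nat_lit 5) (nat_lit 52) (nat_lit 5) (nat_lit 53) (nat_lit 5) (nat_lit 272) (nat_lit 251) (nat_lit 197)))) (XT.nd (nat_lit 156) (nat_lit 228) (nat_lit 0) (XT.nd (nat_lit 78) (nat_lit 0) (nat_lit 0) (XT.lf (nat_lit 0) (nat_lit 291070630) (nat_lit 380) (nat_lit 12303860951) (nat_lit 76) (nat_lit 738675942) (nat_lit 43) (nat_lit 5) (nat_lit 48) (nat_lit 5) (nat_lit 44) (nat_lit 5) (nat_lit 273) (nat_lit 251) (nat_lit 196)) (XT.lf (nat_lit 0) (nat_lit 2191124898) (nat_lit 380) (nat_lit 6422013047) (nat_lit 76) (nat_lit 5121033428) (nat_lit 43) (nat_lit 5) (nat_lit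 48) (nat_lit 5) (nat_lit 44) (nat_lit 5) (nat_lit 274) (nat_lit 251) (nat_lit 195))) (XT.nd (nat_lit 78) (nat_lit 228) (nat_lit 0) (XT.lf (nat_lit 0) (nat_lit 4156772137) (nat_lit 380) (nat_lit 280921564) (nat_lit 76) (nat_lit 9718639464) (nat_lit 43) (nat_lit 5) (nat_lit 48) (nat_lit 5) (nat_lit 44) (nat_lit 5) (nat_lit 275) (nat_lit 251) (nat_lit 194)) (XT.nd (nat_lit 78) (nat_lit 0) (nat_lit 0) (XT.lf (nat_lit 0) (nat_lit 6292334610) (nat_lit 304) (nat_lit 8260003295) (nat_lit 76) (nat_lit 43778036) (nat_lit 40) (nat_lit 5) (nat_lit 44) (nat_lit 5) (nat_lit 41) (nat_lit 5) (nat_lit 276) (nat_lit 251) (nat_lit 193)) (XT.lf (nat_lit 0) (nat_lit 8584989112) (nat_lit 304) (nat_lit 1870743471) (nat_lit 76) (nat_lit 4599729610) (nat_lit 40) (nat_lit 5) (nat_lit 44) (nat_lit 5) (nat_lit 41) (nat_lit 5) (nat_lit 277) (nat_lit 251) (nat_lit 192)))))) (XT.nd (nat_lit 312) (nat_lit 380) (nat_lit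 0) (XT.nd (nat_lit 156) (nat_lit 304) (nat_lit 0) (XT.nd (nat_lit 78) (nat_lit 0) (nat_lit 0) (XT.lf (nat_lit 0) (nat_lit 4964475512) (nat_lit 228) (nat_lit 6079338103) (nat_lit 304) (nat_lit 4491471026) (nat_lit 37) (nat_lit 5) (nat_lit 40) (nat_lit 5) (nat_lit 41) (nat_lit 5) (nat_lit 278) (nat_lit 251) (nat_lit 191)) (XT.lf (nat_lit 0) (nat_lit 12174527931) (nat_lit 228) (nat_lit 1457500359) (nat_lit 304) (nat_lit 2406829138) (nat_lit 37) (nat_lit 5) (nat_lit 40) (nat_lit 5) (nat_lit 41) (nat_lit 5) (nat_lit 279) (nat_lit 251) (nat_lit 190))) (XT.nd (nat_lit 78) (nat_lit 76) (nat_lit 0) (XT.lf (nat_lit 0) (nat_lit 3195189778) (nat_lit 228) (nat_lit 13233231756) (nat_lit 304) (nat_lit 135326703) (nat_lit 34) (nat_lit 5) (nat_lit 37) (nat_lit 5) (nat_lit 38) (nat_lit 5) (nat_lit 280) (nat_lit 251) (nat_lit 189)) (XT.lf (nat_lit 0) (nat_lit 2244233390) (nat_lit 304) (nat_lit 6461747812)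 (nat_lit 76) (nat_lit 8403892252) (nat_lit 33) (nat_lit 5) (nat_lit 37) (nat_lit 5) (nat_lit 34) (nat_lit 5) (nat_lit 281) (nat_lit 251) (nat_lit 188)))) (XT.nd (nat_lit 156) (nat_lit 152) (nat_lit 0) (XT.nd (nat_lit 78) (nat_lit 0) (nat_lit 0) (XT.lf (nat_lit 0) (nat_lit 782869190) (nat_lit 228) (nat_lit 3944794377) (nat_lit 304) (nat_lit 12956125630) (nat_lit 30) (nat_lit 5) (nat_lit 33) (nat_lit 5) (nat_lit 34) (nat_lit 5) (nat_lit 282) (nat_lit 251) (nat_lit 187)) (XT.lf (nat_lit 0) (nat_lit 7440670015) (nat_lit 304) (nat_lit 9716065921) (nat_lit 76) (nat_lit 1124458538) (nat_lit 30) (nat_lit 5) (nat_lit 34) (nat_lit 5) (nat_lit 31) (nat_lit 5) (nat_lit 283) (nat_lit 251) (nat_lit 186))) (XT.nd (nat_lit 78) (nat_lit 152) (nat_lit 0) (XT.lf (nat_lit 0) (nat_lit 10332771743) (nat_lit 304) (nat_lit 2266099074) (nat_lit 76) (nat_lit 6307487889) (nat_lit 30) (nat_lit 5) (nat_lit 34)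 (nat_lit 5) (nat_lit 31) (nat_lit 5) (nat_lit 284) (nat_lit 251) (nat_lit 185)) (XT.nd (nat_lit 78) (nat_lit 0) (nat_lit 0) (XT.lf (nat_lit 0) (nat_lit 5711098668) (nat_lit 152) (nat_lit 7727332999) (nat_lit 228) (nat_lit 6120959863) (nat_lit 28) (nat_lit 5) (nat_lit 30) (nat_lit 5) (nat_lit 31) (nat_lit 5) (nat_lit 285) (nat_lit 251) (nat_lit 184)) (XT.lf (nat_lit 0) (nat_lit 14138224425) (nat_lit 152) (nat_lit 2579846031) (nat_lit 228) (nat_lit 3526126020) (nat_lit 28) (nat_lit 5) (nat_lit 30) (nat_lit 5) (nat_lit 31) (nat_lit 5) (nat_lit 286) (nat_lit 251) (nat_lit 183))))))))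
noncomputable def xc147 : XT := (XT.nd (nat_lit 1326) (nat_lit 532) (nat_lit 0) (XT.nd (nat_lit 624) (nat_lit 456) (nat_lit 0) (XT.nd (nat_lit 312) (nat_lit 152) (nat_lit 0) (XT.nd (nat_lit 156) (nat_lit 152) (nat_lit 0) (XT.nd (nat_lit 78) (nat_lit 76) (nat_lit 0) (XT.lf (nat_lit 0) (nat_lit 2016743588) (nat_lit 228) (nat_lit 18201678798) (nat_lit 304) (nat_lit 742035364) (nat_lit 25) (nat_lit 5) (nat_lit 28) (nat_lit 5) (nat_lit 29) (nat_lit 5) (nat_lit 287) (nat_lit 251) (nat_lit 182)) (XT.lf (nat_lit 0) (nat_lit 2240110105) (nat_lit 304) (nat_lit 11055216640) (nat_lit 76) (nat_lit 8409117101) (nat_lit 24) (nat_lit 5) (nat_lit 28) (nat_lit 5) (nat_lit 25) (nat_lit 5) (nat_lit 288) (nat_lit 251) (nat_lit 181))) (XT.nd (nat_lit 78) (nat_lit 152) (nat_lit 0) (XT.lf (nat_lit 0) (nat_lit 5328586416) (nat_lit 304) (nat_lit 2810546528) (nat_lit 76) (nat_lit 14346825509) (nat_lit 24) (nat_lit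 5) (nat_lit 28) (nat_lit 5) (nat_lit 25) (nat_lit 5) (nat_lit 289) (nat_lit 251) (nat_lit 180)) (XT.lf (nat_lit 0) (nat_lit 6013997056) (nat_lit 152) (nat_lit 2634395141) (nat_lit 228) (nat_lit 14654354618) (nat_lit 22) (nat_lit 5) (nat_lit 24) (nat_lit 5) (nat_lit 25) (nat_lit 5) (nat_lit 290) (nat_lit 251) (nat_lit 179)))) (XT.nd (nat_lit 156) (nat_lit 152) (nat_lit 0) (XT.nd (nat_lit 78) (nat_lit 0) (nat_lit 0) (XT.lf (nat_lit 0) (nat_lit 12214992459) (nat_lit 228) (nat_lit 8855733713) (nat_lit 76) (nat_lit 3085649458) (nat_lit 22) (nat_lit 5) (nat_lit 25) (nat_lit 5) (nat_lit 23) (nat_lit 5) (nat_lit 291) (nat_lit 251) (nat_lit 178)) (XT.lf (nat_lit 0) (nat_lit 15987218703) (nat_lit 228) (nat_lit 68245154) (nat_lit 76) (nat_lit 8995896513) (nat_lit 22) (nat_lit 5) (nat_lit 25) (nat_lit 5) (nat_lit 23) (nat_lit 5) (nat_lit 292) (nat_lit 251) (nat_lit 177))) (XT.nd (nat_lit 78) (nat_lit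 0) (nat_lit 0) (XT.lf (nat_lit 0) (nat_lit 9437838575) (nat_lit 152) (nat_lit 10642434663) (nat_lit 228) (nat_lit 5904247672) (nat_lit 20) (nat_lit 5) (nat_lit 22) (nat_lit 5) (nat_lit 23) (nat_lit 5) (nat_lit 293) (nat_lit 251) (nat_lit 176)) (XT.lf (nat_lit 0) (nat_lit 19399115309) (nat_lit 152) (nat_lit 4965256513) (nat_lit 228) (nat_lit 2600683717) (nat_lit 20) (nat_lit 5) (nat_lit 22) (nat_lit 5) (nat_lit 23) (nat_lit 5) (nat_lit 294) (nat_lit 251) (nat_lit 175))))) (XT.nd (nat_lit 312) (nat_lit 76) (nat_lit 0) (XT.nd (nat_lit 156) (nat_lit 152) (nat_lit 0) (XT.nd (nat_lit 78) (nat_lit 0) (nat_lit 0) (XT.lf (nat_lit 0) (nat_lit 871574273) (nat_lit 228) (nat_lit 26120522973) (nat_lit 76) (nat_lit 1000309375) (nat_lit 17) (nat_lit 5) (nat_lit 20) (nat_lit 5) (nat_lit 18) (nat_lit 5) (nat_lit 295) (nat_lit 251) (nat_lit 174)) (XT.lf (nat_lit 0) (nat_lit 4627578533) (nat_lit 228) (nat_lit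 17168753695) (nat_lit 76) (nat_lit 7262815429) (nat_lit 17) (nat_lit 5) (nat_lit 20) (nat_lit 5) (nat_lit 18) (nat_lit 5) (nat_lit 296) (nat_lit 251) (nat_lit 173))) (XT.nd (nat_lit 78) (nat_lit 152) (nat_lit 0) (XT.lf (nat_lit 0) (nat_lit 8557956673) (nat_lit 228) (nat_lit 7790513875) (nat_lit 76) (nat_lit 13831455824) (nat_lit 17) (nat_lit 5) (nat_lit 20) (nat_lit 5) (nat_lit 18) (nat_lit 5) (nat_lit 297) (nat_lit 251) (nat_lit 172)) (XT.lf (nat_lit 0) (nat_lit 2103862361) (nat_lit 152) (nat_lit 10601051562) (nat_lit 228) (nat_lit 18650855009) (nat_lit 15) (nat_lit 5) (nat_lit 17) (nat_lit 5) (nat_lit 18) (nat_lit 5) (nat_lit 298) (nat_lit 251) (nat_lit 171)))) (XT.nd (nat_lit 156) (nat_lit 76) (nat_lit 0) (XT.nd (nat_lit 78) (nat_lit 0) (nat_lit 0) (XT.lf (nat_lit 0) (nat_lit 12743638544) (nat_lit 152) (nat_lit 4435029588) (nat_lit 228) (nat_lit 15405789618) (nat_lit 15) (nat_lit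 5) (nat_lit 17) (nat_lit 5) (nat_lit 18) (nat_lit 5) (nat_lit 299) (nat_lit 251) (nat_lit 170)) (XT.lf (nat_lit 0) (nat_lit 21895948176) (nat_lit 228) (nat_lit 10010373577) (nat_lit 76) (nat_lit 1967292673) (nat_lit 15) (nat_lit 5) (nat_lit 18) (nat_lit 5) (nat_lit 16) (nat_lit 4) (nat_lit 300) (nat_lit 251) (nat_lit 169))) (XT.nd (nat_lit 78) (nat_lit 0) (nat_lit 0) (XT.lf (nat_lit 0) (nat_lit 227742872) (nat_lit 76) (nat_lit 26686180966) (nat_lit 152) (nat_lit 8310087631) (nat_lit 14) (nat_lit 5) (nat_lit 15) (nat_lit 5) (nat_lit 16) (nat_lit 4) (nat_lit 301) (nat_lit 251) (nat_lit 168)) (XT.nd (nat_lit 78) (nat_lit 0) (nat_lit 0) (XT.lf (nat_lit 0) (nat_lit 11307164799) (nat_lit 76) (nat_lit 21033995593) (nat_lit 152) (nat_lit 4292872834) (nat_lit 14) (nat_lit 5) (nat_lit 15) (nat_lit 5) (nat_lit 16) (nat_lit 4) (nat_lit 302) (nat_lit 251) (nat_lit 167)) (XT.lf (nat_lit 0) (nat_lit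 22923283623) (nat_lit 76) (nat_lit 15105838570) (nat_lit 152) (nat_lit 85987582) (nat_lit 14) (nat_lit 5) (nat_lit 15) (nat_lit 5) (nat_lit 16) (nat_lit 4) (nat_lit 303) (nat_lit 251) (nat_lit 166))))))) (XT.nd (nat_lit 702) (nat_lit 228) (nat_lit 0) (XT.nd (nat_lit 312) (nat_lit 76) (nat_lit 0) (XT.nd (nat_lit 156) (nat_lit 0) (nat_lit 0) (XT.nd (nat_lit 78) (nat_lit 152) (nat_lit 0) (XT.lf (nat_lit 0) (nat_lit 4182298830) (nat_lit 152) (nat_lit 4634467151) (nat_lit 76) (nat_lit 30850628683) (nat_lit 13) (nat_lit 5) (nat_lit 15) (nat_lit 5) (nat_lit 14) (nat_lit 5) (nat_lit 304) (nat_lit 251) (nat_lit 165)) (XT.lf (nat_lit 0) (nat_lit 6646053417) (nat_lit 152) (nat_lit 2108994861) (nat_lit 228) (nat_lit 32537497010) (nat_lit 11) (nat_lit 5) (nat_lit 13) (nat_lit 5) (nat_lit 14) (nat_lit 5) (nat_lit 305) (nat_lit 251) (nat_lit 164))) (XT.nd (nat_lit 78) (nat_lit 0) (nat_lit 0) (XT.lf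 (nat_lit 0) (nat_lit 13703545770) (nat_lit 228) (nat_lit 24438009494) (nat_lit 76) (nat_lit 4850060646) (nat_lit 11) (nat_lit 5) (nat_lit 14) (nat_lit 5) (nat_lit 12) (nat_lit 4) (nat_lit 306) (nat_lit 251) (nat_lit 163)) (XT.lf (nat_lit 0) (nat_lit 18924804504) (nat_lit 228) (nat_lit 13769063192) (nat_lit 76) (nat_lit 12080522688) (nat_lit 11) (nat_lit 5) (nat_lit 14) (nat_lit 5) (nat_lit 12) (nat_lit 4) (nat_lit 307) (nat_lit 251) (nat_lit 162)))) (XT.nd (nat_lit 156) (nat_lit 0) (nat_lit 0) (XT.nd (nat_lit 78) (nat_lit 76) (nat_lit 0) (XT.lf (nat_lit 0) (nat_lit 24398328728) (nat_lit 228) (nat_lit 2581323392) (nat_lit 76) (nat_lit 19667107656) (nat_lit 11) (nat_lit 5) (nat_lit 14) (nat_lit 5) (nat_lit 12) (nat_lit 4) (nat_lit 308) (nat_lit 251) (nat_lit 161)) (XT.lf (nat_lit 0) (nat_lit 9454448785) (nat_lit 76) (nat_lit 20830312298) (nat_lit 152) (nat_lit 18321040503) (nat_lit 10)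 (nat_lit 5) (nat_lit 11) (nat_lit 5) (nat_lit 12) (nat_lit 4) (nat_lit 309) (nat_lit 251) (nat_lit 160))) (XT.nd (nat_lit 78) (nat_lit 0) (nat_lit 0) (XT.lf (nat_lit 0) (nat_lit 22167896373) (nat_lit 76) (nat_lit 14333140724) (nat_lit 152) (nat_lit 14159997094) (nat_lit 10) (nat_lit 5) (nat_lit 11) (nat_lit 5) (nat_lit 12) (nat_lit 4) (nat_lit 310) (nat_lit 251) (nat_lit 159)) (XT.nd (nat_lit 78) (nat_lit 0) (nat_lit 0) (XT.lf (nat_lit 0) (nat_lit 35503939274) (nat_lit 76) (nat_lit 7516383902) (nat_lit 152) (nat_lit 9799109535) (nat_lit 10) (nat_lit 5) (nat_lit 11) (nat_lit 5) (nat_lit 12) (nat_lit 4) (nat_lit 311) (nat_lit 251) (nat_lit 158)) (XT.lf (nat_lit 0) (nat_lit 49494329972) (nat_lit 76) (nat_lit 363811460) (nat_lit 152) (nat_lit 5227994762) (nat_lit 10) (nat_lit 5) (nat_lit 11) (nat_lit 5) (nat_lit 12) (nat_lit 4) (nat_lit 312) (nat_lit 251) (nat_lit 157)))))) (XT.nd (nat_lit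 312) (nat_lit 76) (nat_lit 0) (XT.nd (nat_lit 156) (nat_lit 0) (nat_lit 0) (XT.nd (nat_lit 78) (nat_lit 76) (nat_lit 0) (XT.lf (nat_lit 0) (nat_lit 6812375436) (nat_lit 76) (nat_lit 50436257711) (nat_lit 76) (nat_lit 207015364) (nat_lit 9) (nat_lit 4) (nat_lit 10) (nat_lit 5) (nat_lit 10) (nat_lit 4) (nat_lit 313) (nat_lit 251) (nat_lit 156)) (XT.lf (nat_lit 0) (nat_lit 4997991985) (nat_lit 152) (nat_lit 40006800500) (nat_lit 76) (nat_lit 14930147055) (nat_lit 8) (nat_lit 5) (nat_lit 10) (nat_lit 5) (nat_lit 9) (nat_lit 4) (nat_lit 314) (nat_lit 251) (nat_lit 155))) (XT.nd (nat_lit 78) (nat_lit 0) (nat_lit 0) (XT.lf (nat_lit 0) (nat_lit 10449506443) (nat_lit 152) (nat_lit 28853521311) (nat_lit 76) (nat_lit 23235348038) (nat_lit 8) (nat_lit 5) (nat_lit 10) (nat_lit 5) (nat_lit 9) (nat_lit 4) (nat_lit 315) (nat_lit 251) (nat_lit 154)) (XT.lf (nat_lit 0) (nat_lit 16167133591) (nat_lit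 152) (nat_lit 17153647993) (nat_lit 76) (nat_lit 31951535947) (nat_lit 8) (nat_lit 5) (nat_lit 10) (nat_lit 5) (nat_lit 9) (nat_lit 4) (nat_lit 316) (nat_lit 251) (nat_lit 153)))) (XT.nd (nat_lit 156) (nat_lit 0) (nat_lit 0) (XT.nd (nat_lit 78) (nat_lit 76) (nat_lit 0) (XT.lf (nat_lit 0) (nat_lit 22164486826) (nat_lit 152) (nat_lit 4879323704) (nat_lit 76) (nat_lit 41099463611) (nat_lit 8) (nat_lit 5) (nat_lit 10) (nat_lit 5) (nat_lit 9) (nat_lit 4) (nat_lit 317) (nat_lit 251) (nat_lit 152)) (XT.lf (nat_lit 0) (nat_lit 8263148494) (nat_lit 76) (nat_lit 20321707972) (nat_lit 152) (nat_lit 42566774222) (nat_lit 7) (nat_lit 5) (nat_lit 8) (nat_lit 5) (nat_lit 9) (nat_lit 4) (nat_lit 318) (nat_lit 251) (nat_lit 151))) (XT.nd (nat_lit 78) (nat_lit 0) (nat_lit 0) (XT.lf (nat_lit 0) (nat_lit 22222264688) (nat_lit 76) (nat_lit 13180876362) (nat_lit 152) (nat_lit 38903428277) (nat_lit 7) (nat_lit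 5) (nat_lit 8) (nat_lit 5) (nat_lit 9) (nat_lit 4) (nat_lit 319) (nat_lit 251) (nat_lit 150)) (XT.nd (nat_lit 78) (nat_lit 0) (nat_lit 0) (XT.lf (nat_lit 0) (nat_lit 36869928391) (nat_lit 76) (nat_lit 5686947429) (nat_lit 152) (nat_lit 35062660936) (nat_lit 7) (nat_lit 5) (nat_lit 8) (nat_lit 5) (nat_lit 9) (nat_lit 4) (nat_lit 320) (nat_lit 251) (nat_lit 149)) (XT.lf (nat_lit 0) (nat_lit 50097096936) (nat_lit 152) (nat_lit 28891409460) (nat_lit 0) (nat_lit 2108214425) (nat_lit 7) (nat_lit 5) (nat_lit 9) (nat_lit 4) (nat_lit 7) (nat_lit 4) (nat_lit 321) (nat_lit 251) (nat_lit 148))))))))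
noncomputable def xc148 : XT := (XT.nd (nat_lit 1326) (nat_lit 76) (nat_lit 0) (XT.nd (nat_lit 624) (nat_lit 76) (nat_lit 0) (XT.nd (nat_lit 312) (nat_lit 76) (nat_lit 0) (XT.nd (nat_lit 156) (nat_lit 76) (nat_lit 0) (XT.nd (nat_lit 78) (nat_lit 0) (nat_lit 0) (XT.lf (nat_lit 0) (nat_lit 58102545849) (nat_lit 152) (nat_lit 16542262659) (nat_lit 0) (nat_lit 10098552594) (nat_lit 7) (nat_lit 5) (nat_lit 9) (nat_lit 4) (nat_lit 7) (nat_lit 4) (nat_lit 322) (nat_lit 251) (nat_lit 147)) (XT.lf (nat_lit 0) (nat_lit 66503493966) (nat_lit 152) (nat_lit 3583976046) (nat_lit 0) (nat_lit 18485109526) (nat_lit 7) (nat_lit 5) (nat_lit 9) (nat_lit 4) (nat_lit 7) (nat_lit 4) (nat_lit 323) (nat_lit 251) (nat_lit 146))) (XT.nd (nat_lit 78) (nat_lit 0) (nat_lit 0) (XT.lf (nat_lit 0) (nat_lit 10345421540) (nat_lit 76) (nat_lit 65136043027) (nat_lit 76) (nat_lit 17103952697) (nat_lit 6) (nat_lit 4) (nat_lit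 7) (nat_lit 5) (nat_lit 7) (nat_lit 4) (nat_lit 324) (nat_lit 251) (nat_lit 145)) (XT.lf (nat_lit 0) (nat_lit 25087922872) (nat_lit 76) (nat_lit 59876656042) (nat_lit 76) (nat_lit 11831512483) (nat_lit 6) (nat_lit 4) (nat_lit 7) (nat_lit 5) (nat_lit 7) (nat_lit 4) (nat_lit 325) (nat_lit 251) (nat_lit 144)))) (XT.nd (nat_lit 156) (nat_lit 76) (nat_lit 0) (XT.nd (nat_lit 78) (nat_lit 0) (nat_lit 0) (XT.lf (nat_lit 0) (nat_lit 40560126709) (nat_lit 76) (nat_lit 54357483075) (nat_lit 76) (nat_lit 6299907870) (nat_lit 6) (nat_lit 4) (nat_lit 7) (nat_lit 5) (nat_lit 7) (nat_lit 4) (nat_lit 326) (nat_lit 251) (nat_lit 143)) (XT.lf (nat_lit 0) (nat_lit 56798871632) (nat_lit 76) (nat_lit 48565383240) (nat_lit 76) (nat_lit 495968371) (nat_lit 6) (nat_lit 4) (nat_lit 7) (nat_lit 5) (nat_lit 7) (nat_lit 4) (nat_lit 327) (nat_lit 251) (nat_lit 142))) (XT.nd (nat_lit 78) (nat_lit 0) (nat_lit 0) (XT.lf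 (nat_lit 0) (nat_lit 5415077982) (nat_lit 152) (nat_lit 36979780874) (nat_lit 76) (nat_lit 68336036371) (nat_lit 5) (nat_lit 5) (nat_lit 7) (nat_lit 5) (nat_lit 6) (nat_lit 4) (nat_lit 328) (nat_lit 251) (nat_lit 141)) (XT.lf (nat_lit 0) (nat_lit 11601281457) (nat_lit 152) (nat_lit 24308802674) (nat_lit 76) (nat_lit 79934801831) (nat_lit 5) (nat_lit 5) (nat_lit 7) (nat_lit 5) (nat_lit 6) (nat_lit 4) (nat_lit 329) (nat_lit 251) (nat_lit 140))))) (XT.nd (nat_lit 312) (nat_lit 0) (nat_lit 0) (XT.nd (nat_lit 156) (nat_lit 0) (nat_lit 0) (XT.nd (nat_lit 78) (nat_lit 76) (nat_lit 0) (XT.lf (nat_lit 0) (nat_lit 18093245193) (nat_lit 152) (nat_lit 11010504561) (nat_lit 76) (nat_lit 92111009036) (nat_lit 5) (nat_lit 5) (nat_lit 7) (nat_lit 5) (nat_lit 6) (nat_lit 4) (nat_lit 330) (nat_lit 251) (nat_lit 139)) (XT.lf (nat_lit 0) (nat_lit 3044209804) (nat_lit 76) (nat_lit 21909745089) (nat_lit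 152) (nat_lit 101896967797) (nat_lit 4) (nat_lit 5) (nat_lit 5) (nat_lit 5) (nat_lit 6) (nat_lit 4) (nat_lit 331) (nat_lit 251) (nat_lit 138))) (XT.nd (nat_lit 78) (nat_lit 0) (nat_lit 0) (XT.lf (nat_lit 0) (nat_lit 18178083050) (nat_lit 76) (nat_lit 14162774249) (nat_lit 152) (nat_lit 100418884217) (nat_lit 4) (nat_lit 5) (nat_lit 5) (nat_lit 5) (nat_lit 6) (nat_lit 4) (nat_lit 332) (nat_lit 251) (nat_lit 137)) (XT.lf (nat_lit 0) (nat_lit 34063091202) (nat_lit 76) (nat_lit 6030860288) (nat_lit 152) (nat_lit 98870211832) (nat_lit 4) (nat_lit 5) (nat_lit 5) (nat_lit 5) (nat_lit 6) (nat_lit 4) (nat_lit 333) (nat_lit 251) (nat_lit 136)))) (XT.nd (nat_lit 156) (nat_lit 0) (nat_lit 0) (XT.nd (nat_lit 78) (nat_lit 0) (nat_lit 0) (XT.lf (nat_lit 0) (nat_lit 48270812881) (nat_lit 152) (nat_lit 94781020501) (nat_lit 0) (nat_lit 2425171375) (nat_lit 4) (nat_lit 5) (nat_lit 6) (nat_lit 4) (nat_lit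 4) (nat_lit 4) (nat_lit 334) (nat_lit 251) (nat_lit 135)) (XT.lf (nat_lit 0) (nat_lit 56952489671) (nat_lit 152) (nat_lit 84258987729) (nat_lit 0) (nat_lit 11099216212) (nat_lit 4) (nat_lit 5) (nat_lit 6) (nat_lit 4) (nat_lit 4) (nat_lit 4) (nat_lit 335) (nat_lit 251) (nat_lit 134))) (XT.nd (nat_lit 78) (nat_lit 0) (nat_lit 0) (XT.lf (nat_lit 0) (nat_lit 66065493890) (nat_lit 152) (nat_lit 73215762714) (nat_lit 0) (nat_lit 20204951904) (nat_lit 4) (nat_lit 5) (nat_lit 6) (nat_lit 4) (nat_lit 4) (nat_lit 4) (nat_lit 336) (nat_lit 251) (nat_lit 133)) (XT.nd (nat_lit 78) (nat_lit 0) (nat_lit 0) (XT.lf (nat_lit 0) (nat_lit 75631523165) (nat_lit 152) (nat_lit 61625052064) (nat_lit 0) (nat_lit 29764058774) (nat_lit 4) (nat_lit 5) (nat_lit 6) (nat_lit 4) (nat_lit 4) (nat_lit 4) (nat_lit 337) (nat_lit 251) (nat_lit 132)) (XT.lf (nat_lit 0) (nat_lit 85673353758) (nat_lit 152) (nat_lit 49459258849)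 (nat_lit 0) (nat_lit 39799296599) (nat_lit 4) (nat_lit 5) (nat_lit 6) (nat_lit 4) (nat_lit 4) (nat_lit 4) (nat_lit 338) (nat_lit 251) (nat_lit 131))))))) (XT.nd (nat_lit 702) (nat_lit 0) (nat_lit 0) (XT.nd (nat_lit 312) (nat_lit 0) (nat_lit 0) (XT.nd (nat_lit 156) (nat_lit 76) (nat_lit 0) (XT.nd (nat_lit 78) (nat_lit 0) (nat_lit 0) (XT.lf (nat_lit 0) (nat_lit 96214894788) (nat_lit 152) (nat_lit 36689416894) (nat_lit 0) (nat_lit 50334558803) (nat_lit 4) (nat_lit 5) (nat_lit 6) (nat_lit 4) (nat_lit 4) (nat_lit 4) (nat_lit 339) (nat_lit 251) (nat_lit 130)) (XT.lf (nat_lit 0) (nat_lit 107281245163) (nat_lit 152) (nat_lit 23285121813) (nat_lit 0) (nat_lit 61394929344) (nat_lit 4) (nat_lit 5) (nat_lit 6) (nat_lit 4) (nat_lit 4) (nat_lit 4) (nat_lit 340) (nat_lit 251) (nat_lit 129))) (XT.nd (nat_lit 78) (nat_lit 76) (nat_lit 0) (XT.lf (nat_lit 0) (nat_lit 118898753337) (nat_lit 152) (nat_lit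 9214458620) (nat_lit 0) (nat_lit 73006742437) (nat_lit 4) (nat_lit 5) (nat_lit 6) (nat_lit 4) (nat_lit 4) (nat_lit 4) (nat_lit 341) (nat_lit 251) (nat_lit 128)) (XT.lf (nat_lit 0) (nat_lit 5739783173) (nat_lit 76) (nat_lit 125444910970) (nat_lit 76) (nat_lit 79547476183) (nat_lit 3) (nat_lit 4) (nat_lit 4) (nat_lit 5) (nat_lit 4) (nat_lit 4) (nat_lit 342) (nat_lit 251) (nat_lit 127)))) (XT.nd (nat_lit 156) (nat_lit 0) (nat_lit 0) (XT.nd (nat_lit 78) (nat_lit 0) (nat_lit 0) (XT.lf (nat_lit 0) (nat_lit 21758037874) (nat_lit 76) (nat_lit 122480930227) (nat_lit 76) (nat_lit 76578329834) (nat_lit 3) (nat_lit 4) (nat_lit 4) (nat_lit 5) (nat_lit 4) (nat_lit 4) (nat_lit 343) (nat_lit 251) (nat_lit 126)) (XT.lf (nat_lit 0) (nat_lit 38573772568) (nat_lit 76) (nat_lit 119370263946) (nat_lit 76) (nat_lit 73462743929) (nat_lit 3) (nat_lit 4) (nat_lit 4) (nat_lit 5) (nat_lit 4) (nat_lit 4) (nat_lit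 344) (nat_lit 251) (nat_lit 125))) (XT.nd (nat_lit 78) (nat_lit 0) (nat_lit 0) (XT.lf (nat_lit 0) (nat_lit 56227024718) (nat_lit 76) (nat_lit 116105505778) (nat_lit 76) (nat_lit 70193300405) (nat_lit 3) (nat_lit 4) (nat_lit 4) (nat_lit 5) (nat_lit 4) (nat_lit 4) (nat_lit 345) (nat_lit 251) (nat_lit 124)) (XT.nd (nat_lit 78) (nat_lit 0) (nat_lit 0) (XT.lf (nat_lit 0) (nat_lit 74759825879) (nat_lit 76) (nat_lit 112678882491) (nat_lit 76) (nat_lit 66762214873) (nat_lit 3) (nat_lit 4) (nat_lit 4) (nat_lit 5) (nat_lit 4) (nat_lit 4) (nat_lit 346) (nat_lit 251) (nat_lit 123)) (XT.lf (nat_lit 0) (nat_lit 94216301765) (nat_lit 76) (nat_lit 109082235457) (nat_lit 76) (nat_lit 63161318082) (nat_lit 3) (nat_lit 4) (nat_lit 4) (nat_lit 5) (nat_lit 4) (nat_lit 4) (nat_lit 347) (nat_lit 251) (nat_lit 122)))))) (XT.nd (nat_lit 312) (nat_lit 0) (nat_lit 0) (XT.nd (nat_lit 156) (nat_lit 0) (nat_lit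 0) (XT.nd (nat_lit 78) (nat_lit 0) (nat_lit 0) (XT.lf (nat_lit 0) (nat_lit 114642777321) (nat_lit 76) (nat_lit 105307001231) (nat_lit 76) (nat_lit 59382036469) (nat_lit 3) (nat_lit 4) (nat_lit 4) (nat_lit 5) (nat_lit 4) (nat_lit 4) (nat_lit 348) (nat_lit 251) (nat_lit 121)) (XT.lf (nat_lit 0) (nat_lit 136087887012) (nat_lit 76) (nat_lit 101344191160) (nat_lit 76) (nat_lit 55415371743) (nat_lit 3) (nat_lit 4) (nat_lit 4) (nat_lit 5) (nat_lit 4) (nat_lit 4) (nat_lit 349) (nat_lit 251) (nat_lit 120))) (XT.nd (nat_lit 78) (nat_lit 0) (nat_lit 0) (XT.lf (nat_lit 0) (nat_lit 158602690622) (nat_lit 76) (nat_lit 97184369982) (nat_lit 76) (nat_lit 51251879465) (nat_lit 3) (nat_lit 4) (nat_lit 4) (nat_lit 5) (nat_lit 4) (nat_lit 4) (nat_lit 350) (nat_lit 251) (nat_lit 119)) (XT.lf (nat_lit 0) (nat_lit 182240794828) (nat_lit 76) (nat_lit 92817633361) (nat_lit 76) (nat_lit 46881646559) (nat_lit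 3) (nat_lit 4) (nat_lit 4) (nat_lit 5) (nat_lit 4) (nat_lit 4) (nat_lit 351) (nat_lit 251) (nat_lit 118)))) (XT.nd (nat_lit 156) (nat_lit 0) (nat_lit 0) (XT.nd (nat_lit 78) (nat_lit 0) (nat_lit 0) (XT.lf (nat_lit 0) (nat_lit 207058480829) (nat_lit 76) (nat_lit 88233584305) (nat_lit 76) (nat_lit 42294267707) (nat_lit 3) (nat_lit 4) (nat_lit 4) (nat_lit 5) (nat_lit 4) (nat_lit 4) (nat_lit 352) (nat_lit 251) (nat_lit 117)) (XT.lf (nat_lit 0) (nat_lit 233114838353) (nat_lit 76) (nat_lit 83421308411) (nat_lit 76) (nat_lit 37478820579) (nat_lit 3) (nat_lit 4) (nat_lit 4) (nat_lit 5) (nat_lit 4) (nat_lit 4) (nat_lit 353) (nat_lit 251) (nat_lit 116))) (XT.nd (nat_lit 78) (nat_lit 0) (nat_lit 0) (XT.lf (nat_lit 0) (nat_lit 260471906349) (nat_lit 76) (nat_lit 78369347879) (nat_lit 76) (nat_lit 32423839825) (nat_lit 3) (nat_lit 4) (nat_lit 4) (nat_lit 5) (nat_lit 4) (nat_lit 4) (nat_lit 354) (nat_lit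 251) (nat_lit 115)) (XT.nd (nat_lit 78) (nat_lit 0) (nat_lit 0) (XT.lf (nat_lit 0) (nat_lit 289194820691) (nat_lit 76) (nat_lit 73065674233) (nat_lit 76) (nat_lit 27117289775) (nat_lit 3) (nat_lit 4) (nat_lit 4) (nat_lit 5) (nat_lit 4) (nat_lit 4) (nat_lit 355) (nat_lit 251) (nat_lit 114)) (XT.lf (nat_lit 0) (nat_lit 319351969271) (nat_lit 76) (nat_lit 67497659677) (nat_lit 76) (nat_lit 21546535789) (nat_lit 3) (nat_lit 4) (nat_lit 4) (nat_lit 5) (nat_lit 4) (nat_lit 4) (nat_lit 356) (nat_lit 251) (nat_lit 113))))))))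
noncomputable def xc149 : XT := (XT.nd (nat_lit 30420) (nat_lit 0) (nat_lit 2052) (XT.nd (nat_lit 29718) (nat_lit 0) (nat_lit 4408) (XT.nd (nat_lit 29406) (nat_lit 0) (nat_lit 6080) (XT.nd (nat_lit 156) (nat_lit 0) (nat_lit 0) (XT.nd (nat_lit 78) (nat_lit 0) (nat_lit 0) (XT.lf (nat_lit 0) (nat_lit 351015154824) (nat_lit 76) (nat_lit 61652047035) (nat_lit 76) (nat_lit 15698314164) (nat_lit 3) (nat_lit 4) (nat_lit 4) (nat_lit 5) (nat_lit 4) (nat_lit 4) (nat_lit 357) (nat_lit 251) (nat_lit 112)) (XT.lf (nat_lit 0) (nat_lit 384259765887) (nat_lit 76) (nat_lit 55514918180) (nat_lit 76) (nat_lit 9558700565) (nat_lit 3) (nat_lit 4) (nat_lit 4) (nat_lit 5) (nat_lit 4) (nat_lit 4) (nat_lit 358) (nat_lit 251) (nat_lit 111))) (XT.nd (nat_lit 29172) (nat_lit 0) (nat_lit 6080) (XT.lf (nat_lit 0) (nat_lit 419164956295) (nat_lit 76) (nat_lit 49071660902) (nat_lit 76) (nat_lit 3113076863) (nat_lit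 3) (nat_lit 4) (nat_lit 4) (nat_lit 5) (nat_lit 4) (nat_lit 4) (nat_lit 359) (nat_lit 251) (nat_lit 110)) (XT.lf (nat_lit 0) (nat_lit 753640701) (nat_lit 0) (nat_lit 753640701) (nat_lit 532) (nat_lit 2576961763) (nat_lit 83) (nat_lit 5) (nat_lit 83) (nat_lit 3) (nat_lit 90) (nat_lit 3) (nat_lit 252) (nat_lit 252) (nat_lit 216)))) (XT.nd (nat_lit 156) (nat_lit 0) (nat_lit 0) (XT.nd (nat_lit 78) (nat_lit 0) (nat_lit 0) (XT.lf (nat_lit 0) (nat_lit 4128466453) (nat_lit 532) (nat_lit 3224174968) (nat_lit 608) (nat_lit 963367146) (nat_lit 83) (nat_lit 5) (nat_lit 90) (nat_lit 3) (nat_lit 91) (nat_lit 5) (nat_lit 253) (nat_lit 252) (nat_lit 215)) (XT.lf (nat_lit 76) (nat_lit 333849461) (nat_lit 0) (nat_lit 4929164013) (nat_lit 608) (nat_lit 3209950919) (nat_lit 84) (nat_lit 5) (nat_lit 83) (nat_lit 5) (nat_lit 91) (nat_lit 5) (nat_lit 254) (nat_lit 252) (nat_lit 214))) (XT.nd (nat_lit 78)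 (nat_lit 0) (nat_lit 76) (XT.lf (nat_lit 76) (nat_lit 4145472498) (nat_lit 0) (nat_lit 2300972843) (nat_lit 608) (nat_lit 2192005165) (nat_lit 84) (nat_lit 5) (nat_lit 83) (nat_lit 5) (nat_lit 91) (nat_lit 5) (nat_lit 255) (nat_lit 252) (nat_lit 213)) (XT.lf (nat_lit 0) (nat_lit 7637127070) (nat_lit 532) (nat_lit 709847555) (nat_lit 608) (nat_lit 468108928) (nat_lit 84) (nat_lit 5) (nat_lit 91) (nat_lit 5) (nat_lit 92) (nat_lit 5) (nat_lit 256) (nat_lit 252) (nat_lit 212))))) (XT.nd (nat_lit 312) (nat_lit 1140) (nat_lit 0) (XT.nd (nat_lit 156) (nat_lit 0) (nat_lit 76) (XT.nd (nat_lit 78) (nat_lit 608) (nat_lit 0) (XT.lf (nat_lit 76) (nat_lit 3293804830) (nat_lit 0) (nat_lit 5626415685) (nat_lit 608) (nat_lit 78947229) (nat_lit 85) (nat_lit 5) (nat_lit 84) (nat_lit 5) (nat_lit 92) (nat_lit 5) (nat_lit 257) (nat_lit 252) (nat_lit 211)) (XT.lf (nat_lit 0) (nat_lit 997546141) (nat_lit 608)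 (nat_lit 1724368567) (nat_lit 684) (nat_lit 6472094089) (nat_lit 76) (nat_lit 5) (nat_lit 84) (nat_lit 5) (nat_lit 85) (nat_lit 5) (nat_lit 258) (nat_lit 252) (nat_lit 210))) (XT.nd (nat_lit 78) (nat_lit 0) (nat_lit 0) (XT.lf (nat_lit 0) (nat_lit 2117609642) (nat_lit 608) (nat_lit 6907147492) (nat_lit 684) (nat_lit 374377638) (nat_lit 77) (nat_lit 5) (nat_lit 85) (nat_lit 5) (nat_lit 86) (nat_lit 5) (nat_lit 259) (nat_lit 252) (nat_lit 209)) (XT.lf (nat_lit 0) (nat_lit 3317525889) (nat_lit 608) (nat_lit 2717554479) (nat_lit 684) (nat_lit 3578460879) (nat_lit 77) (nat_lit 5) (nat_lit 85) (nat_lit 5) (nat_lit 86) (nat_lit 5) (nat_lit 260) (nat_lit 252) (nat_lit 208)))) (XT.nd (nat_lit 156) (nat_lit 1216) (nat_lit 0) (XT.nd (nat_lit 78) (nat_lit 0) (nat_lit 76) (XT.lf (nat_lit 76) (nat_lit 1699312120) (nat_lit 0) (nat_lit 2856605675) (nat_lit 684) (nat_lit 5284032618) (nat_lit 78) (nat_lit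 5) (nat_lit 77) (nat_lit 5) (nat_lit 86) (nat_lit 5) (nat_lit 261) (nat_lit 252) (nat_lit 207)) (XT.lf (nat_lit 0) (nat_lit 5864349376) (nat_lit 608) (nat_lit 3690948831) (nat_lit 76) (nat_lit 522172359) (nat_lit 78) (nat_lit 5) (nat_lit 86) (nat_lit 5) (nat_lit 79) (nat_lit 5) (nat_lit 262) (nat_lit 252) (nat_lit 206))) (XT.nd (nat_lit 78) (nat_lit 684) (nat_lit 0) (XT.lf (nat_lit 0) (nat_lit 927236328) (nat_lit 608) (nat_lit 6328306832) (nat_lit 684) (nat_lit 3070643711) (nat_lit 70) (nat_lit 5) (nat_lit 78) (nat_lit 5) (nat_lit 79) (nat_lit 5) (nat_lit 263) (nat_lit 252) (nat_lit 205)) (XT.nd (nat_lit 78) (nat_lit 684) (nat_lit 0) (XT.lf (nat_lit 0) (nat_lit 5868229765) (nat_lit 608) (nat_lit 2868136901) (nat_lit 684) (nat_lit 1850147085) (nat_lit 70) (nat_lit 5) (nat_lit 78) (nat_lit 5) (nat_lit 79) (nat_lit 5) (nat_lit 264) (nat_lit 252) (nat_lit 204)) (XT.lf (nat_lit 0) (nat_lit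 152554849) (nat_lit 684) (nat_lit 10112677756) (nat_lit 760) (nat_lit 596094079) (nat_lit 61) (nat_lit 5) (nat_lit 70) (nat_lit 5) (nat_lit 71) (nat_lit 5) (nat_lit 265) (nat_lit 252) (nat_lit 203))))))) (XT.nd (nat_lit 702) (nat_lit 988) (nat_lit 0) (XT.nd (nat_lit 312) (nat_lit 988) (nat_lit 0) (XT.nd (nat_lit 156) (nat_lit 304) (nat_lit 0) (XT.nd (nat_lit 78) (nat_lit 0) (nat_lit 0) (XT.lf (nat_lit 0) (nat_lit 786065511) (nat_lit 760) (nat_lit 5812395868) (nat_lit 76) (nat_lit 4546586817) (nat_lit 60) (nat_lit 5) (nat_lit 70) (nat_lit 5) (nat_lit 61) (nat_lit 5) (nat_lit 266) (nat_lit 252) (nat_lit 202)) (XT.lf (nat_lit 0) (nat_lit 2179428607) (nat_lit 760) (nat_lit 716853699) (nat_lit 76) (nat_lit 8548225123) (nat_lit 60) (nat_lit 5) (nat_lit 70) (nat_lit 5) (nat_lit 61) (nat_lit 5) (nat_lit 267) (nat_lit 252) (nat_lit 201))) (XT.nd (nat_lit 78) (nat_lit 0) (nat_lit 0) (XT.lf (nat_lit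 0) (nat_lit 3697291713) (nat_lit 380) (nat_lit 7022524660) (nat_lit 76) (nat_lit 1036521329) (nat_lit 56) (nat_lit 5) (nat_lit 61) (nat_lit 5) (nat_lit 57) (nat_lit 5) (nat_lit 268) (nat_lit 252) (nat_lit 200)) (XT.lf (nat_lit 0) (nat_lit 5316011132) (nat_lit 380) (nat_lit 1684448078) (nat_lit 76) (nat_lit 5082185142) (nat_lit 56) (nat_lit 5) (nat_lit 61) (nat_lit 5) (nat_lit 57) (nat_lit 5) (nat_lit 269) (nat_lit 252) (nat_lit 199)))) (XT.nd (nat_lit 156) (nat_lit 684) (nat_lit 0) (XT.nd (nat_lit 78) (nat_lit 0) (nat_lit 0) (XT.lf (nat_lit 0) (nat_lit 4015218488) (nat_lit 304) (nat_lit 3029940500) (nat_lit 380) (nat_lit 5378759413) (nat_lit 52) (nat_lit 5) (nat_lit 56) (nat_lit 5) (nat_lit 57) (nat_lit 5) (nat_lit 270) (nat_lit 252) (nat_lit 198)) (XT.lf (nat_lit 0) (nat_lit 8875390396) (nat_lit 380) (nat_lit 2775723314) (nat_lit 76) (nat_lit 1130531787) (nat_lit 52) (nat_lit 5) (nat_lit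 57) (nat_lit 5) (nat_lit 53) (nat_lit 5) (nat_lit 271) (nat_lit 252) (nat_lit 197))) (XT.nd (nat_lit 78) (nat_lit 380) (nat_lit 0) (XT.lf (nat_lit 0) (nat_lit 3156949373) (nat_lit 304) (nat_lit 7708522034) (nat_lit 380) (nat_lit 2288485549) (nat_lit 48) (nat_lit 5) (nat_lit 52) (nat_lit 5) (nat_lit 53) (nat_lit 5) (nat_lit 272) (nat_lit 252) (nat_lit 196)) (XT.nd (nat_lit 78) (nat_lit 380) (nat_lit 0) (XT.lf (nat_lit 0) (nat_lit 9449836338) (nat_lit 304) (nat_lit 3522552700) (nat_lit 380) (nat_lit 571737757) (nat_lit 48) (nat_lit 5) (nat_lit 52) (nat_lit 5) (nat_lit 53) (nat_lit 5) (nat_lit 273) (nat_lit 252) (nat_lit 195)) (XT.lf (nat_lit 0) (nat_lit 1210153038) (nat_lit 380) (nat_lit 11847240433) (nat_lit 76) (nat_lit 894615050) (nat_lit 43) (nat_lit 5) (nat_lit 48) (nat_lit 5) (nat_lit 44) (nat_lit 5) (nat_lit 274) (nat_lit 252) (nat_lit 194)))))) (XT.nd (nat_lit 312) (nat_lit 760)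 (nat_lit 0) (XT.nd (nat_lit 156) (nat_lit 0) (nat_lit 0) (XT.nd (nat_lit 78) (nat_lit 228) (nat_lit 0) (XT.lf (nat_lit 0) (nat_lit 3162137215) (nat_lit 380) (nat_lit 5722338876) (nat_lit 76) (nat_lit 5490423491) (nat_lit 43) (nat_lit 5) (nat_lit 48) (nat_lit 5) (nat_lit 44) (nat_lit 5) (nat_lit 275) (nat_lit 252) (nat_lit 193)) (XT.lf (nat_lit 0) (nat_lit 699590108) (nat_lit 228) (nat_lit 4496377553) (nat_lit 304) (nat_lit 9623845216) (nat_lit 40) (nat_lit 5) (nat_lit 43) (nat_lit 5) (nat_lit 44) (nat_lit 5) (nat_lit 276) (nat_lit 252) (nat_lit 192))) (XT.nd (nat_lit 78) (nat_lit 0) (nat_lit 0) (XT.lf (nat_lit 0) (nat_lit 7405751792) (nat_lit 304) (nat_lit 7676565818) (nat_lit 76) (nat_lit 201026865) (nat_lit 40) (nat_lit 5) (nat_lit 44) (nat_lit 5) (nat_lit 41) (nat_lit 5) (nat_lit 277) (nat_lit 252) (nat_lit 191)) (XT.lf (nat_lit 0) (nat_lit 9775000903) (nat_lit 304) (nat_lit 1015292414)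 (nat_lit 76) (nat_lit 4977392211) (nat_lit 40) (nat_lit 5) (nat_lit 44) (nat_lit 5) (nat_lit 41) (nat_lit 5) (nat_lit 278) (nat_lit 252) (nat_lit 190)))) (XT.nd (nat_lit 156) (nat_lit 532) (nat_lit 0) (XT.nd (nat_lit 78) (nat_lit 0) (nat_lit 0) (XT.lf (nat_lit 0) (nat_lit 6146381255) (nat_lit 228) (nat_lit 6188735990) (nat_lit 304) (nat_lit 3937583926) (nat_lit 37) (nat_lit 5) (nat_lit 40) (nat_lit 5) (nat_lit 41) (nat_lit 5) (nat_lit 279) (nat_lit 252) (nat_lit 189)) (XT.lf (nat_lit 0) (nat_lit 13672475250) (nat_lit 228) (nat_lit 1345071550) (nat_lit 304) (nat_lit 1785779498) (nat_lit 37) (nat_lit 5) (nat_lit 40) (nat_lit 5) (nat_lit 41) (nat_lit 5) (nat_lit 280) (nat_lit 252) (nat_lit 188))) (XT.nd (nat_lit 78) (nat_lit 228) (nat_lit 0) (XT.lf (nat_lit 0) (nat_lit 563166048) (nat_lit 304) (nat_lit 13100631106) (nat_lit 76) (nat_lit 3691147512) (nat_lit 33) (nat_lit 5) (nat_lit 37)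 (nat_lit 5) (nat_lit 34) (nat_lit 5) (nat_lit 281) (nat_lit 252) (nat_lit 187)) (XT.nd (nat_lit 78) (nat_lit 228) (nat_lit 0) (XT.lf (nat_lit 0) (nat_lit 3023789081) (nat_lit 304) (nat_lit 5895181102) (nat_lit 76) (nat_lit 9011061795) (nat_lit 33) (nat_lit 5) (nat_lit 37) (nat_lit 5) (nat_lit 34) (nat_lit 5) (nat_lit 282) (nat_lit 252) (nat_lit 186)) (XT.lf (nat_lit 0) (nat_lit 1697317490) (nat_lit 228) (nat_lit 3915960951) (nat_lit 304) (nat_lit 12920364394) (nat_lit 30) (nat_lit 5) (nat_lit 33) (nat_lit 5) (nat_lit 34) (nat_lit 5) (nat_lit 283) (nat_lit 252) (nat_lit 185))))))))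
noncomputable def xc150 : XT := (XT.nd (nat_lit 1326) (nat_lit 532) (nat_lit 0) (XT.nd (nat_lit 624) (nat_lit 532) (nat_lit 0) (XT.nd (nat_lit 312) (nat_lit 456) (nat_lit 0) (XT.nd (nat_lit 156) (nat_lit 152) (nat_lit 0) (XT.nd (nat_lit 78) (nat_lit 0) (nat_lit 0) (XT.lf (nat_lit 0) (nat_lit 8434380974) (nat_lit 304) (nat_lit 9338906334) (nat_lit 76) (nat_lit 1389098029) (nat_lit 30) (nat_lit 5) (nat_lit 34) (nat_lit 5) (nat_lit 31) (nat_lit 5) (nat_lit 284) (nat_lit 252) (nat_lit 184)) (XT.lf (nat_lit 0) (nat_lit 11441484100) (nat_lit 304) (nat_lit 1557534616) (nat_lit 76) (nat_lit 6821354249) (nat_lit 30) (nat_lit 5) (nat_lit 34) (nat_lit 5) (nat_lit 31) (nat_lit 5) (nat_lit 285) (nat_lit 252) (nat_lit 183))) (XT.nd (nat_lit 78) (nat_lit 0) (nat_lit 0) (XT.lf (nat_lit 0) (nat_lit 6805267056) (nat_lit 152) (nat_lit 7881590698) (nat_lit 228) (nat_lit 5820059092) (nat_lit 28) (nat_lit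 5) (nat_lit 30) (nat_lit 5) (nat_lit 31) (nat_lit 5) (nat_lit 286) (nat_lit 252) (nat_lit 182)) (XT.lf (nat_lit 0) (nat_lit 15615243698) (nat_lit 152) (nat_lit 2487782189) (nat_lit 228) (nat_lit 3124385879) (nat_lit 28) (nat_lit 5) (nat_lit 30) (nat_lit 5) (nat_lit 31) (nat_lit 5) (nat_lit 287) (nat_lit 252) (nat_lit 181)))) (XT.nd (nat_lit 156) (nat_lit 152) (nat_lit 0) (XT.nd (nat_lit 78) (nat_lit 76) (nat_lit 0) (XT.lf (nat_lit 0) (nat_lit 2900398963) (nat_lit 228) (nat_lit 18867360066) (nat_lit 304) (nat_lit 212332320) (nat_lit 25) (nat_lit 5) (nat_lit 28) (nat_lit 5) (nat_lit 29) (nat_lit 5) (nat_lit 288) (nat_lit 252) (nat_lit 180)) (XT.lf (nat_lit 0) (nat_lit 2874652294) (nat_lit 304) (nat_lit 10843826926) (nat_lit 76) (nat_lit 9043727998) (nat_lit 24) (nat_lit 5) (nat_lit 28) (nat_lit 5) (nat_lit 25) (nat_lit 5) (nat_lit 289) (nat_lit 252) (nat_lit 179))) (XT.nd (nat_lit 78)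 (nat_lit 152) (nat_lit 0) (XT.lf (nat_lit 0) (nat_lit 6092669722) (nat_lit 304) (nat_lit 2223311430) (nat_lit 76) (nat_lit 15268123967) (nat_lit 24) (nat_lit 5) (nat_lit 28) (nat_lit 5) (nat_lit 25) (nat_lit 5) (nat_lit 290) (nat_lit 252) (nat_lit 178)) (XT.lf (nat_lit 0) (nat_lit 7030721229) (nat_lit 152) (nat_lit 2535225899) (nat_lit 228) (nat_lit 14876472111) (nat_lit 22) (nat_lit 5) (nat_lit 24) (nat_lit 5) (nat_lit 25) (nat_lit 5) (nat_lit 291) (nat_lit 252) (nat_lit 177))))) (XT.nd (nat_lit 312) (nat_lit 380) (nat_lit 0) (XT.nd (nat_lit 156) (nat_lit 0) (nat_lit 0) (XT.nd (nat_lit 78) (nat_lit 152) (nat_lit 0) (XT.lf (nat_lit 0) (nat_lit 13291208889) (nat_lit 228) (nat_lit 8595773339) (nat_lit 76) (nat_lit 3452788225) (nat_lit 22) (nat_lit 5) (nat_lit 25) (nat_lit 5) (nat_lit 23) (nat_lit 5) (nat_lit 292) (nat_lit 252) (nat_lit 176)) (XT.lf (nat_lit 0) (nat_lit 617385699) (nat_lit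 152) (nat_lit 16622134781) (nat_lit 228) (nat_lit 9040665040) (nat_lit 20) (nat_lit 5) (nat_lit 22) (nat_lit 5) (nat_lit 23) (nat_lit 5) (nat_lit 293) (nat_lit 252) (nat_lit 175))) (XT.nd (nat_lit 78) (nat_lit 0) (nat_lit 0) (XT.lf (nat_lit 0) (nat_lit 10568218532) (nat_lit 152) (nat_lit 10948541327) (nat_lit 228) (nat_lit 5744319805) (nat_lit 20) (nat_lit 5) (nat_lit 22) (nat_lit 5) (nat_lit 23) (nat_lit 5) (nat_lit 294) (nat_lit 252) (nat_lit 174)) (XT.lf (nat_lit 0) (nat_lit 20996202530) (nat_lit 152) (nat_lit 4998266892) (nat_lit 228) (nat_lit 2297250997) (nat_lit 20) (nat_lit 5) (nat_lit 22) (nat_lit 5) (nat_lit 23) (nat_lit 5) (nat_lit 295) (nat_lit 252) (nat_lit 173)))) (XT.nd (nat_lit 156) (nat_lit 152) (nat_lit 0) (XT.nd (nat_lit 78) (nat_lit 0) (nat_lit 0) (XT.lf (nat_lit 0) (nat_lit 1328094602) (nat_lit 228) (nat_lit 26777044218) (nat_lit 76) (nat_lit 1265339512) (nat_lit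 17) (nat_lit 5) (nat_lit 20) (nat_lit 5) (nat_lit 18) (nat_lit 5) (nat_lit 296) (nat_lit 252) (nat_lit 172)) (XT.lf (nat_lit 0) (nat_lit 5252235188) (nat_lit 228) (nat_lit 17408615281) (nat_lit 76) (nat_lit 7830732074) (nat_lit 17) (nat_lit 5) (nat_lit 20) (nat_lit 5) (nat_lit 18) (nat_lit 5) (nat_lit 297) (nat_lit 252) (nat_lit 171))) (XT.nd (nat_lit 78) (nat_lit 152) (nat_lit 0) (XT.lf (nat_lit 0) (nat_lit 9360404724) (nat_lit 228) (nat_lit 7590919475) (nat_lit 76) (nat_lit 14718053258) (nat_lit 17) (nat_lit 5) (nat_lit 20) (nat_lit 5) (nat_lit 18) (nat_lit 5) (nat_lit 298) (nat_lit 252) (nat_lit 170)) (XT.nd (nat_lit 78) (nat_lit 0) (nat_lit 0) (XT.lf (nat_lit 0) (nat_lit 2788673636) (nat_lit 152) (nat_lit 10917249940) (nat_lit 228) (nat_lit 19198566821) (nat_lit 15) (nat_lit 5) (nat_lit 17) (nat_lit 5) (nat_lit 18) (nat_lit 5) (nat_lit 299) (nat_lit 252) (nat_lit 169)) (XT.lf (nat_lit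 0) (nat_lit 13932837763) (nat_lit 152) (nat_lit 4453110401) (nat_lit 228) (nat_lit 15809573443) (nat_lit 15) (nat_lit 5) (nat_lit 17) (nat_lit 5) (nat_lit 18) (nat_lit 5) (nat_lit 300) (nat_lit 252) (nat_lit 168))))))) (XT.nd (nat_lit 702) (nat_lit 228) (nat_lit 0) (XT.nd (nat_lit 312) (nat_lit 152) (nat_lit 0) (XT.nd (nat_lit 156) (nat_lit 76) (nat_lit 0) (XT.nd (nat_lit 78) (nat_lit 76) (nat_lit 0) (XT.lf (nat_lit 0) (nat_lit 23325532723) (nat_lit 228) (nat_lit 9970895634) (nat_lit 76) (nat_lit 2253421053) (nat_lit 15) (nat_lit 5) (nat_lit 18) (nat_lit 5) (nat_lit 16) (nat_lit 4) (nat_lit 301) (nat_lit 252) (nat_lit 167)) (XT.lf (nat_lit 0) (nat_lit 770417014) (nat_lit 76) (nat_lit 27816342789) (nat_lit 152) (nat_lit 8381422508) (nat_lit 14) (nat_lit 5) (nat_lit 15) (nat_lit 5) (nat_lit 16) (nat_lit 4) (nat_lit 302) (nat_lit 252) (nat_lit 166))) (XT.nd (nat_lit 78) (nat_lit 76) (nat_lit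 0) (XT.lf (nat_lit 0) (nat_lit 12378510657) (nat_lit 76) (nat_lit 21891269443) (nat_lit 152) (nat_lit 4179735995) (nat_lit 14) (nat_lit 5) (nat_lit 15) (nat_lit 5) (nat_lit 16) (nat_lit 4) (nat_lit 303) (nat_lit 252) (nat_lit 165)) (XT.lf (nat_lit 0) (nat_lit 214783221) (nat_lit 152) (nat_lit 15457542267) (nat_lit 76) (nat_lit 24332920094) (nat_lit 13) (nat_lit 5) (nat_lit 15) (nat_lit 5) (nat_lit 14) (nat_lit 5) (nat_lit 304) (nat_lit 252) (nat_lit 164)))) (XT.nd (nat_lit 156) (nat_lit 0) (nat_lit 0) (XT.nd (nat_lit 78) (nat_lit 152) (nat_lit 0) (XT.lf (nat_lit 0) (nat_lit 4679204663) (nat_lit 152) (nat_lit 4397175689) (nat_lit 76) (nat_lit 32559441033) (nat_lit 13) (nat_lit 5) (nat_lit 15) (nat_lit 5) (nat_lit 14) (nat_lit 5) (nat_lit 305) (nat_lit 252) (nat_lit 163)) (XT.lf (nat_lit 0) (nat_lit 7439806151) (nat_lit 152) (nat_lit 2034285632) (nat_lit 228) (nat_lit 33868489102) (nat_lit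 11) (nat_lit 5) (nat_lit 13) (nat_lit 5) (nat_lit 14) (nat_lit 5) (nat_lit 306) (nat_lit 252) (nat_lit 162))) (XT.nd (nat_lit 78) (nat_lit 0) (nat_lit 0) (XT.lf (nat_lit 0) (nat_lit 14659298181) (nat_lit 228) (nat_lit 25209215737) (nat_lit 76) (nat_lit 5258652021) (nat_lit 11) (nat_lit 5) (nat_lit 14) (nat_lit 5) (nat_lit 12) (nat_lit 4) (nat_lit 307) (nat_lit 252) (nat_lit 161)) (XT.nd (nat_lit 78) (nat_lit 0) (nat_lit 0) (XT.lf (nat_lit 0) (nat_lit 20128735322) (nat_lit 228) (nat_lit 14028283750) (nat_lit 76) (nat_lit 12842728196) (nat_lit 11) (nat_lit 5) (nat_lit 14) (nat_lit 5) (nat_lit 12) (nat_lit 4) (nat_lit 308) (nat_lit 252) (nat_lit 160)) (XT.lf (nat_lit 0) (nat_lit 25863664776) (nat_lit 228) (nat_lit 2301596608) (nat_lit 76) (nat_lit 20801110061) (nat_lit 11) (nat_lit 5) (nat_lit 14) (nat_lit 5) (nat_lit 12) (nat_lit 4) (nat_lit 309) (nat_lit 252) (nat_lit 159)))))) (XT.nd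 (nat_lit 312) (nat_lit 152) (nat_lit 0) (XT.nd (nat_lit 156) (nat_lit 0) (nat_lit 0) (XT.nd (nat_lit 78) (nat_lit 0) (nat_lit 0) (XT.lf (nat_lit 0) (nat_lit 10329370744) (nat_lit 76) (nat_lit 21709640819) (nat_lit 152) (nat_lit 18984645825) (nat_lit 10) (nat_lit 5) (nat_lit 11) (nat_lit 5) (nat_lit 12) (nat_lit 4) (nat_lit 310) (nat_lit 252) (nat_lit 158)) (XT.lf (nat_lit 0) (nat_lit 23659338353) (nat_lit 76) (nat_lit 14895333861) (nat_lit 152) (nat_lit 14627571517) (nat_lit 10) (nat_lit 5) (nat_lit 11) (nat_lit 5) (nat_lit 12) (nat_lit 4) (nat_lit 311) (nat_lit 252) (nat_lit 157))) (XT.nd (nat_lit 78) (nat_lit 0) (nat_lit 0) (XT.lf (nat_lit 0) (nat_lit 37643943059) (nat_lit 76) (nat_lit 7745094622) (nat_lit 152) (nat_lit 10060088410) (nat_lit 10) (nat_lit 5) (nat_lit 11) (nat_lit 5) (nat_lit 12) (nat_lit 4) (nat_lit 312) (nat_lit 252) (nat_lit 156)) (XT.lf (nat_lit 0) (nat_lit 52316481538)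 (nat_lit 76) (nat_lit 241898723) (nat_lit 152) (nat_lit 5271321546) (nat_lit 10) (nat_lit 5) (nat_lit 11) (nat_lit 5) (nat_lit 12) (nat_lit 4) (nat_lit 313) (nat_lit 252) (nat_lit 155)))) (XT.nd (nat_lit 156) (nat_lit 0) (nat_lit 0) (XT.nd (nat_lit 78) (nat_lit 76) (nat_lit 0) (XT.lf (nat_lit 0) (nat_lit 7503241310) (nat_lit 76) (nat_lit 52812833893) (nat_lit 76) (nat_lit 1748444) (nat_lit 9) (nat_lit 4) (nat_lit 10) (nat_lit 5) (nat_lit 10) (nat_lit 4) (nat_lit 314) (nat_lit 252) (nat_lit 154)) (XT.lf (nat_lit 0) (nat_lit 5446669275) (nat_lit 152) (nat_lit 41666675767) (nat_lit 76) (nat_lit 15808078989) (nat_lit 8) (nat_lit 5) (nat_lit 10) (nat_lit 5) (nat_lit 9) (nat_lit 4) (nat_lit 315) (nat_lit 252) (nat_lit 153))) (XT.nd (nat_lit 78) (nat_lit 0) (nat_lit 0) (XT.lf (nat_lit 0) (nat_lit 11161293852) (nat_lit 152) (nat_lit 29971945227) (nat_lit 76) (nat_lit 24522281708) (nat_lit 8)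 (nat_lit 5) (nat_lit 10) (nat_lit 5) (nat_lit 9) (nat_lit 4) (nat_lit 316) (nat_lit 252) (nat_lit 152)) (XT.nd (nat_lit 78) (nat_lit 0) (nat_lit 0) (XT.lf (nat_lit 0) (nat_lit 17155787496) (nat_lit 152) (nat_lit 17702518821) (nat_lit 76) (nat_lit 33668318714) (nat_lit 8) (nat_lit 5) (nat_lit 10) (nat_lit 5) (nat_lit 9) (nat_lit 4) (nat_lit 317) (nat_lit 252) (nat_lit 151)) (XT.lf (nat_lit 0) (nat_lit 23444422811) (nat_lit 152) (nat_lit 4829183630) (nat_lit 76) (nat_lit 43267966287) (nat_lit 8) (nat_lit 5) (nat_lit 10) (nat_lit 5) (nat_lit 9) (nat_lit 4) (nat_lit 318) (nat_lit 252) (nat_lit 150))))))))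
noncomputable def xc151 : XT := (XT.nd (nat_lit 1326) (nat_lit 76) (nat_lit 0) (XT.nd (nat_lit 624) (nat_lit 152) (nat_lit 0) (XT.nd (nat_lit 312) (nat_lit 76) (nat_lit 0) (XT.nd (nat_lit 156) (nat_lit 0) (nat_lit 0) (XT.nd (nat_lit 78) (nat_lit 0) (nat_lit 0) (XT.lf (nat_lit 0) (nat_lit 8965668528) (nat_lit 76) (nat_lit 21216483421) (nat_lit 152) (nat_lit 44518391413) (nat_lit 7) (nat_lit 5) (nat_lit 8) (nat_lit 5) (nat_lit 9) (nat_lit 4) (nat_lit 319) (nat_lit 252) (nat_lit 149)) (XT.lf (nat_lit 0) (nat_lit 23608961360) (nat_lit 76) (nat_lit 13724386895) (nat_lit 152) (nat_lit 40680293481) (nat_lit 7) (nat_lit 5) (nat_lit 8) (nat_lit 5) (nat_lit 9) (nat_lit 4) (nat_lit 320) (nat_lit 252) (nat_lit 148))) (XT.nd (nat_lit 78) (nat_lit 0) (nat_lit 0) (XT.lf (nat_lit 0) (nat_lit 38975885227) (nat_lit 76) (nat_lit 5861263100) (nat_lit 152) (nat_lit 36655502355) (nat_lit 7) (nat_lit 5) (nat_lit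 8) (nat_lit 5) (nat_lit 9) (nat_lit 4) (nat_lit 321) (nat_lit 252) (nat_lit 147)) (XT.lf (nat_lit 0) (nat_lit 52748758087) (nat_lit 152) (nat_lit 30080165242) (nat_lit 0) (nat_lit 2315063240) (nat_lit 7) (nat_lit 5) (nat_lit 9) (nat_lit 4) (nat_lit 7) (nat_lit 4) (nat_lit 322) (nat_lit 252) (nat_lit 146)))) (XT.nd (nat_lit 156) (nat_lit 76) (nat_lit 0) (XT.nd (nat_lit 78) (nat_lit 0) (nat_lit 0) (XT.lf (nat_lit 0) (nat_lit 61147488670) (nat_lit 152) (nat_lit 17125742753) (nat_lit 0) (nat_lit 10700087933) (nat_lit 7) (nat_lit 5) (nat_lit 9) (nat_lit 4) (nat_lit 7) (nat_lit 4) (nat_lit 323) (nat_lit 252) (nat_lit 145)) (XT.lf (nat_lit 0) (nat_lit 69961826310) (nat_lit 152) (nat_lit 3531143383) (nat_lit 0) (nat_lit 19501372344) (nat_lit 7) (nat_lit 5) (nat_lit 9) (nat_lit 4) (nat_lit 7) (nat_lit 4) (nat_lit 324) (nat_lit 252) (nat_lit 144))) (XT.nd (nat_lit 78) (nat_lit 0) (nat_lit 0)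 (XT.lf (nat_lit 0) (nat_lit 11090981639) (nat_lit 76) (nat_lit 68294937192) (nat_lit 76) (nat_lit 17822051580) (nat_lit 6) (nat_lit 4) (nat_lit 7) (nat_lit 5) (nat_lit 7) (nat_lit 4) (nat_lit 325) (nat_lit 252) (nat_lit 143)) (XT.lf (nat_lit 0) (nat_lit 26559737132) (nat_lit 76) (nat_lit 62777243143) (nat_lit 76) (nat_lit 12292517867) (nat_lit 6) (nat_lit 4) (nat_lit 7) (nat_lit 5) (nat_lit 7) (nat_lit 4) (nat_lit 326) (nat_lit 252) (nat_lit 142))))) (XT.nd (nat_lit 312) (nat_lit 76) (nat_lit 0) (XT.nd (nat_lit 156) (nat_lit 76) (nat_lit 0) (XT.nd (nat_lit 78) (nat_lit 0) (nat_lit 0) (XT.lf (nat_lit 0) (nat_lit 42795197918) (nat_lit 76) (nat_lit 56986551800) (nat_lit 76) (nat_lit 6490550654) (nat_lit 6) (nat_lit 4) (nat_lit 7) (nat_lit 5) (nat_lit 7) (nat_lit 4) (nat_lit 327) (nat_lit 252) (nat_lit 141)) (XT.lf (nat_lit 0) (nat_lit 59836019855) (nat_lit 76) (nat_lit 50909075803) (nat_lit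 76) (nat_lit 402335734) (nat_lit 6) (nat_lit 4) (nat_lit 7) (nat_lit 5) (nat_lit 7) (nat_lit 4) (nat_lit 328) (nat_lit 252) (nat_lit 140))) (XT.nd (nat_lit 78) (nat_lit 0) (nat_lit 0) (XT.lf (nat_lit 0) (nat_lit 5795013332) (nat_lit 152) (nat_lit 38637190284) (nat_lit 76) (nat_lit 71829621642) (nat_lit 5) (nat_lit 5) (nat_lit 7) (nat_lit 5) (nat_lit 6) (nat_lit 4) (nat_lit 329) (nat_lit 252) (nat_lit 139)) (XT.lf (nat_lit 0) (nat_lit 12285327864) (nat_lit 152) (nat_lit 25341786014) (nat_lit 76) (nat_lit 84004669020) (nat_lit 5) (nat_lit 5) (nat_lit 7) (nat_lit 5) (nat_lit 6) (nat_lit 4) (nat_lit 330) (nat_lit 252) (nat_lit 138)))) (XT.nd (nat_lit 156) (nat_lit 0) (nat_lit 0) (XT.nd (nat_lit 78) (nat_lit 76) (nat_lit 0) (XT.lf (nat_lit 0) (nat_lit 19096938247) (nat_lit 152) (nat_lit 11387261414) (nat_lit 76) (nat_lit 96786204343) (nat_lit 5) (nat_lit 5) (nat_lit 7) (nat_lit 5) (nat_lit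 6) (nat_lit 4) (nat_lit 331) (nat_lit 252) (nat_lit 137)) (XT.lf (nat_lit 0) (nat_lit 3367385954) (nat_lit 76) (nat_lit 22931250980) (nat_lit 152) (nat_lit 106889848215) (nat_lit 4) (nat_lit 5) (nat_lit 5) (nat_lit 5) (nat_lit 6) (nat_lit 4) (nat_lit 332) (nat_lit 252) (nat_lit 136))) (XT.nd (nat_lit 78) (nat_lit 0) (nat_lit 0) (XT.lf (nat_lit 0) (nat_lit 19249811640) (nat_lit 76) (nat_lit 14800454520) (nat_lit 152) (nat_lit 105342716073) (nat_lit 4) (nat_lit 5) (nat_lit 5) (nat_lit 5) (nat_lit 6) (nat_lit 4) (nat_lit 333) (nat_lit 252) (nat_lit 135)) (XT.nd (nat_lit 78) (nat_lit 0) (nat_lit 0) (XT.lf (nat_lit 0) (nat_lit 35921316654) (nat_lit 76) (nat_lit 6265300025) (nat_lit 152) (nat_lit 103721234467) (nat_lit 4) (nat_lit 5) (nat_lit 5) (nat_lit 5) (nat_lit 6) (nat_lit 4) (nat_lit 334) (nat_lit 252) (nat_lit 134)) (XT.lf (nat_lit 0) (nat_lit 50769129987) (nat_lit 152) (nat_lit 99369077655)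 (nat_lit 0) (nat_lit 2608292376) (nat_lit 4) (nat_lit 5) (nat_lit 6) (nat_lit 4) (nat_lit 4) (nat_lit 4) (nat_lit 335) (nat_lit 252) (nat_lit 133))))))) (XT.nd (nat_lit 702) (nat_lit 0) (nat_lit 0) (XT.nd (nat_lit 312) (nat_lit 76) (nat_lit 0) (XT.nd (nat_lit 156) (nat_lit 0) (nat_lit 0) (XT.nd (nat_lit 78) (nat_lit 0) (nat_lit 0) (XT.lf (nat_lit 0) (nat_lit 59880853642) (nat_lit 152) (nat_lit 88328133428) (nat_lit 0) (nat_lit 11713093625) (nat_lit 4) (nat_lit 5) (nat_lit 6) (nat_lit 4) (nat_lit 4) (nat_lit 4) (nat_lit 336) (nat_lit 252) (nat_lit 132)) (XT.lf (nat_lit 0) (nat_lit 69445663334) (nat_lit 152) (nat_lit 76739594957) (nat_lit 0) (nat_lit 21271310549) (nat_lit 4) (nat_lit 5) (nat_lit 6) (nat_lit 4) (nat_lit 4) (nat_lit 4) (nat_lit 337) (nat_lit 252) (nat_lit 131))) (XT.nd (nat_lit 78) (nat_lit 0) (nat_lit 0) (XT.lf (nat_lit 0) (nat_lit 79486332418) (nat_lit 152) (nat_lit 64575870484)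 (nat_lit 0) (nat_lit 31305700808) (nat_lit 4) (nat_lit 5) (nat_lit 6) (nat_lit 4) (nat_lit 4) (nat_lit 4) (nat_lit 338) (nat_lit 252) (nat_lit 130)) (XT.lf (nat_lit 0) (nat_lit 90026767250) (nat_lit 152) (nat_lit 51807998759) (nat_lit 0) (nat_lit 41840155805) (nat_lit 4) (nat_lit 5) (nat_lit 6) (nat_lit 4) (nat_lit 4) (nat_lit 4) (nat_lit 339) (nat_lit 252) (nat_lit 129)))) (XT.nd (nat_lit 156) (nat_lit 76) (nat_lit 0) (XT.nd (nat_lit 78) (nat_lit 0) (nat_lit 0) (XT.lf (nat_lit 0) (nat_lit 101092064103) (nat_lit 152) (nat_lit 38405580089) (nat_lit 0) (nat_lit 52899757578) (nat_lit 4) (nat_lit 5) (nat_lit 6) (nat_lit 4) (nat_lit 4) (nat_lit 4) (nat_lit 340) (nat_lit 252) (nat_lit 128)) (XT.lf (nat_lit 0) (nat_lit 112708568922) (nat_lit 152) (nat_lit 24336703953) (nat_lit 0) (nat_lit 64510838510) (nat_lit 4) (nat_lit 5) (nat_lit 6) (nat_lit 4) (nat_lit 4) (nat_lit 4) (nat_lit 341) (nat_lit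 252) (nat_lit 127))) (XT.nd (nat_lit 78) (nat_lit 76) (nat_lit 0) (XT.lf (nat_lit 0) (nat_lit 124903940052) (nat_lit 152) (nat_lit 9567873025) (nat_lit 0) (nat_lit 76701044034) (nat_lit 4) (nat_lit 5) (nat_lit 6) (nat_lit 4) (nat_lit 4) (nat_lit 4) (nat_lit 342) (nat_lit 252) (nat_lit 126)) (XT.nd (nat_lit 78) (nat_lit 0) (nat_lit 0) (XT.lf (nat_lit 0) (nat_lit 6132350074) (nat_lit 76) (nat_lit 131670607186) (nat_lit 76) (nat_lit 83462791544) (nat_lit 3) (nat_lit 4) (nat_lit 4) (nat_lit 5) (nat_lit 4) (nat_lit 4) (nat_lit 343) (nat_lit 252) (nat_lit 125)) (XT.lf (nat_lit 0) (nat_lit 22946489998) (nat_lit 76) (nat_lit 128560644041) (nat_lit 76) (nat_lit 80348143042) (nat_lit 3) (nat_lit 4) (nat_lit 4) (nat_lit 5) (nat_lit 4) (nat_lit 4) (nat_lit 344) (nat_lit 252) (nat_lit 124)))))) (XT.nd (nat_lit 312) (nat_lit 0) (nat_lit 0) (XT.nd (nat_lit 156) (nat_lit 0) (nat_lit 0) (XT.nd (nat_lit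 78) (nat_lit 0) (nat_lit 0) (XT.lf (nat_lit 0) (nat_lit 40598223321) (nat_lit 76) (nat_lit 125296555527) (nat_lit 76) (nat_lit 77079592283) (nat_lit 3) (nat_lit 4) (nat_lit 4) (nat_lit 5) (nat_lit 4) (nat_lit 4) (nat_lit 345) (nat_lit 252) (nat_lit 123)) (XT.lf (nat_lit 0) (nat_lit 59129577978) (nat_lit 76) (nat_lit 121870570004) (nat_lit 76) (nat_lit 73649357003) (nat_lit 3) (nat_lit 4) (nat_lit 4) (nat_lit 5) (nat_lit 4) (nat_lit 4) (nat_lit 346) (nat_lit 252) (nat_lit 122))) (XT.nd (nat_lit 78) (nat_lit 0) (nat_lit 0) (XT.lf (nat_lit 0) (nat_lit 78584676243) (nat_lit 76) (nat_lit 118274530365) (nat_lit 76) (nat_lit 70049269977) (nat_lit 3) (nat_lit 4) (nat_lit 4) (nat_lit 5) (nat_lit 4) (nat_lit 4) (nat_lit 347) (nat_lit 252) (nat_lit 121)) (XT.lf (nat_lit 0) (nat_lit 99009839778) (nat_lit 76) (nat_lit 114499874611) (nat_lit 76) (nat_lit 66270759568) (nat_lit 3) (nat_lit 4) (nat_lit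 4) (nat_lit 5) (nat_lit 4) (nat_lit 4) (nat_lit 348) (nat_lit 252) (nat_lit 120)))) (XT.nd (nat_lit 156) (nat_lit 0) (nat_lit 0) (XT.nd (nat_lit 78) (nat_lit 0) (nat_lit 0) (XT.lf (nat_lit 0) (nat_lit 120453699924) (nat_lit 76) (nat_lit 110537615465) (nat_lit 76) (nat_lit 62304829322) (nat_lit 3) (nat_lit 4) (nat_lit 4) (nat_lit 5) (nat_lit 4) (nat_lit 4) (nat_lit 349) (nat_lit 252) (nat_lit 119)) (XT.lf (nat_lit 0) (nat_lit 142967313493) (nat_lit 76) (nat_lit 106378318977) (nat_lit 76) (nat_lit 58142036549) (nat_lit 3) (nat_lit 4) (nat_lit 4) (nat_lit 5) (nat_lit 4) (nat_lit 4) (nat_lit 350) (nat_lit 252) (nat_lit 118))) (XT.nd (nat_lit 78) (nat_lit 0) (nat_lit 0) (XT.lf (nat_lit 0) (nat_lit 166604284325) (nat_lit 76) (nat_lit 102012082061) (nat_lit 76) (nat_lit 53772469838) (nat_lit 3) (nat_lit 4) (nat_lit 4) (nat_lit 5) (nat_lit 4) (nat_lit 4) (nat_lit 351) (nat_lit 252) (nat_lit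 117)) (XT.nd (nat_lit 78) (nat_lit 0) (nat_lit 0) (XT.lf (nat_lit 0) (nat_lit 191420890923) (nat_lit 76) (nat_lit 97428508915) (nat_lit 76) (nat_lit 49185725457) (nat_lit 3) (nat_lit 4) (nat_lit 4) (nat_lit 5) (nat_lit 4) (nat_lit 4) (nat_lit 352) (nat_lit 252) (nat_lit 116)) (XT.lf (nat_lit 0) (nat_lit 217476220446) (nat_lit 76) (nat_lit 92616686268) (nat_lit 76) (nat_lit 44370882588) (nat_lit 3) (nat_lit 4) (nat_lit 4) (nat_lit 5) (nat_lit 4) (nat_lit 4) (nat_lit 353) (nat_lit 252) (nat_lit 115))))))))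
noncomputable def xc152 : XT := (XT.nd (nat_lit 30576) (nat_lit 0) (nat_lit 2280) (XT.nd (nat_lit 29874) (nat_lit 0) (nat_lit 5092) (XT.nd (nat_lit 312) (nat_lit 0) (nat_lit 0) (XT.nd (nat_lit 156) (nat_lit 0) (nat_lit 0) (XT.nd (nat_lit 78) (nat_lit 0) (nat_lit 0) (XT.lf (nat_lit 0) (nat_lit 244832309391) (nat_lit 76) (nat_lit 87565157401) (nat_lit 76) (nat_lit 39316477318) (nat_lit 3) (nat_lit 4) (nat_lit 4) (nat_lit 5) (nat_lit 4) (nat_lit 4) (nat_lit 354) (nat_lit 252) (nat_lit 114)) (XT.lf (nat_lit 0) (nat_lit 273554291304) (nat_lit 76) (nat_lit 82261894863) (nat_lit 76) (nat_lit 34010475349) (nat_lit 3) (nat_lit 4) (nat_lit 4) (nat_lit 5) (nat_lit 4) (nat_lit 4) (nat_lit 355) (nat_lit 252) (nat_lit 113))) (XT.nd (nat_lit 78) (nat_lit 0) (nat_lit 0) (XT.lf (nat_lit 0) (nat_lit 303710551857) (nat_lit 76) (nat_lit 76694271840) (nat_lit 76) (nat_lit 28440243344) (nat_lit 3) (nat_lit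 4) (nat_lit 4) (nat_lit 5) (nat_lit 4) (nat_lit 4) (nat_lit 356) (nat_lit 252) (nat_lit 112)) (XT.lf (nat_lit 0) (nat_lit 335372891669) (nat_lit 76) (nat_lit 70849032085) (nat_lit 76) (nat_lit 22592518844) (nat_lit 3) (nat_lit 4) (nat_lit 4) (nat_lit 5) (nat_lit 4) (nat_lit 4) (nat_lit 357) (nat_lit 252) (nat_lit 111)))) (XT.nd (nat_lit 29406) (nat_lit 0) (nat_lit 6080) (XT.nd (nat_lit 29328) (nat_lit 0) (nat_lit 6080) (XT.lf (nat_lit 0) (nat_lit 368616697265) (nat_lit 76) (nat_lit 64712258362) (nat_lit 76) (nat_lit 16453378698) (nat_lit 3) (nat_lit 4) (nat_lit 4) (nat_lit 5) (nat_lit 4) (nat_lit 4) (nat_lit 358) (nat_lit 252) (nat_lit 110)) (XT.lf (nat_lit 0) (nat_lit 1294837476) (nat_lit 0) (nat_lit 1294837476) (nat_lit 532) (nat_lit 1643740317) (nat_lit 83) (nat_lit 5) (nat_lit 83) (nat_lit 3) (nat_lit 90) (nat_lit 3) (nat_lit 253) (nat_lit 253) (nat_lit 214))) (XT.nd (nat_lit 78)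 (nat_lit 0) (nat_lit 0) (XT.lf (nat_lit 0) (nat_lit 6238067306) (nat_lit 532) (nat_lit 2306495964) (nat_lit 608) (nat_lit 83156220) (nat_lit 83) (nat_lit 5) (nat_lit 90) (nat_lit 3) (nat_lit 91) (nat_lit 5) (nat_lit 254) (nat_lit 253) (nat_lit 213)) (XT.lf (nat_lit 76) (nat_lit 1412028271) (nat_lit 0) (nat_lit 5943258682) (nat_lit 608) (nat_lit 1441364159) (nat_lit 84) (nat_lit 5) (nat_lit 83) (nat_lit 5) (nat_lit 91) (nat_lit 5) (nat_lit 255) (nat_lit 253) (nat_lit 212))))) (XT.nd (nat_lit 312) (nat_lit 380) (nat_lit 0) (XT.nd (nat_lit 156) (nat_lit 0) (nat_lit 76) (XT.nd (nat_lit 78) (nat_lit 608) (nat_lit 0) (XT.lf (nat_lit 76) (nat_lit 5363685492) (nat_lit 0) (nat_lit 3147103836) (nat_lit 608) (nat_lit 464382274) (nat_lit 84) (nat_lit 5) (nat_lit 83) (nat_lit 5) (nat_lit 91) (nat_lit 5) (nat_lit 256) (nat_lit 253) (nat_lit 211)) (XT.lf (nat_lit 76) (nat_lit 318367322) (nat_lit 0)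 (nat_lit 175012267) (nat_lit 684) (nat_lit 8671544088) (nat_lit 76) (nat_lit 5) (nat_lit 75) (nat_lit 5) (nat_lit 84) (nat_lit 5) (nat_lit 257) (nat_lit 253) (nat_lit 210))) (XT.nd (nat_lit 78) (nat_lit 0) (nat_lit 0) (XT.lf (nat_lit 0) (nat_lit 1538932926) (nat_lit 608) (nat_lit 4881630854) (nat_lit 684) (nat_lit 2940670964) (nat_lit 76) (nat_lit 5) (nat_lit 84) (nat_lit 5) (nat_lit 85) (nat_lit 5) (nat_lit 258) (nat_lit 253) (nat_lit 209)) (XT.lf (nat_lit 0) (nat_lit 2589494280) (nat_lit 608) (nat_lit 755628909) (nat_lit 684) (nat_lit 6224818334) (nat_lit 76) (nat_lit 5) (nat_lit 84) (nat_lit 5) (nat_lit 85) (nat_lit 5) (nat_lit 259) (nat_lit 253) (nat_lit 208)))) (XT.nd (nat_lit 156) (nat_lit 456) (nat_lit 0) (XT.nd (nat_lit 78) (nat_lit 0) (nat_lit 76) (XT.lf (nat_lit 76) (nat_lit 3661186558) (nat_lit 0) (nat_lit 40807380) (nat_lit 684) (nat_lit 6086825552) (nat_lit 77) (nat_lit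 5) (nat_lit 76) (nat_lit 5) (nat_lit 85) (nat_lit 5) (nat_lit 260) (nat_lit 253) (nat_lit 207)) (XT.lf (nat_lit 0) (nat_lit 4890894275) (nat_lit 608) (nat_lit 1781518821) (nat_lit 684) (nat_lit 3345386008) (nat_lit 77) (nat_lit 5) (nat_lit 85) (nat_lit 5) (nat_lit 86) (nat_lit 5) (nat_lit 261) (nat_lit 253) (nat_lit 206))) (XT.nd (nat_lit 78) (nat_lit 532) (nat_lit 0) (XT.lf (nat_lit 76) (nat_lit 2838902183) (nat_lit 0) (nat_lit 3301745804) (nat_lit 684) (nat_lit 4117696469) (nat_lit 78) (nat_lit 5) (nat_lit 77) (nat_lit 5) (nat_lit 86) (nat_lit 5) (nat_lit 262) (nat_lit 253) (nat_lit 205)) (XT.nd (nat_lit 78) (nat_lit 608) (nat_lit 0) (XT.lf (nat_lit 0) (nat_lit 7445390081) (nat_lit 608) (nat_lit 2796498331) (nat_lit 76) (nat_lit 269581889) (nat_lit 78) (nat_lit 5) (nat_lit 86) (nat_lit 5) (nat_lit 79) (nat_lit 5) (nat_lit 263) (nat_lit 253) (nat_lit 204)) (XT.lf (nat_lit 0) (nat_lit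 2035192893) (nat_lit 608) (nat_lit 6826200214) (nat_lit 684) (nat_lit 1913727914) (nat_lit 70) (nat_lit 5) (nat_lit 78) (nat_lit 5) (nat_lit 79) (nat_lit 5) (nat_lit 264) (nat_lit 253) (nat_lit 203))))))) (XT.nd (nat_lit 702) (nat_lit 1140) (nat_lit 0) (XT.nd (nat_lit 312) (nat_lit 608) (nat_lit 0) (XT.nd (nat_lit 156) (nat_lit 304) (nat_lit 0) (XT.nd (nat_lit 78) (nat_lit 760) (nat_lit 0) (XT.lf (nat_lit 0) (nat_lit 7172683871) (nat_lit 608) (nat_lit 3184379975) (nat_lit 684) (nat_lit 694608742) (nat_lit 70) (nat_lit 5) (nat_lit 78) (nat_lit 5) (nat_lit 79) (nat_lit 5) (nat_lit 265) (nat_lit 253) (nat_lit 202)) (XT.lf (nat_lit 0) (nat_lit 558922807) (nat_lit 760) (nat_lit 10130892323) (nat_lit 76) (nat_lit 652316470) (nat_lit 60) (nat_lit 5) (nat_lit 70) (nat_lit 5) (nat_lit 61) (nat_lit 5) (nat_lit 266) (nat_lit 253) (nat_lit 201))) (XT.nd (nat_lit 78) (nat_lit 304) (nat_lit 0) (XT.lf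 (nat_lit 0) (nat_lit 1934691569) (nat_lit 760) (nat_lit 5052019404) (nat_lit 76) (nat_lit 4655827709) (nat_lit 60) (nat_lit 5) (nat_lit 70) (nat_lit 5) (nat_lit 61) (nat_lit 5) (nat_lit 267) (nat_lit 253) (nat_lit 200)) (XT.lf (nat_lit 0) (nat_lit 256460779) (nat_lit 304) (nat_lit 3092441217) (nat_lit 380) (nat_lit 8610714482) (nat_lit 56) (nat_lit 5) (nat_lit 60) (nat_lit 5) (nat_lit 61) (nat_lit 5) (nat_lit 268) (nat_lit 253) (nat_lit 199)))) (XT.nd (nat_lit 156) (nat_lit 608) (nat_lit 0) (XT.nd (nat_lit 78) (nat_lit 0) (nat_lit 0) (XT.lf (nat_lit 0) (nat_lit 4903146402) (nat_lit 380) (nat_lit 6333297887) (nat_lit 76) (nat_lit 1052764389) (nat_lit 56) (nat_lit 5) (nat_lit 61) (nat_lit 5) (nat_lit 57) (nat_lit 5) (nat_lit 269) (nat_lit 253) (nat_lit 198)) (XT.lf (nat_lit 0) (nat_lit 6554183216) (nat_lit 380) (nat_lit 777858096) (nat_lit 76) (nat_lit 5302405822) (nat_lit 56) (nat_lit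 5) (nat_lit 61) (nat_lit 5) (nat_lit 57) (nat_lit 5) (nat_lit 270) (nat_lit 253) (nat_lit 197))) (XT.nd (nat_lit 78) (nat_lit 304) (nat_lit 0) (XT.lf (nat_lit 0) (nat_lit 5190810954) (nat_lit 304) (nat_lit 3147893956) (nat_lit 380) (nat_lit 4655810858) (nat_lit 52) (nat_lit 5) (nat_lit 56) (nat_lit 5) (nat_lit 57) (nat_lit 5) (nat_lit 271) (nat_lit 253) (nat_lit 196)) (XT.nd (nat_lit 78) (nat_lit 304) (nat_lit 0) (XT.lf (nat_lit 0) (nat_lit 10216123423) (nat_lit 380) (nat_lit 1938408161) (nat_lit 76) (nat_lit 1217982152) (nat_lit 52) (nat_lit 5) (nat_lit 57) (nat_lit 5) (nat_lit 53) (nat_lit 5) (nat_lit 272) (nat_lit 253) (nat_lit 195)) (XT.lf (nat_lit 0) (nat_lit 4275154590) (nat_lit 304) (nat_lit 8002835222) (nat_lit 380) (nat_lit 1486997169) (nat_lit 48) (nat_lit 5) (nat_lit 52) (nat_lit 5) (nat_lit 53) (nat_lit 5) (nat_lit 273) (nat_lit 253) (nat_lit 194)))))) (XT.nd (nat_lit 312)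 (nat_lit 532) (nat_lit 0) (XT.nd (nat_lit 156) (nat_lit 228) (nat_lit 0) (XT.nd (nat_lit 78) (nat_lit 304) (nat_lit 0) (XT.lf (nat_lit 0) (nat_lit 263268285) (nat_lit 380) (nat_lit 3344179271) (nat_lit 76) (nat_lit 10569227722) (nat_lit 47) (nat_lit 5) (nat_lit 52) (nat_lit 5) (nat_lit 48) (nat_lit 5) (nat_lit 274) (nat_lit 253) (nat_lit 193)) (XT.lf (nat_lit 0) (nat_lit 2091095045) (nat_lit 380) (nat_lit 11467435956) (nat_lit 76) (nat_lit 1047287128) (nat_lit 43) (nat_lit 5) (nat_lit 48) (nat_lit 5) (nat_lit 44) (nat_lit 5) (nat_lit 275) (nat_lit 253) (nat_lit 192))) (XT.nd (nat_lit 78) (nat_lit 228) (nat_lit 0) (XT.lf (nat_lit 0) (nat_lit 4101610129) (nat_lit 380) (nat_lit 5082582963) (nat_lit 76) (nat_lit 5867745927) (nat_lit 43) (nat_lit 5) (nat_lit 48) (nat_lit 5) (nat_lit 44) (nat_lit 5) (nat_lit 276) (nat_lit 253) (nat_lit 191)) (XT.lf (nat_lit 0) (nat_lit 1645509037) (nat_lit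 228) (nat_lit 4568637470) (nat_lit 304) (nat_lit 9306226335) (nat_lit 40) (nat_lit 5) (nat_lit 43) (nat_lit 5) (nat_lit 44) (nat_lit 5) (nat_lit 277) (nat_lit 253) (nat_lit 190)))) (XT.nd (nat_lit 156) (nat_lit 532) (nat_lit 0) (XT.nd (nat_lit 78) (nat_lit 0) (nat_lit 0) (XT.lf (nat_lit 0) (nat_lit 8500574940) (nat_lit 304) (nat_lit 7156595795) (nat_lit 76) (nat_lit 351722133) (nat_lit 40) (nat_lit 5) (nat_lit 44) (nat_lit 5) (nat_lit 41) (nat_lit 5) (nat_lit 278) (nat_lit 253) (nat_lit 189)) (XT.lf (nat_lit 0) (nat_lit 10953784813) (nat_lit 304) (nat_lit 205296736) (nat_lit 76) (nat_lit 5360208417) (nat_lit 40) (nat_lit 5) (nat_lit 44) (nat_lit 5) (nat_lit 41) (nat_lit 5) (nat_lit 279) (nat_lit 253) (nat_lit 188))) (XT.nd (nat_lit 78) (nat_lit 304) (nat_lit 0) (XT.lf (nat_lit 0) (nat_lit 7300577387) (nat_lit 228) (nat_lit 6321692954) (nat_lit 304) (nat_lit 3428376364) (nat_lit 37)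 (nat_lit 5) (nat_lit 40) (nat_lit 5) (nat_lit 41) (nat_lit 5) (nat_lit 280) (nat_lit 253) (nat_lit 187)) (XT.nd (nat_lit 78) (nat_lit 304) (nat_lit 0) (XT.lf (nat_lit 0) (nat_lit 15162648601) (nat_lit 228) (nat_lit 1244249094) (nat_lit 304) (nat_lit 1202604894) (nat_lit 37) (nat_lit 5) (nat_lit 40) (nat_lit 5) (nat_lit 41) (nat_lit 5) (nat_lit 281) (nat_lit 253) (nat_lit 186)) (XT.lf (nat_lit 0) (nat_lit 1226890084) (nat_lit 304) (nat_lit 12908373042) (nat_lit 76) (nat_lit 4053776249) (nat_lit 33) (nat_lit 5) (nat_lit 37) (nat_lit 5) (nat_lit 34) (nat_lit 5) (nat_lit 282) (nat_lit 253) (nat_lit 185))))))))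
noncomputable def xc153 : XT := (XT.nd (nat_lit 1326) (nat_lit 684) (nat_lit 0) (XT.nd (nat_lit 624) (nat_lit 532) (nat_lit 0) (XT.nd (nat_lit 312) (nat_lit 456) (nat_lit 0) (XT.nd (nat_lit 156) (nat_lit 0) (nat_lit 0) (XT.nd (nat_lit 78) (nat_lit 228) (nat_lit 0) (XT.lf (nat_lit 0) (nat_lit 3780279234) (nat_lit 304) (nat_lit 5382997662) (nat_lit 76) (nat_lit 9631206658) (nat_lit 33) (nat_lit 5) (nat_lit 37) (nat_lit 5) (nat_lit 34) (nat_lit 5) (nat_lit 283) (nat_lit 253) (nat_lit 184)) (XT.lf (nat_lit 0) (nat_lit 2576110658) (nat_lit 228) (nat_lit 3906703992) (nat_lit 304) (nat_lit 12946366725) (nat_lit 30) (nat_lit 5) (nat_lit 33) (nat_lit 5) (nat_lit 34) (nat_lit 5) (nat_lit 284) (nat_lit 253) (nat_lit 183))) (XT.nd (nat_lit 78) (nat_lit 0) (nat_lit 0) (XT.lf (nat_lit 0) (nat_lit 9419979803) (nat_lit 304) (nat_lit 9023118878) (nat_lit 76) (nat_lit 1647592898) (nat_lit 30) (nat_lit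 5) (nat_lit 34) (nat_lit 5) (nat_lit 31) (nat_lit 5) (nat_lit 285) (nat_lit 253) (nat_lit 182)) (XT.lf (nat_lit 0) (nat_lit 12550586667) (nat_lit 304) (nat_lit 889951562) (nat_lit 76) (nat_lit 7342460026) (nat_lit 30) (nat_lit 5) (nat_lit 34) (nat_lit 5) (nat_lit 31) (nat_lit 5) (nat_lit 286) (nat_lit 253) (nat_lit 181)))) (XT.nd (nat_lit 156) (nat_lit 304) (nat_lit 0) (XT.nd (nat_lit 78) (nat_lit 0) (nat_lit 0) (XT.lf (nat_lit 0) (nat_lit 7878966648) (nat_lit 152) (nat_lit 8065140572) (nat_lit 228) (nat_lit 5560541626) (nat_lit 28) (nat_lit 5) (nat_lit 30) (nat_lit 5) (nat_lit 31) (nat_lit 5) (nat_lit 287) (nat_lit 253) (nat_lit 180)) (XT.lf (nat_lit 0) (nat_lit 17094516587) (nat_lit 152) (nat_lit 2411666860) (nat_lit 228) (nat_lit 2756300010) (nat_lit 28) (nat_lit 5) (nat_lit 30) (nat_lit 5) (nat_lit 31) (nat_lit 5) (nat_lit 288) (nat_lit 253) (nat_lit 179))) (XT.nd (nat_lit 78) (nat_lit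 0) (nat_lit 0) (XT.lf (nat_lit 0) (nat_lit 281840806) (nat_lit 304) (nat_lit 19302433723) (nat_lit 76) (nat_lit 3468844173) (nat_lit 24) (nat_lit 5) (nat_lit 28) (nat_lit 5) (nat_lit 25) (nat_lit 5) (nat_lit 289) (nat_lit 253) (nat_lit 178)) (XT.lf (nat_lit 0) (nat_lit 3492341085) (nat_lit 304) (nat_lit 10692911201) (nat_lit 76) (nat_lit 9690159334) (nat_lit 24) (nat_lit 5) (nat_lit 28) (nat_lit 5) (nat_lit 25) (nat_lit 5) (nat_lit 290) (nat_lit 253) (nat_lit 177))))) (XT.nd (nat_lit 312) (nat_lit 228) (nat_lit 0) (XT.nd (nat_lit 156) (nat_lit 152) (nat_lit 0) (XT.nd (nat_lit 78) (nat_lit 152) (nat_lit 0) (XT.lf (nat_lit 0) (nat_lit 6848690042) (nat_lit 304) (nat_lit 1674375029) (nat_lit 76) (nat_lit 16216525343) (nat_lit 24) (nat_lit 5) (nat_lit 28) (nat_lit 5) (nat_lit 25) (nat_lit 5) (nat_lit 291) (nat_lit 253) (nat_lit 176)) (XT.lf (nat_lit 0) (nat_lit 8031712457) (nat_lit 152)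 (nat_lit 2452564066) (nat_lit 228) (nat_lit 15157166248) (nat_lit 22) (nat_lit 5) (nat_lit 24) (nat_lit 5) (nat_lit 25) (nat_lit 5) (nat_lit 292) (nat_lit 253) (nat_lit 175))) (XT.nd (nat_lit 78) (nat_lit 152) (nat_lit 0) (XT.lf (nat_lit 0) (nat_lit 14377961448) (nat_lit 228) (nat_lit 8388149707) (nat_lit 76) (nat_lit 3818494569) (nat_lit 22) (nat_lit 5) (nat_lit 25) (nat_lit 5) (nat_lit 23) (nat_lit 5) (nat_lit 293) (nat_lit 253) (nat_lit 174)) (XT.lf (nat_lit 0) (nat_lit 1275386440) (nat_lit 152) (nat_lit 17237989072) (nat_lit 228) (nat_lit 9059231386) (nat_lit 20) (nat_lit 5) (nat_lit 22) (nat_lit 5) (nat_lit 23) (nat_lit 5) (nat_lit 294) (nat_lit 253) (nat_lit 173)))) (XT.nd (nat_lit 156) (nat_lit 228) (nat_lit 0) (XT.nd (nat_lit 78) (nat_lit 0) (nat_lit 0) (XT.lf (nat_lit 0) (nat_lit 11693897511) (nat_lit 152) (nat_lit 11290966062) (nat_lit 228) (nat_lit 5618710170) (nat_lit 20)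 (nat_lit 5) (nat_lit 22) (nat_lit 5) (nat_lit 23) (nat_lit 5) (nat_lit 295) (nat_lit 253) (nat_lit 172)) (XT.lf (nat_lit 0) (nat_lit 22614839374) (nat_lit 152) (nat_lit 5052939921) (nat_lit 228) (nat_lit 2018946285) (nat_lit 20) (nat_lit 5) (nat_lit 22) (nat_lit 5) (nat_lit 23) (nat_lit 5) (nat_lit 296) (nat_lit 253) (nat_lit 171))) (XT.nd (nat_lit 78) (nat_lit 0) (nat_lit 0) (XT.lf (nat_lit 0) (nat_lit 1769049549) (nat_lit 228) (nat_lit 27526776335) (nat_lit 76) (nat_lit 1523631130) (nat_lit 17) (nat_lit 5) (nat_lit 20) (nat_lit 5) (nat_lit 18) (nat_lit 5) (nat_lit 297) (nat_lit 253) (nat_lit 170)) (XT.nd (nat_lit 78) (nat_lit 0) (nat_lit 0) (XT.lf (nat_lit 0) (nat_lit 5871561440) (nat_lit 228) (nat_lit 17717979289) (nat_lit 76) (nat_lit 8408006433) (nat_lit 17) (nat_lit 5) (nat_lit 20) (nat_lit 5) (nat_lit 18) (nat_lit 5) (nat_lit 298) (nat_lit 253) (nat_lit 169)) (XT.lf (nat_lit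 0) (nat_lit 10168153049) (nat_lit 228) (nat_lit 7436116157) (nat_lit 76) (nat_lit 15630849020) (nat_lit 17) (nat_lit 5) (nat_lit 20) (nat_lit 5) (nat_lit 18) (nat_lit 5) (nat_lit 299) (nat_lit 253) (nat_lit 168))))))) (XT.nd (nat_lit 702) (nat_lit 228) (nat_lit 0) (XT.nd (nat_lit 312) (nat_lit 228) (nat_lit 0) (XT.nd (nat_lit 156) (nat_lit 76) (nat_lit 0) (XT.nd (nat_lit 78) (nat_lit 0) (nat_lit 0) (XT.lf (nat_lit 0) (nat_lit 3453838072) (nat_lit 152) (nat_lit 11269140373) (nat_lit 228) (nat_lit 19809442156) (nat_lit 15) (nat_lit 5) (nat_lit 17) (nat_lit 5) (nat_lit 18) (nat_lit 5) (nat_lit 300) (nat_lit 253) (nat_lit 167)) (XT.lf (nat_lit 0) (nat_lit 15130175608) (nat_lit 152) (nat_lit 4491030622) (nat_lit 228) (nat_lit 16267620681) (nat_lit 15) (nat_lit 5) (nat_lit 17) (nat_lit 5) (nat_lit 18) (nat_lit 5) (nat_lit 301) (nat_lit 253) (nat_lit 166))) (XT.nd (nat_lit 78) (nat_lit 76)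 (nat_lit 0) (XT.lf (nat_lit 0) (nat_lit 24795471162) (nat_lit 228) (nat_lit 9979647561) (nat_lit 76) (nat_lit 2536399359) (nat_lit 15) (nat_lit 5) (nat_lit 18) (nat_lit 5) (nat_lit 16) (nat_lit 4) (nat_lit 302) (nat_lit 253) (nat_lit 165)) (XT.lf (nat_lit 0) (nat_lit 1290830834) (nat_lit 76) (nat_lit 29021992376) (nat_lit 152) (nat_lit 8488321748) (nat_lit 14) (nat_lit 5) (nat_lit 15) (nat_lit 5) (nat_lit 16) (nat_lit 4) (nat_lit 303) (nat_lit 253) (nat_lit 164)))) (XT.nd (nat_lit 156) (nat_lit 152) (nat_lit 0) (XT.nd (nat_lit 78) (nat_lit 76) (nat_lit 0) (XT.lf (nat_lit 0) (nat_lit 13456381875) (nat_lit 76) (nat_lit 22809482866) (nat_lit 152) (nat_lit 4091416237) (nat_lit 14) (nat_lit 5) (nat_lit 15) (nat_lit 5) (nat_lit 16) (nat_lit 4) (nat_lit 304) (nat_lit 253) (nat_lit 163)) (XT.lf (nat_lit 0) (nat_lit 499608945) (nat_lit 152) (nat_lit 15783738600) (nat_lit 76) (nat_lit 25707928876)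 (nat_lit 13) (nat_lit 5) (nat_lit 15) (nat_lit 5) (nat_lit 14) (nat_lit 5) (nat_lit 305) (nat_lit 253) (nat_lit 162))) (XT.nd (nat_lit 78) (nat_lit 152) (nat_lit 0) (XT.lf (nat_lit 0) (nat_lit 5174199718) (nat_lit 152) (nat_lit 4191624207) (nat_lit 76) (nat_lit 34338234777) (nat_lit 13) (nat_lit 5) (nat_lit 15) (nat_lit 5) (nat_lit 14) (nat_lit 5) (nat_lit 306) (nat_lit 253) (nat_lit 161)) (XT.nd (nat_lit 78) (nat_lit 0) (nat_lit 0) (XT.lf (nat_lit 0) (nat_lit 8230345270) (nat_lit 152) (nat_lit 1972590416) (nat_lit 228) (nat_lit 35293539173) (nat_lit 11) (nat_lit 5) (nat_lit 13) (nat_lit 5) (nat_lit 14) (nat_lit 5) (nat_lit 307) (nat_lit 253) (nat_lit 160)) (XT.lf (nat_lit 0) (nat_lit 15637682702) (nat_lit 228) (nat_lit 26060883569) (nat_lit 76) (nat_lit 5672231645) (nat_lit 11) (nat_lit 5) (nat_lit 14) (nat_lit 5) (nat_lit 12) (nat_lit 4) (nat_lit 308) (nat_lit 253) (nat_lit 159))))))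 (XT.nd (nat_lit 312) (nat_lit 152) (nat_lit 0) (XT.nd (nat_lit 156) (nat_lit 76) (nat_lit 0) (XT.nd (nat_lit 78) (nat_lit 0) (nat_lit 0) (XT.lf (nat_lit 0) (nat_lit 21368905052) (nat_lit 228) (nat_lit 14340371314) (nat_lit 76) (nat_lit 13628337961) (nat_lit 11) (nat_lit 5) (nat_lit 14) (nat_lit 5) (nat_lit 12) (nat_lit 4) (nat_lit 309) (nat_lit 253) (nat_lit 158)) (XT.lf (nat_lit 0) (nat_lit 27379450838) (nat_lit 228) (nat_lit 2045889178) (nat_lit 76) (nat_lit 21977806855) (nat_lit 11) (nat_lit 5) (nat_lit 14) (nat_lit 5) (nat_lit 12) (nat_lit 4) (nat_lit 310) (nat_lit 253) (nat_lit 157))) (XT.nd (nat_lit 78) (nat_lit 0) (nat_lit 0) (XT.lf (nat_lit 0) (nat_lit 11210646102) (nat_lit 76) (nat_lit 22648014385) (nat_lit 152) (nat_lit 19704901515) (nat_lit 10) (nat_lit 5) (nat_lit 11) (nat_lit 5) (nat_lit 12) (nat_lit 4) (nat_lit 311) (nat_lit 253) (nat_lit 156)) (XT.lf (nat_lit 0) (nat_lit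 25189740338) (nat_lit 76) (nat_lit 15499997244) (nat_lit 152) (nat_lit 15140877139) (nat_lit 10) (nat_lit 5) (nat_lit 11) (nat_lit 5) (nat_lit 12) (nat_lit 4) (nat_lit 312) (nat_lit 253) (nat_lit 155)))) (XT.nd (nat_lit 156) (nat_lit 152) (nat_lit 0) (XT.nd (nat_lit 78) (nat_lit 0) (nat_lit 0) (XT.lf (nat_lit 0) (nat_lit 39857030752) (nat_lit 76) (nat_lit 7998917629) (nat_lit 152) (nat_lit 10355404304) (nat_lit 10) (nat_lit 5) (nat_lit 11) (nat_lit 5) (nat_lit 12) (nat_lit 4) (nat_lit 313) (nat_lit 253) (nat_lit 154)) (XT.lf (nat_lit 0) (nat_lit 55247439462) (nat_lit 76) (nat_lit 126915827) (nat_lit 152) (nat_lit 5337089026) (nat_lit 10) (nat_lit 5) (nat_lit 11) (nat_lit 5) (nat_lit 12) (nat_lit 4) (nat_lit 314) (nat_lit 253) (nat_lit 153))) (XT.nd (nat_lit 78) (nat_lit 0) (nat_lit 0) (XT.lf (nat_lit 0) (nat_lit 187534979) (nat_lit 152) (nat_lit 55131030640) (nat_lit 76) (nat_lit 8005376847)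 (nat_lit 8) (nat_lit 5) (nat_lit 10) (nat_lit 5) (nat_lit 9) (nat_lit 4) (nat_lit 315) (nat_lit 253) (nat_lit 152)) (XT.nd (nat_lit 78) (nat_lit 0) (nat_lit 0) (XT.lf (nat_lit 0) (nat_lit 5899299965) (nat_lit 152) (nat_lit 43441197983) (nat_lit 76) (nat_lit 16717688908) (nat_lit 8) (nat_lit 5) (nat_lit 10) (nat_lit 5) (nat_lit 9) (nat_lit 4) (nat_lit 316) (nat_lit 253) (nat_lit 151)) (XT.lf (nat_lit 0) (nat_lit 11891070188) (nat_lit 152) (nat_lit 31176436229) (nat_lit 76) (nat_lit 25861925288) (nat_lit 8) (nat_lit 5) (nat_lit 10) (nat_lit 5) (nat_lit 9) (nat_lit 4) (nat_lit 317) (nat_lit 253) (nat_lit 150))))))))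
noncomputable def xc154 : XT := (XT.nd (nat_lit 1326) (nat_lit 76) (nat_lit 0) (XT.nd (nat_lit 624) (nat_lit 228) (nat_lit 0) (XT.nd (nat_lit 312) (nat_lit 0) (nat_lit 0) (XT.nd (nat_lit 156) (nat_lit 76) (nat_lit 0) (XT.nd (nat_lit 78) (nat_lit 0) (nat_lit 0) (XT.lf (nat_lit 0) (nat_lit 18177111769) (nat_lit 152) (nat_lit 18307543563) (nat_lit 76) (nat_lit 35459857978) (nat_lit 8) (nat_lit 5) (nat_lit 10) (nat_lit 5) (nat_lit 9) (nat_lit 4) (nat_lit 318) (nat_lit 253) (nat_lit 149)) (XT.lf (nat_lit 0) (nat_lit 24772391474) (nat_lit 152) (nat_lit 4803879765) (nat_lit 76) (nat_lit 45534339199) (nat_lit 8) (nat_lit 5) (nat_lit 10) (nat_lit 5) (nat_lit 9) (nat_lit 4) (nat_lit 319) (nat_lit 253) (nat_lit 148))) (XT.nd (nat_lit 78) (nat_lit 0) (nat_lit 0) (XT.lf (nat_lit 0) (nat_lit 9676412371) (nat_lit 76) (nat_lit 22167275891) (nat_lit 152) (nat_lit 46584019355) (nat_lit 7) (nat_lit 5)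 (nat_lit 8) (nat_lit 5) (nat_lit 9) (nat_lit 4) (nat_lit 320) (nat_lit 253) (nat_lit 147)) (XT.lf (nat_lit 0) (nat_lit 25039371730) (nat_lit 76) (nat_lit 14305814144) (nat_lit 152) (nat_lit 42561649462) (nat_lit 7) (nat_lit 5) (nat_lit 8) (nat_lit 5) (nat_lit 9) (nat_lit 4) (nat_lit 321) (nat_lit 253) (nat_lit 146)))) (XT.nd (nat_lit 156) (nat_lit 0) (nat_lit 0) (XT.nd (nat_lit 78) (nat_lit 0) (nat_lit 0) (XT.lf (nat_lit 0) (nat_lit 41162738823) (nat_lit 76) (nat_lit 6054524259) (nat_lit 152) (nat_lit 38342888241) (nat_lit 7) (nat_lit 5) (nat_lit 8) (nat_lit 5) (nat_lit 9) (nat_lit 4) (nat_lit 322) (nat_lit 253) (nat_lit 145)) (XT.lf (nat_lit 0) (nat_lit 55519353637) (nat_lit 152) (nat_lit 31352142039) (nat_lit 0) (nat_lit 2522823744) (nat_lit 7) (nat_lit 5) (nat_lit 9) (nat_lit 4) (nat_lit 7) (nat_lit 4) (nat_lit 323) (nat_lit 253) (nat_lit 144))) (XT.nd (nat_lit 78) (nat_lit 0) (nat_lit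 0) (XT.lf (nat_lit 0) (nat_lit 64331679909) (nat_lit 152) (nat_lit 17761047543) (nat_lit 0) (nat_lit 11322718369) (nat_lit 7) (nat_lit 5) (nat_lit 9) (nat_lit 4) (nat_lit 7) (nat_lit 4) (nat_lit 324) (nat_lit 253) (nat_lit 143)) (XT.lf (nat_lit 0) (nat_lit 73580695536) (nat_lit 152) (nat_lit 3497241173) (nat_lit 0) (nat_lit 20559894333) (nat_lit 7) (nat_lit 5) (nat_lit 9) (nat_lit 4) (nat_lit 7) (nat_lit 4) (nat_lit 325) (nat_lit 253) (nat_lit 142))))) (XT.nd (nat_lit 312) (nat_lit 152) (nat_lit 0) (XT.nd (nat_lit 156) (nat_lit 0) (nat_lit 0) (XT.nd (nat_lit 78) (nat_lit 0) (nat_lit 0) (XT.lf (nat_lit 0) (nat_lit 11852595595) (nat_lit 76) (nat_lit 71620878623) (nat_lit 76) (nat_lit 18588801550) (nat_lit 6) (nat_lit 4) (nat_lit 7) (nat_lit 5) (nat_lit 7) (nat_lit 4) (nat_lit 326) (nat_lit 253) (nat_lit 141)) (XT.lf (nat_lit 0) (nat_lit 28084928630) (nat_lit 76) (nat_lit 65831528701)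 (nat_lit 76) (nat_lit 12788712704) (nat_lit 6) (nat_lit 4) (nat_lit 7) (nat_lit 5) (nat_lit 7) (nat_lit 4) (nat_lit 327) (nat_lit 253) (nat_lit 140))) (XT.nd (nat_lit 78) (nat_lit 0) (nat_lit 0) (XT.lf (nat_lit 0) (nat_lit 45122771758) (nat_lit 76) (nat_lit 59755330248) (nat_lit 76) (nat_lit 6702286705) (nat_lit 6) (nat_lit 4) (nat_lit 7) (nat_lit 5) (nat_lit 7) (nat_lit 4) (nat_lit 328) (nat_lit 253) (nat_lit 139)) (XT.lf (nat_lit 0) (nat_lit 63006691270) (nat_lit 76) (nat_lit 53377816124) (nat_lit 76) (nat_lit 315032061) (nat_lit 6) (nat_lit 4) (nat_lit 7) (nat_lit 5) (nat_lit 7) (nat_lit 4) (nat_lit 329) (nat_lit 253) (nat_lit 138)))) (XT.nd (nat_lit 156) (nat_lit 76) (nat_lit 0) (XT.nd (nat_lit 78) (nat_lit 0) (nat_lit 0) (XT.lf (nat_lit 0) (nat_lit 6183794792) (nat_lit 152) (nat_lit 40395281423) (nat_lit 76) (nat_lit 75490747580) (nat_lit 5) (nat_lit 5) (nat_lit 7) (nat_lit 5)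 (nat_lit 6) (nat_lit 4) (nat_lit 330) (nat_lit 253) (nat_lit 137)) (XT.lf (nat_lit 0) (nat_lit 12993909299) (nat_lit 152) (nat_lit 26443381624) (nat_lit 76) (nat_lit 88271230905) (nat_lit 5) (nat_lit 5) (nat_lit 7) (nat_lit 5) (nat_lit 6) (nat_lit 4) (nat_lit 331) (nat_lit 253) (nat_lit 136))) (XT.nd (nat_lit 78) (nat_lit 76) (nat_lit 0) (XT.lf (nat_lit 0) (nat_lit 20141609009) (nat_lit 152) (nat_lit 11799011446) (nat_lit 76) (nat_lit 101688684497) (nat_lit 5) (nat_lit 5) (nat_lit 7) (nat_lit 5) (nat_lit 6) (nat_lit 4) (nat_lit 332) (nat_lit 253) (nat_lit 135)) (XT.nd (nat_lit 78) (nat_lit 0) (nat_lit 0) (XT.lf (nat_lit 0) (nat_lit 3690826144) (nat_lit 76) (nat_lit 24010710250) (nat_lit 152) (nat_lit 112141852668) (nat_lit 4) (nat_lit 5) (nat_lit 5) (nat_lit 5) (nat_lit 6) (nat_lit 4) (nat_lit 333) (nat_lit 253) (nat_lit 134)) (XT.lf (nat_lit 0) (nat_lit 20359988786) (nat_lit 76) (nat_lit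 15476569362) (nat_lit 152) (nat_lit 110521768108) (nat_lit 4) (nat_lit 5) (nat_lit 5) (nat_lit 5) (nat_lit 6) (nat_lit 4) (nat_lit 334) (nat_lit 253) (nat_lit 133))))))) (XT.nd (nat_lit 702) (nat_lit 76) (nat_lit 0) (XT.nd (nat_lit 312) (nat_lit 0) (nat_lit 0) (XT.nd (nat_lit 156) (nat_lit 0) (nat_lit 0) (XT.nd (nat_lit 78) (nat_lit 0) (nat_lit 0) (XT.lf (nat_lit 0) (nat_lit 37858036358) (nat_lit 76) (nat_lit 6517700374) (nat_lit 152) (nat_lit 108823406887) (nat_lit 4) (nat_lit 5) (nat_lit 5) (nat_lit 5) (nat_lit 6) (nat_lit 4) (nat_lit 335) (nat_lit 253) (nat_lit 132)) (XT.lf (nat_lit 0) (nat_lit 53384481236) (nat_lit 152) (nat_lit 104200575645) (nat_lit 0) (nat_lit 2794818045) (nat_lit 4) (nat_lit 5) (nat_lit 6) (nat_lit 4) (nat_lit 4) (nat_lit 4) (nat_lit 336) (nat_lit 253) (nat_lit 131))) (XT.nd (nat_lit 78) (nat_lit 0) (nat_lit 0) (XT.lf (nat_lit 0) (nat_lit 62948129419) (nat_lit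 152) (nat_lit 92614105916) (nat_lit 0) (nat_lit 12352187402) (nat_lit 4) (nat_lit 5) (nat_lit 6) (nat_lit 4) (nat_lit 4) (nat_lit 4) (nat_lit 337) (nat_lit 253) (nat_lit 130)) (XT.lf (nat_lit 0) (nat_lit 72987692305) (nat_lit 152) (nat_lit 80452351673) (nat_lit 0) (nat_lit 22385770453) (nat_lit 4) (nat_lit 5) (nat_lit 6) (nat_lit 4) (nat_lit 4) (nat_lit 4) (nat_lit 338) (nat_lit 253) (nat_lit 129)))) (XT.nd (nat_lit 156) (nat_lit 0) (nat_lit 0) (XT.nd (nat_lit 78) (nat_lit 0) (nat_lit 0) (XT.lf (nat_lit 0) (nat_lit 83527073615) (nat_lit 152) (nat_lit 67686356359) (nat_lit 0) (nat_lit 32919456683) (nat_lit 4) (nat_lit 5) (nat_lit 6) (nat_lit 4) (nat_lit 4) (nat_lit 4) (nat_lit 339) (nat_lit 253) (nat_lit 128)) (XT.lf (nat_lit 0) (nat_lit 94591367114) (nat_lit 152) (nat_lit 54285724746) (nat_lit 0) (nat_lit 43978326295) (nat_lit 4) (nat_lit 5) (nat_lit 6) (nat_lit 4) (nat_lit 4) (nat_lit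 4) (nat_lit 340) (nat_lit 253) (nat_lit 127))) (XT.nd (nat_lit 78) (nat_lit 0) (nat_lit 0) (XT.lf (nat_lit 0) (nat_lit 106206916357) (nat_lit 152) (nat_lit 40218550568) (nat_lit 0) (nat_lit 55588709932) (nat_lit 4) (nat_lit 5) (nat_lit 6) (nat_lit 4) (nat_lit 4) (nat_lit 4) (nat_lit 341) (nat_lit 253) (nat_lit 126)) (XT.nd (nat_lit 78) (nat_lit 0) (nat_lit 0) (XT.lf (nat_lit 0) (nat_lit 118401377415) (nat_lit 152) (nat_lit 25451340555) (nat_lit 0) (nat_lit 67778251365) (nat_lit 4) (nat_lit 5) (nat_lit 6) (nat_lit 4) (nat_lit 4) (nat_lit 4) (nat_lit 342) (nat_lit 253) (nat_lit 125)) (XT.lf (nat_lit 0) (nat_lit 131203784718) (nat_lit 152) (nat_lit 9948934681) (nat_lit 0) (nat_lit 80575973312) (nat_lit 4) (nat_lit 5) (nat_lit 6) (nat_lit 4) (nat_lit 4) (nat_lit 4) (nat_lit 343) (nat_lit 253) (nat_lit 124)))))) (XT.nd (nat_lit 312) (nat_lit 0) (nat_lit 0) (XT.nd (nat_lit 156) (nat_lit 0)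 (nat_lit 0) (XT.nd (nat_lit 78) (nat_lit 0) (nat_lit 0) (XT.lf (nat_lit 0) (nat_lit 6534729703) (nat_lit 76) (nat_lit 138211915929) (nat_lit 76) (nat_lit 87579642279) (nat_lit 3) (nat_lit 4) (nat_lit 4) (nat_lit 5) (nat_lit 4) (nat_lit 4) (nat_lit 344) (nat_lit 253) (nat_lit 123)) (XT.lf (nat_lit 0) (nat_lit 24185016522) (nat_lit 76) (nat_lit 134948465180) (nat_lit 76) (nat_lit 84311941772) (nat_lit 3) (nat_lit 4) (nat_lit 4) (nat_lit 5) (nat_lit 4) (nat_lit 4) (nat_lit 345) (nat_lit 253) (nat_lit 122))) (XT.nd (nat_lit 78) (nat_lit 0) (nat_lit 0) (XT.lf (nat_lit 0) (nat_lit 42714993557) (nat_lit 76) (nat_lit 131523087052) (nat_lit 76) (nat_lit 80882516257) (nat_lit 3) (nat_lit 4) (nat_lit 4) (nat_lit 5) (nat_lit 4) (nat_lit 4) (nat_lit 346) (nat_lit 253) (nat_lit 121)) (XT.lf (nat_lit 0) (nat_lit 62168779801) (nat_lit 76) (nat_lit 127927625885) (nat_lit 76) (nat_lit 77283200435) (nat_lit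 3) (nat_lit 4) (nat_lit 4) (nat_lit 5) (nat_lit 4) (nat_lit 4) (nat_lit 347) (nat_lit 253) (nat_lit 120)))) (XT.nd (nat_lit 156) (nat_lit 0) (nat_lit 0) (XT.nd (nat_lit 78) (nat_lit 0) (nat_lit 0) (XT.lf (nat_lit 0) (nat_lit 82592693792) (nat_lit 76) (nat_lit 124153521055) (nat_lit 76) (nat_lit 73505424506) (nat_lit 3) (nat_lit 4) (nat_lit 4) (nat_lit 5) (nat_lit 4) (nat_lit 4) (nat_lit 348) (nat_lit 253) (nat_lit 119)) (XT.lf (nat_lit 0) (nat_lit 104035363897) (nat_lit 76) (nat_lit 120191786600) (nat_lit 76) (nat_lit 69540193765) (nat_lit 3) (nat_lit 4) (nat_lit 4) (nat_lit 5) (nat_lit 4) (nat_lit 4) (nat_lit 349) (nat_lit 253) (nat_lit 118))) (XT.nd (nat_lit 78) (nat_lit 0) (nat_lit 0) (XT.lf (nat_lit 0) (nat_lit 126547844093) (nat_lit 76) (nat_lit 116032989818) (nat_lit 76) (nat_lit 65378067188) (nat_lit 3) (nat_lit 4) (nat_lit 4) (nat_lit 5) (nat_lit 4) (nat_lit 4) (nat_lit 350)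 (nat_lit 253) (nat_lit 117)) (XT.nd (nat_lit 78) (nat_lit 0) (nat_lit 0) (XT.lf (nat_lit 0) (nat_lit 150183735522) (nat_lit 76) (nat_lit 111667228812) (nat_lit 76) (nat_lit 61009134947) (nat_lit 3) (nat_lit 4) (nat_lit 4) (nat_lit 5) (nat_lit 4) (nat_lit 4) (nat_lit 351) (nat_lit 253) (nat_lit 116)) (XT.lf (nat_lit 0) (nat_lit 174999314117) (nat_lit 76) (nat_lit 107084108913) (nat_lit 76) (nat_lit 56422994826) (nat_lit 3) (nat_lit 4) (nat_lit 4) (nat_lit 5) (nat_lit 4) (nat_lit 4) (nat_lit 352) (nat_lit 253) (nat_lit 115))))))))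
noncomputable def xc155 : XT := (XT.nd (nat_lit 30654) (nat_lit 0) (nat_lit 2584) (XT.nd (nat_lit 29952) (nat_lit 0) (nat_lit 5472) (XT.nd (nat_lit 312) (nat_lit 0) (nat_lit 0) (XT.nd (nat_lit 156) (nat_lit 0) (nat_lit 0) (XT.nd (nat_lit 78) (nat_lit 0) (nat_lit 0) (XT.lf (nat_lit 0) (nat_lit 201053664589) (nat_lit 76) (nat_lit 102272717930) (nat_lit 76) (nat_lit 51608727441) (nat_lit 3) (nat_lit 4) (nat_lit 4) (nat_lit 5) (nat_lit 4) (nat_lit 4) (nat_lit 353) (nat_lit 253) (nat_lit 114)) (XT.lf (nat_lit 0) (nat_lit 228408821105) (nat_lit 76) (nat_lit 97221600172) (nat_lit 76) (nat_lit 46554870251) (nat_lit 3) (nat_lit 4) (nat_lit 4) (nat_lit 5) (nat_lit 4) (nat_lit 4) (nat_lit 354) (nat_lit 253) (nat_lit 113))) (XT.nd (nat_lit 78) (nat_lit 0) (nat_lit 0) (XT.lf (nat_lit 0) (nat_lit 257129914991) (nat_lit 76) (nat_lit 91918729166) (nat_lit 76) (nat_lit 41249390264) (nat_lit 3) (nat_lit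 4) (nat_lit 4) (nat_lit 5) (nat_lit 4) (nat_lit 4) (nat_lit 355) (nat_lit 253) (nat_lit 112)) (XT.lf (nat_lit 0) (nat_lit 287285329804) (nat_lit 76) (nat_lit 86351479031) (nat_lit 76) (nat_lit 35679655383) (nat_lit 3) (nat_lit 4) (nat_lit 4) (nat_lit 5) (nat_lit 4) (nat_lit 4) (nat_lit 356) (nat_lit 253) (nat_lit 111)))) (XT.nd (nat_lit 29484) (nat_lit 0) (nat_lit 6080) (XT.nd (nat_lit 78) (nat_lit 0) (nat_lit 0) (XT.lf (nat_lit 0) (nat_lit 318946864149) (nat_lit 76) (nat_lit 80506594407) (nat_lit 76) (nat_lit 29832404336) (nat_lit 3) (nat_lit 4) (nat_lit 4) (nat_lit 5) (nat_lit 4) (nat_lit 4) (nat_lit 357) (nat_lit 253) (nat_lit 110)) (XT.lf (nat_lit 0) (nat_lit 352189902633) (nat_lit 76) (nat_lit 74370158904) (nat_lit 76) (nat_lit 23693715096) (nat_lit 3) (nat_lit 4) (nat_lit 4) (nat_lit 5) (nat_lit 4) (nat_lit 4) (nat_lit 358) (nat_lit 253) (nat_lit 109))) (XT.nd (nat_lit 78) (nat_lit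 0) (nat_lit 0) (XT.lf (nat_lit 0) (nat_lit 1816282061) (nat_lit 0) (nat_lit 1816282061) (nat_lit 532) (nat_lit 762598958) (nat_lit 83) (nat_lit 5) (nat_lit 83) (nat_lit 3) (nat_lit 90) (nat_lit 3) (nat_lit 254) (nat_lit 254) (nat_lit 212)) (XT.lf (nat_lit 0) (nat_lit 7508673336) (nat_lit 0) (nat_lit 779708899) (nat_lit 532) (nat_lit 675702308) (nat_lit 83) (nat_lit 5) (nat_lit 83) (nat_lit 3) (nat_lit 90) (nat_lit 3) (nat_lit 255) (nat_lit 254) (nat_lit 211))))) (XT.nd (nat_lit 312) (nat_lit 0) (nat_lit 76) (XT.nd (nat_lit 156) (nat_lit 0) (nat_lit 0) (XT.nd (nat_lit 78) (nat_lit 0) (nat_lit 0) (XT.lf (nat_lit 0) (nat_lit 228740762) (nat_lit 608) (nat_lit 6704075924) (nat_lit 684) (nat_lit 2212814486) (nat_lit 75) (nat_lit 5) (nat_lit 83) (nat_lit 5) (nat_lit 84) (nat_lit 5) (nat_lit 256) (nat_lit 254) (nat_lit 210)) (XT.lf (nat_lit 0) (nat_lit 1141084751) (nat_lit 608) (nat_lit 2807162698)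 (nat_lit 684) (nat_lit 5388412001) (nat_lit 75) (nat_lit 5) (nat_lit 83) (nat_lit 5) (nat_lit 84) (nat_lit 5) (nat_lit 257) (nat_lit 254) (nat_lit 209))) (XT.nd (nat_lit 78) (nat_lit 0) (nat_lit 76) (XT.lf (nat_lit 76) (nat_lit 1295807923) (nat_lit 0) (nat_lit 773519226) (nat_lit 684) (nat_lit 7469614610) (nat_lit 76) (nat_lit 5) (nat_lit 75) (nat_lit 5) (nat_lit 84) (nat_lit 5) (nat_lit 258) (nat_lit 254) (nat_lit 208)) (XT.lf (nat_lit 0) (nat_lit 3084518459) (nat_lit 608) (nat_lit 4120990410) (nat_lit 684) (nat_lit 2544008836) (nat_lit 76) (nat_lit 5) (nat_lit 84) (nat_lit 5) (nat_lit 85) (nat_lit 5) (nat_lit 259) (nat_lit 254) (nat_lit 207)))) (XT.nd (nat_lit 156) (nat_lit 0) (nat_lit 76) (XT.nd (nat_lit 78) (nat_lit 0) (nat_lit 0) (XT.lf (nat_lit 76) (nat_lit 168872708) (nat_lit 0) (nat_lit 3951436563) (nat_lit 684) (nat_lit 5852017713) (nat_lit 77) (nat_lit 5) (nat_lit 76) (nat_lit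 5) (nat_lit 85) (nat_lit 5) (nat_lit 260) (nat_lit 254) (nat_lit 206)) (XT.lf (nat_lit 76) (nat_lit 4785690450) (nat_lit 0) (nat_lit 448200536) (nat_lit 684) (nat_lit 4971272848) (nat_lit 77) (nat_lit 5) (nat_lit 76) (nat_lit 5) (nat_lit 85) (nat_lit 5) (nat_lit 261) (nat_lit 254) (nat_lit 205))) (XT.nd (nat_lit 78) (nat_lit 0) (nat_lit 0) (XT.lf (nat_lit 0) (nat_lit 6412075807) (nat_lit 608) (nat_lit 898337726) (nat_lit 684) (nat_lit 3138961055) (nat_lit 77) (nat_lit 5) (nat_lit 85) (nat_lit 5) (nat_lit 86) (nat_lit 5) (nat_lit 262) (nat_lit 254) (nat_lit 204)) (XT.nd (nat_lit 78) (nat_lit 0) (nat_lit 76) (XT.lf (nat_lit 76) (nat_lit 3937422763) (nat_lit 0) (nat_lit 3741037036) (nat_lit 684) (nat_lit 3026041356) (nat_lit 78) (nat_lit 5) (nat_lit 77) (nat_lit 5) (nat_lit 86) (nat_lit 5) (nat_lit 263) (nat_lit 254) (nat_lit 203)) (XT.lf (nat_lit 0) (nat_lit 8985753223) (nat_lit 608)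 (nat_lit 1957640307) (nat_lit 76) (nat_lit 30272696) (nat_lit 78) (nat_lit 5) (nat_lit 86) (nat_lit 5) (nat_lit 79) (nat_lit 5) (nat_lit 264) (nat_lit 254) (nat_lit 202))))))) (XT.nd (nat_lit 702) (nat_lit 1140) (nat_lit 0) (XT.nd (nat_lit 312) (nat_lit 608) (nat_lit 0) (XT.nd (nat_lit 156) (nat_lit 684) (nat_lit 0) (XT.nd (nat_lit 78) (nat_lit 76) (nat_lit 0) (XT.lf (nat_lit 0) (nat_lit 3099850270) (nat_lit 608) (nat_lit 7332116157) (nat_lit 684) (nat_lit 820799359) (nat_lit 70) (nat_lit 5) (nat_lit 78) (nat_lit 5) (nat_lit 79) (nat_lit 5) (nat_lit 265) (nat_lit 254) (nat_lit 201)) (XT.lf (nat_lit 0) (nat_lit 389786942) (nat_lit 684) (nat_lit 3103978355) (nat_lit 76) (nat_lit 8051975351) (nat_lit 69) (nat_lit 5) (nat_lit 78) (nat_lit 5) (nat_lit 70) (nat_lit 5) (nat_lit 266) (nat_lit 254) (nat_lit 200))) (XT.nd (nat_lit 78) (nat_lit 0) (nat_lit 0) (XT.lf (nat_lit 0) (nat_lit 1643366836)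 (nat_lit 760) (nat_lit 9636488121) (nat_lit 76) (nat_lit 572467104) (nat_lit 60) (nat_lit 5) (nat_lit 70) (nat_lit 5) (nat_lit 61) (nat_lit 5) (nat_lit 267) (nat_lit 254) (nat_lit 199)) (XT.lf (nat_lit 0) (nat_lit 3037614612) (nat_lit 760) (nat_lit 4351335786) (nat_lit 76) (nat_lit 4781509391) (nat_lit 60) (nat_lit 5) (nat_lit 70) (nat_lit 5) (nat_lit 61) (nat_lit 5) (nat_lit 268) (nat_lit 254) (nat_lit 198)))) (XT.nd (nat_lit 156) (nat_lit 304) (nat_lit 0) (XT.nd (nat_lit 78) (nat_lit 0) (nat_lit 0) (XT.lf (nat_lit 0) (nat_lit 1207192849) (nat_lit 304) (nat_lit 3282072364) (nat_lit 380) (nat_lit 8015975322) (nat_lit 56) (nat_lit 5) (nat_lit 60) (nat_lit 5) (nat_lit 61) (nat_lit 5) (nat_lit 269) (nat_lit 254) (nat_lit 197)) (XT.lf (nat_lit 0) (nat_lit 6074371843) (nat_lit 380) (nat_lit 5706331937) (nat_lit 76) (nat_lit 1073127773) (nat_lit 56) (nat_lit 5) (nat_lit 61) (nat_lit 5) (nat_lit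 57) (nat_lit 5) (nat_lit 270) (nat_lit 254) (nat_lit 196))) (XT.nd (nat_lit 78) (nat_lit 0) (nat_lit 0) (XT.lf (nat_lit 0) (nat_lit 84654514) (nat_lit 304) (nat_lit 7680529196) (nat_lit 380) (nat_lit 5453455354) (nat_lit 52) (nat_lit 5) (nat_lit 56) (nat_lit 5) (nat_lit 57) (nat_lit 5) (nat_lit 271) (nat_lit 254) (nat_lit 195)) (XT.nd (nat_lit 78) (nat_lit 0) (nat_lit 0) (XT.lf (nat_lit 0) (nat_lit 6334552447) (nat_lit 304) (nat_lit 3274863649) (nat_lit 380) (nat_lit 3988931084) (nat_lit 52) (nat_lit 5) (nat_lit 56) (nat_lit 5) (nat_lit 57) (nat_lit 5) (nat_lit 272) (nat_lit 254) (nat_lit 194)) (XT.lf (nat_lit 0) (nat_lit 11540501936) (nat_lit 380) (nat_lit 1149975900) (nat_lit 76) (nat_lit 1306930036) (nat_lit 52) (nat_lit 5) (nat_lit 57) (nat_lit 5) (nat_lit 53) (nat_lit 5) (nat_lit 273) (nat_lit 254) (nat_lit 193)))))) (XT.nd (nat_lit 312) (nat_lit 456) (nat_lit 0) (XT.nd (nat_lit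 156) (nat_lit 304) (nat_lit 0) (XT.nd (nat_lit 78) (nat_lit 76) (nat_lit 0) (XT.lf (nat_lit 0) (nat_lit 5359985108) (nat_lit 304) (nat_lit 8320334884) (nat_lit 380) (nat_lit 730587247) (nat_lit 48) (nat_lit 5) (nat_lit 52) (nat_lit 5) (nat_lit 53) (nat_lit 5) (nat_lit 274) (nat_lit 254) (nat_lit 192)) (XT.lf (nat_lit 0) (nat_lit 1042308155) (nat_lit 380) (nat_lit 2653834529) (nat_lit 76) (nat_lit 11148435294) (nat_lit 47) (nat_lit 5) (nat_lit 52) (nat_lit 5) (nat_lit 48) (nat_lit 5) (nat_lit 275) (nat_lit 254) (nat_lit 191))) (XT.nd (nat_lit 78) (nat_lit 0) (nat_lit 0) (XT.lf (nat_lit 0) (nat_lit 2939807942) (nat_lit 380) (nat_lit 11159024081) (nat_lit 76) (nat_lit 1197557448) (nat_lit 43) (nat_lit 5) (nat_lit 48) (nat_lit 5) (nat_lit 44) (nat_lit 5) (nat_lit 276) (nat_lit 254) (nat_lit 190)) (XT.lf (nat_lit 0) (nat_lit 5015412678) (nat_lit 380) (nat_lit 4496918137) (nat_lit 76) (nat_lit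 6254376999) (nat_lit 43) (nat_lit 5) (nat_lit 48) (nat_lit 5) (nat_lit 44) (nat_lit 5) (nat_lit 277) (nat_lit 254) (nat_lit 189)))) (XT.nd (nat_lit 156) (nat_lit 228) (nat_lit 0) (XT.nd (nat_lit 78) (nat_lit 0) (nat_lit 0) (XT.lf (nat_lit 0) (nat_lit 2554033399) (nat_lit 228) (nat_lit 4658693869) (nat_lit 304) (nat_lit 9046992398) (nat_lit 40) (nat_lit 5) (nat_lit 43) (nat_lit 5) (nat_lit 44) (nat_lit 5) (nat_lit 278) (nat_lit 254) (nat_lit 188)) (XT.lf (nat_lit 0) (nat_lit 9582778795) (nat_lit 304) (nat_lit 6694653871) (nat_lit 76) (nat_lit 496876426) (nat_lit 40) (nat_lit 5) (nat_lit 44) (nat_lit 5) (nat_lit 41) (nat_lit 5) (nat_lit 279) (nat_lit 254) (nat_lit 187))) (XT.nd (nat_lit 78) (nat_lit 0) (nat_lit 0) (XT.lf (nat_lit 0) (nat_lit 583860576) (nat_lit 228) (nat_lit 11552610233) (nat_lit 304) (nat_lit 5174967471) (nat_lit 37) (nat_lit 5) (nat_lit 40) (nat_lit 5) (nat_lit 41)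 (nat_lit 5) (nat_lit 280) (nat_lit 254) (nat_lit 186)) (XT.nd (nat_lit 78) (nat_lit 0) (nat_lit 0) (XT.lf (nat_lit 0) (nat_lit 8433748722) (nat_lit 228) (nat_lit 6477705189) (nat_lit 304) (nat_lit 2959353678) (nat_lit 37) (nat_lit 5) (nat_lit 40) (nat_lit 5) (nat_lit 41) (nat_lit 5) (nat_lit 281) (nat_lit 254) (nat_lit 185)) (XT.lf (nat_lit 0) (nat_lit 16652345284) (nat_lit 228) (nat_lit 1154011631) (nat_lit 304) (nat_lit 652790849) (nat_lit 37) (nat_lit 5) (nat_lit 40) (nat_lit 5) (nat_lit 41) (nat_lit 5) (nat_lit 282) (nat_lit 254) (nat_lit 184))))))))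
noncomputable def xc156 : XT := (XT.nd (nat_lit 1326) (nat_lit 684) (nat_lit 0) (XT.nd (nat_lit 624) (nat_lit 532) (nat_lit 0) (XT.nd (nat_lit 312) (nat_lit 456) (nat_lit 0) (XT.nd (nat_lit 156) (nat_lit 228) (nat_lit 0) (XT.nd (nat_lit 78) (nat_lit 0) (nat_lit 0) (XT.lf (nat_lit 0) (nat_lit 1864711445) (nat_lit 304) (nat_lit 12785275032) (nat_lit 76) (nat_lit 4417981036) (nat_lit 33) (nat_lit 5) (nat_lit 37) (nat_lit 5) (nat_lit 34) (nat_lit 5) (nat_lit 283) (nat_lit 254) (nat_lit 183)) (XT.lf (nat_lit 0) (nat_lit 4518318773) (nat_lit 304) (nat_lit 4920226915) (nat_lit 76) (nat_lit 10266591728) (nat_lit 33) (nat_lit 5) (nat_lit 37) (nat_lit 5) (nat_lit 34) (nat_lit 5) (nat_lit 284) (nat_lit 254) (nat_lit 182))) (XT.nd (nat_lit 78) (nat_lit 0) (nat_lit 0) (XT.lf (nat_lit 0) (nat_lit 3425031650) (nat_lit 228) (nat_lit 3916048255) (nat_lit 304) (nat_lit 13031312373) (nat_lit 30) (nat_lit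 5) (nat_lit 33) (nat_lit 5) (nat_lit 34) (nat_lit 5) (nat_lit 285) (nat_lit 254) (nat_lit 181)) (XT.lf (nat_lit 0) (nat_lit 10402434377) (nat_lit 304) (nat_lit 8764313122) (nat_lit 76) (nat_lit 1901437366) (nat_lit 30) (nat_lit 5) (nat_lit 34) (nat_lit 5) (nat_lit 31) (nat_lit 5) (nat_lit 286) (nat_lit 254) (nat_lit 180)))) (XT.nd (nat_lit 156) (nat_lit 304) (nat_lit 0) (XT.nd (nat_lit 78) (nat_lit 152) (nat_lit 0) (XT.lf (nat_lit 0) (nat_lit 13665216557) (nat_lit 304) (nat_lit 258295141) (nat_lit 76) (nat_lit 7872882859) (nat_lit 30) (nat_lit 5) (nat_lit 34) (nat_lit 5) (nat_lit 31) (nat_lit 5) (nat_lit 287) (nat_lit 254) (nat_lit 179)) (XT.lf (nat_lit 0) (nat_lit 8938163270) (nat_lit 152) (nat_lit 8277440992) (nat_lit 228) (nat_lit 5339230456) (nat_lit 28) (nat_lit 5) (nat_lit 30) (nat_lit 5) (nat_lit 31) (nat_lit 5) (nat_lit 288) (nat_lit 254) (nat_lit 178))) (XT.nd (nat_lit 78)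 (nat_lit 304) (nat_lit 0) (XT.lf (nat_lit 0) (nat_lit 18582812216) (nat_lit 152) (nat_lit 2350386766) (nat_lit 228) (nat_lit 2418554772) (nat_lit 28) (nat_lit 5) (nat_lit 30) (nat_lit 5) (nat_lit 31) (nat_lit 5) (nat_lit 289) (nat_lit 254) (nat_lit 177)) (XT.lf (nat_lit 0) (nat_lit 747319681) (nat_lit 304) (nat_lit 19607453437) (nat_lit 76) (nat_lit 3827281559) (nat_lit 24) (nat_lit 5) (nat_lit 28) (nat_lit 5) (nat_lit 25) (nat_lit 5) (nat_lit 290) (nat_lit 254) (nat_lit 176))))) (XT.nd (nat_lit 312) (nat_lit 380) (nat_lit 0) (XT.nd (nat_lit 156) (nat_lit 152) (nat_lit 0) (XT.nd (nat_lit 78) (nat_lit 0) (nat_lit 0) (XT.lf (nat_lit 0) (nat_lit 4096850363) (nat_lit 304) (nat_lit 10598888216) (nat_lit 76) (nat_lit 10350853184) (nat_lit 24) (nat_lit 5) (nat_lit 28) (nat_lit 5) (nat_lit 25) (nat_lit 5) (nat_lit 291) (nat_lit 254) (nat_lit 175)) (XT.lf (nat_lit 0) (nat_lit 7600545710) (nat_lit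 304) (nat_lit 1159361832) (nat_lit 76) (nat_lit 17195147689) (nat_lit 24) (nat_lit 5) (nat_lit 28) (nat_lit 5) (nat_lit 25) (nat_lit 5) (nat_lit 292) (nat_lit 254) (nat_lit 174))) (XT.nd (nat_lit 78) (nat_lit 0) (nat_lit 0) (XT.lf (nat_lit 0) (nat_lit 9022373061) (nat_lit 152) (nat_lit 2385239319) (nat_lit 228) (nat_lit 15494952481) (nat_lit 22) (nat_lit 5) (nat_lit 24) (nat_lit 5) (nat_lit 25) (nat_lit 5) (nat_lit 293) (nat_lit 254) (nat_lit 173)) (XT.lf (nat_lit 0) (nat_lit 15479800214) (nat_lit 228) (nat_lit 8229405448) (nat_lit 76) (nat_lit 4184536698) (nat_lit 22) (nat_lit 5) (nat_lit 25) (nat_lit 5) (nat_lit 23) (nat_lit 5) (nat_lit 294) (nat_lit 254) (nat_lit 172)))) (XT.nd (nat_lit 156) (nat_lit 228) (nat_lit 0) (XT.nd (nat_lit 78) (nat_lit 0) (nat_lit 0) (XT.lf (nat_lit 0) (nat_lit 1907982478) (nat_lit 152) (nat_lit 17904648211) (nat_lit 228) (nat_lit 9119025694) (nat_lit 20)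 (nat_lit 5) (nat_lit 22) (nat_lit 5) (nat_lit 23) (nat_lit 5) (nat_lit 295) (nat_lit 254) (nat_lit 171)) (XT.lf (nat_lit 0) (nat_lit 12820332117) (nat_lit 152) (nat_lit 11669571208) (nat_lit 228) (nat_lit 5525200667) (nat_lit 20) (nat_lit 5) (nat_lit 22) (nat_lit 5) (nat_lit 23) (nat_lit 5) (nat_lit 296) (nat_lit 254) (nat_lit 170))) (XT.nd (nat_lit 78) (nat_lit 228) (nat_lit 0) (XT.lf (nat_lit 0) (nat_lit 24261523943) (nat_lit 152) (nat_lit 5128498196) (nat_lit 228) (nat_lit 1763279303) (nat_lit 20) (nat_lit 5) (nat_lit 22) (nat_lit 5) (nat_lit 23) (nat_lit 5) (nat_lit 297) (nat_lit 254) (nat_lit 169)) (XT.nd (nat_lit 78) (nat_lit 0) (nat_lit 0) (XT.lf (nat_lit 0) (nat_lit 2197230115) (nat_lit 228) (nat_lit 28368765860) (nat_lit 76) (nat_lit 1776705786) (nat_lit 17) (nat_lit 5) (nat_lit 20) (nat_lit 5) (nat_lit 18) (nat_lit 5) (nat_lit 298) (nat_lit 254) (nat_lit 168)) (XT.lf (nat_lit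 0) (nat_lit 6488690073) (nat_lit 228) (nat_lit 18094974166) (nat_lit 76) (nat_lit 8996876373) (nat_lit 17) (nat_lit 5) (nat_lit 20) (nat_lit 5) (nat_lit 18) (nat_lit 5) (nat_lit 299) (nat_lit 254) (nat_lit 167))))))) (XT.nd (nat_lit 702) (nat_lit 228) (nat_lit 0) (XT.nd (nat_lit 312) (nat_lit 304) (nat_lit 0) (XT.nd (nat_lit 156) (nat_lit 0) (nat_lit 0) (XT.nd (nat_lit 78) (nat_lit 152) (nat_lit 0) (XT.lf (nat_lit 0) (nat_lit 10984704092) (nat_lit 228) (nat_lit 7323251406) (nat_lit 76) (nat_lit 16572838727) (nat_lit 17) (nat_lit 5) (nat_lit 20) (nat_lit 5) (nat_lit 18) (nat_lit 5) (nat_lit 300) (nat_lit 254) (nat_lit 166)) (XT.lf (nat_lit 0) (nat_lit 4103383268) (nat_lit 152) (nat_lit 11656659012) (nat_lit 228) (nat_lit 20483312898) (nat_lit 15) (nat_lit 5) (nat_lit 17) (nat_lit 5) (nat_lit 18) (nat_lit 5) (nat_lit 301) (nat_lit 254) (nat_lit 165))) (XT.nd (nat_lit 78) (nat_lit 0) (nat_lit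 0) (XT.lf (nat_lit 0) (nat_lit 16340830381) (nat_lit 152) (nat_lit 4548021791) (nat_lit 228) (nat_lit 16779476605) (nat_lit 15) (nat_lit 5) (nat_lit 17) (nat_lit 5) (nat_lit 18) (nat_lit 5) (nat_lit 302) (nat_lit 254) (nat_lit 164)) (XT.lf (nat_lit 0) (nat_lit 26310674928) (nat_lit 228) (nat_lit 10034373382) (nat_lit 76) (nat_lit 2817693026) (nat_lit 15) (nat_lit 5) (nat_lit 18) (nat_lit 5) (nat_lit 16) (nat_lit 4) (nat_lit 303) (nat_lit 254) (nat_lit 163)))) (XT.nd (nat_lit 156) (nat_lit 228) (nat_lit 0) (XT.nd (nat_lit 78) (nat_lit 0) (nat_lit 0) (XT.lf (nat_lit 0) (nat_lit 1792463505) (nat_lit 76) (nat_lit 30305139567) (nat_lit 152) (nat_lit 8629588732) (nat_lit 14) (nat_lit 5) (nat_lit 15) (nat_lit 5) (nat_lit 16) (nat_lit 4) (nat_lit 304) (nat_lit 254) (nat_lit 162)) (XT.lf (nat_lit 0) (nat_lit 14545478235) (nat_lit 76) (nat_lit 23790002316) (nat_lit 152) (nat_lit 4026321236) (nat_lit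 14) (nat_lit 5) (nat_lit 15) (nat_lit 5) (nat_lit 16) (nat_lit 4) (nat_lit 305) (nat_lit 254) (nat_lit 161))) (XT.nd (nat_lit 78) (nat_lit 152) (nat_lit 0) (XT.lf (nat_lit 0) (nat_lit 773193985) (nat_lit 152) (nat_lit 16167772895) (nat_lit 76) (nat_lit 27136965027) (nat_lit 13) (nat_lit 5) (nat_lit 15) (nat_lit 5) (nat_lit 14) (nat_lit 5) (nat_lit 306) (nat_lit 254) (nat_lit 160)) (XT.nd (nat_lit 78) (nat_lit 152) (nat_lit 0) (XT.lf (nat_lit 0) (nat_lit 5669675983) (nat_lit 152) (nat_lit 4015345765) (nat_lit 76) (nat_lit 36191946236) (nat_lit 13) (nat_lit 5) (nat_lit 15) (nat_lit 5) (nat_lit 14) (nat_lit 5) (nat_lit 307) (nat_lit 254) (nat_lit 159)) (XT.lf (nat_lit 0) (nat_lit 9021498643) (nat_lit 152) (nat_lit 1923002705) (nat_lit 228) (nat_lit 36814792654) (nat_lit 11) (nat_lit 5) (nat_lit 13) (nat_lit 5) (nat_lit 14) (nat_lit 5) (nat_lit 308) (nat_lit 254) (nat_lit 158)))))) (XT.nd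 (nat_lit 312) (nat_lit 152) (nat_lit 0) (XT.nd (nat_lit 156) (nat_lit 76) (nat_lit 0) (XT.nd (nat_lit 78) (nat_lit 0) (nat_lit 0) (XT.lf (nat_lit 0) (nat_lit 16642169660) (nat_lit 228) (nat_lit 26993140488) (nat_lit 76) (nat_lit 6092484517) (nat_lit 11) (nat_lit 5) (nat_lit 14) (nat_lit 5) (nat_lit 12) (nat_lit 4) (nat_lit 309) (nat_lit 254) (nat_lit 157)) (XT.lf (nat_lit 0) (nat_lit 22649352993) (nat_lit 228) (nat_lit 14704259156) (nat_lit 76) (nat_lit 14439889421) (nat_lit 11) (nat_lit 5) (nat_lit 14) (nat_lit 5) (nat_lit 12) (nat_lit 4) (nat_lit 310) (nat_lit 254) (nat_lit 156))) (XT.nd (nat_lit 78) (nat_lit 76) (nat_lit 0) (XT.lf (nat_lit 0) (nat_lit 28950330702) (nat_lit 228) (nat_lit 1811868662) (nat_lit 76) (nat_lit 23200634876) (nat_lit 11) (nat_lit 5) (nat_lit 14) (nat_lit 5) (nat_lit 12) (nat_lit 4) (nat_lit 311) (nat_lit 254) (nat_lit 155)) (XT.lf (nat_lit 0) (nat_lit 12102068947)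 (nat_lit 76) (nat_lit 23646983380) (nat_lit 152) (nat_lit 20482458064) (nat_lit 10) (nat_lit 5) (nat_lit 11) (nat_lit 5) (nat_lit 12) (nat_lit 4) (nat_lit 312) (nat_lit 254) (nat_lit 154)))) (XT.nd (nat_lit 156) (nat_lit 152) (nat_lit 0) (XT.nd (nat_lit 78) (nat_lit 0) (nat_lit 0) (XT.lf (nat_lit 0) (nat_lit 26764361203) (nat_lit 76) (nat_lit 16147919274) (nat_lit 152) (nat_lit 15700122399) (nat_lit 10) (nat_lit 5) (nat_lit 11) (nat_lit 5) (nat_lit 12) (nat_lit 4) (nat_lit 313) (nat_lit 254) (nat_lit 153)) (XT.lf (nat_lit 0) (nat_lit 42150009763) (nat_lit 76) (nat_lit 8277837004) (nat_lit 152) (nat_lit 10684794902) (nat_lit 10) (nat_lit 5) (nat_lit 11) (nat_lit 5) (nat_lit 12) (nat_lit 4) (nat_lit 314) (nat_lit 254) (nat_lit 152))) (XT.nd (nat_lit 78) (nat_lit 152) (nat_lit 0) (XT.lf (nat_lit 0) (nat_lit 58295647125) (nat_lit 76) (nat_lit 17998278) (nat_lit 152) (nat_lit 5424534319)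 (nat_lit 10) (nat_lit 5) (nat_lit 11) (nat_lit 5) (nat_lit 12) (nat_lit 4) (nat_lit 315) (nat_lit 254) (nat_lit 151)) (XT.nd (nat_lit 78) (nat_lit 0) (nat_lit 0) (XT.lf (nat_lit 0) (nat_lit 368623372) (nat_lit 152) (nat_lit 57593475913) (nat_lit 76) (nat_lit 8519175184) (nat_lit 8) (nat_lit 5) (nat_lit 10) (nat_lit 5) (nat_lit 9) (nat_lit 4) (nat_lit 316) (nat_lit 254) (nat_lit 150)) (XT.lf (nat_lit 0) (nat_lit 6357799862) (nat_lit 152) (nat_lit 45333156684) (nat_lit 76) (nat_lit 17661696681) (nat_lit 8) (nat_lit 5) (nat_lit 10) (nat_lit 5) (nat_lit 9) (nat_lit 4) (nat_lit 317) (nat_lit 254) (nat_lit 149))))))))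
noncomputable def xc157 : XT := (XT.nd (nat_lit 1326) (nat_lit 76) (nat_lit 0) (XT.nd (nat_lit 624) (nat_lit 228) (nat_lit 0) (XT.nd (nat_lit 312) (nat_lit 0) (nat_lit 0) (XT.nd (nat_lit 156) (nat_lit 76) (nat_lit 0) (XT.nd (nat_lit 78) (nat_lit 0) (nat_lit 0) (XT.lf (nat_lit 0) (nat_lit 12641371220) (nat_lit 152) (nat_lit 32468494994) (nat_lit 76) (nat_lit 27257996151) (nat_lit 8) (nat_lit 5) (nat_lit 10) (nat_lit 5) (nat_lit 9) (nat_lit 4) (nat_lit 318) (nat_lit 254) (nat_lit 148)) (XT.lf (nat_lit 0) (nat_lit 19234298332) (nat_lit 152) (nat_lit 18968860697) (nat_lit 76) (nat_lit 37330921923) (nat_lit 8) (nat_lit 5) (nat_lit 10) (nat_lit 5) (nat_lit 9) (nat_lit 4) (nat_lit 319) (nat_lit 254) (nat_lit 147))) (XT.nd (nat_lit 78) (nat_lit 76) (nat_lit 0) (XT.lf (nat_lit 0) (nat_lit 26152278641) (nat_lit 152) (nat_lit 4802111806) (nat_lit 76) (nat_lit 47904457156) (nat_lit 8) (nat_lit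 5) (nat_lit 10) (nat_lit 5) (nat_lit 9) (nat_lit 4) (nat_lit 320) (nat_lit 254) (nat_lit 146)) (XT.lf (nat_lit 0) (nat_lit 10398292325) (nat_lit 76) (nat_lit 23175837690) (nat_lit 152) (nat_lit 48767831091) (nat_lit 7) (nat_lit 5) (nat_lit 8) (nat_lit 5) (nat_lit 9) (nat_lit 4) (nat_lit 321) (nat_lit 254) (nat_lit 145)))) (XT.nd (nat_lit 156) (nat_lit 0) (nat_lit 0) (XT.nd (nat_lit 78) (nat_lit 0) (nat_lit 0) (XT.lf (nat_lit 0) (nat_lit 26518063492) (nat_lit 76) (nat_lit 14926055331) (nat_lit 152) (nat_lit 44551266000) (nat_lit 7) (nat_lit 5) (nat_lit 8) (nat_lit 5) (nat_lit 9) (nat_lit 4) (nat_lit 322) (nat_lit 254) (nat_lit 144)) (XT.lf (nat_lit 0) (nat_lit 43436802599) (nat_lit 76) (nat_lit 6266727120) (nat_lit 152) (nat_lit 40128160334) (nat_lit 7) (nat_lit 5) (nat_lit 8) (nat_lit 5) (nat_lit 9) (nat_lit 4) (nat_lit 323) (nat_lit 254) (nat_lit 143))) (XT.nd (nat_lit 78) (nat_lit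 0) (nat_lit 0) (XT.lf (nat_lit 0) (nat_lit 58416099229) (nat_lit 152) (nat_lit 32709289761) (nat_lit 0) (nat_lit 2732418303) (nat_lit 7) (nat_lit 5) (nat_lit 9) (nat_lit 4) (nat_lit 7) (nat_lit 4) (nat_lit 324) (nat_lit 254) (nat_lit 142)) (XT.lf (nat_lit 0) (nat_lit 67663290485) (nat_lit 152) (nat_lit 18448662416) (nat_lit 0) (nat_lit 11968333689) (nat_lit 7) (nat_lit 5) (nat_lit 9) (nat_lit 4) (nat_lit 7) (nat_lit 4) (nat_lit 325) (nat_lit 254) (nat_lit 141))))) (XT.nd (nat_lit 312) (nat_lit 152) (nat_lit 0) (XT.nd (nat_lit 156) (nat_lit 0) (nat_lit 0) (XT.nd (nat_lit 78) (nat_lit 76) (nat_lit 0) (XT.lf (nat_lit 0) (nat_lit 77369279437) (nat_lit 152) (nat_lit 3481210370) (nat_lit 0) (nat_lit 21663583717) (nat_lit 7) (nat_lit 5) (nat_lit 9) (nat_lit 4) (nat_lit 7) (nat_lit 4) (nat_lit 326) (nat_lit 254) (nat_lit 140)) (XT.lf (nat_lit 0) (nat_lit 12633039318) (nat_lit 76) (nat_lit 75121373412)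 (nat_lit 76) (nat_lit 19405450145) (nat_lit 6) (nat_lit 4) (nat_lit 7) (nat_lit 5) (nat_lit 7) (nat_lit 4) (nat_lit 327) (nat_lit 254) (nat_lit 139))) (XT.nd (nat_lit 78) (nat_lit 0) (nat_lit 0) (XT.lf (nat_lit 0) (nat_lit 29668045484) (nat_lit 76) (nat_lit 69046391667) (nat_lit 76) (nat_lit 13320727880) (nat_lit 6) (nat_lit 4) (nat_lit 7) (nat_lit 5) (nat_lit 7) (nat_lit 4) (nat_lit 328) (nat_lit 254) (nat_lit 138)) (XT.lf (nat_lit 0) (nat_lit 47549263129) (nat_lit 76) (nat_lit 62670036314) (nat_lit 76) (nat_lit 6935095841) (nat_lit 6) (nat_lit 4) (nat_lit 7) (nat_lit 5) (nat_lit 7) (nat_lit 4) (nat_lit 329) (nat_lit 254) (nat_lit 137)))) (XT.nd (nat_lit 156) (nat_lit 76) (nat_lit 0) (XT.nd (nat_lit 78) (nat_lit 76) (nat_lit 0) (XT.lf (nat_lit 0) (nat_lit 66319266580) (nat_lit 76) (nat_lit 55977125553) (nat_lit 76) (nat_lit 233350141) (nat_lit 6) (nat_lit 4) (nat_lit 7) (nat_lit 5)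 (nat_lit 7) (nat_lit 4) (nat_lit 330) (nat_lit 254) (nat_lit 136)) (XT.lf (nat_lit 0) (nat_lit 6582808381) (nat_lit 152) (nat_lit 42257432456) (nat_lit 76) (nat_lit 79328454895) (nat_lit 5) (nat_lit 5) (nat_lit 7) (nat_lit 5) (nat_lit 6) (nat_lit 4) (nat_lit 331) (nat_lit 254) (nat_lit 135))) (XT.nd (nat_lit 78) (nat_lit 76) (nat_lit 0) (XT.lf (nat_lit 0) (nat_lit 13729151287) (nat_lit 152) (nat_lit 27615443050) (nat_lit 76) (nat_lit 92744954295) (nat_lit 5) (nat_lit 5) (nat_lit 7) (nat_lit 5) (nat_lit 6) (nat_lit 4) (nat_lit 332) (nat_lit 254) (nat_lit 134)) (XT.nd (nat_lit 78) (nat_lit 76) (nat_lit 0) (XT.lf (nat_lit 0) (nat_lit 21230162339) (nat_lit 152) (nat_lit 12246002346) (nat_lit 76) (nat_lit 106830415716) (nat_lit 5) (nat_lit 5) (nat_lit 7) (nat_lit 5) (nat_lit 6) (nat_lit 4) (nat_lit 333) (nat_lit 254) (nat_lit 133)) (XT.lf (nat_lit 0) (nat_lit 4016021322) (nat_lit 76) (nat_lit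 25150381111) (nat_lit 152) (nat_lit 117665055999) (nat_lit 4) (nat_lit 5) (nat_lit 5) (nat_lit 5) (nat_lit 6) (nat_lit 4) (nat_lit 334) (nat_lit 254) (nat_lit 132))))))) (XT.nd (nat_lit 702) (nat_lit 76) (nat_lit 0) (XT.nd (nat_lit 312) (nat_lit 0) (nat_lit 0) (XT.nd (nat_lit 156) (nat_lit 0) (nat_lit 0) (XT.nd (nat_lit 78) (nat_lit 0) (nat_lit 0) (XT.lf (nat_lit 0) (nat_lit 21511944293) (nat_lit 76) (nat_lit 16192431495) (nat_lit 152) (nat_lit 115967961939) (nat_lit 4) (nat_lit 5) (nat_lit 5) (nat_lit 5) (nat_lit 6) (nat_lit 4) (nat_lit 335) (nat_lit 254) (nat_lit 131)) (XT.lf (nat_lit 0) (nat_lit 39878515383) (nat_lit 76) (nat_lit 6788379360) (nat_lit 152) (nat_lit 114188487160) (nat_lit 4) (nat_lit 5) (nat_lit 5) (nat_lit 5) (nat_lit 6) (nat_lit 4) (nat_lit 336) (nat_lit 254) (nat_lit 130))) (XT.nd (nat_lit 78) (nat_lit 0) (nat_lit 0) (XT.lf (nat_lit 0) (nat_lit 56123451102) (nat_lit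 152) (nat_lit 109286381396) (nat_lit 0) (nat_lit 2985453323) (nat_lit 4) (nat_lit 5) (nat_lit 6) (nat_lit 4) (nat_lit 4) (nat_lit 4) (nat_lit 337) (nat_lit 254) (nat_lit 129)) (XT.lf (nat_lit 0) (nat_lit 66161960466) (nat_lit 152) (nat_lit 97126503563) (nat_lit 0) (nat_lit 13018267607) (nat_lit 4) (nat_lit 5) (nat_lit 6) (nat_lit 4) (nat_lit 4) (nat_lit 4) (nat_lit 338) (nat_lit 254) (nat_lit 128)))) (XT.nd (nat_lit 156) (nat_lit 0) (nat_lit 0) (XT.nd (nat_lit 78) (nat_lit 0) (nat_lit 0) (XT.lf (nat_lit 0) (nat_lit 76700338422) (nat_lit 152) (nat_lit 84362295306) (nat_lit 0) (nat_lit 23551221676) (nat_lit 4) (nat_lit 5) (nat_lit 6) (nat_lit 4) (nat_lit 4) (nat_lit 4) (nat_lit 339) (nat_lit 254) (nat_lit 127)) (XT.lf (nat_lit 0) (nat_lit 87763676344) (nat_lit 152) (nat_lit 70963365652) (nat_lit 0) (nat_lit 34609393993) (nat_lit 4) (nat_lit 5) (nat_lit 6) (nat_lit 4) (nat_lit 4) (nat_lit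 4) (nat_lit 340) (nat_lit 254) (nat_lit 126))) (XT.nd (nat_lit 78) (nat_lit 0) (nat_lit 0) (XT.lf (nat_lit 0) (nat_lit 99378315516) (nat_lit 152) (nat_lit 56897812388) (nat_lit 0) (nat_lit 46219113539) (nat_lit 4) (nat_lit 5) (nat_lit 6) (nat_lit 4) (nat_lit 4) (nat_lit 4) (nat_lit 341) (nat_lit 254) (nat_lit 125)) (XT.nd (nat_lit 78) (nat_lit 0) (nat_lit 0) (XT.lf (nat_lit 0) (nat_lit 111571909838) (nat_lit 152) (nat_lit 42132146101) (nat_lit 0) (nat_lit 58408022505) (nat_lit 4) (nat_lit 5) (nat_lit 6) (nat_lit 4) (nat_lit 4) (nat_lit 4) (nat_lit 342) (nat_lit 254) (nat_lit 124)) (XT.lf (nat_lit 0) (nat_lit 124373491679) (nat_lit 152) (nat_lit 26631210444) (nat_lit 0) (nat_lit 71205142101) (nat_lit 4) (nat_lit 5) (nat_lit 6) (nat_lit 4) (nat_lit 4) (nat_lit 4) (nat_lit 343) (nat_lit 254) (nat_lit 123)))))) (XT.nd (nat_lit 312) (nat_lit 0) (nat_lit 0) (XT.nd (nat_lit 156) (nat_lit 0)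 (nat_lit 0) (XT.nd (nat_lit 78) (nat_lit 76) (nat_lit 0) (XT.lf (nat_lit 0) (nat_lit 137813540995) (nat_lit 152) (nat_lit 10358098426) (nat_lit 0) (nat_lit 84640941660) (nat_lit 4) (nat_lit 5) (nat_lit 6) (nat_lit 4) (nat_lit 4) (nat_lit 4) (nat_lit 344) (nat_lit 254) (nat_lit 122)) (XT.lf (nat_lit 0) (nat_lit 6948325258) (nat_lit 76) (nat_lit 145084215475) (nat_lit 76) (nat_lit 91907568753) (nat_lit 3) (nat_lit 4) (nat_lit 4) (nat_lit 5) (nat_lit 4) (nat_lit 4) (nat_lit 345) (nat_lit 254) (nat_lit 121))) (XT.nd (nat_lit 78) (nat_lit 0) (nat_lit 0) (XT.lf (nat_lit 0) (nat_lit 25476990272) (nat_lit 76) (nat_lit 141659415819) (nat_lit 76) (nat_lit 88478914442) (nat_lit 3) (nat_lit 4) (nat_lit 4) (nat_lit 5) (nat_lit 4) (nat_lit 4) (nat_lit 346) (nat_lit 254) (nat_lit 120)) (XT.lf (nat_lit 0) (nat_lit 44929526972) (nat_lit 76) (nat_lit 138064505577) (nat_lit 76) (nat_lit 84880333100) (nat_lit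 3) (nat_lit 4) (nat_lit 4) (nat_lit 5) (nat_lit 4) (nat_lit 4) (nat_lit 347) (nat_lit 254) (nat_lit 119)))) (XT.nd (nat_lit 156) (nat_lit 0) (nat_lit 0) (XT.nd (nat_lit 78) (nat_lit 0) (nat_lit 0) (XT.lf (nat_lit 0) (nat_lit 65352250922) (nat_lit 76) (nat_lit 134290925438) (nat_lit 76) (nat_lit 81103256676) (nat_lit 3) (nat_lit 4) (nat_lit 4) (nat_lit 5) (nat_lit 4) (nat_lit 4) (nat_lit 348) (nat_lit 254) (nat_lit 118)) (XT.lf (nat_lit 0) (nat_lit 86793787654) (nat_lit 76) (nat_lit 130329690688) (nat_lit 76) (nat_lit 77138692130) (nat_lit 3) (nat_lit 4) (nat_lit 4) (nat_lit 5) (nat_lit 4) (nat_lit 4) (nat_lit 349) (nat_lit 254) (nat_lit 117))) (XT.nd (nat_lit 78) (nat_lit 0) (nat_lit 0) (XT.lf (nat_lit 0) (nat_lit 109305188446) (nat_lit 76) (nat_lit 126171369815) (nat_lit 76) (nat_lit 72977200024) (nat_lit 3) (nat_lit 4) (nat_lit 4) (nat_lit 5) (nat_lit 4) (nat_lit 4) (nat_lit 350)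 (nat_lit 254) (nat_lit 116)) (XT.nd (nat_lit 78) (nat_lit 0) (nat_lit 0) (XT.lf (nat_lit 0) (nat_lit 132940051873) (nat_lit 76) (nat_lit 121806062057) (nat_lit 76) (nat_lit 68608872043) (nat_lit 3) (nat_lit 4) (nat_lit 4) (nat_lit 5) (nat_lit 4) (nat_lit 4) (nat_lit 351) (nat_lit 254) (nat_lit 115)) (XT.lf (nat_lit 0) (nat_lit 157754651418) (nat_lit 76) (nat_lit 117223373822) (nat_lit 76) (nat_lit 64023307405) (nat_lit 3) (nat_lit 4) (nat_lit 4) (nat_lit 5) (nat_lit 4) (nat_lit 4) (nat_lit 352) (nat_lit 254) (nat_lit 114))))))))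
noncomputable def xc158 : XT := (XT.nd (nat_lit 30732) (nat_lit 0) (nat_lit 2584) (XT.nd (nat_lit 30030) (nat_lit 0) (nat_lit 5472) (XT.nd (nat_lit 312) (nat_lit 0) (nat_lit 0) (XT.nd (nat_lit 156) (nat_lit 0) (nat_lit 0) (XT.nd (nat_lit 78) (nat_lit 0) (nat_lit 0) (XT.lf (nat_lit 0) (nat_lit 183808069461) (nat_lit 76) (nat_lit 112412393948) (nat_lit 76) (nat_lit 59209588100) (nat_lit 3) (nat_lit 4) (nat_lit 4) (nat_lit 5) (nat_lit 4) (nat_lit 4) (nat_lit 353) (nat_lit 254) (nat_lit 113)) (XT.lf (nat_lit 0) (nat_lit 211162337950) (nat_lit 76) (nat_lit 107361667722) (nat_lit 76) (nat_lit 54156252892) (nat_lit 3) (nat_lit 4) (nat_lit 4) (nat_lit 5) (nat_lit 4) (nat_lit 4) (nat_lit 354) (nat_lit 254) (nat_lit 112))) (XT.nd (nat_lit 78) (nat_lit 0) (nat_lit 0) (XT.lf (nat_lit 0) (nat_lit 239882586095) (nat_lit 76) (nat_lit 102059169604) (nat_lit 76) (nat_lit 48851270030) (nat_lit 3) (nat_lit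 4) (nat_lit 4) (nat_lit 5) (nat_lit 4) (nat_lit 4) (nat_lit 355) (nat_lit 254) (nat_lit 111)) (XT.lf (nat_lit 0) (nat_lit 270037195440) (nat_lit 76) (nat_lit 96492274600) (nat_lit 76) (nat_lit 43282008602) (nat_lit 3) (nat_lit 4) (nat_lit 4) (nat_lit 5) (nat_lit 4) (nat_lit 4) (nat_lit 356) (nat_lit 254) (nat_lit 110)))) (XT.nd (nat_lit 29562) (nat_lit 0) (nat_lit 5396) (XT.nd (nat_lit 78) (nat_lit 0) (nat_lit 0) (XT.lf (nat_lit 0) (nat_lit 301697962674) (nat_lit 76) (nat_lit 90647728197) (nat_lit 76) (nat_lit 37435208462) (nat_lit 3) (nat_lit 4) (nat_lit 4) (nat_lit 5) (nat_lit 4) (nat_lit 4) (nat_lit 357) (nat_lit 254) (nat_lit 109)) (XT.lf (nat_lit 0) (nat_lit 334940270576) (nat_lit 76) (nat_lit 84511614808) (nat_lit 76) (nat_lit 31296948657) (nat_lit 3) (nat_lit 4) (nat_lit 4) (nat_lit 5) (nat_lit 4) (nat_lit 4) (nat_lit 358) (nat_lit 254) (nat_lit 108))) (XT.nd (nat_lit 78) (nat_lit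 0) (nat_lit 0) (XT.lf (nat_lit 0) (nat_lit 70700644) (nat_lit 684) (nat_lit 2249440993) (nat_lit 684) (nat_lit 2249440993) (nat_lit 74) (nat_lit 3) (nat_lit 83) (nat_lit 3) (nat_lit 83) (nat_lit 5) (nat_lit 255) (nat_lit 255) (nat_lit 210)) (XT.lf (nat_lit 0) (nat_lit 924270557) (nat_lit 684) (nat_lit 667804765) (nat_lit 684) (nat_lit 7733217424) (nat_lit 74) (nat_lit 3) (nat_lit 83) (nat_lit 3) (nat_lit 83) (nat_lit 5) (nat_lit 256) (nat_lit 255) (nat_lit 209))))) (XT.nd (nat_lit 312) (nat_lit 0) (nat_lit 76) (XT.nd (nat_lit 156) (nat_lit 0) (nat_lit 0) (XT.nd (nat_lit 78) (nat_lit 0) (nat_lit 0) (XT.lf (nat_lit 0) (nat_lit 1776444324) (nat_lit 608) (nat_lit 6108532202) (nat_lit 684) (nat_lit 1634458706) (nat_lit 75) (nat_lit 5) (nat_lit 83) (nat_lit 5) (nat_lit 84) (nat_lit 5) (nat_lit 257) (nat_lit 255) (nat_lit 208)) (XT.lf (nat_lit 0) (nat_lit 2661249963) (nat_lit 608) (nat_lit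 2061094625) (nat_lit 684) (nat_lit 5001645454) (nat_lit 75) (nat_lit 5) (nat_lit 83) (nat_lit 5) (nat_lit 84) (nat_lit 5) (nat_lit 258) (nat_lit 255) (nat_lit 207))) (XT.nd (nat_lit 78) (nat_lit 0) (nat_lit 76) (XT.lf (nat_lit 76) (nat_lit 2232727331) (nat_lit 0) (nat_lit 1347121578) (nat_lit 684) (nat_lit 6359642568) (nat_lit 76) (nat_lit 5) (nat_lit 75) (nat_lit 5) (nat_lit 84) (nat_lit 5) (nat_lit 259) (nat_lit 255) (nat_lit 206)) (XT.lf (nat_lit 0) (nat_lit 4570843146) (nat_lit 608) (nat_lit 3415727471) (nat_lit 684) (nat_lit 2178061272) (nat_lit 76) (nat_lit 5) (nat_lit 84) (nat_lit 5) (nat_lit 85) (nat_lit 5) (nat_lit 260) (nat_lit 255) (nat_lit 205)))) (XT.nd (nat_lit 156) (nat_lit 0) (nat_lit 76) (XT.nd (nat_lit 78) (nat_lit 0) (nat_lit 0) (XT.lf (nat_lit 76) (nat_lit 1073930214) (nat_lit 0) (nat_lit 4535058665) (nat_lit 684) (nat_lit 4792338616) (nat_lit 77) (nat_lit 5) (nat_lit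 76) (nat_lit 5) (nat_lit 85) (nat_lit 5) (nat_lit 261) (nat_lit 255) (nat_lit 204)) (XT.lf (nat_lit 76) (nat_lit 5878892946) (nat_lit 0) (nat_lit 838277490) (nat_lit 684) (nat_lit 3931950792) (nat_lit 77) (nat_lit 5) (nat_lit 76) (nat_lit 5) (nat_lit 85) (nat_lit 5) (nat_lit 262) (nat_lit 255) (nat_lit 203))) (XT.nd (nat_lit 78) (nat_lit 0) (nat_lit 0) (XT.lf (nat_lit 0) (nat_lit 7890626824) (nat_lit 608) (nat_lit 61388819) (nat_lit 684) (nat_lit 2956957404) (nat_lit 77) (nat_lit 5) (nat_lit 85) (nat_lit 5) (nat_lit 86) (nat_lit 5) (nat_lit 263) (nat_lit 255) (nat_lit 202)) (XT.nd (nat_lit 78) (nat_lit 0) (nat_lit 0) (XT.lf (nat_lit 76) (nat_lit 5001936052) (nat_lit 0) (nat_lit 4176799945) (nat_lit 684) (nat_lit 2000436452) (nat_lit 78) (nat_lit 5) (nat_lit 77) (nat_lit 5) (nat_lit 86) (nat_lit 5) (nat_lit 264) (nat_lit 255) (nat_lit 201)) (XT.lf (nat_lit 76) (nat_lit 10293691391) (nat_lit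 0) (nat_lit 204030343) (nat_lit 684) (nat_lit 966983188) (nat_lit 78) (nat_lit 5) (nat_lit 77) (nat_lit 5) (nat_lit 86) (nat_lit 5) (nat_lit 265) (nat_lit 255) (nat_lit 200))))))) (XT.nd (nat_lit 702) (nat_lit 1140) (nat_lit 0) (XT.nd (nat_lit 312) (nat_lit 608) (nat_lit 0) (XT.nd (nat_lit 156) (nat_lit 684) (nat_lit 0) (XT.nd (nat_lit 78) (nat_lit 0) (nat_lit 0) (XT.lf (nat_lit 0) (nat_lit 209347496) (nat_lit 684) (nat_lit 7635131500) (nat_lit 76) (nat_lit 3915326513) (nat_lit 69) (nat_lit 5) (nat_lit 78) (nat_lit 5) (nat_lit 70) (nat_lit 5) (nat_lit 266) (nat_lit 255) (nat_lit 199)) (XT.lf (nat_lit 0) (nat_lit 1403183512) (nat_lit 684) (nat_lit 2390630544) (nat_lit 76) (nat_lit 8275621860) (nat_lit 69) (nat_lit 5) (nat_lit 78) (nat_lit 5) (nat_lit 70) (nat_lit 5) (nat_lit 267) (nat_lit 255) (nat_lit 198))) (XT.nd (nat_lit 78) (nat_lit 0) (nat_lit 0) (XT.lf (nat_lit 0) (nat_lit 2683809906)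 (nat_lit 760) (nat_lit 9210422443) (nat_lit 76) (nat_lit 499081218) (nat_lit 60) (nat_lit 5) (nat_lit 70) (nat_lit 5) (nat_lit 61) (nat_lit 5) (nat_lit 268) (nat_lit 255) (nat_lit 197)) (XT.lf (nat_lit 0) (nat_lit 4102137942) (nat_lit 760) (nat_lit 3704245352) (nat_lit 76) (nat_lit 4923433202) (nat_lit 60) (nat_lit 5) (nat_lit 70) (nat_lit 5) (nat_lit 61) (nat_lit 5) (nat_lit 269) (nat_lit 255) (nat_lit 196)))) (XT.nd (nat_lit 156) (nat_lit 304) (nat_lit 0) (XT.nd (nat_lit 78) (nat_lit 0) (nat_lit 0) (XT.lf (nat_lit 0) (nat_lit 2118263630) (nat_lit 304) (nat_lit 3477930256) (nat_lit 380) (nat_lit 7486819546) (nat_lit 56) (nat_lit 5) (nat_lit 60) (nat_lit 5) (nat_lit 61) (nat_lit 5) (nat_lit 270) (nat_lit 255) (nat_lit 195)) (XT.lf (nat_lit 0) (nat_lit 7218061520) (nat_lit 380) (nat_lit 5135747541) (nat_lit 76) (nat_lit 1097509934) (nat_lit 56) (nat_lit 5) (nat_lit 61) (nat_lit 5) (nat_lit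 57) (nat_lit 5) (nat_lit 271) (nat_lit 255) (nat_lit 194))) (XT.nd (nat_lit 78) (nat_lit 0) (nat_lit 0) (XT.lf (nat_lit 0) (nat_lit 930983378) (nat_lit 304) (nat_lit 8035579460) (nat_lit 380) (nat_lit 4869299248) (nat_lit 52) (nat_lit 5) (nat_lit 56) (nat_lit 5) (nat_lit 57) (nat_lit 5) (nat_lit 272) (nat_lit 255) (nat_lit 193)) (XT.nd (nat_lit 78) (nat_lit 0) (nat_lit 0) (XT.lf (nat_lit 0) (nat_lit 7453276391) (nat_lit 304) (nat_lit 3411010455) (nat_lit 380) (nat_lit 3372350139) (nat_lit 52) (nat_lit 5) (nat_lit 56) (nat_lit 5) (nat_lit 57) (nat_lit 5) (nat_lit 273) (nat_lit 255) (nat_lit 192)) (XT.lf (nat_lit 0) (nat_lit 12855461130) (nat_lit 380) (nat_lit 404433724) (nat_lit 76) (nat_lit 1397717605) (nat_lit 52) (nat_lit 5) (nat_lit 57) (nat_lit 5) (nat_lit 53) (nat_lit 5) (nat_lit 274) (nat_lit 255) (nat_lit 191)))))) (XT.nd (nat_lit 312) (nat_lit 456) (nat_lit 0) (XT.nd (nat_lit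 156) (nat_lit 304) (nat_lit 0) (XT.nd (nat_lit 78) (nat_lit 76) (nat_lit 0) (XT.lf (nat_lit 0) (nat_lit 6418073060) (nat_lit 304) (nat_lit 8661392809) (nat_lit 380) (nat_lit 13592999) (nat_lit 48) (nat_lit 5) (nat_lit 52) (nat_lit 5) (nat_lit 53) (nat_lit 5) (nat_lit 275) (nat_lit 255) (nat_lit 190)) (XT.lf (nat_lit 0) (nat_lit 1789096086) (nat_lit 380) (nat_lit 2008699766) (nat_lit 76) (nat_lit 11751885346) (nat_lit 47) (nat_lit 5) (nat_lit 52) (nat_lit 5) (nat_lit 48) (nat_lit 5) (nat_lit 276) (nat_lit 255) (nat_lit 189))) (XT.nd (nat_lit 78) (nat_lit 0) (nat_lit 0) (XT.lf (nat_lit 0) (nat_lit 3761771714) (nat_lit 380) (nat_lit 10917171500) (nat_lit 76) (nat_lit 1346238915) (nat_lit 43) (nat_lit 5) (nat_lit 48) (nat_lit 5) (nat_lit 44) (nat_lit 5) (nat_lit 277) (nat_lit 255) (nat_lit 188)) (XT.lf (nat_lit 0) (nat_lit 5909015097) (nat_lit 380) (nat_lit 3960046154) (nat_lit 76) (nat_lit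 6651670701) (nat_lit 43) (nat_lit 5) (nat_lit 48) (nat_lit 5) (nat_lit 44) (nat_lit 5) (nat_lit 278) (nat_lit 255) (nat_lit 187)))) (XT.nd (nat_lit 156) (nat_lit 228) (nat_lit 0) (XT.nd (nat_lit 78) (nat_lit 0) (nat_lit 0) (XT.lf (nat_lit 0) (nat_lit 3431167187) (nat_lit 228) (nat_lit 4766117928) (nat_lit 304) (nat_lit 8842158114) (nat_lit 40) (nat_lit 5) (nat_lit 43) (nat_lit 5) (nat_lit 44) (nat_lit 5) (nat_lit 279) (nat_lit 255) (nat_lit 186)) (XT.lf (nat_lit 0) (nat_lit 10657994932) (nat_lit 304) (nat_lit 6285829455) (nat_lit 76) (nat_lit 637428352) (nat_lit 40) (nat_lit 5) (nat_lit 44) (nat_lit 5) (nat_lit 41) (nat_lit 5) (nat_lit 280) (nat_lit 255) (nat_lit 185))) (XT.nd (nat_lit 78) (nat_lit 0) (nat_lit 0) (XT.lf (nat_lit 0) (nat_lit 1344617858) (nat_lit 228) (nat_lit 11977790827) (nat_lit 304) (nat_lit 4823771555) (nat_lit 37) (nat_lit 5) (nat_lit 40) (nat_lit 5) (nat_lit 41)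 (nat_lit 5) (nat_lit 281) (nat_lit 255) (nat_lit 184)) (XT.nd (nat_lit 78) (nat_lit 0) (nat_lit 0) (XT.lf (nat_lit 0) (nat_lit 9552164018) (nat_lit 228) (nat_lit 6656400051) (nat_lit 304) (nat_lit 2526422038) (nat_lit 37) (nat_lit 5) (nat_lit 40) (nat_lit 5) (nat_lit 41) (nat_lit 5) (nat_lit 282) (nat_lit 255) (nat_lit 183)) (XT.lf (nat_lit 0) (nat_lit 18148512892) (nat_lit 228) (nat_lit 1073435644) (nat_lit 304) (nat_lit 132192941) (nat_lit 37) (nat_lit 5) (nat_lit 40) (nat_lit 5) (nat_lit 41) (nat_lit 5) (nat_lit 283) (nat_lit 255) (nat_lit 182))))))))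
noncomputable def xc159 : XT := (XT.nd (nat_lit 1404) (nat_lit 684) (nat_lit 0) (XT.nd (nat_lit 702) (nat_lit 532) (nat_lit 0) (XT.nd (nat_lit 312) (nat_lit 456) (nat_lit 0) (XT.nd (nat_lit 156) (nat_lit 228) (nat_lit 0) (XT.nd (nat_lit 78) (nat_lit 0) (nat_lit 0) (XT.lf (nat_lit 0) (nat_lit 2480828520) (nat_lit 304) (nat_lit 12727471517) (nat_lit 76) (nat_lit 4785379838) (nat_lit 33) (nat_lit 5) (nat_lit 37) (nat_lit 5) (nat_lit 34) (nat_lit 5) (nat_lit 284) (nat_lit 255) (nat_lit 181)) (XT.lf (nat_lit 0) (nat_lit 5242217096) (nat_lit 304) (nat_lit 4502364673) (nat_lit 76) (nat_lit 10919444886) (nat_lit 33) (nat_lit 5) (nat_lit 37) (nat_lit 5) (nat_lit 34) (nat_lit 5) (nat_lit 285) (nat_lit 255) (nat_lit 180))) (XT.nd (nat_lit 78) (nat_lit 0) (nat_lit 0) (XT.lf (nat_lit 0) (nat_lit 4249449181) (nat_lit 228) (nat_lit 3943151407) (nat_lit 304) (nat_lit 13172789385) (nat_lit 30) (nat_lit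 5) (nat_lit 33) (nat_lit 5) (nat_lit 34) (nat_lit 5) (nat_lit 286) (nat_lit 255) (nat_lit 179)) (XT.lf (nat_lit 0) (nat_lit 11386461387) (nat_lit 304) (nat_lit 8558572588) (nat_lit 76) (nat_lit 2152032884) (nat_lit 30) (nat_lit 5) (nat_lit 34) (nat_lit 5) (nat_lit 31) (nat_lit 5) (nat_lit 287) (nat_lit 255) (nat_lit 178)))) (XT.nd (nat_lit 156) (nat_lit 304) (nat_lit 0) (XT.nd (nat_lit 78) (nat_lit 0) (nat_lit 0) (XT.lf (nat_lit 0) (nat_lit 353392477) (nat_lit 152) (nat_lit 14442416917) (nat_lit 228) (nat_lit 8066769732) (nat_lit 28) (nat_lit 5) (nat_lit 30) (nat_lit 5) (nat_lit 31) (nat_lit 5) (nat_lit 288) (nat_lit 255) (nat_lit 177)) (XT.lf (nat_lit 0) (nat_lit 9988471243) (nat_lit 152) (nat_lit 8518109769) (nat_lit 228) (nat_lit 5153277466) (nat_lit 28) (nat_lit 5) (nat_lit 30) (nat_lit 5) (nat_lit 31) (nat_lit 5) (nat_lit 289) (nat_lit 255) (nat_lit 176))) (XT.nd (nat_lit 78) (nat_lit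 304) (nat_lit 0) (XT.lf (nat_lit 0) (nat_lit 20086619312) (nat_lit 152) (nat_lit 2302950606) (nat_lit 228) (nat_lit 2108135355) (nat_lit 28) (nat_lit 5) (nat_lit 30) (nat_lit 5) (nat_lit 31) (nat_lit 5) (nat_lit 290) (nat_lit 255) (nat_lit 175)) (XT.nd (nat_lit 78) (nat_lit 0) (nat_lit 0) (XT.lf (nat_lit 0) (nat_lit 1194106830) (nat_lit 304) (nat_lit 19989094161) (nat_lit 76) (nat_lit 4186441716) (nat_lit 24) (nat_lit 5) (nat_lit 28) (nat_lit 5) (nat_lit 25) (nat_lit 5) (nat_lit 291) (nat_lit 255) (nat_lit 174)) (XT.lf (nat_lit 0) (nat_lit 4691617800) (nat_lit 304) (nat_lit 10558611725) (nat_lit 76) (nat_lit 11028201633) (nat_lit 24) (nat_lit 5) (nat_lit 28) (nat_lit 5) (nat_lit 25) (nat_lit 5) (nat_lit 292) (nat_lit 255) (nat_lit 173)))))) (XT.nd (nat_lit 312) (nat_lit 228) (nat_lit 0) (XT.nd (nat_lit 156) (nat_lit 152) (nat_lit 0) (XT.nd (nat_lit 78) (nat_lit 152) (nat_lit 0) (XT.lf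 (nat_lit 0) (nat_lit 8351930061) (nat_lit 304) (nat_lit 674262397) (nat_lit 76) (nat_lit 18207101064) (nat_lit 24) (nat_lit 5) (nat_lit 28) (nat_lit 5) (nat_lit 25) (nat_lit 5) (nat_lit 293) (nat_lit 255) (nat_lit 172)) (XT.lf (nat_lit 0) (nat_lit 10007800087) (nat_lit 152) (nat_lit 2332208360) (nat_lit 228) (nat_lit 15888682346) (nat_lit 22) (nat_lit 5) (nat_lit 24) (nat_lit 5) (nat_lit 25) (nat_lit 5) (nat_lit 294) (nat_lit 255) (nat_lit 171))) (XT.nd (nat_lit 78) (nat_lit 152) (nat_lit 0) (XT.lf (nat_lit 0) (nat_lit 16601128723) (nat_lit 228) (nat_lit 8116475044) (nat_lit 76) (nat_lit 4552600176) (nat_lit 22) (nat_lit 5) (nat_lit 25) (nat_lit 5) (nat_lit 23) (nat_lit 5) (nat_lit 295) (nat_lit 255) (nat_lit 170)) (XT.lf (nat_lit 0) (nat_lit 2519324203) (nat_lit 152) (nat_lit 18622791900) (nat_lit 228) (nat_lit 9218362682) (nat_lit 20) (nat_lit 5) (nat_lit 22) (nat_lit 5) (nat_lit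 23) (nat_lit 5) (nat_lit 296) (nat_lit 255) (nat_lit 169)))) (XT.nd (nat_lit 156) (nat_lit 228) (nat_lit 0) (XT.nd (nat_lit 78) (nat_lit 0) (nat_lit 0) (XT.lf (nat_lit 0) (nat_lit 13952722628) (nat_lit 152) (nat_lit 12084393843) (nat_lit 228) (nat_lit 5461828038) (nat_lit 20) (nat_lit 5) (nat_lit 22) (nat_lit 5) (nat_lit 23) (nat_lit 5) (nat_lit 297) (nat_lit 255) (nat_lit 168)) (XT.lf (nat_lit 0) (nat_lit 25942575288) (nat_lit 152) (nat_lit 5224298415) (nat_lit 228) (nat_lit 1527983589) (nat_lit 20) (nat_lit 5) (nat_lit 22) (nat_lit 5) (nat_lit 23) (nat_lit 5) (nat_lit 298) (nat_lit 255) (nat_lit 167))) (XT.nd (nat_lit 78) (nat_lit 0) (nat_lit 0) (XT.lf (nat_lit 0) (nat_lit 2615235012) (nat_lit 228) (nat_lit 29302533594) (nat_lit 76) (nat_lit 2025988331) (nat_lit 17) (nat_lit 5) (nat_lit 20) (nat_lit 5) (nat_lit 18) (nat_lit 5) (nat_lit 299) (nat_lit 255) (nat_lit 166)) (XT.nd (nat_lit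 78) (nat_lit 0) (nat_lit 0) (XT.lf (nat_lit 0) (nat_lit 7106594473) (nat_lit 228) (nat_lit 18538131865) (nat_lit 76) (nat_lit 9599527102) (nat_lit 17) (nat_lit 5) (nat_lit 20) (nat_lit 5) (nat_lit 18) (nat_lit 5) (nat_lit 300) (nat_lit 255) (nat_lit 165)) (XT.lf (nat_lit 0) (nat_lit 11813434436) (nat_lit 228) (nat_lit 7249803492) (nat_lit 76) (nat_lit 17547011055) (nat_lit 17) (nat_lit 5) (nat_lit 20) (nat_lit 5) (nat_lit 18) (nat_lit 5) (nat_lit 301) (nat_lit 255) (nat_lit 164))))))) (XT.nd (nat_lit 702) (nat_lit 228) (nat_lit 0) (XT.nd (nat_lit 312) (nat_lit 228) (nat_lit 0) (XT.nd (nat_lit 156) (nat_lit 76) (nat_lit 0) (XT.nd (nat_lit 78) (nat_lit 0) (nat_lit 0) (XT.lf (nat_lit 0) (nat_lit 4741072424) (nat_lit 152) (nat_lit 12079910665) (nat_lit 228) (nat_lit 21220311772) (nat_lit 15) (nat_lit 5) (nat_lit 17) (nat_lit 5) (nat_lit 18) (nat_lit 5) (nat_lit 302) (nat_lit 255) (nat_lit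 163)) (XT.lf (nat_lit 0) (nat_lit 17569795703) (nat_lit 152) (nat_lit 4623440693) (nat_lit 228) (nat_lit 17344958272) (nat_lit 15) (nat_lit 5) (nat_lit 17) (nat_lit 5) (nat_lit 18) (nat_lit 5) (nat_lit 303) (nat_lit 255) (nat_lit 162))) (XT.nd (nat_lit 78) (nat_lit 76) (nat_lit 0) (XT.lf (nat_lit 0) (nat_lit 27876031991) (nat_lit 228) (nat_lit 10133138258) (nat_lit 76) (nat_lit 3098689875) (nat_lit 15) (nat_lit 5) (nat_lit 18) (nat_lit 5) (nat_lit 16) (nat_lit 4) (nat_lit 304) (nat_lit 255) (nat_lit 161)) (XT.lf (nat_lit 0) (nat_lit 2278541219) (nat_lit 76) (nat_lit 31668058741) (nat_lit 152) (nat_lit 8804243586) (nat_lit 14) (nat_lit 5) (nat_lit 15) (nat_lit 5) (nat_lit 16) (nat_lit 4) (nat_lit 305) (nat_lit 255) (nat_lit 160)))) (XT.nd (nat_lit 156) (nat_lit 152) (nat_lit 0) (XT.nd (nat_lit 78) (nat_lit 76) (nat_lit 0) (XT.lf (nat_lit 0) (nat_lit 15650327897) (nat_lit 76) (nat_lit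 24834418809) (nat_lit 152) (nat_lit 3983042457) (nat_lit 14) (nat_lit 5) (nat_lit 15) (nat_lit 5) (nat_lit 16) (nat_lit 4) (nat_lit 306) (nat_lit 255) (nat_lit 159)) (XT.lf (nat_lit 0) (nat_lit 1037345378) (nat_lit 152) (nat_lit 16608676157) (nat_lit 76) (nat_lit 28624098726) (nat_lit 13) (nat_lit 5) (nat_lit 15) (nat_lit 5) (nat_lit 14) (nat_lit 5) (nat_lit 307) (nat_lit 255) (nat_lit 158))) (XT.nd (nat_lit 78) (nat_lit 152) (nat_lit 0) (XT.lf (nat_lit 0) (nat_lit 6167913776) (nat_lit 152) (nat_lit 3866126974) (nat_lit 76) (nat_lit 38125624928) (nat_lit 13) (nat_lit 5) (nat_lit 15) (nat_lit 5) (nat_lit 14) (nat_lit 5) (nat_lit 308) (nat_lit 255) (nat_lit 157)) (XT.nd (nat_lit 78) (nat_lit 0) (nat_lit 0) (XT.lf (nat_lit 0) (nat_lit 9816914718) (nat_lit 152) (nat_lit 1884715441) (nat_lit 228) (nat_lit 38434740017) (nat_lit 11) (nat_lit 5) (nat_lit 13) (nat_lit 5) (nat_lit 14) (nat_lit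 5) (nat_lit 309) (nat_lit 255) (nat_lit 156)) (XT.lf (nat_lit 0) (nat_lit 17676185465) (nat_lit 228) (nat_lit 28006482537) (nat_lit 76) (nat_lit 6521046422) (nat_lit 11) (nat_lit 5) (nat_lit 14) (nat_lit 5) (nat_lit 12) (nat_lit 4) (nat_lit 310) (nat_lit 255) (nat_lit 155)))))) (XT.nd (nat_lit 312) (nat_lit 152) (nat_lit 0) (XT.nd (nat_lit 156) (nat_lit 76) (nat_lit 0) (XT.nd (nat_lit 78) (nat_lit 0) (nat_lit 0) (XT.lf (nat_lit 0) (nat_lit 23974113330) (nat_lit 228) (nat_lit 15119172137) (nat_lit 76) (nat_lit 15279919777) (nat_lit 11) (nat_lit 5) (nat_lit 14) (nat_lit 5) (nat_lit 12) (nat_lit 4) (nat_lit 311) (nat_lit 255) (nat_lit 154)) (XT.lf (nat_lit 0) (nat_lit 30580983131) (nat_lit 228) (nat_lit 1597414498) (nat_lit 76) (nat_lit 24473081748) (nat_lit 11) (nat_lit 5) (nat_lit 14) (nat_lit 5) (nat_lit 12) (nat_lit 4) (nat_lit 312) (nat_lit 255) (nat_lit 153))) (XT.nd (nat_lit 78)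 (nat_lit 0) (nat_lit 0) (XT.lf (nat_lit 0) (nat_lit 13007299869) (nat_lit 76) (nat_lit 24708306043) (nat_lit 152) (nat_lit 21318201350) (nat_lit 10) (nat_lit 5) (nat_lit 11) (nat_lit 5) (nat_lit 12) (nat_lit 4) (nat_lit 313) (nat_lit 255) (nat_lit 152)) (XT.lf (nat_lit 0) (nat_lit 28388414953) (nat_lit 76) (nat_lit 16840051898) (nat_lit 152) (nat_lit 16305719360) (nat_lit 10) (nat_lit 5) (nat_lit 11) (nat_lit 5) (nat_lit 12) (nat_lit 4) (nat_lit 314) (nat_lit 255) (nat_lit 151)))) (XT.nd (nat_lit 156) (nat_lit 152) (nat_lit 0) (XT.nd (nat_lit 78) (nat_lit 0) (nat_lit 0) (XT.lf (nat_lit 0) (nat_lit 44529734718) (nat_lit 76) (nat_lit 8581954245) (nat_lit 152) (nat_lit 11048168782) (nat_lit 10) (nat_lit 5) (nat_lit 11) (nat_lit 5) (nat_lit 12) (nat_lit 4) (nat_lit 315) (nat_lit 255) (nat_lit 150)) (XT.lf (nat_lit 0) (nat_lit 61385379046) (nat_lit 152) (nat_lit 5448719807) (nat_lit 0) (nat_lit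 82907749) (nat_lit 10) (nat_lit 5) (nat_lit 12) (nat_lit 4) (nat_lit 10) (nat_lit 4) (nat_lit 316) (nat_lit 255) (nat_lit 149))) (XT.nd (nat_lit 78) (nat_lit 0) (nat_lit 0) (XT.lf (nat_lit 0) (nat_lit 542802063) (nat_lit 152) (nat_lit 60206386662) (nat_lit 76) (nat_lit 9048108541) (nat_lit 8) (nat_lit 5) (nat_lit 10) (nat_lit 5) (nat_lit 9) (nat_lit 4) (nat_lit 317) (nat_lit 255) (nat_lit 148)) (XT.nd (nat_lit 78) (nat_lit 0) (nat_lit 0) (XT.lf (nat_lit 0) (nat_lit 6824020828) (nat_lit 152) (nat_lit 47345754473) (nat_lit 76) (nat_lit 18642852562) (nat_lit 8) (nat_lit 5) (nat_lit 10) (nat_lit 5) (nat_lit 9) (nat_lit 4) (nat_lit 318) (nat_lit 255) (nat_lit 147)) (XT.lf (nat_lit 0) (nat_lit 13414707375) (nat_lit 152) (nat_lit 33849957796) (nat_lit 76) (nat_lit 28714296954) (nat_lit 8) (nat_lit 5) (nat_lit 10) (nat_lit 5) (nat_lit 9) (nat_lit 4) (nat_lit 319) (nat_lit 255) (nat_lit 146))))))))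
noncomputable def xc160 : XT := (XT.nd (nat_lit 1326) (nat_lit 76) (nat_lit 0) (XT.nd (nat_lit 624) (nat_lit 228) (nat_lit 0) (XT.nd (nat_lit 312) (nat_lit 0) (nat_lit 0) (XT.nd (nat_lit 156) (nat_lit 76) (nat_lit 0) (XT.nd (nat_lit 78) (nat_lit 0) (nat_lit 0) (XT.lf (nat_lit 0) (nat_lit 20330553814) (nat_lit 152) (nat_lit 19686863782) (nat_lit 76) (nat_lit 39286421349) (nat_lit 8) (nat_lit 5) (nat_lit 10) (nat_lit 5) (nat_lit 9) (nat_lit 4) (nat_lit 320) (nat_lit 255) (nat_lit 145)) (XT.lf (nat_lit 0) (nat_lit 27588026446) (nat_lit 152) (nat_lit 4822750778) (nat_lit 76) (nat_lit 50384397470) (nat_lit 8) (nat_lit 5) (nat_lit 10) (nat_lit 5) (nat_lit 9) (nat_lit 4) (nat_lit 321) (nat_lit 255) (nat_lit 144))) (XT.nd (nat_lit 78) (nat_lit 0) (nat_lit 0) (XT.lf (nat_lit 0) (nat_lit 11134133776) (nat_lit 76) (nat_lit 24244106222) (nat_lit 152) (nat_lit 51074350326) (nat_lit 7) (nat_lit 5)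 (nat_lit 8) (nat_lit 5) (nat_lit 9) (nat_lit 4) (nat_lit 322) (nat_lit 255) (nat_lit 143)) (XT.lf (nat_lit 0) (nat_lit 28049611271) (nat_lit 76) (nat_lit 15586145381) (nat_lit 152) (nat_lit 46653236615) (nat_lit 7) (nat_lit 5) (nat_lit 8) (nat_lit 5) (nat_lit 9) (nat_lit 4) (nat_lit 323) (nat_lit 255) (nat_lit 142)))) (XT.nd (nat_lit 156) (nat_lit 0) (nat_lit 0) (XT.nd (nat_lit 78) (nat_lit 0) (nat_lit 0) (XT.lf (nat_lit 0) (nat_lit 45804494733) (nat_lit 76) (nat_lit 6497956127) (nat_lit 152) (nat_lit 42014956270) (nat_lit 7) (nat_lit 5) (nat_lit 8) (nat_lit 5) (nat_lit 9) (nat_lit 4) (nat_lit 324) (nat_lit 255) (nat_lit 141)) (XT.lf (nat_lit 0) (nat_lit 61446453315) (nat_lit 152) (nat_lit 34153861388) (nat_lit 0) (nat_lit 2944733885) (nat_lit 7) (nat_lit 5) (nat_lit 9) (nat_lit 4) (nat_lit 7) (nat_lit 4) (nat_lit 325) (nat_lit 255) (nat_lit 140))) (XT.nd (nat_lit 78) (nat_lit 0) (nat_lit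 0) (XT.lf (nat_lit 0) (nat_lit 71150787509) (nat_lit 152) (nat_lit 19189292812) (nat_lit 0) (nat_lit 12638840533) (nat_lit 7) (nat_lit 5) (nat_lit 9) (nat_lit 4) (nat_lit 7) (nat_lit 4) (nat_lit 326) (nat_lit 255) (nat_lit 139)) (XT.lf (nat_lit 0) (nat_lit 81337107694) (nat_lit 152) (nat_lit 3482125436) (nat_lit 0) (nat_lit 22815420198) (nat_lit 7) (nat_lit 5) (nat_lit 9) (nat_lit 4) (nat_lit 7) (nat_lit 4) (nat_lit 327) (nat_lit 255) (nat_lit 138))))) (XT.nd (nat_lit 312) (nat_lit 152) (nat_lit 0) (XT.nd (nat_lit 156) (nat_lit 0) (nat_lit 0) (XT.nd (nat_lit 78) (nat_lit 0) (nat_lit 0) (XT.lf (nat_lit 0) (nat_lit 13435044068) (nat_lit 76) (nat_lit 78804381636) (nat_lit 76) (nat_lit 20273417454) (nat_lit 6) (nat_lit 4) (nat_lit 7) (nat_lit 5) (nat_lit 7) (nat_lit 4) (nat_lit 328) (nat_lit 255) (nat_lit 137)) (XT.lf (nat_lit 0) (nat_lit 31313688505) (nat_lit 76) (nat_lit 72429129873)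 (nat_lit 76) (nat_lit 13889330751) (nat_lit 6) (nat_lit 4) (nat_lit 7) (nat_lit 5) (nat_lit 7) (nat_lit 4) (nat_lit 329) (nat_lit 255) (nat_lit 136))) (XT.nd (nat_lit 78) (nat_lit 0) (nat_lit 0) (XT.lf (nat_lit 0) (nat_lit 50081241282) (nat_lit 76) (nat_lit 65737270151) (nat_lit 76) (nat_lit 7189056802) (nat_lit 6) (nat_lit 4) (nat_lit 7) (nat_lit 5) (nat_lit 7) (nat_lit 4) (nat_lit 330) (nat_lit 255) (nat_lit 135)) (XT.lf (nat_lit 0) (nat_lit 69782387049) (nat_lit 76) (nat_lit 58712869470) (nat_lit 76) (nat_lit 156642571) (nat_lit 6) (nat_lit 4) (nat_lit 7) (nat_lit 5) (nat_lit 7) (nat_lit 4) (nat_lit 331) (nat_lit 255) (nat_lit 134)))) (XT.nd (nat_lit 156) (nat_lit 76) (nat_lit 0) (XT.nd (nat_lit 78) (nat_lit 0) (nat_lit 0) (XT.lf (nat_lit 0) (nat_lit 6993421680) (nat_lit 152) (nat_lit 44227344407) (nat_lit 76) (nat_lit 83352174635) (nat_lit 5) (nat_lit 5) (nat_lit 7) (nat_lit 5)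 (nat_lit 6) (nat_lit 4) (nat_lit 332) (nat_lit 255) (nat_lit 133)) (XT.lf (nat_lit 0) (nat_lit 14493202070) (nat_lit 152) (nat_lit 28860063134) (nat_lit 76) (nat_lit 97436770576) (nat_lit 5) (nat_lit 5) (nat_lit 7) (nat_lit 5) (nat_lit 6) (nat_lit 4) (nat_lit 333) (nat_lit 255) (nat_lit 132))) (XT.nd (nat_lit 78) (nat_lit 76) (nat_lit 0) (XT.lf (nat_lit 0) (nat_lit 22365568759) (nat_lit 152) (nat_lit 12728633827) (nat_lit 76) (nat_lit 112223906565) (nat_lit 5) (nat_lit 5) (nat_lit 7) (nat_lit 5) (nat_lit 6) (nat_lit 4) (nat_lit 334) (nat_lit 255) (nat_lit 131)) (XT.nd (nat_lit 78) (nat_lit 0) (nat_lit 0) (XT.lf (nat_lit 0) (nat_lit 4344399595) (nat_lit 76) (nat_lit 26352694134) (nat_lit 152) (nat_lit 123472218727) (nat_lit 4) (nat_lit 5) (nat_lit 5) (nat_lit 5) (nat_lit 6) (nat_lit 4) (nat_lit 335) (nat_lit 255) (nat_lit 130)) (XT.lf (nat_lit 0) (nat_lit 22709043610) (nat_lit 76) (nat_lit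 16949475896) (nat_lit 152) (nat_lit 121693893302) (nat_lit 4) (nat_lit 5) (nat_lit 5) (nat_lit 5) (nat_lit 6) (nat_lit 4) (nat_lit 336) (nat_lit 255) (nat_lit 129))))))) (XT.nd (nat_lit 702) (nat_lit 76) (nat_lit 0) (XT.nd (nat_lit 312) (nat_lit 0) (nat_lit 0) (XT.nd (nat_lit 156) (nat_lit 0) (nat_lit 0) (XT.nd (nat_lit 78) (nat_lit 0) (nat_lit 0) (XT.lf (nat_lit 0) (nat_lit 41988157440) (nat_lit 76) (nat_lit 7077724829) (nat_lit 152) (nat_lit 119828895580) (nat_lit 4) (nat_lit 5) (nat_lit 5) (nat_lit 5) (nat_lit 6) (nat_lit 4) (nat_lit 337) (nat_lit 255) (nat_lit 128)) (XT.lf (nat_lit 0) (nat_lit 58992885159) (nat_lit 152) (nat_lit 114638026514) (nat_lit 0) (nat_lit 3180888689) (nat_lit 4) (nat_lit 5) (nat_lit 6) (nat_lit 4) (nat_lit 4) (nat_lit 4) (nat_lit 338) (nat_lit 255) (nat_lit 127))) (XT.nd (nat_lit 78) (nat_lit 0) (nat_lit 0) (XT.lf (nat_lit 0) (nat_lit 69530307538) (nat_lit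 152) (nat_lit 101875520216) (nat_lit 0) (nat_lit 13713145463) (nat_lit 4) (nat_lit 5) (nat_lit 6) (nat_lit 4) (nat_lit 4) (nat_lit 4) (nat_lit 339) (nat_lit 255) (nat_lit 126)) (XT.lf (nat_lit 0) (nat_lit 80592735389) (nat_lit 152) (nat_lit 88478211475) (nat_lit 0) (nat_lit 24770653689) (nat_lit 4) (nat_lit 5) (nat_lit 6) (nat_lit 4) (nat_lit 4) (nat_lit 4) (nat_lit 340) (nat_lit 255) (nat_lit 125)))) (XT.nd (nat_lit 156) (nat_lit 0) (nat_lit 0) (XT.nd (nat_lit 78) (nat_lit 0) (nat_lit 0) (XT.lf (nat_lit 0) (nat_lit 92206507825) (nat_lit 152) (nat_lit 74414201938) (nat_lit 0) (nat_lit 36379740768) (nat_lit 4) (nat_lit 5) (nat_lit 6) (nat_lit 4) (nat_lit 4) (nat_lit 4) (nat_lit 341) (nat_lit 255) (nat_lit 124)) (XT.lf (nat_lit 0) (nat_lit 104399276685) (nat_lit 152) (nat_lit 59650005868) (nat_lit 0) (nat_lit 48568047383) (nat_lit 4) (nat_lit 5) (nat_lit 6) (nat_lit 4) (nat_lit 4) (nat_lit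 4) (nat_lit 342) (nat_lit 255) (nat_lit 123))) (XT.nd (nat_lit 78) (nat_lit 0) (nat_lit 0) (XT.lf (nat_lit 0) (nat_lit 117200072371) (nat_lit 152) (nat_lit 44150470417) (nat_lit 0) (nat_lit 61364593313) (nat_lit 4) (nat_lit 5) (nat_lit 6) (nat_lit 4) (nat_lit 4) (nat_lit 4) (nat_lit 343) (nat_lit 255) (nat_lit 122)) (XT.nd (nat_lit 78) (nat_lit 0) (nat_lit 0) (XT.lf (nat_lit 0) (nat_lit 130639372969) (nat_lit 152) (nat_lit 27878691928) (nat_lit 0) (nat_lit 74799846523) (nat_lit 4) (nat_lit 5) (nat_lit 6) (nat_lit 4) (nat_lit 4) (nat_lit 4) (nat_lit 344) (nat_lit 255) (nat_lit 121)) (XT.lf (nat_lit 0) (nat_lit 144749176812) (nat_lit 152) (nat_lit 10795928073) (nat_lit 0) (nat_lit 88905795712) (nat_lit 4) (nat_lit 5) (nat_lit 6) (nat_lit 4) (nat_lit 4) (nat_lit 4) (nat_lit 345) (nat_lit 255) (nat_lit 120)))))) (XT.nd (nat_lit 312) (nat_lit 0) (nat_lit 0) (XT.nd (nat_lit 156) (nat_lit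 0) (nat_lit 0) (XT.nd (nat_lit 78) (nat_lit 0) (nat_lit 0) (XT.lf (nat_lit 0) (nat_lit 7374525258) (nat_lit 76) (nat_lit 152303690421) (nat_lit 76) (nat_lit 96456638221) (nat_lit 3) (nat_lit 4) (nat_lit 4) (nat_lit 5) (nat_lit 4) (nat_lit 4) (nat_lit 346) (nat_lit 255) (nat_lit 119)) (XT.lf (nat_lit 0) (nat_lit 26825871916) (nat_lit 76) (nat_lit 148709304869) (nat_lit 76) (nat_lit 92858756384) (nat_lit 3) (nat_lit 4) (nat_lit 4) (nat_lit 5) (nat_lit 4) (nat_lit 4) (nat_lit 347) (nat_lit 255) (nat_lit 118))) (XT.nd (nat_lit 78) (nat_lit 0) (nat_lit 0) (XT.lf (nat_lit 0) (nat_lit 47247462493) (nat_lit 76) (nat_lit 144936224435) (nat_lit 76) (nat_lit 89082346154) (nat_lit 3) (nat_lit 4) (nat_lit 4) (nat_lit 5) (nat_lit 4) (nat_lit 4) (nat_lit 348) (nat_lit 255) (nat_lit 117)) (XT.lf (nat_lit 0) (nat_lit 68687919822) (nat_lit 76) (nat_lit 140975465595) (nat_lit 76) (nat_lit 85118416080)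 (nat_lit 3) (nat_lit 4) (nat_lit 4) (nat_lit 5) (nat_lit 4) (nat_lit 4) (nat_lit 349) (nat_lit 255) (nat_lit 116)))) (XT.nd (nat_lit 156) (nat_lit 0) (nat_lit 0) (XT.nd (nat_lit 78) (nat_lit 0) (nat_lit 0) (XT.lf (nat_lit 0) (nat_lit 91198292612) (nat_lit 76) (nat_lit 136817597970) (nat_lit 76) (nat_lit 80957528233) (nat_lit 3) (nat_lit 4) (nat_lit 4) (nat_lit 5) (nat_lit 4) (nat_lit 4) (nat_lit 350) (nat_lit 255) (nat_lit 115)) (XT.lf (nat_lit 0) (nat_lit 114832176988) (nat_lit 76) (nat_lit 132452721876) (nat_lit 76) (nat_lit 76589775736) (nat_lit 3) (nat_lit 4) (nat_lit 4) (nat_lit 5) (nat_lit 4) (nat_lit 4) (nat_lit 351) (nat_lit 255) (nat_lit 114))) (XT.nd (nat_lit 78) (nat_lit 0) (nat_lit 0) (XT.lf (nat_lit 0) (nat_lit 139645844104) (nat_lit 76) (nat_lit 127870444750) (nat_lit 76) (nat_lit 72004759178) (nat_lit 3) (nat_lit 4) (nat_lit 4) (nat_lit 5) (nat_lit 4) (nat_lit 4) (nat_lit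 352) (nat_lit 255) (nat_lit 113)) (XT.nd (nat_lit 78) (nat_lit 0) (nat_lit 0) (XT.lf (nat_lit 0) (nat_lit 165698374120) (nat_lit 76) (nat_lit 123059856408) (nat_lit 76) (nat_lit 67191561855) (nat_lit 3) (nat_lit 4) (nat_lit 4) (nat_lit 5) (nat_lit 4) (nat_lit 4) (nat_lit 353) (nat_lit 255) (nat_lit 112)) (XT.lf (nat_lit 0) (nat_lit 193051796868) (nat_lit 76) (nat_lit 118009503070) (nat_lit 76) (nat_lit 62138723772) (nat_lit 3) (nat_lit 4) (nat_lit 4) (nat_lit 5) (nat_lit 4) (nat_lit 4) (nat_lit 354) (nat_lit 255) (nat_lit 111))))))))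
noncomputable def xc161 : XT := (XT.nd (nat_lit 30810) (nat_lit 0) (nat_lit 2280) (XT.nd (nat_lit 30108) (nat_lit 0) (nat_lit 4940) (XT.nd (nat_lit 29796) (nat_lit 0) (nat_lit 5396) (XT.nd (nat_lit 156) (nat_lit 0) (nat_lit 0) (XT.nd (nat_lit 78) (nat_lit 0) (nat_lit 0) (XT.lf (nat_lit 0) (nat_lit 221771239547) (nat_lit 76) (nat_lit 112707360084) (nat_lit 76) (nat_lit 56834214362) (nat_lit 3) (nat_lit 4) (nat_lit 4) (nat_lit 5) (nat_lit 4) (nat_lit 4) (nat_lit 355) (nat_lit 255) (nat_lit 110)) (XT.lf (nat_lit 0) (nat_lit 251925081780) (nat_lit 76) (nat_lit 107140803299) (nat_lit 76) (nat_lit 51265403841) (nat_lit 3) (nat_lit 4) (nat_lit 4) (nat_lit 5) (nat_lit 4) (nat_lit 4) (nat_lit 356) (nat_lit 255) (nat_lit 109))) (XT.nd (nat_lit 78) (nat_lit 0) (nat_lit 0) (XT.lf (nat_lit 0) (nat_lit 283585118432) (nat_lit 76) (nat_lit 101296579011) (nat_lit 76) (nat_lit 45419033136) (nat_lit 3)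 (nat_lit 4) (nat_lit 4) (nat_lit 5) (nat_lit 4) (nat_lit 4) (nat_lit 357) (nat_lit 255) (nat_lit 108)) (XT.lf (nat_lit 0) (nat_lit 316826730541) (nat_lit 76) (nat_lit 95160772398) (nat_lit 76) (nat_lit 39281182318) (nat_lit 3) (nat_lit 4) (nat_lit 4) (nat_lit 5) (nat_lit 4) (nat_lit 4) (nat_lit 358) (nat_lit 255) (nat_lit 107)))) (XT.nd (nat_lit 156) (nat_lit 0) (nat_lit 76) (XT.nd (nat_lit 78) (nat_lit 0) (nat_lit 0) (XT.lf (nat_lit 0) (nat_lit 841402321) (nat_lit 684) (nat_lit 1957484511) (nat_lit 684) (nat_lit 1957484511) (nat_lit 74) (nat_lit 3) (nat_lit 83) (nat_lit 3) (nat_lit 83) (nat_lit 5) (nat_lit 256) (nat_lit 256) (nat_lit 208)) (XT.lf (nat_lit 76) (nat_lit 71431304) (nat_lit 0) (nat_lit 2361437823) (nat_lit 684) (nat_lit 7279222174) (nat_lit 75) (nat_lit 5) (nat_lit 74) (nat_lit 3) (nat_lit 83) (nat_lit 5) (nat_lit 257) (nat_lit 256) (nat_lit 207))) (XT.nd (nat_lit 78)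 (nat_lit 0) (nat_lit 0) (XT.lf (nat_lit 0) (nat_lit 3258705564) (nat_lit 608) (nat_lit 5569743376) (nat_lit 684) (nat_lit 1091241501) (nat_lit 75) (nat_lit 5) (nat_lit 83) (nat_lit 5) (nat_lit 84) (nat_lit 5) (nat_lit 258) (nat_lit 256) (nat_lit 206)) (XT.lf (nat_lit 0) (nat_lit 4121397246) (nat_lit 608) (nat_lit 1360134655) (nat_lit 684) (nat_lit 4656546642) (nat_lit 75) (nat_lit 5) (nat_lit 83) (nat_lit 5) (nat_lit 84) (nat_lit 5) (nat_lit 259) (nat_lit 256) (nat_lit 205))))) (XT.nd (nat_lit 312) (nat_lit 532) (nat_lit 0) (XT.nd (nat_lit 156) (nat_lit 0) (nat_lit 76) (XT.nd (nat_lit 78) (nat_lit 0) (nat_lit 76) (XT.lf (nat_lit 76) (nat_lit 3135410419) (nat_lit 0) (nat_lit 1899671662) (nat_lit 684) (nat_lit 5332089301) (nat_lit 76) (nat_lit 5) (nat_lit 75) (nat_lit 5) (nat_lit 84) (nat_lit 5) (nat_lit 260) (nat_lit 256) (nat_lit 204)) (XT.lf (nat_lit 0) (nat_lit 6007638150) (nat_lit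 608) (nat_lit 2759926580) (nat_lit 684) (nat_lit 1839664558) (nat_lit 76) (nat_lit 5) (nat_lit 84) (nat_lit 5) (nat_lit 85) (nat_lit 5) (nat_lit 261) (nat_lit 256) (nat_lit 203))) (XT.nd (nat_lit 78) (nat_lit 0) (nat_lit 0) (XT.lf (nat_lit 76) (nat_lit 1940881937) (nat_lit 0) (nat_lit 5111970576) (nat_lit 684) (nat_lit 3805397739) (nat_lit 77) (nat_lit 5) (nat_lit 76) (nat_lit 5) (nat_lit 85) (nat_lit 5) (nat_lit 262) (nat_lit 256) (nat_lit 202)) (XT.lf (nat_lit 76) (nat_lit 6947366366) (nat_lit 0) (nat_lit 1213676105) (nat_lit 684) (nat_lit 2960398039) (nat_lit 77) (nat_lit 5) (nat_lit 76) (nat_lit 5) (nat_lit 85) (nat_lit 5) (nat_lit 263) (nat_lit 256) (nat_lit 201)))) (XT.nd (nat_lit 156) (nat_lit 684) (nat_lit 0) (XT.nd (nat_lit 78) (nat_lit 0) (nat_lit 0) (XT.lf (nat_lit 76) (nat_lit 759736315) (nat_lit 0) (nat_lit 8587575732) (nat_lit 684) (nat_lit 2049491384) (nat_lit 78) (nat_lit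 5) (nat_lit 77) (nat_lit 5) (nat_lit 86) (nat_lit 5) (nat_lit 264) (nat_lit 256) (nat_lit 200)) (XT.lf (nat_lit 76) (nat_lit 6039009862) (nat_lit 0) (nat_lit 4611228203) (nat_lit 684) (nat_lit 1032968958) (nat_lit 78) (nat_lit 5) (nat_lit 77) (nat_lit 5) (nat_lit 86) (nat_lit 5) (nat_lit 265) (nat_lit 256) (nat_lit 199))) (XT.nd (nat_lit 78) (nat_lit 0) (nat_lit 76) (XT.lf (nat_lit 0) (nat_lit 1281763) (nat_lit 684) (nat_lit 427774352) (nat_lit 760) (nat_lit 11556574401) (nat_lit 68) (nat_lit 5) (nat_lit 77) (nat_lit 5) (nat_lit 78) (nat_lit 5) (nat_lit 266) (nat_lit 256) (nat_lit 198)) (XT.nd (nat_lit 78) (nat_lit 0) (nat_lit 0) (XT.lf (nat_lit 0) (nat_lit 1166393178) (nat_lit 684) (nat_lit 7189700714) (nat_lit 76) (nat_lit 3940662116) (nat_lit 69) (nat_lit 5) (nat_lit 78) (nat_lit 5) (nat_lit 70) (nat_lit 5) (nat_lit 267) (nat_lit 256) (nat_lit 197)) (XT.lf (nat_lit 0) (nat_lit 2374845837)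 (nat_lit 684) (nat_lit 1722364584) (nat_lit 76) (nat_lit 8527087979) (nat_lit 69) (nat_lit 5) (nat_lit 78) (nat_lit 5) (nat_lit 70) (nat_lit 5) (nat_lit 268) (nat_lit 256) (nat_lit 196))))))) (XT.nd (nat_lit 702) (nat_lit 1064) (nat_lit 0) (XT.nd (nat_lit 312) (nat_lit 684) (nat_lit 0) (XT.nd (nat_lit 156) (nat_lit 304) (nat_lit 0) (XT.nd (nat_lit 78) (nat_lit 0) (nat_lit 0) (XT.lf (nat_lit 0) (nat_lit 3687183829) (nat_lit 760) (nat_lit 8847460496) (nat_lit 76) (nat_lit 431509889) (nat_lit 60) (nat_lit 5) (nat_lit 70) (nat_lit 5) (nat_lit 61) (nat_lit 5) (nat_lit 269) (nat_lit 256) (nat_lit 195)) (XT.lf (nat_lit 0) (nat_lit 5135038579) (nat_lit 760) (nat_lit 3105188030) (nat_lit 76) (nat_lit 5081485443) (nat_lit 60) (nat_lit 5) (nat_lit 70) (nat_lit 5) (nat_lit 61) (nat_lit 5) (nat_lit 270) (nat_lit 256) (nat_lit 194))) (XT.nd (nat_lit 78) (nat_lit 0) (nat_lit 0) (XT.lf (nat_lit 0)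 (nat_lit 2995796891) (nat_lit 304) (nat_lit 3680628832) (nat_lit 380) (nat_lit 7017664339) (nat_lit 56) (nat_lit 5) (nat_lit 60) (nat_lit 5) (nat_lit 61) (nat_lit 5) (nat_lit 271) (nat_lit 256) (nat_lit 193)) (XT.lf (nat_lit 0) (nat_lit 8340843131) (nat_lit 380) (nat_lit 4616207488) (nat_lit 76) (nat_lit 1125832844) (nat_lit 56) (nat_lit 5) (nat_lit 61) (nat_lit 5) (nat_lit 57) (nat_lit 5) (nat_lit 272) (nat_lit 256) (nat_lit 192)))) (XT.nd (nat_lit 156) (nat_lit 380) (nat_lit 0) (XT.nd (nat_lit 78) (nat_lit 0) (nat_lit 0) (XT.lf (nat_lit 0) (nat_lit 1741338567) (nat_lit 304) (nat_lit 8411076169) (nat_lit 380) (nat_lit 4335595164) (nat_lit 52) (nat_lit 5) (nat_lit 56) (nat_lit 5) (nat_lit 57) (nat_lit 5) (nat_lit 273) (nat_lit 256) (nat_lit 191)) (XT.lf (nat_lit 0) (nat_lit 8553374516) (nat_lit 304) (nat_lit 3556530250) (nat_lit 380) (nat_lit 2800806649) (nat_lit 52) (nat_lit 5) (nat_lit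 56) (nat_lit 5) (nat_lit 57) (nat_lit 5) (nat_lit 274) (nat_lit 256) (nat_lit 190))) (XT.nd (nat_lit 78) (nat_lit 76) (nat_lit 0) (XT.lf (nat_lit 0) (nat_lit 313768988) (nat_lit 304) (nat_lit 13858691991) (nat_lit 380) (nat_lit 1181809108) (nat_lit 48) (nat_lit 5) (nat_lit 52) (nat_lit 5) (nat_lit 53) (nat_lit 5) (nat_lit 275) (nat_lit 256) (nat_lit 189)) (XT.nd (nat_lit 78) (nat_lit 0) (nat_lit 0) (XT.lf (nat_lit 0) (nat_lit 647777042) (nat_lit 380) (nat_lit 8367725130) (nat_lit 76) (nat_lit 6796862991) (nat_lit 47) (nat_lit 5) (nat_lit 52) (nat_lit 5) (nat_lit 48) (nat_lit 5) (nat_lit 276) (nat_lit 256) (nat_lit 188)) (XT.lf (nat_lit 0) (nat_lit 2508639346) (nat_lit 380) (nat_lit 1403623199) (nat_lit 76) (nat_lit 12381228627) (nat_lit 47) (nat_lit 5) (nat_lit 52) (nat_lit 5) (nat_lit 48) (nat_lit 5) (nat_lit 277) (nat_lit 256) (nat_lit 187)))))) (XT.nd (nat_lit 312) (nat_lit 532)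 (nat_lit 0) (XT.nd (nat_lit 156) (nat_lit 228) (nat_lit 0) (XT.nd (nat_lit 78) (nat_lit 0) (nat_lit 0) (XT.lf (nat_lit 0) (nat_lit 4562081047) (nat_lit 380) (nat_lit 10737584465) (nat_lit 76) (nat_lit 1494098340) (nat_lit 43) (nat_lit 5) (nat_lit 48) (nat_lit 5) (nat_lit 44) (nat_lit 5) (nat_lit 278) (nat_lit 256) (nat_lit 186)) (XT.lf (nat_lit 0) (nat_lit 6787533231) (nat_lit 380) (nat_lit 3467147881) (nat_lit 76) (nat_lit 7060966121) (nat_lit 43) (nat_lit 5) (nat_lit 48) (nat_lit 5) (nat_lit 44) (nat_lit 5) (nat_lit 279) (nat_lit 256) (nat_lit 185))) (XT.nd (nat_lit 78) (nat_lit 0) (nat_lit 0) (XT.lf (nat_lit 0) (nat_lit 4282482569) (nat_lit 228) (nat_lit 4890581979) (nat_lit 304) (nat_lit 8688180846) (nat_lit 40) (nat_lit 5) (nat_lit 43) (nat_lit 5) (nat_lit 44) (nat_lit 5) (nat_lit 280) (nat_lit 256) (nat_lit 184)) (XT.lf (nat_lit 0) (nat_lit 11731554267) (nat_lit 304) (nat_lit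 5925692710) (nat_lit 76) (nat_lit 774250432) (nat_lit 40) (nat_lit 5) (nat_lit 44) (nat_lit 5) (nat_lit 41) (nat_lit 5) (nat_lit 281) (nat_lit 256) (nat_lit 183)))) (XT.nd (nat_lit 156) (nat_lit 304) (nat_lit 0) (XT.nd (nat_lit 78) (nat_lit 0) (nat_lit 0) (XT.lf (nat_lit 0) (nat_lit 2075399094) (nat_lit 228) (nat_lit 12438403800) (nat_lit 304) (nat_lit 4511722682) (nat_lit 37) (nat_lit 5) (nat_lit 40) (nat_lit 5) (nat_lit 41) (nat_lit 5) (nat_lit 282) (nat_lit 256) (nat_lit 182)) (XT.lf (nat_lit 0) (nat_lit 10661724927) (nat_lit 228) (nat_lit 6857528084) (nat_lit 304) (nat_lit 2125850330) (nat_lit 37) (nat_lit 5) (nat_lit 40) (nat_lit 5) (nat_lit 41) (nat_lit 5) (nat_lit 283) (nat_lit 256) (nat_lit 181))) (XT.nd (nat_lit 78) (nat_lit 228) (nat_lit 0) (XT.lf (nat_lit 0) (nat_lit 351381818) (nat_lit 304) (nat_lit 644353862) (nat_lit 76) (nat_lit 19300465618) (nat_lit 36) (nat_lit 5) (nat_lit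 40) (nat_lit 5) (nat_lit 37) (nat_lit 5) (nat_lit 284) (nat_lit 256) (nat_lit 180)) (XT.nd (nat_lit 78) (nat_lit 0) (nat_lit 0) (XT.lf (nat_lit 0) (nat_lit 3079138883) (nat_lit 304) (nat_lit 12731584533) (nat_lit 76) (nat_lit 5157528421) (nat_lit 33) (nat_lit 5) (nat_lit 37) (nat_lit 5) (nat_lit 34) (nat_lit 5) (nat_lit 285) (nat_lit 256) (nat_lit 179)) (XT.lf (nat_lit 0) (nat_lit 5956012652) (nat_lit 304) (nat_lit 4125329993) (nat_lit 76) (nat_lit 11591969123) (nat_lit 33) (nat_lit 5) (nat_lit 37) (nat_lit 5) (nat_lit 34) (nat_lit 5) (nat_lit 286) (nat_lit 256) (nat_lit 178))))))))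
noncomputable def xc162 : XT := (XT.nd (nat_lit 1326) (nat_lit 532) (nat_lit 0) (XT.nd (nat_lit 624) (nat_lit 684) (nat_lit 0) (XT.nd (nat_lit 312) (nat_lit 304) (nat_lit 0) (XT.nd (nat_lit 156) (nat_lit 152) (nat_lit 0) (XT.nd (nat_lit 78) (nat_lit 0) (nat_lit 0) (XT.lf (nat_lit 0) (nat_lit 5054362410) (nat_lit 228) (nat_lit 3987293774) (nat_lit 304) (nat_lit 13368763452) (nat_lit 30) (nat_lit 5) (nat_lit 33) (nat_lit 5) (nat_lit 34) (nat_lit 5) (nat_lit 287) (nat_lit 256) (nat_lit 177)) (XT.lf (nat_lit 0) (nat_lit 12376560231) (nat_lit 304) (nat_lit 8402413970) (nat_lit 76) (nat_lit 2400699062) (nat_lit 30) (nat_lit 5) (nat_lit 34) (nat_lit 5) (nat_lit 31) (nat_lit 5) (nat_lit 288) (nat_lit 256) (nat_lit 176))) (XT.nd (nat_lit 78) (nat_lit 0) (nat_lit 0) (XT.lf (nat_lit 0) (nat_lit 945728586) (nat_lit 152) (nat_lit 14999582265) (nat_lit 228) (nat_lit 8038761064) (nat_lit 28) (nat_lit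 5) (nat_lit 30) (nat_lit 5) (nat_lit 31) (nat_lit 5) (nat_lit 289) (nat_lit 256) (nat_lit 175)) (XT.lf (nat_lit 0) (nat_lit 11035196220) (nat_lit 152) (nat_lit 8786914783) (nat_lit 228) (nat_lit 5000134525) (nat_lit 28) (nat_lit 5) (nat_lit 30) (nat_lit 5) (nat_lit 31) (nat_lit 5) (nat_lit 290) (nat_lit 256) (nat_lit 174)))) (XT.nd (nat_lit 156) (nat_lit 0) (nat_lit 0) (XT.nd (nat_lit 78) (nat_lit 304) (nat_lit 0) (XT.lf (nat_lit 0) (nat_lit 21612189720) (nat_lit 152) (nat_lit 2268478637) (nat_lit 228) (nat_lit 1822297538) (nat_lit 28) (nat_lit 5) (nat_lit 30) (nat_lit 5) (nat_lit 31) (nat_lit 5) (nat_lit 291) (nat_lit 256) (nat_lit 173)) (XT.lf (nat_lit 0) (nat_lit 1625169237) (nat_lit 304) (nat_lit 20445481343) (nat_lit 76) (nat_lit 4547959793) (nat_lit 24) (nat_lit 5) (nat_lit 28) (nat_lit 5) (nat_lit 25) (nat_lit 5) (nat_lit 292) (nat_lit 256) (nat_lit 172))) (XT.nd (nat_lit 78)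 (nat_lit 0) (nat_lit 0) (XT.lf (nat_lit 0) (nat_lit 5279872086) (nat_lit 304) (nat_lit 10569335143) (nat_lit 76) (nat_lit 11724560277) (nat_lit 24) (nat_lit 5) (nat_lit 28) (nat_lit 5) (nat_lit 25) (nat_lit 5) (nat_lit 293) (nat_lit 256) (nat_lit 171)) (XT.lf (nat_lit 0) (nat_lit 9106358370) (nat_lit 304) (nat_lit 215397262) (nat_lit 76) (nat_lit 19255502367) (nat_lit 24) (nat_lit 5) (nat_lit 28) (nat_lit 5) (nat_lit 25) (nat_lit 5) (nat_lit 294) (nat_lit 256) (nat_lit 170))))) (XT.nd (nat_lit 312) (nat_lit 380) (nat_lit 0) (XT.nd (nat_lit 156) (nat_lit 152) (nat_lit 0) (XT.nd (nat_lit 78) (nat_lit 0) (nat_lit 0) (XT.lf (nat_lit 0) (nat_lit 10992823536) (nat_lit 152) (nat_lit 2292544015) (nat_lit 228) (nat_lit 16337522123) (nat_lit 22) (nat_lit 5) (nat_lit 24) (nat_lit 5) (nat_lit 25) (nat_lit 5) (nat_lit 295) (nat_lit 256) (nat_lit 169)) (XT.lf (nat_lit 0) (nat_lit 17746231415) (nat_lit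 228) (nat_lit 8046651925) (nat_lit 76) (nat_lit 4924299703) (nat_lit 22) (nat_lit 5) (nat_lit 25) (nat_lit 5) (nat_lit 23) (nat_lit 5) (nat_lit 296) (nat_lit 256) (nat_lit 168))) (XT.nd (nat_lit 78) (nat_lit 0) (nat_lit 0) (XT.lf (nat_lit 0) (nat_lit 3113265561) (nat_lit 152) (nat_lit 19393306804) (nat_lit 228) (nat_lit 9355821137) (nat_lit 20) (nat_lit 5) (nat_lit 22) (nat_lit 5) (nat_lit 23) (nat_lit 5) (nat_lit 297) (nat_lit 256) (nat_lit 167)) (XT.lf (nat_lit 0) (nat_lit 15096049376) (nat_lit 152) (nat_lit 12535637640) (nat_lit 228) (nat_lit 5426862602) (nat_lit 20) (nat_lit 5) (nat_lit 22) (nat_lit 5) (nat_lit 23) (nat_lit 5) (nat_lit 298) (nat_lit 256) (nat_lit 166)))) (XT.nd (nat_lit 156) (nat_lit 152) (nat_lit 0) (XT.nd (nat_lit 78) (nat_lit 228) (nat_lit 0) (XT.lf (nat_lit 0) (nat_lit 27664171306) (nat_lit 152) (nat_lit 5339822007) (nat_lit 228) (nat_lit 1310995304) (nat_lit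 20) (nat_lit 5) (nat_lit 22) (nat_lit 5) (nat_lit 23) (nat_lit 5) (nat_lit 299) (nat_lit 256) (nat_lit 165)) (XT.lf (nat_lit 0) (nat_lit 3025491901) (nat_lit 228) (nat_lit 30328049789) (nat_lit 76) (nat_lit 2272818138) (nat_lit 17) (nat_lit 5) (nat_lit 20) (nat_lit 5) (nat_lit 18) (nat_lit 5) (nat_lit 300) (nat_lit 256) (nat_lit 164))) (XT.nd (nat_lit 78) (nat_lit 152) (nat_lit 0) (XT.lf (nat_lit 0) (nat_lit 7728110043) (nat_lit 228) (nat_lit 19046361807) (nat_lit 76) (nat_lit 10218103830) (nat_lit 17) (nat_lit 5) (nat_lit 20) (nat_lit 5) (nat_lit 18) (nat_lit 5) (nat_lit 301) (nat_lit 256) (nat_lit 163)) (XT.nd (nat_lit 78) (nat_lit 152) (nat_lit 0) (XT.lf (nat_lit 0) (nat_lit 12657616488) (nat_lit 228) (nat_lit 7213553998) (nat_lit 76) (nat_lit 18556361962) (nat_lit 17) (nat_lit 5) (nat_lit 20) (nat_lit 5) (nat_lit 18) (nat_lit 5) (nat_lit 302) (nat_lit 256) (nat_lit 162)) (XT.lf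 (nat_lit 0) (nat_lit 5370434429) (nat_lit 152) (nat_lit 12539161258) (nat_lit 228) (nat_lit 22020858634) (nat_lit 15) (nat_lit 5) (nat_lit 17) (nat_lit 5) (nat_lit 18) (nat_lit 5) (nat_lit 303) (nat_lit 256) (nat_lit 161))))))) (XT.nd (nat_lit 702) (nat_lit 228) (nat_lit 0) (XT.nd (nat_lit 312) (nat_lit 228) (nat_lit 0) (XT.nd (nat_lit 156) (nat_lit 76) (nat_lit 0) (XT.nd (nat_lit 78) (nat_lit 0) (nat_lit 0) (XT.lf (nat_lit 0) (nat_lit 18821912521) (nat_lit 152) (nat_lit 4716760404) (nat_lit 228) (nat_lit 17964140732) (nat_lit 15) (nat_lit 5) (nat_lit 17) (nat_lit 5) (nat_lit 18) (nat_lit 5) (nat_lit 304) (nat_lit 256) (nat_lit 160)) (XT.lf (nat_lit 0) (nat_lit 29496430704) (nat_lit 228) (nat_lit 10274304202) (nat_lit 76) (nat_lit 3380710263) (nat_lit 15) (nat_lit 5) (nat_lit 18) (nat_lit 5) (nat_lit 16) (nat_lit 4) (nat_lit 305) (nat_lit 256) (nat_lit 159))) (XT.nd (nat_lit 78) (nat_lit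 0) (nat_lit 0) (XT.lf (nat_lit 0) (nat_lit 2752064233) (nat_lit 76) (nat_lit 33113286800) (nat_lit 152) (nat_lit 9011508297) (nat_lit 14) (nat_lit 5) (nat_lit 15) (nat_lit 5) (nat_lit 16) (nat_lit 4) (nat_lit 306) (nat_lit 256) (nat_lit 158)) (XT.lf (nat_lit 0) (nat_lit 16775316629) (nat_lit 76) (nat_lit 25944544628) (nat_lit 152) (nat_lit 3960339849) (nat_lit 14) (nat_lit 5) (nat_lit 15) (nat_lit 5) (nat_lit 16) (nat_lit 4) (nat_lit 307) (nat_lit 256) (nat_lit 157)))) (XT.nd (nat_lit 156) (nat_lit 152) (nat_lit 0) (XT.nd (nat_lit 78) (nat_lit 0) (nat_lit 0) (XT.lf (nat_lit 0) (nat_lit 1293740261) (nat_lit 152) (nat_lit 17105789889) (nat_lit 76) (nat_lit 30173476405) (nat_lit 13) (nat_lit 5) (nat_lit 15) (nat_lit 5) (nat_lit 14) (nat_lit 5) (nat_lit 308) (nat_lit 256) (nat_lit 156)) (XT.lf (nat_lit 0) (nat_lit 6671097669) (nat_lit 152) (nat_lit 3741985632) (nat_lit 76) (nat_lit 40144451643)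 (nat_lit 13) (nat_lit 5) (nat_lit 15) (nat_lit 5) (nat_lit 14) (nat_lit 5) (nat_lit 309) (nat_lit 256) (nat_lit 155))) (XT.nd (nat_lit 78) (nat_lit 0) (nat_lit 0) (XT.lf (nat_lit 0) (nat_lit 10620088021) (nat_lit 152) (nat_lit 1857012530) (nat_lit 228) (nat_lit 40156211921) (nat_lit 11) (nat_lit 5) (nat_lit 13) (nat_lit 5) (nat_lit 14) (nat_lit 5) (nat_lit 310) (nat_lit 256) (nat_lit 154)) (XT.nd (nat_lit 78) (nat_lit 0) (nat_lit 0) (XT.lf (nat_lit 0) (nat_lit 18743130632) (nat_lit 228) (nat_lit 29101759067) (nat_lit 76) (nat_lit 6959513871) (nat_lit 11) (nat_lit 5) (nat_lit 14) (nat_lit 5) (nat_lit 12) (nat_lit 4) (nat_lit 311) (nat_lit 256) (nat_lit 153)) (XT.lf (nat_lit 0) (nat_lit 25347234133) (nat_lit 228) (nat_lit 15584609224) (nat_lit 76) (nat_lit 16150977792) (nat_lit 11) (nat_lit 5) (nat_lit 14) (nat_lit 5) (nat_lit 12) (nat_lit 4) (nat_lit 312) (nat_lit 256) (nat_lit 152))))))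 (XT.nd (nat_lit 312) (nat_lit 152) (nat_lit 0) (XT.nd (nat_lit 156) (nat_lit 0) (nat_lit 0) (XT.nd (nat_lit 78) (nat_lit 76) (nat_lit 0) (XT.lf (nat_lit 0) (nat_lit 32276141941) (nat_lit 228) (nat_lit 1400598060) (nat_lit 76) (nat_lit 25798699670) (nat_lit 11) (nat_lit 5) (nat_lit 14) (nat_lit 5) (nat_lit 12) (nat_lit 4) (nat_lit 313) (nat_lit 256) (nat_lit 151)) (XT.lf (nat_lit 0) (nat_lit 13929889329) (nat_lit 76) (nat_lit 25833946736) (nat_lit 152) (nat_lit 22213245552) (nat_lit 10) (nat_lit 5) (nat_lit 11) (nat_lit 5) (nat_lit 12) (nat_lit 4) (nat_lit 314) (nat_lit 256) (nat_lit 150))) (XT.nd (nat_lit 78) (nat_lit 0) (nat_lit 0) (XT.lf (nat_lit 0) (nat_lit 30067097097) (nat_lit 76) (nat_lit 17577507246) (nat_lit 152) (nat_lit 16958275932) (nat_lit 10) (nat_lit 5) (nat_lit 11) (nat_lit 5) (nat_lit 12) (nat_lit 4) (nat_lit 315) (nat_lit 256) (nat_lit 149)) (XT.lf (nat_lit 0) (nat_lit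 47003137070) (nat_lit 76) (nat_lit 8911483151) (nat_lit 152) (nat_lit 11445596844) (nat_lit 10) (nat_lit 5) (nat_lit 11) (nat_lit 5) (nat_lit 12) (nat_lit 4) (nat_lit 316) (nat_lit 256) (nat_lit 148)))) (XT.nd (nat_lit 156) (nat_lit 0) (nat_lit 0) (XT.nd (nat_lit 78) (nat_lit 152) (nat_lit 0) (XT.lf (nat_lit 0) (nat_lit 64596458814) (nat_lit 152) (nat_lit 5480208525) (nat_lit 0) (nat_lit 178845501) (nat_lit 10) (nat_lit 5) (nat_lit 12) (nat_lit 4) (nat_lit 10) (nat_lit 4) (nat_lit 317) (nat_lit 256) (nat_lit 147)) (XT.lf (nat_lit 0) (nat_lit 711209760) (nat_lit 152) (nat_lit 62974744048) (nat_lit 76) (nat_lit 9593914965) (nat_lit 8) (nat_lit 5) (nat_lit 10) (nat_lit 5) (nat_lit 9) (nat_lit 4) (nat_lit 318) (nat_lit 256) (nat_lit 146))) (XT.nd (nat_lit 78) (nat_lit 0) (nat_lit 0) (XT.lf (nat_lit 0) (nat_lit 7299762436) (nat_lit 152) (nat_lit 49482602247) (nat_lit 76) (nat_lit 19663948520)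 (nat_lit 8) (nat_lit 5) (nat_lit 10) (nat_lit 5) (nat_lit 9) (nat_lit 4) (nat_lit 319) (nat_lit 256) (nat_lit 145)) (XT.nd (nat_lit 78) (nat_lit 0) (nat_lit 0) (XT.lf (nat_lit 0) (nat_lit 14213576616) (nat_lit 152) (nat_lit 35322989067) (nat_lit 76) (nat_lit 30234729259) (nat_lit 8) (nat_lit 5) (nat_lit 10) (nat_lit 5) (nat_lit 9) (nat_lit 4) (nat_lit 320) (nat_lit 256) (nat_lit 144)) (XT.lf (nat_lit 0) (nat_lit 21469113764) (nat_lit 152) (nat_lit 20462191144) (nat_lit 76) (nat_lit 41331425709) (nat_lit 8) (nat_lit 5) (nat_lit 10) (nat_lit 5) (nat_lit 9) (nat_lit 4) (nat_lit 321) (nat_lit 256) (nat_lit 143))))))))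
noncomputable def xc163 : XT := (XT.nd (nat_lit 1326) (nat_lit 76) (nat_lit 0) (XT.nd (nat_lit 624) (nat_lit 152) (nat_lit 0) (XT.nd (nat_lit 312) (nat_lit 76) (nat_lit 0) (XT.nd (nat_lit 156) (nat_lit 0) (nat_lit 0) (XT.nd (nat_lit 78) (nat_lit 76) (nat_lit 0) (XT.lf (nat_lit 0) (nat_lit 29083648967) (nat_lit 152) (nat_lit 4864825624) (nat_lit 76) (nat_lit 52980458575) (nat_lit 8) (nat_lit 5) (nat_lit 10) (nat_lit 5) (nat_lit 9) (nat_lit 4) (nat_lit 322) (nat_lit 256) (nat_lit 142)) (XT.lf (nat_lit 0) (nat_lit 11886692469) (nat_lit 76) (nat_lit 25374204184) (nat_lit 152) (nat_lit 53508455762) (nat_lit 7) (nat_lit 5) (nat_lit 8) (nat_lit 5) (nat_lit 9) (nat_lit 4) (nat_lit 323) (nat_lit 256) (nat_lit 141))) (XT.nd (nat_lit 78) (nat_lit 0) (nat_lit 0) (XT.lf (nat_lit 0) (nat_lit 29638617553) (nat_lit 76) (nat_lit 16287255175) (nat_lit 152) (nat_lit 48871982178) (nat_lit 7) (nat_lit 5)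 (nat_lit 8) (nat_lit 5) (nat_lit 9) (nat_lit 4) (nat_lit 324) (nat_lit 256) (nat_lit 140)) (XT.lf (nat_lit 0) (nat_lit 48272363011) (nat_lit 76) (nat_lit 6748380147) (nat_lit 152) (nat_lit 44007212400) (nat_lit 7) (nat_lit 5) (nat_lit 8) (nat_lit 5) (nat_lit 9) (nat_lit 4) (nat_lit 325) (nat_lit 256) (nat_lit 139)))) (XT.nd (nat_lit 156) (nat_lit 76) (nat_lit 0) (XT.nd (nat_lit 78) (nat_lit 0) (nat_lit 0) (XT.lf (nat_lit 0) (nat_lit 64618140266) (nat_lit 152) (nat_lit 35688409006) (nat_lit 0) (nat_lit 3160627875) (nat_lit 7) (nat_lit 5) (nat_lit 9) (nat_lit 4) (nat_lit 7) (nat_lit 4) (nat_lit 326) (nat_lit 256) (nat_lit 138)) (XT.lf (nat_lit 0) (nat_lit 74802959537) (nat_lit 152) (nat_lit 19983857022) (nat_lit 0) (nat_lit 13336170460) (nat_lit 7) (nat_lit 5) (nat_lit 9) (nat_lit 4) (nat_lit 7) (nat_lit 4) (nat_lit 327) (nat_lit 256) (nat_lit 137))) (XT.nd (nat_lit 78) (nat_lit 76) (nat_lit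 0) (XT.lf (nat_lit 0) (nat_lit 85494089415) (nat_lit 152) (nat_lit 3499183679) (nat_lit 0) (nat_lit 24018465399) (nat_lit 7) (nat_lit 5) (nat_lit 9) (nat_lit 4) (nat_lit 7) (nat_lit 4) (nat_lit 328) (nat_lit 256) (nat_lit 136)) (XT.lf (nat_lit 0) (nat_lit 14261311268) (nat_lit 76) (nat_lit 82678332739) (nat_lit 76) (nat_lit 21194294495) (nat_lit 6) (nat_lit 4) (nat_lit 7) (nat_lit 5) (nat_lit 7) (nat_lit 4) (nat_lit 329) (nat_lit 256) (nat_lit 135))))) (XT.nd (nat_lit 312) (nat_lit 76) (nat_lit 0) (XT.nd (nat_lit 156) (nat_lit 76) (nat_lit 0) (XT.nd (nat_lit 78) (nat_lit 0) (nat_lit 0) (XT.lf (nat_lit 0) (nat_lit 33026530070) (nat_lit 76) (nat_lit 75987474006) (nat_lit 76) (nat_lit 14495422211) (nat_lit 6) (nat_lit 4) (nat_lit 7) (nat_lit 5) (nat_lit 7) (nat_lit 4) (nat_lit 330) (nat_lit 256) (nat_lit 134)) (XT.lf (nat_lit 0) (nat_lit 52725453003) (nat_lit 76) (nat_lit 68964026648)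 (nat_lit 76) (nat_lit 7464342901) (nat_lit 6) (nat_lit 4) (nat_lit 7) (nat_lit 5) (nat_lit 7) (nat_lit 4) (nat_lit 331) (nat_lit 256) (nat_lit 133))) (XT.nd (nat_lit 78) (nat_lit 76) (nat_lit 0) (XT.lf (nat_lit 0) (nat_lit 73404982265) (nat_lit 76) (nat_lit 61591268172) (nat_lit 76) (nat_lit 84315899) (nat_lit 6) (nat_lit 4) (nat_lit 7) (nat_lit 5) (nat_lit 7) (nat_lit 4) (nat_lit 332) (nat_lit 256) (nat_lit 132)) (XT.lf (nat_lit 0) (nat_lit 7416991067) (nat_lit 152) (nat_lit 46309042990) (nat_lit 76) (nat_lit 87571753430) (nat_lit 5) (nat_lit 5) (nat_lit 7) (nat_lit 5) (nat_lit 6) (nat_lit 4) (nat_lit 333) (nat_lit 256) (nat_lit 131)))) (XT.nd (nat_lit 156) (nat_lit 76) (nat_lit 0) (XT.nd (nat_lit 78) (nat_lit 0) (nat_lit 0) (XT.lf (nat_lit 0) (nat_lit 15288241510) (nat_lit 152) (nat_lit 30179572351) (nat_lit 76) (nat_lit 102358104403) (nat_lit 5) (nat_lit 5) (nat_lit 7) (nat_lit 5)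 (nat_lit 6) (nat_lit 4) (nat_lit 334) (nat_lit 256) (nat_lit 130)) (XT.lf (nat_lit 0) (nat_lit 23550875136) (nat_lit 152) (nat_lit 13247452242) (nat_lit 76) (nat_lit 117882240273) (nat_lit 5) (nat_lit 5) (nat_lit 7) (nat_lit 5) (nat_lit 6) (nat_lit 4) (nat_lit 335) (nat_lit 256) (nat_lit 129))) (XT.nd (nat_lit 78) (nat_lit 0) (nat_lit 0) (XT.lf (nat_lit 0) (nat_lit 4677335863) (nat_lit 76) (nat_lit 27620255341) (nat_lit 152) (nat_lit 129576813726) (nat_lit 4) (nat_lit 5) (nat_lit 5) (nat_lit 5) (nat_lit 6) (nat_lit 4) (nat_lit 336) (nat_lit 256) (nat_lit 128)) (XT.nd (nat_lit 78) (nat_lit 0) (nat_lit 0) (XT.lf (nat_lit 0) (nat_lit 23954701779) (nat_lit 76) (nat_lit 17749260643) (nat_lit 152) (nat_lit 127712858503) (nat_lit 4) (nat_lit 5) (nat_lit 5) (nat_lit 5) (nat_lit 6) (nat_lit 4) (nat_lit 337) (nat_lit 256) (nat_lit 127)) (XT.lf (nat_lit 0) (nat_lit 44192523396) (nat_lit 76) (nat_lit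 7386192930) (nat_lit 152) (nat_lit 125757740870) (nat_lit 4) (nat_lit 5) (nat_lit 5) (nat_lit 5) (nat_lit 6) (nat_lit 4) (nat_lit 338) (nat_lit 256) (nat_lit 126))))))) (XT.nd (nat_lit 702) (nat_lit 0) (nat_lit 0) (XT.nd (nat_lit 312) (nat_lit 76) (nat_lit 0) (XT.nd (nat_lit 156) (nat_lit 0) (nat_lit 0) (XT.nd (nat_lit 78) (nat_lit 0) (nat_lit 0) (XT.lf (nat_lit 0) (nat_lit 61999909463) (nat_lit 152) (nat_lit 120267729244) (nat_lit 0) (nat_lit 3381804053) (nat_lit 4) (nat_lit 5) (nat_lit 6) (nat_lit 4) (nat_lit 4) (nat_lit 4) (nat_lit 339) (nat_lit 256) (nat_lit 125)) (XT.lf (nat_lit 0) (nat_lit 73061470578) (nat_lit 152) (nat_lit 106871964231) (nat_lit 0) (nat_lit 14438679812) (nat_lit 4) (nat_lit 5) (nat_lit 6) (nat_lit 4) (nat_lit 4) (nat_lit 4) (nat_lit 340) (nat_lit 256) (nat_lit 124))) (XT.nd (nat_lit 78) (nat_lit 0) (nat_lit 0) (XT.lf (nat_lit 0) (nat_lit 84674417552) (nat_lit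 152) (nat_lit 92809424910) (nat_lit 0) (nat_lit 26047164541) (nat_lit 4) (nat_lit 5) (nat_lit 6) (nat_lit 4) (nat_lit 4) (nat_lit 4) (nat_lit 341) (nat_lit 256) (nat_lit 123)) (XT.lf (nat_lit 0) (nat_lit 96866400257) (nat_lit 152) (nat_lit 78046629046) (nat_lit 0) (nat_lit 38234897490) (nat_lit 4) (nat_lit 5) (nat_lit 6) (nat_lit 4) (nat_lit 4) (nat_lit 4) (nat_lit 342) (nat_lit 256) (nat_lit 122)))) (XT.nd (nat_lit 156) (nat_lit 76) (nat_lit 0) (XT.nd (nat_lit 78) (nat_lit 0) (nat_lit 0) (XT.lf (nat_lit 0) (nat_lit 109666447225) (nat_lit 152) (nat_lit 62548427124) (nat_lit 0) (nat_lit 51030897070) (nat_lit 4) (nat_lit 5) (nat_lit 6) (nat_lit 4) (nat_lit 4) (nat_lit 4) (nat_lit 343) (nat_lit 256) (nat_lit 121)) (XT.lf (nat_lit 0) (nat_lit 123105034757) (nat_lit 152) (nat_lit 46277918664) (nat_lit 0) (nat_lit 64465629948) (nat_lit 4) (nat_lit 5) (nat_lit 6) (nat_lit 4) (nat_lit 4) (nat_lit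 4) (nat_lit 344) (nat_lit 256) (nat_lit 120))) (XT.nd (nat_lit 78) (nat_lit 76) (nat_lit 0) (XT.lf (nat_lit 0) (nat_lit 137214159491) (nat_lit 152) (nat_lit 29196364359) (nat_lit 0) (nat_lit 78571083582) (nat_lit 4) (nat_lit 5) (nat_lit 6) (nat_lit 4) (nat_lit 4) (nat_lit 4) (nat_lit 345) (nat_lit 256) (nat_lit 119)) (XT.nd (nat_lit 78) (nat_lit 76) (nat_lit 0) (XT.lf (nat_lit 0) (nat_lit 152027414581) (nat_lit 152) (nat_lit 11263093843) (nat_lit 0) (nat_lit 93380842386) (nat_lit 4) (nat_lit 5) (nat_lit 6) (nat_lit 4) (nat_lit 4) (nat_lit 4) (nat_lit 346) (nat_lit 256) (nat_lit 118)) (XT.lf (nat_lit 0) (nat_lit 7814710693) (nat_lit 76) (nat_lit 159887368522) (nat_lit 76) (nat_lit 101237466531) (nat_lit 3) (nat_lit 4) (nat_lit 4) (nat_lit 5) (nat_lit 4) (nat_lit 4) (nat_lit 347) (nat_lit 256) (nat_lit 117)))))) (XT.nd (nat_lit 312) (nat_lit 0) (nat_lit 0) (XT.nd (nat_lit 156) (nat_lit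 0) (nat_lit 0) (XT.nd (nat_lit 78) (nat_lit 0) (nat_lit 0) (XT.lf (nat_lit 0) (nat_lit 28235221867) (nat_lit 76) (nat_lit 156114763998) (nat_lit 76) (nat_lit 97461690773) (nat_lit 3) (nat_lit 4) (nat_lit 4) (nat_lit 5) (nat_lit 4) (nat_lit 4) (nat_lit 348) (nat_lit 256) (nat_lit 116)) (XT.lf (nat_lit 0) (nat_lit 49674651193) (nat_lit 76) (nat_lit 152154458405) (nat_lit 76) (nat_lit 93498364958) (nat_lit 3) (nat_lit 4) (nat_lit 4) (nat_lit 5) (nat_lit 4) (nat_lit 4) (nat_lit 349) (nat_lit 256) (nat_lit 115))) (XT.nd (nat_lit 78) (nat_lit 0) (nat_lit 0) (XT.lf (nat_lit 0) (nat_lit 72184044933) (nat_lit 76) (nat_lit 147997022445) (nat_lit 76) (nat_lit 89338052595) (nat_lit 3) (nat_lit 4) (nat_lit 4) (nat_lit 5) (nat_lit 4) (nat_lit 4) (nat_lit 350) (nat_lit 256) (nat_lit 114)) (XT.lf (nat_lit 0) (nat_lit 95816996880) (nat_lit 76) (nat_lit 143632557459) (nat_lit 76) (nat_lit 84970848178)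 (nat_lit 3) (nat_lit 4) (nat_lit 4) (nat_lit 5) (nat_lit 4) (nat_lit 4) (nat_lit 351) (nat_lit 256) (nat_lit 113)))) (XT.nd (nat_lit 156) (nat_lit 0) (nat_lit 0) (XT.nd (nat_lit 78) (nat_lit 0) (nat_lit 0) (XT.lf (nat_lit 0) (nat_lit 120629775969) (nat_lit 76) (nat_lit 139050671865) (nat_lit 76) (nat_lit 80386353602) (nat_lit 3) (nat_lit 4) (nat_lit 4) (nat_lit 5) (nat_lit 4) (nat_lit 4) (nat_lit 352) (nat_lit 256) (nat_lit 112)) (XT.lf (nat_lit 0) (nat_lit 146681460244) (nat_lit 76) (nat_lit 134240456411) (nat_lit 76) (nat_lit 75573653404) (nat_lit 3) (nat_lit 4) (nat_lit 4) (nat_lit 5) (nat_lit 4) (nat_lit 4) (nat_lit 353) (nat_lit 256) (nat_lit 111))) (XT.nd (nat_lit 78) (nat_lit 0) (nat_lit 0) (XT.lf (nat_lit 0) (nat_lit 174034077525) (nat_lit 76) (nat_lit 129190458204) (nat_lit 76) (nat_lit 70521288773) (nat_lit 3) (nat_lit 4) (nat_lit 4) (nat_lit 5) (nat_lit 4) (nat_lit 4) (nat_lit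 354) (nat_lit 256) (nat_lit 110)) (XT.nd (nat_lit 78) (nat_lit 0) (nat_lit 0) (XT.lf (nat_lit 0) (nat_lit 202752753092) (nat_lit 76) (nat_lit 123888653438) (nat_lit 76) (nat_lit 65217230270) (nat_lit 3) (nat_lit 4) (nat_lit 4) (nat_lit 5) (nat_lit 4) (nat_lit 4) (nat_lit 355) (nat_lit 256) (nat_lit 109)) (XT.lf (nat_lit 0) (nat_lit 232905864743) (nat_lit 76) (nat_lit 118322418768) (nat_lit 76) (nat_lit 59648849184) (nat_lit 3) (nat_lit 4) (nat_lit 4) (nat_lit 5) (nat_lit 4) (nat_lit 4) (nat_lit 356) (nat_lit 256) (nat_lit 108))))))))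
noncomputable def xc164 : XT := (XT.nd (nat_lit 30966) (nat_lit 0) (nat_lit 1900) (XT.nd (nat_lit 30264) (nat_lit 0) (nat_lit 4028) (XT.nd (nat_lit 29952) (nat_lit 0) (nat_lit 5472) (XT.nd (nat_lit 29796) (nat_lit 0) (nat_lit 5396) (XT.nd (nat_lit 29718) (nat_lit 0) (nat_lit 5396) (XT.lf (nat_lit 0) (nat_lit 264565205602) (nat_lit 76) (nat_lit 112478501255) (nat_lit 76) (nat_lit 53802887466) (nat_lit 3) (nat_lit 4) (nat_lit 4) (nat_lit 5) (nat_lit 4) (nat_lit 4) (nat_lit 357) (nat_lit 256) (nat_lit 107)) (XT.lf (nat_lit 0) (nat_lit 1579315199) (nat_lit 684) (nat_lit 1688530136) (nat_lit 684) (nat_lit 1688530136) (nat_lit 74) (nat_lit 3) (nat_lit 83) (nat_lit 3) (nat_lit 83) (nat_lit 5) (nat_lit 257) (nat_lit 257) (nat_lit 206))) (XT.nd (nat_lit 78) (nat_lit 0) (nat_lit 76) (XT.lf (nat_lit 76) (nat_lit 796826889) (nat_lit 0) (nat_lit 3094370174) (nat_lit 684) (nat_lit 6233907816) (nat_lit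 75) (nat_lit 5) (nat_lit 74) (nat_lit 3) (nat_lit 83) (nat_lit 5) (nat_lit 258) (nat_lit 257) (nat_lit 205)) (XT.lf (nat_lit 0) (nat_lit 4685531114) (nat_lit 608) (nat_lit 5082502258) (nat_lit 684) (nat_lit 578964447) (nat_lit 75) (nat_lit 5) (nat_lit 83) (nat_lit 5) (nat_lit 84) (nat_lit 5) (nat_lit 259) (nat_lit 257) (nat_lit 204)))) (XT.nd (nat_lit 156) (nat_lit 0) (nat_lit 76) (XT.nd (nat_lit 78) (nat_lit 0) (nat_lit 0) (XT.lf (nat_lit 0) (nat_lit 5531172129) (nat_lit 608) (nat_lit 698876353) (nat_lit 684) (nat_lit 4349527184) (nat_lit 75) (nat_lit 5) (nat_lit 83) (nat_lit 5) (nat_lit 84) (nat_lit 5) (nat_lit 260) (nat_lit 257) (nat_lit 203)) (XT.lf (nat_lit 76) (nat_lit 4009683636) (nat_lit 0) (nat_lit 2434740511) (nat_lit 684) (nat_lit 4378253499) (nat_lit 76) (nat_lit 5) (nat_lit 75) (nat_lit 5) (nat_lit 84) (nat_lit 5) (nat_lit 261) (nat_lit 257) (nat_lit 202))) (XT.nd (nat_lit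 78) (nat_lit 0) (nat_lit 0) (XT.lf (nat_lit 0) (nat_lit 7403941007) (nat_lit 608) (nat_lit 2148183894) (nat_lit 684) (nat_lit 1525933701) (nat_lit 76) (nat_lit 5) (nat_lit 84) (nat_lit 5) (nat_lit 85) (nat_lit 5) (nat_lit 262) (nat_lit 257) (nat_lit 201)) (XT.lf (nat_lit 76) (nat_lit 2775572485) (nat_lit 0) (nat_lit 5685173620) (nat_lit 684) (nat_lit 2883143537) (nat_lit 77) (nat_lit 5) (nat_lit 76) (nat_lit 5) (nat_lit 85) (nat_lit 5) (nat_lit 263) (nat_lit 257) (nat_lit 200))))) (XT.nd (nat_lit 312) (nat_lit 912) (nat_lit 0) (XT.nd (nat_lit 156) (nat_lit 608) (nat_lit 0) (XT.nd (nat_lit 78) (nat_lit 0) (nat_lit 76) (XT.lf (nat_lit 76) (nat_lit 7997255114) (nat_lit 0) (nat_lit 1576840401) (nat_lit 684) (nat_lit 2048871190) (nat_lit 77) (nat_lit 5) (nat_lit 76) (nat_lit 5) (nat_lit 85) (nat_lit 5) (nat_lit 264) (nat_lit 257) (nat_lit 199)) (XT.lf (nat_lit 76) (nat_lit 1547225043) (nat_lit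 0) (nat_lit 9231800481) (nat_lit 684) (nat_lit 1135309461) (nat_lit 78) (nat_lit 5) (nat_lit 77) (nat_lit 5) (nat_lit 86) (nat_lit 5) (nat_lit 265) (nat_lit 257) (nat_lit 198))) (XT.nd (nat_lit 78) (nat_lit 684) (nat_lit 0) (XT.lf (nat_lit 76) (nat_lit 7054771700) (nat_lit 0) (nat_lit 5046404816) (nat_lit 684) (nat_lit 116373127) (nat_lit 78) (nat_lit 5) (nat_lit 77) (nat_lit 5) (nat_lit 86) (nat_lit 5) (nat_lit 266) (nat_lit 257) (nat_lit 197)) (XT.lf (nat_lit 76) (nat_lit 272424864) (nat_lit 0) (nat_lit 625797555) (nat_lit 760) (nat_lit 11638311642) (nat_lit 69) (nat_lit 5) (nat_lit 68) (nat_lit 5) (nat_lit 78) (nat_lit 5) (nat_lit 267) (nat_lit 257) (nat_lit 196)))) (XT.nd (nat_lit 156) (nat_lit 988) (nat_lit 0) (XT.nd (nat_lit 78) (nat_lit 0) (nat_lit 0) (XT.lf (nat_lit 0) (nat_lit 2083287266) (nat_lit 684) (nat_lit 6798902429) (nat_lit 76) (nat_lit 3983109533) (nat_lit 69) (nat_lit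 5) (nat_lit 78) (nat_lit 5) (nat_lit 70) (nat_lit 5) (nat_lit 268) (nat_lit 257) (nat_lit 195)) (XT.lf (nat_lit 0) (nat_lit 3311278061) (nat_lit 684) (nat_lit 1093927270) (nat_lit 76) (nat_lit 8806217913) (nat_lit 69) (nat_lit 5) (nat_lit 78) (nat_lit 5) (nat_lit 70) (nat_lit 5) (nat_lit 269) (nat_lit 257) (nat_lit 194))) (XT.nd (nat_lit 78) (nat_lit 304) (nat_lit 0) (XT.lf (nat_lit 0) (nat_lit 4659918011) (nat_lit 760) (nat_lit 8542910102) (nat_lit 76) (nat_lit 369162128) (nat_lit 60) (nat_lit 5) (nat_lit 70) (nat_lit 5) (nat_lit 61) (nat_lit 5) (nat_lit 270) (nat_lit 257) (nat_lit 193)) (XT.nd (nat_lit 78) (nat_lit 304) (nat_lit 0) (XT.lf (nat_lit 0) (nat_lit 6142623833) (nat_lit 760) (nat_lit 2549091795) (nat_lit 76) (nat_lit 5255632805) (nat_lit 60) (nat_lit 5) (nat_lit 70) (nat_lit 5) (nat_lit 61) (nat_lit 5) (nat_lit 271) (nat_lit 257) (nat_lit 192)) (XT.lf (nat_lit 0) (nat_lit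 3845468895) (nat_lit 304) (nat_lit 3890784593) (nat_lit 380) (nat_lit 6603471652) (nat_lit 56) (nat_lit 5) (nat_lit 60) (nat_lit 5) (nat_lit 61) (nat_lit 5) (nat_lit 272) (nat_lit 257) (nat_lit 191))))))) (XT.nd (nat_lit 702) (nat_lit 912) (nat_lit 0) (XT.nd (nat_lit 312) (nat_lit 608) (nat_lit 0) (XT.nd (nat_lit 156) (nat_lit 304) (nat_lit 0) (XT.nd (nat_lit 78) (nat_lit 304) (nat_lit 0) (XT.lf (nat_lit 0) (nat_lit 9448931578) (nat_lit 380) (nat_lit 4142865997) (nat_lit 76) (nat_lit 1158040507) (nat_lit 56) (nat_lit 5) (nat_lit 61) (nat_lit 5) (nat_lit 57) (nat_lit 5) (nat_lit 273) (nat_lit 257) (nat_lit 190)) (XT.lf (nat_lit 0) (nat_lit 2521200073) (nat_lit 304) (nat_lit 8807791190) (nat_lit 380) (nat_lit 3847459687) (nat_lit 52) (nat_lit 5) (nat_lit 56) (nat_lit 5) (nat_lit 57) (nat_lit 5) (nat_lit 274) (nat_lit 257) (nat_lit 189))) (XT.nd (nat_lit 78) (nat_lit 304) (nat_lit 0) (XT.lf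 (nat_lit 0) (nat_lit 9640847601) (nat_lit 304) (nat_lit 3711653156) (nat_lit 380) (nat_lit 2269499139) (nat_lit 52) (nat_lit 5) (nat_lit 56) (nat_lit 5) (nat_lit 57) (nat_lit 5) (nat_lit 275) (nat_lit 257) (nat_lit 188)) (XT.lf (nat_lit 0) (nat_lit 1011965760) (nat_lit 304) (nat_lit 14486874344) (nat_lit 380) (nat_lit 589977537) (nat_lit 48) (nat_lit 5) (nat_lit 52) (nat_lit 5) (nat_lit 53) (nat_lit 5) (nat_lit 276) (nat_lit 257) (nat_lit 187)))) (XT.nd (nat_lit 156) (nat_lit 532) (nat_lit 0) (XT.nd (nat_lit 78) (nat_lit 0) (nat_lit 0) (XT.lf (nat_lit 0) (nat_lit 1280250138) (nat_lit 380) (nat_lit 8114195619) (nat_lit 76) (nat_lit 7176467105) (nat_lit 47) (nat_lit 5) (nat_lit 52) (nat_lit 5) (nat_lit 48) (nat_lit 5) (nat_lit 277) (nat_lit 257) (nat_lit 186)) (XT.lf (nat_lit 0) (nat_lit 3205580117) (nat_lit 380) (nat_lit 833884580) (nat_lit 76) (nat_lit 13038157644) (nat_lit 47) (nat_lit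 5) (nat_lit 52) (nat_lit 5) (nat_lit 48) (nat_lit 5) (nat_lit 278) (nat_lit 257) (nat_lit 185))) (XT.nd (nat_lit 78) (nat_lit 228) (nat_lit 0) (XT.lf (nat_lit 0) (nat_lit 5345487365) (nat_lit 380) (nat_lit 10616463135) (nat_lit 76) (nat_lit 1641862194) (nat_lit 43) (nat_lit 5) (nat_lit 48) (nat_lit 5) (nat_lit 44) (nat_lit 5) (nat_lit 279) (nat_lit 257) (nat_lit 184)) (XT.nd (nat_lit 78) (nat_lit 228) (nat_lit 0) (XT.lf (nat_lit 0) (nat_lit 7655769193) (nat_lit 380) (nat_lit 3013838081) (nat_lit 76) (nat_lit 7483594367) (nat_lit 43) (nat_lit 5) (nat_lit 48) (nat_lit 5) (nat_lit 44) (nat_lit 5) (nat_lit 280) (nat_lit 257) (nat_lit 183)) (XT.lf (nat_lit 0) (nat_lit 5113166356) (nat_lit 228) (nat_lit 5031853168) (nat_lit 304) (nat_lit 8581923065) (nat_lit 40) (nat_lit 5) (nat_lit 43) (nat_lit 5) (nat_lit 44) (nat_lit 5) (nat_lit 281) (nat_lit 257) (nat_lit 182)))))) (XT.nd (nat_lit 312)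 (nat_lit 608) (nat_lit 0) (XT.nd (nat_lit 156) (nat_lit 76) (nat_lit 0) (XT.nd (nat_lit 78) (nat_lit 228) (nat_lit 0) (XT.lf (nat_lit 0) (nat_lit 12808526165) (nat_lit 304) (nat_lit 5610251071) (nat_lit 76) (nat_lit 908156298) (nat_lit 40) (nat_lit 5) (nat_lit 44) (nat_lit 5) (nat_lit 41) (nat_lit 5) (nat_lit 282) (nat_lit 257) (nat_lit 181)) (XT.lf (nat_lit 0) (nat_lit 2781028771) (nat_lit 228) (nat_lit 12934903066) (nat_lit 304) (nat_lit 4235506140) (nat_lit 37) (nat_lit 5) (nat_lit 40) (nat_lit 5) (nat_lit 41) (nat_lit 5) (nat_lit 283) (nat_lit 257) (nat_lit 180))) (XT.nd (nat_lit 78) (nat_lit 76) (nat_lit 0) (XT.lf (nat_lit 0) (nat_lit 11768010908) (nat_lit 228) (nat_lit 7080955989) (nat_lit 304) (nat_lit 1754235535) (nat_lit 37) (nat_lit 5) (nat_lit 40) (nat_lit 5) (nat_lit 41) (nat_lit 5) (nat_lit 284) (nat_lit 257) (nat_lit 179)) (XT.lf (nat_lit 0) (nat_lit 809533092) (nat_lit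 304) (nat_lit 114767424) (nat_lit 76) (nat_lit 20363349753) (nat_lit 36) (nat_lit 5) (nat_lit 40) (nat_lit 5) (nat_lit 37) (nat_lit 5) (nat_lit 285) (nat_lit 257) (nat_lit 178)))) (XT.nd (nat_lit 156) (nat_lit 380) (nat_lit 0) (XT.nd (nat_lit 78) (nat_lit 0) (nat_lit 0) (XT.lf (nat_lit 0) (nat_lit 3663271733) (nat_lit 304) (nat_lit 12794684794) (nat_lit 76) (nat_lit 5535930549) (nat_lit 33) (nat_lit 5) (nat_lit 37) (nat_lit 5) (nat_lit 34) (nat_lit 5) (nat_lit 286) (nat_lit 257) (nat_lit 177)) (XT.lf (nat_lit 0) (nat_lit 6663504624) (nat_lit 304) (nat_lit 3785426049) (nat_lit 76) (nat_lit 12286353966) (nat_lit 33) (nat_lit 5) (nat_lit 37) (nat_lit 5) (nat_lit 34) (nat_lit 5) (nat_lit 287) (nat_lit 257) (nat_lit 176))) (XT.nd (nat_lit 78) (nat_lit 152) (nat_lit 0) (XT.lf (nat_lit 0) (nat_lit 5844441774) (nat_lit 228) (nat_lit 4047869163) (nat_lit 304) (nat_lit 13617550466) (nat_lit 30)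 (nat_lit 5) (nat_lit 33) (nat_lit 5) (nat_lit 34) (nat_lit 5) (nat_lit 288) (nat_lit 257) (nat_lit 175)) (XT.nd (nat_lit 78) (nat_lit 152) (nat_lit 0) (XT.lf (nat_lit 0) (nat_lit 13377044274) (nat_lit 304) (nat_lit 8292750318) (nat_lit 76) (nat_lit 2648683707) (nat_lit 30) (nat_lit 5) (nat_lit 34) (nat_lit 5) (nat_lit 31) (nat_lit 5) (nat_lit 289) (nat_lit 257) (nat_lit 174)) (XT.lf (nat_lit 0) (nat_lit 1514254458) (nat_lit 152) (nat_lit 15599941879) (nat_lit 228) (nat_lit 8049454532) (nat_lit 28) (nat_lit 5) (nat_lit 30) (nat_lit 5) (nat_lit 31) (nat_lit 5) (nat_lit 290) (nat_lit 257) (nat_lit 173))))))))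
noncomputable def xc165 : XT := (XT.nd (nat_lit 1326) (nat_lit 532) (nat_lit 0) (XT.nd (nat_lit 624) (nat_lit 456) (nat_lit 0) (XT.nd (nat_lit 312) (nat_lit 304) (nat_lit 0) (XT.nd (nat_lit 156) (nat_lit 304) (nat_lit 0) (XT.nd (nat_lit 78) (nat_lit 0) (nat_lit 0) (XT.lf (nat_lit 0) (nat_lit 12083374547) (nat_lit 152) (nat_lit 9083765761) (nat_lit 228) (nat_lit 4877527361) (nat_lit 28) (nat_lit 5) (nat_lit 30) (nat_lit 5) (nat_lit 31) (nat_lit 5) (nat_lit 291) (nat_lit 257) (nat_lit 172)) (XT.lf (nat_lit 0) (nat_lit 23165578745) (nat_lit 152) (nat_lit 2246193272) (nat_lit 228) (nat_lit 1558542043) (nat_lit 28) (nat_lit 5) (nat_lit 30) (nat_lit 5) (nat_lit 31) (nat_lit 5) (nat_lit 292) (nat_lit 257) (nat_lit 171))) (XT.nd (nat_lit 78) (nat_lit 0) (nat_lit 0) (XT.lf (nat_lit 0) (nat_lit 2043259505) (nat_lit 304) (nat_lit 20975177155) (nat_lit 76) (nat_lit 4913404032) (nat_lit 24) (nat_lit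 5) (nat_lit 28) (nat_lit 5) (nat_lit 25) (nat_lit 5) (nat_lit 293) (nat_lit 257) (nat_lit 170)) (XT.lf (nat_lit 0) (nat_lit 5864657887) (nat_lit 304) (nat_lit 10628679752) (nat_lit 76) (nat_lit 12442260910) (nat_lit 24) (nat_lit 5) (nat_lit 28) (nat_lit 5) (nat_lit 25) (nat_lit 5) (nat_lit 294) (nat_lit 257) (nat_lit 169)))) (XT.nd (nat_lit 156) (nat_lit 152) (nat_lit 0) (XT.nd (nat_lit 78) (nat_lit 0) (nat_lit 0) (XT.lf (nat_lit 0) (nat_lit 227910429) (nat_lit 152) (nat_lit 9642840557) (nat_lit 228) (nat_lit 20119137395) (nat_lit 22) (nat_lit 5) (nat_lit 24) (nat_lit 5) (nat_lit 25) (nat_lit 5) (nat_lit 295) (nat_lit 257) (nat_lit 168)) (XT.lf (nat_lit 0) (nat_lit 11982041533) (nat_lit 152) (nat_lit 2265425400) (nat_lit 228) (nat_lit 16840933976) (nat_lit 22) (nat_lit 5) (nat_lit 24) (nat_lit 5) (nat_lit 25) (nat_lit 5) (nat_lit 296) (nat_lit 257) (nat_lit 167))) (XT.nd (nat_lit 78)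 (nat_lit 152) (nat_lit 0) (XT.lf (nat_lit 0) (nat_lit 18919299228) (nat_lit 228) (nat_lit 8017558788) (nat_lit 76) (nat_lit 5301189988) (nat_lit 22) (nat_lit 5) (nat_lit 25) (nat_lit 5) (nat_lit 23) (nat_lit 5) (nat_lit 297) (nat_lit 257) (nat_lit 166)) (XT.lf (nat_lit 0) (nat_lit 3693396093) (nat_lit 152) (nat_lit 20217280815) (nat_lit 228) (nat_lit 9530224730) (nat_lit 20) (nat_lit 5) (nat_lit 22) (nat_lit 5) (nat_lit 23) (nat_lit 5) (nat_lit 298) (nat_lit 257) (nat_lit 165))))) (XT.nd (nat_lit 312) (nat_lit 228) (nat_lit 0) (XT.nd (nat_lit 156) (nat_lit 228) (nat_lit 0) (XT.nd (nat_lit 78) (nat_lit 0) (nat_lit 0) (XT.lf (nat_lit 0) (nat_lit 16255106373) (nat_lit 152) (nat_lit 13023665875) (nat_lit 228) (nat_lit 5418789100) (nat_lit 20) (nat_lit 5) (nat_lit 22) (nat_lit 5) (nat_lit 23) (nat_lit 5) (nat_lit 299) (nat_lit 257) (nat_lit 164)) (XT.lf (nat_lit 0) (nat_lit 29432384184)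 (nat_lit 152) (nat_lit 5474666777) (nat_lit 228) (nat_lit 1110433991) (nat_lit 20) (nat_lit 5) (nat_lit 22) (nat_lit 5) (nat_lit 23) (nat_lit 5) (nat_lit 300) (nat_lit 257) (nat_lit 163))) (XT.nd (nat_lit 78) (nat_lit 0) (nat_lit 0) (XT.lf (nat_lit 0) (nat_lit 3430276827) (nat_lit 228) (nat_lit 31445712610) (nat_lit 76) (nat_lit 2518459400) (nat_lit 17) (nat_lit 5) (nat_lit 20) (nat_lit 5) (nat_lit 18) (nat_lit 5) (nat_lit 301) (nat_lit 257) (nat_lit 162)) (XT.lf (nat_lit 0) (nat_lit 8355953955) (nat_lit 228) (nat_lit 19618927832) (nat_lit 76) (nat_lit 10854723644) (nat_lit 17) (nat_lit 5) (nat_lit 20) (nat_lit 5) (nat_lit 18) (nat_lit 5) (nat_lit 302) (nat_lit 257) (nat_lit 161)))) (XT.nd (nat_lit 156) (nat_lit 76) (nat_lit 0) (XT.nd (nat_lit 78) (nat_lit 152) (nat_lit 0) (XT.lf (nat_lit 0) (nat_lit 13520438655) (nat_lit 228) (nat_lit 7212563064) (nat_lit 76) (nat_lit 19603908273)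 (nat_lit 17) (nat_lit 5) (nat_lit 20) (nat_lit 5) (nat_lit 18) (nat_lit 5) (nat_lit 303) (nat_lit 257) (nat_lit 160)) (XT.lf (nat_lit 0) (nat_lit 5994791419) (nat_lit 152) (nat_lit 13034831393) (nat_lit 228) (nat_lit 22885648752) (nat_lit 15) (nat_lit 5) (nat_lit 17) (nat_lit 5) (nat_lit 18) (nat_lit 5) (nat_lit 304) (nat_lit 257) (nat_lit 159))) (XT.nd (nat_lit 78) (nat_lit 76) (nat_lit 0) (XT.lf (nat_lit 0) (nat_lit 20101898879) (nat_lit 152) (nat_lit 4827562302) (nat_lit 228) (nat_lit 18637345089) (nat_lit 15) (nat_lit 5) (nat_lit 17) (nat_lit 5) (nat_lit 18) (nat_lit 5) (nat_lit 305) (nat_lit 257) (nat_lit 158)) (XT.nd (nat_lit 78) (nat_lit 76) (nat_lit 0) (XT.lf (nat_lit 0) (nat_lit 31176782501) (nat_lit 228) (nat_lit 10456508329) (nat_lit 76) (nat_lit 3665016429) (nat_lit 15) (nat_lit 5) (nat_lit 18) (nat_lit 5) (nat_lit 16) (nat_lit 4) (nat_lit 306) (nat_lit 257) (nat_lit 157))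 (XT.lf (nat_lit 0) (nat_lit 3215831575) (nat_lit 76) (nat_lit 34643622452) (nat_lit 152) (nat_lit 9250793492) (nat_lit 14) (nat_lit 5) (nat_lit 15) (nat_lit 5) (nat_lit 16) (nat_lit 4) (nat_lit 307) (nat_lit 257) (nat_lit 156))))))) (XT.nd (nat_lit 702) (nat_lit 228) (nat_lit 0) (XT.nd (nat_lit 312) (nat_lit 76) (nat_lit 0) (XT.nd (nat_lit 156) (nat_lit 152) (nat_lit 0) (XT.nd (nat_lit 78) (nat_lit 76) (nat_lit 0) (XT.lf (nat_lit 0) (nat_lit 17924714965) (nat_lit 76) (nat_lit 27122411204) (nat_lit 152) (nat_lit 3957128060) (nat_lit 14) (nat_lit 5) (nat_lit 15) (nat_lit 5) (nat_lit 16) (nat_lit 4) (nat_lit 308) (nat_lit 257) (nat_lit 155)) (XT.lf (nat_lit 0) (nat_lit 1543939849) (nat_lit 152) (nat_lit 17658748249) (nat_lit 76) (nat_lit 31789336386) (nat_lit 13) (nat_lit 5) (nat_lit 15) (nat_lit 5) (nat_lit 14) (nat_lit 5) (nat_lit 309) (nat_lit 257) (nat_lit 154))) (XT.nd (nat_lit 78)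 (nat_lit 152) (nat_lit 0) (XT.lf (nat_lit 0) (nat_lit 7181331195) (nat_lit 152) (nat_lit 3641150500) (nat_lit 76) (nat_lit 42253756283) (nat_lit 13) (nat_lit 5) (nat_lit 15) (nat_lit 5) (nat_lit 14) (nat_lit 5) (nat_lit 310) (nat_lit 257) (nat_lit 153)) (XT.lf (nat_lit 0) (nat_lit 11434382732) (nat_lit 152) (nat_lit 1839261175) (nat_lit 228) (nat_lit 41982376170) (nat_lit 11) (nat_lit 5) (nat_lit 13) (nat_lit 5) (nat_lit 14) (nat_lit 5) (nat_lit 311) (nat_lit 257) (nat_lit 152)))) (XT.nd (nat_lit 156) (nat_lit 76) (nat_lit 0) (XT.nd (nat_lit 78) (nat_lit 0) (nat_lit 0) (XT.lf (nat_lit 0) (nat_lit 19846396817) (nat_lit 228) (nat_lit 30280159858) (nat_lit 76) (nat_lit 7409453399) (nat_lit 11) (nat_lit 5) (nat_lit 14) (nat_lit 5) (nat_lit 12) (nat_lit 4) (nat_lit 312) (nat_lit 257) (nat_lit 151)) (XT.lf (nat_lit 0) (nat_lit 26772795510) (nat_lit 228) (nat_lit 16100328101) (nat_lit 76)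 (nat_lit 17055635096) (nat_lit 11) (nat_lit 5) (nat_lit 14) (nat_lit 5) (nat_lit 12) (nat_lit 4) (nat_lit 313) (nat_lit 257) (nat_lit 150))) (XT.nd (nat_lit 78) (nat_lit 76) (nat_lit 0) (XT.lf (nat_lit 0) (nat_lit 34040615390) (nat_lit 228) (nat_lit 1219664551) (nat_lit 76) (nat_lit 27181118857) (nat_lit 11) (nat_lit 5) (nat_lit 14) (nat_lit 5) (nat_lit 12) (nat_lit 4) (nat_lit 314) (nat_lit 257) (nat_lit 149)) (XT.nd (nat_lit 78) (nat_lit 0) (nat_lit 0) (XT.lf (nat_lit 0) (nat_lit 14873299411) (nat_lit 76) (nat_lit 27026075266) (nat_lit 152) (nat_lit 23168927453) (nat_lit 10) (nat_lit 5) (nat_lit 11) (nat_lit 5) (nat_lit 12) (nat_lit 4) (nat_lit 315) (nat_lit 257) (nat_lit 148)) (XT.lf (nat_lit 0) (nat_lit 31805609681) (nat_lit 76) (nat_lit 18361555174) (nat_lit 152) (nat_lit 17658589370) (nat_lit 10) (nat_lit 5) (nat_lit 11) (nat_lit 5) (nat_lit 12) (nat_lit 4) (nat_lit 316) (nat_lit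 257) (nat_lit 147)))))) (XT.nd (nat_lit 312) (nat_lit 76) (nat_lit 0) (XT.nd (nat_lit 156) (nat_lit 152) (nat_lit 0) (XT.nd (nat_lit 78) (nat_lit 0) (nat_lit 0) (XT.lf (nat_lit 0) (nat_lit 49577253665) (nat_lit 76) (nat_lit 9266745466) (nat_lit 152) (nat_lit 11877304916) (nat_lit 10) (nat_lit 5) (nat_lit 11) (nat_lit 5) (nat_lit 12) (nat_lit 4) (nat_lit 317) (nat_lit 257) (nat_lit 146)) (XT.lf (nat_lit 0) (nat_lit 67954908346) (nat_lit 152) (nat_lit 5535672673) (nat_lit 0) (nat_lit 271046157) (nat_lit 10) (nat_lit 5) (nat_lit 12) (nat_lit 4) (nat_lit 10) (nat_lit 4) (nat_lit 318) (nat_lit 257) (nat_lit 145))) (XT.nd (nat_lit 78) (nat_lit 0) (nat_lit 0) (XT.lf (nat_lit 0) (nat_lit 874904120) (nat_lit 152) (nat_lit 65904014632) (nat_lit 76) (nat_lit 10158328170) (nat_lit 8) (nat_lit 5) (nat_lit 10) (nat_lit 5) (nat_lit 9) (nat_lit 4) (nat_lit 319) (nat_lit 257) (nat_lit 144)) (XT.lf (nat_lit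 0) (nat_lit 7786782817) (nat_lit 152) (nat_lit 51747716532) (nat_lit 76) (nat_lit 20727829238) (nat_lit 8) (nat_lit 5) (nat_lit 10) (nat_lit 5) (nat_lit 9) (nat_lit 4) (nat_lit 320) (nat_lit 257) (nat_lit 143)))) (XT.nd (nat_lit 156) (nat_lit 76) (nat_lit 0) (XT.nd (nat_lit 78) (nat_lit 0) (nat_lit 0) (XT.lf (nat_lit 0) (nat_lit 15040476646) (nat_lit 152) (nat_lit 36890075828) (nat_lit 76) (nat_lit 31823306953) (nat_lit 8) (nat_lit 5) (nat_lit 10) (nat_lit 5) (nat_lit 9) (nat_lit 4) (nat_lit 321) (nat_lit 257) (nat_lit 142)) (XT.lf (nat_lit 0) (nat_lit 22653256308) (nat_lit 152) (nat_lit 21295717184) (nat_lit 76) (nat_lit 43471179119) (nat_lit 8) (nat_lit 5) (nat_lit 10) (nat_lit 5) (nat_lit 9) (nat_lit 4) (nat_lit 322) (nat_lit 257) (nat_lit 141))) (XT.nd (nat_lit 78) (nat_lit 76) (nat_lit 0) (XT.lf (nat_lit 0) (nat_lit 30643247469) (nat_lit 152) (nat_lit 4927511175) (nat_lit 76) (nat_lit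 55699178765) (nat_lit 8) (nat_lit 5) (nat_lit 10) (nat_lit 5) (nat_lit 9) (nat_lit 4) (nat_lit 323) (nat_lit 257) (nat_lit 140)) (XT.nd (nat_lit 78) (nat_lit 0) (nat_lit 0) (XT.lf (nat_lit 0) (nat_lit 12658670633) (nat_lit 76) (nat_lit 26568440607) (nat_lit 152) (nat_lit 56075386867) (nat_lit 7) (nat_lit 5) (nat_lit 8) (nat_lit 5) (nat_lit 9) (nat_lit 4) (nat_lit 324) (nat_lit 257) (nat_lit 139)) (XT.lf (nat_lit 0) (nat_lit 31289732756) (nat_lit 76) (nat_lit 17030690518) (nat_lit 152) (nat_lit 51212255874) (nat_lit 7) (nat_lit 5) (nat_lit 8) (nat_lit 5) (nat_lit 9) (nat_lit 4) (nat_lit 325) (nat_lit 257) (nat_lit 138))))))))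
noncomputable def xc166 : XT := (XT.nd (nat_lit 1326) (nat_lit 76) (nat_lit 0) (XT.nd (nat_lit 624) (nat_lit 152) (nat_lit 0) (XT.nd (nat_lit 312) (nat_lit 76) (nat_lit 0) (XT.nd (nat_lit 156) (nat_lit 0) (nat_lit 0) (XT.nd (nat_lit 78) (nat_lit 0) (nat_lit 0) (XT.lf (nat_lit 0) (nat_lit 50847109090) (nat_lit 76) (nat_lit 7018249235) (nat_lit 152) (nat_lit 46109167865) (nat_lit 7) (nat_lit 5) (nat_lit 8) (nat_lit 5) (nat_lit 9) (nat_lit 4) (nat_lit 326) (nat_lit 257) (nat_lit 137)) (XT.lf (nat_lit 0) (nat_lit 67939173615) (nat_lit 152) (nat_lit 37315781427) (nat_lit 0) (nat_lit 3380933459) (nat_lit 7) (nat_lit 5) (nat_lit 9) (nat_lit 4) (nat_lit 7) (nat_lit 4) (nat_lit 327) (nat_lit 257) (nat_lit 136))) (XT.nd (nat_lit 78) (nat_lit 0) (nat_lit 0) (XT.lf (nat_lit 0) (nat_lit 78628942120) (nat_lit 152) (nat_lit 20833480321) (nat_lit 0) (nat_lit 14062287736) (nat_lit 7) (nat_lit 5) (nat_lit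 9) (nat_lit 4) (nat_lit 7) (nat_lit 4) (nat_lit 328) (nat_lit 257) (nat_lit 135)) (XT.lf (nat_lit 0) (nat_lit 89850541129) (nat_lit 152) (nat_lit 3531695671) (nat_lit 0) (nat_lit 25275873195) (nat_lit 7) (nat_lit 5) (nat_lit 9) (nat_lit 4) (nat_lit 7) (nat_lit 4) (nat_lit 329) (nat_lit 257) (nat_lit 134)))) (XT.nd (nat_lit 156) (nat_lit 0) (nat_lit 0) (XT.nd (nat_lit 78) (nat_lit 0) (nat_lit 0) (XT.lf (nat_lit 0) (nat_lit 15114526488) (nat_lit 76) (nat_lit 86752142366) (nat_lit 76) (nat_lit 22169842479) (nat_lit 6) (nat_lit 4) (nat_lit 7) (nat_lit 5) (nat_lit 7) (nat_lit 4) (nat_lit 330) (nat_lit 257) (nat_lit 133)) (XT.lf (nat_lit 0) (nat_lit 34811332437) (nat_lit 76) (nat_lit 79729602934) (nat_lit 76) (nat_lit 15140034521) (nat_lit 6) (nat_lit 4) (nat_lit 7) (nat_lit 5) (nat_lit 7) (nat_lit 4) (nat_lit 331) (nat_lit 257) (nat_lit 132))) (XT.nd (nat_lit 78) (nat_lit 0) (nat_lit 0)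 (XT.lf (nat_lit 0) (nat_lit 55488845523) (nat_lit 76) (nat_lit 72357709150) (nat_lit 76) (nat_lit 7761218331) (nat_lit 6) (nat_lit 4) (nat_lit 7) (nat_lit 5) (nat_lit 7) (nat_lit 4) (nat_lit 332) (nat_lit 257) (nat_lit 131)) (XT.lf (nat_lit 0) (nat_lit 77196297921) (nat_lit 76) (nat_lit 64618908885) (nat_lit 76) (nat_lit 15825299) (nat_lit 6) (nat_lit 4) (nat_lit 7) (nat_lit 5) (nat_lit 7) (nat_lit 4) (nat_lit 333) (nat_lit 257) (nat_lit 130))))) (XT.nd (nat_lit 312) (nat_lit 0) (nat_lit 0) (XT.nd (nat_lit 156) (nat_lit 76) (nat_lit 0) (XT.nd (nat_lit 78) (nat_lit 0) (nat_lit 0) (XT.lf (nat_lit 0) (nat_lit 7854868560) (nat_lit 152) (nat_lit 48506881864) (nat_lit 76) (nat_lit 91997479481) (nat_lit 5) (nat_lit 5) (nat_lit 7) (nat_lit 5) (nat_lit 6) (nat_lit 4) (nat_lit 334) (nat_lit 257) (nat_lit 129)) (XT.lf (nat_lit 0) (nat_lit 16116489718) (nat_lit 152) (nat_lit 31576538324) (nat_lit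 76) (nat_lit 107520903318) (nat_lit 5) (nat_lit 5) (nat_lit 7) (nat_lit 5) (nat_lit 6) (nat_lit 4) (nat_lit 335) (nat_lit 257) (nat_lit 128))) (XT.nd (nat_lit 78) (nat_lit 76) (nat_lit 0) (XT.lf (nat_lit 0) (nat_lit 24789215210) (nat_lit 152) (nat_lit 13803146146) (nat_lit 76) (nat_lit 123819108186) (nat_lit 5) (nat_lit 5) (nat_lit 7) (nat_lit 5) (nat_lit 6) (nat_lit 4) (nat_lit 336) (nat_lit 257) (nat_lit 127)) (XT.lf (nat_lit 0) (nat_lit 5016160740) (nat_lit 76) (nat_lit 28955849968) (nat_lit 152) (nat_lit 135993054923) (nat_lit 4) (nat_lit 5) (nat_lit 5) (nat_lit 5) (nat_lit 6) (nat_lit 4) (nat_lit 337) (nat_lit 257) (nat_lit 126)))) (XT.nd (nat_lit 156) (nat_lit 0) (nat_lit 0) (XT.nd (nat_lit 78) (nat_lit 0) (nat_lit 0) (XT.lf (nat_lit 0) (nat_lit 25252396948) (nat_lit 76) (nat_lit 18593468304) (nat_lit 152) (nat_lit 134038882866) (nat_lit 4) (nat_lit 5) (nat_lit 5) (nat_lit 5)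 (nat_lit 6) (nat_lit 4) (nat_lit 338) (nat_lit 257) (nat_lit 125)) (XT.lf (nat_lit 0) (nat_lit 46497349642) (nat_lit 76) (nat_lit 7714306985) (nat_lit 152) (nat_lit 131988848331) (nat_lit 4) (nat_lit 5) (nat_lit 5) (nat_lit 5) (nat_lit 6) (nat_lit 4) (nat_lit 339) (nat_lit 257) (nat_lit 124))) (XT.nd (nat_lit 78) (nat_lit 0) (nat_lit 0) (XT.lf (nat_lit 0) (nat_lit 65151950329) (nat_lit 152) (nat_lit 126188418568) (nat_lit 0) (nat_lit 3588872423) (nat_lit 4) (nat_lit 5) (nat_lit 6) (nat_lit 4) (nat_lit 4) (nat_lit 4) (nat_lit 340) (nat_lit 257) (nat_lit 123)) (XT.nd (nat_lit 78) (nat_lit 0) (nat_lit 0) (XT.lf (nat_lit 0) (nat_lit 76764111148) (nat_lit 152) (nat_lit 112127279453) (nat_lit 0) (nat_lit 15196783485) (nat_lit 4) (nat_lit 5) (nat_lit 6) (nat_lit 4) (nat_lit 4) (nat_lit 4) (nat_lit 341) (nat_lit 257) (nat_lit 122)) (XT.lf (nat_lit 0) (nat_lit 88955345135) (nat_lit 152) (nat_lit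 97365817118) (nat_lit 0) (nat_lit 27383970085) (nat_lit 4) (nat_lit 5) (nat_lit 6) (nat_lit 4) (nat_lit 4) (nat_lit 4) (nat_lit 342) (nat_lit 257) (nat_lit 121))))))) (XT.nd (nat_lit 702) (nat_lit 0) (nat_lit 0) (XT.nd (nat_lit 312) (nat_lit 76) (nat_lit 0) (XT.nd (nat_lit 156) (nat_lit 0) (nat_lit 0) (XT.nd (nat_lit 78) (nat_lit 0) (nat_lit 0) (XT.lf (nat_lit 0) (nat_lit 101754679038) (nat_lit 152) (nat_lit 81868885225) (nat_lit 0) (nat_lit 40179449333) (nat_lit 4) (nat_lit 5) (nat_lit 6) (nat_lit 4) (nat_lit 4) (nat_lit 4) (nat_lit 343) (nat_lit 257) (nat_lit 120)) (XT.lf (nat_lit 0) (nat_lit 115192587460) (nat_lit 152) (nat_lit 65599586315) (nat_lit 0) (nat_lit 53613686656) (nat_lit 4) (nat_lit 5) (nat_lit 6) (nat_lit 4) (nat_lit 4) (nat_lit 4) (nat_lit 344) (nat_lit 257) (nat_lit 119))) (XT.nd (nat_lit 78) (nat_lit 0) (nat_lit 0) (XT.lf (nat_lit 0) (nat_lit 129301065423) (nat_lit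 152) (nat_lit 48519183963) (nat_lit 0) (nat_lit 67718668333) (nat_lit 4) (nat_lit 5) (nat_lit 6) (nat_lit 4) (nat_lit 4) (nat_lit 4) (nat_lit 345) (nat_lit 257) (nat_lit 118)) (XT.lf (nat_lit 0) (nat_lit 144113704540) (nat_lit 152) (nat_lit 30587010545) (nat_lit 0) (nat_lit 82527977654) (nat_lit 4) (nat_lit 5) (nat_lit 6) (nat_lit 4) (nat_lit 4) (nat_lit 4) (nat_lit 346) (nat_lit 257) (nat_lit 117)))) (XT.nd (nat_lit 156) (nat_lit 0) (nat_lit 0) (XT.nd (nat_lit 78) (nat_lit 76) (nat_lit 0) (XT.lf (nat_lit 0) (nat_lit 159665772999) (nat_lit 152) (nat_lit 11760370409) (nat_lit 0) (nat_lit 98076874879) (nat_lit 4) (nat_lit 5) (nat_lit 6) (nat_lit 4) (nat_lit 4) (nat_lit 4) (nat_lit 347) (nat_lit 257) (nat_lit 116)) (XT.lf (nat_lit 0) (nat_lit 8270261803) (nat_lit 76) (nat_lit 167853159696) (nat_lit 76) (nat_lit 106261241353) (nat_lit 3) (nat_lit 4) (nat_lit 4) (nat_lit 5) (nat_lit 4) (nat_lit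 4) (nat_lit 348) (nat_lit 257) (nat_lit 115))) (XT.nd (nat_lit 78) (nat_lit 0) (nat_lit 0) (XT.lf (nat_lit 0) (nat_lit 29708712079) (nat_lit 76) (nat_lit 163893285767) (nat_lit 76) (nat_lit 102298491022) (nat_lit 3) (nat_lit 4) (nat_lit 4) (nat_lit 5) (nat_lit 4) (nat_lit 4) (nat_lit 349) (nat_lit 257) (nat_lit 114)) (XT.nd (nat_lit 78) (nat_lit 0) (nat_lit 0) (XT.lf (nat_lit 0) (nat_lit 52217173390) (nat_lit 76) (nat_lit 159736260916) (nat_lit 76) (nat_lit 98138726739) (nat_lit 3) (nat_lit 4) (nat_lit 4) (nat_lit 5) (nat_lit 4) (nat_lit 4) (nat_lit 350) (nat_lit 257) (nat_lit 113)) (XT.lf (nat_lit 0) (nat_lit 75849237310) (nat_lit 76) (nat_lit 155372187462) (nat_lit 76) (nat_lit 93772044304) (nat_lit 3) (nat_lit 4) (nat_lit 4) (nat_lit 5) (nat_lit 4) (nat_lit 4) (nat_lit 351) (nat_lit 257) (nat_lit 112)))))) (XT.nd (nat_lit 312) (nat_lit 0) (nat_lit 0) (XT.nd (nat_lit 156) (nat_lit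 0) (nat_lit 0) (XT.nd (nat_lit 78) (nat_lit 0) (nat_lit 0) (XT.lf (nat_lit 0) (nat_lit 100661170658) (nat_lit 76) (nat_lit 150790674756) (nat_lit 76) (nat_lit 89188046853) (nat_lit 3) (nat_lit 4) (nat_lit 4) (nat_lit 5) (nat_lit 4) (nat_lit 4) (nat_lit 352) (nat_lit 257) (nat_lit 111)) (XT.lf (nat_lit 0) (nat_lit 126712049467) (nat_lit 76) (nat_lit 145980814434) (nat_lit 76) (nat_lit 84375820107) (nat_lit 3) (nat_lit 4) (nat_lit 4) (nat_lit 5) (nat_lit 4) (nat_lit 4) (nat_lit 353) (nat_lit 257) (nat_lit 110))) (XT.nd (nat_lit 78) (nat_lit 0) (nat_lit 0) (XT.lf (nat_lit 0) (nat_lit 154063899636) (nat_lit 76) (nat_lit 140931154447) (nat_lit 76) (nat_lit 79323906383) (nat_lit 3) (nat_lit 4) (nat_lit 4) (nat_lit 5) (nat_lit 4) (nat_lit 4) (nat_lit 354) (nat_lit 257) (nat_lit 109)) (XT.lf (nat_lit 0) (nat_lit 182781844621) (nat_lit 76) (nat_lit 135629671795) (nat_lit 76) (nat_lit 74020277316)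 (nat_lit 3) (nat_lit 4) (nat_lit 4) (nat_lit 5) (nat_lit 4) (nat_lit 4) (nat_lit 355) (nat_lit 257) (nat_lit 108)))) (XT.nd (nat_lit 29874) (nat_lit 0) (nat_lit 5396) (XT.nd (nat_lit 78) (nat_lit 0) (nat_lit 0) (XT.lf (nat_lit 0) (nat_lit 212934260479) (nat_lit 76) (nat_lit 130063743901) (nat_lit 76) (nat_lit 68452305216) (nat_lit 3) (nat_lit 4) (nat_lit 4) (nat_lit 5) (nat_lit 4) (nat_lit 4) (nat_lit 356) (nat_lit 257) (nat_lit 107)) (XT.lf (nat_lit 0) (nat_lit 244592938678) (nat_lit 76) (nat_lit 124220118555) (nat_lit 76) (nat_lit 62606733008) (nat_lit 3) (nat_lit 4) (nat_lit 4) (nat_lit 5) (nat_lit 4) (nat_lit 4) (nat_lit 357) (nat_lit 257) (nat_lit 106))) (XT.nd (nat_lit 78) (nat_lit 0) (nat_lit 0) (XT.lf (nat_lit 0) (nat_lit 2289430856) (nat_lit 684) (nat_lit 1440232290) (nat_lit 684) (nat_lit 1440232290) (nat_lit 74) (nat_lit 3) (nat_lit 83) (nat_lit 3) (nat_lit 83) (nat_lit 5)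 (nat_lit 258) (nat_lit 258) (nat_lit 204)) (XT.nd (nat_lit 78) (nat_lit 0) (nat_lit 76) (XT.lf (nat_lit 76) (nat_lit 1491383897) (nat_lit 0) (nat_lit 3806785245) (nat_lit 684) (nat_lit 5267348816) (nat_lit 75) (nat_lit 5) (nat_lit 74) (nat_lit 3) (nat_lit 83) (nat_lit 5) (nat_lit 259) (nat_lit 258) (nat_lit 203)) (XT.lf (nat_lit 0) (nat_lit 6066193403) (nat_lit 608) (nat_lit 4642089242) (nat_lit 684) (nat_lit 93772870) (nat_lit 75) (nat_lit 5) (nat_lit 83) (nat_lit 5) (nat_lit 84) (nat_lit 5) (nat_lit 260) (nat_lit 258) (nat_lit 202))))))))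
noncomputable def xc167 : XT := (XT.nd (nat_lit 1326) (nat_lit 1824) (nat_lit 0) (XT.nd (nat_lit 624) (nat_lit 1520) (nat_lit 0) (XT.nd (nat_lit 312) (nat_lit 532) (nat_lit 0) (XT.nd (nat_lit 156) (nat_lit 0) (nat_lit 76) (XT.nd (nat_lit 78) (nat_lit 0) (nat_lit 0) (XT.lf (nat_lit 0) (nat_lit 6899526672) (nat_lit 608) (nat_lit 72355286) (nat_lit 684) (nat_lit 4077346591) (nat_lit 75) (nat_lit 5) (nat_lit 83) (nat_lit 5) (nat_lit 84) (nat_lit 5) (nat_lit 261) (nat_lit 258) (nat_lit 201)) (XT.lf (nat_lit 76) (nat_lit 4860963914) (nat_lit 0) (nat_lit 2955647846) (nat_lit 684) (nat_lit 3490190874) (nat_lit 76) (nat_lit 5) (nat_lit 75) (nat_lit 5) (nat_lit 84) (nat_lit 5) (nat_lit 262) (nat_lit 258) (nat_lit 200))) (XT.nd (nat_lit 78) (nat_lit 0) (nat_lit 0) (XT.lf (nat_lit 0) (nat_lit 8768170664) (nat_lit 608) (nat_lit 1575557701) (nat_lit 684) (nat_lit 1234235752) (nat_lit 76) (nat_lit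 5) (nat_lit 84) (nat_lit 5) (nat_lit 85) (nat_lit 5) (nat_lit 263) (nat_lit 258) (nat_lit 199)) (XT.lf (nat_lit 76) (nat_lit 3583418184) (nat_lit 0) (nat_lit 6257508959) (nat_lit 684) (nat_lit 2018208571) (nat_lit 77) (nat_lit 5) (nat_lit 76) (nat_lit 5) (nat_lit 85) (nat_lit 5) (nat_lit 264) (nat_lit 258) (nat_lit 198)))) (XT.nd (nat_lit 156) (nat_lit 608) (nat_lit 0) (XT.nd (nat_lit 78) (nat_lit 0) (nat_lit 76) (XT.lf (nat_lit 76) (nat_lit 9034324608) (nat_lit 0) (nat_lit 1930041143) (nat_lit 684) (nat_lit 1190274612) (nat_lit 77) (nat_lit 5) (nat_lit 76) (nat_lit 5) (nat_lit 85) (nat_lit 5) (nat_lit 265) (nat_lit 258) (nat_lit 197)) (XT.lf (nat_lit 76) (nat_lit 2304406623) (nat_lit 0) (nat_lit 9888262127) (nat_lit 684) (nat_lit 269937526) (nat_lit 78) (nat_lit 5) (nat_lit 77) (nat_lit 5) (nat_lit 86) (nat_lit 5) (nat_lit 266) (nat_lit 258) (nat_lit 196))) (XT.nd (nat_lit 78) (nat_lit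 0) (nat_lit 0) (XT.lf (nat_lit 0) (nat_lit 731836499) (nat_lit 684) (nat_lit 4740086573) (nat_lit 760) (nat_lit 7310727712) (nat_lit 68) (nat_lit 5) (nat_lit 77) (nat_lit 5) (nat_lit 78) (nat_lit 5) (nat_lit 267) (nat_lit 258) (nat_lit 195)) (XT.lf (nat_lit 76) (nat_lit 954018255) (nat_lit 0) (nat_lit 809179804) (nat_lit 760) (nat_lit 11355953898) (nat_lit 69) (nat_lit 5) (nat_lit 68) (nat_lit 5) (nat_lit 78) (nat_lit 5) (nat_lit 268) (nat_lit 258) (nat_lit 194))))) (XT.nd (nat_lit 312) (nat_lit 912) (nat_lit 0) (XT.nd (nat_lit 156) (nat_lit 684) (nat_lit 0) (XT.nd (nat_lit 78) (nat_lit 0) (nat_lit 0) (XT.lf (nat_lit 0) (nat_lit 2966203945) (nat_lit 684) (nat_lit 6458318461) (nat_lit 76) (nat_lit 4042051233) (nat_lit 69) (nat_lit 5) (nat_lit 78) (nat_lit 5) (nat_lit 70) (nat_lit 5) (nat_lit 269) (nat_lit 258) (nat_lit 193)) (XT.lf (nat_lit 0) (nat_lit 4218510836) (nat_lit 684) (nat_lit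 500500691) (nat_lit 76) (nat_lit 9112991878) (nat_lit 69) (nat_lit 5) (nat_lit 78) (nat_lit 5) (nat_lit 70) (nat_lit 5) (nat_lit 270) (nat_lit 258) (nat_lit 192))) (XT.nd (nat_lit 78) (nat_lit 0) (nat_lit 0) (XT.lf (nat_lit 0) (nat_lit 5607993269) (nat_lit 760) (nat_lit 8292574048) (nat_lit 76) (nat_lit 311499368) (nat_lit 60) (nat_lit 5) (nat_lit 70) (nat_lit 5) (nat_lit 61) (nat_lit 5) (nat_lit 271) (nat_lit 258) (nat_lit 191)) (XT.lf (nat_lit 0) (nat_lit 7130782983) (nat_lit 760) (nat_lit 2031325852) (nat_lit 76) (nat_lit 5445918382) (nat_lit 60) (nat_lit 5) (nat_lit 70) (nat_lit 5) (nat_lit 61) (nat_lit 5) (nat_lit 272) (nat_lit 258) (nat_lit 190)))) (XT.nd (nat_lit 156) (nat_lit 608) (nat_lit 0) (XT.nd (nat_lit 78) (nat_lit 0) (nat_lit 0) (XT.lf (nat_lit 0) (nat_lit 4672556089) (nat_lit 304) (nat_lit 4109019351) (nat_lit 380) (nat_lit 6239698837) (nat_lit 56) (nat_lit 5) (nat_lit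 60) (nat_lit 5) (nat_lit 61) (nat_lit 5) (nat_lit 273) (nat_lit 258) (nat_lit 189)) (XT.lf (nat_lit 0) (nat_lit 10548177513) (nat_lit 380) (nat_lit 3711322798) (nat_lit 76) (nat_lit 1194097653) (nat_lit 56) (nat_lit 5) (nat_lit 61) (nat_lit 5) (nat_lit 57) (nat_lit 5) (nat_lit 274) (nat_lit 258) (nat_lit 188))) (XT.nd (nat_lit 78) (nat_lit 304) (nat_lit 0) (XT.lf (nat_lit 0) (nat_lit 3275645180) (nat_lit 304) (nat_lit 9226558267) (nat_lit 380) (nat_lit 3400453774) (nat_lit 52) (nat_lit 5) (nat_lit 56) (nat_lit 5) (nat_lit 57) (nat_lit 5) (nat_lit 275) (nat_lit 258) (nat_lit 187)) (XT.nd (nat_lit 78) (nat_lit 304) (nat_lit 0) (XT.lf (nat_lit 0) (nat_lit 10721351985) (nat_lit 304) (nat_lit 3876642972) (nat_lit 380) (nat_lit 1774041812) (nat_lit 52) (nat_lit 5) (nat_lit 56) (nat_lit 5) (nat_lit 57) (nat_lit 5) (nat_lit 276) (nat_lit 258) (nat_lit 186)) (XT.lf (nat_lit 0) (nat_lit 1681619215)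 (nat_lit 304) (nat_lit 15152485865) (nat_lit 380) (nat_lit 29070949) (nat_lit 48) (nat_lit 5) (nat_lit 52) (nat_lit 5) (nat_lit 53) (nat_lit 5) (nat_lit 277) (nat_lit 258) (nat_lit 185))))))) (XT.nd (nat_lit 702) (nat_lit 684) (nat_lit 0) (XT.nd (nat_lit 312) (nat_lit 760) (nat_lit 0) (XT.nd (nat_lit 156) (nat_lit 304) (nat_lit 0) (XT.nd (nat_lit 78) (nat_lit 0) (nat_lit 0) (XT.lf (nat_lit 0) (nat_lit 1888556744) (nat_lit 380) (nat_lit 7910457993) (nat_lit 76) (nat_lit 7571354828) (nat_lit 47) (nat_lit 5) (nat_lit 52) (nat_lit 5) (nat_lit 48) (nat_lit 5) (nat_lit 278) (nat_lit 258) (nat_lit 184)) (XT.lf (nat_lit 0) (nat_lit 3884234455) (nat_lit 380) (nat_lit 295152707) (nat_lit 76) (nat_lit 13724412543) (nat_lit 47) (nat_lit 5) (nat_lit 52) (nat_lit 5) (nat_lit 48) (nat_lit 5) (nat_lit 279) (nat_lit 258) (nat_lit 183))) (XT.nd (nat_lit 78) (nat_lit 0) (nat_lit 0) (XT.lf (nat_lit 0)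 (nat_lit 6116437258) (nat_lit 380) (nat_lit 10550460394) (nat_lit 76) (nat_lit 1790221914) (nat_lit 43) (nat_lit 5) (nat_lit 48) (nat_lit 5) (nat_lit 44) (nat_lit 5) (nat_lit 280) (nat_lit 258) (nat_lit 182)) (XT.lf (nat_lit 0) (nat_lit 8518248628) (nat_lit 380) (nat_lit 2596124368) (nat_lit 76) (nat_lit 7920885143) (nat_lit 43) (nat_lit 5) (nat_lit 48) (nat_lit 5) (nat_lit 44) (nat_lit 5) (nat_lit 281) (nat_lit 258) (nat_lit 181)))) (XT.nd (nat_lit 156) (nat_lit 532) (nat_lit 0) (XT.nd (nat_lit 78) (nat_lit 0) (nat_lit 0) (XT.lf (nat_lit 0) (nat_lit 5928062458) (nat_lit 228) (nat_lit 5189787859) (nat_lit 304) (nat_lit 8520618471) (nat_lit 40) (nat_lit 5) (nat_lit 43) (nat_lit 5) (nat_lit 44) (nat_lit 5) (nat_lit 282) (nat_lit 258) (nat_lit 180)) (XT.lf (nat_lit 0) (nat_lit 13893754454) (nat_lit 304) (nat_lit 5335909861) (nat_lit 76) (nat_lit 1039907283) (nat_lit 40) (nat_lit 5) (nat_lit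 44) (nat_lit 5) (nat_lit 41) (nat_lit 5) (nat_lit 283) (nat_lit 258) (nat_lit 179))) (XT.nd (nat_lit 78) (nat_lit 304) (nat_lit 0) (XT.lf (nat_lit 0) (nat_lit 3465984719) (nat_lit 228) (nat_lit 13467887744) (nat_lit 304) (nat_lit 3992131626) (nat_lit 37) (nat_lit 5) (nat_lit 40) (nat_lit 5) (nat_lit 41) (nat_lit 5) (nat_lit 284) (nat_lit 258) (nat_lit 178)) (XT.nd (nat_lit 78) (nat_lit 304) (nat_lit 0) (XT.lf (nat_lit 0) (nat_lit 12876320510) (nat_lit 228) (nat_lit 7326660478) (nat_lit 304) (nat_lit 1408471293) (nat_lit 37) (nat_lit 5) (nat_lit 40) (nat_lit 5) (nat_lit 41) (nat_lit 5) (nat_lit 285) (nat_lit 258) (nat_lit 177)) (XT.lf (nat_lit 0) (nat_lit 401931427) (nat_lit 228) (nat_lit 853974623) (nat_lit 304) (nat_lit 21074623767) (nat_lit 33) (nat_lit 5) (nat_lit 36) (nat_lit 5) (nat_lit 37) (nat_lit 5) (nat_lit 286) (nat_lit 258) (nat_lit 176)))))) (XT.nd (nat_lit 312) (nat_lit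 456) (nat_lit 0) (XT.nd (nat_lit 156) (nat_lit 228) (nat_lit 0) (XT.nd (nat_lit 78) (nat_lit 0) (nat_lit 0) (XT.lf (nat_lit 0) (nat_lit 4236617547) (nat_lit 304) (nat_lit 12914256707) (nat_lit 76) (nat_lit 5922047446) (nat_lit 33) (nat_lit 5) (nat_lit 37) (nat_lit 5) (nat_lit 34) (nat_lit 5) (nat_lit 287) (nat_lit 258) (nat_lit 175)) (XT.lf (nat_lit 0) (nat_lit 7368281977) (nat_lit 304) (nat_lit 3479304659) (nat_lit 76) (nat_lit 13004786302) (nat_lit 33) (nat_lit 5) (nat_lit 37) (nat_lit 5) (nat_lit 34) (nat_lit 5) (nat_lit 288) (nat_lit 258) (nat_lit 174))) (XT.nd (nat_lit 78) (nat_lit 0) (nat_lit 0) (XT.lf (nat_lit 0) (nat_lit 6624066350) (nat_lit 228) (nat_lit 4124376634) (nat_lit 304) (nat_lit 13917792018) (nat_lit 30) (nat_lit 5) (nat_lit 33) (nat_lit 5) (nat_lit 34) (nat_lit 5) (nat_lit 289) (nat_lit 258) (nat_lit 173)) (XT.lf (nat_lit 0) (nat_lit 14392069758) (nat_lit 304) (nat_lit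 8226857810) (nat_lit 76) (nat_lit 2897172033) (nat_lit 30) (nat_lit 5) (nat_lit 34) (nat_lit 5) (nat_lit 31) (nat_lit 5) (nat_lit 290) (nat_lit 258) (nat_lit 172)))) (XT.nd (nat_lit 156) (nat_lit 304) (nat_lit 0) (XT.nd (nat_lit 78) (nat_lit 0) (nat_lit 0) (XT.lf (nat_lit 0) (nat_lit 2062746720) (nat_lit 152) (nat_lit 16244229676) (nat_lit 228) (nat_lit 8097056886) (nat_lit 28) (nat_lit 5) (nat_lit 30) (nat_lit 5) (nat_lit 31) (nat_lit 5) (nat_lit 291) (nat_lit 258) (nat_lit 171)) (XT.lf (nat_lit 0) (nat_lit 13137809503) (nat_lit 152) (nat_lit 9408707100) (nat_lit 228) (nat_lit 4783431946) (nat_lit 28) (nat_lit 5) (nat_lit 30) (nat_lit 5) (nat_lit 31) (nat_lit 5) (nat_lit 292) (nat_lit 258) (nat_lit 170))) (XT.nd (nat_lit 78) (nat_lit 304) (nat_lit 0) (XT.lf (nat_lit 0) (nat_lit 24752682662) (nat_lit 152) (nat_lit 2235410604) (nat_lit 228) (nat_lit 1314591257) (nat_lit 28) (nat_lit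 5) (nat_lit 30) (nat_lit 5) (nat_lit 31) (nat_lit 5) (nat_lit 293) (nat_lit 258) (nat_lit 169)) (XT.nd (nat_lit 78) (nat_lit 0) (nat_lit 0) (XT.lf (nat_lit 0) (nat_lit 2450938857) (nat_lit 304) (nat_lit 21577153015) (nat_lit 76) (nat_lit 5284286251) (nat_lit 24) (nat_lit 5) (nat_lit 28) (nat_lit 5) (nat_lit 25) (nat_lit 5) (nat_lit 294) (nat_lit 258) (nat_lit 168)) (XT.lf (nat_lit 0) (nat_lit 6448858759) (nat_lit 304) (nat_lit 10734606123) (nat_lit 76) (nat_lit 13183623496) (nat_lit 24) (nat_lit 5) (nat_lit 28) (nat_lit 5) (nat_lit 25) (nat_lit 5) (nat_lit 295) (nat_lit 258) (nat_lit 167))))))))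
noncomputable def xc168 : XT := (XT.nd (nat_lit 1326) (nat_lit 304) (nat_lit 0) (XT.nd (nat_lit 624) (nat_lit 456) (nat_lit 0) (XT.nd (nat_lit 312) (nat_lit 228) (nat_lit 0) (XT.nd (nat_lit 156) (nat_lit 152) (nat_lit 0) (XT.nd (nat_lit 78) (nat_lit 0) (nat_lit 0) (XT.lf (nat_lit 0) (nat_lit 657950541) (nat_lit 152) (nat_lit 9989986569) (nat_lit 228) (nat_lit 20826556880) (nat_lit 22) (nat_lit 5) (nat_lit 24) (nat_lit 5) (nat_lit 25) (nat_lit 5) (nat_lit 296) (nat_lit 258) (nat_lit 166)) (XT.lf (nat_lit 0) (nat_lit 12979852744) (nat_lit 152) (nat_lit 2250129036) (nat_lit 228) (nat_lit 17398659356) (nat_lit 22) (nat_lit 5) (nat_lit 24) (nat_lit 5) (nat_lit 25) (nat_lit 5) (nat_lit 297) (nat_lit 258) (nat_lit 165))) (XT.nd (nat_lit 78) (nat_lit 152) (nat_lit 0) (XT.lf (nat_lit 0) (nat_lit 20124453524) (nat_lit 228) (nat_lit 8027120869) (nat_lit 76) (nat_lit 5684775837) (nat_lit 22) (nat_lit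 5) (nat_lit 25) (nat_lit 5) (nat_lit 23) (nat_lit 5) (nat_lit 298) (nat_lit 258) (nat_lit 164)) (XT.lf (nat_lit 0) (nat_lit 4263070210) (nat_lit 152) (nat_lit 21095998526) (nat_lit 228) (nat_lit 9740624888) (nat_lit 20) (nat_lit 5) (nat_lit 22) (nat_lit 5) (nat_lit 23) (nat_lit 5) (nat_lit 299) (nat_lit 258) (nat_lit 163)))) (XT.nd (nat_lit 156) (nat_lit 228) (nat_lit 0) (XT.nd (nat_lit 78) (nat_lit 0) (nat_lit 0) (XT.lf (nat_lit 0) (nat_lit 17434532465) (nat_lit 152) (nat_lit 13548995521) (nat_lit 228) (nat_lit 5436289432) (nat_lit 20) (nat_lit 5) (nat_lit 22) (nat_lit 5) (nat_lit 23) (nat_lit 5) (nat_lit 300) (nat_lit 258) (nat_lit 162)) (XT.lf (nat_lit 0) (nat_lit 31253213654) (nat_lit 152) (nat_lit 5628539499) (nat_lit 228) (nat_lit 924585098) (nat_lit 20) (nat_lit 5) (nat_lit 22) (nat_lit 5) (nat_lit 23) (nat_lit 5) (nat_lit 301) (nat_lit 258) (nat_lit 161))) (XT.nd (nat_lit 78)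 (nat_lit 0) (nat_lit 0) (XT.lf (nat_lit 0) (nat_lit 3831732011) (nat_lit 228) (nat_lit 32656329607) (nat_lit 76) (nat_lit 2764110582) (nat_lit 17) (nat_lit 5) (nat_lit 20) (nat_lit 5) (nat_lit 18) (nat_lit 5) (nat_lit 302) (nat_lit 258) (nat_lit 160)) (XT.lf (nat_lit 0) (nat_lit 8992743407) (nat_lit 228) (nat_lit 20255427906) (nat_lit 76) (nat_lit 11511486696) (nat_lit 17) (nat_lit 5) (nat_lit 20) (nat_lit 5) (nat_lit 18) (nat_lit 5) (nat_lit 303) (nat_lit 258) (nat_lit 159))))) (XT.nd (nat_lit 312) (nat_lit 304) (nat_lit 0) (XT.nd (nat_lit 156) (nat_lit 0) (nat_lit 0) (XT.nd (nat_lit 78) (nat_lit 152) (nat_lit 0) (XT.lf (nat_lit 0) (nat_lit 14405024163) (nat_lit 228) (nat_lit 7245147105) (nat_lit 76) (nat_lit 20692700705) (nat_lit 17) (nat_lit 5) (nat_lit 20) (nat_lit 5) (nat_lit 18) (nat_lit 5) (nat_lit 304) (nat_lit 258) (nat_lit 158)) (XT.lf (nat_lit 0) (nat_lit 6617284068) (nat_lit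 152) (nat_lit 13567490942) (nat_lit 228) (nat_lit 23815642923) (nat_lit 15) (nat_lit 5) (nat_lit 17) (nat_lit 5) (nat_lit 18) (nat_lit 5) (nat_lit 305) (nat_lit 258) (nat_lit 157))) (XT.nd (nat_lit 78) (nat_lit 0) (nat_lit 0) (XT.lf (nat_lit 0) (nat_lit 21414377706) (nat_lit 152) (nat_lit 4955528969) (nat_lit 228) (nat_lit 19365128280) (nat_lit 15) (nat_lit 5) (nat_lit 17) (nat_lit 5) (nat_lit 18) (nat_lit 5) (nat_lit 306) (nat_lit 258) (nat_lit 156)) (XT.lf (nat_lit 0) (nat_lit 32922043632) (nat_lit 228) (nat_lit 10678643421) (nat_lit 76) (nat_lit 3952821130) (nat_lit 15) (nat_lit 5) (nat_lit 18) (nat_lit 5) (nat_lit 16) (nat_lit 4) (nat_lit 307) (nat_lit 258) (nat_lit 155)))) (XT.nd (nat_lit 156) (nat_lit 228) (nat_lit 0) (XT.nd (nat_lit 78) (nat_lit 0) (nat_lit 0) (XT.lf (nat_lit 0) (nat_lit 3672463634) (nat_lit 76) (nat_lit 36262126761) (nat_lit 152) (nat_lit 9521686708) (nat_lit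 14) (nat_lit 5) (nat_lit 15) (nat_lit 5) (nat_lit 16) (nat_lit 4) (nat_lit 308) (nat_lit 258) (nat_lit 154)) (XT.lf (nat_lit 0) (nat_lit 19102703552) (nat_lit 76) (nat_lit 28370268131) (nat_lit 152) (nat_lit 3972464027) (nat_lit 14) (nat_lit 5) (nat_lit 15) (nat_lit 5) (nat_lit 16) (nat_lit 4) (nat_lit 309) (nat_lit 258) (nat_lit 153))) (XT.nd (nat_lit 78) (nat_lit 152) (nat_lit 0) (XT.lf (nat_lit 0) (nat_lit 1789402215) (nat_lit 152) (nat_lit 18267462411) (nat_lit 76) (nat_lit 33476024213) (nat_lit 13) (nat_lit 5) (nat_lit 15) (nat_lit 5) (nat_lit 14) (nat_lit 5) (nat_lit 310) (nat_lit 258) (nat_lit 152)) (XT.nd (nat_lit 78) (nat_lit 152) (nat_lit 0) (XT.lf (nat_lit 0) (nat_lit 7700650491) (nat_lit 152) (nat_lit 3562043024) (nat_lit 76) (nat_lit 44459035533) (nat_lit 13) (nat_lit 5) (nat_lit 15) (nat_lit 5) (nat_lit 14) (nat_lit 5) (nat_lit 311) (nat_lit 258) (nat_lit 151)) (XT.lf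 (nat_lit 0) (nat_lit 12263054531) (nat_lit 152) (nat_lit 1830904977) (nat_lit 228) (nat_lit 43916736387) (nat_lit 11) (nat_lit 5) (nat_lit 13) (nat_lit 5) (nat_lit 14) (nat_lit 5) (nat_lit 312) (nat_lit 258) (nat_lit 150))))))) (XT.nd (nat_lit 702) (nat_lit 76) (nat_lit 0) (XT.nd (nat_lit 312) (nat_lit 152) (nat_lit 0) (XT.nd (nat_lit 156) (nat_lit 76) (nat_lit 0) (XT.nd (nat_lit 78) (nat_lit 0) (nat_lit 0) (XT.lf (nat_lit 0) (nat_lit 20989383011) (nat_lit 228) (nat_lit 31543204438) (nat_lit 76) (nat_lit 7872410273) (nat_lit 11) (nat_lit 5) (nat_lit 14) (nat_lit 5) (nat_lit 12) (nat_lit 4) (nat_lit 313) (nat_lit 258) (nat_lit 149)) (XT.lf (nat_lit 0) (nat_lit 28254927050) (nat_lit 228) (nat_lit 16666331733) (nat_lit 76) (nat_lit 17996497045) (nat_lit 11) (nat_lit 5) (nat_lit 14) (nat_lit 5) (nat_lit 12) (nat_lit 4) (nat_lit 314) (nat_lit 258) (nat_lit 148))) (XT.nd (nat_lit 78) (nat_lit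 76) (nat_lit 0) (XT.lf (nat_lit 0) (nat_lit 35879304983) (nat_lit 228) (nat_lit 1053016565) (nat_lit 76) (nat_lit 28624060699) (nat_lit 11) (nat_lit 5) (nat_lit 14) (nat_lit 5) (nat_lit 12) (nat_lit 4) (nat_lit 315) (nat_lit 258) (nat_lit 147)) (XT.lf (nat_lit 0) (nat_lit 15840924124) (nat_lit 76) (nat_lit 28287067186) (nat_lit 152) (nat_lit 24186802056) (nat_lit 10) (nat_lit 5) (nat_lit 11) (nat_lit 5) (nat_lit 12) (nat_lit 4) (nat_lit 316) (nat_lit 258) (nat_lit 146)))) (XT.nd (nat_lit 156) (nat_lit 152) (nat_lit 0) (XT.nd (nat_lit 78) (nat_lit 0) (nat_lit 0) (XT.lf (nat_lit 0) (nat_lit 33609185158) (nat_lit 76) (nat_lit 19193621654) (nat_lit 152) (nat_lit 18407640962) (nat_lit 10) (nat_lit 5) (nat_lit 11) (nat_lit 5) (nat_lit 12) (nat_lit 4) (nat_lit 317) (nat_lit 258) (nat_lit 145)) (XT.lf (nat_lit 0) (nat_lit 52259254437) (nat_lit 76) (nat_lit 9648167235) (nat_lit 152) (nat_lit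 12343667423) (nat_lit 10) (nat_lit 5) (nat_lit 11) (nat_lit 5) (nat_lit 12) (nat_lit 4) (nat_lit 318) (nat_lit 258) (nat_lit 144))) (XT.nd (nat_lit 78) (nat_lit 152) (nat_lit 0) (XT.lf (nat_lit 0) (nat_lit 71469321873) (nat_lit 152) (nat_lit 5614228390) (nat_lit 0) (nat_lit 360116270) (nat_lit 10) (nat_lit 5) (nat_lit 12) (nat_lit 4) (nat_lit 10) (nat_lit 4) (nat_lit 319) (nat_lit 258) (nat_lit 143)) (XT.nd (nat_lit 78) (nat_lit 0) (nat_lit 0) (XT.lf (nat_lit 0) (nat_lit 1034870525) (nat_lit 152) (nat_lit 69000152671) (nat_lit 76) (nat_lit 10743085809) (nat_lit 8) (nat_lit 5) (nat_lit 10) (nat_lit 5) (nat_lit 9) (nat_lit 4) (nat_lit 320) (nat_lit 258) (nat_lit 142)) (XT.lf (nat_lit 0) (nat_lit 8286808814) (nat_lit 152) (nat_lit 54145518842) (nat_lit 76) (nat_lit 21837402824) (nat_lit 8) (nat_lit 5) (nat_lit 10) (nat_lit 5) (nat_lit 9) (nat_lit 4) (nat_lit 321) (nat_lit 258) (nat_lit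 141)))))) (XT.nd (nat_lit 312) (nat_lit 0) (nat_lit 0) (XT.nd (nat_lit 156) (nat_lit 76) (nat_lit 0) (XT.nd (nat_lit 78) (nat_lit 0) (nat_lit 0) (XT.lf (nat_lit 0) (nat_lit 15897916532) (nat_lit 152) (nat_lit 38554023889) (nat_lit 76) (nat_lit 33484169562) (nat_lit 8) (nat_lit 5) (nat_lit 10) (nat_lit 5) (nat_lit 9) (nat_lit 4) (nat_lit 322) (nat_lit 258) (nat_lit 140)) (XT.lf (nat_lit 0) (nat_lit 23886315366) (nat_lit 152) (nat_lit 22188545205) (nat_lit 76) (nat_lit 45711116419) (nat_lit 8) (nat_lit 5) (nat_lit 10) (nat_lit 5) (nat_lit 9) (nat_lit 4) (nat_lit 323) (nat_lit 258) (nat_lit 139))) (XT.nd (nat_lit 78) (nat_lit 76) (nat_lit 0) (XT.lf (nat_lit 0) (nat_lit 32271025311) (nat_lit 152) (nat_lit 5010117363) (nat_lit 76) (nat_lit 58547355174) (nat_lit 8) (nat_lit 5) (nat_lit 10) (nat_lit 5) (nat_lit 9) (nat_lit 4) (nat_lit 324) (nat_lit 258) (nat_lit 138)) (XT.lf (nat_lit 0) (nat_lit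 13452732093) (nat_lit 76) (nat_lit 27829312718) (nat_lit 152) (nat_lit 58780751055) (nat_lit 7) (nat_lit 5) (nat_lit 8) (nat_lit 5) (nat_lit 9) (nat_lit 4) (nat_lit 325) (nat_lit 258) (nat_lit 137)))) (XT.nd (nat_lit 156) (nat_lit 0) (nat_lit 0) (XT.nd (nat_lit 78) (nat_lit 0) (nat_lit 0) (XT.lf (nat_lit 0) (nat_lit 33007674563) (nat_lit 76) (nat_lit 17817891788) (nat_lit 152) (nat_lit 53679149473) (nat_lit 7) (nat_lit 5) (nat_lit 8) (nat_lit 5) (nat_lit 9) (nat_lit 4) (nat_lit 326) (nat_lit 258) (nat_lit 136)) (XT.lf (nat_lit 0) (nat_lit 53535612326) (nat_lit 76) (nat_lit 7307891929) (nat_lit 152) (nat_lit 48325369882) (nat_lit 7) (nat_lit 5) (nat_lit 8) (nat_lit 5) (nat_lit 9) (nat_lit 4) (nat_lit 327) (nat_lit 258) (nat_lit 135))) (XT.nd (nat_lit 78) (nat_lit 0) (nat_lit 0) (XT.lf (nat_lit 0) (nat_lit 71417879540) (nat_lit 152) (nat_lit 39039123306) (nat_lit 0) (nat_lit 3606464658)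 (nat_lit 7) (nat_lit 5) (nat_lit 9) (nat_lit 4) (nat_lit 7) (nat_lit 4) (nat_lit 328) (nat_lit 258) (nat_lit 134)) (XT.nd (nat_lit 78) (nat_lit 0) (nat_lit 0) (XT.lf (nat_lit 0) (nat_lit 82638243743) (nat_lit 152) (nat_lit 21739490345) (nat_lit 0) (nat_lit 14819196910) (nat_lit 7) (nat_lit 5) (nat_lit 9) (nat_lit 4) (nat_lit 7) (nat_lit 4) (nat_lit 329) (nat_lit 258) (nat_lit 133)) (XT.lf (nat_lit 0) (nat_lit 94417215345) (nat_lit 152) (nat_lit 3579076652) (nat_lit 0) (nat_lit 26590899985) (nat_lit 7) (nat_lit 5) (nat_lit 9) (nat_lit 4) (nat_lit 7) (nat_lit 4) (nat_lit 330) (nat_lit 258) (nat_lit 132))))))))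
noncomputable def xc169 : XT := (XT.nd (nat_lit 1326) (nat_lit 76) (nat_lit 0) (XT.nd (nat_lit 624) (nat_lit 0) (nat_lit 0) (XT.nd (nat_lit 312) (nat_lit 76) (nat_lit 0) (XT.nd (nat_lit 156) (nat_lit 76) (nat_lit 0) (XT.nd (nat_lit 78) (nat_lit 0) (nat_lit 0) (XT.lf (nat_lit 0) (nat_lit 15997372682) (nat_lit 76) (nat_lit 91035230654) (nat_lit 76) (nat_lit 23201992888) (nat_lit 6) (nat_lit 4) (nat_lit 7) (nat_lit 5) (nat_lit 7) (nat_lit 4) (nat_lit 331) (nat_lit 258) (nat_lit 131)) (XT.lf (nat_lit 0) (nat_lit 36672965601) (nat_lit 76) (nat_lit 83664160386) (nat_lit 76) (nat_lit 15824329852) (nat_lit 6) (nat_lit 4) (nat_lit 7) (nat_lit 5) (nat_lit 7) (nat_lit 4) (nat_lit 332) (nat_lit 258) (nat_lit 130))) (XT.nd (nat_lit 78) (nat_lit 76) (nat_lit 0) (XT.lf (nat_lit 0) (nat_lit 58378589269) (nat_lit 76) (nat_lit 75926144422) (nat_lit 76) (nat_lit 8080035062) (nat_lit 6) (nat_lit 4) (nat_lit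 7) (nat_lit 5) (nat_lit 7) (nat_lit 4) (nat_lit 333) (nat_lit 258) (nat_lit 129)) (XT.lf (nat_lit 0) (nat_lit 47751402) (nat_lit 152) (nat_lit 67754198818) (nat_lit 76) (nat_lit 81117363645) (nat_lit 5) (nat_lit 5) (nat_lit 7) (nat_lit 5) (nat_lit 6) (nat_lit 4) (nat_lit 334) (nat_lit 258) (nat_lit 128)))) (XT.nd (nat_lit 156) (nat_lit 76) (nat_lit 0) (XT.nd (nat_lit 78) (nat_lit 0) (nat_lit 0) (XT.lf (nat_lit 0) (nat_lit 8308408305) (nat_lit 152) (nat_lit 50825547249) (nat_lit 76) (nat_lit 96640109355) (nat_lit 5) (nat_lit 5) (nat_lit 7) (nat_lit 5) (nat_lit 6) (nat_lit 4) (nat_lit 335) (nat_lit 258) (nat_lit 127)) (XT.lf (nat_lit 0) (nat_lit 16980215458) (nat_lit 152) (nat_lit 33053766471) (nat_lit 76) (nat_lit 112937668388) (nat_lit 5) (nat_lit 5) (nat_lit 7) (nat_lit 5) (nat_lit 6) (nat_lit 4) (nat_lit 336) (nat_lit 258) (nat_lit 126))) (XT.nd (nat_lit 78) (nat_lit 76) (nat_lit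 0) (XT.lf (nat_lit 0) (nat_lit 26083820022) (nat_lit 152) (nat_lit 14396542720) (nat_lit 76) (nat_lit 130048844457) (nat_lit 5) (nat_lit 5) (nat_lit 7) (nat_lit 5) (nat_lit 6) (nat_lit 4) (nat_lit 337) (nat_lit 258) (nat_lit 125)) (XT.lf (nat_lit 0) (nat_lit 5362168853) (nat_lit 76) (nat_lit 30362446875) (nat_lit 152) (nat_lit 142735928087) (nat_lit 4) (nat_lit 5) (nat_lit 5) (nat_lit 5) (nat_lit 6) (nat_lit 4) (nat_lit 338) (nat_lit 258) (nat_lit 124))))) (XT.nd (nat_lit 312) (nat_lit 0) (nat_lit 0) (XT.nd (nat_lit 156) (nat_lit 0) (nat_lit 0) (XT.nd (nat_lit 78) (nat_lit 0) (nat_lit 0) (XT.lf (nat_lit 0) (nat_lit 26605683534) (nat_lit 76) (nat_lit 19483907822) (nat_lit 152) (nat_lit 140686751216) (nat_lit 4) (nat_lit 5) (nat_lit 5) (nat_lit 5) (nat_lit 6) (nat_lit 4) (nat_lit 339) (nat_lit 258) (nat_lit 123)) (XT.lf (nat_lit 0) (nat_lit 48908566400) (nat_lit 76) (nat_lit 8062656718)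 (nat_lit 152) (nat_lit 138536789992) (nat_lit 4) (nat_lit 5) (nat_lit 5) (nat_lit 5) (nat_lit 6) (nat_lit 4) (nat_lit 340) (nat_lit 258) (nat_lit 122))) (XT.nd (nat_lit 78) (nat_lit 0) (nat_lit 0) (XT.lf (nat_lit 0) (nat_lit 68456754552) (nat_lit 152) (nat_lit 132413760458) (nat_lit 0) (nat_lit 3802763361) (nat_lit 4) (nat_lit 5) (nat_lit 6) (nat_lit 4) (nat_lit 4) (nat_lit 4) (nat_lit 341) (nat_lit 258) (nat_lit 121)) (XT.lf (nat_lit 0) (nat_lit 80647275473) (nat_lit 152) (nat_lit 117653568152) (nat_lit 0) (nat_lit 15989429629) (nat_lit 4) (nat_lit 5) (nat_lit 6) (nat_lit 4) (nat_lit 4) (nat_lit 4) (nat_lit 342) (nat_lit 258) (nat_lit 120)))) (XT.nd (nat_lit 156) (nat_lit 0) (nat_lit 0) (XT.nd (nat_lit 78) (nat_lit 0) (nat_lit 0) (XT.lf (nat_lit 0) (nat_lit 93445930266) (nat_lit 152) (nat_lit 102157845809) (nat_lit 0) (nat_lit 28784413322) (nat_lit 4) (nat_lit 5) (nat_lit 6) (nat_lit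 4) (nat_lit 4) (nat_lit 4) (nat_lit 343) (nat_lit 258) (nat_lit 119)) (XT.lf (nat_lit 0) (nat_lit 106883191917) (nat_lit 152) (nat_lit 85889698852) (nat_lit 0) (nat_lit 42218178687) (nat_lit 4) (nat_lit 5) (nat_lit 6) (nat_lit 4) (nat_lit 4) (nat_lit 4) (nat_lit 344) (nat_lit 258) (nat_lit 118))) (XT.nd (nat_lit 78) (nat_lit 0) (nat_lit 0) (XT.lf (nat_lit 0) (nat_lit 120991053907) (nat_lit 152) (nat_lit 68810393598) (nat_lit 0) (nat_lit 56322710882) (nat_lit 4) (nat_lit 5) (nat_lit 6) (nat_lit 4) (nat_lit 4) (nat_lit 4) (nat_lit 345) (nat_lit 258) (nat_lit 117)) (XT.nd (nat_lit 78) (nat_lit 0) (nat_lit 0) (XT.lf (nat_lit 0) (nat_lit 135803106383) (nat_lit 152) (nat_lit 50879265035) (nat_lit 0) (nat_lit 71131592124) (nat_lit 4) (nat_lit 5) (nat_lit 6) (nat_lit 4) (nat_lit 4) (nat_lit 4) (nat_lit 346) (nat_lit 258) (nat_lit 116)) (XT.lf (nat_lit 0) (nat_lit 151354616138) (nat_lit 152)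 (nat_lit 32053620000) (nat_lit 0) (nat_lit 86680081655) (nat_lit 4) (nat_lit 5) (nat_lit 6) (nat_lit 4) (nat_lit 4) (nat_lit 4) (nat_lit 347) (nat_lit 258) (nat_lit 115))))))) (XT.nd (nat_lit 702) (nat_lit 0) (nat_lit 0) (XT.nd (nat_lit 312) (nat_lit 0) (nat_lit 0) (XT.nd (nat_lit 156) (nat_lit 0) (nat_lit 0) (XT.nd (nat_lit 78) (nat_lit 76) (nat_lit 0) (XT.lf (nat_lit 0) (nat_lit 167682610574) (nat_lit 152) (nat_lit 12288635527) (nat_lit 0) (nat_lit 103005199689) (nat_lit 4) (nat_lit 5) (nat_lit 6) (nat_lit 4) (nat_lit 4) (nat_lit 4) (nat_lit 348) (nat_lit 258) (nat_lit 114)) (XT.lf (nat_lit 0) (nat_lit 8742564531) (nat_lit 76) (nat_lit 176219897271) (nat_lit 76) (nat_lit 111539746955) (nat_lit 3) (nat_lit 4) (nat_lit 4) (nat_lit 5) (nat_lit 4) (nat_lit 4) (nat_lit 349) (nat_lit 258) (nat_lit 113))) (XT.nd (nat_lit 78) (nat_lit 0) (nat_lit 0) (XT.lf (nat_lit 0) (nat_lit 31250137815)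 (nat_lit 76) (nat_lit 172063263951) (nat_lit 76) (nat_lit 107380504653) (nat_lit 3) (nat_lit 4) (nat_lit 4) (nat_lit 5) (nat_lit 4) (nat_lit 4) (nat_lit 350) (nat_lit 258) (nat_lit 112)) (XT.lf (nat_lit 0) (nat_lit 54881355994) (nat_lit 76) (nat_lit 167699563386) (nat_lit 76) (nat_lit 103014319343) (nat_lit 3) (nat_lit 4) (nat_lit 4) (nat_lit 5) (nat_lit 4) (nat_lit 4) (nat_lit 351) (nat_lit 258) (nat_lit 111)))) (XT.nd (nat_lit 156) (nat_lit 0) (nat_lit 0) (XT.nd (nat_lit 78) (nat_lit 0) (nat_lit 0) (XT.lf (nat_lit 0) (nat_lit 79692483875) (nat_lit 76) (nat_lit 163118405811) (nat_lit 76) (nat_lit 98430795344) (nat_lit 3) (nat_lit 4) (nat_lit 4) (nat_lit 5) (nat_lit 4) (nat_lit 4) (nat_lit 352) (nat_lit 258) (nat_lit 110)) (XT.lf (nat_lit 0) (nat_lit 105742595572) (nat_lit 76) (nat_lit 158308883709) (nat_lit 76) (nat_lit 93619019505) (nat_lit 3) (nat_lit 4) (nat_lit 4) (nat_lit 5) (nat_lit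 4) (nat_lit 4) (nat_lit 353) (nat_lit 258) (nat_lit 109))) (XT.nd (nat_lit 78) (nat_lit 0) (nat_lit 0) (XT.lf (nat_lit 0) (nat_lit 133093715159) (nat_lit 76) (nat_lit 153259545836) (nat_lit 76) (nat_lit 88567535217) (nat_lit 3) (nat_lit 4) (nat_lit 4) (nat_lit 5) (nat_lit 4) (nat_lit 4) (nat_lit 354) (nat_lit 258) (nat_lit 108)) (XT.nd (nat_lit 78) (nat_lit 0) (nat_lit 0) (XT.lf (nat_lit 0) (nat_lit 161810964351) (nat_lit 76) (nat_lit 147958369960) (nat_lit 76) (nat_lit 83264315135) (nat_lit 3) (nat_lit 4) (nat_lit 4) (nat_lit 5) (nat_lit 4) (nat_lit 4) (nat_lit 355) (nat_lit 258) (nat_lit 107)) (XT.lf (nat_lit 0) (nat_lit 191962717550) (nat_lit 76) (nat_lit 142392734234) (nat_lit 76) (nat_lit 77696732546) (nat_lit 3) (nat_lit 4) (nat_lit 4) (nat_lit 5) (nat_lit 4) (nat_lit 4) (nat_lit 356) (nat_lit 258) (nat_lit 106)))))) (XT.nd (nat_lit 30108) (nat_lit 0) (nat_lit 5472) (XT.nd (nat_lit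 29952) (nat_lit 0) (nat_lit 5396) (XT.nd (nat_lit 29874) (nat_lit 0) (nat_lit 5396) (XT.lf (nat_lit 0) (nat_lit 223620764644) (nat_lit 76) (nat_lit 136549387143) (nat_lit 76) (nat_lit 71851531300) (nat_lit 3) (nat_lit 4) (nat_lit 4) (nat_lit 5) (nat_lit 4) (nat_lit 4) (nat_lit 357) (nat_lit 258) (nat_lit 105)) (XT.lf (nat_lit 0) (nat_lit 2976373960) (nat_lit 684) (nat_lit 1210453107) (nat_lit 684) (nat_lit 1210453107) (nat_lit 74) (nat_lit 3) (nat_lit 83) (nat_lit 3) (nat_lit 83) (nat_lit 5) (nat_lit 259) (nat_lit 259) (nat_lit 202))) (XT.nd (nat_lit 78) (nat_lit 0) (nat_lit 0) (XT.lf (nat_lit 76) (nat_lit 2159799499) (nat_lit 0) (nat_lit 4502971730) (nat_lit 684) (nat_lit 4371301842) (nat_lit 75) (nat_lit 5) (nat_lit 74) (nat_lit 3) (nat_lit 83) (nat_lit 5) (nat_lit 260) (nat_lit 259) (nat_lit 201)) (XT.lf (nat_lit 76) (nat_lit 7035200087) (nat_lit 0) (nat_lit 380042163) (nat_lit 684)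 (nat_lit 3870118508) (nat_lit 75) (nat_lit 5) (nat_lit 74) (nat_lit 3) (nat_lit 83) (nat_lit 5) (nat_lit 261) (nat_lit 259) (nat_lit 200)))) (XT.nd (nat_lit 156) (nat_lit 0) (nat_lit 76) (XT.nd (nat_lit 78) (nat_lit 0) (nat_lit 0) (XT.lf (nat_lit 76) (nat_lit 541320742) (nat_lit 0) (nat_lit 7701924896) (nat_lit 684) (nat_lit 3304211422) (nat_lit 76) (nat_lit 5) (nat_lit 75) (nat_lit 5) (nat_lit 84) (nat_lit 5) (nat_lit 262) (nat_lit 259) (nat_lit 199)) (XT.lf (nat_lit 76) (nat_lit 5694303353) (nat_lit 0) (nat_lit 3465489475) (nat_lit 684) (nat_lit 2660641190) (nat_lit 76) (nat_lit 5) (nat_lit 75) (nat_lit 5) (nat_lit 84) (nat_lit 5) (nat_lit 263) (nat_lit 259) (nat_lit 198))) (XT.nd (nat_lit 78) (nat_lit 0) (nat_lit 0) (XT.lf (nat_lit 0) (nat_lit 10108196075) (nat_lit 608) (nat_lit 1037523442) (nat_lit 684) (nat_lit 962165558) (nat_lit 76) (nat_lit 5) (nat_lit 84) (nat_lit 5) (nat_lit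 85) (nat_lit 5) (nat_lit 264) (nat_lit 259) (nat_lit 197)) (XT.nd (nat_lit 78) (nat_lit 0) (nat_lit 0) (XT.lf (nat_lit 76) (nat_lit 4369452654) (nat_lit 0) (nat_lit 6831678428) (nat_lit 684) (nat_lit 1203842678) (nat_lit 77) (nat_lit 5) (nat_lit 76) (nat_lit 5) (nat_lit 85) (nat_lit 5) (nat_lit 265) (nat_lit 259) (nat_lit 196)) (XT.lf (nat_lit 76) (nat_lit 10064006134) (nat_lit 0) (nat_lit 2275394649) (nat_lit 684) (nat_lit 378096609) (nat_lit 77) (nat_lit 5) (nat_lit 76) (nat_lit 5) (nat_lit 85) (nat_lit 5) (nat_lit 266) (nat_lit 259) (nat_lit 195))))))))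
noncomputable def xc170 : XT := (XT.nd (nat_lit 1326) (nat_lit 1520) (nat_lit 0) (XT.nd (nat_lit 624) (nat_lit 1216) (nat_lit 0) (XT.nd (nat_lit 312) (nat_lit 912) (nat_lit 0) (XT.nd (nat_lit 156) (nat_lit 0) (nat_lit 0) (XT.nd (nat_lit 78) (nat_lit 0) (nat_lit 0) (XT.lf (nat_lit 0) (nat_lit 535272871) (nat_lit 684) (nat_lit 10015091563) (nat_lit 760) (nat_lit 2491906056) (nat_lit 68) (nat_lit 5) (nat_lit 77) (nat_lit 5) (nat_lit 78) (nat_lit 5) (nat_lit 267) (nat_lit 259) (nat_lit 194)) (XT.lf (nat_lit 0) (nat_lit 1539509850) (nat_lit 684) (nat_lit 4361288170) (nat_lit 760) (nat_lit 7479378292) (nat_lit 68) (nat_lit 5) (nat_lit 77) (nat_lit 5) (nat_lit 78) (nat_lit 5) (nat_lit 268) (nat_lit 259) (nat_lit 193))) (XT.nd (nat_lit 78) (nat_lit 0) (nat_lit 76) (XT.lf (nat_lit 76) (nat_lit 1607589598) (nat_lit 0) (nat_lit 987591059) (nat_lit 760) (nat_lit 11139830208) (nat_lit 69) (nat_lit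 5) (nat_lit 68) (nat_lit 5) (nat_lit 78) (nat_lit 5) (nat_lit 269) (nat_lit 259) (nat_lit 192)) (XT.lf (nat_lit 0) (nat_lit 3820865449) (nat_lit 684) (nat_lit 6163974440) (nat_lit 76) (nat_lit 4116975765) (nat_lit 69) (nat_lit 5) (nat_lit 78) (nat_lit 5) (nat_lit 70) (nat_lit 5) (nat_lit 270) (nat_lit 259) (nat_lit 191)))) (XT.nd (nat_lit 156) (nat_lit 304) (nat_lit 0) (XT.nd (nat_lit 78) (nat_lit 0) (nat_lit 0) (XT.lf (nat_lit 0) (nat_lit 64402158) (nat_lit 684) (nat_lit 5038755248) (nat_lit 760) (nat_lit 9384122879) (nat_lit 60) (nat_lit 5) (nat_lit 69) (nat_lit 5) (nat_lit 70) (nat_lit 5) (nat_lit 271) (nat_lit 259) (nat_lit 190)) (XT.lf (nat_lit 0) (nat_lit 6536990988) (nat_lit 760) (nat_lit 8092707006) (nat_lit 76) (nat_lit 258030466) (nat_lit 60) (nat_lit 5) (nat_lit 70) (nat_lit 5) (nat_lit 61) (nat_lit 5) (nat_lit 272) (nat_lit 259) (nat_lit 189))) (XT.nd (nat_lit 78) (nat_lit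 304) (nat_lit 0) (XT.lf (nat_lit 0) (nat_lit 8105034566) (nat_lit 760) (nat_lit 1547658102) (nat_lit 76) (nat_lit 5652458235) (nat_lit 60) (nat_lit 5) (nat_lit 70) (nat_lit 5) (nat_lit 61) (nat_lit 5) (nat_lit 273) (nat_lit 259) (nat_lit 188)) (XT.lf (nat_lit 0) (nat_lit 5481978678) (nat_lit 304) (nat_lit 4335962861) (nat_lit 380) (nat_lit 5922253939) (nat_lit 56) (nat_lit 5) (nat_lit 60) (nat_lit 5) (nat_lit 61) (nat_lit 5) (nat_lit 274) (nat_lit 259) (nat_lit 187))))) (XT.nd (nat_lit 312) (nat_lit 532) (nat_lit 0) (XT.nd (nat_lit 156) (nat_lit 380) (nat_lit 0) (XT.nd (nat_lit 78) (nat_lit 304) (nat_lit 0) (XT.lf (nat_lit 0) (nat_lit 11644111882) (nat_lit 380) (nat_lit 3317581456) (nat_lit 76) (nat_lit 1233988586) (nat_lit 56) (nat_lit 5) (nat_lit 61) (nat_lit 5) (nat_lit 57) (nat_lit 5) (nat_lit 275) (nat_lit 259) (nat_lit 186)) (XT.lf (nat_lit 0) (nat_lit 4009391252) (nat_lit 304)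 (nat_lit 9668273950) (nat_lit 380) (nat_lit 2990540954) (nat_lit 52) (nat_lit 5) (nat_lit 56) (nat_lit 5) (nat_lit 57) (nat_lit 5) (nat_lit 276) (nat_lit 259) (nat_lit 185))) (XT.nd (nat_lit 78) (nat_lit 380) (nat_lit 0) (XT.lf (nat_lit 0) (nat_lit 11800242263) (nat_lit 304) (nat_lit 4051796807) (nat_lit 380) (nat_lit 1310424371) (nat_lit 52) (nat_lit 5) (nat_lit 56) (nat_lit 5) (nat_lit 57) (nat_lit 5) (nat_lit 277) (nat_lit 259) (nat_lit 184)) (XT.lf (nat_lit 0) (nat_lit 488827809) (nat_lit 380) (nat_lit 15359731979) (nat_lit 76) (nat_lit 1830095116) (nat_lit 47) (nat_lit 5) (nat_lit 52) (nat_lit 5) (nat_lit 48) (nat_lit 5) (nat_lit 278) (nat_lit 259) (nat_lit 183)))) (XT.nd (nat_lit 156) (nat_lit 228) (nat_lit 0) (XT.nd (nat_lit 78) (nat_lit 304) (nat_lit 0) (XT.lf (nat_lit 0) (nat_lit 2476675373) (nat_lit 380) (nat_lit 7753194128) (nat_lit 76) (nat_lit 7982634014) (nat_lit 47) (nat_lit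 5) (nat_lit 52) (nat_lit 5) (nat_lit 48) (nat_lit 5) (nat_lit 279) (nat_lit 259) (nat_lit 182)) (XT.lf (nat_lit 0) (nat_lit 223713470) (nat_lit 304) (nat_lit 4328407208) (nat_lit 380) (nat_lit 14221566251) (nat_lit 43) (nat_lit 5) (nat_lit 47) (nat_lit 5) (nat_lit 48) (nat_lit 5) (nat_lit 280) (nat_lit 259) (nat_lit 181))) (XT.nd (nat_lit 78) (nat_lit 228) (nat_lit 0) (XT.lf (nat_lit 0) (nat_lit 6879107669) (nat_lit 380) (nat_lit 10536644730) (nat_lit 76) (nat_lit 1939838778) (nat_lit 43) (nat_lit 5) (nat_lit 48) (nat_lit 5) (nat_lit 44) (nat_lit 5) (nat_lit 281) (nat_lit 259) (nat_lit 180)) (XT.nd (nat_lit 78) (nat_lit 228) (nat_lit 0) (XT.lf (nat_lit 0) (nat_lit 9379254915) (nat_lit 380) (nat_lit 2210369935) (nat_lit 76) (nat_lit 8374172989) (nat_lit 43) (nat_lit 5) (nat_lit 48) (nat_lit 5) (nat_lit 44) (nat_lit 5) (nat_lit 282) (nat_lit 259) (nat_lit 179)) (XT.lf (nat_lit 0) (nat_lit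 6731710738) (nat_lit 228) (nat_lit 5364326714) (nat_lit 304) (nat_lit 8501841460) (nat_lit 40) (nat_lit 5) (nat_lit 43) (nat_lit 5) (nat_lit 44) (nat_lit 5) (nat_lit 283) (nat_lit 259) (nat_lit 178))))))) (XT.nd (nat_lit 702) (nat_lit 608) (nat_lit 0) (XT.nd (nat_lit 312) (nat_lit 380) (nat_lit 0) (XT.nd (nat_lit 156) (nat_lit 304) (nat_lit 0) (XT.nd (nat_lit 78) (nat_lit 228) (nat_lit 0) (XT.lf (nat_lit 0) (nat_lit 14991890686) (nat_lit 304) (nat_lit 5099436634) (nat_lit 76) (nat_lit 1170218447) (nat_lit 40) (nat_lit 5) (nat_lit 44) (nat_lit 5) (nat_lit 41) (nat_lit 5) (nat_lit 284) (nat_lit 259) (nat_lit 177)) (XT.lf (nat_lit 0) (nat_lit 4134435437) (nat_lit 228) (nat_lit 14038098027) (nat_lit 304) (nat_lit 3778903904) (nat_lit 37) (nat_lit 5) (nat_lit 40) (nat_lit 5) (nat_lit 41) (nat_lit 5) (nat_lit 285) (nat_lit 259) (nat_lit 176))) (XT.nd (nat_lit 78) (nat_lit 304) (nat_lit 0)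 (XT.lf (nat_lit 0) (nat_lit 13991709376) (nat_lit 228) (nat_lit 7594722926) (nat_lit 304) (nat_lit 1085719330) (nat_lit 37) (nat_lit 5) (nat_lit 40) (nat_lit 5) (nat_lit 41) (nat_lit 5) (nat_lit 286) (nat_lit 259) (nat_lit 175)) (XT.lf (nat_lit 0) (nat_lit 899507989) (nat_lit 228) (nat_lit 789116217) (nat_lit 304) (nat_lit 21738840132) (nat_lit 33) (nat_lit 5) (nat_lit 36) (nat_lit 5) (nat_lit 37) (nat_lit 5) (nat_lit 287) (nat_lit 259) (nat_lit 174)))) (XT.nd (nat_lit 156) (nat_lit 380) (nat_lit 0) (XT.nd (nat_lit 78) (nat_lit 0) (nat_lit 0) (XT.lf (nat_lit 0) (nat_lit 4802355207) (nat_lit 304) (nat_lit 13088166978) (nat_lit 76) (nat_lit 6317306616) (nat_lit 33) (nat_lit 5) (nat_lit 37) (nat_lit 5) (nat_lit 34) (nat_lit 5) (nat_lit 288) (nat_lit 259) (nat_lit 173)) (XT.lf (nat_lit 0) (nat_lit 8073750154) (nat_lit 304) (nat_lit 3203934117) (nat_lit 76) (nat_lit 13749460662) (nat_lit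 33) (nat_lit 5) (nat_lit 37) (nat_lit 5) (nat_lit 34) (nat_lit 5) (nat_lit 289) (nat_lit 259) (nat_lit 172))) (XT.nd (nat_lit 78) (nat_lit 152) (nat_lit 0) (XT.lf (nat_lit 0) (nat_lit 7397358092) (nat_lit 228) (nat_lit 4216413166) (nat_lit 304) (nat_lit 14268433572) (nat_lit 30) (nat_lit 5) (nat_lit 33) (nat_lit 5) (nat_lit 34) (nat_lit 5) (nat_lit 290) (nat_lit 259) (nat_lit 171)) (XT.nd (nat_lit 78) (nat_lit 152) (nat_lit 0) (XT.lf (nat_lit 0) (nat_lit 15425662607) (nat_lit 304) (nat_lit 8202345804) (nat_lit 76) (nat_lit 3147295163) (nat_lit 30) (nat_lit 5) (nat_lit 34) (nat_lit 5) (nat_lit 31) (nat_lit 5) (nat_lit 291) (nat_lit 259) (nat_lit 170)) (XT.lf (nat_lit 0) (nat_lit 2594709035) (nat_lit 152) (nat_lit 16933348827) (nat_lit 228) (nat_lit 8180031842) (nat_lit 28) (nat_lit 5) (nat_lit 30) (nat_lit 5) (nat_lit 31) (nat_lit 5) (nat_lit 292) (nat_lit 259) (nat_lit 169)))))) (XT.nd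 (nat_lit 312) (nat_lit 304) (nat_lit 0) (XT.nd (nat_lit 156) (nat_lit 304) (nat_lit 0) (XT.nd (nat_lit 78) (nat_lit 0) (nat_lit 0) (XT.lf (nat_lit 0) (nat_lit 14203104720) (nat_lit 152) (nat_lit 9761911662) (nat_lit 228) (nat_lit 4716053173) (nat_lit 28) (nat_lit 5) (nat_lit 30) (nat_lit 5) (nat_lit 31) (nat_lit 5) (nat_lit 293) (nat_lit 259) (nat_lit 168)) (XT.lf (nat_lit 0) (nat_lit 26379273692) (nat_lit 152) (nat_lit 2235532760) (nat_lit 228) (nat_lit 1088368086) (nat_lit 28) (nat_lit 5) (nat_lit 30) (nat_lit 5) (nat_lit 31) (nat_lit 5) (nat_lit 294) (nat_lit 259) (nat_lit 167))) (XT.nd (nat_lit 78) (nat_lit 0) (nat_lit 0) (XT.lf (nat_lit 0) (nat_lit 2850598161) (nat_lit 304) (nat_lit 22250765316) (nat_lit 76) (nat_lit 5662071555) (nat_lit 24) (nat_lit 5) (nat_lit 28) (nat_lit 5) (nat_lit 25) (nat_lit 5) (nat_lit 295) (nat_lit 259) (nat_lit 166)) (XT.lf (nat_lit 0) (nat_lit 7035218231)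 (nat_lit 304) (nat_lit 10885388477) (nat_lit 76) (nat_lit 13950967520) (nat_lit 24) (nat_lit 5) (nat_lit 28) (nat_lit 5) (nat_lit 25) (nat_lit 5) (nat_lit 296) (nat_lit 259) (nat_lit 165)))) (XT.nd (nat_lit 156) (nat_lit 152) (nat_lit 0) (XT.nd (nat_lit 78) (nat_lit 0) (nat_lit 0) (XT.lf (nat_lit 0) (nat_lit 1070571053) (nat_lit 152) (nat_lit 10367040532) (nat_lit 228) (nat_lit 21597102516) (nat_lit 22) (nat_lit 5) (nat_lit 24) (nat_lit 5) (nat_lit 25) (nat_lit 5) (nat_lit 297) (nat_lit 259) (nat_lit 164)) (XT.lf (nat_lit 0) (nat_lit 13990486320) (nat_lit 152) (nat_lit 2246020854) (nat_lit 228) (nat_lit 18010704507) (nat_lit 22) (nat_lit 5) (nat_lit 24) (nat_lit 5) (nat_lit 25) (nat_lit 5) (nat_lit 298) (nat_lit 259) (nat_lit 163))) (XT.nd (nat_lit 78) (nat_lit 152) (nat_lit 0) (XT.lf (nat_lit 0) (nat_lit 21365768567) (nat_lit 228) (nat_lit 8073541893) (nat_lit 76) (nat_lit 6076521522)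 (nat_lit 22) (nat_lit 5) (nat_lit 25) (nat_lit 5) (nat_lit 23) (nat_lit 5) (nat_lit 299) (nat_lit 259) (nat_lit 162)) (XT.nd (nat_lit 78) (nat_lit 0) (nat_lit 0) (XT.lf (nat_lit 0) (nat_lit 4825433981) (nat_lit 152) (nat_lit 22030937835) (nat_lit 228) (nat_lit 9986285539) (nat_lit 20) (nat_lit 5) (nat_lit 22) (nat_lit 5) (nat_lit 23) (nat_lit 5) (nat_lit 300) (nat_lit 259) (nat_lit 161)) (XT.lf (nat_lit 0) (nat_lit 18638840289) (nat_lit 152) (nat_lit 14112292328) (nat_lit 228) (nat_lit 5478227149) (nat_lit 20) (nat_lit 5) (nat_lit 22) (nat_lit 5) (nat_lit 23) (nat_lit 5) (nat_lit 301) (nat_lit 259) (nat_lit 160))))))))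
noncomputable def xc171 : XT := (XT.nd (nat_lit 1326) (nat_lit 380) (nat_lit 0) (XT.nd (nat_lit 624) (nat_lit 304) (nat_lit 0) (XT.nd (nat_lit 312) (nat_lit 228) (nat_lit 0) (XT.nd (nat_lit 156) (nat_lit 0) (nat_lit 0) (XT.nd (nat_lit 78) (nat_lit 228) (nat_lit 0) (XT.lf (nat_lit 0) (nat_lit 33132618337) (nat_lit 152) (nat_lit 5801249361) (nat_lit 228) (nat_lit 751884110) (nat_lit 20) (nat_lit 5) (nat_lit 22) (nat_lit 5) (nat_lit 23) (nat_lit 5) (nat_lit 302) (nat_lit 259) (nat_lit 159)) (XT.lf (nat_lit 0) (nat_lit 4231882187) (nat_lit 228) (nat_lit 33961101975) (nat_lit 76) (nat_lit 3010913130) (nat_lit 17) (nat_lit 5) (nat_lit 20) (nat_lit 5) (nat_lit 18) (nat_lit 5) (nat_lit 303) (nat_lit 259) (nat_lit 158))) (XT.nd (nat_lit 78) (nat_lit 0) (nat_lit 0) (XT.lf (nat_lit 0) (nat_lit 9641012555) (nat_lit 228) (nat_lit 20955776337) (nat_lit 76) (nat_lit 12190486762) (nat_lit 17) (nat_lit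 5) (nat_lit 20) (nat_lit 5) (nat_lit 18) (nat_lit 5) (nat_lit 304) (nat_lit 259) (nat_lit 157)) (XT.lf (nat_lit 0) (nat_lit 15314448683) (nat_lit 228) (nat_lit 7309858781) (nat_lit 76) (nat_lit 21825836437) (nat_lit 17) (nat_lit 5) (nat_lit 20) (nat_lit 5) (nat_lit 18) (nat_lit 5) (nat_lit 305) (nat_lit 259) (nat_lit 156)))) (XT.nd (nat_lit 156) (nat_lit 76) (nat_lit 0) (XT.nd (nat_lit 78) (nat_lit 0) (nat_lit 0) (XT.lf (nat_lit 0) (nat_lit 7240894827) (nat_lit 152) (nat_lit 14137854586) (nat_lit 228) (nat_lit 24812059295) (nat_lit 15) (nat_lit 5) (nat_lit 17) (nat_lit 5) (nat_lit 18) (nat_lit 5) (nat_lit 306) (nat_lit 259) (nat_lit 155)) (XT.lf (nat_lit 0) (nat_lit 22763902836) (nat_lit 152) (nat_lit 5100437891) (nat_lit 228) (nat_lit 20148274433) (nat_lit 15) (nat_lit 5) (nat_lit 17) (nat_lit 5) (nat_lit 18) (nat_lit 5) (nat_lit 307) (nat_lit 259) (nat_lit 154))) (XT.nd (nat_lit 78)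 (nat_lit 76) (nat_lit 0) (XT.lf (nat_lit 0) (nat_lit 34737236068) (nat_lit 228) (nat_lit 10939840604) (nat_lit 76) (nat_lit 4245295638) (nat_lit 15) (nat_lit 5) (nat_lit 18) (nat_lit 5) (nat_lit 16) (nat_lit 4) (nat_lit 308) (nat_lit 259) (nat_lit 153)) (XT.lf (nat_lit 0) (nat_lit 4124422853) (nat_lit 76) (nat_lit 37972124877) (nat_lit 152) (nat_lit 9823942057) (nat_lit 14) (nat_lit 5) (nat_lit 15) (nat_lit 5) (nat_lit 16) (nat_lit 4) (nat_lit 309) (nat_lit 259) (nat_lit 152))))) (XT.nd (nat_lit 312) (nat_lit 76) (nat_lit 0) (XT.nd (nat_lit 156) (nat_lit 152) (nat_lit 0) (XT.nd (nat_lit 78) (nat_lit 76) (nat_lit 0) (XT.lf (nat_lit 0) (nat_lit 20313396860) (nat_lit 76) (nat_lit 29690583232) (nat_lit 152) (nat_lit 4005535812) (nat_lit 14) (nat_lit 5) (nat_lit 15) (nat_lit 5) (nat_lit 16) (nat_lit 4) (nat_lit 310) (nat_lit 259) (nat_lit 151)) (XT.lf (nat_lit 0) (nat_lit 2031493980) (nat_lit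 152) (nat_lit 18932106959) (nat_lit 76) (nat_lit 35238007744) (nat_lit 13) (nat_lit 5) (nat_lit 15) (nat_lit 5) (nat_lit 14) (nat_lit 5) (nat_lit 311) (nat_lit 259) (nat_lit 150))) (XT.nd (nat_lit 78) (nat_lit 152) (nat_lit 0) (XT.lf (nat_lit 0) (nat_lit 8231036972) (nat_lit 152) (nat_lit 3503260820) (nat_lit 76) (nat_lit 46765970472) (nat_lit 13) (nat_lit 5) (nat_lit 15) (nat_lit 5) (nat_lit 14) (nat_lit 5) (nat_lit 312) (nat_lit 259) (nat_lit 149)) (XT.lf (nat_lit 0) (nat_lit 13109270896) (nat_lit 152) (nat_lit 1831457703) (nat_lit 228) (nat_lit 45963132308) (nat_lit 11) (nat_lit 5) (nat_lit 13) (nat_lit 5) (nat_lit 14) (nat_lit 5) (nat_lit 313) (nat_lit 259) (nat_lit 148)))) (XT.nd (nat_lit 156) (nat_lit 76) (nat_lit 0) (XT.nd (nat_lit 78) (nat_lit 0) (nat_lit 0) (XT.lf (nat_lit 0) (nat_lit 22175510984) (nat_lit 228) (nat_lit 32892733447) (nat_lit 76) (nat_lit 8349916686) (nat_lit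 11) (nat_lit 5) (nat_lit 14) (nat_lit 5) (nat_lit 12) (nat_lit 4) (nat_lit 314) (nat_lit 259) (nat_lit 147)) (XT.lf (nat_lit 0) (nat_lit 29797824663) (nat_lit 228) (nat_lit 17282856687) (nat_lit 76) (nat_lit 18976213230) (nat_lit 11) (nat_lit 5) (nat_lit 14) (nat_lit 5) (nat_lit 12) (nat_lit 4) (nat_lit 315) (nat_lit 259) (nat_lit 146))) (XT.nd (nat_lit 78) (nat_lit 76) (nat_lit 0) (XT.lf (nat_lit 0) (nat_lit 37797223813) (nat_lit 228) (nat_lit 899199173) (nat_lit 76) (nat_lit 30131350718) (nat_lit 11) (nat_lit 5) (nat_lit 14) (nat_lit 5) (nat_lit 12) (nat_lit 4) (nat_lit 316) (nat_lit 259) (nat_lit 145)) (XT.nd (nat_lit 78) (nat_lit 0) (nat_lit 0) (XT.lf (nat_lit 0) (nat_lit 16836108418) (nat_lit 76) (nat_lit 29619505042) (nat_lit 152) (nat_lit 25268639419) (nat_lit 10) (nat_lit 5) (nat_lit 11) (nat_lit 5) (nat_lit 12) (nat_lit 4) (nat_lit 317) (nat_lit 259) (nat_lit 144)) (XT.lf (nat_lit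 0) (nat_lit 35483109261) (nat_lit 76) (nat_lit 20075287971) (nat_lit 152) (nat_lit 19206591830) (nat_lit 10) (nat_lit 5) (nat_lit 11) (nat_lit 5) (nat_lit 12) (nat_lit 4) (nat_lit 318) (nat_lit 259) (nat_lit 143))))))) (XT.nd (nat_lit 702) (nat_lit 152) (nat_lit 0) (XT.nd (nat_lit 312) (nat_lit 76) (nat_lit 0) (XT.nd (nat_lit 156) (nat_lit 152) (nat_lit 0) (XT.nd (nat_lit 78) (nat_lit 0) (nat_lit 0) (XT.lf (nat_lit 0) (nat_lit 55056469392) (nat_lit 76) (nat_lit 10056275820) (nat_lit 152) (nat_lit 12845202050) (nat_lit 10) (nat_lit 5) (nat_lit 11) (nat_lit 5) (nat_lit 12) (nat_lit 4) (nat_lit 319) (nat_lit 259) (nat_lit 142)) (XT.lf (nat_lit 0) (nat_lit 75148609381) (nat_lit 152) (nat_lit 5715141246) (nat_lit 0) (nat_lit 446618960) (nat_lit 10) (nat_lit 5) (nat_lit 12) (nat_lit 4) (nat_lit 10) (nat_lit 4) (nat_lit 320) (nat_lit 259) (nat_lit 141))) (XT.nd (nat_lit 78) (nat_lit 0) (nat_lit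 0) (XT.lf (nat_lit 0) (nat_lit 1192030105) (nat_lit 152) (nat_lit 72269604574) (nat_lit 76) (nat_lit 11349937361) (nat_lit 8) (nat_lit 5) (nat_lit 10) (nat_lit 5) (nat_lit 9) (nat_lit 4) (nat_lit 321) (nat_lit 259) (nat_lit 140)) (XT.lf (nat_lit 0) (nat_lit 8801545496) (nat_lit 152) (nat_lit 56680836946) (nat_lit 76) (nat_lit 22995651310) (nat_lit 8) (nat_lit 5) (nat_lit 10) (nat_lit 5) (nat_lit 9) (nat_lit 4) (nat_lit 322) (nat_lit 259) (nat_lit 139)))) (XT.nd (nat_lit 156) (nat_lit 76) (nat_lit 0) (XT.nd (nat_lit 78) (nat_lit 0) (nat_lit 0) (XT.lf (nat_lit 0) (nat_lit 16788427827) (nat_lit 152) (nat_lit 40317955714) (nat_lit 76) (nat_lit 35221595511) (nat_lit 8) (nat_lit 5) (nat_lit 10) (nat_lit 5) (nat_lit 9) (nat_lit 4) (nat_lit 323) (nat_lit 259) (nat_lit 138)) (XT.lf (nat_lit 0) (nat_lit 25171693484) (nat_lit 152) (nat_lit 23142001637) (nat_lit 76) (nat_lit 48056879355) (nat_lit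 8) (nat_lit 5) (nat_lit 10) (nat_lit 5) (nat_lit 9) (nat_lit 4) (nat_lit 324) (nat_lit 259) (nat_lit 137))) (XT.nd (nat_lit 78) (nat_lit 76) (nat_lit 0) (XT.lf (nat_lit 0) (nat_lit 33971302625) (nat_lit 152) (nat_lit 5112079585) (nat_lit 76) (nat_lit 61532063042) (nat_lit 8) (nat_lit 5) (nat_lit 10) (nat_lit 5) (nat_lit 9) (nat_lit 4) (nat_lit 325) (nat_lit 259) (nat_lit 136)) (XT.nd (nat_lit 78) (nat_lit 0) (nat_lit 0) (XT.lf (nat_lit 0) (nat_lit 14271516479) (nat_lit 76) (nat_lit 29159508586) (nat_lit 152) (nat_lit 61630532232) (nat_lit 7) (nat_lit 5) (nat_lit 8) (nat_lit 5) (nat_lit 9) (nat_lit 4) (nat_lit 326) (nat_lit 259) (nat_lit 135)) (XT.lf (nat_lit 0) (nat_lit 34797246654) (nat_lit 76) (nat_lit 18650434217) (nat_lit 152) (nat_lit 56278100874) (nat_lit 7) (nat_lit 5) (nat_lit 8) (nat_lit 5) (nat_lit 9) (nat_lit 4) (nat_lit 327) (nat_lit 259) (nat_lit 134)))))) (XT.nd (nat_lit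 312) (nat_lit 152) (nat_lit 0) (XT.nd (nat_lit 156) (nat_lit 0) (nat_lit 0) (XT.nd (nat_lit 78) (nat_lit 0) (nat_lit 0) (XT.lf (nat_lit 0) (nat_lit 56344953287) (nat_lit 76) (nat_lit 7617713040) (nat_lit 152) (nat_lit 50660680212) (nat_lit 7) (nat_lit 5) (nat_lit 8) (nat_lit 5) (nat_lit 9) (nat_lit 4) (nat_lit 328) (nat_lit 259) (nat_lit 133)) (XT.lf (nat_lit 0) (nat_lit 75062920676) (nat_lit 152) (nat_lit 40861875669) (nat_lit 0) (nat_lit 3838021022) (nat_lit 7) (nat_lit 5) (nat_lit 9) (nat_lit 4) (nat_lit 7) (nat_lit 4) (nat_lit 329) (nat_lit 259) (nat_lit 132))) (XT.nd (nat_lit 78) (nat_lit 0) (nat_lit 0) (XT.lf (nat_lit 0) (nat_lit 86840772273) (nat_lit 152) (nat_lit 22703413622) (nat_lit 0) (nat_lit 15608950213) (nat_lit 7) (nat_lit 5) (nat_lit 9) (nat_lit 4) (nat_lit 7) (nat_lit 4) (nat_lit 330) (nat_lit 259) (nat_lit 131)) (XT.lf (nat_lit 0) (nat_lit 99205329772) (nat_lit 152)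 (nat_lit 3640838828) (nat_lit 0) (nat_lit 27966914944) (nat_lit 7) (nat_lit 5) (nat_lit 9) (nat_lit 4) (nat_lit 7) (nat_lit 4) (nat_lit 331) (nat_lit 259) (nat_lit 130)))) (XT.nd (nat_lit 156) (nat_lit 76) (nat_lit 0) (XT.nd (nat_lit 78) (nat_lit 0) (nat_lit 0) (XT.lf (nat_lit 0) (nat_lit 16912542786) (nat_lit 76) (nat_lit 95537542001) (nat_lit 76) (nat_lit 24292848347) (nat_lit 6) (nat_lit 4) (nat_lit 7) (nat_lit 5) (nat_lit 7) (nat_lit 4) (nat_lit 332) (nat_lit 259) (nat_lit 129)) (XT.lf (nat_lit 0) (nat_lit 38616424805) (nat_lit 76) (nat_lit 87800272990) (nat_lit 76) (nat_lit 16549599501) (nat_lit 6) (nat_lit 4) (nat_lit 7) (nat_lit 5) (nat_lit 7) (nat_lit 4) (nat_lit 333) (nat_lit 259) (nat_lit 128))) (XT.nd (nat_lit 78) (nat_lit 76) (nat_lit 0) (XT.lf (nat_lit 0) (nat_lit 61402100564) (nat_lit 76) (nat_lit 79677598867) (nat_lit 76) (nat_lit 8421230297) (nat_lit 6) (nat_lit 4) (nat_lit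 7) (nat_lit 5) (nat_lit 7) (nat_lit 4) (nat_lit 334) (nat_lit 259) (nat_lit 127)) (XT.nd (nat_lit 78) (nat_lit 0) (nat_lit 0) (XT.lf (nat_lit 0) (nat_lit 108040226) (nat_lit 152) (nat_lit 71040309989) (nat_lit 76) (nat_lit 85213951731) (nat_lit 5) (nat_lit 5) (nat_lit 7) (nat_lit 5) (nat_lit 6) (nat_lit 4) (nat_lit 335) (nat_lit 259) (nat_lit 126)) (XT.lf (nat_lit 0) (nat_lit 8778972772) (nat_lit 152) (nat_lit 53270063878) (nat_lit 76) (nat_lit 101510895684) (nat_lit 5) (nat_lit 5) (nat_lit 7) (nat_lit 5) (nat_lit 6) (nat_lit 4) (nat_lit 336) (nat_lit 259) (nat_lit 125))))))))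
noncomputable def xc172 : XT := (XT.nd (nat_lit 1326) (nat_lit 0) (nat_lit 0) (XT.nd (nat_lit 624) (nat_lit 76) (nat_lit 0) (XT.nd (nat_lit 312) (nat_lit 0) (nat_lit 0) (XT.nd (nat_lit 156) (nat_lit 76) (nat_lit 0) (XT.nd (nat_lit 78) (nat_lit 0) (nat_lit 0) (XT.lf (nat_lit 0) (nat_lit 17881744375) (nat_lit 152) (nat_lit 34614301715) (nat_lit 76) (nat_lit 118621485961) (nat_lit 5) (nat_lit 5) (nat_lit 7) (nat_lit 5) (nat_lit 6) (nat_lit 4) (nat_lit 337) (nat_lit 259) (nat_lit 124)) (XT.lf (nat_lit 0) (nat_lit 27438028304) (nat_lit 152) (nat_lit 15028605019) (nat_lit 76) (nat_lit 136586462065) (nat_lit 5) (nat_lit 5) (nat_lit 7) (nat_lit 5) (nat_lit 6) (nat_lit 4) (nat_lit 338) (nat_lit 259) (nat_lit 123))) (XT.nd (nat_lit 78) (nat_lit 0) (nat_lit 0) (XT.lf (nat_lit 0) (nat_lit 5716626572) (nat_lit 76) (nat_lit 31843203603) (nat_lit 152) (nat_lit 149821223736) (nat_lit 4) (nat_lit 5)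 (nat_lit 5) (nat_lit 5) (nat_lit 6) (nat_lit 4) (nat_lit 339) (nat_lit 259) (nat_lit 122)) (XT.lf (nat_lit 0) (nat_lit 28018205116) (nat_lit 76) (nat_lit 20422516912) (nat_lit 152) (nat_lit 147672040439) (nat_lit 4) (nat_lit 5) (nat_lit 5) (nat_lit 5) (nat_lit 6) (nat_lit 4) (nat_lit 340) (nat_lit 259) (nat_lit 121)))) (XT.nd (nat_lit 156) (nat_lit 0) (nat_lit 0) (XT.nd (nat_lit 78) (nat_lit 0) (nat_lit 0) (XT.lf (nat_lit 0) (nat_lit 51432316058) (nat_lit 76) (nat_lit 8431897838) (nat_lit 152) (nat_lit 145416916788) (nat_lit 4) (nat_lit 5) (nat_lit 5) (nat_lit 5) (nat_lit 6) (nat_lit 4) (nat_lit 341) (nat_lit 259) (nat_lit 120)) (XT.lf (nat_lit 0) (nat_lit 71922410153) (nat_lit 152) (nat_lit 138958186316) (nat_lit 0) (nat_lit 4024146262) (nat_lit 4) (nat_lit 5) (nat_lit 6) (nat_lit 4) (nat_lit 4) (nat_lit 4) (nat_lit 342) (nat_lit 259) (nat_lit 119))) (XT.nd (nat_lit 78) (nat_lit 0)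 (nat_lit 0) (XT.lf (nat_lit 0) (nat_lit 84720418175) (nat_lit 152) (nat_lit 123463615926) (nat_lit 0) (nat_lit 16818657998) (nat_lit 4) (nat_lit 5) (nat_lit 6) (nat_lit 4) (nat_lit 4) (nat_lit 4) (nat_lit 343) (nat_lit 259) (nat_lit 118)) (XT.lf (nat_lit 0) (nat_lit 98157063853) (nat_lit 152) (nat_lit 107196566067) (nat_lit 0) (nat_lit 30251973881) (nat_lit 4) (nat_lit 5) (nat_lit 6) (nat_lit 4) (nat_lit 4) (nat_lit 4) (nat_lit 344) (nat_lit 259) (nat_lit 117))))) (XT.nd (nat_lit 312) (nat_lit 76) (nat_lit 0) (XT.nd (nat_lit 156) (nat_lit 0) (nat_lit 0) (XT.nd (nat_lit 78) (nat_lit 0) (nat_lit 0) (XT.lf (nat_lit 0) (nat_lit 112264339203) (nat_lit 152) (nat_lit 90118305669) (nat_lit 0) (nat_lit 44356077996) (nat_lit 4) (nat_lit 5) (nat_lit 6) (nat_lit 4) (nat_lit 4) (nat_lit 4) (nat_lit 345) (nat_lit 259) (nat_lit 116)) (XT.lf (nat_lit 0) (nat_lit 127075832973) (nat_lit 152) (nat_lit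 72188172206) (nat_lit 0) (nat_lit 59164551544) (nat_lit 4) (nat_lit 5) (nat_lit 6) (nat_lit 4) (nat_lit 4) (nat_lit 4) (nat_lit 346) (nat_lit 259) (nat_lit 115))) (XT.nd (nat_lit 78) (nat_lit 0) (nat_lit 0) (XT.lf (nat_lit 0) (nat_lit 142626810627) (nat_lit 152) (nat_lit 53363474885) (nat_lit 0) (nat_lit 74712652795) (nat_lit 4) (nat_lit 5) (nat_lit 6) (nat_lit 4) (nat_lit 4) (nat_lit 4) (nat_lit 347) (nat_lit 259) (nat_lit 114)) (XT.lf (nat_lit 0) (nat_lit 158954298301) (nat_lit 152) (nat_lit 33599392998) (nat_lit 0) (nat_lit 91037401038) (nat_lit 4) (nat_lit 5) (nat_lit 6) (nat_lit 4) (nat_lit 4) (nat_lit 4) (nat_lit 348) (nat_lit 259) (nat_lit 113)))) (XT.nd (nat_lit 156) (nat_lit 0) (nat_lit 0) (XT.nd (nat_lit 78) (nat_lit 76) (nat_lit 0) (XT.lf (nat_lit 0) (nat_lit 176097170966) (nat_lit 152) (nat_lit 12848869207) (nat_lit 0) (nat_lit 108177664721) (nat_lit 4) (nat_lit 5) (nat_lit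 6) (nat_lit 4) (nat_lit 4) (nat_lit 4) (nat_lit 349) (nat_lit 259) (nat_lit 112)) (XT.lf (nat_lit 0) (nat_lit 9233016692) (nat_lit 76) (nat_lit 185007381558) (nat_lit 76) (nat_lit 117085390569) (nat_lit 3) (nat_lit 4) (nat_lit 4) (nat_lit 5) (nat_lit 4) (nat_lit 4) (nat_lit 350) (nat_lit 259) (nat_lit 111))) (XT.nd (nat_lit 78) (nat_lit 0) (nat_lit 0) (XT.lf (nat_lit 0) (nat_lit 32863429405) (nat_lit 76) (nat_lit 180644036124) (nat_lit 76) (nat_lit 112719678711) (nat_lit 3) (nat_lit 4) (nat_lit 4) (nat_lit 5) (nat_lit 4) (nat_lit 4) (nat_lit 351) (nat_lit 259) (nat_lit 110)) (XT.nd (nat_lit 78) (nat_lit 0) (nat_lit 0) (XT.lf (nat_lit 0) (nat_lit 57673790174) (nat_lit 76) (nat_lit 176063216769) (nat_lit 76) (nat_lit 108136605619) (nat_lit 3) (nat_lit 4) (nat_lit 4) (nat_lit 5) (nat_lit 4) (nat_lit 4) (nat_lit 352) (nat_lit 259) (nat_lit 109)) (XT.lf (nat_lit 0) (nat_lit 83723171288)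 (nat_lit 76) (nat_lit 171254016782) (nat_lit 76) (nat_lit 103325259216) (nat_lit 3) (nat_lit 4) (nat_lit 4) (nat_lit 5) (nat_lit 4) (nat_lit 4) (nat_lit 353) (nat_lit 259) (nat_lit 108))))))) (XT.nd (nat_lit 30576) (nat_lit 0) (nat_lit 4332) (XT.nd (nat_lit 30186) (nat_lit 0) (nat_lit 5396) (XT.nd (nat_lit 156) (nat_lit 0) (nat_lit 0) (XT.nd (nat_lit 78) (nat_lit 0) (nat_lit 0) (XT.lf (nat_lit 0) (nat_lit 111073595083) (nat_lit 76) (nat_lit 166204985685) (nat_lit 76) (nat_lit 98274183913) (nat_lit 3) (nat_lit 4) (nat_lit 4) (nat_lit 5) (nat_lit 4) (nat_lit 4) (nat_lit 354) (nat_lit 259) (nat_lit 107)) (XT.lf (nat_lit 0) (nat_lit 139790181615) (nat_lit 76) (nat_lit 160904101977) (nat_lit 76) (nat_lit 92971353342) (nat_lit 3) (nat_lit 4) (nat_lit 4) (nat_lit 5) (nat_lit 4) (nat_lit 4) (nat_lit 355) (nat_lit 259) (nat_lit 106))) (XT.nd (nat_lit 78) (nat_lit 0) (nat_lit 0) (XT.lf (nat_lit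 0) (nat_lit 169941303709) (nat_lit 76) (nat_lit 155338744505) (nat_lit 76) (nat_lit 87404141715) (nat_lit 3) (nat_lit 4) (nat_lit 4) (nat_lit 5) (nat_lit 4) (nat_lit 4) (nat_lit 356) (nat_lit 259) (nat_lit 105)) (XT.lf (nat_lit 0) (nat_lit 201598749752) (nat_lit 76) (nat_lit 149495662418) (nat_lit 76) (nat_lit 81559293767) (nat_lit 3) (nat_lit 4) (nat_lit 4) (nat_lit 5) (nat_lit 4) (nat_lit 4) (nat_lit 357) (nat_lit 259) (nat_lit 104)))) (XT.nd (nat_lit 156) (nat_lit 0) (nat_lit 0) (XT.nd (nat_lit 78) (nat_lit 0) (nat_lit 0) (XT.lf (nat_lit 0) (nat_lit 3644441241) (nat_lit 684) (nat_lit 997242613) (nat_lit 684) (nat_lit 997242613) (nat_lit 74) (nat_lit 3) (nat_lit 83) (nat_lit 3) (nat_lit 83) (nat_lit 5) (nat_lit 260) (nat_lit 260) (nat_lit 200)) (XT.lf (nat_lit 76) (nat_lit 2806425671) (nat_lit 0) (nat_lit 5186938659) (nat_lit 684) (nat_lit 3538243883) (nat_lit 75) (nat_lit 5) (nat_lit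 74) (nat_lit 3) (nat_lit 83) (nat_lit 5) (nat_lit 261) (nat_lit 260) (nat_lit 199))) (XT.nd (nat_lit 78) (nat_lit 0) (nat_lit 76) (XT.lf (nat_lit 76) (nat_lit 7899946945) (nat_lit 0) (nat_lit 836014121) (nat_lit 684) (nat_lit 3062078670) (nat_lit 75) (nat_lit 5) (nat_lit 74) (nat_lit 3) (nat_lit 83) (nat_lit 5) (nat_lit 262) (nat_lit 260) (nat_lit 198)) (XT.nd (nat_lit 78) (nat_lit 0) (nat_lit 0) (XT.lf (nat_lit 76) (nat_lit 1130568916) (nat_lit 0) (nat_lit 8431839462) (nat_lit 684) (nat_lit 2513175109) (nat_lit 76) (nat_lit 5) (nat_lit 75) (nat_lit 5) (nat_lit 84) (nat_lit 5) (nat_lit 263) (nat_lit 260) (nat_lit 197)) (XT.lf (nat_lit 76) (nat_lit 6514430079) (nat_lit 0) (nat_lit 3967162350) (nat_lit 684) (nat_lit 1882961931) (nat_lit 76) (nat_lit 5) (nat_lit 75) (nat_lit 5) (nat_lit 84) (nat_lit 5) (nat_lit 264) (nat_lit 260) (nat_lit 196)))))) (XT.nd (nat_lit 312) (nat_lit 532) (nat_lit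 0) (XT.nd (nat_lit 156) (nat_lit 684) (nat_lit 0) (XT.nd (nat_lit 78) (nat_lit 0) (nat_lit 0) (XT.lf (nat_lit 0) (nat_lit 11431398965) (nat_lit 608) (nat_lit 529932817) (nat_lit 684) (nat_lit 707523739) (nat_lit 76) (nat_lit 5) (nat_lit 84) (nat_lit 5) (nat_lit 85) (nat_lit 5) (nat_lit 265) (nat_lit 260) (nat_lit 195)) (XT.lf (nat_lit 76) (nat_lit 5138368426) (nat_lit 0) (nat_lit 7410263729) (nat_lit 684) (nat_lit 433852208) (nat_lit 77) (nat_lit 5) (nat_lit 76) (nat_lit 5) (nat_lit 85) (nat_lit 5) (nat_lit 266) (nat_lit 260) (nat_lit 194))) (XT.nd (nat_lit 78) (nat_lit 0) (nat_lit 76) (XT.lf (nat_lit 0) (nat_lit 381049444) (nat_lit 684) (nat_lit 2227377280) (nat_lit 760) (nat_lit 10703935301) (nat_lit 67) (nat_lit 5) (nat_lit 76) (nat_lit 5) (nat_lit 77) (nat_lit 5) (nat_lit 267) (nat_lit 260) (nat_lit 193)) (XT.lf (nat_lit 0) (nat_lit 1296399873) (nat_lit 684) (nat_lit 9929367349)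 (nat_lit 760) (nat_lit 2428991068) (nat_lit 68) (nat_lit 5) (nat_lit 77) (nat_lit 5) (nat_lit 78) (nat_lit 5) (nat_lit 268) (nat_lit 260) (nat_lit 192)))) (XT.nd (nat_lit 156) (nat_lit 608) (nat_lit 0) (XT.nd (nat_lit 78) (nat_lit 0) (nat_lit 0) (XT.lf (nat_lit 0) (nat_lit 2315879017) (nat_lit 684) (nat_lit 4020801348) (nat_lit 760) (nat_lit 7674765978) (nat_lit 68) (nat_lit 5) (nat_lit 77) (nat_lit 5) (nat_lit 78) (nat_lit 5) (nat_lit 269) (nat_lit 260) (nat_lit 191)) (XT.lf (nat_lit 76) (nat_lit 2237511417) (nat_lit 0) (nat_lit 1162097382) (nat_lit 760) (nat_lit 10985781913) (nat_lit 69) (nat_lit 5) (nat_lit 68) (nat_lit 5) (nat_lit 78) (nat_lit 5) (nat_lit 270) (nat_lit 260) (nat_lit 190))) (XT.nd (nat_lit 78) (nat_lit 684) (nat_lit 0) (XT.lf (nat_lit 0) (nat_lit 4652590180) (nat_lit 684) (nat_lit 5912300196) (nat_lit 76) (nat_lit 4207470332) (nat_lit 69) (nat_lit 5) (nat_lit 78)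 (nat_lit 5) (nat_lit 70) (nat_lit 5) (nat_lit 271) (nat_lit 260) (nat_lit 189)) (XT.nd (nat_lit 78) (nat_lit 0) (nat_lit 0) (XT.lf (nat_lit 0) (nat_lit 618465023) (nat_lit 684) (nat_lit 5358623270) (nat_lit 760) (nat_lit 9201225302) (nat_lit 60) (nat_lit 5) (nat_lit 69) (nat_lit 5) (nat_lit 70) (nat_lit 5) (nat_lit 272) (nat_lit 260) (nat_lit 188)) (XT.lf (nat_lit 0) (nat_lit 7452138094) (nat_lit 760) (nat_lit 7939976601) (nat_lit 76) (nat_lit 208307164) (nat_lit 60) (nat_lit 5) (nat_lit 70) (nat_lit 5) (nat_lit 61) (nat_lit 5) (nat_lit 273) (nat_lit 260) (nat_lit 187))))))))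
noncomputable def xc173 : XT := (XT.nd (nat_lit 1326) (nat_lit 1368) (nat_lit 0) (XT.nd (nat_lit 624) (nat_lit 760) (nat_lit 0) (XT.nd (nat_lit 312) (nat_lit 684) (nat_lit 0) (XT.nd (nat_lit 156) (nat_lit 304) (nat_lit 0) (XT.nd (nat_lit 78) (nat_lit 304) (nat_lit 0) (XT.lf (nat_lit 0) (nat_lit 9070569682) (nat_lit 760) (nat_lit 1094216478) (nat_lit 76) (nat_lit 5875438455) (nat_lit 60) (nat_lit 5) (nat_lit 70) (nat_lit 5) (nat_lit 61) (nat_lit 5) (nat_lit 274) (nat_lit 260) (nat_lit 186)) (XT.lf (nat_lit 0) (nat_lit 6278340455) (nat_lit 304) (nat_lit 4572255373) (nat_lit 380) (nat_lit 5647455217) (nat_lit 56) (nat_lit 5) (nat_lit 60) (nat_lit 5) (nat_lit 61) (nat_lit 5) (nat_lit 275) (nat_lit 260) (nat_lit 185))) (XT.nd (nat_lit 78) (nat_lit 304) (nat_lit 0) (XT.lf (nat_lit 0) (nat_lit 12741986858) (nat_lit 380) (nat_lit 2958011566) (nat_lit 76) (nat_lit 1277716180) (nat_lit 56) (nat_lit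 5) (nat_lit 61) (nat_lit 5) (nat_lit 57) (nat_lit 5) (nat_lit 276) (nat_lit 260) (nat_lit 184)) (XT.lf (nat_lit 0) (nat_lit 4726834794) (nat_lit 304) (nat_lit 10133898777) (nat_lit 380) (nat_lit 2614049400) (nat_lit 52) (nat_lit 5) (nat_lit 56) (nat_lit 5) (nat_lit 57) (nat_lit 5) (nat_lit 277) (nat_lit 260) (nat_lit 183)))) (XT.nd (nat_lit 156) (nat_lit 304) (nat_lit 0) (XT.nd (nat_lit 78) (nat_lit 380) (nat_lit 0) (XT.lf (nat_lit 0) (nat_lit 12882610547) (nat_lit 304) (nat_lit 4237444866) (nat_lit 380) (nat_lit 874975493) (nat_lit 52) (nat_lit 5) (nat_lit 56) (nat_lit 5) (nat_lit 57) (nat_lit 5) (nat_lit 278) (nat_lit 260) (nat_lit 182)) (XT.lf (nat_lit 0) (nat_lit 983450907) (nat_lit 380) (nat_lit 15601254992) (nat_lit 76) (nat_lit 1952753629) (nat_lit 47) (nat_lit 5) (nat_lit 52) (nat_lit 5) (nat_lit 48) (nat_lit 5) (nat_lit 279) (nat_lit 260) (nat_lit 181))) (XT.nd (nat_lit 78)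 (nat_lit 304) (nat_lit 0) (XT.lf (nat_lit 0) (nat_lit 3048301244) (nat_lit 380) (nat_lit 7639459943) (nat_lit 76) (nat_lit 8411435959) (nat_lit 47) (nat_lit 5) (nat_lit 52) (nat_lit 5) (nat_lit 48) (nat_lit 5) (nat_lit 280) (nat_lit 260) (nat_lit 180)) (XT.lf (nat_lit 0) (nat_lit 728206036) (nat_lit 304) (nat_lit 4485691248) (nat_lit 380) (nat_lit 14475296949) (nat_lit 43) (nat_lit 5) (nat_lit 47) (nat_lit 5) (nat_lit 48) (nat_lit 5) (nat_lit 281) (nat_lit 260) (nat_lit 179))))) (XT.nd (nat_lit 312) (nat_lit 532) (nat_lit 0) (XT.nd (nat_lit 156) (nat_lit 228) (nat_lit 0) (XT.nd (nat_lit 78) (nat_lit 0) (nat_lit 0) (XT.lf (nat_lit 0) (nat_lit 7637438153) (nat_lit 380) (nat_lit 10572466823) (nat_lit 76) (nat_lit 2091348421) (nat_lit 43) (nat_lit 5) (nat_lit 48) (nat_lit 5) (nat_lit 44) (nat_lit 5) (nat_lit 282) (nat_lit 260) (nat_lit 178)) (XT.lf (nat_lit 0) (nat_lit 10242860613) (nat_lit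 380) (nat_lit 1853259724) (nat_lit 76) (nat_lit 8844803262) (nat_lit 43) (nat_lit 5) (nat_lit 48) (nat_lit 5) (nat_lit 44) (nat_lit 5) (nat_lit 283) (nat_lit 260) (nat_lit 177))) (XT.nd (nat_lit 78) (nat_lit 0) (nat_lit 0) (XT.lf (nat_lit 0) (nat_lit 7528382585) (nat_lit 228) (nat_lit 5555490408) (nat_lit 304) (nat_lit 8523479625) (nat_lit 40) (nat_lit 5) (nat_lit 43) (nat_lit 5) (nat_lit 44) (nat_lit 5) (nat_lit 284) (nat_lit 260) (nat_lit 176)) (XT.lf (nat_lit 0) (nat_lit 16107424912) (nat_lit 304) (nat_lit 4897928902) (nat_lit 76) (nat_lit 1299764108) (nat_lit 40) (nat_lit 5) (nat_lit 44) (nat_lit 5) (nat_lit 41) (nat_lit 5) (nat_lit 285) (nat_lit 260) (nat_lit 175)))) (XT.nd (nat_lit 156) (nat_lit 304) (nat_lit 0) (XT.nd (nat_lit 78) (nat_lit 0) (nat_lit 0) (XT.lf (nat_lit 0) (nat_lit 4790274200) (nat_lit 228) (nat_lit 14646411903) (nat_lit 304) (nat_lit 3593396216) (nat_lit 37)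 (nat_lit 5) (nat_lit 40) (nat_lit 5) (nat_lit 41) (nat_lit 5) (nat_lit 286) (nat_lit 260) (nat_lit 174)) (XT.lf (nat_lit 0) (nat_lit 15119025313) (nat_lit 228) (nat_lit 7885324764) (nat_lit 304) (nat_lit 783383503) (nat_lit 37) (nat_lit 5) (nat_lit 40) (nat_lit 5) (nat_lit 41) (nat_lit 5) (nat_lit 287) (nat_lit 260) (nat_lit 173))) (XT.nd (nat_lit 78) (nat_lit 0) (nat_lit 0) (XT.lf (nat_lit 0) (nat_lit 1377571816) (nat_lit 228) (nat_lit 731014534) (nat_lit 304) (nat_lit 22472480712) (nat_lit 33) (nat_lit 5) (nat_lit 36) (nat_lit 5) (nat_lit 37) (nat_lit 5) (nat_lit 288) (nat_lit 260) (nat_lit 172)) (XT.nd (nat_lit 78) (nat_lit 0) (nat_lit 0) (XT.lf (nat_lit 0) (nat_lit 5363476852) (nat_lit 304) (nat_lit 13314636493) (nat_lit 76) (nat_lit 6723110085) (nat_lit 33) (nat_lit 5) (nat_lit 37) (nat_lit 5) (nat_lit 34) (nat_lit 5) (nat_lit 289) (nat_lit 260) (nat_lit 171)) (XT.lf (nat_lit 0)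 (nat_lit 8783155647) (nat_lit 304) (nat_lit 2956570028) (nat_lit 76) (nat_lit 14522589065) (nat_lit 33) (nat_lit 5) (nat_lit 37) (nat_lit 5) (nat_lit 34) (nat_lit 5) (nat_lit 290) (nat_lit 260) (nat_lit 170))))))) (XT.nd (nat_lit 702) (nat_lit 532) (nat_lit 0) (XT.nd (nat_lit 312) (nat_lit 456) (nat_lit 0) (XT.nd (nat_lit 156) (nat_lit 152) (nat_lit 0) (XT.nd (nat_lit 78) (nat_lit 0) (nat_lit 0) (XT.lf (nat_lit 0) (nat_lit 8168213229) (nat_lit 228) (nat_lit 4323667111) (nat_lit 304) (nat_lit 14668705095) (nat_lit 30) (nat_lit 5) (nat_lit 33) (nat_lit 5) (nat_lit 34) (nat_lit 5) (nat_lit 291) (nat_lit 260) (nat_lit 169)) (XT.lf (nat_lit 0) (nat_lit 16481743344) (nat_lit 304) (nat_lit 8217129854) (nat_lit 76) (nat_lit 3400137950) (nat_lit 30) (nat_lit 5) (nat_lit 34) (nat_lit 5) (nat_lit 31) (nat_lit 5) (nat_lit 292) (nat_lit 260) (nat_lit 168))) (XT.nd (nat_lit 78) (nat_lit 0) (nat_lit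 0) (XT.lf (nat_lit 0) (nat_lit 3113401384) (nat_lit 152) (nat_lit 17668367895) (nat_lit 228) (nat_lit 8297080701) (nat_lit 28) (nat_lit 5) (nat_lit 30) (nat_lit 5) (nat_lit 31) (nat_lit 5) (nat_lit 293) (nat_lit 260) (nat_lit 167)) (XT.lf (nat_lit 0) (nat_lit 15283695096) (nat_lit 152) (nat_lit 10143675460) (nat_lit 228) (nat_lit 4673805610) (nat_lit 28) (nat_lit 5) (nat_lit 30) (nat_lit 5) (nat_lit 31) (nat_lit 5) (nat_lit 294) (nat_lit 260) (nat_lit 166)))) (XT.nd (nat_lit 156) (nat_lit 152) (nat_lit 0) (XT.nd (nat_lit 78) (nat_lit 304) (nat_lit 0) (XT.lf (nat_lit 0) (nat_lit 28051032748) (nat_lit 152) (nat_lit 2246041031) (nat_lit 228) (nat_lit 877976755) (nat_lit 28) (nat_lit 5) (nat_lit 30) (nat_lit 5) (nat_lit 31) (nat_lit 5) (nat_lit 295) (nat_lit 260) (nat_lit 165)) (XT.lf (nat_lit 0) (nat_lit 3244477148) (nat_lit 304) (nat_lit 22995734104) (nat_lit 76) (nat_lit 6048187370)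 (nat_lit 24) (nat_lit 5) (nat_lit 28) (nat_lit 5) (nat_lit 25) (nat_lit 5) (nat_lit 296) (nat_lit 260) (nat_lit 164))) (XT.nd (nat_lit 78) (nat_lit 152) (nat_lit 0) (XT.lf (nat_lit 0) (nat_lit 7626359218) (nat_lit 304) (nat_lit 11079591731) (nat_lit 76) (nat_lit 14746622788) (nat_lit 24) (nat_lit 5) (nat_lit 28) (nat_lit 5) (nat_lit 25) (nat_lit 5) (nat_lit 297) (nat_lit 260) (nat_lit 163)) (XT.nd (nat_lit 78) (nat_lit 0) (nat_lit 0) (XT.lf (nat_lit 0) (nat_lit 1468519547) (nat_lit 152) (nat_lit 10774331003) (nat_lit 228) (nat_lit 22431350197) (nat_lit 22) (nat_lit 5) (nat_lit 24) (nat_lit 5) (nat_lit 25) (nat_lit 5) (nat_lit 298) (nat_lit 260) (nat_lit 162)) (XT.lf (nat_lit 0) (nat_lit 15018029627) (nat_lit 152) (nat_lit 2252548986) (nat_lit 228) (nat_lit 18677327880) (nat_lit 22) (nat_lit 5) (nat_lit 24) (nat_lit 5) (nat_lit 25) (nat_lit 5) (nat_lit 299) (nat_lit 260) (nat_lit 161))))))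 (XT.nd (nat_lit 312) (nat_lit 380) (nat_lit 0) (XT.nd (nat_lit 156) (nat_lit 0) (nat_lit 0) (XT.nd (nat_lit 78) (nat_lit 152) (nat_lit 0) (XT.lf (nat_lit 0) (nat_lit 22647292703) (nat_lit 228) (nat_lit 8155282463) (nat_lit 76) (nat_lit 6477859518) (nat_lit 22) (nat_lit 5) (nat_lit 25) (nat_lit 5) (nat_lit 23) (nat_lit 5) (nat_lit 300) (nat_lit 260) (nat_lit 160)) (XT.lf (nat_lit 0) (nat_lit 5383449680) (nat_lit 152) (nat_lit 23023767614) (nat_lit 228) (nat_lit 10266669573) (nat_lit 20) (nat_lit 5) (nat_lit 22) (nat_lit 5) (nat_lit 23) (nat_lit 5) (nat_lit 301) (nat_lit 260) (nat_lit 159))) (XT.nd (nat_lit 78) (nat_lit 0) (nat_lit 0) (XT.lf (nat_lit 0) (nat_lit 19872443256) (nat_lit 152) (nat_lit 14714366837) (nat_lit 228) (nat_lit 5543633513) (nat_lit 20) (nat_lit 5) (nat_lit 22) (nat_lit 5) (nat_lit 23) (nat_lit 5) (nat_lit 302) (nat_lit 260) (nat_lit 158)) (XT.lf (nat_lit 0) (nat_lit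 35076545399) (nat_lit 152) (nat_lit 5992702202) (nat_lit 228) (nat_lit 590902131) (nat_lit 20) (nat_lit 5) (nat_lit 22) (nat_lit 5) (nat_lit 23) (nat_lit 5) (nat_lit 303) (nat_lit 260) (nat_lit 157)))) (XT.nd (nat_lit 156) (nat_lit 152) (nat_lit 0) (XT.nd (nat_lit 78) (nat_lit 0) (nat_lit 0) (XT.lf (nat_lit 0) (nat_lit 4632649608) (nat_lit 228) (nat_lit 35361611394) (nat_lit 76) (nat_lit 3259959483) (nat_lit 17) (nat_lit 5) (nat_lit 20) (nat_lit 5) (nat_lit 18) (nat_lit 5) (nat_lit 304) (nat_lit 260) (nat_lit 156)) (XT.lf (nat_lit 0) (nat_lit 10303228242) (nat_lit 228) (nat_lit 21720188316) (nat_lit 76) (nat_lit 12893821288) (nat_lit 17) (nat_lit 5) (nat_lit 20) (nat_lit 5) (nat_lit 18) (nat_lit 5) (nat_lit 305) (nat_lit 260) (nat_lit 155))) (XT.nd (nat_lit 78) (nat_lit 152) (nat_lit 0) (XT.lf (nat_lit 0) (nat_lit 16251756888) (nat_lit 228) (nat_lit 7405469017) (nat_lit 76) (nat_lit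 23006471294) (nat_lit 17) (nat_lit 5) (nat_lit 20) (nat_lit 5) (nat_lit 18) (nat_lit 5) (nat_lit 306) (nat_lit 260) (nat_lit 154)) (XT.nd (nat_lit 78) (nat_lit 0) (nat_lit 0) (XT.lf (nat_lit 0) (nat_lit 7868469325) (nat_lit 152) (nat_lit 14746778242) (nat_lit 228) (nat_lit 25876366773) (nat_lit 15) (nat_lit 5) (nat_lit 17) (nat_lit 5) (nat_lit 18) (nat_lit 5) (nat_lit 307) (nat_lit 260) (nat_lit 153)) (XT.lf (nat_lit 0) (nat_lit 24154983459) (nat_lit 152) (nat_lit 5262155906) (nat_lit 228) (nat_lit 20987787691) (nat_lit 15) (nat_lit 5) (nat_lit 17) (nat_lit 5) (nat_lit 18) (nat_lit 5) (nat_lit 308) (nat_lit 260) (nat_lit 152))))))))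
noncomputable def xc174 : XT := (XT.nd (nat_lit 1326) (nat_lit 304) (nat_lit 0) (XT.nd (nat_lit 624) (nat_lit 228) (nat_lit 0) (XT.nd (nat_lit 312) (nat_lit 152) (nat_lit 0) (XT.nd (nat_lit 156) (nat_lit 76) (nat_lit 0) (XT.nd (nat_lit 78) (nat_lit 76) (nat_lit 0) (XT.lf (nat_lit 0) (nat_lit 36627467717) (nat_lit 228) (nat_lit 11239453959) (nat_lit 76) (nat_lit 4543577155) (nat_lit 15) (nat_lit 5) (nat_lit 18) (nat_lit 5) (nat_lit 16) (nat_lit 4) (nat_lit 309) (nat_lit 260) (nat_lit 151)) (XT.lf (nat_lit 0) (nat_lit 4574032691) (nat_lit 76) (nat_lit 39777208925) (nat_lit 152) (nat_lit 10157471144) (nat_lit 14) (nat_lit 5) (nat_lit 15) (nat_lit 5) (nat_lit 16) (nat_lit 4) (nat_lit 310) (nat_lit 260) (nat_lit 150))) (XT.nd (nat_lit 78) (nat_lit 76) (nat_lit 0) (XT.lf (nat_lit 0) (nat_lit 21560865461) (nat_lit 76) (nat_lit 31086043635) (nat_lit 152) (nat_lit 4055652588) (nat_lit 14) (nat_lit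 5) (nat_lit 15) (nat_lit 5) (nat_lit 16) (nat_lit 4) (nat_lit 311) (nat_lit 260) (nat_lit 149)) (XT.lf (nat_lit 0) (nat_lit 2271501018) (nat_lit 152) (nat_lit 19653108160) (nat_lit 76) (nat_lit 37079892095) (nat_lit 13) (nat_lit 5) (nat_lit 15) (nat_lit 5) (nat_lit 14) (nat_lit 5) (nat_lit 312) (nat_lit 260) (nat_lit 148)))) (XT.nd (nat_lit 156) (nat_lit 0) (nat_lit 0) (XT.nd (nat_lit 78) (nat_lit 152) (nat_lit 0) (XT.lf (nat_lit 0) (nat_lit 8774429144) (nat_lit 152) (nat_lit 3463562769) (nat_lit 76) (nat_lit 49180444199) (nat_lit 13) (nat_lit 5) (nat_lit 15) (nat_lit 5) (nat_lit 14) (nat_lit 5) (nat_lit 313) (nat_lit 260) (nat_lit 147)) (XT.lf (nat_lit 0) (nat_lit 13976130032) (nat_lit 152) (nat_lit 1840497688) (nat_lit 228) (nat_lit 48125741622) (nat_lit 11) (nat_lit 5) (nat_lit 13) (nat_lit 5) (nat_lit 14) (nat_lit 5) (nat_lit 314) (nat_lit 260) (nat_lit 146))) (XT.nd (nat_lit 78)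 (nat_lit 0) (nat_lit 0) (XT.lf (nat_lit 0) (nat_lit 23408240115) (nat_lit 228) (nat_lit 34330901898) (nat_lit 76) (nat_lit 8843499503) (nat_lit 11) (nat_lit 5) (nat_lit 14) (nat_lit 5) (nat_lit 12) (nat_lit 4) (nat_lit 315) (nat_lit 260) (nat_lit 145)) (XT.lf (nat_lit 0) (nat_lit 31405766926) (nat_lit 228) (nat_lit 17950363121) (nat_lit 76) (nat_lit 19997487685) (nat_lit 11) (nat_lit 5) (nat_lit 14) (nat_lit 5) (nat_lit 12) (nat_lit 4) (nat_lit 316) (nat_lit 260) (nat_lit 144))))) (XT.nd (nat_lit 312) (nat_lit 152) (nat_lit 0) (XT.nd (nat_lit 156) (nat_lit 0) (nat_lit 0) (XT.nd (nat_lit 78) (nat_lit 76) (nat_lit 0) (XT.lf (nat_lit 0) (nat_lit 39799514556) (nat_lit 228) (nat_lit 756886369) (nat_lit 76) (nat_lit 31706931391) (nat_lit 11) (nat_lit 5) (nat_lit 14) (nat_lit 5) (nat_lit 12) (nat_lit 4) (nat_lit 317) (nat_lit 260) (nat_lit 143)) (XT.lf (nat_lit 0) (nat_lit 17862166073) (nat_lit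 76) (nat_lit 31026180518) (nat_lit 152) (nat_lit 26416422646) (nat_lit 10) (nat_lit 5) (nat_lit 11) (nat_lit 5) (nat_lit 12) (nat_lit 4) (nat_lit 318) (nat_lit 260) (nat_lit 142))) (XT.nd (nat_lit 78) (nat_lit 0) (nat_lit 0) (XT.lf (nat_lit 0) (nat_lit 37432743043) (nat_lit 76) (nat_lit 21008290678) (nat_lit 152) (nat_lit 20056779761) (nat_lit 10) (nat_lit 5) (nat_lit 11) (nat_lit 5) (nat_lit 12) (nat_lit 4) (nat_lit 319) (nat_lit 260) (nat_lit 141)) (XT.lf (nat_lit 0) (nat_lit 57976415070) (nat_lit 76) (nat_lit 10491697524) (nat_lit 152) (nat_lit 13382565334) (nat_lit 10) (nat_lit 5) (nat_lit 11) (nat_lit 5) (nat_lit 12) (nat_lit 4) (nat_lit 320) (nat_lit 260) (nat_lit 140)))) (XT.nd (nat_lit 156) (nat_lit 0) (nat_lit 0) (XT.nd (nat_lit 78) (nat_lit 152) (nat_lit 0) (XT.lf (nat_lit 0) (nat_lit 79002022993) (nat_lit 152) (nat_lit 5837815711) (nat_lit 0) (nat_lit 531078593) (nat_lit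 10) (nat_lit 5) (nat_lit 12) (nat_lit 4) (nat_lit 10) (nat_lit 4) (nat_lit 321) (nat_lit 260) (nat_lit 139)) (XT.lf (nat_lit 0) (nat_lit 1347247079) (nat_lit 152) (nat_lit 75719315433) (nat_lit 76) (nat_lit 11980651700) (nat_lit 8) (nat_lit 5) (nat_lit 10) (nat_lit 5) (nat_lit 9) (nat_lit 4) (nat_lit 322) (nat_lit 260) (nat_lit 138))) (XT.nd (nat_lit 78) (nat_lit 0) (nat_lit 0) (XT.lf (nat_lit 0) (nat_lit 9332685122) (nat_lit 152) (nat_lit 59358907965) (nat_lit 76) (nat_lit 24205640990) (nat_lit 8) (nat_lit 5) (nat_lit 10) (nat_lit 5) (nat_lit 9) (nat_lit 4) (nat_lit 323) (nat_lit 260) (nat_lit 137)) (XT.nd (nat_lit 78) (nat_lit 0) (nat_lit 0) (XT.lf (nat_lit 0) (nat_lit 17714575267) (nat_lit 152) (nat_lit 42185309853) (nat_lit 76) (nat_lit 37040015396) (nat_lit 8) (nat_lit 5) (nat_lit 10) (nat_lit 5) (nat_lit 9) (nat_lit 4) (nat_lit 324) (nat_lit 260) (nat_lit 136)) (XT.lf (nat_lit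 0) (nat_lit 26512874395) (nat_lit 152) (nat_lit 24157631579) (nat_lit 76) (nat_lit 50514332951) (nat_lit 8) (nat_lit 5) (nat_lit 10) (nat_lit 5) (nat_lit 9) (nat_lit 4) (nat_lit 325) (nat_lit 260) (nat_lit 135))))))) (XT.nd (nat_lit 702) (nat_lit 152) (nat_lit 0) (XT.nd (nat_lit 312) (nat_lit 76) (nat_lit 0) (XT.nd (nat_lit 156) (nat_lit 0) (nat_lit 0) (XT.nd (nat_lit 78) (nat_lit 76) (nat_lit 0) (XT.lf (nat_lit 0) (nat_lit 35748530838) (nat_lit 152) (nat_lit 5232950099) (nat_lit 76) (nat_lit 64660675364) (nat_lit 8) (nat_lit 5) (nat_lit 10) (nat_lit 5) (nat_lit 9) (nat_lit 4) (nat_lit 326) (nat_lit 260) (nat_lit 134)) (XT.lf (nat_lit 0) (nat_lit 15117652649) (nat_lit 76) (nat_lit 30561910530) (nat_lit 152) (nat_lit 64631100679) (nat_lit 7) (nat_lit 5) (nat_lit 8) (nat_lit 5) (nat_lit 9) (nat_lit 4) (nat_lit 327) (nat_lit 260) (nat_lit 133))) (XT.nd (nat_lit 78) (nat_lit 0) (nat_lit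 0) (XT.lf (nat_lit 0) (nat_lit 36663356935) (nat_lit 76) (nat_lit 19530028799) (nat_lit 152) (nat_lit 59014902904) (nat_lit 7) (nat_lit 5) (nat_lit 8) (nat_lit 5) (nat_lit 9) (nat_lit 4) (nat_lit 328) (nat_lit 260) (nat_lit 132)) (XT.lf (nat_lit 0) (nat_lit 59282437093) (nat_lit 76) (nat_lit 7948191902) (nat_lit 152) (nat_lit 53120282781) (nat_lit 7) (nat_lit 5) (nat_lit 8) (nat_lit 5) (nat_lit 9) (nat_lit 4) (nat_lit 329) (nat_lit 260) (nat_lit 131)))) (XT.nd (nat_lit 156) (nat_lit 76) (nat_lit 0) (XT.nd (nat_lit 78) (nat_lit 0) (nat_lit 0) (XT.lf (nat_lit 0) (nat_lit 78883320370) (nat_lit 152) (nat_lit 42787777795) (nat_lit 0) (nat_lit 4076392033) (nat_lit 7) (nat_lit 5) (nat_lit 9) (nat_lit 4) (nat_lit 7) (nat_lit 4) (nat_lit 330) (nat_lit 260) (nat_lit 130)) (XT.lf (nat_lit 0) (nat_lit 91246861991) (nat_lit 152) (nat_lit 23726973201) (nat_lit 0) (nat_lit 16433654828) (nat_lit 7)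 (nat_lit 5) (nat_lit 9) (nat_lit 4) (nat_lit 7) (nat_lit 4) (nat_lit 331) (nat_lit 260) (nat_lit 129))) (XT.nd (nat_lit 78) (nat_lit 76) (nat_lit 0) (XT.lf (nat_lit 0) (nat_lit 104226597313) (nat_lit 152) (nat_lit 3716584481) (nat_lit 0) (nat_lit 29407410315) (nat_lit 7) (nat_lit 5) (nat_lit 9) (nat_lit 4) (nat_lit 7) (nat_lit 4) (nat_lit 332) (nat_lit 260) (nat_lit 128)) (XT.nd (nat_lit 78) (nat_lit 0) (nat_lit 0) (XT.lf (nat_lit 0) (nat_lit 17862751757) (nat_lit 76) (nat_lit 100269566324) (nat_lit 76) (nat_lit 25444684246) (nat_lit 6) (nat_lit 4) (nat_lit 7) (nat_lit 5) (nat_lit 7) (nat_lit 4) (nat_lit 333) (nat_lit 260) (nat_lit 127)) (XT.lf (nat_lit 0) (nat_lit 40646847789) (nat_lit 76) (nat_lit 92147569710) (nat_lit 76) (nat_lit 17317263745) (nat_lit 6) (nat_lit 4) (nat_lit 7) (nat_lit 5) (nat_lit 7) (nat_lit 4) (nat_lit 334) (nat_lit 260) (nat_lit 126)))))) (XT.nd (nat_lit 312)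 (nat_lit 76) (nat_lit 0) (XT.nd (nat_lit 156) (nat_lit 0) (nat_lit 0) (XT.nd (nat_lit 78) (nat_lit 76) (nat_lit 0) (XT.lf (nat_lit 0) (nat_lit 64567064396) (nat_lit 76) (nat_lit 83620796019) (nat_lit 76) (nat_lit 8785324449) (nat_lit 6) (nat_lit 4) (nat_lit 7) (nat_lit 5) (nat_lit 7) (nat_lit 4) (nat_lit 335) (nat_lit 260) (nat_lit 125)) (XT.lf (nat_lit 0) (nat_lit 165960382) (nat_lit 152) (nat_lit 74500172410) (nat_lit 76) (nat_lit 89511583471) (nat_lit 5) (nat_lit 5) (nat_lit 7) (nat_lit 5) (nat_lit 6) (nat_lit 4) (nat_lit 336) (nat_lit 260) (nat_lit 124))) (XT.nd (nat_lit 78) (nat_lit 0) (nat_lit 0) (XT.lf (nat_lit 0) (nat_lit 9267938691) (nat_lit 152) (nat_lit 55845802234) (nat_lit 76) (nat_lit 106621615852) (nat_lit 5) (nat_lit 5) (nat_lit 7) (nat_lit 5) (nat_lit 6) (nat_lit 4) (nat_lit 337) (nat_lit 260) (nat_lit 123)) (XT.lf (nat_lit 0) (nat_lit 18823467099) (nat_lit 152) (nat_lit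 36261431241) (nat_lit 76) (nat_lit 124586060626) (nat_lit 5) (nat_lit 5) (nat_lit 7) (nat_lit 5) (nat_lit 6) (nat_lit 4) (nat_lit 338) (nat_lit 260) (nat_lit 122)))) (XT.nd (nat_lit 156) (nat_lit 0) (nat_lit 0) (XT.nd (nat_lit 78) (nat_lit 76) (nat_lit 0) (XT.lf (nat_lit 0) (nat_lit 28855296866) (nat_lit 152) (nat_lit 15700429975) (nat_lit 76) (nat_lit 143447690278) (nat_lit 5) (nat_lit 5) (nat_lit 7) (nat_lit 5) (nat_lit 6) (nat_lit 4) (nat_lit 339) (nat_lit 260) (nat_lit 121)) (XT.lf (nat_lit 0) (nat_lit 6080779239) (nat_lit 76) (nat_lit 33401472067) (nat_lit 152) (nat_lit 157265572219) (nat_lit 4) (nat_lit 5) (nat_lit 5) (nat_lit 5) (nat_lit 6) (nat_lit 4) (nat_lit 340) (nat_lit 260) (nat_lit 120))) (XT.nd (nat_lit 78) (nat_lit 0) (nat_lit 0) (XT.lf (nat_lit 0) (nat_lit 29493707123) (nat_lit 76) (nat_lit 21411364934) (nat_lit 152) (nat_lit 155011154172) (nat_lit 4) (nat_lit 5) (nat_lit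 5) (nat_lit 5) (nat_lit 6) (nat_lit 4) (nat_lit 341) (nat_lit 260) (nat_lit 119)) (XT.nd (nat_lit 78) (nat_lit 0) (nat_lit 0) (XT.lf (nat_lit 0) (nat_lit 54074971624) (nat_lit 76) (nat_lit 8822751946) (nat_lit 152) (nat_lit 152645392829) (nat_lit 4) (nat_lit 5) (nat_lit 5) (nat_lit 5) (nat_lit 6) (nat_lit 4) (nat_lit 342) (nat_lit 260) (nat_lit 118)) (XT.lf (nat_lit 0) (nat_lit 75557367735) (nat_lit 152) (nat_lit 145836923599) (nat_lit 0) (nat_lit 4253693468) (nat_lit 4) (nat_lit 5) (nat_lit 6) (nat_lit 4) (nat_lit 4) (nat_lit 4) (nat_lit 343) (nat_lit 260) (nat_lit 117))))))))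
noncomputable def xc175 : XT := (XT.nd (nat_lit 31356) (nat_lit 0) (nat_lit 3040) (XT.nd (nat_lit 624) (nat_lit 0) (nat_lit 0) (XT.nd (nat_lit 312) (nat_lit 76) (nat_lit 0) (XT.nd (nat_lit 156) (nat_lit 0) (nat_lit 0) (XT.nd (nat_lit 78) (nat_lit 0) (nat_lit 0) (XT.lf (nat_lit 0) (nat_lit 88993426773) (nat_lit 152) (nat_lit 129570918596) (nat_lit 0) (nat_lit 17686581272) (nat_lit 4) (nat_lit 5) (nat_lit 6) (nat_lit 4) (nat_lit 4) (nat_lit 4) (nat_lit 344) (nat_lit 260) (nat_lit 116)) (XT.lf (nat_lit 0) (nat_lit 103100143417) (nat_lit 152) (nat_lit 112493653298) (nat_lit 0) (nat_lit 31790277693) (nat_lit 4) (nat_lit 5) (nat_lit 6) (nat_lit 4) (nat_lit 4) (nat_lit 4) (nat_lit 345) (nat_lit 260) (nat_lit 115))) (XT.nd (nat_lit 78) (nat_lit 0) (nat_lit 0) (XT.lf (nat_lit 0) (nat_lit 117911105087) (nat_lit 152) (nat_lit 94564467550) (nat_lit 0) (nat_lit 46598362961) (nat_lit 4) (nat_lit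 5) (nat_lit 6) (nat_lit 4) (nat_lit 4) (nat_lit 4) (nat_lit 346) (nat_lit 260) (nat_lit 114)) (XT.lf (nat_lit 0) (nat_lit 133461575979) (nat_lit 152) (nat_lit 75740672814) (nat_lit 0) (nat_lit 62146094422) (nat_lit 4) (nat_lit 5) (nat_lit 6) (nat_lit 4) (nat_lit 4) (nat_lit 4) (nat_lit 347) (nat_lit 260) (nat_lit 113)))) (XT.nd (nat_lit 156) (nat_lit 76) (nat_lit 0) (XT.nd (nat_lit 78) (nat_lit 0) (nat_lit 0) (XT.lf (nat_lit 0) (nat_lit 149788581022) (nat_lit 152) (nat_lit 55977450532) (nat_lit 0) (nat_lit 78470490483) (nat_lit 4) (nat_lit 5) (nat_lit 6) (nat_lit 4) (nat_lit 4) (nat_lit 4) (nat_lit 348) (nat_lit 260) (nat_lit 112)) (XT.lf (nat_lit 0) (nat_lit 166930994039) (nat_lit 152) (nat_lit 35227745412) (nat_lit 0) (nat_lit 95610418755) (nat_lit 4) (nat_lit 5) (nat_lit 6) (nat_lit 4) (nat_lit 4) (nat_lit 4) (nat_lit 349) (nat_lit 260) (nat_lit 111))) (XT.nd (nat_lit 78) (nat_lit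 76) (nat_lit 0) (XT.lf (nat_lit 0) (nat_lit 184929630298) (nat_lit 152) (nat_lit 13442153395) (nat_lit 0) (nat_lit 113606688590) (nat_lit 4) (nat_lit 5) (nat_lit 6) (nat_lit 4) (nat_lit 4) (nat_lit 4) (nat_lit 350) (nat_lit 260) (nat_lit 110)) (XT.lf (nat_lit 0) (nat_lit 9743033907) (nat_lit 76) (nat_lit 194236425851) (nat_lit 76) (nat_lit 122911230407) (nat_lit 3) (nat_lit 4) (nat_lit 4) (nat_lit 5) (nat_lit 4) (nat_lit 4) (nat_lit 351) (nat_lit 260) (nat_lit 109))))) (XT.nd (nat_lit 312) (nat_lit 0) (nat_lit 0) (XT.nd (nat_lit 156) (nat_lit 0) (nat_lit 0) (XT.nd (nat_lit 78) (nat_lit 0) (nat_lit 0) (XT.lf (nat_lit 0) (nat_lit 34552664094) (nat_lit 76) (nat_lit 189655928611) (nat_lit 76) (nat_lit 118328586751) (nat_lit 3) (nat_lit 4) (nat_lit 4) (nat_lit 5) (nat_lit 4) (nat_lit 4) (nat_lit 352) (nat_lit 260) (nat_lit 108)) (XT.lf (nat_lit 0) (nat_lit 60601349416) (nat_lit 76) (nat_lit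 184847035399) (nat_lit 76) (nat_lit 113517649333) (nat_lit 3) (nat_lit 4) (nat_lit 4) (nat_lit 5) (nat_lit 4) (nat_lit 4) (nat_lit 353) (nat_lit 260) (nat_lit 107))) (XT.nd (nat_lit 78) (nat_lit 0) (nat_lit 0) (XT.lf (nat_lit 0) (nat_lit 87951110551) (nat_lit 76) (nat_lit 179798296470) (nat_lit 76) (nat_lit 108466963541) (nat_lit 3) (nat_lit 4) (nat_lit 4) (nat_lit 5) (nat_lit 4) (nat_lit 4) (nat_lit 354) (nat_lit 260) (nat_lit 106)) (XT.lf (nat_lit 0) (nat_lit 116667065978) (nat_lit 76) (nat_lit 174497691016) (nat_lit 76) (nat_lit 103164503932) (nat_lit 3) (nat_lit 4) (nat_lit 4) (nat_lit 5) (nat_lit 4) (nat_lit 4) (nat_lit 355) (nat_lit 260) (nat_lit 105)))) (XT.nd (nat_lit 30186) (nat_lit 0) (nat_lit 5396) (XT.nd (nat_lit 30108) (nat_lit 0) (nat_lit 5396) (XT.lf (nat_lit 0) (nat_lit 146817587021) (nat_lit 76) (nat_lit 168932598548) (nat_lit 76) (nat_lit 97597645603) (nat_lit 3) (nat_lit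 4) (nat_lit 4) (nat_lit 5) (nat_lit 4) (nat_lit 4) (nat_lit 356) (nat_lit 260) (nat_lit 104)) (XT.lf (nat_lit 0) (nat_lit 4297637073) (nat_lit 684) (nat_lit 798820708) (nat_lit 684) (nat_lit 798820708) (nat_lit 74) (nat_lit 3) (nat_lit 83) (nat_lit 3) (nat_lit 83) (nat_lit 5) (nat_lit 261) (nat_lit 261) (nat_lit 198))) (XT.nd (nat_lit 78) (nat_lit 0) (nat_lit 0) (XT.lf (nat_lit 76) (nat_lit 3435305863) (nat_lit 0) (nat_lit 5862447353) (nat_lit 684) (nat_lit 2761302970) (nat_lit 75) (nat_lit 5) (nat_lit 74) (nat_lit 3) (nat_lit 83) (nat_lit 5) (nat_lit 262) (nat_lit 261) (nat_lit 197)) (XT.nd (nat_lit 78) (nat_lit 0) (nat_lit 76) (XT.lf (nat_lit 76) (nat_lit 8760238492) (nat_lit 0) (nat_lit 1274159362) (nat_lit 684) (nat_lit 2306751073) (nat_lit 75) (nat_lit 5) (nat_lit 74) (nat_lit 3) (nat_lit 83) (nat_lit 5) (nat_lit 263) (nat_lit 261) (nat_lit 196)) (XT.lf (nat_lit 76) (nat_lit 1697013132)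 (nat_lit 0) (nat_lit 9166191817) (nat_lit 684) (nat_lit 1771489752) (nat_lit 76) (nat_lit 5) (nat_lit 75) (nat_lit 5) (nat_lit 84) (nat_lit 5) (nat_lit 264) (nat_lit 261) (nat_lit 195))))))) (XT.nd (nat_lit 702) (nat_lit 1292) (nat_lit 0) (XT.nd (nat_lit 312) (nat_lit 532) (nat_lit 0) (XT.nd (nat_lit 156) (nat_lit 608) (nat_lit 0) (XT.nd (nat_lit 78) (nat_lit 0) (nat_lit 76) (XT.lf (nat_lit 76) (nat_lit 7325785650) (nat_lit 0) (nat_lit 4463387498) (nat_lit 684) (nat_lit 1151068015) (nat_lit 76) (nat_lit 5) (nat_lit 75) (nat_lit 5) (nat_lit 84) (nat_lit 5) (nat_lit 265) (nat_lit 261) (nat_lit 194)) (XT.lf (nat_lit 0) (nat_lit 12744731349) (nat_lit 608) (nat_lit 48976581) (nat_lit 684) (nat_lit 468296664) (nat_lit 76) (nat_lit 5) (nat_lit 84) (nat_lit 5) (nat_lit 85) (nat_lit 5) (nat_lit 266) (nat_lit 261) (nat_lit 193))) (XT.nd (nat_lit 78) (nat_lit 0) (nat_lit 0) (XT.lf (nat_lit 0)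 (nat_lit 287934848) (nat_lit 684) (nat_lit 7702932988) (nat_lit 760) (nat_lit 5601743835) (nat_lit 67) (nat_lit 5) (nat_lit 76) (nat_lit 5) (nat_lit 77) (nat_lit 5) (nat_lit 267) (nat_lit 261) (nat_lit 192)) (XT.lf (nat_lit 0) (nat_lit 1094291810) (nat_lit 684) (nat_lit 1837530510) (nat_lit 760) (nat_lit 11008679209) (nat_lit 67) (nat_lit 5) (nat_lit 76) (nat_lit 5) (nat_lit 77) (nat_lit 5) (nat_lit 268) (nat_lit 261) (nat_lit 191)))) (XT.nd (nat_lit 156) (nat_lit 608) (nat_lit 0) (XT.nd (nat_lit 78) (nat_lit 0) (nat_lit 0) (XT.lf (nat_lit 0) (nat_lit 2027309080) (nat_lit 684) (nat_lit 9893882163) (nat_lit 760) (nat_lit 2380363260) (nat_lit 68) (nat_lit 5) (nat_lit 77) (nat_lit 5) (nat_lit 78) (nat_lit 5) (nat_lit 269) (nat_lit 261) (nat_lit 190)) (XT.lf (nat_lit 0) (nat_lit 3066043648) (nat_lit 684) (nat_lit 3715218985) (nat_lit 760) (nat_lit 7896525837) (nat_lit 68) (nat_lit 5) (nat_lit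 77) (nat_lit 5) (nat_lit 78) (nat_lit 5) (nat_lit 270) (nat_lit 261) (nat_lit 189))) (XT.nd (nat_lit 78) (nat_lit 608) (nat_lit 0) (XT.lf (nat_lit 76) (nat_lit 2847838090) (nat_lit 0) (nat_lit 1333695920) (nat_lit 760) (nat_lit 10890136945) (nat_lit 69) (nat_lit 5) (nat_lit 68) (nat_lit 5) (nat_lit 78) (nat_lit 5) (nat_lit 271) (nat_lit 261) (nat_lit 188)) (XT.nd (nat_lit 78) (nat_lit 684) (nat_lit 0) (XT.lf (nat_lit 0) (nat_lit 5466336657) (nat_lit 684) (nat_lit 5700093922) (nat_lit 76) (nat_lit 4313214170) (nat_lit 69) (nat_lit 5) (nat_lit 78) (nat_lit 5) (nat_lit 70) (nat_lit 5) (nat_lit 272) (nat_lit 261) (nat_lit 187)) (XT.lf (nat_lit 0) (nat_lit 1149018892) (nat_lit 684) (nat_lit 5688169181) (nat_lit 760) (nat_lit 9069809270) (nat_lit 60) (nat_lit 5) (nat_lit 69) (nat_lit 5) (nat_lit 70) (nat_lit 5) (nat_lit 273) (nat_lit 261) (nat_lit 186)))))) (XT.nd (nat_lit 312) (nat_lit 988)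 (nat_lit 0) (XT.nd (nat_lit 156) (nat_lit 304) (nat_lit 0) (XT.nd (nat_lit 78) (nat_lit 0) (nat_lit 0) (XT.lf (nat_lit 0) (nat_lit 8358348224) (nat_lit 760) (nat_lit 7831428261) (nat_lit 76) (nat_lit 161919959) (nat_lit 60) (nat_lit 5) (nat_lit 70) (nat_lit 5) (nat_lit 61) (nat_lit 5) (nat_lit 274) (nat_lit 261) (nat_lit 185)) (XT.lf (nat_lit 0) (nat_lit 10032291714) (nat_lit 760) (nat_lit 667453806) (nat_lit 76) (nat_lit 6115112699) (nat_lit 60) (nat_lit 5) (nat_lit 70) (nat_lit 5) (nat_lit 61) (nat_lit 5) (nat_lit 275) (nat_lit 261) (nat_lit 184))) (XT.nd (nat_lit 78) (nat_lit 0) (nat_lit 0) (XT.lf (nat_lit 0) (nat_lit 7065965272) (nat_lit 304) (nat_lit 4818550110) (nat_lit 380) (nat_lit 5411994491) (nat_lit 56) (nat_lit 5) (nat_lit 60) (nat_lit 5) (nat_lit 61) (nat_lit 5) (nat_lit 276) (nat_lit 261) (nat_lit 183)) (XT.lf (nat_lit 0) (nat_lit 13846813531) (nat_lit 380) (nat_lit 2629314445)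 (nat_lit 76) (nat_lit 1325301003) (nat_lit 56) (nat_lit 5) (nat_lit 61) (nat_lit 5) (nat_lit 57) (nat_lit 5) (nat_lit 277) (nat_lit 261) (nat_lit 182)))) (XT.nd (nat_lit 156) (nat_lit 684) (nat_lit 0) (XT.nd (nat_lit 78) (nat_lit 0) (nat_lit 0) (XT.lf (nat_lit 0) (nat_lit 5432087173) (nat_lit 304) (nat_lit 10624458686) (nat_lit 380) (nat_lit 2267637493) (nat_lit 52) (nat_lit 5) (nat_lit 56) (nat_lit 5) (nat_lit 57) (nat_lit 5) (nat_lit 278) (nat_lit 261) (nat_lit 181)) (XT.lf (nat_lit 0) (nat_lit 13973322636) (nat_lit 304) (nat_lit 4433950414) (nat_lit 380) (nat_lit 464329622) (nat_lit 52) (nat_lit 5) (nat_lit 56) (nat_lit 5) (nat_lit 57) (nat_lit 5) (nat_lit 279) (nat_lit 261) (nat_lit 180))) (XT.nd (nat_lit 78) (nat_lit 304) (nat_lit 0) (XT.lf (nat_lit 0) (nat_lit 1459092121) (nat_lit 380) (nat_lit 15903799751) (nat_lit 76) (nat_lit 2078648686) (nat_lit 47) (nat_lit 5) (nat_lit 52)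 (nat_lit 5) (nat_lit 48) (nat_lit 5) (nat_lit 280) (nat_lit 261) (nat_lit 179)) (XT.nd (nat_lit 78) (nat_lit 304) (nat_lit 0) (XT.lf (nat_lit 0) (nat_lit 3606876943) (nat_lit 380) (nat_lit 7566653901) (nat_lit 76) (nat_lit 8858919543) (nat_lit 47) (nat_lit 5) (nat_lit 52) (nat_lit 5) (nat_lit 48) (nat_lit 5) (nat_lit 281) (nat_lit 261) (nat_lit 178)) (XT.lf (nat_lit 0) (nat_lit 1212060232) (nat_lit 304) (nat_lit 4656337424) (nat_lit 380) (nat_lit 14784234029) (nat_lit 43) (nat_lit 5) (nat_lit 47) (nat_lit 5) (nat_lit 48) (nat_lit 5) (nat_lit 282) (nat_lit 261) (nat_lit 177))))))))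
noncomputable def xc176 : XT := (XT.nd (nat_lit 1326) (nat_lit 836) (nat_lit 0) (XT.nd (nat_lit 624) (nat_lit 836) (nat_lit 0) (XT.nd (nat_lit 312) (nat_lit 532) (nat_lit 0) (XT.nd (nat_lit 156) (nat_lit 228) (nat_lit 0) (XT.nd (nat_lit 78) (nat_lit 0) (nat_lit 0) (XT.lf (nat_lit 0) (nat_lit 8395160491) (nat_lit 380) (nat_lit 10655729489) (nat_lit 76) (nat_lit 2245365007) (nat_lit 43) (nat_lit 5) (nat_lit 48) (nat_lit 5) (nat_lit 44) (nat_lit 5) (nat_lit 283) (nat_lit 261) (nat_lit 176)) (XT.lf (nat_lit 0) (nat_lit 11112956436) (nat_lit 380) (nat_lit 1521769687) (nat_lit 76) (nat_lit 9334137867) (nat_lit 43) (nat_lit 5) (nat_lit 48) (nat_lit 5) (nat_lit 44) (nat_lit 5) (nat_lit 284) (nat_lit 261) (nat_lit 175))) (XT.nd (nat_lit 78) (nat_lit 0) (nat_lit 0) (XT.lf (nat_lit 0) (nat_lit 8322113559) (nat_lit 228) (nat_lit 5763375910) (nat_lit 304) (nat_lit 8583709018) (nat_lit 40) (nat_lit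 5) (nat_lit 43) (nat_lit 5) (nat_lit 44) (nat_lit 5) (nat_lit 285) (nat_lit 261) (nat_lit 174)) (XT.lf (nat_lit 0) (nat_lit 17244714244) (nat_lit 304) (nat_lit 4728784925) (nat_lit 76) (nat_lit 1429182916) (nat_lit 40) (nat_lit 5) (nat_lit 44) (nat_lit 5) (nat_lit 41) (nat_lit 5) (nat_lit 286) (nat_lit 261) (nat_lit 173)))) (XT.nd (nat_lit 156) (nat_lit 304) (nat_lit 0) (XT.nd (nat_lit 78) (nat_lit 0) (nat_lit 0) (XT.lf (nat_lit 0) (nat_lit 5437150260) (nat_lit 228) (nat_lit 15293842680) (nat_lit 304) (nat_lit 3433426223) (nat_lit 37) (nat_lit 5) (nat_lit 40) (nat_lit 5) (nat_lit 41) (nat_lit 5) (nat_lit 287) (nat_lit 261) (nat_lit 172)) (XT.lf (nat_lit 0) (nat_lit 16262940721) (nat_lit 228) (nat_lit 8198743556) (nat_lit 304) (nat_lit 499086199) (nat_lit 37) (nat_lit 5) (nat_lit 40) (nat_lit 5) (nat_lit 41) (nat_lit 5) (nat_lit 288) (nat_lit 261) (nat_lit 171))) (XT.nd (nat_lit 78)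 (nat_lit 0) (nat_lit 0) (XT.lf (nat_lit 0) (nat_lit 1839274377) (nat_lit 228) (nat_lit 679077738) (nat_lit 304) (nat_lit 23275649938) (nat_lit 33) (nat_lit 5) (nat_lit 36) (nat_lit 5) (nat_lit 37) (nat_lit 5) (nat_lit 289) (nat_lit 261) (nat_lit 170)) (XT.lf (nat_lit 0) (nat_lit 5922810681) (nat_lit 304) (nat_lit 13592215180) (nat_lit 76) (nat_lit 7140842131) (nat_lit 33) (nat_lit 5) (nat_lit 37) (nat_lit 5) (nat_lit 34) (nat_lit 5) (nat_lit 290) (nat_lit 261) (nat_lit 169))))) (XT.nd (nat_lit 312) (nat_lit 456) (nat_lit 0) (XT.nd (nat_lit 156) (nat_lit 152) (nat_lit 0) (XT.nd (nat_lit 78) (nat_lit 228) (nat_lit 0) (XT.lf (nat_lit 0) (nat_lit 9499608654) (nat_lit 304) (nat_lit 2734728875) (nat_lit 76) (nat_lit 15326410464) (nat_lit 33) (nat_lit 5) (nat_lit 37) (nat_lit 5) (nat_lit 34) (nat_lit 5) (nat_lit 291) (nat_lit 261) (nat_lit 168)) (XT.lf (nat_lit 0) (nat_lit 8940331131) (nat_lit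 228) (nat_lit 4445912406) (nat_lit 304) (nat_lit 15118103927) (nat_lit 30) (nat_lit 5) (nat_lit 33) (nat_lit 5) (nat_lit 34) (nat_lit 5) (nat_lit 292) (nat_lit 261) (nat_lit 167))) (XT.nd (nat_lit 78) (nat_lit 152) (nat_lit 0) (XT.lf (nat_lit 0) (nat_lit 17564150336) (nat_lit 304) (nat_lit 8269407445) (nat_lit 76) (nat_lit 3656746235) (nat_lit 30) (nat_lit 5) (nat_lit 34) (nat_lit 5) (nat_lit 31) (nat_lit 5) (nat_lit 293) (nat_lit 261) (nat_lit 166)) (XT.lf (nat_lit 0) (nat_lit 3621866825) (nat_lit 152) (nat_lit 18450517923) (nat_lit 228) (nat_lit 8447125001) (nat_lit 28) (nat_lit 5) (nat_lit 30) (nat_lit 5) (nat_lit 31) (nat_lit 5) (nat_lit 294) (nat_lit 261) (nat_lit 165)))) (XT.nd (nat_lit 156) (nat_lit 456) (nat_lit 0) (XT.nd (nat_lit 78) (nat_lit 0) (nat_lit 0) (XT.lf (nat_lit 0) (nat_lit 16383875443) (nat_lit 152) (nat_lit 10554413170) (nat_lit 228) (nat_lit 4655296142) (nat_lit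 28) (nat_lit 5) (nat_lit 30) (nat_lit 5) (nat_lit 31) (nat_lit 5) (nat_lit 295) (nat_lit 261) (nat_lit 164)) (XT.lf (nat_lit 0) (nat_lit 29773580188) (nat_lit 152) (nat_lit 2266489689) (nat_lit 228) (nat_lit 681685356) (nat_lit 28) (nat_lit 5) (nat_lit 30) (nat_lit 5) (nat_lit 31) (nat_lit 5) (nat_lit 296) (nat_lit 261) (nat_lit 163))) (XT.nd (nat_lit 78) (nat_lit 152) (nat_lit 0) (XT.lf (nat_lit 0) (nat_lit 3634682030) (nat_lit 304) (nat_lit 23812124457) (nat_lit 76) (nat_lit 6444031874) (nat_lit 24) (nat_lit 5) (nat_lit 28) (nat_lit 5) (nat_lit 25) (nat_lit 5) (nat_lit 297) (nat_lit 261) (nat_lit 162)) (XT.nd (nat_lit 78) (nat_lit 152) (nat_lit 0) (XT.lf (nat_lit 0) (nat_lit 8224801964) (nat_lit 304) (nat_lit 11316050983) (nat_lit 76) (nat_lit 15572939771) (nat_lit 24) (nat_lit 5) (nat_lit 28) (nat_lit 5) (nat_lit 25) (nat_lit 5) (nat_lit 298) (nat_lit 261) (nat_lit 161)) (XT.lf (nat_lit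 0) (nat_lit 1854344564) (nat_lit 152) (nat_lit 11212311448) (nat_lit 228) (nat_lit 23330144514) (nat_lit 22) (nat_lit 5) (nat_lit 24) (nat_lit 5) (nat_lit 25) (nat_lit 5) (nat_lit 299) (nat_lit 261) (nat_lit 160))))))) (XT.nd (nat_lit 702) (nat_lit 304) (nat_lit 0) (XT.nd (nat_lit 312) (nat_lit 380) (nat_lit 0) (XT.nd (nat_lit 156) (nat_lit 152) (nat_lit 0) (XT.nd (nat_lit 78) (nat_lit 0) (nat_lit 0) (XT.lf (nat_lit 0) (nat_lit 16066454003) (nat_lit 152) (nat_lit 2269237288) (nat_lit 228) (nat_lit 19399029328) (nat_lit 22) (nat_lit 5) (nat_lit 24) (nat_lit 5) (nat_lit 25) (nat_lit 5) (nat_lit 300) (nat_lit 261) (nat_lit 159)) (XT.lf (nat_lit 0) (nat_lit 23973068410) (nat_lit 228) (nat_lit 8271040668) (nat_lit 76) (nat_lit 6890198681) (nat_lit 22) (nat_lit 5) (nat_lit 25) (nat_lit 5) (nat_lit 23) (nat_lit 5) (nat_lit 301) (nat_lit 261) (nat_lit 158))) (XT.nd (nat_lit 78) (nat_lit 0)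 (nat_lit 0) (XT.lf (nat_lit 0) (nat_lit 5939918310) (nat_lit 152) (nat_lit 24076346368) (nat_lit 228) (nat_lit 10581426868) (nat_lit 20) (nat_lit 5) (nat_lit 22) (nat_lit 5) (nat_lit 23) (nat_lit 5) (nat_lit 302) (nat_lit 261) (nat_lit 157)) (XT.lf (nat_lit 0) (nat_lit 21139680796) (nat_lit 152) (nat_lit 15356171249) (nat_lit 228) (nat_lit 5631695013) (nat_lit 20) (nat_lit 5) (nat_lit 22) (nat_lit 5) (nat_lit 23) (nat_lit 5) (nat_lit 303) (nat_lit 261) (nat_lit 156)))) (XT.nd (nat_lit 156) (nat_lit 152) (nat_lit 0) (XT.nd (nat_lit 78) (nat_lit 228) (nat_lit 0) (XT.lf (nat_lit 0) (nat_lit 37090958742) (nat_lit 152) (nat_lit 6202895474) (nat_lit 228) (nat_lit 440332785) (nat_lit 20) (nat_lit 5) (nat_lit 22) (nat_lit 5) (nat_lit 23) (nat_lit 5) (nat_lit 304) (nat_lit 261) (nat_lit 155)) (XT.lf (nat_lit 0) (nat_lit 5035867859) (nat_lit 228) (nat_lit 36859809261) (nat_lit 76) (nat_lit 3512300493)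 (nat_lit 17) (nat_lit 5) (nat_lit 20) (nat_lit 5) (nat_lit 18) (nat_lit 5) (nat_lit 305) (nat_lit 261) (nat_lit 154))) (XT.nd (nat_lit 78) (nat_lit 152) (nat_lit 0) (XT.lf (nat_lit 0) (nat_lit 10981804673) (nat_lit 228) (nat_lit 22549166586) (nat_lit 76) (nat_lit 13623600958) (nat_lit 17) (nat_lit 5) (nat_lit 20) (nat_lit 5) (nat_lit 18) (nat_lit 5) (nat_lit 306) (nat_lit 261) (nat_lit 153)) (XT.nd (nat_lit 78) (nat_lit 152) (nat_lit 0) (XT.lf (nat_lit 0) (nat_lit 17219978084) (nat_lit 228) (nat_lit 7530950900) (nat_lit 76) (nat_lit 24237831626) (nat_lit 17) (nat_lit 5) (nat_lit 20) (nat_lit 5) (nat_lit 18) (nat_lit 5) (nat_lit 307) (nat_lit 261) (nat_lit 152)) (XT.lf (nat_lit 0) (nat_lit 8502736107) (nat_lit 152) (nat_lit 15395256317) (nat_lit 228) (nat_lit 27010279908) (nat_lit 15) (nat_lit 5) (nat_lit 17) (nat_lit 5) (nat_lit 18) (nat_lit 5) (nat_lit 308) (nat_lit 261) (nat_lit 151))))))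 (XT.nd (nat_lit 312) (nat_lit 228) (nat_lit 0) (XT.nd (nat_lit 156) (nat_lit 76) (nat_lit 0) (XT.nd (nat_lit 78) (nat_lit 0) (nat_lit 0) (XT.lf (nat_lit 0) (nat_lit 25592107219) (nat_lit 152) (nat_lit 5440634332) (nat_lit 228) (nat_lit 21884886405) (nat_lit 15) (nat_lit 5) (nat_lit 17) (nat_lit 5) (nat_lit 18) (nat_lit 5) (nat_lit 309) (nat_lit 261) (nat_lit 150)) (XT.lf (nat_lit 0) (nat_lit 38597952074) (nat_lit 228) (nat_lit 11577046908) (nat_lit 76) (nat_lit 4848775728) (nat_lit 15) (nat_lit 5) (nat_lit 18) (nat_lit 5) (nat_lit 16) (nat_lit 4) (nat_lit 310) (nat_lit 261) (nat_lit 149))) (XT.nd (nat_lit 78) (nat_lit 0) (nat_lit 0) (XT.lf (nat_lit 0) (nat_lit 5023495047) (nat_lit 76) (nat_lit 41681241982) (nat_lit 152) (nat_lit 10522335164) (nat_lit 14) (nat_lit 5) (nat_lit 15) (nat_lit 5) (nat_lit 16) (nat_lit 4) (nat_lit 311) (nat_lit 261) (nat_lit 148)) (XT.lf (nat_lit 0) (nat_lit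 22849157041) (nat_lit 76) (nat_lit 32559557827) (nat_lit 152) (nat_lit 4122235658) (nat_lit 14) (nat_lit 5) (nat_lit 15) (nat_lit 5) (nat_lit 16) (nat_lit 4) (nat_lit 312) (nat_lit 261) (nat_lit 147)))) (XT.nd (nat_lit 156) (nat_lit 152) (nat_lit 0) (XT.nd (nat_lit 78) (nat_lit 0) (nat_lit 0) (XT.lf (nat_lit 0) (nat_lit 2510638282) (nat_lit 152) (nat_lit 20431133956) (nat_lit 76) (nat_lit 39006434512) (nat_lit 13) (nat_lit 5) (nat_lit 15) (nat_lit 5) (nat_lit 14) (nat_lit 5) (nat_lit 313) (nat_lit 261) (nat_lit 146)) (XT.lf (nat_lit 0) (nat_lit 9332733661) (nat_lit 152) (nat_lit 3441855563) (nat_lit 76) (nat_lit 51708559564) (nat_lit 13) (nat_lit 5) (nat_lit 15) (nat_lit 5) (nat_lit 14) (nat_lit 5) (nat_lit 314) (nat_lit 261) (nat_lit 145))) (XT.nd (nat_lit 78) (nat_lit 0) (nat_lit 0) (XT.lf (nat_lit 0) (nat_lit 14866678567) (nat_lit 152) (nat_lit 1857662798) (nat_lit 228) (nat_lit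 50409083306) (nat_lit 11) (nat_lit 5) (nat_lit 13) (nat_lit 5) (nat_lit 14) (nat_lit 5) (nat_lit 315) (nat_lit 261) (nat_lit 144)) (XT.nd (nat_lit 78) (nat_lit 0) (nat_lit 0) (XT.lf (nat_lit 0) (nat_lit 24691081673) (nat_lit 228) (nat_lit 35860174231) (nat_lit 76) (nat_lit 9354687615) (nat_lit 11) (nat_lit 5) (nat_lit 14) (nat_lit 5) (nat_lit 12) (nat_lit 4) (nat_lit 316) (nat_lit 261) (nat_lit 143)) (XT.lf (nat_lit 0) (nat_lit 33083131036) (nat_lit 228) (nat_lit 18669526265) (nat_lit 76) (nat_lit 21063088866) (nat_lit 11) (nat_lit 5) (nat_lit 14) (nat_lit 5) (nat_lit 12) (nat_lit 4) (nat_lit 317) (nat_lit 261) (nat_lit 142))))))))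
noncomputable def xc177 : XT := (XT.nd (nat_lit 1326) (nat_lit 228) (nat_lit 0) (XT.nd (nat_lit 624) (nat_lit 152) (nat_lit 0) (XT.nd (nat_lit 312) (nat_lit 152) (nat_lit 0) (XT.nd (nat_lit 156) (nat_lit 0) (nat_lit 0) (XT.nd (nat_lit 78) (nat_lit 76) (nat_lit 0) (XT.lf (nat_lit 0) (nat_lit 41891467202) (nat_lit 228) (nat_lit 624868771) (nat_lit 76) (nat_lit 33354874910) (nat_lit 11) (nat_lit 5) (nat_lit 14) (nat_lit 5) (nat_lit 12) (nat_lit 4) (nat_lit 318) (nat_lit 261) (nat_lit 141)) (XT.lf (nat_lit 0) (nat_lit 18922396584) (nat_lit 76) (nat_lit 32510097456) (nat_lit 152) (nat_lit 27632346959) (nat_lit 10) (nat_lit 5) (nat_lit 11) (nat_lit 5) (nat_lit 12) (nat_lit 4) (nat_lit 319) (nat_lit 261) (nat_lit 140))) (XT.nd (nat_lit 78) (nat_lit 0) (nat_lit 0) (XT.lf (nat_lit 0) (nat_lit 39463544202) (nat_lit 76) (nat_lit 21994522271) (nat_lit 152) (nat_lit 20959717016) (nat_lit 10) (nat_lit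 5) (nat_lit 11) (nat_lit 5) (nat_lit 12) (nat_lit 4) (nat_lit 320) (nat_lit 261) (nat_lit 139)) (XT.lf (nat_lit 0) (nat_lit 61026820592) (nat_lit 76) (nat_lit 10955155790) (nat_lit 152) (nat_lit 13956549093) (nat_lit 10) (nat_lit 5) (nat_lit 11) (nat_lit 5) (nat_lit 12) (nat_lit 4) (nat_lit 321) (nat_lit 261) (nat_lit 138)))) (XT.nd (nat_lit 156) (nat_lit 0) (nat_lit 0) (XT.nd (nat_lit 78) (nat_lit 152) (nat_lit 0) (XT.lf (nat_lit 0) (nat_lit 83039183682) (nat_lit 152) (nat_lit 5981785773) (nat_lit 0) (nat_lit 613985072) (nat_lit 10) (nat_lit 5) (nat_lit 12) (nat_lit 4) (nat_lit 10) (nat_lit 4) (nat_lit 322) (nat_lit 261) (nat_lit 137)) (XT.lf (nat_lit 0) (nat_lit 1501335481) (nat_lit 152) (nat_lit 79356737558) (nat_lit 76) (nat_lit 12637024395) (nat_lit 8) (nat_lit 5) (nat_lit 10) (nat_lit 5) (nat_lit 9) (nat_lit 4) (nat_lit 323) (nat_lit 261) (nat_lit 136))) (XT.nd (nat_lit 78) (nat_lit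 0) (nat_lit 0) (XT.lf (nat_lit 0) (nat_lit 9881915614) (nat_lit 152) (nat_lit 62185383224) (nat_lit 76) (nat_lit 25470532668) (nat_lit 8) (nat_lit 5) (nat_lit 10) (nat_lit 5) (nat_lit 9) (nat_lit 4) (nat_lit 324) (nat_lit 261) (nat_lit 135)) (XT.lf (nat_lit 0) (nat_lit 18678967112) (nat_lit 152) (nat_lit 44159841880) (nat_lit 76) (nat_lit 38944025336) (nat_lit 8) (nat_lit 5) (nat_lit 10) (nat_lit 5) (nat_lit 9) (nat_lit 4) (nat_lit 325) (nat_lit 261) (nat_lit 134))))) (XT.nd (nat_lit 312) (nat_lit 76) (nat_lit 0) (XT.nd (nat_lit 156) (nat_lit 76) (nat_lit 0) (XT.nd (nat_lit 78) (nat_lit 0) (nat_lit 0) (XT.lf (nat_lit 0) (nat_lit 27913435336) (nat_lit 152) (nat_lit 25237195572) (nat_lit 76) (nat_lit 53089582141) (nat_lit 8) (nat_lit 5) (nat_lit 10) (nat_lit 5) (nat_lit 9) (nat_lit 4) (nat_lit 326) (nat_lit 261) (nat_lit 133)) (XT.lf (nat_lit 0) (nat_lit 37607307115) (nat_lit 152) (nat_lit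 5372390378) (nat_lit 76) (nat_lit 67940882982) (nat_lit 8) (nat_lit 5) (nat_lit 10) (nat_lit 5) (nat_lit 9) (nat_lit 4) (nat_lit 327) (nat_lit 261) (nat_lit 132))) (XT.nd (nat_lit 78) (nat_lit 0) (nat_lit 0) (XT.lf (nat_lit 0) (nat_lit 15993771422) (nat_lit 76) (nat_lit 32039599267) (nat_lit 152) (nat_lit 67789224271) (nat_lit 7) (nat_lit 5) (nat_lit 8) (nat_lit 5) (nat_lit 9) (nat_lit 4) (nat_lit 328) (nat_lit 261) (nat_lit 131)) (XT.lf (nat_lit 0) (nat_lit 38611035392) (nat_lit 76) (nat_lit 20458523772) (nat_lit 152) (nat_lit 61895713342) (nat_lit 7) (nat_lit 5) (nat_lit 8) (nat_lit 5) (nat_lit 9) (nat_lit 4) (nat_lit 329) (nat_lit 261) (nat_lit 130)))) (XT.nd (nat_lit 156) (nat_lit 76) (nat_lit 0) (XT.nd (nat_lit 78) (nat_lit 0) (nat_lit 0) (XT.lf (nat_lit 0) (nat_lit 62355616672) (nat_lit 76) (nat_lit 8299881053) (nat_lit 152) (nat_lit 55709692437) (nat_lit 7) (nat_lit 5) (nat_lit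 8) (nat_lit 5) (nat_lit 9) (nat_lit 4) (nat_lit 330) (nat_lit 261) (nat_lit 129)) (XT.lf (nat_lit 0) (nat_lit 82888487440) (nat_lit 152) (nat_lit 44820870397) (nat_lit 0) (nat_lit 4322361258) (nat_lit 7) (nat_lit 5) (nat_lit 9) (nat_lit 4) (nat_lit 7) (nat_lit 4) (nat_lit 331) (nat_lit 261) (nat_lit 128))) (XT.nd (nat_lit 78) (nat_lit 76) (nat_lit 0) (XT.lf (nat_lit 0) (nat_lit 95867301330) (nat_lit 152) (nat_lit 24812087301) (nat_lit 0) (nat_lit 17295480068) (nat_lit 7) (nat_lit 5) (nat_lit 9) (nat_lit 4) (nat_lit 7) (nat_lit 4) (nat_lit 332) (nat_lit 261) (nat_lit 127)) (XT.nd (nat_lit 78) (nat_lit 76) (nat_lit 0) (XT.lf (nat_lit 0) (nat_lit 109493256930) (nat_lit 152) (nat_lit 3805999839) (nat_lit 0) (nat_lit 30916011782) (nat_lit 7) (nat_lit 5) (nat_lit 9) (nat_lit 4) (nat_lit 7) (nat_lit 4) (nat_lit 333) (nat_lit 261) (nat_lit 126)) (XT.lf (nat_lit 0) (nat_lit 18850748149) (nat_lit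 76) (nat_lit 105242361850) (nat_lit 76) (nat_lit 26659951096) (nat_lit 6) (nat_lit 4) (nat_lit 7) (nat_lit 5) (nat_lit 7) (nat_lit 4) (nat_lit 334) (nat_lit 261) (nat_lit 125))))))) (XT.nd (nat_lit 702) (nat_lit 76) (nat_lit 0) (XT.nd (nat_lit 312) (nat_lit 76) (nat_lit 0) (XT.nd (nat_lit 156) (nat_lit 76) (nat_lit 0) (XT.nd (nat_lit 78) (nat_lit 0) (nat_lit 0) (XT.lf (nat_lit 0) (nat_lit 42769531897) (nat_lit 76) (nat_lit 96716202680) (nat_lit 76) (nat_lit 18128872301) (nat_lit 6) (nat_lit 4) (nat_lit 7) (nat_lit 5) (nat_lit 7) (nat_lit 4) (nat_lit 335) (nat_lit 261) (nat_lit 124)) (XT.lf (nat_lit 0) (nat_lit 67881457348) (nat_lit 76) (nat_lit 87764935330) (nat_lit 76) (nat_lit 9172919594) (nat_lit 6) (nat_lit 4) (nat_lit 7) (nat_lit 5) (nat_lit 7) (nat_lit 4) (nat_lit 336) (nat_lit 261) (nat_lit 123))) (XT.nd (nat_lit 78) (nat_lit 0) (nat_lit 0) (XT.lf (nat_lit 0) (nat_lit 221893907)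 (nat_lit 152) (nat_lit 78141595471) (nat_lit 76) (nat_lit 94020663011) (nat_lit 5) (nat_lit 5) (nat_lit 7) (nat_lit 5) (nat_lit 6) (nat_lit 4) (nat_lit 337) (nat_lit 261) (nat_lit 122)) (XT.lf (nat_lit 0) (nat_lit 9776702773) (nat_lit 152) (nat_lit 58558487052) (nat_lit 76) (nat_lit 111984601756) (nat_lit 5) (nat_lit 5) (nat_lit 7) (nat_lit 5) (nat_lit 6) (nat_lit 4) (nat_lit 338) (nat_lit 261) (nat_lit 121)))) (XT.nd (nat_lit 156) (nat_lit 76) (nat_lit 0) (XT.nd (nat_lit 78) (nat_lit 0) (nat_lit 0) (XT.lf (nat_lit 0) (nat_lit 19807847262) (nat_lit 152) (nat_lit 37998688237) (nat_lit 76) (nat_lit 130845749476) (nat_lit 5) (nat_lit 5) (nat_lit 7) (nat_lit 5) (nat_lit 6) (nat_lit 4) (nat_lit 339) (nat_lit 261) (nat_lit 120)) (XT.lf (nat_lit 0) (nat_lit 30339211050) (nat_lit 152) (nat_lit 16413247125) (nat_lit 76) (nat_lit 150649013668) (nat_lit 5) (nat_lit 5) (nat_lit 7) (nat_lit 5) (nat_lit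 6) (nat_lit 4) (nat_lit 340) (nat_lit 261) (nat_lit 119))) (XT.nd (nat_lit 78) (nat_lit 0) (nat_lit 0) (XT.lf (nat_lit 0) (nat_lit 6455857963) (nat_lit 76) (nat_lit 35040804886) (nat_lit 152) (nat_lit 165086481032) (nat_lit 4) (nat_lit 5) (nat_lit 5) (nat_lit 5) (nat_lit 6) (nat_lit 4) (nat_lit 341) (nat_lit 261) (nat_lit 118)) (XT.nd (nat_lit 78) (nat_lit 0) (nat_lit 0) (XT.lf (nat_lit 0) (nat_lit 31036049396) (nat_lit 76) (nat_lit 22452656242) (nat_lit 152) (nat_lit 162721359692) (nat_lit 4) (nat_lit 5) (nat_lit 5) (nat_lit 5) (nat_lit 6) (nat_lit 4) (nat_lit 342) (nat_lit 261) (nat_lit 117)) (XT.lf (nat_lit 0) (nat_lit 56843155364) (nat_lit 76) (nat_lit 9236006745) (nat_lit 152) (nat_lit 160239231814) (nat_lit 4) (nat_lit 5) (nat_lit 5) (nat_lit 5) (nat_lit 6) (nat_lit 4) (nat_lit 343) (nat_lit 261) (nat_lit 116)))))) (XT.nd (nat_lit 312) (nat_lit 76) (nat_lit 0) (XT.nd (nat_lit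 156) (nat_lit 0) (nat_lit 0) (XT.nd (nat_lit 78) (nat_lit 0) (nat_lit 0) (XT.lf (nat_lit 0) (nat_lit 79370462492) (nat_lit 152) (nat_lit 153066028707) (nat_lit 0) (nat_lit 4492083260) (nat_lit 4) (nat_lit 5) (nat_lit 6) (nat_lit 4) (nat_lit 4) (nat_lit 4) (nat_lit 344) (nat_lit 261) (nat_lit 115)) (XT.lf (nat_lit 0) (nat_lit 93476647036) (nat_lit 152) (nat_lit 135989711124) (nat_lit 0) (nat_lit 18595391401) (nat_lit 4) (nat_lit 5) (nat_lit 6) (nat_lit 4) (nat_lit 4) (nat_lit 4) (nat_lit 345) (nat_lit 261) (nat_lit 114))) (XT.nd (nat_lit 78) (nat_lit 0) (nat_lit 0) (XT.lf (nat_lit 0) (nat_lit 108287101944) (nat_lit 152) (nat_lit 118061427961) (nat_lit 0) (nat_lit 33403106878) (nat_lit 4) (nat_lit 5) (nat_lit 6) (nat_lit 4) (nat_lit 4) (nat_lit 4) (nat_lit 346) (nat_lit 261) (nat_lit 113)) (XT.lf (nat_lit 0) (nat_lit 123837090205) (nat_lit 152) (nat_lit 99238492830) (nat_lit 0) (nat_lit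 48950486157) (nat_lit 4) (nat_lit 5) (nat_lit 6) (nat_lit 4) (nat_lit 4) (nat_lit 4) (nat_lit 347) (nat_lit 261) (nat_lit 112)))) (XT.nd (nat_lit 156) (nat_lit 76) (nat_lit 0) (XT.nd (nat_lit 78) (nat_lit 0) (nat_lit 0) (XT.lf (nat_lit 0) (nat_lit 140163635600) (nat_lit 152) (nat_lit 79476089220) (nat_lit 0) (nat_lit 65274546807) (nat_lit 4) (nat_lit 5) (nat_lit 6) (nat_lit 4) (nat_lit 4) (nat_lit 4) (nat_lit 348) (nat_lit 261) (nat_lit 111)) (XT.lf (nat_lit 0) (nat_lit 157305610857) (nat_lit 152) (nat_lit 58727163787) (nat_lit 0) (nat_lit 82414155640) (nat_lit 4) (nat_lit 5) (nat_lit 6) (nat_lit 4) (nat_lit 4) (nat_lit 4) (nat_lit 349) (nat_lit 261) (nat_lit 110))) (XT.nd (nat_lit 78) (nat_lit 76) (nat_lit 0) (XT.lf (nat_lit 0) (nat_lit 175303830201) (nat_lit 152) (nat_lit 36942314329) (nat_lit 0) (nat_lit 100410121248) (nat_lit 4) (nat_lit 5) (nat_lit 6) (nat_lit 4) (nat_lit 4) (nat_lit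 4) (nat_lit 350) (nat_lit 261) (nat_lit 109)) (XT.nd (nat_lit 78) (nat_lit 76) (nat_lit 0) (XT.lf (nat_lit 0) (nat_lit 194201146537) (nat_lit 152) (nat_lit 14069672156) (nat_lit 0) (nat_lit 119305291167) (nat_lit 4) (nat_lit 5) (nat_lit 6) (nat_lit 4) (nat_lit 4) (nat_lit 4) (nat_lit 351) (nat_lit 261) (nat_lit 108)) (XT.lf (nat_lit 0) (nat_lit 10274055335) (nat_lit 76) (nat_lit 203928904935) (nat_lit 76) (nat_lit 129031005360) (nat_lit 3) (nat_lit 4) (nat_lit 4) (nat_lit 5) (nat_lit 4) (nat_lit 4) (nat_lit 352) (nat_lit 261) (nat_lit 107))))))))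
noncomputable def xc178 : XT := (XT.nd (nat_lit 31434) (nat_lit 0) (nat_lit 2280) (XT.nd (nat_lit 30732) (nat_lit 0) (nat_lit 4332) (XT.nd (nat_lit 30420) (nat_lit 0) (nat_lit 5396) (XT.nd (nat_lit 156) (nat_lit 0) (nat_lit 0) (XT.nd (nat_lit 78) (nat_lit 0) (nat_lit 0) (XT.lf (nat_lit 0) (nat_lit 36322077997) (nat_lit 76) (nat_lit 199120303890) (nat_lit 76) (nat_lit 124220457453) (nat_lit 3) (nat_lit 4) (nat_lit 4) (nat_lit 5) (nat_lit 4) (nat_lit 4) (nat_lit 353) (nat_lit 261) (nat_lit 106)) (XT.lf (nat_lit 0) (nat_lit 63671208027) (nat_lit 76) (nat_lit 194071843215) (nat_lit 76) (nat_lit 119170142623) (nat_lit 3) (nat_lit 4) (nat_lit 4) (nat_lit 5) (nat_lit 4) (nat_lit 4) (nat_lit 354) (nat_lit 261) (nat_lit 105))) (XT.nd (nat_lit 78) (nat_lit 0) (nat_lit 0) (XT.lf (nat_lit 0) (nat_lit 92386562403) (nat_lit 76) (nat_lit 188771502766) (nat_lit 76) (nat_lit 113868036312) (nat_lit 3)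 (nat_lit 4) (nat_lit 4) (nat_lit 5) (nat_lit 4) (nat_lit 4) (nat_lit 355) (nat_lit 261) (nat_lit 104)) (XT.lf (nat_lit 0) (nat_lit 122536511015) (nat_lit 76) (nat_lit 183206662683) (nat_lit 76) (nat_lit 108301514456) (nat_lit 3) (nat_lit 4) (nat_lit 4) (nat_lit 5) (nat_lit 4) (nat_lit 4) (nat_lit 356) (nat_lit 261) (nat_lit 103)))) (XT.nd (nat_lit 156) (nat_lit 0) (nat_lit 0) (XT.nd (nat_lit 78) (nat_lit 0) (nat_lit 0) (XT.lf (nat_lit 0) (nat_lit 4939706021) (nat_lit 684) (nat_lit 613560804) (nat_lit 684) (nat_lit 613560804) (nat_lit 74) (nat_lit 3) (nat_lit 83) (nat_lit 3) (nat_lit 83) (nat_lit 5) (nat_lit 262) (nat_lit 262) (nat_lit 196)) (XT.lf (nat_lit 76) (nat_lit 4050208488) (nat_lit 0) (nat_lit 6533040707) (nat_lit 684) (nat_lit 2034195232) (nat_lit 75) (nat_lit 5) (nat_lit 74) (nat_lit 3) (nat_lit 83) (nat_lit 5) (nat_lit 263) (nat_lit 262) (nat_lit 195))) (XT.nd (nat_lit 78)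 (nat_lit 0) (nat_lit 76) (XT.lf (nat_lit 76) (nat_lit 9620285971) (nat_lit 0) (nat_lit 1697363507) (nat_lit 684) (nat_lit 1598114449) (nat_lit 75) (nat_lit 5) (nat_lit 74) (nat_lit 3) (nat_lit 83) (nat_lit 5) (nat_lit 264) (nat_lit 262) (nat_lit 194)) (XT.lf (nat_lit 76) (nat_lit 2244372423) (nat_lit 0) (nat_lit 9908184294) (nat_lit 684) (nat_lit 1073357561) (nat_lit 76) (nat_lit 5) (nat_lit 75) (nat_lit 5) (nat_lit 84) (nat_lit 5) (nat_lit 265) (nat_lit 262) (nat_lit 193))))) (XT.nd (nat_lit 312) (nat_lit 532) (nat_lit 0) (XT.nd (nat_lit 156) (nat_lit 0) (nat_lit 0) (XT.nd (nat_lit 78) (nat_lit 608) (nat_lit 0) (XT.lf (nat_lit 76) (nat_lit 8132559347) (nat_lit 0) (nat_lit 4956731050) (nat_lit 684) (nat_lit 459376961) (nat_lit 76) (nat_lit 5) (nat_lit 75) (nat_lit 5) (nat_lit 84) (nat_lit 5) (nat_lit 266) (nat_lit 262) (nat_lit 192)) (XT.lf (nat_lit 0) (nat_lit 167593718) (nat_lit 684)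 (nat_lit 13468562945) (nat_lit 760) (nat_lit 251935712) (nat_lit 67) (nat_lit 5) (nat_lit 76) (nat_lit 5) (nat_lit 77) (nat_lit 5) (nat_lit 267) (nat_lit 262) (nat_lit 191))) (XT.nd (nat_lit 78) (nat_lit 0) (nat_lit 0) (XT.lf (nat_lit 0) (nat_lit 963464823) (nat_lit 684) (nat_lit 7610731415) (nat_lit 760) (nat_lit 5662352116) (nat_lit 67) (nat_lit 5) (nat_lit 76) (nat_lit 5) (nat_lit 77) (nat_lit 5) (nat_lit 268) (nat_lit 262) (nat_lit 190)) (XT.lf (nat_lit 0) (nat_lit 1778657098) (nat_lit 684) (nat_lit 1474789681) (nat_lit 760) (nat_lit 11350085636) (nat_lit 67) (nat_lit 5) (nat_lit 76) (nat_lit 5) (nat_lit 77) (nat_lit 5) (nat_lit 269) (nat_lit 262) (nat_lit 189)))) (XT.nd (nat_lit 156) (nat_lit 608) (nat_lit 0) (XT.nd (nat_lit 78) (nat_lit 0) (nat_lit 0) (XT.lf (nat_lit 0) (nat_lit 2732837087) (nat_lit 684) (nat_lit 9906078718) (nat_lit 760) (nat_lit 2345116243) (nat_lit 68) (nat_lit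 5) (nat_lit 77) (nat_lit 5) (nat_lit 78) (nat_lit 5) (nat_lit 270) (nat_lit 262) (nat_lit 188)) (XT.lf (nat_lit 0) (nat_lit 3794738738) (nat_lit 684) (nat_lit 3441458454) (nat_lit 760) (nat_lit 8144432910) (nat_lit 68) (nat_lit 5) (nat_lit 77) (nat_lit 5) (nat_lit 78) (nat_lit 5) (nat_lit 271) (nat_lit 262) (nat_lit 187))) (XT.nd (nat_lit 78) (nat_lit 608) (nat_lit 0) (XT.lf (nat_lit 76) (nat_lit 3442339837) (nat_lit 0) (nat_lit 1503322820) (nat_lit 760) (nat_lit 10849669585) (nat_lit 69) (nat_lit 5) (nat_lit 68) (nat_lit 5) (nat_lit 78) (nat_lit 5) (nat_lit 272) (nat_lit 262) (nat_lit 186)) (XT.nd (nat_lit 78) (nat_lit 684) (nat_lit 0) (XT.lf (nat_lit 0) (nat_lit 6266743711) (nat_lit 684) (nat_lit 5524489743) (nat_lit 76) (nat_lit 4433972675) (nat_lit 69) (nat_lit 5) (nat_lit 78) (nat_lit 5) (nat_lit 70) (nat_lit 5) (nat_lit 273) (nat_lit 262) (nat_lit 185)) (XT.lf (nat_lit 0) (nat_lit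 1659649536) (nat_lit 684) (nat_lit 6028464033) (nat_lit 760) (nat_lit 8986812388) (nat_lit 60) (nat_lit 5) (nat_lit 69) (nat_lit 5) (nat_lit 70) (nat_lit 5) (nat_lit 274) (nat_lit 262) (nat_lit 184))))))) (XT.nd (nat_lit 702) (nat_lit 760) (nat_lit 0) (XT.nd (nat_lit 312) (nat_lit 988) (nat_lit 0) (XT.nd (nat_lit 156) (nat_lit 304) (nat_lit 0) (XT.nd (nat_lit 78) (nat_lit 0) (nat_lit 0) (XT.lf (nat_lit 0) (nat_lit 9260259491) (nat_lit 760) (nat_lit 7764453487) (nat_lit 76) (nat_lit 118494358) (nat_lit 60) (nat_lit 5) (nat_lit 70) (nat_lit 5) (nat_lit 61) (nat_lit 5) (nat_lit 275) (nat_lit 262) (nat_lit 183)) (XT.lf (nat_lit 0) (nat_lit 10994852829) (nat_lit 760) (nat_lit 264115843) (nat_lit 76) (nat_lit 6371800145) (nat_lit 60) (nat_lit 5) (nat_lit 70) (nat_lit 5) (nat_lit 61) (nat_lit 5) (nat_lit 276) (nat_lit 262) (nat_lit 182))) (XT.nd (nat_lit 78) (nat_lit 0) (nat_lit 0) (XT.lf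 (nat_lit 0) (nat_lit 7848930469) (nat_lit 304) (nat_lit 5075515681) (nat_lit 380) (nat_lit 5212903978) (nat_lit 56) (nat_lit 5) (nat_lit 60) (nat_lit 5) (nat_lit 61) (nat_lit 5) (nat_lit 277) (nat_lit 262) (nat_lit 181)) (XT.lf (nat_lit 0) (nat_lit 14963396684) (nat_lit 380) (nat_lit 2328492005) (nat_lit 76) (nat_lit 1376780579) (nat_lit 56) (nat_lit 5) (nat_lit 61) (nat_lit 5) (nat_lit 57) (nat_lit 5) (nat_lit 278) (nat_lit 262) (nat_lit 180)))) (XT.nd (nat_lit 156) (nat_lit 684) (nat_lit 0) (XT.nd (nat_lit 78) (nat_lit 0) (nat_lit 0) (XT.lf (nat_lit 0) (nat_lit 6129007304) (nat_lit 304) (nat_lit 11141046673) (nat_lit 380) (nat_lit 1948262562) (nat_lit 52) (nat_lit 5) (nat_lit 56) (nat_lit 5) (nat_lit 57) (nat_lit 5) (nat_lit 279) (nat_lit 262) (nat_lit 179)) (XT.lf (nat_lit 0) (nat_lit 15077051408) (nat_lit 304) (nat_lit 4641709889) (nat_lit 380) (nat_lit 75396765) (nat_lit 52) (nat_lit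 5) (nat_lit 56) (nat_lit 5) (nat_lit 57) (nat_lit 5) (nat_lit 280) (nat_lit 262) (nat_lit 178))) (XT.nd (nat_lit 78) (nat_lit 304) (nat_lit 0) (XT.lf (nat_lit 0) (nat_lit 1918866381) (nat_lit 380) (nat_lit 16265866844) (nat_lit 76) (nat_lit 2208211393) (nat_lit 47) (nat_lit 5) (nat_lit 52) (nat_lit 5) (nat_lit 48) (nat_lit 5) (nat_lit 281) (nat_lit 262) (nat_lit 177)) (XT.nd (nat_lit 78) (nat_lit 304) (nat_lit 0) (XT.lf (nat_lit 0) (nat_lit 4155620461) (nat_lit 380) (nat_lit 7532488602) (nat_lit 76) (nat_lit 9326275304) (nat_lit 47) (nat_lit 5) (nat_lit 52) (nat_lit 5) (nat_lit 48) (nat_lit 5) (nat_lit 282) (nat_lit 262) (nat_lit 176)) (XT.lf (nat_lit 0) (nat_lit 1678508044) (nat_lit 304) (nat_lit 4840502698) (nat_lit 380) (nat_lit 15147184717) (nat_lit 43) (nat_lit 5) (nat_lit 47) (nat_lit 5) (nat_lit 48) (nat_lit 5) (nat_lit 283) (nat_lit 262) (nat_lit 175)))))) (XT.nd (nat_lit 312)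 (nat_lit 532) (nat_lit 0) (XT.nd (nat_lit 156) (nat_lit 228) (nat_lit 0) (XT.nd (nat_lit 78) (nat_lit 0) (nat_lit 0) (XT.lf (nat_lit 0) (nat_lit 9155825936) (nat_lit 380) (nat_lit 10784560703) (nat_lit 76) (nat_lit 2402485108) (nat_lit 43) (nat_lit 5) (nat_lit 48) (nat_lit 5) (nat_lit 44) (nat_lit 5) (nat_lit 284) (nat_lit 262) (nat_lit 174)) (XT.lf (nat_lit 0) (nat_lit 11993277991) (nat_lit 380) (nat_lit 1213138876) (nat_lit 76) (nat_lit 9843560808) (nat_lit 43) (nat_lit 5) (nat_lit 48) (nat_lit 5) (nat_lit 44) (nat_lit 5) (nat_lit 285) (nat_lit 262) (nat_lit 173))) (XT.nd (nat_lit 78) (nat_lit 0) (nat_lit 0) (XT.lf (nat_lit 0) (nat_lit 9116733383) (nat_lit 228) (nat_lit 5988153307) (nat_lit 304) (nat_lit 8680971940) (nat_lit 40) (nat_lit 5) (nat_lit 43) (nat_lit 5) (nat_lit 44) (nat_lit 5) (nat_lit 286) (nat_lit 262) (nat_lit 172)) (XT.lf (nat_lit 0) (nat_lit 18408009446) (nat_lit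 304) (nat_lit 4589677304) (nat_lit 76) (nat_lit 1559082518) (nat_lit 40) (nat_lit 5) (nat_lit 44) (nat_lit 5) (nat_lit 41) (nat_lit 5) (nat_lit 287) (nat_lit 262) (nat_lit 171)))) (XT.nd (nat_lit 156) (nat_lit 304) (nat_lit 0) (XT.nd (nat_lit 78) (nat_lit 0) (nat_lit 0) (XT.lf (nat_lit 0) (nat_lit 6078497433) (nat_lit 228) (nat_lit 15981537247) (nat_lit 304) (nat_lit 3297034220) (nat_lit 37) (nat_lit 5) (nat_lit 40) (nat_lit 5) (nat_lit 41) (nat_lit 5) (nat_lit 288) (nat_lit 262) (nat_lit 170)) (XT.lf (nat_lit 0) (nat_lit 17427982671) (nat_lit 228) (nat_lit 8535349717) (nat_lit 304) (nat_lit 230646876) (nat_lit 37) (nat_lit 5) (nat_lit 40) (nat_lit 5) (nat_lit 41) (nat_lit 5) (nat_lit 289) (nat_lit 262) (nat_lit 169))) (XT.nd (nat_lit 78) (nat_lit 0) (nat_lit 0) (XT.lf (nat_lit 0) (nat_lit 2287541016) (nat_lit 228) (nat_lit 632770833) (nat_lit 304) (nat_lit 24148770477) (nat_lit 33)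 (nat_lit 5) (nat_lit 36) (nat_lit 5) (nat_lit 37) (nat_lit 5) (nat_lit 290) (nat_lit 262) (nat_lit 168)) (XT.nd (nat_lit 78) (nat_lit 0) (nat_lit 0) (XT.lf (nat_lit 0) (nat_lit 6483041905) (nat_lit 304) (nat_lit 13919759602) (nat_lit 76) (nat_lit 7571876567) (nat_lit 33) (nat_lit 5) (nat_lit 37) (nat_lit 5) (nat_lit 34) (nat_lit 5) (nat_lit 291) (nat_lit 262) (nat_lit 167)) (XT.lf (nat_lit 0) (nat_lit 10226104030) (nat_lit 304) (nat_lit 2536164045) (nat_lit 76) (nat_lit 16163199871) (nat_lit 33) (nat_lit 5) (nat_lit 37) (nat_lit 5) (nat_lit 34) (nat_lit 5) (nat_lit 292) (nat_lit 262) (nat_lit 166))))))))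
noncomputable def xc179 : XT := (XT.nd (nat_lit 1326) (nat_lit 532) (nat_lit 0) (XT.nd (nat_lit 624) (nat_lit 532) (nat_lit 0) (XT.nd (nat_lit 312) (nat_lit 456) (nat_lit 0) (XT.nd (nat_lit 156) (nat_lit 152) (nat_lit 0) (XT.nd (nat_lit 78) (nat_lit 0) (nat_lit 0) (XT.lf (nat_lit 0) (nat_lit 9717240877) (nat_lit 228) (nat_lit 4583003435) (nat_lit 304) (nat_lit 15616379715) (nat_lit 30) (nat_lit 5) (nat_lit 33) (nat_lit 5) (nat_lit 34) (nat_lit 5) (nat_lit 293) (nat_lit 262) (nat_lit 165)) (XT.lf (nat_lit 0) (nat_lit 18676661549) (nat_lit 304) (nat_lit 8357636182) (nat_lit 76) (nat_lit 3918133558) (nat_lit 30) (nat_lit 5) (nat_lit 34) (nat_lit 5) (nat_lit 31) (nat_lit 5) (nat_lit 294) (nat_lit 262) (nat_lit 164))) (XT.nd (nat_lit 78) (nat_lit 0) (nat_lit 0) (XT.lf (nat_lit 0) (nat_lit 4122955968) (nat_lit 152) (nat_lit 19281190425) (nat_lit 228) (nat_lit 8629291015) (nat_lit 28) (nat_lit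 5) (nat_lit 30) (nat_lit 5) (nat_lit 31) (nat_lit 5) (nat_lit 295) (nat_lit 262) (nat_lit 163)) (XT.lf (nat_lit 0) (nat_lit 17507827122) (nat_lit 152) (nat_lit 10994654406) (nat_lit 228) (nat_lit 4659308343) (nat_lit 28) (nat_lit 5) (nat_lit 30) (nat_lit 5) (nat_lit 31) (nat_lit 5) (nat_lit 296) (nat_lit 262) (nat_lit 162)))) (XT.nd (nat_lit 156) (nat_lit 152) (nat_lit 0) (XT.nd (nat_lit 78) (nat_lit 304) (nat_lit 0) (XT.lf (nat_lit 0) (nat_lit 31552504822) (nat_lit 152) (nat_lit 2296500438) (nat_lit 228) (nat_lit 497910000) (nat_lit 28) (nat_lit 5) (nat_lit 30) (nat_lit 5) (nat_lit 31) (nat_lit 5) (nat_lit 297) (nat_lit 262) (nat_lit 161)) (XT.lf (nat_lit 0) (nat_lit 4023201641) (nat_lit 304) (nat_lit 24700330360) (nat_lit 76) (nat_lit 6850981890) (nat_lit 24) (nat_lit 5) (nat_lit 28) (nat_lit 5) (nat_lit 25) (nat_lit 5) (nat_lit 298) (nat_lit 262) (nat_lit 160))) (XT.nd (nat_lit 78)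 (nat_lit 152) (nat_lit 0) (XT.lf (nat_lit 0) (nat_lit 8832980643) (nat_lit 304) (nat_lit 11593853228) (nat_lit 76) (nat_lit 16432299543) (nat_lit 24) (nat_lit 5) (nat_lit 28) (nat_lit 5) (nat_lit 25) (nat_lit 5) (nat_lit 299) (nat_lit 262) (nat_lit 159)) (XT.lf (nat_lit 0) (nat_lit 2230416930) (nat_lit 152) (nat_lit 11681556403) (nat_lit 228) (nat_lit 24294589887) (nat_lit 22) (nat_lit 5) (nat_lit 24) (nat_lit 5) (nat_lit 25) (nat_lit 5) (nat_lit 300) (nat_lit 262) (nat_lit 158))))) (XT.nd (nat_lit 312) (nat_lit 380) (nat_lit 0) (XT.nd (nat_lit 156) (nat_lit 152) (nat_lit 0) (XT.nd (nat_lit 78) (nat_lit 0) (nat_lit 0) (XT.lf (nat_lit 0) (nat_lit 17139638740) (nat_lit 152) (nat_lit 2295679517) (nat_lit 228) (nat_lit 20176540935) (nat_lit 22) (nat_lit 5) (nat_lit 24) (nat_lit 5) (nat_lit 25) (nat_lit 5) (nat_lit 301) (nat_lit 262) (nat_lit 157)) (XT.lf (nat_lit 0) (nat_lit 25347151375)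 (nat_lit 228) (nat_lit 8419734725) (nat_lit 76) (nat_lit 7314931914) (nat_lit 22) (nat_lit 5) (nat_lit 25) (nat_lit 5) (nat_lit 23) (nat_lit 5) (nat_lit 302) (nat_lit 262) (nat_lit 156))) (XT.nd (nat_lit 78) (nat_lit 0) (nat_lit 0) (XT.lf (nat_lit 0) (nat_lit 6497500298) (nat_lit 152) (nat_lit 25190721849) (nat_lit 228) (nat_lit 10930383759) (nat_lit 20) (nat_lit 5) (nat_lit 22) (nat_lit 5) (nat_lit 23) (nat_lit 5) (nat_lit 303) (nat_lit 262) (nat_lit 155)) (XT.lf (nat_lit 0) (nat_lit 22444842048) (nat_lit 152) (nat_lit 16038797109) (nat_lit 228) (nat_lit 5741742190) (nat_lit 20) (nat_lit 5) (nat_lit 22) (nat_lit 5) (nat_lit 23) (nat_lit 5) (nat_lit 304) (nat_lit 262) (nat_lit 154)))) (XT.nd (nat_lit 156) (nat_lit 152) (nat_lit 0) (XT.nd (nat_lit 78) (nat_lit 228) (nat_lit 0) (XT.lf (nat_lit 0) (nat_lit 39181865929) (nat_lit 152) (nat_lit 6431913865) (nat_lit 228) (nat_lit 298980306)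 (nat_lit 20) (nat_lit 5) (nat_lit 22) (nat_lit 5) (nat_lit 23) (nat_lit 5) (nat_lit 305) (nat_lit 262) (nat_lit 153)) (XT.lf (nat_lit 0) (nat_lit 5443294604) (nat_lit 228) (nat_lit 38458008157) (nat_lit 76) (nat_lit 3768952285) (nat_lit 17) (nat_lit 5) (nat_lit 20) (nat_lit 5) (nat_lit 18) (nat_lit 5) (nat_lit 306) (nat_lit 262) (nat_lit 152))) (XT.nd (nat_lit 78) (nat_lit 152) (nat_lit 0) (XT.lf (nat_lit 0) (nat_lit 11679117146) (nat_lit 228) (nat_lit 23443490089) (nat_lit 76) (nat_lit 14381958879) (nat_lit 17) (nat_lit 5) (nat_lit 20) (nat_lit 5) (nat_lit 18) (nat_lit 5) (nat_lit 307) (nat_lit 262) (nat_lit 151)) (XT.nd (nat_lit 78) (nat_lit 152) (nat_lit 0) (XT.lf (nat_lit 0) (nat_lit 18222141026) (nat_lit 228) (nat_lit 7685465278) (nat_lit 76) (nat_lit 25523225944) (nat_lit 17) (nat_lit 5) (nat_lit 20) (nat_lit 5) (nat_lit 18) (nat_lit 5) (nat_lit 308) (nat_lit 262) (nat_lit 150))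 (XT.lf (nat_lit 0) (nat_lit 9146324900) (nat_lit 152) (nat_lit 16084419734) (nat_lit 228) (nat_lit 28215755170) (nat_lit 15) (nat_lit 5) (nat_lit 17) (nat_lit 5) (nat_lit 18) (nat_lit 5) (nat_lit 309) (nat_lit 262) (nat_lit 149))))))) (XT.nd (nat_lit 702) (nat_lit 228) (nat_lit 0) (XT.nd (nat_lit 312) (nat_lit 228) (nat_lit 0) (XT.nd (nat_lit 156) (nat_lit 76) (nat_lit 0) (XT.nd (nat_lit 78) (nat_lit 0) (nat_lit 0) (XT.lf (nat_lit 0) (nat_lit 27079762092) (nat_lit 152) (nat_lit 5635904717) (nat_lit 228) (nat_lit 22840998598) (nat_lit 15) (nat_lit 5) (nat_lit 17) (nat_lit 5) (nat_lit 18) (nat_lit 5) (nat_lit 310) (nat_lit 262) (nat_lit 148)) (XT.lf (nat_lit 0) (nat_lit 40654027429) (nat_lit 228) (nat_lit 11952380205) (nat_lit 76) (nat_lit 5161980696) (nat_lit 15) (nat_lit 5) (nat_lit 18) (nat_lit 5) (nat_lit 16) (nat_lit 4) (nat_lit 311) (nat_lit 262) (nat_lit 147))) (XT.nd (nat_lit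 78) (nat_lit 0) (nat_lit 0) (XT.lf (nat_lit 0) (nat_lit 5474906282) (nat_lit 76) (nat_lit 43688363138) (nat_lit 152) (nat_lit 10918738055) (nat_lit 14) (nat_lit 5) (nat_lit 15) (nat_lit 5) (nat_lit 16) (nat_lit 4) (nat_lit 312) (nat_lit 262) (nat_lit 146)) (XT.lf (nat_lit 0) (nat_lit 24182316304) (nat_lit 76) (nat_lit 34114258630) (nat_lit 152) (nat_lit 4204810425) (nat_lit 14) (nat_lit 5) (nat_lit 15) (nat_lit 5) (nat_lit 16) (nat_lit 4) (nat_lit 313) (nat_lit 262) (nat_lit 145)))) (XT.nd (nat_lit 156) (nat_lit 152) (nat_lit 0) (XT.nd (nat_lit 78) (nat_lit 0) (nat_lit 0) (XT.lf (nat_lit 0) (nat_lit 2750058824) (nat_lit 152) (nat_lit 21267085563) (nat_lit 76) (nat_lit 41022559242) (nat_lit 13) (nat_lit 5) (nat_lit 15) (nat_lit 5) (nat_lit 14) (nat_lit 5) (nat_lit 314) (nat_lit 262) (nat_lit 144)) (XT.lf (nat_lit 0) (nat_lit 9907835705) (nat_lit 152) (nat_lit 3437181588) (nat_lit 76)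 (nat_lit 54356657070) (nat_lit 13) (nat_lit 5) (nat_lit 15) (nat_lit 5) (nat_lit 14) (nat_lit 5) (nat_lit 315) (nat_lit 262) (nat_lit 143))) (XT.nd (nat_lit 78) (nat_lit 0) (nat_lit 0) (XT.lf (nat_lit 0) (nat_lit 15783928171) (nat_lit 152) (nat_lit 1882645916) (nat_lit 228) (nat_lit 52818022371) (nat_lit 11) (nat_lit 5) (nat_lit 13) (nat_lit 5) (nat_lit 14) (nat_lit 5) (nat_lit 316) (nat_lit 262) (nat_lit 142)) (XT.nd (nat_lit 78) (nat_lit 0) (nat_lit 0) (XT.lf (nat_lit 0) (nat_lit 26027612674) (nat_lit 228) (nat_lit 37483321026) (nat_lit 76) (nat_lit 9885018946) (nat_lit 11) (nat_lit 5) (nat_lit 14) (nat_lit 5) (nat_lit 12) (nat_lit 4) (nat_lit 317) (nat_lit 262) (nat_lit 141)) (XT.lf (nat_lit 0) (nat_lit 34834408462) (nat_lit 228) (nat_lit 19441229325) (nat_lit 76) (nat_lit 22175859452) (nat_lit 11) (nat_lit 5) (nat_lit 14) (nat_lit 5) (nat_lit 12) (nat_lit 4) (nat_lit 318) (nat_lit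 262) (nat_lit 140)))))) (XT.nd (nat_lit 312) (nat_lit 152) (nat_lit 0) (XT.nd (nat_lit 156) (nat_lit 0) (nat_lit 0) (XT.nd (nat_lit 78) (nat_lit 76) (nat_lit 0) (XT.lf (nat_lit 0) (nat_lit 44078536633) (nat_lit 228) (nat_lit 502042445) (nat_lit 76) (nat_lit 35079395934) (nat_lit 11) (nat_lit 5) (nat_lit 14) (nat_lit 5) (nat_lit 12) (nat_lit 4) (nat_lit 319) (nat_lit 262) (nat_lit 139)) (XT.lf (nat_lit 0) (nat_lit 20020101182) (nat_lit 76) (nat_lit 34074475719) (nat_lit 152) (nat_lit 28918819800) (nat_lit 10) (nat_lit 5) (nat_lit 11) (nat_lit 5) (nat_lit 12) (nat_lit 4) (nat_lit 320) (nat_lit 262) (nat_lit 138))) (XT.nd (nat_lit 78) (nat_lit 0) (nat_lit 0) (XT.lf (nat_lit 0) (nat_lit 41581087859) (nat_lit 76) (nat_lit 23036032566) (nat_lit 152) (nat_lit 21917089051) (nat_lit 10) (nat_lit 5) (nat_lit 11) (nat_lit 5) (nat_lit 12) (nat_lit 4) (nat_lit 321) (nat_lit 262) (nat_lit 137)) (XT.lf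 (nat_lit 0) (nat_lit 64215653476) (nat_lit 76) (nat_lit 11447469943) (nat_lit 152) (nat_lit 14568077675) (nat_lit 10) (nat_lit 5) (nat_lit 11) (nat_lit 5) (nat_lit 12) (nat_lit 4) (nat_lit 322) (nat_lit 262) (nat_lit 136)))) (XT.nd (nat_lit 156) (nat_lit 0) (nat_lit 0) (XT.nd (nat_lit 78) (nat_lit 152) (nat_lit 0) (XT.lf (nat_lit 0) (nat_lit 87270108435) (nat_lit 152) (nat_lit 6146706605) (nat_lit 0) (nat_lit 695797749) (nat_lit 10) (nat_lit 5) (nat_lit 12) (nat_lit 4) (nat_lit 10) (nat_lit 4) (nat_lit 323) (nat_lit 262) (nat_lit 135)) (XT.lf (nat_lit 0) (nat_lit 1655065337) (nat_lit 152) (nat_lit 83189840970) (nat_lit 76) (nat_lit 13320884784) (nat_lit 8) (nat_lit 5) (nat_lit 10) (nat_lit 5) (nat_lit 9) (nat_lit 4) (nat_lit 324) (nat_lit 262) (nat_lit 134))) (XT.nd (nat_lit 78) (nat_lit 0) (nat_lit 0) (XT.lf (nat_lit 0) (nat_lit 10450928616) (nat_lit 152) (nat_lit 65166334798) (nat_lit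 76) (nat_lit 26793591844) (nat_lit 8) (nat_lit 5) (nat_lit 10) (nat_lit 5) (nat_lit 9) (nat_lit 4) (nat_lit 325) (nat_lit 262) (nat_lit 133)) (XT.nd (nat_lit 78) (nat_lit 0) (nat_lit 0) (XT.lf (nat_lit 0) (nat_lit 19684265203) (nat_lit 152) (nat_lit 46245626749) (nat_lit 76) (nat_lit 40938400452) (nat_lit 8) (nat_lit 5) (nat_lit 10) (nat_lit 5) (nat_lit 9) (nat_lit 4) (nat_lit 326) (nat_lit 262) (nat_lit 132)) (XT.lf (nat_lit 0) (nat_lit 29377059231) (nat_lit 152) (nat_lit 26382667517) (nat_lit 76) (nat_lit 55788988724) (nat_lit 8) (nat_lit 5) (nat_lit 10) (nat_lit 5) (nat_lit 9) (nat_lit 4) (nat_lit 327) (nat_lit 262) (nat_lit 131))))))))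
noncomputable def xc180 : XT := (XT.nd (nat_lit 1326) (nat_lit 76) (nat_lit 0) (XT.nd (nat_lit 624) (nat_lit 152) (nat_lit 0) (XT.nd (nat_lit 312) (nat_lit 76) (nat_lit 0) (XT.nd (nat_lit 156) (nat_lit 0) (nat_lit 0) (XT.nd (nat_lit 78) (nat_lit 76) (nat_lit 0) (XT.lf (nat_lit 0) (nat_lit 39552388783) (nat_lit 152) (nat_lit 5530164342) (nat_lit 76) (nat_lit 71380715204) (nat_lit 8) (nat_lit 5) (nat_lit 10) (nat_lit 5) (nat_lit 9) (nat_lit 4) (nat_lit 328) (nat_lit 262) (nat_lit 130)) (XT.lf (nat_lit 0) (nat_lit 16902517718) (nat_lit 76) (nat_lit 33595858786) (nat_lit 152) (nat_lit 71112081002) (nat_lit 7) (nat_lit 5) (nat_lit 8) (nat_lit 5) (nat_lit 9) (nat_lit 4) (nat_lit 329) (nat_lit 262) (nat_lit 129))) (XT.nd (nat_lit 78) (nat_lit 0) (nat_lit 0) (XT.lf (nat_lit 0) (nat_lit 40645451661) (nat_lit 76) (nat_lit 21437906681) (nat_lit 152) (nat_lit 64927066169) (nat_lit 7) (nat_lit 5)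 (nat_lit 8) (nat_lit 5) (nat_lit 9) (nat_lit 4) (nat_lit 330) (nat_lit 262) (nat_lit 128)) (XT.lf (nat_lit 0) (nat_lit 65572316076) (nat_lit 76) (nat_lit 8673405315) (nat_lit 152) (nat_lit 58434764830) (nat_lit 7) (nat_lit 5) (nat_lit 8) (nat_lit 5) (nat_lit 9) (nat_lit 4) (nat_lit 331) (nat_lit 262) (nat_lit 127)))) (XT.nd (nat_lit 156) (nat_lit 76) (nat_lit 0) (XT.nd (nat_lit 78) (nat_lit 0) (nat_lit 0) (XT.lf (nat_lit 0) (nat_lit 87088241564) (nat_lit 152) (nat_lit 46965500050) (nat_lit 0) (nat_lit 4576710272) (nat_lit 7) (nat_lit 5) (nat_lit 9) (nat_lit 4) (nat_lit 7) (nat_lit 4) (nat_lit 332) (nat_lit 262) (nat_lit 126)) (XT.lf (nat_lit 0) (nat_lit 100713361399) (nat_lit 152) (nat_lit 25960868936) (nat_lit 0) (nat_lit 18196664501) (nat_lit 7) (nat_lit 5) (nat_lit 9) (nat_lit 4) (nat_lit 7) (nat_lit 4) (nat_lit 333) (nat_lit 262) (nat_lit 125))) (XT.nd (nat_lit 78) (nat_lit 76)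 (nat_lit 0) (XT.lf (nat_lit 0) (nat_lit 115018105493) (nat_lit 152) (nat_lit 3908849611) (nat_lit 0) (nat_lit 32496488970) (nat_lit 7) (nat_lit 5) (nat_lit 9) (nat_lit 4) (nat_lit 7) (nat_lit 4) (nat_lit 334) (nat_lit 262) (nat_lit 124)) (XT.lf (nat_lit 0) (nat_lit 19879325288) (nat_lit 76) (nat_lit 110467579452) (nat_lit 76) (nat_lit 27941277573) (nat_lit 6) (nat_lit 4) (nat_lit 7) (nat_lit 5) (nat_lit 7) (nat_lit 4) (nat_lit 335) (nat_lit 262) (nat_lit 123))))) (XT.nd (nat_lit 312) (nat_lit 76) (nat_lit 0) (XT.nd (nat_lit 156) (nat_lit 76) (nat_lit 0) (XT.nd (nat_lit 78) (nat_lit 0) (nat_lit 0) (XT.lf (nat_lit 0) (nat_lit 44989951094) (nat_lit 76) (nat_lit 101516869491) (nat_lit 76) (nat_lit 18986105366) (nat_lit 6) (nat_lit 4) (nat_lit 7) (nat_lit 5) (nat_lit 7) (nat_lit 4) (nat_lit 336) (nat_lit 262) (nat_lit 122)) (XT.lf (nat_lit 0) (nat_lit 71353570788) (nat_lit 76) (nat_lit 92119712265)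 (nat_lit 76) (nat_lit 9584698383) (nat_lit 6) (nat_lit 4) (nat_lit 7) (nat_lit 5) (nat_lit 7) (nat_lit 4) (nat_lit 337) (nat_lit 262) (nat_lit 121))) (XT.nd (nat_lit 78) (nat_lit 0) (nat_lit 0) (XT.lf (nat_lit 0) (nat_lit 276195409) (nat_lit 152) (nat_lit 81972860678) (nat_lit 76) (nat_lit 98752081981) (nat_lit 5) (nat_lit 5) (nat_lit 7) (nat_lit 5) (nat_lit 6) (nat_lit 4) (nat_lit 338) (nat_lit 262) (nat_lit 120)) (XT.lf (nat_lit 0) (nat_lit 10306687252) (nat_lit 152) (nat_lit 61414207055) (nat_lit 76) (nat_lit 117612770719) (nat_lit 5) (nat_lit 5) (nat_lit 7) (nat_lit 5) (nat_lit 6) (nat_lit 4) (nat_lit 339) (nat_lit 262) (nat_lit 119)))) (XT.nd (nat_lit 156) (nat_lit 76) (nat_lit 0) (XT.nd (nat_lit 78) (nat_lit 0) (nat_lit 0) (XT.lf (nat_lit 0) (nat_lit 20837429473) (nat_lit 152) (nat_lit 39829856602) (nat_lit 76) (nat_lit 137415597784) (nat_lit 5) (nat_lit 5) (nat_lit 7) (nat_lit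 5) (nat_lit 6) (nat_lit 4) (nat_lit 340) (nat_lit 262) (nat_lit 118)) (XT.lf (nat_lit 0) (nat_lit 31893495267) (nat_lit 152) (nat_lit 17168418008) (nat_lit 76) (nat_lit 158207712765) (nat_lit 5) (nat_lit 5) (nat_lit 7) (nat_lit 5) (nat_lit 6) (nat_lit 4) (nat_lit 341) (nat_lit 262) (nat_lit 117))) (XT.nd (nat_lit 78) (nat_lit 0) (nat_lit 0) (XT.lf (nat_lit 0) (nat_lit 6843086020) (nat_lit 76) (nat_lit 36764962332) (nat_lit 152) (nat_lit 173302374427) (nat_lit 4) (nat_lit 5) (nat_lit 5) (nat_lit 5) (nat_lit 6) (nat_lit 4) (nat_lit 342) (nat_lit 262) (nat_lit 116)) (XT.nd (nat_lit 78) (nat_lit 0) (nat_lit 0) (XT.lf (nat_lit 0) (nat_lit 32649218684) (nat_lit 76) (nat_lit 23548734009) (nat_lit 152) (nat_lit 170820827051) (nat_lit 4) (nat_lit 5) (nat_lit 5) (nat_lit 5) (nat_lit 6) (nat_lit 4) (nat_lit 343) (nat_lit 262) (nat_lit 115)) (XT.lf (nat_lit 0) (nat_lit 59743757720) (nat_lit 76)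 (nat_lit 9672516562) (nat_lit 152) (nat_lit 168216335667) (nat_lit 4) (nat_lit 5) (nat_lit 5) (nat_lit 5) (nat_lit 6) (nat_lit 4) (nat_lit 344) (nat_lit 262) (nat_lit 114))))))) (XT.nd (nat_lit 780) (nat_lit 0) (nat_lit 0) (XT.nd (nat_lit 312) (nat_lit 76) (nat_lit 0) (XT.nd (nat_lit 156) (nat_lit 0) (nat_lit 0) (XT.nd (nat_lit 78) (nat_lit 0) (nat_lit 0) (XT.lf (nat_lit 0) (nat_lit 83370936974) (nat_lit 152) (nat_lit 160662422140) (nat_lit 0) (nat_lit 4740002723) (nat_lit 4) (nat_lit 5) (nat_lit 6) (nat_lit 4) (nat_lit 4) (nat_lit 4) (nat_lit 345) (nat_lit 262) (nat_lit 113)) (XT.lf (nat_lit 0) (nat_lit 98180909252) (nat_lit 152) (nat_lit 142734998583) (nat_lit 0) (nat_lit 19547366019) (nat_lit 4) (nat_lit 5) (nat_lit 6) (nat_lit 4) (nat_lit 4) (nat_lit 4) (nat_lit 346) (nat_lit 262) (nat_lit 112))) (XT.nd (nat_lit 78) (nat_lit 0) (nat_lit 0) (XT.lf (nat_lit 0) (nat_lit 113730437864)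 (nat_lit 152) (nat_lit 123912882123) (nat_lit 0) (nat_lit 35094409887) (nat_lit 4) (nat_lit 5) (nat_lit 6) (nat_lit 4) (nat_lit 4) (nat_lit 4) (nat_lit 347) (nat_lit 262) (nat_lit 111)) (XT.lf (nat_lit 0) (nat_lit 130056545499) (nat_lit 152) (nat_lit 104151258200) (nat_lit 0) (nat_lit 51418151098) (nat_lit 4) (nat_lit 5) (nat_lit 6) (nat_lit 4) (nat_lit 4) (nat_lit 4) (nat_lit 348) (nat_lit 262) (nat_lit 110)))) (XT.nd (nat_lit 156) (nat_lit 76) (nat_lit 0) (XT.nd (nat_lit 78) (nat_lit 0) (nat_lit 0) (XT.lf (nat_lit 0) (nat_lit 147198103841) (nat_lit 152) (nat_lit 83403075326) (nat_lit 0) (nat_lit 68557455703) (nat_lit 4) (nat_lit 5) (nat_lit 6) (nat_lit 4) (nat_lit 4) (nat_lit 4) (nat_lit 349) (nat_lit 262) (nat_lit 109)) (XT.lf (nat_lit 0) (nat_lit 165195926124) (nat_lit 152) (nat_lit 61618933067) (nat_lit 0) (nat_lit 86553131570) (nat_lit 4) (nat_lit 5) (nat_lit 6) (nat_lit 4) (nat_lit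 4) (nat_lit 4) (nat_lit 350) (nat_lit 262) (nat_lit 108))) (XT.nd (nat_lit 78) (nat_lit 76) (nat_lit 0) (XT.lf (nat_lit 0) (nat_lit 184092864305) (nat_lit 152) (nat_lit 38746964418) (nat_lit 0) (nat_lit 105448025546) (nat_lit 4) (nat_lit 5) (nat_lit 6) (nat_lit 4) (nat_lit 4) (nat_lit 4) (nat_lit 351) (nat_lit 262) (nat_lit 107)) (XT.nd (nat_lit 78) (nat_lit 76) (nat_lit 0) (XT.lf (nat_lit 0) (nat_lit 203933911096) (nat_lit 152) (nat_lit 14732712309) (nat_lit 0) (nat_lit 125287125474) (nat_lit 4) (nat_lit 5) (nat_lit 6) (nat_lit 4) (nat_lit 4) (nat_lit 4) (nat_lit 352) (nat_lit 262) (nat_lit 106)) (XT.lf (nat_lit 0) (nat_lit 10827549243) (nat_lit 76) (nat_lit 214107806228) (nat_lit 76) (nat_lit 135459166451) (nat_lit 3) (nat_lit 4) (nat_lit 4) (nat_lit 5) (nat_lit 4) (nat_lit 4) (nat_lit 353) (nat_lit 262) (nat_lit 105)))))) (XT.nd (nat_lit 30498) (nat_lit 0) (nat_lit 4788) (XT.nd (nat_lit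 30342) (nat_lit 0) (nat_lit 5396) (XT.nd (nat_lit 78) (nat_lit 0) (nat_lit 0) (XT.lf (nat_lit 0) (nat_lit 66890860167) (nat_lit 76) (nat_lit 203759522493) (nat_lit 76) (nat_lit 125107435082) (nat_lit 3) (nat_lit 4) (nat_lit 4) (nat_lit 5) (nat_lit 4) (nat_lit 4) (nat_lit 355) (nat_lit 262) (nat_lit 103)) (XT.lf (nat_lit 0) (nat_lit 97040263607) (nat_lit 76) (nat_lit 198194922777) (nat_lit 76) (nat_lit 119541233677) (nat_lit 3) (nat_lit 4) (nat_lit 4) (nat_lit 5) (nat_lit 4) (nat_lit 4) (nat_lit 356) (nat_lit 262) (nat_lit 102))) (XT.nd (nat_lit 78) (nat_lit 0) (nat_lit 0) (XT.lf (nat_lit 0) (nat_lit 5574162609) (nat_lit 684) (nat_lit 439974954) (nat_lit 684) (nat_lit 439974954) (nat_lit 74) (nat_lit 3) (nat_lit 83) (nat_lit 3) (nat_lit 83) (nat_lit 5) (nat_lit 263) (nat_lit 263) (nat_lit 194)) (XT.lf (nat_lit 76) (nat_lit 4654657536) (nat_lit 0) (nat_lit 7202070053) (nat_lit 684) (nat_lit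 1351167681) (nat_lit 75) (nat_lit 5) (nat_lit 74) (nat_lit 3) (nat_lit 83) (nat_lit 5) (nat_lit 264) (nat_lit 263) (nat_lit 193)))) (XT.nd (nat_lit 156) (nat_lit 608) (nat_lit 0) (XT.nd (nat_lit 78) (nat_lit 0) (nat_lit 76) (XT.lf (nat_lit 76) (nat_lit 10484098958) (nat_lit 0) (nat_lit 2108305312) (nat_lit 684) (nat_lit 930651302) (nat_lit 75) (nat_lit 5) (nat_lit 74) (nat_lit 3) (nat_lit 83) (nat_lit 5) (nat_lit 265) (nat_lit 263) (nat_lit 192)) (XT.lf (nat_lit 76) (nat_lit 2776100011) (nat_lit 0) (nat_lit 10660902249) (nat_lit 684) (nat_lit 413459291) (nat_lit 76) (nat_lit 5) (nat_lit 75) (nat_lit 5) (nat_lit 84) (nat_lit 5) (nat_lit 266) (nat_lit 263) (nat_lit 191))) (XT.nd (nat_lit 78) (nat_lit 0) (nat_lit 76) (XT.lf (nat_lit 0) (nat_lit 190928054) (nat_lit 684) (nat_lit 5255462032) (nat_lit 760) (nat_lit 8744558149) (nat_lit 66) (nat_lit 5) (nat_lit 75) (nat_lit 5) (nat_lit 76)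 (nat_lit 5) (nat_lit 267) (nat_lit 263) (nat_lit 190)) (XT.nd (nat_lit 78) (nat_lit 0) (nat_lit 0) (XT.lf (nat_lit 0) (nat_lit 805624102) (nat_lit 684) (nat_lit 13687373738) (nat_lit 760) (nat_lit 55504963) (nat_lit 67) (nat_lit 5) (nat_lit 76) (nat_lit 5) (nat_lit 77) (nat_lit 5) (nat_lit 268) (nat_lit 263) (nat_lit 189)) (XT.lf (nat_lit 0) (nat_lit 1611305395) (nat_lit 684) (nat_lit 7558299076) (nat_lit 760) (nat_lit 5746395879) (nat_lit 67) (nat_lit 5) (nat_lit 76) (nat_lit 5) (nat_lit 77) (nat_lit 5) (nat_lit 269) (nat_lit 263) (nat_lit 188))))))))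
noncomputable def xc181 : XT := (XT.nd (nat_lit 1326) (nat_lit 1748) (nat_lit 0) (XT.nd (nat_lit 624) (nat_lit 988) (nat_lit 0) (XT.nd (nat_lit 312) (nat_lit 836) (nat_lit 0) (XT.nd (nat_lit 156) (nat_lit 0) (nat_lit 76) (XT.nd (nat_lit 78) (nat_lit 0) (nat_lit 76) (XT.lf (nat_lit 0) (nat_lit 2438701697) (nat_lit 684) (nat_lit 1136177823) (nat_lit 760) (nat_lit 11727995782) (nat_lit 67) (nat_lit 5) (nat_lit 76) (nat_lit 5) (nat_lit 77) (nat_lit 5) (nat_lit 270) (nat_lit 263) (nat_lit 187)) (XT.lf (nat_lit 0) (nat_lit 3417472186) (nat_lit 684) (nat_lit 9963743150) (nat_lit 760) (nat_lit 2322448989) (nat_lit 68) (nat_lit 5) (nat_lit 77) (nat_lit 5) (nat_lit 78) (nat_lit 5) (nat_lit 271) (nat_lit 263) (nat_lit 186))) (XT.nd (nat_lit 78) (nat_lit 0) (nat_lit 0) (XT.lf (nat_lit 0) (nat_lit 4506374003) (nat_lit 684) (nat_lit 3196731849) (nat_lit 760) (nat_lit 8418394492) (nat_lit 68) (nat_lit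 5) (nat_lit 77) (nat_lit 5) (nat_lit 78) (nat_lit 5) (nat_lit 272) (nat_lit 263) (nat_lit 185)) (XT.lf (nat_lit 76) (nat_lit 4024533784) (nat_lit 0) (nat_lit 1671860484) (nat_lit 760) (nat_lit 10861564215) (nat_lit 69) (nat_lit 5) (nat_lit 68) (nat_lit 5) (nat_lit 78) (nat_lit 5) (nat_lit 273) (nat_lit 263) (nat_lit 184)))) (XT.nd (nat_lit 156) (nat_lit 304) (nat_lit 0) (XT.nd (nat_lit 78) (nat_lit 684) (nat_lit 0) (XT.lf (nat_lit 0) (nat_lit 7058167264) (nat_lit 684) (nat_lit 5382928403) (nat_lit 76) (nat_lit 4569592213) (nat_lit 69) (nat_lit 5) (nat_lit 78) (nat_lit 5) (nat_lit 70) (nat_lit 5) (nat_lit 274) (nat_lit 263) (nat_lit 183)) (XT.lf (nat_lit 0) (nat_lit 2153679359) (nat_lit 684) (nat_lit 6380577840) (nat_lit 760) (nat_lit 8949543171) (nat_lit 60) (nat_lit 5) (nat_lit 69) (nat_lit 5) (nat_lit 70) (nat_lit 5) (nat_lit 275) (nat_lit 263) (nat_lit 182))) (XT.nd (nat_lit 78)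 (nat_lit 304) (nat_lit 0) (XT.lf (nat_lit 0) (nat_lit 10162269160) (nat_lit 760) (nat_lit 7736761254) (nat_lit 76) (nat_lit 77687467) (nat_lit 60) (nat_lit 5) (nat_lit 70) (nat_lit 5) (nat_lit 61) (nat_lit 5) (nat_lit 276) (nat_lit 263) (nat_lit 181)) (XT.lf (nat_lit 0) (nat_lit 122715461) (nat_lit 304) (nat_lit 11841888031) (nat_lit 380) (nat_lit 6525084328) (nat_lit 56) (nat_lit 5) (nat_lit 60) (nat_lit 5) (nat_lit 61) (nat_lit 5) (nat_lit 277) (nat_lit 263) (nat_lit 180))))) (XT.nd (nat_lit 312) (nat_lit 608) (nat_lit 0) (XT.nd (nat_lit 156) (nat_lit 380) (nat_lit 0) (XT.nd (nat_lit 78) (nat_lit 0) (nat_lit 0) (XT.lf (nat_lit 0) (nat_lit 8631097567) (nat_lit 304) (nat_lit 5343838464) (nat_lit 380) (nat_lit 5047526286) (nat_lit 56) (nat_lit 5) (nat_lit 60) (nat_lit 5) (nat_lit 61) (nat_lit 5) (nat_lit 278) (nat_lit 263) (nat_lit 179)) (XT.lf (nat_lit 0) (nat_lit 16096366950) (nat_lit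 380) (nat_lit 2052818499) (nat_lit 76) (nat_lit 1432208748) (nat_lit 56) (nat_lit 5) (nat_lit 61) (nat_lit 5) (nat_lit 57) (nat_lit 5) (nat_lit 279) (nat_lit 263) (nat_lit 178))) (XT.nd (nat_lit 78) (nat_lit 76) (nat_lit 0) (XT.lf (nat_lit 0) (nat_lit 6821231613) (nat_lit 304) (nat_lit 11684824677) (nat_lit 380) (nat_lit 1653152511) (nat_lit 52) (nat_lit 5) (nat_lit 56) (nat_lit 5) (nat_lit 57) (nat_lit 5) (nat_lit 280) (nat_lit 263) (nat_lit 177)) (XT.lf (nat_lit 0) (nat_lit 285233875) (nat_lit 380) (nat_lit 4571088716) (nat_lit 76) (nat_lit 15908243285) (nat_lit 51) (nat_lit 5) (nat_lit 56) (nat_lit 5) (nat_lit 52) (nat_lit 5) (nat_lit 281) (nat_lit 263) (nat_lit 176)))) (XT.nd (nat_lit 156) (nat_lit 304) (nat_lit 0) (XT.nd (nat_lit 78) (nat_lit 0) (nat_lit 0) (XT.lf (nat_lit 0) (nat_lit 2365666529) (nat_lit 380) (nat_lit 16686304953) (nat_lit 76) (nat_lit 2341869375) (nat_lit 47)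 (nat_lit 5) (nat_lit 52) (nat_lit 5) (nat_lit 48) (nat_lit 5) (nat_lit 282) (nat_lit 263) (nat_lit 175)) (XT.lf (nat_lit 0) (nat_lit 4697550845) (nat_lit 380) (nat_lit 7534965191) (nat_lit 76) (nat_lit 9814729462) (nat_lit 47) (nat_lit 5) (nat_lit 52) (nat_lit 5) (nat_lit 48) (nat_lit 5) (nat_lit 283) (nat_lit 263) (nat_lit 174))) (XT.nd (nat_lit 78) (nat_lit 0) (nat_lit 0) (XT.lf (nat_lit 0) (nat_lit 2130546645) (nat_lit 304) (nat_lit 5038399399) (nat_lit 380) (nat_lit 15563264122) (nat_lit 43) (nat_lit 5) (nat_lit 47) (nat_lit 5) (nat_lit 48) (nat_lit 5) (nat_lit 284) (nat_lit 263) (nat_lit 173)) (XT.nd (nat_lit 78) (nat_lit 0) (nat_lit 0) (XT.lf (nat_lit 0) (nat_lit 9922830313) (nat_lit 380) (nat_lit 10957389409) (nat_lit 76) (nat_lit 2563291313) (nat_lit 43) (nat_lit 5) (nat_lit 48) (nat_lit 5) (nat_lit 44) (nat_lit 5) (nat_lit 285) (nat_lit 263) (nat_lit 172)) (XT.lf (nat_lit 0)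 (nat_lit 12887430538) (nat_lit 380) (nat_lit 924844077) (nat_lit 76) (nat_lit 10374483563) (nat_lit 43) (nat_lit 5) (nat_lit 48) (nat_lit 5) (nat_lit 44) (nat_lit 5) (nat_lit 286) (nat_lit 263) (nat_lit 171))))))) (XT.nd (nat_lit 702) (nat_lit 760) (nat_lit 0) (XT.nd (nat_lit 312) (nat_lit 456) (nat_lit 0) (XT.nd (nat_lit 156) (nat_lit 304) (nat_lit 0) (XT.nd (nat_lit 78) (nat_lit 0) (nat_lit 0) (XT.lf (nat_lit 0) (nat_lit 9915893540) (nat_lit 228) (nat_lit 6230063104) (nat_lit 304) (nat_lit 8813957019) (nat_lit 40) (nat_lit 5) (nat_lit 43) (nat_lit 5) (nat_lit 44) (nat_lit 5) (nat_lit 287) (nat_lit 263) (nat_lit 170)) (XT.lf (nat_lit 0) (nat_lit 19601479750) (nat_lit 304) (nat_lit 4478529090) (nat_lit 76) (nat_lit 1690043860) (nat_lit 40) (nat_lit 5) (nat_lit 44) (nat_lit 5) (nat_lit 41) (nat_lit 5) (nat_lit 288) (nat_lit 263) (nat_lit 169))) (XT.nd (nat_lit 78) (nat_lit 76) (nat_lit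 0) (XT.lf (nat_lit 0) (nat_lit 6717560318) (nat_lit 228) (nat_lit 16710775045) (nat_lit 304) (nat_lit 3182463425) (nat_lit 37) (nat_lit 5) (nat_lit 40) (nat_lit 5) (nat_lit 41) (nat_lit 5) (nat_lit 289) (nat_lit 263) (nat_lit 168)) (XT.lf (nat_lit 0) (nat_lit 23171304) (nat_lit 304) (nat_lit 8872040087) (nat_lit 76) (nat_lit 18594997144) (nat_lit 36) (nat_lit 5) (nat_lit 40) (nat_lit 5) (nat_lit 37) (nat_lit 5) (nat_lit 290) (nat_lit 263) (nat_lit 167)))) (XT.nd (nat_lit 156) (nat_lit 228) (nat_lit 0) (XT.nd (nat_lit 78) (nat_lit 0) (nat_lit 0) (XT.lf (nat_lit 0) (nat_lit 2725095319) (nat_lit 228) (nat_lit 591610470) (nat_lit 304) (nat_lit 25092570036) (nat_lit 33) (nat_lit 5) (nat_lit 36) (nat_lit 5) (nat_lit 37) (nat_lit 5) (nat_lit 291) (nat_lit 263) (nat_lit 166)) (XT.lf (nat_lit 0) (nat_lit 7046732041) (nat_lit 304) (nat_lit 14296413035) (nat_lit 76) (nat_lit 8017583619) (nat_lit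 33) (nat_lit 5) (nat_lit 37) (nat_lit 5) (nat_lit 34) (nat_lit 5) (nat_lit 292) (nat_lit 263) (nat_lit 165))) (XT.nd (nat_lit 78) (nat_lit 228) (nat_lit 0) (XT.lf (nat_lit 0) (nat_lit 10965540699) (nat_lit 304) (nat_lit 2358844108) (nat_lit 76) (nat_lit 17035277221) (nat_lit 33) (nat_lit 5) (nat_lit 37) (nat_lit 5) (nat_lit 34) (nat_lit 5) (nat_lit 293) (nat_lit 263) (nat_lit 164)) (XT.nd (nat_lit 78) (nat_lit 0) (nat_lit 0) (XT.lf (nat_lit 0) (nat_lit 10502325768) (nat_lit 228) (nat_lit 4734870532) (nat_lit 304) (nat_lit 16163521233) (nat_lit 30) (nat_lit 5) (nat_lit 33) (nat_lit 5) (nat_lit 34) (nat_lit 5) (nat_lit 294) (nat_lit 263) (nat_lit 163)) (XT.lf (nat_lit 0) (nat_lit 19823014985) (nat_lit 304) (nat_lit 8480514241) (nat_lit 76) (nat_lit 4185287412) (nat_lit 30) (nat_lit 5) (nat_lit 34) (nat_lit 5) (nat_lit 31) (nat_lit 5) (nat_lit 295) (nat_lit 263) (nat_lit 162)))))) (XT.nd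 (nat_lit 312) (nat_lit 304) (nat_lit 0) (XT.nd (nat_lit 156) (nat_lit 304) (nat_lit 0) (XT.nd (nat_lit 78) (nat_lit 0) (nat_lit 0) (XT.lf (nat_lit 0) (nat_lit 4619349392) (nat_lit 152) (nat_lit 20161936211) (nat_lit 228) (nat_lit 8842895941) (nat_lit 28) (nat_lit 5) (nat_lit 30) (nat_lit 5) (nat_lit 31) (nat_lit 5) (nat_lit 296) (nat_lit 263) (nat_lit 161)) (XT.lf (nat_lit 0) (nat_lit 18659642883) (nat_lit 152) (nat_lit 11465040711) (nat_lit 228) (nat_lit 4684788404) (nat_lit 28) (nat_lit 5) (nat_lit 30) (nat_lit 5) (nat_lit 31) (nat_lit 5) (nat_lit 297) (nat_lit 263) (nat_lit 160))) (XT.nd (nat_lit 78) (nat_lit 304) (nat_lit 0) (XT.lf (nat_lit 0) (nat_lit 33393391402) (nat_lit 152) (nat_lit 2335757446) (nat_lit 228) (nat_lit 325200398) (nat_lit 28) (nat_lit 5) (nat_lit 30) (nat_lit 5) (nat_lit 31) (nat_lit 5) (nat_lit 298) (nat_lit 263) (nat_lit 159)) (XT.lf (nat_lit 0) (nat_lit 4411922277)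 (nat_lit 304) (nat_lit 25661060874) (nat_lit 76) (nat_lit 7270400302) (nat_lit 24) (nat_lit 5) (nat_lit 28) (nat_lit 5) (nat_lit 25) (nat_lit 5) (nat_lit 299) (nat_lit 263) (nat_lit 158)))) (XT.nd (nat_lit 156) (nat_lit 152) (nat_lit 0) (XT.nd (nat_lit 78) (nat_lit 152) (nat_lit 0) (XT.lf (nat_lit 0) (nat_lit 9453258774) (nat_lit 304) (nat_lit 11912321123) (nat_lit 76) (nat_lit 17327123394) (nat_lit 24) (nat_lit 5) (nat_lit 28) (nat_lit 5) (nat_lit 25) (nat_lit 5) (nat_lit 300) (nat_lit 263) (nat_lit 157)) (XT.lf (nat_lit 0) (nat_lit 2598949239) (nat_lit 152) (nat_lit 12182758380) (nat_lit 228) (nat_lit 25326043324) (nat_lit 22) (nat_lit 5) (nat_lit 24) (nat_lit 5) (nat_lit 25) (nat_lit 5) (nat_lit 301) (nat_lit 263) (nat_lit 156))) (XT.nd (nat_lit 78) (nat_lit 152) (nat_lit 0) (XT.lf (nat_lit 0) (nat_lit 18241393498) (nat_lit 152) (nat_lit 2331534118) (nat_lit 228) (nat_lit 21010819356)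 (nat_lit 22) (nat_lit 5) (nat_lit 24) (nat_lit 5) (nat_lit 25) (nat_lit 5) (nat_lit 302) (nat_lit 263) (nat_lit 155)) (XT.nd (nat_lit 78) (nat_lit 152) (nat_lit 0) (XT.lf (nat_lit 0) (nat_lit 26773628712) (nat_lit 228) (nat_lit 8600487470) (nat_lit 76) (nat_lit 7753443406) (nat_lit 22) (nat_lit 5) (nat_lit 25) (nat_lit 5) (nat_lit 23) (nat_lit 5) (nat_lit 303) (nat_lit 263) (nat_lit 154)) (XT.lf (nat_lit 0) (nat_lit 7058734563) (nat_lit 152) (nat_lit 26369131558) (nat_lit 228) (nat_lit 11313533828) (nat_lit 20) (nat_lit 5) (nat_lit 22) (nat_lit 5) (nat_lit 23) (nat_lit 5) (nat_lit 304) (nat_lit 263) (nat_lit 153))))))))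
noncomputable def xc182 : XT := (XT.nd (nat_lit 1326) (nat_lit 380) (nat_lit 0) (XT.nd (nat_lit 624) (nat_lit 380) (nat_lit 0) (XT.nd (nat_lit 312) (nat_lit 152) (nat_lit 0) (XT.nd (nat_lit 156) (nat_lit 228) (nat_lit 0) (XT.nd (nat_lit 78) (nat_lit 0) (nat_lit 0) (XT.lf (nat_lit 0) (nat_lit 23792188198) (nat_lit 152) (nat_lit 16763473741) (nat_lit 228) (nat_lit 5873239663) (nat_lit 20) (nat_lit 5) (nat_lit 22) (nat_lit 5) (nat_lit 23) (nat_lit 5) (nat_lit 305) (nat_lit 263) (nat_lit 152)) (XT.lf (nat_lit 0) (nat_lit 41355344033) (nat_lit 152) (nat_lit 6679925536) (nat_lit 228) (nat_lit 165748716) (nat_lit 20) (nat_lit 5) (nat_lit 22) (nat_lit 5) (nat_lit 23) (nat_lit 5) (nat_lit 306) (nat_lit 263) (nat_lit 151))) (XT.nd (nat_lit 78) (nat_lit 0) (nat_lit 0) (XT.lf (nat_lit 0) (nat_lit 5856623372) (nat_lit 228) (nat_lit 40158875397) (nat_lit 76) (nat_lit 4030902636) (nat_lit 17) (nat_lit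 5) (nat_lit 20) (nat_lit 5) (nat_lit 18) (nat_lit 5) (nat_lit 307) (nat_lit 263) (nat_lit 150)) (XT.lf (nat_lit 0) (nat_lit 12397514944) (nat_lit 228) (nat_lit 24404204434) (nat_lit 76) (nat_lit 15171059430) (nat_lit 17) (nat_lit 5) (nat_lit 20) (nat_lit 5) (nat_lit 18) (nat_lit 5) (nat_lit 308) (nat_lit 263) (nat_lit 149)))) (XT.nd (nat_lit 156) (nat_lit 0) (nat_lit 0) (XT.nd (nat_lit 78) (nat_lit 152) (nat_lit 0) (XT.lf (nat_lit 0) (nat_lit 19261288021) (nat_lit 228) (nat_lit 7868347914) (nat_lit 76) (nat_lit 26866056390) (nat_lit 17) (nat_lit 5) (nat_lit 20) (nat_lit 5) (nat_lit 18) (nat_lit 5) (nat_lit 309) (nat_lit 263) (nat_lit 148)) (XT.lf (nat_lit 0) (nat_lit 9801783537) (nat_lit 152) (nat_lit 16815534690) (nat_lit 228) (nat_lit 29494988522) (nat_lit 15) (nat_lit 5) (nat_lit 17) (nat_lit 5) (nat_lit 18) (nat_lit 5) (nat_lit 310) (nat_lit 263) (nat_lit 147))) (XT.nd (nat_lit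 78) (nat_lit 0) (nat_lit 0) (XT.lf (nat_lit 0) (nat_lit 28622457237) (nat_lit 152) (nat_lit 5848075161) (nat_lit 228) (nat_lit 23857758617) (nat_lit 15) (nat_lit 5) (nat_lit 17) (nat_lit 5) (nat_lit 18) (nat_lit 5) (nat_lit 311) (nat_lit 263) (nat_lit 146)) (XT.lf (nat_lit 0) (nat_lit 42801175740) (nat_lit 228) (nat_lit 12365401440) (nat_lit 76) (nat_lit 5484266743) (nat_lit 15) (nat_lit 5) (nat_lit 18) (nat_lit 5) (nat_lit 16) (nat_lit 4) (nat_lit 312) (nat_lit 263) (nat_lit 145))))) (XT.nd (nat_lit 312) (nat_lit 228) (nat_lit 0) (XT.nd (nat_lit 156) (nat_lit 76) (nat_lit 0) (XT.nd (nat_lit 78) (nat_lit 0) (nat_lit 0) (XT.lf (nat_lit 0) (nat_lit 5930271988) (nat_lit 76) (nat_lit 45802993592) (nat_lit 152) (nat_lit 11347020657) (nat_lit 14) (nat_lit 5) (nat_lit 15) (nat_lit 5) (nat_lit 16) (nat_lit 4) (nat_lit 313) (nat_lit 263) (nat_lit 144)) (XT.lf (nat_lit 0) (nat_lit 25564403921)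 (nat_lit 76) (nat_lit 35753507083) (nat_lit 152) (nat_lit 4302999231) (nat_lit 14) (nat_lit 5) (nat_lit 15) (nat_lit 5) (nat_lit 16) (nat_lit 4) (nat_lit 314) (nat_lit 263) (nat_lit 143))) (XT.nd (nat_lit 78) (nat_lit 0) (nat_lit 0) (XT.lf (nat_lit 0) (nat_lit 2990862109) (nat_lit 152) (nat_lit 22162090553) (nat_lit 76) (nat_lit 43133372470) (nat_lit 13) (nat_lit 5) (nat_lit 15) (nat_lit 5) (nat_lit 14) (nat_lit 5) (nat_lit 315) (nat_lit 263) (nat_lit 142)) (XT.lf (nat_lit 0) (nat_lit 10501608769) (nat_lit 152) (nat_lit 3448708012) (nat_lit 76) (nat_lit 57131333033) (nat_lit 13) (nat_lit 5) (nat_lit 15) (nat_lit 5) (nat_lit 14) (nat_lit 5) (nat_lit 316) (nat_lit 263) (nat_lit 141)))) (XT.nd (nat_lit 156) (nat_lit 76) (nat_lit 0) (XT.nd (nat_lit 78) (nat_lit 0) (nat_lit 0) (XT.lf (nat_lit 0) (nat_lit 16730871224) (nat_lit 152) (nat_lit 1915190891) (nat_lit 228) (nat_lit 55357776007)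 (nat_lit 11) (nat_lit 5) (nat_lit 13) (nat_lit 5) (nat_lit 14) (nat_lit 5) (nat_lit 317) (nat_lit 263) (nat_lit 140)) (XT.lf (nat_lit 0) (nat_lit 27421489379) (nat_lit 228) (nat_lit 39203417313) (nat_lit 76) (nat_lit 10436047172) (nat_lit 11) (nat_lit 5) (nat_lit 14) (nat_lit 5) (nat_lit 12) (nat_lit 4) (nat_lit 318) (nat_lit 263) (nat_lit 139))) (XT.nd (nat_lit 78) (nat_lit 76) (nat_lit 0) (XT.lf (nat_lit 0) (nat_lit 36664220381) (nat_lit 228) (nat_lit 20266557682) (nat_lit 76) (nat_lit 23338726023) (nat_lit 11) (nat_lit 5) (nat_lit 14) (nat_lit 5) (nat_lit 12) (nat_lit 4) (nat_lit 319) (nat_lit 263) (nat_lit 138)) (XT.nd (nat_lit 78) (nat_lit 76) (nat_lit 0) (XT.lf (nat_lit 0) (nat_lit 46366360127) (nat_lit 228) (nat_lit 387398748) (nat_lit 76) (nat_lit 36884864396) (nat_lit 11) (nat_lit 5) (nat_lit 14) (nat_lit 5) (nat_lit 12) (nat_lit 4) (nat_lit 320) (nat_lit 263) (nat_lit 137))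 (XT.lf (nat_lit 0) (nat_lit 21158598096) (nat_lit 76) (nat_lit 35722755868) (nat_lit 152) (nat_lit 30278461917) (nat_lit 10) (nat_lit 5) (nat_lit 11) (nat_lit 5) (nat_lit 12) (nat_lit 4) (nat_lit 321) (nat_lit 263) (nat_lit 136))))))) (XT.nd (nat_lit 702) (nat_lit 152) (nat_lit 0) (XT.nd (nat_lit 312) (nat_lit 76) (nat_lit 0) (XT.nd (nat_lit 156) (nat_lit 152) (nat_lit 0) (XT.nd (nat_lit 78) (nat_lit 0) (nat_lit 0) (XT.lf (nat_lit 0) (nat_lit 43791086875) (nat_lit 76) (nat_lit 24135030730) (nat_lit 152) (nat_lit 22930754100) (nat_lit 10) (nat_lit 5) (nat_lit 11) (nat_lit 5) (nat_lit 12) (nat_lit 4) (nat_lit 322) (nat_lit 263) (nat_lit 135)) (XT.lf (nat_lit 0) (nat_lit 67551145314) (nat_lit 76) (nat_lit 11969554426) (nat_lit 152) (nat_lit 15218205937) (nat_lit 10) (nat_lit 5) (nat_lit 11) (nat_lit 5) (nat_lit 12) (nat_lit 4) (nat_lit 323) (nat_lit 263) (nat_lit 134))) (XT.nd (nat_lit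 78) (nat_lit 152) (nat_lit 0) (XT.lf (nat_lit 0) (nat_lit 91705237955) (nat_lit 152) (nat_lit 6332347190) (nat_lit 0) (nat_lit 776949019) (nat_lit 10) (nat_lit 5) (nat_lit 12) (nat_lit 4) (nat_lit 10) (nat_lit 4) (nat_lit 324) (nat_lit 263) (nat_lit 133)) (XT.lf (nat_lit 0) (nat_lit 1809168339) (nat_lit 152) (nat_lit 87227125794) (nat_lit 76) (nat_lit 14034102873) (nat_lit 8) (nat_lit 5) (nat_lit 10) (nat_lit 5) (nat_lit 9) (nat_lit 4) (nat_lit 325) (nat_lit 263) (nat_lit 132)))) (XT.nd (nat_lit 156) (nat_lit 76) (nat_lit 0) (XT.nd (nat_lit 78) (nat_lit 0) (nat_lit 0) (XT.lf (nat_lit 0) (nat_lit 11041427175) (nat_lit 152) (nat_lit 68308263705) (nat_lit 76) (nat_lit 28178198913) (nat_lit 8) (nat_lit 5) (nat_lit 10) (nat_lit 5) (nat_lit 9) (nat_lit 4) (nat_lit 326) (nat_lit 263) (nat_lit 131)) (XT.lf (nat_lit 0) (nat_lit 20733194775) (nat_lit 152) (nat_lit 48447062531) (nat_lit 76) (nat_lit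 43028108548) (nat_lit 8) (nat_lit 5) (nat_lit 10) (nat_lit 5) (nat_lit 9) (nat_lit 4) (nat_lit 327) (nat_lit 263) (nat_lit 130))) (XT.nd (nat_lit 78) (nat_lit 76) (nat_lit 0) (XT.lf (nat_lit 0) (nat_lit 30907546776) (nat_lit 152) (nat_lit 27596233696) (nat_lit 76) (nat_lit 58619188706) (nat_lit 8) (nat_lit 5) (nat_lit 10) (nat_lit 5) (nat_lit 9) (nat_lit 4) (nat_lit 328) (nat_lit 263) (nat_lit 129)) (XT.nd (nat_lit 78) (nat_lit 76) (nat_lit 0) (XT.lf (nat_lit 0) (nat_lit 41588707825) (nat_lit 152) (nat_lit 5706132372) (nat_lit 76) (nat_lit 74988561007) (nat_lit 8) (nat_lit 5) (nat_lit 10) (nat_lit 5) (nat_lit 9) (nat_lit 4) (nat_lit 329) (nat_lit 263) (nat_lit 128)) (XT.lf (nat_lit 0) (nat_lit 17846562174) (nat_lit 76) (nat_lit 35234181934) (nat_lit 152) (nat_lit 74607272824) (nat_lit 7) (nat_lit 5) (nat_lit 8) (nat_lit 5) (nat_lit 9) (nat_lit 4) (nat_lit 330) (nat_lit 263) (nat_lit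 127)))))) (XT.nd (nat_lit 312) (nat_lit 152) (nat_lit 0) (XT.nd (nat_lit 156) (nat_lit 0) (nat_lit 0) (XT.nd (nat_lit 78) (nat_lit 0) (nat_lit 0) (XT.lf (nat_lit 0) (nat_lit 42771932407) (nat_lit 76) (nat_lit 22470306976) (nat_lit 152) (nat_lit 68115884022) (nat_lit 7) (nat_lit 5) (nat_lit 8) (nat_lit 5) (nat_lit 9) (nat_lit 4) (nat_lit 331) (nat_lit 263) (nat_lit 126)) (XT.lf (nat_lit 0) (nat_lit 68940653940) (nat_lit 76) (nat_lit 9069461258) (nat_lit 152) (nat_lit 61301707400) (nat_lit 7) (nat_lit 5) (nat_lit 8) (nat_lit 5) (nat_lit 9) (nat_lit 4) (nat_lit 332) (nat_lit 263) (nat_lit 125))) (XT.nd (nat_lit 78) (nat_lit 0) (nat_lit 0) (XT.lf (nat_lit 0) (nat_lit 91492839358) (nat_lit 152) (nat_lit 49226324834) (nat_lit 0) (nat_lit 4840222385) (nat_lit 7) (nat_lit 5) (nat_lit 9) (nat_lit 4) (nat_lit 7) (nat_lit 4) (nat_lit 333) (nat_lit 263) (nat_lit 124)) (XT.lf (nat_lit 0) (nat_lit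 105796825389) (nat_lit 152) (nat_lit 27175626460) (nat_lit 0) (nat_lit 19139523058) (nat_lit 7) (nat_lit 5) (nat_lit 9) (nat_lit 4) (nat_lit 7) (nat_lit 4) (nat_lit 334) (nat_lit 263) (nat_lit 123)))) (XT.nd (nat_lit 156) (nat_lit 76) (nat_lit 0) (XT.nd (nat_lit 78) (nat_lit 76) (nat_lit 0) (XT.lf (nat_lit 0) (nat_lit 120814530692) (nat_lit 152) (nat_lit 4024972165) (nat_lit 0) (nat_lit 34152766117) (nat_lit 7) (nat_lit 5) (nat_lit 9) (nat_lit 4) (nat_lit 7) (nat_lit 4) (nat_lit 335) (nat_lit 263) (nat_lit 122)) (XT.lf (nat_lit 0) (nat_lit 20951332125) (nat_lit 76) (nat_lit 115957488593) (nat_lit 76) (nat_lit 29291474261) (nat_lit 6) (nat_lit 4) (nat_lit 7) (nat_lit 5) (nat_lit 7) (nat_lit 4) (nat_lit 336) (nat_lit 263) (nat_lit 121))) (XT.nd (nat_lit 78) (nat_lit 76) (nat_lit 0) (XT.lf (nat_lit 0) (nat_lit 47313773004) (nat_lit 76) (nat_lit 106560836934) (nat_lit 76) (nat_lit 19890775215)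 (nat_lit 6) (nat_lit 4) (nat_lit 7) (nat_lit 5) (nat_lit 7) (nat_lit 4) (nat_lit 337) (nat_lit 263) (nat_lit 120)) (XT.nd (nat_lit 78) (nat_lit 76) (nat_lit 0) (XT.lf (nat_lit 0) (nat_lit 74992034428) (nat_lit 76) (nat_lit 96695339753) (nat_lit 76) (nat_lit 10021423379) (nat_lit 6) (nat_lit 4) (nat_lit 7) (nat_lit 5) (nat_lit 7) (nat_lit 4) (nat_lit 338) (nat_lit 263) (nat_lit 119)) (XT.lf (nat_lit 0) (nat_lit 329195028) (nat_lit 152) (nat_lit 86002737665) (nat_lit 76) (nat_lit 103717246915) (nat_lit 5) (nat_lit 5) (nat_lit 7) (nat_lit 5) (nat_lit 6) (nat_lit 4) (nat_lit 339) (nat_lit 263) (nat_lit 118))))))))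
noncomputable def xc183 : XT := (XT.nd (nat_lit 31746) (nat_lit 0) (nat_lit 3344) (XT.nd (nat_lit 624) (nat_lit 76) (nat_lit 0) (XT.nd (nat_lit 312) (nat_lit 0) (nat_lit 0) (XT.nd (nat_lit 156) (nat_lit 76) (nat_lit 0) (XT.nd (nat_lit 78) (nat_lit 0) (nat_lit 0) (XT.lf (nat_lit 0) (nat_lit 10859345279) (nat_lit 152) (nat_lit 64419425935) (nat_lit 76) (nat_lit 123519657669) (nat_lit 5) (nat_lit 5) (nat_lit 7) (nat_lit 5) (nat_lit 6) (nat_lit 4) (nat_lit 340) (nat_lit 263) (nat_lit 117)) (XT.lf (nat_lit 0) (nat_lit 21914847294) (nat_lit 152) (nat_lit 41758976601) (nat_lit 76) (nat_lit 144311376163) (nat_lit 5) (nat_lit 5) (nat_lit 7) (nat_lit 5) (nat_lit 6) (nat_lit 4) (nat_lit 341) (nat_lit 263) (nat_lit 116))) (XT.nd (nat_lit 78) (nat_lit 76) (nat_lit 0) (XT.lf (nat_lit 0) (nat_lit 33522023695) (nat_lit 152) (nat_lit 17967436212) (nat_lit 76) (nat_lit 166141906488) (nat_lit 5) (nat_lit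 5) (nat_lit 7) (nat_lit 5) (nat_lit 6) (nat_lit 4) (nat_lit 342) (nat_lit 263) (nat_lit 115)) (XT.lf (nat_lit 0) (nat_lit 7243684910) (nat_lit 76) (nat_lit 38577919929) (nat_lit 152) (nat_lit 181932635410) (nat_lit 4) (nat_lit 5) (nat_lit 5) (nat_lit 5) (nat_lit 6) (nat_lit 4) (nat_lit 343) (nat_lit 263) (nat_lit 114)))) (XT.nd (nat_lit 156) (nat_lit 0) (nat_lit 0) (XT.nd (nat_lit 78) (nat_lit 0) (nat_lit 0) (XT.lf (nat_lit 0) (nat_lit 34337341131) (nat_lit 76) (nat_lit 24702084500) (nat_lit 152) (nat_lit 179328670558) (nat_lit 4) (nat_lit 5) (nat_lit 5) (nat_lit 5) (nat_lit 6) (nat_lit 4) (nat_lit 344) (nat_lit 263) (nat_lit 113)) (XT.lf (nat_lit 0) (nat_lit 62783956571) (nat_lit 76) (nat_lit 10133203143) (nat_lit 152) (nat_lit 176595535454) (nat_lit 4) (nat_lit 5) (nat_lit 5) (nat_lit 5) (nat_lit 6) (nat_lit 4) (nat_lit 345) (nat_lit 263) (nat_lit 112))) (XT.nd (nat_lit 78) (nat_lit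 0) (nat_lit 0) (XT.lf (nat_lit 0) (nat_lit 87568464645) (nat_lit 152) (nat_lit 168643926012) (nat_lit 0) (nat_lit 4998150524) (nat_lit 4) (nat_lit 5) (nat_lit 6) (nat_lit 4) (nat_lit 4) (nat_lit 4) (nat_lit 346) (nat_lit 263) (nat_lit 111)) (XT.lf (nat_lit 0) (nat_lit 103117555497) (nat_lit 152) (nat_lit 149822589240) (nat_lit 0) (nat_lit 20544874953) (nat_lit 4) (nat_lit 5) (nat_lit 6) (nat_lit 4) (nat_lit 4) (nat_lit 4) (nat_lit 347) (nat_lit 263) (nat_lit 110))))) (XT.nd (nat_lit 312) (nat_lit 76) (nat_lit 0) (XT.nd (nat_lit 156) (nat_lit 0) (nat_lit 0) (XT.nd (nat_lit 78) (nat_lit 0) (nat_lit 0) (XT.lf (nat_lit 0) (nat_lit 119443246218) (nat_lit 152) (nat_lit 130061707875) (nat_lit 0) (nat_lit 36868311936) (nat_lit 4) (nat_lit 5) (nat_lit 6) (nat_lit 4) (nat_lit 4) (nat_lit 4) (nat_lit 348) (nat_lit 263) (nat_lit 109)) (XT.lf (nat_lit 0) (nat_lit 136584407498) (nat_lit 152) (nat_lit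 109314232201) (nat_lit 0) (nat_lit 54007326801) (nat_lit 4) (nat_lit 5) (nat_lit 6) (nat_lit 4) (nat_lit 4) (nat_lit 4) (nat_lit 349) (nat_lit 263) (nat_lit 108))) (XT.nd (nat_lit 78) (nat_lit 0) (nat_lit 0) (XT.lf (nat_lit 0) (nat_lit 154581851627) (nat_lit 152) (nat_lit 87530763465) (nat_lit 0) (nat_lit 72002726724) (nat_lit 4) (nat_lit 5) (nat_lit 6) (nat_lit 4) (nat_lit 4) (nat_lit 4) (nat_lit 350) (nat_lit 263) (nat_lit 107)) (XT.lf (nat_lit 0) (nat_lit 173478429663) (nat_lit 152) (nat_lit 64659436266) (nat_lit 0) (nat_lit 90897357897) (nat_lit 4) (nat_lit 5) (nat_lit 6) (nat_lit 4) (nat_lit 4) (nat_lit 4) (nat_lit 351) (nat_lit 263) (nat_lit 106)))) (XT.nd (nat_lit 234) (nat_lit 76) (nat_lit 0) (XT.nd (nat_lit 78) (nat_lit 0) (nat_lit 0) (XT.lf (nat_lit 0) (nat_lit 193319133457) (nat_lit 152) (nat_lit 40645795063) (nat_lit 0) (nat_lit 110736207536) (nat_lit 4) (nat_lit 5) (nat_lit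 6) (nat_lit 4) (nat_lit 4) (nat_lit 4) (nat_lit 352) (nat_lit 263) (nat_lit 105)) (XT.lf (nat_lit 0) (nat_lit 214151202780) (nat_lit 152) (nat_lit 15432664519) (nat_lit 0) (nat_lit 131566510998) (nat_lit 4) (nat_lit 5) (nat_lit 6) (nat_lit 4) (nat_lit 4) (nat_lit 4) (nat_lit 353) (nat_lit 263) (nat_lit 104))) (XT.nd (nat_lit 30420) (nat_lit 0) (nat_lit 5396) (XT.lf (nat_lit 0) (nat_lit 40119255216) (nat_lit 76) (nat_lit 219497435958) (nat_lit 76) (nat_lit 136909460715) (nat_lit 3) (nat_lit 4) (nat_lit 4) (nat_lit 5) (nat_lit 4) (nat_lit 4) (nat_lit 355) (nat_lit 263) (nat_lit 102)) (XT.nd (nat_lit 78) (nat_lit 0) (nat_lit 0) (XT.lf (nat_lit 0) (nat_lit 6204318618) (nat_lit 684) (nat_lit 276700332) (nat_lit 684) (nat_lit 276700332) (nat_lit 74) (nat_lit 3) (nat_lit 83) (nat_lit 3) (nat_lit 83) (nat_lit 5) (nat_lit 264) (nat_lit 264) (nat_lit 192)) (XT.lf (nat_lit 76) (nat_lit 5251960593)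 (nat_lit 0) (nat_lit 7872719870) (nat_lit 684) (nat_lit 706946190) (nat_lit 75) (nat_lit 5) (nat_lit 74) (nat_lit 3) (nat_lit 83) (nat_lit 5) (nat_lit 265) (nat_lit 264) (nat_lit 191))))))) (XT.nd (nat_lit 702) (nat_lit 1444) (nat_lit 0) (XT.nd (nat_lit 312) (nat_lit 0) (nat_lit 76) (XT.nd (nat_lit 156) (nat_lit 0) (nat_lit 0) (XT.nd (nat_lit 78) (nat_lit 608) (nat_lit 0) (XT.lf (nat_lit 76) (nat_lit 11355513601) (nat_lit 0) (nat_lit 2509478972) (nat_lit 684) (nat_lit 299298272) (nat_lit 75) (nat_lit 5) (nat_lit 74) (nat_lit 3) (nat_lit 83) (nat_lit 5) (nat_lit 266) (nat_lit 264) (nat_lit 190)) (XT.lf (nat_lit 0) (nat_lit 206272958) (nat_lit 684) (nat_lit 11217567682) (nat_lit 760) (nat_lit 3085645718) (nat_lit 66) (nat_lit 5) (nat_lit 75) (nat_lit 5) (nat_lit 76) (nat_lit 5) (nat_lit 267) (nat_lit 264) (nat_lit 189))) (XT.nd (nat_lit 78) (nat_lit 0) (nat_lit 0) (XT.lf (nat_lit 0) (nat_lit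 797150906) (nat_lit 684) (nat_lit 5133726644) (nat_lit 760) (nat_lit 8937392220) (nat_lit 66) (nat_lit 5) (nat_lit 75) (nat_lit 5) (nat_lit 76) (nat_lit 5) (nat_lit 268) (nat_lit 264) (nat_lit 188)) (XT.lf (nat_lit 76) (nat_lit 1283479262) (nat_lit 0) (nat_lit 135655754) (nat_lit 760) (nat_lit 13825853294) (nat_lit 67) (nat_lit 5) (nat_lit 66) (nat_lit 5) (nat_lit 76) (nat_lit 5) (nat_lit 269) (nat_lit 264) (nat_lit 187)))) (XT.nd (nat_lit 156) (nat_lit 0) (nat_lit 76) (XT.nd (nat_lit 78) (nat_lit 0) (nat_lit 0) (XT.lf (nat_lit 0) (nat_lit 2235786612) (nat_lit 684) (nat_lit 7543498466) (nat_lit 760) (nat_lit 5853149830) (nat_lit 67) (nat_lit 5) (nat_lit 76) (nat_lit 5) (nat_lit 77) (nat_lit 5) (nat_lit 270) (nat_lit 264) (nat_lit 186)) (XT.lf (nat_lit 0) (nat_lit 3078651969) (nat_lit 684) (nat_lit 818971892) (nat_lit 760) (nat_lit 12142428101) (nat_lit 67) (nat_lit 5) (nat_lit 76) (nat_lit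 5) (nat_lit 77) (nat_lit 5) (nat_lit 271) (nat_lit 264) (nat_lit 185))) (XT.nd (nat_lit 78) (nat_lit 0) (nat_lit 0) (XT.lf (nat_lit 0) (nat_lit 4085391822) (nat_lit 684) (nat_lit 10064978376) (nat_lit 760) (nat_lit 2311657093) (nat_lit 68) (nat_lit 5) (nat_lit 77) (nat_lit 5) (nat_lit 78) (nat_lit 5) (nat_lit 272) (nat_lit 264) (nat_lit 184)) (XT.nd (nat_lit 78) (nat_lit 0) (nat_lit 0) (XT.lf (nat_lit 0) (nat_lit 5205069872) (nat_lit 684) (nat_lit 2978518983) (nat_lit 760) (nat_lit 8718443411) (nat_lit 68) (nat_lit 5) (nat_lit 77) (nat_lit 5) (nat_lit 78) (nat_lit 5) (nat_lit 273) (nat_lit 264) (nat_lit 183)) (XT.lf (nat_lit 76) (nat_lit 4597712360) (nat_lit 0) (nat_lit 1840144231) (nat_lit 760) (nat_lit 10923382697) (nat_lit 69) (nat_lit 5) (nat_lit 68) (nat_lit 5) (nat_lit 78) (nat_lit 5) (nat_lit 274) (nat_lit 264) (nat_lit 182)))))) (XT.nd (nat_lit 312) (nat_lit 684) (nat_lit 0)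 (XT.nd (nat_lit 156) (nat_lit 304) (nat_lit 0) (XT.nd (nat_lit 78) (nat_lit 684) (nat_lit 0) (XT.lf (nat_lit 0) (nat_lit 7844714056) (nat_lit 684) (nat_lit 5273130762) (nat_lit 76) (nat_lit 4719995546) (nat_lit 69) (nat_lit 5) (nat_lit 78) (nat_lit 5) (nat_lit 70) (nat_lit 5) (nat_lit 275) (nat_lit 264) (nat_lit 181)) (XT.lf (nat_lit 0) (nat_lit 2634195387) (nat_lit 684) (nat_lit 6745584605) (nat_lit 760) (nat_lit 8955650864) (nat_lit 60) (nat_lit 5) (nat_lit 69) (nat_lit 5) (nat_lit 70) (nat_lit 5) (nat_lit 276) (nat_lit 264) (nat_lit 180))) (XT.nd (nat_lit 78) (nat_lit 304) (nat_lit 0) (XT.lf (nat_lit 0) (nat_lit 11068565561) (nat_lit 760) (nat_lit 7746352234) (nat_lit 76) (nat_lit 39184894) (nat_lit 60) (nat_lit 5) (nat_lit 70) (nat_lit 5) (nat_lit 61) (nat_lit 5) (nat_lit 277) (nat_lit 264) (nat_lit 179)) (XT.lf (nat_lit 0) (nat_lit 500013686) (nat_lit 304) (nat_lit 12447836717)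 (nat_lit 380) (nat_lit 6445602458) (nat_lit 56) (nat_lit 5) (nat_lit 60) (nat_lit 5) (nat_lit 61) (nat_lit 5) (nat_lit 278) (nat_lit 264) (nat_lit 178)))) (XT.nd (nat_lit 156) (nat_lit 684) (nat_lit 0) (XT.nd (nat_lit 78) (nat_lit 0) (nat_lit 0) (XT.lf (nat_lit 0) (nat_lit 9416140494) (nat_lit 304) (nat_lit 5624224944) (nat_lit 380) (nat_lit 4913487280) (nat_lit 56) (nat_lit 5) (nat_lit 60) (nat_lit 5) (nat_lit 61) (nat_lit 5) (nat_lit 279) (nat_lit 264) (nat_lit 177)) (XT.lf (nat_lit 0) (nat_lit 17250210633) (nat_lit 380) (nat_lit 1799814883) (nat_lit 76) (nat_lit 1491655139) (nat_lit 56) (nat_lit 5) (nat_lit 61) (nat_lit 5) (nat_lit 57) (nat_lit 5) (nat_lit 280) (nat_lit 264) (nat_lit 176))) (XT.nd (nat_lit 78) (nat_lit 380) (nat_lit 0) (XT.lf (nat_lit 0) (nat_lit 7512201532) (nat_lit 304) (nat_lit 12257025704) (nat_lit 380) (nat_lit 1379780041) (nat_lit 52) (nat_lit 5) (nat_lit 56)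 (nat_lit 5) (nat_lit 57) (nat_lit 5) (nat_lit 281) (nat_lit 264) (nat_lit 175)) (XT.nd (nat_lit 78) (nat_lit 304) (nat_lit 0) (XT.lf (nat_lit 0) (nat_lit 627719291) (nat_lit 380) (nat_lit 4454393938) (nat_lit 76) (nat_lit 16703119136) (nat_lit 51) (nat_lit 5) (nat_lit 56) (nat_lit 5) (nat_lit 52) (nat_lit 5) (nat_lit 282) (nat_lit 264) (nat_lit 174)) (XT.lf (nat_lit 0) (nat_lit 2802187342) (nat_lit 380) (nat_lit 17164288924) (nat_lit 76) (nat_lit 2480048933) (nat_lit 47) (nat_lit 5) (nat_lit 52) (nat_lit 5) (nat_lit 48) (nat_lit 5) (nat_lit 283) (nat_lit 264) (nat_lit 173))))))))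
noncomputable def xc184 : XT := (XT.nd (nat_lit 1326) (nat_lit 988) (nat_lit 0) (XT.nd (nat_lit 624) (nat_lit 912) (nat_lit 0) (XT.nd (nat_lit 312) (nat_lit 532) (nat_lit 0) (XT.nd (nat_lit 156) (nat_lit 0) (nat_lit 0) (XT.nd (nat_lit 78) (nat_lit 304) (nat_lit 0) (XT.lf (nat_lit 0) (nat_lit 5235511707) (nat_lit 380) (nat_lit 7572350329) (nat_lit 76) (nat_lit 10325547925) (nat_lit 47) (nat_lit 5) (nat_lit 52) (nat_lit 5) (nat_lit 48) (nat_lit 5) (nat_lit 284) (nat_lit 264) (nat_lit 172)) (XT.lf (nat_lit 0) (nat_lit 2570963500) (nat_lit 304) (nat_lit 5250293580) (nat_lit 380) (nat_lit 16031876461) (nat_lit 43) (nat_lit 5) (nat_lit 47) (nat_lit 5) (nat_lit 48) (nat_lit 5) (nat_lit 285) (nat_lit 264) (nat_lit 171))) (XT.nd (nat_lit 78) (nat_lit 0) (nat_lit 0) (XT.lf (nat_lit 0) (nat_lit 10699437207) (nat_lit 380) (nat_lit 11172923888) (nat_lit 76) (nat_lit 2728355607) (nat_lit 43) (nat_lit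 5) (nat_lit 48) (nat_lit 5) (nat_lit 44) (nat_lit 5) (nat_lit 286) (nat_lit 264) (nat_lit 170)) (XT.lf (nat_lit 0) (nat_lit 13798911950) (nat_lit 380) (nat_lit 654576765) (nat_lit 76) (nat_lit 10928350339) (nat_lit 43) (nat_lit 5) (nat_lit 48) (nat_lit 5) (nat_lit 44) (nat_lit 5) (nat_lit 287) (nat_lit 264) (nat_lit 169)))) (XT.nd (nat_lit 156) (nat_lit 304) (nat_lit 0) (XT.nd (nat_lit 78) (nat_lit 0) (nat_lit 0) (XT.lf (nat_lit 0) (nat_lit 10723092742) (nat_lit 228) (nat_lit 6489413998) (nat_lit 304) (nat_lit 8981581384) (nat_lit 40) (nat_lit 5) (nat_lit 43) (nat_lit 5) (nat_lit 44) (nat_lit 5) (nat_lit 288) (nat_lit 264) (nat_lit 168)) (XT.lf (nat_lit 0) (nat_lit 20829236124) (nat_lit 304) (nat_lit 4393492208) (nat_lit 76) (nat_lit 1822625161) (nat_lit 40) (nat_lit 5) (nat_lit 44) (nat_lit 5) (nat_lit 41) (nat_lit 5) (nat_lit 289) (nat_lit 264) (nat_lit 167))) (XT.nd (nat_lit 78)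 (nat_lit 76) (nat_lit 0) (XT.lf (nat_lit 0) (nat_lit 7357418391) (nat_lit 228) (nat_lit 17482967708) (nat_lit 304) (nat_lit 3088142145) (nat_lit 37) (nat_lit 5) (nat_lit 40) (nat_lit 5) (nat_lit 41) (nat_lit 5) (nat_lit 290) (nat_lit 264) (nat_lit 166)) (XT.lf (nat_lit 0) (nat_lit 257980008) (nat_lit 304) (nat_lit 9017705366) (nat_lit 76) (nat_lit 19576644701) (nat_lit 36) (nat_lit 5) (nat_lit 40) (nat_lit 5) (nat_lit 37) (nat_lit 5) (nat_lit 291) (nat_lit 264) (nat_lit 165))))) (XT.nd (nat_lit 312) (nat_lit 456) (nat_lit 0) (XT.nd (nat_lit 156) (nat_lit 228) (nat_lit 0) (XT.nd (nat_lit 78) (nat_lit 0) (nat_lit 0) (XT.lf (nat_lit 0) (nat_lit 3154481380) (nat_lit 228) (nat_lit 555160241) (nat_lit 304) (nat_lit 26108070225) (nat_lit 33) (nat_lit 5) (nat_lit 36) (nat_lit 5) (nat_lit 37) (nat_lit 5) (nat_lit 292) (nat_lit 264) (nat_lit 164)) (XT.lf (nat_lit 0) (nat_lit 7616336708) (nat_lit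 304) (nat_lit 14721587840) (nat_lit 76) (nat_lit 8479336472) (nat_lit 33) (nat_lit 5) (nat_lit 37) (nat_lit 5) (nat_lit 34) (nat_lit 5) (nat_lit 293) (nat_lit 264) (nat_lit 163))) (XT.nd (nat_lit 78) (nat_lit 228) (nat_lit 0) (XT.lf (nat_lit 0) (nat_lit 11720739700) (nat_lit 304) (nat_lit 2200933126) (nat_lit 76) (nat_lit 17945016007) (nat_lit 33) (nat_lit 5) (nat_lit 37) (nat_lit 5) (nat_lit 34) (nat_lit 5) (nat_lit 294) (nat_lit 264) (nat_lit 162)) (XT.lf (nat_lit 0) (nat_lit 11298845999) (nat_lit 228) (nat_lit 4901516031) (nat_lit 304) (nat_lit 16759744943) (nat_lit 30) (nat_lit 5) (nat_lit 33) (nat_lit 5) (nat_lit 34) (nat_lit 5) (nat_lit 295) (nat_lit 264) (nat_lit 161)))) (XT.nd (nat_lit 156) (nat_lit 304) (nat_lit 0) (XT.nd (nat_lit 78) (nat_lit 152) (nat_lit 0) (XT.lf (nat_lit 0) (nat_lit 21006927965) (nat_lit 304) (nat_lit 8636962855) (nat_lit 76) (nat_lit 4459175071) (nat_lit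 30) (nat_lit 5) (nat_lit 34) (nat_lit 5) (nat_lit 31) (nat_lit 5) (nat_lit 296) (nat_lit 264) (nat_lit 160)) (XT.lf (nat_lit 0) (nat_lit 5113578200) (nat_lit 152) (nat_lit 21094465007) (nat_lit 228) (nat_lit 9087435636) (nat_lit 28) (nat_lit 5) (nat_lit 30) (nat_lit 5) (nat_lit 31) (nat_lit 5) (nat_lit 297) (nat_lit 264) (nat_lit 159))) (XT.nd (nat_lit 78) (nat_lit 304) (nat_lit 0) (XT.lf (nat_lit 0) (nat_lit 19843350111) (nat_lit 152) (nat_lit 11966323209) (nat_lit 228) (nat_lit 4730832489) (nat_lit 28) (nat_lit 5) (nat_lit 30) (nat_lit 5) (nat_lit 31) (nat_lit 5) (nat_lit 298) (nat_lit 264) (nat_lit 158)) (XT.nd (nat_lit 78) (nat_lit 304) (nat_lit 0) (XT.lf (nat_lit 0) (nat_lit 35301846766) (nat_lit 152) (nat_lit 2384002901) (nat_lit 228) (nat_lit 162226765) (nat_lit 28) (nat_lit 5) (nat_lit 30) (nat_lit 5) (nat_lit 31) (nat_lit 5) (nat_lit 299) (nat_lit 264) (nat_lit 157)) (XT.lf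 (nat_lit 0) (nat_lit 4802641341) (nat_lit 304) (nat_lit 26695328427) (nat_lit 76) (nat_lit 7703643054) (nat_lit 24) (nat_lit 5) (nat_lit 28) (nat_lit 5) (nat_lit 25) (nat_lit 5) (nat_lit 300) (nat_lit 264) (nat_lit 156))))))) (XT.nd (nat_lit 702) (nat_lit 456) (nat_lit 0) (XT.nd (nat_lit 312) (nat_lit 380) (nat_lit 0) (XT.nd (nat_lit 156) (nat_lit 0) (nat_lit 0) (XT.nd (nat_lit 78) (nat_lit 152) (nat_lit 0) (XT.lf (nat_lit 0) (nat_lit 10087943570) (nat_lit 304) (nat_lit 12270998617) (nat_lit 76) (nat_lit 18259882170) (nat_lit 24) (nat_lit 5) (nat_lit 28) (nat_lit 5) (nat_lit 25) (nat_lit 5) (nat_lit 301) (nat_lit 264) (nat_lit 155)) (XT.lf (nat_lit 0) (nat_lit 2962013675) (nat_lit 152) (nat_lit 12716725466) (nat_lit 228) (nat_lit 26426108704) (nat_lit 22) (nat_lit 5) (nat_lit 24) (nat_lit 5) (nat_lit 25) (nat_lit 5) (nat_lit 302) (nat_lit 264) (nat_lit 154))) (XT.nd (nat_lit 78) (nat_lit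 0) (nat_lit 0) (XT.lf (nat_lit 0) (nat_lit 19375479338) (nat_lit 152) (nat_lit 2376519555) (nat_lit 228) (nat_lit 21903039575) (nat_lit 22) (nat_lit 5) (nat_lit 24) (nat_lit 5) (nat_lit 25) (nat_lit 5) (nat_lit 303) (nat_lit 264) (nat_lit 153)) (XT.lf (nat_lit 0) (nat_lit 28256636467) (nat_lit 228) (nat_lit 8812612531) (nat_lit 76) (nat_lit 8207115482) (nat_lit 22) (nat_lit 5) (nat_lit 25) (nat_lit 5) (nat_lit 23) (nat_lit 5) (nat_lit 304) (nat_lit 264) (nat_lit 152)))) (XT.nd (nat_lit 156) (nat_lit 228) (nat_lit 0) (XT.nd (nat_lit 78) (nat_lit 0) (nat_lit 0) (XT.lf (nat_lit 0) (nat_lit 7626056099) (nat_lit 152) (nat_lit 27614004114) (nat_lit 228) (nat_lit 11731029914) (nat_lit 20) (nat_lit 5) (nat_lit 22) (nat_lit 5) (nat_lit 23) (nat_lit 5) (nat_lit 305) (nat_lit 264) (nat_lit 151)) (XT.lf (nat_lit 0) (nat_lit 25185973615) (nat_lit 152) (nat_lit 17531567408) (nat_lit 228) (nat_lit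 6025777260) (nat_lit 20) (nat_lit 5) (nat_lit 22) (nat_lit 5) (nat_lit 23) (nat_lit 5) (nat_lit 306) (nat_lit 264) (nat_lit 150))) (XT.nd (nat_lit 78) (nat_lit 228) (nat_lit 0) (XT.lf (nat_lit 0) (nat_lit 43617564574) (nat_lit 152) (nat_lit 6947178937) (nat_lit 228) (nat_lit 39631974) (nat_lit 20) (nat_lit 5) (nat_lit 22) (nat_lit 5) (nat_lit 23) (nat_lit 5) (nat_lit 307) (nat_lit 264) (nat_lit 149)) (XT.nd (nat_lit 78) (nat_lit 0) (nat_lit 0) (XT.lf (nat_lit 0) (nat_lit 6277494484) (nat_lit 228) (nat_lit 41965428539) (nat_lit 76) (nat_lit 4299116917) (nat_lit 17) (nat_lit 5) (nat_lit 20) (nat_lit 5) (nat_lit 18) (nat_lit 5) (nat_lit 308) (nat_lit 264) (nat_lit 148)) (XT.lf (nat_lit 0) (nat_lit 13139333495) (nat_lit 228) (nat_lit 25432614058) (nat_lit 76) (nat_lit 15993106829) (nat_lit 17) (nat_lit 5) (nat_lit 20) (nat_lit 5) (nat_lit 18) (nat_lit 5) (nat_lit 309) (nat_lit 264) (nat_lit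 147)))))) (XT.nd (nat_lit 312) (nat_lit 304) (nat_lit 0) (XT.nd (nat_lit 156) (nat_lit 0) (nat_lit 0) (XT.nd (nat_lit 78) (nat_lit 152) (nat_lit 0) (XT.lf (nat_lit 0) (nat_lit 20340488425) (nat_lit 228) (nat_lit 8079098073) (nat_lit 76) (nat_lit 28269830093) (nat_lit 17) (nat_lit 5) (nat_lit 20) (nat_lit 5) (nat_lit 18) (nat_lit 5) (nat_lit 310) (nat_lit 264) (nat_lit 146)) (XT.lf (nat_lit 0) (nat_lit 10471593705) (nat_lit 152) (nat_lit 17590002099) (nat_lit 228) (nat_lit 30850414223) (nat_lit 15) (nat_lit 5) (nat_lit 17) (nat_lit 5) (nat_lit 18) (nat_lit 5) (nat_lit 311) (nat_lit 264) (nat_lit 145))) (XT.nd (nat_lit 78) (nat_lit 0) (nat_lit 0) (XT.lf (nat_lit 0) (nat_lit 30224742947) (nat_lit 152) (nat_lit 6077327181) (nat_lit 228) (nat_lit 24937004905) (nat_lit 15) (nat_lit 5) (nat_lit 17) (nat_lit 5) (nat_lit 18) (nat_lit 5) (nat_lit 312) (nat_lit 264) (nat_lit 144)) (XT.lf (nat_lit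 0) (nat_lit 45045041276) (nat_lit 228) (nat_lit 12816235888) (nat_lit 76) (nat_lit 5816699593) (nat_lit 15) (nat_lit 5) (nat_lit 18) (nat_lit 5) (nat_lit 16) (nat_lit 4) (nat_lit 313) (nat_lit 264) (nat_lit 143)))) (XT.nd (nat_lit 156) (nat_lit 228) (nat_lit 0) (XT.nd (nat_lit 78) (nat_lit 0) (nat_lit 0) (XT.lf (nat_lit 0) (nat_lit 6391520637) (nat_lit 76) (nat_lit 48029843768) (nat_lit 152) (nat_lit 11807655771) (nat_lit 14) (nat_lit 5) (nat_lit 15) (nat_lit 5) (nat_lit 16) (nat_lit 4) (nat_lit 314) (nat_lit 264) (nat_lit 142)) (XT.lf (nat_lit 0) (nat_lit 26999514641) (nat_lit 76) (nat_lit 37480897195) (nat_lit 152) (nat_lit 4416514984) (nat_lit 14) (nat_lit 5) (nat_lit 15) (nat_lit 5) (nat_lit 16) (nat_lit 4) (nat_lit 315) (nat_lit 264) (nat_lit 141))) (XT.nd (nat_lit 78) (nat_lit 152) (nat_lit 0) (XT.lf (nat_lit 0) (nat_lit 3234101670) (nat_lit 152) (nat_lit 23117497314) (nat_lit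 76) (nat_lit 45344177388) (nat_lit 13) (nat_lit 5) (nat_lit 15) (nat_lit 5) (nat_lit 14) (nat_lit 5) (nat_lit 316) (nat_lit 264) (nat_lit 140)) (XT.nd (nat_lit 78) (nat_lit 152) (nat_lit 0) (XT.lf (nat_lit 0) (nat_lit 11115923928) (nat_lit 152) (nat_lit 3475716968) (nat_lit 76) (nat_lit 60039458061) (nat_lit 13) (nat_lit 5) (nat_lit 15) (nat_lit 5) (nat_lit 14) (nat_lit 5) (nat_lit 317) (nat_lit 264) (nat_lit 139)) (XT.lf (nat_lit 0) (nat_lit 17710495643) (nat_lit 152) (nat_lit 1955088919) (nat_lit 228) (nat_lit 58033921059) (nat_lit 11) (nat_lit 5) (nat_lit 13) (nat_lit 5) (nat_lit 14) (nat_lit 5) (nat_lit 318) (nat_lit 264) (nat_lit 138))))))))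
noncomputable def xc185 : XT := (XT.nd (nat_lit 1326) (nat_lit 228) (nat_lit 0) (XT.nd (nat_lit 624) (nat_lit 76) (nat_lit 0) (XT.nd (nat_lit 312) (nat_lit 152) (nat_lit 0) (XT.nd (nat_lit 156) (nat_lit 76) (nat_lit 0) (XT.nd (nat_lit 78) (nat_lit 0) (nat_lit 0) (XT.lf (nat_lit 0) (nat_lit 28876460510) (nat_lit 228) (nat_lit 41023842359) (nat_lit 76) (nat_lit 11009348196) (nat_lit 11) (nat_lit 5) (nat_lit 14) (nat_lit 5) (nat_lit 12) (nat_lit 4) (nat_lit 319) (nat_lit 264) (nat_lit 137)) (XT.lf (nat_lit 0) (nat_lit 38577332983) (nat_lit 228) (nat_lit 21146794310) (nat_lit 76) (nat_lit 24554708672) (nat_lit 11) (nat_lit 5) (nat_lit 14) (nat_lit 5) (nat_lit 12) (nat_lit 4) (nat_lit 320) (nat_lit 264) (nat_lit 136))) (XT.nd (nat_lit 78) (nat_lit 76) (nat_lit 0) (XT.lf (nat_lit 0) (nat_lit 48760774880) (nat_lit 228) (nat_lit 280015108) (nat_lit 76) (nat_lit 38775818423) (nat_lit 11) (nat_lit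 5) (nat_lit 14) (nat_lit 5) (nat_lit 12) (nat_lit 4) (nat_lit 321) (nat_lit 264) (nat_lit 135)) (XT.lf (nat_lit 0) (nat_lit 22341237165) (nat_lit 76) (nat_lit 37458604648) (nat_lit 152) (nat_lit 31714109391) (nat_lit 10) (nat_lit 5) (nat_lit 11) (nat_lit 5) (nat_lit 12) (nat_lit 4) (nat_lit 322) (nat_lit 264) (nat_lit 134)))) (XT.nd (nat_lit 156) (nat_lit 152) (nat_lit 0) (XT.nd (nat_lit 78) (nat_lit 0) (nat_lit 0) (XT.lf (nat_lit 0) (nat_lit 46099411851) (nat_lit 76) (nat_lit 25293887968) (nat_lit 152) (nat_lit 24002743594) (nat_lit 10) (nat_lit 5) (nat_lit 11) (nat_lit 5) (nat_lit 12) (nat_lit 4) (nat_lit 323) (nat_lit 264) (nat_lit 133)) (XT.lf (nat_lit 0) (nat_lit 71041817469) (nat_lit 76) (nat_lit 12522418530) (nat_lit 152) (nat_lit 15908117937) (nat_lit 10) (nat_lit 5) (nat_lit 11) (nat_lit 5) (nat_lit 12) (nat_lit 4) (nat_lit 324) (nat_lit 264) (nat_lit 132))) (XT.nd (nat_lit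 78) (nat_lit 152) (nat_lit 0) (XT.lf (nat_lit 0) (nat_lit 96355465022) (nat_lit 152) (nat_lit 6538583828) (nat_lit 0) (nat_lit 857847610) (nat_lit 10) (nat_lit 5) (nat_lit 12) (nat_lit 4) (nat_lit 10) (nat_lit 4) (nat_lit 325) (nat_lit 264) (nat_lit 131)) (XT.lf (nat_lit 0) (nat_lit 1964343068) (nat_lit 152) (nat_lit 91477636527) (nat_lit 76) (nat_lit 14778596090) (nat_lit 8) (nat_lit 5) (nat_lit 10) (nat_lit 5) (nat_lit 9) (nat_lit 4) (nat_lit 326) (nat_lit 264) (nat_lit 130))))) (XT.nd (nat_lit 312) (nat_lit 76) (nat_lit 0) (XT.nd (nat_lit 156) (nat_lit 0) (nat_lit 0) (XT.nd (nat_lit 78) (nat_lit 0) (nat_lit 0) (XT.lf (nat_lit 0) (nat_lit 11655133117) (nat_lit 152) (nat_lit 71618109694) (nat_lit 76) (nat_lit 29627859403) (nat_lit 8) (nat_lit 5) (nat_lit 10) (nat_lit 5) (nat_lit 9) (nat_lit 4) (nat_lit 327) (nat_lit 264) (nat_lit 129)) (XT.lf (nat_lit 0) (nat_lit 21828554117) (nat_lit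 152) (nat_lit 50768875470) (nat_lit 76) (nat_lit 45218324018) (nat_lit 8) (nat_lit 5) (nat_lit 10) (nat_lit 5) (nat_lit 9) (nat_lit 4) (nat_lit 328) (nat_lit 264) (nat_lit 128))) (XT.nd (nat_lit 78) (nat_lit 0) (nat_lit 0) (XT.lf (nat_lit 0) (nat_lit 32508828499) (nat_lit 152) (nat_lit 28880292822) (nat_lit 76) (nat_lit 61587110087) (nat_lit 8) (nat_lit 5) (nat_lit 10) (nat_lit 5) (nat_lit 9) (nat_lit 4) (nat_lit 329) (nat_lit 264) (nat_lit 127)) (XT.lf (nat_lit 0) (nat_lit 43721385487) (nat_lit 152) (nat_lit 5900246077) (nat_lit 76) (nat_lit 78773190911) (nat_lit 8) (nat_lit 5) (nat_lit 10) (nat_lit 5) (nat_lit 9) (nat_lit 4) (nat_lit 330) (nat_lit 264) (nat_lit 126)))) (XT.nd (nat_lit 156) (nat_lit 0) (nat_lit 0) (XT.nd (nat_lit 78) (nat_lit 0) (nat_lit 0) (XT.lf (nat_lit 0) (nat_lit 18828612343) (nat_lit 76) (nat_lit 36958276708) (nat_lit 152) (nat_lit 78282840792) (nat_lit 7) (nat_lit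 5) (nat_lit 8) (nat_lit 5) (nat_lit 9) (nat_lit 4) (nat_lit 331) (nat_lit 264) (nat_lit 125)) (XT.lf (nat_lit 0) (nat_lit 44995978608) (nat_lit 76) (nat_lit 23557999161) (nat_lit 152) (nat_lit 71469491868) (nat_lit 7) (nat_lit 5) (nat_lit 8) (nat_lit 5) (nat_lit 9) (nat_lit 4) (nat_lit 332) (nat_lit 264) (nat_lit 124))) (XT.nd (nat_lit 78) (nat_lit 0) (nat_lit 0) (XT.lf (nat_lit 0) (nat_lit 72469067190) (nat_lit 76) (nat_lit 9488817021) (nat_lit 152) (nat_lit 64317091479) (nat_lit 7) (nat_lit 5) (nat_lit 8) (nat_lit 5) (nat_lit 9) (nat_lit 4) (nat_lit 333) (nat_lit 264) (nat_lit 123)) (XT.nd (nat_lit 78) (nat_lit 0) (nat_lit 0) (XT.lf (nat_lit 0) (nat_lit 96113001250) (nat_lit 152) (nat_lit 51608321149) (nat_lit 0) (nat_lit 5113686202) (nat_lit 7) (nat_lit 5) (nat_lit 9) (nat_lit 4) (nat_lit 7) (nat_lit 4) (nat_lit 334) (nat_lit 264) (nat_lit 122)) (XT.lf (nat_lit 0) (nat_lit 111130018967)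 (nat_lit 152) (nat_lit 28458864995) (nat_lit 0) (nat_lit 20126454162) (nat_lit 7) (nat_lit 5) (nat_lit 9) (nat_lit 4) (nat_lit 7) (nat_lit 4) (nat_lit 335) (nat_lit 264) (nat_lit 121))))))) (XT.nd (nat_lit 702) (nat_lit 0) (nat_lit 0) (XT.nd (nat_lit 312) (nat_lit 152) (nat_lit 0) (XT.nd (nat_lit 156) (nat_lit 0) (nat_lit 0) (XT.nd (nat_lit 78) (nat_lit 76) (nat_lit 0) (XT.lf (nat_lit 0) (nat_lit 126896545139) (nat_lit 152) (nat_lit 4154275262) (nat_lit 0) (nat_lit 35888932947) (nat_lit 7) (nat_lit 5) (nat_lit 9) (nat_lit 4) (nat_lit 7) (nat_lit 4) (nat_lit 336) (nat_lit 264) (nat_lit 120)) (XT.lf (nat_lit 0) (nat_lit 22069683832) (nat_lit 76) (nat_lit 121725004898) (nat_lit 76) (nat_lit 30713538051) (nat_lit 6) (nat_lit 4) (nat_lit 7) (nat_lit 5) (nat_lit 7) (nat_lit 4) (nat_lit 337) (nat_lit 264) (nat_lit 119))) (XT.nd (nat_lit 78) (nat_lit 0) (nat_lit 0) (XT.lf (nat_lit 0) (nat_lit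 49746876035) (nat_lit 76) (nat_lit 111859966281) (nat_lit 76) (nat_lit 20844828334) (nat_lit 6) (nat_lit 4) (nat_lit 7) (nat_lit 5) (nat_lit 7) (nat_lit 4) (nat_lit 338) (nat_lit 264) (nat_lit 118)) (XT.lf (nat_lit 0) (nat_lit 78805840322) (nat_lit 76) (nat_lit 101502571027) (nat_lit 76) (nat_lit 10483936795) (nat_lit 6) (nat_lit 4) (nat_lit 7) (nat_lit 5) (nat_lit 7) (nat_lit 4) (nat_lit 339) (nat_lit 264) (nat_lit 117)))) (XT.nd (nat_lit 156) (nat_lit 76) (nat_lit 0) (XT.nd (nat_lit 78) (nat_lit 0) (nat_lit 0) (XT.lf (nat_lit 0) (nat_lit 381201126) (nat_lit 152) (nat_lit 90240501717) (nat_lit 76) (nat_lit 108928107750) (nat_lit 5) (nat_lit 5) (nat_lit 7) (nat_lit 5) (nat_lit 6) (nat_lit 4) (nat_lit 340) (nat_lit 264) (nat_lit 116)) (XT.lf (nat_lit 0) (nat_lit 11436166207) (nat_lit 152) (nat_lit 67580994535) (nat_lit 76) (nat_lit 129719448637) (nat_lit 5) (nat_lit 5) (nat_lit 7) (nat_lit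 5) (nat_lit 6) (nat_lit 4) (nat_lit 341) (nat_lit 264) (nat_lit 115))) (XT.nd (nat_lit 78) (nat_lit 76) (nat_lit 0) (XT.lf (nat_lit 0) (nat_lit 23042831243) (nat_lit 152) (nat_lit 43790351434) (nat_lit 76) (nat_lit 151549619337) (nat_lit 5) (nat_lit 5) (nat_lit 7) (nat_lit 5) (nat_lit 6) (nat_lit 4) (nat_lit 342) (nat_lit 264) (nat_lit 114)) (XT.nd (nat_lit 78) (nat_lit 76) (nat_lit 0) (XT.lf (nat_lit 0) (nat_lit 35228831151) (nat_lit 152) (nat_lit 18811928026) (nat_lit 76) (nat_lit 174470596447) (nat_lit 5) (nat_lit 5) (nat_lit 7) (nat_lit 5) (nat_lit 6) (nat_lit 4) (nat_lit 343) (nat_lit 264) (nat_lit 113)) (XT.lf (nat_lit 0) (nat_lit 7658880120) (nat_lit 76) (nat_lit 40483876678) (nat_lit 152) (nat_lit 190997650184) (nat_lit 4) (nat_lit 5) (nat_lit 5) (nat_lit 5) (nat_lit 6) (nat_lit 4) (nat_lit 344) (nat_lit 264) (nat_lit 112)))))) (XT.nd (nat_lit 312) (nat_lit 0) (nat_lit 0) (XT.nd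 (nat_lit 156) (nat_lit 0) (nat_lit 0) (XT.nd (nat_lit 78) (nat_lit 0) (nat_lit 0) (XT.lf (nat_lit 0) (nat_lit 36104694821) (nat_lit 76) (nat_lit 25915341823) (nat_lit 152) (nat_lit 188264992661) (nat_lit 4) (nat_lit 5) (nat_lit 5) (nat_lit 5) (nat_lit 6) (nat_lit 4) (nat_lit 345) (nat_lit 264) (nat_lit 111)) (XT.lf (nat_lit 0) (nat_lit 65971236907) (nat_lit 76) (nat_lit 10619056727) (nat_lit 152) (nat_lit 185396634679) (nat_lit 4) (nat_lit 5) (nat_lit 5) (nat_lit 5) (nat_lit 6) (nat_lit 4) (nat_lit 346) (nat_lit 264) (nat_lit 110))) (XT.nd (nat_lit 78) (nat_lit 0) (nat_lit 0) (XT.lf (nat_lit 0) (nat_lit 91973174338) (nat_lit 152) (nat_lit 177029303958) (nat_lit 0) (nat_lit 5267239605) (nat_lit 4) (nat_lit 5) (nat_lit 6) (nat_lit 4) (nat_lit 4) (nat_lit 4) (nat_lit 347) (nat_lit 264) (nat_lit 109)) (XT.lf (nat_lit 0) (nat_lit 108298467996) (nat_lit 152) (nat_lit 157269129793) (nat_lit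 0) (nat_lit 21590386848) (nat_lit 4) (nat_lit 5) (nat_lit 6) (nat_lit 4) (nat_lit 4) (nat_lit 4) (nat_lit 348) (nat_lit 264) (nat_lit 108)))) (XT.nd (nat_lit 156) (nat_lit 0) (nat_lit 0) (XT.nd (nat_lit 78) (nat_lit 0) (nat_lit 0) (XT.lf (nat_lit 0) (nat_lit 125439251123) (nat_lit 152) (nat_lit 136522327642) (nat_lit 0) (nat_lit 38729125769) (nat_lit 4) (nat_lit 5) (nat_lit 6) (nat_lit 4) (nat_lit 4) (nat_lit 4) (nat_lit 349) (nat_lit 264) (nat_lit 107)) (XT.lf (nat_lit 0) (nat_lit 143436335106) (nat_lit 152) (nat_lit 114739500357) (nat_lit 0) (nat_lit 56724262889) (nat_lit 4) (nat_lit 5) (nat_lit 6) (nat_lit 4) (nat_lit 4) (nat_lit 4) (nat_lit 350) (nat_lit 264) (nat_lit 106))) (XT.nd (nat_lit 78) (nat_lit 0) (nat_lit 0) (XT.lf (nat_lit 0) (nat_lit 162332570144) (nat_lit 152) (nat_lit 91868784063) (nat_lit 0) (nat_lit 75618643773) (nat_lit 4) (nat_lit 5) (nat_lit 6) (nat_lit 4) (nat_lit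 4) (nat_lit 4) (nat_lit 351) (nat_lit 264) (nat_lit 105)) (XT.nd (nat_lit 78) (nat_lit 0) (nat_lit 0) (XT.lf (nat_lit 0) (nat_lit 182172947275) (nat_lit 152) (nat_lit 67855724674) (nat_lit 0) (nat_lit 95457255042) (nat_lit 4) (nat_lit 5) (nat_lit 6) (nat_lit 4) (nat_lit 4) (nat_lit 4) (nat_lit 352) (nat_lit 264) (nat_lit 104)) (XT.lf (nat_lit 0) (nat_lit 203004705491) (nat_lit 152) (nat_lit 42643148239) (nat_lit 0) (nat_lit 116287331485) (nat_lit 4) (nat_lit 5) (nat_lit 6) (nat_lit 4) (nat_lit 4) (nat_lit 4) (nat_lit 353) (nat_lit 264) (nat_lit 103))))))))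
noncomputable def xc186 : XT := (XT.nd (nat_lit 31746) (nat_lit 0) (nat_lit 2052) (XT.nd (nat_lit 31044) (nat_lit 0) (nat_lit 4028) (XT.nd (nat_lit 30732) (nat_lit 0) (nat_lit 4712) (XT.nd (nat_lit 30576) (nat_lit 0) (nat_lit 5396) (XT.nd (nat_lit 78) (nat_lit 76) (nat_lit 0) (XT.lf (nat_lit 0) (nat_lit 224877444216) (nat_lit 152) (nat_lit 16171024815) (nat_lit 0) (nat_lit 138158468522) (nat_lit 4) (nat_lit 5) (nat_lit 6) (nat_lit 4) (nat_lit 4) (nat_lit 4) (nat_lit 354) (nat_lit 264) (nat_lit 102)) (XT.lf (nat_lit 0) (nat_lit 12008005635) (nat_lit 76) (nat_lit 236022714385) (nat_lit 76) (nat_lit 149302213273) (nat_lit 3) (nat_lit 4) (nat_lit 4) (nat_lit 5) (nat_lit 4) (nat_lit 4) (nat_lit 355) (nat_lit 264) (nat_lit 101))) (XT.nd (nat_lit 78) (nat_lit 0) (nat_lit 0) (XT.lf (nat_lit 0) (nat_lit 6833308136) (nat_lit 684) (nat_lit 122486940) (nat_lit 684) (nat_lit 122486940) (nat_lit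 74) (nat_lit 3) (nat_lit 83) (nat_lit 3) (nat_lit 83) (nat_lit 5) (nat_lit 265) (nat_lit 265) (nat_lit 190)) (XT.lf (nat_lit 76) (nat_lit 5845234523) (nat_lit 0) (nat_lit 8548030525) (nat_lit 684) (nat_lit 96688171) (nat_lit 75) (nat_lit 5) (nat_lit 74) (nat_lit 3) (nat_lit 83) (nat_lit 5) (nat_lit 266) (nat_lit 265) (nat_lit 189)))) (XT.nd (nat_lit 156) (nat_lit 0) (nat_lit 76) (XT.nd (nat_lit 78) (nat_lit 0) (nat_lit 76) (XT.lf (nat_lit 0) (nat_lit 290977985) (nat_lit 684) (nat_lit 2607308664) (nat_lit 760) (nat_lit 11942312872) (nat_lit 65) (nat_lit 5) (nat_lit 74) (nat_lit 3) (nat_lit 75) (nat_lit 5) (nat_lit 267) (nat_lit 265) (nat_lit 188)) (XT.lf (nat_lit 0) (nat_lit 784849892) (nat_lit 684) (nat_lit 11412247505) (nat_lit 760) (nat_lit 3007171970) (nat_lit 66) (nat_lit 5) (nat_lit 75) (nat_lit 5) (nat_lit 76) (nat_lit 5) (nat_lit 268) (nat_lit 265) (nat_lit 187))) (XT.nd (nat_lit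 78) (nat_lit 0) (nat_lit 0) (XT.lf (nat_lit 0) (nat_lit 1378211581) (nat_lit 684) (nat_lit 5041652441) (nat_lit 760) (nat_lit 9162589418) (nat_lit 66) (nat_lit 5) (nat_lit 75) (nat_lit 5) (nat_lit 76) (nat_lit 5) (nat_lit 269) (nat_lit 265) (nat_lit 186)) (XT.lf (nat_lit 76) (nat_lit 1690788590) (nat_lit 0) (nat_lit 320092033) (nat_lit 760) (nat_lit 13968251314) (nat_lit 67) (nat_lit 5) (nat_lit 66) (nat_lit 5) (nat_lit 76) (nat_lit 5) (nat_lit 270) (nat_lit 265) (nat_lit 185))))) (XT.nd (nat_lit 312) (nat_lit 836) (nat_lit 0) (XT.nd (nat_lit 156) (nat_lit 0) (nat_lit 76) (XT.nd (nat_lit 78) (nat_lit 0) (nat_lit 0) (XT.lf (nat_lit 0) (nat_lit 2840923740) (nat_lit 684) (nat_lit 7564468797) (nat_lit 760) (nat_lit 5982028779) (nat_lit 67) (nat_lit 5) (nat_lit 76) (nat_lit 5) (nat_lit 77) (nat_lit 5) (nat_lit 271) (nat_lit 265) (nat_lit 184)) (XT.lf (nat_lit 0) (nat_lit 3702439612) (nat_lit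 684) (nat_lit 520678017) (nat_lit 760) (nat_lit 12593569942) (nat_lit 67) (nat_lit 5) (nat_lit 76) (nat_lit 5) (nat_lit 77) (nat_lit 5) (nat_lit 272) (nat_lit 265) (nat_lit 183))) (XT.nd (nat_lit 78) (nat_lit 0) (nat_lit 0) (XT.lf (nat_lit 0) (nat_lit 4740496812) (nat_lit 684) (nat_lit 10208180191) (nat_lit 760) (nat_lit 2312124895) (nat_lit 68) (nat_lit 5) (nat_lit 77) (nat_lit 5) (nat_lit 78) (nat_lit 5) (nat_lit 273) (nat_lit 265) (nat_lit 182)) (XT.lf (nat_lit 0) (nat_lit 5894690412) (nat_lit 684) (nat_lit 2784542929) (nat_lit 760) (nat_lit 9044732198) (nat_lit 68) (nat_lit 5) (nat_lit 77) (nat_lit 5) (nat_lit 78) (nat_lit 5) (nat_lit 274) (nat_lit 265) (nat_lit 181)))) (XT.nd (nat_lit 156) (nat_lit 912) (nat_lit 0) (XT.nd (nat_lit 78) (nat_lit 0) (nat_lit 76) (XT.lf (nat_lit 76) (nat_lit 5164969303) (nat_lit 0) (nat_lit 2008968426) (nat_lit 760) (nat_lit 11033035072) (nat_lit 69)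 (nat_lit 5) (nat_lit 68) (nat_lit 5) (nat_lit 78) (nat_lit 5) (nat_lit 275) (nat_lit 265) (nat_lit 180)) (XT.lf (nat_lit 0) (nat_lit 8630272597) (nat_lit 684) (nat_lit 5193073866) (nat_lit 76) (nat_lit 4885177838) (nat_lit 69) (nat_lit 5) (nat_lit 78) (nat_lit 5) (nat_lit 70) (nat_lit 5) (nat_lit 276) (nat_lit 265) (nat_lit 179))) (XT.nd (nat_lit 78) (nat_lit 304) (nat_lit 0) (XT.lf (nat_lit 0) (nat_lit 3104074825) (nat_lit 684) (nat_lit 7124567122) (nat_lit 760) (nat_lit 9003098290) (nat_lit 60) (nat_lit 5) (nat_lit 69) (nat_lit 5) (nat_lit 70) (nat_lit 5) (nat_lit 277) (nat_lit 265) (nat_lit 178)) (XT.nd (nat_lit 78) (nat_lit 304) (nat_lit 0) (XT.lf (nat_lit 0) (nat_lit 11983157506) (nat_lit 760) (nat_lit 7791495622) (nat_lit 76) (nat_lit 2697928) (nat_lit 60) (nat_lit 5) (nat_lit 70) (nat_lit 5) (nat_lit 61) (nat_lit 5) (nat_lit 278) (nat_lit 265) (nat_lit 177)) (XT.lf (nat_lit 0)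 (nat_lit 861669656) (nat_lit 304) (nat_lit 13082794797) (nat_lit 380) (nat_lit 6399867990) (nat_lit 56) (nat_lit 5) (nat_lit 60) (nat_lit 5) (nat_lit 61) (nat_lit 5) (nat_lit 279) (nat_lit 265) (nat_lit 176))))))) (XT.nd (nat_lit 702) (nat_lit 988) (nat_lit 0) (XT.nd (nat_lit 312) (nat_lit 608) (nat_lit 0) (XT.nd (nat_lit 156) (nat_lit 380) (nat_lit 0) (XT.nd (nat_lit 78) (nat_lit 0) (nat_lit 0) (XT.lf (nat_lit 0) (nat_lit 10207571600) (nat_lit 304) (nat_lit 5917404043) (nat_lit 380) (nat_lit 4808671557) (nat_lit 56) (nat_lit 5) (nat_lit 60) (nat_lit 5) (nat_lit 61) (nat_lit 5) (nat_lit 280) (nat_lit 265) (nat_lit 175)) (XT.lf (nat_lit 0) (nat_lit 18429297432) (nat_lit 380) (nat_lit 1567225545) (nat_lit 76) (nat_lit 1555204747) (nat_lit 56) (nat_lit 5) (nat_lit 61) (nat_lit 5) (nat_lit 57) (nat_lit 5) (nat_lit 281) (nat_lit 265) (nat_lit 174))) (XT.nd (nat_lit 78) (nat_lit 76) (nat_lit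 0) (XT.lf (nat_lit 0) (nat_lit 8205188787) (nat_lit 304) (nat_lit 12858956166) (nat_lit 380) (nat_lit 1125839252) (nat_lit 52) (nat_lit 5) (nat_lit 56) (nat_lit 5) (nat_lit 57) (nat_lit 5) (nat_lit 282) (nat_lit 265) (nat_lit 173)) (XT.lf (nat_lit 0) (nat_lit 956813847) (nat_lit 380) (nat_lit 4363962420) (nat_lit 76) (nat_lit 17537788641) (nat_lit 51) (nat_lit 5) (nat_lit 56) (nat_lit 5) (nat_lit 52) (nat_lit 5) (nat_lit 283) (nat_lit 265) (nat_lit 172)))) (XT.nd (nat_lit 156) (nat_lit 304) (nat_lit 0) (XT.nd (nat_lit 78) (nat_lit 0) (nat_lit 0) (XT.lf (nat_lit 0) (nat_lit 3230947491) (nat_lit 380) (nat_lit 17699300398) (nat_lit 76) (nat_lit 2623177083) (nat_lit 47) (nat_lit 5) (nat_lit 52) (nat_lit 5) (nat_lit 48) (nat_lit 5) (nat_lit 284) (nat_lit 265) (nat_lit 171)) (XT.lf (nat_lit 0) (nat_lit 5772192799) (nat_lit 380) (nat_lit 7643155491) (nat_lit 76) (nat_lit 10860040277) (nat_lit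 47) (nat_lit 5) (nat_lit 52) (nat_lit 5) (nat_lit 48) (nat_lit 5) (nat_lit 285) (nat_lit 265) (nat_lit 170))) (XT.nd (nat_lit 78) (nat_lit 0) (nat_lit 0) (XT.lf (nat_lit 0) (nat_lit 3002359314) (nat_lit 304) (nat_lit 5476503688) (nat_lit 380) (nat_lit 16552698522) (nat_lit 43) (nat_lit 5) (nat_lit 47) (nat_lit 5) (nat_lit 48) (nat_lit 5) (nat_lit 286) (nat_lit 265) (nat_lit 169)) (XT.nd (nat_lit 78) (nat_lit 0) (nat_lit 0) (XT.lf (nat_lit 0) (nat_lit 11488799434) (nat_lit 380) (nat_lit 11430132447) (nat_lit 76) (nat_lit 2898242528) (nat_lit 43) (nat_lit 5) (nat_lit 48) (nat_lit 5) (nat_lit 44) (nat_lit 5) (nat_lit 287) (nat_lit 265) (nat_lit 168)) (XT.lf (nat_lit 0) (nat_lit 14731134086) (nat_lit 380) (nat_lit 400222141) (nat_lit 76) (nat_lit 11506643229) (nat_lit 43) (nat_lit 5) (nat_lit 48) (nat_lit 5) (nat_lit 44) (nat_lit 5) (nat_lit 288) (nat_lit 265) (nat_lit 167)))))) (XT.nd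 (nat_lit 312) (nat_lit 456) (nat_lit 0) (XT.nd (nat_lit 156) (nat_lit 304) (nat_lit 0) (XT.nd (nat_lit 78) (nat_lit 0) (nat_lit 0) (XT.lf (nat_lit 0) (nat_lit 11541700462) (nat_lit 228) (nat_lit 6766581060) (nat_lit 304) (nat_lit 9182974751) (nat_lit 40) (nat_lit 5) (nat_lit 43) (nat_lit 5) (nat_lit 44) (nat_lit 5) (nat_lit 289) (nat_lit 265) (nat_lit 166)) (XT.lf (nat_lit 0) (nat_lit 22095353157) (nat_lit 304) (nat_lit 4332927963) (nat_lit 76) (nat_lit 1957365587) (nat_lit 40) (nat_lit 5) (nat_lit 44) (nat_lit 5) (nat_lit 41) (nat_lit 5) (nat_lit 290) (nat_lit 265) (nat_lit 165))) (XT.nd (nat_lit 78) (nat_lit 76) (nat_lit 0) (XT.lf (nat_lit 0) (nat_lit 8001008184) (nat_lit 228) (nat_lit 18299659323) (nat_lit 304) (nat_lit 3012667665) (nat_lit 37) (nat_lit 5) (nat_lit 40) (nat_lit 5) (nat_lit 41) (nat_lit 5) (nat_lit 291) (nat_lit 265) (nat_lit 164)) (XT.lf (nat_lit 0) (nat_lit 482806572)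 (nat_lit 304) (nat_lit 9198353241) (nat_lit 76) (nat_lit 20602549680) (nat_lit 36) (nat_lit 5) (nat_lit 40) (nat_lit 5) (nat_lit 37) (nat_lit 5) (nat_lit 292) (nat_lit 265) (nat_lit 163)))) (XT.nd (nat_lit 156) (nat_lit 228) (nat_lit 0) (XT.nd (nat_lit 78) (nat_lit 0) (nat_lit 0) (XT.lf (nat_lit 0) (nat_lit 3578084174) (nat_lit 228) (nat_lit 523026415) (nat_lit 304) (nat_lit 27196577308) (nat_lit 33) (nat_lit 5) (nat_lit 36) (nat_lit 5) (nat_lit 37) (nat_lit 5) (nat_lit 293) (nat_lit 265) (nat_lit 162)) (XT.lf (nat_lit 0) (nat_lit 8194222082) (nat_lit 304) (nat_lit 15194949910) (nat_lit 76) (nat_lit 8958517510) (nat_lit 33) (nat_lit 5) (nat_lit 37) (nat_lit 5) (nat_lit 34) (nat_lit 5) (nat_lit 294) (nat_lit 265) (nat_lit 161))) (XT.nd (nat_lit 78) (nat_lit 228) (nat_lit 0) (XT.lf (nat_lit 0) (nat_lit 12494461008) (nat_lit 304) (nat_lit 2060772809) (nat_lit 76) (nat_lit 18894851775)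 (nat_lit 33) (nat_lit 5) (nat_lit 37) (nat_lit 5) (nat_lit 34) (nat_lit 5) (nat_lit 295) (nat_lit 265) (nat_lit 160)) (XT.nd (nat_lit 78) (nat_lit 0) (nat_lit 0) (XT.lf (nat_lit 0) (nat_lit 12109959676) (nat_lit 228) (nat_lit 5083010855) (nat_lit 304) (nat_lit 17405485159) (nat_lit 30) (nat_lit 5) (nat_lit 33) (nat_lit 5) (nat_lit 34) (nat_lit 5) (nat_lit 296) (nat_lit 265) (nat_lit 159)) (XT.lf (nat_lit 0) (nat_lit 22232115389) (nat_lit 304) (nat_lit 8826110683) (nat_lit 76) (nat_lit 4740749052) (nat_lit 30) (nat_lit 5) (nat_lit 34) (nat_lit 5) (nat_lit 31) (nat_lit 5) (nat_lit 297) (nat_lit 265) (nat_lit 158))))))))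
noncomputable def xc187 : XT := (XT.nd (nat_lit 1326) (nat_lit 608) (nat_lit 0) (XT.nd (nat_lit 624) (nat_lit 532) (nat_lit 0) (XT.nd (nat_lit 312) (nat_lit 152) (nat_lit 0) (XT.nd (nat_lit 156) (nat_lit 304) (nat_lit 0) (XT.nd (nat_lit 78) (nat_lit 0) (nat_lit 0) (XT.lf (nat_lit 0) (nat_lit 5608042904) (nat_lit 152) (nat_lit 22080645841) (nat_lit 228) (nat_lit 9362573765) (nat_lit 28) (nat_lit 5) (nat_lit 30) (nat_lit 5) (nat_lit 31) (nat_lit 5) (nat_lit 298) (nat_lit 265) (nat_lit 157)) (XT.lf (nat_lit 0) (nat_lit 21062932659) (nat_lit 152) (nat_lit 12499360878) (nat_lit 228) (nat_lit 4796675397) (nat_lit 28) (nat_lit 5) (nat_lit 30) (nat_lit 5) (nat_lit 31) (nat_lit 5) (nat_lit 299) (nat_lit 265) (nat_lit 156))) (XT.nd (nat_lit 78) (nat_lit 304) (nat_lit 0) (XT.lf (nat_lit 0) (nat_lit 37283524859) (nat_lit 152) (nat_lit 2441033054) (nat_lit 228) (nat_lit 7767897) (nat_lit 28) (nat_lit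 5) (nat_lit 30) (nat_lit 5) (nat_lit 31) (nat_lit 5) (nat_lit 300) (nat_lit 265) (nat_lit 155)) (XT.lf (nat_lit 0) (nat_lit 5197079939) (nat_lit 304) (nat_lit 27804439074) (nat_lit 76) (nat_lit 8152065784) (nat_lit 24) (nat_lit 5) (nat_lit 28) (nat_lit 5) (nat_lit 25) (nat_lit 5) (nat_lit 301) (nat_lit 265) (nat_lit 154)))) (XT.nd (nat_lit 156) (nat_lit 0) (nat_lit 0) (XT.nd (nat_lit 78) (nat_lit 152) (nat_lit 0) (XT.lf (nat_lit 0) (nat_lit 10739299350) (nat_lit 304) (nat_lit 12669638287) (nat_lit 76) (nat_lit 19233105400) (nat_lit 24) (nat_lit 5) (nat_lit 28) (nat_lit 5) (nat_lit 25) (nat_lit 5) (nat_lit 302) (nat_lit 265) (nat_lit 153)) (XT.lf (nat_lit 0) (nat_lit 3321558325) (nat_lit 152) (nat_lit 13284379578) (nat_lit 228) (nat_lit 27596632474) (nat_lit 22) (nat_lit 5) (nat_lit 24) (nat_lit 5) (nat_lit 25) (nat_lit 5) (nat_lit 303) (nat_lit 265) (nat_lit 152))) (XT.nd (nat_lit 78)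 (nat_lit 0) (nat_lit 0) (XT.lf (nat_lit 0) (nat_lit 20545628512) (nat_lit 152) (nat_lit 2430410141) (nat_lit 228) (nat_lit 22854589967) (nat_lit 22) (nat_lit 5) (nat_lit 24) (nat_lit 5) (nat_lit 25) (nat_lit 5) (nat_lit 304) (nat_lit 265) (nat_lit 151)) (XT.lf (nat_lit 0) (nat_lit 29800376517) (nat_lit 228) (nat_lit 9055602058) (nat_lit 76) (nat_lit 8677335117) (nat_lit 22) (nat_lit 5) (nat_lit 25) (nat_lit 5) (nat_lit 23) (nat_lit 5) (nat_lit 305) (nat_lit 265) (nat_lit 150))))) (XT.nd (nat_lit 312) (nat_lit 152) (nat_lit 0) (XT.nd (nat_lit 156) (nat_lit 228) (nat_lit 0) (XT.nd (nat_lit 78) (nat_lit 0) (nat_lit 0) (XT.lf (nat_lit 0) (nat_lit 8201812243) (nat_lit 152) (nat_lit 28927961443) (nat_lit 228) (nat_lit 12183177232) (nat_lit 20) (nat_lit 5) (nat_lit 22) (nat_lit 5) (nat_lit 23) (nat_lit 5) (nat_lit 306) (nat_lit 265) (nat_lit 149)) (XT.lf (nat_lit 0) (nat_lit 26630465952) (nat_lit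 152) (nat_lit 18344581134) (nat_lit 228) (nat_lit 6199062144) (nat_lit 20) (nat_lit 5) (nat_lit 22) (nat_lit 5) (nat_lit 23) (nat_lit 5) (nat_lit 307) (nat_lit 265) (nat_lit 148))) (XT.nd (nat_lit 78) (nat_lit 152) (nat_lit 0) (XT.lf (nat_lit 0) (nat_lit 77725037) (nat_lit 228) (nat_lit 7154958778) (nat_lit 76) (nat_lit 45895776366) (nat_lit 19) (nat_lit 5) (nat_lit 22) (nat_lit 5) (nat_lit 20) (nat_lit 5) (nat_lit 308) (nat_lit 265) (nat_lit 147)) (XT.lf (nat_lit 0) (nat_lit 6707505211) (nat_lit 228) (nat_lit 43881032729) (nat_lit 76) (nat_lit 4574543646) (nat_lit 17) (nat_lit 5) (nat_lit 20) (nat_lit 5) (nat_lit 18) (nat_lit 5) (nat_lit 309) (nat_lit 265) (nat_lit 146)))) (XT.nd (nat_lit 156) (nat_lit 152) (nat_lit 0) (XT.nd (nat_lit 78) (nat_lit 0) (nat_lit 0) (XT.lf (nat_lit 0) (nat_lit 13906905887) (nat_lit 228) (nat_lit 26530275964) (nat_lit 76) (nat_lit 16850353487) (nat_lit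 17) (nat_lit 5) (nat_lit 20) (nat_lit 5) (nat_lit 18) (nat_lit 5) (nat_lit 310) (nat_lit 265) (nat_lit 145)) (XT.lf (nat_lit 0) (nat_lit 21462851625) (nat_lit 228) (nat_lit 8317368408) (nat_lit 76) (nat_lit 29738170472) (nat_lit 17) (nat_lit 5) (nat_lit 20) (nat_lit 5) (nat_lit 18) (nat_lit 5) (nat_lit 311) (nat_lit 265) (nat_lit 144))) (XT.nd (nat_lit 78) (nat_lit 0) (nat_lit 0) (XT.lf (nat_lit 0) (nat_lit 11158185627) (nat_lit 152) (nat_lit 18409357692) (nat_lit 228) (nat_lit 32284704798) (nat_lit 15) (nat_lit 5) (nat_lit 17) (nat_lit 5) (nat_lit 18) (nat_lit 5) (nat_lit 312) (nat_lit 265) (nat_lit 143)) (XT.nd (nat_lit 78) (nat_lit 0) (nat_lit 0) (XT.lf (nat_lit 0) (nat_lit 31891229843) (nat_lit 152) (nat_lit 6323913052) (nat_lit 228) (nat_lit 26080778831) (nat_lit 15) (nat_lit 5) (nat_lit 17) (nat_lit 5) (nat_lit 18) (nat_lit 5) (nat_lit 313) (nat_lit 265) (nat_lit 142)) (XT.lf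 (nat_lit 0) (nat_lit 47391449120) (nat_lit 228) (nat_lit 13305178636) (nat_lit 76) (nat_lit 6160341386) (nat_lit 15) (nat_lit 5) (nat_lit 18) (nat_lit 5) (nat_lit 16) (nat_lit 4) (nat_lit 314) (nat_lit 265) (nat_lit 141))))))) (XT.nd (nat_lit 702) (nat_lit 228) (nat_lit 0) (XT.nd (nat_lit 312) (nat_lit 228) (nat_lit 0) (XT.nd (nat_lit 156) (nat_lit 76) (nat_lit 0) (XT.nd (nat_lit 78) (nat_lit 0) (nat_lit 0) (XT.lf (nat_lit 0) (nat_lit 6860516215) (nat_lit 76) (nat_lit 50373921441) (nat_lit 152) (nat_lit 12301244076) (nat_lit 14) (nat_lit 5) (nat_lit 15) (nat_lit 5) (nat_lit 16) (nat_lit 4) (nat_lit 315) (nat_lit 265) (nat_lit 140)) (XT.lf (nat_lit 0) (nat_lit 28491794702) (nat_lit 76) (nat_lit 39300261563) (nat_lit 152) (nat_lit 4545155510) (nat_lit 14) (nat_lit 5) (nat_lit 15) (nat_lit 5) (nat_lit 16) (nat_lit 4) (nat_lit 316) (nat_lit 265) (nat_lit 139))) (XT.nd (nat_lit 78) (nat_lit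 0) (nat_lit 0) (XT.lf (nat_lit 0) (nat_lit 3480792202) (nat_lit 152) (nat_lit 24134870804) (nat_lit 76) (nat_lit 47660489473) (nat_lit 13) (nat_lit 5) (nat_lit 15) (nat_lit 5) (nat_lit 14) (nat_lit 5) (nat_lit 317) (nat_lit 265) (nat_lit 138)) (XT.lf (nat_lit 0) (nat_lit 11752658646) (nat_lit 152) (nat_lit 3517596744) (nat_lit 76) (nat_lit 63088195931) (nat_lit 13) (nat_lit 5) (nat_lit 15) (nat_lit 5) (nat_lit 14) (nat_lit 5) (nat_lit 318) (nat_lit 265) (nat_lit 137)))) (XT.nd (nat_lit 156) (nat_lit 76) (nat_lit 0) (XT.nd (nat_lit 78) (nat_lit 0) (nat_lit 0) (XT.lf (nat_lit 0) (nat_lit 18725798980) (nat_lit 152) (nat_lit 2002175323) (nat_lit 228) (nat_lit 60852402828) (nat_lit 11) (nat_lit 5) (nat_lit 13) (nat_lit 5) (nat_lit 14) (nat_lit 5) (nat_lit 319) (nat_lit 265) (nat_lit 136)) (XT.lf (nat_lit 0) (nat_lit 30396380282) (nat_lit 228) (nat_lit 42948280900) (nat_lit 76) (nat_lit 11606526413)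 (nat_lit 11) (nat_lit 5) (nat_lit 14) (nat_lit 5) (nat_lit 12) (nat_lit 4) (nat_lit 320) (nat_lit 265) (nat_lit 135))) (XT.nd (nat_lit 78) (nat_lit 76) (nat_lit 0) (XT.lf (nat_lit 0) (nat_lit 40578672724) (nat_lit 228) (nat_lit 22083416333) (nat_lit 76) (nat_lit 25826930589) (nat_lit 11) (nat_lit 5) (nat_lit 14) (nat_lit 5) (nat_lit 12) (nat_lit 4) (nat_lit 321) (nat_lit 265) (nat_lit 134)) (XT.nd (nat_lit 78) (nat_lit 76) (nat_lit 0) (XT.lf (nat_lit 0) (nat_lit 51267835616) (nat_lit 228) (nat_lit 179046633) (nat_lit 76) (nat_lit 40756977424) (nat_lit 11) (nat_lit 5) (nat_lit 14) (nat_lit 5) (nat_lit 12) (nat_lit 4) (nat_lit 322) (nat_lit 265) (nat_lit 133)) (XT.lf (nat_lit 0) (nat_lit 23571413912) (nat_lit 76) (nat_lit 39285921263) (nat_lit 152) (nat_lit 33228816565) (nat_lit 10) (nat_lit 5) (nat_lit 11) (nat_lit 5) (nat_lit 12) (nat_lit 4) (nat_lit 323) (nat_lit 265) (nat_lit 132))))))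 (XT.nd (nat_lit 312) (nat_lit 76) (nat_lit 0) (XT.nd (nat_lit 156) (nat_lit 152) (nat_lit 0) (XT.nd (nat_lit 78) (nat_lit 0) (nat_lit 0) (XT.lf (nat_lit 0) (nat_lit 48512110909) (nat_lit 76) (nat_lit 26515140826) (nat_lit 152) (nat_lit 25135263349) (nat_lit 10) (nat_lit 5) (nat_lit 11) (nat_lit 5) (nat_lit 12) (nat_lit 4) (nat_lit 324) (nat_lit 265) (nat_lit 131)) (XT.lf (nat_lit 0) (nat_lit 74696506880) (nat_lit 76) (nat_lit 13107166561) (nat_lit 152) (nat_lit 16639126287) (nat_lit 10) (nat_lit 5) (nat_lit 11) (nat_lit 5) (nat_lit 12) (nat_lit 4) (nat_lit 325) (nat_lit 265) (nat_lit 130))) (XT.nd (nat_lit 78) (nat_lit 152) (nat_lit 0) (XT.lf (nat_lit 0) (nat_lit 101232163596) (nat_lit 152) (nat_lit 6765394451) (nat_lit 0) (nat_lit 938881614) (nat_lit 10) (nat_lit 5) (nat_lit 12) (nat_lit 4) (nat_lit 10) (nat_lit 4) (nat_lit 326) (nat_lit 265) (nat_lit 129)) (XT.lf (nat_lit 0) (nat_lit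 2121259825) (nat_lit 152) (nat_lit 95950978167) (nat_lit 76) (nat_lit 15556335937) (nat_lit 8) (nat_lit 5) (nat_lit 10) (nat_lit 5) (nat_lit 9) (nat_lit 4) (nat_lit 327) (nat_lit 265) (nat_lit 128)))) (XT.nd (nat_lit 156) (nat_lit 76) (nat_lit 0) (XT.nd (nat_lit 78) (nat_lit 0) (nat_lit 0) (XT.lf (nat_lit 0) (nat_lit 12293794157) (nat_lit 152) (nat_lit 75103262620) (nat_lit 76) (nat_lit 31146214320) (nat_lit 8) (nat_lit 5) (nat_lit 10) (nat_lit 5) (nat_lit 9) (nat_lit 4) (nat_lit 328) (nat_lit 265) (nat_lit 127)) (XT.lf (nat_lit 0) (nat_lit 22973224094) (nat_lit 152) (nat_lit 53216126331) (nat_lit 76) (nat_lit 47514442072) (nat_lit 8) (nat_lit 5) (nat_lit 10) (nat_lit 5) (nat_lit 9) (nat_lit 4) (nat_lit 329) (nat_lit 265) (nat_lit 126))) (XT.nd (nat_lit 78) (nat_lit 76) (nat_lit 0) (XT.lf (nat_lit 0) (nat_lit 34184976848) (nat_lit 152) (nat_lit 30237457070) (nat_lit 76) (nat_lit 64699991166)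 (nat_lit 8) (nat_lit 5) (nat_lit 10) (nat_lit 5) (nat_lit 9) (nat_lit 4) (nat_lit 330) (nat_lit 265) (nat_lit 125)) (XT.nd (nat_lit 78) (nat_lit 76) (nat_lit 0) (XT.lf (nat_lit 0) (nat_lit 45955747070) (nat_lit 152) (nat_lit 6112543721) (nat_lit 76) (nat_lit 82743779575) (nat_lit 8) (nat_lit 5) (nat_lit 10) (nat_lit 5) (nat_lit 9) (nat_lit 4) (nat_lit 331) (nat_lit 265) (nat_lit 124)) (XT.lf (nat_lit 0) (nat_lit 19851423513) (nat_lit 76) (nat_lit 38772073244) (nat_lit 152) (nat_lit 82147281542) (nat_lit 7) (nat_lit 5) (nat_lit 8) (nat_lit 5) (nat_lit 9) (nat_lit 4) (nat_lit 332) (nat_lit 265) (nat_lit 123))))))))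
noncomputable def xc188 : XT := (XT.nd (nat_lit 1326) (nat_lit 0) (nat_lit 0) (XT.nd (nat_lit 624) (nat_lit 152) (nat_lit 0) (XT.nd (nat_lit 312) (nat_lit 76) (nat_lit 0) (XT.nd (nat_lit 156) (nat_lit 0) (nat_lit 0) (XT.nd (nat_lit 78) (nat_lit 0) (nat_lit 0) (XT.lf (nat_lit 0) (nat_lit 47323282827) (nat_lit 76) (nat_lit 24703406452) (nat_lit 152) (nat_lit 74995631899) (nat_lit 7) (nat_lit 5) (nat_lit 8) (nat_lit 5) (nat_lit 9) (nat_lit 4) (nat_lit 333) (nat_lit 265) (nat_lit 122)) (XT.lf (nat_lit 0) (nat_lit 76166335110) (nat_lit 76) (nat_lit 9932312476) (nat_lit 152) (nat_lit 67487865518) (nat_lit 7) (nat_lit 5) (nat_lit 8) (nat_lit 5) (nat_lit 9) (nat_lit 4) (nat_lit 334) (nat_lit 265) (nat_lit 121))) (XT.nd (nat_lit 78) (nat_lit 0) (nat_lit 0) (XT.lf (nat_lit 0) (nat_lit 100959939226) (nat_lit 152) (nat_lit 54116791695) (nat_lit 0) (nat_lit 5397899036) (nat_lit 7) (nat_lit 5) (nat_lit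 9) (nat_lit 4) (nat_lit 7) (nat_lit 4) (nat_lit 335) (nat_lit 265) (nat_lit 120)) (XT.lf (nat_lit 0) (nat_lit 116725841737) (nat_lit 152) (nat_lit 29813288710) (nat_lit 0) (nat_lit 21159946893) (nat_lit 7) (nat_lit 5) (nat_lit 9) (nat_lit 4) (nat_lit 7) (nat_lit 4) (nat_lit 336) (nat_lit 265) (nat_lit 119)))) (XT.nd (nat_lit 156) (nat_lit 0) (nat_lit 0) (XT.nd (nat_lit 78) (nat_lit 76) (nat_lit 0) (XT.lf (nat_lit 0) (nat_lit 133278821750) (nat_lit 152) (nat_lit 4296732325) (nat_lit 0) (nat_lit 37709255807) (nat_lit 7) (nat_lit 5) (nat_lit 9) (nat_lit 4) (nat_lit 7) (nat_lit 4) (nat_lit 337) (nat_lit 265) (nat_lit 118)) (XT.lf (nat_lit 0) (nat_lit 23237372196) (nat_lit 76) (nat_lit 127783719429) (nat_lit 76) (nat_lit 32210657200) (nat_lit 6) (nat_lit 4) (nat_lit 7) (nat_lit 5) (nat_lit 7) (nat_lit 4) (nat_lit 338) (nat_lit 265) (nat_lit 117))) (XT.nd (nat_lit 78) (nat_lit 0) (nat_lit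 0) (XT.lf (nat_lit 0) (nat_lit 52295366668) (nat_lit 76) (nat_lit 117426740106) (nat_lit 76) (nat_lit 21850348081) (nat_lit 6) (nat_lit 4) (nat_lit 7) (nat_lit 5) (nat_lit 7) (nat_lit 4) (nat_lit 339) (nat_lit 265) (nat_lit 116)) (XT.lf (nat_lit 0) (nat_lit 82804367415) (nat_lit 76) (nat_lit 106552723874) (nat_lit 76) (nat_lit 10973160615) (nat_lit 6) (nat_lit 4) (nat_lit 7) (nat_lit 5) (nat_lit 7) (nat_lit 4) (nat_lit 340) (nat_lit 265) (nat_lit 115))))) (XT.nd (nat_lit 312) (nat_lit 76) (nat_lit 0) (XT.nd (nat_lit 156) (nat_lit 0) (nat_lit 0) (XT.nd (nat_lit 78) (nat_lit 0) (nat_lit 0) (XT.lf (nat_lit 0) (nat_lit 432502768) (nat_lit 152) (nat_lit 94695952806) (nat_lit 76) (nat_lit 114397187503) (nat_lit 5) (nat_lit 5) (nat_lit 7) (nat_lit 5) (nat_lit 6) (nat_lit 4) (nat_lit 341) (nat_lit 265) (nat_lit 114)) (XT.lf (nat_lit 0) (nat_lit 12038680789) (nat_lit 152) (nat_lit 70906164265)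 (nat_lit 76) (nat_lit 136227015704) (nat_lit 5) (nat_lit 5) (nat_lit 7) (nat_lit 5) (nat_lit 6) (nat_lit 4) (nat_lit 342) (nat_lit 265) (nat_lit 113))) (XT.nd (nat_lit 78) (nat_lit 0) (nat_lit 0) (XT.lf (nat_lit 0) (nat_lit 24224216873) (nat_lit 152) (nat_lit 45928554723) (nat_lit 76) (nat_lit 159147666623) (nat_lit 5) (nat_lit 5) (nat_lit 7) (nat_lit 5) (nat_lit 6) (nat_lit 4) (nat_lit 343) (nat_lit 265) (nat_lit 112)) (XT.lf (nat_lit 0) (nat_lit 37018124202) (nat_lit 152) (nat_lit 19703653682) (nat_lit 76) (nat_lit 183213713240) (nat_lit 5) (nat_lit 5) (nat_lit 7) (nat_lit 5) (nat_lit 6) (nat_lit 4) (nat_lit 344) (nat_lit 265) (nat_lit 111)))) (XT.nd (nat_lit 156) (nat_lit 0) (nat_lit 0) (XT.nd (nat_lit 78) (nat_lit 0) (nat_lit 0) (XT.lf (nat_lit 0) (nat_lit 8089906634) (nat_lit 76) (nat_lit 42487263939) (nat_lit 152) (nat_lit 200518855146) (nat_lit 4) (nat_lit 5) (nat_lit 5) (nat_lit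 5) (nat_lit 6) (nat_lit 4) (nat_lit 345) (nat_lit 265) (nat_lit 110)) (XT.lf (nat_lit 0) (nat_lit 37955722426) (nat_lit 76) (nat_lit 27191293130) (nat_lit 152) (nat_lit 197650930344) (nat_lit 4) (nat_lit 5) (nat_lit 5) (nat_lit 5) (nat_lit 6) (nat_lit 4) (nat_lit 346) (nat_lit 265) (nat_lit 109))) (XT.nd (nat_lit 78) (nat_lit 0) (nat_lit 0) (XT.lf (nat_lit 0) (nat_lit 69313411005) (nat_lit 76) (nat_lit 11131137388) (nat_lit 152) (nat_lit 194640455032) (nat_lit 4) (nat_lit 5) (nat_lit 5) (nat_lit 5) (nat_lit 6) (nat_lit 4) (nat_lit 347) (nat_lit 265) (nat_lit 108)) (XT.nd (nat_lit 78) (nat_lit 0) (nat_lit 0) (XT.lf (nat_lit 0) (nat_lit 96595675649) (nat_lit 152) (nat_lit 185838303529) (nat_lit 0) (nat_lit 5547999822) (nat_lit 4) (nat_lit 5) (nat_lit 6) (nat_lit 4) (nat_lit 4) (nat_lit 4) (nat_lit 348) (nat_lit 265) (nat_lit 107)) (XT.lf (nat_lit 0) (nat_lit 113736098629) (nat_lit 152)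 (nat_lit 165092142828) (nat_lit 0) (nat_lit 22686475939) (nat_lit 4) (nat_lit 5) (nat_lit 6) (nat_lit 4) (nat_lit 4) (nat_lit 4) (nat_lit 349) (nat_lit 265) (nat_lit 106))))))) (XT.nd (nat_lit 31278) (nat_lit 0) (nat_lit 4256) (XT.nd (nat_lit 390) (nat_lit 0) (nat_lit 0) (XT.nd (nat_lit 156) (nat_lit 0) (nat_lit 0) (XT.nd (nat_lit 78) (nat_lit 0) (nat_lit 0) (XT.lf (nat_lit 0) (nat_lit 131732839615) (nat_lit 152) (nat_lit 143309926448) (nat_lit 0) (nat_lit 40681362771) (nat_lit 4) (nat_lit 5) (nat_lit 6) (nat_lit 4) (nat_lit 4) (nat_lit 4) (nat_lit 350) (nat_lit 265) (nat_lit 105)) (XT.lf (nat_lit 0) (nat_lit 150628747990) (nat_lit 152) (nat_lit 120439791969) (nat_lit 0) (nat_lit 59575505284) (nat_lit 4) (nat_lit 5) (nat_lit 6) (nat_lit 4) (nat_lit 4) (nat_lit 4) (nat_lit 351) (nat_lit 265) (nat_lit 104))) (XT.nd (nat_lit 156) (nat_lit 0) (nat_lit 0) (XT.lf (nat_lit 0) (nat_lit 170468814013)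 (nat_lit 152) (nat_lit 96427286689) (nat_lit 0) (nat_lit 79413889534) (nat_lit 4) (nat_lit 5) (nat_lit 6) (nat_lit 4) (nat_lit 4) (nat_lit 4) (nat_lit 352) (nat_lit 265) (nat_lit 103)) (XT.lf (nat_lit 0) (nat_lit 213172732477) (nat_lit 152) (nat_lit 44743617146) (nat_lit 0) (nat_lit 122114680891) (nat_lit 4) (nat_lit 5) (nat_lit 6) (nat_lit 4) (nat_lit 4) (nat_lit 4) (nat_lit 354) (nat_lit 265) (nat_lit 101)))) (XT.nd (nat_lit 30654) (nat_lit 0) (nat_lit 4636) (XT.nd (nat_lit 30576) (nat_lit 0) (nat_lit 4636) (XT.lf (nat_lit 0) (nat_lit 236138260914) (nat_lit 152) (nat_lit 16949396527) (nat_lit 0) (nat_lit 145078756549) (nat_lit 4) (nat_lit 5) (nat_lit 6) (nat_lit 4) (nat_lit 4) (nat_lit 4) (nat_lit 355) (nat_lit 265) (nat_lit 100)) (XT.lf (nat_lit 0) (nat_lit 23429482) (nat_lit 0) (nat_lit 23429482) (nat_lit 684) (nat_lit 7369549482) (nat_lit 65) (nat_lit 5) (nat_lit 65) (nat_lit 3)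 (nat_lit 74) (nat_lit 3) (nat_lit 266) (nat_lit 266) (nat_lit 188))) (XT.nd (nat_lit 78) (nat_lit 0) (nat_lit 0) (XT.lf (nat_lit 0) (nat_lit 468567526) (nat_lit 684) (nat_lit 8754416328) (nat_lit 760) (nat_lit 5960926094) (nat_lit 65) (nat_lit 5) (nat_lit 74) (nat_lit 3) (nat_lit 75) (nat_lit 5) (nat_lit 267) (nat_lit 266) (nat_lit 187)) (XT.nd (nat_lit 78) (nat_lit 0) (nat_lit 76) (XT.lf (nat_lit 0) (nat_lit 845375217) (nat_lit 684) (nat_lit 2432004334) (nat_lit 760) (nat_lit 12276087865) (nat_lit 65) (nat_lit 5) (nat_lit 74) (nat_lit 3) (nat_lit 75) (nat_lit 5) (nat_lit 268) (nat_lit 266) (nat_lit 186)) (XT.lf (nat_lit 0) (nat_lit 1339523938) (nat_lit 684) (nat_lit 11650706990) (nat_lit 760) (nat_lit 2946413984) (nat_lit 66) (nat_lit 5) (nat_lit 75) (nat_lit 5) (nat_lit 76) (nat_lit 5) (nat_lit 269) (nat_lit 266) (nat_lit 185)))))) (XT.nd (nat_lit 312) (nat_lit 456) (nat_lit 0) (XT.nd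 (nat_lit 156) (nat_lit 0) (nat_lit 76) (XT.nd (nat_lit 78) (nat_lit 0) (nat_lit 0) (XT.lf (nat_lit 0) (nat_lit 1938009351) (nat_lit 684) (nat_lit 4977398977) (nat_lit 760) (nat_lit 9419655475) (nat_lit 66) (nat_lit 5) (nat_lit 75) (nat_lit 5) (nat_lit 76) (nat_lit 5) (nat_lit 270) (nat_lit 266) (nat_lit 184)) (XT.lf (nat_lit 76) (nat_lit 2086561911) (nat_lit 0) (nat_lit 497233588) (nat_lit 760) (nat_lit 14168800256) (nat_lit 67) (nat_lit 5) (nat_lit 66) (nat_lit 5) (nat_lit 76) (nat_lit 5) (nat_lit 271) (nat_lit 266) (nat_lit 183))) (XT.nd (nat_lit 78) (nat_lit 0) (nat_lit 0) (XT.lf (nat_lit 0) (nat_lit 3430450922) (nat_lit 684) (nat_lit 7619604170) (nat_lit 760) (nat_lit 6132578252) (nat_lit 67) (nat_lit 5) (nat_lit 76) (nat_lit 5) (nat_lit 77) (nat_lit 5) (nat_lit 272) (nat_lit 266) (nat_lit 182)) (XT.lf (nat_lit 0) (nat_lit 4313733969) (nat_lit 684) (nat_lit 239008997) (nat_lit 760)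 (nat_lit 13081770376) (nat_lit 67) (nat_lit 5) (nat_lit 76) (nat_lit 5) (nat_lit 77) (nat_lit 5) (nat_lit 273) (nat_lit 266) (nat_lit 181)))) (XT.nd (nat_lit 156) (nat_lit 608) (nat_lit 0) (XT.nd (nat_lit 78) (nat_lit 0) (nat_lit 0) (XT.lf (nat_lit 0) (nat_lit 5386442649) (nat_lit 684) (nat_lit 10392015864) (nat_lit 760) (nat_lit 2323318394) (nat_lit 68) (nat_lit 5) (nat_lit 77) (nat_lit 5) (nat_lit 78) (nat_lit 5) (nat_lit 274) (nat_lit 266) (nat_lit 180)) (XT.lf (nat_lit 0) (nat_lit 6578873501) (nat_lit 684) (nat_lit 2612747850) (nat_lit 760) (nat_lit 9397528098) (nat_lit 68) (nat_lit 5) (nat_lit 77) (nat_lit 5) (nat_lit 78) (nat_lit 5) (nat_lit 275) (nat_lit 266) (nat_lit 179))) (XT.nd (nat_lit 78) (nat_lit 608) (nat_lit 0) (XT.lf (nat_lit 76) (nat_lit 5729223506) (nat_lit 0) (nat_lit 2179092115) (nat_lit 760) (nat_lit 11188753257) (nat_lit 69) (nat_lit 5) (nat_lit 68) (nat_lit 5)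 (nat_lit 78) (nat_lit 5) (nat_lit 276) (nat_lit 266) (nat_lit 178)) (XT.nd (nat_lit 78) (nat_lit 684) (nat_lit 0) (XT.lf (nat_lit 0) (nat_lit 9418541636) (nat_lit 684) (nat_lit 5140969343) (nat_lit 76) (nat_lit 5065203183) (nat_lit 69) (nat_lit 5) (nat_lit 78) (nat_lit 5) (nat_lit 70) (nat_lit 5) (nat_lit 277) (nat_lit 266) (nat_lit 177)) (XT.lf (nat_lit 0) (nat_lit 3566008425) (nat_lit 684) (nat_lit 7518621588) (nat_lit 760) (nat_lit 9090137452) (nat_lit 60) (nat_lit 5) (nat_lit 69) (nat_lit 5) (nat_lit 70) (nat_lit 5) (nat_lit 278) (nat_lit 266) (nat_lit 176))))))))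
noncomputable def xc189 : XT := (XT.nd (nat_lit 1326) (nat_lit 1368) (nat_lit 0) (XT.nd (nat_lit 624) (nat_lit 1064) (nat_lit 0) (XT.nd (nat_lit 312) (nat_lit 684) (nat_lit 0) (XT.nd (nat_lit 156) (nat_lit 0) (nat_lit 0) (XT.nd (nat_lit 78) (nat_lit 304) (nat_lit 0) (XT.lf (nat_lit 0) (nat_lit 12877319856) (nat_lit 684) (nat_lit 33098375) (nat_lit 760) (nat_lit 7838126677) (nat_lit 60) (nat_lit 5) (nat_lit 69) (nat_lit 5) (nat_lit 70) (nat_lit 5) (nat_lit 279) (nat_lit 266) (nat_lit 175)) (XT.lf (nat_lit 0) (nat_lit 1210109406) (nat_lit 304) (nat_lit 13748332491) (nat_lit 380) (nat_lit 6386061307) (nat_lit 56) (nat_lit 5) (nat_lit 60) (nat_lit 5) (nat_lit 61) (nat_lit 5) (nat_lit 280) (nat_lit 266) (nat_lit 174))) (XT.nd (nat_lit 78) (nat_lit 0) (nat_lit 0) (XT.lf (nat_lit 0) (nat_lit 11008765673) (nat_lit 304) (nat_lit 6224129439) (nat_lit 380) (nat_lit 4731200294) (nat_lit 56) (nat_lit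 5) (nat_lit 60) (nat_lit 5) (nat_lit 61) (nat_lit 5) (nat_lit 281) (nat_lit 266) (nat_lit 173)) (XT.lf (nat_lit 0) (nat_lit 19637906311) (nat_lit 380) (nat_lit 1352997178) (nat_lit 76) (nat_lit 1622957594) (nat_lit 56) (nat_lit 5) (nat_lit 61) (nat_lit 5) (nat_lit 57) (nat_lit 5) (nat_lit 282) (nat_lit 266) (nat_lit 172)))) (XT.nd (nat_lit 156) (nat_lit 304) (nat_lit 0) (XT.nd (nat_lit 78) (nat_lit 76) (nat_lit 0) (XT.lf (nat_lit 0) (nat_lit 8903318683) (nat_lit 304) (nat_lit 13491998465) (nat_lit 380) (nat_lit 889224375) (nat_lit 52) (nat_lit 5) (nat_lit 56) (nat_lit 5) (nat_lit 57) (nat_lit 5) (nat_lit 283) (nat_lit 266) (nat_lit 171)) (XT.lf (nat_lit 0) (nat_lit 1274685008) (nat_lit 380) (nat_lit 4298123158) (nat_lit 76) (nat_lit 18414236848) (nat_lit 51) (nat_lit 5) (nat_lit 56) (nat_lit 5) (nat_lit 52) (nat_lit 5) (nat_lit 284) (nat_lit 266) (nat_lit 170))) (XT.nd (nat_lit 78)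 (nat_lit 0) (nat_lit 0) (XT.lf (nat_lit 0) (nat_lit 3654309633) (nat_lit 380) (nat_lit 18291110794) (nat_lit 76) (nat_lit 2771683515) (nat_lit 47) (nat_lit 5) (nat_lit 52) (nat_lit 5) (nat_lit 48) (nat_lit 5) (nat_lit 285) (nat_lit 266) (nat_lit 169)) (XT.lf (nat_lit 0) (nat_lit 6310149837) (nat_lit 380) (nat_lit 7746118386) (nat_lit 76) (nat_lit 11419563793) (nat_lit 47) (nat_lit 5) (nat_lit 52) (nat_lit 5) (nat_lit 48) (nat_lit 5) (nat_lit 286) (nat_lit 266) (nat_lit 168))))) (XT.nd (nat_lit 312) (nat_lit 532) (nat_lit 0) (XT.nd (nat_lit 156) (nat_lit 228) (nat_lit 0) (XT.nd (nat_lit 78) (nat_lit 0) (nat_lit 0) (XT.lf (nat_lit 0) (nat_lit 3427169016) (nat_lit 304) (nat_lit 5717399556) (nat_lit 380) (nat_lit 17125665184) (nat_lit 43) (nat_lit 5) (nat_lit 47) (nat_lit 5) (nat_lit 48) (nat_lit 5) (nat_lit 287) (nat_lit 266) (nat_lit 167)) (XT.lf (nat_lit 0) (nat_lit 12293978966) (nat_lit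 380) (nat_lit 11728226249) (nat_lit 76) (nat_lit 3073512152) (nat_lit 43) (nat_lit 5) (nat_lit 48) (nat_lit 5) (nat_lit 44) (nat_lit 5) (nat_lit 288) (nat_lit 266) (nat_lit 166))) (XT.nd (nat_lit 78) (nat_lit 228) (nat_lit 0) (XT.lf (nat_lit 0) (nat_lit 15687442753) (nat_lit 380) (nat_lit 159840086) (nat_lit 76) (nat_lit 12110887293) (nat_lit 43) (nat_lit 5) (nat_lit 48) (nat_lit 5) (nat_lit 44) (nat_lit 5) (nat_lit 289) (nat_lit 266) (nat_lit 165)) (XT.lf (nat_lit 0) (nat_lit 12374978758) (nat_lit 228) (nat_lit 7062004319) (nat_lit 304) (nat_lit 9417465256) (nat_lit 40) (nat_lit 5) (nat_lit 43) (nat_lit 5) (nat_lit 44) (nat_lit 5) (nat_lit 290) (nat_lit 266) (nat_lit 164)))) (XT.nd (nat_lit 156) (nat_lit 304) (nat_lit 0) (XT.nd (nat_lit 78) (nat_lit 228) (nat_lit 0) (XT.lf (nat_lit 0) (nat_lit 23403889727) (nat_lit 304) (nat_lit 4295389459) (nat_lit 76) (nat_lit 2094788667) (nat_lit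 40) (nat_lit 5) (nat_lit 44) (nat_lit 5) (nat_lit 41) (nat_lit 5) (nat_lit 291) (nat_lit 266) (nat_lit 163)) (XT.lf (nat_lit 0) (nat_lit 8651143739) (nat_lit 228) (nat_lit 19162527305) (nat_lit 304) (nat_lit 2954791671) (nat_lit 37) (nat_lit 5) (nat_lit 40) (nat_lit 5) (nat_lit 41) (nat_lit 5) (nat_lit 292) (nat_lit 266) (nat_lit 162))) (XT.nd (nat_lit 78) (nat_lit 228) (nat_lit 0) (XT.lf (nat_lit 0) (nat_lit 699171447) (nat_lit 304) (nat_lit 9413157622) (nat_lit 76) (nat_lit 21675373530) (nat_lit 36) (nat_lit 5) (nat_lit 40) (nat_lit 5) (nat_lit 37) (nat_lit 5) (nat_lit 293) (nat_lit 266) (nat_lit 161)) (XT.nd (nat_lit 78) (nat_lit 0) (nat_lit 0) (XT.lf (nat_lit 0) (nat_lit 3998148224) (nat_lit 228) (nat_lit 494854072) (nat_lit 304) (nat_lit 28359674719) (nat_lit 33) (nat_lit 5) (nat_lit 36) (nat_lit 5) (nat_lit 37) (nat_lit 5) (nat_lit 294) (nat_lit 266) (nat_lit 160)) (XT.lf (nat_lit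 0) (nat_lit 8782680161) (nat_lit 304) (nat_lit 15716405050) (nat_lit 76) (nat_lit 9456524307) (nat_lit 33) (nat_lit 5) (nat_lit 37) (nat_lit 5) (nat_lit 34) (nat_lit 5) (nat_lit 295) (nat_lit 266) (nat_lit 159))))))) (XT.nd (nat_lit 702) (nat_lit 532) (nat_lit 0) (XT.nd (nat_lit 312) (nat_lit 456) (nat_lit 0) (XT.nd (nat_lit 156) (nat_lit 152) (nat_lit 0) (XT.nd (nat_lit 78) (nat_lit 228) (nat_lit 0) (XT.lf (nat_lit 0) (nat_lit 13289419272) (nat_lit 304) (nat_lit 1936866349) (nat_lit 76) (nat_lit 19887290478) (nat_lit 33) (nat_lit 5) (nat_lit 37) (nat_lit 5) (nat_lit 34) (nat_lit 5) (nat_lit 296) (nat_lit 266) (nat_lit 158)) (XT.lf (nat_lit 0) (nat_lit 12938742355) (nat_lit 228) (nat_lit 5279491577) (nat_lit 304) (nat_lit 18101385693) (nat_lit 30) (nat_lit 5) (nat_lit 33) (nat_lit 5) (nat_lit 34) (nat_lit 5) (nat_lit 297) (nat_lit 266) (nat_lit 157))) (XT.nd (nat_lit 78) (nat_lit 152)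 (nat_lit 0) (XT.lf (nat_lit 0) (nat_lit 23502307122) (nat_lit 304) (nat_lit 9047279876) (nat_lit 76) (nat_lit 5030952244) (nat_lit 30) (nat_lit 5) (nat_lit 34) (nat_lit 5) (nat_lit 31) (nat_lit 5) (nat_lit 298) (nat_lit 266) (nat_lit 156)) (XT.lf (nat_lit 0) (nat_lit 6105030804) (nat_lit 152) (nat_lit 23122508141) (nat_lit 228) (nat_lit 9668132247) (nat_lit 28) (nat_lit 5) (nat_lit 30) (nat_lit 5) (nat_lit 31) (nat_lit 5) (nat_lit 299) (nat_lit 266) (nat_lit 155)))) (XT.nd (nat_lit 156) (nat_lit 380) (nat_lit 0) (XT.nd (nat_lit 78) (nat_lit 76) (nat_lit 0) (XT.lf (nat_lit 0) (nat_lit 22322351439) (nat_lit 152) (nat_lit 13065119405) (nat_lit 228) (nat_lit 4881680399) (nat_lit 28) (nat_lit 5) (nat_lit 30) (nat_lit 5) (nat_lit 31) (nat_lit 5) (nat_lit 300) (nat_lit 266) (nat_lit 154)) (XT.lf (nat_lit 0) (nat_lit 134841216) (nat_lit 228) (nat_lit 2369569873) (nat_lit 76) (nat_lit 39207025947)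 (nat_lit 27) (nat_lit 5) (nat_lit 30) (nat_lit 5) (nat_lit 28) (nat_lit 5) (nat_lit 301) (nat_lit 266) (nat_lit 153))) (XT.nd (nat_lit 78) (nat_lit 152) (nat_lit 0) (XT.lf (nat_lit 0) (nat_lit 5596894509) (nat_lit 304) (nat_lit 28989984589) (nat_lit 76) (nat_lit 8617030141) (nat_lit 24) (nat_lit 5) (nat_lit 28) (nat_lit 5) (nat_lit 25) (nat_lit 5) (nat_lit 302) (nat_lit 266) (nat_lit 152)) (XT.nd (nat_lit 78) (nat_lit 152) (nat_lit 0) (XT.lf (nat_lit 0) (nat_lit 11409560101) (nat_lit 304) (nat_lit 13108190259) (nat_lit 76) (nat_lit 20249390258) (nat_lit 24) (nat_lit 5) (nat_lit 28) (nat_lit 5) (nat_lit 25) (nat_lit 5) (nat_lit 303) (nat_lit 266) (nat_lit 151)) (XT.lf (nat_lit 0) (nat_lit 3679422152) (nat_lit 152) (nat_lit 13886755327) (nat_lit 228) (nat_lit 28839700682) (nat_lit 22) (nat_lit 5) (nat_lit 24) (nat_lit 5) (nat_lit 25) (nat_lit 5) (nat_lit 304) (nat_lit 266) (nat_lit 150))))))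 (XT.nd (nat_lit 312) (nat_lit 380) (nat_lit 0) (XT.nd (nat_lit 156) (nat_lit 152) (nat_lit 0) (XT.nd (nat_lit 78) (nat_lit 0) (nat_lit 0) (XT.lf (nat_lit 0) (nat_lit 21755563185) (nat_lit 152) (nat_lit 2493032334) (nat_lit 228) (nat_lit 23867068594) (nat_lit 22) (nat_lit 5) (nat_lit 24) (nat_lit 5) (nat_lit 25) (nat_lit 5) (nat_lit 305) (nat_lit 266) (nat_lit 149)) (XT.lf (nat_lit 0) (nat_lit 31409132964) (nat_lit 228) (nat_lit 9329115858) (nat_lit 76) (nat_lit 9165500159) (nat_lit 22) (nat_lit 5) (nat_lit 25) (nat_lit 5) (nat_lit 23) (nat_lit 5) (nat_lit 306) (nat_lit 266) (nat_lit 148))) (XT.nd (nat_lit 78) (nat_lit 0) (nat_lit 0) (XT.lf (nat_lit 0) (nat_lit 8788277767) (nat_lit 152) (nat_lit 30313821759) (nat_lit 228) (nat_lit 12670427542) (nat_lit 20) (nat_lit 5) (nat_lit 22) (nat_lit 5) (nat_lit 23) (nat_lit 5) (nat_lit 307) (nat_lit 266) (nat_lit 147)) (XT.lf (nat_lit 0) (nat_lit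 28129965356) (nat_lit 152) (nat_lit 19204155185) (nat_lit 228) (nat_lit 6392911869) (nat_lit 20) (nat_lit 5) (nat_lit 22) (nat_lit 5) (nat_lit 23) (nat_lit 5) (nat_lit 308) (nat_lit 266) (nat_lit 146)))) (XT.nd (nat_lit 156) (nat_lit 152) (nat_lit 0) (XT.nd (nat_lit 78) (nat_lit 152) (nat_lit 0) (XT.lf (nat_lit 0) (nat_lit 188646859) (nat_lit 228) (nat_lit 7348948918) (nat_lit 76) (nat_lit 48241694159) (nat_lit 19) (nat_lit 5) (nat_lit 22) (nat_lit 5) (nat_lit 20) (nat_lit 5) (nat_lit 309) (nat_lit 266) (nat_lit 145)) (XT.lf (nat_lit 0) (nat_lit 7148219250) (nat_lit 228) (nat_lit 45909399798) (nat_lit 76) (nat_lit 4858119702) (nat_lit 17) (nat_lit 5) (nat_lit 20) (nat_lit 5) (nat_lit 18) (nat_lit 5) (nat_lit 310) (nat_lit 266) (nat_lit 144))) (XT.nd (nat_lit 78) (nat_lit 152) (nat_lit 0) (XT.lf (nat_lit 0) (nat_lit 14702573828) (nat_lit 228) (nat_lit 27698994936) (nat_lit 76) (nat_lit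 17745108184) (nat_lit 17) (nat_lit 5) (nat_lit 20) (nat_lit 5) (nat_lit 18) (nat_lit 5) (nat_lit 311) (nat_lit 266) (nat_lit 143)) (XT.nd (nat_lit 78) (nat_lit 152) (nat_lit 0) (XT.lf (nat_lit 0) (nat_lit 22631539583) (nat_lit 228) (nat_lit 8582956041) (nat_lit 76) (nat_lit 31274828541) (nat_lit 17) (nat_lit 5) (nat_lit 20) (nat_lit 5) (nat_lit 18) (nat_lit 5) (nat_lit 312) (nat_lit 266) (nat_lit 142)) (XT.lf (nat_lit 0) (nat_lit 11863951812) (nat_lit 152) (nat_lit 19275272731) (nat_lit 228) (nat_lit 33800772114) (nat_lit 15) (nat_lit 5) (nat_lit 17) (nat_lit 5) (nat_lit 18) (nat_lit 5) (nat_lit 313) (nat_lit 266) (nat_lit 141))))))))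
noncomputable def xc190 : XT := (XT.nd (nat_lit 1326) (nat_lit 304) (nat_lit 0) (XT.nd (nat_lit 624) (nat_lit 228) (nat_lit 0) (XT.nd (nat_lit 312) (nat_lit 228) (nat_lit 0) (XT.nd (nat_lit 156) (nat_lit 76) (nat_lit 0) (XT.nd (nat_lit 78) (nat_lit 0) (nat_lit 0) (XT.lf (nat_lit 0) (nat_lit 33626607434) (nat_lit 152) (nat_lit 6588153614) (nat_lit 228) (nat_lit 27291324511) (nat_lit 15) (nat_lit 5) (nat_lit 17) (nat_lit 5) (nat_lit 18) (nat_lit 5) (nat_lit 314) (nat_lit 266) (nat_lit 140)) (XT.lf (nat_lit 0) (nat_lit 49846423645) (nat_lit 228) (nat_lit 13832687865) (nat_lit 76) (nat_lit 6516255793) (nat_lit 15) (nat_lit 5) (nat_lit 18) (nat_lit 5) (nat_lit 16) (nat_lit 4) (nat_lit 315) (nat_lit 266) (nat_lit 139))) (XT.nd (nat_lit 78) (nat_lit 0) (nat_lit 0) (XT.lf (nat_lit 0) (nat_lit 7339069959) (nat_lit 76) (nat_lit 52840540854) (nat_lit 152) (nat_lit 12828510829) (nat_lit 14) (nat_lit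 5) (nat_lit 15) (nat_lit 5) (nat_lit 16) (nat_lit 4) (nat_lit 316) (nat_lit 266) (nat_lit 138)) (XT.lf (nat_lit 0) (nat_lit 30045458659) (nat_lit 76) (nat_lit 41215677824) (nat_lit 152) (nat_lit 4688798571) (nat_lit 14) (nat_lit 5) (nat_lit 15) (nat_lit 5) (nat_lit 16) (nat_lit 4) (nat_lit 317) (nat_lit 266) (nat_lit 137)))) (XT.nd (nat_lit 156) (nat_lit 152) (nat_lit 0) (XT.nd (nat_lit 78) (nat_lit 0) (nat_lit 0) (XT.lf (nat_lit 0) (nat_lit 3731916119) (nat_lit 152) (nat_lit 25215989513) (nat_lit 76) (nat_lit 50088052010) (nat_lit 13) (nat_lit 5) (nat_lit 15) (nat_lit 5) (nat_lit 14) (nat_lit 5) (nat_lit 318) (nat_lit 266) (nat_lit 136)) (XT.lf (nat_lit 0) (nat_lit 12413705204) (nat_lit 152) (nat_lit 3573833885) (nat_lit 76) (nat_lit 66285022931) (nat_lit 13) (nat_lit 5) (nat_lit 15) (nat_lit 5) (nat_lit 14) (nat_lit 5) (nat_lit 319) (nat_lit 266) (nat_lit 135))) (XT.nd (nat_lit 78)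 (nat_lit 0) (nat_lit 0) (XT.lf (nat_lit 0) (nat_lit 19779801904) (nat_lit 152) (nat_lit 2056326682) (nat_lit 228) (nat_lit 63819545160) (nat_lit 11) (nat_lit 5) (nat_lit 13) (nat_lit 5) (nat_lit 14) (nat_lit 5) (nat_lit 320) (nat_lit 266) (nat_lit 134)) (XT.lf (nat_lit 0) (nat_lit 31985221288) (nat_lit 228) (nat_lit 44980725714) (nat_lit 76) (nat_lit 12229220813) (nat_lit 11) (nat_lit 5) (nat_lit 14) (nat_lit 5) (nat_lit 12) (nat_lit 4) (nat_lit 321) (nat_lit 266) (nat_lit 133))))) (XT.nd (nat_lit 312) (nat_lit 152) (nat_lit 0) (XT.nd (nat_lit 156) (nat_lit 76) (nat_lit 0) (XT.nd (nat_lit 78) (nat_lit 0) (nat_lit 0) (XT.lf (nat_lit 0) (nat_lit 42673341591) (nat_lit 228) (nat_lit 23078092644) (nat_lit 76) (nat_lit 27158627670) (nat_lit 11) (nat_lit 5) (nat_lit 14) (nat_lit 5) (nat_lit 12) (nat_lit 4) (nat_lit 322) (nat_lit 266) (nat_lit 132)) (XT.lf (nat_lit 0) (nat_lit 53893832378)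 (nat_lit 228) (nat_lit 83718483) (nat_lit 76) (nat_lit 42833255392) (nat_lit 11) (nat_lit 5) (nat_lit 14) (nat_lit 5) (nat_lit 12) (nat_lit 4) (nat_lit 323) (nat_lit 266) (nat_lit 131))) (XT.nd (nat_lit 78) (nat_lit 0) (nat_lit 0) (XT.lf (nat_lit 0) (nat_lit 24852583146) (nat_lit 76) (nat_lit 41208844430) (nat_lit 152) (nat_lit 34825859845) (nat_lit 10) (nat_lit 5) (nat_lit 11) (nat_lit 5) (nat_lit 12) (nat_lit 4) (nat_lit 324) (nat_lit 266) (nat_lit 130)) (XT.lf (nat_lit 0) (nat_lit 51035429348) (nat_lit 76) (nat_lit 27801495110) (nat_lit 152) (nat_lit 26330695519) (nat_lit 10) (nat_lit 5) (nat_lit 11) (nat_lit 5) (nat_lit 12) (nat_lit 4) (nat_lit 325) (nat_lit 266) (nat_lit 129)))) (XT.nd (nat_lit 156) (nat_lit 152) (nat_lit 0) (XT.nd (nat_lit 78) (nat_lit 0) (nat_lit 0) (XT.lf (nat_lit 0) (nat_lit 78524392123) (nat_lit 76) (nat_lit 13724998453) (nat_lit 152) (nat_lit 17412672127)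 (nat_lit 10) (nat_lit 5) (nat_lit 11) (nat_lit 5) (nat_lit 12) (nat_lit 4) (nat_lit 326) (nat_lit 266) (nat_lit 128)) (XT.lf (nat_lit 0) (nat_lit 106347218782) (nat_lit 152) (nat_lit 7012853681) (nat_lit 0) (nat_lit 1020421271) (nat_lit 10) (nat_lit 5) (nat_lit 12) (nat_lit 4) (nat_lit 10) (nat_lit 4) (nat_lit 327) (nat_lit 266) (nat_lit 127))) (XT.nd (nat_lit 78) (nat_lit 0) (nat_lit 0) (XT.lf (nat_lit 0) (nat_lit 2280565086) (nat_lit 152) (nat_lit 100657334162) (nat_lit 76) (nat_lit 16369354587) (nat_lit 8) (nat_lit 5) (nat_lit 10) (nat_lit 5) (nat_lit 9) (nat_lit 4) (nat_lit 328) (nat_lit 266) (nat_lit 126)) (XT.nd (nat_lit 78) (nat_lit 0) (nat_lit 0) (XT.lf (nat_lit 0) (nat_lit 12959190789) (nat_lit 152) (nat_lit 78771575358) (nat_lit 76) (nat_lit 32737050610) (nat_lit 8) (nat_lit 5) (nat_lit 10) (nat_lit 5) (nat_lit 9) (nat_lit 4) (nat_lit 329) (nat_lit 266) (nat_lit 125)) (XT.lf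 (nat_lit 0) (nat_lit 24170177607) (nat_lit 152) (nat_lit 55794217987) (nat_lit 76) (nat_lit 49922093294) (nat_lit 8) (nat_lit 5) (nat_lit 10) (nat_lit 5) (nat_lit 9) (nat_lit 4) (nat_lit 330) (nat_lit 266) (nat_lit 124))))))) (XT.nd (nat_lit 702) (nat_lit 152) (nat_lit 0) (XT.nd (nat_lit 312) (nat_lit 76) (nat_lit 0) (XT.nd (nat_lit 156) (nat_lit 76) (nat_lit 0) (XT.nd (nat_lit 78) (nat_lit 0) (nat_lit 0) (XT.lf (nat_lit 0) (nat_lit 35940218366) (nat_lit 152) (nat_lit 31670554057) (nat_lit 76) (nat_lit 67965399409) (nat_lit 8) (nat_lit 5) (nat_lit 10) (nat_lit 5) (nat_lit 9) (nat_lit 4) (nat_lit 331) (nat_lit 266) (nat_lit 123)) (XT.lf (nat_lit 0) (nat_lit 48297336971) (nat_lit 152) (nat_lit 6343146272) (nat_lit 76) (nat_lit 86909929206) (nat_lit 8) (nat_lit 5) (nat_lit 10) (nat_lit 5) (nat_lit 9) (nat_lit 4) (nat_lit 332) (nat_lit 266) (nat_lit 122))) (XT.nd (nat_lit 78) (nat_lit 0)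 (nat_lit 0) (XT.lf (nat_lit 0) (nat_lit 20917809249) (nat_lit 76) (nat_lit 40679731510) (nat_lit 152) (nat_lit 86209565084) (nat_lit 7) (nat_lit 5) (nat_lit 8) (nat_lit 5) (nat_lit 9) (nat_lit 4) (nat_lit 333) (nat_lit 266) (nat_lit 121)) (XT.lf (nat_lit 0) (nat_lit 49759746550) (nat_lit 76) (nat_lit 25909104969) (nat_lit 152) (nat_lit 78702479651) (nat_lit 7) (nat_lit 5) (nat_lit 8) (nat_lit 5) (nat_lit 9) (nat_lit 4) (nat_lit 334) (nat_lit 266) (nat_lit 120)))) (XT.nd (nat_lit 156) (nat_lit 76) (nat_lit 0) (XT.nd (nat_lit 78) (nat_lit 0) (nat_lit 0) (XT.lf (nat_lit 0) (nat_lit 80041603848) (nat_lit 76) (nat_lit 10400859713) (nat_lit 152) (nat_lit 70821369420) (nat_lit 7) (nat_lit 5) (nat_lit 8) (nat_lit 5) (nat_lit 9) (nat_lit 4) (nat_lit 335) (nat_lit 266) (nat_lit 119)) (XT.lf (nat_lit 0) (nat_lit 106045385541) (nat_lit 152) (nat_lit 56757374579) (nat_lit 0) (nat_lit 5693670200)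 (nat_lit 7) (nat_lit 5) (nat_lit 9) (nat_lit 4) (nat_lit 7) (nat_lit 4) (nat_lit 336) (nat_lit 266) (nat_lit 118))) (XT.nd (nat_lit 78) (nat_lit 76) (nat_lit 0) (XT.lf (nat_lit 0) (nat_lit 122597799876) (nat_lit 152) (nat_lit 31241803908) (nat_lit 0) (nat_lit 22242588249) (nat_lit 7) (nat_lit 5) (nat_lit 9) (nat_lit 4) (nat_lit 7) (nat_lit 4) (nat_lit 337) (nat_lit 266) (nat_lit 117)) (XT.nd (nat_lit 78) (nat_lit 76) (nat_lit 0) (XT.lf (nat_lit 0) (nat_lit 139976730506) (nat_lit 152) (nat_lit 4452379191) (nat_lit 0) (nat_lit 39618189084) (nat_lit 7) (nat_lit 5) (nat_lit 9) (nat_lit 4) (nat_lit 7) (nat_lit 4) (nat_lit 338) (nat_lit 266) (nat_lit 116)) (XT.lf (nat_lit 0) (nat_lit 24457475883) (nat_lit 76) (nat_lit 134147929696) (nat_lit 76) (nat_lit 33786217040) (nat_lit 6) (nat_lit 4) (nat_lit 7) (nat_lit 5) (nat_lit 7) (nat_lit 4) (nat_lit 339) (nat_lit 266) (nat_lit 115)))))) (XT.nd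 (nat_lit 312) (nat_lit 76) (nat_lit 0) (XT.nd (nat_lit 156) (nat_lit 76) (nat_lit 0) (XT.nd (nat_lit 78) (nat_lit 0) (nat_lit 0) (XT.lf (nat_lit 0) (nat_lit 54965596979) (nat_lit 76) (nat_lit 123274290726) (nat_lit 76) (nat_lit 22909557848) (nat_lit 6) (nat_lit 4) (nat_lit 7) (nat_lit 5) (nat_lit 7) (nat_lit 4) (nat_lit 340) (nat_lit 266) (nat_lit 114)) (XT.lf (nat_lit 0) (nat_lit 86997406717) (nat_lit 76) (nat_lit 111857706368) (nat_lit 76) (nat_lit 11490097087) (nat_lit 6) (nat_lit 4) (nat_lit 7) (nat_lit 5) (nat_lit 7) (nat_lit 4) (nat_lit 341) (nat_lit 266) (nat_lit 113))) (XT.nd (nat_lit 78) (nat_lit 0) (nat_lit 0) (XT.lf (nat_lit 0) (nat_lit 483371974) (nat_lit 152) (nat_lit 99379436164) (nat_lit 76) (nat_lit 120137613197) (nat_lit 5) (nat_lit 5) (nat_lit 7) (nat_lit 5) (nat_lit 6) (nat_lit 4) (nat_lit 342) (nat_lit 266) (nat_lit 112)) (XT.lf (nat_lit 0) (nat_lit 12668466322)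 (nat_lit 152) (nat_lit 74402601733) (nat_lit 76) (nat_lit 143057953459) (nat_lit 5) (nat_lit 5) (nat_lit 7) (nat_lit 5) (nat_lit 6) (nat_lit 4) (nat_lit 343) (nat_lit 266) (nat_lit 111)))) (XT.nd (nat_lit 156) (nat_lit 76) (nat_lit 0) (XT.nd (nat_lit 78) (nat_lit 0) (nat_lit 0) (XT.lf (nat_lit 0) (nat_lit 25461952949) (nat_lit 152) (nat_lit 48178438892) (nat_lit 76) (nat_lit 167123704212) (nat_lit 5) (nat_lit 5) (nat_lit 7) (nat_lit 5) (nat_lit 6) (nat_lit 4) (nat_lit 344) (nat_lit 266) (nat_lit 110)) (XT.lf (nat_lit 0) (nat_lit 38894292538) (nat_lit 152) (nat_lit 20644509159) (nat_lit 76) (nat_lit 192392164862) (nat_lit 5) (nat_lit 5) (nat_lit 7) (nat_lit 5) (nat_lit 6) (nat_lit 4) (nat_lit 345) (nat_lit 266) (nat_lit 109))) (XT.nd (nat_lit 78) (nat_lit 0) (nat_lit 0) (XT.lf (nat_lit 0) (nat_lit 8538014217) (nat_lit 76) (nat_lit 44592754961) (nat_lit 152) (nat_lit 210518786522) (nat_lit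 4) (nat_lit 5) (nat_lit 5) (nat_lit 5) (nat_lit 6) (nat_lit 4) (nat_lit 346) (nat_lit 266) (nat_lit 108)) (XT.nd (nat_lit 78) (nat_lit 0) (nat_lit 0) (XT.lf (nat_lit 0) (nat_lit 39895044025) (nat_lit 76) (nat_lit 28532884286) (nat_lit 152) (nat_lit 207508704117) (nat_lit 4) (nat_lit 5) (nat_lit 5) (nat_lit 5) (nat_lit 6) (nat_lit 4) (nat_lit 347) (nat_lit 266) (nat_lit 107)) (XT.lf (nat_lit 0) (nat_lit 72818639153) (nat_lit 76) (nat_lit 11670576638) (nat_lit 152) (nat_lit 204348884694) (nat_lit 4) (nat_lit 5) (nat_lit 5) (nat_lit 5) (nat_lit 6) (nat_lit 4) (nat_lit 348) (nat_lit 266) (nat_lit 106))))))))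
noncomputable def xc191 : XT := (XT.nd (nat_lit 32136) (nat_lit 0) (nat_lit 2204) (XT.nd (nat_lit 31434) (nat_lit 0) (nat_lit 4256) (XT.nd (nat_lit 390) (nat_lit 0) (nat_lit 0) (XT.nd (nat_lit 156) (nat_lit 0) (nat_lit 0) (XT.nd (nat_lit 78) (nat_lit 0) (nat_lit 0) (XT.lf (nat_lit 0) (nat_lit 101447085367) (nat_lit 152) (nat_lit 195091701130) (nat_lit 0) (nat_lit 5841180526) (nat_lit 4) (nat_lit 5) (nat_lit 6) (nat_lit 4) (nat_lit 4) (nat_lit 4) (nat_lit 349) (nat_lit 266) (nat_lit 105)) (XT.lf (nat_lit 0) (nat_lit 119443499690) (nat_lit 152) (nat_lit 173310066564) (nat_lit 0) (nat_lit 23835828987) (nat_lit 4) (nat_lit 5) (nat_lit 6) (nat_lit 4) (nat_lit 4) (nat_lit 4) (nat_lit 350) (nat_lit 266) (nat_lit 104))) (XT.nd (nat_lit 78) (nat_lit 0) (nat_lit 0) (XT.lf (nat_lit 0) (nat_lit 138339096957) (nat_lit 152) (nat_lit 150440486194) (nat_lit 0) (nat_lit 42729744481) (nat_lit 4) (nat_lit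 5) (nat_lit 6) (nat_lit 4) (nat_lit 4) (nat_lit 4) (nat_lit 351) (nat_lit 266) (nat_lit 103)) (XT.lf (nat_lit 0) (nat_lit 158178866687) (nat_lit 152) (nat_lit 126428508637) (nat_lit 0) (nat_lit 62567912522) (nat_lit 4) (nat_lit 5) (nat_lit 6) (nat_lit 4) (nat_lit 4) (nat_lit 4) (nat_lit 352) (nat_lit 266) (nat_lit 102)))) (XT.nd (nat_lit 30810) (nat_lit 0) (nat_lit 4636) (XT.nd (nat_lit 30732) (nat_lit 0) (nat_lit 4636) (XT.lf (nat_lit 0) (nat_lit 200882234219) (nat_lit 152) (nat_lit 74745820348) (nat_lit 0) (nat_lit 105268301858) (nat_lit 4) (nat_lit 5) (nat_lit 6) (nat_lit 4) (nat_lit 4) (nat_lit 4) (nat_lit 354) (nat_lit 266) (nat_lit 100)) (XT.lf (nat_lit 0) (nat_lit 160624897) (nat_lit 0) (nat_lit 160624897) (nat_lit 684) (nat_lit 7451291849) (nat_lit 65) (nat_lit 5) (nat_lit 65) (nat_lit 3) (nat_lit 74) (nat_lit 3) (nat_lit 267) (nat_lit 267) (nat_lit 186))) (XT.nd (nat_lit 78)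 (nat_lit 0) (nat_lit 0) (XT.lf (nat_lit 0) (nat_lit 1006137171) (nat_lit 684) (nat_lit 8901023085) (nat_lit 760) (nat_lit 6008171780) (nat_lit 65) (nat_lit 5) (nat_lit 74) (nat_lit 3) (nat_lit 75) (nat_lit 5) (nat_lit 268) (nat_lit 267) (nat_lit 185)) (XT.nd (nat_lit 78) (nat_lit 0) (nat_lit 76) (XT.lf (nat_lit 0) (nat_lit 1377302330) (nat_lit 684) (nat_lit 2276353066) (nat_lit 760) (nat_lit 12651034526) (nat_lit 65) (nat_lit 5) (nat_lit 74) (nat_lit 3) (nat_lit 75) (nat_lit 5) (nat_lit 269) (nat_lit 267) (nat_lit 184)) (XT.lf (nat_lit 0) (nat_lit 1874011746) (nat_lit 684) (nat_lit 11931969876) (nat_lit 760) (nat_lit 2902245718) (nat_lit 66) (nat_lit 5) (nat_lit 75) (nat_lit 5) (nat_lit 76) (nat_lit 5) (nat_lit 270) (nat_lit 267) (nat_lit 183)))))) (XT.nd (nat_lit 312) (nat_lit 456) (nat_lit 0) (XT.nd (nat_lit 156) (nat_lit 0) (nat_lit 76) (XT.nd (nat_lit 78) (nat_lit 0) (nat_lit 0)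 (XT.lf (nat_lit 0) (nat_lit 2480158973) (nat_lit 684) (nat_lit 4939342771) (nat_lit 760) (nat_lit 9708267805) (nat_lit 66) (nat_lit 5) (nat_lit 75) (nat_lit 5) (nat_lit 76) (nat_lit 5) (nat_lit 271) (nat_lit 267) (nat_lit 182)) (XT.lf (nat_lit 76) (nat_lit 2473188321) (nat_lit 0) (nat_lit 668251234) (nat_lit 760) (nat_lit 14425663287) (nat_lit 67) (nat_lit 5) (nat_lit 66) (nat_lit 5) (nat_lit 76) (nat_lit 5) (nat_lit 272) (nat_lit 267) (nat_lit 181))) (XT.nd (nat_lit 78) (nat_lit 0) (nat_lit 0) (XT.lf (nat_lit 0) (nat_lit 4007851922) (nat_lit 684) (nat_lit 7707533978) (nat_lit 760) (nat_lit 6304466152) (nat_lit 67) (nat_lit 5) (nat_lit 76) (nat_lit 5) (nat_lit 77) (nat_lit 5) (nat_lit 273) (nat_lit 267) (nat_lit 180)) (XT.lf (nat_lit 76) (nat_lit 29066480) (nat_lit 0) (nat_lit 4887358905) (nat_lit 760) (nat_lit 13578921450) (nat_lit 68) (nat_lit 5) (nat_lit 67) (nat_lit 5) (nat_lit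 77) (nat_lit 5) (nat_lit 274) (nat_lit 267) (nat_lit 179)))) (XT.nd (nat_lit 156) (nat_lit 608) (nat_lit 0) (XT.nd (nat_lit 78) (nat_lit 0) (nat_lit 0) (XT.lf (nat_lit 0) (nat_lit 6026668180) (nat_lit 684) (nat_lit 10615405015) (nat_lit 760) (nat_lit 2344778875) (nat_lit 68) (nat_lit 5) (nat_lit 77) (nat_lit 5) (nat_lit 78) (nat_lit 5) (nat_lit 275) (nat_lit 267) (nat_lit 178)) (XT.lf (nat_lit 0) (nat_lit 7261058507) (nat_lit 684) (nat_lit 2461278916) (nat_lit 760) (nat_lit 9777208847) (nat_lit 68) (nat_lit 5) (nat_lit 77) (nat_lit 5) (nat_lit 78) (nat_lit 5) (nat_lit 276) (nat_lit 267) (nat_lit 177))) (XT.nd (nat_lit 78) (nat_lit 608) (nat_lit 0) (XT.lf (nat_lit 76) (nat_lit 6293240906) (nat_lit 0) (nat_lit 2351244243) (nat_lit 760) (nat_lit 11389067501) (nat_lit 69) (nat_lit 5) (nat_lit 68) (nat_lit 5) (nat_lit 78) (nat_lit 5) (nat_lit 277) (nat_lit 267) (nat_lit 176)) (XT.nd (nat_lit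 78) (nat_lit 684) (nat_lit 0) (XT.lf (nat_lit 0) (nat_lit 10213056390) (nat_lit 684) (nat_lit 5115243917) (nat_lit 76) (nat_lit 5260201622) (nat_lit 69) (nat_lit 5) (nat_lit 78) (nat_lit 5) (nat_lit 70) (nat_lit 5) (nat_lit 278) (nat_lit 267) (nat_lit 175)) (XT.lf (nat_lit 0) (nat_lit 4022521870) (nat_lit 684) (nat_lit 7928862064) (nat_lit 760) (nat_lit 9215287634) (nat_lit 60) (nat_lit 5) (nat_lit 69) (nat_lit 5) (nat_lit 70) (nat_lit 5) (nat_lit 279) (nat_lit 267) (nat_lit 174))))))) (XT.nd (nat_lit 702) (nat_lit 760) (nat_lit 0) (XT.nd (nat_lit 312) (nat_lit 988) (nat_lit 0) (XT.nd (nat_lit 156) (nat_lit 0) (nat_lit 0) (XT.nd (nat_lit 78) (nat_lit 304) (nat_lit 0) (XT.lf (nat_lit 0) (nat_lit 13786150633) (nat_lit 684) (nat_lit 67428910) (nat_lit 760) (nat_lit 7916359972) (nat_lit 60) (nat_lit 5) (nat_lit 69) (nat_lit 5) (nat_lit 70) (nat_lit 5) (nat_lit 280) (nat_lit 267) (nat_lit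 173)) (XT.lf (nat_lit 0) (nat_lit 1547582013) (nat_lit 304) (nat_lit 14446087396) (nat_lit 380) (nat_lit 6402597857) (nat_lit 56) (nat_lit 5) (nat_lit 60) (nat_lit 5) (nat_lit 61) (nat_lit 5) (nat_lit 281) (nat_lit 267) (nat_lit 172))) (XT.nd (nat_lit 78) (nat_lit 0) (nat_lit 0) (XT.lf (nat_lit 0) (nat_lit 11822982182) (nat_lit 304) (nat_lit 6545181893) (nat_lit 380) (nat_lit 4679411247) (nat_lit 56) (nat_lit 5) (nat_lit 60) (nat_lit 5) (nat_lit 61) (nat_lit 5) (nat_lit 282) (nat_lit 267) (nat_lit 171)) (XT.lf (nat_lit 0) (nat_lit 20880249706) (nat_lit 380) (nat_lit 1155259605) (nat_lit 76) (nat_lit 1695028475) (nat_lit 56) (nat_lit 5) (nat_lit 61) (nat_lit 5) (nat_lit 57) (nat_lit 5) (nat_lit 283) (nat_lit 267) (nat_lit 170)))) (XT.nd (nat_lit 156) (nat_lit 608) (nat_lit 0) (XT.nd (nat_lit 78) (nat_lit 76) (nat_lit 0) (XT.lf (nat_lit 0) (nat_lit 9609591607) (nat_lit 304) (nat_lit 14157613800)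 (nat_lit 380) (nat_lit 668010455) (nat_lit 52) (nat_lit 5) (nat_lit 56) (nat_lit 5) (nat_lit 57) (nat_lit 5) (nat_lit 284) (nat_lit 267) (nat_lit 169)) (XT.lf (nat_lit 0) (nat_lit 1583344854) (nat_lit 380) (nat_lit 4255399036) (nat_lit 76) (nat_lit 19334548485) (nat_lit 51) (nat_lit 5) (nat_lit 56) (nat_lit 5) (nat_lit 52) (nat_lit 5) (nat_lit 285) (nat_lit 267) (nat_lit 168))) (XT.nd (nat_lit 78) (nat_lit 304) (nat_lit 0) (XT.lf (nat_lit 0) (nat_lit 4074498827) (nat_lit 380) (nat_lit 18939766448) (nat_lit 76) (nat_lit 2926002455) (nat_lit 47) (nat_lit 5) (nat_lit 52) (nat_lit 5) (nat_lit 48) (nat_lit 5) (nat_lit 286) (nat_lit 267) (nat_lit 167)) (XT.nd (nat_lit 78) (nat_lit 304) (nat_lit 0) (XT.lf (nat_lit 0) (nat_lit 6851822769) (nat_lit 380) (nat_lit 7880186320) (nat_lit 76) (nat_lit 12005527473) (nat_lit 47) (nat_lit 5) (nat_lit 52) (nat_lit 5) (nat_lit 48) (nat_lit 5) (nat_lit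 287) (nat_lit 267) (nat_lit 166)) (XT.lf (nat_lit 0) (nat_lit 3847680969) (nat_lit 304) (nat_lit 5973401673) (nat_lit 380) (nat_lit 17750956820) (nat_lit 43) (nat_lit 5) (nat_lit 47) (nat_lit 5) (nat_lit 48) (nat_lit 5) (nat_lit 288) (nat_lit 267) (nat_lit 165)))))) (XT.nd (nat_lit 312) (nat_lit 532) (nat_lit 0) (XT.nd (nat_lit 156) (nat_lit 0) (nat_lit 0) (XT.nd (nat_lit 78) (nat_lit 228) (nat_lit 0) (XT.lf (nat_lit 0) (nat_lit 13117965499) (nat_lit 380) (nat_lit 12066644073) (nat_lit 76) (nat_lit 3254722905) (nat_lit 43) (nat_lit 5) (nat_lit 48) (nat_lit 5) (nat_lit 44) (nat_lit 5) (nat_lit 289) (nat_lit 267) (nat_lit 164)) (XT.lf (nat_lit 0) (nat_lit 70612215) (nat_lit 228) (nat_lit 16601626638) (nat_lit 304) (nat_lit 12673145844) (nat_lit 40) (nat_lit 5) (nat_lit 43) (nat_lit 5) (nat_lit 44) (nat_lit 5) (nat_lit 290) (nat_lit 267) (nat_lit 163))) (XT.nd (nat_lit 78) (nat_lit 0)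 (nat_lit 0) (XT.lf (nat_lit 0) (nat_lit 13226102547) (nat_lit 228) (nat_lit 7376187715) (nat_lit 304) (nat_lit 9684566879) (nat_lit 40) (nat_lit 5) (nat_lit 43) (nat_lit 5) (nat_lit 44) (nat_lit 5) (nat_lit 291) (nat_lit 267) (nat_lit 162)) (XT.lf (nat_lit 0) (nat_lit 24758908624) (nat_lit 304) (nat_lit 4279605733) (nat_lit 76) (nat_lit 2235405471) (nat_lit 40) (nat_lit 5) (nat_lit 44) (nat_lit 5) (nat_lit 41) (nat_lit 5) (nat_lit 292) (nat_lit 267) (nat_lit 161)))) (XT.nd (nat_lit 156) (nat_lit 228) (nat_lit 0) (XT.nd (nat_lit 78) (nat_lit 76) (nat_lit 0) (XT.lf (nat_lit 0) (nat_lit 9310535525) (nat_lit 228) (nat_lit 20073383843) (nat_lit 304) (nat_lit 2913407103) (nat_lit 37) (nat_lit 5) (nat_lit 40) (nat_lit 5) (nat_lit 41) (nat_lit 5) (nat_lit 293) (nat_lit 267) (nat_lit 160)) (XT.lf (nat_lit 0) (nat_lit 908483351) (nat_lit 304) (nat_lit 9661490531) (nat_lit 76) (nat_lit 22797869069)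 (nat_lit 36) (nat_lit 5) (nat_lit 40) (nat_lit 5) (nat_lit 37) (nat_lit 5) (nat_lit 294) (nat_lit 267) (nat_lit 159))) (XT.nd (nat_lit 78) (nat_lit 0) (nat_lit 0) (XT.lf (nat_lit 0) (nat_lit 4416794721) (nat_lit 228) (nat_lit 470323612) (nat_lit 304) (nat_lit 29599217226) (nat_lit 33) (nat_lit 5) (nat_lit 36) (nat_lit 5) (nat_lit 37) (nat_lit 5) (nat_lit 295) (nat_lit 267) (nat_lit 158)) (XT.nd (nat_lit 78) (nat_lit 0) (nat_lit 0) (XT.lf (nat_lit 0) (nat_lit 9383942943) (nat_lit 304) (nat_lit 16286087112) (nat_lit 76) (nat_lit 9974775393) (nat_lit 33) (nat_lit 5) (nat_lit 37) (nat_lit 5) (nat_lit 34) (nat_lit 5) (nat_lit 296) (nat_lit 267) (nat_lit 157)) (XT.lf (nat_lit 0) (nat_lit 14108298592) (nat_lit 304) (nat_lit 1827863770) (nat_lit 76) (nat_lit 20924916784) (nat_lit 33) (nat_lit 5) (nat_lit 37) (nat_lit 5) (nat_lit 34) (nat_lit 5) (nat_lit 297) (nat_lit 267) (nat_lit 156))))))))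
noncomputable def xc192 : XT := (XT.nd (nat_lit 1326) (nat_lit 532) (nat_lit 0) (XT.nd (nat_lit 624) (nat_lit 532) (nat_lit 0) (XT.nd (nat_lit 312) (nat_lit 456) (nat_lit 0) (XT.nd (nat_lit 156) (nat_lit 152) (nat_lit 0) (XT.nd (nat_lit 78) (nat_lit 0) (nat_lit 0) (XT.lf (nat_lit 0) (nat_lit 13788205274) (nat_lit 228) (nat_lit 5491157928) (nat_lit 304) (nat_lit 18848292870) (nat_lit 30) (nat_lit 5) (nat_lit 33) (nat_lit 5) (nat_lit 34) (nat_lit 5) (nat_lit 298) (nat_lit 267) (nat_lit 155)) (XT.lf (nat_lit 0) (nat_lit 24821264623) (nat_lit 304) (nat_lit 9299973720) (nat_lit 76) (nat_lit 5330722749) (nat_lit 30) (nat_lit 5) (nat_lit 34) (nat_lit 5) (nat_lit 31) (nat_lit 5) (nat_lit 299) (nat_lit 267) (nat_lit 154))) (XT.nd (nat_lit 78) (nat_lit 0) (nat_lit 0) (XT.lf (nat_lit 0) (nat_lit 6606732008) (nat_lit 152) (nat_lit 24222243532) (nat_lit 228) (nat_lit 10004082890) (nat_lit 28) (nat_lit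 5) (nat_lit 30) (nat_lit 5) (nat_lit 31) (nat_lit 5) (nat_lit 300) (nat_lit 267) (nat_lit 153)) (XT.lf (nat_lit 0) (nat_lit 23625563929) (nat_lit 152) (nat_lit 13664670599) (nat_lit 228) (nat_lit 4985330162) (nat_lit 28) (nat_lit 5) (nat_lit 30) (nat_lit 5) (nat_lit 31) (nat_lit 5) (nat_lit 301) (nat_lit 267) (nat_lit 152)))) (XT.nd (nat_lit 156) (nat_lit 152) (nat_lit 0) (XT.nd (nat_lit 78) (nat_lit 228) (nat_lit 0) (XT.lf (nat_lit 0) (nat_lit 271049452) (nat_lit 228) (nat_lit 2305242213) (nat_lit 76) (nat_lit 41213904134) (nat_lit 27) (nat_lit 5) (nat_lit 30) (nat_lit 5) (nat_lit 28) (nat_lit 5) (nat_lit 302) (nat_lit 267) (nat_lit 151)) (XT.lf (nat_lit 0) (nat_lit 6003687599) (nat_lit 304) (nat_lit 30253836255) (nat_lit 76) (nat_lit 9099909828) (nat_lit 24) (nat_lit 5) (nat_lit 28) (nat_lit 5) (nat_lit 25) (nat_lit 5) (nat_lit 303) (nat_lit 267) (nat_lit 150))) (XT.nd (nat_lit 78)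 (nat_lit 152) (nat_lit 0) (XT.lf (nat_lit 0) (nat_lit 12100941310) (nat_lit 304) (nat_lit 13586792568) (nat_lit 76) (nat_lit 21311410418) (nat_lit 24) (nat_lit 5) (nat_lit 28) (nat_lit 5) (nat_lit 25) (nat_lit 5) (nat_lit 304) (nat_lit 267) (nat_lit 149)) (XT.lf (nat_lit 0) (nat_lit 4037348734) (nat_lit 152) (nat_lit 14524999461) (nat_lit 228) (nat_lit 30157637267) (nat_lit 22) (nat_lit 5) (nat_lit 24) (nat_lit 5) (nat_lit 25) (nat_lit 5) (nat_lit 305) (nat_lit 267) (nat_lit 148))))) (XT.nd (nat_lit 312) (nat_lit 380) (nat_lit 0) (XT.nd (nat_lit 156) (nat_lit 152) (nat_lit 0) (XT.nd (nat_lit 78) (nat_lit 0) (nat_lit 0) (XT.lf (nat_lit 0) (nat_lit 23009013225) (nat_lit 152) (nat_lit 2564261443) (nat_lit 228) (nat_lit 24942280643) (nat_lit 22) (nat_lit 5) (nat_lit 24) (nat_lit 5) (nat_lit 25) (nat_lit 5) (nat_lit 306) (nat_lit 267) (nat_lit 147)) (XT.lf (nat_lit 0) (nat_lit 33087288134)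 (nat_lit 228) (nat_lit 9632971829) (nat_lit 76) (nat_lit 9673025313) (nat_lit 22) (nat_lit 5) (nat_lit 25) (nat_lit 5) (nat_lit 23) (nat_lit 5) (nat_lit 307) (nat_lit 267) (nat_lit 146))) (XT.nd (nat_lit 78) (nat_lit 0) (nat_lit 0) (XT.lf (nat_lit 0) (nat_lit 9387668899) (nat_lit 152) (nat_lit 31774603317) (nat_lit 228) (nat_lit 13193374270) (nat_lit 20) (nat_lit 5) (nat_lit 22) (nat_lit 5) (nat_lit 23) (nat_lit 5) (nat_lit 308) (nat_lit 267) (nat_lit 145)) (XT.lf (nat_lit 0) (nat_lit 29688822904) (nat_lit 152) (nat_lit 20112068154) (nat_lit 228) (nat_lit 6607248272) (nat_lit 20) (nat_lit 5) (nat_lit 22) (nat_lit 5) (nat_lit 23) (nat_lit 5) (nat_lit 309) (nat_lit 267) (nat_lit 144)))) (XT.nd (nat_lit 156) (nat_lit 152) (nat_lit 0) (XT.nd (nat_lit 78) (nat_lit 152) (nat_lit 0) (XT.lf (nat_lit 0) (nat_lit 295163620) (nat_lit 228) (nat_lit 7567863213) (nat_lit 76) (nat_lit 50700154354)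 (nat_lit 19) (nat_lit 5) (nat_lit 22) (nat_lit 5) (nat_lit 20) (nat_lit 5) (nat_lit 310) (nat_lit 267) (nat_lit 143)) (XT.lf (nat_lit 0) (nat_lit 7601175590) (nat_lit 228) (nat_lit 48054589000) (nat_lit 76) (nat_lit 5150775232) (nat_lit 17) (nat_lit 5) (nat_lit 20) (nat_lit 5) (nat_lit 18) (nat_lit 5) (nat_lit 311) (nat_lit 267) (nat_lit 142))) (XT.nd (nat_lit 78) (nat_lit 152) (nat_lit 0) (XT.lf (nat_lit 0) (nat_lit 15528698116) (nat_lit 228) (nat_lit 28940820123) (nat_lit 76) (nat_lit 18679744113) (nat_lit 17) (nat_lit 5) (nat_lit 20) (nat_lit 5) (nat_lit 18) (nat_lit 5) (nat_lit 312) (nat_lit 267) (nat_lit 141)) (XT.nd (nat_lit 78) (nat_lit 152) (nat_lit 0) (XT.lf (nat_lit 0) (nat_lit 23849779036) (nat_lit 228) (nat_lit 8875794739) (nat_lit 76) (nat_lit 32883694272) (nat_lit 17) (nat_lit 5) (nat_lit 20) (nat_lit 5) (nat_lit 18) (nat_lit 5) (nat_lit 313) (nat_lit 267) (nat_lit 140))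 (XT.lf (nat_lit 0) (nat_lit 12591259973) (nat_lit 152) (nat_lit 20189555328) (nat_lit 228) (nat_lit 35401769519) (nat_lit 15) (nat_lit 5) (nat_lit 17) (nat_lit 5) (nat_lit 18) (nat_lit 5) (nat_lit 314) (nat_lit 267) (nat_lit 139))))))) (XT.nd (nat_lit 702) (nat_lit 228) (nat_lit 0) (XT.nd (nat_lit 312) (nat_lit 228) (nat_lit 0) (XT.nd (nat_lit 156) (nat_lit 76) (nat_lit 0) (XT.nd (nat_lit 78) (nat_lit 0) (nat_lit 0) (XT.lf (nat_lit 0) (nat_lit 35435662159) (nat_lit 152) (nat_lit 6870436495) (nat_lit 228) (nat_lit 28571089593) (nat_lit 15) (nat_lit 5) (nat_lit 17) (nat_lit 5) (nat_lit 18) (nat_lit 5) (nat_lit 315) (nat_lit 267) (nat_lit 138)) (XT.lf (nat_lit 0) (nat_lit 52416207021) (nat_lit 228) (nat_lit 14399379218) (nat_lit 76) (nat_lit 6885512879) (nat_lit 15) (nat_lit 5) (nat_lit 18) (nat_lit 5) (nat_lit 16) (nat_lit 4) (nat_lit 316) (nat_lit 267) (nat_lit 137))) (XT.nd (nat_lit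 78) (nat_lit 0) (nat_lit 0) (XT.lf (nat_lit 0) (nat_lit 7828951287) (nat_lit 76) (nat_lit 55435332833) (nat_lit 152) (nat_lit 13390303309) (nat_lit 14) (nat_lit 5) (nat_lit 15) (nat_lit 5) (nat_lit 16) (nat_lit 4) (nat_lit 317) (nat_lit 267) (nat_lit 136)) (XT.lf (nat_lit 0) (nat_lit 31664805717) (nat_lit 76) (nat_lit 43231475940) (nat_lit 152) (nat_lit 4847397488) (nat_lit 14) (nat_lit 5) (nat_lit 15) (nat_lit 5) (nat_lit 16) (nat_lit 4) (nat_lit 318) (nat_lit 267) (nat_lit 135)))) (XT.nd (nat_lit 156) (nat_lit 152) (nat_lit 0) (XT.nd (nat_lit 78) (nat_lit 0) (nat_lit 0) (XT.lf (nat_lit 0) (nat_lit 3988429663) (nat_lit 152) (nat_lit 26362843564) (nat_lit 76) (nat_lit 52632851948) (nat_lit 13) (nat_lit 5) (nat_lit 15) (nat_lit 5) (nat_lit 14) (nat_lit 5) (nat_lit 319) (nat_lit 267) (nat_lit 134)) (XT.lf (nat_lit 0) (nat_lit 13100978786) (nat_lit 152) (nat_lit 3644006127) (nat_lit 76)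 (nat_lit 69637747732) (nat_lit 13) (nat_lit 5) (nat_lit 15) (nat_lit 5) (nat_lit 14) (nat_lit 5) (nat_lit 320) (nat_lit 267) (nat_lit 133))) (XT.nd (nat_lit 78) (nat_lit 0) (nat_lit 0) (XT.lf (nat_lit 0) (nat_lit 20875561138) (nat_lit 152) (nat_lit 2117458293) (nat_lit 228) (nat_lit 66942061820) (nat_lit 11) (nat_lit 5) (nat_lit 13) (nat_lit 5) (nat_lit 14) (nat_lit 5) (nat_lit 321) (nat_lit 267) (nat_lit 132)) (XT.nd (nat_lit 78) (nat_lit 0) (nat_lit 0) (XT.lf (nat_lit 0) (nat_lit 33647087334) (nat_lit 228) (nat_lit 47125481519) (nat_lit 76) (nat_lit 12879110951) (nat_lit 11) (nat_lit 5) (nat_lit 14) (nat_lit 5) (nat_lit 12) (nat_lit 4) (nat_lit 322) (nat_lit 267) (nat_lit 131)) (XT.lf (nat_lit 0) (nat_lit 44866632463) (nat_lit 228) (nat_lit 24132682532) (nat_lit 76) (nat_lit 28553158194) (nat_lit 11) (nat_lit 5) (nat_lit 14) (nat_lit 5) (nat_lit 12) (nat_lit 4) (nat_lit 323) (nat_lit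 267) (nat_lit 130)))))) (XT.nd (nat_lit 312) (nat_lit 152) (nat_lit 0) (XT.nd (nat_lit 156) (nat_lit 0) (nat_lit 0) (XT.nd (nat_lit 78) (nat_lit 0) (nat_lit 0) (XT.lf (nat_lit 0) (nat_lit 6901969) (nat_lit 76) (nat_lit 56638514351) (nat_lit 152) (nat_lit 45002980275) (nat_lit 10) (nat_lit 5) (nat_lit 11) (nat_lit 5) (nat_lit 12) (nat_lit 4) (nat_lit 324) (nat_lit 267) (nat_lit 129)) (XT.lf (nat_lit 0) (nat_lit 26188272202) (nat_lit 76) (nat_lit 43231760216) (nat_lit 152) (nat_lit 36508742364) (nat_lit 10) (nat_lit 5) (nat_lit 11) (nat_lit 5) (nat_lit 12) (nat_lit 4) (nat_lit 325) (nat_lit 267) (nat_lit 128))) (XT.nd (nat_lit 78) (nat_lit 0) (nat_lit 0) (XT.lf (nat_lit 0) (nat_lit 53675829291) (nat_lit 76) (nat_lit 29155830402) (nat_lit 152) (nat_lit 27591601272) (nat_lit 10) (nat_lit 5) (nat_lit 11) (nat_lit 5) (nat_lit 12) (nat_lit 4) (nat_lit 326) (nat_lit 267) (nat_lit 127)) (XT.lf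 (nat_lit 0) (nat_lit 82535019801) (nat_lit 76) (nat_lit 14377210792) (nat_lit 152) (nat_lit 18230325712) (nat_lit 10) (nat_lit 5) (nat_lit 11) (nat_lit 5) (nat_lit 12) (nat_lit 4) (nat_lit 327) (nat_lit 267) (nat_lit 126)))) (XT.nd (nat_lit 156) (nat_lit 0) (nat_lit 0) (XT.nd (nat_lit 78) (nat_lit 152) (nat_lit 0) (XT.lf (nat_lit 0) (nat_lit 111713057730) (nat_lit 152) (nat_lit 7281128571) (nat_lit 0) (nat_lit 1102821543) (nat_lit 10) (nat_lit 5) (nat_lit 12) (nat_lit 4) (nat_lit 10) (nat_lit 4) (nat_lit 328) (nat_lit 267) (nat_lit 125)) (XT.lf (nat_lit 0) (nat_lit 2442885649) (nat_lit 152) (nat_lit 105607486210) (nat_lit 76) (nat_lit 17219751435) (nat_lit 8) (nat_lit 5) (nat_lit 10) (nat_lit 5) (nat_lit 9) (nat_lit 4) (nat_lit 329) (nat_lit 267) (nat_lit 124))) (XT.nd (nat_lit 78) (nat_lit 0) (nat_lit 0) (XT.lf (nat_lit 0) (nat_lit 13653143004) (nat_lit 152) (nat_lit 82631378258) (nat_lit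 76) (nat_lit 34404311825) (nat_lit 8) (nat_lit 5) (nat_lit 10) (nat_lit 5) (nat_lit 9) (nat_lit 4) (nat_lit 330) (nat_lit 267) (nat_lit 123)) (XT.nd (nat_lit 78) (nat_lit 0) (nat_lit 0) (XT.lf (nat_lit 0) (nat_lit 25422489035) (nat_lit 152) (nat_lit 58508904251) (nat_lit 76) (nat_lit 52447158611) (nat_lit 8) (nat_lit 5) (nat_lit 10) (nat_lit 5) (nat_lit 9) (nat_lit 4) (nat_lit 331) (nat_lit 267) (nat_lit 122)) (XT.lf (nat_lit 0) (nat_lit 37778945996) (nat_lit 152) (nat_lit 33182629726) (nat_lit 76) (nat_lit 71391250952) (nat_lit 8) (nat_lit 5) (nat_lit 10) (nat_lit 5) (nat_lit 9) (nat_lit 4) (nat_lit 332) (nat_lit 267) (nat_lit 121))))))))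
noncomputable def xc193 : XT := (XT.nd (nat_lit 1326) (nat_lit 0) (nat_lit 0) (XT.nd (nat_lit 624) (nat_lit 152) (nat_lit 0) (XT.nd (nat_lit 312) (nat_lit 76) (nat_lit 0) (XT.nd (nat_lit 156) (nat_lit 0) (nat_lit 0) (XT.nd (nat_lit 78) (nat_lit 76) (nat_lit 0) (XT.lf (nat_lit 0) (nat_lit 50751934022) (nat_lit 152) (nat_lit 6592254029) (nat_lit 76) (nat_lit 91281693831) (nat_lit 8) (nat_lit 5) (nat_lit 10) (nat_lit 5) (nat_lit 9) (nat_lit 4) (nat_lit 333) (nat_lit 267) (nat_lit 120)) (XT.lf (nat_lit 0) (nat_lit 22030651694) (nat_lit 76) (nat_lit 42685649699) (nat_lit 152) (nat_lit 90479153963) (nat_lit 7) (nat_lit 5) (nat_lit 8) (nat_lit 5) (nat_lit 9) (nat_lit 4) (nat_lit 334) (nat_lit 267) (nat_lit 119))) (XT.nd (nat_lit 78) (nat_lit 0) (nat_lit 0) (XT.lf (nat_lit 0) (nat_lit 52311497670) (nat_lit 76) (nat_lit 27177828421) (nat_lit 152) (nat_lit 82598661373) (nat_lit 7) (nat_lit 5)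 (nat_lit 8) (nat_lit 5) (nat_lit 9) (nat_lit 4) (nat_lit 335) (nat_lit 267) (nat_lit 118)) (XT.lf (nat_lit 0) (nat_lit 84104411462) (nat_lit 76) (nat_lit 10895443844) (nat_lit 152) (nat_lit 74325350023) (nat_lit 7) (nat_lit 5) (nat_lit 8) (nat_lit 5) (nat_lit 9) (nat_lit 4) (nat_lit 336) (nat_lit 267) (nat_lit 117)))) (XT.nd (nat_lit 156) (nat_lit 76) (nat_lit 0) (XT.nd (nat_lit 78) (nat_lit 0) (nat_lit 0) (XT.lf (nat_lit 0) (nat_lit 111381622486) (nat_lit 152) (nat_lit 59536053558) (nat_lit 0) (nat_lit 6001824198) (nat_lit 7) (nat_lit 5) (nat_lit 9) (nat_lit 4) (nat_lit 7) (nat_lit 4) (nat_lit 337) (nat_lit 267) (nat_lit 116)) (XT.lf (nat_lit 0) (nat_lit 128760040030) (nat_lit 152) (nat_lit 32747522912) (nat_lit 0) (nat_lit 23377070507) (nat_lit 7) (nat_lit 5) (nat_lit 9) (nat_lit 4) (nat_lit 7) (nat_lit 4) (nat_lit 338) (nat_lit 267) (nat_lit 115))) (XT.nd (nat_lit 78) (nat_lit 76)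 (nat_lit 0) (XT.lf (nat_lit 0) (nat_lit 147006376708) (nat_lit 152) (nat_lit 4621311302) (nat_lit 0) (nat_lit 41620386963) (nat_lit 7) (nat_lit 5) (nat_lit 9) (nat_lit 4) (nat_lit 7) (nat_lit 4) (nat_lit 339) (nat_lit 267) (nat_lit 114)) (XT.lf (nat_lit 0) (nat_lit 25733170609) (nat_lit 76) (nat_lit 140832672481) (nat_lit 76) (nat_lit 35443806333) (nat_lit 6) (nat_lit 4) (nat_lit 7) (nat_lit 5) (nat_lit 7) (nat_lit 4) (nat_lit 340) (nat_lit 267) (nat_lit 113))))) (XT.nd (nat_lit 312) (nat_lit 76) (nat_lit 0) (XT.nd (nat_lit 156) (nat_lit 76) (nat_lit 0) (XT.nd (nat_lit 78) (nat_lit 0) (nat_lit 0) (XT.lf (nat_lit 0) (nat_lit 57764182478) (nat_lit 76) (nat_lit 129416430310) (nat_lit 76) (nat_lit 24024824731) (nat_lit 6) (nat_lit 4) (nat_lit 7) (nat_lit 5) (nat_lit 7) (nat_lit 4) (nat_lit 341) (nat_lit 267) (nat_lit 112)) (XT.lf (nat_lit 0) (nat_lit 91395187195) (nat_lit 76) (nat_lit 117430044113)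 (nat_lit 76) (nat_lit 12035829552) (nat_lit 6) (nat_lit 4) (nat_lit 7) (nat_lit 5) (nat_lit 7) (nat_lit 4) (nat_lit 342) (nat_lit 267) (nat_lit 111))) (XT.nd (nat_lit 78) (nat_lit 0) (nat_lit 0) (XT.lf (nat_lit 0) (nat_lit 534065805) (nat_lit 152) (nat_lit 104301864405) (nat_lit 76) (nat_lit 126163148115) (nat_lit 5) (nat_lit 5) (nat_lit 7) (nat_lit 5) (nat_lit 6) (nat_lit 4) (nat_lit 343) (nat_lit 267) (nat_lit 110)) (XT.lf (nat_lit 0) (nat_lit 13327151763) (nat_lit 152) (nat_lit 78078404613) (nat_lit 76) (nat_lit 150228617092) (nat_lit 5) (nat_lit 5) (nat_lit 7) (nat_lit 5) (nat_lit 6) (nat_lit 4) (nat_lit 344) (nat_lit 267) (nat_lit 109)))) (XT.nd (nat_lit 156) (nat_lit 76) (nat_lit 0) (XT.nd (nat_lit 78) (nat_lit 0) (nat_lit 0) (XT.lf (nat_lit 0) (nat_lit 26759109763) (nat_lit 152) (nat_lit 50545144450) (nat_lit 76) (nat_lit 175496809384) (nat_lit 5) (nat_lit 5) (nat_lit 7) (nat_lit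 5) (nat_lit 6) (nat_lit 4) (nat_lit 345) (nat_lit 267) (nat_lit 108)) (XT.lf (nat_lit 0) (nat_lit 40861920657) (nat_lit 152) (nat_lit 21636528534) (nat_lit 76) (nat_lit 202027887354) (nat_lit 5) (nat_lit 5) (nat_lit 7) (nat_lit 5) (nat_lit 6) (nat_lit 4) (nat_lit 346) (nat_lit 267) (nat_lit 107))) (XT.nd (nat_lit 78) (nat_lit 0) (nat_lit 0) (XT.lf (nat_lit 0) (nat_lit 9004472526) (nat_lit 76) (nat_lit 46805275090) (nat_lit 152) (nat_lit 221021132759) (nat_lit 4) (nat_lit 5) (nat_lit 5) (nat_lit 5) (nat_lit 6) (nat_lit 4) (nat_lit 347) (nat_lit 267) (nat_lit 106)) (XT.nd (nat_lit 78) (nat_lit 0) (nat_lit 0) (XT.lf (nat_lit 0) (nat_lit 41927470129) (nat_lit 76) (nat_lit 29943226006) (nat_lit 152) (nat_lit 217861669714) (nat_lit 4) (nat_lit 5) (nat_lit 5) (nat_lit 5) (nat_lit 6) (nat_lit 4) (nat_lit 348) (nat_lit 267) (nat_lit 105)) (XT.lf (nat_lit 0) (nat_lit 76495451018) (nat_lit 76)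 (nat_lit 12238579285) (nat_lit 152) (nat_lit 214544929302) (nat_lit 4) (nat_lit 5) (nat_lit 5) (nat_lit 5) (nat_lit 6) (nat_lit 4) (nat_lit 349) (nat_lit 267) (nat_lit 104))))))) (XT.nd (nat_lit 31590) (nat_lit 0) (nat_lit 3952) (XT.nd (nat_lit 31200) (nat_lit 0) (nat_lit 4636) (XT.nd (nat_lit 312) (nat_lit 0) (nat_lit 0) (XT.nd (nat_lit 78) (nat_lit 0) (nat_lit 0) (XT.lf (nat_lit 0) (nat_lit 106539054997) (nat_lit 152) (nat_lit 204811349610) (nat_lit 0) (nat_lit 6147553124) (nat_lit 4) (nat_lit 5) (nat_lit 6) (nat_lit 4) (nat_lit 4) (nat_lit 4) (nat_lit 350) (nat_lit 267) (nat_lit 103)) (XT.lf (nat_lit 0) (nat_lit 125434355971) (nat_lit 152) (nat_lit 181942296962) (nat_lit 0) (nat_lit 25041252409) (nat_lit 4) (nat_lit 5) (nat_lit 6) (nat_lit 4) (nat_lit 4) (nat_lit 4) (nat_lit 351) (nat_lit 267) (nat_lit 102))) (XT.nd (nat_lit 30810) (nat_lit 0) (nat_lit 4636) (XT.lf (nat_lit 0) (nat_lit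 187976686352) (nat_lit 152) (nat_lit 106249068237) (nat_lit 0) (nat_lit 87579220995) (nat_lit 4) (nat_lit 5) (nat_lit 6) (nat_lit 4) (nat_lit 4) (nat_lit 4) (nat_lit 354) (nat_lit 267) (nat_lit 99)) (XT.lf (nat_lit 0) (nat_lit 292033866) (nat_lit 0) (nat_lit 292033866) (nat_lit 684) (nat_lit 7563779247) (nat_lit 65) (nat_lit 5) (nat_lit 65) (nat_lit 3) (nat_lit 74) (nat_lit 3) (nat_lit 268) (nat_lit 268) (nat_lit 184)))) (XT.nd (nat_lit 156) (nat_lit 0) (nat_lit 76) (XT.nd (nat_lit 78) (nat_lit 0) (nat_lit 0) (XT.lf (nat_lit 0) (nat_lit 1522785317) (nat_lit 684) (nat_lit 9082025205) (nat_lit 760) (nat_lit 6081096814) (nat_lit 65) (nat_lit 5) (nat_lit 74) (nat_lit 3) (nat_lit 75) (nat_lit 5) (nat_lit 269) (nat_lit 268) (nat_lit 183)) (XT.lf (nat_lit 0) (nat_lit 1890302006) (nat_lit 684) (nat_lit 2138695449) (nat_lit 760) (nat_lit 13066935247) (nat_lit 65) (nat_lit 5) (nat_lit 74) (nat_lit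 3) (nat_lit 75) (nat_lit 5) (nat_lit 270) (nat_lit 268) (nat_lit 182))) (XT.nd (nat_lit 78) (nat_lit 0) (nat_lit 0) (XT.lf (nat_lit 0) (nat_lit 2391759146) (nat_lit 684) (nat_lit 12255305365) (nat_lit 760) (nat_lit 2873671867) (nat_lit 66) (nat_lit 5) (nat_lit 75) (nat_lit 5) (nat_lit 76) (nat_lit 5) (nat_lit 271) (nat_lit 268) (nat_lit 181)) (XT.nd (nat_lit 78) (nat_lit 0) (nat_lit 0) (XT.lf (nat_lit 0) (nat_lit 3008021029) (nat_lit 684) (nat_lit 4926059428) (nat_lit 760) (nat_lit 10028265827) (nat_lit 66) (nat_lit 5) (nat_lit 75) (nat_lit 5) (nat_lit 76) (nat_lit 5) (nat_lit 272) (nat_lit 268) (nat_lit 180)) (XT.lf (nat_lit 76) (nat_lit 2852900629) (nat_lit 0) (nat_lit 834231566) (nat_lit 760) (nat_lit 14737352816) (nat_lit 67) (nat_lit 5) (nat_lit 66) (nat_lit 5) (nat_lit 76) (nat_lit 5) (nat_lit 273) (nat_lit 268) (nat_lit 179)))))) (XT.nd (nat_lit 312) (nat_lit 836) (nat_lit 0)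 (XT.nd (nat_lit 156) (nat_lit 0) (nat_lit 76) (XT.nd (nat_lit 78) (nat_lit 0) (nat_lit 0) (XT.lf (nat_lit 0) (nat_lit 4576388240) (nat_lit 684) (nat_lit 7827105326) (nat_lit 760) (nat_lit 6497475389) (nat_lit 67) (nat_lit 5) (nat_lit 76) (nat_lit 5) (nat_lit 77) (nat_lit 5) (nat_lit 274) (nat_lit 268) (nat_lit 178)) (XT.lf (nat_lit 76) (nat_lit 292037973) (nat_lit 0) (nat_lit 5224904781) (nat_lit 760) (nat_lit 13884038032) (nat_lit 68) (nat_lit 5) (nat_lit 67) (nat_lit 5) (nat_lit 77) (nat_lit 5) (nat_lit 275) (nat_lit 268) (nat_lit 177))) (XT.nd (nat_lit 78) (nat_lit 0) (nat_lit 0) (XT.lf (nat_lit 0) (nat_lit 6664421905) (nat_lit 684) (nat_lit 10877502574) (nat_lit 760) (nat_lit 2376117194) (nat_lit 68) (nat_lit 5) (nat_lit 77) (nat_lit 5) (nat_lit 78) (nat_lit 5) (nat_lit 276) (nat_lit 268) (nat_lit 176)) (XT.lf (nat_lit 0) (nat_lit 7944511733) (nat_lit 684) (nat_lit 2328464108) (nat_lit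 760) (nat_lit 10184259170) (nat_lit 68) (nat_lit 5) (nat_lit 77) (nat_lit 5) (nat_lit 78) (nat_lit 5) (nat_lit 277) (nat_lit 268) (nat_lit 175)))) (XT.nd (nat_lit 156) (nat_lit 912) (nat_lit 0) (XT.nd (nat_lit 78) (nat_lit 0) (nat_lit 76) (XT.lf (nat_lit 76) (nat_lit 6859654629) (nat_lit 0) (nat_lit 2526128470) (nat_lit 760) (nat_lit 11632785349) (nat_lit 69) (nat_lit 5) (nat_lit 68) (nat_lit 5) (nat_lit 78) (nat_lit 5) (nat_lit 278) (nat_lit 268) (nat_lit 174)) (XT.lf (nat_lit 0) (nat_lit 11017212767) (nat_lit 684) (nat_lit 5114521857) (nat_lit 76) (nat_lit 5470366605) (nat_lit 69) (nat_lit 5) (nat_lit 78) (nat_lit 5) (nat_lit 70) (nat_lit 5) (nat_lit 279) (nat_lit 268) (nat_lit 173))) (XT.nd (nat_lit 78) (nat_lit 304) (nat_lit 0) (XT.lf (nat_lit 0) (nat_lit 4475995377) (nat_lit 684) (nat_lit 8356424802) (nat_lit 760) (nat_lit 9377315787) (nat_lit 60) (nat_lit 5) (nat_lit 69) (nat_lit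 5) (nat_lit 70) (nat_lit 5) (nat_lit 280) (nat_lit 268) (nat_lit 172)) (XT.nd (nat_lit 78) (nat_lit 304) (nat_lit 0) (XT.lf (nat_lit 0) (nat_lit 14715789035) (nat_lit 684) (nat_lit 100438103) (nat_lit 760) (nat_lit 8027667277) (nat_lit 60) (nat_lit 5) (nat_lit 69) (nat_lit 5) (nat_lit 70) (nat_lit 5) (nat_lit 281) (nat_lit 268) (nat_lit 171)) (XT.lf (nat_lit 0) (nat_lit 1876178471) (nat_lit 304) (nat_lit 15177768891) (nat_lit 380) (nat_lit 6448109596) (nat_lit 56) (nat_lit 5) (nat_lit 60) (nat_lit 5) (nat_lit 61) (nat_lit 5) (nat_lit 282) (nat_lit 268) (nat_lit 170))))))))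
noncomputable def xc194 : XT := (XT.nd (nat_lit 1326) (nat_lit 1140) (nat_lit 0) (XT.nd (nat_lit 624) (nat_lit 988) (nat_lit 0) (XT.nd (nat_lit 312) (nat_lit 608) (nat_lit 0) (XT.nd (nat_lit 156) (nat_lit 380) (nat_lit 0) (XT.nd (nat_lit 78) (nat_lit 0) (nat_lit 0) (XT.lf (nat_lit 0) (nat_lit 12653385917) (nat_lit 304) (nat_lit 6881371583) (nat_lit 380) (nat_lit 4651840711) (nat_lit 56) (nat_lit 5) (nat_lit 60) (nat_lit 5) (nat_lit 61) (nat_lit 5) (nat_lit 283) (nat_lit 268) (nat_lit 169)) (XT.lf (nat_lit 0) (nat_lit 22160496276) (nat_lit 380) (nat_lit 972308361) (nat_lit 76) (nat_lit 1771546794) (nat_lit 56) (nat_lit 5) (nat_lit 61) (nat_lit 5) (nat_lit 57) (nat_lit 5) (nat_lit 284) (nat_lit 268) (nat_lit 168))) (XT.nd (nat_lit 78) (nat_lit 76) (nat_lit 0) (XT.lf (nat_lit 0) (nat_lit 10326902924) (nat_lit 304) (nat_lit 14857345204) (nat_lit 380) (nat_lit 460435796) (nat_lit 52) (nat_lit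 5) (nat_lit 56) (nat_lit 5) (nat_lit 57) (nat_lit 5) (nat_lit 285) (nat_lit 268) (nat_lit 167)) (XT.lf (nat_lit 0) (nat_lit 1884666831) (nat_lit 380) (nat_lit 4234490730) (nat_lit 76) (nat_lit 20300912912) (nat_lit 51) (nat_lit 5) (nat_lit 56) (nat_lit 5) (nat_lit 52) (nat_lit 5) (nat_lit 286) (nat_lit 268) (nat_lit 166)))) (XT.nd (nat_lit 156) (nat_lit 304) (nat_lit 0) (XT.nd (nat_lit 78) (nat_lit 0) (nat_lit 0) (XT.lf (nat_lit 0) (nat_lit 4493619426) (nat_lit 380) (nat_lit 19645575736) (nat_lit 76) (nat_lit 3086574472) (nat_lit 47) (nat_lit 5) (nat_lit 52) (nat_lit 5) (nat_lit 48) (nat_lit 5) (nat_lit 287) (nat_lit 268) (nat_lit 165)) (XT.lf (nat_lit 0) (nat_lit 7399552629) (nat_lit 380) (nat_lit 8044501317) (nat_lit 76) (nat_lit 12619396127) (nat_lit 47) (nat_lit 5) (nat_lit 52) (nat_lit 5) (nat_lit 48) (nat_lit 5) (nat_lit 288) (nat_lit 268) (nat_lit 164))) (XT.nd (nat_lit 78) (nat_lit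 0) (nat_lit 0) (XT.lf (nat_lit 0) (nat_lit 4266054589) (nat_lit 304) (nat_lit 6244980727) (nat_lit 380) (nat_lit 18428988450) (nat_lit 43) (nat_lit 5) (nat_lit 47) (nat_lit 5) (nat_lit 48) (nat_lit 5) (nat_lit 289) (nat_lit 268) (nat_lit 163)) (XT.lf (nat_lit 0) (nat_lit 13963693781) (nat_lit 380) (nat_lit 12445038873) (nat_lit 76) (nat_lit 3442434239) (nat_lit 43) (nat_lit 5) (nat_lit 48) (nat_lit 5) (nat_lit 44) (nat_lit 5) (nat_lit 290) (nat_lit 268) (nat_lit 162))))) (XT.nd (nat_lit 312) (nat_lit 532) (nat_lit 0) (XT.nd (nat_lit 156) (nat_lit 228) (nat_lit 0) (XT.nd (nat_lit 78) (nat_lit 0) (nat_lit 0) (XT.lf (nat_lit 0) (nat_lit 295452208) (nat_lit 228) (nat_lit 17394644332) (nat_lit 304) (nat_lit 13112734908) (nat_lit 40) (nat_lit 5) (nat_lit 43) (nat_lit 5) (nat_lit 44) (nat_lit 5) (nat_lit 291) (nat_lit 268) (nat_lit 161)) (XT.lf (nat_lit 0) (nat_lit 14098178514) (nat_lit 228)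 (nat_lit 7709698397) (nat_lit 304) (nat_lit 9983968339) (nat_lit 40) (nat_lit 5) (nat_lit 43) (nat_lit 5) (nat_lit 44) (nat_lit 5) (nat_lit 292) (nat_lit 268) (nat_lit 160))) (XT.nd (nat_lit 78) (nat_lit 228) (nat_lit 0) (XT.lf (nat_lit 0) (nat_lit 26164495244) (nat_lit 304) (nat_lit 4284467472) (nat_lit 76) (nat_lit 2379717577) (nat_lit 40) (nat_lit 5) (nat_lit 44) (nat_lit 5) (nat_lit 41) (nat_lit 5) (nat_lit 293) (nat_lit 268) (nat_lit 159)) (XT.lf (nat_lit 0) (nat_lit 9981807969) (nat_lit 228) (nat_lit 21034177909) (nat_lit 304) (nat_lit 2887536278) (nat_lit 37) (nat_lit 5) (nat_lit 40) (nat_lit 5) (nat_lit 41) (nat_lit 5) (nat_lit 294) (nat_lit 268) (nat_lit 158)))) (XT.nd (nat_lit 156) (nat_lit 228) (nat_lit 0) (XT.nd (nat_lit 78) (nat_lit 228) (nat_lit 0) (XT.lf (nat_lit 0) (nat_lit 1112051129) (nat_lit 304) (nat_lit 9942909754) (nat_lit 76) (nat_lit 23972888929) (nat_lit 36)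 (nat_lit 5) (nat_lit 40) (nat_lit 5) (nat_lit 37) (nat_lit 5) (nat_lit 295) (nat_lit 268) (nat_lit 157)) (XT.lf (nat_lit 0) (nat_lit 4836037255) (nat_lit 228) (nat_lit 449147581) (nat_lit 304) (nat_lit 30917326633) (nat_lit 33) (nat_lit 5) (nat_lit 36) (nat_lit 5) (nat_lit 37) (nat_lit 5) (nat_lit 296) (nat_lit 268) (nat_lit 156))) (XT.nd (nat_lit 78) (nat_lit 228) (nat_lit 0) (XT.lf (nat_lit 0) (nat_lit 10000195669) (nat_lit 304) (nat_lit 16904347757) (nat_lit 76) (nat_lit 10514715860) (nat_lit 33) (nat_lit 5) (nat_lit 37) (nat_lit 5) (nat_lit 34) (nat_lit 5) (nat_lit 297) (nat_lit 268) (nat_lit 155)) (XT.nd (nat_lit 78) (nat_lit 228) (nat_lit 0) (XT.lf (nat_lit 0) (nat_lit 14953766453) (nat_lit 304) (nat_lit 1732548663) (nat_lit 76) (nat_lit 22010402335) (nat_lit 33) (nat_lit 5) (nat_lit 37) (nat_lit 5) (nat_lit 34) (nat_lit 5) (nat_lit 298) (nat_lit 268) (nat_lit 154)) (XT.lf (nat_lit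 0) (nat_lit 14661312409) (nat_lit 228) (nat_lit 5718270720) (nat_lit 304) (nat_lit 19647249819) (nat_lit 30) (nat_lit 5) (nat_lit 33) (nat_lit 5) (nat_lit 34) (nat_lit 5) (nat_lit 299) (nat_lit 268) (nat_lit 153))))))) (XT.nd (nat_lit 702) (nat_lit 532) (nat_lit 0) (XT.nd (nat_lit 312) (nat_lit 380) (nat_lit 0) (XT.nd (nat_lit 156) (nat_lit 76) (nat_lit 0) (XT.nd (nat_lit 78) (nat_lit 152) (nat_lit 0) (XT.lf (nat_lit 0) (nat_lit 26192796919) (nat_lit 304) (nat_lit 9583865694) (nat_lit 76) (nat_lit 5640998472) (nat_lit 30) (nat_lit 5) (nat_lit 34) (nat_lit 5) (nat_lit 31) (nat_lit 5) (nat_lit 300) (nat_lit 268) (nat_lit 152)) (XT.lf (nat_lit 0) (nat_lit 7115254244) (nat_lit 152) (nat_lit 25382208302) (nat_lit 228) (nat_lit 10370540124) (nat_lit 28) (nat_lit 5) (nat_lit 30) (nat_lit 5) (nat_lit 31) (nat_lit 5) (nat_lit 301) (nat_lit 268) (nat_lit 151))) (XT.nd (nat_lit 78) (nat_lit 76)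 (nat_lit 0) (XT.lf (nat_lit 0) (nat_lit 24976542731) (nat_lit 152) (nat_lit 14299192313) (nat_lit 228) (nat_lit 5107218660) (nat_lit 28) (nat_lit 5) (nat_lit 30) (nat_lit 5) (nat_lit 31) (nat_lit 5) (nat_lit 302) (nat_lit 268) (nat_lit 150)) (XT.lf (nat_lit 0) (nat_lit 402031561) (nat_lit 228) (nat_lit 2254693753) (nat_lit 76) (nat_lit 43316800601) (nat_lit 27) (nat_lit 5) (nat_lit 30) (nat_lit 5) (nat_lit 28) (nat_lit 5) (nat_lit 303) (nat_lit 268) (nat_lit 149)))) (XT.nd (nat_lit 156) (nat_lit 152) (nat_lit 0) (XT.nd (nat_lit 78) (nat_lit 0) (nat_lit 0) (XT.lf (nat_lit 0) (nat_lit 6419017889) (nat_lit 304) (nat_lit 31598140254) (nat_lit 76) (nat_lit 9602096412) (nat_lit 24) (nat_lit 5) (nat_lit 28) (nat_lit 5) (nat_lit 25) (nat_lit 5) (nat_lit 304) (nat_lit 268) (nat_lit 148)) (XT.lf (nat_lit 0) (nat_lit 12815651147) (nat_lit 304) (nat_lit 14105762851) (nat_lit 76) (nat_lit 22421924837)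 (nat_lit 24) (nat_lit 5) (nat_lit 28) (nat_lit 5) (nat_lit 25) (nat_lit 5) (nat_lit 305) (nat_lit 268) (nat_lit 147))) (XT.nd (nat_lit 78) (nat_lit 0) (nat_lit 0) (XT.lf (nat_lit 0) (nat_lit 4396998914) (nat_lit 152) (nat_lit 15200370856) (nat_lit 228) (nat_lit 31553003530) (nat_lit 22) (nat_lit 5) (nat_lit 24) (nat_lit 5) (nat_lit 25) (nat_lit 5) (nat_lit 306) (nat_lit 268) (nat_lit 146)) (XT.nd (nat_lit 78) (nat_lit 0) (nat_lit 0) (XT.lf (nat_lit 0) (nat_lit 24309733166) (nat_lit 152) (nat_lit 2644018726) (nat_lit 228) (nat_lit 26082236961) (nat_lit 22) (nat_lit 5) (nat_lit 24) (nat_lit 5) (nat_lit 25) (nat_lit 5) (nat_lit 307) (nat_lit 268) (nat_lit 145)) (XT.lf (nat_lit 0) (nat_lit 34839338275) (nat_lit 228) (nat_lit 9967137589) (nat_lit 76) (nat_lit 10201347914) (nat_lit 22) (nat_lit 5) (nat_lit 25) (nat_lit 5) (nat_lit 23) (nat_lit 5) (nat_lit 308) (nat_lit 268) (nat_lit 144))))))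 (XT.nd (nat_lit 312) (nat_lit 152) (nat_lit 0) (XT.nd (nat_lit 156) (nat_lit 228) (nat_lit 0) (XT.nd (nat_lit 78) (nat_lit 0) (nat_lit 0) (XT.lf (nat_lit 0) (nat_lit 10002156420) (nat_lit 152) (nat_lit 33313528921) (nat_lit 228) (nat_lit 13752748516) (nat_lit 20) (nat_lit 5) (nat_lit 22) (nat_lit 5) (nat_lit 23) (nat_lit 5) (nat_lit 309) (nat_lit 268) (nat_lit 143)) (XT.lf (nat_lit 0) (nat_lit 31311458407) (nat_lit 152) (nat_lit 21070238645) (nat_lit 228) (nat_lit 6842092146) (nat_lit 20) (nat_lit 5) (nat_lit 22) (nat_lit 5) (nat_lit 23) (nat_lit 5) (nat_lit 310) (nat_lit 268) (nat_lit 142))) (XT.nd (nat_lit 78) (nat_lit 152) (nat_lit 0) (XT.lf (nat_lit 0) (nat_lit 397980229) (nat_lit 228) (nat_lit 7811532427) (nat_lit 76) (nat_lit 53277226005) (nat_lit 19) (nat_lit 5) (nat_lit 22) (nat_lit 5) (nat_lit 20) (nat_lit 5) (nat_lit 311) (nat_lit 268) (nat_lit 141)) (XT.lf (nat_lit 0) (nat_lit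 8067896843) (nat_lit 228) (nat_lit 50321009346) (nat_lit 76) (nat_lit 5453438298) (nat_lit 17) (nat_lit 5) (nat_lit 20) (nat_lit 5) (nat_lit 18) (nat_lit 5) (nat_lit 312) (nat_lit 268) (nat_lit 140)))) (XT.nd (nat_lit 156) (nat_lit 152) (nat_lit 0) (XT.nd (nat_lit 78) (nat_lit 0) (nat_lit 0) (XT.lf (nat_lit 0) (nat_lit 16387668711) (nat_lit 228) (nat_lit 30258042934) (nat_lit 76) (nat_lit 19656706846) (nat_lit 17) (nat_lit 5) (nat_lit 20) (nat_lit 5) (nat_lit 18) (nat_lit 5) (nat_lit 313) (nat_lit 268) (nat_lit 139)) (XT.lf (nat_lit 0) (nat_lit 25120873406) (nat_lit 228) (nat_lit 9195948100) (nat_lit 76) (nat_lit 34568808059) (nat_lit 17) (nat_lit 5) (nat_lit 20) (nat_lit 5) (nat_lit 18) (nat_lit 5) (nat_lit 314) (nat_lit 268) (nat_lit 138))) (XT.nd (nat_lit 78) (nat_lit 0) (nat_lit 0) (XT.lf (nat_lit 0) (nat_lit 13342465212) (nat_lit 152) (nat_lit 21154152333) (nat_lit 228) (nat_lit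 37091095001) (nat_lit 15) (nat_lit 5) (nat_lit 17) (nat_lit 5) (nat_lit 18) (nat_lit 5) (nat_lit 315) (nat_lit 268) (nat_lit 137)) (XT.nd (nat_lit 78) (nat_lit 0) (nat_lit 0) (XT.lf (nat_lit 0) (nat_lit 37323295020) (nat_lit 152) (nat_lit 7171214738) (nat_lit 228) (nat_lit 29922726936) (nat_lit 15) (nat_lit 5) (nat_lit 17) (nat_lit 5) (nat_lit 18) (nat_lit 5) (nat_lit 316) (nat_lit 268) (nat_lit 136)) (XT.lf (nat_lit 0) (nat_lit 55107277866) (nat_lit 228) (nat_lit 15006021158) (nat_lit 76) (nat_lit 7269193781) (nat_lit 15) (nat_lit 5) (nat_lit 18) (nat_lit 5) (nat_lit 16) (nat_lit 4) (nat_lit 317) (nat_lit 268) (nat_lit 135))))))))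
noncomputable def xc195 : XT := (XT.nd (nat_lit 1326) (nat_lit 304) (nat_lit 0) (XT.nd (nat_lit 624) (nat_lit 152) (nat_lit 0) (XT.nd (nat_lit 312) (nat_lit 228) (nat_lit 0) (XT.nd (nat_lit 156) (nat_lit 76) (nat_lit 0) (XT.nd (nat_lit 78) (nat_lit 0) (nat_lit 0) (XT.lf (nat_lit 0) (nat_lit 8331898017) (nat_lit 76) (nat_lit 58164255878) (nat_lit 152) (nat_lit 13987588939) (nat_lit 14) (nat_lit 5) (nat_lit 15) (nat_lit 5) (nat_lit 16) (nat_lit 4) (nat_lit 318) (nat_lit 268) (nat_lit 134)) (XT.lf (nat_lit 0) (nat_lit 33354235684) (nat_lit 76) (nat_lit 45352246312) (nat_lit 152) (nat_lit 5020977330) (nat_lit 14) (nat_lit 5) (nat_lit 15) (nat_lit 5) (nat_lit 16) (nat_lit 4) (nat_lit 319) (nat_lit 268) (nat_lit 133))) (XT.nd (nat_lit 78) (nat_lit 0) (nat_lit 0) (XT.lf (nat_lit 0) (nat_lit 4251268596) (nat_lit 152) (nat_lit 27577633883) (nat_lit 76) (nat_lit 55301136120) (nat_lit 13) (nat_lit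 5) (nat_lit 15) (nat_lit 5) (nat_lit 14) (nat_lit 5) (nat_lit 320) (nat_lit 268) (nat_lit 132)) (XT.lf (nat_lit 0) (nat_lit 13816425297) (nat_lit 152) (nat_lit 3727776091) (nat_lit 76) (nat_lit 73154531857) (nat_lit 13) (nat_lit 5) (nat_lit 15) (nat_lit 5) (nat_lit 14) (nat_lit 5) (nat_lit 321) (nat_lit 268) (nat_lit 131)))) (XT.nd (nat_lit 156) (nat_lit 76) (nat_lit 0) (XT.nd (nat_lit 78) (nat_lit 0) (nat_lit 0) (XT.lf (nat_lit 0) (nat_lit 22016181951) (nat_lit 152) (nat_lit 2185521935) (nat_lit 228) (nat_lit 70227069131) (nat_lit 11) (nat_lit 5) (nat_lit 13) (nat_lit 5) (nat_lit 14) (nat_lit 5) (nat_lit 322) (nat_lit 268) (nat_lit 130)) (XT.lf (nat_lit 0) (nat_lit 35386226265) (nat_lit 228) (nat_lit 49387170124) (nat_lit 76) (nat_lit 13557922822) (nat_lit 11) (nat_lit 5) (nat_lit 14) (nat_lit 5) (nat_lit 12) (nat_lit 4) (nat_lit 323) (nat_lit 268) (nat_lit 129))) (XT.nd (nat_lit 78)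 (nat_lit 76) (nat_lit 0) (XT.lf (nat_lit 0) (nat_lit 47164044623) (nat_lit 228) (nat_lit 25249235258) (nat_lit 76) (nat_lit 30014012603) (nat_lit 11) (nat_lit 5) (nat_lit 14) (nat_lit 5) (nat_lit 12) (nat_lit 4) (nat_lit 324) (nat_lit 268) (nat_lit 128)) (XT.lf (nat_lit 0) (nat_lit 95875542) (nat_lit 76) (nat_lit 59434700605) (nat_lit 152) (nat_lit 47197500266) (nat_lit 10) (nat_lit 5) (nat_lit 11) (nat_lit 5) (nat_lit 12) (nat_lit 4) (nat_lit 325) (nat_lit 268) (nat_lit 127))))) (XT.nd (nat_lit 312) (nat_lit 152) (nat_lit 0) (XT.nd (nat_lit 156) (nat_lit 0) (nat_lit 0) (XT.nd (nat_lit 78) (nat_lit 0) (nat_lit 0) (XT.lf (nat_lit 0) (nat_lit 27582093883) (nat_lit 76) (nat_lit 45359310643) (nat_lit 152) (nat_lit 38281199460) (nat_lit 10) (nat_lit 5) (nat_lit 11) (nat_lit 5) (nat_lit 12) (nat_lit 4) (nat_lit 326) (nat_lit 268) (nat_lit 126)) (XT.lf (nat_lit 0) (nat_lit 56440009395) (nat_lit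 76) (nat_lit 30581205176) (nat_lit 152) (nat_lit 28920724172) (nat_lit 10) (nat_lit 5) (nat_lit 11) (nat_lit 5) (nat_lit 12) (nat_lit 4) (nat_lit 327) (nat_lit 268) (nat_lit 125))) (XT.nd (nat_lit 78) (nat_lit 0) (nat_lit 0) (XT.lf (nat_lit 0) (nat_lit 86738331400) (nat_lit 76) (nat_lit 15065198240) (nat_lit 152) (nat_lit 19093787556) (nat_lit 10) (nat_lit 5) (nat_lit 11) (nat_lit 5) (nat_lit 12) (nat_lit 4) (nat_lit 328) (nat_lit 268) (nat_lit 124)) (XT.lf (nat_lit 0) (nat_lit 117342681600) (nat_lit 152) (nat_lit 7570474983) (nat_lit 0) (nat_lit 1186424487) (nat_lit 10) (nat_lit 5) (nat_lit 12) (nat_lit 4) (nat_lit 10) (nat_lit 4) (nat_lit 329) (nat_lit 268) (nat_lit 123)))) (XT.nd (nat_lit 156) (nat_lit 0) (nat_lit 0) (XT.nd (nat_lit 78) (nat_lit 0) (nat_lit 0) (XT.lf (nat_lit 0) (nat_lit 2608832480) (nat_lit 152) (nat_lit 110812835885) (nat_lit 76) (nat_lit 18109699659) (nat_lit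 8) (nat_lit 5) (nat_lit 10) (nat_lit 5) (nat_lit 9) (nat_lit 4) (nat_lit 330) (nat_lit 268) (nat_lit 122)) (XT.lf (nat_lit 0) (nat_lit 14377516866) (nat_lit 152) (nat_lit 86691495138) (nat_lit 76) (nat_lit 36152108989) (nat_lit 8) (nat_lit 5) (nat_lit 10) (nat_lit 5) (nat_lit 9) (nat_lit 4) (nat_lit 331) (nat_lit 268) (nat_lit 121))) (XT.nd (nat_lit 78) (nat_lit 0) (nat_lit 0) (XT.lf (nat_lit 0) (nat_lit 26733343689) (nat_lit 152) (nat_lit 61366299908) (nat_lit 76) (nat_lit 55095784706) (nat_lit 8) (nat_lit 5) (nat_lit 10) (nat_lit 5) (nat_lit 9) (nat_lit 4) (nat_lit 332) (nat_lit 268) (nat_lit 120)) (XT.nd (nat_lit 78) (nat_lit 0) (nat_lit 0) (XT.lf (nat_lit 0) (nat_lit 39705731583) (nat_lit 152) (nat_lit 34776952111) (nat_lit 76) (nat_lit 74985830800) (nat_lit 8) (nat_lit 5) (nat_lit 10) (nat_lit 5) (nat_lit 9) (nat_lit 4) (nat_lit 333) (nat_lit 268) (nat_lit 119)) (XT.lf (nat_lit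 0) (nat_lit 53325567187) (nat_lit 152) (nat_lit 6860143778) (nat_lit 76) (nat_lit 95869604522) (nat_lit 8) (nat_lit 5) (nat_lit 10) (nat_lit 5) (nat_lit 9) (nat_lit 4) (nat_lit 334) (nat_lit 268) (nat_lit 118))))))) (XT.nd (nat_lit 702) (nat_lit 152) (nat_lit 0) (XT.nd (nat_lit 312) (nat_lit 76) (nat_lit 0) (XT.nd (nat_lit 156) (nat_lit 0) (nat_lit 0) (XT.nd (nat_lit 78) (nat_lit 0) (nat_lit 0) (XT.lf (nat_lit 0) (nat_lit 23192911700) (nat_lit 76) (nat_lit 44794473330) (nat_lit 152) (nat_lit 94966023794) (nat_lit 7) (nat_lit 5) (nat_lit 8) (nat_lit 5) (nat_lit 9) (nat_lit 4) (nat_lit 335) (nat_lit 268) (nat_lit 117)) (XT.lf (nat_lit 0) (nat_lit 54984908194) (nat_lit 76) (nat_lit 28512473314) (nat_lit 152) (nat_lit 86693272662) (nat_lit 7) (nat_lit 5) (nat_lit 8) (nat_lit 5) (nat_lit 9) (nat_lit 4) (nat_lit 336) (nat_lit 268) (nat_lit 116))) (XT.nd (nat_lit 78) (nat_lit 0) (nat_lit 0)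 (XT.lf (nat_lit 0) (nat_lit 88364713596) (nat_lit 76) (nat_lit 11417124106) (nat_lit 152) (nat_lit 78007977734) (nat_lit 7) (nat_lit 5) (nat_lit 8) (nat_lit 5) (nat_lit 9) (nat_lit 4) (nat_lit 337) (nat_lit 268) (nat_lit 115)) (XT.lf (nat_lit 0) (nat_lit 116981513287) (nat_lit 152) (nat_lit 62459169387) (nat_lit 0) (nat_lit 6323203832) (nat_lit 7) (nat_lit 5) (nat_lit 9) (nat_lit 4) (nat_lit 7) (nat_lit 4) (nat_lit 338) (nat_lit 268) (nat_lit 114)))) (XT.nd (nat_lit 156) (nat_lit 76) (nat_lit 0) (XT.nd (nat_lit 78) (nat_lit 0) (nat_lit 0) (XT.lf (nat_lit 0) (nat_lit 135227384580) (nat_lit 152) (nat_lit 34333768726) (nat_lit 0) (nat_lit 24566198722) (nat_lit 7) (nat_lit 5) (nat_lit 9) (nat_lit 4) (nat_lit 7) (nat_lit 4) (nat_lit 339) (nat_lit 268) (nat_lit 113)) (XT.lf (nat_lit 0) (nat_lit 154384640828) (nat_lit 152) (nat_lit 4803681313) (nat_lit 0) (nat_lit 43720715539) (nat_lit 7)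 (nat_lit 5) (nat_lit 9) (nat_lit 4) (nat_lit 7) (nat_lit 4) (nat_lit 340) (nat_lit 268) (nat_lit 112))) (XT.nd (nat_lit 78) (nat_lit 0) (nat_lit 0) (XT.lf (nat_lit 0) (nat_lit 27067739281) (nat_lit 76) (nat_lit 147853758531) (nat_lit 76) (nat_lit 37187224260) (nat_lit 6) (nat_lit 4) (nat_lit 7) (nat_lit 5) (nat_lit 7) (nat_lit 4) (nat_lit 341) (nat_lit 268) (nat_lit 111)) (XT.nd (nat_lit 78) (nat_lit 0) (nat_lit 0) (XT.lf (nat_lit 0) (nat_lit 60698020308) (nat_lit 76) (nat_lit 135867682708) (nat_lit 76) (nat_lit 25198663692) (nat_lit 6) (nat_lit 4) (nat_lit 7) (nat_lit 5) (nat_lit 7) (nat_lit 4) (nat_lit 342) (nat_lit 268) (nat_lit 110)) (XT.lf (nat_lit 0) (nat_lit 96008402466) (nat_lit 76) (nat_lit 123282909063) (nat_lit 76) (nat_lit 12611523624) (nat_lit 6) (nat_lit 4) (nat_lit 7) (nat_lit 5) (nat_lit 7) (nat_lit 4) (nat_lit 343) (nat_lit 268) (nat_lit 109)))))) (XT.nd (nat_lit 312)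 (nat_lit 76) (nat_lit 0) (XT.nd (nat_lit 156) (nat_lit 0) (nat_lit 0) (XT.nd (nat_lit 78) (nat_lit 0) (nat_lit 0) (XT.lf (nat_lit 0) (nat_lit 584828262) (nat_lit 152) (nat_lit 109474741238) (nat_lit 76) (nat_lit 132488225482) (nat_lit 5) (nat_lit 5) (nat_lit 7) (nat_lit 5) (nat_lit 6) (nat_lit 4) (nat_lit 344) (nat_lit 268) (nat_lit 108)) (XT.lf (nat_lit 0) (nat_lit 14016422844) (nat_lit 152) (nat_lit 81942118760) (nat_lit 76) (nat_lit 157756162195) (nat_lit 5) (nat_lit 5) (nat_lit 7) (nat_lit 5) (nat_lit 6) (nat_lit 4) (nat_lit 345) (nat_lit 268) (nat_lit 107))) (XT.nd (nat_lit 78) (nat_lit 0) (nat_lit 0) (XT.lf (nat_lit 0) (nat_lit 28118887625) (nat_lit 152) (nat_lit 53034110164) (nat_lit 76) (nat_lit 184286996757) (nat_lit 5) (nat_lit 5) (nat_lit 7) (nat_lit 5) (nat_lit 6) (nat_lit 4) (nat_lit 346) (nat_lit 268) (nat_lit 106)) (XT.lf (nat_lit 0) (nat_lit 42925799903) (nat_lit 152)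 (nat_lit 22681886858) (nat_lit 76) (nat_lit 212143897820) (nat_lit 5) (nat_lit 5) (nat_lit 7) (nat_lit 5) (nat_lit 6) (nat_lit 4) (nat_lit 347) (nat_lit 268) (nat_lit 105)))) (XT.nd (nat_lit 156) (nat_lit 0) (nat_lit 0) (XT.nd (nat_lit 78) (nat_lit 0) (nat_lit 0) (XT.lf (nat_lit 0) (nat_lit 9490576060) (nat_lit 76) (nat_lit 49130012659) (nat_lit 152) (nat_lit 232050789770) (nat_lit 4) (nat_lit 5) (nat_lit 5) (nat_lit 5) (nat_lit 6) (nat_lit 4) (nat_lit 348) (nat_lit 268) (nat_lit 104)) (XT.lf (nat_lit 0) (nat_lit 44058014976) (nat_lit 76) (nat_lit 31425600463) (nat_lit 152) (nat_lit 228734372602) (nat_lit 4) (nat_lit 5) (nat_lit 5) (nat_lit 5) (nat_lit 6) (nat_lit 4) (nat_lit 349) (nat_lit 268) (nat_lit 103))) (XT.nd (nat_lit 78) (nat_lit 0) (nat_lit 0) (XT.lf (nat_lit 0) (nat_lit 80352767703) (nat_lit 76) (nat_lit 12836425542) (nat_lit 152) (nat_lit 225252765674) (nat_lit 4) (nat_lit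 5) (nat_lit 5) (nat_lit 5) (nat_lit 6) (nat_lit 4) (nat_lit 350) (nat_lit 268) (nat_lit 102)) (XT.nd (nat_lit 31122) (nat_lit 0) (nat_lit 4636) (XT.lf (nat_lit 0) (nat_lit 111883799458) (nat_lit 152) (nat_lit 215020228585) (nat_lit 0) (nat_lit 6467913612) (nat_lit 4) (nat_lit 5) (nat_lit 6) (nat_lit 4) (nat_lit 4) (nat_lit 4) (nat_lit 351) (nat_lit 268) (nat_lit 101)) (XT.lf (nat_lit 0) (nat_lit 418542792) (nat_lit 0) (nat_lit 418542792) (nat_lit 684) (nat_lit 7706070527) (nat_lit 65) (nat_lit 5) (nat_lit 65) (nat_lit 3) (nat_lit 74) (nat_lit 3) (nat_lit 269) (nat_lit 269) (nat_lit 182))))))))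
noncomputable def xc196 : XT := (XT.nd (nat_lit 1326) (nat_lit 1900) (nat_lit 0) (XT.nd (nat_lit 624) (nat_lit 988) (nat_lit 0) (XT.nd (nat_lit 312) (nat_lit 0) (nat_lit 76) (XT.nd (nat_lit 156) (nat_lit 0) (nat_lit 76) (XT.nd (nat_lit 78) (nat_lit 0) (nat_lit 0) (XT.lf (nat_lit 0) (nat_lit 2021909878) (nat_lit 684) (nat_lit 9296626208) (nat_lit 760) (nat_lit 6178817365) (nat_lit 65) (nat_lit 5) (nat_lit 74) (nat_lit 3) (nat_lit 75) (nat_lit 5) (nat_lit 270) (nat_lit 269) (nat_lit 181)) (XT.lf (nat_lit 0) (nat_lit 2387660244) (nat_lit 684) (nat_lit 2017534738) (nat_lit 760) (nat_lit 13523773162) (nat_lit 65) (nat_lit 5) (nat_lit 74) (nat_lit 3) (nat_lit 75) (nat_lit 5) (nat_lit 271) (nat_lit 269) (nat_lit 180))) (XT.nd (nat_lit 78) (nat_lit 0) (nat_lit 0) (XT.lf (nat_lit 0) (nat_lit 2895970063) (nat_lit 684) (nat_lit 12620213032) (nat_lit 760) (nat_lit 2859817014) (nat_lit 66) (nat_lit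 5) (nat_lit 75) (nat_lit 5) (nat_lit 76) (nat_lit 5) (nat_lit 272) (nat_lit 269) (nat_lit 179)) (XT.lf (nat_lit 0) (nat_lit 3524729661) (nat_lit 684) (nat_lit 4936307542) (nat_lit 760) (nat_lit 10379642503) (nat_lit 66) (nat_lit 5) (nat_lit 75) (nat_lit 5) (nat_lit 76) (nat_lit 5) (nat_lit 273) (nat_lit 269) (nat_lit 178)))) (XT.nd (nat_lit 156) (nat_lit 0) (nat_lit 76) (XT.nd (nat_lit 78) (nat_lit 0) (nat_lit 76) (XT.lf (nat_lit 76) (nat_lit 3227793182) (nat_lit 0) (nat_lit 996186020) (nat_lit 760) (nat_lit 15102706955) (nat_lit 67) (nat_lit 5) (nat_lit 66) (nat_lit 5) (nat_lit 76) (nat_lit 5) (nat_lit 274) (nat_lit 269) (nat_lit 177)) (XT.lf (nat_lit 0) (nat_lit 5139124860) (nat_lit 684) (nat_lit 7977367303) (nat_lit 760) (nat_lit 6711497395) (nat_lit 67) (nat_lit 5) (nat_lit 76) (nat_lit 5) (nat_lit 77) (nat_lit 5) (nat_lit 275) (nat_lit 269) (nat_lit 176))) (XT.nd (nat_lit 78) (nat_lit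 0) (nat_lit 76) (XT.lf (nat_lit 76) (nat_lit 543844559) (nat_lit 0) (nat_lit 5570665151) (nat_lit 760) (nat_lit 14239165567) (nat_lit 68) (nat_lit 5) (nat_lit 67) (nat_lit 5) (nat_lit 77) (nat_lit 5) (nat_lit 276) (nat_lit 269) (nat_lit 175)) (XT.lf (nat_lit 0) (nat_lit 7302786144) (nat_lit 684) (nat_lit 11177683651) (nat_lit 760) (nat_lit 2417008654) (nat_lit 68) (nat_lit 5) (nat_lit 77) (nat_lit 5) (nat_lit 78) (nat_lit 5) (nat_lit 277) (nat_lit 269) (nat_lit 174))))) (XT.nd (nat_lit 312) (nat_lit 608) (nat_lit 0) (XT.nd (nat_lit 156) (nat_lit 608) (nat_lit 0) (XT.nd (nat_lit 78) (nat_lit 0) (nat_lit 0) (XT.lf (nat_lit 0) (nat_lit 8632349838) (nat_lit 684) (nat_lit 2212797740) (nat_lit 760) (nat_lit 10619267939) (nat_lit 68) (nat_lit 5) (nat_lit 77) (nat_lit 5) (nat_lit 78) (nat_lit 5) (nat_lit 278) (nat_lit 269) (nat_lit 173)) (XT.lf (nat_lit 76) (nat_lit 7430983553) (nat_lit 0)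 (nat_lit 2704427651) (nat_lit 760) (nat_lit 11918972891) (nat_lit 69) (nat_lit 5) (nat_lit 68) (nat_lit 5) (nat_lit 78) (nat_lit 5) (nat_lit 279) (nat_lit 269) (nat_lit 172))) (XT.nd (nat_lit 78) (nat_lit 684) (nat_lit 0) (XT.lf (nat_lit 0) (nat_lit 11834289785) (nat_lit 684) (nat_lit 5137609168) (nat_lit 76) (nat_lit 5695952874) (nat_lit 69) (nat_lit 5) (nat_lit 78) (nat_lit 5) (nat_lit 70) (nat_lit 5) (nat_lit 280) (nat_lit 269) (nat_lit 171)) (XT.lf (nat_lit 0) (nat_lit 4928681689) (nat_lit 684) (nat_lit 8802472468) (nat_lit 760) (nat_lit 9575219012) (nat_lit 60) (nat_lit 5) (nat_lit 69) (nat_lit 5) (nat_lit 70) (nat_lit 5) (nat_lit 281) (nat_lit 269) (nat_lit 170)))) (XT.nd (nat_lit 156) (nat_lit 304) (nat_lit 0) (XT.nd (nat_lit 78) (nat_lit 304) (nat_lit 0) (XT.lf (nat_lit 0) (nat_lit 15669565671) (nat_lit 684) (nat_lit 132342318) (nat_lit 760) (nat_lit 8170991055) (nat_lit 60)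 (nat_lit 5) (nat_lit 69) (nat_lit 5) (nat_lit 70) (nat_lit 5) (nat_lit 282) (nat_lit 269) (nat_lit 169)) (XT.lf (nat_lit 0) (nat_lit 2197848942) (nat_lit 304) (nat_lit 15945162665) (nat_lit 380) (nat_lit 6521428315) (nat_lit 56) (nat_lit 5) (nat_lit 60) (nat_lit 5) (nat_lit 61) (nat_lit 5) (nat_lit 283) (nat_lit 269) (nat_lit 168))) (XT.nd (nat_lit 78) (nat_lit 304) (nat_lit 0) (XT.lf (nat_lit 0) (nat_lit 13503066211) (nat_lit 304) (nat_lit 7233540475) (nat_lit 380) (nat_lit 4647207259) (nat_lit 56) (nat_lit 5) (nat_lit 60) (nat_lit 5) (nat_lit 61) (nat_lit 5) (nat_lit 284) (nat_lit 269) (nat_lit 167)) (XT.nd (nat_lit 78) (nat_lit 304) (nat_lit 0) (XT.lf (nat_lit 0) (nat_lit 23482792369) (nat_lit 380) (nat_lit 802588882) (nat_lit 76) (nat_lit 1852656464) (nat_lit 56) (nat_lit 5) (nat_lit 61) (nat_lit 5) (nat_lit 57) (nat_lit 5) (nat_lit 285) (nat_lit 269) (nat_lit 166)) (XT.lf (nat_lit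 0) (nat_lit 11058061437) (nat_lit 304) (nat_lit 15592820821) (nat_lit 380) (nat_lit 264885992) (nat_lit 52) (nat_lit 5) (nat_lit 56) (nat_lit 5) (nat_lit 57) (nat_lit 5) (nat_lit 286) (nat_lit 269) (nat_lit 165))))))) (XT.nd (nat_lit 702) (nat_lit 760) (nat_lit 0) (XT.nd (nat_lit 312) (nat_lit 456) (nat_lit 0) (XT.nd (nat_lit 156) (nat_lit 304) (nat_lit 0) (XT.nd (nat_lit 78) (nat_lit 304) (nat_lit 0) (XT.lf (nat_lit 0) (nat_lit 2180401066) (nat_lit 380) (nat_lit 4234262199) (nat_lit 76) (nat_lit 21315629308) (nat_lit 51) (nat_lit 5) (nat_lit 56) (nat_lit 5) (nat_lit 52) (nat_lit 5) (nat_lit 287) (nat_lit 269) (nat_lit 164)) (XT.lf (nat_lit 0) (nat_lit 4913670608) (nat_lit 380) (nat_lit 20409098030) (nat_lit 76) (nat_lit 3253848225) (nat_lit 47) (nat_lit 5) (nat_lit 52) (nat_lit 5) (nat_lit 48) (nat_lit 5) (nat_lit 288) (nat_lit 269) (nat_lit 163))) (XT.nd (nat_lit 78) (nat_lit 304)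 (nat_lit 0) (XT.lf (nat_lit 0) (nat_lit 7955597128) (nat_lit 380) (nat_lit 8238386865) (nat_lit 76) (nat_lit 13262694533) (nat_lit 47) (nat_lit 5) (nat_lit 52) (nat_lit 5) (nat_lit 48) (nat_lit 5) (nat_lit 289) (nat_lit 269) (nat_lit 162)) (XT.lf (nat_lit 0) (nat_lit 4684336522) (nat_lit 304) (nat_lit 6532657401) (nat_lit 380) (nat_lit 19160400492) (nat_lit 43) (nat_lit 5) (nat_lit 47) (nat_lit 5) (nat_lit 48) (nat_lit 5) (nat_lit 290) (nat_lit 269) (nat_lit 161)))) (XT.nd (nat_lit 156) (nat_lit 228) (nat_lit 0) (XT.nd (nat_lit 78) (nat_lit 228) (nat_lit 0) (XT.lf (nat_lit 0) (nat_lit 14834059883) (nat_lit 380) (nat_lit 12863265960) (nat_lit 76) (nat_lit 3637209183) (nat_lit 43) (nat_lit 5) (nat_lit 48) (nat_lit 5) (nat_lit 44) (nat_lit 5) (nat_lit 291) (nat_lit 269) (nat_lit 160)) (XT.lf (nat_lit 0) (nat_lit 510958951) (nat_lit 228) (nat_lit 18230758736) (nat_lit 304) (nat_lit 13592346049)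 (nat_lit 40) (nat_lit 5) (nat_lit 43) (nat_lit 5) (nat_lit 44) (nat_lit 5) (nat_lit 292) (nat_lit 269) (nat_lit 159))) (XT.nd (nat_lit 78) (nat_lit 228) (nat_lit 0) (XT.lf (nat_lit 0) (nat_lit 14994262804) (nat_lit 228) (nat_lit 8063166353) (nat_lit 304) (nat_lit 10315523324) (nat_lit 40) (nat_lit 5) (nat_lit 43) (nat_lit 5) (nat_lit 44) (nat_lit 5) (nat_lit 293) (nat_lit 269) (nat_lit 158)) (XT.nd (nat_lit 78) (nat_lit 228) (nat_lit 0) (XT.lf (nat_lit 0) (nat_lit 27624775507) (nat_lit 304) (nat_lit 4309014158) (nat_lit 76) (nat_lit 2528219857) (nat_lit 40) (nat_lit 5) (nat_lit 44) (nat_lit 5) (nat_lit 41) (nat_lit 5) (nat_lit 294) (nat_lit 269) (nat_lit 157)) (XT.lf (nat_lit 0) (nat_lit 10667515754) (nat_lit 228) (nat_lit 22046997800) (nat_lit 304) (nat_lit 2876320185) (nat_lit 37) (nat_lit 5) (nat_lit 40) (nat_lit 5) (nat_lit 41) (nat_lit 5) (nat_lit 295) (nat_lit 269) (nat_lit 156))))))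 (XT.nd (nat_lit 312) (nat_lit 456) (nat_lit 0) (XT.nd (nat_lit 156) (nat_lit 0) (nat_lit 0) (XT.nd (nat_lit 78) (nat_lit 228) (nat_lit 0) (XT.lf (nat_lit 0) (nat_lit 1311094602) (nat_lit 304) (nat_lit 10257147938) (nat_lit 76) (nat_lit 25203394061) (nat_lit 36) (nat_lit 5) (nat_lit 40) (nat_lit 5) (nat_lit 37) (nat_lit 5) (nat_lit 296) (nat_lit 269) (nat_lit 155)) (XT.lf (nat_lit 0) (nat_lit 5257796305) (nat_lit 228) (nat_lit 431067806) (nat_lit 304) (nat_lit 32316388924) (nat_lit 33) (nat_lit 5) (nat_lit 36) (nat_lit 5) (nat_lit 37) (nat_lit 5) (nat_lit 297) (nat_lit 269) (nat_lit 154))) (XT.nd (nat_lit 78) (nat_lit 0) (nat_lit 0) (XT.lf (nat_lit 0) (nat_lit 10633589196) (nat_lit 304) (nat_lit 17571747721) (nat_lit 76) (nat_lit 11077822807) (nat_lit 33) (nat_lit 5) (nat_lit 37) (nat_lit 5) (nat_lit 34) (nat_lit 5) (nat_lit 298) (nat_lit 269) (nat_lit 153)) (XT.lf (nat_lit 0) (nat_lit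 15828486914) (nat_lit 304) (nat_lit 1649826168) (nat_lit 76) (nat_lit 23146514027) (nat_lit 33) (nat_lit 5) (nat_lit 37) (nat_lit 5) (nat_lit 34) (nat_lit 5) (nat_lit 299) (nat_lit 269) (nat_lit 152)))) (XT.nd (nat_lit 156) (nat_lit 228) (nat_lit 0) (XT.nd (nat_lit 78) (nat_lit 0) (nat_lit 0) (XT.lf (nat_lit 0) (nat_lit 15560996507) (nat_lit 228) (nat_lit 5961150148) (nat_lit 304) (nat_lit 20499491952) (nat_lit 30) (nat_lit 5) (nat_lit 33) (nat_lit 5) (nat_lit 34) (nat_lit 5) (nat_lit 300) (nat_lit 269) (nat_lit 151)) (XT.lf (nat_lit 0) (nat_lit 27620776053) (nat_lit 304) (nat_lit 9898789852) (nat_lit 76) (nat_lit 5962721489) (nat_lit 30) (nat_lit 5) (nat_lit 34) (nat_lit 5) (nat_lit 31) (nat_lit 5) (nat_lit 301) (nat_lit 269) (nat_lit 150))) (XT.nd (nat_lit 78) (nat_lit 76) (nat_lit 0) (XT.lf (nat_lit 0) (nat_lit 7632636581) (nat_lit 152) (nat_lit 26604926512) (nat_lit 228) (nat_lit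 10767754739) (nat_lit 28) (nat_lit 5) (nat_lit 30) (nat_lit 5) (nat_lit 31) (nat_lit 5) (nat_lit 302) (nat_lit 269) (nat_lit 149)) (XT.nd (nat_lit 78) (nat_lit 76) (nat_lit 0) (XT.lf (nat_lit 0) (nat_lit 26379293320) (nat_lit 152) (nat_lit 14969968875) (nat_lit 228) (nat_lit 5247043982) (nat_lit 28) (nat_lit 5) (nat_lit 30) (nat_lit 5) (nat_lit 31) (nat_lit 5) (nat_lit 303) (nat_lit 269) (nat_lit 148)) (XT.lf (nat_lit 0) (nat_lit 528645282) (nat_lit 228) (nat_lit 2217033366) (nat_lit 76) (nat_lit 45520918418) (nat_lit 27) (nat_lit 5) (nat_lit 30) (nat_lit 5) (nat_lit 28) (nat_lit 5) (nat_lit 304) (nat_lit 269) (nat_lit 147))))))))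
noncomputable def xc197 : XT := (XT.nd (nat_lit 1326) (nat_lit 456) (nat_lit 0) (XT.nd (nat_lit 624) (nat_lit 456) (nat_lit 0) (XT.nd (nat_lit 312) (nat_lit 228) (nat_lit 0) (XT.nd (nat_lit 156) (nat_lit 152) (nat_lit 0) (XT.nd (nat_lit 78) (nat_lit 0) (nat_lit 0) (XT.lf (nat_lit 0) (nat_lit 6844409517) (nat_lit 304) (nat_lit 33025314557) (nat_lit 76) (nat_lit 10125004945) (nat_lit 24) (nat_lit 5) (nat_lit 28) (nat_lit 5) (nat_lit 25) (nat_lit 5) (nat_lit 305) (nat_lit 269) (nat_lit 146)) (XT.lf (nat_lit 0) (nat_lit 13555901070) (nat_lit 304) (nat_lit 14665591269) (nat_lit 76) (nat_lit 23583786519) (nat_lit 24) (nat_lit 5) (nat_lit 28) (nat_lit 5) (nat_lit 25) (nat_lit 5) (nat_lit 306) (nat_lit 269) (nat_lit 145))) (XT.nd (nat_lit 78) (nat_lit 0) (nat_lit 0) (XT.lf (nat_lit 0) (nat_lit 4759962459) (nat_lit 152) (nat_lit 15914241028) (nat_lit 228) (nat_lit 33028598740) (nat_lit 22) (nat_lit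 5) (nat_lit 24) (nat_lit 5) (nat_lit 25) (nat_lit 5) (nat_lit 307) (nat_lit 269) (nat_lit 144)) (XT.lf (nat_lit 0) (nat_lit 25661518491) (nat_lit 152) (nat_lit 2732268833) (nat_lit 228) (nat_lit 27289153603) (nat_lit 22) (nat_lit 5) (nat_lit 24) (nat_lit 5) (nat_lit 25) (nat_lit 5) (nat_lit 308) (nat_lit 269) (nat_lit 143)))) (XT.nd (nat_lit 156) (nat_lit 76) (nat_lit 0) (XT.nd (nat_lit 78) (nat_lit 152) (nat_lit 0) (XT.lf (nat_lit 0) (nat_lit 36669909030) (nat_lit 228) (nat_lit 10331723193) (nat_lit 76) (nat_lit 10751933526) (nat_lit 22) (nat_lit 5) (nat_lit 25) (nat_lit 5) (nat_lit 23) (nat_lit 5) (nat_lit 309) (nat_lit 269) (nat_lit 142)) (XT.lf (nat_lit 0) (nat_lit 10633877916) (nat_lit 152) (nat_lit 34934031161) (nat_lit 228) (nat_lit 14349415904) (nat_lit 20) (nat_lit 5) (nat_lit 22) (nat_lit 5) (nat_lit 23) (nat_lit 5) (nat_lit 310) (nat_lit 269) (nat_lit 141))) (XT.nd (nat_lit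 78) (nat_lit 76) (nat_lit 0) (XT.lf (nat_lit 0) (nat_lit 33002377684) (nat_lit 152) (nat_lit 22080727524) (nat_lit 228) (nat_lit 7097558622) (nat_lit 20) (nat_lit 5) (nat_lit 22) (nat_lit 5) (nat_lit 23) (nat_lit 5) (nat_lit 311) (nat_lit 269) (nat_lit 140)) (XT.lf (nat_lit 0) (nat_lit 497750831) (nat_lit 228) (nat_lit 8079910457) (nat_lit 76) (nat_lit 55979240533) (nat_lit 19) (nat_lit 5) (nat_lit 22) (nat_lit 5) (nat_lit 20) (nat_lit 5) (nat_lit 312) (nat_lit 269) (nat_lit 139))))) (XT.nd (nat_lit 312) (nat_lit 152) (nat_lit 0) (XT.nd (nat_lit 156) (nat_lit 152) (nat_lit 0) (XT.nd (nat_lit 78) (nat_lit 0) (nat_lit 0) (XT.lf (nat_lit 0) (nat_lit 8549897104) (nat_lit 228) (nat_lit 52713423438) (nat_lit 76) (nat_lit 5767039287) (nat_lit 17) (nat_lit 5) (nat_lit 20) (nat_lit 5) (nat_lit 18) (nat_lit 5) (nat_lit 313) (nat_lit 269) (nat_lit 138)) (XT.lf (nat_lit 0) (nat_lit 17281914450)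 (nat_lit 228) (nat_lit 31653196152) (nat_lit 76) (nat_lit 20678522259) (nat_lit 17) (nat_lit 5) (nat_lit 20) (nat_lit 5) (nat_lit 18) (nat_lit 5) (nat_lit 314) (nat_lit 269) (nat_lit 137))) (XT.nd (nat_lit 78) (nat_lit 152) (nat_lit 0) (XT.lf (nat_lit 0) (nat_lit 26448214508) (nat_lit 228) (nat_lit 9543603668) (nat_lit 76) (nat_lit 36334372339) (nat_lit 17) (nat_lit 5) (nat_lit 20) (nat_lit 5) (nat_lit 18) (nat_lit 5) (nat_lit 315) (nat_lit 269) (nat_lit 136)) (XT.lf (nat_lit 0) (nat_lit 14119921571) (nat_lit 152) (nat_lit 22171151776) (nat_lit 228) (nat_lit 38872395335) (nat_lit 15) (nat_lit 5) (nat_lit 17) (nat_lit 5) (nat_lit 18) (nat_lit 5) (nat_lit 316) (nat_lit 269) (nat_lit 135)))) (XT.nd (nat_lit 156) (nat_lit 152) (nat_lit 0) (XT.nd (nat_lit 78) (nat_lit 0) (nat_lit 0) (XT.lf (nat_lit 0) (nat_lit 39294538912) (nat_lit 152) (nat_lit 7491005786) (nat_lit 228) (nat_lit 31349097172)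 (nat_lit 15) (nat_lit 5) (nat_lit 17) (nat_lit 5) (nat_lit 18) (nat_lit 5) (nat_lit 317) (nat_lit 269) (nat_lit 134)) (XT.lf (nat_lit 0) (nat_lit 57926370098) (nat_lit 228) (nat_lit 15653531267) (nat_lit 76) (nat_lit 7668395200) (nat_lit 15) (nat_lit 5) (nat_lit 18) (nat_lit 5) (nat_lit 16) (nat_lit 4) (nat_lit 318) (nat_lit 269) (nat_lit 133))) (XT.nd (nat_lit 78) (nat_lit 76) (nat_lit 0) (XT.lf (nat_lit 0) (nat_lit 8849625948) (nat_lit 76) (nat_lit 61033608268) (nat_lit 152) (nat_lit 14621454069) (nat_lit 14) (nat_lit 5) (nat_lit 15) (nat_lit 5) (nat_lit 16) (nat_lit 4) (nat_lit 319) (nat_lit 269) (nat_lit 132)) (XT.nd (nat_lit 78) (nat_lit 76) (nat_lit 0) (XT.lf (nat_lit 0) (nat_lit 35118264640) (nat_lit 76) (nat_lit 47582848719) (nat_lit 152) (nat_lit 5209631609) (nat_lit 14) (nat_lit 5) (nat_lit 15) (nat_lit 5) (nat_lit 16) (nat_lit 4) (nat_lit 320) (nat_lit 269) (nat_lit 131))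 (XT.lf (nat_lit 0) (nat_lit 4521353522) (nat_lit 152) (nat_lit 28862772394) (nat_lit 76) (nat_lit 58099427915) (nat_lit 13) (nat_lit 5) (nat_lit 15) (nat_lit 5) (nat_lit 14) (nat_lit 5) (nat_lit 321) (nat_lit 269) (nat_lit 130))))))) (XT.nd (nat_lit 702) (nat_lit 228) (nat_lit 0) (XT.nd (nat_lit 312) (nat_lit 76) (nat_lit 0) (XT.nd (nat_lit 156) (nat_lit 0) (nat_lit 0) (XT.nd (nat_lit 78) (nat_lit 152) (nat_lit 0) (XT.lf (nat_lit 0) (nat_lit 14562028939) (nat_lit 152) (nat_lit 3824885674) (nat_lit 76) (nat_lit 76843910820) (nat_lit 13) (nat_lit 5) (nat_lit 15) (nat_lit 5) (nat_lit 14) (nat_lit 5) (nat_lit 322) (nat_lit 269) (nat_lit 129)) (XT.lf (nat_lit 0) (nat_lit 23204830283) (nat_lit 152) (nat_lit 2260503907) (nat_lit 228) (nat_lit 73682099885) (nat_lit 11) (nat_lit 5) (nat_lit 13) (nat_lit 5) (nat_lit 14) (nat_lit 5) (nat_lit 323) (nat_lit 269) (nat_lit 128))) (XT.nd (nat_lit 78)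 (nat_lit 0) (nat_lit 0) (XT.lf (nat_lit 0) (nat_lit 37207042851) (nat_lit 228) (nat_lit 51770736820) (nat_lit 76) (nat_lit 14267434676) (nat_lit 11) (nat_lit 5) (nat_lit 14) (nat_lit 5) (nat_lit 12) (nat_lit 4) (nat_lit 324) (nat_lit 269) (nat_lit 127)) (XT.lf (nat_lit 0) (nat_lit 49571299495) (nat_lit 228) (nat_lit 26429990535) (nat_lit 76) (nat_lit 31544823436) (nat_lit 11) (nat_lit 5) (nat_lit 14) (nat_lit 5) (nat_lit 12) (nat_lit 4) (nat_lit 325) (nat_lit 269) (nat_lit 126)))) (XT.nd (nat_lit 156) (nat_lit 0) (nat_lit 0) (XT.nd (nat_lit 78) (nat_lit 0) (nat_lit 0) (XT.lf (nat_lit 0) (nat_lit 181057959) (nat_lit 76) (nat_lit 62374018889) (nat_lit 152) (nat_lit 49506918116) (nat_lit 10) (nat_lit 5) (nat_lit 11) (nat_lit 5) (nat_lit 12) (nat_lit 4) (nat_lit 326) (nat_lit 269) (nat_lit 125)) (XT.lf (nat_lit 0) (nat_lit 29037759186) (nat_lit 76) (nat_lit 47596403083) (nat_lit 152) (nat_lit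 40147204991) (nat_lit 10) (nat_lit 5) (nat_lit 11) (nat_lit 5) (nat_lit 12) (nat_lit 4) (nat_lit 327) (nat_lit 269) (nat_lit 124))) (XT.nd (nat_lit 78) (nat_lit 0) (nat_lit 0) (XT.lf (nat_lit 0) (nat_lit 59334924730) (nat_lit 76) (nat_lit 32080862490) (nat_lit 152) (nat_lit 30320994246) (nat_lit 10) (nat_lit 5) (nat_lit 11) (nat_lit 5) (nat_lit 12) (nat_lit 4) (nat_lit 328) (nat_lit 269) (nat_lit 123)) (XT.nd (nat_lit 78) (nat_lit 0) (nat_lit 0) (XT.lf (nat_lit 0) (nat_lit 91144690699) (nat_lit 76) (nat_lit 15790455348) (nat_lit 152) (nat_lit 20004890138) (nat_lit 10) (nat_lit 5) (nat_lit 11) (nat_lit 5) (nat_lit 12) (nat_lit 4) (nat_lit 329) (nat_lit 269) (nat_lit 122)) (XT.lf (nat_lit 0) (nat_lit 123249698658) (nat_lit 152) (nat_lit 7881234544) (nat_lit 0) (nat_lit 1271561463) (nat_lit 10) (nat_lit 5) (nat_lit 12) (nat_lit 4) (nat_lit 10) (nat_lit 4) (nat_lit 330) (nat_lit 269) (nat_lit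 121)))))) (XT.nd (nat_lit 312) (nat_lit 76) (nat_lit 0) (XT.nd (nat_lit 156) (nat_lit 0) (nat_lit 0) (XT.nd (nat_lit 78) (nat_lit 0) (nat_lit 0) (XT.lf (nat_lit 0) (nat_lit 2779004306) (nat_lit 152) (nat_lit 116285428124) (nat_lit 76) (nat_lit 19041452807) (nat_lit 8) (nat_lit 5) (nat_lit 10) (nat_lit 5) (nat_lit 9) (nat_lit 4) (nat_lit 331) (nat_lit 269) (nat_lit 120)) (XT.lf (nat_lit 0) (nat_lit 15134230997) (nat_lit 152) (nat_lit 90961260794) (nat_lit 76) (nat_lit 37984731739) (nat_lit 8) (nat_lit 5) (nat_lit 10) (nat_lit 5) (nat_lit 9) (nat_lit 4) (nat_lit 332) (nat_lit 269) (nat_lit 119))) (XT.nd (nat_lit 78) (nat_lit 0) (nat_lit 0) (XT.lf (nat_lit 0) (nat_lit 28106047338) (nat_lit 152) (nat_lit 64372891950) (nat_lit 76) (nat_lit 57874399941) (nat_lit 8) (nat_lit 5) (nat_lit 10) (nat_lit 5) (nat_lit 9) (nat_lit 4) (nat_lit 333) (nat_lit 269) (nat_lit 118)) (XT.lf (nat_lit 0) (nat_lit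 41725338605) (nat_lit 152) (nat_lit 36457015952) (nat_lit 76) (nat_lit 78757813768) (nat_lit 8) (nat_lit 5) (nat_lit 10) (nat_lit 5) (nat_lit 9) (nat_lit 4) (nat_lit 334) (nat_lit 269) (nat_lit 117)))) (XT.nd (nat_lit 156) (nat_lit 0) (nat_lit 0) (XT.nd (nat_lit 78) (nat_lit 76) (nat_lit 0) (XT.lf (nat_lit 0) (nat_lit 56024531682) (nat_lit 152) (nat_lit 7147166429) (nat_lit 76) (nat_lit 100684695633) (nat_lit 8) (nat_lit 5) (nat_lit 10) (nat_lit 5) (nat_lit 9) (nat_lit 4) (nat_lit 335) (nat_lit 269) (nat_lit 116)) (XT.lf (nat_lit 0) (nat_lit 24407638847) (nat_lit 76) (nat_lit 47011105065) (nat_lit 152) (nat_lit 99680685194) (nat_lit 7) (nat_lit 5) (nat_lit 8) (nat_lit 5) (nat_lit 9) (nat_lit 4) (nat_lit 336) (nat_lit 269) (nat_lit 115))) (XT.nd (nat_lit 78) (nat_lit 0) (nat_lit 0) (XT.lf (nat_lit 0) (nat_lit 57786612233) (nat_lit 76) (nat_lit 29916104664) (nat_lit 152) (nat_lit 90995898401)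 (nat_lit 7) (nat_lit 5) (nat_lit 8) (nat_lit 5) (nat_lit 9) (nat_lit 4) (nat_lit 337) (nat_lit 269) (nat_lit 114)) (XT.nd (nat_lit 78) (nat_lit 0) (nat_lit 0) (XT.lf (nat_lit 0) (nat_lit 92832909876) (nat_lit 76) (nat_lit 11967035249) (nat_lit 152) (nat_lit 81877864340) (nat_lit 7) (nat_lit 5) (nat_lit 8) (nat_lit 5) (nat_lit 9) (nat_lit 4) (nat_lit 338) (nat_lit 269) (nat_lit 113)) (XT.lf (nat_lit 0) (nat_lit 122858534236) (nat_lit 152) (nat_lit 65533432302) (nat_lit 0) (nat_lit 6658673252) (nat_lit 7) (nat_lit 5) (nat_lit 9) (nat_lit 4) (nat_lit 7) (nat_lit 4) (nat_lit 339) (nat_lit 269) (nat_lit 112))))))))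
noncomputable def xc198 : XT := (XT.nd (nat_lit 32448) (nat_lit 0) (nat_lit 2964) (XT.nd (nat_lit 624) (nat_lit 76) (nat_lit 0) (XT.nd (nat_lit 312) (nat_lit 76) (nat_lit 0) (XT.nd (nat_lit 156) (nat_lit 76) (nat_lit 0) (XT.nd (nat_lit 78) (nat_lit 0) (nat_lit 0) (XT.lf (nat_lit 0) (nat_lit 142015368366) (nat_lit 152) (nat_lit 36004080444) (nat_lit 0) (nat_lit 25812898399) (nat_lit 7) (nat_lit 5) (nat_lit 9) (nat_lit 4) (nat_lit 7) (nat_lit 4) (nat_lit 340) (nat_lit 269) (nat_lit 111)) (XT.lf (nat_lit 0) (nat_lit 162129220066) (nat_lit 152) (nat_lit 4999697075) (nat_lit 0) (nat_lit 45924265355) (nat_lit 7) (nat_lit 5) (nat_lit 9) (nat_lit 4) (nat_lit 7) (nat_lit 4) (nat_lit 341) (nat_lit 269) (nat_lit 110))) (XT.nd (nat_lit 78) (nat_lit 0) (nat_lit 0) (XT.lf (nat_lit 0) (nat_lit 28464582157) (nat_lit 76) (nat_lit 155227809203) (nat_lit 76) (nat_lit 39020488068) (nat_lit 6) (nat_lit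 4) (nat_lit 7) (nat_lit 5) (nat_lit 7) (nat_lit 4) (nat_lit 342) (nat_lit 269) (nat_lit 109)) (XT.lf (nat_lit 0) (nat_lit 63774307906) (nat_lit 76) (nat_lit 142643317077) (nat_lit 76) (nat_lit 26433742205) (nat_lit 6) (nat_lit 4) (nat_lit 7) (nat_lit 5) (nat_lit 7) (nat_lit 4) (nat_lit 343) (nat_lit 269) (nat_lit 108)))) (XT.nd (nat_lit 156) (nat_lit 0) (nat_lit 0) (XT.nd (nat_lit 78) (nat_lit 76) (nat_lit 0) (XT.lf (nat_lit 0) (nat_lit 100848238382) (nat_lit 76) (nat_lit 129430149977) (nat_lit 76) (nat_lit 13218428689) (nat_lit 6) (nat_lit 4) (nat_lit 7) (nat_lit 5) (nat_lit 7) (nat_lit 4) (nat_lit 344) (nat_lit 269) (nat_lit 107)) (XT.lf (nat_lit 0) (nat_lit 635892049) (nat_lit 152) (nat_lit 114910186792) (nat_lit 76) (nat_lit 139127983660) (nat_lit 5) (nat_lit 5) (nat_lit 7) (nat_lit 5) (nat_lit 6) (nat_lit 4) (nat_lit 345) (nat_lit 269) (nat_lit 106))) (XT.nd (nat_lit 78) (nat_lit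 0) (nat_lit 0) (XT.lf (nat_lit 0) (nat_lit 14738027199) (nat_lit 152) (nat_lit 86002756596) (nat_lit 76) (nat_lit 165658586404) (nat_lit 5) (nat_lit 5) (nat_lit 7) (nat_lit 5) (nat_lit 6) (nat_lit 4) (nat_lit 346) (nat_lit 269) (nat_lit 105)) (XT.lf (nat_lit 0) (nat_lit 29544625543) (nat_lit 152) (nat_lit 55651084146) (nat_lit 76) (nat_lit 193515266688) (nat_lit 5) (nat_lit 5) (nat_lit 7) (nat_lit 5) (nat_lit 6) (nat_lit 4) (nat_lit 347) (nat_lit 269) (nat_lit 104))))) (XT.nd (nat_lit 31434) (nat_lit 0) (nat_lit 4636) (XT.nd (nat_lit 156) (nat_lit 0) (nat_lit 0) (XT.nd (nat_lit 78) (nat_lit 76) (nat_lit 0) (XT.lf (nat_lit 0) (nat_lit 45090940885) (nat_lit 152) (nat_lit 23782903557) (nat_lit 76) (nat_lit 222764349944) (nat_lit 5) (nat_lit 5) (nat_lit 7) (nat_lit 5) (nat_lit 6) (nat_lit 4) (nat_lit 348) (nat_lit 269) (nat_lit 103)) (XT.lf (nat_lit 0) (nat_lit 9997648997) (nat_lit 76)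 (nat_lit 51572430584) (nat_lit 152) (nat_lit 243633919165) (nat_lit 4) (nat_lit 5) (nat_lit 5) (nat_lit 5) (nat_lit 6) (nat_lit 4) (nat_lit 349) (nat_lit 269) (nat_lit 102))) (XT.nd (nat_lit 78) (nat_lit 0) (nat_lit 0) (XT.lf (nat_lit 0) (nat_lit 46291910138) (nat_lit 76) (nat_lit 32983468384) (nat_lit 152) (nat_lit 240152605429) (nat_lit 4) (nat_lit 5) (nat_lit 5) (nat_lit 5) (nat_lit 6) (nat_lit 4) (nat_lit 350) (nat_lit 269) (nat_lit 101)) (XT.lf (nat_lit 0) (nat_lit 84399924577) (nat_lit 76) (nat_lit 13465473388) (nat_lit 152) (nat_lit 236497798431) (nat_lit 4) (nat_lit 5) (nat_lit 5) (nat_lit 5) (nat_lit 6) (nat_lit 4) (nat_lit 351) (nat_lit 269) (nat_lit 100)))) (XT.nd (nat_lit 156) (nat_lit 0) (nat_lit 0) (XT.nd (nat_lit 78) (nat_lit 0) (nat_lit 0) (XT.lf (nat_lit 0) (nat_lit 540973090) (nat_lit 0) (nat_lit 540973090) (nat_lit 684) (nat_lit 7877407902) (nat_lit 65) (nat_lit 5)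 (nat_lit 65) (nat_lit 3) (nat_lit 74) (nat_lit 3) (nat_lit 270) (nat_lit 270) (nat_lit 180)) (XT.lf (nat_lit 0) (nat_lit 2506665503) (nat_lit 684) (nat_lit 9544223725) (nat_lit 760) (nat_lit 6300606949) (nat_lit 65) (nat_lit 5) (nat_lit 74) (nat_lit 3) (nat_lit 75) (nat_lit 5) (nat_lit 271) (nat_lit 270) (nat_lit 179))) (XT.nd (nat_lit 78) (nat_lit 0) (nat_lit 76) (XT.lf (nat_lit 0) (nat_lit 2872433858) (nat_lit 684) (nat_lit 1911522148) (nat_lit 760) (nat_lit 14021722502) (nat_lit 65) (nat_lit 5) (nat_lit 74) (nat_lit 3) (nat_lit 75) (nat_lit 5) (nat_lit 272) (nat_lit 270) (nat_lit 178)) (XT.nd (nat_lit 78) (nat_lit 0) (nat_lit 0) (XT.lf (nat_lit 0) (nat_lit 3389632928) (nat_lit 684) (nat_lit 13026409534) (nat_lit 760) (nat_lit 2859915851) (nat_lit 66) (nat_lit 5) (nat_lit 75) (nat_lit 5) (nat_lit 76) (nat_lit 5) (nat_lit 273) (nat_lit 270) (nat_lit 177)) (XT.lf (nat_lit 0) (nat_lit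 4033217917) (nat_lit 684) (nat_lit 4969014204) (nat_lit 760) (nat_lit 10762536996) (nat_lit 66) (nat_lit 5) (nat_lit 75) (nat_lit 5) (nat_lit 76) (nat_lit 5) (nat_lit 274) (nat_lit 270) (nat_lit 176))))))) (XT.nd (nat_lit 702) (nat_lit 1292) (nat_lit 0) (XT.nd (nat_lit 312) (nat_lit 456) (nat_lit 0) (XT.nd (nat_lit 156) (nat_lit 0) (nat_lit 76) (XT.nd (nat_lit 78) (nat_lit 0) (nat_lit 76) (XT.lf (nat_lit 76) (nat_lit 3599838190) (nat_lit 0) (nat_lit 1155059154) (nat_lit 760) (nat_lit 15520868606) (nat_lit 67) (nat_lit 5) (nat_lit 66) (nat_lit 5) (nat_lit 76) (nat_lit 5) (nat_lit 275) (nat_lit 270) (nat_lit 175)) (XT.lf (nat_lit 0) (nat_lit 5698953855) (nat_lit 684) (nat_lit 8157556947) (nat_lit 760) (nat_lit 6946526446) (nat_lit 67) (nat_lit 5) (nat_lit 76) (nat_lit 5) (nat_lit 77) (nat_lit 5) (nat_lit 276) (nat_lit 270) (nat_lit 174))) (XT.nd (nat_lit 78) (nat_lit 0) (nat_lit 76) (XT.lf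 (nat_lit 76) (nat_lit 786188432) (nat_lit 0) (nat_lit 5925856124) (nat_lit 760) (nat_lit 14643573399) (nat_lit 68) (nat_lit 5) (nat_lit 67) (nat_lit 5) (nat_lit 77) (nat_lit 5) (nat_lit 277) (nat_lit 270) (nat_lit 173)) (XT.lf (nat_lit 0) (nat_lit 7944699278) (nat_lit 684) (nat_lit 11515530144) (nat_lit 760) (nat_lit 2467188431) (nat_lit 68) (nat_lit 5) (nat_lit 77) (nat_lit 5) (nat_lit 78) (nat_lit 5) (nat_lit 278) (nat_lit 270) (nat_lit 172)))) (XT.nd (nat_lit 156) (nat_lit 608) (nat_lit 0) (XT.nd (nat_lit 78) (nat_lit 0) (nat_lit 0) (XT.lf (nat_lit 0) (nat_lit 9327561450) (nat_lit 684) (nat_lit 2112925543) (nat_lit 760) (nat_lit 11082925949) (nat_lit 68) (nat_lit 5) (nat_lit 77) (nat_lit 5) (nat_lit 78) (nat_lit 5) (nat_lit 279) (nat_lit 270) (nat_lit 171)) (XT.lf (nat_lit 76) (nat_lit 8009649459) (nat_lit 0) (nat_lit 2886807997) (nat_lit 760) (nat_lit 12246938111) (nat_lit 69) (nat_lit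 5) (nat_lit 68) (nat_lit 5) (nat_lit 78) (nat_lit 5) (nat_lit 280) (nat_lit 270) (nat_lit 170))) (XT.nd (nat_lit 78) (nat_lit 684) (nat_lit 0) (XT.lf (nat_lit 0) (nat_lit 12667470377) (nat_lit 684) (nat_lit 5183479394) (nat_lit 76) (nat_lit 5937274725) (nat_lit 69) (nat_lit 5) (nat_lit 78) (nat_lit 5) (nat_lit 70) (nat_lit 5) (nat_lit 281) (nat_lit 270) (nat_lit 169)) (XT.nd (nat_lit 78) (nat_lit 0) (nat_lit 0) (XT.lf (nat_lit 0) (nat_lit 5382722615) (nat_lit 684) (nat_lit 9268198292) (nat_lit 760) (nat_lit 9808208928) (nat_lit 60) (nat_lit 5) (nat_lit 69) (nat_lit 5) (nat_lit 70) (nat_lit 5) (nat_lit 282) (nat_lit 270) (nat_lit 168)) (XT.lf (nat_lit 0) (nat_lit 16650764756) (nat_lit 684) (nat_lit 163342482) (nat_lit 760) (nat_lit 8345472957) (nat_lit 60) (nat_lit 5) (nat_lit 69) (nat_lit 5) (nat_lit 70) (nat_lit 5) (nat_lit 283) (nat_lit 270) (nat_lit 167)))))) (XT.nd (nat_lit 312)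 (nat_lit 684) (nat_lit 0) (XT.nd (nat_lit 156) (nat_lit 304) (nat_lit 0) (XT.nd (nat_lit 78) (nat_lit 0) (nat_lit 0) (XT.lf (nat_lit 0) (nat_lit 2514418531) (nat_lit 304) (nat_lit 16750135382) (nat_lit 380) (nat_lit 6621570695) (nat_lit 56) (nat_lit 5) (nat_lit 60) (nat_lit 5) (nat_lit 61) (nat_lit 5) (nat_lit 284) (nat_lit 270) (nat_lit 166)) (XT.lf (nat_lit 0) (nat_lit 14375054894) (nat_lit 304) (nat_lit 7602564722) (nat_lit 380) (nat_lit 4664397113) (nat_lit 56) (nat_lit 5) (nat_lit 60) (nat_lit 5) (nat_lit 61) (nat_lit 5) (nat_lit 285) (nat_lit 270) (nat_lit 165))) (XT.nd (nat_lit 78) (nat_lit 304) (nat_lit 0) (XT.lf (nat_lit 0) (nat_lit 24851282354) (nat_lit 380) (nat_lit 644682138) (nat_lit 76) (nat_lit 1938515892) (nat_lit 56) (nat_lit 5) (nat_lit 61) (nat_lit 5) (nat_lit 57) (nat_lit 5) (nat_lit 286) (nat_lit 270) (nat_lit 164)) (XT.lf (nat_lit 0) (nat_lit 11805806564) (nat_lit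 304) (nat_lit 16365757423) (nat_lit 380) (nat_lit 79879413) (nat_lit 52) (nat_lit 5) (nat_lit 56) (nat_lit 5) (nat_lit 57) (nat_lit 5) (nat_lit 287) (nat_lit 270) (nat_lit 163)))) (XT.nd (nat_lit 156) (nat_lit 304) (nat_lit 0) (XT.nd (nat_lit 78) (nat_lit 304) (nat_lit 0) (XT.lf (nat_lit 0) (nat_lit 2472188369) (nat_lit 380) (nat_lit 4253727627) (nat_lit 76) (nat_lit 22381112134) (nat_lit 51) (nat_lit 5) (nat_lit 56) (nat_lit 5) (nat_lit 52) (nat_lit 5) (nat_lit 288) (nat_lit 270) (nat_lit 162)) (XT.lf (nat_lit 0) (nat_lit 5336560679) (nat_lit 380) (nat_lit 21231134343) (nat_lit 76) (nat_lit 3428282160) (nat_lit 47) (nat_lit 5) (nat_lit 52) (nat_lit 5) (nat_lit 48) (nat_lit 5) (nat_lit 289) (nat_lit 270) (nat_lit 161))) (XT.nd (nat_lit 78) (nat_lit 304) (nat_lit 0) (XT.lf (nat_lit 0) (nat_lit 8522145118) (nat_lit 380) (nat_lit 8461336124) (nat_lit 76) (nat_lit 13937011663) (nat_lit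 47) (nat_lit 5) (nat_lit 52) (nat_lit 5) (nat_lit 48) (nat_lit 5) (nat_lit 290) (nat_lit 270) (nat_lit 160)) (XT.nd (nat_lit 78) (nat_lit 0) (nat_lit 0) (XT.lf (nat_lit 0) (nat_lit 5104475527) (nat_lit 304) (nat_lit 6837002413) (nat_lit 380) (nat_lit 19946051011) (nat_lit 43) (nat_lit 5) (nat_lit 47) (nat_lit 5) (nat_lit 48) (nat_lit 5) (nat_lit 291) (nat_lit 270) (nat_lit 159)) (XT.lf (nat_lit 0) (nat_lit 15731936495) (nat_lit 380) (nat_lit 13321372699) (nat_lit 76) (nat_lit 3839616791) (nat_lit 43) (nat_lit 5) (nat_lit 48) (nat_lit 5) (nat_lit 44) (nat_lit 5) (nat_lit 292) (nat_lit 270) (nat_lit 158))))))))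
noncomputable def xc199 : XT := (XT.nd (nat_lit 1326) (nat_lit 912) (nat_lit 0) (XT.nd (nat_lit 624) (nat_lit 836) (nat_lit 0) (XT.nd (nat_lit 312) (nat_lit 304) (nat_lit 0) (XT.nd (nat_lit 156) (nat_lit 228) (nat_lit 0) (XT.nd (nat_lit 78) (nat_lit 0) (nat_lit 0) (XT.lf (nat_lit 0) (nat_lit 718578675) (nat_lit 228) (nat_lit 19111804326) (nat_lit 304) (nat_lit 14112302940) (nat_lit 40) (nat_lit 5) (nat_lit 43) (nat_lit 5) (nat_lit 44) (nat_lit 5) (nat_lit 293) (nat_lit 270) (nat_lit 157)) (XT.lf (nat_lit 0) (nat_lit 15917377636) (nat_lit 228) (nat_lit 8437284340) (nat_lit 304) (nat_lit 10679241955) (nat_lit 40) (nat_lit 5) (nat_lit 43) (nat_lit 5) (nat_lit 44) (nat_lit 5) (nat_lit 294) (nat_lit 270) (nat_lit 156))) (XT.nd (nat_lit 78) (nat_lit 228) (nat_lit 0) (XT.lf (nat_lit 0) (nat_lit 29143933103) (nat_lit 304) (nat_lit 4352422519) (nat_lit 76) (nat_lit 2681403096) (nat_lit 40) (nat_lit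 5) (nat_lit 44) (nat_lit 5) (nat_lit 41) (nat_lit 5) (nat_lit 295) (nat_lit 270) (nat_lit 155)) (XT.lf (nat_lit 0) (nat_lit 11370159012) (nat_lit 228) (nat_lit 23114074217) (nat_lit 304) (nat_lit 2879008840) (nat_lit 37) (nat_lit 5) (nat_lit 40) (nat_lit 5) (nat_lit 41) (nat_lit 5) (nat_lit 296) (nat_lit 270) (nat_lit 154)))) (XT.nd (nat_lit 156) (nat_lit 0) (nat_lit 0) (XT.nd (nat_lit 78) (nat_lit 228) (nat_lit 0) (XT.lf (nat_lit 0) (nat_lit 1506754472) (nat_lit 304) (nat_lit 10604103017) (nat_lit 76) (nat_lit 26492462346) (nat_lit 36) (nat_lit 5) (nat_lit 40) (nat_lit 5) (nat_lit 37) (nat_lit 5) (nat_lit 297) (nat_lit 270) (nat_lit 153)) (XT.lf (nat_lit 0) (nat_lit 5683912593) (nat_lit 228) (nat_lit 415852803) (nat_lit 304) (nat_lit 33799052778) (nat_lit 33) (nat_lit 5) (nat_lit 36) (nat_lit 5) (nat_lit 37) (nat_lit 5) (nat_lit 298) (nat_lit 270) (nat_lit 152))) (XT.nd (nat_lit 78)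 (nat_lit 0) (nat_lit 0) (XT.lf (nat_lit 0) (nat_lit 11286251644) (nat_lit 304) (nat_lit 18289049461) (nat_lit 76) (nat_lit 11665610686) (nat_lit 33) (nat_lit 5) (nat_lit 37) (nat_lit 5) (nat_lit 34) (nat_lit 5) (nat_lit 299) (nat_lit 270) (nat_lit 151)) (XT.lf (nat_lit 0) (nat_lit 16735133153) (nat_lit 304) (nat_lit 1578712100) (nat_lit 76) (nat_lit 24336122337) (nat_lit 33) (nat_lit 5) (nat_lit 37) (nat_lit 5) (nat_lit 34) (nat_lit 5) (nat_lit 300) (nat_lit 270) (nat_lit 150))))) (XT.nd (nat_lit 312) (nat_lit 456) (nat_lit 0) (XT.nd (nat_lit 156) (nat_lit 152) (nat_lit 0) (XT.nd (nat_lit 78) (nat_lit 0) (nat_lit 0) (XT.lf (nat_lit 0) (nat_lit 16490174203) (nat_lit 228) (nat_lit 6220174451) (nat_lit 304) (nat_lit 21406443549) (nat_lit 30) (nat_lit 5) (nat_lit 33) (nat_lit 5) (nat_lit 34) (nat_lit 5) (nat_lit 301) (nat_lit 270) (nat_lit 149)) (XT.lf (nat_lit 0) (nat_lit 29109152078)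 (nat_lit 304) (nat_lit 10244732404) (nat_lit 76) (nat_lit 6296842229) (nat_lit 30) (nat_lit 5) (nat_lit 34) (nat_lit 5) (nat_lit 31) (nat_lit 5) (nat_lit 302) (nat_lit 270) (nat_lit 148))) (XT.nd (nat_lit 78) (nat_lit 0) (nat_lit 0) (XT.lf (nat_lit 0) (nat_lit 8160862174) (nat_lit 152) (nat_lit 27893093739) (nat_lit 228) (nat_lit 11196108562) (nat_lit 28) (nat_lit 5) (nat_lit 30) (nat_lit 5) (nat_lit 31) (nat_lit 5) (nat_lit 303) (nat_lit 270) (nat_lit 147)) (XT.lf (nat_lit 0) (nat_lit 27837871094) (nat_lit 152) (nat_lit 15678391988) (nat_lit 228) (nat_lit 5404601977) (nat_lit 28) (nat_lit 5) (nat_lit 30) (nat_lit 5) (nat_lit 31) (nat_lit 5) (nat_lit 304) (nat_lit 270) (nat_lit 146)))) (XT.nd (nat_lit 156) (nat_lit 152) (nat_lit 0) (XT.nd (nat_lit 78) (nat_lit 228) (nat_lit 0) (XT.lf (nat_lit 0) (nat_lit 651687199) (nat_lit 228) (nat_lit 2191472268) (nat_lit 76) (nat_lit 47831683420)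 (nat_lit 27) (nat_lit 5) (nat_lit 30) (nat_lit 5) (nat_lit 28) (nat_lit 5) (nat_lit 305) (nat_lit 270) (nat_lit 145)) (XT.lf (nat_lit 0) (nat_lit 7281360818) (nat_lit 304) (nat_lit 34538047214) (nat_lit 76) (nat_lit 10670079421) (nat_lit 24) (nat_lit 5) (nat_lit 28) (nat_lit 5) (nat_lit 25) (nat_lit 5) (nat_lit 306) (nat_lit 270) (nat_lit 144))) (XT.nd (nat_lit 78) (nat_lit 152) (nat_lit 0) (XT.lf (nat_lit 0) (nat_lit 14323915957) (nat_lit 304) (nat_lit 15266934575) (nat_lit 76) (nat_lit 24799951301) (nat_lit 24) (nat_lit 5) (nat_lit 28) (nat_lit 5) (nat_lit 25) (nat_lit 5) (nat_lit 307) (nat_lit 270) (nat_lit 143)) (XT.nd (nat_lit 78) (nat_lit 0) (nat_lit 0) (XT.lf (nat_lit 0) (nat_lit 5127768836) (nat_lit 152) (nat_lit 16668095147) (nat_lit 228) (nat_lit 34587461814) (nat_lit 22) (nat_lit 5) (nat_lit 24) (nat_lit 5) (nat_lit 25) (nat_lit 5) (nat_lit 308) (nat_lit 270) (nat_lit 142))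 (XT.lf (nat_lit 0) (nat_lit 27068221323) (nat_lit 152) (nat_lit 2829017578) (nat_lit 228) (nat_lit 28565452366) (nat_lit 22) (nat_lit 5) (nat_lit 24) (nat_lit 5) (nat_lit 25) (nat_lit 5) (nat_lit 309) (nat_lit 270) (nat_lit 141))))))) (XT.nd (nat_lit 702) (nat_lit 380) (nat_lit 0) (XT.nd (nat_lit 312) (nat_lit 304) (nat_lit 0) (XT.nd (nat_lit 156) (nat_lit 76) (nat_lit 0) (XT.nd (nat_lit 78) (nat_lit 152) (nat_lit 0) (XT.lf (nat_lit 0) (nat_lit 38583770777) (nat_lit 228) (nat_lit 10726974862) (nat_lit 76) (nat_lit 11326281420) (nat_lit 22) (nat_lit 5) (nat_lit 25) (nat_lit 5) (nat_lit 23) (nat_lit 5) (nat_lit 310) (nat_lit 270) (nat_lit 140)) (XT.lf (nat_lit 0) (nat_lit 11284949294) (nat_lit 152) (nat_lit 36639758383) (nat_lit 228) (nat_lit 14984374194) (nat_lit 20) (nat_lit 5) (nat_lit 22) (nat_lit 5) (nat_lit 23) (nat_lit 5) (nat_lit 311) (nat_lit 270) (nat_lit 139))) (XT.nd (nat_lit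 78) (nat_lit 76) (nat_lit 0) (XT.lf (nat_lit 0) (nat_lit 34766189409) (nat_lit 152) (nat_lit 23145740723) (nat_lit 228) (nat_lit 7373853214) (nat_lit 20) (nat_lit 5) (nat_lit 22) (nat_lit 5) (nat_lit 23) (nat_lit 5) (nat_lit 312) (nat_lit 270) (nat_lit 138)) (XT.lf (nat_lit 0) (nat_lit 595084260) (nat_lit 228) (nat_lit 8373068256) (nat_lit 76) (nat_lit 58812808662) (nat_lit 19) (nat_lit 5) (nat_lit 22) (nat_lit 5) (nat_lit 20) (nat_lit 5) (nat_lit 313) (nat_lit 270) (nat_lit 137)))) (XT.nd (nat_lit 156) (nat_lit 152) (nat_lit 0) (XT.nd (nat_lit 78) (nat_lit 0) (nat_lit 0) (XT.lf (nat_lit 0) (nat_lit 9048689391) (nat_lit 228) (nat_lit 55236952772) (nat_lit 76) (nat_lit 6092515128) (nat_lit 17) (nat_lit 5) (nat_lit 20) (nat_lit 5) (nat_lit 18) (nat_lit 5) (nat_lit 314) (nat_lit 270) (nat_lit 136)) (XT.lf (nat_lit 0) (nat_lit 18213912489) (nat_lit 228) (nat_lit 33129054210) (nat_lit 76)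 (nat_lit 21747804445) (nat_lit 17) (nat_lit 5) (nat_lit 20) (nat_lit 5) (nat_lit 18) (nat_lit 5) (nat_lit 315) (nat_lit 270) (nat_lit 135))) (XT.nd (nat_lit 78) (nat_lit 152) (nat_lit 0) (XT.lf (nat_lit 0) (nat_lit 27835294106) (nat_lit 228) (nat_lit 9919067899) (nat_lit 76) (nat_lit 38184763407) (nat_lit 17) (nat_lit 5) (nat_lit 20) (nat_lit 5) (nat_lit 18) (nat_lit 5) (nat_lit 316) (nat_lit 270) (nat_lit 134)) (XT.nd (nat_lit 78) (nat_lit 0) (nat_lit 0) (XT.lf (nat_lit 0) (nat_lit 14925993022) (nat_lit 152) (nat_lit 23242785852) (nat_lit 228) (nat_lit 40749571187) (nat_lit 15) (nat_lit 5) (nat_lit 17) (nat_lit 5) (nat_lit 18) (nat_lit 5) (nat_lit 317) (nat_lit 270) (nat_lit 133)) (XT.lf (nat_lit 0) (nat_lit 41354575736) (nat_lit 152) (nat_lit 7830390824) (nat_lit 228) (nat_lit 32853272112) (nat_lit 15) (nat_lit 5) (nat_lit 17) (nat_lit 5) (nat_lit 18) (nat_lit 5) (nat_lit 318) (nat_lit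 270) (nat_lit 132)))))) (XT.nd (nat_lit 312) (nat_lit 228) (nat_lit 0) (XT.nd (nat_lit 156) (nat_lit 76) (nat_lit 0) (XT.nd (nat_lit 78) (nat_lit 76) (nat_lit 0) (XT.lf (nat_lit 0) (nat_lit 60880492084) (nat_lit 228) (nat_lit 16342973410) (nat_lit 76) (nat_lit 8084233763) (nat_lit 15) (nat_lit 5) (nat_lit 18) (nat_lit 5) (nat_lit 16) (nat_lit 4) (nat_lit 319) (nat_lit 270) (nat_lit 131)) (XT.lf (nat_lit 0) (nat_lit 9383837885) (nat_lit 76) (nat_lit 64050041149) (nat_lit 152) (nat_lit 15293103356) (nat_lit 14) (nat_lit 5) (nat_lit 15) (nat_lit 5) (nat_lit 16) (nat_lit 4) (nat_lit 320) (nat_lit 270) (nat_lit 130))) (XT.nd (nat_lit 78) (nat_lit 76) (nat_lit 0) (XT.lf (nat_lit 0) (nat_lit 36961540386) (nat_lit 76) (nat_lit 49928422076) (nat_lit 152) (nat_lit 5413519459) (nat_lit 14) (nat_lit 5) (nat_lit 15) (nat_lit 5) (nat_lit 16) (nat_lit 4) (nat_lit 321) (nat_lit 270) (nat_lit 129))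 (XT.lf (nat_lit 0) (nat_lit 4799594891) (nat_lit 152) (nat_lit 30220883183) (nat_lit 76) (nat_lit 61034544426) (nat_lit 13) (nat_lit 5) (nat_lit 15) (nat_lit 5) (nat_lit 14) (nat_lit 5) (nat_lit 322) (nat_lit 270) (nat_lit 128)))) (XT.nd (nat_lit 156) (nat_lit 76) (nat_lit 0) (XT.nd (nat_lit 78) (nat_lit 152) (nat_lit 0) (XT.lf (nat_lit 0) (nat_lit 15339819617) (nat_lit 152) (nat_lit 3935151071) (nat_lit 76) (nat_lit 80714815994) (nat_lit 13) (nat_lit 5) (nat_lit 15) (nat_lit 5) (nat_lit 14) (nat_lit 5) (nat_lit 323) (nat_lit 270) (nat_lit 127)) (XT.lf (nat_lit 0) (nat_lit 24444744572) (nat_lit 152) (nat_lit 2342423320) (nat_lit 228) (nat_lit 77315118527) (nat_lit 11) (nat_lit 5) (nat_lit 13) (nat_lit 5) (nat_lit 14) (nat_lit 5) (nat_lit 324) (nat_lit 270) (nat_lit 126))) (XT.nd (nat_lit 78) (nat_lit 76) (nat_lit 0) (XT.lf (nat_lit 0) (nat_lit 39114111795) (nat_lit 228) (nat_lit 54281457960)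 (nat_lit 76) (nat_lit 15009482794) (nat_lit 11) (nat_lit 5) (nat_lit 14) (nat_lit 5) (nat_lit 12) (nat_lit 4) (nat_lit 325) (nat_lit 270) (nat_lit 125)) (XT.nd (nat_lit 78) (nat_lit 76) (nat_lit 0) (XT.lf (nat_lit 0) (nat_lit 52094356661) (nat_lit 228) (nat_lit 27677379870) (nat_lit 76) (nat_lit 33149375449) (nat_lit 11) (nat_lit 5) (nat_lit 14) (nat_lit 5) (nat_lit 12) (nat_lit 4) (nat_lit 326) (nat_lit 270) (nat_lit 124)) (XT.lf (nat_lit 0) (nat_lit 263025722) (nat_lit 76) (nat_lit 65463316889) (nat_lit 152) (nat_lit 51936497887) (nat_lit 10) (nat_lit 5) (nat_lit 11) (nat_lit 5) (nat_lit 12) (nat_lit 4) (nat_lit 327) (nat_lit 270) (nat_lit 123))))))))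
noncomputable def xc200 : XT := (XT.nd (nat_lit 1326) (nat_lit 152) (nat_lit 0) (XT.nd (nat_lit 624) (nat_lit 152) (nat_lit 0) (XT.nd (nat_lit 312) (nat_lit 152) (nat_lit 0) (XT.nd (nat_lit 156) (nat_lit 0) (nat_lit 0) (XT.nd (nat_lit 78) (nat_lit 0) (nat_lit 0) (XT.lf (nat_lit 0) (nat_lit 30559089875) (nat_lit 76) (nat_lit 49948220433) (nat_lit 152) (nat_lit 42110978446) (nat_lit 10) (nat_lit 5) (nat_lit 11) (nat_lit 5) (nat_lit 12) (nat_lit 4) (nat_lit 328) (nat_lit 270) (nat_lit 122)) (XT.lf (nat_lit 0) (nat_lit 62367806899) (nat_lit 76) (nat_lit 33658236277) (nat_lit 152) (nat_lit 31795532725) (nat_lit 10) (nat_lit 5) (nat_lit 11) (nat_lit 5) (nat_lit 12) (nat_lit 4) (nat_lit 329) (nat_lit 270) (nat_lit 121))) (XT.nd (nat_lit 78) (nat_lit 0) (nat_lit 0) (XT.lf (nat_lit 0) (nat_lit 95764911836) (nat_lit 76) (nat_lit 16554578746) (nat_lit 152) (nat_lit 20965600137) (nat_lit 10) (nat_lit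 5) (nat_lit 11) (nat_lit 5) (nat_lit 12) (nat_lit 4) (nat_lit 330) (nat_lit 270) (nat_lit 120)) (XT.lf (nat_lit 0) (nat_lit 129448358628) (nat_lit 152) (nat_lit 8213832156) (nat_lit 0) (nat_lit 1358555185) (nat_lit 10) (nat_lit 5) (nat_lit 12) (nat_lit 4) (nat_lit 10) (nat_lit 4) (nat_lit 331) (nat_lit 270) (nat_lit 119)))) (XT.nd (nat_lit 156) (nat_lit 0) (nat_lit 0) (XT.nd (nat_lit 78) (nat_lit 0) (nat_lit 0) (XT.lf (nat_lit 0) (nat_lit 2953990985) (nat_lit 152) (nat_lit 122037976577) (nat_lit 76) (nat_lit 20017351447) (nat_lit 8) (nat_lit 5) (nat_lit 10) (nat_lit 5) (nat_lit 9) (nat_lit 4) (nat_lit 332) (nat_lit 270) (nat_lit 118)) (XT.lf (nat_lit 0) (nat_lit 15925262989) (nat_lit 152) (nat_lit 95450540069) (nat_lit 76) (nat_lit 39906659754) (nat_lit 8) (nat_lit 5) (nat_lit 10) (nat_lit 5) (nat_lit 9) (nat_lit 4) (nat_lit 333) (nat_lit 270) (nat_lit 117))) (XT.nd (nat_lit 78) (nat_lit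 0) (nat_lit 0) (XT.lf (nat_lit 0) (nat_lit 29544035840) (nat_lit 152) (nat_lit 67535552009) (nat_lit 76) (nat_lit 60789730823) (nat_lit 8) (nat_lit 5) (nat_lit 10) (nat_lit 5) (nat_lit 9) (nat_lit 4) (nat_lit 334) (nat_lit 270) (nat_lit 116)) (XT.lf (nat_lit 0) (nat_lit 43842735188) (nat_lit 152) (nat_lit 38226548142) (nat_lit 76) (nat_lit 82716286251) (nat_lit 8) (nat_lit 5) (nat_lit 10) (nat_lit 5) (nat_lit 9) (nat_lit 4) (nat_lit 335) (nat_lit 270) (nat_lit 115))))) (XT.nd (nat_lit 312) (nat_lit 76) (nat_lit 0) (XT.nd (nat_lit 156) (nat_lit 0) (nat_lit 0) (XT.nd (nat_lit 78) (nat_lit 76) (nat_lit 0) (XT.lf (nat_lit 0) (nat_lit 58855405555) (nat_lit 152) (nat_lit 7453745124) (nat_lit 76) (nat_lit 105738532123) (nat_lit 8) (nat_lit 5) (nat_lit 10) (nat_lit 5) (nat_lit 9) (nat_lit 4) (nat_lit 336) (nat_lit 270) (nat_lit 114)) (XT.lf (nat_lit 0) (nat_lit 25677981389) (nat_lit 76) (nat_lit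 49340715256) (nat_lit 152) (nat_lit 104634207173) (nat_lit 7) (nat_lit 5) (nat_lit 8) (nat_lit 5) (nat_lit 9) (nat_lit 4) (nat_lit 337) (nat_lit 270) (nat_lit 113))) (XT.nd (nat_lit 78) (nat_lit 0) (nat_lit 0) (XT.lf (nat_lit 0) (nat_lit 60723524369) (nat_lit 76) (nat_lit 31391962219) (nat_lit 152) (nat_lit 95516634006) (nat_lit 7) (nat_lit 5) (nat_lit 8) (nat_lit 5) (nat_lit 9) (nat_lit 4) (nat_lit 338) (nat_lit 270) (nat_lit 112)) (XT.lf (nat_lit 0) (nat_lit 97519871107) (nat_lit 76) (nat_lit 12546389222) (nat_lit 152) (nat_lit 85944082019) (nat_lit 7) (nat_lit 5) (nat_lit 8) (nat_lit 5) (nat_lit 9) (nat_lit 4) (nat_lit 339) (nat_lit 270) (nat_lit 111)))) (XT.nd (nat_lit 156) (nat_lit 76) (nat_lit 0) (XT.nd (nat_lit 78) (nat_lit 0) (nat_lit 0) (XT.lf (nat_lit 0) (nat_lit 129026808145) (nat_lit 152) (nat_lit 68765935614) (nat_lit 0) (nat_lit 7009120953) (nat_lit 7) (nat_lit 5) (nat_lit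 9) (nat_lit 4) (nat_lit 7) (nat_lit 4) (nat_lit 340) (nat_lit 270) (nat_lit 110)) (XT.lf (nat_lit 0) (nat_lit 149140276972) (nat_lit 152) (nat_lit 37762219416) (nat_lit 0) (nat_lit 27120223356) (nat_lit 7) (nat_lit 5) (nat_lit 9) (nat_lit 4) (nat_lit 7) (nat_lit 4) (nat_lit 341) (nat_lit 270) (nat_lit 109))) (XT.nd (nat_lit 78) (nat_lit 76) (nat_lit 0) (XT.lf (nat_lit 0) (nat_lit 170258671724) (nat_lit 152) (nat_lit 5209619976) (nat_lit 0) (nat_lit 48236364372) (nat_lit 7) (nat_lit 5) (nat_lit 9) (nat_lit 4) (nat_lit 7) (nat_lit 4) (nat_lit 342) (nat_lit 270) (nat_lit 108)) (XT.nd (nat_lit 78) (nat_lit 0) (nat_lit 0) (XT.lf (nat_lit 0) (nat_lit 29927227057) (nat_lit 76) (nat_lit 162972295123) (nat_lit 76) (nat_lit 40947841355) (nat_lit 6) (nat_lit 4) (nat_lit 7) (nat_lit 5) (nat_lit 7) (nat_lit 4) (nat_lit 343) (nat_lit 270) (nat_lit 107)) (XT.lf (nat_lit 0) (nat_lit 67000562151) (nat_lit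 76) (nat_lit 149759383369) (nat_lit 76) (nat_lit 27732885395) (nat_lit 6) (nat_lit 4) (nat_lit 7) (nat_lit 5) (nat_lit 7) (nat_lit 4) (nat_lit 344) (nat_lit 270) (nat_lit 106))))))) (XT.nd (nat_lit 31980) (nat_lit 0) (nat_lit 4712) (XT.nd (nat_lit 312) (nat_lit 76) (nat_lit 0) (XT.nd (nat_lit 156) (nat_lit 0) (nat_lit 0) (XT.nd (nat_lit 78) (nat_lit 76) (nat_lit 0) (XT.lf (nat_lit 0) (nat_lit 105926401587) (nat_lit 76) (nat_lit 135886324560) (nat_lit 76) (nat_lit 13857879724) (nat_lit 6) (nat_lit 4) (nat_lit 7) (nat_lit 5) (nat_lit 7) (nat_lit 4) (nat_lit 345) (nat_lit 270) (nat_lit 105)) (XT.lf (nat_lit 0) (nat_lit 687480187) (nat_lit 152) (nat_lit 120620964605) (nat_lit 76) (nat_lit 146098302937) (nat_lit 5) (nat_lit 5) (nat_lit 7) (nat_lit 5) (nat_lit 6) (nat_lit 4) (nat_lit 346) (nat_lit 270) (nat_lit 104))) (XT.nd (nat_lit 78) (nat_lit 0) (nat_lit 0) (XT.lf (nat_lit 0) (nat_lit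 15493779546) (nat_lit 152) (nat_lit 90269816781) (nat_lit 76) (nat_lit 173954772956) (nat_lit 5) (nat_lit 5) (nat_lit 7) (nat_lit 5) (nat_lit 6) (nat_lit 4) (nat_lit 347) (nat_lit 270) (nat_lit 103)) (XT.lf (nat_lit 0) (nat_lit 31039810141) (nat_lit 152) (nat_lit 58402135835) (nat_lit 76) (nat_lit 203203655959) (nat_lit 5) (nat_lit 5) (nat_lit 7) (nat_lit 5) (nat_lit 6) (nat_lit 4) (nat_lit 348) (nat_lit 270) (nat_lit 102)))) (XT.nd (nat_lit 31434) (nat_lit 0) (nat_lit 4636) (XT.nd (nat_lit 78) (nat_lit 76) (nat_lit 0) (XT.lf (nat_lit 0) (nat_lit 47362586330) (nat_lit 152) (nat_lit 24942046336) (nat_lit 76) (nat_lit 233914592141) (nat_lit 5) (nat_lit 5) (nat_lit 7) (nat_lit 5) (nat_lit 6) (nat_lit 4) (nat_lit 349) (nat_lit 270) (nat_lit 101)) (XT.lf (nat_lit 0) (nat_lit 10527049935) (nat_lit 76) (nat_lit 54138278682) (nat_lit 152) (nat_lit 255798009597) (nat_lit 4) (nat_lit 5) (nat_lit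 5) (nat_lit 5) (nat_lit 6) (nat_lit 4) (nat_lit 350) (nat_lit 270) (nat_lit 100))) (XT.nd (nat_lit 78) (nat_lit 0) (nat_lit 0) (XT.lf (nat_lit 0) (nat_lit 660088102) (nat_lit 0) (nat_lit 660088102) (nat_lit 684) (nat_lit 8077204690) (nat_lit 65) (nat_lit 5) (nat_lit 65) (nat_lit 3) (nat_lit 74) (nat_lit 3) (nat_lit 271) (nat_lit 271) (nat_lit 178)) (XT.nd (nat_lit 78) (nat_lit 0) (nat_lit 0) (XT.lf (nat_lit 0) (nat_lit 2979989827) (nat_lit 684) (nat_lit 9824397457) (nat_lit 760) (nat_lit 6445885566) (nat_lit 65) (nat_lit 5) (nat_lit 74) (nat_lit 3) (nat_lit 75) (nat_lit 5) (nat_lit 272) (nat_lit 271) (nat_lit 177)) (XT.lf (nat_lit 0) (nat_lit 3347475597) (nat_lit 684) (nat_lit 1819443537) (nat_lit 760) (nat_lit 14561140312) (nat_lit 65) (nat_lit 5) (nat_lit 74) (nat_lit 3) (nat_lit 75) (nat_lit 5) (nat_lit 273) (nat_lit 271) (nat_lit 176)))))) (XT.nd (nat_lit 312) (nat_lit 0) (nat_lit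 76) (XT.nd (nat_lit 156) (nat_lit 0) (nat_lit 0) (XT.nd (nat_lit 78) (nat_lit 0) (nat_lit 0) (XT.lf (nat_lit 0) (nat_lit 3875544835) (nat_lit 684) (nat_lit 13473816949) (nat_lit 760) (nat_lit 2873304374) (nat_lit 66) (nat_lit 5) (nat_lit 75) (nat_lit 5) (nat_lit 76) (nat_lit 5) (nat_lit 274) (nat_lit 271) (nat_lit 175)) (XT.lf (nat_lit 0) (nat_lit 4536240966) (nat_lit 684) (nat_lit 5023261999) (nat_lit 760) (nat_lit 11177228351) (nat_lit 66) (nat_lit 5) (nat_lit 75) (nat_lit 5) (nat_lit 76) (nat_lit 5) (nat_lit 275) (nat_lit 271) (nat_lit 174))) (XT.nd (nat_lit 78) (nat_lit 0) (nat_lit 76) (XT.lf (nat_lit 76) (nat_lit 3970900710) (nat_lit 0) (nat_lit 1311736223) (nat_lit 760) (nat_lit 15991266959) (nat_lit 67) (nat_lit 5) (nat_lit 66) (nat_lit 5) (nat_lit 76) (nat_lit 5) (nat_lit 276) (nat_lit 271) (nat_lit 173)) (XT.lf (nat_lit 0) (nat_lit 6258616061) (nat_lit 684) (nat_lit 8367086748)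 (nat_lit 760) (nat_lit 7202654748) (nat_lit 67) (nat_lit 5) (nat_lit 76) (nat_lit 5) (nat_lit 77) (nat_lit 5) (nat_lit 277) (nat_lit 271) (nat_lit 172)))) (XT.nd (nat_lit 156) (nat_lit 0) (nat_lit 76) (XT.nd (nat_lit 78) (nat_lit 0) (nat_lit 76) (XT.lf (nat_lit 76) (nat_lit 1020646737) (nat_lit 0) (nat_lit 6291679737) (nat_lit 760) (nat_lit 15096794748) (nat_lit 68) (nat_lit 5) (nat_lit 67) (nat_lit 5) (nat_lit 77) (nat_lit 5) (nat_lit 278) (nat_lit 271) (nat_lit 171)) (XT.lf (nat_lit 0) (nat_lit 8592976261) (nat_lit 684) (nat_lit 11890818952) (nat_lit 760) (nat_lit 2526447483) (nat_lit 68) (nat_lit 5) (nat_lit 77) (nat_lit 5) (nat_lit 78) (nat_lit 5) (nat_lit 279) (nat_lit 271) (nat_lit 170))) (XT.nd (nat_lit 78) (nat_lit 0) (nat_lit 0) (XT.lf (nat_lit 0) (nat_lit 10033027160) (nat_lit 684) (nat_lit 2027631154) (nat_lit 760) (nat_lit 11576024276) (nat_lit 68) (nat_lit 5) (nat_lit 77)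 (nat_lit 5) (nat_lit 78) (nat_lit 5) (nat_lit 280) (nat_lit 271) (nat_lit 169)) (XT.nd (nat_lit 78) (nat_lit 0) (nat_lit 76) (XT.lf (nat_lit 76) (nat_lit 8597992910) (nat_lit 0) (nat_lit 3073922968) (nat_lit 760) (nat_lit 12616216151) (nat_lit 69) (nat_lit 5) (nat_lit 68) (nat_lit 5) (nat_lit 78) (nat_lit 5) (nat_lit 281) (nat_lit 271) (nat_lit 168)) (XT.lf (nat_lit 0) (nat_lit 13519860770) (nat_lit 684) (nat_lit 5251260863) (nat_lit 76) (nat_lit 6194704635) (nat_lit 69) (nat_lit 5) (nat_lit 78) (nat_lit 5) (nat_lit 70) (nat_lit 5) (nat_lit 282) (nat_lit 271) (nat_lit 167))))))))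
noncomputable def xc201 : XT := (XT.nd (nat_lit 1326) (nat_lit 1216) (nat_lit 0) (XT.nd (nat_lit 624) (nat_lit 1064) (nat_lit 0) (XT.nd (nat_lit 312) (nat_lit 684) (nat_lit 0) (XT.nd (nat_lit 156) (nat_lit 304) (nat_lit 0) (XT.nd (nat_lit 78) (nat_lit 0) (nat_lit 0) (XT.lf (nat_lit 0) (nat_lit 5840164271) (nat_lit 684) (nat_lit 9754830157) (nat_lit 760) (nat_lit 10075697802) (nat_lit 60) (nat_lit 5) (nat_lit 69) (nat_lit 5) (nat_lit 70) (nat_lit 5) (nat_lit 283) (nat_lit 271) (nat_lit 166)) (XT.lf (nat_lit 0) (nat_lit 17662641589) (nat_lit 684) (nat_lit 193625750) (nat_lit 760) (nat_lit 8550440345) (nat_lit 60) (nat_lit 5) (nat_lit 69) (nat_lit 5) (nat_lit 70) (nat_lit 5) (nat_lit 284) (nat_lit 271) (nat_lit 165))) (XT.nd (nat_lit 78) (nat_lit 0) (nat_lit 0) (XT.lf (nat_lit 0) (nat_lit 2827601717) (nat_lit 304) (nat_lit 17594639506) (nat_lit 380) (nat_lit 6747724936) (nat_lit 56) (nat_lit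 5) (nat_lit 60) (nat_lit 5) (nat_lit 61) (nat_lit 5) (nat_lit 285) (nat_lit 271) (nat_lit 164)) (XT.lf (nat_lit 0) (nat_lit 15272343125) (nat_lit 304) (nat_lit 7989357106) (nat_lit 380) (nat_lit 4702450974) (nat_lit 56) (nat_lit 5) (nat_lit 60) (nat_lit 5) (nat_lit 61) (nat_lit 5) (nat_lit 286) (nat_lit 271) (nat_lit 163)))) (XT.nd (nat_lit 156) (nat_lit 304) (nat_lit 0) (XT.nd (nat_lit 78) (nat_lit 380) (nat_lit 0) (XT.lf (nat_lit 0) (nat_lit 26270127984) (nat_lit 380) (nat_lit 497291585) (nat_lit 76) (nat_lit 2029298016) (nat_lit 56) (nat_lit 5) (nat_lit 61) (nat_lit 5) (nat_lit 57) (nat_lit 5) (nat_lit 287) (nat_lit 271) (nat_lit 162)) (XT.lf (nat_lit 0) (nat_lit 92875135) (nat_lit 380) (nat_lit 17083516150) (nat_lit 76) (nat_lit 12478376360) (nat_lit 51) (nat_lit 5) (nat_lit 56) (nat_lit 5) (nat_lit 52) (nat_lit 5) (nat_lit 288) (nat_lit 271) (nat_lit 161))) (XT.nd (nat_lit 78)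 (nat_lit 304) (nat_lit 0) (XT.lf (nat_lit 0) (nat_lit 2761573071) (nat_lit 380) (nat_lit 4292039695) (nat_lit 76) (nat_lit 23499896866) (nat_lit 51) (nat_lit 5) (nat_lit 56) (nat_lit 5) (nat_lit 52) (nat_lit 5) (nat_lit 289) (nat_lit 271) (nat_lit 160)) (XT.lf (nat_lit 0) (nat_lit 5764120269) (nat_lit 380) (nat_lit 22112719551) (nat_lit 76) (nat_lit 3610346176) (nat_lit 47) (nat_lit 5) (nat_lit 52) (nat_lit 5) (nat_lit 48) (nat_lit 5) (nat_lit 290) (nat_lit 271) (nat_lit 159))))) (XT.nd (nat_lit 312) (nat_lit 532) (nat_lit 0) (XT.nd (nat_lit 156) (nat_lit 228) (nat_lit 0) (XT.nd (nat_lit 78) (nat_lit 304) (nat_lit 0) (XT.lf (nat_lit 0) (nat_lit 9101330046) (nat_lit 380) (nat_lit 8713001494) (nat_lit 76) (nat_lit 14644005015) (nat_lit 47) (nat_lit 5) (nat_lit 52) (nat_lit 5) (nat_lit 48) (nat_lit 5) (nat_lit 291) (nat_lit 271) (nat_lit 158)) (XT.lf (nat_lit 0) (nat_lit 5528336201) (nat_lit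 304) (nat_lit 7158636790) (nat_lit 380) (nat_lit 20787009339) (nat_lit 43) (nat_lit 5) (nat_lit 47) (nat_lit 5) (nat_lit 48) (nat_lit 5) (nat_lit 292) (nat_lit 271) (nat_lit 157))) (XT.nd (nat_lit 78) (nat_lit 228) (nat_lit 0) (XT.lf (nat_lit 0) (nat_lit 16660187394) (nat_lit 380) (nat_lit 13819589579) (nat_lit 76) (nat_lit 4050234501) (nat_lit 43) (nat_lit 5) (nat_lit 48) (nat_lit 5) (nat_lit 44) (nat_lit 5) (nat_lit 293) (nat_lit 271) (nat_lit 156)) (XT.lf (nat_lit 0) (nat_lit 919652076) (nat_lit 228) (nat_lit 20039737084) (nat_lit 304) (nat_lit 14673101387) (nat_lit 40) (nat_lit 5) (nat_lit 43) (nat_lit 5) (nat_lit 44) (nat_lit 5) (nat_lit 294) (nat_lit 271) (nat_lit 155)))) (XT.nd (nat_lit 156) (nat_lit 532) (nat_lit 0) (XT.nd (nat_lit 78) (nat_lit 0) (nat_lit 0) (XT.lf (nat_lit 0) (nat_lit 16870526963) (nat_lit 228) (nat_lit 8832808122) (nat_lit 304) (nat_lit 11075283387) (nat_lit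 40) (nat_lit 5) (nat_lit 43) (nat_lit 5) (nat_lit 44) (nat_lit 5) (nat_lit 295) (nat_lit 271) (nat_lit 154)) (XT.lf (nat_lit 0) (nat_lit 30726226194) (nat_lit 304) (nat_lit 4413996164) (nat_lit 76) (nat_lit 2839756467) (nat_lit 40) (nat_lit 5) (nat_lit 44) (nat_lit 5) (nat_lit 41) (nat_lit 5) (nat_lit 296) (nat_lit 271) (nat_lit 153))) (XT.nd (nat_lit 78) (nat_lit 304) (nat_lit 0) (XT.lf (nat_lit 0) (nat_lit 12092197548) (nat_lit 228) (nat_lit 24237783849) (nat_lit 304) (nat_lit 2894952613) (nat_lit 37) (nat_lit 5) (nat_lit 40) (nat_lit 5) (nat_lit 41) (nat_lit 5) (nat_lit 297) (nat_lit 271) (nat_lit 152)) (XT.nd (nat_lit 78) (nat_lit 228) (nat_lit 0) (XT.lf (nat_lit 0) (nat_lit 1700101393) (nat_lit 304) (nat_lit 10983829876) (nat_lit 76) (nat_lit 27843297328) (nat_lit 36) (nat_lit 5) (nat_lit 40) (nat_lit 5) (nat_lit 37) (nat_lit 5) (nat_lit 298) (nat_lit 271) (nat_lit 151)) (XT.lf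 (nat_lit 0) (nat_lit 6116159446) (nat_lit 228) (nat_lit 403295426) (nat_lit 304) (nat_lit 35368229370) (nat_lit 33) (nat_lit 5) (nat_lit 36) (nat_lit 5) (nat_lit 37) (nat_lit 5) (nat_lit 299) (nat_lit 271) (nat_lit 150))))))) (XT.nd (nat_lit 702) (nat_lit 532) (nat_lit 0) (XT.nd (nat_lit 312) (nat_lit 456) (nat_lit 0) (XT.nd (nat_lit 156) (nat_lit 228) (nat_lit 0) (XT.nd (nat_lit 78) (nat_lit 0) (nat_lit 0) (XT.lf (nat_lit 0) (nat_lit 11960299363) (nat_lit 304) (nat_lit 19057211099) (nat_lit 76) (nat_lit 12279636561) (nat_lit 33) (nat_lit 5) (nat_lit 37) (nat_lit 5) (nat_lit 34) (nat_lit 5) (nat_lit 300) (nat_lit 271) (nat_lit 149)) (XT.lf (nat_lit 0) (nat_lit 17676399464) (nat_lit 304) (nat_lit 1518323100) (nat_lit 76) (nat_lit 25582209731) (nat_lit 33) (nat_lit 5) (nat_lit 37) (nat_lit 5) (nat_lit 34) (nat_lit 5) (nat_lit 301) (nat_lit 271) (nat_lit 148))) (XT.nd (nat_lit 78) (nat_lit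 0) (nat_lit 0) (XT.lf (nat_lit 0) (nat_lit 17451760347) (nat_lit 228) (nat_lit 6495778906) (nat_lit 304) (nat_lit 22369715386) (nat_lit 30) (nat_lit 5) (nat_lit 33) (nat_lit 5) (nat_lit 34) (nat_lit 5) (nat_lit 302) (nat_lit 271) (nat_lit 147)) (XT.lf (nat_lit 0) (nat_lit 30661967707) (nat_lit 304) (nat_lit 10621824407) (nat_lit 76) (nat_lit 6644323492) (nat_lit 30) (nat_lit 5) (nat_lit 34) (nat_lit 5) (nat_lit 31) (nat_lit 5) (nat_lit 303) (nat_lit 271) (nat_lit 146)))) (XT.nd (nat_lit 156) (nat_lit 304) (nat_lit 0) (XT.nd (nat_lit 78) (nat_lit 0) (nat_lit 0) (XT.lf (nat_lit 0) (nat_lit 8701870148) (nat_lit 152) (nat_lit 29249581444) (nat_lit 228) (nat_lit 11656109985) (nat_lit 28) (nat_lit 5) (nat_lit 30) (nat_lit 5) (nat_lit 31) (nat_lit 5) (nat_lit 304) (nat_lit 271) (nat_lit 145)) (XT.lf (nat_lit 0) (nat_lit 29356397854) (nat_lit 152) (nat_lit 16425962080) (nat_lit 228) (nat_lit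 5579780643) (nat_lit 28) (nat_lit 5) (nat_lit 30) (nat_lit 5) (nat_lit 31) (nat_lit 5) (nat_lit 305) (nat_lit 271) (nat_lit 144))) (XT.nd (nat_lit 78) (nat_lit 228) (nat_lit 0) (XT.lf (nat_lit 0) (nat_lit 771899362) (nat_lit 228) (nat_lit 2177315481) (nat_lit 76) (nat_lit 50254758821) (nat_lit 27) (nat_lit 5) (nat_lit 30) (nat_lit 5) (nat_lit 28) (nat_lit 5) (nat_lit 306) (nat_lit 271) (nat_lit 143)) (XT.nd (nat_lit 78) (nat_lit 0) (nat_lit 0) (XT.lf (nat_lit 0) (nat_lit 7731352509) (nat_lit 304) (nat_lit 36139295996) (nat_lit 76) (nat_lit 11238798112) (nat_lit 24) (nat_lit 5) (nat_lit 28) (nat_lit 5) (nat_lit 25) (nat_lit 5) (nat_lit 307) (nat_lit 271) (nat_lit 142)) (XT.lf (nat_lit 0) (nat_lit 15121943802) (nat_lit 304) (nat_lit 15910611229) (nat_lit 76) (nat_lit 26073486695) (nat_lit 24) (nat_lit 5) (nat_lit 28) (nat_lit 5) (nat_lit 25) (nat_lit 5) (nat_lit 308) (nat_lit 271) (nat_lit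 141)))))) (XT.nd (nat_lit 312) (nat_lit 228) (nat_lit 0) (XT.nd (nat_lit 156) (nat_lit 152) (nat_lit 0) (XT.nd (nat_lit 78) (nat_lit 0) (nat_lit 0) (XT.lf (nat_lit 0) (nat_lit 5501897190) (nat_lit 152) (nat_lit 17463533526) (nat_lit 228) (nat_lit 36232874031) (nat_lit 22) (nat_lit 5) (nat_lit 24) (nat_lit 5) (nat_lit 25) (nat_lit 5) (nat_lit 309) (nat_lit 271) (nat_lit 140)) (XT.lf (nat_lit 0) (nat_lit 28533765639) (nat_lit 152) (nat_lit 2934310001) (nat_lit 228) (nat_lit 29913762248) (nat_lit 22) (nat_lit 5) (nat_lit 24) (nat_lit 5) (nat_lit 25) (nat_lit 5) (nat_lit 310) (nat_lit 271) (nat_lit 139))) (XT.nd (nat_lit 78) (nat_lit 152) (nat_lit 0) (XT.lf (nat_lit 0) (nat_lit 40585853915) (nat_lit 228) (nat_lit 11153269645) (nat_lit 76) (nat_lit 11925929929) (nat_lit 22) (nat_lit 5) (nat_lit 25) (nat_lit 5) (nat_lit 23) (nat_lit 5) (nat_lit 311) (nat_lit 271) (nat_lit 138)) (XT.lf (nat_lit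 0) (nat_lit 11957475655) (nat_lit 152) (nat_lit 38434581371) (nat_lit 228) (nat_lit 15658751628) (nat_lit 20) (nat_lit 5) (nat_lit 22) (nat_lit 5) (nat_lit 23) (nat_lit 5) (nat_lit 312) (nat_lit 271) (nat_lit 137)))) (XT.nd (nat_lit 156) (nat_lit 152) (nat_lit 0) (XT.nd (nat_lit 78) (nat_lit 76) (nat_lit 0) (XT.lf (nat_lit 0) (nat_lit 36607621637) (nat_lit 152) (nat_lit 24267632587) (nat_lit 228) (nat_lit 7671268470) (nat_lit 20) (nat_lit 5) (nat_lit 22) (nat_lit 5) (nat_lit 23) (nat_lit 5) (nat_lit 313) (nat_lit 271) (nat_lit 136)) (XT.lf (nat_lit 0) (nat_lit 690549028) (nat_lit 228) (nat_lit 8691188585) (nat_lit 76) (nat_lit 61784837851) (nat_lit 19) (nat_lit 5) (nat_lit 22) (nat_lit 5) (nat_lit 20) (nat_lit 5) (nat_lit 314) (nat_lit 271) (nat_lit 135))) (XT.nd (nat_lit 78) (nat_lit 0) (nat_lit 0) (XT.lf (nat_lit 0) (nat_lit 9565792732) (nat_lit 228) (nat_lit 57897084458) (nat_lit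 76) (nat_lit 6430813335) (nat_lit 17) (nat_lit 5) (nat_lit 20) (nat_lit 5) (nat_lit 18) (nat_lit 5) (nat_lit 315) (nat_lit 271) (nat_lit 134)) (XT.nd (nat_lit 78) (nat_lit 0) (nat_lit 0) (XT.lf (nat_lit 0) (nat_lit 19186197515) (nat_lit 228) (nat_lit 34688634584) (nat_lit 76) (nat_lit 22867263668) (nat_lit 17) (nat_lit 5) (nat_lit 20) (nat_lit 5) (nat_lit 18) (nat_lit 5) (nat_lit 316) (nat_lit 271) (nat_lit 133)) (XT.lf (nat_lit 0) (nat_lit 29285715384) (nat_lit 228) (nat_lit 10322761927) (nat_lit 76) (nat_lit 40124543482) (nat_lit 17) (nat_lit 5) (nat_lit 20) (nat_lit 5) (nat_lit 18) (nat_lit 5) (nat_lit 317) (nat_lit 271) (nat_lit 132))))))))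
noncomputable def xc202 : XT := (XT.nd (nat_lit 1326) (nat_lit 228) (nat_lit 0) (XT.nd (nat_lit 624) (nat_lit 228) (nat_lit 0) (XT.nd (nat_lit 312) (nat_lit 228) (nat_lit 0) (XT.nd (nat_lit 156) (nat_lit 76) (nat_lit 0) (XT.nd (nat_lit 78) (nat_lit 0) (nat_lit 0) (XT.lf (nat_lit 0) (nat_lit 15763063986) (nat_lit 152) (nat_lit 24371434429) (nat_lit 228) (nat_lit 42726783157) (nat_lit 15) (nat_lit 5) (nat_lit 17) (nat_lit 5) (nat_lit 18) (nat_lit 5) (nat_lit 318) (nat_lit 271) (nat_lit 131)) (XT.lf (nat_lit 0) (nat_lit 43508753392) (nat_lit 152) (nat_lit 8190014446) (nat_lit 228) (nat_lit 34438538966) (nat_lit 15) (nat_lit 5) (nat_lit 17) (nat_lit 5) (nat_lit 18) (nat_lit 5) (nat_lit 319) (nat_lit 271) (nat_lit 130))) (XT.nd (nat_lit 78) (nat_lit 76) (nat_lit 0) (XT.lf (nat_lit 0) (nat_lit 63976946151) (nat_lit 228) (nat_lit 17075555713) (nat_lit 76) (nat_lit 8517850261) (nat_lit 15)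 (nat_lit 5) (nat_lit 18) (nat_lit 5) (nat_lit 16) (nat_lit 4) (nat_lit 320) (nat_lit 271) (nat_lit 129)) (XT.lf (nat_lit 0) (nat_lit 9936232174) (nat_lit 76) (nat_lit 67220572656) (nat_lit 152) (nat_lit 16003859733) (nat_lit 14) (nat_lit 5) (nat_lit 15) (nat_lit 5) (nat_lit 16) (nat_lit 4) (nat_lit 321) (nat_lit 271) (nat_lit 128)))) (XT.nd (nat_lit 156) (nat_lit 152) (nat_lit 0) (XT.nd (nat_lit 78) (nat_lit 76) (nat_lit 0) (XT.lf (nat_lit 0) (nat_lit 38888857781) (nat_lit 76) (nat_lit 52394395037) (nat_lit 152) (nat_lit 5632863250) (nat_lit 14) (nat_lit 5) (nat_lit 15) (nat_lit 5) (nat_lit 16) (nat_lit 4) (nat_lit 322) (nat_lit 271) (nat_lit 127)) (XT.lf (nat_lit 0) (nat_lit 5086897713) (nat_lit 152) (nat_lit 31654804594) (nat_lit 76) (nat_lit 64113614155) (nat_lit 13) (nat_lit 5) (nat_lit 15) (nat_lit 5) (nat_lit 14) (nat_lit 5) (nat_lit 323) (nat_lit 271) (nat_lit 126))) (XT.nd (nat_lit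 78) (nat_lit 152) (nat_lit 0) (XT.lf (nat_lit 0) (nat_lit 16151880196) (nat_lit 152) (nat_lit 4058458388) (nat_lit 76) (nat_lit 84776597277) (nat_lit 13) (nat_lit 5) (nat_lit 15) (nat_lit 5) (nat_lit 14) (nat_lit 5) (nat_lit 324) (nat_lit 271) (nat_lit 125)) (XT.lf (nat_lit 0) (nat_lit 25739247356) (nat_lit 152) (nat_lit 2431330624) (nat_lit 228) (nat_lit 81134537626) (nat_lit 11) (nat_lit 5) (nat_lit 13) (nat_lit 5) (nat_lit 14) (nat_lit 5) (nat_lit 325) (nat_lit 271) (nat_lit 124))))) (XT.nd (nat_lit 312) (nat_lit 152) (nat_lit 0) (XT.nd (nat_lit 156) (nat_lit 76) (nat_lit 0) (XT.nd (nat_lit 78) (nat_lit 0) (nat_lit 0) (XT.lf (nat_lit 0) (nat_lit 41112190900) (nat_lit 228) (nat_lit 56924949723) (nat_lit 76) (nat_lit 15785967259) (nat_lit 11) (nat_lit 5) (nat_lit 14) (nat_lit 5) (nat_lit 12) (nat_lit 4) (nat_lit 326) (nat_lit 271) (nat_lit 123)) (XT.lf (nat_lit 0) (nat_lit 54739430223)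 (nat_lit 228) (nat_lit 28994028735) (nat_lit 76) (nat_lit 34831615960) (nat_lit 11) (nat_lit 5) (nat_lit 14) (nat_lit 5) (nat_lit 12) (nat_lit 4) (nat_lit 327) (nat_lit 271) (nat_lit 122))) (XT.nd (nat_lit 78) (nat_lit 0) (nat_lit 0) (XT.lf (nat_lit 0) (nat_lit 342312941) (nat_lit 76) (nat_lit 68709813396) (nat_lit 152) (nat_lit 54491811548) (nat_lit 10) (nat_lit 5) (nat_lit 11) (nat_lit 5) (nat_lit 12) (nat_lit 4) (nat_lit 328) (nat_lit 271) (nat_lit 121)) (XT.lf (nat_lit 0) (nat_lit 32150030971) (nat_lit 76) (nat_lit 52420232085) (nat_lit 152) (nat_lit 44176992860) (nat_lit 10) (nat_lit 5) (nat_lit 11) (nat_lit 5) (nat_lit 12) (nat_lit 4) (nat_lit 329) (nat_lit 271) (nat_lit 120)))) (XT.nd (nat_lit 156) (nat_lit 152) (nat_lit 0) (XT.nd (nat_lit 78) (nat_lit 0) (nat_lit 0) (XT.lf (nat_lit 0) (nat_lit 65546184485) (nat_lit 76) (nat_lit 35316958216) (nat_lit 152) (nat_lit 33347657448)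 (nat_lit 10) (nat_lit 5) (nat_lit 11) (nat_lit 5) (nat_lit 12) (nat_lit 4) (nat_lit 330) (nat_lit 271) (nat_lit 119)) (XT.lf (nat_lit 0) (nat_lit 100610288133) (nat_lit 76) (nat_lit 17359269707) (nat_lit 152) (nat_lit 21978021180) (nat_lit 10) (nat_lit 5) (nat_lit 11) (nat_lit 5) (nat_lit 12) (nat_lit 4) (nat_lit 331) (nat_lit 271) (nat_lit 118))) (XT.nd (nat_lit 78) (nat_lit 152) (nat_lit 0) (XT.lf (nat_lit 0) (nat_lit 135953588384) (nat_lit 152) (nat_lit 8568773999) (nat_lit 0) (nat_lit 1447721627) (nat_lit 10) (nat_lit 5) (nat_lit 12) (nat_lit 4) (nat_lit 10) (nat_lit 4) (nat_lit 332) (nat_lit 271) (nat_lit 117)) (XT.nd (nat_lit 78) (nat_lit 0) (nat_lit 0) (XT.lf (nat_lit 0) (nat_lit 3134376670) (nat_lit 152) (nat_lit 128083890868) (nat_lit 76) (nat_lit 21039829903) (nat_lit 8) (nat_lit 5) (nat_lit 10) (nat_lit 5) (nat_lit 9) (nat_lit 4) (nat_lit 333) (nat_lit 271) (nat_lit 116))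 (XT.lf (nat_lit 0) (nat_lit 16752655791) (nat_lit 152) (nat_lit 100169748464) (nat_lit 76) (nat_lit 41922574536) (nat_lit 8) (nat_lit 5) (nat_lit 10) (nat_lit 5) (nat_lit 9) (nat_lit 4) (nat_lit 334) (nat_lit 271) (nat_lit 115))))))) (XT.nd (nat_lit 702) (nat_lit 152) (nat_lit 0) (XT.nd (nat_lit 312) (nat_lit 0) (nat_lit 0) (XT.nd (nat_lit 156) (nat_lit 76) (nat_lit 0) (XT.nd (nat_lit 78) (nat_lit 0) (nat_lit 0) (XT.lf (nat_lit 0) (nat_lit 31050884921) (nat_lit 152) (nat_lit 70861549984) (nat_lit 76) (nat_lit 63848819073) (nat_lit 8) (nat_lit 5) (nat_lit 10) (nat_lit 5) (nat_lit 9) (nat_lit 4) (nat_lit 335) (nat_lit 271) (nat_lit 114)) (XT.lf (nat_lit 0) (nat_lit 46063107460) (nat_lit 152) (nat_lit 40089514000) (nat_lit 76) (nat_lit 86870768858) (nat_lit 8) (nat_lit 5) (nat_lit 10) (nat_lit 5) (nat_lit 9) (nat_lit 4) (nat_lit 336) (nat_lit 271) (nat_lit 113))) (XT.nd (nat_lit 78) (nat_lit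 76) (nat_lit 0) (XT.lf (nat_lit 0) (nat_lit 61825066797) (nat_lit 152) (nat_lit 7780373762) (nat_lit 76) (nat_lit 111043238057) (nat_lit 8) (nat_lit 5) (nat_lit 10) (nat_lit 5) (nat_lit 9) (nat_lit 4) (nat_lit 337) (nat_lit 271) (nat_lit 112)) (XT.lf (nat_lit 0) (nat_lit 27007196196) (nat_lit 76) (nat_lit 51788753230) (nat_lit 152) (nat_lit 109838241993) (nat_lit 7) (nat_lit 5) (nat_lit 8) (nat_lit 5) (nat_lit 9) (nat_lit 4) (nat_lit 338) (nat_lit 271) (nat_lit 111)))) (XT.nd (nat_lit 156) (nat_lit 0) (nat_lit 0) (XT.nd (nat_lit 78) (nat_lit 0) (nat_lit 0) (XT.lf (nat_lit 0) (nat_lit 63802858432) (nat_lit 76) (nat_lit 32943467198) (nat_lit 152) (nat_lit 100266108051) (nat_lit 7) (nat_lit 5) (nat_lit 8) (nat_lit 5) (nat_lit 9) (nat_lit 4) (nat_lit 339) (nat_lit 271) (nat_lit 110)) (XT.lf (nat_lit 0) (nat_lit 102436967372) (nat_lit 76) (nat_lit 13156477129) (nat_lit 152) (nat_lit 90216183591)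 (nat_lit 7) (nat_lit 5) (nat_lit 8) (nat_lit 5) (nat_lit 9) (nat_lit 4) (nat_lit 340) (nat_lit 271) (nat_lit 109))) (XT.nd (nat_lit 78) (nat_lit 0) (nat_lit 0) (XT.lf (nat_lit 0) (nat_lit 135501139207) (nat_lit 152) (nat_lit 72164170442) (nat_lit 0) (nat_lit 7375462751) (nat_lit 7) (nat_lit 5) (nat_lit 9) (nat_lit 4) (nat_lit 7) (nat_lit 4) (nat_lit 341) (nat_lit 271) (nat_lit 108)) (XT.nd (nat_lit 78) (nat_lit 0) (nat_lit 0) (XT.lf (nat_lit 0) (nat_lit 156619186682) (nat_lit 152) (nat_lit 39612176145) (nat_lit 0) (nat_lit 28491363810) (nat_lit 7) (nat_lit 5) (nat_lit 9) (nat_lit 4) (nat_lit 7) (nat_lit 4) (nat_lit 342) (nat_lit 271) (nat_lit 107)) (XT.lf (nat_lit 0) (nat_lit 178792458512) (nat_lit 152) (nat_lit 5433763603) (nat_lit 0) (nat_lit 50662591434) (nat_lit 7) (nat_lit 5) (nat_lit 9) (nat_lit 4) (nat_lit 7) (nat_lit 4) (nat_lit 343) (nat_lit 271) (nat_lit 106)))))) (XT.nd (nat_lit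 312) (nat_lit 0) (nat_lit 0) (XT.nd (nat_lit 156) (nat_lit 76) (nat_lit 0) (XT.nd (nat_lit 78) (nat_lit 0) (nat_lit 0) (XT.lf (nat_lit 0) (nat_lit 31459339695) (nat_lit 76) (nat_lit 171105576964) (nat_lit 76) (nat_lit 42973763023) (nat_lit 6) (nat_lit 4) (nat_lit 7) (nat_lit 5) (nat_lit 7) (nat_lit 4) (nat_lit 344) (nat_lit 271) (nat_lit 105)) (XT.lf (nat_lit 0) (nat_lit 70384639102) (nat_lit 76) (nat_lit 157232749761) (nat_lit 76) (nat_lit 29099081665) (nat_lit 6) (nat_lit 4) (nat_lit 7) (nat_lit 5) (nat_lit 7) (nat_lit 4) (nat_lit 345) (nat_lit 271) (nat_lit 104))) (XT.nd (nat_lit 78) (nat_lit 76) (nat_lit 0) (XT.lf (nat_lit 0) (nat_lit 111255149136) (nat_lit 76) (nat_lit 142666733381) (nat_lit 76) (nat_lit 14531299424) (nat_lit 6) (nat_lit 4) (nat_lit 7) (nat_lit 5) (nat_lit 7) (nat_lit 4) (nat_lit 346) (nat_lit 271) (nat_lit 103)) (XT.lf (nat_lit 0) (nat_lit 739807518) (nat_lit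 152) (nat_lit 126620510317) (nat_lit 76) (nat_lit 153415844019) (nat_lit 5) (nat_lit 5) (nat_lit 7) (nat_lit 5) (nat_lit 6) (nat_lit 4) (nat_lit 347) (nat_lit 271) (nat_lit 102)))) (XT.nd (nat_lit 156) (nat_lit 0) (nat_lit 0) (XT.nd (nat_lit 78) (nat_lit 0) (nat_lit 0) (XT.lf (nat_lit 0) (nat_lit 16285566924) (nat_lit 152) (nat_lit 94753305222) (nat_lit 76) (nat_lit 182664536305) (nat_lit 5) (nat_lit 5) (nat_lit 7) (nat_lit 5) (nat_lit 6) (nat_lit 4) (nat_lit 348) (nat_lit 271) (nat_lit 101)) (XT.lf (nat_lit 0) (nat_lit 32608084839) (nat_lit 152) (nat_lit 61293668914) (nat_lit 76) (nat_lit 213375290852) (nat_lit 5) (nat_lit 5) (nat_lit 7) (nat_lit 5) (nat_lit 6) (nat_lit 4) (nat_lit 349) (nat_lit 271) (nat_lit 100))) (XT.nd (nat_lit 31434) (nat_lit 0) (nat_lit 4560) (XT.lf (nat_lit 0) (nat_lit 49746224400) (nat_lit 152) (nat_lit 26161935593) (nat_lit 76) (nat_lit 245621228506) (nat_lit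 5) (nat_lit 5) (nat_lit 7) (nat_lit 5) (nat_lit 6) (nat_lit 4) (nat_lit 350) (nat_lit 271) (nat_lit 99)) (XT.nd (nat_lit 78) (nat_lit 0) (nat_lit 0) (XT.lf (nat_lit 0) (nat_lit 776599407) (nat_lit 0) (nat_lit 776599407) (nat_lit 684) (nat_lit 8305034442) (nat_lit 65) (nat_lit 5) (nat_lit 65) (nat_lit 3) (nat_lit 74) (nat_lit 3) (nat_lit 272) (nat_lit 272) (nat_lit 176)) (XT.lf (nat_lit 0) (nat_lit 3444627458) (nat_lit 684) (nat_lit 10136898550) (nat_lit 760) (nat_lit 6614210020) (nat_lit 65) (nat_lit 5) (nat_lit 74) (nat_lit 3) (nat_lit 75) (nat_lit 5) (nat_lit 273) (nat_lit 272) (nat_lit 175))))))))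
noncomputable def xc203 : XT := (XT.nd (nat_lit 1326) (nat_lit 2052) (nat_lit 0) (XT.nd (nat_lit 624) (nat_lit 1064) (nat_lit 0) (XT.nd (nat_lit 312) (nat_lit 0) (nat_lit 152) (XT.nd (nat_lit 156) (nat_lit 0) (nat_lit 76) (XT.nd (nat_lit 78) (nat_lit 0) (nat_lit 76) (XT.lf (nat_lit 0) (nat_lit 3815457129) (nat_lit 684) (nat_lit 1740207352) (nat_lit 760) (nat_lit 15142559400) (nat_lit 65) (nat_lit 5) (nat_lit 74) (nat_lit 3) (nat_lit 75) (nat_lit 5) (nat_lit 274) (nat_lit 272) (nat_lit 174)) (XT.lf (nat_lit 0) (nat_lit 4356333651) (nat_lit 684) (nat_lit 13962552638) (nat_lit 760) (nat_lit 2899411979) (nat_lit 66) (nat_lit 5) (nat_lit 75) (nat_lit 5) (nat_lit 76) (nat_lit 5) (nat_lit 275) (nat_lit 272) (nat_lit 173))) (XT.nd (nat_lit 78) (nat_lit 0) (nat_lit 0) (XT.lf (nat_lit 0) (nat_lit 5036397371) (nat_lit 684) (nat_lit 5098277329) (nat_lit 760) (nat_lit 11624130136) (nat_lit 66) (nat_lit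 5) (nat_lit 75) (nat_lit 5) (nat_lit 76) (nat_lit 5) (nat_lit 276) (nat_lit 272) (nat_lit 172)) (XT.lf (nat_lit 76) (nat_lit 4342752422) (nat_lit 0) (nat_lit 1467050119) (nat_lit 760) (nat_lit 16513601213) (nat_lit 67) (nat_lit 5) (nat_lit 66) (nat_lit 5) (nat_lit 76) (nat_lit 5) (nat_lit 277) (nat_lit 272) (nat_lit 171)))) (XT.nd (nat_lit 156) (nat_lit 0) (nat_lit 76) (XT.nd (nat_lit 78) (nat_lit 0) (nat_lit 0) (XT.lf (nat_lit 0) (nat_lit 6820721027) (nat_lit 684) (nat_lit 8605533561) (nat_lit 760) (nat_lit 7480068192) (nat_lit 67) (nat_lit 5) (nat_lit 76) (nat_lit 5) (nat_lit 77) (nat_lit 5) (nat_lit 278) (nat_lit 272) (nat_lit 170)) (XT.lf (nat_lit 76) (nat_lit 1248684865) (nat_lit 0) (nat_lit 6669330216) (nat_lit 760) (nat_lit 15598611972) (nat_lit 68) (nat_lit 5) (nat_lit 67) (nat_lit 5) (nat_lit 77) (nat_lit 5) (nat_lit 279) (nat_lit 272) (nat_lit 169))) (XT.nd (nat_lit 78) (nat_lit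 0) (nat_lit 0) (XT.lf (nat_lit 0) (nat_lit 9250327586) (nat_lit 684) (nat_lit 12303511646) (nat_lit 760) (nat_lit 2594628933) (nat_lit 68) (nat_lit 5) (nat_lit 77) (nat_lit 5) (nat_lit 78) (nat_lit 5) (nat_lit 280) (nat_lit 272) (nat_lit 168)) (XT.lf (nat_lit 0) (nat_lit 10751538054) (nat_lit 684) (nat_lit 1955823899) (nat_lit 760) (nat_lit 12099453182) (nat_lit 68) (nat_lit 5) (nat_lit 77) (nat_lit 5) (nat_lit 78) (nat_lit 5) (nat_lit 281) (nat_lit 272) (nat_lit 167))))) (XT.nd (nat_lit 312) (nat_lit 684) (nat_lit 0) (XT.nd (nat_lit 156) (nat_lit 608) (nat_lit 0) (XT.nd (nat_lit 78) (nat_lit 0) (nat_lit 76) (XT.lf (nat_lit 76) (nat_lit 9198288000) (nat_lit 0) (nat_lit 3266416912) (nat_lit 760) (nat_lit 13026556332) (nat_lit 69) (nat_lit 5) (nat_lit 68) (nat_lit 5) (nat_lit 78) (nat_lit 5) (nat_lit 282) (nat_lit 272) (nat_lit 166)) (XT.lf (nat_lit 0) (nat_lit 14394508569) (nat_lit 684)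 (nat_lit 5340225265) (nat_lit 76) (nat_lit 6468672225) (nat_lit 69) (nat_lit 5) (nat_lit 78) (nat_lit 5) (nat_lit 70) (nat_lit 5) (nat_lit 283) (nat_lit 272) (nat_lit 165))) (XT.nd (nat_lit 78) (nat_lit 0) (nat_lit 0) (XT.lf (nat_lit 0) (nat_lit 6302971147) (nat_lit 684) (nat_lit 10263634658) (nat_lit 760) (nat_lit 10377286254) (nat_lit 60) (nat_lit 5) (nat_lit 69) (nat_lit 5) (nat_lit 70) (nat_lit 5) (nat_lit 284) (nat_lit 272) (nat_lit 164)) (XT.lf (nat_lit 0) (nat_lit 18708439062) (nat_lit 684) (nat_lit 223367031) (nat_lit 760) (nat_lit 8785394326) (nat_lit 60) (nat_lit 5) (nat_lit 69) (nat_lit 5) (nat_lit 70) (nat_lit 5) (nat_lit 285) (nat_lit 272) (nat_lit 163)))) (XT.nd (nat_lit 156) (nat_lit 380) (nat_lit 0) (XT.nd (nat_lit 78) (nat_lit 0) (nat_lit 0) (XT.lf (nat_lit 0) (nat_lit 3139015599) (nat_lit 304) (nat_lit 18480718289) (nat_lit 380) (nat_lit 6899238806) (nat_lit 56) (nat_lit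 5) (nat_lit 60) (nat_lit 5) (nat_lit 61) (nat_lit 5) (nat_lit 286) (nat_lit 272) (nat_lit 162)) (XT.lf (nat_lit 0) (nat_lit 16197897229) (nat_lit 304) (nat_lit 8394869539) (nat_lit 380) (nat_lit 4760552212) (nat_lit 56) (nat_lit 5) (nat_lit 60) (nat_lit 5) (nat_lit 61) (nat_lit 5) (nat_lit 287) (nat_lit 272) (nat_lit 161))) (XT.nd (nat_lit 78) (nat_lit 380) (nat_lit 0) (XT.lf (nat_lit 0) (nat_lit 27743526910) (nat_lit 380) (nat_lit 359231302) (nat_lit 76) (nat_lit 2125190428) (nat_lit 56) (nat_lit 5) (nat_lit 61) (nat_lit 5) (nat_lit 57) (nat_lit 5) (nat_lit 288) (nat_lit 272) (nat_lit 160)) (XT.nd (nat_lit 78) (nat_lit 0) (nat_lit 0) (XT.lf (nat_lit 0) (nat_lit 255400114) (nat_lit 380) (nat_lit 17771621183) (nat_lit 76) (nat_lit 13102037202) (nat_lit 51) (nat_lit 5) (nat_lit 56) (nat_lit 5) (nat_lit 52) (nat_lit 5) (nat_lit 289) (nat_lit 272) (nat_lit 159)) (XT.lf (nat_lit 0) (nat_lit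 3050014794) (nat_lit 380) (nat_lit 4348479037) (nat_lit 76) (nat_lit 24674646019) (nat_lit 51) (nat_lit 5) (nat_lit 56) (nat_lit 5) (nat_lit 52) (nat_lit 5) (nat_lit 290) (nat_lit 272) (nat_lit 158))))))) (XT.nd (nat_lit 702) (nat_lit 912) (nat_lit 0) (XT.nd (nat_lit 312) (nat_lit 532) (nat_lit 0) (XT.nd (nat_lit 156) (nat_lit 304) (nat_lit 0) (XT.nd (nat_lit 78) (nat_lit 0) (nat_lit 0) (XT.lf (nat_lit 0) (nat_lit 6198114542) (nat_lit 380) (nat_lit 23055116065) (nat_lit 76) (nat_lit 3800523265) (nat_lit 47) (nat_lit 5) (nat_lit 52) (nat_lit 5) (nat_lit 48) (nat_lit 5) (nat_lit 291) (nat_lit 272) (nat_lit 157)) (XT.lf (nat_lit 0) (nat_lit 9695242510) (nat_lit 380) (nat_lit 8993185412) (nat_lit 76) (nat_lit 15385405057) (nat_lit 47) (nat_lit 5) (nat_lit 52) (nat_lit 5) (nat_lit 48) (nat_lit 5) (nat_lit 292) (nat_lit 272) (nat_lit 156))) (XT.nd (nat_lit 78) (nat_lit 0) (nat_lit 0) (XT.lf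 (nat_lit 0) (nat_lit 5957711649) (nat_lit 304) (nat_lit 7498232354) (nat_lit 380) (nat_lit 21684550987) (nat_lit 43) (nat_lit 5) (nat_lit 47) (nat_lit 5) (nat_lit 48) (nat_lit 5) (nat_lit 293) (nat_lit 272) (nat_lit 155)) (XT.lf (nat_lit 0) (nat_lit 17621681186) (nat_lit 380) (nat_lit 14358322569) (nat_lit 76) (nat_lit 4269650417) (nat_lit 43) (nat_lit 5) (nat_lit 48) (nat_lit 5) (nat_lit 44) (nat_lit 5) (nat_lit 294) (nat_lit 272) (nat_lit 154)))) (XT.nd (nat_lit 156) (nat_lit 304) (nat_lit 0) (XT.nd (nat_lit 78) (nat_lit 0) (nat_lit 0) (XT.lf (nat_lit 0) (nat_lit 1115425581) (nat_lit 228) (nat_lit 21016637809) (nat_lit 304) (nat_lit 15275403441) (nat_lit 40) (nat_lit 5) (nat_lit 43) (nat_lit 5) (nat_lit 44) (nat_lit 5) (nat_lit 295) (nat_lit 272) (nat_lit 153)) (XT.lf (nat_lit 0) (nat_lit 17856711312) (nat_lit 228) (nat_lit 9250556976) (nat_lit 304) (nat_lit 11503949446) (nat_lit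 40) (nat_lit 5) (nat_lit 43) (nat_lit 5) (nat_lit 44) (nat_lit 5) (nat_lit 296) (nat_lit 272) (nat_lit 152))) (XT.nd (nat_lit 78) (nat_lit 304) (nat_lit 0) (XT.lf (nat_lit 0) (nat_lit 32376003659) (nat_lit 304) (nat_lit 4493156308) (nat_lit 76) (nat_lit 3003769884) (nat_lit 40) (nat_lit 5) (nat_lit 44) (nat_lit 5) (nat_lit 41) (nat_lit 5) (nat_lit 297) (nat_lit 272) (nat_lit 151)) (XT.nd (nat_lit 78) (nat_lit 76) (nat_lit 0) (XT.lf (nat_lit 0) (nat_lit 12836064193) (nat_lit 228) (nat_lit 25420653468) (nat_lit 304) (nat_lit 2923594420) (nat_lit 37) (nat_lit 5) (nat_lit 40) (nat_lit 5) (nat_lit 41) (nat_lit 5) (nat_lit 298) (nat_lit 272) (nat_lit 150)) (XT.lf (nat_lit 0) (nat_lit 1892144283) (nat_lit 304) (nat_lit 11396533123) (nat_lit 76) (nat_lit 29259237129) (nat_lit 36) (nat_lit 5) (nat_lit 40) (nat_lit 5) (nat_lit 37) (nat_lit 5) (nat_lit 299) (nat_lit 272) (nat_lit 149)))))) (XT.nd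 (nat_lit 312) (nat_lit 456) (nat_lit 0) (XT.nd (nat_lit 156) (nat_lit 228) (nat_lit 0) (XT.nd (nat_lit 78) (nat_lit 0) (nat_lit 0) (XT.lf (nat_lit 0) (nat_lit 6556254242) (nat_lit 228) (nat_lit 393210749) (nat_lit 304) (nat_lit 37027093403) (nat_lit 33) (nat_lit 5) (nat_lit 36) (nat_lit 5) (nat_lit 37) (nat_lit 5) (nat_lit 300) (nat_lit 272) (nat_lit 148)) (XT.lf (nat_lit 0) (nat_lit 12657847335) (nat_lit 304) (nat_lit 19877381554) (nat_lit 76) (nat_lit 12921505320) (nat_lit 33) (nat_lit 5) (nat_lit 37) (nat_lit 5) (nat_lit 34) (nat_lit 5) (nat_lit 301) (nat_lit 272) (nat_lit 147))) (XT.nd (nat_lit 78) (nat_lit 228) (nat_lit 0) (XT.lf (nat_lit 0) (nat_lit 18655012774) (nat_lit 304) (nat_lit 1467867731) (nat_lit 76) (nat_lit 26887879199) (nat_lit 33) (nat_lit 5) (nat_lit 37) (nat_lit 5) (nat_lit 34) (nat_lit 5) (nat_lit 302) (nat_lit 272) (nat_lit 146)) (XT.lf (nat_lit 0) (nat_lit 18448681638)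 (nat_lit 228) (nat_lit 6788455137) (nat_lit 304) (nat_lit 23391103341) (nat_lit 30) (nat_lit 5) (nat_lit 33) (nat_lit 5) (nat_lit 34) (nat_lit 5) (nat_lit 303) (nat_lit 272) (nat_lit 145)))) (XT.nd (nat_lit 156) (nat_lit 304) (nat_lit 0) (XT.nd (nat_lit 78) (nat_lit 152) (nat_lit 0) (XT.lf (nat_lit 0) (nat_lit 32283372691) (nat_lit 304) (nat_lit 11030335476) (nat_lit 76) (nat_lit 7006144340) (nat_lit 30) (nat_lit 5) (nat_lit 34) (nat_lit 5) (nat_lit 31) (nat_lit 5) (nat_lit 304) (nat_lit 272) (nat_lit 144)) (XT.lf (nat_lit 0) (nat_lit 9257566708) (nat_lit 152) (nat_lit 30677441938) (nat_lit 228) (nat_lit 12148390311) (nat_lit 28) (nat_lit 5) (nat_lit 30) (nat_lit 5) (nat_lit 31) (nat_lit 5) (nat_lit 305) (nat_lit 272) (nat_lit 143))) (XT.nd (nat_lit 78) (nat_lit 304) (nat_lit 0) (XT.lf (nat_lit 0) (nat_lit 30939077796) (nat_lit 152) (nat_lit 17214290110) (nat_lit 228) (nat_lit 5772555224)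 (nat_lit 28) (nat_lit 5) (nat_lit 30) (nat_lit 5) (nat_lit 31) (nat_lit 5) (nat_lit 306) (nat_lit 272) (nat_lit 142)) (XT.nd (nat_lit 78) (nat_lit 228) (nat_lit 0) (XT.lf (nat_lit 0) (nat_lit 889975330) (nat_lit 228) (nat_lit 2173954135) (nat_lit 76) (nat_lit 52796060236) (nat_lit 27) (nat_lit 5) (nat_lit 30) (nat_lit 5) (nat_lit 28) (nat_lit 5) (nat_lit 307) (nat_lit 272) (nat_lit 141)) (XT.lf (nat_lit 0) (nat_lit 8195855418) (nat_lit 304) (nat_lit 37832289296) (nat_lit 76) (nat_lit 11832678807) (nat_lit 24) (nat_lit 5) (nat_lit 28) (nat_lit 5) (nat_lit 25) (nat_lit 5) (nat_lit 308) (nat_lit 272) (nat_lit 140))))))))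
noncomputable def xc204 : XT := (XT.nd (nat_lit 1326) (nat_lit 456) (nat_lit 0) (XT.nd (nat_lit 624) (nat_lit 304) (nat_lit 0) (XT.nd (nat_lit 312) (nat_lit 380) (nat_lit 0) (XT.nd (nat_lit 156) (nat_lit 0) (nat_lit 0) (XT.nd (nat_lit 78) (nat_lit 152) (nat_lit 0) (XT.lf (nat_lit 0) (nat_lit 15952265072) (nat_lit 304) (nat_lit 16597597505) (nat_lit 76) (nat_lit 27407580829) (nat_lit 24) (nat_lit 5) (nat_lit 28) (nat_lit 5) (nat_lit 25) (nat_lit 5) (nat_lit 309) (nat_lit 272) (nat_lit 139)) (XT.lf (nat_lit 0) (nat_lit 5883785621) (nat_lit 152) (nat_lit 18302273577) (nat_lit 228) (nat_lit 37968362746) (nat_lit 22) (nat_lit 5) (nat_lit 24) (nat_lit 5) (nat_lit 25) (nat_lit 5) (nat_lit 310) (nat_lit 272) (nat_lit 138))) (XT.nd (nat_lit 78) (nat_lit 0) (nat_lit 0) (XT.lf (nat_lit 0) (nat_lit 30062162084) (nat_lit 152) (nat_lit 3048228715) (nat_lit 228) (nat_lit 31336921801) (nat_lit 22)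 (nat_lit 5) (nat_lit 24) (nat_lit 5) (nat_lit 25) (nat_lit 5) (nat_lit 311) (nat_lit 272) (nat_lit 137)) (XT.lf (nat_lit 0) (nat_lit 42681264160) (nat_lit 228) (nat_lit 11611110942) (nat_lit 76) (nat_lit 12552461743) (nat_lit 22) (nat_lit 5) (nat_lit 25) (nat_lit 5) (nat_lit 23) (nat_lit 5) (nat_lit 312) (nat_lit 272) (nat_lit 136)))) (XT.nd (nat_lit 156) (nat_lit 228) (nat_lit 0) (XT.nd (nat_lit 78) (nat_lit 0) (nat_lit 0) (XT.lf (nat_lit 0) (nat_lit 12653561588) (nat_lit 152) (nat_lit 40322600751) (nat_lit 228) (nat_lit 16373805966) (nat_lit 20) (nat_lit 5) (nat_lit 22) (nat_lit 5) (nat_lit 23) (nat_lit 5) (nat_lit 313) (nat_lit 272) (nat_lit 135)) (XT.lf (nat_lit 0) (nat_lit 38531538101) (nat_lit 152) (nat_lit 25448909751) (nat_lit 228) (nat_lit 7990181186) (nat_lit 20) (nat_lit 5) (nat_lit 22) (nat_lit 5) (nat_lit 23) (nat_lit 5) (nat_lit 314) (nat_lit 272) (nat_lit 134))) (XT.nd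 (nat_lit 78) (nat_lit 152) (nat_lit 0) (XT.lf (nat_lit 0) (nat_lit 784677890) (nat_lit 228) (nat_lit 9034561544) (nat_lit 76) (nat_lit 64902550269) (nat_lit 19) (nat_lit 5) (nat_lit 22) (nat_lit 5) (nat_lit 20) (nat_lit 5) (nat_lit 315) (nat_lit 272) (nat_lit 133)) (XT.lf (nat_lit 0) (nat_lit 10102738942) (nat_lit 228) (nat_lit 60699679314) (nat_lit 76) (nat_lit 6782895907) (nat_lit 17) (nat_lit 5) (nat_lit 20) (nat_lit 5) (nat_lit 18) (nat_lit 5) (nat_lit 316) (nat_lit 272) (nat_lit 132))))) (XT.nd (nat_lit 312) (nat_lit 152) (nat_lit 0) (XT.nd (nat_lit 156) (nat_lit 152) (nat_lit 0) (XT.nd (nat_lit 78) (nat_lit 0) (nat_lit 0) (XT.lf (nat_lit 0) (nat_lit 20201370794) (nat_lit 228) (nat_lit 36335200250) (nat_lit 76) (nat_lit 24039714380) (nat_lit 17) (nat_lit 5) (nat_lit 20) (nat_lit 5) (nat_lit 18) (nat_lit 5) (nat_lit 317) (nat_lit 272) (nat_lit 131)) (XT.lf (nat_lit 0) (nat_lit 30803204395)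 (nat_lit 228) (nat_lit 10755218057) (nat_lit 76) (nat_lit 42158473065) (nat_lit 17) (nat_lit 5) (nat_lit 20) (nat_lit 5) (nat_lit 18) (nat_lit 5) (nat_lit 318) (nat_lit 272) (nat_lit 130))) (XT.nd (nat_lit 78) (nat_lit 0) (nat_lit 0) (XT.lf (nat_lit 0) (nat_lit 16633549442) (nat_lit 152) (nat_lit 25559629085) (nat_lit 228) (nat_lit 44808458741) (nat_lit 15) (nat_lit 5) (nat_lit 17) (nat_lit 5) (nat_lit 18) (nat_lit 5) (nat_lit 319) (nat_lit 272) (nat_lit 129)) (XT.lf (nat_lit 0) (nat_lit 45762602735) (nat_lit 152) (nat_lit 8570584630) (nat_lit 228) (nat_lit 36108405368) (nat_lit 15) (nat_lit 5) (nat_lit 17) (nat_lit 5) (nat_lit 18) (nat_lit 5) (nat_lit 320) (nat_lit 272) (nat_lit 128)))) (XT.nd (nat_lit 156) (nat_lit 76) (nat_lit 0) (XT.nd (nat_lit 78) (nat_lit 76) (nat_lit 0) (XT.lf (nat_lit 0) (nat_lit 67223348526) (nat_lit 228) (nat_lit 17852629310) (nat_lit 76) (nat_lit 8970413804)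 (nat_lit 15) (nat_lit 5) (nat_lit 18) (nat_lit 5) (nat_lit 16) (nat_lit 4) (nat_lit 321) (nat_lit 272) (nat_lit 127)) (XT.lf (nat_lit 0) (nat_lit 10508510807) (nat_lit 76) (nat_lit 70552603057) (nat_lit 152) (nat_lit 16755164928) (nat_lit 14) (nat_lit 5) (nat_lit 15) (nat_lit 5) (nat_lit 16) (nat_lit 4) (nat_lit 322) (nat_lit 272) (nat_lit 126))) (XT.nd (nat_lit 78) (nat_lit 76) (nat_lit 0) (XT.lf (nat_lit 0) (nat_lit 40905174026) (nat_lit 76) (nat_lit 54986497425) (nat_lit 152) (nat_lit 5867946611) (nat_lit 14) (nat_lit 5) (nat_lit 15) (nat_lit 5) (nat_lit 16) (nat_lit 4) (nat_lit 323) (nat_lit 272) (nat_lit 125)) (XT.nd (nat_lit 78) (nat_lit 0) (nat_lit 0) (XT.lf (nat_lit 0) (nat_lit 5384166025) (nat_lit 152) (nat_lit 33167592217) (nat_lit 76) (nat_lit 67344095323) (nat_lit 13) (nat_lit 5) (nat_lit 15) (nat_lit 5) (nat_lit 14) (nat_lit 5) (nat_lit 324) (nat_lit 272) (nat_lit 124))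 (XT.lf (nat_lit 0) (nat_lit 17000353659) (nat_lit 152) (nat_lit 4194759778) (nat_lit 76) (nat_lit 89039046627) (nat_lit 13) (nat_lit 5) (nat_lit 15) (nat_lit 5) (nat_lit 14) (nat_lit 5) (nat_lit 325) (nat_lit 272) (nat_lit 123))))))) (XT.nd (nat_lit 702) (nat_lit 76) (nat_lit 0) (XT.nd (nat_lit 312) (nat_lit 152) (nat_lit 0) (XT.nd (nat_lit 156) (nat_lit 76) (nat_lit 0) (XT.nd (nat_lit 78) (nat_lit 0) (nat_lit 0) (XT.lf (nat_lit 0) (nat_lit 27091756713) (nat_lit 152) (nat_lit 2527306351) (nat_lit 228) (nat_lit 85149235639) (nat_lit 11) (nat_lit 5) (nat_lit 13) (nat_lit 5) (nat_lit 14) (nat_lit 5) (nat_lit 326) (nat_lit 272) (nat_lit 122)) (XT.lf (nat_lit 0) (nat_lit 43206234473) (nat_lit 228) (nat_lit 59707178040) (nat_lit 76) (nat_lit 16598857754) (nat_lit 11) (nat_lit 5) (nat_lit 14) (nat_lit 5) (nat_lit 12) (nat_lit 4) (nat_lit 327) (nat_lit 272) (nat_lit 121))) (XT.nd (nat_lit 78)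 (nat_lit 76) (nat_lit 0) (XT.lf (nat_lit 0) (nat_lit 57513005571) (nat_lit 228) (nat_lit 30382759534) (nat_lit 76) (nat_lit 36595665455) (nat_lit 11) (nat_lit 5) (nat_lit 14) (nat_lit 5) (nat_lit 12) (nat_lit 4) (nat_lit 328) (nat_lit 272) (nat_lit 120)) (XT.lf (nat_lit 0) (nat_lit 419415829) (nat_lit 76) (nat_lit 72121114191) (nat_lit 152) (nat_lit 57178750213) (nat_lit 10) (nat_lit 5) (nat_lit 11) (nat_lit 5) (nat_lit 12) (nat_lit 4) (nat_lit 329) (nat_lit 272) (nat_lit 119)))) (XT.nd (nat_lit 156) (nat_lit 152) (nat_lit 0) (XT.nd (nat_lit 78) (nat_lit 0) (nat_lit 0) (XT.lf (nat_lit 0) (nat_lit 33814663225) (nat_lit 76) (nat_lit 55018205713) (nat_lit 152) (nat_lit 46349983539) (nat_lit 10) (nat_lit 5) (nat_lit 11) (nat_lit 5) (nat_lit 12) (nat_lit 4) (nat_lit 330) (nat_lit 272) (nat_lit 118)) (XT.lf (nat_lit 0) (nat_lit 68877903905) (nat_lit 76) (nat_lit 37060865197) (nat_lit 152)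 (nat_lit 34980888926) (nat_lit 10) (nat_lit 5) (nat_lit 11) (nat_lit 5) (nat_lit 12) (nat_lit 4) (nat_lit 331) (nat_lit 272) (nat_lit 117))) (XT.nd (nat_lit 78) (nat_lit 152) (nat_lit 0) (XT.lf (nat_lit 0) (nat_lit 105692621774) (nat_lit 76) (nat_lit 18206337068) (nat_lit 152) (nat_lit 23044397101) (nat_lit 10) (nat_lit 5) (nat_lit 11) (nat_lit 5) (nat_lit 12) (nat_lit 4) (nat_lit 332) (nat_lit 272) (nat_lit 116)) (XT.nd (nat_lit 78) (nat_lit 152) (nat_lit 0) (XT.lf (nat_lit 0) (nat_lit 142781029096) (nat_lit 152) (nat_lit 8946646018) (nat_lit 0) (nat_lit 1539371820) (nat_lit 10) (nat_lit 5) (nat_lit 12) (nat_lit 4) (nat_lit 10) (nat_lit 4) (nat_lit 333) (nat_lit 272) (nat_lit 115)) (XT.lf (nat_lit 0) (nat_lit 3320742792) (nat_lit 152) (nat_lit 134437305785) (nat_lit 76) (nat_lit 22111423108) (nat_lit 8) (nat_lit 5) (nat_lit 10) (nat_lit 5) (nat_lit 9) (nat_lit 4) (nat_lit 334) (nat_lit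 272) (nat_lit 114)))))) (XT.nd (nat_lit 312) (nat_lit 76) (nat_lit 0) (XT.nd (nat_lit 156) (nat_lit 0) (nat_lit 0) (XT.nd (nat_lit 78) (nat_lit 0) (nat_lit 0) (XT.lf (nat_lit 0) (nat_lit 17618524094) (nat_lit 152) (nat_lit 105129874339) (nat_lit 76) (nat_lit 44037371557) (nat_lit 8) (nat_lit 5) (nat_lit 10) (nat_lit 5) (nat_lit 9) (nat_lit 4) (nat_lit 335) (nat_lit 272) (nat_lit 113)) (XT.lf (nat_lit 0) (nat_lit 32630320131) (nat_lit 152) (nat_lit 74358568865) (nat_lit 76) (nat_lit 67059039355) (nat_lit 8) (nat_lit 5) (nat_lit 10) (nat_lit 5) (nat_lit 9) (nat_lit 4) (nat_lit 336) (nat_lit 272) (nat_lit 112))) (XT.nd (nat_lit 78) (nat_lit 0) (nat_lit 0) (XT.lf (nat_lit 0) (nat_lit 48391873276) (nat_lit 152) (nat_lit 42050124350) (nat_lit 76) (nat_lit 91231239994) (nat_lit 8) (nat_lit 5) (nat_lit 10) (nat_lit 5) (nat_lit 9) (nat_lit 4) (nat_lit 337) (nat_lit 272) (nat_lit 111)) (XT.lf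 (nat_lit 0) (nat_lit 64940711035) (nat_lit 152) (nat_lit 8127615926) (nat_lit 76) (nat_lit 116611526335) (nat_lit 8) (nat_lit 5) (nat_lit 10) (nat_lit 5) (nat_lit 9) (nat_lit 4) (nat_lit 338) (nat_lit 272) (nat_lit 110)))) (XT.nd (nat_lit 156) (nat_lit 0) (nat_lit 0) (XT.nd (nat_lit 78) (nat_lit 0) (nat_lit 0) (XT.lf (nat_lit 0) (nat_lit 28398658715) (nat_lit 76) (nat_lit 54360959337) (nat_lit 152) (nat_lit 115305051564) (nat_lit 7) (nat_lit 5) (nat_lit 8) (nat_lit 5) (nat_lit 9) (nat_lit 4) (nat_lit 339) (nat_lit 272) (nat_lit 109)) (XT.lf (nat_lit 0) (nat_lit 67032146791) (nat_lit 76) (nat_lit 34574229553) (nat_lit 152) (nat_lit 105255506283) (nat_lit 7) (nat_lit 5) (nat_lit 8) (nat_lit 5) (nat_lit 9) (nat_lit 4) (nat_lit 340) (nat_lit 272) (nat_lit 108))) (XT.nd (nat_lit 78) (nat_lit 0) (nat_lit 0) (XT.lf (nat_lit 0) (nat_lit 107596097110) (nat_lit 76) (nat_lit 13798671457) (nat_lit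 152) (nat_lit 94704224037) (nat_lit 7) (nat_lit 5) (nat_lit 8) (nat_lit 5) (nat_lit 9) (nat_lit 4) (nat_lit 341) (nat_lit 272) (nat_lit 107)) (XT.nd (nat_lit 78) (nat_lit 0) (nat_lit 0) (XT.lf (nat_lit 0) (nat_lit 142297049369) (nat_lit 152) (nat_lit 75736041592) (nat_lit 0) (nat_lit 7758644732) (nat_lit 7) (nat_lit 5) (nat_lit 9) (nat_lit 4) (nat_lit 7) (nat_lit 4) (nat_lit 342) (nat_lit 272) (nat_lit 106)) (XT.lf (nat_lit 0) (nat_lit 164470006208) (nat_lit 152) (nat_lit 41558177931) (nat_lit 0) (nat_lit 29929654708) (nat_lit 7) (nat_lit 5) (nat_lit 9) (nat_lit 4) (nat_lit 7) (nat_lit 4) (nat_lit 343) (nat_lit 272) (nat_lit 105))))))))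
noncomputable def xc205 : XT := (XT.nd (nat_lit 32838) (nat_lit 0) (nat_lit 2128) (XT.nd (nat_lit 32136) (nat_lit 0) (nat_lit 4560) (XT.nd (nat_lit 312) (nat_lit 76) (nat_lit 0) (XT.nd (nat_lit 156) (nat_lit 0) (nat_lit 0) (XT.nd (nat_lit 78) (nat_lit 76) (nat_lit 0) (XT.lf (nat_lit 0) (nat_lit 187750995907) (nat_lit 152) (nat_lit 5672492715) (nat_lit 0) (nat_lit 53208790252) (nat_lit 7) (nat_lit 5) (nat_lit 9) (nat_lit 4) (nat_lit 7) (nat_lit 4) (nat_lit 344) (nat_lit 272) (nat_lit 104)) (XT.lf (nat_lit 0) (nat_lit 33064734150) (nat_lit 76) (nat_lit 179646948405) (nat_lit 76) (nat_lit 45102976889) (nat_lit 6) (nat_lit 4) (nat_lit 7) (nat_lit 5) (nat_lit 7) (nat_lit 4) (nat_lit 345) (nat_lit 272) (nat_lit 103))) (XT.nd (nat_lit 78) (nat_lit 0) (nat_lit 0) (XT.lf (nat_lit 0) (nat_lit 73934754362) (nat_lit 76) (nat_lit 165081142099) (nat_lit 76) (nat_lit 30535488810) (nat_lit 6) (nat_lit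 4) (nat_lit 7) (nat_lit 5) (nat_lit 7) (nat_lit 4) (nat_lit 346) (nat_lit 272) (nat_lit 102)) (XT.lf (nat_lit 0) (nat_lit 116847319264) (nat_lit 76) (nat_lit 149787455622) (nat_lit 76) (nat_lit 15240200644) (nat_lit 6) (nat_lit 4) (nat_lit 7) (nat_lit 5) (nat_lit 7) (nat_lit 4) (nat_lit 347) (nat_lit 272) (nat_lit 101)))) (XT.nd (nat_lit 31668) (nat_lit 0) (nat_lit 4560) (XT.nd (nat_lit 78) (nat_lit 0) (nat_lit 0) (XT.lf (nat_lit 0) (nat_lit 793082085) (nat_lit 152) (nat_lit 132922962120) (nat_lit 76) (nat_lit 161098088316) (nat_lit 5) (nat_lit 5) (nat_lit 7) (nat_lit 5) (nat_lit 6) (nat_lit 4) (nat_lit 348) (nat_lit 272) (nat_lit 100)) (XT.lf (nat_lit 0) (nat_lit 17115354024) (nat_lit 152) (nat_lit 99463757423) (nat_lit 76) (nat_lit 191808669878) (nat_lit 5) (nat_lit 5) (nat_lit 7) (nat_lit 5) (nat_lit 6) (nat_lit 4) (nat_lit 349) (nat_lit 272) (nat_lit 99))) (XT.nd (nat_lit 78) (nat_lit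 0) (nat_lit 0) (XT.lf (nat_lit 0) (nat_lit 891172598) (nat_lit 0) (nat_lit 891172598) (nat_lit 684) (nat_lit 8560621328) (nat_lit 65) (nat_lit 5) (nat_lit 65) (nat_lit 3) (nat_lit 74) (nat_lit 3) (nat_lit 273) (nat_lit 273) (nat_lit 174)) (XT.lf (nat_lit 0) (nat_lit 3903151928) (nat_lit 684) (nat_lit 10481640276) (nat_lit 760) (nat_lit 6805265351) (nat_lit 65) (nat_lit 5) (nat_lit 74) (nat_lit 3) (nat_lit 75) (nat_lit 5) (nat_lit 274) (nat_lit 273) (nat_lit 173))))) (XT.nd (nat_lit 312) (nat_lit 0) (nat_lit 152) (XT.nd (nat_lit 156) (nat_lit 0) (nat_lit 76) (XT.nd (nat_lit 78) (nat_lit 0) (nat_lit 76) (XT.lf (nat_lit 0) (nat_lit 4278890078) (nat_lit 684) (nat_lit 1672833718) (nat_lit 760) (nat_lit 15766682447) (nat_lit 65) (nat_lit 5) (nat_lit 74) (nat_lit 3) (nat_lit 75) (nat_lit 5) (nat_lit 275) (nat_lit 273) (nat_lit 172)) (XT.lf (nat_lit 0) (nat_lit 4834478293) (nat_lit 684) (nat_lit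 14492920490) (nat_lit 760) (nat_lit 2937754357) (nat_lit 66) (nat_lit 5) (nat_lit 75) (nat_lit 5) (nat_lit 76) (nat_lit 5) (nat_lit 276) (nat_lit 273) (nat_lit 171))) (XT.nd (nat_lit 78) (nat_lit 0) (nat_lit 0) (XT.lf (nat_lit 0) (nat_lit 5536148629) (nat_lit 684) (nat_lit 5193419976) (nat_lit 760) (nat_lit 12103785956) (nat_lit 66) (nat_lit 5) (nat_lit 75) (nat_lit 5) (nat_lit 76) (nat_lit 5) (nat_lit 277) (nat_lit 273) (nat_lit 170)) (XT.lf (nat_lit 76) (nat_lit 4717084307) (nat_lit 0) (nat_lit 1621787736) (nat_lit 760) (nat_lit 17087826312) (nat_lit 67) (nat_lit 5) (nat_lit 66) (nat_lit 5) (nat_lit 76) (nat_lit 5) (nat_lit 278) (nat_lit 273) (nat_lit 169)))) (XT.nd (nat_lit 156) (nat_lit 0) (nat_lit 76) (XT.nd (nat_lit 78) (nat_lit 0) (nat_lit 0) (XT.lf (nat_lit 0) (nat_lit 7387765388) (nat_lit 684) (nat_lit 8872628811) (nat_lit 760) (nat_lit 7779042764) (nat_lit 67) (nat_lit 5)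 (nat_lit 76) (nat_lit 5) (nat_lit 77) (nat_lit 5) (nat_lit 279) (nat_lit 273) (nat_lit 168)) (XT.lf (nat_lit 76) (nat_lit 1471668578) (nat_lit 0) (nat_lit 7059999894) (nat_lit 760) (nat_lit 16149043693) (nat_lit 68) (nat_lit 5) (nat_lit 67) (nat_lit 5) (nat_lit 77) (nat_lit 5) (nat_lit 280) (nat_lit 273) (nat_lit 167))) (XT.nd (nat_lit 78) (nat_lit 0) (nat_lit 0) (XT.lf (nat_lit 0) (nat_lit 9919376856) (nat_lit 684) (nat_lit 12753745502) (nat_lit 760) (nat_lit 2671624848) (nat_lit 68) (nat_lit 5) (nat_lit 77) (nat_lit 5) (nat_lit 78) (nat_lit 5) (nat_lit 281) (nat_lit 273) (nat_lit 166)) (XT.nd (nat_lit 78) (nat_lit 0) (nat_lit 0) (XT.lf (nat_lit 0) (nat_lit 11485812947) (nat_lit 684) (nat_lit 1896527735) (nat_lit 760) (nat_lit 12654201525) (nat_lit 68) (nat_lit 5) (nat_lit 77) (nat_lit 5) (nat_lit 78) (nat_lit 5) (nat_lit 282) (nat_lit 273) (nat_lit 165)) (XT.lf (nat_lit 76) (nat_lit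 9812756092) (nat_lit 0) (nat_lit 3464928503) (nat_lit 760) (nat_lit 13477910791) (nat_lit 69) (nat_lit 5) (nat_lit 68) (nat_lit 5) (nat_lit 78) (nat_lit 5) (nat_lit 283) (nat_lit 273) (nat_lit 164))))))) (XT.nd (nat_lit 702) (nat_lit 1064) (nat_lit 0) (XT.nd (nat_lit 312) (nat_lit 684) (nat_lit 0) (XT.nd (nat_lit 156) (nat_lit 304) (nat_lit 0) (XT.nd (nat_lit 78) (nat_lit 684) (nat_lit 0) (XT.lf (nat_lit 0) (nat_lit 15294419722) (nat_lit 684) (nat_lit 5449777444) (nat_lit 76) (nat_lit 6759663530) (nat_lit 69) (nat_lit 5) (nat_lit 78) (nat_lit 5) (nat_lit 70) (nat_lit 5) (nat_lit 284) (nat_lit 273) (nat_lit 163)) (XT.lf (nat_lit 0) (nat_lit 6773039126) (nat_lit 684) (nat_lit 10795921147) (nat_lit 760) (nat_lit 10712752437) (nat_lit 60) (nat_lit 5) (nat_lit 69) (nat_lit 5) (nat_lit 70) (nat_lit 5) (nat_lit 285) (nat_lit 273) (nat_lit 162))) (XT.nd (nat_lit 78) (nat_lit 304) (nat_lit 0)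 (XT.lf (nat_lit 0) (nat_lit 19791403321) (nat_lit 684) (nat_lit 252730388) (nat_lit 760) (nat_lit 9049999157) (nat_lit 60) (nat_lit 5) (nat_lit 69) (nat_lit 5) (nat_lit 70) (nat_lit 5) (nat_lit 286) (nat_lit 273) (nat_lit 161)) (XT.lf (nat_lit 0) (nat_lit 3450192044) (nat_lit 304) (nat_lit 19410510945) (nat_lit 380) (nat_lit 7075609022) (nat_lit 56) (nat_lit 5) (nat_lit 60) (nat_lit 5) (nat_lit 61) (nat_lit 5) (nat_lit 287) (nat_lit 273) (nat_lit 160)))) (XT.nd (nat_lit 156) (nat_lit 684) (nat_lit 0) (XT.nd (nat_lit 78) (nat_lit 0) (nat_lit 0) (XT.lf (nat_lit 0) (nat_lit 17154673677) (nat_lit 304) (nat_lit 8820095627) (nat_lit 380) (nat_lit 4838016275) (nat_lit 56) (nat_lit 5) (nat_lit 60) (nat_lit 5) (nat_lit 61) (nat_lit 5) (nat_lit 288) (nat_lit 273) (nat_lit 159)) (XT.lf (nat_lit 0) (nat_lit 29275730492) (nat_lit 380) (nat_lit 229415214) (nat_lit 76) (nat_lit 2226395536) (nat_lit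 56) (nat_lit 5) (nat_lit 61) (nat_lit 5) (nat_lit 57) (nat_lit 5) (nat_lit 289) (nat_lit 273) (nat_lit 158))) (XT.nd (nat_lit 78) (nat_lit 304) (nat_lit 0) (XT.lf (nat_lit 0) (nat_lit 411373043) (nat_lit 380) (nat_lit 18509571153) (nat_lit 76) (nat_lit 13756905071) (nat_lit 51) (nat_lit 5) (nat_lit 56) (nat_lit 5) (nat_lit 52) (nat_lit 5) (nat_lit 290) (nat_lit 273) (nat_lit 157)) (XT.nd (nat_lit 78) (nat_lit 304) (nat_lit 0) (XT.lf (nat_lit 0) (nat_lit 3338899269) (nat_lit 380) (nat_lit 4422444809) (nat_lit 76) (nat_lit 25908155470) (nat_lit 51) (nat_lit 5) (nat_lit 56) (nat_lit 5) (nat_lit 52) (nat_lit 5) (nat_lit 291) (nat_lit 273) (nat_lit 156)) (XT.lf (nat_lit 0) (nat_lit 6640254518) (nat_lit 380) (nat_lit 24059808863) (nat_lit 76) (nat_lit 3999311133) (nat_lit 47) (nat_lit 5) (nat_lit 52) (nat_lit 5) (nat_lit 48) (nat_lit 5) (nat_lit 292) (nat_lit 273) (nat_lit 155)))))) (XT.nd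 (nat_lit 312) (nat_lit 532) (nat_lit 0) (XT.nd (nat_lit 156) (nat_lit 228) (nat_lit 0) (XT.nd (nat_lit 78) (nat_lit 304) (nat_lit 0) (XT.lf (nat_lit 0) (nat_lit 10305942015) (nat_lit 380) (nat_lit 9301832297) (nat_lit 76) (nat_lit 16163019791) (nat_lit 47) (nat_lit 5) (nat_lit 52) (nat_lit 5) (nat_lit 48) (nat_lit 5) (nat_lit 293) (nat_lit 273) (nat_lit 154)) (XT.lf (nat_lit 0) (nat_lit 6394335224) (nat_lit 304) (nat_lit 7856512430) (nat_lit 380) (nat_lit 22640153758) (nat_lit 43) (nat_lit 5) (nat_lit 47) (nat_lit 5) (nat_lit 48) (nat_lit 5) (nat_lit 294) (nat_lit 273) (nat_lit 153))) (XT.nd (nat_lit 78) (nat_lit 228) (nat_lit 0) (XT.lf (nat_lit 0) (nat_lit 18619304403) (nat_lit 380) (nat_lit 14938146644) (nat_lit 76) (nat_lit 4498465537) (nat_lit 43) (nat_lit 5) (nat_lit 48) (nat_lit 5) (nat_lit 44) (nat_lit 5) (nat_lit 295) (nat_lit 273) (nat_lit 152)) (XT.lf (nat_lit 0) (nat_lit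 1307061623) (nat_lit 228) (nat_lit 22044715841) (nat_lit 304) (nat_lit 15920032556) (nat_lit 40) (nat_lit 5) (nat_lit 43) (nat_lit 5) (nat_lit 44) (nat_lit 5) (nat_lit 296) (nat_lit 273) (nat_lit 151)))) (XT.nd (nat_lit 156) (nat_lit 532) (nat_lit 0) (XT.nd (nat_lit 78) (nat_lit 0) (nat_lit 0) (XT.lf (nat_lit 0) (nat_lit 18878941890) (nat_lit 228) (nat_lit 9691414483) (nat_lit 304) (nat_lit 11965679244) (nat_lit 40) (nat_lit 5) (nat_lit 43) (nat_lit 5) (nat_lit 44) (nat_lit 5) (nat_lit 297) (nat_lit 273) (nat_lit 150)) (XT.lf (nat_lit 0) (nat_lit 34097720990) (nat_lit 304) (nat_lit 4589433475) (nat_lit 76) (nat_lit 3173936240) (nat_lit 40) (nat_lit 5) (nat_lit 44) (nat_lit 5) (nat_lit 41) (nat_lit 5) (nat_lit 298) (nat_lit 273) (nat_lit 149))) (XT.nd (nat_lit 78) (nat_lit 304) (nat_lit 0) (XT.lf (nat_lit 0) (nat_lit 13604177395) (nat_lit 228) (nat_lit 26665364532) (nat_lit 304) (nat_lit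 2964462737) (nat_lit 37) (nat_lit 5) (nat_lit 40) (nat_lit 5) (nat_lit 41) (nat_lit 5) (nat_lit 299) (nat_lit 273) (nat_lit 148)) (XT.nd (nat_lit 78) (nat_lit 228) (nat_lit 0) (XT.lf (nat_lit 0) (nat_lit 2083837956) (nat_lit 304) (nat_lit 11842560916) (nat_lit 76) (nat_lit 30743763552) (nat_lit 36) (nat_lit 5) (nat_lit 40) (nat_lit 5) (nat_lit 37) (nat_lit 5) (nat_lit 300) (nat_lit 273) (nat_lit 147)) (XT.lf (nat_lit 0) (nat_lit 7005869061) (nat_lit 228) (nat_lit 385434145) (nat_lit 304) (nat_lit 38779085320) (nat_lit 33) (nat_lit 5) (nat_lit 36) (nat_lit 5) (nat_lit 37) (nat_lit 5) (nat_lit 301) (nat_lit 273) (nat_lit 146))))))))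
noncomputable def xc206 : XT := (XT.nd (nat_lit 1326) (nat_lit 684) (nat_lit 0) (XT.nd (nat_lit 624) (nat_lit 532) (nat_lit 0) (XT.nd (nat_lit 312) (nat_lit 456) (nat_lit 0) (XT.nd (nat_lit 156) (nat_lit 228) (nat_lit 0) (XT.nd (nat_lit 78) (nat_lit 0) (nat_lit 0) (XT.lf (nat_lit 0) (nat_lit 13381019070) (nat_lit 304) (nat_lit 20750896799) (nat_lit 76) (nat_lit 13592874854) (nat_lit 33) (nat_lit 5) (nat_lit 37) (nat_lit 5) (nat_lit 34) (nat_lit 5) (nat_lit 302) (nat_lit 273) (nat_lit 145)) (XT.lf (nat_lit 0) (nat_lit 19673743764) (nat_lit 304) (nat_lit 1426638421) (nat_lit 76) (nat_lit 28256362938) (nat_lit 33) (nat_lit 5) (nat_lit 37) (nat_lit 5) (nat_lit 34) (nat_lit 5) (nat_lit 303) (nat_lit 273) (nat_lit 144))) (XT.nd (nat_lit 78) (nat_lit 0) (nat_lit 0) (XT.lf (nat_lit 0) (nat_lit 19483889664) (nat_lit 228) (nat_lit 7098750716) (nat_lit 304) (nat_lit 24472587928) (nat_lit 30) (nat_lit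 5) (nat_lit 33) (nat_lit 5) (nat_lit 34) (nat_lit 5) (nat_lit 304) (nat_lit 273) (nat_lit 143)) (XT.lf (nat_lit 0) (nat_lit 33977638014) (nat_lit 304) (nat_lit 11470668439) (nat_lit 76) (nat_lit 7383303868) (nat_lit 30) (nat_lit 5) (nat_lit 34) (nat_lit 5) (nat_lit 31) (nat_lit 5) (nat_lit 305) (nat_lit 273) (nat_lit 142)))) (XT.nd (nat_lit 156) (nat_lit 304) (nat_lit 0) (XT.nd (nat_lit 78) (nat_lit 0) (nat_lit 0) (XT.lf (nat_lit 0) (nat_lit 9829835567) (nat_lit 152) (nat_lit 32179913964) (nat_lit 228) (nat_lit 12673700825) (nat_lit 28) (nat_lit 5) (nat_lit 30) (nat_lit 5) (nat_lit 31) (nat_lit 5) (nat_lit 306) (nat_lit 273) (nat_lit 141)) (XT.lf (nat_lit 0) (nat_lit 32590213137) (nat_lit 152) (nat_lit 18045099786) (nat_lit 228) (nat_lit 5982983936) (nat_lit 28) (nat_lit 5) (nat_lit 30) (nat_lit 5) (nat_lit 31) (nat_lit 5) (nat_lit 307) (nat_lit 273) (nat_lit 140))) (XT.nd (nat_lit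 78) (nat_lit 228) (nat_lit 0) (XT.lf (nat_lit 0) (nat_lit 1006565707) (nat_lit 228) (nat_lit 2180858535) (nat_lit 76) (nat_lit 55461771161) (nat_lit 27) (nat_lit 5) (nat_lit 30) (nat_lit 5) (nat_lit 28) (nat_lit 5) (nat_lit 308) (nat_lit 273) (nat_lit 139)) (XT.lf (nat_lit 0) (nat_lit 8676337789) (nat_lit 304) (nat_lit 39620528251) (nat_lit 76) (nat_lit 12453283984) (nat_lit 24) (nat_lit 5) (nat_lit 28) (nat_lit 5) (nat_lit 25) (nat_lit 5) (nat_lit 309) (nat_lit 273) (nat_lit 138))))) (XT.nd (nat_lit 312) (nat_lit 380) (nat_lit 0) (XT.nd (nat_lit 156) (nat_lit 0) (nat_lit 0) (XT.nd (nat_lit 78) (nat_lit 152) (nat_lit 0) (XT.lf (nat_lit 0) (nat_lit 16817201755) (nat_lit 304) (nat_lit 17329024513) (nat_lit 76) (nat_lit 28805551525) (nat_lit 24) (nat_lit 5) (nat_lit 28) (nat_lit 5) (nat_lit 25) (nat_lit 5) (nat_lit 310) (nat_lit 273) (nat_lit 137)) (XT.lf (nat_lit 0) (nat_lit 6274839820)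 (nat_lit 152) (nat_lit 19186152223) (nat_lit 228) (nat_lit 39797706065) (nat_lit 22) (nat_lit 5) (nat_lit 24) (nat_lit 5) (nat_lit 25) (nat_lit 5) (nat_lit 311) (nat_lit 273) (nat_lit 136))) (XT.nd (nat_lit 78) (nat_lit 0) (nat_lit 0) (XT.lf (nat_lit 0) (nat_lit 31657522491) (nat_lit 152) (nat_lit 3170892500) (nat_lit 228) (nat_lit 32837982349) (nat_lit 22) (nat_lit 5) (nat_lit 24) (nat_lit 5) (nat_lit 25) (nat_lit 5) (nat_lit 312) (nat_lit 273) (nat_lit 135)) (XT.lf (nat_lit 0) (nat_lit 44875297935) (nat_lit 228) (nat_lit 12101124824) (nat_lit 76) (nat_lit 13207509154) (nat_lit 22) (nat_lit 5) (nat_lit 25) (nat_lit 5) (nat_lit 23) (nat_lit 5) (nat_lit 313) (nat_lit 273) (nat_lit 134)))) (XT.nd (nat_lit 156) (nat_lit 228) (nat_lit 0) (XT.nd (nat_lit 78) (nat_lit 0) (nat_lit 0) (XT.lf (nat_lit 0) (nat_lit 13375320983) (nat_lit 152) (nat_lit 42308155108) (nat_lit 228) (nat_lit 17130924162)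 (nat_lit 20) (nat_lit 5) (nat_lit 22) (nat_lit 5) (nat_lit 23) (nat_lit 5) (nat_lit 314) (nat_lit 273) (nat_lit 133)) (XT.lf (nat_lit 0) (nat_lit 40542954354) (nat_lit 152) (nat_lit 26692235543) (nat_lit 228) (nat_lit 8331050148) (nat_lit 20) (nat_lit 5) (nat_lit 22) (nat_lit 5) (nat_lit 23) (nat_lit 5) (nat_lit 315) (nat_lit 273) (nat_lit 132))) (XT.nd (nat_lit 78) (nat_lit 152) (nat_lit 0) (XT.lf (nat_lit 0) (nat_lit 877972021) (nat_lit 228) (nat_lit 9403580805) (nat_lit 76) (nat_lit 68173501389) (nat_lit 19) (nat_lit 5) (nat_lit 22) (nat_lit 5) (nat_lit 20) (nat_lit 5) (nat_lit 316) (nat_lit 273) (nat_lit 131)) (XT.nd (nat_lit 78) (nat_lit 0) (nat_lit 0) (XT.lf (nat_lit 0) (nat_lit 10661079131) (nat_lit 228) (nat_lit 63650981314) (nat_lit 76) (nat_lit 7149743111) (nat_lit 17) (nat_lit 5) (nat_lit 20) (nat_lit 5) (nat_lit 18) (nat_lit 5) (nat_lit 317) (nat_lit 273) (nat_lit 130))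 (XT.lf (nat_lit 0) (nat_lit 21262109087) (nat_lit 228) (nat_lit 38072263152) (nat_lit 76) (nat_lit 25268083346) (nat_lit 17) (nat_lit 5) (nat_lit 20) (nat_lit 5) (nat_lit 18) (nat_lit 5) (nat_lit 318) (nat_lit 273) (nat_lit 129))))))) (XT.nd (nat_lit 702) (nat_lit 228) (nat_lit 0) (XT.nd (nat_lit 312) (nat_lit 304) (nat_lit 0) (XT.nd (nat_lit 156) (nat_lit 0) (nat_lit 0) (XT.nd (nat_lit 78) (nat_lit 152) (nat_lit 0) (XT.lf (nat_lit 0) (nat_lit 32391621523) (nat_lit 228) (nat_lit 11217076951) (nat_lit 76) (nat_lit 44291523619) (nat_lit 17) (nat_lit 5) (nat_lit 20) (nat_lit 5) (nat_lit 18) (nat_lit 5) (nat_lit 319) (nat_lit 273) (nat_lit 128)) (XT.lf (nat_lit 0) (nat_lit 17539904698) (nat_lit 152) (nat_lit 26810057645) (nat_lit 228) (nat_lit 46999300206) (nat_lit 15) (nat_lit 5) (nat_lit 17) (nat_lit 5) (nat_lit 18) (nat_lit 5) (nat_lit 320) (nat_lit 273) (nat_lit 127))) (XT.nd (nat_lit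 78) (nat_lit 0) (nat_lit 0) (XT.lf (nat_lit 0) (nat_lit 48121854571) (nat_lit 152) (nat_lit 8972873010) (nat_lit 228) (nat_lit 37866605187) (nat_lit 15) (nat_lit 5) (nat_lit 17) (nat_lit 5) (nat_lit 18) (nat_lit 5) (nat_lit 321) (nat_lit 273) (nat_lit 126)) (XT.lf (nat_lit 0) (nat_lit 70627649800) (nat_lit 228) (nat_lit 18675687815) (nat_lit 76) (nat_lit 9443125904) (nat_lit 15) (nat_lit 5) (nat_lit 18) (nat_lit 5) (nat_lit 16) (nat_lit 4) (nat_lit 322) (nat_lit 273) (nat_lit 125)))) (XT.nd (nat_lit 156) (nat_lit 228) (nat_lit 0) (XT.nd (nat_lit 78) (nat_lit 0) (nat_lit 0) (XT.lf (nat_lit 0) (nat_lit 11102387163) (nat_lit 76) (nat_lit 74053930958) (nat_lit 152) (nat_lit 17548580506) (nat_lit 14) (nat_lit 5) (nat_lit 15) (nat_lit 5) (nat_lit 16) (nat_lit 4) (nat_lit 323) (nat_lit 273) (nat_lit 124)) (XT.lf (nat_lit 0) (nat_lit 43015623981) (nat_lit 76) (nat_lit 57710772533) (nat_lit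 152) (nat_lit 6119112828) (nat_lit 14) (nat_lit 5) (nat_lit 15) (nat_lit 5) (nat_lit 16) (nat_lit 4) (nat_lit 324) (nat_lit 273) (nat_lit 123))) (XT.nd (nat_lit 78) (nat_lit 152) (nat_lit 0) (XT.lf (nat_lit 0) (nat_lit 5692307139) (nat_lit 152) (nat_lit 34762522752) (nat_lit 76) (nat_lit 70733794838) (nat_lit 13) (nat_lit 5) (nat_lit 15) (nat_lit 5) (nat_lit 14) (nat_lit 5) (nat_lit 325) (nat_lit 273) (nat_lit 122)) (XT.nd (nat_lit 78) (nat_lit 152) (nat_lit 0) (XT.lf (nat_lit 0) (nat_lit 17887450211) (nat_lit 152) (nat_lit 4344070075) (nat_lit 76) (nat_lit 93512422529) (nat_lit 13) (nat_lit 5) (nat_lit 15) (nat_lit 5) (nat_lit 14) (nat_lit 5) (nat_lit 326) (nat_lit 273) (nat_lit 121)) (XT.lf (nat_lit 0) (nat_lit 28505797600) (nat_lit 152) (nat_lit 2630460055) (nat_lit 228) (nat_lit 89368575998) (nat_lit 11) (nat_lit 5) (nat_lit 13) (nat_lit 5) (nat_lit 14) (nat_lit 5) (nat_lit 327)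 (nat_lit 273) (nat_lit 120)))))) (XT.nd (nat_lit 312) (nat_lit 152) (nat_lit 0) (XT.nd (nat_lit 156) (nat_lit 76) (nat_lit 0) (XT.nd (nat_lit 78) (nat_lit 0) (nat_lit 0) (XT.lf (nat_lit 0) (nat_lit 45401406993) (nat_lit 228) (nat_lit 62634469667) (nat_lit 76) (nat_lit 17450199401) (nat_lit 11) (nat_lit 5) (nat_lit 14) (nat_lit 5) (nat_lit 12) (nat_lit 4) (nat_lit 328) (nat_lit 273) (nat_lit 119)) (XT.lf (nat_lit 0) (nat_lit 60421856608) (nat_lit 228) (nat_lit 31846595345) (nat_lit 76) (nat_lit 38445828499) (nat_lit 11) (nat_lit 5) (nat_lit 14) (nat_lit 5) (nat_lit 12) (nat_lit 4) (nat_lit 329) (nat_lit 273) (nat_lit 118))) (XT.nd (nat_lit 78) (nat_lit 0) (nat_lit 0) (XT.lf (nat_lit 0) (nat_lit 494796816) (nat_lit 76) (nat_lit 75705228970) (nat_lit 152) (nat_lit 60003536329) (nat_lit 10) (nat_lit 5) (nat_lit 11) (nat_lit 5) (nat_lit 12) (nat_lit 4) (nat_lit 330) (nat_lit 273) (nat_lit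 117)) (XT.lf (nat_lit 0) (nat_lit 35557215620) (nat_lit 76) (nat_lit 57748219875) (nat_lit 152) (nat_lit 48634957579) (nat_lit 10) (nat_lit 5) (nat_lit 11) (nat_lit 5) (nat_lit 12) (nat_lit 4) (nat_lit 331) (nat_lit 273) (nat_lit 116)))) (XT.nd (nat_lit 156) (nat_lit 152) (nat_lit 0) (XT.nd (nat_lit 78) (nat_lit 0) (nat_lit 0) (XT.lf (nat_lit 0) (nat_lit 72371150751) (nat_lit 76) (nat_lit 38894007386) (nat_lit 152) (nat_lit 36698957051) (nat_lit 10) (nat_lit 5) (nat_lit 11) (nat_lit 5) (nat_lit 12) (nat_lit 4) (nat_lit 332) (nat_lit 273) (nat_lit 115)) (XT.lf (nat_lit 0) (nat_lit 111024254435) (nat_lit 76) (nat_lit 19097700522) (nat_lit 152) (nat_lit 24167115698) (nat_lit 10) (nat_lit 5) (nat_lit 11) (nat_lit 5) (nat_lit 12) (nat_lit 4) (nat_lit 333) (nat_lit 273) (nat_lit 114))) (XT.nd (nat_lit 78) (nat_lit 152) (nat_lit 0) (XT.lf (nat_lit 0) (nat_lit 149947074920) (nat_lit 152) (nat_lit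 9348112850) (nat_lit 0) (nat_lit 1633813528) (nat_lit 10) (nat_lit 5) (nat_lit 12) (nat_lit 4) (nat_lit 10) (nat_lit 4) (nat_lit 334) (nat_lit 273) (nat_lit 113)) (XT.nd (nat_lit 78) (nat_lit 0) (nat_lit 0) (XT.lf (nat_lit 0) (nat_lit 3513670896) (nat_lit 152) (nat_lit 141113112456) (nat_lit 76) (nat_lit 23234773591) (nat_lit 8) (nat_lit 5) (nat_lit 10) (nat_lit 5) (nat_lit 9) (nat_lit 4) (nat_lit 335) (nat_lit 273) (nat_lit 112)) (XT.lf (nat_lit 0) (nat_lit 18525060741) (nat_lit 152) (nat_lit 110342502705) (nat_lit 76) (nat_lit 46256172829) (nat_lit 8) (nat_lit 5) (nat_lit 10) (nat_lit 5) (nat_lit 9) (nat_lit 4) (nat_lit 336) (nat_lit 273) (nat_lit 111))))))))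
noncomputable def xc207 : XT := (XT.nd (nat_lit 32916) (nat_lit 0) (nat_lit 2888) (XT.nd (nat_lit 624) (nat_lit 152) (nat_lit 0) (XT.nd (nat_lit 312) (nat_lit 0) (nat_lit 0) (XT.nd (nat_lit 156) (nat_lit 76) (nat_lit 0) (XT.nd (nat_lit 78) (nat_lit 0) (nat_lit 0) (XT.lf (nat_lit 0) (nat_lit 34286227035) (nat_lit 152) (nat_lit 78034720784) (nat_lit 76) (nat_lit 70428117697) (nat_lit 8) (nat_lit 5) (nat_lit 10) (nat_lit 5) (nat_lit 9) (nat_lit 4) (nat_lit 337) (nat_lit 273) (nat_lit 110)) (XT.lf (nat_lit 0) (nat_lit 50834696366) (nat_lit 152) (nat_lit 44112843402) (nat_lit 76) (nat_lit 95808160446) (nat_lit 8) (nat_lit 5) (nat_lit 10) (nat_lit 5) (nat_lit 9) (nat_lit 4) (nat_lit 338) (nat_lit 273) (nat_lit 109))) (XT.nd (nat_lit 78) (nat_lit 76) (nat_lit 0) (XT.lf (nat_lit 0) (nat_lit 68209869849) (nat_lit 152) (nat_lit 8496104183) (nat_lit 76) (nat_lit 122456729749) (nat_lit 8) (nat_lit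 5) (nat_lit 10) (nat_lit 5) (nat_lit 9) (nat_lit 4) (nat_lit 339) (nat_lit 273) (nat_lit 108)) (XT.lf (nat_lit 0) (nat_lit 29855873020) (nat_lit 76) (nat_lit 57063377776) (nat_lit 152) (nat_lit 121047535409) (nat_lit 7) (nat_lit 5) (nat_lit 8) (nat_lit 5) (nat_lit 9) (nat_lit 4) (nat_lit 340) (nat_lit 273) (nat_lit 107)))) (XT.nd (nat_lit 156) (nat_lit 0) (nat_lit 0) (XT.nd (nat_lit 78) (nat_lit 0) (nat_lit 0) (XT.lf (nat_lit 0) (nat_lit 70419260197) (nat_lit 76) (nat_lit 36288055766) (nat_lit 152) (nat_lit 110496597089) (nat_lit 7) (nat_lit 5) (nat_lit 8) (nat_lit 5) (nat_lit 9) (nat_lit 4) (nat_lit 341) (nat_lit 273) (nat_lit 106)) (XT.lf (nat_lit 0) (nat_lit 113009717266) (nat_lit 76) (nat_lit 14474428587) (nat_lit 152) (nat_lit 99418783326) (nat_lit 7) (nat_lit 5) (nat_lit 8) (nat_lit 5) (nat_lit 9) (nat_lit 4) (nat_lit 342) (nat_lit 273) (nat_lit 105))) (XT.nd (nat_lit 78) (nat_lit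 0) (nat_lit 0) (XT.lf (nat_lit 0) (nat_lit 149430816306) (nat_lit 152) (nat_lit 79489884604) (nat_lit 0) (nat_lit 8159646214) (nat_lit 7) (nat_lit 5) (nat_lit 9) (nat_lit 4) (nat_lit 7) (nat_lit 4) (nat_lit 343) (nat_lit 273) (nat_lit 104)) (XT.lf (nat_lit 0) (nat_lit 172711520298) (nat_lit 152) (nat_lit 43604697240) (nat_lit 0) (nat_lit 31438584344) (nat_lit 7) (nat_lit 5) (nat_lit 9) (nat_lit 4) (nat_lit 7) (nat_lit 4) (nat_lit 344) (nat_lit 273) (nat_lit 103))))) (XT.nd (nat_lit 312) (nat_lit 76) (nat_lit 0) (XT.nd (nat_lit 156) (nat_lit 0) (nat_lit 0) (XT.nd (nat_lit 78) (nat_lit 76) (nat_lit 0) (XT.lf (nat_lit 0) (nat_lit 197155701683) (nat_lit 152) (nat_lit 5926222505) (nat_lit 0) (nat_lit 55881083955) (nat_lit 7) (nat_lit 5) (nat_lit 9) (nat_lit 4) (nat_lit 7) (nat_lit 4) (nat_lit 345) (nat_lit 273) (nat_lit 102)) (XT.lf (nat_lit 0) (nat_lit 34747383529) (nat_lit 76) (nat_lit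 188616681398) (nat_lit 76) (nat_lit 47340461982) (nat_lit 6) (nat_lit 4) (nat_lit 7) (nat_lit 5) (nat_lit 7) (nat_lit 4) (nat_lit 346) (nat_lit 273) (nat_lit 101))) (XT.nd (nat_lit 78) (nat_lit 0) (nat_lit 0) (XT.lf (nat_lit 0) (nat_lit 77659504148) (nat_lit 76) (nat_lit 173323185464) (nat_lit 76) (nat_lit 32045440630) (nat_lit 6) (nat_lit 4) (nat_lit 7) (nat_lit 5) (nat_lit 7) (nat_lit 4) (nat_lit 347) (nat_lit 273) (nat_lit 100)) (XT.lf (nat_lit 0) (nat_lit 122716363387) (nat_lit 76) (nat_lit 157265386746) (nat_lit 76) (nat_lit 15986189133) (nat_lit 6) (nat_lit 4) (nat_lit 7) (nat_lit 5) (nat_lit 7) (nat_lit 4) (nat_lit 348) (nat_lit 273) (nat_lit 99)))) (XT.nd (nat_lit 31746) (nat_lit 0) (nat_lit 4560) (XT.nd (nat_lit 31668) (nat_lit 0) (nat_lit 4560) (XT.lf (nat_lit 0) (nat_lit 847506431) (nat_lit 152) (nat_lit 139543193027) (nat_lit 76) (nat_lit 169163380121) (nat_lit 5) (nat_lit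 5) (nat_lit 7) (nat_lit 5) (nat_lit 6) (nat_lit 4) (nat_lit 349) (nat_lit 273) (nat_lit 98)) (XT.lf (nat_lit 0) (nat_lit 1004432561) (nat_lit 0) (nat_lit 1004432561) (nat_lit 684) (nat_lit 8843831680) (nat_lit 65) (nat_lit 5) (nat_lit 65) (nat_lit 3) (nat_lit 74) (nat_lit 3) (nat_lit 274) (nat_lit 274) (nat_lit 172))) (XT.nd (nat_lit 78) (nat_lit 0) (nat_lit 0) (XT.lf (nat_lit 0) (nat_lit 4357985803) (nat_lit 684) (nat_lit 10858689908) (nat_lit 760) (nat_lit 7018857264) (nat_lit 65) (nat_lit 5) (nat_lit 74) (nat_lit 3) (nat_lit 75) (nat_lit 5) (nat_lit 275) (nat_lit 274) (nat_lit 171)) (XT.nd (nat_lit 78) (nat_lit 0) (nat_lit 76) (XT.lf (nat_lit 0) (nat_lit 4740145323) (nat_lit 684) (nat_lit 1616444564) (nat_lit 760) (nat_lit 16434377183) (nat_lit 65) (nat_lit 5) (nat_lit 74) (nat_lit 3) (nat_lit 75) (nat_lit 5) (nat_lit 276) (nat_lit 274) (nat_lit 170)) (XT.lf (nat_lit 0) (nat_lit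 5312327340) (nat_lit 684) (nat_lit 15065403448) (nat_lit 760) (nat_lit 2987927135) (nat_lit 66) (nat_lit 5) (nat_lit 75) (nat_lit 5) (nat_lit 76) (nat_lit 5) (nat_lit 277) (nat_lit 274) (nat_lit 169))))))) (XT.nd (nat_lit 702) (nat_lit 1292) (nat_lit 0) (XT.nd (nat_lit 312) (nat_lit 456) (nat_lit 0) (XT.nd (nat_lit 156) (nat_lit 0) (nat_lit 76) (XT.nd (nat_lit 78) (nat_lit 0) (nat_lit 0) (XT.lf (nat_lit 0) (nat_lit 6037837139) (nat_lit 684) (nat_lit 5308173769) (nat_lit 760) (nat_lit 12616865788) (nat_lit 66) (nat_lit 5) (nat_lit 75) (nat_lit 5) (nat_lit 76) (nat_lit 5) (nat_lit 278) (nat_lit 274) (nat_lit 168)) (XT.lf (nat_lit 76) (nat_lit 5095518354) (nat_lit 0) (nat_lit 1776695818) (nat_lit 760) (nat_lit 17714140565) (nat_lit 67) (nat_lit 5) (nat_lit 66) (nat_lit 5) (nat_lit 76) (nat_lit 5) (nat_lit 279) (nat_lit 274) (nat_lit 167))) (XT.nd (nat_lit 78) (nat_lit 0) (nat_lit 0) (XT.lf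 (nat_lit 0) (nat_lit 7962149857) (nat_lit 684) (nat_lit 9168249886) (nat_lit 760) (nat_lit 8099941535) (nat_lit 67) (nat_lit 5) (nat_lit 76) (nat_lit 5) (nat_lit 77) (nat_lit 5) (nat_lit 280) (nat_lit 274) (nat_lit 166)) (XT.lf (nat_lit 76) (nat_lit 1690875109) (nat_lit 0) (nat_lit 7464884848) (nat_lit 760) (nat_lit 16748333630) (nat_lit 68) (nat_lit 5) (nat_lit 67) (nat_lit 5) (nat_lit 77) (nat_lit 5) (nat_lit 281) (nat_lit 274) (nat_lit 165)))) (XT.nd (nat_lit 156) (nat_lit 608) (nat_lit 0) (XT.nd (nat_lit 78) (nat_lit 0) (nat_lit 0) (XT.lf (nat_lit 0) (nat_lit 10602677119) (nat_lit 684) (nat_lit 13241825769) (nat_lit 760) (nat_lit 2757373409) (nat_lit 68) (nat_lit 5) (nat_lit 77) (nat_lit 5) (nat_lit 78) (nat_lit 5) (nat_lit 282) (nat_lit 274) (nat_lit 164)) (XT.lf (nat_lit 0) (nat_lit 12238514471) (nat_lit 684) (nat_lit 1848871257) (nat_lit 760) (nat_lit 13241356665) (nat_lit 68)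 (nat_lit 5) (nat_lit 77) (nat_lit 5) (nat_lit 78) (nat_lit 5) (nat_lit 283) (nat_lit 274) (nat_lit 163))) (XT.nd (nat_lit 78) (nat_lit 608) (nat_lit 0) (XT.lf (nat_lit 76) (nat_lit 10443578651) (nat_lit 0) (nat_lit 3670093971) (nat_lit 760) (nat_lit 13970424601) (nat_lit 69) (nat_lit 5) (nat_lit 68) (nat_lit 5) (nat_lit 78) (nat_lit 5) (nat_lit 284) (nat_lit 274) (nat_lit 162)) (XT.nd (nat_lit 78) (nat_lit 684) (nat_lit 0) (XT.lf (nat_lit 0) (nat_lit 16222574471) (nat_lit 684) (nat_lit 5579446285) (nat_lit 76) (nat_lit 7068220578) (nat_lit 69) (nat_lit 5) (nat_lit 78) (nat_lit 5) (nat_lit 70) (nat_lit 5) (nat_lit 285) (nat_lit 274) (nat_lit 161)) (XT.lf (nat_lit 0) (nat_lit 7252207565) (nat_lit 684) (nat_lit 11353045782) (nat_lit 760) (nat_lit 11082042549) (nat_lit 60) (nat_lit 5) (nat_lit 69) (nat_lit 5) (nat_lit 70) (nat_lit 5) (nat_lit 286) (nat_lit 274) (nat_lit 160)))))) (XT.nd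 (nat_lit 312) (nat_lit 988) (nat_lit 0) (XT.nd (nat_lit 156) (nat_lit 0) (nat_lit 0) (XT.nd (nat_lit 78) (nat_lit 304) (nat_lit 0) (XT.lf (nat_lit 0) (nat_lit 20914798708) (nat_lit 684) (nat_lit 281870314) (nat_lit 760) (nat_lit 9344072915) (nat_lit 60) (nat_lit 5) (nat_lit 69) (nat_lit 5) (nat_lit 70) (nat_lit 5) (nat_lit 287) (nat_lit 274) (nat_lit 159)) (XT.lf (nat_lit 0) (nat_lit 3762588871) (nat_lit 304) (nat_lit 20386258026) (nat_lit 380) (nat_lit 7276471809) (nat_lit 56) (nat_lit 5) (nat_lit 60) (nat_lit 5) (nat_lit 61) (nat_lit 5) (nat_lit 288) (nat_lit 274) (nat_lit 158))) (XT.nd (nat_lit 78) (nat_lit 0) (nat_lit 0) (XT.lf (nat_lit 0) (nat_lit 18145633289) (nat_lit 304) (nat_lit 9266073298) (nat_lit 380) (nat_lit 4934281219) (nat_lit 56) (nat_lit 5) (nat_lit 60) (nat_lit 5) (nat_lit 61) (nat_lit 5) (nat_lit 289) (nat_lit 274) (nat_lit 157)) (XT.lf (nat_lit 0) (nat_lit 30871060995)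 (nat_lit 380) (nat_lit 106847288) (nat_lit 76) (nat_lit 2333130812) (nat_lit 56) (nat_lit 5) (nat_lit 61) (nat_lit 5) (nat_lit 57) (nat_lit 5) (nat_lit 290) (nat_lit 274) (nat_lit 156)))) (XT.nd (nat_lit 156) (nat_lit 608) (nat_lit 0) (XT.nd (nat_lit 78) (nat_lit 0) (nat_lit 0) (XT.lf (nat_lit 0) (nat_lit 561830968) (nat_lit 380) (nat_lit 19298422873) (nat_lit 76) (nat_lit 14444538087) (nat_lit 51) (nat_lit 5) (nat_lit 56) (nat_lit 5) (nat_lit 52) (nat_lit 5) (nat_lit 291) (nat_lit 274) (nat_lit 155)) (XT.lf (nat_lit 0) (nat_lit 3629548302) (nat_lit 380) (nat_lit 4513446252) (nat_lit 76) (nat_lit 27203361113) (nat_lit 51) (nat_lit 5) (nat_lit 56) (nat_lit 5) (nat_lit 52) (nat_lit 5) (nat_lit 292) (nat_lit 274) (nat_lit 154))) (XT.nd (nat_lit 78) (nat_lit 304) (nat_lit 0) (XT.lf (nat_lit 0) (nat_lit 7092207606) (nat_lit 380) (nat_lit 25128501795) (nat_lit 76) (nat_lit 4207223815) (nat_lit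 47) (nat_lit 5) (nat_lit 52) (nat_lit 5) (nat_lit 48) (nat_lit 5) (nat_lit 293) (nat_lit 274) (nat_lit 153)) (XT.nd (nat_lit 78) (nat_lit 304) (nat_lit 0) (XT.lf (nat_lit 0) (nat_lit 10935468032) (nat_lit 380) (nat_lit 9639021520) (nat_lit 76) (nat_lit 16978739471) (nat_lit 47) (nat_lit 5) (nat_lit 52) (nat_lit 5) (nat_lit 48) (nat_lit 5) (nat_lit 294) (nat_lit 274) (nat_lit 152)) (XT.lf (nat_lit 0) (nat_lit 6839891435) (nat_lit 304) (nat_lit 8234252752) (nat_lit 380) (nat_lit 23655494979) (nat_lit 43) (nat_lit 5) (nat_lit 47) (nat_lit 5) (nat_lit 48) (nat_lit 5) (nat_lit 295) (nat_lit 274) (nat_lit 151))))))))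
noncomputable def xc208 : XT := (XT.nd (nat_lit 1326) (nat_lit 836) (nat_lit 0) (XT.nd (nat_lit 624) (nat_lit 836) (nat_lit 0) (XT.nd (nat_lit 312) (nat_lit 532) (nat_lit 0) (XT.nd (nat_lit 156) (nat_lit 0) (nat_lit 0) (XT.nd (nat_lit 78) (nat_lit 228) (nat_lit 0) (XT.lf (nat_lit 0) (nat_lit 19655974074) (nat_lit 380) (nat_lit 15559800413) (nat_lit 76) (nat_lit 4737295933) (nat_lit 43) (nat_lit 5) (nat_lit 48) (nat_lit 5) (nat_lit 44) (nat_lit 5) (nat_lit 296) (nat_lit 274) (nat_lit 150)) (XT.lf (nat_lit 0) (nat_lit 1495648048) (nat_lit 228) (nat_lit 23126313213) (nat_lit 304) (nat_lit 16607969732) (nat_lit 40) (nat_lit 5) (nat_lit 43) (nat_lit 5) (nat_lit 44) (nat_lit 5) (nat_lit 297) (nat_lit 274) (nat_lit 149))) (XT.nd (nat_lit 78) (nat_lit 0) (nat_lit 0) (XT.lf (nat_lit 0) (nat_lit 19940254074) (nat_lit 228) (nat_lit 10156329569) (nat_lit 304) (nat_lit 12461044682) (nat_lit 40)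 (nat_lit 5) (nat_lit 43) (nat_lit 5) (nat_lit 44) (nat_lit 5) (nat_lit 298) (nat_lit 274) (nat_lit 148)) (XT.lf (nat_lit 0) (nat_lit 35895955926) (nat_lit 304) (nat_lit 4702460117) (nat_lit 76) (nat_lit 3350753562) (nat_lit 40) (nat_lit 5) (nat_lit 44) (nat_lit 5) (nat_lit 41) (nat_lit 5) (nat_lit 299) (nat_lit 274) (nat_lit 147)))) (XT.nd (nat_lit 156) (nat_lit 228) (nat_lit 0) (XT.nd (nat_lit 78) (nat_lit 76) (nat_lit 0) (XT.lf (nat_lit 0) (nat_lit 14398953151) (nat_lit 228) (nat_lit 27974758284) (nat_lit 304) (nat_lit 3017165326) (nat_lit 37) (nat_lit 5) (nat_lit 40) (nat_lit 5) (nat_lit 41) (nat_lit 5) (nat_lit 300) (nat_lit 274) (nat_lit 146)) (XT.lf (nat_lit 0) (nat_lit 2276090134) (nat_lit 304) (nat_lit 12322399743) (nat_lit 76) (nat_lit 32300511427) (nat_lit 36) (nat_lit 5) (nat_lit 40) (nat_lit 5) (nat_lit 37) (nat_lit 5) (nat_lit 301) (nat_lit 274) (nat_lit 145))) (XT.nd (nat_lit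 78) (nat_lit 0) (nat_lit 0) (XT.lf (nat_lit 0) (nat_lit 7466640617) (nat_lit 228) (nat_lit 379819557) (nat_lit 304) (nat_lit 40627914640) (nat_lit 33) (nat_lit 5) (nat_lit 36) (nat_lit 5) (nat_lit 37) (nat_lit 5) (nat_lit 302) (nat_lit 274) (nat_lit 144)) (XT.lf (nat_lit 0) (nat_lit 14131956072) (nat_lit 304) (nat_lit 21679277166) (nat_lit 76) (nat_lit 14295461244) (nat_lit 33) (nat_lit 5) (nat_lit 37) (nat_lit 5) (nat_lit 34) (nat_lit 5) (nat_lit 303) (nat_lit 274) (nat_lit 143))))) (XT.nd (nat_lit 312) (nat_lit 456) (nat_lit 0) (XT.nd (nat_lit 156) (nat_lit 152) (nat_lit 0) (XT.nd (nat_lit 78) (nat_lit 228) (nat_lit 0) (XT.lf (nat_lit 0) (nat_lit 20735417665) (nat_lit 304) (nat_lit 1394004177) (nat_lit 76) (nat_lit 29691031225) (nat_lit 33) (nat_lit 5) (nat_lit 37) (nat_lit 5) (nat_lit 34) (nat_lit 5) (nat_lit 304) (nat_lit 274) (nat_lit 142)) (XT.lf (nat_lit 0) (nat_lit 20560373439)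 (nat_lit 228) (nat_lit 7427269042) (nat_lit 304) (nat_lit 25616334712) (nat_lit 30) (nat_lit 5) (nat_lit 33) (nat_lit 5) (nat_lit 34) (nat_lit 5) (nat_lit 305) (nat_lit 274) (nat_lit 141))) (XT.nd (nat_lit 78) (nat_lit 152) (nat_lit 0) (XT.lf (nat_lit 0) (nat_lit 35749169972) (nat_lit 304) (nat_lit 11943354867) (nat_lit 76) (nat_lit 7776824899) (nat_lit 30) (nat_lit 5) (nat_lit 34) (nat_lit 5) (nat_lit 31) (nat_lit 5) (nat_lit 306) (nat_lit 274) (nat_lit 140)) (XT.lf (nat_lit 0) (nat_lit 10420547774) (nat_lit 152) (nat_lit 33760428873) (nat_lit 228) (nat_lit 13232910582) (nat_lit 28) (nat_lit 5) (nat_lit 30) (nat_lit 5) (nat_lit 31) (nat_lit 5) (nat_lit 307) (nat_lit 274) (nat_lit 139)))) (XT.nd (nat_lit 156) (nat_lit 380) (nat_lit 0) (XT.nd (nat_lit 78) (nat_lit 76) (nat_lit 0) (XT.lf (nat_lit 0) (nat_lit 34314219441) (nat_lit 152) (nat_lit 18920230214) (nat_lit 228) (nat_lit 6211204291)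 (nat_lit 28) (nat_lit 5) (nat_lit 30) (nat_lit 5) (nat_lit 31) (nat_lit 5) (nat_lit 308) (nat_lit 274) (nat_lit 138)) (XT.lf (nat_lit 0) (nat_lit 1122283208) (nat_lit 228) (nat_lit 2197571932) (nat_lit 76) (nat_lit 58258358959) (nat_lit 27) (nat_lit 5) (nat_lit 30) (nat_lit 5) (nat_lit 28) (nat_lit 5) (nat_lit 309) (nat_lit 274) (nat_lit 137))) (XT.nd (nat_lit 78) (nat_lit 152) (nat_lit 0) (XT.lf (nat_lit 0) (nat_lit 9174272230) (nat_lit 304) (nat_lit 41507790028) (nat_lit 76) (nat_lit 13102225950) (nat_lit 24) (nat_lit 5) (nat_lit 28) (nat_lit 5) (nat_lit 25) (nat_lit 5) (nat_lit 310) (nat_lit 274) (nat_lit 136)) (XT.nd (nat_lit 78) (nat_lit 152) (nat_lit 0) (XT.lf (nat_lit 0) (nat_lit 17719126176) (nat_lit 304) (nat_lit 18106176086) (nat_lit 76) (nat_lit 30270855545) (nat_lit 24) (nat_lit 5) (nat_lit 28) (nat_lit 5) (nat_lit 25) (nat_lit 5) (nat_lit 311) (nat_lit 274) (nat_lit 135))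 (XT.lf (nat_lit 0) (nat_lit 6676441146) (nat_lit 152) (nat_lit 20117128737) (nat_lit 228) (nat_lit 41724938471) (nat_lit 22) (nat_lit 5) (nat_lit 24) (nat_lit 5) (nat_lit 25) (nat_lit 5) (nat_lit 312) (nat_lit 274) (nat_lit 134))))))) (XT.nd (nat_lit 702) (nat_lit 304) (nat_lit 0) (XT.nd (nat_lit 312) (nat_lit 380) (nat_lit 0) (XT.nd (nat_lit 156) (nat_lit 152) (nat_lit 0) (XT.nd (nat_lit 78) (nat_lit 0) (nat_lit 0) (XT.lf (nat_lit 0) (nat_lit 33324074173) (nat_lit 152) (nat_lit 3302455129) (nat_lit 228) (nat_lit 34420212042) (nat_lit 22) (nat_lit 5) (nat_lit 24) (nat_lit 5) (nat_lit 25) (nat_lit 5) (nat_lit 313) (nat_lit 274) (nat_lit 133)) (XT.lf (nat_lit 0) (nat_lit 47173457904) (nat_lit 228) (nat_lit 12624057106) (nat_lit 76) (nat_lit 13892759282) (nat_lit 22) (nat_lit 5) (nat_lit 25) (nat_lit 5) (nat_lit 23) (nat_lit 5) (nat_lit 314) (nat_lit 274) (nat_lit 132))) (XT.nd (nat_lit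 78) (nat_lit 0) (nat_lit 0) (XT.lf (nat_lit 0) (nat_lit 14124886411) (nat_lit 152) (nat_lit 44395829820) (nat_lit 228) (nat_lit 17931622659) (nat_lit 20) (nat_lit 5) (nat_lit 22) (nat_lit 5) (nat_lit 23) (nat_lit 5) (nat_lit 315) (nat_lit 274) (nat_lit 131)) (XT.lf (nat_lit 0) (nat_lit 42647053861) (nat_lit 152) (nat_lit 28000434897) (nat_lit 228) (nat_lit 8694414358) (nat_lit 20) (nat_lit 5) (nat_lit 22) (nat_lit 5) (nat_lit 23) (nat_lit 5) (nat_lit 316) (nat_lit 274) (nat_lit 130)))) (XT.nd (nat_lit 156) (nat_lit 152) (nat_lit 0) (XT.nd (nat_lit 78) (nat_lit 152) (nat_lit 0) (XT.lf (nat_lit 0) (nat_lit 970904850) (nat_lit 228) (nat_lit 9798740511) (nat_lit 76) (nat_lit 71605599231) (nat_lit 19) (nat_lit 5) (nat_lit 22) (nat_lit 5) (nat_lit 20) (nat_lit 5) (nat_lit 317) (nat_lit 274) (nat_lit 129)) (XT.lf (nat_lit 0) (nat_lit 11242389995) (nat_lit 228) (nat_lit 66757628370) (nat_lit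 76) (nat_lit 7532357168) (nat_lit 17) (nat_lit 5) (nat_lit 20) (nat_lit 5) (nat_lit 18) (nat_lit 5) (nat_lit 318) (nat_lit 274) (nat_lit 128))) (XT.nd (nat_lit 78) (nat_lit 152) (nat_lit 0) (XT.lf (nat_lit 0) (nat_lit 22371173502) (nat_lit 228) (nat_lit 39903588681) (nat_lit 76) (nat_lit 26555417895) (nat_lit 17) (nat_lit 5) (nat_lit 20) (nat_lit 5) (nat_lit 18) (nat_lit 5) (nat_lit 319) (nat_lit 274) (nat_lit 127)) (XT.nd (nat_lit 78) (nat_lit 152) (nat_lit 0) (XT.lf (nat_lit 0) (nat_lit 34054973037) (nat_lit 228) (nat_lit 11709085438) (nat_lit 76) (nat_lit 46528890640) (nat_lit 17) (nat_lit 5) (nat_lit 20) (nat_lit 5) (nat_lit 18) (nat_lit 5) (nat_lit 320) (nat_lit 274) (nat_lit 126)) (XT.lf (nat_lit 0) (nat_lit 18484634884) (nat_lit 152) (nat_lit 28125569240) (nat_lit 228) (nat_lit 49304293359) (nat_lit 15) (nat_lit 5) (nat_lit 17) (nat_lit 5) (nat_lit 18) (nat_lit 5) (nat_lit 321)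 (nat_lit 274) (nat_lit 125)))))) (XT.nd (nat_lit 312) (nat_lit 228) (nat_lit 0) (XT.nd (nat_lit 156) (nat_lit 76) (nat_lit 0) (XT.nd (nat_lit 78) (nat_lit 0) (nat_lit 0) (XT.lf (nat_lit 0) (nat_lit 50592456776) (nat_lit 152) (nat_lit 9397715434) (nat_lit 228) (nat_lit 39717105106) (nat_lit 15) (nat_lit 5) (nat_lit 17) (nat_lit 5) (nat_lit 18) (nat_lit 5) (nat_lit 322) (nat_lit 274) (nat_lit 124)) (XT.lf (nat_lit 0) (nat_lit 74198155962) (nat_lit 228) (nat_lit 19546367480) (nat_lit 76) (nat_lit 9937224521) (nat_lit 15) (nat_lit 5) (nat_lit 18) (nat_lit 5) (nat_lit 16) (nat_lit 4) (nat_lit 323) (nat_lit 274) (nat_lit 123))) (XT.nd (nat_lit 78) (nat_lit 0) (nat_lit 0) (XT.lf (nat_lit 0) (nat_lit 11719593429) (nat_lit 76) (nat_lit 77732770589) (nat_lit 152) (nat_lit 18385789424) (nat_lit 14) (nat_lit 5) (nat_lit 15) (nat_lit 5) (nat_lit 16) (nat_lit 4) (nat_lit 324) (nat_lit 274) (nat_lit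 122)) (XT.lf (nat_lit 0) (nat_lit 45225535568) (nat_lit 76) (nat_lit 60573590286) (nat_lit 152) (nat_lit 6386763606) (nat_lit 14) (nat_lit 5) (nat_lit 15) (nat_lit 5) (nat_lit 16) (nat_lit 4) (nat_lit 325) (nat_lit 274) (nat_lit 121)))) (XT.nd (nat_lit 156) (nat_lit 152) (nat_lit 0) (XT.nd (nat_lit 78) (nat_lit 0) (nat_lit 0) (XT.lf (nat_lit 0) (nat_lit 6012235705) (nat_lit 152) (nat_lit 36443098707) (nat_lit 76) (nat_lit 74290887980) (nat_lit 13) (nat_lit 5) (nat_lit 15) (nat_lit 5) (nat_lit 14) (nat_lit 5) (nat_lit 326) (nat_lit 274) (nat_lit 120)) (XT.lf (nat_lit 0) (nat_lit 18815454350) (nat_lit 152) (nat_lit 4506463881) (nat_lit 76) (nat_lit 98207475465) (nat_lit 13) (nat_lit 5) (nat_lit 15) (nat_lit 5) (nat_lit 14) (nat_lit 5) (nat_lit 327) (nat_lit 274) (nat_lit 119))) (XT.nd (nat_lit 78) (nat_lit 0) (nat_lit 0) (XT.lf (nat_lit 0) (nat_lit 29985013151) (nat_lit 152) (nat_lit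 2740929440) (nat_lit 228) (nat_lit 93802427544) (nat_lit 11) (nat_lit 5) (nat_lit 13) (nat_lit 5) (nat_lit 14) (nat_lit 5) (nat_lit 328) (nat_lit 274) (nat_lit 118)) (XT.nd (nat_lit 78) (nat_lit 0) (nat_lit 0) (XT.lf (nat_lit 0) (nat_lit 47703097113) (nat_lit 228) (nat_lit 65713524421) (nat_lit 76) (nat_lit 18342118676) (nat_lit 11) (nat_lit 5) (nat_lit 14) (nat_lit 5) (nat_lit 12) (nat_lit 4) (nat_lit 329) (nat_lit 274) (nat_lit 117)) (XT.lf (nat_lit 0) (nat_lit 63473063505) (nat_lit 228) (nat_lit 33388764418) (nat_lit 76) (nat_lit 40386604976) (nat_lit 11) (nat_lit 5) (nat_lit 14) (nat_lit 5) (nat_lit 12) (nat_lit 4) (nat_lit 330) (nat_lit 274) (nat_lit 116))))))))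
noncomputable def xc209 : XT := (XT.nd (nat_lit 1326) (nat_lit 0) (nat_lit 0) (XT.nd (nat_lit 624) (nat_lit 152) (nat_lit 0) (XT.nd (nat_lit 312) (nat_lit 152) (nat_lit 0) (XT.nd (nat_lit 156) (nat_lit 0) (nat_lit 0) (XT.nd (nat_lit 78) (nat_lit 0) (nat_lit 0) (XT.lf (nat_lit 0) (nat_lit 568888307) (nat_lit 76) (nat_lit 79470589349) (nat_lit 152) (nat_lit 62972736824) (nat_lit 10) (nat_lit 5) (nat_lit 11) (nat_lit 5) (nat_lit 12) (nat_lit 4) (nat_lit 331) (nat_lit 274) (nat_lit 115)) (XT.lf (nat_lit 0) (nat_lit 37382077973) (nat_lit 76) (nat_lit 60616677469) (nat_lit 152) (nat_lit 51037204199) (nat_lit 10) (nat_lit 5) (nat_lit 11) (nat_lit 5) (nat_lit 12) (nat_lit 4) (nat_lit 332) (nat_lit 274) (nat_lit 114))) (XT.nd (nat_lit 78) (nat_lit 0) (nat_lit 0) (XT.lf (nat_lit 0) (nat_lit 76034471691) (nat_lit 76) (nat_lit 40820656898) (nat_lit 152) (nat_lit 38505808467) (nat_lit 10) (nat_lit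 5) (nat_lit 11) (nat_lit 5) (nat_lit 12) (nat_lit 4) (nat_lit 333) (nat_lit 274) (nat_lit 113)) (XT.lf (nat_lit 0) (nat_lit 116618098969) (nat_lit 76) (nat_lit 20035394255) (nat_lit 152) (nat_lit 25348712972) (nat_lit 10) (nat_lit 5) (nat_lit 11) (nat_lit 5) (nat_lit 12) (nat_lit 4) (nat_lit 334) (nat_lit 274) (nat_lit 112)))) (XT.nd (nat_lit 156) (nat_lit 0) (nat_lit 0) (XT.nd (nat_lit 78) (nat_lit 152) (nat_lit 0) (XT.lf (nat_lit 0) (nat_lit 157468913355) (nat_lit 152) (nat_lit 9773917159) (nat_lit 0) (nat_lit 1731352837) (nat_lit 10) (nat_lit 5) (nat_lit 12) (nat_lit 4) (nat_lit 10) (nat_lit 4) (nat_lit 335) (nat_lit 274) (nat_lit 111)) (XT.lf (nat_lit 0) (nat_lit 3713745339) (nat_lit 152) (nat_lit 148126991555) (nat_lit 76) (nat_lit 24412638645) (nat_lit 8) (nat_lit 5) (nat_lit 10) (nat_lit 5) (nat_lit 9) (nat_lit 4) (nat_lit 336) (nat_lit 274) (nat_lit 110))) (XT.nd (nat_lit 78)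 (nat_lit 0) (nat_lit 0) (XT.lf (nat_lit 0) (nat_lit 19474543204) (nat_lit 152) (nat_lit 115819840675) (nat_lit 76) (nat_lit 48584339922) (nat_lit 8) (nat_lit 5) (nat_lit 10) (nat_lit 5) (nat_lit 9) (nat_lit 4) (nat_lit 337) (nat_lit 274) (nat_lit 109)) (XT.lf (nat_lit 0) (nat_lit 36022661650) (nat_lit 152) (nat_lit 81898564284) (nat_lit 76) (nat_lit 73964150679) (nat_lit 8) (nat_lit 5) (nat_lit 10) (nat_lit 5) (nat_lit 9) (nat_lit 4) (nat_lit 338) (nat_lit 274) (nat_lit 108))))) (XT.nd (nat_lit 312) (nat_lit 76) (nat_lit 0) (XT.nd (nat_lit 156) (nat_lit 76) (nat_lit 0) (XT.nd (nat_lit 78) (nat_lit 0) (nat_lit 0) (XT.lf (nat_lit 0) (nat_lit 53397500958) (nat_lit 152) (nat_lit 46282397439) (nat_lit 76) (nat_lit 100612499037) (nat_lit 8) (nat_lit 5) (nat_lit 10) (nat_lit 5) (nat_lit 9) (nat_lit 4) (nat_lit 339) (nat_lit 274) (nat_lit 107)) (XT.lf (nat_lit 0) (nat_lit 71640429794) (nat_lit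 152) (nat_lit 8886539743) (nat_lit 76) (nat_lit 128592833444) (nat_lit 8) (nat_lit 5) (nat_lit 10) (nat_lit 5) (nat_lit 9) (nat_lit 4) (nat_lit 340) (nat_lit 274) (nat_lit 106))) (XT.nd (nat_lit 78) (nat_lit 0) (nat_lit 0) (XT.lf (nat_lit 0) (nat_lit 31382481971) (nat_lit 76) (nat_lit 59902370222) (nat_lit 152) (nat_lit 127079260266) (nat_lit 7) (nat_lit 5) (nat_lit 8) (nat_lit 5) (nat_lit 9) (nat_lit 4) (nat_lit 341) (nat_lit 274) (nat_lit 105)) (XT.lf (nat_lit 0) (nat_lit 73972428255) (nat_lit 76) (nat_lit 38088957181) (nat_lit 152) (nat_lit 116001758455) (nat_lit 7) (nat_lit 5) (nat_lit 8) (nat_lit 5) (nat_lit 9) (nat_lit 4) (nat_lit 342) (nat_lit 274) (nat_lit 104)))) (XT.nd (nat_lit 156) (nat_lit 76) (nat_lit 0) (XT.nd (nat_lit 78) (nat_lit 0) (nat_lit 0) (XT.lf (nat_lit 0) (nat_lit 118690874604) (nat_lit 76) (nat_lit 15185291565) (nat_lit 152) (nat_lit 104370990599) (nat_lit 7)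 (nat_lit 5) (nat_lit 8) (nat_lit 5) (nat_lit 9) (nat_lit 4) (nat_lit 343) (nat_lit 274) (nat_lit 103)) (XT.lf (nat_lit 0) (nat_lit 156919513102) (nat_lit 152) (nat_lit 83434483988) (nat_lit 0) (nat_lit 8579482716) (nat_lit 7) (nat_lit 5) (nat_lit 9) (nat_lit 4) (nat_lit 7) (nat_lit 4) (nat_lit 344) (nat_lit 274) (nat_lit 102))) (XT.nd (nat_lit 78) (nat_lit 76) (nat_lit 0) (XT.lf (nat_lit 0) (nat_lit 181363435342) (nat_lit 152) (nat_lit 45756460820) (nat_lit 0) (nat_lit 33021803267) (nat_lit 7) (nat_lit 5) (nat_lit 9) (nat_lit 4) (nat_lit 7) (nat_lit 4) (nat_lit 345) (nat_lit 274) (nat_lit 101)) (XT.nd (nat_lit 78) (nat_lit 76) (nat_lit 0) (XT.lf (nat_lit 0) (nat_lit 207029047747) (nat_lit 152) (nat_lit 6195418123) (nat_lit 0) (nat_lit 58685890254) (nat_lit 7) (nat_lit 5) (nat_lit 9) (nat_lit 4) (nat_lit 7) (nat_lit 4) (nat_lit 346) (nat_lit 274) (nat_lit 100)) (XT.lf (nat_lit 0) (nat_lit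 36511430865) (nat_lit 76) (nat_lit 198036073810) (nat_lit 76) (nat_lit 49691463538) (nat_lit 6) (nat_lit 4) (nat_lit 7) (nat_lit 5) (nat_lit 7) (nat_lit 4) (nat_lit 347) (nat_lit 274) (nat_lit 99))))))) (XT.nd (nat_lit 32448) (nat_lit 0) (nat_lit 3496) (XT.nd (nat_lit 32058) (nat_lit 0) (nat_lit 4560) (XT.nd (nat_lit 31902) (nat_lit 0) (nat_lit 4484) (XT.nd (nat_lit 31824) (nat_lit 0) (nat_lit 4484) (XT.lf (nat_lit 0) (nat_lit 81567887126) (nat_lit 76) (nat_lit 181978447920) (nat_lit 76) (nat_lit 33632454049) (nat_lit 6) (nat_lit 4) (nat_lit 7) (nat_lit 5) (nat_lit 7) (nat_lit 4) (nat_lit 348) (nat_lit 274) (nat_lit 98)) (XT.lf (nat_lit 0) (nat_lit 1116968323) (nat_lit 0) (nat_lit 1116968323) (nat_lit 684) (nat_lit 9154666608) (nat_lit 65) (nat_lit 5) (nat_lit 65) (nat_lit 3) (nat_lit 74) (nat_lit 3) (nat_lit 275) (nat_lit 275) (nat_lit 170))) (XT.nd (nat_lit 78) (nat_lit 0) (nat_lit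 0) (XT.lf (nat_lit 0) (nat_lit 4811419133) (nat_lit 684) (nat_lit 11268261699) (nat_lit 760) (nat_lit 7254905473) (nat_lit 65) (nat_lit 5) (nat_lit 74) (nat_lit 3) (nat_lit 75) (nat_lit 5) (nat_lit 276) (nat_lit 275) (nat_lit 169)) (XT.lf (nat_lit 0) (nat_lit 5201470722) (nat_lit 684) (nat_lit 1570254692) (nat_lit 760) (nat_lit 17146672563) (nat_lit 65) (nat_lit 5) (nat_lit 74) (nat_lit 3) (nat_lit 75) (nat_lit 5) (nat_lit 277) (nat_lit 275) (nat_lit 168)))) (XT.nd (nat_lit 156) (nat_lit 0) (nat_lit 0) (XT.nd (nat_lit 78) (nat_lit 0) (nat_lit 0) (XT.lf (nat_lit 0) (nat_lit 5792116162) (nat_lit 684) (nat_lit 15680657234) (nat_lit 760) (nat_lit 3049600190) (nat_lit 66) (nat_lit 5) (nat_lit 75) (nat_lit 5) (nat_lit 76) (nat_lit 5) (nat_lit 278) (nat_lit 275) (nat_lit 167)) (XT.lf (nat_lit 0) (nat_lit 6543702763) (nat_lit 684) (nat_lit 5442138280) (nat_lit 760) (nat_lit 13164163076) (nat_lit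 66) (nat_lit 5) (nat_lit 75) (nat_lit 5) (nat_lit 76) (nat_lit 5) (nat_lit 279) (nat_lit 275) (nat_lit 166))) (XT.nd (nat_lit 78) (nat_lit 0) (nat_lit 76) (XT.lf (nat_lit 76) (nat_lit 5479618382) (nat_lit 0) (nat_lit 1932486341) (nat_lit 760) (nat_lit 18392974975) (nat_lit 67) (nat_lit 5) (nat_lit 66) (nat_lit 5) (nat_lit 76) (nat_lit 5) (nat_lit 280) (nat_lit 275) (nat_lit 165)) (XT.nd (nat_lit 78) (nat_lit 0) (nat_lit 0) (XT.lf (nat_lit 0) (nat_lit 8546194946) (nat_lit 684) (nat_lit 9492412615) (nat_lit 760) (nat_lit 8443212201) (nat_lit 67) (nat_lit 5) (nat_lit 76) (nat_lit 5) (nat_lit 77) (nat_lit 5) (nat_lit 281) (nat_lit 275) (nat_lit 164)) (XT.lf (nat_lit 76) (nat_lit 1907503310) (nat_lit 0) (nat_lit 7885190278) (nat_lit 760) (nat_lit 17396941016) (nat_lit 68) (nat_lit 5) (nat_lit 67) (nat_lit 5) (nat_lit 77) (nat_lit 5) (nat_lit 282) (nat_lit 275) (nat_lit 163)))))) (XT.nd (nat_lit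 312) (nat_lit 1216) (nat_lit 0) (XT.nd (nat_lit 156) (nat_lit 0) (nat_lit 0) (XT.nd (nat_lit 78) (nat_lit 0) (nat_lit 0) (XT.lf (nat_lit 0) (nat_lit 11302726095) (nat_lit 684) (nat_lit 13768219091) (nat_lit 760) (nat_lit 2851856426) (nat_lit 68) (nat_lit 5) (nat_lit 77) (nat_lit 5) (nat_lit 78) (nat_lit 5) (nat_lit 283) (nat_lit 275) (nat_lit 162)) (XT.lf (nat_lit 0) (nat_lit 13012264119) (nat_lit 684) (nat_lit 1812078661) (nat_lit 760) (nat_lit 13862104829) (nat_lit 68) (nat_lit 5) (nat_lit 77) (nat_lit 5) (nat_lit 78) (nat_lit 5) (nat_lit 284) (nat_lit 275) (nat_lit 161))) (XT.nd (nat_lit 78) (nat_lit 0) (nat_lit 76) (XT.lf (nat_lit 76) (nat_lit 11092909288) (nat_lit 0) (nat_lit 3882550182) (nat_lit 760) (nat_lit 14504427255) (nat_lit 69) (nat_lit 5) (nat_lit 68) (nat_lit 5) (nat_lit 78) (nat_lit 5) (nat_lit 285) (nat_lit 275) (nat_lit 160)) (XT.lf (nat_lit 0) (nat_lit 17181942436)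 (nat_lit 684) (nat_lit 5728876621) (nat_lit 76) (nat_lit 7394941242) (nat_lit 69) (nat_lit 5) (nat_lit 78) (nat_lit 5) (nat_lit 70) (nat_lit 5) (nat_lit 286) (nat_lit 275) (nat_lit 159)))) (XT.nd (nat_lit 156) (nat_lit 608) (nat_lit 0) (XT.nd (nat_lit 78) (nat_lit 0) (nat_lit 0) (XT.lf (nat_lit 0) (nat_lit 7742270535) (nat_lit 684) (nat_lit 11936415601) (nat_lit 760) (nat_lit 11485262582) (nat_lit 60) (nat_lit 5) (nat_lit 69) (nat_lit 5) (nat_lit 70) (nat_lit 5) (nat_lit 287) (nat_lit 275) (nat_lit 158)) (XT.lf (nat_lit 0) (nat_lit 22081922065) (nat_lit 684) (nat_lit 310932906) (nat_lit 760) (nat_lit 9667579327) (nat_lit 60) (nat_lit 5) (nat_lit 69) (nat_lit 5) (nat_lit 70) (nat_lit 5) (nat_lit 288) (nat_lit 275) (nat_lit 157))) (XT.nd (nat_lit 78) (nat_lit 304) (nat_lit 0) (XT.lf (nat_lit 0) (nat_lit 4077600151) (nat_lit 304) (nat_lit 21410307013) (nat_lit 380) (nat_lit 7501594571)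 (nat_lit 56) (nat_lit 5) (nat_lit 60) (nat_lit 5) (nat_lit 61) (nat_lit 5) (nat_lit 289) (nat_lit 275) (nat_lit 156)) (XT.nd (nat_lit 78) (nat_lit 304) (nat_lit 0) (XT.lf (nat_lit 0) (nat_lit 19173754797) (nat_lit 304) (nat_lit 9733887520) (nat_lit 380) (nat_lit 5048899252) (nat_lit 56) (nat_lit 5) (nat_lit 60) (nat_lit 5) (nat_lit 61) (nat_lit 5) (nat_lit 290) (nat_lit 275) (nat_lit 155)) (XT.lf (nat_lit 0) (nat_lit 9697776) (nat_lit 304) (nat_lit 32524381943) (nat_lit 380) (nat_lit 2436082708) (nat_lit 52) (nat_lit 5) (nat_lit 56) (nat_lit 5) (nat_lit 57) (nat_lit 5) (nat_lit 291) (nat_lit 275) (nat_lit 154))))))))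
noncomputable def xc210 : XT := (XT.nd (nat_lit 1326) (nat_lit 1064) (nat_lit 0) (XT.nd (nat_lit 624) (nat_lit 912) (nat_lit 0) (XT.nd (nat_lit 312) (nat_lit 532) (nat_lit 0) (XT.nd (nat_lit 156) (nat_lit 304) (nat_lit 0) (XT.nd (nat_lit 78) (nat_lit 0) (nat_lit 0) (XT.lf (nat_lit 0) (nat_lit 707735915) (nat_lit 380) (nat_lit 20139419448) (nat_lit 76) (nat_lit 15166572486) (nat_lit 51) (nat_lit 5) (nat_lit 56) (nat_lit 5) (nat_lit 52) (nat_lit 5) (nat_lit 292) (nat_lit 275) (nat_lit 153)) (XT.lf (nat_lit 0) (nat_lit 3923228954) (nat_lit 380) (nat_lit 4621095165) (nat_lit 76) (nat_lit 28563345831) (nat_lit 51) (nat_lit 5) (nat_lit 56) (nat_lit 5) (nat_lit 52) (nat_lit 5) (nat_lit 293) (nat_lit 275) (nat_lit 152))) (XT.nd (nat_lit 78) (nat_lit 0) (nat_lit 0) (XT.lf (nat_lit 0) (nat_lit 7555607430) (nat_lit 380) (nat_lit 26263115084) (nat_lit 76) (nat_lit 4424793283) (nat_lit 47) (nat_lit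 5) (nat_lit 52) (nat_lit 5) (nat_lit 48) (nat_lit 5) (nat_lit 294) (nat_lit 275) (nat_lit 151)) (XT.lf (nat_lit 0) (nat_lit 11585850428) (nat_lit 380) (nat_lit 10004961357) (nat_lit 76) (nat_lit 17834541470) (nat_lit 47) (nat_lit 5) (nat_lit 52) (nat_lit 5) (nat_lit 48) (nat_lit 5) (nat_lit 295) (nat_lit 275) (nat_lit 150)))) (XT.nd (nat_lit 156) (nat_lit 228) (nat_lit 0) (XT.nd (nat_lit 78) (nat_lit 0) (nat_lit 0) (XT.lf (nat_lit 0) (nat_lit 7296026097) (nat_lit 304) (nat_lit 8632282579) (nat_lit 380) (nat_lit 24732449804) (nat_lit 43) (nat_lit 5) (nat_lit 47) (nat_lit 5) (nat_lit 48) (nat_lit 5) (nat_lit 296) (nat_lit 275) (nat_lit 149)) (XT.lf (nat_lit 0) (nat_lit 20734649831) (nat_lit 380) (nat_lit 16224181759) (nat_lit 76) (nat_lit 4986774897) (nat_lit 43) (nat_lit 5) (nat_lit 48) (nat_lit 5) (nat_lit 44) (nat_lit 5) (nat_lit 297) (nat_lit 275) (nat_lit 148))) (XT.nd (nat_lit 78)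 (nat_lit 0) (nat_lit 0) (XT.lf (nat_lit 0) (nat_lit 1682206727) (nat_lit 228) (nat_lit 24263909217) (nat_lit 304) (nat_lit 17340350576) (nat_lit 40) (nat_lit 5) (nat_lit 43) (nat_lit 5) (nat_lit 44) (nat_lit 5) (nat_lit 298) (nat_lit 275) (nat_lit 147)) (XT.lf (nat_lit 0) (nat_lit 21043720375) (nat_lit 228) (nat_lit 10646317804) (nat_lit 304) (nat_lit 12990746780) (nat_lit 40) (nat_lit 5) (nat_lit 43) (nat_lit 5) (nat_lit 44) (nat_lit 5) (nat_lit 299) (nat_lit 275) (nat_lit 146))))) (XT.nd (nat_lit 312) (nat_lit 380) (nat_lit 0) (XT.nd (nat_lit 156) (nat_lit 304) (nat_lit 0) (XT.nd (nat_lit 78) (nat_lit 228) (nat_lit 0) (XT.lf (nat_lit 0) (nat_lit 37775423914) (nat_lit 304) (nat_lit 4831964046) (nat_lit 76) (nat_lit 3534727077) (nat_lit 40) (nat_lit 5) (nat_lit 44) (nat_lit 5) (nat_lit 41) (nat_lit 5) (nat_lit 300) (nat_lit 275) (nat_lit 145)) (XT.lf (nat_lit 0) (nat_lit 15222816352)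 (nat_lit 228) (nat_lit 29351841346) (nat_lit 304) (nat_lit 3081383640) (nat_lit 37) (nat_lit 5) (nat_lit 40) (nat_lit 5) (nat_lit 41) (nat_lit 5) (nat_lit 301) (nat_lit 275) (nat_lit 144))) (XT.nd (nat_lit 78) (nat_lit 228) (nat_lit 0) (XT.lf (nat_lit 0) (nat_lit 2469767910) (nat_lit 304) (nat_lit 12836670099) (nat_lit 76) (nat_lit 33933278220) (nat_lit 36) (nat_lit 5) (nat_lit 40) (nat_lit 5) (nat_lit 37) (nat_lit 5) (nat_lit 302) (nat_lit 275) (nat_lit 143)) (XT.lf (nat_lit 0) (nat_lit 7940179543) (nat_lit 228) (nat_lit 376237930) (nat_lit 304) (nat_lit 42577564389) (nat_lit 33) (nat_lit 5) (nat_lit 36) (nat_lit 5) (nat_lit 37) (nat_lit 5) (nat_lit 303) (nat_lit 275) (nat_lit 142)))) (XT.nd (nat_lit 156) (nat_lit 380) (nat_lit 0) (XT.nd (nat_lit 78) (nat_lit 0) (nat_lit 0) (XT.lf (nat_lit 0) (nat_lit 14912826935) (nat_lit 304) (nat_lit 22664225629) (nat_lit 76) (nat_lit 15031043963)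 (nat_lit 33) (nat_lit 5) (nat_lit 37) (nat_lit 5) (nat_lit 34) (nat_lit 5) (nat_lit 304) (nat_lit 275) (nat_lit 141)) (XT.lf (nat_lit 0) (nat_lit 21842924795) (nat_lit 304) (nat_lit 1369404009) (nat_lit 76) (nat_lit 31195401507) (nat_lit 33) (nat_lit 5) (nat_lit 37) (nat_lit 5) (nat_lit 34) (nat_lit 5) (nat_lit 305) (nat_lit 275) (nat_lit 140))) (XT.nd (nat_lit 78) (nat_lit 152) (nat_lit 0) (XT.lf (nat_lit 0) (nat_lit 21681171514) (nat_lit 228) (nat_lit 7774669493) (nat_lit 304) (nat_lit 26824695564) (nat_lit 30) (nat_lit 5) (nat_lit 33) (nat_lit 5) (nat_lit 34) (nat_lit 5) (nat_lit 306) (nat_lit 275) (nat_lit 139)) (XT.nd (nat_lit 78) (nat_lit 152) (nat_lit 0) (XT.lf (nat_lit 0) (nat_lit 37602524214) (nat_lit 304) (nat_lit 12449051414) (nat_lit 76) (nat_lit 8187757607) (nat_lit 30) (nat_lit 5) (nat_lit 34) (nat_lit 5) (nat_lit 31) (nat_lit 5) (nat_lit 307) (nat_lit 275) (nat_lit 138))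 (XT.lf (nat_lit 0) (nat_lit 11031571018) (nat_lit 152) (nat_lit 35422617401) (nat_lit 228) (nat_lit 13827004832) (nat_lit 28) (nat_lit 5) (nat_lit 30) (nat_lit 5) (nat_lit 31) (nat_lit 5) (nat_lit 308) (nat_lit 275) (nat_lit 137))))))) (XT.nd (nat_lit 702) (nat_lit 456) (nat_lit 0) (XT.nd (nat_lit 312) (nat_lit 304) (nat_lit 0) (XT.nd (nat_lit 156) (nat_lit 228) (nat_lit 0) (XT.nd (nat_lit 78) (nat_lit 76) (nat_lit 0) (XT.lf (nat_lit 0) (nat_lit 36115640751) (nat_lit 152) (nat_lit 19841638948) (nat_lit 228) (nat_lit 6457429954) (nat_lit 28) (nat_lit 5) (nat_lit 30) (nat_lit 5) (nat_lit 31) (nat_lit 5) (nat_lit 309) (nat_lit 275) (nat_lit 136)) (XT.lf (nat_lit 0) (nat_lit 1237707315) (nat_lit 228) (nat_lit 2223704924) (nat_lit 76) (nat_lit 61192591411) (nat_lit 27) (nat_lit 5) (nat_lit 30) (nat_lit 5) (nat_lit 28) (nat_lit 5) (nat_lit 310) (nat_lit 275) (nat_lit 135))) (XT.nd (nat_lit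 78) (nat_lit 0) (nat_lit 0) (XT.lf (nat_lit 0) (nat_lit 9691142350) (nat_lit 304) (nat_lit 43498132242) (nat_lit 76) (nat_lit 13781171956) (nat_lit 24) (nat_lit 5) (nat_lit 28) (nat_lit 5) (nat_lit 25) (nat_lit 5) (nat_lit 311) (nat_lit 275) (nat_lit 134)) (XT.lf (nat_lit 0) (nat_lit 18660469636) (nat_lit 304) (nat_lit 18930487474) (nat_lit 76) (nat_lit 31807098045) (nat_lit 24) (nat_lit 5) (nat_lit 28) (nat_lit 5) (nat_lit 25) (nat_lit 5) (nat_lit 312) (nat_lit 275) (nat_lit 133)))) (XT.nd (nat_lit 156) (nat_lit 152) (nat_lit 0) (XT.nd (nat_lit 78) (nat_lit 0) (nat_lit 0) (XT.lf (nat_lit 0) (nat_lit 7089954211) (nat_lit 152) (nat_lit 21097288035) (nat_lit 228) (nat_lit 43754357371) (nat_lit 22) (nat_lit 5) (nat_lit 24) (nat_lit 5) (nat_lit 25) (nat_lit 5) (nat_lit 313) (nat_lit 275) (nat_lit 132)) (XT.lf (nat_lit 0) (nat_lit 35066174079) (nat_lit 152) (nat_lit 3443104419) (nat_lit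 228) (nat_lit 36087100716) (nat_lit 22) (nat_lit 5) (nat_lit 24) (nat_lit 5) (nat_lit 25) (nat_lit 5) (nat_lit 314) (nat_lit 275) (nat_lit 131))) (XT.nd (nat_lit 78) (nat_lit 152) (nat_lit 0) (XT.lf (nat_lit 0) (nat_lit 49581468733) (nat_lit 228) (nat_lit 13180771110) (nat_lit 76) (nat_lit 14609959306) (nat_lit 22) (nat_lit 5) (nat_lit 25) (nat_lit 5) (nat_lit 23) (nat_lit 5) (nat_lit 315) (nat_lit 275) (nat_lit 130)) (XT.nd (nat_lit 78) (nat_lit 0) (nat_lit 0) (XT.lf (nat_lit 0) (nat_lit 14904418150) (nat_lit 152) (nat_lit 46590466622) (nat_lit 228) (nat_lit 18777548270) (nat_lit 20) (nat_lit 5) (nat_lit 22) (nat_lit 5) (nat_lit 23) (nat_lit 5) (nat_lit 316) (nat_lit 275) (nat_lit 129)) (XT.lf (nat_lit 0) (nat_lit 44849204096) (nat_lit 152) (nat_lit 29376499796) (nat_lit 228) (nat_lit 9080891722) (nat_lit 20) (nat_lit 5) (nat_lit 22) (nat_lit 5) (nat_lit 23) (nat_lit 5) (nat_lit 317)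 (nat_lit 275) (nat_lit 128)))))) (XT.nd (nat_lit 312) (nat_lit 228) (nat_lit 0) (XT.nd (nat_lit 156) (nat_lit 0) (nat_lit 0) (XT.nd (nat_lit 78) (nat_lit 152) (nat_lit 0) (XT.lf (nat_lit 0) (nat_lit 1063925583) (nat_lit 228) (nat_lit 10220632788) (nat_lit 76) (nat_lit 75207124338) (nat_lit 19) (nat_lit 5) (nat_lit 22) (nat_lit 5) (nat_lit 20) (nat_lit 5) (nat_lit 318) (nat_lit 275) (nat_lit 127)) (XT.lf (nat_lit 0) (nat_lit 11848279933) (nat_lit 228) (nat_lit 70026664428) (nat_lit 76) (nat_lit 7931765866) (nat_lit 17) (nat_lit 5) (nat_lit 20) (nat_lit 5) (nat_lit 18) (nat_lit 5) (nat_lit 319) (nat_lit 275) (nat_lit 126))) (XT.nd (nat_lit 78) (nat_lit 0) (nat_lit 0) (XT.lf (nat_lit 0) (nat_lit 23531418309) (nat_lit 228) (nat_lit 41833201106) (nat_lit 76) (nat_lit 27904894351) (nat_lit 17) (nat_lit 5) (nat_lit 20) (nat_lit 5) (nat_lit 18) (nat_lit 5) (nat_lit 320) (nat_lit 275) (nat_lit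 125)) (XT.lf (nat_lit 0) (nat_lit 35797422767) (nat_lit 228) (nat_lit 12232094939) (nat_lit 76) (nat_lit 48876007136) (nat_lit 17) (nat_lit 5) (nat_lit 20) (nat_lit 5) (nat_lit 18) (nat_lit 5) (nat_lit 321) (nat_lit 275) (nat_lit 124)))) (XT.nd (nat_lit 156) (nat_lit 76) (nat_lit 0) (XT.nd (nat_lit 78) (nat_lit 0) (nat_lit 0) (XT.lf (nat_lit 0) (nat_lit 19470304226) (nat_lit 152) (nat_lit 29509179868) (nat_lit 228) (nat_lit 51728717227) (nat_lit 15) (nat_lit 5) (nat_lit 17) (nat_lit 5) (nat_lit 18) (nat_lit 5) (nat_lit 322) (nat_lit 275) (nat_lit 123)) (XT.lf (nat_lit 0) (nat_lit 53180591613) (nat_lit 152) (nat_lit 9846012793) (nat_lit 228) (nat_lit 41664111980) (nat_lit 15) (nat_lit 5) (nat_lit 17) (nat_lit 5) (nat_lit 18) (nat_lit 5) (nat_lit 323) (nat_lit 275) (nat_lit 122))) (XT.nd (nat_lit 78) (nat_lit 76) (nat_lit 0) (XT.lf (nat_lit 0) (nat_lit 77943550083) (nat_lit 228) (nat_lit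 20466448007) (nat_lit 76) (nat_lit 10453988080) (nat_lit 15) (nat_lit 5) (nat_lit 18) (nat_lit 5) (nat_lit 16) (nat_lit 4) (nat_lit 324) (nat_lit 275) (nat_lit 121)) (XT.nd (nat_lit 78) (nat_lit 0) (nat_lit 0) (XT.lf (nat_lit 0) (nat_lit 12361887756) (nat_lit 76) (nat_lit 81597770191) (nat_lit 152) (nat_lit 19268598072) (nat_lit 14) (nat_lit 5) (nat_lit 15) (nat_lit 5) (nat_lit 16) (nat_lit 4) (nat_lit 325) (nat_lit 275) (nat_lit 120)) (XT.lf (nat_lit 0) (nat_lit 47540445351) (nat_lit 76) (nat_lit 63581661298) (nat_lit 152) (nat_lit 6671358145) (nat_lit 14) (nat_lit 5) (nat_lit 15) (nat_lit 5) (nat_lit 16) (nat_lit 4) (nat_lit 326) (nat_lit 275) (nat_lit 119))))))))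
noncomputable def xc211 : XT := (XT.nd (nat_lit 1326) (nat_lit 76) (nat_lit 0) (XT.nd (nat_lit 624) (nat_lit 228) (nat_lit 0) (XT.nd (nat_lit 312) (nat_lit 76) (nat_lit 0) (XT.nd (nat_lit 156) (nat_lit 152) (nat_lit 0) (XT.nd (nat_lit 78) (nat_lit 0) (nat_lit 0) (XT.lf (nat_lit 0) (nat_lit 6344877612) (nat_lit 152) (nat_lit 38213053930) (nat_lit 76) (nat_lit 78023938864) (nat_lit 13) (nat_lit 5) (nat_lit 15) (nat_lit 5) (nat_lit 14) (nat_lit 5) (nat_lit 327) (nat_lit 275) (nat_lit 118)) (XT.lf (nat_lit 0) (nat_lit 19786731945) (nat_lit 152) (nat_lit 4682073064) (nat_lit 76) (nat_lit 103135474463) (nat_lit 13) (nat_lit 5) (nat_lit 15) (nat_lit 5) (nat_lit 14) (nat_lit 5) (nat_lit 328) (nat_lit 275) (nat_lit 117))) (XT.nd (nat_lit 78) (nat_lit 0) (nat_lit 0) (XT.lf (nat_lit 0) (nat_lit 31533175981) (nat_lit 152) (nat_lit 2858879660) (nat_lit 228) (nat_lit 98461186333) (nat_lit 11) (nat_lit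 5) (nat_lit 13) (nat_lit 5) (nat_lit 14) (nat_lit 5) (nat_lit 329) (nat_lit 275) (nat_lit 116)) (XT.lf (nat_lit 0) (nat_lit 50116932032) (nat_lit 228) (nat_lit 68951428552) (nat_lit 76) (nat_lit 19276829422) (nat_lit 11) (nat_lit 5) (nat_lit 14) (nat_lit 5) (nat_lit 12) (nat_lit 4) (nat_lit 330) (nat_lit 275) (nat_lit 115)))) (XT.nd (nat_lit 156) (nat_lit 0) (nat_lit 0) (XT.nd (nat_lit 78) (nat_lit 76) (nat_lit 0) (XT.lf (nat_lit 0) (nat_lit 66674031026) (nat_lit 228) (nat_lit 35012705410) (nat_lit 76) (nat_lit 42422701713) (nat_lit 11) (nat_lit 5) (nat_lit 14) (nat_lit 5) (nat_lit 12) (nat_lit 4) (nat_lit 331) (nat_lit 275) (nat_lit 114)) (XT.lf (nat_lit 0) (nat_lit 642096125) (nat_lit 76) (nat_lit 83426067959) (nat_lit 152) (nat_lit 66093277228) (nat_lit 10) (nat_lit 5) (nat_lit 11) (nat_lit 5) (nat_lit 12) (nat_lit 4) (nat_lit 332) (nat_lit 275) (nat_lit 113))) (XT.nd (nat_lit 78)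 (nat_lit 0) (nat_lit 0) (XT.lf (nat_lit 0) (nat_lit 39293813684) (nat_lit 76) (nat_lit 63630320050) (nat_lit 152) (nat_lit 53562305898) (nat_lit 10) (nat_lit 5) (nat_lit 11) (nat_lit 5) (nat_lit 12) (nat_lit 4) (nat_lit 333) (nat_lit 275) (nat_lit 112)) (XT.lf (nat_lit 0) (nat_lit 79876797001) (nat_lit 76) (nat_lit 42845317084) (nat_lit 152) (nat_lit 40405614594) (nat_lit 10) (nat_lit 5) (nat_lit 11) (nat_lit 5) (nat_lit 12) (nat_lit 4) (nat_lit 334) (nat_lit 275) (nat_lit 111))))) (XT.nd (nat_lit 312) (nat_lit 76) (nat_lit 0) (XT.nd (nat_lit 156) (nat_lit 152) (nat_lit 0) (XT.nd (nat_lit 78) (nat_lit 0) (nat_lit 0) (XT.lf (nat_lit 0) (nat_lit 122487672227) (nat_lit 76) (nat_lit 21021570958) (nat_lit 152) (nat_lit 26591877862) (nat_lit 10) (nat_lit 5) (nat_lit 11) (nat_lit 5) (nat_lit 12) (nat_lit 4) (nat_lit 335) (nat_lit 275) (nat_lit 110)) (XT.lf (nat_lit 0) (nat_lit 165364567358)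 (nat_lit 152) (nat_lit 10224879382) (nat_lit 0) (nat_lit 1832295656) (nat_lit 10) (nat_lit 5) (nat_lit 12) (nat_lit 4) (nat_lit 10) (nat_lit 4) (nat_lit 336) (nat_lit 275) (nat_lit 109))) (XT.nd (nat_lit 78) (nat_lit 0) (nat_lit 0) (XT.lf (nat_lit 0) (nat_lit 3921555869) (nat_lit 152) (nat_lit 155495448593) (nat_lit 76) (nat_lit 25647897674) (nat_lit 8) (nat_lit 5) (nat_lit 10) (nat_lit 5) (nat_lit 9) (nat_lit 4) (nat_lit 337) (nat_lit 275) (nat_lit 108)) (XT.lf (nat_lit 0) (nat_lit 20469340139) (nat_lit 152) (nat_lit 121574744576) (nat_lit 76) (nat_lit 51027487487) (nat_lit 8) (nat_lit 5) (nat_lit 10) (nat_lit 5) (nat_lit 9) (nat_lit 4) (nat_lit 338) (nat_lit 275) (nat_lit 107)))) (XT.nd (nat_lit 156) (nat_lit 76) (nat_lit 0) (XT.nd (nat_lit 78) (nat_lit 0) (nat_lit 0) (XT.lf (nat_lit 0) (nat_lit 37843861184) (nat_lit 152) (nat_lit 85959122849) (nat_lit 76) (nat_lit 77675625421) (nat_lit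 8) (nat_lit 5) (nat_lit 10) (nat_lit 5) (nat_lit 9) (nat_lit 4) (nat_lit 339) (nat_lit 275) (nat_lit 106)) (XT.lf (nat_lit 0) (nat_lit 56086486913) (nat_lit 152) (nat_lit 48563784311) (nat_lit 76) (nat_lit 105655759425) (nat_lit 8) (nat_lit 5) (nat_lit 10) (nat_lit 5) (nat_lit 9) (nat_lit 4) (nat_lit 340) (nat_lit 275) (nat_lit 105))) (XT.nd (nat_lit 78) (nat_lit 76) (nat_lit 0) (XT.lf (nat_lit 0) (nat_lit 75240652147) (nat_lit 152) (nat_lit 9299692444) (nat_lit 76) (nat_lit 135034508866) (nat_lit 8) (nat_lit 5) (nat_lit 10) (nat_lit 5) (nat_lit 9) (nat_lit 4) (nat_lit 341) (nat_lit 275) (nat_lit 104)) (XT.nd (nat_lit 78) (nat_lit 0) (nat_lit 0) (XT.lf (nat_lit 0) (nat_lit 32982277544) (nat_lit 76) (nat_lit 62884630282) (nat_lit 152) (nat_lit 133414491386) (nat_lit 7) (nat_lit 5) (nat_lit 8) (nat_lit 5) (nat_lit 9) (nat_lit 4) (nat_lit 342) (nat_lit 275) (nat_lit 103)) (XT.lf (nat_lit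 0) (nat_lit 77700260596) (nat_lit 76) (nat_lit 39981158896) (nat_lit 152) (nat_lit 121784006479) (nat_lit 7) (nat_lit 5) (nat_lit 8) (nat_lit 5) (nat_lit 9) (nat_lit 4) (nat_lit 343) (nat_lit 275) (nat_lit 102))))))) (XT.nd (nat_lit 32526) (nat_lit 0) (nat_lit 4104) (XT.nd (nat_lit 312) (nat_lit 76) (nat_lit 0) (XT.nd (nat_lit 156) (nat_lit 0) (nat_lit 0) (XT.nd (nat_lit 78) (nat_lit 0) (nat_lit 0) (XT.lf (nat_lit 0) (nat_lit 124653238265) (nat_lit 76) (nat_lit 15932893149) (nat_lit 152) (nat_lit 109572549750) (nat_lit 7) (nat_lit 5) (nat_lit 8) (nat_lit 5) (nat_lit 9) (nat_lit 4) (nat_lit 344) (nat_lit 275) (nat_lit 101)) (XT.lf (nat_lit 0) (nat_lit 164781049738) (nat_lit 152) (nat_lit 87579092681) (nat_lit 0) (nat_lit 9019208952) (nat_lit 7) (nat_lit 5) (nat_lit 9) (nat_lit 4) (nat_lit 7) (nat_lit 4) (nat_lit 345) (nat_lit 275) (nat_lit 100))) (XT.nd (nat_lit 78) (nat_lit 0) (nat_lit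 0) (XT.lf (nat_lit 0) (nat_lit 190446427091) (nat_lit 152) (nat_lit 48018459569) (nat_lit 0) (nat_lit 34683133526) (nat_lit 7) (nat_lit 5) (nat_lit 9) (nat_lit 4) (nat_lit 7) (nat_lit 4) (nat_lit 346) (nat_lit 275) (nat_lit 99)) (XT.lf (nat_lit 0) (nat_lit 217394614402) (nat_lit 152) (nat_lit 6480594465) (nat_lit 0) (nat_lit 61629937239) (nat_lit 7) (nat_lit 5) (nat_lit 9) (nat_lit 4) (nat_lit 7) (nat_lit 4) (nat_lit 347) (nat_lit 275) (nat_lit 98)))) (XT.nd (nat_lit 31980) (nat_lit 0) (nat_lit 4484) (XT.nd (nat_lit 31902) (nat_lit 0) (nat_lit 4484) (XT.lf (nat_lit 0) (nat_lit 38361200286) (nat_lit 76) (nat_lit 207927499579) (nat_lit 76) (nat_lit 52161504703) (nat_lit 6) (nat_lit 4) (nat_lit 7) (nat_lit 5) (nat_lit 7) (nat_lit 4) (nat_lit 348) (nat_lit 275) (nat_lit 97)) (XT.lf (nat_lit 0) (nat_lit 1229337497) (nat_lit 0) (nat_lit 1229337497) (nat_lit 684) (nat_lit 9493255579) (nat_lit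 65) (nat_lit 5) (nat_lit 65) (nat_lit 3) (nat_lit 74) (nat_lit 3) (nat_lit 276) (nat_lit 276) (nat_lit 168))) (XT.nd (nat_lit 78) (nat_lit 0) (nat_lit 0) (XT.lf (nat_lit 0) (nat_lit 5265626406) (nat_lit 684) (nat_lit 11710710879) (nat_lit 760) (nat_lit 7513437910) (nat_lit 65) (nat_lit 5) (nat_lit 74) (nat_lit 3) (nat_lit 75) (nat_lit 5) (nat_lit 277) (nat_lit 276) (nat_lit 167)) (XT.nd (nat_lit 78) (nat_lit 0) (nat_lit 76) (XT.lf (nat_lit 0) (nat_lit 5665007417) (nat_lit 684) (nat_lit 1533563708) (nat_lit 760) (nat_lit 17904755870) (nat_lit 65) (nat_lit 5) (nat_lit 74) (nat_lit 3) (nat_lit 75) (nat_lit 5) (nat_lit 278) (nat_lit 276) (nat_lit 166)) (XT.lf (nat_lit 0) (nat_lit 6275982701) (nat_lit 684) (nat_lit 16339505165) (nat_lit 760) (nat_lit 3122512579) (nat_lit 66) (nat_lit 5) (nat_lit 75) (nat_lit 5) (nat_lit 76) (nat_lit 5) (nat_lit 279) (nat_lit 276) (nat_lit 165)))))) (XT.nd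 (nat_lit 312) (nat_lit 456) (nat_lit 0) (XT.nd (nat_lit 156) (nat_lit 0) (nat_lit 76) (XT.nd (nat_lit 78) (nat_lit 0) (nat_lit 0) (XT.lf (nat_lit 0) (nat_lit 7055898121) (nat_lit 684) (nat_lit 5595021450) (nat_lit 760) (nat_lit 13746592544) (nat_lit 66) (nat_lit 5) (nat_lit 75) (nat_lit 5) (nat_lit 76) (nat_lit 5) (nat_lit 280) (nat_lit 276) (nat_lit 164)) (XT.lf (nat_lit 76) (nat_lit 5870900082) (nat_lit 0) (nat_lit 2089841481) (nat_lit 760) (nat_lit 19124984160) (nat_lit 67) (nat_lit 5) (nat_lit 66) (nat_lit 5) (nat_lit 76) (nat_lit 5) (nat_lit 281) (nat_lit 276) (nat_lit 163))) (XT.nd (nat_lit 78) (nat_lit 0) (nat_lit 0) (XT.lf (nat_lit 0) (nat_lit 9142155575) (nat_lit 684) (nat_lit 9845264752) (nat_lit 760) (nat_lit 8809385138) (nat_lit 67) (nat_lit 5) (nat_lit 76) (nat_lit 5) (nat_lit 77) (nat_lit 5) (nat_lit 282) (nat_lit 276) (nat_lit 162)) (XT.lf (nat_lit 76) (nat_lit 2122682962)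 (nat_lit 0) (nat_lit 8322135676) (nat_lit 760) (nat_lit 18095532470) (nat_lit 68) (nat_lit 5) (nat_lit 67) (nat_lit 5) (nat_lit 77) (nat_lit 5) (nat_lit 283) (nat_lit 276) (nat_lit 161)))) (XT.nd (nat_lit 156) (nat_lit 608) (nat_lit 0) (XT.nd (nat_lit 78) (nat_lit 0) (nat_lit 0) (XT.lf (nat_lit 0) (nat_lit 12021980423) (nat_lit 684) (nat_lit 14333547990) (nat_lit 760) (nat_lit 2955097182) (nat_lit 68) (nat_lit 5) (nat_lit 77) (nat_lit 5) (nat_lit 78) (nat_lit 5) (nat_lit 284) (nat_lit 276) (nat_lit 160)) (XT.lf (nat_lit 0) (nat_lit 13809656394) (nat_lit 684) (nat_lit 1785461589) (nat_lit 760) (nat_lit 14517731913) (nat_lit 68) (nat_lit 5) (nat_lit 77) (nat_lit 5) (nat_lit 78) (nat_lit 5) (nat_lit 285) (nat_lit 276) (nat_lit 159))) (XT.nd (nat_lit 78) (nat_lit 608) (nat_lit 0) (XT.lf (nat_lit 76) (nat_lit 11762885096) (nat_lit 0) (nat_lit 4102937567) (nat_lit 760) (nat_lit 15080425419)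 (nat_lit 69) (nat_lit 5) (nat_lit 68) (nat_lit 5) (nat_lit 78) (nat_lit 5) (nat_lit 286) (nat_lit 276) (nat_lit 158)) (XT.nd (nat_lit 78) (nat_lit 684) (nat_lit 0) (XT.lf (nat_lit 0) (nat_lit 18175496919) (nat_lit 684) (nat_lit 5897822059) (nat_lit 76) (nat_lit 7740479356) (nat_lit 69) (nat_lit 5) (nat_lit 78) (nat_lit 5) (nat_lit 70) (nat_lit 5) (nat_lit 287) (nat_lit 276) (nat_lit 157)) (XT.lf (nat_lit 0) (nat_lit 8244987319) (nat_lit 684) (nat_lit 12547492644) (nat_lit 760) (nat_lit 11922671203) (nat_lit 60) (nat_lit 5) (nat_lit 69) (nat_lit 5) (nat_lit 70) (nat_lit 5) (nat_lit 288) (nat_lit 276) (nat_lit 156))))))))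
noncomputable def xc212 : XT := (XT.nd (nat_lit 1326) (nat_lit 1368) (nat_lit 0) (XT.nd (nat_lit 624) (nat_lit 1064) (nat_lit 0) (XT.nd (nat_lit 312) (nat_lit 380) (nat_lit 0) (XT.nd (nat_lit 156) (nat_lit 304) (nat_lit 0) (XT.nd (nat_lit 78) (nat_lit 304) (nat_lit 0) (XT.lf (nat_lit 0) (nat_lit 23296116508) (nat_lit 684) (nat_lit 340056945) (nat_lit 760) (nat_lit 10020620667) (nat_lit 60) (nat_lit 5) (nat_lit 69) (nat_lit 5) (nat_lit 70) (nat_lit 5) (nat_lit 289) (nat_lit 276) (nat_lit 155)) (XT.lf (nat_lit 0) (nat_lit 4396565724) (nat_lit 304) (nat_lit 22485118132) (nat_lit 380) (nat_lit 7750868559) (nat_lit 56) (nat_lit 5) (nat_lit 60) (nat_lit 5) (nat_lit 61) (nat_lit 5) (nat_lit 290) (nat_lit 276) (nat_lit 154))) (XT.nd (nat_lit 78) (nat_lit 304) (nat_lit 0) (XT.lf (nat_lit 0) (nat_lit 20242047838) (nat_lit 304) (nat_lit 10224673105) (nat_lit 380) (nat_lit 5181529224) (nat_lit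 56) (nat_lit 5) (nat_lit 60) (nat_lit 5) (nat_lit 61) (nat_lit 5) (nat_lit 291) (nat_lit 276) (nat_lit 153)) (XT.lf (nat_lit 0) (nat_lit 124102780) (nat_lit 304) (nat_lit 34146681094) (nat_lit 380) (nat_lit 2441973660) (nat_lit 52) (nat_lit 5) (nat_lit 56) (nat_lit 5) (nat_lit 57) (nat_lit 5) (nat_lit 292) (nat_lit 276) (nat_lit 152)))) (XT.nd (nat_lit 156) (nat_lit 304) (nat_lit 0) (XT.nd (nat_lit 78) (nat_lit 0) (nat_lit 0) (XT.lf (nat_lit 0) (nat_lit 849982936) (nat_lit 380) (nat_lit 21033987183) (nat_lit 76) (nat_lit 15924726502) (nat_lit 51) (nat_lit 5) (nat_lit 56) (nat_lit 5) (nat_lit 52) (nat_lit 5) (nat_lit 293) (nat_lit 276) (nat_lit 151)) (XT.lf (nat_lit 0) (nat_lit 4221162045) (nat_lit 380) (nat_lit 4745099221) (nat_lit 76) (nat_lit 29991346829) (nat_lit 51) (nat_lit 5) (nat_lit 56) (nat_lit 5) (nat_lit 52) (nat_lit 5) (nat_lit 294) (nat_lit 276) (nat_lit 150))) (XT.nd (nat_lit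 78) (nat_lit 0) (nat_lit 0) (XT.lf (nat_lit 0) (nat_lit 8032063034) (nat_lit 380) (nat_lit 27465783943) (nat_lit 76) (nat_lit 4652571066) (nat_lit 47) (nat_lit 5) (nat_lit 52) (nat_lit 5) (nat_lit 48) (nat_lit 5) (nat_lit 295) (nat_lit 276) (nat_lit 149)) (XT.lf (nat_lit 0) (nat_lit 12259119361) (nat_lit 380) (nat_lit 10399983811) (nat_lit 76) (nat_lit 18732495324) (nat_lit 47) (nat_lit 5) (nat_lit 52) (nat_lit 5) (nat_lit 48) (nat_lit 5) (nat_lit 296) (nat_lit 276) (nat_lit 148))))) (XT.nd (nat_lit 312) (nat_lit 532) (nat_lit 0) (XT.nd (nat_lit 156) (nat_lit 228) (nat_lit 0) (XT.nd (nat_lit 78) (nat_lit 0) (nat_lit 0) (XT.lf (nat_lit 0) (nat_lit 7764355828) (nat_lit 304) (nat_lit 9051485995) (nat_lit 380) (nat_lit 25873090504) (nat_lit 43) (nat_lit 5) (nat_lit 47) (nat_lit 5) (nat_lit 48) (nat_lit 5) (nat_lit 297) (nat_lit 276) (nat_lit 147)) (XT.lf (nat_lit 0) (nat_lit 21858345637)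 (nat_lit 380) (nat_lit 16932344430) (nat_lit 76) (nat_lit 5247555063) (nat_lit 43) (nat_lit 5) (nat_lit 48) (nat_lit 5) (nat_lit 44) (nat_lit 5) (nat_lit 298) (nat_lit 276) (nat_lit 146))) (XT.nd (nat_lit 78) (nat_lit 0) (nat_lit 0) (XT.lf (nat_lit 0) (nat_lit 1867701441) (nat_lit 228) (nat_lit 25460125399) (nat_lit 304) (nat_lit 18118463213) (nat_lit 40) (nat_lit 5) (nat_lit 43) (nat_lit 5) (nat_lit 44) (nat_lit 5) (nat_lit 299) (nat_lit 276) (nat_lit 145)) (XT.lf (nat_lit 0) (nat_lit 22192462944) (nat_lit 228) (nat_lit 11162462951) (nat_lit 304) (nat_lit 13555612794) (nat_lit 40) (nat_lit 5) (nat_lit 43) (nat_lit 5) (nat_lit 44) (nat_lit 5) (nat_lit 300) (nat_lit 276) (nat_lit 144)))) (XT.nd (nat_lit 156) (nat_lit 304) (nat_lit 0) (XT.nd (nat_lit 78) (nat_lit 228) (nat_lit 0) (XT.lf (nat_lit 0) (nat_lit 39740993470) (nat_lit 304) (nat_lit 4977762632) (nat_lit 76) (nat_lit 3726371219)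 (nat_lit 40) (nat_lit 5) (nat_lit 44) (nat_lit 5) (nat_lit 41) (nat_lit 5) (nat_lit 301) (nat_lit 276) (nat_lit 143)) (XT.lf (nat_lit 0) (nat_lit 16078211631) (nat_lit 228) (nat_lit 30799791824) (nat_lit 304) (nat_lit 3156867830) (nat_lit 37) (nat_lit 5) (nat_lit 40) (nat_lit 5) (nat_lit 41) (nat_lit 5) (nat_lit 302) (nat_lit 276) (nat_lit 142))) (XT.nd (nat_lit 78) (nat_lit 228) (nat_lit 0) (XT.lf (nat_lit 0) (nat_lit 2665703716) (nat_lit 304) (nat_lit 13386122986) (nat_lit 76) (nat_lit 35646033942) (nat_lit 36) (nat_lit 5) (nat_lit 40) (nat_lit 5) (nat_lit 37) (nat_lit 5) (nat_lit 303) (nat_lit 276) (nat_lit 141)) (XT.nd (nat_lit 78) (nat_lit 0) (nat_lit 0) (XT.lf (nat_lit 0) (nat_lit 8428079128) (nat_lit 228) (nat_lit 374575810) (nat_lit 304) (nat_lit 44632296592) (nat_lit 33) (nat_lit 5) (nat_lit 36) (nat_lit 5) (nat_lit 37) (nat_lit 5) (nat_lit 304) (nat_lit 276) (nat_lit 140))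 (XT.lf (nat_lit 0) (nat_lit 15725836137) (nat_lit 304) (nat_lit 23707627028) (nat_lit 76) (nat_lit 15801471133) (nat_lit 33) (nat_lit 5) (nat_lit 37) (nat_lit 5) (nat_lit 34) (nat_lit 5) (nat_lit 305) (nat_lit 276) (nat_lit 139))))))) (XT.nd (nat_lit 702) (nat_lit 532) (nat_lit 0) (XT.nd (nat_lit 312) (nat_lit 456) (nat_lit 0) (XT.nd (nat_lit 156) (nat_lit 152) (nat_lit 0) (XT.nd (nat_lit 78) (nat_lit 228) (nat_lit 0) (XT.lf (nat_lit 0) (nat_lit 22999230897) (nat_lit 304) (nat_lit 1352340988) (nat_lit 76) (nat_lit 32773147746) (nat_lit 33) (nat_lit 5) (nat_lit 37) (nat_lit 5) (nat_lit 34) (nat_lit 5) (nat_lit 306) (nat_lit 276) (nat_lit 138)) (XT.lf (nat_lit 0) (nat_lit 22849383743) (nat_lit 228) (nat_lit 8141667818) (nat_lit 304) (nat_lit 28100210719) (nat_lit 30) (nat_lit 5) (nat_lit 33) (nat_lit 5) (nat_lit 34) (nat_lit 5) (nat_lit 307) (nat_lit 276) (nat_lit 137))) (XT.nd (nat_lit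 78) (nat_lit 152) (nat_lit 0) (XT.lf (nat_lit 0) (nat_lit 39542419807) (nat_lit 304) (nat_lit 12988536913) (nat_lit 76) (nat_lit 8617183095) (nat_lit 30) (nat_lit 5) (nat_lit 34) (nat_lit 5) (nat_lit 31) (nat_lit 5) (nat_lit 308) (nat_lit 276) (nat_lit 136)) (XT.lf (nat_lit 0) (nat_lit 11664778462) (nat_lit 152) (nat_lit 37170317054) (nat_lit 228) (nat_lit 14457084073) (nat_lit 28) (nat_lit 5) (nat_lit 30) (nat_lit 5) (nat_lit 31) (nat_lit 5) (nat_lit 309) (nat_lit 276) (nat_lit 135)))) (XT.nd (nat_lit 156) (nat_lit 380) (nat_lit 0) (XT.nd (nat_lit 78) (nat_lit 76) (nat_lit 0) (XT.lf (nat_lit 0) (nat_lit 37999164591) (nat_lit 152) (nat_lit 20811405451) (nat_lit 228) (nat_lit 6721948118) (nat_lit 28) (nat_lit 5) (nat_lit 30) (nat_lit 5) (nat_lit 31) (nat_lit 5) (nat_lit 310) (nat_lit 276) (nat_lit 134)) (XT.lf (nat_lit 0) (nat_lit 1353388550) (nat_lit 228) (nat_lit 2258930437) (nat_lit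 76) (nat_lit 64271553865) (nat_lit 27) (nat_lit 5) (nat_lit 30) (nat_lit 5) (nat_lit 28) (nat_lit 5) (nat_lit 311) (nat_lit 276) (nat_lit 133))) (XT.nd (nat_lit 78) (nat_lit 152) (nat_lit 0) (XT.lf (nat_lit 0) (nat_lit 10228449135) (nat_lit 304) (nat_lit 45595898456) (nat_lit 76) (nat_lit 14491849337) (nat_lit 24) (nat_lit 5) (nat_lit 28) (nat_lit 5) (nat_lit 25) (nat_lit 5) (nat_lit 312) (nat_lit 276) (nat_lit 132)) (XT.nd (nat_lit 78) (nat_lit 152) (nat_lit 0) (XT.lf (nat_lit 0) (nat_lit 19643730897) (nat_lit 304) (nat_lit 19803544802) (nat_lit 76) (nat_lit 33418042264) (nat_lit 24) (nat_lit 5) (nat_lit 28) (nat_lit 5) (nat_lit 25) (nat_lit 5) (nat_lit 313) (nat_lit 276) (nat_lit 131)) (XT.lf (nat_lit 0) (nat_lit 7516734014) (nat_lit 152) (nat_lit 22128844374) (nat_lit 228) (nat_lit 45890530547) (nat_lit 22) (nat_lit 5) (nat_lit 24) (nat_lit 5) (nat_lit 25) (nat_lit 5) (nat_lit 314)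 (nat_lit 276) (nat_lit 130)))))) (XT.nd (nat_lit 312) (nat_lit 380) (nat_lit 0) (XT.nd (nat_lit 156) (nat_lit 152) (nat_lit 0) (XT.nd (nat_lit 78) (nat_lit 0) (nat_lit 0) (XT.lf (nat_lit 0) (nat_lit 36888322871) (nat_lit 152) (nat_lit 3593061485) (nat_lit 228) (nat_lit 37842365568) (nat_lit 22) (nat_lit 5) (nat_lit 24) (nat_lit 5) (nat_lit 25) (nat_lit 5) (nat_lit 315) (nat_lit 276) (nat_lit 129)) (XT.lf (nat_lit 0) (nat_lit 52105293131) (nat_lit 228) (nat_lit 13772246081) (nat_lit 76) (nat_lit 15360921724) (nat_lit 22) (nat_lit 5) (nat_lit 25) (nat_lit 5) (nat_lit 23) (nat_lit 5) (nat_lit 316) (nat_lit 276) (nat_lit 128))) (XT.nd (nat_lit 78) (nat_lit 0) (nat_lit 0) (XT.lf (nat_lit 0) (nat_lit 15716112907) (nat_lit 152) (nat_lit 48897173910) (nat_lit 228) (nat_lit 19670479633) (nat_lit 20) (nat_lit 5) (nat_lit 22) (nat_lit 5) (nat_lit 23) (nat_lit 5) (nat_lit 317) (nat_lit 276) (nat_lit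 127)) (XT.lf (nat_lit 0) (nat_lit 47154972728) (nat_lit 152) (nat_lit 30823595220) (nat_lit 228) (nat_lit 9491178165) (nat_lit 20) (nat_lit 5) (nat_lit 22) (nat_lit 5) (nat_lit 23) (nat_lit 5) (nat_lit 318) (nat_lit 276) (nat_lit 126)))) (XT.nd (nat_lit 156) (nat_lit 152) (nat_lit 0) (XT.nd (nat_lit 78) (nat_lit 152) (nat_lit 0) (XT.lf (nat_lit 0) (nat_lit 1157462443) (nat_lit 228) (nat_lit 10669945835) (nat_lit 76) (nat_lit 78986750527) (nat_lit 19) (nat_lit 5) (nat_lit 22) (nat_lit 5) (nat_lit 20) (nat_lit 5) (nat_lit 319) (nat_lit 276) (nat_lit 125)) (XT.lf (nat_lit 0) (nat_lit 12480395008) (nat_lit 228) (nat_lit 73465552879) (nat_lit 76) (nat_lit 8349026123) (nat_lit 17) (nat_lit 5) (nat_lit 20) (nat_lit 5) (nat_lit 18) (nat_lit 5) (nat_lit 320) (nat_lit 276) (nat_lit 124))) (XT.nd (nat_lit 78) (nat_lit 152) (nat_lit 0) (XT.lf (nat_lit 0) (nat_lit 24745799774) (nat_lit 228) (nat_lit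 43865389950) (nat_lit 76) (nat_lit 29319826654) (nat_lit 17) (nat_lit 5) (nat_lit 20) (nat_lit 5) (nat_lit 18) (nat_lit 5) (nat_lit 321) (nat_lit 276) (nat_lit 123)) (XT.nd (nat_lit 78) (nat_lit 152) (nat_lit 0) (XT.lf (nat_lit 0) (nat_lit 37623303953) (nat_lit 228) (nat_lit 12787060437) (nat_lit 76) (nat_lit 51338557573) (nat_lit 17) (nat_lit 5) (nat_lit 20) (nat_lit 5) (nat_lit 18) (nat_lit 5) (nat_lit 322) (nat_lit 276) (nat_lit 122)) (XT.lf (nat_lit 0) (nat_lit 20499545149) (nat_lit 152) (nat_lit 30964078468) (nat_lit 228) (nat_lit 54278154631) (nat_lit 15) (nat_lit 5) (nat_lit 17) (nat_lit 5) (nat_lit 18) (nat_lit 5) (nat_lit 323) (nat_lit 276) (nat_lit 121))))))))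
noncomputable def xc213 : XT := (XT.nd (nat_lit 1326) (nat_lit 76) (nat_lit 0) (XT.nd (nat_lit 624) (nat_lit 228) (nat_lit 0) (XT.nd (nat_lit 312) (nat_lit 228) (nat_lit 0) (XT.nd (nat_lit 156) (nat_lit 76) (nat_lit 0) (XT.nd (nat_lit 78) (nat_lit 0) (nat_lit 0) (XT.lf (nat_lit 0) (nat_lit 55892693300) (nat_lit 152) (nat_lit 10318732105) (nat_lit 228) (nat_lit 43712080953) (nat_lit 15) (nat_lit 5) (nat_lit 17) (nat_lit 5) (nat_lit 18) (nat_lit 5) (nat_lit 324) (nat_lit 276) (nat_lit 120)) (XT.lf (nat_lit 0) (nat_lit 81872914729) (nat_lit 228) (nat_lit 21437853994) (nat_lit 76) (nat_lit 10994739487) (nat_lit 15) (nat_lit 5) (nat_lit 18) (nat_lit 5) (nat_lit 16) (nat_lit 4) (nat_lit 325) (nat_lit 276) (nat_lit 119))) (XT.nd (nat_lit 78) (nat_lit 0) (nat_lit 0) (XT.lf (nat_lit 0) (nat_lit 13031061196) (nat_lit 76) (nat_lit 85658031556) (nat_lit 152) (nat_lit 20198938793) (nat_lit 14) (nat_lit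 5) (nat_lit 15) (nat_lit 5) (nat_lit 16) (nat_lit 4) (nat_lit 326) (nat_lit 276) (nat_lit 118)) (XT.lf (nat_lit 0) (nat_lit 49966114336) (nat_lit 76) (nat_lit 66742051844) (nat_lit 152) (nat_lit 6973412545) (nat_lit 14) (nat_lit 5) (nat_lit 15) (nat_lit 5) (nat_lit 16) (nat_lit 4) (nat_lit 327) (nat_lit 276) (nat_lit 117)))) (XT.nd (nat_lit 156) (nat_lit 152) (nat_lit 0) (XT.nd (nat_lit 78) (nat_lit 0) (nat_lit 0) (XT.lf (nat_lit 0) (nat_lit 6691173757) (nat_lit 152) (nat_lit 40076359949) (nat_lit 76) (nat_lit 81941921735) (nat_lit 13) (nat_lit 5) (nat_lit 15) (nat_lit 5) (nat_lit 14) (nat_lit 5) (nat_lit 328) (nat_lit 276) (nat_lit 116)) (XT.lf (nat_lit 0) (nat_lit 20803737365) (nat_lit 152) (nat_lit 4871084643) (nat_lit 76) (nat_lit 108308234784) (nat_lit 13) (nat_lit 5) (nat_lit 15) (nat_lit 5) (nat_lit 14) (nat_lit 5) (nat_lit 329) (nat_lit 276) (nat_lit 115))) (XT.nd (nat_lit 78)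 (nat_lit 0) (nat_lit 0) (XT.lf (nat_lit 0) (nat_lit 33154199562) (nat_lit 152) (nat_lit 2984502780) (nat_lit 228) (nat_lit 103355798857) (nat_lit 11) (nat_lit 5) (nat_lit 13) (nat_lit 5) (nat_lit 14) (nat_lit 5) (nat_lit 330) (nat_lit 276) (nat_lit 114)) (XT.lf (nat_lit 0) (nat_lit 52648792296) (nat_lit 228) (nat_lit 72355669286) (nat_lit 76) (nat_lit 20256638977) (nat_lit 11) (nat_lit 5) (nat_lit 14) (nat_lit 5) (nat_lit 12) (nat_lit 4) (nat_lit 331) (nat_lit 276) (nat_lit 113))))) (XT.nd (nat_lit 312) (nat_lit 152) (nat_lit 0) (XT.nd (nat_lit 156) (nat_lit 0) (nat_lit 0) (XT.nd (nat_lit 78) (nat_lit 76) (nat_lit 0) (XT.lf (nat_lit 0) (nat_lit 70032507494) (nat_lit 228) (nat_lit 36722073353) (nat_lit 76) (nat_lit 44559044497) (nat_lit 11) (nat_lit 5) (nat_lit 14) (nat_lit 5) (nat_lit 12) (nat_lit 4) (nat_lit 332) (nat_lit 276) (nat_lit 112)) (XT.lf (nat_lit 0) (nat_lit 714802657) (nat_lit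 76) (nat_lit 87580998697) (nat_lit 152) (nat_lit 69372456793) (nat_lit 10) (nat_lit 5) (nat_lit 11) (nat_lit 5) (nat_lit 12) (nat_lit 4) (nat_lit 333) (nat_lit 276) (nat_lit 111))) (XT.nd (nat_lit 78) (nat_lit 0) (nat_lit 0) (XT.lf (nat_lit 0) (nat_lit 41297172678) (nat_lit 76) (nat_lit 66796243043) (nat_lit 152) (nat_lit 56216150434) (nat_lit 10) (nat_lit 5) (nat_lit 11) (nat_lit 5) (nat_lit 12) (nat_lit 4) (nat_lit 334) (nat_lit 276) (nat_lit 110)) (XT.lf (nat_lit 0) (nat_lit 83907463813) (nat_lit 76) (nat_lit 44972732453) (nat_lit 152) (nat_lit 42402780316) (nat_lit 10) (nat_lit 5) (nat_lit 11) (nat_lit 5) (nat_lit 12) (nat_lit 4) (nat_lit 335) (nat_lit 276) (nat_lit 109)))) (XT.nd (nat_lit 156) (nat_lit 152) (nat_lit 0) (XT.nd (nat_lit 78) (nat_lit 0) (nat_lit 0) (XT.lf (nat_lit 0) (nat_lit 128647129136) (nat_lit 76) (nat_lit 22058506187) (nat_lit 152) (nat_lit 27899457462) (nat_lit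 10) (nat_lit 5) (nat_lit 11) (nat_lit 5) (nat_lit 12) (nat_lit 4) (nat_lit 336) (nat_lit 276) (nat_lit 108)) (XT.lf (nat_lit 0) (nat_lit 173652939340) (nat_lit 152) (nat_lit 10701897831) (nat_lit 0) (nat_lit 1936949148) (nat_lit 10) (nat_lit 5) (nat_lit 12) (nat_lit 4) (nat_lit 10) (nat_lit 4) (nat_lit 337) (nat_lit 276) (nat_lit 107))) (XT.nd (nat_lit 78) (nat_lit 0) (nat_lit 0) (XT.lf (nat_lit 0) (nat_lit 4137700114) (nat_lit 152) (nat_lit 163235851373) (nat_lit 76) (nat_lit 26943559766) (nat_lit 8) (nat_lit 5) (nat_lit 10) (nat_lit 5) (nat_lit 9) (nat_lit 4) (nat_lit 338) (nat_lit 276) (nat_lit 106)) (XT.nd (nat_lit 78) (nat_lit 0) (nat_lit 0) (XT.lf (nat_lit 0) (nat_lit 21511918052) (nat_lit 152) (nat_lit 127620748805) (nat_lit 76) (nat_lit 53591497297) (nat_lit 8) (nat_lit 5) (nat_lit 10) (nat_lit 5) (nat_lit 9) (nat_lit 4) (nat_lit 339) (nat_lit 276) (nat_lit 105)) (XT.lf (nat_lit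 0) (nat_lit 39754255107) (nat_lit 152) (nat_lit 90225904705) (nat_lit 76) (nat_lit 81571440441) (nat_lit 8) (nat_lit 5) (nat_lit 10) (nat_lit 5) (nat_lit 9) (nat_lit 4) (nat_lit 340) (nat_lit 276) (nat_lit 104))))))) (XT.nd (nat_lit 32604) (nat_lit 0) (nat_lit 4408) (XT.nd (nat_lit 312) (nat_lit 0) (nat_lit 0) (XT.nd (nat_lit 156) (nat_lit 76) (nat_lit 0) (XT.nd (nat_lit 78) (nat_lit 0) (nat_lit 0) (XT.lf (nat_lit 0) (nat_lit 58908145414) (nat_lit 152) (nat_lit 50962283731) (nat_lit 76) (nat_lit 110950008110) (nat_lit 8) (nat_lit 5) (nat_lit 10) (nat_lit 5) (nat_lit 9) (nat_lit 4) (nat_lit 341) (nat_lit 276) (nat_lit 103)) (XT.lf (nat_lit 0) (nat_lit 79019193474) (nat_lit 152) (nat_lit 9736401071) (nat_lit 76) (nat_lit 141797149274) (nat_lit 8) (nat_lit 5) (nat_lit 10) (nat_lit 5) (nat_lit 9) (nat_lit 4) (nat_lit 342) (nat_lit 276) (nat_lit 102))) (XT.nd (nat_lit 78) (nat_lit 0) (nat_lit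 0) (XT.lf (nat_lit 0) (nat_lit 34659211353) (nat_lit 76) (nat_lit 66017198802) (nat_lit 152) (nat_lit 140068225576) (nat_lit 7) (nat_lit 5) (nat_lit 8) (nat_lit 5) (nat_lit 9) (nat_lit 4) (nat_lit 343) (nat_lit 276) (nat_lit 101)) (XT.lf (nat_lit 0) (nat_lit 81611768798) (nat_lit 76) (nat_lit 41969109227) (nat_lit 152) (nat_lit 127857025489) (nat_lit 7) (nat_lit 5) (nat_lit 8) (nat_lit 5) (nat_lit 9) (nat_lit 4) (nat_lit 344) (nat_lit 276) (nat_lit 100)))) (XT.nd (nat_lit 156) (nat_lit 0) (nat_lit 0) (XT.nd (nat_lit 78) (nat_lit 0) (nat_lit 0) (XT.lf (nat_lit 0) (nat_lit 130911133677) (nat_lit 76) (nat_lit 16718959127) (nat_lit 152) (nat_lit 115035766462) (nat_lit 7) (nat_lit 5) (nat_lit 8) (nat_lit 5) (nat_lit 9) (nat_lit 4) (nat_lit 345) (nat_lit 276) (nat_lit 99)) (XT.lf (nat_lit 0) (nat_lit 173034216492) (nat_lit 152) (nat_lit 91933452751) (nat_lit 0) (nat_lit 9479921872) (nat_lit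 7) (nat_lit 5) (nat_lit 9) (nat_lit 4) (nat_lit 7) (nat_lit 4) (nat_lit 346) (nat_lit 276) (nat_lit 98))) (XT.nd (nat_lit 78) (nat_lit 0) (nat_lit 0) (XT.lf (nat_lit 0) (nat_lit 199982190605) (nat_lit 152) (nat_lit 50395959153) (nat_lit 0) (nat_lit 36426578272) (nat_lit 7) (nat_lit 5) (nat_lit 9) (nat_lit 4) (nat_lit 7) (nat_lit 4) (nat_lit 347) (nat_lit 276) (nat_lit 97)) (XT.nd (nat_lit 31980) (nat_lit 0) (nat_lit 4408) (XT.lf (nat_lit 0) (nat_lit 228277147179) (nat_lit 152) (nat_lit 6782316194) (nat_lit 0) (nat_lit 64720279881) (nat_lit 7) (nat_lit 5) (nat_lit 9) (nat_lit 4) (nat_lit 7) (nat_lit 4) (nat_lit 348) (nat_lit 276) (nat_lit 96)) (XT.lf (nat_lit 0) (nat_lit 1342070364) (nat_lit 0) (nat_lit 1342070364) (nat_lit 684) (nat_lit 9859850912) (nat_lit 65) (nat_lit 5) (nat_lit 65) (nat_lit 3) (nat_lit 74) (nat_lit 3) (nat_lit 277) (nat_lit 277) (nat_lit 166)))))) (XT.nd (nat_lit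 312) (nat_lit 0) (nat_lit 76) (XT.nd (nat_lit 156) (nat_lit 0) (nat_lit 76) (XT.nd (nat_lit 78) (nat_lit 0) (nat_lit 0) (XT.lf (nat_lit 0) (nat_lit 5722682164) (nat_lit 684) (nat_lit 12186528595) (nat_lit 760) (nat_lit 7794585689) (nat_lit 65) (nat_lit 5) (nat_lit 74) (nat_lit 3) (nat_lit 75) (nat_lit 5) (nat_lit 278) (nat_lit 277) (nat_lit 165)) (XT.lf (nat_lit 0) (nat_lit 6132804871) (nat_lit 684) (nat_lit 1505748725) (nat_lit 760) (nat_lit 18709970696) (nat_lit 65) (nat_lit 5) (nat_lit 74) (nat_lit 3) (nat_lit 75) (nat_lit 5) (nat_lit 279) (nat_lit 277) (nat_lit 164))) (XT.nd (nat_lit 78) (nat_lit 0) (nat_lit 0) (XT.lf (nat_lit 0) (nat_lit 6765982046) (nat_lit 684) (nat_lit 17042934000) (nat_lit 760) (nat_lit 3206468031) (nat_lit 66) (nat_lit 5) (nat_lit 75) (nat_lit 5) (nat_lit 76) (nat_lit 5) (nat_lit 280) (nat_lit 277) (nat_lit 163)) (XT.lf (nat_lit 0) (nat_lit 7576502750) (nat_lit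 684) (nat_lit 5766633072) (nat_lit 760) (nat_lit 14365188669) (nat_lit 66) (nat_lit 5) (nat_lit 75) (nat_lit 5) (nat_lit 76) (nat_lit 5) (nat_lit 281) (nat_lit 277) (nat_lit 162)))) (XT.nd (nat_lit 156) (nat_lit 0) (nat_lit 76) (XT.nd (nat_lit 78) (nat_lit 0) (nat_lit 76) (XT.lf (nat_lit 76) (nat_lit 6270840351) (nat_lit 0) (nat_lit 2249418202) (nat_lit 760) (nat_lit 19911038753) (nat_lit 67) (nat_lit 5) (nat_lit 66) (nat_lit 5) (nat_lit 76) (nat_lit 5) (nat_lit 282) (nat_lit 277) (nat_lit 161)) (XT.lf (nat_lit 0) (nat_lit 9752234674) (nat_lit 684) (nat_lit 10227080376) (nat_lit 760) (nat_lit 9199071924) (nat_lit 67) (nat_lit 5) (nat_lit 76) (nat_lit 5) (nat_lit 77) (nat_lit 5) (nat_lit 283) (nat_lit 277) (nat_lit 160))) (XT.nd (nat_lit 78) (nat_lit 0) (nat_lit 76) (XT.lf (nat_lit 76) (nat_lit 2337483311) (nat_lit 0) (nat_lit 8776959815) (nat_lit 760) (nat_lit 18844975219) (nat_lit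 68) (nat_lit 5) (nat_lit 67) (nat_lit 5) (nat_lit 77) (nat_lit 5) (nat_lit 284) (nat_lit 277) (nat_lit 159)) (XT.nd (nat_lit 78) (nat_lit 0) (nat_lit 0) (XT.lf (nat_lit 0) (nat_lit 12762869034) (nat_lit 684) (nat_lit 14938586337) (nat_lit 760) (nat_lit 3067158557) (nat_lit 68) (nat_lit 5) (nat_lit 77) (nat_lit 5) (nat_lit 78) (nat_lit 5) (nat_lit 285) (nat_lit 277) (nat_lit 158)) (XT.lf (nat_lit 0) (nat_lit 14633272157) (nat_lit 684) (nat_lit 1768411761) (nat_lit 760) (nat_lit 15209624714) (nat_lit 68) (nat_lit 5) (nat_lit 77) (nat_lit 5) (nat_lit 78) (nat_lit 5) (nat_lit 286) (nat_lit 277) (nat_lit 157))))))))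
noncomputable def xc214 : XT := (XT.nd (nat_lit 1326) (nat_lit 1520) (nat_lit 0) (XT.nd (nat_lit 624) (nat_lit 1064) (nat_lit 0) (XT.nd (nat_lit 312) (nat_lit 684) (nat_lit 0) (XT.nd (nat_lit 156) (nat_lit 608) (nat_lit 0) (XT.nd (nat_lit 78) (nat_lit 0) (nat_lit 76) (XT.lf (nat_lit 76) (nat_lit 12455637373) (nat_lit 0) (nat_lit 4331902927) (nat_lit 760) (nat_lit 15699096851) (nat_lit 69) (nat_lit 5) (nat_lit 68) (nat_lit 5) (nat_lit 78) (nat_lit 5) (nat_lit 287) (nat_lit 277) (nat_lit 156)) (XT.lf (nat_lit 0) (nat_lit 19206228555) (nat_lit 684) (nat_lit 6086138656) (nat_lit 76) (nat_lit 8105545094) (nat_lit 69) (nat_lit 5) (nat_lit 78) (nat_lit 5) (nat_lit 70) (nat_lit 5) (nat_lit 288) (nat_lit 277) (nat_lit 155))) (XT.nd (nat_lit 78) (nat_lit 0) (nat_lit 0) (XT.lf (nat_lit 0) (nat_lit 8762092248) (nat_lit 684) (nat_lit 13187798127) (nat_lit 760) (nat_lit 12394673690) (nat_lit 60)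 (nat_lit 5) (nat_lit 69) (nat_lit 5) (nat_lit 70) (nat_lit 5) (nat_lit 289) (nat_lit 277) (nat_lit 154)) (XT.lf (nat_lit 0) (nat_lit 24560784774) (nat_lit 684) (nat_lit 369374889) (nat_lit 760) (nat_lit 10403431631) (nat_lit 60) (nat_lit 5) (nat_lit 69) (nat_lit 5) (nat_lit 70) (nat_lit 5) (nat_lit 290) (nat_lit 277) (nat_lit 153)))) (XT.nd (nat_lit 156) (nat_lit 380) (nat_lit 0) (XT.nd (nat_lit 78) (nat_lit 0) (nat_lit 0) (XT.lf (nat_lit 0) (nat_lit 4720780011) (nat_lit 304) (nat_lit 23613270428) (nat_lit 380) (nat_lit 8024302472) (nat_lit 56) (nat_lit 5) (nat_lit 60) (nat_lit 5) (nat_lit 61) (nat_lit 5) (nat_lit 291) (nat_lit 277) (nat_lit 152)) (XT.lf (nat_lit 0) (nat_lit 21353565468) (nat_lit 304) (nat_lit 10739617607) (nat_lit 380) (nat_lit 5331929956) (nat_lit 56) (nat_lit 5) (nat_lit 60) (nat_lit 5) (nat_lit 61) (nat_lit 5) (nat_lit 292) (nat_lit 277) (nat_lit 151))) (XT.nd (nat_lit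 78) (nat_lit 76) (nat_lit 0) (XT.lf (nat_lit 0) (nat_lit 233636821) (nat_lit 304) (nat_lit 35850459642) (nat_lit 380) (nat_lit 2458935670) (nat_lit 52) (nat_lit 5) (nat_lit 56) (nat_lit 5) (nat_lit 57) (nat_lit 5) (nat_lit 293) (nat_lit 277) (nat_lit 150)) (XT.lf (nat_lit 0) (nat_lit 989407458) (nat_lit 380) (nat_lit 21983733492) (nat_lit 76) (nat_lit 16720804453) (nat_lit 51) (nat_lit 5) (nat_lit 56) (nat_lit 5) (nat_lit 52) (nat_lit 5) (nat_lit 294) (nat_lit 277) (nat_lit 149))))) (XT.nd (nat_lit 312) (nat_lit 456) (nat_lit 0) (XT.nd (nat_lit 156) (nat_lit 304) (nat_lit 0) (XT.nd (nat_lit 78) (nat_lit 304) (nat_lit 0) (XT.lf (nat_lit 0) (nat_lit 4524530029) (nat_lit 380) (nat_lit 4885256039) (nat_lit 76) (nat_lit 31490763337) (nat_lit 51) (nat_lit 5) (nat_lit 56) (nat_lit 5) (nat_lit 52) (nat_lit 5) (nat_lit 295) (nat_lit 277) (nat_lit 148)) (XT.lf (nat_lit 0) (nat_lit 8523167530)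 (nat_lit 380) (nat_lit 28738858270) (nat_lit 76) (nat_lit 4891129887) (nat_lit 47) (nat_lit 5) (nat_lit 52) (nat_lit 5) (nat_lit 48) (nat_lit 5) (nat_lit 296) (nat_lit 277) (nat_lit 147))) (XT.nd (nat_lit 78) (nat_lit 304) (nat_lit 0) (XT.lf (nat_lit 0) (nat_lit 12957314705) (nat_lit 380) (nat_lit 10824540268) (nat_lit 76) (nat_lit 19674767964) (nat_lit 47) (nat_lit 5) (nat_lit 52) (nat_lit 5) (nat_lit 48) (nat_lit 5) (nat_lit 297) (nat_lit 277) (nat_lit 146)) (XT.lf (nat_lit 0) (nat_lit 8246476954) (nat_lit 304) (nat_lit 9492803412) (nat_lit 380) (nat_lit 27079686716) (nat_lit 43) (nat_lit 5) (nat_lit 47) (nat_lit 5) (nat_lit 48) (nat_lit 5) (nat_lit 298) (nat_lit 277) (nat_lit 145)))) (XT.nd (nat_lit 156) (nat_lit 228) (nat_lit 0) (XT.nd (nat_lit 78) (nat_lit 228) (nat_lit 0) (XT.lf (nat_lit 0) (nat_lit 23030141208) (nat_lit 380) (nat_lit 17685495514) (nat_lit 76) (nat_lit 5520310523)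 (nat_lit 43) (nat_lit 5) (nat_lit 48) (nat_lit 5) (nat_lit 44) (nat_lit 5) (nat_lit 299) (nat_lit 277) (nat_lit 144)) (XT.lf (nat_lit 0) (nat_lit 2053045132) (nat_lit 228) (nat_lit 26717730961) (nat_lit 304) (nat_lit 18943747017) (nat_lit 40) (nat_lit 5) (nat_lit 43) (nat_lit 5) (nat_lit 44) (nat_lit 5) (nat_lit 300) (nat_lit 277) (nat_lit 143))) (XT.nd (nat_lit 78) (nat_lit 228) (nat_lit 0) (XT.lf (nat_lit 0) (nat_lit 23389665728) (nat_lit 228) (nat_lit 11705918759) (nat_lit 304) (nat_lit 14156594046) (nat_lit 40) (nat_lit 5) (nat_lit 43) (nat_lit 5) (nat_lit 44) (nat_lit 5) (nat_lit 301) (nat_lit 277) (nat_lit 142)) (XT.nd (nat_lit 78) (nat_lit 228) (nat_lit 0) (XT.lf (nat_lit 0) (nat_lit 41797701520) (nat_lit 304) (nat_lit 5139757687) (nat_lit 76) (nat_lit 3926211584) (nat_lit 40) (nat_lit 5) (nat_lit 44) (nat_lit 5) (nat_lit 41) (nat_lit 5) (nat_lit 302) (nat_lit 277) (nat_lit 141))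 (XT.lf (nat_lit 0) (nat_lit 16967613788) (nat_lit 228) (nat_lit 32321965914) (nat_lit 304) (nat_lit 3243432318) (nat_lit 37) (nat_lit 5) (nat_lit 40) (nat_lit 5) (nat_lit 41) (nat_lit 5) (nat_lit 303) (nat_lit 277) (nat_lit 140))))))) (XT.nd (nat_lit 702) (nat_lit 760) (nat_lit 0) (XT.nd (nat_lit 312) (nat_lit 456) (nat_lit 0) (XT.nd (nat_lit 156) (nat_lit 0) (nat_lit 0) (XT.nd (nat_lit 78) (nat_lit 228) (nat_lit 0) (XT.lf (nat_lit 0) (nat_lit 2864700838) (nat_lit 304) (nat_lit 13971637192) (nat_lit 76) (nat_lit 37442931387) (nat_lit 36) (nat_lit 5) (nat_lit 40) (nat_lit 5) (nat_lit 37) (nat_lit 5) (nat_lit 304) (nat_lit 277) (nat_lit 139)) (XT.lf (nat_lit 0) (nat_lit 8931923545) (nat_lit 228) (nat_lit 374734063) (nat_lit 304) (nat_lit 46796658800) (nat_lit 33) (nat_lit 5) (nat_lit 36) (nat_lit 5) (nat_lit 37) (nat_lit 5) (nat_lit 305) (nat_lit 277) (nat_lit 138))) (XT.nd (nat_lit 78)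 (nat_lit 0) (nat_lit 0) (XT.lf (nat_lit 0) (nat_lit 16573232574) (nat_lit 304) (nat_lit 24811548168) (nat_lit 76) (nat_lit 16608664846) (nat_lit 33) (nat_lit 5) (nat_lit 37) (nat_lit 5) (nat_lit 34) (nat_lit 5) (nat_lit 306) (nat_lit 277) (nat_lit 137)) (XT.lf (nat_lit 0) (nat_lit 24207387327) (nat_lit 304) (nat_lit 1342376884) (nat_lit 76) (nat_lit 34428110044) (nat_lit 33) (nat_lit 5) (nat_lit 37) (nat_lit 5) (nat_lit 34) (nat_lit 5) (nat_lit 307) (nat_lit 277) (nat_lit 136)))) (XT.nd (nat_lit 156) (nat_lit 228) (nat_lit 0) (XT.nd (nat_lit 78) (nat_lit 0) (nat_lit 0) (XT.lf (nat_lit 0) (nat_lit 24068182774) (nat_lit 228) (nat_lit 8529036789) (nat_lit 304) (nat_lit 29445611620) (nat_lit 30) (nat_lit 5) (nat_lit 33) (nat_lit 5) (nat_lit 34) (nat_lit 5) (nat_lit 308) (nat_lit 277) (nat_lit 135)) (XT.lf (nat_lit 0) (nat_lit 41573753389) (nat_lit 304) (nat_lit 13562710179) (nat_lit 76)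 (nat_lit 9066216951) (nat_lit 30) (nat_lit 5) (nat_lit 34) (nat_lit 5) (nat_lit 31) (nat_lit 5) (nat_lit 309) (nat_lit 277) (nat_lit 134))) (XT.nd (nat_lit 78) (nat_lit 76) (nat_lit 0) (XT.lf (nat_lit 0) (nat_lit 12322057197) (nat_lit 152) (nat_lit 39007580103) (nat_lit 228) (nat_lit 15124363673) (nat_lit 28) (nat_lit 5) (nat_lit 30) (nat_lit 5) (nat_lit 31) (nat_lit 5) (nat_lit 310) (nat_lit 277) (nat_lit 133)) (XT.nd (nat_lit 78) (nat_lit 76) (nat_lit 0) (XT.lf (nat_lit 0) (nat_lit 39969636928) (nat_lit 152) (nat_lit 21831734958) (nat_lit 228) (nat_lit 7005117329) (nat_lit 28) (nat_lit 5) (nat_lit 30) (nat_lit 5) (nat_lit 31) (nat_lit 5) (nat_lit 311) (nat_lit 277) (nat_lit 132)) (XT.lf (nat_lit 0) (nat_lit 1469852418) (nat_lit 228) (nat_lit 2302979243) (nat_lit 76) (nat_lit 67502667054) (nat_lit 27) (nat_lit 5) (nat_lit 30) (nat_lit 5) (nat_lit 28) (nat_lit 5) (nat_lit 312) (nat_lit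 277) (nat_lit 131)))))) (XT.nd (nat_lit 312) (nat_lit 380) (nat_lit 0) (XT.nd (nat_lit 156) (nat_lit 152) (nat_lit 0) (XT.nd (nat_lit 78) (nat_lit 0) (nat_lit 0) (XT.lf (nat_lit 0) (nat_lit 10787717096) (nat_lit 304) (nat_lit 47805724765) (nat_lit 76) (nat_lit 15236050677) (nat_lit 24) (nat_lit 5) (nat_lit 28) (nat_lit 5) (nat_lit 25) (nat_lit 5) (nat_lit 313) (nat_lit 277) (nat_lit 130)) (XT.lf (nat_lit 0) (nat_lit 20671484588) (nat_lit 304) (nat_lit 20727085267) (nat_lit 76) (nat_lit 35107619495) (nat_lit 24) (nat_lit 5) (nat_lit 28) (nat_lit 5) (nat_lit 25) (nat_lit 5) (nat_lit 314) (nat_lit 277) (nat_lit 129))) (XT.nd (nat_lit 78) (nat_lit 0) (nat_lit 0) (XT.lf (nat_lit 0) (nat_lit 7958132703) (nat_lit 152) (nat_lit 23214145492) (nat_lit 228) (nat_lit 48138304518) (nat_lit 22) (nat_lit 5) (nat_lit 24) (nat_lit 5) (nat_lit 25) (nat_lit 5) (nat_lit 315) (nat_lit 277) (nat_lit 128))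 (XT.lf (nat_lit 0) (nat_lit 38795179004) (nat_lit 152) (nat_lit 3752580178) (nat_lit 228) (nat_lit 39689957603) (nat_lit 22) (nat_lit 5) (nat_lit 24) (nat_lit 5) (nat_lit 25) (nat_lit 5) (nat_lit 316) (nat_lit 277) (nat_lit 127)))) (XT.nd (nat_lit 156) (nat_lit 228) (nat_lit 0) (XT.nd (nat_lit 78) (nat_lit 152) (nat_lit 0) (XT.lf (nat_lit 0) (nat_lit 54751148228) (nat_lit 228) (nat_lit 14399576223) (nat_lit 76) (nat_lit 16147529673) (nat_lit 22) (nat_lit 5) (nat_lit 25) (nat_lit 5) (nat_lit 23) (nat_lit 5) (nat_lit 317) (nat_lit 277) (nat_lit 126)) (XT.lf (nat_lit 0) (nat_lit 16562212293) (nat_lit 152) (nat_lit 51321337781) (nat_lit 228) (nat_lit 20612329192) (nat_lit 20) (nat_lit 5) (nat_lit 22) (nat_lit 5) (nat_lit 23) (nat_lit 5) (nat_lit 318) (nat_lit 277) (nat_lit 125))) (XT.nd (nat_lit 78) (nat_lit 228) (nat_lit 0) (XT.lf (nat_lit 0) (nat_lit 49570143975) (nat_lit 152) (nat_lit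 32345065625) (nat_lit 228) (nat_lit 9926047147) (nat_lit 20) (nat_lit 5) (nat_lit 22) (nat_lit 5) (nat_lit 23) (nat_lit 5) (nat_lit 319) (nat_lit 277) (nat_lit 124)) (XT.nd (nat_lit 78) (nat_lit 152) (nat_lit 0) (XT.lf (nat_lit 0) (nat_lit 1251925661) (nat_lit 228) (nat_lit 11147462545) (nat_lit 76) (nat_lit 82953566487) (nat_lit 19) (nat_lit 5) (nat_lit 22) (nat_lit 5) (nat_lit 20) (nat_lit 5) (nat_lit 320) (nat_lit 277) (nat_lit 123)) (XT.lf (nat_lit 0) (nat_lit 13140424806) (nat_lit 228) (nat_lit 77082191274) (nat_lit 76) (nat_lit 8785227509) (nat_lit 17) (nat_lit 5) (nat_lit 20) (nat_lit 5) (nat_lit 18) (nat_lit 5) (nat_lit 321) (nat_lit 277) (nat_lit 122))))))))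
noncomputable def xc215 : XT := (XT.nd (nat_lit 1326) (nat_lit 228) (nat_lit 0) (XT.nd (nat_lit 624) (nat_lit 228) (nat_lit 0) (XT.nd (nat_lit 312) (nat_lit 152) (nat_lit 0) (XT.nd (nat_lit 156) (nat_lit 152) (nat_lit 0) (XT.nd (nat_lit 78) (nat_lit 0) (nat_lit 0) (XT.lf (nat_lit 0) (nat_lit 26017385047) (nat_lit 228) (nat_lit 46004717307) (nat_lit 76) (nat_lit 30803675206) (nat_lit 17) (nat_lit 5) (nat_lit 20) (nat_lit 5) (nat_lit 18) (nat_lit 5) (nat_lit 322) (nat_lit 277) (nat_lit 121)) (XT.lf (nat_lit 0) (nat_lit 39537131325) (nat_lit 228) (nat_lit 13375039991) (nat_lit 76) (nat_lit 53922492327) (nat_lit 17) (nat_lit 5) (nat_lit 20) (nat_lit 5) (nat_lit 18) (nat_lit 5) (nat_lit 323) (nat_lit 277) (nat_lit 120))) (XT.nd (nat_lit 78) (nat_lit 0) (nat_lit 0) (XT.lf (nat_lit 0) (nat_lit 21575067270) (nat_lit 152) (nat_lit 32493633508) (nat_lit 228) (nat_lit 56958503670) (nat_lit 15)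 (nat_lit 5) (nat_lit 17) (nat_lit 5) (nat_lit 18) (nat_lit 5) (nat_lit 324) (nat_lit 277) (nat_lit 119)) (XT.lf (nat_lit 0) (nat_lit 58735465931) (nat_lit 152) (nat_lit 10816907869) (nat_lit 228) (nat_lit 45865724341) (nat_lit 15) (nat_lit 5) (nat_lit 17) (nat_lit 5) (nat_lit 18) (nat_lit 5) (nat_lit 325) (nat_lit 277) (nat_lit 118)))) (XT.nd (nat_lit 156) (nat_lit 76) (nat_lit 0) (XT.nd (nat_lit 78) (nat_lit 76) (nat_lit 0) (XT.lf (nat_lit 0) (nat_lit 85995755152) (nat_lit 228) (nat_lit 22462656976) (nat_lit 76) (nat_lit 11560850159) (nat_lit 15) (nat_lit 5) (nat_lit 18) (nat_lit 5) (nat_lit 16) (nat_lit 4) (nat_lit 326) (nat_lit 277) (nat_lit 117)) (XT.lf (nat_lit 0) (nat_lit 13728944462) (nat_lit 76) (nat_lit 89923130735) (nat_lit 152) (nat_lit 21178872869) (nat_lit 14) (nat_lit 5) (nat_lit 15) (nat_lit 5) (nat_lit 16) (nat_lit 4) (nat_lit 327) (nat_lit 277) (nat_lit 116))) (XT.nd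 (nat_lit 78) (nat_lit 76) (nat_lit 0) (XT.lf (nat_lit 0) (nat_lit 52508544059) (nat_lit 76) (nat_lit 70062199771) (nat_lit 152) (nat_lit 7293499493) (nat_lit 14) (nat_lit 5) (nat_lit 15) (nat_lit 5) (nat_lit 16) (nat_lit 4) (nat_lit 328) (nat_lit 277) (nat_lit 115)) (XT.lf (nat_lit 0) (nat_lit 7052083705) (nat_lit 152) (nat_lit 42037233114) (nat_lit 76) (nat_lit 86054243153) (nat_lit 13) (nat_lit 5) (nat_lit 15) (nat_lit 5) (nat_lit 14) (nat_lit 5) (nat_lit 329) (nat_lit 277) (nat_lit 114))))) (XT.nd (nat_lit 312) (nat_lit 76) (nat_lit 0) (XT.nd (nat_lit 156) (nat_lit 0) (nat_lit 0) (XT.nd (nat_lit 78) (nat_lit 152) (nat_lit 0) (XT.lf (nat_lit 0) (nat_lit 21869020672) (nat_lit 152) (nat_lit 5073739035) (nat_lit 76) (nat_lit 113738146838) (nat_lit 13) (nat_lit 5) (nat_lit 15) (nat_lit 5) (nat_lit 14) (nat_lit 5) (nat_lit 330) (nat_lit 277) (nat_lit 113)) (XT.lf (nat_lit 0) (nat_lit 34852149706)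 (nat_lit 152) (nat_lit 3118017385) (nat_lit 228) (nat_lit 108497786721) (nat_lit 11) (nat_lit 5) (nat_lit 13) (nat_lit 5) (nat_lit 14) (nat_lit 5) (nat_lit 331) (nat_lit 277) (nat_lit 112))) (XT.nd (nat_lit 78) (nat_lit 0) (nat_lit 0) (XT.lf (nat_lit 0) (nat_lit 55304827070) (nat_lit 228) (nat_lit 75934150534) (nat_lit 76) (nat_lit 21283954448) (nat_lit 11) (nat_lit 5) (nat_lit 14) (nat_lit 5) (nat_lit 12) (nat_lit 4) (nat_lit 332) (nat_lit 277) (nat_lit 111)) (XT.lf (nat_lit 0) (nat_lit 73556604449) (nat_lit 228) (nat_lit 38520746338) (nat_lit 76) (nat_lit 46800790553) (nat_lit 11) (nat_lit 5) (nat_lit 14) (nat_lit 5) (nat_lit 12) (nat_lit 4) (nat_lit 333) (nat_lit 277) (nat_lit 110)))) (XT.nd (nat_lit 156) (nat_lit 0) (nat_lit 0) (XT.nd (nat_lit 78) (nat_lit 0) (nat_lit 0) (XT.lf (nat_lit 0) (nat_lit 787369752) (nat_lit 76) (nat_lit 91945198147) (nat_lit 152) (nat_lit 72817964625)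 (nat_lit 10) (nat_lit 5) (nat_lit 11) (nat_lit 5) (nat_lit 12) (nat_lit 4) (nat_lit 334) (nat_lit 277) (nat_lit 109)) (XT.lf (nat_lit 0) (nat_lit 43397104609) (nat_lit 76) (nat_lit 70121911876) (nat_lit 152) (nat_lit 59004943663) (nat_lit 10) (nat_lit 5) (nat_lit 11) (nat_lit 5) (nat_lit 12) (nat_lit 4) (nat_lit 335) (nat_lit 277) (nat_lit 108))) (XT.nd (nat_lit 78) (nat_lit 0) (nat_lit 0) (XT.lf (nat_lit 0) (nat_lit 88136240144) (nat_lit 76) (nat_lit 47207899248) (nat_lit 152) (nat_lit 44501953338) (nat_lit 10) (nat_lit 5) (nat_lit 11) (nat_lit 5) (nat_lit 12) (nat_lit 4) (nat_lit 336) (nat_lit 277) (nat_lit 107)) (XT.nd (nat_lit 78) (nat_lit 0) (nat_lit 0) (XT.lf (nat_lit 0) (nat_lit 135111298107) (nat_lit 76) (nat_lit 23148603089) (nat_lit 152) (nat_lit 29274462722) (nat_lit 10) (nat_lit 5) (nat_lit 11) (nat_lit 5) (nat_lit 12) (nat_lit 4) (nat_lit 337) (nat_lit 277) (nat_lit 106))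 (XT.lf (nat_lit 0) (nat_lit 182353857159) (nat_lit 152) (nat_lit 11205949168) (nat_lit 0) (nat_lit 2045623099) (nat_lit 10) (nat_lit 5) (nat_lit 12) (nat_lit 4) (nat_lit 10) (nat_lit 4) (nat_lit 338) (nat_lit 277) (nat_lit 105))))))) (XT.nd (nat_lit 32760) (nat_lit 0) (nat_lit 4408) (XT.nd (nat_lit 312) (nat_lit 76) (nat_lit 0) (XT.nd (nat_lit 156) (nat_lit 0) (nat_lit 0) (XT.nd (nat_lit 78) (nat_lit 0) (nat_lit 0) (XT.lf (nat_lit 0) (nat_lit 4362785983) (nat_lit 152) (nat_lit 171366469656) (nat_lit 76) (nat_lit 28302771504) (nat_lit 8) (nat_lit 5) (nat_lit 10) (nat_lit 5) (nat_lit 9) (nat_lit 4) (nat_lit 339) (nat_lit 277) (nat_lit 104)) (XT.lf (nat_lit 0) (nat_lit 22604848110) (nat_lit 152) (nat_lit 133972096450) (nat_lit 76) (nat_lit 56282532876) (nat_lit 8) (nat_lit 5) (nat_lit 10) (nat_lit 5) (nat_lit 9) (nat_lit 4) (nat_lit 340) (nat_lit 277) (nat_lit 103))) (XT.nd (nat_lit 78)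 (nat_lit 0) (nat_lit 0) (XT.lf (nat_lit 0) (nat_lit 41758476582) (nat_lit 152) (nat_lit 94708923945) (nat_lit 76) (nat_lit 85660927428) (nat_lit 8) (nat_lit 5) (nat_lit 10) (nat_lit 5) (nat_lit 9) (nat_lit 4) (nat_lit 341) (nat_lit 277) (nat_lit 102)) (XT.lf (nat_lit 0) (nat_lit 61869275275) (nat_lit 152) (nat_lit 53483468398) (nat_lit 76) (nat_lit 116507903720) (nat_lit 8) (nat_lit 5) (nat_lit 10) (nat_lit 5) (nat_lit 9) (nat_lit 4) (nat_lit 342) (nat_lit 277) (nat_lit 101)))) (XT.nd (nat_lit 156) (nat_lit 0) (nat_lit 0) (XT.nd (nat_lit 78) (nat_lit 76) (nat_lit 0) (XT.lf (nat_lit 0) (nat_lit 82985127042) (nat_lit 152) (nat_lit 10197573962) (nat_lit 76) (nat_lit 148896906933) (nat_lit 8) (nat_lit 5) (nat_lit 10) (nat_lit 5) (nat_lit 9) (nat_lit 4) (nat_lit 343) (nat_lit 277) (nat_lit 100)) (XT.lf (nat_lit 0) (nat_lit 36417405419) (nat_lit 76) (nat_lit 69307480062) (nat_lit 152) (nat_lit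 147056226080) (nat_lit 7) (nat_lit 5) (nat_lit 8) (nat_lit 5) (nat_lit 9) (nat_lit 4) (nat_lit 344) (nat_lit 277) (nat_lit 99))) (XT.nd (nat_lit 78) (nat_lit 0) (nat_lit 0) (XT.lf (nat_lit 0) (nat_lit 85716389141) (nat_lit 76) (nat_lit 44057489755) (nat_lit 152) (nat_lit 134235199835) (nat_lit 7) (nat_lit 5) (nat_lit 8) (nat_lit 5) (nat_lit 9) (nat_lit 4) (nat_lit 345) (nat_lit 277) (nat_lit 98)) (XT.nd (nat_lit 78) (nat_lit 0) (nat_lit 0) (XT.lf (nat_lit 0) (nat_lit 137479577887) (nat_lit 76) (nat_lit 17545311909) (nat_lit 152) (nat_lit 120773576758) (nat_lit 7) (nat_lit 5) (nat_lit 8) (nat_lit 5) (nat_lit 9) (nat_lit 4) (nat_lit 346) (nat_lit 277) (nat_lit 97)) (XT.lf (nat_lit 0) (nat_lit 181698729374) (nat_lit 152) (nat_lit 96507817394) (nat_lit 0) (nat_lit 9962763746) (nat_lit 7) (nat_lit 5) (nat_lit 9) (nat_lit 4) (nat_lit 7) (nat_lit 4) (nat_lit 347) (nat_lit 277) (nat_lit 96))))))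 (XT.nd (nat_lit 312) (nat_lit 0) (nat_lit 76) (XT.nd (nat_lit 156) (nat_lit 0) (nat_lit 0) (XT.nd (nat_lit 78) (nat_lit 0) (nat_lit 0) (XT.lf (nat_lit 0) (nat_lit 1455673649) (nat_lit 0) (nat_lit 1455673649) (nat_lit 684) (nat_lit 10254823098) (nat_lit 65) (nat_lit 5) (nat_lit 65) (nat_lit 3) (nat_lit 74) (nat_lit 3) (nat_lit 278) (nat_lit 278) (nat_lit 164)) (XT.lf (nat_lit 0) (nat_lit 6184575399) (nat_lit 684) (nat_lit 12696337721) (nat_lit 760) (nat_lit 8098578815) (nat_lit 65) (nat_lit 5) (nat_lit 74) (nat_lit 3) (nat_lit 75) (nat_lit 5) (nat_lit 279) (nat_lit 278) (nat_lit 163))) (XT.nd (nat_lit 78) (nat_lit 0) (nat_lit 76) (XT.lf (nat_lit 0) (nat_lit 6606834759) (nat_lit 684) (nat_lit 1486257776) (nat_lit 760) (nat_lit 19563815746) (nat_lit 65) (nat_lit 5) (nat_lit 74) (nat_lit 3) (nat_lit 75) (nat_lit 5) (nat_lit 280) (nat_lit 278) (nat_lit 162)) (XT.lf (nat_lit 0) (nat_lit 7264099932)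 (nat_lit 684) (nat_lit 17792090748) (nat_lit 760) (nat_lit 3301330954) (nat_lit 66) (nat_lit 5) (nat_lit 75) (nat_lit 5) (nat_lit 76) (nat_lit 5) (nat_lit 281) (nat_lit 278) (nat_lit 161)))) (XT.nd (nat_lit 156) (nat_lit 0) (nat_lit 76) (XT.nd (nat_lit 78) (nat_lit 0) (nat_lit 0) (XT.lf (nat_lit 0) (nat_lit 8107536254) (nat_lit 684) (nat_lit 5956879057) (nat_lit 760) (nat_lit 15021104790) (nat_lit 66) (nat_lit 5) (nat_lit 75) (nat_lit 5) (nat_lit 76) (nat_lit 5) (nat_lit 282) (nat_lit 278) (nat_lit 160)) (XT.lf (nat_lit 76) (nat_lit 6680886011) (nat_lit 0) (nat_lit 2411852510) (nat_lit 760) (nat_lit 20752219157) (nat_lit 67) (nat_lit 5) (nat_lit 66) (nat_lit 5) (nat_lit 76) (nat_lit 5) (nat_lit 283) (nat_lit 278) (nat_lit 159))) (XT.nd (nat_lit 78) (nat_lit 0) (nat_lit 0) (XT.lf (nat_lit 0) (nat_lit 10378595905) (nat_lit 684) (nat_lit 10638255153) (nat_lit 760) (nat_lit 9612964323)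 (nat_lit 67) (nat_lit 5) (nat_lit 76) (nat_lit 5) (nat_lit 77) (nat_lit 5) (nat_lit 284) (nat_lit 278) (nat_lit 158)) (XT.nd (nat_lit 78) (nat_lit 0) (nat_lit 76) (XT.lf (nat_lit 76) (nat_lit 2552920924) (nat_lit 0) (nat_lit 9250925588) (nat_lit 760) (nat_lit 19646331577) (nat_lit 68) (nat_lit 5) (nat_lit 67) (nat_lit 5) (nat_lit 77) (nat_lit 5) (nat_lit 285) (nat_lit 278) (nat_lit 157)) (XT.lf (nat_lit 0) (nat_lit 13527805765) (nat_lit 684) (nat_lit 15584255741) (nat_lit 760) (nat_lit 3188141443) (nat_lit 68) (nat_lit 5) (nat_lit 77) (nat_lit 5) (nat_lit 78) (nat_lit 5) (nat_lit 286) (nat_lit 278) (nat_lit 156))))))))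
noncomputable def xc216 : XT := (XT.nd (nat_lit 1326) (nat_lit 1596) (nat_lit 0) (XT.nd (nat_lit 624) (nat_lit 912) (nat_lit 0) (XT.nd (nat_lit 312) (nat_lit 608) (nat_lit 0) (XT.nd (nat_lit 156) (nat_lit 608) (nat_lit 0) (XT.nd (nat_lit 78) (nat_lit 0) (nat_lit 0) (XT.lf (nat_lit 0) (nat_lit 15485691268) (nat_lit 684) (nat_lit 1760394338) (nat_lit 760) (nat_lit 15939272577) (nat_lit 68) (nat_lit 5) (nat_lit 77) (nat_lit 5) (nat_lit 78) (nat_lit 5) (nat_lit 287) (nat_lit 278) (nat_lit 155)) (XT.lf (nat_lit 76) (nat_lit 13173301801) (nat_lit 0) (nat_lit 4570102138) (nat_lit 760) (nat_lit 16361285399) (nat_lit 69) (nat_lit 5) (nat_lit 68) (nat_lit 5) (nat_lit 78) (nat_lit 5) (nat_lit 288) (nat_lit 278) (nat_lit 154))) (XT.nd (nat_lit 78) (nat_lit 684) (nat_lit 0) (XT.lf (nat_lit 0) (nat_lit 20277158387) (nat_lit 684) (nat_lit 6293779370) (nat_lit 76) (nat_lit 8490905587) (nat_lit 69)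 (nat_lit 5) (nat_lit 78) (nat_lit 5) (nat_lit 70) (nat_lit 5) (nat_lit 289) (nat_lit 278) (nat_lit 153)) (XT.lf (nat_lit 0) (nat_lit 9295303947) (nat_lit 684) (nat_lit 13858916697) (nat_lit 760) (nat_lit 12901816832) (nat_lit 60) (nat_lit 5) (nat_lit 69) (nat_lit 5) (nat_lit 70) (nat_lit 5) (nat_lit 290) (nat_lit 278) (nat_lit 152)))) (XT.nd (nat_lit 156) (nat_lit 304) (nat_lit 0) (XT.nd (nat_lit 78) (nat_lit 304) (nat_lit 0) (XT.lf (nat_lit 0) (nat_lit 25879402191) (nat_lit 684) (nat_lit 399013788) (nat_lit 760) (nat_lit 10816374124) (nat_lit 60) (nat_lit 5) (nat_lit 69) (nat_lit 5) (nat_lit 70) (nat_lit 5) (nat_lit 291) (nat_lit 278) (nat_lit 151)) (XT.lf (nat_lit 0) (nat_lit 5051500191) (nat_lit 304) (nat_lit 24797468089) (nat_lit 380) (nat_lit 8322016901) (nat_lit 56) (nat_lit 5) (nat_lit 60) (nat_lit 5) (nat_lit 61) (nat_lit 5) (nat_lit 292) (nat_lit 278) (nat_lit 150))) (XT.nd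 (nat_lit 78) (nat_lit 304) (nat_lit 0) (XT.lf (nat_lit 0) (nat_lit 22511416294) (nat_lit 304) (nat_lit 11279964335) (nat_lit 380) (nat_lit 5499954364) (nat_lit 56) (nat_lit 5) (nat_lit 60) (nat_lit 5) (nat_lit 61) (nat_lit 5) (nat_lit 293) (nat_lit 278) (nat_lit 149)) (XT.lf (nat_lit 0) (nat_lit 339041023) (nat_lit 304) (nat_lit 37639757674) (nat_lit 380) (nat_lit 2486520391) (nat_lit 52) (nat_lit 5) (nat_lit 56) (nat_lit 5) (nat_lit 57) (nat_lit 5) (nat_lit 294) (nat_lit 278) (nat_lit 148))))) (XT.nd (nat_lit 312) (nat_lit 532) (nat_lit 0) (XT.nd (nat_lit 156) (nat_lit 304) (nat_lit 0) (XT.nd (nat_lit 78) (nat_lit 0) (nat_lit 0) (XT.lf (nat_lit 0) (nat_lit 1126792003) (nat_lit 380) (nat_lit 22990445745) (nat_lit 76) (nat_lit 17556701025) (nat_lit 51) (nat_lit 5) (nat_lit 56) (nat_lit 5) (nat_lit 52) (nat_lit 5) (nat_lit 295) (nat_lit 278) (nat_lit 147)) (XT.lf (nat_lit 0) (nat_lit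 4834484313) (nat_lit 380) (nat_lit 5041447963) (nat_lit 76) (nat_lit 33065164694) (nat_lit 51) (nat_lit 5) (nat_lit 56) (nat_lit 5) (nat_lit 52) (nat_lit 5) (nat_lit 296) (nat_lit 278) (nat_lit 146))) (XT.nd (nat_lit 78) (nat_lit 0) (nat_lit 0) (XT.lf (nat_lit 0) (nat_lit 9030506265) (nat_lit 380) (nat_lit 30084903342) (nat_lit 76) (nat_lit 5141065308) (nat_lit 47) (nat_lit 5) (nat_lit 52) (nat_lit 5) (nat_lit 48) (nat_lit 5) (nat_lit 297) (nat_lit 278) (nat_lit 145)) (XT.lf (nat_lit 0) (nat_lit 13682495067) (nat_lit 380) (nat_lit 11279197909) (nat_lit 76) (nat_lit 20663629149) (nat_lit 47) (nat_lit 5) (nat_lit 52) (nat_lit 5) (nat_lit 48) (nat_lit 5) (nat_lit 298) (nat_lit 278) (nat_lit 144)))) (XT.nd (nat_lit 156) (nat_lit 228) (nat_lit 0) (XT.nd (nat_lit 78) (nat_lit 0) (nat_lit 0) (XT.lf (nat_lit 0) (nat_lit 8743973894) (nat_lit 304) (nat_lit 9957233258) (nat_lit 380) (nat_lit 28354706595)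 (nat_lit 43) (nat_lit 5) (nat_lit 47) (nat_lit 5) (nat_lit 48) (nat_lit 5) (nat_lit 299) (nat_lit 278) (nat_lit 143)) (XT.lf (nat_lit 0) (nat_lit 24253193202) (nat_lit 380) (nat_lit 18484993748) (nat_lit 76) (nat_lit 5805738935) (nat_lit 43) (nat_lit 5) (nat_lit 48) (nat_lit 5) (nat_lit 44) (nat_lit 5) (nat_lit 300) (nat_lit 278) (nat_lit 142))) (XT.nd (nat_lit 78) (nat_lit 0) (nat_lit 0) (XT.lf (nat_lit 0) (nat_lit 2239106567) (nat_lit 228) (nat_lit 28039648614) (nat_lit 304) (nat_lit 19817792094) (nat_lit 40) (nat_lit 5) (nat_lit 43) (nat_lit 5) (nat_lit 44) (nat_lit 5) (nat_lit 301) (nat_lit 278) (nat_lit 141)) (XT.nd (nat_lit 78) (nat_lit 0) (nat_lit 0) (XT.lf (nat_lit 0) (nat_lit 24638586327) (nat_lit 228) (nat_lit 12277910987) (nat_lit 304) (nat_lit 14794764439) (nat_lit 40) (nat_lit 5) (nat_lit 43) (nat_lit 5) (nat_lit 44) (nat_lit 5) (nat_lit 302) (nat_lit 278) (nat_lit 140))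 (XT.lf (nat_lit 0) (nat_lit 43950768797) (nat_lit 304) (nat_lit 5317930990) (nat_lit 76) (nat_lit 4134786838) (nat_lit 40) (nat_lit 5) (nat_lit 44) (nat_lit 5) (nat_lit 41) (nat_lit 5) (nat_lit 303) (nat_lit 278) (nat_lit 139))))))) (XT.nd (nat_lit 702) (nat_lit 684) (nat_lit 0) (XT.nd (nat_lit 312) (nat_lit 380) (nat_lit 0) (XT.nd (nat_lit 156) (nat_lit 228) (nat_lit 0) (XT.nd (nat_lit 78) (nat_lit 76) (nat_lit 0) (XT.lf (nat_lit 0) (nat_lit 17893537856) (nat_lit 228) (nat_lit 33921905026) (nat_lit 304) (nat_lit 3340951868) (nat_lit 37) (nat_lit 5) (nat_lit 40) (nat_lit 5) (nat_lit 41) (nat_lit 5) (nat_lit 304) (nat_lit 278) (nat_lit 138)) (XT.lf (nat_lit 0) (nat_lit 3067538544) (nat_lit 304) (nat_lit 14594217289) (nat_lit 76) (nat_lit 39328316729) (nat_lit 36) (nat_lit 5) (nat_lit 40) (nat_lit 5) (nat_lit 37) (nat_lit 5) (nat_lit 305) (nat_lit 278) (nat_lit 137))) (XT.nd (nat_lit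 78) (nat_lit 0) (nat_lit 0) (XT.lf (nat_lit 0) (nat_lit 9453295650) (nat_lit 228) (nat_lit 376626741) (nat_lit 304) (nat_lit 49075491629) (nat_lit 33) (nat_lit 5) (nat_lit 36) (nat_lit 5) (nat_lit 37) (nat_lit 5) (nat_lit 306) (nat_lit 278) (nat_lit 136)) (XT.lf (nat_lit 0) (nat_lit 17457317903) (nat_lit 304) (nat_lit 25978238764) (nat_lit 76) (nat_lit 17454626575) (nat_lit 33) (nat_lit 5) (nat_lit 37) (nat_lit 5) (nat_lit 34) (nat_lit 5) (nat_lit 307) (nat_lit 278) (nat_lit 135)))) (XT.nd (nat_lit 156) (nat_lit 152) (nat_lit 0) (XT.nd (nat_lit 78) (nat_lit 228) (nat_lit 0) (XT.lf (nat_lit 0) (nat_lit 25470541171) (nat_lit 304) (nat_lit 1339127335) (nat_lit 76) (nat_lit 36164304581) (nat_lit 33) (nat_lit 5) (nat_lit 37) (nat_lit 5) (nat_lit 34) (nat_lit 5) (nat_lit 308) (nat_lit 278) (nat_lit 134)) (XT.lf (nat_lit 0) (nat_lit 25340825332) (nat_lit 228) (nat_lit 8937607067) (nat_lit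 304) (nat_lit 30863824505) (nat_lit 30) (nat_lit 5) (nat_lit 33) (nat_lit 5) (nat_lit 34) (nat_lit 5) (nat_lit 309) (nat_lit 278) (nat_lit 133))) (XT.nd (nat_lit 78) (nat_lit 152) (nat_lit 0) (XT.lf (nat_lit 0) (nat_lit 43701613477) (nat_lit 304) (nat_lit 14172588473) (nat_lit 76) (nat_lit 9536012789) (nat_lit 30) (nat_lit 5) (nat_lit 34) (nat_lit 5) (nat_lit 31) (nat_lit 5) (nat_lit 310) (nat_lit 278) (nat_lit 132)) (XT.nd (nat_lit 78) (nat_lit 0) (nat_lit 0) (XT.lf (nat_lit 0) (nat_lit 13005316349) (nat_lit 152) (nat_lit 40938682189) (nat_lit 228) (nat_lit 15830174052) (nat_lit 28) (nat_lit 5) (nat_lit 30) (nat_lit 5) (nat_lit 31) (nat_lit 5) (nat_lit 311) (nat_lit 278) (nat_lit 131)) (XT.lf (nat_lit 0) (nat_lit 42032077148) (nat_lit 152) (nat_lit 22904962735) (nat_lit 228) (nat_lit 7307365763) (nat_lit 28) (nat_lit 5) (nat_lit 30) (nat_lit 5) (nat_lit 31) (nat_lit 5) (nat_lit 312)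 (nat_lit 278) (nat_lit 130)))))) (XT.nd (nat_lit 312) (nat_lit 228) (nat_lit 0) (XT.nd (nat_lit 156) (nat_lit 152) (nat_lit 0) (XT.nd (nat_lit 78) (nat_lit 228) (nat_lit 0) (XT.lf (nat_lit 0) (nat_lit 1587603034) (nat_lit 228) (nat_lit 2355635945) (nat_lit 76) (nat_lit 70893705618) (nat_lit 27) (nat_lit 5) (nat_lit 30) (nat_lit 5) (nat_lit 28) (nat_lit 5) (nat_lit 313) (nat_lit 278) (nat_lit 129)) (XT.lf (nat_lit 0) (nat_lit 11370500233) (nat_lit 304) (nat_lit 50132547407) (nat_lit 76) (nat_lit 16015639038) (nat_lit 24) (nat_lit 5) (nat_lit 28) (nat_lit 5) (nat_lit 25) (nat_lit 5) (nat_lit 314) (nat_lit 278) (nat_lit 128))) (XT.nd (nat_lit 78) (nat_lit 152) (nat_lit 0) (XT.lf (nat_lit 0) (nat_lit 21746389563) (nat_lit 304) (nat_lit 21702998010) (nat_lit 76) (nat_lit 36879939352) (nat_lit 24) (nat_lit 5) (nat_lit 28) (nat_lit 5) (nat_lit 25) (nat_lit 5) (nat_lit 315) (nat_lit 278) (nat_lit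 127)) (XT.lf (nat_lit 0) (nat_lit 8415505995) (nat_lit 152) (nat_lit 24355677166) (nat_lit 228) (nat_lit 50502813798) (nat_lit 22) (nat_lit 5) (nat_lit 24) (nat_lit 5) (nat_lit 25) (nat_lit 5) (nat_lit 316) (nat_lit 278) (nat_lit 126)))) (XT.nd (nat_lit 156) (nat_lit 228) (nat_lit 0) (XT.nd (nat_lit 78) (nat_lit 0) (nat_lit 0) (XT.lf (nat_lit 0) (nat_lit 40791572866) (nat_lit 152) (nat_lit 3921946710) (nat_lit 228) (nat_lit 41634068868) (nat_lit 22) (nat_lit 5) (nat_lit 24) (nat_lit 5) (nat_lit 25) (nat_lit 5) (nat_lit 317) (nat_lit 278) (nat_lit 125)) (XT.lf (nat_lit 0) (nat_lit 57525522365) (nat_lit 228) (nat_lit 15063970306) (nat_lit 76) (nat_lit 16971742312) (nat_lit 22) (nat_lit 5) (nat_lit 25) (nat_lit 5) (nat_lit 23) (nat_lit 5) (nat_lit 318) (nat_lit 278) (nat_lit 124))) (XT.nd (nat_lit 78) (nat_lit 76) (nat_lit 0) (XT.lf (nat_lit 0) (nat_lit 17445011108) (nat_lit 152) (nat_lit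 53868633854) (nat_lit 228) (nat_lit 21605145722) (nat_lit 20) (nat_lit 5) (nat_lit 22) (nat_lit 5) (nat_lit 23) (nat_lit 5) (nat_lit 319) (nat_lit 278) (nat_lit 123)) (XT.nd (nat_lit 78) (nat_lit 76) (nat_lit 0) (XT.lf (nat_lit 0) (nat_lit 52100735174) (nat_lit 152) (nat_lit 33944441939) (nat_lit 228) (nat_lit 10386349571) (nat_lit 20) (nat_lit 5) (nat_lit 22) (nat_lit 5) (nat_lit 23) (nat_lit 5) (nat_lit 320) (nat_lit 278) (nat_lit 122)) (XT.lf (nat_lit 0) (nat_lit 1347710240) (nat_lit 228) (nat_lit 11654059633) (nat_lit 76) (nat_lit 87117098266) (nat_lit 19) (nat_lit 5) (nat_lit 22) (nat_lit 5) (nat_lit 20) (nat_lit 5) (nat_lit 321) (nat_lit 278) (nat_lit 121))))))))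
noncomputable def xc217 : XT := (XT.nd (nat_lit 1326) (nat_lit 228) (nat_lit 0) (XT.nd (nat_lit 624) (nat_lit 304) (nat_lit 0) (XT.nd (nat_lit 312) (nat_lit 76) (nat_lit 0) (XT.nd (nat_lit 156) (nat_lit 152) (nat_lit 0) (XT.nd (nat_lit 78) (nat_lit 0) (nat_lit 0) (XT.lf (nat_lit 0) (nat_lit 13830108221) (nat_lit 228) (nat_lit 80884927370) (nat_lit 76) (nat_lit 9241495761) (nat_lit 17) (nat_lit 5) (nat_lit 20) (nat_lit 5) (nat_lit 18) (nat_lit 5) (nat_lit 322) (nat_lit 278) (nat_lit 120)) (XT.lf (nat_lit 0) (nat_lit 27349361132) (nat_lit 228) (nat_lit 48256026060) (nat_lit 76) (nat_lit 32360055990) (nat_lit 17) (nat_lit 5) (nat_lit 20) (nat_lit 5) (nat_lit 18) (nat_lit 5) (nat_lit 323) (nat_lit 278) (nat_lit 119))) (XT.nd (nat_lit 78) (nat_lit 152) (nat_lit 0) (XT.lf (nat_lit 0) (nat_lit 41543613447) (nat_lit 228) (nat_lit 13997194741) (nat_lit 76) (nat_lit 56634042681) (nat_lit 17)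 (nat_lit 5) (nat_lit 20) (nat_lit 5) (nat_lit 18) (nat_lit 5) (nat_lit 324) (nat_lit 278) (nat_lit 118)) (XT.lf (nat_lit 0) (nat_lit 22699666315) (nat_lit 152) (nat_lit 34101400096) (nat_lit 228) (nat_lit 59775990131) (nat_lit 15) (nat_lit 5) (nat_lit 17) (nat_lit 5) (nat_lit 18) (nat_lit 5) (nat_lit 325) (nat_lit 278) (nat_lit 117)))) (XT.nd (nat_lit 156) (nat_lit 76) (nat_lit 0) (XT.nd (nat_lit 78) (nat_lit 0) (nat_lit 0) (XT.lf (nat_lit 0) (nat_lit 61715901781) (nat_lit 152) (nat_lit 11341643656) (nat_lit 228) (nat_lit 48130021298) (nat_lit 15) (nat_lit 5) (nat_lit 17) (nat_lit 5) (nat_lit 18) (nat_lit 5) (nat_lit 326) (nat_lit 278) (nat_lit 116)) (XT.lf (nat_lit 0) (nat_lit 90322023350) (nat_lit 228) (nat_lit 23543078062) (nat_lit 76) (nat_lit 12153744095) (nat_lit 15) (nat_lit 5) (nat_lit 18) (nat_lit 5) (nat_lit 16) (nat_lit 4) (nat_lit 327) (nat_lit 278) (nat_lit 115))) (XT.nd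 (nat_lit 78) (nat_lit 0) (nat_lit 0) (XT.lf (nat_lit 0) (nat_lit 14457414548) (nat_lit 76) (nat_lit 94403139971) (nat_lit 152) (nat_lit 22210593961) (nat_lit 14) (nat_lit 5) (nat_lit 15) (nat_lit 5) (nat_lit 16) (nat_lit 4) (nat_lit 328) (nat_lit 278) (nat_lit 114)) (XT.lf (nat_lit 0) (nat_lit 55173993036) (nat_lit 76) (nat_lit 73549931378) (nat_lit 152) (nat_lit 7632248228) (nat_lit 14) (nat_lit 5) (nat_lit 15) (nat_lit 5) (nat_lit 16) (nat_lit 4) (nat_lit 329) (nat_lit 278) (nat_lit 113))))) (XT.nd (nat_lit 312) (nat_lit 76) (nat_lit 0) (XT.nd (nat_lit 156) (nat_lit 152) (nat_lit 0) (XT.nd (nat_lit 78) (nat_lit 0) (nat_lit 0) (XT.lf (nat_lit 0) (nat_lit 7428589260) (nat_lit 152) (nat_lit 44100142541) (nat_lit 76) (nat_lit 90370765135) (nat_lit 13) (nat_lit 5) (nat_lit 15) (nat_lit 5) (nat_lit 14) (nat_lit 5) (nat_lit 330) (nat_lit 278) (nat_lit 112)) (XT.lf (nat_lit 0) (nat_lit 22985234915)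 (nat_lit 152) (nat_lit 5290328626) (nat_lit 76) (nat_lit 119438206394) (nat_lit 13) (nat_lit 5) (nat_lit 15) (nat_lit 5) (nat_lit 14) (nat_lit 5) (nat_lit 331) (nat_lit 278) (nat_lit 111))) (XT.nd (nat_lit 78) (nat_lit 0) (nat_lit 0) (XT.lf (nat_lit 0) (nat_lit 36631256207) (nat_lit 152) (nat_lit 3259668337) (nat_lit 228) (nat_lit 113899272810) (nat_lit 11) (nat_lit 5) (nat_lit 13) (nat_lit 5) (nat_lit 14) (nat_lit 5) (nat_lit 332) (nat_lit 278) (nat_lit 110)) (XT.lf (nat_lit 0) (nat_lit 58091469929) (nat_lit 228) (nat_lit 79695209791) (nat_lit 76) (nat_lit 22361289152) (nat_lit 11) (nat_lit 5) (nat_lit 14) (nat_lit 5) (nat_lit 12) (nat_lit 4) (nat_lit 333) (nat_lit 278) (nat_lit 109)))) (XT.nd (nat_lit 156) (nat_lit 0) (nat_lit 0) (XT.nd (nat_lit 78) (nat_lit 76) (nat_lit 0) (XT.lf (nat_lit 0) (nat_lit 77254817057) (nat_lit 228) (nat_lit 40412832923) (nat_lit 76) (nat_lit 49153341492)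 (nat_lit 11) (nat_lit 5) (nat_lit 14) (nat_lit 5) (nat_lit 12) (nat_lit 4) (nat_lit 334) (nat_lit 278) (nat_lit 108)) (XT.lf (nat_lit 0) (nat_lit 860141380) (nat_lit 76) (nat_lit 96528988226) (nat_lit 152) (nat_lit 76437896863) (nat_lit 10) (nat_lit 5) (nat_lit 11) (nat_lit 5) (nat_lit 12) (nat_lit 4) (nat_lit 335) (nat_lit 278) (nat_lit 107))) (XT.nd (nat_lit 78) (nat_lit 0) (nat_lit 0) (XT.lf (nat_lit 0) (nat_lit 45598772354) (nat_lit 76) (nat_lit 73615179062) (nat_lit 152) (nat_lit 61935223233) (nat_lit 10) (nat_lit 5) (nat_lit 11) (nat_lit 5) (nat_lit 12) (nat_lit 4) (nat_lit 336) (nat_lit 278) (nat_lit 106)) (XT.nd (nat_lit 78) (nat_lit 0) (nat_lit 0) (XT.lf (nat_lit 0) (nat_lit 92573349784) (nat_lit 76) (nat_lit 49556076679) (nat_lit 152) (nat_lit 46708034231) (nat_lit 10) (nat_lit 5) (nat_lit 11) (nat_lit 5) (nat_lit 12) (nat_lit 4) (nat_lit 337) (nat_lit 278) (nat_lit 105))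 (XT.lf (nat_lit 0) (nat_lit 141895717901) (nat_lit 76) (nat_lit 24294397500) (nat_lit 152) (nat_lit 30720074644) (nat_lit 10) (nat_lit 5) (nat_lit 11) (nat_lit 5) (nat_lit 12) (nat_lit 4) (nat_lit 338) (nat_lit 278) (nat_lit 104))))))) (XT.nd (nat_lit 32916) (nat_lit 0) (nat_lit 4408) (XT.nd (nat_lit 312) (nat_lit 76) (nat_lit 0) (XT.nd (nat_lit 156) (nat_lit 0) (nat_lit 0) (XT.nd (nat_lit 78) (nat_lit 152) (nat_lit 0) (XT.lf (nat_lit 0) (nat_lit 191488122218) (nat_lit 152) (nat_lit 11738089206) (nat_lit 0) (nat_lit 2158631232) (nat_lit 10) (nat_lit 5) (nat_lit 12) (nat_lit 4) (nat_lit 10) (nat_lit 4) (nat_lit 339) (nat_lit 278) (nat_lit 103)) (XT.lf (nat_lit 0) (nat_lit 4597434002) (nat_lit 152) (nat_lit 179906517143) (nat_lit 76) (nat_lit 29728825044) (nat_lit 8) (nat_lit 5) (nat_lit 10) (nat_lit 5) (nat_lit 9) (nat_lit 4) (nat_lit 340) (nat_lit 278) (nat_lit 102))) (XT.nd (nat_lit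 78) (nat_lit 0) (nat_lit 0) (XT.lf (nat_lit 0) (nat_lit 23750813106) (nat_lit 152) (nat_lit 140643771752) (nat_lit 76) (nat_lit 59107054724) (nat_lit 8) (nat_lit 5) (nat_lit 10) (nat_lit 5) (nat_lit 9) (nat_lit 4) (nat_lit 341) (nat_lit 278) (nat_lit 101)) (XT.lf (nat_lit 0) (nat_lit 43861374306) (nat_lit 152) (nat_lit 99418722980) (nat_lit 76) (nat_lit 89953873995) (nat_lit 8) (nat_lit 5) (nat_lit 10) (nat_lit 5) (nat_lit 9) (nat_lit 4) (nat_lit 342) (nat_lit 278) (nat_lit 100)))) (XT.nd (nat_lit 156) (nat_lit 76) (nat_lit 0) (XT.nd (nat_lit 78) (nat_lit 0) (nat_lit 0) (XT.lf (nat_lit 0) (nat_lit 64976999891) (nat_lit 152) (nat_lit 56133215949) (nat_lit 76) (nat_lit 122342727663) (nat_lit 8) (nat_lit 5) (nat_lit 10) (nat_lit 5) (nat_lit 9) (nat_lit 4) (nat_lit 343) (nat_lit 278) (nat_lit 99)) (XT.lf (nat_lit 0) (nat_lit 87147965159) (nat_lit 152) (nat_lit 10684189929) (nat_lit 76)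 (nat_lit 156350732048) (nat_lit 8) (nat_lit 5) (nat_lit 10) (nat_lit 5) (nat_lit 9) (nat_lit 4) (nat_lit 344) (nat_lit 278) (nat_lit 98))) (XT.nd (nat_lit 78) (nat_lit 0) (nat_lit 0) (XT.lf (nat_lit 0) (nat_lit 38261163216) (nat_lit 76) (nat_lit 72763258891) (nat_lit 152) (nat_lit 154395059356) (nat_lit 7) (nat_lit 5) (nat_lit 8) (nat_lit 5) (nat_lit 9) (nat_lit 4) (nat_lit 345) (nat_lit 278) (nat_lit 97)) (XT.nd (nat_lit 32292) (nat_lit 0) (nat_lit 4408) (XT.lf (nat_lit 0) (nat_lit 90024006242) (nat_lit 76) (nat_lit 46251225981) (nat_lit 152) (nat_lit 140933647420) (nat_lit 7) (nat_lit 5) (nat_lit 8) (nat_lit 5) (nat_lit 9) (nat_lit 4) (nat_lit 346) (nat_lit 278) (nat_lit 96)) (XT.lf (nat_lit 0) (nat_lit 1570633990) (nat_lit 0) (nat_lit 1570633990) (nat_lit 684) (nat_lit 10678656897) (nat_lit 65) (nat_lit 5) (nat_lit 65) (nat_lit 3) (nat_lit 74) (nat_lit 3) (nat_lit 279) (nat_lit 279)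 (nat_lit 162)))))) (XT.nd (nat_lit 312) (nat_lit 0) (nat_lit 76) (XT.nd (nat_lit 156) (nat_lit 0) (nat_lit 76) (XT.nd (nat_lit 78) (nat_lit 0) (nat_lit 0) (XT.lf (nat_lit 0) (nat_lit 6653222878) (nat_lit 684) (nat_lit 13240889479) (nat_lit 760) (nat_lit 8425742531) (nat_lit 65) (nat_lit 5) (nat_lit 74) (nat_lit 3) (nat_lit 75) (nat_lit 5) (nat_lit 280) (nat_lit 279) (nat_lit 161)) (XT.lf (nat_lit 0) (nat_lit 7089003839) (nat_lit 684) (nat_lit 1474603876) (nat_lit 760) (nat_lit 20467944415) (nat_lit 65) (nat_lit 5) (nat_lit 74) (nat_lit 3) (nat_lit 75) (nat_lit 5) (nat_lit 281) (nat_lit 279) (nat_lit 160))) (XT.nd (nat_lit 78) (nat_lit 0) (nat_lit 0) (XT.lf (nat_lit 0) (nat_lit 7772265277) (nat_lit 684) (nat_lit 18588280362) (nat_lit 760) (nat_lit 3407022919) (nat_lit 66) (nat_lit 5) (nat_lit 75) (nat_lit 5) (nat_lit 76) (nat_lit 5) (nat_lit 282) (nat_lit 279) (nat_lit 159)) (XT.lf (nat_lit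 0) (nat_lit 8650970541) (nat_lit 684) (nat_lit 6165756417) (nat_lit 760) (nat_lit 15715612807) (nat_lit 66) (nat_lit 5) (nat_lit 75) (nat_lit 5) (nat_lit 76) (nat_lit 5) (nat_lit 283) (nat_lit 279) (nat_lit 158)))) (XT.nd (nat_lit 156) (nat_lit 0) (nat_lit 76) (XT.nd (nat_lit 78) (nat_lit 0) (nat_lit 76) (XT.lf (nat_lit 76) (nat_lit 7102461960) (nat_lit 0) (nat_lit 2577763411) (nat_lit 760) (nat_lit 21649810583) (nat_lit 67) (nat_lit 5) (nat_lit 66) (nat_lit 5) (nat_lit 76) (nat_lit 5) (nat_lit 284) (nat_lit 279) (nat_lit 157)) (XT.lf (nat_lit 0) (nat_lit 11023375584) (nat_lit 684) (nat_lit 11079302385) (nat_lit 760) (nat_lit 10051833675) (nat_lit 67) (nat_lit 5) (nat_lit 76) (nat_lit 5) (nat_lit 77) (nat_lit 5) (nat_lit 285) (nat_lit 279) (nat_lit 156))) (XT.nd (nat_lit 78) (nat_lit 0) (nat_lit 76) (XT.lf (nat_lit 76) (nat_lit 2769966922) (nat_lit 0) (nat_lit 9745324731) (nat_lit 760)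 (nat_lit 20500854593) (nat_lit 68) (nat_lit 5) (nat_lit 67) (nat_lit 5) (nat_lit 77) (nat_lit 5) (nat_lit 286) (nat_lit 279) (nat_lit 155)) (XT.nd (nat_lit 78) (nat_lit 0) (nat_lit 0) (XT.lf (nat_lit 0) (nat_lit 14319201294) (nat_lit 684) (nat_lit 16271622803) (nat_lit 760) (nat_lit 3318183397) (nat_lit 68) (nat_lit 5) (nat_lit 77) (nat_lit 5) (nat_lit 78) (nat_lit 5) (nat_lit 287) (nat_lit 279) (nat_lit 154)) (XT.lf (nat_lit 0) (nat_lit 16369504633) (nat_lit 684) (nat_lit 1760941935) (nat_lit 760) (nat_lit 16708269427) (nat_lit 68) (nat_lit 5) (nat_lit 77) (nat_lit 5) (nat_lit 78) (nat_lit 5) (nat_lit 288) (nat_lit 279) (nat_lit 153))))))))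
noncomputable def xc218 : XT := (XT.nd (nat_lit 1326) (nat_lit 1520) (nat_lit 0) (XT.nd (nat_lit 624) (nat_lit 1064) (nat_lit 0) (XT.nd (nat_lit 312) (nat_lit 684) (nat_lit 0) (XT.nd (nat_lit 156) (nat_lit 608) (nat_lit 0) (XT.nd (nat_lit 78) (nat_lit 0) (nat_lit 76) (XT.lf (nat_lit 76) (nat_lit 13918028170) (nat_lit 0) (nat_lit 4818202768) (nat_lit 760) (nat_lit 17067997021) (nat_lit 69) (nat_lit 5) (nat_lit 68) (nat_lit 5) (nat_lit 78) (nat_lit 5) (nat_lit 289) (nat_lit 279) (nat_lit 152)) (XT.lf (nat_lit 0) (nat_lit 21391350460) (nat_lit 684) (nat_lit 6520789229) (nat_lit 76) (nat_lit 8897385777) (nat_lit 69) (nat_lit 5) (nat_lit 78) (nat_lit 5) (nat_lit 70) (nat_lit 5) (nat_lit 290) (nat_lit 279) (nat_lit 151))) (XT.nd (nat_lit 78) (nat_lit 0) (nat_lit 0) (XT.lf (nat_lit 0) (nat_lit 9846334075) (nat_lit 684) (nat_lit 14562500774) (nat_lit 760) (nat_lit 13444784732) (nat_lit 60)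 (nat_lit 5) (nat_lit 69) (nat_lit 5) (nat_lit 70) (nat_lit 5) (nat_lit 291) (nat_lit 279) (nat_lit 150)) (XT.lf (nat_lit 0) (nat_lit 27255529377) (nat_lit 684) (nat_lit 429096138) (nat_lit 760) (nat_lit 11259932886) (nat_lit 60) (nat_lit 5) (nat_lit 69) (nat_lit 5) (nat_lit 70) (nat_lit 5) (nat_lit 292) (nat_lit 279) (nat_lit 149)))) (XT.nd (nat_lit 156) (nat_lit 380) (nat_lit 0) (XT.nd (nat_lit 78) (nat_lit 0) (nat_lit 0) (XT.lf (nat_lit 0) (nat_lit 5389953822) (nat_lit 304) (nat_lit 26040547063) (nat_lit 380) (nat_lit 8644239566) (nat_lit 56) (nat_lit 5) (nat_lit 60) (nat_lit 5) (nat_lit 61) (nat_lit 5) (nat_lit 293) (nat_lit 279) (nat_lit 148)) (XT.lf (nat_lit 0) (nat_lit 23718776272) (nat_lit 304) (nat_lit 11847015475) (nat_lit 380) (nat_lit 5685544291) (nat_lit 56) (nat_lit 5) (nat_lit 60) (nat_lit 5) (nat_lit 61) (nat_lit 5) (nat_lit 294) (nat_lit 279) (nat_lit 147))) (XT.nd (nat_lit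 78) (nat_lit 76) (nat_lit 0) (XT.lf (nat_lit 0) (nat_lit 441002018) (nat_lit 304) (nat_lit 39518820434) (nat_lit 380) (nat_lit 2524350209) (nat_lit 52) (nat_lit 5) (nat_lit 56) (nat_lit 5) (nat_lit 57) (nat_lit 5) (nat_lit 295) (nat_lit 279) (nat_lit 146)) (XT.lf (nat_lit 0) (nat_lit 1262872349) (nat_lit 380) (nat_lit 24056091006) (nat_lit 76) (nat_lit 18434405781) (nat_lit 51) (nat_lit 5) (nat_lit 56) (nat_lit 5) (nat_lit 52) (nat_lit 5) (nat_lit 296) (nat_lit 279) (nat_lit 145))))) (XT.nd (nat_lit 312) (nat_lit 456) (nat_lit 0) (XT.nd (nat_lit 156) (nat_lit 304) (nat_lit 0) (XT.nd (nat_lit 78) (nat_lit 304) (nat_lit 0) (XT.lf (nat_lit 0) (nat_lit 5152152096) (nat_lit 380) (nat_lit 5213637479) (nat_lit 76) (nat_lit 34718298838) (nat_lit 51) (nat_lit 5) (nat_lit 56) (nat_lit 5) (nat_lit 52) (nat_lit 5) (nat_lit 297) (nat_lit 279) (nat_lit 144)) (XT.lf (nat_lit 0) (nat_lit 9555664556)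 (nat_lit 380) (nat_lit 31506701488) (nat_lit 76) (nat_lit 5402997419) (nat_lit 47) (nat_lit 5) (nat_lit 52) (nat_lit 5) (nat_lit 48) (nat_lit 5) (nat_lit 298) (nat_lit 279) (nat_lit 143))) (XT.nd (nat_lit 78) (nat_lit 304) (nat_lit 0) (XT.lf (nat_lit 0) (nat_lit 14436746466) (nat_lit 380) (nat_lit 11764636831) (nat_lit 76) (nat_lit 21701457126) (nat_lit 47) (nat_lit 5) (nat_lit 52) (nat_lit 5) (nat_lit 48) (nat_lit 5) (nat_lit 299) (nat_lit 279) (nat_lit 142)) (XT.lf (nat_lit 0) (nat_lit 9258427095) (nat_lit 304) (nat_lit 10445833856) (nat_lit 380) (nat_lit 29700818835) (nat_lit 43) (nat_lit 5) (nat_lit 47) (nat_lit 5) (nat_lit 48) (nat_lit 5) (nat_lit 300) (nat_lit 279) (nat_lit 141)))) (XT.nd (nat_lit 156) (nat_lit 228) (nat_lit 0) (XT.nd (nat_lit 78) (nat_lit 228) (nat_lit 0) (XT.lf (nat_lit 0) (nat_lit 25530746226) (nat_lit 380) (nat_lit 19332348613) (nat_lit 76) (nat_lit 6104563647)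 (nat_lit 43) (nat_lit 5) (nat_lit 48) (nat_lit 5) (nat_lit 44) (nat_lit 5) (nat_lit 301) (nat_lit 279) (nat_lit 140)) (XT.lf (nat_lit 0) (nat_lit 2426716479) (nat_lit 228) (nat_lit 29428960845) (nat_lit 304) (nat_lit 20742339499) (nat_lit 40) (nat_lit 5) (nat_lit 43) (nat_lit 5) (nat_lit 44) (nat_lit 5) (nat_lit 302) (nat_lit 279) (nat_lit 139))) (XT.nd (nat_lit 78) (nat_lit 228) (nat_lit 0) (XT.lf (nat_lit 0) (nat_lit 25942567628) (nat_lit 228) (nat_lit 12879739679) (nat_lit 304) (nat_lit 15471319615) (nat_lit 40) (nat_lit 5) (nat_lit 43) (nat_lit 5) (nat_lit 44) (nat_lit 5) (nat_lit 303) (nat_lit 279) (nat_lit 138)) (XT.nd (nat_lit 78) (nat_lit 228) (nat_lit 0) (XT.lf (nat_lit 0) (nat_lit 46205615356) (nat_lit 304) (nat_lit 5512340391) (nat_lit 76) (nat_lit 4352650601) (nat_lit 40) (nat_lit 5) (nat_lit 44) (nat_lit 5) (nat_lit 41) (nat_lit 5) (nat_lit 304) (nat_lit 279) (nat_lit 137))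 (XT.lf (nat_lit 0) (nat_lit 18858548879) (nat_lit 228) (nat_lit 35603343420) (nat_lit 304) (nat_lit 3449358131) (nat_lit 37) (nat_lit 5) (nat_lit 40) (nat_lit 5) (nat_lit 41) (nat_lit 5) (nat_lit 305) (nat_lit 279) (nat_lit 136))))))) (XT.nd (nat_lit 702) (nat_lit 760) (nat_lit 0) (XT.nd (nat_lit 312) (nat_lit 456) (nat_lit 0) (XT.nd (nat_lit 156) (nat_lit 0) (nat_lit 0) (XT.nd (nat_lit 78) (nat_lit 228) (nat_lit 0) (XT.lf (nat_lit 0) (nat_lit 3274976844) (nat_lit 304) (nat_lit 15254992314) (nat_lit 76) (nat_lit 41306740523) (nat_lit 36) (nat_lit 5) (nat_lit 40) (nat_lit 5) (nat_lit 37) (nat_lit 5) (nat_lit 306) (nat_lit 279) (nat_lit 135)) (XT.lf (nat_lit 0) (nat_lit 9993784404) (nat_lit 228) (nat_lit 380180051) (nat_lit 304) (nat_lit 51473937311) (nat_lit 33) (nat_lit 5) (nat_lit 36) (nat_lit 5) (nat_lit 37) (nat_lit 5) (nat_lit 307) (nat_lit 279) (nat_lit 134))) (XT.nd (nat_lit 78)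 (nat_lit 0) (nat_lit 0) (XT.lf (nat_lit 0) (nat_lit 18380454729) (nat_lit 304) (nat_lit 27210133185) (nat_lit 76) (nat_lit 18341442699) (nat_lit 33) (nat_lit 5) (nat_lit 37) (nat_lit 5) (nat_lit 34) (nat_lit 5) (nat_lit 308) (nat_lit 279) (nat_lit 133)) (XT.lf (nat_lit 0) (nat_lit 26791945306) (nat_lit 304) (nat_lit 1342257495) (nat_lit 76) (nat_lit 37985933901) (nat_lit 33) (nat_lit 5) (nat_lit 37) (nat_lit 5) (nat_lit 34) (nat_lit 5) (nat_lit 309) (nat_lit 279) (nat_lit 132)))) (XT.nd (nat_lit 156) (nat_lit 228) (nat_lit 0) (XT.nd (nat_lit 78) (nat_lit 0) (nat_lit 0) (XT.lf (nat_lit 0) (nat_lit 26670663351) (nat_lit 228) (nat_lit 9368268318) (nat_lit 304) (nat_lit 32357974736) (nat_lit 30) (nat_lit 5) (nat_lit 33) (nat_lit 5) (nat_lit 34) (nat_lit 5) (nat_lit 310) (nat_lit 279) (nat_lit 131)) (XT.lf (nat_lit 0) (nat_lit 45931294984) (nat_lit 304) (nat_lit 14819306591) (nat_lit 76)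 (nat_lit 10027765800) (nat_lit 30) (nat_lit 5) (nat_lit 34) (nat_lit 5) (nat_lit 31) (nat_lit 5) (nat_lit 311) (nat_lit 279) (nat_lit 130))) (XT.nd (nat_lit 78) (nat_lit 76) (nat_lit 0) (XT.lf (nat_lit 0) (nat_lit 13716494903) (nat_lit 152) (nat_lit 42968131564) (nat_lit 228) (nat_lit 16575961390) (nat_lit 28) (nat_lit 5) (nat_lit 30) (nat_lit 5) (nat_lit 31) (nat_lit 5) (nat_lit 312) (nat_lit 279) (nat_lit 129)) (XT.nd (nat_lit 78) (nat_lit 76) (nat_lit 0) (XT.lf (nat_lit 0) (nat_lit 44191693136) (nat_lit 152) (nat_lit 24033558743) (nat_lit 228) (nat_lit 7629189895) (nat_lit 28) (nat_lit 5) (nat_lit 30) (nat_lit 5) (nat_lit 31) (nat_lit 5) (nat_lit 313) (nat_lit 279) (nat_lit 128)) (XT.lf (nat_lit 0) (nat_lit 1707126492) (nat_lit 228) (nat_lit 2416735420) (nat_lit 76) (nat_lit 74452817394) (nat_lit 27) (nat_lit 5) (nat_lit 30) (nat_lit 5) (nat_lit 28) (nat_lit 5) (nat_lit 314) (nat_lit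 279) (nat_lit 127)))))) (XT.nd (nat_lit 312) (nat_lit 380) (nat_lit 0) (XT.nd (nat_lit 156) (nat_lit 152) (nat_lit 0) (XT.nd (nat_lit 78) (nat_lit 0) (nat_lit 0) (XT.lf (nat_lit 0) (nat_lit 11978387859) (nat_lit 304) (nat_lit 52581611426) (nat_lit 76) (nat_lit 16832553259) (nat_lit 24) (nat_lit 5) (nat_lit 28) (nat_lit 5) (nat_lit 25) (nat_lit 5) (nat_lit 315) (nat_lit 279) (nat_lit 126)) (XT.lf (nat_lit 0) (nat_lit 22871197245) (nat_lit 304) (nat_lit 22733325671) (nat_lit 76) (nat_lit 38739300386) (nat_lit 24) (nat_lit 5) (nat_lit 28) (nat_lit 5) (nat_lit 25) (nat_lit 5) (nat_lit 316) (nat_lit 279) (nat_lit 125))) (XT.nd (nat_lit 78) (nat_lit 0) (nat_lit 0) (XT.lf (nat_lit 0) (nat_lit 8890219305) (nat_lit 152) (nat_lit 25556068188) (nat_lit 228) (nat_lit 52989491044) (nat_lit 22) (nat_lit 5) (nat_lit 24) (nat_lit 5) (nat_lit 25) (nat_lit 5) (nat_lit 317) (nat_lit 279) (nat_lit 124))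 (XT.lf (nat_lit 0) (nat_lit 42882521043) (nat_lit 152) (nat_lit 4101479440) (nat_lit 228) (nat_lit 43679140460) (nat_lit 22) (nat_lit 5) (nat_lit 24) (nat_lit 5) (nat_lit 25) (nat_lit 5) (nat_lit 318) (nat_lit 279) (nat_lit 123)))) (XT.nd (nat_lit 156) (nat_lit 228) (nat_lit 0) (XT.nd (nat_lit 78) (nat_lit 152) (nat_lit 0) (XT.lf (nat_lit 0) (nat_lit 60435192339) (nat_lit 228) (nat_lit 15766751834) (nat_lit 76) (nat_lit 17835600318) (nat_lit 22) (nat_lit 5) (nat_lit 25) (nat_lit 5) (nat_lit 23) (nat_lit 5) (nat_lit 319) (nat_lit 279) (nat_lit 122)) (XT.lf (nat_lit 0) (nat_lit 18366865473) (nat_lit 152) (nat_lit 56545039864) (nat_lit 228) (nat_lit 22651117358) (nat_lit 20) (nat_lit 5) (nat_lit 22) (nat_lit 5) (nat_lit 23) (nat_lit 5) (nat_lit 320) (nat_lit 279) (nat_lit 121))) (XT.nd (nat_lit 78) (nat_lit 228) (nat_lit 0) (XT.lf (nat_lit 0) (nat_lit 54753013656) (nat_lit 152) (nat_lit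 35625449100) (nat_lit 228) (nat_lit 10873014049) (nat_lit 20) (nat_lit 5) (nat_lit 22) (nat_lit 5) (nat_lit 23) (nat_lit 5) (nat_lit 321) (nat_lit 279) (nat_lit 120)) (XT.nd (nat_lit 78) (nat_lit 152) (nat_lit 0) (XT.lf (nat_lit 0) (nat_lit 1445198515) (nat_lit 228) (nat_lit 12190707251) (nat_lit 76) (nat_lit 91487332729) (nat_lit 19) (nat_lit 5) (nat_lit 22) (nat_lit 5) (nat_lit 20) (nat_lit 5) (nat_lit 322) (nat_lit 279) (nat_lit 119)) (XT.lf (nat_lit 0) (nat_lit 14551239188) (nat_lit 228) (nat_lit 84882576489) (nat_lit 76) (nat_lit 9718996286) (nat_lit 17) (nat_lit 5) (nat_lit 20) (nat_lit 5) (nat_lit 18) (nat_lit 5) (nat_lit 323) (nat_lit 279) (nat_lit 118))))))))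
noncomputable def xc219 : XT := (XT.nd (nat_lit 1326) (nat_lit 228) (nat_lit 0) (XT.nd (nat_lit 624) (nat_lit 228) (nat_lit 0) (XT.nd (nat_lit 312) (nat_lit 152) (nat_lit 0) (XT.nd (nat_lit 156) (nat_lit 152) (nat_lit 0) (XT.nd (nat_lit 78) (nat_lit 0) (nat_lit 0) (XT.lf (nat_lit 0) (nat_lit 28745044004) (nat_lit 228) (nat_lit 50624449030) (nat_lit 76) (nat_lit 33992749969) (nat_lit 17) (nat_lit 5) (nat_lit 20) (nat_lit 5) (nat_lit 18) (nat_lit 5) (nat_lit 324) (nat_lit 279) (nat_lit 117)) (XT.lf (nat_lit 0) (nat_lit 43647665372) (nat_lit 228) (nat_lit 14654789399) (nat_lit 76) (nat_lit 59479736414) (nat_lit 17) (nat_lit 5) (nat_lit 20) (nat_lit 5) (nat_lit 18) (nat_lit 5) (nat_lit 325) (nat_lit 279) (nat_lit 116))) (XT.nd (nat_lit 78) (nat_lit 0) (nat_lit 0) (XT.lf (nat_lit 0) (nat_lit 23876233015) (nat_lit 152) (nat_lit 35791127619) (nat_lit 228) (nat_lit 62737180818) (nat_lit 15)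 (nat_lit 5) (nat_lit 17) (nat_lit 5) (nat_lit 18) (nat_lit 5) (nat_lit 326) (nat_lit 279) (nat_lit 115)) (XT.lf (nat_lit 0) (nat_lit 64841300093) (nat_lit 152) (nat_lit 11894113950) (nat_lit 228) (nat_lit 50510228250) (nat_lit 15) (nat_lit 5) (nat_lit 17) (nat_lit 5) (nat_lit 18) (nat_lit 5) (nat_lit 327) (nat_lit 279) (nat_lit 114)))) (XT.nd (nat_lit 156) (nat_lit 76) (nat_lit 0) (XT.nd (nat_lit 78) (nat_lit 76) (nat_lit 0) (XT.lf (nat_lit 0) (nat_lit 94862143059) (nat_lit 228) (nat_lit 24681491138) (nat_lit 76) (nat_lit 12774901982) (nat_lit 15) (nat_lit 5) (nat_lit 18) (nat_lit 5) (nat_lit 16) (nat_lit 4) (nat_lit 328) (nat_lit 279) (nat_lit 113)) (XT.lf (nat_lit 0) (nat_lit 15218401251) (nat_lit 76) (nat_lit 99108650892) (nat_lit 152) (nat_lit 23296432002) (nat_lit 14) (nat_lit 5) (nat_lit 15) (nat_lit 5) (nat_lit 16) (nat_lit 4) (nat_lit 329) (nat_lit 279) (nat_lit 112))) (XT.nd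 (nat_lit 78) (nat_lit 76) (nat_lit 0) (XT.lf (nat_lit 0) (nat_lit 57968993617) (nat_lit 76) (nat_lit 77213479301) (nat_lit 152) (nat_lit 7990344775) (nat_lit 14) (nat_lit 5) (nat_lit 15) (nat_lit 5) (nat_lit 16) (nat_lit 4) (nat_lit 330) (nat_lit 279) (nat_lit 111)) (XT.lf (nat_lit 0) (nat_lit 7821697970) (nat_lit 152) (nat_lit 46269818849) (nat_lit 76) (nat_lit 94901829310) (nat_lit 13) (nat_lit 5) (nat_lit 15) (nat_lit 5) (nat_lit 14) (nat_lit 5) (nat_lit 331) (nat_lit 279) (nat_lit 110))))) (XT.nd (nat_lit 312) (nat_lit 76) (nat_lit 0) (XT.nd (nat_lit 156) (nat_lit 0) (nat_lit 0) (XT.nd (nat_lit 78) (nat_lit 152) (nat_lit 0) (XT.lf (nat_lit 0) (nat_lit 24155143563) (nat_lit 152) (nat_lit 5521196658) (nat_lit 76) (nat_lit 125422046159) (nat_lit 13) (nat_lit 5) (nat_lit 15) (nat_lit 5) (nat_lit 14) (nat_lit 5) (nat_lit 332) (nat_lit 279) (nat_lit 109)) (XT.lf (nat_lit 0) (nat_lit 38495924701)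 (nat_lit 152) (nat_lit 3409726659) (nat_lit 228) (nat_lit 119573009016) (nat_lit 11) (nat_lit 5) (nat_lit 13) (nat_lit 5) (nat_lit 14) (nat_lit 5) (nat_lit 333) (nat_lit 279) (nat_lit 108))) (XT.nd (nat_lit 78) (nat_lit 0) (nat_lit 0) (XT.lf (nat_lit 0) (nat_lit 61015455221) (nat_lit 228) (nat_lit 83647636250) (nat_lit 76) (nat_lit 23491269240) (nat_lit 11) (nat_lit 5) (nat_lit 14) (nat_lit 5) (nat_lit 12) (nat_lit 4) (nat_lit 334) (nat_lit 279) (nat_lit 107)) (XT.lf (nat_lit 0) (nat_lit 81136045334) (nat_lit 228) (nat_lit 42402680253) (nat_lit 76) (nat_lit 51622356786) (nat_lit 11) (nat_lit 5) (nat_lit 14) (nat_lit 5) (nat_lit 12) (nat_lit 4) (nat_lit 335) (nat_lit 279) (nat_lit 106)))) (XT.nd (nat_lit 156) (nat_lit 0) (nat_lit 0) (XT.nd (nat_lit 78) (nat_lit 0) (nat_lit 0) (XT.lf (nat_lit 0) (nat_lit 933446081) (nat_lit 76) (nat_lit 101343220107) (nat_lit 152) (nat_lit 80240774931)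 (nat_lit 10) (nat_lit 5) (nat_lit 11) (nat_lit 5) (nat_lit 12) (nat_lit 4) (nat_lit 336) (nat_lit 279) (nat_lit 105)) (XT.lf (nat_lit 0) (nat_lit 47907565860) (nat_lit 76) (nat_lit 77284302272) (nat_lit 152) (nat_lit 65013873181) (nat_lit 10) (nat_lit 5) (nat_lit 11) (nat_lit 5) (nat_lit 12) (nat_lit 4) (nat_lit 337) (nat_lit 279) (nat_lit 104))) (XT.nd (nat_lit 78) (nat_lit 0) (nat_lit 0) (XT.lf (nat_lit 0) (nat_lit 97229498119) (nat_lit 76) (nat_lit 52022798853) (nat_lit 152) (nat_lit 49026187167) (nat_lit 10) (nat_lit 5) (nat_lit 11) (nat_lit 5) (nat_lit 12) (nat_lit 4) (nat_lit 338) (nat_lit 279) (nat_lit 103)) (XT.nd (nat_lit 78) (nat_lit 0) (nat_lit 0) (XT.lf (nat_lit 0) (nat_lit 149016676030) (nat_lit 76) (nat_lit 25498563413) (nat_lit 152) (nat_lit 32239650972) (nat_lit 10) (nat_lit 5) (nat_lit 11) (nat_lit 5) (nat_lit 12) (nat_lit 4) (nat_lit 339) (nat_lit 279) (nat_lit 102))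 (XT.lf (nat_lit 0) (nat_lit 201077559804) (nat_lit 152) (nat_lit 12299454057) (nat_lit 0) (nat_lit 2276292479) (nat_lit 10) (nat_lit 5) (nat_lit 12) (nat_lit 4) (nat_lit 10) (nat_lit 4) (nat_lit 340) (nat_lit 279) (nat_lit 101))))))) (XT.nd (nat_lit 32994) (nat_lit 0) (nat_lit 4484) (XT.nd (nat_lit 312) (nat_lit 76) (nat_lit 0) (XT.nd (nat_lit 156) (nat_lit 0) (nat_lit 0) (XT.nd (nat_lit 78) (nat_lit 0) (nat_lit 0) (XT.lf (nat_lit 0) (nat_lit 4842279597) (nat_lit 152) (nat_lit 188876195838) (nat_lit 76) (nat_lit 31225166491) (nat_lit 8) (nat_lit 5) (nat_lit 10) (nat_lit 5) (nat_lit 9) (nat_lit 4) (nat_lit 341) (nat_lit 279) (nat_lit 100)) (XT.lf (nat_lit 0) (nat_lit 24952614614) (nat_lit 152) (nat_lit 147651534471) (nat_lit 76) (nat_lit 62071836218) (nat_lit 8) (nat_lit 5) (nat_lit 10) (nat_lit 5) (nat_lit 9) (nat_lit 4) (nat_lit 342) (nat_lit 279) (nat_lit 99))) (XT.nd (nat_lit 78)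 (nat_lit 0) (nat_lit 0) (XT.lf (nat_lit 0) (nat_lit 46068024786) (nat_lit 152) (nat_lit 104366396397) (nat_lit 76) (nat_lit 94460547463) (nat_lit 8) (nat_lit 5) (nat_lit 10) (nat_lit 5) (nat_lit 9) (nat_lit 4) (nat_lit 343) (nat_lit 279) (nat_lit 98)) (XT.lf (nat_lit 0) (nat_lit 68238784899) (nat_lit 152) (nat_lit 58917721764) (nat_lit 76) (nat_lit 128468416207) (nat_lit 8) (nat_lit 5) (nat_lit 10) (nat_lit 5) (nat_lit 9) (nat_lit 4) (nat_lit 344) (nat_lit 279) (nat_lit 97)))) (XT.nd (nat_lit 32448) (nat_lit 0) (nat_lit 4408) (XT.nd (nat_lit 78) (nat_lit 76) (nat_lit 0) (XT.lf (nat_lit 0) (nat_lit 91517682478) (nat_lit 152) (nat_lit 11197299441) (nat_lit 76) (nat_lit 164176413566) (nat_lit 8) (nat_lit 5) (nat_lit 10) (nat_lit 5) (nat_lit 9) (nat_lit 4) (nat_lit 345) (nat_lit 279) (nat_lit 96)) (XT.lf (nat_lit 0) (nat_lit 40194981039) (nat_lit 76) (nat_lit 76392718729) (nat_lit 152)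 (nat_lit 162102133841) (nat_lit 7) (nat_lit 5) (nat_lit 8) (nat_lit 5) (nat_lit 9) (nat_lit 4) (nat_lit 346) (nat_lit 279) (nat_lit 95))) (XT.nd (nat_lit 78) (nat_lit 0) (nat_lit 0) (XT.lf (nat_lit 0) (nat_lit 1687421163) (nat_lit 0) (nat_lit 1687421163) (nat_lit 684) (nat_lit 11131948150) (nat_lit 65) (nat_lit 5) (nat_lit 65) (nat_lit 3) (nat_lit 74) (nat_lit 3) (nat_lit 280) (nat_lit 280) (nat_lit 160)) (XT.nd (nat_lit 78) (nat_lit 0) (nat_lit 0) (XT.lf (nat_lit 0) (nat_lit 7130481490) (nat_lit 684) (nat_lit 13821060821) (nat_lit 760) (nat_lit 8776494308) (nat_lit 65) (nat_lit 5) (nat_lit 74) (nat_lit 3) (nat_lit 75) (nat_lit 5) (nat_lit 281) (nat_lit 280) (nat_lit 159)) (XT.lf (nat_lit 0) (nat_lit 7581165906) (nat_lit 684) (nat_lit 1470359659) (nat_lit 760) (nat_lit 21424165111) (nat_lit 65) (nat_lit 5) (nat_lit 74) (nat_lit 3) (nat_lit 75) (nat_lit 5) (nat_lit 282) (nat_lit 280)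 (nat_lit 158)))))) (XT.nd (nat_lit 312) (nat_lit 0) (nat_lit 76) (XT.nd (nat_lit 156) (nat_lit 0) (nat_lit 0) (XT.nd (nat_lit 78) (nat_lit 0) (nat_lit 0) (XT.lf (nat_lit 0) (nat_lit 8292361850) (nat_lit 684) (nat_lit 19432964291) (nat_lit 760) (nat_lit 3523519567) (nat_lit 66) (nat_lit 5) (nat_lit 75) (nat_lit 5) (nat_lit 76) (nat_lit 5) (nat_lit 283) (nat_lit 280) (nat_lit 157)) (XT.lf (nat_lit 0) (nat_lit 9208741267) (nat_lit 684) (nat_lit 6393348915) (nat_lit 760) (nat_lit 16450103450) (nat_lit 66) (nat_lit 5) (nat_lit 75) (nat_lit 5) (nat_lit 76) (nat_lit 5) (nat_lit 284) (nat_lit 280) (nat_lit 156))) (XT.nd (nat_lit 78) (nat_lit 0) (nat_lit 76) (XT.lf (nat_lit 76) (nat_lit 7536978843) (nat_lit 0) (nat_lit 2747756593) (nat_lit 760) (nat_lit 22605299270) (nat_lit 67) (nat_lit 5) (nat_lit 66) (nat_lit 5) (nat_lit 76) (nat_lit 5) (nat_lit 285) (nat_lit 280) (nat_lit 155)) (XT.lf (nat_lit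 0) (nat_lit 11688693918) (nat_lit 684) (nat_lit 11550849795) (nat_lit 760) (nat_lit 10516530697) (nat_lit 67) (nat_lit 5) (nat_lit 76) (nat_lit 5) (nat_lit 77) (nat_lit 5) (nat_lit 286) (nat_lit 280) (nat_lit 154)))) (XT.nd (nat_lit 156) (nat_lit 0) (nat_lit 76) (XT.nd (nat_lit 78) (nat_lit 0) (nat_lit 76) (XT.lf (nat_lit 76) (nat_lit 2989553660) (nat_lit 0) (nat_lit 10261482454) (nat_lit 760) (nat_lit 21409984795) (nat_lit 68) (nat_lit 5) (nat_lit 67) (nat_lit 5) (nat_lit 77) (nat_lit 5) (nat_lit 287) (nat_lit 280) (nat_lit 153)) (XT.lf (nat_lit 0) (nat_lit 15139474504) (nat_lit 684) (nat_lit 17001897163) (nat_lit 760) (nat_lit 3457457540) (nat_lit 68) (nat_lit 5) (nat_lit 77) (nat_lit 5) (nat_lit 78) (nat_lit 5) (nat_lit 288) (nat_lit 280) (nat_lit 152))) (XT.nd (nat_lit 78) (nat_lit 0) (nat_lit 0) (XT.lf (nat_lit 0) (nat_lit 17287325717) (nat_lit 684) (nat_lit 1769649241) (nat_lit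 760) (nat_lit 17518316206) (nat_lit 68) (nat_lit 5) (nat_lit 77) (nat_lit 5) (nat_lit 78) (nat_lit 5) (nat_lit 289) (nat_lit 280) (nat_lit 151)) (XT.nd (nat_lit 78) (nat_lit 0) (nat_lit 76) (XT.lf (nat_lit 76) (nat_lit 14691989695) (nat_lit 0) (nat_lit 5076886624) (nat_lit 760) (nat_lit 17820396738) (nat_lit 69) (nat_lit 5) (nat_lit 68) (nat_lit 5) (nat_lit 78) (nat_lit 5) (nat_lit 290) (nat_lit 280) (nat_lit 150)) (XT.lf (nat_lit 0) (nat_lit 22551924018) (nat_lit 684) (nat_lit 6767301153) (nat_lit 76) (nat_lit 9325869496) (nat_lit 69) (nat_lit 5) (nat_lit 78) (nat_lit 5) (nat_lit 70) (nat_lit 5) (nat_lit 291) (nat_lit 280) (nat_lit 149))))))))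
noncomputable def xc220 : XT := (XT.nd (nat_lit 1326) (nat_lit 1216) (nat_lit 0) (XT.nd (nat_lit 624) (nat_lit 1064) (nat_lit 0) (XT.nd (nat_lit 312) (nat_lit 684) (nat_lit 0) (XT.nd (nat_lit 156) (nat_lit 304) (nat_lit 0) (XT.nd (nat_lit 78) (nat_lit 0) (nat_lit 0) (XT.lf (nat_lit 0) (nat_lit 10416895614) (nat_lit 684) (nat_lit 15300275013) (nat_lit 760) (nat_lit 14024395451) (nat_lit 60) (nat_lit 5) (nat_lit 69) (nat_lit 5) (nat_lit 70) (nat_lit 5) (nat_lit 292) (nat_lit 280) (nat_lit 148)) (XT.lf (nat_lit 0) (nat_lit 28692824737) (nat_lit 684) (nat_lit 459740659) (nat_lit 760) (nat_lit 11734711895) (nat_lit 60) (nat_lit 5) (nat_lit 69) (nat_lit 5) (nat_lit 70) (nat_lit 5) (nat_lit 293) (nat_lit 280) (nat_lit 147))) (XT.nd (nat_lit 78) (nat_lit 0) (nat_lit 0) (XT.lf (nat_lit 0) (nat_lit 5737345954) (nat_lit 304) (nat_lit 27345481962) (nat_lit 380) (nat_lit 8991301267) (nat_lit 56)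 (nat_lit 5) (nat_lit 60) (nat_lit 5) (nat_lit 61) (nat_lit 5) (nat_lit 294) (nat_lit 280) (nat_lit 146)) (XT.lf (nat_lit 0) (nat_lit 24978900267) (nat_lit 304) (nat_lit 12442135339) (nat_lit 380) (nat_lit 5888726004) (nat_lit 56) (nat_lit 5) (nat_lit 60) (nat_lit 5) (nat_lit 61) (nat_lit 5) (nat_lit 295) (nat_lit 280) (nat_lit 145)))) (XT.nd (nat_lit 156) (nat_lit 304) (nat_lit 0) (XT.nd (nat_lit 78) (nat_lit 76) (nat_lit 0) (XT.lf (nat_lit 0) (nat_lit 540157736) (nat_lit 304) (nat_lit 41492108282) (nat_lit 380) (nat_lit 2572113114) (nat_lit 52) (nat_lit 5) (nat_lit 56) (nat_lit 5) (nat_lit 57) (nat_lit 5) (nat_lit 296) (nat_lit 280) (nat_lit 144)) (XT.lf (nat_lit 0) (nat_lit 1398343174) (nat_lit 380) (nat_lit 25182816621) (nat_lit 76) (nat_lit 19356007888) (nat_lit 51) (nat_lit 5) (nat_lit 56) (nat_lit 5) (nat_lit 52) (nat_lit 5) (nat_lit 297) (nat_lit 280) (nat_lit 143))) (XT.nd (nat_lit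 78) (nat_lit 304) (nat_lit 0) (XT.lf (nat_lit 0) (nat_lit 5478642755) (nat_lit 380) (nat_lit 5401863224) (nat_lit 76) (nat_lit 36454101226) (nat_lit 51) (nat_lit 5) (nat_lit 56) (nat_lit 5) (nat_lit 52) (nat_lit 5) (nat_lit 298) (nat_lit 280) (nat_lit 142)) (XT.lf (nat_lit 0) (nat_lit 10100235065) (nat_lit 380) (nat_lit 33007254683) (nat_lit 76) (nat_lit 5677572547) (nat_lit 47) (nat_lit 5) (nat_lit 52) (nat_lit 5) (nat_lit 48) (nat_lit 5) (nat_lit 299) (nat_lit 280) (nat_lit 141))))) (XT.nd (nat_lit 312) (nat_lit 532) (nat_lit 0) (XT.nd (nat_lit 156) (nat_lit 228) (nat_lit 0) (XT.nd (nat_lit 78) (nat_lit 304) (nat_lit 0) (XT.lf (nat_lit 0) (nat_lit 15222190724) (nat_lit 380) (nat_lit 12281647836) (nat_lit 76) (nat_lit 22790744513) (nat_lit 47) (nat_lit 5) (nat_lit 52) (nat_lit 5) (nat_lit 48) (nat_lit 5) (nat_lit 300) (nat_lit 280) (nat_lit 140)) (XT.lf (nat_lit 0) (nat_lit 9791420564)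 (nat_lit 304) (nat_lit 10959725490) (nat_lit 380) (nat_lit 31120895523) (nat_lit 43) (nat_lit 5) (nat_lit 47) (nat_lit 5) (nat_lit 48) (nat_lit 5) (nat_lit 301) (nat_lit 280) (nat_lit 139))) (XT.nd (nat_lit 78) (nat_lit 228) (nat_lit 0) (XT.lf (nat_lit 0) (nat_lit 26866143731) (nat_lit 380) (nat_lit 20229220173) (nat_lit 76) (nat_lit 6417535834) (nat_lit 43) (nat_lit 5) (nat_lit 48) (nat_lit 5) (nat_lit 44) (nat_lit 5) (nat_lit 302) (nat_lit 280) (nat_lit 138)) (XT.lf (nat_lit 0) (nat_lit 2616673241) (nat_lit 228) (nat_lit 30888916642) (nat_lit 304) (nat_lit 21719282144) (nat_lit 40) (nat_lit 5) (nat_lit 43) (nat_lit 5) (nat_lit 44) (nat_lit 5) (nat_lit 303) (nat_lit 280) (nat_lit 137)))) (XT.nd (nat_lit 156) (nat_lit 532) (nat_lit 0) (XT.nd (nat_lit 78) (nat_lit 0) (nat_lit 0) (XT.lf (nat_lit 0) (nat_lit 27305049283) (nat_lit 228) (nat_lit 13512781668) (nat_lit 304) (nat_lit 16187576710)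 (nat_lit 40) (nat_lit 5) (nat_lit 43) (nat_lit 5) (nat_lit 44) (nat_lit 5) (nat_lit 304) (nat_lit 280) (nat_lit 136)) (XT.lf (nat_lit 0) (nat_lit 48567876277) (nat_lit 304) (nat_lit 5723116459) (nat_lit 76) (nat_lit 4580373309) (nat_lit 40) (nat_lit 5) (nat_lit 44) (nat_lit 5) (nat_lit 41) (nat_lit 5) (nat_lit 305) (nat_lit 280) (nat_lit 135))) (XT.nd (nat_lit 78) (nat_lit 304) (nat_lit 0) (XT.lf (nat_lit 0) (nat_lit 19865271452) (nat_lit 228) (nat_lit 37370216390) (nat_lit 304) (nat_lit 3568636622) (nat_lit 37) (nat_lit 5) (nat_lit 40) (nat_lit 5) (nat_lit 41) (nat_lit 5) (nat_lit 306) (nat_lit 280) (nat_lit 134)) (XT.nd (nat_lit 78) (nat_lit 228) (nat_lit 0) (XT.lf (nat_lit 0) (nat_lit 3487760945) (nat_lit 304) (nat_lit 15955215091) (nat_lit 76) (nat_lit 43382969121) (nat_lit 36) (nat_lit 5) (nat_lit 40) (nat_lit 5) (nat_lit 37) (nat_lit 5) (nat_lit 307) (nat_lit 280) (nat_lit 133))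 (XT.lf (nat_lit 0) (nat_lit 10554991965) (nat_lit 228) (nat_lit 385331433) (nat_lit 304) (nat_lit 53997449235) (nat_lit 33) (nat_lit 5) (nat_lit 36) (nat_lit 5) (nat_lit 37) (nat_lit 5) (nat_lit 308) (nat_lit 280) (nat_lit 132))))))) (XT.nd (nat_lit 702) (nat_lit 532) (nat_lit 0) (XT.nd (nat_lit 312) (nat_lit 456) (nat_lit 0) (XT.nd (nat_lit 156) (nat_lit 228) (nat_lit 0) (XT.nd (nat_lit 78) (nat_lit 0) (nat_lit 0) (XT.lf (nat_lit 0) (nat_lit 19345074681) (nat_lit 304) (nat_lit 28509852980) (nat_lit 76) (nat_lit 19271290158) (nat_lit 33) (nat_lit 5) (nat_lit 37) (nat_lit 5) (nat_lit 34) (nat_lit 5) (nat_lit 309) (nat_lit 280) (nat_lit 131)) (XT.lf (nat_lit 0) (nat_lit 28174968491) (nat_lit 304) (nat_lit 1351478119) (nat_lit 76) (nat_lit 39897397571) (nat_lit 33) (nat_lit 5) (nat_lit 37) (nat_lit 5) (nat_lit 34) (nat_lit 5) (nat_lit 310) (nat_lit 280) (nat_lit 130))) (XT.nd (nat_lit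 78) (nat_lit 0) (nat_lit 0) (XT.lf (nat_lit 0) (nat_lit 28061155023) (nat_lit 228) (nat_lit 9821970529) (nat_lit 304) (nat_lit 33931391845) (nat_lit 30) (nat_lit 5) (nat_lit 33) (nat_lit 5) (nat_lit 34) (nat_lit 5) (nat_lit 311) (nat_lit 280) (nat_lit 129)) (XT.lf (nat_lit 0) (nat_lit 48268314003) (nat_lit 304) (nat_lit 15504116540) (nat_lit 76) (nat_lit 10542716332) (nat_lit 30) (nat_lit 5) (nat_lit 34) (nat_lit 5) (nat_lit 31) (nat_lit 5) (nat_lit 312) (nat_lit 280) (nat_lit 128)))) (XT.nd (nat_lit 156) (nat_lit 304) (nat_lit 0) (XT.nd (nat_lit 78) (nat_lit 0) (nat_lit 0) (XT.lf (nat_lit 0) (nat_lit 14457569296) (nat_lit 152) (nat_lit 45100678973) (nat_lit 228) (nat_lit 17363288835) (nat_lit 28) (nat_lit 5) (nat_lit 30) (nat_lit 5) (nat_lit 31) (nat_lit 5) (nat_lit 313) (nat_lit 280) (nat_lit 127)) (XT.lf (nat_lit 0) (nat_lit 46453896505) (nat_lit 152) (nat_lit 25220132710) (nat_lit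 228) (nat_lit 7971153556) (nat_lit 28) (nat_lit 5) (nat_lit 30) (nat_lit 5) (nat_lit 31) (nat_lit 5) (nat_lit 314) (nat_lit 280) (nat_lit 126))) (XT.nd (nat_lit 78) (nat_lit 228) (nat_lit 0) (XT.lf (nat_lit 0) (nat_lit 1828893978) (nat_lit 228) (nat_lit 2486159654) (nat_lit 76) (nat_lit 78188543520) (nat_lit 27) (nat_lit 5) (nat_lit 30) (nat_lit 5) (nat_lit 28) (nat_lit 5) (nat_lit 315) (nat_lit 280) (nat_lit 125)) (XT.nd (nat_lit 78) (nat_lit 0) (nat_lit 0) (XT.lf (nat_lit 0) (nat_lit 12613010303) (nat_lit 304) (nat_lit 55158480339) (nat_lit 76) (nat_lit 17688813365) (nat_lit 24) (nat_lit 5) (nat_lit 28) (nat_lit 5) (nat_lit 25) (nat_lit 5) (nat_lit 316) (nat_lit 280) (nat_lit 124)) (XT.lf (nat_lit 0) (nat_lit 24048760014) (nat_lit 304) (nat_lit 23820266566) (nat_lit 76) (nat_lit 40690201066) (nat_lit 24) (nat_lit 5) (nat_lit 28) (nat_lit 5) (nat_lit 25) (nat_lit 5) (nat_lit 317) (nat_lit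 280) (nat_lit 123)))))) (XT.nd (nat_lit 312) (nat_lit 228) (nat_lit 0) (XT.nd (nat_lit 156) (nat_lit 152) (nat_lit 0) (XT.nd (nat_lit 78) (nat_lit 0) (nat_lit 0) (XT.lf (nat_lit 0) (nat_lit 9383653636) (nat_lit 152) (nat_lit 26818095783) (nat_lit 228) (nat_lit 55604078119) (nat_lit 22) (nat_lit 5) (nat_lit 24) (nat_lit 5) (nat_lit 25) (nat_lit 5) (nat_lit 318) (nat_lit 280) (nat_lit 122)) (XT.lf (nat_lit 0) (nat_lit 45073240776) (nat_lit 152) (nat_lit 4291528827) (nat_lit 228) (nat_lit 45829871314) (nat_lit 22) (nat_lit 5) (nat_lit 24) (nat_lit 5) (nat_lit 25) (nat_lit 5) (nat_lit 319) (nat_lit 280) (nat_lit 121))) (XT.nd (nat_lit 78) (nat_lit 152) (nat_lit 0) (XT.lf (nat_lit 0) (nat_lit 63487241167) (nat_lit 228) (nat_lit 16509359732) (nat_lit 76) (nat_lit 18741231481) (nat_lit 22) (nat_lit 5) (nat_lit 25) (nat_lit 5) (nat_lit 23) (nat_lit 5) (nat_lit 320) (nat_lit 280) (nat_lit 120))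 (XT.lf (nat_lit 0) (nat_lit 19330200864) (nat_lit 152) (nat_lit 59356849061) (nat_lit 228) (nat_lit 23752575130) (nat_lit 20) (nat_lit 5) (nat_lit 22) (nat_lit 5) (nat_lit 23) (nat_lit 5) (nat_lit 321) (nat_lit 280) (nat_lit 119)))) (XT.nd (nat_lit 156) (nat_lit 152) (nat_lit 0) (XT.nd (nat_lit 78) (nat_lit 76) (nat_lit 0) (XT.lf (nat_lit 0) (nat_lit 57533513975) (nat_lit 152) (nat_lit 37392014129) (nat_lit 228) (nat_lit 11387047518) (nat_lit 20) (nat_lit 5) (nat_lit 22) (nat_lit 5) (nat_lit 23) (nat_lit 5) (nat_lit 322) (nat_lit 280) (nat_lit 118)) (XT.lf (nat_lit 0) (nat_lit 1544762533) (nat_lit 228) (nat_lit 12758469041) (nat_lit 76) (nat_lit 96074742042) (nat_lit 19) (nat_lit 5) (nat_lit 22) (nat_lit 5) (nat_lit 20) (nat_lit 5) (nat_lit 323) (nat_lit 280) (nat_lit 117))) (XT.nd (nat_lit 78) (nat_lit 0) (nat_lit 0) (XT.lf (nat_lit 0) (nat_lit 15305672400) (nat_lit 228) (nat_lit 89084440234)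 (nat_lit 76) (nat_lit 10218937699) (nat_lit 17) (nat_lit 5) (nat_lit 20) (nat_lit 5) (nat_lit 18) (nat_lit 5) (nat_lit 324) (nat_lit 280) (nat_lit 116)) (XT.nd (nat_lit 78) (nat_lit 0) (nat_lit 0) (XT.lf (nat_lit 0) (nat_lit 30207887873) (nat_lit 228) (nat_lit 53115419025) (nat_lit 76) (nat_lit 35705712799) (nat_lit 17) (nat_lit 5) (nat_lit 20) (nat_lit 5) (nat_lit 18) (nat_lit 5) (nat_lit 325) (nat_lit 280) (nat_lit 115)) (XT.lf (nat_lit 0) (nat_lit 45854421658) (nat_lit 228) (nat_lit 15349193196) (nat_lit 76) (nat_lit 62466414027) (nat_lit 17) (nat_lit 5) (nat_lit 20) (nat_lit 5) (nat_lit 18) (nat_lit 5) (nat_lit 326) (nat_lit 280) (nat_lit 114))))))))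
noncomputable def xc221 : XT := (XT.nd (nat_lit 1326) (nat_lit 0) (nat_lit 0) (XT.nd (nat_lit 624) (nat_lit 228) (nat_lit 0) (XT.nd (nat_lit 312) (nat_lit 228) (nat_lit 0) (XT.nd (nat_lit 156) (nat_lit 76) (nat_lit 0) (XT.nd (nat_lit 78) (nat_lit 0) (nat_lit 0) (XT.lf (nat_lit 0) (nat_lit 25107762021) (nat_lit 152) (nat_lit 37566767916) (nat_lit 228) (nat_lit 65848997847) (nat_lit 15) (nat_lit 5) (nat_lit 17) (nat_lit 5) (nat_lit 18) (nat_lit 5) (nat_lit 327) (nat_lit 280) (nat_lit 113)) (XT.lf (nat_lit 0) (nat_lit 68119286388) (nat_lit 152) (nat_lit 12475566235) (nat_lit 228) (nat_lit 53011890127) (nat_lit 15) (nat_lit 5) (nat_lit 17) (nat_lit 5) (nat_lit 18) (nat_lit 5) (nat_lit 328) (nat_lit 280) (nat_lit 112))) (XT.nd (nat_lit 78) (nat_lit 76) (nat_lit 0) (XT.lf (nat_lit 0) (nat_lit 99627035736) (nat_lit 228) (nat_lit 25880426622) (nat_lit 76) (nat_lit 13425865387) (nat_lit 15)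 (nat_lit 5) (nat_lit 18) (nat_lit 5) (nat_lit 16) (nat_lit 4) (nat_lit 329) (nat_lit 280) (nat_lit 111)) (XT.lf (nat_lit 0) (nat_lit 16013893627) (nat_lit 76) (nat_lit 104050799012) (nat_lit 152) (nat_lit 24438857541) (nat_lit 14) (nat_lit 5) (nat_lit 15) (nat_lit 5) (nat_lit 16) (nat_lit 4) (nat_lit 330) (nat_lit 280) (nat_lit 110)))) (XT.nd (nat_lit 156) (nat_lit 152) (nat_lit 0) (XT.nd (nat_lit 78) (nat_lit 76) (nat_lit 0) (XT.lf (nat_lit 0) (nat_lit 60900369310) (nat_lit 76) (nat_lit 81061501434) (nat_lit 152) (nat_lit 8368532432) (nat_lit 14) (nat_lit 5) (nat_lit 15) (nat_lit 5) (nat_lit 16) (nat_lit 4) (nat_lit 331) (nat_lit 280) (nat_lit 109)) (XT.lf (nat_lit 0) (nat_lit 8232446585) (nat_lit 152) (nat_lit 48551263696) (nat_lit 76) (nat_lit 99658282152) (nat_lit 13) (nat_lit 5) (nat_lit 15) (nat_lit 5) (nat_lit 14) (nat_lit 5) (nat_lit 332) (nat_lit 280) (nat_lit 108))) (XT.nd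 (nat_lit 78) (nat_lit 152) (nat_lit 0) (XT.lf (nat_lit 0) (nat_lit 25381628089) (nat_lit 152) (nat_lit 5766736400) (nat_lit 76) (nat_lit 131703968826) (nat_lit 13) (nat_lit 5) (nat_lit 15) (nat_lit 5) (nat_lit 14) (nat_lit 5) (nat_lit 333) (nat_lit 280) (nat_lit 107)) (XT.lf (nat_lit 0) (nat_lit 40450748767) (nat_lit 152) (nat_lit 3568489550) (nat_lit 228) (nat_lit 125532405558) (nat_lit 11) (nat_lit 5) (nat_lit 13) (nat_lit 5) (nat_lit 14) (nat_lit 5) (nat_lit 334) (nat_lit 280) (nat_lit 106))))) (XT.nd (nat_lit 312) (nat_lit 152) (nat_lit 0) (XT.nd (nat_lit 156) (nat_lit 76) (nat_lit 0) (XT.nd (nat_lit 78) (nat_lit 0) (nat_lit 0) (XT.lf (nat_lit 0) (nat_lit 64083835053) (nat_lit 228) (nat_lit 87800690143) (nat_lit 76) (nat_lit 24676640529) (nat_lit 11) (nat_lit 5) (nat_lit 14) (nat_lit 5) (nat_lit 12) (nat_lit 4) (nat_lit 335) (nat_lit 280) (nat_lit 105)) (XT.lf (nat_lit 0) (nat_lit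 85209616240) (nat_lit 228) (nat_lit 44494882914) (nat_lit 76) (nat_lit 54213767794) (nat_lit 11) (nat_lit 5) (nat_lit 14) (nat_lit 5) (nat_lit 12) (nat_lit 4) (nat_lit 336) (nat_lit 280) (nat_lit 104))) (XT.nd (nat_lit 78) (nat_lit 0) (nat_lit 0) (XT.lf (nat_lit 0) (nat_lit 1007599232) (nat_lit 76) (nat_lit 106399299452) (nat_lit 152) (nat_lit 84235564903) (nat_lit 10) (nat_lit 5) (nat_lit 11) (nat_lit 5) (nat_lit 12) (nat_lit 4) (nat_lit 337) (nat_lit 280) (nat_lit 103)) (XT.lf (nat_lit 0) (nat_lit 50329116388) (nat_lit 76) (nat_lit 81137963423) (nat_lit 152) (nat_lit 68248139435) (nat_lit 10) (nat_lit 5) (nat_lit 11) (nat_lit 5) (nat_lit 12) (nat_lit 4) (nat_lit 338) (nat_lit 280) (nat_lit 102)))) (XT.nd (nat_lit 156) (nat_lit 152) (nat_lit 0) (XT.nd (nat_lit 78) (nat_lit 0) (nat_lit 0) (XT.lf (nat_lit 0) (nat_lit 102115898963) (nat_lit 76) (nat_lit 54613887403) (nat_lit 152) (nat_lit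 51461851378) (nat_lit 10) (nat_lit 5) (nat_lit 11) (nat_lit 5) (nat_lit 12) (nat_lit 4) (nat_lit 339) (nat_lit 280) (nat_lit 101)) (XT.lf (nat_lit 0) (nat_lit 156491248820) (nat_lit 76) (nat_lit 26763918829) (nat_lit 152) (nat_lit 33836733380) (nat_lit 10) (nat_lit 5) (nat_lit 11) (nat_lit 5) (nat_lit 12) (nat_lit 4) (nat_lit 340) (nat_lit 280) (nat_lit 100))) (XT.nd (nat_lit 78) (nat_lit 152) (nat_lit 0) (XT.lf (nat_lit 0) (nat_lit 211145071785) (nat_lit 152) (nat_lit 12891261581) (nat_lit 0) (nat_lit 2398932214) (nat_lit 10) (nat_lit 5) (nat_lit 12) (nat_lit 4) (nat_lit 10) (nat_lit 4) (nat_lit 341) (nat_lit 280) (nat_lit 99)) (XT.nd (nat_lit 78) (nat_lit 0) (nat_lit 0) (XT.lf (nat_lit 0) (nat_lit 5097975341) (nat_lit 152) (nat_lit 198296742899) (nat_lit 76) (nat_lit 32795404585) (nat_lit 8) (nat_lit 5) (nat_lit 10) (nat_lit 5) (nat_lit 9) (nat_lit 4) (nat_lit 342) (nat_lit 280) (nat_lit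 98)) (XT.lf (nat_lit 0) (nat_lit 26213180358) (nat_lit 152) (nat_lit 155011956212) (nat_lit 76) (nat_lit 65183980189) (nat_lit 8) (nat_lit 5) (nat_lit 10) (nat_lit 5) (nat_lit 9) (nat_lit 4) (nat_lit 343) (nat_lit 280) (nat_lit 97))))))) (XT.nd (nat_lit 33150) (nat_lit 0) (nat_lit 3648) (XT.nd (nat_lit 32760) (nat_lit 0) (nat_lit 4332) (XT.nd (nat_lit 32604) (nat_lit 0) (nat_lit 4332) (XT.nd (nat_lit 78) (nat_lit 0) (nat_lit 0) (XT.lf (nat_lit 0) (nat_lit 48383745086) (nat_lit 152) (nat_lit 109563616234) (nat_lit 76) (nat_lit 99191719752) (nat_lit 8) (nat_lit 5) (nat_lit 10) (nat_lit 5) (nat_lit 9) (nat_lit 4) (nat_lit 344) (nat_lit 280) (nat_lit 96)) (XT.lf (nat_lit 0) (nat_lit 71662456583) (nat_lit 152) (nat_lit 61843512630) (nat_lit 76) (nat_lit 134899594080) (nat_lit 8) (nat_lit 5) (nat_lit 10) (nat_lit 5) (nat_lit 9) (nat_lit 4) (nat_lit 345) (nat_lit 280) (nat_lit 95))) (XT.nd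 (nat_lit 78) (nat_lit 0) (nat_lit 0) (XT.lf (nat_lit 0) (nat_lit 1806491063) (nat_lit 0) (nat_lit 1806491063) (nat_lit 684) (nat_lit 11615401256) (nat_lit 65) (nat_lit 5) (nat_lit 65) (nat_lit 3) (nat_lit 74) (nat_lit 3) (nat_lit 281) (nat_lit 281) (nat_lit 158)) (XT.lf (nat_lit 0) (nat_lit 7618159731) (nat_lit 684) (nat_lit 14437852518) (nat_lit 760) (nat_lit 9151341381) (nat_lit 65) (nat_lit 5) (nat_lit 74) (nat_lit 3) (nat_lit 75) (nat_lit 5) (nat_lit 282) (nat_lit 281) (nat_lit 157)))) (XT.nd (nat_lit 156) (nat_lit 0) (nat_lit 76) (XT.nd (nat_lit 78) (nat_lit 0) (nat_lit 76) (XT.lf (nat_lit 0) (nat_lit 8085132931) (nat_lit 684) (nat_lit 1473152552) (nat_lit 760) (nat_lit 22434442279) (nat_lit 65) (nat_lit 5) (nat_lit 74) (nat_lit 3) (nat_lit 75) (nat_lit 5) (nat_lit 283) (nat_lit 281) (nat_lit 156)) (XT.lf (nat_lit 0) (nat_lit 8826239180) (nat_lit 684) (nat_lit 20327759817) (nat_lit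 760) (nat_lit 3650847929) (nat_lit 66) (nat_lit 5) (nat_lit 75) (nat_lit 5) (nat_lit 76) (nat_lit 5) (nat_lit 284) (nat_lit 281) (nat_lit 155))) (XT.nd (nat_lit 78) (nat_lit 0) (nat_lit 0) (XT.lf (nat_lit 0) (nat_lit 9782758557) (nat_lit 684) (nat_lit 6639823324) (nat_lit 760) (nat_lit 17226087082) (nat_lit 66) (nat_lit 5) (nat_lit 75) (nat_lit 5) (nat_lit 76) (nat_lit 5) (nat_lit 285) (nat_lit 281) (nat_lit 154)) (XT.nd (nat_lit 78) (nat_lit 0) (nat_lit 76) (XT.lf (nat_lit 76) (nat_lit 7985840289) (nat_lit 0) (nat_lit 2922427880) (nat_lit 760) (nat_lit 23620369819) (nat_lit 67) (nat_lit 5) (nat_lit 66) (nat_lit 5) (nat_lit 76) (nat_lit 5) (nat_lit 286) (nat_lit 281) (nat_lit 153)) (XT.lf (nat_lit 0) (nat_lit 12376665625) (nat_lit 684) (nat_lit 12053636992) (nat_lit 760) (nat_lit 11007985657) (nat_lit 67) (nat_lit 5) (nat_lit 76) (nat_lit 5) (nat_lit 77) (nat_lit 5) (nat_lit 287) (nat_lit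 281) (nat_lit 152)))))) (XT.nd (nat_lit 312) (nat_lit 836) (nat_lit 0) (XT.nd (nat_lit 156) (nat_lit 0) (nat_lit 76) (XT.nd (nat_lit 78) (nat_lit 0) (nat_lit 76) (XT.lf (nat_lit 76) (nat_lit 3212580905) (nat_lit 0) (nat_lit 10800762007) (nat_lit 760) (nat_lit 22375347954) (nat_lit 68) (nat_lit 5) (nat_lit 67) (nat_lit 5) (nat_lit 77) (nat_lit 5) (nat_lit 288) (nat_lit 281) (nat_lit 151)) (XT.lf (nat_lit 0) (nat_lit 15991063326) (nat_lit 684) (nat_lit 17776430316) (nat_lit 760) (nat_lit 3606171662) (nat_lit 68) (nat_lit 5) (nat_lit 77) (nat_lit 5) (nat_lit 78) (nat_lit 5) (nat_lit 289) (nat_lit 281) (nat_lit 150))) (XT.nd (nat_lit 78) (nat_lit 0) (nat_lit 0) (XT.lf (nat_lit 0) (nat_lit 18241801618) (nat_lit 684) (nat_lit 1786168175) (nat_lit 760) (nat_lit 18371223678) (nat_lit 68) (nat_lit 5) (nat_lit 77) (nat_lit 5) (nat_lit 78) (nat_lit 5) (nat_lit 290) (nat_lit 281) (nat_lit 149))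 (XT.lf (nat_lit 76) (nat_lit 15497392007) (nat_lit 0) (nat_lit 5346852241) (nat_lit 760) (nat_lit 18619806476) (nat_lit 69) (nat_lit 5) (nat_lit 68) (nat_lit 5) (nat_lit 78) (nat_lit 5) (nat_lit 291) (nat_lit 281) (nat_lit 148)))) (XT.nd (nat_lit 156) (nat_lit 304) (nat_lit 0) (XT.nd (nat_lit 78) (nat_lit 684) (nat_lit 0) (XT.lf (nat_lit 0) (nat_lit 23762065375) (nat_lit 684) (nat_lit 7033532390) (nat_lit 76) (nat_lit 9777300777) (nat_lit 69) (nat_lit 5) (nat_lit 78) (nat_lit 5) (nat_lit 70) (nat_lit 5) (nat_lit 292) (nat_lit 281) (nat_lit 147)) (XT.lf (nat_lit 0) (nat_lit 11008710767) (nat_lit 684) (nat_lit 16074040873) (nat_lit 760) (nat_lit 14641598427) (nat_lit 60) (nat_lit 5) (nat_lit 69) (nat_lit 5) (nat_lit 70) (nat_lit 5) (nat_lit 293) (nat_lit 281) (nat_lit 146))) (XT.nd (nat_lit 78) (nat_lit 304) (nat_lit 0) (XT.lf (nat_lit 0) (nat_lit 30195056804) (nat_lit 684) (nat_lit 491063034)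 (nat_lit 760) (nat_lit 12241431493) (nat_lit 60) (nat_lit 5) (nat_lit 69) (nat_lit 5) (nat_lit 70) (nat_lit 5) (nat_lit 294) (nat_lit 281) (nat_lit 145)) (XT.nd (nat_lit 78) (nat_lit 0) (nat_lit 0) (XT.lf (nat_lit 0) (nat_lit 6094865806) (nat_lit 304) (nat_lit 28715393289) (nat_lit 380) (nat_lit 9363632519) (nat_lit 56) (nat_lit 5) (nat_lit 60) (nat_lit 5) (nat_lit 61) (nat_lit 5) (nat_lit 295) (nat_lit 281) (nat_lit 144)) (XT.lf (nat_lit 0) (nat_lit 26295133428) (nat_lit 304) (nat_lit 13066753754) (nat_lit 380) (nat_lit 6109606293) (nat_lit 56) (nat_lit 5) (nat_lit 60) (nat_lit 5) (nat_lit 61) (nat_lit 5) (nat_lit 296) (nat_lit 281) (nat_lit 143))))))))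
noncomputable def xc222 : XT := (XT.nd (nat_lit 1326) (nat_lit 1216) (nat_lit 0) (XT.nd (nat_lit 624) (nat_lit 760) (nat_lit 0) (XT.nd (nat_lit 312) (nat_lit 532) (nat_lit 0) (XT.nd (nat_lit 156) (nat_lit 304) (nat_lit 0) (XT.nd (nat_lit 78) (nat_lit 76) (nat_lit 0) (XT.lf (nat_lit 0) (nat_lit 637102691) (nat_lit 304) (nat_lit 43564307189) (nat_lit 380) (nat_lit 2629558131) (nat_lit 52) (nat_lit 5) (nat_lit 56) (nat_lit 5) (nat_lit 57) (nat_lit 5) (nat_lit 297) (nat_lit 281) (nat_lit 142)) (XT.lf (nat_lit 0) (nat_lit 1533863242) (nat_lit 380) (nat_lit 26372951614) (nat_lit 76) (nat_lit 20323701089) (nat_lit 51) (nat_lit 5) (nat_lit 56) (nat_lit 5) (nat_lit 52) (nat_lit 5) (nat_lit 298) (nat_lit 281) (nat_lit 141))) (XT.nd (nat_lit 78) (nat_lit 304) (nat_lit 0) (XT.lf (nat_lit 0) (nat_lit 5815053854) (nat_lit 380) (nat_lit 5606236540) (nat_lit 76) (nat_lit 38276704198) (nat_lit 51) (nat_lit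 5) (nat_lit 56) (nat_lit 5) (nat_lit 52) (nat_lit 5) (nat_lit 299) (nat_lit 281) (nat_lit 140)) (XT.lf (nat_lit 0) (nat_lit 10665824851) (nat_lit 380) (nat_lit 34589788048) (nat_lit 76) (nat_lit 5965465012) (nat_lit 47) (nat_lit 5) (nat_lit 52) (nat_lit 5) (nat_lit 48) (nat_lit 5) (nat_lit 300) (nat_lit 281) (nat_lit 139)))) (XT.nd (nat_lit 156) (nat_lit 228) (nat_lit 0) (XT.nd (nat_lit 78) (nat_lit 304) (nat_lit 0) (XT.lf (nat_lit 0) (nat_lit 16040993625) (nat_lit 380) (nat_lit 12831130828) (nat_lit 76) (nat_lit 23934104441) (nat_lit 47) (nat_lit 5) (nat_lit 52) (nat_lit 5) (nat_lit 48) (nat_lit 5) (nat_lit 301) (nat_lit 281) (nat_lit 138)) (XT.lf (nat_lit 0) (nat_lit 10344549065) (nat_lit 304) (nat_lit 11500092663) (nat_lit 380) (nat_lit 32618015806) (nat_lit 43) (nat_lit 5) (nat_lit 47) (nat_lit 5) (nat_lit 48) (nat_lit 5) (nat_lit 302) (nat_lit 281) (nat_lit 137))) (XT.nd (nat_lit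 78) (nat_lit 228) (nat_lit 0) (XT.lf (nat_lit 0) (nat_lit 28262838848) (nat_lit 380) (nat_lit 21177419620) (nat_lit 76) (nat_lit 6745436666) (nat_lit 43) (nat_lit 5) (nat_lit 48) (nat_lit 5) (nat_lit 44) (nat_lit 5) (nat_lit 303) (nat_lit 281) (nat_lit 136)) (XT.lf (nat_lit 0) (nat_lit 2809748116) (nat_lit 228) (nat_lit 32422938669) (nat_lit 304) (nat_lit 22750666361) (nat_lit 40) (nat_lit 5) (nat_lit 43) (nat_lit 5) (nat_lit 44) (nat_lit 5) (nat_lit 304) (nat_lit 281) (nat_lit 135))))) (XT.nd (nat_lit 312) (nat_lit 456) (nat_lit 0) (XT.nd (nat_lit 156) (nat_lit 304) (nat_lit 0) (XT.nd (nat_lit 78) (nat_lit 0) (nat_lit 0) (XT.lf (nat_lit 0) (nat_lit 28729579093) (nat_lit 228) (nat_lit 14178493318) (nat_lit 304) (nat_lit 16944974696) (nat_lit 40) (nat_lit 5) (nat_lit 43) (nat_lit 5) (nat_lit 44) (nat_lit 5) (nat_lit 305) (nat_lit 281) (nat_lit 134)) (XT.lf (nat_lit 0) (nat_lit 51043417622)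 (nat_lit 304) (nat_lit 5950459628) (nat_lit 76) (nat_lit 4818544063) (nat_lit 40) (nat_lit 5) (nat_lit 44) (nat_lit 5) (nat_lit 41) (nat_lit 5) (nat_lit 306) (nat_lit 281) (nat_lit 133))) (XT.nd (nat_lit 78) (nat_lit 76) (nat_lit 0) (XT.lf (nat_lit 0) (nat_lit 20916399088) (nat_lit 228) (nat_lit 39226668978) (nat_lit 304) (nat_lit 3698824085) (nat_lit 37) (nat_lit 5) (nat_lit 40) (nat_lit 5) (nat_lit 41) (nat_lit 5) (nat_lit 307) (nat_lit 281) (nat_lit 132)) (XT.lf (nat_lit 0) (nat_lit 3706625418) (nat_lit 304) (nat_lit 16696262160) (nat_lit 76) (nat_lit 45561996553) (nat_lit 36) (nat_lit 5) (nat_lit 40) (nat_lit 5) (nat_lit 37) (nat_lit 5) (nat_lit 308) (nat_lit 281) (nat_lit 131)))) (XT.nd (nat_lit 156) (nat_lit 228) (nat_lit 0) (XT.nd (nat_lit 78) (nat_lit 0) (nat_lit 0) (XT.lf (nat_lit 0) (nat_lit 11138540512) (nat_lit 228) (nat_lit 392028734) (nat_lit 304) (nat_lit 56651802474)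 (nat_lit 33) (nat_lit 5) (nat_lit 36) (nat_lit 5) (nat_lit 37) (nat_lit 5) (nat_lit 309) (nat_lit 281) (nat_lit 130)) (XT.lf (nat_lit 0) (nat_lit 20353686434) (nat_lit 304) (nat_lit 29880210152) (nat_lit 76) (nat_lit 20246442262) (nat_lit 33) (nat_lit 5) (nat_lit 37) (nat_lit 5) (nat_lit 34) (nat_lit 5) (nat_lit 310) (nat_lit 281) (nat_lit 129))) (XT.nd (nat_lit 78) (nat_lit 228) (nat_lit 0) (XT.lf (nat_lit 0) (nat_lit 29623105505) (nat_lit 304) (nat_lit 1366542046) (nat_lit 76) (nat_lit 41903303255) (nat_lit 33) (nat_lit 5) (nat_lit 37) (nat_lit 5) (nat_lit 34) (nat_lit 5) (nat_lit 311) (nat_lit 281) (nat_lit 128)) (XT.nd (nat_lit 78) (nat_lit 0) (nat_lit 0) (XT.lf (nat_lit 0) (nat_lit 29515875818) (nat_lit 228) (nat_lit 10299725560) (nat_lit 304) (nat_lit 35587615290) (nat_lit 30) (nat_lit 5) (nat_lit 33) (nat_lit 5) (nat_lit 34) (nat_lit 5) (nat_lit 312) (nat_lit 281) (nat_lit 127))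 (XT.lf (nat_lit 0) (nat_lit 50718422919) (nat_lit 304) (nat_lit 16228387783) (nat_lit 76) (nat_lit 11082153501) (nat_lit 30) (nat_lit 5) (nat_lit 34) (nat_lit 5) (nat_lit 31) (nat_lit 5) (nat_lit 313) (nat_lit 281) (nat_lit 126))))))) (XT.nd (nat_lit 702) (nat_lit 456) (nat_lit 0) (XT.nd (nat_lit 312) (nat_lit 304) (nat_lit 0) (XT.nd (nat_lit 156) (nat_lit 304) (nat_lit 0) (XT.nd (nat_lit 78) (nat_lit 0) (nat_lit 0) (XT.lf (nat_lit 0) (nat_lit 15230560820) (nat_lit 152) (nat_lit 47341328187) (nat_lit 228) (nat_lit 18193838197) (nat_lit 28) (nat_lit 5) (nat_lit 30) (nat_lit 5) (nat_lit 31) (nat_lit 5) (nat_lit 314) (nat_lit 281) (nat_lit 125)) (XT.lf (nat_lit 0) (nat_lit 48824318053) (nat_lit 152) (nat_lit 26467439598) (nat_lit 228) (nat_lit 8333887349) (nat_lit 28) (nat_lit 5) (nat_lit 30) (nat_lit 5) (nat_lit 31) (nat_lit 5) (nat_lit 315) (nat_lit 281) (nat_lit 124))) (XT.nd (nat_lit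 78) (nat_lit 228) (nat_lit 0) (XT.lf (nat_lit 0) (nat_lit 1953364675) (nat_lit 228) (nat_lit 2563834950) (nat_lit 76) (nat_lit 82109839410) (nat_lit 27) (nat_lit 5) (nat_lit 30) (nat_lit 5) (nat_lit 28) (nat_lit 5) (nat_lit 316) (nat_lit 281) (nat_lit 123)) (XT.lf (nat_lit 0) (nat_lit 13276044539) (nat_lit 304) (nat_lit 57869046844) (nat_lit 76) (nat_lit 18586526091) (nat_lit 24) (nat_lit 5) (nat_lit 28) (nat_lit 5) (nat_lit 25) (nat_lit 5) (nat_lit 317) (nat_lit 281) (nat_lit 122)))) (XT.nd (nat_lit 156) (nat_lit 152) (nat_lit 0) (XT.nd (nat_lit 78) (nat_lit 152) (nat_lit 0) (XT.lf (nat_lit 0) (nat_lit 25282039653) (nat_lit 304) (nat_lit 24966177502) (nat_lit 76) (nat_lit 42737351174) (nat_lit 24) (nat_lit 5) (nat_lit 28) (nat_lit 5) (nat_lit 25) (nat_lit 5) (nat_lit 318) (nat_lit 281) (nat_lit 121)) (XT.lf (nat_lit 0) (nat_lit 9897211253) (nat_lit 152) (nat_lit 28144691444) (nat_lit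 228) (nat_lit 58352638055) (nat_lit 22) (nat_lit 5) (nat_lit 24) (nat_lit 5) (nat_lit 25) (nat_lit 5) (nat_lit 319) (nat_lit 281) (nat_lit 120))) (XT.nd (nat_lit 78) (nat_lit 152) (nat_lit 0) (XT.lf (nat_lit 0) (nat_lit 47369164658) (nat_lit 152) (nat_lit 4492477526) (nat_lit 228) (nat_lit 48091227766) (nat_lit 22) (nat_lit 5) (nat_lit 24) (nat_lit 5) (nat_lit 25) (nat_lit 5) (nat_lit 320) (nat_lit 281) (nat_lit 119)) (XT.nd (nat_lit 78) (nat_lit 152) (nat_lit 0) (XT.lf (nat_lit 0) (nat_lit 66689076433) (nat_lit 228) (nat_lit 17293349539) (nat_lit 76) (nat_lit 19690856454) (nat_lit 22) (nat_lit 5) (nat_lit 25) (nat_lit 5) (nat_lit 23) (nat_lit 5) (nat_lit 321) (nat_lit 281) (nat_lit 118)) (XT.lf (nat_lit 0) (nat_lit 20337520085) (nat_lit 152) (nat_lit 62310684442) (nat_lit 228) (nat_lit 24911996997) (nat_lit 20) (nat_lit 5) (nat_lit 22) (nat_lit 5) (nat_lit 23) (nat_lit 5) (nat_lit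 322) (nat_lit 281) (nat_lit 117)))))) (XT.nd (nat_lit 312) (nat_lit 228) (nat_lit 0) (XT.nd (nat_lit 156) (nat_lit 152) (nat_lit 0) (XT.nd (nat_lit 78) (nat_lit 76) (nat_lit 0) (XT.lf (nat_lit 0) (nat_lit 60449055557) (nat_lit 152) (nat_lit 39248274768) (nat_lit 228) (nat_lit 11929536189) (nat_lit 20) (nat_lit 5) (nat_lit 22) (nat_lit 5) (nat_lit 23) (nat_lit 5) (nat_lit 323) (nat_lit 281) (nat_lit 116)) (XT.lf (nat_lit 0) (nat_lit 1646766277) (nat_lit 228) (nat_lit 13358502632) (nat_lit 76) (nat_lit 100890309235) (nat_lit 19) (nat_lit 5) (nat_lit 22) (nat_lit 5) (nat_lit 20) (nat_lit 5) (nat_lit 324) (nat_lit 281) (nat_lit 115))) (XT.nd (nat_lit 78) (nat_lit 0) (nat_lit 0) (XT.lf (nat_lit 0) (nat_lit 16095329037) (nat_lit 228) (nat_lit 93500326573) (nat_lit 76) (nat_lit 10742575377) (nat_lit 17) (nat_lit 5) (nat_lit 20) (nat_lit 5) (nat_lit 18) (nat_lit 5) (nat_lit 325) (nat_lit 281)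 (nat_lit 114)) (XT.lf (nat_lit 0) (nat_lit 31741494664) (nat_lit 228) (nat_lit 55734679812) (nat_lit 76) (nat_lit 37503084908) (nat_lit 17) (nat_lit 5) (nat_lit 20) (nat_lit 5) (nat_lit 18) (nat_lit 5) (nat_lit 326) (nat_lit 281) (nat_lit 113)))) (XT.nd (nat_lit 156) (nat_lit 76) (nat_lit 0) (XT.nd (nat_lit 78) (nat_lit 152) (nat_lit 0) (XT.lf (nat_lit 0) (nat_lit 48169249787) (nat_lit 228) (nat_lit 16081881271) (nat_lit 76) (nat_lit 65601245651) (nat_lit 17) (nat_lit 5) (nat_lit 20) (nat_lit 5) (nat_lit 18) (nat_lit 5) (nat_lit 327) (nat_lit 281) (nat_lit 112)) (XT.lf (nat_lit 0) (nat_lit 26397360875) (nat_lit 152) (nat_lit 39432484013) (nat_lit 228) (nat_lit 69118733895) (nat_lit 15) (nat_lit 5) (nat_lit 17) (nat_lit 5) (nat_lit 18) (nat_lit 5) (nat_lit 328) (nat_lit 281) (nat_lit 111))) (XT.nd (nat_lit 78) (nat_lit 76) (nat_lit 0) (XT.lf (nat_lit 0) (nat_lit 71557832377) (nat_lit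 152) (nat_lit 13087323310) (nat_lit 228) (nat_lit 55640852401) (nat_lit 15) (nat_lit 5) (nat_lit 17) (nat_lit 5) (nat_lit 18) (nat_lit 5) (nat_lit 329) (nat_lit 281) (nat_lit 110)) (XT.nd (nat_lit 78) (nat_lit 76) (nat_lit 0) (XT.lf (nat_lit 0) (nat_lit 104628147636) (nat_lit 228) (nat_lit 27142575778) (nat_lit 76) (nat_lit 14108241020) (nat_lit 15) (nat_lit 5) (nat_lit 18) (nat_lit 5) (nat_lit 16) (nat_lit 4) (nat_lit 330) (nat_lit 281) (nat_lit 109)) (XT.lf (nat_lit 0) (nat_lit 16845946416) (nat_lit 76) (nat_lit 109241289598) (nat_lit 152) (nat_lit 25640486531) (nat_lit 14) (nat_lit 5) (nat_lit 15) (nat_lit 5) (nat_lit 16) (nat_lit 4) (nat_lit 331) (nat_lit 281) (nat_lit 108))))))))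
noncomputable def xc223 : XT := (XT.nd (nat_lit 33930) (nat_lit 0) (nat_lit 2660) (XT.nd (nat_lit 702) (nat_lit 152) (nat_lit 0) (XT.nd (nat_lit 312) (nat_lit 76) (nat_lit 0) (XT.nd (nat_lit 156) (nat_lit 152) (nat_lit 0) (XT.nd (nat_lit 78) (nat_lit 76) (nat_lit 0) (XT.lf (nat_lit 0) (nat_lit 63975252640) (nat_lit 76) (nat_lit 85103100920) (nat_lit 152) (nat_lit 8767612495) (nat_lit 14) (nat_lit 5) (nat_lit 15) (nat_lit 5) (nat_lit 16) (nat_lit 4) (nat_lit 332) (nat_lit 281) (nat_lit 107)) (XT.lf (nat_lit 0) (nat_lit 8661904484) (nat_lit 152) (nat_lit 50949760128) (nat_lit 76) (nat_lit 104651501363) (nat_lit 13) (nat_lit 5) (nat_lit 15) (nat_lit 5) (nat_lit 14) (nat_lit 5) (nat_lit 333) (nat_lit 281) (nat_lit 106))) (XT.nd (nat_lit 78) (nat_lit 152) (nat_lit 0) (XT.lf (nat_lit 0) (nat_lit 26667695751) (nat_lit 152) (nat_lit 6027390598) (nat_lit 76) (nat_lit 138298981652) (nat_lit 13)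 (nat_lit 5) (nat_lit 15) (nat_lit 5) (nat_lit 14) (nat_lit 5) (nat_lit 334) (nat_lit 281) (nat_lit 105)) (XT.lf (nat_lit 0) (nat_lit 42500522333) (nat_lit 152) (nat_lit 3736280520) (nat_lit 228) (nat_lit 131791561973) (nat_lit 11) (nat_lit 5) (nat_lit 13) (nat_lit 5) (nat_lit 14) (nat_lit 5) (nat_lit 335) (nat_lit 281) (nat_lit 104)))) (XT.nd (nat_lit 156) (nat_lit 76) (nat_lit 0) (XT.nd (nat_lit 78) (nat_lit 0) (nat_lit 0) (XT.lf (nat_lit 0) (nat_lit 67303996938) (nat_lit 228) (nat_lit 92164123363) (nat_lit 76) (nat_lit 25920275574) (nat_lit 11) (nat_lit 5) (nat_lit 14) (nat_lit 5) (nat_lit 12) (nat_lit 4) (nat_lit 336) (nat_lit 281) (nat_lit 103)) (XT.lf (nat_lit 0) (nat_lit 89485306702) (nat_lit 228) (nat_lit 46694292501) (nat_lit 76) (nat_lit 56933792391) (nat_lit 11) (nat_lit 5) (nat_lit 14) (nat_lit 5) (nat_lit 12) (nat_lit 4) (nat_lit 337) (nat_lit 281) (nat_lit 102))) (XT.nd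 (nat_lit 78) (nat_lit 0) (nat_lit 0) (XT.lf (nat_lit 0) (nat_lit 1082905131) (nat_lit 76) (nat_lit 111709213032) (nat_lit 152) (nat_lit 88431698001) (nat_lit 10) (nat_lit 5) (nat_lit 11) (nat_lit 5) (nat_lit 12) (nat_lit 4) (nat_lit 338) (nat_lit 281) (nat_lit 101)) (XT.nd (nat_lit 78) (nat_lit 0) (nat_lit 0) (XT.lf (nat_lit 0) (nat_lit 52869311195) (nat_lit 76) (nat_lit 85185288839) (nat_lit 152) (nat_lit 71645646267) (nat_lit 10) (nat_lit 5) (nat_lit 11) (nat_lit 5) (nat_lit 12) (nat_lit 4) (nat_lit 339) (nat_lit 281) (nat_lit 100)) (XT.lf (nat_lit 0) (nat_lit 107244302471) (nat_lit 76) (nat_lit 57335464863) (nat_lit 152) (nat_lit 54020753338) (nat_lit 10) (nat_lit 5) (nat_lit 11) (nat_lit 5) (nat_lit 12) (nat_lit 4) (nat_lit 340) (nat_lit 281) (nat_lit 99)))))) (XT.nd (nat_lit 312) (nat_lit 0) (nat_lit 0) (XT.nd (nat_lit 156) (nat_lit 152) (nat_lit 0) (XT.nd (nat_lit 78) (nat_lit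 0) (nat_lit 0) (XT.lf (nat_lit 0) (nat_lit 164337343223) (nat_lit 76) (nat_lit 28093431999) (nat_lit 152) (nat_lit 35515055183) (nat_lit 10) (nat_lit 5) (nat_lit 11) (nat_lit 5) (nat_lit 12) (nat_lit 4) (nat_lit 341) (nat_lit 281) (nat_lit 98)) (XT.lf (nat_lit 0) (nat_lit 221714691806) (nat_lit 152) (nat_lit 13514813160) (nat_lit 0) (nat_lit 2526883461) (nat_lit 10) (nat_lit 5) (nat_lit 12) (nat_lit 4) (nat_lit 10) (nat_lit 4) (nat_lit 342) (nat_lit 281) (nat_lit 97))) (XT.nd (nat_lit 78) (nat_lit 0) (nat_lit 0) (XT.lf (nat_lit 0) (nat_lit 5365193169) (nat_lit 152) (nat_lit 208190480060) (nat_lit 76) (nat_lit 34443319729) (nat_lit 8) (nat_lit 5) (nat_lit 10) (nat_lit 5) (nat_lit 9) (nat_lit 4) (nat_lit 343) (nat_lit 281) (nat_lit 96)) (XT.lf (nat_lit 0) (nat_lit 27535571815) (nat_lit 152) (nat_lit 162742458800) (nat_lit 76) (nat_lit 68450936261) (nat_lit 8) (nat_lit 5) (nat_lit 10)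 (nat_lit 5) (nat_lit 9) (nat_lit 4) (nat_lit 344) (nat_lit 281) (nat_lit 95)))) (XT.nd (nat_lit 32682) (nat_lit 0) (nat_lit 4332) (XT.nd (nat_lit 32604) (nat_lit 0) (nat_lit 4332) (XT.lf (nat_lit 0) (nat_lit 50814106092) (nat_lit 152) (nat_lit 115022658738) (nat_lit 76) (nat_lit 104158693417) (nat_lit 8) (nat_lit 5) (nat_lit 10) (nat_lit 5) (nat_lit 9) (nat_lit 4) (nat_lit 345) (nat_lit 281) (nat_lit 94)) (XT.lf (nat_lit 0) (nat_lit 1928288488) (nat_lit 0) (nat_lit 1928288488) (nat_lit 684) (nat_lit 12129827282) (nat_lit 65) (nat_lit 5) (nat_lit 65) (nat_lit 3) (nat_lit 74) (nat_lit 3) (nat_lit 282) (nat_lit 282) (nat_lit 156))) (XT.nd (nat_lit 78) (nat_lit 0) (nat_lit 0) (XT.lf (nat_lit 0) (nat_lit 8118028413) (nat_lit 684) (nat_lit 15092387915) (nat_lit 760) (nat_lit 9550878842) (nat_lit 65) (nat_lit 5) (nat_lit 74) (nat_lit 3) (nat_lit 75) (nat_lit 5) (nat_lit 283) (nat_lit 282)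 (nat_lit 155)) (XT.nd (nat_lit 78) (nat_lit 0) (nat_lit 76) (XT.lf (nat_lit 0) (nat_lit 8602685478) (nat_lit 684) (nat_lit 1482660438) (nat_lit 760) (nat_lit 23500898100) (nat_lit 65) (nat_lit 5) (nat_lit 74) (nat_lit 3) (nat_lit 75) (nat_lit 5) (nat_lit 284) (nat_lit 282) (nat_lit 154)) (XT.lf (nat_lit 0) (nat_lit 9375722783) (nat_lit 684) (nat_lit 21274440154) (nat_lit 760) (nat_lit 3789084097) (nat_lit 66) (nat_lit 5) (nat_lit 75) (nat_lit 5) (nat_lit 76) (nat_lit 5) (nat_lit 285) (nat_lit 282) (nat_lit 153))))))) (XT.nd (nat_lit 702) (nat_lit 1292) (nat_lit 0) (XT.nd (nat_lit 312) (nat_lit 456) (nat_lit 0) (XT.nd (nat_lit 156) (nat_lit 0) (nat_lit 76) (XT.nd (nat_lit 78) (nat_lit 0) (nat_lit 0) (XT.lf (nat_lit 0) (nat_lit 10374917098) (nat_lit 684) (nat_lit 6905426248) (nat_lit 760) (nat_lit 18045195029) (nat_lit 66) (nat_lit 5) (nat_lit 75) (nat_lit 5) (nat_lit 76) (nat_lit 5)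 (nat_lit 286) (nat_lit 282) (nat_lit 152)) (XT.lf (nat_lit 76) (nat_lit 8450449767) (nat_lit 0) (nat_lit 3102366469) (nat_lit 760) (nat_lit 24696903580) (nat_lit 67) (nat_lit 5) (nat_lit 66) (nat_lit 5) (nat_lit 76) (nat_lit 5) (nat_lit 287) (nat_lit 282) (nat_lit 151))) (XT.nd (nat_lit 78) (nat_lit 0) (nat_lit 0) (XT.lf (nat_lit 0) (nat_lit 13089410027) (nat_lit 684) (nat_lit 12588513588) (nat_lit 760) (nat_lit 11527208908) (nat_lit 67) (nat_lit 5) (nat_lit 76) (nat_lit 5) (nat_lit 77) (nat_lit 5) (nat_lit 288) (nat_lit 282) (nat_lit 150)) (XT.lf (nat_lit 76) (nat_lit 3439921571) (nat_lit 0) (nat_lit 11364569205) (nat_lit 760) (nat_lit 23398753827) (nat_lit 68) (nat_lit 5) (nat_lit 67) (nat_lit 5) (nat_lit 77) (nat_lit 5) (nat_lit 289) (nat_lit 282) (nat_lit 149)))) (XT.nd (nat_lit 156) (nat_lit 608) (nat_lit 0) (XT.nd (nat_lit 78) (nat_lit 0) (nat_lit 0) (XT.lf (nat_lit 0) (nat_lit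 16876435174) (nat_lit 684) (nat_lit 18596715138) (nat_lit 760) (nat_lit 3764567543) (nat_lit 68) (nat_lit 5) (nat_lit 77) (nat_lit 5) (nat_lit 78) (nat_lit 5) (nat_lit 290) (nat_lit 282) (nat_lit 148)) (XT.lf (nat_lit 0) (nat_lit 19235623778) (nat_lit 684) (nat_lit 1810203541) (nat_lit 760) (nat_lit 19268915622) (nat_lit 68) (nat_lit 5) (nat_lit 77) (nat_lit 5) (nat_lit 78) (nat_lit 5) (nat_lit 291) (nat_lit 282) (nat_lit 147))) (XT.nd (nat_lit 78) (nat_lit 608) (nat_lit 0) (XT.lf (nat_lit 76) (nat_lit 16336481858) (nat_lit 0) (nat_lit 5628817335) (nat_lit 760) (nat_lit 19467703739) (nat_lit 69) (nat_lit 5) (nat_lit 68) (nat_lit 5) (nat_lit 78) (nat_lit 5) (nat_lit 292) (nat_lit 282) (nat_lit 146)) (XT.nd (nat_lit 78) (nat_lit 684) (nat_lit 0) (XT.lf (nat_lit 0) (nat_lit 25025039534) (nat_lit 684) (nat_lit 7319781507) (nat_lit 76) (nat_lit 10252685368) (nat_lit 69) (nat_lit 5) (nat_lit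 78) (nat_lit 5) (nat_lit 70) (nat_lit 5) (nat_lit 293) (nat_lit 282) (nat_lit 145)) (XT.lf (nat_lit 0) (nat_lit 11623518525) (nat_lit 684) (nat_lit 16885681337) (nat_lit 760) (nat_lit 15297472638) (nat_lit 60) (nat_lit 5) (nat_lit 69) (nat_lit 5) (nat_lit 70) (nat_lit 5) (nat_lit 294) (nat_lit 282) (nat_lit 144)))))) (XT.nd (nat_lit 312) (nat_lit 684) (nat_lit 0) (XT.nd (nat_lit 156) (nat_lit 304) (nat_lit 0) (XT.nd (nat_lit 78) (nat_lit 304) (nat_lit 0) (XT.lf (nat_lit 0) (nat_lit 31766116520) (nat_lit 684) (nat_lit 523176586) (nat_lit 760) (nat_lit 12780926200) (nat_lit 60) (nat_lit 5) (nat_lit 69) (nat_lit 5) (nat_lit 70) (nat_lit 5) (nat_lit 295) (nat_lit 282) (nat_lit 143)) (XT.lf (nat_lit 0) (nat_lit 6463693046) (nat_lit 304) (nat_lit 30153554999) (nat_lit 380) (nat_lit 9761760801) (nat_lit 56) (nat_lit 5) (nat_lit 60) (nat_lit 5) (nat_lit 61) (nat_lit 5) (nat_lit 296) (nat_lit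 282) (nat_lit 142))) (XT.nd (nat_lit 78) (nat_lit 304) (nat_lit 0) (XT.lf (nat_lit 0) (nat_lit 27670922432) (nat_lit 304) (nat_lit 13722369579) (nat_lit 380) (nat_lit 6348369138) (nat_lit 56) (nat_lit 5) (nat_lit 60) (nat_lit 5) (nat_lit 61) (nat_lit 5) (nat_lit 297) (nat_lit 282) (nat_lit 141)) (XT.lf (nat_lit 0) (nat_lit 732392809) (nat_lit 304) (nat_lit 45740339776) (nat_lit 380) (nat_lit 2696491240) (nat_lit 52) (nat_lit 5) (nat_lit 56) (nat_lit 5) (nat_lit 57) (nat_lit 5) (nat_lit 298) (nat_lit 282) (nat_lit 140)))) (XT.nd (nat_lit 156) (nat_lit 608) (nat_lit 0) (XT.nd (nat_lit 78) (nat_lit 0) (nat_lit 0) (XT.lf (nat_lit 0) (nat_lit 1670060176) (nat_lit 380) (nat_lit 27629008866) (nat_lit 76) (nat_lit 21339788915) (nat_lit 51) (nat_lit 5) (nat_lit 56) (nat_lit 5) (nat_lit 52) (nat_lit 5) (nat_lit 299) (nat_lit 282) (nat_lit 139)) (XT.lf (nat_lit 0) (nat_lit 6162476806) (nat_lit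 380) (nat_lit 5826938531) (nat_lit 76) (nat_lit 40190446809) (nat_lit 51) (nat_lit 5) (nat_lit 56) (nat_lit 5) (nat_lit 52) (nat_lit 5) (nat_lit 300) (nat_lit 282) (nat_lit 138))) (XT.nd (nat_lit 78) (nat_lit 304) (nat_lit 0) (XT.lf (nat_lit 0) (nat_lit 11254062155) (nat_lit 380) (nat_lit 36257754214) (nat_lit 76) (nat_lit 6267378932) (nat_lit 47) (nat_lit 5) (nat_lit 52) (nat_lit 5) (nat_lit 48) (nat_lit 5) (nat_lit 301) (nat_lit 282) (nat_lit 137)) (XT.nd (nat_lit 78) (nat_lit 304) (nat_lit 0) (XT.lf (nat_lit 0) (nat_lit 16895372889) (nat_lit 380) (nat_lit 13414093811) (nat_lit 76) (nat_lit 25134276968) (nat_lit 47) (nat_lit 5) (nat_lit 52) (nat_lit 5) (nat_lit 48) (nat_lit 5) (nat_lit 302) (nat_lit 282) (nat_lit 136)) (XT.lf (nat_lit 0) (nat_lit 10919425020) (nat_lit 304) (nat_lit 12068186547) (nat_lit 380) (nat_lit 34195470344) (nat_lit 43) (nat_lit 5) (nat_lit 47) (nat_lit 5) (nat_lit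 48) (nat_lit 5) (nat_lit 303) (nat_lit 282) (nat_lit 135))))))))
noncomputable def xc224 : XT := (XT.nd (nat_lit 1326) (nat_lit 836) (nat_lit 0) (XT.nd (nat_lit 624) (nat_lit 836) (nat_lit 0) (XT.nd (nat_lit 312) (nat_lit 532) (nat_lit 0) (XT.nd (nat_lit 156) (nat_lit 0) (nat_lit 0) (XT.nd (nat_lit 78) (nat_lit 228) (nat_lit 0) (XT.lf (nat_lit 0) (nat_lit 29724405218) (nat_lit 380) (nat_lit 22178910501) (nat_lit 76) (nat_lit 7089079511) (nat_lit 43) (nat_lit 5) (nat_lit 48) (nat_lit 5) (nat_lit 44) (nat_lit 5) (nat_lit 304) (nat_lit 282) (nat_lit 134)) (XT.lf (nat_lit 0) (nat_lit 3006690137) (nat_lit 228) (nat_lit 34034630904) (nat_lit 304) (nat_lit 23838694108) (nat_lit 40) (nat_lit 5) (nat_lit 43) (nat_lit 5) (nat_lit 44) (nat_lit 5) (nat_lit 305) (nat_lit 282) (nat_lit 133))) (XT.nd (nat_lit 78) (nat_lit 0) (nat_lit 0) (XT.lf (nat_lit 0) (nat_lit 30219824348) (nat_lit 228) (nat_lit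 14878413509) (nat_lit 304) (nat_lit 17745075269) (nat_lit 40) (nat_lit 5) (nat_lit 43) (nat_lit 5) (nat_lit 44) (nat_lit 5) (nat_lit 306) (nat_lit 282) (nat_lit 132)) (XT.lf (nat_lit 0) (nat_lit 53638352704) (nat_lit 304) (nat_lit 6194637799) (nat_lit 76) (nat_lit 5067772481) (nat_lit 40) (nat_lit 5) (nat_lit 44) (nat_lit 5) (nat_lit 41) (nat_lit 5) (nat_lit 307) (nat_lit 282) (nat_lit 131)))) (XT.nd (nat_lit 156) (nat_lit 228) (nat_lit 0) (XT.nd (nat_lit 78) (nat_lit 76) (nat_lit 0) (XT.lf (nat_lit 0) (nat_lit 22014703453) (nat_lit 228) (nat_lit 41177065255) (nat_lit 304) (nat_lit 3840006226) (nat_lit 37) (nat_lit 5) (nat_lit 40) (nat_lit 5) (nat_lit 41) (nat_lit 5) (nat_lit 308) (nat_lit 282) (nat_lit 130)) (XT.lf (nat_lit 0) (nat_lit 3932298117) (nat_lit 304) (nat_lit 17479634283) (nat_lit 76) (nat_lit 47849056904) (nat_lit 36) (nat_lit 5) (nat_lit 40) (nat_lit 5) (nat_lit 37) (nat_lit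 5) (nat_lit 309) (nat_lit 282) (nat_lit 129))) (XT.nd (nat_lit 78) (nat_lit 0) (nat_lit 0) (XT.lf (nat_lit 0) (nat_lit 11746078829) (nat_lit 228) (nat_lit 400229472) (nat_lit 304) (nat_lit 59443105322) (nat_lit 33) (nat_lit 5) (nat_lit 36) (nat_lit 5) (nat_lit 37) (nat_lit 5) (nat_lit 310) (nat_lit 282) (nat_lit 128)) (XT.lf (nat_lit 0) (nat_lit 21408883698) (nat_lit 304) (nat_lit 31324211157) (nat_lit 76) (nat_lit 21269274666) (nat_lit 33) (nat_lit 5) (nat_lit 37) (nat_lit 5) (nat_lit 34) (nat_lit 5) (nat_lit 311) (nat_lit 282) (nat_lit 127))))) (XT.nd (nat_lit 312) (nat_lit 456) (nat_lit 0) (XT.nd (nat_lit 156) (nat_lit 152) (nat_lit 0) (XT.nd (nat_lit 78) (nat_lit 228) (nat_lit 0) (XT.lf (nat_lit 0) (nat_lit 31139987392) (nat_lit 304) (nat_lit 1387241050) (nat_lit 76) (nat_lit 44008478219) (nat_lit 33) (nat_lit 5) (nat_lit 37) (nat_lit 5) (nat_lit 34) (nat_lit 5) (nat_lit 312) (nat_lit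 282) (nat_lit 126)) (XT.lf (nat_lit 0) (nat_lit 31038529512) (nat_lit 228) (nat_lit 10802608894) (nat_lit 304) (nat_lit 37330400909) (nat_lit 30) (nat_lit 5) (nat_lit 33) (nat_lit 5) (nat_lit 34) (nat_lit 5) (nat_lit 313) (nat_lit 282) (nat_lit 125))) (XT.nd (nat_lit 78) (nat_lit 152) (nat_lit 0) (XT.lf (nat_lit 0) (nat_lit 53287625893) (nat_lit 304) (nat_lit 16993608002) (nat_lit 76) (nat_lit 11647418866) (nat_lit 30) (nat_lit 5) (nat_lit 34) (nat_lit 5) (nat_lit 31) (nat_lit 5) (nat_lit 314) (nat_lit 282) (nat_lit 124)) (XT.lf (nat_lit 0) (nat_lit 16037542884) (nat_lit 152) (nat_lit 49695347218) (nat_lit 228) (nat_lit 19069412121) (nat_lit 28) (nat_lit 5) (nat_lit 30) (nat_lit 5) (nat_lit 31) (nat_lit 5) (nat_lit 315) (nat_lit 282) (nat_lit 123)))) (XT.nd (nat_lit 156) (nat_lit 380) (nat_lit 0) (XT.nd (nat_lit 78) (nat_lit 76) (nat_lit 0) (XT.lf (nat_lit 0) (nat_lit 51308823500) (nat_lit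 152) (nat_lit 27778385504) (nat_lit 228) (nat_lit 8718088396) (nat_lit 28) (nat_lit 5) (nat_lit 30) (nat_lit 5) (nat_lit 31) (nat_lit 5) (nat_lit 316) (nat_lit 282) (nat_lit 122)) (XT.lf (nat_lit 0) (nat_lit 2080988461) (nat_lit 228) (nat_lit 2649729476) (nat_lit 76) (nat_lit 86226096653) (nat_lit 27) (nat_lit 5) (nat_lit 30) (nat_lit 5) (nat_lit 28) (nat_lit 5) (nat_lit 317) (nat_lit 282) (nat_lit 121))) (XT.nd (nat_lit 78) (nat_lit 152) (nat_lit 0) (XT.lf (nat_lit 0) (nat_lit 13969219754) (nat_lit 304) (nat_lit 60719544527) (nat_lit 76) (nat_lit 19527890543) (nat_lit 24) (nat_lit 5) (nat_lit 28) (nat_lit 5) (nat_lit 25) (nat_lit 5) (nat_lit 318) (nat_lit 282) (nat_lit 120)) (XT.nd (nat_lit 78) (nat_lit 152) (nat_lit 0) (XT.lf (nat_lit 0) (nat_lit 26574115910) (nat_lit 304) (nat_lit 26173577178) (nat_lit 76) (nat_lit 44885683635) (nat_lit 24) (nat_lit 5) (nat_lit 28) (nat_lit 5) (nat_lit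 25) (nat_lit 5) (nat_lit 319) (nat_lit 282) (nat_lit 119)) (XT.lf (nat_lit 0) (nat_lit 10432321189) (nat_lit 152) (nat_lit 29538947214) (nat_lit 228) (nat_lit 61241567944) (nat_lit 22) (nat_lit 5) (nat_lit 24) (nat_lit 5) (nat_lit 25) (nat_lit 5) (nat_lit 320) (nat_lit 282) (nat_lit 118))))))) (XT.nd (nat_lit 702) (nat_lit 304) (nat_lit 0) (XT.nd (nat_lit 312) (nat_lit 380) (nat_lit 0) (XT.nd (nat_lit 156) (nat_lit 152) (nat_lit 0) (XT.nd (nat_lit 78) (nat_lit 0) (nat_lit 0) (XT.lf (nat_lit 0) (nat_lit 49775955628) (nat_lit 152) (nat_lit 4704740639) (nat_lit 228) (nat_lit 50468453903) (nat_lit 22) (nat_lit 5) (nat_lit 24) (nat_lit 5) (nat_lit 25) (nat_lit 5) (nat_lit 321) (nat_lit 282) (nat_lit 117)) (XT.lf (nat_lit 0) (nat_lit 70048449264) (nat_lit 228) (nat_lit 18120395084) (nat_lit 76) (nat_lit 20686794650) (nat_lit 22) (nat_lit 5) (nat_lit 25) (nat_lit 5) (nat_lit 23) (nat_lit 5)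 (nat_lit 322) (nat_lit 282) (nat_lit 116))) (XT.nd (nat_lit 78) (nat_lit 0) (nat_lit 0) (XT.lf (nat_lit 0) (nat_lit 21391411215) (nat_lit 152) (nat_lit 65413513837) (nat_lit 228) (nat_lit 26132012367) (nat_lit 20) (nat_lit 5) (nat_lit 22) (nat_lit 5) (nat_lit 23) (nat_lit 5) (nat_lit 323) (nat_lit 282) (nat_lit 115)) (XT.lf (nat_lit 0) (nat_lit 63506760836) (nat_lit 152) (nat_lit 41198588671) (nat_lit 228) (nat_lit 12501646827) (nat_lit 20) (nat_lit 5) (nat_lit 22) (nat_lit 5) (nat_lit 23) (nat_lit 5) (nat_lit 324) (nat_lit 282) (nat_lit 114)))) (XT.nd (nat_lit 156) (nat_lit 152) (nat_lit 0) (XT.nd (nat_lit 78) (nat_lit 152) (nat_lit 0) (XT.lf (nat_lit 0) (nat_lit 1751567736) (nat_lit 228) (nat_lit 13992060542) (nat_lit 76) (nat_lit 105945554939) (nat_lit 19) (nat_lit 5) (nat_lit 22) (nat_lit 5) (nat_lit 20) (nat_lit 5) (nat_lit 325) (nat_lit 282) (nat_lit 113)) (XT.lf (nat_lit 0) (nat_lit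 16922202535) (nat_lit 228) (nat_lit 98140571317) (nat_lit 76) (nat_lit 11291215068) (nat_lit 17) (nat_lit 5) (nat_lit 20) (nat_lit 5) (nat_lit 18) (nat_lit 5) (nat_lit 326) (nat_lit 282) (nat_lit 112))) (XT.nd (nat_lit 78) (nat_lit 152) (nat_lit 0) (XT.lf (nat_lit 0) (nat_lit 33349623727) (nat_lit 228) (nat_lit 58488298007) (nat_lit 76) (nat_lit 39389201937) (nat_lit 17) (nat_lit 5) (nat_lit 20) (nat_lit 5) (nat_lit 18) (nat_lit 5) (nat_lit 327) (nat_lit 282) (nat_lit 111)) (XT.nd (nat_lit 78) (nat_lit 152) (nat_lit 0) (XT.lf (nat_lit 0) (nat_lit 50597764018) (nat_lit 228) (nat_lit 16854436482) (nat_lit 76) (nat_lit 68891748680) (nat_lit 17) (nat_lit 5) (nat_lit 20) (nat_lit 5) (nat_lit 18) (nat_lit 5) (nat_lit 328) (nat_lit 282) (nat_lit 110)) (XT.lf (nat_lit 0) (nat_lit 27748259081) (nat_lit 152) (nat_lit 41392659417) (nat_lit 228) (nat_lit 72554068464) (nat_lit 15) (nat_lit 5) (nat_lit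 17) (nat_lit 5) (nat_lit 18) (nat_lit 5) (nat_lit 329) (nat_lit 282) (nat_lit 109)))))) (XT.nd (nat_lit 312) (nat_lit 228) (nat_lit 0) (XT.nd (nat_lit 156) (nat_lit 76) (nat_lit 0) (XT.nd (nat_lit 78) (nat_lit 0) (nat_lit 0) (XT.lf (nat_lit 0) (nat_lit 75165276531) (nat_lit 152) (nat_lit 13730785860) (nat_lit 228) (nat_lit 58403273949) (nat_lit 15) (nat_lit 5) (nat_lit 17) (nat_lit 5) (nat_lit 18) (nat_lit 5) (nat_lit 330) (nat_lit 282) (nat_lit 108)) (XT.lf (nat_lit 0) (nat_lit 109877478022) (nat_lit 228) (nat_lit 28470795565) (nat_lit 76) (nat_lit 14823705101) (nat_lit 15) (nat_lit 5) (nat_lit 18) (nat_lit 5) (nat_lit 16) (nat_lit 4) (nat_lit 331) (nat_lit 282) (nat_lit 107))) (XT.nd (nat_lit 78) (nat_lit 0) (nat_lit 0) (XT.lf (nat_lit 0) (nat_lit 17716686464) (nat_lit 76) (nat_lit 114692424950) (nat_lit 152) (nat_lit 26904085563) (nat_lit 14) (nat_lit 5) (nat_lit 15) (nat_lit 5)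 (nat_lit 16) (nat_lit 4) (nat_lit 332) (nat_lit 282) (nat_lit 106)) (XT.lf (nat_lit 0) (nat_lit 67201103584) (nat_lit 76) (nat_lit 89347847272) (nat_lit 152) (nat_lit 9188445220) (nat_lit 14) (nat_lit 5) (nat_lit 15) (nat_lit 5) (nat_lit 16) (nat_lit 4) (nat_lit 333) (nat_lit 282) (nat_lit 105)))) (XT.nd (nat_lit 156) (nat_lit 152) (nat_lit 0) (XT.nd (nat_lit 78) (nat_lit 0) (nat_lit 0) (XT.lf (nat_lit 0) (nat_lit 9111177096) (nat_lit 152) (nat_lit 53470883733) (nat_lit 76) (nat_lit 109893423464) (nat_lit 13) (nat_lit 5) (nat_lit 15) (nat_lit 5) (nat_lit 14) (nat_lit 5) (nat_lit 334) (nat_lit 282) (nat_lit 104)) (XT.lf (nat_lit 0) (nat_lit 28016487575) (nat_lit 152) (nat_lit 6303651174) (nat_lit 76) (nat_lit 145222832670) (nat_lit 13) (nat_lit 5) (nat_lit 15) (nat_lit 5) (nat_lit 14) (nat_lit 5) (nat_lit 335) (nat_lit 282) (nat_lit 103))) (XT.nd (nat_lit 78) (nat_lit 0) (nat_lit 0)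 (XT.lf (nat_lit 0) (nat_lit 44650252421) (nat_lit 152) (nat_lit 3913449641) (nat_lit 228) (nat_lit 138365299834) (nat_lit 11) (nat_lit 5) (nat_lit 13) (nat_lit 5) (nat_lit 14) (nat_lit 5) (nat_lit 336) (nat_lit 282) (nat_lit 102)) (XT.nd (nat_lit 78) (nat_lit 0) (nat_lit 0) (XT.lf (nat_lit 0) (nat_lit 70683682166) (nat_lit 228) (nat_lit 96748201379) (nat_lit 76) (nat_lit 27225180979) (nat_lit 11) (nat_lit 5) (nat_lit 14) (nat_lit 5) (nat_lit 12) (nat_lit 4) (nat_lit 337) (nat_lit 282) (nat_lit 101)) (XT.lf (nat_lit 0) (nat_lit 93973367638) (nat_lit 228) (nat_lit 49006027934) (nat_lit 76) (nat_lit 59788950227) (nat_lit 11) (nat_lit 5) (nat_lit 14) (nat_lit 5) (nat_lit 12) (nat_lit 4) (nat_lit 338) (nat_lit 282) (nat_lit 100))))))))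
noncomputable def xc225 : XT := (XT.nd (nat_lit 34008) (nat_lit 0) (nat_lit 1900) (XT.nd (nat_lit 33306) (nat_lit 0) (nat_lit 4332) (XT.nd (nat_lit 312) (nat_lit 152) (nat_lit 0) (XT.nd (nat_lit 156) (nat_lit 0) (nat_lit 0) (XT.nd (nat_lit 78) (nat_lit 0) (nat_lit 0) (XT.lf (nat_lit 0) (nat_lit 1159658947) (nat_lit 76) (nat_lit 117285556774) (nat_lit 152) (nat_lit 92839092291) (nat_lit 10) (nat_lit 5) (nat_lit 11) (nat_lit 5) (nat_lit 12) (nat_lit 4) (nat_lit 339) (nat_lit 282) (nat_lit 99)) (XT.lf (nat_lit 0) (nat_lit 55534308717) (nat_lit 76) (nat_lit 89435870510) (nat_lit 152) (nat_lit 75214413714) (nat_lit 10) (nat_lit 5) (nat_lit 11) (nat_lit 5) (nat_lit 12) (nat_lit 4) (nat_lit 340) (nat_lit 282) (nat_lit 98))) (XT.nd (nat_lit 78) (nat_lit 0) (nat_lit 0) (XT.lf (nat_lit 0) (nat_lit 112627024225) (nat_lit 76) (nat_lit 60193968801) (nat_lit 152) (nat_lit 56708919703) (nat_lit 10)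 (nat_lit 5) (nat_lit 11) (nat_lit 5) (nat_lit 12) (nat_lit 4) (nat_lit 341) (nat_lit 282) (nat_lit 97)) (XT.lf (nat_lit 0) (nat_lit 172573740508) (nat_lit 76) (nat_lit 29490228070) (nat_lit 152) (nat_lit 37278549560) (nat_lit 10) (nat_lit 5) (nat_lit 11) (nat_lit 5) (nat_lit 12) (nat_lit 4) (nat_lit 342) (nat_lit 282) (nat_lit 96)))) (XT.nd (nat_lit 32838) (nat_lit 0) (nat_lit 4332) (XT.nd (nat_lit 78) (nat_lit 152) (nat_lit 0) (XT.lf (nat_lit 0) (nat_lit 232811643114) (nat_lit 152) (nat_lit 14171495768) (nat_lit 0) (nat_lit 2660488076) (nat_lit 10) (nat_lit 5) (nat_lit 12) (nat_lit 4) (nat_lit 10) (nat_lit 4) (nat_lit 343) (nat_lit 282) (nat_lit 95)) (XT.lf (nat_lit 0) (nat_lit 5644626579) (nat_lit 152) (nat_lit 218580865756) (nat_lit 76) (nat_lit 36172873393) (nat_lit 8) (nat_lit 5) (nat_lit 10) (nat_lit 5) (nat_lit 9) (nat_lit 4) (nat_lit 344) (nat_lit 282) (nat_lit 94))) (XT.nd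 (nat_lit 78) (nat_lit 0) (nat_lit 0) (XT.lf (nat_lit 0) (nat_lit 2053249736) (nat_lit 0) (nat_lit 2053249736) (nat_lit 684) (nat_lit 12676142648) (nat_lit 65) (nat_lit 5) (nat_lit 65) (nat_lit 3) (nat_lit 74) (nat_lit 3) (nat_lit 283) (nat_lit 283) (nat_lit 154)) (XT.lf (nat_lit 0) (nat_lit 8631830691) (nat_lit 684) (nat_lit 15785912319) (nat_lit 760) (nat_lit 9975788220) (nat_lit 65) (nat_lit 5) (nat_lit 74) (nat_lit 3) (nat_lit 75) (nat_lit 5) (nat_lit 284) (nat_lit 283) (nat_lit 153))))) (XT.nd (nat_lit 312) (nat_lit 0) (nat_lit 152) (XT.nd (nat_lit 156) (nat_lit 0) (nat_lit 76) (XT.nd (nat_lit 78) (nat_lit 0) (nat_lit 76) (XT.lf (nat_lit 0) (nat_lit 9135582473) (nat_lit 684) (nat_lit 1498607754) (nat_lit 760) (nat_lit 24625814849) (nat_lit 65) (nat_lit 5) (nat_lit 74) (nat_lit 3) (nat_lit 75) (nat_lit 5) (nat_lit 285) (nat_lit 283) (nat_lit 152)) (XT.lf (nat_lit 0) (nat_lit 9942623792)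 (nat_lit 684) (nat_lit 22274935265) (nat_lit 760) (nat_lit 3938351247) (nat_lit 66) (nat_lit 5) (nat_lit 75) (nat_lit 5) (nat_lit 76) (nat_lit 5) (nat_lit 286) (nat_lit 283) (nat_lit 151))) (XT.nd (nat_lit 78) (nat_lit 0) (nat_lit 0) (XT.lf (nat_lit 0) (nat_lit 10987105685) (nat_lit 684) (nat_lit 7190481468) (nat_lit 760) (nat_lit 18909181394) (nat_lit 66) (nat_lit 5) (nat_lit 75) (nat_lit 5) (nat_lit 76) (nat_lit 5) (nat_lit 287) (nat_lit 283) (nat_lit 150)) (XT.lf (nat_lit 76) (nat_lit 8932217121) (nat_lit 0) (nat_lit 3288157985) (nat_lit 760) (nat_lit 25836978028) (nat_lit 67) (nat_lit 5) (nat_lit 66) (nat_lit 5) (nat_lit 76) (nat_lit 5) (nat_lit 288) (nat_lit 283) (nat_lit 149)))) (XT.nd (nat_lit 156) (nat_lit 0) (nat_lit 76) (XT.nd (nat_lit 78) (nat_lit 0) (nat_lit 0) (XT.lf (nat_lit 0) (nat_lit 13829060684) (nat_lit 684) (nat_lit 13156437903) (nat_lit 760) (nat_lit 12075291774)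 (nat_lit 67) (nat_lit 5) (nat_lit 76) (nat_lit 5) (nat_lit 77) (nat_lit 5) (nat_lit 289) (nat_lit 283) (nat_lit 148)) (XT.lf (nat_lit 76) (nat_lit 3672427056) (nat_lit 0) (nat_lit 11954356937) (nat_lit 760) (nat_lit 24482195805) (nat_lit 68) (nat_lit 5) (nat_lit 67) (nat_lit 5) (nat_lit 77) (nat_lit 5) (nat_lit 290) (nat_lit 283) (nat_lit 147))) (XT.nd (nat_lit 78) (nat_lit 0) (nat_lit 0) (XT.lf (nat_lit 0) (nat_lit 17798097007) (nat_lit 684) (nat_lit 19464386093) (nat_lit 760) (nat_lit 3932920452) (nat_lit 68) (nat_lit 5) (nat_lit 77) (nat_lit 5) (nat_lit 78) (nat_lit 5) (nat_lit 291) (nat_lit 283) (nat_lit 146)) (XT.nd (nat_lit 78) (nat_lit 0) (nat_lit 0) (XT.lf (nat_lit 0) (nat_lit 20271538371) (nat_lit 684) (nat_lit 1841509145) (nat_lit 760) (nat_lit 20213432386) (nat_lit 68) (nat_lit 5) (nat_lit 77) (nat_lit 5) (nat_lit 78) (nat_lit 5) (nat_lit 292) (nat_lit 283) (nat_lit 145))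 (XT.lf (nat_lit 76) (nat_lit 17211555612) (nat_lit 0) (nat_lit 5923521223) (nat_lit 760) (nat_lit 20365721071) (nat_lit 69) (nat_lit 5) (nat_lit 68) (nat_lit 5) (nat_lit 78) (nat_lit 5) (nat_lit 293) (nat_lit 283) (nat_lit 144))))))) (XT.nd (nat_lit 702) (nat_lit 1064) (nat_lit 0) (XT.nd (nat_lit 312) (nat_lit 684) (nat_lit 0) (XT.nd (nat_lit 156) (nat_lit 304) (nat_lit 0) (XT.nd (nat_lit 78) (nat_lit 684) (nat_lit 0) (XT.lf (nat_lit 0) (nat_lit 26344201615) (nat_lit 684) (nat_lit 7626425910) (nat_lit 76) (nat_lit 10753092472) (nat_lit 69) (nat_lit 5) (nat_lit 78) (nat_lit 5) (nat_lit 70) (nat_lit 5) (nat_lit 294) (nat_lit 283) (nat_lit 143)) (XT.lf (nat_lit 0) (nat_lit 12263081952) (nat_lit 684) (nat_lit 17737165786) (nat_lit 760) (nat_lit 15993225444) (nat_lit 60) (nat_lit 5) (nat_lit 69) (nat_lit 5) (nat_lit 70) (nat_lit 5) (nat_lit 295) (nat_lit 283) (nat_lit 142))) (XT.nd (nat_lit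 78) (nat_lit 304) (nat_lit 0) (XT.lf (nat_lit 0) (nat_lit 33410029490) (nat_lit 684) (nat_lit 556192922) (nat_lit 760) (nat_lit 13354143152) (nat_lit 60) (nat_lit 5) (nat_lit 69) (nat_lit 5) (nat_lit 70) (nat_lit 5) (nat_lit 296) (nat_lit 283) (nat_lit 141)) (XT.lf (nat_lit 0) (nat_lit 6845003729) (nat_lit 304) (nat_lit 31663402404) (nat_lit 380) (nat_lit 10186308393) (nat_lit 56) (nat_lit 5) (nat_lit 60) (nat_lit 5) (nat_lit 61) (nat_lit 5) (nat_lit 297) (nat_lit 283) (nat_lit 140)))) (XT.nd (nat_lit 156) (nat_lit 380) (nat_lit 0) (XT.nd (nat_lit 78) (nat_lit 304) (nat_lit 0) (XT.lf (nat_lit 0) (nat_lit 29109826678) (nat_lit 304) (nat_lit 14410554397) (nat_lit 380) (nat_lit 6605272882) (nat_lit 56) (nat_lit 5) (nat_lit 60) (nat_lit 5) (nat_lit 61) (nat_lit 5) (nat_lit 298) (nat_lit 283) (nat_lit 139)) (XT.lf (nat_lit 0) (nat_lit 826549848) (nat_lit 304) (nat_lit 48025376925) (nat_lit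 380) (nat_lit 2772771768) (nat_lit 52) (nat_lit 5) (nat_lit 56) (nat_lit 5) (nat_lit 57) (nat_lit 5) (nat_lit 299) (nat_lit 283) (nat_lit 138))) (XT.nd (nat_lit 78) (nat_lit 304) (nat_lit 0) (XT.lf (nat_lit 0) (nat_lit 1807534860) (nat_lit 380) (nat_lit 28953688037) (nat_lit 76) (nat_lit 22406690172) (nat_lit 51) (nat_lit 5) (nat_lit 56) (nat_lit 5) (nat_lit 52) (nat_lit 5) (nat_lit 300) (nat_lit 283) (nat_lit 137)) (XT.nd (nat_lit 78) (nat_lit 304) (nat_lit 0) (XT.lf (nat_lit 0) (nat_lit 6522002242) (nat_lit 380) (nat_lit 6064217578) (nat_lit 76) (nat_lit 42199885160) (nat_lit 51) (nat_lit 5) (nat_lit 56) (nat_lit 5) (nat_lit 52) (nat_lit 5) (nat_lit 301) (nat_lit 283) (nat_lit 136)) (XT.lf (nat_lit 0) (nat_lit 11866602961) (nat_lit 380) (nat_lit 38014838535) (nat_lit 76) (nat_lit 6584050074) (nat_lit 47) (nat_lit 5) (nat_lit 52) (nat_lit 5) (nat_lit 48) (nat_lit 5) (nat_lit 302) (nat_lit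 283) (nat_lit 135)))))) (XT.nd (nat_lit 312) (nat_lit 532) (nat_lit 0) (XT.nd (nat_lit 156) (nat_lit 228) (nat_lit 0) (XT.nd (nat_lit 78) (nat_lit 304) (nat_lit 0) (XT.lf (nat_lit 0) (nat_lit 17787606007) (nat_lit 380) (nat_lit 14031652416) (nat_lit 76) (nat_lit 26394135764) (nat_lit 47) (nat_lit 5) (nat_lit 52) (nat_lit 5) (nat_lit 48) (nat_lit 5) (nat_lit 303) (nat_lit 283) (nat_lit 134)) (XT.lf (nat_lit 0) (nat_lit 11517685162) (nat_lit 304) (nat_lit 12665327621) (nat_lit 380) (nat_lit 35856766534) (nat_lit 43) (nat_lit 5) (nat_lit 47) (nat_lit 5) (nat_lit 48) (nat_lit 5) (nat_lit 304) (nat_lit 283) (nat_lit 133))) (XT.nd (nat_lit 78) (nat_lit 228) (nat_lit 0) (XT.lf (nat_lit 0) (nat_lit 31254547862) (nat_lit 380) (nat_lit 23235810583) (nat_lit 76) (nat_lit 7449312182) (nat_lit 43) (nat_lit 5) (nat_lit 48) (nat_lit 5) (nat_lit 44) (nat_lit 5) (nat_lit 305) (nat_lit 283) (nat_lit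 132)) (XT.lf (nat_lit 0) (nat_lit 3208230644) (nat_lit 228) (nat_lit 35727786760) (nat_lit 304) (nat_lit 24985725802) (nat_lit 40) (nat_lit 5) (nat_lit 43) (nat_lit 5) (nat_lit 44) (nat_lit 5) (nat_lit 306) (nat_lit 283) (nat_lit 131)))) (XT.nd (nat_lit 156) (nat_lit 532) (nat_lit 0) (XT.nd (nat_lit 78) (nat_lit 0) (nat_lit 0) (XT.lf (nat_lit 0) (nat_lit 31779583185) (nat_lit 228) (nat_lit 15614166861) (nat_lit 304) (nat_lit 18589564260) (nat_lit 40) (nat_lit 5) (nat_lit 43) (nat_lit 5) (nat_lit 44) (nat_lit 5) (nat_lit 307) (nat_lit 283) (nat_lit 130)) (XT.lf (nat_lit 0) (nat_lit 56359058729) (nat_lit 304) (nat_lit 6455984372) (nat_lit 76) (nat_lit 5328690551) (nat_lit 40) (nat_lit 5) (nat_lit 44) (nat_lit 5) (nat_lit 41) (nat_lit 5) (nat_lit 308) (nat_lit 283) (nat_lit 129))) (XT.nd (nat_lit 78) (nat_lit 304) (nat_lit 0) (XT.lf (nat_lit 0) (nat_lit 23163043533) (nat_lit 228) (nat_lit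 43225998180) (nat_lit 304) (nat_lit 3992315777) (nat_lit 37) (nat_lit 5) (nat_lit 40) (nat_lit 5) (nat_lit 41) (nat_lit 5) (nat_lit 309) (nat_lit 283) (nat_lit 128)) (XT.nd (nat_lit 78) (nat_lit 228) (nat_lit 0) (XT.lf (nat_lit 0) (nat_lit 4165503889) (nat_lit 304) (nat_lit 18306957508) (nat_lit 76) (nat_lit 50249637207) (nat_lit 36) (nat_lit 5) (nat_lit 40) (nat_lit 5) (nat_lit 37) (nat_lit 5) (nat_lit 310) (nat_lit 283) (nat_lit 127)) (XT.lf (nat_lit 0) (nat_lit 12379288704) (nat_lit 228) (nat_lit 409900176) (nat_lit 304) (nat_lit 62377811811) (nat_lit 33) (nat_lit 5) (nat_lit 36) (nat_lit 5) (nat_lit 37) (nat_lit 5) (nat_lit 311) (nat_lit 283) (nat_lit 126))))))))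
noncomputable def xc226 : XT := (XT.nd (nat_lit 1326) (nat_lit 532) (nat_lit 0) (XT.nd (nat_lit 624) (nat_lit 532) (nat_lit 0) (XT.nd (nat_lit 312) (nat_lit 456) (nat_lit 0) (XT.nd (nat_lit 156) (nat_lit 228) (nat_lit 0) (XT.nd (nat_lit 78) (nat_lit 0) (nat_lit 0) (XT.lf (nat_lit 0) (nat_lit 22513353227) (nat_lit 304) (nat_lit 32845061621) (nat_lit 76) (nat_lit 22342271542) (nat_lit 33) (nat_lit 5) (nat_lit 37) (nat_lit 5) (nat_lit 34) (nat_lit 5) (nat_lit 312) (nat_lit 283) (nat_lit 125)) (XT.lf (nat_lit 0) (nat_lit 32729391852) (nat_lit 304) (nat_lit 1413403014) (nat_lit 76) (nat_lit 46217981314) (nat_lit 33) (nat_lit 5) (nat_lit 37) (nat_lit 5) (nat_lit 34) (nat_lit 5) (nat_lit 313) (nat_lit 283) (nat_lit 124))) (XT.nd (nat_lit 78) (nat_lit 0) (nat_lit 0) (XT.lf (nat_lit 0) (nat_lit 32632959301) (nat_lit 228) (nat_lit 11331761611) (nat_lit 304) (nat_lit 39163728079) (nat_lit 30)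 (nat_lit 5) (nat_lit 33) (nat_lit 5) (nat_lit 34) (nat_lit 5) (nat_lit 314) (nat_lit 283) (nat_lit 123)) (XT.lf (nat_lit 0) (nat_lit 55982194788) (nat_lit 304) (nat_lit 17801384393) (nat_lit 76) (nat_lit 12239910163) (nat_lit 30) (nat_lit 5) (nat_lit 34) (nat_lit 5) (nat_lit 31) (nat_lit 5) (nat_lit 315) (nat_lit 283) (nat_lit 122)))) (XT.nd (nat_lit 156) (nat_lit 304) (nat_lit 0) (XT.nd (nat_lit 78) (nat_lit 0) (nat_lit 0) (XT.lf (nat_lit 0) (nat_lit 16880648166) (nat_lit 152) (nat_lit 52168280223) (nat_lit 228) (nat_lit 19991936708) (nat_lit 28) (nat_lit 5) (nat_lit 30) (nat_lit 5) (nat_lit 31) (nat_lit 5) (nat_lit 316) (nat_lit 283) (nat_lit 121)) (XT.lf (nat_lit 0) (nat_lit 53913529569) (nat_lit 152) (nat_lit 29156033964) (nat_lit 228) (nat_lit 9124520417) (nat_lit 28) (nat_lit 5) (nat_lit 30) (nat_lit 5) (nat_lit 31) (nat_lit 5) (nat_lit 317) (nat_lit 283) (nat_lit 120))) (XT.nd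 (nat_lit 78) (nat_lit 228) (nat_lit 0) (XT.lf (nat_lit 0) (nat_lit 2212208454) (nat_lit 228) (nat_lit 2743851124) (nat_lit 76) (nat_lit 90547165906) (nat_lit 27) (nat_lit 5) (nat_lit 30) (nat_lit 5) (nat_lit 28) (nat_lit 5) (nat_lit 318) (nat_lit 283) (nat_lit 119)) (XT.lf (nat_lit 0) (nat_lit 14694322909) (nat_lit 304) (nat_lit 63716560611) (nat_lit 76) (nat_lit 20515204025) (nat_lit 24) (nat_lit 5) (nat_lit 28) (nat_lit 5) (nat_lit 25) (nat_lit 5) (nat_lit 319) (nat_lit 283) (nat_lit 118))))) (XT.nd (nat_lit 312) (nat_lit 380) (nat_lit 0) (XT.nd (nat_lit 156) (nat_lit 0) (nat_lit 0) (XT.nd (nat_lit 78) (nat_lit 152) (nat_lit 0) (XT.lf (nat_lit 0) (nat_lit 27928195198) (nat_lit 304) (nat_lit 27445150186) (nat_lit 76) (nat_lit 47140366821) (nat_lit 24) (nat_lit 5) (nat_lit 28) (nat_lit 5) (nat_lit 25) (nat_lit 5) (nat_lit 320) (nat_lit 283) (nat_lit 117)) (XT.lf (nat_lit 0) (nat_lit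 10990444618) (nat_lit 152) (nat_lit 31004122419) (nat_lit 228) (nat_lit 64277612769) (nat_lit 22) (nat_lit 5) (nat_lit 24) (nat_lit 5) (nat_lit 25) (nat_lit 5) (nat_lit 321) (nat_lit 283) (nat_lit 116))) (XT.nd (nat_lit 78) (nat_lit 0) (nat_lit 0) (XT.lf (nat_lit 0) (nat_lit 52299522332) (nat_lit 152) (nat_lit 4928766094) (nat_lit 228) (nat_lit 52967082719) (nat_lit 22) (nat_lit 5) (nat_lit 24) (nat_lit 5) (nat_lit 25) (nat_lit 5) (nat_lit 322) (nat_lit 283) (nat_lit 115)) (XT.lf (nat_lit 0) (nat_lit 73573474004) (nat_lit 228) (nat_lit 18992290637) (nat_lit 76) (nat_lit 21731470322) (nat_lit 22) (nat_lit 5) (nat_lit 25) (nat_lit 5) (nat_lit 23) (nat_lit 5) (nat_lit 323) (nat_lit 283) (nat_lit 114)))) (XT.nd (nat_lit 156) (nat_lit 228) (nat_lit 0) (XT.nd (nat_lit 78) (nat_lit 0) (nat_lit 0) (XT.lf (nat_lit 0) (nat_lit 22494555587) (nat_lit 152) (nat_lit 68672665877) (nat_lit 228) (nat_lit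 27415407107) (nat_lit 20) (nat_lit 5) (nat_lit 22) (nat_lit 5) (nat_lit 23) (nat_lit 5) (nat_lit 324) (nat_lit 283) (nat_lit 113)) (XT.lf (nat_lit 0) (nat_lit 66714073936) (nat_lit 152) (nat_lit 43247543197) (nat_lit 228) (nat_lit 13104628332) (nat_lit 20) (nat_lit 5) (nat_lit 22) (nat_lit 5) (nat_lit 23) (nat_lit 5) (nat_lit 325) (nat_lit 283) (nat_lit 112))) (XT.nd (nat_lit 78) (nat_lit 152) (nat_lit 0) (XT.lf (nat_lit 0) (nat_lit 1859520857) (nat_lit 228) (nat_lit 14660491486) (nat_lit 76) (nat_lit 111252565332) (nat_lit 19) (nat_lit 5) (nat_lit 22) (nat_lit 5) (nat_lit 20) (nat_lit 5) (nat_lit 326) (nat_lit 283) (nat_lit 111)) (XT.nd (nat_lit 78) (nat_lit 0) (nat_lit 0) (XT.lf (nat_lit 0) (nat_lit 17788364404) (nat_lit 228) (nat_lit 103016061030) (nat_lit 76) (nat_lit 11866216568) (nat_lit 17) (nat_lit 5) (nat_lit 20) (nat_lit 5) (nat_lit 18) (nat_lit 5) (nat_lit 327) (nat_lit 283)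 (nat_lit 110)) (XT.lf (nat_lit 0) (nat_lit 35036201810) (nat_lit 228) (nat_lit 61382675905) (nat_lit 76) (nat_lit 41368605602) (nat_lit 17) (nat_lit 5) (nat_lit 20) (nat_lit 5) (nat_lit 18) (nat_lit 5) (nat_lit 328) (nat_lit 283) (nat_lit 109))))))) (XT.nd (nat_lit 702) (nat_lit 76) (nat_lit 0) (XT.nd (nat_lit 312) (nat_lit 304) (nat_lit 0) (XT.nd (nat_lit 156) (nat_lit 0) (nat_lit 0) (XT.nd (nat_lit 78) (nat_lit 152) (nat_lit 0) (XT.lf (nat_lit 0) (nat_lit 53145839740) (nat_lit 228) (nat_lit 17668551637) (nat_lit 76) (nat_lit 72345806179) (nat_lit 17) (nat_lit 5) (nat_lit 20) (nat_lit 5) (nat_lit 18) (nat_lit 5) (nat_lit 329) (nat_lit 283) (nat_lit 108)) (XT.lf (nat_lit 0) (nat_lit 29163817306) (nat_lit 152) (nat_lit 43451907992) (nat_lit 228) (nat_lit 76163085152) (nat_lit 15) (nat_lit 5) (nat_lit 17) (nat_lit 5) (nat_lit 18) (nat_lit 5) (nat_lit 330) (nat_lit 283) (nat_lit 107)))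 (XT.nd (nat_lit 78) (nat_lit 0) (nat_lit 0) (XT.lf (nat_lit 0) (nat_lit 78950345378) (nat_lit 152) (nat_lit 14407435252) (nat_lit 228) (nat_lit 61305640755) (nat_lit 15) (nat_lit 5) (nat_lit 17) (nat_lit 5) (nat_lit 18) (nat_lit 5) (nat_lit 331) (nat_lit 283) (nat_lit 106)) (XT.lf (nat_lit 0) (nat_lit 115387608617) (nat_lit 228) (nat_lit 29868114027) (nat_lit 76) (nat_lit 15574007844) (nat_lit 15) (nat_lit 5) (nat_lit 18) (nat_lit 5) (nat_lit 16) (nat_lit 4) (nat_lit 332) (nat_lit 283) (nat_lit 105)))) (XT.nd (nat_lit 156) (nat_lit 228) (nat_lit 0) (XT.nd (nat_lit 78) (nat_lit 0) (nat_lit 0) (XT.lf (nat_lit 0) (nat_lit 18628319180) (nat_lit 76) (nat_lit 120417133155) (nat_lit 152) (nat_lit 28232577556) (nat_lit 14) (nat_lit 5) (nat_lit 15) (nat_lit 5) (nat_lit 16) (nat_lit 4) (nat_lit 333) (nat_lit 283) (nat_lit 104)) (XT.lf (nat_lit 0) (nat_lit 70585728661) (nat_lit 76) (nat_lit 93805798644)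 (nat_lit 152) (nat_lit 9631951019) (nat_lit 14) (nat_lit 5) (nat_lit 15) (nat_lit 5) (nat_lit 16) (nat_lit 4) (nat_lit 334) (nat_lit 283) (nat_lit 103))) (XT.nd (nat_lit 78) (nat_lit 152) (nat_lit 0) (XT.lf (nat_lit 0) (nat_lit 9581409319) (nat_lit 152) (nat_lit 56120514630) (nat_lit 76) (nat_lit 115396572672) (nat_lit 13) (nat_lit 5) (nat_lit 15) (nat_lit 5) (nat_lit 14) (nat_lit 5) (nat_lit 335) (nat_lit 283) (nat_lit 102)) (XT.nd (nat_lit 78) (nat_lit 152) (nat_lit 0) (XT.lf (nat_lit 0) (nat_lit 29431286590) (nat_lit 152) (nat_lit 6596059172) (nat_lit 76) (nat_lit 152492048622) (nat_lit 13) (nat_lit 5) (nat_lit 15) (nat_lit 5) (nat_lit 14) (nat_lit 5) (nat_lit 336) (nat_lit 283) (nat_lit 101)) (XT.lf (nat_lit 0) (nat_lit 46905172272) (nat_lit 152) (nat_lit 4100373910) (nat_lit 228) (nat_lit 145269197262) (nat_lit 11) (nat_lit 5) (nat_lit 13) (nat_lit 5) (nat_lit 14) (nat_lit 5) (nat_lit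 337) (nat_lit 283) (nat_lit 100)))))) (XT.nd (nat_lit 312) (nat_lit 0) (nat_lit 0) (XT.nd (nat_lit 156) (nat_lit 76) (nat_lit 0) (XT.nd (nat_lit 78) (nat_lit 0) (nat_lit 0) (XT.lf (nat_lit 0) (nat_lit 74231004942) (nat_lit 228) (nat_lit 101563726503) (nat_lit 76) (nat_lit 28594504995) (nat_lit 11) (nat_lit 5) (nat_lit 14) (nat_lit 5) (nat_lit 12) (nat_lit 4) (nat_lit 338) (nat_lit 283) (nat_lit 99)) (XT.lf (nat_lit 0) (nat_lit 98684549037) (nat_lit 228) (nat_lit 51435486526) (nat_lit 76) (nat_lit 62786078659) (nat_lit 11) (nat_lit 5) (nat_lit 14) (nat_lit 5) (nat_lit 12) (nat_lit 4) (nat_lit 339) (nat_lit 283) (nat_lit 98))) (XT.nd (nat_lit 78) (nat_lit 0) (nat_lit 0) (XT.lf (nat_lit 0) (nat_lit 1238148525) (nat_lit 76) (nat_lit 123141565307) (nat_lit 152) (nat_lit 97468175605) (nat_lit 10) (nat_lit 5) (nat_lit 11) (nat_lit 5) (nat_lit 12) (nat_lit 4) (nat_lit 340) (nat_lit 283) (nat_lit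 97)) (XT.lf (nat_lit 0) (nat_lit 58330554277) (nat_lit 76) (nat_lit 93899788506) (nat_lit 152) (nat_lit 78962876017) (nat_lit 10) (nat_lit 5) (nat_lit 11) (nat_lit 5) (nat_lit 12) (nat_lit 4) (nat_lit 341) (nat_lit 283) (nat_lit 96)))) (XT.nd (nat_lit 156) (nat_lit 0) (nat_lit 0) (XT.nd (nat_lit 78) (nat_lit 0) (nat_lit 0) (XT.lf (nat_lit 0) (nat_lit 118276975554) (nat_lit 76) (nat_lit 63196166737) (nat_lit 152) (nat_lit 59532691038) (nat_lit 10) (nat_lit 5) (nat_lit 11) (nat_lit 5) (nat_lit 12) (nat_lit 4) (nat_lit 342) (nat_lit 283) (nat_lit 95)) (XT.lf (nat_lit 0) (nat_lit 181220141932) (nat_lit 76) (nat_lit 30957596136) (nat_lit 152) (nat_lit 39131358323) (nat_lit 10) (nat_lit 5) (nat_lit 11) (nat_lit 5) (nat_lit 12) (nat_lit 4) (nat_lit 343) (nat_lit 283) (nat_lit 94))) (XT.nd (nat_lit 32838) (nat_lit 0) (nat_lit 4180) (XT.lf (nat_lit 0) (nat_lit 244462399164) (nat_lit 152) (nat_lit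 14862784343) (nat_lit 0) (nat_lit 2800097913) (nat_lit 10) (nat_lit 5) (nat_lit 12) (nat_lit 4) (nat_lit 10) (nat_lit 4) (nat_lit 344) (nat_lit 283) (nat_lit 93)) (XT.nd (nat_lit 78) (nat_lit 0) (nat_lit 0) (XT.lf (nat_lit 0) (nat_lit 2181805033) (nat_lit 0) (nat_lit 2181805033) (nat_lit 684) (nat_lit 13255368376) (nat_lit 65) (nat_lit 5) (nat_lit 65) (nat_lit 3) (nat_lit 74) (nat_lit 3) (nat_lit 284) (nat_lit 284) (nat_lit 152)) (XT.lf (nat_lit 0) (nat_lit 9161291484) (nat_lit 684) (nat_lit 16519792977) (nat_lit 760) (nat_lit 10426836529) (nat_lit 65) (nat_lit 5) (nat_lit 74) (nat_lit 3) (nat_lit 75) (nat_lit 5) (nat_lit 285) (nat_lit 284) (nat_lit 151))))))))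
noncomputable def xc227 : XT := (XT.nd (nat_lit 1326) (nat_lit 2052) (nat_lit 0) (XT.nd (nat_lit 624) (nat_lit 1064) (nat_lit 0) (XT.nd (nat_lit 312) (nat_lit 0) (nat_lit 152) (XT.nd (nat_lit 156) (nat_lit 0) (nat_lit 76) (XT.nd (nat_lit 78) (nat_lit 0) (nat_lit 76) (XT.lf (nat_lit 0) (nat_lit 9685570414) (nat_lit 684) (nat_lit 1520761990) (nat_lit 760) (nat_lit 25811637875) (nat_lit 65) (nat_lit 5) (nat_lit 74) (nat_lit 3) (nat_lit 75) (nat_lit 5) (nat_lit 286) (nat_lit 284) (nat_lit 150)) (XT.lf (nat_lit 0) (nat_lit 10528748060) (nat_lit 684) (nat_lit 23331333369) (nat_lit 760) (nat_lit 4098817965) (nat_lit 66) (nat_lit 5) (nat_lit 75) (nat_lit 5) (nat_lit 76) (nat_lit 5) (nat_lit 287) (nat_lit 284) (nat_lit 149))) (XT.nd (nat_lit 78) (nat_lit 0) (nat_lit 0) (XT.lf (nat_lit 0) (nat_lit 11621216283) (nat_lit 684) (nat_lit 7495387771) (nat_lit 760) (nat_lit 19819925375) (nat_lit 66)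 (nat_lit 5) (nat_lit 75) (nat_lit 5) (nat_lit 76) (nat_lit 5) (nat_lit 288) (nat_lit 284) (nat_lit 148)) (XT.lf (nat_lit 76) (nat_lit 9432564816) (nat_lit 0) (nat_lit 3480387374) (nat_lit 760) (nat_lit 27042867084) (nat_lit 67) (nat_lit 5) (nat_lit 66) (nat_lit 5) (nat_lit 76) (nat_lit 5) (nat_lit 289) (nat_lit 284) (nat_lit 147)))) (XT.nd (nat_lit 156) (nat_lit 0) (nat_lit 76) (XT.nd (nat_lit 78) (nat_lit 0) (nat_lit 0) (XT.lf (nat_lit 0) (nat_lit 14597774630) (nat_lit 684) (nat_lit 13758476248) (nat_lit 760) (nat_lit 12653407764) (nat_lit 67) (nat_lit 5) (nat_lit 76) (nat_lit 5) (nat_lit 77) (nat_lit 5) (nat_lit 290) (nat_lit 284) (nat_lit 146)) (XT.lf (nat_lit 76) (nat_lit 3910932225) (nat_lit 0) (nat_lit 12571629679) (nat_lit 760) (nat_lit 25627851434) (nat_lit 68) (nat_lit 5) (nat_lit 67) (nat_lit 5) (nat_lit 77) (nat_lit 5) (nat_lit 291) (nat_lit 284) (nat_lit 145))) (XT.nd (nat_lit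 78) (nat_lit 0) (nat_lit 0) (XT.lf (nat_lit 0) (nat_lit 18758605099) (nat_lit 684) (nat_lit 20381220090) (nat_lit 760) (nat_lit 4111538840) (nat_lit 68) (nat_lit 5) (nat_lit 77) (nat_lit 5) (nat_lit 78) (nat_lit 5) (nat_lit 292) (nat_lit 284) (nat_lit 144)) (XT.lf (nat_lit 0) (nat_lit 21352356472) (nat_lit 684) (nat_lit 1879884309) (nat_lit 760) (nat_lit 21206934829) (nat_lit 68) (nat_lit 5) (nat_lit 77) (nat_lit 5) (nat_lit 78) (nat_lit 5) (nat_lit 293) (nat_lit 284) (nat_lit 143))))) (XT.nd (nat_lit 312) (nat_lit 684) (nat_lit 0) (XT.nd (nat_lit 156) (nat_lit 608) (nat_lit 0) (XT.nd (nat_lit 78) (nat_lit 0) (nat_lit 76) (XT.lf (nat_lit 76) (nat_lit 18124967552) (nat_lit 0) (nat_lit 6231727236) (nat_lit 760) (nat_lit 21315646258) (nat_lit 69) (nat_lit 5) (nat_lit 68) (nat_lit 5) (nat_lit 78) (nat_lit 5) (nat_lit 294) (nat_lit 284) (nat_lit 142)) (XT.lf (nat_lit 0) (nat_lit 27723008162)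 (nat_lit 684) (nat_lit 7953919837) (nat_lit 76) (nat_lit 11279656698) (nat_lit 69) (nat_lit 5) (nat_lit 78) (nat_lit 5) (nat_lit 70) (nat_lit 5) (nat_lit 295) (nat_lit 284) (nat_lit 141))) (XT.nd (nat_lit 78) (nat_lit 0) (nat_lit 0) (XT.lf (nat_lit 0) (nat_lit 12929195233) (nat_lit 684) (nat_lit 18630555033) (nat_lit 760) (nat_lit 16730192089) (nat_lit 60) (nat_lit 5) (nat_lit 69) (nat_lit 5) (nat_lit 70) (nat_lit 5) (nat_lit 296) (nat_lit 284) (nat_lit 140)) (XT.lf (nat_lit 0) (nat_lit 35130968283) (nat_lit 684) (nat_lit 590222528) (nat_lit 760) (nat_lit 13962141141) (nat_lit 60) (nat_lit 5) (nat_lit 69) (nat_lit 5) (nat_lit 70) (nat_lit 5) (nat_lit 297) (nat_lit 284) (nat_lit 139)))) (XT.nd (nat_lit 156) (nat_lit 380) (nat_lit 0) (XT.nd (nat_lit 78) (nat_lit 0) (nat_lit 0) (XT.lf (nat_lit 0) (nat_lit 7239975939) (nat_lit 304) (nat_lit 33248540465) (nat_lit 380) (nat_lit 10637990754)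 (nat_lit 56) (nat_lit 5) (nat_lit 60) (nat_lit 5) (nat_lit 61) (nat_lit 5) (nat_lit 298) (nat_lit 284) (nat_lit 138)) (XT.lf (nat_lit 0) (nat_lit 30615529463) (nat_lit 304) (nat_lit 15132956346) (nat_lit 380) (nat_lit 6880647899) (nat_lit 56) (nat_lit 5) (nat_lit 60) (nat_lit 5) (nat_lit 61) (nat_lit 5) (nat_lit 299) (nat_lit 284) (nat_lit 137))) (XT.nd (nat_lit 78) (nat_lit 76) (nat_lit 0) (XT.lf (nat_lit 0) (nat_lit 920065458) (nat_lit 304) (nat_lit 50424849999) (nat_lit 380) (nat_lit 2858309192) (nat_lit 52) (nat_lit 5) (nat_lit 56) (nat_lit 5) (nat_lit 57) (nat_lit 5) (nat_lit 300) (nat_lit 284) (nat_lit 136)) (XT.nd (nat_lit 78) (nat_lit 0) (nat_lit 0) (XT.lf (nat_lit 0) (nat_lit 1946865504) (nat_lit 380) (nat_lit 30349879220) (nat_lit 76) (nat_lit 23526944690) (nat_lit 51) (nat_lit 5) (nat_lit 56) (nat_lit 5) (nat_lit 52) (nat_lit 5) (nat_lit 301) (nat_lit 284) (nat_lit 135))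 (XT.lf (nat_lit 0) (nat_lit 6894725117) (nat_lit 380) (nat_lit 6318387297) (nat_lit 76) (nat_lit 44309803237) (nat_lit 51) (nat_lit 5) (nat_lit 56) (nat_lit 5) (nat_lit 52) (nat_lit 5) (nat_lit 302) (nat_lit 284) (nat_lit 134))))))) (XT.nd (nat_lit 702) (nat_lit 912) (nat_lit 0) (XT.nd (nat_lit 312) (nat_lit 532) (nat_lit 0) (XT.nd (nat_lit 156) (nat_lit 304) (nat_lit 0) (XT.nd (nat_lit 78) (nat_lit 0) (nat_lit 0) (XT.lf (nat_lit 0) (nat_lit 12505137370) (nat_lit 380) (nat_lit 39864965142) (nat_lit 76) (nat_lit 6916247765) (nat_lit 47) (nat_lit 5) (nat_lit 52) (nat_lit 5) (nat_lit 48) (nat_lit 5) (nat_lit 303) (nat_lit 284) (nat_lit 133)) (XT.lf (nat_lit 0) (nat_lit 18720037985) (nat_lit 380) (nat_lit 14685029971) (nat_lit 76) (nat_lit 27716695112) (nat_lit 47) (nat_lit 5) (nat_lit 52) (nat_lit 5) (nat_lit 48) (nat_lit 5) (nat_lit 304) (nat_lit 284) (nat_lit 132))) (XT.nd (nat_lit 78)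 (nat_lit 0) (nat_lit 0) (XT.lf (nat_lit 0) (nat_lit 12140996985) (nat_lit 304) (nat_lit 13292908512) (nat_lit 380) (nat_lit 37605634497) (nat_lit 43) (nat_lit 5) (nat_lit 47) (nat_lit 5) (nat_lit 48) (nat_lit 5) (nat_lit 305) (nat_lit 284) (nat_lit 131)) (XT.lf (nat_lit 0) (nat_lit 32857114151) (nat_lit 380) (nat_lit 24350394362) (nat_lit 76) (nat_lit 7827019238) (nat_lit 43) (nat_lit 5) (nat_lit 48) (nat_lit 5) (nat_lit 44) (nat_lit 5) (nat_lit 306) (nat_lit 284) (nat_lit 130)))) (XT.nd (nat_lit 156) (nat_lit 304) (nat_lit 0) (XT.nd (nat_lit 78) (nat_lit 0) (nat_lit 0) (XT.lf (nat_lit 0) (nat_lit 3415087528) (nat_lit 228) (nat_lit 37506397694) (nat_lit 304) (nat_lit 26194283737) (nat_lit 40) (nat_lit 5) (nat_lit 43) (nat_lit 5) (nat_lit 44) (nat_lit 5) (nat_lit 307) (nat_lit 284) (nat_lit 129)) (XT.lf (nat_lit 0) (nat_lit 33412796012) (nat_lit 228) (nat_lit 16387467200) (nat_lit 304)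 (nat_lit 19480253563) (nat_lit 40) (nat_lit 5) (nat_lit 43) (nat_lit 5) (nat_lit 44) (nat_lit 5) (nat_lit 308) (nat_lit 284) (nat_lit 128))) (XT.nd (nat_lit 78) (nat_lit 304) (nat_lit 0) (XT.lf (nat_lit 0) (nat_lit 59212193880) (nat_lit 304) (nat_lit 6734896683) (nat_lit 76) (nat_lit 5601954508) (nat_lit 40) (nat_lit 5) (nat_lit 44) (nat_lit 5) (nat_lit 41) (nat_lit 5) (nat_lit 309) (nat_lit 284) (nat_lit 127)) (XT.nd (nat_lit 78) (nat_lit 76) (nat_lit 0) (XT.lf (nat_lit 0) (nat_lit 24364374765) (nat_lit 228) (nat_lit 45378300051) (nat_lit 304) (nat_lit 4155930876) (nat_lit 37) (nat_lit 5) (nat_lit 40) (nat_lit 5) (nat_lit 41) (nat_lit 5) (nat_lit 310) (nat_lit 284) (nat_lit 126)) (XT.lf (nat_lit 0) (nat_lit 4406968076) (nat_lit 304) (nat_lit 19179984758) (nat_lit 76) (nat_lit 52769490912) (nat_lit 36) (nat_lit 5) (nat_lit 40) (nat_lit 5) (nat_lit 37) (nat_lit 5) (nat_lit 311) (nat_lit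 284) (nat_lit 125)))))) (XT.nd (nat_lit 312) (nat_lit 456) (nat_lit 0) (XT.nd (nat_lit 156) (nat_lit 228) (nat_lit 0) (XT.nd (nat_lit 78) (nat_lit 0) (nat_lit 0) (XT.lf (nat_lit 0) (nat_lit 13039891174) (nat_lit 228) (nat_lit 421015801) (nat_lit 304) (nat_lit 65462735258) (nat_lit 33) (nat_lit 5) (nat_lit 36) (nat_lit 5) (nat_lit 37) (nat_lit 5) (nat_lit 312) (nat_lit 284) (nat_lit 124)) (XT.lf (nat_lit 0) (nat_lit 23669882879) (nat_lit 304) (nat_lit 34446171760) (nat_lit 76) (nat_lit 23468031962) (nat_lit 33) (nat_lit 5) (nat_lit 37) (nat_lit 5) (nat_lit 34) (nat_lit 5) (nat_lit 313) (nat_lit 284) (nat_lit 123))) (XT.nd (nat_lit 78) (nat_lit 228) (nat_lit 0) (XT.lf (nat_lit 0) (nat_lit 34395253816) (nat_lit 304) (nat_lit 1444889410) (nat_lit 76) (nat_lit 48537115468) (nat_lit 33) (nat_lit 5) (nat_lit 37) (nat_lit 5) (nat_lit 34) (nat_lit 5) (nat_lit 314) (nat_lit 284) (nat_lit 122))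 (XT.lf (nat_lit 0) (nat_lit 34303159024) (nat_lit 228) (nat_lit 11888392570) (nat_lit 304) (nat_lit 41091807567) (nat_lit 30) (nat_lit 5) (nat_lit 33) (nat_lit 5) (nat_lit 34) (nat_lit 5) (nat_lit 315) (nat_lit 284) (nat_lit 121)))) (XT.nd (nat_lit 156) (nat_lit 304) (nat_lit 0) (XT.nd (nat_lit 78) (nat_lit 152) (nat_lit 0) (XT.lf (nat_lit 0) (nat_lit 58808685569) (nat_lit 304) (nat_lit 18653445441) (nat_lit 76) (nat_lit 12861085131) (nat_lit 30) (nat_lit 5) (nat_lit 34) (nat_lit 5) (nat_lit 31) (nat_lit 5) (nat_lit 316) (nat_lit 284) (nat_lit 120)) (XT.lf (nat_lit 0) (nat_lit 17762075710) (nat_lit 152) (nat_lit 54765960124) (nat_lit 228) (nat_lit 20963464592) (nat_lit 28) (nat_lit 5) (nat_lit 30) (nat_lit 5) (nat_lit 31) (nat_lit 5) (nat_lit 317) (nat_lit 284) (nat_lit 119))) (XT.nd (nat_lit 78) (nat_lit 304) (nat_lit 0) (XT.lf (nat_lit 0) (nat_lit 56644820463) (nat_lit 152) (nat_lit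 30603612700) (nat_lit 228) (nat_lit 9554014103) (nat_lit 28) (nat_lit 5) (nat_lit 30) (nat_lit 5) (nat_lit 31) (nat_lit 5) (nat_lit 318) (nat_lit 284) (nat_lit 118)) (XT.nd (nat_lit 78) (nat_lit 228) (nat_lit 0) (XT.lf (nat_lit 0) (nat_lit 2347463385) (nat_lit 228) (nat_lit 2846245651) (nat_lit 76) (nat_lit 95083380818) (nat_lit 27) (nat_lit 5) (nat_lit 30) (nat_lit 5) (nat_lit 28) (nat_lit 5) (nat_lit 319) (nat_lit 284) (nat_lit 117)) (XT.lf (nat_lit 0) (nat_lit 15453204285) (nat_lit 304) (nat_lit 66867049736) (nat_lit 76) (nat_lit 21550868040) (nat_lit 24) (nat_lit 5) (nat_lit 28) (nat_lit 5) (nat_lit 25) (nat_lit 5) (nat_lit 320) (nat_lit 284) (nat_lit 116))))))))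
noncomputable def xc228 : XT := (XT.nd (nat_lit 1326) (nat_lit 228) (nat_lit 0) (XT.nd (nat_lit 624) (nat_lit 304) (nat_lit 0) (XT.nd (nat_lit 312) (nat_lit 380) (nat_lit 0) (XT.nd (nat_lit 156) (nat_lit 0) (nat_lit 0) (XT.nd (nat_lit 78) (nat_lit 152) (nat_lit 0) (XT.lf (nat_lit 0) (nat_lit 29347619463) (nat_lit 304) (nat_lit 28783751596) (nat_lit 76) (nat_lit 49506817366) (nat_lit 24) (nat_lit 5) (nat_lit 28) (nat_lit 5) (nat_lit 25) (nat_lit 5) (nat_lit 321) (nat_lit 284) (nat_lit 115)) (XT.lf (nat_lit 0) (nat_lit 11573080108) (nat_lit 152) (nat_lit 32543650848) (nat_lit 228) (nat_lit 67467880189) (nat_lit 22) (nat_lit 5) (nat_lit 24) (nat_lit 5) (nat_lit 25) (nat_lit 5) (nat_lit 322) (nat_lit 284) (nat_lit 114))) (XT.nd (nat_lit 78) (nat_lit 0) (nat_lit 0) (XT.lf (nat_lit 0) (nat_lit 54946034886) (nat_lit 152) (nat_lit 5165035168) (nat_lit 228) (nat_lit 55592948076) (nat_lit 22)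 (nat_lit 5) (nat_lit 24) (nat_lit 5) (nat_lit 25) (nat_lit 5) (nat_lit 323) (nat_lit 284) (nat_lit 113)) (XT.lf (nat_lit 0) (nat_lit 77272648634) (nat_lit 228) (nat_lit 19910953513) (nat_lit 76) (nat_lit 22827418840) (nat_lit 22) (nat_lit 5) (nat_lit 25) (nat_lit 5) (nat_lit 23) (nat_lit 5) (nat_lit 324) (nat_lit 284) (nat_lit 112)))) (XT.nd (nat_lit 156) (nat_lit 228) (nat_lit 0) (XT.nd (nat_lit 78) (nat_lit 0) (nat_lit 0) (XT.lf (nat_lit 0) (nat_lit 23649735803) (nat_lit 152) (nat_lit 72095846878) (nat_lit 228) (nat_lit 28765129047) (nat_lit 20) (nat_lit 5) (nat_lit 22) (nat_lit 5) (nat_lit 23) (nat_lit 5) (nat_lit 325) (nat_lit 284) (nat_lit 111)) (XT.lf (nat_lit 0) (nat_lit 70078779953) (nat_lit 152) (nat_lit 45399965793) (nat_lit 228) (nat_lit 13739813639) (nat_lit 20) (nat_lit 5) (nat_lit 22) (nat_lit 5) (nat_lit 23) (nat_lit 5) (nat_lit 326) (nat_lit 284) (nat_lit 110))) (XT.nd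 (nat_lit 78) (nat_lit 152) (nat_lit 0) (XT.lf (nat_lit 0) (nat_lit 1970977385) (nat_lit 228) (nat_lit 15365242062) (nat_lit 76) (nat_lit 116824021395) (nat_lit 19) (nat_lit 5) (nat_lit 22) (nat_lit 5) (nat_lit 20) (nat_lit 5) (nat_lit 327) (nat_lit 284) (nat_lit 109)) (XT.lf (nat_lit 0) (nat_lit 18695970145) (nat_lit 228) (nat_lit 108138257412) (nat_lit 76) (nat_lit 12468997461) (nat_lit 17) (nat_lit 5) (nat_lit 20) (nat_lit 5) (nat_lit 18) (nat_lit 5) (nat_lit 328) (nat_lit 284) (nat_lit 108))))) (XT.nd (nat_lit 312) (nat_lit 152) (nat_lit 0) (XT.nd (nat_lit 156) (nat_lit 152) (nat_lit 0) (XT.nd (nat_lit 78) (nat_lit 0) (nat_lit 0) (XT.lf (nat_lit 0) (nat_lit 36805333349) (nat_lit 228) (nat_lit 64424565253) (nat_lit 76) (nat_lit 43446054992) (nat_lit 17) (nat_lit 5) (nat_lit 20) (nat_lit 5) (nat_lit 18) (nat_lit 5) (nat_lit 329) (nat_lit 284) (nat_lit 107)) (XT.lf (nat_lit 0) (nat_lit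 55819628345) (nat_lit 228) (nat_lit 18526032126) (nat_lit 76) (nat_lit 75971686116) (nat_lit 17) (nat_lit 5) (nat_lit 20) (nat_lit 5) (nat_lit 18) (nat_lit 5) (nat_lit 330) (nat_lit 284) (nat_lit 106))) (XT.nd (nat_lit 78) (nat_lit 0) (nat_lit 0) (XT.lf (nat_lit 0) (nat_lit 30647536762) (nat_lit 152) (nat_lit 45615084439) (nat_lit 228) (nat_lit 79954289990) (nat_lit 15) (nat_lit 5) (nat_lit 17) (nat_lit 5) (nat_lit 18) (nat_lit 5) (nat_lit 331) (nat_lit 284) (nat_lit 105)) (XT.lf (nat_lit 0) (nat_lit 82922175591) (nat_lit 152) (nat_lit 15118836583) (nat_lit 228) (nat_lit 64354780488) (nat_lit 15) (nat_lit 5) (nat_lit 17) (nat_lit 5) (nat_lit 18) (nat_lit 5) (nat_lit 332) (nat_lit 284) (nat_lit 104)))) (XT.nd (nat_lit 156) (nat_lit 76) (nat_lit 0) (XT.nd (nat_lit 78) (nat_lit 76) (nat_lit 0) (XT.lf (nat_lit 0) (nat_lit 121171734348) (nat_lit 228) (nat_lit 31337736221) (nat_lit 76) (nat_lit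 16360978067) (nat_lit 15) (nat_lit 5) (nat_lit 18) (nat_lit 5) (nat_lit 16) (nat_lit 4) (nat_lit 333) (nat_lit 284) (nat_lit 103)) (XT.lf (nat_lit 0) (nat_lit 19583135042) (nat_lit 76) (nat_lit 126428998392) (nat_lit 152) (nat_lit 29629047898) (nat_lit 14) (nat_lit 5) (nat_lit 15) (nat_lit 5) (nat_lit 16) (nat_lit 4) (nat_lit 334) (nat_lit 284) (nat_lit 102))) (XT.nd (nat_lit 78) (nat_lit 76) (nat_lit 0) (XT.lf (nat_lit 0) (nat_lit 74137300715) (nat_lit 76) (nat_lit 98487525317) (nat_lit 152) (nat_lit 10099111869) (nat_lit 14) (nat_lit 5) (nat_lit 15) (nat_lit 5) (nat_lit 16) (nat_lit 4) (nat_lit 335) (nat_lit 284) (nat_lit 101)) (XT.nd (nat_lit 78) (nat_lit 0) (nat_lit 0) (XT.lf (nat_lit 0) (nat_lit 10073788962) (nat_lit 152) (nat_lit 58904850303) (nat_lit 76) (nat_lit 121174091132) (nat_lit 13) (nat_lit 5) (nat_lit 15) (nat_lit 5) (nat_lit 14) (nat_lit 5) (nat_lit 336) (nat_lit 284)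 (nat_lit 100)) (XT.lf (nat_lit 0) (nat_lit 30915526326) (nat_lit 152) (nat_lit 6905204932) (nat_lit 76) (nat_lit 160123974698) (nat_lit 13) (nat_lit 5) (nat_lit 15) (nat_lit 5) (nat_lit 14) (nat_lit 5) (nat_lit 337) (nat_lit 284) (nat_lit 99))))))) (XT.nd (nat_lit 33618) (nat_lit 0) (nat_lit 4256) (XT.nd (nat_lit 312) (nat_lit 0) (nat_lit 0) (XT.nd (nat_lit 156) (nat_lit 76) (nat_lit 0) (XT.nd (nat_lit 78) (nat_lit 0) (nat_lit 0) (XT.lf (nat_lit 0) (nat_lit 49270754904) (nat_lit 152) (nat_lit 4297457718) (nat_lit 228) (nat_lit 152519625322) (nat_lit 11) (nat_lit 5) (nat_lit 13) (nat_lit 5) (nat_lit 14) (nat_lit 5) (nat_lit 338) (nat_lit 284) (nat_lit 98)) (XT.lf (nat_lit 0) (nat_lit 77954472347) (nat_lit 228) (nat_lit 106622062538) (nat_lit 76) (nat_lit 30031545408) (nat_lit 11) (nat_lit 5) (nat_lit 14) (nat_lit 5) (nat_lit 12) (nat_lit 4) (nat_lit 339) (nat_lit 284) (nat_lit 97)))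 (XT.nd (nat_lit 78) (nat_lit 76) (nat_lit 0) (XT.lf (nat_lit 0) (nat_lit 103630126164) (nat_lit 228) (nat_lit 53988355814) (nat_lit 76) (nat_lit 65932349414) (nat_lit 11) (nat_lit 5) (nat_lit 14) (nat_lit 5) (nat_lit 12) (nat_lit 4) (nat_lit 340) (nat_lit 284) (nat_lit 96)) (XT.lf (nat_lit 0) (nat_lit 1318656070) (nat_lit 76) (nat_lit 129291143068) (nat_lit 152) (nat_lit 102329909735) (nat_lit 10) (nat_lit 5) (nat_lit 11) (nat_lit 5) (nat_lit 12) (nat_lit 4) (nat_lit 341) (nat_lit 284) (nat_lit 95)))) (XT.nd (nat_lit 33072) (nat_lit 0) (nat_lit 4180) (XT.nd (nat_lit 78) (nat_lit 0) (nat_lit 0) (XT.lf (nat_lit 0) (nat_lit 61264796389) (nat_lit 76) (nat_lit 98587634595) (nat_lit 152) (nat_lit 82899901104) (nat_lit 10) (nat_lit 5) (nat_lit 11) (nat_lit 5) (nat_lit 12) (nat_lit 4) (nat_lit 342) (nat_lit 284) (nat_lit 94)) (XT.lf (nat_lit 0) (nat_lit 124207695188) (nat_lit 76) (nat_lit 66349171895)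 (nat_lit 152) (nat_lit 62498736339) (nat_lit 10) (nat_lit 5) (nat_lit 11) (nat_lit 5) (nat_lit 12) (nat_lit 4) (nat_lit 343) (nat_lit 284) (nat_lit 93))) (XT.nd (nat_lit 78) (nat_lit 0) (nat_lit 0) (XT.lf (nat_lit 0) (nat_lit 2314380826) (nat_lit 0) (nat_lit 2314380826) (nat_lit 684) (nat_lit 13868629853) (nat_lit 65) (nat_lit 5) (nat_lit 65) (nat_lit 3) (nat_lit 74) (nat_lit 3) (nat_lit 285) (nat_lit 285) (nat_lit 150)) (XT.nd (nat_lit 78) (nat_lit 0) (nat_lit 0) (XT.lf (nat_lit 0) (nat_lit 9708126360) (nat_lit 684) (nat_lit 17295519625) (nat_lit 760) (nat_lit 10904875769) (nat_lit 65) (nat_lit 5) (nat_lit 74) (nat_lit 3) (nat_lit 75) (nat_lit 5) (nat_lit 286) (nat_lit 285) (nat_lit 149)) (XT.lf (nat_lit 0) (nat_lit 10254392080) (nat_lit 684) (nat_lit 1548930565) (nat_lit 760) (nat_lit 27060979211) (nat_lit 65) (nat_lit 5) (nat_lit 74) (nat_lit 3) (nat_lit 75) (nat_lit 5) (nat_lit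 287) (nat_lit 285) (nat_lit 148)))))) (XT.nd (nat_lit 312) (nat_lit 0) (nat_lit 76) (XT.nd (nat_lit 156) (nat_lit 0) (nat_lit 0) (XT.nd (nat_lit 78) (nat_lit 0) (nat_lit 0) (XT.lf (nat_lit 0) (nat_lit 11135904809) (nat_lit 684) (nat_lit 24445883113) (nat_lit 760) (nat_lit 4270696874) (nat_lit 66) (nat_lit 5) (nat_lit 75) (nat_lit 5) (nat_lit 76) (nat_lit 5) (nat_lit 288) (nat_lit 285) (nat_lit 147)) (XT.lf (nat_lit 0) (nat_lit 12279152665) (nat_lit 684) (nat_lit 7820617232) (nat_lit 760) (nat_lit 20779434034) (nat_lit 66) (nat_lit 5) (nat_lit 75) (nat_lit 5) (nat_lit 76) (nat_lit 5) (nat_lit 289) (nat_lit 285) (nat_lit 146))) (XT.nd (nat_lit 78) (nat_lit 0) (nat_lit 76) (XT.lf (nat_lit 76) (nat_lit 9952933953) (nat_lit 0) (nat_lit 3679641654) (nat_lit 760) (nat_lit 28317042323) (nat_lit 67) (nat_lit 5) (nat_lit 66) (nat_lit 5) (nat_lit 76) (nat_lit 5) (nat_lit 290) (nat_lit 285) (nat_lit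 145)) (XT.lf (nat_lit 0) (nat_lit 15397741286) (nat_lit 684) (nat_lit 14395802736) (nat_lit 760) (nat_lit 13262814118) (nat_lit 67) (nat_lit 5) (nat_lit 76) (nat_lit 5) (nat_lit 77) (nat_lit 5) (nat_lit 291) (nat_lit 285) (nat_lit 144)))) (XT.nd (nat_lit 156) (nat_lit 0) (nat_lit 76) (XT.nd (nat_lit 78) (nat_lit 0) (nat_lit 76) (XT.lf (nat_lit 76) (nat_lit 4156260075) (nat_lit 0) (nat_lit 13217948030) (nat_lit 760) (nat_lit 26838083768) (nat_lit 68) (nat_lit 5) (nat_lit 67) (nat_lit 5) (nat_lit 77) (nat_lit 5) (nat_lit 292) (nat_lit 285) (nat_lit 143)) (XT.lf (nat_lit 0) (nat_lit 19760574576) (nat_lit 684) (nat_lit 21349137958) (nat_lit 760) (nat_lit 4300764186) (nat_lit 68) (nat_lit 5) (nat_lit 77) (nat_lit 5) (nat_lit 78) (nat_lit 5) (nat_lit 293) (nat_lit 285) (nat_lit 142))) (XT.nd (nat_lit 78) (nat_lit 0) (nat_lit 0) (XT.lf (nat_lit 0) (nat_lit 22480964031) (nat_lit 684) (nat_lit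 1925170776) (nat_lit 760) (nat_lit 22251708622) (nat_lit 68) (nat_lit 5) (nat_lit 77) (nat_lit 5) (nat_lit 78) (nat_lit 5) (nat_lit 294) (nat_lit 285) (nat_lit 141)) (XT.nd (nat_lit 78) (nat_lit 0) (nat_lit 76) (XT.lf (nat_lit 76) (nat_lit 19079138070) (nat_lit 0) (nat_lit 6554225118) (nat_lit 760) (nat_lit 22319423250) (nat_lit 69) (nat_lit 5) (nat_lit 68) (nat_lit 5) (nat_lit 78) (nat_lit 5) (nat_lit 295) (nat_lit 285) (nat_lit 140)) (XT.lf (nat_lit 0) (nat_lit 29165028381) (nat_lit 684) (nat_lit 8302792820) (nat_lit 76) (nat_lit 11833580215) (nat_lit 69) (nat_lit 5) (nat_lit 78) (nat_lit 5) (nat_lit 70) (nat_lit 5) (nat_lit 296) (nat_lit 285) (nat_lit 139))))))))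
noncomputable def xc229 : XT := (XT.nd (nat_lit 1326) (nat_lit 1216) (nat_lit 0) (XT.nd (nat_lit 624) (nat_lit 1064) (nat_lit 0) (XT.nd (nat_lit 312) (nat_lit 684) (nat_lit 0) (XT.nd (nat_lit 156) (nat_lit 304) (nat_lit 0) (XT.nd (nat_lit 78) (nat_lit 0) (nat_lit 0) (XT.lf (nat_lit 0) (nat_lit 13623690537) (nat_lit 684) (nat_lit 19568006557) (nat_lit 760) (nat_lit 17509835818) (nat_lit 60) (nat_lit 5) (nat_lit 69) (nat_lit 5) (nat_lit 70) (nat_lit 5) (nat_lit 297) (nat_lit 285) (nat_lit 138)) (XT.lf (nat_lit 0) (nat_lit 36933264831) (nat_lit 684) (nat_lit 625375342) (nat_lit 760) (nat_lit 14606090222) (nat_lit 60) (nat_lit 5) (nat_lit 69) (nat_lit 5) (nat_lit 70) (nat_lit 5) (nat_lit 298) (nat_lit 285) (nat_lit 137))) (XT.nd (nat_lit 78) (nat_lit 0) (nat_lit 0) (XT.lf (nat_lit 0) (nat_lit 7649795166) (nat_lit 304) (nat_lit 34912752469) (nat_lit 380) (nat_lit 11117615408) (nat_lit 56)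 (nat_lit 5) (nat_lit 60) (nat_lit 5) (nat_lit 61) (nat_lit 5) (nat_lit 299) (nat_lit 285) (nat_lit 136)) (XT.lf (nat_lit 0) (nat_lit 32191849203) (nat_lit 304) (nat_lit 15891304145) (nat_lit 380) (nat_lit 7174894690) (nat_lit 56) (nat_lit 5) (nat_lit 60) (nat_lit 5) (nat_lit 61) (nat_lit 5) (nat_lit 300) (nat_lit 285) (nat_lit 135)))) (XT.nd (nat_lit 156) (nat_lit 304) (nat_lit 0) (XT.nd (nat_lit 78) (nat_lit 76) (nat_lit 0) (XT.lf (nat_lit 0) (nat_lit 1013404891) (nat_lit 304) (nat_lit 52944463681) (nat_lit 380) (nat_lit 2953060330) (nat_lit 52) (nat_lit 5) (nat_lit 56) (nat_lit 5) (nat_lit 57) (nat_lit 5) (nat_lit 301) (nat_lit 285) (nat_lit 134)) (XT.lf (nat_lit 0) (nat_lit 2088611410) (nat_lit 380) (nat_lit 31820667315) (nat_lit 76) (nat_lit 24703219372) (nat_lit 51) (nat_lit 5) (nat_lit 56) (nat_lit 5) (nat_lit 52) (nat_lit 5) (nat_lit 302) (nat_lit 285) (nat_lit 133))) (XT.nd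 (nat_lit 78) (nat_lit 304) (nat_lit 0) (XT.lf (nat_lit 0) (nat_lit 7281749593) (nat_lit 380) (nat_lit 6589824884) (nat_lit 76) (nat_lit 46525224301) (nat_lit 51) (nat_lit 5) (nat_lit 56) (nat_lit 5) (nat_lit 52) (nat_lit 5) (nat_lit 303) (nat_lit 285) (nat_lit 132)) (XT.lf (nat_lit 0) (nat_lit 13171395836) (nat_lit 380) (nat_lit 41812303812) (nat_lit 76) (nat_lit 7264776877) (nat_lit 47) (nat_lit 5) (nat_lit 52) (nat_lit 5) (nat_lit 48) (nat_lit 5) (nat_lit 304) (nat_lit 285) (nat_lit 131))))) (XT.nd (nat_lit 312) (nat_lit 532) (nat_lit 0) (XT.nd (nat_lit 156) (nat_lit 228) (nat_lit 0) (XT.nd (nat_lit 78) (nat_lit 304) (nat_lit 0) (XT.lf (nat_lit 0) (nat_lit 19695089024) (nat_lit 380) (nat_lit 15375558053) (nat_lit 76) (nat_lit 29105117223) (nat_lit 47) (nat_lit 5) (nat_lit 52) (nat_lit 5) (nat_lit 48) (nat_lit 5) (nat_lit 305) (nat_lit 285) (nat_lit 130)) (XT.lf (nat_lit 0) (nat_lit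 12791065034) (nat_lit 304) (nat_lit 13952397030) (nat_lit 380) (nat_lit 39446033806) (nat_lit 43) (nat_lit 5) (nat_lit 47) (nat_lit 5) (nat_lit 48) (nat_lit 5) (nat_lit 306) (nat_lit 285) (nat_lit 129))) (XT.nd (nat_lit 78) (nat_lit 228) (nat_lit 0) (XT.lf (nat_lit 0) (nat_lit 34536104912) (nat_lit 380) (nat_lit 25525096165) (nat_lit 76) (nat_lit 8223124347) (nat_lit 43) (nat_lit 5) (nat_lit 48) (nat_lit 5) (nat_lit 44) (nat_lit 5) (nat_lit 307) (nat_lit 285) (nat_lit 128)) (XT.lf (nat_lit 0) (nat_lit 3627969207) (nat_lit 228) (nat_lit 39374662337) (nat_lit 304) (nat_lit 27467056106) (nat_lit 40) (nat_lit 5) (nat_lit 43) (nat_lit 5) (nat_lit 44) (nat_lit 5) (nat_lit 308) (nat_lit 285) (nat_lit 127)))) (XT.nd (nat_lit 156) (nat_lit 532) (nat_lit 0) (XT.nd (nat_lit 78) (nat_lit 0) (nat_lit 0) (XT.lf (nat_lit 0) (nat_lit 35123557054) (nat_lit 228) (nat_lit 17200121283) (nat_lit 304) (nat_lit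 20419083557) (nat_lit 40) (nat_lit 5) (nat_lit 43) (nat_lit 5) (nat_lit 44) (nat_lit 5) (nat_lit 309) (nat_lit 285) (nat_lit 126)) (XT.lf (nat_lit 0) (nat_lit 62204714878) (nat_lit 304) (nat_lit 7031834798) (nat_lit 76) (nat_lit 5888246728) (nat_lit 40) (nat_lit 5) (nat_lit 44) (nat_lit 5) (nat_lit 41) (nat_lit 5) (nat_lit 310) (nat_lit 285) (nat_lit 125))) (XT.nd (nat_lit 78) (nat_lit 304) (nat_lit 0) (XT.lf (nat_lit 0) (nat_lit 25621758178) (nat_lit 228) (nat_lit 47639053567) (nat_lit 304) (nat_lit 4331073732) (nat_lit 37) (nat_lit 5) (nat_lit 40) (nat_lit 5) (nat_lit 41) (nat_lit 5) (nat_lit 311) (nat_lit 285) (nat_lit 124)) (XT.nd (nat_lit 78) (nat_lit 228) (nat_lit 0) (XT.lf (nat_lit 0) (nat_lit 4657419876) (nat_lit 304) (nat_lit 20100597941) (nat_lit 76) (nat_lit 55414651937) (nat_lit 36) (nat_lit 5) (nat_lit 40) (nat_lit 5) (nat_lit 37) (nat_lit 5) (nat_lit 312) (nat_lit 285)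 (nat_lit 123)) (XT.lf (nat_lit 0) (nat_lit 13729652658) (nat_lit 228) (nat_lit 433559214) (nat_lit 304) (nat_lit 68705062819) (nat_lit 33) (nat_lit 5) (nat_lit 36) (nat_lit 5) (nat_lit 37) (nat_lit 5) (nat_lit 313) (nat_lit 285) (nat_lit 122))))))) (XT.nd (nat_lit 702) (nat_lit 532) (nat_lit 0) (XT.nd (nat_lit 312) (nat_lit 456) (nat_lit 0) (XT.nd (nat_lit 156) (nat_lit 228) (nat_lit 0) (XT.nd (nat_lit 78) (nat_lit 0) (nat_lit 0) (XT.lf (nat_lit 0) (nat_lit 24881369758) (nat_lit 304) (nat_lit 36131162487) (nat_lit 76) (nat_lit 24649276501) (nat_lit 33) (nat_lit 5) (nat_lit 37) (nat_lit 5) (nat_lit 34) (nat_lit 5) (nat_lit 314) (nat_lit 285) (nat_lit 121)) (XT.lf (nat_lit 0) (nat_lit 36141676255) (nat_lit 304) (nat_lit 1481593061) (nat_lit 76) (nat_lit 50971440709) (nat_lit 33) (nat_lit 5) (nat_lit 37) (nat_lit 5) (nat_lit 34) (nat_lit 5) (nat_lit 315) (nat_lit 285) (nat_lit 120))) (XT.nd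 (nat_lit 78) (nat_lit 0) (nat_lit 0) (XT.lf (nat_lit 0) (nat_lit 36053284556) (nat_lit 228) (nat_lit 12473780795) (nat_lit 304) (nat_lit 43119090085) (nat_lit 30) (nat_lit 5) (nat_lit 33) (nat_lit 5) (nat_lit 34) (nat_lit 5) (nat_lit 316) (nat_lit 285) (nat_lit 119)) (XT.lf (nat_lit 0) (nat_lit 61773955261) (nat_lit 304) (nat_lit 19551643181) (nat_lit 76) (nat_lit 13512465427) (nat_lit 30) (nat_lit 5) (nat_lit 34) (nat_lit 5) (nat_lit 31) (nat_lit 5) (nat_lit 317) (nat_lit 285) (nat_lit 118)))) (XT.nd (nat_lit 156) (nat_lit 304) (nat_lit 0) (XT.nd (nat_lit 78) (nat_lit 0) (nat_lit 0) (XT.lf (nat_lit 0) (nat_lit 18684097987) (nat_lit 152) (nat_lit 57494521976) (nat_lit 228) (nat_lit 21986178455) (nat_lit 28) (nat_lit 5) (nat_lit 30) (nat_lit 5) (nat_lit 31) (nat_lit 5) (nat_lit 318) (nat_lit 285) (nat_lit 117)) (XT.lf (nat_lit 0) (nat_lit 59509364811) (nat_lit 152) (nat_lit 32124520807)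 (nat_lit 228) (nat_lit 10007467793) (nat_lit 28) (nat_lit 5) (nat_lit 30) (nat_lit 5) (nat_lit 31) (nat_lit 5) (nat_lit 319) (nat_lit 285) (nat_lit 116))) (XT.nd (nat_lit 78) (nat_lit 228) (nat_lit 0) (XT.lf (nat_lit 0) (nat_lit 2487189849) (nat_lit 228) (nat_lit 2956995096) (nat_lit 76) (nat_lit 99845583071) (nat_lit 27) (nat_lit 5) (nat_lit 30) (nat_lit 5) (nat_lit 28) (nat_lit 5) (nat_lit 320) (nat_lit 285) (nat_lit 115)) (XT.nd (nat_lit 78) (nat_lit 0) (nat_lit 0) (XT.lf (nat_lit 0) (nat_lit 16247783076) (nat_lit 304) (nat_lit 70178348795) (nat_lit 76) (nat_lit 22637394493) (nat_lit 24) (nat_lit 5) (nat_lit 28) (nat_lit 5) (nat_lit 25) (nat_lit 5) (nat_lit 321) (nat_lit 285) (nat_lit 114)) (XT.lf (nat_lit 0) (nat_lit 30835875271) (nat_lit 304) (nat_lit 30192412101) (nat_lit 76) (nat_lit 51990713521) (nat_lit 24) (nat_lit 5) (nat_lit 28) (nat_lit 5) (nat_lit 25) (nat_lit 5) (nat_lit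 322) (nat_lit 285) (nat_lit 113)))))) (XT.nd (nat_lit 312) (nat_lit 228) (nat_lit 0) (XT.nd (nat_lit 156) (nat_lit 152) (nat_lit 0) (XT.nd (nat_lit 78) (nat_lit 0) (nat_lit 0) (XT.lf (nat_lit 0) (nat_lit 12181768816) (nat_lit 152) (nat_lit 34161148409) (nat_lit 228) (nat_lit 70819856314) (nat_lit 22) (nat_lit 5) (nat_lit 24) (nat_lit 5) (nat_lit 25) (nat_lit 5) (nat_lit 323) (nat_lit 285) (nat_lit 112)) (XT.lf (nat_lit 0) (nat_lit 57721941109) (nat_lit 152) (nat_lit 5414063135) (nat_lit 228) (nat_lit 58352197495) (nat_lit 22) (nat_lit 5) (nat_lit 24) (nat_lit 5) (nat_lit 25) (nat_lit 5) (nat_lit 324) (nat_lit 285) (nat_lit 111))) (XT.nd (nat_lit 78) (nat_lit 152) (nat_lit 0) (XT.lf (nat_lit 0) (nat_lit 81154876015) (nat_lit 228) (nat_lit 20878427123) (nat_lit 76) (nat_lit 23977293185) (nat_lit 22) (nat_lit 5) (nat_lit 25) (nat_lit 5) (nat_lit 23) (nat_lit 5) (nat_lit 325) (nat_lit 285)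 (nat_lit 110)) (XT.lf (nat_lit 0) (nat_lit 24859843850) (nat_lit 152) (nat_lit 75691158685) (nat_lit 228) (nat_lit 30184293966) (nat_lit 20) (nat_lit 5) (nat_lit 22) (nat_lit 5) (nat_lit 23) (nat_lit 5) (nat_lit 326) (nat_lit 285) (nat_lit 109)))) (XT.nd (nat_lit 156) (nat_lit 152) (nat_lit 0) (XT.nd (nat_lit 78) (nat_lit 76) (nat_lit 0) (XT.lf (nat_lit 0) (nat_lit 73609024910) (nat_lit 152) (nat_lit 47660934999) (nat_lit 228) (nat_lit 14408621909) (nat_lit 20) (nat_lit 5) (nat_lit 22) (nat_lit 5) (nat_lit 23) (nat_lit 5) (nat_lit 327) (nat_lit 285) (nat_lit 108)) (XT.lf (nat_lit 0) (nat_lit 2086288599) (nat_lit 228) (nat_lit 16107858815) (nat_lit 76) (nat_lit 122673229536) (nat_lit 19) (nat_lit 5) (nat_lit 22) (nat_lit 5) (nat_lit 20) (nat_lit 5) (nat_lit 328) (nat_lit 285) (nat_lit 107))) (XT.nd (nat_lit 78) (nat_lit 0) (nat_lit 0) (XT.lf (nat_lit 0) (nat_lit 19647265270) (nat_lit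 228) (nat_lit 113519223191) (nat_lit 76) (nat_lit 13101036962) (nat_lit 17) (nat_lit 5) (nat_lit 20) (nat_lit 5) (nat_lit 18) (nat_lit 5) (nat_lit 329) (nat_lit 285) (nat_lit 106)) (XT.nd (nat_lit 78) (nat_lit 0) (nat_lit 0) (XT.lf (nat_lit 0) (nat_lit 38661311081) (nat_lit 228) (nat_lit 67621081999) (nat_lit 76) (nat_lit 45626538339) (nat_lit 17) (nat_lit 5) (nat_lit 20) (nat_lit 5) (nat_lit 18) (nat_lit 5) (nat_lit 330) (nat_lit 285) (nat_lit 105)) (XT.lf (nat_lit 0) (nat_lit 58625572681) (nat_lit 228) (nat_lit 19428798955) (nat_lit 76) (nat_lit 79778061467) (nat_lit 17) (nat_lit 5) (nat_lit 20) (nat_lit 5) (nat_lit 18) (nat_lit 5) (nat_lit 331) (nat_lit 285) (nat_lit 104))))))))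
noncomputable def xc230 : XT := (XT.nd (nat_lit 34398) (nat_lit 0) (nat_lit 2280) (XT.nd (nat_lit 624) (nat_lit 76) (nat_lit 0) (XT.nd (nat_lit 312) (nat_lit 228) (nat_lit 0) (XT.nd (nat_lit 156) (nat_lit 76) (nat_lit 0) (XT.nd (nat_lit 78) (nat_lit 0) (nat_lit 0) (XT.lf (nat_lit 0) (nat_lit 32203068785) (nat_lit 152) (nat_lit 47887295392) (nat_lit 228) (nat_lit 83936630866) (nat_lit 15) (nat_lit 5) (nat_lit 17) (nat_lit 5) (nat_lit 18) (nat_lit 5) (nat_lit 332) (nat_lit 285) (nat_lit 103)) (XT.lf (nat_lit 0) (nat_lit 87090336927) (nat_lit 152) (nat_lit 15866641966) (nat_lit 228) (nat_lit 67557877967) (nat_lit 15) (nat_lit 5) (nat_lit 17) (nat_lit 5) (nat_lit 18) (nat_lit 5) (nat_lit 333) (nat_lit 285) (nat_lit 102))) (XT.nd (nat_lit 78) (nat_lit 76) (nat_lit 0) (XT.lf (nat_lit 0) (nat_lit 127243695488) (nat_lit 228) (nat_lit 32883050689) (nat_lit 76) (nat_lit 17186527950) (nat_lit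 15) (nat_lit 5) (nat_lit 18) (nat_lit 5) (nat_lit 16) (nat_lit 4) (nat_lit 334) (nat_lit 285) (nat_lit 101)) (XT.lf (nat_lit 0) (nat_lit 20583516195) (nat_lit 76) (nat_lit 132742292827) (nat_lit 152) (nat_lit 31096751054) (nat_lit 14) (nat_lit 5) (nat_lit 15) (nat_lit 5) (nat_lit 16) (nat_lit 4) (nat_lit 335) (nat_lit 285) (nat_lit 100)))) (XT.nd (nat_lit 156) (nat_lit 152) (nat_lit 0) (XT.nd (nat_lit 78) (nat_lit 76) (nat_lit 0) (XT.lf (nat_lit 0) (nat_lit 77864379467) (nat_lit 76) (nat_lit 103404134456) (nat_lit 152) (nat_lit 10590972950) (nat_lit 14) (nat_lit 5) (nat_lit 15) (nat_lit 5) (nat_lit 16) (nat_lit 4) (nat_lit 336) (nat_lit 285) (nat_lit 99)) (XT.lf (nat_lit 0) (nat_lit 10589550226) (nat_lit 152) (nat_lit 61830419296) (nat_lit 76) (nat_lit 127239770589) (nat_lit 13) (nat_lit 5) (nat_lit 15) (nat_lit 5) (nat_lit 14) (nat_lit 5) (nat_lit 337) (nat_lit 285) (nat_lit 98)))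 (XT.nd (nat_lit 78) (nat_lit 152) (nat_lit 0) (XT.lf (nat_lit 0) (nat_lit 32472799610) (nat_lit 152) (nat_lit 7231728490) (nat_lit 76) (nat_lit 168136816194) (nat_lit 13) (nat_lit 5) (nat_lit 15) (nat_lit 5) (nat_lit 14) (nat_lit 5) (nat_lit 338) (nat_lit 285) (nat_lit 97)) (XT.lf (nat_lit 0) (nat_lit 51752727132) (nat_lit 152) (nat_lit 4505133427) (nat_lit 228) (nat_lit 160133786358) (nat_lit 11) (nat_lit 5) (nat_lit 13) (nat_lit 5) (nat_lit 14) (nat_lit 5) (nat_lit 339) (nat_lit 285) (nat_lit 96))))) (XT.nd (nat_lit 33384) (nat_lit 0) (nat_lit 4180) (XT.nd (nat_lit 156) (nat_lit 76) (nat_lit 0) (XT.nd (nat_lit 78) (nat_lit 0) (nat_lit 0) (XT.lf (nat_lit 0) (nat_lit 81863005179) (nat_lit 228) (nat_lit 111935160867) (nat_lit 76) (nat_lit 31539757747) (nat_lit 11) (nat_lit 5) (nat_lit 14) (nat_lit 5) (nat_lit 12) (nat_lit 4) (nat_lit 340) (nat_lit 285) (nat_lit 95)) (XT.lf (nat_lit 0)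 (nat_lit 108821926962) (nat_lit 228) (nat_lit 56670626177) (nat_lit 76) (nat_lit 69235285998) (nat_lit 11) (nat_lit 5) (nat_lit 14) (nat_lit 5) (nat_lit 12) (nat_lit 4) (nat_lit 341) (nat_lit 285) (nat_lit 94))) (XT.nd (nat_lit 33150) (nat_lit 0) (nat_lit 4180) (XT.lf (nat_lit 0) (nat_lit 1401459729) (nat_lit 76) (nat_lit 135748897043) (nat_lit 152) (nat_lit 107435815970) (nat_lit 10) (nat_lit 5) (nat_lit 11) (nat_lit 5) (nat_lit 12) (nat_lit 4) (nat_lit 342) (nat_lit 285) (nat_lit 93)) (XT.lf (nat_lit 0) (nat_lit 2451401946) (nat_lit 0) (nat_lit 2451401946) (nat_lit 684) (nat_lit 14517157090) (nat_lit 65) (nat_lit 5) (nat_lit 65) (nat_lit 3) (nat_lit 74) (nat_lit 3) (nat_lit 286) (nat_lit 286) (nat_lit 148)))) (XT.nd (nat_lit 156) (nat_lit 0) (nat_lit 76) (XT.nd (nat_lit 78) (nat_lit 0) (nat_lit 0) (XT.lf (nat_lit 0) (nat_lit 10274049959) (nat_lit 684) (nat_lit 18114705583) (nat_lit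 760) (nat_lit 11410842835) (nat_lit 65) (nat_lit 5) (nat_lit 74) (nat_lit 3) (nat_lit 75) (nat_lit 5) (nat_lit 287) (nat_lit 286) (nat_lit 147)) (XT.lf (nat_lit 0) (nat_lit 10843794809) (nat_lit 684) (nat_lit 1582958023) (nat_lit 760) (nat_lit 28376621769) (nat_lit 65) (nat_lit 5) (nat_lit 74) (nat_lit 3) (nat_lit 75) (nat_lit 5) (nat_lit 288) (nat_lit 286) (nat_lit 146))) (XT.nd (nat_lit 78) (nat_lit 0) (nat_lit 0) (XT.lf (nat_lit 0) (nat_lit 11765914876) (nat_lit 684) (nat_lit 25620996385) (nat_lit 760) (nat_lit 4454243518) (nat_lit 66) (nat_lit 5) (nat_lit 75) (nat_lit 5) (nat_lit 76) (nat_lit 5) (nat_lit 289) (nat_lit 286) (nat_lit 145)) (XT.nd (nat_lit 78) (nat_lit 0) (nat_lit 0) (XT.lf (nat_lit 0) (nat_lit 12962838704) (nat_lit 684) (nat_lit 8166713918) (nat_lit 760) (nat_lit 21789845546) (nat_lit 66) (nat_lit 5) (nat_lit 75) (nat_lit 5) (nat_lit 76) (nat_lit 5) (nat_lit 290)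 (nat_lit 286) (nat_lit 144)) (XT.lf (nat_lit 76) (nat_lit 10494790082) (nat_lit 0) (nat_lit 3886512545) (nat_lit 760) (nat_lit 29662175062) (nat_lit 67) (nat_lit 5) (nat_lit 66) (nat_lit 5) (nat_lit 76) (nat_lit 5) (nat_lit 291) (nat_lit 286) (nat_lit 143))))))) (XT.nd (nat_lit 702) (nat_lit 1216) (nat_lit 0) (XT.nd (nat_lit 312) (nat_lit 836) (nat_lit 0) (XT.nd (nat_lit 156) (nat_lit 0) (nat_lit 76) (XT.nd (nat_lit 78) (nat_lit 0) (nat_lit 0) (XT.lf (nat_lit 0) (nat_lit 16231191093) (nat_lit 684) (nat_lit 15069699608) (nat_lit 760) (nat_lit 13904853658) (nat_lit 67) (nat_lit 5) (nat_lit 76) (nat_lit 5) (nat_lit 77) (nat_lit 5) (nat_lit 292) (nat_lit 286) (nat_lit 142)) (XT.lf (nat_lit 76) (nat_lit 4409226129) (nat_lit 0) (nat_lit 13894933292) (nat_lit 760) (nat_lit 28115443523) (nat_lit 68) (nat_lit 5) (nat_lit 67) (nat_lit 5) (nat_lit 77) (nat_lit 5) (nat_lit 293) (nat_lit 286) (nat_lit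 141))) (XT.nd (nat_lit 78) (nat_lit 0) (nat_lit 0) (XT.lf (nat_lit 0) (nat_lit 20806688767) (nat_lit 684) (nat_lit 22370206523) (nat_lit 760) (nat_lit 4500971016) (nat_lit 68) (nat_lit 5) (nat_lit 77) (nat_lit 5) (nat_lit 78) (nat_lit 5) (nat_lit 294) (nat_lit 286) (nat_lit 140)) (XT.lf (nat_lit 0) (nat_lit 23660331720) (nat_lit 684) (nat_lit 1977249950) (nat_lit 760) (nat_lit 23350168930) (nat_lit 68) (nat_lit 5) (nat_lit 77) (nat_lit 5) (nat_lit 78) (nat_lit 5) (nat_lit 295) (nat_lit 286) (nat_lit 139)))) (XT.nd (nat_lit 156) (nat_lit 912) (nat_lit 0) (XT.nd (nat_lit 78) (nat_lit 0) (nat_lit 76) (XT.lf (nat_lit 76) (nat_lit 20076561767) (nat_lit 0) (nat_lit 6891833445) (nat_lit 760) (nat_lit 23379153758) (nat_lit 69) (nat_lit 5) (nat_lit 68) (nat_lit 5) (nat_lit 78) (nat_lit 5) (nat_lit 296) (nat_lit 286) (nat_lit 138)) (XT.lf (nat_lit 0) (nat_lit 30673955366) (nat_lit 684) (nat_lit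 8673648553) (nat_lit 76) (nat_lit 12416135127) (nat_lit 69) (nat_lit 5) (nat_lit 78) (nat_lit 5) (nat_lit 70) (nat_lit 5) (nat_lit 297) (nat_lit 286) (nat_lit 137))) (XT.nd (nat_lit 78) (nat_lit 304) (nat_lit 0) (XT.lf (nat_lit 0) (nat_lit 14348444715) (nat_lit 684) (nat_lit 20551779920) (nat_lit 760) (nat_lit 18333748585) (nat_lit 60) (nat_lit 5) (nat_lit 69) (nat_lit 5) (nat_lit 70) (nat_lit 5) (nat_lit 298) (nat_lit 286) (nat_lit 136)) (XT.nd (nat_lit 78) (nat_lit 304) (nat_lit 0) (XT.lf (nat_lit 0) (nat_lit 38821422980) (nat_lit 684) (nat_lit 661761286) (nat_lit 760) (nat_lit 15287271852) (nat_lit 60) (nat_lit 5) (nat_lit 69) (nat_lit 5) (nat_lit 70) (nat_lit 5) (nat_lit 299) (nat_lit 286) (nat_lit 135)) (XT.lf (nat_lit 0) (nat_lit 8075659464) (nat_lit 304) (nat_lit 36660009123) (nat_lit 380) (nat_lit 11626081317) (nat_lit 56) (nat_lit 5) (nat_lit 60) (nat_lit 5) (nat_lit 61) (nat_lit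 5) (nat_lit 300) (nat_lit 286) (nat_lit 134)))))) (XT.nd (nat_lit 312) (nat_lit 836) (nat_lit 0) (XT.nd (nat_lit 156) (nat_lit 76) (nat_lit 0) (XT.nd (nat_lit 78) (nat_lit 304) (nat_lit 0) (XT.lf (nat_lit 0) (nat_lit 33842750748) (nat_lit 304) (nat_lit 16687411286) (nat_lit 380) (nat_lit 7488482415) (nat_lit 56) (nat_lit 5) (nat_lit 60) (nat_lit 5) (nat_lit 61) (nat_lit 5) (nat_lit 301) (nat_lit 286) (nat_lit 133)) (XT.lf (nat_lit 0) (nat_lit 1107010429) (nat_lit 304) (nat_lit 55590209478) (nat_lit 380) (nat_lit 3057026887) (nat_lit 52) (nat_lit 5) (nat_lit 56) (nat_lit 5) (nat_lit 57) (nat_lit 5) (nat_lit 302) (nat_lit 286) (nat_lit 132))) (XT.nd (nat_lit 78) (nat_lit 0) (nat_lit 0) (XT.lf (nat_lit 0) (nat_lit 2233316476) (nat_lit 380) (nat_lit 33369337082) (nat_lit 76) (nat_lit 25938314532) (nat_lit 51) (nat_lit 5) (nat_lit 56) (nat_lit 5) (nat_lit 52) (nat_lit 5) (nat_lit 303) (nat_lit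 286) (nat_lit 131)) (XT.lf (nat_lit 0) (nat_lit 7684193735) (nat_lit 380) (nat_lit 6878969844) (nat_lit 76) (nat_lit 48851422842) (nat_lit 51) (nat_lit 5) (nat_lit 56) (nat_lit 5) (nat_lit 52) (nat_lit 5) (nat_lit 304) (nat_lit 286) (nat_lit 130)))) (XT.nd (nat_lit 156) (nat_lit 532) (nat_lit 0) (XT.nd (nat_lit 78) (nat_lit 0) (nat_lit 0) (XT.lf (nat_lit 0) (nat_lit 13867155285) (nat_lit 380) (nat_lit 43861277654) (nat_lit 76) (nat_lit 7630479869) (nat_lit 47) (nat_lit 5) (nat_lit 52) (nat_lit 5) (nat_lit 48) (nat_lit 5) (nat_lit 305) (nat_lit 286) (nat_lit 129)) (XT.lf (nat_lit 0) (nat_lit 20715262197) (nat_lit 380) (nat_lit 16104677529) (nat_lit 76) (nat_lit 30562719892) (nat_lit 47) (nat_lit 5) (nat_lit 52) (nat_lit 5) (nat_lit 48) (nat_lit 5) (nat_lit 306) (nat_lit 286) (nat_lit 128))) (XT.nd (nat_lit 78) (nat_lit 228) (nat_lit 0) (XT.lf (nat_lit 0) (nat_lit 13469637060) (nat_lit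 304) (nat_lit 14645339414) (nat_lit 380) (nat_lit 41382160968) (nat_lit 43) (nat_lit 5) (nat_lit 47) (nat_lit 5) (nat_lit 48) (nat_lit 5) (nat_lit 307) (nat_lit 286) (nat_lit 127)) (XT.nd (nat_lit 78) (nat_lit 228) (nat_lit 0) (XT.lf (nat_lit 0) (nat_lit 36295685716) (nat_lit 380) (nat_lit 26762513863) (nat_lit 76) (nat_lit 8638592715) (nat_lit 43) (nat_lit 5) (nat_lit 48) (nat_lit 5) (nat_lit 44) (nat_lit 5) (nat_lit 308) (nat_lit 286) (nat_lit 126)) (XT.lf (nat_lit 0) (nat_lit 3847578373) (nat_lit 228) (nat_lit 41336996142) (nat_lit 304) (nat_lit 28806901592) (nat_lit 40) (nat_lit 5) (nat_lit 43) (nat_lit 5) (nat_lit 44) (nat_lit 5) (nat_lit 309) (nat_lit 286) (nat_lit 125))))))))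
noncomputable def xc231 : XT := (XT.nd (nat_lit 1326) (nat_lit 836) (nat_lit 0) (XT.nd (nat_lit 624) (nat_lit 608) (nat_lit 0) (XT.nd (nat_lit 312) (nat_lit 456) (nat_lit 0) (XT.nd (nat_lit 156) (nat_lit 304) (nat_lit 0) (XT.nd (nat_lit 78) (nat_lit 0) (nat_lit 0) (XT.lf (nat_lit 0) (nat_lit 36916126055) (nat_lit 228) (nat_lit 18054032764) (nat_lit 304) (nat_lit 21408126003) (nat_lit 40) (nat_lit 5) (nat_lit 43) (nat_lit 5) (nat_lit 44) (nat_lit 5) (nat_lit 310) (nat_lit 286) (nat_lit 124)) (XT.lf (nat_lit 0) (nat_lit 65343895117) (nat_lit 304) (nat_lit 7347320670) (nat_lit 76) (nat_lit 6188277653) (nat_lit 40) (nat_lit 5) (nat_lit 44) (nat_lit 5) (nat_lit 41) (nat_lit 5) (nat_lit 311) (nat_lit 286) (nat_lit 123))) (XT.nd (nat_lit 78) (nat_lit 76) (nat_lit 0) (XT.lf (nat_lit 0) (nat_lit 26938369602) (nat_lit 228) (nat_lit 50013603537) (nat_lit 304) (nat_lit 4518009562) (nat_lit 37)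 (nat_lit 5) (nat_lit 40) (nat_lit 5) (nat_lit 41) (nat_lit 5) (nat_lit 312) (nat_lit 286) (nat_lit 122)) (XT.lf (nat_lit 0) (nat_lit 4917595536) (nat_lit 304) (nat_lit 21070810554) (nat_lit 76) (nat_lit 58191449369) (nat_lit 36) (nat_lit 5) (nat_lit 40) (nat_lit 5) (nat_lit 37) (nat_lit 5) (nat_lit 313) (nat_lit 286) (nat_lit 121)))) (XT.nd (nat_lit 156) (nat_lit 228) (nat_lit 0) (XT.nd (nat_lit 78) (nat_lit 0) (nat_lit 0) (XT.lf (nat_lit 0) (nat_lit 14450391005) (nat_lit 228) (nat_lit 447520733) (nat_lit 304) (nat_lit 72112371107) (nat_lit 33) (nat_lit 5) (nat_lit 36) (nat_lit 5) (nat_lit 37) (nat_lit 5) (nat_lit 314) (nat_lit 286) (nat_lit 120)) (XT.lf (nat_lit 0) (nat_lit 26150828482) (nat_lit 304) (nat_lit 37903872211) (nat_lit 76) (nat_lit 25888854104) (nat_lit 33) (nat_lit 5) (nat_lit 37) (nat_lit 5) (nat_lit 34) (nat_lit 5) (nat_lit 315) (nat_lit 286) (nat_lit 119))) (XT.nd (nat_lit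 78) (nat_lit 228) (nat_lit 0) (XT.lf (nat_lit 0) (nat_lit 37972941244) (nat_lit 304) (nat_lit 1523436142) (nat_lit 76) (nat_lit 53526787771) (nat_lit 33) (nat_lit 5) (nat_lit 37) (nat_lit 5) (nat_lit 34) (nat_lit 5) (nat_lit 316) (nat_lit 286) (nat_lit 118)) (XT.lf (nat_lit 0) (nat_lit 37887665411) (nat_lit 228) (nat_lit 13089278086) (nat_lit 304) (nat_lit 45250275554) (nat_lit 30) (nat_lit 5) (nat_lit 33) (nat_lit 5) (nat_lit 34) (nat_lit 5) (nat_lit 317) (nat_lit 286) (nat_lit 117))))) (XT.nd (nat_lit 312) (nat_lit 380) (nat_lit 0) (XT.nd (nat_lit 156) (nat_lit 76) (nat_lit 0) (XT.nd (nat_lit 78) (nat_lit 152) (nat_lit 0) (XT.lf (nat_lit 0) (nat_lit 64885179475) (nat_lit 304) (nat_lit 20497955924) (nat_lit 76) (nat_lit 14195640662) (nat_lit 30) (nat_lit 5) (nat_lit 34) (nat_lit 5) (nat_lit 31) (nat_lit 5) (nat_lit 318) (nat_lit 286) (nat_lit 116)) (XT.lf (nat_lit 0) (nat_lit 19649067958)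 (nat_lit 152) (nat_lit 60360417096) (nat_lit 228) (nat_lit 23062394982) (nat_lit 28) (nat_lit 5) (nat_lit 30) (nat_lit 5) (nat_lit 31) (nat_lit 5) (nat_lit 319) (nat_lit 286) (nat_lit 115))) (XT.nd (nat_lit 78) (nat_lit 76) (nat_lit 0) (XT.lf (nat_lit 0) (nat_lit 62514133119) (nat_lit 152) (nat_lit 33722336391) (nat_lit 228) (nat_lit 10485848425) (nat_lit 28) (nat_lit 5) (nat_lit 30) (nat_lit 5) (nat_lit 31) (nat_lit 5) (nat_lit 320) (nat_lit 286) (nat_lit 114)) (XT.lf (nat_lit 0) (nat_lit 2631824439) (nat_lit 228) (nat_lit 3076216426) (nat_lit 76) (nat_lit 104845148585) (nat_lit 27) (nat_lit 5) (nat_lit 30) (nat_lit 5) (nat_lit 28) (nat_lit 5) (nat_lit 321) (nat_lit 286) (nat_lit 113)))) (XT.nd (nat_lit 156) (nat_lit 152) (nat_lit 0) (XT.nd (nat_lit 78) (nat_lit 0) (nat_lit 0) (XT.lf (nat_lit 0) (nat_lit 17080053024) (nat_lit 304) (nat_lit 73658192830) (nat_lit 76) (nat_lit 23777412110)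 (nat_lit 24) (nat_lit 5) (nat_lit 28) (nat_lit 5) (nat_lit 25) (nat_lit 5) (nat_lit 322) (nat_lit 286) (nat_lit 112)) (XT.lf (nat_lit 0) (nat_lit 32396603125) (nat_lit 304) (nat_lit 31674343750) (nat_lit 76) (nat_lit 54598009094) (nat_lit 24) (nat_lit 5) (nat_lit 28) (nat_lit 5) (nat_lit 25) (nat_lit 5) (nat_lit 323) (nat_lit 286) (nat_lit 111))) (XT.nd (nat_lit 78) (nat_lit 0) (nat_lit 0) (XT.lf (nat_lit 0) (nat_lit 12818099617) (nat_lit 152) (nat_lit 35860421266) (nat_lit 228) (nat_lit 74341422477) (nat_lit 22) (nat_lit 5) (nat_lit 24) (nat_lit 5) (nat_lit 25) (nat_lit 5) (nat_lit 324) (nat_lit 286) (nat_lit 110)) (XT.nd (nat_lit 78) (nat_lit 0) (nat_lit 0) (XT.lf (nat_lit 0) (nat_lit 60633983270) (nat_lit 152) (nat_lit 5676400040) (nat_lit 228) (nat_lit 61251305796) (nat_lit 22) (nat_lit 5) (nat_lit 24) (nat_lit 5) (nat_lit 25) (nat_lit 5) (nat_lit 325) (nat_lit 286) (nat_lit 109))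 (XT.lf (nat_lit 0) (nat_lit 85229485982) (nat_lit 228) (nat_lit 21896884475) (nat_lit 76) (nat_lit 25183870681) (nat_lit 22) (nat_lit 5) (nat_lit 25) (nat_lit 5) (nat_lit 23) (nat_lit 5) (nat_lit 326) (nat_lit 286) (nat_lit 108))))))) (XT.nd (nat_lit 702) (nat_lit 304) (nat_lit 0) (XT.nd (nat_lit 312) (nat_lit 152) (nat_lit 0) (XT.nd (nat_lit 156) (nat_lit 228) (nat_lit 0) (XT.nd (nat_lit 78) (nat_lit 0) (nat_lit 0) (XT.lf (nat_lit 0) (nat_lit 26127889337) (nat_lit 152) (nat_lit 79467117492) (nat_lit 228) (nat_lit 31676192081) (nat_lit 20) (nat_lit 5) (nat_lit 22) (nat_lit 5) (nat_lit 23) (nat_lit 5) (nat_lit 327) (nat_lit 286) (nat_lit 107)) (XT.lf (nat_lit 0) (nat_lit 77313336436) (nat_lit 152) (nat_lit 50035792105) (nat_lit 228) (nat_lit 15112561020) (nat_lit 20) (nat_lit 5) (nat_lit 22) (nat_lit 5) (nat_lit 23) (nat_lit 5) (nat_lit 328) (nat_lit 286) (nat_lit 106))) (XT.nd (nat_lit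 78) (nat_lit 152) (nat_lit 0) (XT.lf (nat_lit 0) (nat_lit 2205806969) (nat_lit 228) (nat_lit 16889990667) (nat_lit 76) (nat_lit 128814153663) (nat_lit 19) (nat_lit 5) (nat_lit 22) (nat_lit 5) (nat_lit 20) (nat_lit 5) (nat_lit 329) (nat_lit 286) (nat_lit 105)) (XT.lf (nat_lit 0) (nat_lit 20644591452) (nat_lit 228) (nat_lit 119171649573) (nat_lit 76) (nat_lit 13763879856) (nat_lit 17) (nat_lit 5) (nat_lit 20) (nat_lit 5) (nat_lit 18) (nat_lit 5) (nat_lit 330) (nat_lit 286) (nat_lit 104)))) (XT.nd (nat_lit 156) (nat_lit 152) (nat_lit 0) (XT.nd (nat_lit 78) (nat_lit 0) (nat_lit 0) (XT.lf (nat_lit 0) (nat_lit 40608627034) (nat_lit 228) (nat_lit 70979722025) (nat_lit 76) (nat_lit 47915285300) (nat_lit 17) (nat_lit 5) (nat_lit 20) (nat_lit 5) (nat_lit 18) (nat_lit 5) (nat_lit 331) (nat_lit 286) (nat_lit 103)) (XT.lf (nat_lit 0) (nat_lit 61570423123) (nat_lit 228) (nat_lit 20378892166) (nat_lit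 76) (nat_lit 83774031249) (nat_lit 17) (nat_lit 5) (nat_lit 20) (nat_lit 5) (nat_lit 18) (nat_lit 5) (nat_lit 332) (nat_lit 286) (nat_lit 102))) (XT.nd (nat_lit 78) (nat_lit 0) (nat_lit 0) (XT.lf (nat_lit 0) (nat_lit 33834224659) (nat_lit 152) (nat_lit 50273911166) (nat_lit 228) (nat_lit 88119518079) (nat_lit 15) (nat_lit 5) (nat_lit 17) (nat_lit 5) (nat_lit 18) (nat_lit 5) (nat_lit 333) (nat_lit 286) (nat_lit 101)) (XT.nd (nat_lit 78) (nat_lit 0) (nat_lit 0) (XT.lf (nat_lit 0) (nat_lit 91464856092) (nat_lit 152) (nat_lit 16652594068) (nat_lit 228) (nat_lit 70922491551) (nat_lit 15) (nat_lit 5) (nat_lit 17) (nat_lit 5) (nat_lit 18) (nat_lit 5) (nat_lit 334) (nat_lit 286) (nat_lit 100)) (XT.lf (nat_lit 0) (nat_lit 133618011257) (nat_lit 228) (nat_lit 34507636473) (nat_lit 76) (nat_lit 18052657957) (nat_lit 15) (nat_lit 5) (nat_lit 18) (nat_lit 5) (nat_lit 16) (nat_lit 4) (nat_lit 335)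 (nat_lit 286) (nat_lit 99)))))) (XT.nd (nat_lit 312) (nat_lit 152) (nat_lit 0) (XT.nd (nat_lit 156) (nat_lit 76) (nat_lit 0) (XT.nd (nat_lit 78) (nat_lit 0) (nat_lit 0) (XT.lf (nat_lit 0) (nat_lit 21631943163) (nat_lit 76) (nat_lit 139372010204) (nat_lit 152) (nat_lit 32639117642) (nat_lit 14) (nat_lit 5) (nat_lit 15) (nat_lit 5) (nat_lit 16) (nat_lit 4) (nat_lit 336) (nat_lit 286) (nat_lit 98)) (XT.lf (nat_lit 0) (nat_lit 81775932876) (nat_lit 76) (nat_lit 108567296165) (nat_lit 152) (nat_lit 11108644488) (nat_lit 14) (nat_lit 5) (nat_lit 15) (nat_lit 5) (nat_lit 16) (nat_lit 4) (nat_lit 337) (nat_lit 286) (nat_lit 97))) (XT.nd (nat_lit 78) (nat_lit 0) (nat_lit 0) (XT.lf (nat_lit 0) (nat_lit 11129977230) (nat_lit 152) (nat_lit 64904095796) (nat_lit 76) (nat_lit 133608085558) (nat_lit 13) (nat_lit 5) (nat_lit 15) (nat_lit 5) (nat_lit 14) (nat_lit 5) (nat_lit 338) (nat_lit 286) (nat_lit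 96)) (XT.lf (nat_lit 0) (nat_lit 34106867679) (nat_lit 152) (nat_lit 7576320186) (nat_lit 76) (nat_lit 176549682185) (nat_lit 13) (nat_lit 5) (nat_lit 15) (nat_lit 5) (nat_lit 14) (nat_lit 5) (nat_lit 339) (nat_lit 286) (nat_lit 95)))) (XT.nd (nat_lit 156) (nat_lit 0) (nat_lit 0) (XT.nd (nat_lit 78) (nat_lit 0) (nat_lit 0) (XT.lf (nat_lit 0) (nat_lit 54357084109) (nat_lit 152) (nat_lit 4723862047) (nat_lit 228) (nat_lit 168129754379) (nat_lit 11) (nat_lit 5) (nat_lit 13) (nat_lit 5) (nat_lit 14) (nat_lit 5) (nat_lit 340) (nat_lit 286) (nat_lit 94)) (XT.lf (nat_lit 0) (nat_lit 85965959714) (nat_lit 228) (nat_lit 117515588027) (nat_lit 76) (nat_lit 33122763837) (nat_lit 11) (nat_lit 5) (nat_lit 14) (nat_lit 5) (nat_lit 12) (nat_lit 4) (nat_lit 341) (nat_lit 286) (nat_lit 93))) (XT.nd (nat_lit 33228) (nat_lit 0) (nat_lit 4104) (XT.lf (nat_lit 0) (nat_lit 114272360715) (nat_lit 228) (nat_lit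 59488604265) (nat_lit 76) (nat_lit 72702781919) (nat_lit 11) (nat_lit 5) (nat_lit 14) (nat_lit 5) (nat_lit 12) (nat_lit 4) (nat_lit 342) (nat_lit 286) (nat_lit 92)) (XT.nd (nat_lit 78) (nat_lit 0) (nat_lit 0) (XT.lf (nat_lit 0) (nat_lit 2593293657) (nat_lit 0) (nat_lit 2593293657) (nat_lit 684) (nat_lit 15202285460) (nat_lit 65) (nat_lit 5) (nat_lit 65) (nat_lit 3) (nat_lit 74) (nat_lit 3) (nat_lit 287) (nat_lit 287) (nat_lit 146)) (XT.lf (nat_lit 0) (nat_lit 10860784005) (nat_lit 684) (nat_lit 18979089366) (nat_lit 760) (nat_lit 11945759832) (nat_lit 65) (nat_lit 5) (nat_lit 74) (nat_lit 3) (nat_lit 75) (nat_lit 5) (nat_lit 288) (nat_lit 287) (nat_lit 145))))))))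
noncomputable def xc232 : XT := (XT.nd (nat_lit 1326) (nat_lit 2052) (nat_lit 0) (XT.nd (nat_lit 624) (nat_lit 1064) (nat_lit 0) (XT.nd (nat_lit 312) (nat_lit 0) (nat_lit 152) (XT.nd (nat_lit 156) (nat_lit 0) (nat_lit 76) (XT.nd (nat_lit 78) (nat_lit 0) (nat_lit 76) (XT.lf (nat_lit 0) (nat_lit 11455538404) (nat_lit 684) (nat_lit 1622723548) (nat_lit 760) (nat_lit 29761524148) (nat_lit 65) (nat_lit 5) (nat_lit 74) (nat_lit 3) (nat_lit 75) (nat_lit 5) (nat_lit 289) (nat_lit 287) (nat_lit 144)) (XT.lf (nat_lit 0) (nat_lit 12420618626) (nat_lit 684) (nat_lit 26859251752) (nat_lit 760) (nat_lit 4649755513) (nat_lit 66) (nat_lit 5) (nat_lit 75) (nat_lit 5) (nat_lit 76) (nat_lit 5) (nat_lit 290) (nat_lit 287) (nat_lit 143))) (XT.nd (nat_lit 78) (nat_lit 0) (nat_lit 0) (XT.lf (nat_lit 0) (nat_lit 13674226359) (nat_lit 684) (nat_lit 8534292992) (nat_lit 760) (nat_lit 22853432889) (nat_lit 66)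 (nat_lit 5) (nat_lit 75) (nat_lit 5) (nat_lit 76) (nat_lit 5) (nat_lit 291) (nat_lit 287) (nat_lit 142)) (XT.lf (nat_lit 76) (nat_lit 11059628842) (nat_lit 0) (nat_lit 4101598996) (nat_lit 760) (nat_lit 31081139254) (nat_lit 67) (nat_lit 5) (nat_lit 66) (nat_lit 5) (nat_lit 76) (nat_lit 5) (nat_lit 292) (nat_lit 287) (nat_lit 141)))) (XT.nd (nat_lit 156) (nat_lit 0) (nat_lit 76) (XT.nd (nat_lit 78) (nat_lit 0) (nat_lit 0) (XT.lf (nat_lit 0) (nat_lit 17100403930) (nat_lit 684) (nat_lit 15781558044) (nat_lit 760) (nat_lit 14580956962) (nat_lit 67) (nat_lit 5) (nat_lit 76) (nat_lit 5) (nat_lit 77) (nat_lit 5) (nat_lit 293) (nat_lit 287) (nat_lit 140)) (XT.lf (nat_lit 76) (nat_lit 4670642584) (nat_lit 0) (nat_lit 14604272121) (nat_lit 760) (nat_lit 29462671996) (nat_lit 68) (nat_lit 5) (nat_lit 67) (nat_lit 5) (nat_lit 77) (nat_lit 5) (nat_lit 294) (nat_lit 287) (nat_lit 139))) (XT.nd (nat_lit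 78) (nat_lit 0) (nat_lit 0) (XT.lf (nat_lit 0) (nat_lit 21899708432) (nat_lit 684) (nat_lit 23446641264) (nat_lit 760) (nat_lit 4712567068) (nat_lit 68) (nat_lit 5) (nat_lit 77) (nat_lit 5) (nat_lit 78) (nat_lit 5) (nat_lit 295) (nat_lit 287) (nat_lit 138)) (XT.lf (nat_lit 0) (nat_lit 24893524712) (nat_lit 684) (nat_lit 2036040462) (nat_lit 760) (nat_lit 24504865473) (nat_lit 68) (nat_lit 5) (nat_lit 77) (nat_lit 5) (nat_lit 78) (nat_lit 5) (nat_lit 296) (nat_lit 287) (nat_lit 137))))) (XT.nd (nat_lit 312) (nat_lit 684) (nat_lit 0) (XT.nd (nat_lit 156) (nat_lit 608) (nat_lit 0) (XT.nd (nat_lit 78) (nat_lit 0) (nat_lit 76) (XT.lf (nat_lit 76) (nat_lit 21119815519) (nat_lit 0) (nat_lit 7245402053) (nat_lit 760) (nat_lit 24497099515) (nat_lit 69) (nat_lit 5) (nat_lit 68) (nat_lit 5) (nat_lit 78) (nat_lit 5) (nat_lit 297) (nat_lit 287) (nat_lit 136)) (XT.lf (nat_lit 0) (nat_lit 32253617366)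 (nat_lit 684) (nat_lit 9067164170) (nat_lit 76) (nat_lit 13028666058) (nat_lit 69) (nat_lit 5) (nat_lit 78) (nat_lit 5) (nat_lit 70) (nat_lit 5) (nat_lit 298) (nat_lit 287) (nat_lit 135))) (XT.nd (nat_lit 78) (nat_lit 0) (nat_lit 0) (XT.lf (nat_lit 0) (nat_lit 15105385910) (nat_lit 684) (nat_lit 21584242418) (nat_lit 760) (nat_lit 19203652318) (nat_lit 60) (nat_lit 5) (nat_lit 69) (nat_lit 5) (nat_lit 70) (nat_lit 5) (nat_lit 299) (nat_lit 287) (nat_lit 134)) (XT.lf (nat_lit 0) (nat_lit 40800131232) (nat_lit 684) (nat_lit 699490780) (nat_lit 760) (nat_lit 16007079544) (nat_lit 60) (nat_lit 5) (nat_lit 69) (nat_lit 5) (nat_lit 70) (nat_lit 5) (nat_lit 300) (nat_lit 287) (nat_lit 133)))) (XT.nd (nat_lit 156) (nat_lit 380) (nat_lit 0) (XT.nd (nat_lit 78) (nat_lit 0) (nat_lit 0) (XT.lf (nat_lit 0) (nat_lit 8518784423) (nat_lit 304) (nat_lit 38494478087) (nat_lit 380) (nat_lit 12164378707)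 (nat_lit 56) (nat_lit 5) (nat_lit 60) (nat_lit 5) (nat_lit 61) (nat_lit 5) (nat_lit 301) (nat_lit 287) (nat_lit 132)) (XT.lf (nat_lit 0) (nat_lit 35572356843) (nat_lit 304) (nat_lit 17523180430) (nat_lit 380) (nat_lit 7821947796) (nat_lit 56) (nat_lit 5) (nat_lit 60) (nat_lit 5) (nat_lit 61) (nat_lit 5) (nat_lit 302) (nat_lit 287) (nat_lit 131))) (XT.nd (nat_lit 78) (nat_lit 76) (nat_lit 0) (XT.lf (nat_lit 0) (nat_lit 1201304527) (nat_lit 304) (nat_lit 58368379919) (nat_lit 380) (nat_lit 3170253325) (nat_lit 52) (nat_lit 5) (nat_lit 56) (nat_lit 5) (nat_lit 57) (nat_lit 5) (nat_lit 303) (nat_lit 287) (nat_lit 130)) (XT.nd (nat_lit 78) (nat_lit 0) (nat_lit 0) (XT.lf (nat_lit 0) (nat_lit 2381512454) (nat_lit 380) (nat_lit 34999378904) (nat_lit 76) (nat_lit 27235170569) (nat_lit 51) (nat_lit 5) (nat_lit 56) (nat_lit 5) (nat_lit 52) (nat_lit 5) (nat_lit 304) (nat_lit 287) (nat_lit 129))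 (XT.lf (nat_lit 0) (nat_lit 8103194045) (nat_lit 380) (nat_lit 7186323067) (nat_lit 76) (nat_lit 51293937136) (nat_lit 51) (nat_lit 5) (nat_lit 56) (nat_lit 5) (nat_lit 52) (nat_lit 5) (nat_lit 305) (nat_lit 287) (nat_lit 128))))))) (XT.nd (nat_lit 702) (nat_lit 912) (nat_lit 0) (XT.nd (nat_lit 312) (nat_lit 532) (nat_lit 0) (XT.nd (nat_lit 156) (nat_lit 304) (nat_lit 0) (XT.nd (nat_lit 78) (nat_lit 0) (nat_lit 0) (XT.lf (nat_lit 0) (nat_lit 14594245165) (nat_lit 380) (nat_lit 46016571607) (nat_lit 76) (nat_lit 8014238918) (nat_lit 47) (nat_lit 5) (nat_lit 52) (nat_lit 5) (nat_lit 48) (nat_lit 5) (nat_lit 306) (nat_lit 287) (nat_lit 127)) (XT.lf (nat_lit 0) (nat_lit 21783151131) (nat_lit 380) (nat_lit 16873940043) (nat_lit 76) (nat_lit 32092984511) (nat_lit 47) (nat_lit 5) (nat_lit 52) (nat_lit 5) (nat_lit 48) (nat_lit 5) (nat_lit 307) (nat_lit 287) (nat_lit 126))) (XT.nd (nat_lit 78)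 (nat_lit 0) (nat_lit 0) (XT.lf (nat_lit 0) (nat_lit 14178510093) (nat_lit 304) (nat_lit 15373363784) (nat_lit 380) (nat_lit 43418457654) (nat_lit 43) (nat_lit 5) (nat_lit 47) (nat_lit 5) (nat_lit 48) (nat_lit 5) (nat_lit 308) (nat_lit 287) (nat_lit 125)) (XT.lf (nat_lit 0) (nat_lit 38140198399) (nat_lit 380) (nat_lit 28065413152) (nat_lit 76) (nat_lit 9074433600) (nat_lit 43) (nat_lit 5) (nat_lit 48) (nat_lit 5) (nat_lit 44) (nat_lit 5) (nat_lit 309) (nat_lit 287) (nat_lit 124)))) (XT.nd (nat_lit 156) (nat_lit 304) (nat_lit 0) (XT.nd (nat_lit 78) (nat_lit 0) (nat_lit 0) (XT.lf (nat_lit 0) (nat_lit 4074615528) (nat_lit 228) (nat_lit 43398041585) (nat_lit 304) (nat_lit 30216854546) (nat_lit 40) (nat_lit 5) (nat_lit 43) (nat_lit 5) (nat_lit 44) (nat_lit 5) (nat_lit 310) (nat_lit 287) (nat_lit 123)) (XT.lf (nat_lit 0) (nat_lit 38794940202) (nat_lit 228) (nat_lit 18951206436) (nat_lit 304)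 (nat_lit 22449587421) (nat_lit 40) (nat_lit 5) (nat_lit 43) (nat_lit 5) (nat_lit 44) (nat_lit 5) (nat_lit 311) (nat_lit 287) (nat_lit 122))) (XT.nd (nat_lit 78) (nat_lit 304) (nat_lit 0) (XT.lf (nat_lit 0) (nat_lit 68637343382) (nat_lit 304) (nat_lit 7681937617) (nat_lit 76) (nat_lit 6502787761) (nat_lit 40) (nat_lit 5) (nat_lit 44) (nat_lit 5) (nat_lit 41) (nat_lit 5) (nat_lit 312) (nat_lit 287) (nat_lit 121)) (XT.nd (nat_lit 78) (nat_lit 76) (nat_lit 0) (XT.lf (nat_lit 0) (nat_lit 28317508958) (nat_lit 228) (nat_lit 52507569239) (nat_lit 304) (nat_lit 4717045771) (nat_lit 37) (nat_lit 5) (nat_lit 40) (nat_lit 5) (nat_lit 41) (nat_lit 5) (nat_lit 313) (nat_lit 287) (nat_lit 120)) (XT.lf (nat_lit 0) (nat_lit 5188241451) (nat_lit 304) (nat_lit 22092770780) (nat_lit 76) (nat_lit 61106522821) (nat_lit 36) (nat_lit 5) (nat_lit 40) (nat_lit 5) (nat_lit 37) (nat_lit 5) (nat_lit 314) (nat_lit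 287) (nat_lit 119)))))) (XT.nd (nat_lit 312) (nat_lit 456) (nat_lit 0) (XT.nd (nat_lit 156) (nat_lit 228) (nat_lit 0) (XT.nd (nat_lit 78) (nat_lit 0) (nat_lit 0) (XT.lf (nat_lit 0) (nat_lit 15203981498) (nat_lit 228) (nat_lit 462897730) (nat_lit 304) (nat_lit 75692642856) (nat_lit 33) (nat_lit 5) (nat_lit 36) (nat_lit 5) (nat_lit 37) (nat_lit 5) (nat_lit 315) (nat_lit 287) (nat_lit 118)) (XT.lf (nat_lit 0) (nat_lit 27481399599) (nat_lit 304) (nat_lit 39768364325) (nat_lit 76) (nat_lit 27189749217) (nat_lit 33) (nat_lit 5) (nat_lit 37) (nat_lit 5) (nat_lit 34) (nat_lit 5) (nat_lit 316) (nat_lit 287) (nat_lit 117))) (XT.nd (nat_lit 78) (nat_lit 228) (nat_lit 0) (XT.lf (nat_lit 0) (nat_lit 39893521347) (nat_lit 304) (nat_lit 1570368428) (nat_lit 76) (nat_lit 56209272309) (nat_lit 33) (nat_lit 5) (nat_lit 37) (nat_lit 5) (nat_lit 34) (nat_lit 5) (nat_lit 317) (nat_lit 287) (nat_lit 116))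 (XT.lf (nat_lit 0) (nat_lit 39810816597) (nat_lit 228) (nat_lit 13736311832) (nat_lit 304) (nat_lit 47490323088) (nat_lit 30) (nat_lit 5) (nat_lit 33) (nat_lit 5) (nat_lit 34) (nat_lit 5) (nat_lit 318) (nat_lit 287) (nat_lit 115)))) (XT.nd (nat_lit 156) (nat_lit 304) (nat_lit 0) (XT.nd (nat_lit 78) (nat_lit 152) (nat_lit 0) (XT.lf (nat_lit 0) (nat_lit 68149870605) (nat_lit 304) (nat_lit 21494491437) (nat_lit 76) (nat_lit 14912272549) (nat_lit 30) (nat_lit 5) (nat_lit 34) (nat_lit 5) (nat_lit 31) (nat_lit 5) (nat_lit 319) (nat_lit 287) (nat_lit 114)) (XT.lf (nat_lit 0) (nat_lit 20659426182) (nat_lit 152) (nat_lit 63370427992) (nat_lit 228) (nat_lit 24194569247) (nat_lit 28) (nat_lit 5) (nat_lit 30) (nat_lit 5) (nat_lit 31) (nat_lit 5) (nat_lit 320) (nat_lit 287) (nat_lit 113))) (XT.nd (nat_lit 78) (nat_lit 304) (nat_lit 0) (XT.lf (nat_lit 0) (nat_lit 65666415800) (nat_lit 152) (nat_lit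 35400824679) (nat_lit 228) (nat_lit 10990192766) (nat_lit 28) (nat_lit 5) (nat_lit 30) (nat_lit 5) (nat_lit 31) (nat_lit 5) (nat_lit 321) (nat_lit 287) (nat_lit 112)) (XT.nd (nat_lit 78) (nat_lit 228) (nat_lit 0) (XT.lf (nat_lit 0) (nat_lit 2781805772) (nat_lit 228) (nat_lit 3204060423) (nat_lit 76) (nat_lit 110094014958) (nat_lit 27) (nat_lit 5) (nat_lit 30) (nat_lit 5) (nat_lit 28) (nat_lit 5) (nat_lit 322) (nat_lit 287) (nat_lit 111)) (XT.lf (nat_lit 0) (nat_lit 17952088143) (nat_lit 304) (nat_lit 77314732037) (nat_lit 76) (nat_lit 24973673093) (nat_lit 24) (nat_lit 5) (nat_lit 28) (nat_lit 5) (nat_lit 25) (nat_lit 5) (nat_lit 323) (nat_lit 287) (nat_lit 110))))))))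
noncomputable def xc233 : XT := (XT.nd (nat_lit 1326) (nat_lit 152) (nat_lit 0) (XT.nd (nat_lit 624) (nat_lit 304) (nat_lit 0) (XT.nd (nat_lit 312) (nat_lit 380) (nat_lit 0) (XT.nd (nat_lit 156) (nat_lit 0) (nat_lit 0) (XT.nd (nat_lit 78) (nat_lit 152) (nat_lit 0) (XT.lf (nat_lit 0) (nat_lit 34033607060) (nat_lit 304) (nat_lit 33232946237) (nat_lit 76) (nat_lit 57334948004) (nat_lit 24) (nat_lit 5) (nat_lit 28) (nat_lit 5) (nat_lit 25) (nat_lit 5) (nat_lit 324) (nat_lit 287) (nat_lit 109)) (XT.lf (nat_lit 0) (nat_lit 13483714222) (nat_lit 152) (nat_lit 37645474471) (nat_lit 228) (nat_lit 78040873055) (nat_lit 22) (nat_lit 5) (nat_lit 24) (nat_lit 5) (nat_lit 25) (nat_lit 5) (nat_lit 325) (nat_lit 287) (nat_lit 108))) (XT.nd (nat_lit 78) (nat_lit 0) (nat_lit 0) (XT.lf (nat_lit 0) (nat_lit 63689215408) (nat_lit 152) (nat_lit 5952631606) (nat_lit 228) (nat_lit 64297089613) (nat_lit 22)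 (nat_lit 5) (nat_lit 24) (nat_lit 5) (nat_lit 25) (nat_lit 5) (nat_lit 326) (nat_lit 287) (nat_lit 107)) (XT.lf (nat_lit 0) (nat_lit 89506258391) (nat_lit 228) (nat_lit 22968632096) (nat_lit 76) (nat_lit 26450059986) (nat_lit 22) (nat_lit 5) (nat_lit 25) (nat_lit 5) (nat_lit 23) (nat_lit 5) (nat_lit 327) (nat_lit 287) (nat_lit 106)))) (XT.nd (nat_lit 156) (nat_lit 228) (nat_lit 0) (XT.nd (nat_lit 78) (nat_lit 0) (nat_lit 0) (XT.lf (nat_lit 0) (nat_lit 27457007881) (nat_lit 152) (nat_lit 83432673705) (nat_lit 228) (nat_lit 33244295034) (nat_lit 20) (nat_lit 5) (nat_lit 22) (nat_lit 5) (nat_lit 23) (nat_lit 5) (nat_lit 328) (nat_lit 287) (nat_lit 105)) (XT.lf (nat_lit 0) (nat_lit 81200645236) (nat_lit 152) (nat_lit 52530153461) (nat_lit 228) (nat_lit 15853230355) (nat_lit 20) (nat_lit 5) (nat_lit 22) (nat_lit 5) (nat_lit 23) (nat_lit 5) (nat_lit 329) (nat_lit 287) (nat_lit 104))) (XT.nd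 (nat_lit 78) (nat_lit 152) (nat_lit 0) (XT.lf (nat_lit 0) (nat_lit 2329887740) (nat_lit 228) (nat_lit 17713391708) (nat_lit 76) (nat_lit 135261448784) (nat_lit 19) (nat_lit 5) (nat_lit 22) (nat_lit 5) (nat_lit 20) (nat_lit 5) (nat_lit 330) (nat_lit 287) (nat_lit 103)) (XT.lf (nat_lit 0) (nat_lit 21690392833) (nat_lit 228) (nat_lit 125108885314) (nat_lit 76) (nat_lit 14459140557) (nat_lit 17) (nat_lit 5) (nat_lit 20) (nat_lit 5) (nat_lit 18) (nat_lit 5) (nat_lit 331) (nat_lit 287) (nat_lit 102))))) (XT.nd (nat_lit 312) (nat_lit 152) (nat_lit 0) (XT.nd (nat_lit 156) (nat_lit 152) (nat_lit 0) (XT.nd (nat_lit 78) (nat_lit 0) (nat_lit 0) (XT.lf (nat_lit 0) (nat_lit 42651983918) (nat_lit 228) (nat_lit 74508377901) (nat_lit 76) (nat_lit 50317779763) (nat_lit 17) (nat_lit 5) (nat_lit 20) (nat_lit 5) (nat_lit 18) (nat_lit 5) (nat_lit 332) (nat_lit 287) (nat_lit 101)) (XT.lf (nat_lit 0) (nat_lit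 64661254310) (nat_lit 228) (nat_lit 21378474655) (nat_lit 76) (nat_lit 87969142524) (nat_lit 17) (nat_lit 5) (nat_lit 20) (nat_lit 5) (nat_lit 18) (nat_lit 5) (nat_lit 333) (nat_lit 287) (nat_lit 100))) (XT.nd (nat_lit 78) (nat_lit 0) (nat_lit 0) (XT.lf (nat_lit 0) (nat_lit 35544985719) (nat_lit 152) (nat_lit 52780578156) (nat_lit 228) (nat_lit 92512846065) (nat_lit 15) (nat_lit 5) (nat_lit 17) (nat_lit 5) (nat_lit 18) (nat_lit 5) (nat_lit 334) (nat_lit 287) (nat_lit 99)) (XT.lf (nat_lit 0) (nat_lit 96056241589) (nat_lit 152) (nat_lit 17478529897) (nat_lit 228) (nat_lit 74456570492) (nat_lit 15) (nat_lit 5) (nat_lit 17) (nat_lit 5) (nat_lit 18) (nat_lit 5) (nat_lit 335) (nat_lit 287) (nat_lit 98)))) (XT.nd (nat_lit 156) (nat_lit 76) (nat_lit 0) (XT.nd (nat_lit 78) (nat_lit 76) (nat_lit 0) (XT.lf (nat_lit 0) (nat_lit 140309914990) (nat_lit 228) (nat_lit 36215270678) (nat_lit 76) (nat_lit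 18961461930) (nat_lit 15) (nat_lit 5) (nat_lit 18) (nat_lit 5) (nat_lit 16) (nat_lit 4) (nat_lit 336) (nat_lit 287) (nat_lit 97)) (XT.lf (nat_lit 0) (nat_lit 22731001688) (nat_lit 76) (nat_lit 146333901178) (nat_lit 152) (nat_lit 34259761992) (nat_lit 14) (nat_lit 5) (nat_lit 15) (nat_lit 5) (nat_lit 16) (nat_lit 4) (nat_lit 337) (nat_lit 287) (nat_lit 96))) (XT.nd (nat_lit 78) (nat_lit 76) (nat_lit 0) (XT.lf (nat_lit 0) (nat_lit 85881359394) (nat_lit 76) (nat_lit 113989270938) (nat_lit 152) (nat_lit 11653303824) (nat_lit 14) (nat_lit 5) (nat_lit 15) (nat_lit 5) (nat_lit 16) (nat_lit 4) (nat_lit 338) (nat_lit 287) (nat_lit 95)) (XT.nd (nat_lit 78) (nat_lit 0) (nat_lit 0) (XT.lf (nat_lit 0) (nat_lit 11696407604) (nat_lit 152) (nat_lit 68133115130) (nat_lit 76) (nat_lit 140294228103) (nat_lit 13) (nat_lit 5) (nat_lit 15) (nat_lit 5) (nat_lit 14) (nat_lit 5) (nat_lit 339) (nat_lit 287)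 (nat_lit 94)) (XT.lf (nat_lit 0) (nat_lit 35821669646) (nat_lit 152) (nat_lit 7939721476) (nat_lit 76) (nat_lit 185382631310) (nat_lit 13) (nat_lit 5) (nat_lit 15) (nat_lit 5) (nat_lit 14) (nat_lit 5) (nat_lit 340) (nat_lit 287) (nat_lit 93))))))) (XT.nd (nat_lit 34008) (nat_lit 0) (nat_lit 3116) (XT.nd (nat_lit 33618) (nat_lit 0) (nat_lit 4180) (XT.nd (nat_lit 33462) (nat_lit 0) (nat_lit 4104) (XT.nd (nat_lit 33384) (nat_lit 0) (nat_lit 4104) (XT.lf (nat_lit 0) (nat_lit 57090104409) (nat_lit 152) (nat_lit 4954134015) (nat_lit 228) (nat_lit 176526517566) (nat_lit 11) (nat_lit 5) (nat_lit 13) (nat_lit 5) (nat_lit 14) (nat_lit 5) (nat_lit 341) (nat_lit 287) (nat_lit 92)) (XT.lf (nat_lit 0) (nat_lit 2740483613) (nat_lit 0) (nat_lit 2740483613) (nat_lit 684) (nat_lit 15925456891) (nat_lit 65) (nat_lit 5) (nat_lit 65) (nat_lit 3) (nat_lit 74) (nat_lit 3) (nat_lit 288) (nat_lit 288) (nat_lit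 144))) (XT.nd (nat_lit 78) (nat_lit 0) (nat_lit 0) (XT.lf (nat_lit 0) (nat_lit 11470064971) (nat_lit 684) (nat_lit 19890536810) (nat_lit 760) (nat_lit 12510734767) (nat_lit 65) (nat_lit 5) (nat_lit 74) (nat_lit 3) (nat_lit 75) (nat_lit 5) (nat_lit 289) (nat_lit 288) (nat_lit 143)) (XT.lf (nat_lit 0) (nat_lit 12091402720) (nat_lit 684) (nat_lit 1668138749) (nat_lit 760) (nat_lit 31218826015) (nat_lit 65) (nat_lit 5) (nat_lit 74) (nat_lit 3) (nat_lit 75) (nat_lit 5) (nat_lit 290) (nat_lit 288) (nat_lit 142)))) (XT.nd (nat_lit 156) (nat_lit 0) (nat_lit 0) (XT.nd (nat_lit 78) (nat_lit 0) (nat_lit 0) (XT.lf (nat_lit 0) (nat_lit 13101883576) (nat_lit 684) (nat_lit 28163398509) (nat_lit 760) (nat_lit 4857571923) (nat_lit 66) (nat_lit 5) (nat_lit 75) (nat_lit 5) (nat_lit 76) (nat_lit 5) (nat_lit 291) (nat_lit 288) (nat_lit 141)) (XT.lf (nat_lit 0) (nat_lit 14415303410) (nat_lit 684) (nat_lit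 8924040185) (nat_lit 760) (nat_lit 23972607995) (nat_lit 66) (nat_lit 5) (nat_lit 75) (nat_lit 5) (nat_lit 76) (nat_lit 5) (nat_lit 292) (nat_lit 288) (nat_lit 140))) (XT.nd (nat_lit 78) (nat_lit 0) (nat_lit 76) (XT.lf (nat_lit 76) (nat_lit 11648981492) (nat_lit 0) (nat_lit 4325509625) (nat_lit 760) (nat_lit 32577015209) (nat_lit 67) (nat_lit 5) (nat_lit 66) (nat_lit 5) (nat_lit 76) (nat_lit 5) (nat_lit 293) (nat_lit 288) (nat_lit 139)) (XT.nd (nat_lit 78) (nat_lit 0) (nat_lit 0) (XT.lf (nat_lit 0) (nat_lit 18007717353) (nat_lit 684) (nat_lit 16532879444) (nat_lit 760) (nat_lit 15292644829) (nat_lit 67) (nat_lit 5) (nat_lit 76) (nat_lit 5) (nat_lit 77) (nat_lit 5) (nat_lit 294) (nat_lit 288) (nat_lit 138)) (XT.lf (nat_lit 76) (nat_lit 4941322240) (nat_lit 0) (nat_lit 15347721250) (nat_lit 760) (nat_lit 30882704730) (nat_lit 68) (nat_lit 5) (nat_lit 67) (nat_lit 5) (nat_lit 77) (nat_lit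 5) (nat_lit 295) (nat_lit 288) (nat_lit 137)))))) (XT.nd (nat_lit 312) (nat_lit 1216) (nat_lit 0) (XT.nd (nat_lit 156) (nat_lit 0) (nat_lit 0) (XT.nd (nat_lit 78) (nat_lit 0) (nat_lit 0) (XT.lf (nat_lit 0) (nat_lit 23042480907) (nat_lit 684) (nat_lit 24580809532) (nat_lit 760) (nat_lit 4935993608) (nat_lit 68) (nat_lit 5) (nat_lit 77) (nat_lit 5) (nat_lit 78) (nat_lit 5) (nat_lit 296) (nat_lit 288) (nat_lit 136)) (XT.lf (nat_lit 0) (nat_lit 26183712427) (nat_lit 684) (nat_lit 2101496013) (nat_lit 760) (nat_lit 25718487972) (nat_lit 68) (nat_lit 5) (nat_lit 77) (nat_lit 5) (nat_lit 78) (nat_lit 5) (nat_lit 297) (nat_lit 288) (nat_lit 135))) (XT.nd (nat_lit 78) (nat_lit 0) (nat_lit 76) (XT.lf (nat_lit 76) (nat_lit 22211566534) (nat_lit 0) (nat_lit 7615814500) (nat_lit 760) (nat_lit 25675685166) (nat_lit 69) (nat_lit 5) (nat_lit 68) (nat_lit 5) (nat_lit 78) (nat_lit 5) (nat_lit 298) (nat_lit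 288) (nat_lit 134)) (XT.lf (nat_lit 0) (nat_lit 33907989147) (nat_lit 684) (nat_lit 9484089897) (nat_lit 76) (nat_lit 13672592943) (nat_lit 69) (nat_lit 5) (nat_lit 78) (nat_lit 5) (nat_lit 70) (nat_lit 5) (nat_lit 299) (nat_lit 288) (nat_lit 133)))) (XT.nd (nat_lit 156) (nat_lit 608) (nat_lit 0) (XT.nd (nat_lit 78) (nat_lit 0) (nat_lit 0) (XT.lf (nat_lit 0) (nat_lit 15896500066) (nat_lit 684) (nat_lit 22667874949) (nat_lit 760) (nat_lit 20121400742) (nat_lit 60) (nat_lit 5) (nat_lit 69) (nat_lit 5) (nat_lit 70) (nat_lit 5) (nat_lit 300) (nat_lit 288) (nat_lit 132)) (XT.lf (nat_lit 0) (nat_lit 42874275756) (nat_lit 684) (nat_lit 738675234) (nat_lit 760) (nat_lit 16767020006) (nat_lit 60) (nat_lit 5) (nat_lit 69) (nat_lit 5) (nat_lit 70) (nat_lit 5) (nat_lit 301) (nat_lit 288) (nat_lit 131))) (XT.nd (nat_lit 78) (nat_lit 304) (nat_lit 0) (XT.lf (nat_lit 0) (nat_lit 8980407985) (nat_lit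 304) (nat_lit 40420533972) (nat_lit 380) (nat_lit 12733589319) (nat_lit 56) (nat_lit 5) (nat_lit 60) (nat_lit 5) (nat_lit 61) (nat_lit 5) (nat_lit 302) (nat_lit 288) (nat_lit 130)) (XT.nd (nat_lit 78) (nat_lit 304) (nat_lit 0) (XT.lf (nat_lit 0) (nat_lit 37384959772) (nat_lit 304) (nat_lit 18400608004) (nat_lit 380) (nat_lit 8175894402) (nat_lit 56) (nat_lit 5) (nat_lit 60) (nat_lit 5) (nat_lit 61) (nat_lit 5) (nat_lit 303) (nat_lit 288) (nat_lit 129)) (XT.lf (nat_lit 0) (nat_lit 1296692725) (nat_lit 304) (nat_lit 61285583466) (nat_lit 380) (nat_lit 3292825032) (nat_lit 52) (nat_lit 5) (nat_lit 56) (nat_lit 5) (nat_lit 57) (nat_lit 5) (nat_lit 304) (nat_lit 288) (nat_lit 128))))))))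
noncomputable def xc234 : XT := (XT.nd (nat_lit 1326) (nat_lit 1064) (nat_lit 0) (XT.nd (nat_lit 624) (nat_lit 912) (nat_lit 0) (XT.nd (nat_lit 312) (nat_lit 532) (nat_lit 0) (XT.nd (nat_lit 156) (nat_lit 304) (nat_lit 0) (XT.nd (nat_lit 78) (nat_lit 0) (nat_lit 0) (XT.lf (nat_lit 0) (nat_lit 2533722004) (nat_lit 380) (nat_lit 36714495212) (nat_lit 76) (nat_lit 28596874957) (nat_lit 51) (nat_lit 5) (nat_lit 56) (nat_lit 5) (nat_lit 52) (nat_lit 5) (nat_lit 305) (nat_lit 288) (nat_lit 127)) (XT.lf (nat_lit 0) (nat_lit 8539909868) (nat_lit 380) (nat_lit 7512446233) (nat_lit 76) (nat_lit 53858582431) (nat_lit 51) (nat_lit 5) (nat_lit 56) (nat_lit 5) (nat_lit 52) (nat_lit 5) (nat_lit 306) (nat_lit 288) (nat_lit 126))) (XT.nd (nat_lit 78) (nat_lit 0) (nat_lit 0) (XT.lf (nat_lit 0) (nat_lit 15354553446) (nat_lit 380) (nat_lit 48283141746) (nat_lit 76) (nat_lit 8416978125) (nat_lit 47) (nat_lit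 5) (nat_lit 52) (nat_lit 5) (nat_lit 48) (nat_lit 5) (nat_lit 307) (nat_lit 288) (nat_lit 125)) (XT.lf (nat_lit 0) (nat_lit 22901447757) (nat_lit 380) (nat_lit 17685009959) (nat_lit 76) (nat_lit 33699564462) (nat_lit 47) (nat_lit 5) (nat_lit 52) (nat_lit 5) (nat_lit 48) (nat_lit 5) (nat_lit 308) (nat_lit 288) (nat_lit 124)))) (XT.nd (nat_lit 156) (nat_lit 228) (nat_lit 0) (XT.nd (nat_lit 78) (nat_lit 0) (nat_lit 0) (XT.lf (nat_lit 0) (nat_lit 14919536440) (nat_lit 304) (nat_lit 16138183810) (nat_lit 380) (nat_lit 45559619664) (nat_lit 43) (nat_lit 5) (nat_lit 47) (nat_lit 5) (nat_lit 48) (nat_lit 5) (nat_lit 309) (nat_lit 288) (nat_lit 123)) (XT.lf (nat_lit 0) (nat_lit 40074172852) (nat_lit 380) (nat_lit 29436732422) (nat_lit 76) (nat_lit 9531702897) (nat_lit 43) (nat_lit 5) (nat_lit 48) (nat_lit 5) (nat_lit 44) (nat_lit 5) (nat_lit 310) (nat_lit 288) (nat_lit 122))) (XT.nd (nat_lit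 78) (nat_lit 0) (nat_lit 0) (XT.lf (nat_lit 0) (nat_lit 4309782347) (nat_lit 228) (nat_lit 45562678934) (nat_lit 304) (nat_lit 31700130720) (nat_lit 40) (nat_lit 5) (nat_lit 43) (nat_lit 5) (nat_lit 44) (nat_lit 5) (nat_lit 311) (nat_lit 288) (nat_lit 121)) (XT.lf (nat_lit 0) (nat_lit 40764626299) (nat_lit 228) (nat_lit 19893752730) (nat_lit 304) (nat_lit 23545812932) (nat_lit 40) (nat_lit 5) (nat_lit 43) (nat_lit 5) (nat_lit 44) (nat_lit 5) (nat_lit 312) (nat_lit 288) (nat_lit 120))))) (XT.nd (nat_lit 312) (nat_lit 380) (nat_lit 0) (XT.nd (nat_lit 156) (nat_lit 304) (nat_lit 0) (XT.nd (nat_lit 78) (nat_lit 228) (nat_lit 0) (XT.lf (nat_lit 0) (nat_lit 72093023258) (nat_lit 304) (nat_lit 8036330111) (nat_lit 76) (nat_lit 6832549576) (nat_lit 40) (nat_lit 5) (nat_lit 44) (nat_lit 5) (nat_lit 41) (nat_lit 5) (nat_lit 313) (nat_lit 288) (nat_lit 119)) (XT.lf (nat_lit 0) (nat_lit 29762609690)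 (nat_lit 228) (nat_lit 55126857474) (nat_lit 304) (nat_lit 4928531376) (nat_lit 37) (nat_lit 5) (nat_lit 40) (nat_lit 5) (nat_lit 41) (nat_lit 5) (nat_lit 314) (nat_lit 288) (nat_lit 118))) (XT.nd (nat_lit 78) (nat_lit 228) (nat_lit 0) (XT.lf (nat_lit 0) (nat_lit 5470117141) (nat_lit 304) (nat_lit 23168765054) (nat_lit 76) (nat_lit 64166838516) (nat_lit 36) (nat_lit 5) (nat_lit 40) (nat_lit 5) (nat_lit 37) (nat_lit 5) (nat_lit 315) (nat_lit 288) (nat_lit 117)) (XT.lf (nat_lit 0) (nat_lit 15992362834) (nat_lit 228) (nat_lit 479694280) (nat_lit 304) (nat_lit 79454284699) (nat_lit 33) (nat_lit 5) (nat_lit 36) (nat_lit 5) (nat_lit 37) (nat_lit 5) (nat_lit 316) (nat_lit 288) (nat_lit 116)))) (XT.nd (nat_lit 156) (nat_lit 380) (nat_lit 0) (XT.nd (nat_lit 78) (nat_lit 0) (nat_lit 0) (XT.lf (nat_lit 0) (nat_lit 28876358189) (nat_lit 304) (nat_lit 41728935379) (nat_lit 76) (nat_lit 28555089201)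 (nat_lit 33) (nat_lit 5) (nat_lit 37) (nat_lit 5) (nat_lit 34) (nat_lit 5) (nat_lit 317) (nat_lit 288) (nat_lit 115)) (XT.lf (nat_lit 0) (nat_lit 41908091329) (nat_lit 304) (nat_lit 1622365743) (nat_lit 76) (nat_lit 59025309756) (nat_lit 33) (nat_lit 5) (nat_lit 37) (nat_lit 5) (nat_lit 34) (nat_lit 5) (nat_lit 318) (nat_lit 288) (nat_lit 114))) (XT.nd (nat_lit 78) (nat_lit 152) (nat_lit 0) (XT.lf (nat_lit 0) (nat_lit 41827450775) (nat_lit 228) (nat_lit 14416388051) (nat_lit 304) (nat_lit 49844461696) (nat_lit 30) (nat_lit 5) (nat_lit 33) (nat_lit 5) (nat_lit 34) (nat_lit 5) (nat_lit 319) (nat_lit 288) (nat_lit 113)) (XT.nd (nat_lit 78) (nat_lit 152) (nat_lit 0) (XT.lf (nat_lit 0) (nat_lit 71575896702) (nat_lit 304) (nat_lit 22543490583) (nat_lit 76) (nat_lit 15664099196) (nat_lit 30) (nat_lit 5) (nat_lit 34) (nat_lit 5) (nat_lit 31) (nat_lit 5) (nat_lit 320) (nat_lit 288) (nat_lit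 112)) (XT.lf (nat_lit 0) (nat_lit 21717707991) (nat_lit 152) (nat_lit 66531684124) (nat_lit 228) (nat_lit 25385299538) (nat_lit 28) (nat_lit 5) (nat_lit 30) (nat_lit 5) (nat_lit 31) (nat_lit 5) (nat_lit 321) (nat_lit 288) (nat_lit 111))))))) (XT.nd (nat_lit 702) (nat_lit 456) (nat_lit 0) (XT.nd (nat_lit 312) (nat_lit 304) (nat_lit 0) (XT.nd (nat_lit 156) (nat_lit 228) (nat_lit 0) (XT.nd (nat_lit 78) (nat_lit 76) (nat_lit 0) (XT.lf (nat_lit 0) (nat_lit 68973841829) (nat_lit 152) (nat_lit 37163946610) (nat_lit 228) (nat_lit 11521608908) (nat_lit 28) (nat_lit 5) (nat_lit 30) (nat_lit 5) (nat_lit 31) (nat_lit 5) (nat_lit 322) (nat_lit 288) (nat_lit 110)) (XT.lf (nat_lit 0) (nat_lit 2937576434) (nat_lit 228) (nat_lit 3340710768) (nat_lit 76) (nat_lit 115604710213) (nat_lit 27) (nat_lit 5) (nat_lit 30) (nat_lit 5) (nat_lit 28) (nat_lit 5) (nat_lit 323) (nat_lit 288) (nat_lit 109))) (XT.nd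 (nat_lit 78) (nat_lit 0) (nat_lit 0) (XT.lf (nat_lit 0) (nat_lit 18866048529) (nat_lit 304) (nat_lit 81156549877) (nat_lit 76) (nat_lit 26229060039) (nat_lit 24) (nat_lit 5) (nat_lit 28) (nat_lit 5) (nat_lit 25) (nat_lit 5) (nat_lit 324) (nat_lit 288) (nat_lit 108)) (XT.lf (nat_lit 0) (nat_lit 35750864536) (nat_lit 304) (nat_lit 34871813776) (nat_lit 76) (nat_lit 60208079491) (nat_lit 24) (nat_lit 5) (nat_lit 28) (nat_lit 5) (nat_lit 25) (nat_lit 5) (nat_lit 325) (nat_lit 288) (nat_lit 107)))) (XT.nd (nat_lit 156) (nat_lit 152) (nat_lit 0) (XT.nd (nat_lit 78) (nat_lit 0) (nat_lit 0) (XT.lf (nat_lit 0) (nat_lit 14180312291) (nat_lit 152) (nat_lit 39520521112) (nat_lit 228) (nat_lit 81926934352) (nat_lit 22) (nat_lit 5) (nat_lit 24) (nat_lit 5) (nat_lit 25) (nat_lit 5) (nat_lit 326) (nat_lit 288) (nat_lit 106)) (XT.lf (nat_lit 0) (nat_lit 66895021281) (nat_lit 152) (nat_lit 6243380250)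 (nat_lit 228) (nat_lit 67496722803) (nat_lit 22) (nat_lit 5) (nat_lit 24) (nat_lit 5) (nat_lit 25) (nat_lit 5) (nat_lit 327) (nat_lit 288) (nat_lit 105))) (XT.nd (nat_lit 78) (nat_lit 152) (nat_lit 0) (XT.lf (nat_lit 0) (nat_lit 93995447147) (nat_lit 228) (nat_lit 24096114402) (nat_lit 76) (nat_lit 27778908355) (nat_lit 22) (nat_lit 5) (nat_lit 25) (nat_lit 5) (nat_lit 23) (nat_lit 5) (nat_lit 328) (nat_lit 288) (nat_lit 104)) (XT.nd (nat_lit 78) (nat_lit 0) (nat_lit 0) (XT.lf (nat_lit 0) (nat_lit 28850469683) (nat_lit 152) (nat_lit 87597232867) (nat_lit 228) (nat_lit 34892263390) (nat_lit 20) (nat_lit 5) (nat_lit 22) (nat_lit 5) (nat_lit 23) (nat_lit 5) (nat_lit 329) (nat_lit 288) (nat_lit 103)) (XT.lf (nat_lit 0) (nat_lit 85280307409) (nat_lit 152) (nat_lit 55149923493) (nat_lit 228) (nat_lit 16632323877) (nat_lit 20) (nat_lit 5) (nat_lit 22) (nat_lit 5) (nat_lit 23) (nat_lit 5) (nat_lit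 330) (nat_lit 288) (nat_lit 102)))))) (XT.nd (nat_lit 312) (nat_lit 228) (nat_lit 0) (XT.nd (nat_lit 156) (nat_lit 0) (nat_lit 0) (XT.nd (nat_lit 78) (nat_lit 152) (nat_lit 0) (XT.lf (nat_lit 0) (nat_lit 2458890447) (nat_lit 228) (nat_lit 18579924338) (nat_lit 76) (nat_lit 142030496224) (nat_lit 19) (nat_lit 5) (nat_lit 22) (nat_lit 5) (nat_lit 20) (nat_lit 5) (nat_lit 331) (nat_lit 288) (nat_lit 101)) (XT.lf (nat_lit 0) (nat_lit 22787222505) (nat_lit 228) (nat_lit 131344967460) (nat_lit 76) (nat_lit 15188507298) (nat_lit 17) (nat_lit 5) (nat_lit 20) (nat_lit 5) (nat_lit 18) (nat_lit 5) (nat_lit 332) (nat_lit 288) (nat_lit 100))) (XT.nd (nat_lit 78) (nat_lit 0) (nat_lit 0) (XT.lf (nat_lit 0) (nat_lit 44796306952) (nat_lit 228) (nat_lit 78215356682) (nat_lit 76) (nat_lit 52839773239) (nat_lit 17) (nat_lit 5) (nat_lit 20) (nat_lit 5) (nat_lit 18) (nat_lit 5) (nat_lit 333) (nat_lit 288)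 (nat_lit 99)) (XT.lf (nat_lit 0) (nat_lit 67905482585) (nat_lit 228) (nat_lit 22429836374) (nat_lit 76) (nat_lit 92373413449) (nat_lit 17) (nat_lit 5) (nat_lit 20) (nat_lit 5) (nat_lit 18) (nat_lit 5) (nat_lit 334) (nat_lit 288) (nat_lit 98)))) (XT.nd (nat_lit 156) (nat_lit 76) (nat_lit 0) (XT.nd (nat_lit 78) (nat_lit 0) (nat_lit 0) (XT.lf (nat_lit 0) (nat_lit 37339513760) (nat_lit 152) (nat_lit 55413231945) (nat_lit 228) (nat_lit 97127016334) (nat_lit 15) (nat_lit 5) (nat_lit 17) (nat_lit 5) (nat_lit 18) (nat_lit 5) (nat_lit 335) (nat_lit 288) (nat_lit 97)) (XT.lf (nat_lit 0) (nat_lit 100875509626) (nat_lit 152) (nat_lit 18346384851) (nat_lit 228) (nat_lit 78168473270) (nat_lit 15) (nat_lit 5) (nat_lit 17) (nat_lit 5) (nat_lit 18) (nat_lit 5) (nat_lit 336) (nat_lit 288) (nat_lit 96))) (XT.nd (nat_lit 78) (nat_lit 76) (nat_lit 0) (XT.lf (nat_lit 0) (nat_lit 147335390940) (nat_lit 228)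 (nat_lit 38009936597) (nat_lit 76) (nat_lit 19915132373) (nat_lit 15) (nat_lit 5) (nat_lit 18) (nat_lit 5) (nat_lit 16) (nat_lit 4) (nat_lit 337) (nat_lit 288) (nat_lit 95)) (XT.nd (nat_lit 78) (nat_lit 0) (nat_lit 0) (XT.lf (nat_lit 0) (nat_lit 23883389748) (nat_lit 76) (nat_lit 153644510489) (nat_lit 152) (nat_lit 35962490198) (nat_lit 14) (nat_lit 5) (nat_lit 15) (nat_lit 5) (nat_lit 16) (nat_lit 4) (nat_lit 338) (nat_lit 288) (nat_lit 94)) (XT.lf (nat_lit 0) (nat_lit 90190511149) (nat_lit 76) (nat_lit 119682938534) (nat_lit 152) (nat_lit 12226197688) (nat_lit 14) (nat_lit 5) (nat_lit 15) (nat_lit 5) (nat_lit 16) (nat_lit 4) (nat_lit 339) (nat_lit 288) (nat_lit 93))))))))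
noncomputable def xc235 : XT := (XT.nd (nat_lit 34788) (nat_lit 0) (nat_lit 1140) (XT.nd (nat_lit 34086) (nat_lit 0) (nat_lit 3268) (XT.nd (nat_lit 33774) (nat_lit 0) (nat_lit 4028) (XT.nd (nat_lit 33618) (nat_lit 0) (nat_lit 3952) (XT.nd (nat_lit 33540) (nat_lit 0) (nat_lit 3952) (XT.lf (nat_lit 0) (nat_lit 12290236160) (nat_lit 152) (nat_lit 71525090201) (nat_lit 76) (nat_lit 147314144286) (nat_lit 13) (nat_lit 5) (nat_lit 15) (nat_lit 5) (nat_lit 14) (nat_lit 5) (nat_lit 340) (nat_lit 288) (nat_lit 92)) (XT.lf (nat_lit 0) (nat_lit 2893403733) (nat_lit 0) (nat_lit 2893403733) (nat_lit 684) (nat_lit 16688221488) (nat_lit 65) (nat_lit 5) (nat_lit 65) (nat_lit 3) (nat_lit 74) (nat_lit 3) (nat_lit 289) (nat_lit 289) (nat_lit 142))) (XT.nd (nat_lit 78) (nat_lit 0) (nat_lit 0) (XT.lf (nat_lit 0) (nat_lit 12103651455) (nat_lit 684) (nat_lit 20851043673) (nat_lit 760) (nat_lit 13106962610)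 (nat_lit 65) (nat_lit 5) (nat_lit 74) (nat_lit 3) (nat_lit 75) (nat_lit 5) (nat_lit 290) (nat_lit 289) (nat_lit 141)) (XT.lf (nat_lit 0) (nat_lit 12753194985) (nat_lit 684) (nat_lit 1719145708) (nat_lit 760) (nat_lit 32751854083) (nat_lit 65) (nat_lit 5) (nat_lit 74) (nat_lit 3) (nat_lit 75) (nat_lit 5) (nat_lit 291) (nat_lit 289) (nat_lit 140)))) (XT.nd (nat_lit 156) (nat_lit 0) (nat_lit 0) (XT.nd (nat_lit 78) (nat_lit 0) (nat_lit 0) (XT.lf (nat_lit 0) (nat_lit 13811611786) (nat_lit 684) (nat_lit 29536361333) (nat_lit 760) (nat_lit 5078072864) (nat_lit 66) (nat_lit 5) (nat_lit 75) (nat_lit 5) (nat_lit 76) (nat_lit 5) (nat_lit 292) (nat_lit 289) (nat_lit 139)) (XT.lf (nat_lit 0) (nat_lit 15188100990) (nat_lit 684) (nat_lit 9336711621) (nat_lit 760) (nat_lit 25149926342) (nat_lit 66) (nat_lit 5) (nat_lit 75) (nat_lit 5) (nat_lit 76) (nat_lit 5) (nat_lit 293) (nat_lit 289) (nat_lit 138)))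 (XT.nd (nat_lit 78) (nat_lit 0) (nat_lit 76) (XT.lf (nat_lit 76) (nat_lit 12264420325) (nat_lit 0) (nat_lit 4558865088) (nat_lit 760) (nat_lit 34153094081) (nat_lit 67) (nat_lit 5) (nat_lit 66) (nat_lit 5) (nat_lit 76) (nat_lit 5) (nat_lit 294) (nat_lit 289) (nat_lit 137)) (XT.lf (nat_lit 0) (nat_lit 18955534718) (nat_lit 684) (nat_lit 17325277156) (nat_lit 760) (nat_lit 16041531056) (nat_lit 67) (nat_lit 5) (nat_lit 76) (nat_lit 5) (nat_lit 77) (nat_lit 5) (nat_lit 295) (nat_lit 289) (nat_lit 136))))) (XT.nd (nat_lit 312) (nat_lit 836) (nat_lit 0) (XT.nd (nat_lit 156) (nat_lit 0) (nat_lit 76) (XT.nd (nat_lit 78) (nat_lit 0) (nat_lit 76) (XT.lf (nat_lit 76) (nat_lit 5222082254) (nat_lit 0) (nat_lit 16127112322) (nat_lit 760) (nat_lit 32378675917) (nat_lit 68) (nat_lit 5) (nat_lit 67) (nat_lit 5) (nat_lit 77) (nat_lit 5) (nat_lit 296) (nat_lit 289) (nat_lit 135)) (XT.lf (nat_lit 0) (nat_lit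 24237949218) (nat_lit 684) (nat_lit 25775234321) (nat_lit 760) (nat_lit 5171725885) (nat_lit 68) (nat_lit 5) (nat_lit 77) (nat_lit 5) (nat_lit 78) (nat_lit 5) (nat_lit 297) (nat_lit 289) (nat_lit 134))) (XT.nd (nat_lit 78) (nat_lit 0) (nat_lit 0) (XT.lf (nat_lit 0) (nat_lit 27534178302) (nat_lit 684) (nat_lit 2173603492) (nat_lit 760) (nat_lit 26993871986) (nat_lit 68) (nat_lit 5) (nat_lit 77) (nat_lit 5) (nat_lit 78) (nat_lit 5) (nat_lit 298) (nat_lit 289) (nat_lit 133)) (XT.lf (nat_lit 76) (nat_lit 23354580451) (nat_lit 0) (nat_lit 8003990572) (nat_lit 760) (nat_lit 26917501782) (nat_lit 69) (nat_lit 5) (nat_lit 68) (nat_lit 5) (nat_lit 78) (nat_lit 5) (nat_lit 299) (nat_lit 289) (nat_lit 132)))) (XT.nd (nat_lit 156) (nat_lit 304) (nat_lit 0) (XT.nd (nat_lit 78) (nat_lit 684) (nat_lit 0) (XT.lf (nat_lit 0) (nat_lit 35641203492) (nat_lit 684) (nat_lit 9925249057) (nat_lit 76) (nat_lit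 14349414048) (nat_lit 69) (nat_lit 5) (nat_lit 78) (nat_lit 5) (nat_lit 70) (nat_lit 5) (nat_lit 300) (nat_lit 289) (nat_lit 131)) (XT.lf (nat_lit 0) (nat_lit 16723837415) (nat_lit 684) (nat_lit 23805278138) (nat_lit 760) (nat_lit 21088981717) (nat_lit 60) (nat_lit 5) (nat_lit 69) (nat_lit 5) (nat_lit 70) (nat_lit 5) (nat_lit 301) (nat_lit 289) (nat_lit 130))) (XT.nd (nat_lit 78) (nat_lit 304) (nat_lit 0) (XT.lf (nat_lit 0) (nat_lit 45048953682) (nat_lit 684) (nat_lit 779427511) (nat_lit 760) (nat_lit 17568714756) (nat_lit 60) (nat_lit 5) (nat_lit 69) (nat_lit 5) (nat_lit 70) (nat_lit 5) (nat_lit 302) (nat_lit 289) (nat_lit 129)) (XT.nd (nat_lit 78) (nat_lit 0) (nat_lit 0) (XT.lf (nat_lit 0) (nat_lit 9461795133) (nat_lit 304) (nat_lit 42442768816) (nat_lit 380) (nat_lit 13334887087) (nat_lit 56) (nat_lit 5) (nat_lit 60) (nat_lit 5) (nat_lit 61) (nat_lit 5) (nat_lit 303) (nat_lit 289)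 (nat_lit 128)) (XT.lf (nat_lit 0) (nat_lit 39285033236) (nat_lit 304) (nat_lit 19321789018) (nat_lit 380) (nat_lit 8550992266) (nat_lit 56) (nat_lit 5) (nat_lit 60) (nat_lit 5) (nat_lit 61) (nat_lit 5) (nat_lit 304) (nat_lit 289) (nat_lit 127))))))) (XT.nd (nat_lit 702) (nat_lit 912) (nat_lit 0) (XT.nd (nat_lit 312) (nat_lit 532) (nat_lit 0) (XT.nd (nat_lit 156) (nat_lit 304) (nat_lit 0) (XT.nd (nat_lit 78) (nat_lit 76) (nat_lit 0) (XT.lf (nat_lit 0) (nat_lit 1393566338) (nat_lit 304) (nat_lit 64348760190) (nat_lit 380) (nat_lit 3424866775) (nat_lit 52) (nat_lit 5) (nat_lit 56) (nat_lit 5) (nat_lit 57) (nat_lit 5) (nat_lit 305) (nat_lit 289) (nat_lit 126)) (XT.lf (nat_lit 0) (nat_lit 2690461552) (nat_lit 380) (nat_lit 38518607604) (nat_lit 76) (nat_lit 30026669598) (nat_lit 51) (nat_lit 5) (nat_lit 56) (nat_lit 5) (nat_lit 52) (nat_lit 5) (nat_lit 306) (nat_lit 289) (nat_lit 125)))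 (XT.nd (nat_lit 78) (nat_lit 304) (nat_lit 0) (XT.lf (nat_lit 0) (nat_lit 8995527693) (nat_lit 380) (nat_lit 7857961527) (nat_lit 76) (nat_lit 56551464784) (nat_lit 51) (nat_lit 5) (nat_lit 56) (nat_lit 5) (nat_lit 52) (nat_lit 5) (nat_lit 307) (nat_lit 289) (nat_lit 124)) (XT.lf (nat_lit 0) (nat_lit 16150032613) (nat_lit 380) (nat_lit 50666225418) (nat_lit 76) (nat_lit 8839665817) (nat_lit 47) (nat_lit 5) (nat_lit 52) (nat_lit 5) (nat_lit 48) (nat_lit 5) (nat_lit 308) (nat_lit 289) (nat_lit 123)))) (XT.nd (nat_lit 156) (nat_lit 228) (nat_lit 0) (XT.nd (nat_lit 78) (nat_lit 304) (nat_lit 0) (XT.lf (nat_lit 0) (nat_lit 24072950140) (nat_lit 380) (nat_lit 18539666728) (nat_lit 76) (nat_lit 35386293909) (nat_lit 47) (nat_lit 5) (nat_lit 52) (nat_lit 5) (nat_lit 48) (nat_lit 5) (nat_lit 309) (nat_lit 289) (nat_lit 122)) (XT.lf (nat_lit 0) (nat_lit 15694629673) (nat_lit 304) (nat_lit 16941602602)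 (nat_lit 380) (nat_lit 47810606658) (nat_lit 43) (nat_lit 5) (nat_lit 47) (nat_lit 5) (nat_lit 48) (nat_lit 5) (nat_lit 310) (nat_lit 289) (nat_lit 121))) (XT.nd (nat_lit 78) (nat_lit 228) (nat_lit 0) (XT.lf (nat_lit 0) (nat_lit 42102339121) (nat_lit 380) (nat_lit 30879588194) (nat_lit 76) (nat_lit 10011505836) (nat_lit 43) (nat_lit 5) (nat_lit 48) (nat_lit 5) (nat_lit 44) (nat_lit 5) (nat_lit 311) (nat_lit 289) (nat_lit 120)) (XT.nd (nat_lit 78) (nat_lit 0) (nat_lit 0) (XT.lf (nat_lit 0) (nat_lit 4553784881) (nat_lit 228) (nat_lit 47836037616) (nat_lit 304) (nat_lit 33260133579) (nat_lit 40) (nat_lit 5) (nat_lit 43) (nat_lit 5) (nat_lit 44) (nat_lit 5) (nat_lit 312) (nat_lit 289) (nat_lit 119)) (XT.lf (nat_lit 0) (nat_lit 42830013250) (nat_lit 228) (nat_lit 20883892495) (nat_lit 304) (nat_lit 24699290552) (nat_lit 40) (nat_lit 5) (nat_lit 43) (nat_lit 5) (nat_lit 44) (nat_lit 5) (nat_lit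 313) (nat_lit 289) (nat_lit 118)))))) (XT.nd (nat_lit 312) (nat_lit 380) (nat_lit 0) (XT.nd (nat_lit 156) (nat_lit 304) (nat_lit 0) (XT.nd (nat_lit 78) (nat_lit 228) (nat_lit 0) (XT.lf (nat_lit 0) (nat_lit 75719273248) (nat_lit 304) (nat_lit 8411203862) (nat_lit 76) (nat_lit 7178369732) (nat_lit 40) (nat_lit 5) (nat_lit 44) (nat_lit 5) (nat_lit 41) (nat_lit 5) (nat_lit 314) (nat_lit 289) (nat_lit 117)) (XT.lf (nat_lit 0) (nat_lit 31277248368) (nat_lit 228) (nat_lit 57877676333) (nat_lit 304) (nat_lit 5152856644) (nat_lit 37) (nat_lit 5) (nat_lit 40) (nat_lit 5) (nat_lit 41) (nat_lit 5) (nat_lit 315) (nat_lit 289) (nat_lit 116))) (XT.nd (nat_lit 78) (nat_lit 228) (nat_lit 0) (XT.lf (nat_lit 0) (nat_lit 5763998161) (nat_lit 304) (nat_lit 24301222114) (nat_lit 76) (nat_lit 67379706115) (nat_lit 36) (nat_lit 5) (nat_lit 40) (nat_lit 5) (nat_lit 37) (nat_lit 5) (nat_lit 316) (nat_lit 289)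 (nat_lit 115)) (XT.lf (nat_lit 0) (nat_lit 16817543117) (nat_lit 228) (nat_lit 497920867) (nat_lit 304) (nat_lit 83406146053) (nat_lit 33) (nat_lit 5) (nat_lit 36) (nat_lit 5) (nat_lit 37) (nat_lit 5) (nat_lit 317) (nat_lit 289) (nat_lit 114)))) (XT.nd (nat_lit 156) (nat_lit 380) (nat_lit 0) (XT.nd (nat_lit 78) (nat_lit 0) (nat_lit 0) (XT.lf (nat_lit 0) (nat_lit 30339122683) (nat_lit 304) (nat_lit 43790123950) (nat_lit 76) (nat_lit 29988152072) (nat_lit 33) (nat_lit 5) (nat_lit 37) (nat_lit 5) (nat_lit 34) (nat_lit 5) (nat_lit 318) (nat_lit 289) (nat_lit 113)) (XT.lf (nat_lit 0) (nat_lit 44021540262) (nat_lit 304) (nat_lit 1679428604) (nat_lit 76) (nat_lit 61981630874) (nat_lit 33) (nat_lit 5) (nat_lit 37) (nat_lit 5) (nat_lit 34) (nat_lit 5) (nat_lit 319) (nat_lit 289) (nat_lit 112))) (XT.nd (nat_lit 78) (nat_lit 152) (nat_lit 0) (XT.lf (nat_lit 0) (nat_lit 43942490749) (nat_lit 228)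 (nat_lit 15131094645) (nat_lit 304) (nat_lit 52318201746) (nat_lit 30) (nat_lit 5) (nat_lit 33) (nat_lit 5) (nat_lit 34) (nat_lit 5) (nat_lit 320) (nat_lit 289) (nat_lit 111)) (XT.nd (nat_lit 78) (nat_lit 152) (nat_lit 0) (XT.lf (nat_lit 0) (nat_lit 75171501122) (nat_lit 304) (nat_lit 23647331392) (nat_lit 76) (nat_lit 16452939547) (nat_lit 30) (nat_lit 5) (nat_lit 34) (nat_lit 5) (nat_lit 31) (nat_lit 5) (nat_lit 321) (nat_lit 289) (nat_lit 110)) (XT.lf (nat_lit 0) (nat_lit 22826550761) (nat_lit 152) (nat_lit 69851678517) (nat_lit 228) (nat_lit 26637332614) (nat_lit 28) (nat_lit 5) (nat_lit 30) (nat_lit 5) (nat_lit 31) (nat_lit 5) (nat_lit 322) (nat_lit 289) (nat_lit 109))))))))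
noncomputable def xc236 : XT := (XT.nd (nat_lit 1326) (nat_lit 0) (nat_lit 0) (XT.nd (nat_lit 624) (nat_lit 456) (nat_lit 0) (XT.nd (nat_lit 312) (nat_lit 304) (nat_lit 0) (XT.nd (nat_lit 156) (nat_lit 228) (nat_lit 0) (XT.nd (nat_lit 78) (nat_lit 76) (nat_lit 0) (XT.lf (nat_lit 0) (nat_lit 72444398082) (nat_lit 152) (nat_lit 39015867928) (nat_lit 228) (nat_lit 12081278019) (nat_lit 28) (nat_lit 5) (nat_lit 30) (nat_lit 5) (nat_lit 31) (nat_lit 5) (nat_lit 323) (nat_lit 289) (nat_lit 108)) (XT.lf (nat_lit 0) (nat_lit 3099584845) (nat_lit 228) (nat_lit 3486383336) (nat_lit 76) (nat_lit 121390382918) (nat_lit 27) (nat_lit 5) (nat_lit 30) (nat_lit 5) (nat_lit 28) (nat_lit 5) (nat_lit 324) (nat_lit 289) (nat_lit 107))) (XT.nd (nat_lit 78) (nat_lit 0) (nat_lit 0) (XT.lf (nat_lit 0) (nat_lit 19824186311) (nat_lit 304) (nat_lit 85192682349) (nat_lit 76) (nat_lit 27546593123) (nat_lit 24) (nat_lit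 5) (nat_lit 28) (nat_lit 5) (nat_lit 25) (nat_lit 5) (nat_lit 325) (nat_lit 289) (nat_lit 106)) (XT.lf (nat_lit 0) (nat_lit 37552536672) (nat_lit 304) (nat_lit 36594742539) (nat_lit 76) (nat_lit 63224274020) (nat_lit 24) (nat_lit 5) (nat_lit 28) (nat_lit 5) (nat_lit 25) (nat_lit 5) (nat_lit 326) (nat_lit 289) (nat_lit 105)))) (XT.nd (nat_lit 156) (nat_lit 152) (nat_lit 0) (XT.nd (nat_lit 78) (nat_lit 0) (nat_lit 0) (XT.lf (nat_lit 0) (nat_lit 14909656574) (nat_lit 152) (nat_lit 41489991991) (nat_lit 228) (nat_lit 86008784602) (nat_lit 22) (nat_lit 5) (nat_lit 24) (nat_lit 5) (nat_lit 25) (nat_lit 5) (nat_lit 327) (nat_lit 289) (nat_lit 104)) (XT.lf (nat_lit 0) (nat_lit 70259132982) (nat_lit 152) (nat_lit 6549306237) (nat_lit 228) (nat_lit 70857752783) (nat_lit 22) (nat_lit 5) (nat_lit 24) (nat_lit 5) (nat_lit 25) (nat_lit 5) (nat_lit 328) (nat_lit 289) (nat_lit 103))) (XT.nd (nat_lit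 78) (nat_lit 152) (nat_lit 0) (XT.lf (nat_lit 0) (nat_lit 98707805298) (nat_lit 228) (nat_lit 25281918490) (nat_lit 76) (nat_lit 29173609211) (nat_lit 22) (nat_lit 5) (nat_lit 25) (nat_lit 5) (nat_lit 23) (nat_lit 5) (nat_lit 329) (nat_lit 289) (nat_lit 102)) (XT.lf (nat_lit 0) (nat_lit 30311688321) (nat_lit 152) (nat_lit 91970677710) (nat_lit 228) (nat_lit 36623954658) (nat_lit 20) (nat_lit 5) (nat_lit 22) (nat_lit 5) (nat_lit 23) (nat_lit 5) (nat_lit 330) (nat_lit 289) (nat_lit 101))))) (XT.nd (nat_lit 312) (nat_lit 228) (nat_lit 0) (XT.nd (nat_lit 156) (nat_lit 152) (nat_lit 0) (XT.nd (nat_lit 78) (nat_lit 76) (nat_lit 0) (XT.lf (nat_lit 0) (nat_lit 89562127689) (nat_lit 152) (nat_lit 57901308429) (nat_lit 228) (nat_lit 17451633498) (nat_lit 20) (nat_lit 5) (nat_lit 22) (nat_lit 5) (nat_lit 23) (nat_lit 5) (nat_lit 331) (nat_lit 289) (nat_lit 100)) (XT.lf (nat_lit 0) (nat_lit 2593180384)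 (nat_lit 228) (nat_lit 19491562773) (nat_lit 76) (nat_lit 149137440536) (nat_lit 19) (nat_lit 5) (nat_lit 22) (nat_lit 5) (nat_lit 20) (nat_lit 5) (nat_lit 332) (nat_lit 289) (nat_lit 99))) (XT.nd (nat_lit 78) (nat_lit 0) (nat_lit 0) (XT.lf (nat_lit 0) (nat_lit 23937749191) (nat_lit 228) (nat_lit 137894653820) (nat_lit 76) (nat_lit 15953746461) (nat_lit 17) (nat_lit 5) (nat_lit 20) (nat_lit 5) (nat_lit 18) (nat_lit 5) (nat_lit 333) (nat_lit 289) (nat_lit 98)) (XT.lf (nat_lit 0) (nat_lit 47046756166) (nat_lit 228) (nat_lit 82109398789) (nat_lit 76) (nat_lit 55487298852) (nat_lit 17) (nat_lit 5) (nat_lit 20) (nat_lit 5) (nat_lit 18) (nat_lit 5) (nat_lit 334) (nat_lit 289) (nat_lit 97)))) (XT.nd (nat_lit 156) (nat_lit 76) (nat_lit 0) (XT.nd (nat_lit 78) (nat_lit 152) (nat_lit 0) (XT.lf (nat_lit 0) (nat_lit 71310884207) (nat_lit 228) (nat_lit 23535398929) (nat_lit 76) (nat_lit 96997357407)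 (nat_lit 17) (nat_lit 5) (nat_lit 20) (nat_lit 5) (nat_lit 18) (nat_lit 5) (nat_lit 335) (nat_lit 289) (nat_lit 96)) (XT.lf (nat_lit 0) (nat_lit 39222161788) (nat_lit 152) (nat_lit 58178111122) (nat_lit 228) (nat_lit 101972961677) (nat_lit 15) (nat_lit 5) (nat_lit 17) (nat_lit 5) (nat_lit 18) (nat_lit 5) (nat_lit 336) (nat_lit 289) (nat_lit 95))) (XT.nd (nat_lit 78) (nat_lit 76) (nat_lit 0) (XT.lf (nat_lit 0) (nat_lit 105934211146) (nat_lit 152) (nat_lit 19258197026) (nat_lit 228) (nat_lit 82066986958) (nat_lit 15) (nat_lit 5) (nat_lit 17) (nat_lit 5) (nat_lit 18) (nat_lit 5) (nat_lit 337) (nat_lit 289) (nat_lit 94)) (XT.nd (nat_lit 78) (nat_lit 76) (nat_lit 0) (XT.lf (nat_lit 0) (nat_lit 154711212822) (nat_lit 228) (nat_lit 39895832417) (nat_lit 76) (nat_lit 20915965951) (nat_lit 15) (nat_lit 5) (nat_lit 18) (nat_lit 5) (nat_lit 16) (nat_lit 4) (nat_lit 338) (nat_lit 289) (nat_lit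 93)) (XT.lf (nat_lit 0) (nat_lit 25091924746) (nat_lit 76) (nat_lit 161321216060) (nat_lit 152) (nat_lit 37751308682) (nat_lit 14) (nat_lit 5) (nat_lit 15) (nat_lit 5) (nat_lit 16) (nat_lit 4) (nat_lit 339) (nat_lit 289) (nat_lit 92))))))) (XT.nd (nat_lit 34242) (nat_lit 0) (nat_lit 2888) (XT.nd (nat_lit 33852) (nat_lit 0) (nat_lit 3952) (XT.nd (nat_lit 33696) (nat_lit 0) (nat_lit 3876) (XT.nd (nat_lit 33618) (nat_lit 0) (nat_lit 3876) (XT.lf (nat_lit 0) (nat_lit 94713718145) (nat_lit 76) (nat_lit 125661828363) (nat_lit 152) (nat_lit 12828644691) (nat_lit 14) (nat_lit 5) (nat_lit 15) (nat_lit 5) (nat_lit 16) (nat_lit 4) (nat_lit 340) (nat_lit 289) (nat_lit 91)) (XT.lf (nat_lit 0) (nat_lit 3052492005) (nat_lit 0) (nat_lit 3052492005) (nat_lit 684) (nat_lit 17492239594) (nat_lit 65) (nat_lit 5) (nat_lit 65) (nat_lit 3) (nat_lit 74) (nat_lit 3) (nat_lit 290) (nat_lit 290) (nat_lit 140)))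 (XT.nd (nat_lit 78) (nat_lit 0) (nat_lit 0) (XT.lf (nat_lit 0) (nat_lit 12763331293) (nat_lit 684) (nat_lit 21862738734) (nat_lit 760) (nat_lit 13735726709) (nat_lit 65) (nat_lit 5) (nat_lit 74) (nat_lit 3) (nat_lit 75) (nat_lit 5) (nat_lit 291) (nat_lit 290) (nat_lit 139)) (XT.lf (nat_lit 0) (nat_lit 13442756891) (nat_lit 684) (nat_lit 1775715258) (nat_lit 760) (nat_lit 34364128661) (nat_lit 65) (nat_lit 5) (nat_lit 74) (nat_lit 3) (nat_lit 75) (nat_lit 5) (nat_lit 292) (nat_lit 290) (nat_lit 138)))) (XT.nd (nat_lit 156) (nat_lit 0) (nat_lit 0) (XT.nd (nat_lit 78) (nat_lit 0) (nat_lit 0) (XT.lf (nat_lit 0) (nat_lit 14551747051) (nat_lit 684) (nat_lit 30981245520) (nat_lit 760) (nat_lit 5311679313) (nat_lit 66) (nat_lit 5) (nat_lit 75) (nat_lit 5) (nat_lit 76) (nat_lit 5) (nat_lit 293) (nat_lit 290) (nat_lit 137)) (XT.lf (nat_lit 0) (nat_lit 15994700970) (nat_lit 684) (nat_lit 9773133984)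 (nat_lit 760) (nat_lit 26388091998) (nat_lit 66) (nat_lit 5) (nat_lit 75) (nat_lit 5) (nat_lit 76) (nat_lit 5) (nat_lit 294) (nat_lit 290) (nat_lit 136))) (XT.nd (nat_lit 78) (nat_lit 0) (nat_lit 76) (XT.lf (nat_lit 76) (nat_lit 12907564023) (nat_lit 0) (nat_lit 4802300389) (nat_lit 760) (nat_lit 35812883126) (nat_lit 67) (nat_lit 5) (nat_lit 66) (nat_lit 5) (nat_lit 76) (nat_lit 5) (nat_lit 295) (nat_lit 290) (nat_lit 135)) (XT.nd (nat_lit 78) (nat_lit 0) (nat_lit 0) (XT.lf (nat_lit 0) (nat_lit 19946333221) (nat_lit 684) (nat_lit 18160478645) (nat_lit 760) (nat_lit 16829325510) (nat_lit 67) (nat_lit 5) (nat_lit 76) (nat_lit 5) (nat_lit 77) (nat_lit 5) (nat_lit 296) (nat_lit 290) (nat_lit 134)) (XT.lf (nat_lit 76) (nat_lit 5513747728) (nat_lit 0) (nat_lit 16944356835) (nat_lit 760) (nat_lit 33953923500) (nat_lit 68) (nat_lit 5) (nat_lit 67) (nat_lit 5) (nat_lit 77) (nat_lit 5) (nat_lit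 297) (nat_lit 290) (nat_lit 133)))))) (XT.nd (nat_lit 312) (nat_lit 1216) (nat_lit 0) (XT.nd (nat_lit 156) (nat_lit 0) (nat_lit 0) (XT.nd (nat_lit 78) (nat_lit 0) (nat_lit 0) (XT.lf (nat_lit 0) (nat_lit 25489161206) (nat_lit 684) (nat_lit 27032598587) (nat_lit 760) (nat_lit 5420273718) (nat_lit 68) (nat_lit 5) (nat_lit 77) (nat_lit 5) (nat_lit 78) (nat_lit 5) (nat_lit 298) (nat_lit 290) (nat_lit 132)) (XT.lf (nat_lit 0) (nat_lit 28948329623) (nat_lit 684) (nat_lit 2252381334) (nat_lit 760) (nat_lit 28334005146) (nat_lit 68) (nat_lit 5) (nat_lit 77) (nat_lit 5) (nat_lit 78) (nat_lit 5) (nat_lit 299) (nat_lit 290) (nat_lit 131))) (XT.nd (nat_lit 78) (nat_lit 0) (nat_lit 76) (XT.lf (nat_lit 76) (nat_lit 24551729511) (nat_lit 0) (nat_lit 8410888828) (nat_lit 760) (nat_lit 28225310983) (nat_lit 69) (nat_lit 5) (nat_lit 68) (nat_lit 5) (nat_lit 78) (nat_lit 5) (nat_lit 300) (nat_lit 290)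 (nat_lit 130)) (XT.lf (nat_lit 0) (nat_lit 37457562884) (nat_lit 684) (nat_lit 10391538418) (nat_lit 76) (nat_lit 15060709202) (nat_lit 69) (nat_lit 5) (nat_lit 78) (nat_lit 5) (nat_lit 70) (nat_lit 5) (nat_lit 301) (nat_lit 290) (nat_lit 129)))) (XT.nd (nat_lit 156) (nat_lit 608) (nat_lit 0) (XT.nd (nat_lit 78) (nat_lit 0) (nat_lit 0) (XT.lf (nat_lit 0) (nat_lit 17589518941) (nat_lit 684) (nat_lit 24999178727) (nat_lit 760) (nat_lit 22108520089) (nat_lit 60) (nat_lit 5) (nat_lit 69) (nat_lit 5) (nat_lit 70) (nat_lit 5) (nat_lit 302) (nat_lit 290) (nat_lit 128)) (XT.lf (nat_lit 0) (nat_lit 47329486753) (nat_lit 684) (nat_lit 821862394) (nat_lit 760) (nat_lit 18413902195) (nat_lit 60) (nat_lit 5) (nat_lit 69) (nat_lit 5) (nat_lit 70) (nat_lit 5) (nat_lit 303) (nat_lit 290) (nat_lit 127))) (XT.nd (nat_lit 78) (nat_lit 304) (nat_lit 0) (XT.lf (nat_lit 0) (nat_lit 9964242486) (nat_lit 304)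 (nat_lit 44566003080) (nat_lit 380) (nat_lit 13969539197) (nat_lit 56) (nat_lit 5) (nat_lit 60) (nat_lit 5) (nat_lit 61) (nat_lit 5) (nat_lit 304) (nat_lit 290) (nat_lit 126)) (XT.nd (nat_lit 78) (nat_lit 304) (nat_lit 0) (XT.lf (nat_lit 0) (nat_lit 41277244513) (nat_lit 304) (nat_lit 20288922111) (nat_lit 380) (nat_lit 8947977838) (nat_lit 56) (nat_lit 5) (nat_lit 60) (nat_lit 5) (nat_lit 61) (nat_lit 5) (nat_lit 305) (nat_lit 290) (nat_lit 125)) (XT.lf (nat_lit 0) (nat_lit 1492304952) (nat_lit 304) (nat_lit 67565198246) (nat_lit 380) (nat_lit 3566541399) (nat_lit 52) (nat_lit 5) (nat_lit 56) (nat_lit 5) (nat_lit 57) (nat_lit 5) (nat_lit 306) (nat_lit 290) (nat_lit 124))))))))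
noncomputable def xc237 : XT := (XT.nd (nat_lit 1326) (nat_lit 988) (nat_lit 0) (XT.nd (nat_lit 624) (nat_lit 912) (nat_lit 0) (XT.nd (nat_lit 312) (nat_lit 532) (nat_lit 0) (XT.nd (nat_lit 156) (nat_lit 304) (nat_lit 0) (XT.nd (nat_lit 78) (nat_lit 0) (nat_lit 0) (XT.lf (nat_lit 0) (nat_lit 2852243994) (nat_lit 380) (nat_lit 40415864634) (nat_lit 76) (nat_lit 31527958537) (nat_lit 51) (nat_lit 5) (nat_lit 56) (nat_lit 5) (nat_lit 52) (nat_lit 5) (nat_lit 307) (nat_lit 290) (nat_lit 123)) (XT.lf (nat_lit 0) (nat_lit 9471265376) (nat_lit 380) (nat_lit 8223551650) (nat_lit 76) (nat_lit 59378995603) (nat_lit 51) (nat_lit 5) (nat_lit 56) (nat_lit 5) (nat_lit 52) (nat_lit 5) (nat_lit 308) (nat_lit 290) (nat_lit 122))) (XT.nd (nat_lit 78) (nat_lit 0) (nat_lit 0) (XT.lf (nat_lit 0) (nat_lit 16982705668) (nat_lit 380) (nat_lit 53171352186) (nat_lit 76) (nat_lit 9283316941) (nat_lit 47) (nat_lit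 5) (nat_lit 52) (nat_lit 5) (nat_lit 48) (nat_lit 5) (nat_lit 309) (nat_lit 290) (nat_lit 121)) (XT.lf (nat_lit 0) (nat_lit 25300570432) (nat_lit 380) (nat_lit 19439807680) (nat_lit 76) (nat_lit 37157197017) (nat_lit 47) (nat_lit 5) (nat_lit 52) (nat_lit 5) (nat_lit 48) (nat_lit 5) (nat_lit 310) (nat_lit 290) (nat_lit 120)))) (XT.nd (nat_lit 156) (nat_lit 228) (nat_lit 0) (XT.nd (nat_lit 78) (nat_lit 0) (nat_lit 0) (XT.lf (nat_lit 0) (nat_lit 16505770600) (nat_lit 304) (nat_lit 17785516838) (nat_lit 380) (nat_lit 50176652646) (nat_lit 43) (nat_lit 5) (nat_lit 47) (nat_lit 5) (nat_lit 48) (nat_lit 5) (nat_lit 311) (nat_lit 290) (nat_lit 119)) (XT.lf (nat_lit 0) (nat_lit 44229639865) (nat_lit 380) (nat_lit 32397281118) (nat_lit 76) (nat_lit 10514999762) (nat_lit 43) (nat_lit 5) (nat_lit 48) (nat_lit 5) (nat_lit 44) (nat_lit 5) (nat_lit 312) (nat_lit 290) (nat_lit 118))) (XT.nd (nat_lit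 78) (nat_lit 0) (nat_lit 0) (XT.lf (nat_lit 0) (nat_lit 4807336635) (nat_lit 228) (nat_lit 50223508191) (nat_lit 304) (nat_lit 34900461186) (nat_lit 40) (nat_lit 5) (nat_lit 43) (nat_lit 5) (nat_lit 44) (nat_lit 5) (nat_lit 313) (nat_lit 290) (nat_lit 117)) (XT.lf (nat_lit 0) (nat_lit 44996144874) (nat_lit 228) (nat_lit 21923962066) (nat_lit 304) (nat_lit 25912655964) (nat_lit 40) (nat_lit 5) (nat_lit 43) (nat_lit 5) (nat_lit 44) (nat_lit 5) (nat_lit 314) (nat_lit 290) (nat_lit 116))))) (XT.nd (nat_lit 312) (nat_lit 380) (nat_lit 0) (XT.nd (nat_lit 156) (nat_lit 304) (nat_lit 0) (XT.nd (nat_lit 78) (nat_lit 228) (nat_lit 0) (XT.lf (nat_lit 0) (nat_lit 79524827684) (nat_lit 304) (nat_lit 8807326183) (nat_lit 76) (nat_lit 7541091101) (nat_lit 40) (nat_lit 5) (nat_lit 44) (nat_lit 5) (nat_lit 41) (nat_lit 5) (nat_lit 315) (nat_lit 290) (nat_lit 115)) (XT.lf (nat_lit 0) (nat_lit 32865154500)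 (nat_lit 228) (nat_lit 60766549705) (nat_lit 304) (nat_lit 5390452945) (nat_lit 37) (nat_lit 5) (nat_lit 40) (nat_lit 5) (nat_lit 41) (nat_lit 5) (nat_lit 316) (nat_lit 290) (nat_lit 114))) (XT.nd (nat_lit 78) (nat_lit 228) (nat_lit 0) (XT.lf (nat_lit 0) (nat_lit 6070678942) (nat_lit 304) (nat_lit 25492717511) (nat_lit 76) (nat_lit 70752796339) (nat_lit 36) (nat_lit 5) (nat_lit 40) (nat_lit 5) (nat_lit 37) (nat_lit 5) (nat_lit 317) (nat_lit 290) (nat_lit 113)) (XT.lf (nat_lit 0) (nat_lit 17681605889) (nat_lit 228) (nat_lit 517594119) (nat_lit 304) (nat_lit 87557539179) (nat_lit 33) (nat_lit 5) (nat_lit 36) (nat_lit 5) (nat_lit 37) (nat_lit 5) (nat_lit 318) (nat_lit 290) (nat_lit 112)))) (XT.nd (nat_lit 156) (nat_lit 380) (nat_lit 0) (XT.nd (nat_lit 78) (nat_lit 0) (nat_lit 0) (XT.lf (nat_lit 0) (nat_lit 31873263928) (nat_lit 304) (nat_lit 45956720218) (nat_lit 76) (nat_lit 31492374561)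 (nat_lit 33) (nat_lit 5) (nat_lit 37) (nat_lit 5) (nat_lit 34) (nat_lit 5) (nat_lit 319) (nat_lit 290) (nat_lit 111)) (XT.lf (nat_lit 0) (nat_lit 46238984047) (nat_lit 304) (nat_lit 1741581053) (nat_lit 76) (nat_lit 65085298023) (nat_lit 33) (nat_lit 5) (nat_lit 37) (nat_lit 5) (nat_lit 34) (nat_lit 5) (nat_lit 320) (nat_lit 290) (nat_lit 110))) (XT.nd (nat_lit 78) (nat_lit 152) (nat_lit 0) (XT.lf (nat_lit 0) (nat_lit 46161082348) (nat_lit 228) (nat_lit 15882104879) (nat_lit 304) (nat_lit 54917347175) (nat_lit 30) (nat_lit 5) (nat_lit 33) (nat_lit 5) (nat_lit 34) (nat_lit 5) (nat_lit 321) (nat_lit 290) (nat_lit 109)) (XT.nd (nat_lit 78) (nat_lit 152) (nat_lit 0) (XT.lf (nat_lit 0) (nat_lit 78945322967) (nat_lit 304) (nat_lit 24808533589) (nat_lit 76) (nat_lit 17280697991) (nat_lit 30) (nat_lit 5) (nat_lit 34) (nat_lit 5) (nat_lit 31) (nat_lit 5) (nat_lit 322) (nat_lit 290) (nat_lit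 108)) (XT.lf (nat_lit 0) (nat_lit 23988701310) (nat_lit 152) (nat_lit 73338285289) (nat_lit 228) (nat_lit 27953569402) (nat_lit 28) (nat_lit 5) (nat_lit 30) (nat_lit 5) (nat_lit 31) (nat_lit 5) (nat_lit 323) (nat_lit 290) (nat_lit 107))))))) (XT.nd (nat_lit 702) (nat_lit 380) (nat_lit 0) (XT.nd (nat_lit 312) (nat_lit 304) (nat_lit 0) (XT.nd (nat_lit 156) (nat_lit 228) (nat_lit 0) (XT.nd (nat_lit 78) (nat_lit 76) (nat_lit 0) (XT.lf (nat_lit 0) (nat_lit 76086449425) (nat_lit 152) (nat_lit 40960968797) (nat_lit 228) (nat_lit 12670456355) (nat_lit 28) (nat_lit 5) (nat_lit 30) (nat_lit 5) (nat_lit 31) (nat_lit 5) (nat_lit 324) (nat_lit 290) (nat_lit 106)) (XT.lf (nat_lit 0) (nat_lit 3268287072) (nat_lit 228) (nat_lit 3641325658) (nat_lit 76) (nat_lit 127464833759) (nat_lit 27) (nat_lit 5) (nat_lit 30) (nat_lit 5) (nat_lit 28) (nat_lit 5) (nat_lit 325) (nat_lit 290) (nat_lit 105))) (XT.nd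 (nat_lit 78) (nat_lit 0) (nat_lit 0) (XT.lf (nat_lit 0) (nat_lit 20828851731) (nat_lit 304) (nat_lit 89432638441) (nat_lit 76) (nat_lit 28929437594) (nat_lit 24) (nat_lit 5) (nat_lit 28) (nat_lit 5) (nat_lit 25) (nat_lit 5) (nat_lit 326) (nat_lit 290) (nat_lit 104)) (XT.lf (nat_lit 0) (nat_lit 39442978844) (nat_lit 304) (nat_lit 38405738690) (nat_lit 76) (nat_lit 66390739925) (nat_lit 24) (nat_lit 5) (nat_lit 28) (nat_lit 5) (nat_lit 25) (nat_lit 5) (nat_lit 327) (nat_lit 290) (nat_lit 103)))) (XT.nd (nat_lit 156) (nat_lit 152) (nat_lit 0) (XT.nd (nat_lit 78) (nat_lit 0) (nat_lit 0) (XT.lf (nat_lit 0) (nat_lit 15673578105) (nat_lit 152) (nat_lit 43558545852) (nat_lit 228) (nat_lit 90296075109) (nat_lit 22) (nat_lit 5) (nat_lit 24) (nat_lit 5) (nat_lit 25) (nat_lit 5) (nat_lit 328) (nat_lit 290) (nat_lit 102)) (XT.lf (nat_lit 0) (nat_lit 73789650300) (nat_lit 152) (nat_lit 6871108941)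 (nat_lit 228) (nat_lit 74388117829) (nat_lit 22) (nat_lit 5) (nat_lit 24) (nat_lit 5) (nat_lit 25) (nat_lit 5) (nat_lit 329) (nat_lit 290) (nat_lit 101))) (XT.nd (nat_lit 78) (nat_lit 152) (nat_lit 0) (XT.lf (nat_lit 0) (nat_lit 103654611248) (nat_lit 228) (nat_lit 26528779374) (nat_lit 76) (nat_lit 30637510023) (nat_lit 22) (nat_lit 5) (nat_lit 25) (nat_lit 5) (nat_lit 23) (nat_lit 5) (nat_lit 330) (nat_lit 290) (nat_lit 100)) (XT.nd (nat_lit 78) (nat_lit 0) (nat_lit 0) (XT.lf (nat_lit 0) (nat_lit 31844229793) (nat_lit 152) (nat_lit 96563391367) (nat_lit 228) (nat_lit 38443431846) (nat_lit 20) (nat_lit 5) (nat_lit 22) (nat_lit 5) (nat_lit 23) (nat_lit 5) (nat_lit 331) (nat_lit 290) (nat_lit 99)) (XT.lf (nat_lit 0) (nat_lit 94056383650) (nat_lit 152) (nat_lit 60790830776) (nat_lit 228) (nat_lit 18313052749) (nat_lit 20) (nat_lit 5) (nat_lit 22) (nat_lit 5) (nat_lit 23) (nat_lit 5) (nat_lit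 332) (nat_lit 290) (nat_lit 98)))))) (XT.nd (nat_lit 312) (nat_lit 152) (nat_lit 0) (XT.nd (nat_lit 156) (nat_lit 0) (nat_lit 0) (XT.nd (nat_lit 78) (nat_lit 152) (nat_lit 0) (XT.lf (nat_lit 0) (nat_lit 2733130028) (nat_lit 228) (nat_lit 20450396892) (nat_lit 76) (nat_lit 156599228210) (nat_lit 19) (nat_lit 5) (nat_lit 22) (nat_lit 5) (nat_lit 20) (nat_lit 5) (nat_lit 333) (nat_lit 290) (nat_lit 97)) (XT.lf (nat_lit 0) (nat_lit 25144764143) (nat_lit 228) (nat_lit 144773457247) (nat_lit 76) (nat_lit 16756707070) (nat_lit 17) (nat_lit 5) (nat_lit 20) (nat_lit 5) (nat_lit 18) (nat_lit 5) (nat_lit 334) (nat_lit 290) (nat_lit 96))) (XT.nd (nat_lit 78) (nat_lit 0) (nat_lit 0) (XT.lf (nat_lit 0) (nat_lit 49408739206) (nat_lit 228) (nat_lit 86199698001) (nat_lit 76) (nat_lit 58266685972) (nat_lit 17) (nat_lit 5) (nat_lit 20) (nat_lit 5) (nat_lit 18) (nat_lit 5) (nat_lit 335) (nat_lit 290) (nat_lit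 95)) (XT.lf (nat_lit 0) (nat_lit 74885614351) (nat_lit 228) (nat_lit 24697720564) (nat_lit 76) (nat_lit 101852008304) (nat_lit 17) (nat_lit 5) (nat_lit 20) (nat_lit 5) (nat_lit 18) (nat_lit 5) (nat_lit 336) (nat_lit 290) (nat_lit 94)))) (XT.nd (nat_lit 156) (nat_lit 0) (nat_lit 0) (XT.nd (nat_lit 78) (nat_lit 0) (nat_lit 0) (XT.lf (nat_lit 0) (nat_lit 41197485152) (nat_lit 152) (nat_lit 61081771853) (nat_lit 228) (nat_lit 107062171690) (nat_lit 15) (nat_lit 5) (nat_lit 17) (nat_lit 5) (nat_lit 18) (nat_lit 5) (nat_lit 337) (nat_lit 290) (nat_lit 93)) (XT.lf (nat_lit 0) (nat_lit 111244460060) (nat_lit 152) (nat_lit 20216111806) (nat_lit 228) (nat_lit 86161347667) (nat_lit 15) (nat_lit 5) (nat_lit 17) (nat_lit 5) (nat_lit 18) (nat_lit 5) (nat_lit 338) (nat_lit 290) (nat_lit 92))) (XT.nd (nat_lit 33774) (nat_lit 0) (nat_lit 3800) (XT.lf (nat_lit 0) (nat_lit 162454984198) (nat_lit 228)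 (nat_lit 41877380491) (nat_lit 76) (nat_lit 21966369199) (nat_lit 15) (nat_lit 5) (nat_lit 18) (nat_lit 5) (nat_lit 16) (nat_lit 4) (nat_lit 339) (nat_lit 290) (nat_lit 91)) (XT.nd (nat_lit 78) (nat_lit 0) (nat_lit 0) (XT.lf (nat_lit 0) (nat_lit 3218194234) (nat_lit 0) (nat_lit 3218194234) (nat_lit 684) (nat_lit 18339284256) (nat_lit 65) (nat_lit 5) (nat_lit 65) (nat_lit 3) (nat_lit 74) (nat_lit 3) (nat_lit 291) (nat_lit 291) (nat_lit 138)) (XT.lf (nat_lit 0) (nat_lit 13450928483) (nat_lit 684) (nat_lit 22927887351) (nat_lit 760) (nat_lit 14398400544) (nat_lit 65) (nat_lit 5) (nat_lit 74) (nat_lit 3) (nat_lit 75) (nat_lit 5) (nat_lit 292) (nat_lit 291) (nat_lit 137))))))))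
noncomputable def xc238 : XT := (XT.nd (nat_lit 1326) (nat_lit 2052) (nat_lit 0) (XT.nd (nat_lit 624) (nat_lit 1064) (nat_lit 0) (XT.nd (nat_lit 312) (nat_lit 0) (nat_lit 152) (XT.nd (nat_lit 156) (nat_lit 0) (nat_lit 76) (XT.nd (nat_lit 78) (nat_lit 0) (nat_lit 76) (XT.lf (nat_lit 0) (nat_lit 14161971523) (nat_lit 684) (nat_lit 1837845478) (nat_lit 760) (nat_lit 36059370808) (nat_lit 65) (nat_lit 5) (nat_lit 74) (nat_lit 3) (nat_lit 75) (nat_lit 5) (nat_lit 293) (nat_lit 291) (nat_lit 136)) (XT.lf (nat_lit 0) (nat_lit 15324281956) (nat_lit 684) (nat_lit 32501342826) (nat_lit 760) (nat_lit 5558853126) (nat_lit 66) (nat_lit 5) (nat_lit 75) (nat_lit 5) (nat_lit 76) (nat_lit 5) (nat_lit 294) (nat_lit 291) (nat_lit 135))) (XT.nd (nat_lit 78) (nat_lit 0) (nat_lit 0) (XT.lf (nat_lit 0) (nat_lit 16837243211) (nat_lit 684) (nat_lit 10234204997) (nat_lit 760) (nat_lit 27689963119) (nat_lit 66)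 (nat_lit 5) (nat_lit 75) (nat_lit 5) (nat_lit 76) (nat_lit 5) (nat_lit 295) (nat_lit 291) (nat_lit 134)) (XT.lf (nat_lit 76) (nat_lit 13580082980) (nat_lit 0) (nat_lit 5056467151) (nat_lit 760) (nat_lit 37560111719) (nat_lit 67) (nat_lit 5) (nat_lit 66) (nat_lit 5) (nat_lit 76) (nat_lit 5) (nat_lit 296) (nat_lit 291) (nat_lit 133)))) (XT.nd (nat_lit 156) (nat_lit 0) (nat_lit 76) (XT.nd (nat_lit 78) (nat_lit 0) (nat_lit 0) (XT.lf (nat_lit 0) (nat_lit 20982671892) (nat_lit 684) (nat_lit 19040328094) (nat_lit 760) (nat_lit 17657837500) (nat_lit 67) (nat_lit 5) (nat_lit 76) (nat_lit 5) (nat_lit 77) (nat_lit 5) (nat_lit 297) (nat_lit 291) (nat_lit 132)) (XT.lf (nat_lit 76) (nat_lit 5817155171) (nat_lit 0) (nat_lit 17801451228) (nat_lit 760) (nat_lit 35611994992) (nat_lit 68) (nat_lit 5) (nat_lit 67) (nat_lit 5) (nat_lit 77) (nat_lit 5) (nat_lit 298) (nat_lit 291) (nat_lit 131))) (XT.nd (nat_lit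 78) (nat_lit 0) (nat_lit 0) (XT.lf (nat_lit 0) (nat_lit 26799278701) (nat_lit 684) (nat_lit 28355750105) (nat_lit 760) (nat_lit 5682182223) (nat_lit 68) (nat_lit 5) (nat_lit 77) (nat_lit 5) (nat_lit 78) (nat_lit 5) (nat_lit 299) (nat_lit 291) (nat_lit 130)) (XT.lf (nat_lit 0) (nat_lit 30429707471) (nat_lit 684) (nat_lit 2337878103) (nat_lit 760) (nat_lit 29742033803) (nat_lit 68) (nat_lit 5) (nat_lit 77) (nat_lit 5) (nat_lit 78) (nat_lit 5) (nat_lit 300) (nat_lit 291) (nat_lit 129))))) (XT.nd (nat_lit 312) (nat_lit 684) (nat_lit 0) (XT.nd (nat_lit 156) (nat_lit 608) (nat_lit 0) (XT.nd (nat_lit 78) (nat_lit 0) (nat_lit 76) (XT.lf (nat_lit 76) (nat_lit 25806000827) (nat_lit 0) (nat_lit 8837509212) (nat_lit 760) (nat_lit 29602049649) (nat_lit 69) (nat_lit 5) (nat_lit 68) (nat_lit 5) (nat_lit 78) (nat_lit 5) (nat_lit 301) (nat_lit 291) (nat_lit 128)) (XT.lf (nat_lit 0) (nat_lit 39361551429)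 (nat_lit 684) (nat_lit 10883928860) (nat_lit 76) (nat_lit 15808143257) (nat_lit 69) (nat_lit 5) (nat_lit 78) (nat_lit 5) (nat_lit 70) (nat_lit 5) (nat_lit 302) (nat_lit 291) (nat_lit 127))) (XT.nd (nat_lit 78) (nat_lit 0) (nat_lit 0) (XT.lf (nat_lit 0) (nat_lit 18495742875) (nat_lit 684) (nat_lit 26252436241) (nat_lit 760) (nat_lit 23182281046) (nat_lit 60) (nat_lit 5) (nat_lit 69) (nat_lit 5) (nat_lit 70) (nat_lit 5) (nat_lit 303) (nat_lit 291) (nat_lit 126)) (XT.lf (nat_lit 0) (nat_lit 49721435363) (nat_lit 684) (nat_lit 866097016) (nat_lit 760) (nat_lit 19304440117) (nat_lit 60) (nat_lit 5) (nat_lit 69) (nat_lit 5) (nat_lit 70) (nat_lit 5) (nat_lit 304) (nat_lit 291) (nat_lit 125)))) (XT.nd (nat_lit 156) (nat_lit 380) (nat_lit 0) (XT.nd (nat_lit 78) (nat_lit 0) (nat_lit 0) (XT.lf (nat_lit 0) (nat_lit 10489082815) (nat_lit 304) (nat_lit 46795297178) (nat_lit 380) (nat_lit 14638907546)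 (nat_lit 56) (nat_lit 5) (nat_lit 60) (nat_lit 5) (nat_lit 61) (nat_lit 5) (nat_lit 305) (nat_lit 291) (nat_lit 124)) (XT.lf (nat_lit 0) (nat_lit 43366466933) (nat_lit 304) (nat_lit 21304314830) (nat_lit 380) (nat_lit 9367654243) (nat_lit 56) (nat_lit 5) (nat_lit 60) (nat_lit 5) (nat_lit 61) (nat_lit 5) (nat_lit 306) (nat_lit 291) (nat_lit 123))) (XT.nd (nat_lit 78) (nat_lit 76) (nat_lit 0) (XT.lf (nat_lit 0) (nat_lit 1593278745) (nat_lit 304) (nat_lit 70942551172) (nat_lit 380) (nat_lit 3718048772) (nat_lit 52) (nat_lit 5) (nat_lit 56) (nat_lit 5) (nat_lit 57) (nat_lit 5) (nat_lit 307) (nat_lit 291) (nat_lit 122)) (XT.nd (nat_lit 78) (nat_lit 0) (nat_lit 0) (XT.lf (nat_lit 0) (nat_lit 3019581240) (nat_lit 380) (nat_lit 42410650291) (nat_lit 76) (nat_lit 33104316063) (nat_lit 51) (nat_lit 5) (nat_lit 56) (nat_lit 5) (nat_lit 52) (nat_lit 5) (nat_lit 308) (nat_lit 291) (nat_lit 121))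 (XT.lf (nat_lit 0) (nat_lit 9968376308) (nat_lit 380) (nat_lit 8609960114) (nat_lit 76) (nat_lit 62347906907) (nat_lit 51) (nat_lit 5) (nat_lit 56) (nat_lit 5) (nat_lit 52) (nat_lit 5) (nat_lit 309) (nat_lit 291) (nat_lit 120))))))) (XT.nd (nat_lit 702) (nat_lit 912) (nat_lit 0) (XT.nd (nat_lit 312) (nat_lit 532) (nat_lit 0) (XT.nd (nat_lit 156) (nat_lit 304) (nat_lit 0) (XT.nd (nat_lit 78) (nat_lit 0) (nat_lit 0) (XT.lf (nat_lit 0) (nat_lit 17854672175) (nat_lit 380) (nat_lit 55804355619) (nat_lit 76) (nat_lit 9748995561) (nat_lit 47) (nat_lit 5) (nat_lit 52) (nat_lit 5) (nat_lit 48) (nat_lit 5) (nat_lit 310) (nat_lit 291) (nat_lit 119)) (XT.lf (nat_lit 0) (nat_lit 26587342976) (nat_lit 380) (nat_lit 20387451230) (nat_lit 76) (nat_lit 39016497604) (nat_lit 47) (nat_lit 5) (nat_lit 52) (nat_lit 5) (nat_lit 48) (nat_lit 5) (nat_lit 311) (nat_lit 291) (nat_lit 118))) (XT.nd (nat_lit 78)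 (nat_lit 0) (nat_lit 0) (XT.lf (nat_lit 0) (nat_lit 17355013273) (nat_lit 304) (nat_lit 18671921121) (nat_lit 380) (nat_lit 52663277257) (nat_lit 43) (nat_lit 5) (nat_lit 47) (nat_lit 5) (nat_lit 48) (nat_lit 5) (nat_lit 312) (nat_lit 291) (nat_lit 117)) (XT.lf (nat_lit 0) (nat_lit 46461243208) (nat_lit 380) (nat_lit 33993302557) (nat_lit 76) (nat_lit 11043397037) (nat_lit 43) (nat_lit 5) (nat_lit 48) (nat_lit 5) (nat_lit 44) (nat_lit 5) (nat_lit 313) (nat_lit 291) (nat_lit 116)))) (XT.nd (nat_lit 156) (nat_lit 304) (nat_lit 0) (XT.nd (nat_lit 78) (nat_lit 0) (nat_lit 0) (XT.lf (nat_lit 0) (nat_lit 5071161525) (nat_lit 228) (nat_lit 52730754978) (nat_lit 304) (nat_lit 36624913658) (nat_lit 40) (nat_lit 5) (nat_lit 43) (nat_lit 5) (nat_lit 44) (nat_lit 5) (nat_lit 314) (nat_lit 291) (nat_lit 115)) (XT.lf (nat_lit 0) (nat_lit 47268293125) (nat_lit 228) (nat_lit 23016418624) (nat_lit 304)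 (nat_lit 27188697727) (nat_lit 40) (nat_lit 5) (nat_lit 43) (nat_lit 5) (nat_lit 44) (nat_lit 5) (nat_lit 315) (nat_lit 291) (nat_lit 114))) (XT.nd (nat_lit 78) (nat_lit 304) (nat_lit 0) (XT.lf (nat_lit 0) (nat_lit 83518838477) (nat_lit 304) (nat_lit 9225526621) (nat_lit 76) (nat_lit 7921594982) (nat_lit 40) (nat_lit 5) (nat_lit 44) (nat_lit 5) (nat_lit 41) (nat_lit 5) (nat_lit 316) (nat_lit 291) (nat_lit 113)) (XT.nd (nat_lit 78) (nat_lit 76) (nat_lit 0) (XT.lf (nat_lit 0) (nat_lit 34530220582) (nat_lit 228) (nat_lit 63800332569) (nat_lit 304) (nat_lit 5641792798) (nat_lit 37) (nat_lit 5) (nat_lit 40) (nat_lit 5) (nat_lit 41) (nat_lit 5) (nat_lit 317) (nat_lit 291) (nat_lit 112)) (XT.lf (nat_lit 0) (nat_lit 6390975586) (nat_lit 304) (nat_lit 26745978595) (nat_lit 76) (nat_lit 74294159439) (nat_lit 36) (nat_lit 5) (nat_lit 40) (nat_lit 5) (nat_lit 37) (nat_lit 5) (nat_lit 318) (nat_lit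 291) (nat_lit 111)))))) (XT.nd (nat_lit 312) (nat_lit 456) (nat_lit 0) (XT.nd (nat_lit 156) (nat_lit 228) (nat_lit 0) (XT.nd (nat_lit 78) (nat_lit 0) (nat_lit 0) (XT.lf (nat_lit 0) (nat_lit 18586716220) (nat_lit 228) (nat_lit 538736599) (nat_lit 304) (nat_lit 91918260422) (nat_lit 33) (nat_lit 5) (nat_lit 36) (nat_lit 5) (nat_lit 37) (nat_lit 5) (nat_lit 319) (nat_lit 291) (nat_lit 110)) (XT.lf (nat_lit 0) (nat_lit 33482514527) (nat_lit 304) (nat_lit 48233776248) (nat_lit 76) (nat_lit 33071360532) (nat_lit 33) (nat_lit 5) (nat_lit 37) (nat_lit 5) (nat_lit 34) (nat_lit 5) (nat_lit 320) (nat_lit 291) (nat_lit 109))) (XT.nd (nat_lit 78) (nat_lit 228) (nat_lit 0) (XT.lf (nat_lit 0) (nat_lit 48565778395) (nat_lit 304) (nat_lit 1808869647) (nat_lit 76) (nat_lit 68343722203) (nat_lit 33) (nat_lit 5) (nat_lit 37) (nat_lit 5) (nat_lit 34) (nat_lit 5) (nat_lit 321) (nat_lit 291) (nat_lit 108))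 (XT.lf (nat_lit 0) (nat_lit 48488607723) (nat_lit 228) (nat_lit 16671181099) (nat_lit 304) (nat_lit 57648008495) (nat_lit 30) (nat_lit 5) (nat_lit 33) (nat_lit 5) (nat_lit 34) (nat_lit 5) (nat_lit 322) (nat_lit 291) (nat_lit 107)))) (XT.nd (nat_lit 156) (nat_lit 304) (nat_lit 0) (XT.nd (nat_lit 78) (nat_lit 152) (nat_lit 0) (XT.lf (nat_lit 0) (nat_lit 82906418403) (nat_lit 304) (nat_lit 26029763559) (nat_lit 76) (nat_lit 18149369141) (nat_lit 30) (nat_lit 5) (nat_lit 34) (nat_lit 5) (nat_lit 31) (nat_lit 5) (nat_lit 323) (nat_lit 291) (nat_lit 106)) (XT.lf (nat_lit 0) (nat_lit 25207023461) (nat_lit 152) (nat_lit 76999778098) (nat_lit 228) (nat_lit 29337071144) (nat_lit 28) (nat_lit 5) (nat_lit 30) (nat_lit 5) (nat_lit 31) (nat_lit 5) (nat_lit 324) (nat_lit 291) (nat_lit 105))) (XT.nd (nat_lit 78) (nat_lit 304) (nat_lit 0) (XT.lf (nat_lit 0) (nat_lit 79908759597) (nat_lit 152) (nat_lit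 43003853946) (nat_lit 228) (nat_lit 13290477528) (nat_lit 28) (nat_lit 5) (nat_lit 30) (nat_lit 5) (nat_lit 31) (nat_lit 5) (nat_lit 325) (nat_lit 291) (nat_lit 104)) (XT.nd (nat_lit 78) (nat_lit 228) (nat_lit 0) (XT.lf (nat_lit 0) (nat_lit 3444148576) (nat_lit 228) (nat_lit 3805816572) (nat_lit 76) (nat_lit 133842548640) (nat_lit 27) (nat_lit 5) (nat_lit 30) (nat_lit 5) (nat_lit 28) (nat_lit 5) (nat_lit 326) (nat_lit 291) (nat_lit 103)) (XT.lf (nat_lit 0) (nat_lit 21882499401) (nat_lit 304) (nat_lit 93886421815) (nat_lit 76) (nat_lit 30380911572) (nat_lit 24) (nat_lit 5) (nat_lit 28) (nat_lit 5) (nat_lit 25) (nat_lit 5) (nat_lit 327) (nat_lit 291) (nat_lit 102))))))))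
noncomputable def xc239 : XT := (XT.nd (nat_lit 35256) (nat_lit 0) (nat_lit 1748) (XT.nd (nat_lit 624) (nat_lit 0) (nat_lit 0) (XT.nd (nat_lit 312) (nat_lit 380) (nat_lit 0) (XT.nd (nat_lit 156) (nat_lit 0) (nat_lit 0) (XT.nd (nat_lit 78) (nat_lit 152) (nat_lit 0) (XT.lf (nat_lit 0) (nat_lit 41426751675) (nat_lit 304) (nat_lit 40309027007) (nat_lit 76) (nat_lit 69715040825) (nat_lit 24) (nat_lit 5) (nat_lit 28) (nat_lit 5) (nat_lit 25) (nat_lit 5) (nat_lit 328) (nat_lit 291) (nat_lit 101)) (XT.lf (nat_lit 0) (nat_lit 16473981456) (nat_lit 152) (nat_lit 45731080184) (nat_lit 228) (nat_lit 94798952585) (nat_lit 22) (nat_lit 5) (nat_lit 24) (nat_lit 5) (nat_lit 25) (nat_lit 5) (nat_lit 329) (nat_lit 291) (nat_lit 100))) (XT.nd (nat_lit 78) (nat_lit 0) (nat_lit 0) (XT.lf (nat_lit 0) (nat_lit 77495060859) (nat_lit 152) (nat_lit 7209528236) (nat_lit 228) (nat_lit 78096165359) (nat_lit 22)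 (nat_lit 5) (nat_lit 24) (nat_lit 5) (nat_lit 25) (nat_lit 5) (nat_lit 330) (nat_lit 291) (nat_lit 99)) (XT.lf (nat_lit 0) (nat_lit 108847696173) (nat_lit 228) (nat_lit 27839585653) (nat_lit 76) (nat_lit 32174120537) (nat_lit 22) (nat_lit 5) (nat_lit 25) (nat_lit 5) (nat_lit 23) (nat_lit 5) (nat_lit 331) (nat_lit 291) (nat_lit 98)))) (XT.nd (nat_lit 156) (nat_lit 228) (nat_lit 0) (XT.nd (nat_lit 78) (nat_lit 0) (nat_lit 0) (XT.lf (nat_lit 0) (nat_lit 33451821832) (nat_lit 152) (nat_lit 101386281818) (nat_lit 228) (nat_lit 40354972558) (nat_lit 20) (nat_lit 5) (nat_lit 22) (nat_lit 5) (nat_lit 23) (nat_lit 5) (nat_lit 332) (nat_lit 291) (nat_lit 97)) (XT.lf (nat_lit 0) (nat_lit 98773850975) (nat_lit 152) (nat_lit 63825344584) (nat_lit 228) (nat_lit 19218580739) (nat_lit 20) (nat_lit 5) (nat_lit 22) (nat_lit 5) (nat_lit 23) (nat_lit 5) (nat_lit 333) (nat_lit 291) (nat_lit 96))) (XT.nd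 (nat_lit 78) (nat_lit 152) (nat_lit 0) (XT.lf (nat_lit 0) (nat_lit 2879120430) (nat_lit 228) (nat_lit 21458636446) (nat_lit 76) (nat_lit 164433648258) (nat_lit 19) (nat_lit 5) (nat_lit 22) (nat_lit 5) (nat_lit 20) (nat_lit 5) (nat_lit 334) (nat_lit 291) (nat_lit 95)) (XT.lf (nat_lit 0) (nat_lit 26411188284) (nat_lit 228) (nat_lit 151997681798) (nat_lit 76) (nat_lit 17599325450) (nat_lit 17) (nat_lit 5) (nat_lit 20) (nat_lit 5) (nat_lit 18) (nat_lit 5) (nat_lit 335) (nat_lit 291) (nat_lit 94))))) (XT.nd (nat_lit 34242) (nat_lit 0) (nat_lit 3648) (XT.nd (nat_lit 34086) (nat_lit 0) (nat_lit 3648) (XT.nd (nat_lit 78) (nat_lit 0) (nat_lit 0) (XT.lf (nat_lit 0) (nat_lit 51887924675) (nat_lit 228) (nat_lit 90495922604) (nat_lit 76) (nat_lit 61184575534) (nat_lit 17) (nat_lit 5) (nat_lit 20) (nat_lit 5) (nat_lit 18) (nat_lit 5) (nat_lit 336) (nat_lit 291) (nat_lit 93)) (XT.lf (nat_lit 0) (nat_lit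 78638226982) (nat_lit 228) (nat_lit 25919501547) (nat_lit 76) (nat_lit 106948947065) (nat_lit 17) (nat_lit 5) (nat_lit 20) (nat_lit 5) (nat_lit 18) (nat_lit 5) (nat_lit 337) (nat_lit 291) (nat_lit 92))) (XT.nd (nat_lit 78) (nat_lit 0) (nat_lit 0) (XT.lf (nat_lit 0) (nat_lit 3390965740) (nat_lit 0) (nat_lit 3390965740) (nat_lit 684) (nat_lit 19231244099) (nat_lit 65) (nat_lit 5) (nat_lit 65) (nat_lit 3) (nat_lit 74) (nat_lit 3) (nat_lit 292) (nat_lit 292) (nat_lit 136)) (XT.lf (nat_lit 0) (nat_lit 14168309942) (nat_lit 684) (nat_lit 24048895488) (nat_lit 760) (nat_lit 15096449823) (nat_lit 65) (nat_lit 5) (nat_lit 74) (nat_lit 3) (nat_lit 75) (nat_lit 5) (nat_lit 293) (nat_lit 292) (nat_lit 135)))) (XT.nd (nat_lit 156) (nat_lit 0) (nat_lit 76) (XT.nd (nat_lit 78) (nat_lit 0) (nat_lit 76) (XT.lf (nat_lit 0) (nat_lit 14912770132) (nat_lit 684) (nat_lit 1905560390) (nat_lit 760) (nat_lit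 37841510064) (nat_lit 65) (nat_lit 5) (nat_lit 74) (nat_lit 3) (nat_lit 75) (nat_lit 5) (nat_lit 294) (nat_lit 292) (nat_lit 134)) (XT.lf (nat_lit 0) (nat_lit 16131264809) (nat_lit 684) (nat_lit 34100137886) (nat_lit 760) (nat_lit 5820097231) (nat_lit 66) (nat_lit 5) (nat_lit 75) (nat_lit 5) (nat_lit 76) (nat_lit 5) (nat_lit 295) (nat_lit 292) (nat_lit 133))) (XT.nd (nat_lit 78) (nat_lit 0) (nat_lit 0) (XT.lf (nat_lit 0) (nat_lit 17717932757) (nat_lit 684) (nat_lit 10720894217) (nat_lit 760) (nat_lit 29058557892) (nat_lit 66) (nat_lit 5) (nat_lit 75) (nat_lit 5) (nat_lit 76) (nat_lit 5) (nat_lit 296) (nat_lit 292) (nat_lit 132)) (XT.nd (nat_lit 78) (nat_lit 0) (nat_lit 76) (XT.lf (nat_lit 76) (nat_lit 14283704594) (nat_lit 0) (nat_lit 5322035854) (nat_lit 760) (nat_lit 39398738109) (nat_lit 67) (nat_lit 5) (nat_lit 66) (nat_lit 5) (nat_lit 76) (nat_lit 5) (nat_lit 297) (nat_lit 292)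 (nat_lit 131)) (XT.lf (nat_lit 0) (nat_lit 22067199601) (nat_lit 684) (nat_lit 19966789412) (nat_lit 760) (nat_lit 18528979457) (nat_lit 67) (nat_lit 5) (nat_lit 76) (nat_lit 5) (nat_lit 77) (nat_lit 5) (nat_lit 298) (nat_lit 292) (nat_lit 130))))))) (XT.nd (nat_lit 702) (nat_lit 1216) (nat_lit 0) (XT.nd (nat_lit 312) (nat_lit 836) (nat_lit 0) (XT.nd (nat_lit 156) (nat_lit 0) (nat_lit 76) (XT.nd (nat_lit 78) (nat_lit 0) (nat_lit 76) (XT.lf (nat_lit 76) (nat_lit 6133155838) (nat_lit 0) (nat_lit 18700482112) (nat_lit 760) (nat_lit 37356653986) (nat_lit 68) (nat_lit 5) (nat_lit 67) (nat_lit 5) (nat_lit 77) (nat_lit 5) (nat_lit 299) (nat_lit 292) (nat_lit 129)) (XT.lf (nat_lit 0) (nat_lit 28171586795) (nat_lit 684) (nat_lit 29747706851) (nat_lit 760) (nat_lit 5958032667) (nat_lit 68) (nat_lit 5) (nat_lit 77) (nat_lit 5) (nat_lit 78) (nat_lit 5) (nat_lit 300) (nat_lit 292) (nat_lit 128)))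 (XT.nd (nat_lit 78) (nat_lit 0) (nat_lit 0) (XT.lf (nat_lit 0) (nat_lit 31981996805) (nat_lit 684) (nat_lit 2430171285) (nat_lit 760) (nat_lit 31221270095) (nat_lit 68) (nat_lit 5) (nat_lit 77) (nat_lit 5) (nat_lit 78) (nat_lit 5) (nat_lit 301) (nat_lit 292) (nat_lit 127)) (XT.lf (nat_lit 76) (nat_lit 27120504806) (nat_lit 0) (nat_lit 9284895732) (nat_lit 760) (nat_lit 31050835231) (nat_lit 69) (nat_lit 5) (nat_lit 68) (nat_lit 5) (nat_lit 78) (nat_lit 5) (nat_lit 302) (nat_lit 292) (nat_lit 126)))) (XT.nd (nat_lit 156) (nat_lit 304) (nat_lit 0) (XT.nd (nat_lit 78) (nat_lit 684) (nat_lit 0) (XT.lf (nat_lit 0) (nat_lit 41357847052) (nat_lit 684) (nat_lit 11403466366) (nat_lit 76) (nat_lit 16593469781) (nat_lit 69) (nat_lit 5) (nat_lit 78) (nat_lit 5) (nat_lit 70) (nat_lit 5) (nat_lit 303) (nat_lit 292) (nat_lit 125)) (XT.lf (nat_lit 0) (nat_lit 19444791231) (nat_lit 684) (nat_lit 27568049961)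 (nat_lit 760) (nat_lit 24312673968) (nat_lit 60) (nat_lit 5) (nat_lit 69) (nat_lit 5) (nat_lit 70) (nat_lit 5) (nat_lit 304) (nat_lit 292) (nat_lit 124))) (XT.nd (nat_lit 78) (nat_lit 304) (nat_lit 0) (XT.lf (nat_lit 0) (nat_lit 52230613048) (nat_lit 684) (nat_lit 912251302) (nat_lit 760) (nat_lit 20242308665) (nat_lit 60) (nat_lit 5) (nat_lit 69) (nat_lit 5) (nat_lit 70) (nat_lit 5) (nat_lit 305) (nat_lit 292) (nat_lit 123)) (XT.nd (nat_lit 78) (nat_lit 0) (nat_lit 0) (XT.lf (nat_lit 0) (nat_lit 11037689522) (nat_lit 304) (nat_lit 49135963574) (nat_lit 380) (nat_lit 15344450554) (nat_lit 56) (nat_lit 5) (nat_lit 60) (nat_lit 5) (nat_lit 61) (nat_lit 5) (nat_lit 306) (nat_lit 292) (nat_lit 122)) (XT.lf (nat_lit 0) (nat_lit 45557792724) (nat_lit 304) (nat_lit 22370389177) (nat_lit 380) (nat_lit 9810891842) (nat_lit 56) (nat_lit 5) (nat_lit 60) (nat_lit 5) (nat_lit 61) (nat_lit 5) (nat_lit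 307) (nat_lit 292) (nat_lit 121)))))) (XT.nd (nat_lit 312) (nat_lit 532) (nat_lit 0) (XT.nd (nat_lit 156) (nat_lit 304) (nat_lit 0) (XT.nd (nat_lit 78) (nat_lit 76) (nat_lit 0) (XT.lf (nat_lit 0) (nat_lit 1696850660) (nat_lit 304) (nat_lit 74488856066) (nat_lit 380) (nat_lit 3879624955) (nat_lit 52) (nat_lit 5) (nat_lit 56) (nat_lit 5) (nat_lit 57) (nat_lit 5) (nat_lit 308) (nat_lit 292) (nat_lit 120)) (XT.lf (nat_lit 0) (nat_lit 3192986648) (nat_lit 380) (nat_lit 44507593169) (nat_lit 76) (nat_lit 34759495222) (nat_lit 51) (nat_lit 5) (nat_lit 56) (nat_lit 5) (nat_lit 52) (nat_lit 5) (nat_lit 309) (nat_lit 292) (nat_lit 119))) (XT.nd (nat_lit 78) (nat_lit 304) (nat_lit 0) (XT.lf (nat_lit 0) (nat_lit 10488153549) (nat_lit 380) (nat_lit 9017991799) (nat_lit 76) (nat_lit 65465267353) (nat_lit 51) (nat_lit 5) (nat_lit 56) (nat_lit 5) (nat_lit 52) (nat_lit 5) (nat_lit 310) (nat_lit 292)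 (nat_lit 118)) (XT.lf (nat_lit 0) (nat_lit 18768114376) (nat_lit 380) (nat_lit 58571385939) (nat_lit 76) (nat_lit 10237817469) (nat_lit 47) (nat_lit 5) (nat_lit 52) (nat_lit 5) (nat_lit 48) (nat_lit 5) (nat_lit 311) (nat_lit 292) (nat_lit 117)))) (XT.nd (nat_lit 156) (nat_lit 228) (nat_lit 0) (XT.nd (nat_lit 78) (nat_lit 304) (nat_lit 0) (XT.lf (nat_lit 0) (nat_lit 27936432594) (nat_lit 380) (nat_lit 21384740495) (nat_lit 76) (nat_lit 40968629275) (nat_lit 47) (nat_lit 5) (nat_lit 52) (nat_lit 5) (nat_lit 48) (nat_lit 5) (nat_lit 312) (nat_lit 292) (nat_lit 116)) (XT.lf (nat_lit 0) (nat_lit 18244491050) (nat_lit 304) (nat_lit 19602912588) (nat_lit 380) (nat_lit 55276297789) (nat_lit 43) (nat_lit 5) (nat_lit 47) (nat_lit 5) (nat_lit 48) (nat_lit 5) (nat_lit 313) (nat_lit 292) (nat_lit 115))) (XT.nd (nat_lit 78) (nat_lit 228) (nat_lit 0) (XT.lf (nat_lit 0) (nat_lit 48802556026) (nat_lit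 380) (nat_lit 35671341728) (nat_lit 76) (nat_lit 11597968056) (nat_lit 43) (nat_lit 5) (nat_lit 48) (nat_lit 5) (nat_lit 44) (nat_lit 5) (nat_lit 314) (nat_lit 292) (nat_lit 114)) (XT.nd (nat_lit 78) (nat_lit 0) (nat_lit 0) (XT.lf (nat_lit 0) (nat_lit 5345996752) (nat_lit 228) (nat_lit 55363729350) (nat_lit 304) (nat_lit 38437501212) (nat_lit 40) (nat_lit 5) (nat_lit 43) (nat_lit 5) (nat_lit 44) (nat_lit 5) (nat_lit 315) (nat_lit 292) (nat_lit 113)) (XT.lf (nat_lit 0) (nat_lit 49651971735) (nat_lit 228) (nat_lit 24163845864) (nat_lit 304) (nat_lit 28530362967) (nat_lit 40) (nat_lit 5) (nat_lit 43) (nat_lit 5) (nat_lit 44) (nat_lit 5) (nat_lit 316) (nat_lit 292) (nat_lit 112))))))))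
noncomputable def xc240 : XT := (XT.nd (nat_lit 1326) (nat_lit 228) (nat_lit 0) (XT.nd (nat_lit 624) (nat_lit 760) (nat_lit 0) (XT.nd (nat_lit 312) (nat_lit 228) (nat_lit 0) (XT.nd (nat_lit 156) (nat_lit 304) (nat_lit 0) (XT.nd (nat_lit 78) (nat_lit 228) (nat_lit 0) (XT.lf (nat_lit 0) (nat_lit 87710897778) (nat_lit 304) (nat_lit 9666697854) (nat_lit 76) (nat_lit 8320803371) (nat_lit 40) (nat_lit 5) (nat_lit 44) (nat_lit 5) (nat_lit 41) (nat_lit 5) (nat_lit 317) (nat_lit 292) (nat_lit 111)) (XT.lf (nat_lit 0) (nat_lit 36276512433) (nat_lit 228) (nat_lit 66986227093) (nat_lit 304) (nat_lit 5907390107) (nat_lit 37) (nat_lit 5) (nat_lit 40) (nat_lit 5) (nat_lit 41) (nat_lit 5) (nat_lit 318) (nat_lit 292) (nat_lit 110))) (XT.nd (nat_lit 78) (nat_lit 228) (nat_lit 0) (XT.lf (nat_lit 0) (nat_lit 6725728626) (nat_lit 304) (nat_lit 28063889959) (nat_lit 76) (nat_lit 78012244537) (nat_lit 36)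 (nat_lit 5) (nat_lit 40) (nat_lit 5) (nat_lit 37) (nat_lit 5) (nat_lit 319) (nat_lit 292) (nat_lit 109)) (XT.lf (nat_lit 0) (nat_lit 19535126894) (nat_lit 228) (nat_lit 561376625) (nat_lit 304) (nat_lit 96498612703) (nat_lit 33) (nat_lit 5) (nat_lit 36) (nat_lit 5) (nat_lit 37) (nat_lit 5) (nat_lit 320) (nat_lit 292) (nat_lit 108)))) (XT.nd (nat_lit 156) (nat_lit 228) (nat_lit 0) (XT.nd (nat_lit 78) (nat_lit 0) (nat_lit 0) (XT.lf (nat_lit 0) (nat_lit 35170778487) (nat_lit 304) (nat_lit 50626617004) (nat_lit 76) (nat_lit 34728889776) (nat_lit 33) (nat_lit 5) (nat_lit 37) (nat_lit 5) (nat_lit 34) (nat_lit 5) (nat_lit 321) (nat_lit 292) (nat_lit 107)) (XT.lf (nat_lit 0) (nat_lit 51007532299) (nat_lit 304) (nat_lit 1881362601) (nat_lit 76) (nat_lit 71764680902) (nat_lit 33) (nat_lit 5) (nat_lit 37) (nat_lit 5) (nat_lit 34) (nat_lit 5) (nat_lit 322) (nat_lit 292) (nat_lit 106))) (XT.nd (nat_lit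 78) (nat_lit 0) (nat_lit 0) (XT.lf (nat_lit 0) (nat_lit 50930699114) (nat_lit 228) (nat_lit 17500178682) (nat_lit 304) (nat_lit 60516616595) (nat_lit 30) (nat_lit 5) (nat_lit 33) (nat_lit 5) (nat_lit 34) (nat_lit 5) (nat_lit 323) (nat_lit 292) (nat_lit 105)) (XT.lf (nat_lit 0) (nat_lit 87064282894) (nat_lit 304) (nat_lit 27313839756) (nat_lit 76) (nat_lit 19061042814) (nat_lit 30) (nat_lit 5) (nat_lit 34) (nat_lit 5) (nat_lit 31) (nat_lit 5) (nat_lit 324) (nat_lit 292) (nat_lit 104))))) (XT.nd (nat_lit 312) (nat_lit 304) (nat_lit 0) (XT.nd (nat_lit 156) (nat_lit 304) (nat_lit 0) (XT.nd (nat_lit 78) (nat_lit 0) (nat_lit 0) (XT.lf (nat_lit 0) (nat_lit 26484505776) (nat_lit 152) (nat_lit 80844849584) (nat_lit 228) (nat_lit 30791065992) (nat_lit 28) (nat_lit 5) (nat_lit 30) (nat_lit 5) (nat_lit 31) (nat_lit 5) (nat_lit 325) (nat_lit 292) (nat_lit 103)) (XT.lf (nat_lit 0) (nat_lit 83920512951)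 (nat_lit 152) (nat_lit 45149363387) (nat_lit 228) (nat_lit 13942755014) (nat_lit 28) (nat_lit 5) (nat_lit 30) (nat_lit 5) (nat_lit 31) (nat_lit 5) (nat_lit 326) (nat_lit 292) (nat_lit 102))) (XT.nd (nat_lit 78) (nat_lit 228) (nat_lit 0) (XT.lf (nat_lit 0) (nat_lit 3627645938) (nat_lit 228) (nat_lit 3980166023) (nat_lit 76) (nat_lit 140538733391) (nat_lit 27) (nat_lit 5) (nat_lit 30) (nat_lit 5) (nat_lit 28) (nat_lit 5) (nat_lit 327) (nat_lit 292) (nat_lit 101)) (XT.lf (nat_lit 0) (nat_lit 22987694742) (nat_lit 304) (nat_lit 98564553747) (nat_lit 76) (nat_lit 31904494202) (nat_lit 24) (nat_lit 5) (nat_lit 28) (nat_lit 5) (nat_lit 25) (nat_lit 5) (nat_lit 328) (nat_lit 292) (nat_lit 100)))) (XT.nd (nat_lit 156) (nat_lit 152) (nat_lit 0) (XT.nd (nat_lit 78) (nat_lit 152) (nat_lit 0) (XT.lf (nat_lit 0) (nat_lit 43508632469) (nat_lit 304) (nat_lit 42309060111) (nat_lit 76) (nat_lit 73205113867)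 (nat_lit 24) (nat_lit 5) (nat_lit 28) (nat_lit 5) (nat_lit 25) (nat_lit 5) (nat_lit 329) (nat_lit 292) (nat_lit 99)) (XT.lf (nat_lit 0) (nat_lit 17312850095) (nat_lit 152) (nat_lit 48012742619) (nat_lit 228) (nat_lit 99528082727) (nat_lit 22) (nat_lit 5) (nat_lit 24) (nat_lit 5) (nat_lit 25) (nat_lit 5) (nat_lit 330) (nat_lit 292) (nat_lit 98))) (XT.nd (nat_lit 78) (nat_lit 152) (nat_lit 0) (XT.lf (nat_lit 0) (nat_lit 81384261107) (nat_lit 152) (nat_lit 7565346006) (nat_lit 228) (nat_lit 81990671258) (nat_lit 22) (nat_lit 5) (nat_lit 24) (nat_lit 5) (nat_lit 25) (nat_lit 5) (nat_lit 331) (nat_lit 292) (nat_lit 97)) (XT.nd (nat_lit 78) (nat_lit 152) (nat_lit 0) (XT.lf (nat_lit 0) (nat_lit 114299472694) (nat_lit 228) (nat_lit 29217385625) (nat_lit 76) (nat_lit 33787121361) (nat_lit 22) (nat_lit 5) (nat_lit 25) (nat_lit 5) (nat_lit 23) (nat_lit 5) (nat_lit 332) (nat_lit 292) (nat_lit 96))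 (XT.lf (nat_lit 0) (nat_lit 35138363536) (nat_lit 152) (nat_lit 106450807593) (nat_lit 228) (nat_lit 42363078664) (nat_lit 20) (nat_lit 5) (nat_lit 22) (nat_lit 5) (nat_lit 23) (nat_lit 5) (nat_lit 333) (nat_lit 292) (nat_lit 95))))))) (XT.nd (nat_lit 34710) (nat_lit 0) (nat_lit 3268) (XT.nd (nat_lit 34320) (nat_lit 0) (nat_lit 3648) (XT.nd (nat_lit 156) (nat_lit 152) (nat_lit 0) (XT.nd (nat_lit 78) (nat_lit 76) (nat_lit 0) (XT.lf (nat_lit 0) (nat_lit 103725829821) (nat_lit 152) (nat_lit 67012051512) (nat_lit 228) (nat_lit 20170326422) (nat_lit 20) (nat_lit 5) (nat_lit 22) (nat_lit 5) (nat_lit 23) (nat_lit 5) (nat_lit 334) (nat_lit 292) (nat_lit 94)) (XT.lf (nat_lit 0) (nat_lit 3031542575) (nat_lit 228) (nat_lit 22518615624) (nat_lit 76) (nat_lit 172659374786) (nat_lit 19) (nat_lit 5) (nat_lit 22) (nat_lit 5) (nat_lit 20) (nat_lit 5) (nat_lit 335) (nat_lit 292) (nat_lit 93))) (XT.nd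 (nat_lit 78) (nat_lit 0) (nat_lit 0) (XT.lf (nat_lit 0) (nat_lit 27740079611) (nat_lit 228) (nat_lit 159584460843) (nat_lit 76) (nat_lit 18483630068) (nat_lit 17) (nat_lit 5) (nat_lit 20) (nat_lit 5) (nat_lit 18) (nat_lit 5) (nat_lit 336) (nat_lit 292) (nat_lit 92)) (XT.lf (nat_lit 0) (nat_lit 54490256064) (nat_lit 228) (nat_lit 95008237740) (nat_lit 76) (nat_lit 64247936068) (nat_lit 17) (nat_lit 5) (nat_lit 20) (nat_lit 5) (nat_lit 18) (nat_lit 5) (nat_lit 337) (nat_lit 292) (nat_lit 91)))) (XT.nd (nat_lit 156) (nat_lit 0) (nat_lit 0) (XT.nd (nat_lit 78) (nat_lit 0) (nat_lit 0) (XT.lf (nat_lit 0) (nat_lit 3571273025) (nat_lit 0) (nat_lit 3571273025) (nat_lit 684) (nat_lit 20170126603) (nat_lit 65) (nat_lit 5) (nat_lit 65) (nat_lit 3) (nat_lit 74) (nat_lit 3) (nat_lit 293) (nat_lit 293) (nat_lit 134)) (XT.lf (nat_lit 0) (nat_lit 14917392138) (nat_lit 684) (nat_lit 25228314202) (nat_lit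 760) (nat_lit 15831434900) (nat_lit 65) (nat_lit 5) (nat_lit 74) (nat_lit 3) (nat_lit 75) (nat_lit 5) (nat_lit 294) (nat_lit 293) (nat_lit 133))) (XT.nd (nat_lit 78) (nat_lit 0) (nat_lit 76) (XT.lf (nat_lit 0) (nat_lit 15697138827) (nat_lit 684) (nat_lit 1978908828) (nat_lit 760) (nat_lit 39714692792) (nat_lit 65) (nat_lit 5) (nat_lit 74) (nat_lit 3) (nat_lit 75) (nat_lit 5) (nat_lit 295) (nat_lit 293) (nat_lit 132)) (XT.nd (nat_lit 78) (nat_lit 0) (nat_lit 0) (XT.lf (nat_lit 0) (nat_lit 16974806512) (nat_lit 684) (nat_lit 35781315228) (nat_lit 760) (nat_lit 6095956014) (nat_lit 66) (nat_lit 5) (nat_lit 75) (nat_lit 5) (nat_lit 76) (nat_lit 5) (nat_lit 296) (nat_lit 293) (nat_lit 131)) (XT.lf (nat_lit 0) (nat_lit 18639046978) (nat_lit 684) (nat_lit 11234244116) (nat_lit 760) (nat_lit 30497060951) (nat_lit 66) (nat_lit 5) (nat_lit 75) (nat_lit 5) (nat_lit 76) (nat_lit 5) (nat_lit 297)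 (nat_lit 293) (nat_lit 130)))))) (XT.nd (nat_lit 312) (nat_lit 456) (nat_lit 0) (XT.nd (nat_lit 156) (nat_lit 0) (nat_lit 76) (XT.nd (nat_lit 78) (nat_lit 0) (nat_lit 76) (XT.lf (nat_lit 76) (nat_lit 15020218590) (nat_lit 0) (nat_lit 5599698050) (nat_lit 760) (nat_lit 41332956923) (nat_lit 67) (nat_lit 5) (nat_lit 66) (nat_lit 5) (nat_lit 76) (nat_lit 5) (nat_lit 298) (nat_lit 293) (nat_lit 129)) (XT.lf (nat_lit 0) (nat_lit 23202663085) (nat_lit 684) (nat_lit 20941949665) (nat_lit 760) (nat_lit 19444770907) (nat_lit 67) (nat_lit 5) (nat_lit 76) (nat_lit 5) (nat_lit 77) (nat_lit 5) (nat_lit 299) (nat_lit 293) (nat_lit 128))) (XT.nd (nat_lit 78) (nat_lit 0) (nat_lit 76) (XT.lf (nat_lit 76) (nat_lit 6462618989) (nat_lit 0) (nat_lit 19643631681) (nat_lit 760) (nat_lit 39191887361) (nat_lit 68) (nat_lit 5) (nat_lit 67) (nat_lit 5) (nat_lit 77) (nat_lit 5) (nat_lit 300) (nat_lit 293) (nat_lit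 127)) (XT.lf (nat_lit 0) (nat_lit 29609503240) (nat_lit 684) (nat_lit 31211662933) (nat_lit 760) (nat_lit 6248443445) (nat_lit 68) (nat_lit 5) (nat_lit 77) (nat_lit 5) (nat_lit 78) (nat_lit 5) (nat_lit 301) (nat_lit 293) (nat_lit 126)))) (XT.nd (nat_lit 156) (nat_lit 608) (nat_lit 0) (XT.nd (nat_lit 78) (nat_lit 0) (nat_lit 0) (XT.lf (nat_lit 0) (nat_lit 33609036746) (nat_lit 684) (nat_lit 2529366269) (nat_lit 760) (nat_lit 32775199453) (nat_lit 68) (nat_lit 5) (nat_lit 77) (nat_lit 5) (nat_lit 78) (nat_lit 5) (nat_lit 302) (nat_lit 293) (nat_lit 125)) (XT.lf (nat_lit 76) (nat_lit 28498483731) (nat_lit 0) (nat_lit 9754139212) (nat_lit 760) (nat_lit 32574971641) (nat_lit 69) (nat_lit 5) (nat_lit 68) (nat_lit 5) (nat_lit 78) (nat_lit 5) (nat_lit 303) (nat_lit 293) (nat_lit 124))) (XT.nd (nat_lit 78) (nat_lit 684) (nat_lit 0) (XT.lf (nat_lit 0) (nat_lit 43451334008) (nat_lit 684) (nat_lit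 11951273301) (nat_lit 76) (nat_lit 17418534980) (nat_lit 69) (nat_lit 5) (nat_lit 78) (nat_lit 5) (nat_lit 70) (nat_lit 5) (nat_lit 304) (nat_lit 293) (nat_lit 123)) (XT.nd (nat_lit 78) (nat_lit 0) (nat_lit 0) (XT.lf (nat_lit 0) (nat_lit 20439036427) (nat_lit 684) (nat_lit 28949166207) (nat_lit 760) (nat_lit 25502256754) (nat_lit 60) (nat_lit 5) (nat_lit 69) (nat_lit 5) (nat_lit 70) (nat_lit 5) (nat_lit 305) (nat_lit 293) (nat_lit 122)) (XT.lf (nat_lit 0) (nat_lit 54863101448) (nat_lit 684) (nat_lit 960448389) (nat_lit 760) (nat_lit 21229613705) (nat_lit 60) (nat_lit 5) (nat_lit 69) (nat_lit 5) (nat_lit 70) (nat_lit 5) (nat_lit 306) (nat_lit 293) (nat_lit 121))))))))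
noncomputable def xc241 : XT := (XT.nd (nat_lit 1326) (nat_lit 1064) (nat_lit 0) (XT.nd (nat_lit 624) (nat_lit 760) (nat_lit 0) (XT.nd (nat_lit 312) (nat_lit 608) (nat_lit 0) (XT.nd (nat_lit 156) (nat_lit 380) (nat_lit 0) (XT.nd (nat_lit 78) (nat_lit 0) (nat_lit 0) (XT.lf (nat_lit 0) (nat_lit 11611481088) (nat_lit 304) (nat_lit 51593579472) (nat_lit 380) (nat_lit 16087725356) (nat_lit 56) (nat_lit 5) (nat_lit 60) (nat_lit 5) (nat_lit 61) (nat_lit 5) (nat_lit 307) (nat_lit 293) (nat_lit 120)) (XT.lf (nat_lit 0) (nat_lit 47856546256) (nat_lit 304) (nat_lit 23489687417) (nat_lit 380) (nat_lit 10278629075) (nat_lit 56) (nat_lit 5) (nat_lit 60) (nat_lit 5) (nat_lit 61) (nat_lit 5) (nat_lit 308) (nat_lit 293) (nat_lit 119))) (XT.nd (nat_lit 78) (nat_lit 76) (nat_lit 0) (XT.lf (nat_lit 0) (nat_lit 1803378434) (nat_lit 304) (nat_lit 78212552689) (nat_lit 380) (nat_lit 4051541573) (nat_lit 52)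 (nat_lit 5) (nat_lit 56) (nat_lit 5) (nat_lit 57) (nat_lit 5) (nat_lit 309) (nat_lit 293) (nat_lit 118)) (XT.lf (nat_lit 0) (nat_lit 3372977337) (nat_lit 380) (nat_lit 46711576332) (nat_lit 76) (nat_lit 36497436746) (nat_lit 51) (nat_lit 5) (nat_lit 56) (nat_lit 5) (nat_lit 52) (nat_lit 5) (nat_lit 310) (nat_lit 293) (nat_lit 117)))) (XT.nd (nat_lit 156) (nat_lit 304) (nat_lit 0) (XT.nd (nat_lit 78) (nat_lit 304) (nat_lit 0) (XT.lf (nat_lit 0) (nat_lit 11031933947) (nat_lit 380) (nat_lit 9448513774) (nat_lit 76) (nat_lit 68738499066) (nat_lit 51) (nat_lit 5) (nat_lit 56) (nat_lit 5) (nat_lit 52) (nat_lit 5) (nat_lit 311) (nat_lit 293) (nat_lit 116)) (XT.lf (nat_lit 0) (nat_lit 19725303399) (nat_lit 380) (nat_lit 61478923525) (nat_lit 76) (nat_lit 10750952905) (nat_lit 47) (nat_lit 5) (nat_lit 52) (nat_lit 5) (nat_lit 48) (nat_lit 5) (nat_lit 312) (nat_lit 293) (nat_lit 115))) (XT.nd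 (nat_lit 78) (nat_lit 304) (nat_lit 0) (XT.lf (nat_lit 0) (nat_lit 29351143084) (nat_lit 380) (nat_lit 22433947319) (nat_lit 76) (nat_lit 43018246036) (nat_lit 47) (nat_lit 5) (nat_lit 52) (nat_lit 5) (nat_lit 48) (nat_lit 5) (nat_lit 313) (nat_lit 293) (nat_lit 114)) (XT.lf (nat_lit 0) (nat_lit 19176422736) (nat_lit 304) (nat_lit 20580695779) (nat_lit 380) (nat_lit 58021842084) (nat_lit 43) (nat_lit 5) (nat_lit 47) (nat_lit 5) (nat_lit 48) (nat_lit 5) (nat_lit 314) (nat_lit 293) (nat_lit 113))))) (XT.nd (nat_lit 312) (nat_lit 532) (nat_lit 0) (XT.nd (nat_lit 156) (nat_lit 0) (nat_lit 0) (XT.nd (nat_lit 78) (nat_lit 228) (nat_lit 0) (XT.lf (nat_lit 0) (nat_lit 51259237711) (nat_lit 380) (nat_lit 37435293435) (nat_lit 76) (nat_lit 12180044388) (nat_lit 43) (nat_lit 5) (nat_lit 48) (nat_lit 5) (nat_lit 44) (nat_lit 5) (nat_lit 315) (nat_lit 293) (nat_lit 112)) (XT.lf (nat_lit 0) (nat_lit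 5632595593) (nat_lit 228) (nat_lit 58128683730) (nat_lit 304) (nat_lit 40342452800) (nat_lit 40) (nat_lit 5) (nat_lit 43) (nat_lit 5) (nat_lit 44) (nat_lit 5) (nat_lit 316) (nat_lit 293) (nat_lit 111))) (XT.nd (nat_lit 78) (nat_lit 0) (nat_lit 0) (XT.lf (nat_lit 0) (nat_lit 52152950324) (nat_lit 228) (nat_lit 25368959978) (nat_lit 304) (nat_lit 29940763522) (nat_lit 40) (nat_lit 5) (nat_lit 43) (nat_lit 5) (nat_lit 44) (nat_lit 5) (nat_lit 317) (nat_lit 293) (nat_lit 110)) (XT.lf (nat_lit 0) (nat_lit 92111061603) (nat_lit 304) (nat_lit 10131796830) (nat_lit 76) (nat_lit 8739681309) (nat_lit 40) (nat_lit 5) (nat_lit 44) (nat_lit 5) (nat_lit 41) (nat_lit 5) (nat_lit 318) (nat_lit 293) (nat_lit 109)))) (XT.nd (nat_lit 156) (nat_lit 228) (nat_lit 0) (XT.nd (nat_lit 78) (nat_lit 76) (nat_lit 0) (XT.lf (nat_lit 0) (nat_lit 38108279844) (nat_lit 228) (nat_lit 70331799577) (nat_lit 304) (nat_lit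 6187800582) (nat_lit 37) (nat_lit 5) (nat_lit 40) (nat_lit 5) (nat_lit 41) (nat_lit 5) (nat_lit 319) (nat_lit 293) (nat_lit 108)) (XT.lf (nat_lit 0) (nat_lit 7075805769) (nat_lit 304) (nat_lit 29449499363) (nat_lit 76) (nat_lit 81915919918) (nat_lit 36) (nat_lit 5) (nat_lit 40) (nat_lit 5) (nat_lit 37) (nat_lit 5) (nat_lit 320) (nat_lit 293) (nat_lit 107))) (XT.nd (nat_lit 78) (nat_lit 0) (nat_lit 0) (XT.lf (nat_lit 0) (nat_lit 20529184703) (nat_lit 228) (nat_lit 585548129) (nat_lit 304) (nat_lit 101309429288) (nat_lit 33) (nat_lit 5) (nat_lit 36) (nat_lit 5) (nat_lit 37) (nat_lit 5) (nat_lit 321) (nat_lit 293) (nat_lit 106)) (XT.nd (nat_lit 78) (nat_lit 0) (nat_lit 0) (XT.lf (nat_lit 0) (nat_lit 36942141206) (nat_lit 304) (nat_lit 53140852112) (nat_lit 76) (nat_lit 36468927207) (nat_lit 33) (nat_lit 5) (nat_lit 37) (nat_lit 5) (nat_lit 34) (nat_lit 5) (nat_lit 322) (nat_lit 293) (nat_lit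 105)) (XT.lf (nat_lit 0) (nat_lit 53570122051) (nat_lit 304) (nat_lit 1959149071) (nat_lit 76) (nat_lit 75356336796) (nat_lit 33) (nat_lit 5) (nat_lit 37) (nat_lit 5) (nat_lit 34) (nat_lit 5) (nat_lit 323) (nat_lit 293) (nat_lit 104))))))) (XT.nd (nat_lit 702) (nat_lit 228) (nat_lit 0) (XT.nd (nat_lit 312) (nat_lit 456) (nat_lit 0) (XT.nd (nat_lit 156) (nat_lit 152) (nat_lit 0) (XT.nd (nat_lit 78) (nat_lit 0) (nat_lit 0) (XT.lf (nat_lit 0) (nat_lit 53493253121) (nat_lit 228) (nat_lit 18371050226) (nat_lit 304) (nat_lit 63529937379) (nat_lit 30) (nat_lit 5) (nat_lit 33) (nat_lit 5) (nat_lit 34) (nat_lit 5) (nat_lit 324) (nat_lit 293) (nat_lit 103)) (XT.lf (nat_lit 0) (nat_lit 91428874428) (nat_lit 304) (nat_lit 28663738564) (nat_lit 76) (nat_lit 20017909210) (nat_lit 30) (nat_lit 5) (nat_lit 34) (nat_lit 5) (nat_lit 31) (nat_lit 5) (nat_lit 325) (nat_lit 293) (nat_lit 102))) (XT.nd (nat_lit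 78) (nat_lit 0) (nat_lit 0) (XT.lf (nat_lit 0) (nat_lit 27824269517) (nat_lit 152) (nat_lit 84882631819) (nat_lit 228) (nat_lit 32318956062) (nat_lit 28) (nat_lit 5) (nat_lit 30) (nat_lit 5) (nat_lit 31) (nat_lit 5) (nat_lit 326) (nat_lit 293) (nat_lit 101)) (XT.lf (nat_lit 0) (nat_lit 88131337124) (nat_lit 152) (nat_lit 47402583705) (nat_lit 228) (nat_lit 14628784927) (nat_lit 28) (nat_lit 5) (nat_lit 30) (nat_lit 5) (nat_lit 31) (nat_lit 5) (nat_lit 327) (nat_lit 293) (nat_lit 100)))) (XT.nd (nat_lit 156) (nat_lit 152) (nat_lit 0) (XT.nd (nat_lit 78) (nat_lit 228) (nat_lit 0) (XT.lf (nat_lit 0) (nat_lit 3819268537) (nat_lit 228) (nat_lit 4164715024) (nat_lit 76) (nat_lit 147569350167) (nat_lit 27) (nat_lit 5) (nat_lit 30) (nat_lit 5) (nat_lit 28) (nat_lit 5) (nat_lit 328) (nat_lit 293) (nat_lit 99)) (XT.lf (nat_lit 0) (nat_lit 24147120632) (nat_lit 304) (nat_lit 103478097389) (nat_lit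 76) (nat_lit 33503834151) (nat_lit 24) (nat_lit 5) (nat_lit 28) (nat_lit 5) (nat_lit 25) (nat_lit 5) (nat_lit 329) (nat_lit 293) (nat_lit 98))) (XT.nd (nat_lit 78) (nat_lit 152) (nat_lit 0) (XT.lf (nat_lit 0) (nat_lit 45693627095) (nat_lit 304) (nat_lit 44410528311) (nat_lit 76) (nat_lit 76869288836) (nat_lit 24) (nat_lit 5) (nat_lit 28) (nat_lit 5) (nat_lit 25) (nat_lit 5) (nat_lit 330) (nat_lit 293) (nat_lit 97)) (XT.nd (nat_lit 78) (nat_lit 0) (nat_lit 0) (XT.lf (nat_lit 0) (nat_lit 18192251843) (nat_lit 152) (nat_lit 50408942949) (nat_lit 228) (nat_lit 104494675084) (nat_lit 22) (nat_lit 5) (nat_lit 24) (nat_lit 5) (nat_lit 25) (nat_lit 5) (nat_lit 331) (nat_lit 293) (nat_lit 96)) (XT.lf (nat_lit 0) (nat_lit 85466578204) (nat_lit 152) (nat_lit 7939387781) (nat_lit 228) (nat_lit 86080860269) (nat_lit 22) (nat_lit 5) (nat_lit 24) (nat_lit 5) (nat_lit 25) (nat_lit 5) (nat_lit 332)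 (nat_lit 293) (nat_lit 95)))))) (XT.nd (nat_lit 34476) (nat_lit 0) (nat_lit 3496) (XT.nd (nat_lit 156) (nat_lit 76) (nat_lit 0) (XT.nd (nat_lit 78) (nat_lit 152) (nat_lit 0) (XT.lf (nat_lit 0) (nat_lit 120022964889) (nat_lit 228) (nat_lit 30665393854) (nat_lit 76) (nat_lit 35480372936) (nat_lit 22) (nat_lit 5) (nat_lit 25) (nat_lit 5) (nat_lit 23) (nat_lit 5) (nat_lit 333) (nat_lit 293) (nat_lit 94)) (XT.lf (nat_lit 0) (nat_lit 36907935329) (nat_lit 152) (nat_lit 111769004829) (nat_lit 228) (nat_lit 44472486546) (nat_lit 20) (nat_lit 5) (nat_lit 22) (nat_lit 5) (nat_lit 23) (nat_lit 5) (nat_lit 334) (nat_lit 293) (nat_lit 93))) (XT.nd (nat_lit 78) (nat_lit 76) (nat_lit 0) (XT.lf (nat_lit 0) (nat_lit 108924172375) (nat_lit 152) (nat_lit 70358517761) (nat_lit 228) (nat_lit 21170513171) (nat_lit 20) (nat_lit 5) (nat_lit 22) (nat_lit 5) (nat_lit 23) (nat_lit 5) (nat_lit 335) (nat_lit 293)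 (nat_lit 92)) (XT.lf (nat_lit 0) (nat_lit 3190798727) (nat_lit 228) (nat_lit 23632797975) (nat_lit 76) (nat_lit 181296011657) (nat_lit 19) (nat_lit 5) (nat_lit 22) (nat_lit 5) (nat_lit 20) (nat_lit 5) (nat_lit 336) (nat_lit 293) (nat_lit 91)))) (XT.nd (nat_lit 156) (nat_lit 0) (nat_lit 0) (XT.nd (nat_lit 78) (nat_lit 0) (nat_lit 0) (XT.lf (nat_lit 0) (nat_lit 3759595404) (nat_lit 0) (nat_lit 3759595404) (nat_lit 684) (nat_lit 21158061777) (nat_lit 65) (nat_lit 5) (nat_lit 65) (nat_lit 3) (nat_lit 74) (nat_lit 3) (nat_lit 294) (nat_lit 294) (nat_lit 132)) (XT.lf (nat_lit 0) (nat_lit 15700147639) (nat_lit 684) (nat_lit 26468844597) (nat_lit 760) (nat_lit 16605013526) (nat_lit 65) (nat_lit 5) (nat_lit 74) (nat_lit 3) (nat_lit 75) (nat_lit 5) (nat_lit 295) (nat_lit 294) (nat_lit 131))) (XT.nd (nat_lit 78) (nat_lit 0) (nat_lit 76) (XT.lf (nat_lit 0) (nat_lit 16517125192) (nat_lit 684) (nat_lit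 2057963493) (nat_lit 760) (nat_lit 41683291128) (nat_lit 65) (nat_lit 5) (nat_lit 74) (nat_lit 3) (nat_lit 75) (nat_lit 5) (nat_lit 296) (nat_lit 294) (nat_lit 130)) (XT.nd (nat_lit 78) (nat_lit 0) (nat_lit 0) (XT.lf (nat_lit 0) (nat_lit 17857087393) (nat_lit 684) (nat_lit 37548766883) (nat_lit 760) (nat_lit 6387015875) (nat_lit 66) (nat_lit 5) (nat_lit 75) (nat_lit 5) (nat_lit 76) (nat_lit 5) (nat_lit 297) (nat_lit 294) (nat_lit 129)) (XT.lf (nat_lit 0) (nat_lit 19602942714) (nat_lit 684) (nat_lit 11775371458) (nat_lit 760) (nat_lit 32008830246) (nat_lit 66) (nat_lit 5) (nat_lit 75) (nat_lit 5) (nat_lit 76) (nat_lit 5) (nat_lit 298) (nat_lit 294) (nat_lit 128))))))))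
noncomputable def xc242 : XT := (XT.nd (nat_lit 1326) (nat_lit 1596) (nat_lit 0) (XT.nd (nat_lit 624) (nat_lit 1292) (nat_lit 0) (XT.nd (nat_lit 312) (nat_lit 456) (nat_lit 0) (XT.nd (nat_lit 156) (nat_lit 0) (nat_lit 76) (XT.nd (nat_lit 78) (nat_lit 0) (nat_lit 76) (XT.lf (nat_lit 76) (nat_lit 15791482369) (nat_lit 0) (nat_lit 5890168579) (nat_lit 760) (nat_lit 43367207408) (nat_lit 67) (nat_lit 5) (nat_lit 66) (nat_lit 5) (nat_lit 76) (nat_lit 5) (nat_lit 299) (nat_lit 294) (nat_lit 127)) (XT.lf (nat_lit 0) (nat_lit 24391915065) (nat_lit 684) (nat_lit 21968022915) (nat_lit 760) (nat_lit 20407342766) (nat_lit 67) (nat_lit 5) (nat_lit 76) (nat_lit 5) (nat_lit 77) (nat_lit 5) (nat_lit 300) (nat_lit 294) (nat_lit 126))) (XT.nd (nat_lit 78) (nat_lit 0) (nat_lit 76) (XT.lf (nat_lit 76) (nat_lit 6806435071) (nat_lit 0) (nat_lit 20633183299) (nat_lit 760) (nat_lit 41121913180) (nat_lit 68)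 (nat_lit 5) (nat_lit 67) (nat_lit 5) (nat_lit 77) (nat_lit 5) (nat_lit 301) (nat_lit 294) (nat_lit 125)) (XT.lf (nat_lit 0) (nat_lit 31116588021) (nat_lit 684) (nat_lit 32750995050) (nat_lit 760) (nat_lit 6554071192) (nat_lit 68) (nat_lit 5) (nat_lit 77) (nat_lit 5) (nat_lit 78) (nat_lit 5) (nat_lit 302) (nat_lit 294) (nat_lit 124)))) (XT.nd (nat_lit 156) (nat_lit 608) (nat_lit 0) (XT.nd (nat_lit 78) (nat_lit 0) (nat_lit 0) (XT.lf (nat_lit 0) (nat_lit 35314831078) (nat_lit 684) (nat_lit 2635595506) (nat_lit 760) (nat_lit 34407488544) (nat_lit 68) (nat_lit 5) (nat_lit 77) (nat_lit 5) (nat_lit 78) (nat_lit 5) (nat_lit 303) (nat_lit 294) (nat_lit 123)) (XT.lf (nat_lit 76) (nat_lit 29943320556) (nat_lit 0) (nat_lit 10246380135) (nat_lit 760) (nat_lit 34177955731) (nat_lit 69) (nat_lit 5) (nat_lit 68) (nat_lit 5) (nat_lit 78) (nat_lit 5) (nat_lit 304) (nat_lit 294) (nat_lit 122))) (XT.nd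 (nat_lit 78) (nat_lit 684) (nat_lit 0) (XT.lf (nat_lit 0) (nat_lit 45647115769) (nat_lit 684) (nat_lit 12528549998) (nat_lit 76) (nat_lit 18285281875) (nat_lit 69) (nat_lit 5) (nat_lit 78) (nat_lit 5) (nat_lit 70) (nat_lit 5) (nat_lit 305) (nat_lit 294) (nat_lit 121)) (XT.lf (nat_lit 0) (nat_lit 21480948008) (nat_lit 684) (nat_lit 30399085967) (nat_lit 760) (nat_lit 26753740646) (nat_lit 60) (nat_lit 5) (nat_lit 69) (nat_lit 5) (nat_lit 70) (nat_lit 5) (nat_lit 306) (nat_lit 294) (nat_lit 120))))) (XT.nd (nat_lit 312) (nat_lit 684) (nat_lit 0) (XT.nd (nat_lit 156) (nat_lit 304) (nat_lit 0) (XT.nd (nat_lit 78) (nat_lit 304) (nat_lit 0) (XT.lf (nat_lit 0) (nat_lit 57625265816) (nat_lit 684) (nat_lit 1010815047) (nat_lit 760) (nat_lit 22268590633) (nat_lit 60) (nat_lit 5) (nat_lit 69) (nat_lit 5) (nat_lit 70) (nat_lit 5) (nat_lit 307) (nat_lit 294) (nat_lit 119)) (XT.lf (nat_lit 0) (nat_lit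 12211925518) (nat_lit 304) (nat_lit 54174000143) (nat_lit 380) (nat_lit 16870390329) (nat_lit 56) (nat_lit 5) (nat_lit 60) (nat_lit 5) (nat_lit 61) (nat_lit 5) (nat_lit 308) (nat_lit 294) (nat_lit 118))) (XT.nd (nat_lit 78) (nat_lit 304) (nat_lit 0) (XT.lf (nat_lit 0) (nat_lit 50268297736) (nat_lit 304) (nat_lit 24664878166) (nat_lit 380) (nat_lit 10771873583) (nat_lit 56) (nat_lit 5) (nat_lit 60) (nat_lit 5) (nat_lit 61) (nat_lit 5) (nat_lit 309) (nat_lit 294) (nat_lit 117)) (XT.lf (nat_lit 0) (nat_lit 1913216508) (nat_lit 304) (nat_lit 82122503516) (nat_lit 380) (nat_lit 4234105381) (nat_lit 52) (nat_lit 5) (nat_lit 56) (nat_lit 5) (nat_lit 57) (nat_lit 5) (nat_lit 310) (nat_lit 294) (nat_lit 116)))) (XT.nd (nat_lit 156) (nat_lit 608) (nat_lit 0) (XT.nd (nat_lit 78) (nat_lit 0) (nat_lit 0) (XT.lf (nat_lit 0) (nat_lit 3560076414) (nat_lit 380) (nat_lit 49027747896) (nat_lit 76) (nat_lit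 38322278436) (nat_lit 51) (nat_lit 5) (nat_lit 56) (nat_lit 5) (nat_lit 52) (nat_lit 5) (nat_lit 311) (nat_lit 294) (nat_lit 115)) (XT.lf (nat_lit 0) (nat_lit 11601102273) (nat_lit 380) (nat_lit 9902456366) (nat_lit 76) (nat_lit 72175395307) (nat_lit 51) (nat_lit 5) (nat_lit 56) (nat_lit 5) (nat_lit 52) (nat_lit 5) (nat_lit 312) (nat_lit 294) (nat_lit 114))) (XT.nd (nat_lit 78) (nat_lit 304) (nat_lit 0) (XT.lf (nat_lit 0) (nat_lit 20728605580) (nat_lit 380) (nat_lit 64533793320) (nat_lit 76) (nat_lit 11289629405) (nat_lit 47) (nat_lit 5) (nat_lit 52) (nat_lit 5) (nat_lit 48) (nat_lit 5) (nat_lit 313) (nat_lit 294) (nat_lit 113)) (XT.nd (nat_lit 78) (nat_lit 304) (nat_lit 0) (XT.lf (nat_lit 0) (nat_lit 30834925963) (nat_lit 380) (nat_lit 23537476703) (nat_lit 76) (nat_lit 45170233438) (nat_lit 47) (nat_lit 5) (nat_lit 52) (nat_lit 5) (nat_lit 48) (nat_lit 5) (nat_lit 314) (nat_lit 294)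 (nat_lit 112)) (XT.lf (nat_lit 0) (nat_lit 20153118823) (nat_lit 304) (nat_lit 21607587767) (nat_lit 380) (nat_lit 60906362221) (nat_lit 43) (nat_lit 5) (nat_lit 47) (nat_lit 5) (nat_lit 48) (nat_lit 5) (nat_lit 315) (nat_lit 294) (nat_lit 111))))))) (XT.nd (nat_lit 702) (nat_lit 836) (nat_lit 0) (XT.nd (nat_lit 312) (nat_lit 532) (nat_lit 0) (XT.nd (nat_lit 156) (nat_lit 0) (nat_lit 0) (XT.nd (nat_lit 78) (nat_lit 228) (nat_lit 0) (XT.lf (nat_lit 0) (nat_lit 53837214458) (nat_lit 380) (nat_lit 39289266379) (nat_lit 76) (nat_lit 12791022054) (nat_lit 43) (nat_lit 5) (nat_lit 48) (nat_lit 5) (nat_lit 44) (nat_lit 5) (nat_lit 316) (nat_lit 294) (nat_lit 110)) (XT.lf (nat_lit 0) (nat_lit 5931730137) (nat_lit 228) (nat_lit 61032186318) (nat_lit 304) (nat_lit 42344225351) (nat_lit 40) (nat_lit 5) (nat_lit 43) (nat_lit 5) (nat_lit 44) (nat_lit 5) (nat_lit 317) (nat_lit 294) (nat_lit 109)))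 (XT.nd (nat_lit 78) (nat_lit 0) (nat_lit 0) (XT.lf (nat_lit 0) (nat_lit 54777269045) (nat_lit 228) (nat_lit 26634615979) (nat_lit 304) (nat_lit 31423182566) (nat_lit 40) (nat_lit 5) (nat_lit 43) (nat_lit 5) (nat_lit 44) (nat_lit 5) (nat_lit 318) (nat_lit 294) (nat_lit 108)) (XT.lf (nat_lit 0) (nat_lit 96729874490) (nat_lit 304) (nat_lit 10621846157) (nat_lit 76) (nat_lit 9179239315) (nat_lit 40) (nat_lit 5) (nat_lit 44) (nat_lit 5) (nat_lit 41) (nat_lit 5) (nat_lit 319) (nat_lit 294) (nat_lit 107)))) (XT.nd (nat_lit 156) (nat_lit 228) (nat_lit 0) (XT.nd (nat_lit 78) (nat_lit 76) (nat_lit 0) (XT.lf (nat_lit 0) (nat_lit 40029967568) (nat_lit 228) (nat_lit 73844998289) (nat_lit 304) (nat_lit 6483622329) (nat_lit 37) (nat_lit 5) (nat_lit 40) (nat_lit 5) (nat_lit 41) (nat_lit 5) (nat_lit 320) (nat_lit 294) (nat_lit 106)) (XT.lf (nat_lit 0) (nat_lit 7442104640) (nat_lit 304) (nat_lit 30906024132)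 (nat_lit 76) (nat_lit 86014494284) (nat_lit 36) (nat_lit 5) (nat_lit 40) (nat_lit 5) (nat_lit 37) (nat_lit 5) (nat_lit 321) (nat_lit 294) (nat_lit 105))) (XT.nd (nat_lit 78) (nat_lit 0) (nat_lit 0) (XT.lf (nat_lit 0) (nat_lit 21571336875) (nat_lit 228) (nat_lit 611290544) (nat_lit 304) (nat_lit 106362098893) (nat_lit 33) (nat_lit 5) (nat_lit 36) (nat_lit 5) (nat_lit 37) (nat_lit 5) (nat_lit 322) (nat_lit 294) (nat_lit 104)) (XT.nd (nat_lit 78) (nat_lit 0) (nat_lit 0) (XT.lf (nat_lit 0) (nat_lit 38800879826) (nat_lit 304) (nat_lit 55782388376) (nat_lit 76) (nat_lit 38295632471) (nat_lit 33) (nat_lit 5) (nat_lit 37) (nat_lit 5) (nat_lit 34) (nat_lit 5) (nat_lit 323) (nat_lit 294) (nat_lit 103)) (XT.lf (nat_lit 0) (nat_lit 56259705830) (nat_lit 304) (nat_lit 2042338580) (nat_lit 76) (nat_lit 79127257354) (nat_lit 33) (nat_lit 5) (nat_lit 37) (nat_lit 5) (nat_lit 34) (nat_lit 5) (nat_lit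 324) (nat_lit 294) (nat_lit 102)))))) (XT.nd (nat_lit 312) (nat_lit 456) (nat_lit 0) (XT.nd (nat_lit 156) (nat_lit 152) (nat_lit 0) (XT.nd (nat_lit 78) (nat_lit 0) (nat_lit 0) (XT.lf (nat_lit 0) (nat_lit 56182445529) (nat_lit 228) (nat_lit 19285850003) (nat_lit 304) (nat_lit 66695087268) (nat_lit 30) (nat_lit 5) (nat_lit 33) (nat_lit 5) (nat_lit 34) (nat_lit 5) (nat_lit 325) (nat_lit 294) (nat_lit 101)) (XT.lf (nat_lit 0) (nat_lit 96010637776) (nat_lit 304) (nat_lit 30082600612) (nat_lit 76) (nat_lit 21022264312) (nat_lit 30) (nat_lit 5) (nat_lit 34) (nat_lit 5) (nat_lit 31) (nat_lit 5) (nat_lit 326) (nat_lit 294) (nat_lit 100))) (XT.nd (nat_lit 78) (nat_lit 0) (nat_lit 0) (XT.lf (nat_lit 0) (nat_lit 29229576826) (nat_lit 152) (nat_lit 89122717836) (nat_lit 228) (nat_lit 33924324973) (nat_lit 28) (nat_lit 5) (nat_lit 30) (nat_lit 5) (nat_lit 31) (nat_lit 5) (nat_lit 327) (nat_lit 294)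 (nat_lit 99)) (XT.lf (nat_lit 0) (nat_lit 92551326678) (nat_lit 152) (nat_lit 49768859963) (nat_lit 228) (nat_lit 15350149038) (nat_lit 28) (nat_lit 5) (nat_lit 30) (nat_lit 5) (nat_lit 31) (nat_lit 5) (nat_lit 328) (nat_lit 294) (nat_lit 98)))) (XT.nd (nat_lit 156) (nat_lit 152) (nat_lit 0) (XT.nd (nat_lit 78) (nat_lit 228) (nat_lit 0) (XT.lf (nat_lit 0) (nat_lit 4019520220) (nat_lit 228) (nat_lit 4359835764) (nat_lit 76) (nat_lit 154951155641) (nat_lit 27) (nat_lit 5) (nat_lit 30) (nat_lit 5) (nat_lit 28) (nat_lit 5) (nat_lit 329) (nat_lit 294) (nat_lit 97)) (XT.lf (nat_lit 0) (nat_lit 25363584284) (nat_lit 304) (nat_lit 108638683397) (nat_lit 76) (nat_lit 35182758502) (nat_lit 24) (nat_lit 5) (nat_lit 28) (nat_lit 5) (nat_lit 25) (nat_lit 5) (nat_lit 330) (nat_lit 294) (nat_lit 96))) (XT.nd (nat_lit 78) (nat_lit 152) (nat_lit 0) (XT.lf (nat_lit 0) (nat_lit 47986982375) (nat_lit 304)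 (nat_lit 46618370097) (nat_lit 76) (nat_lit 80716308176) (nat_lit 24) (nat_lit 5) (nat_lit 28) (nat_lit 5) (nat_lit 25) (nat_lit 5) (nat_lit 331) (nat_lit 294) (nat_lit 95)) (XT.nd (nat_lit 78) (nat_lit 0) (nat_lit 0) (XT.lf (nat_lit 0) (nat_lit 19114344474) (nat_lit 152) (nat_lit 52925365786) (nat_lit 228) (nat_lit 109710509265) (nat_lit 22) (nat_lit 5) (nat_lit 24) (nat_lit 5) (nat_lit 25) (nat_lit 5) (nat_lit 332) (nat_lit 294) (nat_lit 94)) (XT.lf (nat_lit 0) (nat_lit 89751792866) (nat_lit 152) (nat_lit 8332524494) (nat_lit 228) (nat_lit 90376427498) (nat_lit 22) (nat_lit 5) (nat_lit 24) (nat_lit 5) (nat_lit 25) (nat_lit 5) (nat_lit 333) (nat_lit 294) (nat_lit 93))))))))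
noncomputable def xc243 : XT := (XT.nd (nat_lit 35646) (nat_lit 0) (nat_lit 760) (XT.nd (nat_lit 34944) (nat_lit 0) (nat_lit 2736) (XT.nd (nat_lit 34632) (nat_lit 0) (nat_lit 3420) (XT.nd (nat_lit 34476) (nat_lit 0) (nat_lit 3420) (XT.nd (nat_lit 78) (nat_lit 152) (nat_lit 0) (XT.lf (nat_lit 0) (nat_lit 126031839719) (nat_lit 228) (nat_lit 32186998192) (nat_lit 76) (nat_lit 37257924922) (nat_lit 22) (nat_lit 5) (nat_lit 25) (nat_lit 5) (nat_lit 23) (nat_lit 5) (nat_lit 334) (nat_lit 294) (nat_lit 92)) (XT.lf (nat_lit 0) (nat_lit 38764809298) (nat_lit 152) (nat_lit 117353515712) (nat_lit 228) (nat_lit 46688177947) (nat_lit 20) (nat_lit 5) (nat_lit 22) (nat_lit 5) (nat_lit 23) (nat_lit 5) (nat_lit 335) (nat_lit 294) (nat_lit 91))) (XT.nd (nat_lit 78) (nat_lit 0) (nat_lit 0) (XT.lf (nat_lit 0) (nat_lit 3956426628) (nat_lit 0) (nat_lit 3956426628) (nat_lit 684) (nat_lit 22197306220) (nat_lit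 65) (nat_lit 5) (nat_lit 65) (nat_lit 3) (nat_lit 74) (nat_lit 3) (nat_lit 295) (nat_lit 295) (nat_lit 130)) (XT.lf (nat_lit 0) (nat_lit 16518611614) (nat_lit 684) (nat_lit 27773343231) (nat_lit 760) (nat_lit 17418943913) (nat_lit 65) (nat_lit 5) (nat_lit 74) (nat_lit 3) (nat_lit 75) (nat_lit 5) (nat_lit 296) (nat_lit 295) (nat_lit 129)))) (XT.nd (nat_lit 156) (nat_lit 0) (nat_lit 76) (XT.nd (nat_lit 78) (nat_lit 0) (nat_lit 76) (XT.lf (nat_lit 0) (nat_lit 17374844874) (nat_lit 684) (nat_lit 2142820148) (nat_lit 760) (nat_lit 43751912552) (nat_lit 65) (nat_lit 5) (nat_lit 74) (nat_lit 3) (nat_lit 75) (nat_lit 5) (nat_lit 297) (nat_lit 295) (nat_lit 128)) (XT.lf (nat_lit 0) (nat_lit 18780364035) (nat_lit 684) (nat_lit 39406600595) (nat_lit 760) (nat_lit 6693905952) (nat_lit 66) (nat_lit 5) (nat_lit 75) (nat_lit 5) (nat_lit 76) (nat_lit 5) (nat_lit 298) (nat_lit 295) (nat_lit 127))) (XT.nd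 (nat_lit 78) (nat_lit 0) (nat_lit 0) (XT.lf (nat_lit 0) (nat_lit 20612063442) (nat_lit 684) (nat_lit 12345468953) (nat_lit 760) (nat_lit 33597404410) (nat_lit 66) (nat_lit 5) (nat_lit 75) (nat_lit 5) (nat_lit 76) (nat_lit 5) (nat_lit 299) (nat_lit 295) (nat_lit 126)) (XT.lf (nat_lit 76) (nat_lit 16599426419) (nat_lit 0) (nat_lit 6194187781) (nat_lit 760) (nat_lit 45506182416) (nat_lit 67) (nat_lit 5) (nat_lit 66) (nat_lit 5) (nat_lit 76) (nat_lit 5) (nat_lit 300) (nat_lit 295) (nat_lit 125))))) (XT.nd (nat_lit 312) (nat_lit 836) (nat_lit 0) (XT.nd (nat_lit 156) (nat_lit 0) (nat_lit 76) (XT.nd (nat_lit 78) (nat_lit 0) (nat_lit 0) (XT.lf (nat_lit 0) (nat_lit 25637922451) (nat_lit 684) (nat_lit 23047354461) (nat_lit 760) (nat_lit 21418941934) (nat_lit 67) (nat_lit 5) (nat_lit 76) (nat_lit 5) (nat_lit 77) (nat_lit 5) (nat_lit 301) (nat_lit 295) (nat_lit 124)) (XT.lf (nat_lit 76) (nat_lit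 7165518850) (nat_lit 0) (nat_lit 21671527303) (nat_lit 760) (nat_lit 43151189294) (nat_lit 68) (nat_lit 5) (nat_lit 67) (nat_lit 5) (nat_lit 77) (nat_lit 5) (nat_lit 302) (nat_lit 295) (nat_lit 123))) (XT.nd (nat_lit 78) (nat_lit 0) (nat_lit 0) (XT.lf (nat_lit 0) (nat_lit 32696553132) (nat_lit 684) (nat_lit 34369269493) (nat_lit 760) (nat_lit 6875612007) (nat_lit 68) (nat_lit 5) (nat_lit 77) (nat_lit 5) (nat_lit 78) (nat_lit 5) (nat_lit 303) (nat_lit 295) (nat_lit 122)) (XT.lf (nat_lit 0) (nat_lit 37103559022) (nat_lit 684) (nat_lit 2749017843) (nat_lit 760) (nat_lit 36121993690) (nat_lit 68) (nat_lit 5) (nat_lit 77) (nat_lit 5) (nat_lit 78) (nat_lit 5) (nat_lit 304) (nat_lit 295) (nat_lit 121)))) (XT.nd (nat_lit 156) (nat_lit 912) (nat_lit 0) (XT.nd (nat_lit 78) (nat_lit 0) (nat_lit 76) (XT.lf (nat_lit 76) (nat_lit 31458547935) (nat_lit 0) (nat_lit 10762811579) (nat_lit 760) (nat_lit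 35863484364) (nat_lit 69) (nat_lit 5) (nat_lit 68) (nat_lit 5) (nat_lit 78) (nat_lit 5) (nat_lit 305) (nat_lit 295) (nat_lit 120)) (XT.lf (nat_lit 0) (nat_lit 47950528302) (nat_lit 684) (nat_lit 13136576619) (nat_lit 76) (nat_lit 19195754717) (nat_lit 69) (nat_lit 5) (nat_lit 78) (nat_lit 5) (nat_lit 70) (nat_lit 5) (nat_lit 306) (nat_lit 295) (nat_lit 119))) (XT.nd (nat_lit 78) (nat_lit 304) (nat_lit 0) (XT.lf (nat_lit 0) (nat_lit 22573099499) (nat_lit 684) (nat_lit 31921272872) (nat_lit 760) (nat_lit 28069995528) (nat_lit 60) (nat_lit 5) (nat_lit 69) (nat_lit 5) (nat_lit 70) (nat_lit 5) (nat_lit 307) (nat_lit 295) (nat_lit 118)) (XT.nd (nat_lit 78) (nat_lit 304) (nat_lit 0) (XT.lf (nat_lit 0) (nat_lit 60523771097) (nat_lit 684) (nat_lit 1063482092) (nat_lit 760) (nat_lit 23361608593) (nat_lit 60) (nat_lit 5) (nat_lit 69) (nat_lit 5) (nat_lit 70) (nat_lit 5) (nat_lit 308) (nat_lit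 295) (nat_lit 117)) (XT.lf (nat_lit 0) (nat_lit 12840544811) (nat_lit 304) (nat_lit 56883372890) (nat_lit 380) (nat_lit 17694207992) (nat_lit 56) (nat_lit 5) (nat_lit 60) (nat_lit 5) (nat_lit 61) (nat_lit 5) (nat_lit 309) (nat_lit 295) (nat_lit 116))))))) (XT.nd (nat_lit 702) (nat_lit 760) (nat_lit 0) (XT.nd (nat_lit 312) (nat_lit 836) (nat_lit 0) (XT.nd (nat_lit 156) (nat_lit 76) (nat_lit 0) (XT.nd (nat_lit 78) (nat_lit 304) (nat_lit 0) (XT.lf (nat_lit 0) (nat_lit 52798877401) (nat_lit 304) (nat_lit 25898762779) (nat_lit 380) (nat_lit 11291703591) (nat_lit 56) (nat_lit 5) (nat_lit 60) (nat_lit 5) (nat_lit 61) (nat_lit 5) (nat_lit 310) (nat_lit 295) (nat_lit 115)) (XT.lf (nat_lit 0) (nat_lit 2026717834) (nat_lit 304) (nat_lit 86228014807) (nat_lit 380) (nat_lit 4427658023) (nat_lit 52) (nat_lit 5) (nat_lit 56) (nat_lit 5) (nat_lit 57) (nat_lit 5) (nat_lit 311) (nat_lit 295) (nat_lit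 114))) (XT.nd (nat_lit 78) (nat_lit 0) (nat_lit 0) (XT.lf (nat_lit 0) (nat_lit 3754815120) (nat_lit 380) (nat_lit 51461532341) (nat_lit 76) (nat_lit 40238365013) (nat_lit 51) (nat_lit 5) (nat_lit 56) (nat_lit 5) (nat_lit 52) (nat_lit 5) (nat_lit 312) (nat_lit 295) (nat_lit 113)) (XT.lf (nat_lit 0) (nat_lit 12197095372) (nat_lit 380) (nat_lit 10380814470) (nat_lit 76) (nat_lit 75784139030) (nat_lit 51) (nat_lit 5) (nat_lit 56) (nat_lit 5) (nat_lit 52) (nat_lit 5) (nat_lit 313) (nat_lit 295) (nat_lit 112)))) (XT.nd (nat_lit 156) (nat_lit 532) (nat_lit 0) (XT.nd (nat_lit 78) (nat_lit 0) (nat_lit 0) (XT.lf (nat_lit 0) (nat_lit 21780488930) (nat_lit 380) (nat_lit 67743180146) (nat_lit 76) (nat_lit 11855134780) (nat_lit 47) (nat_lit 5) (nat_lit 52) (nat_lit 5) (nat_lit 48) (nat_lit 5) (nat_lit 314) (nat_lit 295) (nat_lit 111)) (XT.lf (nat_lit 0) (nat_lit 32391389471) (nat_lit 380) (nat_lit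 24697871642) (nat_lit 76) (nat_lit 47429720257) (nat_lit 47) (nat_lit 5) (nat_lit 52) (nat_lit 5) (nat_lit 48) (nat_lit 5) (nat_lit 315) (nat_lit 295) (nat_lit 110))) (XT.nd (nat_lit 78) (nat_lit 228) (nat_lit 0) (XT.lf (nat_lit 0) (nat_lit 21176987871) (nat_lit 304) (nat_lit 22686023571) (nat_lit 380) (nat_lit 63936649069) (nat_lit 43) (nat_lit 5) (nat_lit 47) (nat_lit 5) (nat_lit 48) (nat_lit 5) (nat_lit 316) (nat_lit 295) (nat_lit 109)) (XT.nd (nat_lit 78) (nat_lit 228) (nat_lit 0) (XT.lf (nat_lit 0) (nat_lit 56542694102) (nat_lit 380) (nat_lit 41237592076) (nat_lit 76) (nat_lit 13432364945) (nat_lit 43) (nat_lit 5) (nat_lit 48) (nat_lit 5) (nat_lit 44) (nat_lit 5) (nat_lit 317) (nat_lit 295) (nat_lit 108)) (XT.lf (nat_lit 0) (nat_lit 6244193981) (nat_lit 228) (nat_lit 64081136588) (nat_lit 304) (nat_lit 44447513636) (nat_lit 40) (nat_lit 5) (nat_lit 43) (nat_lit 5) (nat_lit 44)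 (nat_lit 5) (nat_lit 318) (nat_lit 295) (nat_lit 107)))))) (XT.nd (nat_lit 312) (nat_lit 456) (nat_lit 0) (XT.nd (nat_lit 156) (nat_lit 304) (nat_lit 0) (XT.nd (nat_lit 78) (nat_lit 0) (nat_lit 0) (XT.lf (nat_lit 0) (nat_lit 57531253771) (nat_lit 228) (nat_lit 27963814353) (nat_lit 304) (nat_lit 32981081711) (nat_lit 40) (nat_lit 5) (nat_lit 43) (nat_lit 5) (nat_lit 44) (nat_lit 5) (nat_lit 319) (nat_lit 295) (nat_lit 106)) (XT.lf (nat_lit 0) (nat_lit 101578395250) (nat_lit 304) (nat_lit 11137935731) (nat_lit 76) (nat_lit 9640535920) (nat_lit 40) (nat_lit 5) (nat_lit 44) (nat_lit 5) (nat_lit 41) (nat_lit 5) (nat_lit 320) (nat_lit 295) (nat_lit 105))) (XT.nd (nat_lit 78) (nat_lit 76) (nat_lit 0) (XT.lf (nat_lit 0) (nat_lit 42046226701) (nat_lit 228) (nat_lit 77534172226) (nat_lit 304) (nat_lit 6795496615) (nat_lit 37) (nat_lit 5) (nat_lit 40) (nat_lit 5) (nat_lit 41) (nat_lit 5) (nat_lit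 321) (nat_lit 295) (nat_lit 104)) (XT.lf (nat_lit 0) (nat_lit 7825555525) (nat_lit 304) (nat_lit 32436858039) (nat_lit 76) (nat_lit 90317739062) (nat_lit 36) (nat_lit 5) (nat_lit 40) (nat_lit 5) (nat_lit 37) (nat_lit 5) (nat_lit 322) (nat_lit 295) (nat_lit 103)))) (XT.nd (nat_lit 156) (nat_lit 228) (nat_lit 0) (XT.nd (nat_lit 78) (nat_lit 0) (nat_lit 0) (XT.lf (nat_lit 0) (nat_lit 22664137676) (nat_lit 228) (nat_lit 638648731) (nat_lit 304) (nat_lit 111668592174) (nat_lit 33) (nat_lit 5) (nat_lit 36) (nat_lit 5) (nat_lit 37) (nat_lit 5) (nat_lit 323) (nat_lit 295) (nat_lit 102)) (XT.lf (nat_lit 0) (nat_lit 40751473984) (nat_lit 304) (nat_lit 58557443085) (nat_lit 76) (nat_lit 40213370017) (nat_lit 33) (nat_lit 5) (nat_lit 37) (nat_lit 5) (nat_lit 34) (nat_lit 5) (nat_lit 324) (nat_lit 295) (nat_lit 101))) (XT.nd (nat_lit 78) (nat_lit 228) (nat_lit 0) (XT.lf (nat_lit 0) (nat_lit 59082738900)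 (nat_lit 304) (nat_lit 2131060548) (nat_lit 76) (nat_lit 83086435385) (nat_lit 33) (nat_lit 5) (nat_lit 37) (nat_lit 5) (nat_lit 34) (nat_lit 5) (nat_lit 325) (nat_lit 295) (nat_lit 100)) (XT.nd (nat_lit 78) (nat_lit 0) (nat_lit 0) (XT.lf (nat_lit 0) (nat_lit 59004746720) (nat_lit 228) (nat_lit 20246738662) (nat_lit 304) (nat_lit 70019549586) (nat_lit 30) (nat_lit 5) (nat_lit 33) (nat_lit 5) (nat_lit 34) (nat_lit 5) (nat_lit 326) (nat_lit 295) (nat_lit 99)) (XT.lf (nat_lit 0) (nat_lit 100820529871) (nat_lit 304) (nat_lit 31573737554) (nat_lit 76) (nat_lit 22076515525) (nat_lit 30) (nat_lit 5) (nat_lit 34) (nat_lit 5) (nat_lit 31) (nat_lit 5) (nat_lit 327) (nat_lit 295) (nat_lit 98))))))))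
noncomputable def xc244 : XT := (XT.nd (nat_lit 35802) (nat_lit 0) (nat_lit 1064) (XT.nd (nat_lit 35100) (nat_lit 0) (nat_lit 3268) (XT.nd (nat_lit 312) (nat_lit 152) (nat_lit 0) (XT.nd (nat_lit 156) (nat_lit 304) (nat_lit 0) (XT.nd (nat_lit 78) (nat_lit 0) (nat_lit 0) (XT.lf (nat_lit 0) (nat_lit 30703839190) (nat_lit 152) (nat_lit 93575184274) (nat_lit 228) (nat_lit 35610945854) (nat_lit 28) (nat_lit 5) (nat_lit 30) (nat_lit 5) (nat_lit 31) (nat_lit 5) (nat_lit 328) (nat_lit 295) (nat_lit 97)) (XT.lf (nat_lit 0) (nat_lit 97191067796) (nat_lit 152) (nat_lit 52253808243) (nat_lit 228) (nat_lit 16108518044) (nat_lit 28) (nat_lit 5) (nat_lit 30) (nat_lit 5) (nat_lit 31) (nat_lit 5) (nat_lit 329) (nat_lit 295) (nat_lit 96))) (XT.nd (nat_lit 78) (nat_lit 228) (nat_lit 0) (XT.lf (nat_lit 0) (nat_lit 4228920952) (nat_lit 228) (nat_lit 4565931851) (nat_lit 76) (nat_lit 162701741057) (nat_lit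 27) (nat_lit 5) (nat_lit 30) (nat_lit 5) (nat_lit 28) (nat_lit 5) (nat_lit 330) (nat_lit 295) (nat_lit 95)) (XT.lf (nat_lit 0) (nat_lit 26640024380) (nat_lit 304) (nat_lit 114058536967) (nat_lit 76) (nat_lit 36945282045) (nat_lit 24) (nat_lit 5) (nat_lit 28) (nat_lit 5) (nat_lit 25) (nat_lit 5) (nat_lit 331) (nat_lit 295) (nat_lit 94)))) (XT.nd (nat_lit 156) (nat_lit 0) (nat_lit 0) (XT.nd (nat_lit 78) (nat_lit 152) (nat_lit 0) (XT.lf (nat_lit 0) (nat_lit 50394198999) (nat_lit 304) (nat_lit 48937783269) (nat_lit 76) (nat_lit 84755347983) (nat_lit 24) (nat_lit 5) (nat_lit 28) (nat_lit 5) (nat_lit 25) (nat_lit 5) (nat_lit 332) (nat_lit 295) (nat_lit 93)) (XT.lf (nat_lit 0) (nat_lit 20081381462) (nat_lit 152) (nat_lit 55567983908) (nat_lit 228) (nat_lit 115187962553) (nat_lit 22) (nat_lit 5) (nat_lit 24) (nat_lit 5) (nat_lit 25) (nat_lit 5) (nat_lit 333) (nat_lit 295) (nat_lit 92))) (XT.nd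 (nat_lit 34554) (nat_lit 0) (nat_lit 3268) (XT.lf (nat_lit 0) (nat_lit 94250163236) (nat_lit 152) (nat_lit 8745674368) (nat_lit 228) (nat_lit 94887561087) (nat_lit 22) (nat_lit 5) (nat_lit 24) (nat_lit 5) (nat_lit 25) (nat_lit 5) (nat_lit 334) (nat_lit 295) (nat_lit 91)) (XT.lf (nat_lit 0) (nat_lit 4162276489) (nat_lit 0) (nat_lit 4162276489) (nat_lit 684) (nat_lit 23290247589) (nat_lit 65) (nat_lit 5) (nat_lit 65) (nat_lit 3) (nat_lit 74) (nat_lit 3) (nat_lit 296) (nat_lit 296) (nat_lit 128))))) (XT.nd (nat_lit 312) (nat_lit 0) (nat_lit 76) (XT.nd (nat_lit 156) (nat_lit 0) (nat_lit 76) (XT.nd (nat_lit 78) (nat_lit 0) (nat_lit 0) (XT.lf (nat_lit 0) (nat_lit 17374888311) (nat_lit 684) (nat_lit 29144827992) (nat_lit 760) (nat_lit 18275088125) (nat_lit 65) (nat_lit 5) (nat_lit 74) (nat_lit 3) (nat_lit 75) (nat_lit 5) (nat_lit 297) (nat_lit 296) (nat_lit 127)) (XT.lf (nat_lit 0) (nat_lit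 18272488181) (nat_lit 684) (nat_lit 2233596964) (nat_lit 760) (nat_lit 45925410100) (nat_lit 65) (nat_lit 5) (nat_lit 74) (nat_lit 3) (nat_lit 75) (nat_lit 5) (nat_lit 298) (nat_lit 296) (nat_lit 126))) (XT.nd (nat_lit 78) (nat_lit 0) (nat_lit 0) (XT.lf (nat_lit 0) (nat_lit 19746976135) (nat_lit 684) (nat_lit 41359148646) (nat_lit 760) (nat_lit 7017299013) (nat_lit 66) (nat_lit 5) (nat_lit 75) (nat_lit 5) (nat_lit 76) (nat_lit 5) (nat_lit 299) (nat_lit 296) (nat_lit 125)) (XT.lf (nat_lit 0) (nat_lit 21668946517) (nat_lit 684) (nat_lit 12945807183) (nat_lit 760) (nat_lit 35266510595) (nat_lit 66) (nat_lit 5) (nat_lit 75) (nat_lit 5) (nat_lit 76) (nat_lit 5) (nat_lit 300) (nat_lit 296) (nat_lit 124)))) (XT.nd (nat_lit 156) (nat_lit 0) (nat_lit 76) (XT.nd (nat_lit 78) (nat_lit 0) (nat_lit 76) (XT.lf (nat_lit 76) (nat_lit 17446059810) (nat_lit 0) (nat_lit 6512523721) (nat_lit 760) (nat_lit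 47754838147) (nat_lit 67) (nat_lit 5) (nat_lit 66) (nat_lit 5) (nat_lit 76) (nat_lit 5) (nat_lit 301) (nat_lit 296) (nat_lit 123)) (XT.lf (nat_lit 0) (nat_lit 26943774703) (nat_lit 684) (nat_lit 24182425495) (nat_lit 760) (nat_lit 22481936223) (nat_lit 67) (nat_lit 5) (nat_lit 76) (nat_lit 5) (nat_lit 77) (nat_lit 5) (nat_lit 302) (nat_lit 296) (nat_lit 122))) (XT.nd (nat_lit 78) (nat_lit 0) (nat_lit 76) (XT.lf (nat_lit 76) (nat_lit 7540812503) (nat_lit 0) (nat_lit 22761167014) (nat_lit 760) (nat_lit 45284422641) (nat_lit 68) (nat_lit 5) (nat_lit 67) (nat_lit 5) (nat_lit 77) (nat_lit 5) (nat_lit 303) (nat_lit 296) (nat_lit 121)) (XT.nd (nat_lit 78) (nat_lit 0) (nat_lit 0) (XT.lf (nat_lit 0) (nat_lit 34353272588) (nat_lit 684) (nat_lit 36070249693) (nat_lit 760) (nat_lit 7213802816) (nat_lit 68) (nat_lit 5) (nat_lit 77) (nat_lit 5) (nat_lit 78) (nat_lit 5) (nat_lit 304) (nat_lit 296)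 (nat_lit 120)) (XT.lf (nat_lit 0) (nat_lit 38979586306) (nat_lit 684) (nat_lit 2869817998) (nat_lit 760) (nat_lit 37922769764) (nat_lit 68) (nat_lit 5) (nat_lit 77) (nat_lit 5) (nat_lit 78) (nat_lit 5) (nat_lit 305) (nat_lit 296) (nat_lit 119))))))) (XT.nd (nat_lit 702) (nat_lit 1140) (nat_lit 0) (XT.nd (nat_lit 312) (nat_lit 684) (nat_lit 0) (XT.nd (nat_lit 156) (nat_lit 608) (nat_lit 0) (XT.nd (nat_lit 78) (nat_lit 0) (nat_lit 76) (XT.lf (nat_lit 76) (nat_lit 33047857509) (nat_lit 0) (nat_lit 11304682260) (nat_lit 760) (nat_lit 37635462072) (nat_lit 69) (nat_lit 5) (nat_lit 68) (nat_lit 5) (nat_lit 78) (nat_lit 5) (nat_lit 306) (nat_lit 296) (nat_lit 118)) (XT.lf (nat_lit 0) (nat_lit 50367153805) (nat_lit 684) (nat_lit 13776715310) (nat_lit 76) (nat_lit 20152103677) (nat_lit 69) (nat_lit 5) (nat_lit 78) (nat_lit 5) (nat_lit 70) (nat_lit 5) (nat_lit 307) (nat_lit 296) (nat_lit 117)))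 (XT.nd (nat_lit 78) (nat_lit 0) (nat_lit 0) (XT.lf (nat_lit 0) (nat_lit 23718175418) (nat_lit 684) (nat_lit 33519361557) (nat_lit 760) (nat_lit 29454055713) (nat_lit 60) (nat_lit 5) (nat_lit 69) (nat_lit 5) (nat_lit 70) (nat_lit 5) (nat_lit 308) (nat_lit 296) (nat_lit 116)) (XT.lf (nat_lit 0) (nat_lit 63565598646) (nat_lit 684) (nat_lit 1118584806) (nat_lit 760) (nat_lit 24511175125) (nat_lit 60) (nat_lit 5) (nat_lit 69) (nat_lit 5) (nat_lit 70) (nat_lit 5) (nat_lit 309) (nat_lit 296) (nat_lit 115)))) (XT.nd (nat_lit 156) (nat_lit 380) (nat_lit 0) (XT.nd (nat_lit 78) (nat_lit 0) (nat_lit 0) (XT.lf (nat_lit 0) (nat_lit 13498919460) (nat_lit 304) (nat_lit 59728151730) (nat_lit 380) (nat_lit 18561048229) (nat_lit 56) (nat_lit 5) (nat_lit 60) (nat_lit 5) (nat_lit 61) (nat_lit 5) (nat_lit 310) (nat_lit 296) (nat_lit 114)) (XT.lf (nat_lit 0) (nat_lit 55454390231) (nat_lit 304) (nat_lit 27194282057)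 (nat_lit 380) (nat_lit 11839269569) (nat_lit 56) (nat_lit 5) (nat_lit 60) (nat_lit 5) (nat_lit 61) (nat_lit 5) (nat_lit 311) (nat_lit 296) (nat_lit 113))) (XT.nd (nat_lit 78) (nat_lit 76) (nat_lit 0) (XT.lf (nat_lit 0) (nat_lit 2144235586) (nat_lit 304) (nat_lit 90538858736) (nat_lit 380) (nat_lit 4632575958) (nat_lit 52) (nat_lit 5) (nat_lit 56) (nat_lit 5) (nat_lit 57) (nat_lit 5) (nat_lit 312) (nat_lit 296) (nat_lit 112)) (XT.nd (nat_lit 78) (nat_lit 0) (nat_lit 0) (XT.lf (nat_lit 0) (nat_lit 3957734909) (nat_lit 380) (nat_lit 54018642563) (nat_lit 76) (nat_lit 42250258461) (nat_lit 51) (nat_lit 5) (nat_lit 56) (nat_lit 5) (nat_lit 52) (nat_lit 5) (nat_lit 313) (nat_lit 296) (nat_lit 111)) (XT.lf (nat_lit 0) (nat_lit 12821406363) (nat_lit 380) (nat_lit 10884649103) (nat_lit 76) (nat_lit 79573322360) (nat_lit 51) (nat_lit 5) (nat_lit 56) (nat_lit 5) (nat_lit 52) (nat_lit 5) (nat_lit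 314) (nat_lit 296) (nat_lit 110)))))) (XT.nd (nat_lit 312) (nat_lit 532) (nat_lit 0) (XT.nd (nat_lit 156) (nat_lit 304) (nat_lit 0) (XT.nd (nat_lit 78) (nat_lit 0) (nat_lit 0) (XT.lf (nat_lit 0) (nat_lit 22883529767) (nat_lit 380) (nat_lit 71114644967) (nat_lit 76) (nat_lit 12448820231) (nat_lit 47) (nat_lit 5) (nat_lit 52) (nat_lit 5) (nat_lit 48) (nat_lit 5) (nat_lit 315) (nat_lit 296) (nat_lit 109)) (XT.lf (nat_lit 0) (nat_lit 34024307889) (nat_lit 380) (nat_lit 25917818380) (nat_lit 76) (nat_lit 49802090757) (nat_lit 47) (nat_lit 5) (nat_lit 52) (nat_lit 5) (nat_lit 48) (nat_lit 5) (nat_lit 316) (nat_lit 296) (nat_lit 108))) (XT.nd (nat_lit 78) (nat_lit 0) (nat_lit 0) (XT.lf (nat_lit 0) (nat_lit 22250543031) (nat_lit 304) (nat_lit 23818561861) (nat_lit 380) (nat_lit 67119847723) (nat_lit 43) (nat_lit 5) (nat_lit 47) (nat_lit 5) (nat_lit 48) (nat_lit 5) (nat_lit 317) (nat_lit 296)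 (nat_lit 107)) (XT.lf (nat_lit 0) (nat_lit 59382181570) (nat_lit 380) (nat_lit 43284834381) (nat_lit 76) (nat_lit 14105608397) (nat_lit 43) (nat_lit 5) (nat_lit 48) (nat_lit 5) (nat_lit 44) (nat_lit 5) (nat_lit 318) (nat_lit 296) (nat_lit 106)))) (XT.nd (nat_lit 156) (nat_lit 304) (nat_lit 0) (XT.nd (nat_lit 78) (nat_lit 0) (nat_lit 0) (XT.lf (nat_lit 0) (nat_lit 6570804893) (nat_lit 228) (nat_lit 67282781584) (nat_lit 304) (nat_lit 46657260762) (nat_lit 40) (nat_lit 5) (nat_lit 43) (nat_lit 5) (nat_lit 44) (nat_lit 5) (nat_lit 319) (nat_lit 296) (nat_lit 105)) (XT.lf (nat_lit 0) (nat_lit 60421531901) (nat_lit 228) (nat_lit 29359708086) (nat_lit 304) (nat_lit 34618108600) (nat_lit 40) (nat_lit 5) (nat_lit 43) (nat_lit 5) (nat_lit 44) (nat_lit 5) (nat_lit 320) (nat_lit 296) (nat_lit 104))) (XT.nd (nat_lit 78) (nat_lit 304) (nat_lit 0) (XT.lf (nat_lit 0) (nat_lit 106668223888) (nat_lit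 304) (nat_lit 11681224596) (nat_lit 76) (nat_lit 10124680303) (nat_lit 40) (nat_lit 5) (nat_lit 44) (nat_lit 5) (nat_lit 41) (nat_lit 5) (nat_lit 321) (nat_lit 296) (nat_lit 103)) (XT.nd (nat_lit 78) (nat_lit 76) (nat_lit 0) (XT.lf (nat_lit 0) (nat_lit 44161926475) (nat_lit 228) (nat_lit 81408090834) (nat_lit 304) (nat_lit 7124108787) (nat_lit 37) (nat_lit 5) (nat_lit 40) (nat_lit 5) (nat_lit 41) (nat_lit 5) (nat_lit 322) (nat_lit 296) (nat_lit 102)) (XT.lf (nat_lit 0) (nat_lit 8227124143) (nat_lit 304) (nat_lit 34045578673) (nat_lit 76) (nat_lit 94835911788) (nat_lit 36) (nat_lit 5) (nat_lit 40) (nat_lit 5) (nat_lit 37) (nat_lit 5) (nat_lit 323) (nat_lit 296) (nat_lit 101))))))))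
noncomputable def xc245 : XT := (XT.nd (nat_lit 35880) (nat_lit 0) (nat_lit 1368) (XT.nd (nat_lit 624) (nat_lit 380) (nat_lit 0) (XT.nd (nat_lit 312) (nat_lit 228) (nat_lit 0) (XT.nd (nat_lit 156) (nat_lit 228) (nat_lit 0) (XT.nd (nat_lit 78) (nat_lit 0) (nat_lit 0) (XT.lf (nat_lit 0) (nat_lit 23810255178) (nat_lit 228) (nat_lit 667672922) (nat_lit 304) (nat_lit 117241489661) (nat_lit 33) (nat_lit 5) (nat_lit 36) (nat_lit 5) (nat_lit 37) (nat_lit 5) (nat_lit 324) (nat_lit 296) (nat_lit 100)) (XT.lf (nat_lit 0) (nat_lit 42798616996) (nat_lit 304) (nat_lit 61472558133) (nat_lit 76) (nat_lit 42226719626) (nat_lit 33) (nat_lit 5) (nat_lit 37) (nat_lit 5) (nat_lit 34) (nat_lit 5) (nat_lit 325) (nat_lit 296) (nat_lit 99))) (XT.nd (nat_lit 78) (nat_lit 228) (nat_lit 0) (XT.lf (nat_lit 0) (nat_lit 62045989476) (nat_lit 304) (nat_lit 2225463950) (nat_lit 76) (nat_lit 87243310591) (nat_lit 33)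 (nat_lit 5) (nat_lit 37) (nat_lit 5) (nat_lit 34) (nat_lit 5) (nat_lit 326) (nat_lit 296) (nat_lit 98)) (XT.lf (nat_lit 0) (nat_lit 61966937719) (nat_lit 228) (nat_lit 21255988211) (nat_lit 304) (nat_lit 73511191877) (nat_lit 30) (nat_lit 5) (nat_lit 33) (nat_lit 5) (nat_lit 34) (nat_lit 5) (nat_lit 327) (nat_lit 296) (nat_lit 97)))) (XT.nd (nat_lit 156) (nat_lit 76) (nat_lit 0) (XT.nd (nat_lit 78) (nat_lit 152) (nat_lit 0) (XT.lf (nat_lit 0) (nat_lit 105870046347) (nat_lit 304) (nat_lit 33140639317) (nat_lit 76) (nat_lit 23183187557) (nat_lit 30) (nat_lit 5) (nat_lit 34) (nat_lit 5) (nat_lit 31) (nat_lit 5) (nat_lit 328) (nat_lit 296) (nat_lit 96)) (XT.lf (nat_lit 0) (nat_lit 32250626182) (nat_lit 152) (nat_lit 98250615185) (nat_lit 228) (nat_lit 37382789865) (nat_lit 28) (nat_lit 5) (nat_lit 30) (nat_lit 5) (nat_lit 31) (nat_lit 5) (nat_lit 329) (nat_lit 296) (nat_lit 95))) (XT.nd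 (nat_lit 78) (nat_lit 76) (nat_lit 0) (XT.lf (nat_lit 0) (nat_lit 102061664073) (nat_lit 152) (nat_lit 54863328843) (nat_lit 228) (nat_lit 16905655107) (nat_lit 28) (nat_lit 5) (nat_lit 30) (nat_lit 5) (nat_lit 31) (nat_lit 5) (nat_lit 330) (nat_lit 296) (nat_lit 94)) (XT.lf (nat_lit 0) (nat_lit 4448008471) (nat_lit 228) (nat_lit 4783438691) (nat_lit 76) (nat_lit 170839574262) (nat_lit 27) (nat_lit 5) (nat_lit 30) (nat_lit 5) (nat_lit 28) (nat_lit 5) (nat_lit 331) (nat_lit 296) (nat_lit 93))))) (XT.nd (nat_lit 34866) (nat_lit 0) (nat_lit 3268) (XT.nd (nat_lit 156) (nat_lit 152) (nat_lit 0) (XT.nd (nat_lit 78) (nat_lit 0) (nat_lit 0) (XT.lf (nat_lit 0) (nat_lit 27979518461) (nat_lit 304) (nat_lit 119750506355) (nat_lit 76) (nat_lit 38795617002) (nat_lit 24) (nat_lit 5) (nat_lit 28) (nat_lit 5) (nat_lit 25) (nat_lit 5) (nat_lit 332) (nat_lit 296) (nat_lit 92)) (XT.lf (nat_lit 0) (nat_lit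 52921045009) (nat_lit 304) (nat_lit 51374236755) (nat_lit 76) (nat_lit 88996040006) (nat_lit 24) (nat_lit 5) (nat_lit 28) (nat_lit 5) (nat_lit 25) (nat_lit 5) (nat_lit 333) (nat_lit 296) (nat_lit 91))) (XT.nd (nat_lit 34632) (nat_lit 0) (nat_lit 3268) (XT.lf (nat_lit 0) (nat_lit 21095717894) (nat_lit 152) (nat_lit 58343072294) (nat_lit 228) (nat_lit 120940038979) (nat_lit 22) (nat_lit 5) (nat_lit 24) (nat_lit 5) (nat_lit 25) (nat_lit 5) (nat_lit 334) (nat_lit 296) (nat_lit 90)) (XT.lf (nat_lit 0) (nat_lit 4377672426) (nat_lit 0) (nat_lit 4377672426) (nat_lit 684) (nat_lit 24439409454) (nat_lit 65) (nat_lit 5) (nat_lit 65) (nat_lit 3) (nat_lit 74) (nat_lit 3) (nat_lit 297) (nat_lit 297) (nat_lit 126)))) (XT.nd (nat_lit 156) (nat_lit 0) (nat_lit 76) (XT.nd (nat_lit 78) (nat_lit 0) (nat_lit 0) (XT.lf (nat_lit 0) (nat_lit 18271157549) (nat_lit 684) (nat_lit 30586484448) (nat_lit 760) (nat_lit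 19175415789) (nat_lit 65) (nat_lit 5) (nat_lit 74) (nat_lit 3) (nat_lit 75) (nat_lit 5) (nat_lit 298) (nat_lit 297) (nat_lit 125)) (XT.lf (nat_lit 0) (nat_lit 19212326706) (nat_lit 684) (nat_lit 2330434009) (nat_lit 760) (nat_lit 48208893231) (nat_lit 65) (nat_lit 5) (nat_lit 74) (nat_lit 3) (nat_lit 75) (nat_lit 5) (nat_lit 299) (nat_lit 297) (nat_lit 124))) (XT.nd (nat_lit 78) (nat_lit 0) (nat_lit 0) (XT.lf (nat_lit 0) (nat_lit 20759353421) (nat_lit 684) (nat_lit 43410977299) (nat_lit 760) (nat_lit 7357912502) (nat_lit 66) (nat_lit 5) (nat_lit 75) (nat_lit 5) (nat_lit 76) (nat_lit 5) (nat_lit 300) (nat_lit 297) (nat_lit 123)) (XT.nd (nat_lit 78) (nat_lit 0) (nat_lit 0) (XT.lf (nat_lit 0) (nat_lit 22776230490) (nat_lit 684) (nat_lit 13577736800) (nat_lit 760) (nat_lit 37020072828) (nat_lit 66) (nat_lit 5) (nat_lit 75) (nat_lit 5) (nat_lit 76) (nat_lit 5) (nat_lit 301) (nat_lit 297)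 (nat_lit 122)) (XT.lf (nat_lit 76) (nat_lit 18333475788) (nat_lit 0) (nat_lit 6845974444) (nat_lit 760) (nat_lit 50118404644) (nat_lit 67) (nat_lit 5) (nat_lit 66) (nat_lit 5) (nat_lit 76) (nat_lit 5) (nat_lit 302) (nat_lit 297) (nat_lit 121))))))) (XT.nd (nat_lit 702) (nat_lit 1216) (nat_lit 0) (XT.nd (nat_lit 312) (nat_lit 836) (nat_lit 0) (XT.nd (nat_lit 156) (nat_lit 0) (nat_lit 76) (XT.nd (nat_lit 78) (nat_lit 0) (nat_lit 0) (XT.lf (nat_lit 0) (nat_lit 28312692353) (nat_lit 684) (nat_lit 25375858164) (nat_lit 760) (nat_lit 23598819604) (nat_lit 67) (nat_lit 5) (nat_lit 76) (nat_lit 5) (nat_lit 77) (nat_lit 5) (nat_lit 303) (nat_lit 297) (nat_lit 120)) (XT.lf (nat_lit 76) (nat_lit 7933288692) (nat_lit 0) (nat_lit 23904724997) (nat_lit 760) (nat_lit 47526579267) (nat_lit 68) (nat_lit 5) (nat_lit 67) (nat_lit 5) (nat_lit 77) (nat_lit 5) (nat_lit 304) (nat_lit 297) (nat_lit 119)))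 (XT.nd (nat_lit 78) (nat_lit 0) (nat_lit 0) (XT.lf (nat_lit 0) (nat_lit 36090792725) (nat_lit 684) (nat_lit 37857904332) (nat_lit 760) (nat_lit 7569422852) (nat_lit 68) (nat_lit 5) (nat_lit 77) (nat_lit 5) (nat_lit 78) (nat_lit 5) (nat_lit 305) (nat_lit 297) (nat_lit 118)) (XT.lf (nat_lit 0) (nat_lit 40947476581) (nat_lit 684) (nat_lit 2998206188) (nat_lit 760) (nat_lit 39814079581) (nat_lit 68) (nat_lit 5) (nat_lit 77) (nat_lit 5) (nat_lit 78) (nat_lit 5) (nat_lit 306) (nat_lit 297) (nat_lit 117)))) (XT.nd (nat_lit 156) (nat_lit 912) (nat_lit 0) (XT.nd (nat_lit 78) (nat_lit 0) (nat_lit 76) (XT.lf (nat_lit 76) (nat_lit 34715109502) (nat_lit 0) (nat_lit 11873299686) (nat_lit 760) (nat_lit 39498009315) (nat_lit 69) (nat_lit 5) (nat_lit 68) (nat_lit 5) (nat_lit 78) (nat_lit 5) (nat_lit 307) (nat_lit 297) (nat_lit 116)) (XT.lf (nat_lit 0) (nat_lit 52902834930) (nat_lit 684) (nat_lit 14450412627)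 (nat_lit 76) (nat_lit 21156589789) (nat_lit 69) (nat_lit 5) (nat_lit 78) (nat_lit 5) (nat_lit 70) (nat_lit 5) (nat_lit 308) (nat_lit 297) (nat_lit 115))) (XT.nd (nat_lit 78) (nat_lit 304) (nat_lit 0) (XT.lf (nat_lit 0) (nat_lit 24918978469) (nat_lit 684) (nat_lit 35197166406) (nat_lit 760) (nat_lit 30909126215) (nat_lit 60) (nat_lit 5) (nat_lit 69) (nat_lit 5) (nat_lit 70) (nat_lit 5) (nat_lit 309) (nat_lit 297) (nat_lit 114)) (XT.nd (nat_lit 78) (nat_lit 304) (nat_lit 0) (XT.lf (nat_lit 0) (nat_lit 66758063607) (nat_lit 684) (nat_lit 1176263353) (nat_lit 760) (nat_lit 25719941231) (nat_lit 60) (nat_lit 5) (nat_lit 69) (nat_lit 5) (nat_lit 70) (nat_lit 5) (nat_lit 310) (nat_lit 297) (nat_lit 113)) (XT.lf (nat_lit 0) (nat_lit 14188693013) (nat_lit 304) (nat_lit 62715112782) (nat_lit 380) (nat_lit 19472891877) (nat_lit 56) (nat_lit 5) (nat_lit 60) (nat_lit 5) (nat_lit 61) (nat_lit 5)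 (nat_lit 311) (nat_lit 297) (nat_lit 112)))))) (XT.nd (nat_lit 312) (nat_lit 836) (nat_lit 0) (XT.nd (nat_lit 156) (nat_lit 76) (nat_lit 0) (XT.nd (nat_lit 78) (nat_lit 304) (nat_lit 0) (XT.lf (nat_lit 0) (nat_lit 58241231248) (nat_lit 304) (nat_lit 28554523270) (nat_lit 380) (nat_lit 12415796129) (nat_lit 56) (nat_lit 5) (nat_lit 60) (nat_lit 5) (nat_lit 61) (nat_lit 5) (nat_lit 312) (nat_lit 297) (nat_lit 111)) (XT.lf (nat_lit 0) (nat_lit 2266124790) (nat_lit 304) (nat_lit 95065296628) (nat_lit 380) (nat_lit 4849270545) (nat_lit 52) (nat_lit 5) (nat_lit 56) (nat_lit 5) (nat_lit 57) (nat_lit 5) (nat_lit 313) (nat_lit 297) (nat_lit 110))) (XT.nd (nat_lit 78) (nat_lit 0) (nat_lit 0) (XT.lf (nat_lit 0) (nat_lit 4169389486) (nat_lit 380) (nat_lit 56705092701) (nat_lit 76) (nat_lit 44362748888) (nat_lit 51) (nat_lit 5) (nat_lit 56) (nat_lit 5) (nat_lit 52) (nat_lit 5) (nat_lit 314) (nat_lit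 297) (nat_lit 109)) (XT.lf (nat_lit 0) (nat_lit 13475588901) (nat_lit 380) (nat_lit 11415089186) (nat_lit 76) (nat_lit 83551967053) (nat_lit 51) (nat_lit 5) (nat_lit 56) (nat_lit 5) (nat_lit 52) (nat_lit 5) (nat_lit 315) (nat_lit 297) (nat_lit 108)))) (XT.nd (nat_lit 156) (nat_lit 532) (nat_lit 0) (XT.nd (nat_lit 78) (nat_lit 0) (nat_lit 0) (XT.lf (nat_lit 0) (nat_lit 24040419535) (nat_lit 380) (nat_lit 74656142126) (nat_lit 76) (nat_lit 13072103611) (nat_lit 47) (nat_lit 5) (nat_lit 52) (nat_lit 5) (nat_lit 48) (nat_lit 5) (nat_lit 316) (nat_lit 297) (nat_lit 107)) (XT.lf (nat_lit 0) (nat_lit 35737631168) (nat_lit 380) (nat_lit 27200152071) (nat_lit 76) (nat_lit 52292997551) (nat_lit 47) (nat_lit 5) (nat_lit 52) (nat_lit 5) (nat_lit 48) (nat_lit 5) (nat_lit 317) (nat_lit 297) (nat_lit 106))) (XT.nd (nat_lit 78) (nat_lit 228) (nat_lit 0) (XT.lf (nat_lit 0) (nat_lit 23376408746) (nat_lit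 304) (nat_lit 25007890963) (nat_lit 380) (nat_lit 70463473852) (nat_lit 43) (nat_lit 5) (nat_lit 47) (nat_lit 5) (nat_lit 48) (nat_lit 5) (nat_lit 318) (nat_lit 297) (nat_lit 105)) (XT.nd (nat_lit 78) (nat_lit 228) (nat_lit 0) (XT.lf (nat_lit 0) (nat_lit 62362494969) (nat_lit 380) (nat_lit 45435799639) (nat_lit 76) (nat_lit 14812362925) (nat_lit 43) (nat_lit 5) (nat_lit 48) (nat_lit 5) (nat_lit 44) (nat_lit 5) (nat_lit 319) (nat_lit 297) (nat_lit 104)) (XT.lf (nat_lit 0) (nat_lit 6912407463) (nat_lit 228) (nat_lit 70644733059) (nat_lit 304) (nat_lit 48978669327) (nat_lit 40) (nat_lit 5) (nat_lit 43) (nat_lit 5) (nat_lit 44) (nat_lit 5) (nat_lit 320) (nat_lit 297) (nat_lit 103))))))))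
noncomputable def xc246 : XT := (XT.nd (nat_lit 36036) (nat_lit 0) (nat_lit 1444) (XT.nd (nat_lit 624) (nat_lit 456) (nat_lit 0) (XT.nd (nat_lit 312) (nat_lit 456) (nat_lit 0) (XT.nd (nat_lit 156) (nat_lit 304) (nat_lit 0) (XT.nd (nat_lit 78) (nat_lit 0) (nat_lit 0) (XT.lf (nat_lit 0) (nat_lit 63455048805) (nat_lit 228) (nat_lit 30825610058) (nat_lit 304) (nat_lit 36338105009) (nat_lit 40) (nat_lit 5) (nat_lit 43) (nat_lit 5) (nat_lit 44) (nat_lit 5) (nat_lit 321) (nat_lit 297) (nat_lit 102)) (XT.lf (nat_lit 0) (nat_lit 112011529754) (nat_lit 304) (nat_lit 12252943039) (nat_lit 76) (nat_lit 10632835032) (nat_lit 40) (nat_lit 5) (nat_lit 44) (nat_lit 5) (nat_lit 41) (nat_lit 5) (nat_lit 322) (nat_lit 297) (nat_lit 101))) (XT.nd (nat_lit 78) (nat_lit 76) (nat_lit 0) (XT.lf (nat_lit 0) (nat_lit 46382166508) (nat_lit 228) (nat_lit 85475964761) (nat_lit 304) (nat_lit 7470189366) (nat_lit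 37) (nat_lit 5) (nat_lit 40) (nat_lit 5) (nat_lit 41) (nat_lit 5) (nat_lit 323) (nat_lit 297) (nat_lit 100)) (XT.lf (nat_lit 0) (nat_lit 8647814448) (nat_lit 304) (nat_lit 35735955323) (nat_lit 76) (nat_lit 99579780640) (nat_lit 36) (nat_lit 5) (nat_lit 40) (nat_lit 5) (nat_lit 37) (nat_lit 5) (nat_lit 324) (nat_lit 297) (nat_lit 99)))) (XT.nd (nat_lit 156) (nat_lit 228) (nat_lit 0) (XT.nd (nat_lit 78) (nat_lit 0) (nat_lit 0) (XT.lf (nat_lit 0) (nat_lit 25012478248) (nat_lit 228) (nat_lit 698418703) (nat_lit 304) (nat_lit 123094011200) (nat_lit 33) (nat_lit 5) (nat_lit 36) (nat_lit 5) (nat_lit 37) (nat_lit 5) (nat_lit 325) (nat_lit 297) (nat_lit 98)) (XT.lf (nat_lit 0) (nat_lit 44947227495) (nat_lit 304) (nat_lit 64534614969) (nat_lit 76) (nat_lit 44340487451) (nat_lit 33) (nat_lit 5) (nat_lit 37) (nat_lit 5) (nat_lit 34) (nat_lit 5) (nat_lit 326) (nat_lit 297) (nat_lit 97))) (XT.nd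 (nat_lit 78) (nat_lit 228) (nat_lit 0) (XT.lf (nat_lit 0) (nat_lit 65156555282) (nat_lit 304) (nat_lit 2325717080) (nat_lit 76) (nat_lit 91607792163) (nat_lit 33) (nat_lit 5) (nat_lit 37) (nat_lit 5) (nat_lit 34) (nat_lit 5) (nat_lit 327) (nat_lit 297) (nat_lit 96)) (XT.lf (nat_lit 0) (nat_lit 65076126929) (nat_lit 228) (nat_lit 22315987274) (nat_lit 304) (nat_lit 77178284179) (nat_lit 30) (nat_lit 5) (nat_lit 33) (nat_lit 5) (nat_lit 34) (nat_lit 5) (nat_lit 328) (nat_lit 297) (nat_lit 95))))) (XT.nd (nat_lit 312) (nat_lit 228) (nat_lit 0) (XT.nd (nat_lit 156) (nat_lit 76) (nat_lit 0) (XT.nd (nat_lit 78) (nat_lit 152) (nat_lit 0) (XT.lf (nat_lit 0) (nat_lit 111171249329) (nat_lit 304) (nat_lit 34786981837) (nat_lit 76) (nat_lit 24344928572) (nat_lit 30) (nat_lit 5) (nat_lit 34) (nat_lit 5) (nat_lit 31) (nat_lit 5) (nat_lit 329) (nat_lit 297) (nat_lit 94)) (XT.lf (nat_lit 0) (nat_lit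 33873674526) (nat_lit 152) (nat_lit 103160127075) (nat_lit 228) (nat_lit 39244035226) (nat_lit 28) (nat_lit 5) (nat_lit 30) (nat_lit 5) (nat_lit 31) (nat_lit 5) (nat_lit 330) (nat_lit 297) (nat_lit 93))) (XT.nd (nat_lit 78) (nat_lit 76) (nat_lit 0) (XT.lf (nat_lit 0) (nat_lit 107174763501) (nat_lit 152) (nat_lit 57603620171) (nat_lit 228) (nat_lit 17743419641) (nat_lit 28) (nat_lit 5) (nat_lit 30) (nat_lit 5) (nat_lit 31) (nat_lit 5) (nat_lit 331) (nat_lit 297) (nat_lit 92)) (XT.lf (nat_lit 0) (nat_lit 4677339934) (nat_lit 228) (nat_lit 5012824003) (nat_lit 76) (nat_lit 179384043817) (nat_lit 27) (nat_lit 5) (nat_lit 30) (nat_lit 5) (nat_lit 28) (nat_lit 5) (nat_lit 332) (nat_lit 297) (nat_lit 91)))) (XT.nd (nat_lit 34866) (nat_lit 0) (nat_lit 3116) (XT.nd (nat_lit 34788) (nat_lit 0) (nat_lit 3116) (XT.lf (nat_lit 0) (nat_lit 29385290632) (nat_lit 304) (nat_lit 125728092933) (nat_lit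 76) (nat_lit 40738183208) (nat_lit 24) (nat_lit 5) (nat_lit 28) (nat_lit 5) (nat_lit 25) (nat_lit 5) (nat_lit 333) (nat_lit 297) (nat_lit 90)) (XT.lf (nat_lit 0) (nat_lit 4603161138) (nat_lit 0) (nat_lit 4603161138) (nat_lit 684) (nat_lit 25647456558) (nat_lit 65) (nat_lit 5) (nat_lit 65) (nat_lit 3) (nat_lit 74) (nat_lit 3) (nat_lit 298) (nat_lit 298) (nat_lit 124))) (XT.nd (nat_lit 78) (nat_lit 0) (nat_lit 0) (XT.lf (nat_lit 0) (nat_lit 19209681252) (nat_lit 684) (nat_lit 32101672667) (nat_lit 760) (nat_lit 20122008127) (nat_lit 65) (nat_lit 5) (nat_lit 74) (nat_lit 3) (nat_lit 75) (nat_lit 5) (nat_lit 299) (nat_lit 298) (nat_lit 123)) (XT.nd (nat_lit 78) (nat_lit 0) (nat_lit 76) (XT.lf (nat_lit 0) (nat_lit 20196720018) (nat_lit 684) (nat_lit 2433492849) (nat_lit 760) (nat_lit 50607739368) (nat_lit 65) (nat_lit 5) (nat_lit 74) (nat_lit 3) (nat_lit 75) (nat_lit 5) (nat_lit 300) (nat_lit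 298) (nat_lit 122)) (XT.lf (nat_lit 0) (nat_lit 21820022660) (nat_lit 684) (nat_lit 45566896886) (nat_lit 760) (nat_lit 7716509749) (nat_lit 66) (nat_lit 5) (nat_lit 75) (nat_lit 5) (nat_lit 76) (nat_lit 5) (nat_lit 301) (nat_lit 298) (nat_lit 121))))))) (XT.nd (nat_lit 702) (nat_lit 1292) (nat_lit 0) (XT.nd (nat_lit 312) (nat_lit 456) (nat_lit 0) (XT.nd (nat_lit 156) (nat_lit 0) (nat_lit 76) (XT.nd (nat_lit 78) (nat_lit 0) (nat_lit 0) (XT.lf (nat_lit 0) (nat_lit 23936662555) (nat_lit 684) (nat_lit 14242690994) (nat_lit 760) (nat_lit 38862220871) (nat_lit 66) (nat_lit 5) (nat_lit 75) (nat_lit 5) (nat_lit 76) (nat_lit 5) (nat_lit 302) (nat_lit 298) (nat_lit 120)) (XT.lf (nat_lit 76) (nat_lit 19263857503) (nat_lit 0) (nat_lit 7195370251) (nat_lit 760) (nat_lit 52602397066) (nat_lit 67) (nat_lit 5) (nat_lit 66) (nat_lit 5) (nat_lit 76) (nat_lit 5) (nat_lit 303) (nat_lit 298) (nat_lit 119)))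 (XT.nd (nat_lit 78) (nat_lit 0) (nat_lit 0) (XT.lf (nat_lit 0) (nat_lit 29748035738) (nat_lit 684) (nat_lit 26630421043) (nat_lit 760) (nat_lit 24772217790) (nat_lit 67) (nat_lit 5) (nat_lit 76) (nat_lit 5) (nat_lit 77) (nat_lit 5) (nat_lit 304) (nat_lit 298) (nat_lit 118)) (XT.lf (nat_lit 76) (nat_lit 8343953639) (nat_lit 0) (nat_lit 25104949577) (nat_lit 760) (nat_lit 49882895073) (nat_lit 68) (nat_lit 5) (nat_lit 67) (nat_lit 5) (nat_lit 77) (nat_lit 5) (nat_lit 305) (nat_lit 298) (nat_lit 117)))) (XT.nd (nat_lit 156) (nat_lit 608) (nat_lit 0) (XT.nd (nat_lit 78) (nat_lit 0) (nat_lit 0) (XT.lf (nat_lit 0) (nat_lit 37913342799) (nat_lit 684) (nat_lit 39736416015) (nat_lit 760) (nat_lit 7943295259) (nat_lit 68) (nat_lit 5) (nat_lit 77) (nat_lit 5) (nat_lit 78) (nat_lit 5) (nat_lit 306) (nat_lit 298) (nat_lit 116)) (XT.lf (nat_lit 0) (nat_lit 43012003208) (nat_lit 684) (nat_lit 3134417894)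 (nat_lit 760) (nat_lit 41800403812) (nat_lit 68) (nat_lit 5) (nat_lit 77) (nat_lit 5) (nat_lit 78) (nat_lit 5) (nat_lit 307) (nat_lit 298) (nat_lit 115))) (XT.nd (nat_lit 78) (nat_lit 608) (nat_lit 0) (XT.lf (nat_lit 76) (nat_lit 36464342635) (nat_lit 0) (nat_lit 12470033434) (nat_lit 760) (nat_lit 41455471359) (nat_lit 69) (nat_lit 5) (nat_lit 68) (nat_lit 5) (nat_lit 78) (nat_lit 5) (nat_lit 308) (nat_lit 298) (nat_lit 114)) (XT.nd (nat_lit 78) (nat_lit 684) (nat_lit 0) (XT.lf (nat_lit 0) (nat_lit 55563689544) (nat_lit 684) (nat_lit 15159202240) (nat_lit 76) (nat_lit 22211590188) (nat_lit 69) (nat_lit 5) (nat_lit 78) (nat_lit 5) (nat_lit 70) (nat_lit 5) (nat_lit 309) (nat_lit 298) (nat_lit 113)) (XT.lf (nat_lit 0) (nat_lit 26178436943) (nat_lit 684) (nat_lit 36958690732) (nat_lit 760) (nat_lit 32438589526) (nat_lit 60) (nat_lit 5) (nat_lit 69) (nat_lit 5) (nat_lit 70) (nat_lit 5)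 (nat_lit 310) (nat_lit 298) (nat_lit 112)))))) (XT.nd (nat_lit 312) (nat_lit 684) (nat_lit 0) (XT.nd (nat_lit 156) (nat_lit 304) (nat_lit 0) (XT.nd (nat_lit 78) (nat_lit 304) (nat_lit 0) (XT.lf (nat_lit 0) (nat_lit 70108833026) (nat_lit 684) (nat_lit 1236663193) (nat_lit 760) (nat_lit 26990706864) (nat_lit 60) (nat_lit 5) (nat_lit 69) (nat_lit 5) (nat_lit 70) (nat_lit 5) (nat_lit 311) (nat_lit 298) (nat_lit 111)) (XT.lf (nat_lit 0) (nat_lit 14911576717) (nat_lit 304) (nat_lit 65851370430) (nat_lit 380) (nat_lit 20431834644) (nat_lit 56) (nat_lit 5) (nat_lit 60) (nat_lit 5) (nat_lit 61) (nat_lit 5) (nat_lit 312) (nat_lit 298) (nat_lit 110))) (XT.nd (nat_lit 78) (nat_lit 304) (nat_lit 0) (XT.lf (nat_lit 0) (nat_lit 61166101432) (nat_lit 304) (nat_lit 29982727537) (nat_lit 380) (nat_lit 13022584196) (nat_lit 56) (nat_lit 5) (nat_lit 60) (nat_lit 5) (nat_lit 61) (nat_lit 5) (nat_lit 313)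 (nat_lit 298) (nat_lit 109)) (XT.lf (nat_lit 0) (nat_lit 2392743886) (nat_lit 304) (nat_lit 99818103370) (nat_lit 380) (nat_lit 5078188303) (nat_lit 52) (nat_lit 5) (nat_lit 56) (nat_lit 5) (nat_lit 57) (nat_lit 5) (nat_lit 314) (nat_lit 298) (nat_lit 108)))) (XT.nd (nat_lit 156) (nat_lit 608) (nat_lit 0) (XT.nd (nat_lit 78) (nat_lit 0) (nat_lit 0) (XT.lf (nat_lit 0) (nat_lit 4390346789) (nat_lit 380) (nat_lit 59527211744) (nat_lit 76) (nat_lit 46580865928) (nat_lit 51) (nat_lit 5) (nat_lit 56) (nat_lit 5) (nat_lit 52) (nat_lit 5) (nat_lit 315) (nat_lit 298) (nat_lit 107)) (XT.lf (nat_lit 0) (nat_lit 14161261517) (nat_lit 380) (nat_lit 11973333558) (nat_lit 76) (nat_lit 87729545973) (nat_lit 51) (nat_lit 5) (nat_lit 56) (nat_lit 5) (nat_lit 52) (nat_lit 5) (nat_lit 316) (nat_lit 298) (nat_lit 106))) (XT.nd (nat_lit 78) (nat_lit 304) (nat_lit 0) (XT.lf (nat_lit 0) (nat_lit 25253971831)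 (nat_lit 380) (nat_lit 78376037586) (nat_lit 76) (nat_lit 13726472845) (nat_lit 47) (nat_lit 5) (nat_lit 52) (nat_lit 5) (nat_lit 48) (nat_lit 5) (nat_lit 317) (nat_lit 298) (nat_lit 105)) (XT.nd (nat_lit 78) (nat_lit 304) (nat_lit 0) (XT.lf (nat_lit 0) (nat_lit 37535494936) (nat_lit 380) (nat_lit 28547862869) (nat_lit 76) (nat_lit 54908375098) (nat_lit 47) (nat_lit 5) (nat_lit 52) (nat_lit 5) (nat_lit 48) (nat_lit 5) (nat_lit 318) (nat_lit 298) (nat_lit 104)) (XT.lf (nat_lit 0) (nat_lit 24557327653) (nat_lit 304) (nat_lit 26256835178) (nat_lit 380) (nat_lit 73975430984) (nat_lit 43) (nat_lit 5) (nat_lit 47) (nat_lit 5) (nat_lit 48) (nat_lit 5) (nat_lit 319) (nat_lit 298) (nat_lit 103))))))))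
noncomputable def xc247 : XT := (XT.nd (nat_lit 36192) (nat_lit 0) (nat_lit 1140) (XT.nd (nat_lit 624) (nat_lit 380) (nat_lit 0) (XT.nd (nat_lit 312) (nat_lit 532) (nat_lit 0) (XT.nd (nat_lit 156) (nat_lit 0) (nat_lit 0) (XT.nd (nat_lit 78) (nat_lit 228) (nat_lit 0) (XT.lf (nat_lit 0) (nat_lit 65490782367) (nat_lit 380) (nat_lit 47695547479) (nat_lit 76) (nat_lit 15554318131) (nat_lit 43) (nat_lit 5) (nat_lit 48) (nat_lit 5) (nat_lit 44) (nat_lit 5) (nat_lit 320) (nat_lit 298) (nat_lit 102)) (XT.lf (nat_lit 0) (nat_lit 7269875750) (nat_lit 228) (nat_lit 74174985491) (nat_lit 304) (nat_lit 51417213250) (nat_lit 40) (nat_lit 5) (nat_lit 43) (nat_lit 5) (nat_lit 44) (nat_lit 5) (nat_lit 321) (nat_lit 298) (nat_lit 101))) (XT.nd (nat_lit 78) (nat_lit 0) (nat_lit 0) (XT.lf (nat_lit 0) (nat_lit 66639084972) (nat_lit 228) (nat_lit 32365000826) (nat_lit 304) (nat_lit 38145115455) (nat_lit 40)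 (nat_lit 5) (nat_lit 43) (nat_lit 5) (nat_lit 44) (nat_lit 5) (nat_lit 322) (nat_lit 298) (nat_lit 100)) (XT.lf (nat_lit 0) (nat_lit 117621081000) (nat_lit 304) (nat_lit 12854394920) (nat_lit 76) (nat_lit 11166218928) (nat_lit 40) (nat_lit 5) (nat_lit 44) (nat_lit 5) (nat_lit 41) (nat_lit 5) (nat_lit 323) (nat_lit 298) (nat_lit 99)))) (XT.nd (nat_lit 156) (nat_lit 228) (nat_lit 0) (XT.nd (nat_lit 78) (nat_lit 76) (nat_lit 0) (XT.lf (nat_lit 0) (nat_lit 48712289535) (nat_lit 228) (nat_lit 89747467656) (nat_lit 304) (nat_lit 7834515287) (nat_lit 37) (nat_lit 5) (nat_lit 40) (nat_lit 5) (nat_lit 41) (nat_lit 5) (nat_lit 324) (nat_lit 298) (nat_lit 98)) (XT.lf (nat_lit 0) (nat_lit 9088671471) (nat_lit 304) (nat_lit 37511957367) (nat_lit 76) (nat_lit 104560650183) (nat_lit 36) (nat_lit 5) (nat_lit 40) (nat_lit 5) (nat_lit 37) (nat_lit 5) (nat_lit 325) (nat_lit 298) (nat_lit 97))) (XT.nd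 (nat_lit 78) (nat_lit 0) (nat_lit 0) (XT.lf (nat_lit 0) (nat_lit 26273723759) (nat_lit 228) (nat_lit 730947017) (nat_lit 304) (nat_lit 129240046957) (nat_lit 33) (nat_lit 5) (nat_lit 36) (nat_lit 5) (nat_lit 37) (nat_lit 5) (nat_lit 326) (nat_lit 298) (nat_lit 96)) (XT.lf (nat_lit 0) (nat_lit 47202461567) (nat_lit 304) (nat_lit 67750850415) (nat_lit 76) (nat_lit 46559717578) (nat_lit 33) (nat_lit 5) (nat_lit 37) (nat_lit 5) (nat_lit 34) (nat_lit 5) (nat_lit 327) (nat_lit 298) (nat_lit 95))))) (XT.nd (nat_lit 312) (nat_lit 0) (nat_lit 0) (XT.nd (nat_lit 156) (nat_lit 152) (nat_lit 0) (XT.nd (nat_lit 78) (nat_lit 228) (nat_lit 0) (XT.lf (nat_lit 0) (nat_lit 68421880853) (nat_lit 304) (nat_lit 2432007408) (nat_lit 76) (nat_lit 96190282489) (nat_lit 33) (nat_lit 5) (nat_lit 37) (nat_lit 5) (nat_lit 34) (nat_lit 5) (nat_lit 328) (nat_lit 298) (nat_lit 94)) (XT.lf (nat_lit 0) (nat_lit 68339767584)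 (nat_lit 228) (nat_lit 23429246639) (nat_lit 304) (nat_lit 81029518305) (nat_lit 30) (nat_lit 5) (nat_lit 33) (nat_lit 5) (nat_lit 34) (nat_lit 5) (nat_lit 329) (nat_lit 298) (nat_lit 93))) (XT.nd (nat_lit 78) (nat_lit 152) (nat_lit 0) (XT.lf (nat_lit 0) (nat_lit 116736796525) (nat_lit 304) (nat_lit 36516635286) (nat_lit 76) (nat_lit 25564516623) (nat_lit 30) (nat_lit 5) (nat_lit 34) (nat_lit 5) (nat_lit 31) (nat_lit 5) (nat_lit 330) (nat_lit 298) (nat_lit 92)) (XT.lf (nat_lit 0) (nat_lit 35576897514) (nat_lit 152) (nat_lit 108315395225) (nat_lit 228) (nat_lit 41199076777) (nat_lit 28) (nat_lit 5) (nat_lit 30) (nat_lit 5) (nat_lit 31) (nat_lit 5) (nat_lit 331) (nat_lit 298) (nat_lit 91)))) (XT.nd (nat_lit 35022) (nat_lit 0) (nat_lit 2812) (XT.nd (nat_lit 34944) (nat_lit 0) (nat_lit 2812) (XT.lf (nat_lit 0) (nat_lit 112542586687) (nat_lit 152) (nat_lit 60481193367) (nat_lit 228) (nat_lit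 18623771375) (nat_lit 28) (nat_lit 5) (nat_lit 30) (nat_lit 5) (nat_lit 31) (nat_lit 5) (nat_lit 332) (nat_lit 298) (nat_lit 90)) (XT.lf (nat_lit 0) (nat_lit 4839310208) (nat_lit 0) (nat_lit 4839310208) (nat_lit 684) (nat_lit 26917200480) (nat_lit 65) (nat_lit 5) (nat_lit 65) (nat_lit 3) (nat_lit 74) (nat_lit 3) (nat_lit 299) (nat_lit 299) (nat_lit 122))) (XT.nd (nat_lit 78) (nat_lit 0) (nat_lit 0) (XT.lf (nat_lit 0) (nat_lit 20192810054) (nat_lit 684) (nat_lit 33693934529) (nat_lit 760) (nat_lit 21117062319) (nat_lit 65) (nat_lit 5) (nat_lit 74) (nat_lit 3) (nat_lit 75) (nat_lit 5) (nat_lit 300) (nat_lit 299) (nat_lit 121)) (XT.nd (nat_lit 78) (nat_lit 0) (nat_lit 76) (XT.lf (nat_lit 0) (nat_lit 21228122437) (nat_lit 684) (nat_lit 2542956281) (nat_lit 760) (nat_lit 53127606132) (nat_lit 65) (nat_lit 5) (nat_lit 74) (nat_lit 3) (nat_lit 75) (nat_lit 5) (nat_lit 301) (nat_lit 299) (nat_lit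 120)) (XT.lf (nat_lit 0) (nat_lit 22931614785) (nat_lit 684) (nat_lit 47831972544) (nat_lit 760) (nat_lit 8093901333) (nat_lit 66) (nat_lit 5) (nat_lit 75) (nat_lit 5) (nat_lit 76) (nat_lit 5) (nat_lit 302) (nat_lit 299) (nat_lit 119))))))) (XT.nd (nat_lit 702) (nat_lit 1292) (nat_lit 0) (XT.nd (nat_lit 312) (nat_lit 456) (nat_lit 0) (XT.nd (nat_lit 156) (nat_lit 0) (nat_lit 76) (XT.nd (nat_lit 78) (nat_lit 0) (nat_lit 0) (XT.lf (nat_lit 0) (nat_lit 25153106151) (nat_lit 684) (nat_lit 14942188224) (nat_lit 760) (nat_lit 40797299625) (nat_lit 66) (nat_lit 5) (nat_lit 75) (nat_lit 5) (nat_lit 76) (nat_lit 5) (nat_lit 303) (nat_lit 299) (nat_lit 118)) (XT.lf (nat_lit 76) (nat_lit 20239483871) (nat_lit 0) (nat_lit 7561576029) (nat_lit 760) (nat_lit 55212627750) (nat_lit 67) (nat_lit 5) (nat_lit 66) (nat_lit 5) (nat_lit 76) (nat_lit 5) (nat_lit 304) (nat_lit 299) (nat_lit 117))) (XT.nd (nat_lit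 78) (nat_lit 0) (nat_lit 0) (XT.lf (nat_lit 0) (nat_lit 31253313958) (nat_lit 684) (nat_lit 27949035040) (nat_lit 760) (nat_lit 26004894172) (nat_lit 67) (nat_lit 5) (nat_lit 76) (nat_lit 5) (nat_lit 77) (nat_lit 5) (nat_lit 305) (nat_lit 299) (nat_lit 116)) (XT.lf (nat_lit 76) (nat_lit 8773850198) (nat_lit 0) (nat_lit 26364721617) (nat_lit 760) (nat_lit 52358887302) (nat_lit 68) (nat_lit 5) (nat_lit 67) (nat_lit 5) (nat_lit 77) (nat_lit 5) (nat_lit 306) (nat_lit 299) (nat_lit 115)))) (XT.nd (nat_lit 156) (nat_lit 608) (nat_lit 0) (XT.nd (nat_lit 78) (nat_lit 0) (nat_lit 0) (XT.lf (nat_lit 0) (nat_lit 39825345937) (nat_lit 684) (nat_lit 41710190527) (nat_lit 760) (nat_lit 8336288834) (nat_lit 68) (nat_lit 5) (nat_lit 77) (nat_lit 5) (nat_lit 78) (nat_lit 5) (nat_lit 307) (nat_lit 299) (nat_lit 114)) (XT.lf (nat_lit 0) (nat_lit 45178161462) (nat_lit 684) (nat_lit 3278713752) (nat_lit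 760) (nat_lit 43886451443) (nat_lit 68) (nat_lit 5) (nat_lit 77) (nat_lit 5) (nat_lit 78) (nat_lit 5) (nat_lit 308) (nat_lit 299) (nat_lit 113))) (XT.nd (nat_lit 78) (nat_lit 608) (nat_lit 0) (XT.lf (nat_lit 76) (nat_lit 38299784400) (nat_lit 0) (nat_lit 13096318565) (nat_lit 760) (nat_lit 43512427764) (nat_lit 69) (nat_lit 5) (nat_lit 68) (nat_lit 5) (nat_lit 78) (nat_lit 5) (nat_lit 309) (nat_lit 299) (nat_lit 112)) (XT.nd (nat_lit 78) (nat_lit 684) (nat_lit 0) (XT.lf (nat_lit 0) (nat_lit 58356126054) (nat_lit 684) (nat_lit 15904707913) (nat_lit 76) (nat_lit 23319603630) (nat_lit 69) (nat_lit 5) (nat_lit 78) (nat_lit 5) (nat_lit 70) (nat_lit 5) (nat_lit 310) (nat_lit 299) (nat_lit 111)) (XT.lf (nat_lit 0) (nat_lit 27499612351) (nat_lit 684) (nat_lit 38808136385) (nat_lit 760) (nat_lit 34046012879) (nat_lit 60) (nat_lit 5) (nat_lit 69) (nat_lit 5) (nat_lit 70) (nat_lit 5) (nat_lit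 311) (nat_lit 299) (nat_lit 110)))))) (XT.nd (nat_lit 312) (nat_lit 684) (nat_lit 0) (XT.nd (nat_lit 156) (nat_lit 304) (nat_lit 0) (XT.nd (nat_lit 78) (nat_lit 304) (nat_lit 0) (XT.lf (nat_lit 0) (nat_lit 73625944736) (nat_lit 684) (nat_lit 1299935511) (nat_lit 760) (nat_lit 28326426852) (nat_lit 60) (nat_lit 5) (nat_lit 69) (nat_lit 5) (nat_lit 70) (nat_lit 5) (nat_lit 312) (nat_lit 299) (nat_lit 109)) (XT.lf (nat_lit 0) (nat_lit 15669354240) (nat_lit 304) (nat_lit 69144394289) (nat_lit 380) (nat_lit 21440091386) (nat_lit 56) (nat_lit 5) (nat_lit 60) (nat_lit 5) (nat_lit 61) (nat_lit 5) (nat_lit 313) (nat_lit 299) (nat_lit 108))) (XT.nd (nat_lit 78) (nat_lit 304) (nat_lit 0) (XT.lf (nat_lit 0) (nat_lit 64236024301) (nat_lit 304) (nat_lit 31482297569) (nat_lit 380) (nat_lit 13661013415) (nat_lit 56) (nat_lit 5) (nat_lit 60) (nat_lit 5) (nat_lit 61) (nat_lit 5) (nat_lit 314) (nat_lit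 299) (nat_lit 107)) (XT.lf (nat_lit 0) (nat_lit 2524456234) (nat_lit 304) (nat_lit 104808593037) (nat_lit 380) (nat_lit 5319811306) (nat_lit 52) (nat_lit 5) (nat_lit 56) (nat_lit 5) (nat_lit 57) (nat_lit 5) (nat_lit 315) (nat_lit 299) (nat_lit 106)))) (XT.nd (nat_lit 156) (nat_lit 608) (nat_lit 0) (XT.nd (nat_lit 78) (nat_lit 0) (nat_lit 0) (XT.lf (nat_lit 0) (nat_lit 4621190957) (nat_lit 380) (nat_lit 62491657961) (nat_lit 76) (nat_lit 48909890716) (nat_lit 51) (nat_lit 5) (nat_lit 56) (nat_lit 5) (nat_lit 52) (nat_lit 5) (nat_lit 316) (nat_lit 299) (nat_lit 105)) (XT.lf (nat_lit 0) (nat_lit 14880112048) (nat_lit 380) (nat_lit 12560653217) (nat_lit 76) (nat_lit 92116005645) (nat_lit 51) (nat_lit 5) (nat_lit 56) (nat_lit 5) (nat_lit 52) (nat_lit 5) (nat_lit 317) (nat_lit 299) (nat_lit 104))) (XT.nd (nat_lit 78) (nat_lit 304) (nat_lit 0) (XT.lf (nat_lit 0) (nat_lit 26527129669) (nat_lit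 380) (nat_lit 82283128222) (nat_lit 76) (nat_lit 14413489506) (nat_lit 47) (nat_lit 5) (nat_lit 52) (nat_lit 5) (nat_lit 48) (nat_lit 5) (nat_lit 318) (nat_lit 299) (nat_lit 103)) (XT.nd (nat_lit 78) (nat_lit 304) (nat_lit 0) (XT.lf (nat_lit 0) (nat_lit 39422230870) (nat_lit 380) (nat_lit 29964102447) (nat_lit 76) (nat_lit 57654453871) (nat_lit 47) (nat_lit 5) (nat_lit 52) (nat_lit 5) (nat_lit 48) (nat_lit 5) (nat_lit 319) (nat_lit 299) (nat_lit 102)) (XT.lf (nat_lit 0) (nat_lit 25796167705) (nat_lit 304) (nat_lit 27568361443) (nat_lit 380) (nat_lit 77664028783) (nat_lit 43) (nat_lit 5) (nat_lit 47) (nat_lit 5) (nat_lit 48) (nat_lit 5) (nat_lit 320) (nat_lit 299) (nat_lit 101))))))))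
noncomputable def xc248 : XT := (XT.nd (nat_lit 36348) (nat_lit 0) (nat_lit 760) (XT.nd (nat_lit 624) (nat_lit 228) (nat_lit 0) (XT.nd (nat_lit 312) (nat_lit 532) (nat_lit 0) (XT.nd (nat_lit 156) (nat_lit 0) (nat_lit 0) (XT.nd (nat_lit 78) (nat_lit 228) (nat_lit 0) (XT.lf (nat_lit 0) (nat_lit 68774539307) (nat_lit 380) (nat_lit 50069402276) (nat_lit 76) (nat_lit 16333246790) (nat_lit 43) (nat_lit 5) (nat_lit 48) (nat_lit 5) (nat_lit 44) (nat_lit 5) (nat_lit 321) (nat_lit 299) (nat_lit 100)) (XT.lf (nat_lit 0) (nat_lit 7644115944) (nat_lit 228) (nat_lit 77881935018) (nat_lit 304) (nat_lit 53978650289) (nat_lit 40) (nat_lit 5) (nat_lit 43) (nat_lit 5) (nat_lit 44) (nat_lit 5) (nat_lit 322) (nat_lit 299) (nat_lit 99))) (XT.nd (nat_lit 78) (nat_lit 0) (nat_lit 0) (XT.lf (nat_lit 0) (nat_lit 69981273894) (nat_lit 228) (nat_lit 33981536823) (nat_lit 304) (nat_lit 40043396349) (nat_lit 40)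 (nat_lit 5) (nat_lit 43) (nat_lit 5) (nat_lit 44) (nat_lit 5) (nat_lit 323) (nat_lit 299) (nat_lit 98)) (XT.lf (nat_lit 0) (nat_lit 123510275421) (nat_lit 304) (nat_lit 13486960226) (nat_lit 76) (nat_lit 11726110050) (nat_lit 40) (nat_lit 5) (nat_lit 44) (nat_lit 5) (nat_lit 41) (nat_lit 5) (nat_lit 324) (nat_lit 299) (nat_lit 97)))) (XT.nd (nat_lit 156) (nat_lit 228) (nat_lit 0) (XT.nd (nat_lit 78) (nat_lit 76) (nat_lit 0) (XT.lf (nat_lit 0) (nat_lit 51157894671) (nat_lit 228) (nat_lit 94232759096) (nat_lit 304) (nat_lit 8217911304) (nat_lit 37) (nat_lit 5) (nat_lit 40) (nat_lit 5) (nat_lit 41) (nat_lit 5) (nat_lit 325) (nat_lit 299) (nat_lit 96)) (XT.lf (nat_lit 0) (nat_lit 9550784229) (nat_lit 304) (nat_lit 39377763197) (nat_lit 76) (nat_lit 109790388370) (nat_lit 36) (nat_lit 5) (nat_lit 40) (nat_lit 5) (nat_lit 37) (nat_lit 5) (nat_lit 326) (nat_lit 299) (nat_lit 95))) (XT.nd (nat_lit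 78) (nat_lit 0) (nat_lit 0) (XT.lf (nat_lit 0) (nat_lit 27597044049) (nat_lit 228) (nat_lit 765324190) (nat_lit 304) (nat_lit 135694190074) (nat_lit 33) (nat_lit 5) (nat_lit 36) (nat_lit 5) (nat_lit 37) (nat_lit 5) (nat_lit 327) (nat_lit 299) (nat_lit 94)) (XT.lf (nat_lit 0) (nat_lit 49569725414) (nat_lit 304) (nat_lit 71128873386) (nat_lit 76) (nat_lit 48889704142) (nat_lit 33) (nat_lit 5) (nat_lit 37) (nat_lit 5) (nat_lit 34) (nat_lit 5) (nat_lit 328) (nat_lit 299) (nat_lit 93))))) (XT.nd (nat_lit 35334) (nat_lit 0) (nat_lit 2660) (XT.nd (nat_lit 156) (nat_lit 0) (nat_lit 0) (XT.nd (nat_lit 78) (nat_lit 228) (nat_lit 0) (XT.lf (nat_lit 0) (nat_lit 71849775628) (nat_lit 304) (nat_lit 2544541541) (nat_lit 76) (nat_lit 101001702027) (nat_lit 33) (nat_lit 5) (nat_lit 37) (nat_lit 5) (nat_lit 34) (nat_lit 5) (nat_lit 329) (nat_lit 299) (nat_lit 92)) (XT.lf (nat_lit 0) (nat_lit 71765675971)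 (nat_lit 228) (nat_lit 24598405117) (nat_lit 304) (nat_lit 85074028159) (nat_lit 30) (nat_lit 5) (nat_lit 33) (nat_lit 5) (nat_lit 34) (nat_lit 5) (nat_lit 330) (nat_lit 299) (nat_lit 91))) (XT.nd (nat_lit 35100) (nat_lit 0) (nat_lit 2660) (XT.lf (nat_lit 0) (nat_lit 122579971707) (nat_lit 304) (nat_lit 38333672817) (nat_lit 76) (nat_lit 26844866373) (nat_lit 30) (nat_lit 5) (nat_lit 34) (nat_lit 5) (nat_lit 31) (nat_lit 5) (nat_lit 331) (nat_lit 299) (nat_lit 90)) (XT.lf (nat_lit 0) (nat_lit 5086709743) (nat_lit 0) (nat_lit 5086709743) (nat_lit 684) (nat_lit 28251605714) (nat_lit 65) (nat_lit 5) (nat_lit 65) (nat_lit 3) (nat_lit 74) (nat_lit 3) (nat_lit 300) (nat_lit 300) (nat_lit 120)))) (XT.nd (nat_lit 156) (nat_lit 0) (nat_lit 76) (XT.nd (nat_lit 78) (nat_lit 0) (nat_lit 0) (XT.lf (nat_lit 0) (nat_lit 21222990002) (nat_lit 684) (nat_lit 35367001530) (nat_lit 760) (nat_lit 22162896193)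 (nat_lit 65) (nat_lit 5) (nat_lit 74) (nat_lit 3) (nat_lit 75) (nat_lit 5) (nat_lit 301) (nat_lit 300) (nat_lit 119)) (XT.lf (nat_lit 0) (nat_lit 22309089936) (nat_lit 684) (nat_lit 2659028166) (nat_lit 760) (nat_lit 55774444303) (nat_lit 65) (nat_lit 5) (nat_lit 74) (nat_lit 3) (nat_lit 75) (nat_lit 5) (nat_lit 302) (nat_lit 300) (nat_lit 118))) (XT.nd (nat_lit 78) (nat_lit 0) (nat_lit 0) (XT.lf (nat_lit 0) (nat_lit 24096872161) (nat_lit 684) (nat_lit 50211535628) (nat_lit 760) (nat_lit 8490946601) (nat_lit 66) (nat_lit 5) (nat_lit 75) (nat_lit 5) (nat_lit 76) (nat_lit 5) (nat_lit 303) (nat_lit 300) (nat_lit 117)) (XT.nd (nat_lit 78) (nat_lit 0) (nat_lit 0) (XT.lf (nat_lit 0) (nat_lit 26428548732) (nat_lit 684) (nat_lit 15677835213) (nat_lit 760) (nat_lit 42829879084) (nat_lit 66) (nat_lit 5) (nat_lit 75) (nat_lit 5) (nat_lit 76) (nat_lit 5) (nat_lit 304) (nat_lit 300) (nat_lit 116))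 (XT.lf (nat_lit 76) (nat_lit 21262735609) (nat_lit 0) (nat_lit 7945493620) (nat_lit 760) (nat_lit 57955219074) (nat_lit 67) (nat_lit 5) (nat_lit 66) (nat_lit 5) (nat_lit 76) (nat_lit 5) (nat_lit 305) (nat_lit 300) (nat_lit 115))))))) (XT.nd (nat_lit 702) (nat_lit 1216) (nat_lit 0) (XT.nd (nat_lit 312) (nat_lit 836) (nat_lit 0) (XT.nd (nat_lit 156) (nat_lit 0) (nat_lit 76) (XT.nd (nat_lit 78) (nat_lit 0) (nat_lit 0) (XT.lf (nat_lit 0) (nat_lit 32832194107) (nat_lit 684) (nat_lit 29334779712) (nat_lit 760) (nat_lit 27299756108) (nat_lit 67) (nat_lit 5) (nat_lit 76) (nat_lit 5) (nat_lit 77) (nat_lit 5) (nat_lit 306) (nat_lit 300) (nat_lit 114)) (XT.lf (nat_lit 76) (nat_lit 9224060964) (nat_lit 0) (nat_lit 27687061609) (nat_lit 760) (nat_lit 54960366793) (nat_lit 68) (nat_lit 5) (nat_lit 67) (nat_lit 5) (nat_lit 77) (nat_lit 5) (nat_lit 307) (nat_lit 300) (nat_lit 113))) (XT.nd (nat_lit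 78) (nat_lit 0) (nat_lit 0) (XT.lf (nat_lit 0) (nat_lit 41831430466) (nat_lit 684) (nat_lit 43783866685) (nat_lit 760) (nat_lit 8749319885) (nat_lit 68) (nat_lit 5) (nat_lit 77) (nat_lit 5) (nat_lit 78) (nat_lit 5) (nat_lit 308) (nat_lit 300) (nat_lit 112)) (XT.lf (nat_lit 0) (nat_lit 47451181184) (nat_lit 684) (nat_lit 3431379565) (nat_lit 760) (nat_lit 46077170786) (nat_lit 68) (nat_lit 5) (nat_lit 77) (nat_lit 5) (nat_lit 78) (nat_lit 5) (nat_lit 309) (nat_lit 300) (nat_lit 111)))) (XT.nd (nat_lit 156) (nat_lit 912) (nat_lit 0) (XT.nd (nat_lit 78) (nat_lit 0) (nat_lit 76) (XT.lf (nat_lit 76) (nat_lit 40225861722) (nat_lit 0) (nat_lit 13753659174) (nat_lit 760) (nat_lit 45673702519) (nat_lit 69) (nat_lit 5) (nat_lit 68) (nat_lit 5) (nat_lit 78) (nat_lit 5) (nat_lit 310) (nat_lit 300) (nat_lit 110)) (XT.lf (nat_lit 0) (nat_lit 61286859371) (nat_lit 684) (nat_lit 16688646765) (nat_lit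 76) (nat_lit 24483256312) (nat_lit 69) (nat_lit 5) (nat_lit 78) (nat_lit 5) (nat_lit 70) (nat_lit 5) (nat_lit 311) (nat_lit 300) (nat_lit 109))) (XT.nd (nat_lit 78) (nat_lit 304) (nat_lit 0) (XT.lf (nat_lit 0) (nat_lit 28885707310) (nat_lit 684) (nat_lit 40749913832) (nat_lit 760) (nat_lit 35735156042) (nat_lit 60) (nat_lit 5) (nat_lit 69) (nat_lit 5) (nat_lit 70) (nat_lit 5) (nat_lit 312) (nat_lit 300) (nat_lit 108)) (XT.nd (nat_lit 78) (nat_lit 304) (nat_lit 0) (XT.lf (nat_lit 0) (nat_lit 77317827059) (nat_lit 684) (nat_lit 1366237646) (nat_lit 760) (nat_lit 29730217260) (nat_lit 60) (nat_lit 5) (nat_lit 69) (nat_lit 5) (nat_lit 70) (nat_lit 5) (nat_lit 313) (nat_lit 300) (nat_lit 107)) (XT.lf (nat_lit 0) (nat_lit 16463886521) (nat_lit 304) (nat_lit 72602027008) (nat_lit 380) (nat_lit 22500000726) (nat_lit 56) (nat_lit 5) (nat_lit 60) (nat_lit 5) (nat_lit 61) (nat_lit 5) (nat_lit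 314) (nat_lit 300) (nat_lit 106)))))) (XT.nd (nat_lit 312) (nat_lit 836) (nat_lit 0) (XT.nd (nat_lit 156) (nat_lit 76) (nat_lit 0) (XT.nd (nat_lit 78) (nat_lit 304) (nat_lit 0) (XT.lf (nat_lit 0) (nat_lit 67458363201) (nat_lit 304) (nat_lit 33056805784) (nat_lit 380) (nat_lit 14332544820) (nat_lit 56) (nat_lit 5) (nat_lit 60) (nat_lit 5) (nat_lit 61) (nat_lit 5) (nat_lit 315) (nat_lit 300) (nat_lit 105)) (XT.lf (nat_lit 0) (nat_lit 2661631566) (nat_lit 304) (nat_lit 110048645817) (nat_lit 380) (nat_lit 5574657734) (nat_lit 52) (nat_lit 5) (nat_lit 56) (nat_lit 5) (nat_lit 57) (nat_lit 5) (nat_lit 316) (nat_lit 300) (nat_lit 104))) (XT.nd (nat_lit 78) (nat_lit 0) (nat_lit 0) (XT.lf (nat_lit 0) (nat_lit 4862524272) (nat_lit 380) (nat_lit 65605434175) (nat_lit 76) (nat_lit 51355368465) (nat_lit 51) (nat_lit 5) (nat_lit 56) (nat_lit 5) (nat_lit 52) (nat_lit 5) (nat_lit 317) (nat_lit 300)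 (nat_lit 103)) (XT.lf (nat_lit 0) (nat_lit 15633902191) (nat_lit 380) (nat_lit 13178393798) (nat_lit 76) (nat_lit 96721789939) (nat_lit 51) (nat_lit 5) (nat_lit 56) (nat_lit 5) (nat_lit 52) (nat_lit 5) (nat_lit 318) (nat_lit 300) (nat_lit 102)))) (XT.nd (nat_lit 156) (nat_lit 532) (nat_lit 0) (XT.nd (nat_lit 78) (nat_lit 0) (nat_lit 0) (XT.lf (nat_lit 0) (nat_lit 27862972997) (nat_lit 380) (nat_lit 86386662190) (nat_lit 76) (nat_lit 15134792570) (nat_lit 47) (nat_lit 5) (nat_lit 52) (nat_lit 5) (nat_lit 48) (nat_lit 5) (nat_lit 319) (nat_lit 300) (nat_lit 101)) (XT.lf (nat_lit 0) (nat_lit 41402377504) (nat_lit 380) (nat_lit 31452190957) (nat_lit 76) (nat_lit 60537775221) (nat_lit 47) (nat_lit 5) (nat_lit 52) (nat_lit 5) (nat_lit 48) (nat_lit 5) (nat_lit 320) (nat_lit 300) (nat_lit 100))) (XT.nd (nat_lit 78) (nat_lit 228) (nat_lit 0) (XT.lf (nat_lit 0) (nat_lit 27095929531) (nat_lit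 304) (nat_lit 28945586323) (nat_lit 380) (nat_lit 81538002330) (nat_lit 43) (nat_lit 5) (nat_lit 47) (nat_lit 5) (nat_lit 48) (nat_lit 5) (nat_lit 321) (nat_lit 300) (nat_lit 99)) (XT.nd (nat_lit 78) (nat_lit 228) (nat_lit 0) (XT.lf (nat_lit 0) (nat_lit 72221627109) (nat_lit 380) (nat_lit 52562965290) (nat_lit 76) (nat_lit 17151009132) (nat_lit 43) (nat_lit 5) (nat_lit 48) (nat_lit 5) (nat_lit 44) (nat_lit 5) (nat_lit 322) (nat_lit 300) (nat_lit 98)) (XT.lf (nat_lit 0) (nat_lit 8036069049) (nat_lit 228) (nat_lit 81774399346) (nat_lit 304) (nat_lit 56669035300) (nat_lit 40) (nat_lit 5) (nat_lit 43) (nat_lit 5) (nat_lit 44) (nat_lit 5) (nat_lit 323) (nat_lit 300) (nat_lit 97))))))))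
noncomputable def xc249 : XT := (XT.nd (nat_lit 36504) (nat_lit 0) (nat_lit 228) (XT.nd (nat_lit 35802) (nat_lit 0) (nat_lit 2432) (XT.nd (nat_lit 312) (nat_lit 228) (nat_lit 0) (XT.nd (nat_lit 156) (nat_lit 304) (nat_lit 0) (XT.nd (nat_lit 78) (nat_lit 0) (nat_lit 0) (XT.lf (nat_lit 0) (nat_lit 73489620740) (nat_lit 228) (nat_lit 35679058975) (nat_lit 304) (nat_lit 42037425687) (nat_lit 40) (nat_lit 5) (nat_lit 43) (nat_lit 5) (nat_lit 44) (nat_lit 5) (nat_lit 324) (nat_lit 300) (nat_lit 96)) (XT.lf (nat_lit 0) (nat_lit 129693172748) (nat_lit 304) (nat_lit 14152097860) (nat_lit 76) (nat_lit 12313848819) (nat_lit 40) (nat_lit 5) (nat_lit 44) (nat_lit 5) (nat_lit 41) (nat_lit 5) (nat_lit 325) (nat_lit 300) (nat_lit 95))) (XT.nd (nat_lit 78) (nat_lit 76) (nat_lit 0) (XT.lf (nat_lit 0) (nat_lit 53724851228) (nat_lit 228) (nat_lit 98942508667) (nat_lit 304) (nat_lit 8621251542) (nat_lit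 37) (nat_lit 5) (nat_lit 40) (nat_lit 5) (nat_lit 41) (nat_lit 5) (nat_lit 326) (nat_lit 300) (nat_lit 94)) (XT.lf (nat_lit 0) (nat_lit 10035288687) (nat_lit 304) (nat_lit 41337769689) (nat_lit 76) (nat_lit 115281454890) (nat_lit 36) (nat_lit 5) (nat_lit 40) (nat_lit 5) (nat_lit 37) (nat_lit 5) (nat_lit 327) (nat_lit 300) (nat_lit 93)))) (XT.nd (nat_lit 156) (nat_lit 0) (nat_lit 0) (XT.nd (nat_lit 78) (nat_lit 0) (nat_lit 0) (XT.lf (nat_lit 0) (nat_lit 28985634666) (nat_lit 228) (nat_lit 801621985) (nat_lit 304) (nat_lit 142471771023) (nat_lit 33) (nat_lit 5) (nat_lit 36) (nat_lit 5) (nat_lit 37) (nat_lit 5) (nat_lit 328) (nat_lit 300) (nat_lit 92)) (XT.lf (nat_lit 0) (nat_lit 52054688573) (nat_lit 304) (nat_lit 74676682544) (nat_lit 76) (nat_lit 51336004028) (nat_lit 33) (nat_lit 5) (nat_lit 37) (nat_lit 5) (nat_lit 34) (nat_lit 5) (nat_lit 329) (nat_lit 300) (nat_lit 91))) (XT.nd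 (nat_lit 35256) (nat_lit 0) (nat_lit 2432) (XT.lf (nat_lit 0) (nat_lit 75448432874) (nat_lit 304) (nat_lit 2663545274) (nat_lit 76) (nat_lit 106053515395) (nat_lit 33) (nat_lit 5) (nat_lit 37) (nat_lit 5) (nat_lit 34) (nat_lit 5) (nat_lit 330) (nat_lit 300) (nat_lit 90)) (XT.lf (nat_lit 0) (nat_lit 5345974051) (nat_lit 0) (nat_lit 5345974051) (nat_lit 684) (nat_lit 29653796167) (nat_lit 65) (nat_lit 5) (nat_lit 65) (nat_lit 3) (nat_lit 74) (nat_lit 3) (nat_lit 301) (nat_lit 301) (nat_lit 118))))) (XT.nd (nat_lit 312) (nat_lit 0) (nat_lit 76) (XT.nd (nat_lit 156) (nat_lit 0) (nat_lit 76) (XT.nd (nat_lit 78) (nat_lit 0) (nat_lit 0) (XT.lf (nat_lit 0) (nat_lit 22302769386) (nat_lit 684) (nat_lit 37124803103) (nat_lit 760) (nat_lit 23261953255) (nat_lit 65) (nat_lit 5) (nat_lit 74) (nat_lit 3) (nat_lit 75) (nat_lit 5) (nat_lit 302) (nat_lit 301) (nat_lit 117)) (XT.lf (nat_lit 0) (nat_lit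 23442287179) (nat_lit 684) (nat_lit 2781933381) (nat_lit 760) (nat_lit 58554511520) (nat_lit 65) (nat_lit 5) (nat_lit 74) (nat_lit 3) (nat_lit 75) (nat_lit 5) (nat_lit 303) (nat_lit 301) (nat_lit 116))) (XT.nd (nat_lit 78) (nat_lit 0) (nat_lit 0) (XT.lf (nat_lit 0) (nat_lit 25318656028) (nat_lit 684) (nat_lit 52711195817) (nat_lit 760) (nat_lit 8908555338) (nat_lit 66) (nat_lit 5) (nat_lit 75) (nat_lit 5) (nat_lit 76) (nat_lit 5) (nat_lit 304) (nat_lit 301) (nat_lit 115)) (XT.lf (nat_lit 0) (nat_lit 27766109749) (nat_lit 684) (nat_lit 16451330218) (nat_lit 760) (nat_lit 44964764854) (nat_lit 66) (nat_lit 5) (nat_lit 75) (nat_lit 5) (nat_lit 76) (nat_lit 5) (nat_lit 305) (nat_lit 301) (nat_lit 114)))) (XT.nd (nat_lit 156) (nat_lit 0) (nat_lit 76) (XT.nd (nat_lit 78) (nat_lit 0) (nat_lit 76) (XT.lf (nat_lit 76) (nat_lit 22336101455) (nat_lit 0) (nat_lit 8348064255) (nat_lit 760) (nat_lit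 60836617158) (nat_lit 67) (nat_lit 5) (nat_lit 66) (nat_lit 5) (nat_lit 76) (nat_lit 5) (nat_lit 306) (nat_lit 301) (nat_lit 113)) (XT.lf (nat_lit 0) (nat_lit 34488510798) (nat_lit 684) (nat_lit 30790900031) (nat_lit 760) (nat_lit 28659861579) (nat_lit 67) (nat_lit 5) (nat_lit 76) (nat_lit 5) (nat_lit 77) (nat_lit 5) (nat_lit 307) (nat_lit 301) (nat_lit 112))) (XT.nd (nat_lit 78) (nat_lit 0) (nat_lit 76) (XT.lf (nat_lit 76) (nat_lit 9695711410) (nat_lit 0) (nat_lit 29075137058) (nat_lit 760) (nat_lit 57693451007) (nat_lit 68) (nat_lit 5) (nat_lit 67) (nat_lit 5) (nat_lit 77) (nat_lit 5) (nat_lit 308) (nat_lit 301) (nat_lit 111)) (XT.nd (nat_lit 78) (nat_lit 0) (nat_lit 0) (XT.lf (nat_lit 0) (nat_lit 43936441655) (nat_lit 684) (nat_lit 45962326806) (nat_lit 760) (nat_lit 9183354233) (nat_lit 68) (nat_lit 5) (nat_lit 77) (nat_lit 5) (nat_lit 78) (nat_lit 5) (nat_lit 309) (nat_lit 301)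 (nat_lit 110)) (XT.lf (nat_lit 0) (nat_lit 49836539925) (nat_lit 684) (nat_lit 3592726435) (nat_lit 760) (nat_lit 48377761090) (nat_lit 68) (nat_lit 5) (nat_lit 77) (nat_lit 5) (nat_lit 78) (nat_lit 5) (nat_lit 310) (nat_lit 301) (nat_lit 109))))))) (XT.nd (nat_lit 702) (nat_lit 1140) (nat_lit 0) (XT.nd (nat_lit 312) (nat_lit 684) (nat_lit 0) (XT.nd (nat_lit 156) (nat_lit 608) (nat_lit 0) (XT.nd (nat_lit 78) (nat_lit 0) (nat_lit 76) (XT.lf (nat_lit 76) (nat_lit 42247212044) (nat_lit 0) (nat_lit 14443632091) (nat_lit 760) (nat_lit 47944374826) (nat_lit 69) (nat_lit 5) (nat_lit 68) (nat_lit 5) (nat_lit 78) (nat_lit 5) (nat_lit 311) (nat_lit 301) (nat_lit 108)) (XT.lf (nat_lit 0) (nat_lit 64362927523) (nat_lit 684) (nat_lit 17512832806) (nat_lit 76) (nat_lit 25705308017) (nat_lit 69) (nat_lit 5) (nat_lit 78) (nat_lit 5) (nat_lit 70) (nat_lit 5) (nat_lit 312) (nat_lit 301) (nat_lit 107)))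 (XT.nd (nat_lit 78) (nat_lit 0) (nat_lit 0) (XT.lf (nat_lit 0) (nat_lit 30340073710) (nat_lit 684) (nat_lit 42788652723) (nat_lit 760) (nat_lit 37509979621) (nat_lit 60) (nat_lit 5) (nat_lit 69) (nat_lit 5) (nat_lit 70) (nat_lit 5) (nat_lit 313) (nat_lit 301) (nat_lit 106)) (XT.lf (nat_lit 0) (nat_lit 81193319398) (nat_lit 684) (nat_lit 1435733528) (nat_lit 760) (nat_lit 31205362196) (nat_lit 60) (nat_lit 5) (nat_lit 69) (nat_lit 5) (nat_lit 70) (nat_lit 5) (nat_lit 314) (nat_lit 301) (nat_lit 105)))) (XT.nd (nat_lit 156) (nat_lit 380) (nat_lit 0) (XT.nd (nat_lit 78) (nat_lit 0) (nat_lit 0) (XT.lf (nat_lit 0) (nat_lit 17297116737) (nat_lit 304) (nat_lit 76232502965) (nat_lit 380) (nat_lit 23614030033) (nat_lit 56) (nat_lit 5) (nat_lit 60) (nat_lit 5) (nat_lit 61) (nat_lit 5) (nat_lit 315) (nat_lit 301) (nat_lit 104)) (XT.lf (nat_lit 0) (nat_lit 70840839352) (nat_lit 304) (nat_lit 34710002842)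 (nat_lit 380) (nat_lit 15038723747) (nat_lit 56) (nat_lit 5) (nat_lit 60) (nat_lit 5) (nat_lit 61) (nat_lit 5) (nat_lit 316) (nat_lit 301) (nat_lit 103))) (XT.nd (nat_lit 78) (nat_lit 76) (nat_lit 0) (XT.lf (nat_lit 0) (nat_lit 2804647403) (nat_lit 304) (nat_lit 115550736274) (nat_lit 380) (nat_lit 5843282559) (nat_lit 52) (nat_lit 5) (nat_lit 56) (nat_lit 5) (nat_lit 57) (nat_lit 5) (nat_lit 317) (nat_lit 301) (nat_lit 102)) (XT.nd (nat_lit 78) (nat_lit 0) (nat_lit 0) (XT.lf (nat_lit 0) (nat_lit 5114969096) (nat_lit 380) (nat_lit 68875903903) (nat_lit 76) (nat_lit 53923121661) (nat_lit 51) (nat_lit 5) (nat_lit 56) (nat_lit 5) (nat_lit 52) (nat_lit 5) (nat_lit 318) (nat_lit 301) (nat_lit 101)) (XT.lf (nat_lit 0) (nat_lit 16424472167) (nat_lit 380) (nat_lit 13827978267) (nat_lit 76) (nat_lit 101557864935) (nat_lit 51) (nat_lit 5) (nat_lit 56) (nat_lit 5) (nat_lit 52) (nat_lit 5) (nat_lit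 319) (nat_lit 301) (nat_lit 100)))))) (XT.nd (nat_lit 312) (nat_lit 532) (nat_lit 0) (XT.nd (nat_lit 156) (nat_lit 304) (nat_lit 0) (XT.nd (nat_lit 78) (nat_lit 0) (nat_lit 0) (XT.lf (nat_lit 0) (nat_lit 29264726495) (nat_lit 380) (nat_lit 90696360430) (nat_lit 76) (nat_lit 15892102347) (nat_lit 47) (nat_lit 5) (nat_lit 52) (nat_lit 5) (nat_lit 48) (nat_lit 5) (nat_lit 320) (nat_lit 301) (nat_lit 99)) (XT.lf (nat_lit 0) (nat_lit 43480691472) (nat_lit 380) (nat_lit 33015624440) (nat_lit 76) (nat_lit 63565206980) (nat_lit 47) (nat_lit 5) (nat_lit 52) (nat_lit 5) (nat_lit 48) (nat_lit 5) (nat_lit 321) (nat_lit 301) (nat_lit 98))) (XT.nd (nat_lit 78) (nat_lit 0) (nat_lit 0) (XT.lf (nat_lit 0) (nat_lit 28459754072) (nat_lit 304) (nat_lit 30391783379) (nat_lit 380) (nat_lit 85606532477) (nat_lit 43) (nat_lit 5) (nat_lit 47) (nat_lit 5) (nat_lit 48) (nat_lit 5) (nat_lit 322) (nat_lit 301)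 (nat_lit 97)) (XT.lf (nat_lit 0) (nat_lit 75840291990) (nat_lit 380) (nat_lit 55182127523) (nat_lit 76) (nat_lit 18009557323) (nat_lit 43) (nat_lit 5) (nat_lit 48) (nat_lit 5) (nat_lit 44) (nat_lit 5) (nat_lit 323) (nat_lit 301) (nat_lit 96)))) (XT.nd (nat_lit 156) (nat_lit 304) (nat_lit 0) (XT.nd (nat_lit 78) (nat_lit 0) (nat_lit 0) (XT.lf (nat_lit 0) (nat_lit 8446713597) (nat_lit 228) (nat_lit 85861638656) (nat_lit 304) (nat_lit 59494734227) (nat_lit 40) (nat_lit 5) (nat_lit 43) (nat_lit 5) (nat_lit 44) (nat_lit 5) (nat_lit 324) (nat_lit 301) (nat_lit 95)) (XT.lf (nat_lit 0) (nat_lit 77172521868) (nat_lit 228) (nat_lit 37461601774) (nat_lit 304) (nat_lit 44131913316) (nat_lit 40) (nat_lit 5) (nat_lit 43) (nat_lit 5) (nat_lit 44) (nat_lit 5) (nat_lit 325) (nat_lit 301) (nat_lit 94))) (XT.nd (nat_lit 78) (nat_lit 304) (nat_lit 0) (XT.lf (nat_lit 0) (nat_lit 136184528489) (nat_lit 304)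 (nat_lit 14851348669) (nat_lit 76) (nat_lit 12930841275) (nat_lit 40) (nat_lit 5) (nat_lit 44) (nat_lit 5) (nat_lit 41) (nat_lit 5) (nat_lit 326) (nat_lit 301) (nat_lit 93)) (XT.nd (nat_lit 78) (nat_lit 76) (nat_lit 0) (XT.lf (nat_lit 0) (nat_lit 56419313129) (nat_lit 228) (nat_lit 103887921280) (nat_lit 304) (nat_lit 9045461215) (nat_lit 37) (nat_lit 5) (nat_lit 40) (nat_lit 5) (nat_lit 41) (nat_lit 5) (nat_lit 327) (nat_lit 301) (nat_lit 92)) (XT.lf (nat_lit 0) (nat_lit 10543370806) (nat_lit 304) (nat_lit 43396602239) (nat_lit 76) (nat_lit 121046930900) (nat_lit 36) (nat_lit 5) (nat_lit 40) (nat_lit 5) (nat_lit 37) (nat_lit 5) (nat_lit 328) (nat_lit 301) (nat_lit 91))))))))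
noncomputable def xc250 : XT := (XT.nd (nat_lit 36660) (nat_lit 0) (nat_lit 228) (XT.nd (nat_lit 35958) (nat_lit 0) (nat_lit 1748) (XT.nd (nat_lit 35646) (nat_lit 0) (nat_lit 2508) (XT.nd (nat_lit 35490) (nat_lit 0) (nat_lit 2432) (XT.nd (nat_lit 35412) (nat_lit 0) (nat_lit 2432) (XT.lf (nat_lit 0) (nat_lit 30442842399) (nat_lit 228) (nat_lit 839917673) (nat_lit 304) (nat_lit 149588893766) (nat_lit 33) (nat_lit 5) (nat_lit 36) (nat_lit 5) (nat_lit 37) (nat_lit 5) (nat_lit 329) (nat_lit 301) (nat_lit 90)) (XT.lf (nat_lit 0) (nat_lit 5617743339) (nat_lit 0) (nat_lit 5617743339) (nat_lit 684) (nat_lit 31127062092) (nat_lit 65) (nat_lit 5) (nat_lit 65) (nat_lit 3) (nat_lit 74) (nat_lit 3) (nat_lit 302) (nat_lit 302) (nat_lit 116))) (XT.nd (nat_lit 78) (nat_lit 0) (nat_lit 0) (XT.lf (nat_lit 0) (nat_lit 23434805708) (nat_lit 684) (nat_lit 38971475455) (nat_lit 760) (nat_lit 24416808062)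 (nat_lit 65) (nat_lit 5) (nat_lit 74) (nat_lit 3) (nat_lit 75) (nat_lit 5) (nat_lit 303) (nat_lit 302) (nat_lit 115)) (XT.lf (nat_lit 0) (nat_lit 24630494731) (nat_lit 684) (nat_lit 2911917856) (nat_lit 760) (nat_lit 61474386758) (nat_lit 65) (nat_lit 5) (nat_lit 74) (nat_lit 3) (nat_lit 75) (nat_lit 5) (nat_lit 304) (nat_lit 302) (nat_lit 114)))) (XT.nd (nat_lit 156) (nat_lit 0) (nat_lit 0) (XT.nd (nat_lit 78) (nat_lit 0) (nat_lit 0) (XT.lf (nat_lit 0) (nat_lit 26599954145) (nat_lit 684) (nat_lit 55336853936) (nat_lit 760) (nat_lit 9347689596) (nat_lit 66) (nat_lit 5) (nat_lit 75) (nat_lit 5) (nat_lit 76) (nat_lit 5) (nat_lit 305) (nat_lit 302) (nat_lit 113)) (XT.lf (nat_lit 0) (nat_lit 29169048870) (nat_lit 684) (nat_lit 17264466566) (nat_lit 760) (nat_lit 47207009280) (nat_lit 66) (nat_lit 5) (nat_lit 75) (nat_lit 5) (nat_lit 76) (nat_lit 5) (nat_lit 306) (nat_lit 302) (nat_lit 112)))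 (XT.nd (nat_lit 78) (nat_lit 0) (nat_lit 76) (XT.lf (nat_lit 76) (nat_lit 23462184591) (nat_lit 0) (nat_lit 8770271054) (nat_lit 760) (nat_lit 63863606412) (nat_lit 67) (nat_lit 5) (nat_lit 66) (nat_lit 5) (nat_lit 76) (nat_lit 5) (nat_lit 307) (nat_lit 302) (nat_lit 111)) (XT.lf (nat_lit 0) (nat_lit 36226276007) (nat_lit 684) (nat_lit 32320813589) (nat_lit 760) (nat_lit 30088426238) (nat_lit 67) (nat_lit 5) (nat_lit 76) (nat_lit 5) (nat_lit 77) (nat_lit 5) (nat_lit 308) (nat_lit 302) (nat_lit 110))))) (XT.nd (nat_lit 312) (nat_lit 836) (nat_lit 0) (XT.nd (nat_lit 156) (nat_lit 0) (nat_lit 76) (XT.nd (nat_lit 78) (nat_lit 0) (nat_lit 76) (XT.lf (nat_lit 76) (nat_lit 10189973079) (nat_lit 0) (nat_lit 30532270208) (nat_lit 760) (nat_lit 60564577864) (nat_lit 68) (nat_lit 5) (nat_lit 67) (nat_lit 5) (nat_lit 77) (nat_lit 5) (nat_lit 309) (nat_lit 302) (nat_lit 109)) (XT.lf (nat_lit 0)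 (nat_lit 46145453911) (nat_lit 684) (nat_lit 48250707804) (nat_lit 760) (nat_lit 9639409340) (nat_lit 68) (nat_lit 5) (nat_lit 77) (nat_lit 5) (nat_lit 78) (nat_lit 5) (nat_lit 310) (nat_lit 302) (nat_lit 108))) (XT.nd (nat_lit 78) (nat_lit 0) (nat_lit 0) (XT.lf (nat_lit 0) (nat_lit 52339976610) (nat_lit 684) (nat_lit 3763091003) (nat_lit 760) (nat_lit 50793684759) (nat_lit 68) (nat_lit 5) (nat_lit 77) (nat_lit 5) (nat_lit 78) (nat_lit 5) (nat_lit 311) (nat_lit 302) (nat_lit 107)) (XT.lf (nat_lit 76) (nat_lit 44368694856) (nat_lit 0) (nat_lit 15167890756) (nat_lit 760) (nat_lit 50329790557) (nat_lit 69) (nat_lit 5) (nat_lit 68) (nat_lit 5) (nat_lit 78) (nat_lit 5) (nat_lit 312) (nat_lit 302) (nat_lit 106)))) (XT.nd (nat_lit 156) (nat_lit 304) (nat_lit 0) (XT.nd (nat_lit 78) (nat_lit 684) (nat_lit 0) (XT.lf (nat_lit 0) (nat_lit 67591708985) (nat_lit 684) (nat_lit 18379180752) (nat_lit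 76) (nat_lit 26988658579) (nat_lit 69) (nat_lit 5) (nat_lit 78) (nat_lit 5) (nat_lit 70) (nat_lit 5) (nat_lit 313) (nat_lit 302) (nat_lit 105)) (XT.lf (nat_lit 0) (nat_lit 31866221192) (nat_lit 684) (nat_lit 44929212977) (nat_lit 760) (nat_lit 39374653910) (nat_lit 60) (nat_lit 5) (nat_lit 69) (nat_lit 5) (nat_lit 70) (nat_lit 5) (nat_lit 314) (nat_lit 302) (nat_lit 104))) (XT.nd (nat_lit 78) (nat_lit 304) (nat_lit 0) (XT.lf (nat_lit 0) (nat_lit 85261693745) (nat_lit 684) (nat_lit 1508594126) (nat_lit 760) (nat_lit 32755321076) (nat_lit 60) (nat_lit 5) (nat_lit 69) (nat_lit 5) (nat_lit 70) (nat_lit 5) (nat_lit 315) (nat_lit 302) (nat_lit 103)) (XT.nd (nat_lit 78) (nat_lit 0) (nat_lit 0) (XT.lf (nat_lit 0) (nat_lit 18171075423) (nat_lit 304) (nat_lit 80044467893) (nat_lit 380) (nat_lit 24784780760) (nat_lit 56) (nat_lit 5) (nat_lit 60) (nat_lit 5) (nat_lit 61) (nat_lit 5) (nat_lit 316)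 (nat_lit 302) (nat_lit 102)) (XT.lf (nat_lit 0) (nat_lit 74391550699) (nat_lit 304) (nat_lit 36445826584) (nat_lit 380) (nat_lit 15781183006) (nat_lit 56) (nat_lit 5) (nat_lit 60) (nat_lit 5) (nat_lit 61) (nat_lit 5) (nat_lit 317) (nat_lit 302) (nat_lit 101))))))) (XT.nd (nat_lit 702) (nat_lit 304) (nat_lit 0) (XT.nd (nat_lit 312) (nat_lit 532) (nat_lit 0) (XT.nd (nat_lit 156) (nat_lit 304) (nat_lit 0) (XT.nd (nat_lit 78) (nat_lit 76) (nat_lit 0) (XT.lf (nat_lit 0) (nat_lit 2953890438) (nat_lit 304) (nat_lit 121327963034) (nat_lit 380) (nat_lit 6126278377) (nat_lit 52) (nat_lit 5) (nat_lit 56) (nat_lit 5) (nat_lit 57) (nat_lit 5) (nat_lit 318) (nat_lit 302) (nat_lit 100)) (XT.lf (nat_lit 0) (nat_lit 5379169805) (nat_lit 380) (nat_lit 72310808412) (nat_lit 76) (nat_lit 56619263934) (nat_lit 51) (nat_lit 5) (nat_lit 56) (nat_lit 5) (nat_lit 52) (nat_lit 5) (nat_lit 319) (nat_lit 302)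 (nat_lit 99))) (XT.nd (nat_lit 78) (nat_lit 304) (nat_lit 0) (XT.lf (nat_lit 0) (nat_lit 17253745542) (nat_lit 380) (nat_lit 14510909861) (nat_lit 76) (nat_lit 106635745028) (nat_lit 51) (nat_lit 5) (nat_lit 56) (nat_lit 5) (nat_lit 52) (nat_lit 5) (nat_lit 320) (nat_lit 302) (nat_lit 98)) (XT.lf (nat_lit 0) (nat_lit 30735767671) (nat_lit 380) (nat_lit 95222439342) (nat_lit 76) (nat_lit 16687224606) (nat_lit 47) (nat_lit 5) (nat_lit 52) (nat_lit 5) (nat_lit 48) (nat_lit 5) (nat_lit 321) (nat_lit 302) (nat_lit 97)))) (XT.nd (nat_lit 156) (nat_lit 228) (nat_lit 0) (XT.nd (nat_lit 78) (nat_lit 304) (nat_lit 0) (XT.lf (nat_lit 0) (nat_lit 45662159237) (nat_lit 380) (nat_lit 34658082699) (nat_lit 76) (nat_lit 66743959845) (nat_lit 47) (nat_lit 5) (nat_lit 52) (nat_lit 5) (nat_lit 48) (nat_lit 5) (nat_lit 322) (nat_lit 302) (nat_lit 96)) (XT.lf (nat_lit 0) (nat_lit 29890930497) (nat_lit 304)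 (nat_lit 31910390905) (nat_lit 380) (nat_lit 89879267292) (nat_lit 43) (nat_lit 5) (nat_lit 47) (nat_lit 5) (nat_lit 48) (nat_lit 5) (nat_lit 323) (nat_lit 302) (nat_lit 95))) (XT.nd (nat_lit 78) (nat_lit 228) (nat_lit 0) (XT.lf (nat_lit 0) (nat_lit 79639185070) (nat_lit 380) (nat_lit 57933083303) (nat_lit 76) (nat_lit 18910940164) (nat_lit 43) (nat_lit 5) (nat_lit 48) (nat_lit 5) (nat_lit 44) (nat_lit 5) (nat_lit 324) (nat_lit 302) (nat_lit 94)) (XT.nd (nat_lit 78) (nat_lit 0) (nat_lit 0) (XT.lf (nat_lit 0) (nat_lit 8877068412) (nat_lit 228) (nat_lit 90153377590) (nat_lit 304) (nat_lit 62462438886) (nat_lit 40) (nat_lit 5) (nat_lit 43) (nat_lit 5) (nat_lit 44) (nat_lit 5) (nat_lit 325) (nat_lit 302) (nat_lit 93)) (XT.lf (nat_lit 0) (nat_lit 81038785232) (nat_lit 228) (nat_lit 39333402816) (nat_lit 304) (nat_lit 46331811789) (nat_lit 40) (nat_lit 5) (nat_lit 43) (nat_lit 5) (nat_lit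 44) (nat_lit 5) (nat_lit 326) (nat_lit 302) (nat_lit 92)))))) (XT.nd (nat_lit 35724) (nat_lit 0) (nat_lit 2204) (XT.nd (nat_lit 156) (nat_lit 76) (nat_lit 0) (XT.nd (nat_lit 78) (nat_lit 228) (nat_lit 0) (XT.lf (nat_lit 0) (nat_lit 142999829384) (nat_lit 304) (nat_lit 15586338703) (nat_lit 76) (nat_lit 13578562490) (nat_lit 40) (nat_lit 5) (nat_lit 44) (nat_lit 5) (nat_lit 41) (nat_lit 5) (nat_lit 327) (nat_lit 302) (nat_lit 91)) (XT.lf (nat_lit 0) (nat_lit 59247733970) (nat_lit 228) (nat_lit 109080763766) (nat_lit 304) (nat_lit 9491518490) (nat_lit 37) (nat_lit 5) (nat_lit 40) (nat_lit 5) (nat_lit 41) (nat_lit 5) (nat_lit 328) (nat_lit 302) (nat_lit 90))) (XT.nd (nat_lit 35490) (nat_lit 0) (nat_lit 2204) (XT.lf (nat_lit 0) (nat_lit 11076269672) (nat_lit 304) (nat_lit 45559125381) (nat_lit 76) (nat_lit 127100550249) (nat_lit 36) (nat_lit 5) (nat_lit 40) (nat_lit 5) (nat_lit 37) (nat_lit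 5) (nat_lit 329) (nat_lit 302) (nat_lit 89)) (XT.lf (nat_lit 0) (nat_lit 5902685459) (nat_lit 0) (nat_lit 5902685459) (nat_lit 684) (nat_lit 32674867456) (nat_lit 65) (nat_lit 5) (nat_lit 65) (nat_lit 3) (nat_lit 74) (nat_lit 3) (nat_lit 303) (nat_lit 303) (nat_lit 114)))) (XT.nd (nat_lit 156) (nat_lit 0) (nat_lit 76) (XT.nd (nat_lit 78) (nat_lit 0) (nat_lit 0) (XT.lf (nat_lit 0) (nat_lit 24621872844) (nat_lit 684) (nat_lit 40911370948) (nat_lit 760) (nat_lit 25630171953) (nat_lit 65) (nat_lit 5) (nat_lit 74) (nat_lit 3) (nat_lit 75) (nat_lit 5) (nat_lit 304) (nat_lit 303) (nat_lit 113)) (XT.lf (nat_lit 0) (nat_lit 25876616468) (nat_lit 684) (nat_lit 3049248721) (nat_lit 760) (nat_lit 64540985608) (nat_lit 65) (nat_lit 5) (nat_lit 74) (nat_lit 3) (nat_lit 75) (nat_lit 5) (nat_lit 305) (nat_lit 303) (nat_lit 112))) (XT.nd (nat_lit 78) (nat_lit 0) (nat_lit 0) (XT.lf (nat_lit 0) (nat_lit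 27943888646) (nat_lit 684) (nat_lit 58094715525) (nat_lit 760) (nat_lit 9809365678) (nat_lit 66) (nat_lit 5) (nat_lit 75) (nat_lit 5) (nat_lit 76) (nat_lit 5) (nat_lit 306) (nat_lit 303) (nat_lit 111)) (XT.nd (nat_lit 78) (nat_lit 0) (nat_lit 0) (XT.lf (nat_lit 0) (nat_lit 30640774450) (nat_lit 684) (nat_lit 18119136459) (nat_lit 760) (nat_lit 49561923174) (nat_lit 66) (nat_lit 5) (nat_lit 75) (nat_lit 5) (nat_lit 76) (nat_lit 5) (nat_lit 307) (nat_lit 303) (nat_lit 110)) (XT.lf (nat_lit 76) (nat_lit 24643709298) (nat_lit 0) (nat_lit 9213141601) (nat_lit 760) (nat_lit 67043324959) (nat_lit 67) (nat_lit 5) (nat_lit 66) (nat_lit 5) (nat_lit 76) (nat_lit 5) (nat_lit 308) (nat_lit 303) (nat_lit 109))))))))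
noncomputable def xc251 : XT := (XT.nd (nat_lit 1326) (nat_lit 228) (nat_lit 0) (XT.nd (nat_lit 624) (nat_lit 1292) (nat_lit 0) (XT.nd (nat_lit 312) (nat_lit 532) (nat_lit 0) (XT.nd (nat_lit 156) (nat_lit 0) (nat_lit 76) (XT.nd (nat_lit 78) (nat_lit 0) (nat_lit 0) (XT.lf (nat_lit 0) (nat_lit 38049689281) (nat_lit 684) (nat_lit 33928118265) (nat_lit 760) (nat_lit 31588830841) (nat_lit 67) (nat_lit 5) (nat_lit 76) (nat_lit 5) (nat_lit 77) (nat_lit 5) (nat_lit 309) (nat_lit 303) (nat_lit 108)) (XT.lf (nat_lit 76) (nat_lit 10708066832) (nat_lit 0) (nat_lit 32061946120) (nat_lit 760) (nat_lit 63580520415) (nat_lit 68) (nat_lit 5) (nat_lit 67) (nat_lit 5) (nat_lit 77) (nat_lit 5) (nat_lit 310) (nat_lit 303) (nat_lit 107))) (XT.nd (nat_lit 78) (nat_lit 0) (nat_lit 0) (XT.lf (nat_lit 0) (nat_lit 48463783453) (nat_lit 684) (nat_lit 50654412953) (nat_lit 760) (nat_lit 10118556582) (nat_lit 68)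 (nat_lit 5) (nat_lit 77) (nat_lit 5) (nat_lit 78) (nat_lit 5) (nat_lit 311) (nat_lit 303) (nat_lit 106)) (XT.lf (nat_lit 0) (nat_lit 54967505771) (nat_lit 684) (nat_lit 3942835799) (nat_lit 760) (nat_lit 53330680212) (nat_lit 68) (nat_lit 5) (nat_lit 77) (nat_lit 5) (nat_lit 78) (nat_lit 5) (nat_lit 312) (nat_lit 303) (nat_lit 105)))) (XT.nd (nat_lit 156) (nat_lit 608) (nat_lit 0) (XT.nd (nat_lit 78) (nat_lit 0) (nat_lit 76) (XT.lf (nat_lit 76) (nat_lit 46595403712) (nat_lit 0) (nat_lit 15928169249) (nat_lit 760) (nat_lit 52835574406) (nat_lit 69) (nat_lit 5) (nat_lit 68) (nat_lit 5) (nat_lit 78) (nat_lit 5) (nat_lit 313) (nat_lit 303) (nat_lit 104)) (XT.lf (nat_lit 0) (nat_lit 70980940772) (nat_lit 684) (nat_lit 19289710135) (nat_lit 76) (nat_lit 28336354692) (nat_lit 69) (nat_lit 5) (nat_lit 78) (nat_lit 5) (nat_lit 70) (nat_lit 5) (nat_lit 314) (nat_lit 303) (nat_lit 103))) (XT.nd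 (nat_lit 78) (nat_lit 0) (nat_lit 0) (XT.lf (nat_lit 0) (nat_lit 33467825944) (nat_lit 684) (nat_lit 47176696409) (nat_lit 760) (nat_lit 41333568290) (nat_lit 60) (nat_lit 5) (nat_lit 69) (nat_lit 5) (nat_lit 70) (nat_lit 5) (nat_lit 315) (nat_lit 303) (nat_lit 102)) (XT.lf (nat_lit 0) (nat_lit 89532677187) (nat_lit 684) (nat_lit 1584997912) (nat_lit 760) (nat_lit 34383736353) (nat_lit 60) (nat_lit 5) (nat_lit 69) (nat_lit 5) (nat_lit 70) (nat_lit 5) (nat_lit 316) (nat_lit 303) (nat_lit 101))))) (XT.nd (nat_lit 312) (nat_lit 608) (nat_lit 0) (XT.nd (nat_lit 156) (nat_lit 380) (nat_lit 0) (XT.nd (nat_lit 78) (nat_lit 0) (nat_lit 0) (XT.lf (nat_lit 0) (nat_lit 19087885746) (nat_lit 304) (nat_lit 84046999478) (nat_lit 380) (nat_lit 26014994152) (nat_lit 56) (nat_lit 5) (nat_lit 60) (nat_lit 5) (nat_lit 61) (nat_lit 5) (nat_lit 317) (nat_lit 303) (nat_lit 100)) (XT.lf (nat_lit 0) (nat_lit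 78118991617) (nat_lit 304) (nat_lit 38268411428) (nat_lit 380) (nat_lit 16561646303) (nat_lit 56) (nat_lit 5) (nat_lit 60) (nat_lit 5) (nat_lit 61) (nat_lit 5) (nat_lit 318) (nat_lit 303) (nat_lit 99))) (XT.nd (nat_lit 78) (nat_lit 76) (nat_lit 0) (XT.lf (nat_lit 0) (nat_lit 3109757900) (nat_lit 304) (nat_lit 127394079958) (nat_lit 380) (nat_lit 6424276369) (nat_lit 52) (nat_lit 5) (nat_lit 56) (nat_lit 5) (nat_lit 57) (nat_lit 5) (nat_lit 319) (nat_lit 303) (nat_lit 98)) (XT.lf (nat_lit 0) (nat_lit 5655794738) (nat_lit 380) (nat_lit 75918284718) (nat_lit 76) (nat_lit 59450214604) (nat_lit 51) (nat_lit 5) (nat_lit 56) (nat_lit 5) (nat_lit 52) (nat_lit 5) (nat_lit 320) (nat_lit 303) (nat_lit 97)))) (XT.nd (nat_lit 156) (nat_lit 304) (nat_lit 0) (XT.nd (nat_lit 78) (nat_lit 304) (nat_lit 0) (XT.lf (nat_lit 0) (nat_lit 18123734193) (nat_lit 380) (nat_lit 15228775245) (nat_lit 76) (nat_lit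 111967520349) (nat_lit 51) (nat_lit 5) (nat_lit 56) (nat_lit 5) (nat_lit 52) (nat_lit 5) (nat_lit 321) (nat_lit 303) (nat_lit 96)) (XT.lf (nat_lit 0) (nat_lit 32279635284) (nat_lit 380) (nat_lit 99975634678) (nat_lit 76) (nat_lit 17522054899) (nat_lit 47) (nat_lit 5) (nat_lit 52) (nat_lit 5) (nat_lit 48) (nat_lit 5) (nat_lit 322) (nat_lit 303) (nat_lit 95))) (XT.nd (nat_lit 78) (nat_lit 304) (nat_lit 0) (XT.lf (nat_lit 0) (nat_lit 47952009323) (nat_lit 380) (nat_lit 36383437662) (nat_lit 76) (nat_lit 70081604563) (nat_lit 47) (nat_lit 5) (nat_lit 52) (nat_lit 5) (nat_lit 48) (nat_lit 5) (nat_lit 323) (nat_lit 303) (nat_lit 94)) (XT.nd (nat_lit 78) (nat_lit 0) (nat_lit 0) (XT.lf (nat_lit 0) (nat_lit 31392904433) (nat_lit 304) (nat_lit 33505020072) (nat_lit 380) (nat_lit 94366344661) (nat_lit 43) (nat_lit 5) (nat_lit 47) (nat_lit 5) (nat_lit 48) (nat_lit 5) (nat_lit 324) (nat_lit 303)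 (nat_lit 93)) (XT.lf (nat_lit 0) (nat_lit 83627383308) (nat_lit 380) (nat_lit 60822344638) (nat_lit 76) (nat_lit 19857308011) (nat_lit 43) (nat_lit 5) (nat_lit 48) (nat_lit 5) (nat_lit 44) (nat_lit 5) (nat_lit 325) (nat_lit 303) (nat_lit 92))))))) (XT.nd (nat_lit 36270) (nat_lit 0) (nat_lit 1216) (XT.nd (nat_lit 35880) (nat_lit 0) (nat_lit 1900) (XT.nd (nat_lit 156) (nat_lit 0) (nat_lit 0) (XT.nd (nat_lit 78) (nat_lit 0) (nat_lit 0) (XT.lf (nat_lit 0) (nat_lit 9328195423) (nat_lit 228) (nat_lit 94659828330) (nat_lit 304) (nat_lit 65579182551) (nat_lit 40) (nat_lit 5) (nat_lit 43) (nat_lit 5) (nat_lit 44) (nat_lit 5) (nat_lit 326) (nat_lit 303) (nat_lit 91)) (XT.lf (nat_lit 0) (nat_lit 85097651723) (nat_lit 228) (nat_lit 41298912824) (nat_lit 304) (nat_lit 48642327827) (nat_lit 40) (nat_lit 5) (nat_lit 43) (nat_lit 5) (nat_lit 44) (nat_lit 5) (nat_lit 327) (nat_lit 303) (nat_lit 90)))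 (XT.nd (nat_lit 35646) (nat_lit 0) (nat_lit 1900) (XT.lf (nat_lit 0) (nat_lit 150155330576) (nat_lit 304) (nat_lit 16358782713) (nat_lit 76) (nat_lit 14258560140) (nat_lit 40) (nat_lit 5) (nat_lit 44) (nat_lit 5) (nat_lit 41) (nat_lit 5) (nat_lit 328) (nat_lit 303) (nat_lit 89)) (XT.lf (nat_lit 0) (nat_lit 6201497694) (nat_lit 0) (nat_lit 6201497694) (nat_lit 684) (nat_lit 34300857776) (nat_lit 65) (nat_lit 5) (nat_lit 65) (nat_lit 3) (nat_lit 74) (nat_lit 3) (nat_lit 304) (nat_lit 304) (nat_lit 112)))) (XT.nd (nat_lit 156) (nat_lit 0) (nat_lit 76) (XT.nd (nat_lit 78) (nat_lit 0) (nat_lit 0) (XT.lf (nat_lit 0) (nat_lit 25866868392) (nat_lit 684) (nat_lit 42949068040) (nat_lit 760) (nat_lit 26904899133) (nat_lit 65) (nat_lit 5) (nat_lit 74) (nat_lit 3) (nat_lit 75) (nat_lit 5) (nat_lit 305) (nat_lit 304) (nat_lit 111)) (XT.lf (nat_lit 0) (nat_lit 27183687202) (nat_lit 684) (nat_lit 3194214532)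 (nat_lit 760) (nat_lit 67761576396) (nat_lit 65) (nat_lit 5) (nat_lit 74) (nat_lit 3) (nat_lit 75) (nat_lit 5) (nat_lit 306) (nat_lit 304) (nat_lit 110))) (XT.nd (nat_lit 78) (nat_lit 0) (nat_lit 0) (XT.lf (nat_lit 0) (nat_lit 29353724161) (nat_lit 684) (nat_lit 60991305172) (nat_lit 760) (nat_lit 10294656277) (nat_lit 66) (nat_lit 5) (nat_lit 75) (nat_lit 5) (nat_lit 76) (nat_lit 5) (nat_lit 307) (nat_lit 304) (nat_lit 109)) (XT.nd (nat_lit 78) (nat_lit 0) (nat_lit 0) (XT.lf (nat_lit 0) (nat_lit 32184852299) (nat_lit 684) (nat_lit 19017335063) (nat_lit 760) (nat_lit 52035088204) (nat_lit 66) (nat_lit 5) (nat_lit 75) (nat_lit 5) (nat_lit 76) (nat_lit 5) (nat_lit 308) (nat_lit 304) (nat_lit 108)) (XT.lf (nat_lit 76) (nat_lit 25883527849) (nat_lit 0) (nat_lit 9677750604) (nat_lit 760) (nat_lit 70383280982) (nat_lit 67) (nat_lit 5) (nat_lit 66) (nat_lit 5) (nat_lit 76) (nat_lit 5) (nat_lit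 309) (nat_lit 304) (nat_lit 107)))))) (XT.nd (nat_lit 312) (nat_lit 836) (nat_lit 0) (XT.nd (nat_lit 156) (nat_lit 0) (nat_lit 76) (XT.nd (nat_lit 78) (nat_lit 0) (nat_lit 0) (XT.lf (nat_lit 0) (nat_lit 39963148324) (nat_lit 684) (nat_lit 35616600366) (nat_lit 760) (nat_lit 33164629111) (nat_lit 67) (nat_lit 5) (nat_lit 76) (nat_lit 5) (nat_lit 77) (nat_lit 5) (nat_lit 310) (nat_lit 304) (nat_lit 106)) (XT.lf (nat_lit 76) (nat_lit 11251266183) (nat_lit 0) (nat_lit 33667821115) (nat_lit 760) (nat_lit 66748402361) (nat_lit 68) (nat_lit 5) (nat_lit 67) (nat_lit 5) (nat_lit 77) (nat_lit 5) (nat_lit 311) (nat_lit 304) (nat_lit 105))) (XT.nd (nat_lit 78) (nat_lit 0) (nat_lit 0) (XT.lf (nat_lit 0) (nat_lit 50897001512) (nat_lit 684) (nat_lit 53179124311) (nat_lit 760) (nat_lit 10621923664) (nat_lit 68) (nat_lit 5) (nat_lit 77) (nat_lit 5) (nat_lit 78) (nat_lit 5) (nat_lit 312) (nat_lit 304)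 (nat_lit 104)) (XT.lf (nat_lit 0) (nat_lit 57725432379) (nat_lit 684) (nat_lit 4132349694) (nat_lit 760) (nat_lit 55994775415) (nat_lit 68) (nat_lit 5) (nat_lit 77) (nat_lit 5) (nat_lit 78) (nat_lit 5) (nat_lit 313) (nat_lit 304) (nat_lit 103)))) (XT.nd (nat_lit 156) (nat_lit 912) (nat_lit 0) (XT.nd (nat_lit 78) (nat_lit 0) (nat_lit 76) (XT.lf (nat_lit 76) (nat_lit 48932678762) (nat_lit 0) (nat_lit 16726286514) (nat_lit 760) (nat_lit 55467642761) (nat_lit 69) (nat_lit 5) (nat_lit 68) (nat_lit 5) (nat_lit 78) (nat_lit 5) (nat_lit 314) (nat_lit 304) (nat_lit 102)) (XT.lf (nat_lit 0) (nat_lit 74538737323) (nat_lit 684) (nat_lit 20246549697) (nat_lit 76) (nat_lit 29751597083) (nat_lit 69) (nat_lit 5) (nat_lit 78) (nat_lit 5) (nat_lit 70) (nat_lit 5) (nat_lit 315) (nat_lit 304) (nat_lit 101))) (XT.nd (nat_lit 78) (nat_lit 304) (nat_lit 0) (XT.lf (nat_lit 0) (nat_lit 35148739864) (nat_lit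 684) (nat_lit 49536458924) (nat_lit 760) (nat_lit 43391341204) (nat_lit 60) (nat_lit 5) (nat_lit 69) (nat_lit 5) (nat_lit 70) (nat_lit 5) (nat_lit 316) (nat_lit 304) (nat_lit 100)) (XT.nd (nat_lit 78) (nat_lit 304) (nat_lit 0) (XT.lf (nat_lit 0) (nat_lit 94016475449) (nat_lit 684) (nat_lit 1665131326) (nat_lit 760) (nat_lit 36094441741) (nat_lit 60) (nat_lit 5) (nat_lit 69) (nat_lit 5) (nat_lit 70) (nat_lit 5) (nat_lit 317) (nat_lit 304) (nat_lit 99)) (XT.lf (nat_lit 0) (nat_lit 20049768969) (nat_lit 304) (nat_lit 88249628990) (nat_lit 380) (nat_lit 27307557332) (nat_lit 56) (nat_lit 5) (nat_lit 60) (nat_lit 5) (nat_lit 61) (nat_lit 5) (nat_lit 318) (nat_lit 304) (nat_lit 98))))))))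
noncomputable def xc252 : XT := (XT.nd (nat_lit 37050) (nat_lit 0) (nat_lit 228) (XT.nd (nat_lit 624) (nat_lit 228) (nat_lit 0) (XT.nd (nat_lit 312) (nat_lit 608) (nat_lit 0) (XT.nd (nat_lit 156) (nat_lit 76) (nat_lit 0) (XT.nd (nat_lit 78) (nat_lit 304) (nat_lit 0) (XT.lf (nat_lit 0) (nat_lit 82032073517) (nat_lit 304) (nat_lit 40182098225) (nat_lit 380) (nat_lit 17381931926) (nat_lit 56) (nat_lit 5) (nat_lit 60) (nat_lit 5) (nat_lit 61) (nat_lit 5) (nat_lit 319) (nat_lit 304) (nat_lit 97)) (XT.lf (nat_lit 0) (nat_lit 3272658891) (nat_lit 304) (nat_lit 133763528874) (nat_lit 380) (nat_lit 6737947396) (nat_lit 52) (nat_lit 5) (nat_lit 56) (nat_lit 5) (nat_lit 57) (nat_lit 5) (nat_lit 320) (nat_lit 304) (nat_lit 96))) (XT.nd (nat_lit 78) (nat_lit 0) (nat_lit 0) (XT.lf (nat_lit 0) (nat_lit 5945538166) (nat_lit 380) (nat_lit 79706884565) (nat_lit 76) (nat_lit 62422713972) (nat_lit 51)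 (nat_lit 5) (nat_lit 56) (nat_lit 5) (nat_lit 52) (nat_lit 5) (nat_lit 321) (nat_lit 304) (nat_lit 95)) (XT.lf (nat_lit 0) (nat_lit 19036543465) (nat_lit 380) (nat_lit 15983247922) (nat_lit 76) (nat_lit 117565885546) (nat_lit 51) (nat_lit 5) (nat_lit 56) (nat_lit 5) (nat_lit 52) (nat_lit 5) (nat_lit 322) (nat_lit 304) (nat_lit 94)))) (XT.nd (nat_lit 156) (nat_lit 304) (nat_lit 0) (XT.nd (nat_lit 78) (nat_lit 0) (nat_lit 0) (XT.lf (nat_lit 0) (nat_lit 33900038118) (nat_lit 380) (nat_lit 104967226725) (nat_lit 76) (nat_lit 18398583097) (nat_lit 47) (nat_lit 5) (nat_lit 52) (nat_lit 5) (nat_lit 48) (nat_lit 5) (nat_lit 323) (nat_lit 304) (nat_lit 93)) (XT.lf (nat_lit 0) (nat_lit 50355725094) (nat_lit 380) (nat_lit 38195762224) (nat_lit 76) (nat_lit 73586089985) (nat_lit 47) (nat_lit 5) (nat_lit 52) (nat_lit 5) (nat_lit 48) (nat_lit 5) (nat_lit 324) (nat_lit 304) (nat_lit 92))) (XT.nd (nat_lit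 78) (nat_lit 0) (nat_lit 0) (XT.lf (nat_lit 0) (nat_lit 32969286535) (nat_lit 304) (nat_lit 35179463477) (nat_lit 380) (nat_lit 99078416094) (nat_lit 43) (nat_lit 5) (nat_lit 47) (nat_lit 5) (nat_lit 48) (nat_lit 5) (nat_lit 325) (nat_lit 304) (nat_lit 91)) (XT.lf (nat_lit 0) (nat_lit 87814411417) (nat_lit 380) (nat_lit 63856756355) (nat_lit 76) (nat_lit 20850917937) (nat_lit 43) (nat_lit 5) (nat_lit 48) (nat_lit 5) (nat_lit 44) (nat_lit 5) (nat_lit 326) (nat_lit 304) (nat_lit 90))))) (XT.nd (nat_lit 36036) (nat_lit 0) (nat_lit 1976) (XT.nd (nat_lit 35880) (nat_lit 0) (nat_lit 1900) (XT.nd (nat_lit 35802) (nat_lit 0) (nat_lit 1900) (XT.lf (nat_lit 0) (nat_lit 9801202556) (nat_lit 228) (nat_lit 99391714858) (nat_lit 304) (nat_lit 68852356392) (nat_lit 40) (nat_lit 5) (nat_lit 43) (nat_lit 5) (nat_lit 44) (nat_lit 5) (nat_lit 327) (nat_lit 304) (nat_lit 89)) (XT.lf (nat_lit 0) (nat_lit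 6514908598) (nat_lit 0) (nat_lit 6514908598) (nat_lit 684) (nat_lit 36008868417) (nat_lit 65) (nat_lit 5) (nat_lit 65) (nat_lit 3) (nat_lit 74) (nat_lit 3) (nat_lit 305) (nat_lit 305) (nat_lit 110))) (XT.nd (nat_lit 78) (nat_lit 0) (nat_lit 0) (XT.lf (nat_lit 0) (nat_lit 27172821250) (nat_lit 684) (nat_lit 45089381800) (nat_lit 760) (nat_lit 28243993145) (nat_lit 65) (nat_lit 5) (nat_lit 74) (nat_lit 3) (nat_lit 75) (nat_lit 5) (nat_lit 306) (nat_lit 305) (nat_lit 109)) (XT.lf (nat_lit 0) (nat_lit 28554880551) (nat_lit 684) (nat_lit 3347125600) (nat_lit 760) (nat_lit 71143797172) (nat_lit 65) (nat_lit 5) (nat_lit 74) (nat_lit 3) (nat_lit 75) (nat_lit 5) (nat_lit 307) (nat_lit 305) (nat_lit 108)))) (XT.nd (nat_lit 156) (nat_lit 0) (nat_lit 0) (XT.nd (nat_lit 78) (nat_lit 0) (nat_lit 0) (XT.lf (nat_lit 0) (nat_lit 30832876203) (nat_lit 684) (nat_lit 64033481651) (nat_lit 760) (nat_lit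 10804692778) (nat_lit 66) (nat_lit 5) (nat_lit 75) (nat_lit 5) (nat_lit 76) (nat_lit 5) (nat_lit 308) (nat_lit 305) (nat_lit 107)) (XT.lf (nat_lit 0) (nat_lit 33805014756) (nat_lit 684) (nat_lit 19961164883) (nat_lit 760) (nat_lit 54632369936) (nat_lit 66) (nat_lit 5) (nat_lit 75) (nat_lit 5) (nat_lit 76) (nat_lit 5) (nat_lit 309) (nat_lit 305) (nat_lit 106))) (XT.nd (nat_lit 78) (nat_lit 0) (nat_lit 76) (XT.lf (nat_lit 76) (nat_lit 27184627676) (nat_lit 0) (nat_lit 10165222644) (nat_lit 760) (nat_lit 73891369997) (nat_lit 67) (nat_lit 5) (nat_lit 66) (nat_lit 5) (nat_lit 76) (nat_lit 5) (nat_lit 310) (nat_lit 305) (nat_lit 105)) (XT.nd (nat_lit 78) (nat_lit 0) (nat_lit 0) (XT.lf (nat_lit 0) (nat_lit 41971260006) (nat_lit 684) (nat_lit 37390243253) (nat_lit 760) (nat_lit 34819556011) (nat_lit 67) (nat_lit 5) (nat_lit 76) (nat_lit 5) (nat_lit 77) (nat_lit 5) (nat_lit 311) (nat_lit 305)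 (nat_lit 104)) (XT.lf (nat_lit 76) (nat_lit 11820900702) (nat_lit 0) (nat_lit 35353731616) (nat_lit 760) (nat_lit 70075714474) (nat_lit 68) (nat_lit 5) (nat_lit 67) (nat_lit 5) (nat_lit 77) (nat_lit 5) (nat_lit 312) (nat_lit 305) (nat_lit 103))))))) (XT.nd (nat_lit 702) (nat_lit 684) (nat_lit 0) (XT.nd (nat_lit 312) (nat_lit 1216) (nat_lit 0) (XT.nd (nat_lit 156) (nat_lit 0) (nat_lit 0) (XT.nd (nat_lit 78) (nat_lit 0) (nat_lit 0) (XT.lf (nat_lit 0) (nat_lit 53450948082) (nat_lit 684) (nat_lit 55830815865) (nat_lit 760) (nat_lit 11150697173) (nat_lit 68) (nat_lit 5) (nat_lit 77) (nat_lit 5) (nat_lit 78) (nat_lit 5) (nat_lit 313) (nat_lit 305) (nat_lit 102)) (XT.lf (nat_lit 0) (nat_lit 60620367326) (nat_lit 684) (nat_lit 4332048453) (nat_lit 760) (nat_lit 58792302116) (nat_lit 68) (nat_lit 5) (nat_lit 77) (nat_lit 5) (nat_lit 78) (nat_lit 5) (nat_lit 314) (nat_lit 305) (nat_lit 101)))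 (XT.nd (nat_lit 78) (nat_lit 0) (nat_lit 76) (XT.lf (nat_lit 76) (nat_lit 51386119833) (nat_lit 0) (nat_lit 17564150774) (nat_lit 760) (nat_lit 58232217311) (nat_lit 69) (nat_lit 5) (nat_lit 68) (nat_lit 5) (nat_lit 78) (nat_lit 5) (nat_lit 315) (nat_lit 305) (nat_lit 100)) (XT.lf (nat_lit 0) (nat_lit 78273610254) (nat_lit 684) (nat_lit 21251942084) (nat_lit 76) (nat_lit 31237748055) (nat_lit 69) (nat_lit 5) (nat_lit 78) (nat_lit 5) (nat_lit 70) (nat_lit 5) (nat_lit 316) (nat_lit 305) (nat_lit 99)))) (XT.nd (nat_lit 156) (nat_lit 608) (nat_lit 0) (XT.nd (nat_lit 78) (nat_lit 0) (nat_lit 0) (XT.lf (nat_lit 0) (nat_lit 36913000099) (nat_lit 684) (nat_lit 52014123317) (nat_lit 760) (nat_lit 45552830712) (nat_lit 60) (nat_lit 5) (nat_lit 69) (nat_lit 5) (nat_lit 70) (nat_lit 5) (nat_lit 317) (nat_lit 305) (nat_lit 98)) (XT.lf (nat_lit 0) (nat_lit 98723797547) (nat_lit 684) (nat_lit 1749189270)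 (nat_lit 760) (nat_lit 37891470922) (nat_lit 60) (nat_lit 5) (nat_lit 69) (nat_lit 5) (nat_lit 70) (nat_lit 5) (nat_lit 318) (nat_lit 305) (nat_lit 97))) (XT.nd (nat_lit 78) (nat_lit 304) (nat_lit 0) (XT.lf (nat_lit 0) (nat_lit 21059050103) (nat_lit 304) (nat_lit 92662363988) (nat_lit 380) (nat_lit 28665509777) (nat_lit 56) (nat_lit 5) (nat_lit 60) (nat_lit 5) (nat_lit 61) (nat_lit 5) (nat_lit 319) (nat_lit 305) (nat_lit 96)) (XT.nd (nat_lit 78) (nat_lit 304) (nat_lit 0) (XT.lf (nat_lit 0) (nat_lit 86140146417) (nat_lit 304) (nat_lit 42191444612) (nat_lit 380) (nat_lit 18243956692) (nat_lit 56) (nat_lit 5) (nat_lit 60) (nat_lit 5) (nat_lit 61) (nat_lit 5) (nat_lit 320) (nat_lit 305) (nat_lit 95)) (XT.lf (nat_lit 0) (nat_lit 3443015733) (nat_lit 304) (nat_lit 140451473952) (nat_lit 380) (nat_lit 7068003232) (nat_lit 52) (nat_lit 5) (nat_lit 56) (nat_lit 5) (nat_lit 57) (nat_lit 5) (nat_lit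 321) (nat_lit 305) (nat_lit 94)))))) (XT.nd (nat_lit 312) (nat_lit 304) (nat_lit 0) (XT.nd (nat_lit 156) (nat_lit 304) (nat_lit 0) (XT.nd (nat_lit 78) (nat_lit 0) (nat_lit 0) (XT.lf (nat_lit 0) (nat_lit 6249122276) (nat_lit 380) (nat_lit 83685594427) (nat_lit 76) (nat_lit 65543839364) (nat_lit 51) (nat_lit 5) (nat_lit 56) (nat_lit 5) (nat_lit 52) (nat_lit 5) (nat_lit 322) (nat_lit 305) (nat_lit 93)) (XT.lf (nat_lit 0) (nat_lit 19994377498) (nat_lit 380) (nat_lit 16776091874) (nat_lit 76) (nat_lit 123444170008) (nat_lit 51) (nat_lit 5) (nat_lit 56) (nat_lit 5) (nat_lit 52) (nat_lit 5) (nat_lit 323) (nat_lit 305) (nat_lit 92))) (XT.nd (nat_lit 78) (nat_lit 0) (nat_lit 0) (XT.lf (nat_lit 0) (nat_lit 35600864124) (nat_lit 380) (nat_lit 110209066802) (nat_lit 76) (nat_lit 19318898151) (nat_lit 47) (nat_lit 5) (nat_lit 52) (nat_lit 5) (nat_lit 48) (nat_lit 5) (nat_lit 324) (nat_lit 305) (nat_lit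 91)) (XT.lf (nat_lit 0) (nat_lit 52879058110) (nat_lit 380) (nat_lit 40099339613) (nat_lit 76) (nat_lit 77265762007) (nat_lit 47) (nat_lit 5) (nat_lit 52) (nat_lit 5) (nat_lit 48) (nat_lit 5) (nat_lit 325) (nat_lit 305) (nat_lit 90)))) (XT.nd (nat_lit 36036) (nat_lit 0) (nat_lit 1672) (XT.nd (nat_lit 35958) (nat_lit 0) (nat_lit 1672) (XT.lf (nat_lit 0) (nat_lit 34623861412) (nat_lit 304) (nat_lit 36937704134) (nat_lit 380) (nat_lit 104026671774) (nat_lit 43) (nat_lit 5) (nat_lit 47) (nat_lit 5) (nat_lit 48) (nat_lit 5) (nat_lit 326) (nat_lit 305) (nat_lit 89)) (XT.lf (nat_lit 0) (nat_lit 6843679896) (nat_lit 0) (nat_lit 6843679896) (nat_lit 684) (nat_lit 37802933382) (nat_lit 65) (nat_lit 5) (nat_lit 65) (nat_lit 3) (nat_lit 74) (nat_lit 3) (nat_lit 306) (nat_lit 306) (nat_lit 108))) (XT.nd (nat_lit 78) (nat_lit 0) (nat_lit 0) (XT.lf (nat_lit 0) (nat_lit 28542899445) (nat_lit 684) (nat_lit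 47337375024) (nat_lit 760) (nat_lit 29650613713) (nat_lit 65) (nat_lit 5) (nat_lit 74) (nat_lit 3) (nat_lit 75) (nat_lit 5) (nat_lit 307) (nat_lit 306) (nat_lit 107)) (XT.nd (nat_lit 78) (nat_lit 0) (nat_lit 76) (XT.lf (nat_lit 0) (nat_lit 29993517085) (nat_lit 684) (nat_lit 3508314388) (nat_lit 760) (nat_lit 74695673613) (nat_lit 65) (nat_lit 5) (nat_lit 74) (nat_lit 3) (nat_lit 75) (nat_lit 5) (nat_lit 308) (nat_lit 306) (nat_lit 106)) (XT.lf (nat_lit 0) (nat_lit 32384919863) (nat_lit 684) (nat_lit 67228453893) (nat_lit 760) (nat_lit 11340667723) (nat_lit 66) (nat_lit 5) (nat_lit 75) (nat_lit 5) (nat_lit 76) (nat_lit 5) (nat_lit 309) (nat_lit 306) (nat_lit 105))))))))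
noncomputable def xc253 : XT := (XT.nd (nat_lit 37362) (nat_lit 0) (nat_lit 304) (XT.nd (nat_lit 624) (nat_lit 1444) (nat_lit 0) (XT.nd (nat_lit 312) (nat_lit 0) (nat_lit 152) (XT.nd (nat_lit 156) (nat_lit 0) (nat_lit 76) (XT.nd (nat_lit 78) (nat_lit 0) (nat_lit 0) (XT.lf (nat_lit 0) (nat_lit 35505170113) (nat_lit 684) (nat_lit 20952840422) (nat_lit 760) (nat_lit 57359931581) (nat_lit 66) (nat_lit 5) (nat_lit 75) (nat_lit 5) (nat_lit 76) (nat_lit 5) (nat_lit 310) (nat_lit 306) (nat_lit 104)) (XT.lf (nat_lit 76) (nat_lit 28550138818) (nat_lit 0) (nat_lit 10676735033) (nat_lit 760) (nat_lit 77575893115) (nat_lit 67) (nat_lit 5) (nat_lit 66) (nat_lit 5) (nat_lit 76) (nat_lit 5) (nat_lit 311) (nat_lit 306) (nat_lit 103))) (XT.nd (nat_lit 78) (nat_lit 0) (nat_lit 0) (XT.lf (nat_lit 0) (nat_lit 44078851820) (nat_lit 684) (nat_lit 39253236475) (nat_lit 760) (nat_lit 36557536482) (nat_lit 67)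 (nat_lit 5) (nat_lit 76) (nat_lit 5) (nat_lit 77) (nat_lit 5) (nat_lit 312) (nat_lit 306) (nat_lit 102)) (XT.lf (nat_lit 76) (nat_lit 12418359533) (nat_lit 0) (nat_lit 37123703408) (nat_lit 760) (nat_lit 73570331940) (nat_lit 68) (nat_lit 5) (nat_lit 67) (nat_lit 5) (nat_lit 77) (nat_lit 5) (nat_lit 313) (nat_lit 306) (nat_lit 101)))) (XT.nd (nat_lit 156) (nat_lit 0) (nat_lit 0) (XT.nd (nat_lit 78) (nat_lit 0) (nat_lit 0) (XT.lf (nat_lit 0) (nat_lit 56131746275) (nat_lit 684) (nat_lit 58615767396) (nat_lit 760) (nat_lit 11706125299) (nat_lit 68) (nat_lit 5) (nat_lit 77) (nat_lit 5) (nat_lit 78) (nat_lit 5) (nat_lit 314) (nat_lit 306) (nat_lit 100)) (XT.lf (nat_lit 0) (nat_lit 63659243587) (nat_lit 684) (nat_lit 4542375388) (nat_lit 760) (nat_lit 61729910809) (nat_lit 68) (nat_lit 5) (nat_lit 77) (nat_lit 5) (nat_lit 78) (nat_lit 5) (nat_lit 315) (nat_lit 306) (nat_lit 99))) (XT.nd (nat_lit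 78) (nat_lit 0) (nat_lit 76) (XT.lf (nat_lit 76) (nat_lit 53961600095) (nat_lit 0) (nat_lit 18443764149) (nat_lit 760) (nat_lit 61135839434) (nat_lit 69) (nat_lit 5) (nat_lit 68) (nat_lit 5) (nat_lit 78) (nat_lit 5) (nat_lit 316) (nat_lit 306) (nat_lit 98)) (XT.lf (nat_lit 0) (nat_lit 82194489012) (nat_lit 684) (nat_lit 22308248850) (nat_lit 76) (nat_lit 32798339419) (nat_lit 69) (nat_lit 5) (nat_lit 78) (nat_lit 5) (nat_lit 70) (nat_lit 5) (nat_lit 317) (nat_lit 306) (nat_lit 97))))) (XT.nd (nat_lit 312) (nat_lit 684) (nat_lit 0) (XT.nd (nat_lit 156) (nat_lit 304) (nat_lit 0) (XT.nd (nat_lit 78) (nat_lit 0) (nat_lit 0) (XT.lf (nat_lit 0) (nat_lit 38764838985) (nat_lit 684) (nat_lit 54615592699) (nat_lit 760) (nat_lit 47823145670) (nat_lit 60) (nat_lit 5) (nat_lit 69) (nat_lit 5) (nat_lit 70) (nat_lit 5) (nat_lit 318) (nat_lit 306) (nat_lit 96)) (XT.lf (nat_lit 0) (nat_lit 103665881596)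 (nat_lit 684) (nat_lit 1837375606) (nat_lit 760) (nat_lit 39779066775) (nat_lit 60) (nat_lit 5) (nat_lit 69) (nat_lit 5) (nat_lit 70) (nat_lit 5) (nat_lit 319) (nat_lit 306) (nat_lit 95))) (XT.nd (nat_lit 78) (nat_lit 0) (nat_lit 0) (XT.lf (nat_lit 0) (nat_lit 22118163774) (nat_lit 304) (nat_lit 97295712164) (nat_lit 380) (nat_lit 30092050190) (nat_lit 56) (nat_lit 5) (nat_lit 60) (nat_lit 5) (nat_lit 61) (nat_lit 5) (nat_lit 320) (nat_lit 306) (nat_lit 94)) (XT.lf (nat_lit 0) (nat_lit 90453021516) (nat_lit 304) (nat_lit 44301235867) (nat_lit 380) (nat_lit 19149740168) (nat_lit 56) (nat_lit 5) (nat_lit 60) (nat_lit 5) (nat_lit 61) (nat_lit 5) (nat_lit 321) (nat_lit 306) (nat_lit 93)))) (XT.nd (nat_lit 156) (nat_lit 304) (nat_lit 0) (XT.nd (nat_lit 78) (nat_lit 76) (nat_lit 0) (XT.lf (nat_lit 0) (nat_lit 3621265293) (nat_lit 304) (nat_lit 147473837793) (nat_lit 380) (nat_lit 7415197920)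 (nat_lit 52) (nat_lit 5) (nat_lit 56) (nat_lit 5) (nat_lit 57) (nat_lit 5) (nat_lit 322) (nat_lit 306) (nat_lit 92)) (XT.lf (nat_lit 0) (nat_lit 6567299208) (nat_lit 380) (nat_lit 87863856582) (nat_lit 76) (nat_lit 68821021985) (nat_lit 51) (nat_lit 5) (nat_lit 56) (nat_lit 5) (nat_lit 52) (nat_lit 5) (nat_lit 323) (nat_lit 306) (nat_lit 91))) (XT.nd (nat_lit 78) (nat_lit 304) (nat_lit 0) (XT.lf (nat_lit 0) (nat_lit 20999544771) (nat_lit 380) (nat_lit 17609165452) (nat_lit 76) (nat_lit 129616369606) (nat_lit 51) (nat_lit 5) (nat_lit 56) (nat_lit 5) (nat_lit 52) (nat_lit 5) (nat_lit 324) (nat_lit 306) (nat_lit 90)) (XT.nd (nat_lit 36114) (nat_lit 0) (nat_lit 1368) (XT.lf (nat_lit 0) (nat_lit 37386189961) (nat_lit 380) (nat_lit 115713605169) (nat_lit 76) (nat_lit 20285193080) (nat_lit 47) (nat_lit 5) (nat_lit 52) (nat_lit 5) (nat_lit 48) (nat_lit 5) (nat_lit 325) (nat_lit 306) (nat_lit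 89)) (XT.lf (nat_lit 0) (nat_lit 7188608443) (nat_lit 0) (nat_lit 7188608443) (nat_lit 684) (nat_lit 39687294604) (nat_lit 65) (nat_lit 5) (nat_lit 65) (nat_lit 3) (nat_lit 74) (nat_lit 3) (nat_lit 307) (nat_lit 307) (nat_lit 106))))))) (XT.nd (nat_lit 702) (nat_lit 1064) (nat_lit 0) (XT.nd (nat_lit 312) (nat_lit 0) (nat_lit 76) (XT.nd (nat_lit 156) (nat_lit 0) (nat_lit 76) (XT.nd (nat_lit 78) (nat_lit 0) (nat_lit 0) (XT.lf (nat_lit 0) (nat_lit 29980418233) (nat_lit 684) (nat_lit 49698369973) (nat_lit 760) (nat_lit 31128084001) (nat_lit 65) (nat_lit 5) (nat_lit 74) (nat_lit 3) (nat_lit 75) (nat_lit 5) (nat_lit 308) (nat_lit 307) (nat_lit 105)) (XT.lf (nat_lit 0) (nat_lit 31503072764) (nat_lit 684) (nat_lit 3678136011) (nat_lit 760) (nat_lit 78425637867) (nat_lit 65) (nat_lit 5) (nat_lit 74) (nat_lit 3) (nat_lit 75) (nat_lit 5) (nat_lit 309) (nat_lit 307) (nat_lit 104))) (XT.nd (nat_lit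 78) (nat_lit 0) (nat_lit 0) (XT.lf (nat_lit 0) (nat_lit 34013598827) (nat_lit 684) (nat_lit 70583797820) (nat_lit 760) (nat_lit 11903837441) (nat_lit 66) (nat_lit 5) (nat_lit 75) (nat_lit 5) (nat_lit 76) (nat_lit 5) (nat_lit 310) (nat_lit 307) (nat_lit 103)) (XT.lf (nat_lit 0) (nat_lit 37289412400) (nat_lit 684) (nat_lit 21994693141) (nat_lit 760) (nat_lit 60224248476) (nat_lit 66) (nat_lit 5) (nat_lit 75) (nat_lit 5) (nat_lit 76) (nat_lit 5) (nat_lit 311) (nat_lit 307) (nat_lit 102)))) (XT.nd (nat_lit 156) (nat_lit 0) (nat_lit 76) (XT.nd (nat_lit 78) (nat_lit 0) (nat_lit 76) (XT.lf (nat_lit 76) (nat_lit 29983341685) (nat_lit 0) (nat_lit 11213520770) (nat_lit 760) (nat_lit 81445576313) (nat_lit 67) (nat_lit 5) (nat_lit 66) (nat_lit 5) (nat_lit 76) (nat_lit 5) (nat_lit 312) (nat_lit 307) (nat_lit 101)) (XT.lf (nat_lit 0) (nat_lit 46290983811) (nat_lit 684) (nat_lit 41209985428) (nat_lit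 760) (nat_lit 38382694640) (nat_lit 67) (nat_lit 5) (nat_lit 76) (nat_lit 5) (nat_lit 77) (nat_lit 5) (nat_lit 313) (nat_lit 307) (nat_lit 100))) (XT.nd (nat_lit 78) (nat_lit 0) (nat_lit 76) (XT.lf (nat_lit 76) (nat_lit 13045095012) (nat_lit 0) (nat_lit 38981961332) (nat_lit 760) (nat_lit 77240532657) (nat_lit 68) (nat_lit 5) (nat_lit 67) (nat_lit 5) (nat_lit 77) (nat_lit 5) (nat_lit 314) (nat_lit 307) (nat_lit 99)) (XT.nd (nat_lit 78) (nat_lit 0) (nat_lit 0) (XT.lf (nat_lit 0) (nat_lit 58945817298) (nat_lit 684) (nat_lit 61540579111) (nat_lit 760) (nat_lit 12289520694) (nat_lit 68) (nat_lit 5) (nat_lit 77) (nat_lit 5) (nat_lit 78) (nat_lit 5) (nat_lit 315) (nat_lit 307) (nat_lit 98)) (XT.lf (nat_lit 0) (nat_lit 66849333108) (nat_lit 684) (nat_lit 4763802105) (nat_lit 760) (nat_lit 64814586474) (nat_lit 68) (nat_lit 5) (nat_lit 77) (nat_lit 5) (nat_lit 78) (nat_lit 5) (nat_lit 316)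 (nat_lit 307) (nat_lit 97)))))) (XT.nd (nat_lit 312) (nat_lit 684) (nat_lit 0) (XT.nd (nat_lit 156) (nat_lit 608) (nat_lit 0) (XT.nd (nat_lit 78) (nat_lit 0) (nat_lit 76) (XT.lf (nat_lit 76) (nat_lit 56665280345) (nat_lit 0) (nat_lit 19367227492) (nat_lit 760) (nat_lit 64185385381) (nat_lit 69) (nat_lit 5) (nat_lit 68) (nat_lit 5) (nat_lit 78) (nat_lit 5) (nat_lit 317) (nat_lit 307) (nat_lit 96)) (XT.lf (nat_lit 0) (nat_lit 86310742483) (nat_lit 684) (nat_lit 23417955770) (nat_lit 76) (nat_lit 34437080844) (nat_lit 69) (nat_lit 5) (nat_lit 78) (nat_lit 5) (nat_lit 70) (nat_lit 5) (nat_lit 318) (nat_lit 307) (nat_lit 95))) (XT.nd (nat_lit 78) (nat_lit 0) (nat_lit 0) (XT.lf (nat_lit 0) (nat_lit 40708694431) (nat_lit 684) (nat_lit 57347064594) (nat_lit 760) (nat_lit 50207657531) (nat_lit 60) (nat_lit 5) (nat_lit 69) (nat_lit 5) (nat_lit 70) (nat_lit 5) (nat_lit 319) (nat_lit 307) (nat_lit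 94)) (XT.lf (nat_lit 0) (nat_lit 108854521864) (nat_lit 684) (nat_lit 1929903681) (nat_lit 760) (nat_lit 41761691140) (nat_lit 60) (nat_lit 5) (nat_lit 69) (nat_lit 5) (nat_lit 70) (nat_lit 5) (nat_lit 320) (nat_lit 307) (nat_lit 93)))) (XT.nd (nat_lit 156) (nat_lit 380) (nat_lit 0) (XT.nd (nat_lit 78) (nat_lit 0) (nat_lit 0) (XT.lf (nat_lit 0) (nat_lit 23229660322) (nat_lit 304) (nat_lit 102160706367) (nat_lit 380) (nat_lit 31590543787) (nat_lit 56) (nat_lit 5) (nat_lit 60) (nat_lit 5) (nat_lit 61) (nat_lit 5) (nat_lit 321) (nat_lit 307) (nat_lit 92)) (XT.lf (nat_lit 0) (nat_lit 94980994838) (nat_lit 304) (nat_lit 46516496323) (nat_lit 380) (nat_lit 20101409165) (nat_lit 56) (nat_lit 5) (nat_lit 60) (nat_lit 5) (nat_lit 61) (nat_lit 5) (nat_lit 322) (nat_lit 307) (nat_lit 91))) (XT.nd (nat_lit 78) (nat_lit 76) (nat_lit 0) (XT.lf (nat_lit 0) (nat_lit 3807860324) (nat_lit 304) (nat_lit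 154847339336) (nat_lit 380) (nat_lit 7780329269) (nat_lit 52) (nat_lit 5) (nat_lit 56) (nat_lit 5) (nat_lit 57) (nat_lit 5) (nat_lit 323) (nat_lit 307) (nat_lit 90)) (XT.nd (nat_lit 36270) (nat_lit 0) (nat_lit 1064) (XT.lf (nat_lit 0) (nat_lit 6900853119) (nat_lit 380) (nat_lit 92251591301) (nat_lit 76) (nat_lit 72262064605) (nat_lit 51) (nat_lit 5) (nat_lit 56) (nat_lit 5) (nat_lit 52) (nat_lit 5) (nat_lit 324) (nat_lit 307) (nat_lit 89)) (XT.lf (nat_lit 0) (nat_lit 7550528254) (nat_lit 0) (nat_lit 7550528254) (nat_lit 684) (nat_lit 41666411763) (nat_lit 65) (nat_lit 5) (nat_lit 65) (nat_lit 3) (nat_lit 74) (nat_lit 3) (nat_lit 308) (nat_lit 308) (nat_lit 104))))))))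
noncomputable def xc254 : XT := (XT.nd (nat_lit 37674) (nat_lit 0) (nat_lit 304) (XT.nd (nat_lit 624) (nat_lit 684) (nat_lit 0) (XT.nd (nat_lit 312) (nat_lit 0) (nat_lit 76) (XT.nd (nat_lit 156) (nat_lit 0) (nat_lit 76) (XT.nd (nat_lit 78) (nat_lit 0) (nat_lit 0) (XT.lf (nat_lit 0) (nat_lit 31488848501) (nat_lit 684) (nat_lit 52177960761) (nat_lit 760) (nat_lit 32679898270) (nat_lit 65) (nat_lit 5) (nat_lit 74) (nat_lit 3) (nat_lit 75) (nat_lit 5) (nat_lit 309) (nat_lit 308) (nat_lit 103)) (XT.lf (nat_lit 0) (nat_lit 33087187695) (nat_lit 684) (nat_lit 3856968801) (nat_lit 760) (nat_lit 82342548398) (nat_lit 65) (nat_lit 5) (nat_lit 74) (nat_lit 3) (nat_lit 75) (nat_lit 5) (nat_lit 310) (nat_lit 308) (nat_lit 102))) (XT.nd (nat_lit 78) (nat_lit 0) (nat_lit 0) (XT.lf (nat_lit 0) (nat_lit 35722834751) (nat_lit 684) (nat_lit 74107474090) (nat_lit 760) (nat_lit 12495524852) (nat_lit 66)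 (nat_lit 5) (nat_lit 75) (nat_lit 5) (nat_lit 76) (nat_lit 5) (nat_lit 311) (nat_lit 308) (nat_lit 101)) (XT.lf (nat_lit 0) (nat_lit 39162031575) (nat_lit 684) (nat_lit 23089176731) (nat_lit 760) (nat_lit 63232123318) (nat_lit 66) (nat_lit 5) (nat_lit 75) (nat_lit 5) (nat_lit 76) (nat_lit 5) (nat_lit 312) (nat_lit 308) (nat_lit 100)))) (XT.nd (nat_lit 156) (nat_lit 0) (nat_lit 76) (XT.nd (nat_lit 78) (nat_lit 0) (nat_lit 76) (XT.lf (nat_lit 76) (nat_lit 31487675143) (nat_lit 0) (nat_lit 11776871625) (nat_lit 760) (nat_lit 85509590767) (nat_lit 67) (nat_lit 5) (nat_lit 66) (nat_lit 5) (nat_lit 76) (nat_lit 5) (nat_lit 313) (nat_lit 308) (nat_lit 99)) (XT.lf (nat_lit 0) (nat_lit 48612961028) (nat_lit 684) (nat_lit 43265121552) (nat_lit 760) (nat_lit 40299363461) (nat_lit 67) (nat_lit 5) (nat_lit 76) (nat_lit 5) (nat_lit 77) (nat_lit 5) (nat_lit 314) (nat_lit 308) (nat_lit 98))) (XT.nd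 (nat_lit 78) (nat_lit 0) (nat_lit 76) (XT.lf (nat_lit 76) (nat_lit 13702626408) (nat_lit 0) (nat_lit 40932939448) (nat_lit 760) (nat_lit 81095016541) (nat_lit 68) (nat_lit 5) (nat_lit 67) (nat_lit 5) (nat_lit 77) (nat_lit 5) (nat_lit 315) (nat_lit 308) (nat_lit 97)) (XT.lf (nat_lit 0) (nat_lit 61899896108) (nat_lit 684) (nat_lit 64612187064) (nat_lit 760) (nat_lit 12902263514) (nat_lit 68) (nat_lit 5) (nat_lit 77) (nat_lit 5) (nat_lit 78) (nat_lit 5) (nat_lit 316) (nat_lit 308) (nat_lit 96))))) (XT.nd (nat_lit 312) (nat_lit 304) (nat_lit 0) (XT.nd (nat_lit 156) (nat_lit 608) (nat_lit 0) (XT.nd (nat_lit 78) (nat_lit 0) (nat_lit 0) (XT.lf (nat_lit 0) (nat_lit 70198264473) (nat_lit 684) (nat_lit 4996829351) (nat_lit 760) (nat_lit 68053665117) (nat_lit 68) (nat_lit 5) (nat_lit 77) (nat_lit 5) (nat_lit 78) (nat_lit 5) (nat_lit 317) (nat_lit 308) (nat_lit 95)) (XT.lf (nat_lit 76) (nat_lit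 59503623950) (nat_lit 0) (nat_lit 20336745451) (nat_lit 760) (nat_lit 67388082292) (nat_lit 69) (nat_lit 5) (nat_lit 68) (nat_lit 5) (nat_lit 78) (nat_lit 5) (nat_lit 318) (nat_lit 308) (nat_lit 94))) (XT.nd (nat_lit 78) (nat_lit 684) (nat_lit 0) (XT.lf (nat_lit 0) (nat_lit 90632201622) (nat_lit 684) (nat_lit 24583678482) (nat_lit 76) (nat_lit 36157868632) (nat_lit 69) (nat_lit 5) (nat_lit 78) (nat_lit 5) (nat_lit 70) (nat_lit 5) (nat_lit 319) (nat_lit 308) (nat_lit 93)) (XT.lf (nat_lit 0) (nat_lit 42749220761) (nat_lit 684) (nat_lit 60215045724) (nat_lit 760) (nat_lit 52712012814) (nat_lit 60) (nat_lit 5) (nat_lit 69) (nat_lit 5) (nat_lit 70) (nat_lit 5) (nat_lit 320) (nat_lit 308) (nat_lit 92)))) (XT.nd (nat_lit 156) (nat_lit 0) (nat_lit 0) (XT.nd (nat_lit 78) (nat_lit 304) (nat_lit 0) (XT.lf (nat_lit 0) (nat_lit 114302097108) (nat_lit 684) (nat_lit 2026996866) (nat_lit 760) (nat_lit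 43844035132) (nat_lit 60) (nat_lit 5) (nat_lit 69) (nat_lit 5) (nat_lit 70) (nat_lit 5) (nat_lit 321) (nat_lit 308) (nat_lit 91)) (XT.lf (nat_lit 0) (nat_lit 24396212144) (nat_lit 304) (nat_lit 107268930887) (nat_lit 380) (nat_lit 33164530012) (nat_lit 56) (nat_lit 5) (nat_lit 60) (nat_lit 5) (nat_lit 61) (nat_lit 5) (nat_lit 322) (nat_lit 308) (nat_lit 90))) (XT.nd (nat_lit 36426) (nat_lit 0) (nat_lit 684) (XT.lf (nat_lit 0) (nat_lit 99734872015) (nat_lit 304) (nat_lit 48842501332) (nat_lit 380) (nat_lit 21101202514) (nat_lit 56) (nat_lit 5) (nat_lit 60) (nat_lit 5) (nat_lit 61) (nat_lit 5) (nat_lit 323) (nat_lit 308) (nat_lit 89)) (XT.nd (nat_lit 78) (nat_lit 0) (nat_lit 0) (XT.lf (nat_lit 0) (nat_lit 7930312617) (nat_lit 0) (nat_lit 7930312617) (nat_lit 684) (nat_lit 43744972649) (nat_lit 65) (nat_lit 5) (nat_lit 65) (nat_lit 3) (nat_lit 74) (nat_lit 3) (nat_lit 309) (nat_lit 309)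 (nat_lit 102)) (XT.lf (nat_lit 0) (nat_lit 33071825491) (nat_lit 684) (nat_lit 54782026408) (nat_lit 760) (nat_lit 34309729982) (nat_lit 65) (nat_lit 5) (nat_lit 74) (nat_lit 3) (nat_lit 75) (nat_lit 5) (nat_lit 310) (nat_lit 309) (nat_lit 101))))))) (XT.nd (nat_lit 702) (nat_lit 380) (nat_lit 0) (XT.nd (nat_lit 312) (nat_lit 0) (nat_lit 152) (XT.nd (nat_lit 156) (nat_lit 0) (nat_lit 76) (XT.nd (nat_lit 78) (nat_lit 0) (nat_lit 76) (XT.lf (nat_lit 0) (nat_lit 34749675236) (nat_lit 684) (nat_lit 4045214964) (nat_lit 760) (nat_lit 86455710864) (nat_lit 65) (nat_lit 5) (nat_lit 74) (nat_lit 3) (nat_lit 75) (nat_lit 5) (nat_lit 311) (nat_lit 309) (nat_lit 100)) (XT.lf (nat_lit 0) (nat_lit 37516737017) (nat_lit 684) (nat_lit 77807846778) (nat_lit 760) (nat_lit 13117122445) (nat_lit 66) (nat_lit 5) (nat_lit 75) (nat_lit 5) (nat_lit 76) (nat_lit 5) (nat_lit 312) (nat_lit 309) (nat_lit 99)))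 (XT.nd (nat_lit 78) (nat_lit 0) (nat_lit 0) (XT.lf (nat_lit 0) (nat_lit 41127524133) (nat_lit 684) (nat_lit 24238872694) (nat_lit 760) (nat_lit 66390702199) (nat_lit 66) (nat_lit 5) (nat_lit 75) (nat_lit 5) (nat_lit 76) (nat_lit 5) (nat_lit 313) (nat_lit 309) (nat_lit 98)) (XT.lf (nat_lit 76) (nat_lit 33066744952) (nat_lit 0) (nat_lit 12368141344) (nat_lit 760) (nat_lit 89777574287) (nat_lit 67) (nat_lit 5) (nat_lit 66) (nat_lit 5) (nat_lit 76) (nat_lit 5) (nat_lit 314) (nat_lit 309) (nat_lit 97)))) (XT.nd (nat_lit 156) (nat_lit 0) (nat_lit 76) (XT.nd (nat_lit 78) (nat_lit 0) (nat_lit 0) (XT.lf (nat_lit 0) (nat_lit 51050346519) (nat_lit 684) (nat_lit 45423513096) (nat_lit 760) (nat_lit 42312094981) (nat_lit 67) (nat_lit 5) (nat_lit 76) (nat_lit 5) (nat_lit 77) (nat_lit 5) (nat_lit 315) (nat_lit 309) (nat_lit 96)) (XT.lf (nat_lit 76) (nat_lit 14392543802) (nat_lit 0) (nat_lit 42981291680)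 (nat_lit 760) (nat_lit 85142925873) (nat_lit 68) (nat_lit 5) (nat_lit 67) (nat_lit 5) (nat_lit 77) (nat_lit 5) (nat_lit 316) (nat_lit 309) (nat_lit 95))) (XT.nd (nat_lit 78) (nat_lit 0) (nat_lit 0) (XT.lf (nat_lit 0) (nat_lit 65001047779) (nat_lit 684) (nat_lit 67837879408) (nat_lit 760) (nat_lit 13545804613) (nat_lit 68) (nat_lit 5) (nat_lit 77) (nat_lit 5) (nat_lit 78) (nat_lit 5) (nat_lit 317) (nat_lit 309) (nat_lit 94)) (XT.nd (nat_lit 78) (nat_lit 0) (nat_lit 0) (XT.lf (nat_lit 0) (nat_lit 73714041378) (nat_lit 684) (nat_lit 5241987953) (nat_lit 760) (nat_lit 71454851156) (nat_lit 68) (nat_lit 5) (nat_lit 77) (nat_lit 5) (nat_lit 78) (nat_lit 5) (nat_lit 318) (nat_lit 309) (nat_lit 93)) (XT.lf (nat_lit 76) (nat_lit 62483412483) (nat_lit 0) (nat_lit 21354631780) (nat_lit 760) (nat_lit 70751525085) (nat_lit 69) (nat_lit 5) (nat_lit 68) (nat_lit 5) (nat_lit 78) (nat_lit 5) (nat_lit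 319) (nat_lit 309) (nat_lit 92)))))) (XT.nd (nat_lit 36816) (nat_lit 0) (nat_lit 380) (XT.nd (nat_lit 156) (nat_lit 0) (nat_lit 0) (XT.nd (nat_lit 78) (nat_lit 684) (nat_lit 0) (XT.lf (nat_lit 0) (nat_lit 95169183144) (nat_lit 684) (nat_lit 25808168459) (nat_lit 76) (nat_lit 37964794940) (nat_lit 69) (nat_lit 5) (nat_lit 78) (nat_lit 5) (nat_lit 70) (nat_lit 5) (nat_lit 320) (nat_lit 309) (nat_lit 91)) (XT.lf (nat_lit 0) (nat_lit 44891300037) (nat_lit 684) (nat_lit 63226367534) (nat_lit 760) (nat_lit 55342146250) (nat_lit 60) (nat_lit 5) (nat_lit 69) (nat_lit 5) (nat_lit 70) (nat_lit 5) (nat_lit 321) (nat_lit 309) (nat_lit 90))) (XT.nd (nat_lit 36582) (nat_lit 0) (nat_lit 380) (XT.lf (nat_lit 0) (nat_lit 120021600285) (nat_lit 684) (nat_lit 2128889113) (nat_lit 760) (nat_lit 46031030026) (nat_lit 60) (nat_lit 5) (nat_lit 69) (nat_lit 5) (nat_lit 70) (nat_lit 5) (nat_lit 322) (nat_lit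 309) (nat_lit 89)) (XT.lf (nat_lit 0) (nat_lit 8328876274) (nat_lit 0) (nat_lit 8328876274) (nat_lit 684) (nat_lit 45927904092) (nat_lit 65) (nat_lit 5) (nat_lit 65) (nat_lit 3) (nat_lit 74) (nat_lit 3) (nat_lit 310) (nat_lit 310) (nat_lit 100)))) (XT.nd (nat_lit 156) (nat_lit 0) (nat_lit 76) (XT.nd (nat_lit 78) (nat_lit 0) (nat_lit 0) (XT.lf (nat_lit 0) (nat_lit 34733157866) (nat_lit 684) (nat_lit 57516744608) (nat_lit 760) (nat_lit 36021440334) (nat_lit 65) (nat_lit 5) (nat_lit 74) (nat_lit 3) (nat_lit 75) (nat_lit 5) (nat_lit 311) (nat_lit 310) (nat_lit 99)) (XT.lf (nat_lit 0) (nat_lit 36494531475) (nat_lit 684) (nat_lit 4243301311) (nat_lit 760) (nat_lit 90774900077) (nat_lit 65) (nat_lit 5) (nat_lit 74) (nat_lit 3) (nat_lit 75) (nat_lit 5) (nat_lit 312) (nat_lit 310) (nat_lit 98))) (XT.nd (nat_lit 78) (nat_lit 0) (nat_lit 0) (XT.lf (nat_lit 0) (nat_lit 39399612895) (nat_lit 684)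 (nat_lit 81693703047) (nat_lit 760) (nat_lit 13770095439) (nat_lit 66) (nat_lit 5) (nat_lit 75) (nat_lit 5) (nat_lit 76) (nat_lit 5) (nat_lit 313) (nat_lit 310) (nat_lit 97)) (XT.nd (nat_lit 78) (nat_lit 0) (nat_lit 0) (XT.lf (nat_lit 0) (nat_lit 43190604176) (nat_lit 684) (nat_lit 25446496262) (nat_lit 760) (nat_lit 69707491472) (nat_lit 66) (nat_lit 5) (nat_lit 75) (nat_lit 5) (nat_lit 76) (nat_lit 5) (nat_lit 314) (nat_lit 310) (nat_lit 96)) (XT.lf (nat_lit 76) (nat_lit 34724332588) (nat_lit 0) (nat_lit 12988748990) (nat_lit 760) (nat_lit 94259653891) (nat_lit 67) (nat_lit 5) (nat_lit 66) (nat_lit 5) (nat_lit 76) (nat_lit 5) (nat_lit 315) (nat_lit 310) (nat_lit 95))))))))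
noncomputable def xc255 : XT := (XT.nd (nat_lit 74880) (nat_lit 0) (nat_lit 0) (XT.nd (nat_lit 37362) (nat_lit 0) (nat_lit 0) (XT.nd (nat_lit 312) (nat_lit 152) (nat_lit 0) (XT.nd (nat_lit 156) (nat_lit 0) (nat_lit 76) (XT.nd (nat_lit 78) (nat_lit 0) (nat_lit 0) (XT.lf (nat_lit 0) (nat_lit 53608974901) (nat_lit 684) (nat_lit 47690276475) (nat_lit 760) (nat_lit 44425671020) (nat_lit 67) (nat_lit 5) (nat_lit 76) (nat_lit 5) (nat_lit 77) (nat_lit 5) (nat_lit 316) (nat_lit 310) (nat_lit 94)) (XT.lf (nat_lit 76) (nat_lit 15116512102) (nat_lit 0) (nat_lit 45131902985) (nat_lit 760) (nat_lit 89393866728) (nat_lit 68) (nat_lit 5) (nat_lit 67) (nat_lit 5) (nat_lit 77) (nat_lit 5) (nat_lit 317) (nat_lit 310) (nat_lit 93))) (XT.nd (nat_lit 78) (nat_lit 0) (nat_lit 0) (XT.lf (nat_lit 0) (nat_lit 68256684627) (nat_lit 684) (nat_lit 71225313506) (nat_lit 760) (nat_lit 14221668923) (nat_lit 68) (nat_lit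 5) (nat_lit 77) (nat_lit 5) (nat_lit 78) (nat_lit 5) (nat_lit 318) (nat_lit 310) (nat_lit 92)) (XT.lf (nat_lit 0) (nat_lit 77405061979) (nat_lit 684) (nat_lit 5499839853) (nat_lit 760) (nat_lit 75026235695) (nat_lit 68) (nat_lit 5) (nat_lit 77) (nat_lit 5) (nat_lit 78) (nat_lit 5) (nat_lit 319) (nat_lit 310) (nat_lit 91)))) (XT.nd (nat_lit 36816) (nat_lit 228) (nat_lit 0) (XT.nd (nat_lit 78) (nat_lit 0) (nat_lit 76) (XT.lf (nat_lit 76) (nat_lit 65611762096) (nat_lit 0) (nat_lit 22423314895) (nat_lit 760) (nat_lit 74283694244) (nat_lit 69) (nat_lit 5) (nat_lit 68) (nat_lit 5) (nat_lit 78) (nat_lit 5) (nat_lit 320) (nat_lit 310) (nat_lit 90)) (XT.lf (nat_lit 0) (nat_lit 99932514357) (nat_lit 684) (nat_lit 27094319334) (nat_lit 76) (nat_lit 39862157477) (nat_lit 69) (nat_lit 5) (nat_lit 78) (nat_lit 5) (nat_lit 70) (nat_lit 5) (nat_lit 321) (nat_lit 310) (nat_lit 89))) (XT.nd (nat_lit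 78) (nat_lit 0) (nat_lit 0) (XT.lf (nat_lit 0) (nat_lit 8747177709) (nat_lit 0) (nat_lit 8747177709) (nat_lit 684) (nat_lit 48220383478) (nat_lit 65) (nat_lit 5) (nat_lit 65) (nat_lit 3) (nat_lit 74) (nat_lit 3) (nat_lit 311) (nat_lit 311) (nat_lit 98)) (XT.nd (nat_lit 78) (nat_lit 0) (nat_lit 0) (XT.lf (nat_lit 0) (nat_lit 36476837167) (nat_lit 684) (nat_lit 60388606218) (nat_lit 760) (nat_lit 37819087274) (nat_lit 65) (nat_lit 5) (nat_lit 74) (nat_lit 3) (nat_lit 75) (nat_lit 5) (nat_lit 312) (nat_lit 311) (nat_lit 97)) (XT.lf (nat_lit 0) (nat_lit 38325945103) (nat_lit 684) (nat_lit 4451680072) (nat_lit 760) (nat_lit 95310383103) (nat_lit 65) (nat_lit 5) (nat_lit 74) (nat_lit 3) (nat_lit 75) (nat_lit 5) (nat_lit 313) (nat_lit 311) (nat_lit 96)))))) (XT.nd (nat_lit 312) (nat_lit 76) (nat_lit 0) (XT.nd (nat_lit 156) (nat_lit 0) (nat_lit 0) (XT.nd (nat_lit 78) (nat_lit 0) (nat_lit 0)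 (XT.lf (nat_lit 0) (nat_lit 41375978146) (nat_lit 684) (nat_lit 85774273851) (nat_lit 760) (nat_lit 14455985128) (nat_lit 66) (nat_lit 5) (nat_lit 75) (nat_lit 5) (nat_lit 76) (nat_lit 5) (nat_lit 314) (nat_lit 311) (nat_lit 95)) (XT.lf (nat_lit 0) (nat_lit 45356214961) (nat_lit 684) (nat_lit 26714902648) (nat_lit 760) (nat_lit 73190375490) (nat_lit 66) (nat_lit 5) (nat_lit 75) (nat_lit 5) (nat_lit 76) (nat_lit 5) (nat_lit 315) (nat_lit 311) (nat_lit 94))) (XT.nd (nat_lit 78) (nat_lit 0) (nat_lit 76) (XT.lf (nat_lit 76) (nat_lit 36464404445) (nat_lit 0) (nat_lit 13640182429) (nat_lit 760) (nat_lit 98966469592) (nat_lit 67) (nat_lit 5) (nat_lit 66) (nat_lit 5) (nat_lit 76) (nat_lit 5) (nat_lit 316) (nat_lit 311) (nat_lit 93)) (XT.lf (nat_lit 0) (nat_lit 56294966554) (nat_lit 684) (nat_lit 50070788235) (nat_lit 760) (nat_lit 46645114470) (nat_lit 67) (nat_lit 5) (nat_lit 76) (nat_lit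 5) (nat_lit 77) (nat_lit 5) (nat_lit 317) (nat_lit 311) (nat_lit 92)))) (XT.nd (nat_lit 156) (nat_lit 152) (nat_lit 0) (XT.nd (nat_lit 78) (nat_lit 0) (nat_lit 76) (XT.lf (nat_lit 76) (nat_lit 15876275221) (nat_lit 0) (nat_lit 47389901055) (nat_lit 760) (nat_lit 93857931550) (nat_lit 68) (nat_lit 5) (nat_lit 67) (nat_lit 5) (nat_lit 77) (nat_lit 5) (nat_lit 318) (nat_lit 311) (nat_lit 91)) (XT.lf (nat_lit 0) (nat_lit 71674584127) (nat_lit 684) (nat_lit 74782533946) (nat_lit 760) (nat_lit 14931459018) (nat_lit 68) (nat_lit 5) (nat_lit 77) (nat_lit 5) (nat_lit 78) (nat_lit 5) (nat_lit 319) (nat_lit 311) (nat_lit 90))) (XT.nd (nat_lit 36894) (nat_lit 228) (nat_lit 0) (XT.lf (nat_lit 0) (nat_lit 81280139144) (nat_lit 684) (nat_lit 5770979240) (nat_lit 760) (nat_lit 78776315717) (nat_lit 68) (nat_lit 5) (nat_lit 77) (nat_lit 5) (nat_lit 78) (nat_lit 5) (nat_lit 320) (nat_lit 311) (nat_lit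 89)) (XT.nd (nat_lit 78) (nat_lit 0) (nat_lit 0) (XT.lf (nat_lit 0) (nat_lit 9186221511) (nat_lit 0) (nat_lit 9186221511) (nat_lit 684) (nat_lit 50627850889) (nat_lit 65) (nat_lit 5) (nat_lit 65) (nat_lit 3) (nat_lit 74) (nat_lit 3) (nat_lit 312) (nat_lit 312) (nat_lit 96)) (XT.lf (nat_lit 0) (nat_lit 38307047648) (nat_lit 684) (nat_lit 63404430525) (nat_lit 760) (nat_lit 39706934993) (nat_lit 65) (nat_lit 5) (nat_lit 74) (nat_lit 3) (nat_lit 75) (nat_lit 5) (nat_lit 313) (nat_lit 312) (nat_lit 95))))))) (XT.nd (nat_lit 37674) (nat_lit 0) (nat_lit 0) (XT.nd (nat_lit 312) (nat_lit 0) (nat_lit 0) (XT.nd (nat_lit 156) (nat_lit 0) (nat_lit 76) (XT.nd (nat_lit 78) (nat_lit 0) (nat_lit 76) (XT.lf (nat_lit 0) (nat_lit 40248307713) (nat_lit 684) (nat_lit 4670829786) (nat_lit 760) (nat_lit 100072943548) (nat_lit 65) (nat_lit 5) (nat_lit 74) (nat_lit 3) (nat_lit 75) (nat_lit 5) (nat_lit 314)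 (nat_lit 312) (nat_lit 94)) (XT.lf (nat_lit 0) (nat_lit 43450568079) (nat_lit 684) (nat_lit 90059255708) (nat_lit 760) (nat_lit 15176412427) (nat_lit 66) (nat_lit 5) (nat_lit 75) (nat_lit 5) (nat_lit 76) (nat_lit 5) (nat_lit 315) (nat_lit 312) (nat_lit 93))) (XT.nd (nat_lit 78) (nat_lit 0) (nat_lit 0) (XT.lf (nat_lit 0) (nat_lit 47629540972) (nat_lit 684) (nat_lit 28047093651) (nat_lit 760) (nat_lit 76847635258) (nat_lit 66) (nat_lit 5) (nat_lit 75) (nat_lit 5) (nat_lit 76) (nat_lit 5) (nat_lit 316) (nat_lit 312) (nat_lit 92)) (XT.lf (nat_lit 76) (nat_lit 38291121471) (nat_lit 0) (nat_lit 14324001972) (nat_lit 760) (nat_lit 103909199427) (nat_lit 67) (nat_lit 5) (nat_lit 66) (nat_lit 5) (nat_lit 76) (nat_lit 5) (nat_lit 317) (nat_lit 312) (nat_lit 91)))) (XT.nd (nat_lit 37128) (nat_lit 152) (nat_lit 0) (XT.nd (nat_lit 78) (nat_lit 0) (nat_lit 0) (XT.lf (nat_lit 0) (nat_lit 59114742463)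 (nat_lit 684) (nat_lit 52570697657) (nat_lit 760) (nat_lit 48975701169) (nat_lit 67) (nat_lit 5) (nat_lit 76) (nat_lit 5) (nat_lit 77) (nat_lit 5) (nat_lit 318) (nat_lit 312) (nat_lit 90)) (XT.lf (nat_lit 76) (nat_lit 16673660424) (nat_lit 0) (nat_lit 49760668599) (nat_lit 760) (nat_lit 98545722898) (nat_lit 68) (nat_lit 5) (nat_lit 67) (nat_lit 5) (nat_lit 77) (nat_lit 5) (nat_lit 319) (nat_lit 312) (nat_lit 89))) (XT.nd (nat_lit 78) (nat_lit 0) (nat_lit 0) (XT.lf (nat_lit 0) (nat_lit 9647060856) (nat_lit 0) (nat_lit 9647060856) (nat_lit 684) (nat_lit 53156021880) (nat_lit 65) (nat_lit 5) (nat_lit 65) (nat_lit 3) (nat_lit 74) (nat_lit 3) (nat_lit 313) (nat_lit 313) (nat_lit 94)) (XT.nd (nat_lit 78) (nat_lit 0) (nat_lit 0) (XT.lf (nat_lit 0) (nat_lit 40228176560) (nat_lit 684) (nat_lit 66571381299) (nat_lit 760) (nat_lit 41689463923) (nat_lit 65) (nat_lit 5) (nat_lit 74) (nat_lit 3)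 (nat_lit 75) (nat_lit 5) (nat_lit 314) (nat_lit 313) (nat_lit 93)) (XT.lf (nat_lit 0) (nat_lit 42266224555) (nat_lit 684) (nat_lit 4901256273) (nat_lit 760) (nat_lit 105073907088) (nat_lit 65) (nat_lit 5) (nat_lit 74) (nat_lit 3) (nat_lit 75) (nat_lit 5) (nat_lit 315) (nat_lit 313) (nat_lit 92)))))) (XT.nd (nat_lit 37440) (nat_lit 0) (nat_lit 0) (XT.nd (nat_lit 156) (nat_lit 76) (nat_lit 0) (XT.nd (nat_lit 78) (nat_lit 0) (nat_lit 0) (XT.lf (nat_lit 0) (nat_lit 45628349114) (nat_lit 684) (nat_lit 94558833608) (nat_lit 760) (nat_lit 15933081614) (nat_lit 66) (nat_lit 5) (nat_lit 75) (nat_lit 5) (nat_lit 76) (nat_lit 5) (nat_lit 316) (nat_lit 313) (nat_lit 91)) (XT.lf (nat_lit 0) (nat_lit 50016020526) (nat_lit 684) (nat_lit 29446224634) (nat_lit 760) (nat_lit 80687968035) (nat_lit 66) (nat_lit 5) (nat_lit 75) (nat_lit 5) (nat_lit 76) (nat_lit 5) (nat_lit 317) (nat_lit 313) (nat_lit 90)))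 (XT.nd (nat_lit 37206) (nat_lit 76) (nat_lit 0) (XT.lf (nat_lit 76) (nat_lit 40208849250) (nat_lit 0) (nat_lit 15041844176) (nat_lit 760) (nat_lit 109099585798) (nat_lit 67) (nat_lit 5) (nat_lit 66) (nat_lit 5) (nat_lit 76) (nat_lit 5) (nat_lit 318) (nat_lit 313) (nat_lit 89)) (XT.lf (nat_lit 0) (nat_lit 10130800084) (nat_lit 0) (nat_lit 10130800084) (nat_lit 684) (nat_lit 55810900930) (nat_lit 65) (nat_lit 5) (nat_lit 65) (nat_lit 3) (nat_lit 74) (nat_lit 3) (nat_lit 314) (nat_lit 314) (nat_lit 92)))) (XT.nd (nat_lit 156) (nat_lit 0) (nat_lit 0) (XT.nd (nat_lit 78) (nat_lit 0) (nat_lit 0) (XT.lf (nat_lit 0) (nat_lit 42244824870) (nat_lit 684) (nat_lit 69896983695) (nat_lit 760) (nat_lit 43771381275) (nat_lit 65) (nat_lit 5) (nat_lit 74) (nat_lit 3) (nat_lit 75) (nat_lit 5) (nat_lit 315) (nat_lit 314) (nat_lit 91)) (XT.lf (nat_lit 0) (nat_lit 44384525766) (nat_lit 684) (nat_lit 5143493688)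 (nat_lit 760) (nat_lit 110325168305) (nat_lit 65) (nat_lit 5) (nat_lit 74) (nat_lit 3) (nat_lit 75) (nat_lit 5) (nat_lit 316) (nat_lit 314) (nat_lit 90))) (XT.nd (nat_lit 37362) (nat_lit 76) (nat_lit 0) (XT.lf (nat_lit 0) (nat_lit 47914530860) (nat_lit 684) (nat_lit 99283705098) (nat_lit 760) (nat_lit 16727784279) (nat_lit 66) (nat_lit 5) (nat_lit 75) (nat_lit 5) (nat_lit 76) (nat_lit 5) (nat_lit 317) (nat_lit 314) (nat_lit 89)) (XT.nd (nat_lit 78) (nat_lit 0) (nat_lit 0) (XT.lf (nat_lit 0) (nat_lit 10638597399) (nat_lit 0) (nat_lit 10638597399) (nat_lit 684) (nat_lit 58598795597) (nat_lit 65) (nat_lit 5) (nat_lit 65) (nat_lit 3) (nat_lit 74) (nat_lit 3) (nat_lit 315) (nat_lit 315) (nat_lit 90)) (XT.lf (nat_lit 0) (nat_lit 44361818478) (nat_lit 684) (nat_lit 73389142023) (nat_lit 760) (nat_lit 45957632112) (nat_lit 65) (nat_lit 5) (nat_lit 74) (nat_lit 3) (nat_lit 75) (nat_lit 5) (nat_lit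 316) (nat_lit 315) (nat_lit 89))))))))

set_option maxRecDepth 10000000 in
noncomputable def Tp : PT := (PT.nd (nat_lit 4623450) (PT.nd (nat_lit 4286568) (PT.nd (nat_lit 3986736) (PT.nd (nat_lit 3724500) pc0 pc1) (PT.nd (nat_lit 150306) pc2 pc3)) (PT.nd (nat_lit 187356) (PT.nd (nat_lit 112008) pc4 pc5) (PT.nd (nat_lit 75036) pc6 pc7))) (PT.nd (nat_lit 188370) (PT.nd (nat_lit 112242) (PT.nd (nat_lit 38532) pc8 pc9) (PT.nd (nat_lit 38142) pc10 pc11)) (PT.nd (nat_lit 110916) (PT.nd (nat_lit 37752) pc12 pc13) (PT.nd (nat_lit 77376) pc14 pc15))))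

set_option maxRecDepth 10000000 in
noncomputable def Tx : XT := (XT.nd (nat_lit 6706674) (nat_lit 0) (nat_lit 76) XT.nil (XT.nd (nat_lit 5136222) (nat_lit 0) (nat_lit 0) (XT.nd (nat_lit 2508168) (nat_lit 0) (nat_lit 0) (XT.nd (nat_lit 1756482) (nat_lit 0) (nat_lit 0) (XT.nd (nat_lit 1233024) (nat_lit 0) (nat_lit 0) (XT.nd (nat_lit 859950) (nat_lit 0) (nat_lit 0) (XT.nd (nat_lit 598416) (nat_lit 0) (nat_lit 0) (XT.nd (nat_lit 411606) (nat_lit 0) (nat_lit 0) (XT.nd (nat_lit 262626) (nat_lit 0) (nat_lit 0) (XT.nd (nat_lit 187200) (nat_lit 0) (nat_lit 0) xc0 xc1) (XT.nd (nat_lit 74802) (nat_lit 0) (nat_lit 0) xc2 xc3)) (XT.nd (nat_lit 111462) (nat_lit 0) (nat_lit 0) (XT.nd (nat_lit 38220) (nat_lit 0) (nat_lit 0) xc4 xc5) (XT.nd (nat_lit 37752) (nat_lit 0) (nat_lit 0) xc6 xc7))) (XT.nd (nat_lit 148824) (nat_lit 0) (nat_lit 0) (XT.nd (nat_lit 74724) (nat_lit 0) (nat_lit 0) (XT.nd (nat_lit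 37440) (nat_lit 0) (nat_lit 0) xc8 xc9) (XT.nd (nat_lit 37128) (nat_lit 0) (nat_lit 0) xc10 xc11)) (XT.nd (nat_lit 39546) (nat_lit 0) (nat_lit 0) (XT.nd (nat_lit 2730) (nat_lit 0) (nat_lit 0) xc12 xc13) (XT.nd (nat_lit 36660) (nat_lit 0) (nat_lit 0) xc14 xc15)))) (XT.nd (nat_lit 188370) (nat_lit 0) (nat_lit 0) (XT.nd (nat_lit 78000) (nat_lit 0) (nat_lit 0) (XT.nd (nat_lit 39078) (nat_lit 0) (nat_lit 0) (XT.nd (nat_lit 2730) (nat_lit 0) (nat_lit 0) xc16 xc17) (XT.nd (nat_lit 36192) (nat_lit 0) (nat_lit 0) xc18 xc19)) (XT.nd (nat_lit 71916) (nat_lit 0) (nat_lit 0) (XT.nd (nat_lit 36036) (nat_lit 0) (nat_lit 0) xc20 xc21) (XT.nd (nat_lit 2730) (nat_lit 0) (nat_lit 0) xc22 xc23))) (XT.nd (nat_lit 76440) (nat_lit 0) (nat_lit 0) (XT.nd (nat_lit 38298) (nat_lit 0) (nat_lit 0) (XT.nd (nat_lit 35568) (nat_lit 0) (nat_lit 0) xc24 xc25) (XT.nd (nat_lit 35412) (nat_lit 0) (nat_lit 0) xc26 xc27))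 (XT.nd (nat_lit 38064) (nat_lit 0) (nat_lit 0) (XT.nd (nat_lit 35334) (nat_lit 0) (nat_lit 0) xc28 xc29) (XT.nd (nat_lit 35178) (nat_lit 0) (nat_lit 0) xc30 xc31))))) (XT.nd (nat_lit 265356) (nat_lit 0) (nat_lit 0) (XT.nd (nat_lit 149448) (nat_lit 0) (nat_lit 0) (XT.nd (nat_lit 75036) (nat_lit 0) (nat_lit 0) (XT.nd (nat_lit 37596) (nat_lit 0) (nat_lit 0) (XT.nd (nat_lit 2730) (nat_lit 0) (nat_lit 0) xc32 xc33) (XT.nd (nat_lit 2730) (nat_lit 0) (nat_lit 0) xc34 xc35)) (XT.nd (nat_lit 37284) (nat_lit 0) (nat_lit 0) (XT.nd (nat_lit 2730) (nat_lit 0) (nat_lit 0) xc36 xc37) (XT.nd (nat_lit 2730) (nat_lit 0) (nat_lit 0) xc38 xc39))) (XT.nd (nat_lit 42432) (nat_lit 0) (nat_lit 0) (XT.nd (nat_lit 5460) (nat_lit 0) (nat_lit 0) (XT.nd (nat_lit 2730) (nat_lit 152) (nat_lit 0) xc40 xc41) (XT.nd (nat_lit 34242) (nat_lit 0) (nat_lit 0) xc42 xc43)) (XT.nd (nat_lit 36816) (nat_lit 0) (nat_lit 0) (XT.nd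 (nat_lit 34086) (nat_lit 0) (nat_lit 0) xc44 xc45) (XT.nd (nat_lit 33930) (nat_lit 0) (nat_lit 0) xc46 xc47)))) (XT.nd (nat_lit 114504) (nat_lit 0) (nat_lit 0) (XT.nd (nat_lit 72852) (nat_lit 0) (nat_lit 0) (XT.nd (nat_lit 36504) (nat_lit 0) (nat_lit 0) (XT.nd (nat_lit 33774) (nat_lit 0) (nat_lit 152) xc48 xc49) (XT.nd (nat_lit 2730) (nat_lit 0) (nat_lit 0) xc50 xc51)) (XT.nd (nat_lit 36192) (nat_lit 0) (nat_lit 0) (XT.nd (nat_lit 2730) (nat_lit 0) (nat_lit 0) xc52 xc53) (XT.nd (nat_lit 2730) (nat_lit 152) (nat_lit 0) xc54 xc55))) (XT.nd (nat_lit 72072) (nat_lit 0) (nat_lit 0) (XT.nd (nat_lit 36114) (nat_lit 0) (nat_lit 0) (XT.nd (nat_lit 33384) (nat_lit 0) (nat_lit 0) xc56 xc57) (XT.nd (nat_lit 33228) (nat_lit 0) (nat_lit 152) xc58 xc59)) (XT.nd (nat_lit 35802) (nat_lit 0) (nat_lit 0) (XT.nd (nat_lit 2730) (nat_lit 0) (nat_lit 0) xc60 xc61) (XT.nd (nat_lit 2730) (nat_lit 76) (nat_lit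 0) xc62 xc63)))))) (XT.nd (nat_lit 381264) (nat_lit 0) (nat_lit 0) (XT.nd (nat_lit 192426) (nat_lit 0) (nat_lit 0) (XT.nd (nat_lit 81744) (nat_lit 0) (nat_lit 0) (XT.nd (nat_lit 40950) (nat_lit 0) (nat_lit 0) (XT.nd (nat_lit 5460) (nat_lit 0) (nat_lit 0) (XT.nd (nat_lit 2730) (nat_lit 228) (nat_lit 0) xc64 xc65) (XT.nd (nat_lit 32760) (nat_lit 0) (nat_lit 152) xc66 xc67)) (XT.nd (nat_lit 35334) (nat_lit 0) (nat_lit 0) (XT.nd (nat_lit 2730) (nat_lit 0) (nat_lit 0) xc68 xc69) (XT.nd (nat_lit 2730) (nat_lit 152) (nat_lit 0) xc70 xc71))) (XT.nd (nat_lit 70278) (nat_lit 0) (nat_lit 0) (XT.nd (nat_lit 35178) (nat_lit 0) (nat_lit 0) (XT.nd (nat_lit 32448) (nat_lit 0) (nat_lit 152) xc72 xc73) (XT.nd (nat_lit 32370) (nat_lit 0) (nat_lit 456) xc74 xc75)) (XT.nd (nat_lit 34944) (nat_lit 0) (nat_lit 152) (XT.nd (nat_lit 2730) (nat_lit 152) (nat_lit 0) xc76 xc77) (XT.nd (nat_lit 2730) (nat_lit 304)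 (nat_lit 0) xc78 xc79)))) (XT.nd (nat_lit 109356) (nat_lit 0) (nat_lit 0) (XT.nd (nat_lit 69420) (nat_lit 0) (nat_lit 0) (XT.nd (nat_lit 34788) (nat_lit 0) (nat_lit 0) (XT.nd (nat_lit 32058) (nat_lit 0) (nat_lit 456) xc80 xc81) (XT.nd (nat_lit 2730) (nat_lit 152) (nat_lit 0) xc82 xc83)) (XT.nd (nat_lit 5460) (nat_lit 152) (nat_lit 0) (XT.nd (nat_lit 2730) (nat_lit 304) (nat_lit 0) xc84 xc85) (XT.nd (nat_lit 31746) (nat_lit 0) (nat_lit 608) xc86 xc87))) (XT.nd (nat_lit 39780) (nat_lit 0) (nat_lit 0) (XT.nd (nat_lit 34320) (nat_lit 0) (nat_lit 152) (XT.nd (nat_lit 2730) (nat_lit 152) (nat_lit 0) xc88 xc89) (XT.nd (nat_lit 2730) (nat_lit 608) (nat_lit 0) xc90 xc91)) (XT.nd (nat_lit 34164) (nat_lit 0) (nat_lit 0) (XT.nd (nat_lit 2730) (nat_lit 0) (nat_lit 0) xc92 xc93) (XT.nd (nat_lit 2730) (nat_lit 228) (nat_lit 0) xc94 xc95))))) (XT.nd (nat_lit 185250) (nat_lit 0) (nat_lit 0) (XT.nd (nat_lit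 107250) (nat_lit 0) (nat_lit 0) (XT.nd (nat_lit 68016) (nat_lit 0) (nat_lit 0) (XT.nd (nat_lit 34086) (nat_lit 0) (nat_lit 0) (XT.nd (nat_lit 31356) (nat_lit 0) (nat_lit 380) xc96 xc97) (XT.nd (nat_lit 2730) (nat_lit 76) (nat_lit 0) xc98 xc99)) (XT.nd (nat_lit 5460) (nat_lit 152) (nat_lit 0) (XT.nd (nat_lit 2730) (nat_lit 532) (nat_lit 0) xc100 xc101) (XT.nd (nat_lit 31044) (nat_lit 0) (nat_lit 1216) xc102 xc103))) (XT.nd (nat_lit 39078) (nat_lit 0) (nat_lit 0) (XT.nd (nat_lit 5460) (nat_lit 0) (nat_lit 0) (XT.nd (nat_lit 2730) (nat_lit 228) (nat_lit 0) xc104 xc105) (XT.nd (nat_lit 30888) (nat_lit 0) (nat_lit 532) xc106 xc107)) (XT.nd (nat_lit 33462) (nat_lit 0) (nat_lit 228) (XT.nd (nat_lit 2730) (nat_lit 152) (nat_lit 0) xc108 xc109) (XT.nd (nat_lit 2730) (nat_lit 836) (nat_lit 0) xc110 xc111)))) (XT.nd (nat_lit 106392) (nat_lit 0) (nat_lit 0) (XT.nd (nat_lit 39000) (nat_lit 0) (nat_lit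 0) (XT.nd (nat_lit 33540) (nat_lit 0) (nat_lit 152) (XT.nd (nat_lit 2730) (nat_lit 0) (nat_lit 0) xc112 xc113) (XT.nd (nat_lit 2730) (nat_lit 304) (nat_lit 0) xc114 xc115)) (XT.nd (nat_lit 33618) (nat_lit 0) (nat_lit 0) (XT.nd (nat_lit 30888) (nat_lit 0) (nat_lit 988) xc116 xc117) (XT.nd (nat_lit 2730) (nat_lit 228) (nat_lit 0) xc118 xc119))) (XT.nd (nat_lit 39312) (nat_lit 0) (nat_lit 0) (XT.nd (nat_lit 5460) (nat_lit 456) (nat_lit 0) (XT.nd (nat_lit 2730) (nat_lit 1596) (nat_lit 0) xc120 xc121) (XT.nd (nat_lit 2730) (nat_lit 152) (nat_lit 0) xc122 xc123)) (XT.nd (nat_lit 5460) (nat_lit 152) (nat_lit 0) (XT.nd (nat_lit 2730) (nat_lit 532) (nat_lit 0) xc124 xc125) (XT.nd (nat_lit 31200) (nat_lit 0) (nat_lit 1064) xc126 xc127))))))) (XT.nd (nat_lit 825708) (nat_lit 0) (nat_lit 228) (XT.nd (nat_lit 377208) (nat_lit 0) (nat_lit 152) (XT.nd (nat_lit 187356) (nat_lit 0) (nat_lit 76) (XT.nd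 (nat_lit 79014) (nat_lit 0) (nat_lit 0) (XT.nd (nat_lit 39468) (nat_lit 0) (nat_lit 0) (XT.nd (nat_lit 34008) (nat_lit 0) (nat_lit 456) (XT.nd (nat_lit 2730) (nat_lit 228) (nat_lit 0) xc128 xc129) (XT.nd (nat_lit 2730) (nat_lit 1368) (nat_lit 0) xc130 xc131)) (XT.nd (nat_lit 34086) (nat_lit 0) (nat_lit 152) (XT.nd (nat_lit 2730) (nat_lit 152) (nat_lit 0) xc132 xc133) (XT.nd (nat_lit 2730) (nat_lit 456) (nat_lit 0) xc134 xc135))) (XT.nd (nat_lit 68484) (nat_lit 0) (nat_lit 76) (XT.nd (nat_lit 34164) (nat_lit 0) (nat_lit 76) (XT.nd (nat_lit 31434) (nat_lit 0) (nat_lit 912) xc136 xc137) (XT.nd (nat_lit 2730) (nat_lit 152) (nat_lit 0) xc138 xc139)) (XT.nd (nat_lit 5460) (nat_lit 152) (nat_lit 0) (XT.nd (nat_lit 2730) (nat_lit 988) (nat_lit 0) xc140 xc141) (XT.nd (nat_lit 31668) (nat_lit 0) (nat_lit 1520) xc142 xc143)))) (XT.nd (nat_lit 79950) (nat_lit 0) (nat_lit 76) (XT.nd (nat_lit 39936)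 (nat_lit 0) (nat_lit 76) (XT.nd (nat_lit 34476) (nat_lit 0) (nat_lit 380) (XT.nd (nat_lit 2730) (nat_lit 304) (nat_lit 0) xc144 xc145) (XT.nd (nat_lit 2730) (nat_lit 1596) (nat_lit 0) xc146 xc147)) (XT.nd (nat_lit 34554) (nat_lit 0) (nat_lit 0) (XT.nd (nat_lit 2730) (nat_lit 0) (nat_lit 0) xc148 xc149) (XT.nd (nat_lit 2730) (nat_lit 380) (nat_lit 0) xc150 xc151))) (XT.nd (nat_lit 69498) (nat_lit 0) (nat_lit 0) (XT.nd (nat_lit 34710) (nat_lit 0) (nat_lit 0) (XT.nd (nat_lit 31980) (nat_lit 0) (nat_lit 380) xc152 xc153) (XT.nd (nat_lit 2730) (nat_lit 0) (nat_lit 0) xc154 xc155)) (XT.nd (nat_lit 5460) (nat_lit 0) (nat_lit 0) (XT.nd (nat_lit 2730) (nat_lit 380) (nat_lit 0) xc156 xc157) (XT.nd (nat_lit 32136) (nat_lit 0) (nat_lit 380) xc158 xc159))))) (XT.nd (nat_lit 222222) (nat_lit 0) (nat_lit 0) (XT.nd (nat_lit 110682) (nat_lit 0) (nat_lit 0) (XT.nd (nat_lit 40404) (nat_lit 0) (nat_lit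 0) (XT.nd (nat_lit 34944) (nat_lit 0) (nat_lit 0) (XT.nd (nat_lit 2730) (nat_lit 0) (nat_lit 0) xc160 xc161) (XT.nd (nat_lit 2730) (nat_lit 380) (nat_lit 0) xc162 xc163)) (XT.nd (nat_lit 35100) (nat_lit 0) (nat_lit 0) (XT.nd (nat_lit 32370) (nat_lit 0) (nat_lit 304) xc164 xc165) (XT.nd (nat_lit 32448) (nat_lit 0) (nat_lit 1596) xc166 xc167))) (XT.nd (nat_lit 40716) (nat_lit 0) (nat_lit 0) (XT.nd (nat_lit 35256) (nat_lit 0) (nat_lit 152) (XT.nd (nat_lit 2730) (nat_lit 304) (nat_lit 0) xc168 xc169) (XT.nd (nat_lit 2730) (nat_lit 1140) (nat_lit 0) xc170 xc171)) (XT.nd (nat_lit 35334) (nat_lit 0) (nat_lit 0) (XT.nd (nat_lit 32604) (nat_lit 0) (nat_lit 912) xc172 xc173) (XT.nd (nat_lit 2730) (nat_lit 76) (nat_lit 0) xc174 xc175)))) (XT.nd (nat_lit 112632) (nat_lit 0) (nat_lit 0) (XT.nd (nat_lit 41028) (nat_lit 0) (nat_lit 0) (XT.nd (nat_lit 5460) (nat_lit 0) (nat_lit 0) (XT.nd (nat_lit 2730)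 (nat_lit 608) (nat_lit 0) xc176 xc177) (XT.nd (nat_lit 32838) (nat_lit 0) (nat_lit 380) xc178 xc179)) (XT.nd (nat_lit 35724) (nat_lit 0) (nat_lit 0) (XT.nd (nat_lit 32994) (nat_lit 0) (nat_lit 1292) xc180 xc181) (XT.nd (nat_lit 2730) (nat_lit 152) (nat_lit 0) xc182 xc183))) (XT.nd (nat_lit 41340) (nat_lit 0) (nat_lit 76) (XT.nd (nat_lit 5460) (nat_lit 76) (nat_lit 0) (XT.nd (nat_lit 2730) (nat_lit 532) (nat_lit 0) xc184 xc185) (XT.nd (nat_lit 33150) (nat_lit 0) (nat_lit 304) xc186 xc187)) (XT.nd (nat_lit 36036) (nat_lit 0) (nat_lit 0) (XT.nd (nat_lit 33306) (nat_lit 0) (nat_lit 836) xc188 xc189) (XT.nd (nat_lit 2730) (nat_lit 0) (nat_lit 0) xc190 xc191)))))) (XT.nd (nat_lit 563238) (nat_lit 0) (nat_lit 304) (XT.nd (nat_lit 262470) (nat_lit 0) (nat_lit 152) (XT.nd (nat_lit 114894) (nat_lit 0) (nat_lit 0) (XT.nd (nat_lit 72852) (nat_lit 0) (nat_lit 0) (XT.nd (nat_lit 36348) (nat_lit 0)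 (nat_lit 0) (XT.nd (nat_lit 2730) (nat_lit 304) (nat_lit 0) xc192 xc193) (XT.nd (nat_lit 2730) (nat_lit 836) (nat_lit 0) xc194 xc195)) (XT.nd (nat_lit 5460) (nat_lit 228) (nat_lit 0) (XT.nd (nat_lit 2730) (nat_lit 1520) (nat_lit 0) xc196 xc197) (XT.nd (nat_lit 33852) (nat_lit 0) (nat_lit 456) xc198 xc199))) (XT.nd (nat_lit 73554) (nat_lit 0) (nat_lit 76) (XT.nd (nat_lit 36738) (nat_lit 0) (nat_lit 76) (XT.nd (nat_lit 34008) (nat_lit 0) (nat_lit 988) xc200 xc201) (XT.nd (nat_lit 34086) (nat_lit 0) (nat_lit 1444) xc202 xc203)) (XT.nd (nat_lit 36972) (nat_lit 0) (nat_lit 0) (XT.nd (nat_lit 2730) (nat_lit 152) (nat_lit 0) xc204 xc205) (XT.nd (nat_lit 2730) (nat_lit 228) (nat_lit 0) xc206 xc207)))) (XT.nd (nat_lit 149370) (nat_lit 0) (nat_lit 76) (XT.nd (nat_lit 74490) (nat_lit 0) (nat_lit 76) (XT.nd (nat_lit 37206) (nat_lit 0) (nat_lit 0) (XT.nd (nat_lit 2730) (nat_lit 380) (nat_lit 0)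 xc208 xc209) (XT.nd (nat_lit 2730) (nat_lit 608) (nat_lit 0) xc210 xc211)) (XT.nd (nat_lit 37362) (nat_lit 0) (nat_lit 0) (XT.nd (nat_lit 2730) (nat_lit 608) (nat_lit 0) xc212 xc213) (XT.nd (nat_lit 2730) (nat_lit 760) (nat_lit 0) xc214 xc215))) (XT.nd (nat_lit 75426) (nat_lit 0) (nat_lit 76) (XT.nd (nat_lit 37674) (nat_lit 0) (nat_lit 0) (XT.nd (nat_lit 2730) (nat_lit 912) (nat_lit 0) xc216 xc217) (XT.nd (nat_lit 2730) (nat_lit 760) (nat_lit 0) xc218 xc219)) (XT.nd (nat_lit 37908) (nat_lit 0) (nat_lit 0) (XT.nd (nat_lit 2730) (nat_lit 684) (nat_lit 0) xc220 xc221) (XT.nd (nat_lit 2730) (nat_lit 456) (nat_lit 0) xc222 xc223))))) (XT.nd (nat_lit 376194) (nat_lit 0) (nat_lit 684) (XT.nd (nat_lit 186420) (nat_lit 0) (nat_lit 228) (XT.nd (nat_lit 76362) (nat_lit 0) (nat_lit 152) (XT.nd (nat_lit 38142) (nat_lit 0) (nat_lit 152) (XT.nd (nat_lit 2730) (nat_lit 228) (nat_lit 0) xc224 xc225)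 (XT.nd (nat_lit 35490) (nat_lit 0) (nat_lit 1064) xc226 xc227)) (XT.nd (nat_lit 38376) (nat_lit 0) (nat_lit 0) (XT.nd (nat_lit 35646) (nat_lit 0) (nat_lit 532) xc228 xc229) (XT.nd (nat_lit 35802) (nat_lit 0) (nat_lit 76) xc230 xc231))) (XT.nd (nat_lit 77688) (nat_lit 0) (nat_lit 228) (XT.nd (nat_lit 38766) (nat_lit 0) (nat_lit 152) (XT.nd (nat_lit 2730) (nat_lit 988) (nat_lit 0) xc232 xc233) (XT.nd (nat_lit 2730) (nat_lit 76) (nat_lit 0) xc234 xc235)) (XT.nd (nat_lit 72696) (nat_lit 0) (nat_lit 228) (XT.nd (nat_lit 36270) (nat_lit 0) (nat_lit 76) xc236 xc237) (XT.nd (nat_lit 2730) (nat_lit 532) (nat_lit 0) xc238 xc239)))) (XT.nd (nat_lit 262938) (nat_lit 0) (nat_lit 988) (XT.nd (nat_lit 113412) (nat_lit 0) (nat_lit 380) (XT.nd (nat_lit 73632) (nat_lit 0) (nat_lit 228) (XT.nd (nat_lit 36738) (nat_lit 0) (nat_lit 152) xc240 xc241) (XT.nd (nat_lit 2730) (nat_lit 152) (nat_lit 0) xc242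 xc243)) (XT.nd (nat_lit 74490) (nat_lit 0) (nat_lit 152) (XT.nd (nat_lit 37206) (nat_lit 0) (nat_lit 0) xc244 xc245) (XT.nd (nat_lit 37440) (nat_lit 0) (nat_lit 304) xc246 xc247))) (XT.nd (nat_lit 187434) (nat_lit 0) (nat_lit 760) (XT.nd (nat_lit 75660) (nat_lit 0) (nat_lit 228) (XT.nd (nat_lit 37752) (nat_lit 0) (nat_lit 228) xc248 xc249) (XT.nd (nat_lit 73476) (nat_lit 0) (nat_lit 532) xc250 xc251)) (XT.nd (nat_lit 149292) (nat_lit 0) (nat_lit 1216) (XT.nd (nat_lit 74334) (nat_lit 0) (nat_lit 532) xc252 xc253) (XT.nd (nat_lit 75582) (nat_lit 0) (nat_lit 684) xc254 xc255)))))))) XT.nil))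

set_option maxRecDepth 10000000 in
noncomputable def Te : XT := XT.nil

set_option maxRecDepth 10000000 in
noncomputable def Tz : ZL := (ZL.cons (nat_lit 76) (nat_lit 6) (nat_lit 172468403566003189466) (ZL.cons (nat_lit 152) (nat_lit 6) (nat_lit 169002157717219348504) (ZL.cons (nat_lit 228) (nat_lit 3) (nat_lit 84405205218426613186) (ZL.cons (nat_lit 304) (nat_lit 6) (nat_lit 165362599575996315494) (ZL.cons (nat_lit 380) (nat_lit 6) (nat_lit 162116761909954226092) (ZL.cons (nat_lit 456) (nat_lit 3) (nat_lit 80967072726231340602) (ZL.cons (nat_lit 532) (nat_lit 6) (nat_lit 158708632360610032220) (ZL.cons (nat_lit 608) (nat_lit 6) (nat_lit 155678380507362528902) (ZL.cons (nat_lit 684) (nat_lit 3) (nat_lit 77752230035828147838) (ZL.cons (nat_lit 760) (nat_lit 6) (nat_lit 152496616061452650416) (ZL.cons (nat_lit 836) (nat_lit 6) (nat_lit 149677938796641468720) (ZL.cons (nat_lit 912) (nat_lit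 3) (nat_lit 74756150143222528061) (ZL.cons (nat_lit 988) (nat_lit 6) (nat_lit 147041717140877962052) (ZL.cons (nat_lit 1064) (nat_lit 6) (nat_lit 146718327668589727936) (ZL.cons (nat_lit 1140) (nat_lit 6) (nat_lit 144108045892129867456) (ZL.cons (nat_lit 1216) (nat_lit 3) (nat_lit 71975147465019022969) (ZL.cons (nat_lit 1292) (nat_lit 6) (nat_lit 141675240000454855970) (ZL.cons (nat_lit 1368) (nat_lit 6) (nat_lit 141367250026847013954) (ZL.cons (nat_lit 1444) (nat_lit 6) (nat_lit 139414117598584514880) (ZL.cons (nat_lit 1520) (nat_lit 6) (nat_lit 138963042852104272392) (ZL.cons (nat_lit 1596) (nat_lit 3) (nat_lit 69406401920294125947) (ZL.cons (nat_lit 1672) (nat_lit 6) (nat_lit 136731949103012814718) (ZL.cons (nat_lit 1748) (nat_lit 6) (nat_lit 136438625318624393748) (ZL.cons (nat_lit 1824) (nat_lit 6) (nat_lit 134668656651598613652) (ZL.cons (nat_lit 1900) (nat_lit 6) (nat_lit 134239061654950763662)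 (ZL.cons (nat_lit 1976) (nat_lit 3) (nat_lit 67047988441039181595) (ZL.cons (nat_lit 2052) (nat_lit 6) (nat_lit 132768252896786873480) (ZL.cons (nat_lit 2128) (nat_lit 6) (nat_lit 132208875793225281564) (ZL.cons (nat_lit 2204) (nat_lit 6) (nat_lit 131929519808093452072) (ZL.cons (nat_lit 2280) (nat_lit 6) (nat_lit 130343233957586696308) (ZL.cons (nat_lit 2356) (nat_lit 6) (nat_lit 129934095865541124890) (ZL.cons (nat_lit 2432) (nat_lit 3) (nat_lit 64898912326640847935) (ZL.cons (nat_lit 2508) (nat_lit 6) (nat_lit 128637694143664439834) (ZL.cons (nat_lit 2584) (nat_lit 6) (nat_lit 128104954045034352296) (ZL.cons (nat_lit 2660) (nat_lit 6) (nat_lit 127838900725861181350) (ZL.cons (nat_lit 2736) (nat_lit 6) (nat_lit 127088195542377744862) (ZL.cons (nat_lit 2812) (nat_lit 6) (nat_lit 126437739247000499118) (ZL.cons (nat_lit 2888) (nat_lit 6) (nat_lit 126048083921242812052) (ZL.cons (nat_lit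 2964) (nat_lit 3) (nat_lit 62959150907164535063) (ZL.cons (nat_lit 3040) (nat_lit 6) (nat_lit 124928481912396627606) (ZL.cons (nat_lit 3116) (nat_lit 6) (nat_lit 124421110389891782334) (ZL.cons (nat_lit 3192) (nat_lit 6) (nat_lit 124167726276393524288) (ZL.cons (nat_lit 3268) (nat_lit 6) (nat_lit 123573588571378442832) (ZL.cons (nat_lit 3344) (nat_lit 6) (nat_lit 122954106385304875456) (ZL.cons (nat_lit 3420) (nat_lit 6) (nat_lit 122583006075059459204) (ZL.cons (nat_lit 3496) (nat_lit 3) (nat_lit 61229702034237471542) (ZL.cons (nat_lit 3572) (nat_lit 6) (nat_lit 122369833287419711020) (ZL.cons (nat_lit 3648) (nat_lit 6) (nat_lit 121643579040804503544) (ZL.cons (nat_lit 3724) (nat_lit 6) (nat_lit 121160368066990365188) (ZL.cons (nat_lit 3800) (nat_lit 6) (nat_lit 120919049863658690862) (ZL.cons (nat_lit 3876) (nat_lit 6) (nat_lit 121314349976511006620) (ZL.cons (nat_lit 3952) (nat_lit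 6) (nat_lit 120486408053189475242) (ZL.cons (nat_lit 4028) (nat_lit 6) (nat_lit 119896425018833696786) (ZL.cons (nat_lit 4104) (nat_lit 6) (nat_lit 119542996151933300356) (ZL.cons (nat_lit 4180) (nat_lit 3) (nat_lit 59712639977593071075) (ZL.cons (nat_lit 4256) (nat_lit 6) (nat_lit 119479838253441659524) (ZL.cons (nat_lit 4332) (nat_lit 6) (nat_lit 118788167542379557166) (ZL.cons (nat_lit 4408) (nat_lit 6) (nat_lit 118327966614937520636) (ZL.cons (nat_lit 4484) (nat_lit 6) (nat_lit 118098139754621640326) (ZL.cons (nat_lit 4560) (nat_lit 6) (nat_lit 118621473046799752072) (ZL.cons (nat_lit 4636) (nat_lit 6) (nat_lit 117832956929350674568) (ZL.cons (nat_lit 4712) (nat_lit 6) (nat_lit 117271068325202314136) (ZL.cons (nat_lit 4788) (nat_lit 6) (nat_lit 116934469404344793726) (ZL.cons (nat_lit 4864) (nat_lit 3) (nat_lit 58411179370388035811) (ZL.cons (nat_lit 4940) (nat_lit 6) (nat_lit 116493286487343670884)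 (ZL.cons (nat_lit 5016) (nat_lit 6) (nat_lit 116634380242911250604) (ZL.cons (nat_lit 5092) (nat_lit 6) (nat_lit 116916903691559666186) (ZL.cons (nat_lit 5168) (nat_lit 6) (nat_lit 117341529508166651950) (ZL.cons (nat_lit 5244) (nat_lit 6) (nat_lit 117909268706581272150) (ZL.cons (nat_lit 5320) (nat_lit 6) (nat_lit 117028518868763646886) (ZL.cons (nat_lit 5396) (nat_lit 6) (nat_lit 116369784858228311308) (ZL.cons (nat_lit 5472) (nat_lit 6) (nat_lit 115931498260664466996) (ZL.cons (nat_lit 5548) (nat_lit 6) (nat_lit 115712615536554104792) (ZL.cons (nat_lit 5624) (nat_lit 3) (nat_lit 57606606454472465742) (ZL.cons (nat_lit 5700) (nat_lit 6) (nat_lit 115285480442284423536) (ZL.cons (nat_lit 5776) (nat_lit 6) (nat_lit 115502455107858469910) (ZL.cons (nat_lit 5852) (nat_lit 6) (nat_lit 115864653512013675478) (ZL.cons (nat_lit 5928) (nat_lit 6) (nat_lit 116372938031902790728) (ZL.cons (nat_lit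 6004) (nat_lit 6) (nat_lit 115621970300998907390) (ZL.cons (nat_lit 6080) (nat_lit 6) (nat_lit 115086838297048087932) (ZL.cons (nat_lit 6156) (nat_lit 6) (nat_lit 114766267896231401826) (ZL.cons (nat_lit 6232) (nat_lit 3) (nat_lit 57329747917844880863) (ZL.cons (nat_lit 6308) (nat_lit 6) (nat_lit 114135188970799426062) (ZL.cons (nat_lit 6384) (nat_lit 6) (nat_lit 114283337414145384768) (ZL.cons (nat_lit 6460) (nat_lit 6) (nat_lit 114579987035226221128) (ZL.cons (nat_lit 6536) (nat_lit 6) (nat_lit 115025844142663556182) (ZL.cons (nat_lit 6612) (nat_lit 6) (nat_lit 114398478418344188964) (ZL.cons (nat_lit 6688) (nat_lit 6) (nat_lit 113981062611140527712) (ZL.cons (nat_lit 6764) (nat_lit 6) (nat_lit 113772602873892563710) (ZL.cons (nat_lit 6840) (nat_lit 3) (nat_lit 56590383519619218380) (ZL.cons (nat_lit 6916) (nat_lit 6) (nat_lit 113256647949244903414) (ZL.cons (nat_lit 6992) (nat_lit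 6) (nat_lit 113484471348097652106) (ZL.cons (nat_lit 7068) (nat_lit 6) (nat_lit 113864779672460617952) (ZL.cons (nat_lit 7144) (nat_lit 6) (nat_lit 113355130144888408940) (ZL.cons (nat_lit 7220) (nat_lit 6) (nat_lit 113049825001253469792) (ZL.cons (nat_lit 7296) (nat_lit 3) (nat_lit 56474068662273572945) (ZL.cons (nat_lit 7372) (nat_lit 6) (nat_lit 112419942214431072318) (ZL.cons (nat_lit 7448) (nat_lit 6) (nat_lit 112575498079944328958) (ZL.cons (nat_lit 7524) (nat_lit 6) (nat_lit 112886980182079207136) (ZL.cons (nat_lit 7600) (nat_lit 6) (nat_lit 112489441318075720228) (ZL.cons (nat_lit 7676) (nat_lit 6) (nat_lit 112290908234982421180) (ZL.cons (nat_lit 7752) (nat_lit 3) (nat_lit 55885614026596214990) (ZL.cons (nat_lit 7828) (nat_lit 6) (nat_lit 111850903008699219966) (ZL.cons (nat_lit 7904) (nat_lit 6) (nat_lit 112090117577494606092) (ZL.cons (nat_lit 7980) (nat_lit 6) (nat_lit 111799350774032759284)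 (ZL.cons (nat_lit 8056) (nat_lit 3) (nat_lit 55851252683822892069) (ZL.cons (nat_lit 8132) (nat_lit 6) (nat_lit 111308960908002217728) (ZL.cons (nat_lit 8208) (nat_lit 6) (nat_lit 111472294566791137200) (ZL.cons (nat_lit 8284) (nat_lit 6) (nat_lit 111283215440035614294) (ZL.cons (nat_lit 8360) (nat_lit 3) (nat_lit 55474190719759164689) (ZL.cons (nat_lit 8436) (nat_lit 6) (nat_lit 111032040142800458864) (ZL.cons (nat_lit 8512) (nat_lit 3) (nat_lit 55469903211215955552) (ZL.cons (nat_lit 8588) (nat_lit 6) (nat_lit 110768306080703545660) (ZL.cons (nat_lit 8664) (nat_lit 1) (nat_lit 18446744073709551617) ZL.nil))))))))))))))))))))))))))))))))))))))))))))))))))))))))))))))))))))))))))))))))))))))))))))))))))))))))))))))))))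

noncomputable def vl : XL := ⟨(nat_lit 0), (nat_lit 76), (nat_lit 206705025), (nat_lit 228), (nat_lit 281629978), (nat_lit 76), (nat_lit 206705025), (nat_lit 1), (nat_lit 5), (nat_lit 3), (nat_lit 4), (nat_lit 1), (nat_lit 4), (nat_lit 0), (nat_lit 0), (nat_lit 0)⟩

noncomputable def cp0 : Nat := (nat_lit 2594856103399961370956181289838575584585335285080786289297581781100984774838916126315248369813609777199331315486492078157411877351219105502559697333904482429485819289810345056677183057395386599865541310867554964648811285385731631251637017075217722054498251102726733100981929946778217073482163934051757363638052954128990629058478986296775689505432164437394164632932086769518313325916487982888578233109797397045394004038669191632384295235605546147552931147136360974591516391144347352451086835595576508193576265603472142895220564123082412649252068074975403454419748691166225885801259362691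7958634925856735596525992123506626992430084445343535016428906358226901820496547224815473397190492162967976960028831735621927468900915168704069938607380008117646545528431916861628446653243091699113020531077520437039140874714347355144386251631008004697047897822207904208805754194034637096368270476739413735500047855461710842123675740420394878555149206577352237334907982543688128937013196401530073122749423076256036997331049470565719885319907561906649744177609376467098626147146209964172130486636272055635145330145792689524874671453634387693041577659983719439234448813950617515797516474966833981647837913085426817011152703196680251712814655559883288083493281557030436739400943155540444569373415203591775667906788849448191101614298098256357914281046710197707127038238381101623590683001334091769214110217529215472286438138922503896750365398978499444205706458182212126317280402612402050009973921189217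269139252933753122725564317571413106912583577871581098296932270148471600515132132102421515745946514468715000522483971287530616158415927719000369679812370787748665293913922095870056165498067774610267146481471319462175096610055391470141134173483043424629655341078535669010027415278180058533847673900816235264426728850602599312788358510396116629324247098321559017941318302476266449967387306376691468727398066511689303970171950548803232262794734706075113280330923075609209595843699650144033697206564456968703389712892997596572187835051743365724988786245121791780086700841617754959176358735766190822900530068047298051416686249418473118643895748028044367633165789277037815529483743087705263515260522696087727529411904142566345448829288476337060218135118141639471649379718026362345854745565966311211495259425317869728017574187923588763589751050176340277529561304359864559033567274531907890462095468692688441652078038791713651022361821270636599729459802003528452617380290822136690819085119815202750739333591916394909936777377707849410142587837714407148324585134806393658726042687478593801299905404400733183858364081485662754220784653346864888791250763776)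

noncomputable def cp1 : Nat := (nat_lit 3830023050972569541708191008102229245257826992816051229526691678429575403481945582810894521776084044181233923413288172220075947677750860806258389213137666185233223966450299968178059139830589123725588484040422976707552908998440860307317971368626161585964697908928783181772257778122740462604483112002292829020253750626092639826345777965590057679824881660572904616494138702678750488634085159684329443206271764153545182525655437501813388407783133770632084648462978847375573941621334465572241212505374660502565676317465993328297567288699001030834126382075467435864568083636523435318175059953776817108427545538685833551322720903782301973514812472184605610141327178688971674339235875514309190153049866352740981817118888783403833101452589143338784905927519551408081156656923314071575002320660432500213176051296836717461255163261265865384549639327546604164751392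6597582174824330994645186189537641772252526548195092212346613526994305847878303178364186004200316419810058513493378191422873319489396483685470439973646757104593659492990234273486573220064459803202408181510921483039121139354887433832362311903847521790100383124823901521770555375503304256443195004812048094621567728430708888093131817204837606145093247021824640809973401335342653538937471272204821787955175393470992189114224512859902906404355141241973852946972116394216651903957423828846630278066180693771540554722344366762477013982113102534537641714601518379799253675004168187175859128947071193939071841777270044827598319557444252271813554872347533143690740007052988337249971588472403275237232585097938040287480693060692896749458789390908673828428393612241131624916896598189369207137629642289906950705165746322648313562301645219494195177267298882680268425751636377079620397122712645820797113472167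169790567366727110128040434592185653382279805593914337708583297140163537516240163667745816605795803672942298963861114339353770472069580345192635552946435350601455561554263116350328988817024257262691412480363614386010382277352967222195436706827254136565321873204284927979038059414377004167607101703777061970953887522278689352135563273370744698126593925462443841657971089423882165872951851078733985995943106252313083991973914663406473668996132818405067307163222494642964823463821798153928541207237172109638818308550805737355421437954285965520580881299590913132328693644208146980032098836198561980631598845222420806457920817244141833307136033748799853786738789371179088545116334430731187930406572750176410063597509524143762765685988182576535339051583338812638379627538364852837543666136455998788385122100820789250153040250850176254334008702016817481805142791423422466101038542749696)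

noncomputable def rc0 : Nat := (nat_lit 2936473069845783092874790732946834821376396268965566390479560712615249374469040337234706940125639247124425985604456525199500447099483982429498757966868554030763814142087237004500157325635870416381227134079413186987450801827672858576824775475237174127295646814763480218154468798999016941128002162249726264174554359606455710248527642105163670134337702842140099238554323966542811087730406663918229804660926522930538749352683046746430555079428856928701578774932273349398243363886885550817848524430487838766877967027380200671251987071157617315915140062285880221566005258471162733601348697931790840100092993044381986184976735255166315020738813971228877455858933959208321078471087591594926061111039719253680187962529905428499945908330656313408872156013815577139648456097630016628488222926803872173708596331062702872378718368256296869192662922973851523339791235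9509192125911776716411719672113230117559558751399831940296686957902124078959685476667752638976862446389937393469617074584286086935075349943456290058330879100599409213223755366501913154677445271506292789402998016554877385662425028287905433515126763313774148844117753135018564556359275895054817863278723305888074042195585873662941555712194245763639441610986889213618024878978467905224657616633696357237173356330680405927769342260724810878436535743737481872258897827955540624103181296509627684831336292593600459752308621945353102616253854435807028188601515264305376124475255083585856667521789543932454533257999124659167193216758036746303032440169502487806502231220867837164139339692727718901554136191997889647809523693156250211128899107495962203388170648470021486870159039755773899958716983909473072041256310985945182031321344394641241373687065959251645005295431099073564415783551085576145594190018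159542905680421398352602505514124868790471420996866773089628279178949813116500119780888552208923852632845893369597006343154132199114133111678755878368829867280001738610691321879006732834914008833652157763476590340772324032091742445690781830392717092266133552399445919510285616515655182202087670919192125973575781410953178768021113647716752825499534391795789840795539686474657647502964002111804435918852709051969549052708696175071253626123151743593224642156191651672813765373762802854982808930296569676730076255898637405460172132850852063770211714793202911891470083085489687025435852408926294871754040124464074771017673421677757946574371413272995793249585619184136707693022765862944359896212441605081292210476462909075050568976080754382958972503669518677274707224337147649507333783592268396243468574588305287890307813791885766307955915272337059420623544803161417238352631309533184)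

noncomputable def rc1 : Nat := (nat_lit 3439925632979250165057023240163588488821250270093327183440065541149738644839271923151315296390018428431060246525612536458740002502932245153897954274469048804497483962404336685333730804691087047759014918483613798034846099896360346562399229372610501693663057073504552373576516620244510862721334035954946067166528604702482927987807260676827921756829114961082267248258225360067415653363510322193169199929862448506338290860833502324238984975814980553501952595480407758121455367731840935563988316608259307257912257857365468839993428867101747904535044514683342322683194091341181995250843973475093337332803118034626588031038871342991490383019992029628491553062307122550323237015885252826857950073785745314891498846773707478116396765559556062742440796138958917787928260575903649075372568659490552972340641279033645836161749831122070714148727546234759957759466658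5141627532801489260185223520443524511566706183313553640170044709769865975469980762688094627794306033345706491810733731570014649798825403788509277360359239153820939102496462524227600053327159260411291016010247641046388740793351767369798955223632595948100414135487805777388266423401144661221398642073421135036925041393740342075807551452653723817611984497664451451242804208903210995105121770440515836545066453339218821677344715447502198215925894173800355435460809730271872644712246479643356530251112874117475535434861299347098730420945656173270317549460362373778933312234733948201771873638403310701525504195002746490975957447465316187665206442455075649291654947546837259968888030441256709579973754675101957504378157218958888368859460717757770128061806560135039512832464367474012491783510191469402929710895939631773134975051540139273024491596388531295376488105380314498206284581290603180406433271534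342329538962001518161546163846881704579094969670399833143293243707240150288776150151502809671877311929686902981943830324333860715867850889756628608147466611152926740763937914978844878749435211777920549156458387746856117863864040950461703043596461205290051173581186599561619135649487648032395339022922634256224767001689254461977381370128126266682081759848795775373055903743462458603794354948580815917520802812894729639671097257183301870671536053367484234980203059651143040774180312373383408548773179551852418653973180705772926054716349001533043229082717920710378669706638136744544286128245446835025971053855650592509986766947746107827700161828661642959079044846660477762477067964128583583165431914270040955122893742175440221643453962048719770911058015915334469477290060637225768622403011553325568655037862261865146428338064844874587506785909708161479463126772924851427066360365056)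

noncomputable def rc2 : Nat := (nat_lit 3830023050972569541708191008102229245257826992816051229526691678429575403481945582810894521776084044181233923413288172220075947677750860806258389213137666185233223966450299968178059139830589123725588484040422976707552908998440860307317971368626161585964697908928783181772257778122740462604483112002292829020253750626092639826345777965590057679824881660572904616494138702678750488634085159684329443206271764153545182525655437501813388407783133770632084648462978847375573941621334465572241212505374660502565676317465993328297567288699001030834126382075467435864568083636523435318175059953776817108427545538685833551322720903782301973514812472184605610141327178688971674339235875514309190153049866352740981817118888783403833101452589143338784905927519551408081156656923314071575002320660432500213176051296836717461255163261265865384549639327546604164751392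6597582174824330994645186189537641772252526548195092212346613526994305847878303178364186004200316419810058513493378191422873319489396483685470439973646757104593659492990234273486573220064459803202408181510921483039121139354887433832362311903847521790100383124823901521770555375503304256443195004812048094621567728430708888093131817204837606145093247021824640809973401335342653538937471272204821787955175393470992189114224512859902906404355141241973852946972116394216651903957423828846630278066180693771540554722344366762477013982113102534537641714601518379799253675004168187175859128947071193939071841777270044827598319557444252271813554872347533143690740007052988337249971588472403275237232585097938040287480693060692896749458789390908673828428393612241131624916896598189369207137629642289906950705165746322648313562301645219494195177267298882680268425751636377079620397122712645820797113472167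169790567366727110128040434592185653382279805593914337708583297140163537516240163667745816605795803672942298963861114339353770472069580345192635552946435350601455561554263116350328988817024257262691412480363614386010382277352967222195436706827254136565321873204284927979038059414377004167607101703777061970953887522278689352135563273370744698126593925462443841657971089423882165872951851078733985995943106252313083991973914663406473668996132818405067307163222494642964823463821798153928541207237172109638818308550805737355421437954285965520580881299590913132328693644208146980032098836198561980631598845222420806457920817244141833307136033748799853786738789371179088545116334430731187930406572750176410063597509524143762765685988182576535339051583338812638379627538364852837543666136455998788385122100820789250153040250850176254334008702016817481805142791423422466101038542749696)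

end Vale.Agent.Lib.P154.PChain.BU.S4
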