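import Vale.Agent.Lib.P154.PChain.BU.R4_0

set_option linter.all false

namespace Vale.Agent.Lib.P154.PChain.BU.S5

open Vale.Agent.Lib.P154.Chain

noncomputable def pc0 : PT := (PT.nd (nat_lit 3537144) (PT.nd (nat_lit 3387228) (PT.nd (nat_lit 3312270) (PT.nd (nat_lit 3312114) (PT.nd (nat_lit 3274752) (PT.nd (nat_lit 3274674) PT.nil (PT.lf (nat_lit 76) (nat_lit 6) (nat_lit 1) (nat_lit 3) (nat_lit 136) (nat_lit 87) (nat_lit 137))) (PT.lf (nat_lit 76) (nat_lit 6) (nat_lit 1) (nat_lit 1) (nat_lit 137) (nat_lit 87) (nat_lit 136))) (PT.nd (nat_lit 78) (PT.lf (nat_lit 152) (nat_lit 6) (nat_lit 2) (nat_lit 3) (nat_lit 135) (nat_lit 88) (nat_lit 137)) (PT.lf (nat_lit 228) (nat_lit 3) (nat_lit 3) (nat_lit 1) (nat_lit 136) (nat_lit 88) (nat_lit 136)))) (PT.nd (nat_lit 37440) (PT.nd (nat_lit 37362) (PT.lf (nat_lit 152) (nat_lit 6) (nat_lit 2) (nat_lit 1) (nat_lit 137) (nat_lit 88) (nat_lit 135)) (PT.lf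 (nat_lit 304) (nat_lit 6) (nat_lit 4) (nat_lit 3) (nat_lit 135) (nat_lit 89) (nat_lit 136))) (PT.nd (nat_lit 37362) (PT.lf (nat_lit 304) (nat_lit 6) (nat_lit 4) (nat_lit 1) (nat_lit 136) (nat_lit 89) (nat_lit 135)) (PT.nd (nat_lit 78) (PT.lf (nat_lit 380) (nat_lit 6) (nat_lit 5) (nat_lit 3) (nat_lit 134) (nat_lit 90) (nat_lit 136)) (PT.lf (nat_lit 456) (nat_lit 3) (nat_lit 6) (nat_lit 1) (nat_lit 135) (nat_lit 90) (nat_lit 135)))))) (PT.nd (nat_lit 74958) (PT.nd (nat_lit 37440) (PT.nd (nat_lit 37362) (PT.lf (nat_lit 380) (nat_lit 6) (nat_lit 5) (nat_lit 1) (nat_lit 136) (nat_lit 90) (nat_lit 134)) (PT.lf (nat_lit 532) (nat_lit 6) (nat_lit 7) (nat_lit 3) (nat_lit 134) (nat_lit 91) (nat_lit 135))) (PT.nd (nat_lit 37362) (PT.lf (nat_lit 532) (nat_lit 6) (nat_lit 7) (nat_lit 1) (nat_lit 135) (nat_lit 91) (nat_lit 134)) (PT.nd (nat_lit 78) (PT.lf (nat_lit 608) (nat_lit 6) (nat_lit 8) (nat_lit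 3) (nat_lit 133) (nat_lit 92) (nat_lit 135)) (PT.lf (nat_lit 684) (nat_lit 3) (nat_lit 9) (nat_lit 1) (nat_lit 134) (nat_lit 92) (nat_lit 134))))) (PT.nd (nat_lit 37440) (PT.nd (nat_lit 37362) (PT.lf (nat_lit 608) (nat_lit 6) (nat_lit 8) (nat_lit 1) (nat_lit 135) (nat_lit 92) (nat_lit 133)) (PT.lf (nat_lit 760) (nat_lit 6) (nat_lit 10) (nat_lit 3) (nat_lit 133) (nat_lit 93) (nat_lit 134))) (PT.nd (nat_lit 37362) (PT.lf (nat_lit 760) (nat_lit 6) (nat_lit 10) (nat_lit 1) (nat_lit 134) (nat_lit 93) (nat_lit 133)) (PT.nd (nat_lit 78) (PT.lf (nat_lit 836) (nat_lit 6) (nat_lit 11) (nat_lit 3) (nat_lit 132) (nat_lit 94) (nat_lit 134)) (PT.lf (nat_lit 912) (nat_lit 3) (nat_lit 12) (nat_lit 1) (nat_lit 133) (nat_lit 94) (nat_lit 133))))))) (PT.nd (nat_lit 112320) (PT.nd (nat_lit 37518) (PT.nd (nat_lit 37362) (PT.nd (nat_lit 37284) (PT.lf (nat_lit 836) (nat_lit 6) (nat_lit 11) (nat_lit 1) (nat_lit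 134) (nat_lit 94) (nat_lit 132)) (PT.lf (nat_lit 988) (nat_lit 6) (nat_lit 13) (nat_lit 3) (nat_lit 131) (nat_lit 95) (nat_lit 134))) (PT.nd (nat_lit 78) (PT.lf (nat_lit 1064) (nat_lit 6) (nat_lit 14) (nat_lit 3) (nat_lit 132) (nat_lit 95) (nat_lit 133)) (PT.lf (nat_lit 1064) (nat_lit 6) (nat_lit 14) (nat_lit 1) (nat_lit 133) (nat_lit 95) (nat_lit 132)))) (PT.nd (nat_lit 37362) (PT.nd (nat_lit 37284) (PT.lf (nat_lit 988) (nat_lit 6) (nat_lit 13) (nat_lit 1) (nat_lit 134) (nat_lit 95) (nat_lit 131)) (PT.lf (nat_lit 1140) (nat_lit 6) (nat_lit 15) (nat_lit 3) (nat_lit 131) (nat_lit 96) (nat_lit 133))) (PT.nd (nat_lit 78) (PT.lf (nat_lit 1216) (nat_lit 3) (nat_lit 16) (nat_lit 1) (nat_lit 132) (nat_lit 96) (nat_lit 132)) (PT.nd (nat_lit 37284) (PT.lf (nat_lit 1140) (nat_lit 6) (nat_lit 15) (nat_lit 1) (nat_lit 133) (nat_lit 96) (nat_lit 131)) (PT.lf (nat_lit 1292) (nat_lit 6) (nat_lit 17) (nat_lit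 3) (nat_lit 130) (nat_lit 97) (nat_lit 133)))))) (PT.nd (nat_lit 37518) (PT.nd (nat_lit 156) (PT.nd (nat_lit 78) (PT.lf (nat_lit 1368) (nat_lit 6) (nat_lit 18) (nat_lit 3) (nat_lit 131) (nat_lit 97) (nat_lit 132)) (PT.lf (nat_lit 1368) (nat_lit 6) (nat_lit 18) (nat_lit 1) (nat_lit 132) (nat_lit 97) (nat_lit 131))) (PT.nd (nat_lit 37206) (PT.lf (nat_lit 1292) (nat_lit 6) (nat_lit 17) (nat_lit 1) (nat_lit 133) (nat_lit 97) (nat_lit 130)) (PT.nd (nat_lit 78) (PT.lf (nat_lit 1444) (nat_lit 6) (nat_lit 19) (nat_lit 3) (nat_lit 129) (nat_lit 98) (nat_lit 133)) (PT.lf (nat_lit 1520) (nat_lit 6) (nat_lit 20) (nat_lit 3) (nat_lit 130) (nat_lit 98) (nat_lit 132))))) (PT.nd (nat_lit 156) (PT.nd (nat_lit 78) (PT.lf (nat_lit 1596) (nat_lit 3) (nat_lit 21) (nat_lit 1) (nat_lit 131) (nat_lit 98) (nat_lit 131)) (PT.lf (nat_lit 1520) (nat_lit 6) (nat_lit 20) (nat_lit 1) (nat_lit 132) (nat_lit 98) (nat_lit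 130))) (PT.nd (nat_lit 37206) (PT.lf (nat_lit 1444) (nat_lit 6) (nat_lit 19) (nat_lit 1) (nat_lit 133) (nat_lit 98) (nat_lit 129)) (PT.nd (nat_lit 78) (PT.lf (nat_lit 1672) (nat_lit 6) (nat_lit 22) (nat_lit 3) (nat_lit 129) (nat_lit 99) (nat_lit 132)) (PT.lf (nat_lit 1748) (nat_lit 6) (nat_lit 23) (nat_lit 3) (nat_lit 130) (nat_lit 99) (nat_lit 131))))))))
noncomputable def pc1 : PT := (PT.nd (nat_lit 149760) (PT.nd (nat_lit 74880) (PT.nd (nat_lit 37440) (PT.nd (nat_lit 37284) (PT.nd (nat_lit 78) (PT.lf (nat_lit 1748) (nat_lit 6) (nat_lit 23) (nat_lit 1) (nat_lit 131) (nat_lit 99) (nat_lit 130)) (PT.lf (nat_lit 1672) (nat_lit 6) (nat_lit 22) (nat_lit 1) (nat_lit 132) (nat_lit 99) (nat_lit 129))) (PT.nd (nat_lit 78) (PT.lf (nat_lit 1824) (nat_lit 6) (nat_lit 24) (nat_lit 3) (nat_lit 128) (nat_lit 100) (nat_lit 132)) (PT.lf (nat_lit 1900) (nat_lit 6) (nat_lit 25) (nat_lit 3) (nat_lit 129)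 (nat_lit 100) (nat_lit 131)))) (PT.nd (nat_lit 156) (PT.nd (nat_lit 78) (PT.lf (nat_lit 1976) (nat_lit 3) (nat_lit 26) (nat_lit 1) (nat_lit 130) (nat_lit 100) (nat_lit 130)) (PT.lf (nat_lit 1900) (nat_lit 6) (nat_lit 25) (nat_lit 1) (nat_lit 131) (nat_lit 100) (nat_lit 129))) (PT.nd (nat_lit 37128) (PT.lf (nat_lit 1824) (nat_lit 6) (nat_lit 24) (nat_lit 1) (nat_lit 132) (nat_lit 100) (nat_lit 128)) (PT.nd (nat_lit 78) (PT.lf (nat_lit 2052) (nat_lit 6) (nat_lit 27) (nat_lit 3) (nat_lit 127) (nat_lit 101) (nat_lit 132)) (PT.lf (nat_lit 2128) (nat_lit 6) (nat_lit 28) (nat_lit 3) (nat_lit 128) (nat_lit 101) (nat_lit 131)))))) (PT.nd (nat_lit 37440) (PT.nd (nat_lit 156) (PT.nd (nat_lit 78) (PT.lf (nat_lit 2204) (nat_lit 6) (nat_lit 29) (nat_lit 3) (nat_lit 129) (nat_lit 101) (nat_lit 130)) (PT.lf (nat_lit 2204) (nat_lit 6) (nat_lit 29) (nat_lit 1) (nat_lit 130) (nat_lit 101) (nat_lit 129))) (PT.nd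 (nat_lit 78) (PT.lf (nat_lit 2128) (nat_lit 6) (nat_lit 28) (nat_lit 1) (nat_lit 131) (nat_lit 101) (nat_lit 128)) (PT.nd (nat_lit 37128) (PT.lf (nat_lit 2052) (nat_lit 6) (nat_lit 27) (nat_lit 1) (nat_lit 132) (nat_lit 101) (nat_lit 127)) (PT.lf (nat_lit 2280) (nat_lit 6) (nat_lit 30) (nat_lit 3) (nat_lit 127) (nat_lit 102) (nat_lit 131))))) (PT.nd (nat_lit 156) (PT.nd (nat_lit 78) (PT.lf (nat_lit 2356) (nat_lit 6) (nat_lit 31) (nat_lit 3) (nat_lit 128) (nat_lit 102) (nat_lit 130)) (PT.lf (nat_lit 2432) (nat_lit 3) (nat_lit 32) (nat_lit 1) (nat_lit 129) (nat_lit 102) (nat_lit 129))) (PT.nd (nat_lit 78) (PT.lf (nat_lit 2356) (nat_lit 6) (nat_lit 31) (nat_lit 1) (nat_lit 130) (nat_lit 102) (nat_lit 128)) (PT.nd (nat_lit 37128) (PT.lf (nat_lit 2280) (nat_lit 6) (nat_lit 30) (nat_lit 1) (nat_lit 131) (nat_lit 102) (nat_lit 127)) (PT.lf (nat_lit 2508) (nat_lit 6) (nat_lit 33) (nat_lit 3) (nat_lit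 126) (nat_lit 103) (nat_lit 131))))))) (PT.nd (nat_lit 37752) (PT.nd (nat_lit 37362) (PT.nd (nat_lit 156) (PT.nd (nat_lit 78) (PT.lf (nat_lit 2584) (nat_lit 6) (nat_lit 34) (nat_lit 3) (nat_lit 127) (nat_lit 103) (nat_lit 130)) (PT.lf (nat_lit 2660) (nat_lit 6) (nat_lit 35) (nat_lit 3) (nat_lit 128) (nat_lit 103) (nat_lit 129))) (PT.nd (nat_lit 78) (PT.lf (nat_lit 2660) (nat_lit 6) (nat_lit 35) (nat_lit 1) (nat_lit 129) (nat_lit 103) (nat_lit 128)) (PT.nd (nat_lit 78) (PT.lf (nat_lit 2584) (nat_lit 6) (nat_lit 34) (nat_lit 1) (nat_lit 130) (nat_lit 103) (nat_lit 127)) (PT.lf (nat_lit 2508) (nat_lit 6) (nat_lit 33) (nat_lit 1) (nat_lit 131) (nat_lit 103) (nat_lit 126))))) (PT.nd (nat_lit 156) (PT.nd (nat_lit 78) (PT.lf (nat_lit 2736) (nat_lit 6) (nat_lit 36) (nat_lit 3) (nat_lit 125) (nat_lit 104) (nat_lit 131)) (PT.lf (nat_lit 2812) (nat_lit 6) (nat_lit 37) (nat_lit 3) (nat_lit 126) (nat_lit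 104) (nat_lit 130))) (PT.nd (nat_lit 78) (PT.lf (nat_lit 2888) (nat_lit 6) (nat_lit 38) (nat_lit 3) (nat_lit 127) (nat_lit 104) (nat_lit 129)) (PT.nd (nat_lit 78) (PT.lf (nat_lit 2964) (nat_lit 3) (nat_lit 39) (nat_lit 1) (nat_lit 128) (nat_lit 104) (nat_lit 128)) (PT.lf (nat_lit 2888) (nat_lit 6) (nat_lit 38) (nat_lit 1) (nat_lit 129) (nat_lit 104) (nat_lit 127)))))) (PT.nd (nat_lit 37362) (PT.nd (nat_lit 37128) (PT.nd (nat_lit 78) (PT.lf (nat_lit 2812) (nat_lit 6) (nat_lit 37) (nat_lit 1) (nat_lit 130) (nat_lit 104) (nat_lit 126)) (PT.lf (nat_lit 2736) (nat_lit 6) (nat_lit 36) (nat_lit 1) (nat_lit 131) (nat_lit 104) (nat_lit 125))) (PT.nd (nat_lit 78) (PT.lf (nat_lit 3040) (nat_lit 6) (nat_lit 40) (nat_lit 3) (nat_lit 125) (nat_lit 105) (nat_lit 130)) (PT.nd (nat_lit 78) (PT.lf (nat_lit 3116) (nat_lit 6) (nat_lit 41) (nat_lit 3) (nat_lit 126) (nat_lit 105) (nat_lit 129)) (PT.lf (nat_lit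 3192) (nat_lit 6) (nat_lit 42) (nat_lit 3) (nat_lit 127) (nat_lit 105) (nat_lit 128))))) (PT.nd (nat_lit 156) (PT.nd (nat_lit 78) (PT.lf (nat_lit 3192) (nat_lit 6) (nat_lit 42) (nat_lit 1) (nat_lit 128) (nat_lit 105) (nat_lit 127)) (PT.lf (nat_lit 3116) (nat_lit 6) (nat_lit 41) (nat_lit 1) (nat_lit 129) (nat_lit 105) (nat_lit 126))) (PT.nd (nat_lit 37050) (PT.lf (nat_lit 3040) (nat_lit 6) (nat_lit 40) (nat_lit 1) (nat_lit 130) (nat_lit 105) (nat_lit 125)) (PT.nd (nat_lit 78) (PT.lf (nat_lit 3268) (nat_lit 6) (nat_lit 43) (nat_lit 3) (nat_lit 124) (nat_lit 106) (nat_lit 130)) (PT.lf (nat_lit 3344) (nat_lit 6) (nat_lit 44) (nat_lit 3) (nat_lit 125) (nat_lit 106) (nat_lit 129))))))))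
noncomputable def pc2 : PT := (PT.nd (nat_lit 75192) (PT.nd (nat_lit 37596) (PT.nd (nat_lit 312) (PT.nd (nat_lit 156) (PT.nd (nat_lit 78) (PT.lf (nat_lit 3420) (nat_lit 6) (nat_lit 45) (nat_lit 3) (nat_lit 126) (nat_lit 106) (nat_lit 128)) (PT.lf (nat_lit 3496) (nat_lit 3) (nat_lit 46) (nat_lit 1) (nat_lit 127) (nat_lit 106) (nat_lit 127))) (PT.nd (nat_lit 78) (PT.lf (nat_lit 3420) (nat_lit 6) (nat_lit 45) (nat_lit 1) (nat_lit 128) (nat_lit 106) (nat_lit 126)) (PT.lf (nat_lit 3344) (nat_lit 6) (nat_lit 44) (nat_lit 1) (nat_lit 129) (nat_lit 106) (nat_lit 125)))) (PT.nd (nat_lit 37050) (PT.nd (nat_lit 36972) (PT.lf (nat_lit 3268) (nat_lit 6) (nat_lit 43) (nat_lit 1) (nat_lit 130) (nat_lit 106) (nat_lit 124)) (PT.lf (nat_lit 3572) (nat_lit 6) (nat_lit 47) (nat_lit 3) (nat_lit 123) (nat_lit 107) (nat_lit 130))) (PT.nd (nat_lit 78) (PT.lf (nat_lit 3648) (nat_lit 6) (nat_lit 48) (nat_lit 3) (nat_lit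 124) (nat_lit 107) (nat_lit 129)) (PT.nd (nat_lit 78) (PT.lf (nat_lit 3724) (nat_lit 6) (nat_lit 49) (nat_lit 3) (nat_lit 125) (nat_lit 107) (nat_lit 128)) (PT.lf (nat_lit 3800) (nat_lit 6) (nat_lit 50) (nat_lit 3) (nat_lit 126) (nat_lit 107) (nat_lit 127)))))) (PT.nd (nat_lit 37206) (PT.nd (nat_lit 156) (PT.nd (nat_lit 78) (PT.lf (nat_lit 3800) (nat_lit 6) (nat_lit 50) (nat_lit 1) (nat_lit 127) (nat_lit 107) (nat_lit 126)) (PT.lf (nat_lit 3724) (nat_lit 6) (nat_lit 49) (nat_lit 1) (nat_lit 128) (nat_lit 107) (nat_lit 125))) (PT.nd (nat_lit 78) (PT.lf (nat_lit 3648) (nat_lit 6) (nat_lit 48) (nat_lit 1) (nat_lit 129) (nat_lit 107) (nat_lit 124)) (PT.nd (nat_lit 36894) (PT.lf (nat_lit 3572) (nat_lit 6) (nat_lit 47) (nat_lit 1) (nat_lit 130) (nat_lit 107) (nat_lit 123)) (PT.lf (nat_lit 3876) (nat_lit 6) (nat_lit 51) (nat_lit 3) (nat_lit 122) (nat_lit 108) (nat_lit 130))))) (PT.nd (nat_lit 156)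 (PT.nd (nat_lit 78) (PT.lf (nat_lit 3952) (nat_lit 6) (nat_lit 52) (nat_lit 3) (nat_lit 123) (nat_lit 108) (nat_lit 129)) (PT.lf (nat_lit 4028) (nat_lit 6) (nat_lit 53) (nat_lit 3) (nat_lit 124) (nat_lit 108) (nat_lit 128))) (PT.nd (nat_lit 78) (PT.lf (nat_lit 4104) (nat_lit 6) (nat_lit 54) (nat_lit 3) (nat_lit 125) (nat_lit 108) (nat_lit 127)) (PT.nd (nat_lit 78) (PT.lf (nat_lit 4180) (nat_lit 3) (nat_lit 55) (nat_lit 1) (nat_lit 126) (nat_lit 108) (nat_lit 126)) (PT.lf (nat_lit 4104) (nat_lit 6) (nat_lit 54) (nat_lit 1) (nat_lit 127) (nat_lit 108) (nat_lit 125))))))) (PT.nd (nat_lit 37518) (PT.nd (nat_lit 37128) (PT.nd (nat_lit 156) (PT.nd (nat_lit 78) (PT.lf (nat_lit 4028) (nat_lit 6) (nat_lit 53) (nat_lit 1) (nat_lit 128) (nat_lit 108) (nat_lit 124)) (PT.lf (nat_lit 3952) (nat_lit 6) (nat_lit 52) (nat_lit 1) (nat_lit 129) (nat_lit 108) (nat_lit 123))) (PT.nd (nat_lit 36894) (PT.lf (nat_lit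 3876) (nat_lit 6) (nat_lit 51) (nat_lit 1) (nat_lit 130) (nat_lit 108) (nat_lit 122)) (PT.lf (nat_lit 4256) (nat_lit 6) (nat_lit 56) (nat_lit 3) (nat_lit 122) (nat_lit 109) (nat_lit 129)))) (PT.nd (nat_lit 156) (PT.nd (nat_lit 78) (PT.lf (nat_lit 4332) (nat_lit 6) (nat_lit 57) (nat_lit 3) (nat_lit 123) (nat_lit 109) (nat_lit 128)) (PT.lf (nat_lit 4408) (nat_lit 6) (nat_lit 58) (nat_lit 3) (nat_lit 124) (nat_lit 109) (nat_lit 127))) (PT.nd (nat_lit 78) (PT.lf (nat_lit 4484) (nat_lit 6) (nat_lit 59) (nat_lit 3) (nat_lit 125) (nat_lit 109) (nat_lit 126)) (PT.nd (nat_lit 78) (PT.lf (nat_lit 4484) (nat_lit 6) (nat_lit 59) (nat_lit 1) (nat_lit 126) (nat_lit 109) (nat_lit 125)) (PT.lf (nat_lit 4408) (nat_lit 6) (nat_lit 58) (nat_lit 1) (nat_lit 127) (nat_lit 109) (nat_lit 124)))))) (PT.nd (nat_lit 37206) (PT.nd (nat_lit 36972) (PT.nd (nat_lit 78) (PT.lf (nat_lit 4332) (nat_lit 6) (nat_lit 57) (nat_lit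 1) (nat_lit 128) (nat_lit 109) (nat_lit 123)) (PT.lf (nat_lit 4256) (nat_lit 6) (nat_lit 56) (nat_lit 1) (nat_lit 129) (nat_lit 109) (nat_lit 122))) (PT.nd (nat_lit 78) (PT.lf (nat_lit 4560) (nat_lit 6) (nat_lit 60) (nat_lit 3) (nat_lit 121) (nat_lit 110) (nat_lit 129)) (PT.nd (nat_lit 78) (PT.lf (nat_lit 4636) (nat_lit 6) (nat_lit 61) (nat_lit 3) (nat_lit 122) (nat_lit 110) (nat_lit 128)) (PT.lf (nat_lit 4712) (nat_lit 6) (nat_lit 62) (nat_lit 3) (nat_lit 123) (nat_lit 110) (nat_lit 127))))) (PT.nd (nat_lit 156) (PT.nd (nat_lit 78) (PT.lf (nat_lit 4788) (nat_lit 6) (nat_lit 63) (nat_lit 3) (nat_lit 124) (nat_lit 110) (nat_lit 126)) (PT.lf (nat_lit 4864) (nat_lit 3) (nat_lit 64) (nat_lit 1) (nat_lit 125) (nat_lit 110) (nat_lit 125))) (PT.nd (nat_lit 78) (PT.lf (nat_lit 4788) (nat_lit 6) (nat_lit 63) (nat_lit 1) (nat_lit 126) (nat_lit 110) (nat_lit 124)) (PT.nd (nat_lit 78) (PT.lf (nat_lit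 4712) (nat_lit 6) (nat_lit 62) (nat_lit 1) (nat_lit 127) (nat_lit 110) (nat_lit 123)) (PT.lf (nat_lit 4636) (nat_lit 6) (nat_lit 61) (nat_lit 1) (nat_lit 128) (nat_lit 110) (nat_lit 122))))))))
noncomputable def pc3 : PT := (PT.nd (nat_lit 74880) (PT.nd (nat_lit 37440) (PT.nd (nat_lit 37050) (PT.nd (nat_lit 36894) (PT.nd (nat_lit 36816) (PT.lf (nat_lit 4560) (nat_lit 6) (nat_lit 60) (nat_lit 1) (nat_lit 129) (nat_lit 110) (nat_lit 121)) (PT.lf (nat_lit 5244) (nat_lit 6) (nat_lit 69) (nat_lit 3) (nat_lit 120) (nat_lit 111) (nat_lit 129))) (PT.nd (nat_lit 78) (PT.lf (nat_lit 5320) (nat_lit 6) (nat_lit 70) (nat_lit 3) (nat_lit 121) (nat_lit 111) (nat_lit 128)) (PT.lf (nat_lit 5396) (nat_lit 6) (nat_lit 71) (nat_lit 3) (nat_lit 122) (nat_lit 111) (nat_lit 127)))) (PT.nd (nat_lit 156) (PT.nd (nat_lit 78) (PT.lf (nat_lit 5472) (nat_lit 6) (nat_lit 72) (nat_lit 3) (nat_lit 123) (nat_lit 111) (nat_lit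 126)) (PT.lf (nat_lit 5548) (nat_lit 6) (nat_lit 73) (nat_lit 3) (nat_lit 124) (nat_lit 111) (nat_lit 125))) (PT.nd (nat_lit 78) (PT.lf (nat_lit 5548) (nat_lit 6) (nat_lit 73) (nat_lit 1) (nat_lit 125) (nat_lit 111) (nat_lit 124)) (PT.nd (nat_lit 78) (PT.lf (nat_lit 5472) (nat_lit 6) (nat_lit 72) (nat_lit 1) (nat_lit 126) (nat_lit 111) (nat_lit 123)) (PT.lf (nat_lit 5396) (nat_lit 6) (nat_lit 71) (nat_lit 1) (nat_lit 127) (nat_lit 111) (nat_lit 122)))))) (PT.nd (nat_lit 37050) (PT.nd (nat_lit 36816) (PT.nd (nat_lit 78) (PT.lf (nat_lit 5320) (nat_lit 6) (nat_lit 70) (nat_lit 1) (nat_lit 128) (nat_lit 111) (nat_lit 121)) (PT.lf (nat_lit 5244) (nat_lit 6) (nat_lit 69) (nat_lit 1) (nat_lit 129) (nat_lit 111) (nat_lit 120))) (PT.nd (nat_lit 78) (PT.lf (nat_lit 5168) (nat_lit 6) (nat_lit 68) (nat_lit 3) (nat_lit 119) (nat_lit 112) (nat_lit 129)) (PT.nd (nat_lit 78) (PT.lf (nat_lit 5928) (nat_lit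 6) (nat_lit 78) (nat_lit 3) (nat_lit 120) (nat_lit 112) (nat_lit 128)) (PT.lf (nat_lit 6004) (nat_lit 6) (nat_lit 79) (nat_lit 3) (nat_lit 121) (nat_lit 112) (nat_lit 127))))) (PT.nd (nat_lit 156) (PT.nd (nat_lit 78) (PT.lf (nat_lit 6080) (nat_lit 6) (nat_lit 80) (nat_lit 3) (nat_lit 122) (nat_lit 112) (nat_lit 126)) (PT.lf (nat_lit 6156) (nat_lit 6) (nat_lit 81) (nat_lit 3) (nat_lit 123) (nat_lit 112) (nat_lit 125))) (PT.nd (nat_lit 78) (PT.lf (nat_lit 6232) (nat_lit 3) (nat_lit 82) (nat_lit 1) (nat_lit 124) (nat_lit 112) (nat_lit 124)) (PT.nd (nat_lit 78) (PT.lf (nat_lit 6156) (nat_lit 6) (nat_lit 81) (nat_lit 1) (nat_lit 125) (nat_lit 112) (nat_lit 123)) (PT.lf (nat_lit 6080) (nat_lit 6) (nat_lit 80) (nat_lit 1) (nat_lit 126) (nat_lit 112) (nat_lit 122))))))) (PT.nd (nat_lit 37362) (PT.nd (nat_lit 36972) (PT.nd (nat_lit 156) (PT.nd (nat_lit 78) (PT.lf (nat_lit 6004) (nat_lit 6) (nat_lit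 79) (nat_lit 1) (nat_lit 127) (nat_lit 112) (nat_lit 121)) (PT.lf (nat_lit 5928) (nat_lit 6) (nat_lit 78) (nat_lit 1) (nat_lit 128) (nat_lit 112) (nat_lit 120))) (PT.nd (nat_lit 36660) (PT.lf (nat_lit 5168) (nat_lit 6) (nat_lit 68) (nat_lit 1) (nat_lit 129) (nat_lit 112) (nat_lit 119)) (PT.nd (nat_lit 78) (PT.lf (nat_lit 5092) (nat_lit 6) (nat_lit 67) (nat_lit 3) (nat_lit 118) (nat_lit 113) (nat_lit 129)) (PT.lf (nat_lit 5852) (nat_lit 6) (nat_lit 77) (nat_lit 3) (nat_lit 119) (nat_lit 113) (nat_lit 128))))) (PT.nd (nat_lit 156) (PT.nd (nat_lit 78) (PT.lf (nat_lit 6536) (nat_lit 6) (nat_lit 86) (nat_lit 3) (nat_lit 120) (nat_lit 113) (nat_lit 127)) (PT.lf (nat_lit 6612) (nat_lit 6) (nat_lit 87) (nat_lit 3) (nat_lit 121) (nat_lit 113) (nat_lit 126))) (PT.nd (nat_lit 78) (PT.lf (nat_lit 6688) (nat_lit 6) (nat_lit 88) (nat_lit 3) (nat_lit 122) (nat_lit 113) (nat_lit 125)) (PT.nd (nat_lit 78)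 (PT.lf (nat_lit 6764) (nat_lit 6) (nat_lit 89) (nat_lit 3) (nat_lit 123) (nat_lit 113) (nat_lit 124)) (PT.lf (nat_lit 6764) (nat_lit 6) (nat_lit 89) (nat_lit 1) (nat_lit 124) (nat_lit 113) (nat_lit 123)))))) (PT.nd (nat_lit 36894) (PT.nd (nat_lit 156) (PT.nd (nat_lit 78) (PT.lf (nat_lit 6688) (nat_lit 6) (nat_lit 88) (nat_lit 1) (nat_lit 125) (nat_lit 113) (nat_lit 122)) (PT.lf (nat_lit 6612) (nat_lit 6) (nat_lit 87) (nat_lit 1) (nat_lit 126) (nat_lit 113) (nat_lit 121))) (PT.nd (nat_lit 78) (PT.lf (nat_lit 6536) (nat_lit 6) (nat_lit 86) (nat_lit 1) (nat_lit 127) (nat_lit 113) (nat_lit 120)) (PT.nd (nat_lit 78) (PT.lf (nat_lit 5852) (nat_lit 6) (nat_lit 77) (nat_lit 1) (nat_lit 128) (nat_lit 113) (nat_lit 119)) (PT.lf (nat_lit 5092) (nat_lit 6) (nat_lit 67) (nat_lit 1) (nat_lit 129) (nat_lit 113) (nat_lit 118))))) (PT.nd (nat_lit 156) (PT.nd (nat_lit 78) (PT.lf (nat_lit 5016) (nat_lit 6)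 (nat_lit 66) (nat_lit 3) (nat_lit 117) (nat_lit 114) (nat_lit 129)) (PT.lf (nat_lit 5776) (nat_lit 6) (nat_lit 76) (nat_lit 3) (nat_lit 118) (nat_lit 114) (nat_lit 128))) (PT.nd (nat_lit 78) (PT.lf (nat_lit 6460) (nat_lit 6) (nat_lit 85) (nat_lit 3) (nat_lit 119) (nat_lit 114) (nat_lit 127)) (PT.nd (nat_lit 78) (PT.lf (nat_lit 7068) (nat_lit 6) (nat_lit 93) (nat_lit 3) (nat_lit 120) (nat_lit 114) (nat_lit 126)) (PT.lf (nat_lit 7144) (nat_lit 6) (nat_lit 94) (nat_lit 3) (nat_lit 121) (nat_lit 114) (nat_lit 125))))))))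
noncomputable def pc4 : PT := (PT.nd (nat_lit 37908) (PT.nd (nat_lit 37128) (PT.nd (nat_lit 312) (PT.nd (nat_lit 156) (PT.nd (nat_lit 78) (PT.lf (nat_lit 7220) (nat_lit 6) (nat_lit 95) (nat_lit 3) (nat_lit 122) (nat_lit 114) (nat_lit 124)) (PT.lf (nat_lit 7296) (nat_lit 3) (nat_lit 96) (nat_lit 1) (nat_lit 123) (nat_lit 114) (nat_lit 123))) (PT.nd (nat_lit 78) (PT.lf (nat_lit 7220) (nat_lit 6) (nat_lit 95) (nat_lit 1) (nat_lit 124) (nat_lit 114) (nat_lit 122)) (PT.lf (nat_lit 7144) (nat_lit 6) (nat_lit 94) (nat_lit 1) (nat_lit 125) (nat_lit 114) (nat_lit 121)))) (PT.nd (nat_lit 156) (PT.nd (nat_lit 78) (PT.lf (nat_lit 7068) (nat_lit 6) (nat_lit 93) (nat_lit 1) (nat_lit 126) (nat_lit 114) (nat_lit 120)) (PT.lf (nat_lit 6460) (nat_lit 6) (nat_lit 85) (nat_lit 1) (nat_lit 127) (nat_lit 114) (nat_lit 119))) (PT.nd (nat_lit 78) (PT.lf (nat_lit 5776) (nat_lit 6) (nat_lit 76) (nat_lit 1) (nat_lit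 128) (nat_lit 114) (nat_lit 118)) (PT.nd (nat_lit 36504) (PT.lf (nat_lit 5016) (nat_lit 6) (nat_lit 66) (nat_lit 1) (nat_lit 129) (nat_lit 114) (nat_lit 117)) (PT.lf (nat_lit 4940) (nat_lit 6) (nat_lit 65) (nat_lit 3) (nat_lit 116) (nat_lit 115) (nat_lit 129)))))) (PT.nd (nat_lit 390) (PT.nd (nat_lit 156) (PT.nd (nat_lit 78) (PT.lf (nat_lit 5700) (nat_lit 6) (nat_lit 75) (nat_lit 3) (nat_lit 117) (nat_lit 115) (nat_lit 128)) (PT.lf (nat_lit 6384) (nat_lit 6) (nat_lit 84) (nat_lit 3) (nat_lit 118) (nat_lit 115) (nat_lit 127))) (PT.nd (nat_lit 78) (PT.lf (nat_lit 6992) (nat_lit 6) (nat_lit 92) (nat_lit 3) (nat_lit 119) (nat_lit 115) (nat_lit 126)) (PT.nd (nat_lit 78) (PT.lf (nat_lit 7524) (nat_lit 6) (nat_lit 99) (nat_lit 3) (nat_lit 120) (nat_lit 115) (nat_lit 125)) (PT.lf (nat_lit 7600) (nat_lit 6) (nat_lit 100) (nat_lit 3) (nat_lit 121) (nat_lit 115) (nat_lit 124))))) (PT.nd (nat_lit 156)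 (PT.nd (nat_lit 78) (PT.lf (nat_lit 7676) (nat_lit 6) (nat_lit 101) (nat_lit 3) (nat_lit 122) (nat_lit 115) (nat_lit 123)) (PT.lf (nat_lit 7676) (nat_lit 6) (nat_lit 101) (nat_lit 1) (nat_lit 123) (nat_lit 115) (nat_lit 122))) (PT.nd (nat_lit 78) (PT.lf (nat_lit 7600) (nat_lit 6) (nat_lit 100) (nat_lit 1) (nat_lit 124) (nat_lit 115) (nat_lit 121)) (PT.nd (nat_lit 78) (PT.lf (nat_lit 7524) (nat_lit 6) (nat_lit 99) (nat_lit 1) (nat_lit 125) (nat_lit 115) (nat_lit 120)) (PT.lf (nat_lit 6992) (nat_lit 6) (nat_lit 92) (nat_lit 1) (nat_lit 126) (nat_lit 115) (nat_lit 119))))))) (PT.nd (nat_lit 37050) (PT.nd (nat_lit 36660) (PT.nd (nat_lit 156) (PT.nd (nat_lit 78) (PT.lf (nat_lit 6384) (nat_lit 6) (nat_lit 84) (nat_lit 1) (nat_lit 127) (nat_lit 115) (nat_lit 118)) (PT.lf (nat_lit 5700) (nat_lit 6) (nat_lit 75) (nat_lit 1) (nat_lit 128) (nat_lit 115) (nat_lit 117))) (PT.nd (nat_lit 36426) (PT.lf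 (nat_lit 4940) (nat_lit 6) (nat_lit 65) (nat_lit 1) (nat_lit 129) (nat_lit 115) (nat_lit 116)) (PT.lf (nat_lit 4940) (nat_lit 6) (nat_lit 65) (nat_lit 5) (nat_lit 115) (nat_lit 116) (nat_lit 129)))) (PT.nd (nat_lit 156) (PT.nd (nat_lit 78) (PT.lf (nat_lit 5624) (nat_lit 3) (nat_lit 74) (nat_lit 3) (nat_lit 116) (nat_lit 116) (nat_lit 128)) (PT.lf (nat_lit 6308) (nat_lit 6) (nat_lit 83) (nat_lit 3) (nat_lit 117) (nat_lit 116) (nat_lit 127))) (PT.nd (nat_lit 78) (PT.lf (nat_lit 6916) (nat_lit 6) (nat_lit 91) (nat_lit 3) (nat_lit 118) (nat_lit 116) (nat_lit 126)) (PT.nd (nat_lit 78) (PT.lf (nat_lit 7448) (nat_lit 6) (nat_lit 98) (nat_lit 3) (nat_lit 119) (nat_lit 116) (nat_lit 125)) (PT.lf (nat_lit 7904) (nat_lit 6) (nat_lit 104) (nat_lit 3) (nat_lit 120) (nat_lit 116) (nat_lit 124)))))) (PT.nd (nat_lit 390) (PT.nd (nat_lit 156) (PT.nd (nat_lit 78) (PT.lf (nat_lit 7980) (nat_lit 6) (nat_lit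 105) (nat_lit 3) (nat_lit 121) (nat_lit 116) (nat_lit 123)) (PT.lf (nat_lit 8056) (nat_lit 3) (nat_lit 106) (nat_lit 1) (nat_lit 122) (nat_lit 116) (nat_lit 122))) (PT.nd (nat_lit 78) (PT.lf (nat_lit 7980) (nat_lit 6) (nat_lit 105) (nat_lit 1) (nat_lit 123) (nat_lit 116) (nat_lit 121)) (PT.nd (nat_lit 78) (PT.lf (nat_lit 7904) (nat_lit 6) (nat_lit 104) (nat_lit 1) (nat_lit 124) (nat_lit 116) (nat_lit 120)) (PT.lf (nat_lit 7448) (nat_lit 6) (nat_lit 98) (nat_lit 1) (nat_lit 125) (nat_lit 116) (nat_lit 119))))) (PT.nd (nat_lit 156) (PT.nd (nat_lit 78) (PT.lf (nat_lit 6916) (nat_lit 6) (nat_lit 91) (nat_lit 1) (nat_lit 126) (nat_lit 116) (nat_lit 118)) (PT.lf (nat_lit 6308) (nat_lit 6) (nat_lit 83) (nat_lit 1) (nat_lit 127) (nat_lit 116) (nat_lit 117))) (PT.nd (nat_lit 78) (PT.lf (nat_lit 5624) (nat_lit 3) (nat_lit 74) (nat_lit 0) (nat_lit 128) (nat_lit 116) (nat_lit 116)) (PT.nd (nat_lit 36348)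 (PT.lf (nat_lit 4940) (nat_lit 6) (nat_lit 65) (nat_lit 0) (nat_lit 129) (nat_lit 116) (nat_lit 115)) (PT.lf (nat_lit 5016) (nat_lit 6) (nat_lit 66) (nat_lit 5) (nat_lit 114) (nat_lit 117) (nat_lit 129))))))))
noncomputable def pc5 : PT := (PT.nd (nat_lit 37674) (PT.nd (nat_lit 702) (PT.nd (nat_lit 312) (PT.nd (nat_lit 156) (PT.nd (nat_lit 78) (PT.lf (nat_lit 5700) (nat_lit 6) (nat_lit 75) (nat_lit 5) (nat_lit 115) (nat_lit 117) (nat_lit 128)) (PT.lf (nat_lit 6308) (nat_lit 6) (nat_lit 83) (nat_lit 5) (nat_lit 116) (nat_lit 117) (nat_lit 127))) (PT.nd (nat_lit 78) (PT.lf (nat_lit 6840) (nat_lit 3) (nat_lit 90) (nat_lit 3) (nat_lit 117) (nat_lit 117) (nat_lit 126)) (PT.lf (nat_lit 7372) (nat_lit 6) (nat_lit 97) (nat_lit 3) (nat_lit 118) (nat_lit 117) (nat_lit 125)))) (PT.nd (nat_lit 156) (PT.nd (nat_lit 78) (PT.lf (nat_lit 7828) (nat_lit 6) (nat_lit 103) (nat_lit 3) (nat_lit 119) (nat_lit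 117) (nat_lit 124)) (PT.lf (nat_lit 8208) (nat_lit 6) (nat_lit 108) (nat_lit 3) (nat_lit 120) (nat_lit 117) (nat_lit 123))) (PT.nd (nat_lit 78) (PT.lf (nat_lit 8284) (nat_lit 6) (nat_lit 109) (nat_lit 3) (nat_lit 121) (nat_lit 117) (nat_lit 122)) (PT.nd (nat_lit 78) (PT.lf (nat_lit 8284) (nat_lit 6) (nat_lit 109) (nat_lit 1) (nat_lit 122) (nat_lit 117) (nat_lit 121)) (PT.lf (nat_lit 8208) (nat_lit 6) (nat_lit 108) (nat_lit 1) (nat_lit 123) (nat_lit 117) (nat_lit 120)))))) (PT.nd (nat_lit 390) (PT.nd (nat_lit 156) (PT.nd (nat_lit 78) (PT.lf (nat_lit 7828) (nat_lit 6) (nat_lit 103) (nat_lit 1) (nat_lit 124) (nat_lit 117) (nat_lit 119)) (PT.lf (nat_lit 7372) (nat_lit 6) (nat_lit 97) (nat_lit 1) (nat_lit 125) (nat_lit 117) (nat_lit 118))) (PT.nd (nat_lit 78) (PT.lf (nat_lit 6840) (nat_lit 3) (nat_lit 90) (nat_lit 0) (nat_lit 126) (nat_lit 117) (nat_lit 117)) (PT.nd (nat_lit 78) (PT.lf (nat_lit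 6308) (nat_lit 6) (nat_lit 83) (nat_lit 0) (nat_lit 127) (nat_lit 117) (nat_lit 116)) (PT.lf (nat_lit 5700) (nat_lit 6) (nat_lit 75) (nat_lit 0) (nat_lit 128) (nat_lit 117) (nat_lit 115))))) (PT.nd (nat_lit 36348) (PT.nd (nat_lit 36270) (PT.lf (nat_lit 5016) (nat_lit 6) (nat_lit 66) (nat_lit 0) (nat_lit 129) (nat_lit 117) (nat_lit 114)) (PT.lf (nat_lit 5092) (nat_lit 6) (nat_lit 67) (nat_lit 5) (nat_lit 113) (nat_lit 118) (nat_lit 129))) (PT.nd (nat_lit 78) (PT.lf (nat_lit 5776) (nat_lit 6) (nat_lit 76) (nat_lit 5) (nat_lit 114) (nat_lit 118) (nat_lit 128)) (PT.nd (nat_lit 78) (PT.lf (nat_lit 6384) (nat_lit 6) (nat_lit 84) (nat_lit 5) (nat_lit 115) (nat_lit 118) (nat_lit 127)) (PT.lf (nat_lit 6916) (nat_lit 6) (nat_lit 91) (nat_lit 5) (nat_lit 116) (nat_lit 118) (nat_lit 126))))))) (PT.nd (nat_lit 780) (PT.nd (nat_lit 390) (PT.nd (nat_lit 156) (PT.nd (nat_lit 78) (PT.lf (nat_lit 7372) (nat_lit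 6) (nat_lit 97) (nat_lit 5) (nat_lit 117) (nat_lit 118) (nat_lit 125)) (PT.lf (nat_lit 7752) (nat_lit 3) (nat_lit 102) (nat_lit 3) (nat_lit 118) (nat_lit 118) (nat_lit 124))) (PT.nd (nat_lit 78) (PT.lf (nat_lit 8132) (nat_lit 6) (nat_lit 107) (nat_lit 3) (nat_lit 119) (nat_lit 118) (nat_lit 123)) (PT.nd (nat_lit 78) (PT.lf (nat_lit 8436) (nat_lit 6) (nat_lit 111) (nat_lit 3) (nat_lit 120) (nat_lit 118) (nat_lit 122)) (PT.lf (nat_lit 8512) (nat_lit 3) (nat_lit 112) (nat_lit 1) (nat_lit 121) (nat_lit 118) (nat_lit 121))))) (PT.nd (nat_lit 156) (PT.nd (nat_lit 78) (PT.lf (nat_lit 8436) (nat_lit 6) (nat_lit 111) (nat_lit 1) (nat_lit 122) (nat_lit 118) (nat_lit 120)) (PT.lf (nat_lit 8132) (nat_lit 6) (nat_lit 107) (nat_lit 1) (nat_lit 123) (nat_lit 118) (nat_lit 119))) (PT.nd (nat_lit 78) (PT.lf (nat_lit 7752) (nat_lit 3) (nat_lit 102) (nat_lit 0) (nat_lit 124) (nat_lit 118) (nat_lit 118)) (PT.nd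 (nat_lit 78) (PT.lf (nat_lit 7372) (nat_lit 6) (nat_lit 97) (nat_lit 0) (nat_lit 125) (nat_lit 118) (nat_lit 117)) (PT.lf (nat_lit 6916) (nat_lit 6) (nat_lit 91) (nat_lit 0) (nat_lit 126) (nat_lit 118) (nat_lit 116)))))) (PT.nd (nat_lit 36504) (PT.nd (nat_lit 156) (PT.nd (nat_lit 78) (PT.lf (nat_lit 6384) (nat_lit 6) (nat_lit 84) (nat_lit 0) (nat_lit 127) (nat_lit 118) (nat_lit 115)) (PT.lf (nat_lit 5776) (nat_lit 6) (nat_lit 76) (nat_lit 0) (nat_lit 128) (nat_lit 118) (nat_lit 114))) (PT.nd (nat_lit 36192) (PT.lf (nat_lit 5092) (nat_lit 6) (nat_lit 67) (nat_lit 0) (nat_lit 129) (nat_lit 118) (nat_lit 113)) (PT.nd (nat_lit 78) (PT.lf (nat_lit 5168) (nat_lit 6) (nat_lit 68) (nat_lit 5) (nat_lit 112) (nat_lit 119) (nat_lit 129)) (PT.lf (nat_lit 5852) (nat_lit 6) (nat_lit 77) (nat_lit 5) (nat_lit 113) (nat_lit 119) (nat_lit 128))))) (PT.nd (nat_lit 156) (PT.nd (nat_lit 78) (PT.lf (nat_lit 6460)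 (nat_lit 6) (nat_lit 85) (nat_lit 5) (nat_lit 114) (nat_lit 119) (nat_lit 127)) (PT.lf (nat_lit 6992) (nat_lit 6) (nat_lit 92) (nat_lit 5) (nat_lit 115) (nat_lit 119) (nat_lit 126))) (PT.nd (nat_lit 78) (PT.lf (nat_lit 7448) (nat_lit 6) (nat_lit 98) (nat_lit 5) (nat_lit 116) (nat_lit 119) (nat_lit 125)) (PT.nd (nat_lit 78) (PT.lf (nat_lit 7828) (nat_lit 6) (nat_lit 103) (nat_lit 5) (nat_lit 117) (nat_lit 119) (nat_lit 124)) (PT.lf (nat_lit 8132) (nat_lit 6) (nat_lit 107) (nat_lit 5) (nat_lit 118) (nat_lit 119) (nat_lit 123))))))))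
noncomputable def pc6 : PT := (PT.nd (nat_lit 37518) (PT.nd (nat_lit 702) (PT.nd (nat_lit 312) (PT.nd (nat_lit 156) (PT.nd (nat_lit 78) (PT.lf (nat_lit 8360) (nat_lit 3) (nat_lit 110) (nat_lit 3) (nat_lit 119) (nat_lit 119) (nat_lit 122)) (PT.lf (nat_lit 8588) (nat_lit 6) (nat_lit 113) (nat_lit 3) (nat_lit 120) (nat_lit 119) (nat_lit 121))) (PT.nd (nat_lit 78) (PT.lf (nat_lit 8588) (nat_lit 6) (nat_lit 113) (nat_lit 1) (nat_lit 121) (nat_lit 119) (nat_lit 120)) (PT.lf (nat_lit 8360) (nat_lit 3) (nat_lit 110) (nat_lit 0) (nat_lit 122) (nat_lit 119) (nat_lit 119)))) (PT.nd (nat_lit 156) (PT.nd (nat_lit 78) (PT.lf (nat_lit 8132) (nat_lit 6) (nat_lit 107) (nat_lit 0) (nat_lit 123) (nat_lit 119) (nat_lit 118)) (PT.lf (nat_lit 7828) (nat_lit 6) (nat_lit 103) (nat_lit 0) (nat_lit 124) (nat_lit 119) (nat_lit 117))) (PT.nd (nat_lit 78) (PT.lf (nat_lit 7448) (nat_lit 6) (nat_lit 98) (nat_lit 0) (nat_lit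 125) (nat_lit 119) (nat_lit 116)) (PT.nd (nat_lit 78) (PT.lf (nat_lit 6992) (nat_lit 6) (nat_lit 92) (nat_lit 0) (nat_lit 126) (nat_lit 119) (nat_lit 115)) (PT.lf (nat_lit 6460) (nat_lit 6) (nat_lit 85) (nat_lit 0) (nat_lit 127) (nat_lit 119) (nat_lit 114)))))) (PT.nd (nat_lit 36426) (PT.nd (nat_lit 36192) (PT.nd (nat_lit 78) (PT.lf (nat_lit 5852) (nat_lit 6) (nat_lit 77) (nat_lit 0) (nat_lit 128) (nat_lit 119) (nat_lit 113)) (PT.lf (nat_lit 5168) (nat_lit 6) (nat_lit 68) (nat_lit 0) (nat_lit 129) (nat_lit 119) (nat_lit 112))) (PT.nd (nat_lit 78) (PT.lf (nat_lit 5244) (nat_lit 6) (nat_lit 69) (nat_lit 5) (nat_lit 111) (nat_lit 120) (nat_lit 129)) (PT.nd (nat_lit 78) (PT.lf (nat_lit 5928) (nat_lit 6) (nat_lit 78) (nat_lit 5) (nat_lit 112) (nat_lit 120) (nat_lit 128)) (PT.lf (nat_lit 6536) (nat_lit 6) (nat_lit 86) (nat_lit 5) (nat_lit 113) (nat_lit 120) (nat_lit 127))))) (PT.nd (nat_lit 156)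 (PT.nd (nat_lit 78) (PT.lf (nat_lit 7068) (nat_lit 6) (nat_lit 93) (nat_lit 5) (nat_lit 114) (nat_lit 120) (nat_lit 126)) (PT.lf (nat_lit 7524) (nat_lit 6) (nat_lit 99) (nat_lit 5) (nat_lit 115) (nat_lit 120) (nat_lit 125))) (PT.nd (nat_lit 78) (PT.lf (nat_lit 7904) (nat_lit 6) (nat_lit 104) (nat_lit 5) (nat_lit 116) (nat_lit 120) (nat_lit 124)) (PT.nd (nat_lit 78) (PT.lf (nat_lit 8208) (nat_lit 6) (nat_lit 108) (nat_lit 5) (nat_lit 117) (nat_lit 120) (nat_lit 123)) (PT.lf (nat_lit 8436) (nat_lit 6) (nat_lit 111) (nat_lit 5) (nat_lit 118) (nat_lit 120) (nat_lit 122))))))) (PT.nd (nat_lit 780) (PT.nd (nat_lit 390) (PT.nd (nat_lit 156) (PT.nd (nat_lit 78) (PT.lf (nat_lit 8588) (nat_lit 6) (nat_lit 113) (nat_lit 5) (nat_lit 119) (nat_lit 120) (nat_lit 121)) (PT.lf (nat_lit 8664) (nat_lit 1) (nat_lit 114) (nat_lit 0) (nat_lit 120) (nat_lit 120) (nat_lit 120))) (PT.nd (nat_lit 78) (PT.lf (nat_lit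 8588) (nat_lit 6) (nat_lit 113) (nat_lit 0) (nat_lit 121) (nat_lit 120) (nat_lit 119)) (PT.nd (nat_lit 78) (PT.lf (nat_lit 8436) (nat_lit 6) (nat_lit 111) (nat_lit 0) (nat_lit 122) (nat_lit 120) (nat_lit 118)) (PT.lf (nat_lit 8208) (nat_lit 6) (nat_lit 108) (nat_lit 0) (nat_lit 123) (nat_lit 120) (nat_lit 117))))) (PT.nd (nat_lit 156) (PT.nd (nat_lit 78) (PT.lf (nat_lit 7904) (nat_lit 6) (nat_lit 104) (nat_lit 0) (nat_lit 124) (nat_lit 120) (nat_lit 116)) (PT.lf (nat_lit 7524) (nat_lit 6) (nat_lit 99) (nat_lit 0) (nat_lit 125) (nat_lit 120) (nat_lit 115))) (PT.nd (nat_lit 78) (PT.lf (nat_lit 7068) (nat_lit 6) (nat_lit 93) (nat_lit 0) (nat_lit 126) (nat_lit 120) (nat_lit 114)) (PT.nd (nat_lit 78) (PT.lf (nat_lit 6536) (nat_lit 6) (nat_lit 86) (nat_lit 0) (nat_lit 127) (nat_lit 120) (nat_lit 113)) (PT.lf (nat_lit 5928) (nat_lit 6) (nat_lit 78) (nat_lit 0) (nat_lit 128) (nat_lit 120) (nat_lit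 112)))))) (PT.nd (nat_lit 36348) (PT.nd (nat_lit 36114) (PT.nd (nat_lit 36036) (PT.lf (nat_lit 5244) (nat_lit 6) (nat_lit 69) (nat_lit 0) (nat_lit 129) (nat_lit 120) (nat_lit 111)) (PT.lf (nat_lit 4560) (nat_lit 6) (nat_lit 60) (nat_lit 5) (nat_lit 110) (nat_lit 121) (nat_lit 129))) (PT.nd (nat_lit 78) (PT.lf (nat_lit 5320) (nat_lit 6) (nat_lit 70) (nat_lit 5) (nat_lit 111) (nat_lit 121) (nat_lit 128)) (PT.nd (nat_lit 78) (PT.lf (nat_lit 6004) (nat_lit 6) (nat_lit 79) (nat_lit 5) (nat_lit 112) (nat_lit 121) (nat_lit 127)) (PT.lf (nat_lit 6612) (nat_lit 6) (nat_lit 87) (nat_lit 5) (nat_lit 113) (nat_lit 121) (nat_lit 126))))) (PT.nd (nat_lit 156) (PT.nd (nat_lit 78) (PT.lf (nat_lit 7144) (nat_lit 6) (nat_lit 94) (nat_lit 5) (nat_lit 114) (nat_lit 121) (nat_lit 125)) (PT.lf (nat_lit 7600) (nat_lit 6) (nat_lit 100) (nat_lit 5) (nat_lit 115) (nat_lit 121) (nat_lit 124))) (PT.nd (nat_lit 78)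 (PT.lf (nat_lit 7980) (nat_lit 6) (nat_lit 105) (nat_lit 5) (nat_lit 116) (nat_lit 121) (nat_lit 123)) (PT.nd (nat_lit 78) (PT.lf (nat_lit 8284) (nat_lit 6) (nat_lit 109) (nat_lit 5) (nat_lit 117) (nat_lit 121) (nat_lit 122)) (PT.lf (nat_lit 8512) (nat_lit 3) (nat_lit 112) (nat_lit 4) (nat_lit 118) (nat_lit 121) (nat_lit 121))))))))
noncomputable def pc7 : PT := (PT.nd (nat_lit 37284) (PT.nd (nat_lit 702) (PT.nd (nat_lit 312) (PT.nd (nat_lit 156) (PT.nd (nat_lit 78) (PT.lf (nat_lit 8588) (nat_lit 6) (nat_lit 113) (nat_lit 4) (nat_lit 119) (nat_lit 121) (nat_lit 120)) (PT.lf (nat_lit 8588) (nat_lit 6) (nat_lit 113) (nat_lit 2) (nat_lit 120) (nat_lit 121) (nat_lit 119))) (PT.nd (nat_lit 78) (PT.lf (nat_lit 8512) (nat_lit 3) (nat_lit 112) (nat_lit 0) (nat_lit 121) (nat_lit 121) (nat_lit 118)) (PT.lf (nat_lit 8284) (nat_lit 6) (nat_lit 109) (nat_lit 0) (nat_lit 122) (nat_lit 121) (nat_lit 117))))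 (PT.nd (nat_lit 156) (PT.nd (nat_lit 78) (PT.lf (nat_lit 7980) (nat_lit 6) (nat_lit 105) (nat_lit 0) (nat_lit 123) (nat_lit 121) (nat_lit 116)) (PT.lf (nat_lit 7600) (nat_lit 6) (nat_lit 100) (nat_lit 0) (nat_lit 124) (nat_lit 121) (nat_lit 115))) (PT.nd (nat_lit 78) (PT.lf (nat_lit 7144) (nat_lit 6) (nat_lit 94) (nat_lit 0) (nat_lit 125) (nat_lit 121) (nat_lit 114)) (PT.nd (nat_lit 78) (PT.lf (nat_lit 6612) (nat_lit 6) (nat_lit 87) (nat_lit 0) (nat_lit 126) (nat_lit 121) (nat_lit 113)) (PT.lf (nat_lit 6004) (nat_lit 6) (nat_lit 79) (nat_lit 0) (nat_lit 127) (nat_lit 121) (nat_lit 112)))))) (PT.nd (nat_lit 36192) (PT.nd (nat_lit 35958) (PT.nd (nat_lit 78) (PT.lf (nat_lit 5320) (nat_lit 6) (nat_lit 70) (nat_lit 0) (nat_lit 128) (nat_lit 121) (nat_lit 111)) (PT.lf (nat_lit 4560) (nat_lit 6) (nat_lit 60) (nat_lit 0) (nat_lit 129) (nat_lit 121) (nat_lit 110))) (PT.nd (nat_lit 78) (PT.lf (nat_lit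 3876) (nat_lit 6) (nat_lit 51) (nat_lit 5) (nat_lit 108) (nat_lit 122) (nat_lit 130)) (PT.nd (nat_lit 78) (PT.lf (nat_lit 4256) (nat_lit 6) (nat_lit 56) (nat_lit 5) (nat_lit 109) (nat_lit 122) (nat_lit 129)) (PT.lf (nat_lit 4636) (nat_lit 6) (nat_lit 61) (nat_lit 5) (nat_lit 110) (nat_lit 122) (nat_lit 128))))) (PT.nd (nat_lit 156) (PT.nd (nat_lit 78) (PT.lf (nat_lit 5396) (nat_lit 6) (nat_lit 71) (nat_lit 5) (nat_lit 111) (nat_lit 122) (nat_lit 127)) (PT.lf (nat_lit 6080) (nat_lit 6) (nat_lit 80) (nat_lit 5) (nat_lit 112) (nat_lit 122) (nat_lit 126))) (PT.nd (nat_lit 78) (PT.lf (nat_lit 6688) (nat_lit 6) (nat_lit 88) (nat_lit 5) (nat_lit 113) (nat_lit 122) (nat_lit 125)) (PT.nd (nat_lit 78) (PT.lf (nat_lit 7220) (nat_lit 6) (nat_lit 95) (nat_lit 5) (nat_lit 114) (nat_lit 122) (nat_lit 124)) (PT.lf (nat_lit 7676) (nat_lit 6) (nat_lit 101) (nat_lit 5) (nat_lit 115) (nat_lit 122) (nat_lit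 123))))))) (PT.nd (nat_lit 780) (PT.nd (nat_lit 390) (PT.nd (nat_lit 156) (PT.nd (nat_lit 78) (PT.lf (nat_lit 8056) (nat_lit 3) (nat_lit 106) (nat_lit 4) (nat_lit 116) (nat_lit 122) (nat_lit 122)) (PT.lf (nat_lit 8284) (nat_lit 6) (nat_lit 109) (nat_lit 4) (nat_lit 117) (nat_lit 122) (nat_lit 121))) (PT.nd (nat_lit 78) (PT.lf (nat_lit 8436) (nat_lit 6) (nat_lit 111) (nat_lit 4) (nat_lit 118) (nat_lit 122) (nat_lit 120)) (PT.nd (nat_lit 78) (PT.lf (nat_lit 8360) (nat_lit 3) (nat_lit 110) (nat_lit 2) (nat_lit 119) (nat_lit 122) (nat_lit 119)) (PT.lf (nat_lit 8436) (nat_lit 6) (nat_lit 111) (nat_lit 2) (nat_lit 120) (nat_lit 122) (nat_lit 118))))) (PT.nd (nat_lit 156) (PT.nd (nat_lit 78) (PT.lf (nat_lit 8284) (nat_lit 6) (nat_lit 109) (nat_lit 2) (nat_lit 121) (nat_lit 122) (nat_lit 117)) (PT.lf (nat_lit 8056) (nat_lit 3) (nat_lit 106) (nat_lit 0) (nat_lit 122) (nat_lit 122) (nat_lit 116)))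 (PT.nd (nat_lit 78) (PT.lf (nat_lit 7676) (nat_lit 6) (nat_lit 101) (nat_lit 0) (nat_lit 123) (nat_lit 122) (nat_lit 115)) (PT.nd (nat_lit 78) (PT.lf (nat_lit 7220) (nat_lit 6) (nat_lit 95) (nat_lit 0) (nat_lit 124) (nat_lit 122) (nat_lit 114)) (PT.lf (nat_lit 6688) (nat_lit 6) (nat_lit 88) (nat_lit 0) (nat_lit 125) (nat_lit 122) (nat_lit 113)))))) (PT.nd (nat_lit 36036) (PT.nd (nat_lit 156) (PT.nd (nat_lit 78) (PT.lf (nat_lit 6080) (nat_lit 6) (nat_lit 80) (nat_lit 0) (nat_lit 126) (nat_lit 122) (nat_lit 112)) (PT.lf (nat_lit 5396) (nat_lit 6) (nat_lit 71) (nat_lit 0) (nat_lit 127) (nat_lit 122) (nat_lit 111))) (PT.nd (nat_lit 78) (PT.lf (nat_lit 4636) (nat_lit 6) (nat_lit 61) (nat_lit 0) (nat_lit 128) (nat_lit 122) (nat_lit 110)) (PT.nd (nat_lit 78) (PT.lf (nat_lit 4256) (nat_lit 6) (nat_lit 56) (nat_lit 0) (nat_lit 129) (nat_lit 122) (nat_lit 109)) (PT.lf (nat_lit 3876) (nat_lit 6) (nat_lit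 51) (nat_lit 0) (nat_lit 130) (nat_lit 122) (nat_lit 108))))) (PT.nd (nat_lit 156) (PT.nd (nat_lit 78) (PT.lf (nat_lit 3572) (nat_lit 6) (nat_lit 47) (nat_lit 5) (nat_lit 107) (nat_lit 123) (nat_lit 130)) (PT.lf (nat_lit 3952) (nat_lit 6) (nat_lit 52) (nat_lit 5) (nat_lit 108) (nat_lit 123) (nat_lit 129))) (PT.nd (nat_lit 78) (PT.lf (nat_lit 4332) (nat_lit 6) (nat_lit 57) (nat_lit 5) (nat_lit 109) (nat_lit 123) (nat_lit 128)) (PT.nd (nat_lit 78) (PT.lf (nat_lit 4712) (nat_lit 6) (nat_lit 62) (nat_lit 5) (nat_lit 110) (nat_lit 123) (nat_lit 127)) (PT.lf (nat_lit 5472) (nat_lit 6) (nat_lit 72) (nat_lit 5) (nat_lit 111) (nat_lit 123) (nat_lit 126))))))))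
noncomputable def pc8 : PT := (PT.nd (nat_lit 37050) (PT.nd (nat_lit 702) (PT.nd (nat_lit 312) (PT.nd (nat_lit 156) (PT.nd (nat_lit 78) (PT.lf (nat_lit 6156) (nat_lit 6) (nat_lit 81) (nat_lit 5) (nat_lit 112) (nat_lit 123) (nat_lit 125)) (PT.lf (nat_lit 6764) (nat_lit 6) (nat_lit 89) (nat_lit 5) (nat_lit 113) (nat_lit 123) (nat_lit 124))) (PT.nd (nat_lit 78) (PT.lf (nat_lit 7296) (nat_lit 3) (nat_lit 96) (nat_lit 4) (nat_lit 114) (nat_lit 123) (nat_lit 123)) (PT.lf (nat_lit 7676) (nat_lit 6) (nat_lit 101) (nat_lit 4) (nat_lit 115) (nat_lit 123) (nat_lit 122)))) (PT.nd (nat_lit 156) (PT.nd (nat_lit 78) (PT.lf (nat_lit 7980) (nat_lit 6) (nat_lit 105) (nat_lit 4) (nat_lit 116) (nat_lit 123) (nat_lit 121)) (PT.lf (nat_lit 8208) (nat_lit 6) (nat_lit 108) (nat_lit 4) (nat_lit 117) (nat_lit 123) (nat_lit 120))) (PT.nd (nat_lit 78) (PT.lf (nat_lit 8132) (nat_lit 6) (nat_lit 107) (nat_lit 4) (nat_lit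 118) (nat_lit 123) (nat_lit 119)) (PT.nd (nat_lit 78) (PT.lf (nat_lit 8132) (nat_lit 6) (nat_lit 107) (nat_lit 2) (nat_lit 119) (nat_lit 123) (nat_lit 118)) (PT.lf (nat_lit 8208) (nat_lit 6) (nat_lit 108) (nat_lit 2) (nat_lit 120) (nat_lit 123) (nat_lit 117)))))) (PT.nd (nat_lit 390) (PT.nd (nat_lit 156) (PT.nd (nat_lit 78) (PT.lf (nat_lit 7980) (nat_lit 6) (nat_lit 105) (nat_lit 2) (nat_lit 121) (nat_lit 123) (nat_lit 116)) (PT.lf (nat_lit 7676) (nat_lit 6) (nat_lit 101) (nat_lit 2) (nat_lit 122) (nat_lit 123) (nat_lit 115))) (PT.nd (nat_lit 78) (PT.lf (nat_lit 7296) (nat_lit 3) (nat_lit 96) (nat_lit 0) (nat_lit 123) (nat_lit 123) (nat_lit 114)) (PT.nd (nat_lit 78) (PT.lf (nat_lit 6764) (nat_lit 6) (nat_lit 89) (nat_lit 0) (nat_lit 124) (nat_lit 123) (nat_lit 113)) (PT.lf (nat_lit 6156) (nat_lit 6) (nat_lit 81) (nat_lit 0) (nat_lit 125) (nat_lit 123) (nat_lit 112))))) (PT.nd (nat_lit 156)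 (PT.nd (nat_lit 78) (PT.lf (nat_lit 5472) (nat_lit 6) (nat_lit 72) (nat_lit 0) (nat_lit 126) (nat_lit 123) (nat_lit 111)) (PT.lf (nat_lit 4712) (nat_lit 6) (nat_lit 62) (nat_lit 0) (nat_lit 127) (nat_lit 123) (nat_lit 110))) (PT.nd (nat_lit 78) (PT.lf (nat_lit 4332) (nat_lit 6) (nat_lit 57) (nat_lit 0) (nat_lit 128) (nat_lit 123) (nat_lit 109)) (PT.nd (nat_lit 78) (PT.lf (nat_lit 3952) (nat_lit 6) (nat_lit 52) (nat_lit 0) (nat_lit 129) (nat_lit 123) (nat_lit 108)) (PT.lf (nat_lit 3572) (nat_lit 6) (nat_lit 47) (nat_lit 0) (nat_lit 130) (nat_lit 123) (nat_lit 107))))))) (PT.nd (nat_lit 702) (PT.nd (nat_lit 312) (PT.nd (nat_lit 156) (PT.nd (nat_lit 78) (PT.lf (nat_lit 3268) (nat_lit 6) (nat_lit 43) (nat_lit 5) (nat_lit 106) (nat_lit 124) (nat_lit 130)) (PT.lf (nat_lit 3648) (nat_lit 6) (nat_lit 48) (nat_lit 5) (nat_lit 107) (nat_lit 124) (nat_lit 129))) (PT.nd (nat_lit 78) (PT.lf (nat_lit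 4028) (nat_lit 6) (nat_lit 53) (nat_lit 5) (nat_lit 108) (nat_lit 124) (nat_lit 128)) (PT.lf (nat_lit 4408) (nat_lit 6) (nat_lit 58) (nat_lit 5) (nat_lit 109) (nat_lit 124) (nat_lit 127)))) (PT.nd (nat_lit 156) (PT.nd (nat_lit 78) (PT.lf (nat_lit 4788) (nat_lit 6) (nat_lit 63) (nat_lit 5) (nat_lit 110) (nat_lit 124) (nat_lit 126)) (PT.lf (nat_lit 5548) (nat_lit 6) (nat_lit 73) (nat_lit 5) (nat_lit 111) (nat_lit 124) (nat_lit 125))) (PT.nd (nat_lit 78) (PT.lf (nat_lit 6232) (nat_lit 3) (nat_lit 82) (nat_lit 4) (nat_lit 112) (nat_lit 124) (nat_lit 124)) (PT.nd (nat_lit 78) (PT.lf (nat_lit 6764) (nat_lit 6) (nat_lit 89) (nat_lit 4) (nat_lit 113) (nat_lit 124) (nat_lit 123)) (PT.lf (nat_lit 7220) (nat_lit 6) (nat_lit 95) (nat_lit 4) (nat_lit 114) (nat_lit 124) (nat_lit 122)))))) (PT.nd (nat_lit 390) (PT.nd (nat_lit 156) (PT.nd (nat_lit 78) (PT.lf (nat_lit 7600) (nat_lit 6) (nat_lit 100) (nat_lit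 4) (nat_lit 115) (nat_lit 124) (nat_lit 121)) (PT.lf (nat_lit 7904) (nat_lit 6) (nat_lit 104) (nat_lit 4) (nat_lit 116) (nat_lit 124) (nat_lit 120))) (PT.nd (nat_lit 78) (PT.lf (nat_lit 7828) (nat_lit 6) (nat_lit 103) (nat_lit 4) (nat_lit 117) (nat_lit 124) (nat_lit 119)) (PT.nd (nat_lit 78) (PT.lf (nat_lit 7752) (nat_lit 3) (nat_lit 102) (nat_lit 2) (nat_lit 118) (nat_lit 124) (nat_lit 118)) (PT.lf (nat_lit 7828) (nat_lit 6) (nat_lit 103) (nat_lit 2) (nat_lit 119) (nat_lit 124) (nat_lit 117))))) (PT.nd (nat_lit 156) (PT.nd (nat_lit 78) (PT.lf (nat_lit 7904) (nat_lit 6) (nat_lit 104) (nat_lit 2) (nat_lit 120) (nat_lit 124) (nat_lit 116)) (PT.lf (nat_lit 7600) (nat_lit 6) (nat_lit 100) (nat_lit 2) (nat_lit 121) (nat_lit 124) (nat_lit 115))) (PT.nd (nat_lit 78) (PT.lf (nat_lit 7220) (nat_lit 6) (nat_lit 95) (nat_lit 2) (nat_lit 122) (nat_lit 124) (nat_lit 114)) (PT.nd (nat_lit 78) (PT.lf (nat_lit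 6764) (nat_lit 6) (nat_lit 89) (nat_lit 2) (nat_lit 123) (nat_lit 124) (nat_lit 113)) (PT.lf (nat_lit 6232) (nat_lit 3) (nat_lit 82) (nat_lit 0) (nat_lit 124) (nat_lit 124) (nat_lit 112))))))))
noncomputable def pc9 : PT := (PT.nd (nat_lit 36894) (PT.nd (nat_lit 36114) (PT.nd (nat_lit 312) (PT.nd (nat_lit 156) (PT.nd (nat_lit 78) (PT.lf (nat_lit 5548) (nat_lit 6) (nat_lit 73) (nat_lit 0) (nat_lit 125) (nat_lit 124) (nat_lit 111)) (PT.lf (nat_lit 4788) (nat_lit 6) (nat_lit 63) (nat_lit 0) (nat_lit 126) (nat_lit 124) (nat_lit 110))) (PT.nd (nat_lit 78) (PT.lf (nat_lit 4408) (nat_lit 6) (nat_lit 58) (nat_lit 0) (nat_lit 127) (nat_lit 124) (nat_lit 109)) (PT.lf (nat_lit 4028) (nat_lit 6) (nat_lit 53) (nat_lit 0) (nat_lit 128) (nat_lit 124) (nat_lit 108)))) (PT.nd (nat_lit 35568) (PT.nd (nat_lit 78) (PT.lf (nat_lit 3648) (nat_lit 6) (nat_lit 48) (nat_lit 0) (nat_lit 129) (nat_lit 124) (nat_lit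 107)) (PT.lf (nat_lit 3268) (nat_lit 6) (nat_lit 43) (nat_lit 0) (nat_lit 130) (nat_lit 124) (nat_lit 106))) (PT.nd (nat_lit 78) (PT.lf (nat_lit 2736) (nat_lit 6) (nat_lit 36) (nat_lit 5) (nat_lit 104) (nat_lit 125) (nat_lit 131)) (PT.nd (nat_lit 78) (PT.lf (nat_lit 3040) (nat_lit 6) (nat_lit 40) (nat_lit 5) (nat_lit 105) (nat_lit 125) (nat_lit 130)) (PT.lf (nat_lit 3344) (nat_lit 6) (nat_lit 44) (nat_lit 5) (nat_lit 106) (nat_lit 125) (nat_lit 129)))))) (PT.nd (nat_lit 390) (PT.nd (nat_lit 156) (PT.nd (nat_lit 78) (PT.lf (nat_lit 3724) (nat_lit 6) (nat_lit 49) (nat_lit 5) (nat_lit 107) (nat_lit 125) (nat_lit 128)) (PT.lf (nat_lit 4104) (nat_lit 6) (nat_lit 54) (nat_lit 5) (nat_lit 108) (nat_lit 125) (nat_lit 127))) (PT.nd (nat_lit 78) (PT.lf (nat_lit 4484) (nat_lit 6) (nat_lit 59) (nat_lit 5) (nat_lit 109) (nat_lit 125) (nat_lit 126)) (PT.nd (nat_lit 78) (PT.lf (nat_lit 4864) (nat_lit 3)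 (nat_lit 64) (nat_lit 4) (nat_lit 110) (nat_lit 125) (nat_lit 125)) (PT.lf (nat_lit 5548) (nat_lit 6) (nat_lit 73) (nat_lit 4) (nat_lit 111) (nat_lit 125) (nat_lit 124))))) (PT.nd (nat_lit 156) (PT.nd (nat_lit 78) (PT.lf (nat_lit 6156) (nat_lit 6) (nat_lit 81) (nat_lit 4) (nat_lit 112) (nat_lit 125) (nat_lit 123)) (PT.lf (nat_lit 6688) (nat_lit 6) (nat_lit 88) (nat_lit 4) (nat_lit 113) (nat_lit 125) (nat_lit 122))) (PT.nd (nat_lit 78) (PT.lf (nat_lit 7144) (nat_lit 6) (nat_lit 94) (nat_lit 4) (nat_lit 114) (nat_lit 125) (nat_lit 121)) (PT.nd (nat_lit 78) (PT.lf (nat_lit 7524) (nat_lit 6) (nat_lit 99) (nat_lit 4) (nat_lit 115) (nat_lit 125) (nat_lit 120)) (PT.lf (nat_lit 7448) (nat_lit 6) (nat_lit 98) (nat_lit 4) (nat_lit 116) (nat_lit 125) (nat_lit 119))))))) (PT.nd (nat_lit 780) (PT.nd (nat_lit 390) (PT.nd (nat_lit 156) (PT.nd (nat_lit 78) (PT.lf (nat_lit 7372) (nat_lit 6) (nat_lit 97)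 (nat_lit 4) (nat_lit 117) (nat_lit 125) (nat_lit 118)) (PT.lf (nat_lit 7372) (nat_lit 6) (nat_lit 97) (nat_lit 2) (nat_lit 118) (nat_lit 125) (nat_lit 117))) (PT.nd (nat_lit 78) (PT.lf (nat_lit 7448) (nat_lit 6) (nat_lit 98) (nat_lit 2) (nat_lit 119) (nat_lit 125) (nat_lit 116)) (PT.nd (nat_lit 78) (PT.lf (nat_lit 7524) (nat_lit 6) (nat_lit 99) (nat_lit 2) (nat_lit 120) (nat_lit 125) (nat_lit 115)) (PT.lf (nat_lit 7144) (nat_lit 6) (nat_lit 94) (nat_lit 2) (nat_lit 121) (nat_lit 125) (nat_lit 114))))) (PT.nd (nat_lit 156) (PT.nd (nat_lit 78) (PT.lf (nat_lit 6688) (nat_lit 6) (nat_lit 88) (nat_lit 2) (nat_lit 122) (nat_lit 125) (nat_lit 113)) (PT.lf (nat_lit 6156) (nat_lit 6) (nat_lit 81) (nat_lit 2) (nat_lit 123) (nat_lit 125) (nat_lit 112))) (PT.nd (nat_lit 78) (PT.lf (nat_lit 5548) (nat_lit 6) (nat_lit 73) (nat_lit 2) (nat_lit 124) (nat_lit 125) (nat_lit 111)) (PT.nd (nat_lit 78) (PT.lf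 (nat_lit 4864) (nat_lit 3) (nat_lit 64) (nat_lit 0) (nat_lit 125) (nat_lit 125) (nat_lit 110)) (PT.lf (nat_lit 4484) (nat_lit 6) (nat_lit 59) (nat_lit 0) (nat_lit 126) (nat_lit 125) (nat_lit 109)))))) (PT.nd (nat_lit 35646) (PT.nd (nat_lit 156) (PT.nd (nat_lit 78) (PT.lf (nat_lit 4104) (nat_lit 6) (nat_lit 54) (nat_lit 0) (nat_lit 127) (nat_lit 125) (nat_lit 108)) (PT.lf (nat_lit 3724) (nat_lit 6) (nat_lit 49) (nat_lit 0) (nat_lit 128) (nat_lit 125) (nat_lit 107))) (PT.nd (nat_lit 78) (PT.lf (nat_lit 3344) (nat_lit 6) (nat_lit 44) (nat_lit 0) (nat_lit 129) (nat_lit 125) (nat_lit 106)) (PT.nd (nat_lit 78) (PT.lf (nat_lit 3040) (nat_lit 6) (nat_lit 40) (nat_lit 0) (nat_lit 130) (nat_lit 125) (nat_lit 105)) (PT.lf (nat_lit 2736) (nat_lit 6) (nat_lit 36) (nat_lit 0) (nat_lit 131) (nat_lit 125) (nat_lit 104))))) (PT.nd (nat_lit 156) (PT.nd (nat_lit 78) (PT.lf (nat_lit 2508) (nat_lit 6) (nat_lit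 33) (nat_lit 5) (nat_lit 103) (nat_lit 126) (nat_lit 131)) (PT.lf (nat_lit 2812) (nat_lit 6) (nat_lit 37) (nat_lit 5) (nat_lit 104) (nat_lit 126) (nat_lit 130))) (PT.nd (nat_lit 78) (PT.lf (nat_lit 3116) (nat_lit 6) (nat_lit 41) (nat_lit 5) (nat_lit 105) (nat_lit 126) (nat_lit 129)) (PT.nd (nat_lit 78) (PT.lf (nat_lit 3420) (nat_lit 6) (nat_lit 45) (nat_lit 5) (nat_lit 106) (nat_lit 126) (nat_lit 128)) (PT.lf (nat_lit 3800) (nat_lit 6) (nat_lit 50) (nat_lit 5) (nat_lit 107) (nat_lit 126) (nat_lit 127))))))))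
noncomputable def pc10 : PT := (PT.nd (nat_lit 1482) (PT.nd (nat_lit 702) (PT.nd (nat_lit 312) (PT.nd (nat_lit 156) (PT.nd (nat_lit 78) (PT.lf (nat_lit 4180) (nat_lit 3) (nat_lit 55) (nat_lit 4) (nat_lit 108) (nat_lit 126) (nat_lit 126)) (PT.lf (nat_lit 4484) (nat_lit 6) (nat_lit 59) (nat_lit 4) (nat_lit 109) (nat_lit 126) (nat_lit 125))) (PT.nd (nat_lit 78) (PT.lf (nat_lit 4788) (nat_lit 6) (nat_lit 63) (nat_lit 4) (nat_lit 110) (nat_lit 126) (nat_lit 124)) (PT.lf (nat_lit 5472) (nat_lit 6) (nat_lit 72) (nat_lit 4) (nat_lit 111) (nat_lit 126) (nat_lit 123)))) (PT.nd (nat_lit 156) (PT.nd (nat_lit 78) (PT.lf (nat_lit 6080) (nat_lit 6) (nat_lit 80) (nat_lit 4) (nat_lit 112) (nat_lit 126) (nat_lit 122)) (PT.lf (nat_lit 6612) (nat_lit 6) (nat_lit 87) (nat_lit 4) (nat_lit 113) (nat_lit 126) (nat_lit 121))) (PT.nd (nat_lit 78) (PT.lf (nat_lit 7068) (nat_lit 6) (nat_lit 93) (nat_lit 4) (nat_lit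 114) (nat_lit 126) (nat_lit 120)) (PT.nd (nat_lit 78) (PT.lf (nat_lit 6992) (nat_lit 6) (nat_lit 92) (nat_lit 4) (nat_lit 115) (nat_lit 126) (nat_lit 119)) (PT.lf (nat_lit 6916) (nat_lit 6) (nat_lit 91) (nat_lit 4) (nat_lit 116) (nat_lit 126) (nat_lit 118)))))) (PT.nd (nat_lit 390) (PT.nd (nat_lit 156) (PT.nd (nat_lit 78) (PT.lf (nat_lit 6840) (nat_lit 3) (nat_lit 90) (nat_lit 2) (nat_lit 117) (nat_lit 126) (nat_lit 117)) (PT.lf (nat_lit 6916) (nat_lit 6) (nat_lit 91) (nat_lit 2) (nat_lit 118) (nat_lit 126) (nat_lit 116))) (PT.nd (nat_lit 78) (PT.lf (nat_lit 6992) (nat_lit 6) (nat_lit 92) (nat_lit 2) (nat_lit 119) (nat_lit 126) (nat_lit 115)) (PT.nd (nat_lit 78) (PT.lf (nat_lit 7068) (nat_lit 6) (nat_lit 93) (nat_lit 2) (nat_lit 120) (nat_lit 126) (nat_lit 114)) (PT.lf (nat_lit 6612) (nat_lit 6) (nat_lit 87) (nat_lit 2) (nat_lit 121) (nat_lit 126) (nat_lit 113))))) (PT.nd (nat_lit 156) (PT.nd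 (nat_lit 78) (PT.lf (nat_lit 6080) (nat_lit 6) (nat_lit 80) (nat_lit 2) (nat_lit 122) (nat_lit 126) (nat_lit 112)) (PT.lf (nat_lit 5472) (nat_lit 6) (nat_lit 72) (nat_lit 2) (nat_lit 123) (nat_lit 126) (nat_lit 111))) (PT.nd (nat_lit 78) (PT.lf (nat_lit 4788) (nat_lit 6) (nat_lit 63) (nat_lit 2) (nat_lit 124) (nat_lit 126) (nat_lit 110)) (PT.nd (nat_lit 78) (PT.lf (nat_lit 4484) (nat_lit 6) (nat_lit 59) (nat_lit 2) (nat_lit 125) (nat_lit 126) (nat_lit 109)) (PT.lf (nat_lit 4180) (nat_lit 3) (nat_lit 55) (nat_lit 0) (nat_lit 126) (nat_lit 126) (nat_lit 108))))))) (PT.nd (nat_lit 35880) (PT.nd (nat_lit 35490) (PT.nd (nat_lit 156) (PT.nd (nat_lit 78) (PT.lf (nat_lit 3800) (nat_lit 6) (nat_lit 50) (nat_lit 0) (nat_lit 127) (nat_lit 126) (nat_lit 107)) (PT.lf (nat_lit 3420) (nat_lit 6) (nat_lit 45) (nat_lit 0) (nat_lit 128) (nat_lit 126) (nat_lit 106))) (PT.nd (nat_lit 78) (PT.lf (nat_lit 3116)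 (nat_lit 6) (nat_lit 41) (nat_lit 0) (nat_lit 129) (nat_lit 126) (nat_lit 105)) (PT.nd (nat_lit 78) (PT.lf (nat_lit 2812) (nat_lit 6) (nat_lit 37) (nat_lit 0) (nat_lit 130) (nat_lit 126) (nat_lit 104)) (PT.lf (nat_lit 2508) (nat_lit 6) (nat_lit 33) (nat_lit 0) (nat_lit 131) (nat_lit 126) (nat_lit 103))))) (PT.nd (nat_lit 156) (PT.nd (nat_lit 78) (PT.lf (nat_lit 2052) (nat_lit 6) (nat_lit 27) (nat_lit 5) (nat_lit 101) (nat_lit 127) (nat_lit 132)) (PT.lf (nat_lit 2280) (nat_lit 6) (nat_lit 30) (nat_lit 5) (nat_lit 102) (nat_lit 127) (nat_lit 131))) (PT.nd (nat_lit 78) (PT.lf (nat_lit 2584) (nat_lit 6) (nat_lit 34) (nat_lit 5) (nat_lit 103) (nat_lit 127) (nat_lit 130)) (PT.nd (nat_lit 78) (PT.lf (nat_lit 2888) (nat_lit 6) (nat_lit 38) (nat_lit 5) (nat_lit 104) (nat_lit 127) (nat_lit 129)) (PT.lf (nat_lit 3192) (nat_lit 6) (nat_lit 42) (nat_lit 5) (nat_lit 105) (nat_lit 127) (nat_lit 128))))))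 (PT.nd (nat_lit 390) (PT.nd (nat_lit 156) (PT.nd (nat_lit 78) (PT.lf (nat_lit 3496) (nat_lit 3) (nat_lit 46) (nat_lit 4) (nat_lit 106) (nat_lit 127) (nat_lit 127)) (PT.lf (nat_lit 3800) (nat_lit 6) (nat_lit 50) (nat_lit 4) (nat_lit 107) (nat_lit 127) (nat_lit 126))) (PT.nd (nat_lit 78) (PT.lf (nat_lit 4104) (nat_lit 6) (nat_lit 54) (nat_lit 4) (nat_lit 108) (nat_lit 127) (nat_lit 125)) (PT.nd (nat_lit 78) (PT.lf (nat_lit 4408) (nat_lit 6) (nat_lit 58) (nat_lit 4) (nat_lit 109) (nat_lit 127) (nat_lit 124)) (PT.lf (nat_lit 4712) (nat_lit 6) (nat_lit 62) (nat_lit 4) (nat_lit 110) (nat_lit 127) (nat_lit 123))))) (PT.nd (nat_lit 156) (PT.nd (nat_lit 78) (PT.lf (nat_lit 5396) (nat_lit 6) (nat_lit 71) (nat_lit 4) (nat_lit 111) (nat_lit 127) (nat_lit 122)) (PT.lf (nat_lit 6004) (nat_lit 6) (nat_lit 79) (nat_lit 4) (nat_lit 112) (nat_lit 127) (nat_lit 121))) (PT.nd (nat_lit 78) (PT.lf (nat_lit 6536)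 (nat_lit 6) (nat_lit 86) (nat_lit 4) (nat_lit 113) (nat_lit 127) (nat_lit 120)) (PT.nd (nat_lit 78) (PT.lf (nat_lit 6460) (nat_lit 6) (nat_lit 85) (nat_lit 4) (nat_lit 114) (nat_lit 127) (nat_lit 119)) (PT.lf (nat_lit 6384) (nat_lit 6) (nat_lit 84) (nat_lit 4) (nat_lit 115) (nat_lit 127) (nat_lit 118))))))))
noncomputable def pc11 : PT := (PT.nd (nat_lit 36426) (PT.nd (nat_lit 702) (PT.nd (nat_lit 312) (PT.nd (nat_lit 156) (PT.nd (nat_lit 78) (PT.lf (nat_lit 6308) (nat_lit 6) (nat_lit 83) (nat_lit 4) (nat_lit 116) (nat_lit 127) (nat_lit 117)) (PT.lf (nat_lit 6308) (nat_lit 6) (nat_lit 83) (nat_lit 2) (nat_lit 117) (nat_lit 127) (nat_lit 116))) (PT.nd (nat_lit 78) (PT.lf (nat_lit 6384) (nat_lit 6) (nat_lit 84) (nat_lit 2) (nat_lit 118) (nat_lit 127) (nat_lit 115)) (PT.lf (nat_lit 6460) (nat_lit 6) (nat_lit 85) (nat_lit 2) (nat_lit 119) (nat_lit 127) (nat_lit 114)))) (PT.nd (nat_lit 156) (PT.nd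 (nat_lit 78) (PT.lf (nat_lit 6536) (nat_lit 6) (nat_lit 86) (nat_lit 2) (nat_lit 120) (nat_lit 127) (nat_lit 113)) (PT.lf (nat_lit 6004) (nat_lit 6) (nat_lit 79) (nat_lit 2) (nat_lit 121) (nat_lit 127) (nat_lit 112))) (PT.nd (nat_lit 78) (PT.lf (nat_lit 5396) (nat_lit 6) (nat_lit 71) (nat_lit 2) (nat_lit 122) (nat_lit 127) (nat_lit 111)) (PT.nd (nat_lit 78) (PT.lf (nat_lit 4712) (nat_lit 6) (nat_lit 62) (nat_lit 2) (nat_lit 123) (nat_lit 127) (nat_lit 110)) (PT.lf (nat_lit 4408) (nat_lit 6) (nat_lit 58) (nat_lit 2) (nat_lit 124) (nat_lit 127) (nat_lit 109)))))) (PT.nd (nat_lit 390) (PT.nd (nat_lit 156) (PT.nd (nat_lit 78) (PT.lf (nat_lit 4104) (nat_lit 6) (nat_lit 54) (nat_lit 2) (nat_lit 125) (nat_lit 127) (nat_lit 108)) (PT.lf (nat_lit 3800) (nat_lit 6) (nat_lit 50) (nat_lit 2) (nat_lit 126) (nat_lit 127) (nat_lit 107))) (PT.nd (nat_lit 78) (PT.lf (nat_lit 3496) (nat_lit 3) (nat_lit 46)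 (nat_lit 0) (nat_lit 127) (nat_lit 127) (nat_lit 106)) (PT.nd (nat_lit 78) (PT.lf (nat_lit 3192) (nat_lit 6) (nat_lit 42) (nat_lit 0) (nat_lit 128) (nat_lit 127) (nat_lit 105)) (PT.lf (nat_lit 2888) (nat_lit 6) (nat_lit 38) (nat_lit 0) (nat_lit 129) (nat_lit 127) (nat_lit 104))))) (PT.nd (nat_lit 156) (PT.nd (nat_lit 78) (PT.lf (nat_lit 2584) (nat_lit 6) (nat_lit 34) (nat_lit 0) (nat_lit 130) (nat_lit 127) (nat_lit 103)) (PT.lf (nat_lit 2280) (nat_lit 6) (nat_lit 30) (nat_lit 0) (nat_lit 131) (nat_lit 127) (nat_lit 102))) (PT.nd (nat_lit 35022) (PT.lf (nat_lit 2052) (nat_lit 6) (nat_lit 27) (nat_lit 0) (nat_lit 132) (nat_lit 127) (nat_lit 101)) (PT.nd (nat_lit 78) (PT.lf (nat_lit 1824) (nat_lit 6) (nat_lit 24) (nat_lit 5) (nat_lit 100) (nat_lit 128) (nat_lit 132)) (PT.lf (nat_lit 2128) (nat_lit 6) (nat_lit 28) (nat_lit 5) (nat_lit 101) (nat_lit 128) (nat_lit 131))))))) (PT.nd (nat_lit 780)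 (PT.nd (nat_lit 390) (PT.nd (nat_lit 156) (PT.nd (nat_lit 78) (PT.lf (nat_lit 2356) (nat_lit 6) (nat_lit 31) (nat_lit 5) (nat_lit 102) (nat_lit 128) (nat_lit 130)) (PT.lf (nat_lit 2660) (nat_lit 6) (nat_lit 35) (nat_lit 5) (nat_lit 103) (nat_lit 128) (nat_lit 129))) (PT.nd (nat_lit 78) (PT.lf (nat_lit 2964) (nat_lit 3) (nat_lit 39) (nat_lit 4) (nat_lit 104) (nat_lit 128) (nat_lit 128)) (PT.nd (nat_lit 78) (PT.lf (nat_lit 3192) (nat_lit 6) (nat_lit 42) (nat_lit 4) (nat_lit 105) (nat_lit 128) (nat_lit 127)) (PT.lf (nat_lit 3420) (nat_lit 6) (nat_lit 45) (nat_lit 4) (nat_lit 106) (nat_lit 128) (nat_lit 126))))) (PT.nd (nat_lit 156) (PT.nd (nat_lit 78) (PT.lf (nat_lit 3724) (nat_lit 6) (nat_lit 49) (nat_lit 4) (nat_lit 107) (nat_lit 128) (nat_lit 125)) (PT.lf (nat_lit 4028) (nat_lit 6) (nat_lit 53) (nat_lit 4) (nat_lit 108) (nat_lit 128) (nat_lit 124))) (PT.nd (nat_lit 78) (PT.lf (nat_lit 4332)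 (nat_lit 6) (nat_lit 57) (nat_lit 4) (nat_lit 109) (nat_lit 128) (nat_lit 123)) (PT.nd (nat_lit 78) (PT.lf (nat_lit 4636) (nat_lit 6) (nat_lit 61) (nat_lit 4) (nat_lit 110) (nat_lit 128) (nat_lit 122)) (PT.lf (nat_lit 5320) (nat_lit 6) (nat_lit 70) (nat_lit 4) (nat_lit 111) (nat_lit 128) (nat_lit 121)))))) (PT.nd (nat_lit 390) (PT.nd (nat_lit 156) (PT.nd (nat_lit 78) (PT.lf (nat_lit 5928) (nat_lit 6) (nat_lit 78) (nat_lit 4) (nat_lit 112) (nat_lit 128) (nat_lit 120)) (PT.lf (nat_lit 5852) (nat_lit 6) (nat_lit 77) (nat_lit 4) (nat_lit 113) (nat_lit 128) (nat_lit 119))) (PT.nd (nat_lit 78) (PT.lf (nat_lit 5776) (nat_lit 6) (nat_lit 76) (nat_lit 4) (nat_lit 114) (nat_lit 128) (nat_lit 118)) (PT.nd (nat_lit 78) (PT.lf (nat_lit 5700) (nat_lit 6) (nat_lit 75) (nat_lit 4) (nat_lit 115) (nat_lit 128) (nat_lit 117)) (PT.lf (nat_lit 5624) (nat_lit 3) (nat_lit 74) (nat_lit 2) (nat_lit 116) (nat_lit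 128) (nat_lit 116))))) (PT.nd (nat_lit 156) (PT.nd (nat_lit 78) (PT.lf (nat_lit 5700) (nat_lit 6) (nat_lit 75) (nat_lit 2) (nat_lit 117) (nat_lit 128) (nat_lit 115)) (PT.lf (nat_lit 5776) (nat_lit 6) (nat_lit 76) (nat_lit 2) (nat_lit 118) (nat_lit 128) (nat_lit 114))) (PT.nd (nat_lit 78) (PT.lf (nat_lit 5852) (nat_lit 6) (nat_lit 77) (nat_lit 2) (nat_lit 119) (nat_lit 128) (nat_lit 113)) (PT.nd (nat_lit 78) (PT.lf (nat_lit 5928) (nat_lit 6) (nat_lit 78) (nat_lit 2) (nat_lit 120) (nat_lit 128) (nat_lit 112)) (PT.lf (nat_lit 5320) (nat_lit 6) (nat_lit 70) (nat_lit 2) (nat_lit 121) (nat_lit 128) (nat_lit 111))))))))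
noncomputable def pc12 : PT := (PT.nd (nat_lit 36270) (PT.nd (nat_lit 702) (PT.nd (nat_lit 312) (PT.nd (nat_lit 156) (PT.nd (nat_lit 78) (PT.lf (nat_lit 4636) (nat_lit 6) (nat_lit 61) (nat_lit 2) (nat_lit 122) (nat_lit 128) (nat_lit 110)) (PT.lf (nat_lit 4332) (nat_lit 6) (nat_lit 57) (nat_lit 2) (nat_lit 123) (nat_lit 128) (nat_lit 109))) (PT.nd (nat_lit 78) (PT.lf (nat_lit 4028) (nat_lit 6) (nat_lit 53) (nat_lit 2) (nat_lit 124) (nat_lit 128) (nat_lit 108)) (PT.lf (nat_lit 3724) (nat_lit 6) (nat_lit 49) (nat_lit 2) (nat_lit 125) (nat_lit 128) (nat_lit 107)))) (PT.nd (nat_lit 156) (PT.nd (nat_lit 78) (PT.lf (nat_lit 3420) (nat_lit 6) (nat_lit 45) (nat_lit 2) (nat_lit 126) (nat_lit 128) (nat_lit 106)) (PT.lf (nat_lit 3192) (nat_lit 6) (nat_lit 42) (nat_lit 2) (nat_lit 127) (nat_lit 128) (nat_lit 105))) (PT.nd (nat_lit 78) (PT.lf (nat_lit 2964) (nat_lit 3) (nat_lit 39) (nat_lit 0) (nat_lit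 128) (nat_lit 128) (nat_lit 104)) (PT.nd (nat_lit 78) (PT.lf (nat_lit 2660) (nat_lit 6) (nat_lit 35) (nat_lit 0) (nat_lit 129) (nat_lit 128) (nat_lit 103)) (PT.lf (nat_lit 2356) (nat_lit 6) (nat_lit 31) (nat_lit 0) (nat_lit 130) (nat_lit 128) (nat_lit 102)))))) (PT.nd (nat_lit 35178) (PT.nd (nat_lit 34944) (PT.nd (nat_lit 78) (PT.lf (nat_lit 2128) (nat_lit 6) (nat_lit 28) (nat_lit 0) (nat_lit 131) (nat_lit 128) (nat_lit 101)) (PT.lf (nat_lit 1824) (nat_lit 6) (nat_lit 24) (nat_lit 0) (nat_lit 132) (nat_lit 128) (nat_lit 100))) (PT.nd (nat_lit 78) (PT.lf (nat_lit 1444) (nat_lit 6) (nat_lit 19) (nat_lit 5) (nat_lit 98) (nat_lit 129) (nat_lit 133)) (PT.nd (nat_lit 78) (PT.lf (nat_lit 1672) (nat_lit 6) (nat_lit 22) (nat_lit 5) (nat_lit 99) (nat_lit 129) (nat_lit 132)) (PT.lf (nat_lit 1900) (nat_lit 6) (nat_lit 25) (nat_lit 5) (nat_lit 100) (nat_lit 129) (nat_lit 131))))) (PT.nd (nat_lit 156)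 (PT.nd (nat_lit 78) (PT.lf (nat_lit 2204) (nat_lit 6) (nat_lit 29) (nat_lit 5) (nat_lit 101) (nat_lit 129) (nat_lit 130)) (PT.lf (nat_lit 2432) (nat_lit 3) (nat_lit 32) (nat_lit 4) (nat_lit 102) (nat_lit 129) (nat_lit 129))) (PT.nd (nat_lit 78) (PT.lf (nat_lit 2660) (nat_lit 6) (nat_lit 35) (nat_lit 4) (nat_lit 103) (nat_lit 129) (nat_lit 128)) (PT.nd (nat_lit 78) (PT.lf (nat_lit 2888) (nat_lit 6) (nat_lit 38) (nat_lit 4) (nat_lit 104) (nat_lit 129) (nat_lit 127)) (PT.lf (nat_lit 3116) (nat_lit 6) (nat_lit 41) (nat_lit 4) (nat_lit 105) (nat_lit 129) (nat_lit 126))))))) (PT.nd (nat_lit 702) (PT.nd (nat_lit 312) (PT.nd (nat_lit 156) (PT.nd (nat_lit 78) (PT.lf (nat_lit 3344) (nat_lit 6) (nat_lit 44) (nat_lit 4) (nat_lit 106) (nat_lit 129) (nat_lit 125)) (PT.lf (nat_lit 3648) (nat_lit 6) (nat_lit 48) (nat_lit 4) (nat_lit 107) (nat_lit 129) (nat_lit 124))) (PT.nd (nat_lit 78) (PT.lf (nat_lit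 3952) (nat_lit 6) (nat_lit 52) (nat_lit 4) (nat_lit 108) (nat_lit 129) (nat_lit 123)) (PT.lf (nat_lit 4256) (nat_lit 6) (nat_lit 56) (nat_lit 4) (nat_lit 109) (nat_lit 129) (nat_lit 122)))) (PT.nd (nat_lit 156) (PT.nd (nat_lit 78) (PT.lf (nat_lit 4560) (nat_lit 6) (nat_lit 60) (nat_lit 4) (nat_lit 110) (nat_lit 129) (nat_lit 121)) (PT.lf (nat_lit 5244) (nat_lit 6) (nat_lit 69) (nat_lit 4) (nat_lit 111) (nat_lit 129) (nat_lit 120))) (PT.nd (nat_lit 78) (PT.lf (nat_lit 5168) (nat_lit 6) (nat_lit 68) (nat_lit 4) (nat_lit 112) (nat_lit 129) (nat_lit 119)) (PT.nd (nat_lit 78) (PT.lf (nat_lit 5092) (nat_lit 6) (nat_lit 67) (nat_lit 4) (nat_lit 113) (nat_lit 129) (nat_lit 118)) (PT.lf (nat_lit 5016) (nat_lit 6) (nat_lit 66) (nat_lit 4) (nat_lit 114) (nat_lit 129) (nat_lit 117)))))) (PT.nd (nat_lit 390) (PT.nd (nat_lit 156) (PT.nd (nat_lit 78) (PT.lf (nat_lit 4940) (nat_lit 6) (nat_lit 65) (nat_lit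 4) (nat_lit 115) (nat_lit 129) (nat_lit 116)) (PT.lf (nat_lit 4940) (nat_lit 6) (nat_lit 65) (nat_lit 2) (nat_lit 116) (nat_lit 129) (nat_lit 115))) (PT.nd (nat_lit 78) (PT.lf (nat_lit 5016) (nat_lit 6) (nat_lit 66) (nat_lit 2) (nat_lit 117) (nat_lit 129) (nat_lit 114)) (PT.nd (nat_lit 78) (PT.lf (nat_lit 5092) (nat_lit 6) (nat_lit 67) (nat_lit 2) (nat_lit 118) (nat_lit 129) (nat_lit 113)) (PT.lf (nat_lit 5168) (nat_lit 6) (nat_lit 68) (nat_lit 2) (nat_lit 119) (nat_lit 129) (nat_lit 112))))) (PT.nd (nat_lit 156) (PT.nd (nat_lit 78) (PT.lf (nat_lit 5244) (nat_lit 6) (nat_lit 69) (nat_lit 2) (nat_lit 120) (nat_lit 129) (nat_lit 111)) (PT.lf (nat_lit 4560) (nat_lit 6) (nat_lit 60) (nat_lit 2) (nat_lit 121) (nat_lit 129) (nat_lit 110))) (PT.nd (nat_lit 78) (PT.lf (nat_lit 4256) (nat_lit 6) (nat_lit 56) (nat_lit 2) (nat_lit 122) (nat_lit 129) (nat_lit 109)) (PT.nd (nat_lit 78) (PT.lf (nat_lit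 3952) (nat_lit 6) (nat_lit 52) (nat_lit 2) (nat_lit 123) (nat_lit 129) (nat_lit 108)) (PT.lf (nat_lit 3648) (nat_lit 6) (nat_lit 48) (nat_lit 2) (nat_lit 124) (nat_lit 129) (nat_lit 107))))))))
noncomputable def pc13 : PT := (PT.nd (nat_lit 36114) (PT.nd (nat_lit 35334) (PT.nd (nat_lit 312) (PT.nd (nat_lit 156) (PT.nd (nat_lit 78) (PT.lf (nat_lit 3344) (nat_lit 6) (nat_lit 44) (nat_lit 2) (nat_lit 125) (nat_lit 129) (nat_lit 106)) (PT.lf (nat_lit 3116) (nat_lit 6) (nat_lit 41) (nat_lit 2) (nat_lit 126) (nat_lit 129) (nat_lit 105))) (PT.nd (nat_lit 78) (PT.lf (nat_lit 2888) (nat_lit 6) (nat_lit 38) (nat_lit 2) (nat_lit 127) (nat_lit 129) (nat_lit 104)) (PT.lf (nat_lit 2660) (nat_lit 6) (nat_lit 35) (nat_lit 2) (nat_lit 128) (nat_lit 129) (nat_lit 103)))) (PT.nd (nat_lit 156) (PT.nd (nat_lit 78) (PT.lf (nat_lit 2432) (nat_lit 3) (nat_lit 32) (nat_lit 0) (nat_lit 129) (nat_lit 129) (nat_lit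 102)) (PT.lf (nat_lit 2204) (nat_lit 6) (nat_lit 29) (nat_lit 0) (nat_lit 130) (nat_lit 129) (nat_lit 101))) (PT.nd (nat_lit 78) (PT.lf (nat_lit 1900) (nat_lit 6) (nat_lit 25) (nat_lit 0) (nat_lit 131) (nat_lit 129) (nat_lit 100)) (PT.nd (nat_lit 78) (PT.lf (nat_lit 1672) (nat_lit 6) (nat_lit 22) (nat_lit 0) (nat_lit 132) (nat_lit 129) (nat_lit 99)) (PT.lf (nat_lit 1444) (nat_lit 6) (nat_lit 19) (nat_lit 0) (nat_lit 133) (nat_lit 129) (nat_lit 98)))))) (PT.nd (nat_lit 390) (PT.nd (nat_lit 156) (PT.nd (nat_lit 78) (PT.lf (nat_lit 1292) (nat_lit 6) (nat_lit 17) (nat_lit 5) (nat_lit 97) (nat_lit 130) (nat_lit 133)) (PT.lf (nat_lit 1520) (nat_lit 6) (nat_lit 20) (nat_lit 5) (nat_lit 98) (nat_lit 130) (nat_lit 132))) (PT.nd (nat_lit 78) (PT.lf (nat_lit 1748) (nat_lit 6) (nat_lit 23) (nat_lit 5) (nat_lit 99) (nat_lit 130) (nat_lit 131)) (PT.nd (nat_lit 78) (PT.lf (nat_lit 1976) (nat_lit 3) (nat_lit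 26) (nat_lit 4) (nat_lit 100) (nat_lit 130) (nat_lit 130)) (PT.lf (nat_lit 2204) (nat_lit 6) (nat_lit 29) (nat_lit 4) (nat_lit 101) (nat_lit 130) (nat_lit 129))))) (PT.nd (nat_lit 156) (PT.nd (nat_lit 78) (PT.lf (nat_lit 2356) (nat_lit 6) (nat_lit 31) (nat_lit 4) (nat_lit 102) (nat_lit 130) (nat_lit 128)) (PT.lf (nat_lit 2584) (nat_lit 6) (nat_lit 34) (nat_lit 4) (nat_lit 103) (nat_lit 130) (nat_lit 127))) (PT.nd (nat_lit 78) (PT.lf (nat_lit 2812) (nat_lit 6) (nat_lit 37) (nat_lit 4) (nat_lit 104) (nat_lit 130) (nat_lit 126)) (PT.nd (nat_lit 78) (PT.lf (nat_lit 3040) (nat_lit 6) (nat_lit 40) (nat_lit 4) (nat_lit 105) (nat_lit 130) (nat_lit 125)) (PT.lf (nat_lit 3268) (nat_lit 6) (nat_lit 43) (nat_lit 4) (nat_lit 106) (nat_lit 130) (nat_lit 124))))))) (PT.nd (nat_lit 1794) (PT.nd (nat_lit 1404) (PT.nd (nat_lit 1170) (PT.nd (nat_lit 78) (PT.lf (nat_lit 3572) (nat_lit 6) (nat_lit 47) (nat_lit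 4) (nat_lit 107) (nat_lit 130) (nat_lit 123)) (PT.lf (nat_lit 3876) (nat_lit 6) (nat_lit 51) (nat_lit 4) (nat_lit 108) (nat_lit 130) (nat_lit 122))) (PT.nd (nat_lit 78) (PT.lf (nat_lit 3876) (nat_lit 6) (nat_lit 51) (nat_lit 2) (nat_lit 122) (nat_lit 130) (nat_lit 108)) (PT.nd (nat_lit 78) (PT.lf (nat_lit 3572) (nat_lit 6) (nat_lit 47) (nat_lit 2) (nat_lit 123) (nat_lit 130) (nat_lit 107)) (PT.lf (nat_lit 3268) (nat_lit 6) (nat_lit 43) (nat_lit 2) (nat_lit 124) (nat_lit 130) (nat_lit 106))))) (PT.nd (nat_lit 156) (PT.nd (nat_lit 78) (PT.lf (nat_lit 3040) (nat_lit 6) (nat_lit 40) (nat_lit 2) (nat_lit 125) (nat_lit 130) (nat_lit 105)) (PT.lf (nat_lit 2812) (nat_lit 6) (nat_lit 37) (nat_lit 2) (nat_lit 126) (nat_lit 130) (nat_lit 104))) (PT.nd (nat_lit 78) (PT.lf (nat_lit 2584) (nat_lit 6) (nat_lit 34) (nat_lit 2) (nat_lit 127) (nat_lit 130) (nat_lit 103)) (PT.nd (nat_lit 78) (PT.lf (nat_lit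 2356) (nat_lit 6) (nat_lit 31) (nat_lit 2) (nat_lit 128) (nat_lit 130) (nat_lit 102)) (PT.lf (nat_lit 2204) (nat_lit 6) (nat_lit 29) (nat_lit 2) (nat_lit 129) (nat_lit 130) (nat_lit 101)))))) (PT.nd (nat_lit 34866) (PT.nd (nat_lit 156) (PT.nd (nat_lit 78) (PT.lf (nat_lit 1976) (nat_lit 3) (nat_lit 26) (nat_lit 0) (nat_lit 130) (nat_lit 130) (nat_lit 100)) (PT.lf (nat_lit 1748) (nat_lit 6) (nat_lit 23) (nat_lit 0) (nat_lit 131) (nat_lit 130) (nat_lit 99))) (PT.nd (nat_lit 78) (PT.lf (nat_lit 1520) (nat_lit 6) (nat_lit 20) (nat_lit 0) (nat_lit 132) (nat_lit 130) (nat_lit 98)) (PT.nd (nat_lit 34554) (PT.lf (nat_lit 1292) (nat_lit 6) (nat_lit 17) (nat_lit 0) (nat_lit 133) (nat_lit 130) (nat_lit 97)) (PT.lf (nat_lit 988) (nat_lit 6) (nat_lit 13) (nat_lit 5) (nat_lit 95) (nat_lit 131) (nat_lit 134))))) (PT.nd (nat_lit 156) (PT.nd (nat_lit 78) (PT.lf (nat_lit 1140) (nat_lit 6) (nat_lit 15) (nat_lit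 5) (nat_lit 96) (nat_lit 131) (nat_lit 133)) (PT.lf (nat_lit 1368) (nat_lit 6) (nat_lit 18) (nat_lit 5) (nat_lit 97) (nat_lit 131) (nat_lit 132))) (PT.nd (nat_lit 78) (PT.lf (nat_lit 1596) (nat_lit 3) (nat_lit 21) (nat_lit 4) (nat_lit 98) (nat_lit 131) (nat_lit 131)) (PT.nd (nat_lit 78) (PT.lf (nat_lit 1748) (nat_lit 6) (nat_lit 23) (nat_lit 4) (nat_lit 99) (nat_lit 131) (nat_lit 130)) (PT.lf (nat_lit 1900) (nat_lit 6) (nat_lit 25) (nat_lit 4) (nat_lit 100) (nat_lit 131) (nat_lit 129))))))))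
noncomputable def pc14 : PT := (PT.nd (nat_lit 37362) (PT.nd (nat_lit 2262) (PT.nd (nat_lit 1872) (PT.nd (nat_lit 156) (PT.nd (nat_lit 78) (PT.lf (nat_lit 2128) (nat_lit 6) (nat_lit 28) (nat_lit 4) (nat_lit 101) (nat_lit 131) (nat_lit 128)) (PT.lf (nat_lit 2280) (nat_lit 6) (nat_lit 30) (nat_lit 4) (nat_lit 102) (nat_lit 131) (nat_lit 127))) (PT.nd (nat_lit 78) (PT.lf (nat_lit 2508) (nat_lit 6) (nat_lit 33) (nat_lit 4) (nat_lit 103) (nat_lit 131) (nat_lit 126)) (PT.lf (nat_lit 2736) (nat_lit 6) (nat_lit 36) (nat_lit 4) (nat_lit 104) (nat_lit 131) (nat_lit 125)))) (PT.nd (nat_lit 156) (PT.nd (nat_lit 78) (PT.lf (nat_lit 2736) (nat_lit 6) (nat_lit 36) (nat_lit 2) (nat_lit 125) (nat_lit 131) (nat_lit 104)) (PT.lf (nat_lit 2508) (nat_lit 6) (nat_lit 33) (nat_lit 2) (nat_lit 126) (nat_lit 131) (nat_lit 103))) (PT.nd (nat_lit 78) (PT.lf (nat_lit 2280) (nat_lit 6) (nat_lit 30) (nat_lit 2) (nat_lit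 127) (nat_lit 131) (nat_lit 102)) (PT.nd (nat_lit 78) (PT.lf (nat_lit 2128) (nat_lit 6) (nat_lit 28) (nat_lit 2) (nat_lit 128) (nat_lit 131) (nat_lit 101)) (PT.lf (nat_lit 1900) (nat_lit 6) (nat_lit 25) (nat_lit 2) (nat_lit 129) (nat_lit 131) (nat_lit 100)))))) (PT.nd (nat_lit 34710) (PT.nd (nat_lit 156) (PT.nd (nat_lit 78) (PT.lf (nat_lit 1748) (nat_lit 6) (nat_lit 23) (nat_lit 2) (nat_lit 130) (nat_lit 131) (nat_lit 99)) (PT.lf (nat_lit 1596) (nat_lit 3) (nat_lit 21) (nat_lit 0) (nat_lit 131) (nat_lit 131) (nat_lit 98))) (PT.nd (nat_lit 78) (PT.lf (nat_lit 1368) (nat_lit 6) (nat_lit 18) (nat_lit 0) (nat_lit 132) (nat_lit 131) (nat_lit 97)) (PT.nd (nat_lit 78) (PT.lf (nat_lit 1140) (nat_lit 6) (nat_lit 15) (nat_lit 0) (nat_lit 133) (nat_lit 131) (nat_lit 96)) (PT.lf (nat_lit 988) (nat_lit 6) (nat_lit 13) (nat_lit 0) (nat_lit 134) (nat_lit 131) (nat_lit 95))))) (PT.nd (nat_lit 156) (PT.nd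 (nat_lit 78) (PT.lf (nat_lit 836) (nat_lit 6) (nat_lit 11) (nat_lit 5) (nat_lit 94) (nat_lit 132) (nat_lit 134)) (PT.lf (nat_lit 1064) (nat_lit 6) (nat_lit 14) (nat_lit 5) (nat_lit 95) (nat_lit 132) (nat_lit 133))) (PT.nd (nat_lit 78) (PT.lf (nat_lit 1216) (nat_lit 3) (nat_lit 16) (nat_lit 4) (nat_lit 96) (nat_lit 132) (nat_lit 132)) (PT.nd (nat_lit 78) (PT.lf (nat_lit 1368) (nat_lit 6) (nat_lit 18) (nat_lit 4) (nat_lit 97) (nat_lit 132) (nat_lit 131)) (PT.lf (nat_lit 1520) (nat_lit 6) (nat_lit 20) (nat_lit 4) (nat_lit 98) (nat_lit 132) (nat_lit 130))))))) (PT.nd (nat_lit 2730) (PT.nd (nat_lit 2340) (PT.nd (nat_lit 156) (PT.nd (nat_lit 78) (PT.lf (nat_lit 1672) (nat_lit 6) (nat_lit 22) (nat_lit 4) (nat_lit 99) (nat_lit 132) (nat_lit 129)) (PT.lf (nat_lit 1824) (nat_lit 6) (nat_lit 24) (nat_lit 4) (nat_lit 100) (nat_lit 132) (nat_lit 128))) (PT.nd (nat_lit 2028) (PT.lf (nat_lit 2052) (nat_lit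 6) (nat_lit 27) (nat_lit 4) (nat_lit 101) (nat_lit 132) (nat_lit 127)) (PT.nd (nat_lit 78) (PT.lf (nat_lit 2052) (nat_lit 6) (nat_lit 27) (nat_lit 2) (nat_lit 127) (nat_lit 132) (nat_lit 101)) (PT.lf (nat_lit 1824) (nat_lit 6) (nat_lit 24) (nat_lit 2) (nat_lit 128) (nat_lit 132) (nat_lit 100))))) (PT.nd (nat_lit 156) (PT.nd (nat_lit 78) (PT.lf (nat_lit 1672) (nat_lit 6) (nat_lit 22) (nat_lit 2) (nat_lit 129) (nat_lit 132) (nat_lit 99)) (PT.lf (nat_lit 1520) (nat_lit 6) (nat_lit 20) (nat_lit 2) (nat_lit 130) (nat_lit 132) (nat_lit 98))) (PT.nd (nat_lit 78) (PT.lf (nat_lit 1368) (nat_lit 6) (nat_lit 18) (nat_lit 2) (nat_lit 131) (nat_lit 132) (nat_lit 97)) (PT.nd (nat_lit 78) (PT.lf (nat_lit 1216) (nat_lit 3) (nat_lit 16) (nat_lit 0) (nat_lit 132) (nat_lit 132) (nat_lit 96)) (PT.lf (nat_lit 1064) (nat_lit 6) (nat_lit 14) (nat_lit 0) (nat_lit 133) (nat_lit 132) (nat_lit 95)))))) (PT.nd (nat_lit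 34554) (PT.nd (nat_lit 34320) (PT.nd (nat_lit 34242) (PT.lf (nat_lit 836) (nat_lit 6) (nat_lit 11) (nat_lit 0) (nat_lit 134) (nat_lit 132) (nat_lit 94)) (PT.lf (nat_lit 608) (nat_lit 6) (nat_lit 8) (nat_lit 5) (nat_lit 92) (nat_lit 133) (nat_lit 135))) (PT.nd (nat_lit 78) (PT.lf (nat_lit 760) (nat_lit 6) (nat_lit 10) (nat_lit 5) (nat_lit 93) (nat_lit 133) (nat_lit 134)) (PT.nd (nat_lit 78) (PT.lf (nat_lit 912) (nat_lit 3) (nat_lit 12) (nat_lit 4) (nat_lit 94) (nat_lit 133) (nat_lit 133)) (PT.lf (nat_lit 1064) (nat_lit 6) (nat_lit 14) (nat_lit 4) (nat_lit 95) (nat_lit 133) (nat_lit 132))))) (PT.nd (nat_lit 156) (PT.nd (nat_lit 78) (PT.lf (nat_lit 1140) (nat_lit 6) (nat_lit 15) (nat_lit 4) (nat_lit 96) (nat_lit 133) (nat_lit 131)) (PT.lf (nat_lit 1292) (nat_lit 6) (nat_lit 17) (nat_lit 4) (nat_lit 97) (nat_lit 133) (nat_lit 130))) (PT.nd (nat_lit 2418) (PT.lf (nat_lit 1444) (nat_lit 6) (nat_lit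 19) (nat_lit 4) (nat_lit 98) (nat_lit 133) (nat_lit 129)) (PT.nd (nat_lit 78) (PT.lf (nat_lit 1444) (nat_lit 6) (nat_lit 19) (nat_lit 2) (nat_lit 129) (nat_lit 133) (nat_lit 98)) (PT.lf (nat_lit 1292) (nat_lit 6) (nat_lit 17) (nat_lit 2) (nat_lit 130) (nat_lit 133) (nat_lit 97))))))))
noncomputable def pc15 : PT := (PT.nd (nat_lit 71838) (PT.nd (nat_lit 34632) (PT.nd (nat_lit 312) (PT.nd (nat_lit 156) (PT.nd (nat_lit 78) (PT.lf (nat_lit 1140) (nat_lit 6) (nat_lit 15) (nat_lit 2) (nat_lit 131) (nat_lit 133) (nat_lit 96)) (PT.lf (nat_lit 1064) (nat_lit 6) (nat_lit 14) (nat_lit 2) (nat_lit 132) (nat_lit 133) (nat_lit 95))) (PT.nd (nat_lit 78) (PT.lf (nat_lit 912) (nat_lit 3) (nat_lit 12) (nat_lit 0) (nat_lit 133) (nat_lit 133) (nat_lit 94)) (PT.lf (nat_lit 760) (nat_lit 6) (nat_lit 10) (nat_lit 0) (nat_lit 134) (nat_lit 133) (nat_lit 93)))) (PT.nd (nat_lit 34086) (PT.nd (nat_lit 34008) (PT.lf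 (nat_lit 608) (nat_lit 6) (nat_lit 8) (nat_lit 0) (nat_lit 135) (nat_lit 133) (nat_lit 92)) (PT.lf (nat_lit 380) (nat_lit 6) (nat_lit 5) (nat_lit 5) (nat_lit 90) (nat_lit 134) (nat_lit 136))) (PT.nd (nat_lit 78) (PT.lf (nat_lit 532) (nat_lit 6) (nat_lit 7) (nat_lit 5) (nat_lit 91) (nat_lit 134) (nat_lit 135)) (PT.nd (nat_lit 78) (PT.lf (nat_lit 684) (nat_lit 3) (nat_lit 9) (nat_lit 4) (nat_lit 92) (nat_lit 134) (nat_lit 134)) (PT.lf (nat_lit 760) (nat_lit 6) (nat_lit 10) (nat_lit 4) (nat_lit 93) (nat_lit 134) (nat_lit 133)))))) (PT.nd (nat_lit 3120) (PT.nd (nat_lit 2886) (PT.nd (nat_lit 78) (PT.lf (nat_lit 836) (nat_lit 6) (nat_lit 11) (nat_lit 4) (nat_lit 94) (nat_lit 134) (nat_lit 132)) (PT.lf (nat_lit 988) (nat_lit 6) (nat_lit 13) (nat_lit 4) (nat_lit 95) (nat_lit 134) (nat_lit 131))) (PT.nd (nat_lit 78) (PT.lf (nat_lit 988) (nat_lit 6) (nat_lit 13) (nat_lit 2) (nat_lit 131) (nat_lit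 134) (nat_lit 95)) (PT.nd (nat_lit 78) (PT.lf (nat_lit 836) (nat_lit 6) (nat_lit 11) (nat_lit 2) (nat_lit 132) (nat_lit 134) (nat_lit 94)) (PT.lf (nat_lit 760) (nat_lit 6) (nat_lit 10) (nat_lit 2) (nat_lit 133) (nat_lit 134) (nat_lit 93))))) (PT.nd (nat_lit 156) (PT.nd (nat_lit 78) (PT.lf (nat_lit 684) (nat_lit 3) (nat_lit 9) (nat_lit 0) (nat_lit 134) (nat_lit 134) (nat_lit 92)) (PT.lf (nat_lit 532) (nat_lit 6) (nat_lit 7) (nat_lit 0) (nat_lit 135) (nat_lit 134) (nat_lit 91))) (PT.nd (nat_lit 33774) (PT.lf (nat_lit 380) (nat_lit 6) (nat_lit 5) (nat_lit 0) (nat_lit 136) (nat_lit 134) (nat_lit 90)) (PT.nd (nat_lit 78) (PT.lf (nat_lit 152) (nat_lit 6) (nat_lit 2) (nat_lit 5) (nat_lit 88) (nat_lit 135) (nat_lit 137)) (PT.lf (nat_lit 304) (nat_lit 6) (nat_lit 4) (nat_lit 5) (nat_lit 89) (nat_lit 135) (nat_lit 136))))))) (PT.nd (nat_lit 37440) (PT.nd (nat_lit 3510) (PT.nd (nat_lit 156) (PT.nd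 (nat_lit 78) (PT.lf (nat_lit 456) (nat_lit 3) (nat_lit 6) (nat_lit 4) (nat_lit 90) (nat_lit 135) (nat_lit 135)) (PT.lf (nat_lit 532) (nat_lit 6) (nat_lit 7) (nat_lit 4) (nat_lit 91) (nat_lit 135) (nat_lit 134))) (PT.nd (nat_lit 3198) (PT.lf (nat_lit 608) (nat_lit 6) (nat_lit 8) (nat_lit 4) (nat_lit 92) (nat_lit 135) (nat_lit 133)) (PT.nd (nat_lit 78) (PT.lf (nat_lit 608) (nat_lit 6) (nat_lit 8) (nat_lit 2) (nat_lit 133) (nat_lit 135) (nat_lit 92)) (PT.lf (nat_lit 532) (nat_lit 6) (nat_lit 7) (nat_lit 2) (nat_lit 134) (nat_lit 135) (nat_lit 91))))) (PT.nd (nat_lit 156) (PT.nd (nat_lit 78) (PT.lf (nat_lit 456) (nat_lit 3) (nat_lit 6) (nat_lit 0) (nat_lit 135) (nat_lit 135) (nat_lit 90)) (PT.lf (nat_lit 304) (nat_lit 6) (nat_lit 4) (nat_lit 0) (nat_lit 136) (nat_lit 135) (nat_lit 89))) (PT.nd (nat_lit 33618) (PT.lf (nat_lit 152) (nat_lit 6) (nat_lit 2) (nat_lit 0) (nat_lit 137) (nat_lit 135)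 (nat_lit 88)) (PT.nd (nat_lit 78) (PT.lf (nat_lit 76) (nat_lit 6) (nat_lit 1) (nat_lit 5) (nat_lit 87) (nat_lit 136) (nat_lit 137)) (PT.lf (nat_lit 228) (nat_lit 3) (nat_lit 3) (nat_lit 4) (nat_lit 88) (nat_lit 136) (nat_lit 136)))))) (PT.nd (nat_lit 3744) (PT.nd (nat_lit 3510) (PT.nd (nat_lit 78) (PT.lf (nat_lit 304) (nat_lit 6) (nat_lit 4) (nat_lit 4) (nat_lit 89) (nat_lit 136) (nat_lit 135)) (PT.lf (nat_lit 380) (nat_lit 6) (nat_lit 5) (nat_lit 4) (nat_lit 90) (nat_lit 136) (nat_lit 134))) (PT.nd (nat_lit 78) (PT.lf (nat_lit 380) (nat_lit 6) (nat_lit 5) (nat_lit 2) (nat_lit 134) (nat_lit 136) (nat_lit 90)) (PT.nd (nat_lit 78) (PT.lf (nat_lit 304) (nat_lit 6) (nat_lit 4) (nat_lit 2) (nat_lit 135) (nat_lit 136) (nat_lit 89)) (PT.lf (nat_lit 228) (nat_lit 3) (nat_lit 3) (nat_lit 0) (nat_lit 136) (nat_lit 136) (nat_lit 88))))) (PT.nd (nat_lit 33696) (PT.nd (nat_lit 33618) (PT.lf (nat_lit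 76) (nat_lit 6) (nat_lit 1) (nat_lit 0) (nat_lit 137) (nat_lit 136) (nat_lit 87)) (PT.lf (nat_lit 76) (nat_lit 6) (nat_lit 1) (nat_lit 4) (nat_lit 87) (nat_lit 137) (nat_lit 136))) (PT.nd (nat_lit 3666) (PT.lf (nat_lit 152) (nat_lit 6) (nat_lit 2) (nat_lit 4) (nat_lit 88) (nat_lit 137) (nat_lit 135)) (PT.nd (nat_lit 78) (PT.lf (nat_lit 152) (nat_lit 6) (nat_lit 2) (nat_lit 2) (nat_lit 135) (nat_lit 137) (nat_lit 88)) (PT.lf (nat_lit 76) (nat_lit 6) (nat_lit 1) (nat_lit 2) (nat_lit 136) (nat_lit 137) (nat_lit 87))))))))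
noncomputable def xc0 : XT := (XT.nd (nat_lit 112554) (nat_lit 0) (nat_lit 0) (XT.nd (nat_lit 74880) (nat_lit 0) (nat_lit 0) (XT.nd (nat_lit 37518) (nat_lit 0) (nat_lit 0) (XT.nd (nat_lit 156) (nat_lit 0) (nat_lit 0) (XT.nd (nat_lit 78) (nat_lit 0) (nat_lit 0) (XT.lf (nat_lit 0) (nat_lit 9521720779) (nat_lit 76) (nat_lit 23605233866) (nat_lit 76) (nat_lit 23605233866) (nat_lit 1) (nat_lit 4) (nat_lit 2) (nat_lit 5) (nat_lit 2) (nat_lit 4) (nat_lit 330) (nat_lit 195) (nat_lit 195)) (XT.lf (nat_lit 0) (nat_lit 25228504953) (nat_lit 76) (nat_lit 47024089154) (nat_lit 76) (nat_lit 46795047749) (nat_lit 1) (nat_lit 4) (nat_lit 2) (nat_lit 5) (nat_lit 2) (nat_lit 4) (nat_lit 331) (nat_lit 195) (nat_lit 194))) (XT.nd (nat_lit 37206) (nat_lit 0) (nat_lit 0) (XT.lf (nat_lit 0) (nat_lit 31558037688) (nat_lit 76) (nat_lit 46901020487) (nat_lit 76) (nat_lit 46453844409) (nat_lit 1) (nat_lit 4) (nat_lit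 2) (nat_lit 5) (nat_lit 2) (nat_lit 4) (nat_lit 332) (nat_lit 195) (nat_lit 193)) (XT.nd (nat_lit 78) (nat_lit 0) (nat_lit 0) (XT.lf (nat_lit 0) (nat_lit 3568373945) (nat_lit 76) (nat_lit 23988257388) (nat_lit 76) (nat_lit 23988257388) (nat_lit 1) (nat_lit 4) (nat_lit 2) (nat_lit 5) (nat_lit 2) (nat_lit 4) (nat_lit 328) (nat_lit 196) (nat_lit 196)) (XT.lf (nat_lit 0) (nat_lit 12988121166) (nat_lit 76) (nat_lit 47701093453) (nat_lit 76) (nat_lit 47460599978) (nat_lit 1) (nat_lit 4) (nat_lit 2) (nat_lit 5) (nat_lit 2) (nat_lit 4) (nat_lit 329) (nat_lit 196) (nat_lit 195))))) (XT.nd (nat_lit 156) (nat_lit 0) (nat_lit 0) (XT.nd (nat_lit 78) (nat_lit 0) (nat_lit 0) (XT.lf (nat_lit 0) (nat_lit 18959040086) (nat_lit 76) (nat_lit 47488161344) (nat_lit 76) (nat_lit 47018626463) (nat_lit 1) (nat_lit 4) (nat_lit 2) (nat_lit 5) (nat_lit 2) (nat_lit 4) (nat_lit 330) (nat_lit 196) (nat_lit 194)) (XT.lf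 (nat_lit 0) (nat_lit 25063721125) (nat_lit 76) (nat_lit 47337211469) (nat_lit 76) (nat_lit 46649541916) (nat_lit 1) (nat_lit 4) (nat_lit 2) (nat_lit 5) (nat_lit 2) (nat_lit 4) (nat_lit 331) (nat_lit 196) (nat_lit 193))) (XT.nd (nat_lit 37050) (nat_lit 0) (nat_lit 0) (XT.lf (nat_lit 0) (nat_lit 31316699236) (nat_lit 76) (nat_lit 47247884422) (nat_lit 76) (nat_lit 46352467562) (nat_lit 1) (nat_lit 4) (nat_lit 2) (nat_lit 5) (nat_lit 2) (nat_lit 4) (nat_lit 332) (nat_lit 196) (nat_lit 192)) (XT.nd (nat_lit 78) (nat_lit 76) (nat_lit 0) (XT.lf (nat_lit 0) (nat_lit 22399700494) (nat_lit 152) (nat_lit 2044208741) (nat_lit 0) (nat_lit 22399700494) (nat_lit 2) (nat_lit 5) (nat_lit 4) (nat_lit 4) (nat_lit 2) (nat_lit 4) (nat_lit 326) (nat_lit 197) (nat_lit 197)) (XT.lf (nat_lit 0) (nat_lit 1390988418) (nat_lit 76) (nat_lit 48567599229) (nat_lit 76) (nat_lit 48315081080) (nat_lit 1) (nat_lit 4) (nat_lit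 2) (nat_lit 5) (nat_lit 2) (nat_lit 4) (nat_lit 327) (nat_lit 197) (nat_lit 196)))))) (XT.nd (nat_lit 37206) (nat_lit 0) (nat_lit 0) (XT.nd (nat_lit 156) (nat_lit 0) (nat_lit 0) (XT.nd (nat_lit 78) (nat_lit 0) (nat_lit 0) (XT.lf (nat_lit 0) (nat_lit 7048126344) (nat_lit 76) (nat_lit 48268093070) (nat_lit 76) (nat_lit 47775081445) (nat_lit 1) (nat_lit 4) (nat_lit 2) (nat_lit 5) (nat_lit 2) (nat_lit 4) (nat_lit 328) (nat_lit 197) (nat_lit 195)) (XT.lf (nat_lit 0) (nat_lit 12815098147) (nat_lit 76) (nat_lit 48029871883) (nat_lit 76) (nat_lit 47307818853) (nat_lit 1) (nat_lit 4) (nat_lit 2) (nat_lit 5) (nat_lit 2) (nat_lit 4) (nat_lit 329) (nat_lit 197) (nat_lit 194))) (XT.nd (nat_lit 78) (nat_lit 0) (nat_lit 0) (XT.lf (nat_lit 0) (nat_lit 18705634712) (nat_lit 76) (nat_lit 47852368476) (nat_lit 76) (nat_lit 46912180774) (nat_lit 1) (nat_lit 4) (nat_lit 2) (nat_lit 5) (nat_lit 2) (nat_lit 4)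 (nat_lit 330) (nat_lit 197) (nat_lit 193)) (XT.nd (nat_lit 78) (nat_lit 0) (nat_lit 0) (XT.lf (nat_lit 0) (nat_lit 24733761127) (nat_lit 76) (nat_lit 47735160221) (nat_lit 76) (nat_lit 46587225213) (nat_lit 1) (nat_lit 4) (nat_lit 2) (nat_lit 5) (nat_lit 2) (nat_lit 4) (nat_lit 331) (nat_lit 197) (nat_lit 192)) (XT.lf (nat_lit 0) (nat_lit 30913830072) (nat_lit 76) (nat_lit 47677968052) (nat_lit 76) (nat_lit 46332178465) (nat_lit 1) (nat_lit 4) (nat_lit 2) (nat_lit 5) (nat_lit 2) (nat_lit 4) (nat_lit 332) (nat_lit 197) (nat_lit 191))))) (XT.nd (nat_lit 234) (nat_lit 76) (nat_lit 0) (XT.nd (nat_lit 78) (nat_lit 0) (nat_lit 0) (XT.lf (nat_lit 0) (nat_lit 17625131375) (nat_lit 152) (nat_lit 7332712115) (nat_lit 0) (nat_lit 17625131375) (nat_lit 2) (nat_lit 5) (nat_lit 4) (nat_lit 4) (nat_lit 2) (nat_lit 4) (nat_lit 324) (nat_lit 198) (nat_lit 198)) (XT.nd (nat_lit 78) (nat_lit 0) (nat_lit 0)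 (XT.lf (nat_lit 0) (nat_lit 40063913746) (nat_lit 152) (nat_lit 9459177683) (nat_lit 0) (nat_lit 39798769689) (nat_lit 2) (nat_lit 5) (nat_lit 4) (nat_lit 4) (nat_lit 2) (nat_lit 4) (nat_lit 325) (nat_lit 198) (nat_lit 197)) (XT.lf (nat_lit 0) (nat_lit 45013400052) (nat_lit 152) (nat_lit 4179654313) (nat_lit 0) (nat_lit 44495737845) (nat_lit 2) (nat_lit 5) (nat_lit 4) (nat_lit 4) (nat_lit 2) (nat_lit 4) (nat_lit 326) (nat_lit 198) (nat_lit 196)))) (XT.nd (nat_lit 78) (nat_lit 0) (nat_lit 0) (XT.lf (nat_lit 0) (nat_lit 1209314248) (nat_lit 76) (nat_lit 48912816581) (nat_lit 76) (nat_lit 48154660899) (nat_lit 1) (nat_lit 4) (nat_lit 2) (nat_lit 5) (nat_lit 2) (nat_lit 4) (nat_lit 327) (nat_lit 198) (nat_lit 195)) (XT.nd (nat_lit 78) (nat_lit 0) (nat_lit 0) (XT.lf (nat_lit 0) (nat_lit 6782050701) (nat_lit 76) (nat_lit 48650510558) (nat_lit 76) (nat_lit 47663313471) (nat_lit 1) (nat_lit 4) (nat_lit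 2) (nat_lit 5) (nat_lit 2) (nat_lit 4) (nat_lit 328) (nat_lit 198) (nat_lit 194)) (XT.lf (nat_lit 0) (nat_lit 12468640149) (nat_lit 76) (nat_lit 48447718074) (nat_lit 76) (nat_lit 47242386314) (nat_lit 1) (nat_lit 4) (nat_lit 2) (nat_lit 5) (nat_lit 2) (nat_lit 4) (nat_lit 329) (nat_lit 198) (nat_lit 193))))))) (XT.nd (nat_lit 37440) (nat_lit 0) (nat_lit 0) (XT.nd (nat_lit 37050) (nat_lit 0) (nat_lit 0) (XT.nd (nat_lit 156) (nat_lit 0) (nat_lit 0) (XT.nd (nat_lit 78) (nat_lit 0) (nat_lit 0) (XT.lf (nat_lit 0) (nat_lit 18282622090) (nat_lit 76) (nat_lit 48303956287) (nat_lit 76) (nat_lit 46890877222) (nat_lit 1) (nat_lit 4) (nat_lit 2) (nat_lit 5) (nat_lit 2) (nat_lit 4) (nat_lit 330) (nat_lit 198) (nat_lit 192)) (XT.lf (nat_lit 0) (nat_lit 24237839339) (nat_lit 76) (nat_lit 48218882909) (nat_lit 76) (nat_lit 46607949266) (nat_lit 1) (nat_lit 4) (nat_lit 2) (nat_lit 5) (nat_lit 2) (nat_lit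 4) (nat_lit 331) (nat_lit 198) (nat_lit 191))) (XT.nd (nat_lit 36738) (nat_lit 0) (nat_lit 76) (XT.lf (nat_lit 0) (nat_lit 30348470984) (nat_lit 76) (nat_lit 48192295384) (nat_lit 76) (nat_lit 46392928810) (nat_lit 1) (nat_lit 4) (nat_lit 2) (nat_lit 5) (nat_lit 2) (nat_lit 4) (nat_lit 332) (nat_lit 198) (nat_lit 190)) (XT.nd (nat_lit 78) (nat_lit 0) (nat_lit 0) (XT.lf (nat_lit 0) (nat_lit 13159853574) (nat_lit 152) (nat_lit 12403468300) (nat_lit 0) (nat_lit 13159853574) (nat_lit 2) (nat_lit 5) (nat_lit 4) (nat_lit 4) (nat_lit 2) (nat_lit 4) (nat_lit 322) (nat_lit 199) (nat_lit 199)) (XT.lf (nat_lit 0) (nat_lit 30839387255) (nat_lit 152) (nat_lit 19810789782) (nat_lit 0) (nat_lit 30560985995) (nat_lit 2) (nat_lit 5) (nat_lit 4) (nat_lit 4) (nat_lit 2) (nat_lit 4) (nat_lit 323) (nat_lit 199) (nat_lit 198))))) (XT.nd (nat_lit 156) (nat_lit 76) (nat_lit 0) (XT.nd (nat_lit 78) (nat_lit 0) (nat_lit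 0) (XT.lf (nat_lit 0) (nat_lit 35474961767) (nat_lit 152) (nat_lit 14761222905) (nat_lit 0) (nat_lit 34931416451) (nat_lit 2) (nat_lit 5) (nat_lit 4) (nat_lit 4) (nat_lit 2) (nat_lit 4) (nat_lit 324) (nat_lit 199) (nat_lit 197)) (XT.lf (nat_lit 0) (nat_lit 40237467767) (nat_lit 152) (nat_lit 9646213189) (nat_lit 0) (nat_lit 39441404301) (nat_lit 2) (nat_lit 5) (nat_lit 4) (nat_lit 4) (nat_lit 2) (nat_lit 4) (nat_lit 325) (nat_lit 199) (nat_lit 196))) (XT.nd (nat_lit 78) (nat_lit 76) (nat_lit 0) (XT.lf (nat_lit 0) (nat_lit 45138244555) (nat_lit 152) (nat_lit 4453582040) (nat_lit 0) (nat_lit 44101687613) (nat_lit 2) (nat_lit 5) (nat_lit 4) (nat_lit 4) (nat_lit 2) (nat_lit 4) (nat_lit 326) (nat_lit 199) (nat_lit 195)) (XT.nd (nat_lit 78) (nat_lit 0) (nat_lit 0) (XT.lf (nat_lit 0) (nat_lit 845533350) (nat_lit 76) (nat_lit 49351555081) (nat_lit 76) (nat_lit 48085956733) (nat_lit 1) (nat_lit 4)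 (nat_lit 2) (nat_lit 5) (nat_lit 2) (nat_lit 4) (nat_lit 327) (nat_lit 199) (nat_lit 194)) (XT.lf (nat_lit 0) (nat_lit 6337887448) (nat_lit 76) (nat_lit 49124677760) (nat_lit 76) (nat_lit 47640944741) (nat_lit 1) (nat_lit 4) (nat_lit 2) (nat_lit 5) (nat_lit 2) (nat_lit 4) (nat_lit 328) (nat_lit 199) (nat_lit 193)))))) (XT.nd (nat_lit 36894) (nat_lit 0) (nat_lit 76) (XT.nd (nat_lit 156) (nat_lit 0) (nat_lit 0) (XT.nd (nat_lit 78) (nat_lit 0) (nat_lit 0) (XT.lf (nat_lit 0) (nat_lit 11947922272) (nat_lit 76) (nat_lit 48955626896) (nat_lit 76) (nat_lit 47264146571) (nat_lit 1) (nat_lit 4) (nat_lit 2) (nat_lit 5) (nat_lit 2) (nat_lit 4) (nat_lit 329) (nat_lit 199) (nat_lit 192)) (XT.lf (nat_lit 0) (nat_lit 17688995047) (nat_lit 76) (nat_lit 48843999987) (nat_lit 76) (nat_lit 46954665084) (nat_lit 1) (nat_lit 4) (nat_lit 2) (nat_lit 5) (nat_lit 2) (nat_lit 4) (nat_lit 330) (nat_lit 199) (nat_lit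 191))) (XT.nd (nat_lit 78) (nat_lit 0) (nat_lit 0) (XT.lf (nat_lit 0) (nat_lit 23574774996) (nat_lit 76) (nat_lit 48789531254) (nat_lit 76) (nat_lit 46711763419) (nat_lit 1) (nat_lit 4) (nat_lit 2) (nat_lit 5) (nat_lit 2) (nat_lit 4) (nat_lit 331) (nat_lit 199) (nat_lit 190)) (XT.nd (nat_lit 36582) (nat_lit 0) (nat_lit 76) (XT.lf (nat_lit 0) (nat_lit 29619275878) (nat_lit 76) (nat_lit 48792091009) (nat_lit 76) (nat_lit 46534863240) (nat_lit 1) (nat_lit 4) (nat_lit 2) (nat_lit 5) (nat_lit 2) (nat_lit 4) (nat_lit 332) (nat_lit 199) (nat_lit 189)) (XT.lf (nat_lit 0) (nat_lit 8968381971) (nat_lit 152) (nat_lit 17290417750) (nat_lit 0) (nat_lit 8968381971) (nat_lit 2) (nat_lit 5) (nat_lit 4) (nat_lit 4) (nat_lit 2) (nat_lit 4) (nat_lit 320) (nat_lit 200) (nat_lit 200))))) (XT.nd (nat_lit 234) (nat_lit 0) (nat_lit 0) (XT.nd (nat_lit 78) (nat_lit 0) (nat_lit 0) (XT.lf (nat_lit 0) (nat_lit 22197481626)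 (nat_lit 152) (nat_lit 29761558945) (nat_lit 0) (nat_lit 21905160303) (nat_lit 2) (nat_lit 5) (nat_lit 4) (nat_lit 4) (nat_lit 2) (nat_lit 4) (nat_lit 321) (nat_lit 200) (nat_lit 199)) (XT.nd (nat_lit 78) (nat_lit 0) (nat_lit 0) (XT.lf (nat_lit 0) (nat_lit 26555641115) (nat_lit 152) (nat_lit 24907525207) (nat_lit 0) (nat_lit 25984918532) (nat_lit 2) (nat_lit 5) (nat_lit 4) (nat_lit 4) (nat_lit 2) (nat_lit 4) (nat_lit 322) (nat_lit 200) (nat_lit 198)) (XT.lf (nat_lit 0) (nat_lit 31021618978) (nat_lit 152) (nat_lit 20007177063) (nat_lit 0) (nat_lit 30185752338) (nat_lit 2) (nat_lit 5) (nat_lit 4) (nat_lit 4) (nat_lit 2) (nat_lit 4) (nat_lit 323) (nat_lit 200) (nat_lit 197)))) (XT.nd (nat_lit 78) (nat_lit 0) (nat_lit 0) (XT.lf (nat_lit 0) (nat_lit 35606048496) (nat_lit 152) (nat_lit 15048847017) (nat_lit 0) (nat_lit 34517663707) (nat_lit 2) (nat_lit 5) (nat_lit 4) (nat_lit 4) (nat_lit 2) (nat_lit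 4) (nat_lit 324) (nat_lit 200) (nat_lit 196)) (XT.nd (nat_lit 78) (nat_lit 0) (nat_lit 0) (XT.lf (nat_lit 0) (nat_lit 40319844978) (nat_lit 152) (nat_lit 10020729522) (nat_lit 0) (nat_lit 38990966713) (nat_lit 2) (nat_lit 5) (nat_lit 4) (nat_lit 4) (nat_lit 2) (nat_lit 4) (nat_lit 325) (nat_lit 200) (nat_lit 195)) (XT.lf (nat_lit 0) (nat_lit 45174231749) (nat_lit 152) (nat_lit 4910852870) (nat_lit 0) (nat_lit 43616312078) (nat_lit 2) (nat_lit 5) (nat_lit 4) (nat_lit 4) (nat_lit 2) (nat_lit 4) (nat_lit 326) (nat_lit 200) (nat_lit 194))))))))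
noncomputable def xc1 : XT := (XT.nd (nat_lit 74178) (nat_lit 0) (nat_lit 0) (XT.nd (nat_lit 37128) (nat_lit 0) (nat_lit 0) (XT.nd (nat_lit 390) (nat_lit 0) (nat_lit 0) (XT.nd (nat_lit 156) (nat_lit 0) (nat_lit 0) (XT.nd (nat_lit 78) (nat_lit 0) (nat_lit 0) (XT.lf (nat_lit 0) (nat_lit 298779579) (nat_lit 76) (nat_lit 49884859344) (nat_lit 76) (nat_lit 48108805002) (nat_lit 1) (nat_lit 4) (nat_lit 2) (nat_lit 5) (nat_lit 2) (nat_lit 4) (nat_lit 327) (nat_lit 200) (nat_lit 193)) (XT.lf (nat_lit 0) (nat_lit 5714579053) (nat_lit 76) (nat_lit 49691723644) (nat_lit 76) (nat_lit 47707921996) (nat_lit 1) (nat_lit 4) (nat_lit 2) (nat_lit 5) (nat_lit 2) (nat_lit 4) (nat_lit 328) (nat_lit 200) (nat_lit 192))) (XT.nd (nat_lit 78) (nat_lit 0) (nat_lit 0) (XT.lf (nat_lit 0) (nat_lit 11251704711) (nat_lit 76) (nat_lit 49554807657) (nat_lit 76) (nat_lit 47373151431) (nat_lit 1) (nat_lit 4) (nat_lit 2) (nat_lit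 5) (nat_lit 2) (nat_lit 4) (nat_lit 329) (nat_lit 200) (nat_lit 191)) (XT.nd (nat_lit 78) (nat_lit 0) (nat_lit 0) (XT.lf (nat_lit 0) (nat_lit 16923340186) (nat_lit 76) (nat_lit 49473785393) (nat_lit 76) (nat_lit 47103696236) (nat_lit 1) (nat_lit 4) (nat_lit 2) (nat_lit 5) (nat_lit 2) (nat_lit 4) (nat_lit 330) (nat_lit 200) (nat_lit 190)) (XT.lf (nat_lit 0) (nat_lit 22742989372) (nat_lit 76) (nat_lit 49448463940) (nat_lit 76) (nat_lit 46898914849) (nat_lit 1) (nat_lit 4) (nat_lit 2) (nat_lit 5) (nat_lit 2) (nat_lit 4) (nat_lit 331) (nat_lit 200) (nat_lit 189))))) (XT.nd (nat_lit 36504) (nat_lit 0) (nat_lit 76) (XT.nd (nat_lit 36426) (nat_lit 0) (nat_lit 76) (XT.lf (nat_lit 0) (nat_lit 28724508576) (nat_lit 76) (nat_lit 49478783011) (nat_lit 76) (nat_lit 46758319696) (nat_lit 1) (nat_lit 4) (nat_lit 2) (nat_lit 5) (nat_lit 2) (nat_lit 4) (nat_lit 332) (nat_lit 200) (nat_lit 188)) (XT.lf (nat_lit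 0) (nat_lit 5018194011) (nat_lit 152) (nat_lit 22025030279) (nat_lit 0) (nat_lit 5018194011) (nat_lit 2) (nat_lit 5) (nat_lit 4) (nat_lit 4) (nat_lit 2) (nat_lit 4) (nat_lit 318) (nat_lit 201) (nat_lit 201))) (XT.nd (nat_lit 78) (nat_lit 0) (nat_lit 0) (XT.lf (nat_lit 0) (nat_lit 14070280886) (nat_lit 152) (nat_lit 39376829340) (nat_lit 0) (nat_lit 13763343497) (nat_lit 2) (nat_lit 5) (nat_lit 4) (nat_lit 4) (nat_lit 2) (nat_lit 4) (nat_lit 319) (nat_lit 201) (nat_lit 200)) (XT.nd (nat_lit 78) (nat_lit 0) (nat_lit 0) (XT.lf (nat_lit 0) (nat_lit 18184494607) (nat_lit 152) (nat_lit 34686453537) (nat_lit 0) (nat_lit 17585235896) (nat_lit 2) (nat_lit 5) (nat_lit 4) (nat_lit 4) (nat_lit 2) (nat_lit 4) (nat_lit 320) (nat_lit 201) (nat_lit 199)) (XT.lf (nat_lit 0) (nat_lit 22388824935) (nat_lit 152) (nat_lit 29967765590) (nat_lit 0) (nat_lit 21511164964) (nat_lit 2) (nat_lit 5) (nat_lit 4) (nat_lit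 4) (nat_lit 2) (nat_lit 4) (nat_lit 321) (nat_lit 201) (nat_lit 198)))))) (XT.nd (nat_lit 390) (nat_lit 76) (nat_lit 0) (XT.nd (nat_lit 156) (nat_lit 0) (nat_lit 0) (XT.nd (nat_lit 78) (nat_lit 0) (nat_lit 0) (XT.lf (nat_lit 0) (nat_lit 26693282180) (nat_lit 152) (nat_lit 25209530525) (nat_lit 0) (nat_lit 25550478152) (nat_lit 2) (nat_lit 5) (nat_lit 4) (nat_lit 4) (nat_lit 2) (nat_lit 4) (nat_lit 322) (nat_lit 201) (nat_lit 197)) (XT.lf (nat_lit 0) (nat_lit 31108115049) (nat_lit 152) (nat_lit 20400419213) (nat_lit 0) (nat_lit 29712792871) (nat_lit 2) (nat_lit 5) (nat_lit 4) (nat_lit 4) (nat_lit 2) (nat_lit 4) (nat_lit 323) (nat_lit 201) (nat_lit 196))) (XT.nd (nat_lit 78) (nat_lit 0) (nat_lit 0) (XT.lf (nat_lit 0) (nat_lit 35643835049) (nat_lit 152) (nat_lit 15528981389) (nat_lit 0) (nat_lit 34008019396) (nat_lit 2) (nat_lit 5) (nat_lit 4) (nat_lit 4) (nat_lit 2) (nat_lit 4) (nat_lit 324)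 (nat_lit 201) (nat_lit 195)) (XT.nd (nat_lit 78) (nat_lit 0) (nat_lit 0) (XT.lf (nat_lit 0) (nat_lit 40311241514) (nat_lit 152) (nat_lit 10583618390) (nat_lit 0) (nat_lit 38446384455) (nat_lit 2) (nat_lit 5) (nat_lit 4) (nat_lit 4) (nat_lit 2) (nat_lit 4) (nat_lit 325) (nat_lit 201) (nat_lit 194)) (XT.lf (nat_lit 0) (nat_lit 45121447315) (nat_lit 152) (nat_lit 5552555543) (nat_lit 0) (nat_lit 43038455585) (nat_lit 2) (nat_lit 5) (nat_lit 4) (nat_lit 4) (nat_lit 2) (nat_lit 4) (nat_lit 326) (nat_lit 201) (nat_lit 193))))) (XT.nd (nat_lit 234) (nat_lit 0) (nat_lit 0) (XT.nd (nat_lit 78) (nat_lit 76) (nat_lit 0) (XT.lf (nat_lit 0) (nat_lit 50085905325) (nat_lit 152) (nat_lit 423814126) (nat_lit 0) (nat_lit 47795166288) (nat_lit 2) (nat_lit 5) (nat_lit 4) (nat_lit 4) (nat_lit 2) (nat_lit 4) (nat_lit 327) (nat_lit 201) (nat_lit 192)) (XT.nd (nat_lit 78) (nat_lit 0) (nat_lit 0) (XT.lf (nat_lit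 0) (nat_lit 4910641449) (nat_lit 76) (nat_lit 50352998321) (nat_lit 76) (nat_lit 47864404706) (nat_lit 1) (nat_lit 4) (nat_lit 2) (nat_lit 5) (nat_lit 2) (nat_lit 4) (nat_lit 328) (nat_lit 201) (nat_lit 191)) (XT.lf (nat_lit 0) (nat_lit 10378329807) (nat_lit 76) (nat_lit 50246686978) (nat_lit 76) (nat_lit 47569660433) (nat_lit 1) (nat_lit 4) (nat_lit 2) (nat_lit 5) (nat_lit 2) (nat_lit 4) (nat_lit 329) (nat_lit 201) (nat_lit 190)))) (XT.nd (nat_lit 78) (nat_lit 0) (nat_lit 0) (XT.lf (nat_lit 0) (nat_lit 15983834519) (nat_lit 76) (nat_lit 50194811994) (nat_lit 76) (nat_lit 47338325514) (nat_lit 1) (nat_lit 4) (nat_lit 2) (nat_lit 5) (nat_lit 2) (nat_lit 4) (nat_lit 330) (nat_lit 201) (nat_lit 189)) (XT.nd (nat_lit 78) (nat_lit 0) (nat_lit 0) (XT.lf (nat_lit 0) (nat_lit 21740502027) (nat_lit 76) (nat_lit 50197249857) (nat_lit 76) (nat_lit 47169849153) (nat_lit 1) (nat_lit 4) (nat_lit 2) (nat_lit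 5) (nat_lit 2) (nat_lit 4) (nat_lit 331) (nat_lit 201) (nat_lit 188)) (XT.lf (nat_lit 0) (nat_lit 27662038680) (nat_lit 76) (nat_lit 50254006370) (nat_lit 76) (nat_lit 47063830216) (nat_lit 1) (nat_lit 4) (nat_lit 2) (nat_lit 5) (nat_lit 2) (nat_lit 4) (nat_lit 332) (nat_lit 201) (nat_lit 187))))))) (XT.nd (nat_lit 780) (nat_lit 76) (nat_lit 0) (XT.nd (nat_lit 390) (nat_lit 0) (nat_lit 0) (XT.nd (nat_lit 156) (nat_lit 0) (nat_lit 0) (XT.nd (nat_lit 78) (nat_lit 0) (nat_lit 0) (XT.lf (nat_lit 0) (nat_lit 1279437446) (nat_lit 152) (nat_lit 26636568996) (nat_lit 0) (nat_lit 1279437446) (nat_lit 2) (nat_lit 5) (nat_lit 4) (nat_lit 4) (nat_lit 2) (nat_lit 4) (nat_lit 316) (nat_lit 202) (nat_lit 202)) (XT.lf (nat_lit 0) (nat_lit 6395495771) (nat_lit 152) (nat_lit 48717273934) (nat_lit 0) (nat_lit 6073211513) (nat_lit 2) (nat_lit 5) (nat_lit 4) (nat_lit 4) (nat_lit 2) (nat_lit 4) (nat_lit 317)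 (nat_lit 202) (nat_lit 201))) (XT.nd (nat_lit 78) (nat_lit 0) (nat_lit 0) (XT.lf (nat_lit 0) (nat_lit 10296505221) (nat_lit 152) (nat_lit 44160959497) (nat_lit 0) (nat_lit 9667283574) (nat_lit 2) (nat_lit 5) (nat_lit 4) (nat_lit 4) (nat_lit 2) (nat_lit 4) (nat_lit 318) (nat_lit 202) (nat_lit 200)) (XT.nd (nat_lit 78) (nat_lit 0) (nat_lit 0) (XT.lf (nat_lit 0) (nat_lit 14271191360) (nat_lit 152) (nat_lit 39593346317) (nat_lit 0) (nat_lit 13349648390) (nat_lit 2) (nat_lit 5) (nat_lit 4) (nat_lit 4) (nat_lit 2) (nat_lit 4) (nat_lit 319) (nat_lit 202) (nat_lit 199)) (XT.lf (nat_lit 0) (nat_lit 18329017726) (nat_lit 152) (nat_lit 35003559121) (nat_lit 0) (nat_lit 17129073496) (nat_lit 2) (nat_lit 5) (nat_lit 4) (nat_lit 4) (nat_lit 2) (nat_lit 4) (nat_lit 320) (nat_lit 202) (nat_lit 198))))) (XT.nd (nat_lit 156) (nat_lit 0) (nat_lit 0) (XT.nd (nat_lit 78) (nat_lit 0) (nat_lit 0) (XT.lf (nat_lit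 0) (nat_lit 22479645810) (nat_lit 152) (nat_lit 30380669847) (nat_lit 0) (nat_lit 21014557523) (nat_lit 2) (nat_lit 5) (nat_lit 4) (nat_lit 4) (nat_lit 2) (nat_lit 4) (nat_lit 321) (nat_lit 202) (nat_lit 197)) (XT.lf (nat_lit 0) (nat_lit 26732958061) (nat_lit 152) (nat_lit 25713671615) (nat_lit 0) (nat_lit 25015351624) (nat_lit 2) (nat_lit 5) (nat_lit 4) (nat_lit 4) (nat_lit 2) (nat_lit 4) (nat_lit 322) (nat_lit 202) (nat_lit 196))) (XT.nd (nat_lit 78) (nat_lit 0) (nat_lit 0) (XT.lf (nat_lit 0) (nat_lit 31099081411) (nat_lit 152) (nat_lit 20991452524) (nat_lit 0) (nat_lit 29140981500) (nat_lit 2) (nat_lit 5) (nat_lit 4) (nat_lit 4) (nat_lit 2) (nat_lit 4) (nat_lit 323) (nat_lit 202) (nat_lit 195)) (XT.nd (nat_lit 78) (nat_lit 0) (nat_lit 0) (XT.lf (nat_lit 0) (nat_lit 35588411394) (nat_lit 152) (nat_lit 16202769195) (nat_lit 0) (nat_lit 33401270077) (nat_lit 2) (nat_lit 5) (nat_lit 4) (nat_lit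 4) (nat_lit 2) (nat_lit 4) (nat_lit 324) (nat_lit 202) (nat_lit 194)) (XT.lf (nat_lit 0) (nat_lit 40211636890) (nat_lit 152) (nat_lit 11336220002) (nat_lit 0) (nat_lit 37806360901) (nat_lit 2) (nat_lit 5) (nat_lit 4) (nat_lit 4) (nat_lit 2) (nat_lit 4) (nat_lit 325) (nat_lit 202) (nat_lit 193)))))) (XT.nd (nat_lit 390) (nat_lit 0) (nat_lit 0) (XT.nd (nat_lit 156) (nat_lit 76) (nat_lit 0) (XT.nd (nat_lit 78) (nat_lit 0) (nat_lit 0) (XT.lf (nat_lit 0) (nat_lit 44979765578) (nat_lit 152) (nat_lit 6380217923) (nat_lit 0) (nat_lit 42366742283) (nat_lit 2) (nat_lit 5) (nat_lit 4) (nat_lit 4) (nat_lit 2) (nat_lit 4) (nat_lit 326) (nat_lit 202) (nat_lit 192)) (XT.lf (nat_lit 0) (nat_lit 49904150147) (nat_lit 152) (nat_lit 1322962952) (nat_lit 0) (nat_lit 47093272273) (nat_lit 2) (nat_lit 5) (nat_lit 4) (nat_lit 4) (nat_lit 2) (nat_lit 4) (nat_lit 327) (nat_lit 202) (nat_lit 191))) (XT.nd (nat_lit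 78) (nat_lit 0) (nat_lit 0) (XT.lf (nat_lit 0) (nat_lit 3924160499) (nat_lit 76) (nat_lit 51110076252) (nat_lit 76) (nat_lit 48110765448) (nat_lit 1) (nat_lit 4) (nat_lit 2) (nat_lit 5) (nat_lit 2) (nat_lit 4) (nat_lit 328) (nat_lit 202) (nat_lit 190)) (XT.nd (nat_lit 78) (nat_lit 0) (nat_lit 0) (XT.lf (nat_lit 0) (nat_lit 9325718094) (nat_lit 76) (nat_lit 51032912191) (nat_lit 76) (nat_lit 47854141452) (nat_lit 1) (nat_lit 4) (nat_lit 2) (nat_lit 5) (nat_lit 2) (nat_lit 4) (nat_lit 329) (nat_lit 202) (nat_lit 189)) (XT.lf (nat_lit 0) (nat_lit 14868241128) (nat_lit 76) (nat_lit 51008796522) (nat_lit 76) (nat_lit 47659111560) (nat_lit 1) (nat_lit 4) (nat_lit 2) (nat_lit 5) (nat_lit 2) (nat_lit 4) (nat_lit 330) (nat_lit 202) (nat_lit 188))))) (XT.nd (nat_lit 36270) (nat_lit 0) (nat_lit 76) (XT.nd (nat_lit 78) (nat_lit 0) (nat_lit 0) (XT.lf (nat_lit 0) (nat_lit 20564926084) (nat_lit 76) (nat_lit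 51037671827) (nat_lit 76) (nat_lit 47525211414) (nat_lit 1) (nat_lit 4) (nat_lit 2) (nat_lit 5) (nat_lit 2) (nat_lit 4) (nat_lit 331) (nat_lit 202) (nat_lit 187)) (XT.nd (nat_lit 36114) (nat_lit 0) (nat_lit 228) (XT.lf (nat_lit 0) (nat_lit 26429336499) (nat_lit 76) (nat_lit 51119606857) (nat_lit 76) (nat_lit 47452122206) (nat_lit 1) (nat_lit 4) (nat_lit 2) (nat_lit 5) (nat_lit 2) (nat_lit 4) (nat_lit 332) (nat_lit 202) (nat_lit 186)) (XT.lf (nat_lit 0) (nat_lit 22092965584) (nat_lit 76) (nat_lit 2253028381) (nat_lit 76) (nat_lit 2253028381) (nat_lit 4) (nat_lit 4) (nat_lit 5) (nat_lit 5) (nat_lit 5) (nat_lit 4) (nat_lit 314) (nat_lit 203) (nat_lit 203)))) (XT.nd (nat_lit 78) (nat_lit 152) (nat_lit 0) (XT.lf (nat_lit 0) (nat_lit 53645658687) (nat_lit 76) (nat_lit 1217241801) (nat_lit 76) (nat_lit 868691376) (nat_lit 4) (nat_lit 4) (nat_lit 5) (nat_lit 5) (nat_lit 5) (nat_lit 4) (nat_lit 315)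 (nat_lit 203) (nat_lit 202)) (XT.nd (nat_lit 78) (nat_lit 0) (nat_lit 0) (XT.lf (nat_lit 0) (nat_lit 2831997951) (nat_lit 152) (nat_lit 53389581879) (nat_lit 0) (nat_lit 2171315221) (nat_lit 2) (nat_lit 5) (nat_lit 4) (nat_lit 4) (nat_lit 2) (nat_lit 4) (nat_lit 316) (nat_lit 203) (nat_lit 201)) (XT.lf (nat_lit 0) (nat_lit 6606451770) (nat_lit 152) (nat_lit 48944616759) (nat_lit 0) (nat_lit 5638831651) (nat_lit 2) (nat_lit 5) (nat_lit 4) (nat_lit 4) (nat_lit 2) (nat_lit 4) (nat_lit 317) (nat_lit 203) (nat_lit 200))))))))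
noncomputable def xc2 : XT := (XT.nd (nat_lit 37518) (nat_lit 0) (nat_lit 0) (XT.nd (nat_lit 780) (nat_lit 76) (nat_lit 0) (XT.nd (nat_lit 390) (nat_lit 0) (nat_lit 0) (XT.nd (nat_lit 156) (nat_lit 0) (nat_lit 0) (XT.nd (nat_lit 78) (nat_lit 0) (nat_lit 0) (XT.lf (nat_lit 0) (nat_lit 10448254496) (nat_lit 152) (nat_lit 44493920361) (nat_lit 0) (nat_lit 9188313055) (nat_lit 2) (nat_lit 5) (nat_lit 4) (nat_lit 4) (nat_lit 2) (nat_lit 4) (nat_lit 318) (nat_lit 203) (nat_lit 199)) (XT.lf (nat_lit 0) (nat_lit 14366553279) (nat_lit 152) (nat_lit 40026895787) (nat_lit 0) (nat_lit 12828210577) (nat_lit 2) (nat_lit 5) (nat_lit 4) (nat_lit 4) (nat_lit 2) (nat_lit 4) (nat_lit 319) (nat_lit 203) (nat_lit 198))) (XT.nd (nat_lit 78) (nat_lit 0) (nat_lit 0) (XT.lf (nat_lit 0) (nat_lit 18370677401) (nat_lit 152) (nat_lit 35532907266) (nat_lit 0) (nat_lit 16567190642) (nat_lit 2) (nat_lit 5) (nat_lit 4)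 (nat_lit 4) (nat_lit 2) (nat_lit 4) (nat_lit 320) (nat_lit 203) (nat_lit 197)) (XT.nd (nat_lit 78) (nat_lit 0) (nat_lit 0) (XT.lf (nat_lit 0) (nat_lit 22470160491) (nat_lit 152) (nat_lit 31001254824) (nat_lit 0) (nat_lit 20414155583) (nat_lit 2) (nat_lit 5) (nat_lit 4) (nat_lit 4) (nat_lit 2) (nat_lit 4) (nat_lit 321) (nat_lit 203) (nat_lit 196)) (XT.lf (nat_lit 0) (nat_lit 26674763223) (nat_lit 152) (nat_lit 26421148812) (nat_lit 0) (nat_lit 24378264840) (nat_lit 2) (nat_lit 5) (nat_lit 4) (nat_lit 4) (nat_lit 2) (nat_lit 4) (nat_lit 322) (nat_lit 203) (nat_lit 195))))) (XT.nd (nat_lit 156) (nat_lit 0) (nat_lit 0) (XT.nd (nat_lit 78) (nat_lit 0) (nat_lit 0) (XT.lf (nat_lit 0) (nat_lit 30994496556) (nat_lit 152) (nat_lit 21781684217) (nat_lit 0) (nat_lit 28468956768) (nat_lit 2) (nat_lit 5) (nat_lit 4) (nat_lit 4) (nat_lit 2) (nat_lit 4) (nat_lit 323) (nat_lit 203) (nat_lit 194)) (XT.lf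 (nat_lit 0) (nat_lit 35439645570) (nat_lit 152) (nat_lit 17071814694) (nat_lit 0) (nat_lit 32695971110) (nat_lit 2) (nat_lit 5) (nat_lit 4) (nat_lit 4) (nat_lit 2) (nat_lit 4) (nat_lit 324) (nat_lit 203) (nat_lit 193))) (XT.nd (nat_lit 78) (nat_lit 0) (nat_lit 0) (XT.lf (nat_lit 0) (nat_lit 40020793953) (nat_lit 152) (nat_lit 12280326269) (nat_lit 0) (nat_lit 37069372186) (nat_lit 2) (nat_lit 5) (nat_lit 4) (nat_lit 4) (nat_lit 2) (nat_lit 4) (nat_lit 325) (nat_lit 203) (nat_lit 192)) (XT.nd (nat_lit 78) (nat_lit 0) (nat_lit 0) (XT.lf (nat_lit 0) (nat_lit 44748849200) (nat_lit 152) (nat_lit 7395810634) (nat_lit 0) (nat_lit 41599572856) (nat_lit 2) (nat_lit 5) (nat_lit 4) (nat_lit 4) (nat_lit 2) (nat_lit 4) (nat_lit 326) (nat_lit 203) (nat_lit 191)) (XT.lf (nat_lit 0) (nat_lit 49635068586) (nat_lit 152) (nat_lit 2406637992) (nat_lit 0) (nat_lit 46297359311) (nat_lit 2) (nat_lit 5) (nat_lit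 4) (nat_lit 4) (nat_lit 2) (nat_lit 4) (nat_lit 327) (nat_lit 203) (nat_lit 190)))))) (XT.nd (nat_lit 36270) (nat_lit 0) (nat_lit 76) (XT.nd (nat_lit 156) (nat_lit 0) (nat_lit 0) (XT.nd (nat_lit 78) (nat_lit 0) (nat_lit 0) (XT.lf (nat_lit 0) (nat_lit 2752787438) (nat_lit 76) (nat_lit 51964760006) (nat_lit 76) (nat_lit 48447590796) (nat_lit 1) (nat_lit 4) (nat_lit 2) (nat_lit 5) (nat_lit 2) (nat_lit 4) (nat_lit 328) (nat_lit 203) (nat_lit 189)) (XT.lf (nat_lit 0) (nat_lit 8091363354) (nat_lit 76) (nat_lit 51915355260) (nat_lit 76) (nat_lit 48227271826) (nat_lit 1) (nat_lit 4) (nat_lit 2) (nat_lit 5) (nat_lit 2) (nat_lit 4) (nat_lit 329) (nat_lit 203) (nat_lit 188))) (XT.nd (nat_lit 78) (nat_lit 0) (nat_lit 0) (XT.lf (nat_lit 0) (nat_lit 13573903838) (nat_lit 76) (nat_lit 51917677033) (nat_lit 76) (nat_lit 48066818149) (nat_lit 1) (nat_lit 4) (nat_lit 2) (nat_lit 5) (nat_lit 2) (nat_lit 4)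 (nat_lit 330) (nat_lit 203) (nat_lit 187)) (XT.nd (nat_lit 78) (nat_lit 0) (nat_lit 0) (XT.lf (nat_lit 0) (nat_lit 19213462555) (nat_lit 76) (nat_lit 51971730855) (nat_lit 76) (nat_lit 47965847733) (nat_lit 1) (nat_lit 4) (nat_lit 2) (nat_lit 5) (nat_lit 2) (nat_lit 4) (nat_lit 331) (nat_lit 203) (nat_lit 186)) (XT.lf (nat_lit 0) (nat_lit 25023467027) (nat_lit 76) (nat_lit 52077645425) (nat_lit 76) (nat_lit 47924120171) (nat_lit 1) (nat_lit 4) (nat_lit 2) (nat_lit 5) (nat_lit 2) (nat_lit 4) (nat_lit 332) (nat_lit 203) (nat_lit 185))))) (XT.nd (nat_lit 234) (nat_lit 152) (nat_lit 0) (XT.nd (nat_lit 78) (nat_lit 0) (nat_lit 0) (XT.lf (nat_lit 0) (nat_lit 13016856274) (nat_lit 76) (nat_lit 5615808618) (nat_lit 76) (nat_lit 5615808618) (nat_lit 4) (nat_lit 4) (nat_lit 5) (nat_lit 5) (nat_lit 5) (nat_lit 4) (nat_lit 312) (nat_lit 204) (nat_lit 204)) (XT.nd (nat_lit 78) (nat_lit 0) (nat_lit 0)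 (XT.lf (nat_lit 0) (nat_lit 34948350684) (nat_lit 76) (nat_lit 8103374408) (nat_lit 76) (nat_lit 7737396461) (nat_lit 4) (nat_lit 4) (nat_lit 5) (nat_lit 5) (nat_lit 5) (nat_lit 4) (nat_lit 313) (nat_lit 204) (nat_lit 203)) (XT.lf (nat_lit 0) (nat_lit 44068988734) (nat_lit 76) (nat_lit 4922811159) (nat_lit 76) (nat_lit 4208282787) (nat_lit 4) (nat_lit 4) (nat_lit 5) (nat_lit 5) (nat_lit 5) (nat_lit 4) (nat_lit 314) (nat_lit 204) (nat_lit 202)))) (XT.nd (nat_lit 78) (nat_lit 152) (nat_lit 0) (XT.lf (nat_lit 0) (nat_lit 53417342505) (nat_lit 76) (nat_lit 1682354720) (nat_lit 76) (nat_lit 635873562) (nat_lit 4) (nat_lit 4) (nat_lit 5) (nat_lit 5) (nat_lit 5) (nat_lit 4) (nat_lit 315) (nat_lit 204) (nat_lit 201)) (XT.nd (nat_lit 78) (nat_lit 0) (nat_lit 0) (XT.lf (nat_lit 0) (nat_lit 2991334689) (nat_lit 152) (nat_lit 53739190786) (nat_lit 0) (nat_lit 1668396176) (nat_lit 2) (nat_lit 5) (nat_lit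 4) (nat_lit 4) (nat_lit 2) (nat_lit 4) (nat_lit 316) (nat_lit 204) (nat_lit 200)) (XT.lf (nat_lit 0) (nat_lit 6706581784) (nat_lit 152) (nat_lit 49399843704) (nat_lit 0) (nat_lit 5091321948) (nat_lit 2) (nat_lit 5) (nat_lit 4) (nat_lit 4) (nat_lit 2) (nat_lit 4) (nat_lit 317) (nat_lit 204) (nat_lit 199))))))) (XT.nd (nat_lit 780) (nat_lit 76) (nat_lit 0) (XT.nd (nat_lit 390) (nat_lit 0) (nat_lit 0) (XT.nd (nat_lit 156) (nat_lit 0) (nat_lit 0) (XT.nd (nat_lit 78) (nat_lit 0) (nat_lit 0) (XT.lf (nat_lit 0) (nat_lit 10491997154) (nat_lit 152) (nat_lit 45049735912) (nat_lit 0) (nat_lit 8598336058) (nat_lit 2) (nat_lit 5) (nat_lit 4) (nat_lit 4) (nat_lit 2) (nat_lit 4) (nat_lit 318) (nat_lit 204) (nat_lit 198)) (XT.lf (nat_lit 0) (nat_lit 14356593693) (nat_lit 152) (nat_lit 40678510012) (nat_lit 0) (nat_lit 12197788540) (nat_lit 2) (nat_lit 5) (nat_lit 4) (nat_lit 4) (nat_lit 2) (nat_lit 4) (nat_lit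 319) (nat_lit 204) (nat_lit 197))) (XT.nd (nat_lit 78) (nat_lit 0) (nat_lit 0) (XT.lf (nat_lit 0) (nat_lit 18309572821) (nat_lit 152) (nat_lit 36275758323) (nat_lit 0) (nat_lit 15898249519) (nat_lit 2) (nat_lit 5) (nat_lit 4) (nat_lit 4) (nat_lit 2) (nat_lit 4) (nat_lit 320) (nat_lit 204) (nat_lit 196)) (XT.nd (nat_lit 78) (nat_lit 0) (nat_lit 0) (XT.lf (nat_lit 0) (nat_lit 22360346393) (nat_lit 152) (nat_lit 31830998101) (nat_lit 0) (nat_lit 19708529615) (nat_lit 2) (nat_lit 5) (nat_lit 4) (nat_lit 4) (nat_lit 2) (nat_lit 4) (nat_lit 321) (nat_lit 204) (nat_lit 195)) (XT.lf (nat_lit 0) (nat_lit 26518559108) (nat_lit 152) (nat_lit 27333646586) (nat_lit 0) (nat_lit 23637700925) (nat_lit 2) (nat_lit 5) (nat_lit 4) (nat_lit 4) (nat_lit 2) (nat_lit 4) (nat_lit 322) (nat_lit 204) (nat_lit 194))))) (XT.nd (nat_lit 156) (nat_lit 0) (nat_lit 0) (XT.nd (nat_lit 78) (nat_lit 0) (nat_lit 0) (XT.lf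 (nat_lit 0) (nat_lit 30794111473) (nat_lit 152) (nat_lit 22772995797) (nat_lit 0) (nat_lit 27695118617) (nat_lit 2) (nat_lit 5) (nat_lit 4) (nat_lit 4) (nat_lit 2) (nat_lit 4) (nat_lit 323) (nat_lit 204) (nat_lit 193)) (XT.lf (nat_lit 0) (nat_lit 35197183373) (nat_lit 152) (nat_lit 18138187041) (nat_lit 0) (nat_lit 31890443211) (nat_lit 2) (nat_lit 5) (nat_lit 4) (nat_lit 4) (nat_lit 2) (nat_lit 4) (nat_lit 324) (nat_lit 204) (nat_lit 192))) (XT.nd (nat_lit 78) (nat_lit 0) (nat_lit 0) (XT.lf (nat_lit 0) (nat_lit 39738258314) (nat_lit 152) (nat_lit 13418185061) (nat_lit 0) (nat_lit 36233663575) (nat_lit 2) (nat_lit 5) (nat_lit 4) (nat_lit 4) (nat_lit 2) (nat_lit 4) (nat_lit 325) (nat_lit 204) (nat_lit 191)) (XT.nd (nat_lit 78) (nat_lit 0) (nat_lit 0) (XT.lf (nat_lit 0) (nat_lit 44428148380) (nat_lit 152) (nat_lit 8601751755) (nat_lit 0) (nat_lit 40735120709) (nat_lit 2) (nat_lit 5) (nat_lit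 4) (nat_lit 4) (nat_lit 2) (nat_lit 4) (nat_lit 326) (nat_lit 204) (nat_lit 190)) (XT.lf (nat_lit 0) (nat_lit 49278019974) (nat_lit 152) (nat_lit 3677419426) (nat_lit 0) (nat_lit 45405532369) (nat_lit 2) (nat_lit 5) (nat_lit 4) (nat_lit 4) (nat_lit 2) (nat_lit 4) (nat_lit 327) (nat_lit 204) (nat_lit 189)))))) (XT.nd (nat_lit 36114) (nat_lit 0) (nat_lit 228) (XT.nd (nat_lit 156) (nat_lit 0) (nat_lit 0) (XT.nd (nat_lit 78) (nat_lit 0) (nat_lit 0) (XT.lf (nat_lit 0) (nat_lit 1393733283) (nat_lit 76) (nat_lit 52919084543) (nat_lit 76) (nat_lit 48875682715) (nat_lit 1) (nat_lit 4) (nat_lit 2) (nat_lit 5) (nat_lit 2) (nat_lit 4) (nat_lit 328) (nat_lit 204) (nat_lit 188)) (XT.lf (nat_lit 0) (nat_lit 6672326649) (nat_lit 76) (nat_lit 52896117239) (nat_lit 76) (nat_lit 48689939961) (nat_lit 1) (nat_lit 4) (nat_lit 2) (nat_lit 5) (nat_lit 2) (nat_lit 4) (nat_lit 329) (nat_lit 204) (nat_lit 187)))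 (XT.nd (nat_lit 78) (nat_lit 0) (nat_lit 0) (XT.lf (nat_lit 0) (nat_lit 12097740893) (nat_lit 76) (nat_lit 52923617530) (nat_lit 76) (nat_lit 48562416013) (nat_lit 1) (nat_lit 4) (nat_lit 2) (nat_lit 5) (nat_lit 2) (nat_lit 4) (nat_lit 330) (nat_lit 204) (nat_lit 186)) (XT.nd (nat_lit 78) (nat_lit 0) (nat_lit 0) (XT.lf (nat_lit 0) (nat_lit 17682893668) (nat_lit 76) (nat_lit 53001650892) (nat_lit 76) (nat_lit 48492807242) (nat_lit 1) (nat_lit 4) (nat_lit 2) (nat_lit 5) (nat_lit 2) (nat_lit 4) (nat_lit 331) (nat_lit 204) (nat_lit 185)) (XT.lf (nat_lit 0) (nat_lit 23441082958) (nat_lit 76) (nat_lit 53130403119) (nat_lit 76) (nat_lit 48480947915) (nat_lit 1) (nat_lit 4) (nat_lit 2) (nat_lit 5) (nat_lit 2) (nat_lit 4) (nat_lit 332) (nat_lit 204) (nat_lit 184))))) (XT.nd (nat_lit 234) (nat_lit 0) (nat_lit 0) (XT.nd (nat_lit 78) (nat_lit 0) (nat_lit 0) (XT.lf (nat_lit 0) (nat_lit 4433451841) (nat_lit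 76) (nat_lit 8844561695) (nat_lit 76) (nat_lit 8844561695) (nat_lit 4) (nat_lit 4) (nat_lit 5) (nat_lit 5) (nat_lit 5) (nat_lit 4) (nat_lit 310) (nat_lit 205) (nat_lit 205)) (XT.nd (nat_lit 78) (nat_lit 0) (nat_lit 0) (XT.lf (nat_lit 0) (nat_lit 17303849000) (nat_lit 76) (nat_lit 14699264685) (nat_lit 76) (nat_lit 14314987841) (nat_lit 4) (nat_lit 4) (nat_lit 5) (nat_lit 5) (nat_lit 5) (nat_lit 4) (nat_lit 311) (nat_lit 205) (nat_lit 204)) (XT.lf (nat_lit 0) (nat_lit 25910922992) (nat_lit 76) (nat_lit 11669209352) (nat_lit 76) (nat_lit 10918954561) (nat_lit 4) (nat_lit 4) (nat_lit 5) (nat_lit 5) (nat_lit 5) (nat_lit 4) (nat_lit 312) (nat_lit 205) (nat_lit 203)))) (XT.nd (nat_lit 78) (nat_lit 0) (nat_lit 0) (XT.lf (nat_lit 0) (nat_lit 34708618692) (nat_lit 76) (nat_lit 8591742973) (nat_lit 76) (nat_lit 7492937757) (nat_lit 4) (nat_lit 4) (nat_lit 5) (nat_lit 5) (nat_lit 5) (nat_lit 4) (nat_lit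 313) (nat_lit 205) (nat_lit 202)) (XT.nd (nat_lit 78) (nat_lit 0) (nat_lit 0) (XT.lf (nat_lit 0) (nat_lit 43717882995) (nat_lit 76) (nat_lit 5459538247) (nat_lit 76) (nat_lit 4028780245) (nat_lit 4) (nat_lit 4) (nat_lit 5) (nat_lit 5) (nat_lit 5) (nat_lit 4) (nat_lit 314) (nat_lit 205) (nat_lit 201)) (XT.lf (nat_lit 0) (nat_lit 52960166530) (nat_lit 76) (nat_lit 2265137545) (nat_lit 76) (nat_lit 518234032) (nat_lit 4) (nat_lit 4) (nat_lit 5) (nat_lit 5) (nat_lit 5) (nat_lit 4) (nat_lit 315) (nat_lit 205) (nat_lit 200))))))))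
noncomputable def xc3 : XT := (XT.nd (nat_lit 37206) (nat_lit 0) (nat_lit 0) (XT.nd (nat_lit 780) (nat_lit 76) (nat_lit 0) (XT.nd (nat_lit 390) (nat_lit 0) (nat_lit 0) (XT.nd (nat_lit 156) (nat_lit 0) (nat_lit 0) (XT.nd (nat_lit 78) (nat_lit 0) (nat_lit 0) (XT.lf (nat_lit 0) (nat_lit 3037264480) (nat_lit 152) (nat_lit 54322797115) (nat_lit 0) (nat_lit 1048920330) (nat_lit 2) (nat_lit 5) (nat_lit 4) (nat_lit 4) (nat_lit 2) (nat_lit 4) (nat_lit 316) (nat_lit 205) (nat_lit 199)) (XT.lf (nat_lit 0) (nat_lit 6696124219) (nat_lit 152) (nat_lit 50084038640) (nat_lit 0) (nat_lit 4429378809) (nat_lit 2) (nat_lit 5) (nat_lit 4) (nat_lit 4) (nat_lit 2) (nat_lit 4) (nat_lit 317) (nat_lit 205) (nat_lit 198))) (XT.nd (nat_lit 78) (nat_lit 0) (nat_lit 0) (XT.lf (nat_lit 0) (nat_lit 10427837346) (nat_lit 152) (nat_lit 45829729522) (nat_lit 0) (nat_lit 7895947878) (nat_lit 2) (nat_lit 5) (nat_lit 4) (nat_lit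 4) (nat_lit 2) (nat_lit 4) (nat_lit 318) (nat_lit 205) (nat_lit 197)) (XT.nd (nat_lit 78) (nat_lit 0) (nat_lit 0) (XT.lf (nat_lit 0) (nat_lit 14241288891) (nat_lit 152) (nat_lit 41549740454) (nat_lit 0) (nat_lit 11456881274) (nat_lit 2) (nat_lit 5) (nat_lit 4) (nat_lit 4) (nat_lit 2) (nat_lit 4) (nat_lit 319) (nat_lit 205) (nat_lit 196)) (XT.lf (nat_lit 0) (nat_lit 18145558500) (nat_lit 152) (nat_lit 37233880985) (nat_lit 0) (nat_lit 15120657408) (nat_lit 2) (nat_lit 5) (nat_lit 4) (nat_lit 4) (nat_lit 2) (nat_lit 4) (nat_lit 320) (nat_lit 205) (nat_lit 195))))) (XT.nd (nat_lit 156) (nat_lit 0) (nat_lit 0) (XT.nd (nat_lit 78) (nat_lit 0) (nat_lit 0) (XT.lf (nat_lit 0) (nat_lit 22149942055) (nat_lit 152) (nat_lit 32871875260) (nat_lit 0) (nat_lit 18895999557) (nat_lit 2) (nat_lit 5) (nat_lit 4) (nat_lit 4) (nat_lit 2) (nat_lit 4) (nat_lit 321) (nat_lit 205) (nat_lit 194)) (XT.lf (nat_lit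 0) (nat_lit 26263973801) (nat_lit 152) (nat_lit 28453337551) (nat_lit 0) (nat_lit 22791896631) (nat_lit 2) (nat_lit 5) (nat_lit 4) (nat_lit 4) (nat_lit 2) (nat_lit 4) (nat_lit 322) (nat_lit 205) (nat_lit 193))) (XT.nd (nat_lit 78) (nat_lit 0) (nat_lit 0) (XT.lf (nat_lit 0) (nat_lit 30497449052) (nat_lit 152) (nat_lit 23967747529) (nat_lit 0) (nat_lit 26817624576) (nat_lit 2) (nat_lit 5) (nat_lit 4) (nat_lit 4) (nat_lit 2) (nat_lit 4) (nat_lit 323) (nat_lit 205) (nat_lit 192)) (XT.nd (nat_lit 78) (nat_lit 0) (nat_lit 0) (XT.lf (nat_lit 0) (nat_lit 34860447512) (nat_lit 152) (nat_lit 19404425219) (nat_lit 0) (nat_lit 30982768458) (nat_lit 2) (nat_lit 5) (nat_lit 4) (nat_lit 4) (nat_lit 2) (nat_lit 4) (nat_lit 324) (nat_lit 205) (nat_lit 191)) (XT.lf (nat_lit 0) (nat_lit 39363357271) (nat_lit 152) (nat_lit 14752505567) (nat_lit 0) (nat_lit 35297245286) (nat_lit 2) (nat_lit 5) (nat_lit 4) (nat_lit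 4) (nat_lit 2) (nat_lit 4) (nat_lit 325) (nat_lit 205) (nat_lit 190)))))) (XT.nd (nat_lit 390) (nat_lit 0) (nat_lit 0) (XT.nd (nat_lit 156) (nat_lit 76) (nat_lit 0) (XT.nd (nat_lit 78) (nat_lit 0) (nat_lit 0) (XT.lf (nat_lit 0) (nat_lit 44016899544) (nat_lit 152) (nat_lit 10000912574) (nat_lit 0) (nat_lit 39771327624) (nat_lit 2) (nat_lit 5) (nat_lit 4) (nat_lit 4) (nat_lit 2) (nat_lit 4) (nat_lit 326) (nat_lit 205) (nat_lit 189)) (XT.lf (nat_lit 0) (nat_lit 48832154192) (nat_lit 152) (nat_lit 5138332924) (nat_lit 0) (nat_lit 44415668050) (nat_lit 2) (nat_lit 5) (nat_lit 4) (nat_lit 4) (nat_lit 2) (nat_lit 4) (nat_lit 327) (nat_lit 205) (nat_lit 188))) (XT.nd (nat_lit 78) (nat_lit 76) (nat_lit 0) (XT.lf (nat_lit 0) (nat_lit 53820586109) (nat_lit 152) (nat_lit 153189046) (nat_lit 0) (nat_lit 49241324516) (nat_lit 2) (nat_lit 5) (nat_lit 4) (nat_lit 4) (nat_lit 2) (nat_lit 4) (nat_lit 328)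 (nat_lit 205) (nat_lit 187)) (XT.nd (nat_lit 78) (nat_lit 0) (nat_lit 0) (XT.lf (nat_lit 0) (nat_lit 5065229317) (nat_lit 76) (nat_lit 53977533278) (nat_lit 76) (nat_lit 49243247446) (nat_lit 1) (nat_lit 4) (nat_lit 2) (nat_lit 5) (nat_lit 2) (nat_lit 4) (nat_lit 329) (nat_lit 205) (nat_lit 186)) (XT.lf (nat_lit 0) (nat_lit 10436237620) (nat_lit 76) (nat_lit 54029013108) (nat_lit 76) (nat_lit 49147085144) (nat_lit 1) (nat_lit 4) (nat_lit 2) (nat_lit 5) (nat_lit 2) (nat_lit 4) (nat_lit 330) (nat_lit 205) (nat_lit 185))))) (XT.nd (nat_lit 35802) (nat_lit 0) (nat_lit 228) (XT.nd (nat_lit 78) (nat_lit 0) (nat_lit 0) (XT.lf (nat_lit 0) (nat_lit 15969575212) (nat_lit 76) (nat_lit 54129884127) (nat_lit 76) (nat_lit 49107344609) (nat_lit 1) (nat_lit 4) (nat_lit 2) (nat_lit 5) (nat_lit 2) (nat_lit 4) (nat_lit 331) (nat_lit 205) (nat_lit 184)) (XT.nd (nat_lit 35646) (nat_lit 0) (nat_lit 304) (XT.lf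 (nat_lit 0) (nat_lit 21678416709) (nat_lit 76) (nat_lit 54280386504) (nat_lit 76) (nat_lit 49123931220) (nat_lit 1) (nat_lit 4) (nat_lit 2) (nat_lit 5) (nat_lit 2) (nat_lit 4) (nat_lit 332) (nat_lit 205) (nat_lit 183)) (XT.lf (nat_lit 0) (nat_lit 8275833550) (nat_lit 152) (nat_lit 3648007527) (nat_lit 0) (nat_lit 8275833550) (nat_lit 5) (nat_lit 5) (nat_lit 7) (nat_lit 4) (nat_lit 5) (nat_lit 4) (nat_lit 308) (nat_lit 206) (nat_lit 206)))) (XT.nd (nat_lit 78) (nat_lit 0) (nat_lit 0) (XT.lf (nat_lit 0) (nat_lit 579999075) (nat_lit 76) (nat_lit 21049394864) (nat_lit 76) (nat_lit 20645904178) (nat_lit 4) (nat_lit 4) (nat_lit 5) (nat_lit 5) (nat_lit 5) (nat_lit 4) (nat_lit 309) (nat_lit 206) (nat_lit 205)) (XT.nd (nat_lit 78) (nat_lit 0) (nat_lit 0) (XT.lf (nat_lit 0) (nat_lit 8737974648) (nat_lit 76) (nat_lit 18148595112) (nat_lit 76) (nat_lit 17360827581) (nat_lit 4) (nat_lit 4) (nat_lit 5)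 (nat_lit 5) (nat_lit 5) (nat_lit 4) (nat_lit 310) (nat_lit 206) (nat_lit 204)) (XT.lf (nat_lit 0) (nat_lit 17052130409) (nat_lit 76) (nat_lit 15212051678) (nat_lit 76) (nat_lit 14058306201) (nat_lit 4) (nat_lit 4) (nat_lit 5) (nat_lit 5) (nat_lit 5) (nat_lit 4) (nat_lit 311) (nat_lit 206) (nat_lit 203))))))) (XT.nd (nat_lit 780) (nat_lit 76) (nat_lit 0) (XT.nd (nat_lit 390) (nat_lit 0) (nat_lit 0) (XT.nd (nat_lit 156) (nat_lit 152) (nat_lit 0) (XT.nd (nat_lit 78) (nat_lit 0) (nat_lit 0) (XT.lf (nat_lit 0) (nat_lit 25542261966) (nat_lit 76) (nat_lit 12232772794) (nat_lit 76) (nat_lit 10730476892) (nat_lit 4) (nat_lit 4) (nat_lit 5) (nat_lit 5) (nat_lit 5) (nat_lit 4) (nat_lit 312) (nat_lit 206) (nat_lit 202)) (XT.lf (nat_lit 0) (nat_lit 34228583919) (nat_lit 76) (nat_lit 9203664938) (nat_lit 76) (nat_lit 7369416250) (nat_lit 4) (nat_lit 4) (nat_lit 5) (nat_lit 5) (nat_lit 5) (nat_lit 4) (nat_lit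 313) (nat_lit 206) (nat_lit 201))) (XT.nd (nat_lit 78) (nat_lit 152) (nat_lit 0) (XT.lf (nat_lit 0) (nat_lit 43131777986) (nat_lit 76) (nat_lit 6117515949) (nat_lit 76) (nat_lit 3967121750) (nat_lit 4) (nat_lit 4) (nat_lit 5) (nat_lit 5) (nat_lit 5) (nat_lit 4) (nat_lit 314) (nat_lit 206) (nat_lit 200)) (XT.nd (nat_lit 78) (nat_lit 152) (nat_lit 0) (XT.lf (nat_lit 0) (nat_lit 52273042249) (nat_lit 76) (nat_lit 2966977853) (nat_lit 76) (nat_lit 515492691) (nat_lit 4) (nat_lit 4) (nat_lit 5) (nat_lit 5) (nat_lit 5) (nat_lit 4) (nat_lit 315) (nat_lit 206) (nat_lit 199)) (XT.lf (nat_lit 0) (nat_lit 2969896681) (nat_lit 152) (nat_lit 55141790405) (nat_lit 0) (nat_lit 311412740) (nat_lit 2) (nat_lit 5) (nat_lit 4) (nat_lit 4) (nat_lit 2) (nat_lit 4) (nat_lit 316) (nat_lit 206) (nat_lit 198))))) (XT.nd (nat_lit 156) (nat_lit 0) (nat_lit 0) (XT.nd (nat_lit 78) (nat_lit 0) (nat_lit 0) (XT.lf (nat_lit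 0) (nat_lit 6575054177) (nat_lit 152) (nat_lit 50998830604) (nat_lit 0) (nat_lit 3651426179) (nat_lit 2) (nat_lit 5) (nat_lit 4) (nat_lit 4) (nat_lit 2) (nat_lit 4) (nat_lit 317) (nat_lit 206) (nat_lit 197)) (XT.lf (nat_lit 0) (nat_lit 10255622309) (nat_lit 152) (nat_lit 46835758318) (nat_lit 0) (nat_lit 7079476162) (nat_lit 2) (nat_lit 5) (nat_lit 4) (nat_lit 4) (nat_lit 2) (nat_lit 4) (nat_lit 318) (nat_lit 206) (nat_lit 196))) (XT.nd (nat_lit 78) (nat_lit 0) (nat_lit 0) (XT.lf (nat_lit 0) (nat_lit 14020364335) (nat_lit 152) (nat_lit 42642661471) (nat_lit 0) (nat_lit 10603724713) (nat_lit 2) (nat_lit 5) (nat_lit 4) (nat_lit 4) (nat_lit 2) (nat_lit 4) (nat_lit 319) (nat_lit 206) (nat_lit 195)) (XT.nd (nat_lit 78) (nat_lit 0) (nat_lit 0) (XT.lf (nat_lit 0) (nat_lit 17878243928) (nat_lit 152) (nat_lit 38409556498) (nat_lit 0) (nat_lit 14232562899) (nat_lit 2) (nat_lit 5) (nat_lit 4) (nat_lit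 4) (nat_lit 2) (nat_lit 4) (nat_lit 320) (nat_lit 206) (nat_lit 194)) (XT.lf (nat_lit 0) (nat_lit 21838446514) (nat_lit 152) (nat_lit 34126364579) (nat_lit 0) (nat_lit 17974630813) (nat_lit 2) (nat_lit 5) (nat_lit 4) (nat_lit 4) (nat_lit 2) (nat_lit 4) (nat_lit 321) (nat_lit 206) (nat_lit 193)))))) (XT.nd (nat_lit 390) (nat_lit 76) (nat_lit 0) (XT.nd (nat_lit 156) (nat_lit 0) (nat_lit 0) (XT.nd (nat_lit 78) (nat_lit 0) (nat_lit 0) (XT.lf (nat_lit 0) (nat_lit 25910401146) (nat_lit 152) (nat_lit 29782887637) (nat_lit 0) (nat_lit 21838838140) (nat_lit 2) (nat_lit 5) (nat_lit 4) (nat_lit 4) (nat_lit 2) (nat_lit 4) (nat_lit 322) (nat_lit 206) (nat_lit 192)) (XT.lf (nat_lit 0) (nat_lit 30103802957) (nat_lit 152) (nat_lit 25368784060) (nat_lit 0) (nat_lit 25834385372) (nat_lit 2) (nat_lit 5) (nat_lit 4) (nat_lit 4) (nat_lit 2) (nat_lit 4) (nat_lit 323) (nat_lit 206) (nat_lit 191))) (XT.nd (nat_lit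 78) (nat_lit 0) (nat_lit 0) (XT.lf (nat_lit 0) (nat_lit 34428636234) (nat_lit 152) (nat_lit 20873544078) (nat_lit 0) (nat_lit 29970785719) (nat_lit 2) (nat_lit 5) (nat_lit 4) (nat_lit 4) (nat_lit 2) (nat_lit 4) (nat_lit 324) (nat_lit 206) (nat_lit 190)) (XT.nd (nat_lit 78) (nat_lit 0) (nat_lit 0) (XT.lf (nat_lit 0) (nat_lit 38895198201) (nat_lit 152) (nat_lit 16286464740) (nat_lit 0) (nat_lit 34257887751) (nat_lit 2) (nat_lit 5) (nat_lit 4) (nat_lit 4) (nat_lit 2) (nat_lit 4) (nat_lit 325) (nat_lit 206) (nat_lit 189)) (XT.lf (nat_lit 0) (nat_lit 43514123528) (nat_lit 152) (nat_lit 11596624426) (nat_lit 0) (nat_lit 38705898856) (nat_lit 2) (nat_lit 5) (nat_lit 4) (nat_lit 4) (nat_lit 2) (nat_lit 4) (nat_lit 326) (nat_lit 206) (nat_lit 188))))) (XT.nd (nat_lit 234) (nat_lit 0) (nat_lit 0) (XT.nd (nat_lit 78) (nat_lit 76) (nat_lit 0) (XT.lf (nat_lit 0) (nat_lit 48296409658) (nat_lit 152) (nat_lit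 6792856852) (nat_lit 0) (nat_lit 43325409534) (nat_lit 2) (nat_lit 5) (nat_lit 4) (nat_lit 4) (nat_lit 2) (nat_lit 4) (nat_lit 327) (nat_lit 206) (nat_lit 187)) (XT.nd (nat_lit 78) (nat_lit 76) (nat_lit 0) (XT.lf (nat_lit 0) (nat_lit 53253442985) (nat_lit 152) (nat_lit 1863724474) (nat_lit 0) (nat_lit 48127418623) (nat_lit 2) (nat_lit 5) (nat_lit 4) (nat_lit 4) (nat_lit 2) (nat_lit 4) (nat_lit 328) (nat_lit 206) (nat_lit 186)) (XT.lf (nat_lit 0) (nat_lit 3266244939) (nat_lit 76) (nat_lit 55162178175) (nat_lit 76) (nat_lit 49888511681) (nat_lit 1) (nat_lit 4) (nat_lit 2) (nat_lit 5) (nat_lit 2) (nat_lit 4) (nat_lit 329) (nat_lit 206) (nat_lit 185)))) (XT.nd (nat_lit 78) (nat_lit 0) (nat_lit 0) (XT.lf (nat_lit 0) (nat_lit 8585438058) (nat_lit 76) (nat_lit 55236495663) (nat_lit 76) (nat_lit 49822217614) (nat_lit 1) (nat_lit 4) (nat_lit 2) (nat_lit 5) (nat_lit 2) (nat_lit 4) (nat_lit 330) (nat_lit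 206) (nat_lit 184)) (XT.nd (nat_lit 78) (nat_lit 0) (nat_lit 0) (XT.lf (nat_lit 0) (nat_lit 14069427858) (nat_lit 76) (nat_lit 55359116831) (nat_lit 76) (nat_lit 49810923017) (nat_lit 1) (nat_lit 4) (nat_lit 2) (nat_lit 5) (nat_lit 2) (nat_lit 4) (nat_lit 331) (nat_lit 206) (nat_lit 183)) (XT.lf (nat_lit 0) (nat_lit 19731271456) (nat_lit 76) (nat_lit 55530333636) (nat_lit 76) (nat_lit 49854600997) (nat_lit 1) (nat_lit 4) (nat_lit 2) (nat_lit 5) (nat_lit 2) (nat_lit 4) (nat_lit 332) (nat_lit 206) (nat_lit 182))))))))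
noncomputable def xc4 : XT := (XT.nd (nat_lit 1638) (nat_lit 76) (nat_lit 0) (XT.nd (nat_lit 780) (nat_lit 152) (nat_lit 0) (XT.nd (nat_lit 390) (nat_lit 0) (nat_lit 0) (XT.nd (nat_lit 156) (nat_lit 76) (nat_lit 0) (XT.nd (nat_lit 78) (nat_lit 0) (nat_lit 0) (XT.lf (nat_lit 0) (nat_lit 3590910707) (nat_lit 152) (nat_lit 11279200390) (nat_lit 0) (nat_lit 3590910707) (nat_lit 5) (nat_lit 5) (nat_lit 7) (nat_lit 4) (nat_lit 5) (nat_lit 4) (nat_lit 306) (nat_lit 207) (nat_lit 207)) (XT.lf (nat_lit 0) (nat_lit 11997709072) (nat_lit 152) (nat_lit 15045348957) (nat_lit 0) (nat_lit 11574043852) (nat_lit 5) (nat_lit 5) (nat_lit 7) (nat_lit 4) (nat_lit 5) (nat_lit 4) (nat_lit 307) (nat_lit 207) (nat_lit 206))) (XT.nd (nat_lit 78) (nat_lit 76) (nat_lit 0) (XT.lf (nat_lit 0) (nat_lit 16900038234) (nat_lit 152) (nat_lit 7428748878) (nat_lit 0) (nat_lit 16072882328) (nat_lit 5) (nat_lit 5) (nat_lit 7)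 (nat_lit 4) (nat_lit 5) (nat_lit 4) (nat_lit 308) (nat_lit 207) (nat_lit 205)) (XT.nd (nat_lit 78) (nat_lit 0) (nat_lit 0) (XT.lf (nat_lit 0) (nat_lit 315694555) (nat_lit 76) (nat_lit 21587821207) (nat_lit 76) (nat_lit 20376388456) (nat_lit 4) (nat_lit 4) (nat_lit 5) (nat_lit 5) (nat_lit 5) (nat_lit 4) (nat_lit 309) (nat_lit 207) (nat_lit 204)) (XT.lf (nat_lit 0) (nat_lit 8350880571) (nat_lit 76) (nat_lit 18740336726) (nat_lit 76) (nat_lit 17162926029) (nat_lit 4) (nat_lit 4) (nat_lit 5) (nat_lit 5) (nat_lit 5) (nat_lit 4) (nat_lit 310) (nat_lit 207) (nat_lit 203))))) (XT.nd (nat_lit 156) (nat_lit 0) (nat_lit 0) (XT.nd (nat_lit 78) (nat_lit 0) (nat_lit 0) (XT.lf (nat_lit 0) (nat_lit 16548093897) (nat_lit 76) (nat_lit 15854569742) (nat_lit 76) (nat_lit 13928608619) (nat_lit 4) (nat_lit 4) (nat_lit 5) (nat_lit 5) (nat_lit 5) (nat_lit 4) (nat_lit 311) (nat_lit 207) (nat_lit 202)) (XT.lf (nat_lit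 0) (nat_lit 24926851707) (nat_lit 76) (nat_lit 12923649381) (nat_lit 76) (nat_lit 10665735472) (nat_lit 4) (nat_lit 4) (nat_lit 5) (nat_lit 5) (nat_lit 5) (nat_lit 4) (nat_lit 312) (nat_lit 207) (nat_lit 201))) (XT.nd (nat_lit 78) (nat_lit 0) (nat_lit 0) (XT.lf (nat_lit 0) (nat_lit 33507103424) (nat_lit 76) (nat_lit 9940597262) (nat_lit 76) (nat_lit 7366537842) (nat_lit 4) (nat_lit 4) (nat_lit 5) (nat_lit 5) (nat_lit 5) (nat_lit 4) (nat_lit 313) (nat_lit 207) (nat_lit 200)) (XT.nd (nat_lit 78) (nat_lit 0) (nat_lit 0) (XT.lf (nat_lit 0) (nat_lit 42309278219) (nat_lit 76) (nat_lit 6898310878) (nat_lit 76) (nat_lit 4023160496) (nat_lit 4) (nat_lit 4) (nat_lit 5) (nat_lit 5) (nat_lit 5) (nat_lit 4) (nat_lit 314) (nat_lit 207) (nat_lit 199)) (XT.lf (nat_lit 0) (nat_lit 51354333652) (nat_lit 76) (nat_lit 3789546692) (nat_lit 76) (nat_lit 627643013) (nat_lit 4) (nat_lit 4) (nat_lit 5) (nat_lit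 5) (nat_lit 5) (nat_lit 4) (nat_lit 315) (nat_lit 207) (nat_lit 198)))))) (XT.nd (nat_lit 390) (nat_lit 0) (nat_lit 0) (XT.nd (nat_lit 156) (nat_lit 0) (nat_lit 0) (XT.nd (nat_lit 78) (nat_lit 0) (nat_lit 0) (XT.lf (nat_lit 0) (nat_lit 2237675988) (nat_lit 76) (nat_lit 556746694) (nat_lit 152) (nat_lit 55646725735) (nat_lit 2) (nat_lit 5) (nat_lit 3) (nat_lit 5) (nat_lit 4) (nat_lit 4) (nat_lit 316) (nat_lit 207) (nat_lit 197)) (XT.lf (nat_lit 0) (nat_lit 6343083394) (nat_lit 152) (nat_lit 52146397671) (nat_lit 0) (nat_lit 2755611790) (nat_lit 2) (nat_lit 5) (nat_lit 4) (nat_lit 4) (nat_lit 2) (nat_lit 4) (nat_lit 317) (nat_lit 207) (nat_lit 196))) (XT.nd (nat_lit 78) (nat_lit 0) (nat_lit 0) (XT.lf (nat_lit 0) (nat_lit 9974942008) (nat_lit 152) (nat_lit 48070217606) (nat_lit 0) (nat_lit 6146976928) (nat_lit 2) (nat_lit 5) (nat_lit 4) (nat_lit 4) (nat_lit 2) (nat_lit 4) (nat_lit 318) (nat_lit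 207) (nat_lit 195)) (XT.nd (nat_lit 78) (nat_lit 0) (nat_lit 0) (XT.lf (nat_lit 0) (nat_lit 13693294017) (nat_lit 152) (nat_lit 43959875255) (nat_lit 0) (nat_lit 9636287532) (nat_lit 2) (nat_lit 5) (nat_lit 4) (nat_lit 4) (nat_lit 2) (nat_lit 4) (nat_lit 319) (nat_lit 207) (nat_lit 194)) (XT.lf (nat_lit 0) (nat_lit 17506992641) (nat_lit 152) (nat_lit 39805584088) (nat_lit 0) (nat_lit 13231851484) (nat_lit 2) (nat_lit 5) (nat_lit 4) (nat_lit 4) (nat_lit 2) (nat_lit 4) (nat_lit 320) (nat_lit 207) (nat_lit 193))))) (XT.nd (nat_lit 234) (nat_lit 0) (nat_lit 0) (XT.nd (nat_lit 78) (nat_lit 0) (nat_lit 0) (XT.lf (nat_lit 0) (nat_lit 21425118113) (nat_lit 152) (nat_lit 35597452936) (nat_lit 0) (nat_lit 16942229650) (nat_lit 2) (nat_lit 5) (nat_lit 4) (nat_lit 4) (nat_lit 2) (nat_lit 4) (nat_lit 321) (nat_lit 207) (nat_lit 192)) (XT.nd (nat_lit 78) (nat_lit 0) (nat_lit 0) (XT.lf (nat_lit 0) (nat_lit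 25456999305) (nat_lit 152) (nat_lit 31325462439) (nat_lit 0) (nat_lit 20776256264) (nat_lit 2) (nat_lit 5) (nat_lit 4) (nat_lit 4) (nat_lit 2) (nat_lit 4) (nat_lit 322) (nat_lit 207) (nat_lit 191)) (XT.lf (nat_lit 0) (nat_lit 29612235933) (nat_lit 152) (nat_lit 26979441192) (nat_lit 0) (nat_lit 24743059961) (nat_lit 2) (nat_lit 5) (nat_lit 4) (nat_lit 4) (nat_lit 2) (nat_lit 4) (nat_lit 323) (nat_lit 207) (nat_lit 190)))) (XT.nd (nat_lit 78) (nat_lit 0) (nat_lit 0) (XT.lf (nat_lit 0) (nat_lit 33900721418) (nat_lit 152) (nat_lit 22549041523) (nat_lit 0) (nat_lit 28852085511) (nat_lit 2) (nat_lit 5) (nat_lit 4) (nat_lit 4) (nat_lit 2) (nat_lit 4) (nat_lit 324) (nat_lit 207) (nat_lit 189)) (XT.nd (nat_lit 78) (nat_lit 0) (nat_lit 0) (XT.lf (nat_lit 0) (nat_lit 38332666440) (nat_lit 152) (nat_lit 18023714863) (nat_lit 0) (nat_lit 33113116310) (nat_lit 2) (nat_lit 5) (nat_lit 4) (nat_lit 4) (nat_lit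 2) (nat_lit 4) (nat_lit 325) (nat_lit 207) (nat_lit 188)) (XT.lf (nat_lit 0) (nat_lit 42918623248) (nat_lit 152) (nat_lit 13392686625) (nat_lit 0) (nat_lit 37536297668) (nat_lit 2) (nat_lit 5) (nat_lit 4) (nat_lit 4) (nat_lit 2) (nat_lit 4) (nat_lit 326) (nat_lit 207) (nat_lit 187))))))) (XT.nd (nat_lit 36036) (nat_lit 0) (nat_lit 76) (XT.nd (nat_lit 390) (nat_lit 0) (nat_lit 0) (XT.nd (nat_lit 156) (nat_lit 76) (nat_lit 0) (XT.nd (nat_lit 78) (nat_lit 0) (nat_lit 0) (XT.lf (nat_lit 0) (nat_lit 47669510788) (nat_lit 152) (nat_lit 8644930551) (nat_lit 0) (nat_lit 42132160969) (nat_lit 2) (nat_lit 5) (nat_lit 4) (nat_lit 4) (nat_lit 2) (nat_lit 4) (nat_lit 327) (nat_lit 207) (nat_lit 186)) (XT.lf (nat_lit 0) (nat_lit 52596640696) (nat_lit 152) (nat_lit 3769142459) (nat_lit 0) (nat_lit 46911648745) (nat_lit 2) (nat_lit 5) (nat_lit 4) (nat_lit 4) (nat_lit 2) (nat_lit 4) (nat_lit 328) (nat_lit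 207) (nat_lit 185))) (XT.nd (nat_lit 78) (nat_lit 0) (nat_lit 0) (XT.lf (nat_lit 0) (nat_lit 1271090216) (nat_lit 76) (nat_lit 56452872514) (nat_lit 76) (nat_lit 50627269009) (nat_lit 1) (nat_lit 4) (nat_lit 2) (nat_lit 5) (nat_lit 2) (nat_lit 4) (nat_lit 329) (nat_lit 207) (nat_lit 184)) (XT.nd (nat_lit 78) (nat_lit 0) (nat_lit 0) (XT.lf (nat_lit 0) (nat_lit 6540935543) (nat_lit 76) (nat_lit 56548940151) (nat_lit 76) (nat_lit 50589420880) (nat_lit 1) (nat_lit 4) (nat_lit 2) (nat_lit 5) (nat_lit 2) (nat_lit 4) (nat_lit 330) (nat_lit 207) (nat_lit 183)) (XT.lf (nat_lit 0) (nat_lit 11977927444) (nat_lit 76) (nat_lit 56692275748) (nat_lit 76) (nat_lit 50605217652) (nat_lit 1) (nat_lit 4) (nat_lit 2) (nat_lit 5) (nat_lit 2) (nat_lit 4) (nat_lit 331) (nat_lit 207) (nat_lit 182))))) (XT.nd (nat_lit 35412) (nat_lit 0) (nat_lit 304) (XT.nd (nat_lit 35334) (nat_lit 0) (nat_lit 456) (XT.lf (nat_lit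 0) (nat_lit 17595011139) (nat_lit 76) (nat_lit 56883220580) (nat_lit 76) (nat_lit 50674696936) (nat_lit 1) (nat_lit 4) (nat_lit 2) (nat_lit 5) (nat_lit 2) (nat_lit 4) (nat_lit 332) (nat_lit 207) (nat_lit 181)) (XT.lf (nat_lit 0) (nat_lit 15198281487) (nat_lit 76) (nat_lit 845853344) (nat_lit 76) (nat_lit 845853344) (nat_lit 7) (nat_lit 4) (nat_lit 8) (nat_lit 5) (nat_lit 8) (nat_lit 4) (nat_lit 304) (nat_lit 208) (nat_lit 208))) (XT.nd (nat_lit 78) (nat_lit 0) (nat_lit 0) (XT.lf (nat_lit 0) (nat_lit 2885757343) (nat_lit 152) (nat_lit 29985792570) (nat_lit 0) (nat_lit 2440908862) (nat_lit 5) (nat_lit 5) (nat_lit 7) (nat_lit 4) (nat_lit 5) (nat_lit 4) (nat_lit 305) (nat_lit 208) (nat_lit 207)) (XT.nd (nat_lit 78) (nat_lit 0) (nat_lit 0) (XT.lf (nat_lit 0) (nat_lit 7547611104) (nat_lit 152) (nat_lit 22697771295) (nat_lit 0) (nat_lit 6679097402) (nat_lit 5) (nat_lit 5) (nat_lit 7) (nat_lit 4)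 (nat_lit 5) (nat_lit 4) (nat_lit 306) (nat_lit 208) (nat_lit 206)) (XT.lf (nat_lit 0) (nat_lit 12288204675) (nat_lit 152) (nat_lit 15317453293) (nat_lit 0) (nat_lit 11016200287) (nat_lit 5) (nat_lit 5) (nat_lit 7) (nat_lit 4) (nat_lit 5) (nat_lit 4) (nat_lit 307) (nat_lit 208) (nat_lit 205)))))) (XT.nd (nat_lit 390) (nat_lit 152) (nat_lit 0) (XT.nd (nat_lit 156) (nat_lit 76) (nat_lit 0) (XT.nd (nat_lit 78) (nat_lit 0) (nat_lit 0) (XT.lf (nat_lit 0) (nat_lit 17118825183) (nat_lit 152) (nat_lit 7827266379) (nat_lit 0) (nat_lit 15462543951) (nat_lit 5) (nat_lit 5) (nat_lit 7) (nat_lit 4) (nat_lit 5) (nat_lit 4) (nat_lit 308) (nat_lit 208) (nat_lit 204)) (XT.lf (nat_lit 0) (nat_lit 22050974105) (nat_lit 152) (nat_lit 209376773) (nat_lit 0) (nat_lit 20028714926) (nat_lit 5) (nat_lit 5) (nat_lit 7) (nat_lit 4) (nat_lit 5) (nat_lit 4) (nat_lit 309) (nat_lit 208) (nat_lit 203))) (XT.nd (nat_lit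 78) (nat_lit 0) (nat_lit 0) (XT.lf (nat_lit 0) (nat_lit 7704699799) (nat_lit 76) (nat_lit 19465757142) (nat_lit 76) (nat_lit 17094947538) (nat_lit 4) (nat_lit 4) (nat_lit 5) (nat_lit 5) (nat_lit 5) (nat_lit 4) (nat_lit 310) (nat_lit 208) (nat_lit 202)) (XT.nd (nat_lit 78) (nat_lit 0) (nat_lit 0) (XT.lf (nat_lit 0) (nat_lit 15790539377) (nat_lit 76) (nat_lit 16628348681) (nat_lit 76) (nat_lit 13925586291) (nat_lit 4) (nat_lit 4) (nat_lit 5) (nat_lit 5) (nat_lit 5) (nat_lit 4) (nat_lit 311) (nat_lit 208) (nat_lit 201)) (XT.lf (nat_lit 0) (nat_lit 24063226951) (nat_lit 76) (nat_lit 13743484057) (nat_lit 76) (nat_lit 10724576156) (nat_lit 4) (nat_lit 4) (nat_lit 5) (nat_lit 5) (nat_lit 5) (nat_lit 4) (nat_lit 312) (nat_lit 208) (nat_lit 200))))) (XT.nd (nat_lit 234) (nat_lit 152) (nat_lit 0) (XT.nd (nat_lit 78) (nat_lit 0) (nat_lit 0) (XT.lf (nat_lit 0) (nat_lit 32542459396) (nat_lit 76) (nat_lit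 10804294543) (nat_lit 76) (nat_lit 7484295680) (nat_lit 4) (nat_lit 4) (nat_lit 5) (nat_lit 5) (nat_lit 5) (nat_lit 4) (nat_lit 313) (nat_lit 208) (nat_lit 199)) (XT.nd (nat_lit 78) (nat_lit 0) (nat_lit 0) (XT.lf (nat_lit 0) (nat_lit 41248425361) (nat_lit 76) (nat_lit 7803782070) (nat_lit 76) (nat_lit 4197029909) (nat_lit 4) (nat_lit 4) (nat_lit 5) (nat_lit 5) (nat_lit 5) (nat_lit 4) (nat_lit 314) (nat_lit 208) (nat_lit 198)) (XT.lf (nat_lit 0) (nat_lit 50201853336) (nat_lit 76) (nat_lit 4734802561) (nat_lit 76) (nat_lit 854952021) (nat_lit 4) (nat_lit 4) (nat_lit 5) (nat_lit 5) (nat_lit 5) (nat_lit 4) (nat_lit 315) (nat_lit 208) (nat_lit 197)))) (XT.nd (nat_lit 78) (nat_lit 0) (nat_lit 0) (XT.lf (nat_lit 0) (nat_lit 953950242) (nat_lit 76) (nat_lit 1555357381) (nat_lit 152) (nat_lit 55953896558) (nat_lit 2) (nat_lit 5) (nat_lit 3) (nat_lit 5) (nat_lit 4) (nat_lit 4) (nat_lit 316) (nat_lit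 208) (nat_lit 196)) (XT.nd (nat_lit 78) (nat_lit 0) (nat_lit 0) (XT.lf (nat_lit 0) (nat_lit 5999659560) (nat_lit 152) (nat_lit 53529472145) (nat_lit 0) (nat_lit 1739802750) (nat_lit 2) (nat_lit 5) (nat_lit 4) (nat_lit 4) (nat_lit 2) (nat_lit 4) (nat_lit 317) (nat_lit 208) (nat_lit 195)) (XT.lf (nat_lit 0) (nat_lit 9585128156) (nat_lit 152) (nat_lit 49536046576) (nat_lit 0) (nat_lit 5096229942) (nat_lit 2) (nat_lit 5) (nat_lit 4) (nat_lit 4) (nat_lit 2) (nat_lit 4) (nat_lit 318) (nat_lit 208) (nat_lit 194))))))))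
noncomputable def xc5 : XT := (XT.nd (nat_lit 36738) (nat_lit 0) (nat_lit 76) (XT.nd (nat_lit 780) (nat_lit 76) (nat_lit 0) (XT.nd (nat_lit 390) (nat_lit 0) (nat_lit 0) (XT.nd (nat_lit 156) (nat_lit 0) (nat_lit 0) (XT.nd (nat_lit 78) (nat_lit 0) (nat_lit 0) (XT.lf (nat_lit 0) (nat_lit 13259299197) (nat_lit 152) (nat_lit 45504518031) (nat_lit 0) (nat_lit 8552266310) (nat_lit 2) (nat_lit 5) (nat_lit 4) (nat_lit 4) (nat_lit 2) (nat_lit 4) (nat_lit 319) (nat_lit 208) (nat_lit 193)) (XT.lf (nat_lit 0) (nat_lit 17030920707) (nat_lit 152) (nat_lit 41425287631) (nat_lit 0) (nat_lit 12116140514) (nat_lit 2) (nat_lit 5) (nat_lit 4) (nat_lit 4) (nat_lit 2) (nat_lit 4) (nat_lit 320) (nat_lit 208) (nat_lit 192))) (XT.nd (nat_lit 78) (nat_lit 0) (nat_lit 0) (XT.lf (nat_lit 0) (nat_lit 20908972738) (nat_lit 152) (nat_lit 37288642924) (nat_lit 0) (nat_lit 15796337968) (nat_lit 2) (nat_lit 5) (nat_lit 4)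 (nat_lit 4) (nat_lit 2) (nat_lit 4) (nat_lit 321) (nat_lit 208) (nat_lit 191)) (XT.nd (nat_lit 78) (nat_lit 0) (nat_lit 0) (XT.lf (nat_lit 0) (nat_lit 24902688748) (nat_lit 152) (nat_lit 33084734756) (nat_lit 0) (nat_lit 19601621046) (nat_lit 2) (nat_lit 5) (nat_lit 4) (nat_lit 4) (nat_lit 2) (nat_lit 4) (nat_lit 322) (nat_lit 208) (nat_lit 190)) (XT.lf (nat_lit 0) (nat_lit 29021577584) (nat_lit 152) (nat_lit 28803553822) (nat_lit 0) (nat_lit 23541049947) (nat_lit 2) (nat_lit 5) (nat_lit 4) (nat_lit 4) (nat_lit 2) (nat_lit 4) (nat_lit 323) (nat_lit 208) (nat_lit 189))))) (XT.nd (nat_lit 156) (nat_lit 0) (nat_lit 0) (XT.nd (nat_lit 78) (nat_lit 0) (nat_lit 0) (XT.lf (nat_lit 0) (nat_lit 33275446123) (nat_lit 152) (nat_lit 24434906832) (nat_lit 0) (nat_lit 27624004264) (nat_lit 2) (nat_lit 5) (nat_lit 4) (nat_lit 4) (nat_lit 2) (nat_lit 4) (nat_lit 324) (nat_lit 208) (nat_lit 188)) (XT.lf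 (nat_lit 0) (nat_lit 37674422626) (nat_lit 152) (nat_lit 19968392248) (nat_lit 0) (nat_lit 31860205316) (nat_lit 2) (nat_lit 5) (nat_lit 4) (nat_lit 4) (nat_lit 2) (nat_lit 4) (nat_lit 325) (nat_lit 208) (nat_lit 187))) (XT.nd (nat_lit 78) (nat_lit 0) (nat_lit 0) (XT.lf (nat_lit 0) (nat_lit 42228980844) (nat_lit 152) (nat_lit 15393375510) (nat_lit 0) (nat_lit 36259739296) (nat_lit 2) (nat_lit 5) (nat_lit 4) (nat_lit 4) (nat_lit 2) (nat_lit 4) (nat_lit 326) (nat_lit 208) (nat_lit 186)) (XT.nd (nat_lit 78) (nat_lit 0) (nat_lit 0) (XT.lf (nat_lit 0) (nat_lit 46949964965) (nat_lit 152) (nat_lit 10698963722) (nat_lit 0) (nat_lit 40833081285) (nat_lit 2) (nat_lit 5) (nat_lit 4) (nat_lit 4) (nat_lit 2) (nat_lit 4) (nat_lit 327) (nat_lit 208) (nat_lit 185)) (XT.lf (nat_lit 0) (nat_lit 51848615427) (nat_lit 152) (nat_lit 5873979712) (nat_lit 0) (nat_lit 45591120192) (nat_lit 2) (nat_lit 5) (nat_lit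 4) (nat_lit 4) (nat_lit 2) (nat_lit 4) (nat_lit 328) (nat_lit 208) (nat_lit 184)))))) (XT.nd (nat_lit 35490) (nat_lit 0) (nat_lit 304) (XT.nd (nat_lit 156) (nat_lit 0) (nat_lit 0) (XT.nd (nat_lit 78) (nat_lit 76) (nat_lit 0) (XT.lf (nat_lit 0) (nat_lit 56936595683) (nat_lit 152) (nat_lit 906935424) (nat_lit 0) (nat_lit 50545184682) (nat_lit 2) (nat_lit 5) (nat_lit 4) (nat_lit 4) (nat_lit 2) (nat_lit 4) (nat_lit 329) (nat_lit 208) (nat_lit 183)) (XT.lf (nat_lit 0) (nat_lit 4297862210) (nat_lit 76) (nat_lit 57969471442) (nat_lit 76) (nat_lit 51450521616) (nat_lit 1) (nat_lit 4) (nat_lit 2) (nat_lit 5) (nat_lit 2) (nat_lit 4) (nat_lit 330) (nat_lit 208) (nat_lit 182))) (XT.nd (nat_lit 78) (nat_lit 0) (nat_lit 0) (XT.lf (nat_lit 0) (nat_lit 9690094208) (nat_lit 76) (nat_lit 58132535066) (nat_lit 76) (nat_lit 51492119692) (nat_lit 1) (nat_lit 4) (nat_lit 2) (nat_lit 5) (nat_lit 2) (nat_lit 4)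 (nat_lit 331) (nat_lit 208) (nat_lit 181)) (XT.nd (nat_lit 35178) (nat_lit 0) (nat_lit 456) (XT.lf (nat_lit 0) (nat_lit 15264549424) (nat_lit 76) (nat_lit 58342268495) (nat_lit 76) (nat_lit 51586171647) (nat_lit 1) (nat_lit 4) (nat_lit 2) (nat_lit 5) (nat_lit 2) (nat_lit 4) (nat_lit 332) (nat_lit 208) (nat_lit 180)) (XT.lf (nat_lit 0) (nat_lit 5384821765) (nat_lit 76) (nat_lit 5041746310) (nat_lit 76) (nat_lit 5041746310) (nat_lit 7) (nat_lit 4) (nat_lit 8) (nat_lit 5) (nat_lit 8) (nat_lit 4) (nat_lit 302) (nat_lit 209) (nat_lit 209))))) (XT.nd (nat_lit 234) (nat_lit 0) (nat_lit 0) (XT.nd (nat_lit 78) (nat_lit 152) (nat_lit 0) (XT.lf (nat_lit 0) (nat_lit 20415405016) (nat_lit 76) (nat_lit 6194029350) (nat_lit 76) (nat_lit 5712925718) (nat_lit 7) (nat_lit 4) (nat_lit 8) (nat_lit 5) (nat_lit 8) (nat_lit 4) (nat_lit 303) (nat_lit 209) (nat_lit 208)) (XT.nd (nat_lit 78) (nat_lit 152) (nat_lit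 0) (XT.lf (nat_lit 0) (nat_lit 30256666211) (nat_lit 76) (nat_lit 2232541183) (nat_lit 76) (nat_lit 1293243614) (nat_lit 7) (nat_lit 4) (nat_lit 8) (nat_lit 5) (nat_lit 8) (nat_lit 4) (nat_lit 304) (nat_lit 209) (nat_lit 207)) (XT.lf (nat_lit 0) (nat_lit 3190777726) (nat_lit 152) (nat_lit 30271502123) (nat_lit 0) (nat_lit 1855173119) (nat_lit 5) (nat_lit 5) (nat_lit 7) (nat_lit 4) (nat_lit 5) (nat_lit 4) (nat_lit 305) (nat_lit 209) (nat_lit 206)))) (XT.nd (nat_lit 78) (nat_lit 0) (nat_lit 0) (XT.lf (nat_lit 0) (nat_lit 7777337400) (nat_lit 152) (nat_lit 23116214671) (nat_lit 0) (nat_lit 6038242107) (nat_lit 5) (nat_lit 5) (nat_lit 7) (nat_lit 4) (nat_lit 5) (nat_lit 4) (nat_lit 306) (nat_lit 209) (nat_lit 205)) (XT.nd (nat_lit 78) (nat_lit 0) (nat_lit 0) (XT.lf (nat_lit 0) (nat_lit 12446222317) (nat_lit 152) (nat_lit 15862309834) (nat_lit 0) (nat_lit 10322850179) (nat_lit 5) (nat_lit 5)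 (nat_lit 7) (nat_lit 4) (nat_lit 5) (nat_lit 4) (nat_lit 307) (nat_lit 209) (nat_lit 204)) (XT.lf (nat_lit 0) (nat_lit 17208548868) (nat_lit 152) (nat_lit 8492516410) (nat_lit 0) (nat_lit 14719198784) (nat_lit 5) (nat_lit 5) (nat_lit 7) (nat_lit 4) (nat_lit 5) (nat_lit 4) (nat_lit 308) (nat_lit 209) (nat_lit 203))))))) (XT.nd (nat_lit 780) (nat_lit 0) (nat_lit 0) (XT.nd (nat_lit 390) (nat_lit 152) (nat_lit 0) (XT.nd (nat_lit 156) (nat_lit 0) (nat_lit 0) (XT.nd (nat_lit 78) (nat_lit 76) (nat_lit 0) (XT.lf (nat_lit 0) (nat_lit 22075655927) (nat_lit 152) (nat_lit 989287271) (nat_lit 0) (nat_lit 19237755417) (nat_lit 5) (nat_lit 5) (nat_lit 7) (nat_lit 4) (nat_lit 5) (nat_lit 4) (nat_lit 309) (nat_lit 209) (nat_lit 202)) (XT.lf (nat_lit 0) (nat_lit 6797893806) (nat_lit 76) (nat_lit 20326583552) (nat_lit 76) (nat_lit 17156730256) (nat_lit 4) (nat_lit 4) (nat_lit 5) (nat_lit 5) (nat_lit 5) (nat_lit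 4) (nat_lit 310) (nat_lit 209) (nat_lit 201))) (XT.nd (nat_lit 78) (nat_lit 0) (nat_lit 0) (XT.lf (nat_lit 0) (nat_lit 14777663148) (nat_lit 76) (nat_lit 17535230827) (nat_lit 76) (nat_lit 14049232020) (nat_lit 4) (nat_lit 4) (nat_lit 5) (nat_lit 5) (nat_lit 5) (nat_lit 4) (nat_lit 311) (nat_lit 209) (nat_lit 200)) (XT.nd (nat_lit 78) (nat_lit 0) (nat_lit 0) (XT.lf (nat_lit 0) (nat_lit 22949331450) (nat_lit 76) (nat_lit 14694228809) (nat_lit 76) (nat_lit 10907139039) (nat_lit 4) (nat_lit 4) (nat_lit 5) (nat_lit 5) (nat_lit 5) (nat_lit 4) (nat_lit 312) (nat_lit 209) (nat_lit 199)) (XT.lf (nat_lit 0) (nat_lit 31332355065) (nat_lit 76) (nat_lit 11796813205) (nat_lit 76) (nat_lit 7722970139) (nat_lit 4) (nat_lit 4) (nat_lit 5) (nat_lit 5) (nat_lit 5) (nat_lit 4) (nat_lit 313) (nat_lit 209) (nat_lit 198))))) (XT.nd (nat_lit 156) (nat_lit 152) (nat_lit 0) (XT.nd (nat_lit 78) (nat_lit 0) (nat_lit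 0) (XT.lf (nat_lit 0) (nat_lit 39946693572) (nat_lit 76) (nat_lit 8836085409) (nat_lit 76) (nat_lit 4489143964) (nat_lit 4) (nat_lit 4) (nat_lit 5) (nat_lit 5) (nat_lit 5) (nat_lit 4) (nat_lit 314) (nat_lit 209) (nat_lit 197)) (XT.lf (nat_lit 0) (nat_lit 48812857301) (nat_lit 76) (nat_lit 5804996068) (nat_lit 76) (nat_lit 1197960929) (nat_lit 4) (nat_lit 4) (nat_lit 5) (nat_lit 5) (nat_lit 5) (nat_lit 4) (nat_lit 315) (nat_lit 209) (nat_lit 196))) (XT.nd (nat_lit 78) (nat_lit 76) (nat_lit 0) (XT.lf (nat_lit 0) (nat_lit 2116296663) (nat_lit 152) (nat_lit 558661193) (nat_lit 76) (nat_lit 55814289057) (nat_lit 3) (nat_lit 5) (nat_lit 5) (nat_lit 5) (nat_lit 4) (nat_lit 4) (nat_lit 316) (nat_lit 209) (nat_lit 195)) (XT.nd (nat_lit 78) (nat_lit 0) (nat_lit 0) (XT.lf (nat_lit 0) (nat_lit 5543964998) (nat_lit 152) (nat_lit 55151347059) (nat_lit 0) (nat_lit 601580467) (nat_lit 2) (nat_lit 5) (nat_lit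 4) (nat_lit 4) (nat_lit 2) (nat_lit 4) (nat_lit 317) (nat_lit 209) (nat_lit 194)) (XT.lf (nat_lit 0) (nat_lit 9085252626) (nat_lit 152) (nat_lit 51236735296) (nat_lit 0) (nat_lit 3924733423) (nat_lit 2) (nat_lit 5) (nat_lit 4) (nat_lit 4) (nat_lit 2) (nat_lit 4) (nat_lit 318) (nat_lit 209) (nat_lit 193)))))) (XT.nd (nat_lit 390) (nat_lit 0) (nat_lit 0) (XT.nd (nat_lit 156) (nat_lit 0) (nat_lit 0) (XT.nd (nat_lit 78) (nat_lit 0) (nat_lit 0) (XT.lf (nat_lit 0) (nat_lit 12717346553) (nat_lit 152) (nat_lit 47280267518) (nat_lit 0) (nat_lit 7349080044) (nat_lit 2) (nat_lit 5) (nat_lit 4) (nat_lit 4) (nat_lit 2) (nat_lit 4) (nat_lit 319) (nat_lit 209) (nat_lit 192)) (XT.lf (nat_lit 0) (nat_lit 16448894622) (nat_lit 152) (nat_lit 43272523564) (nat_lit 0) (nat_lit 10882773535) (nat_lit 2) (nat_lit 5) (nat_lit 4) (nat_lit 4) (nat_lit 2) (nat_lit 4) (nat_lit 320) (nat_lit 209) (nat_lit 191))) (XT.nd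 (nat_lit 78) (nat_lit 0) (nat_lit 0) (XT.lf (nat_lit 0) (nat_lit 20288781471) (nat_lit 152) (nat_lit 39203961186) (nat_lit 0) (nat_lit 14534227453) (nat_lit 2) (nat_lit 5) (nat_lit 4) (nat_lit 4) (nat_lit 2) (nat_lit 4) (nat_lit 321) (nat_lit 209) (nat_lit 190)) (XT.nd (nat_lit 78) (nat_lit 0) (nat_lit 0) (XT.lf (nat_lit 0) (nat_lit 24246149689) (nat_lit 152) (nat_lit 35064893331) (nat_lit 0) (nat_lit 18312135736) (nat_lit 2) (nat_lit 5) (nat_lit 4) (nat_lit 4) (nat_lit 2) (nat_lit 4) (nat_lit 322) (nat_lit 209) (nat_lit 189)) (XT.lf (nat_lit 0) (nat_lit 28330421579) (nat_lit 152) (nat_lit 30845465075) (nat_lit 0) (nat_lit 22225493404) (nat_lit 2) (nat_lit 5) (nat_lit 4) (nat_lit 4) (nat_lit 2) (nat_lit 4) (nat_lit 323) (nat_lit 209) (nat_lit 188))))) (XT.nd (nat_lit 234) (nat_lit 0) (nat_lit 0) (XT.nd (nat_lit 78) (nat_lit 0) (nat_lit 0) (XT.lf (nat_lit 0) (nat_lit 32551321600) (nat_lit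 152) (nat_lit 26535630161) (nat_lit 0) (nat_lit 26283617974) (nat_lit 2) (nat_lit 5) (nat_lit 4) (nat_lit 4) (nat_lit 2) (nat_lit 4) (nat_lit 324) (nat_lit 209) (nat_lit 187)) (XT.nd (nat_lit 78) (nat_lit 0) (nat_lit 0) (XT.lf (nat_lit 0) (nat_lit 36918899512) (nat_lit 152) (nat_lit 22125127077) (nat_lit 0) (nat_lit 30496171648) (nat_lit 2) (nat_lit 5) (nat_lit 4) (nat_lit 4) (nat_lit 2) (nat_lit 4) (nat_lit 325) (nat_lit 209) (nat_lit 186)) (XT.lf (nat_lit 0) (nat_lit 41443554312) (nat_lit 152) (nat_lit 17603454626) (nat_lit 0) (nat_lit 34873184315) (nat_lit 2) (nat_lit 5) (nat_lit 4) (nat_lit 4) (nat_lit 2) (nat_lit 4) (nat_lit 326) (nat_lit 209) (nat_lit 185)))) (XT.nd (nat_lit 78) (nat_lit 0) (nat_lit 0) (XT.lf (nat_lit 0) (nat_lit 46136058987) (nat_lit 152) (nat_lit 12959846919) (nat_lit 0) (nat_lit 39425077435) (nat_lit 2) (nat_lit 5) (nat_lit 4) (nat_lit 4) (nat_lit 2) (nat_lit 4)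 (nat_lit 327) (nat_lit 209) (nat_lit 184)) (XT.nd (nat_lit 78) (nat_lit 0) (nat_lit 0) (XT.lf (nat_lit 0) (nat_lit 51007586166) (nat_lit 152) (nat_lit 8183247750) (nat_lit 0) (nat_lit 44162688849) (nat_lit 2) (nat_lit 5) (nat_lit 4) (nat_lit 4) (nat_lit 2) (nat_lit 4) (nat_lit 328) (nat_lit 209) (nat_lit 183)) (XT.lf (nat_lit 0) (nat_lit 56069734725) (nat_lit 152) (nat_lit 3262284261) (nat_lit 0) (nat_lit 49097298582) (nat_lit 2) (nat_lit 5) (nat_lit 4) (nat_lit 4) (nat_lit 2) (nat_lit 4) (nat_lit 329) (nat_lit 209) (nat_lit 182))))))))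
noncomputable def xc6 : XT := (XT.nd (nat_lit 36504) (nat_lit 0) (nat_lit 0) (XT.nd (nat_lit 35646) (nat_lit 0) (nat_lit 152) (XT.nd (nat_lit 35256) (nat_lit 0) (nat_lit 304) (XT.nd (nat_lit 156) (nat_lit 0) (nat_lit 0) (XT.nd (nat_lit 78) (nat_lit 0) (nat_lit 0) (XT.lf (nat_lit 0) (nat_lit 1850877409) (nat_lit 76) (nat_lit 59501471753) (nat_lit 76) (nat_lit 52407570063) (nat_lit 1) (nat_lit 4) (nat_lit 2) (nat_lit 5) (nat_lit 2) (nat_lit 4) (nat_lit 330) (nat_lit 209) (nat_lit 181)) (XT.lf (nat_lit 0) (nat_lit 7200480929) (nat_lit 76) (nat_lit 59683323974) (nat_lit 76) (nat_lit 52473740810) (nat_lit 1) (nat_lit 4) (nat_lit 2) (nat_lit 5) (nat_lit 2) (nat_lit 4) (nat_lit 331) (nat_lit 209) (nat_lit 180))) (XT.nd (nat_lit 78) (nat_lit 0) (nat_lit 0) (XT.lf (nat_lit 0) (nat_lit 12734337593) (nat_lit 76) (nat_lit 59910951304) (nat_lit 76) (nat_lit 52591195309) (nat_lit 1) (nat_lit 4) (nat_lit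 2) (nat_lit 5) (nat_lit 2) (nat_lit 4) (nat_lit 332) (nat_lit 209) (nat_lit 179)) (XT.nd (nat_lit 34944) (nat_lit 0) (nat_lit 532) (XT.lf (nat_lit 0) (nat_lit 18465623252) (nat_lit 76) (nat_lit 60184895715) (nat_lit 76) (nat_lit 52760213212) (nat_lit 1) (nat_lit 4) (nat_lit 2) (nat_lit 5) (nat_lit 2) (nat_lit 4) (nat_lit 333) (nat_lit 209) (nat_lit 178)) (XT.lf (nat_lit 0) (nat_lit 5162810785) (nat_lit 152) (nat_lit 3859487497) (nat_lit 0) (nat_lit 5162810785) (nat_lit 8) (nat_lit 5) (nat_lit 10) (nat_lit 4) (nat_lit 8) (nat_lit 4) (nat_lit 300) (nat_lit 210) (nat_lit 210))))) (XT.nd (nat_lit 156) (nat_lit 152) (nat_lit 0) (XT.nd (nat_lit 78) (nat_lit 0) (nat_lit 0) (XT.lf (nat_lit 0) (nat_lit 1296415655) (nat_lit 76) (nat_lit 14415350435) (nat_lit 76) (nat_lit 13910191621) (nat_lit 7) (nat_lit 4) (nat_lit 8) (nat_lit 5) (nat_lit 8) (nat_lit 4) (nat_lit 301) (nat_lit 210) (nat_lit 209))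 (XT.lf (nat_lit 0) (nat_lit 10622751929) (nat_lit 76) (nat_lit 10651368840) (nat_lit 76) (nat_lit 9665106393) (nat_lit 7) (nat_lit 4) (nat_lit 8) (nat_lit 5) (nat_lit 8) (nat_lit 4) (nat_lit 302) (nat_lit 210) (nat_lit 208))) (XT.nd (nat_lit 78) (nat_lit 152) (nat_lit 0) (XT.lf (nat_lit 0) (nat_lit 20128616651) (nat_lit 76) (nat_lit 6821636431) (nat_lit 76) (nat_lit 5377180048) (nat_lit 7) (nat_lit 4) (nat_lit 8) (nat_lit 5) (nat_lit 8) (nat_lit 4) (nat_lit 303) (nat_lit 210) (nat_lit 207)) (XT.nd (nat_lit 78) (nat_lit 152) (nat_lit 0) (XT.lf (nat_lit 0) (nat_lit 29836642833) (nat_lit 76) (nat_lit 2917034798) (nat_lit 76) (nat_lit 1036203238) (nat_lit 7) (nat_lit 4) (nat_lit 8) (nat_lit 5) (nat_lit 8) (nat_lit 4) (nat_lit 304) (nat_lit 210) (nat_lit 206)) (XT.lf (nat_lit 0) (nat_lit 3356696250) (nat_lit 152) (nat_lit 30843601491) (nat_lit 0) (nat_lit 1127155505) (nat_lit 5) (nat_lit 5) (nat_lit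 7) (nat_lit 4) (nat_lit 5) (nat_lit 4) (nat_lit 305) (nat_lit 210) (nat_lit 205)))))) (XT.nd (nat_lit 390) (nat_lit 76) (nat_lit 0) (XT.nd (nat_lit 156) (nat_lit 76) (nat_lit 0) (XT.nd (nat_lit 78) (nat_lit 0) (nat_lit 0) (XT.lf (nat_lit 0) (nat_lit 7871547270) (nat_lit 152) (nat_lit 23814727204) (nat_lit 0) (nat_lit 5257729681) (nat_lit 5) (nat_lit 5) (nat_lit 7) (nat_lit 4) (nat_lit 5) (nat_lit 4) (nat_lit 306) (nat_lit 210) (nat_lit 204)) (XT.lf (nat_lit 0) (nat_lit 12472138230) (nat_lit 152) (nat_lit 16681215857) (nat_lit 0) (nat_lit 9492342694) (nat_lit 5) (nat_lit 5) (nat_lit 7) (nat_lit 4) (nat_lit 5) (nat_lit 4) (nat_lit 307) (nat_lit 210) (nat_lit 203))) (XT.nd (nat_lit 78) (nat_lit 76) (nat_lit 0) (XT.lf (nat_lit 0) (nat_lit 17169422918) (nat_lit 152) (nat_lit 9426082899) (nat_lit 0) (nat_lit 13841076957) (nat_lit 5) (nat_lit 5) (nat_lit 7) (nat_lit 4) (nat_lit 5) (nat_lit 4) (nat_lit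 308) (nat_lit 210) (nat_lit 202)) (XT.nd (nat_lit 78) (nat_lit 76) (nat_lit 0) (XT.lf (nat_lit 0) (nat_lit 21974585345) (nat_lit 152) (nat_lit 2032054205) (nat_lit 0) (nat_lit 18314286598) (nat_lit 5) (nat_lit 5) (nat_lit 7) (nat_lit 4) (nat_lit 5) (nat_lit 4) (nat_lit 309) (nat_lit 210) (nat_lit 201)) (XT.lf (nat_lit 0) (nat_lit 5628303529) (nat_lit 76) (nat_lit 21324865541) (nat_lit 76) (nat_lit 17348421283) (nat_lit 4) (nat_lit 4) (nat_lit 5) (nat_lit 5) (nat_lit 5) (nat_lit 4) (nat_lit 310) (nat_lit 210) (nat_lit 200))))) (XT.nd (nat_lit 234) (nat_lit 76) (nat_lit 0) (XT.nd (nat_lit 78) (nat_lit 0) (nat_lit 0) (XT.lf (nat_lit 0) (nat_lit 13507053600) (nat_lit 76) (nat_lit 18577375422) (nat_lit 76) (nat_lit 14299840202) (nat_lit 4) (nat_lit 4) (nat_lit 5) (nat_lit 5) (nat_lit 5) (nat_lit 4) (nat_lit 311) (nat_lit 210) (nat_lit 199)) (XT.nd (nat_lit 78) (nat_lit 0) (nat_lit 0) (XT.lf (nat_lit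 0) (nat_lit 21582513072) (nat_lit 76) (nat_lit 15778147314) (nat_lit 76) (nat_lit 11213858797) (nat_lit 4) (nat_lit 4) (nat_lit 5) (nat_lit 5) (nat_lit 5) (nat_lit 4) (nat_lit 312) (nat_lit 210) (nat_lit 198)) (XT.lf (nat_lit 0) (nat_lit 29873909228) (nat_lit 76) (nat_lit 12920516388) (nat_lit 76) (nat_lit 8083129491) (nat_lit 4) (nat_lit 4) (nat_lit 5) (nat_lit 5) (nat_lit 5) (nat_lit 4) (nat_lit 313) (nat_lit 210) (nat_lit 197)))) (XT.nd (nat_lit 78) (nat_lit 76) (nat_lit 0) (XT.lf (nat_lit 0) (nat_lit 38400983490) (nat_lit 76) (nat_lit 9997678760) (nat_lit 76) (nat_lit 4900198169) (nat_lit 4) (nat_lit 4) (nat_lit 5) (nat_lit 5) (nat_lit 5) (nat_lit 4) (nat_lit 314) (nat_lit 210) (nat_lit 196)) (XT.nd (nat_lit 78) (nat_lit 76) (nat_lit 0) (XT.lf (nat_lit 0) (nat_lit 47184038414) (nat_lit 76) (nat_lit 7002675293) (nat_lit 76) (nat_lit 1657486423) (nat_lit 4) (nat_lit 4) (nat_lit 5) (nat_lit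 5) (nat_lit 5) (nat_lit 4) (nat_lit 315) (nat_lit 210) (nat_lit 195)) (XT.lf (nat_lit 0) (nat_lit 1620475843) (nat_lit 152) (nat_lit 2291535555) (nat_lit 76) (nat_lit 54607146564) (nat_lit 3) (nat_lit 5) (nat_lit 5) (nat_lit 5) (nat_lit 4) (nat_lit 4) (nat_lit 316) (nat_lit 210) (nat_lit 194))))))) (XT.nd (nat_lit 780) (nat_lit 76) (nat_lit 0) (XT.nd (nat_lit 390) (nat_lit 0) (nat_lit 0) (XT.nd (nat_lit 156) (nat_lit 0) (nat_lit 0) (XT.nd (nat_lit 78) (nat_lit 0) (nat_lit 0) (XT.lf (nat_lit 0) (nat_lit 4306467081) (nat_lit 76) (nat_lit 674935535) (nat_lit 152) (nat_lit 56347436379) (nat_lit 2) (nat_lit 5) (nat_lit 3) (nat_lit 5) (nat_lit 4) (nat_lit 4) (nat_lit 317) (nat_lit 210) (nat_lit 193)) (XT.lf (nat_lit 0) (nat_lit 8474125237) (nat_lit 152) (nat_lit 53176333026) (nat_lit 0) (nat_lit 2629698096) (nat_lit 2) (nat_lit 5) (nat_lit 4) (nat_lit 4) (nat_lit 2) (nat_lit 4) (nat_lit 318) (nat_lit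 210) (nat_lit 192))) (XT.nd (nat_lit 78) (nat_lit 0) (nat_lit 0) (XT.lf (nat_lit 0) (nat_lit 12066145723) (nat_lit 152) (nat_lit 49291351693) (nat_lit 0) (nat_lit 6023864004) (nat_lit 2) (nat_lit 5) (nat_lit 4) (nat_lit 4) (nat_lit 2) (nat_lit 4) (nat_lit 319) (nat_lit 210) (nat_lit 191)) (XT.nd (nat_lit 78) (nat_lit 0) (nat_lit 0) (XT.lf (nat_lit 0) (nat_lit 15759528610) (nat_lit 152) (nat_lit 45351690067) (nat_lit 0) (nat_lit 9528813960) (nat_lit 2) (nat_lit 5) (nat_lit 4) (nat_lit 4) (nat_lit 2) (nat_lit 4) (nat_lit 320) (nat_lit 210) (nat_lit 190)) (XT.lf (nat_lit 0) (nat_lit 19563067667) (nat_lit 152) (nat_lit 41347968002) (nat_lit 0) (nat_lit 13152893083) (nat_lit 2) (nat_lit 5) (nat_lit 4) (nat_lit 4) (nat_lit 2) (nat_lit 4) (nat_lit 321) (nat_lit 210) (nat_lit 189))))) (XT.nd (nat_lit 156) (nat_lit 0) (nat_lit 0) (XT.nd (nat_lit 78) (nat_lit 0) (nat_lit 0) (XT.lf (nat_lit 0) (nat_lit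 23485818939) (nat_lit 152) (nat_lit 37270652826) (nat_lit 0) (nat_lit 16904730131) (nat_lit 2) (nat_lit 5) (nat_lit 4) (nat_lit 4) (nat_lit 2) (nat_lit 4) (nat_lit 322) (nat_lit 210) (nat_lit 188)) (XT.lf (nat_lit 0) (nat_lit 27537122310) (nat_lit 152) (nat_lit 33110036646) (nat_lit 0) (nat_lit 20793258052) (nat_lit 2) (nat_lit 5) (nat_lit 4) (nat_lit 4) (nat_lit 2) (nat_lit 4) (nat_lit 323) (nat_lit 210) (nat_lit 187))) (XT.nd (nat_lit 78) (nat_lit 0) (nat_lit 0) (XT.lf (nat_lit 0) (nat_lit 31726623741) (nat_lit 152) (nat_lit 28856213233) (nat_lit 0) (nat_lit 24827735244) (nat_lit 2) (nat_lit 5) (nat_lit 4) (nat_lit 4) (nat_lit 2) (nat_lit 4) (nat_lit 324) (nat_lit 210) (nat_lit 186)) (XT.nd (nat_lit 78) (nat_lit 0) (nat_lit 0) (XT.lf (nat_lit 0) (nat_lit 36064298235) (nat_lit 152) (nat_lit 24499054435) (nat_lit 0) (nat_lit 29017767606) (nat_lit 2) (nat_lit 5) (nat_lit 4) (nat_lit 4) (nat_lit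 2) (nat_lit 4) (nat_lit 325) (nat_lit 210) (nat_lit 185)) (XT.lf (nat_lit 0) (nat_lit 40560473588) (nat_lit 152) (nat_lit 20028186065) (nat_lit 0) (nat_lit 33373331405) (nat_lit 2) (nat_lit 5) (nat_lit 4) (nat_lit 4) (nat_lit 2) (nat_lit 4) (nat_lit 326) (nat_lit 210) (nat_lit 184)))))) (XT.nd (nat_lit 468) (nat_lit 0) (nat_lit 0) (XT.nd (nat_lit 156) (nat_lit 76) (nat_lit 0) (XT.nd (nat_lit 78) (nat_lit 0) (nat_lit 0) (XT.lf (nat_lit 0) (nat_lit 45225854980) (nat_lit 152) (nat_lit 15432963198) (nat_lit 0) (nat_lit 37904797031) (nat_lit 2) (nat_lit 5) (nat_lit 4) (nat_lit 4) (nat_lit 2) (nat_lit 4) (nat_lit 327) (nat_lit 210) (nat_lit 183)) (XT.lf (nat_lit 0) (nat_lit 50071550462) (nat_lit 152) (nat_lit 10702444829) (nat_lit 0) (nat_lit 42622953688) (nat_lit 2) (nat_lit 5) (nat_lit 4) (nat_lit 4) (nat_lit 2) (nat_lit 4) (nat_lit 328) (nat_lit 210) (nat_lit 182))) (XT.nd (nat_lit 78) (nat_lit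 76) (nat_lit 0) (XT.lf (nat_lit 0) (nat_lit 55109097404) (nat_lit 152) (nat_lit 5825367816) (nat_lit 0) (nat_lit 47539035082) (nat_lit 2) (nat_lit 5) (nat_lit 4) (nat_lit 4) (nat_lit 2) (nat_lit 4) (nat_lit 329) (nat_lit 210) (nat_lit 181)) (XT.nd (nat_lit 78) (nat_lit 76) (nat_lit 0) (XT.lf (nat_lit 0) (nat_lit 60350489965) (nat_lit 152) (nat_lit 790120074) (nat_lit 0) (nat_lit 52664746170) (nat_lit 2) (nat_lit 5) (nat_lit 4) (nat_lit 4) (nat_lit 2) (nat_lit 4) (nat_lit 330) (nat_lit 210) (nat_lit 180)) (XT.lf (nat_lit 0) (nat_lit 4503159954) (nat_lit 76) (nat_lit 61348334825) (nat_lit 76) (nat_lit 53552418198) (nat_lit 1) (nat_lit 4) (nat_lit 2) (nat_lit 5) (nat_lit 2) (nat_lit 4) (nat_lit 331) (nat_lit 210) (nat_lit 179))))) (XT.nd (nat_lit 34944) (nat_lit 0) (nat_lit 456) (XT.nd (nat_lit 34788) (nat_lit 0) (nat_lit 532) (XT.lf (nat_lit 0) (nat_lit 15692812907) (nat_lit 76) (nat_lit 61883178674)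 (nat_lit 76) (nat_lit 53882405533) (nat_lit 1) (nat_lit 4) (nat_lit 2) (nat_lit 5) (nat_lit 2) (nat_lit 4) (nat_lit 333) (nat_lit 210) (nat_lit 177)) (XT.nd (nat_lit 78) (nat_lit 0) (nat_lit 0) (XT.lf (nat_lit 0) (nat_lit 223005398) (nat_lit 152) (nat_lit 12581458897) (nat_lit 0) (nat_lit 223005398) (nat_lit 8) (nat_lit 5) (nat_lit 10) (nat_lit 4) (nat_lit 8) (nat_lit 4) (nat_lit 298) (nat_lit 211) (nat_lit 211)) (XT.lf (nat_lit 0) (nat_lit 5568582913) (nat_lit 152) (nat_lit 16576219940) (nat_lit 0) (nat_lit 5038166158) (nat_lit 8) (nat_lit 5) (nat_lit 10) (nat_lit 4) (nat_lit 8) (nat_lit 4) (nat_lit 299) (nat_lit 211) (nat_lit 210)))) (XT.nd (nat_lit 78) (nat_lit 76) (nat_lit 0) (XT.lf (nat_lit 0) (nat_lit 10769138031) (nat_lit 152) (nat_lit 7870201473) (nat_lit 0) (nat_lit 9733562462) (nat_lit 8) (nat_lit 5) (nat_lit 10) (nat_lit 4) (nat_lit 8) (nat_lit 4) (nat_lit 300) (nat_lit 211) (nat_lit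 209)) (XT.nd (nat_lit 78) (nat_lit 0) (nat_lit 0) (XT.lf (nat_lit 0) (nat_lit 995287871) (nat_lit 76) (nat_lit 15074337870) (nat_lit 76) (nat_lit 13557658667) (nat_lit 7) (nat_lit 4) (nat_lit 8) (nat_lit 5) (nat_lit 8) (nat_lit 4) (nat_lit 301) (nat_lit 211) (nat_lit 208)) (XT.lf (nat_lit 0) (nat_lit 10181727381) (nat_lit 76) (nat_lit 11370087136) (nat_lit 76) (nat_lit 9395213998) (nat_lit 7) (nat_lit 4) (nat_lit 8) (nat_lit 5) (nat_lit 8) (nat_lit 4) (nat_lit 302) (nat_lit 211) (nat_lit 207))))))))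
noncomputable def xc7 : XT := (XT.nd (nat_lit 1638) (nat_lit 76) (nat_lit 0) (XT.nd (nat_lit 780) (nat_lit 152) (nat_lit 0) (XT.nd (nat_lit 390) (nat_lit 76) (nat_lit 0) (XT.nd (nat_lit 156) (nat_lit 152) (nat_lit 0) (XT.nd (nat_lit 78) (nat_lit 0) (nat_lit 0) (XT.lf (nat_lit 0) (nat_lit 19554357091) (nat_lit 76) (nat_lit 7597241262) (nat_lit 76) (nat_lit 5185992946) (nat_lit 7) (nat_lit 4) (nat_lit 8) (nat_lit 5) (nat_lit 8) (nat_lit 4) (nat_lit 303) (nat_lit 211) (nat_lit 206)) (XT.lf (nat_lit 0) (nat_lit 29135492784) (nat_lit 76) (nat_lit 3746817281) (nat_lit 76) (nat_lit 919973559) (nat_lit 7) (nat_lit 4) (nat_lit 8) (nat_lit 5) (nat_lit 8) (nat_lit 4) (nat_lit 304) (nat_lit 211) (nat_lit 205))) (XT.nd (nat_lit 78) (nat_lit 0) (nat_lit 0) (XT.lf (nat_lit 0) (nat_lit 3383907959) (nat_lit 152) (nat_lit 31703452815) (nat_lit 0) (nat_lit 255122646) (nat_lit 5) (nat_lit 5) (nat_lit 7) (nat_lit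 4) (nat_lit 5) (nat_lit 4) (nat_lit 305) (nat_lit 211) (nat_lit 204)) (XT.nd (nat_lit 78) (nat_lit 0) (nat_lit 0) (XT.lf (nat_lit 0) (nat_lit 7830465022) (nat_lit 152) (nat_lit 24794972018) (nat_lit 0) (nat_lit 4335701763) (nat_lit 5) (nat_lit 5) (nat_lit 7) (nat_lit 4) (nat_lit 5) (nat_lit 4) (nat_lit 306) (nat_lit 211) (nat_lit 203)) (XT.lf (nat_lit 0) (nat_lit 12366014119) (nat_lit 152) (nat_lit 17776121137) (nat_lit 0) (nat_lit 8522700434) (nat_lit 5) (nat_lit 5) (nat_lit 7) (nat_lit 4) (nat_lit 5) (nat_lit 4) (nat_lit 307) (nat_lit 211) (nat_lit 202))))) (XT.nd (nat_lit 156) (nat_lit 76) (nat_lit 0) (XT.nd (nat_lit 78) (nat_lit 0) (nat_lit 0) (XT.lf (nat_lit 0) (nat_lit 17001354175) (nat_lit 152) (nat_lit 10630188624) (nat_lit 0) (nat_lit 12826087704) (nat_lit 5) (nat_lit 5) (nat_lit 7) (nat_lit 4) (nat_lit 5) (nat_lit 4) (nat_lit 308) (nat_lit 211) (nat_lit 201)) (XT.lf (nat_lit 0)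 (nat_lit 21747521715) (nat_lit 152) (nat_lit 3340160353) (nat_lit 0) (nat_lit 17256109733) (nat_lit 5) (nat_lit 5) (nat_lit 7) (nat_lit 4) (nat_lit 5) (nat_lit 4) (nat_lit 309) (nat_lit 211) (nat_lit 200))) (XT.nd (nat_lit 78) (nat_lit 0) (nat_lit 0) (XT.lf (nat_lit 0) (nat_lit 4193144232) (nat_lit 76) (nat_lit 22462979972) (nat_lit 76) (nat_lit 17670477029) (nat_lit 4) (nat_lit 4) (nat_lit 5) (nat_lit 5) (nat_lit 5) (nat_lit 4) (nat_lit 310) (nat_lit 211) (nat_lit 199)) (XT.nd (nat_lit 78) (nat_lit 0) (nat_lit 0) (XT.lf (nat_lit 0) (nat_lit 11975685472) (nat_lit 76) (nat_lit 19757263764) (nat_lit 76) (nat_lit 14678007523) (nat_lit 4) (nat_lit 4) (nat_lit 5) (nat_lit 5) (nat_lit 5) (nat_lit 4) (nat_lit 311) (nat_lit 211) (nat_lit 198)) (XT.lf (nat_lit 0) (nat_lit 19959517486) (nat_lit 76) (nat_lit 16997820332) (nat_lit 76) (nat_lit 11645465713) (nat_lit 4) (nat_lit 4) (nat_lit 5) (nat_lit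 5) (nat_lit 5) (nat_lit 4) (nat_lit 312) (nat_lit 211) (nat_lit 197)))))) (XT.nd (nat_lit 390) (nat_lit 0) (nat_lit 0) (XT.nd (nat_lit 156) (nat_lit 152) (nat_lit 0) (XT.nd (nat_lit 78) (nat_lit 0) (nat_lit 0) (XT.lf (nat_lit 0) (nat_lit 28163649397) (nat_lit 76) (nat_lit 14178079574) (nat_lit 76) (nat_lit 8565631260) (nat_lit 4) (nat_lit 4) (nat_lit 5) (nat_lit 5) (nat_lit 5) (nat_lit 4) (nat_lit 313) (nat_lit 211) (nat_lit 196)) (XT.lf (nat_lit 0) (nat_lit 36607614854) (nat_lit 76) (nat_lit 11291327821) (nat_lit 76) (nat_lit 5431171227) (nat_lit 4) (nat_lit 4) (nat_lit 5) (nat_lit 5) (nat_lit 5) (nat_lit 4) (nat_lit 314) (nat_lit 211) (nat_lit 195))) (XT.nd (nat_lit 78) (nat_lit 152) (nat_lit 0) (XT.lf (nat_lit 0) (nat_lit 45311518535) (nat_lit 76) (nat_lit 8330691853) (nat_lit 76) (nat_lit 2234622612) (nat_lit 4) (nat_lit 4) (nat_lit 5) (nat_lit 5) (nat_lit 5) (nat_lit 4) (nat_lit 315)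 (nat_lit 211) (nat_lit 194)) (XT.nd (nat_lit 78) (nat_lit 76) (nat_lit 0) (XT.lf (nat_lit 0) (nat_lit 1011494685) (nat_lit 152) (nat_lit 4267413740) (nat_lit 76) (nat_lit 53274375222) (nat_lit 3) (nat_lit 5) (nat_lit 5) (nat_lit 5) (nat_lit 4) (nat_lit 4) (nat_lit 316) (nat_lit 211) (nat_lit 193)) (XT.lf (nat_lit 0) (nat_lit 2217178179) (nat_lit 76) (nat_lit 2094105494) (nat_lit 152) (nat_lit 57053546733) (nat_lit 2) (nat_lit 5) (nat_lit 3) (nat_lit 5) (nat_lit 4) (nat_lit 4) (nat_lit 317) (nat_lit 211) (nat_lit 192))))) (XT.nd (nat_lit 234) (nat_lit 0) (nat_lit 0) (XT.nd (nat_lit 78) (nat_lit 0) (nat_lit 0) (XT.lf (nat_lit 0) (nat_lit 7750290924) (nat_lit 152) (nat_lit 55359457854) (nat_lit 0) (nat_lit 1208040542) (nat_lit 2) (nat_lit 5) (nat_lit 4) (nat_lit 4) (nat_lit 2) (nat_lit 4) (nat_lit 318) (nat_lit 211) (nat_lit 191)) (XT.nd (nat_lit 78) (nat_lit 0) (nat_lit 0) (XT.lf (nat_lit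 0) (nat_lit 11304146228) (nat_lit 152) (nat_lit 51542558850) (nat_lit 0) (nat_lit 4573462915) (nat_lit 2) (nat_lit 5) (nat_lit 4) (nat_lit 4) (nat_lit 2) (nat_lit 4) (nat_lit 319) (nat_lit 211) (nat_lit 190)) (XT.lf (nat_lit 0) (nat_lit 14961181323) (nat_lit 152) (nat_lit 47667737538) (nat_lit 0) (nat_lit 8051038075) (nat_lit 2) (nat_lit 5) (nat_lit 4) (nat_lit 4) (nat_lit 2) (nat_lit 4) (nat_lit 320) (nat_lit 211) (nat_lit 189)))) (XT.nd (nat_lit 78) (nat_lit 0) (nat_lit 0) (XT.lf (nat_lit 0) (nat_lit 18730103434) (nat_lit 152) (nat_lit 43725768152) (nat_lit 0) (nat_lit 11649045963) (nat_lit 2) (nat_lit 5) (nat_lit 4) (nat_lit 4) (nat_lit 2) (nat_lit 4) (nat_lit 321) (nat_lit 211) (nat_lit 188)) (XT.nd (nat_lit 78) (nat_lit 0) (nat_lit 0) (XT.lf (nat_lit 0) (nat_lit 22619886187) (nat_lit 152) (nat_lit 39707265051) (nat_lit 0) (nat_lit 15376053265) (nat_lit 2) (nat_lit 5) (nat_lit 4) (nat_lit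 4) (nat_lit 2) (nat_lit 4) (nat_lit 322) (nat_lit 211) (nat_lit 187)) (XT.lf (nat_lit 0) (nat_lit 26639790969) (nat_lit 152) (nat_lit 35602660371) (nat_lit 0) (nat_lit 19240933808) (nat_lit 2) (nat_lit 5) (nat_lit 4) (nat_lit 4) (nat_lit 2) (nat_lit 4) (nat_lit 323) (nat_lit 211) (nat_lit 186))))))) (XT.nd (nat_lit 35490) (nat_lit 0) (nat_lit 304) (XT.nd (nat_lit 390) (nat_lit 76) (nat_lit 0) (XT.nd (nat_lit 156) (nat_lit 0) (nat_lit 0) (XT.nd (nat_lit 78) (nat_lit 0) (nat_lit 0) (XT.lf (nat_lit 0) (nat_lit 30799388981) (nat_lit 152) (nat_lit 31402181244) (nat_lit 0) (nat_lit 23252889688) (nat_lit 2) (nat_lit 5) (nat_lit 4) (nat_lit 4) (nat_lit 2) (nat_lit 4) (nat_lit 324) (nat_lit 211) (nat_lit 185)) (XT.lf (nat_lit 0) (nat_lit 35108584028) (nat_lit 152) (nat_lit 27095826528) (nat_lit 0) (nat_lit 27421473181) (nat_lit 2) (nat_lit 5) (nat_lit 4) (nat_lit 4) (nat_lit 2) (nat_lit 4) (nat_lit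 325) (nat_lit 211) (nat_lit 184))) (XT.nd (nat_lit 78) (nat_lit 0) (nat_lit 0) (XT.lf (nat_lit 0) (nat_lit 39577636099) (nat_lit 152) (nat_lit 22673342998) (nat_lit 0) (nat_lit 31756609486) (nat_lit 2) (nat_lit 5) (nat_lit 4) (nat_lit 4) (nat_lit 2) (nat_lit 4) (nat_lit 326) (nat_lit 211) (nat_lit 183)) (XT.nd (nat_lit 78) (nat_lit 0) (nat_lit 0) (XT.lf (nat_lit 0) (nat_lit 44217185794) (nat_lit 152) (nat_lit 18124200931) (nat_lit 0) (nat_lit 36268620356) (nat_lit 2) (nat_lit 5) (nat_lit 4) (nat_lit 4) (nat_lit 2) (nat_lit 4) (nat_lit 327) (nat_lit 211) (nat_lit 182)) (XT.lf (nat_lit 0) (nat_lit 49038279659) (nat_lit 152) (nat_lit 13437569038) (nat_lit 0) (nat_lit 40968248674) (nat_lit 2) (nat_lit 5) (nat_lit 4) (nat_lit 4) (nat_lit 2) (nat_lit 4) (nat_lit 328) (nat_lit 211) (nat_lit 181))))) (XT.nd (nat_lit 312) (nat_lit 0) (nat_lit 0) (XT.nd (nat_lit 78) (nat_lit 76) (nat_lit 0) (XT.lf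 (nat_lit 0) (nat_lit 54052396490) (nat_lit 152) (nat_lit 8602288669) (nat_lit 0) (nat_lit 45866684031) (nat_lit 2) (nat_lit 5) (nat_lit 4) (nat_lit 4) (nat_lit 2) (nat_lit 4) (nat_lit 329) (nat_lit 211) (nat_lit 180)) (XT.nd (nat_lit 78) (nat_lit 76) (nat_lit 0) (XT.lf (nat_lit 0) (nat_lit 59271474659) (nat_lit 152) (nat_lit 3606847254) (nat_lit 0) (nat_lit 50975589368) (nat_lit 2) (nat_lit 5) (nat_lit 4) (nat_lit 4) (nat_lit 2) (nat_lit 4) (nat_lit 330) (nat_lit 211) (nat_lit 179)) (XT.lf (nat_lit 0) (nat_lit 1591709093) (nat_lit 76) (nat_lit 63131531933) (nat_lit 76) (nat_lit 54730720135) (nat_lit 1) (nat_lit 4) (nat_lit 2) (nat_lit 5) (nat_lit 2) (nat_lit 4) (nat_lit 331) (nat_lit 211) (nat_lit 178)))) (XT.nd (nat_lit 34632) (nat_lit 0) (nat_lit 684) (XT.lf (nat_lit 0) (nat_lit 12709467407) (nat_lit 76) (nat_lit 63698063504) (nat_lit 76) (nat_lit 55102150265) (nat_lit 1) (nat_lit 4) (nat_lit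 2) (nat_lit 5) (nat_lit 2) (nat_lit 4) (nat_lit 333) (nat_lit 211) (nat_lit 176)) (XT.nd (nat_lit 78) (nat_lit 0) (nat_lit 0) (XT.lf (nat_lit 0) (nat_lit 3107104677) (nat_lit 152) (nat_lit 4436607704) (nat_lit 152) (nat_lit 4436607704) (nat_lit 10) (nat_lit 4) (nat_lit 12) (nat_lit 5) (nat_lit 12) (nat_lit 4) (nat_lit 296) (nat_lit 212) (nat_lit 212)) (XT.lf (nat_lit 0) (nat_lit 16401439649) (nat_lit 152) (nat_lit 4576655390) (nat_lit 152) (nat_lit 4003009670) (nat_lit 10) (nat_lit 4) (nat_lit 12) (nat_lit 5) (nat_lit 12) (nat_lit 4) (nat_lit 297) (nat_lit 212) (nat_lit 211)))))) (XT.nd (nat_lit 390) (nat_lit 152) (nat_lit 0) (XT.nd (nat_lit 156) (nat_lit 76) (nat_lit 0) (XT.nd (nat_lit 78) (nat_lit 0) (nat_lit 0) (XT.lf (nat_lit 0) (nat_lit 734278081) (nat_lit 76) (nat_lit 179147071) (nat_lit 152) (nat_lit 25144280597) (nat_lit 8) (nat_lit 5) (nat_lit 9) (nat_lit 5) (nat_lit 10) (nat_lit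 4) (nat_lit 298) (nat_lit 212) (nat_lit 210)) (XT.lf (nat_lit 0) (nat_lit 5947374902) (nat_lit 152) (nat_lit 16886234221) (nat_lit 0) (nat_lit 4354861740) (nat_lit 8) (nat_lit 5) (nat_lit 10) (nat_lit 4) (nat_lit 8) (nat_lit 4) (nat_lit 299) (nat_lit 212) (nat_lit 209))) (XT.nd (nat_lit 78) (nat_lit 76) (nat_lit 0) (XT.lf (nat_lit 0) (nat_lit 11065167835) (nat_lit 152) (nat_lit 8324240971) (nat_lit 0) (nat_lit 8991551040) (nat_lit 8) (nat_lit 5) (nat_lit 10) (nat_lit 4) (nat_lit 8) (nat_lit 4) (nat_lit 300) (nat_lit 212) (nat_lit 208)) (XT.nd (nat_lit 78) (nat_lit 0) (nat_lit 0) (XT.lf (nat_lit 0) (nat_lit 392315333) (nat_lit 76) (nat_lit 15888722942) (nat_lit 76) (nat_lit 13356912211) (nat_lit 7) (nat_lit 4) (nat_lit 8) (nat_lit 5) (nat_lit 8) (nat_lit 4) (nat_lit 301) (nat_lit 212) (nat_lit 207)) (XT.lf (nat_lit 0) (nat_lit 9445519830) (nat_lit 76) (nat_lit 12241358743) (nat_lit 76) (nat_lit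 9273172835) (nat_lit 7) (nat_lit 4) (nat_lit 8) (nat_lit 5) (nat_lit 8) (nat_lit 4) (nat_lit 302) (nat_lit 212) (nat_lit 206))))) (XT.nd (nat_lit 234) (nat_lit 0) (nat_lit 0) (XT.nd (nat_lit 78) (nat_lit 152) (nat_lit 0) (XT.lf (nat_lit 0) (nat_lit 18691259051) (nat_lit 76) (nat_lit 8522690522) (nat_lit 76) (nat_lit 5138909206) (nat_lit 7) (nat_lit 4) (nat_lit 8) (nat_lit 5) (nat_lit 8) (nat_lit 4) (nat_lit 303) (nat_lit 212) (nat_lit 205)) (XT.nd (nat_lit 78) (nat_lit 152) (nat_lit 0) (XT.lf (nat_lit 0) (nat_lit 28151546660) (nat_lit 76) (nat_lit 4723864305) (nat_lit 76) (nat_lit 944277840) (nat_lit 7) (nat_lit 4) (nat_lit 8) (nat_lit 5) (nat_lit 8) (nat_lit 4) (nat_lit 304) (nat_lit 212) (nat_lit 204)) (XT.lf (nat_lit 0) (nat_lit 2501771094) (nat_lit 76) (nat_lit 778186956) (nat_lit 152) (nat_lit 32082396812) (nat_lit 5) (nat_lit 5) (nat_lit 6) (nat_lit 5) (nat_lit 7) (nat_lit 4) (nat_lit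 305) (nat_lit 212) (nat_lit 203)))) (XT.nd (nat_lit 78) (nat_lit 0) (nat_lit 0) (XT.lf (nat_lit 0) (nat_lit 7653992842) (nat_lit 152) (nat_lit 26059283029) (nat_lit 0) (nat_lit 3269963048) (nat_lit 5) (nat_lit 5) (nat_lit 7) (nat_lit 4) (nat_lit 5) (nat_lit 4) (nat_lit 306) (nat_lit 212) (nat_lit 202)) (XT.nd (nat_lit 78) (nat_lit 0) (nat_lit 0) (XT.lf (nat_lit 0) (nat_lit 12127597307) (nat_lit 152) (nat_lit 19149632593) (nat_lit 0) (nat_lit 7411614726) (nat_lit 5) (nat_lit 5) (nat_lit 7) (nat_lit 4) (nat_lit 5) (nat_lit 4) (nat_lit 307) (nat_lit 212) (nat_lit 201)) (XT.lf (nat_lit 0) (nat_lit 16703942475) (nat_lit 152) (nat_lit 12107700503) (nat_lit 0) (nat_lit 11671814385) (nat_lit 5) (nat_lit 5) (nat_lit 7) (nat_lit 4) (nat_lit 5) (nat_lit 4) (nat_lit 308) (nat_lit 212) (nat_lit 200))))))))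
noncomputable def xc8 : XT := (XT.nd (nat_lit 1638) (nat_lit 76) (nat_lit 0) (XT.nd (nat_lit 780) (nat_lit 0) (nat_lit 0) (XT.nd (nat_lit 390) (nat_lit 152) (nat_lit 0) (XT.nd (nat_lit 156) (nat_lit 0) (nat_lit 0) (XT.nd (nat_lit 78) (nat_lit 76) (nat_lit 0) (XT.lf (nat_lit 0) (nat_lit 21393924408) (nat_lit 152) (nat_lit 4916720254) (nat_lit 0) (nat_lit 16060705355) (nat_lit 5) (nat_lit 5) (nat_lit 7) (nat_lit 4) (nat_lit 5) (nat_lit 4) (nat_lit 309) (nat_lit 212) (nat_lit 199)) (XT.lf (nat_lit 0) (nat_lit 2488998867) (nat_lit 76) (nat_lit 23743636641) (nat_lit 76) (nat_lit 18123664290) (nat_lit 4) (nat_lit 4) (nat_lit 5) (nat_lit 5) (nat_lit 5) (nat_lit 4) (nat_lit 310) (nat_lit 212) (nat_lit 198))) (XT.nd (nat_lit 78) (nat_lit 0) (nat_lit 0) (XT.lf (nat_lit 0) (nat_lit 10179912649) (nat_lit 76) (nat_lit 21077705110) (nat_lit 76) (nat_lit 15184634380) (nat_lit 4) (nat_lit 4) (nat_lit 5)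 (nat_lit 5) (nat_lit 5) (nat_lit 4) (nat_lit 311) (nat_lit 212) (nat_lit 197)) (XT.nd (nat_lit 78) (nat_lit 0) (nat_lit 0) (XT.lf (nat_lit 0) (nat_lit 18076480418) (nat_lit 76) (nat_lit 18356151846) (nat_lit 76) (nat_lit 12202987423) (nat_lit 4) (nat_lit 4) (nat_lit 5) (nat_lit 5) (nat_lit 5) (nat_lit 4) (nat_lit 312) (nat_lit 212) (nat_lit 196)) (XT.lf (nat_lit 0) (nat_lit 26197503524) (nat_lit 76) (nat_lit 15572496962) (nat_lit 76) (nat_lit 9171624259) (nat_lit 4) (nat_lit 4) (nat_lit 5) (nat_lit 5) (nat_lit 5) (nat_lit 4) (nat_lit 313) (nat_lit 212) (nat_lit 195))))) (XT.nd (nat_lit 156) (nat_lit 152) (nat_lit 0) (XT.nd (nat_lit 78) (nat_lit 0) (nat_lit 0) (XT.lf (nat_lit 0) (nat_lit 34562317737) (nat_lit 76) (nat_lit 12720112708) (nat_lit 76) (nat_lit 6083327357) (nat_lit 4) (nat_lit 4) (nat_lit 5) (nat_lit 5) (nat_lit 5) (nat_lit 4) (nat_lit 314) (nat_lit 212) (nat_lit 194)) (XT.lf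 (nat_lit 0) (nat_lit 43190839282) (nat_lit 76) (nat_lit 9792207693) (nat_lit 76) (nat_lit 2930743630) (nat_lit 4) (nat_lit 4) (nat_lit 5) (nat_lit 5) (nat_lit 5) (nat_lit 4) (nat_lit 315) (nat_lit 212) (nat_lit 193))) (XT.nd (nat_lit 78) (nat_lit 76) (nat_lit 0) (XT.lf (nat_lit 0) (nat_lit 287903235) (nat_lit 152) (nat_lit 6491000221) (nat_lit 76) (nat_lit 51812801765) (nat_lit 3) (nat_lit 5) (nat_lit 5) (nat_lit 5) (nat_lit 4) (nat_lit 4) (nat_lit 316) (nat_lit 212) (nat_lit 192)) (XT.nd (nat_lit 78) (nat_lit 76) (nat_lit 0) (XT.lf (nat_lit 0) (nat_lit 3527280054) (nat_lit 152) (nat_lit 118855493) (nat_lit 76) (nat_lit 57758958886) (nat_lit 3) (nat_lit 5) (nat_lit 5) (nat_lit 5) (nat_lit 4) (nat_lit 4) (nat_lit 317) (nat_lit 212) (nat_lit 191)) (XT.lf (nat_lit 0) (nat_lit 6564932205) (nat_lit 76) (nat_lit 350462931) (nat_lit 152) (nat_lit 57444213631) (nat_lit 2) (nat_lit 5) (nat_lit 3)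 (nat_lit 5) (nat_lit 4) (nat_lit 4) (nat_lit 318) (nat_lit 212) (nat_lit 190)))))) (XT.nd (nat_lit 390) (nat_lit 0) (nat_lit 0) (XT.nd (nat_lit 156) (nat_lit 0) (nat_lit 0) (XT.nd (nat_lit 78) (nat_lit 0) (nat_lit 0) (XT.lf (nat_lit 0) (nat_lit 10429533784) (nat_lit 152) (nat_lit 54039249007) (nat_lit 0) (nat_lit 2994423439) (nat_lit 2) (nat_lit 5) (nat_lit 4) (nat_lit 4) (nat_lit 2) (nat_lit 4) (nat_lit 319) (nat_lit 212) (nat_lit 189)) (XT.lf (nat_lit 0) (nat_lit 14051951933) (nat_lit 152) (nat_lit 50226180374) (nat_lit 0) (nat_lit 6445927366) (nat_lit 2) (nat_lit 5) (nat_lit 4) (nat_lit 4) (nat_lit 2) (nat_lit 4) (nat_lit 320) (nat_lit 212) (nat_lit 188))) (XT.nd (nat_lit 78) (nat_lit 0) (nat_lit 0) (XT.lf (nat_lit 0) (nat_lit 17787905526) (nat_lit 152) (nat_lit 46343023063) (nat_lit 0) (nat_lit 10019105507) (nat_lit 2) (nat_lit 5) (nat_lit 4) (nat_lit 4) (nat_lit 2) (nat_lit 4) (nat_lit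 321) (nat_lit 212) (nat_lit 187)) (XT.nd (nat_lit 78) (nat_lit 0) (nat_lit 0) (XT.lf (nat_lit 0) (nat_lit 21646289689) (nat_lit 152) (nat_lit 42380531463) (nat_lit 0) (nat_lit 13722465432) (nat_lit 2) (nat_lit 5) (nat_lit 4) (nat_lit 4) (nat_lit 2) (nat_lit 4) (nat_lit 322) (nat_lit 212) (nat_lit 186)) (XT.lf (nat_lit 0) (nat_lit 25636291052) (nat_lit 152) (nat_lit 38329271069) (nat_lit 0) (nat_lit 17564824662) (nat_lit 2) (nat_lit 5) (nat_lit 4) (nat_lit 4) (nat_lit 2) (nat_lit 4) (nat_lit 323) (nat_lit 212) (nat_lit 185))))) (XT.nd (nat_lit 234) (nat_lit 0) (nat_lit 0) (XT.nd (nat_lit 78) (nat_lit 0) (nat_lit 0) (XT.lf (nat_lit 0) (nat_lit 29767409617) (nat_lit 152) (nat_lit 34179596023) (nat_lit 0) (nat_lit 21555331673) (nat_lit 2) (nat_lit 5) (nat_lit 4) (nat_lit 4) (nat_lit 2) (nat_lit 4) (nat_lit 324) (nat_lit 212) (nat_lit 184)) (XT.nd (nat_lit 78) (nat_lit 0) (nat_lit 0) (XT.lf (nat_lit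 0) (nat_lit 34049481382) (nat_lit 152) (nat_lit 29921626147) (nat_lit 0) (nat_lit 25703487672) (nat_lit 2) (nat_lit 5) (nat_lit 4) (nat_lit 4) (nat_lit 2) (nat_lit 4) (nat_lit 325) (nat_lit 212) (nat_lit 183)) (XT.lf (nat_lit 0) (nat_lit 38492701756) (nat_lit 152) (nat_lit 25545223417) (nat_lit 0) (nat_lit 30019169221) (nat_lit 2) (nat_lit 5) (nat_lit 4) (nat_lit 4) (nat_lit 2) (nat_lit 4) (nat_lit 326) (nat_lit 212) (nat_lit 182)))) (XT.nd (nat_lit 78) (nat_lit 0) (nat_lit 0) (XT.lf (nat_lit 0) (nat_lit 43107649834) (nat_lit 152) (nat_lit 21039967827) (nat_lit 0) (nat_lit 34512651752) (nat_lit 2) (nat_lit 5) (nat_lit 4) (nat_lit 4) (nat_lit 2) (nat_lit 4) (nat_lit 327) (nat_lit 212) (nat_lit 181)) (XT.nd (nat_lit 78) (nat_lit 0) (nat_lit 0) (XT.lf (nat_lit 0) (nat_lit 47905313588) (nat_lit 152) (nat_lit 16395132577) (nat_lit 0) (nat_lit 39194634032) (nat_lit 2) (nat_lit 5) (nat_lit 4) (nat_lit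 4) (nat_lit 2) (nat_lit 4) (nat_lit 328) (nat_lit 212) (nat_lit 180)) (XT.lf (nat_lit 0) (nat_lit 52897116027) (nat_lit 152) (nat_lit 11599658537) (nat_lit 0) (nat_lit 44076263639) (nat_lit 2) (nat_lit 5) (nat_lit 4) (nat_lit 4) (nat_lit 2) (nat_lit 4) (nat_lit 329) (nat_lit 212) (nat_lit 179))))))) (XT.nd (nat_lit 35256) (nat_lit 0) (nat_lit 228) (XT.nd (nat_lit 34866) (nat_lit 0) (nat_lit 532) (XT.nd (nat_lit 234) (nat_lit 76) (nat_lit 0) (XT.nd (nat_lit 78) (nat_lit 0) (nat_lit 0) (XT.lf (nat_lit 0) (nat_lit 58094942395) (nat_lit 152) (nat_lit 6642127910) (nat_lit 0) (nat_lit 49169163500) (nat_lit 2) (nat_lit 5) (nat_lit 4) (nat_lit 4) (nat_lit 2) (nat_lit 4) (nat_lit 330) (nat_lit 212) (nat_lit 178)) (XT.lf (nat_lit 0) (nat_lit 63511168470) (nat_lit 152) (nat_lit 1510737052) (nat_lit 0) (nat_lit 54485459568) (nat_lit 2) (nat_lit 5) (nat_lit 4) (nat_lit 4) (nat_lit 2) (nat_lit 4) (nat_lit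 331) (nat_lit 212) (nat_lit 177))) (XT.nd (nat_lit 34476) (nat_lit 0) (nat_lit 836) (XT.lf (nat_lit 0) (nat_lit 9508483548) (nat_lit 76) (nat_lit 65633871357) (nat_lit 76) (nat_lit 56422351560) (nat_lit 1) (nat_lit 4) (nat_lit 2) (nat_lit 5) (nat_lit 2) (nat_lit 4) (nat_lit 333) (nat_lit 212) (nat_lit 175)) (XT.nd (nat_lit 78) (nat_lit 0) (nat_lit 0) (XT.lf (nat_lit 0) (nat_lit 2210462320) (nat_lit 152) (nat_lit 6615608941) (nat_lit 0) (nat_lit 2210462320) (nat_lit 12) (nat_lit 5) (nat_lit 14) (nat_lit 4) (nat_lit 12) (nat_lit 4) (nat_lit 294) (nat_lit 213) (nat_lit 213)) (XT.lf (nat_lit 0) (nat_lit 9935398754) (nat_lit 152) (nat_lit 3724795757) (nat_lit 0) (nat_lit 9333070747) (nat_lit 12) (nat_lit 5) (nat_lit 14) (nat_lit 4) (nat_lit 12) (nat_lit 4) (nat_lit 295) (nat_lit 213) (nat_lit 212))))) (XT.nd (nat_lit 156) (nat_lit 152) (nat_lit 0) (XT.nd (nat_lit 78) (nat_lit 0) (nat_lit 0) (XT.lf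 (nat_lit 0) (nat_lit 6054910648) (nat_lit 152) (nat_lit 9542283622) (nat_lit 152) (nat_lit 8366309894) (nat_lit 10) (nat_lit 4) (nat_lit 12) (nat_lit 5) (nat_lit 12) (nat_lit 4) (nat_lit 296) (nat_lit 213) (nat_lit 211)) (XT.lf (nat_lit 0) (nat_lit 16090427888) (nat_lit 152) (nat_lit 5309285705) (nat_lit 152) (nat_lit 3586982719) (nat_lit 10) (nat_lit 4) (nat_lit 12) (nat_lit 5) (nat_lit 12) (nat_lit 4) (nat_lit 297) (nat_lit 213) (nat_lit 210))) (XT.nd (nat_lit 78) (nat_lit 0) (nat_lit 0) (XT.lf (nat_lit 0) (nat_lit 258129879) (nat_lit 76) (nat_lit 973764920) (nat_lit 152) (nat_lit 24834042574) (nat_lit 8) (nat_lit 5) (nat_lit 9) (nat_lit 5) (nat_lit 10) (nat_lit 4) (nat_lit 298) (nat_lit 213) (nat_lit 209)) (XT.nd (nat_lit 78) (nat_lit 0) (nat_lit 0) (XT.lf (nat_lit 0) (nat_lit 6175444011) (nat_lit 152) (nat_lit 17507000911) (nat_lit 0) (nat_lit 3517042744) (nat_lit 8) (nat_lit 5) (nat_lit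 10) (nat_lit 4) (nat_lit 8) (nat_lit 4) (nat_lit 299) (nat_lit 213) (nat_lit 208)) (XT.lf (nat_lit 0) (nat_lit 11214415816) (nat_lit 152) (nat_lit 9082174536) (nat_lit 0) (nat_lit 8097820612) (nat_lit 8) (nat_lit 5) (nat_lit 10) (nat_lit 4) (nat_lit 8) (nat_lit 4) (nat_lit 300) (nat_lit 213) (nat_lit 207)))))) (XT.nd (nat_lit 390) (nat_lit 76) (nat_lit 0) (XT.nd (nat_lit 156) (nat_lit 152) (nat_lit 0) (XT.nd (nat_lit 78) (nat_lit 76) (nat_lit 0) (XT.lf (nat_lit 0) (nat_lit 16351447340) (nat_lit 152) (nat_lit 503908834) (nat_lit 0) (nat_lit 12798476958) (nat_lit 8) (nat_lit 5) (nat_lit 10) (nat_lit 4) (nat_lit 8) (nat_lit 4) (nat_lit 301) (nat_lit 213) (nat_lit 206)) (XT.lf (nat_lit 0) (nat_lit 8412376400) (nat_lit 76) (nat_lit 13267258118) (nat_lit 76) (nat_lit 9298692330) (nat_lit 7) (nat_lit 4) (nat_lit 8) (nat_lit 5) (nat_lit 8) (nat_lit 4) (nat_lit 302) (nat_lit 213) (nat_lit 205)))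 (XT.nd (nat_lit 78) (nat_lit 152) (nat_lit 0) (XT.lf (nat_lit 0) (nat_lit 17537267537) (nat_lit 76) (nat_lit 9600187660) (nat_lit 76) (nat_lit 5235816723) (nat_lit 7) (nat_lit 4) (nat_lit 8) (nat_lit 5) (nat_lit 8) (nat_lit 4) (nat_lit 303) (nat_lit 213) (nat_lit 204)) (XT.nd (nat_lit 78) (nat_lit 152) (nat_lit 0) (XT.lf (nat_lit 0) (nat_lit 26882461732) (nat_lit 76) (nat_lit 5850502171) (nat_lit 76) (nat_lit 1109173949) (nat_lit 7) (nat_lit 4) (nat_lit 8) (nat_lit 5) (nat_lit 8) (nat_lit 4) (nat_lit 304) (nat_lit 213) (nat_lit 203)) (XT.lf (nat_lit 0) (nat_lit 1073012672) (nat_lit 76) (nat_lit 1968045373) (nat_lit 152) (nat_lit 32346163071) (nat_lit 5) (nat_lit 5) (nat_lit 6) (nat_lit 5) (nat_lit 7) (nat_lit 4) (nat_lit 305) (nat_lit 213) (nat_lit 202))))) (XT.nd (nat_lit 234) (nat_lit 76) (nat_lit 0) (XT.nd (nat_lit 78) (nat_lit 0) (nat_lit 0) (XT.lf (nat_lit 0) (nat_lit 7341710558) (nat_lit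 152) (nat_lit 27610670502) (nat_lit 0) (nat_lit 2057976062) (nat_lit 5) (nat_lit 5) (nat_lit 7) (nat_lit 4) (nat_lit 5) (nat_lit 4) (nat_lit 306) (nat_lit 213) (nat_lit 201)) (XT.nd (nat_lit 78) (nat_lit 0) (nat_lit 0) (XT.lf (nat_lit 0) (nat_lit 11756320135) (nat_lit 152) (nat_lit 20805020489) (nat_lit 0) (nat_lit 6156440129) (nat_lit 5) (nat_lit 5) (nat_lit 7) (nat_lit 4) (nat_lit 5) (nat_lit 4) (nat_lit 307) (nat_lit 213) (nat_lit 200)) (XT.lf (nat_lit 0) (nat_lit 16276479697) (nat_lit 152) (nat_lit 13862136422) (nat_lit 0) (nat_lit 10375508728) (nat_lit 5) (nat_lit 5) (nat_lit 7) (nat_lit 4) (nat_lit 5) (nat_lit 4) (nat_lit 308) (nat_lit 213) (nat_lit 199)))) (XT.nd (nat_lit 78) (nat_lit 76) (nat_lit 0) (XT.lf (nat_lit 0) (nat_lit 20912951527) (nat_lit 152) (nat_lit 6765487623) (nat_lit 0) (nat_lit 14725227261) (nat_lit 5) (nat_lit 5) (nat_lit 7) (nat_lit 4) (nat_lit 5) (nat_lit 4) (nat_lit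 309) (nat_lit 213) (nat_lit 198)) (XT.nd (nat_lit 78) (nat_lit 0) (nat_lit 0) (XT.lf (nat_lit 0) (nat_lit 511809945) (nat_lit 76) (nat_lit 25169884731) (nat_lit 76) (nat_lit 18709062086) (nat_lit 4) (nat_lit 4) (nat_lit 5) (nat_lit 5) (nat_lit 5) (nat_lit 4) (nat_lit 310) (nat_lit 213) (nat_lit 197)) (XT.lf (nat_lit 0) (nat_lit 8115459482) (nat_lit 76) (nat_lit 22541843367) (nat_lit 76) (nat_lit 15820927029) (nat_lit 4) (nat_lit 4) (nat_lit 5) (nat_lit 5) (nat_lit 5) (nat_lit 4) (nat_lit 311) (nat_lit 213) (nat_lit 196))))))))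
noncomputable def xc9 : XT := (XT.nd (nat_lit 35958) (nat_lit 0) (nat_lit 228) (XT.nd (nat_lit 780) (nat_lit 76) (nat_lit 0) (XT.nd (nat_lit 390) (nat_lit 152) (nat_lit 0) (XT.nd (nat_lit 156) (nat_lit 0) (nat_lit 0) (XT.nd (nat_lit 78) (nat_lit 0) (nat_lit 0) (XT.lf (nat_lit 0) (nat_lit 15928918445) (nat_lit 76) (nat_lit 19856375978) (nat_lit 76) (nat_lit 12887751360) (nat_lit 4) (nat_lit 4) (nat_lit 5) (nat_lit 5) (nat_lit 5) (nat_lit 4) (nat_lit 312) (nat_lit 213) (nat_lit 195)) (XT.lf (nat_lit 0) (nat_lit 23970790309) (nat_lit 76) (nat_lit 17107088594) (nat_lit 76) (nat_lit 9902551328) (nat_lit 4) (nat_lit 4) (nat_lit 5) (nat_lit 5) (nat_lit 5) (nat_lit 4) (nat_lit 313) (nat_lit 213) (nat_lit 194))) (XT.nd (nat_lit 78) (nat_lit 0) (nat_lit 0) (XT.lf (nat_lit 0) (nat_lit 32260222386) (nat_lit 76) (nat_lit 14287435292) (nat_lit 76) (nat_lit 6858219314) (nat_lit 4) (nat_lit 4) (nat_lit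 5) (nat_lit 5) (nat_lit 5) (nat_lit 4) (nat_lit 314) (nat_lit 213) (nat_lit 193)) (XT.nd (nat_lit 78) (nat_lit 0) (nat_lit 0) (XT.lf (nat_lit 0) (nat_lit 40816951421) (nat_lit 76) (nat_lit 11390702612) (nat_lit 76) (nat_lit 3747506908) (nat_lit 4) (nat_lit 4) (nat_lit 5) (nat_lit 5) (nat_lit 5) (nat_lit 4) (nat_lit 315) (nat_lit 213) (nat_lit 192)) (XT.lf (nat_lit 0) (nat_lit 49661350576) (nat_lit 76) (nat_lit 8409993571) (nat_lit 76) (nat_lit 563007653) (nat_lit 4) (nat_lit 4) (nat_lit 5) (nat_lit 5) (nat_lit 5) (nat_lit 4) (nat_lit 316) (nat_lit 213) (nat_lit 191))))) (XT.nd (nat_lit 156) (nat_lit 0) (nat_lit 0) (XT.nd (nat_lit 78) (nat_lit 76) (nat_lit 0) (XT.lf (nat_lit 0) (nat_lit 2650118048) (nat_lit 152) (nat_lit 2661332200) (nat_lit 76) (nat_lit 56137598903) (nat_lit 3) (nat_lit 5) (nat_lit 5) (nat_lit 5) (nat_lit 4) (nat_lit 4) (nat_lit 317) (nat_lit 213) (nat_lit 190)) (XT.lf (nat_lit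 0) (nat_lit 3907856207) (nat_lit 76) (nat_lit 2069371268) (nat_lit 152) (nat_lit 58428193469) (nat_lit 2) (nat_lit 5) (nat_lit 3) (nat_lit 5) (nat_lit 4) (nat_lit 4) (nat_lit 318) (nat_lit 213) (nat_lit 189))) (XT.nd (nat_lit 78) (nat_lit 0) (nat_lit 0) (XT.lf (nat_lit 0) (nat_lit 9440225980) (nat_lit 152) (nat_lit 56787366664) (nat_lit 0) (nat_lit 1282985961) (nat_lit 2) (nat_lit 5) (nat_lit 4) (nat_lit 4) (nat_lit 2) (nat_lit 4) (nat_lit 319) (nat_lit 213) (nat_lit 188)) (XT.nd (nat_lit 78) (nat_lit 0) (nat_lit 0) (XT.lf (nat_lit 0) (nat_lit 13029675610) (nat_lit 152) (nat_lit 53033110106) (nat_lit 0) (nat_lit 4709660140) (nat_lit 2) (nat_lit 5) (nat_lit 4) (nat_lit 4) (nat_lit 2) (nat_lit 4) (nat_lit 320) (nat_lit 213) (nat_lit 187)) (XT.lf (nat_lit 0) (nat_lit 16734230613) (nat_lit 152) (nat_lit 49205964296) (nat_lit 0) (nat_lit 8259190904) (nat_lit 2) (nat_lit 5) (nat_lit 4) (nat_lit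 4) (nat_lit 2) (nat_lit 4) (nat_lit 321) (nat_lit 213) (nat_lit 186)))))) (XT.nd (nat_lit 390) (nat_lit 76) (nat_lit 0) (XT.nd (nat_lit 156) (nat_lit 0) (nat_lit 0) (XT.nd (nat_lit 78) (nat_lit 0) (nat_lit 0) (XT.lf (nat_lit 0) (nat_lit 20562711357) (nat_lit 152) (nat_lit 45296816982) (nat_lit 0) (nat_lit 11940029516) (nat_lit 2) (nat_lit 5) (nat_lit 4) (nat_lit 4) (nat_lit 2) (nat_lit 4) (nat_lit 322) (nat_lit 213) (nat_lit 185)) (XT.lf (nat_lit 0) (nat_lit 24524233273) (nat_lit 152) (nat_lit 41296360670) (nat_lit 0) (nat_lit 15760939878) (nat_lit 2) (nat_lit 5) (nat_lit 4) (nat_lit 4) (nat_lit 2) (nat_lit 4) (nat_lit 323) (nat_lit 213) (nat_lit 184))) (XT.nd (nat_lit 78) (nat_lit 0) (nat_lit 0) (XT.lf (nat_lit 0) (nat_lit 28628228557) (nat_lit 152) (nat_lit 37195070464) (nat_lit 0) (nat_lit 19731019395) (nat_lit 2) (nat_lit 5) (nat_lit 4) (nat_lit 4) (nat_lit 2) (nat_lit 4) (nat_lit 324)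 (nat_lit 213) (nat_lit 183)) (XT.nd (nat_lit 78) (nat_lit 0) (nat_lit 0) (XT.lf (nat_lit 0) (nat_lit 32884468624) (nat_lit 152) (nat_lit 32983181388) (nat_lit 0) (nat_lit 23859720638) (nat_lit 2) (nat_lit 5) (nat_lit 4) (nat_lit 4) (nat_lit 2) (nat_lit 4) (nat_lit 325) (nat_lit 213) (nat_lit 182)) (XT.lf (nat_lit 0) (nat_lit 37303087381) (nat_lit 152) (nat_lit 28650665134) (nat_lit 0) (nat_lit 28156873847) (nat_lit 2) (nat_lit 5) (nat_lit 4) (nat_lit 4) (nat_lit 2) (nat_lit 4) (nat_lit 326) (nat_lit 213) (nat_lit 181))))) (XT.nd (nat_lit 234) (nat_lit 76) (nat_lit 0) (XT.nd (nat_lit 78) (nat_lit 0) (nat_lit 0) (XT.lf (nat_lit 0) (nat_lit 41894605348) (nat_lit 152) (nat_lit 24187206188) (nat_lit 0) (nat_lit 32632710340) (nat_lit 2) (nat_lit 5) (nat_lit 4) (nat_lit 4) (nat_lit 2) (nat_lit 4) (nat_lit 327) (nat_lit 213) (nat_lit 180)) (XT.nd (nat_lit 78) (nat_lit 0) (nat_lit 0) (XT.lf (nat_lit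 0) (nat_lit 46669954710) (nat_lit 152) (nat_lit 19582177266) (nat_lit 0) (nat_lit 37297886871) (nat_lit 2) (nat_lit 5) (nat_lit 4) (nat_lit 4) (nat_lit 2) (nat_lit 4) (nat_lit 328) (nat_lit 213) (nat_lit 179)) (XT.lf (nat_lit 0) (nat_lit 51640505348) (nat_lit 152) (nat_lit 14824614013) (nat_lit 0) (nat_lit 42163511002) (nat_lit 2) (nat_lit 5) (nat_lit 4) (nat_lit 4) (nat_lit 2) (nat_lit 4) (nat_lit 329) (nat_lit 213) (nat_lit 178)))) (XT.nd (nat_lit 78) (nat_lit 76) (nat_lit 0) (XT.lf (nat_lit 0) (nat_lit 56818091906) (nat_lit 152) (nat_lit 9903188898) (nat_lit 0) (nat_lit 47241167553) (nat_lit 2) (nat_lit 5) (nat_lit 4) (nat_lit 4) (nat_lit 2) (nat_lit 4) (nat_lit 330) (nat_lit 213) (nat_lit 177)) (XT.nd (nat_lit 156) (nat_lit 76) (nat_lit 0) (XT.lf (nat_lit 0) (nat_lit 62215041970) (nat_lit 152) (nat_lit 4806184243) (nat_lit 0) (nat_lit 52542946182) (nat_lit 2) (nat_lit 5) (nat_lit 4)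 (nat_lit 4) (nat_lit 2) (nat_lit 4) (nat_lit 331) (nat_lit 213) (nat_lit 176)) (XT.lf (nat_lit 0) (nat_lit 6082239940) (nat_lit 76) (nat_lit 67695211301) (nat_lit 76) (nat_lit 57846152755) (nat_lit 1) (nat_lit 4) (nat_lit 2) (nat_lit 5) (nat_lit 2) (nat_lit 4) (nat_lit 333) (nat_lit 213) (nat_lit 174))))))) (XT.nd (nat_lit 780) (nat_lit 304) (nat_lit 0) (XT.nd (nat_lit 390) (nat_lit 152) (nat_lit 0) (XT.nd (nat_lit 156) (nat_lit 304) (nat_lit 0) (XT.nd (nat_lit 78) (nat_lit 0) (nat_lit 0) (XT.lf (nat_lit 0) (nat_lit 4580144865) (nat_lit 152) (nat_lit 2802356820) (nat_lit 152) (nat_lit 2802356820) (nat_lit 14) (nat_lit 4) (nat_lit 16) (nat_lit 5) (nat_lit 16) (nat_lit 4) (nat_lit 292) (nat_lit 214) (nat_lit 214)) (XT.lf (nat_lit 0) (nat_lit 19812725540) (nat_lit 152) (nat_lit 1020172070) (nat_lit 152) (nat_lit 368754331) (nat_lit 14) (nat_lit 4) (nat_lit 16) (nat_lit 5) (nat_lit 16) (nat_lit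 4) (nat_lit 293) (nat_lit 214) (nat_lit 213))) (XT.nd (nat_lit 78) (nat_lit 152) (nat_lit 0) (XT.lf (nat_lit 0) (nat_lit 4957790461) (nat_lit 152) (nat_lit 13395217608) (nat_lit 0) (nat_lit 3723018048) (nat_lit 12) (nat_lit 5) (nat_lit 14) (nat_lit 4) (nat_lit 12) (nat_lit 4) (nat_lit 294) (nat_lit 214) (nat_lit 212)) (XT.nd (nat_lit 78) (nat_lit 152) (nat_lit 0) (XT.lf (nat_lit 0) (nat_lit 10381237352) (nat_lit 152) (nat_lit 4044985698) (nat_lit 0) (nat_lit 8572819217) (nat_lit 12) (nat_lit 5) (nat_lit 14) (nat_lit 4) (nat_lit 12) (nat_lit 4) (nat_lit 295) (nat_lit 214) (nat_lit 211)) (XT.lf (nat_lit 0) (nat_lit 5576635244) (nat_lit 152) (nat_lit 10375107552) (nat_lit 152) (nat_lit 8020360160) (nat_lit 10) (nat_lit 4) (nat_lit 12) (nat_lit 5) (nat_lit 12) (nat_lit 4) (nat_lit 296) (nat_lit 214) (nat_lit 210))))) (XT.nd (nat_lit 156) (nat_lit 76) (nat_lit 0) (XT.nd (nat_lit 78) (nat_lit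 76) (nat_lit 0) (XT.lf (nat_lit 0) (nat_lit 15467663862) (nat_lit 152) (nat_lit 6202644970) (nat_lit 152) (nat_lit 3327583998) (nat_lit 10) (nat_lit 4) (nat_lit 12) (nat_lit 5) (nat_lit 12) (nat_lit 4) (nat_lit 297) (nat_lit 214) (nat_lit 209)) (XT.lf (nat_lit 0) (nat_lit 1402929375) (nat_lit 228) (nat_lit 522651080) (nat_lit 76) (nat_lit 24154050864) (nat_lit 9) (nat_lit 5) (nat_lit 12) (nat_lit 5) (nat_lit 10) (nat_lit 4) (nat_lit 298) (nat_lit 214) (nat_lit 208))) (XT.nd (nat_lit 78) (nat_lit 0) (nat_lit 0) (XT.lf (nat_lit 0) (nat_lit 6253333262) (nat_lit 152) (nat_lit 18439998028) (nat_lit 0) (nat_lit 2522714362) (nat_lit 8) (nat_lit 5) (nat_lit 10) (nat_lit 4) (nat_lit 8) (nat_lit 4) (nat_lit 299) (nat_lit 214) (nat_lit 207)) (XT.nd (nat_lit 78) (nat_lit 0) (nat_lit 0) (XT.lf (nat_lit 0) (nat_lit 11217237325) (nat_lit 152) (nat_lit 10145806771) (nat_lit 0) (nat_lit 7050243247) (nat_lit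 8) (nat_lit 5) (nat_lit 10) (nat_lit 4) (nat_lit 8) (nat_lit 4) (nat_lit 300) (nat_lit 214) (nat_lit 206)) (XT.lf (nat_lit 0) (nat_lit 16282775761) (nat_lit 152) (nat_lit 1691955466) (nat_lit 0) (nat_lit 11700186277) (nat_lit 8) (nat_lit 5) (nat_lit 10) (nat_lit 4) (nat_lit 8) (nat_lit 4) (nat_lit 301) (nat_lit 214) (nat_lit 205)))))) (XT.nd (nat_lit 390) (nat_lit 76) (nat_lit 0) (XT.nd (nat_lit 156) (nat_lit 152) (nat_lit 0) (XT.nd (nat_lit 78) (nat_lit 0) (nat_lit 0) (XT.lf (nat_lit 0) (nat_lit 7079837226) (nat_lit 76) (nat_lit 14450227878) (nat_lit 76) (nat_lit 9471833245) (nat_lit 7) (nat_lit 4) (nat_lit 8) (nat_lit 5) (nat_lit 8) (nat_lit 4) (nat_lit 302) (nat_lit 214) (nat_lit 204)) (XT.lf (nat_lit 0) (nat_lit 16089634949) (nat_lit 76) (nat_lit 10832298148) (nat_lit 76) (nat_lit 5476946229) (nat_lit 7) (nat_lit 4) (nat_lit 8) (nat_lit 5) (nat_lit 8) (nat_lit 4) (nat_lit 303) (nat_lit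 214) (nat_lit 203))) (XT.nd (nat_lit 78) (nat_lit 152) (nat_lit 0) (XT.lf (nat_lit 0) (nat_lit 25325216369) (nat_lit 76) (nat_lit 7129413351) (nat_lit 76) (nat_lit 1415054495) (nat_lit 7) (nat_lit 4) (nat_lit 8) (nat_lit 5) (nat_lit 8) (nat_lit 4) (nat_lit 304) (nat_lit 214) (nat_lit 202)) (XT.nd (nat_lit 78) (nat_lit 76) (nat_lit 0) (XT.lf (nat_lit 0) (nat_lit 2670367578) (nat_lit 152) (nat_lit 635424042) (nat_lit 76) (nat_lit 32111237912) (nat_lit 6) (nat_lit 5) (nat_lit 8) (nat_lit 5) (nat_lit 7) (nat_lit 4) (nat_lit 305) (nat_lit 214) (nat_lit 201)) (XT.lf (nat_lit 0) (nat_lit 6892874640) (nat_lit 152) (nat_lit 29452828216) (nat_lit 0) (nat_lit 696855123) (nat_lit 5) (nat_lit 5) (nat_lit 7) (nat_lit 4) (nat_lit 5) (nat_lit 4) (nat_lit 306) (nat_lit 214) (nat_lit 200))))) (XT.nd (nat_lit 234) (nat_lit 76) (nat_lit 0) (XT.nd (nat_lit 78) (nat_lit 0) (nat_lit 0) (XT.lf (nat_lit 0) (nat_lit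 11251298610) (nat_lit 152) (nat_lit 22746226226) (nat_lit 0) (nat_lit 4754188131) (nat_lit 5) (nat_lit 5) (nat_lit 7) (nat_lit 4) (nat_lit 5) (nat_lit 4) (nat_lit 307) (nat_lit 214) (nat_lit 199)) (XT.nd (nat_lit 78) (nat_lit 0) (nat_lit 0) (XT.lf (nat_lit 0) (nat_lit 15717948070) (nat_lit 152) (nat_lit 15897673608) (nat_lit 0) (nat_lit 8934084293) (nat_lit 5) (nat_lit 5) (nat_lit 7) (nat_lit 4) (nat_lit 5) (nat_lit 4) (nat_lit 308) (nat_lit 214) (nat_lit 198)) (XT.lf (nat_lit 0) (nat_lit 20303457899) (nat_lit 152) (nat_lit 8890864285) (nat_lit 0) (nat_lit 13246495743) (nat_lit 5) (nat_lit 5) (nat_lit 7) (nat_lit 4) (nat_lit 5) (nat_lit 4) (nat_lit 309) (nat_lit 214) (nat_lit 197)))) (XT.nd (nat_lit 78) (nat_lit 76) (nat_lit 0) (XT.lf (nat_lit 0) (nat_lit 25018745977) (nat_lit 152) (nat_lit 1709115377) (nat_lit 0) (nat_lit 17701690128) (nat_lit 5) (nat_lit 5) (nat_lit 7) (nat_lit 4) (nat_lit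 5) (nat_lit 4) (nat_lit 310) (nat_lit 214) (nat_lit 196)) (XT.nd (nat_lit 78) (nat_lit 0) (nat_lit 0) (XT.lf (nat_lit 0) (nat_lit 5777410606) (nat_lit 76) (nat_lit 24153164581) (nat_lit 76) (nat_lit 16588400451) (nat_lit 4) (nat_lit 4) (nat_lit 5) (nat_lit 5) (nat_lit 5) (nat_lit 4) (nat_lit 311) (nat_lit 214) (nat_lit 195)) (XT.lf (nat_lit 0) (nat_lit 13511718327) (nat_lit 76) (nat_lit 21502064691) (nat_lit 76) (nat_lit 13701387914) (nat_lit 4) (nat_lit 4) (nat_lit 5) (nat_lit 5) (nat_lit 5) (nat_lit 4) (nat_lit 312) (nat_lit 214) (nat_lit 194))))))))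
noncomputable def xc10 : XT := (XT.nd (nat_lit 35802) (nat_lit 0) (nat_lit 228) (XT.nd (nat_lit 780) (nat_lit 76) (nat_lit 0) (XT.nd (nat_lit 390) (nat_lit 76) (nat_lit 0) (XT.nd (nat_lit 156) (nat_lit 76) (nat_lit 0) (XT.nd (nat_lit 78) (nat_lit 0) (nat_lit 0) (XT.lf (nat_lit 0) (nat_lit 21478208054) (nat_lit 76) (nat_lit 18785508259) (nat_lit 76) (nat_lit 10760152770) (nat_lit 4) (nat_lit 4) (nat_lit 5) (nat_lit 5) (nat_lit 5) (nat_lit 4) (nat_lit 313) (nat_lit 214) (nat_lit 193)) (XT.lf (nat_lit 0) (nat_lit 29695847620) (nat_lit 76) (nat_lit 15997027292) (nat_lit 76) (nat_lit 7757692077) (nat_lit 4) (nat_lit 4) (nat_lit 5) (nat_lit 5) (nat_lit 5) (nat_lit 4) (nat_lit 314) (nat_lit 214) (nat_lit 192))) (XT.nd (nat_lit 78) (nat_lit 76) (nat_lit 0) (XT.lf (nat_lit 0) (nat_lit 38184202835) (nat_lit 76) (nat_lit 13129982550) (nat_lit 76) (nat_lit 4686857121) (nat_lit 4) (nat_lit 4) (nat_lit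 5) (nat_lit 5) (nat_lit 5) (nat_lit 4) (nat_lit 315) (nat_lit 214) (nat_lit 191)) (XT.nd (nat_lit 78) (nat_lit 76) (nat_lit 0) (XT.lf (nat_lit 0) (nat_lit 46963484068) (nat_lit 76) (nat_lit 10177547736) (nat_lit 76) (nat_lit 1540336388) (nat_lit 4) (nat_lit 4) (nat_lit 5) (nat_lit 5) (nat_lit 5) (nat_lit 4) (nat_lit 316) (nat_lit 214) (nat_lit 190)) (XT.lf (nat_lit 0) (nat_lit 1656396302) (nat_lit 152) (nat_lit 5459570587) (nat_lit 76) (nat_lit 54381471711) (nat_lit 3) (nat_lit 5) (nat_lit 5) (nat_lit 5) (nat_lit 4) (nat_lit 4) (nat_lit 317) (nat_lit 214) (nat_lit 189))))) (XT.nd (nat_lit 156) (nat_lit 0) (nat_lit 0) (XT.nd (nat_lit 78) (nat_lit 0) (nat_lit 0) (XT.lf (nat_lit 0) (nat_lit 992975942) (nat_lit 76) (nat_lit 3928734734) (nat_lit 152) (nat_lit 59533979562) (nat_lit 2) (nat_lit 5) (nat_lit 3) (nat_lit 5) (nat_lit 4) (nat_lit 4) (nat_lit 318) (nat_lit 214) (nat_lit 188)) (XT.lf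 (nat_lit 0) (nat_lit 7763238321) (nat_lit 76) (nat_lit 576167475) (nat_lit 152) (nat_lit 59222825957) (nat_lit 2) (nat_lit 5) (nat_lit 3) (nat_lit 5) (nat_lit 4) (nat_lit 4) (nat_lit 319) (nat_lit 214) (nat_lit 187))) (XT.nd (nat_lit 78) (nat_lit 0) (nat_lit 0) (XT.lf (nat_lit 0) (nat_lit 11891918362) (nat_lit 152) (nat_lit 56095209901) (nat_lit 0) (nat_lit 2838102429) (nat_lit 2) (nat_lit 5) (nat_lit 4) (nat_lit 4) (nat_lit 2) (nat_lit 4) (nat_lit 320) (nat_lit 214) (nat_lit 186)) (XT.nd (nat_lit 78) (nat_lit 0) (nat_lit 0) (XT.lf (nat_lit 0) (nat_lit 15566569946) (nat_lit 152) (nat_lit 52321408376) (nat_lit 0) (nat_lit 6365111881) (nat_lit 2) (nat_lit 5) (nat_lit 4) (nat_lit 4) (nat_lit 2) (nat_lit 4) (nat_lit 321) (nat_lit 214) (nat_lit 185)) (XT.lf (nat_lit 0) (nat_lit 19366571243) (nat_lit 152) (nat_lit 48463065144) (nat_lit 0) (nat_lit 10024501624) (nat_lit 2) (nat_lit 5) (nat_lit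 4) (nat_lit 4) (nat_lit 2) (nat_lit 4) (nat_lit 322) (nat_lit 214) (nat_lit 184)))))) (XT.nd (nat_lit 390) (nat_lit 76) (nat_lit 0) (XT.nd (nat_lit 156) (nat_lit 0) (nat_lit 0) (XT.nd (nat_lit 78) (nat_lit 0) (nat_lit 0) (XT.lf (nat_lit 0) (nat_lit 23300969877) (nat_lit 152) (nat_lit 44510993672) (nat_lit 0) (nat_lit 13824984492) (nat_lit 2) (nat_lit 5) (nat_lit 4) (nat_lit 4) (nat_lit 2) (nat_lit 4) (nat_lit 323) (nat_lit 214) (nat_lit 183)) (XT.lf (nat_lit 0) (nat_lit 27379133463) (nat_lit 152) (nat_lit 40455784266) (nat_lit 0) (nat_lit 17775609253) (nat_lit 2) (nat_lit 5) (nat_lit 4) (nat_lit 4) (nat_lit 2) (nat_lit 4) (nat_lit 324) (nat_lit 214) (nat_lit 182))) (XT.nd (nat_lit 78) (nat_lit 0) (nat_lit 0) (XT.lf (nat_lit 0) (nat_lit 31610771914) (nat_lit 152) (nat_lit 36287781667) (nat_lit 0) (nat_lit 21885782156) (nat_lit 2) (nat_lit 5) (nat_lit 4) (nat_lit 4) (nat_lit 2) (nat_lit 4)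 (nat_lit 325) (nat_lit 214) (nat_lit 181)) (XT.nd (nat_lit 78) (nat_lit 0) (nat_lit 0) (XT.lf (nat_lit 0) (nat_lit 36005960560) (nat_lit 152) (nat_lit 31997062057) (nat_lit 0) (nat_lit 26165289328) (nat_lit 2) (nat_lit 5) (nat_lit 4) (nat_lit 4) (nat_lit 2) (nat_lit 4) (nat_lit 326) (nat_lit 214) (nat_lit 180)) (XT.lf (nat_lit 0) (nat_lit 40575164135) (nat_lit 152) (nat_lit 27573409438) (nat_lit 0) (nat_lit 30624320071) (nat_lit 2) (nat_lit 5) (nat_lit 4) (nat_lit 4) (nat_lit 2) (nat_lit 4) (nat_lit 327) (nat_lit 214) (nat_lit 179))))) (XT.nd (nat_lit 234) (nat_lit 76) (nat_lit 0) (XT.nd (nat_lit 78) (nat_lit 0) (nat_lit 0) (XT.lf (nat_lit 0) (nat_lit 45329261696) (nat_lit 152) (nat_lit 23006291304) (nat_lit 0) (nat_lit 35273491126) (nat_lit 2) (nat_lit 5) (nat_lit 4) (nat_lit 4) (nat_lit 2) (nat_lit 4) (nat_lit 328) (nat_lit 214) (nat_lit 178)) (XT.nd (nat_lit 78) (nat_lit 0) (nat_lit 0)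 (XT.lf (nat_lit 0) (nat_lit 50279572523) (nat_lit 152) (nat_lit 18284833564) (nat_lit 0) (nat_lit 40123871946) (nat_lit 2) (nat_lit 5) (nat_lit 4) (nat_lit 4) (nat_lit 2) (nat_lit 4) (nat_lit 329) (nat_lit 214) (nat_lit 177)) (XT.lf (nat_lit 0) (nat_lit 55437883070) (nat_lit 152) (nat_lit 13397794652) (nat_lit 0) (nat_lit 45187011058) (nat_lit 2) (nat_lit 5) (nat_lit 4) (nat_lit 4) (nat_lit 2) (nat_lit 4) (nat_lit 330) (nat_lit 214) (nat_lit 176)))) (XT.nd (nat_lit 156) (nat_lit 76) (nat_lit 0) (XT.lf (nat_lit 0) (nat_lit 60816475029) (nat_lit 152) (nat_lit 8333538761) (nat_lit 0) (nat_lit 50474963556) (nat_lit 2) (nat_lit 5) (nat_lit 4) (nat_lit 4) (nat_lit 2) (nat_lit 4) (nat_lit 331) (nat_lit 214) (nat_lit 175)) (XT.nd (nat_lit 34164) (nat_lit 0) (nat_lit 1140) (XT.lf (nat_lit 0) (nat_lit 2422578860) (nat_lit 76) (nat_lit 69886991288) (nat_lit 76) (nat_lit 59376943854) (nat_lit 1) (nat_lit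 4) (nat_lit 2) (nat_lit 5) (nat_lit 2) (nat_lit 4) (nat_lit 333) (nat_lit 214) (nat_lit 173)) (XT.lf (nat_lit 0) (nat_lit 1904760671) (nat_lit 152) (nat_lit 5607472727) (nat_lit 0) (nat_lit 1904760671) (nat_lit 16) (nat_lit 5) (nat_lit 18) (nat_lit 4) (nat_lit 16) (nat_lit 4) (nat_lit 290) (nat_lit 215) (nat_lit 215))))))) (XT.nd (nat_lit 780) (nat_lit 304) (nat_lit 0) (XT.nd (nat_lit 390) (nat_lit 304) (nat_lit 0) (XT.nd (nat_lit 156) (nat_lit 152) (nat_lit 0) (XT.nd (nat_lit 78) (nat_lit 152) (nat_lit 0) (XT.lf (nat_lit 0) (nat_lit 9493228919) (nat_lit 152) (nat_lit 1280426711) (nat_lit 0) (nat_lit 8809240293) (nat_lit 16) (nat_lit 5) (nat_lit 18) (nat_lit 4) (nat_lit 16) (nat_lit 4) (nat_lit 291) (nat_lit 215) (nat_lit 214)) (XT.lf (nat_lit 0) (nat_lit 8995863580) (nat_lit 152) (nat_lit 6356134341) (nat_lit 152) (nat_lit 5020727975) (nat_lit 14) (nat_lit 4) (nat_lit 16) (nat_lit 5) (nat_lit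 16) (nat_lit 4) (nat_lit 292) (nat_lit 215) (nat_lit 213))) (XT.nd (nat_lit 78) (nat_lit 76) (nat_lit 0) (XT.lf (nat_lit 0) (nat_lit 117648972) (nat_lit 228) (nat_lit 1716976799) (nat_lit 76) (nat_lit 19372866060) (nat_lit 13) (nat_lit 5) (nat_lit 16) (nat_lit 5) (nat_lit 14) (nat_lit 4) (nat_lit 293) (nat_lit 215) (nat_lit 212)) (XT.nd (nat_lit 78) (nat_lit 0) (nat_lit 0) (XT.lf (nat_lit 0) (nat_lit 5334893765) (nat_lit 152) (nat_lit 13887607262) (nat_lit 0) (nat_lit 2862409003) (nat_lit 12) (nat_lit 5) (nat_lit 14) (nat_lit 4) (nat_lit 12) (nat_lit 4) (nat_lit 294) (nat_lit 215) (nat_lit 211)) (XT.lf (nat_lit 0) (nat_lit 10671648061) (nat_lit 152) (nat_lit 4686127938) (nat_lit 0) (nat_lit 7652834041) (nat_lit 12) (nat_lit 5) (nat_lit 14) (nat_lit 4) (nat_lit 12) (nat_lit 4) (nat_lit 295) (nat_lit 215) (nat_lit 210))))) (XT.nd (nat_lit 156) (nat_lit 152) (nat_lit 0) (XT.nd (nat_lit 78)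 (nat_lit 0) (nat_lit 0) (XT.lf (nat_lit 0) (nat_lit 4778244394) (nat_lit 152) (nat_lit 11373670115) (nat_lit 152) (nat_lit 7834542517) (nat_lit 10) (nat_lit 4) (nat_lit 12) (nat_lit 5) (nat_lit 12) (nat_lit 4) (nat_lit 296) (nat_lit 215) (nat_lit 209)) (XT.lf (nat_lit 0) (nat_lit 14531664799) (nat_lit 152) (nat_lit 7258860232) (nat_lit 152) (nat_lit 3224195891) (nat_lit 10) (nat_lit 4) (nat_lit 12) (nat_lit 5) (nat_lit 12) (nat_lit 4) (nat_lit 297) (nat_lit 215) (nat_lit 208))) (XT.nd (nat_lit 78) (nat_lit 76) (nat_lit 0) (XT.lf (nat_lit 0) (nat_lit 1427327589) (nat_lit 228) (nat_lit 1609129087) (nat_lit 76) (nat_lit 23062351772) (nat_lit 9) (nat_lit 5) (nat_lit 12) (nat_lit 5) (nat_lit 10) (nat_lit 4) (nat_lit 298) (nat_lit 215) (nat_lit 207)) (XT.nd (nat_lit 78) (nat_lit 0) (nat_lit 0) (XT.lf (nat_lit 0) (nat_lit 6181228105) (nat_lit 152) (nat_lit 19687446992) (nat_lit 0) (nat_lit 1369509146)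 (nat_lit 8) (nat_lit 5) (nat_lit 10) (nat_lit 4) (nat_lit 8) (nat_lit 4) (nat_lit 299) (nat_lit 215) (nat_lit 206)) (XT.lf (nat_lit 0) (nat_lit 11073639080) (nat_lit 152) (nat_lit 11517670133) (nat_lit 0) (nat_lit 5846324715) (nat_lit 8) (nat_lit 5) (nat_lit 10) (nat_lit 4) (nat_lit 8) (nat_lit 4) (nat_lit 300) (nat_lit 215) (nat_lit 205)))))) (XT.nd (nat_lit 390) (nat_lit 152) (nat_lit 0) (XT.nd (nat_lit 156) (nat_lit 76) (nat_lit 0) (XT.nd (nat_lit 78) (nat_lit 76) (nat_lit 0) (XT.lf (nat_lit 0) (nat_lit 16071088862) (nat_lit 152) (nat_lit 3182308732) (nat_lit 0) (nat_lit 10447969348) (nat_lit 8) (nat_lit 5) (nat_lit 10) (nat_lit 4) (nat_lit 8) (nat_lit 4) (nat_lit 301) (nat_lit 215) (nat_lit 204)) (XT.lf (nat_lit 0) (nat_lit 5444729595) (nat_lit 76) (nat_lit 15793084617) (nat_lit 76) (nat_lit 9793007818) (nat_lit 7) (nat_lit 4) (nat_lit 8) (nat_lit 5) (nat_lit 8) (nat_lit 4) (nat_lit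 302) (nat_lit 215) (nat_lit 203))) (XT.nd (nat_lit 78) (nat_lit 76) (nat_lit 0) (XT.lf (nat_lit 0) (nat_lit 14344914543) (nat_lit 76) (nat_lit 12221955580) (nat_lit 76) (nat_lit 5862871842) (nat_lit 7) (nat_lit 4) (nat_lit 8) (nat_lit 5) (nat_lit 8) (nat_lit 4) (nat_lit 303) (nat_lit 215) (nat_lit 202)) (XT.nd (nat_lit 78) (nat_lit 76) (nat_lit 0) (XT.lf (nat_lit 0) (nat_lit 23476102844) (nat_lit 76) (nat_lit 8563642872) (nat_lit 76) (nat_lit 1862647765) (nat_lit 7) (nat_lit 4) (nat_lit 8) (nat_lit 5) (nat_lit 8) (nat_lit 4) (nat_lit 304) (nat_lit 215) (nat_lit 201)) (XT.lf (nat_lit 0) (nat_lit 2173923418) (nat_lit 152) (nat_lit 2613560444) (nat_lit 76) (nat_lit 30664159642) (nat_lit 6) (nat_lit 5) (nat_lit 8) (nat_lit 5) (nat_lit 7) (nat_lit 4) (nat_lit 305) (nat_lit 215) (nat_lit 200))))) (XT.nd (nat_lit 234) (nat_lit 76) (nat_lit 0) (XT.nd (nat_lit 78) (nat_lit 0) (nat_lit 0) (XT.lf (nat_lit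 0) (nat_lit 5481529430) (nat_lit 76) (nat_lit 832893281) (nat_lit 152) (nat_lit 30765255260) (nat_lit 5) (nat_lit 5) (nat_lit 6) (nat_lit 5) (nat_lit 7) (nat_lit 4) (nat_lit 306) (nat_lit 215) (nat_lit 199)) (XT.nd (nat_lit 78) (nat_lit 0) (nat_lit 0) (XT.lf (nat_lit 0) (nat_lit 10611330300) (nat_lit 152) (nat_lit 24977871721) (nat_lit 0) (nat_lit 3201520037) (nat_lit 5) (nat_lit 5) (nat_lit 7) (nat_lit 4) (nat_lit 5) (nat_lit 4) (nat_lit 307) (nat_lit 215) (nat_lit 198)) (XT.lf (nat_lit 0) (nat_lit 15027017758) (nat_lit 152) (nat_lit 18219158580) (nat_lit 0) (nat_lit 7344109116) (nat_lit 5) (nat_lit 5) (nat_lit 7) (nat_lit 4) (nat_lit 5) (nat_lit 4) (nat_lit 308) (nat_lit 215) (nat_lit 197)))) (XT.nd (nat_lit 78) (nat_lit 76) (nat_lit 0) (XT.lf (nat_lit 0) (nat_lit 19563992347) (nat_lit 152) (nat_lit 11297910662) (nat_lit 0) (nat_lit 11620990011) (nat_lit 5) (nat_lit 5) (nat_lit 7) (nat_lit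 4) (nat_lit 5) (nat_lit 4) (nat_lit 309) (nat_lit 215) (nat_lit 196)) (XT.nd (nat_lit 78) (nat_lit 76) (nat_lit 0) (XT.lf (nat_lit 0) (nat_lit 24233056388) (nat_lit 152) (nat_lit 4197648807) (nat_lit 0) (nat_lit 16042345772) (nat_lit 5) (nat_lit 5) (nat_lit 7) (nat_lit 4) (nat_lit 5) (nat_lit 4) (nat_lit 310) (nat_lit 215) (nat_lit 195)) (XT.lf (nat_lit 0) (nat_lit 3160199238) (nat_lit 76) (nat_lit 25915505229) (nat_lit 76) (nat_lit 17488881965) (nat_lit 4) (nat_lit 4) (nat_lit 5) (nat_lit 5) (nat_lit 5) (nat_lit 4) (nat_lit 311) (nat_lit 215) (nat_lit 194))))))))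
noncomputable def xc11 : XT := (XT.nd (nat_lit 35646) (nat_lit 0) (nat_lit 228) (XT.nd (nat_lit 780) (nat_lit 0) (nat_lit 0) (XT.nd (nat_lit 390) (nat_lit 152) (nat_lit 0) (XT.nd (nat_lit 156) (nat_lit 0) (nat_lit 0) (XT.nd (nat_lit 78) (nat_lit 0) (nat_lit 0) (XT.lf (nat_lit 0) (nat_lit 10819124823) (nat_lit 76) (nat_lit 23297136291) (nat_lit 76) (nat_lit 14645834316) (nat_lit 4) (nat_lit 4) (nat_lit 5) (nat_lit 5) (nat_lit 5) (nat_lit 4) (nat_lit 312) (nat_lit 215) (nat_lit 193)) (XT.lf (nat_lit 0) (nat_lit 18713822039) (nat_lit 76) (nat_lit 20611752194) (nat_lit 76) (nat_lit 11746470493) (nat_lit 4) (nat_lit 4) (nat_lit 5) (nat_lit 5) (nat_lit 5) (nat_lit 4) (nat_lit 313) (nat_lit 215) (nat_lit 192))) (XT.nd (nat_lit 78) (nat_lit 0) (nat_lit 0) (XT.lf (nat_lit 0) (nat_lit 26863087786) (nat_lit 76) (nat_lit 17852959165) (nat_lit 76) (nat_lit 8783887249) (nat_lit 4) (nat_lit 4) (nat_lit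 5) (nat_lit 5) (nat_lit 5) (nat_lit 4) (nat_lit 314) (nat_lit 215) (nat_lit 191)) (XT.nd (nat_lit 78) (nat_lit 0) (nat_lit 0) (XT.lf (nat_lit 0) (nat_lit 35286325077) (nat_lit 76) (nat_lit 15014188650) (nat_lit 76) (nat_lit 5751030815) (nat_lit 4) (nat_lit 4) (nat_lit 5) (nat_lit 5) (nat_lit 5) (nat_lit 4) (nat_lit 315) (nat_lit 215) (nat_lit 190)) (XT.lf (nat_lit 0) (nat_lit 44003589240) (nat_lit 76) (nat_lit 12088681672) (nat_lit 76) (nat_lit 2640680104) (nat_lit 4) (nat_lit 4) (nat_lit 5) (nat_lit 5) (nat_lit 5) (nat_lit 4) (nat_lit 316) (nat_lit 215) (nat_lit 189))))) (XT.nd (nat_lit 156) (nat_lit 76) (nat_lit 0) (XT.nd (nat_lit 78) (nat_lit 0) (nat_lit 0) (XT.lf (nat_lit 0) (nat_lit 543748812) (nat_lit 152) (nat_lit 8520233127) (nat_lit 76) (nat_lit 52486396055) (nat_lit 3) (nat_lit 5) (nat_lit 5) (nat_lit 5) (nat_lit 4) (nat_lit 4) (nat_lit 317) (nat_lit 215) (nat_lit 188)) (XT.lf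 (nat_lit 0) (nat_lit 3767351006) (nat_lit 152) (nat_lit 2143979387) (nat_lit 76) (nat_lit 58598575358) (nat_lit 3) (nat_lit 5) (nat_lit 5) (nat_lit 5) (nat_lit 4) (nat_lit 4) (nat_lit 318) (nat_lit 215) (nat_lit 187))) (XT.nd (nat_lit 78) (nat_lit 0) (nat_lit 0) (XT.lf (nat_lit 0) (nat_lit 4528328837) (nat_lit 76) (nat_lit 2604531130) (nat_lit 152) (nat_lit 60485176459) (nat_lit 2) (nat_lit 5) (nat_lit 3) (nat_lit 5) (nat_lit 4) (nat_lit 4) (nat_lit 319) (nat_lit 215) (nat_lit 186)) (XT.nd (nat_lit 78) (nat_lit 0) (nat_lit 0) (XT.lf (nat_lit 0) (nat_lit 10635971242) (nat_lit 152) (nat_lit 59419770471) (nat_lit 0) (nat_lit 826798142) (nat_lit 2) (nat_lit 5) (nat_lit 4) (nat_lit 4) (nat_lit 2) (nat_lit 4) (nat_lit 320) (nat_lit 215) (nat_lit 185)) (XT.lf (nat_lit 0) (nat_lit 14282143380) (nat_lit 152) (nat_lit 55696773029) (nat_lit 0) (nat_lit 4332358725) (nat_lit 2) (nat_lit 5) (nat_lit 4)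 (nat_lit 4) (nat_lit 2) (nat_lit 4) (nat_lit 321) (nat_lit 215) (nat_lit 184)))))) (XT.nd (nat_lit 390) (nat_lit 0) (nat_lit 0) (XT.nd (nat_lit 156) (nat_lit 0) (nat_lit 0) (XT.nd (nat_lit 78) (nat_lit 0) (nat_lit 0) (XT.lf (nat_lit 0) (nat_lit 18055021395) (nat_lit 152) (nat_lit 51886814637) (nat_lit 0) (nat_lit 7971320975) (nat_lit 2) (nat_lit 5) (nat_lit 4) (nat_lit 4) (nat_lit 2) (nat_lit 4) (nat_lit 322) (nat_lit 215) (nat_lit 183)) (XT.lf (nat_lit 0) (nat_lit 21963588332) (nat_lit 152) (nat_lit 47980823965) (nat_lit 0) (nat_lit 11752349086) (nat_lit 2) (nat_lit 5) (nat_lit 4) (nat_lit 4) (nat_lit 2) (nat_lit 4) (nat_lit 323) (nat_lit 215) (nat_lit 182))) (XT.nd (nat_lit 78) (nat_lit 0) (nat_lit 0) (XT.lf (nat_lit 0) (nat_lit 26017150301) (nat_lit 152) (nat_lit 43969501035) (nat_lit 0) (nat_lit 15684445508) (nat_lit 2) (nat_lit 5) (nat_lit 4) (nat_lit 4) (nat_lit 2) (nat_lit 4) (nat_lit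 324) (nat_lit 215) (nat_lit 181)) (XT.nd (nat_lit 78) (nat_lit 0) (nat_lit 0) (XT.lf (nat_lit 0) (nat_lit 30225358641) (nat_lit 152) (nat_lit 39843295079) (nat_lit 0) (nat_lit 19776972374) (nat_lit 2) (nat_lit 5) (nat_lit 4) (nat_lit 4) (nat_lit 2) (nat_lit 4) (nat_lit 325) (nat_lit 215) (nat_lit 180)) (XT.lf (nat_lit 0) (nat_lit 34598232895) (nat_lit 152) (nat_lit 35592381797) (nat_lit 0) (nat_lit 24039673796) (nat_lit 2) (nat_lit 5) (nat_lit 4) (nat_lit 4) (nat_lit 2) (nat_lit 4) (nat_lit 326) (nat_lit 215) (nat_lit 179))))) (XT.nd (nat_lit 234) (nat_lit 0) (nat_lit 0) (XT.nd (nat_lit 78) (nat_lit 0) (nat_lit 0) (XT.lf (nat_lit 0) (nat_lit 39146184669) (nat_lit 152) (nat_lit 31206639966) (nat_lit 0) (nat_lit 28482699063) (nat_lit 2) (nat_lit 5) (nat_lit 4) (nat_lit 4) (nat_lit 2) (nat_lit 4) (nat_lit 327) (nat_lit 215) (nat_lit 178)) (XT.nd (nat_lit 78) (nat_lit 0) (nat_lit 0) (XT.lf (nat_lit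 0) (nat_lit 43880042419) (nat_lit 152) (nat_lit 26675627345) (nat_lit 0) (nat_lit 33116626807) (nat_lit 2) (nat_lit 5) (nat_lit 4) (nat_lit 4) (nat_lit 2) (nat_lit 4) (nat_lit 328) (nat_lit 215) (nat_lit 177)) (XT.lf (nat_lit 0) (nat_lit 48811077236) (nat_lit 152) (nat_lit 21988555807) (nat_lit 0) (nat_lit 37952490189) (nat_lit 2) (nat_lit 5) (nat_lit 4) (nat_lit 4) (nat_lit 2) (nat_lit 4) (nat_lit 329) (nat_lit 215) (nat_lit 176)))) (XT.nd (nat_lit 78) (nat_lit 0) (nat_lit 0) (XT.lf (nat_lit 0) (nat_lit 53951029678) (nat_lit 152) (nat_lit 17134265659) (nat_lit 0) (nat_lit 43001803169) (nat_lit 2) (nat_lit 5) (nat_lit 4) (nat_lit 4) (nat_lit 2) (nat_lit 4) (nat_lit 330) (nat_lit 215) (nat_lit 175)) (XT.nd (nat_lit 156) (nat_lit 0) (nat_lit 0) (XT.lf (nat_lit 0) (nat_lit 59312137727) (nat_lit 152) (nat_lit 12101199067) (nat_lit 0) (nat_lit 48276587921) (nat_lit 2) (nat_lit 5) (nat_lit 4)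 (nat_lit 4) (nat_lit 2) (nat_lit 4) (nat_lit 331) (nat_lit 215) (nat_lit 174)) (XT.lf (nat_lit 0) (nat_lit 70749435772) (nat_lit 152) (nat_lit 1450348394) (nat_lit 0) (nat_lit 59553375527) (nat_lit 2) (nat_lit 5) (nat_lit 4) (nat_lit 4) (nat_lit 2) (nat_lit 4) (nat_lit 333) (nat_lit 215) (nat_lit 172))))))) (XT.nd (nat_lit 780) (nat_lit 380) (nat_lit 0) (XT.nd (nat_lit 390) (nat_lit 304) (nat_lit 0) (XT.nd (nat_lit 156) (nat_lit 304) (nat_lit 0) (XT.nd (nat_lit 78) (nat_lit 0) (nat_lit 0) (XT.lf (nat_lit 0) (nat_lit 2265677716) (nat_lit 152) (nat_lit 3229376554) (nat_lit 152) (nat_lit 3229376554) (nat_lit 18) (nat_lit 4) (nat_lit 20) (nat_lit 5) (nat_lit 20) (nat_lit 4) (nat_lit 288) (nat_lit 216) (nat_lit 216)) (XT.lf (nat_lit 0) (nat_lit 15273305854) (nat_lit 152) (nat_lit 1795785999) (nat_lit 152) (nat_lit 1056052300) (nat_lit 18) (nat_lit 4) (nat_lit 20) (nat_lit 5) (nat_lit 20) (nat_lit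 4) (nat_lit 289) (nat_lit 216) (nat_lit 215))) (XT.nd (nat_lit 78) (nat_lit 152) (nat_lit 0) (XT.lf (nat_lit 0) (nat_lit 4427525213) (nat_lit 152) (nat_lit 11384223939) (nat_lit 0) (nat_lit 3025348530) (nat_lit 16) (nat_lit 5) (nat_lit 18) (nat_lit 4) (nat_lit 16) (nat_lit 4) (nat_lit 290) (nat_lit 216) (nat_lit 214)) (XT.nd (nat_lit 78) (nat_lit 152) (nat_lit 0) (XT.lf (nat_lit 0) (nat_lit 10015819279) (nat_lit 152) (nat_lit 1610922799) (nat_lit 0) (nat_lit 7962224856) (nat_lit 16) (nat_lit 5) (nat_lit 18) (nat_lit 4) (nat_lit 16) (nat_lit 4) (nat_lit 291) (nat_lit 216) (nat_lit 213)) (XT.lf (nat_lit 0) (nat_lit 8502193638) (nat_lit 152) (nat_lit 7276779175) (nat_lit 152) (nat_lit 4602786905) (nat_lit 14) (nat_lit 4) (nat_lit 16) (nat_lit 5) (nat_lit 16) (nat_lit 4) (nat_lit 292) (nat_lit 216) (nat_lit 212))))) (XT.nd (nat_lit 156) (nat_lit 152) (nat_lit 0) (XT.nd (nat_lit 78) (nat_lit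 76) (nat_lit 0) (XT.lf (nat_lit 0) (nat_lit 438498866) (nat_lit 228) (nat_lit 2374694663) (nat_lit 76) (nat_lit 18405966903) (nat_lit 13) (nat_lit 5) (nat_lit 16) (nat_lit 5) (nat_lit 14) (nat_lit 4) (nat_lit 293) (nat_lit 216) (nat_lit 211)) (XT.lf (nat_lit 0) (nat_lit 5553132415) (nat_lit 152) (nat_lit 14709559200) (nat_lit 0) (nat_lit 1837048436) (nat_lit 12) (nat_lit 5) (nat_lit 14) (nat_lit 4) (nat_lit 12) (nat_lit 4) (nat_lit 294) (nat_lit 216) (nat_lit 210))) (XT.nd (nat_lit 78) (nat_lit 152) (nat_lit 0) (XT.lf (nat_lit 0) (nat_lit 10807322335) (nat_lit 152) (nat_lit 5649749006) (nat_lit 0) (nat_lit 6570924778) (nat_lit 12) (nat_lit 5) (nat_lit 14) (nat_lit 4) (nat_lit 12) (nat_lit 4) (nat_lit 295) (nat_lit 216) (nat_lit 209)) (XT.nd (nat_lit 78) (nat_lit 0) (nat_lit 0) (XT.lf (nat_lit 0) (nat_lit 3657837165) (nat_lit 152) (nat_lit 12540348840) (nat_lit 152) (nat_lit 7808414541) (nat_lit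 10) (nat_lit 4) (nat_lit 12) (nat_lit 5) (nat_lit 12) (nat_lit 4) (nat_lit 296) (nat_lit 216) (nat_lit 208)) (XT.lf (nat_lit 0) (nat_lit 13280202130) (nat_lit 152) (nat_lit 8480446290) (nat_lit 152) (nat_lit 3276572236) (nat_lit 10) (nat_lit 4) (nat_lit 12) (nat_lit 5) (nat_lit 12) (nat_lit 4) (nat_lit 297) (nat_lit 216) (nat_lit 207)))))) (XT.nd (nat_lit 390) (nat_lit 152) (nat_lit 0) (XT.nd (nat_lit 156) (nat_lit 76) (nat_lit 0) (XT.nd (nat_lit 78) (nat_lit 76) (nat_lit 0) (XT.lf (nat_lit 0) (nat_lit 1302666230) (nat_lit 228) (nat_lit 3008928037) (nat_lit 76) (nat_lit 21811994592) (nat_lit 9) (nat_lit 5) (nat_lit 12) (nat_lit 5) (nat_lit 10) (nat_lit 4) (nat_lit 298) (nat_lit 216) (nat_lit 206)) (XT.lf (nat_lit 0) (nat_lit 5958956861) (nat_lit 152) (nat_lit 21252317921) (nat_lit 0) (nat_lit 54681370) (nat_lit 8) (nat_lit 5) (nat_lit 10) (nat_lit 4) (nat_lit 8) (nat_lit 4) (nat_lit 299)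 (nat_lit 216) (nat_lit 205))) (XT.nd (nat_lit 78) (nat_lit 76) (nat_lit 0) (XT.lf (nat_lit 0) (nat_lit 10783279181) (nat_lit 152) (nat_lit 13201030964) (nat_lit 0) (nat_lit 4483198542) (nat_lit 8) (nat_lit 5) (nat_lit 10) (nat_lit 4) (nat_lit 8) (nat_lit 4) (nat_lit 300) (nat_lit 216) (nat_lit 204)) (XT.nd (nat_lit 78) (nat_lit 76) (nat_lit 0) (XT.lf (nat_lit 0) (nat_lit 15715882626) (nat_lit 152) (nat_lit 4978517089) (nat_lit 0) (nat_lit 9038844701) (nat_lit 8) (nat_lit 5) (nat_lit 10) (nat_lit 4) (nat_lit 8) (nat_lit 4) (nat_lit 301) (nat_lit 216) (nat_lit 203)) (XT.lf (nat_lit 0) (nat_lit 3503160394) (nat_lit 76) (nat_lit 17299025614) (nat_lit 76) (nat_lit 10262980751) (nat_lit 7) (nat_lit 4) (nat_lit 8) (nat_lit 5) (nat_lit 8) (nat_lit 4) (nat_lit 302) (nat_lit 216) (nat_lit 202))))) (XT.nd (nat_lit 234) (nat_lit 76) (nat_lit 0) (XT.nd (nat_lit 78) (nat_lit 76) (nat_lit 0) (XT.lf (nat_lit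 0) (nat_lit 12298952223) (nat_lit 76) (nat_lit 13772468665) (nat_lit 76) (nat_lit 6394512433) (nat_lit 7) (nat_lit 4) (nat_lit 8) (nat_lit 5) (nat_lit 8) (nat_lit 4) (nat_lit 303) (nat_lit 216) (nat_lit 201)) (XT.nd (nat_lit 78) (nat_lit 76) (nat_lit 0) (XT.lf (nat_lit 0) (nat_lit 21330718506) (nat_lit 76) (nat_lit 10156605566) (nat_lit 76) (nat_lit 2453019458) (nat_lit 7) (nat_lit 4) (nat_lit 8) (nat_lit 5) (nat_lit 8) (nat_lit 4) (nat_lit 304) (nat_lit 216) (nat_lit 200)) (XT.lf (nat_lit 0) (nat_lit 1540229102) (nat_lit 152) (nat_lit 4887044722) (nat_lit 76) (nat_lit 29064181054) (nat_lit 6) (nat_lit 5) (nat_lit 8) (nat_lit 5) (nat_lit 7) (nat_lit 4) (nat_lit 305) (nat_lit 216) (nat_lit 199)))) (XT.nd (nat_lit 78) (nat_lit 0) (nat_lit 0) (XT.lf (nat_lit 0) (nat_lit 3069720253) (nat_lit 76) (nat_lit 2535593021) (nat_lit 152) (nat_lit 31516482131) (nat_lit 5) (nat_lit 5) (nat_lit 6) (nat_lit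 5) (nat_lit 7) (nat_lit 4) (nat_lit 306) (nat_lit 216) (nat_lit 198)) (XT.nd (nat_lit 78) (nat_lit 0) (nat_lit 0) (XT.lf (nat_lit 0) (nat_lit 9834891471) (nat_lit 152) (nat_lit 27505270417) (nat_lit 0) (nat_lit 1494739018) (nat_lit 5) (nat_lit 5) (nat_lit 7) (nat_lit 4) (nat_lit 5) (nat_lit 4) (nat_lit 307) (nat_lit 216) (nat_lit 197)) (XT.lf (nat_lit 0) (nat_lit 14202043689) (nat_lit 152) (nat_lit 20832118681) (nat_lit 0) (nat_lit 5601797542) (nat_lit 5) (nat_lit 5) (nat_lit 7) (nat_lit 4) (nat_lit 5) (nat_lit 4) (nat_lit 308) (nat_lit 216) (nat_lit 196))))))))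
noncomputable def xc12 : XT := (XT.nd (nat_lit 1638) (nat_lit 0) (nat_lit 0) (XT.nd (nat_lit 780) (nat_lit 76) (nat_lit 0) (XT.nd (nat_lit 390) (nat_lit 76) (nat_lit 0) (XT.nd (nat_lit 156) (nat_lit 76) (nat_lit 0) (XT.nd (nat_lit 78) (nat_lit 0) (nat_lit 0) (XT.lf (nat_lit 0) (nat_lit 18692794240) (nat_lit 152) (nat_lit 13992357817) (nat_lit 0) (nat_lit 9844839813) (nat_lit 5) (nat_lit 5) (nat_lit 7) (nat_lit 4) (nat_lit 5) (nat_lit 4) (nat_lit 309) (nat_lit 216) (nat_lit 195)) (XT.lf (nat_lit 0) (nat_lit 23317835387) (nat_lit 152) (nat_lit 6969702679) (nat_lit 0) (nat_lit 14233968313) (nat_lit 5) (nat_lit 5) (nat_lit 7) (nat_lit 4) (nat_lit 5) (nat_lit 4) (nat_lit 310) (nat_lit 216) (nat_lit 194))) (XT.nd (nat_lit 78) (nat_lit 0) (nat_lit 0) (XT.lf (nat_lit 0) (nat_lit 257593923) (nat_lit 76) (nat_lit 27833061360) (nat_lit 76) (nat_lit 18524515574) (nat_lit 4) (nat_lit 4) (nat_lit 5) (nat_lit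 5) (nat_lit 5) (nat_lit 4) (nat_lit 311) (nat_lit 216) (nat_lit 193)) (XT.nd (nat_lit 78) (nat_lit 0) (nat_lit 0) (XT.lf (nat_lit 0) (nat_lit 7844726997) (nat_lit 76) (nat_lit 25245864758) (nat_lit 76) (nat_lit 15723339246) (nat_lit 4) (nat_lit 4) (nat_lit 5) (nat_lit 5) (nat_lit 5) (nat_lit 4) (nat_lit 312) (nat_lit 216) (nat_lit 192)) (XT.lf (nat_lit 0) (nat_lit 15671050393) (nat_lit 76) (nat_lit 22590168599) (nat_lit 76) (nat_lit 12863852872) (nat_lit 4) (nat_lit 4) (nat_lit 5) (nat_lit 5) (nat_lit 5) (nat_lit 4) (nat_lit 313) (nat_lit 216) (nat_lit 191))))) (XT.nd (nat_lit 156) (nat_lit 76) (nat_lit 0) (XT.nd (nat_lit 78) (nat_lit 0) (nat_lit 0) (XT.lf (nat_lit 0) (nat_lit 23755198217) (nat_lit 76) (nat_lit 19859649797) (nat_lit 76) (nat_lit 9939248152) (nat_lit 4) (nat_lit 4) (nat_lit 5) (nat_lit 5) (nat_lit 5) (nat_lit 4) (nat_lit 314) (nat_lit 216) (nat_lit 190)) (XT.lf (nat_lit 0)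 (nat_lit 32116418438) (nat_lit 76) (nat_lit 17047807118) (nat_lit 76) (nat_lit 6942561740) (nat_lit 4) (nat_lit 4) (nat_lit 5) (nat_lit 5) (nat_lit 5) (nat_lit 4) (nat_lit 315) (nat_lit 216) (nat_lit 189))) (XT.nd (nat_lit 78) (nat_lit 76) (nat_lit 0) (XT.lf (nat_lit 0) (nat_lit 40774618724) (nat_lit 76) (nat_lit 14147945696) (nat_lit 76) (nat_lit 3866658668) (nat_lit 4) (nat_lit 4) (nat_lit 5) (nat_lit 5) (nat_lit 5) (nat_lit 4) (nat_lit 316) (nat_lit 216) (nat_lit 188)) (XT.nd (nat_lit 78) (nat_lit 76) (nat_lit 0) (XT.lf (nat_lit 0) (nat_lit 49750413838) (nat_lit 76) (nat_lit 11153161101) (nat_lit 76) (nat_lit 704215359) (nat_lit 4) (nat_lit 4) (nat_lit 5) (nat_lit 5) (nat_lit 5) (nat_lit 4) (nat_lit 317) (nat_lit 216) (nat_lit 187)) (XT.lf (nat_lit 0) (nat_lit 2502493290) (nat_lit 152) (nat_lit 5528559327) (nat_lit 76) (nat_lit 56537411154) (nat_lit 3) (nat_lit 5) (nat_lit 5) (nat_lit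 5) (nat_lit 4) (nat_lit 4) (nat_lit 318) (nat_lit 216) (nat_lit 186)))))) (XT.nd (nat_lit 390) (nat_lit 0) (nat_lit 0) (XT.nd (nat_lit 156) (nat_lit 0) (nat_lit 0) (XT.nd (nat_lit 78) (nat_lit 0) (nat_lit 0) (XT.lf (nat_lit 0) (nat_lit 1023736968) (nat_lit 76) (nat_lit 4781400505) (nat_lit 152) (nat_lit 61873365369) (nat_lit 2) (nat_lit 5) (nat_lit 3) (nat_lit 5) (nat_lit 4) (nat_lit 4) (nat_lit 319) (nat_lit 216) (nat_lit 185)) (XT.lf (nat_lit 0) (nat_lit 7916381649) (nat_lit 76) (nat_lit 1355492071) (nat_lit 152) (nat_lit 61672245186) (nat_lit 2) (nat_lit 5) (nat_lit 3) (nat_lit 5) (nat_lit 4) (nat_lit 4) (nat_lit 320) (nat_lit 216) (nat_lit 184))) (XT.nd (nat_lit 78) (nat_lit 0) (nat_lit 0) (XT.lf (nat_lit 0) (nat_lit 12877892757) (nat_lit 152) (nat_lit 59340094836) (nat_lit 0) (nat_lit 2156091549) (nat_lit 2) (nat_lit 5) (nat_lit 4) (nat_lit 4) (nat_lit 2) (nat_lit 4) (nat_lit 321) (nat_lit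 216) (nat_lit 183)) (XT.nd (nat_lit 78) (nat_lit 0) (nat_lit 0) (XT.lf (nat_lit 0) (nat_lit 16624939075) (nat_lit 152) (nat_lit 55576217244) (nat_lit 0) (nat_lit 5775599042) (nat_lit 2) (nat_lit 5) (nat_lit 4) (nat_lit 4) (nat_lit 2) (nat_lit 4) (nat_lit 322) (nat_lit 216) (nat_lit 182)) (XT.lf (nat_lit 0) (nat_lit 20508904395) (nat_lit 152) (nat_lit 51714113048) (nat_lit 0) (nat_lit 9538098815) (nat_lit 2) (nat_lit 5) (nat_lit 4) (nat_lit 4) (nat_lit 2) (nat_lit 4) (nat_lit 323) (nat_lit 216) (nat_lit 181))))) (XT.nd (nat_lit 234) (nat_lit 0) (nat_lit 0) (XT.nd (nat_lit 78) (nat_lit 0) (nat_lit 0) (XT.lf (nat_lit 0) (nat_lit 24539036253) (nat_lit 152) (nat_lit 47744586762) (nat_lit 0) (nat_lit 13452549199) (nat_lit 2) (nat_lit 5) (nat_lit 4) (nat_lit 4) (nat_lit 2) (nat_lit 4) (nat_lit 324) (nat_lit 216) (nat_lit 180)) (XT.nd (nat_lit 78) (nat_lit 0) (nat_lit 0) (XT.lf (nat_lit 0) (nat_lit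 28724930201) (nat_lit 152) (nat_lit 43658187134) (nat_lit 0) (nat_lit 17528270315) (nat_lit 2) (nat_lit 5) (nat_lit 4) (nat_lit 4) (nat_lit 2) (nat_lit 4) (nat_lit 325) (nat_lit 216) (nat_lit 179)) (XT.lf (nat_lit 0) (nat_lit 33076552654) (nat_lit 152) (nat_lit 39445184640) (nat_lit 0) (nat_lit 21774966261) (nat_lit 2) (nat_lit 5) (nat_lit 4) (nat_lit 4) (nat_lit 2) (nat_lit 4) (nat_lit 326) (nat_lit 216) (nat_lit 178)))) (XT.nd (nat_lit 78) (nat_lit 0) (nat_lit 0) (XT.lf (nat_lit 0) (nat_lit 37604264617) (nat_lit 152) (nat_lit 35095548322) (nat_lit 0) (nat_lit 26202748217) (nat_lit 2) (nat_lit 5) (nat_lit 4) (nat_lit 4) (nat_lit 2) (nat_lit 4) (nat_lit 327) (nat_lit 216) (nat_lit 177)) (XT.nd (nat_lit 78) (nat_lit 0) (nat_lit 0) (XT.lf (nat_lit 0) (nat_lit 42318846357) (nat_lit 152) (nat_lit 30598921903) (nat_lit 0) (nat_lit 30822158523) (nat_lit 2) (nat_lit 5) (nat_lit 4) (nat_lit 4) (nat_lit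 2) (nat_lit 4) (nat_lit 328) (nat_lit 216) (nat_lit 176)) (XT.lf (nat_lit 0) (nat_lit 47231523068) (nat_lit 152) (nat_lit 25944599129) (nat_lit 0) (nat_lit 35644195772) (nat_lit 2) (nat_lit 5) (nat_lit 4) (nat_lit 4) (nat_lit 2) (nat_lit 4) (nat_lit 329) (nat_lit 216) (nat_lit 175))))))) (XT.nd (nat_lit 34632) (nat_lit 0) (nat_lit 380) (XT.nd (nat_lit 34242) (nat_lit 0) (nat_lit 912) (XT.nd (nat_lit 234) (nat_lit 0) (nat_lit 0) (XT.nd (nat_lit 78) (nat_lit 0) (nat_lit 0) (XT.lf (nat_lit 0) (nat_lit 52353991600) (nat_lit 152) (nat_lit 21121498281) (nat_lit 0) (nat_lit 40680341008) (nat_lit 2) (nat_lit 5) (nat_lit 4) (nat_lit 4) (nat_lit 2) (nat_lit 4) (nat_lit 330) (nat_lit 216) (nat_lit 174)) (XT.lf (nat_lit 0) (nat_lit 57698448307) (nat_lit 152) (nat_lit 16118135783) (nat_lit 0) (nat_lit 45942585051) (nat_lit 2) (nat_lit 5) (nat_lit 4) (nat_lit 4) (nat_lit 2) (nat_lit 4) (nat_lit 331) (nat_lit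 216) (nat_lit 173))) (XT.nd (nat_lit 33852) (nat_lit 0) (nat_lit 1368) (XT.lf (nat_lit 0) (nat_lit 69104784672) (nat_lit 152) (nat_lit 5522517213) (nat_lit 0) (nat_lit 57196054331) (nat_lit 2) (nat_lit 5) (nat_lit 4) (nat_lit 4) (nat_lit 2) (nat_lit 4) (nat_lit 333) (nat_lit 216) (nat_lit 171)) (XT.nd (nat_lit 78) (nat_lit 0) (nat_lit 0) (XT.lf (nat_lit 0) (nat_lit 65184408) (nat_lit 152) (nat_lit 7970586314) (nat_lit 0) (nat_lit 65184408) (nat_lit 20) (nat_lit 5) (nat_lit 22) (nat_lit 4) (nat_lit 20) (nat_lit 4) (nat_lit 286) (nat_lit 217) (nat_lit 217)) (XT.lf (nat_lit 0) (nat_lit 5836704731) (nat_lit 152) (nat_lit 5912532118) (nat_lit 0) (nat_lit 5059984347) (nat_lit 20) (nat_lit 5) (nat_lit 22) (nat_lit 4) (nat_lit 20) (nat_lit 4) (nat_lit 287) (nat_lit 217) (nat_lit 216))))) (XT.nd (nat_lit 156) (nat_lit 304) (nat_lit 0) (XT.nd (nat_lit 78) (nat_lit 0) (nat_lit 0) (XT.lf (nat_lit 0)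 (nat_lit 4361752487) (nat_lit 152) (nat_lit 7303363564) (nat_lit 152) (nat_lit 5786909480) (nat_lit 18) (nat_lit 4) (nat_lit 20) (nat_lit 5) (nat_lit 20) (nat_lit 4) (nat_lit 288) (nat_lit 217) (nat_lit 215)) (XT.lf (nat_lit 0) (nat_lit 14942176293) (nat_lit 152) (nat_lit 2705053664) (nat_lit 152) (nat_lit 484091295) (nat_lit 18) (nat_lit 4) (nat_lit 20) (nat_lit 5) (nat_lit 20) (nat_lit 4) (nat_lit 289) (nat_lit 217) (nat_lit 214))) (XT.nd (nat_lit 78) (nat_lit 152) (nat_lit 0) (XT.lf (nat_lit 0) (nat_lit 4880831580) (nat_lit 152) (nat_lit 11892462435) (nat_lit 0) (nat_lit 2073139697) (nat_lit 16) (nat_lit 5) (nat_lit 18) (nat_lit 4) (nat_lit 16) (nat_lit 4) (nat_lit 290) (nat_lit 217) (nat_lit 213)) (XT.nd (nat_lit 78) (nat_lit 152) (nat_lit 0) (XT.lf (nat_lit 0) (nat_lit 10378255636) (nat_lit 152) (nat_lit 2272701871) (nat_lit 0) (nat_lit 6950165905) (nat_lit 16) (nat_lit 5) (nat_lit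 18) (nat_lit 4) (nat_lit 16) (nat_lit 4) (nat_lit 291) (nat_lit 217) (nat_lit 212)) (XT.lf (nat_lit 0) (nat_lit 7678104500) (nat_lit 152) (nat_lit 8368840153) (nat_lit 152) (nat_lit 4349895330) (nat_lit 14) (nat_lit 4) (nat_lit 16) (nat_lit 5) (nat_lit 16) (nat_lit 4) (nat_lit 292) (nat_lit 217) (nat_lit 211)))))) (XT.nd (nat_lit 390) (nat_lit 228) (nat_lit 0) (XT.nd (nat_lit 156) (nat_lit 152) (nat_lit 0) (XT.nd (nat_lit 78) (nat_lit 76) (nat_lit 0) (XT.lf (nat_lit 0) (nat_lit 601755005) (nat_lit 228) (nat_lit 3360101297) (nat_lit 76) (nat_lit 17274935568) (nat_lit 13) (nat_lit 5) (nat_lit 16) (nat_lit 5) (nat_lit 14) (nat_lit 4) (nat_lit 293) (nat_lit 217) (nat_lit 210)) (XT.lf (nat_lit 0) (nat_lit 5613026028) (nat_lit 152) (nat_lit 15863030450) (nat_lit 0) (nat_lit 644495013) (nat_lit 12) (nat_lit 5) (nat_lit 14) (nat_lit 4) (nat_lit 12) (nat_lit 4) (nat_lit 294) (nat_lit 217) (nat_lit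 209))) (XT.nd (nat_lit 78) (nat_lit 152) (nat_lit 0) (XT.lf (nat_lit 0) (nat_lit 10788583209) (nat_lit 152) (nat_lit 6938143237) (nat_lit 0) (nat_lit 5324515453) (nat_lit 12) (nat_lit 5) (nat_lit 14) (nat_lit 4) (nat_lit 12) (nat_lit 4) (nat_lit 295) (nat_lit 217) (nat_lit 208)) (XT.nd (nat_lit 78) (nat_lit 0) (nat_lit 0) (XT.lf (nat_lit 0) (nat_lit 2212745922) (nat_lit 152) (nat_lit 13877921533) (nat_lit 152) (nat_lit 7941914023) (nat_lit 10) (nat_lit 4) (nat_lit 12) (nat_lit 5) (nat_lit 12) (nat_lit 4) (nat_lit 296) (nat_lit 217) (nat_lit 207)) (XT.lf (nat_lit 0) (nat_lit 11710296182) (nat_lit 152) (nat_lit 9870311681) (nat_lit 152) (nat_lit 3484837738) (nat_lit 10) (nat_lit 4) (nat_lit 12) (nat_lit 5) (nat_lit 12) (nat_lit 4) (nat_lit 297) (nat_lit 217) (nat_lit 206))))) (XT.nd (nat_lit 234) (nat_lit 76) (nat_lit 0) (XT.nd (nat_lit 78) (nat_lit 76) (nat_lit 0) (XT.lf (nat_lit 0) (nat_lit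 1028648486) (nat_lit 228) (nat_lit 4725380783) (nat_lit 76) (nat_lit 20400002282) (nat_lit 9) (nat_lit 5) (nat_lit 12) (nat_lit 5) (nat_lit 10) (nat_lit 4) (nat_lit 298) (nat_lit 217) (nat_lit 205)) (XT.nd (nat_lit 78) (nat_lit 0) (nat_lit 0) (XT.lf (nat_lit 0) (nat_lit 4146702113) (nat_lit 76) (nat_lit 1453257802) (nat_lit 152) (nat_lit 21699048497) (nat_lit 8) (nat_lit 5) (nat_lit 9) (nat_lit 5) (nat_lit 10) (nat_lit 4) (nat_lit 299) (nat_lit 217) (nat_lit 204)) (XT.lf (nat_lit 0) (nat_lit 10345466295) (nat_lit 152) (nat_lit 15199897267) (nat_lit 0) (nat_lit 2957619189) (nat_lit 8) (nat_lit 5) (nat_lit 10) (nat_lit 4) (nat_lit 8) (nat_lit 4) (nat_lit 300) (nat_lit 217) (nat_lit 203)))) (XT.nd (nat_lit 78) (nat_lit 76) (nat_lit 0) (XT.lf (nat_lit 0) (nat_lit 15216311323) (nat_lit 152) (nat_lit 7084857227) (nat_lit 0) (nat_lit 7469457279) (nat_lit 8) (nat_lit 5) (nat_lit 10) (nat_lit 4)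 (nat_lit 8) (nat_lit 4) (nat_lit 301) (nat_lit 217) (nat_lit 202)) (XT.nd (nat_lit 78) (nat_lit 0) (nat_lit 0) (XT.lf (nat_lit 0) (nat_lit 1250506839) (nat_lit 76) (nat_lit 18971636442) (nat_lit 76) (nat_lit 10882871029) (nat_lit 7) (nat_lit 4) (nat_lit 8) (nat_lit 5) (nat_lit 8) (nat_lit 4) (nat_lit 302) (nat_lit 217) (nat_lit 201)) (XT.lf (nat_lit 0) (nat_lit 9946876650) (nat_lit 76) (nat_lit 15487529102) (nat_lit 76) (nat_lit 7073133812) (nat_lit 7) (nat_lit 4) (nat_lit 8) (nat_lit 5) (nat_lit 8) (nat_lit 4) (nat_lit 303) (nat_lit 217) (nat_lit 200))))))))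
noncomputable def xc13 : XT := (XT.nd (nat_lit 1638) (nat_lit 0) (nat_lit 0) (XT.nd (nat_lit 780) (nat_lit 152) (nat_lit 0) (XT.nd (nat_lit 390) (nat_lit 76) (nat_lit 0) (XT.nd (nat_lit 156) (nat_lit 76) (nat_lit 0) (XT.nd (nat_lit 78) (nat_lit 76) (nat_lit 0) (XT.lf (nat_lit 0) (nat_lit 18883955297) (nat_lit 76) (nat_lit 11912094201) (nat_lit 76) (nat_lit 3187575220) (nat_lit 7) (nat_lit 4) (nat_lit 8) (nat_lit 5) (nat_lit 8) (nat_lit 4) (nat_lit 304) (nat_lit 217) (nat_lit 199)) (XT.lf (nat_lit 0) (nat_lit 767775834) (nat_lit 152) (nat_lit 7461289934) (nat_lit 76) (nat_lit 27307492675) (nat_lit 6) (nat_lit 5) (nat_lit 8) (nat_lit 5) (nat_lit 7) (nat_lit 4) (nat_lit 305) (nat_lit 217) (nat_lit 198))) (XT.nd (nat_lit 78) (nat_lit 0) (nat_lit 0) (XT.lf (nat_lit 0) (nat_lit 355596701) (nat_lit 76) (nat_lit 4401429362) (nat_lit 152) (nat_lit 32412189458) (nat_lit 5) (nat_lit 5) (nat_lit 6)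 (nat_lit 5) (nat_lit 7) (nat_lit 4) (nat_lit 306) (nat_lit 217) (nat_lit 197)) (XT.nd (nat_lit 78) (nat_lit 0) (nat_lit 0) (XT.lf (nat_lit 0) (nat_lit 8546176286) (nat_lit 76) (nat_lit 377586767) (nat_lit 152) (nat_lit 29960482758) (nat_lit 5) (nat_lit 5) (nat_lit 6) (nat_lit 5) (nat_lit 7) (nat_lit 4) (nat_lit 307) (nat_lit 217) (nat_lit 196)) (XT.lf (nat_lit 0) (nat_lit 13241061638) (nat_lit 152) (nat_lit 23742775246) (nat_lit 0) (nat_lit 3703001210) (nat_lit 5) (nat_lit 5) (nat_lit 7) (nat_lit 4) (nat_lit 5) (nat_lit 4) (nat_lit 308) (nat_lit 217) (nat_lit 195))))) (XT.nd (nat_lit 156) (nat_lit 76) (nat_lit 0) (XT.nd (nat_lit 78) (nat_lit 0) (nat_lit 0) (XT.lf (nat_lit 0) (nat_lit 17687789296) (nat_lit 152) (nat_lit 16980621099) (nat_lit 0) (nat_lit 7913816221) (nat_lit 5) (nat_lit 5) (nat_lit 7) (nat_lit 4) (nat_lit 5) (nat_lit 4) (nat_lit 309) (nat_lit 217) (nat_lit 194)) (XT.lf (nat_lit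 0) (nat_lit 22270903878) (nat_lit 152) (nat_lit 10031877121) (nat_lit 0) (nat_lit 12272252091) (nat_lit 5) (nat_lit 5) (nat_lit 7) (nat_lit 4) (nat_lit 5) (nat_lit 4) (nat_lit 310) (nat_lit 217) (nat_lit 193))) (XT.nd (nat_lit 78) (nat_lit 76) (nat_lit 0) (XT.lf (nat_lit 0) (nat_lit 27001317563) (nat_lit 152) (nat_lit 2879998683) (nat_lit 0) (nat_lit 16788686050) (nat_lit 5) (nat_lit 5) (nat_lit 7) (nat_lit 4) (nat_lit 5) (nat_lit 4) (nat_lit 311) (nat_lit 217) (nat_lit 192)) (XT.nd (nat_lit 78) (nat_lit 0) (nat_lit 0) (XT.lf (nat_lit 0) (nat_lit 4581442949) (nat_lit 76) (nat_lit 27352889922) (nat_lit 76) (nat_lit 16936468194) (nat_lit 4) (nat_lit 4) (nat_lit 5) (nat_lit 5) (nat_lit 5) (nat_lit 4) (nat_lit 312) (nat_lit 217) (nat_lit 191)) (XT.lf (nat_lit 0) (nat_lit 12342648422) (nat_lit 76) (nat_lit 24725467990) (nat_lit 76) (nat_lit 14114960343) (nat_lit 4) (nat_lit 4) (nat_lit 5) (nat_lit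 5) (nat_lit 5) (nat_lit 4) (nat_lit 313) (nat_lit 217) (nat_lit 190)))))) (XT.nd (nat_lit 390) (nat_lit 76) (nat_lit 0) (XT.nd (nat_lit 156) (nat_lit 76) (nat_lit 0) (XT.nd (nat_lit 78) (nat_lit 0) (nat_lit 0) (XT.lf (nat_lit 0) (nat_lit 20364779176) (nat_lit 76) (nat_lit 22021877023) (nat_lit 76) (nat_lit 11226525644) (nat_lit 4) (nat_lit 4) (nat_lit 5) (nat_lit 5) (nat_lit 5) (nat_lit 4) (nat_lit 314) (nat_lit 217) (nat_lit 189)) (XT.lf (nat_lit 0) (nat_lit 28666935521) (nat_lit 76) (nat_lit 19235679901) (nat_lit 76) (nat_lit 8264286871) (nat_lit 4) (nat_lit 4) (nat_lit 5) (nat_lit 5) (nat_lit 5) (nat_lit 4) (nat_lit 315) (nat_lit 217) (nat_lit 188))) (XT.nd (nat_lit 78) (nat_lit 76) (nat_lit 0) (XT.lf (nat_lit 0) (nat_lit 37268884497) (nat_lit 76) (nat_lit 16360242820) (nat_lit 76) (nat_lit 5221191076) (nat_lit 4) (nat_lit 4) (nat_lit 5) (nat_lit 5) (nat_lit 5) (nat_lit 4) (nat_lit 316)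 (nat_lit 217) (nat_lit 187)) (XT.nd (nat_lit 78) (nat_lit 76) (nat_lit 0) (XT.lf (nat_lit 0) (nat_lit 46191106933) (nat_lit 76) (nat_lit 13388719501) (nat_lit 76) (nat_lit 2089992792) (nat_lit 4) (nat_lit 4) (nat_lit 5) (nat_lit 5) (nat_lit 5) (nat_lit 4) (nat_lit 317) (nat_lit 217) (nat_lit 186)) (XT.lf (nat_lit 0) (nat_lit 1114580870) (nat_lit 152) (nat_lit 9188198938) (nat_lit 76) (nat_lit 54329010267) (nat_lit 3) (nat_lit 5) (nat_lit 5) (nat_lit 5) (nat_lit 4) (nat_lit 4) (nat_lit 318) (nat_lit 217) (nat_lit 185))))) (XT.nd (nat_lit 234) (nat_lit 0) (nat_lit 0) (XT.nd (nat_lit 78) (nat_lit 76) (nat_lit 0) (XT.lf (nat_lit 0) (nat_lit 4379597127) (nat_lit 152) (nat_lit 2705045837) (nat_lit 76) (nat_lit 60658336402) (nat_lit 3) (nat_lit 5) (nat_lit 5) (nat_lit 5) (nat_lit 4) (nat_lit 4) (nat_lit 319) (nat_lit 217) (nat_lit 184)) (XT.nd (nat_lit 78) (nat_lit 0) (nat_lit 0) (XT.lf (nat_lit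 0) (nat_lit 4086006073) (nat_lit 76) (nat_lit 3706884231) (nat_lit 152) (nat_lit 63217328784) (nat_lit 2) (nat_lit 5) (nat_lit 3) (nat_lit 5) (nat_lit 4) (nat_lit 4) (nat_lit 320) (nat_lit 217) (nat_lit 183)) (XT.lf (nat_lit 0) (nat_lit 11179898119) (nat_lit 76) (nat_lit 172232104) (nat_lit 152) (nat_lit 63089471870) (nat_lit 2) (nat_lit 5) (nat_lit 3) (nat_lit 5) (nat_lit 4) (nat_lit 4) (nat_lit 321) (nat_lit 217) (nat_lit 182)))) (XT.nd (nat_lit 78) (nat_lit 0) (nat_lit 0) (XT.lf (nat_lit 0) (nat_lit 15072919325) (nat_lit 152) (nat_lit 59540057258) (nat_lit 0) (nat_lit 3432107918) (nat_lit 2) (nat_lit 5) (nat_lit 4) (nat_lit 4) (nat_lit 2) (nat_lit 4) (nat_lit 322) (nat_lit 217) (nat_lit 181)) (XT.nd (nat_lit 78) (nat_lit 0) (nat_lit 0) (XT.lf (nat_lit 0) (nat_lit 18933454533) (nat_lit 152) (nat_lit 55719749706) (nat_lit 0) (nat_lit 7176961653) (nat_lit 2) (nat_lit 5) (nat_lit 4) (nat_lit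 4) (nat_lit 2) (nat_lit 4) (nat_lit 323) (nat_lit 217) (nat_lit 180)) (XT.lf (nat_lit 0) (nat_lit 22941272000) (nat_lit 152) (nat_lit 51790029748) (nat_lit 0) (nat_lit 11074606287) (nat_lit 2) (nat_lit 5) (nat_lit 4) (nat_lit 4) (nat_lit 2) (nat_lit 4) (nat_lit 324) (nat_lit 217) (nat_lit 179))))))) (XT.nd (nat_lit 34476) (nat_lit 0) (nat_lit 608) (XT.nd (nat_lit 390) (nat_lit 0) (nat_lit 0) (XT.nd (nat_lit 156) (nat_lit 0) (nat_lit 0) (XT.nd (nat_lit 78) (nat_lit 0) (nat_lit 0) (XT.lf (nat_lit 0) (nat_lit 27105914147) (nat_lit 152) (nat_lit 47741540907) (nat_lit 0) (nat_lit 15134321927) (nat_lit 2) (nat_lit 5) (nat_lit 4) (nat_lit 4) (nat_lit 2) (nat_lit 4) (nat_lit 325) (nat_lit 217) (nat_lit 178)) (XT.lf (nat_lit 0) (nat_lit 31437296788) (nat_lit 152) (nat_lit 43564643926) (nat_lit 0) (nat_lit 19365774562) (nat_lit 2) (nat_lit 5) (nat_lit 4) (nat_lit 4) (nat_lit 2) (nat_lit 4) (nat_lit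 326) (nat_lit 217) (nat_lit 177))) (XT.nd (nat_lit 78) (nat_lit 0) (nat_lit 0) (XT.lf (nat_lit 0) (nat_lit 35945732741) (nat_lit 152) (nat_lit 39249393810) (nat_lit 0) (nat_lit 23779039080) (nat_lit 2) (nat_lit 5) (nat_lit 4) (nat_lit 4) (nat_lit 2) (nat_lit 4) (nat_lit 327) (nat_lit 217) (nat_lit 176)) (XT.nd (nat_lit 78) (nat_lit 0) (nat_lit 0) (XT.lf (nat_lit 0) (nat_lit 40641956376) (nat_lit 152) (nat_lit 34785516155) (nat_lit 0) (nat_lit 28384623253) (nat_lit 2) (nat_lit 5) (nat_lit 4) (nat_lit 4) (nat_lit 2) (nat_lit 4) (nat_lit 328) (nat_lit 217) (nat_lit 175)) (XT.lf (nat_lit 0) (nat_lit 45537149178) (nat_lit 152) (nat_lit 30162382681) (nat_lit 0) (nat_lit 33193492758) (nat_lit 2) (nat_lit 5) (nat_lit 4) (nat_lit 4) (nat_lit 2) (nat_lit 4) (nat_lit 329) (nat_lit 217) (nat_lit 174))))) (XT.nd (nat_lit 234) (nat_lit 0) (nat_lit 0) (XT.nd (nat_lit 78) (nat_lit 0) (nat_lit 0) (XT.lf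 (nat_lit 0) (nat_lit 50642966367) (nat_lit 152) (nat_lit 25368985927) (nat_lit 0) (nat_lit 38217097284) (nat_lit 2) (nat_lit 5) (nat_lit 4) (nat_lit 4) (nat_lit 2) (nat_lit 4) (nat_lit 330) (nat_lit 217) (nat_lit 173)) (XT.lf (nat_lit 0) (nat_lit 55971564653) (nat_lit 152) (nat_lit 20393913043) (nat_lit 0) (nat_lit 43467397795) (nat_lit 2) (nat_lit 5) (nat_lit 4) (nat_lit 4) (nat_lit 2) (nat_lit 4) (nat_lit 331) (nat_lit 217) (nat_lit 172))) (XT.nd (nat_lit 33696) (nat_lit 0) (nat_lit 1520) (XT.lf (nat_lit 0) (nat_lit 67348413703) (nat_lit 152) (nat_lit 9850896476) (nat_lit 0) (nat_lit 54698659146) (nat_lit 2) (nat_lit 5) (nat_lit 4) (nat_lit 4) (nat_lit 2) (nat_lit 4) (nat_lit 333) (nat_lit 217) (nat_lit 170)) (XT.nd (nat_lit 78) (nat_lit 152) (nat_lit 0) (XT.lf (nat_lit 0) (nat_lit 2527427554) (nat_lit 228) (nat_lit 2482723358) (nat_lit 0) (nat_lit 2527427554) (nat_lit 24) (nat_lit 5)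 (nat_lit 27) (nat_lit 4) (nat_lit 24) (nat_lit 4) (nat_lit 284) (nat_lit 218) (nat_lit 218)) (XT.lf (nat_lit 0) (nat_lit 5520766324) (nat_lit 152) (nat_lit 5471623425) (nat_lit 152) (nat_lit 4631600329) (nat_lit 22) (nat_lit 4) (nat_lit 24) (nat_lit 5) (nat_lit 24) (nat_lit 4) (nat_lit 285) (nat_lit 218) (nat_lit 217)))))) (XT.nd (nat_lit 390) (nat_lit 456) (nat_lit 0) (XT.nd (nat_lit 156) (nat_lit 304) (nat_lit 0) (XT.nd (nat_lit 78) (nat_lit 0) (nat_lit 0) (XT.lf (nat_lit 0) (nat_lit 81812250) (nat_lit 76) (nat_lit 766393336) (nat_lit 152) (nat_lit 15356754384) (nat_lit 20) (nat_lit 5) (nat_lit 21) (nat_lit 5) (nat_lit 22) (nat_lit 4) (nat_lit 286) (nat_lit 218) (nat_lit 216)) (XT.lf (nat_lit 0) (nat_lit 6447091911) (nat_lit 152) (nat_lit 6253433550) (nat_lit 0) (nat_lit 4115081424) (nat_lit 20) (nat_lit 5) (nat_lit 22) (nat_lit 4) (nat_lit 20) (nat_lit 4) (nat_lit 287) (nat_lit 218) (nat_lit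 215))) (XT.nd (nat_lit 78) (nat_lit 152) (nat_lit 0) (XT.lf (nat_lit 0) (nat_lit 3852539832) (nat_lit 152) (nat_lit 8322751822) (nat_lit 152) (nat_lit 5286233050) (nat_lit 18) (nat_lit 4) (nat_lit 20) (nat_lit 5) (nat_lit 20) (nat_lit 4) (nat_lit 288) (nat_lit 218) (nat_lit 214)) (XT.nd (nat_lit 78) (nat_lit 152) (nat_lit 0) (XT.lf (nat_lit 0) (nat_lit 14279128767) (nat_lit 152) (nat_lit 3786020218) (nat_lit 152) (nat_lit 78541174) (nat_lit 18) (nat_lit 4) (nat_lit 20) (nat_lit 5) (nat_lit 20) (nat_lit 4) (nat_lit 289) (nat_lit 218) (nat_lit 213)) (XT.lf (nat_lit 0) (nat_lit 5170519744) (nat_lit 152) (nat_lit 12740871036) (nat_lit 0) (nat_lit 950627680) (nat_lit 16) (nat_lit 5) (nat_lit 18) (nat_lit 4) (nat_lit 16) (nat_lit 4) (nat_lit 290) (nat_lit 218) (nat_lit 212))))) (XT.nd (nat_lit 234) (nat_lit 228) (nat_lit 0) (XT.nd (nat_lit 78) (nat_lit 228) (nat_lit 0) (XT.lf (nat_lit 0) (nat_lit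 10581400932) (nat_lit 152) (nat_lit 3267339591) (nat_lit 0) (nat_lit 5770653776) (nat_lit 16) (nat_lit 5) (nat_lit 18) (nat_lit 4) (nat_lit 16) (nat_lit 4) (nat_lit 291) (nat_lit 218) (nat_lit 211)) (XT.nd (nat_lit 78) (nat_lit 76) (nat_lit 0) (XT.lf (nat_lit 0) (nat_lit 6521634049) (nat_lit 152) (nat_lit 9634917422) (nat_lit 152) (nat_lit 4261451130) (nat_lit 14) (nat_lit 4) (nat_lit 16) (nat_lit 5) (nat_lit 16) (nat_lit 4) (nat_lit 292) (nat_lit 218) (nat_lit 210)) (XT.lf (nat_lit 0) (nat_lit 607806093) (nat_lit 228) (nat_lit 4675542908) (nat_lit 76) (nat_lit 15977079124) (nat_lit 13) (nat_lit 5) (nat_lit 16) (nat_lit 5) (nat_lit 14) (nat_lit 4) (nat_lit 293) (nat_lit 218) (nat_lit 209)))) (XT.nd (nat_lit 78) (nat_lit 152) (nat_lit 0) (XT.lf (nat_lit 0) (nat_lit 4789375220) (nat_lit 76) (nat_lit 732382091) (nat_lit 152) (nat_lit 16625425387) (nat_lit 12) (nat_lit 5) (nat_lit 13) (nat_lit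 5) (nat_lit 14) (nat_lit 4) (nat_lit 294) (nat_lit 218) (nat_lit 208)) (XT.nd (nat_lit 78) (nat_lit 152) (nat_lit 0) (XT.lf (nat_lit 0) (nat_lit 10615386066) (nat_lit 152) (nat_lit 8554378237) (nat_lit 0) (nat_lit 3910638426) (nat_lit 12) (nat_lit 5) (nat_lit 14) (nat_lit 4) (nat_lit 12) (nat_lit 4) (nat_lit 295) (nat_lit 218) (nat_lit 207)) (XT.lf (nat_lit 0) (nat_lit 439529972) (nat_lit 152) (nat_lit 15389572892) (nat_lit 152) (nat_lit 8235358820) (nat_lit 10) (nat_lit 4) (nat_lit 12) (nat_lit 5) (nat_lit 12) (nat_lit 4) (nat_lit 296) (nat_lit 218) (nat_lit 206))))))))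
noncomputable def xc14 : XT := (XT.nd (nat_lit 1638) (nat_lit 152) (nat_lit 0) (XT.nd (nat_lit 780) (nat_lit 152) (nat_lit 0) (XT.nd (nat_lit 390) (nat_lit 152) (nat_lit 0) (XT.nd (nat_lit 156) (nat_lit 76) (nat_lit 0) (XT.nd (nat_lit 78) (nat_lit 76) (nat_lit 0) (XT.lf (nat_lit 0) (nat_lit 9818209083) (nat_lit 152) (nat_lit 11431765609) (nat_lit 152) (nat_lit 3849488267) (nat_lit 10) (nat_lit 4) (nat_lit 12) (nat_lit 5) (nat_lit 12) (nat_lit 4) (nat_lit 297) (nat_lit 218) (nat_lit 205)) (XT.lf (nat_lit 0) (nat_lit 604621933) (nat_lit 228) (nat_lit 6762574120) (nat_lit 76) (nat_lit 18823012957) (nat_lit 9) (nat_lit 5) (nat_lit 12) (nat_lit 5) (nat_lit 10) (nat_lit 4) (nat_lit 298) (nat_lit 218) (nat_lit 204))) (XT.nd (nat_lit 78) (nat_lit 0) (nat_lit 0) (XT.lf (nat_lit 0) (nat_lit 1957655330) (nat_lit 76) (nat_lit 3133910176) (nat_lit 152) (nat_lit 22246208725) (nat_lit 8) (nat_lit 5) (nat_lit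 9) (nat_lit 5) (nat_lit 10) (nat_lit 4) (nat_lit 299) (nat_lit 218) (nat_lit 203)) (XT.nd (nat_lit 78) (nat_lit 0) (nat_lit 0) (XT.lf (nat_lit 0) (nat_lit 9759158011) (nat_lit 152) (nat_lit 17519028245) (nat_lit 0) (nat_lit 1265954326) (nat_lit 8) (nat_lit 5) (nat_lit 10) (nat_lit 4) (nat_lit 8) (nat_lit 4) (nat_lit 300) (nat_lit 218) (nat_lit 202)) (XT.lf (nat_lit 0) (nat_lit 14571185498) (nat_lit 152) (nat_lit 9506344239) (nat_lit 0) (nat_lit 5736070444) (nat_lit 8) (nat_lit 5) (nat_lit 10) (nat_lit 4) (nat_lit 8) (nat_lit 4) (nat_lit 301) (nat_lit 218) (nat_lit 201))))) (XT.nd (nat_lit 156) (nat_lit 76) (nat_lit 0) (XT.nd (nat_lit 78) (nat_lit 76) (nat_lit 0) (XT.lf (nat_lit 0) (nat_lit 19508980116) (nat_lit 152) (nat_lit 1292864001) (nat_lit 0) (nat_lit 10348235186) (nat_lit 8) (nat_lit 5) (nat_lit 10) (nat_lit 4) (nat_lit 8) (nat_lit 4) (nat_lit 302) (nat_lit 218) (nat_lit 200)) (XT.lf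 (nat_lit 0) (nat_lit 7283087644) (nat_lit 76) (nat_lit 17371220366) (nat_lit 76) (nat_lit 7900351745) (nat_lit 7) (nat_lit 4) (nat_lit 8) (nat_lit 5) (nat_lit 8) (nat_lit 4) (nat_lit 303) (nat_lit 218) (nat_lit 199))) (XT.nd (nat_lit 78) (nat_lit 76) (nat_lit 0) (XT.lf (nat_lit 0) (nat_lit 16129987590) (nat_lit 76) (nat_lit 13834288511) (nat_lit 76) (nat_lit 4068063993) (nat_lit 7) (nat_lit 4) (nat_lit 8) (nat_lit 5) (nat_lit 8) (nat_lit 4) (nat_lit 304) (nat_lit 218) (nat_lit 198)) (XT.nd (nat_lit 78) (nat_lit 76) (nat_lit 0) (XT.lf (nat_lit 0) (nat_lit 25243169355) (nat_lit 76) (nat_lit 10195682676) (nat_lit 76) (nat_lit 148166828) (nat_lit 7) (nat_lit 4) (nat_lit 8) (nat_lit 5) (nat_lit 8) (nat_lit 4) (nat_lit 305) (nat_lit 218) (nat_lit 197)) (XT.lf (nat_lit 0) (nat_lit 3793181095) (nat_lit 152) (nat_lit 2615254728) (nat_lit 76) (nat_lit 30812846204) (nat_lit 6) (nat_lit 5) (nat_lit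 8) (nat_lit 5) (nat_lit 7) (nat_lit 4) (nat_lit 306) (nat_lit 218) (nat_lit 196)))))) (XT.nd (nat_lit 390) (nat_lit 76) (nat_lit 0) (XT.nd (nat_lit 156) (nat_lit 0) (nat_lit 0) (XT.nd (nat_lit 78) (nat_lit 0) (nat_lit 0) (XT.lf (nat_lit 0) (nat_lit 5442871793) (nat_lit 76) (nat_lit 2445514253) (nat_lit 152) (nat_lit 31050109902) (nat_lit 5) (nat_lit 5) (nat_lit 6) (nat_lit 5) (nat_lit 7) (nat_lit 4) (nat_lit 307) (nat_lit 218) (nat_lit 195)) (XT.lf (nat_lit 0) (nat_lit 12141783554) (nat_lit 152) (nat_lit 26958058410) (nat_lit 0) (nat_lit 1643199177) (nat_lit 5) (nat_lit 5) (nat_lit 7) (nat_lit 4) (nat_lit 5) (nat_lit 4) (nat_lit 308) (nat_lit 218) (nat_lit 194))) (XT.nd (nat_lit 78) (nat_lit 0) (nat_lit 0) (XT.lf (nat_lit 0) (nat_lit 16546584647) (nat_lit 152) (nat_lit 20269815422) (nat_lit 0) (nat_lit 5823321558) (nat_lit 5) (nat_lit 5) (nat_lit 7) (nat_lit 4) (nat_lit 5) (nat_lit 4) (nat_lit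 309) (nat_lit 218) (nat_lit 193)) (XT.nd (nat_lit 78) (nat_lit 0) (nat_lit 0) (XT.lf (nat_lit 0) (nat_lit 21089769167) (nat_lit 152) (nat_lit 13391463024) (nat_lit 0) (nat_lit 10152526353) (nat_lit 5) (nat_lit 5) (nat_lit 7) (nat_lit 4) (nat_lit 5) (nat_lit 4) (nat_lit 310) (nat_lit 218) (nat_lit 192)) (XT.lf (nat_lit 0) (nat_lit 25782154221) (nat_lit 152) (nat_lit 6306624186) (nat_lit 0) (nat_lit 14641121192) (nat_lit 5) (nat_lit 5) (nat_lit 7) (nat_lit 4) (nat_lit 5) (nat_lit 4) (nat_lit 311) (nat_lit 218) (nat_lit 191))))) (XT.nd (nat_lit 234) (nat_lit 0) (nat_lit 0) (XT.nd (nat_lit 78) (nat_lit 0) (nat_lit 0) (XT.lf (nat_lit 0) (nat_lit 1021502956) (nat_lit 76) (nat_lit 29623228509) (nat_lit 76) (nat_lit 18288109561) (nat_lit 4) (nat_lit 4) (nat_lit 5) (nat_lit 5) (nat_lit 5) (nat_lit 4) (nat_lit 312) (nat_lit 218) (nat_lit 190)) (XT.nd (nat_lit 78) (nat_lit 0) (nat_lit 0) (XT.lf (nat_lit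 0) (nat_lit 8720691359) (nat_lit 76) (nat_lit 27022734412) (nat_lit 76) (nat_lit 15502771731) (nat_lit 4) (nat_lit 4) (nat_lit 5) (nat_lit 5) (nat_lit 5) (nat_lit 4) (nat_lit 313) (nat_lit 218) (nat_lit 189)) (XT.lf (nat_lit 0) (nat_lit 16683758237) (nat_lit 76) (nat_lit 24344789003) (nat_lit 76) (nat_lit 12648784672) (nat_lit 4) (nat_lit 4) (nat_lit 5) (nat_lit 5) (nat_lit 5) (nat_lit 4) (nat_lit 314) (nat_lit 218) (nat_lit 188)))) (XT.nd (nat_lit 78) (nat_lit 0) (nat_lit 0) (XT.lf (nat_lit 0) (nat_lit 24929663271) (nat_lit 76) (nat_lit 21583016220) (nat_lit 76) (nat_lit 9719353176) (nat_lit 4) (nat_lit 4) (nat_lit 5) (nat_lit 5) (nat_lit 5) (nat_lit 4) (nat_lit 315) (nat_lit 218) (nat_lit 187)) (XT.nd (nat_lit 78) (nat_lit 0) (nat_lit 0) (XT.lf (nat_lit 0) (nat_lit 33478039570) (nat_lit 76) (nat_lit 18730840416) (nat_lit 76) (nat_lit 6707502405) (nat_lit 4) (nat_lit 4) (nat_lit 5) (nat_lit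 5) (nat_lit 5) (nat_lit 4) (nat_lit 316) (nat_lit 218) (nat_lit 186)) (XT.lf (nat_lit 0) (nat_lit 42349240410) (nat_lit 76) (nat_lit 15781470694) (nat_lit 76) (nat_lit 3606061287) (nat_lit 4) (nat_lit 4) (nat_lit 5) (nat_lit 5) (nat_lit 5) (nat_lit 4) (nat_lit 317) (nat_lit 218) (nat_lit 185))))))) (XT.nd (nat_lit 780) (nat_lit 0) (nat_lit 0) (XT.nd (nat_lit 390) (nat_lit 0) (nat_lit 0) (XT.nd (nat_lit 156) (nat_lit 76) (nat_lit 0) (XT.nd (nat_lit 78) (nat_lit 76) (nat_lit 0) (XT.lf (nat_lit 0) (nat_lit 51564387697) (nat_lit 76) (nat_lit 12727884746) (nat_lit 76) (nat_lit 407645438) (nat_lit 4) (nat_lit 4) (nat_lit 5) (nat_lit 5) (nat_lit 5) (nat_lit 4) (nat_lit 318) (nat_lit 218) (nat_lit 184)) (XT.lf (nat_lit 0) (nat_lit 2838861506) (nat_lit 152) (nat_lit 6695283688) (nat_lit 76) (nat_lit 58277893819) (nat_lit 3) (nat_lit 5) (nat_lit 5) (nat_lit 5) (nat_lit 4) (nat_lit 4) (nat_lit 319)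 (nat_lit 218) (nat_lit 183))) (XT.nd (nat_lit 78) (nat_lit 76) (nat_lit 0) (XT.lf (nat_lit 0) (nat_lit 6187673738) (nat_lit 152) (nat_lit 28559846) (nat_lit 76) (nat_lit 64864998974) (nat_lit 3) (nat_lit 5) (nat_lit 5) (nat_lit 5) (nat_lit 4) (nat_lit 4) (nat_lit 320) (nat_lit 218) (nat_lit 182)) (XT.nd (nat_lit 78) (nat_lit 0) (nat_lit 0) (XT.lf (nat_lit 0) (nat_lit 7021446746) (nat_lit 76) (nat_lit 2700766946) (nat_lit 152) (nat_lit 64791161342) (nat_lit 2) (nat_lit 5) (nat_lit 3) (nat_lit 5) (nat_lit 4) (nat_lit 4) (nat_lit 321) (nat_lit 218) (nat_lit 181)) (XT.lf (nat_lit 0) (nat_lit 13395266859) (nat_lit 152) (nat_lit 63787772392) (nat_lit 0) (nat_lit 935267860) (nat_lit 2) (nat_lit 5) (nat_lit 4) (nat_lit 4) (nat_lit 2) (nat_lit 4) (nat_lit 322) (nat_lit 218) (nat_lit 180))))) (XT.nd (nat_lit 156) (nat_lit 0) (nat_lit 0) (XT.nd (nat_lit 78) (nat_lit 0) (nat_lit 0) (XT.lf (nat_lit 0)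 (nat_lit 17233487676) (nat_lit 152) (nat_lit 60007271167) (nat_lit 0) (nat_lit 4663315845) (nat_lit 2) (nat_lit 5) (nat_lit 4) (nat_lit 4) (nat_lit 2) (nat_lit 4) (nat_lit 323) (nat_lit 218) (nat_lit 179)) (XT.lf (nat_lit 0) (nat_lit 21220053341) (nat_lit 152) (nat_lit 56115461998) (nat_lit 0) (nat_lit 8544955004) (nat_lit 2) (nat_lit 5) (nat_lit 4) (nat_lit 4) (nat_lit 2) (nat_lit 4) (nat_lit 324) (nat_lit 218) (nat_lit 178))) (XT.nd (nat_lit 78) (nat_lit 0) (nat_lit 0) (XT.lf (nat_lit 0) (nat_lit 25364455677) (nat_lit 152) (nat_lit 52103078670) (nat_lit 0) (nat_lit 12589427333) (nat_lit 2) (nat_lit 5) (nat_lit 4) (nat_lit 4) (nat_lit 2) (nat_lit 4) (nat_lit 325) (nat_lit 218) (nat_lit 177)) (XT.nd (nat_lit 78) (nat_lit 0) (nat_lit 0) (XT.lf (nat_lit 0) (nat_lit 29676562308) (nat_lit 152) (nat_lit 47960567891) (nat_lit 0) (nat_lit 16806362530) (nat_lit 2) (nat_lit 5) (nat_lit 4) (nat_lit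 4) (nat_lit 2) (nat_lit 4) (nat_lit 326) (nat_lit 218) (nat_lit 176)) (XT.lf (nat_lit 0) (nat_lit 34166640156) (nat_lit 152) (nat_lit 43678066539) (nat_lit 0) (nat_lit 21205800916) (nat_lit 2) (nat_lit 5) (nat_lit 4) (nat_lit 4) (nat_lit 2) (nat_lit 4) (nat_lit 327) (nat_lit 218) (nat_lit 175)))))) (XT.nd (nat_lit 33930) (nat_lit 0) (nat_lit 1368) (XT.nd (nat_lit 156) (nat_lit 0) (nat_lit 0) (XT.nd (nat_lit 78) (nat_lit 0) (nat_lit 0) (XT.lf (nat_lit 0) (nat_lit 38845379881) (nat_lit 152) (nat_lit 39245378184) (nat_lit 0) (nat_lit 25798217344) (nat_lit 2) (nat_lit 5) (nat_lit 4) (nat_lit 4) (nat_lit 2) (nat_lit 4) (nat_lit 328) (nat_lit 218) (nat_lit 174)) (XT.lf (nat_lit 0) (nat_lit 43723921340) (nat_lit 152) (nat_lit 34651948804) (nat_lit 0) (nat_lit 30594546140) (nat_lit 2) (nat_lit 5) (nat_lit 4) (nat_lit 4) (nat_lit 2) (nat_lit 4) (nat_lit 329) (nat_lit 218) (nat_lit 173))) (XT.nd (nat_lit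 78) (nat_lit 0) (nat_lit 0) (XT.lf (nat_lit 0) (nat_lit 48813880109) (nat_lit 152) (nat_lit 29886841663) (nat_lit 0) (nat_lit 35606207133) (nat_lit 2) (nat_lit 5) (nat_lit 4) (nat_lit 4) (nat_lit 2) (nat_lit 4) (nat_lit 330) (nat_lit 218) (nat_lit 172)) (XT.nd (nat_lit 156) (nat_lit 0) (nat_lit 0) (XT.lf (nat_lit 0) (nat_lit 54127375135) (nat_lit 152) (nat_lit 24938711269) (nat_lit 0) (nat_lit 40845132850) (nat_lit 2) (nat_lit 5) (nat_lit 4) (nat_lit 4) (nat_lit 2) (nat_lit 4) (nat_lit 331) (nat_lit 218) (nat_lit 171)) (XT.lf (nat_lit 0) (nat_lit 65476141030) (nat_lit 152) (nat_lit 14445791848) (nat_lit 0) (nat_lit 52055243793) (nat_lit 2) (nat_lit 5) (nat_lit 4) (nat_lit 4) (nat_lit 2) (nat_lit 4) (nat_lit 333) (nat_lit 218) (nat_lit 169))))) (XT.nd (nat_lit 234) (nat_lit 304) (nat_lit 0) (XT.nd (nat_lit 78) (nat_lit 228) (nat_lit 0) (XT.lf (nat_lit 0) (nat_lit 1574277450) (nat_lit 152)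 (nat_lit 2728131979) (nat_lit 152) (nat_lit 2728131979) (nat_lit 27) (nat_lit 4) (nat_lit 29) (nat_lit 5) (nat_lit 29) (nat_lit 4) (nat_lit 282) (nat_lit 219) (nat_lit 219)) (XT.nd (nat_lit 78) (nat_lit 152) (nat_lit 0) (XT.lf (nat_lit 0) (nat_lit 141005988) (nat_lit 228) (nat_lit 622242821) (nat_lit 76) (nat_lit 13793691654) (nat_lit 26) (nat_lit 5) (nat_lit 29) (nat_lit 5) (nat_lit 27) (nat_lit 4) (nat_lit 283) (nat_lit 219) (nat_lit 218)) (XT.lf (nat_lit 0) (nat_lit 5831818921) (nat_lit 228) (nat_lit 5136845996) (nat_lit 0) (nat_lit 4109771575) (nat_lit 24) (nat_lit 5) (nat_lit 27) (nat_lit 4) (nat_lit 24) (nat_lit 4) (nat_lit 284) (nat_lit 219) (nat_lit 217)))) (XT.nd (nat_lit 78) (nat_lit 152) (nat_lit 0) (XT.lf (nat_lit 0) (nat_lit 5179469709) (nat_lit 152) (nat_lit 6486545541) (nat_lit 152) (nat_lit 3964476199) (nat_lit 22) (nat_lit 4) (nat_lit 24) (nat_lit 5) (nat_lit 24) (nat_lit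 4) (nat_lit 285) (nat_lit 219) (nat_lit 216)) (XT.nd (nat_lit 78) (nat_lit 76) (nat_lit 0) (XT.lf (nat_lit 0) (nat_lit 1403636027) (nat_lit 228) (nat_lit 434613916) (nat_lit 76) (nat_lit 14376091779) (nat_lit 21) (nat_lit 5) (nat_lit 24) (nat_lit 5) (nat_lit 22) (nat_lit 4) (nat_lit 286) (nat_lit 219) (nat_lit 215)) (XT.lf (nat_lit 0) (nat_lit 6892599190) (nat_lit 152) (nat_lit 6936048085) (nat_lit 0) (nat_lit 2999746194) (nat_lit 20) (nat_lit 5) (nat_lit 22) (nat_lit 4) (nat_lit 20) (nat_lit 4) (nat_lit 287) (nat_lit 219) (nat_lit 214))))))))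
noncomputable def xc15 : XT := (XT.nd (nat_lit 1638) (nat_lit 228) (nat_lit 0) (XT.nd (nat_lit 780) (nat_lit 380) (nat_lit 0) (XT.nd (nat_lit 390) (nat_lit 304) (nat_lit 0) (XT.nd (nat_lit 156) (nat_lit 228) (nat_lit 0) (XT.nd (nat_lit 78) (nat_lit 76) (nat_lit 0) (XT.lf (nat_lit 0) (nat_lit 3002505058) (nat_lit 152) (nat_lit 9519344999) (nat_lit 152) (nat_lit 4955531732) (nat_lit 18) (nat_lit 4) (nat_lit 20) (nat_lit 5) (nat_lit 20) (nat_lit 4) (nat_lit 288) (nat_lit 219) (nat_lit 213)) (XT.lf (nat_lit 0) (nat_lit 158410969) (nat_lit 228) (nat_lit 4881248781) (nat_lit 76) (nat_lit 13122573981) (nat_lit 17) (nat_lit 5) (nat_lit 20) (nat_lit 5) (nat_lit 18) (nat_lit 4) (nat_lit 289) (nat_lit 219) (nat_lit 212))) (XT.nd (nat_lit 78) (nat_lit 152) (nat_lit 0) (XT.lf (nat_lit 0) (nat_lit 4948936859) (nat_lit 76) (nat_lit 351723561) (nat_lit 152) (nat_lit 13583127181) (nat_lit 16) (nat_lit 5)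 (nat_lit 17) (nat_lit 5) (nat_lit 18) (nat_lit 4) (nat_lit 290) (nat_lit 219) (nat_lit 211)) (XT.nd (nat_lit 78) (nat_lit 152) (nat_lit 0) (XT.lf (nat_lit 0) (nat_lit 10625738849) (nat_lit 152) (nat_lit 4597204143) (nat_lit 0) (nat_lit 4420880107) (nat_lit 16) (nat_lit 5) (nat_lit 18) (nat_lit 4) (nat_lit 16) (nat_lit 4) (nat_lit 291) (nat_lit 219) (nat_lit 210)) (XT.lf (nat_lit 0) (nat_lit 5030028783) (nat_lit 152) (nat_lit 11078025449) (nat_lit 152) (nat_lit 4337243721) (nat_lit 14) (nat_lit 4) (nat_lit 16) (nat_lit 5) (nat_lit 16) (nat_lit 4) (nat_lit 292) (nat_lit 219) (nat_lit 209))))) (XT.nd (nat_lit 156) (nat_lit 152) (nat_lit 0) (XT.nd (nat_lit 78) (nat_lit 76) (nat_lit 0) (XT.lf (nat_lit 0) (nat_lit 456666538) (nat_lit 228) (nat_lit 6324151498) (nat_lit 76) (nat_lit 14509307435) (nat_lit 13) (nat_lit 5) (nat_lit 16) (nat_lit 5) (nat_lit 14) (nat_lit 4) (nat_lit 293) (nat_lit 219)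 (nat_lit 208)) (XT.lf (nat_lit 0) (nat_lit 2981258487) (nat_lit 76) (nat_lit 2298810974) (nat_lit 152) (nat_lit 16899598803) (nat_lit 12) (nat_lit 5) (nat_lit 13) (nat_lit 5) (nat_lit 14) (nat_lit 4) (nat_lit 294) (nat_lit 219) (nat_lit 207))) (XT.nd (nat_lit 78) (nat_lit 152) (nat_lit 0) (XT.lf (nat_lit 0) (nat_lit 10287318530) (nat_lit 152) (nat_lit 10502302184) (nat_lit 0) (nat_lit 2325927322) (nat_lit 12) (nat_lit 5) (nat_lit 14) (nat_lit 4) (nat_lit 12) (nat_lit 4) (nat_lit 295) (nat_lit 219) (nat_lit 206)) (XT.nd (nat_lit 78) (nat_lit 152) (nat_lit 0) (XT.lf (nat_lit 0) (nat_lit 15428884382) (nat_lit 152) (nat_lit 1633522331) (nat_lit 0) (nat_lit 7039429904) (nat_lit 12) (nat_lit 5) (nat_lit 14) (nat_lit 4) (nat_lit 12) (nat_lit 4) (nat_lit 296) (nat_lit 219) (nat_lit 205)) (XT.lf (nat_lit 0) (nat_lit 7599435866) (nat_lit 152) (nat_lit 13168525821) (nat_lit 152) (nat_lit 4371392040)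 (nat_lit 10) (nat_lit 4) (nat_lit 12) (nat_lit 5) (nat_lit 12) (nat_lit 4) (nat_lit 297) (nat_lit 219) (nat_lit 204)))))) (XT.nd (nat_lit 390) (nat_lit 228) (nat_lit 0) (XT.nd (nat_lit 156) (nat_lit 76) (nat_lit 0) (XT.nd (nat_lit 78) (nat_lit 0) (nat_lit 0) (XT.lf (nat_lit 0) (nat_lit 29576984) (nat_lit 228) (nat_lit 9125358506) (nat_lit 76) (nat_lit 17077271880) (nat_lit 9) (nat_lit 5) (nat_lit 12) (nat_lit 5) (nat_lit 10) (nat_lit 4) (nat_lit 298) (nat_lit 219) (nat_lit 203)) (XT.lf (nat_lit 0) (nat_lit 4437392473) (nat_lit 228) (nat_lit 547270210) (nat_lit 76) (nat_lit 22397538346) (nat_lit 9) (nat_lit 5) (nat_lit 12) (nat_lit 5) (nat_lit 10) (nat_lit 4) (nat_lit 299) (nat_lit 219) (nat_lit 202))) (XT.nd (nat_lit 78) (nat_lit 0) (nat_lit 0) (XT.lf (nat_lit 0) (nat_lit 8421117881) (nat_lit 76) (nat_lit 607681883) (nat_lit 152) (nat_lit 19562105168) (nat_lit 8) (nat_lit 5) (nat_lit 9)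 (nat_lit 5) (nat_lit 10) (nat_lit 4) (nat_lit 300) (nat_lit 219) (nat_lit 201)) (XT.nd (nat_lit 78) (nat_lit 0) (nat_lit 0) (XT.lf (nat_lit 0) (nat_lit 13778969138) (nat_lit 152) (nat_lit 12248743571) (nat_lit 0) (nat_lit 3834557085) (nat_lit 8) (nat_lit 5) (nat_lit 10) (nat_lit 4) (nat_lit 8) (nat_lit 4) (nat_lit 301) (nat_lit 219) (nat_lit 200)) (XT.lf (nat_lit 0) (nat_lit 18663414513) (nat_lit 152) (nat_lit 4128103273) (nat_lit 0) (nat_lit 8408878769) (nat_lit 8) (nat_lit 5) (nat_lit 10) (nat_lit 4) (nat_lit 8) (nat_lit 4) (nat_lit 302) (nat_lit 219) (nat_lit 199))))) (XT.nd (nat_lit 234) (nat_lit 152) (nat_lit 0) (XT.nd (nat_lit 78) (nat_lit 0) (nat_lit 0) (XT.lf (nat_lit 0) (nat_lit 4301242851) (nat_lit 76) (nat_lit 19428027438) (nat_lit 76) (nat_lit 8878135798) (nat_lit 7) (nat_lit 4) (nat_lit 8) (nat_lit 5) (nat_lit 8) (nat_lit 4) (nat_lit 303) (nat_lit 219) (nat_lit 198)) (XT.nd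 (nat_lit 78) (nat_lit 0) (nat_lit 0) (XT.lf (nat_lit 0) (nat_lit 13062258319) (nat_lit 76) (nat_lit 15927765151) (nat_lit 76) (nat_lit 5096582180) (nat_lit 7) (nat_lit 4) (nat_lit 8) (nat_lit 5) (nat_lit 8) (nat_lit 4) (nat_lit 304) (nat_lit 219) (nat_lit 197)) (XT.lf (nat_lit 0) (nat_lit 22093645344) (nat_lit 76) (nat_lit 12324082714) (nat_lit 76) (nat_lit 1225003238) (nat_lit 7) (nat_lit 4) (nat_lit 8) (nat_lit 5) (nat_lit 8) (nat_lit 4) (nat_lit 305) (nat_lit 219) (nat_lit 196)))) (XT.nd (nat_lit 78) (nat_lit 76) (nat_lit 0) (XT.lf (nat_lit 0) (nat_lit 2692238251) (nat_lit 152) (nat_lit 5888975352) (nat_lit 76) (nat_lit 28697482648) (nat_lit 6) (nat_lit 5) (nat_lit 8) (nat_lit 5) (nat_lit 7) (nat_lit 4) (nat_lit 306) (nat_lit 219) (nat_lit 195)) (XT.nd (nat_lit 78) (nat_lit 0) (nat_lit 0) (XT.lf (nat_lit 0) (nat_lit 2027422123) (nat_lit 76) (nat_lit 4684218838) (nat_lit 152) (nat_lit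 32286579153) (nat_lit 5) (nat_lit 5) (nat_lit 6) (nat_lit 5) (nat_lit 7) (nat_lit 4) (nat_lit 307) (nat_lit 219) (nat_lit 194)) (XT.lf (nat_lit 0) (nat_lit 10313197022) (nat_lit 76) (nat_lit 594105995) (nat_lit 152) (nat_lit 29897228523) (nat_lit 5) (nat_lit 5) (nat_lit 6) (nat_lit 5) (nat_lit 7) (nat_lit 4) (nat_lit 308) (nat_lit 219) (nat_lit 193))))))) (XT.nd (nat_lit 858) (nat_lit 76) (nat_lit 0) (XT.nd (nat_lit 390) (nat_lit 76) (nat_lit 0) (XT.nd (nat_lit 156) (nat_lit 76) (nat_lit 0) (XT.nd (nat_lit 78) (nat_lit 0) (nat_lit 0) (XT.lf (nat_lit 0) (nat_lit 15266463138) (nat_lit 152) (nat_lit 23867772200) (nat_lit 0) (nat_lit 3568378457) (nat_lit 5) (nat_lit 5) (nat_lit 7) (nat_lit 4) (nat_lit 5) (nat_lit 4) (nat_lit 309) (nat_lit 219) (nat_lit 192)) (XT.lf (nat_lit 0) (nat_lit 19771619028) (nat_lit 152) (nat_lit 17056459403) (nat_lit 0) (nat_lit 7869744132) (nat_lit 5) (nat_lit 5) (nat_lit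 7) (nat_lit 4) (nat_lit 5) (nat_lit 4) (nat_lit 310) (nat_lit 219) (nat_lit 191))) (XT.nd (nat_lit 78) (nat_lit 76) (nat_lit 0) (XT.lf (nat_lit 0) (nat_lit 24427786338) (nat_lit 152) (nat_lit 10035467803) (nat_lit 0) (nat_lit 12331825524) (nat_lit 5) (nat_lit 5) (nat_lit 7) (nat_lit 4) (nat_lit 5) (nat_lit 4) (nat_lit 311) (nat_lit 219) (nat_lit 190)) (XT.nd (nat_lit 78) (nat_lit 76) (nat_lit 0) (XT.lf (nat_lit 0) (nat_lit 29246051183) (nat_lit 152) (nat_lit 2788080756) (nat_lit 0) (nat_lit 16965246636) (nat_lit 5) (nat_lit 5) (nat_lit 7) (nat_lit 4) (nat_lit 5) (nat_lit 4) (nat_lit 312) (nat_lit 219) (nat_lit 189)) (XT.lf (nat_lit 0) (nat_lit 4796555497) (nat_lit 76) (nat_lit 29487437548) (nat_lit 76) (nat_lit 17030591351) (nat_lit 4) (nat_lit 4) (nat_lit 5) (nat_lit 5) (nat_lit 5) (nat_lit 4) (nat_lit 313) (nat_lit 219) (nat_lit 188))))) (XT.nd (nat_lit 234) (nat_lit 76) (nat_lit 0) (XT.nd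 (nat_lit 78) (nat_lit 0) (nat_lit 0) (XT.lf (nat_lit 0) (nat_lit 12703371064) (nat_lit 76) (nat_lit 26833916479) (nat_lit 76) (nat_lit 14209411568) (nat_lit 4) (nat_lit 4) (nat_lit 5) (nat_lit 5) (nat_lit 5) (nat_lit 4) (nat_lit 314) (nat_lit 219) (nat_lit 187)) (XT.nd (nat_lit 78) (nat_lit 0) (nat_lit 0) (XT.lf (nat_lit 0) (nat_lit 20895703421) (nat_lit 76) (nat_lit 24095404973) (nat_lit 76) (nat_lit 11311225096) (nat_lit 4) (nat_lit 4) (nat_lit 5) (nat_lit 5) (nat_lit 5) (nat_lit 4) (nat_lit 315) (nat_lit 219) (nat_lit 186)) (XT.lf (nat_lit 0) (nat_lit 29393058123) (nat_lit 76) (nat_lit 21265382765) (nat_lit 76) (nat_lit 8329131492) (nat_lit 4) (nat_lit 4) (nat_lit 5) (nat_lit 5) (nat_lit 5) (nat_lit 4) (nat_lit 316) (nat_lit 219) (nat_lit 185)))) (XT.nd (nat_lit 78) (nat_lit 76) (nat_lit 0) (XT.lf (nat_lit 0) (nat_lit 38215666966) (nat_lit 76) (nat_lit 18337111707) (nat_lit 76) (nat_lit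 5256030532) (nat_lit 4) (nat_lit 4) (nat_lit 5) (nat_lit 5) (nat_lit 5) (nat_lit 4) (nat_lit 317) (nat_lit 219) (nat_lit 184)) (XT.nd (nat_lit 78) (nat_lit 76) (nat_lit 0) (XT.lf (nat_lit 0) (nat_lit 47384536161) (nat_lit 76) (nat_lit 15303619724) (nat_lit 76) (nat_lit 2084605311) (nat_lit 4) (nat_lit 4) (nat_lit 5) (nat_lit 5) (nat_lit 5) (nat_lit 4) (nat_lit 318) (nat_lit 219) (nat_lit 183)) (XT.lf (nat_lit 0) (nat_lit 1169421406) (nat_lit 152) (nat_lit 10976453947) (nat_lit 76) (nat_lit 55740266080) (nat_lit 3) (nat_lit 5) (nat_lit 5) (nat_lit 5) (nat_lit 4) (nat_lit 4) (nat_lit 319) (nat_lit 219) (nat_lit 182)))))) (XT.nd (nat_lit 390) (nat_lit 0) (nat_lit 0) (XT.nd (nat_lit 156) (nat_lit 0) (nat_lit 0) (XT.nd (nat_lit 78) (nat_lit 76) (nat_lit 0) (XT.lf (nat_lit 0) (nat_lit 4494230062) (nat_lit 152) (nat_lit 4352201889) (nat_lit 76) (nat_lit 62309641606) (nat_lit 3) (nat_lit 5) (nat_lit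 5) (nat_lit 5) (nat_lit 4) (nat_lit 4) (nat_lit 320) (nat_lit 219) (nat_lit 181)) (XT.lf (nat_lit 0) (nat_lit 2570501410) (nat_lit 76) (nat_lit 5392622848) (nat_lit 152) (nat_lit 66627078741) (nat_lit 2) (nat_lit 5) (nat_lit 3) (nat_lit 5) (nat_lit 4) (nat_lit 4) (nat_lit 321) (nat_lit 219) (nat_lit 180))) (XT.nd (nat_lit 78) (nat_lit 0) (nat_lit 0) (XT.lf (nat_lit 0) (nat_lit 9849743908) (nat_lit 76) (nat_lit 1755114593) (nat_lit 152) (nat_lit 66591232896) (nat_lit 2) (nat_lit 5) (nat_lit 3) (nat_lit 5) (nat_lit 4) (nat_lit 4) (nat_lit 322) (nat_lit 219) (nat_lit 179)) (XT.nd (nat_lit 78) (nat_lit 0) (nat_lit 0) (XT.lf (nat_lit 0) (nat_lit 15404956283) (nat_lit 152) (nat_lit 64586885818) (nat_lit 0) (nat_lit 1991176522) (nat_lit 2) (nat_lit 5) (nat_lit 4) (nat_lit 4) (nat_lit 2) (nat_lit 4) (nat_lit 323) (nat_lit 219) (nat_lit 178)) (XT.lf (nat_lit 0) (nat_lit 19371282137) (nat_lit 152)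 (nat_lit 60731182161) (nat_lit 0) (nat_lit 5857572369) (nat_lit 2) (nat_lit 5) (nat_lit 4) (nat_lit 4) (nat_lit 2) (nat_lit 4) (nat_lit 324) (nat_lit 219) (nat_lit 177))))) (XT.nd (nat_lit 234) (nat_lit 0) (nat_lit 0) (XT.nd (nat_lit 78) (nat_lit 0) (nat_lit 0) (XT.lf (nat_lit 0) (nat_lit 23496408463) (nat_lit 152) (nat_lit 56753185036) (nat_lit 0) (nat_lit 9887527260) (nat_lit 2) (nat_lit 5) (nat_lit 4) (nat_lit 4) (nat_lit 2) (nat_lit 4) (nat_lit 325) (nat_lit 219) (nat_lit 176)) (XT.nd (nat_lit 78) (nat_lit 0) (nat_lit 0) (XT.lf (nat_lit 0) (nat_lit 27790156989) (nat_lit 152) (nat_lit 52643423021) (nat_lit 0) (nat_lit 14090636325) (nat_lit 2) (nat_lit 5) (nat_lit 4) (nat_lit 4) (nat_lit 2) (nat_lit 4) (nat_lit 326) (nat_lit 219) (nat_lit 175)) (XT.lf (nat_lit 0) (nat_lit 32262750927) (nat_lit 152) (nat_lit 48392110968) (nat_lit 0) (nat_lit 18476906966) (nat_lit 2) (nat_lit 5) (nat_lit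 4) (nat_lit 4) (nat_lit 2) (nat_lit 4) (nat_lit 327) (nat_lit 219) (nat_lit 174)))) (XT.nd (nat_lit 78) (nat_lit 0) (nat_lit 0) (XT.lf (nat_lit 0) (nat_lit 36924839309) (nat_lit 152) (nat_lit 43989126707) (nat_lit 0) (nat_lit 23056782685) (nat_lit 2) (nat_lit 5) (nat_lit 4) (nat_lit 4) (nat_lit 2) (nat_lit 4) (nat_lit 328) (nat_lit 219) (nat_lit 173)) (XT.nd (nat_lit 78) (nat_lit 0) (nat_lit 0) (XT.lf (nat_lit 0) (nat_lit 41787522347) (nat_lit 152) (nat_lit 39423986941) (nat_lit 0) (nat_lit 27841167948) (nat_lit 2) (nat_lit 5) (nat_lit 4) (nat_lit 4) (nat_lit 2) (nat_lit 4) (nat_lit 329) (nat_lit 219) (nat_lit 172)) (XT.lf (nat_lit 0) (nat_lit 46862377857) (nat_lit 152) (nat_lit 34685822290) (nat_lit 0) (nat_lit 32841454148) (nat_lit 2) (nat_lit 5) (nat_lit 4) (nat_lit 4) (nat_lit 2) (nat_lit 4) (nat_lit 330) (nat_lit 219) (nat_lit 171))))))))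
noncomputable def xc16 : XT := (XT.nd (nat_lit 35022) (nat_lit 0) (nat_lit 152) (XT.nd (nat_lit 34164) (nat_lit 0) (nat_lit 608) (XT.nd (nat_lit 33774) (nat_lit 0) (nat_lit 1368) (XT.nd (nat_lit 33540) (nat_lit 0) (nat_lit 1900) (XT.nd (nat_lit 156) (nat_lit 0) (nat_lit 0) (XT.lf (nat_lit 0) (nat_lit 52161488828) (nat_lit 152) (nat_lit 29763351410) (nat_lit 0) (nat_lit 38069546729) (nat_lit 2) (nat_lit 5) (nat_lit 4) (nat_lit 4) (nat_lit 2) (nat_lit 4) (nat_lit 331) (nat_lit 219) (nat_lit 170)) (XT.lf (nat_lit 0) (nat_lit 63483508859) (nat_lit 152) (nat_lit 19318143556) (nat_lit 0) (nat_lit 49259514425) (nat_lit 2) (nat_lit 5) (nat_lit 4) (nat_lit 4) (nat_lit 2) (nat_lit 4) (nat_lit 333) (nat_lit 219) (nat_lit 168))) (XT.nd (nat_lit 78) (nat_lit 380) (nat_lit 0) (XT.lf (nat_lit 0) (nat_lit 4475072973) (nat_lit 228) (nat_lit 1049340635) (nat_lit 228) (nat_lit 1049340635) (nat_lit 32) (nat_lit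 4) (nat_lit 35) (nat_lit 5) (nat_lit 35) (nat_lit 4) (nat_lit 280) (nat_lit 220) (nat_lit 220)) (XT.nd (nat_lit 78) (nat_lit 152) (nat_lit 0) (XT.lf (nat_lit 0) (nat_lit 3616295261) (nat_lit 228) (nat_lit 7314488645) (nat_lit 0) (nat_lit 2662386035) (nat_lit 29) (nat_lit 5) (nat_lit 32) (nat_lit 4) (nat_lit 29) (nat_lit 4) (nat_lit 281) (nat_lit 220) (nat_lit 219)) (XT.lf (nat_lit 0) (nat_lit 2977101048) (nat_lit 152) (nat_lit 6474858593) (nat_lit 152) (nat_lit 4612464388) (nat_lit 27) (nat_lit 4) (nat_lit 29) (nat_lit 5) (nat_lit 29) (nat_lit 4) (nat_lit 282) (nat_lit 220) (nat_lit 218))))) (XT.nd (nat_lit 156) (nat_lit 304) (nat_lit 0) (XT.nd (nat_lit 78) (nat_lit 152) (nat_lit 0) (XT.lf (nat_lit 0) (nat_lit 865519971) (nat_lit 228) (nat_lit 970612450) (nat_lit 76) (nat_lit 12727118264) (nat_lit 26) (nat_lit 5) (nat_lit 29) (nat_lit 5) (nat_lit 27) (nat_lit 4) (nat_lit 283) (nat_lit 220)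 (nat_lit 217)) (XT.lf (nat_lit 0) (nat_lit 6442512926) (nat_lit 228) (nat_lit 5651451929) (nat_lit 0) (nat_lit 2994318122) (nat_lit 24) (nat_lit 5) (nat_lit 27) (nat_lit 4) (nat_lit 24) (nat_lit 4) (nat_lit 284) (nat_lit 220) (nat_lit 216))) (XT.nd (nat_lit 78) (nat_lit 152) (nat_lit 0) (XT.lf (nat_lit 0) (nat_lit 4496063868) (nat_lit 152) (nat_lit 7678783158) (nat_lit 152) (nat_lit 3468662643) (nat_lit 22) (nat_lit 4) (nat_lit 24) (nat_lit 5) (nat_lit 24) (nat_lit 4) (nat_lit 285) (nat_lit 220) (nat_lit 215)) (XT.nd (nat_lit 78) (nat_lit 76) (nat_lit 0) (XT.lf (nat_lit 0) (nat_lit 1796546602) (nat_lit 228) (nat_lit 1288774444) (nat_lit 76) (nat_lit 13144799886) (nat_lit 21) (nat_lit 5) (nat_lit 24) (nat_lit 5) (nat_lit 22) (nat_lit 4) (nat_lit 286) (nat_lit 220) (nat_lit 214)) (XT.lf (nat_lit 0) (nat_lit 7174287298) (nat_lit 152) (nat_lit 7962000995) (nat_lit 0) (nat_lit 1711323096) (nat_lit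 20) (nat_lit 5) (nat_lit 22) (nat_lit 4) (nat_lit 20) (nat_lit 4) (nat_lit 287) (nat_lit 220) (nat_lit 213)))))) (XT.nd (nat_lit 390) (nat_lit 304) (nat_lit 0) (XT.nd (nat_lit 156) (nat_lit 228) (nat_lit 0) (XT.nd (nat_lit 78) (nat_lit 76) (nat_lit 0) (XT.lf (nat_lit 0) (nat_lit 1809624272) (nat_lit 152) (nat_lit 10895992126) (nat_lit 152) (nat_lit 4794018141) (nat_lit 18) (nat_lit 4) (nat_lit 20) (nat_lit 5) (nat_lit 20) (nat_lit 4) (nat_lit 288) (nat_lit 220) (nat_lit 212)) (XT.lf (nat_lit 0) (nat_lit 232174161) (nat_lit 228) (nat_lit 6239241181) (nat_lit 76) (nat_lit 11715652377) (nat_lit 17) (nat_lit 5) (nat_lit 20) (nat_lit 5) (nat_lit 18) (nat_lit 4) (nat_lit 289) (nat_lit 220) (nat_lit 211))) (XT.nd (nat_lit 78) (nat_lit 152) (nat_lit 0) (XT.lf (nat_lit 0) (nat_lit 3426661967) (nat_lit 76) (nat_lit 1852558429) (nat_lit 152) (nat_lit 13632342864) (nat_lit 16) (nat_lit 5) (nat_lit 17)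 (nat_lit 5) (nat_lit 18) (nat_lit 4) (nat_lit 290) (nat_lit 220) (nat_lit 210)) (XT.nd (nat_lit 78) (nat_lit 152) (nat_lit 0) (XT.lf (nat_lit 0) (nat_lit 10511374951) (nat_lit 152) (nat_lit 6265461873) (nat_lit 0) (nat_lit 2897631150) (nat_lit 16) (nat_lit 5) (nat_lit 18) (nat_lit 4) (nat_lit 16) (nat_lit 4) (nat_lit 291) (nat_lit 220) (nat_lit 209)) (XT.lf (nat_lit 0) (nat_lit 3199737262) (nat_lit 152) (nat_lit 12701600208) (nat_lit 152) (nat_lit 4577453563) (nat_lit 14) (nat_lit 4) (nat_lit 16) (nat_lit 5) (nat_lit 16) (nat_lit 4) (nat_lit 292) (nat_lit 220) (nat_lit 208))))) (XT.nd (nat_lit 234) (nat_lit 152) (nat_lit 0) (XT.nd (nat_lit 78) (nat_lit 76) (nat_lit 0) (XT.lf (nat_lit 0) (nat_lit 147976484) (nat_lit 228) (nat_lit 8309852328) (nat_lit 76) (nat_lit 12868125808) (nat_lit 13) (nat_lit 5) (nat_lit 16) (nat_lit 5) (nat_lit 14) (nat_lit 4) (nat_lit 293) (nat_lit 220) (nat_lit 207))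 (XT.nd (nat_lit 78) (nat_lit 0) (nat_lit 0) (XT.lf (nat_lit 0) (nat_lit 835373937) (nat_lit 76) (nat_lit 4045694513) (nat_lit 152) (nat_lit 17337206642) (nat_lit 12) (nat_lit 5) (nat_lit 13) (nat_lit 5) (nat_lit 14) (nat_lit 4) (nat_lit 294) (nat_lit 220) (nat_lit 206)) (XT.lf (nat_lit 0) (nat_lit 9803599490) (nat_lit 152) (nat_lit 12786552992) (nat_lit 0) (nat_lit 566609020) (nat_lit 12) (nat_lit 5) (nat_lit 14) (nat_lit 4) (nat_lit 12) (nat_lit 4) (nat_lit 295) (nat_lit 220) (nat_lit 205)))) (XT.nd (nat_lit 78) (nat_lit 152) (nat_lit 0) (XT.lf (nat_lit 0) (nat_lit 14880473993) (nat_lit 152) (nat_lit 4028774610) (nat_lit 0) (nat_lit 5235804219) (nat_lit 12) (nat_lit 5) (nat_lit 14) (nat_lit 4) (nat_lit 12) (nat_lit 4) (nat_lit 296) (nat_lit 220) (nat_lit 204)) (XT.nd (nat_lit 78) (nat_lit 0) (nat_lit 0) (XT.lf (nat_lit 0) (nat_lit 5048693735) (nat_lit 152) (nat_lit 15084727461) (nat_lit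 152) (nat_lit 5051791683) (nat_lit 10) (nat_lit 4) (nat_lit 12) (nat_lit 5) (nat_lit 12) (nat_lit 4) (nat_lit 297) (nat_lit 220) (nat_lit 203)) (XT.lf (nat_lit 0) (nat_lit 14453720036) (nat_lit 152) (nat_lit 11114457132) (nat_lit 152) (nat_lit 711744208) (nat_lit 10) (nat_lit 4) (nat_lit 12) (nat_lit 5) (nat_lit 12) (nat_lit 4) (nat_lit 298) (nat_lit 220) (nat_lit 202))))))) (XT.nd (nat_lit 780) (nat_lit 76) (nat_lit 0) (XT.nd (nat_lit 390) (nat_lit 152) (nat_lit 0) (XT.nd (nat_lit 156) (nat_lit 76) (nat_lit 0) (XT.nd (nat_lit 78) (nat_lit 76) (nat_lit 0) (XT.lf (nat_lit 0) (nat_lit 3652521969) (nat_lit 228) (nat_lit 3340262036) (nat_lit 76) (nat_lit 20439111418) (nat_lit 9) (nat_lit 5) (nat_lit 12) (nat_lit 5) (nat_lit 10) (nat_lit 4) (nat_lit 299) (nat_lit 220) (nat_lit 201)) (XT.lf (nat_lit 0) (nat_lit 5476386879) (nat_lit 76) (nat_lit 2684532966) (nat_lit 152) (nat_lit 20482219283) (nat_lit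 8) (nat_lit 5) (nat_lit 9) (nat_lit 5) (nat_lit 10) (nat_lit 4) (nat_lit 300) (nat_lit 220) (nat_lit 200))) (XT.nd (nat_lit 78) (nat_lit 76) (nat_lit 0) (XT.lf (nat_lit 0) (nat_lit 12837776012) (nat_lit 152) (nat_lit 15318584745) (nat_lit 0) (nat_lit 1760389790) (nat_lit 8) (nat_lit 5) (nat_lit 10) (nat_lit 4) (nat_lit 8) (nat_lit 4) (nat_lit 301) (nat_lit 220) (nat_lit 199)) (XT.nd (nat_lit 78) (nat_lit 76) (nat_lit 0) (XT.lf (nat_lit 0) (nat_lit 17671412585) (nat_lit 152) (nat_lit 7286363437) (nat_lit 0) (nat_lit 6298670466) (nat_lit 8) (nat_lit 5) (nat_lit 10) (nat_lit 4) (nat_lit 8) (nat_lit 4) (nat_lit 302) (nat_lit 220) (nat_lit 198)) (XT.lf (nat_lit 0) (nat_lit 994242639) (nat_lit 76) (nat_lit 21662847477) (nat_lit 76) (nat_lit 10008814029) (nat_lit 7) (nat_lit 4) (nat_lit 8) (nat_lit 5) (nat_lit 8) (nat_lit 4) (nat_lit 303) (nat_lit 220) (nat_lit 197))))) (XT.nd (nat_lit 156) (nat_lit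 152) (nat_lit 0) (XT.nd (nat_lit 78) (nat_lit 0) (nat_lit 0) (XT.lf (nat_lit 0) (nat_lit 9673463368) (nat_lit 76) (nat_lit 18197508587) (nat_lit 76) (nat_lit 6275578634) (nat_lit 7) (nat_lit 4) (nat_lit 8) (nat_lit 5) (nat_lit 8) (nat_lit 4) (nat_lit 304) (nat_lit 220) (nat_lit 196)) (XT.lf (nat_lit 0) (nat_lit 18626950640) (nat_lit 76) (nat_lit 14627086529) (nat_lit 76) (nat_lit 2450017047) (nat_lit 7) (nat_lit 4) (nat_lit 8) (nat_lit 5) (nat_lit 8) (nat_lit 4) (nat_lit 305) (nat_lit 220) (nat_lit 195))) (XT.nd (nat_lit 78) (nat_lit 76) (nat_lit 0) (XT.lf (nat_lit 0) (nat_lit 1448158026) (nat_lit 152) (nat_lit 9480298715) (nat_lit 76) (nat_lit 26413240699) (nat_lit 6) (nat_lit 5) (nat_lit 8) (nat_lit 5) (nat_lit 7) (nat_lit 4) (nat_lit 306) (nat_lit 220) (nat_lit 194)) (XT.nd (nat_lit 78) (nat_lit 76) (nat_lit 0) (XT.lf (nat_lit 0) (nat_lit 5407147298) (nat_lit 152) (nat_lit 1674969566)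 (nat_lit 76) (nat_lit 31980951011) (nat_lit 6) (nat_lit 5) (nat_lit 8) (nat_lit 5) (nat_lit 7) (nat_lit 4) (nat_lit 307) (nat_lit 220) (nat_lit 193)) (XT.lf (nat_lit 0) (nat_lit 6508013838) (nat_lit 76) (nat_lit 3038730761) (nat_lit 152) (nat_lit 31324349183) (nat_lit 5) (nat_lit 5) (nat_lit 6) (nat_lit 5) (nat_lit 7) (nat_lit 4) (nat_lit 308) (nat_lit 220) (nat_lit 192)))))) (XT.nd (nat_lit 390) (nat_lit 0) (nat_lit 0) (XT.nd (nat_lit 156) (nat_lit 76) (nat_lit 0) (XT.nd (nat_lit 78) (nat_lit 0) (nat_lit 0) (XT.lf (nat_lit 0) (nat_lit 13844376861) (nat_lit 152) (nat_lit 27783057998) (nat_lit 0) (nat_lit 1143618006) (nat_lit 5) (nat_lit 5) (nat_lit 7) (nat_lit 4) (nat_lit 5) (nat_lit 4) (nat_lit 309) (nat_lit 220) (nat_lit 191)) (XT.lf (nat_lit 0) (nat_lit 18313315008) (nat_lit 152) (nat_lit 21035592438) (nat_lit 0) (nat_lit 5418470233) (nat_lit 5) (nat_lit 5) (nat_lit 7) (nat_lit 4) (nat_lit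 5) (nat_lit 4) (nat_lit 310) (nat_lit 220) (nat_lit 190))) (XT.nd (nat_lit 78) (nat_lit 76) (nat_lit 0) (XT.lf (nat_lit 0) (nat_lit 22934989230) (nat_lit 152) (nat_lit 14075407733) (nat_lit 0) (nat_lit 9855300723) (nat_lit 5) (nat_lit 5) (nat_lit 7) (nat_lit 4) (nat_lit 5) (nat_lit 4) (nat_lit 311) (nat_lit 220) (nat_lit 189)) (XT.nd (nat_lit 78) (nat_lit 76) (nat_lit 0) (XT.lf (nat_lit 0) (nat_lit 27720403513) (nat_lit 152) (nat_lit 6885932012) (nat_lit 0) (nat_lit 14464673356) (nat_lit 5) (nat_lit 5) (nat_lit 7) (nat_lit 4) (nat_lit 5) (nat_lit 4) (nat_lit 312) (nat_lit 220) (nat_lit 188)) (XT.lf (nat_lit 0) (nat_lit 560897654) (nat_lit 76) (nat_lit 32125445738) (nat_lit 76) (nat_lit 18702056867) (nat_lit 4) (nat_lit 4) (nat_lit 5) (nat_lit 5) (nat_lit 5) (nat_lit 4) (nat_lit 313) (nat_lit 220) (nat_lit 187))))) (XT.nd (nat_lit 234) (nat_lit 0) (nat_lit 0) (XT.nd (nat_lit 78) (nat_lit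 0) (nat_lit 0) (XT.lf (nat_lit 0) (nat_lit 8414140544) (nat_lit 76) (nat_lit 29495185945) (nat_lit 76) (nat_lit 15912122109) (nat_lit 4) (nat_lit 4) (nat_lit 5) (nat_lit 5) (nat_lit 5) (nat_lit 4) (nat_lit 314) (nat_lit 220) (nat_lit 186)) (XT.nd (nat_lit 78) (nat_lit 0) (nat_lit 0) (XT.lf (nat_lit 0) (nat_lit 16555451305) (nat_lit 76) (nat_lit 26778828036) (nat_lit 76) (nat_lit 13043692803) (nat_lit 4) (nat_lit 4) (nat_lit 5) (nat_lit 5) (nat_lit 5) (nat_lit 4) (nat_lit 315) (nat_lit 220) (nat_lit 185)) (XT.lf (nat_lit 0) (nat_lit 25004214010) (nat_lit 76) (nat_lit 23969904492) (nat_lit 76) (nat_lit 10089939358) (nat_lit 4) (nat_lit 4) (nat_lit 5) (nat_lit 5) (nat_lit 5) (nat_lit 4) (nat_lit 316) (nat_lit 220) (nat_lit 184)))) (XT.nd (nat_lit 78) (nat_lit 0) (nat_lit 0) (XT.lf (nat_lit 0) (nat_lit 33780544760) (nat_lit 76) (nat_lit 21061727398) (nat_lit 76) (nat_lit 7043829025) (nat_lit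 4) (nat_lit 4) (nat_lit 5) (nat_lit 5) (nat_lit 5) (nat_lit 4) (nat_lit 317) (nat_lit 220) (nat_lit 183)) (XT.nd (nat_lit 78) (nat_lit 0) (nat_lit 0) (XT.lf (nat_lit 0) (nat_lit 42905339582) (nat_lit 76) (nat_lit 18047372525) (nat_lit 76) (nat_lit 3898109163) (nat_lit 4) (nat_lit 4) (nat_lit 5) (nat_lit 5) (nat_lit 5) (nat_lit 4) (nat_lit 318) (nat_lit 220) (nat_lit 182)) (XT.lf (nat_lit 0) (nat_lit 52400324176) (nat_lit 76) (nat_lit 14919662837) (nat_lit 76) (nat_lit 645289961) (nat_lit 4) (nat_lit 4) (nat_lit 5) (nat_lit 5) (nat_lit 5) (nat_lit 4) (nat_lit 319) (nat_lit 220) (nat_lit 181))))))))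
noncomputable def xc17 : XT := (XT.nd (nat_lit 34866) (nat_lit 0) (nat_lit 304) (XT.nd (nat_lit 780) (nat_lit 0) (nat_lit 0) (XT.nd (nat_lit 390) (nat_lit 0) (nat_lit 0) (XT.nd (nat_lit 156) (nat_lit 76) (nat_lit 0) (XT.nd (nat_lit 78) (nat_lit 0) (nat_lit 0) (XT.lf (nat_lit 0) (nat_lit 2669250077) (nat_lit 152) (nat_lit 8974947137) (nat_lit 76) (nat_lit 59591901381) (nat_lit 3) (nat_lit 5) (nat_lit 5) (nat_lit 5) (nat_lit 4) (nat_lit 4) (nat_lit 320) (nat_lit 220) (nat_lit 180)) (XT.lf (nat_lit 0) (nat_lit 6091663090) (nat_lit 152) (nat_lit 2140926738) (nat_lit 76) (nat_lit 66439049398) (nat_lit 3) (nat_lit 5) (nat_lit 5) (nat_lit 5) (nat_lit 4) (nat_lit 4) (nat_lit 321) (nat_lit 220) (nat_lit 179))) (XT.nd (nat_lit 78) (nat_lit 0) (nat_lit 0) (XT.lf (nat_lit 0) (nat_lit 5058288218) (nat_lit 76) (nat_lit 4633024752) (nat_lit 152) (nat_lit 68587493141) (nat_lit 2) (nat_lit 5) (nat_lit 3)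 (nat_lit 5) (nat_lit 4) (nat_lit 4) (nat_lit 322) (nat_lit 220) (nat_lit 178)) (XT.nd (nat_lit 78) (nat_lit 0) (nat_lit 0) (XT.lf (nat_lit 0) (nat_lit 12589147045) (nat_lit 76) (nat_lit 862652001) (nat_lit 152) (nat_lit 68615137839) (nat_lit 2) (nat_lit 5) (nat_lit 3) (nat_lit 5) (nat_lit 4) (nat_lit 4) (nat_lit 323) (nat_lit 220) (nat_lit 177)) (XT.lf (nat_lit 0) (nat_lit 17390556552) (nat_lit 152) (nat_lit 65648180047) (nat_lit 0) (nat_lit 3006059854) (nat_lit 2) (nat_lit 5) (nat_lit 4) (nat_lit 4) (nat_lit 2) (nat_lit 4) (nat_lit 324) (nat_lit 220) (nat_lit 176))))) (XT.nd (nat_lit 156) (nat_lit 0) (nat_lit 0) (XT.nd (nat_lit 78) (nat_lit 0) (nat_lit 0) (XT.lf (nat_lit 0) (nat_lit 21497324772) (nat_lit 152) (nat_lit 61702931686) (nat_lit 0) (nat_lit 7022188613) (nat_lit 2) (nat_lit 5) (nat_lit 4) (nat_lit 4) (nat_lit 2) (nat_lit 4) (nat_lit 325) (nat_lit 220) (nat_lit 175)) (XT.lf (nat_lit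 0) (nat_lit 25773589389) (nat_lit 152) (nat_lit 57624358970) (nat_lit 0) (nat_lit 11212129933) (nat_lit 2) (nat_lit 5) (nat_lit 4) (nat_lit 4) (nat_lit 2) (nat_lit 4) (nat_lit 326) (nat_lit 220) (nat_lit 174))) (XT.nd (nat_lit 78) (nat_lit 0) (nat_lit 0) (XT.lf (nat_lit 0) (nat_lit 30229531984) (nat_lit 152) (nat_lit 53402751013) (nat_lit 0) (nat_lit 15585859865) (nat_lit 2) (nat_lit 5) (nat_lit 4) (nat_lit 4) (nat_lit 2) (nat_lit 4) (nat_lit 327) (nat_lit 220) (nat_lit 173)) (XT.nd (nat_lit 78) (nat_lit 0) (nat_lit 0) (XT.lf (nat_lit 0) (nat_lit 34875761945) (nat_lit 152) (nat_lit 49028056365) (nat_lit 0) (nat_lit 20153792051) (nat_lit 2) (nat_lit 5) (nat_lit 4) (nat_lit 4) (nat_lit 2) (nat_lit 4) (nat_lit 328) (nat_lit 220) (nat_lit 172)) (XT.lf (nat_lit 0) (nat_lit 39723341725) (nat_lit 152) (nat_lit 44489859089) (nat_lit 0) (nat_lit 24926802521) (nat_lit 2) (nat_lit 5) (nat_lit 4) (nat_lit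 4) (nat_lit 2) (nat_lit 4) (nat_lit 329) (nat_lit 220) (nat_lit 171)))))) (XT.nd (nat_lit 33618) (nat_lit 0) (nat_lit 1520) (XT.nd (nat_lit 234) (nat_lit 0) (nat_lit 0) (XT.nd (nat_lit 78) (nat_lit 0) (nat_lit 0) (XT.lf (nat_lit 0) (nat_lit 44783813179) (nat_lit 152) (nat_lit 39777353951) (nat_lit 0) (nat_lit 29916255585) (nat_lit 2) (nat_lit 5) (nat_lit 4) (nat_lit 4) (nat_lit 2) (nat_lit 4) (nat_lit 330) (nat_lit 220) (nat_lit 170)) (XT.lf (nat_lit 0) (nat_lit 50069225049) (nat_lit 152) (nat_lit 34879320703) (nat_lit 0) (nat_lit 35134030893) (nat_lit 2) (nat_lit 5) (nat_lit 4) (nat_lit 4) (nat_lit 2) (nat_lit 4) (nat_lit 331) (nat_lit 220) (nat_lit 169))) (XT.nd (nat_lit 33228) (nat_lit 0) (nat_lit 2508) (XT.lf (nat_lit 0) (nat_lit 61365772829) (nat_lit 152) (nat_lit 24479552437) (nat_lit 0) (nat_lit 46304814545) (nat_lit 2) (nat_lit 5) (nat_lit 4) (nat_lit 4) (nat_lit 2) (nat_lit 4) (nat_lit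 333) (nat_lit 220) (nat_lit 167)) (XT.nd (nat_lit 78) (nat_lit 0) (nat_lit 0) (XT.lf (nat_lit 0) (nat_lit 125387419) (nat_lit 228) (nat_lit 5911597489) (nat_lit 0) (nat_lit 125387419) (nat_lit 35) (nat_lit 5) (nat_lit 38) (nat_lit 4) (nat_lit 35) (nat_lit 4) (nat_lit 278) (nat_lit 221) (nat_lit 221)) (XT.lf (nat_lit 0) (nat_lit 6033314841) (nat_lit 228) (nat_lit 1690680919) (nat_lit 0) (nat_lit 5001662012) (nat_lit 35) (nat_lit 5) (nat_lit 38) (nat_lit 4) (nat_lit 35) (nat_lit 4) (nat_lit 279) (nat_lit 221) (nat_lit 220))))) (XT.nd (nat_lit 234) (nat_lit 380) (nat_lit 0) (XT.nd (nat_lit 78) (nat_lit 380) (nat_lit 0) (XT.lf (nat_lit 0) (nat_lit 8782141400) (nat_lit 228) (nat_lit 3191451229) (nat_lit 228) (nat_lit 1177271897) (nat_lit 32) (nat_lit 4) (nat_lit 35) (nat_lit 5) (nat_lit 35) (nat_lit 4) (nat_lit 280) (nat_lit 221) (nat_lit 219)) (XT.nd (nat_lit 78) (nat_lit 152) (nat_lit 0) (XT.lf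 (nat_lit 0) (nat_lit 4402403280) (nat_lit 228) (nat_lit 7659110395) (nat_lit 0) (nat_lit 1538404387) (nat_lit 29) (nat_lit 5) (nat_lit 32) (nat_lit 4) (nat_lit 29) (nat_lit 4) (nat_lit 281) (nat_lit 221) (nat_lit 218)) (XT.lf (nat_lit 0) (nat_lit 2462331266) (nat_lit 152) (nat_lit 7670673515) (nat_lit 152) (nat_lit 3941450833) (nat_lit 27) (nat_lit 4) (nat_lit 29) (nat_lit 5) (nat_lit 29) (nat_lit 4) (nat_lit 282) (nat_lit 221) (nat_lit 217)))) (XT.nd (nat_lit 78) (nat_lit 304) (nat_lit 0) (XT.lf (nat_lit 0) (nat_lit 1425515807) (nat_lit 228) (nat_lit 1659448248) (nat_lit 76) (nat_lit 11491184087) (nat_lit 26) (nat_lit 5) (nat_lit 29) (nat_lit 5) (nat_lit 27) (nat_lit 4) (nat_lit 283) (nat_lit 221) (nat_lit 216)) (XT.nd (nat_lit 78) (nat_lit 152) (nat_lit 0) (XT.lf (nat_lit 0) (nat_lit 6888391157) (nat_lit 228) (nat_lit 6510489767) (nat_lit 0) (nat_lit 1705838906) (nat_lit 24) (nat_lit 5)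 (nat_lit 27) (nat_lit 4) (nat_lit 24) (nat_lit 4) (nat_lit 284) (nat_lit 221) (nat_lit 215)) (XT.lf (nat_lit 0) (nat_lit 3468921643) (nat_lit 152) (nat_lit 9051174938) (nat_lit 152) (nat_lit 3142979153) (nat_lit 22) (nat_lit 4) (nat_lit 24) (nat_lit 5) (nat_lit 24) (nat_lit 4) (nat_lit 285) (nat_lit 221) (nat_lit 214))))))) (XT.nd (nat_lit 780) (nat_lit 456) (nat_lit 0) (XT.nd (nat_lit 390) (nat_lit 304) (nat_lit 0) (XT.nd (nat_lit 156) (nat_lit 304) (nat_lit 0) (XT.nd (nat_lit 78) (nat_lit 76) (nat_lit 0) (XT.lf (nat_lit 0) (nat_lit 2027086385) (nat_lit 228) (nat_lit 2484299502) (nat_lit 76) (nat_lit 11740972881) (nat_lit 21) (nat_lit 5) (nat_lit 24) (nat_lit 5) (nat_lit 22) (nat_lit 4) (nat_lit 286) (nat_lit 221) (nat_lit 213)) (XT.lf (nat_lit 0) (nat_lit 7292826923) (nat_lit 152) (nat_lit 9333735024) (nat_lit 0) (nat_lit 246744457) (nat_lit 20) (nat_lit 5) (nat_lit 22) (nat_lit 4) (nat_lit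 20) (nat_lit 4) (nat_lit 287) (nat_lit 221) (nat_lit 212))) (XT.nd (nat_lit 78) (nat_lit 152) (nat_lit 0) (XT.lf (nat_lit 0) (nat_lit 271057282) (nat_lit 152) (nat_lit 12455970934) (nat_lit 152) (nat_lit 4801307723) (nat_lit 18) (nat_lit 4) (nat_lit 20) (nat_lit 5) (nat_lit 20) (nat_lit 4) (nat_lit 288) (nat_lit 221) (nat_lit 211)) (XT.nd (nat_lit 78) (nat_lit 76) (nat_lit 0) (XT.lf (nat_lit 0) (nat_lit 144456648) (nat_lit 228) (nat_lit 7941016924) (nat_lit 76) (nat_lit 10132800328) (nat_lit 17) (nat_lit 5) (nat_lit 20) (nat_lit 5) (nat_lit 18) (nat_lit 4) (nat_lit 289) (nat_lit 221) (nat_lit 210)) (XT.lf (nat_lit 0) (nat_lit 1560297760) (nat_lit 76) (nat_lit 3536530986) (nat_lit 152) (nat_lit 13848862419) (nat_lit 16) (nat_lit 5) (nat_lit 17) (nat_lit 5) (nat_lit 18) (nat_lit 4) (nat_lit 290) (nat_lit 221) (nat_lit 209))))) (XT.nd (nat_lit 156) (nat_lit 152) (nat_lit 0) (XT.nd (nat_lit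 78) (nat_lit 152) (nat_lit 0) (XT.lf (nat_lit 0) (nat_lit 10238036944) (nat_lit 152) (nat_lit 8276084822) (nat_lit 0) (nat_lit 1197280122) (nat_lit 16) (nat_lit 5) (nat_lit 18) (nat_lit 4) (nat_lit 16) (nat_lit 4) (nat_lit 291) (nat_lit 221) (nat_lit 208)) (XT.lf (nat_lit 0) (nat_lit 1026401649) (nat_lit 152) (nat_lit 14509507352) (nat_lit 152) (nat_lit 4982652584) (nat_lit 14) (nat_lit 4) (nat_lit 16) (nat_lit 5) (nat_lit 16) (nat_lit 4) (nat_lit 292) (nat_lit 221) (nat_lit 207))) (XT.nd (nat_lit 78) (nat_lit 152) (nat_lit 0) (XT.lf (nat_lit 0) (nat_lit 10727406356) (nat_lit 152) (nat_lit 10315152945) (nat_lit 152) (nat_lit 325347751) (nat_lit 14) (nat_lit 4) (nat_lit 16) (nat_lit 5) (nat_lit 16) (nat_lit 4) (nat_lit 293) (nat_lit 221) (nat_lit 206)) (XT.nd (nat_lit 78) (nat_lit 76) (nat_lit 0) (XT.lf (nat_lit 0) (nat_lit 4339697651) (nat_lit 228) (nat_lit 1621124128) (nat_lit 76) (nat_lit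 16301796524) (nat_lit 13) (nat_lit 5) (nat_lit 16) (nat_lit 5) (nat_lit 14) (nat_lit 4) (nat_lit 294) (nat_lit 221) (nat_lit 205)) (XT.lf (nat_lit 0) (nat_lit 7777722386) (nat_lit 76) (nat_lit 1398800978) (nat_lit 152) (nat_lit 14027214508) (nat_lit 12) (nat_lit 5) (nat_lit 13) (nat_lit 5) (nat_lit 14) (nat_lit 4) (nat_lit 295) (nat_lit 221) (nat_lit 204)))))) (XT.nd (nat_lit 390) (nat_lit 152) (nat_lit 0) (XT.nd (nat_lit 156) (nat_lit 152) (nat_lit 0) (XT.nd (nat_lit 78) (nat_lit 152) (nat_lit 0) (XT.lf (nat_lit 0) (nat_lit 14178340928) (nat_lit 152) (nat_lit 6760506658) (nat_lit 0) (nat_lit 3255492357) (nat_lit 12) (nat_lit 5) (nat_lit 14) (nat_lit 4) (nat_lit 12) (nat_lit 4) (nat_lit 296) (nat_lit 221) (nat_lit 203)) (XT.lf (nat_lit 0) (nat_lit 2159909496) (nat_lit 152) (nat_lit 17184932913) (nat_lit 152) (nat_lit 5892307197) (nat_lit 10) (nat_lit 4) (nat_lit 12) (nat_lit 5) (nat_lit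 12) (nat_lit 4) (nat_lit 297) (nat_lit 221) (nat_lit 202))) (XT.nd (nat_lit 78) (nat_lit 152) (nat_lit 0) (XT.lf (nat_lit 0) (nat_lit 11467140209) (nat_lit 152) (nat_lit 13255635281) (nat_lit 152) (nat_lit 1610840854) (nat_lit 10) (nat_lit 4) (nat_lit 12) (nat_lit 5) (nat_lit 12) (nat_lit 4) (nat_lit 298) (nat_lit 221) (nat_lit 201)) (XT.nd (nat_lit 78) (nat_lit 76) (nat_lit 0) (XT.lf (nat_lit 0) (nat_lit 2716267076) (nat_lit 228) (nat_lit 6466171033) (nat_lit 76) (nat_lit 18305102168) (nat_lit 9) (nat_lit 5) (nat_lit 12) (nat_lit 5) (nat_lit 10) (nat_lit 4) (nat_lit 299) (nat_lit 221) (nat_lit 200)) (XT.lf (nat_lit 0) (nat_lit 2196691722) (nat_lit 76) (nat_lit 4944348831) (nat_lit 152) (nat_lit 21560299323) (nat_lit 8) (nat_lit 5) (nat_lit 9) (nat_lit 5) (nat_lit 10) (nat_lit 4) (nat_lit 300) (nat_lit 221) (nat_lit 199))))) (XT.nd (nat_lit 234) (nat_lit 152) (nat_lit 0) (XT.nd (nat_lit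 78) (nat_lit 0) (nat_lit 0) (XT.lf (nat_lit 0) (nat_lit 11249033378) (nat_lit 76) (nat_lit 501149160) (nat_lit 152) (nat_lit 18226845100) (nat_lit 8) (nat_lit 5) (nat_lit 9) (nat_lit 5) (nat_lit 10) (nat_lit 4) (nat_lit 301) (nat_lit 221) (nat_lit 198)) (XT.nd (nat_lit 78) (nat_lit 0) (nat_lit 0) (XT.lf (nat_lit 0) (nat_lit 16530612423) (nat_lit 152) (nat_lit 10775164161) (nat_lit 0) (nat_lit 4012585972) (nat_lit 8) (nat_lit 5) (nat_lit 10) (nat_lit 4) (nat_lit 8) (nat_lit 4) (nat_lit 302) (nat_lit 221) (nat_lit 197)) (XT.lf (nat_lit 0) (nat_lit 21460647605) (nat_lit 152) (nat_lit 2594157970) (nat_lit 0) (nat_lit 8674724649) (nat_lit 8) (nat_lit 5) (nat_lit 10) (nat_lit 4) (nat_lit 8) (nat_lit 4) (nat_lit 303) (nat_lit 221) (nat_lit 196)))) (XT.nd (nat_lit 78) (nat_lit 76) (nat_lit 0) (XT.lf (nat_lit 0) (nat_lit 5955534175) (nat_lit 76) (nat_lit 20648922972) (nat_lit 76) (nat_lit 7607860488)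 (nat_lit 7) (nat_lit 4) (nat_lit 8) (nat_lit 5) (nat_lit 8) (nat_lit 4) (nat_lit 304) (nat_lit 221) (nat_lit 195)) (XT.nd (nat_lit 78) (nat_lit 76) (nat_lit 0) (XT.lf (nat_lit 0) (nat_lit 14834831207) (nat_lit 76) (nat_lit 17110177465) (nat_lit 76) (nat_lit 3826124954) (nat_lit 7) (nat_lit 4) (nat_lit 8) (nat_lit 5) (nat_lit 8) (nat_lit 4) (nat_lit 305) (nat_lit 221) (nat_lit 194)) (XT.lf (nat_lit 0) (nat_lit 57978324) (nat_lit 152) (nat_lit 13397775586) (nat_lit 76) (nat_lit 23954681686) (nat_lit 6) (nat_lit 5) (nat_lit 8) (nat_lit 5) (nat_lit 7) (nat_lit 4) (nat_lit 306) (nat_lit 221) (nat_lit 193))))))))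
noncomputable def xc18 : XT := (XT.nd (nat_lit 1638) (nat_lit 0) (nat_lit 0) (XT.nd (nat_lit 780) (nat_lit 152) (nat_lit 0) (XT.nd (nat_lit 390) (nat_lit 76) (nat_lit 0) (XT.nd (nat_lit 156) (nat_lit 0) (nat_lit 0) (XT.nd (nat_lit 78) (nat_lit 76) (nat_lit 0) (XT.lf (nat_lit 0) (nat_lit 3977991769) (nat_lit 152) (nat_lit 5660547409) (nat_lit 76) (nat_lit 29494468667) (nat_lit 6) (nat_lit 5) (nat_lit 8) (nat_lit 5) (nat_lit 7) (nat_lit 4) (nat_lit 307) (nat_lit 221) (nat_lit 192)) (XT.lf (nat_lit 0) (nat_lit 2376966311) (nat_lit 76) (nat_lit 5663792770) (nat_lit 152) (nat_lit 32902610564) (nat_lit 5) (nat_lit 5) (nat_lit 6) (nat_lit 5) (nat_lit 7) (nat_lit 4) (nat_lit 308) (nat_lit 221) (nat_lit 191))) (XT.nd (nat_lit 78) (nat_lit 0) (nat_lit 0) (XT.lf (nat_lit 0) (nat_lit 10805496715) (nat_lit 76) (nat_lit 1485724878) (nat_lit 152) (nat_lit 30553551742) (nat_lit 5) (nat_lit 5) (nat_lit 6)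 (nat_lit 5) (nat_lit 7) (nat_lit 4) (nat_lit 309) (nat_lit 221) (nat_lit 190)) (XT.nd (nat_lit 78) (nat_lit 0) (nat_lit 0) (XT.lf (nat_lit 0) (nat_lit 16711384955) (nat_lit 152) (nat_lit 25338336258) (nat_lit 0) (nat_lit 2792868290) (nat_lit 5) (nat_lit 5) (nat_lit 7) (nat_lit 4) (nat_lit 5) (nat_lit 4) (nat_lit 310) (nat_lit 221) (nat_lit 189)) (XT.lf (nat_lit 0) (nat_lit 21300208616) (nat_lit 152) (nat_lit 18436062879) (nat_lit 0) (nat_lit 7205650301) (nat_lit 5) (nat_lit 5) (nat_lit 7) (nat_lit 4) (nat_lit 5) (nat_lit 4) (nat_lit 311) (nat_lit 221) (nat_lit 188))))) (XT.nd (nat_lit 156) (nat_lit 76) (nat_lit 0) (XT.nd (nat_lit 78) (nat_lit 0) (nat_lit 0) (XT.lf (nat_lit 0) (nat_lit 26054336651) (nat_lit 152) (nat_lit 11301740804) (nat_lit 0) (nat_lit 11792119622) (nat_lit 5) (nat_lit 5) (nat_lit 7) (nat_lit 4) (nat_lit 5) (nat_lit 4) (nat_lit 312) (nat_lit 221) (nat_lit 187)) (XT.lf (nat_lit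 0) (nat_lit 30985088412) (nat_lit 152) (nat_lit 3918383551) (nat_lit 0) (nat_lit 16563196418) (nat_lit 5) (nat_lit 5) (nat_lit 7) (nat_lit 4) (nat_lit 5) (nat_lit 4) (nat_lit 313) (nat_lit 221) (nat_lit 186))) (XT.nd (nat_lit 78) (nat_lit 0) (nat_lit 0) (XT.lf (nat_lit 0) (nat_lit 3805854225) (nat_lit 76) (nat_lit 32334933758) (nat_lit 76) (nat_lit 17760970368) (nat_lit 4) (nat_lit 4) (nat_lit 5) (nat_lit 5) (nat_lit 5) (nat_lit 4) (nat_lit 314) (nat_lit 221) (nat_lit 185)) (XT.nd (nat_lit 78) (nat_lit 0) (nat_lit 0) (XT.lf (nat_lit 0) (nat_lit 11898572989) (nat_lit 76) (nat_lit 29639674513) (nat_lit 76) (nat_lit 14920881221) (nat_lit 4) (nat_lit 4) (nat_lit 5) (nat_lit 5) (nat_lit 5) (nat_lit 4) (nat_lit 315) (nat_lit 221) (nat_lit 184)) (XT.lf (nat_lit 0) (nat_lit 20301057601) (nat_lit 76) (nat_lit 26850844933) (nat_lit 76) (nat_lit 11994118403) (nat_lit 4) (nat_lit 4) (nat_lit 5) (nat_lit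 5) (nat_lit 5) (nat_lit 4) (nat_lit 316) (nat_lit 221) (nat_lit 183)))))) (XT.nd (nat_lit 390) (nat_lit 76) (nat_lit 0) (XT.nd (nat_lit 156) (nat_lit 76) (nat_lit 0) (XT.nd (nat_lit 78) (nat_lit 0) (nat_lit 0) (XT.lf (nat_lit 0) (nat_lit 29033313978) (nat_lit 76) (nat_lit 23961804950) (nat_lit 76) (nat_lit 8973713429) (nat_lit 4) (nat_lit 4) (nat_lit 5) (nat_lit 5) (nat_lit 5) (nat_lit 4) (nat_lit 317) (nat_lit 221) (nat_lit 182)) (XT.lf (nat_lit 0) (nat_lit 38116133205) (nat_lit 76) (nat_lit 20965675895) (nat_lit 76) (nat_lit 5852474861) (nat_lit 4) (nat_lit 4) (nat_lit 5) (nat_lit 5) (nat_lit 5) (nat_lit 4) (nat_lit 318) (nat_lit 221) (nat_lit 181))) (XT.nd (nat_lit 78) (nat_lit 76) (nat_lit 0) (XT.lf (nat_lit 0) (nat_lit 47571141044) (nat_lit 76) (nat_lit 17855324130) (nat_lit 76) (nat_lit 2622971178) (nat_lit 4) (nat_lit 4) (nat_lit 5) (nat_lit 5) (nat_lit 5) (nat_lit 4) (nat_lit 319)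 (nat_lit 221) (nat_lit 180)) (XT.nd (nat_lit 78) (nat_lit 0) (nat_lit 0) (XT.lf (nat_lit 0) (nat_lit 708388593) (nat_lit 152) (nat_lit 13907802125) (nat_lit 76) (nat_lit 56705307488) (nat_lit 3) (nat_lit 5) (nat_lit 5) (nat_lit 5) (nat_lit 4) (nat_lit 4) (nat_lit 320) (nat_lit 221) (nat_lit 179)) (XT.lf (nat_lit 0) (nat_lit 4110066414) (nat_lit 152) (nat_lit 7110470450) (nat_lit 76) (nat_lit 63537139984) (nat_lit 3) (nat_lit 5) (nat_lit 5) (nat_lit 5) (nat_lit 4) (nat_lit 4) (nat_lit 321) (nat_lit 221) (nat_lit 178))))) (XT.nd (nat_lit 234) (nat_lit 0) (nat_lit 0) (XT.nd (nat_lit 78) (nat_lit 76) (nat_lit 0) (XT.lf (nat_lit 0) (nat_lit 7641345133) (nat_lit 152) (nat_lit 44902557) (nat_lit 76) (nat_lit 70680662376) (nat_lit 3) (nat_lit 5) (nat_lit 5) (nat_lit 5) (nat_lit 4) (nat_lit 4) (nat_lit 322) (nat_lit 221) (nat_lit 177)) (XT.nd (nat_lit 78) (nat_lit 0) (nat_lit 0) (XT.lf (nat_lit 0)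 (nat_lit 7451122573) (nat_lit 76) (nat_lit 3931134731) (nat_lit 152) (nat_lit 70773385226) (nat_lit 2) (nat_lit 5) (nat_lit 3) (nat_lit 5) (nat_lit 4) (nat_lit 4) (nat_lit 323) (nat_lit 221) (nat_lit 176)) (XT.lf (nat_lit 0) (nat_lit 15256623391) (nat_lit 76) (nat_lit 16697688) (nat_lit 152) (nat_lit 70861625614) (nat_lit 2) (nat_lit 5) (nat_lit 3) (nat_lit 5) (nat_lit 4) (nat_lit 4) (nat_lit 324) (nat_lit 221) (nat_lit 175)))) (XT.nd (nat_lit 78) (nat_lit 0) (nat_lit 0) (XT.lf (nat_lit 0) (nat_lit 19362444882) (nat_lit 152) (nat_lit 66964103733) (nat_lit 0) (nat_lit 3986589157) (nat_lit 2) (nat_lit 5) (nat_lit 4) (nat_lit 4) (nat_lit 2) (nat_lit 4) (nat_lit 325) (nat_lit 221) (nat_lit 174)) (XT.nd (nat_lit 78) (nat_lit 0) (nat_lit 0) (XT.lf (nat_lit 0) (nat_lit 23622058156) (nat_lit 152) (nat_lit 62915235111) (nat_lit 0) (nat_lit 8163989767) (nat_lit 2) (nat_lit 5) (nat_lit 4) (nat_lit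 4) (nat_lit 2) (nat_lit 4) (nat_lit 326) (nat_lit 221) (nat_lit 173)) (XT.lf (nat_lit 0) (nat_lit 28062142330) (nat_lit 152) (nat_lit 58721916767) (nat_lit 0) (nat_lit 12525776166) (nat_lit 2) (nat_lit 5) (nat_lit 4) (nat_lit 4) (nat_lit 2) (nat_lit 4) (nat_lit 327) (nat_lit 221) (nat_lit 172))))))) (XT.nd (nat_lit 33852) (nat_lit 0) (nat_lit 1064) (XT.nd (nat_lit 33462) (nat_lit 0) (nat_lit 2280) (XT.nd (nat_lit 156) (nat_lit 0) (nat_lit 0) (XT.nd (nat_lit 78) (nat_lit 0) (nat_lit 0) (XT.lf (nat_lit 0) (nat_lit 32693269033) (nat_lit 152) (nat_lit 54374164609) (nat_lit 0) (nat_lit 17082333560) (nat_lit 2) (nat_lit 5) (nat_lit 4) (nat_lit 4) (nat_lit 2) (nat_lit 4) (nat_lit 328) (nat_lit 221) (nat_lit 171)) (XT.lf (nat_lit 0) (nat_lit 37526464756) (nat_lit 152) (nat_lit 49861626847) (nat_lit 0) (nat_lit 21844510893) (nat_lit 2) (nat_lit 5) (nat_lit 4) (nat_lit 4) (nat_lit 2) (nat_lit 4) (nat_lit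 329) (nat_lit 221) (nat_lit 170))) (XT.nd (nat_lit 78) (nat_lit 0) (nat_lit 0) (XT.lf (nat_lit 0) (nat_lit 42573237110) (nat_lit 152) (nat_lit 45173559341) (nat_lit 0) (nat_lit 26823646685) (nat_lit 2) (nat_lit 5) (nat_lit 4) (nat_lit 4) (nat_lit 2) (nat_lit 4) (nat_lit 330) (nat_lit 221) (nat_lit 169)) (XT.nd (nat_lit 156) (nat_lit 0) (nat_lit 0) (XT.lf (nat_lit 0) (nat_lit 47845602217) (nat_lit 152) (nat_lit 40298800028) (nat_lit 0) (nat_lit 32031596019) (nat_lit 2) (nat_lit 5) (nat_lit 4) (nat_lit 4) (nat_lit 2) (nat_lit 4) (nat_lit 331) (nat_lit 221) (nat_lit 168)) (XT.lf (nat_lit 0) (nat_lit 59117890711) (nat_lit 152) (nat_lit 29942307560) (nat_lit 0) (nat_lit 43184109152) (nat_lit 2) (nat_lit 5) (nat_lit 4) (nat_lit 4) (nat_lit 2) (nat_lit 4) (nat_lit 333) (nat_lit 221) (nat_lit 166))))) (XT.nd (nat_lit 156) (nat_lit 456) (nat_lit 0) (XT.nd (nat_lit 78) (nat_lit 228) (nat_lit 0) (XT.lf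 (nat_lit 0) (nat_lit 905042081) (nat_lit 304) (nat_lit 3980974181) (nat_lit 0) (nat_lit 905042081) (nat_lit 41) (nat_lit 5) (nat_lit 45) (nat_lit 4) (nat_lit 41) (nat_lit 4) (nat_lit 276) (nat_lit 222) (nat_lit 222)) (XT.lf (nat_lit 0) (nat_lit 2179471517) (nat_lit 228) (nat_lit 5440123993) (nat_lit 228) (nat_lit 4324391459) (nat_lit 38) (nat_lit 4) (nat_lit 41) (nat_lit 5) (nat_lit 41) (nat_lit 4) (nat_lit 277) (nat_lit 222) (nat_lit 221))) (XT.nd (nat_lit 78) (nat_lit 228) (nat_lit 0) (XT.lf (nat_lit 0) (nat_lit 323058630) (nat_lit 152) (nat_lit 909154954) (nat_lit 228) (nat_lit 11095741857) (nat_lit 35) (nat_lit 5) (nat_lit 37) (nat_lit 5) (nat_lit 38) (nat_lit 4) (nat_lit 278) (nat_lit 222) (nat_lit 220)) (XT.nd (nat_lit 78) (nat_lit 228) (nat_lit 0) (XT.lf (nat_lit 0) (nat_lit 6900741781) (nat_lit 228) (nat_lit 2028369571) (nat_lit 0) (nat_lit 3803326979) (nat_lit 35) (nat_lit 5) (nat_lit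 38) (nat_lit 4) (nat_lit 35) (nat_lit 4) (nat_lit 279) (nat_lit 222) (nat_lit 219)) (XT.lf (nat_lit 0) (nat_lit 8277727752) (nat_lit 228) (nat_lit 4458183606) (nat_lit 228) (nat_lit 425029276) (nat_lit 32) (nat_lit 4) (nat_lit 35) (nat_lit 5) (nat_lit 35) (nat_lit 4) (nat_lit 280) (nat_lit 222) (nat_lit 218)))))) (XT.nd (nat_lit 390) (nat_lit 456) (nat_lit 0) (XT.nd (nat_lit 156) (nat_lit 380) (nat_lit 0) (XT.nd (nat_lit 78) (nat_lit 152) (nat_lit 0) (XT.lf (nat_lit 0) (nat_lit 5022581776) (nat_lit 228) (nat_lit 8349174423) (nat_lit 0) (nat_lit 241674173) (nat_lit 29) (nat_lit 5) (nat_lit 32) (nat_lit 4) (nat_lit 29) (nat_lit 4) (nat_lit 281) (nat_lit 222) (nat_lit 217)) (XT.lf (nat_lit 0) (nat_lit 1603019912) (nat_lit 152) (nat_lit 9046555904) (nat_lit 152) (nat_lit 3441625644) (nat_lit 27) (nat_lit 4) (nat_lit 29) (nat_lit 5) (nat_lit 29) (nat_lit 4) (nat_lit 282) (nat_lit 222) (nat_lit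 216))) (XT.nd (nat_lit 78) (nat_lit 304) (nat_lit 0) (XT.lf (nat_lit 0) (nat_lit 1822326818) (nat_lit 228) (nat_lit 2690390299) (nat_lit 76) (nat_lit 10082946424) (nat_lit 26) (nat_lit 5) (nat_lit 29) (nat_lit 5) (nat_lit 27) (nat_lit 4) (nat_lit 283) (nat_lit 222) (nat_lit 215)) (XT.nd (nat_lit 78) (nat_lit 152) (nat_lit 0) (XT.lf (nat_lit 0) (nat_lit 7170515229) (nat_lit 228) (nat_lit 7716004838) (nat_lit 0) (nat_lit 241266122) (nat_lit 24) (nat_lit 5) (nat_lit 27) (nat_lit 4) (nat_lit 24) (nat_lit 4) (nat_lit 284) (nat_lit 222) (nat_lit 214)) (XT.lf (nat_lit 0) (nat_lit 2095597459) (nat_lit 152) (nat_lit 10606988479) (nat_lit 152) (nat_lit 2986650292) (nat_lit 22) (nat_lit 4) (nat_lit 24) (nat_lit 5) (nat_lit 24) (nat_lit 4) (nat_lit 285) (nat_lit 222) (nat_lit 213))))) (XT.nd (nat_lit 234) (nat_lit 304) (nat_lit 0) (XT.nd (nat_lit 78) (nat_lit 76) (nat_lit 0) (XT.lf (nat_lit 0) (nat_lit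 2095804278) (nat_lit 228) (nat_lit 4024035577) (nat_lit 76) (nat_lit 10161268317) (nat_lit 21) (nat_lit 5) (nat_lit 24) (nat_lit 5) (nat_lit 22) (nat_lit 4) (nat_lit 286) (nat_lit 222) (nat_lit 212)) (XT.nd (nat_lit 78) (nat_lit 0) (nat_lit 0) (XT.lf (nat_lit 0) (nat_lit 5836911711) (nat_lit 76) (nat_lit 1425289343) (nat_lit 152) (nat_lit 9642927617) (nat_lit 20) (nat_lit 5) (nat_lit 21) (nat_lit 5) (nat_lit 22) (nat_lit 4) (nat_lit 287) (nat_lit 222) (nat_lit 211)) (XT.lf (nat_lit 0) (nat_lit 12601678731) (nat_lit 152) (nat_lit 1585308420) (nat_lit 0) (nat_lit 3376100905) (nat_lit 20) (nat_lit 5) (nat_lit 22) (nat_lit 4) (nat_lit 20) (nat_lit 4) (nat_lit 288) (nat_lit 222) (nat_lit 210)))) (XT.nd (nat_lit 78) (nat_lit 152) (nat_lit 0) (XT.lf (nat_lit 0) (nat_lit 8264238927) (nat_lit 152) (nat_lit 9884617641) (nat_lit 152) (nat_lit 107039139) (nat_lit 18) (nat_lit 4) (nat_lit 20) (nat_lit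 5) (nat_lit 20) (nat_lit 4) (nat_lit 289) (nat_lit 222) (nat_lit 209)) (XT.nd (nat_lit 78) (nat_lit 76) (nat_lit 0) (XT.lf (nat_lit 0) (nat_lit 4759343615) (nat_lit 228) (nat_lit 641825892) (nat_lit 76) (nat_lit 13584894295) (nat_lit 17) (nat_lit 5) (nat_lit 20) (nat_lit 5) (nat_lit 18) (nat_lit 4) (nat_lit 290) (nat_lit 222) (nat_lit 208)) (XT.lf (nat_lit 0) (nat_lit 9113943298) (nat_lit 76) (nat_lit 697838777) (nat_lit 152) (nat_lit 9942729463) (nat_lit 16) (nat_lit 5) (nat_lit 17) (nat_lit 5) (nat_lit 18) (nat_lit 4) (nat_lit 291) (nat_lit 222) (nat_lit 207))))))))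
noncomputable def xc19 : XT := (XT.nd (nat_lit 1638) (nat_lit 228) (nat_lit 0) (XT.nd (nat_lit 780) (nat_lit 228) (nat_lit 0) (XT.nd (nat_lit 390) (nat_lit 304) (nat_lit 0) (XT.nd (nat_lit 156) (nat_lit 152) (nat_lit 0) (XT.nd (nat_lit 78) (nat_lit 152) (nat_lit 0) (XT.lf (nat_lit 0) (nat_lit 15025271079) (nat_lit 152) (nat_lit 1465976850) (nat_lit 0) (nat_lit 4073025201) (nat_lit 16) (nat_lit 5) (nat_lit 18) (nat_lit 4) (nat_lit 16) (nat_lit 4) (nat_lit 292) (nat_lit 222) (nat_lit 206)) (XT.lf (nat_lit 0) (nat_lit 8094561951) (nat_lit 152) (nat_lit 12357337697) (nat_lit 152) (nat_lit 964186651) (nat_lit 14) (nat_lit 4) (nat_lit 16) (nat_lit 5) (nat_lit 16) (nat_lit 4) (nat_lit 293) (nat_lit 222) (nat_lit 205))) (XT.nd (nat_lit 78) (nat_lit 76) (nat_lit 0) (XT.lf (nat_lit 0) (nat_lit 3650119899) (nat_lit 228) (nat_lit 4403317332) (nat_lit 76) (nat_lit 14259502691) (nat_lit 13) (nat_lit 5)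 (nat_lit 16) (nat_lit 5) (nat_lit 14) (nat_lit 4) (nat_lit 294) (nat_lit 222) (nat_lit 204)) (XT.nd (nat_lit 78) (nat_lit 0) (nat_lit 0) (XT.lf (nat_lit 0) (nat_lit 4835923654) (nat_lit 76) (nat_lit 3562548447) (nat_lit 152) (nat_lit 14858300639) (nat_lit 12) (nat_lit 5) (nat_lit 13) (nat_lit 5) (nat_lit 14) (nat_lit 4) (nat_lit 295) (nat_lit 222) (nat_lit 203)) (XT.lf (nat_lit 0) (nat_lit 13320813440) (nat_lit 152) (nat_lit 9835222600) (nat_lit 0) (nat_lit 1093779292) (nat_lit 12) (nat_lit 5) (nat_lit 14) (nat_lit 4) (nat_lit 12) (nat_lit 4) (nat_lit 296) (nat_lit 222) (nat_lit 202))))) (XT.nd (nat_lit 156) (nat_lit 152) (nat_lit 0) (XT.nd (nat_lit 78) (nat_lit 152) (nat_lit 0) (XT.lf (nat_lit 0) (nat_lit 18410669732) (nat_lit 152) (nat_lit 1052841302) (nat_lit 0) (nat_lit 5831466872) (nat_lit 12) (nat_lit 5) (nat_lit 14) (nat_lit 4) (nat_lit 12) (nat_lit 4) (nat_lit 297) (nat_lit 222)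 (nat_lit 201)) (XT.lf (nat_lit 0) (nat_lit 8140297149) (nat_lit 152) (nat_lit 15583866652) (nat_lit 152) (nat_lit 2669265020) (nat_lit 10) (nat_lit 4) (nat_lit 12) (nat_lit 5) (nat_lit 12) (nat_lit 4) (nat_lit 298) (nat_lit 222) (nat_lit 200))) (XT.nd (nat_lit 78) (nat_lit 76) (nat_lit 0) (XT.lf (nat_lit 0) (nat_lit 1626398615) (nat_lit 228) (nat_lit 9932439843) (nat_lit 76) (nat_lit 15990429622) (nat_lit 9) (nat_lit 5) (nat_lit 12) (nat_lit 5) (nat_lit 10) (nat_lit 4) (nat_lit 299) (nat_lit 222) (nat_lit 199)) (XT.nd (nat_lit 78) (nat_lit 76) (nat_lit 0) (XT.lf (nat_lit 0) (nat_lit 5980439040) (nat_lit 228) (nat_lit 1397954353) (nat_lit 76) (nat_lit 21386841193) (nat_lit 9) (nat_lit 5) (nat_lit 12) (nat_lit 5) (nat_lit 10) (nat_lit 4) (nat_lit 300) (nat_lit 222) (nat_lit 198)) (XT.lf (nat_lit 0) (nat_lit 7543504551) (nat_lit 76) (nat_lit 2984318221) (nat_lit 152) (nat_lit 19514995101) (nat_lit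 8) (nat_lit 5) (nat_lit 9) (nat_lit 5) (nat_lit 10) (nat_lit 4) (nat_lit 301) (nat_lit 222) (nat_lit 197)))))) (XT.nd (nat_lit 390) (nat_lit 152) (nat_lit 0) (XT.nd (nat_lit 156) (nat_lit 76) (nat_lit 0) (XT.nd (nat_lit 78) (nat_lit 0) (nat_lit 0) (XT.lf (nat_lit 0) (nat_lit 15238297835) (nat_lit 152) (nat_lit 14602812114) (nat_lit 0) (nat_lit 1545182227) (nat_lit 8) (nat_lit 5) (nat_lit 10) (nat_lit 4) (nat_lit 8) (nat_lit 4) (nat_lit 302) (nat_lit 222) (nat_lit 196)) (XT.lf (nat_lit 0) (nat_lit 20124442463) (nat_lit 152) (nat_lit 6498185570) (nat_lit 0) (nat_lit 6176187326) (nat_lit 8) (nat_lit 5) (nat_lit 10) (nat_lit 4) (nat_lit 8) (nat_lit 4) (nat_lit 303) (nat_lit 222) (nat_lit 195))) (XT.nd (nat_lit 78) (nat_lit 0) (nat_lit 0) (XT.lf (nat_lit 0) (nat_lit 1899618530) (nat_lit 76) (nat_lit 23287845006) (nat_lit 76) (nat_lit 9096599842) (nat_lit 7) (nat_lit 4) (nat_lit 8) (nat_lit 5)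 (nat_lit 8) (nat_lit 4) (nat_lit 304) (nat_lit 222) (nat_lit 194)) (XT.nd (nat_lit 78) (nat_lit 0) (nat_lit 0) (XT.lf (nat_lit 0) (nat_lit 10708258189) (nat_lit 76) (nat_lit 19779267643) (nat_lit 76) (nat_lit 5356603406) (nat_lit 7) (nat_lit 4) (nat_lit 8) (nat_lit 5) (nat_lit 8) (nat_lit 4) (nat_lit 305) (nat_lit 222) (nat_lit 193)) (XT.lf (nat_lit 0) (nat_lit 19819379725) (nat_lit 76) (nat_lit 16154161122) (nat_lit 76) (nat_lit 1511097767) (nat_lit 7) (nat_lit 4) (nat_lit 8) (nat_lit 5) (nat_lit 8) (nat_lit 4) (nat_lit 306) (nat_lit 222) (nat_lit 192))))) (XT.nd (nat_lit 234) (nat_lit 0) (nat_lit 0) (XT.nd (nat_lit 78) (nat_lit 76) (nat_lit 0) (XT.lf (nat_lit 0) (nat_lit 2401282803) (nat_lit 152) (nat_lit 9978363184) (nat_lit 76) (nat_lit 26829145230) (nat_lit 6) (nat_lit 5) (nat_lit 8) (nat_lit 5) (nat_lit 7) (nat_lit 4) (nat_lit 307) (nat_lit 222) (nat_lit 191)) (XT.nd (nat_lit 78) (nat_lit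 76) (nat_lit 0) (XT.lf (nat_lit 0) (nat_lit 6405849037) (nat_lit 152) (nat_lit 2049002225) (nat_lit 76) (nat_lit 32566077301) (nat_lit 6) (nat_lit 5) (nat_lit 8) (nat_lit 5) (nat_lit 7) (nat_lit 4) (nat_lit 308) (nat_lit 222) (nat_lit 190)) (XT.lf (nat_lit 0) (nat_lit 6278750040) (nat_lit 76) (nat_lit 4323227721) (nat_lit 152) (nat_lit 32322012616) (nat_lit 5) (nat_lit 5) (nat_lit 6) (nat_lit 5) (nat_lit 7) (nat_lit 4) (nat_lit 309) (nat_lit 222) (nat_lit 189)))) (XT.nd (nat_lit 78) (nat_lit 0) (nat_lit 0) (XT.lf (nat_lit 0) (nat_lit 14948567183) (nat_lit 76) (nat_lit 13578087) (nat_lit 152) (nat_lit 29961487923) (nat_lit 5) (nat_lit 5) (nat_lit 6) (nat_lit 5) (nat_lit 7) (nat_lit 4) (nat_lit 310) (nat_lit 222) (nat_lit 188)) (XT.nd (nat_lit 78) (nat_lit 0) (nat_lit 0) (XT.lf (nat_lit 0) (nat_lit 19519552162) (nat_lit 152) (nat_lit 23127815756) (nat_lit 0) (nat_lit 4376565568) (nat_lit 5)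 (nat_lit 5) (nat_lit 7) (nat_lit 4) (nat_lit 5) (nat_lit 4) (nat_lit 311) (nat_lit 222) (nat_lit 187)) (XT.lf (nat_lit 0) (nat_lit 24243883770) (nat_lit 152) (nat_lit 16046020961) (nat_lit 0) (nat_lit 8941222210) (nat_lit 5) (nat_lit 5) (nat_lit 7) (nat_lit 4) (nat_lit 5) (nat_lit 4) (nat_lit 312) (nat_lit 222) (nat_lit 186))))))) (XT.nd (nat_lit 780) (nat_lit 76) (nat_lit 0) (XT.nd (nat_lit 390) (nat_lit 76) (nat_lit 0) (XT.nd (nat_lit 156) (nat_lit 76) (nat_lit 0) (XT.nd (nat_lit 78) (nat_lit 0) (nat_lit 0) (XT.lf (nat_lit 0) (nat_lit 29146257982) (nat_lit 152) (nat_lit 8712689690) (nat_lit 0) (nat_lit 13691525026) (nat_lit 5) (nat_lit 5) (nat_lit 7) (nat_lit 4) (nat_lit 5) (nat_lit 4) (nat_lit 313) (nat_lit 222) (nat_lit 185)) (XT.lf (nat_lit 0) (nat_lit 34238347117) (nat_lit 152) (nat_lit 1110361629) (nat_lit 0) (nat_lit 18638784260) (nat_lit 5) (nat_lit 5) (nat_lit 7) (nat_lit 4) (nat_lit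 5) (nat_lit 4) (nat_lit 314) (nat_lit 222) (nat_lit 184))) (XT.nd (nat_lit 78) (nat_lit 0) (nat_lit 0) (XT.lf (nat_lit 0) (nat_lit 6913980668) (nat_lit 76) (nat_lit 32684755941) (nat_lit 76) (nat_lit 16947259845) (nat_lit 4) (nat_lit 4) (nat_lit 5) (nat_lit 5) (nat_lit 5) (nat_lit 4) (nat_lit 315) (nat_lit 222) (nat_lit 183)) (XT.nd (nat_lit 78) (nat_lit 0) (nat_lit 0) (XT.lf (nat_lit 0) (nat_lit 15272390906) (nat_lit 76) (nat_lit 29915063472) (nat_lit 76) (nat_lit 14046202386) (nat_lit 4) (nat_lit 4) (nat_lit 5) (nat_lit 5) (nat_lit 5) (nat_lit 4) (nat_lit 316) (nat_lit 222) (nat_lit 182)) (XT.lf (nat_lit 0) (nat_lit 23962671688) (nat_lit 76) (nat_lit 27044249307) (nat_lit 76) (nat_lit 11050278707) (nat_lit 4) (nat_lit 4) (nat_lit 5) (nat_lit 5) (nat_lit 5) (nat_lit 4) (nat_lit 317) (nat_lit 222) (nat_lit 181))))) (XT.nd (nat_lit 156) (nat_lit 76) (nat_lit 0) (XT.nd (nat_lit 78) (nat_lit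 0) (nat_lit 0) (XT.lf (nat_lit 0) (nat_lit 33005514160) (nat_lit 76) (nat_lit 24065478175) (nat_lit 76) (nat_lit 7952355658) (nat_lit 4) (nat_lit 4) (nat_lit 5) (nat_lit 5) (nat_lit 5) (nat_lit 4) (nat_lit 318) (nat_lit 222) (nat_lit 180)) (XT.lf (nat_lit 0) (nat_lit 42422448897) (nat_lit 76) (nat_lit 20971657765) (nat_lit 76) (nat_lit 4745057230) (nat_lit 4) (nat_lit 4) (nat_lit 5) (nat_lit 5) (nat_lit 5) (nat_lit 4) (nat_lit 319) (nat_lit 222) (nat_lit 179))) (XT.nd (nat_lit 78) (nat_lit 76) (nat_lit 0) (XT.lf (nat_lit 0) (nat_lit 52235897173) (nat_lit 76) (nat_lit 17755421836) (nat_lit 76) (nat_lit 1420746999) (nat_lit 4) (nat_lit 4) (nat_lit 5) (nat_lit 5) (nat_lit 5) (nat_lit 4) (nat_lit 320) (nat_lit 222) (nat_lit 178)) (XT.nd (nat_lit 78) (nat_lit 0) (nat_lit 0) (XT.lf (nat_lit 0) (nat_lit 1988906911) (nat_lit 152) (nat_lit 12400121713) (nat_lit 76) (nat_lit 60460233371) (nat_lit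 3) (nat_lit 5) (nat_lit 5) (nat_lit 5) (nat_lit 4) (nat_lit 4) (nat_lit 321) (nat_lit 222) (nat_lit 177)) (XT.lf (nat_lit 0) (nat_lit 5501378200) (nat_lit 152) (nat_lit 5367831574) (nat_lit 76) (nat_lit 67589864135) (nat_lit 3) (nat_lit 5) (nat_lit 5) (nat_lit 5) (nat_lit 4) (nat_lit 4) (nat_lit 322) (nat_lit 222) (nat_lit 176)))))) (XT.nd (nat_lit 390) (nat_lit 0) (nat_lit 0) (XT.nd (nat_lit 156) (nat_lit 0) (nat_lit 0) (XT.nd (nat_lit 78) (nat_lit 0) (nat_lit 0) (XT.lf (nat_lit 0) (nat_lit 1989932977) (nat_lit 76) (nat_lit 7181949261) (nat_lit 152) (nat_lit 73078050163) (nat_lit 2) (nat_lit 5) (nat_lit 3) (nat_lit 5) (nat_lit 4) (nat_lit 4) (nat_lit 323) (nat_lit 222) (nat_lit 175)) (XT.lf (nat_lit 0) (nat_lit 9764649172) (nat_lit 76) (nat_lit 3280942027) (nat_lit 152) (nat_lit 73184179137) (nat_lit 2) (nat_lit 5) (nat_lit 3) (nat_lit 5) (nat_lit 4) (nat_lit 4) (nat_lit 324) (nat_lit 222)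 (nat_lit 174))) (XT.nd (nat_lit 78) (nat_lit 0) (nat_lit 0) (XT.lf (nat_lit 0) (nat_lit 17086685746) (nat_lit 152) (nat_lit 72549227775) (nat_lit 0) (nat_lit 773501273) (nat_lit 2) (nat_lit 5) (nat_lit 4) (nat_lit 4) (nat_lit 2) (nat_lit 4) (nat_lit 325) (nat_lit 222) (nat_lit 173)) (XT.nd (nat_lit 78) (nat_lit 0) (nat_lit 0) (XT.lf (nat_lit 0) (nat_lit 21330440598) (nat_lit 152) (nat_lit 68528648768) (nat_lit 0) (nat_lit 4938958351) (nat_lit 2) (nat_lit 5) (nat_lit 4) (nat_lit 4) (nat_lit 2) (nat_lit 4) (nat_lit 326) (nat_lit 222) (nat_lit 172)) (XT.lf (nat_lit 0) (nat_lit 25755421514) (nat_lit 152) (nat_lit 64362272913) (nat_lit 0) (nat_lit 9289369957) (nat_lit 2) (nat_lit 5) (nat_lit 4) (nat_lit 4) (nat_lit 2) (nat_lit 4) (nat_lit 327) (nat_lit 222) (nat_lit 171))))) (XT.nd (nat_lit 234) (nat_lit 0) (nat_lit 0) (XT.nd (nat_lit 78) (nat_lit 0) (nat_lit 0) (XT.lf (nat_lit 0) (nat_lit 30372164161)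 (nat_lit 152) (nat_lit 60040180269) (nat_lit 0) (nat_lit 13835094214) (nat_lit 2) (nat_lit 5) (nat_lit 4) (nat_lit 4) (nat_lit 2) (nat_lit 4) (nat_lit 328) (nat_lit 222) (nat_lit 170)) (XT.nd (nat_lit 78) (nat_lit 0) (nat_lit 0) (XT.lf (nat_lit 0) (nat_lit 35191660784) (nat_lit 152) (nat_lit 55552080138) (nat_lit 0) (nat_lit 18586954275) (nat_lit 2) (nat_lit 5) (nat_lit 4) (nat_lit 4) (nat_lit 2) (nat_lit 4) (nat_lit 329) (nat_lit 222) (nat_lit 169)) (XT.lf (nat_lit 0) (nat_lit 40225386374) (nat_lit 152) (nat_lit 50887286568) (nat_lit 0) (nat_lit 23556264093) (nat_lit 2) (nat_lit 5) (nat_lit 4) (nat_lit 4) (nat_lit 2) (nat_lit 4) (nat_lit 330) (nat_lit 222) (nat_lit 168)))) (XT.nd (nat_lit 33072) (nat_lit 0) (nat_lit 3268) (XT.lf (nat_lit 0) (nat_lit 45485325994) (nat_lit 152) (nat_lit 46034692908) (nat_lit 0) (nat_lit 28754855357) (nat_lit 2) (nat_lit 5) (nat_lit 4) (nat_lit 4) (nat_lit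 2) (nat_lit 4) (nat_lit 331) (nat_lit 222) (nat_lit 167)) (XT.nd (nat_lit 78) (nat_lit 228) (nat_lit 0) (XT.lf (nat_lit 0) (nat_lit 1367641786) (nat_lit 304) (nat_lit 2721542823) (nat_lit 0) (nat_lit 1367641786) (nat_lit 48) (nat_lit 5) (nat_lit 52) (nat_lit 4) (nat_lit 48) (nat_lit 4) (nat_lit 274) (nat_lit 223) (nat_lit 223)) (XT.lf (nat_lit 0) (nat_lit 4638407885) (nat_lit 228) (nat_lit 3904046511) (nat_lit 228) (nat_lit 2697381775) (nat_lit 45) (nat_lit 4) (nat_lit 48) (nat_lit 5) (nat_lit 48) (nat_lit 4) (nat_lit 275) (nat_lit 223) (nat_lit 222))))))))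
noncomputable def xc20 : XT := (XT.nd (nat_lit 1638) (nat_lit 608) (nat_lit 0) (XT.nd (nat_lit 780) (nat_lit 760) (nat_lit 0) (XT.nd (nat_lit 390) (nat_lit 684) (nat_lit 0) (XT.nd (nat_lit 156) (nat_lit 532) (nat_lit 0) (XT.nd (nat_lit 78) (nat_lit 228) (nat_lit 0) (XT.lf (nat_lit 0) (nat_lit 2870803713) (nat_lit 304) (nat_lit 8131254619) (nat_lit 0) (nat_lit 583552018) (nat_lit 41) (nat_lit 5) (nat_lit 45) (nat_lit 4) (nat_lit 41) (nat_lit 4) (nat_lit 276) (nat_lit 223) (nat_lit 221)) (XT.lf (nat_lit 0) (nat_lit 1842342605) (nat_lit 228) (nat_lit 6729208326) (nat_lit 228) (nat_lit 3379354217) (nat_lit 38) (nat_lit 4) (nat_lit 41) (nat_lit 5) (nat_lit 41) (nat_lit 4) (nat_lit 277) (nat_lit 223) (nat_lit 220))) (XT.nd (nat_lit 78) (nat_lit 456) (nat_lit 0) (XT.lf (nat_lit 0) (nat_lit 2052539412) (nat_lit 304) (nat_lit 195201400) (nat_lit 76) (nat_lit 10090197808) (nat_lit 37) (nat_lit 5)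 (nat_lit 41) (nat_lit 5) (nat_lit 38) (nat_lit 4) (nat_lit 278) (nat_lit 223) (nat_lit 219)) (XT.nd (nat_lit 78) (nat_lit 304) (nat_lit 0) (XT.lf (nat_lit 0) (nat_lit 7606008135) (nat_lit 228) (nat_lit 2704550898) (nat_lit 0) (nat_lit 2435456562) (nat_lit 35) (nat_lit 5) (nat_lit 38) (nat_lit 4) (nat_lit 35) (nat_lit 4) (nat_lit 279) (nat_lit 223) (nat_lit 218)) (XT.lf (nat_lit 0) (nat_lit 156718636) (nat_lit 304) (nat_lit 5743593243) (nat_lit 76) (nat_lit 7277402828) (nat_lit 31) (nat_lit 5) (nat_lit 35) (nat_lit 5) (nat_lit 32) (nat_lit 4) (nat_lit 280) (nat_lit 223) (nat_lit 217))))) (XT.nd (nat_lit 156) (nat_lit 380) (nat_lit 0) (XT.nd (nat_lit 78) (nat_lit 152) (nat_lit 0) (XT.lf (nat_lit 0) (nat_lit 4234985708) (nat_lit 152) (nat_lit 1255389227) (nat_lit 228) (nat_lit 8143002080) (nat_lit 29) (nat_lit 5) (nat_lit 31) (nat_lit 5) (nat_lit 32) (nat_lit 4) (nat_lit 281) (nat_lit 223)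 (nat_lit 216)) (XT.lf (nat_lit 0) (nat_lit 397121007) (nat_lit 152) (nat_lit 10605781669) (nat_lit 152) (nat_lit 3111798760) (nat_lit 27) (nat_lit 4) (nat_lit 29) (nat_lit 5) (nat_lit 29) (nat_lit 4) (nat_lit 282) (nat_lit 223) (nat_lit 215))) (XT.nd (nat_lit 78) (nat_lit 304) (nat_lit 0) (XT.lf (nat_lit 0) (nat_lit 2056897793) (nat_lit 228) (nat_lit 4065893227) (nat_lit 76) (nat_lit 8499052328) (nat_lit 26) (nat_lit 5) (nat_lit 29) (nat_lit 5) (nat_lit 27) (nat_lit 4) (nat_lit 283) (nat_lit 223) (nat_lit 214)) (XT.nd (nat_lit 78) (nat_lit 152) (nat_lit 0) (XT.lf (nat_lit 0) (nat_lit 5872503146) (nat_lit 152) (nat_lit 1430807517) (nat_lit 228) (nat_lit 7853813696) (nat_lit 24) (nat_lit 5) (nat_lit 26) (nat_lit 5) (nat_lit 27) (nat_lit 4) (nat_lit 284) (nat_lit 223) (nat_lit 213)) (XT.lf (nat_lit 0) (nat_lit 372821496) (nat_lit 152) (nat_lit 12349928101) (nat_lit 152) (nat_lit 2999303849)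 (nat_lit 22) (nat_lit 4) (nat_lit 24) (nat_lit 5) (nat_lit 24) (nat_lit 4) (nat_lit 285) (nat_lit 223) (nat_lit 212)))))) (XT.nd (nat_lit 390) (nat_lit 380) (nat_lit 0) (XT.nd (nat_lit 156) (nat_lit 228) (nat_lit 0) (XT.nd (nat_lit 78) (nat_lit 76) (nat_lit 0) (XT.lf (nat_lit 0) (nat_lit 2002863897) (nat_lit 228) (nat_lit 5911648708) (nat_lit 76) (nat_lit 8401924993) (nat_lit 21) (nat_lit 5) (nat_lit 24) (nat_lit 5) (nat_lit 22) (nat_lit 4) (nat_lit 286) (nat_lit 223) (nat_lit 211)) (XT.lf (nat_lit 0) (nat_lit 3783377604) (nat_lit 76) (nat_lit 3289444442) (nat_lit 152) (nat_lit 9870617352) (nat_lit 20) (nat_lit 5) (nat_lit 21) (nat_lit 5) (nat_lit 22) (nat_lit 4) (nat_lit 287) (nat_lit 223) (nat_lit 210))) (XT.nd (nat_lit 78) (nat_lit 228) (nat_lit 0) (XT.lf (nat_lit 0) (nat_lit 12319697185) (nat_lit 152) (nat_lit 3783324536) (nat_lit 0) (nat_lit 1501239082) (nat_lit 20) (nat_lit 5) (nat_lit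 22) (nat_lit 4) (nat_lit 20) (nat_lit 4) (nat_lit 288) (nat_lit 223) (nat_lit 209)) (XT.nd (nat_lit 78) (nat_lit 76) (nat_lit 0) (XT.lf (nat_lit 0) (nat_lit 5901944333) (nat_lit 152) (nat_lit 11871096070) (nat_lit 152) (nat_lit 526923038) (nat_lit 18) (nat_lit 4) (nat_lit 20) (nat_lit 5) (nat_lit 20) (nat_lit 4) (nat_lit 289) (nat_lit 223) (nat_lit 208)) (XT.lf (nat_lit 0) (nat_lit 4278053615) (nat_lit 228) (nat_lit 3160405078) (nat_lit 76) (nat_lit 11593955837) (nat_lit 17) (nat_lit 5) (nat_lit 20) (nat_lit 5) (nat_lit 18) (nat_lit 4) (nat_lit 290) (nat_lit 223) (nat_lit 207))))) (XT.nd (nat_lit 234) (nat_lit 152) (nat_lit 0) (XT.nd (nat_lit 78) (nat_lit 152) (nat_lit 0) (XT.lf (nat_lit 0) (nat_lit 6432318777) (nat_lit 76) (nat_lit 2806110598) (nat_lit 152) (nat_lit 10565265175) (nat_lit 16) (nat_lit 5) (nat_lit 17) (nat_lit 5) (nat_lit 18) (nat_lit 4) (nat_lit 291) (nat_lit 223) (nat_lit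 206)) (XT.nd (nat_lit 78) (nat_lit 152) (nat_lit 0) (XT.lf (nat_lit 0) (nat_lit 14367072760) (nat_lit 152) (nat_lit 4285636804) (nat_lit 0) (nat_lit 1963358995) (nat_lit 16) (nat_lit 5) (nat_lit 18) (nat_lit 4) (nat_lit 16) (nat_lit 4) (nat_lit 292) (nat_lit 223) (nat_lit 205)) (XT.lf (nat_lit 0) (nat_lit 5112794673) (nat_lit 152) (nat_lit 14590739686) (nat_lit 152) (nat_lit 1767116238) (nat_lit 14) (nat_lit 4) (nat_lit 16) (nat_lit 5) (nat_lit 16) (nat_lit 4) (nat_lit 293) (nat_lit 223) (nat_lit 204)))) (XT.nd (nat_lit 78) (nat_lit 76) (nat_lit 0) (XT.lf (nat_lit 0) (nat_lit 2802663219) (nat_lit 228) (nat_lit 7534131096) (nat_lit 76) (nat_lit 12032806351) (nat_lit 13) (nat_lit 5) (nat_lit 16) (nat_lit 5) (nat_lit 14) (nat_lit 4) (nat_lit 294) (nat_lit 223) (nat_lit 203)) (XT.nd (nat_lit 78) (nat_lit 0) (nat_lit 0) (XT.lf (nat_lit 0) (nat_lit 1543529673) (nat_lit 76) (nat_lit 5918508536)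 (nat_lit 152) (nat_lit 15854120825) (nat_lit 12) (nat_lit 5) (nat_lit 13) (nat_lit 5) (nat_lit 14) (nat_lit 4) (nat_lit 295) (nat_lit 223) (nat_lit 202)) (XT.lf (nat_lit 0) (nat_lit 11038700079) (nat_lit 76) (nat_lit 1279448562) (nat_lit 152) (nat_lit 11993093467) (nat_lit 12) (nat_lit 5) (nat_lit 13) (nat_lit 5) (nat_lit 14) (nat_lit 4) (nat_lit 296) (nat_lit 223) (nat_lit 201))))))) (XT.nd (nat_lit 780) (nat_lit 228) (nat_lit 0) (XT.nd (nat_lit 390) (nat_lit 76) (nat_lit 0) (XT.nd (nat_lit 156) (nat_lit 152) (nat_lit 0) (XT.nd (nat_lit 78) (nat_lit 152) (nat_lit 0) (XT.lf (nat_lit 0) (nat_lit 17342484358) (nat_lit 152) (nat_lit 4569183074) (nat_lit 0) (nat_lit 3446753873) (nat_lit 12) (nat_lit 5) (nat_lit 14) (nat_lit 4) (nat_lit 12) (nat_lit 4) (nat_lit 297) (nat_lit 223) (nat_lit 200)) (XT.lf (nat_lit 0) (nat_lit 4465269801) (nat_lit 152) (nat_lit 18104694651) (nat_lit 152) (nat_lit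 3889536764) (nat_lit 10) (nat_lit 4) (nat_lit 12) (nat_lit 5) (nat_lit 12) (nat_lit 4) (nat_lit 298) (nat_lit 223) (nat_lit 199))) (XT.nd (nat_lit 78) (nat_lit 76) (nat_lit 0) (XT.lf (nat_lit 0) (nat_lit 380321662) (nat_lit 228) (nat_lit 13747321486) (nat_lit 76) (nat_lit 13489582656) (nat_lit 9) (nat_lit 5) (nat_lit 12) (nat_lit 5) (nat_lit 10) (nat_lit 4) (nat_lit 299) (nat_lit 223) (nat_lit 198)) (XT.nd (nat_lit 78) (nat_lit 76) (nat_lit 0) (XT.lf (nat_lit 0) (nat_lit 4687107699) (nat_lit 228) (nat_lit 5294275900) (nat_lit 76) (nat_lit 18853269120) (nat_lit 9) (nat_lit 5) (nat_lit 12) (nat_lit 5) (nat_lit 10) (nat_lit 4) (nat_lit 300) (nat_lit 223) (nat_lit 197)) (XT.lf (nat_lit 0) (nat_lit 3490533120) (nat_lit 76) (nat_lit 5659994490) (nat_lit 152) (nat_lit 20964268049) (nat_lit 8) (nat_lit 5) (nat_lit 9) (nat_lit 5) (nat_lit 10) (nat_lit 4) (nat_lit 301) (nat_lit 223) (nat_lit 196)))))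 (XT.nd (nat_lit 156) (nat_lit 76) (nat_lit 0) (XT.nd (nat_lit 78) (nat_lit 0) (nat_lit 0) (XT.lf (nat_lit 0) (nat_lit 12670773423) (nat_lit 76) (nat_lit 1131495083) (nat_lit 152) (nat_lit 17657802282) (nat_lit 8) (nat_lit 5) (nat_lit 9) (nat_lit 5) (nat_lit 10) (nat_lit 4) (nat_lit 302) (nat_lit 223) (nat_lit 195)) (XT.lf (nat_lit 0) (nat_lit 18635735984) (nat_lit 152) (nat_lit 10746536720) (nat_lit 0) (nat_lit 3491938534) (nat_lit 8) (nat_lit 5) (nat_lit 10) (nat_lit 4) (nat_lit 8) (nat_lit 4) (nat_lit 303) (nat_lit 223) (nat_lit 194))) (XT.nd (nat_lit 78) (nat_lit 76) (nat_lit 0) (XT.lf (nat_lit 0) (nat_lit 23640686735) (nat_lit 152) (nat_lit 2455079611) (nat_lit 0) (nat_lit 8265470213) (nat_lit 8) (nat_lit 5) (nat_lit 10) (nat_lit 4) (nat_lit 8) (nat_lit 4) (nat_lit 304) (nat_lit 223) (nat_lit 193)) (XT.nd (nat_lit 78) (nat_lit 0) (nat_lit 0) (XT.lf (nat_lit 0) (nat_lit 6237406414) (nat_lit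 76) (nat_lit 22640712040) (nat_lit 76) (nat_lit 7045096400) (nat_lit 7) (nat_lit 4) (nat_lit 8) (nat_lit 5) (nat_lit 8) (nat_lit 4) (nat_lit 305) (nat_lit 223) (nat_lit 192)) (XT.lf (nat_lit 0) (nat_lit 15284439630) (nat_lit 76) (nat_lit 19042968914) (nat_lit 76) (nat_lit 3237449353) (nat_lit 7) (nat_lit 4) (nat_lit 8) (nat_lit 5) (nat_lit 8) (nat_lit 4) (nat_lit 306) (nat_lit 223) (nat_lit 191)))))) (XT.nd (nat_lit 390) (nat_lit 76) (nat_lit 0) (XT.nd (nat_lit 156) (nat_lit 76) (nat_lit 0) (XT.nd (nat_lit 78) (nat_lit 0) (nat_lit 0) (XT.lf (nat_lit 0) (nat_lit 673266332) (nat_lit 152) (nat_lit 14638697403) (nat_lit 76) (nat_lit 23978634691) (nat_lit 6) (nat_lit 5) (nat_lit 8) (nat_lit 5) (nat_lit 7) (nat_lit 4) (nat_lit 307) (nat_lit 223) (nat_lit 190)) (XT.lf (nat_lit 0) (nat_lit 4644163781) (nat_lit 152) (nat_lit 6768164624) (nat_lit 76) (nat_lit 29691445540) (nat_lit 6) (nat_lit 5) (nat_lit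 8) (nat_lit 5) (nat_lit 7) (nat_lit 4) (nat_lit 308) (nat_lit 223) (nat_lit 189))) (XT.nd (nat_lit 78) (nat_lit 0) (nat_lit 0) (XT.lf (nat_lit 0) (nat_lit 1408525175) (nat_lit 76) (nat_lit 7352886242) (nat_lit 152) (nat_lit 34247817547) (nat_lit 5) (nat_lit 5) (nat_lit 6) (nat_lit 5) (nat_lit 7) (nat_lit 4) (nat_lit 309) (nat_lit 223) (nat_lit 188)) (XT.nd (nat_lit 78) (nat_lit 0) (nat_lit 0) (XT.lf (nat_lit 0) (nat_lit 10023921478) (nat_lit 76) (nat_lit 3066595741) (nat_lit 152) (nat_lit 31919311907) (nat_lit 5) (nat_lit 5) (nat_lit 6) (nat_lit 5) (nat_lit 7) (nat_lit 4) (nat_lit 310) (nat_lit 223) (nat_lit 187)) (XT.lf (nat_lit 0) (nat_lit 17588780210) (nat_lit 152) (nat_lit 28161837202) (nat_lit 0) (nat_lit 1361310606) (nat_lit 5) (nat_lit 5) (nat_lit 7) (nat_lit 4) (nat_lit 5) (nat_lit 4) (nat_lit 311) (nat_lit 223) (nat_lit 186))))) (XT.nd (nat_lit 234) (nat_lit 76) (nat_lit 0) (XT.nd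 (nat_lit 78) (nat_lit 0) (nat_lit 0) (XT.lf (nat_lit 0) (nat_lit 22284734269) (nat_lit 152) (nat_lit 21130068389) (nat_lit 0) (nat_lit 5905193269) (nat_lit 5) (nat_lit 5) (nat_lit 7) (nat_lit 4) (nat_lit 5) (nat_lit 4) (nat_lit 312) (nat_lit 223) (nat_lit 185)) (XT.nd (nat_lit 78) (nat_lit 0) (nat_lit 0) (XT.lf (nat_lit 0) (nat_lit 27160082243) (nat_lit 152) (nat_lit 13844380910) (nat_lit 0) (nat_lit 10635711342) (nat_lit 5) (nat_lit 5) (nat_lit 7) (nat_lit 4) (nat_lit 5) (nat_lit 4) (nat_lit 313) (nat_lit 223) (nat_lit 184)) (XT.lf (nat_lit 0) (nat_lit 32226432104) (nat_lit 152) (nat_lit 6287427889) (nat_lit 0) (nat_lit 15564127964) (nat_lit 5) (nat_lit 5) (nat_lit 7) (nat_lit 4) (nat_lit 5) (nat_lit 4) (nat_lit 314) (nat_lit 223) (nat_lit 183)))) (XT.nd (nat_lit 78) (nat_lit 0) (nat_lit 0) (XT.lf (nat_lit 0) (nat_lit 1589806264) (nat_lit 76) (nat_lit 35921322517) (nat_lit 76) (nat_lit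 19127653387) (nat_lit 4) (nat_lit 4) (nat_lit 5) (nat_lit 5) (nat_lit 5) (nat_lit 4) (nat_lit 315) (nat_lit 223) (nat_lit 182)) (XT.nd (nat_lit 78) (nat_lit 0) (nat_lit 0) (XT.lf (nat_lit 0) (nat_lit 9906240908) (nat_lit 76) (nat_lit 33169855866) (nat_lit 76) (nat_lit 16251077222) (nat_lit 4) (nat_lit 4) (nat_lit 5) (nat_lit 5) (nat_lit 5) (nat_lit 4) (nat_lit 316) (nat_lit 223) (nat_lit 181)) (XT.lf (nat_lit 0) (nat_lit 18556544934) (nat_lit 76) (nat_lit 30316399624) (nat_lit 76) (nat_lit 13278469062) (nat_lit 4) (nat_lit 4) (nat_lit 5) (nat_lit 5) (nat_lit 5) (nat_lit 4) (nat_lit 317) (nat_lit 223) (nat_lit 180))))))))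
noncomputable def xc21 : XT := (XT.nd (nat_lit 34476) (nat_lit 0) (nat_lit 608) (XT.nd (nat_lit 780) (nat_lit 0) (nat_lit 0) (XT.nd (nat_lit 390) (nat_lit 76) (nat_lit 0) (XT.nd (nat_lit 156) (nat_lit 76) (nat_lit 0) (XT.nd (nat_lit 78) (nat_lit 0) (nat_lit 0) (XT.lf (nat_lit 0) (nat_lit 27561314304) (nat_lit 76) (nat_lit 27354159847) (nat_lit 76) (nat_lit 10202751268) (nat_lit 4) (nat_lit 4) (nat_lit 5) (nat_lit 5) (nat_lit 5) (nat_lit 4) (nat_lit 318) (nat_lit 223) (nat_lit 179)) (XT.lf (nat_lit 0) (nat_lit 36941988945) (nat_lit 76) (nat_lit 24276083584) (nat_lit 76) (nat_lit 7016600703) (nat_lit 4) (nat_lit 4) (nat_lit 5) (nat_lit 5) (nat_lit 5) (nat_lit 4) (nat_lit 319) (nat_lit 223) (nat_lit 178))) (XT.nd (nat_lit 78) (nat_lit 76) (nat_lit 0) (XT.lf (nat_lit 0) (nat_lit 46720903796) (nat_lit 76) (nat_lit 21074842081) (nat_lit 76) (nat_lit 3712431294) (nat_lit 4) (nat_lit 4) (nat_lit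 5) (nat_lit 5) (nat_lit 5) (nat_lit 4) (nat_lit 320) (nat_lit 223) (nat_lit 177)) (XT.nd (nat_lit 78) (nat_lit 76) (nat_lit 0) (XT.lf (nat_lit 0) (nat_lit 56921341989) (nat_lit 76) (nat_lit 17742813335) (nat_lit 76) (nat_lit 282375970) (nat_lit 4) (nat_lit 4) (nat_lit 5) (nat_lit 5) (nat_lit 5) (nat_lit 4) (nat_lit 321) (nat_lit 223) (nat_lit 176)) (XT.lf (nat_lit 0) (nat_lit 3217693652) (nat_lit 152) (nat_lit 11021877896) (nat_lit 76) (nat_lit 64317404231) (nat_lit 3) (nat_lit 5) (nat_lit 5) (nat_lit 5) (nat_lit 4) (nat_lit 4) (nat_lit 322) (nat_lit 223) (nat_lit 175))))) (XT.nd (nat_lit 156) (nat_lit 0) (nat_lit 0) (XT.nd (nat_lit 78) (nat_lit 76) (nat_lit 0) (XT.lf (nat_lit 0) (nat_lit 6852010344) (nat_lit 152) (nat_lit 3733128008) (nat_lit 76) (nat_lit 71763794667) (nat_lit 3) (nat_lit 5) (nat_lit 5) (nat_lit 5) (nat_lit 4) (nat_lit 4) (nat_lit 323) (nat_lit 223) (nat_lit 174)) (XT.lf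 (nat_lit 0) (nat_lit 3937972931) (nat_lit 76) (nat_lit 6734618685) (nat_lit 152) (nat_lit 75657785671) (nat_lit 2) (nat_lit 5) (nat_lit 3) (nat_lit 5) (nat_lit 4) (nat_lit 4) (nat_lit 324) (nat_lit 223) (nat_lit 173))) (XT.nd (nat_lit 78) (nat_lit 0) (nat_lit 0) (XT.lf (nat_lit 0) (nat_lit 12013399064) (nat_lit 76) (nat_lit 2676962424) (nat_lit 152) (nat_lit 75820371904) (nat_lit 2) (nat_lit 5) (nat_lit 3) (nat_lit 5) (nat_lit 4) (nat_lit 4) (nat_lit 325) (nat_lit 223) (nat_lit 172)) (XT.nd (nat_lit 78) (nat_lit 0) (nat_lit 0) (XT.lf (nat_lit 0) (nat_lit 18893280482) (nat_lit 152) (nat_lit 74477965210) (nat_lit 0) (nat_lit 1529357039) (nat_lit 2) (nat_lit 5) (nat_lit 4) (nat_lit 4) (nat_lit 2) (nat_lit 4) (nat_lit 326) (nat_lit 223) (nat_lit 171)) (XT.lf (nat_lit 0) (nat_lit 23303877342) (nat_lit 152) (nat_lit 70337248869) (nat_lit 0) (nat_lit 5868935508) (nat_lit 2) (nat_lit 5) (nat_lit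 4) (nat_lit 4) (nat_lit 2) (nat_lit 4) (nat_lit 327) (nat_lit 223) (nat_lit 170)))))) (XT.nd (nat_lit 33228) (nat_lit 0) (nat_lit 2660) (XT.nd (nat_lit 156) (nat_lit 0) (nat_lit 0) (XT.nd (nat_lit 78) (nat_lit 0) (nat_lit 0) (XT.lf (nat_lit 0) (nat_lit 27906920888) (nat_lit 152) (nat_lit 66039593857) (nat_lit 0) (nat_lit 10404342493) (nat_lit 2) (nat_lit 5) (nat_lit 4) (nat_lit 4) (nat_lit 2) (nat_lit 4) (nat_lit 328) (nat_lit 223) (nat_lit 169)) (XT.lf (nat_lit 0) (nat_lit 32713370749) (nat_lit 152) (nat_lit 61574767662) (nat_lit 0) (nat_lit 15146376580) (nat_lit 2) (nat_lit 5) (nat_lit 4) (nat_lit 4) (nat_lit 2) (nat_lit 4) (nat_lit 329) (nat_lit 223) (nat_lit 168))) (XT.nd (nat_lit 78) (nat_lit 0) (nat_lit 0) (XT.lf (nat_lit 0) (nat_lit 37734670851) (nat_lit 152) (nat_lit 56932139744) (nat_lit 0) (nat_lit 20106328327) (nat_lit 2) (nat_lit 5) (nat_lit 4) (nat_lit 4) (nat_lit 2) (nat_lit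 4) (nat_lit 330) (nat_lit 223) (nat_lit 167)) (XT.nd (nat_lit 32916) (nat_lit 0) (nat_lit 4104) (XT.lf (nat_lit 0) (nat_lit 42982776673) (nat_lit 152) (nat_lit 52100656229) (nat_lit 0) (nat_lit 25296007143) (nat_lit 2) (nat_lit 5) (nat_lit 4) (nat_lit 4) (nat_lit 2) (nat_lit 4) (nat_lit 331) (nat_lit 223) (nat_lit 166)) (XT.lf (nat_lit 0) (nat_lit 1587700980) (nat_lit 304) (nat_lit 1980608390) (nat_lit 0) (nat_lit 1587700980) (nat_lit 56) (nat_lit 5) (nat_lit 60) (nat_lit 4) (nat_lit 56) (nat_lit 4) (nat_lit 272) (nat_lit 224) (nat_lit 224))))) (XT.nd (nat_lit 234) (nat_lit 608) (nat_lit 0) (XT.nd (nat_lit 78) (nat_lit 532) (nat_lit 0) (XT.lf (nat_lit 0) (nat_lit 5978807451) (nat_lit 304) (nat_lit 2966044841) (nat_lit 304) (nat_lit 1661036929) (nat_lit 52) (nat_lit 4) (nat_lit 56) (nat_lit 5) (nat_lit 56) (nat_lit 4) (nat_lit 273) (nat_lit 224) (nat_lit 223)) (XT.nd (nat_lit 78) (nat_lit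 228) (nat_lit 0) (XT.lf (nat_lit 0) (nat_lit 3891107072) (nat_lit 304) (nat_lit 5608620095) (nat_lit 0) (nat_lit 1417444363) (nat_lit 48) (nat_lit 5) (nat_lit 52) (nat_lit 4) (nat_lit 48) (nat_lit 4) (nat_lit 274) (nat_lit 224) (nat_lit 222)) (XT.lf (nat_lit 0) (nat_lit 4308789541) (nat_lit 228) (nat_lit 5280439409) (nat_lit 228) (nat_lit 1657572190) (nat_lit 45) (nat_lit 4) (nat_lit 48) (nat_lit 5) (nat_lit 48) (nat_lit 4) (nat_lit 275) (nat_lit 224) (nat_lit 221)))) (XT.nd (nat_lit 78) (nat_lit 304) (nat_lit 0) (XT.lf (nat_lit 0) (nat_lit 2948326443) (nat_lit 228) (nat_lit 827867718) (nat_lit 304) (nat_lit 7819666754) (nat_lit 41) (nat_lit 5) (nat_lit 44) (nat_lit 5) (nat_lit 45) (nat_lit 4) (nat_lit 276) (nat_lit 224) (nat_lit 220)) (XT.nd (nat_lit 78) (nat_lit 76) (nat_lit 0) (XT.lf (nat_lit 0) (nat_lit 1167282095) (nat_lit 228) (nat_lit 8194713706) (nat_lit 228) (nat_lit 2602762179)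 (nat_lit 38) (nat_lit 4) (nat_lit 41) (nat_lit 5) (nat_lit 41) (nat_lit 4) (nat_lit 277) (nat_lit 224) (nat_lit 219)) (XT.lf (nat_lit 0) (nat_lit 2715725059) (nat_lit 304) (nat_lit 1042841368) (nat_lit 76) (nat_lit 8596090941) (nat_lit 37) (nat_lit 5) (nat_lit 41) (nat_lit 5) (nat_lit 38) (nat_lit 4) (nat_lit 278) (nat_lit 224) (nat_lit 218))))))) (XT.nd (nat_lit 780) (nat_lit 760) (nat_lit 0) (XT.nd (nat_lit 390) (nat_lit 456) (nat_lit 0) (XT.nd (nat_lit 156) (nat_lit 380) (nat_lit 0) (XT.nd (nat_lit 78) (nat_lit 304) (nat_lit 0) (XT.lf (nat_lit 0) (nat_lit 8150793108) (nat_lit 228) (nat_lit 3720834854) (nat_lit 0) (nat_lit 894793927) (nat_lit 35) (nat_lit 5) (nat_lit 38) (nat_lit 4) (nat_lit 35) (nat_lit 4) (nat_lit 279) (nat_lit 224) (nat_lit 217)) (XT.lf (nat_lit 0) (nat_lit 567428468) (nat_lit 304) (nat_lit 6952862726) (nat_lit 76) (nat_lit 5680906990) (nat_lit 31) (nat_lit 5) (nat_lit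 35) (nat_lit 5) (nat_lit 32) (nat_lit 4) (nat_lit 280) (nat_lit 224) (nat_lit 216))) (XT.nd (nat_lit 78) (nat_lit 228) (nat_lit 0) (XT.lf (nat_lit 0) (nat_lit 2858754051) (nat_lit 152) (nat_lit 2940173807) (nat_lit 228) (nat_lit 7861116685) (nat_lit 29) (nat_lit 5) (nat_lit 31) (nat_lit 5) (nat_lit 32) (nat_lit 4) (nat_lit 281) (nat_lit 224) (nat_lit 215)) (XT.nd (nat_lit 78) (nat_lit 228) (nat_lit 0) (XT.lf (nat_lit 0) (nat_lit 11204960298) (nat_lit 228) (nat_lit 1135635267) (nat_lit 0) (nat_lit 1804081922) (nat_lit 29) (nat_lit 5) (nat_lit 32) (nat_lit 4) (nat_lit 29) (nat_lit 4) (nat_lit 282) (nat_lit 224) (nat_lit 214)) (XT.lf (nat_lit 0) (nat_lit 2129787235) (nat_lit 228) (nat_lit 5789232039) (nat_lit 76) (nat_lit 6735730622) (nat_lit 26) (nat_lit 5) (nat_lit 29) (nat_lit 5) (nat_lit 27) (nat_lit 4) (nat_lit 283) (nat_lit 224) (nat_lit 213))))) (XT.nd (nat_lit 156) (nat_lit 304) (nat_lit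 0) (XT.nd (nat_lit 78) (nat_lit 0) (nat_lit 0) (XT.lf (nat_lit 0) (nat_lit 3982641382) (nat_lit 152) (nat_lit 3294830040) (nat_lit 228) (nat_lit 7915621437) (nat_lit 24) (nat_lit 5) (nat_lit 26) (nat_lit 5) (nat_lit 27) (nat_lit 4) (nat_lit 284) (nat_lit 224) (nat_lit 212)) (XT.lf (nat_lit 0) (nat_lit 12597010727) (nat_lit 228) (nat_lit 1670266514) (nat_lit 0) (nat_lit 1493837020) (nat_lit 24) (nat_lit 5) (nat_lit 27) (nat_lit 4) (nat_lit 24) (nat_lit 4) (nat_lit 285) (nat_lit 224) (nat_lit 211))) (XT.nd (nat_lit 78) (nat_lit 76) (nat_lit 0) (XT.lf (nat_lit 0) (nat_lit 1748043954) (nat_lit 228) (nat_lit 8151633211) (nat_lit 76) (nat_lit 6458753996) (nat_lit 21) (nat_lit 5) (nat_lit 24) (nat_lit 5) (nat_lit 22) (nat_lit 4) (nat_lit 286) (nat_lit 224) (nat_lit 210)) (XT.nd (nat_lit 78) (nat_lit 0) (nat_lit 0) (XT.lf (nat_lit 0) (nat_lit 1376571326) (nat_lit 76) (nat_lit 5345248604) (nat_lit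 152) (nat_lit 10266582441) (nat_lit 20) (nat_lit 5) (nat_lit 21) (nat_lit 5) (nat_lit 22) (nat_lit 4) (nat_lit 287) (nat_lit 224) (nat_lit 209)) (XT.lf (nat_lit 0) (nat_lit 11312868904) (nat_lit 76) (nat_lit 570420955) (nat_lit 152) (nat_lit 5768576021) (nat_lit 20) (nat_lit 5) (nat_lit 21) (nat_lit 5) (nat_lit 22) (nat_lit 4) (nat_lit 288) (nat_lit 224) (nat_lit 208)))))) (XT.nd (nat_lit 390) (nat_lit 304) (nat_lit 0) (XT.nd (nat_lit 156) (nat_lit 228) (nat_lit 0) (XT.nd (nat_lit 78) (nat_lit 76) (nat_lit 0) (XT.lf (nat_lit 0) (nat_lit 3186207412) (nat_lit 152) (nat_lit 14051097299) (nat_lit 152) (nat_lit 1113319800) (nat_lit 18) (nat_lit 4) (nat_lit 20) (nat_lit 5) (nat_lit 20) (nat_lit 4) (nat_lit 289) (nat_lit 224) (nat_lit 207)) (XT.lf (nat_lit 0) (nat_lit 3636814281) (nat_lit 228) (nat_lit 6031883445) (nat_lit 76) (nat_lit 9416605938) (nat_lit 17) (nat_lit 5) (nat_lit 20) (nat_lit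 5) (nat_lit 18) (nat_lit 4) (nat_lit 290) (nat_lit 224) (nat_lit 206))) (XT.nd (nat_lit 78) (nat_lit 152) (nat_lit 0) (XT.lf (nat_lit 0) (nat_lit 3396148865) (nat_lit 76) (nat_lit 5108726811) (nat_lit 152) (nat_lit 11354544490) (nat_lit 16) (nat_lit 5) (nat_lit 17) (nat_lit 5) (nat_lit 18) (nat_lit 4) (nat_lit 291) (nat_lit 224) (nat_lit 205)) (XT.nd (nat_lit 78) (nat_lit 152) (nat_lit 0) (XT.lf (nat_lit 0) (nat_lit 13211665544) (nat_lit 76) (nat_lit 341497645) (nat_lit 152) (nat_lit 7121105519) (nat_lit 16) (nat_lit 5) (nat_lit 17) (nat_lit 5) (nat_lit 18) (nat_lit 4) (nat_lit 292) (nat_lit 224) (nat_lit 204)) (XT.lf (nat_lit 0) (nat_lit 1775005075) (nat_lit 152) (nat_lit 17020676535) (nat_lit 152) (nat_lit 2736048248) (nat_lit 14) (nat_lit 4) (nat_lit 16) (nat_lit 5) (nat_lit 16) (nat_lit 4) (nat_lit 293) (nat_lit 224) (nat_lit 203))))) (XT.nd (nat_lit 234) (nat_lit 152) (nat_lit 0) (XT.nd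 (nat_lit 78) (nat_lit 76) (nat_lit 0) (XT.lf (nat_lit 0) (nat_lit 1795309856) (nat_lit 228) (nat_lit 11021019739) (nat_lit 76) (nat_lit 9616405845) (nat_lit 13) (nat_lit 5) (nat_lit 16) (nat_lit 5) (nat_lit 14) (nat_lit 4) (nat_lit 294) (nat_lit 224) (nat_lit 202)) (XT.nd (nat_lit 78) (nat_lit 76) (nat_lit 0) (XT.lf (nat_lit 0) (nat_lit 6385248726) (nat_lit 228) (nat_lit 2066177604) (nat_lit 76) (nat_lit 14930004117) (nat_lit 13) (nat_lit 5) (nat_lit 16) (nat_lit 5) (nat_lit 14) (nat_lit 4) (nat_lit 295) (nat_lit 224) (nat_lit 201)) (XT.lf (nat_lit 0) (nat_lit 7297830197) (nat_lit 76) (nat_lit 3870407956) (nat_lit 152) (nat_lit 13210520004) (nat_lit 12) (nat_lit 5) (nat_lit 13) (nat_lit 5) (nat_lit 14) (nat_lit 4) (nat_lit 296) (nat_lit 224) (nat_lit 200)))) (XT.nd (nat_lit 78) (nat_lit 152) (nat_lit 0) (XT.lf (nat_lit 0) (nat_lit 16116980618) (nat_lit 152) (nat_lit 8439635675) (nat_lit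 0) (nat_lit 871637435) (nat_lit 12) (nat_lit 5) (nat_lit 14) (nat_lit 4) (nat_lit 12) (nat_lit 4) (nat_lit 297) (nat_lit 224) (nat_lit 199)) (XT.nd (nat_lit 78) (nat_lit 0) (nat_lit 0) (XT.lf (nat_lit 0) (nat_lit 433308099) (nat_lit 152) (nat_lit 20824121251) (nat_lit 152) (nat_lit 5274561493) (nat_lit 10) (nat_lit 4) (nat_lit 12) (nat_lit 5) (nat_lit 12) (nat_lit 4) (nat_lit 298) (nat_lit 224) (nat_lit 198)) (XT.lf (nat_lit 0) (nat_lit 9761326448) (nat_lit 152) (nat_lit 16884618590) (nat_lit 152) (nat_lit 1045328763) (nat_lit 10) (nat_lit 4) (nat_lit 12) (nat_lit 5) (nat_lit 12) (nat_lit 4) (nat_lit 299) (nat_lit 224) (nat_lit 197))))))))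
noncomputable def xc22 : XT := (XT.nd (nat_lit 1638) (nat_lit 152) (nat_lit 0) (XT.nd (nat_lit 780) (nat_lit 152) (nat_lit 0) (XT.nd (nat_lit 390) (nat_lit 152) (nat_lit 0) (XT.nd (nat_lit 156) (nat_lit 76) (nat_lit 0) (XT.nd (nat_lit 78) (nat_lit 0) (nat_lit 0) (XT.lf (nat_lit 0) (nat_lit 3236851223) (nat_lit 228) (nat_lit 9544415242) (nat_lit 76) (nat_lit 16129126566) (nat_lit 9) (nat_lit 5) (nat_lit 12) (nat_lit 5) (nat_lit 10) (nat_lit 4) (nat_lit 300) (nat_lit 224) (nat_lit 196)) (XT.lf (nat_lit 0) (nat_lit 7623856873) (nat_lit 228) (nat_lit 901587487) (nat_lit 76) (nat_lit 21667422840) (nat_lit 9) (nat_lit 5) (nat_lit 12) (nat_lit 5) (nat_lit 10) (nat_lit 4) (nat_lit 301) (nat_lit 224) (nat_lit 195))) (XT.nd (nat_lit 78) (nat_lit 0) (nat_lit 0) (XT.lf (nat_lit 0) (nat_lit 8188958485) (nat_lit 76) (nat_lit 4036290359) (nat_lit 152) (nat_lit 19314440905) (nat_lit 8) (nat_lit 5) (nat_lit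 9) (nat_lit 5) (nat_lit 10) (nat_lit 4) (nat_lit 302) (nat_lit 224) (nat_lit 194)) (XT.nd (nat_lit 78) (nat_lit 0) (nat_lit 0) (XT.lf (nat_lit 0) (nat_lit 16990983626) (nat_lit 152) (nat_lit 15349326542) (nat_lit 0) (nat_lit 615587204) (nat_lit 8) (nat_lit 5) (nat_lit 10) (nat_lit 4) (nat_lit 8) (nat_lit 4) (nat_lit 303) (nat_lit 224) (nat_lit 193)) (XT.lf (nat_lit 0) (nat_lit 21958020068) (nat_lit 152) (nat_lit 7123849044) (nat_lit 0) (nat_lit 5362224528) (nat_lit 8) (nat_lit 5) (nat_lit 10) (nat_lit 4) (nat_lit 8) (nat_lit 4) (nat_lit 304) (nat_lit 224) (nat_lit 192))))) (XT.nd (nat_lit 156) (nat_lit 76) (nat_lit 0) (XT.nd (nat_lit 78) (nat_lit 0) (nat_lit 0) (XT.lf (nat_lit 0) (nat_lit 1411630995) (nat_lit 76) (nat_lit 25701323618) (nat_lit 76) (nat_lit 8895624157) (nat_lit 7) (nat_lit 4) (nat_lit 8) (nat_lit 5) (nat_lit 8) (nat_lit 4) (nat_lit 305) (nat_lit 224) (nat_lit 191)) (XT.lf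 (nat_lit 0) (nat_lit 10397627717) (nat_lit 76) (nat_lit 22129640869) (nat_lit 76) (nat_lit 5124032912) (nat_lit 7) (nat_lit 4) (nat_lit 8) (nat_lit 5) (nat_lit 8) (nat_lit 4) (nat_lit 306) (nat_lit 224) (nat_lit 190))) (XT.nd (nat_lit 78) (nat_lit 76) (nat_lit 0) (XT.lf (nat_lit 0) (nat_lit 19713757785) (nat_lit 76) (nat_lit 18430253767) (nat_lit 76) (nat_lit 1234256765) (nat_lit 7) (nat_lit 4) (nat_lit 8) (nat_lit 5) (nat_lit 8) (nat_lit 4) (nat_lit 307) (nat_lit 224) (nat_lit 189)) (XT.nd (nat_lit 78) (nat_lit 0) (nat_lit 0) (XT.lf (nat_lit 0) (nat_lit 2728659970) (nat_lit 152) (nat_lit 11838140160) (nat_lit 76) (nat_lit 26625988376) (nat_lit 6) (nat_lit 5) (nat_lit 8) (nat_lit 5) (nat_lit 7) (nat_lit 4) (nat_lit 308) (nat_lit 224) (nat_lit 188)) (XT.lf (nat_lit 0) (nat_lit 6801829420) (nat_lit 152) (nat_lit 3742294653) (nat_lit 76) (nat_lit 32555467293) (nat_lit 6) (nat_lit 5) (nat_lit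 8) (nat_lit 5) (nat_lit 7) (nat_lit 4) (nat_lit 309) (nat_lit 224) (nat_lit 187)))))) (XT.nd (nat_lit 390) (nat_lit 76) (nat_lit 0) (XT.nd (nat_lit 156) (nat_lit 0) (nat_lit 0) (XT.nd (nat_lit 78) (nat_lit 0) (nat_lit 0) (XT.lf (nat_lit 0) (nat_lit 4746793277) (nat_lit 76) (nat_lit 6317870204) (nat_lit 152) (nat_lit 34037540482) (nat_lit 5) (nat_lit 5) (nat_lit 6) (nat_lit 5) (nat_lit 7) (nat_lit 4) (nat_lit 310) (nat_lit 224) (nat_lit 186)) (XT.lf (nat_lit 0) (nat_lit 13637347878) (nat_lit 76) (nat_lit 1884058529) (nat_lit 152) (nat_lit 31684165177) (nat_lit 5) (nat_lit 5) (nat_lit 6) (nat_lit 5) (nat_lit 7) (nat_lit 4) (nat_lit 311) (nat_lit 224) (nat_lit 185))) (XT.nd (nat_lit 78) (nat_lit 0) (nat_lit 0) (XT.lf (nat_lit 0) (nat_lit 20172223505) (nat_lit 152) (nat_lit 26565987962) (nat_lit 0) (nat_lit 2676804158) (nat_lit 5) (nat_lit 5) (nat_lit 7) (nat_lit 4) (nat_lit 5) (nat_lit 4) (nat_lit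 312) (nat_lit 224) (nat_lit 184)) (XT.nd (nat_lit 78) (nat_lit 0) (nat_lit 0) (XT.lf (nat_lit 0) (nat_lit 25021832206) (nat_lit 152) (nat_lit 19325675523) (nat_lit 0) (nat_lit 7388479619) (nat_lit 5) (nat_lit 5) (nat_lit 7) (nat_lit 4) (nat_lit 5) (nat_lit 4) (nat_lit 313) (nat_lit 224) (nat_lit 183)) (XT.lf (nat_lit 0) (nat_lit 30063668473) (nat_lit 152) (nat_lit 11811936827) (nat_lit 0) (nat_lit 12298950897) (nat_lit 5) (nat_lit 5) (nat_lit 7) (nat_lit 4) (nat_lit 5) (nat_lit 4) (nat_lit 314) (nat_lit 224) (nat_lit 182))))) (XT.nd (nat_lit 234) (nat_lit 0) (nat_lit 0) (XT.nd (nat_lit 78) (nat_lit 76) (nat_lit 0) (XT.lf (nat_lit 0) (nat_lit 35309736679) (nat_lit 152) (nat_lit 4006882018) (nat_lit 0) (nat_lit 17419909589) (nat_lit 5) (nat_lit 5) (nat_lit 7) (nat_lit 4) (nat_lit 5) (nat_lit 4) (nat_lit 315) (nat_lit 224) (nat_lit 181)) (XT.nd (nat_lit 78) (nat_lit 0) (nat_lit 0) (XT.lf (nat_lit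 0) (nat_lit 4189831060) (nat_lit 76) (nat_lit 36622971621) (nat_lit 76) (nat_lit 18613992613) (nat_lit 4) (nat_lit 4) (nat_lit 5) (nat_lit 5) (nat_lit 5) (nat_lit 4) (nat_lit 316) (nat_lit 224) (nat_lit 180)) (XT.lf (nat_lit 0) (nat_lit 12802061985) (nat_lit 76) (nat_lit 33786046733) (nat_lit 76) (nat_lit 15663589709) (nat_lit 4) (nat_lit 4) (nat_lit 5) (nat_lit 5) (nat_lit 5) (nat_lit 4) (nat_lit 317) (nat_lit 224) (nat_lit 179)))) (XT.nd (nat_lit 78) (nat_lit 0) (nat_lit 0) (XT.lf (nat_lit 0) (nat_lit 21770571259) (nat_lit 76) (nat_lit 30839551104) (nat_lit 76) (nat_lit 12609019777) (nat_lit 4) (nat_lit 4) (nat_lit 5) (nat_lit 5) (nat_lit 5) (nat_lit 4) (nat_lit 318) (nat_lit 224) (nat_lit 178)) (XT.nd (nat_lit 78) (nat_lit 0) (nat_lit 0) (XT.lf (nat_lit 0) (nat_lit 31116712474) (nat_lit 76) (nat_lit 27776469267) (nat_lit 76) (nat_lit 9443010034) (nat_lit 4) (nat_lit 4) (nat_lit 5) (nat_lit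 5) (nat_lit 5) (nat_lit 4) (nat_lit 319) (nat_lit 224) (nat_lit 177)) (XT.lf (nat_lit 0) (nat_lit 40862738349) (nat_lit 76) (nat_lit 24589508171) (nat_lit 76) (nat_lit 6158022359) (nat_lit 4) (nat_lit 4) (nat_lit 5) (nat_lit 5) (nat_lit 5) (nat_lit 4) (nat_lit 320) (nat_lit 224) (nat_lit 176))))))) (XT.nd (nat_lit 780) (nat_lit 0) (nat_lit 0) (XT.nd (nat_lit 390) (nat_lit 0) (nat_lit 0) (XT.nd (nat_lit 156) (nat_lit 76) (nat_lit 0) (XT.nd (nat_lit 78) (nat_lit 76) (nat_lit 0) (XT.lf (nat_lit 0) (nat_lit 51031853707) (nat_lit 76) (nat_lit 21271079812) (nat_lit 76) (nat_lit 2746235355) (nat_lit 4) (nat_lit 4) (nat_lit 5) (nat_lit 5) (nat_lit 5) (nat_lit 4) (nat_lit 321) (nat_lit 224) (nat_lit 175)) (XT.lf (nat_lit 0) (nat_lit 784854145) (nat_lit 152) (nat_lit 17020503537) (nat_lit 76) (nat_lit 60855491094) (nat_lit 3) (nat_lit 5) (nat_lit 5) (nat_lit 5) (nat_lit 4) (nat_lit 4) (nat_lit 322)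 (nat_lit 224) (nat_lit 174))) (XT.nd (nat_lit 78) (nat_lit 76) (nat_lit 0) (XT.lf (nat_lit 0) (nat_lit 4402924271) (nat_lit 152) (nat_lit 9760500224) (nat_lit 76) (nat_lit 68289881419) (nat_lit 3) (nat_lit 5) (nat_lit 5) (nat_lit 5) (nat_lit 4) (nat_lit 4) (nat_lit 323) (nat_lit 224) (nat_lit 173)) (XT.nd (nat_lit 78) (nat_lit 76) (nat_lit 0) (XT.lf (nat_lit 0) (nat_lit 8170178420) (nat_lit 152) (nat_lit 2193621011) (nat_lit 76) (nat_lit 76072562473) (nat_lit 3) (nat_lit 5) (nat_lit 5) (nat_lit 5) (nat_lit 4) (nat_lit 4) (nat_lit 324) (nat_lit 224) (nat_lit 172)) (XT.lf (nat_lit 0) (nat_lit 5811554848) (nat_lit 76) (nat_lit 6339895615) (nat_lit 152) (nat_lit 78466373822) (nat_lit 2) (nat_lit 5) (nat_lit 3) (nat_lit 5) (nat_lit 4) (nat_lit 4) (nat_lit 325) (nat_lit 224) (nat_lit 171))))) (XT.nd (nat_lit 156) (nat_lit 0) (nat_lit 0) (XT.nd (nat_lit 78) (nat_lit 0) (nat_lit 0) (XT.lf (nat_lit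 0) (nat_lit 14210910227) (nat_lit 76) (nat_lit 2114187684) (nat_lit 152) (nat_lit 78683484658) (nat_lit 2) (nat_lit 5) (nat_lit 3) (nat_lit 5) (nat_lit 4) (nat_lit 4) (nat_lit 326) (nat_lit 224) (nat_lit 170)) (XT.lf (nat_lit 0) (nat_lit 20701672806) (nat_lit 152) (nat_lit 76661070769) (nat_lit 0) (nat_lit 2256328928) (nat_lit 2) (nat_lit 5) (nat_lit 4) (nat_lit 4) (nat_lit 2) (nat_lit 4) (nat_lit 327) (nat_lit 224) (nat_lit 169))) (XT.nd (nat_lit 78) (nat_lit 0) (nat_lit 0) (XT.lf (nat_lit 0) (nat_lit 25291669589) (nat_lit 152) (nat_lit 72386689692) (nat_lit 0) (nat_lit 6781909939) (nat_lit 2) (nat_lit 5) (nat_lit 4) (nat_lit 4) (nat_lit 2) (nat_lit 4) (nat_lit 328) (nat_lit 224) (nat_lit 168)) (XT.nd (nat_lit 78) (nat_lit 0) (nat_lit 0) (XT.lf (nat_lit 0) (nat_lit 30085693961) (nat_lit 152) (nat_lit 67944029149) (nat_lit 0) (nat_lit 11514585956) (nat_lit 2) (nat_lit 5) (nat_lit 4) (nat_lit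 4) (nat_lit 2) (nat_lit 4) (nat_lit 329) (nat_lit 224) (nat_lit 167)) (XT.lf (nat_lit 0) (nat_lit 35095160266) (nat_lit 152) (nat_lit 63322511377) (nat_lit 0) (nat_lit 16465625255) (nat_lit 2) (nat_lit 5) (nat_lit 4) (nat_lit 4) (nat_lit 2) (nat_lit 4) (nat_lit 330) (nat_lit 224) (nat_lit 166)))))) (XT.nd (nat_lit 33072) (nat_lit 0) (nat_lit 2508) (XT.nd (nat_lit 32838) (nat_lit 0) (nat_lit 3800) (XT.nd (nat_lit 32760) (nat_lit 0) (nat_lit 4712) (XT.lf (nat_lit 0) (nat_lit 40331995803) (nat_lit 152) (nat_lit 58511132763) (nat_lit 0) (nat_lit 21646816025) (nat_lit 2) (nat_lit 5) (nat_lit 4) (nat_lit 4) (nat_lit 2) (nat_lit 4) (nat_lit 331) (nat_lit 224) (nat_lit 165)) (XT.lf (nat_lit 0) (nat_lit 1628000404) (nat_lit 380) (nat_lit 1629420516) (nat_lit 0) (nat_lit 1628000404) (nat_lit 64) (nat_lit 5) (nat_lit 69) (nat_lit 4) (nat_lit 64) (nat_lit 4) (nat_lit 270) (nat_lit 225) (nat_lit 225)))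 (XT.nd (nat_lit 78) (nat_lit 608) (nat_lit 0) (XT.lf (nat_lit 0) (nat_lit 6475655820) (nat_lit 304) (nat_lit 2485529149) (nat_lit 304) (nat_lit 1074163092) (nat_lit 60) (nat_lit 4) (nat_lit 64) (nat_lit 5) (nat_lit 64) (nat_lit 4) (nat_lit 271) (nat_lit 225) (nat_lit 224)) (XT.nd (nat_lit 78) (nat_lit 304) (nat_lit 0) (XT.lf (nat_lit 0) (nat_lit 4433991453) (nat_lit 304) (nat_lit 4122852538) (nat_lit 0) (nat_lit 1758725234) (nat_lit 56) (nat_lit 5) (nat_lit 60) (nat_lit 4) (nat_lit 56) (nat_lit 4) (nat_lit 272) (nat_lit 225) (nat_lit 223)) (XT.lf (nat_lit 0) (nat_lit 5656952323) (nat_lit 304) (nat_lit 4437044339) (nat_lit 304) (nat_lit 518913442) (nat_lit 52) (nat_lit 4) (nat_lit 56) (nat_lit 5) (nat_lit 56) (nat_lit 4) (nat_lit 273) (nat_lit 225) (nat_lit 222))))) (XT.nd (nat_lit 234) (nat_lit 456) (nat_lit 0) (XT.nd (nat_lit 78) (nat_lit 532) (nat_lit 0) (XT.lf (nat_lit 0) (nat_lit 4821456640)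 (nat_lit 228) (nat_lit 66852809) (nat_lit 304) (nat_lit 6039407389) (nat_lit 48) (nat_lit 5) (nat_lit 51) (nat_lit 5) (nat_lit 52) (nat_lit 4) (nat_lit 274) (nat_lit 225) (nat_lit 221)) (XT.nd (nat_lit 78) (nat_lit 304) (nat_lit 0) (XT.lf (nat_lit 0) (nat_lit 3648768047) (nat_lit 228) (nat_lit 6829837594) (nat_lit 228) (nat_lit 782142018) (nat_lit 45) (nat_lit 4) (nat_lit 48) (nat_lit 5) (nat_lit 48) (nat_lit 4) (nat_lit 275) (nat_lit 225) (nat_lit 220)) (XT.lf (nat_lit 0) (nat_lit 2101461707) (nat_lit 228) (nat_lit 2426380485) (nat_lit 304) (nat_lit 7085067667) (nat_lit 41) (nat_lit 5) (nat_lit 44) (nat_lit 5) (nat_lit 45) (nat_lit 4) (nat_lit 276) (nat_lit 225) (nat_lit 219)))) (XT.nd (nat_lit 78) (nat_lit 228) (nat_lit 0) (XT.lf (nat_lit 0) (nat_lit 152682698) (nat_lit 228) (nat_lit 9840129431) (nat_lit 228) (nat_lit 1992766317) (nat_lit 38) (nat_lit 4) (nat_lit 41) (nat_lit 5) (nat_lit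 41) (nat_lit 4) (nat_lit 277) (nat_lit 225) (nat_lit 218)) (XT.nd (nat_lit 78) (nat_lit 152) (nat_lit 0) (XT.lf (nat_lit 0) (nat_lit 3220244102) (nat_lit 304) (nat_lit 2228183502) (nat_lit 76) (nat_lit 6929817053) (nat_lit 37) (nat_lit 5) (nat_lit 41) (nat_lit 5) (nat_lit 38) (nat_lit 4) (nat_lit 278) (nat_lit 225) (nat_lit 217)) (XT.lf (nat_lit 0) (nat_lit 7705760726) (nat_lit 152) (nat_lit 838695132) (nat_lit 228) (nat_lit 4249008080) (nat_lit 35) (nat_lit 5) (nat_lit 37) (nat_lit 5) (nat_lit 38) (nat_lit 4) (nat_lit 279) (nat_lit 225) (nat_lit 216))))))))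
noncomputable def xc23 : XT := (XT.nd (nat_lit 1638) (nat_lit 380) (nat_lit 0) (XT.nd (nat_lit 780) (nat_lit 684) (nat_lit 0) (XT.nd (nat_lit 390) (nat_lit 456) (nat_lit 0) (XT.nd (nat_lit 156) (nat_lit 380) (nat_lit 0) (XT.nd (nat_lit 78) (nat_lit 152) (nat_lit 0) (XT.lf (nat_lit 0) (nat_lit 816371950) (nat_lit 304) (nat_lit 8509814904) (nat_lit 76) (nat_lit 3905382692) (nat_lit 31) (nat_lit 5) (nat_lit 35) (nat_lit 5) (nat_lit 32) (nat_lit 4) (nat_lit 280) (nat_lit 225) (nat_lit 215)) (XT.lf (nat_lit 0) (nat_lit 1134724672) (nat_lit 152) (nat_lit 4811881170) (nat_lit 228) (nat_lit 7746961691) (nat_lit 29) (nat_lit 5) (nat_lit 31) (nat_lit 5) (nat_lit 32) (nat_lit 4) (nat_lit 281) (nat_lit 225) (nat_lit 214))) (XT.nd (nat_lit 78) (nat_lit 380) (nat_lit 0) (XT.lf (nat_lit 0) (nat_lit 11173620246) (nat_lit 152) (nat_lit 79424994) (nat_lit 228) (nat_lit 2928251277) (nat_lit 29) (nat_lit 5)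 (nat_lit 31) (nat_lit 5) (nat_lit 32) (nat_lit 4) (nat_lit 282) (nat_lit 225) (nat_lit 213)) (XT.nd (nat_lit 78) (nat_lit 152) (nat_lit 0) (XT.lf (nat_lit 0) (nat_lit 2041168690) (nat_lit 228) (nat_lit 7864509923) (nat_lit 76) (nat_lit 4788782921) (nat_lit 26) (nat_lit 5) (nat_lit 29) (nat_lit 5) (nat_lit 27) (nat_lit 4) (nat_lit 283) (nat_lit 225) (nat_lit 212)) (XT.lf (nat_lit 0) (nat_lit 1740132704) (nat_lit 152) (nat_lit 5350437927) (nat_lit 228) (nat_lit 8145277659) (nat_lit 24) (nat_lit 5) (nat_lit 26) (nat_lit 5) (nat_lit 27) (nat_lit 4) (nat_lit 284) (nat_lit 225) (nat_lit 211))))) (XT.nd (nat_lit 156) (nat_lit 228) (nat_lit 0) (XT.nd (nat_lit 78) (nat_lit 228) (nat_lit 0) (XT.lf (nat_lit 0) (nat_lit 11743491802) (nat_lit 152) (nat_lit 577747543) (nat_lit 228) (nat_lit 3485387250) (nat_lit 24) (nat_lit 5) (nat_lit 26) (nat_lit 5) (nat_lit 27) (nat_lit 4) (nat_lit 285) (nat_lit 225)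 (nat_lit 210)) (XT.lf (nat_lit 0) (nat_lit 1330737735) (nat_lit 228) (nat_lit 10749322384) (nat_lit 76) (nat_lit 4327128730) (nat_lit 21) (nat_lit 5) (nat_lit 24) (nat_lit 5) (nat_lit 22) (nat_lit 4) (nat_lit 286) (nat_lit 225) (nat_lit 209))) (XT.nd (nat_lit 78) (nat_lit 228) (nat_lit 0) (XT.lf (nat_lit 0) (nat_lit 6221713193) (nat_lit 228) (nat_lit 1362128581) (nat_lit 76) (nat_lit 9455882249) (nat_lit 21) (nat_lit 5) (nat_lit 24) (nat_lit 5) (nat_lit 22) (nat_lit 4) (nat_lit 287) (nat_lit 225) (nat_lit 208)) (XT.nd (nat_lit 78) (nat_lit 152) (nat_lit 0) (XT.lf (nat_lit 0) (nat_lit 8436183150) (nat_lit 76) (nat_lit 2866324645) (nat_lit 152) (nat_lit 6403176136) (nat_lit 20) (nat_lit 5) (nat_lit 21) (nat_lit 5) (nat_lit 22) (nat_lit 4) (nat_lit 288) (nat_lit 225) (nat_lit 207)) (XT.lf (nat_lit 0) (nat_lit 110562124) (nat_lit 152) (nat_lit 16429811805) (nat_lit 152) (nat_lit 1867625608)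 (nat_lit 18) (nat_lit 4) (nat_lit 20) (nat_lit 5) (nat_lit 20) (nat_lit 4) (nat_lit 289) (nat_lit 225) (nat_lit 206)))))) (XT.nd (nat_lit 390) (nat_lit 304) (nat_lit 0) (XT.nd (nat_lit 156) (nat_lit 304) (nat_lit 0) (XT.nd (nat_lit 78) (nat_lit 0) (nat_lit 0) (XT.lf (nat_lit 0) (nat_lit 2834098853) (nat_lit 228) (nat_lit 9263097846) (nat_lit 76) (nat_lit 7047660433) (nat_lit 17) (nat_lit 5) (nat_lit 20) (nat_lit 5) (nat_lit 18) (nat_lit 4) (nat_lit 290) (nat_lit 225) (nat_lit 205)) (XT.lf (nat_lit 0) (nat_lit 7609391681) (nat_lit 228) (nat_lit 1760378) (nat_lit 76) (nat_lit 12310668489) (nat_lit 17) (nat_lit 5) (nat_lit 20) (nat_lit 5) (nat_lit 18) (nat_lit 4) (nat_lit 291) (nat_lit 225) (nat_lit 204))) (XT.nd (nat_lit 78) (nat_lit 228) (nat_lit 0) (XT.lf (nat_lit 0) (nat_lit 9716176145) (nat_lit 76) (nat_lit 2883288406) (nat_lit 152) (nat_lit 8139011796) (nat_lit 16) (nat_lit 5) (nat_lit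 17) (nat_lit 5) (nat_lit 18) (nat_lit 4) (nat_lit 292) (nat_lit 225) (nat_lit 203)) (XT.nd (nat_lit 78) (nat_lit 228) (nat_lit 0) (XT.lf (nat_lit 0) (nat_lit 17744700985) (nat_lit 152) (nat_lit 1889156050) (nat_lit 0) (nat_lit 1965056840) (nat_lit 16) (nat_lit 5) (nat_lit 18) (nat_lit 4) (nat_lit 16) (nat_lit 4) (nat_lit 293) (nat_lit 225) (nat_lit 202)) (XT.lf (nat_lit 0) (nat_lit 625661349) (nat_lit 228) (nat_lit 14872285377) (nat_lit 76) (nat_lit 7004547840) (nat_lit 13) (nat_lit 5) (nat_lit 16) (nat_lit 5) (nat_lit 14) (nat_lit 4) (nat_lit 294) (nat_lit 225) (nat_lit 201))))) (XT.nd (nat_lit 234) (nat_lit 228) (nat_lit 0) (XT.nd (nat_lit 78) (nat_lit 76) (nat_lit 0) (XT.lf (nat_lit 0) (nat_lit 5163601393) (nat_lit 228) (nat_lit 6005727824) (nat_lit 76) (nat_lit 12283471327) (nat_lit 13) (nat_lit 5) (nat_lit 16) (nat_lit 5) (nat_lit 14) (nat_lit 4) (nat_lit 295) (nat_lit 225) (nat_lit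 200)) (XT.nd (nat_lit 78) (nat_lit 0) (nat_lit 0) (XT.lf (nat_lit 0) (nat_lit 3194121280) (nat_lit 76) (nat_lit 6663499486) (nat_lit 152) (nat_lit 14595225166) (nat_lit 12) (nat_lit 5) (nat_lit 13) (nat_lit 5) (nat_lit 14) (nat_lit 4) (nat_lit 296) (nat_lit 225) (nat_lit 199)) (XT.lf (nat_lit 0) (nat_lit 12812040564) (nat_lit 76) (nat_lit 1937827668) (nat_lit 152) (nat_lit 10754214384) (nat_lit 12) (nat_lit 5) (nat_lit 13) (nat_lit 5) (nat_lit 14) (nat_lit 4) (nat_lit 297) (nat_lit 225) (nat_lit 198)))) (XT.nd (nat_lit 78) (nat_lit 228) (nat_lit 0) (XT.lf (nat_lit 0) (nat_lit 19821549222) (nat_lit 152) (nat_lit 3887812768) (nat_lit 0) (nat_lit 2900564834) (nat_lit 12) (nat_lit 5) (nat_lit 14) (nat_lit 4) (nat_lit 12) (nat_lit 4) (nat_lit 298) (nat_lit 225) (nat_lit 197)) (XT.nd (nat_lit 78) (nat_lit 76) (nat_lit 0) (XT.lf (nat_lit 0) (nat_lit 5286205082) (nat_lit 152) (nat_lit 19841221796)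 (nat_lit 152) (nat_lit 2644304007) (nat_lit 10) (nat_lit 4) (nat_lit 12) (nat_lit 5) (nat_lit 12) (nat_lit 4) (nat_lit 299) (nat_lit 225) (nat_lit 196)) (XT.lf (nat_lit 0) (nat_lit 1626216623) (nat_lit 228) (nat_lit 14158491757) (nat_lit 76) (nat_lit 13207927479) (nat_lit 9) (nat_lit 5) (nat_lit 12) (nat_lit 5) (nat_lit 10) (nat_lit 4) (nat_lit 300) (nat_lit 225) (nat_lit 195))))))) (XT.nd (nat_lit 858) (nat_lit 76) (nat_lit 0) (XT.nd (nat_lit 390) (nat_lit 228) (nat_lit 0) (XT.nd (nat_lit 156) (nat_lit 0) (nat_lit 0) (XT.nd (nat_lit 78) (nat_lit 76) (nat_lit 0) (XT.lf (nat_lit 0) (nat_lit 5972402155) (nat_lit 228) (nat_lit 5586014853) (nat_lit 76) (nat_lit 18717954575) (nat_lit 9) (nat_lit 5) (nat_lit 12) (nat_lit 5) (nat_lit 10) (nat_lit 4) (nat_lit 301) (nat_lit 225) (nat_lit 194)) (XT.lf (nat_lit 0) (nat_lit 3342967571) (nat_lit 76) (nat_lit 7145367624) (nat_lit 152) (nat_lit 21137457897)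 (nat_lit 8) (nat_lit 5) (nat_lit 9) (nat_lit 5) (nat_lit 10) (nat_lit 4) (nat_lit 302) (nat_lit 225) (nat_lit 193))) (XT.nd (nat_lit 78) (nat_lit 0) (nat_lit 0) (XT.lf (nat_lit 0) (nat_lit 12701715896) (nat_lit 76) (nat_lit 2508668272) (nat_lit 152) (nat_lit 17832960640) (nat_lit 8) (nat_lit 5) (nat_lit 9) (nat_lit 5) (nat_lit 10) (nat_lit 4) (nat_lit 303) (nat_lit 225) (nat_lit 192)) (XT.nd (nat_lit 78) (nat_lit 0) (nat_lit 0) (XT.lf (nat_lit 0) (nat_lit 20117196888) (nat_lit 152) (nat_lit 12154874286) (nat_lit 0) (nat_lit 2261308533) (nat_lit 8) (nat_lit 5) (nat_lit 10) (nat_lit 4) (nat_lit 8) (nat_lit 4) (nat_lit 304) (nat_lit 225) (nat_lit 191)) (XT.lf (nat_lit 0) (nat_lit 25224172576) (nat_lit 152) (nat_lit 3706785703) (nat_lit 0) (nat_lit 7168375725) (nat_lit 8) (nat_lit 5) (nat_lit 10) (nat_lit 4) (nat_lit 8) (nat_lit 4) (nat_lit 305) (nat_lit 225) (nat_lit 190))))) (XT.nd (nat_lit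 234) (nat_lit 76) (nat_lit 0) (XT.nd (nat_lit 78) (nat_lit 76) (nat_lit 0) (XT.lf (nat_lit 0) (nat_lit 5147308718) (nat_lit 76) (nat_lit 25421526206) (nat_lit 76) (nat_lit 7175340310) (nat_lit 7) (nat_lit 4) (nat_lit 8) (nat_lit 5) (nat_lit 8) (nat_lit 4) (nat_lit 306) (nat_lit 225) (nat_lit 189)) (XT.nd (nat_lit 78) (nat_lit 76) (nat_lit 0) (XT.lf (nat_lit 0) (nat_lit 14408076887) (nat_lit 76) (nat_lit 21745776634) (nat_lit 76) (nat_lit 3318267838) (nat_lit 7) (nat_lit 4) (nat_lit 8) (nat_lit 5) (nat_lit 8) (nat_lit 4) (nat_lit 307) (nat_lit 225) (nat_lit 188)) (XT.lf (nat_lit 0) (nat_lit 654776880) (nat_lit 152) (nat_lit 17271000204) (nat_lit 76) (nat_lit 23362407102) (nat_lit 6) (nat_lit 5) (nat_lit 8) (nat_lit 5) (nat_lit 7) (nat_lit 4) (nat_lit 308) (nat_lit 225) (nat_lit 187)))) (XT.nd (nat_lit 78) (nat_lit 76) (nat_lit 0) (XT.lf (nat_lit 0) (nat_lit 4698861968) (nat_lit 152) (nat_lit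 9225972690) (nat_lit 76) (nat_lit 29271049201) (nat_lit 6) (nat_lit 5) (nat_lit 8) (nat_lit 5) (nat_lit 7) (nat_lit 4) (nat_lit 309) (nat_lit 225) (nat_lit 186)) (XT.nd (nat_lit 78) (nat_lit 76) (nat_lit 0) (XT.lf (nat_lit 0) (nat_lit 8888367557) (nat_lit 152) (nat_lit 877909882) (nat_lit 76) (nat_lit 35434441997) (nat_lit 6) (nat_lit 5) (nat_lit 8) (nat_lit 5) (nat_lit 7) (nat_lit 4) (nat_lit 310) (nat_lit 225) (nat_lit 185)) (XT.lf (nat_lit 0) (nat_lit 7948161823) (nat_lit 76) (nat_lit 5361509430) (nat_lit 152) (nat_lit 33995501005) (nat_lit 5) (nat_lit 5) (nat_lit 6) (nat_lit 5) (nat_lit 7) (nat_lit 4) (nat_lit 311) (nat_lit 225) (nat_lit 184)))))) (XT.nd (nat_lit 390) (nat_lit 76) (nat_lit 0) (XT.nd (nat_lit 156) (nat_lit 0) (nat_lit 0) (XT.nd (nat_lit 78) (nat_lit 0) (nat_lit 0) (XT.lf (nat_lit 0) (nat_lit 17142099923) (nat_lit 76) (nat_lit 766590707) (nat_lit 152) (nat_lit 31607500578)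 (nat_lit 5) (nat_lit 5) (nat_lit 6) (nat_lit 5) (nat_lit 7) (nat_lit 4) (nat_lit 312) (nat_lit 225) (nat_lit 183)) (XT.lf (nat_lit 0) (nat_lit 22726416798) (nat_lit 152) (nat_lit 25169624232) (nat_lit 0) (nat_lit 3942098354) (nat_lit 5) (nat_lit 5) (nat_lit 7) (nat_lit 4) (nat_lit 5) (nat_lit 4) (nat_lit 313) (nat_lit 225) (nat_lit 182))) (XT.nd (nat_lit 78) (nat_lit 0) (nat_lit 0) (XT.lf (nat_lit 0) (nat_lit 27744906785) (nat_lit 152) (nat_lit 17697042034) (nat_lit 0) (nat_lit 8835478827) (nat_lit 5) (nat_lit 5) (nat_lit 7) (nat_lit 4) (nat_lit 5) (nat_lit 4) (nat_lit 314) (nat_lit 225) (nat_lit 181)) (XT.nd (nat_lit 78) (nat_lit 0) (nat_lit 0) (XT.lf (nat_lit 0) (nat_lit 32968740438) (nat_lit 152) (nat_lit 9931183891) (nat_lit 0) (nat_lit 13940160562) (nat_lit 5) (nat_lit 5) (nat_lit 7) (nat_lit 4) (nat_lit 5) (nat_lit 4) (nat_lit 315) (nat_lit 225) (nat_lit 180)) (XT.lf (nat_lit 0) (nat_lit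 38410355457) (nat_lit 152) (nat_lit 1853559665) (nat_lit 0) (nat_lit 19268297564) (nat_lit 5) (nat_lit 5) (nat_lit 7) (nat_lit 4) (nat_lit 5) (nat_lit 4) (nat_lit 316) (nat_lit 225) (nat_lit 179))))) (XT.nd (nat_lit 234) (nat_lit 0) (nat_lit 0) (XT.nd (nat_lit 78) (nat_lit 0) (nat_lit 0) (XT.lf (nat_lit 0) (nat_lit 6685521691) (nat_lit 76) (nat_lit 37461451701) (nat_lit 76) (nat_lit 18211319506) (nat_lit 4) (nat_lit 4) (nat_lit 5) (nat_lit 5) (nat_lit 5) (nat_lit 4) (nat_lit 317) (nat_lit 225) (nat_lit 178)) (XT.nd (nat_lit 78) (nat_lit 0) (nat_lit 0) (XT.lf (nat_lit 0) (nat_lit 15619497539) (nat_lit 76) (nat_lit 34529950498) (nat_lit 76) (nat_lit 15176890396) (nat_lit 4) (nat_lit 4) (nat_lit 5) (nat_lit 5) (nat_lit 5) (nat_lit 4) (nat_lit 318) (nat_lit 225) (nat_lit 177)) (XT.lf (nat_lit 0) (nat_lit 24932749778) (nat_lit 76) (nat_lit 31481149067) (nat_lit 76) (nat_lit 12030062387) (nat_lit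 4) (nat_lit 4) (nat_lit 5) (nat_lit 5) (nat_lit 5) (nat_lit 4) (nat_lit 319) (nat_lit 225) (nat_lit 176)))) (XT.nd (nat_lit 78) (nat_lit 0) (nat_lit 0) (XT.lf (nat_lit 0) (nat_lit 34647452819) (nat_lit 76) (nat_lit 28307788357) (nat_lit 76) (nat_lit 8763343032) (nat_lit 4) (nat_lit 4) (nat_lit 5) (nat_lit 5) (nat_lit 5) (nat_lit 4) (nat_lit 320) (nat_lit 225) (nat_lit 175)) (XT.nd (nat_lit 78) (nat_lit 0) (nat_lit 0) (XT.lf (nat_lit 0) (nat_lit 44786736906) (nat_lit 76) (nat_lit 25002312747) (nat_lit 76) (nat_lit 5368954426) (nat_lit 4) (nat_lit 4) (nat_lit 5) (nat_lit 5) (nat_lit 5) (nat_lit 4) (nat_lit 321) (nat_lit 225) (nat_lit 174)) (XT.lf (nat_lit 0) (nat_lit 55374743192) (nat_lit 76) (nat_lit 21556852057) (nat_lit 76) (nat_lit 1838814693) (nat_lit 4) (nat_lit 4) (nat_lit 5) (nat_lit 5) (nat_lit 5) (nat_lit 4) (nat_lit 322) (nat_lit 225) (nat_lit 173))))))))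
noncomputable def xc24 : XT := (XT.nd (nat_lit 34164) (nat_lit 0) (nat_lit 608) (XT.nd (nat_lit 33306) (nat_lit 0) (nat_lit 2508) (XT.nd (nat_lit 390) (nat_lit 0) (nat_lit 0) (XT.nd (nat_lit 156) (nat_lit 76) (nat_lit 0) (XT.nd (nat_lit 78) (nat_lit 0) (nat_lit 0) (XT.lf (nat_lit 0) (nat_lit 1799664411) (nat_lit 152) (nat_lit 16145365316) (nat_lit 76) (nat_lit 64618843722) (nat_lit 3) (nat_lit 5) (nat_lit 5) (nat_lit 5) (nat_lit 4) (nat_lit 4) (nat_lit 323) (nat_lit 225) (nat_lit 172)) (XT.lf (nat_lit 0) (nat_lit 5552182446) (nat_lit 152) (nat_lit 8604560095) (nat_lit 76) (nat_lit 72390640322) (nat_lit 3) (nat_lit 5) (nat_lit 5) (nat_lit 5) (nat_lit 4) (nat_lit 4) (nat_lit 324) (nat_lit 225) (nat_lit 171))) (XT.nd (nat_lit 78) (nat_lit 76) (nat_lit 0) (XT.lf (nat_lit 0) (nat_lit 9463555875) (nat_lit 152) (nat_lit 737620975) (nat_lit 76) (nat_lit 80529776151) (nat_lit 3) (nat_lit 5) (nat_lit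 5) (nat_lit 5) (nat_lit 4) (nat_lit 4) (nat_lit 325) (nat_lit 225) (nat_lit 170)) (XT.nd (nat_lit 78) (nat_lit 0) (nat_lit 0) (XT.lf (nat_lit 0) (nat_lit 7622933742) (nat_lit 76) (nat_lit 5993440052) (nat_lit 152) (nat_lit 81505972664) (nat_lit 2) (nat_lit 5) (nat_lit 3) (nat_lit 5) (nat_lit 4) (nat_lit 4) (nat_lit 326) (nat_lit 225) (nat_lit 169)) (XT.lf (nat_lit 0) (nat_lit 16369837788) (nat_lit 76) (nat_lit 1588039599) (nat_lit 152) (nat_lit 81776020940) (nat_lit 2) (nat_lit 5) (nat_lit 3) (nat_lit 5) (nat_lit 4) (nat_lit 4) (nat_lit 327) (nat_lit 225) (nat_lit 168))))) (XT.nd (nat_lit 156) (nat_lit 0) (nat_lit 0) (XT.nd (nat_lit 78) (nat_lit 0) (nat_lit 0) (XT.lf (nat_lit 0) (nat_lit 22520183474) (nat_lit 152) (nat_lit 79096579907) (nat_lit 0) (nat_lit 2959171713) (nat_lit 2) (nat_lit 5) (nat_lit 4) (nat_lit 4) (nat_lit 2) (nat_lit 4) (nat_lit 328) (nat_lit 225) (nat_lit 167)) (XT.lf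 (nat_lit 0) (nat_lit 27302374048) (nat_lit 152) (nat_lit 74675029509) (nat_lit 0) (nat_lit 7682935282) (nat_lit 2) (nat_lit 5) (nat_lit 4) (nat_lit 4) (nat_lit 2) (nat_lit 4) (nat_lit 329) (nat_lit 225) (nat_lit 166))) (XT.nd (nat_lit 78) (nat_lit 0) (nat_lit 0) (XT.lf (nat_lit 0) (nat_lit 32300570069) (nat_lit 152) (nat_lit 70073616638) (nat_lit 0) (nat_lit 12625486535) (nat_lit 2) (nat_lit 5) (nat_lit 4) (nat_lit 4) (nat_lit 2) (nat_lit 4) (nat_lit 330) (nat_lit 225) (nat_lit 165)) (XT.nd (nat_lit 32604) (nat_lit 0) (nat_lit 5396) (XT.lf (nat_lit 0) (nat_lit 37526672002) (nat_lit 152) (nat_lit 65281385547) (nat_lit 0) (nat_lit 17798593452) (nat_lit 2) (nat_lit 5) (nat_lit 4) (nat_lit 4) (nat_lit 2) (nat_lit 4) (nat_lit 331) (nat_lit 225) (nat_lit 164)) (XT.lf (nat_lit 0) (nat_lit 1541430143) (nat_lit 380) (nat_lit 1559426411) (nat_lit 0) (nat_lit 1541430143) (nat_lit 73) (nat_lit 5) (nat_lit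 78) (nat_lit 4) (nat_lit 73) (nat_lit 4) (nat_lit 268) (nat_lit 226) (nat_lit 226)))))) (XT.nd (nat_lit 390) (nat_lit 1216) (nat_lit 0) (XT.nd (nat_lit 156) (nat_lit 988) (nat_lit 0) (XT.nd (nat_lit 78) (nat_lit 380) (nat_lit 0) (XT.lf (nat_lit 0) (nat_lit 6360617904) (nat_lit 304) (nat_lit 2344036973) (nat_lit 304) (nat_lit 817644583) (nat_lit 69) (nat_lit 4) (nat_lit 73) (nat_lit 5) (nat_lit 73) (nat_lit 4) (nat_lit 269) (nat_lit 226) (nat_lit 225)) (XT.lf (nat_lit 0) (nat_lit 4625643708) (nat_lit 380) (nat_lit 3416439024) (nat_lit 0) (nat_lit 1732343292) (nat_lit 64) (nat_lit 5) (nat_lit 69) (nat_lit 4) (nat_lit 64) (nat_lit 4) (nat_lit 270) (nat_lit 226) (nat_lit 224))) (XT.nd (nat_lit 78) (nat_lit 608) (nat_lit 0) (XT.lf (nat_lit 0) (nat_lit 174950507) (nat_lit 380) (nat_lit 3882309034) (nat_lit 76) (nat_lit 5985123676) (nat_lit 59) (nat_lit 5) (nat_lit 64) (nat_lit 5) (nat_lit 60)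 (nat_lit 4) (nat_lit 271) (nat_lit 226) (nat_lit 223)) (XT.nd (nat_lit 78) (nat_lit 380) (nat_lit 0) (XT.lf (nat_lit 0) (nat_lit 5537490350) (nat_lit 304) (nat_lit 4608144660) (nat_lit 0) (nat_lit 180588230) (nat_lit 56) (nat_lit 5) (nat_lit 60) (nat_lit 4) (nat_lit 56) (nat_lit 4) (nat_lit 272) (nat_lit 226) (nat_lit 222)) (XT.lf (nat_lit 0) (nat_lit 454009286) (nat_lit 380) (nat_lit 5618943913) (nat_lit 76) (nat_lit 4553881854) (nat_lit 51) (nat_lit 5) (nat_lit 56) (nat_lit 5) (nat_lit 52) (nat_lit 4) (nat_lit 273) (nat_lit 226) (nat_lit 221))))) (XT.nd (nat_lit 234) (nat_lit 456) (nat_lit 0) (XT.nd (nat_lit 78) (nat_lit 532) (nat_lit 0) (XT.lf (nat_lit 0) (nat_lit 3992769706) (nat_lit 228) (nat_lit 1751401413) (nat_lit 304) (nat_lit 5200695523) (nat_lit 48) (nat_lit 5) (nat_lit 51) (nat_lit 5) (nat_lit 52) (nat_lit 4) (nat_lit 274) (nat_lit 226) (nat_lit 220)) (XT.nd (nat_lit 78) (nat_lit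 304) (nat_lit 0) (XT.lf (nat_lit 0) (nat_lit 2656771923) (nat_lit 228) (nat_lit 8555930111) (nat_lit 228) (nat_lit 69006903) (nat_lit 45) (nat_lit 4) (nat_lit 48) (nat_lit 5) (nat_lit 48) (nat_lit 4) (nat_lit 275) (nat_lit 226) (nat_lit 219)) (XT.lf (nat_lit 0) (nat_lit 917637910) (nat_lit 228) (nat_lit 4204178435) (nat_lit 304) (nat_lit 6515153062) (nat_lit 41) (nat_lit 5) (nat_lit 44) (nat_lit 5) (nat_lit 45) (nat_lit 4) (nat_lit 276) (nat_lit 226) (nat_lit 218)))) (XT.nd (nat_lit 78) (nat_lit 456) (nat_lit 0) (XT.lf (nat_lit 0) (nat_lit 10477074209) (nat_lit 304) (nat_lit 1180379432) (nat_lit 0) (nat_lit 355615308) (nat_lit 41) (nat_lit 5) (nat_lit 45) (nat_lit 4) (nat_lit 41) (nat_lit 4) (nat_lit 277) (nat_lit 226) (nat_lit 217)) (XT.nd (nat_lit 78) (nat_lit 152) (nat_lit 0) (XT.lf (nat_lit 0) (nat_lit 3567297778) (nat_lit 304) (nat_lit 3754050045) (nat_lit 76) (nat_lit 5087408825) (nat_lit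 37) (nat_lit 5) (nat_lit 41) (nat_lit 5) (nat_lit 38) (nat_lit 4) (nat_lit 278) (nat_lit 226) (nat_lit 216)) (XT.lf (nat_lit 0) (nat_lit 6016260537) (nat_lit 152) (nat_lit 2774134472) (nat_lit 228) (nat_lit 4036737282) (nat_lit 35) (nat_lit 5) (nat_lit 37) (nat_lit 5) (nat_lit 38) (nat_lit 4) (nat_lit 279) (nat_lit 226) (nat_lit 215))))))) (XT.nd (nat_lit 780) (nat_lit 760) (nat_lit 0) (XT.nd (nat_lit 390) (nat_lit 456) (nat_lit 0) (XT.nd (nat_lit 156) (nat_lit 380) (nat_lit 0) (XT.nd (nat_lit 78) (nat_lit 0) (nat_lit 0) (XT.lf (nat_lit 0) (nat_lit 904141806) (nat_lit 304) (nat_lit 10418156806) (nat_lit 76) (nat_lit 1946602497) (nat_lit 31) (nat_lit 5) (nat_lit 35) (nat_lit 5) (nat_lit 32) (nat_lit 4) (nat_lit 280) (nat_lit 226) (nat_lit 214)) (XT.lf (nat_lit 0) (nat_lit 5942807961) (nat_lit 304) (nat_lit 922840916) (nat_lit 76) (nat_lit 6868105500) (nat_lit 31) (nat_lit 5) (nat_lit 35)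 (nat_lit 5) (nat_lit 32) (nat_lit 4) (nat_lit 281) (nat_lit 226) (nat_lit 213))) (XT.nd (nat_lit 78) (nat_lit 228) (nat_lit 0) (XT.lf (nat_lit 0) (nat_lit 8974249946) (nat_lit 152) (nat_lit 2187944273) (nat_lit 228) (nat_lit 3062003831) (nat_lit 29) (nat_lit 5) (nat_lit 31) (nat_lit 5) (nat_lit 32) (nat_lit 4) (nat_lit 282) (nat_lit 226) (nat_lit 212)) (XT.nd (nat_lit 78) (nat_lit 0) (nat_lit 0) (XT.lf (nat_lit 0) (nat_lit 1790831161) (nat_lit 228) (nat_lit 10296668016) (nat_lit 76) (nat_lit 2653573635) (nat_lit 26) (nat_lit 5) (nat_lit 29) (nat_lit 5) (nat_lit 27) (nat_lit 4) (nat_lit 283) (nat_lit 226) (nat_lit 211)) (XT.lf (nat_lit 0) (nat_lit 6750433614) (nat_lit 228) (nat_lit 843573430) (nat_lit 76) (nat_lit 7691237296) (nat_lit 26) (nat_lit 5) (nat_lit 29) (nat_lit 5) (nat_lit 27) (nat_lit 4) (nat_lit 284) (nat_lit 226) (nat_lit 210))))) (XT.nd (nat_lit 156) (nat_lit 76) (nat_lit 0)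 (XT.nd (nat_lit 78) (nat_lit 228) (nat_lit 0) (XT.lf (nat_lit 0) (nat_lit 9028775863) (nat_lit 152) (nat_lit 2873365538) (nat_lit 228) (nat_lit 3956336534) (nat_lit 24) (nat_lit 5) (nat_lit 26) (nat_lit 5) (nat_lit 27) (nat_lit 4) (nat_lit 285) (nat_lit 226) (nat_lit 209)) (XT.lf (nat_lit 0) (nat_lit 749951654) (nat_lit 228) (nat_lit 13710901200) (nat_lit 76) (nat_lit 2001973895) (nat_lit 21) (nat_lit 5) (nat_lit 24) (nat_lit 5) (nat_lit 22) (nat_lit 4) (nat_lit 286) (nat_lit 226) (nat_lit 208))) (XT.nd (nat_lit 78) (nat_lit 76) (nat_lit 0) (XT.lf (nat_lit 0) (nat_lit 5574671805) (nat_lit 228) (nat_lit 4432420607) (nat_lit 76) (nat_lit 7090333312) (nat_lit 21) (nat_lit 5) (nat_lit 24) (nat_lit 5) (nat_lit 22) (nat_lit 4) (nat_lit 287) (nat_lit 226) (nat_lit 207)) (XT.nd (nat_lit 78) (nat_lit 0) (nat_lit 0) (XT.lf (nat_lit 0) (nat_lit 5199189325) (nat_lit 76) (nat_lit 5362060824) (nat_lit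 152) (nat_lit 7205034486) (nat_lit 20) (nat_lit 5) (nat_lit 21) (nat_lit 5) (nat_lit 22) (nat_lit 4) (nat_lit 288) (nat_lit 226) (nat_lit 206)) (XT.lf (nat_lit 0) (nat_lit 15198838800) (nat_lit 76) (nat_lit 518768869) (nat_lit 152) (nat_lit 2753506891) (nat_lit 20) (nat_lit 5) (nat_lit 21) (nat_lit 5) (nat_lit 22) (nat_lit 4) (nat_lit 289) (nat_lit 226) (nat_lit 205)))))) (XT.nd (nat_lit 390) (nat_lit 304) (nat_lit 0) (XT.nd (nat_lit 156) (nat_lit 228) (nat_lit 0) (XT.nd (nat_lit 78) (nat_lit 0) (nat_lit 0) (XT.lf (nat_lit 0) (nat_lit 1867996104) (nat_lit 228) (nat_lit 12861741647) (nat_lit 76) (nat_lit 4481478976) (nat_lit 17) (nat_lit 5) (nat_lit 20) (nat_lit 5) (nat_lit 18) (nat_lit 4) (nat_lit 290) (nat_lit 226) (nat_lit 204)) (XT.lf (nat_lit 0) (nat_lit 6586029212) (nat_lit 228) (nat_lit 3696045843) (nat_lit 76) (nat_lit 9707883697) (nat_lit 17) (nat_lit 5) (nat_lit 20) (nat_lit 5)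 (nat_lit 18) (nat_lit 4) (nat_lit 291) (nat_lit 226) (nat_lit 203))) (XT.nd (nat_lit 78) (nat_lit 152) (nat_lit 0) (XT.lf (nat_lit 0) (nat_lit 5855467041) (nat_lit 76) (nat_lit 5628990475) (nat_lit 152) (nat_lit 9324964291) (nat_lit 16) (nat_lit 5) (nat_lit 17) (nat_lit 5) (nat_lit 18) (nat_lit 4) (nat_lit 292) (nat_lit 226) (nat_lit 202)) (XT.nd (nat_lit 78) (nat_lit 152) (nat_lit 0) (XT.lf (nat_lit 0) (nat_lit 15780415643) (nat_lit 76) (nat_lit 777226301) (nat_lit 152) (nat_lit 5114434115) (nat_lit 16) (nat_lit 5) (nat_lit 17) (nat_lit 5) (nat_lit 18) (nat_lit 4) (nat_lit 293) (nat_lit 226) (nat_lit 201)) (XT.lf (nat_lit 0) (nat_lit 3474786259) (nat_lit 152) (nat_lit 18380870325) (nat_lit 152) (nat_lit 723179004) (nat_lit 14) (nat_lit 4) (nat_lit 16) (nat_lit 5) (nat_lit 16) (nat_lit 4) (nat_lit 294) (nat_lit 226) (nat_lit 200))))) (XT.nd (nat_lit 234) (nat_lit 152) (nat_lit 0) (XT.nd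 (nat_lit 78) (nat_lit 76) (nat_lit 0) (XT.lf (nat_lit 0) (nat_lit 3779350173) (nat_lit 228) (nat_lit 10314620692) (nat_lit 76) (nat_lit 9436913507) (nat_lit 13) (nat_lit 5) (nat_lit 16) (nat_lit 5) (nat_lit 14) (nat_lit 4) (nat_lit 295) (nat_lit 226) (nat_lit 199)) (XT.nd (nat_lit 78) (nat_lit 76) (nat_lit 0) (XT.lf (nat_lit 0) (nat_lit 8395501231) (nat_lit 228) (nat_lit 1257177116) (nat_lit 76) (nat_lit 14880633727) (nat_lit 13) (nat_lit 5) (nat_lit 16) (nat_lit 5) (nat_lit 14) (nat_lit 4) (nat_lit 296) (nat_lit 226) (nat_lit 198)) (XT.lf (nat_lit 0) (nat_lit 8257940541) (nat_lit 76) (nat_lit 4971816665) (nat_lit 152) (nat_lit 12356575357) (nat_lit 12) (nat_lit 5) (nat_lit 13) (nat_lit 5) (nat_lit 14) (nat_lit 4) (nat_lit 297) (nat_lit 226) (nat_lit 197)))) (XT.nd (nat_lit 78) (nat_lit 152) (nat_lit 0) (XT.lf (nat_lit 0) (nat_lit 18123226589) (nat_lit 76) (nat_lit 106283055) (nat_lit 152)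 (nat_lit 8464866945) (nat_lit 12) (nat_lit 5) (nat_lit 13) (nat_lit 5) (nat_lit 14) (nat_lit 4) (nat_lit 298) (nat_lit 226) (nat_lit 196)) (XT.nd (nat_lit 78) (nat_lit 0) (nat_lit 0) (XT.lf (nat_lit 0) (nat_lit 437725673) (nat_lit 152) (nat_lit 23008332799) (nat_lit 152) (nat_lit 4412842007) (nat_lit 10) (nat_lit 4) (nat_lit 12) (nat_lit 5) (nat_lit 12) (nat_lit 4) (nat_lit 299) (nat_lit 226) (nat_lit 195)) (XT.lf (nat_lit 0) (nat_lit 9932584795) (nat_lit 152) (nat_lit 18997359514) (nat_lit 152) (nat_lit 151588994) (nat_lit 10) (nat_lit 4) (nat_lit 12) (nat_lit 5) (nat_lit 12) (nat_lit 4) (nat_lit 300) (nat_lit 226) (nat_lit 194))))))))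
noncomputable def xc25 : XT := (XT.nd (nat_lit 1638) (nat_lit 152) (nat_lit 0) (XT.nd (nat_lit 780) (nat_lit 152) (nat_lit 0) (XT.nd (nat_lit 390) (nat_lit 152) (nat_lit 0) (XT.nd (nat_lit 156) (nat_lit 76) (nat_lit 0) (XT.nd (nat_lit 78) (nat_lit 0) (nat_lit 0) (XT.lf (nat_lit 0) (nat_lit 4158678283) (nat_lit 228) (nat_lit 10642015249) (nat_lit 76) (nat_lit 15565820691) (nat_lit 9) (nat_lit 5) (nat_lit 12) (nat_lit 5) (nat_lit 10) (nat_lit 4) (nat_lit 301) (nat_lit 226) (nat_lit 193)) (XT.lf (nat_lit 0) (nat_lit 8605451624) (nat_lit 228) (nat_lit 1842076457) (nat_lit 76) (nat_lit 21270515959) (nat_lit 9) (nat_lit 5) (nat_lit 12) (nat_lit 5) (nat_lit 10) (nat_lit 4) (nat_lit 302) (nat_lit 226) (nat_lit 192))) (XT.nd (nat_lit 78) (nat_lit 0) (nat_lit 0) (XT.lf (nat_lit 0) (nat_lit 7418029746) (nat_lit 76) (nat_lit 5855553525) (nat_lit 152) (nat_lit 19863661925) (nat_lit 8) (nat_lit 5) (nat_lit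 9) (nat_lit 5) (nat_lit 10) (nat_lit 4) (nat_lit 303) (nat_lit 226) (nat_lit 191)) (XT.nd (nat_lit 78) (nat_lit 0) (nat_lit 0) (XT.lf (nat_lit 0) (nat_lit 17058624354) (nat_lit 76) (nat_lit 1065451705) (nat_lit 152) (nat_lit 16504924037) (nat_lit 8) (nat_lit 5) (nat_lit 9) (nat_lit 5) (nat_lit 10) (nat_lit 4) (nat_lit 304) (nat_lit 226) (nat_lit 190)) (XT.lf (nat_lit 0) (nat_lit 23188058167) (nat_lit 152) (nat_lit 9169041055) (nat_lit 0) (nat_lit 3839173931) (nat_lit 8) (nat_lit 5) (nat_lit 10) (nat_lit 4) (nat_lit 8) (nat_lit 4) (nat_lit 305) (nat_lit 226) (nat_lit 189))))) (XT.nd (nat_lit 156) (nat_lit 76) (nat_lit 0) (XT.nd (nat_lit 78) (nat_lit 76) (nat_lit 0) (XT.lf (nat_lit 0) (nat_lit 28452049237) (nat_lit 152) (nat_lit 469670755) (nat_lit 0) (nat_lit 8921842103) (nat_lit 8) (nat_lit 5) (nat_lit 10) (nat_lit 4) (nat_lit 8) (nat_lit 4) (nat_lit 306) (nat_lit 226) (nat_lit 188)) (XT.lf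 (nat_lit 0) (nat_lit 8729024425) (nat_lit 76) (nat_lit 25273225108) (nat_lit 76) (nat_lit 5570329497) (nat_lit 7) (nat_lit 4) (nat_lit 8) (nat_lit 5) (nat_lit 8) (nat_lit 4) (nat_lit 307) (nat_lit 226) (nat_lit 187))) (XT.nd (nat_lit 78) (nat_lit 76) (nat_lit 0) (XT.lf (nat_lit 0) (nat_lit 18294528608) (nat_lit 76) (nat_lit 21481277457) (nat_lit 76) (nat_lit 1613916632) (nat_lit 7) (nat_lit 4) (nat_lit 8) (nat_lit 5) (nat_lit 8) (nat_lit 4) (nat_lit 308) (nat_lit 226) (nat_lit 186)) (XT.nd (nat_lit 78) (nat_lit 0) (nat_lit 0) (XT.lf (nat_lit 0) (nat_lit 2433962390) (nat_lit 152) (nat_lit 15083050711) (nat_lit 76) (nat_lit 25781728796) (nat_lit 6) (nat_lit 5) (nat_lit 8) (nat_lit 5) (nat_lit 7) (nat_lit 4) (nat_lit 309) (nat_lit 226) (nat_lit 185)) (XT.lf (nat_lit 0) (nat_lit 6597087605) (nat_lit 152) (nat_lit 6781081321) (nat_lit 76) (nat_lit 31926221984) (nat_lit 6) (nat_lit 5) (nat_lit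 8) (nat_lit 5) (nat_lit 7) (nat_lit 4) (nat_lit 310) (nat_lit 226) (nat_lit 184)))))) (XT.nd (nat_lit 390) (nat_lit 76) (nat_lit 0) (XT.nd (nat_lit 156) (nat_lit 0) (nat_lit 0) (XT.nd (nat_lit 78) (nat_lit 0) (nat_lit 0) (XT.lf (nat_lit 0) (nat_lit 1882733539) (nat_lit 76) (nat_lit 9052228991) (nat_lit 152) (nat_lit 36476405042) (nat_lit 5) (nat_lit 5) (nat_lit 6) (nat_lit 5) (nat_lit 7) (nat_lit 4) (nat_lit 311) (nat_lit 226) (nat_lit 183)) (XT.lf (nat_lit 0) (nat_lit 11034031486) (nat_lit 76) (nat_lit 4475612761) (nat_lit 152) (nat_lit 34113492381) (nat_lit 5) (nat_lit 5) (nat_lit 6) (nat_lit 5) (nat_lit 7) (nat_lit 4) (nat_lit 312) (nat_lit 226) (nat_lit 182))) (XT.nd (nat_lit 78) (nat_lit 0) (nat_lit 0) (XT.lf (nat_lit 0) (nat_lit 20268370745) (nat_lit 152) (nat_lit 31390141199) (nat_lit 0) (nat_lit 288361876) (nat_lit 5) (nat_lit 5) (nat_lit 7) (nat_lit 4) (nat_lit 5) (nat_lit 4) (nat_lit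 313) (nat_lit 226) (nat_lit 181)) (XT.nd (nat_lit 78) (nat_lit 0) (nat_lit 0) (XT.lf (nat_lit 0) (nat_lit 25264626180) (nat_lit 152) (nat_lit 23956755667) (nat_lit 0) (nat_lit 5165465392) (nat_lit 5) (nat_lit 5) (nat_lit 7) (nat_lit 4) (nat_lit 5) (nat_lit 4) (nat_lit 314) (nat_lit 226) (nat_lit 180)) (XT.lf (nat_lit 0) (nat_lit 30467284069) (nat_lit 152) (nat_lit 16228227682) (nat_lit 0) (nat_lit 10254645264) (nat_lit 5) (nat_lit 5) (nat_lit 7) (nat_lit 4) (nat_lit 5) (nat_lit 4) (nat_lit 315) (nat_lit 226) (nat_lit 179))))) (XT.nd (nat_lit 234) (nat_lit 0) (nat_lit 0) (XT.nd (nat_lit 78) (nat_lit 76) (nat_lit 0) (XT.lf (nat_lit 0) (nat_lit 35888731693) (nat_lit 152) (nat_lit 8186155987) (nat_lit 0) (nat_lit 15568018586) (nat_lit 5) (nat_lit 5) (nat_lit 7) (nat_lit 4) (nat_lit 5) (nat_lit 4) (nat_lit 316) (nat_lit 226) (nat_lit 178)) (XT.nd (nat_lit 78) (nat_lit 0) (nat_lit 0) (XT.lf (nat_lit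 0) (nat_lit 192360860) (nat_lit 76) (nat_lit 41351365491) (nat_lit 76) (nat_lit 20927724477) (nat_lit 4) (nat_lit 4) (nat_lit 5) (nat_lit 5) (nat_lit 5) (nat_lit 4) (nat_lit 317) (nat_lit 226) (nat_lit 177)) (XT.lf (nat_lit 0) (nat_lit 9093447732) (nat_lit 76) (nat_lit 38434144694) (nat_lit 76) (nat_lit 17912477102) (nat_lit 4) (nat_lit 4) (nat_lit 5) (nat_lit 5) (nat_lit 5) (nat_lit 4) (nat_lit 318) (nat_lit 226) (nat_lit 176)))) (XT.nd (nat_lit 78) (nat_lit 0) (nat_lit 0) (XT.lf (nat_lit 0) (nat_lit 18375377137) (nat_lit 76) (nat_lit 35398943650) (nat_lit 76) (nat_lit 14783917413) (nat_lit 4) (nat_lit 4) (nat_lit 5) (nat_lit 5) (nat_lit 5) (nat_lit 4) (nat_lit 319) (nat_lit 226) (nat_lit 175)) (XT.nd (nat_lit 78) (nat_lit 0) (nat_lit 0) (XT.lf (nat_lit 0) (nat_lit 28060248906) (nat_lit 76) (nat_lit 32238535689) (nat_lit 76) (nat_lit 11534596456) (nat_lit 4) (nat_lit 4) (nat_lit 5) (nat_lit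 5) (nat_lit 5) (nat_lit 4) (nat_lit 320) (nat_lit 226) (nat_lit 174)) (XT.lf (nat_lit 0) (nat_lit 38171122259) (nat_lit 76) (nat_lit 28945396030) (nat_lit 76) (nat_lit 8156777754) (nat_lit 4) (nat_lit 4) (nat_lit 5) (nat_lit 5) (nat_lit 5) (nat_lit 4) (nat_lit 321) (nat_lit 226) (nat_lit 173))))))) (XT.nd (nat_lit 33150) (nat_lit 0) (nat_lit 3192) (XT.nd (nat_lit 390) (nat_lit 0) (nat_lit 0) (XT.nd (nat_lit 156) (nat_lit 152) (nat_lit 0) (XT.nd (nat_lit 78) (nat_lit 0) (nat_lit 0) (XT.lf (nat_lit 0) (nat_lit 48732070703) (nat_lit 76) (nat_lit 25511683866) (nat_lit 76) (nat_lit 4642418881) (nat_lit 4) (nat_lit 4) (nat_lit 5) (nat_lit 5) (nat_lit 5) (nat_lit 4) (nat_lit 322) (nat_lit 226) (nat_lit 172)) (XT.lf (nat_lit 0) (nat_lit 59768239353) (nat_lit 76) (nat_lit 21929223690) (nat_lit 76) (nat_lit 983152317) (nat_lit 4) (nat_lit 4) (nat_lit 5) (nat_lit 5) (nat_lit 5) (nat_lit 4) (nat_lit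 323) (nat_lit 226) (nat_lit 171))) (XT.nd (nat_lit 78) (nat_lit 76) (nat_lit 0) (XT.lf (nat_lit 0) (nat_lit 2774516166) (nat_lit 152) (nat_lit 15386952496) (nat_lit 76) (nat_lit 68503371462) (nat_lit 3) (nat_lit 5) (nat_lit 5) (nat_lit 5) (nat_lit 4) (nat_lit 4) (nat_lit 324) (nat_lit 226) (nat_lit 170)) (XT.nd (nat_lit 78) (nat_lit 76) (nat_lit 0) (XT.lf (nat_lit 0) (nat_lit 6672523506) (nat_lit 152) (nat_lit 7543663256) (nat_lit 76) (nat_lit 76632634770) (nat_lit 3) (nat_lit 5) (nat_lit 5) (nat_lit 5) (nat_lit 4) (nat_lit 4) (nat_lit 325) (nat_lit 226) (nat_lit 169)) (XT.lf (nat_lit 0) (nat_lit 658465915) (nat_lit 76) (nat_lit 10087199175) (nat_lit 152) (nat_lit 84496949984) (nat_lit 2) (nat_lit 5) (nat_lit 3) (nat_lit 5) (nat_lit 4) (nat_lit 4) (nat_lit 326) (nat_lit 226) (nat_lit 168))))) (XT.nd (nat_lit 156) (nat_lit 0) (nat_lit 0) (XT.nd (nat_lit 78) (nat_lit 0) (nat_lit 0) (XT.lf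 (nat_lit 0) (nat_lit 9383491905) (nat_lit 76) (nat_lit 5691343036) (nat_lit 152) (nat_lit 84779711344) (nat_lit 2) (nat_lit 5) (nat_lit 3) (nat_lit 5) (nat_lit 4) (nat_lit 4) (nat_lit 327) (nat_lit 226) (nat_lit 167)) (XT.lf (nat_lit 0) (nat_lit 18502054892) (nat_lit 76) (nat_lit 1094328227) (nat_lit 152) (nat_lit 85101431555) (nat_lit 2) (nat_lit 5) (nat_lit 3) (nat_lit 5) (nat_lit 4) (nat_lit 4) (nat_lit 328) (nat_lit 226) (nat_lit 166))) (XT.nd (nat_lit 78) (nat_lit 0) (nat_lit 0) (XT.lf (nat_lit 0) (nat_lit 24356784057) (nat_lit 152) (nat_lit 81783794933) (nat_lit 0) (nat_lit 3642301580) (nat_lit 2) (nat_lit 5) (nat_lit 4) (nat_lit 4) (nat_lit 2) (nat_lit 4) (nat_lit 329) (nat_lit 226) (nat_lit 165)) (XT.nd (nat_lit 78) (nat_lit 0) (nat_lit 0) (XT.lf (nat_lit 0) (nat_lit 29344246474) (nat_lit 152) (nat_lit 77201529586) (nat_lit 0) (nat_lit 8576768981) (nat_lit 2) (nat_lit 5) (nat_lit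 4) (nat_lit 4) (nat_lit 2) (nat_lit 4) (nat_lit 330) (nat_lit 226) (nat_lit 164)) (XT.lf (nat_lit 0) (nat_lit 34560125927) (nat_lit 152) (nat_lit 72427534233) (nat_lit 0) (nat_lit 13742176990) (nat_lit 2) (nat_lit 5) (nat_lit 4) (nat_lit 4) (nat_lit 2) (nat_lit 4) (nat_lit 331) (nat_lit 226) (nat_lit 163)))))) (XT.nd (nat_lit 390) (nat_lit 1520) (nat_lit 0) (XT.nd (nat_lit 156) (nat_lit 1064) (nat_lit 0) (XT.nd (nat_lit 78) (nat_lit 380) (nat_lit 0) (XT.lf (nat_lit 0) (nat_lit 1372562596) (nat_lit 456) (nat_lit 1679072624) (nat_lit 0) (nat_lit 1372562596) (nat_lit 83) (nat_lit 5) (nat_lit 89) (nat_lit 4) (nat_lit 83) (nat_lit 4) (nat_lit 266) (nat_lit 227) (nat_lit 227)) (XT.lf (nat_lit 0) (nat_lit 5828882855) (nat_lit 380) (nat_lit 2441756784) (nat_lit 380) (nat_lit 790963414) (nat_lit 78) (nat_lit 4) (nat_lit 83) (nat_lit 5) (nat_lit 83) (nat_lit 4) (nat_lit 267) (nat_lit 227) (nat_lit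 226))) (XT.nd (nat_lit 78) (nat_lit 684) (nat_lit 0) (XT.lf (nat_lit 0) (nat_lit 4572520338) (nat_lit 380) (nat_lit 3272260804) (nat_lit 0) (nat_lit 1443415938) (nat_lit 73) (nat_lit 5) (nat_lit 78) (nat_lit 4) (nat_lit 73) (nat_lit 4) (nat_lit 268) (nat_lit 227) (nat_lit 225)) (XT.nd (nat_lit 78) (nat_lit 304) (nat_lit 0) (XT.lf (nat_lit 0) (nat_lit 543432286) (nat_lit 380) (nat_lit 3479643896) (nat_lit 76) (nat_lit 5506226345) (nat_lit 68) (nat_lit 5) (nat_lit 73) (nat_lit 5) (nat_lit 69) (nat_lit 4) (nat_lit 269) (nat_lit 227) (nat_lit 224)) (XT.lf (nat_lit 0) (nat_lit 5844533045) (nat_lit 380) (nat_lit 3889608235) (nat_lit 0) (nat_lit 51043402) (nat_lit 64) (nat_lit 5) (nat_lit 69) (nat_lit 4) (nat_lit 64) (nat_lit 4) (nat_lit 270) (nat_lit 227) (nat_lit 223))))) (XT.nd (nat_lit 234) (nat_lit 532) (nat_lit 0) (XT.nd (nat_lit 78) (nat_lit 608) (nat_lit 0) (XT.lf (nat_lit 0) (nat_lit 1250355079)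 (nat_lit 380) (nat_lit 4535419449) (nat_lit 76) (nat_lit 4270482489) (nat_lit 59) (nat_lit 5) (nat_lit 64) (nat_lit 5) (nat_lit 60) (nat_lit 4) (nat_lit 271) (nat_lit 227) (nat_lit 222)) (XT.nd (nat_lit 78) (nat_lit 380) (nat_lit 0) (XT.lf (nat_lit 0) (nat_lit 4909978634) (nat_lit 228) (nat_lit 1593868636) (nat_lit 304) (nat_lit 3839701206) (nat_lit 56) (nat_lit 5) (nat_lit 59) (nat_lit 5) (nat_lit 60) (nat_lit 4) (nat_lit 272) (nat_lit 227) (nat_lit 221)) (XT.lf (nat_lit 0) (nat_lit 1262058834) (nat_lit 380) (nat_lit 6616628017) (nat_lit 76) (nat_lit 2769040095) (nat_lit 51) (nat_lit 5) (nat_lit 56) (nat_lit 5) (nat_lit 52) (nat_lit 4) (nat_lit 273) (nat_lit 227) (nat_lit 220)))) (XT.nd (nat_lit 78) (nat_lit 304) (nat_lit 0) (XT.lf (nat_lit 0) (nat_lit 2834830977) (nat_lit 228) (nat_lit 3612002355) (nat_lit 304) (nat_lit 4522245337) (nat_lit 48) (nat_lit 5) (nat_lit 51) (nat_lit 5) (nat_lit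 52) (nat_lit 4) (nat_lit 274) (nat_lit 227) (nat_lit 219)) (XT.nd (nat_lit 78) (nat_lit 0) (nat_lit 0) (XT.lf (nat_lit 0) (nat_lit 474095664) (nat_lit 304) (nat_lit 9983943603) (nat_lit 76) (nat_lit 851556174) (nat_lit 44) (nat_lit 5) (nat_lit 48) (nat_lit 5) (nat_lit 45) (nat_lit 4) (nat_lit 275) (nat_lit 227) (nat_lit 218)) (XT.lf (nat_lit 0) (nat_lit 5565355740) (nat_lit 304) (nat_lit 594139042) (nat_lit 76) (nat_lit 5508427318) (nat_lit 44) (nat_lit 5) (nat_lit 48) (nat_lit 5) (nat_lit 45) (nat_lit 4) (nat_lit 276) (nat_lit 227) (nat_lit 217))))))))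
noncomputable def xc26 : XT := (XT.nd (nat_lit 1638) (nat_lit 608) (nat_lit 0) (XT.nd (nat_lit 780) (nat_lit 836) (nat_lit 0) (XT.nd (nat_lit 390) (nat_lit 608) (nat_lit 0) (XT.nd (nat_lit 156) (nat_lit 456) (nat_lit 0) (XT.nd (nat_lit 78) (nat_lit 304) (nat_lit 0) (XT.lf (nat_lit 0) (nat_lit 9182325274) (nat_lit 228) (nat_lit 1642585205) (nat_lit 304) (nat_lit 1222115198) (nat_lit 41) (nat_lit 5) (nat_lit 44) (nat_lit 5) (nat_lit 45) (nat_lit 4) (nat_lit 277) (nat_lit 227) (nat_lit 216)) (XT.lf (nat_lit 0) (nat_lit 3757712404) (nat_lit 304) (nat_lit 5624074012) (nat_lit 76) (nat_lit 3064479571) (nat_lit 37) (nat_lit 5) (nat_lit 41) (nat_lit 5) (nat_lit 38) (nat_lit 4) (nat_lit 278) (nat_lit 227) (nat_lit 215))) (XT.nd (nat_lit 78) (nat_lit 304) (nat_lit 0) (XT.lf (nat_lit 0) (nat_lit 3982099511) (nat_lit 152) (nat_lit 4898324127) (nat_lit 228) (nat_lit 3987346642) (nat_lit 35) (nat_lit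 5) (nat_lit 37) (nat_lit 5) (nat_lit 38) (nat_lit 4) (nat_lit 279) (nat_lit 227) (nat_lit 214)) (XT.nd (nat_lit 78) (nat_lit 0) (nat_lit 0) (XT.lf (nat_lit 0) (nat_lit 628829061) (nat_lit 228) (nat_lit 204079688) (nat_lit 304) (nat_lit 12480314153) (nat_lit 31) (nat_lit 5) (nat_lit 34) (nat_lit 5) (nat_lit 35) (nat_lit 5) (nat_lit 280) (nat_lit 227) (nat_lit 213)) (XT.lf (nat_lit 0) (nat_lit 5792794051) (nat_lit 304) (nat_lit 3308145853) (nat_lit 76) (nat_lit 4679602787) (nat_lit 31) (nat_lit 5) (nat_lit 35) (nat_lit 5) (nat_lit 32) (nat_lit 4) (nat_lit 281) (nat_lit 227) (nat_lit 212))))) (XT.nd (nat_lit 156) (nat_lit 228) (nat_lit 0) (XT.nd (nat_lit 78) (nat_lit 228) (nat_lit 0) (XT.lf (nat_lit 0) (nat_lit 6423912415) (nat_lit 152) (nat_lit 4490591429) (nat_lit 228) (nat_lit 3359510999) (nat_lit 29) (nat_lit 5) (nat_lit 31) (nat_lit 5) (nat_lit 32) (nat_lit 4) (nat_lit 282) (nat_lit 227)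 (nat_lit 211)) (XT.lf (nat_lit 0) (nat_lit 1378178606) (nat_lit 228) (nat_lit 13091497172) (nat_lit 76) (nat_lit 325018934) (nat_lit 26) (nat_lit 5) (nat_lit 29) (nat_lit 5) (nat_lit 27) (nat_lit 4) (nat_lit 283) (nat_lit 227) (nat_lit 210))) (XT.nd (nat_lit 78) (nat_lit 228) (nat_lit 0) (XT.lf (nat_lit 0) (nat_lit 6268188423) (nat_lit 228) (nat_lit 3750394760) (nat_lit 76) (nat_lit 5322457297) (nat_lit 26) (nat_lit 5) (nat_lit 29) (nat_lit 5) (nat_lit 27) (nat_lit 4) (nat_lit 284) (nat_lit 227) (nat_lit 209)) (XT.nd (nat_lit 78) (nat_lit 76) (nat_lit 0) (XT.lf (nat_lit 0) (nat_lit 5955321146) (nat_lit 152) (nat_lit 5368752436) (nat_lit 228) (nat_lit 4593157519) (nat_lit 24) (nat_lit 5) (nat_lit 26) (nat_lit 5) (nat_lit 27) (nat_lit 4) (nat_lit 285) (nat_lit 227) (nat_lit 208)) (XT.lf (nat_lit 0) (nat_lit 14452438) (nat_lit 228) (nat_lit 513007513) (nat_lit 76) (nat_lit 15997712898) (nat_lit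 23) (nat_lit 5) (nat_lit 26) (nat_lit 5) (nat_lit 24) (nat_lit 5) (nat_lit 286) (nat_lit 227) (nat_lit 207)))))) (XT.nd (nat_lit 390) (nat_lit 380) (nat_lit 0) (XT.nd (nat_lit 156) (nat_lit 228) (nat_lit 0) (XT.nd (nat_lit 78) (nat_lit 76) (nat_lit 0) (XT.lf (nat_lit 0) (nat_lit 4765922745) (nat_lit 228) (nat_lit 7868476835) (nat_lit 76) (nat_lit 4527642252) (nat_lit 21) (nat_lit 5) (nat_lit 24) (nat_lit 5) (nat_lit 22) (nat_lit 4) (nat_lit 287) (nat_lit 227) (nat_lit 206)) (XT.lf (nat_lit 0) (nat_lit 1594180300) (nat_lit 76) (nat_lit 8063571719) (nat_lit 152) (nat_lit 8176060258) (nat_lit 20) (nat_lit 5) (nat_lit 21) (nat_lit 5) (nat_lit 22) (nat_lit 4) (nat_lit 288) (nat_lit 227) (nat_lit 205))) (XT.nd (nat_lit 78) (nat_lit 228) (nat_lit 0) (XT.lf (nat_lit 0) (nat_lit 11498050212) (nat_lit 76) (nat_lit 3257904809) (nat_lit 152) (nat_lit 3784497589) (nat_lit 20) (nat_lit 5) (nat_lit 21)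 (nat_lit 5) (nat_lit 22) (nat_lit 4) (nat_lit 289) (nat_lit 227) (nat_lit 204)) (XT.nd (nat_lit 78) (nat_lit 0) (nat_lit 0) (XT.lf (nat_lit 0) (nat_lit 736205790) (nat_lit 228) (nat_lit 16836383049) (nat_lit 76) (nat_lit 1711951609) (nat_lit 17) (nat_lit 5) (nat_lit 20) (nat_lit 5) (nat_lit 18) (nat_lit 4) (nat_lit 290) (nat_lit 227) (nat_lit 203)) (XT.lf (nat_lit 0) (nat_lit 5399705829) (nat_lit 228) (nat_lit 7761774544) (nat_lit 76) (nat_lit 6903496012) (nat_lit 17) (nat_lit 5) (nat_lit 20) (nat_lit 5) (nat_lit 18) (nat_lit 4) (nat_lit 291) (nat_lit 227) (nat_lit 202))))) (XT.nd (nat_lit 234) (nat_lit 304) (nat_lit 0) (XT.nd (nat_lit 78) (nat_lit 0) (nat_lit 0) (XT.lf (nat_lit 0) (nat_lit 1620346067) (nat_lit 76) (nat_lit 8585141238) (nat_lit 152) (nat_lit 10681786703) (nat_lit 16) (nat_lit 5) (nat_lit 17) (nat_lit 5) (nat_lit 18) (nat_lit 4) (nat_lit 292) (nat_lit 227) (nat_lit 201))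 (XT.nd (nat_lit 78) (nat_lit 0) (nat_lit 0) (XT.lf (nat_lit 0) (nat_lit 11461031527) (nat_lit 76) (nat_lit 3767367117) (nat_lit 152) (nat_lit 6523090343) (nat_lit 16) (nat_lit 5) (nat_lit 17) (nat_lit 5) (nat_lit 18) (nat_lit 4) (nat_lit 293) (nat_lit 227) (nat_lit 200)) (XT.lf (nat_lit 0) (nat_lit 20416078145) (nat_lit 152) (nat_lit 1044499163) (nat_lit 0) (nat_lit 1201031298) (nat_lit 16) (nat_lit 5) (nat_lit 18) (nat_lit 4) (nat_lit 16) (nat_lit 4) (nat_lit 294) (nat_lit 227) (nat_lit 199)))) (XT.nd (nat_lit 78) (nat_lit 76) (nat_lit 0) (XT.lf (nat_lit 0) (nat_lit 2229199231) (nat_lit 228) (nat_lit 15003115476) (nat_lit 76) (nat_lit 6383553140) (nat_lit 13) (nat_lit 5) (nat_lit 16) (nat_lit 5) (nat_lit 14) (nat_lit 4) (nat_lit 295) (nat_lit 227) (nat_lit 198)) (XT.nd (nat_lit 78) (nat_lit 76) (nat_lit 0) (XT.lf (nat_lit 0) (nat_lit 6800431747) (nat_lit 228) (nat_lit 6021935442) (nat_lit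 76) (nat_lit 11797319977) (nat_lit 13) (nat_lit 5) (nat_lit 16) (nat_lit 5) (nat_lit 14) (nat_lit 4) (nat_lit 296) (nat_lit 227) (nat_lit 197)) (XT.lf (nat_lit 0) (nat_lit 3324276720) (nat_lit 76) (nat_lit 8220206044) (nat_lit 152) (nat_lit 14130973002) (nat_lit 12) (nat_lit 5) (nat_lit 13) (nat_lit 5) (nat_lit 14) (nat_lit 4) (nat_lit 297) (nat_lit 227) (nat_lit 196))))))) (XT.nd (nat_lit 780) (nat_lit 228) (nat_lit 0) (XT.nd (nat_lit 390) (nat_lit 152) (nat_lit 0) (XT.nd (nat_lit 156) (nat_lit 228) (nat_lit 0) (XT.nd (nat_lit 78) (nat_lit 0) (nat_lit 0) (XT.lf (nat_lit 0) (nat_lit 13119012804) (nat_lit 76) (nat_lit 3383801787) (nat_lit 152) (nat_lit 10281967783) (nat_lit 12) (nat_lit 5) (nat_lit 13) (nat_lit 5) (nat_lit 14) (nat_lit 4) (nat_lit 298) (nat_lit 227) (nat_lit 195)) (XT.lf (nat_lit 0) (nat_lit 21643935341) (nat_lit 152) (nat_lit 4702075260) (nat_lit 0) (nat_lit 1605596567)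 (nat_lit 12) (nat_lit 5) (nat_lit 14) (nat_lit 4) (nat_lit 12) (nat_lit 4) (nat_lit 299) (nat_lit 227) (nat_lit 194))) (XT.nd (nat_lit 78) (nat_lit 76) (nat_lit 0) (XT.lf (nat_lit 0) (nat_lit 4633011441) (nat_lit 152) (nat_lit 22410250990) (nat_lit 152) (nat_lit 2133550571) (nat_lit 10) (nat_lit 4) (nat_lit 12) (nat_lit 5) (nat_lit 12) (nat_lit 4) (nat_lit 300) (nat_lit 227) (nat_lit 193)) (XT.nd (nat_lit 78) (nat_lit 0) (nat_lit 0) (XT.lf (nat_lit 0) (nat_lit 2178366866) (nat_lit 228) (nat_lit 16081626770) (nat_lit 76) (nat_lit 12203516109) (nat_lit 9) (nat_lit 5) (nat_lit 12) (nat_lit 5) (nat_lit 10) (nat_lit 4) (nat_lit 301) (nat_lit 227) (nat_lit 192)) (XT.lf (nat_lit 0) (nat_lit 6589878256) (nat_lit 228) (nat_lit 7342459689) (nat_lit 76) (nat_lit 17883791398) (nat_lit 9) (nat_lit 5) (nat_lit 12) (nat_lit 5) (nat_lit 10) (nat_lit 4) (nat_lit 302) (nat_lit 227) (nat_lit 191))))) (XT.nd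 (nat_lit 156) (nat_lit 76) (nat_lit 0) (XT.nd (nat_lit 78) (nat_lit 0) (nat_lit 0) (XT.lf (nat_lit 0) (nat_lit 1749148402) (nat_lit 76) (nat_lit 9420785933) (nat_lit 152) (nat_lit 22068068830) (nat_lit 8) (nat_lit 5) (nat_lit 9) (nat_lit 5) (nat_lit 10) (nat_lit 4) (nat_lit 303) (nat_lit 227) (nat_lit 190)) (XT.lf (nat_lit 0) (nat_lit 11333524247) (nat_lit 76) (nat_lit 4654378838) (nat_lit 152) (nat_lit 18742859655) (nat_lit 8) (nat_lit 5) (nat_lit 9) (nat_lit 5) (nat_lit 10) (nat_lit 4) (nat_lit 304) (nat_lit 227) (nat_lit 189))) (XT.nd (nat_lit 78) (nat_lit 76) (nat_lit 0) (XT.lf (nat_lit 0) (nat_lit 20986194032) (nat_lit 152) (nat_lit 15015686433) (nat_lit 0) (nat_lit 298153641) (nat_lit 8) (nat_lit 5) (nat_lit 10) (nat_lit 4) (nat_lit 8) (nat_lit 4) (nat_lit 305) (nat_lit 227) (nat_lit 188)) (XT.nd (nat_lit 78) (nat_lit 76) (nat_lit 0) (XT.lf (nat_lit 0) (nat_lit 26220478248) (nat_lit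 152) (nat_lit 6368012885) (nat_lit 0) (nat_lit 5359749382) (nat_lit 8) (nat_lit 5) (nat_lit 10) (nat_lit 4) (nat_lit 8) (nat_lit 4) (nat_lit 306) (nat_lit 227) (nat_lit 187)) (XT.lf (nat_lit 0) (nat_lit 2663078846) (nat_lit 76) (nat_lit 29020997875) (nat_lit 76) (nat_lit 7995803794) (nat_lit 7) (nat_lit 4) (nat_lit 8) (nat_lit 5) (nat_lit 8) (nat_lit 4) (nat_lit 307) (nat_lit 227) (nat_lit 186)))))) (XT.nd (nat_lit 390) (nat_lit 76) (nat_lit 0) (XT.nd (nat_lit 156) (nat_lit 76) (nat_lit 0) (XT.nd (nat_lit 78) (nat_lit 76) (nat_lit 0) (XT.lf (nat_lit 0) (nat_lit 12180759338) (nat_lit 76) (nat_lit 25249469212) (nat_lit 76) (nat_lit 4067641593) (nat_lit 7) (nat_lit 4) (nat_lit 8) (nat_lit 5) (nat_lit 8) (nat_lit 4) (nat_lit 308) (nat_lit 227) (nat_lit 185)) (XT.lf (nat_lit 0) (nat_lit 1738067) (nat_lit 152) (nat_lit 21327474139) (nat_lit 76) (nat_lit 22079198174) (nat_lit 6) (nat_lit 5) (nat_lit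 8) (nat_lit 5) (nat_lit 7) (nat_lit 4) (nat_lit 309) (nat_lit 227) (nat_lit 184))) (XT.nd (nat_lit 78) (nat_lit 76) (nat_lit 0) (XT.lf (nat_lit 0) (nat_lit 4139739118) (nat_lit 152) (nat_lit 13069403243) (nat_lit 76) (nat_lit 28205691734) (nat_lit 6) (nat_lit 5) (nat_lit 8) (nat_lit 5) (nat_lit 7) (nat_lit 4) (nat_lit 310) (nat_lit 227) (nat_lit 183)) (XT.nd (nat_lit 78) (nat_lit 76) (nat_lit 0) (XT.lf (nat_lit 0) (nat_lit 8435588279) (nat_lit 152) (nat_lit 4484135384) (nat_lit 76) (nat_lit 34603367843) (nat_lit 6) (nat_lit 5) (nat_lit 8) (nat_lit 5) (nat_lit 7) (nat_lit 4) (nat_lit 311) (nat_lit 227) (nat_lit 182)) (XT.lf (nat_lit 0) (nat_lit 4537309808) (nat_lit 76) (nat_lit 8405819354) (nat_lit 152) (nat_lit 36793764652) (nat_lit 5) (nat_lit 5) (nat_lit 6) (nat_lit 5) (nat_lit 7) (nat_lit 4) (nat_lit 312) (nat_lit 227) (nat_lit 181))))) (XT.nd (nat_lit 234) (nat_lit 76) (nat_lit 0) (XT.nd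 (nat_lit 78) (nat_lit 0) (nat_lit 0) (XT.lf (nat_lit 0) (nat_lit 14024246958) (nat_lit 76) (nat_lit 3652706650) (nat_lit 152) (nat_lit 34384442579) (nat_lit 5) (nat_lit 5) (nat_lit 6) (nat_lit 5) (nat_lit 7) (nat_lit 4) (nat_lit 313) (nat_lit 227) (nat_lit 180)) (XT.nd (nat_lit 78) (nat_lit 0) (nat_lit 0) (XT.lf (nat_lit 0) (nat_lit 22616921227) (nat_lit 152) (nat_lit 30605981805) (nat_lit 0) (nat_lit 1280172465) (nat_lit 5) (nat_lit 5) (nat_lit 7) (nat_lit 4) (nat_lit 5) (nat_lit 4) (nat_lit 314) (nat_lit 227) (nat_lit 179)) (XT.lf (nat_lit 0) (nat_lit 27799411722) (nat_lit 152) (nat_lit 22913006351) (nat_lit 0) (nat_lit 6354588657) (nat_lit 5) (nat_lit 5) (nat_lit 7) (nat_lit 4) (nat_lit 5) (nat_lit 4) (nat_lit 315) (nat_lit 227) (nat_lit 178)))) (XT.nd (nat_lit 78) (nat_lit 76) (nat_lit 0) (XT.lf (nat_lit 0) (nat_lit 33201652303) (nat_lit 152) (nat_lit 14904794210) (nat_lit 0) (nat_lit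 11653901332) (nat_lit 5) (nat_lit 5) (nat_lit 7) (nat_lit 4) (nat_lit 5) (nat_lit 4) (nat_lit 316) (nat_lit 227) (nat_lit 177)) (XT.nd (nat_lit 78) (nat_lit 76) (nat_lit 0) (XT.lf (nat_lit 0) (nat_lit 38836505450) (nat_lit 152) (nat_lit 6562278209) (nat_lit 0) (nat_lit 17190727901) (nat_lit 5) (nat_lit 5) (nat_lit 7) (nat_lit 4) (nat_lit 5) (nat_lit 4) (nat_lit 317) (nat_lit 227) (nat_lit 176)) (XT.lf (nat_lit 0) (nat_lit 2176883624) (nat_lit 76) (nat_lit 42561429392) (nat_lit 76) (nat_lit 20822293198) (nat_lit 4) (nat_lit 4) (nat_lit 5) (nat_lit 5) (nat_lit 5) (nat_lit 4) (nat_lit 318) (nat_lit 227) (nat_lit 175))))))))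
noncomputable def xc27 : XT := (XT.nd (nat_lit 33930) (nat_lit 0) (nat_lit 1064) (XT.nd (nat_lit 780) (nat_lit 0) (nat_lit 0) (XT.nd (nat_lit 390) (nat_lit 152) (nat_lit 0) (XT.nd (nat_lit 156) (nat_lit 0) (nat_lit 0) (XT.nd (nat_lit 78) (nat_lit 0) (nat_lit 0) (XT.lf (nat_lit 0) (nat_lit 11428981758) (nat_lit 76) (nat_lit 39539181097) (nat_lit 76) (nat_lit 17711131907) (nat_lit 4) (nat_lit 4) (nat_lit 5) (nat_lit 5) (nat_lit 5) (nat_lit 4) (nat_lit 319) (nat_lit 227) (nat_lit 174)) (XT.lf (nat_lit 0) (nat_lit 21085442793) (nat_lit 76) (nat_lit 36391109087) (nat_lit 76) (nat_lit 14478380854) (nat_lit 4) (nat_lit 4) (nat_lit 5) (nat_lit 5) (nat_lit 5) (nat_lit 4) (nat_lit 320) (nat_lit 227) (nat_lit 173))) (XT.nd (nat_lit 78) (nat_lit 0) (nat_lit 0) (XT.lf (nat_lit 0) (nat_lit 31169258303) (nat_lit 76) (nat_lit 33109717954) (nat_lit 76) (nat_lit 11116343012) (nat_lit 4) (nat_lit 4) (nat_lit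 5) (nat_lit 5) (nat_lit 5) (nat_lit 4) (nat_lit 321) (nat_lit 227) (nat_lit 172)) (XT.nd (nat_lit 78) (nat_lit 0) (nat_lit 0) (XT.lf (nat_lit 0) (nat_lit 41704437373) (nat_lit 76) (nat_lit 29687194861) (nat_lit 76) (nat_lit 7617013531) (nat_lit 4) (nat_lit 4) (nat_lit 5) (nat_lit 5) (nat_lit 5) (nat_lit 4) (nat_lit 322) (nat_lit 227) (nat_lit 171)) (XT.lf (nat_lit 0) (nat_lit 52716063763) (nat_lit 76) (nat_lit 26115390944) (nat_lit 76) (nat_lit 3972060672) (nat_lit 4) (nat_lit 4) (nat_lit 5) (nat_lit 5) (nat_lit 5) (nat_lit 4) (nat_lit 323) (nat_lit 227) (nat_lit 170))))) (XT.nd (nat_lit 156) (nat_lit 76) (nat_lit 0) (XT.nd (nat_lit 78) (nat_lit 76) (nat_lit 0) (XT.lf (nat_lit 0) (nat_lit 64230355630) (nat_lit 76) (nat_lit 22385801908) (nat_lit 76) (nat_lit 172805977) (nat_lit 4) (nat_lit 4) (nat_lit 5) (nat_lit 5) (nat_lit 5) (nat_lit 4) (nat_lit 324) (nat_lit 227) (nat_lit 169)) (XT.lf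 (nat_lit 0) (nat_lit 3715843819) (nat_lit 152) (nat_lit 14736181222) (nat_lit 76) (nat_lit 72521361399) (nat_lit 3) (nat_lit 5) (nat_lit 5) (nat_lit 5) (nat_lit 4) (nat_lit 4) (nat_lit 325) (nat_lit 227) (nat_lit 168))) (XT.nd (nat_lit 78) (nat_lit 76) (nat_lit 0) (XT.lf (nat_lit 0) (nat_lit 7770532391) (nat_lit 152) (nat_lit 6568352229) (nat_lit 76) (nat_lit 81028858284) (nat_lit 3) (nat_lit 5) (nat_lit 5) (nat_lit 5) (nat_lit 4) (nat_lit 4) (nat_lit 326) (nat_lit 227) (nat_lit 167)) (XT.nd (nat_lit 78) (nat_lit 0) (nat_lit 0) (XT.lf (nat_lit 0) (nat_lit 2005114426) (nat_lit 76) (nat_lit 10018445782) (nat_lit 152) (nat_lit 87958407051) (nat_lit 2) (nat_lit 5) (nat_lit 3) (nat_lit 5) (nat_lit 4) (nat_lit 4) (nat_lit 327) (nat_lit 227) (nat_lit 166)) (XT.lf (nat_lit 0) (nat_lit 11103833371) (nat_lit 76) (nat_lit 5430087948) (nat_lit 152) (nat_lit 88291658404) (nat_lit 2) (nat_lit 5) (nat_lit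 3) (nat_lit 5) (nat_lit 4) (nat_lit 4) (nat_lit 328) (nat_lit 227) (nat_lit 165)))))) (XT.nd (nat_lit 32682) (nat_lit 0) (nat_lit 4104) (XT.nd (nat_lit 32448) (nat_lit 0) (nat_lit 6156) (XT.nd (nat_lit 78) (nat_lit 0) (nat_lit 0) (XT.lf (nat_lit 0) (nat_lit 20618745133) (nat_lit 76) (nat_lit 629213934) (nat_lit 152) (nat_lit 88664085507) (nat_lit 2) (nat_lit 5) (nat_lit 3) (nat_lit 5) (nat_lit 4) (nat_lit 4) (nat_lit 329) (nat_lit 227) (nat_lit 164)) (XT.lf (nat_lit 0) (nat_lit 26219150615) (nat_lit 152) (nat_lit 84723221443) (nat_lit 0) (nat_lit 4309832788) (nat_lit 2) (nat_lit 5) (nat_lit 4) (nat_lit 4) (nat_lit 2) (nat_lit 4) (nat_lit 330) (nat_lit 227) (nat_lit 163))) (XT.nd (nat_lit 78) (nat_lit 836) (nat_lit 0) (XT.lf (nat_lit 0) (nat_lit 1158995241) (nat_lit 456) (nat_lit 1911074660) (nat_lit 0) (nat_lit 1158995241) (nat_lit 94) (nat_lit 5) (nat_lit 100) (nat_lit 4) (nat_lit 94) (nat_lit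 4) (nat_lit 264) (nat_lit 228) (nat_lit 228)) (XT.nd (nat_lit 78) (nat_lit 456) (nat_lit 0) (XT.lf (nat_lit 0) (nat_lit 5045006521) (nat_lit 380) (nat_lit 2694560927) (nat_lit 380) (nat_lit 909227898) (nat_lit 89) (nat_lit 4) (nat_lit 94) (nat_lit 5) (nat_lit 94) (nat_lit 4) (nat_lit 265) (nat_lit 228) (nat_lit 227)) (XT.lf (nat_lit 0) (nat_lit 4364497578) (nat_lit 456) (nat_lit 3507196745) (nat_lit 0) (nat_lit 980371170) (nat_lit 83) (nat_lit 5) (nat_lit 89) (nat_lit 4) (nat_lit 83) (nat_lit 4) (nat_lit 266) (nat_lit 228) (nat_lit 226))))) (XT.nd (nat_lit 234) (nat_lit 912) (nat_lit 0) (XT.nd (nat_lit 78) (nat_lit 684) (nat_lit 0) (XT.lf (nat_lit 0) (nat_lit 695921267) (nat_lit 456) (nat_lit 3543590396) (nat_lit 76) (nat_lit 4829137265) (nat_lit 77) (nat_lit 5) (nat_lit 83) (nat_lit 5) (nat_lit 78) (nat_lit 4) (nat_lit 267) (nat_lit 228) (nat_lit 225)) (XT.nd (nat_lit 78) (nat_lit 380)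 (nat_lit 0) (XT.lf (nat_lit 0) (nat_lit 5562695306) (nat_lit 304) (nat_lit 356676184) (nat_lit 380) (nat_lit 3379602408) (nat_lit 73) (nat_lit 5) (nat_lit 77) (nat_lit 5) (nat_lit 78) (nat_lit 4) (nat_lit 268) (nat_lit 228) (nat_lit 224)) (XT.lf (nat_lit 0) (nat_lit 1740271337) (nat_lit 380) (nat_lit 4117391127) (nat_lit 76) (nat_lit 3685630908) (nat_lit 68) (nat_lit 5) (nat_lit 73) (nat_lit 5) (nat_lit 69) (nat_lit 4) (nat_lit 269) (nat_lit 228) (nat_lit 223)))) (XT.nd (nat_lit 78) (nat_lit 608) (nat_lit 0) (XT.lf (nat_lit 0) (nat_lit 5105574286) (nat_lit 304) (nat_lit 1827564317) (nat_lit 380) (nat_lit 2869478607) (nat_lit 64) (nat_lit 5) (nat_lit 68) (nat_lit 5) (nat_lit 69) (nat_lit 4) (nat_lit 270) (nat_lit 228) (nat_lit 222)) (XT.nd (nat_lit 78) (nat_lit 228) (nat_lit 0) (XT.lf (nat_lit 0) (nat_lit 2175571900) (nat_lit 380) (nat_lit 5510252999) (nat_lit 76) (nat_lit 2391487362) (nat_lit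 59) (nat_lit 5) (nat_lit 64) (nat_lit 5) (nat_lit 60) (nat_lit 4) (nat_lit 271) (nat_lit 228) (nat_lit 221)) (XT.lf (nat_lit 0) (nat_lit 3778777375) (nat_lit 228) (nat_lit 3544658920) (nat_lit 304) (nat_lit 3044507694) (nat_lit 56) (nat_lit 5) (nat_lit 59) (nat_lit 5) (nat_lit 60) (nat_lit 4) (nat_lit 272) (nat_lit 228) (nat_lit 220))))))) (XT.nd (nat_lit 780) (nat_lit 988) (nat_lit 0) (XT.nd (nat_lit 390) (nat_lit 912) (nat_lit 0) (XT.nd (nat_lit 156) (nat_lit 532) (nat_lit 0) (XT.nd (nat_lit 78) (nat_lit 228) (nat_lit 0) (XT.lf (nat_lit 0) (nat_lit 1917284996) (nat_lit 380) (nat_lit 7946397418) (nat_lit 76) (nat_lit 812102751) (nat_lit 51) (nat_lit 5) (nat_lit 56) (nat_lit 5) (nat_lit 52) (nat_lit 4) (nat_lit 273) (nat_lit 228) (nat_lit 219)) (XT.lf (nat_lit 0) (nat_lit 1344883458) (nat_lit 228) (nat_lit 5653085638) (nat_lit 304) (nat_lit 4002441472) (nat_lit 48) (nat_lit 5) (nat_lit 51)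 (nat_lit 5) (nat_lit 52) (nat_lit 4) (nat_lit 274) (nat_lit 228) (nat_lit 218))) (XT.nd (nat_lit 78) (nat_lit 456) (nat_lit 0) (XT.lf (nat_lit 0) (nat_lit 874864928) (nat_lit 304) (nat_lit 347292388) (nat_lit 76) (nat_lit 10122026455) (nat_lit 47) (nat_lit 5) (nat_lit 51) (nat_lit 5) (nat_lit 48) (nat_lit 5) (nat_lit 275) (nat_lit 228) (nat_lit 217)) (XT.nd (nat_lit 78) (nat_lit 228) (nat_lit 0) (XT.lf (nat_lit 0) (nat_lit 5865799577) (nat_lit 304) (nat_lit 2424713812) (nat_lit 76) (nat_lit 3415139748) (nat_lit 44) (nat_lit 5) (nat_lit 48) (nat_lit 5) (nat_lit 45) (nat_lit 4) (nat_lit 276) (nat_lit 228) (nat_lit 216)) (XT.lf (nat_lit 0) (nat_lit 7191172026) (nat_lit 228) (nat_lit 3833957570) (nat_lit 304) (nat_lit 1062760474) (nat_lit 41) (nat_lit 5) (nat_lit 44) (nat_lit 5) (nat_lit 45) (nat_lit 4) (nat_lit 277) (nat_lit 228) (nat_lit 215))))) (XT.nd (nat_lit 156) (nat_lit 456) (nat_lit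 0) (XT.nd (nat_lit 78) (nat_lit 152) (nat_lit 0) (XT.lf (nat_lit 0) (nat_lit 3791941349) (nat_lit 304) (nat_lit 7842707841) (nat_lit 76) (nat_lit 856212792) (nat_lit 37) (nat_lit 5) (nat_lit 41) (nat_lit 5) (nat_lit 38) (nat_lit 4) (nat_lit 278) (nat_lit 228) (nat_lit 214)) (XT.lf (nat_lit 0) (nat_lit 1598434408) (nat_lit 152) (nat_lit 7216321692) (nat_lit 228) (nat_lit 4100718566) (nat_lit 35) (nat_lit 5) (nat_lit 37) (nat_lit 5) (nat_lit 38) (nat_lit 4) (nat_lit 279) (nat_lit 228) (nat_lit 213))) (XT.nd (nat_lit 78) (nat_lit 380) (nat_lit 0) (XT.lf (nat_lit 0) (nat_lit 640439474) (nat_lit 228) (nat_lit 1930442466) (nat_lit 76) (nat_lit 10792620427) (nat_lit 34) (nat_lit 5) (nat_lit 37) (nat_lit 5) (nat_lit 35) (nat_lit 5) (nat_lit 280) (nat_lit 228) (nat_lit 212)) (XT.nd (nat_lit 78) (nat_lit 152) (nat_lit 0) (XT.lf (nat_lit 0) (nat_lit 5485299271) (nat_lit 304) (nat_lit 6049012000) (nat_lit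 76) (nat_lit 2300059835) (nat_lit 31) (nat_lit 5) (nat_lit 35) (nat_lit 5) (nat_lit 32) (nat_lit 4) (nat_lit 281) (nat_lit 228) (nat_lit 211)) (XT.lf (nat_lit 0) (nat_lit 3516535419) (nat_lit 152) (nat_lit 6992848957) (nat_lit 228) (nat_lit 3821481132) (nat_lit 29) (nat_lit 5) (nat_lit 31) (nat_lit 5) (nat_lit 32) (nat_lit 4) (nat_lit 282) (nat_lit 228) (nat_lit 210)))))) (XT.nd (nat_lit 390) (nat_lit 380) (nat_lit 0) (XT.nd (nat_lit 156) (nat_lit 380) (nat_lit 0) (XT.nd (nat_lit 78) (nat_lit 152) (nat_lit 0) (XT.lf (nat_lit 0) (nat_lit 837494259) (nat_lit 228) (nat_lit 1394680150) (nat_lit 76) (nat_lit 12622222520) (nat_lit 28) (nat_lit 5) (nat_lit 31) (nat_lit 5) (nat_lit 29) (nat_lit 5) (nat_lit 283) (nat_lit 228) (nat_lit 209)) (XT.lf (nat_lit 0) (nat_lit 5625959635) (nat_lit 228) (nat_lit 7021208548) (nat_lit 76) (nat_lit 2756703195) (nat_lit 26) (nat_lit 5) (nat_lit 29) (nat_lit 5)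 (nat_lit 27) (nat_lit 4) (nat_lit 284) (nat_lit 228) (nat_lit 208))) (XT.nd (nat_lit 78) (nat_lit 228) (nat_lit 0) (XT.lf (nat_lit 0) (nat_lit 2515809902) (nat_lit 152) (nat_lit 8069849635) (nat_lit 228) (nat_lit 5397366444) (nat_lit 24) (nat_lit 5) (nat_lit 26) (nat_lit 5) (nat_lit 27) (nat_lit 4) (nat_lit 285) (nat_lit 228) (nat_lit 207)) (XT.nd (nat_lit 78) (nat_lit 228) (nat_lit 0) (XT.lf (nat_lit 0) (nat_lit 12474131605) (nat_lit 152) (nat_lit 3266306322) (nat_lit 228) (nat_lit 852440698) (nat_lit 24) (nat_lit 5) (nat_lit 26) (nat_lit 5) (nat_lit 27) (nat_lit 4) (nat_lit 286) (nat_lit 228) (nat_lit 206)) (XT.lf (nat_lit 0) (nat_lit 3793540421) (nat_lit 228) (nat_lit 11678478352) (nat_lit 76) (nat_lit 1761707424) (nat_lit 21) (nat_lit 5) (nat_lit 24) (nat_lit 5) (nat_lit 22) (nat_lit 4) (nat_lit 287) (nat_lit 228) (nat_lit 205))))) (XT.nd (nat_lit 234) (nat_lit 304) (nat_lit 0) (XT.nd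 (nat_lit 78) (nat_lit 76) (nat_lit 0) (XT.lf (nat_lit 0) (nat_lit 8612811633) (nat_lit 228) (nat_lit 2340839974) (nat_lit 76) (nat_lit 6954087550) (nat_lit 21) (nat_lit 5) (nat_lit 24) (nat_lit 5) (nat_lit 22) (nat_lit 4) (nat_lit 288) (nat_lit 228) (nat_lit 204)) (XT.nd (nat_lit 78) (nat_lit 0) (nat_lit 0) (XT.lf (nat_lit 0) (nat_lit 7425224002) (nat_lit 76) (nat_lit 6207455966) (nat_lit 152) (nat_lit 4984112203) (nat_lit 20) (nat_lit 5) (nat_lit 21) (nat_lit 5) (nat_lit 22) (nat_lit 4) (nat_lit 289) (nat_lit 228) (nat_lit 203)) (XT.lf (nat_lit 0) (nat_lit 17550414330) (nat_lit 76) (nat_lit 1269091156) (nat_lit 152) (nat_lit 544435738) (nat_lit 20) (nat_lit 5) (nat_lit 21) (nat_lit 5) (nat_lit 22) (nat_lit 4) (nat_lit 290) (nat_lit 228) (nat_lit 202)))) (XT.nd (nat_lit 78) (nat_lit 76) (nat_lit 0) (XT.lf (nat_lit 0) (nat_lit 4047596955) (nat_lit 228) (nat_lit 12208626786) (nat_lit 76) (nat_lit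 3890828321) (nat_lit 17) (nat_lit 5) (nat_lit 20) (nat_lit 5) (nat_lit 18) (nat_lit 4) (nat_lit 291) (nat_lit 228) (nat_lit 201)) (XT.nd (nat_lit 78) (nat_lit 76) (nat_lit 0) (XT.lf (nat_lit 0) (nat_lit 8788339574) (nat_lit 228) (nat_lit 2940743828) (nat_lit 76) (nat_lit 9242269985) (nat_lit 17) (nat_lit 5) (nat_lit 20) (nat_lit 5) (nat_lit 18) (nat_lit 4) (nat_lit 292) (nat_lit 228) (nat_lit 200)) (XT.lf (nat_lit 0) (nat_lit 6761164450) (nat_lit 76) (nat_lit 6973376508) (nat_lit 152) (nat_lit 8103378740) (nat_lit 16) (nat_lit 5) (nat_lit 17) (nat_lit 5) (nat_lit 18) (nat_lit 4) (nat_lit 293) (nat_lit 228) (nat_lit 199))))))))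
noncomputable def xc28 : XT := (XT.nd (nat_lit 1638) (nat_lit 228) (nat_lit 0) (XT.nd (nat_lit 780) (nat_lit 304) (nat_lit 0) (XT.nd (nat_lit 390) (nat_lit 228) (nat_lit 0) (XT.nd (nat_lit 156) (nat_lit 76) (nat_lit 0) (XT.nd (nat_lit 78) (nat_lit 228) (nat_lit 0) (XT.lf (nat_lit 0) (nat_lit 16852941274) (nat_lit 76) (nat_lit 2011905194) (nat_lit 152) (nat_lit 3884961720) (nat_lit 16) (nat_lit 5) (nat_lit 17) (nat_lit 5) (nat_lit 18) (nat_lit 4) (nat_lit 294) (nat_lit 228) (nat_lit 198)) (XT.lf (nat_lit 0) (nat_lit 509457731) (nat_lit 228) (nat_lit 20082375260) (nat_lit 76) (nat_lit 3116120319) (nat_lit 13) (nat_lit 5) (nat_lit 16) (nat_lit 5) (nat_lit 14) (nat_lit 4) (nat_lit 295) (nat_lit 228) (nat_lit 197))) (XT.nd (nat_lit 78) (nat_lit 76) (nat_lit 0) (XT.lf (nat_lit 0) (nat_lit 5037910683) (nat_lit 228) (nat_lit 11173827170) (nat_lit 76) (nat_lit 8501360125) (nat_lit 13) (nat_lit 5)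 (nat_lit 16) (nat_lit 5) (nat_lit 14) (nat_lit 4) (nat_lit 296) (nat_lit 228) (nat_lit 196)) (XT.nd (nat_lit 78) (nat_lit 76) (nat_lit 0) (XT.lf (nat_lit 0) (nat_lit 9709264277) (nat_lit 228) (nat_lit 1961656899) (nat_lit 76) (nat_lit 14100166287) (nat_lit 13) (nat_lit 5) (nat_lit 16) (nat_lit 5) (nat_lit 14) (nat_lit 4) (nat_lit 297) (nat_lit 228) (nat_lit 195)) (XT.lf (nat_lit 0) (nat_lit 7726847923) (nat_lit 76) (nat_lit 6882068050) (nat_lit 152) (nat_lit 12273296565) (nat_lit 12) (nat_lit 5) (nat_lit 13) (nat_lit 5) (nat_lit 14) (nat_lit 4) (nat_lit 298) (nat_lit 228) (nat_lit 194))))) (XT.nd (nat_lit 156) (nat_lit 228) (nat_lit 0) (XT.nd (nat_lit 78) (nat_lit 0) (nat_lit 0) (XT.lf (nat_lit 0) (nat_lit 17809589508) (nat_lit 76) (nat_lit 1887136356) (nat_lit 152) (nat_lit 8353947041) (nat_lit 12) (nat_lit 5) (nat_lit 13) (nat_lit 5) (nat_lit 14) (nat_lit 4) (nat_lit 299) (nat_lit 228)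 (nat_lit 193)) (XT.lf (nat_lit 0) (nat_lit 24997354742) (nat_lit 152) (nat_lit 1040072900) (nat_lit 0) (nat_lit 3241446566) (nat_lit 12) (nat_lit 5) (nat_lit 14) (nat_lit 4) (nat_lit 12) (nat_lit 4) (nat_lit 300) (nat_lit 228) (nat_lit 192))) (XT.nd (nat_lit 78) (nat_lit 0) (nat_lit 0) (XT.lf (nat_lit 0) (nat_lit 26752877) (nat_lit 228) (nat_lit 21917800874) (nat_lit 76) (nat_lit 8623035342) (nat_lit 9) (nat_lit 5) (nat_lit 12) (nat_lit 5) (nat_lit 10) (nat_lit 4) (nat_lit 301) (nat_lit 228) (nat_lit 191)) (XT.nd (nat_lit 78) (nat_lit 0) (nat_lit 0) (XT.lf (nat_lit 0) (nat_lit 4404681455) (nat_lit 228) (nat_lit 13236511611) (nat_lit 76) (nat_lit 14280053507) (nat_lit 9) (nat_lit 5) (nat_lit 12) (nat_lit 5) (nat_lit 10) (nat_lit 4) (nat_lit 302) (nat_lit 228) (nat_lit 190)) (XT.lf (nat_lit 0) (nat_lit 8935940022) (nat_lit 228) (nat_lit 4234157437) (nat_lit 76) (nat_lit 20174515817) (nat_lit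 9) (nat_lit 5) (nat_lit 12) (nat_lit 5) (nat_lit 10) (nat_lit 4) (nat_lit 303) (nat_lit 228) (nat_lit 189)))))) (XT.nd (nat_lit 390) (nat_lit 152) (nat_lit 0) (XT.nd (nat_lit 156) (nat_lit 76) (nat_lit 0) (XT.nd (nat_lit 78) (nat_lit 0) (nat_lit 0) (XT.lf (nat_lit 0) (nat_lit 5212408692) (nat_lit 76) (nat_lit 8469013456) (nat_lit 152) (nat_lit 21158152875) (nat_lit 8) (nat_lit 5) (nat_lit 9) (nat_lit 5) (nat_lit 10) (nat_lit 4) (nat_lit 304) (nat_lit 228) (nat_lit 188)) (XT.lf (nat_lit 0) (nat_lit 15115250811) (nat_lit 76) (nat_lit 3532038947) (nat_lit 152) (nat_lit 17762555593) (nat_lit 8) (nat_lit 5) (nat_lit 9) (nat_lit 5) (nat_lit 10) (nat_lit 4) (nat_lit 305) (nat_lit 228) (nat_lit 187))) (XT.nd (nat_lit 78) (nat_lit 76) (nat_lit 0) (XT.lf (nat_lit 0) (nat_lit 23819329613) (nat_lit 152) (nat_lit 12662203875) (nat_lit 0) (nat_lit 1578410613) (nat_lit 8) (nat_lit 5) (nat_lit 10) (nat_lit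 4) (nat_lit 8) (nat_lit 4) (nat_lit 306) (nat_lit 228) (nat_lit 186)) (XT.nd (nat_lit 78) (nat_lit 76) (nat_lit 0) (XT.lf (nat_lit 0) (nat_lit 29230383951) (nat_lit 152) (nat_lit 3729968882) (nat_lit 0) (nat_lit 6832831413) (nat_lit 8) (nat_lit 5) (nat_lit 10) (nat_lit 4) (nat_lit 8) (nat_lit 4) (nat_lit 307) (nat_lit 228) (nat_lit 185)) (XT.lf (nat_lit 0) (nat_lit 5667931543) (nat_lit 76) (nat_lit 29245936197) (nat_lit 76) (nat_lit 6699208861) (nat_lit 7) (nat_lit 4) (nat_lit 8) (nat_lit 5) (nat_lit 8) (nat_lit 4) (nat_lit 308) (nat_lit 228) (nat_lit 184))))) (XT.nd (nat_lit 234) (nat_lit 76) (nat_lit 0) (XT.nd (nat_lit 78) (nat_lit 76) (nat_lit 0) (XT.lf (nat_lit 0) (nat_lit 15524748500) (nat_lit 76) (nat_lit 25344217366) (nat_lit 76) (nat_lit 2655418794) (nat_lit 7) (nat_lit 4) (nat_lit 8) (nat_lit 5) (nat_lit 8) (nat_lit 4) (nat_lit 309) (nat_lit 228) (nat_lit 183)) (XT.nd (nat_lit 78)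 (nat_lit 0) (nat_lit 0) (XT.lf (nat_lit 0) (nat_lit 1510471264) (nat_lit 152) (nat_lit 19757847843) (nat_lit 76) (nat_lit 24263992843) (nat_lit 6) (nat_lit 5) (nat_lit 8) (nat_lit 5) (nat_lit 7) (nat_lit 4) (nat_lit 310) (nat_lit 228) (nat_lit 182)) (XT.lf (nat_lit 0) (nat_lit 5783532068) (nat_lit 152) (nat_lit 11212397212) (nat_lit 76) (nat_lit 30645342759) (nat_lit 6) (nat_lit 5) (nat_lit 8) (nat_lit 5) (nat_lit 7) (nat_lit 4) (nat_lit 311) (nat_lit 228) (nat_lit 181)))) (XT.nd (nat_lit 78) (nat_lit 76) (nat_lit 0) (XT.lf (nat_lit 0) (nat_lit 10225754355) (nat_lit 152) (nat_lit 2317412445) (nat_lit 76) (nat_lit 37313885224) (nat_lit 6) (nat_lit 5) (nat_lit 8) (nat_lit 5) (nat_lit 7) (nat_lit 4) (nat_lit 312) (nat_lit 228) (nat_lit 180)) (XT.nd (nat_lit 78) (nat_lit 0) (nat_lit 0) (XT.lf (nat_lit 0) (nat_lit 7086569486) (nat_lit 76) (nat_lit 7829265799) (nat_lit 152) (nat_lit 37267048674)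 (nat_lit 5) (nat_lit 5) (nat_lit 6) (nat_lit 5) (nat_lit 7) (nat_lit 4) (nat_lit 313) (nat_lit 228) (nat_lit 179)) (XT.lf (nat_lit 0) (nat_lit 16937263294) (nat_lit 76) (nat_lit 2885966247) (nat_lit 152) (nat_lit 34802327365) (nat_lit 5) (nat_lit 5) (nat_lit 6) (nat_lit 5) (nat_lit 7) (nat_lit 4) (nat_lit 314) (nat_lit 228) (nat_lit 178))))))) (XT.nd (nat_lit 780) (nat_lit 152) (nat_lit 0) (XT.nd (nat_lit 390) (nat_lit 0) (nat_lit 0) (XT.nd (nat_lit 156) (nat_lit 76) (nat_lit 0) (XT.nd (nat_lit 78) (nat_lit 0) (nat_lit 0) (XT.lf (nat_lit 0) (nat_lit 24958771320) (nat_lit 152) (nat_lit 30001436039) (nat_lit 0) (nat_lit 2230704894) (nat_lit 5) (nat_lit 5) (nat_lit 7) (nat_lit 4) (nat_lit 5) (nat_lit 4) (nat_lit 315) (nat_lit 228) (nat_lit 177)) (XT.lf (nat_lit 0) (nat_lit 30342719480) (nat_lit 152) (nat_lit 22025471091) (nat_lit 0) (nat_lit 7516626476) (nat_lit 5) (nat_lit 5) (nat_lit 7) (nat_lit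 4) (nat_lit 5) (nat_lit 4) (nat_lit 316) (nat_lit 228) (nat_lit 176))) (XT.nd (nat_lit 78) (nat_lit 76) (nat_lit 0) (XT.lf (nat_lit 0) (nat_lit 35960151274) (nat_lit 152) (nat_lit 13713666704) (nat_lit 0) (nat_lit 13040699624) (nat_lit 5) (nat_lit 5) (nat_lit 7) (nat_lit 4) (nat_lit 5) (nat_lit 4) (nat_lit 317) (nat_lit 228) (nat_lit 175)) (XT.nd (nat_lit 78) (nat_lit 76) (nat_lit 0) (XT.lf (nat_lit 0) (nat_lit 41824441537) (nat_lit 152) (nat_lit 5046232866) (nat_lit 0) (nat_lit 18816076892) (nat_lit 5) (nat_lit 5) (nat_lit 7) (nat_lit 4) (nat_lit 5) (nat_lit 4) (nat_lit 318) (nat_lit 228) (nat_lit 174)) (XT.lf (nat_lit 0) (nat_lit 4077024604) (nat_lit 76) (nat_lit 43911719117) (nat_lit 76) (nat_lit 20818675428) (nat_lit 4) (nat_lit 4) (nat_lit 5) (nat_lit 5) (nat_lit 5) (nat_lit 4) (nat_lit 319) (nat_lit 228) (nat_lit 173))))) (XT.nd (nat_lit 156) (nat_lit 0) (nat_lit 0) (XT.nd (nat_lit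 78) (nat_lit 0) (nat_lit 0) (XT.lf (nat_lit 0) (nat_lit 13706427797) (nat_lit 76) (nat_lit 40775395633) (nat_lit 76) (nat_lit 17601705236) (nat_lit 4) (nat_lit 4) (nat_lit 5) (nat_lit 5) (nat_lit 5) (nat_lit 4) (nat_lit 320) (nat_lit 228) (nat_lit 172)) (XT.lf (nat_lit 0) (nat_lit 23764473934) (nat_lit 76) (nat_lit 37505193571) (nat_lit 76) (nat_lit 14254696785) (nat_lit 4) (nat_lit 4) (nat_lit 5) (nat_lit 5) (nat_lit 5) (nat_lit 4) (nat_lit 321) (nat_lit 228) (nat_lit 171))) (XT.nd (nat_lit 78) (nat_lit 0) (nat_lit 0) (XT.lf (nat_lit 0) (nat_lit 34275110743) (nat_lit 76) (nat_lit 34093326737) (nat_lit 76) (nat_lit 10769681010) (nat_lit 4) (nat_lit 4) (nat_lit 5) (nat_lit 5) (nat_lit 5) (nat_lit 4) (nat_lit 322) (nat_lit 228) (nat_lit 170)) (XT.nd (nat_lit 78) (nat_lit 0) (nat_lit 0) (XT.lf (nat_lit 0) (nat_lit 45263363552) (nat_lit 76) (nat_lit 30531671638) (nat_lit 76) (nat_lit 7138360252)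 (nat_lit 4) (nat_lit 4) (nat_lit 5) (nat_lit 5) (nat_lit 5) (nat_lit 4) (nat_lit 323) (nat_lit 228) (nat_lit 169)) (XT.lf (nat_lit 0) (nat_lit 56755394865) (nat_lit 76) (nat_lit 26811748143) (nat_lit 76) (nat_lit 3352088510) (nat_lit 4) (nat_lit 4) (nat_lit 5) (nat_lit 5) (nat_lit 5) (nat_lit 4) (nat_lit 324) (nat_lit 228) (nat_lit 168)))))) (XT.nd (nat_lit 390) (nat_lit 0) (nat_lit 0) (XT.nd (nat_lit 156) (nat_lit 76) (nat_lit 0) (XT.nd (nat_lit 78) (nat_lit 0) (nat_lit 0) (XT.lf (nat_lit 0) (nat_lit 586477103) (nat_lit 152) (nat_lit 22332299918) (nat_lit 76) (nat_lit 68186167291) (nat_lit 3) (nat_lit 5) (nat_lit 5) (nat_lit 5) (nat_lit 4) (nat_lit 4) (nat_lit 325) (nat_lit 228) (nat_lit 167)) (XT.lf (nat_lit 0) (nat_lit 4629619543) (nat_lit 152) (nat_lit 14184900579) (nat_lit 76) (nat_lit 76685135921) (nat_lit 3) (nat_lit 5) (nat_lit 5) (nat_lit 5) (nat_lit 4) (nat_lit 4) (nat_lit 326)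 (nat_lit 228) (nat_lit 166))) (XT.nd (nat_lit 78) (nat_lit 76) (nat_lit 0) (XT.lf (nat_lit 0) (nat_lit 8852376661) (nat_lit 152) (nat_lit 5670017741) (nat_lit 76) (nat_lit 85592402581) (nat_lit 3) (nat_lit 5) (nat_lit 5) (nat_lit 5) (nat_lit 4) (nat_lit 4) (nat_lit 327) (nat_lit 228) (nat_lit 165)) (XT.nd (nat_lit 78) (nat_lit 0) (nat_lit 0) (XT.lf (nat_lit 0) (nat_lit 3296957644) (nat_lit 76) (nat_lit 9999537367) (nat_lit 152) (nat_lit 91663909778) (nat_lit 2) (nat_lit 5) (nat_lit 3) (nat_lit 5) (nat_lit 4) (nat_lit 4) (nat_lit 328) (nat_lit 228) (nat_lit 164)) (XT.lf (nat_lit 0) (nat_lit 12793870275) (nat_lit 76) (nat_lit 5206515484) (nat_lit 152) (nat_lit 92046795967) (nat_lit 2) (nat_lit 5) (nat_lit 3) (nat_lit 5) (nat_lit 4) (nat_lit 4) (nat_lit 329) (nat_lit 228) (nat_lit 163))))) (XT.nd (nat_lit 32370) (nat_lit 0) (nat_lit 6156) (XT.nd (nat_lit 32214) (nat_lit 0) (nat_lit 7448) (XT.lf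 (nat_lit 0) (nat_lit 22730487376) (nat_lit 76) (nat_lit 189172858) (nat_lit 152) (nat_lit 92469246585) (nat_lit 2) (nat_lit 5) (nat_lit 3) (nat_lit 5) (nat_lit 4) (nat_lit 4) (nat_lit 330) (nat_lit 228) (nat_lit 162)) (XT.nd (nat_lit 78) (nat_lit 456) (nat_lit 0) (XT.lf (nat_lit 0) (nat_lit 932497310) (nat_lit 532) (nat_lit 2190085235) (nat_lit 0) (nat_lit 932497310) (nat_lit 106) (nat_lit 5) (nat_lit 113) (nat_lit 4) (nat_lit 106) (nat_lit 4) (nat_lit 262) (nat_lit 229) (nat_lit 229)) (XT.lf (nat_lit 0) (nat_lit 4147899691) (nat_lit 456) (nat_lit 3031472703) (nat_lit 456) (nat_lit 1100635032) (nat_lit 100) (nat_lit 4) (nat_lit 106) (nat_lit 5) (nat_lit 106) (nat_lit 4) (nat_lit 263) (nat_lit 229) (nat_lit 228)))) (XT.nd (nat_lit 78) (nat_lit 836) (nat_lit 0) (XT.lf (nat_lit 0) (nat_lit 4077561431) (nat_lit 456) (nat_lit 3966662498) (nat_lit 0) (nat_lit 417628720) (nat_lit 94) (nat_lit 5)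 (nat_lit 100) (nat_lit 4) (nat_lit 94) (nat_lit 4) (nat_lit 264) (nat_lit 229) (nat_lit 227)) (XT.nd (nat_lit 78) (nat_lit 380) (nat_lit 0) (XT.lf (nat_lit 0) (nat_lit 716417187) (nat_lit 456) (nat_lit 3905922991) (nat_lit 76) (nat_lit 4033594914) (nat_lit 88) (nat_lit 5) (nat_lit 94) (nat_lit 5) (nat_lit 89) (nat_lit 4) (nat_lit 265) (nat_lit 229) (nat_lit 226)) (XT.lf (nat_lit 0) (nat_lit 4898946466) (nat_lit 380) (nat_lit 952554043) (nat_lit 456) (nat_lit 3011308612) (nat_lit 83) (nat_lit 5) (nat_lit 88) (nat_lit 5) (nat_lit 89) (nat_lit 4) (nat_lit 266) (nat_lit 229) (nat_lit 225))))))))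
noncomputable def xc29 : XT := (XT.nd (nat_lit 1638) (nat_lit 988) (nat_lit 0) (XT.nd (nat_lit 780) (nat_lit 1748) (nat_lit 0) (XT.nd (nat_lit 390) (nat_lit 1140) (nat_lit 0) (XT.nd (nat_lit 156) (nat_lit 1064) (nat_lit 0) (XT.nd (nat_lit 78) (nat_lit 304) (nat_lit 0) (XT.lf (nat_lit 0) (nat_lit 2023744550) (nat_lit 456) (nat_lit 4165427073) (nat_lit 76) (nat_lit 2893605149) (nat_lit 77) (nat_lit 5) (nat_lit 83) (nat_lit 5) (nat_lit 78) (nat_lit 4) (nat_lit 267) (nat_lit 229) (nat_lit 224)) (XT.lf (nat_lit 0) (nat_lit 4792287647) (nat_lit 304) (nat_lit 2346595868) (nat_lit 380) (nat_lit 2177678108) (nat_lit 73) (nat_lit 5) (nat_lit 77) (nat_lit 5) (nat_lit 78) (nat_lit 4) (nat_lit 268) (nat_lit 229) (nat_lit 223))) (XT.nd (nat_lit 78) (nat_lit 684) (nat_lit 0) (XT.lf (nat_lit 0) (nat_lit 2791677377) (nat_lit 380) (nat_lit 5068581993) (nat_lit 76) (nat_lit 1704281727) (nat_lit 68) (nat_lit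 5) (nat_lit 73) (nat_lit 5) (nat_lit 69) (nat_lit 4) (nat_lit 269) (nat_lit 229) (nat_lit 222)) (XT.nd (nat_lit 78) (nat_lit 380) (nat_lit 0) (XT.lf (nat_lit 0) (nat_lit 4002045286) (nat_lit 304) (nat_lit 3876525724) (nat_lit 380) (nat_lit 1948658540) (nat_lit 64) (nat_lit 5) (nat_lit 68) (nat_lit 5) (nat_lit 69) (nat_lit 4) (nat_lit 270) (nat_lit 229) (nat_lit 221)) (XT.lf (nat_lit 0) (nat_lit 2952803867) (nat_lit 380) (nat_lit 6809130717) (nat_lit 76) (nat_lit 343664496) (nat_lit 59) (nat_lit 5) (nat_lit 64) (nat_lit 5) (nat_lit 60) (nat_lit 4) (nat_lit 271) (nat_lit 229) (nat_lit 220))))) (XT.nd (nat_lit 156) (nat_lit 532) (nat_lit 0) (XT.nd (nat_lit 78) (nat_lit 380) (nat_lit 0) (XT.lf (nat_lit 0) (nat_lit 2323605054) (nat_lit 228) (nat_lit 5672833299) (nat_lit 304) (nat_lit 2403082623) (nat_lit 56) (nat_lit 5) (nat_lit 59) (nat_lit 5) (nat_lit 60) (nat_lit 4) (nat_lit 272) (nat_lit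 229) (nat_lit 219)) (XT.lf (nat_lit 0) (nat_lit 1086312822) (nat_lit 304) (nat_lit 1347891776) (nat_lit 380) (nat_lit 8276483218) (nat_lit 51) (nat_lit 5) (nat_lit 55) (nat_lit 5) (nat_lit 56) (nat_lit 5) (nat_lit 273) (nat_lit 229) (nat_lit 218))) (XT.nd (nat_lit 78) (nat_lit 532) (nat_lit 0) (XT.lf (nat_lit 0) (nat_lit 7403510654) (nat_lit 380) (nat_lit 471241711) (nat_lit 76) (nat_lit 3164045973) (nat_lit 51) (nat_lit 5) (nat_lit 56) (nat_lit 5) (nat_lit 52) (nat_lit 4) (nat_lit 274) (nat_lit 229) (nat_lit 217)) (XT.nd (nat_lit 78) (nat_lit 228) (nat_lit 0) (XT.lf (nat_lit 0) (nat_lit 1146648341) (nat_lit 304) (nat_lit 2337883407) (nat_lit 76) (nat_lit 7900713035) (nat_lit 47) (nat_lit 5) (nat_lit 51) (nat_lit 5) (nat_lit 48) (nat_lit 5) (nat_lit 275) (nat_lit 229) (nat_lit 216)) (XT.lf (nat_lit 0) (nat_lit 6015042303) (nat_lit 304) (nat_lit 4596351330) (nat_lit 76) (nat_lit 1139123349)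 (nat_lit 44) (nat_lit 5) (nat_lit 48) (nat_lit 5) (nat_lit 45) (nat_lit 4) (nat_lit 276) (nat_lit 229) (nat_lit 215)))))) (XT.nd (nat_lit 390) (nat_lit 760) (nat_lit 0) (XT.nd (nat_lit 156) (nat_lit 456) (nat_lit 0) (XT.nd (nat_lit 78) (nat_lit 304) (nat_lit 0) (XT.lf (nat_lit 0) (nat_lit 4858079947) (nat_lit 228) (nat_lit 6216641896) (nat_lit 304) (nat_lit 1061142170) (nat_lit 41) (nat_lit 5) (nat_lit 44) (nat_lit 5) (nat_lit 45) (nat_lit 4) (nat_lit 277) (nat_lit 229) (nat_lit 214)) (XT.lf (nat_lit 0) (nat_lit 2111839087) (nat_lit 228) (nat_lit 1573351034) (nat_lit 304) (nat_lit 8857006972) (nat_lit 37) (nat_lit 5) (nat_lit 40) (nat_lit 5) (nat_lit 41) (nat_lit 5) (nat_lit 278) (nat_lit 229) (nat_lit 213))) (XT.nd (nat_lit 78) (nat_lit 456) (nat_lit 0) (XT.lf (nat_lit 0) (nat_lit 8604198366) (nat_lit 304) (nat_lit 1118156653) (nat_lit 76) (nat_lit 3247675142) (nat_lit 37) (nat_lit 5) (nat_lit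 41) (nat_lit 5) (nat_lit 38) (nat_lit 4) (nat_lit 279) (nat_lit 229) (nat_lit 212)) (XT.nd (nat_lit 78) (nat_lit 228) (nat_lit 0) (XT.lf (nat_lit 0) (nat_lit 297747788) (nat_lit 228) (nat_lit 4832677405) (nat_lit 76) (nat_lit 8290289859) (nat_lit 34) (nat_lit 5) (nat_lit 37) (nat_lit 5) (nat_lit 35) (nat_lit 5) (nat_lit 280) (nat_lit 229) (nat_lit 211)) (XT.lf (nat_lit 0) (nat_lit 4740613590) (nat_lit 228) (nat_lit 281685634) (nat_lit 304) (nat_lit 8872987329) (nat_lit 31) (nat_lit 5) (nat_lit 34) (nat_lit 5) (nat_lit 35) (nat_lit 5) (nat_lit 281) (nat_lit 229) (nat_lit 210))))) (XT.nd (nat_lit 234) (nat_lit 380) (nat_lit 0) (XT.nd (nat_lit 78) (nat_lit 228) (nat_lit 0) (XT.lf (nat_lit 0) (nat_lit 245196634) (nat_lit 152) (nat_lit 9700674612) (nat_lit 228) (nat_lit 4449014158) (nat_lit 29) (nat_lit 5) (nat_lit 31) (nat_lit 5) (nat_lit 32) (nat_lit 4) (nat_lit 282) (nat_lit 229) (nat_lit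 209)) (XT.nd (nat_lit 78) (nat_lit 152) (nat_lit 0) (XT.lf (nat_lit 0) (nat_lit 157312635) (nat_lit 228) (nat_lit 4826933514) (nat_lit 76) (nat_lit 9936380810) (nat_lit 28) (nat_lit 5) (nat_lit 31) (nat_lit 5) (nat_lit 29) (nat_lit 5) (nat_lit 283) (nat_lit 229) (nat_lit 208)) (XT.lf (nat_lit 0) (nat_lit 4809961656) (nat_lit 152) (nat_lit 12375438) (nat_lit 228) (nat_lit 10651545965) (nat_lit 26) (nat_lit 5) (nat_lit 28) (nat_lit 5) (nat_lit 29) (nat_lit 5) (nat_lit 284) (nat_lit 229) (nat_lit 207)))) (XT.nd (nat_lit 78) (nat_lit 380) (nat_lit 0) (XT.lf (nat_lit 0) (nat_lit 9697617797) (nat_lit 228) (nat_lit 1272619558) (nat_lit 76) (nat_lit 5085407574) (nat_lit 26) (nat_lit 5) (nat_lit 29) (nat_lit 5) (nat_lit 27) (nat_lit 4) (nat_lit 285) (nat_lit 229) (nat_lit 206)) (XT.nd (nat_lit 78) (nat_lit 228) (nat_lit 0) (XT.lf (nat_lit 0) (nat_lit 8566404588) (nat_lit 152) (nat_lit 6215357606)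 (nat_lit 228) (nat_lit 1885925532) (nat_lit 24) (nat_lit 5) (nat_lit 26) (nat_lit 5) (nat_lit 27) (nat_lit 4) (nat_lit 286) (nat_lit 229) (nat_lit 205)) (XT.lf (nat_lit 0) (nat_lit 1428893314) (nat_lit 152) (nat_lit 1238218839) (nat_lit 228) (nat_lit 14645180266) (nat_lit 21) (nat_lit 5) (nat_lit 23) (nat_lit 5) (nat_lit 24) (nat_lit 5) (nat_lit 287) (nat_lit 229) (nat_lit 204))))))) (XT.nd (nat_lit 780) (nat_lit 380) (nat_lit 0) (XT.nd (nat_lit 390) (nat_lit 304) (nat_lit 0) (XT.nd (nat_lit 156) (nat_lit 228) (nat_lit 0) (XT.nd (nat_lit 78) (nat_lit 76) (nat_lit 0) (XT.lf (nat_lit 0) (nat_lit 7419972442) (nat_lit 228) (nat_lit 6623296837) (nat_lit 76) (nat_lit 3945091067) (nat_lit 21) (nat_lit 5) (nat_lit 24) (nat_lit 5) (nat_lit 22) (nat_lit 4) (nat_lit 288) (nat_lit 229) (nat_lit 203)) (XT.lf (nat_lit 0) (nat_lit 2970662962) (nat_lit 76) (nat_lit 9374445082) (nat_lit 152) (nat_lit 6355206958)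 (nat_lit 20) (nat_lit 5) (nat_lit 21) (nat_lit 5) (nat_lit 22) (nat_lit 4) (nat_lit 289) (nat_lit 229) (nat_lit 202))) (XT.nd (nat_lit 78) (nat_lit 228) (nat_lit 0) (XT.lf (nat_lit 0) (nat_lit 13013115303) (nat_lit 76) (nat_lit 4468582199) (nat_lit 152) (nat_lit 1967330451) (nat_lit 20) (nat_lit 5) (nat_lit 21) (nat_lit 5) (nat_lit 22) (nat_lit 4) (nat_lit 290) (nat_lit 229) (nat_lit 201)) (XT.nd (nat_lit 78) (nat_lit 0) (nat_lit 0) (XT.lf (nat_lit 0) (nat_lit 2526483283) (nat_lit 228) (nat_lit 17047190315) (nat_lit 76) (nat_lit 662707605) (nat_lit 17) (nat_lit 5) (nat_lit 20) (nat_lit 5) (nat_lit 18) (nat_lit 4) (nat_lit 291) (nat_lit 229) (nat_lit 200)) (XT.lf (nat_lit 0) (nat_lit 7220118187) (nat_lit 228) (nat_lit 7857991990) (nat_lit 76) (nat_lit 5984035616) (nat_lit 17) (nat_lit 5) (nat_lit 20) (nat_lit 5) (nat_lit 18) (nat_lit 4) (nat_lit 292) (nat_lit 229) (nat_lit 199))))) (XT.nd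 (nat_lit 156) (nat_lit 228) (nat_lit 0) (XT.nd (nat_lit 78) (nat_lit 0) (nat_lit 0) (XT.lf (nat_lit 0) (nat_lit 1669624254) (nat_lit 76) (nat_lit 10402887828) (nat_lit 152) (nat_lit 9859061897) (nat_lit 16) (nat_lit 5) (nat_lit 17) (nat_lit 5) (nat_lit 18) (nat_lit 4) (nat_lit 293) (nat_lit 229) (nat_lit 198)) (XT.lf (nat_lit 0) (nat_lit 11688611407) (nat_lit 76) (nat_lit 5470778401) (nat_lit 152) (nat_lit 5685420877) (nat_lit 16) (nat_lit 5) (nat_lit 17) (nat_lit 5) (nat_lit 18) (nat_lit 4) (nat_lit 294) (nat_lit 229) (nat_lit 197))) (XT.nd (nat_lit 78) (nat_lit 228) (nat_lit 0) (XT.lf (nat_lit 0) (nat_lit 22066434752) (nat_lit 76) (nat_lit 349389090) (nat_lit 152) (nat_lit 1390517614) (nat_lit 16) (nat_lit 5) (nat_lit 17) (nat_lit 5) (nat_lit 18) (nat_lit 4) (nat_lit 295) (nat_lit 229) (nat_lit 196)) (XT.nd (nat_lit 78) (nat_lit 0) (nat_lit 0) (XT.lf (nat_lit 0) (nat_lit 3103741561) (nat_lit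 228) (nat_lit 16725118708) (nat_lit 76) (nat_lit 4984906647) (nat_lit 13) (nat_lit 5) (nat_lit 16) (nat_lit 5) (nat_lit 14) (nat_lit 4) (nat_lit 296) (nat_lit 229) (nat_lit 195)) (XT.lf (nat_lit 0) (nat_lit 7736292830) (nat_lit 228) (nat_lit 7578827752) (nat_lit 76) (nat_lit 10557837952) (nat_lit 13) (nat_lit 5) (nat_lit 16) (nat_lit 5) (nat_lit 14) (nat_lit 4) (nat_lit 297) (nat_lit 229) (nat_lit 194)))))) (XT.nd (nat_lit 390) (nat_lit 76) (nat_lit 0) (XT.nd (nat_lit 156) (nat_lit 228) (nat_lit 0) (XT.nd (nat_lit 78) (nat_lit 0) (nat_lit 0) (XT.lf (nat_lit 0) (nat_lit 1933893459) (nat_lit 76) (nat_lit 10609411049) (nat_lit 152) (nat_lit 14443594548) (nat_lit 12) (nat_lit 5) (nat_lit 13) (nat_lit 5) (nat_lit 14) (nat_lit 4) (nat_lit 298) (nat_lit 229) (nat_lit 193)) (XT.lf (nat_lit 0) (nat_lit 11955691332) (nat_lit 76) (nat_lit 5639642386) (nat_lit 152) (nat_lit 10561133649) (nat_lit 12)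 (nat_lit 5) (nat_lit 13) (nat_lit 5) (nat_lit 14) (nat_lit 4) (nat_lit 299) (nat_lit 229) (nat_lit 192))) (XT.nd (nat_lit 78) (nat_lit 228) (nat_lit 0) (XT.lf (nat_lit 0) (nat_lit 22359593758) (nat_lit 76) (nat_lit 470513111) (nat_lit 152) (nat_lit 6556570352) (nat_lit 12) (nat_lit 5) (nat_lit 13) (nat_lit 5) (nat_lit 14) (nat_lit 4) (nat_lit 300) (nat_lit 229) (nat_lit 191)) (XT.nd (nat_lit 78) (nat_lit 76) (nat_lit 0) (XT.lf (nat_lit 0) (nat_lit 2491328378) (nat_lit 152) (nat_lit 25839908155) (nat_lit 152) (nat_lit 2347086689) (nat_lit 10) (nat_lit 4) (nat_lit 12) (nat_lit 5) (nat_lit 12) (nat_lit 4) (nat_lit 301) (nat_lit 229) (nat_lit 190)) (XT.lf (nat_lit 0) (nat_lit 2044658374) (nat_lit 228) (nat_lit 19538265681) (nat_lit 76) (nat_lit 10450721958) (nat_lit 9) (nat_lit 5) (nat_lit 12) (nat_lit 5) (nat_lit 10) (nat_lit 4) (nat_lit 302) (nat_lit 229) (nat_lit 189))))) (XT.nd (nat_lit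 234) (nat_lit 0) (nat_lit 0) (XT.nd (nat_lit 78) (nat_lit 76) (nat_lit 0) (XT.lf (nat_lit 0) (nat_lit 6545456341) (nat_lit 228) (nat_lit 10588408395) (nat_lit 76) (nat_lit 16324089373) (nat_lit 9) (nat_lit 5) (nat_lit 12) (nat_lit 5) (nat_lit 10) (nat_lit 4) (nat_lit 303) (nat_lit 229) (nat_lit 188)) (XT.nd (nat_lit 78) (nat_lit 76) (nat_lit 0) (XT.lf (nat_lit 0) (nat_lit 11211823511) (nat_lit 228) (nat_lit 1293552170) (nat_lit 76) (nat_lit 22449939884) (nat_lit 9) (nat_lit 5) (nat_lit 12) (nat_lit 5) (nat_lit 10) (nat_lit 4) (nat_lit 304) (nat_lit 229) (nat_lit 187)) (XT.lf (nat_lit 0) (nat_lit 8534981842) (nat_lit 76) (nat_lit 7601931907) (nat_lit 152) (nat_lit 20389920476) (nat_lit 8) (nat_lit 5) (nat_lit 9) (nat_lit 5) (nat_lit 10) (nat_lit 4) (nat_lit 305) (nat_lit 229) (nat_lit 186)))) (XT.nd (nat_lit 78) (nat_lit 0) (nat_lit 0) (XT.lf (nat_lit 0) (nat_lit 18787158795) (nat_lit 76)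 (nat_lit 2479562588) (nat_lit 152) (nat_lit 16911502380) (nat_lit 8) (nat_lit 5) (nat_lit 9) (nat_lit 5) (nat_lit 10) (nat_lit 4) (nat_lit 306) (nat_lit 229) (nat_lit 185)) (XT.nd (nat_lit 78) (nat_lit 0) (nat_lit 0) (XT.lf (nat_lit 0) (nat_lit 26628278751) (nat_lit 152) (nat_lit 10479652501) (nat_lit 0) (nat_lit 2805040250) (nat_lit 8) (nat_lit 5) (nat_lit 10) (nat_lit 4) (nat_lit 8) (nat_lit 4) (nat_lit 307) (nat_lit 229) (nat_lit 184)) (XT.lf (nat_lit 0) (nat_lit 32232839012) (nat_lit 152) (nat_lit 1234884880) (nat_lit 0) (nat_lit 8267529275) (nat_lit 8) (nat_lit 5) (nat_lit 10) (nat_lit 4) (nat_lit 8) (nat_lit 4) (nat_lit 308) (nat_lit 229) (nat_lit 183))))))))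
noncomputable def xc30 : XT := (XT.nd (nat_lit 1638) (nat_lit 0) (nat_lit 0) (XT.nd (nat_lit 780) (nat_lit 228) (nat_lit 0) (XT.nd (nat_lit 390) (nat_lit 76) (nat_lit 0) (XT.nd (nat_lit 156) (nat_lit 76) (nat_lit 0) (XT.nd (nat_lit 78) (nat_lit 0) (nat_lit 0) (XT.lf (nat_lit 0) (nat_lit 8556043543) (nat_lit 76) (nat_lit 29596113667) (nat_lit 76) (nat_lit 5495497991) (nat_lit 7) (nat_lit 4) (nat_lit 8) (nat_lit 5) (nat_lit 8) (nat_lit 4) (nat_lit 309) (nat_lit 229) (nat_lit 182)) (XT.lf (nat_lit 0) (nat_lit 18781667281) (nat_lit 76) (nat_lit 25552266959) (nat_lit 76) (nat_lit 1322788483) (nat_lit 7) (nat_lit 4) (nat_lit 8) (nat_lit 5) (nat_lit 8) (nat_lit 4) (nat_lit 310) (nat_lit 229) (nat_lit 181))) (XT.nd (nat_lit 78) (nat_lit 0) (nat_lit 0) (XT.lf (nat_lit 0) (nat_lit 2954381489) (nat_lit 152) (nat_lit 18354810527) (nat_lit 76) (nat_lit 26457541474) (nat_lit 6) (nat_lit 5) (nat_lit 8)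 (nat_lit 5) (nat_lit 7) (nat_lit 4) (nat_lit 311) (nat_lit 229) (nat_lit 180)) (XT.nd (nat_lit 78) (nat_lit 0) (nat_lit 0) (XT.lf (nat_lit 0) (nat_lit 7375934063) (nat_lit 152) (nat_lit 9495941160) (nat_lit 76) (nat_lit 33111275601) (nat_lit 6) (nat_lit 5) (nat_lit 8) (nat_lit 5) (nat_lit 7) (nat_lit 4) (nat_lit 312) (nat_lit 229) (nat_lit 179)) (XT.lf (nat_lit 0) (nat_lit 11978209112) (nat_lit 152) (nat_lit 264639341) (nat_lit 76) (nat_lit 40068784917) (nat_lit 6) (nat_lit 5) (nat_lit 8) (nat_lit 5) (nat_lit 7) (nat_lit 4) (nat_lit 313) (nat_lit 229) (nat_lit 178))))) (XT.nd (nat_lit 156) (nat_lit 0) (nat_lit 0) (XT.nd (nat_lit 78) (nat_lit 0) (nat_lit 0) (XT.lf (nat_lit 0) (nat_lit 9547377949) (nat_lit 76) (nat_lit 7316561721) (nat_lit 152) (nat_lit 37891032209) (nat_lit 5) (nat_lit 5) (nat_lit 6) (nat_lit 5) (nat_lit 7) (nat_lit 4) (nat_lit 314) (nat_lit 229) (nat_lit 177)) (XT.lf (nat_lit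 0) (nat_lit 19790297877) (nat_lit 76) (nat_lit 2169152780) (nat_lit 152) (nat_lit 35362092401) (nat_lit 5) (nat_lit 5) (nat_lit 6) (nat_lit 5) (nat_lit 7) (nat_lit 4) (nat_lit 315) (nat_lit 229) (nat_lit 176))) (XT.nd (nat_lit 78) (nat_lit 0) (nat_lit 0) (XT.lf (nat_lit 0) (nat_lit 27305126241) (nat_lit 152) (nat_lit 29565140624) (nat_lit 0) (nat_lit 3146343363) (nat_lit 5) (nat_lit 5) (nat_lit 7) (nat_lit 4) (nat_lit 5) (nat_lit 4) (nat_lit 316) (nat_lit 229) (nat_lit 175)) (XT.nd (nat_lit 78) (nat_lit 0) (nat_lit 0) (XT.lf (nat_lit 0) (nat_lit 32905966269) (nat_lit 152) (nat_lit 21282585392) (nat_lit 0) (nat_lit 8658270395) (nat_lit 5) (nat_lit 5) (nat_lit 7) (nat_lit 4) (nat_lit 5) (nat_lit 4) (nat_lit 317) (nat_lit 229) (nat_lit 174)) (XT.lf (nat_lit 0) (nat_lit 38754454851) (nat_lit 152) (nat_lit 12643007893) (nat_lit 0) (nat_lit 14422079934) (nat_lit 5) (nat_lit 5) (nat_lit 7) (nat_lit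 4) (nat_lit 5) (nat_lit 4) (nat_lit 318) (nat_lit 229) (nat_lit 173)))))) (XT.nd (nat_lit 390) (nat_lit 152) (nat_lit 0) (XT.nd (nat_lit 156) (nat_lit 0) (nat_lit 0) (XT.nd (nat_lit 78) (nat_lit 76) (nat_lit 0) (XT.lf (nat_lit 0) (nat_lit 44864516960) (nat_lit 152) (nat_lit 3625837703) (nat_lit 0) (nat_lit 20451495335) (nat_lit 5) (nat_lit 5) (nat_lit 7) (nat_lit 4) (nat_lit 5) (nat_lit 4) (nat_lit 319) (nat_lit 229) (nat_lit 172)) (XT.lf (nat_lit 0) (nat_lit 5905634836) (nat_lit 76) (nat_lit 45401834103) (nat_lit 76) (nat_lit 20912006089) (nat_lit 4) (nat_lit 4) (nat_lit 5) (nat_lit 5) (nat_lit 5) (nat_lit 4) (nat_lit 320) (nat_lit 229) (nat_lit 171))) (XT.nd (nat_lit 78) (nat_lit 0) (nat_lit 0) (XT.lf (nat_lit 0) (nat_lit 15939138712) (nat_lit 76) (nat_lit 42142288300) (nat_lit 76) (nat_lit 17579311344) (nat_lit 4) (nat_lit 4) (nat_lit 5) (nat_lit 5) (nat_lit 5) (nat_lit 4) (nat_lit 321)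 (nat_lit 229) (nat_lit 170)) (XT.nd (nat_lit 78) (nat_lit 0) (nat_lit 0) (XT.lf (nat_lit 0) (nat_lit 26426401940) (nat_lit 76) (nat_lit 38740570284) (nat_lit 76) (nat_lit 14107927669) (nat_lit 4) (nat_lit 4) (nat_lit 5) (nat_lit 5) (nat_lit 5) (nat_lit 4) (nat_lit 322) (nat_lit 229) (nat_lit 169)) (XT.lf (nat_lit 0) (nat_lit 37392394195) (nat_lit 76) (nat_lit 35188580725) (nat_lit 76) (nat_lit 10489589865) (nat_lit 4) (nat_lit 4) (nat_lit 5) (nat_lit 5) (nat_lit 5) (nat_lit 4) (nat_lit 323) (nat_lit 229) (nat_lit 168))))) (XT.nd (nat_lit 234) (nat_lit 76) (nat_lit 0) (XT.nd (nat_lit 78) (nat_lit 76) (nat_lit 0) (XT.lf (nat_lit 0) (nat_lit 48863224980) (nat_lit 76) (nat_lit 31477862507) (nat_lit 76) (nat_lit 6715682840) (nat_lit 4) (nat_lit 4) (nat_lit 5) (nat_lit 5) (nat_lit 5) (nat_lit 4) (nat_lit 324) (nat_lit 229) (nat_lit 167)) (XT.nd (nat_lit 78) (nat_lit 76) (nat_lit 0) (XT.lf (nat_lit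 0) (nat_lit 60866205800) (nat_lit 76) (nat_lit 27599580585) (nat_lit 76) (nat_lit 2777221103) (nat_lit 4) (nat_lit 4) (nat_lit 5) (nat_lit 5) (nat_lit 5) (nat_lit 4) (nat_lit 325) (nat_lit 229) (nat_lit 166)) (XT.lf (nat_lit 0) (nat_lit 1309118608) (nat_lit 152) (nat_lit 22222162815) (nat_lit 76) (nat_lit 72107577038) (nat_lit 3) (nat_lit 5) (nat_lit 5) (nat_lit 5) (nat_lit 4) (nat_lit 4) (nat_lit 326) (nat_lit 229) (nat_lit 165)))) (XT.nd (nat_lit 78) (nat_lit 76) (nat_lit 0) (XT.lf (nat_lit 0) (nat_lit 5521403045) (nat_lit 152) (nat_lit 13725810276) (nat_lit 76) (nat_lit 81007108320) (nat_lit 3) (nat_lit 5) (nat_lit 5) (nat_lit 5) (nat_lit 4) (nat_lit 4) (nat_lit 327) (nat_lit 229) (nat_lit 164)) (XT.nd (nat_lit 78) (nat_lit 76) (nat_lit 0) (XT.lf (nat_lit 0) (nat_lit 9923855041) (nat_lit 152) (nat_lit 4840818312) (nat_lit 76) (nat_lit 90336513761) (nat_lit 3) (nat_lit 5) (nat_lit 5) (nat_lit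 5) (nat_lit 4) (nat_lit 4) (nat_lit 328) (nat_lit 229) (nat_lit 163)) (XT.lf (nat_lit 0) (nat_lit 4542610512) (nat_lit 76) (nat_lit 10028012463) (nat_lit 152) (nat_lit 95619062069) (nat_lit 2) (nat_lit 5) (nat_lit 3) (nat_lit 5) (nat_lit 4) (nat_lit 4) (nat_lit 329) (nat_lit 229) (nat_lit 162))))))) (XT.nd (nat_lit 32760) (nat_lit 0) (nat_lit 2660) (XT.nd (nat_lit 32370) (nat_lit 0) (nat_lit 5396) (XT.nd (nat_lit 32136) (nat_lit 0) (nat_lit 7372) (XT.nd (nat_lit 32058) (nat_lit 0) (nat_lit 8892) (XT.lf (nat_lit 0) (nat_lit 14462901870) (nat_lit 76) (nat_lit 5017791951) (nat_lit 152) (nat_lit 96050999387) (nat_lit 2) (nat_lit 5) (nat_lit 3) (nat_lit 5) (nat_lit 4) (nat_lit 4) (nat_lit 330) (nat_lit 229) (nat_lit 161)) (XT.lf (nat_lit 0) (nat_lit 719989504) (nat_lit 532) (nat_lit 2460701949) (nat_lit 0) (nat_lit 719989504) (nat_lit 119) (nat_lit 5) (nat_lit 126) (nat_lit 4) (nat_lit 119) (nat_lit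 4) (nat_lit 260) (nat_lit 230) (nat_lit 230))) (XT.nd (nat_lit 78) (nat_lit 1064) (nat_lit 0) (XT.lf (nat_lit 0) (nat_lit 3255088865) (nat_lit 456) (nat_lit 3392503291) (nat_lit 456) (nat_lit 1304302349) (nat_lit 113) (nat_lit 4) (nat_lit 119) (nat_lit 5) (nat_lit 119) (nat_lit 4) (nat_lit 261) (nat_lit 230) (nat_lit 229)) (XT.nd (nat_lit 78) (nat_lit 532) (nat_lit 0) (XT.lf (nat_lit 0) (nat_lit 3592155529) (nat_lit 456) (nat_lit 185735738) (nat_lit 532) (nat_lit 4335996560) (nat_lit 106) (nat_lit 5) (nat_lit 112) (nat_lit 5) (nat_lit 113) (nat_lit 4) (nat_lit 262) (nat_lit 230) (nat_lit 228)) (XT.lf (nat_lit 0) (nat_lit 676148793) (nat_lit 532) (nat_lit 4424528195) (nat_lit 76) (nat_lit 3186595112) (nat_lit 99) (nat_lit 5) (nat_lit 106) (nat_lit 5) (nat_lit 100) (nat_lit 4) (nat_lit 263) (nat_lit 230) (nat_lit 227))))) (XT.nd (nat_lit 156) (nat_lit 1140) (nat_lit 0) (XT.nd (nat_lit 78)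 (nat_lit 456) (nat_lit 0) (XT.lf (nat_lit 0) (nat_lit 4056042395) (nat_lit 380) (nat_lit 1660449884) (nat_lit 456) (nat_lit 2756057488) (nat_lit 94) (nat_lit 5) (nat_lit 99) (nat_lit 5) (nat_lit 100) (nat_lit 4) (nat_lit 264) (nat_lit 230) (nat_lit 226)) (XT.lf (nat_lit 0) (nat_lit 2185556323) (nat_lit 456) (nat_lit 4511249896) (nat_lit 76) (nat_lit 1973415187) (nat_lit 88) (nat_lit 5) (nat_lit 94) (nat_lit 5) (nat_lit 89) (nat_lit 4) (nat_lit 265) (nat_lit 230) (nat_lit 225))) (XT.nd (nat_lit 78) (nat_lit 760) (nat_lit 0) (XT.lf (nat_lit 0) (nat_lit 4149419148) (nat_lit 380) (nat_lit 3062199659) (nat_lit 456) (nat_lit 1668974957) (nat_lit 83) (nat_lit 5) (nat_lit 88) (nat_lit 5) (nat_lit 89) (nat_lit 4) (nat_lit 266) (nat_lit 230) (nat_lit 224)) (XT.nd (nat_lit 78) (nat_lit 304) (nat_lit 0) (XT.lf (nat_lit 0) (nat_lit 3211102460) (nat_lit 456) (nat_lit 5092107570) (nat_lit 76) (nat_lit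 801038288) (nat_lit 77) (nat_lit 5) (nat_lit 83) (nat_lit 5) (nat_lit 78) (nat_lit 4) (nat_lit 267) (nat_lit 230) (nat_lit 223)) (XT.lf (nat_lit 0) (nat_lit 3717454665) (nat_lit 304) (nat_lit 4502354212) (nat_lit 380) (nat_lit 1121617786) (nat_lit 73) (nat_lit 5) (nat_lit 77) (nat_lit 5) (nat_lit 78) (nat_lit 4) (nat_lit 268) (nat_lit 230) (nat_lit 222)))))) (XT.nd (nat_lit 390) (nat_lit 1368) (nat_lit 0) (XT.nd (nat_lit 156) (nat_lit 684) (nat_lit 0) (XT.nd (nat_lit 78) (nat_lit 304) (nat_lit 0) (XT.lf (nat_lit 0) (nat_lit 3253146284) (nat_lit 304) (nat_lit 451346085) (nat_lit 380) (nat_lit 5888473764) (nat_lit 68) (nat_lit 5) (nat_lit 72) (nat_lit 5) (nat_lit 73) (nat_lit 5) (nat_lit 269) (nat_lit 230) (nat_lit 221)) (XT.lf (nat_lit 0) (nat_lit 2582877436) (nat_lit 304) (nat_lit 6099703435) (nat_lit 380) (nat_lit 1176514446) (nat_lit 64) (nat_lit 5) (nat_lit 68) (nat_lit 5) (nat_lit 69)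 (nat_lit 4) (nat_lit 270) (nat_lit 230) (nat_lit 220))) (XT.nd (nat_lit 78) (nat_lit 304) (nat_lit 0) (XT.lf (nat_lit 0) (nat_lit 1687076932) (nat_lit 304) (nat_lit 1915235010) (nat_lit 380) (nat_lit 6538320568) (nat_lit 59) (nat_lit 5) (nat_lit 63) (nat_lit 5) (nat_lit 64) (nat_lit 5) (nat_lit 271) (nat_lit 230) (nat_lit 219)) (XT.nd (nat_lit 78) (nat_lit 76) (nat_lit 0) (XT.lf (nat_lit 0) (nat_lit 540996975) (nat_lit 228) (nat_lit 7983458855) (nat_lit 304) (nat_lit 1913898791) (nat_lit 56) (nat_lit 5) (nat_lit 59) (nat_lit 5) (nat_lit 60) (nat_lit 4) (nat_lit 272) (nat_lit 230) (nat_lit 218)) (XT.lf (nat_lit 0) (nat_lit 2819444108) (nat_lit 304) (nat_lit 881160692) (nat_lit 76) (nat_lit 7051751326) (nat_lit 55) (nat_lit 5) (nat_lit 59) (nat_lit 5) (nat_lit 56) (nat_lit 5) (nat_lit 273) (nat_lit 230) (nat_lit 217))))) (XT.nd (nat_lit 234) (nat_lit 532) (nat_lit 0) (XT.nd (nat_lit 78) (nat_lit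 532) (nat_lit 0) (XT.lf (nat_lit 0) (nat_lit 7675987761) (nat_lit 380) (nat_lit 2594393358) (nat_lit 76) (nat_lit 813605335) (nat_lit 51) (nat_lit 5) (nat_lit 56) (nat_lit 5) (nat_lit 52) (nat_lit 4) (nat_lit 274) (nat_lit 230) (nat_lit 216)) (XT.nd (nat_lit 78) (nat_lit 228) (nat_lit 0) (XT.lf (nat_lit 0) (nat_lit 1268918780) (nat_lit 304) (nat_lit 4668297711) (nat_lit 76) (nat_lit 5496294974) (nat_lit 47) (nat_lit 5) (nat_lit 51) (nat_lit 5) (nat_lit 48) (nat_lit 5) (nat_lit 275) (nat_lit 230) (nat_lit 215)) (XT.lf (nat_lit 0) (nat_lit 4675017976) (nat_lit 228) (nat_lit 1351411879) (nat_lit 304) (nat_lit 5775800881) (nat_lit 44) (nat_lit 5) (nat_lit 47) (nat_lit 5) (nat_lit 48) (nat_lit 5) (nat_lit 276) (nat_lit 230) (nat_lit 214)))) (XT.nd (nat_lit 78) (nat_lit 304) (nat_lit 0) (XT.lf (nat_lit 0) (nat_lit 2177494057) (nat_lit 228) (nat_lit 8796311243) (nat_lit 304) (nat_lit 1217256431)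 (nat_lit 41) (nat_lit 5) (nat_lit 44) (nat_lit 5) (nat_lit 45) (nat_lit 4) (nat_lit 277) (nat_lit 230) (nat_lit 213)) (XT.nd (nat_lit 78) (nat_lit 228) (nat_lit 0) (XT.lf (nat_lit 0) (nat_lit 3439936222) (nat_lit 304) (nat_lit 772432667) (nat_lit 76) (nat_lit 8387942709) (nat_lit 40) (nat_lit 5) (nat_lit 44) (nat_lit 5) (nat_lit 41) (nat_lit 5) (nat_lit 278) (nat_lit 230) (nat_lit 212)) (XT.lf (nat_lit 0) (nat_lit 8256102701) (nat_lit 304) (nat_lit 4158198951) (nat_lit 76) (nat_lit 617029398) (nat_lit 37) (nat_lit 5) (nat_lit 41) (nat_lit 5) (nat_lit 38) (nat_lit 4) (nat_lit 279) (nat_lit 230) (nat_lit 211))))))))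
noncomputable def xc31 : XT := (XT.nd (nat_lit 1638) (nat_lit 608) (nat_lit 0) (XT.nd (nat_lit 780) (nat_lit 684) (nat_lit 0) (XT.nd (nat_lit 390) (nat_lit 380) (nat_lit 0) (XT.nd (nat_lit 156) (nat_lit 380) (nat_lit 0) (XT.nd (nat_lit 78) (nat_lit 304) (nat_lit 0) (XT.lf (nat_lit 0) (nat_lit 5386081888) (nat_lit 152) (nat_lit 7892989553) (nat_lit 228) (nat_lit 206047660) (nat_lit 35) (nat_lit 5) (nat_lit 37) (nat_lit 5) (nat_lit 38) (nat_lit 4) (nat_lit 280) (nat_lit 230) (nat_lit 210)) (XT.lf (nat_lit 0) (nat_lit 1308432122) (nat_lit 228) (nat_lit 3116083456) (nat_lit 304) (nat_lit 9538263768) (nat_lit 31) (nat_lit 5) (nat_lit 34) (nat_lit 5) (nat_lit 35) (nat_lit 5) (nat_lit 281) (nat_lit 230) (nat_lit 209))) (XT.nd (nat_lit 78) (nat_lit 380) (nat_lit 0) (XT.lf (nat_lit 0) (nat_lit 9255285380) (nat_lit 304) (nat_lit 3331587714) (nat_lit 76) (nat_lit 1878373987) (nat_lit 31) (nat_lit 5)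 (nat_lit 35) (nat_lit 5) (nat_lit 32) (nat_lit 4) (nat_lit 282) (nat_lit 230) (nat_lit 208)) (XT.nd (nat_lit 78) (nat_lit 228) (nat_lit 0) (XT.lf (nat_lit 0) (nat_lit 6355475327) (nat_lit 152) (nat_lit 7941273384) (nat_lit 228) (nat_lit 697180434) (nat_lit 29) (nat_lit 5) (nat_lit 31) (nat_lit 5) (nat_lit 32) (nat_lit 4) (nat_lit 283) (nat_lit 230) (nat_lit 207)) (XT.lf (nat_lit 0) (nat_lit 834203979) (nat_lit 152) (nat_lit 3050166336) (nat_lit 228) (nat_lit 11666003018) (nat_lit 26) (nat_lit 5) (nat_lit 28) (nat_lit 5) (nat_lit 29) (nat_lit 5) (nat_lit 284) (nat_lit 230) (nat_lit 206))))) (XT.nd (nat_lit 156) (nat_lit 228) (nat_lit 0) (XT.nd (nat_lit 78) (nat_lit 152) (nat_lit 0) (XT.lf (nat_lit 0) (nat_lit 8673195880) (nat_lit 228) (nat_lit 5387802644) (nat_lit 76) (nat_lit 2073801466) (nat_lit 26) (nat_lit 5) (nat_lit 29) (nat_lit 5) (nat_lit 27) (nat_lit 4) (nat_lit 285) (nat_lit 230)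 (nat_lit 205)) (XT.lf (nat_lit 0) (nat_lit 4279826116) (nat_lit 152) (nat_lit 9381781295) (nat_lit 228) (nat_lit 3088175109) (nat_lit 24) (nat_lit 5) (nat_lit 26) (nat_lit 5) (nat_lit 27) (nat_lit 4) (nat_lit 286) (nat_lit 230) (nat_lit 204))) (XT.nd (nat_lit 78) (nat_lit 152) (nat_lit 0) (XT.lf (nat_lit 0) (nat_lit 1421251444) (nat_lit 228) (nat_lit 3042463677) (nat_lit 76) (nat_lit 12933093576) (nat_lit 23) (nat_lit 5) (nat_lit 26) (nat_lit 5) (nat_lit 24) (nat_lit 5) (nat_lit 287) (nat_lit 230) (nat_lit 203)) (XT.nd (nat_lit 78) (nat_lit 0) (nat_lit 0) (XT.lf (nat_lit 0) (nat_lit 6061070119) (nat_lit 228) (nat_lit 11294494816) (nat_lit 76) (nat_lit 720762597) (nat_lit 21) (nat_lit 5) (nat_lit 24) (nat_lit 5) (nat_lit 22) (nat_lit 4) (nat_lit 288) (nat_lit 230) (nat_lit 202)) (XT.lf (nat_lit 0) (nat_lit 10908209160) (nat_lit 228) (nat_lit 1839626821) (nat_lit 76) (nat_lit 6042842919) (nat_lit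 21) (nat_lit 5) (nat_lit 24) (nat_lit 5) (nat_lit 22) (nat_lit 4) (nat_lit 289) (nat_lit 230) (nat_lit 201)))))) (XT.nd (nat_lit 390) (nat_lit 304) (nat_lit 0) (XT.nd (nat_lit 156) (nat_lit 228) (nat_lit 0) (XT.nd (nat_lit 78) (nat_lit 76) (nat_lit 0) (XT.lf (nat_lit 0) (nat_lit 8087415255) (nat_lit 76) (nat_lit 7891503940) (nat_lit 152) (nat_lit 3562503151) (nat_lit 20) (nat_lit 5) (nat_lit 21) (nat_lit 5) (nat_lit 22) (nat_lit 4) (nat_lit 290) (nat_lit 230) (nat_lit 200)) (XT.lf (nat_lit 0) (nat_lit 879152972) (nat_lit 152) (nat_lit 1945253571) (nat_lit 76) (nat_lit 17507377655) (nat_lit 19) (nat_lit 5) (nat_lit 21) (nat_lit 5) (nat_lit 20) (nat_lit 5) (nat_lit 291) (nat_lit 230) (nat_lit 199))) (XT.nd (nat_lit 78) (nat_lit 76) (nat_lit 0) (XT.lf (nat_lit 0) (nat_lit 5481513527) (nat_lit 228) (nat_lit 13174724939) (nat_lit 76) (nat_lit 2504096203) (nat_lit 17) (nat_lit 5) (nat_lit 20)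 (nat_lit 5) (nat_lit 18) (nat_lit 4) (nat_lit 292) (nat_lit 230) (nat_lit 198)) (XT.nd (nat_lit 78) (nat_lit 76) (nat_lit 0) (XT.lf (nat_lit 0) (nat_lit 10275129887) (nat_lit 228) (nat_lit 3751058359) (nat_lit 76) (nat_lit 8005383318) (nat_lit 17) (nat_lit 5) (nat_lit 20) (nat_lit 5) (nat_lit 18) (nat_lit 4) (nat_lit 293) (nat_lit 230) (nat_lit 197)) (XT.lf (nat_lit 0) (nat_lit 6123951881) (nat_lit 76) (nat_lit 9159920856) (nat_lit 152) (nat_lit 7663322801) (nat_lit 16) (nat_lit 5) (nat_lit 17) (nat_lit 5) (nat_lit 18) (nat_lit 4) (nat_lit 294) (nat_lit 230) (nat_lit 196))))) (XT.nd (nat_lit 234) (nat_lit 76) (nat_lit 0) (XT.nd (nat_lit 78) (nat_lit 228) (nat_lit 0) (XT.lf (nat_lit 0) (nat_lit 16435752848) (nat_lit 76) (nat_lit 4065163641) (nat_lit 152) (nat_lit 3409032691) (nat_lit 16) (nat_lit 5) (nat_lit 17) (nat_lit 5) (nat_lit 18) (nat_lit 4) (nat_lit 295) (nat_lit 230) (nat_lit 195))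 (XT.nd (nat_lit 78) (nat_lit 0) (nat_lit 0) (XT.lf (nat_lit 0) (nat_lit 993319216) (nat_lit 228) (nat_lit 22689027418) (nat_lit 76) (nat_lit 1239587036) (nat_lit 13) (nat_lit 5) (nat_lit 16) (nat_lit 5) (nat_lit 14) (nat_lit 4) (nat_lit 296) (nat_lit 230) (nat_lit 194)) (XT.lf (nat_lit 0) (nat_lit 5588915889) (nat_lit 228) (nat_lit 13605478666) (nat_lit 76) (nat_lit 6787875619) (nat_lit 13) (nat_lit 5) (nat_lit 16) (nat_lit 5) (nat_lit 14) (nat_lit 4) (nat_lit 297) (nat_lit 230) (nat_lit 193)))) (XT.nd (nat_lit 78) (nat_lit 76) (nat_lit 0) (XT.lf (nat_lit 0) (nat_lit 10342142947) (nat_lit 228) (nat_lit 4190249161) (nat_lit 76) (nat_lit 12565466648) (nat_lit 13) (nat_lit 5) (nat_lit 16) (nat_lit 5) (nat_lit 14) (nat_lit 4) (nat_lit 298) (nat_lit 230) (nat_lit 192)) (XT.nd (nat_lit 78) (nat_lit 0) (nat_lit 0) (XT.lf (nat_lit 0) (nat_lit 5690112906) (nat_lit 76) (nat_lit 9628901537) (nat_lit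 152) (nat_lit 12950700234) (nat_lit 12) (nat_lit 5) (nat_lit 13) (nat_lit 5) (nat_lit 14) (nat_lit 4) (nat_lit 299) (nat_lit 230) (nat_lit 191)) (XT.lf (nat_lit 0) (nat_lit 16038737589) (nat_lit 76) (nat_lit 4482595873) (nat_lit 152) (nat_lit 8979596006) (nat_lit 12) (nat_lit 5) (nat_lit 13) (nat_lit 5) (nat_lit 14) (nat_lit 4) (nat_lit 300) (nat_lit 230) (nat_lit 190))))))) (XT.nd (nat_lit 858) (nat_lit 228) (nat_lit 0) (XT.nd (nat_lit 390) (nat_lit 76) (nat_lit 0) (XT.nd (nat_lit 156) (nat_lit 152) (nat_lit 0) (XT.nd (nat_lit 78) (nat_lit 152) (nat_lit 0) (XT.lf (nat_lit 0) (nat_lit 25928830716) (nat_lit 152) (nat_lit 4007221839) (nat_lit 0) (nat_lit 859361709) (nat_lit 12) (nat_lit 5) (nat_lit 14) (nat_lit 4) (nat_lit 12) (nat_lit 4) (nat_lit 301) (nat_lit 230) (nat_lit 189)) (XT.lf (nat_lit 0) (nat_lit 5885862496) (nat_lit 152) (nat_lit 25761909276) (nat_lit 152) (nat_lit 505677682)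 (nat_lit 10) (nat_lit 4) (nat_lit 12) (nat_lit 5) (nat_lit 12) (nat_lit 4) (nat_lit 302) (nat_lit 230) (nat_lit 188))) (XT.nd (nat_lit 78) (nat_lit 76) (nat_lit 0) (XT.lf (nat_lit 0) (nat_lit 3975977781) (nat_lit 228) (nat_lit 17362865826) (nat_lit 76) (nat_lit 12239956333) (nat_lit 9) (nat_lit 5) (nat_lit 12) (nat_lit 5) (nat_lit 10) (nat_lit 4) (nat_lit 303) (nat_lit 230) (nat_lit 187)) (XT.nd (nat_lit 78) (nat_lit 76) (nat_lit 0) (XT.lf (nat_lit 0) (nat_lit 8614716290) (nat_lit 228) (nat_lit 8115625825) (nat_lit 76) (nat_lit 18346673152) (nat_lit 9) (nat_lit 5) (nat_lit 12) (nat_lit 5) (nat_lit 10) (nat_lit 4) (nat_lit 304) (nat_lit 230) (nat_lit 186)) (XT.lf (nat_lit 0) (nat_lit 1530884229) (nat_lit 76) (nat_lit 11915281617) (nat_lit 152) (nat_lit 23205201122) (nat_lit 8) (nat_lit 5) (nat_lit 9) (nat_lit 5) (nat_lit 10) (nat_lit 4) (nat_lit 305) (nat_lit 230) (nat_lit 185))))) (XT.nd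 (nat_lit 234) (nat_lit 76) (nat_lit 0) (XT.nd (nat_lit 78) (nat_lit 0) (nat_lit 0) (XT.lf (nat_lit 0) (nat_lit 11739012310) (nat_lit 76) (nat_lit 6811477734) (nat_lit 152) (nat_lit 19753053650) (nat_lit 8) (nat_lit 5) (nat_lit 9) (nat_lit 5) (nat_lit 10) (nat_lit 4) (nat_lit 306) (nat_lit 230) (nat_lit 184)) (XT.nd (nat_lit 78) (nat_lit 0) (nat_lit 0) (XT.lf (nat_lit 0) (nat_lit 22371546616) (nat_lit 76) (nat_lit 1488730462) (nat_lit 152) (nat_lit 16179589070) (nat_lit 8) (nat_lit 5) (nat_lit 9) (nat_lit 5) (nat_lit 10) (nat_lit 4) (nat_lit 307) (nat_lit 230) (nat_lit 183)) (XT.lf (nat_lit 0) (nat_lit 29427250654) (nat_lit 152) (nat_lit 8449747082) (nat_lit 0) (nat_lit 3986298255) (nat_lit 8) (nat_lit 5) (nat_lit 10) (nat_lit 4) (nat_lit 8) (nat_lit 4) (nat_lit 308) (nat_lit 230) (nat_lit 182)))) (XT.nd (nat_lit 78) (nat_lit 0) (nat_lit 0) (XT.lf (nat_lit 0) (nat_lit 1158246768) (nat_lit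 76) (nat_lit 34095042224) (nat_lit 76) (nat_lit 8525227025) (nat_lit 7) (nat_lit 4) (nat_lit 8) (nat_lit 5) (nat_lit 8) (nat_lit 4) (nat_lit 309) (nat_lit 230) (nat_lit 181)) (XT.nd (nat_lit 78) (nat_lit 0) (nat_lit 0) (XT.lf (nat_lit 0) (nat_lit 11346399393) (nat_lit 76) (nat_lit 30067194326) (nat_lit 76) (nat_lit 4374652652) (nat_lit 7) (nat_lit 4) (nat_lit 8) (nat_lit 5) (nat_lit 8) (nat_lit 4) (nat_lit 310) (nat_lit 230) (nat_lit 180)) (XT.lf (nat_lit 0) (nat_lit 21970801761) (nat_lit 76) (nat_lit 25869189807) (nat_lit 76) (nat_lit 59765775) (nat_lit 7) (nat_lit 4) (nat_lit 8) (nat_lit 5) (nat_lit 8) (nat_lit 4) (nat_lit 311) (nat_lit 230) (nat_lit 179)))))) (XT.nd (nat_lit 390) (nat_lit 76) (nat_lit 0) (XT.nd (nat_lit 156) (nat_lit 76) (nat_lit 0) (XT.nd (nat_lit 78) (nat_lit 0) (nat_lit 0) (XT.lf (nat_lit 0) (nat_lit 4343267603) (nat_lit 152) (nat_lit 17103907328) (nat_lit 76) (nat_lit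 28669623979) (nat_lit 6) (nat_lit 5) (nat_lit 8) (nat_lit 5) (nat_lit 7) (nat_lit 4) (nat_lit 312) (nat_lit 230) (nat_lit 178)) (XT.lf (nat_lit 0) (nat_lit 8926794613) (nat_lit 152) (nat_lit 7905363241) (nat_lit 76) (nat_lit 35613701697) (nat_lit 6) (nat_lit 5) (nat_lit 8) (nat_lit 5) (nat_lit 7) (nat_lit 4) (nat_lit 313) (nat_lit 230) (nat_lit 177))) (XT.nd (nat_lit 78) (nat_lit 0) (nat_lit 0) (XT.lf (nat_lit 0) (nat_lit 1722769925) (nat_lit 76) (nat_lit 11996685053) (nat_lit 152) (nat_lit 41172550096) (nat_lit 5) (nat_lit 5) (nat_lit 6) (nat_lit 5) (nat_lit 7) (nat_lit 4) (nat_lit 314) (nat_lit 230) (nat_lit 176)) (XT.nd (nat_lit 78) (nat_lit 0) (nat_lit 0) (XT.lf (nat_lit 0) (nat_lit 11935386293) (nat_lit 76) (nat_lit 6862283352) (nat_lit 152) (nat_lit 38661439694) (nat_lit 5) (nat_lit 5) (nat_lit 6) (nat_lit 5) (nat_lit 7) (nat_lit 4) (nat_lit 315) (nat_lit 230) (nat_lit 175)) (XT.lf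 (nat_lit 0) (nat_lit 22599469386) (nat_lit 76) (nat_lit 1496556652) (nat_lit 152) (nat_lit 36059583568) (nat_lit 5) (nat_lit 5) (nat_lit 6) (nat_lit 5) (nat_lit 7) (nat_lit 4) (nat_lit 316) (nat_lit 230) (nat_lit 174))))) (XT.nd (nat_lit 234) (nat_lit 76) (nat_lit 0) (XT.nd (nat_lit 78) (nat_lit 0) (nat_lit 0) (XT.lf (nat_lit 0) (nat_lit 29666678567) (nat_lit 152) (nat_lit 29287055509) (nat_lit 0) (nat_lit 4033005860) (nat_lit 5) (nat_lit 5) (nat_lit 7) (nat_lit 4) (nat_lit 5) (nat_lit 4) (nat_lit 317) (nat_lit 230) (nat_lit 173)) (XT.nd (nat_lit 78) (nat_lit 0) (nat_lit 0) (XT.lf (nat_lit 0) (nat_lit 35500117928) (nat_lit 152) (nat_lit 20674007856) (nat_lit 0) (nat_lit 9785798514) (nat_lit 5) (nat_lit 5) (nat_lit 7) (nat_lit 4) (nat_lit 5) (nat_lit 4) (nat_lit 318) (nat_lit 230) (nat_lit 172)) (XT.lf (nat_lit 0) (nat_lit 41595847447) (nat_lit 152) (nat_lit 11682104186) (nat_lit 0) (nat_lit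 15804721644) (nat_lit 5) (nat_lit 5) (nat_lit 7) (nat_lit 4) (nat_lit 5) (nat_lit 4) (nat_lit 319) (nat_lit 230) (nat_lit 171)))) (XT.nd (nat_lit 78) (nat_lit 76) (nat_lit 0) (XT.lf (nat_lit 0) (nat_lit 47968380764) (nat_lit 152) (nat_lit 2289935206) (nat_lit 0) (nat_lit 22104106019) (nat_lit 5) (nat_lit 5) (nat_lit 7) (nat_lit 4) (nat_lit 5) (nat_lit 4) (nat_lit 320) (nat_lit 230) (nat_lit 170)) (XT.nd (nat_lit 78) (nat_lit 0) (nat_lit 0) (XT.lf (nat_lit 0) (nat_lit 7674620887) (nat_lit 76) (nat_lit 47032042841) (nat_lit 76) (nat_lit 21098102438) (nat_lit 4) (nat_lit 4) (nat_lit 5) (nat_lit 5) (nat_lit 5) (nat_lit 4) (nat_lit 321) (nat_lit 230) (nat_lit 169)) (XT.lf (nat_lit 0) (nat_lit 18139623562) (nat_lit 76) (nat_lit 43639990366) (nat_lit 76) (nat_lit 17639701716) (nat_lit 4) (nat_lit 4) (nat_lit 5) (nat_lit 5) (nat_lit 5) (nat_lit 4) (nat_lit 322) (nat_lit 230) (nat_lit 168))))))))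
noncomputable def xc32 : XT := (XT.nd (nat_lit 33462) (nat_lit 0) (nat_lit 1368) (XT.nd (nat_lit 32604) (nat_lit 0) (nat_lit 4712) (XT.nd (nat_lit 390) (nat_lit 76) (nat_lit 0) (XT.nd (nat_lit 156) (nat_lit 76) (nat_lit 0) (XT.nd (nat_lit 78) (nat_lit 0) (nat_lit 0) (XT.lf (nat_lit 0) (nat_lit 29084415289) (nat_lit 76) (nat_lit 40097206085) (nat_lit 76) (nat_lit 14033728629) (nat_lit 4) (nat_lit 4) (nat_lit 5) (nat_lit 5) (nat_lit 5) (nat_lit 4) (nat_lit 323) (nat_lit 230) (nat_lit 167)) (XT.lf (nat_lit 0) (nat_lit 40535055096) (nat_lit 76) (nat_lit 36395254797) (nat_lit 76) (nat_lit 10271597525) (nat_lit 4) (nat_lit 4) (nat_lit 5) (nat_lit 5) (nat_lit 5) (nat_lit 4) (nat_lit 324) (nat_lit 230) (nat_lit 166))) (XT.nd (nat_lit 78) (nat_lit 76) (nat_lit 0) (XT.lf (nat_lit 0) (nat_lit 52518806412) (nat_lit 76) (nat_lit 32525322332) (nat_lit 76) (nat_lit 6344350951) (nat_lit 4) (nat_lit 4) (nat_lit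 5) (nat_lit 5) (nat_lit 5) (nat_lit 4) (nat_lit 325) (nat_lit 230) (nat_lit 165)) (XT.nd (nat_lit 78) (nat_lit 76) (nat_lit 0) (XT.lf (nat_lit 0) (nat_lit 65064201978) (nat_lit 76) (nat_lit 28478194567) (nat_lit 76) (nat_lit 2242638319) (nat_lit 4) (nat_lit 4) (nat_lit 5) (nat_lit 5) (nat_lit 5) (nat_lit 4) (nat_lit 326) (nat_lit 230) (nat_lit 164)) (XT.lf (nat_lit 0) (nat_lit 2003434086) (nat_lit 152) (nat_lit 22220570639) (nat_lit 76) (nat_lit 76177446941) (nat_lit 3) (nat_lit 5) (nat_lit 5) (nat_lit 5) (nat_lit 4) (nat_lit 4) (nat_lit 327) (nat_lit 230) (nat_lit 163))))) (XT.nd (nat_lit 156) (nat_lit 76) (nat_lit 0) (XT.nd (nat_lit 78) (nat_lit 0) (nat_lit 0) (XT.lf (nat_lit 0) (nat_lit 6396387051) (nat_lit 152) (nat_lit 13352386202) (nat_lit 76) (nat_lit 85499836166) (nat_lit 3) (nat_lit 5) (nat_lit 5) (nat_lit 5) (nat_lit 4) (nat_lit 4) (nat_lit 328) (nat_lit 230) (nat_lit 162)) (XT.lf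 (nat_lit 0) (nat_lit 10990441939) (nat_lit 152) (nat_lit 4073607239) (nat_lit 76) (nat_lit 95274646524) (nat_lit 3) (nat_lit 5) (nat_lit 5) (nat_lit 5) (nat_lit 4) (nat_lit 4) (nat_lit 329) (nat_lit 230) (nat_lit 161))) (XT.nd (nat_lit 31902) (nat_lit 0) (nat_lit 9424) (XT.lf (nat_lit 0) (nat_lit 5750063020) (nat_lit 76) (nat_lit 10101747079) (nat_lit 152) (nat_lit 99830361479) (nat_lit 2) (nat_lit 5) (nat_lit 3) (nat_lit 5) (nat_lit 4) (nat_lit 4) (nat_lit 330) (nat_lit 230) (nat_lit 160)) (XT.nd (nat_lit 78) (nat_lit 532) (nat_lit 0) (XT.lf (nat_lit 0) (nat_lit 544381701) (nat_lit 608) (nat_lit 2675763781) (nat_lit 0) (nat_lit 544381701) (nat_lit 133) (nat_lit 5) (nat_lit 141) (nat_lit 4) (nat_lit 133) (nat_lit 4) (nat_lit 258) (nat_lit 231) (nat_lit 231)) (XT.lf (nat_lit 0) (nat_lit 2466357928) (nat_lit 532) (nat_lit 3726803518) (nat_lit 532) (nat_lit 1468414199) (nat_lit 126) (nat_lit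 4) (nat_lit 133) (nat_lit 5) (nat_lit 133) (nat_lit 4) (nat_lit 259) (nat_lit 231) (nat_lit 230)))))) (XT.nd (nat_lit 390) (nat_lit 2280) (nat_lit 0) (XT.nd (nat_lit 156) (nat_lit 1368) (nat_lit 0) (XT.nd (nat_lit 78) (nat_lit 532) (nat_lit 0) (XT.lf (nat_lit 0) (nat_lit 2741248823) (nat_lit 456) (nat_lit 781157635) (nat_lit 532) (nat_lit 4282578525) (nat_lit 119) (nat_lit 5) (nat_lit 125) (nat_lit 5) (nat_lit 126) (nat_lit 4) (nat_lit 260) (nat_lit 231) (nat_lit 229)) (XT.lf (nat_lit 0) (nat_lit 635704775) (nat_lit 532) (nat_lit 4979094038) (nat_lit 76) (nat_lit 2344499557) (nat_lit 112) (nat_lit 5) (nat_lit 119) (nat_lit 5) (nat_lit 113) (nat_lit 4) (nat_lit 261) (nat_lit 231) (nat_lit 228))) (XT.nd (nat_lit 78) (nat_lit 912) (nat_lit 0) (XT.lf (nat_lit 0) (nat_lit 3161753245) (nat_lit 456) (nat_lit 2417255517) (nat_lit 532) (nat_lit 2545589583) (nat_lit 106) (nat_lit 5) (nat_lit 112)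 (nat_lit 5) (nat_lit 113) (nat_lit 4) (nat_lit 262) (nat_lit 231) (nat_lit 227)) (XT.nd (nat_lit 78) (nat_lit 380) (nat_lit 0) (XT.lf (nat_lit 0) (nat_lit 2297780965) (nat_lit 532) (nat_lit 5012690105) (nat_lit 76) (nat_lit 991268934) (nat_lit 99) (nat_lit 5) (nat_lit 106) (nat_lit 5) (nat_lit 100) (nat_lit 4) (nat_lit 263) (nat_lit 231) (nat_lit 226)) (XT.lf (nat_lit 0) (nat_lit 3328237531) (nat_lit 380) (nat_lit 3900015264) (nat_lit 456) (nat_lit 1262307287) (nat_lit 94) (nat_lit 5) (nat_lit 99) (nat_lit 5) (nat_lit 100) (nat_lit 4) (nat_lit 264) (nat_lit 231) (nat_lit 225))))) (XT.nd (nat_lit 234) (nat_lit 988) (nat_lit 0) (XT.nd (nat_lit 78) (nat_lit 836) (nat_lit 0) (XT.lf (nat_lit 0) (nat_lit 3277056744) (nat_lit 380) (nat_lit 244725479) (nat_lit 456) (nat_lit 5170097711) (nat_lit 88) (nat_lit 5) (nat_lit 93) (nat_lit 5) (nat_lit 94) (nat_lit 5) (nat_lit 265) (nat_lit 231) (nat_lit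 224)) (XT.nd (nat_lit 78) (nat_lit 456) (nat_lit 0) (XT.lf (nat_lit 0) (nat_lit 3104402032) (nat_lit 380) (nat_lit 5334077334) (nat_lit 456) (nat_lit 467270745) (nat_lit 83) (nat_lit 5) (nat_lit 88) (nat_lit 5) (nat_lit 89) (nat_lit 4) (nat_lit 266) (nat_lit 231) (nat_lit 223)) (XT.lf (nat_lit 0) (nat_lit 2792598461) (nat_lit 380) (nat_lit 1482474029) (nat_lit 456) (nat_lit 4857614686) (nat_lit 77) (nat_lit 5) (nat_lit 82) (nat_lit 5) (nat_lit 83) (nat_lit 5) (nat_lit 267) (nat_lit 231) (nat_lit 222)))) (XT.nd (nat_lit 78) (nat_lit 684) (nat_lit 0) (XT.lf (nat_lit 0) (nat_lit 2335637234) (nat_lit 304) (nat_lit 6829083972) (nat_lit 380) (nat_lit 208907014) (nat_lit 73) (nat_lit 5) (nat_lit 77) (nat_lit 5) (nat_lit 78) (nat_lit 4) (nat_lit 268) (nat_lit 231) (nat_lit 221)) (XT.nd (nat_lit 78) (nat_lit 304) (nat_lit 0) (XT.lf (nat_lit 0) (nat_lit 1680051664) (nat_lit 304) (nat_lit 2814870096)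 (nat_lit 380) (nat_lit 5133293435) (nat_lit 68) (nat_lit 5) (nat_lit 72) (nat_lit 5) (nat_lit 73) (nat_lit 5) (nat_lit 269) (nat_lit 231) (nat_lit 220)) (XT.lf (nat_lit 0) (nat_lit 844691765) (nat_lit 304) (nat_lit 8502390731) (nat_lit 380) (nat_lit 551207887) (nat_lit 64) (nat_lit 5) (nat_lit 68) (nat_lit 5) (nat_lit 69) (nat_lit 4) (nat_lit 270) (nat_lit 231) (nat_lit 219))))))) (XT.nd (nat_lit 780) (nat_lit 1140) (nat_lit 0) (XT.nd (nat_lit 390) (nat_lit 912) (nat_lit 0) (XT.nd (nat_lit 156) (nat_lit 912) (nat_lit 0) (XT.nd (nat_lit 78) (nat_lit 304) (nat_lit 0) (XT.lf (nat_lit 0) (nat_lit 4114727272) (nat_lit 380) (nat_lit 246314712) (nat_lit 76) (nat_lit 5821781440) (nat_lit 63) (nat_lit 5) (nat_lit 68) (nat_lit 5) (nat_lit 64) (nat_lit 5) (nat_lit 271) (nat_lit 231) (nat_lit 218)) (XT.lf (nat_lit 0) (nat_lit 8923869348) (nat_lit 380) (nat_lit 1542590589) (nat_lit 76) (nat_lit 17623744)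 (nat_lit 59) (nat_lit 5) (nat_lit 64) (nat_lit 5) (nat_lit 60) (nat_lit 4) (nat_lit 272) (nat_lit 231) (nat_lit 217))) (XT.nd (nat_lit 78) (nat_lit 608) (nat_lit 0) (XT.lf (nat_lit 0) (nat_lit 3070995372) (nat_lit 304) (nat_lit 3159292722) (nat_lit 76) (nat_lit 4570688976) (nat_lit 55) (nat_lit 5) (nat_lit 59) (nat_lit 5) (nat_lit 56) (nat_lit 5) (nat_lit 273) (nat_lit 231) (nat_lit 216)) (XT.nd (nat_lit 78) (nat_lit 304) (nat_lit 0) (XT.lf (nat_lit 0) (nat_lit 6063206131) (nat_lit 304) (nat_lit 1756802658) (nat_lit 380) (nat_lit 3315954927) (nat_lit 51) (nat_lit 5) (nat_lit 55) (nat_lit 5) (nat_lit 56) (nat_lit 5) (nat_lit 274) (nat_lit 231) (nat_lit 215)) (XT.lf (nat_lit 0) (nat_lit 1241967365) (nat_lit 304) (nat_lit 7344083908) (nat_lit 76) (nat_lit 2903047467) (nat_lit 47) (nat_lit 5) (nat_lit 51) (nat_lit 5) (nat_lit 48) (nat_lit 5) (nat_lit 275) (nat_lit 231) (nat_lit 214))))) (XT.nd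 (nat_lit 156) (nat_lit 684) (nat_lit 0) (XT.nd (nat_lit 78) (nat_lit 0) (nat_lit 0) (XT.lf (nat_lit 0) (nat_lit 1837543654) (nat_lit 228) (nat_lit 4062494148) (nat_lit 304) (nat_lit 5960878269) (nat_lit 44) (nat_lit 5) (nat_lit 47) (nat_lit 5) (nat_lit 48) (nat_lit 5) (nat_lit 276) (nat_lit 231) (nat_lit 213)) (XT.lf (nat_lit 0) (nat_lit 10730377389) (nat_lit 304) (nat_lit 840245459) (nat_lit 76) (nat_lit 682744667) (nat_lit 44) (nat_lit 5) (nat_lit 48) (nat_lit 5) (nat_lit 45) (nat_lit 4) (nat_lit 277) (nat_lit 231) (nat_lit 212))) (XT.nd (nat_lit 78) (nat_lit 380) (nat_lit 0) (XT.lf (nat_lit 0) (nat_lit 3063386657) (nat_lit 304) (nat_lit 3970026435) (nat_lit 76) (nat_lit 5631697045) (nat_lit 40) (nat_lit 5) (nat_lit 44) (nat_lit 5) (nat_lit 41) (nat_lit 5) (nat_lit 278) (nat_lit 231) (nat_lit 211)) (XT.nd (nat_lit 78) (nat_lit 152) (nat_lit 0) (XT.lf (nat_lit 0) (nat_lit 5517501122) (nat_lit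 228) (nat_lit 2258483983) (nat_lit 304) (nat_lit 5323347838) (nat_lit 37) (nat_lit 5) (nat_lit 40) (nat_lit 5) (nat_lit 41) (nat_lit 5) (nat_lit 279) (nat_lit 231) (nat_lit 210)) (XT.lf (nat_lit 0) (nat_lit 1817008935) (nat_lit 152) (nat_lit 10862592572) (nat_lit 228) (nat_lit 877191788) (nat_lit 35) (nat_lit 5) (nat_lit 37) (nat_lit 5) (nat_lit 38) (nat_lit 4) (nat_lit 280) (nat_lit 231) (nat_lit 209)))))) (XT.nd (nat_lit 390) (nat_lit 456) (nat_lit 0) (XT.nd (nat_lit 156) (nat_lit 380) (nat_lit 0) (XT.nd (nat_lit 78) (nat_lit 228) (nat_lit 0) (XT.lf (nat_lit 0) (nat_lit 3691969774) (nat_lit 228) (nat_lit 2447422552) (nat_lit 76) (nat_lit 7897574516) (nat_lit 34) (nat_lit 5) (nat_lit 37) (nat_lit 5) (nat_lit 35) (nat_lit 5) (nat_lit 281) (nat_lit 231) (nat_lit 208)) (XT.lf (nat_lit 0) (nat_lit 7254789912) (nat_lit 228) (nat_lit 1165671220) (nat_lit 304) (nat_lit 6122122576) (nat_lit 31)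 (nat_lit 5) (nat_lit 34) (nat_lit 5) (nat_lit 35) (nat_lit 5) (nat_lit 282) (nat_lit 231) (nat_lit 207))) (XT.nd (nat_lit 78) (nat_lit 228) (nat_lit 0) (XT.lf (nat_lit 0) (nat_lit 2239849526) (nat_lit 152) (nat_lit 11113984275) (nat_lit 228) (nat_lit 1720751622) (nat_lit 29) (nat_lit 5) (nat_lit 31) (nat_lit 5) (nat_lit 32) (nat_lit 4) (nat_lit 283) (nat_lit 231) (nat_lit 206)) (XT.nd (nat_lit 78) (nat_lit 152) (nat_lit 0) (XT.lf (nat_lit 0) (nat_lit 2816695908) (nat_lit 228) (nat_lit 3457429369) (nat_lit 76) (nat_lit 9359192946) (nat_lit 28) (nat_lit 5) (nat_lit 31) (nat_lit 5) (nat_lit 29) (nat_lit 5) (nat_lit 284) (nat_lit 231) (nat_lit 205)) (XT.lf (nat_lit 0) (nat_lit 6321132213) (nat_lit 152) (nat_lit 1175942850) (nat_lit 228) (nat_lit 8723990956) (nat_lit 26) (nat_lit 5) (nat_lit 28) (nat_lit 5) (nat_lit 29) (nat_lit 5) (nat_lit 285) (nat_lit 231) (nat_lit 204))))) (XT.nd (nat_lit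 234) (nat_lit 76) (nat_lit 0) (XT.nd (nat_lit 78) (nat_lit 380) (nat_lit 0) (XT.lf (nat_lit 0) (nat_lit 12381111310) (nat_lit 228) (nat_lit 388086272) (nat_lit 76) (nat_lit 4070046745) (nat_lit 26) (nat_lit 5) (nat_lit 29) (nat_lit 5) (nat_lit 27) (nat_lit 4) (nat_lit 286) (nat_lit 231) (nat_lit 203)) (XT.nd (nat_lit 78) (nat_lit 152) (nat_lit 0) (XT.lf (nat_lit 0) (nat_lit 23387761) (nat_lit 228) (nat_lit 7876714511) (nat_lit 76) (nat_lit 9588262114) (nat_lit 23) (nat_lit 5) (nat_lit 26) (nat_lit 5) (nat_lit 24) (nat_lit 5) (nat_lit 287) (nat_lit 231) (nat_lit 202)) (XT.lf (nat_lit 0) (nat_lit 1778761287) (nat_lit 152) (nat_lit 2780839019) (nat_lit 228) (nat_lit 13611447916) (nat_lit 21) (nat_lit 5) (nat_lit 23) (nat_lit 5) (nat_lit 24) (nat_lit 5) (nat_lit 288) (nat_lit 231) (nat_lit 201)))) (XT.nd (nat_lit 78) (nat_lit 76) (nat_lit 0) (XT.lf (nat_lit 0) (nat_lit 9332921811) (nat_lit 228)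 (nat_lit 6987948263) (nat_lit 76) (nat_lit 2566798154) (nat_lit 21) (nat_lit 5) (nat_lit 24) (nat_lit 5) (nat_lit 22) (nat_lit 4) (nat_lit 289) (nat_lit 231) (nat_lit 200)) (XT.nd (nat_lit 78) (nat_lit 0) (nat_lit 0) (XT.lf (nat_lit 0) (nat_lit 2761586327) (nat_lit 76) (nat_lit 11546006192) (nat_lit 152) (nat_lit 5333751868) (nat_lit 20) (nat_lit 5) (nat_lit 21) (nat_lit 5) (nat_lit 22) (nat_lit 4) (nat_lit 290) (nat_lit 231) (nat_lit 199)) (XT.lf (nat_lit 0) (nat_lit 12998107237) (nat_lit 76) (nat_lit 6515862905) (nat_lit 152) (nat_lit 919345628) (nat_lit 20) (nat_lit 5) (nat_lit 21) (nat_lit 5) (nat_lit 22) (nat_lit 4) (nat_lit 291) (nat_lit 231) (nat_lit 198))))))))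
noncomputable def xc33 : XT := (XT.nd (nat_lit 1638) (nat_lit 228) (nat_lit 0) (XT.nd (nat_lit 780) (nat_lit 456) (nat_lit 0) (XT.nd (nat_lit 390) (nat_lit 304) (nat_lit 0) (XT.nd (nat_lit 156) (nat_lit 76) (nat_lit 0) (XT.nd (nat_lit 78) (nat_lit 0) (nat_lit 0) (XT.lf (nat_lit 0) (nat_lit 2350375680) (nat_lit 152) (nat_lit 1229832278) (nat_lit 228) (nat_lit 17685591186) (nat_lit 17) (nat_lit 5) (nat_lit 19) (nat_lit 5) (nat_lit 20) (nat_lit 5) (nat_lit 292) (nat_lit 231) (nat_lit 197)) (XT.lf (nat_lit 0) (nat_lit 8321309004) (nat_lit 228) (nat_lit 9547905729) (nat_lit 76) (nat_lit 4269439987) (nat_lit 17) (nat_lit 5) (nat_lit 20) (nat_lit 5) (nat_lit 18) (nat_lit 4) (nat_lit 293) (nat_lit 231) (nat_lit 196))) (XT.nd (nat_lit 78) (nat_lit 0) (nat_lit 0) (XT.lf (nat_lit 0) (nat_lit 145713505) (nat_lit 76) (nat_lit 13088116231) (nat_lit 152) (nat_lit 9823376783) (nat_lit 16) (nat_lit 5) (nat_lit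 17) (nat_lit 5) (nat_lit 18) (nat_lit 4) (nat_lit 294) (nat_lit 231) (nat_lit 195)) (XT.nd (nat_lit 78) (nat_lit 0) (nat_lit 0) (XT.lf (nat_lit 0) (nat_lit 10394636018) (nat_lit 76) (nat_lit 8018722918) (nat_lit 152) (nat_lit 5607765865) (nat_lit 16) (nat_lit 5) (nat_lit 17) (nat_lit 5) (nat_lit 18) (nat_lit 4) (nat_lit 295) (nat_lit 231) (nat_lit 194)) (XT.lf (nat_lit 0) (nat_lit 21033241960) (nat_lit 76) (nat_lit 2745379937) (nat_lit 152) (nat_lit 1256890920) (nat_lit 16) (nat_lit 5) (nat_lit 17) (nat_lit 5) (nat_lit 18) (nat_lit 4) (nat_lit 296) (nat_lit 231) (nat_lit 193))))) (XT.nd (nat_lit 156) (nat_lit 76) (nat_lit 0) (XT.nd (nat_lit 78) (nat_lit 0) (nat_lit 0) (XT.lf (nat_lit 0) (nat_lit 3262020653) (nat_lit 228) (nat_lit 20055958810) (nat_lit 76) (nat_lit 2781303187) (nat_lit 13) (nat_lit 5) (nat_lit 16) (nat_lit 5) (nat_lit 14) (nat_lit 4) (nat_lit 297) (nat_lit 231) (nat_lit 192))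 (XT.lf (nat_lit 0) (nat_lit 7981728804) (nat_lit 228) (nat_lit 10697638334) (nat_lit 76) (nat_lit 8536542542) (nat_lit 13) (nat_lit 5) (nat_lit 16) (nat_lit 5) (nat_lit 14) (nat_lit 4) (nat_lit 298) (nat_lit 231) (nat_lit 191))) (XT.nd (nat_lit 78) (nat_lit 76) (nat_lit 0) (XT.lf (nat_lit 0) (nat_lit 12871980685) (nat_lit 228) (nat_lit 982509938) (nat_lit 76) (nat_lit 14535904878) (nat_lit 13) (nat_lit 5) (nat_lit 16) (nat_lit 5) (nat_lit 14) (nat_lit 4) (nat_lit 299) (nat_lit 231) (nat_lit 190)) (XT.nd (nat_lit 78) (nat_lit 0) (nat_lit 0) (XT.lf (nat_lit 0) (nat_lit 9293915399) (nat_lit 76) (nat_lit 8739843155) (nat_lit 152) (nat_lit 11589097793) (nat_lit 12) (nat_lit 5) (nat_lit 13) (nat_lit 5) (nat_lit 14) (nat_lit 4) (nat_lit 300) (nat_lit 231) (nat_lit 189)) (XT.lf (nat_lit 0) (nat_lit 20001909561) (nat_lit 76) (nat_lit 3401484277) (nat_lit 152) (nat_lit 7515111566) (nat_lit 12) (nat_lit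 5) (nat_lit 13) (nat_lit 5) (nat_lit 14) (nat_lit 4) (nat_lit 301) (nat_lit 231) (nat_lit 188)))))) (XT.nd (nat_lit 390) (nat_lit 152) (nat_lit 0) (XT.nd (nat_lit 156) (nat_lit 76) (nat_lit 0) (XT.nd (nat_lit 78) (nat_lit 228) (nat_lit 0) (XT.lf (nat_lit 0) (nat_lit 29004834616) (nat_lit 152) (nat_lit 1154098311) (nat_lit 0) (nat_lit 2121159726) (nat_lit 12) (nat_lit 5) (nat_lit 14) (nat_lit 4) (nat_lit 12) (nat_lit 4) (nat_lit 302) (nat_lit 231) (nat_lit 187)) (XT.lf (nat_lit 0) (nat_lit 1221386537) (nat_lit 228) (nat_lit 24573659389) (nat_lit 76) (nat_lit 7912392571) (nat_lit 9) (nat_lit 5) (nat_lit 12) (nat_lit 5) (nat_lit 10) (nat_lit 4) (nat_lit 303) (nat_lit 231) (nat_lit 186))) (XT.nd (nat_lit 78) (nat_lit 76) (nat_lit 0) (XT.lf (nat_lit 0) (nat_lit 5833812034) (nat_lit 228) (nat_lit 15371768175) (nat_lit 76) (nat_lit 14000886826) (nat_lit 9) (nat_lit 5) (nat_lit 12) (nat_lit 5) (nat_lit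 10) (nat_lit 4) (nat_lit 304) (nat_lit 231) (nat_lit 185)) (XT.nd (nat_lit 78) (nat_lit 76) (nat_lit 0) (XT.lf (nat_lit 0) (nat_lit 10625485784) (nat_lit 228) (nat_lit 5798320505) (nat_lit 76) (nat_lit 20358228407) (nat_lit 9) (nat_lit 5) (nat_lit 12) (nat_lit 5) (nat_lit 10) (nat_lit 4) (nat_lit 305) (nat_lit 231) (nat_lit 184)) (XT.lf (nat_lit 0) (nat_lit 4252458321) (nat_lit 76) (nat_lit 11396235442) (nat_lit 152) (nat_lit 22787972749) (nat_lit 8) (nat_lit 5) (nat_lit 9) (nat_lit 5) (nat_lit 10) (nat_lit 4) (nat_lit 306) (nat_lit 231) (nat_lit 183))))) (XT.nd (nat_lit 234) (nat_lit 152) (nat_lit 0) (XT.nd (nat_lit 78) (nat_lit 0) (nat_lit 0) (XT.lf (nat_lit 0) (nat_lit 14845039002) (nat_lit 76) (nat_lit 6090327568) (nat_lit 152) (nat_lit 19238336400) (nat_lit 8) (nat_lit 5) (nat_lit 9) (nat_lit 5) (nat_lit 10) (nat_lit 4) (nat_lit 307) (nat_lit 231) (nat_lit 182)) (XT.nd (nat_lit 78)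 (nat_lit 0) (nat_lit 0) (XT.lf (nat_lit 0) (nat_lit 25889244020) (nat_lit 76) (nat_lit 552001221) (nat_lit 152) (nat_lit 15557740016) (nat_lit 8) (nat_lit 5) (nat_lit 9) (nat_lit 5) (nat_lit 10) (nat_lit 4) (nat_lit 308) (nat_lit 231) (nat_lit 181)) (XT.lf (nat_lit 0) (nat_lit 32229731523) (nat_lit 152) (nat_lit 6555782696) (nat_lit 0) (nat_lit 5129836290) (nat_lit 8) (nat_lit 5) (nat_lit 10) (nat_lit 4) (nat_lit 8) (nat_lit 4) (nat_lit 309) (nat_lit 231) (nat_lit 180)))) (XT.nd (nat_lit 78) (nat_lit 76) (nat_lit 0) (XT.lf (nat_lit 0) (nat_lit 3466210223) (nat_lit 76) (nat_lit 34839103835) (nat_lit 76) (nat_lit 7622326244) (nat_lit 7) (nat_lit 4) (nat_lit 8) (nat_lit 5) (nat_lit 8) (nat_lit 4) (nat_lit 310) (nat_lit 231) (nat_lit 179)) (XT.nd (nat_lit 78) (nat_lit 76) (nat_lit 0) (XT.lf (nat_lit 0) (nat_lit 14056625187) (nat_lit 76) (nat_lit 30655610709) (nat_lit 76) (nat_lit 3327516587)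 (nat_lit 7) (nat_lit 4) (nat_lit 8) (nat_lit 5) (nat_lit 8) (nat_lit 4) (nat_lit 311) (nat_lit 231) (nat_lit 178)) (XT.lf (nat_lit 0) (nat_lit 1120534340) (nat_lit 152) (nat_lit 25159425154) (nat_lit 76) (nat_lit 23978354999) (nat_lit 6) (nat_lit 5) (nat_lit 8) (nat_lit 5) (nat_lit 7) (nat_lit 4) (nat_lit 312) (nat_lit 231) (nat_lit 177))))))) (XT.nd (nat_lit 780) (nat_lit 76) (nat_lit 0) (XT.nd (nat_lit 390) (nat_lit 76) (nat_lit 0) (XT.nd (nat_lit 156) (nat_lit 76) (nat_lit 0) (XT.nd (nat_lit 78) (nat_lit 0) (nat_lit 0) (XT.lf (nat_lit 0) (nat_lit 5686206076) (nat_lit 152) (nat_lit 15992078906) (nat_lit 76) (nat_lit 30909640717) (nat_lit 6) (nat_lit 5) (nat_lit 8) (nat_lit 5) (nat_lit 7) (nat_lit 4) (nat_lit 313) (nat_lit 231) (nat_lit 176)) (XT.lf (nat_lit 0) (nat_lit 10445301099) (nat_lit 152) (nat_lit 6427275414) (nat_lit 76) (nat_lit 38162515867) (nat_lit 6) (nat_lit 5) (nat_lit 8)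 (nat_lit 5) (nat_lit 7) (nat_lit 4) (nat_lit 314) (nat_lit 231) (nat_lit 175))) (XT.nd (nat_lit 78) (nat_lit 0) (nat_lit 0) (XT.lf (nat_lit 0) (nat_lit 3628565036) (nat_lit 76) (nat_lit 11815465539) (nat_lit 152) (nat_lit 42160564147) (nat_lit 5) (nat_lit 5) (nat_lit 6) (nat_lit 5) (nat_lit 7) (nat_lit 4) (nat_lit 315) (nat_lit 231) (nat_lit 174)) (XT.nd (nat_lit 78) (nat_lit 0) (nat_lit 0) (XT.lf (nat_lit 0) (nat_lit 14265161907) (nat_lit 76) (nat_lit 6461536789) (nat_lit 152) (nat_lit 39574879819) (nat_lit 5) (nat_lit 5) (nat_lit 6) (nat_lit 5) (nat_lit 7) (nat_lit 4) (nat_lit 316) (nat_lit 231) (nat_lit 173)) (XT.lf (nat_lit 0) (nat_lit 25379925046) (nat_lit 76) (nat_lit 862945693) (nat_lit 152) (nat_lit 36891484785) (nat_lit 5) (nat_lit 5) (nat_lit 6) (nat_lit 5) (nat_lit 7) (nat_lit 4) (nat_lit 317) (nat_lit 231) (nat_lit 172))))) (XT.nd (nat_lit 156) (nat_lit 76) (nat_lit 0) (XT.nd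 (nat_lit 78) (nat_lit 0) (nat_lit 0) (XT.lf (nat_lit 0) (nat_lit 32053682349) (nat_lit 152) (nat_lit 29158354183) (nat_lit 0) (nat_lit 4896193866) (nat_lit 5) (nat_lit 5) (nat_lit 7) (nat_lit 4) (nat_lit 5) (nat_lit 4) (nat_lit 318) (nat_lit 231) (nat_lit 171)) (XT.lf (nat_lit 0) (nat_lit 38135761781) (nat_lit 152) (nat_lit 20190513866) (nat_lit 0) (nat_lit 10905124357) (nat_lit 5) (nat_lit 5) (nat_lit 7) (nat_lit 4) (nat_lit 5) (nat_lit 4) (nat_lit 319) (nat_lit 231) (nat_lit 170))) (XT.nd (nat_lit 78) (nat_lit 76) (nat_lit 0) (XT.lf (nat_lit 0) (nat_lit 44495295015) (nat_lit 152) (nat_lit 10821262365) (nat_lit 0) (nat_lit 17194991933) (nat_lit 5) (nat_lit 5) (nat_lit 7) (nat_lit 4) (nat_lit 5) (nat_lit 4) (nat_lit 320) (nat_lit 231) (nat_lit 169)) (XT.nd (nat_lit 78) (nat_lit 76) (nat_lit 0) (XT.lf (nat_lit 0) (nat_lit 51147423799) (nat_lit 152) (nat_lit 1028291937) (nat_lit 0) (nat_lit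 23780772470) (nat_lit 5) (nat_lit 5) (nat_lit 7) (nat_lit 4) (nat_lit 5) (nat_lit 4) (nat_lit 321) (nat_lit 231) (nat_lit 168)) (XT.lf (nat_lit 0) (nat_lit 9395045183) (nat_lit 76) (nat_lit 48803252270) (nat_lit 76) (nat_lit 21373412135) (nat_lit 4) (nat_lit 4) (nat_lit 5) (nat_lit 5) (nat_lit 5) (nat_lit 4) (nat_lit 322) (nat_lit 231) (nat_lit 167)))))) (XT.nd (nat_lit 390) (nat_lit 76) (nat_lit 0) (XT.nd (nat_lit 156) (nat_lit 0) (nat_lit 0) (XT.nd (nat_lit 78) (nat_lit 0) (nat_lit 0) (XT.lf (nat_lit 0) (nat_lit 20319645931) (nat_lit 76) (nat_lit 45269234919) (nat_lit 76) (nat_lit 17779214969) (nat_lit 4) (nat_lit 4) (nat_lit 5) (nat_lit 5) (nat_lit 5) (nat_lit 4) (nat_lit 323) (nat_lit 231) (nat_lit 166)) (XT.lf (nat_lit 0) (nat_lit 31751056236) (nat_lit 76) (nat_lit 41575633089) (nat_lit 76) (nat_lit 14028299029) (nat_lit 4) (nat_lit 4) (nat_lit 5) (nat_lit 5) (nat_lit 5) (nat_lit 4)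 (nat_lit 324) (nat_lit 231) (nat_lit 165))) (XT.nd (nat_lit 78) (nat_lit 0) (nat_lit 0) (XT.lf (nat_lit 0) (nat_lit 43716493739) (nat_lit 76) (nat_lit 37713652489) (nat_lit 76) (nat_lit 10111733562) (nat_lit 4) (nat_lit 4) (nat_lit 5) (nat_lit 5) (nat_lit 5) (nat_lit 4) (nat_lit 325) (nat_lit 231) (nat_lit 164)) (XT.nd (nat_lit 78) (nat_lit 0) (nat_lit 0) (XT.lf (nat_lit 0) (nat_lit 56244447579) (nat_lit 76) (nat_lit 33674097928) (nat_lit 76) (nat_lit 6020193414) (nat_lit 4) (nat_lit 4) (nat_lit 5) (nat_lit 5) (nat_lit 5) (nat_lit 4) (nat_lit 326) (nat_lit 231) (nat_lit 163)) (XT.lf (nat_lit 0) (nat_lit 69364746216) (nat_lit 76) (nat_lit 29447351418) (nat_lit 76) (nat_lit 1743936821) (nat_lit 4) (nat_lit 4) (nat_lit 5) (nat_lit 5) (nat_lit 5) (nat_lit 4) (nat_lit 327) (nat_lit 231) (nat_lit 162))))) (XT.nd (nat_lit 31902) (nat_lit 0) (nat_lit 9880) (XT.nd (nat_lit 78) (nat_lit 0) (nat_lit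 0) (XT.lf (nat_lit 0) (nat_lit 2673999937) (nat_lit 152) (nat_lit 22322347183) (nat_lit 76) (nat_lit 80407626364) (nat_lit 3) (nat_lit 5) (nat_lit 5) (nat_lit 5) (nat_lit 4) (nat_lit 4) (nat_lit 328) (nat_lit 231) (nat_lit 161)) (XT.nd (nat_lit 78) (nat_lit 0) (nat_lit 0) (XT.lf (nat_lit 0) (nat_lit 7259438925) (nat_lit 152) (nat_lit 13058813143) (nat_lit 76) (nat_lit 90176072808) (nat_lit 3) (nat_lit 5) (nat_lit 5) (nat_lit 5) (nat_lit 4) (nat_lit 4) (nat_lit 329) (nat_lit 231) (nat_lit 160)) (XT.lf (nat_lit 0) (nat_lit 12057328342) (nat_lit 152) (nat_lit 3361866297) (nat_lit 76) (nat_lit 100420516788) (nat_lit 3) (nat_lit 5) (nat_lit 5) (nat_lit 5) (nat_lit 4) (nat_lit 4) (nat_lit 330) (nat_lit 231) (nat_lit 159)))) (XT.nd (nat_lit 78) (nat_lit 1292) (nat_lit 0) (XT.lf (nat_lit 0) (nat_lit 425289951) (nat_lit 1140) (nat_lit 2794893105) (nat_lit 0) (nat_lit 425289951) (nat_lit 150) (nat_lit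 5) (nat_lit 165) (nat_lit 4) (nat_lit 150) (nat_lit 4) (nat_lit 256) (nat_lit 232) (nat_lit 232)) (XT.nd (nat_lit 78) (nat_lit 608) (nat_lit 0) (XT.lf (nat_lit 0) (nat_lit 1866863403) (nat_lit 684) (nat_lit 3991083457) (nat_lit 684) (nat_lit 1548635409) (nat_lit 141) (nat_lit 4) (nat_lit 150) (nat_lit 5) (nat_lit 150) (nat_lit 4) (nat_lit 257) (nat_lit 232) (nat_lit 231)) (XT.lf (nat_lit 0) (nat_lit 2038799508) (nat_lit 532) (nat_lit 1314593868) (nat_lit 608) (nat_lit 4179204801) (nat_lit 133) (nat_lit 5) (nat_lit 140) (nat_lit 5) (nat_lit 141) (nat_lit 4) (nat_lit 258) (nat_lit 232) (nat_lit 230))))))))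
noncomputable def xc34 : XT := (XT.nd (nat_lit 1638) (nat_lit 1900) (nat_lit 0) (XT.nd (nat_lit 780) (nat_lit 2660) (nat_lit 0) (XT.nd (nat_lit 390) (nat_lit 2052) (nat_lit 0) (XT.nd (nat_lit 156) (nat_lit 1520) (nat_lit 0) (XT.nd (nat_lit 78) (nat_lit 456) (nat_lit 0) (XT.lf (nat_lit 0) (nat_lit 646856793) (nat_lit 608) (nat_lit 5467425782) (nat_lit 76) (nat_lit 1554836265) (nat_lit 125) (nat_lit 5) (nat_lit 133) (nat_lit 5) (nat_lit 126) (nat_lit 4) (nat_lit 259) (nat_lit 232) (nat_lit 229)) (XT.lf (nat_lit 0) (nat_lit 2324361267) (nat_lit 456) (nat_lit 3169890962) (nat_lit 532) (nat_lit 2321598065) (nat_lit 119) (nat_lit 5) (nat_lit 125) (nat_lit 5) (nat_lit 126) (nat_lit 4) (nat_lit 260) (nat_lit 232) (nat_lit 228))) (XT.nd (nat_lit 78) (nat_lit 988) (nat_lit 0) (XT.lf (nat_lit 0) (nat_lit 2421921597) (nat_lit 532) (nat_lit 5549375238) (nat_lit 76) (nat_lit 2675924) (nat_lit 112) (nat_lit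 5) (nat_lit 119) (nat_lit 5) (nat_lit 113) (nat_lit 4) (nat_lit 261) (nat_lit 232) (nat_lit 227)) (XT.nd (nat_lit 78) (nat_lit 532) (nat_lit 0) (XT.lf (nat_lit 0) (nat_lit 2456590411) (nat_lit 456) (nat_lit 4797760810) (nat_lit 532) (nat_lit 888514076) (nat_lit 106) (nat_lit 5) (nat_lit 112) (nat_lit 5) (nat_lit 113) (nat_lit 4) (nat_lit 262) (nat_lit 232) (nat_lit 226)) (XT.lf (nat_lit 0) (nat_lit 2422683931) (nat_lit 456) (nat_lit 1380183099) (nat_lit 532) (nat_lit 4520497939) (nat_lit 99) (nat_lit 5) (nat_lit 105) (nat_lit 5) (nat_lit 106) (nat_lit 5) (nat_lit 263) (nat_lit 232) (nat_lit 225))))) (XT.nd (nat_lit 156) (nat_lit 1216) (nat_lit 0) (XT.nd (nat_lit 78) (nat_lit 380) (nat_lit 0) (XT.lf (nat_lit 0) (nat_lit 94419566) (nat_lit 456) (nat_lit 6202715067) (nat_lit 76) (nat_lit 2218886902) (nat_lit 93) (nat_lit 5) (nat_lit 99) (nat_lit 5) (nat_lit 94) (nat_lit 5) (nat_lit 264) (nat_lit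 232) (nat_lit 224)) (XT.lf (nat_lit 0) (nat_lit 2083069084) (nat_lit 380) (nat_lit 2663749934) (nat_lit 456) (nat_lit 3973586945) (nat_lit 88) (nat_lit 5) (nat_lit 93) (nat_lit 5) (nat_lit 94) (nat_lit 5) (nat_lit 265) (nat_lit 232) (nat_lit 223))) (XT.nd (nat_lit 78) (nat_lit 760) (nat_lit 0) (XT.lf (nat_lit 0) (nat_lit 585022135) (nat_lit 456) (nat_lit 7182666588) (nat_lit 76) (nat_lit 1170477270) (nat_lit 82) (nat_lit 5) (nat_lit 88) (nat_lit 5) (nat_lit 83) (nat_lit 5) (nat_lit 266) (nat_lit 232) (nat_lit 222)) (XT.nd (nat_lit 78) (nat_lit 380) (nat_lit 0) (XT.lf (nat_lit 0) (nat_lit 1260752895) (nat_lit 380) (nat_lit 3952644975) (nat_lit 456) (nat_lit 3954906888) (nat_lit 77) (nat_lit 5) (nat_lit 82) (nat_lit 5) (nat_lit 83) (nat_lit 5) (nat_lit 267) (nat_lit 232) (nat_lit 221)) (XT.lf (nat_lit 0) (nat_lit 551648442) (nat_lit 380) (nat_lit 8775105972) (nat_lit 76) (nat_lit 86326303)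 (nat_lit 72) (nat_lit 5) (nat_lit 77) (nat_lit 5) (nat_lit 73) (nat_lit 5) (nat_lit 268) (nat_lit 232) (nat_lit 220)))))) (XT.nd (nat_lit 390) (nat_lit 1368) (nat_lit 0) (XT.nd (nat_lit 156) (nat_lit 988) (nat_lit 0) (XT.nd (nat_lit 78) (nat_lit 304) (nat_lit 0) (XT.lf (nat_lit 0) (nat_lit 5150156188) (nat_lit 380) (nat_lit 205765184) (nat_lit 76) (nat_lit 4314891580) (nat_lit 72) (nat_lit 5) (nat_lit 77) (nat_lit 5) (nat_lit 73) (nat_lit 5) (nat_lit 269) (nat_lit 232) (nat_lit 219)) (XT.lf (nat_lit 0) (nat_lit 8740199981) (nat_lit 304) (nat_lit 1156267990) (nat_lit 380) (nat_lit 47755799) (nat_lit 68) (nat_lit 5) (nat_lit 72) (nat_lit 5) (nat_lit 73) (nat_lit 5) (nat_lit 270) (nat_lit 232) (nat_lit 218))) (XT.nd (nat_lit 78) (nat_lit 608) (nat_lit 0) (XT.lf (nat_lit 0) (nat_lit 4504869862) (nat_lit 380) (nat_lit 2470392009) (nat_lit 76) (nat_lit 3256602408) (nat_lit 63) (nat_lit 5) (nat_lit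 68) (nat_lit 5) (nat_lit 64) (nat_lit 5) (nat_lit 271) (nat_lit 232) (nat_lit 217)) (XT.nd (nat_lit 78) (nat_lit 304) (nat_lit 0) (XT.lf (nat_lit 0) (nat_lit 6565022565) (nat_lit 304) (nat_lit 2649352170) (nat_lit 380) (nat_lit 1321879957) (nat_lit 59) (nat_lit 5) (nat_lit 63) (nat_lit 5) (nat_lit 64) (nat_lit 5) (nat_lit 272) (nat_lit 232) (nat_lit 216)) (XT.lf (nat_lit 0) (nat_lit 3179015017) (nat_lit 304) (nat_lit 5774705266) (nat_lit 76) (nat_lit 1903259397) (nat_lit 55) (nat_lit 5) (nat_lit 59) (nat_lit 5) (nat_lit 56) (nat_lit 5) (nat_lit 273) (nat_lit 232) (nat_lit 215))))) (XT.nd (nat_lit 234) (nat_lit 760) (nat_lit 0) (XT.nd (nat_lit 78) (nat_lit 304) (nat_lit 0) (XT.lf (nat_lit 0) (nat_lit 3289902264) (nat_lit 304) (nat_lit 4538942886) (nat_lit 380) (nat_lit 3366220876) (nat_lit 51) (nat_lit 5) (nat_lit 55) (nat_lit 5) (nat_lit 56) (nat_lit 5) (nat_lit 274) (nat_lit 232) (nat_lit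 214)) (XT.nd (nat_lit 78) (nat_lit 0) (nat_lit 0) (XT.lf (nat_lit 0) (nat_lit 1065729928) (nat_lit 304) (nat_lit 10371612915) (nat_lit 76) (nat_lit 114796115) (nat_lit 47) (nat_lit 5) (nat_lit 51) (nat_lit 5) (nat_lit 48) (nat_lit 5) (nat_lit 275) (nat_lit 232) (nat_lit 213)) (XT.lf (nat_lit 0) (nat_lit 5637408105) (nat_lit 304) (nat_lit 1327098430) (nat_lit 76) (nat_lit 4962150895) (nat_lit 47) (nat_lit 5) (nat_lit 51) (nat_lit 5) (nat_lit 48) (nat_lit 5) (nat_lit 276) (nat_lit 232) (nat_lit 212)))) (XT.nd (nat_lit 78) (nat_lit 532) (nat_lit 0) (XT.lf (nat_lit 0) (nat_lit 8130608994) (nat_lit 228) (nat_lit 2251033047) (nat_lit 304) (nat_lit 1940154168) (nat_lit 44) (nat_lit 5) (nat_lit 47) (nat_lit 5) (nat_lit 48) (nat_lit 5) (nat_lit 277) (nat_lit 232) (nat_lit 211)) (XT.nd (nat_lit 78) (nat_lit 228) (nat_lit 0) (XT.lf (nat_lit 0) (nat_lit 2534344591) (nat_lit 304) (nat_lit 7529765119)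 (nat_lit 76) (nat_lit 2673246288) (nat_lit 40) (nat_lit 5) (nat_lit 44) (nat_lit 5) (nat_lit 41) (nat_lit 5) (nat_lit 278) (nat_lit 232) (nat_lit 210)) (XT.lf (nat_lit 0) (nat_lit 1791078933) (nat_lit 228) (nat_lit 5357945885) (nat_lit 304) (nat_lit 6025583263) (nat_lit 37) (nat_lit 5) (nat_lit 40) (nat_lit 5) (nat_lit 41) (nat_lit 5) (nat_lit 279) (nat_lit 232) (nat_lit 209))))))) (XT.nd (nat_lit 780) (nat_lit 684) (nat_lit 0) (XT.nd (nat_lit 390) (nat_lit 532) (nat_lit 0) (XT.nd (nat_lit 156) (nat_lit 456) (nat_lit 0) (XT.nd (nat_lit 78) (nat_lit 228) (nat_lit 0) (XT.lf (nat_lit 0) (nat_lit 11548203385) (nat_lit 228) (nat_lit 400711212) (nat_lit 304) (nat_lit 1686352994) (nat_lit 37) (nat_lit 5) (nat_lit 40) (nat_lit 5) (nat_lit 41) (nat_lit 5) (nat_lit 280) (nat_lit 232) (nat_lit 208)) (XT.lf (nat_lit 0) (nat_lit 2815110270) (nat_lit 228) (nat_lit 6551741932) (nat_lit 76) (nat_lit 4751407697)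 (nat_lit 34) (nat_lit 5) (nat_lit 37) (nat_lit 5) (nat_lit 35) (nat_lit 5) (nat_lit 281) (nat_lit 232) (nat_lit 207))) (XT.nd (nat_lit 78) (nat_lit 228) (nat_lit 0) (XT.lf (nat_lit 0) (nat_lit 2979953989) (nat_lit 228) (nat_lit 4466391431) (nat_lit 304) (nat_lit 7180525962) (nat_lit 31) (nat_lit 5) (nat_lit 34) (nat_lit 5) (nat_lit 35) (nat_lit 5) (nat_lit 282) (nat_lit 232) (nat_lit 206)) (XT.nd (nat_lit 78) (nat_lit 228) (nat_lit 0) (XT.lf (nat_lit 0) (nat_lit 12271864833) (nat_lit 304) (nat_lit 2217266565) (nat_lit 76) (nat_lit 673050563) (nat_lit 31) (nat_lit 5) (nat_lit 35) (nat_lit 5) (nat_lit 32) (nat_lit 4) (nat_lit 283) (nat_lit 232) (nat_lit 205)) (XT.lf (nat_lit 0) (nat_lit 1594611226) (nat_lit 228) (nat_lit 8120142511) (nat_lit 76) (nat_lit 6008826298) (nat_lit 28) (nat_lit 5) (nat_lit 31) (nat_lit 5) (nat_lit 29) (nat_lit 5) (nat_lit 284) (nat_lit 232) (nat_lit 204))))) (XT.nd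 (nat_lit 156) (nat_lit 380) (nat_lit 0) (XT.nd (nat_lit 78) (nat_lit 0) (nat_lit 0) (XT.lf (nat_lit 0) (nat_lit 1483370994) (nat_lit 152) (nat_lit 4694269697) (nat_lit 228) (nat_lit 10136672149) (nat_lit 26) (nat_lit 5) (nat_lit 28) (nat_lit 5) (nat_lit 29) (nat_lit 5) (nat_lit 285) (nat_lit 232) (nat_lit 203)) (XT.lf (nat_lit 0) (nat_lit 10978398441) (nat_lit 228) (nat_lit 5364864750) (nat_lit 76) (nat_lit 591787760) (nat_lit 26) (nat_lit 5) (nat_lit 29) (nat_lit 5) (nat_lit 27) (nat_lit 4) (nat_lit 286) (nat_lit 232) (nat_lit 202))) (XT.nd (nat_lit 78) (nat_lit 228) (nat_lit 0) (XT.lf (nat_lit 0) (nat_lit 4458750622) (nat_lit 152) (nat_lit 11554122873) (nat_lit 228) (nat_lit 1574262059) (nat_lit 24) (nat_lit 5) (nat_lit 26) (nat_lit 5) (nat_lit 27) (nat_lit 4) (nat_lit 287) (nat_lit 232) (nat_lit 201)) (XT.nd (nat_lit 78) (nat_lit 152) (nat_lit 0) (XT.lf (nat_lit 0) (nat_lit 2929497863)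 (nat_lit 228) (nat_lit 3567085371) (nat_lit 76) (nat_lit 11775639416) (nat_lit 23) (nat_lit 5) (nat_lit 26) (nat_lit 5) (nat_lit 24) (nat_lit 5) (nat_lit 288) (nat_lit 232) (nat_lit 200)) (XT.lf (nat_lit 0) (nat_lit 6436340340) (nat_lit 152) (nat_lit 1161766756) (nat_lit 228) (nat_lit 11393928463) (nat_lit 21) (nat_lit 5) (nat_lit 23) (nat_lit 5) (nat_lit 24) (nat_lit 5) (nat_lit 289) (nat_lit 232) (nat_lit 199)))))) (XT.nd (nat_lit 390) (nat_lit 380) (nat_lit 0) (XT.nd (nat_lit 156) (nat_lit 228) (nat_lit 0) (XT.nd (nat_lit 78) (nat_lit 76) (nat_lit 0) (XT.lf (nat_lit 0) (nat_lit 12492355373) (nat_lit 228) (nat_lit 2918959015) (nat_lit 76) (nat_lit 4336859084) (nat_lit 21) (nat_lit 5) (nat_lit 24) (nat_lit 5) (nat_lit 22) (nat_lit 4) (nat_lit 290) (nat_lit 232) (nat_lit 198)) (XT.lf (nat_lit 0) (nat_lit 7191400138) (nat_lit 76) (nat_lit 10437386281) (nat_lit 152) (nat_lit 2913503576) (nat_lit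 20) (nat_lit 5) (nat_lit 21) (nat_lit 5) (nat_lit 22) (nat_lit 4) (nat_lit 291) (nat_lit 232) (nat_lit 197))) (XT.nd (nat_lit 78) (nat_lit 152) (nat_lit 0) (XT.lf (nat_lit 0) (nat_lit 1562575335) (nat_lit 152) (nat_lit 3657663462) (nat_lit 76) (nat_lit 16157024502) (nat_lit 19) (nat_lit 5) (nat_lit 21) (nat_lit 5) (nat_lit 20) (nat_lit 5) (nat_lit 292) (nat_lit 232) (nat_lit 196)) (XT.nd (nat_lit 78) (nat_lit 0) (nat_lit 0) (XT.lf (nat_lit 0) (nat_lit 6190348029) (nat_lit 228) (nat_lit 15767300255) (nat_lit 76) (nat_lit 295911604) (nat_lit 17) (nat_lit 5) (nat_lit 20) (nat_lit 5) (nat_lit 18) (nat_lit 4) (nat_lit 293) (nat_lit 232) (nat_lit 195)) (XT.lf (nat_lit 0) (nat_lit 11064557947) (nat_lit 228) (nat_lit 6138175884) (nat_lit 76) (nat_lit 5970566383) (nat_lit 17) (nat_lit 5) (nat_lit 20) (nat_lit 5) (nat_lit 18) (nat_lit 4) (nat_lit 294) (nat_lit 232) (nat_lit 194))))) (XT.nd (nat_lit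 234) (nat_lit 228) (nat_lit 0) (XT.nd (nat_lit 78) (nat_lit 76) (nat_lit 0) (XT.lf (nat_lit 0) (nat_lit 3928700650) (nat_lit 76) (nat_lit 12219480156) (nat_lit 152) (nat_lit 7991952217) (nat_lit 16) (nat_lit 5) (nat_lit 17) (nat_lit 5) (nat_lit 18) (nat_lit 4) (nat_lit 295) (nat_lit 232) (nat_lit 193)) (XT.nd (nat_lit 78) (nat_lit 76) (nat_lit 0) (XT.lf (nat_lit 0) (nat_lit 14510273980) (nat_lit 76) (nat_lit 6969142981) (nat_lit 152) (nat_lit 3676160439) (nat_lit 16) (nat_lit 5) (nat_lit 17) (nat_lit 5) (nat_lit 18) (nat_lit 4) (nat_lit 296) (nat_lit 232) (nat_lit 192)) (XT.lf (nat_lit 0) (nat_lit 771569473) (nat_lit 152) (nat_lit 721844234) (nat_lit 76) (nat_lit 24730215780) (nat_lit 15) (nat_lit 5) (nat_lit 17) (nat_lit 5) (nat_lit 16) (nat_lit 5) (nat_lit 297) (nat_lit 232) (nat_lit 191)))) (XT.nd (nat_lit 78) (nat_lit 76) (nat_lit 0) (XT.lf (nat_lit 0) (nat_lit 5437852276) (nat_lit 228)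 (nat_lit 17641505070) (nat_lit 76) (nat_lit 4262533244) (nat_lit 13) (nat_lit 5) (nat_lit 16) (nat_lit 5) (nat_lit 14) (nat_lit 4) (nat_lit 298) (nat_lit 232) (nat_lit 190)) (XT.nd (nat_lit 78) (nat_lit 76) (nat_lit 0) (XT.lf (nat_lit 0) (nat_lit 10297701521) (nat_lit 228) (nat_lit 7977994840) (nat_lit 76) (nat_lit 10241621952) (nat_lit 13) (nat_lit 5) (nat_lit 16) (nat_lit 5) (nat_lit 14) (nat_lit 4) (nat_lit 299) (nat_lit 232) (nat_lit 189)) (XT.lf (nat_lit 0) (nat_lit 2109068089) (nat_lit 76) (nat_lit 13252391261) (nat_lit 152) (nat_lit 14391288812) (nat_lit 12) (nat_lit 5) (nat_lit 13) (nat_lit 5) (nat_lit 14) (nat_lit 4) (nat_lit 300) (nat_lit 232) (nat_lit 188))))))))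
noncomputable def xc35 : XT := (XT.nd (nat_lit 1638) (nat_lit 152) (nat_lit 0) (XT.nd (nat_lit 780) (nat_lit 228) (nat_lit 0) (XT.nd (nat_lit 390) (nat_lit 76) (nat_lit 0) (XT.nd (nat_lit 156) (nat_lit 228) (nat_lit 0) (XT.nd (nat_lit 78) (nat_lit 0) (nat_lit 0) (XT.lf (nat_lit 0) (nat_lit 12769311258) (nat_lit 76) (nat_lit 7933748276) (nat_lit 152) (nat_lit 10346205787) (nat_lit 12) (nat_lit 5) (nat_lit 13) (nat_lit 5) (nat_lit 14) (nat_lit 4) (nat_lit 301) (nat_lit 232) (nat_lit 187)) (XT.lf (nat_lit 0) (nat_lit 23869338457) (nat_lit 76) (nat_lit 2387666074) (nat_lit 152) (nat_lit 6155298672) (nat_lit 12) (nat_lit 5) (nat_lit 13) (nat_lit 5) (nat_lit 14) (nat_lit 4) (nat_lit 302) (nat_lit 232) (nat_lit 186))) (XT.nd (nat_lit 78) (nat_lit 76) (nat_lit 0) (XT.lf (nat_lit 0) (nat_lit 1588800557) (nat_lit 152) (nat_lit 30495663835) (nat_lit 152) (nat_lit 1759204355) (nat_lit 10) (nat_lit 4)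 (nat_lit 12) (nat_lit 5) (nat_lit 12) (nat_lit 4) (nat_lit 303) (nat_lit 232) (nat_lit 185)) (XT.nd (nat_lit 78) (nat_lit 0) (nat_lit 0) (XT.lf (nat_lit 0) (nat_lit 2862489543) (nat_lit 228) (nat_lit 23079255747) (nat_lit 76) (nat_lit 9402233797) (nat_lit 9) (nat_lit 5) (nat_lit 12) (nat_lit 5) (nat_lit 10) (nat_lit 4) (nat_lit 304) (nat_lit 232) (nat_lit 184)) (XT.lf (nat_lit 0) (nat_lit 7630296616) (nat_lit 228) (nat_lit 13546940762) (nat_lit 76) (nat_lit 15743046974) (nat_lit 9) (nat_lit 5) (nat_lit 12) (nat_lit 5) (nat_lit 10) (nat_lit 4) (nat_lit 305) (nat_lit 232) (nat_lit 183))))) (XT.nd (nat_lit 156) (nat_lit 0) (nat_lit 0) (XT.nd (nat_lit 78) (nat_lit 76) (nat_lit 0) (XT.lf (nat_lit 0) (nat_lit 12589897197) (nat_lit 228) (nat_lit 3618316700) (nat_lit 76) (nat_lit 22368631071) (nat_lit 9) (nat_lit 5) (nat_lit 12) (nat_lit 5) (nat_lit 10) (nat_lit 4) (nat_lit 306) (nat_lit 232) (nat_lit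 182)) (XT.lf (nat_lit 0) (nat_lit 6864201311) (nat_lit 76) (nat_lit 10954881450) (nat_lit 152) (nat_lit 22496542880) (nat_lit 8) (nat_lit 5) (nat_lit 9) (nat_lit 5) (nat_lit 10) (nat_lit 4) (nat_lit 307) (nat_lit 232) (nat_lit 181))) (XT.nd (nat_lit 78) (nat_lit 0) (nat_lit 0) (XT.lf (nat_lit 0) (nat_lit 17872167213) (nat_lit 76) (nat_lit 5431828933) (nat_lit 152) (nat_lit 18837559404) (nat_lit 8) (nat_lit 5) (nat_lit 9) (nat_lit 5) (nat_lit 10) (nat_lit 4) (nat_lit 308) (nat_lit 232) (nat_lit 180)) (XT.nd (nat_lit 78) (nat_lit 0) (nat_lit 0) (XT.lf (nat_lit 0) (nat_lit 29025467770) (nat_lit 152) (nat_lit 14703512303) (nat_lit 0) (nat_lit 330968942) (nat_lit 8) (nat_lit 5) (nat_lit 10) (nat_lit 4) (nat_lit 8) (nat_lit 4) (nat_lit 309) (nat_lit 232) (nat_lit 179)) (XT.lf (nat_lit 0) (nat_lit 35048581670) (nat_lit 152) (nat_lit 4782481817) (nat_lit 0) (nat_lit 6242766310) (nat_lit 8) (nat_lit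 5) (nat_lit 10) (nat_lit 4) (nat_lit 8) (nat_lit 4) (nat_lit 310) (nat_lit 232) (nat_lit 178)))))) (XT.nd (nat_lit 390) (nat_lit 76) (nat_lit 0) (XT.nd (nat_lit 156) (nat_lit 76) (nat_lit 0) (XT.nd (nat_lit 78) (nat_lit 0) (nat_lit 0) (XT.lf (nat_lit 0) (nat_lit 5680383425) (nat_lit 76) (nat_lit 35709684424) (nat_lit 76) (nat_lit 6797853321) (nat_lit 7) (nat_lit 4) (nat_lit 8) (nat_lit 5) (nat_lit 8) (nat_lit 4) (nat_lit 311) (nat_lit 232) (nat_lit 177)) (XT.lf (nat_lit 0) (nat_lit 16703135200) (nat_lit 76) (nat_lit 31358510671) (nat_lit 76) (nat_lit 2345712192) (nat_lit 7) (nat_lit 4) (nat_lit 8) (nat_lit 5) (nat_lit 8) (nat_lit 4) (nat_lit 312) (nat_lit 232) (nat_lit 176))) (XT.nd (nat_lit 78) (nat_lit 0) (nat_lit 0) (XT.lf (nat_lit 0) (nat_lit 2248727812) (nat_lit 152) (nat_lit 24544040423) (nat_lit 76) (nat_lit 25945401834) (nat_lit 6) (nat_lit 5) (nat_lit 8) (nat_lit 5) (nat_lit 7)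 (nat_lit 4) (nat_lit 313) (nat_lit 232) (nat_lit 175)) (XT.nd (nat_lit 78) (nat_lit 0) (nat_lit 0) (XT.lf (nat_lit 0) (nat_lit 6991627575) (nat_lit 152) (nat_lit 15007534291) (nat_lit 76) (nat_lit 33186674263) (nat_lit 6) (nat_lit 5) (nat_lit 8) (nat_lit 5) (nat_lit 7) (nat_lit 4) (nat_lit 314) (nat_lit 232) (nat_lit 174)) (XT.lf (nat_lit 0) (nat_lit 11940053006) (nat_lit 152) (nat_lit 5049450080) (nat_lit 76) (nat_lit 40767357383) (nat_lit 6) (nat_lit 5) (nat_lit 8) (nat_lit 5) (nat_lit 7) (nat_lit 4) (nat_lit 315) (nat_lit 232) (nat_lit 173))))) (XT.nd (nat_lit 234) (nat_lit 0) (nat_lit 0) (XT.nd (nat_lit 78) (nat_lit 0) (nat_lit 0) (XT.lf (nat_lit 0) (nat_lit 5460475478) (nat_lit 76) (nat_lit 11697800024) (nat_lit 152) (nat_lit 43297514393) (nat_lit 5) (nat_lit 5) (nat_lit 6) (nat_lit 5) (nat_lit 7) (nat_lit 4) (nat_lit 316) (nat_lit 232) (nat_lit 172)) (XT.nd (nat_lit 78) (nat_lit 0)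 (nat_lit 0) (XT.lf (nat_lit 0) (nat_lit 16550307803) (nat_lit 76) (nat_lit 6109910017) (nat_lit 152) (nat_lit 40628787656) (nat_lit 5) (nat_lit 5) (nat_lit 6) (nat_lit 5) (nat_lit 7) (nat_lit 4) (nat_lit 317) (nat_lit 232) (nat_lit 171)) (XT.lf (nat_lit 0) (nat_lit 28145957299) (nat_lit 76) (nat_lit 263518111) (nat_lit 152) (nat_lit 37855262686) (nat_lit 5) (nat_lit 5) (nat_lit 6) (nat_lit 5) (nat_lit 7) (nat_lit 4) (nat_lit 318) (nat_lit 232) (nat_lit 170)))) (XT.nd (nat_lit 78) (nat_lit 0) (nat_lit 0) (XT.lf (nat_lit 0) (nat_lit 34476021662) (nat_lit 152) (nat_lit 29171324862) (nat_lit 0) (nat_lit 5741037767) (nat_lit 5) (nat_lit 5) (nat_lit 7) (nat_lit 4) (nat_lit 5) (nat_lit 4) (nat_lit 319) (nat_lit 232) (nat_lit 169)) (XT.nd (nat_lit 78) (nat_lit 0) (nat_lit 0) (XT.lf (nat_lit 0) (nat_lit 40823173866) (nat_lit 152) (nat_lit 19823899531) (nat_lit 0) (nat_lit 12021841724) (nat_lit 5)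 (nat_lit 5) (nat_lit 7) (nat_lit 4) (nat_lit 5) (nat_lit 4) (nat_lit 320) (nat_lit 232) (nat_lit 168)) (XT.lf (nat_lit 0) (nat_lit 47463511191) (nat_lit 152) (nat_lit 10051715932) (nat_lit 0) (nat_lit 18598990243) (nat_lit 5) (nat_lit 5) (nat_lit 7) (nat_lit 4) (nat_lit 5) (nat_lit 4) (nat_lit 321) (nat_lit 232) (nat_lit 167))))))) (XT.nd (nat_lit 32292) (nat_lit 0) (nat_lit 6460) (XT.nd (nat_lit 390) (nat_lit 76) (nat_lit 0) (XT.nd (nat_lit 156) (nat_lit 0) (nat_lit 0) (XT.nd (nat_lit 78) (nat_lit 0) (nat_lit 0) (XT.lf (nat_lit 0) (nat_lit 171846379) (nat_lit 76) (nat_lit 54242649477) (nat_lit 76) (nat_lit 25317948714) (nat_lit 4) (nat_lit 4) (nat_lit 5) (nat_lit 5) (nat_lit 5) (nat_lit 4) (nat_lit 322) (nat_lit 232) (nat_lit 166)) (XT.lf (nat_lit 0) (nat_lit 11077217625) (nat_lit 76) (nat_lit 50716981584) (nat_lit 76) (nat_lit 21734966711) (nat_lit 4) (nat_lit 4) (nat_lit 5) (nat_lit 5)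 (nat_lit 5) (nat_lit 4) (nat_lit 323) (nat_lit 232) (nat_lit 165))) (XT.nd (nat_lit 78) (nat_lit 0) (nat_lit 0) (XT.lf (nat_lit 0) (nat_lit 22490314116) (nat_lit 76) (nat_lit 47031331618) (nat_lit 76) (nat_lit 17994731878) (nat_lit 4) (nat_lit 4) (nat_lit 5) (nat_lit 5) (nat_lit 5) (nat_lit 4) (nat_lit 324) (nat_lit 232) (nat_lit 164)) (XT.nd (nat_lit 78) (nat_lit 0) (nat_lit 0) (XT.lf (nat_lit 0) (nat_lit 34438309893) (nat_lit 76) (nat_lit 43176924222) (nat_lit 76) (nat_lit 14088338895) (nat_lit 4) (nat_lit 4) (nat_lit 5) (nat_lit 5) (nat_lit 5) (nat_lit 4) (nat_lit 325) (nat_lit 232) (nat_lit 163)) (XT.lf (nat_lit 0) (nat_lit 46949652565) (nat_lit 76) (nat_lit 39144582236) (nat_lit 76) (nat_lit 10006486826) (nat_lit 4) (nat_lit 4) (nat_lit 5) (nat_lit 5) (nat_lit 5) (nat_lit 4) (nat_lit 326) (nat_lit 232) (nat_lit 162))))) (XT.nd (nat_lit 156) (nat_lit 76) (nat_lit 0) (XT.nd (nat_lit 78)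 (nat_lit 0) (nat_lit 0) (XT.lf (nat_lit 0) (nat_lit 60054131042) (nat_lit 76) (nat_lit 34924704845) (nat_lit 76) (nat_lit 5739456976) (nat_lit 4) (nat_lit 4) (nat_lit 5) (nat_lit 5) (nat_lit 5) (nat_lit 4) (nat_lit 327) (nat_lit 232) (nat_lit 161)) (XT.lf (nat_lit 0) (nat_lit 73782946465) (nat_lit 76) (nat_lit 30507244723) (nat_lit 76) (nat_lit 1277089749) (nat_lit 4) (nat_lit 4) (nat_lit 5) (nat_lit 5) (nat_lit 5) (nat_lit 4) (nat_lit 328) (nat_lit 232) (nat_lit 160))) (XT.nd (nat_lit 78) (nat_lit 0) (nat_lit 0) (XT.lf (nat_lit 0) (nat_lit 3325064239) (nat_lit 152) (nat_lit 22523043238) (nat_lit 76) (nat_lit 84810145619) (nat_lit 3) (nat_lit 5) (nat_lit 5) (nat_lit 5) (nat_lit 4) (nat_lit 4) (nat_lit 329) (nat_lit 232) (nat_lit 159)) (XT.nd (nat_lit 31590) (nat_lit 0) (nat_lit 13300) (XT.lf (nat_lit 0) (nat_lit 8115138781) (nat_lit 152) (nat_lit 12839923986) (nat_lit 76) (nat_lit 95048817340)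 (nat_lit 3) (nat_lit 5) (nat_lit 5) (nat_lit 5) (nat_lit 4) (nat_lit 4) (nat_lit 330) (nat_lit 232) (nat_lit 158)) (XT.lf (nat_lit 0) (nat_lit 379651018) (nat_lit 988) (nat_lit 2783246191) (nat_lit 0) (nat_lit 379651018) (nat_lit 178) (nat_lit 5) (nat_lit 191) (nat_lit 4) (nat_lit 178) (nat_lit 4) (nat_lit 254) (nat_lit 233) (nat_lit 233)))))) (XT.nd (nat_lit 390) (nat_lit 2812) (nat_lit 0) (XT.nd (nat_lit 156) (nat_lit 1900) (nat_lit 0) (XT.nd (nat_lit 78) (nat_lit 1140) (nat_lit 0) (XT.lf (nat_lit 0) (nat_lit 1529802554) (nat_lit 988) (nat_lit 4148259653) (nat_lit 988) (nat_lit 1506752089) (nat_lit 165) (nat_lit 4) (nat_lit 178) (nat_lit 5) (nat_lit 178) (nat_lit 4) (nat_lit 255) (nat_lit 233) (nat_lit 232)) (XT.lf (nat_lit 0) (nat_lit 1563678800) (nat_lit 1064) (nat_lit 1747113245) (nat_lit 1140) (nat_lit 3983656153) (nat_lit 150) (nat_lit 5) (nat_lit 164) (nat_lit 5) (nat_lit 165) (nat_lit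 4) (nat_lit 256) (nat_lit 233) (nat_lit 231))) (XT.nd (nat_lit 78) (nat_lit 1140) (nat_lit 0) (XT.lf (nat_lit 0) (nat_lit 754120802) (nat_lit 760) (nat_lit 5802294266) (nat_lit 76) (nat_lit 857837973) (nat_lit 140) (nat_lit 5) (nat_lit 150) (nat_lit 5) (nat_lit 141) (nat_lit 4) (nat_lit 257) (nat_lit 233) (nat_lit 230)) (XT.nd (nat_lit 78) (nat_lit 608) (nat_lit 0) (XT.lf (nat_lit 0) (nat_lit 1636028876) (nat_lit 532) (nat_lit 3873606961) (nat_lit 608) (nat_lit 2034002434) (nat_lit 133) (nat_lit 5) (nat_lit 140) (nat_lit 5) (nat_lit 141) (nat_lit 4) (nat_lit 258) (nat_lit 233) (nat_lit 229)) (XT.lf (nat_lit 0) (nat_lit 1655431034) (nat_lit 532) (nat_lit 964579903) (nat_lit 608) (nat_lit 5063737435) (nat_lit 125) (nat_lit 5) (nat_lit 132) (nat_lit 5) (nat_lit 133) (nat_lit 5) (nat_lit 259) (nat_lit 233) (nat_lit 228))))) (XT.nd (nat_lit 234) (nat_lit 1292) (nat_lit 0) (XT.nd (nat_lit 78)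 (nat_lit 1064) (nat_lit 0) (XT.lf (nat_lit 0) (nat_lit 1642843726) (nat_lit 456) (nat_lit 5703250024) (nat_lit 532) (nat_lit 488313491) (nat_lit 119) (nat_lit 5) (nat_lit 125) (nat_lit 5) (nat_lit 126) (nat_lit 4) (nat_lit 260) (nat_lit 233) (nat_lit 227)) (XT.nd (nat_lit 78) (nat_lit 532) (nat_lit 0) (XT.lf (nat_lit 0) (nat_lit 1574773962) (nat_lit 456) (nat_lit 2533633523) (nat_lit 532) (nat_lit 3887190613) (nat_lit 112) (nat_lit 5) (nat_lit 118) (nat_lit 5) (nat_lit 119) (nat_lit 5) (nat_lit 261) (nat_lit 233) (nat_lit 226)) (XT.lf (nat_lit 0) (nat_lit 626702766) (nat_lit 532) (nat_lit 6699888250) (nat_lit 76) (nat_lit 841956830) (nat_lit 105) (nat_lit 5) (nat_lit 112) (nat_lit 5) (nat_lit 106) (nat_lit 5) (nat_lit 262) (nat_lit 233) (nat_lit 225)))) (XT.nd (nat_lit 78) (nat_lit 836) (nat_lit 0) (XT.lf (nat_lit 0) (nat_lit 1263708136) (nat_lit 456) (nat_lit 3929219369) (nat_lit 532) (nat_lit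 3159332868) (nat_lit 99) (nat_lit 5) (nat_lit 105) (nat_lit 5) (nat_lit 106) (nat_lit 5) (nat_lit 263) (nat_lit 233) (nat_lit 224)) (XT.nd (nat_lit 78) (nat_lit 380) (nat_lit 0) (XT.lf (nat_lit 0) (nat_lit 995581272) (nat_lit 380) (nat_lit 304524856) (nat_lit 456) (nat_lit 7248502659) (nat_lit 93) (nat_lit 5) (nat_lit 98) (nat_lit 5) (nat_lit 99) (nat_lit 5) (nat_lit 264) (nat_lit 233) (nat_lit 223)) (XT.lf (nat_lit 0) (nat_lit 594093326) (nat_lit 380) (nat_lit 5250142926) (nat_lit 456) (nat_lit 2912211575) (nat_lit 88) (nat_lit 5) (nat_lit 93) (nat_lit 5) (nat_lit 94) (nat_lit 5) (nat_lit 265) (nat_lit 233) (nat_lit 222))))))))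
noncomputable def xc36 : XT := (XT.nd (nat_lit 1638) (nat_lit 1292) (nat_lit 0) (XT.nd (nat_lit 780) (nat_lit 1824) (nat_lit 0) (XT.nd (nat_lit 390) (nat_lit 1292) (nat_lit 0) (XT.nd (nat_lit 156) (nat_lit 1140) (nat_lit 0) (XT.nd (nat_lit 78) (nat_lit 0) (nat_lit 0) (XT.lf (nat_lit 0) (nat_lit 88062473) (nat_lit 380) (nat_lit 1421199711) (nat_lit 456) (nat_lit 7468323287) (nat_lit 82) (nat_lit 5) (nat_lit 87) (nat_lit 5) (nat_lit 88) (nat_lit 5) (nat_lit 266) (nat_lit 233) (nat_lit 221)) (XT.lf (nat_lit 0) (nat_lit 6026024655) (nat_lit 456) (nat_lit 567656801) (nat_lit 76) (nat_lit 2617573053) (nat_lit 82) (nat_lit 5) (nat_lit 88) (nat_lit 5) (nat_lit 83) (nat_lit 5) (nat_lit 267) (nat_lit 233) (nat_lit 220))) (XT.nd (nat_lit 78) (nat_lit 684) (nat_lit 0) (XT.lf (nat_lit 0) (nat_lit 1209930976) (nat_lit 456) (nat_lit 1373064626) (nat_lit 76) (nat_lit 6875872337) (nat_lit 76) (nat_lit 5)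 (nat_lit 82) (nat_lit 5) (nat_lit 77) (nat_lit 5) (nat_lit 268) (nat_lit 233) (nat_lit 219)) (XT.nd (nat_lit 78) (nat_lit 380) (nat_lit 0) (XT.lf (nat_lit 0) (nat_lit 5688972007) (nat_lit 380) (nat_lit 2373845267) (nat_lit 76) (nat_lit 1657527063) (nat_lit 72) (nat_lit 5) (nat_lit 77) (nat_lit 5) (nat_lit 73) (nat_lit 5) (nat_lit 269) (nat_lit 233) (nat_lit 218)) (XT.lf (nat_lit 0) (nat_lit 332326455) (nat_lit 380) (nat_lit 3576554370) (nat_lit 76) (nat_lit 6087912686) (nat_lit 67) (nat_lit 5) (nat_lit 72) (nat_lit 5) (nat_lit 68) (nat_lit 5) (nat_lit 270) (nat_lit 233) (nat_lit 217))))) (XT.nd (nat_lit 156) (nat_lit 684) (nat_lit 0) (XT.nd (nat_lit 78) (nat_lit 304) (nat_lit 0) (XT.lf (nat_lit 0) (nat_lit 4757451407) (nat_lit 380) (nat_lit 5023371328) (nat_lit 76) (nat_lit 507535617) (nat_lit 63) (nat_lit 5) (nat_lit 68) (nat_lit 5) (nat_lit 64) (nat_lit 5) (nat_lit 271) (nat_lit 233) (nat_lit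 216)) (XT.lf (nat_lit 0) (nat_lit 3858083764) (nat_lit 304) (nat_lit 5509881648) (nat_lit 380) (nat_lit 1227887403) (nat_lit 59) (nat_lit 5) (nat_lit 63) (nat_lit 5) (nat_lit 64) (nat_lit 5) (nat_lit 272) (nat_lit 233) (nat_lit 215))) (XT.nd (nat_lit 78) (nat_lit 380) (nat_lit 0) (XT.lf (nat_lit 0) (nat_lit 2177209101) (nat_lit 228) (nat_lit 975932390) (nat_lit 304) (nat_lit 7767074367) (nat_lit 55) (nat_lit 5) (nat_lit 58) (nat_lit 5) (nat_lit 59) (nat_lit 5) (nat_lit 273) (nat_lit 233) (nat_lit 214)) (XT.nd (nat_lit 78) (nat_lit 76) (nat_lit 0) (XT.lf (nat_lit 0) (nat_lit 171294208) (nat_lit 304) (nat_lit 7523247151) (nat_lit 380) (nat_lit 3567132041) (nat_lit 51) (nat_lit 5) (nat_lit 55) (nat_lit 5) (nat_lit 56) (nat_lit 5) (nat_lit 274) (nat_lit 233) (nat_lit 213)) (XT.lf (nat_lit 0) (nat_lit 788779082) (nat_lit 380) (nat_lit 2122109628) (nat_lit 76) (nat_lit 8710423738) (nat_lit 50)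 (nat_lit 5) (nat_lit 55) (nat_lit 5) (nat_lit 51) (nat_lit 5) (nat_lit 275) (nat_lit 233) (nat_lit 212)))))) (XT.nd (nat_lit 390) (nat_lit 836) (nat_lit 0) (XT.nd (nat_lit 156) (nat_lit 532) (nat_lit 0) (XT.nd (nat_lit 78) (nat_lit 228) (nat_lit 0) (XT.lf (nat_lit 0) (nat_lit 5246009159) (nat_lit 304) (nat_lit 4810012920) (nat_lit 76) (nat_lit 1943346449) (nat_lit 47) (nat_lit 5) (nat_lit 51) (nat_lit 5) (nat_lit 48) (nat_lit 5) (nat_lit 276) (nat_lit 233) (nat_lit 211)) (XT.lf (nat_lit 0) (nat_lit 4484707676) (nat_lit 228) (nat_lit 5408149859) (nat_lit 304) (nat_lit 2504670543) (nat_lit 44) (nat_lit 5) (nat_lit 47) (nat_lit 5) (nat_lit 48) (nat_lit 5) (nat_lit 277) (nat_lit 233) (nat_lit 210))) (XT.nd (nat_lit 78) (nat_lit 228) (nat_lit 0) (XT.lf (nat_lit 0) (nat_lit 1352103899) (nat_lit 228) (nat_lit 504294084) (nat_lit 304) (nat_lit 10960677787) (nat_lit 40) (nat_lit 5) (nat_lit 43) (nat_lit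 5) (nat_lit 44) (nat_lit 5) (nat_lit 278) (nat_lit 233) (nat_lit 209)) (XT.nd (nat_lit 78) (nat_lit 228) (nat_lit 0) (XT.lf (nat_lit 0) (nat_lit 6389873137) (nat_lit 304) (nat_lit 2263723575) (nat_lit 76) (nat_lit 4603254653) (nat_lit 40) (nat_lit 5) (nat_lit 44) (nat_lit 5) (nat_lit 41) (nat_lit 5) (nat_lit 279) (nat_lit 233) (nat_lit 208)) (XT.lf (nat_lit 0) (nat_lit 7361420696) (nat_lit 228) (nat_lit 3748988922) (nat_lit 304) (nat_lit 2609565058) (nat_lit 37) (nat_lit 5) (nat_lit 40) (nat_lit 5) (nat_lit 41) (nat_lit 5) (nat_lit 280) (nat_lit 233) (nat_lit 207))))) (XT.nd (nat_lit 234) (nat_lit 380) (nat_lit 0) (XT.nd (nat_lit 78) (nat_lit 228) (nat_lit 0) (XT.lf (nat_lit 0) (nat_lit 1779271857) (nat_lit 228) (nat_lit 11039830429) (nat_lit 76) (nat_lit 1388127109) (nat_lit 34) (nat_lit 5) (nat_lit 37) (nat_lit 5) (nat_lit 35) (nat_lit 5) (nat_lit 281) (nat_lit 233) (nat_lit 206)) (XT.nd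 (nat_lit 78) (nat_lit 228) (nat_lit 0) (XT.lf (nat_lit 0) (nat_lit 6328372467) (nat_lit 228) (nat_lit 1649235663) (nat_lit 76) (nat_lit 6740770052) (nat_lit 34) (nat_lit 5) (nat_lit 37) (nat_lit 5) (nat_lit 35) (nat_lit 5) (nat_lit 282) (nat_lit 233) (nat_lit 205)) (XT.lf (nat_lit 0) (nat_lit 8209125479) (nat_lit 228) (nat_lit 2870282077) (nat_lit 304) (nat_lit 4176585513) (nat_lit 31) (nat_lit 5) (nat_lit 34) (nat_lit 5) (nat_lit 35) (nat_lit 5) (nat_lit 283) (nat_lit 233) (nat_lit 204)))) (XT.nd (nat_lit 78) (nat_lit 152) (nat_lit 0) (XT.lf (nat_lit 0) (nat_lit 207187664) (nat_lit 228) (nat_lit 13181315467) (nat_lit 76) (nat_lit 2433111110) (nat_lit 28) (nat_lit 5) (nat_lit 31) (nat_lit 5) (nat_lit 29) (nat_lit 5) (nat_lit 284) (nat_lit 233) (nat_lit 203)) (XT.nd (nat_lit 78) (nat_lit 152) (nat_lit 0) (XT.lf (nat_lit 0) (nat_lit 4727533139) (nat_lit 228) (nat_lit 3683553520) (nat_lit 76)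 (nat_lit 8003202357) (nat_lit 28) (nat_lit 5) (nat_lit 31) (nat_lit 5) (nat_lit 29) (nat_lit 5) (nat_lit 285) (nat_lit 233) (nat_lit 202)) (XT.lf (nat_lit 0) (nat_lit 6261323615) (nat_lit 152) (nat_lit 3178216049) (nat_lit 228) (nat_lit 7598208521) (nat_lit 26) (nat_lit 5) (nat_lit 28) (nat_lit 5) (nat_lit 29) (nat_lit 5) (nat_lit 286) (nat_lit 233) (nat_lit 201))))))) (XT.nd (nat_lit 780) (nat_lit 532) (nat_lit 0) (XT.nd (nat_lit 390) (nat_lit 304) (nat_lit 0) (XT.nd (nat_lit 156) (nat_lit 228) (nat_lit 0) (XT.nd (nat_lit 78) (nat_lit 228) (nat_lit 0) (XT.lf (nat_lit 0) (nat_lit 14355743489) (nat_lit 228) (nat_lit 1081455679) (nat_lit 76) (nat_lit 2256237491) (nat_lit 26) (nat_lit 5) (nat_lit 29) (nat_lit 5) (nat_lit 27) (nat_lit 4) (nat_lit 287) (nat_lit 233) (nat_lit 200)) (XT.lf (nat_lit 0) (nat_lit 1145890539) (nat_lit 228) (nat_lit 9289424422) (nat_lit 76) (nat_lit 7945406476) (nat_lit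 23) (nat_lit 5) (nat_lit 26) (nat_lit 5) (nat_lit 24) (nat_lit 5) (nat_lit 288) (nat_lit 233) (nat_lit 199))) (XT.nd (nat_lit 78) (nat_lit 76) (nat_lit 0) (XT.lf (nat_lit 0) (nat_lit 531105424) (nat_lit 152) (nat_lit 5184839502) (nat_lit 228) (nat_lit 13387595147) (nat_lit 21) (nat_lit 5) (nat_lit 23) (nat_lit 5) (nat_lit 24) (nat_lit 5) (nat_lit 289) (nat_lit 233) (nat_lit 198)) (XT.nd (nat_lit 78) (nat_lit 76) (nat_lit 0) (XT.lf (nat_lit 0) (nat_lit 10530845954) (nat_lit 228) (nat_lit 8963766690) (nat_lit 76) (nat_lit 367492503) (nat_lit 21) (nat_lit 5) (nat_lit 24) (nat_lit 5) (nat_lit 22) (nat_lit 4) (nat_lit 290) (nat_lit 233) (nat_lit 197)) (XT.lf (nat_lit 0) (nat_lit 961461560) (nat_lit 76) (nat_lit 14607191353) (nat_lit 152) (nat_lit 5090571997) (nat_lit 20) (nat_lit 5) (nat_lit 21) (nat_lit 5) (nat_lit 22) (nat_lit 4) (nat_lit 291) (nat_lit 233) (nat_lit 196))))) (XT.nd (nat_lit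 156) (nat_lit 228) (nat_lit 0) (XT.nd (nat_lit 78) (nat_lit 76) (nat_lit 0) (XT.lf (nat_lit 0) (nat_lit 11443699846) (nat_lit 76) (nat_lit 9430076256) (nat_lit 152) (nat_lit 622048699) (nat_lit 20) (nat_lit 5) (nat_lit 21) (nat_lit 5) (nat_lit 22) (nat_lit 4) (nat_lit 292) (nat_lit 233) (nat_lit 195)) (XT.lf (nat_lit 0) (nat_lit 3916487787) (nat_lit 152) (nat_lit 85420722) (nat_lit 76) (nat_lit 18373472708) (nat_lit 19) (nat_lit 5) (nat_lit 21) (nat_lit 5) (nat_lit 20) (nat_lit 5) (nat_lit 293) (nat_lit 233) (nat_lit 194))) (XT.nd (nat_lit 78) (nat_lit 76) (nat_lit 0) (XT.lf (nat_lit 0) (nat_lit 8716230661) (nat_lit 228) (nat_lit 12853641333) (nat_lit 76) (nat_lit 1727520896) (nat_lit 17) (nat_lit 5) (nat_lit 20) (nat_lit 5) (nat_lit 18) (nat_lit 4) (nat_lit 294) (nat_lit 233) (nat_lit 193)) (XT.nd (nat_lit 78) (nat_lit 76) (nat_lit 0) (XT.lf (nat_lit 0) (nat_lit 13728609873) (nat_lit 228)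 (nat_lit 2919347598) (nat_lit 76) (nat_lit 7618441094) (nat_lit 17) (nat_lit 5) (nat_lit 20) (nat_lit 5) (nat_lit 18) (nat_lit 4) (nat_lit 295) (nat_lit 233) (nat_lit 192)) (XT.lf (nat_lit 0) (nat_lit 7549808217) (nat_lit 76) (nat_lit 11449010276) (nat_lit 152) (nat_lit 6284889142) (nat_lit 16) (nat_lit 5) (nat_lit 17) (nat_lit 5) (nat_lit 18) (nat_lit 4) (nat_lit 296) (nat_lit 233) (nat_lit 191)))))) (XT.nd (nat_lit 390) (nat_lit 228) (nat_lit 0) (XT.nd (nat_lit 156) (nat_lit 76) (nat_lit 0) (XT.nd (nat_lit 78) (nat_lit 228) (nat_lit 0) (XT.lf (nat_lit 0) (nat_lit 18497380570) (nat_lit 76) (nat_lit 6001939285) (nat_lit 152) (nat_lit 1853624951) (nat_lit 16) (nat_lit 5) (nat_lit 17) (nat_lit 5) (nat_lit 18) (nat_lit 4) (nat_lit 297) (nat_lit 233) (nat_lit 190)) (XT.lf (nat_lit 0) (nat_lit 2435025534) (nat_lit 152) (nat_lit 272046055) (nat_lit 228) (nat_lit 24768951401) (nat_lit 13) (nat_lit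 5) (nat_lit 15) (nat_lit 5) (nat_lit 16) (nat_lit 5) (nat_lit 298) (nat_lit 233) (nat_lit 189))) (XT.nd (nat_lit 78) (nat_lit 76) (nat_lit 0) (XT.lf (nat_lit 0) (nat_lit 7535350868) (nat_lit 228) (nat_lit 15424032313) (nat_lit 76) (nat_lit 5693043033) (nat_lit 13) (nat_lit 5) (nat_lit 16) (nat_lit 5) (nat_lit 14) (nat_lit 4) (nat_lit 299) (nat_lit 233) (nat_lit 188)) (XT.nd (nat_lit 78) (nat_lit 76) (nat_lit 0) (XT.lf (nat_lit 0) (nat_lit 12551258957) (nat_lit 228) (nat_lit 5424944097) (nat_lit 76) (nat_lit 11913115551) (nat_lit 13) (nat_lit 5) (nat_lit 16) (nat_lit 5) (nat_lit 14) (nat_lit 4) (nat_lit 300) (nat_lit 233) (nat_lit 187)) (XT.lf (nat_lit 0) (nat_lit 5081854911) (nat_lit 76) (nat_lit 12731118407) (nat_lit 152) (nat_lit 13375284780) (nat_lit 12) (nat_lit 5) (nat_lit 13) (nat_lit 5) (nat_lit 14) (nat_lit 4) (nat_lit 301) (nat_lit 233) (nat_lit 186))))) (XT.nd (nat_lit 234) (nat_lit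 76) (nat_lit 0) (XT.nd (nat_lit 78) (nat_lit 152) (nat_lit 0) (XT.lf (nat_lit 0) (nat_lit 16138570552) (nat_lit 76) (nat_lit 7202919102) (nat_lit 152) (nat_lit 9210593722) (nat_lit 12) (nat_lit 5) (nat_lit 13) (nat_lit 5) (nat_lit 14) (nat_lit 4) (nat_lit 302) (nat_lit 233) (nat_lit 185)) (XT.nd (nat_lit 78) (nat_lit 152) (nat_lit 0) (XT.lf (nat_lit 0) (nat_lit 27663561314) (nat_lit 76) (nat_lit 1433224057) (nat_lit 152) (nat_lit 4888851839) (nat_lit 12) (nat_lit 5) (nat_lit 13) (nat_lit 5) (nat_lit 14) (nat_lit 4) (nat_lit 303) (nat_lit 233) (nat_lit 184)) (XT.lf (nat_lit 0) (nat_lit 4230345841) (nat_lit 152) (nat_lit 30947020654) (nat_lit 152) (nat_lit 312422242) (nat_lit 10) (nat_lit 4) (nat_lit 12) (nat_lit 5) (nat_lit 12) (nat_lit 4) (nat_lit 304) (nat_lit 233) (nat_lit 183)))) (XT.nd (nat_lit 78) (nat_lit 0) (nat_lit 0) (XT.lf (nat_lit 0) (nat_lit 4438751145) (nat_lit 228) (nat_lit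 21763298705) (nat_lit 76) (nat_lit 10864836731) (nat_lit 9) (nat_lit 5) (nat_lit 12) (nat_lit 5) (nat_lit 10) (nat_lit 4) (nat_lit 305) (nat_lit 233) (nat_lit 182)) (XT.nd (nat_lit 78) (nat_lit 0) (nat_lit 0) (XT.lf (nat_lit 0) (nat_lit 9376703946) (nat_lit 228) (nat_lit 11871983201) (nat_lit 76) (nat_lit 17475429080) (nat_lit 9) (nat_lit 5) (nat_lit 12) (nat_lit 5) (nat_lit 10) (nat_lit 4) (nat_lit 306) (nat_lit 233) (nat_lit 181)) (XT.lf (nat_lit 0) (nat_lit 14519289675) (nat_lit 228) (nat_lit 1558942440) (nat_lit 76) (nat_lit 24387281441) (nat_lit 9) (nat_lit 5) (nat_lit 12) (nat_lit 5) (nat_lit 10) (nat_lit 4) (nat_lit 307) (nat_lit 233) (nat_lit 180))))))))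
noncomputable def xc37 : XT := (XT.nd (nat_lit 1638) (nat_lit 76) (nat_lit 0) (XT.nd (nat_lit 780) (nat_lit 76) (nat_lit 0) (XT.nd (nat_lit 390) (nat_lit 152) (nat_lit 0) (XT.nd (nat_lit 156) (nat_lit 76) (nat_lit 0) (XT.nd (nat_lit 78) (nat_lit 0) (nat_lit 0) (XT.lf (nat_lit 0) (nat_lit 9383484005) (nat_lit 76) (nat_lit 10585468367) (nat_lit 152) (nat_lit 22323566389) (nat_lit 8) (nat_lit 5) (nat_lit 9) (nat_lit 5) (nat_lit 10) (nat_lit 4) (nat_lit 308) (nat_lit 233) (nat_lit 179)) (XT.lf (nat_lit 0) (nat_lit 20838225696) (nat_lit 76) (nat_lit 4829937374) (nat_lit 152) (nat_lit 18543433912) (nat_lit 8) (nat_lit 5) (nat_lit 9) (nat_lit 5) (nat_lit 10) (nat_lit 4) (nat_lit 309) (nat_lit 233) (nat_lit 178))) (XT.nd (nat_lit 78) (nat_lit 76) (nat_lit 0) (XT.lf (nat_lit 0) (nat_lit 31626611226) (nat_lit 152) (nat_lit 13437649809) (nat_lit 0) (nat_lit 1163172823) (nat_lit 8) (nat_lit 5) (nat_lit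 10) (nat_lit 4) (nat_lit 8) (nat_lit 4) (nat_lit 310) (nat_lit 233) (nat_lit 177)) (XT.nd (nat_lit 78) (nat_lit 76) (nat_lit 0) (XT.lf (nat_lit 0) (nat_lit 37896125103) (nat_lit 152) (nat_lit 3115855328) (nat_lit 0) (nat_lit 7331719325) (nat_lit 8) (nat_lit 5) (nat_lit 10) (nat_lit 4) (nat_lit 8) (nat_lit 4) (nat_lit 311) (nat_lit 233) (nat_lit 176)) (XT.lf (nat_lit 0) (nat_lit 7815525218) (nat_lit 76) (nat_lit 36704806194) (nat_lit 76) (nat_lit 6044241011) (nat_lit 7) (nat_lit 4) (nat_lit 8) (nat_lit 5) (nat_lit 8) (nat_lit 4) (nat_lit 312) (nat_lit 233) (nat_lit 175))))) (XT.nd (nat_lit 156) (nat_lit 76) (nat_lit 0) (XT.nd (nat_lit 78) (nat_lit 76) (nat_lit 0) (XT.lf (nat_lit 0) (nat_lit 19301265885) (nat_lit 76) (nat_lit 32173710060) (nat_lit 76) (nat_lit 1421564491) (nat_lit 7) (nat_lit 4) (nat_lit 8) (nat_lit 5) (nat_lit 8) (nat_lit 4) (nat_lit 313) (nat_lit 233) (nat_lit 174)) (XT.lf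 (nat_lit 0) (nat_lit 3333651055) (nat_lit 152) (nat_lit 24072053339) (nat_lit 76) (nat_lit 27939387649) (nat_lit 6) (nat_lit 5) (nat_lit 8) (nat_lit 5) (nat_lit 7) (nat_lit 4) (nat_lit 314) (nat_lit 233) (nat_lit 173))) (XT.nd (nat_lit 78) (nat_lit 76) (nat_lit 0) (XT.lf (nat_lit 0) (nat_lit 8267386908) (nat_lit 152) (nat_lit 14139635668) (nat_lit 76) (nat_lit 35509546760) (nat_lit 6) (nat_lit 5) (nat_lit 8) (nat_lit 5) (nat_lit 7) (nat_lit 4) (nat_lit 315) (nat_lit 233) (nat_lit 172)) (XT.nd (nat_lit 78) (nat_lit 76) (nat_lit 0) (XT.lf (nat_lit 0) (nat_lit 13419129899) (nat_lit 152) (nat_lit 3760707976) (nat_lit 76) (nat_lit 43437666952) (nat_lit 6) (nat_lit 5) (nat_lit 8) (nat_lit 5) (nat_lit 7) (nat_lit 4) (nat_lit 316) (nat_lit 233) (nat_lit 171)) (XT.lf (nat_lit 0) (nat_lit 7230535253) (nat_lit 76) (nat_lit 11640115158) (nat_lit 152) (nat_lit 44581593775) (nat_lit 5) (nat_lit 5) (nat_lit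 6) (nat_lit 5) (nat_lit 7) (nat_lit 4) (nat_lit 317) (nat_lit 233) (nat_lit 170)))))) (XT.nd (nat_lit 390) (nat_lit 76) (nat_lit 0) (XT.nd (nat_lit 156) (nat_lit 0) (nat_lit 0) (XT.nd (nat_lit 78) (nat_lit 0) (nat_lit 0) (XT.lf (nat_lit 0) (nat_lit 18803571765) (nat_lit 76) (nat_lit 5803429454) (nat_lit 152) (nat_lit 41821373384) (nat_lit 5) (nat_lit 5) (nat_lit 6) (nat_lit 5) (nat_lit 7) (nat_lit 4) (nat_lit 318) (nat_lit 233) (nat_lit 169)) (XT.lf (nat_lit 0) (nat_lit 30607913424) (nat_lit 152) (nat_lit 38645920056) (nat_lit 0) (nat_lit 300166429) (nat_lit 5) (nat_lit 5) (nat_lit 7) (nat_lit 4) (nat_lit 5) (nat_lit 4) (nat_lit 319) (nat_lit 233) (nat_lit 168))) (XT.nd (nat_lit 78) (nat_lit 0) (nat_lit 0) (XT.lf (nat_lit 0) (nat_lit 36943274170) (nat_lit 152) (nat_lit 29319281554) (nat_lit 0) (nat_lit 6572338369) (nat_lit 5) (nat_lit 5) (nat_lit 7) (nat_lit 4) (nat_lit 5) (nat_lit 4) (nat_lit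 320) (nat_lit 233) (nat_lit 167)) (XT.nd (nat_lit 78) (nat_lit 0) (nat_lit 0) (XT.lf (nat_lit 0) (nat_lit 43572381535) (nat_lit 152) (nat_lit 19566894935) (nat_lit 0) (nat_lit 13141265919) (nat_lit 5) (nat_lit 5) (nat_lit 7) (nat_lit 4) (nat_lit 5) (nat_lit 4) (nat_lit 321) (nat_lit 233) (nat_lit 166)) (XT.lf (nat_lit 0) (nat_lit 50511019109) (nat_lit 152) (nat_lit 9365540231) (nat_lit 0) (nat_lit 20022589382) (nat_lit 5) (nat_lit 5) (nat_lit 7) (nat_lit 4) (nat_lit 5) (nat_lit 4) (nat_lit 322) (nat_lit 233) (nat_lit 165))))) (XT.nd (nat_lit 234) (nat_lit 0) (nat_lit 0) (XT.nd (nat_lit 78) (nat_lit 0) (nat_lit 0) (XT.lf (nat_lit 0) (nat_lit 1335124587) (nat_lit 76) (nat_lit 56453416904) (nat_lit 76) (nat_lit 25910402311) (nat_lit 4) (nat_lit 4) (nat_lit 5) (nat_lit 5) (nat_lit 5) (nat_lit 4) (nat_lit 323) (nat_lit 233) (nat_lit 164)) (XT.nd (nat_lit 78) (nat_lit 0) (nat_lit 0) (XT.lf (nat_lit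 0) (nat_lit 12730779352) (nat_lit 76) (nat_lit 52775340142) (nat_lit 76) (nat_lit 22180339962) (nat_lit 4) (nat_lit 4) (nat_lit 5) (nat_lit 5) (nat_lit 5) (nat_lit 4) (nat_lit 324) (nat_lit 233) (nat_lit 163)) (XT.lf (nat_lit 0) (nat_lit 24662163961) (nat_lit 76) (nat_lit 48928145321) (nat_lit 76) (nat_lit 18283635058) (nat_lit 4) (nat_lit 4) (nat_lit 5) (nat_lit 5) (nat_lit 5) (nat_lit 4) (nat_lit 325) (nat_lit 233) (nat_lit 162)))) (XT.nd (nat_lit 78) (nat_lit 0) (nat_lit 0) (XT.lf (nat_lit 0) (nat_lit 37157686473) (nat_lit 76) (nat_lit 44902672455) (nat_lit 76) (nat_lit 14211009731) (nat_lit 4) (nat_lit 4) (nat_lit 5) (nat_lit 5) (nat_lit 5) (nat_lit 4) (nat_lit 326) (nat_lit 233) (nat_lit 161)) (XT.nd (nat_lit 78) (nat_lit 0) (nat_lit 0) (XT.lf (nat_lit 0) (nat_lit 50247098131) (nat_lit 76) (nat_lit 40689337082) (nat_lit 76) (nat_lit 9952767255) (nat_lit 4) (nat_lit 4) (nat_lit 5) (nat_lit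 5) (nat_lit 5) (nat_lit 4) (nat_lit 327) (nat_lit 233) (nat_lit 160)) (XT.lf (nat_lit 0) (nat_lit 63961564202) (nat_lit 76) (nat_lit 36278107454) (nat_lit 76) (nat_lit 5498768955) (nat_lit 4) (nat_lit 4) (nat_lit 5) (nat_lit 5) (nat_lit 5) (nat_lit 4) (nat_lit 328) (nat_lit 233) (nat_lit 159))))))) (XT.nd (nat_lit 32136) (nat_lit 0) (nat_lit 4864) (XT.nd (nat_lit 31746) (nat_lit 0) (nat_lit 9272) (XT.nd (nat_lit 31512) (nat_lit 0) (nat_lit 13300) (XT.nd (nat_lit 78) (nat_lit 76) (nat_lit 0) (XT.lf (nat_lit 0) (nat_lit 78333738176) (nat_lit 76) (nat_lit 31658480642) (nat_lit 76) (nat_lit 838410075) (nat_lit 4) (nat_lit 4) (nat_lit 5) (nat_lit 5) (nat_lit 5) (nat_lit 4) (nat_lit 329) (nat_lit 233) (nat_lit 158)) (XT.lf (nat_lit 0) (nat_lit 3960582128) (nat_lit 152) (nat_lit 22818881292) (nat_lit 76) (nat_lit 89397263273) (nat_lit 3) (nat_lit 5) (nat_lit 5) (nat_lit 5) (nat_lit 4) (nat_lit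 4) (nat_lit 330) (nat_lit 233) (nat_lit 157))) (XT.nd (nat_lit 78) (nat_lit 1824) (nat_lit 0) (XT.lf (nat_lit 0) (nat_lit 422250071) (nat_lit 836) (nat_lit 2610440506) (nat_lit 0) (nat_lit 422250071) (nat_lit 202) (nat_lit 5) (nat_lit 213) (nat_lit 4) (nat_lit 202) (nat_lit 4) (nat_lit 252) (nat_lit 234) (nat_lit 234)) (XT.nd (nat_lit 78) (nat_lit 988) (nat_lit 0) (XT.lf (nat_lit 0) (nat_lit 1518702176) (nat_lit 836) (nat_lit 4166295545) (nat_lit 836) (nat_lit 1309505114) (nat_lit 191) (nat_lit 4) (nat_lit 202) (nat_lit 5) (nat_lit 202) (nat_lit 4) (nat_lit 253) (nat_lit 234) (nat_lit 233)) (XT.lf (nat_lit 0) (nat_lit 1383987530) (nat_lit 912) (nat_lit 2045337963) (nat_lit 988) (nat_lit 3659279452) (nat_lit 178) (nat_lit 5) (nat_lit 190) (nat_lit 5) (nat_lit 191) (nat_lit 4) (nat_lit 254) (nat_lit 234) (nat_lit 232))))) (XT.nd (nat_lit 156) (nat_lit 1900) (nat_lit 0) (XT.nd (nat_lit 78)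 (nat_lit 1064) (nat_lit 0) (XT.lf (nat_lit 0) (nat_lit 996096153) (nat_lit 1064) (nat_lit 5908736805) (nat_lit 76) (nat_lit 287757876) (nat_lit 164) (nat_lit 5) (nat_lit 178) (nat_lit 5) (nat_lit 165) (nat_lit 4) (nat_lit 255) (nat_lit 234) (nat_lit 231)) (XT.lf (nat_lit 0) (nat_lit 1175681498) (nat_lit 1064) (nat_lit 4490534620) (nat_lit 1140) (nat_lit 1639468508) (nat_lit 150) (nat_lit 5) (nat_lit 164) (nat_lit 5) (nat_lit 165) (nat_lit 4) (nat_lit 256) (nat_lit 234) (nat_lit 230))) (XT.nd (nat_lit 78) (nat_lit 1140) (nat_lit 0) (XT.lf (nat_lit 0) (nat_lit 1076696832) (nat_lit 684) (nat_lit 1850913310) (nat_lit 760) (nat_lit 4501279046) (nat_lit 140) (nat_lit 5) (nat_lit 149) (nat_lit 5) (nat_lit 150) (nat_lit 5) (nat_lit 257) (nat_lit 234) (nat_lit 229)) (XT.nd (nat_lit 78) (nat_lit 608) (nat_lit 0) (XT.lf (nat_lit 0) (nat_lit 979250310) (nat_lit 532) (nat_lit 6572700239) (nat_lit 608)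 (nat_lit 10570619) (nat_lit 133) (nat_lit 5) (nat_lit 140) (nat_lit 5) (nat_lit 141) (nat_lit 4) (nat_lit 258) (nat_lit 234) (nat_lit 228)) (XT.lf (nat_lit 0) (nat_lit 833261156) (nat_lit 532) (nat_lit 3658468073) (nat_lit 608) (nat_lit 3213973434) (nat_lit 125) (nat_lit 5) (nat_lit 132) (nat_lit 5) (nat_lit 133) (nat_lit 5) (nat_lit 259) (nat_lit 234) (nat_lit 227)))))) (XT.nd (nat_lit 390) (nat_lit 2356) (nat_lit 0) (XT.nd (nat_lit 156) (nat_lit 1064) (nat_lit 0) (XT.nd (nat_lit 78) (nat_lit 456) (nat_lit 0) (XT.lf (nat_lit 0) (nat_lit 677779385) (nat_lit 456) (nat_lit 525069462) (nat_lit 532) (nat_lit 6657347449) (nat_lit 118) (nat_lit 5) (nat_lit 124) (nat_lit 5) (nat_lit 125) (nat_lit 5) (nat_lit 260) (nat_lit 234) (nat_lit 226)) (XT.lf (nat_lit 0) (nat_lit 452303985) (nat_lit 456) (nat_lit 5223967375) (nat_lit 532) (nat_lit 2348641714) (nat_lit 112) (nat_lit 5) (nat_lit 118) (nat_lit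 5) (nat_lit 119) (nat_lit 5) (nat_lit 261) (nat_lit 234) (nat_lit 225))) (XT.nd (nat_lit 78) (nat_lit 532) (nat_lit 0) (XT.lf (nat_lit 0) (nat_lit 176153981) (nat_lit 456) (nat_lit 1842847208) (nat_lit 532) (nat_lit 6182139318) (nat_lit 105) (nat_lit 5) (nat_lit 111) (nat_lit 5) (nat_lit 112) (nat_lit 5) (nat_lit 262) (nat_lit 234) (nat_lit 224)) (XT.nd (nat_lit 78) (nat_lit 532) (nat_lit 0) (XT.lf (nat_lit 0) (nat_lit 6463290033) (nat_lit 532) (nat_lit 177102394) (nat_lit 76) (nat_lit 1748342049) (nat_lit 105) (nat_lit 5) (nat_lit 112) (nat_lit 5) (nat_lit 106) (nat_lit 5) (nat_lit 263) (nat_lit 234) (nat_lit 223)) (XT.lf (nat_lit 0) (nat_lit 2408801589) (nat_lit 532) (nat_lit 624194313) (nat_lit 76) (nat_lit 5554971153) (nat_lit 98) (nat_lit 5) (nat_lit 105) (nat_lit 5) (nat_lit 99) (nat_lit 5) (nat_lit 264) (nat_lit 234) (nat_lit 222))))) (XT.nd (nat_lit 234) (nat_lit 1140) (nat_lit 0)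 (XT.nd (nat_lit 78) (nat_lit 836) (nat_lit 0) (XT.lf (nat_lit 0) (nat_lit 6828118667) (nat_lit 456) (nat_lit 1170127870) (nat_lit 76) (nat_lit 801500649) (nat_lit 93) (nat_lit 5) (nat_lit 99) (nat_lit 5) (nat_lit 94) (nat_lit 5) (nat_lit 265) (nat_lit 234) (nat_lit 221)) (XT.nd (nat_lit 78) (nat_lit 380) (nat_lit 0) (XT.lf (nat_lit 0) (nat_lit 2334481278) (nat_lit 456) (nat_lit 1859705803) (nat_lit 76) (nat_lit 4829518676) (nat_lit 87) (nat_lit 5) (nat_lit 93) (nat_lit 5) (nat_lit 88) (nat_lit 5) (nat_lit 266) (nat_lit 234) (nat_lit 220)) (XT.lf (nat_lit 0) (nat_lit 6582318154) (nat_lit 380) (nat_lit 143490913) (nat_lit 456) (nat_lit 2535501981) (nat_lit 82) (nat_lit 5) (nat_lit 87) (nat_lit 5) (nat_lit 88) (nat_lit 5) (nat_lit 267) (nat_lit 234) (nat_lit 219)))) (XT.nd (nat_lit 78) (nat_lit 684) (nat_lit 0) (XT.lf (nat_lit 0) (nat_lit 1744917968) (nat_lit 456) (nat_lit 3685833104) (nat_lit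 76) (nat_lit 4081208072) (nat_lit 76) (nat_lit 5) (nat_lit 82) (nat_lit 5) (nat_lit 77) (nat_lit 5) (nat_lit 268) (nat_lit 234) (nat_lit 218)) (XT.nd (nat_lit 78) (nat_lit 380) (nat_lit 0) (XT.lf (nat_lit 0) (nat_lit 4903349175) (nat_lit 304) (nat_lit 1204733890) (nat_lit 380) (nat_lit 3668981290) (nat_lit 72) (nat_lit 5) (nat_lit 76) (nat_lit 5) (nat_lit 77) (nat_lit 5) (nat_lit 269) (nat_lit 234) (nat_lit 217)) (XT.lf (nat_lit 0) (nat_lit 575961520) (nat_lit 380) (nat_lit 6277290767) (nat_lit 76) (nat_lit 3203648309) (nat_lit 67) (nat_lit 5) (nat_lit 72) (nat_lit 5) (nat_lit 68) (nat_lit 5) (nat_lit 270) (nat_lit 234) (nat_lit 216))))))))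
noncomputable def xc38 : XT := (XT.nd (nat_lit 1638) (nat_lit 988) (nat_lit 0) (XT.nd (nat_lit 780) (nat_lit 1216) (nat_lit 0) (XT.nd (nat_lit 390) (nat_lit 988) (nat_lit 0) (XT.nd (nat_lit 156) (nat_lit 684) (nat_lit 0) (XT.nd (nat_lit 78) (nat_lit 304) (nat_lit 0) (XT.lf (nat_lit 0) (nat_lit 2416550892) (nat_lit 304) (nat_lit 2480365187) (nat_lit 380) (nat_lit 5454808793) (nat_lit 63) (nat_lit 5) (nat_lit 67) (nat_lit 5) (nat_lit 68) (nat_lit 5) (nat_lit 271) (nat_lit 234) (nat_lit 215)) (XT.lf (nat_lit 0) (nat_lit 814409562) (nat_lit 304) (nat_lit 8570424729) (nat_lit 380) (nat_lit 1278190845) (nat_lit 59) (nat_lit 5) (nat_lit 63) (nat_lit 5) (nat_lit 64) (nat_lit 5) (nat_lit 272) (nat_lit 234) (nat_lit 214))) (XT.nd (nat_lit 78) (nat_lit 608) (nat_lit 0) (XT.lf (nat_lit 0) (nat_lit 3015021910) (nat_lit 380) (nat_lit 1070668340) (nat_lit 76) (nat_lit 6904494655) (nat_lit 58) (nat_lit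 5) (nat_lit 63) (nat_lit 5) (nat_lit 59) (nat_lit 5) (nat_lit 273) (nat_lit 234) (nat_lit 213)) (XT.nd (nat_lit 78) (nat_lit 380) (nat_lit 0) (XT.lf (nat_lit 0) (nat_lit 7448499679) (nat_lit 304) (nat_lit 3235647562) (nat_lit 76) (nat_lit 650845522) (nat_lit 55) (nat_lit 5) (nat_lit 59) (nat_lit 5) (nat_lit 56) (nat_lit 5) (nat_lit 274) (nat_lit 234) (nat_lit 212)) (XT.lf (nat_lit 0) (nat_lit 379351287) (nat_lit 380) (nat_lit 5757145423) (nat_lit 76) (nat_lit 5561220322) (nat_lit 50) (nat_lit 5) (nat_lit 55) (nat_lit 5) (nat_lit 51) (nat_lit 5) (nat_lit 275) (nat_lit 234) (nat_lit 211))))) (XT.nd (nat_lit 156) (nat_lit 532) (nat_lit 0) (XT.nd (nat_lit 78) (nat_lit 228) (nat_lit 0) (XT.lf (nat_lit 0) (nat_lit 3411448635) (nat_lit 228) (nat_lit 1308373720) (nat_lit 304) (nat_lit 7359552733) (nat_lit 47) (nat_lit 5) (nat_lit 50) (nat_lit 5) (nat_lit 51) (nat_lit 5) (nat_lit 276) (nat_lit 234)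 (nat_lit 210)) (XT.lf (nat_lit 0) (nat_lit 473631770) (nat_lit 228) (nat_lit 8782534753) (nat_lit 304) (nat_lit 3224777723) (nat_lit 44) (nat_lit 5) (nat_lit 47) (nat_lit 5) (nat_lit 48) (nat_lit 5) (nat_lit 277) (nat_lit 234) (nat_lit 209))) (XT.nd (nat_lit 78) (nat_lit 456) (nat_lit 0) (XT.lf (nat_lit 0) (nat_lit 1079329349) (nat_lit 304) (nat_lit 2848053925) (nat_lit 76) (nat_lit 8975534087) (nat_lit 43) (nat_lit 5) (nat_lit 47) (nat_lit 5) (nat_lit 44) (nat_lit 5) (nat_lit 278) (nat_lit 234) (nat_lit 208)) (XT.nd (nat_lit 78) (nat_lit 228) (nat_lit 0) (XT.lf (nat_lit 0) (nat_lit 5495376793) (nat_lit 304) (nat_lit 6659292599) (nat_lit 76) (nat_lit 1191629596) (nat_lit 40) (nat_lit 5) (nat_lit 44) (nat_lit 5) (nat_lit 41) (nat_lit 5) (nat_lit 279) (nat_lit 234) (nat_lit 207)) (XT.lf (nat_lit 0) (nat_lit 2795583000) (nat_lit 228) (nat_lit 7322798431) (nat_lit 304) (nat_lit 3694046061) (nat_lit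 37) (nat_lit 5) (nat_lit 40) (nat_lit 5) (nat_lit 41) (nat_lit 5) (nat_lit 280) (nat_lit 234) (nat_lit 206)))))) (XT.nd (nat_lit 390) (nat_lit 532) (nat_lit 0) (XT.nd (nat_lit 156) (nat_lit 456) (nat_lit 0) (XT.nd (nat_lit 78) (nat_lit 152) (nat_lit 0) (XT.lf (nat_lit 0) (nat_lit 619329117) (nat_lit 304) (nat_lit 1608493102) (nat_lit 76) (nat_lit 12075144717) (nat_lit 36) (nat_lit 5) (nat_lit 40) (nat_lit 5) (nat_lit 37) (nat_lit 5) (nat_lit 281) (nat_lit 234) (nat_lit 205)) (XT.lf (nat_lit 0) (nat_lit 5080146577) (nat_lit 228) (nat_lit 6610780650) (nat_lit 76) (nat_lit 3125906769) (nat_lit 34) (nat_lit 5) (nat_lit 37) (nat_lit 5) (nat_lit 35) (nat_lit 5) (nat_lit 282) (nat_lit 234) (nat_lit 204))) (XT.nd (nat_lit 78) (nat_lit 228) (nat_lit 0) (XT.lf (nat_lit 0) (nat_lit 3072099131) (nat_lit 228) (nat_lit 6661185833) (nat_lit 304) (nat_lit 5624167276) (nat_lit 31) (nat_lit 5) (nat_lit 34)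 (nat_lit 5) (nat_lit 35) (nat_lit 5) (nat_lit 283) (nat_lit 234) (nat_lit 203)) (XT.nd (nat_lit 78) (nat_lit 228) (nat_lit 0) (XT.lf (nat_lit 0) (nat_lit 13227449136) (nat_lit 228) (nat_lit 1363520512) (nat_lit 304) (nat_lit 1335104814) (nat_lit 31) (nat_lit 5) (nat_lit 34) (nat_lit 5) (nat_lit 35) (nat_lit 5) (nat_lit 284) (nat_lit 234) (nat_lit 202)) (XT.lf (nat_lit 0) (nat_lit 3125348334) (nat_lit 228) (nat_lit 9228384940) (nat_lit 76) (nat_lit 4168037851) (nat_lit 28) (nat_lit 5) (nat_lit 31) (nat_lit 5) (nat_lit 29) (nat_lit 5) (nat_lit 285) (nat_lit 234) (nat_lit 201))))) (XT.nd (nat_lit 234) (nat_lit 228) (nat_lit 0) (XT.nd (nat_lit 78) (nat_lit 152) (nat_lit 0) (XT.lf (nat_lit 0) (nat_lit 535087721) (nat_lit 152) (nat_lit 7203300224) (nat_lit 228) (nat_lit 9409867091) (nat_lit 26) (nat_lit 5) (nat_lit 28) (nat_lit 5) (nat_lit 29) (nat_lit 5) (nat_lit 286) (nat_lit 234) (nat_lit 200))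 (XT.nd (nat_lit 78) (nat_lit 152) (nat_lit 0) (XT.lf (nat_lit 0) (nat_lit 10840860608) (nat_lit 152) (nat_lit 1749129451) (nat_lit 228) (nat_lit 5215944583) (nat_lit 26) (nat_lit 5) (nat_lit 28) (nat_lit 5) (nat_lit 29) (nat_lit 5) (nat_lit 287) (nat_lit 234) (nat_lit 199)) (XT.lf (nat_lit 0) (nat_lit 3052520017) (nat_lit 152) (nat_lit 14615818302) (nat_lit 228) (nat_lit 828738563) (nat_lit 24) (nat_lit 5) (nat_lit 26) (nat_lit 5) (nat_lit 27) (nat_lit 4) (nat_lit 288) (nat_lit 234) (nat_lit 198)))) (XT.nd (nat_lit 78) (nat_lit 152) (nat_lit 0) (XT.lf (nat_lit 0) (nat_lit 3712582076) (nat_lit 228) (nat_lit 5690865849) (nat_lit 76) (nat_lit 9818080490) (nat_lit 23) (nat_lit 5) (nat_lit 26) (nat_lit 5) (nat_lit 24) (nat_lit 5) (nat_lit 289) (nat_lit 234) (nat_lit 197)) (XT.nd (nat_lit 78) (nat_lit 0) (nat_lit 0) (XT.lf (nat_lit 0) (nat_lit 4504224556) (nat_lit 152) (nat_lit 3925356316) (nat_lit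 228) (nat_lit 11553494202) (nat_lit 21) (nat_lit 5) (nat_lit 23) (nat_lit 5) (nat_lit 24) (nat_lit 5) (nat_lit 290) (nat_lit 234) (nat_lit 196)) (XT.lf (nat_lit 0) (nat_lit 13383519314) (nat_lit 228) (nat_lit 5595186502) (nat_lit 76) (nat_lit 1804047474) (nat_lit 21) (nat_lit 5) (nat_lit 24) (nat_lit 5) (nat_lit 22) (nat_lit 4) (nat_lit 291) (nat_lit 234) (nat_lit 195))))))) (XT.nd (nat_lit 780) (nat_lit 380) (nat_lit 0) (XT.nd (nat_lit 390) (nat_lit 228) (nat_lit 0) (XT.nd (nat_lit 156) (nat_lit 228) (nat_lit 0) (XT.nd (nat_lit 78) (nat_lit 76) (nat_lit 0) (XT.lf (nat_lit 0) (nat_lit 4716896257) (nat_lit 76) (nat_lit 13881189645) (nat_lit 152) (nat_lit 3024024354) (nat_lit 20) (nat_lit 5) (nat_lit 21) (nat_lit 5) (nat_lit 22) (nat_lit 4) (nat_lit 292) (nat_lit 234) (nat_lit 194)) (XT.lf (nat_lit 0) (nat_lit 1527007230) (nat_lit 152) (nat_lit 6972142321) (nat_lit 76) (nat_lit 14004278418)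 (nat_lit 19) (nat_lit 5) (nat_lit 21) (nat_lit 5) (nat_lit 20) (nat_lit 5) (nat_lit 293) (nat_lit 234) (nat_lit 193))) (XT.nd (nat_lit 78) (nat_lit 76) (nat_lit 0) (XT.lf (nat_lit 0) (nat_lit 3382319374) (nat_lit 152) (nat_lit 2826708614) (nat_lit 228) (nat_lit 17219978876) (nat_lit 17) (nat_lit 5) (nat_lit 19) (nat_lit 5) (nat_lit 20) (nat_lit 5) (nat_lit 294) (nat_lit 234) (nat_lit 192)) (XT.nd (nat_lit 78) (nat_lit 76) (nat_lit 0) (XT.lf (nat_lit 0) (nat_lit 11162350794) (nat_lit 228) (nat_lit 10138478561) (nat_lit 76) (nat_lit 3098988743) (nat_lit 17) (nat_lit 5) (nat_lit 20) (nat_lit 5) (nat_lit 18) (nat_lit 4) (nat_lit 295) (nat_lit 234) (nat_lit 191)) (XT.lf (nat_lit 0) (nat_lit 135272133) (nat_lit 76) (nat_lit 16195648171) (nat_lit 152) (nat_lit 9089288289) (nat_lit 16) (nat_lit 5) (nat_lit 17) (nat_lit 5) (nat_lit 18) (nat_lit 4) (nat_lit 296) (nat_lit 234) (nat_lit 190))))) (XT.nd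 (nat_lit 156) (nat_lit 228) (nat_lit 0) (XT.nd (nat_lit 78) (nat_lit 0) (nat_lit 0) (XT.lf (nat_lit 0) (nat_lit 11033577571) (nat_lit 76) (nat_lit 10768450460) (nat_lit 152) (nat_lit 4688330257) (nat_lit 16) (nat_lit 5) (nat_lit 17) (nat_lit 5) (nat_lit 18) (nat_lit 4) (nat_lit 297) (nat_lit 234) (nat_lit 189)) (XT.lf (nat_lit 0) (nat_lit 22380610497) (nat_lit 76) (nat_lit 5108693079) (nat_lit 152) (nat_lit 126493491) (nat_lit 16) (nat_lit 5) (nat_lit 17) (nat_lit 5) (nat_lit 18) (nat_lit 4) (nat_lit 298) (nat_lit 234) (nat_lit 188))) (XT.nd (nat_lit 78) (nat_lit 0) (nat_lit 0) (XT.lf (nat_lit 0) (nat_lit 4578351702) (nat_lit 228) (nat_lit 23338351017) (nat_lit 76) (nat_lit 879338171) (nat_lit 13) (nat_lit 5) (nat_lit 16) (nat_lit 5) (nat_lit 14) (nat_lit 4) (nat_lit 299) (nat_lit 234) (nat_lit 187)) (XT.nd (nat_lit 78) (nat_lit 0) (nat_lit 0) (XT.lf (nat_lit 0) (nat_lit 9567996849) (nat_lit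 228) (nat_lit 13383852514) (nat_lit 76) (nat_lit 7081897567) (nat_lit 13) (nat_lit 5) (nat_lit 16) (nat_lit 5) (nat_lit 14) (nat_lit 4) (nat_lit 300) (nat_lit 234) (nat_lit 186)) (XT.lf (nat_lit 0) (nat_lit 14755848988) (nat_lit 228) (nat_lit 3018685192) (nat_lit 76) (nat_lit 13560392645) (nat_lit 13) (nat_lit 5) (nat_lit 16) (nat_lit 5) (nat_lit 14) (nat_lit 4) (nat_lit 301) (nat_lit 234) (nat_lit 185)))))) (XT.nd (nat_lit 390) (nat_lit 76) (nat_lit 0) (XT.nd (nat_lit 156) (nat_lit 228) (nat_lit 0) (XT.nd (nat_lit 78) (nat_lit 0) (nat_lit 0) (XT.lf (nat_lit 0) (nat_lit 7936703591) (nat_lit 76) (nat_lit 12293849006) (nat_lit 152) (nat_lit 12469837253) (nat_lit 12) (nat_lit 5) (nat_lit 13) (nat_lit 5) (nat_lit 14) (nat_lit 4) (nat_lit 302) (nat_lit 234) (nat_lit 184)) (XT.lf (nat_lit 0) (nat_lit 19422409493) (nat_lit 76) (nat_lit 6540374275) (nat_lit 152) (nat_lit 8171874106) (nat_lit 12)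 (nat_lit 5) (nat_lit 13) (nat_lit 5) (nat_lit 14) (nat_lit 4) (nat_lit 303) (nat_lit 234) (nat_lit 183))) (XT.nd (nat_lit 78) (nat_lit 228) (nat_lit 0) (XT.lf (nat_lit 0) (nat_lit 31405701679) (nat_lit 76) (nat_lit 530894038) (nat_lit 152) (nat_lit 3705437954) (nat_lit 12) (nat_lit 5) (nat_lit 13) (nat_lit 5) (nat_lit 14) (nat_lit 4) (nat_lit 304) (nat_lit 234) (nat_lit 182)) (XT.nd (nat_lit 78) (nat_lit 0) (nat_lit 0) (XT.lf (nat_lit 0) (nat_lit 1043250452) (nat_lit 228) (nat_lit 30466957089) (nat_lit 76) (nat_lit 5711982891) (nat_lit 9) (nat_lit 5) (nat_lit 12) (nat_lit 5) (nat_lit 10) (nat_lit 4) (nat_lit 305) (nat_lit 234) (nat_lit 181)) (XT.lf (nat_lit 0) (nat_lit 5960586320) (nat_lit 228) (nat_lit 20611173545) (nat_lit 76) (nat_lit 12308297383) (nat_lit 9) (nat_lit 5) (nat_lit 12) (nat_lit 5) (nat_lit 10) (nat_lit 4) (nat_lit 306) (nat_lit 234) (nat_lit 180))))) (XT.nd (nat_lit 234)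 (nat_lit 0) (nat_lit 0) (XT.nd (nat_lit 78) (nat_lit 76) (nat_lit 0) (XT.lf (nat_lit 0) (nat_lit 11083536875) (nat_lit 228) (nat_lit 10331972747) (nat_lit 76) (nat_lit 19206551787) (nat_lit 9) (nat_lit 5) (nat_lit 12) (nat_lit 5) (nat_lit 10) (nat_lit 4) (nat_lit 307) (nat_lit 234) (nat_lit 179)) (XT.nd (nat_lit 78) (nat_lit 0) (nat_lit 0) (XT.lf (nat_lit 0) (nat_lit 402983247) (nat_lit 76) (nat_lit 16025190092) (nat_lit 152) (nat_lit 26024060990) (nat_lit 8) (nat_lit 5) (nat_lit 9) (nat_lit 5) (nat_lit 10) (nat_lit 4) (nat_lit 308) (nat_lit 234) (nat_lit 178)) (XT.lf (nat_lit 0) (nat_lit 11826420227) (nat_lit 76) (nat_lit 10282853208) (nat_lit 152) (nat_lit 22262598555) (nat_lit 8) (nat_lit 5) (nat_lit 9) (nat_lit 5) (nat_lit 10) (nat_lit 4) (nat_lit 309) (nat_lit 234) (nat_lit 177)))) (XT.nd (nat_lit 78) (nat_lit 0) (nat_lit 0) (XT.lf (nat_lit 0) (nat_lit 23759910335) (nat_lit 76) (nat_lit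 4279159408) (nat_lit 152) (nat_lit 18349514033) (nat_lit 8) (nat_lit 5) (nat_lit 9) (nat_lit 5) (nat_lit 10) (nat_lit 4) (nat_lit 310) (nat_lit 234) (nat_lit 176)) (XT.nd (nat_lit 78) (nat_lit 0) (nat_lit 0) (XT.lf (nat_lit 0) (nat_lit 34250907834) (nat_lit 152) (nat_lit 12294531748) (nat_lit 0) (nat_lit 1961154988) (nat_lit 8) (nat_lit 5) (nat_lit 10) (nat_lit 4) (nat_lit 8) (nat_lit 4) (nat_lit 311) (nat_lit 234) (nat_lit 175)) (XT.lf (nat_lit 0) (nat_lit 40784232355) (nat_lit 152) (nat_lit 1543076140) (nat_lit 0) (nat_lit 8402899123) (nat_lit 8) (nat_lit 5) (nat_lit 10) (nat_lit 4) (nat_lit 8) (nat_lit 4) (nat_lit 312) (nat_lit 234) (nat_lit 174))))))))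
noncomputable def xc39 : XT := (XT.nd (nat_lit 32838) (nat_lit 0) (nat_lit 3876) (XT.nd (nat_lit 780) (nat_lit 76) (nat_lit 0) (XT.nd (nat_lit 390) (nat_lit 76) (nat_lit 0) (XT.nd (nat_lit 156) (nat_lit 76) (nat_lit 0) (XT.nd (nat_lit 78) (nat_lit 0) (nat_lit 0) (XT.lf (nat_lit 0) (nat_lit 9885324265) (nat_lit 76) (nat_lit 37823164461) (nat_lit 76) (nat_lit 5354611814) (nat_lit 7) (nat_lit 4) (nat_lit 8) (nat_lit 5) (nat_lit 8) (nat_lit 4) (nat_lit 313) (nat_lit 234) (nat_lit 173)) (XT.lf (nat_lit 0) (nat_lit 21865398500) (nat_lit 76) (nat_lit 33099650761) (nat_lit 76) (nat_lit 548032004) (nat_lit 7) (nat_lit 4) (nat_lit 8) (nat_lit 5) (nat_lit 8) (nat_lit 4) (nat_lit 314) (nat_lit 234) (nat_lit 172))) (XT.nd (nat_lit 78) (nat_lit 0) (nat_lit 0) (XT.lf (nat_lit 0) (nat_lit 4382407851) (nat_lit 152) (nat_lit 23734441398) (nat_lit 76) (nat_lit 29968298730) (nat_lit 6) (nat_lit 5) (nat_lit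 8) (nat_lit 5) (nat_lit 7) (nat_lit 4) (nat_lit 315) (nat_lit 234) (nat_lit 171)) (XT.nd (nat_lit 78) (nat_lit 0) (nat_lit 0) (XT.lf (nat_lit 0) (nat_lit 9520826961) (nat_lit 152) (nat_lit 13378794015) (nat_lit 76) (nat_lit 37886873335) (nat_lit 6) (nat_lit 5) (nat_lit 8) (nat_lit 5) (nat_lit 7) (nat_lit 4) (nat_lit 316) (nat_lit 234) (nat_lit 170)) (XT.lf (nat_lit 0) (nat_lit 14890153734) (nat_lit 152) (nat_lit 2550816293) (nat_lit 76) (nat_lit 46182740049) (nat_lit 6) (nat_lit 5) (nat_lit 8) (nat_lit 5) (nat_lit 7) (nat_lit 4) (nat_lit 317) (nat_lit 234) (nat_lit 169))))) (XT.nd (nat_lit 156) (nat_lit 0) (nat_lit 0) (XT.nd (nat_lit 78) (nat_lit 0) (nat_lit 0) (XT.lf (nat_lit 0) (nat_lit 8949917798) (nat_lit 76) (nat_lit 11639286569) (nat_lit 152) (nat_lit 46011765222) (nat_lit 5) (nat_lit 5) (nat_lit 6) (nat_lit 5) (nat_lit 7) (nat_lit 4) (nat_lit 318) (nat_lit 234) (nat_lit 168)) (XT.lf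 (nat_lit 0) (nat_lit 21036946337) (nat_lit 76) (nat_lit 5538520596) (nat_lit 152) (nat_lit 43151577060) (nat_lit 5) (nat_lit 5) (nat_lit 6) (nat_lit 5) (nat_lit 7) (nat_lit 4) (nat_lit 319) (nat_lit 234) (nat_lit 167))) (XT.nd (nat_lit 78) (nat_lit 0) (nat_lit 0) (XT.lf (nat_lit 0) (nat_lit 32846358072) (nat_lit 152) (nat_lit 39330016486) (nat_lit 0) (nat_lit 833506859) (nat_lit 5) (nat_lit 5) (nat_lit 7) (nat_lit 4) (nat_lit 5) (nat_lit 4) (nat_lit 320) (nat_lit 234) (nat_lit 166)) (XT.nd (nat_lit 78) (nat_lit 0) (nat_lit 0) (XT.lf (nat_lit 0) (nat_lit 39464770237) (nat_lit 152) (nat_lit 29596484134) (nat_lit 0) (nat_lit 7394604914) (nat_lit 5) (nat_lit 5) (nat_lit 7) (nat_lit 4) (nat_lit 5) (nat_lit 4) (nat_lit 321) (nat_lit 234) (nat_lit 165)) (XT.lf (nat_lit 0) (nat_lit 46393221906) (nat_lit 152) (nat_lit 19413085874) (nat_lit 0) (nat_lit 14268471717) (nat_lit 5) (nat_lit 5) (nat_lit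 7) (nat_lit 4) (nat_lit 5) (nat_lit 4) (nat_lit 322) (nat_lit 234) (nat_lit 164)))))) (XT.nd (nat_lit 390) (nat_lit 0) (nat_lit 0) (XT.nd (nat_lit 156) (nat_lit 0) (nat_lit 0) (XT.nd (nat_lit 78) (nat_lit 76) (nat_lit 0) (XT.lf (nat_lit 0) (nat_lit 53648209392) (nat_lit 152) (nat_lit 8755575521) (nat_lit 0) (nat_lit 21471473615) (nat_lit 5) (nat_lit 5) (nat_lit 7) (nat_lit 4) (nat_lit 5) (nat_lit 4) (nat_lit 323) (nat_lit 234) (nat_lit 163)) (XT.lf (nat_lit 0) (nat_lit 2449214955) (nat_lit 76) (nat_lit 58821334871) (nat_lit 76) (nat_lit 26595089012) (nat_lit 4) (nat_lit 4) (nat_lit 5) (nat_lit 5) (nat_lit 5) (nat_lit 4) (nat_lit 324) (nat_lit 234) (nat_lit 162))) (XT.nd (nat_lit 78) (nat_lit 0) (nat_lit 0) (XT.lf (nat_lit 0) (nat_lit 14364779404) (nat_lit 76) (nat_lit 54981009170) (nat_lit 76) (nat_lit 22707610851) (nat_lit 4) (nat_lit 4) (nat_lit 5) (nat_lit 5) (nat_lit 5) (nat_lit 4) (nat_lit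 325) (nat_lit 234) (nat_lit 161)) (XT.nd (nat_lit 78) (nat_lit 0) (nat_lit 0) (XT.lf (nat_lit 0) (nat_lit 26845235097) (nat_lit 76) (nat_lit 50962078322) (nat_lit 76) (nat_lit 18643772898) (nat_lit 4) (nat_lit 4) (nat_lit 5) (nat_lit 5) (nat_lit 5) (nat_lit 4) (nat_lit 326) (nat_lit 234) (nat_lit 160)) (XT.lf (nat_lit 0) (nat_lit 39920297404) (nat_lit 76) (nat_lit 46754973444) (nat_lit 76) (nat_lit 14393899348) (nat_lit 4) (nat_lit 4) (nat_lit 5) (nat_lit 5) (nat_lit 5) (nat_lit 4) (nat_lit 327) (nat_lit 234) (nat_lit 159))))) (XT.nd (nat_lit 31434) (nat_lit 0) (nat_lit 15048) (XT.nd (nat_lit 78) (nat_lit 0) (nat_lit 0) (XT.lf (nat_lit 0) (nat_lit 53621097426) (nat_lit 76) (nat_lit 42349677619) (nat_lit 76) (nat_lit 9947871456) (nat_lit 4) (nat_lit 4) (nat_lit 5) (nat_lit 5) (nat_lit 5) (nat_lit 4) (nat_lit 328) (nat_lit 234) (nat_lit 158)) (XT.nd (nat_lit 78) (nat_lit 0) (nat_lit 0) (XT.lf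 (nat_lit 0) (nat_lit 67980256115) (nat_lit 76) (nat_lit 37735702048) (nat_lit 76) (nat_lit 5295103439) (nat_lit 4) (nat_lit 4) (nat_lit 5) (nat_lit 5) (nat_lit 5) (nat_lit 4) (nat_lit 329) (nat_lit 234) (nat_lit 157)) (XT.lf (nat_lit 0) (nat_lit 83031961945) (nat_lit 76) (nat_lit 32902061075) (nat_lit 76) (nat_lit 424517280) (nat_lit 4) (nat_lit 4) (nat_lit 5) (nat_lit 5) (nat_lit 5) (nat_lit 4) (nat_lit 330) (nat_lit 234) (nat_lit 156)))) (XT.nd (nat_lit 78) (nat_lit 1520) (nat_lit 0) (XT.lf (nat_lit 0) (nat_lit 566174888) (nat_lit 684) (nat_lit 2249631673) (nat_lit 0) (nat_lit 566174888) (nat_lit 222) (nat_lit 5) (nat_lit 231) (nat_lit 4) (nat_lit 222) (nat_lit 4) (nat_lit 250) (nat_lit 235) (nat_lit 235)) (XT.nd (nat_lit 78) (nat_lit 836) (nat_lit 0) (XT.lf (nat_lit 0) (nat_lit 1889386137) (nat_lit 684) (nat_lit 4017205667) (nat_lit 684) (nat_lit 927586816) (nat_lit 213) (nat_lit 4) (nat_lit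 222) (nat_lit 5) (nat_lit 222) (nat_lit 4) (nat_lit 251) (nat_lit 235) (nat_lit 234)) (XT.lf (nat_lit 0) (nat_lit 1559177625) (nat_lit 760) (nat_lit 2180374403) (nat_lit 836) (nat_lit 3173901054) (nat_lit 202) (nat_lit 5) (nat_lit 212) (nat_lit 5) (nat_lit 213) (nat_lit 4) (nat_lit 252) (nat_lit 235) (nat_lit 233))))))) (XT.nd (nat_lit 858) (nat_lit 3800) (nat_lit 0) (XT.nd (nat_lit 390) (nat_lit 2660) (nat_lit 0) (XT.nd (nat_lit 156) (nat_lit 2888) (nat_lit 0) (XT.nd (nat_lit 78) (nat_lit 912) (nat_lit 0) (XT.lf (nat_lit 0) (nat_lit 1279340266) (nat_lit 836) (nat_lit 128511344) (nat_lit 912) (nat_lit 5594466105) (nat_lit 190) (nat_lit 5) (nat_lit 201) (nat_lit 5) (nat_lit 202) (nat_lit 5) (nat_lit 253) (nat_lit 235) (nat_lit 232)) (XT.lf (nat_lit 0) (nat_lit 1011478535) (nat_lit 912) (nat_lit 4988445032) (nat_lit 988) (nat_lit 1100137366) (nat_lit 178) (nat_lit 5) (nat_lit 190) (nat_lit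 5) (nat_lit 191) (nat_lit 4) (nat_lit 254) (nat_lit 235) (nat_lit 231))) (XT.nd (nat_lit 78) (nat_lit 1824) (nat_lit 0) (XT.lf (nat_lit 0) (nat_lit 761688025) (nat_lit 988) (nat_lit 2622435668) (nat_lit 1064) (nat_lit 3823174167) (nat_lit 164) (nat_lit 5) (nat_lit 177) (nat_lit 5) (nat_lit 178) (nat_lit 5) (nat_lit 255) (nat_lit 235) (nat_lit 230)) (XT.nd (nat_lit 78) (nat_lit 684) (nat_lit 0) (XT.lf (nat_lit 0) (nat_lit 538609016) (nat_lit 1064) (nat_lit 39462147) (nat_lit 1140) (nat_lit 6746679773) (nat_lit 149) (nat_lit 5) (nat_lit 163) (nat_lit 5) (nat_lit 164) (nat_lit 5) (nat_lit 256) (nat_lit 235) (nat_lit 229)) (XT.lf (nat_lit 0) (nat_lit 283467608) (nat_lit 684) (nat_lit 4715670645) (nat_lit 760) (nat_lit 2452076557) (nat_lit 140) (nat_lit 5) (nat_lit 149) (nat_lit 5) (nat_lit 150) (nat_lit 5) (nat_lit 257) (nat_lit 235) (nat_lit 228))))) (XT.nd (nat_lit 234) (nat_lit 1444) (nat_lit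 0) (XT.nd (nat_lit 78) (nat_lit 608) (nat_lit 0) (XT.lf (nat_lit 0) (nat_lit 29843317) (nat_lit 532) (nat_lit 1846821802) (nat_lit 608) (nat_lit 5711547382) (nat_lit 132) (nat_lit 5) (nat_lit 139) (nat_lit 5) (nat_lit 140) (nat_lit 5) (nat_lit 258) (nat_lit 235) (nat_lit 227)) (XT.nd (nat_lit 78) (nat_lit 608) (nat_lit 0) (XT.lf (nat_lit 0) (nat_lit 6253638121) (nat_lit 608) (nat_lit 246173979) (nat_lit 76) (nat_lit 1235606786) (nat_lit 132) (nat_lit 5) (nat_lit 140) (nat_lit 5) (nat_lit 133) (nat_lit 5) (nat_lit 259) (nat_lit 235) (nat_lit 226)) (XT.lf (nat_lit 0) (nat_lit 2795470932) (nat_lit 608) (nat_lit 571074508) (nat_lit 76) (nat_lit 4526294279) (nat_lit 124) (nat_lit 5) (nat_lit 132) (nat_lit 5) (nat_lit 125) (nat_lit 5) (nat_lit 260) (nat_lit 235) (nat_lit 225)))) (XT.nd (nat_lit 78) (nat_lit 988) (nat_lit 0) (XT.lf (nat_lit 0) (nat_lit 7134670608) (nat_lit 456) (nat_lit 3673013)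 (nat_lit 532) (nat_lit 923370939) (nat_lit 118) (nat_lit 5) (nat_lit 124) (nat_lit 5) (nat_lit 125) (nat_lit 5) (nat_lit 261) (nat_lit 235) (nat_lit 224)) (XT.nd (nat_lit 78) (nat_lit 456) (nat_lit 0) (XT.lf (nat_lit 0) (nat_lit 3314631315) (nat_lit 532) (nat_lit 1379584067) (nat_lit 76) (nat_lit 3546593815) (nat_lit 111) (nat_lit 5) (nat_lit 118) (nat_lit 5) (nat_lit 112) (nat_lit 5) (nat_lit 262) (nat_lit 235) (nat_lit 223)) (XT.lf (nat_lit 0) (nat_lit 6545216073) (nat_lit 456) (nat_lit 1095476816) (nat_lit 532) (nat_lit 791469823) (nat_lit 105) (nat_lit 5) (nat_lit 111) (nat_lit 5) (nat_lit 112) (nat_lit 5) (nat_lit 263) (nat_lit 235) (nat_lit 222)))))) (XT.nd (nat_lit 390) (nat_lit 1596) (nat_lit 0) (XT.nd (nat_lit 156) (nat_lit 1292) (nat_lit 0) (XT.nd (nat_lit 78) (nat_lit 380) (nat_lit 0) (XT.lf (nat_lit 0) (nat_lit 3407672801) (nat_lit 532) (nat_lit 2514720277) (nat_lit 76) (nat_lit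 2712261163) (nat_lit 98) (nat_lit 5) (nat_lit 105) (nat_lit 5) (nat_lit 99) (nat_lit 5) (nat_lit 264) (nat_lit 235) (nat_lit 221)) (XT.lf (nat_lit 0) (nat_lit 5609983160) (nat_lit 380) (nat_lit 2108213343) (nat_lit 456) (nat_lit 1131689001) (nat_lit 93) (nat_lit 5) (nat_lit 98) (nat_lit 5) (nat_lit 99) (nat_lit 5) (nat_lit 265) (nat_lit 235) (nat_lit 220))) (XT.nd (nat_lit 78) (nat_lit 836) (nat_lit 0) (XT.lf (nat_lit 0) (nat_lit 3036721952) (nat_lit 456) (nat_lit 4109950859) (nat_lit 76) (nat_lit 1930741516) (nat_lit 87) (nat_lit 5) (nat_lit 93) (nat_lit 5) (nat_lit 88) (nat_lit 5) (nat_lit 266) (nat_lit 235) (nat_lit 219)) (XT.nd (nat_lit 78) (nat_lit 456) (nat_lit 0) (XT.lf (nat_lit 0) (nat_lit 4189258484) (nat_lit 380) (nat_lit 3139073087) (nat_lit 456) (nat_lit 1989844558) (nat_lit 82) (nat_lit 5) (nat_lit 87) (nat_lit 5) (nat_lit 88) (nat_lit 5) (nat_lit 267) (nat_lit 235) (nat_lit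 218)) (XT.lf (nat_lit 0) (nat_lit 2150895877) (nat_lit 456) (nat_lit 6317431746) (nat_lit 76) (nat_lit 1104362734) (nat_lit 76) (nat_lit 5) (nat_lit 82) (nat_lit 5) (nat_lit 77) (nat_lit 5) (nat_lit 268) (nat_lit 235) (nat_lit 217))))) (XT.nd (nat_lit 234) (nat_lit 912) (nat_lit 0) (XT.nd (nat_lit 78) (nat_lit 380) (nat_lit 0) (XT.lf (nat_lit 0) (nat_lit 2123099832) (nat_lit 304) (nat_lit 4291874043) (nat_lit 380) (nat_lit 3425939578) (nat_lit 72) (nat_lit 5) (nat_lit 76) (nat_lit 5) (nat_lit 77) (nat_lit 5) (nat_lit 269) (nat_lit 235) (nat_lit 216)) (XT.nd (nat_lit 78) (nat_lit 0) (nat_lit 0) (XT.lf (nat_lit 0) (nat_lit 684661366) (nat_lit 380) (nat_lit 9312204247) (nat_lit 76) (nat_lit 127836294) (nat_lit 67) (nat_lit 5) (nat_lit 72) (nat_lit 5) (nat_lit 68) (nat_lit 5) (nat_lit 270) (nat_lit 235) (nat_lit 215)) (XT.lf (nat_lit 0) (nat_lit 4914039535) (nat_lit 380) (nat_lit 758034001)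 (nat_lit 76) (nat_lit 4750327867) (nat_lit 67) (nat_lit 5) (nat_lit 72) (nat_lit 5) (nat_lit 68) (nat_lit 5) (nat_lit 271) (nat_lit 235) (nat_lit 214)))) (XT.nd (nat_lit 78) (nat_lit 608) (nat_lit 0) (XT.lf (nat_lit 0) (nat_lit 8203294490) (nat_lit 304) (nat_lit 1097007777) (nat_lit 380) (nat_lit 1436570900) (nat_lit 63) (nat_lit 5) (nat_lit 67) (nat_lit 5) (nat_lit 68) (nat_lit 5) (nat_lit 272) (nat_lit 235) (nat_lit 213)) (XT.nd (nat_lit 78) (nat_lit 228) (nat_lit 0) (XT.lf (nat_lit 0) (nat_lit 2759465160) (nat_lit 380) (nat_lit 4621863550) (nat_lit 76) (nat_lit 3685870572) (nat_lit 58) (nat_lit 5) (nat_lit 63) (nat_lit 5) (nat_lit 59) (nat_lit 5) (nat_lit 273) (nat_lit 235) (nat_lit 212)) (XT.lf (nat_lit 0) (nat_lit 4396136717) (nat_lit 228) (nat_lit 2693205440) (nat_lit 304) (nat_lit 4325880296) (nat_lit 55) (nat_lit 5) (nat_lit 58) (nat_lit 5) (nat_lit 59) (nat_lit 5) (nat_lit 274)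 (nat_lit 235) (nat_lit 211))))))))
noncomputable def xc40 : XT := (XT.nd (nat_lit 1638) (nat_lit 836) (nat_lit 0) (XT.nd (nat_lit 780) (nat_lit 1064) (nat_lit 0) (XT.nd (nat_lit 390) (nat_lit 684) (nat_lit 0) (XT.nd (nat_lit 156) (nat_lit 760) (nat_lit 0) (XT.nd (nat_lit 78) (nat_lit 76) (nat_lit 0) (XT.lf (nat_lit 0) (nat_lit 2024995871) (nat_lit 304) (nat_lit 9577345706) (nat_lit 380) (nat_lit 179515819) (nat_lit 51) (nat_lit 5) (nat_lit 55) (nat_lit 5) (nat_lit 56) (nat_lit 5) (nat_lit 275) (nat_lit 235) (nat_lit 210)) (XT.lf (nat_lit 0) (nat_lit 4073377316) (nat_lit 380) (nat_lit 737294032) (nat_lit 76) (nat_lit 7355722779) (nat_lit 50) (nat_lit 5) (nat_lit 55) (nat_lit 5) (nat_lit 51) (nat_lit 5) (nat_lit 276) (nat_lit 235) (nat_lit 209))) (XT.nd (nat_lit 78) (nat_lit 532) (nat_lit 0) (XT.lf (nat_lit 0) (nat_lit 8507659233) (nat_lit 304) (nat_lit 3835828399) (nat_lit 76) (nat_lit 227627501)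 (nat_lit 47) (nat_lit 5) (nat_lit 51) (nat_lit 5) (nat_lit 48) (nat_lit 5) (nat_lit 277) (nat_lit 235) (nat_lit 208)) (XT.nd (nat_lit 78) (nat_lit 228) (nat_lit 0) (XT.lf (nat_lit 0) (nat_lit 163784884) (nat_lit 304) (nat_lit 7398817969) (nat_lit 76) (nat_lit 5433607411) (nat_lit 43) (nat_lit 5) (nat_lit 47) (nat_lit 5) (nat_lit 44) (nat_lit 5) (nat_lit 278) (nat_lit 235) (nat_lit 207)) (XT.lf (nat_lit 0) (nat_lit 1977961159) (nat_lit 228) (nat_lit 2492184328) (nat_lit 304) (nat_lit 8972816249) (nat_lit 40) (nat_lit 5) (nat_lit 43) (nat_lit 5) (nat_lit 44) (nat_lit 5) (nat_lit 279) (nat_lit 235) (nat_lit 206))))) (XT.nd (nat_lit 156) (nat_lit 456) (nat_lit 0) (XT.nd (nat_lit 78) (nat_lit 228) (nat_lit 0) (XT.lf (nat_lit 0) (nat_lit 8991233046) (nat_lit 304) (nat_lit 2118027837) (nat_lit 76) (nat_lit 2802962335) (nat_lit 40) (nat_lit 5) (nat_lit 44) (nat_lit 5) (nat_lit 41) (nat_lit 5) (nat_lit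 280) (nat_lit 235) (nat_lit 205)) (XT.lf (nat_lit 0) (nat_lit 7669872735) (nat_lit 228) (nat_lit 6067641078) (nat_lit 304) (nat_lit 667607132) (nat_lit 37) (nat_lit 5) (nat_lit 40) (nat_lit 5) (nat_lit 41) (nat_lit 5) (nat_lit 281) (nat_lit 235) (nat_lit 204))) (XT.nd (nat_lit 78) (nat_lit 228) (nat_lit 0) (XT.lf (nat_lit 0) (nat_lit 2941404449) (nat_lit 152) (nat_lit 735718370) (nat_lit 228) (nat_lit 11245997613) (nat_lit 34) (nat_lit 5) (nat_lit 36) (nat_lit 5) (nat_lit 37) (nat_lit 5) (nat_lit 282) (nat_lit 235) (nat_lit 203)) (XT.nd (nat_lit 78) (nat_lit 228) (nat_lit 0) (XT.lf (nat_lit 0) (nat_lit 8247451980) (nat_lit 228) (nat_lit 2423368388) (nat_lit 76) (nat_lit 4795465876) (nat_lit 34) (nat_lit 5) (nat_lit 37) (nat_lit 5) (nat_lit 35) (nat_lit 5) (nat_lit 283) (nat_lit 235) (nat_lit 202)) (XT.lf (nat_lit 0) (nat_lit 7614149214) (nat_lit 228) (nat_lit 5422554011) (nat_lit 304) (nat_lit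 3000318521) (nat_lit 31) (nat_lit 5) (nat_lit 34) (nat_lit 5) (nat_lit 35) (nat_lit 5) (nat_lit 284) (nat_lit 235) (nat_lit 201)))))) (XT.nd (nat_lit 390) (nat_lit 456) (nat_lit 0) (XT.nd (nat_lit 156) (nat_lit 380) (nat_lit 0) (XT.nd (nat_lit 78) (nat_lit 0) (nat_lit 0) (XT.lf (nat_lit 0) (nat_lit 1353012484) (nat_lit 228) (nat_lit 15193271153) (nat_lit 76) (nat_lit 91159212) (nat_lit 28) (nat_lit 5) (nat_lit 31) (nat_lit 5) (nat_lit 29) (nat_lit 5) (nat_lit 285) (nat_lit 235) (nat_lit 200)) (XT.lf (nat_lit 0) (nat_lit 5919077236) (nat_lit 228) (nat_lit 5506587587) (nat_lit 76) (nat_lit 5839724264) (nat_lit 28) (nat_lit 5) (nat_lit 31) (nat_lit 5) (nat_lit 29) (nat_lit 5) (nat_lit 286) (nat_lit 235) (nat_lit 199))) (XT.nd (nat_lit 78) (nat_lit 228) (nat_lit 0) (XT.lf (nat_lit 0) (nat_lit 4625147643) (nat_lit 152) (nat_lit 6051086758) (nat_lit 228) (nat_lit 7249718194) (nat_lit 26) (nat_lit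 5) (nat_lit 28) (nat_lit 5) (nat_lit 29) (nat_lit 5) (nat_lit 287) (nat_lit 235) (nat_lit 198)) (XT.nd (nat_lit 78) (nat_lit 228) (nat_lit 0) (XT.lf (nat_lit 0) (nat_lit 15252718434) (nat_lit 152) (nat_lit 396225470) (nat_lit 228) (nat_lit 2971368240) (nat_lit 26) (nat_lit 5) (nat_lit 28) (nat_lit 5) (nat_lit 29) (nat_lit 5) (nat_lit 288) (nat_lit 235) (nat_lit 197)) (XT.lf (nat_lit 0) (nat_lit 1536706680) (nat_lit 228) (nat_lit 12338867865) (nat_lit 76) (nat_lit 5472103222) (nat_lit 23) (nat_lit 5) (nat_lit 26) (nat_lit 5) (nat_lit 24) (nat_lit 5) (nat_lit 289) (nat_lit 235) (nat_lit 196))))) (XT.nd (nat_lit 234) (nat_lit 304) (nat_lit 0) (XT.nd (nat_lit 78) (nat_lit 152) (nat_lit 0) (XT.lf (nat_lit 0) (nat_lit 6174308240) (nat_lit 228) (nat_lit 2290121346) (nat_lit 76) (nat_lit 11647219154) (nat_lit 23) (nat_lit 5) (nat_lit 26) (nat_lit 5) (nat_lit 24) (nat_lit 5) (nat_lit 290) (nat_lit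 235) (nat_lit 195)) (XT.nd (nat_lit 78) (nat_lit 0) (nat_lit 0) (XT.lf (nat_lit 0) (nat_lit 8309085544) (nat_lit 152) (nat_lit 2744095641) (nat_lit 228) (nat_lit 9860438115) (nat_lit 21) (nat_lit 5) (nat_lit 23) (nat_lit 5) (nat_lit 24) (nat_lit 5) (nat_lit 291) (nat_lit 235) (nat_lit 194)) (XT.lf (nat_lit 0) (nat_lit 16162564724) (nat_lit 228) (nat_lit 2413024264) (nat_lit 76) (nat_lit 3180581227) (nat_lit 21) (nat_lit 5) (nat_lit 24) (nat_lit 5) (nat_lit 22) (nat_lit 4) (nat_lit 292) (nat_lit 235) (nat_lit 193)))) (XT.nd (nat_lit 78) (nat_lit 228) (nat_lit 0) (XT.lf (nat_lit 0) (nat_lit 8315427346) (nat_lit 76) (nat_lit 13254286520) (nat_lit 152) (nat_lit 1069940997) (nat_lit 20) (nat_lit 5) (nat_lit 21) (nat_lit 5) (nat_lit 22) (nat_lit 4) (nat_lit 293) (nat_lit 235) (nat_lit 192)) (XT.nd (nat_lit 78) (nat_lit 152) (nat_lit 0) (XT.lf (nat_lit 0) (nat_lit 3569265105) (nat_lit 152) (nat_lit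 4076930486) (nat_lit 76) (nat_lit 15921291372) (nat_lit 19) (nat_lit 5) (nat_lit 21) (nat_lit 5) (nat_lit 20) (nat_lit 5) (nat_lit 294) (nat_lit 235) (nat_lit 191)) (XT.lf (nat_lit 0) (nat_lit 6702270875) (nat_lit 152) (nat_lit 1719789142) (nat_lit 228) (nat_lit 16119286269) (nat_lit 17) (nat_lit 5) (nat_lit 19) (nat_lit 5) (nat_lit 20) (nat_lit 5) (nat_lit 295) (nat_lit 235) (nat_lit 190))))))) (XT.nd (nat_lit 780) (nat_lit 456) (nat_lit 0) (XT.nd (nat_lit 390) (nat_lit 76) (nat_lit 0) (XT.nd (nat_lit 156) (nat_lit 228) (nat_lit 0) (XT.nd (nat_lit 78) (nat_lit 76) (nat_lit 0) (XT.lf (nat_lit 0) (nat_lit 13543877494) (nat_lit 228) (nat_lit 7599738237) (nat_lit 76) (nat_lit 4419554327) (nat_lit 17) (nat_lit 5) (nat_lit 20) (nat_lit 5) (nat_lit 18) (nat_lit 4) (nat_lit 296) (nat_lit 235) (nat_lit 189)) (XT.lf (nat_lit 0) (nat_lit 3100396638) (nat_lit 76) (nat_lit 15812087409) (nat_lit 152)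 (nat_lit 7723939996) (nat_lit 16) (nat_lit 5) (nat_lit 17) (nat_lit 5) (nat_lit 18) (nat_lit 4) (nat_lit 297) (nat_lit 235) (nat_lit 188))) (XT.nd (nat_lit 78) (nat_lit 228) (nat_lit 0) (XT.lf (nat_lit 0) (nat_lit 14402743020) (nat_lit 76) (nat_lit 10170355678) (nat_lit 152) (nat_lit 3189591810) (nat_lit 16) (nat_lit 5) (nat_lit 17) (nat_lit 5) (nat_lit 18) (nat_lit 4) (nat_lit 298) (nat_lit 235) (nat_lit 187)) (XT.nd (nat_lit 78) (nat_lit 152) (nat_lit 0) (XT.lf (nat_lit 0) (nat_lit 1488187750) (nat_lit 152) (nat_lit 2778514770) (nat_lit 76) (nat_lit 24679746035) (nat_lit 15) (nat_lit 5) (nat_lit 17) (nat_lit 5) (nat_lit 16) (nat_lit 5) (nat_lit 299) (nat_lit 235) (nat_lit 186)) (XT.lf (nat_lit 0) (nat_lit 6384296371) (nat_lit 228) (nat_lit 21827762458) (nat_lit 76) (nat_lit 1974926396) (nat_lit 13) (nat_lit 5) (nat_lit 16) (nat_lit 5) (nat_lit 14) (nat_lit 4) (nat_lit 300) (nat_lit 235)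 (nat_lit 185))))) (XT.nd (nat_lit 156) (nat_lit 76) (nat_lit 0) (XT.nd (nat_lit 78) (nat_lit 0) (nat_lit 0) (XT.lf (nat_lit 0) (nat_lit 11548327248) (nat_lit 228) (nat_lit 11503039321) (nat_lit 76) (nat_lit 8437536556) (nat_lit 13) (nat_lit 5) (nat_lit 16) (nat_lit 5) (nat_lit 14) (nat_lit 4) (nat_lit 301) (nat_lit 235) (nat_lit 184)) (XT.lf (nat_lit 0) (nat_lit 16924051491) (nat_lit 228) (nat_lit 741042482) (nat_lit 76) (nat_lit 15192263812) (nat_lit 13) (nat_lit 5) (nat_lit 16) (nat_lit 5) (nat_lit 14) (nat_lit 4) (nat_lit 302) (nat_lit 235) (nat_lit 183))) (XT.nd (nat_lit 78) (nat_lit 0) (nat_lit 0) (XT.lf (nat_lit 0) (nat_lit 10692501069) (nat_lit 76) (nat_lit 11934550236) (nat_lit 152) (nat_lit 11665472638) (nat_lit 12) (nat_lit 5) (nat_lit 13) (nat_lit 5) (nat_lit 14) (nat_lit 4) (nat_lit 303) (nat_lit 235) (nat_lit 182)) (XT.nd (nat_lit 78) (nat_lit 0) (nat_lit 0) (XT.lf (nat_lit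 0) (nat_lit 22640160729) (nat_lit 76) (nat_lit 5939782302) (nat_lit 152) (nat_lit 7220604500) (nat_lit 12) (nat_lit 5) (nat_lit 13) (nat_lit 5) (nat_lit 14) (nat_lit 4) (nat_lit 304) (nat_lit 235) (nat_lit 181)) (XT.lf (nat_lit 0) (nat_lit 34792768809) (nat_lit 152) (nat_lit 2272735638) (nat_lit 0) (nat_lit 319638574) (nat_lit 12) (nat_lit 5) (nat_lit 14) (nat_lit 4) (nat_lit 12) (nat_lit 4) (nat_lit 305) (nat_lit 235) (nat_lit 180)))))) (XT.nd (nat_lit 390) (nat_lit 152) (nat_lit 0) (XT.nd (nat_lit 156) (nat_lit 76) (nat_lit 0) (XT.nd (nat_lit 78) (nat_lit 0) (nat_lit 0) (XT.lf (nat_lit 0) (nat_lit 2333410706) (nat_lit 228) (nat_lit 29856695329) (nat_lit 76) (nat_lit 6854933288) (nat_lit 9) (nat_lit 5) (nat_lit 12) (nat_lit 5) (nat_lit 10) (nat_lit 4) (nat_lit 306) (nat_lit 235) (nat_lit 179)) (XT.lf (nat_lit 0) (nat_lit 7437661095) (nat_lit 228) (nat_lit 19609723066) (nat_lit 76) (nat_lit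 13740237256) (nat_lit 9) (nat_lit 5) (nat_lit 12) (nat_lit 5) (nat_lit 10) (nat_lit 4) (nat_lit 307) (nat_lit 235) (nat_lit 178))) (XT.nd (nat_lit 78) (nat_lit 76) (nat_lit 0) (XT.lf (nat_lit 0) (nat_lit 12760614156) (nat_lit 228) (nat_lit 8913324569) (nat_lit 76) (nat_lit 20944522236) (nat_lit 9) (nat_lit 5) (nat_lit 12) (nat_lit 5) (nat_lit 10) (nat_lit 4) (nat_lit 308) (nat_lit 235) (nat_lit 177)) (XT.nd (nat_lit 78) (nat_lit 0) (nat_lit 0) (XT.lf (nat_lit 0) (nat_lit 2302905764) (nat_lit 76) (nat_lit 16034174761) (nat_lit 152) (nat_lit 26204172464) (nat_lit 8) (nat_lit 5) (nat_lit 9) (nat_lit 5) (nat_lit 10) (nat_lit 4) (nat_lit 309) (nat_lit 235) (nat_lit 176)) (XT.lf (nat_lit 0) (nat_lit 14208001576) (nat_lit 76) (nat_lit 10042448407) (nat_lit 152) (nat_lit 22308022221) (nat_lit 8) (nat_lit 5) (nat_lit 9) (nat_lit 5) (nat_lit 10) (nat_lit 4) (nat_lit 310) (nat_lit 235) (nat_lit 175)))))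 (XT.nd (nat_lit 234) (nat_lit 152) (nat_lit 0) (XT.nd (nat_lit 78) (nat_lit 0) (nat_lit 0) (XT.lf (nat_lit 0) (nat_lit 26652915697) (nat_lit 76) (nat_lit 3774500748) (nat_lit 152) (nat_lit 18250126628) (nat_lit 8) (nat_lit 5) (nat_lit 9) (nat_lit 5) (nat_lit 10) (nat_lit 4) (nat_lit 311) (nat_lit 235) (nat_lit 174)) (XT.nd (nat_lit 78) (nat_lit 0) (nat_lit 0) (XT.lf (nat_lit 0) (nat_lit 36909454176) (nat_lit 152) (nat_lit 11262999331) (nat_lit 0) (nat_lit 2730254481) (nat_lit 8) (nat_lit 5) (nat_lit 10) (nat_lit 4) (nat_lit 8) (nat_lit 4) (nat_lit 312) (nat_lit 235) (nat_lit 173)) (XT.lf (nat_lit 0) (nat_lit 43724397258) (nat_lit 152) (nat_lit 52364229) (nat_lit 0) (nat_lit 9462131454) (nat_lit 8) (nat_lit 5) (nat_lit 10) (nat_lit 4) (nat_lit 8) (nat_lit 4) (nat_lit 313) (nat_lit 235) (nat_lit 172)))) (XT.nd (nat_lit 78) (nat_lit 76) (nat_lit 0) (XT.lf (nat_lit 0) (nat_lit 11902513640) (nat_lit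 76) (nat_lit 39064089539) (nat_lit 76) (nat_lit 4722713155) (nat_lit 7) (nat_lit 4) (nat_lit 8) (nat_lit 5) (nat_lit 8) (nat_lit 4) (nat_lit 314) (nat_lit 235) (nat_lit 171)) (XT.nd (nat_lit 78) (nat_lit 0) (nat_lit 0) (XT.lf (nat_lit 0) (nat_lit 275865884) (nat_lit 152) (nat_lit 33856712047) (nat_lit 76) (nat_lit 24130419847) (nat_lit 6) (nat_lit 5) (nat_lit 8) (nat_lit 5) (nat_lit 7) (nat_lit 4) (nat_lit 315) (nat_lit 235) (nat_lit 170)) (XT.lf (nat_lit 0) (nat_lit 5401595584) (nat_lit 152) (nat_lit 23523236386) (nat_lit 76) (nat_lit 32039903417) (nat_lit 6) (nat_lit 5) (nat_lit 8) (nat_lit 5) (nat_lit 7) (nat_lit 4) (nat_lit 316) (nat_lit 235) (nat_lit 169))))))))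
noncomputable def xc41 : XT := (XT.nd (nat_lit 32682) (nat_lit 0) (nat_lit 3876) (XT.nd (nat_lit 780) (nat_lit 0) (nat_lit 0) (XT.nd (nat_lit 390) (nat_lit 76) (nat_lit 0) (XT.nd (nat_lit 156) (nat_lit 76) (nat_lit 0) (XT.nd (nat_lit 78) (nat_lit 0) (nat_lit 0) (XT.lf (nat_lit 0) (nat_lit 10758837204) (nat_lit 152) (nat_lit 12716374590) (nat_lit 76) (nat_lit 40327112002) (nat_lit 6) (nat_lit 5) (nat_lit 8) (nat_lit 5) (nat_lit 7) (nat_lit 4) (nat_lit 317) (nat_lit 235) (nat_lit 168)) (XT.lf (nat_lit 0) (nat_lit 16360346083) (nat_lit 152) (nat_lit 1410396036) (nat_lit 76) (nat_lit 49011777052) (nat_lit 6) (nat_lit 5) (nat_lit 8) (nat_lit 5) (nat_lit 7) (nat_lit 4) (nat_lit 318) (nat_lit 235) (nat_lit 167))) (XT.nd (nat_lit 78) (nat_lit 0) (nat_lit 0) (XT.lf (nat_lit 0) (nat_lit 10629028911) (nat_lit 76) (nat_lit 11692602964) (nat_lit 152) (nat_lit 47587720156) (nat_lit 5) (nat_lit 5) (nat_lit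 6) (nat_lit 5) (nat_lit 7) (nat_lit 4) (nat_lit 319) (nat_lit 235) (nat_lit 166)) (XT.nd (nat_lit 78) (nat_lit 0) (nat_lit 0) (XT.lf (nat_lit 0) (nat_lit 23261760533) (nat_lit 76) (nat_lit 5311972404) (nat_lit 152) (nat_lit 44619028936) (nat_lit 5) (nat_lit 5) (nat_lit 6) (nat_lit 5) (nat_lit 7) (nat_lit 4) (nat_lit 320) (nat_lit 235) (nat_lit 165)) (XT.lf (nat_lit 0) (nat_lit 35130897269) (nat_lit 152) (nat_lit 40164363503) (nat_lit 0) (nat_lit 1345324704) (nat_lit 5) (nat_lit 5) (nat_lit 7) (nat_lit 4) (nat_lit 5) (nat_lit 4) (nat_lit 321) (nat_lit 235) (nat_lit 164))))) (XT.nd (nat_lit 156) (nat_lit 76) (nat_lit 0) (XT.nd (nat_lit 78) (nat_lit 0) (nat_lit 0) (XT.lf (nat_lit 0) (nat_lit 42049648076) (nat_lit 152) (nat_lit 29998066619) (nat_lit 0) (nat_lit 8212089924) (nat_lit 5) (nat_lit 5) (nat_lit 7) (nat_lit 4) (nat_lit 5) (nat_lit 4) (nat_lit 322) (nat_lit 235) (nat_lit 163)) (XT.lf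 (nat_lit 0) (nat_lit 49295396646) (nat_lit 152) (nat_lit 19356843290) (nat_lit 0) (nat_lit 15408328411) (nat_lit 5) (nat_lit 5) (nat_lit 7) (nat_lit 4) (nat_lit 5) (nat_lit 4) (nat_lit 323) (nat_lit 235) (nat_lit 162))) (XT.nd (nat_lit 78) (nat_lit 76) (nat_lit 0) (XT.lf (nat_lit 0) (nat_lit 56885394761) (nat_lit 152) (nat_lit 8215357270) (nat_lit 0) (nat_lit 22951174066) (nat_lit 5) (nat_lit 5) (nat_lit 7) (nat_lit 4) (nat_lit 5) (nat_lit 4) (nat_lit 324) (nat_lit 235) (nat_lit 161)) (XT.nd (nat_lit 78) (nat_lit 0) (nat_lit 0) (XT.lf (nat_lit 0) (nat_lit 3521638641) (nat_lit 76) (nat_lit 61349927349) (nat_lit 76) (nat_lit 27370799549) (nat_lit 4) (nat_lit 4) (nat_lit 5) (nat_lit 5) (nat_lit 5) (nat_lit 4) (nat_lit 325) (nat_lit 235) (nat_lit 160)) (XT.lf (nat_lit 0) (nat_lit 15987744982) (nat_lit 76) (nat_lit 57337226995) (nat_lit 76) (nat_lit 23315330524) (nat_lit 4) (nat_lit 4) (nat_lit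 5) (nat_lit 5) (nat_lit 5) (nat_lit 4) (nat_lit 326) (nat_lit 235) (nat_lit 159)))))) (XT.nd (nat_lit 31434) (nat_lit 0) (nat_lit 13148) (XT.nd (nat_lit 156) (nat_lit 0) (nat_lit 0) (XT.nd (nat_lit 78) (nat_lit 0) (nat_lit 0) (XT.lf (nat_lit 0) (nat_lit 29049141240) (nat_lit 76) (nat_lit 53136055920) (nat_lit 76) (nat_lit 19073427381) (nat_lit 4) (nat_lit 4) (nat_lit 5) (nat_lit 5) (nat_lit 5) (nat_lit 4) (nat_lit 327) (nat_lit 235) (nat_lit 158)) (XT.lf (nat_lit 0) (nat_lit 42736925977) (nat_lit 76) (nat_lit 48736411337) (nat_lit 76) (nat_lit 14634990352) (nat_lit 4) (nat_lit 4) (nat_lit 5) (nat_lit 5) (nat_lit 5) (nat_lit 4) (nat_lit 328) (nat_lit 235) (nat_lit 157))) (XT.nd (nat_lit 78) (nat_lit 0) (nat_lit 0) (XT.lf (nat_lit 0) (nat_lit 57083689157) (nat_lit 76) (nat_lit 44127817901) (nat_lit 76) (nat_lit 9989451730) (nat_lit 4) (nat_lit 4) (nat_lit 5) (nat_lit 5) (nat_lit 5) (nat_lit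 4) (nat_lit 329) (nat_lit 235) (nat_lit 156)) (XT.nd (nat_lit 31122) (nat_lit 0) (nat_lit 17784) (XT.lf (nat_lit 0) (nat_lit 72123589740) (nat_lit 76) (nat_lit 39299302770) (nat_lit 76) (nat_lit 5125750708) (nat_lit 4) (nat_lit 4) (nat_lit 5) (nat_lit 5) (nat_lit 5) (nat_lit 4) (nat_lit 330) (nat_lit 235) (nat_lit 155)) (XT.lf (nat_lit 0) (nat_lit 823208027) (nat_lit 532) (nat_lit 1676716838) (nat_lit 0) (nat_lit 823208027) (nat_lit 238) (nat_lit 5) (nat_lit 245) (nat_lit 4) (nat_lit 238) (nat_lit 4) (nat_lit 248) (nat_lit 236) (nat_lit 236))))) (XT.nd (nat_lit 234) (nat_lit 2660) (nat_lit 0) (XT.nd (nat_lit 78) (nat_lit 1444) (nat_lit 0) (XT.lf (nat_lit 0) (nat_lit 2691671403) (nat_lit 532) (nat_lit 3676198404) (nat_lit 532) (nat_lit 334775617) (nat_lit 231) (nat_lit 4) (nat_lit 238) (nat_lit 5) (nat_lit 238) (nat_lit 4) (nat_lit 249) (nat_lit 236) (nat_lit 235)) (XT.nd (nat_lit 78) (nat_lit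 760) (nat_lit 0) (XT.lf (nat_lit 0) (nat_lit 2141878185) (nat_lit 608) (nat_lit 2126894419) (nat_lit 684) (nat_lit 2498890451) (nat_lit 222) (nat_lit 5) (nat_lit 230) (nat_lit 5) (nat_lit 231) (nat_lit 4) (nat_lit 250) (nat_lit 236) (nat_lit 234)) (XT.lf (nat_lit 0) (nat_lit 1654193202) (nat_lit 684) (nat_lit 365055899) (nat_lit 760) (nat_lit 4822713904) (nat_lit 212) (nat_lit 5) (nat_lit 221) (nat_lit 5) (nat_lit 222) (nat_lit 5) (nat_lit 251) (nat_lit 236) (nat_lit 233)))) (XT.nd (nat_lit 78) (nat_lit 1900) (nat_lit 0) (XT.lf (nat_lit 0) (nat_lit 1202935213) (nat_lit 760) (nat_lit 5339687139) (nat_lit 836) (nat_lit 382531328) (nat_lit 202) (nat_lit 5) (nat_lit 212) (nat_lit 5) (nat_lit 213) (nat_lit 4) (nat_lit 252) (nat_lit 236) (nat_lit 232)) (XT.nd (nat_lit 78) (nat_lit 988) (nat_lit 0) (XT.lf (nat_lit 0) (nat_lit 774008437) (nat_lit 836) (nat_lit 3250350629) (nat_lit 912) (nat_lit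 2992848629) (nat_lit 190) (nat_lit 5) (nat_lit 201) (nat_lit 5) (nat_lit 202) (nat_lit 5) (nat_lit 253) (nat_lit 236) (nat_lit 231)) (XT.lf (nat_lit 0) (nat_lit 385107396) (nat_lit 912) (nat_lit 947715712) (nat_lit 988) (nat_lit 5786229287) (nat_lit 177) (nat_lit 5) (nat_lit 189) (nat_lit 5) (nat_lit 190) (nat_lit 5) (nat_lit 254) (nat_lit 236) (nat_lit 230))))))) (XT.nd (nat_lit 780) (nat_lit 3268) (nat_lit 0) (XT.nd (nat_lit 390) (nat_lit 2508) (nat_lit 0) (XT.nd (nat_lit 156) (nat_lit 2432) (nat_lit 0) (XT.nd (nat_lit 78) (nat_lit 1064) (nat_lit 0) (XT.lf (nat_lit 0) (nat_lit 5671272313) (nat_lit 988) (nat_lit 1203717) (nat_lit 76) (nat_lit 1557563262) (nat_lit 177) (nat_lit 5) (nat_lit 190) (nat_lit 5) (nat_lit 178) (nat_lit 5) (nat_lit 255) (nat_lit 236) (nat_lit 229)) (XT.lf (nat_lit 0) (nat_lit 2688042128) (nat_lit 1064) (nat_lit 380027632) (nat_lit 76) (nat_lit 4282388597) (nat_lit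 163) (nat_lit 5) (nat_lit 177) (nat_lit 5) (nat_lit 164) (nat_lit 5) (nat_lit 256) (nat_lit 236) (nat_lit 228))) (XT.nd (nat_lit 78) (nat_lit 1368) (nat_lit 0) (XT.lf (nat_lit 0) (nat_lit 6732813260) (nat_lit 1064) (nat_lit 242055460) (nat_lit 1140) (nat_lit 506377404) (nat_lit 149) (nat_lit 5) (nat_lit 163) (nat_lit 5) (nat_lit 164) (nat_lit 5) (nat_lit 257) (nat_lit 236) (nat_lit 227)) (XT.nd (nat_lit 78) (nat_lit 608) (nat_lit 0) (XT.lf (nat_lit 0) (nat_lit 3676030684) (nat_lit 760) (nat_lit 1164594263) (nat_lit 76) (nat_lit 2780583071) (nat_lit 139) (nat_lit 5) (nat_lit 149) (nat_lit 5) (nat_lit 140) (nat_lit 5) (nat_lit 258) (nat_lit 236) (nat_lit 226)) (XT.lf (nat_lit 0) (nat_lit 159481220) (nat_lit 608) (nat_lit 1587299532) (nat_lit 76) (nat_lit 6025391871) (nat_lit 131) (nat_lit 5) (nat_lit 139) (nat_lit 5) (nat_lit 132) (nat_lit 5) (nat_lit 259) (nat_lit 236) (nat_lit 225))))) (XT.nd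 (nat_lit 156) (nat_lit 1444) (nat_lit 0) (XT.nd (nat_lit 78) (nat_lit 532) (nat_lit 0) (XT.lf (nat_lit 0) (nat_lit 4285542090) (nat_lit 608) (nat_lit 2073245437) (nat_lit 76) (nat_lit 1574288463) (nat_lit 124) (nat_lit 5) (nat_lit 132) (nat_lit 5) (nat_lit 125) (nat_lit 5) (nat_lit 260) (nat_lit 236) (nat_lit 224)) (XT.lf (nat_lit 0) (nat_lit 411465292) (nat_lit 532) (nat_lit 2603736142) (nat_lit 76) (nat_lit 5089962707) (nat_lit 117) (nat_lit 5) (nat_lit 124) (nat_lit 5) (nat_lit 118) (nat_lit 5) (nat_lit 261) (nat_lit 236) (nat_lit 223))) (XT.nd (nat_lit 78) (nat_lit 988) (nat_lit 0) (XT.lf (nat_lit 0) (nat_lit 4499308046) (nat_lit 532) (nat_lit 3212260939) (nat_lit 76) (nat_lit 576600476) (nat_lit 111) (nat_lit 5) (nat_lit 118) (nat_lit 5) (nat_lit 112) (nat_lit 5) (nat_lit 262) (nat_lit 236) (nat_lit 222)) (XT.nd (nat_lit 78) (nat_lit 456) (nat_lit 0) (XT.lf (nat_lit 0) (nat_lit 236536566)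 (nat_lit 532) (nat_lit 3905092723) (nat_lit 76) (nat_lit 4341067493) (nat_lit 104) (nat_lit 5) (nat_lit 111) (nat_lit 5) (nat_lit 105) (nat_lit 5) (nat_lit 263) (nat_lit 236) (nat_lit 221)) (XT.lf (nat_lit 0) (nat_lit 3986110066) (nat_lit 456) (nat_lit 306362773) (nat_lit 532) (nat_lit 4396507419) (nat_lit 98) (nat_lit 5) (nat_lit 104) (nat_lit 5) (nat_lit 105) (nat_lit 5) (nat_lit 264) (nat_lit 236) (nat_lit 220)))))) (XT.nd (nat_lit 390) (nat_lit 1596) (nat_lit 0) (XT.nd (nat_lit 156) (nat_lit 836) (nat_lit 0) (XT.nd (nat_lit 78) (nat_lit 456) (nat_lit 0) (XT.lf (nat_lit 0) (nat_lit 3286451561) (nat_lit 380) (nat_lit 5213699353) (nat_lit 456) (nat_lit 407324386) (nat_lit 93) (nat_lit 5) (nat_lit 98) (nat_lit 5) (nat_lit 99) (nat_lit 5) (nat_lit 265) (nat_lit 236) (nat_lit 219)) (XT.lf (nat_lit 0) (nat_lit 2457526158) (nat_lit 380) (nat_lit 1170535441) (nat_lit 456) (nat_lit 5510465299)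 (nat_lit 87) (nat_lit 5) (nat_lit 92) (nat_lit 5) (nat_lit 93) (nat_lit 5) (nat_lit 266) (nat_lit 236) (nat_lit 218))) (XT.nd (nat_lit 78) (nat_lit 456) (nat_lit 0) (XT.lf (nat_lit 0) (nat_lit 1485153293) (nat_lit 380) (nat_lit 6324210973) (nat_lit 456) (nat_lit 1573390756) (nat_lit 82) (nat_lit 5) (nat_lit 87) (nat_lit 5) (nat_lit 88) (nat_lit 5) (nat_lit 267) (nat_lit 236) (nat_lit 217)) (XT.nd (nat_lit 78) (nat_lit 0) (nat_lit 0) (XT.lf (nat_lit 0) (nat_lit 346260267) (nat_lit 380) (nat_lit 2102784298) (nat_lit 456) (nat_lit 7191555216) (nat_lit 76) (nat_lit 5) (nat_lit 81) (nat_lit 5) (nat_lit 82) (nat_lit 5) (nat_lit 268) (nat_lit 236) (nat_lit 216)) (XT.lf (nat_lit 0) (nat_lit 6603584932) (nat_lit 456) (nat_lit 964926889) (nat_lit 76) (nat_lit 2343735538) (nat_lit 76) (nat_lit 5) (nat_lit 82) (nat_lit 5) (nat_lit 77) (nat_lit 5) (nat_lit 269) (nat_lit 236) (nat_lit 215))))) (XT.nd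 (nat_lit 234) (nat_lit 608) (nat_lit 0) (XT.nd (nat_lit 78) (nat_lit 608) (nat_lit 0) (XT.lf (nat_lit 0) (nat_lit 713759436) (nat_lit 380) (nat_lit 2470765814) (nat_lit 76) (nat_lit 7014181388) (nat_lit 71) (nat_lit 5) (nat_lit 76) (nat_lit 5) (nat_lit 72) (nat_lit 5) (nat_lit 270) (nat_lit 236) (nat_lit 214)) (XT.nd (nat_lit 78) (nat_lit 304) (nat_lit 0) (XT.lf (nat_lit 0) (nat_lit 4822970567) (nat_lit 380) (nat_lit 4222460836) (nat_lit 76) (nat_lit 1454701577) (nat_lit 67) (nat_lit 5) (nat_lit 72) (nat_lit 5) (nat_lit 68) (nat_lit 5) (nat_lit 271) (nat_lit 236) (nat_lit 213)) (XT.lf (nat_lit 0) (nat_lit 4584334144) (nat_lit 304) (nat_lit 4528118728) (nat_lit 380) (nat_lit 1705171320) (nat_lit 63) (nat_lit 5) (nat_lit 67) (nat_lit 5) (nat_lit 68) (nat_lit 5) (nat_lit 272) (nat_lit 236) (nat_lit 212)))) (XT.nd (nat_lit 78) (nat_lit 228) (nat_lit 0) (XT.lf (nat_lit 0) (nat_lit 2364934107)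 (nat_lit 380) (nat_lit 8527316946) (nat_lit 76) (nat_lit 259819162) (nat_lit 58) (nat_lit 5) (nat_lit 63) (nat_lit 5) (nat_lit 59) (nat_lit 5) (nat_lit 273) (nat_lit 236) (nat_lit 211)) (XT.nd (nat_lit 78) (nat_lit 0) (nat_lit 0) (XT.lf (nat_lit 0) (nat_lit 329233530) (nat_lit 228) (nat_lit 6267856153) (nat_lit 304) (nat_lit 4906037525) (nat_lit 55) (nat_lit 5) (nat_lit 58) (nat_lit 5) (nat_lit 59) (nat_lit 5) (nat_lit 274) (nat_lit 236) (nat_lit 210)) (XT.lf (nat_lit 0) (nat_lit 9643346994) (nat_lit 228) (nat_lit 1369252055) (nat_lit 304) (nat_lit 860185120) (nat_lit 55) (nat_lit 5) (nat_lit 58) (nat_lit 5) (nat_lit 59) (nat_lit 5) (nat_lit 275) (nat_lit 236) (nat_lit 209))))))))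
noncomputable def xc42 : XT := (XT.nd (nat_lit 1638) (nat_lit 836) (nat_lit 0) (XT.nd (nat_lit 780) (nat_lit 1064) (nat_lit 0) (XT.nd (nat_lit 390) (nat_lit 684) (nat_lit 0) (XT.nd (nat_lit 156) (nat_lit 532) (nat_lit 0) (XT.nd (nat_lit 78) (nat_lit 228) (nat_lit 0) (XT.lf (nat_lit 0) (nat_lit 3315242219) (nat_lit 380) (nat_lit 5187932074) (nat_lit 76) (nat_lit 3757155322) (nat_lit 50) (nat_lit 5) (nat_lit 55) (nat_lit 5) (nat_lit 51) (nat_lit 5) (nat_lit 276) (nat_lit 236) (nat_lit 208)) (XT.lf (nat_lit 0) (nat_lit 4120495187) (nat_lit 228) (nat_lit 3529546077) (nat_lit 304) (nat_lit 5018079540) (nat_lit 47) (nat_lit 5) (nat_lit 50) (nat_lit 5) (nat_lit 51) (nat_lit 5) (nat_lit 277) (nat_lit 236) (nat_lit 207))) (XT.nd (nat_lit 78) (nat_lit 304) (nat_lit 0) (XT.lf (nat_lit 0) (nat_lit 751015832) (nat_lit 228) (nat_lit 11422852382) (nat_lit 304) (nat_lit 923432012) (nat_lit 44) (nat_lit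 5) (nat_lit 47) (nat_lit 5) (nat_lit 48) (nat_lit 5) (nat_lit 278) (nat_lit 236) (nat_lit 206)) (XT.nd (nat_lit 78) (nat_lit 228) (nat_lit 0) (XT.lf (nat_lit 0) (nat_lit 3331818222) (nat_lit 304) (nat_lit 3073691596) (nat_lit 76) (nat_lit 7140957539) (nat_lit 43) (nat_lit 5) (nat_lit 47) (nat_lit 5) (nat_lit 44) (nat_lit 5) (nat_lit 279) (nat_lit 236) (nat_lit 205)) (XT.lf (nat_lit 0) (nat_lit 6637343328) (nat_lit 228) (nat_lit 1109522924) (nat_lit 304) (nat_lit 6272115644) (nat_lit 40) (nat_lit 5) (nat_lit 43) (nat_lit 5) (nat_lit 44) (nat_lit 5) (nat_lit 280) (nat_lit 236) (nat_lit 204))))) (XT.nd (nat_lit 156) (nat_lit 380) (nat_lit 0) (XT.nd (nat_lit 78) (nat_lit 76) (nat_lit 0) (XT.lf (nat_lit 0) (nat_lit 2240867918) (nat_lit 228) (nat_lit 10143088609) (nat_lit 304) (nat_lit 2131267261) (nat_lit 37) (nat_lit 5) (nat_lit 40) (nat_lit 5) (nat_lit 41) (nat_lit 5) (nat_lit 281) (nat_lit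 236) (nat_lit 203)) (XT.lf (nat_lit 0) (nat_lit 2168455745) (nat_lit 304) (nat_lit 2710105814) (nat_lit 76) (nat_lit 10157354141) (nat_lit 36) (nat_lit 5) (nat_lit 40) (nat_lit 5) (nat_lit 37) (nat_lit 5) (nat_lit 282) (nat_lit 236) (nat_lit 202))) (XT.nd (nat_lit 78) (nat_lit 228) (nat_lit 0) (XT.lf (nat_lit 0) (nat_lit 6628122770) (nat_lit 228) (nat_lit 8270565243) (nat_lit 76) (nat_lit 683773641) (nat_lit 34) (nat_lit 5) (nat_lit 37) (nat_lit 5) (nat_lit 35) (nat_lit 5) (nat_lit 283) (nat_lit 236) (nat_lit 201)) (XT.nd (nat_lit 78) (nat_lit 0) (nat_lit 0) (XT.lf (nat_lit 0) (nat_lit 1584293469) (nat_lit 228) (nat_lit 9733207540) (nat_lit 304) (nat_lit 4838749745) (nat_lit 31) (nat_lit 5) (nat_lit 34) (nat_lit 5) (nat_lit 35) (nat_lit 5) (nat_lit 284) (nat_lit 236) (nat_lit 200)) (XT.lf (nat_lit 0) (nat_lit 11975305770) (nat_lit 228) (nat_lit 4268111541) (nat_lit 304) (nat_lit 515362004)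 (nat_lit 31) (nat_lit 5) (nat_lit 34) (nat_lit 5) (nat_lit 35) (nat_lit 5) (nat_lit 285) (nat_lit 236) (nat_lit 199)))))) (XT.nd (nat_lit 390) (nat_lit 456) (nat_lit 0) (XT.nd (nat_lit 156) (nat_lit 380) (nat_lit 0) (XT.nd (nat_lit 78) (nat_lit 0) (nat_lit 0) (XT.lf (nat_lit 0) (nat_lit 3932531189) (nat_lit 228) (nat_lit 11968918902) (nat_lit 76) (nat_lit 1489321479) (nat_lit 28) (nat_lit 5) (nat_lit 31) (nat_lit 5) (nat_lit 29) (nat_lit 5) (nat_lit 286) (nat_lit 236) (nat_lit 198)) (XT.lf (nat_lit 0) (nat_lit 8607286413) (nat_lit 228) (nat_lit 1987616196) (nat_lit 76) (nat_lit 7458952674) (nat_lit 28) (nat_lit 5) (nat_lit 31) (nat_lit 5) (nat_lit 29) (nat_lit 5) (nat_lit 287) (nat_lit 236) (nat_lit 197))) (XT.nd (nat_lit 78) (nat_lit 228) (nat_lit 0) (XT.lf (nat_lit 0) (nat_lit 8541942926) (nat_lit 152) (nat_lit 4981869236) (nat_lit 228) (nat_lit 5226134035) (nat_lit 26) (nat_lit 5) (nat_lit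 28) (nat_lit 5) (nat_lit 29) (nat_lit 5) (nat_lit 288) (nat_lit 236) (nat_lit 196)) (XT.nd (nat_lit 78) (nat_lit 76) (nat_lit 0) (XT.lf (nat_lit 0) (nat_lit 35048408) (nat_lit 152) (nat_lit 18608825494) (nat_lit 228) (nat_lit 838325986) (nat_lit 24) (nat_lit 5) (nat_lit 26) (nat_lit 5) (nat_lit 27) (nat_lit 4) (nat_lit 289) (nat_lit 236) (nat_lit 195)) (XT.lf (nat_lit 0) (nat_lit 3781253500) (nat_lit 228) (nat_lit 9446013358) (nat_lit 76) (nat_lit 7020217563) (nat_lit 23) (nat_lit 5) (nat_lit 26) (nat_lit 5) (nat_lit 24) (nat_lit 5) (nat_lit 290) (nat_lit 236) (nat_lit 194))))) (XT.nd (nat_lit 234) (nat_lit 228) (nat_lit 0) (XT.nd (nat_lit 78) (nat_lit 76) (nat_lit 0) (XT.lf (nat_lit 0) (nat_lit 956706033) (nat_lit 152) (nat_lit 7600001192) (nat_lit 228) (nat_lit 12495888789) (nat_lit 21) (nat_lit 5) (nat_lit 23) (nat_lit 5) (nat_lit 24) (nat_lit 5) (nat_lit 291) (nat_lit 236) (nat_lit 193))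 (XT.nd (nat_lit 78) (nat_lit 76) (nat_lit 0) (XT.lf (nat_lit 0) (nat_lit 11971387677) (nat_lit 152) (nat_lit 1631841475) (nat_lit 228) (nat_lit 8293840251) (nat_lit 21) (nat_lit 5) (nat_lit 23) (nat_lit 5) (nat_lit 24) (nat_lit 5) (nat_lit 292) (nat_lit 236) (nat_lit 192)) (XT.lf (nat_lit 0) (nat_lit 618457769) (nat_lit 76) (nat_lit 18271893966) (nat_lit 152) (nat_lit 3893837993) (nat_lit 20) (nat_lit 5) (nat_lit 21) (nat_lit 5) (nat_lit 22) (nat_lit 4) (nat_lit 293) (nat_lit 236) (nat_lit 191)))) (XT.nd (nat_lit 78) (nat_lit 152) (nat_lit 0) (XT.lf (nat_lit 0) (nat_lit 770777145) (nat_lit 152) (nat_lit 11940288338) (nat_lit 76) (nat_lit 11002693810) (nat_lit 19) (nat_lit 5) (nat_lit 21) (nat_lit 5) (nat_lit 20) (nat_lit 5) (nat_lit 294) (nat_lit 236) (nat_lit 190)) (XT.nd (nat_lit 78) (nat_lit 152) (nat_lit 0) (XT.lf (nat_lit 0) (nat_lit 5530864427) (nat_lit 152) (nat_lit 1338537598) (nat_lit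 76) (nat_lit 17821028534) (nat_lit 19) (nat_lit 5) (nat_lit 21) (nat_lit 5) (nat_lit 20) (nat_lit 5) (nat_lit 295) (nat_lit 236) (nat_lit 189)) (XT.lf (nat_lit 0) (nat_lit 9895285128) (nat_lit 152) (nat_lit 673574605) (nat_lit 228) (nat_lit 15145938517) (nat_lit 17) (nat_lit 5) (nat_lit 19) (nat_lit 5) (nat_lit 20) (nat_lit 5) (nat_lit 296) (nat_lit 236) (nat_lit 188))))))) (XT.nd (nat_lit 780) (nat_lit 456) (nat_lit 0) (XT.nd (nat_lit 390) (nat_lit 76) (nat_lit 0) (XT.nd (nat_lit 156) (nat_lit 228) (nat_lit 0) (XT.nd (nat_lit 78) (nat_lit 76) (nat_lit 0) (XT.lf (nat_lit 0) (nat_lit 15874957228) (nat_lit 228) (nat_lit 5217217890) (nat_lit 76) (nat_lit 5697780249) (nat_lit 17) (nat_lit 5) (nat_lit 20) (nat_lit 5) (nat_lit 18) (nat_lit 4) (nat_lit 297) (nat_lit 236) (nat_lit 187)) (XT.lf (nat_lit 0) (nat_lit 5938737012) (nat_lit 76) (nat_lit 15520294346) (nat_lit 152) (nat_lit 6459513225)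 (nat_lit 16) (nat_lit 5) (nat_lit 17) (nat_lit 5) (nat_lit 18) (nat_lit 4) (nat_lit 298) (nat_lit 236) (nat_lit 186))) (XT.nd (nat_lit 78) (nat_lit 228) (nat_lit 0) (XT.lf (nat_lit 0) (nat_lit 17678423544) (nat_lit 76) (nat_lit 9648018763) (nat_lit 152) (nat_lit 1777048762) (nat_lit 16) (nat_lit 5) (nat_lit 17) (nat_lit 5) (nat_lit 18) (nat_lit 4) (nat_lit 299) (nat_lit 236) (nat_lit 185)) (XT.nd (nat_lit 78) (nat_lit 152) (nat_lit 0) (XT.lf (nat_lit 0) (nat_lit 3030546485) (nat_lit 152) (nat_lit 452901371) (nat_lit 76) (nat_lit 26864811412) (nat_lit 15) (nat_lit 5) (nat_lit 17) (nat_lit 5) (nat_lit 16) (nat_lit 5) (nat_lit 300) (nat_lit 236) (nat_lit 184)) (XT.lf (nat_lit 0) (nat_lit 8133921243) (nat_lit 228) (nat_lit 20490573611) (nat_lit 76) (nat_lit 3027524251) (nat_lit 13) (nat_lit 5) (nat_lit 16) (nat_lit 5) (nat_lit 14) (nat_lit 4) (nat_lit 301) (nat_lit 236) (nat_lit 183))))) (XT.nd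 (nat_lit 156) (nat_lit 0) (nat_lit 0) (XT.nd (nat_lit 78) (nat_lit 76) (nat_lit 0) (XT.lf (nat_lit 0) (nat_lit 13488038899) (nat_lit 228) (nat_lit 9765260839) (nat_lit 76) (nat_lit 9767843417) (nat_lit 13) (nat_lit 5) (nat_lit 16) (nat_lit 5) (nat_lit 14) (nat_lit 4) (nat_lit 302) (nat_lit 236) (nat_lit 182)) (XT.lf (nat_lit 0) (nat_lit 1453050546) (nat_lit 76) (nat_lit 17628595215) (nat_lit 152) (nat_lit 15377965527) (nat_lit 12) (nat_lit 5) (nat_lit 13) (nat_lit 5) (nat_lit 14) (nat_lit 4) (nat_lit 303) (nat_lit 236) (nat_lit 181))) (XT.nd (nat_lit 78) (nat_lit 0) (nat_lit 0) (XT.lf (nat_lit 0) (nat_lit 13366774466) (nat_lit 76) (nat_lit 11647838998) (nat_lit 152) (nat_lit 10953638354) (nat_lit 12) (nat_lit 5) (nat_lit 13) (nat_lit 5) (nat_lit 14) (nat_lit 4) (nat_lit 304) (nat_lit 236) (nat_lit 180)) (XT.nd (nat_lit 78) (nat_lit 0) (nat_lit 0) (XT.lf (nat_lit 0) (nat_lit 25809929092)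 (nat_lit 76) (nat_lit 5395401180) (nat_lit 152) (nat_lit 6348198615) (nat_lit 12) (nat_lit 5) (nat_lit 13) (nat_lit 5) (nat_lit 14) (nat_lit 4) (nat_lit 305) (nat_lit 236) (nat_lit 179)) (XT.lf (nat_lit 0) (nat_lit 37679529017) (nat_lit 152) (nat_lit 418069008) (nat_lit 0) (nat_lit 1121289144) (nat_lit 12) (nat_lit 5) (nat_lit 14) (nat_lit 4) (nat_lit 12) (nat_lit 4) (nat_lit 306) (nat_lit 236) (nat_lit 178)))))) (XT.nd (nat_lit 390) (nat_lit 152) (nat_lit 0) (XT.nd (nat_lit 156) (nat_lit 76) (nat_lit 0) (XT.nd (nat_lit 78) (nat_lit 0) (nat_lit 0) (XT.lf (nat_lit 0) (nat_lit 3572981679) (nat_lit 228) (nat_lit 29414283280) (nat_lit 76) (nat_lit 7975322813) (nat_lit 9) (nat_lit 5) (nat_lit 12) (nat_lit 5) (nat_lit 10) (nat_lit 4) (nat_lit 307) (nat_lit 236) (nat_lit 177)) (XT.lf (nat_lit 0) (nat_lit 8878973138) (nat_lit 228) (nat_lit 18747117014) (nat_lit 76) (nat_lit 15167861366) (nat_lit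 9) (nat_lit 5) (nat_lit 12) (nat_lit 5) (nat_lit 10) (nat_lit 4) (nat_lit 308) (nat_lit 236) (nat_lit 176))) (XT.nd (nat_lit 78) (nat_lit 76) (nat_lit 0) (XT.lf (nat_lit 0) (nat_lit 14417148662) (nat_lit 228) (nat_lit 7603664887) (nat_lit 76) (nat_lit 22697093346) (nat_lit 9) (nat_lit 5) (nat_lit 12) (nat_lit 5) (nat_lit 10) (nat_lit 4) (nat_lit 309) (nat_lit 236) (nat_lit 175)) (XT.nd (nat_lit 78) (nat_lit 0) (nat_lit 0) (XT.lf (nat_lit 0) (nat_lit 4123060897) (nat_lit 76) (nat_lit 16117266869) (nat_lit 152) (nat_lit 26497517981) (nat_lit 8) (nat_lit 5) (nat_lit 9) (nat_lit 5) (nat_lit 10) (nat_lit 4) (nat_lit 310) (nat_lit 236) (nat_lit 174)) (XT.lf (nat_lit 0) (nat_lit 16542220555) (nat_lit 76) (nat_lit 9860174036) (nat_lit 152) (nat_lit 22454982278) (nat_lit 8) (nat_lit 5) (nat_lit 9) (nat_lit 5) (nat_lit 10) (nat_lit 4) (nat_lit 311) (nat_lit 236) (nat_lit 173))))) (XT.nd (nat_lit 234)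 (nat_lit 76) (nat_lit 0) (XT.nd (nat_lit 78) (nat_lit 76) (nat_lit 0) (XT.lf (nat_lit 0) (nat_lit 29532055672) (nat_lit 76) (nat_lit 3311419318) (nat_lit 152) (nat_lit 18240308146) (nat_lit 8) (nat_lit 5) (nat_lit 9) (nat_lit 5) (nat_lit 10) (nat_lit 4) (nat_lit 312) (nat_lit 236) (nat_lit 172)) (XT.nd (nat_lit 78) (nat_lit 76) (nat_lit 0) (XT.lf (nat_lit 0) (nat_lit 39612977633) (nat_lit 152) (nat_lit 10332943852) (nat_lit 0) (nat_lit 3475421849) (nat_lit 8) (nat_lit 5) (nat_lit 10) (nat_lit 4) (nat_lit 8) (nat_lit 4) (nat_lit 313) (nat_lit 236) (nat_lit 171)) (XT.lf (nat_lit 0) (nat_lit 1394326312) (nat_lit 76) (nat_lit 45346885115) (nat_lit 76) (nat_lit 9133985921) (nat_lit 7) (nat_lit 4) (nat_lit 8) (nat_lit 5) (nat_lit 8) (nat_lit 4) (nat_lit 314) (nat_lit 236) (nat_lit 170)))) (XT.nd (nat_lit 78) (nat_lit 76) (nat_lit 0) (XT.lf (nat_lit 0) (nat_lit 13878975524) (nat_lit 76) (nat_lit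 40427513386) (nat_lit 76) (nat_lit 4142858564) (nat_lit 7) (nat_lit 4) (nat_lit 8) (nat_lit 5) (nat_lit 8) (nat_lit 4) (nat_lit 315) (nat_lit 236) (nat_lit 169)) (XT.nd (nat_lit 78) (nat_lit 0) (nat_lit 0) (XT.lf (nat_lit 0) (nat_lit 1051628074) (nat_lit 152) (nat_lit 34218188524) (nat_lit 76) (nat_lit 25882835839) (nat_lit 6) (nat_lit 5) (nat_lit 8) (nat_lit 5) (nat_lit 7) (nat_lit 4) (nat_lit 316) (nat_lit 236) (nat_lit 168)) (XT.lf (nat_lit 0) (nat_lit 6397360025) (nat_lit 152) (nat_lit 23431437134) (nat_lit 76) (nat_lit 34161798587) (nat_lit 6) (nat_lit 5) (nat_lit 8) (nat_lit 5) (nat_lit 7) (nat_lit 4) (nat_lit 317) (nat_lit 236) (nat_lit 167))))))))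
noncomputable def xc43 : XT := (XT.nd (nat_lit 32526) (nat_lit 0) (nat_lit 4104) (XT.nd (nat_lit 780) (nat_lit 0) (nat_lit 0) (XT.nd (nat_lit 390) (nat_lit 76) (nat_lit 0) (XT.nd (nat_lit 156) (nat_lit 76) (nat_lit 0) (XT.nd (nat_lit 78) (nat_lit 0) (nat_lit 0) (XT.lf (nat_lit 0) (nat_lit 11987907314) (nat_lit 152) (nat_lit 12144611346) (nat_lit 76) (nat_lit 42838610459) (nat_lit 6) (nat_lit 5) (nat_lit 8) (nat_lit 5) (nat_lit 7) (nat_lit 4) (nat_lit 318) (nat_lit 236) (nat_lit 166)) (XT.lf (nat_lit 0) (nat_lit 17836580768) (nat_lit 152) (nat_lit 330837768) (nat_lit 76) (nat_lit 51933930530) (nat_lit 6) (nat_lit 5) (nat_lit 8) (nat_lit 5) (nat_lit 7) (nat_lit 4) (nat_lit 319) (nat_lit 236) (nat_lit 165))) (XT.nd (nat_lit 78) (nat_lit 0) (nat_lit 0) (XT.lf (nat_lit 0) (nat_lit 12277591669) (nat_lit 76) (nat_lit 11797733853) (nat_lit 152) (nat_lit 49309842376) (nat_lit 5) (nat_lit 5) (nat_lit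 6) (nat_lit 5) (nat_lit 7) (nat_lit 4) (nat_lit 320) (nat_lit 236) (nat_lit 164)) (XT.nd (nat_lit 78) (nat_lit 0) (nat_lit 0) (XT.lf (nat_lit 0) (nat_lit 25488764095) (nat_lit 76) (nat_lit 5120905062) (nat_lit 152) (nat_lit 46224014870) (nat_lit 5) (nat_lit 5) (nat_lit 6) (nat_lit 5) (nat_lit 7) (nat_lit 4) (nat_lit 321) (nat_lit 236) (nat_lit 163)) (XT.lf (nat_lit 0) (nat_lit 37469955777) (nat_lit 152) (nat_lit 41145684801) (nat_lit 0) (nat_lit 1839024047) (nat_lit 5) (nat_lit 5) (nat_lit 7) (nat_lit 4) (nat_lit 5) (nat_lit 4) (nat_lit 322) (nat_lit 236) (nat_lit 162))))) (XT.nd (nat_lit 156) (nat_lit 76) (nat_lit 0) (XT.nd (nat_lit 78) (nat_lit 0) (nat_lit 0) (XT.lf (nat_lit 0) (nat_lit 44706905380) (nat_lit 152) (nat_lit 30519972923) (nat_lit 0) (nat_lit 9028821190) (nat_lit 5) (nat_lit 5) (nat_lit 7) (nat_lit 4) (nat_lit 5) (nat_lit 4) (nat_lit 323) (nat_lit 236) (nat_lit 161)) (XT.lf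 (nat_lit 0) (nat_lit 52288523526) (nat_lit 152) (nat_lit 19393259715) (nat_lit 0) (nat_lit 16565532231) (nat_lit 5) (nat_lit 5) (nat_lit 7) (nat_lit 4) (nat_lit 5) (nat_lit 4) (nat_lit 324) (nat_lit 236) (nat_lit 160))) (XT.nd (nat_lit 78) (nat_lit 76) (nat_lit 0) (XT.lf (nat_lit 0) (nat_lit 60232861687) (nat_lit 152) (nat_lit 7739053001) (nat_lit 0) (nat_lit 24467101721) (nat_lit 5) (nat_lit 5) (nat_lit 7) (nat_lit 4) (nat_lit 5) (nat_lit 4) (nat_lit 325) (nat_lit 236) (nat_lit 159)) (XT.nd (nat_lit 78) (nat_lit 0) (nat_lit 0) (XT.lf (nat_lit 0) (nat_lit 4559364961) (nat_lit 76) (nat_lit 64043297399) (nat_lit 76) (nat_lit 28236805365) (nat_lit 4) (nat_lit 4) (nat_lit 5) (nat_lit 5) (nat_lit 5) (nat_lit 4) (nat_lit 326) (nat_lit 236) (nat_lit 158)) (XT.lf (nat_lit 0) (nat_lit 17607745934) (nat_lit 76) (nat_lit 59847777566) (nat_lit 76) (nat_lit 24002493087) (nat_lit 4) (nat_lit 4) (nat_lit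 5) (nat_lit 5) (nat_lit 5) (nat_lit 4) (nat_lit 327) (nat_lit 236) (nat_lit 157)))))) (XT.nd (nat_lit 31278) (nat_lit 0) (nat_lit 14136) (XT.nd (nat_lit 156) (nat_lit 0) (nat_lit 0) (XT.nd (nat_lit 78) (nat_lit 0) (nat_lit 0) (XT.lf (nat_lit 0) (nat_lit 31283135162) (nat_lit 76) (nat_lit 55453515117) (nat_lit 76) (nat_lit 19571285452) (nat_lit 4) (nat_lit 4) (nat_lit 5) (nat_lit 5) (nat_lit 5) (nat_lit 4) (nat_lit 328) (nat_lit 236) (nat_lit 156)) (XT.lf (nat_lit 0) (nat_lit 45618093095) (nat_lit 76) (nat_lit 50850047524) (nat_lit 76) (nat_lit 14932631967) (nat_lit 4) (nat_lit 4) (nat_lit 5) (nat_lit 5) (nat_lit 5) (nat_lit 4) (nat_lit 329) (nat_lit 236) (nat_lit 155))) (XT.nd (nat_lit 30966) (nat_lit 0) (nat_lit 18240) (XT.lf (nat_lit 0) (nat_lit 60646750585) (nat_lit 76) (nat_lit 46026414148) (nat_lit 76) (nat_lit 10075488218) (nat_lit 4) (nat_lit 4) (nat_lit 5) (nat_lit 5) (nat_lit 5)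 (nat_lit 4) (nat_lit 330) (nat_lit 236) (nat_lit 154)) (XT.nd (nat_lit 78) (nat_lit 456) (nat_lit 0) (XT.lf (nat_lit 0) (nat_lit 1204166789) (nat_lit 380) (nat_lit 869644522) (nat_lit 0) (nat_lit 1204166789) (nat_lit 250) (nat_lit 5) (nat_lit 255) (nat_lit 4) (nat_lit 250) (nat_lit 4) (nat_lit 246) (nat_lit 237) (nat_lit 237)) (XT.lf (nat_lit 0) (nat_lit 483196491) (nat_lit 456) (nat_lit 2632859865) (nat_lit 76) (nat_lit 3482759347) (nat_lit 244) (nat_lit 5) (nat_lit 250) (nat_lit 5) (nat_lit 245) (nat_lit 4) (nat_lit 247) (nat_lit 237) (nat_lit 236))))) (XT.nd (nat_lit 234) (nat_lit 2356) (nat_lit 0) (XT.nd (nat_lit 78) (nat_lit 1292) (nat_lit 0) (XT.lf (nat_lit 0) (nat_lit 3179472172) (nat_lit 456) (nat_lit 1862343781) (nat_lit 532) (nat_lit 1608350795) (nat_lit 238) (nat_lit 5) (nat_lit 244) (nat_lit 5) (nat_lit 245) (nat_lit 4) (nat_lit 248) (nat_lit 237) (nat_lit 235)) (XT.nd (nat_lit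 78) (nat_lit 684) (nat_lit 0) (XT.lf (nat_lit 0) (nat_lit 2461145201) (nat_lit 532) (nat_lit 393242793) (nat_lit 608) (nat_lit 3856027380) (nat_lit 230) (nat_lit 5) (nat_lit 237) (nat_lit 5) (nat_lit 238) (nat_lit 5) (nat_lit 249) (nat_lit 237) (nat_lit 234)) (XT.lf (nat_lit 0) (nat_lit 532786898) (nat_lit 684) (nat_lit 4982109645) (nat_lit 76) (nat_lit 1264582030) (nat_lit 221) (nat_lit 5) (nat_lit 230) (nat_lit 5) (nat_lit 222) (nat_lit 5) (nat_lit 250) (nat_lit 237) (nat_lit 233)))) (XT.nd (nat_lit 78) (nat_lit 1672) (nat_lit 0) (XT.lf (nat_lit 0) (nat_lit 1169567659) (nat_lit 684) (nat_lit 3709922349) (nat_lit 760) (nat_lit 1977661867) (nat_lit 212) (nat_lit 5) (nat_lit 221) (nat_lit 5) (nat_lit 222) (nat_lit 5) (nat_lit 251) (nat_lit 237) (nat_lit 232)) (XT.nd (nat_lit 78) (nat_lit 836) (nat_lit 0) (XT.lf (nat_lit 0) (nat_lit 588382973) (nat_lit 760) (nat_lit 1689690833) (nat_lit 836)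 (nat_lit 4666033008) (nat_lit 201) (nat_lit 5) (nat_lit 211) (nat_lit 5) (nat_lit 212) (nat_lit 5) (nat_lit 252) (nat_lit 237) (nat_lit 231)) (XT.lf (nat_lit 0) (nat_lit 42901150) (nat_lit 836) (nat_lit 6501294927) (nat_lit 912) (nat_lit 496217903) (nat_lit 190) (nat_lit 5) (nat_lit 201) (nat_lit 5) (nat_lit 202) (nat_lit 5) (nat_lit 253) (nat_lit 237) (nat_lit 230))))))) (XT.nd (nat_lit 780) (nat_lit 3496) (nat_lit 0) (XT.nd (nat_lit 390) (nat_lit 2660) (nat_lit 0) (XT.nd (nat_lit 156) (nat_lit 2812) (nat_lit 0) (XT.nd (nat_lit 78) (nat_lit 988) (nat_lit 0) (XT.lf (nat_lit 0) (nat_lit 3669957913) (nat_lit 912) (nat_lit 496339689) (nat_lit 76) (nat_lit 2978901332) (nat_lit 189) (nat_lit 5) (nat_lit 201) (nat_lit 5) (nat_lit 190) (nat_lit 5) (nat_lit 254) (nat_lit 237) (nat_lit 229)) (XT.lf (nat_lit 0) (nat_lit 613004221) (nat_lit 988) (nat_lit 1005846650) (nat_lit 76) (nat_lit 5641165703)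 (nat_lit 176) (nat_lit 5) (nat_lit 189) (nat_lit 5) (nat_lit 177) (nat_lit 5) (nat_lit 255) (nat_lit 237) (nat_lit 228))) (XT.nd (nat_lit 78) (nat_lit 1824) (nat_lit 0) (XT.lf (nat_lit 0) (nat_lit 4703830564) (nat_lit 1064) (nat_lit 1530169483) (nat_lit 76) (nat_lit 1150049725) (nat_lit 163) (nat_lit 5) (nat_lit 177) (nat_lit 5) (nat_lit 164) (nat_lit 5) (nat_lit 256) (nat_lit 237) (nat_lit 227)) (XT.nd (nat_lit 78) (nat_lit 684) (nat_lit 0) (XT.lf (nat_lit 0) (nat_lit 1338216003) (nat_lit 1140) (nat_lit 2064840161) (nat_lit 76) (nat_lit 4114894252) (nat_lit 148) (nat_lit 5) (nat_lit 163) (nat_lit 5) (nat_lit 149) (nat_lit 5) (nat_lit 257) (nat_lit 237) (nat_lit 226)) (XT.lf (nat_lit 0) (nat_lit 5044484273) (nat_lit 684) (nat_lit 332375208) (nat_lit 760) (nat_lit 2285184559) (nat_lit 139) (nat_lit 5) (nat_lit 148) (nat_lit 5) (nat_lit 149) (nat_lit 5) (nat_lit 258) (nat_lit 237) (nat_lit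 225))))) (XT.nd (nat_lit 156) (nat_lit 1520) (nat_lit 0) (XT.nd (nat_lit 78) (nat_lit 532) (nat_lit 0) (XT.lf (nat_lit 0) (nat_lit 1678271878) (nat_lit 608) (nat_lit 3218097860) (nat_lit 76) (nat_lit 2919666062) (nat_lit 131) (nat_lit 5) (nat_lit 139) (nat_lit 5) (nat_lit 132) (nat_lit 5) (nat_lit 259) (nat_lit 237) (nat_lit 224)) (XT.lf (nat_lit 0) (nat_lit 4120165674) (nat_lit 532) (nat_lit 1564972680) (nat_lit 608) (nat_lit 2295606712) (nat_lit 124) (nat_lit 5) (nat_lit 131) (nat_lit 5) (nat_lit 132) (nat_lit 5) (nat_lit 260) (nat_lit 237) (nat_lit 223))) (XT.nd (nat_lit 78) (nat_lit 988) (nat_lit 0) (XT.lf (nat_lit 0) (nat_lit 1618697884) (nat_lit 532) (nat_lit 4566931221) (nat_lit 76) (nat_lit 1970576383) (nat_lit 117) (nat_lit 5) (nat_lit 124) (nat_lit 5) (nat_lit 118) (nat_lit 5) (nat_lit 261) (nat_lit 237) (nat_lit 222)) (XT.nd (nat_lit 78) (nat_lit 532) (nat_lit 0) (XT.lf (nat_lit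 0) (nat_lit 2987851777) (nat_lit 456) (nat_lit 2611409431) (nat_lit 532) (nat_lit 2743370583) (nat_lit 111) (nat_lit 5) (nat_lit 117) (nat_lit 5) (nat_lit 118) (nat_lit 5) (nat_lit 262) (nat_lit 237) (nat_lit 221)) (XT.lf (nat_lit 0) (nat_lit 1134914348) (nat_lit 532) (nat_lit 6223369277) (nat_lit 76) (nat_lit 1182562674) (nat_lit 104) (nat_lit 5) (nat_lit 111) (nat_lit 5) (nat_lit 105) (nat_lit 5) (nat_lit 263) (nat_lit 237) (nat_lit 220)))))) (XT.nd (nat_lit 390) (nat_lit 1748) (nat_lit 0) (XT.nd (nat_lit 156) (nat_lit 836) (nat_lit 0) (XT.nd (nat_lit 78) (nat_lit 456) (nat_lit 0) (XT.lf (nat_lit 0) (nat_lit 1531084059) (nat_lit 456) (nat_lit 3559599507) (nat_lit 532) (nat_lit 3659629631) (nat_lit 98) (nat_lit 5) (nat_lit 104) (nat_lit 5) (nat_lit 105) (nat_lit 5) (nat_lit 264) (nat_lit 237) (nat_lit 219)) (XT.lf (nat_lit 0) (nat_lit 191289382) (nat_lit 456) (nat_lit 8313178930) (nat_lit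 76) (nat_lit 468364855) (nat_lit 92) (nat_lit 5) (nat_lit 98) (nat_lit 5) (nat_lit 93) (nat_lit 5) (nat_lit 265) (nat_lit 237) (nat_lit 218))) (XT.nd (nat_lit 78) (nat_lit 836) (nat_lit 0) (XT.lf (nat_lit 0) (nat_lit 4123059284) (nat_lit 456) (nat_lit 374110349) (nat_lit 76) (nat_lit 4709624811) (nat_lit 92) (nat_lit 5) (nat_lit 98) (nat_lit 5) (nat_lit 93) (nat_lit 5) (nat_lit 266) (nat_lit 237) (nat_lit 217)) (XT.nd (nat_lit 78) (nat_lit 456) (nat_lit 0) (XT.lf (nat_lit 0) (nat_lit 7945915673) (nat_lit 380) (nat_lit 241224751) (nat_lit 456) (nat_lit 1267548418) (nat_lit 87) (nat_lit 5) (nat_lit 92) (nat_lit 5) (nat_lit 93) (nat_lit 5) (nat_lit 267) (nat_lit 237) (nat_lit 216)) (XT.lf (nat_lit 0) (nat_lit 2660446306) (nat_lit 456) (nat_lit 2843474507) (nat_lit 76) (nat_lit 4211317120) (nat_lit 81) (nat_lit 5) (nat_lit 87) (nat_lit 5) (nat_lit 82) (nat_lit 5) (nat_lit 268) (nat_lit 237)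 (nat_lit 215))))) (XT.nd (nat_lit 234) (nat_lit 684) (nat_lit 0) (XT.nd (nat_lit 78) (nat_lit 684) (nat_lit 0) (XT.lf (nat_lit 0) (nat_lit 5640960489) (nat_lit 380) (nat_lit 1057712402) (nat_lit 456) (nat_lit 3291833798) (nat_lit 76) (nat_lit 5) (nat_lit 81) (nat_lit 5) (nat_lit 82) (nat_lit 5) (nat_lit 269) (nat_lit 237) (nat_lit 214)) (XT.nd (nat_lit 78) (nat_lit 304) (nat_lit 0) (XT.lf (nat_lit 0) (nat_lit 622523198) (nat_lit 380) (nat_lit 6076230514) (nat_lit 76) (nat_lit 3581561333) (nat_lit 71) (nat_lit 5) (nat_lit 76) (nat_lit 5) (nat_lit 72) (nat_lit 5) (nat_lit 270) (nat_lit 237) (nat_lit 213)) (XT.lf (nat_lit 0) (nat_lit 2533001103) (nat_lit 304) (nat_lit 2087326535) (nat_lit 380) (nat_lit 5964871984) (nat_lit 67) (nat_lit 5) (nat_lit 71) (nat_lit 5) (nat_lit 72) (nat_lit 5) (nat_lit 271) (nat_lit 237) (nat_lit 212)))) (XT.nd (nat_lit 78) (nat_lit 380) (nat_lit 0) (XT.lf (nat_lit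 0) (nat_lit 617331991) (nat_lit 304) (nat_lit 8175239311) (nat_lit 380) (nat_lit 2113747199) (nat_lit 63) (nat_lit 5) (nat_lit 67) (nat_lit 5) (nat_lit 68) (nat_lit 5) (nat_lit 272) (nat_lit 237) (nat_lit 211)) (XT.nd (nat_lit 78) (nat_lit 304) (nat_lit 0) (XT.lf (nat_lit 0) (nat_lit 1878885035) (nat_lit 380) (nat_lit 1554538796) (nat_lit 76) (nat_lit 7810124077) (nat_lit 62) (nat_lit 5) (nat_lit 67) (nat_lit 5) (nat_lit 63) (nat_lit 5) (nat_lit 273) (nat_lit 237) (nat_lit 210)) (XT.lf (nat_lit 0) (nat_lit 6003644119) (nat_lit 380) (nat_lit 4024382101) (nat_lit 76) (nat_lit 1569897893) (nat_lit 58) (nat_lit 5) (nat_lit 63) (nat_lit 5) (nat_lit 59) (nat_lit 5) (nat_lit 274) (nat_lit 237) (nat_lit 209))))))))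
noncomputable def xc44 : XT := (XT.nd (nat_lit 1638) (nat_lit 912) (nat_lit 0) (XT.nd (nat_lit 780) (nat_lit 1140) (nat_lit 0) (XT.nd (nat_lit 390) (nat_lit 684) (nat_lit 0) (XT.nd (nat_lit 156) (nat_lit 532) (nat_lit 0) (XT.nd (nat_lit 78) (nat_lit 380) (nat_lit 0) (XT.lf (nat_lit 0) (nat_lit 5133698484) (nat_lit 228) (nat_lit 5192093097) (nat_lit 304) (nat_lit 1644683029) (nat_lit 55) (nat_lit 5) (nat_lit 58) (nat_lit 5) (nat_lit 59) (nat_lit 5) (nat_lit 275) (nat_lit 237) (nat_lit 208)) (XT.lf (nat_lit 0) (nat_lit 2344090003) (nat_lit 304) (nat_lit 67376713) (nat_lit 380) (nat_lit 9950902849) (nat_lit 50) (nat_lit 5) (nat_lit 54) (nat_lit 5) (nat_lit 55) (nat_lit 5) (nat_lit 276) (nat_lit 237) (nat_lit 207))) (XT.nd (nat_lit 78) (nat_lit 532) (nat_lit 0) (XT.lf (nat_lit 0) (nat_lit 6655658009) (nat_lit 380) (nat_lit 862330374) (nat_lit 76) (nat_lit 5254972221) (nat_lit 50) (nat_lit 5)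 (nat_lit 55) (nat_lit 5) (nat_lit 51) (nat_lit 5) (nat_lit 277) (nat_lit 237) (nat_lit 206)) (XT.nd (nat_lit 78) (nat_lit 304) (nat_lit 0) (XT.lf (nat_lit 0) (nat_lit 8780090195) (nat_lit 228) (nat_lit 2318743268) (nat_lit 304) (nat_lit 2105803837) (nat_lit 47) (nat_lit 5) (nat_lit 50) (nat_lit 5) (nat_lit 51) (nat_lit 5) (nat_lit 278) (nat_lit 237) (nat_lit 205)) (XT.lf (nat_lit 0) (nat_lit 2058692173) (nat_lit 304) (nat_lit 8482785552) (nat_lit 76) (nat_lit 3116154344) (nat_lit 43) (nat_lit 5) (nat_lit 47) (nat_lit 5) (nat_lit 44) (nat_lit 5) (nat_lit 279) (nat_lit 237) (nat_lit 204))))) (XT.nd (nat_lit 156) (nat_lit 456) (nat_lit 0) (XT.nd (nat_lit 78) (nat_lit 0) (nat_lit 0) (XT.lf (nat_lit 0) (nat_lit 1051710910) (nat_lit 228) (nat_lit 5322879652) (nat_lit 304) (nat_lit 7758598985) (nat_lit 40) (nat_lit 5) (nat_lit 43) (nat_lit 5) (nat_lit 44) (nat_lit 5) (nat_lit 280) (nat_lit 237)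 (nat_lit 203)) (XT.lf (nat_lit 0) (nat_lit 10905507297) (nat_lit 304) (nat_lit 3528979201) (nat_lit 76) (nat_lit 198195337) (nat_lit 40) (nat_lit 5) (nat_lit 44) (nat_lit 5) (nat_lit 41) (nat_lit 5) (nat_lit 281) (nat_lit 237) (nat_lit 202))) (XT.nd (nat_lit 78) (nat_lit 152) (nat_lit 0) (XT.lf (nat_lit 0) (nat_lit 525613172) (nat_lit 304) (nat_lit 8718784661) (nat_lit 76) (nat_lit 5911838733) (nat_lit 36) (nat_lit 5) (nat_lit 40) (nat_lit 5) (nat_lit 37) (nat_lit 5) (nat_lit 282) (nat_lit 237) (nat_lit 201)) (XT.nd (nat_lit 78) (nat_lit 0) (nat_lit 0) (XT.lf (nat_lit 0) (nat_lit 1126638048) (nat_lit 152) (nat_lit 3751332953) (nat_lit 228) (nat_lit 10828088202) (nat_lit 34) (nat_lit 5) (nat_lit 36) (nat_lit 5) (nat_lit 37) (nat_lit 5) (nat_lit 283) (nat_lit 237) (nat_lit 200)) (XT.lf (nat_lit 0) (nat_lit 9476145321) (nat_lit 228) (nat_lit 4781317309) (nat_lit 76) (nat_lit 2025176463) (nat_lit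 34) (nat_lit 5) (nat_lit 37) (nat_lit 5) (nat_lit 35) (nat_lit 5) (nat_lit 284) (nat_lit 237) (nat_lit 199)))))) (XT.nd (nat_lit 390) (nat_lit 532) (nat_lit 0) (XT.nd (nat_lit 156) (nat_lit 304) (nat_lit 0) (XT.nd (nat_lit 78) (nat_lit 76) (nat_lit 0) (XT.lf (nat_lit 0) (nat_lit 5454412042) (nat_lit 228) (nat_lit 8862182041) (nat_lit 304) (nat_lit 2571189667) (nat_lit 31) (nat_lit 5) (nat_lit 34) (nat_lit 5) (nat_lit 35) (nat_lit 5) (nat_lit 285) (nat_lit 237) (nat_lit 198)) (XT.lf (nat_lit 0) (nat_lit 1812789510) (nat_lit 304) (nat_lit 1357387820) (nat_lit 76) (nat_lit 14353360595) (nat_lit 30) (nat_lit 5) (nat_lit 34) (nat_lit 5) (nat_lit 31) (nat_lit 5) (nat_lit 286) (nat_lit 237) (nat_lit 197))) (XT.nd (nat_lit 78) (nat_lit 152) (nat_lit 0) (XT.lf (nat_lit 0) (nat_lit 6407496144) (nat_lit 228) (nat_lit 8953745065) (nat_lit 76) (nat_lit 2827827740) (nat_lit 28) (nat_lit 5) (nat_lit 31)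 (nat_lit 5) (nat_lit 29) (nat_lit 5) (nat_lit 287) (nat_lit 237) (nat_lit 196)) (XT.nd (nat_lit 78) (nat_lit 0) (nat_lit 0) (XT.lf (nat_lit 0) (nat_lit 1381503757) (nat_lit 152) (nat_lit 9839272926) (nat_lit 228) (nat_lit 7667524206) (nat_lit 26) (nat_lit 5) (nat_lit 28) (nat_lit 5) (nat_lit 29) (nat_lit 5) (nat_lit 288) (nat_lit 237) (nat_lit 195)) (XT.lf (nat_lit 0) (nat_lit 12311931592) (nat_lit 152) (nat_lit 3986725182) (nat_lit 228) (nat_lit 3323204846) (nat_lit 26) (nat_lit 5) (nat_lit 28) (nat_lit 5) (nat_lit 29) (nat_lit 5) (nat_lit 289) (nat_lit 237) (nat_lit 194))))) (XT.nd (nat_lit 234) (nat_lit 152) (nat_lit 0) (XT.nd (nat_lit 78) (nat_lit 152) (nat_lit 0) (XT.lf (nat_lit 0) (nat_lit 1201421541) (nat_lit 228) (nat_lit 17068382961) (nat_lit 76) (nat_lit 2122399955) (nat_lit 23) (nat_lit 5) (nat_lit 26) (nat_lit 5) (nat_lit 24) (nat_lit 5) (nat_lit 290) (nat_lit 237) (nat_lit 193))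 (XT.nd (nat_lit 78) (nat_lit 152) (nat_lit 0) (XT.lf (nat_lit 0) (nat_lit 5936494394) (nat_lit 228) (nat_lit 6734823867) (nat_lit 76) (nat_lit 8527245839) (nat_lit 23) (nat_lit 5) (nat_lit 26) (nat_lit 5) (nat_lit 24) (nat_lit 5) (nat_lit 291) (nat_lit 237) (nat_lit 192)) (XT.lf (nat_lit 0) (nat_lit 4096777387) (nat_lit 152) (nat_lit 6790040349) (nat_lit 228) (nat_lit 11159140590) (nat_lit 21) (nat_lit 5) (nat_lit 23) (nat_lit 5) (nat_lit 24) (nat_lit 5) (nat_lit 292) (nat_lit 237) (nat_lit 191)))) (XT.nd (nat_lit 78) (nat_lit 152) (nat_lit 0) (XT.lf (nat_lit 0) (nat_lit 15514943777) (nat_lit 152) (nat_lit 580137450) (nat_lit 228) (nat_lit 6840396417) (nat_lit 21) (nat_lit 5) (nat_lit 23) (nat_lit 5) (nat_lit 24) (nat_lit 5) (nat_lit 293) (nat_lit 237) (nat_lit 190)) (XT.nd (nat_lit 78) (nat_lit 76) (nat_lit 0) (XT.lf (nat_lit 0) (nat_lit 3554195495) (nat_lit 76) (nat_lit 18044391497) (nat_lit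 152) (nat_lit 2269905922) (nat_lit 20) (nat_lit 5) (nat_lit 21) (nat_lit 5) (nat_lit 22) (nat_lit 4) (nat_lit 294) (nat_lit 237) (nat_lit 189)) (XT.lf (nat_lit 0) (nat_lit 2507540827) (nat_lit 152) (nat_lit 9735169982) (nat_lit 76) (nat_lit 12603945255) (nat_lit 19) (nat_lit 5) (nat_lit 21) (nat_lit 5) (nat_lit 20) (nat_lit 5) (nat_lit 295) (nat_lit 237) (nat_lit 188))))))) (XT.nd (nat_lit 780) (nat_lit 380) (nat_lit 0) (XT.nd (nat_lit 390) (nat_lit 304) (nat_lit 0) (XT.nd (nat_lit 156) (nat_lit 76) (nat_lit 0) (XT.nd (nat_lit 78) (nat_lit 0) (nat_lit 0) (XT.lf (nat_lit 0) (nat_lit 1288374221) (nat_lit 152) (nat_lit 6148775045) (nat_lit 228) (nat_lit 18437153956) (nat_lit 17) (nat_lit 5) (nat_lit 19) (nat_lit 5) (nat_lit 20) (nat_lit 5) (nat_lit 296) (nat_lit 237) (nat_lit 187)) (XT.lf (nat_lit 0) (nat_lit 12665633559) (nat_lit 228) (nat_lit 13972730933) (nat_lit 76) (nat_lit 313450777)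 (nat_lit 17) (nat_lit 5) (nat_lit 20) (nat_lit 5) (nat_lit 18) (nat_lit 4) (nat_lit 297) (nat_lit 237) (nat_lit 186))) (XT.nd (nat_lit 78) (nat_lit 76) (nat_lit 0) (XT.lf (nat_lit 0) (nat_lit 18168828319) (nat_lit 228) (nat_lit 2972403266) (nat_lit 76) (nat_lit 6941624551) (nat_lit 17) (nat_lit 5) (nat_lit 20) (nat_lit 5) (nat_lit 18) (nat_lit 4) (nat_lit 298) (nat_lit 237) (nat_lit 185)) (XT.nd (nat_lit 78) (nat_lit 0) (nat_lit 0) (XT.lf (nat_lit 0) (nat_lit 8669524695) (nat_lit 76) (nat_lit 15314542683) (nat_lit 152) (nat_lit 5285324468) (nat_lit 16) (nat_lit 5) (nat_lit 17) (nat_lit 5) (nat_lit 18) (nat_lit 4) (nat_lit 299) (nat_lit 237) (nat_lit 184)) (XT.lf (nat_lit 0) (nat_lit 20880297895) (nat_lit 76) (nat_lit 9195404102) (nat_lit 152) (nat_lit 440030325) (nat_lit 16) (nat_lit 5) (nat_lit 17) (nat_lit 5) (nat_lit 18) (nat_lit 4) (nat_lit 300) (nat_lit 237) (nat_lit 183))))) (XT.nd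 (nat_lit 156) (nat_lit 76) (nat_lit 0) (XT.nd (nat_lit 78) (nat_lit 0) (nat_lit 0) (XT.lf (nat_lit 0) (nat_lit 1794887936) (nat_lit 152) (nat_lit 2735912765) (nat_lit 228) (nat_lit 27293073456) (nat_lit 13) (nat_lit 5) (nat_lit 15) (nat_lit 5) (nat_lit 16) (nat_lit 5) (nat_lit 301) (nat_lit 237) (nat_lit 182)) (XT.lf (nat_lit 0) (nat_lit 9838041389) (nat_lit 228) (nat_lit 19312311389) (nat_lit 76) (nat_lit 4044071923) (nat_lit 13) (nat_lit 5) (nat_lit 16) (nat_lit 5) (nat_lit 14) (nat_lit 4) (nat_lit 302) (nat_lit 237) (nat_lit 181))) (XT.nd (nat_lit 78) (nat_lit 76) (nat_lit 0) (XT.lf (nat_lit 0) (nat_lit 15398082830) (nat_lit 228) (nat_lit 8155627784) (nat_lit 76) (nat_lit 11080208406) (nat_lit 13) (nat_lit 5) (nat_lit 16) (nat_lit 5) (nat_lit 14) (nat_lit 4) (nat_lit 303) (nat_lit 237) (nat_lit 180)) (XT.nd (nat_lit 78) (nat_lit 0) (nat_lit 0) (XT.lf (nat_lit 0) (nat_lit 3563463400) (nat_lit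 76) (nat_lit 17668654738) (nat_lit 152) (nat_lit 14913427692) (nat_lit 12) (nat_lit 5) (nat_lit 13) (nat_lit 5) (nat_lit 14) (nat_lit 4) (nat_lit 304) (nat_lit 237) (nat_lit 179)) (XT.lf (nat_lit 0) (nat_lit 15975837311) (nat_lit 76) (nat_lit 11428925960) (nat_lit 152) (nat_lit 10326619215) (nat_lit 12) (nat_lit 5) (nat_lit 13) (nat_lit 5) (nat_lit 14) (nat_lit 4) (nat_lit 305) (nat_lit 237) (nat_lit 178)))))) (XT.nd (nat_lit 390) (nat_lit 152) (nat_lit 0) (XT.nd (nat_lit 156) (nat_lit 76) (nat_lit 0) (XT.nd (nat_lit 78) (nat_lit 152) (nat_lit 0) (XT.lf (nat_lit 0) (nat_lit 28948734234) (nat_lit 76) (nat_lit 4902023631) (nat_lit 152) (nat_lit 5546845633) (nat_lit 12) (nat_lit 5) (nat_lit 13) (nat_lit 5) (nat_lit 14) (nat_lit 4) (nat_lit 306) (nat_lit 237) (nat_lit 177)) (XT.lf (nat_lit 0) (nat_lit 1373131499) (nat_lit 152) (nat_lit 39244046606) (nat_lit 152) (nat_lit 530046100) (nat_lit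 10) (nat_lit 4) (nat_lit 12) (nat_lit 5) (nat_lit 12) (nat_lit 4) (nat_lit 307) (nat_lit 237) (nat_lit 176))) (XT.nd (nat_lit 78) (nat_lit 0) (nat_lit 0) (XT.lf (nat_lit 0) (nat_lit 4770134560) (nat_lit 228) (nat_lit 29129671534) (nat_lit 76) (nat_lit 9079433951) (nat_lit 9) (nat_lit 5) (nat_lit 12) (nat_lit 5) (nat_lit 10) (nat_lit 4) (nat_lit 308) (nat_lit 237) (nat_lit 175)) (XT.nd (nat_lit 78) (nat_lit 0) (nat_lit 0) (XT.lf (nat_lit 0) (nat_lit 10292925412) (nat_lit 228) (nat_lit 18012733903) (nat_lit 76) (nat_lit 16598011575) (nat_lit 9) (nat_lit 5) (nat_lit 12) (nat_lit 5) (nat_lit 10) (nat_lit 4) (nat_lit 309) (nat_lit 237) (nat_lit 174)) (XT.lf (nat_lit 0) (nat_lit 16061819063) (nat_lit 228) (nat_lit 6391715787) (nat_lit 76) (nat_lit 24471716719) (nat_lit 9) (nat_lit 5) (nat_lit 12) (nat_lit 5) (nat_lit 10) (nat_lit 4) (nat_lit 310) (nat_lit 237) (nat_lit 173))))) (XT.nd (nat_lit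 234) (nat_lit 76) (nat_lit 0) (XT.nd (nat_lit 78) (nat_lit 0) (nat_lit 0) (XT.lf (nat_lit 0) (nat_lit 5875708132) (nat_lit 76) (nat_lit 16271323745) (nat_lit 152) (nat_lit 26900069067) (nat_lit 8) (nat_lit 5) (nat_lit 9) (nat_lit 5) (nat_lit 10) (nat_lit 4) (nat_lit 311) (nat_lit 237) (nat_lit 172)) (XT.nd (nat_lit 78) (nat_lit 0) (nat_lit 0) (XT.lf (nat_lit 0) (nat_lit 18842183193) (nat_lit 76) (nat_lit 9732414674) (nat_lit 152) (nat_lit 22699326808) (nat_lit 8) (nat_lit 5) (nat_lit 9) (nat_lit 5) (nat_lit 10) (nat_lit 4) (nat_lit 312) (nat_lit 237) (nat_lit 171)) (XT.lf (nat_lit 0) (nat_lit 32411374275) (nat_lit 76) (nat_lit 2885782604) (nat_lit 152) (nat_lit 18315747759) (nat_lit 8) (nat_lit 5) (nat_lit 9) (nat_lit 5) (nat_lit 10) (nat_lit 4) (nat_lit 313) (nat_lit 237) (nat_lit 170)))) (XT.nd (nat_lit 78) (nat_lit 76) (nat_lit 0) (XT.lf (nat_lit 0) (nat_lit 42371903837) (nat_lit 152)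 (nat_lit 9495209688) (nat_lit 0) (nat_lit 4201260645) (nat_lit 8) (nat_lit 5) (nat_lit 10) (nat_lit 4) (nat_lit 8) (nat_lit 4) (nat_lit 314) (nat_lit 237) (nat_lit 169)) (XT.nd (nat_lit 78) (nat_lit 0) (nat_lit 0) (XT.lf (nat_lit 0) (nat_lit 2779600914) (nat_lit 76) (nat_lit 47052533533) (nat_lit 76) (nat_lit 8813551647) (nat_lit 7) (nat_lit 4) (nat_lit 8) (nat_lit 5) (nat_lit 8) (nat_lit 4) (nat_lit 315) (nat_lit 237) (nat_lit 168)) (XT.lf (nat_lit 0) (nat_lit 15825836954) (nat_lit 76) (nat_lit 41913940638) (nat_lit 76) (nat_lit 3609874282) (nat_lit 7) (nat_lit 4) (nat_lit 8) (nat_lit 5) (nat_lit 8) (nat_lit 4) (nat_lit 316) (nat_lit 237) (nat_lit 167))))))))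
noncomputable def xc45 : XT := (XT.nd (nat_lit 32448) (nat_lit 0) (nat_lit 4788) (XT.nd (nat_lit 780) (nat_lit 76) (nat_lit 0) (XT.nd (nat_lit 390) (nat_lit 0) (nat_lit 0) (XT.nd (nat_lit 156) (nat_lit 76) (nat_lit 0) (XT.nd (nat_lit 78) (nat_lit 0) (nat_lit 0) (XT.lf (nat_lit 0) (nat_lit 1795337728) (nat_lit 152) (nat_lit 34721515977) (nat_lit 76) (nat_lit 27672120488) (nat_lit 6) (nat_lit 5) (nat_lit 8) (nat_lit 5) (nat_lit 7) (nat_lit 4) (nat_lit 317) (nat_lit 237) (nat_lit 166)) (XT.lf (nat_lit 0) (nat_lit 7375445407) (nat_lit 152) (nat_lit 23452930920) (nat_lit 76) (nat_lit 36341453143) (nat_lit 6) (nat_lit 5) (nat_lit 8) (nat_lit 5) (nat_lit 7) (nat_lit 4) (nat_lit 318) (nat_lit 237) (nat_lit 165))) (XT.nd (nat_lit 78) (nat_lit 76) (nat_lit 0) (XT.lf (nat_lit 0) (nat_lit 13214176376) (nat_lit 152) (nat_lit 11656529466) (nat_lit 76) (nat_lit 45429650150) (nat_lit 6) (nat_lit 5) (nat_lit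 8) (nat_lit 5) (nat_lit 7) (nat_lit 4) (nat_lit 319) (nat_lit 237) (nat_lit 164)) (XT.nd (nat_lit 78) (nat_lit 0) (nat_lit 0) (XT.lf (nat_lit 0) (nat_lit 709622343) (nat_lit 76) (nat_lit 18622631355) (nat_lit 152) (nat_lit 54255549054) (nat_lit 5) (nat_lit 5) (nat_lit 6) (nat_lit 5) (nat_lit 7) (nat_lit 4) (nat_lit 320) (nat_lit 237) (nat_lit 163)) (XT.lf (nat_lit 0) (nat_lit 13904724144) (nat_lit 76) (nat_lit 11952700582) (nat_lit 152) (nat_lit 51179176864) (nat_lit 5) (nat_lit 5) (nat_lit 6) (nat_lit 5) (nat_lit 7) (nat_lit 4) (nat_lit 321) (nat_lit 237) (nat_lit 162))))) (XT.nd (nat_lit 156) (nat_lit 0) (nat_lit 0) (XT.nd (nat_lit 78) (nat_lit 0) (nat_lit 0) (XT.lf (nat_lit 0) (nat_lit 27728205054) (nat_lit 76) (nat_lit 4962740827) (nat_lit 152) (nat_lit 47967446441) (nat_lit 5) (nat_lit 5) (nat_lit 6) (nat_lit 5) (nat_lit 7) (nat_lit 4) (nat_lit 322) (nat_lit 237) (nat_lit 161)) (XT.lf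 (nat_lit 0) (nat_lit 39871810614) (nat_lit 152) (nat_lit 42271543301) (nat_lit 0) (nat_lit 2317762650) (nat_lit 5) (nat_lit 5) (nat_lit 7) (nat_lit 4) (nat_lit 5) (nat_lit 4) (nat_lit 323) (nat_lit 237) (nat_lit 160))) (XT.nd (nat_lit 78) (nat_lit 0) (nat_lit 0) (XT.lf (nat_lit 0) (nat_lit 47445447837) (nat_lit 152) (nat_lit 31158899437) (nat_lit 0) (nat_lit 9848631202) (nat_lit 5) (nat_lit 5) (nat_lit 7) (nat_lit 4) (nat_lit 5) (nat_lit 4) (nat_lit 324) (nat_lit 237) (nat_lit 159)) (XT.nd (nat_lit 78) (nat_lit 0) (nat_lit 0) (XT.lf (nat_lit 0) (nat_lit 55382185120) (nat_lit 152) (nat_lit 19518092098) (nat_lit 0) (nat_lit 17744636416) (nat_lit 5) (nat_lit 5) (nat_lit 7) (nat_lit 4) (nat_lit 5) (nat_lit 4) (nat_lit 325) (nat_lit 237) (nat_lit 158)) (XT.lf (nat_lit 0) (nat_lit 63700919455) (nat_lit 152) (nat_lit 7321405077) (nat_lit 0) (nat_lit 26024578306) (nat_lit 5) (nat_lit 5) (nat_lit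 7) (nat_lit 4) (nat_lit 5) (nat_lit 4) (nat_lit 326) (nat_lit 237) (nat_lit 157)))))) (XT.nd (nat_lit 31200) (nat_lit 0) (nat_lit 15732) (XT.nd (nat_lit 156) (nat_lit 0) (nat_lit 0) (XT.nd (nat_lit 78) (nat_lit 0) (nat_lit 0) (XT.lf (nat_lit 0) (nat_lit 5568870069) (nat_lit 76) (nat_lit 66906118670) (nat_lit 76) (nat_lit 29192832335) (nat_lit 4) (nat_lit 4) (nat_lit 5) (nat_lit 5) (nat_lit 5) (nat_lit 4) (nat_lit 327) (nat_lit 237) (nat_lit 156)) (XT.lf (nat_lit 0) (nat_lit 19232454050) (nat_lit 76) (nat_lit 62516982064) (nat_lit 76) (nat_lit 24768509838) (nat_lit 4) (nat_lit 4) (nat_lit 5) (nat_lit 5) (nat_lit 5) (nat_lit 4) (nat_lit 328) (nat_lit 237) (nat_lit 155))) (XT.nd (nat_lit 30888) (nat_lit 0) (nat_lit 19000) (XT.lf (nat_lit 0) (nat_lit 33556168890) (nat_lit 76) (nat_lit 57918396226) (nat_lit 76) (nat_lit 20136413626) (nat_lit 4) (nat_lit 4) (nat_lit 5) (nat_lit 5) (nat_lit 5)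 (nat_lit 4) (nat_lit 329) (nat_lit 237) (nat_lit 154)) (XT.nd (nat_lit 78) (nat_lit 76) (nat_lit 0) (XT.lf (nat_lit 0) (nat_lit 196011039) (nat_lit 228) (nat_lit 1525072530) (nat_lit 228) (nat_lit 1525072530) (nat_lit 255) (nat_lit 4) (nat_lit 258) (nat_lit 5) (nat_lit 258) (nat_lit 4) (nat_lit 244) (nat_lit 238) (nat_lit 238)) (XT.lf (nat_lit 0) (nat_lit 1546597775) (nat_lit 304) (nat_lit 768675781) (nat_lit 76) (nat_lit 4206674332) (nat_lit 254) (nat_lit 5) (nat_lit 258) (nat_lit 5) (nat_lit 255) (nat_lit 4) (nat_lit 245) (nat_lit 238) (nat_lit 237))))) (XT.nd (nat_lit 234) (nat_lit 1976) (nat_lit 0) (XT.nd (nat_lit 78) (nat_lit 988) (nat_lit 0) (XT.lf (nat_lit 0) (nat_lit 4715463202) (nat_lit 304) (nat_lit 1366257819) (nat_lit 380) (nat_lit 478416199) (nat_lit 250) (nat_lit 5) (nat_lit 254) (nat_lit 5) (nat_lit 255) (nat_lit 4) (nat_lit 246) (nat_lit 238) (nat_lit 236)) (XT.nd (nat_lit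 78) (nat_lit 532) (nat_lit 0) (XT.lf (nat_lit 0) (nat_lit 3745486022) (nat_lit 380) (nat_lit 192550900) (nat_lit 456) (nat_lit 2668692819) (nat_lit 244) (nat_lit 5) (nat_lit 249) (nat_lit 5) (nat_lit 250) (nat_lit 5) (nat_lit 247) (nat_lit 238) (nat_lit 235)) (XT.lf (nat_lit 0) (nat_lit 1671778212) (nat_lit 532) (nat_lit 3820452839) (nat_lit 76) (nat_lit 1169716984) (nat_lit 237) (nat_lit 5) (nat_lit 244) (nat_lit 5) (nat_lit 238) (nat_lit 5) (nat_lit 248) (nat_lit 238) (nat_lit 234)))) (XT.nd (nat_lit 78) (nat_lit 1444) (nat_lit 0) (XT.lf (nat_lit 0) (nat_lit 1998277622) (nat_lit 532) (nat_lit 3979635762) (nat_lit 608) (nat_lit 748023506) (nat_lit 230) (nat_lit 5) (nat_lit 237) (nat_lit 5) (nat_lit 238) (nat_lit 5) (nat_lit 249) (nat_lit 238) (nat_lit 233)) (XT.nd (nat_lit 78) (nat_lit 760) (nat_lit 0) (XT.lf (nat_lit 0) (nat_lit 1201163360) (nat_lit 608) (nat_lit 2243316489) (nat_lit 684)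 (nat_lit 3354107592) (nat_lit 221) (nat_lit 5) (nat_lit 229) (nat_lit 5) (nat_lit 230) (nat_lit 5) (nat_lit 250) (nat_lit 238) (nat_lit 232)) (XT.lf (nat_lit 0) (nat_lit 461343368) (nat_lit 684) (nat_lit 296126503) (nat_lit 760) (nat_lit 6123097572) (nat_lit 211) (nat_lit 5) (nat_lit 220) (nat_lit 5) (nat_lit 221) (nat_lit 5) (nat_lit 251) (nat_lit 238) (nat_lit 231))))))) (XT.nd (nat_lit 780) (nat_lit 3800) (nat_lit 0) (XT.nd (nat_lit 390) (nat_lit 3496) (nat_lit 0) (XT.nd (nat_lit 156) (nat_lit 2812) (nat_lit 0) (XT.nd (nat_lit 78) (nat_lit 836) (nat_lit 0) (XT.lf (nat_lit 0) (nat_lit 4856788828) (nat_lit 760) (nat_lit 261161477) (nat_lit 76) (nat_lit 1852900880) (nat_lit 211) (nat_lit 5) (nat_lit 221) (nat_lit 5) (nat_lit 212) (nat_lit 5) (nat_lit 252) (nat_lit 238) (nat_lit 230)) (XT.lf (nat_lit 0) (nat_lit 1900962337) (nat_lit 836) (nat_lit 944022429) (nat_lit 76) (nat_lit 4225357909)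 (nat_lit 200) (nat_lit 5) (nat_lit 211) (nat_lit 5) (nat_lit 201) (nat_lit 5) (nat_lit 253) (nat_lit 238) (nat_lit 229))) (XT.nd (nat_lit 78) (nat_lit 1976) (nat_lit 0) (XT.lf (nat_lit 0) (nat_lit 5575378151) (nat_lit 836) (nat_lit 346738648) (nat_lit 912) (nat_lit 1257248740) (nat_lit 189) (nat_lit 5) (nat_lit 200) (nat_lit 5) (nat_lit 201) (nat_lit 5) (nat_lit 254) (nat_lit 238) (nat_lit 228)) (XT.nd (nat_lit 78) (nat_lit 988) (nat_lit 0) (XT.lf (nat_lit 0) (nat_lit 2674174809) (nat_lit 988) (nat_lit 2278638808) (nat_lit 76) (nat_lit 2344432840) (nat_lit 176) (nat_lit 5) (nat_lit 189) (nat_lit 5) (nat_lit 177) (nat_lit 5) (nat_lit 255) (nat_lit 238) (nat_lit 227)) (XT.lf (nat_lit 0) (nat_lit 4479243411) (nat_lit 988) (nat_lit 2166642208) (nat_lit 1064) (nat_lit 779250051) (nat_lit 163) (nat_lit 5) (nat_lit 176) (nat_lit 5) (nat_lit 177) (nat_lit 5) (nat_lit 256) (nat_lit 238) (nat_lit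 226))))) (XT.nd (nat_lit 156) (nat_lit 1672) (nat_lit 0) (XT.nd (nat_lit 78) (nat_lit 684) (nat_lit 0) (XT.lf (nat_lit 0) (nat_lit 3074467673) (nat_lit 1140) (nat_lit 3638379019) (nat_lit 76) (nat_lit 849731364) (nat_lit 148) (nat_lit 5) (nat_lit 163) (nat_lit 5) (nat_lit 149) (nat_lit 5) (nat_lit 257) (nat_lit 238) (nat_lit 225)) (XT.lf (nat_lit 0) (nat_lit 3351403143) (nat_lit 684) (nat_lit 3657072520) (nat_lit 760) (nat_lit 701583899) (nat_lit 139) (nat_lit 5) (nat_lit 148) (nat_lit 5) (nat_lit 149) (nat_lit 5) (nat_lit 258) (nat_lit 238) (nat_lit 224))) (XT.nd (nat_lit 78) (nat_lit 1064) (nat_lit 0) (XT.lf (nat_lit 0) (nat_lit 2748469697) (nat_lit 532) (nat_lit 349781137) (nat_lit 608) (nat_lit 4769555475) (nat_lit 131) (nat_lit 5) (nat_lit 138) (nat_lit 5) (nat_lit 139) (nat_lit 5) (nat_lit 259) (nat_lit 238) (nat_lit 223)) (XT.nd (nat_lit 78) (nat_lit 532) (nat_lit 0) (XT.lf (nat_lit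 0) (nat_lit 2096605680) (nat_lit 532) (nat_lit 4902950334) (nat_lit 608) (nat_lit 1036345512) (nat_lit 124) (nat_lit 5) (nat_lit 131) (nat_lit 5) (nat_lit 132) (nat_lit 5) (nat_lit 260) (nat_lit 238) (nat_lit 222)) (XT.lf (nat_lit 0) (nat_lit 1389505686) (nat_lit 456) (nat_lit 1342619890) (nat_lit 532) (nat_lit 5482713651) (nat_lit 117) (nat_lit 5) (nat_lit 123) (nat_lit 5) (nat_lit 124) (nat_lit 5) (nat_lit 261) (nat_lit 238) (nat_lit 221)))))) (XT.nd (nat_lit 390) (nat_lit 1900) (nat_lit 0) (XT.nd (nat_lit 156) (nat_lit 1368) (nat_lit 0) (XT.nd (nat_lit 78) (nat_lit 76) (nat_lit 0) (XT.lf (nat_lit 0) (nat_lit 610415505) (nat_lit 456) (nat_lit 5988896001) (nat_lit 532) (nat_lit 1805548297) (nat_lit 111) (nat_lit 5) (nat_lit 117) (nat_lit 5) (nat_lit 118) (nat_lit 5) (nat_lit 262) (nat_lit 238) (nat_lit 220)) (XT.lf (nat_lit 0) (nat_lit 1944810198) (nat_lit 532) (nat_lit 249495255) (nat_lit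 76) (nat_lit 6411965605) (nat_lit 110) (nat_lit 5) (nat_lit 117) (nat_lit 5) (nat_lit 111) (nat_lit 5) (nat_lit 263) (nat_lit 238) (nat_lit 219))) (XT.nd (nat_lit 78) (nat_lit 912) (nat_lit 0) (XT.lf (nat_lit 0) (nat_lit 5789376689) (nat_lit 532) (nat_lit 1199723975) (nat_lit 76) (nat_lit 1830143290) (nat_lit 104) (nat_lit 5) (nat_lit 111) (nat_lit 5) (nat_lit 105) (nat_lit 5) (nat_lit 264) (nat_lit 238) (nat_lit 218)) (XT.nd (nat_lit 78) (nat_lit 380) (nat_lit 0) (XT.lf (nat_lit 0) (nat_lit 714812658) (nat_lit 532) (nat_lit 2262245474) (nat_lit 76) (nat_lit 6067499798) (nat_lit 97) (nat_lit 5) (nat_lit 104) (nat_lit 5) (nat_lit 98) (nat_lit 5) (nat_lit 265) (nat_lit 238) (nat_lit 217)) (XT.lf (nat_lit 0) (nat_lit 4526953001) (nat_lit 456) (nat_lit 3468025158) (nat_lit 76) (nat_lit 1287279564) (nat_lit 92) (nat_lit 5) (nat_lit 98) (nat_lit 5) (nat_lit 93) (nat_lit 5) (nat_lit 266) (nat_lit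 238) (nat_lit 216))))) (XT.nd (nat_lit 234) (nat_lit 684) (nat_lit 0) (XT.nd (nat_lit 78) (nat_lit 836) (nat_lit 0) (XT.lf (nat_lit 0) (nat_lit 4709378905) (nat_lit 380) (nat_lit 3785197202) (nat_lit 456) (nat_lit 1038612259) (nat_lit 87) (nat_lit 5) (nat_lit 92) (nat_lit 5) (nat_lit 93) (nat_lit 5) (nat_lit 267) (nat_lit 238) (nat_lit 215)) (XT.nd (nat_lit 78) (nat_lit 380) (nat_lit 0) (XT.lf (nat_lit 0) (nat_lit 2753371934) (nat_lit 456) (nat_lit 6353841415) (nat_lit 76) (nat_lit 690536148) (nat_lit 81) (nat_lit 5) (nat_lit 87) (nat_lit 5) (nat_lit 82) (nat_lit 5) (nat_lit 268) (nat_lit 238) (nat_lit 214)) (XT.lf (nat_lit 0) (nat_lit 1981014567) (nat_lit 380) (nat_lit 4713826894) (nat_lit 456) (nat_lit 3381204994) (nat_lit 76) (nat_lit 5) (nat_lit 81) (nat_lit 5) (nat_lit 82) (nat_lit 5) (nat_lit 269) (nat_lit 238) (nat_lit 213)))) (XT.nd (nat_lit 78) (nat_lit 304) (nat_lit 0) (XT.lf (nat_lit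 0) (nat_lit 342330667) (nat_lit 304) (nat_lit 59904667) (nat_lit 380) (nat_lit 9967741102) (nat_lit 71) (nat_lit 5) (nat_lit 75) (nat_lit 5) (nat_lit 76) (nat_lit 5) (nat_lit 270) (nat_lit 238) (nat_lit 212)) (XT.nd (nat_lit 78) (nat_lit 304) (nat_lit 0) (XT.lf (nat_lit 0) (nat_lit 4317012668) (nat_lit 380) (nat_lit 1543968484) (nat_lit 76) (nat_lit 4816481184) (nat_lit 71) (nat_lit 5) (nat_lit 76) (nat_lit 5) (nat_lit 72) (nat_lit 5) (nat_lit 271) (nat_lit 238) (nat_lit 211)) (XT.lf (nat_lit 0) (nat_lit 7357099637) (nat_lit 304) (nat_lit 1028316569) (nat_lit 380) (nat_lit 2616385458) (nat_lit 67) (nat_lit 5) (nat_lit 71) (nat_lit 5) (nat_lit 72) (nat_lit 5) (nat_lit 272) (nat_lit 238) (nat_lit 210))))))))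
noncomputable def xc46 : XT := (XT.nd (nat_lit 1638) (nat_lit 988) (nat_lit 0) (XT.nd (nat_lit 780) (nat_lit 1216) (nat_lit 0) (XT.nd (nat_lit 390) (nat_lit 988) (nat_lit 0) (XT.nd (nat_lit 156) (nat_lit 608) (nat_lit 0) (XT.nd (nat_lit 78) (nat_lit 304) (nat_lit 0) (XT.lf (nat_lit 0) (nat_lit 1285186208) (nat_lit 380) (nat_lit 6045715514) (nat_lit 76) (nat_lit 4011397681) (nat_lit 62) (nat_lit 5) (nat_lit 67) (nat_lit 5) (nat_lit 63) (nat_lit 5) (nat_lit 273) (nat_lit 238) (nat_lit 209)) (XT.lf (nat_lit 0) (nat_lit 2935867187) (nat_lit 304) (nat_lit 2361670694) (nat_lit 380) (nat_lit 6402602629) (nat_lit 58) (nat_lit 5) (nat_lit 62) (nat_lit 5) (nat_lit 63) (nat_lit 5) (nat_lit 274) (nat_lit 238) (nat_lit 208))) (XT.nd (nat_lit 78) (nat_lit 380) (nat_lit 0) (XT.lf (nat_lit 0) (nat_lit 250304165) (nat_lit 228) (nat_lit 9249092234) (nat_lit 304) (nat_lit 2576991545) (nat_lit 55) (nat_lit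 5) (nat_lit 58) (nat_lit 5) (nat_lit 59) (nat_lit 5) (nat_lit 275) (nat_lit 238) (nat_lit 207)) (XT.nd (nat_lit 78) (nat_lit 304) (nat_lit 0) (XT.lf (nat_lit 0) (nat_lit 1425356137) (nat_lit 304) (nat_lit 2751942994) (nat_lit 76) (nat_lit 8293494084) (nat_lit 54) (nat_lit 5) (nat_lit 58) (nat_lit 5) (nat_lit 55) (nat_lit 5) (nat_lit 276) (nat_lit 238) (nat_lit 206)) (XT.lf (nat_lit 0) (nat_lit 5554839697) (nat_lit 380) (nat_lit 6151848440) (nat_lit 76) (nat_lit 1178215077) (nat_lit 50) (nat_lit 5) (nat_lit 55) (nat_lit 5) (nat_lit 51) (nat_lit 5) (nat_lit 277) (nat_lit 238) (nat_lit 205))))) (XT.nd (nat_lit 156) (nat_lit 684) (nat_lit 0) (XT.nd (nat_lit 78) (nat_lit 76) (nat_lit 0) (XT.lf (nat_lit 0) (nat_lit 3318028413) (nat_lit 228) (nat_lit 6581811885) (nat_lit 304) (nat_lit 3419758886) (nat_lit 47) (nat_lit 5) (nat_lit 50) (nat_lit 5) (nat_lit 51) (nat_lit 5) (nat_lit 278) (nat_lit 238)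 (nat_lit 204)) (XT.lf (nat_lit 0) (nat_lit 645163174) (nat_lit 304) (nat_lit 524698417) (nat_lit 76) (nat_lit 12606936147) (nat_lit 46) (nat_lit 5) (nat_lit 50) (nat_lit 5) (nat_lit 47) (nat_lit 5) (nat_lit 279) (nat_lit 238) (nat_lit 203))) (XT.nd (nat_lit 78) (nat_lit 456) (nat_lit 0) (XT.lf (nat_lit 0) (nat_lit 4891218915) (nat_lit 304) (nat_lit 4851149193) (nat_lit 76) (nat_lit 4512147577) (nat_lit 43) (nat_lit 5) (nat_lit 47) (nat_lit 5) (nat_lit 44) (nat_lit 5) (nat_lit 280) (nat_lit 238) (nat_lit 202)) (XT.nd (nat_lit 78) (nat_lit 228) (nat_lit 0) (XT.lf (nat_lit 0) (nat_lit 5043814098) (nat_lit 228) (nat_lit 4286986602) (nat_lit 304) (nat_lit 5426009407) (nat_lit 40) (nat_lit 5) (nat_lit 43) (nat_lit 5) (nat_lit 44) (nat_lit 5) (nat_lit 281) (nat_lit 238) (nat_lit 201)) (XT.lf (nat_lit 0) (nat_lit 115920127) (nat_lit 228) (nat_lit 13859783102) (nat_lit 304) (nat_lit 1309136986) (nat_lit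 37) (nat_lit 5) (nat_lit 40) (nat_lit 5) (nat_lit 41) (nat_lit 5) (nat_lit 282) (nat_lit 238) (nat_lit 200)))))) (XT.nd (nat_lit 390) (nat_lit 532) (nat_lit 0) (XT.nd (nat_lit 156) (nat_lit 456) (nat_lit 0) (XT.nd (nat_lit 78) (nat_lit 152) (nat_lit 0) (XT.lf (nat_lit 0) (nat_lit 3018810530) (nat_lit 304) (nat_lit 5392567334) (nat_lit 76) (nat_lit 7425215877) (nat_lit 36) (nat_lit 5) (nat_lit 40) (nat_lit 5) (nat_lit 37) (nat_lit 5) (nat_lit 283) (nat_lit 238) (nat_lit 199)) (XT.lf (nat_lit 0) (nat_lit 4837285047) (nat_lit 152) (nat_lit 2669156492) (nat_lit 228) (nat_lit 8910100463) (nat_lit 34) (nat_lit 5) (nat_lit 36) (nat_lit 5) (nat_lit 37) (nat_lit 5) (nat_lit 284) (nat_lit 238) (nat_lit 198))) (XT.nd (nat_lit 78) (nat_lit 456) (nat_lit 0) (XT.lf (nat_lit 0) (nat_lit 12232597859) (nat_lit 228) (nat_lit 1480450117) (nat_lit 76) (nat_lit 3312117046) (nat_lit 34) (nat_lit 5) (nat_lit 37)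 (nat_lit 5) (nat_lit 35) (nat_lit 5) (nat_lit 285) (nat_lit 238) (nat_lit 197)) (XT.nd (nat_lit 78) (nat_lit 228) (nat_lit 0) (XT.lf (nat_lit 0) (nat_lit 9165594231) (nat_lit 228) (nat_lit 8073830030) (nat_lit 304) (nat_lit 423560883) (nat_lit 31) (nat_lit 5) (nat_lit 34) (nat_lit 5) (nat_lit 35) (nat_lit 5) (nat_lit 286) (nat_lit 238) (nat_lit 196)) (XT.lf (nat_lit 0) (nat_lit 1932227765) (nat_lit 152) (nat_lit 2115271771) (nat_lit 228) (nat_lit 14285139790) (nat_lit 28) (nat_lit 5) (nat_lit 30) (nat_lit 5) (nat_lit 31) (nat_lit 5) (nat_lit 287) (nat_lit 238) (nat_lit 195))))) (XT.nd (nat_lit 234) (nat_lit 380) (nat_lit 0) (XT.nd (nat_lit 78) (nat_lit 152) (nat_lit 0) (XT.lf (nat_lit 0) (nat_lit 8794391037) (nat_lit 228) (nat_lit 6123772653) (nat_lit 76) (nat_lit 4115740838) (nat_lit 28) (nat_lit 5) (nat_lit 31) (nat_lit 5) (nat_lit 29) (nat_lit 5) (nat_lit 288) (nat_lit 238) (nat_lit 194))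 (XT.nd (nat_lit 78) (nat_lit 0) (nat_lit 0) (XT.lf (nat_lit 0) (nat_lit 4634285154) (nat_lit 152) (nat_lit 9146248462) (nat_lit 228) (nat_lit 5989723378) (nat_lit 26) (nat_lit 5) (nat_lit 28) (nat_lit 5) (nat_lit 29) (nat_lit 5) (nat_lit 289) (nat_lit 238) (nat_lit 193)) (XT.lf (nat_lit 0) (nat_lit 15959629323) (nat_lit 152) (nat_lit 3057501337) (nat_lit 228) (nat_lit 1526339338) (nat_lit 26) (nat_lit 5) (nat_lit 28) (nat_lit 5) (nat_lit 29) (nat_lit 5) (nat_lit 290) (nat_lit 238) (nat_lit 192)))) (XT.nd (nat_lit 78) (nat_lit 152) (nat_lit 0) (XT.lf (nat_lit 0) (nat_lit 3134043303) (nat_lit 228) (nat_lit 14889906719) (nat_lit 76) (nat_lit 3329488902) (nat_lit 23) (nat_lit 5) (nat_lit 26) (nat_lit 5) (nat_lit 24) (nat_lit 5) (nat_lit 291) (nat_lit 238) (nat_lit 191)) (XT.nd (nat_lit 78) (nat_lit 152) (nat_lit 0) (XT.lf (nat_lit 0) (nat_lit 8016700718) (nat_lit 228) (nat_lit 4184045641) (nat_lit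 76) (nat_lit 10002149988) (nat_lit 23) (nat_lit 5) (nat_lit 26) (nat_lit 5) (nat_lit 24) (nat_lit 5) (nat_lit 292) (nat_lit 238) (nat_lit 190)) (XT.lf (nat_lit 0) (nat_lit 7106365511) (nat_lit 152) (nat_lit 6050212749) (nat_lit 228) (nat_lit 9937920623) (nat_lit 21) (nat_lit 5) (nat_lit 23) (nat_lit 5) (nat_lit 24) (nat_lit 5) (nat_lit 293) (nat_lit 238) (nat_lit 189))))))) (XT.nd (nat_lit 780) (nat_lit 380) (nat_lit 0) (XT.nd (nat_lit 390) (nat_lit 304) (nat_lit 0) (XT.nd (nat_lit 156) (nat_lit 228) (nat_lit 0) (XT.nd (nat_lit 78) (nat_lit 76) (nat_lit 0) (XT.lf (nat_lit 0) (nat_lit 18547117738) (nat_lit 228) (nat_lit 5073198963) (nat_lit 76) (nat_lit 410616571) (nat_lit 21) (nat_lit 5) (nat_lit 24) (nat_lit 5) (nat_lit 22) (nat_lit 4) (nat_lit 294) (nat_lit 238) (nat_lit 188)) (XT.lf (nat_lit 0) (nat_lit 6366657957) (nat_lit 76) (nat_lit 17911602304) (nat_lit 152) (nat_lit 733855666) (nat_lit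 20) (nat_lit 5) (nat_lit 21) (nat_lit 5) (nat_lit 22) (nat_lit 4) (nat_lit 295) (nat_lit 238) (nat_lit 187))) (XT.nd (nat_lit 78) (nat_lit 152) (nat_lit 0) (XT.lf (nat_lit 0) (nat_lit 4173257847) (nat_lit 152) (nat_lit 7680311453) (nat_lit 76) (nat_lit 14187536400) (nat_lit 19) (nat_lit 5) (nat_lit 21) (nat_lit 5) (nat_lit 20) (nat_lit 5) (nat_lit 296) (nat_lit 238) (nat_lit 186)) (XT.nd (nat_lit 78) (nat_lit 0) (nat_lit 0) (XT.lf (nat_lit 0) (nat_lit 3821555018) (nat_lit 152) (nat_lit 5478173418) (nat_lit 228) (nat_lit 17821974992) (nat_lit 17) (nat_lit 5) (nat_lit 19) (nat_lit 5) (nat_lit 20) (nat_lit 5) (nat_lit 297) (nat_lit 238) (nat_lit 185)) (XT.lf (nat_lit 0) (nat_lit 14727604026) (nat_lit 228) (nat_lit 12285009844) (nat_lit 76) (nat_lit 1242414067) (nat_lit 17) (nat_lit 5) (nat_lit 20) (nat_lit 5) (nat_lit 18) (nat_lit 4) (nat_lit 298) (nat_lit 238) (nat_lit 184))))) (XT.nd (nat_lit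 156) (nat_lit 228) (nat_lit 0) (XT.nd (nat_lit 78) (nat_lit 76) (nat_lit 0) (XT.lf (nat_lit 0) (nat_lit 20437925725) (nat_lit 228) (nat_lit 848301871) (nat_lit 76) (nat_lit 8158506493) (nat_lit 17) (nat_lit 5) (nat_lit 20) (nat_lit 5) (nat_lit 18) (nat_lit 4) (nat_lit 299) (nat_lit 238) (nat_lit 183)) (XT.lf (nat_lit 0) (nat_lit 11310575381) (nat_lit 76) (nat_lit 15189778770) (nat_lit 152) (nat_lit 4191618430) (nat_lit 16) (nat_lit 5) (nat_lit 17) (nat_lit 5) (nat_lit 18) (nat_lit 4) (nat_lit 300) (nat_lit 238) (nat_lit 182))) (XT.nd (nat_lit 78) (nat_lit 152) (nat_lit 0) (XT.lf (nat_lit 0) (nat_lit 815053902) (nat_lit 152) (nat_lit 7983803246) (nat_lit 76) (nat_lit 23203480300) (nat_lit 15) (nat_lit 5) (nat_lit 17) (nat_lit 5) (nat_lit 16) (nat_lit 5) (nat_lit 301) (nat_lit 238) (nat_lit 181)) (XT.nd (nat_lit 78) (nat_lit 0) (nat_lit 0) (XT.lf (nat_lit 0) (nat_lit 3952567647) (nat_lit 152)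 (nat_lit 2032336909) (nat_lit 228) (nat_lit 27392124360) (nat_lit 13) (nat_lit 5) (nat_lit 15) (nat_lit 5) (nat_lit 16) (nat_lit 5) (nat_lit 302) (nat_lit 238) (nat_lit 180)) (XT.lf (nat_lit 0) (nat_lit 11506745350) (nat_lit 228) (nat_lit 18279930675) (nat_lit 76) (nat_lit 5031011537) (nat_lit 13) (nat_lit 5) (nat_lit 16) (nat_lit 5) (nat_lit 14) (nat_lit 4) (nat_lit 303) (nat_lit 238) (nat_lit 179)))))) (XT.nd (nat_lit 390) (nat_lit 76) (nat_lit 0) (XT.nd (nat_lit 156) (nat_lit 228) (nat_lit 0) (XT.nd (nat_lit 78) (nat_lit 76) (nat_lit 0) (XT.lf (nat_lit 0) (nat_lit 17288750677) (nat_lit 228) (nat_lit 6660555570) (nat_lit 76) (nat_lit 12381586463) (nat_lit 13) (nat_lit 5) (nat_lit 16) (nat_lit 5) (nat_lit 14) (nat_lit 4) (nat_lit 304) (nat_lit 238) (nat_lit 178)) (XT.lf (nat_lit 0) (nat_lit 5589945257) (nat_lit 76) (nat_lit 17788939868) (nat_lit 152) (nat_lit 14540336165) (nat_lit 12) (nat_lit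 5) (nat_lit 13) (nat_lit 5) (nat_lit 14) (nat_lit 4) (nat_lit 305) (nat_lit 238) (nat_lit 177))) (XT.nd (nat_lit 78) (nat_lit 228) (nat_lit 0) (XT.lf (nat_lit 0) (nat_lit 18534923164) (nat_lit 76) (nat_lit 11273565013) (nat_lit 152) (nat_lit 9777461688) (nat_lit 12) (nat_lit 5) (nat_lit 13) (nat_lit 5) (nat_lit 14) (nat_lit 4) (nat_lit 306) (nat_lit 238) (nat_lit 176)) (XT.nd (nat_lit 78) (nat_lit 228) (nat_lit 0) (XT.lf (nat_lit 0) (nat_lit 32072641410) (nat_lit 76) (nat_lit 4454927436) (nat_lit 152) (nat_lit 4809436975) (nat_lit 12) (nat_lit 5) (nat_lit 13) (nat_lit 5) (nat_lit 14) (nat_lit 4) (nat_lit 307) (nat_lit 238) (nat_lit 175)) (XT.lf (nat_lit 0) (nat_lit 424315475) (nat_lit 228) (nat_lit 40085708497) (nat_lit 76) (nat_lit 2664743736) (nat_lit 9) (nat_lit 5) (nat_lit 12) (nat_lit 5) (nat_lit 10) (nat_lit 4) (nat_lit 308) (nat_lit 238) (nat_lit 174))))) (XT.nd (nat_lit 234) (nat_lit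 76) (nat_lit 0) (XT.nd (nat_lit 78) (nat_lit 0) (nat_lit 0) (XT.lf (nat_lit 0) (nat_lit 5932454257) (nat_lit 228) (nat_lit 28994022767) (nat_lit 76) (nat_lit 10173174354) (nat_lit 9) (nat_lit 5) (nat_lit 12) (nat_lit 5) (nat_lit 10) (nat_lit 4) (nat_lit 309) (nat_lit 238) (nat_lit 173)) (XT.nd (nat_lit 78) (nat_lit 0) (nat_lit 0) (XT.lf (nat_lit 0) (nat_lit 11687393557) (nat_lit 228) (nat_lit 17397054080) (nat_lit 76) (nat_lit 18037215683) (nat_lit 9) (nat_lit 5) (nat_lit 12) (nat_lit 5) (nat_lit 10) (nat_lit 4) (nat_lit 310) (nat_lit 238) (nat_lit 172)) (XT.lf (nat_lit 0) (nat_lit 17702835612) (nat_lit 228) (nat_lit 5267190607) (nat_lit 76) (nat_lit 26275591630) (nat_lit 9) (nat_lit 5) (nat_lit 12) (nat_lit 5) (nat_lit 10) (nat_lit 4) (nat_lit 311) (nat_lit 238) (nat_lit 171)))) (XT.nd (nat_lit 78) (nat_lit 0) (nat_lit 0) (XT.lf (nat_lit 0) (nat_lit 7572209358) (nat_lit 76) (nat_lit 16493682252)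 (nat_lit 152) (nat_lit 27408496726) (nat_lit 8) (nat_lit 5) (nat_lit 9) (nat_lit 5) (nat_lit 10) (nat_lit 4) (nat_lit 312) (nat_lit 238) (nat_lit 170)) (XT.nd (nat_lit 78) (nat_lit 0) (nat_lit 0) (XT.lf (nat_lit 0) (nat_lit 21120212180) (nat_lit 76) (nat_lit 9655980474) (nat_lit 152) (nat_lit 23037554297) (nat_lit 8) (nat_lit 5) (nat_lit 9) (nat_lit 5) (nat_lit 10) (nat_lit 4) (nat_lit 313) (nat_lit 238) (nat_lit 169)) (XT.lf (nat_lit 0) (nat_lit 35304247586) (nat_lit 76) (nat_lit 2493828940) (nat_lit 152) (nat_lit 18472736241) (nat_lit 8) (nat_lit 5) (nat_lit 9) (nat_lit 5) (nat_lit 10) (nat_lit 4) (nat_lit 314) (nat_lit 238) (nat_lit 168))))))))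
noncomputable def xc47 : XT := (XT.nd (nat_lit 32292) (nat_lit 0) (nat_lit 5852) (XT.nd (nat_lit 780) (nat_lit 76) (nat_lit 0) (XT.nd (nat_lit 390) (nat_lit 76) (nat_lit 0) (XT.nd (nat_lit 156) (nat_lit 76) (nat_lit 0) (XT.nd (nat_lit 78) (nat_lit 76) (nat_lit 0) (XT.lf (nat_lit 0) (nat_lit 45196419503) (nat_lit 152) (nat_lit 8741506357) (nat_lit 0) (nat_lit 4912065359) (nat_lit 8) (nat_lit 5) (nat_lit 10) (nat_lit 4) (nat_lit 8) (nat_lit 4) (nat_lit 315) (nat_lit 238) (nat_lit 167)) (XT.lf (nat_lit 0) (nat_lit 4111831107) (nat_lit 76) (nat_lit 48895685526) (nat_lit 76) (nat_lit 8549346172) (nat_lit 7) (nat_lit 4) (nat_lit 8) (nat_lit 5) (nat_lit 8) (nat_lit 4) (nat_lit 316) (nat_lit 238) (nat_lit 166))) (XT.nd (nat_lit 78) (nat_lit 76) (nat_lit 0) (XT.lf (nat_lit 0) (nat_lit 17753557514) (nat_lit 76) (nat_lit 43524423686) (nat_lit 76) (nat_lit 3119050799) (nat_lit 7) (nat_lit 4) (nat_lit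 8) (nat_lit 5) (nat_lit 8) (nat_lit 4) (nat_lit 317) (nat_lit 238) (nat_lit 165)) (XT.nd (nat_lit 78) (nat_lit 0) (nat_lit 0) (XT.lf (nat_lit 0) (nat_lit 2511978310) (nat_lit 152) (nat_lit 35362279328) (nat_lit 76) (nat_lit 29504835679) (nat_lit 6) (nat_lit 5) (nat_lit 8) (nat_lit 5) (nat_lit 7) (nat_lit 4) (nat_lit 318) (nat_lit 238) (nat_lit 164)) (XT.lf (nat_lit 0) (nat_lit 8341240245) (nat_lit 152) (nat_lit 23582422755) (nat_lit 76) (nat_lit 38586248816) (nat_lit 6) (nat_lit 5) (nat_lit 8) (nat_lit 5) (nat_lit 7) (nat_lit 4) (nat_lit 319) (nat_lit 238) (nat_lit 163))))) (XT.nd (nat_lit 156) (nat_lit 0) (nat_lit 0) (XT.nd (nat_lit 78) (nat_lit 76) (nat_lit 0) (XT.lf (nat_lit 0) (nat_lit 14443478116) (nat_lit 152) (nat_lit 11245875262) (nat_lit 76) (nat_lit 48108487911) (nat_lit 6) (nat_lit 5) (nat_lit 8) (nat_lit 5) (nat_lit 7) (nat_lit 4) (nat_lit 320) (nat_lit 238) (nat_lit 162)) (XT.lf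 (nat_lit 0) (nat_lit 1710106214) (nat_lit 76) (nat_lit 19139553434) (nat_lit 152) (nat_lit 56400557334) (nat_lit 5) (nat_lit 5) (nat_lit 6) (nat_lit 5) (nat_lit 7) (nat_lit 4) (nat_lit 321) (nat_lit 238) (nat_lit 161))) (XT.nd (nat_lit 78) (nat_lit 0) (nat_lit 0) (XT.lf (nat_lit 0) (nat_lit 15519010593) (nat_lit 76) (nat_lit 12155850384) (nat_lit 152) (nat_lit 53197403162) (nat_lit 5) (nat_lit 5) (nat_lit 6) (nat_lit 5) (nat_lit 7) (nat_lit 4) (nat_lit 322) (nat_lit 238) (nat_lit 160)) (XT.nd (nat_lit 78) (nat_lit 0) (nat_lit 0) (XT.lf (nat_lit 0) (nat_lit 29989901251) (nat_lit 76) (nat_lit 4835177651) (nat_lit 152) (nat_lit 49850835387) (nat_lit 5) (nat_lit 5) (nat_lit 6) (nat_lit 5) (nat_lit 7) (nat_lit 4) (nat_lit 323) (nat_lit 238) (nat_lit 159)) (XT.lf (nat_lit 0) (nat_lit 42344636562) (nat_lit 152) (nat_lit 43540289864) (nat_lit 0) (nat_lit 2784478356) (nat_lit 5) (nat_lit 5) (nat_lit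 7) (nat_lit 4) (nat_lit 5) (nat_lit 4) (nat_lit 324) (nat_lit 238) (nat_lit 158)))))) (XT.nd (nat_lit 31044) (nat_lit 0) (nat_lit 18164) (XT.nd (nat_lit 156) (nat_lit 76) (nat_lit 0) (XT.nd (nat_lit 78) (nat_lit 0) (nat_lit 0) (XT.lf (nat_lit 0) (nat_lit 50274134912) (nat_lit 152) (nat_lit 31912243835) (nat_lit 0) (nat_lit 10675184260) (nat_lit 5) (nat_lit 5) (nat_lit 7) (nat_lit 4) (nat_lit 5) (nat_lit 4) (nat_lit 325) (nat_lit 238) (nat_lit 157)) (XT.lf (nat_lit 0) (nat_lit 58585975026) (nat_lit 152) (nat_lit 19727710442) (nat_lit 0) (nat_lit 18950079188) (nat_lit 5) (nat_lit 5) (nat_lit 7) (nat_lit 4) (nat_lit 5) (nat_lit 4) (nat_lit 326) (nat_lit 238) (nat_lit 156))) (XT.nd (nat_lit 78) (nat_lit 76) (nat_lit 0) (XT.lf (nat_lit 0) (nat_lit 67299947000) (nat_lit 152) (nat_lit 6957678892) (nat_lit 0) (nat_lit 27628865270) (nat_lit 5) (nat_lit 5) (nat_lit 7) (nat_lit 4) (nat_lit 5) (nat_lit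 4) (nat_lit 327) (nat_lit 238) (nat_lit 155)) (XT.nd (nat_lit 78) (nat_lit 0) (nat_lit 0) (XT.lf (nat_lit 0) (nat_lit 6556190543) (nat_lit 76) (nat_lit 69943629956) (nat_lit 76) (nat_lit 30239037854) (nat_lit 4) (nat_lit 4) (nat_lit 5) (nat_lit 5) (nat_lit 5) (nat_lit 4) (nat_lit 328) (nat_lit 238) (nat_lit 154)) (XT.lf (nat_lit 0) (nat_lit 20869197676) (nat_lit 76) (nat_lit 65349693408) (nat_lit 76) (nat_lit 25613186664) (nat_lit 4) (nat_lit 4) (nat_lit 5) (nat_lit 5) (nat_lit 5) (nat_lit 4) (nat_lit 329) (nat_lit 238) (nat_lit 153))))) (XT.nd (nat_lit 234) (nat_lit 836) (nat_lit 0) (XT.nd (nat_lit 78) (nat_lit 532) (nat_lit 0) (XT.lf (nat_lit 0) (nat_lit 1558870776) (nat_lit 76) (nat_lit 834158646) (nat_lit 76) (nat_lit 834158646) (nat_lit 261) (nat_lit 4) (nat_lit 262) (nat_lit 5) (nat_lit 262) (nat_lit 4) (nat_lit 242) (nat_lit 239) (nat_lit 239)) (XT.nd (nat_lit 78) (nat_lit 304) (nat_lit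 0) (XT.lf (nat_lit 0) (nat_lit 1657290255) (nat_lit 152) (nat_lit 1241273029) (nat_lit 228) (nat_lit 3572595537) (nat_lit 258) (nat_lit 5) (nat_lit 260) (nat_lit 5) (nat_lit 261) (nat_lit 4) (nat_lit 243) (nat_lit 239) (nat_lit 238)) (XT.lf (nat_lit 0) (nat_lit 290584862) (nat_lit 228) (nat_lit 607746850) (nat_lit 304) (nat_lit 5598293133) (nat_lit 254) (nat_lit 5) (nat_lit 257) (nat_lit 5) (nat_lit 258) (nat_lit 5) (nat_lit 244) (nat_lit 239) (nat_lit 237)))) (XT.nd (nat_lit 78) (nat_lit 836) (nat_lit 0) (XT.lf (nat_lit 0) (nat_lit 5295913507) (nat_lit 304) (nat_lit 983408782) (nat_lit 76) (nat_lit 250797457) (nat_lit 254) (nat_lit 5) (nat_lit 258) (nat_lit 5) (nat_lit 255) (nat_lit 4) (nat_lit 245) (nat_lit 239) (nat_lit 236)) (XT.nd (nat_lit 78) (nat_lit 456) (nat_lit 0) (XT.lf (nat_lit 0) (nat_lit 3066924645) (nat_lit 380) (nat_lit 2189408037) (nat_lit 76) (nat_lit 1315507702) (nat_lit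 249) (nat_lit 5) (nat_lit 254) (nat_lit 5) (nat_lit 250) (nat_lit 5) (nat_lit 246) (nat_lit 239) (nat_lit 235)) (XT.lf (nat_lit 0) (nat_lit 709258504) (nat_lit 456) (nat_lit 3324053502) (nat_lit 76) (nat_lit 2589099706) (nat_lit 243) (nat_lit 5) (nat_lit 249) (nat_lit 5) (nat_lit 244) (nat_lit 5) (nat_lit 247) (nat_lit 239) (nat_lit 234))))))) (XT.nd (nat_lit 858) (nat_lit 4332) (nat_lit 0) (XT.nd (nat_lit 390) (nat_lit 5472) (nat_lit 0) (XT.nd (nat_lit 156) (nat_lit 1444) (nat_lit 0) (XT.nd (nat_lit 78) (nat_lit 608) (nat_lit 0) (XT.lf (nat_lit 0) (nat_lit 2270942482) (nat_lit 456) (nat_lit 2589329913) (nat_lit 532) (nat_lit 1821156932) (nat_lit 237) (nat_lit 5) (nat_lit 243) (nat_lit 5) (nat_lit 244) (nat_lit 5) (nat_lit 248) (nat_lit 239) (nat_lit 233)) (XT.lf (nat_lit 0) (nat_lit 1304123534) (nat_lit 532) (nat_lit 930424426) (nat_lit 608) (nat_lit 4514761793) (nat_lit 229) (nat_lit 5)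 (nat_lit 236) (nat_lit 5) (nat_lit 237) (nat_lit 5) (nat_lit 249) (nat_lit 239) (nat_lit 232))) (XT.nd (nat_lit 78) (nat_lit 836) (nat_lit 0) (XT.lf (nat_lit 0) (nat_lit 384863732) (nat_lit 608) (nat_lit 5898980500) (nat_lit 684) (nat_lit 542152724) (nat_lit 221) (nat_lit 5) (nat_lit 229) (nat_lit 5) (nat_lit 230) (nat_lit 5) (nat_lit 250) (nat_lit 239) (nat_lit 231)) (XT.nd (nat_lit 78) (nat_lit 760) (nat_lit 0) (XT.lf (nat_lit 0) (nat_lit 3401403459) (nat_lit 684) (nat_lit 503098600) (nat_lit 76) (nat_lit 3006422846) (nat_lit 220) (nat_lit 5) (nat_lit 229) (nat_lit 5) (nat_lit 221) (nat_lit 5) (nat_lit 251) (nat_lit 239) (nat_lit 230)) (XT.lf (nat_lit 0) (nat_lit 360737396) (nat_lit 760) (nat_lit 1337241567) (nat_lit 76) (nat_lit 5307293408) (nat_lit 210) (nat_lit 5) (nat_lit 220) (nat_lit 5) (nat_lit 211) (nat_lit 5) (nat_lit 252) (nat_lit 239) (nat_lit 229))))) (XT.nd (nat_lit 234) (nat_lit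 2888) (nat_lit 0) (XT.nd (nat_lit 78) (nat_lit 1824) (nat_lit 0) (XT.lf (nat_lit 0) (nat_lit 4206257318) (nat_lit 836) (nat_lit 2165984996) (nat_lit 76) (nat_lit 736080307) (nat_lit 200) (nat_lit 5) (nat_lit 211) (nat_lit 5) (nat_lit 201) (nat_lit 5) (nat_lit 253) (nat_lit 239) (nat_lit 228)) (XT.nd (nat_lit 78) (nat_lit 912) (nat_lit 0) (XT.lf (nat_lit 0) (nat_lit 879740774) (nat_lit 912) (nat_lit 2983829971) (nat_lit 76) (nat_lit 3357098603) (nat_lit 188) (nat_lit 5) (nat_lit 200) (nat_lit 5) (nat_lit 189) (nat_lit 5) (nat_lit 254) (nat_lit 239) (nat_lit 227)) (XT.lf (nat_lit 0) (nat_lit 3539475825) (nat_lit 912) (nat_lit 1115898950) (nat_lit 988) (nat_lit 2687033160) (nat_lit 176) (nat_lit 5) (nat_lit 188) (nat_lit 5) (nat_lit 189) (nat_lit 5) (nat_lit 255) (nat_lit 239) (nat_lit 226)))) (XT.nd (nat_lit 78) (nat_lit 1824) (nat_lit 0) (XT.lf (nat_lit 0) (nat_lit 1016412423) (nat_lit 1064)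 (nat_lit 4632399194) (nat_lit 76) (nat_lit 1824947283) (nat_lit 162) (nat_lit 5) (nat_lit 176) (nat_lit 5) (nat_lit 163) (nat_lit 5) (nat_lit 256) (nat_lit 239) (nat_lit 225)) (XT.nd (nat_lit 78) (nat_lit 760) (nat_lit 0) (XT.lf (nat_lit 0) (nat_lit 2121511721) (nat_lit 1064) (nat_lit 2620066747) (nat_lit 1140) (nat_lit 2873047287) (nat_lit 148) (nat_lit 5) (nat_lit 162) (nat_lit 5) (nat_lit 163) (nat_lit 5) (nat_lit 257) (nat_lit 239) (nat_lit 224)) (XT.lf (nat_lit 0) (nat_lit 766070384) (nat_lit 760) (nat_lit 6372279560) (nat_lit 76) (nat_lit 627611462) (nat_lit 138) (nat_lit 5) (nat_lit 148) (nat_lit 5) (nat_lit 139) (nat_lit 5) (nat_lit 258) (nat_lit 239) (nat_lit 223)))))) (XT.nd (nat_lit 390) (nat_lit 2204) (nat_lit 0) (XT.nd (nat_lit 156) (nat_lit 1520) (nat_lit 0) (XT.nd (nat_lit 78) (nat_lit 76) (nat_lit 0) (XT.lf (nat_lit 0) (nat_lit 604390605) (nat_lit 532) (nat_lit 3845276603)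 (nat_lit 608) (nat_lit 3477134160) (nat_lit 131) (nat_lit 5) (nat_lit 138) (nat_lit 5) (nat_lit 139) (nat_lit 5) (nat_lit 259) (nat_lit 239) (nat_lit 222)) (XT.lf (nat_lit 0) (nat_lit 120120902) (nat_lit 608) (nat_lit 200139822) (nat_lit 76) (nat_lit 7778693350) (nat_lit 130) (nat_lit 5) (nat_lit 138) (nat_lit 5) (nat_lit 131) (nat_lit 5) (nat_lit 260) (nat_lit 239) (nat_lit 221))) (XT.nd (nat_lit 78) (nat_lit 988) (nat_lit 0) (XT.lf (nat_lit 0) (nat_lit 3773185961) (nat_lit 608) (nat_lit 1089772291) (nat_lit 76) (nat_lit 3417683111) (nat_lit 123) (nat_lit 5) (nat_lit 131) (nat_lit 5) (nat_lit 124) (nat_lit 5) (nat_lit 261) (nat_lit 239) (nat_lit 220)) (XT.nd (nat_lit 78) (nat_lit 532) (nat_lit 0) (XT.lf (nat_lit 0) (nat_lit 6447786012) (nat_lit 456) (nat_lit 1078534407) (nat_lit 532) (nat_lit 947946829) (nat_lit 117) (nat_lit 5) (nat_lit 123) (nat_lit 5) (nat_lit 124) (nat_lit 5) (nat_lit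 262) (nat_lit 239) (nat_lit 219)) (XT.lf (nat_lit 0) (nat_lit 2683206407) (nat_lit 532) (nat_lit 3075148147) (nat_lit 76) (nat_lit 2920320662) (nat_lit 110) (nat_lit 5) (nat_lit 117) (nat_lit 5) (nat_lit 111) (nat_lit 5) (nat_lit 263) (nat_lit 239) (nat_lit 218))))) (XT.nd (nat_lit 234) (nat_lit 836) (nat_lit 0) (XT.nd (nat_lit 78) (nat_lit 912) (nat_lit 0) (XT.lf (nat_lit 0) (nat_lit 4677684191) (nat_lit 456) (nat_lit 1735081500) (nat_lit 532) (nat_lit 2482494462) (nat_lit 104) (nat_lit 5) (nat_lit 110) (nat_lit 5) (nat_lit 111) (nat_lit 5) (nat_lit 264) (nat_lit 239) (nat_lit 217)) (XT.nd (nat_lit 78) (nat_lit 380) (nat_lit 0) (XT.lf (nat_lit 0) (nat_lit 1137237833) (nat_lit 532) (nat_lit 5485123030) (nat_lit 76) (nat_lit 2501633036) (nat_lit 97) (nat_lit 5) (nat_lit 104) (nat_lit 5) (nat_lit 98) (nat_lit 5) (nat_lit 265) (nat_lit 239) (nat_lit 216)) (XT.lf (nat_lit 0) (nat_lit 2462728517)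 (nat_lit 380) (nat_lit 2377203775) (nat_lit 456) (nat_lit 4525187280) (nat_lit 92) (nat_lit 5) (nat_lit 97) (nat_lit 5) (nat_lit 98) (nat_lit 5) (nat_lit 266) (nat_lit 239) (nat_lit 215)))) (XT.nd (nat_lit 78) (nat_lit 456) (nat_lit 0) (XT.lf (nat_lit 0) (nat_lit 1152780703) (nat_lit 380) (nat_lit 7535500635) (nat_lit 456) (nat_lit 931482817) (nat_lit 87) (nat_lit 5) (nat_lit 92) (nat_lit 5) (nat_lit 93) (nat_lit 5) (nat_lit 267) (nat_lit 239) (nat_lit 214)) (XT.nd (nat_lit 78) (nat_lit 380) (nat_lit 0) (XT.lf (nat_lit 0) (nat_lit 2757770569) (nat_lit 456) (nat_lit 335507275) (nat_lit 76) (nat_lit 6794161249) (nat_lit 86) (nat_lit 5) (nat_lit 92) (nat_lit 5) (nat_lit 87) (nat_lit 5) (nat_lit 268) (nat_lit 239) (nat_lit 213)) (XT.lf (nat_lit 0) (nat_lit 6588497785) (nat_lit 456) (nat_lit 1978194370) (nat_lit 76) (nat_lit 1602485681) (nat_lit 81) (nat_lit 5) (nat_lit 87) (nat_lit 5) (nat_lit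 82) (nat_lit 5) (nat_lit 269) (nat_lit 239) (nat_lit 212))))))))
noncomputable def xc48 : XT := (XT.nd (nat_lit 1638) (nat_lit 1292) (nat_lit 0) (XT.nd (nat_lit 780) (nat_lit 1596) (nat_lit 0) (XT.nd (nat_lit 390) (nat_lit 1140) (nat_lit 0) (XT.nd (nat_lit 156) (nat_lit 684) (nat_lit 0) (XT.nd (nat_lit 78) (nat_lit 304) (nat_lit 0) (XT.lf (nat_lit 0) (nat_lit 126558762) (nat_lit 456) (nat_lit 3828085878) (nat_lit 76) (nat_lit 6511034030) (nat_lit 75) (nat_lit 5) (nat_lit 81) (nat_lit 5) (nat_lit 76) (nat_lit 5) (nat_lit 270) (nat_lit 239) (nat_lit 211)) (XT.lf (nat_lit 0) (nat_lit 3910659907) (nat_lit 380) (nat_lit 5922639087) (nat_lit 76) (nat_lit 943891107) (nat_lit 71) (nat_lit 5) (nat_lit 76) (nat_lit 5) (nat_lit 72) (nat_lit 5) (nat_lit 271) (nat_lit 239) (nat_lit 210))) (XT.nd (nat_lit 78) (nat_lit 380) (nat_lit 0) (XT.lf (nat_lit 0) (nat_lit 2820329146) (nat_lit 304) (nat_lit 5062423395)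 (nat_lit 380) (nat_lit 3221766449) (nat_lit 67) (nat_lit 5) (nat_lit 71) (nat_lit 5) (nat_lit 72) (nat_lit 5) (nat_lit 272) (nat_lit 239) (nat_lit 209)) (XT.nd (nat_lit 78) (nat_lit 0) (nat_lit 0) (XT.lf (nat_lit 0) (nat_lit 541143091) (nat_lit 304) (nat_lit 13608578) (nat_lit 380) (nat_lit 10894638321) (nat_lit 62) (nat_lit 5) (nat_lit 66) (nat_lit 5) (nat_lit 67) (nat_lit 5) (nat_lit 273) (nat_lit 239) (nat_lit 208)) (XT.lf (nat_lit 0) (nat_lit 4488957179) (nat_lit 380) (nat_lit 2051959784) (nat_lit 76) (nat_lit 5268746787) (nat_lit 62) (nat_lit 5) (nat_lit 67) (nat_lit 5) (nat_lit 63) (nat_lit 5) (nat_lit 274) (nat_lit 239) (nat_lit 207))))) (XT.nd (nat_lit 156) (nat_lit 532) (nat_lit 0) (XT.nd (nat_lit 78) (nat_lit 304) (nat_lit 0) (XT.lf (nat_lit 0) (nat_lit 7255556884) (nat_lit 304) (nat_lit 1336981429) (nat_lit 380) (nat_lit 3596405257) (nat_lit 58) (nat_lit 5) (nat_lit 62) (nat_lit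 5) (nat_lit 63) (nat_lit 5) (nat_lit 275) (nat_lit 239) (nat_lit 206)) (XT.lf (nat_lit 0) (nat_lit 317030958) (nat_lit 304) (nat_lit 8191309431) (nat_lit 76) (nat_lit 4078644276) (nat_lit 54) (nat_lit 5) (nat_lit 58) (nat_lit 5) (nat_lit 55) (nat_lit 5) (nat_lit 276) (nat_lit 239) (nat_lit 205))) (XT.nd (nat_lit 78) (nat_lit 228) (nat_lit 0) (XT.lf (nat_lit 0) (nat_lit 1132626562) (nat_lit 304) (nat_lit 3203524286) (nat_lit 380) (nat_lit 8668328754) (nat_lit 50) (nat_lit 5) (nat_lit 54) (nat_lit 5) (nat_lit 55) (nat_lit 5) (nat_lit 277) (nat_lit 239) (nat_lit 204)) (XT.nd (nat_lit 78) (nat_lit 228) (nat_lit 0) (XT.lf (nat_lit 0) (nat_lit 8574966892) (nat_lit 380) (nat_lit 2498746938) (nat_lit 76) (nat_lit 2368717782) (nat_lit 50) (nat_lit 5) (nat_lit 55) (nat_lit 5) (nat_lit 51) (nat_lit 5) (nat_lit 278) (nat_lit 239) (nat_lit 203)) (XT.lf (nat_lit 0) (nat_lit 7331091262) (nat_lit 228) (nat_lit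 5712517758) (nat_lit 304) (nat_lit 858273292) (nat_lit 47) (nat_lit 5) (nat_lit 50) (nat_lit 5) (nat_lit 51) (nat_lit 5) (nat_lit 279) (nat_lit 239) (nat_lit 202)))))) (XT.nd (nat_lit 390) (nat_lit 760) (nat_lit 0) (XT.nd (nat_lit 156) (nat_lit 532) (nat_lit 0) (XT.nd (nat_lit 78) (nat_lit 0) (nat_lit 0) (XT.lf (nat_lit 0) (nat_lit 3230769713) (nat_lit 228) (nat_lit 29282171) (nat_lit 304) (nat_lit 11124192325) (nat_lit 43) (nat_lit 5) (nat_lit 46) (nat_lit 5) (nat_lit 47) (nat_lit 5) (nat_lit 280) (nat_lit 239) (nat_lit 201)) (XT.lf (nat_lit 0) (nat_lit 7611600391) (nat_lit 304) (nat_lit 1414998592) (nat_lit 76) (nat_lit 5862639776) (nat_lit 43) (nat_lit 5) (nat_lit 47) (nat_lit 5) (nat_lit 44) (nat_lit 5) (nat_lit 281) (nat_lit 239) (nat_lit 200))) (XT.nd (nat_lit 78) (nat_lit 304) (nat_lit 0) (XT.lf (nat_lit 0) (nat_lit 8869263435) (nat_lit 228) (nat_lit 3320349962) (nat_lit 304) (nat_lit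 3229718470) (nat_lit 40) (nat_lit 5) (nat_lit 43) (nat_lit 5) (nat_lit 44) (nat_lit 5) (nat_lit 282) (nat_lit 239) (nat_lit 199)) (XT.nd (nat_lit 78) (nat_lit 0) (nat_lit 0) (XT.lf (nat_lit 0) (nat_lit 1001673916) (nat_lit 304) (nat_lit 12331146410) (nat_lit 76) (nat_lit 2642891968) (nat_lit 36) (nat_lit 5) (nat_lit 40) (nat_lit 5) (nat_lit 37) (nat_lit 5) (nat_lit 283) (nat_lit 239) (nat_lit 198)) (XT.lf (nat_lit 0) (nat_lit 5407317224) (nat_lit 304) (nat_lit 2249808799) (nat_lit 76) (nat_lit 8901043752) (nat_lit 36) (nat_lit 5) (nat_lit 40) (nat_lit 5) (nat_lit 37) (nat_lit 5) (nat_lit 284) (nat_lit 239) (nat_lit 197))))) (XT.nd (nat_lit 234) (nat_lit 304) (nat_lit 0) (XT.nd (nat_lit 78) (nat_lit 304) (nat_lit 0) (XT.lf (nat_lit 0) (nat_lit 8393720816) (nat_lit 152) (nat_lit 1650919886) (nat_lit 228) (nat_lit 7124864308) (nat_lit 34) (nat_lit 5) (nat_lit 36) (nat_lit 5) (nat_lit 37) (nat_lit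 5) (nat_lit 285) (nat_lit 239) (nat_lit 196)) (XT.nd (nat_lit 78) (nat_lit 76) (nat_lit 0) (XT.lf (nat_lit 0) (nat_lit 1689315644) (nat_lit 228) (nat_lit 13241577394) (nat_lit 304) (nat_lit 2880094297) (nat_lit 31) (nat_lit 5) (nat_lit 34) (nat_lit 5) (nat_lit 35) (nat_lit 5) (nat_lit 286) (nat_lit 239) (nat_lit 195)) (XT.lf (nat_lit 0) (nat_lit 1588222193) (nat_lit 304) (nat_lit 5756289877) (nat_lit 76) (nat_lit 11138399839) (nat_lit 30) (nat_lit 5) (nat_lit 34) (nat_lit 5) (nat_lit 31) (nat_lit 5) (nat_lit 287) (nat_lit 239) (nat_lit 194)))) (XT.nd (nat_lit 78) (nat_lit 152) (nat_lit 0) (XT.lf (nat_lit 0) (nat_lit 5099905266) (nat_lit 152) (nat_lit 1107378463) (nat_lit 228) (nat_lit 12980767890) (nat_lit 28) (nat_lit 5) (nat_lit 30) (nat_lit 5) (nat_lit 31) (nat_lit 5) (nat_lit 288) (nat_lit 239) (nat_lit 193)) (XT.nd (nat_lit 78) (nat_lit 152) (nat_lit 0) (XT.lf (nat_lit 0) (nat_lit 11108505225)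 (nat_lit 228) (nat_lit 3457027348) (nat_lit 76) (nat_lit 5361456870) (nat_lit 28) (nat_lit 5) (nat_lit 31) (nat_lit 5) (nat_lit 29) (nat_lit 5) (nat_lit 289) (nat_lit 239) (nat_lit 192)) (XT.lf (nat_lit 0) (nat_lit 7753714795) (nat_lit 152) (nat_lit 8528741738) (nat_lit 228) (nat_lit 4419661213) (nat_lit 26) (nat_lit 5) (nat_lit 28) (nat_lit 5) (nat_lit 29) (nat_lit 5) (nat_lit 290) (nat_lit 239) (nat_lit 191))))))) (XT.nd (nat_lit 780) (nat_lit 532) (nat_lit 0) (XT.nd (nat_lit 390) (nat_lit 380) (nat_lit 0) (XT.nd (nat_lit 156) (nat_lit 152) (nat_lit 0) (XT.nd (nat_lit 78) (nat_lit 152) (nat_lit 0) (XT.lf (nat_lit 0) (nat_lit 174395112) (nat_lit 228) (nat_lit 2010582959) (nat_lit 76) (nat_lit 19331659754) (nat_lit 25) (nat_lit 5) (nat_lit 28) (nat_lit 5) (nat_lit 26) (nat_lit 5) (nat_lit 291) (nat_lit 239) (nat_lit 190)) (XT.lf (nat_lit 0) (nat_lit 4989204139) (nat_lit 228) (nat_lit 12884383561)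 (nat_lit 76) (nat_lit 4494574640) (nat_lit 23) (nat_lit 5) (nat_lit 26) (nat_lit 5) (nat_lit 24) (nat_lit 5) (nat_lit 292) (nat_lit 239) (nat_lit 189))) (XT.nd (nat_lit 78) (nat_lit 152) (nat_lit 0) (XT.lf (nat_lit 0) (nat_lit 10035115441) (nat_lit 228) (nat_lit 1774182691) (nat_lit 76) (nat_lit 11453315861) (nat_lit 23) (nat_lit 5) (nat_lit 26) (nat_lit 5) (nat_lit 24) (nat_lit 5) (nat_lit 293) (nat_lit 239) (nat_lit 188)) (XT.nd (nat_lit 78) (nat_lit 0) (nat_lit 0) (XT.lf (nat_lit 0) (nat_lit 10005674040) (nat_lit 152) (nat_lit 5373739606) (nat_lit 228) (nat_lit 8821050672) (nat_lit 21) (nat_lit 5) (nat_lit 23) (nat_lit 5) (nat_lit 24) (nat_lit 5) (nat_lit 294) (nat_lit 239) (nat_lit 187)) (XT.lf (nat_lit 0) (nat_lit 20973918448) (nat_lit 228) (nat_lit 2866535890) (nat_lit 76) (nat_lit 1345319095) (nat_lit 21) (nat_lit 5) (nat_lit 24) (nat_lit 5) (nat_lit 22) (nat_lit 4) (nat_lit 295)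 (nat_lit 239) (nat_lit 186))))) (XT.nd (nat_lit 156) (nat_lit 228) (nat_lit 0) (XT.nd (nat_lit 78) (nat_lit 0) (nat_lit 0) (XT.lf (nat_lit 0) (nat_lit 711478181) (nat_lit 152) (nat_lit 17149736241) (nat_lit 76) (nat_lit 8356126494) (nat_lit 19) (nat_lit 5) (nat_lit 21) (nat_lit 5) (nat_lit 20) (nat_lit 5) (nat_lit 296) (nat_lit 239) (nat_lit 185)) (XT.lf (nat_lit 0) (nat_lit 5779054506) (nat_lit 152) (nat_lit 5759005459) (nat_lit 76) (nat_lit 15761669575) (nat_lit 19) (nat_lit 5) (nat_lit 21) (nat_lit 5) (nat_lit 20) (nat_lit 5) (nat_lit 297) (nat_lit 239) (nat_lit 184))) (XT.nd (nat_lit 78) (nat_lit 76) (nat_lit 0) (XT.lf (nat_lit 0) (nat_lit 6251872756) (nat_lit 152) (nat_lit 4864970634) (nat_lit 228) (nat_lit 17318936181) (nat_lit 17) (nat_lit 5) (nat_lit 19) (nat_lit 5) (nat_lit 20) (nat_lit 5) (nat_lit 298) (nat_lit 239) (nat_lit 183)) (XT.nd (nat_lit 78) (nat_lit 76) (nat_lit 0) (XT.lf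 (nat_lit 0) (nat_lit 16759847075) (nat_lit 228) (nat_lit 10734763614) (nat_lit 76) (nat_lit 2132916404) (nat_lit 17) (nat_lit 5) (nat_lit 20) (nat_lit 5) (nat_lit 18) (nat_lit 4) (nat_lit 299) (nat_lit 239) (nat_lit 182)) (XT.lf (nat_lit 0) (nat_lit 1194007878) (nat_lit 76) (nat_lit 21511446760) (nat_lit 152) (nat_lit 8172836363) (nat_lit 16) (nat_lit 5) (nat_lit 17) (nat_lit 5) (nat_lit 18) (nat_lit 4) (nat_lit 300) (nat_lit 239) (nat_lit 181)))))) (XT.nd (nat_lit 390) (nat_lit 304) (nat_lit 0) (XT.nd (nat_lit 156) (nat_lit 152) (nat_lit 0) (XT.nd (nat_lit 78) (nat_lit 76) (nat_lit 0) (XT.lf (nat_lit 0) (nat_lit 13878439253) (nat_lit 76) (nat_lit 15141566078) (nat_lit 152) (nat_lit 3169478480) (nat_lit 16) (nat_lit 5) (nat_lit 17) (nat_lit 5) (nat_lit 18) (nat_lit 4) (nat_lit 301) (nat_lit 239) (nat_lit 180)) (XT.lf (nat_lit 0) (nat_lit 2005983322) (nat_lit 152) (nat_lit 6451962506) (nat_lit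 76) (nat_lit 25108848872) (nat_lit 15) (nat_lit 5) (nat_lit 17) (nat_lit 5) (nat_lit 16) (nat_lit 5) (nat_lit 302) (nat_lit 239) (nat_lit 179))) (XT.nd (nat_lit 78) (nat_lit 0) (nat_lit 0) (XT.lf (nat_lit 0) (nat_lit 6025874319) (nat_lit 152) (nat_lit 1371712037) (nat_lit 228) (nat_lit 27613791559) (nat_lit 13) (nat_lit 5) (nat_lit 15) (nat_lit 5) (nat_lit 16) (nat_lit 5) (nat_lit 303) (nat_lit 239) (nat_lit 178)) (XT.nd (nat_lit 78) (nat_lit 0) (nat_lit 0) (XT.lf (nat_lit 0) (nat_lit 13149476622) (nat_lit 228) (nat_lit 17381685682) (nat_lit 76) (nat_lit 5994340815) (nat_lit 13) (nat_lit 5) (nat_lit 16) (nat_lit 5) (nat_lit 14) (nat_lit 4) (nat_lit 304) (nat_lit 239) (nat_lit 177)) (XT.lf (nat_lit 0) (nat_lit 19169753930) (nat_lit 228) (nat_lit 5267639037) (nat_lit 76) (nat_lit 13678550263) (nat_lit 13) (nat_lit 5) (nat_lit 16) (nat_lit 5) (nat_lit 14) (nat_lit 4) (nat_lit 305) (nat_lit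 239) (nat_lit 176))))) (XT.nd (nat_lit 234) (nat_lit 228) (nat_lit 0) (XT.nd (nat_lit 78) (nat_lit 0) (nat_lit 0) (XT.lf (nat_lit 0) (nat_lit 7545912984) (nat_lit 76) (nat_lit 17986189484) (nat_lit 152) (nat_lit 14252602033) (nat_lit 12) (nat_lit 5) (nat_lit 13) (nat_lit 5) (nat_lit 14) (nat_lit 4) (nat_lit 306) (nat_lit 239) (nat_lit 175)) (XT.nd (nat_lit 78) (nat_lit 0) (nat_lit 0) (XT.lf (nat_lit 0) (nat_lit 21058307859) (nat_lit 76) (nat_lit 11178007666) (nat_lit 152) (nat_lit 9299905305) (nat_lit 12) (nat_lit 5) (nat_lit 13) (nat_lit 5) (nat_lit 14) (nat_lit 4) (nat_lit 307) (nat_lit 239) (nat_lit 174)) (XT.lf (nat_lit 0) (nat_lit 35196881611) (nat_lit 76) (nat_lit 4049830382) (nat_lit 152) (nat_lit 4129499807) (nat_lit 12) (nat_lit 5) (nat_lit 13) (nat_lit 5) (nat_lit 14) (nat_lit 4) (nat_lit 308) (nat_lit 239) (nat_lit 173)))) (XT.nd (nat_lit 78) (nat_lit 0) (nat_lit 0) (XT.lf (nat_lit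 0) (nat_lit 1325353123) (nat_lit 228) (nat_lit 40573677403) (nat_lit 76) (nat_lit 3407284452) (nat_lit 9) (nat_lit 5) (nat_lit 12) (nat_lit 5) (nat_lit 10) (nat_lit 4) (nat_lit 309) (nat_lit 239) (nat_lit 172)) (XT.nd (nat_lit 78) (nat_lit 0) (nat_lit 0) (XT.lf (nat_lit 0) (nat_lit 7067002565) (nat_lit 228) (nat_lit 28999612935) (nat_lit 76) (nat_lit 11262122147) (nat_lit 9) (nat_lit 5) (nat_lit 12) (nat_lit 5) (nat_lit 10) (nat_lit 4) (nat_lit 310) (nat_lit 239) (nat_lit 171)) (XT.lf (nat_lit 0) (nat_lit 13069787611) (nat_lit 228) (nat_lit 16891563003) (nat_lit 76) (nat_lit 19491732729) (nat_lit 9) (nat_lit 5) (nat_lit 12) (nat_lit 5) (nat_lit 10) (nat_lit 4) (nat_lit 311) (nat_lit 239) (nat_lit 170))))))))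
noncomputable def xc49 : XT := (XT.nd (nat_lit 32136) (nat_lit 0) (nat_lit 8056) (XT.nd (nat_lit 780) (nat_lit 152) (nat_lit 0) (XT.nd (nat_lit 390) (nat_lit 152) (nat_lit 0) (XT.nd (nat_lit 156) (nat_lit 0) (nat_lit 0) (XT.nd (nat_lit 78) (nat_lit 76) (nat_lit 0) (XT.lf (nat_lit 0) (nat_lit 19348000608) (nat_lit 228) (nat_lit 4220698917) (nat_lit 76) (nat_lit 28115710509) (nat_lit 9) (nat_lit 5) (nat_lit 12) (nat_lit 5) (nat_lit 10) (nat_lit 4) (nat_lit 312) (nat_lit 239) (nat_lit 169)) (XT.lf (nat_lit 0) (nat_lit 9223124424) (nat_lit 76) (nat_lit 16782123571) (nat_lit 152) (nat_lit 28020122656) (nat_lit 8) (nat_lit 5) (nat_lit 9) (nat_lit 5) (nat_lit 10) (nat_lit 4) (nat_lit 313) (nat_lit 239) (nat_lit 168))) (XT.nd (nat_lit 78) (nat_lit 0) (nat_lit 0) (XT.lf (nat_lit 0) (nat_lit 23387941453) (nat_lit 76) (nat_lit 9628072075) (nat_lit 152) (nat_lit 23466766386) (nat_lit 8) (nat_lit 5)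 (nat_lit 9) (nat_lit 5) (nat_lit 10) (nat_lit 4) (nat_lit 314) (nat_lit 239) (nat_lit 167)) (XT.nd (nat_lit 78) (nat_lit 0) (nat_lit 0) (XT.lf (nat_lit 0) (nat_lit 38223477741) (nat_lit 76) (nat_lit 2132132365) (nat_lit 152) (nat_lit 18708120077) (nat_lit 8) (nat_lit 5) (nat_lit 9) (nat_lit 5) (nat_lit 10) (nat_lit 4) (nat_lit 315) (nat_lit 239) (nat_lit 166)) (XT.lf (nat_lit 0) (nat_lit 48096531157) (nat_lit 152) (nat_lit 8064328781) (nat_lit 0) (nat_lit 5611856093) (nat_lit 8) (nat_lit 5) (nat_lit 10) (nat_lit 4) (nat_lit 8) (nat_lit 4) (nat_lit 316) (nat_lit 239) (nat_lit 165))))) (XT.nd (nat_lit 156) (nat_lit 76) (nat_lit 0) (XT.nd (nat_lit 78) (nat_lit 0) (nat_lit 0) (XT.lf (nat_lit 0) (nat_lit 5399735721) (nat_lit 76) (nat_lit 50878361246) (nat_lit 76) (nat_lit 8337463769) (nat_lit 7) (nat_lit 4) (nat_lit 8) (nat_lit 5) (nat_lit 8) (nat_lit 4) (nat_lit 317) (nat_lit 239) (nat_lit 164))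 (XT.lf (nat_lit 0) (nat_lit 19672009731) (nat_lit 76) (nat_lit 45260541483) (nat_lit 76) (nat_lit 2666098851) (nat_lit 7) (nat_lit 4) (nat_lit 8) (nat_lit 5) (nat_lit 8) (nat_lit 4) (nat_lit 318) (nat_lit 239) (nat_lit 163))) (XT.nd (nat_lit 78) (nat_lit 0) (nat_lit 0) (XT.lf (nat_lit 0) (nat_lit 3206170147) (nat_lit 152) (nat_lit 36136912617) (nat_lit 76) (nat_lit 31387432717) (nat_lit 6) (nat_lit 5) (nat_lit 8) (nat_lit 5) (nat_lit 7) (nat_lit 4) (nat_lit 319) (nat_lit 239) (nat_lit 162)) (XT.nd (nat_lit 78) (nat_lit 0) (nat_lit 0) (XT.lf (nat_lit 0) (nat_lit 9299819326) (nat_lit 152) (nat_lit 23815371818) (nat_lit 76) (nat_lit 40903518642) (nat_lit 6) (nat_lit 5) (nat_lit 8) (nat_lit 5) (nat_lit 7) (nat_lit 4) (nat_lit 320) (nat_lit 239) (nat_lit 161)) (XT.lf (nat_lit 0) (nat_lit 15681382563) (nat_lit 152) (nat_lit 10907052763) (nat_lit 76) (nat_lit 50883395530) (nat_lit 6) (nat_lit 5)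 (nat_lit 8) (nat_lit 5) (nat_lit 7) (nat_lit 4) (nat_lit 321) (nat_lit 239) (nat_lit 160)))))) (XT.nd (nat_lit 390) (nat_lit 76) (nat_lit 0) (XT.nd (nat_lit 156) (nat_lit 0) (nat_lit 0) (XT.nd (nat_lit 78) (nat_lit 0) (nat_lit 0) (XT.lf (nat_lit 0) (nat_lit 2670897469) (nat_lit 76) (nat_lit 19720830890) (nat_lit 152) (nat_lit 58705601825) (nat_lit 5) (nat_lit 5) (nat_lit 6) (nat_lit 5) (nat_lit 7) (nat_lit 4) (nat_lit 322) (nat_lit 239) (nat_lit 159)) (XT.lf (nat_lit 0) (nat_lit 17128566784) (nat_lit 76) (nat_lit 12405833173) (nat_lit 152) (nat_lit 55366812961) (nat_lit 5) (nat_lit 5) (nat_lit 6) (nat_lit 5) (nat_lit 7) (nat_lit 4) (nat_lit 323) (nat_lit 239) (nat_lit 158))) (XT.nd (nat_lit 78) (nat_lit 0) (nat_lit 0) (XT.lf (nat_lit 0) (nat_lit 32283306468) (nat_lit 76) (nat_lit 4736165362) (nat_lit 152) (nat_lit 51876272053) (nat_lit 5) (nat_lit 5) (nat_lit 6) (nat_lit 5) (nat_lit 7) (nat_lit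 4) (nat_lit 324) (nat_lit 239) (nat_lit 157)) (XT.nd (nat_lit 78) (nat_lit 0) (nat_lit 0) (XT.lf (nat_lit 0) (nat_lit 44896549041) (nat_lit 152) (nat_lit 44951018096) (nat_lit 0) (nat_lit 3241913224) (nat_lit 5) (nat_lit 5) (nat_lit 7) (nat_lit 4) (nat_lit 5) (nat_lit 4) (nat_lit 325) (nat_lit 239) (nat_lit 156)) (XT.lf (nat_lit 0) (nat_lit 53201823230) (nat_lit 152) (nat_lit 32778059588) (nat_lit 0) (nat_lit 11512001522) (nat_lit 5) (nat_lit 5) (nat_lit 7) (nat_lit 4) (nat_lit 5) (nat_lit 4) (nat_lit 326) (nat_lit 239) (nat_lit 155))))) (XT.nd (nat_lit 30732) (nat_lit 0) (nat_lit 19456) (XT.nd (nat_lit 78) (nat_lit 76) (nat_lit 0) (XT.lf (nat_lit 0) (nat_lit 61909541941) (nat_lit 152) (nat_lit 20019051737) (nat_lit 0) (nat_lit 20186209861) (nat_lit 5) (nat_lit 5) (nat_lit 7) (nat_lit 4) (nat_lit 5) (nat_lit 4) (nat_lit 327) (nat_lit 239) (nat_lit 154)) (XT.nd (nat_lit 78) (nat_lit 76) (nat_lit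 0) (XT.lf (nat_lit 0) (nat_lit 71040437839) (nat_lit 152) (nat_lit 6643615954) (nat_lit 0) (nat_lit 29285191117) (nat_lit 5) (nat_lit 5) (nat_lit 7) (nat_lit 4) (nat_lit 5) (nat_lit 4) (nat_lit 328) (nat_lit 239) (nat_lit 153)) (XT.lf (nat_lit 0) (nat_lit 7526972379) (nat_lit 76) (nat_lit 73161632635) (nat_lit 76) (nat_lit 31375991018) (nat_lit 4) (nat_lit 4) (nat_lit 5) (nat_lit 5) (nat_lit 5) (nat_lit 4) (nat_lit 329) (nat_lit 239) (nat_lit 152)))) (XT.nd (nat_lit 78) (nat_lit 228) (nat_lit 0) (XT.lf (nat_lit 0) (nat_lit 1073741823) (nat_lit 0) (nat_lit 0) (nat_lit 0) (nat_lit 0) (nat_lit 263) (nat_lit 0) (nat_lit 1) (nat_lit 0) (nat_lit 1) (nat_lit 0) (nat_lit 240) (nat_lit 240) (nat_lit 240)) (XT.nd (nat_lit 78) (nat_lit 152) (nat_lit 0) (XT.lf (nat_lit 0) (nat_lit 4557508393) (nat_lit 76) (nat_lit 1769317886) (nat_lit 0) (nat_lit 119375521) (nat_lit 262) (nat_lit 5) (nat_lit 263) (nat_lit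 0) (nat_lit 262) (nat_lit 4) (nat_lit 241) (nat_lit 240) (nat_lit 239)) (XT.lf (nat_lit 0) (nat_lit 2571384051) (nat_lit 152) (nat_lit 3445016459) (nat_lit 76) (nat_lit 442132409) (nat_lit 260) (nat_lit 5) (nat_lit 262) (nat_lit 5) (nat_lit 261) (nat_lit 4) (nat_lit 242) (nat_lit 240) (nat_lit 238))))))) (XT.nd (nat_lit 780) (nat_lit 7600) (nat_lit 0) (XT.nd (nat_lit 390) (nat_lit 2508) (nat_lit 0) (XT.nd (nat_lit 156) (nat_lit 1064) (nat_lit 0) (XT.nd (nat_lit 78) (nat_lit 0) (nat_lit 0) (XT.lf (nat_lit 0) (nat_lit 477110512) (nat_lit 228) (nat_lit 5033308955) (nat_lit 76) (nat_lit 969053754) (nat_lit 257) (nat_lit 5) (nat_lit 260) (nat_lit 5) (nat_lit 258) (nat_lit 5) (nat_lit 243) (nat_lit 240) (nat_lit 237)) (XT.lf (nat_lit 0) (nat_lit 4741985300) (nat_lit 228) (nat_lit 47706813) (nat_lit 76) (nat_lit 1718856578) (nat_lit 257) (nat_lit 5) (nat_lit 260) (nat_lit 5) (nat_lit 258) (nat_lit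 5) (nat_lit 244) (nat_lit 240) (nat_lit 236))) (XT.nd (nat_lit 78) (nat_lit 760) (nat_lit 0) (XT.lf (nat_lit 0) (nat_lit 2414179433) (nat_lit 304) (nat_lit 1436737513) (nat_lit 76) (nat_lit 2694865429) (nat_lit 253) (nat_lit 5) (nat_lit 257) (nat_lit 5) (nat_lit 254) (nat_lit 5) (nat_lit 245) (nat_lit 240) (nat_lit 235)) (XT.nd (nat_lit 78) (nat_lit 456) (nat_lit 0) (XT.lf (nat_lit 0) (nat_lit 3841348082) (nat_lit 304) (nat_lit 2710610230) (nat_lit 380) (nat_lit 39850774) (nat_lit 249) (nat_lit 5) (nat_lit 253) (nat_lit 5) (nat_lit 254) (nat_lit 5) (nat_lit 246) (nat_lit 240) (nat_lit 234)) (XT.lf (nat_lit 0) (nat_lit 2626970492) (nat_lit 380) (nat_lit 1340698193) (nat_lit 456) (nat_lit 2678331121) (nat_lit 243) (nat_lit 5) (nat_lit 248) (nat_lit 5) (nat_lit 249) (nat_lit 5) (nat_lit 247) (nat_lit 240) (nat_lit 233))))) (XT.nd (nat_lit 156) (nat_lit 1444) (nat_lit 0) (XT.nd (nat_lit 78)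 (nat_lit 532) (nat_lit 0) (XT.lf (nat_lit 0) (nat_lit 1249394072) (nat_lit 532) (nat_lit 5226632830) (nat_lit 76) (nat_lit 233097167) (nat_lit 236) (nat_lit 5) (nat_lit 243) (nat_lit 5) (nat_lit 237) (nat_lit 5) (nat_lit 248) (nat_lit 240) (nat_lit 232)) (XT.lf (nat_lit 0) (nat_lit 373344485) (nat_lit 532) (nat_lit 4775920577) (nat_lit 608) (nat_lit 1631217200) (nat_lit 229) (nat_lit 5) (nat_lit 236) (nat_lit 5) (nat_lit 237) (nat_lit 5) (nat_lit 249) (nat_lit 240) (nat_lit 231))) (XT.nd (nat_lit 78) (nat_lit 1368) (nat_lit 0) (XT.lf (nat_lit 0) (nat_lit 2174615420) (nat_lit 608) (nat_lit 677145000) (nat_lit 76) (nat_lit 4008730819) (nat_lit 228) (nat_lit 5) (nat_lit 236) (nat_lit 5) (nat_lit 229) (nat_lit 5) (nat_lit 250) (nat_lit 240) (nat_lit 230)) (XT.nd (nat_lit 78) (nat_lit 760) (nat_lit 0) (XT.lf (nat_lit 0) (nat_lit 5271075961) (nat_lit 608) (nat_lit 705643816) (nat_lit 684) (nat_lit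 972816247) (nat_lit 220) (nat_lit 5) (nat_lit 228) (nat_lit 5) (nat_lit 229) (nat_lit 5) (nat_lit 251) (nat_lit 240) (nat_lit 229)) (XT.lf (nat_lit 0) (nat_lit 2728853131) (nat_lit 760) (nat_lit 2673117887) (nat_lit 76) (nat_lit 1645074475) (nat_lit 210) (nat_lit 5) (nat_lit 220) (nat_lit 5) (nat_lit 211) (nat_lit 5) (nat_lit 252) (nat_lit 240) (nat_lit 228)))))) (XT.nd (nat_lit 390) (nat_lit 2888) (nat_lit 0) (XT.nd (nat_lit 156) (nat_lit 3040) (nat_lit 0) (XT.nd (nat_lit 78) (nat_lit 912) (nat_lit 0) (XT.lf (nat_lit 0) (nat_lit 3508941506) (nat_lit 760) (nat_lit 2948489813) (nat_lit 836) (nat_lit 696478255) (nat_lit 200) (nat_lit 5) (nat_lit 210) (nat_lit 5) (nat_lit 211) (nat_lit 5) (nat_lit 253) (nat_lit 240) (nat_lit 227)) (XT.lf (nat_lit 0) (nat_lit 2654965096) (nat_lit 836) (nat_lit 252943572) (nat_lit 912) (nat_lit 4362025544) (nat_lit 188) (nat_lit 5) (nat_lit 199) (nat_lit 5) (nat_lit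 200) (nat_lit 5) (nat_lit 254) (nat_lit 240) (nat_lit 226))) (XT.nd (nat_lit 78) (nat_lit 2128) (nat_lit 0) (XT.lf (nat_lit 0) (nat_lit 1799138532) (nat_lit 912) (nat_lit 4775885816) (nat_lit 988) (nat_lit 820173096) (nat_lit 176) (nat_lit 5) (nat_lit 188) (nat_lit 5) (nat_lit 189) (nat_lit 5) (nat_lit 255) (nat_lit 240) (nat_lit 225)) (XT.nd (nat_lit 78) (nat_lit 1064) (nat_lit 0) (XT.lf (nat_lit 0) (nat_lit 933709316) (nat_lit 988) (nat_lit 1789798897) (nat_lit 1064) (nat_lit 4806450705) (nat_lit 162) (nat_lit 5) (nat_lit 175) (nat_lit 5) (nat_lit 176) (nat_lit 5) (nat_lit 256) (nat_lit 240) (nat_lit 224)) (XT.lf (nat_lit 0) (nat_lit 56546267) (nat_lit 1064) (nat_lit 6271641268) (nat_lit 1140) (nat_lit 1346489808) (nat_lit 148) (nat_lit 5) (nat_lit 162) (nat_lit 5) (nat_lit 163) (nat_lit 5) (nat_lit 257) (nat_lit 240) (nat_lit 223))))) (XT.nd (nat_lit 234) (nat_lit 1520) (nat_lit 0) (XT.nd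 (nat_lit 78) (nat_lit 1292) (nat_lit 0) (XT.lf (nat_lit 0) (nat_lit 2162025187) (nat_lit 1140) (nat_lit 844614599) (nat_lit 76) (nat_lit 4822176514) (nat_lit 147) (nat_lit 5) (nat_lit 162) (nat_lit 5) (nat_lit 148) (nat_lit 5) (nat_lit 258) (nat_lit 240) (nat_lit 222)) (XT.nd (nat_lit 78) (nat_lit 608) (nat_lit 0) (XT.lf (nat_lit 0) (nat_lit 5724512553) (nat_lit 760) (nat_lit 1774603298) (nat_lit 76) (nat_lit 494382374) (nat_lit 138) (nat_lit 5) (nat_lit 148) (nat_lit 5) (nat_lit 139) (nat_lit 5) (nat_lit 259) (nat_lit 240) (nat_lit 221)) (XT.lf (nat_lit 0) (nat_lit 1211138242) (nat_lit 608) (nat_lit 2770556371) (nat_lit 76) (nat_lit 4186607539) (nat_lit 130) (nat_lit 5) (nat_lit 138) (nat_lit 5) (nat_lit 131) (nat_lit 5) (nat_lit 260) (nat_lit 240) (nat_lit 220)))) (XT.nd (nat_lit 78) (nat_lit 988) (nat_lit 0) (XT.lf (nat_lit 0) (nat_lit 4528583468) (nat_lit 532) (nat_lit 203822735) (nat_lit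 608) (nat_lit 3621720914) (nat_lit 123) (nat_lit 5) (nat_lit 130) (nat_lit 5) (nat_lit 131) (nat_lit 5) (nat_lit 261) (nat_lit 240) (nat_lit 219)) (XT.nd (nat_lit 78) (nat_lit 532) (nat_lit 0) (XT.lf (nat_lit 0) (nat_lit 3584208954) (nat_lit 456) (nat_lit 4802216693) (nat_lit 532) (nat_lit 164475817) (nat_lit 117) (nat_lit 5) (nat_lit 123) (nat_lit 5) (nat_lit 124) (nat_lit 5) (nat_lit 262) (nat_lit 240) (nat_lit 218)) (XT.lf (nat_lit 0) (nat_lit 2551869720) (nat_lit 456) (nat_lit 773440574) (nat_lit 532) (nat_lit 5433717390) (nat_lit 110) (nat_lit 5) (nat_lit 116) (nat_lit 5) (nat_lit 117) (nat_lit 5) (nat_lit 263) (nat_lit 240) (nat_lit 217))))))))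
noncomputable def xc50 : XT := (XT.nd (nat_lit 1638) (nat_lit 1748) (nat_lit 0) (XT.nd (nat_lit 780) (nat_lit 2356) (nat_lit 0) (XT.nd (nat_lit 390) (nat_lit 1444) (nat_lit 0) (XT.nd (nat_lit 156) (nat_lit 836) (nat_lit 0) (XT.nd (nat_lit 78) (nat_lit 532) (nat_lit 0) (XT.lf (nat_lit 0) (nat_lit 1416230918) (nat_lit 456) (nat_lit 5534511602) (nat_lit 532) (nat_lit 2028148031) (nat_lit 104) (nat_lit 5) (nat_lit 110) (nat_lit 5) (nat_lit 111) (nat_lit 5) (nat_lit 264) (nat_lit 240) (nat_lit 216)) (XT.lf (nat_lit 0) (nat_lit 174030752) (nat_lit 456) (nat_lit 1286932436) (nat_lit 532) (nat_lit 7750325244) (nat_lit 97) (nat_lit 5) (nat_lit 103) (nat_lit 5) (nat_lit 104) (nat_lit 5) (nat_lit 265) (nat_lit 240) (nat_lit 215))) (XT.nd (nat_lit 78) (nat_lit 836) (nat_lit 0) (XT.lf (nat_lit 0) (nat_lit 5066200438) (nat_lit 532) (nat_lit 1197446265) (nat_lit 76) (nat_lit 3191826837) (nat_lit 97) (nat_lit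 5) (nat_lit 104) (nat_lit 5) (nat_lit 98) (nat_lit 5) (nat_lit 266) (nat_lit 240) (nat_lit 214)) (XT.nd (nat_lit 78) (nat_lit 456) (nat_lit 0) (XT.lf (nat_lit 0) (nat_lit 7017030968) (nat_lit 380) (nat_lit 1795207982) (nat_lit 456) (nat_lit 901077744) (nat_lit 92) (nat_lit 5) (nat_lit 97) (nat_lit 5) (nat_lit 98) (nat_lit 5) (nat_lit 267) (nat_lit 240) (nat_lit 213)) (XT.lf (nat_lit 0) (nat_lit 2685821811) (nat_lit 456) (nat_lit 4386635997) (nat_lit 76) (nat_lit 2911697388) (nat_lit 86) (nat_lit 5) (nat_lit 92) (nat_lit 5) (nat_lit 87) (nat_lit 5) (nat_lit 268) (nat_lit 240) (nat_lit 212))))) (XT.nd (nat_lit 156) (nat_lit 684) (nat_lit 0) (XT.nd (nat_lit 78) (nat_lit 380) (nat_lit 0) (XT.lf (nat_lit 0) (nat_lit 4006173129) (nat_lit 380) (nat_lit 2399227522) (nat_lit 456) (nat_lit 3863941561) (nat_lit 81) (nat_lit 5) (nat_lit 86) (nat_lit 5) (nat_lit 87) (nat_lit 5) (nat_lit 269) (nat_lit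 240) (nat_lit 211)) (XT.lf (nat_lit 0) (nat_lit 2223276983) (nat_lit 380) (nat_lit 8069719914) (nat_lit 456) (nat_lit 276552757) (nat_lit 76) (nat_lit 5) (nat_lit 81) (nat_lit 5) (nat_lit 82) (nat_lit 5) (nat_lit 270) (nat_lit 240) (nat_lit 210))) (XT.nd (nat_lit 78) (nat_lit 304) (nat_lit 0) (XT.lf (nat_lit 0) (nat_lit 190642914) (nat_lit 304) (nat_lit 3216226516) (nat_lit 380) (nat_lit 7477553907) (nat_lit 71) (nat_lit 5) (nat_lit 75) (nat_lit 5) (nat_lit 76) (nat_lit 5) (nat_lit 271) (nat_lit 240) (nat_lit 209)) (XT.nd (nat_lit 78) (nat_lit 304) (nat_lit 0) (XT.lf (nat_lit 0) (nat_lit 7270743866) (nat_lit 380) (nat_lit 2041188875) (nat_lit 76) (nat_lit 1903161494) (nat_lit 71) (nat_lit 5) (nat_lit 76) (nat_lit 5) (nat_lit 72) (nat_lit 5) (nat_lit 272) (nat_lit 240) (nat_lit 208)) (XT.lf (nat_lit 0) (nat_lit 7019178216) (nat_lit 304) (nat_lit 4310576383) (nat_lit 380) (nat_lit 232672178)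 (nat_lit 67) (nat_lit 5) (nat_lit 71) (nat_lit 5) (nat_lit 72) (nat_lit 5) (nat_lit 273) (nat_lit 240) (nat_lit 207)))))) (XT.nd (nat_lit 390) (nat_lit 1064) (nat_lit 0) (XT.nd (nat_lit 156) (nat_lit 608) (nat_lit 0) (XT.nd (nat_lit 78) (nat_lit 304) (nat_lit 0) (XT.lf (nat_lit 0) (nat_lit 3572363004) (nat_lit 380) (nat_lit 7362053789) (nat_lit 76) (nat_lit 992446225) (nat_lit 62) (nat_lit 5) (nat_lit 67) (nat_lit 5) (nat_lit 63) (nat_lit 5) (nat_lit 274) (nat_lit 240) (nat_lit 206)) (XT.lf (nat_lit 0) (nat_lit 1776749290) (nat_lit 304) (nat_lit 5801364573) (nat_lit 380) (nat_lit 4731043944) (nat_lit 58) (nat_lit 5) (nat_lit 62) (nat_lit 5) (nat_lit 63) (nat_lit 5) (nat_lit 275) (nat_lit 240) (nat_lit 205))) (XT.nd (nat_lit 78) (nat_lit 608) (nat_lit 0) (XT.lf (nat_lit 0) (nat_lit 11403274718) (nat_lit 304) (nat_lit 367301883) (nat_lit 380) (nat_lit 940554315) (nat_lit 58) (nat_lit 5) (nat_lit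 62) (nat_lit 5) (nat_lit 63) (nat_lit 5) (nat_lit 276) (nat_lit 240) (nat_lit 204)) (XT.nd (nat_lit 78) (nat_lit 304) (nat_lit 0) (XT.lf (nat_lit 0) (nat_lit 3026824797) (nat_lit 304) (nat_lit 4791289108) (nat_lit 76) (nat_lit 5312956517) (nat_lit 54) (nat_lit 5) (nat_lit 58) (nat_lit 5) (nat_lit 55) (nat_lit 5) (nat_lit 277) (nat_lit 240) (nat_lit 203)) (XT.lf (nat_lit 0) (nat_lit 4889642672) (nat_lit 304) (nat_lit 2264545405) (nat_lit 380) (nat_lit 6418245083) (nat_lit 50) (nat_lit 5) (nat_lit 54) (nat_lit 5) (nat_lit 55) (nat_lit 5) (nat_lit 278) (nat_lit 240) (nat_lit 202))))) (XT.nd (nat_lit 234) (nat_lit 532) (nat_lit 0) (XT.nd (nat_lit 78) (nat_lit 304) (nat_lit 0) (XT.lf (nat_lit 0) (nat_lit 988062518) (nat_lit 228) (nat_lit 10512574806) (nat_lit 304) (nat_lit 2534976272) (nat_lit 47) (nat_lit 5) (nat_lit 50) (nat_lit 5) (nat_lit 51) (nat_lit 5) (nat_lit 279) (nat_lit 240) (nat_lit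 201)) (XT.nd (nat_lit 78) (nat_lit 228) (nat_lit 0) (XT.lf (nat_lit 0) (nat_lit 1546469320) (nat_lit 304) (nat_lit 3349087749) (nat_lit 76) (nat_lit 9625049021) (nat_lit 46) (nat_lit 5) (nat_lit 50) (nat_lit 5) (nat_lit 47) (nat_lit 5) (nat_lit 280) (nat_lit 240) (nat_lit 200)) (XT.lf (nat_lit 0) (nat_lit 5780683241) (nat_lit 304) (nat_lit 8207321182) (nat_lit 76) (nat_lit 1041172568) (nat_lit 43) (nat_lit 5) (nat_lit 47) (nat_lit 5) (nat_lit 44) (nat_lit 5) (nat_lit 281) (nat_lit 240) (nat_lit 199)))) (XT.nd (nat_lit 78) (nat_lit 304) (nat_lit 0) (XT.lf (nat_lit 0) (nat_lit 1887785629) (nat_lit 228) (nat_lit 8368183535) (nat_lit 304) (nat_lit 5306436379) (nat_lit 40) (nat_lit 5) (nat_lit 43) (nat_lit 5) (nat_lit 44) (nat_lit 5) (nat_lit 282) (nat_lit 240) (nat_lit 198)) (XT.nd (nat_lit 78) (nat_lit 304) (nat_lit 0) (XT.lf (nat_lit 0) (nat_lit 12553777521) (nat_lit 228) (nat_lit 2415178371)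 (nat_lit 304) (nat_lit 1153026246) (nat_lit 40) (nat_lit 5) (nat_lit 43) (nat_lit 5) (nat_lit 44) (nat_lit 5) (nat_lit 283) (nat_lit 240) (nat_lit 197)) (XT.lf (nat_lit 0) (nat_lit 3182773009) (nat_lit 304) (nat_lit 9697811443) (nat_lit 76) (nat_lit 3827005216) (nat_lit 36) (nat_lit 5) (nat_lit 40) (nat_lit 5) (nat_lit 37) (nat_lit 5) (nat_lit 284) (nat_lit 240) (nat_lit 196))))))) (XT.nd (nat_lit 780) (nat_lit 608) (nat_lit 0) (XT.nd (nat_lit 390) (nat_lit 532) (nat_lit 0) (XT.nd (nat_lit 156) (nat_lit 456) (nat_lit 0) (XT.nd (nat_lit 78) (nat_lit 0) (nat_lit 0) (XT.lf (nat_lit 0) (nat_lit 747421151) (nat_lit 152) (nat_lit 6966985078) (nat_lit 228) (nat_lit 9607734362) (nat_lit 34) (nat_lit 5) (nat_lit 36) (nat_lit 5) (nat_lit 37) (nat_lit 5) (nat_lit 285) (nat_lit 240) (nat_lit 195)) (XT.lf (nat_lit 0) (nat_lit 11819820931) (nat_lit 152) (nat_lit 688845083) (nat_lit 228) (nat_lit 5457759516)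 (nat_lit 34) (nat_lit 5) (nat_lit 36) (nat_lit 5) (nat_lit 37) (nat_lit 5) (nat_lit 286) (nat_lit 240) (nat_lit 194))) (XT.nd (nat_lit 78) (nat_lit 228) (nat_lit 0) (XT.lf (nat_lit 0) (nat_lit 4744053826) (nat_lit 228) (nat_lit 12839873853) (nat_lit 304) (nat_lit 1057842005) (nat_lit 31) (nat_lit 5) (nat_lit 34) (nat_lit 5) (nat_lit 35) (nat_lit 5) (nat_lit 287) (nat_lit 240) (nat_lit 193)) (XT.nd (nat_lit 78) (nat_lit 152) (nat_lit 0) (XT.lf (nat_lit 0) (nat_lit 3503717351) (nat_lit 304) (nat_lit 3176353369) (nat_lit 76) (nat_lit 12669525792) (nat_lit 30) (nat_lit 5) (nat_lit 34) (nat_lit 5) (nat_lit 31) (nat_lit 5) (nat_lit 288) (nat_lit 240) (nat_lit 192)) (XT.lf (nat_lit 0) (nat_lit 8140448025) (nat_lit 152) (nat_lit 152627752) (nat_lit 228) (nat_lit 11798850377) (nat_lit 28) (nat_lit 5) (nat_lit 30) (nat_lit 5) (nat_lit 31) (nat_lit 5) (nat_lit 289) (nat_lit 240) (nat_lit 191))))) (XT.nd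 (nat_lit 156) (nat_lit 380) (nat_lit 0) (XT.nd (nat_lit 78) (nat_lit 152) (nat_lit 0) (XT.lf (nat_lit 0) (nat_lit 13364061676) (nat_lit 228) (nat_lit 933339997) (nat_lit 76) (nat_lit 6572775963) (nat_lit 28) (nat_lit 5) (nat_lit 31) (nat_lit 5) (nat_lit 29) (nat_lit 5) (nat_lit 290) (nat_lit 240) (nat_lit 190)) (XT.lf (nat_lit 0) (nat_lit 10760643512) (nat_lit 152) (nat_lit 7980286175) (nat_lit 228) (nat_lit 2944908823) (nat_lit 26) (nat_lit 5) (nat_lit 28) (nat_lit 5) (nat_lit 29) (nat_lit 5) (nat_lit 291) (nat_lit 240) (nat_lit 189))) (XT.nd (nat_lit 78) (nat_lit 152) (nat_lit 0) (XT.lf (nat_lit 0) (nat_lit 425114506) (nat_lit 152) (nat_lit 1345558769) (nat_lit 228) (nat_lit 20772269909) (nat_lit 23) (nat_lit 5) (nat_lit 25) (nat_lit 5) (nat_lit 26) (nat_lit 5) (nat_lit 292) (nat_lit 240) (nat_lit 188)) (XT.nd (nat_lit 78) (nat_lit 152) (nat_lit 0) (XT.lf (nat_lit 0) (nat_lit 6779216428)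 (nat_lit 228) (nat_lit 11034254899) (nat_lit 76) (nat_lit 5625073251) (nat_lit 23) (nat_lit 5) (nat_lit 26) (nat_lit 5) (nat_lit 24) (nat_lit 5) (nat_lit 293) (nat_lit 240) (nat_lit 187)) (XT.lf (nat_lit 0) (nat_lit 522880833) (nat_lit 152) (nat_lit 11486209089) (nat_lit 228) (nat_lit 12370765051) (nat_lit 21) (nat_lit 5) (nat_lit 23) (nat_lit 5) (nat_lit 24) (nat_lit 5) (nat_lit 294) (nat_lit 240) (nat_lit 186)))))) (XT.nd (nat_lit 390) (nat_lit 304) (nat_lit 0) (XT.nd (nat_lit 156) (nat_lit 304) (nat_lit 0) (XT.nd (nat_lit 78) (nat_lit 0) (nat_lit 0) (XT.lf (nat_lit 0) (nat_lit 12813431894) (nat_lit 152) (nat_lit 4754459439) (nat_lit 228) (nat_lit 7798369887) (nat_lit 21) (nat_lit 5) (nat_lit 23) (nat_lit 5) (nat_lit 24) (nat_lit 5) (nat_lit 295) (nat_lit 240) (nat_lit 185)) (XT.lf (nat_lit 0) (nat_lit 23382655027) (nat_lit 228) (nat_lit 778277178) (nat_lit 76) (nat_lit 2241765726) (nat_lit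 21) (nat_lit 5) (nat_lit 24) (nat_lit 5) (nat_lit 22) (nat_lit 4) (nat_lit 296) (nat_lit 240) (nat_lit 184))) (XT.nd (nat_lit 78) (nat_lit 152) (nat_lit 0) (XT.lf (nat_lit 0) (nat_lit 2077655677) (nat_lit 152) (nat_lit 15811678703) (nat_lit 76) (nat_lit 9597510300) (nat_lit 19) (nat_lit 5) (nat_lit 21) (nat_lit 5) (nat_lit 20) (nat_lit 5) (nat_lit 297) (nat_lit 240) (nat_lit 183)) (XT.nd (nat_lit 78) (nat_lit 152) (nat_lit 0) (XT.lf (nat_lit 0) (nat_lit 7335248743) (nat_lit 152) (nat_lit 3955961113) (nat_lit 76) (nat_lit 17334112560) (nat_lit 19) (nat_lit 5) (nat_lit 21) (nat_lit 5) (nat_lit 20) (nat_lit 5) (nat_lit 298) (nat_lit 240) (nat_lit 182)) (XT.lf (nat_lit 0) (nat_lit 8595523072) (nat_lit 152) (nat_lit 4303582925) (nat_lit 228) (nat_lit 16920359125) (nat_lit 17) (nat_lit 5) (nat_lit 19) (nat_lit 5) (nat_lit 20) (nat_lit 5) (nat_lit 299) (nat_lit 240) (nat_lit 181))))) (XT.nd (nat_lit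 234) (nat_lit 228) (nat_lit 0) (XT.nd (nat_lit 78) (nat_lit 76) (nat_lit 0) (XT.lf (nat_lit 0) (nat_lit 18773225232) (nat_lit 228) (nat_lit 9308239461) (nat_lit 76) (nat_lit 2990928786) (nat_lit 17) (nat_lit 5) (nat_lit 20) (nat_lit 5) (nat_lit 18) (nat_lit 4) (nat_lit 300) (nat_lit 240) (nat_lit 180)) (XT.nd (nat_lit 78) (nat_lit 0) (nat_lit 0) (XT.lf (nat_lit 0) (nat_lit 3160694084) (nat_lit 76) (nat_lit 21817779450) (nat_lit 152) (nat_lit 7408410684) (nat_lit 16) (nat_lit 5) (nat_lit 17) (nat_lit 5) (nat_lit 18) (nat_lit 4) (nat_lit 301) (nat_lit 240) (nat_lit 179)) (XT.lf (nat_lit 0) (nat_lit 16388538180) (nat_lit 76) (nat_lit 15166035194) (nat_lit 152) (nat_lit 2210745264) (nat_lit 16) (nat_lit 5) (nat_lit 17) (nat_lit 5) (nat_lit 18) (nat_lit 4) (nat_lit 302) (nat_lit 240) (nat_lit 178)))) (XT.nd (nat_lit 78) (nat_lit 152) (nat_lit 0) (XT.lf (nat_lit 0) (nat_lit 3149526683) (nat_lit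 152) (nat_lit 5023058679) (nat_lit 76) (nat_lit 27040204747) (nat_lit 15) (nat_lit 5) (nat_lit 17) (nat_lit 5) (nat_lit 16) (nat_lit 5) (nat_lit 303) (nat_lit 240) (nat_lit 177)) (XT.nd (nat_lit 78) (nat_lit 0) (nat_lit 0) (XT.lf (nat_lit 0) (nat_lit 8028463535) (nat_lit 152) (nat_lit 748921932) (nat_lit 228) (nat_lit 27953266606) (nat_lit 13) (nat_lit 5) (nat_lit 15) (nat_lit 5) (nat_lit 16) (nat_lit 5) (nat_lit 304) (nat_lit 240) (nat_lit 176)) (XT.lf (nat_lit 0) (nat_lit 14775108282) (nat_lit 228) (nat_lit 16607013479) (nat_lit 76) (nat_lit 6939662120) (nat_lit 13) (nat_lit 5) (nat_lit 16) (nat_lit 5) (nat_lit 14) (nat_lit 4) (nat_lit 305) (nat_lit 240) (nat_lit 175))))))))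
noncomputable def xc51 : XT := (XT.nd (nat_lit 1638) (nat_lit 0) (nat_lit 0) (XT.nd (nat_lit 780) (nat_lit 228) (nat_lit 0) (XT.nd (nat_lit 390) (nat_lit 76) (nat_lit 0) (XT.nd (nat_lit 156) (nat_lit 228) (nat_lit 0) (XT.nd (nat_lit 78) (nat_lit 76) (nat_lit 0) (XT.lf (nat_lit 0) (nat_lit 21050296701) (nat_lit 228) (nat_lit 3965538620) (nat_lit 76) (nat_lit 14977338980) (nat_lit 13) (nat_lit 5) (nat_lit 16) (nat_lit 5) (nat_lit 14) (nat_lit 4) (nat_lit 306) (nat_lit 240) (nat_lit 174)) (XT.lf (nat_lit 0) (nat_lit 9443816764) (nat_lit 76) (nat_lit 18257655533) (nat_lit 152) (nat_lit 14044823118) (nat_lit 12) (nat_lit 5) (nat_lit 13) (nat_lit 5) (nat_lit 14) (nat_lit 4) (nat_lit 307) (nat_lit 240) (nat_lit 173))) (XT.nd (nat_lit 78) (nat_lit 228) (nat_lit 0) (XT.lf (nat_lit 0) (nat_lit 23559421472) (nat_lit 76) (nat_lit 11138961930) (nat_lit 152) (nat_lit 8888320555) (nat_lit 12) (nat_lit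 5) (nat_lit 13) (nat_lit 5) (nat_lit 14) (nat_lit 4) (nat_lit 308) (nat_lit 240) (nat_lit 172)) (XT.nd (nat_lit 78) (nat_lit 228) (nat_lit 0) (XT.lf (nat_lit 0) (nat_lit 38335962091) (nat_lit 76) (nat_lit 3682849407) (nat_lit 152) (nat_lit 3501136687) (nat_lit 12) (nat_lit 5) (nat_lit 13) (nat_lit 5) (nat_lit 14) (nat_lit 4) (nat_lit 309) (nat_lit 240) (nat_lit 171)) (XT.lf (nat_lit 0) (nat_lit 2189645156) (nat_lit 228) (nat_lit 41227017492) (nat_lit 76) (nat_lit 4130304937) (nat_lit 9) (nat_lit 5) (nat_lit 12) (nat_lit 5) (nat_lit 10) (nat_lit 4) (nat_lit 310) (nat_lit 240) (nat_lit 170))))) (XT.nd (nat_lit 156) (nat_lit 76) (nat_lit 0) (XT.nd (nat_lit 78) (nat_lit 0) (nat_lit 0) (XT.lf (nat_lit 0) (nat_lit 8180375908) (nat_lit 228) (nat_lit 29139742362) (nat_lit 76) (nat_lit 12351567552) (nat_lit 9) (nat_lit 5) (nat_lit 12) (nat_lit 5) (nat_lit 10) (nat_lit 4) (nat_lit 311) (nat_lit 240)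 (nat_lit 169)) (XT.lf (nat_lit 0) (nat_lit 14447108625) (nat_lit 228) (nat_lit 16488663801) (nat_lit 76) (nat_lit 20967594887) (nat_lit 9) (nat_lit 5) (nat_lit 12) (nat_lit 5) (nat_lit 10) (nat_lit 4) (nat_lit 312) (nat_lit 240) (nat_lit 168))) (XT.nd (nat_lit 78) (nat_lit 76) (nat_lit 0) (XT.lf (nat_lit 0) (nat_lit 21004764099) (nat_lit 228) (nat_lit 3243660194) (nat_lit 76) (nat_lit 29998901292) (nat_lit 9) (nat_lit 5) (nat_lit 12) (nat_lit 5) (nat_lit 10) (nat_lit 4) (nat_lit 313) (nat_lit 240) (nat_lit 167)) (XT.nd (nat_lit 78) (nat_lit 0) (nat_lit 0) (XT.lf (nat_lit 0) (nat_lit 10838298421) (nat_lit 76) (nat_lit 17134841728) (nat_lit 152) (nat_lit 28732875812) (nat_lit 8) (nat_lit 5) (nat_lit 9) (nat_lit 5) (nat_lit 10) (nat_lit 4) (nat_lit 314) (nat_lit 240) (nat_lit 166)) (XT.lf (nat_lit 0) (nat_lit 25656403074) (nat_lit 76) (nat_lit 9646248992) (nat_lit 152) (nat_lit 23984625681)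 (nat_lit 8) (nat_lit 5) (nat_lit 9) (nat_lit 5) (nat_lit 10) (nat_lit 4) (nat_lit 315) (nat_lit 240) (nat_lit 165)))))) (XT.nd (nat_lit 390) (nat_lit 76) (nat_lit 0) (XT.nd (nat_lit 156) (nat_lit 152) (nat_lit 0) (XT.nd (nat_lit 78) (nat_lit 0) (nat_lit 0) (XT.lf (nat_lit 0) (nat_lit 41181379770) (nat_lit 76) (nat_lit 1797570710) (nat_lit 152) (nat_lit 19019260343) (nat_lit 8) (nat_lit 5) (nat_lit 9) (nat_lit 5) (nat_lit 10) (nat_lit 4) (nat_lit 316) (nat_lit 240) (nat_lit 164)) (XT.lf (nat_lit 0) (nat_lit 51082120236) (nat_lit 152) (nat_lit 7456884998) (nat_lit 0) (nat_lit 6304410318) (nat_lit 8) (nat_lit 5) (nat_lit 10) (nat_lit 4) (nat_lit 8) (nat_lit 4) (nat_lit 317) (nat_lit 240) (nat_lit 163))) (XT.nd (nat_lit 78) (nat_lit 76) (nat_lit 0) (XT.lf (nat_lit 0) (nat_lit 6651412356) (nat_lit 76) (nat_lit 53003133225) (nat_lit 76) (nat_lit 8174427922) (nat_lit 7) (nat_lit 4) (nat_lit 8)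 (nat_lit 5) (nat_lit 8) (nat_lit 4) (nat_lit 318) (nat_lit 240) (nat_lit 162)) (XT.nd (nat_lit 78) (nat_lit 76) (nat_lit 0) (XT.lf (nat_lit 0) (nat_lit 21590552931) (nat_lit 76) (nat_lit 47124381811) (nat_lit 76) (nat_lit 2247109474) (nat_lit 7) (nat_lit 4) (nat_lit 8) (nat_lit 5) (nat_lit 8) (nat_lit 4) (nat_lit 319) (nat_lit 240) (nat_lit 161)) (XT.lf (nat_lit 0) (nat_lit 3882209196) (nat_lit 152) (nat_lit 37042641986) (nat_lit 76) (nat_lit 33326287577) (nat_lit 6) (nat_lit 5) (nat_lit 8) (nat_lit 5) (nat_lit 7) (nat_lit 4) (nat_lit 320) (nat_lit 240) (nat_lit 160))))) (XT.nd (nat_lit 234) (nat_lit 0) (nat_lit 0) (XT.nd (nat_lit 78) (nat_lit 76) (nat_lit 0) (XT.lf (nat_lit 0) (nat_lit 10255982236) (nat_lit 152) (nat_lit 24147934446) (nat_lit 76) (nat_lit 43300583358) (nat_lit 6) (nat_lit 5) (nat_lit 8) (nat_lit 5) (nat_lit 7) (nat_lit 4) (nat_lit 321) (nat_lit 240) (nat_lit 159)) (XT.nd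 (nat_lit 78) (nat_lit 76) (nat_lit 0) (XT.lf (nat_lit 0) (nat_lit 16933234495) (nat_lit 152) (nat_lit 10635066389) (nat_lit 76) (nat_lit 53762697482) (nat_lit 6) (nat_lit 5) (nat_lit 8) (nat_lit 5) (nat_lit 7) (nat_lit 4) (nat_lit 322) (nat_lit 240) (nat_lit 158)) (XT.lf (nat_lit 0) (nat_lit 3598352496) (nat_lit 76) (nat_lit 20366101262) (nat_lit 152) (nat_lit 61173776813) (nat_lit 5) (nat_lit 5) (nat_lit 6) (nat_lit 5) (nat_lit 7) (nat_lit 4) (nat_lit 323) (nat_lit 240) (nat_lit 157)))) (XT.nd (nat_lit 78) (nat_lit 0) (nat_lit 0) (XT.lf (nat_lit 0) (nat_lit 18741100032) (nat_lit 76) (nat_lit 12701580858) (nat_lit 152) (nat_lit 57690291606) (nat_lit 5) (nat_lit 5) (nat_lit 6) (nat_lit 5) (nat_lit 7) (nat_lit 4) (nat_lit 324) (nat_lit 240) (nat_lit 156)) (XT.nd (nat_lit 78) (nat_lit 0) (nat_lit 0) (XT.lf (nat_lit 0) (nat_lit 34617571704) (nat_lit 76) (nat_lit 4663884133) (nat_lit 152) (nat_lit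 54046407558) (nat_lit 5) (nat_lit 5) (nat_lit 6) (nat_lit 5) (nat_lit 7) (nat_lit 4) (nat_lit 325) (nat_lit 240) (nat_lit 155)) (XT.lf (nat_lit 0) (nat_lit 47535644656) (nat_lit 152) (nat_lit 46503524774) (nat_lit 0) (nat_lit 3692635599) (nat_lit 5) (nat_lit 5) (nat_lit 7) (nat_lit 4) (nat_lit 5) (nat_lit 4) (nat_lit 326) (nat_lit 240) (nat_lit 154))))))) (XT.nd (nat_lit 31356) (nat_lit 0) (nat_lit 10792) (XT.nd (nat_lit 30966) (nat_lit 0) (nat_lit 18012) (XT.nd (nat_lit 156) (nat_lit 0) (nat_lit 0) (XT.nd (nat_lit 78) (nat_lit 0) (nat_lit 0) (XT.lf (nat_lit 0) (nat_lit 56237407881) (nat_lit 152) (nat_lit 33755015684) (nat_lit 0) (nat_lit 12362484182) (nat_lit 5) (nat_lit 5) (nat_lit 7) (nat_lit 4) (nat_lit 5) (nat_lit 4) (nat_lit 327) (nat_lit 240) (nat_lit 153)) (XT.lf (nat_lit 0) (nat_lit 65362631885) (nat_lit 152) (nat_lit 20389578721) (nat_lit 0) (nat_lit 21457313291) (nat_lit 5) (nat_lit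 5) (nat_lit 7) (nat_lit 4) (nat_lit 5) (nat_lit 4) (nat_lit 328) (nat_lit 240) (nat_lit 152))) (XT.nd (nat_lit 30654) (nat_lit 0) (nat_lit 19076) (XT.lf (nat_lit 0) (nat_lit 74933043395) (nat_lit 152) (nat_lit 6375391415) (nat_lit 0) (nat_lit 30998777280) (nat_lit 5) (nat_lit 5) (nat_lit 7) (nat_lit 4) (nat_lit 5) (nat_lit 4) (nat_lit 329) (nat_lit 240) (nat_lit 151)) (XT.nd (nat_lit 78) (nat_lit 228) (nat_lit 0) (XT.lf (nat_lit 0) (nat_lit 1233190973) (nat_lit 228) (nat_lit 996956635) (nat_lit 228) (nat_lit 996956635) (nat_lit 259) (nat_lit 3) (nat_lit 262) (nat_lit 3) (nat_lit 262) (nat_lit 5) (nat_lit 241) (nat_lit 241) (nat_lit 238)) (XT.lf (nat_lit 0) (nat_lit 269655461) (nat_lit 228) (nat_lit 3776843683) (nat_lit 304) (nat_lit 2424321309) (nat_lit 256) (nat_lit 5) (nat_lit 259) (nat_lit 3) (nat_lit 260) (nat_lit 5) (nat_lit 242) (nat_lit 241) (nat_lit 237))))) (XT.nd (nat_lit 156)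 (nat_lit 760) (nat_lit 0) (XT.nd (nat_lit 78) (nat_lit 304) (nat_lit 0) (XT.lf (nat_lit 76) (nat_lit 1001259979) (nat_lit 0) (nat_lit 3413891178) (nat_lit 304) (nat_lit 2080325526) (nat_lit 257) (nat_lit 5) (nat_lit 256) (nat_lit 5) (nat_lit 260) (nat_lit 5) (nat_lit 243) (nat_lit 241) (nat_lit 236)) (XT.lf (nat_lit 0) (nat_lit 1976472004) (nat_lit 304) (nat_lit 595172117) (nat_lit 380) (nat_lit 3956902805) (nat_lit 252) (nat_lit 5) (nat_lit 256) (nat_lit 5) (nat_lit 257) (nat_lit 5) (nat_lit 244) (nat_lit 241) (nat_lit 235))) (XT.nd (nat_lit 78) (nat_lit 760) (nat_lit 0) (XT.lf (nat_lit 76) (nat_lit 4472058869) (nat_lit 0) (nat_lit 1511547924) (nat_lit 380) (nat_lit 586322404) (nat_lit 253) (nat_lit 5) (nat_lit 252) (nat_lit 5) (nat_lit 257) (nat_lit 5) (nat_lit 245) (nat_lit 241) (nat_lit 234)) (XT.nd (nat_lit 78) (nat_lit 380) (nat_lit 0) (XT.lf (nat_lit 76) (nat_lit 3072661315) (nat_lit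 0) (nat_lit 225481285) (nat_lit 456) (nat_lit 3321416403) (nat_lit 248) (nat_lit 5) (nat_lit 247) (nat_lit 5) (nat_lit 253) (nat_lit 5) (nat_lit 246) (nat_lit 241) (nat_lit 233)) (XT.lf (nat_lit 0) (nat_lit 492240479) (nat_lit 456) (nat_lit 4940576464) (nat_lit 76) (nat_lit 1244950727) (nat_lit 242) (nat_lit 5) (nat_lit 248) (nat_lit 5) (nat_lit 243) (nat_lit 5) (nat_lit 247) (nat_lit 241) (nat_lit 232)))))) (XT.nd (nat_lit 390) (nat_lit 4788) (nat_lit 0) (XT.nd (nat_lit 156) (nat_lit 1900) (nat_lit 0) (XT.nd (nat_lit 78) (nat_lit 76) (nat_lit 0) (XT.lf (nat_lit 0) (nat_lit 443834303) (nat_lit 456) (nat_lit 3800591561) (nat_lit 532) (nat_lit 2499786026) (nat_lit 236) (nat_lit 5) (nat_lit 242) (nat_lit 5) (nat_lit 243) (nat_lit 5) (nat_lit 248) (nat_lit 241) (nat_lit 231)) (XT.lf (nat_lit 0) (nat_lit 1173864925) (nat_lit 532) (nat_lit 776728622) (nat_lit 76) (nat_lit 4868825725) (nat_lit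 235) (nat_lit 5) (nat_lit 242) (nat_lit 5) (nat_lit 236) (nat_lit 5) (nat_lit 249) (nat_lit 241) (nat_lit 230))) (XT.nd (nat_lit 78) (nat_lit 1368) (nat_lit 0) (XT.lf (nat_lit 0) (nat_lit 4818369243) (nat_lit 608) (nat_lit 1954142828) (nat_lit 76) (nat_lit 130677699) (nat_lit 228) (nat_lit 5) (nat_lit 236) (nat_lit 5) (nat_lit 229) (nat_lit 5) (nat_lit 250) (nat_lit 241) (nat_lit 229)) (XT.nd (nat_lit 78) (nat_lit 684) (nat_lit 0) (XT.lf (nat_lit 0) (nat_lit 1483666226) (nat_lit 684) (nat_lit 3115072233) (nat_lit 76) (nat_lit 2396731404) (nat_lit 219) (nat_lit 5) (nat_lit 228) (nat_lit 5) (nat_lit 220) (nat_lit 5) (nat_lit 251) (nat_lit 241) (nat_lit 228)) (XT.lf (nat_lit 0) (nat_lit 2842367856) (nat_lit 684) (nat_lit 2197587333) (nat_lit 760) (nat_lit 2056841099) (nat_lit 210) (nat_lit 5) (nat_lit 219) (nat_lit 5) (nat_lit 220) (nat_lit 5) (nat_lit 252) (nat_lit 241) (nat_lit 227))))) (XT.nd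 (nat_lit 234) (nat_lit 3040) (nat_lit 0) (XT.nd (nat_lit 78) (nat_lit 912) (nat_lit 0) (XT.lf (nat_lit 0) (nat_lit 1404332017) (nat_lit 836) (nat_lit 5378502518) (nat_lit 76) (nat_lit 424557250) (nat_lit 199) (nat_lit 5) (nat_lit 210) (nat_lit 5) (nat_lit 200) (nat_lit 5) (nat_lit 253) (nat_lit 241) (nat_lit 226)) (XT.nd (nat_lit 78) (nat_lit 76) (nat_lit 0) (XT.lf (nat_lit 0) (nat_lit 805529989) (nat_lit 836) (nat_lit 4083035882) (nat_lit 912) (nat_lit 2438115667) (nat_lit 188) (nat_lit 5) (nat_lit 199) (nat_lit 5) (nat_lit 200) (nat_lit 5) (nat_lit 254) (nat_lit 241) (nat_lit 225)) (XT.lf (nat_lit 0) (nat_lit 952636232) (nat_lit 912) (nat_lit 199815301) (nat_lit 76) (nat_lit 6303310641) (nat_lit 187) (nat_lit 5) (nat_lit 199) (nat_lit 5) (nat_lit 188) (nat_lit 5) (nat_lit 255) (nat_lit 241) (nat_lit 224)))) (XT.nd (nat_lit 78) (nat_lit 2128) (nat_lit 0) (XT.lf (nat_lit 0) (nat_lit 4375491831)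 (nat_lit 988) (nat_lit 1218586392) (nat_lit 76) (nat_lit 1999590507) (nat_lit 175) (nat_lit 5) (nat_lit 188) (nat_lit 5) (nat_lit 176) (nat_lit 5) (nat_lit 256) (nat_lit 241) (nat_lit 223)) (XT.nd (nat_lit 78) (nat_lit 1064) (nat_lit 0) (XT.lf (nat_lit 0) (nat_lit 130021469) (nat_lit 1064) (nat_lit 2246931370) (nat_lit 76) (nat_lit 5364795036) (nat_lit 161) (nat_lit 5) (nat_lit 175) (nat_lit 5) (nat_lit 162) (nat_lit 5) (nat_lit 257) (nat_lit 241) (nat_lit 222)) (XT.lf (nat_lit 0) (nat_lit 3489829704) (nat_lit 1140) (nat_lit 3324345493) (nat_lit 76) (nat_lit 1085204972) (nat_lit 147) (nat_lit 5) (nat_lit 162) (nat_lit 5) (nat_lit 148) (nat_lit 5) (nat_lit 258) (nat_lit 241) (nat_lit 221))))))))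
noncomputable def xc52 : XT := (XT.nd (nat_lit 1638) (nat_lit 2508) (nat_lit 0) (XT.nd (nat_lit 780) (nat_lit 2736) (nat_lit 0) (XT.nd (nat_lit 390) (nat_lit 2280) (nat_lit 0) (XT.nd (nat_lit 156) (nat_lit 1064) (nat_lit 0) (XT.nd (nat_lit 78) (nat_lit 608) (nat_lit 0) (XT.lf (nat_lit 0) (nat_lit 3622996854) (nat_lit 684) (nat_lit 3325818334) (nat_lit 760) (nat_lit 1118550700) (nat_lit 138) (nat_lit 5) (nat_lit 147) (nat_lit 5) (nat_lit 148) (nat_lit 5) (nat_lit 259) (nat_lit 241) (nat_lit 220)) (XT.lf (nat_lit 0) (nat_lit 2208353827) (nat_lit 608) (nat_lit 5620695026) (nat_lit 76) (nat_lit 416896074) (nat_lit 130) (nat_lit 5) (nat_lit 138) (nat_lit 5) (nat_lit 131) (nat_lit 5) (nat_lit 260) (nat_lit 241) (nat_lit 219))) (XT.nd (nat_lit 78) (nat_lit 532) (nat_lit 0) (XT.lf (nat_lit 0) (nat_lit 1550078965) (nat_lit 532) (nat_lit 4081990537) (nat_lit 608) (nat_lit 2802801973) (nat_lit 123)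 (nat_lit 5) (nat_lit 130) (nat_lit 5) (nat_lit 131) (nat_lit 5) (nat_lit 261) (nat_lit 241) (nat_lit 218)) (XT.nd (nat_lit 78) (nat_lit 0) (nat_lit 0) (XT.lf (nat_lit 0) (nat_lit 424397074) (nat_lit 456) (nat_lit 82670958) (nat_lit 532) (nat_lit 8128589024) (nat_lit 116) (nat_lit 5) (nat_lit 122) (nat_lit 5) (nat_lit 123) (nat_lit 5) (nat_lit 262) (nat_lit 241) (nat_lit 217)) (XT.lf (nat_lit 0) (nat_lit 3903719509) (nat_lit 532) (nat_lit 813070859) (nat_lit 76) (nat_lit 4129797346) (nat_lit 116) (nat_lit 5) (nat_lit 123) (nat_lit 5) (nat_lit 117) (nat_lit 5) (nat_lit 263) (nat_lit 241) (nat_lit 216))))) (XT.nd (nat_lit 156) (nat_lit 1292) (nat_lit 0) (XT.nd (nat_lit 78) (nat_lit 532) (nat_lit 0) (XT.lf (nat_lit 0) (nat_lit 6953625783) (nat_lit 456) (nat_lit 458130299) (nat_lit 532) (nat_lit 1658363148) (nat_lit 110) (nat_lit 5) (nat_lit 116) (nat_lit 5) (nat_lit 117) (nat_lit 5) (nat_lit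 264) (nat_lit 241) (nat_lit 215)) (XT.lf (nat_lit 0) (nat_lit 1735852202) (nat_lit 532) (nat_lit 3564099998) (nat_lit 76) (nat_lit 4005224392) (nat_lit 103) (nat_lit 5) (nat_lit 110) (nat_lit 5) (nat_lit 104) (nat_lit 5) (nat_lit 265) (nat_lit 241) (nat_lit 214))) (XT.nd (nat_lit 78) (nat_lit 836) (nat_lit 0) (XT.lf (nat_lit 0) (nat_lit 4414084087) (nat_lit 456) (nat_lit 802365736) (nat_lit 532) (nat_lit 4336780322) (nat_lit 97) (nat_lit 5) (nat_lit 103) (nat_lit 5) (nat_lit 104) (nat_lit 5) (nat_lit 266) (nat_lit 241) (nat_lit 213)) (XT.nd (nat_lit 78) (nat_lit 456) (nat_lit 0) (XT.lf (nat_lit 0) (nat_lit 2937816435) (nat_lit 380) (nat_lit 5922043603) (nat_lit 456) (nat_lit 954415210) (nat_lit 92) (nat_lit 5) (nat_lit 97) (nat_lit 5) (nat_lit 98) (nat_lit 5) (nat_lit 267) (nat_lit 241) (nat_lit 212)) (XT.lf (nat_lit 0) (nat_lit 1297844466) (nat_lit 380) (nat_lit 1211210842) (nat_lit 456)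 (nat_lit 7579921742) (nat_lit 86) (nat_lit 5) (nat_lit 91) (nat_lit 5) (nat_lit 92) (nat_lit 5) (nat_lit 268) (nat_lit 241) (nat_lit 211)))))) (XT.nd (nat_lit 390) (nat_lit 1292) (nat_lit 0) (XT.nd (nat_lit 156) (nat_lit 1064) (nat_lit 0) (XT.nd (nat_lit 78) (nat_lit 380) (nat_lit 0) (XT.lf (nat_lit 0) (nat_lit 6126047917) (nat_lit 456) (nat_lit 529509795) (nat_lit 76) (nat_lit 3721792345) (nat_lit 86) (nat_lit 5) (nat_lit 92) (nat_lit 5) (nat_lit 87) (nat_lit 5) (nat_lit 269) (nat_lit 241) (nat_lit 210)) (XT.lf (nat_lit 0) (nat_lit 8166088937) (nat_lit 380) (nat_lit 1746153452) (nat_lit 456) (nat_lit 768460405) (nat_lit 81) (nat_lit 5) (nat_lit 86) (nat_lit 5) (nat_lit 87) (nat_lit 5) (nat_lit 270) (nat_lit 241) (nat_lit 209))) (XT.nd (nat_lit 78) (nat_lit 608) (nat_lit 0) (XT.lf (nat_lit 0) (nat_lit 2831619451) (nat_lit 456) (nat_lit 4754687414) (nat_lit 76) (nat_lit 3412295165) (nat_lit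 75) (nat_lit 5) (nat_lit 81) (nat_lit 5) (nat_lit 76) (nat_lit 5) (nat_lit 271) (nat_lit 241) (nat_lit 208)) (XT.nd (nat_lit 78) (nat_lit 304) (nat_lit 0) (XT.lf (nat_lit 0) (nat_lit 4091448367) (nat_lit 304) (nat_lit 2491106480) (nat_lit 380) (nat_lit 4750197167) (nat_lit 71) (nat_lit 5) (nat_lit 75) (nat_lit 5) (nat_lit 76) (nat_lit 5) (nat_lit 272) (nat_lit 241) (nat_lit 207)) (XT.lf (nat_lit 0) (nat_lit 1678699325) (nat_lit 304) (nat_lit 8842059429) (nat_lit 380) (nat_lit 1163036594) (nat_lit 67) (nat_lit 5) (nat_lit 71) (nat_lit 5) (nat_lit 72) (nat_lit 5) (nat_lit 273) (nat_lit 241) (nat_lit 206))))) (XT.nd (nat_lit 234) (nat_lit 608) (nat_lit 0) (XT.nd (nat_lit 78) (nat_lit 608) (nat_lit 0) (XT.lf (nat_lit 0) (nat_lit 2562013593) (nat_lit 380) (nat_lit 1026684528) (nat_lit 76) (nat_lit 8462826018) (nat_lit 66) (nat_lit 5) (nat_lit 71) (nat_lit 5) (nat_lit 67) (nat_lit 5) (nat_lit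 274) (nat_lit 241) (nat_lit 205)) (XT.nd (nat_lit 78) (nat_lit 304) (nat_lit 0) (XT.lf (nat_lit 0) (nat_lit 6463009367) (nat_lit 380) (nat_lit 4019074301) (nat_lit 76) (nat_lit 1954954162) (nat_lit 62) (nat_lit 5) (nat_lit 67) (nat_lit 5) (nat_lit 63) (nat_lit 5) (nat_lit 275) (nat_lit 241) (nat_lit 204)) (XT.lf (nat_lit 0) (nat_lit 5470291506) (nat_lit 304) (nat_lit 5104262690) (nat_lit 380) (nat_lit 2266956899) (nat_lit 58) (nat_lit 5) (nat_lit 62) (nat_lit 5) (nat_lit 63) (nat_lit 5) (nat_lit 276) (nat_lit 241) (nat_lit 203)))) (XT.nd (nat_lit 78) (nat_lit 304) (nat_lit 0) (XT.lf (nat_lit 0) (nat_lit 1580044783) (nat_lit 304) (nat_lit 11106159961) (nat_lit 76) (nat_lit 580083318) (nat_lit 54) (nat_lit 5) (nat_lit 58) (nat_lit 5) (nat_lit 55) (nat_lit 5) (nat_lit 277) (nat_lit 241) (nat_lit 202)) (XT.nd (nat_lit 78) (nat_lit 304) (nat_lit 0) (XT.lf (nat_lit 0) (nat_lit 5621651108) (nat_lit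 304) (nat_lit 1575446948) (nat_lit 76) (nat_lit 6513189401) (nat_lit 54) (nat_lit 5) (nat_lit 58) (nat_lit 5) (nat_lit 55) (nat_lit 5) (nat_lit 278) (nat_lit 241) (nat_lit 201)) (XT.lf (nat_lit 0) (nat_lit 8490482885) (nat_lit 304) (nat_lit 1380806602) (nat_lit 380) (nat_lit 4305143634) (nat_lit 50) (nat_lit 5) (nat_lit 54) (nat_lit 5) (nat_lit 55) (nat_lit 5) (nat_lit 279) (nat_lit 241) (nat_lit 200))))))) (XT.nd (nat_lit 780) (nat_lit 988) (nat_lit 0) (XT.nd (nat_lit 390) (nat_lit 684) (nat_lit 0) (XT.nd (nat_lit 156) (nat_lit 532) (nat_lit 0) (XT.nd (nat_lit 78) (nat_lit 76) (nat_lit 0) (XT.lf (nat_lit 0) (nat_lit 4360788333) (nat_lit 228) (nat_lit 10002993766) (nat_lit 304) (nat_lit 301311705) (nat_lit 47) (nat_lit 5) (nat_lit 50) (nat_lit 5) (nat_lit 51) (nat_lit 5) (nat_lit 280) (nat_lit 241) (nat_lit 199)) (XT.lf (nat_lit 0) (nat_lit 3827938703) (nat_lit 304) (nat_lit 304224592) (nat_lit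 76) (nat_lit 11044967231) (nat_lit 46) (nat_lit 5) (nat_lit 50) (nat_lit 5) (nat_lit 47) (nat_lit 5) (nat_lit 281) (nat_lit 241) (nat_lit 198))) (XT.nd (nat_lit 78) (nat_lit 304) (nat_lit 0) (XT.lf (nat_lit 0) (nat_lit 8208424263) (nat_lit 304) (nat_lit 5439880905) (nat_lit 76) (nat_lit 2064948998) (nat_lit 43) (nat_lit 5) (nat_lit 47) (nat_lit 5) (nat_lit 44) (nat_lit 5) (nat_lit 282) (nat_lit 241) (nat_lit 197)) (XT.nd (nat_lit 78) (nat_lit 76) (nat_lit 0) (XT.lf (nat_lit 0) (nat_lit 5068890066) (nat_lit 228) (nat_lit 7766412627) (nat_lit 304) (nat_lit 3440159962) (nat_lit 40) (nat_lit 5) (nat_lit 43) (nat_lit 5) (nat_lit 44) (nat_lit 5) (nat_lit 283) (nat_lit 241) (nat_lit 196)) (XT.lf (nat_lit 0) (nat_lit 803426241) (nat_lit 304) (nat_lit 752797937) (nat_lit 76) (nat_lit 15309655846) (nat_lit 39) (nat_lit 5) (nat_lit 43) (nat_lit 5) (nat_lit 40) (nat_lit 5) (nat_lit 284) (nat_lit 241)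 (nat_lit 195))))) (XT.nd (nat_lit 156) (nat_lit 304) (nat_lit 0) (XT.nd (nat_lit 78) (nat_lit 152) (nat_lit 0) (XT.lf (nat_lit 0) (nat_lit 5274805444) (nat_lit 304) (nat_lit 7234953908) (nat_lit 76) (nat_lit 4972522052) (nat_lit 36) (nat_lit 5) (nat_lit 40) (nat_lit 5) (nat_lit 37) (nat_lit 5) (nat_lit 285) (nat_lit 241) (nat_lit 194)) (XT.lf (nat_lit 0) (nat_lit 3648043707) (nat_lit 152) (nat_lit 6320457381) (nat_lit 228) (nat_lit 8161122978) (nat_lit 34) (nat_lit 5) (nat_lit 36) (nat_lit 5) (nat_lit 37) (nat_lit 5) (nat_lit 286) (nat_lit 241) (nat_lit 193))) (XT.nd (nat_lit 78) (nat_lit 304) (nat_lit 0) (XT.lf (nat_lit 0) (nat_lit 14915658933) (nat_lit 228) (nat_lit 3673351970) (nat_lit 76) (nat_lit 219839287) (nat_lit 34) (nat_lit 5) (nat_lit 37) (nat_lit 5) (nat_lit 35) (nat_lit 5) (nat_lit 287) (nat_lit 241) (nat_lit 192)) (XT.nd (nat_lit 78) (nat_lit 0) (nat_lit 0) (XT.lf (nat_lit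 0) (nat_lit 659591791) (nat_lit 304) (nat_lit 11850733165) (nat_lit 76) (nat_lit 7009128768) (nat_lit 30) (nat_lit 5) (nat_lit 34) (nat_lit 5) (nat_lit 31) (nat_lit 5) (nat_lit 288) (nat_lit 241) (nat_lit 191)) (XT.lf (nat_lit 0) (nat_lit 5344285575) (nat_lit 304) (nat_lit 734036342) (nat_lit 76) (nat_lit 14186635606) (nat_lit 30) (nat_lit 5) (nat_lit 34) (nat_lit 5) (nat_lit 31) (nat_lit 5) (nat_lit 289) (nat_lit 241) (nat_lit 190)))))) (XT.nd (nat_lit 390) (nat_lit 456) (nat_lit 0) (XT.nd (nat_lit 156) (nat_lit 228) (nat_lit 0) (XT.nd (nat_lit 78) (nat_lit 152) (nat_lit 0) (XT.lf (nat_lit 0) (nat_lit 10325361619) (nat_lit 228) (nat_lit 9979379414) (nat_lit 76) (nat_lit 741197853) (nat_lit 28) (nat_lit 5) (nat_lit 31) (nat_lit 5) (nat_lit 29) (nat_lit 5) (nat_lit 290) (nat_lit 241) (nat_lit 189)) (XT.lf (nat_lit 0) (nat_lit 1495006063) (nat_lit 152) (nat_lit 14093698715) (nat_lit 228) (nat_lit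 6276331764) (nat_lit 26) (nat_lit 5) (nat_lit 28) (nat_lit 5) (nat_lit 29) (nat_lit 5) (nat_lit 291) (nat_lit 241) (nat_lit 188))) (XT.nd (nat_lit 78) (nat_lit 228) (nat_lit 0) (XT.lf (nat_lit 0) (nat_lit 13674406280) (nat_lit 152) (nat_lit 7495044111) (nat_lit 228) (nat_lit 1554072223) (nat_lit 26) (nat_lit 5) (nat_lit 28) (nat_lit 5) (nat_lit 29) (nat_lit 5) (nat_lit 292) (nat_lit 241) (nat_lit 187)) (XT.nd (nat_lit 78) (nat_lit 0) (nat_lit 0) (XT.lf (nat_lit 0) (nat_lit 2784911624) (nat_lit 152) (nat_lit 533030539) (nat_lit 228) (nat_lit 20306662966) (nat_lit 23) (nat_lit 5) (nat_lit 25) (nat_lit 5) (nat_lit 26) (nat_lit 5) (nat_lit 293) (nat_lit 241) (nat_lit 186)) (XT.lf (nat_lit 0) (nat_lit 8515503401) (nat_lit 228) (nat_lit 9323520624) (nat_lit 76) (nat_lit 6727886896) (nat_lit 23) (nat_lit 5) (nat_lit 26) (nat_lit 5) (nat_lit 24) (nat_lit 5) (nat_lit 294) (nat_lit 241) (nat_lit 185)))))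 (XT.nd (nat_lit 234) (nat_lit 228) (nat_lit 0) (XT.nd (nat_lit 78) (nat_lit 76) (nat_lit 0) (XT.lf (nat_lit 0) (nat_lit 2746619306) (nat_lit 152) (nat_lit 11214836546) (nat_lit 228) (nat_lit 11595271573) (nat_lit 21) (nat_lit 5) (nat_lit 23) (nat_lit 5) (nat_lit 24) (nat_lit 5) (nat_lit 295) (nat_lit 241) (nat_lit 184)) (XT.nd (nat_lit 78) (nat_lit 76) (nat_lit 0) (XT.lf (nat_lit 0) (nat_lit 15547050566) (nat_lit 152) (nat_lit 4186770032) (nat_lit 228) (nat_lit 6860639114) (nat_lit 21) (nat_lit 5) (nat_lit 23) (nat_lit 5) (nat_lit 24) (nat_lit 5) (nat_lit 296) (nat_lit 241) (nat_lit 183)) (XT.lf (nat_lit 0) (nat_lit 1230942930) (nat_lit 76) (nat_lit 24566274390) (nat_lit 152) (nat_lit 1886834974) (nat_lit 20) (nat_lit 5) (nat_lit 21) (nat_lit 5) (nat_lit 22) (nat_lit 4) (nat_lit 297) (nat_lit 241) (nat_lit 182)))) (XT.nd (nat_lit 78) (nat_lit 152) (nat_lit 0) (XT.lf (nat_lit 0) (nat_lit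 3388435139) (nat_lit 152) (nat_lit 14610839192) (nat_lit 76) (nat_lit 10824394869) (nat_lit 19) (nat_lit 5) (nat_lit 21) (nat_lit 5) (nat_lit 20) (nat_lit 5) (nat_lit 298) (nat_lit 241) (nat_lit 181)) (XT.nd (nat_lit 78) (nat_lit 152) (nat_lit 0) (XT.lf (nat_lit 0) (nat_lit 8851436588) (nat_lit 152) (nat_lit 2257165410) (nat_lit 76) (nat_lit 18912255381) (nat_lit 19) (nat_lit 5) (nat_lit 21) (nat_lit 5) (nat_lit 20) (nat_lit 5) (nat_lit 299) (nat_lit 241) (nat_lit 180)) (XT.lf (nat_lit 0) (nat_lit 10867527504) (nat_lit 152) (nat_lit 3788933281) (nat_lit 228) (nat_lit 16619416659) (nat_lit 17) (nat_lit 5) (nat_lit 19) (nat_lit 5) (nat_lit 20) (nat_lit 5) (nat_lit 300) (nat_lit 241) (nat_lit 179))))))))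
noncomputable def xc53 : XT := (XT.nd (nat_lit 1638) (nat_lit 76) (nat_lit 0) (XT.nd (nat_lit 780) (nat_lit 456) (nat_lit 0) (XT.nd (nat_lit 390) (nat_lit 76) (nat_lit 0) (XT.nd (nat_lit 156) (nat_lit 228) (nat_lit 0) (XT.nd (nat_lit 78) (nat_lit 76) (nat_lit 0) (XT.lf (nat_lit 0) (nat_lit 20777996065) (nat_lit 228) (nat_lit 7992914624) (nat_lit 76) (nat_lit 3821986845) (nat_lit 17) (nat_lit 5) (nat_lit 20) (nat_lit 5) (nat_lit 18) (nat_lit 4) (nat_lit 301) (nat_lit 241) (nat_lit 178)) (XT.lf (nat_lit 0) (nat_lit 5048421136) (nat_lit 76) (nat_lit 22210945386) (nat_lit 152) (nat_lit 6714824418) (nat_lit 16) (nat_lit 5) (nat_lit 17) (nat_lit 5) (nat_lit 18) (nat_lit 4) (nat_lit 302) (nat_lit 241) (nat_lit 177))) (XT.nd (nat_lit 78) (nat_lit 228) (nat_lit 0) (XT.lf (nat_lit 0) (nat_lit 18855291134) (nat_lit 76) (nat_lit 15259838823) (nat_lit 152) (nat_lit 1307942717) (nat_lit 16) (nat_lit 5)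 (nat_lit 17) (nat_lit 5) (nat_lit 18) (nat_lit 4) (nat_lit 303) (nat_lit 241) (nat_lit 176)) (XT.nd (nat_lit 78) (nat_lit 152) (nat_lit 0) (XT.lf (nat_lit 0) (nat_lit 4253256255) (nat_lit 152) (nat_lit 3685547711) (nat_lit 76) (nat_lit 29005288391) (nat_lit 15) (nat_lit 5) (nat_lit 17) (nat_lit 5) (nat_lit 16) (nat_lit 5) (nat_lit 304) (nat_lit 241) (nat_lit 175)) (XT.lf (nat_lit 0) (nat_lit 9973011883) (nat_lit 152) (nat_lit 159269881) (nat_lit 228) (nat_lit 28406517664) (nat_lit 13) (nat_lit 5) (nat_lit 15) (nat_lit 5) (nat_lit 16) (nat_lit 5) (nat_lit 305) (nat_lit 241) (nat_lit 174))))) (XT.nd (nat_lit 156) (nat_lit 76) (nat_lit 0) (XT.nd (nat_lit 78) (nat_lit 0) (nat_lit 0) (XT.lf (nat_lit 0) (nat_lit 16392011385) (nat_lit 228) (nat_lit 15946428564) (nat_lit 76) (nat_lit 7872227324) (nat_lit 13) (nat_lit 5) (nat_lit 16) (nat_lit 5) (nat_lit 14) (nat_lit 4) (nat_lit 306) (nat_lit 241)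 (nat_lit 173)) (XT.lf (nat_lit 0) (nat_lit 22939142669) (nat_lit 228) (nat_lit 2743876895) (nat_lit 76) (nat_lit 16283903166) (nat_lit 13) (nat_lit 5) (nat_lit 16) (nat_lit 5) (nat_lit 14) (nat_lit 4) (nat_lit 307) (nat_lit 241) (nat_lit 172))) (XT.nd (nat_lit 78) (nat_lit 0) (nat_lit 0) (XT.lf (nat_lit 0) (nat_lit 11295244002) (nat_lit 76) (nat_lit 18601065815) (nat_lit 152) (nat_lit 13912226164) (nat_lit 12) (nat_lit 5) (nat_lit 13) (nat_lit 5) (nat_lit 14) (nat_lit 4) (nat_lit 308) (nat_lit 241) (nat_lit 171)) (XT.nd (nat_lit 78) (nat_lit 0) (nat_lit 0) (XT.lf (nat_lit 0) (nat_lit 26050951022) (nat_lit 76) (nat_lit 11153555270) (nat_lit 152) (nat_lit 8537652668) (nat_lit 12) (nat_lit 5) (nat_lit 13) (nat_lit 5) (nat_lit 14) (nat_lit 4) (nat_lit 309) (nat_lit 241) (nat_lit 170)) (XT.lf (nat_lit 0) (nat_lit 41503768268) (nat_lit 76) (nat_lit 3350463537) (nat_lit 152) (nat_lit 2918970746)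 (nat_lit 12) (nat_lit 5) (nat_lit 13) (nat_lit 5) (nat_lit 14) (nat_lit 4) (nat_lit 310) (nat_lit 241) (nat_lit 169)))))) (XT.nd (nat_lit 390) (nat_lit 152) (nat_lit 0) (XT.nd (nat_lit 156) (nat_lit 76) (nat_lit 0) (XT.nd (nat_lit 78) (nat_lit 0) (nat_lit 0) (XT.lf (nat_lit 0) (nat_lit 3022959047) (nat_lit 228) (nat_lit 42040891015) (nat_lit 76) (nat_lit 4838095705) (nat_lit 9) (nat_lit 5) (nat_lit 12) (nat_lit 5) (nat_lit 10) (nat_lit 4) (nat_lit 311) (nat_lit 241) (nat_lit 168)) (XT.lf (nat_lit 0) (nat_lit 9278758164) (nat_lit 228) (nat_lit 29408655811) (nat_lit 76) (nat_lit 13446551188) (nat_lit 9) (nat_lit 5) (nat_lit 12) (nat_lit 5) (nat_lit 10) (nat_lit 4) (nat_lit 312) (nat_lit 241) (nat_lit 167))) (XT.nd (nat_lit 78) (nat_lit 76) (nat_lit 0) (XT.lf (nat_lit 0) (nat_lit 15826000686) (nat_lit 228) (nat_lit 16181598259) (nat_lit 76) (nat_lit 22470646306) (nat_lit 9) (nat_lit 5) (nat_lit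 12) (nat_lit 5) (nat_lit 10) (nat_lit 4) (nat_lit 313) (nat_lit 241) (nat_lit 166)) (XT.nd (nat_lit 78) (nat_lit 76) (nat_lit 0) (XT.lf (nat_lit 0) (nat_lit 22680275284) (nat_lit 228) (nat_lit 2328225363) (nat_lit 76) (nat_lit 31931866999) (nat_lit 9) (nat_lit 5) (nat_lit 12) (nat_lit 5) (nat_lit 10) (nat_lit 4) (nat_lit 314) (nat_lit 241) (nat_lit 165)) (XT.lf (nat_lit 0) (nat_lit 12426941483) (nat_lit 76) (nat_lit 17550415541) (nat_lit 152) (nat_lit 29545253865) (nat_lit 8) (nat_lit 5) (nat_lit 9) (nat_lit 5) (nat_lit 10) (nat_lit 4) (nat_lit 315) (nat_lit 241) (nat_lit 164))))) (XT.nd (nat_lit 234) (nat_lit 152) (nat_lit 0) (XT.nd (nat_lit 78) (nat_lit 0) (nat_lit 0) (XT.lf (nat_lit 0) (nat_lit 27936107172) (nat_lit 76) (nat_lit 9708401181) (nat_lit 152) (nat_lit 24589318167) (nat_lit 8) (nat_lit 5) (nat_lit 9) (nat_lit 5) (nat_lit 10) (nat_lit 4) (nat_lit 316) (nat_lit 241) (nat_lit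 163)) (XT.nd (nat_lit 78) (nat_lit 0) (nat_lit 0) (XT.lf (nat_lit 0) (nat_lit 44189862038) (nat_lit 76) (nat_lit 1487296617) (nat_lit 152) (nat_lit 19403995933) (nat_lit 8) (nat_lit 5) (nat_lit 9) (nat_lit 5) (nat_lit 10) (nat_lit 4) (nat_lit 317) (nat_lit 241) (nat_lit 162)) (XT.lf (nat_lit 0) (nat_lit 54162994974) (nat_lit 152) (nat_lit 6913030635) (nat_lit 0) (nat_lit 6993291986) (nat_lit 8) (nat_lit 5) (nat_lit 10) (nat_lit 4) (nat_lit 8) (nat_lit 4) (nat_lit 318) (nat_lit 241) (nat_lit 161)))) (XT.nd (nat_lit 78) (nat_lit 76) (nat_lit 0) (XT.lf (nat_lit 0) (nat_lit 7874404606) (nat_lit 76) (nat_lit 55273112034) (nat_lit 76) (nat_lit 8057154728) (nat_lit 7) (nat_lit 4) (nat_lit 8) (nat_lit 5) (nat_lit 8) (nat_lit 4) (nat_lit 319) (nat_lit 241) (nat_lit 160)) (XT.nd (nat_lit 78) (nat_lit 76) (nat_lit 0) (XT.lf (nat_lit 0) (nat_lit 23518101179) (nat_lit 76) (nat_lit 49118526756) (nat_lit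 76) (nat_lit 1858517719) (nat_lit 7) (nat_lit 4) (nat_lit 8) (nat_lit 5) (nat_lit 8) (nat_lit 4) (nat_lit 320) (nat_lit 241) (nat_lit 159)) (XT.lf (nat_lit 0) (nat_lit 4544102459) (nat_lit 152) (nat_lit 38077435073) (nat_lit 76) (nat_lit 35327734131) (nat_lit 6) (nat_lit 5) (nat_lit 8) (nat_lit 5) (nat_lit 7) (nat_lit 4) (nat_lit 321) (nat_lit 241) (nat_lit 158))))))) (XT.nd (nat_lit 31434) (nat_lit 0) (nat_lit 14744) (XT.nd (nat_lit 390) (nat_lit 0) (nat_lit 0) (XT.nd (nat_lit 156) (nat_lit 76) (nat_lit 0) (XT.nd (nat_lit 78) (nat_lit 0) (nat_lit 0) (XT.lf (nat_lit 0) (nat_lit 11214288780) (nat_lit 152) (nat_lit 24576913061) (nat_lit 76) (nat_lit 45784786026) (nat_lit 6) (nat_lit 5) (nat_lit 8) (nat_lit 5) (nat_lit 7) (nat_lit 4) (nat_lit 322) (nat_lit 241) (nat_lit 157)) (XT.lf (nat_lit 0) (nat_lit 18204189013) (nat_lit 152) (nat_lit 10425469131) (nat_lit 76) (nat_lit 56754807118) (nat_lit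 6) (nat_lit 5) (nat_lit 8) (nat_lit 5) (nat_lit 7) (nat_lit 4) (nat_lit 323) (nat_lit 241) (nat_lit 156))) (XT.nd (nat_lit 78) (nat_lit 0) (nat_lit 0) (XT.lf (nat_lit 0) (nat_lit 4498370033) (nat_lit 76) (nat_lit 21075316828) (nat_lit 152) (nat_lit 63808787555) (nat_lit 5) (nat_lit 5) (nat_lit 6) (nat_lit 5) (nat_lit 7) (nat_lit 4) (nat_lit 324) (nat_lit 241) (nat_lit 155)) (XT.nd (nat_lit 78) (nat_lit 0) (nat_lit 0) (XT.lf (nat_lit 0) (nat_lit 20363964474) (nat_lit 76) (nat_lit 13042288951) (nat_lit 152) (nat_lit 60171303236) (nat_lit 5) (nat_lit 5) (nat_lit 6) (nat_lit 5) (nat_lit 7) (nat_lit 4) (nat_lit 325) (nat_lit 241) (nat_lit 154)) (XT.lf (nat_lit 0) (nat_lit 37001602137) (nat_lit 76) (nat_lit 4616725053) (nat_lit 152) (nat_lit 56364439411) (nat_lit 5) (nat_lit 5) (nat_lit 6) (nat_lit 5) (nat_lit 7) (nat_lit 4) (nat_lit 326) (nat_lit 241) (nat_lit 153))))) (XT.nd (nat_lit 156) (nat_lit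 0) (nat_lit 0) (XT.nd (nat_lit 78) (nat_lit 0) (nat_lit 0) (XT.lf (nat_lit 0) (nat_lit 50270039736) (nat_lit 152) (nat_lit 48198275409) (nat_lit 0) (nat_lit 4139060316) (nat_lit 5) (nat_lit 5) (nat_lit 7) (nat_lit 4) (nat_lit 5) (nat_lit 4) (nat_lit 327) (nat_lit 241) (nat_lit 152)) (XT.lf (nat_lit 0) (nat_lit 59389861938) (nat_lit 152) (nat_lit 34842361132) (nat_lit 0) (nat_lit 13229934998) (nat_lit 5) (nat_lit 5) (nat_lit 7) (nat_lit 4) (nat_lit 5) (nat_lit 4) (nat_lit 328) (nat_lit 241) (nat_lit 151))) (XT.nd (nat_lit 30732) (nat_lit 0) (nat_lit 18696) (XT.lf (nat_lit 0) (nat_lit 68955128874) (nat_lit 152) (nat_lit 20837243051) (nat_lit 0) (nat_lit 22767632866) (nat_lit 5) (nat_lit 5) (nat_lit 7) (nat_lit 4) (nat_lit 5) (nat_lit 4) (nat_lit 329) (nat_lit 241) (nat_lit 150)) (XT.nd (nat_lit 78) (nat_lit 380) (nat_lit 0) (XT.lf (nat_lit 0) (nat_lit 1076610849) (nat_lit 0) (nat_lit 1076610849)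 (nat_lit 228) (nat_lit 1092337444) (nat_lit 256) (nat_lit 5) (nat_lit 256) (nat_lit 3) (nat_lit 259) (nat_lit 3) (nat_lit 242) (nat_lit 242) (nat_lit 236)) (XT.lf (nat_lit 76) (nat_lit 348440569) (nat_lit 0) (nat_lit 1407704172) (nat_lit 380) (nat_lit 4763846719) (nat_lit 252) (nat_lit 5) (nat_lit 251) (nat_lit 3) (nat_lit 256) (nat_lit 5) (nat_lit 243) (nat_lit 242) (nat_lit 235)))))) (XT.nd (nat_lit 390) (nat_lit 2660) (nat_lit 0) (XT.nd (nat_lit 156) (nat_lit 988) (nat_lit 0) (XT.nd (nat_lit 78) (nat_lit 304) (nat_lit 0) (XT.lf (nat_lit 76) (nat_lit 5203993777) (nat_lit 0) (nat_lit 435660507) (nat_lit 380) (nat_lit 917272244) (nat_lit 252) (nat_lit 5) (nat_lit 251) (nat_lit 3) (nat_lit 256) (nat_lit 5) (nat_lit 244) (nat_lit 242) (nat_lit 234)) (XT.lf (nat_lit 0) (nat_lit 2857554386) (nat_lit 380) (nat_lit 2994960471) (nat_lit 456) (nat_lit 749305474) (nat_lit 247) (nat_lit 5) (nat_lit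 252) (nat_lit 5) (nat_lit 253) (nat_lit 5) (nat_lit 245) (nat_lit 242) (nat_lit 233))) (XT.nd (nat_lit 78) (nat_lit 988) (nat_lit 0) (XT.lf (nat_lit 76) (nat_lit 2083389255) (nat_lit 0) (nat_lit 4523633063) (nat_lit 456) (nat_lit 48391579) (nat_lit 248) (nat_lit 5) (nat_lit 247) (nat_lit 5) (nat_lit 253) (nat_lit 5) (nat_lit 246) (nat_lit 242) (nat_lit 232)) (XT.nd (nat_lit 78) (nat_lit 532) (nat_lit 0) (XT.lf (nat_lit 76) (nat_lit 602881965) (nat_lit 0) (nat_lit 2964561958) (nat_lit 532) (nat_lit 3149647410) (nat_lit 242) (nat_lit 5) (nat_lit 241) (nat_lit 5) (nat_lit 248) (nat_lit 5) (nat_lit 247) (nat_lit 242) (nat_lit 231)) (XT.lf (nat_lit 0) (nat_lit 397044878) (nat_lit 532) (nat_lit 795263111) (nat_lit 608) (nat_lit 5595294956) (nat_lit 234) (nat_lit 5) (nat_lit 241) (nat_lit 5) (nat_lit 242) (nat_lit 5) (nat_lit 248) (nat_lit 242) (nat_lit 230))))) (XT.nd (nat_lit 234) (nat_lit 1520)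 (nat_lit 0) (XT.nd (nat_lit 78) (nat_lit 1216) (nat_lit 0) (XT.lf (nat_lit 0) (nat_lit 3899908981) (nat_lit 532) (nat_lit 2158064394) (nat_lit 76) (nat_lit 808123286) (nat_lit 235) (nat_lit 5) (nat_lit 242) (nat_lit 5) (nat_lit 236) (nat_lit 5) (nat_lit 249) (nat_lit 242) (nat_lit 229)) (XT.nd (nat_lit 78) (nat_lit 608) (nat_lit 0) (XT.lf (nat_lit 0) (nat_lit 468236149) (nat_lit 608) (nat_lit 3484926636) (nat_lit 76) (nat_lit 3000295024) (nat_lit 227) (nat_lit 5) (nat_lit 235) (nat_lit 5) (nat_lit 228) (nat_lit 5) (nat_lit 250) (nat_lit 242) (nat_lit 228)) (XT.lf (nat_lit 0) (nat_lit 2253028971) (nat_lit 608) (nat_lit 1609943733) (nat_lit 684) (nat_lit 3186461595) (nat_lit 219) (nat_lit 5) (nat_lit 227) (nat_lit 5) (nat_lit 228) (nat_lit 5) (nat_lit 251) (nat_lit 242) (nat_lit 227)))) (XT.nd (nat_lit 78) (nat_lit 760) (nat_lit 0) (XT.lf (nat_lit 0) (nat_lit 138430320) (nat_lit 760) (nat_lit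 6082686046) (nat_lit 76) (nat_lit 933594414) (nat_lit 209) (nat_lit 5) (nat_lit 219) (nat_lit 5) (nat_lit 210) (nat_lit 5) (nat_lit 252) (nat_lit 242) (nat_lit 226)) (XT.nd (nat_lit 78) (nat_lit 760) (nat_lit 0) (XT.lf (nat_lit 0) (nat_lit 3449389238) (nat_lit 760) (nat_lit 119254851) (nat_lit 76) (nat_lit 3699640469) (nat_lit 209) (nat_lit 5) (nat_lit 219) (nat_lit 5) (nat_lit 210) (nat_lit 5) (nat_lit 253) (nat_lit 242) (nat_lit 225)) (XT.lf (nat_lit 0) (nat_lit 6127933643) (nat_lit 760) (nat_lit 684484614) (nat_lit 836) (nat_lit 579048481) (nat_lit 199) (nat_lit 5) (nat_lit 209) (nat_lit 5) (nat_lit 210) (nat_lit 5) (nat_lit 254) (nat_lit 242) (nat_lit 224))))))))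
noncomputable def xc54 : XT := (XT.nd (nat_lit 1638) (nat_lit 3116) (nat_lit 0) (XT.nd (nat_lit 780) (nat_lit 3648) (nat_lit 0) (XT.nd (nat_lit 390) (nat_lit 2128) (nat_lit 0) (XT.nd (nat_lit 156) (nat_lit 2812) (nat_lit 0) (XT.nd (nat_lit 78) (nat_lit 912) (nat_lit 0) (XT.lf (nat_lit 0) (nat_lit 2674113104) (nat_lit 912) (nat_lit 2439862264) (nat_lit 76) (nat_lit 2409312256) (nat_lit 187) (nat_lit 5) (nat_lit 199) (nat_lit 5) (nat_lit 188) (nat_lit 5) (nat_lit 255) (nat_lit 242) (nat_lit 223)) (XT.lf (nat_lit 0) (nat_lit 4043126436) (nat_lit 912) (nat_lit 1933320246) (nat_lit 988) (nat_lit 1688588844) (nat_lit 175) (nat_lit 5) (nat_lit 187) (nat_lit 5) (nat_lit 188) (nat_lit 5) (nat_lit 256) (nat_lit 242) (nat_lit 222))) (XT.nd (nat_lit 78) (nat_lit 1748) (nat_lit 0) (XT.lf (nat_lit 0) (nat_lit 1510673427) (nat_lit 1064) (nat_lit 4835990621) (nat_lit 76) (nat_lit 1469790850) (nat_lit 161)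 (nat_lit 5) (nat_lit 175) (nat_lit 5) (nat_lit 162) (nat_lit 5) (nat_lit 257) (nat_lit 242) (nat_lit 221)) (XT.nd (nat_lit 78) (nat_lit 684) (nat_lit 0) (XT.lf (nat_lit 0) (nat_lit 1877465236) (nat_lit 1064) (nat_lit 2883285138) (nat_lit 1140) (nat_lit 3216827495) (nat_lit 147) (nat_lit 5) (nat_lit 161) (nat_lit 5) (nat_lit 162) (nat_lit 5) (nat_lit 258) (nat_lit 242) (nat_lit 220)) (XT.lf (nat_lit 0) (nat_lit 751865469) (nat_lit 684) (nat_lit 7342409091) (nat_lit 760) (nat_lit 55242144) (nat_lit 138) (nat_lit 5) (nat_lit 147) (nat_lit 5) (nat_lit 148) (nat_lit 5) (nat_lit 259) (nat_lit 242) (nat_lit 219))))) (XT.nd (nat_lit 156) (nat_lit 1520) (nat_lit 0) (XT.nd (nat_lit 78) (nat_lit 532) (nat_lit 0) (XT.lf (nat_lit 0) (nat_lit 3153273705) (nat_lit 760) (nat_lit 452019658) (nat_lit 76) (nat_lit 4725599949) (nat_lit 137) (nat_lit 5) (nat_lit 147) (nat_lit 5) (nat_lit 138) (nat_lit 5) (nat_lit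 260) (nat_lit 242) (nat_lit 218)) (XT.lf (nat_lit 0) (nat_lit 6457318223) (nat_lit 608) (nat_lit 1683714986) (nat_lit 76) (nat_lit 382543464) (nat_lit 130) (nat_lit 5) (nat_lit 138) (nat_lit 5) (nat_lit 131) (nat_lit 5) (nat_lit 261) (nat_lit 242) (nat_lit 217))) (XT.nd (nat_lit 78) (nat_lit 912) (nat_lit 0) (XT.lf (nat_lit 0) (nat_lit 1144570058) (nat_lit 608) (nat_lit 3013712791) (nat_lit 76) (nat_lit 4568561186) (nat_lit 122) (nat_lit 5) (nat_lit 130) (nat_lit 5) (nat_lit 123) (nat_lit 5) (nat_lit 262) (nat_lit 242) (nat_lit 216)) (XT.nd (nat_lit 78) (nat_lit 456) (nat_lit 0) (XT.lf (nat_lit 0) (nat_lit 4410681422) (nat_lit 532) (nat_lit 4430230293) (nat_lit 76) (nat_lit 100925962) (nat_lit 116) (nat_lit 5) (nat_lit 123) (nat_lit 5) (nat_lit 117) (nat_lit 5) (nat_lit 263) (nat_lit 242) (nat_lit 215)) (XT.lf (nat_lit 0) (nat_lit 3199915832) (nat_lit 456) (nat_lit 4624124826) (nat_lit 532)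 (nat_lit 1344308643) (nat_lit 110) (nat_lit 5) (nat_lit 116) (nat_lit 5) (nat_lit 117) (nat_lit 5) (nat_lit 264) (nat_lit 242) (nat_lit 214)))))) (XT.nd (nat_lit 390) (nat_lit 1824) (nat_lit 0) (XT.nd (nat_lit 156) (nat_lit 836) (nat_lit 0) (XT.nd (nat_lit 78) (nat_lit 456) (nat_lit 0) (XT.lf (nat_lit 0) (nat_lit 1785839541) (nat_lit 456) (nat_lit 123178856) (nat_lit 532) (nat_lit 7498469757) (nat_lit 103) (nat_lit 5) (nat_lit 109) (nat_lit 5) (nat_lit 110) (nat_lit 5) (nat_lit 265) (nat_lit 242) (nat_lit 213)) (XT.lf (nat_lit 0) (nat_lit 213074648) (nat_lit 456) (nat_lit 5079965161) (nat_lit 532) (nat_lit 4365522283) (nat_lit 97) (nat_lit 5) (nat_lit 103) (nat_lit 5) (nat_lit 104) (nat_lit 5) (nat_lit 266) (nat_lit 242) (nat_lit 212))) (XT.nd (nat_lit 78) (nat_lit 836) (nat_lit 0) (XT.lf (nat_lit 0) (nat_lit 8472749105) (nat_lit 456) (nat_lit 344603458) (nat_lit 532) (nat_lit 1105944795)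 (nat_lit 97) (nat_lit 5) (nat_lit 103) (nat_lit 5) (nat_lit 104) (nat_lit 5) (nat_lit 267) (nat_lit 242) (nat_lit 211)) (XT.nd (nat_lit 78) (nat_lit 380) (nat_lit 0) (XT.lf (nat_lit 0) (nat_lit 2278608672) (nat_lit 456) (nat_lit 3311101883) (nat_lit 76) (nat_lit 4610896923) (nat_lit 91) (nat_lit 5) (nat_lit 97) (nat_lit 5) (nat_lit 92) (nat_lit 5) (nat_lit 268) (nat_lit 242) (nat_lit 210)) (XT.lf (nat_lit 0) (nat_lit 5150503692) (nat_lit 380) (nat_lit 626309344) (nat_lit 456) (nat_lit 4715834339) (nat_lit 86) (nat_lit 5) (nat_lit 91) (nat_lit 5) (nat_lit 92) (nat_lit 5) (nat_lit 269) (nat_lit 242) (nat_lit 209))))) (XT.nd (nat_lit 234) (nat_lit 988) (nat_lit 0) (XT.nd (nat_lit 78) (nat_lit 456) (nat_lit 0) (XT.lf (nat_lit 0) (nat_lit 3204003947) (nat_lit 380) (nat_lit 6257725725) (nat_lit 456) (nat_lit 1337407100) (nat_lit 81) (nat_lit 5) (nat_lit 86) (nat_lit 5) (nat_lit 87) (nat_lit 5)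 (nat_lit 270) (nat_lit 242) (nat_lit 208)) (XT.nd (nat_lit 78) (nat_lit 0) (nat_lit 0) (XT.lf (nat_lit 0) (nat_lit 1043188380) (nat_lit 380) (nat_lit 1100421593) (nat_lit 456) (nat_lit 8977585972) (nat_lit 75) (nat_lit 5) (nat_lit 80) (nat_lit 5) (nat_lit 81) (nat_lit 5) (nat_lit 271) (nat_lit 242) (nat_lit 207)) (XT.lf (nat_lit 0) (nat_lit 5799806754) (nat_lit 456) (nat_lit 1358764118) (nat_lit 76) (nat_lit 4299703802) (nat_lit 75) (nat_lit 5) (nat_lit 81) (nat_lit 5) (nat_lit 76) (nat_lit 5) (nat_lit 272) (nat_lit 242) (nat_lit 206)))) (XT.nd (nat_lit 78) (nat_lit 684) (nat_lit 0) (XT.lf (nat_lit 0) (nat_lit 7825520385) (nat_lit 304) (nat_lit 1812095944) (nat_lit 380) (nat_lit 2174795973) (nat_lit 71) (nat_lit 5) (nat_lit 75) (nat_lit 5) (nat_lit 76) (nat_lit 5) (nat_lit 273) (nat_lit 242) (nat_lit 205)) (XT.nd (nat_lit 78) (nat_lit 304) (nat_lit 0) (XT.lf (nat_lit 0) (nat_lit 1470786212)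 (nat_lit 380) (nat_lit 6930394830) (nat_lit 76) (nat_lit 3782304401) (nat_lit 66) (nat_lit 5) (nat_lit 71) (nat_lit 5) (nat_lit 67) (nat_lit 5) (nat_lit 274) (nat_lit 242) (nat_lit 204)) (XT.lf (nat_lit 0) (nat_lit 2361604837) (nat_lit 304) (nat_lit 2892300961) (nat_lit 380) (nat_lit 7318702239) (nat_lit 62) (nat_lit 5) (nat_lit 66) (nat_lit 5) (nat_lit 67) (nat_lit 5) (nat_lit 275) (nat_lit 242) (nat_lit 203))))))) (XT.nd (nat_lit 780) (nat_lit 1140) (nat_lit 0) (XT.nd (nat_lit 390) (nat_lit 1064) (nat_lit 0) (XT.nd (nat_lit 156) (nat_lit 532) (nat_lit 0) (XT.nd (nat_lit 78) (nat_lit 380) (nat_lit 0) (XT.lf (nat_lit 0) (nat_lit 9246049372) (nat_lit 380) (nat_lit 853967085) (nat_lit 76) (nat_lit 2880716043) (nat_lit 62) (nat_lit 5) (nat_lit 67) (nat_lit 5) (nat_lit 63) (nat_lit 5) (nat_lit 276) (nat_lit 242) (nat_lit 202)) (XT.lf (nat_lit 0) (nat_lit 67903251) (nat_lit 380) (nat_lit 4395494492)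 (nat_lit 76) (nat_lit 8944790610) (nat_lit 57) (nat_lit 5) (nat_lit 62) (nat_lit 5) (nat_lit 58) (nat_lit 5) (nat_lit 277) (nat_lit 242) (nat_lit 201))) (XT.nd (nat_lit 78) (nat_lit 304) (nat_lit 0) (XT.lf (nat_lit 0) (nat_lit 3986175662) (nat_lit 304) (nat_lit 8370604515) (nat_lit 76) (nat_lit 1499168492) (nat_lit 54) (nat_lit 5) (nat_lit 58) (nat_lit 5) (nat_lit 55) (nat_lit 5) (nat_lit 278) (nat_lit 242) (nat_lit 200)) (XT.nd (nat_lit 78) (nat_lit 0) (nat_lit 0) (XT.lf (nat_lit 0) (nat_lit 1509390000) (nat_lit 304) (nat_lit 6624165832) (nat_lit 380) (nat_lit 6191664250) (nat_lit 50) (nat_lit 5) (nat_lit 54) (nat_lit 5) (nat_lit 55) (nat_lit 5) (nat_lit 279) (nat_lit 242) (nat_lit 199)) (XT.lf (nat_lit 0) (nat_lit 11959322747) (nat_lit 304) (nat_lit 545569315) (nat_lit 380) (nat_lit 2312678636) (nat_lit 50) (nat_lit 5) (nat_lit 54) (nat_lit 5) (nat_lit 55) (nat_lit 5) (nat_lit 280) (nat_lit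 242) (nat_lit 198))))) (XT.nd (nat_lit 156) (nat_lit 532) (nat_lit 0) (XT.nd (nat_lit 78) (nat_lit 228) (nat_lit 0) (XT.lf (nat_lit 0) (nat_lit 1788982957) (nat_lit 304) (nat_lit 7757129491) (nat_lit 76) (nat_lit 5786131218) (nat_lit 46) (nat_lit 5) (nat_lit 50) (nat_lit 5) (nat_lit 47) (nat_lit 5) (nat_lit 281) (nat_lit 242) (nat_lit 197)) (XT.lf (nat_lit 0) (nat_lit 2645861167) (nat_lit 228) (nat_lit 3398133429) (nat_lit 304) (nat_lit 9828185575) (nat_lit 43) (nat_lit 5) (nat_lit 46) (nat_lit 5) (nat_lit 47) (nat_lit 5) (nat_lit 282) (nat_lit 242) (nat_lit 196))) (XT.nd (nat_lit 78) (nat_lit 532) (nat_lit 0) (XT.lf (nat_lit 0) (nat_lit 10558715645) (nat_lit 304) (nat_lit 2829510926) (nat_lit 76) (nat_lit 3049573140) (nat_lit 43) (nat_lit 5) (nat_lit 47) (nat_lit 5) (nat_lit 44) (nat_lit 5) (nat_lit 283) (nat_lit 242) (nat_lit 195)) (XT.nd (nat_lit 78) (nat_lit 304) (nat_lit 0) (XT.lf (nat_lit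 0) (nat_lit 8122076208) (nat_lit 228) (nat_lit 7229399848) (nat_lit 304) (nat_lit 1678745524) (nat_lit 40) (nat_lit 5) (nat_lit 43) (nat_lit 5) (nat_lit 44) (nat_lit 5) (nat_lit 284) (nat_lit 242) (nat_lit 194)) (XT.lf (nat_lit 0) (nat_lit 1952588590) (nat_lit 228) (nat_lit 715201678) (nat_lit 304) (nat_lit 14984085659) (nat_lit 36) (nat_lit 5) (nat_lit 39) (nat_lit 5) (nat_lit 40) (nat_lit 5) (nat_lit 285) (nat_lit 242) (nat_lit 193)))))) (XT.nd (nat_lit 390) (nat_lit 532) (nat_lit 0) (XT.nd (nat_lit 156) (nat_lit 456) (nat_lit 0) (XT.nd (nat_lit 78) (nat_lit 152) (nat_lit 0) (XT.lf (nat_lit 0) (nat_lit 7291737358) (nat_lit 304) (nat_lit 4923007176) (nat_lit 76) (nat_lit 6086605365) (nat_lit 36) (nat_lit 5) (nat_lit 40) (nat_lit 5) (nat_lit 37) (nat_lit 5) (nat_lit 286) (nat_lit 242) (nat_lit 192)) (XT.lf (nat_lit 0) (nat_lit 6427499406) (nat_lit 152) (nat_lit 5734097528) (nat_lit 228)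 (nat_lit 6821335043) (nat_lit 34) (nat_lit 5) (nat_lit 36) (nat_lit 5) (nat_lit 37) (nat_lit 5) (nat_lit 287) (nat_lit 242) (nat_lit 191))) (XT.nd (nat_lit 78) (nat_lit 456) (nat_lit 0) (XT.lf (nat_lit 0) (nat_lit 17283675258) (nat_lit 228) (nat_lit 1341255235) (nat_lit 76) (nat_lit 1073473141) (nat_lit 34) (nat_lit 5) (nat_lit 37) (nat_lit 5) (nat_lit 35) (nat_lit 5) (nat_lit 288) (nat_lit 242) (nat_lit 190)) (XT.nd (nat_lit 78) (nat_lit 152) (nat_lit 0) (XT.lf (nat_lit 0) (nat_lit 2278649816) (nat_lit 304) (nat_lit 9965998685) (nat_lit 76) (nat_lit 8201140943) (nat_lit 30) (nat_lit 5) (nat_lit 34) (nat_lit 5) (nat_lit 31) (nat_lit 5) (nat_lit 289) (nat_lit 242) (nat_lit 189)) (XT.lf (nat_lit 0) (nat_lit 1620183298) (nat_lit 152) (nat_lit 5517441638) (nat_lit 228) (nat_lit 14092839935) (nat_lit 28) (nat_lit 5) (nat_lit 30) (nat_lit 5) (nat_lit 31) (nat_lit 5) (nat_lit 290) (nat_lit 242)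 (nat_lit 188))))) (XT.nd (nat_lit 234) (nat_lit 380) (nat_lit 0) (XT.nd (nat_lit 78) (nat_lit 152) (nat_lit 0) (XT.lf (nat_lit 0) (nat_lit 12310266944) (nat_lit 228) (nat_lit 8148976854) (nat_lit 76) (nat_lit 1593069321) (nat_lit 28) (nat_lit 5) (nat_lit 31) (nat_lit 5) (nat_lit 29) (nat_lit 5) (nat_lit 291) (nat_lit 242) (nat_lit 187)) (XT.nd (nat_lit 78) (nat_lit 0) (nat_lit 0) (XT.lf (nat_lit 0) (nat_lit 3832356930) (nat_lit 152) (nat_lit 13956234725) (nat_lit 228) (nat_lit 5125308313) (nat_lit 26) (nat_lit 5) (nat_lit 28) (nat_lit 5) (nat_lit 29) (nat_lit 5) (nat_lit 292) (nat_lit 242) (nat_lit 186)) (XT.lf (nat_lit 0) (nat_lit 16512984273) (nat_lit 152) (nat_lit 7067749721) (nat_lit 228) (nat_lit 236690083) (nat_lit 26) (nat_lit 5) (nat_lit 28) (nat_lit 5) (nat_lit 29) (nat_lit 5) (nat_lit 293) (nat_lit 242) (nat_lit 185)))) (XT.nd (nat_lit 78) (nat_lit 152) (nat_lit 0) (XT.lf (nat_lit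 0) (nat_lit 4809246077) (nat_lit 228) (nat_lit 19721586726) (nat_lit 76) (nat_lit 233677423) (nat_lit 23) (nat_lit 5) (nat_lit 26) (nat_lit 5) (nat_lit 24) (nat_lit 5) (nat_lit 294) (nat_lit 242) (nat_lit 184)) (XT.nd (nat_lit 78) (nat_lit 152) (nat_lit 0) (XT.lf (nat_lit 0) (nat_lit 10208694582) (nat_lit 228) (nat_lit 7737590514) (nat_lit 76) (nat_lit 7809460362) (nat_lit 23) (nat_lit 5) (nat_lit 26) (nat_lit 5) (nat_lit 24) (nat_lit 5) (nat_lit 295) (nat_lit 242) (nat_lit 183)) (XT.lf (nat_lit 0) (nat_lit 4877233202) (nat_lit 152) (nat_lit 11008518965) (nat_lit 228) (nat_lit 10910607277) (nat_lit 21) (nat_lit 5) (nat_lit 23) (nat_lit 5) (nat_lit 24) (nat_lit 5) (nat_lit 296) (nat_lit 242) (nat_lit 182))))))))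
noncomputable def xc55 : XT := (XT.nd (nat_lit 1638) (nat_lit 228) (nat_lit 0) (XT.nd (nat_lit 780) (nat_lit 380) (nat_lit 0) (XT.nd (nat_lit 390) (nat_lit 304) (nat_lit 0) (XT.nd (nat_lit 156) (nat_lit 228) (nat_lit 0) (XT.nd (nat_lit 78) (nat_lit 76) (nat_lit 0) (XT.lf (nat_lit 0) (nat_lit 18222767790) (nat_lit 152) (nat_lit 3665575764) (nat_lit 228) (nat_lit 5999454047) (nat_lit 21) (nat_lit 5) (nat_lit 23) (nat_lit 5) (nat_lit 24) (nat_lit 5) (nat_lit 297) (nat_lit 242) (nat_lit 181)) (XT.lf (nat_lit 0) (nat_lit 3164959621) (nat_lit 76) (nat_lit 25059026702) (nat_lit 152) (nat_lit 808875496) (nat_lit 20) (nat_lit 5) (nat_lit 21) (nat_lit 5) (nat_lit 22) (nat_lit 4) (nat_lit 298) (nat_lit 242) (nat_lit 180))) (XT.nd (nat_lit 78) (nat_lit 152) (nat_lit 0) (XT.lf (nat_lit 0) (nat_lit 4652547760) (nat_lit 152) (nat_lit 13535101382) (nat_lit 76) (nat_lit 12043173844) (nat_lit 19) (nat_lit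 5) (nat_lit 21) (nat_lit 5) (nat_lit 20) (nat_lit 5) (nat_lit 299) (nat_lit 242) (nat_lit 179)) (XT.nd (nat_lit 78) (nat_lit 152) (nat_lit 0) (XT.lf (nat_lit 0) (nat_lit 10336571145) (nat_lit 152) (nat_lit 649757233) (nat_lit 76) (nat_lit 20503162657) (nat_lit 19) (nat_lit 5) (nat_lit 21) (nat_lit 5) (nat_lit 20) (nat_lit 5) (nat_lit 300) (nat_lit 242) (nat_lit 178)) (XT.lf (nat_lit 0) (nat_lit 13081859235) (nat_lit 152) (nat_lit 3316403719) (nat_lit 228) (nat_lit 16410060579) (nat_lit 17) (nat_lit 5) (nat_lit 19) (nat_lit 5) (nat_lit 20) (nat_lit 5) (nat_lit 301) (nat_lit 242) (nat_lit 177))))) (XT.nd (nat_lit 156) (nat_lit 228) (nat_lit 0) (XT.nd (nat_lit 78) (nat_lit 76) (nat_lit 0) (XT.lf (nat_lit 0) (nat_lit 22783888677) (nat_lit 228) (nat_lit 6777379575) (nat_lit 76) (nat_lit 4631237317) (nat_lit 17) (nat_lit 5) (nat_lit 20) (nat_lit 5) (nat_lit 18) (nat_lit 4) (nat_lit 302) (nat_lit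 242) (nat_lit 176)) (XT.lf (nat_lit 0) (nat_lit 6869724140) (nat_lit 76) (nat_lit 22688637293) (nat_lit 152) (nat_lit 6085480106) (nat_lit 16) (nat_lit 5) (nat_lit 17) (nat_lit 5) (nat_lit 18) (nat_lit 4) (nat_lit 303) (nat_lit 242) (nat_lit 175))) (XT.nd (nat_lit 78) (nat_lit 228) (nat_lit 0) (XT.lf (nat_lit 0) (nat_lit 21292228973) (nat_lit 76) (nat_lit 15420111372) (nat_lit 152) (nat_lit 454210774) (nat_lit 16) (nat_lit 5) (nat_lit 17) (nat_lit 5) (nat_lit 18) (nat_lit 4) (nat_lit 304) (nat_lit 242) (nat_lit 174)) (XT.nd (nat_lit 78) (nat_lit 152) (nat_lit 0) (XT.lf (nat_lit 0) (nat_lit 5324198649) (nat_lit 152) (nat_lit 2428860106) (nat_lit 76) (nat_lit 31011628463) (nat_lit 15) (nat_lit 5) (nat_lit 17) (nat_lit 5) (nat_lit 16) (nat_lit 5) (nat_lit 305) (nat_lit 242) (nat_lit 173)) (XT.lf (nat_lit 0) (nat_lit 11473619436) (nat_lit 228) (nat_lit 28572530717) (nat_lit 76) (nat_lit 393727186)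 (nat_lit 13) (nat_lit 5) (nat_lit 16) (nat_lit 5) (nat_lit 14) (nat_lit 4) (nat_lit 306) (nat_lit 242) (nat_lit 172)))))) (XT.nd (nat_lit 390) (nat_lit 304) (nat_lit 0) (XT.nd (nat_lit 156) (nat_lit 76) (nat_lit 0) (XT.nd (nat_lit 78) (nat_lit 0) (nat_lit 0) (XT.lf (nat_lit 0) (nat_lit 18008117796) (nat_lit 228) (nat_lit 15391427462) (nat_lit 76) (nat_lit 8796978916) (nat_lit 13) (nat_lit 5) (nat_lit 16) (nat_lit 5) (nat_lit 14) (nat_lit 4) (nat_lit 307) (nat_lit 242) (nat_lit 171)) (XT.lf (nat_lit 0) (nat_lit 24844676794) (nat_lit 228) (nat_lit 1593144520) (nat_lit 76) (nat_lit 17603946158) (nat_lit 13) (nat_lit 5) (nat_lit 16) (nat_lit 5) (nat_lit 14) (nat_lit 4) (nat_lit 308) (nat_lit 242) (nat_lit 170))) (XT.nd (nat_lit 78) (nat_lit 0) (nat_lit 0) (XT.lf (nat_lit 0) (nat_lit 13111014275) (nat_lit 76) (nat_lit 19014590766) (nat_lit 152) (nat_lit 13850614697) (nat_lit 12) (nat_lit 5) (nat_lit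 13) (nat_lit 5) (nat_lit 14) (nat_lit 4) (nat_lit 309) (nat_lit 242) (nat_lit 169)) (XT.nd (nat_lit 78) (nat_lit 0) (nat_lit 0) (XT.lf (nat_lit 0) (nat_lit 28544934832) (nat_lit 76) (nat_lit 11219301281) (nat_lit 152) (nat_lit 8243370753) (nat_lit 12) (nat_lit 5) (nat_lit 13) (nat_lit 5) (nat_lit 14) (nat_lit 4) (nat_lit 310) (nat_lit 242) (nat_lit 168)) (XT.lf (nat_lit 0) (nat_lit 44713657881) (nat_lit 76) (nat_lit 3049480283) (nat_lit 152) (nat_lit 2378095904) (nat_lit 12) (nat_lit 5) (nat_lit 13) (nat_lit 5) (nat_lit 14) (nat_lit 4) (nat_lit 311) (nat_lit 242) (nat_lit 167))))) (XT.nd (nat_lit 234) (nat_lit 76) (nat_lit 0) (XT.nd (nat_lit 78) (nat_lit 0) (nat_lit 0) (XT.lf (nat_lit 0) (nat_lit 3830643629) (nat_lit 228) (nat_lit 43011436833) (nat_lit 76) (nat_lit 5534672165) (nat_lit 9) (nat_lit 5) (nat_lit 12) (nat_lit 5) (nat_lit 10) (nat_lit 4) (nat_lit 312) (nat_lit 242) (nat_lit 166))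 (XT.nd (nat_lit 78) (nat_lit 0) (nat_lit 0) (XT.lf (nat_lit 0) (nat_lit 10367969053) (nat_lit 228) (nat_lit 29801470761) (nat_lit 76) (nat_lit 14551899390) (nat_lit 9) (nat_lit 5) (nat_lit 12) (nat_lit 5) (nat_lit 10) (nat_lit 4) (nat_lit 313) (nat_lit 242) (nat_lit 165)) (XT.lf (nat_lit 0) (nat_lit 17212798796) (nat_lit 228) (nat_lit 15964375466) (nat_lit 76) (nat_lit 24006579233) (nat_lit 9) (nat_lit 5) (nat_lit 12) (nat_lit 5) (nat_lit 10) (nat_lit 4) (nat_lit 314) (nat_lit 242) (nat_lit 164)))) (XT.nd (nat_lit 78) (nat_lit 76) (nat_lit 0) (XT.lf (nat_lit 0) (nat_lit 24381430073) (nat_lit 228) (nat_lit 1467205484) (nat_lit 76) (nat_lit 33921222837) (nat_lit 9) (nat_lit 5) (nat_lit 12) (nat_lit 5) (nat_lit 10) (nat_lit 4) (nat_lit 315) (nat_lit 242) (nat_lit 163)) (XT.nd (nat_lit 78) (nat_lit 0) (nat_lit 0) (XT.lf (nat_lit 0) (nat_lit 13997701837) (nat_lit 76) (nat_lit 18027783689) (nat_lit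 152) (nat_lit 30456289131) (nat_lit 8) (nat_lit 5) (nat_lit 9) (nat_lit 5) (nat_lit 10) (nat_lit 4) (nat_lit 316) (nat_lit 242) (nat_lit 162)) (XT.lf (nat_lit 0) (nat_lit 30237115654) (nat_lit 76) (nat_lit 9812723498) (nat_lit 152) (nat_lit 25279519859) (nat_lit 8) (nat_lit 5) (nat_lit 9) (nat_lit 5) (nat_lit 10) (nat_lit 4) (nat_lit 317) (nat_lit 242) (nat_lit 161))))))) (XT.nd (nat_lit 858) (nat_lit 0) (nat_lit 0) (XT.nd (nat_lit 390) (nat_lit 76) (nat_lit 0) (XT.nd (nat_lit 156) (nat_lit 152) (nat_lit 0) (XT.nd (nat_lit 78) (nat_lit 0) (nat_lit 0) (XT.lf (nat_lit 0) (nat_lit 47260500972) (nat_lit 76) (nat_lit 1198711217) (nat_lit 152) (nat_lit 19860610762) (nat_lit 8) (nat_lit 5) (nat_lit 9) (nat_lit 5) (nat_lit 10) (nat_lit 4) (nat_lit 318) (nat_lit 242) (nat_lit 160)) (XT.lf (nat_lit 0) (nat_lit 57348939486) (nat_lit 152) (nat_lit 6427209501) (nat_lit 0) (nat_lit 7681878266) (nat_lit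 8) (nat_lit 5) (nat_lit 10) (nat_lit 4) (nat_lit 8) (nat_lit 4) (nat_lit 319) (nat_lit 242) (nat_lit 159))) (XT.nd (nat_lit 78) (nat_lit 76) (nat_lit 0) (XT.lf (nat_lit 0) (nat_lit 9075763504) (nat_lit 76) (nat_lit 57691935116) (nat_lit 76) (nat_lit 7982919866) (nat_lit 7) (nat_lit 4) (nat_lit 8) (nat_lit 5) (nat_lit 8) (nat_lit 4) (nat_lit 320) (nat_lit 242) (nat_lit 158)) (XT.nd (nat_lit 78) (nat_lit 76) (nat_lit 0) (XT.lf (nat_lit 0) (nat_lit 25463185922) (nat_lit 76) (nat_lit 51246041171) (nat_lit 76) (nat_lit 1497069702) (nat_lit 7) (nat_lit 4) (nat_lit 8) (nat_lit 5) (nat_lit 8) (nat_lit 4) (nat_lit 321) (nat_lit 242) (nat_lit 157)) (XT.lf (nat_lit 0) (nat_lit 5195600375) (nat_lit 152) (nat_lit 39239956249) (nat_lit 76) (nat_lit 37398095600) (nat_lit 6) (nat_lit 5) (nat_lit 8) (nat_lit 5) (nat_lit 7) (nat_lit 4) (nat_lit 322) (nat_lit 242) (nat_lit 156))))) (XT.nd (nat_lit 234) (nat_lit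 0) (nat_lit 0) (XT.nd (nat_lit 78) (nat_lit 76) (nat_lit 0) (XT.lf (nat_lit 0) (nat_lit 12179091593) (nat_lit 152) (nat_lit 25099710545) (nat_lit 76) (nat_lit 48363525101) (nat_lit 6) (nat_lit 5) (nat_lit 8) (nat_lit 5) (nat_lit 7) (nat_lit 4) (nat_lit 323) (nat_lit 242) (nat_lit 155)) (XT.nd (nat_lit 78) (nat_lit 76) (nat_lit 0) (XT.lf (nat_lit 0) (nat_lit 19499244533) (nat_lit 152) (nat_lit 10274315759) (nat_lit 76) (nat_lit 59868261544) (nat_lit 6) (nat_lit 5) (nat_lit 8) (nat_lit 5) (nat_lit 7) (nat_lit 4) (nat_lit 324) (nat_lit 242) (nat_lit 154)) (XT.lf (nat_lit 0) (nat_lit 5376440383) (nat_lit 76) (nat_lit 21848729383) (nat_lit 152) (nat_lit 66614938408) (nat_lit 5) (nat_lit 5) (nat_lit 6) (nat_lit 5) (nat_lit 7) (nat_lit 4) (nat_lit 325) (nat_lit 242) (nat_lit 153)))) (XT.nd (nat_lit 78) (nat_lit 0) (nat_lit 0) (XT.lf (nat_lit 0) (nat_lit 22004212077) (nat_lit 76) (nat_lit 13427400269)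 (nat_lit 152) (nat_lit 62813879327) (nat_lit 5) (nat_lit 5) (nat_lit 6) (nat_lit 5) (nat_lit 7) (nat_lit 4) (nat_lit 326) (nat_lit 242) (nat_lit 152)) (XT.nd (nat_lit 78) (nat_lit 0) (nat_lit 0) (XT.lf (nat_lit 0) (nat_lit 39444110224) (nat_lit 76) (nat_lit 4593272611) (nat_lit 152) (nat_lit 58834100362) (nat_lit 5) (nat_lit 5) (nat_lit 6) (nat_lit 5) (nat_lit 7) (nat_lit 4) (nat_lit 327) (nat_lit 242) (nat_lit 151)) (XT.lf (nat_lit 0) (nat_lit 53107907117) (nat_lit 152) (nat_lit 50036374574) (nat_lit 0) (nat_lit 4583467242) (nat_lit 5) (nat_lit 5) (nat_lit 7) (nat_lit 4) (nat_lit 5) (nat_lit 4) (nat_lit 328) (nat_lit 242) (nat_lit 150)))))) (XT.nd (nat_lit 31122) (nat_lit 0) (nat_lit 16188) (XT.nd (nat_lit 30888) (nat_lit 0) (nat_lit 17860) (XT.nd (nat_lit 30810) (nat_lit 0) (nat_lit 18696) (XT.lf (nat_lit 0) (nat_lit 62668274458) (nat_lit 152) (nat_lit 36039893849) (nat_lit 0) (nat_lit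 14117578329) (nat_lit 5) (nat_lit 5) (nat_lit 7) (nat_lit 4) (nat_lit 5) (nat_lit 4) (nat_lit 329) (nat_lit 242) (nat_lit 149)) (XT.lf (nat_lit 0) (nat_lit 2762171884) (nat_lit 380) (nat_lit 257068622) (nat_lit 380) (nat_lit 257068622) (nat_lit 251) (nat_lit 3) (nat_lit 256) (nat_lit 3) (nat_lit 256) (nat_lit 5) (nat_lit 243) (nat_lit 243) (nat_lit 234))) (XT.nd (nat_lit 78) (nat_lit 456) (nat_lit 0) (XT.lf (nat_lit 0) (nat_lit 2638578960) (nat_lit 380) (nat_lit 2350300467) (nat_lit 456) (nat_lit 1604050414) (nat_lit 246) (nat_lit 5) (nat_lit 251) (nat_lit 3) (nat_lit 252) (nat_lit 5) (nat_lit 244) (nat_lit 243) (nat_lit 233)) (XT.nd (nat_lit 78) (nat_lit 456) (nat_lit 0) (XT.lf (nat_lit 76) (nat_lit 2525333703) (nat_lit 0) (nat_lit 3738418995) (nat_lit 456) (nat_lit 378185201) (nat_lit 247) (nat_lit 5) (nat_lit 246) (nat_lit 5) (nat_lit 252) (nat_lit 5) (nat_lit 245) (nat_lit 243) (nat_lit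 232)) (XT.lf (nat_lit 76) (nat_lit 857130361) (nat_lit 0) (nat_lit 2259776784) (nat_lit 532) (nat_lit 3582142880) (nat_lit 241) (nat_lit 5) (nat_lit 240) (nat_lit 5) (nat_lit 247) (nat_lit 5) (nat_lit 246) (nat_lit 243) (nat_lit 231))))) (XT.nd (nat_lit 234) (nat_lit 1216) (nat_lit 0) (XT.nd (nat_lit 78) (nat_lit 456) (nat_lit 0) (XT.lf (nat_lit 76) (nat_lit 6037265695) (nat_lit 0) (nat_lit 567015094) (nat_lit 532) (nat_lit 160633533) (nat_lit 241) (nat_lit 5) (nat_lit 240) (nat_lit 5) (nat_lit 247) (nat_lit 5) (nat_lit 247) (nat_lit 243) (nat_lit 230)) (XT.nd (nat_lit 78) (nat_lit 0) (nat_lit 0) (XT.lf (nat_lit 0) (nat_lit 3212693734) (nat_lit 532) (nat_lit 2276731973) (nat_lit 608) (nat_lit 1348936424) (nat_lit 234) (nat_lit 5) (nat_lit 241) (nat_lit 5) (nat_lit 242) (nat_lit 5) (nat_lit 248) (nat_lit 243) (nat_lit 229)) (XT.lf (nat_lit 76) (nat_lit 3141900392) (nat_lit 0) (nat_lit 3453093363)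 (nat_lit 608) (nat_lit 325809498) (nat_lit 235) (nat_lit 5) (nat_lit 234) (nat_lit 5) (nat_lit 242) (nat_lit 5) (nat_lit 249) (nat_lit 243) (nat_lit 228)))) (XT.nd (nat_lit 78) (nat_lit 608) (nat_lit 0) (XT.lf (nat_lit 76) (nat_lit 1747928236) (nat_lit 0) (nat_lit 1176239989) (nat_lit 684) (nat_lit 4087528010) (nat_lit 227) (nat_lit 5) (nat_lit 226) (nat_lit 5) (nat_lit 235) (nat_lit 5) (nat_lit 250) (nat_lit 243) (nat_lit 227)) (XT.nd (nat_lit 78) (nat_lit 76) (nat_lit 0) (XT.lf (nat_lit 0) (nat_lit 385019289) (nat_lit 608) (nat_lit 5814157156) (nat_lit 684) (nat_lit 912379157) (nat_lit 219) (nat_lit 5) (nat_lit 227) (nat_lit 5) (nat_lit 228) (nat_lit 5) (nat_lit 251) (nat_lit 243) (nat_lit 226)) (XT.lf (nat_lit 0) (nat_lit 2260702958) (nat_lit 684) (nat_lit 955848112) (nat_lit 76) (nat_lit 4003117341) (nat_lit 218) (nat_lit 5) (nat_lit 227) (nat_lit 5) (nat_lit 219) (nat_lit 5) (nat_lit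 252) (nat_lit 243) (nat_lit 225))))))))
noncomputable def xc56 : XT := (XT.nd (nat_lit 1638) (nat_lit 3496) (nat_lit 0) (XT.nd (nat_lit 780) (nat_lit 3876) (nat_lit 0) (XT.nd (nat_lit 390) (nat_lit 2964) (nat_lit 0) (XT.nd (nat_lit 156) (nat_lit 2812) (nat_lit 0) (XT.nd (nat_lit 78) (nat_lit 836) (nat_lit 0) (XT.lf (nat_lit 0) (nat_lit 5067699279) (nat_lit 684) (nat_lit 383173182) (nat_lit 760) (nat_lit 1886249692) (nat_lit 209) (nat_lit 5) (nat_lit 218) (nat_lit 5) (nat_lit 219) (nat_lit 5) (nat_lit 253) (nat_lit 243) (nat_lit 224)) (XT.lf (nat_lit 0) (nat_lit 1220477781) (nat_lit 836) (nat_lit 3600435415) (nat_lit 76) (nat_lit 2642438932) (nat_lit 198) (nat_lit 5) (nat_lit 209) (nat_lit 5) (nat_lit 199) (nat_lit 5) (nat_lit 254) (nat_lit 243) (nat_lit 223))) (XT.nd (nat_lit 78) (nat_lit 1976) (nat_lit 0) (XT.lf (nat_lit 0) (nat_lit 2655187648) (nat_lit 836) (nat_lit 1682114472) (nat_lit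 912) (nat_lit 3261680730) (nat_lit 187) (nat_lit 5) (nat_lit 198) (nat_lit 5) (nat_lit 199) (nat_lit 5) (nat_lit 255) (nat_lit 243) (nat_lit 222)) (XT.nd (nat_lit 78) (nat_lit 1064) (nat_lit 0) (XT.lf (nat_lit 0) (nat_lit 1441547301) (nat_lit 912) (nat_lit 6082331954) (nat_lit 988) (nat_lit 220539129) (nat_lit 175) (nat_lit 5) (nat_lit 187) (nat_lit 5) (nat_lit 188) (nat_lit 5) (nat_lit 256) (nat_lit 243) (nat_lit 221)) (XT.lf (nat_lit 0) (nat_lit 182459345) (nat_lit 988) (nat_lit 2653642281) (nat_lit 1064) (nat_lit 5062930753) (nat_lit 161) (nat_lit 5) (nat_lit 174) (nat_lit 5) (nat_lit 175) (nat_lit 5) (nat_lit 257) (nat_lit 243) (nat_lit 220))))) (XT.nd (nat_lit 156) (nat_lit 1824) (nat_lit 0) (XT.nd (nat_lit 78) (nat_lit 1140) (nat_lit 0) (XT.lf (nat_lit 0) (nat_lit 5973045658) (nat_lit 1064) (nat_lit 1077688183) (nat_lit 76) (nat_lit 1013004773) (nat_lit 161) (nat_lit 5) (nat_lit 175)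 (nat_lit 5) (nat_lit 162) (nat_lit 5) (nat_lit 258) (nat_lit 243) (nat_lit 219)) (XT.lf (nat_lit 0) (nat_lit 956411685) (nat_lit 1140) (nat_lit 2391230689) (nat_lit 76) (nat_lit 4890708778) (nat_lit 146) (nat_lit 5) (nat_lit 161) (nat_lit 5) (nat_lit 147) (nat_lit 5) (nat_lit 259) (nat_lit 243) (nat_lit 218))) (XT.nd (nat_lit 78) (nat_lit 1140) (nat_lit 0) (XT.lf (nat_lit 0) (nat_lit 4042969182) (nat_lit 760) (nat_lit 3763854296) (nat_lit 76) (nat_lit 616681441) (nat_lit 137) (nat_lit 5) (nat_lit 147) (nat_lit 5) (nat_lit 138) (nat_lit 5) (nat_lit 260) (nat_lit 243) (nat_lit 217)) (XT.nd (nat_lit 78) (nat_lit 608) (nat_lit 0) (XT.lf (nat_lit 0) (nat_lit 3404306719) (nat_lit 532) (nat_lit 3843965962) (nat_lit 608) (nat_lit 1371036571) (nat_lit 130) (nat_lit 5) (nat_lit 137) (nat_lit 5) (nat_lit 138) (nat_lit 5) (nat_lit 261) (nat_lit 243) (nat_lit 216)) (XT.lf (nat_lit 0) (nat_lit 1693436745)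 (nat_lit 608) (nat_lit 6744686445) (nat_lit 76) (nat_lit 388383384) (nat_lit 122) (nat_lit 5) (nat_lit 130) (nat_lit 5) (nat_lit 123) (nat_lit 5) (nat_lit 262) (nat_lit 243) (nat_lit 215)))))) (XT.nd (nat_lit 390) (nat_lit 1976) (nat_lit 0) (XT.nd (nat_lit 156) (nat_lit 1444) (nat_lit 0) (XT.nd (nat_lit 78) (nat_lit 0) (nat_lit 0) (XT.lf (nat_lit 0) (nat_lit 645966323) (nat_lit 456) (nat_lit 4217447313) (nat_lit 532) (nat_lit 4181110404) (nat_lit 116) (nat_lit 5) (nat_lit 122) (nat_lit 5) (nat_lit 123) (nat_lit 5) (nat_lit 263) (nat_lit 243) (nat_lit 214)) (XT.lf (nat_lit 0) (nat_lit 8149668470) (nat_lit 532) (nat_lit 850600520) (nat_lit 76) (nat_lit 274712940) (nat_lit 116) (nat_lit 5) (nat_lit 123) (nat_lit 5) (nat_lit 117) (nat_lit 5) (nat_lit 264) (nat_lit 243) (nat_lit 213))) (XT.nd (nat_lit 78) (nat_lit 912) (nat_lit 0) (XT.lf (nat_lit 0) (nat_lit 2043785986) (nat_lit 532) (nat_lit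 2485123626) (nat_lit 76) (nat_lit 4987669742) (nat_lit 109) (nat_lit 5) (nat_lit 116) (nat_lit 5) (nat_lit 110) (nat_lit 5) (nat_lit 265) (nat_lit 243) (nat_lit 212)) (XT.nd (nat_lit 78) (nat_lit 456) (nat_lit 0) (XT.lf (nat_lit 0) (nat_lit 5306413464) (nat_lit 532) (nat_lit 4238419395) (nat_lit 76) (nat_lit 226579490) (nat_lit 103) (nat_lit 5) (nat_lit 110) (nat_lit 5) (nat_lit 104) (nat_lit 5) (nat_lit 266) (nat_lit 243) (nat_lit 211)) (XT.lf (nat_lit 0) (nat_lit 3878929155) (nat_lit 456) (nat_lit 4859791452) (nat_lit 532) (nat_lit 1300298833) (nat_lit 97) (nat_lit 5) (nat_lit 103) (nat_lit 5) (nat_lit 104) (nat_lit 5) (nat_lit 267) (nat_lit 243) (nat_lit 210))))) (XT.nd (nat_lit 234) (nat_lit 1140) (nat_lit 0) (XT.nd (nat_lit 78) (nat_lit 380) (nat_lit 0) (XT.lf (nat_lit 0) (nat_lit 1948754485) (nat_lit 456) (nat_lit 8244655445) (nat_lit 76) (nat_lit 127257700) (nat_lit 91) (nat_lit 5)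 (nat_lit 97) (nat_lit 5) (nat_lit 92) (nat_lit 5) (nat_lit 268) (nat_lit 243) (nat_lit 209)) (XT.nd (nat_lit 78) (nat_lit 0) (nat_lit 0) (XT.lf (nat_lit 0) (nat_lit 61547877) (nat_lit 380) (nat_lit 5289577750) (nat_lit 456) (nat_lit 5264555222) (nat_lit 86) (nat_lit 5) (nat_lit 91) (nat_lit 5) (nat_lit 92) (nat_lit 5) (nat_lit 269) (nat_lit 243) (nat_lit 208)) (XT.lf (nat_lit 0) (nat_lit 8843645206) (nat_lit 380) (nat_lit 72171713) (nat_lit 456) (nat_lit 2010053730) (nat_lit 86) (nat_lit 5) (nat_lit 91) (nat_lit 5) (nat_lit 92) (nat_lit 5) (nat_lit 270) (nat_lit 243) (nat_lit 207)))) (XT.nd (nat_lit 78) (nat_lit 684) (nat_lit 0) (XT.lf (nat_lit 0) (nat_lit 1408573086) (nat_lit 456) (nat_lit 4480038015) (nat_lit 76) (nat_lit 5361864764) (nat_lit 80) (nat_lit 5) (nat_lit 86) (nat_lit 5) (nat_lit 81) (nat_lit 5) (nat_lit 271) (nat_lit 243) (nat_lit 206)) (XT.nd (nat_lit 78) (nat_lit 304) (nat_lit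 0) (XT.lf (nat_lit 0) (nat_lit 4476908201) (nat_lit 380) (nat_lit 459195547) (nat_lit 456) (nat_lit 6655393294) (nat_lit 75) (nat_lit 5) (nat_lit 80) (nat_lit 5) (nat_lit 81) (nat_lit 5) (nat_lit 272) (nat_lit 243) (nat_lit 205)) (XT.lf (nat_lit 0) (nat_lit 1906331690) (nat_lit 304) (nat_lit 6765605493) (nat_lit 380) (nat_lit 3276835306) (nat_lit 71) (nat_lit 5) (nat_lit 75) (nat_lit 5) (nat_lit 76) (nat_lit 5) (nat_lit 273) (nat_lit 243) (nat_lit 204))))))) (XT.nd (nat_lit 780) (nat_lit 1368) (nat_lit 0) (XT.nd (nat_lit 390) (nat_lit 1064) (nat_lit 0) (XT.nd (nat_lit 156) (nat_lit 684) (nat_lit 0) (XT.nd (nat_lit 78) (nat_lit 304) (nat_lit 0) (XT.lf (nat_lit 0) (nat_lit 262630609) (nat_lit 380) (nat_lit 908560154) (nat_lit 76) (nat_lit 11152873921) (nat_lit 70) (nat_lit 5) (nat_lit 75) (nat_lit 5) (nat_lit 71) (nat_lit 5) (nat_lit 274) (nat_lit 243) (nat_lit 203)) (XT.lf (nat_lit 0) (nat_lit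 3964411557) (nat_lit 380) (nat_lit 4044971546) (nat_lit 76) (nat_lit 4706313495) (nat_lit 66) (nat_lit 5) (nat_lit 71) (nat_lit 5) (nat_lit 67) (nat_lit 5) (nat_lit 275) (nat_lit 243) (nat_lit 202))) (XT.nd (nat_lit 78) (nat_lit 380) (nat_lit 0) (XT.lf (nat_lit 0) (nat_lit 5618985106) (nat_lit 304) (nat_lit 2232636696) (nat_lit 380) (nat_lit 5275413123) (nat_lit 62) (nat_lit 5) (nat_lit 66) (nat_lit 5) (nat_lit 67) (nat_lit 5) (nat_lit 276) (nat_lit 243) (nat_lit 201)) (XT.nd (nat_lit 78) (nat_lit 76) (nat_lit 0) (XT.lf (nat_lit 0) (nat_lit 2199368655) (nat_lit 304) (nat_lit 9761317184) (nat_lit 380) (nat_lit 1597558129) (nat_lit 58) (nat_lit 5) (nat_lit 62) (nat_lit 5) (nat_lit 63) (nat_lit 5) (nat_lit 277) (nat_lit 243) (nat_lit 200)) (XT.lf (nat_lit 0) (nat_lit 2249765241) (nat_lit 380) (nat_lit 1602656852) (nat_lit 76) (nat_lit 10157164590) (nat_lit 57) (nat_lit 5) (nat_lit 62) (nat_lit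 5) (nat_lit 58) (nat_lit 5) (nat_lit 278) (nat_lit 243) (nat_lit 199))))) (XT.nd (nat_lit 156) (nat_lit 532) (nat_lit 0) (XT.nd (nat_lit 78) (nat_lit 304) (nat_lit 0) (XT.lf (nat_lit 0) (nat_lit 6296258720) (nat_lit 304) (nat_lit 5804224588) (nat_lit 76) (nat_lit 2381456630) (nat_lit 54) (nat_lit 5) (nat_lit 58) (nat_lit 5) (nat_lit 55) (nat_lit 5) (nat_lit 279) (nat_lit 243) (nat_lit 198)) (XT.lf (nat_lit 0) (nat_lit 4484207802) (nat_lit 304) (nat_lit 6094157346) (nat_lit 380) (nat_lit 4398654910) (nat_lit 50) (nat_lit 5) (nat_lit 54) (nat_lit 5) (nat_lit 55) (nat_lit 5) (nat_lit 280) (nat_lit 243) (nat_lit 197))) (XT.nd (nat_lit 78) (nat_lit 532) (nat_lit 0) (XT.lf (nat_lit 0) (nat_lit 15073592071) (nat_lit 380) (nat_lit 180862559) (nat_lit 76) (nat_lit 242531815) (nat_lit 50) (nat_lit 5) (nat_lit 55) (nat_lit 5) (nat_lit 51) (nat_lit 5) (nat_lit 281) (nat_lit 243) (nat_lit 196)) (XT.nd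 (nat_lit 78) (nat_lit 228) (nat_lit 0) (XT.lf (nat_lit 0) (nat_lit 3782456220) (nat_lit 304) (nat_lit 5370065292) (nat_lit 76) (nat_lit 6886292554) (nat_lit 46) (nat_lit 5) (nat_lit 50) (nat_lit 5) (nat_lit 47) (nat_lit 5) (nat_lit 282) (nat_lit 243) (nat_lit 195)) (XT.lf (nat_lit 0) (nat_lit 5473532355) (nat_lit 228) (nat_lit 2711927894) (nat_lit 304) (nat_lit 8422368991) (nat_lit 43) (nat_lit 5) (nat_lit 46) (nat_lit 5) (nat_lit 47) (nat_lit 5) (nat_lit 283) (nat_lit 243) (nat_lit 194)))))) (XT.nd (nat_lit 390) (nat_lit 684) (nat_lit 0) (XT.nd (nat_lit 156) (nat_lit 456) (nat_lit 0) (XT.nd (nat_lit 78) (nat_lit 228) (nat_lit 0) (XT.lf (nat_lit 0) (nat_lit 12846170855) (nat_lit 304) (nat_lit 356597334) (nat_lit 76) (nat_lit 4001486437) (nat_lit 43) (nat_lit 5) (nat_lit 47) (nat_lit 5) (nat_lit 44) (nat_lit 5) (nat_lit 284) (nat_lit 243) (nat_lit 193)) (XT.lf (nat_lit 0) (nat_lit 11067628216)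 (nat_lit 228) (nat_lit 6751565160) (nat_lit 304) (nat_lit 9011656) (nat_lit 40) (nat_lit 5) (nat_lit 43) (nat_lit 5) (nat_lit 44) (nat_lit 5) (nat_lit 285) (nat_lit 243) (nat_lit 192))) (XT.nd (nat_lit 78) (nat_lit 152) (nat_lit 0) (XT.lf (nat_lit 0) (nat_lit 4463667403) (nat_lit 304) (nat_lit 13930657355) (nat_lit 76) (nat_lit 87937169) (nat_lit 36) (nat_lit 5) (nat_lit 40) (nat_lit 5) (nat_lit 37) (nat_lit 5) (nat_lit 286) (nat_lit 243) (nat_lit 191)) (XT.nd (nat_lit 78) (nat_lit 152) (nat_lit 0) (XT.lf (nat_lit 0) (nat_lit 9246520726) (nat_lit 304) (nat_lit 2744037872) (nat_lit 76) (nat_lit 7175930836) (nat_lit 36) (nat_lit 5) (nat_lit 40) (nat_lit 5) (nat_lit 37) (nat_lit 5) (nat_lit 287) (nat_lit 243) (nat_lit 190)) (XT.lf (nat_lit 0) (nat_lit 9104478471) (nat_lit 152) (nat_lit 5202314676) (nat_lit 228) (nat_lit 5577055687) (nat_lit 34) (nat_lit 5) (nat_lit 36) (nat_lit 5) (nat_lit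 37) (nat_lit 5) (nat_lit 288) (nat_lit 243) (nat_lit 189))))) (XT.nd (nat_lit 234) (nat_lit 228) (nat_lit 0) (XT.nd (nat_lit 78) (nat_lit 228) (nat_lit 0) (XT.lf (nat_lit 0) (nat_lit 890939860) (nat_lit 228) (nat_lit 18736896915) (nat_lit 304) (nat_lit 1009072231) (nat_lit 31) (nat_lit 5) (nat_lit 34) (nat_lit 5) (nat_lit 35) (nat_lit 5) (nat_lit 289) (nat_lit 243) (nat_lit 188)) (XT.nd (nat_lit 78) (nat_lit 152) (nat_lit 0) (XT.lf (nat_lit 0) (nat_lit 3831202202) (nat_lit 304) (nat_lit 8217340670) (nat_lit 76) (nat_lit 9374513852) (nat_lit 30) (nat_lit 5) (nat_lit 34) (nat_lit 5) (nat_lit 31) (nat_lit 5) (nat_lit 290) (nat_lit 243) (nat_lit 187)) (XT.lf (nat_lit 0) (nat_lit 3883741813) (nat_lit 152) (nat_lit 5001858556) (nat_lit 228) (nat_lit 13362880068) (nat_lit 28) (nat_lit 5) (nat_lit 30) (nat_lit 5) (nat_lit 31) (nat_lit 5) (nat_lit 291) (nat_lit 243) (nat_lit 186)))) (XT.nd (nat_lit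 78) (nat_lit 228) (nat_lit 0) (XT.lf (nat_lit 0) (nat_lit 14257877564) (nat_lit 228) (nat_lit 6443617052) (nat_lit 76) (nat_lit 2411780905) (nat_lit 28) (nat_lit 5) (nat_lit 31) (nat_lit 5) (nat_lit 29) (nat_lit 5) (nat_lit 292) (nat_lit 243) (nat_lit 185)) (XT.nd (nat_lit 78) (nat_lit 76) (nat_lit 0) (XT.lf (nat_lit 0) (nat_lit 6076220186) (nat_lit 152) (nat_lit 13890192560) (nat_lit 228) (nat_lit 4052920632) (nat_lit 26) (nat_lit 5) (nat_lit 28) (nat_lit 5) (nat_lit 29) (nat_lit 5) (nat_lit 293) (nat_lit 243) (nat_lit 184)) (XT.lf (nat_lit 0) (nat_lit 997016726) (nat_lit 228) (nat_lit 5686572660) (nat_lit 76) (nat_lit 18286068284) (nat_lit 25) (nat_lit 5) (nat_lit 28) (nat_lit 5) (nat_lit 26) (nat_lit 5) (nat_lit 294) (nat_lit 243) (nat_lit 183))))))))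
noncomputable def xc57 : XT := (XT.nd (nat_lit 1638) (nat_lit 304) (nat_lit 0) (XT.nd (nat_lit 780) (nat_lit 532) (nat_lit 0) (XT.nd (nat_lit 390) (nat_lit 228) (nat_lit 0) (XT.nd (nat_lit 156) (nat_lit 304) (nat_lit 0) (XT.nd (nat_lit 78) (nat_lit 0) (nat_lit 0) (XT.lf (nat_lit 0) (nat_lit 6256771248) (nat_lit 228) (nat_lit 18753279261) (nat_lit 76) (nat_lit 955055696) (nat_lit 23) (nat_lit 5) (nat_lit 26) (nat_lit 5) (nat_lit 24) (nat_lit 5) (nat_lit 295) (nat_lit 243) (nat_lit 182)) (XT.lf (nat_lit 0) (nat_lit 11868712995) (nat_lit 228) (nat_lit 6263149276) (nat_lit 76) (nat_lit 8875832810) (nat_lit 23) (nat_lit 5) (nat_lit 26) (nat_lit 5) (nat_lit 24) (nat_lit 5) (nat_lit 296) (nat_lit 243) (nat_lit 181))) (XT.nd (nat_lit 78) (nat_lit 152) (nat_lit 0) (XT.lf (nat_lit 0) (nat_lit 6929061239) (nat_lit 152) (nat_lit 10863199419) (nat_lit 228) (nat_lit 10309264286) (nat_lit 21) (nat_lit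 5) (nat_lit 23) (nat_lit 5) (nat_lit 24) (nat_lit 5) (nat_lit 297) (nat_lit 243) (nat_lit 180)) (XT.nd (nat_lit 78) (nat_lit 152) (nat_lit 0) (XT.lf (nat_lit 0) (nat_lit 20855778919) (nat_lit 152) (nat_lit 3186239795) (nat_lit 228) (nat_lit 5207166411) (nat_lit 21) (nat_lit 5) (nat_lit 23) (nat_lit 5) (nat_lit 24) (nat_lit 5) (nat_lit 298) (nat_lit 243) (nat_lit 179)) (XT.lf (nat_lit 0) (nat_lit 209816734) (nat_lit 152) (nat_lit 25432866685) (nat_lit 76) (nat_lit 4809657204) (nat_lit 19) (nat_lit 5) (nat_lit 21) (nat_lit 5) (nat_lit 20) (nat_lit 5) (nat_lit 299) (nat_lit 243) (nat_lit 178))))) (XT.nd (nat_lit 156) (nat_lit 76) (nat_lit 0) (XT.nd (nat_lit 78) (nat_lit 152) (nat_lit 0) (XT.lf (nat_lit 0) (nat_lit 5878092032) (nat_lit 152) (nat_lit 12573507453) (nat_lit 76) (nat_lit 13259898734) (nat_lit 19) (nat_lit 5) (nat_lit 21) (nat_lit 5) (nat_lit 20) (nat_lit 5) (nat_lit 300) (nat_lit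 243) (nat_lit 177)) (XT.lf (nat_lit 0) (nat_lit 895562941) (nat_lit 152) (nat_lit 10912080586) (nat_lit 228) (nat_lit 21226667687) (nat_lit 17) (nat_lit 5) (nat_lit 19) (nat_lit 5) (nat_lit 20) (nat_lit 5) (nat_lit 301) (nat_lit 243) (nat_lit 176))) (XT.nd (nat_lit 78) (nat_lit 76) (nat_lit 0) (XT.lf (nat_lit 0) (nat_lit 15251557961) (nat_lit 152) (nat_lit 2881791954) (nat_lit 228) (nat_lit 16286956431) (nat_lit 17) (nat_lit 5) (nat_lit 19) (nat_lit 5) (nat_lit 20) (nat_lit 5) (nat_lit 302) (nat_lit 243) (nat_lit 175)) (XT.nd (nat_lit 78) (nat_lit 76) (nat_lit 0) (XT.lf (nat_lit 0) (nat_lit 24800174094) (nat_lit 228) (nat_lit 5651231974) (nat_lit 76) (nat_lit 5423480479) (nat_lit 17) (nat_lit 5) (nat_lit 20) (nat_lit 5) (nat_lit 18) (nat_lit 4) (nat_lit 303) (nat_lit 243) (nat_lit 174)) (XT.lf (nat_lit 0) (nat_lit 8636232521) (nat_lit 76) (nat_lit 23249050689) (nat_lit 152) (nat_lit 5514393084)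 (nat_lit 16) (nat_lit 5) (nat_lit 17) (nat_lit 5) (nat_lit 18) (nat_lit 4) (nat_lit 304) (nat_lit 243) (nat_lit 173)))))) (XT.nd (nat_lit 390) (nat_lit 304) (nat_lit 0) (XT.nd (nat_lit 156) (nat_lit 152) (nat_lit 0) (XT.nd (nat_lit 78) (nat_lit 0) (nat_lit 0) (XT.lf (nat_lit 0) (nat_lit 349794263) (nat_lit 152) (nat_lit 15291106185) (nat_lit 76) (nat_lit 23358773136) (nat_lit 15) (nat_lit 5) (nat_lit 17) (nat_lit 5) (nat_lit 16) (nat_lit 5) (nat_lit 305) (nat_lit 243) (nat_lit 172)) (XT.lf (nat_lit 0) (nat_lit 6368893462) (nat_lit 152) (nat_lit 1243305387) (nat_lit 76) (nat_lit 33066586896) (nat_lit 15) (nat_lit 5) (nat_lit 17) (nat_lit 5) (nat_lit 16) (nat_lit 5) (nat_lit 306) (nat_lit 243) (nat_lit 171))) (XT.nd (nat_lit 78) (nat_lit 0) (nat_lit 0) (XT.lf (nat_lit 0) (nat_lit 12805877400) (nat_lit 228) (nat_lit 28713231034) (nat_lit 76) (nat_lit 919261380) (nat_lit 13) (nat_lit 5) (nat_lit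 16) (nat_lit 5) (nat_lit 14) (nat_lit 4) (nat_lit 307) (nat_lit 243) (nat_lit 170)) (XT.nd (nat_lit 78) (nat_lit 0) (nat_lit 0) (XT.lf (nat_lit 0) (nat_lit 19630977963) (nat_lit 228) (nat_lit 14934402437) (nat_lit 76) (nat_lit 9718587704) (nat_lit 13) (nat_lit 5) (nat_lit 16) (nat_lit 5) (nat_lit 14) (nat_lit 4) (nat_lit 308) (nat_lit 243) (nat_lit 169)) (XT.lf (nat_lit 0) (nat_lit 26774962326) (nat_lit 228) (nat_lit 504614700) (nat_lit 76) (nat_lit 18942962363) (nat_lit 13) (nat_lit 5) (nat_lit 16) (nat_lit 5) (nat_lit 14) (nat_lit 4) (nat_lit 309) (nat_lit 243) (nat_lit 168))))) (XT.nd (nat_lit 234) (nat_lit 228) (nat_lit 0) (XT.nd (nat_lit 78) (nat_lit 0) (nat_lit 0) (XT.lf (nat_lit 0) (nat_lit 14901266188) (nat_lit 76) (nat_lit 19496813873) (nat_lit 152) (nat_lit 13856322052) (nat_lit 12) (nat_lit 5) (nat_lit 13) (nat_lit 5) (nat_lit 14) (nat_lit 4) (nat_lit 310) (nat_lit 243) (nat_lit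 167)) (XT.nd (nat_lit 78) (nat_lit 0) (nat_lit 0) (XT.lf (nat_lit 0) (nat_lit 31052849383) (nat_lit 76) (nat_lit 11334069744) (nat_lit 152) (nat_lit 8001421787) (nat_lit 12) (nat_lit 5) (nat_lit 13) (nat_lit 5) (nat_lit 14) (nat_lit 4) (nat_lit 311) (nat_lit 243) (nat_lit 166)) (XT.lf (nat_lit 0) (nat_lit 47978548213) (nat_lit 76) (nat_lit 2777005154) (nat_lit 152) (nat_lit 1874031648) (nat_lit 12) (nat_lit 5) (nat_lit 13) (nat_lit 5) (nat_lit 14) (nat_lit 4) (nat_lit 312) (nat_lit 243) (nat_lit 165)))) (XT.nd (nat_lit 78) (nat_lit 0) (nat_lit 0) (XT.lf (nat_lit 0) (nat_lit 4617673887) (nat_lit 228) (nat_lit 44135705970) (nat_lit 76) (nat_lit 6223806385) (nat_lit 9) (nat_lit 5) (nat_lit 12) (nat_lit 5) (nat_lit 10) (nat_lit 4) (nat_lit 313) (nat_lit 243) (nat_lit 164)) (XT.nd (nat_lit 78) (nat_lit 0) (nat_lit 0) (XT.lf (nat_lit 0) (nat_lit 11453508531) (nat_lit 228) (nat_lit 30314113152)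 (nat_lit 76) (nat_lit 15672256847) (nat_lit 9) (nat_lit 5) (nat_lit 12) (nat_lit 5) (nat_lit 10) (nat_lit 4) (nat_lit 314) (nat_lit 243) (nat_lit 163)) (XT.lf (nat_lit 0) (nat_lit 18613573046) (nat_lit 228) (nat_lit 15831707433) (nat_lit 76) (nat_lit 25580967707) (nat_lit 9) (nat_lit 5) (nat_lit 12) (nat_lit 5) (nat_lit 10) (nat_lit 4) (nat_lit 315) (nat_lit 243) (nat_lit 162))))))) (XT.nd (nat_lit 780) (nat_lit 76) (nat_lit 0) (XT.nd (nat_lit 390) (nat_lit 152) (nat_lit 0) (XT.nd (nat_lit 156) (nat_lit 0) (nat_lit 0) (XT.nd (nat_lit 78) (nat_lit 76) (nat_lit 0) (XT.lf (nat_lit 0) (nat_lit 26114915205) (nat_lit 228) (nat_lit 654006894) (nat_lit 76) (nat_lit 35973531133) (nat_lit 9) (nat_lit 5) (nat_lit 12) (nat_lit 5) (nat_lit 10) (nat_lit 4) (nat_lit 316) (nat_lit 243) (nat_lit 161)) (XT.lf (nat_lit 0) (nat_lit 15558732761) (nat_lit 76) (nat_lit 18566222642) (nat_lit 152) (nat_lit 31465518620)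 (nat_lit 8) (nat_lit 5) (nat_lit 9) (nat_lit 5) (nat_lit 10) (nat_lit 4) (nat_lit 317) (nat_lit 243) (nat_lit 160))) (XT.nd (nat_lit 78) (nat_lit 0) (nat_lit 0) (XT.lf (nat_lit 0) (nat_lit 32569110325) (nat_lit 76) (nat_lit 9957692786) (nat_lit 152) (nat_lit 26054367311) (nat_lit 8) (nat_lit 5) (nat_lit 9) (nat_lit 5) (nat_lit 10) (nat_lit 4) (nat_lit 318) (nat_lit 243) (nat_lit 159)) (XT.nd (nat_lit 78) (nat_lit 0) (nat_lit 0) (XT.lf (nat_lit 0) (nat_lit 50404610676) (nat_lit 76) (nat_lit 929440220) (nat_lit 152) (nat_lit 20387804595) (nat_lit 8) (nat_lit 5) (nat_lit 9) (nat_lit 5) (nat_lit 10) (nat_lit 4) (nat_lit 319) (nat_lit 243) (nat_lit 158)) (XT.lf (nat_lit 0) (nat_lit 60649760395) (nat_lit 152) (nat_lit 5994399758) (nat_lit 0) (nat_lit 8373384134) (nat_lit 8) (nat_lit 5) (nat_lit 10) (nat_lit 4) (nat_lit 8) (nat_lit 4) (nat_lit 320) (nat_lit 243) (nat_lit 157))))) (XT.nd (nat_lit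 156) (nat_lit 76) (nat_lit 0) (XT.nd (nat_lit 78) (nat_lit 0) (nat_lit 0) (XT.lf (nat_lit 0) (nat_lit 10262103760) (nat_lit 76) (nat_lit 60263758611) (nat_lit 76) (nat_lit 7949328808) (nat_lit 7) (nat_lit 4) (nat_lit 8) (nat_lit 5) (nat_lit 8) (nat_lit 4) (nat_lit 321) (nat_lit 243) (nat_lit 156)) (XT.lf (nat_lit 0) (nat_lit 27434013865) (nat_lit 76) (nat_lit 53510463934) (nat_lit 76) (nat_lit 1159792662) (nat_lit 7) (nat_lit 4) (nat_lit 8) (nat_lit 5) (nat_lit 8) (nat_lit 4) (nat_lit 322) (nat_lit 243) (nat_lit 155))) (XT.nd (nat_lit 78) (nat_lit 0) (nat_lit 0) (XT.lf (nat_lit 0) (nat_lit 5840226464) (nat_lit 152) (nat_lit 40529527233) (nat_lit 76) (nat_lit 39543714450) (nat_lit 6) (nat_lit 5) (nat_lit 8) (nat_lit 5) (nat_lit 7) (nat_lit 4) (nat_lit 323) (nat_lit 243) (nat_lit 154)) (XT.nd (nat_lit 78) (nat_lit 0) (nat_lit 0) (XT.lf (nat_lit 0) (nat_lit 13154566239) (nat_lit 152) (nat_lit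 25714289569) (nat_lit 76) (nat_lit 51044286185) (nat_lit 6) (nat_lit 5) (nat_lit 8) (nat_lit 5) (nat_lit 7) (nat_lit 4) (nat_lit 324) (nat_lit 243) (nat_lit 153)) (XT.lf (nat_lit 0) (nat_lit 20823273491) (nat_lit 152) (nat_lit 10178120591) (nat_lit 76) (nat_lit 63111755411) (nat_lit 6) (nat_lit 5) (nat_lit 8) (nat_lit 5) (nat_lit 7) (nat_lit 4) (nat_lit 325) (nat_lit 243) (nat_lit 152)))))) (XT.nd (nat_lit 31200) (nat_lit 0) (nat_lit 16720) (XT.nd (nat_lit 156) (nat_lit 0) (nat_lit 0) (XT.nd (nat_lit 78) (nat_lit 0) (nat_lit 0) (XT.lf (nat_lit 0) (nat_lit 6237690383) (nat_lit 76) (nat_lit 22686877157) (nat_lit 152) (nat_lit 69597124309) (nat_lit 5) (nat_lit 5) (nat_lit 6) (nat_lit 5) (nat_lit 7) (nat_lit 4) (nat_lit 326) (nat_lit 243) (nat_lit 151)) (XT.lf (nat_lit 0) (nat_lit 23668639805) (nat_lit 76) (nat_lit 13856590573) (nat_lit 152) (nat_lit 65622610417) (nat_lit 5) (nat_lit 5) (nat_lit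 6) (nat_lit 5) (nat_lit 7) (nat_lit 4) (nat_lit 327) (nat_lit 243) (nat_lit 150))) (XT.nd (nat_lit 78) (nat_lit 0) (nat_lit 0) (XT.lf (nat_lit 0) (nat_lit 41953665377) (nat_lit 76) (nat_lit 4592288899) (nat_lit 152) (nat_lit 61459650260) (nat_lit 5) (nat_lit 5) (nat_lit 6) (nat_lit 5) (nat_lit 7) (nat_lit 4) (nat_lit 328) (nat_lit 243) (nat_lit 149)) (XT.nd (nat_lit 30888) (nat_lit 0) (nat_lit 18316) (XT.lf (nat_lit 0) (nat_lit 56057511447) (nat_lit 152) (nat_lit 52019540598) (nat_lit 0) (nat_lit 5028018302) (nat_lit 5) (nat_lit 5) (nat_lit 7) (nat_lit 4) (nat_lit 5) (nat_lit 4) (nat_lit 329) (nat_lit 243) (nat_lit 148)) (XT.lf (nat_lit 0) (nat_lit 1537352650) (nat_lit 0) (nat_lit 1537352650) (nat_lit 380) (nat_lit 244019575) (nat_lit 246) (nat_lit 5) (nat_lit 246) (nat_lit 3) (nat_lit 251) (nat_lit 3) (nat_lit 244) (nat_lit 244) (nat_lit 232))))) (XT.nd (nat_lit 234) (nat_lit 608) (nat_lit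 0) (XT.nd (nat_lit 78) (nat_lit 456) (nat_lit 0) (XT.lf (nat_lit 76) (nat_lit 1213357457) (nat_lit 0) (nat_lit 1678516656) (nat_lit 532) (nat_lit 3798166959) (nat_lit 240) (nat_lit 5) (nat_lit 239) (nat_lit 3) (nat_lit 246) (nat_lit 5) (nat_lit 245) (nat_lit 244) (nat_lit 231)) (XT.nd (nat_lit 78) (nat_lit 456) (nat_lit 0) (XT.lf (nat_lit 76) (nat_lit 6183967988) (nat_lit 0) (nat_lit 66583109) (nat_lit 532) (nat_lit 500739397) (nat_lit 240) (nat_lit 5) (nat_lit 239) (nat_lit 3) (nat_lit 246) (nat_lit 5) (nat_lit 246) (nat_lit 244) (nat_lit 230)) (XT.lf (nat_lit 0) (nat_lit 2755326505) (nat_lit 532) (nat_lit 2303363125) (nat_lit 608) (nat_lit 1761223342) (nat_lit 233) (nat_lit 5) (nat_lit 240) (nat_lit 5) (nat_lit 241) (nat_lit 5) (nat_lit 247) (nat_lit 244) (nat_lit 229)))) (XT.nd (nat_lit 78) (nat_lit 608) (nat_lit 0) (XT.lf (nat_lit 76) (nat_lit 2908145394) (nat_lit 0) (nat_lit 3090798384)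 (nat_lit 608) (nat_lit 898498427) (nat_lit 234) (nat_lit 5) (nat_lit 233) (nat_lit 5) (nat_lit 241) (nat_lit 5) (nat_lit 248) (nat_lit 244) (nat_lit 228)) (XT.nd (nat_lit 78) (nat_lit 0) (nat_lit 76) (XT.lf (nat_lit 76) (nat_lit 1334094329) (nat_lit 0) (nat_lit 887593653) (nat_lit 684) (nat_lit 4761792820) (nat_lit 226) (nat_lit 5) (nat_lit 225) (nat_lit 5) (nat_lit 234) (nat_lit 5) (nat_lit 249) (nat_lit 244) (nat_lit 227)) (XT.lf (nat_lit 0) (nat_lit 5349803593) (nat_lit 608) (nat_lit 210799775) (nat_lit 684) (nat_lit 1517432620) (nat_lit 226) (nat_lit 5) (nat_lit 234) (nat_lit 5) (nat_lit 235) (nat_lit 5) (nat_lit 250) (nat_lit 244) (nat_lit 226))))))))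
noncomputable def xc58 : XT := (XT.nd (nat_lit 1638) (nat_lit 3952) (nat_lit 0) (XT.nd (nat_lit 780) (nat_lit 4332) (nat_lit 0) (XT.nd (nat_lit 390) (nat_lit 4636) (nat_lit 0) (XT.nd (nat_lit 156) (nat_lit 1444) (nat_lit 0) (XT.nd (nat_lit 78) (nat_lit 0) (nat_lit 0) (XT.lf (nat_lit 0) (nat_lit 1312488455) (nat_lit 684) (nat_lit 1712702922) (nat_lit 760) (nat_lit 4155741617) (nat_lit 217) (nat_lit 5) (nat_lit 226) (nat_lit 5) (nat_lit 227) (nat_lit 5) (nat_lit 251) (nat_lit 244) (nat_lit 225)) (XT.lf (nat_lit 76) (nat_lit 4092263494) (nat_lit 0) (nat_lit 248150446) (nat_lit 760) (nat_lit 2952445619) (nat_lit 218) (nat_lit 5) (nat_lit 217) (nat_lit 5) (nat_lit 227) (nat_lit 5) (nat_lit 252) (nat_lit 244) (nat_lit 224))) (XT.nd (nat_lit 78) (nat_lit 760) (nat_lit 0) (XT.lf (nat_lit 0) (nat_lit 11992453) (nat_lit 760) (nat_lit 4692501486) (nat_lit 76) (nat_lit 2709199571) (nat_lit 208) (nat_lit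 5) (nat_lit 218) (nat_lit 5) (nat_lit 209) (nat_lit 5) (nat_lit 253) (nat_lit 244) (nat_lit 223)) (XT.nd (nat_lit 78) (nat_lit 0) (nat_lit 0) (XT.lf (nat_lit 0) (nat_lit 1340309096) (nat_lit 760) (nat_lit 1613743902) (nat_lit 836) (nat_lit 4589387999) (nat_lit 198) (nat_lit 5) (nat_lit 208) (nat_lit 5) (nat_lit 209) (nat_lit 5) (nat_lit 254) (nat_lit 244) (nat_lit 222)) (XT.lf (nat_lit 0) (nat_lit 5955706861) (nat_lit 836) (nat_lit 43085140) (nat_lit 76) (nat_lit 1683949771) (nat_lit 198) (nat_lit 5) (nat_lit 209) (nat_lit 5) (nat_lit 199) (nat_lit 5) (nat_lit 255) (nat_lit 244) (nat_lit 221))))) (XT.nd (nat_lit 156) (nat_lit 2812) (nat_lit 0) (XT.nd (nat_lit 78) (nat_lit 912) (nat_lit 0) (XT.lf (nat_lit 0) (nat_lit 1185660439) (nat_lit 912) (nat_lit 1424865973) (nat_lit 76) (nat_lit 5220554772) (nat_lit 186) (nat_lit 5) (nat_lit 198) (nat_lit 5) (nat_lit 187) (nat_lit 5) (nat_lit 256) (nat_lit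 244) (nat_lit 220)) (XT.lf (nat_lit 0) (nat_lit 4127969773) (nat_lit 988) (nat_lit 2839731430) (nat_lit 76) (nat_lit 1021420491) (nat_lit 174) (nat_lit 5) (nat_lit 187) (nat_lit 5) (nat_lit 175) (nat_lit 5) (nat_lit 257) (nat_lit 244) (nat_lit 219))) (XT.nd (nat_lit 78) (nat_lit 1824) (nat_lit 0) (XT.lf (nat_lit 0) (nat_lit 3859399641) (nat_lit 988) (nat_lit 3301399771) (nat_lit 1064) (nat_lit 996332213) (nat_lit 161) (nat_lit 5) (nat_lit 174) (nat_lit 5) (nat_lit 175) (nat_lit 5) (nat_lit 258) (nat_lit 244) (nat_lit 218)) (XT.nd (nat_lit 78) (nat_lit 684) (nat_lit 0) (XT.lf (nat_lit 0) (nat_lit 1901329380) (nat_lit 1140) (nat_lit 5808311798) (nat_lit 76) (nat_lit 625796718) (nat_lit 146) (nat_lit 5) (nat_lit 161) (nat_lit 5) (nat_lit 147) (nat_lit 5) (nat_lit 259) (nat_lit 244) (nat_lit 217)) (XT.lf (nat_lit 0) (nat_lit 1122374060) (nat_lit 684) (nat_lit 3764003228) (nat_lit 760) (nat_lit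 3637418404) (nat_lit 137) (nat_lit 5) (nat_lit 146) (nat_lit 5) (nat_lit 147) (nat_lit 5) (nat_lit 260) (nat_lit 244) (nat_lit 216)))))) (XT.nd (nat_lit 390) (nat_lit 2204) (nat_lit 0) (XT.nd (nat_lit 156) (nat_lit 1520) (nat_lit 0) (XT.nd (nat_lit 78) (nat_lit 608) (nat_lit 0) (XT.lf (nat_lit 0) (nat_lit 7963794795) (nat_lit 760) (nat_lit 321097416) (nat_lit 76) (nat_lit 438695576) (nat_lit 137) (nat_lit 5) (nat_lit 147) (nat_lit 5) (nat_lit 138) (nat_lit 5) (nat_lit 261) (nat_lit 244) (nat_lit 215)) (XT.lf (nat_lit 0) (nat_lit 2208304864) (nat_lit 608) (nat_lit 1854190406) (nat_lit 76) (nat_lit 4870786796) (nat_lit 129) (nat_lit 5) (nat_lit 137) (nat_lit 5) (nat_lit 130) (nat_lit 5) (nat_lit 262) (nat_lit 244) (nat_lit 214))) (XT.nd (nat_lit 78) (nat_lit 988) (nat_lit 0) (XT.lf (nat_lit 0) (nat_lit 5259447298) (nat_lit 608) (nat_lit 3465006839) (nat_lit 76) (nat_lit 430543561) (nat_lit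 122) (nat_lit 5) (nat_lit 130) (nat_lit 5) (nat_lit 123) (nat_lit 5) (nat_lit 263) (nat_lit 244) (nat_lit 213)) (XT.nd (nat_lit 78) (nat_lit 532) (nat_lit 0) (XT.lf (nat_lit 0) (nat_lit 4191500455) (nat_lit 456) (nat_lit 4264415917) (nat_lit 532) (nat_lit 932359584) (nat_lit 116) (nat_lit 5) (nat_lit 122) (nat_lit 5) (nat_lit 123) (nat_lit 5) (nat_lit 264) (nat_lit 244) (nat_lit 212)) (XT.lf (nat_lit 0) (nat_lit 2097174038) (nat_lit 532) (nat_lit 7049727805) (nat_lit 76) (nat_lit 487107149) (nat_lit 109) (nat_lit 5) (nat_lit 116) (nat_lit 5) (nat_lit 110) (nat_lit 5) (nat_lit 265) (nat_lit 244) (nat_lit 211))))) (XT.nd (nat_lit 234) (nat_lit 1216) (nat_lit 0) (XT.nd (nat_lit 78) (nat_lit 532) (nat_lit 0) (XT.lf (nat_lit 0) (nat_lit 824545032) (nat_lit 456) (nat_lit 4438441222) (nat_lit 532) (nat_lit 4628871847) (nat_lit 103) (nat_lit 5) (nat_lit 109) (nat_lit 5) (nat_lit 110) (nat_lit 5)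 (nat_lit 266) (nat_lit 244) (nat_lit 210)) (XT.nd (nat_lit 78) (nat_lit 532) (nat_lit 0) (XT.lf (nat_lit 0) (nat_lit 8567822501) (nat_lit 532) (nat_lit 1037126420) (nat_lit 76) (nat_lit 558446736) (nat_lit 103) (nat_lit 5) (nat_lit 110) (nat_lit 5) (nat_lit 104) (nat_lit 5) (nat_lit 267) (nat_lit 244) (nat_lit 209)) (XT.lf (nat_lit 0) (nat_lit 1581443300) (nat_lit 532) (nat_lit 3075280296) (nat_lit 76) (nat_lit 5790837688) (nat_lit 96) (nat_lit 5) (nat_lit 103) (nat_lit 5) (nat_lit 97) (nat_lit 5) (nat_lit 268) (nat_lit 244) (nat_lit 208)))) (XT.nd (nat_lit 78) (nat_lit 836) (nat_lit 0) (XT.lf (nat_lit 0) (nat_lit 4863330196) (nat_lit 456) (nat_lit 5288313137) (nat_lit 76) (nat_lit 594639342) (nat_lit 91) (nat_lit 5) (nat_lit 97) (nat_lit 5) (nat_lit 92) (nat_lit 5) (nat_lit 269) (nat_lit 244) (nat_lit 207)) (XT.nd (nat_lit 78) (nat_lit 456) (nat_lit 0) (XT.lf (nat_lit 0) (nat_lit 3336640823)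 (nat_lit 380) (nat_lit 4996482259) (nat_lit 456) (nat_lit 2726285529) (nat_lit 86) (nat_lit 5) (nat_lit 91) (nat_lit 5) (nat_lit 92) (nat_lit 5) (nat_lit 270) (nat_lit 244) (nat_lit 206)) (XT.lf (nat_lit 0) (nat_lit 561060444) (nat_lit 456) (nat_lit 10365853718) (nat_lit 76) (nat_lit 461746387) (nat_lit 80) (nat_lit 5) (nat_lit 86) (nat_lit 5) (nat_lit 81) (nat_lit 5) (nat_lit 271) (nat_lit 244) (nat_lit 205))))))) (XT.nd (nat_lit 780) (nat_lit 1672) (nat_lit 0) (XT.nd (nat_lit 390) (nat_lit 1216) (nat_lit 0) (XT.nd (nat_lit 156) (nat_lit 684) (nat_lit 0) (XT.nd (nat_lit 78) (nat_lit 380) (nat_lit 0) (XT.lf (nat_lit 0) (nat_lit 4005485216) (nat_lit 456) (nat_lit 1546350413) (nat_lit 76) (nat_lit 6180417810) (nat_lit 80) (nat_lit 5) (nat_lit 86) (nat_lit 5) (nat_lit 81) (nat_lit 5) (nat_lit 272) (nat_lit 244) (nat_lit 204)) (XT.lf (nat_lit 0) (nat_lit 7620002988) (nat_lit 456) (nat_lit 4326793399)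 (nat_lit 76) (nat_lit 146446765) (nat_lit 75) (nat_lit 5) (nat_lit 81) (nat_lit 5) (nat_lit 76) (nat_lit 5) (nat_lit 273) (nat_lit 244) (nat_lit 203))) (XT.nd (nat_lit 78) (nat_lit 380) (nat_lit 0) (XT.lf (nat_lit 0) (nat_lit 5050562732) (nat_lit 304) (nat_lit 6409735364) (nat_lit 380) (nat_lit 1010778743) (nat_lit 71) (nat_lit 5) (nat_lit 75) (nat_lit 5) (nat_lit 76) (nat_lit 5) (nat_lit 274) (nat_lit 244) (nat_lit 202)) (XT.nd (nat_lit 78) (nat_lit 0) (nat_lit 0) (XT.lf (nat_lit 0) (nat_lit 2038835978) (nat_lit 304) (nat_lit 525555423) (nat_lit 380) (nat_lit 10303064747) (nat_lit 66) (nat_lit 5) (nat_lit 70) (nat_lit 5) (nat_lit 71) (nat_lit 5) (nat_lit 275) (nat_lit 244) (nat_lit 201)) (XT.lf (nat_lit 0) (nat_lit 6357721508) (nat_lit 380) (nat_lit 1315752527) (nat_lit 76) (nat_lit 5608199576) (nat_lit 66) (nat_lit 5) (nat_lit 71) (nat_lit 5) (nat_lit 67) (nat_lit 5) (nat_lit 276) (nat_lit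 244) (nat_lit 200))))) (XT.nd (nat_lit 156) (nat_lit 532) (nat_lit 0) (XT.nd (nat_lit 78) (nat_lit 380) (nat_lit 0) (XT.lf (nat_lit 0) (nat_lit 8747372028) (nat_lit 304) (nat_lit 1614763486) (nat_lit 380) (nat_lit 3353946385) (nat_lit 62) (nat_lit 5) (nat_lit 66) (nat_lit 5) (nat_lit 67) (nat_lit 5) (nat_lit 277) (nat_lit 244) (nat_lit 199)) (XT.lf (nat_lit 0) (nat_lit 430027094) (nat_lit 380) (nat_lit 9041539906) (nat_lit 76) (nat_lit 4699348059) (nat_lit 57) (nat_lit 5) (nat_lit 62) (nat_lit 5) (nat_lit 58) (nat_lit 5) (nat_lit 278) (nat_lit 244) (nat_lit 198))) (XT.nd (nat_lit 78) (nat_lit 304) (nat_lit 0) (XT.lf (nat_lit 0) (nat_lit 1070630381) (nat_lit 228) (nat_lit 3277848306) (nat_lit 304) (nat_lit 10298683493) (nat_lit 54) (nat_lit 5) (nat_lit 57) (nat_lit 5) (nat_lit 58) (nat_lit 5) (nat_lit 279) (nat_lit 244) (nat_lit 197)) (XT.nd (nat_lit 78) (nat_lit 304) (nat_lit 0) (XT.lf (nat_lit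 0) (nat_lit 8525606147) (nat_lit 304) (nat_lit 3387034318) (nat_lit 76) (nat_lit 3232801310) (nat_lit 54) (nat_lit 5) (nat_lit 58) (nat_lit 5) (nat_lit 55) (nat_lit 5) (nat_lit 280) (nat_lit 244) (nat_lit 196)) (XT.lf (nat_lit 0) (nat_lit 7338212571) (nat_lit 304) (nat_lit 5617716208) (nat_lit 380) (nat_lit 2711474229) (nat_lit 50) (nat_lit 5) (nat_lit 54) (nat_lit 5) (nat_lit 55) (nat_lit 5) (nat_lit 281) (nat_lit 244) (nat_lit 195)))))) (XT.nd (nat_lit 390) (nat_lit 836) (nat_lit 0) (XT.nd (nat_lit 156) (nat_lit 532) (nat_lit 0) (XT.nd (nat_lit 78) (nat_lit 0) (nat_lit 0) (XT.lf (nat_lit 0) (nat_lit 1375586999) (nat_lit 304) (nat_lit 13818503357) (nat_lit 76) (nat_lit 1020747372) (nat_lit 46) (nat_lit 5) (nat_lit 50) (nat_lit 5) (nat_lit 47) (nat_lit 5) (nat_lit 282) (nat_lit 244) (nat_lit 194)) (XT.lf (nat_lit 0) (nat_lit 5698585032) (nat_lit 304) (nat_lit 3121633705) (nat_lit 76) (nat_lit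 7966076366) (nat_lit 46) (nat_lit 5) (nat_lit 50) (nat_lit 5) (nat_lit 47) (nat_lit 5) (nat_lit 283) (nat_lit 244) (nat_lit 193))) (XT.nd (nat_lit 78) (nat_lit 304) (nat_lit 0) (XT.lf (nat_lit 0) (nat_lit 8191996392) (nat_lit 228) (nat_lit 2071005282) (nat_lit 304) (nat_lit 7122647655) (nat_lit 43) (nat_lit 5) (nat_lit 46) (nat_lit 5) (nat_lit 47) (nat_lit 5) (nat_lit 284) (nat_lit 244) (nat_lit 192)) (XT.nd (nat_lit 78) (nat_lit 76) (nat_lit 0) (XT.lf (nat_lit 0) (nat_lit 2036643056) (nat_lit 228) (nat_lit 13067349788) (nat_lit 304) (nat_lit 2909605947) (nat_lit 40) (nat_lit 5) (nat_lit 43) (nat_lit 5) (nat_lit 44) (nat_lit 5) (nat_lit 285) (nat_lit 244) (nat_lit 191)) (XT.lf (nat_lit 0) (nat_lit 1550314877) (nat_lit 304) (nat_lit 4761899314) (nat_lit 76) (nat_lit 12358393984) (nat_lit 39) (nat_lit 5) (nat_lit 43) (nat_lit 5) (nat_lit 40) (nat_lit 5) (nat_lit 286) (nat_lit 244) (nat_lit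 190))))) (XT.nd (nat_lit 234) (nat_lit 456) (nat_lit 0) (XT.nd (nat_lit 78) (nat_lit 152) (nat_lit 0) (XT.lf (nat_lit 0) (nat_lit 6201323630) (nat_lit 304) (nat_lit 12317552449) (nat_lit 76) (nat_lit 839948506) (nat_lit 36) (nat_lit 5) (nat_lit 40) (nat_lit 5) (nat_lit 37) (nat_lit 5) (nat_lit 287) (nat_lit 244) (nat_lit 189)) (XT.nd (nat_lit 78) (nat_lit 152) (nat_lit 0) (XT.lf (nat_lit 0) (nat_lit 11151201864) (nat_lit 304) (nat_lit 681584743) (nat_lit 76) (nat_lit 8246741168) (nat_lit 36) (nat_lit 5) (nat_lit 40) (nat_lit 5) (nat_lit 37) (nat_lit 5) (nat_lit 288) (nat_lit 244) (nat_lit 188)) (XT.lf (nat_lit 0) (nat_lit 11696304747) (nat_lit 152) (nat_lit 4720037911) (nat_lit 228) (nat_lit 4417952818) (nat_lit 34) (nat_lit 5) (nat_lit 36) (nat_lit 5) (nat_lit 37) (nat_lit 5) (nat_lit 289) (nat_lit 244) (nat_lit 187)))) (XT.nd (nat_lit 78) (nat_lit 152) (nat_lit 0) (XT.lf (nat_lit 0) (nat_lit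 331263508) (nat_lit 304) (nat_lit 18583122842) (nat_lit 76) (nat_lit 2711795372) (nat_lit 30) (nat_lit 5) (nat_lit 34) (nat_lit 5) (nat_lit 31) (nat_lit 5) (nat_lit 290) (nat_lit 244) (nat_lit 186)) (XT.nd (nat_lit 78) (nat_lit 152) (nat_lit 0) (XT.lf (nat_lit 0) (nat_lit 5327632966) (nat_lit 304) (nat_lit 6590150607) (nat_lit 76) (nat_lit 10535589532) (nat_lit 30) (nat_lit 5) (nat_lit 34) (nat_lit 5) (nat_lit 31) (nat_lit 5) (nat_lit 291) (nat_lit 244) (nat_lit 185)) (XT.lf (nat_lit 0) (nat_lit 6057565503) (nat_lit 152) (nat_lit 4534078318) (nat_lit 228) (nat_lit 12729797891) (nat_lit 28) (nat_lit 5) (nat_lit 30) (nat_lit 5) (nat_lit 31) (nat_lit 5) (nat_lit 292) (nat_lit 244) (nat_lit 184))))))))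
noncomputable def xc59 : XT := (XT.nd (nat_lit 1638) (nat_lit 532) (nat_lit 0) (XT.nd (nat_lit 780) (nat_lit 380) (nat_lit 0) (XT.nd (nat_lit 390) (nat_lit 456) (nat_lit 0) (XT.nd (nat_lit 156) (nat_lit 228) (nat_lit 0) (XT.nd (nat_lit 78) (nat_lit 152) (nat_lit 0) (XT.lf (nat_lit 0) (nat_lit 16179022937) (nat_lit 228) (nat_lit 4849418181) (nat_lit 76) (nat_lit 3202717449) (nat_lit 28) (nat_lit 5) (nat_lit 31) (nat_lit 5) (nat_lit 29) (nat_lit 5) (nat_lit 293) (nat_lit 244) (nat_lit 183)) (XT.lf (nat_lit 0) (nat_lit 8241478278) (nat_lit 152) (nat_lit 13891864182) (nat_lit 228) (nat_lit 3050439138) (nat_lit 26) (nat_lit 5) (nat_lit 28) (nat_lit 5) (nat_lit 29) (nat_lit 5) (nat_lit 294) (nat_lit 244) (nat_lit 182))) (XT.nd (nat_lit 78) (nat_lit 152) (nat_lit 0) (XT.lf (nat_lit 0) (nat_lit 2172211512) (nat_lit 228) (nat_lit 4174347857) (nat_lit 76) (nat_lit 19836470727) (nat_lit 25) (nat_lit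 5) (nat_lit 28) (nat_lit 5) (nat_lit 26) (nat_lit 5) (nat_lit 295) (nat_lit 244) (nat_lit 181)) (XT.nd (nat_lit 78) (nat_lit 0) (nat_lit 0) (XT.lf (nat_lit 0) (nat_lit 7664451414) (nat_lit 228) (nat_lit 17918256784) (nat_lit 76) (nat_lit 1646522224) (nat_lit 23) (nat_lit 5) (nat_lit 26) (nat_lit 5) (nat_lit 24) (nat_lit 5) (nat_lit 296) (nat_lit 244) (nat_lit 180)) (XT.lf (nat_lit 0) (nat_lit 13504854933) (nat_lit 228) (nat_lit 4888033939) (nat_lit 76) (nat_lit 9932685158) (nat_lit 23) (nat_lit 5) (nat_lit 26) (nat_lit 5) (nat_lit 24) (nat_lit 5) (nat_lit 297) (nat_lit 244) (nat_lit 179))))) (XT.nd (nat_lit 156) (nat_lit 304) (nat_lit 0) (XT.nd (nat_lit 78) (nat_lit 0) (nat_lit 0) (XT.lf (nat_lit 0) (nat_lit 8915393101) (nat_lit 152) (nat_lit 10775297716) (nat_lit 228) (nat_lit 9784479559) (nat_lit 21) (nat_lit 5) (nat_lit 23) (nat_lit 5) (nat_lit 24) (nat_lit 5) (nat_lit 298) (nat_lit 244)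 (nat_lit 178)) (XT.lf (nat_lit 0) (nat_lit 23460357199) (nat_lit 152) (nat_lit 2744540667) (nat_lit 228) (nat_lit 4476812406) (nat_lit 21) (nat_lit 5) (nat_lit 23) (nat_lit 5) (nat_lit 24) (nat_lit 5) (nat_lit 299) (nat_lit 244) (nat_lit 177))) (XT.nd (nat_lit 78) (nat_lit 152) (nat_lit 0) (XT.lf (nat_lit 0) (nat_lit 1165942698) (nat_lit 152) (nat_lit 25144177640) (nat_lit 76) (nat_lit 5635441204) (nat_lit 19) (nat_lit 5) (nat_lit 21) (nat_lit 5) (nat_lit 20) (nat_lit 5) (nat_lit 300) (nat_lit 244) (nat_lit 176)) (XT.nd (nat_lit 78) (nat_lit 152) (nat_lit 0) (XT.lf (nat_lit 0) (nat_lit 7072601517) (nat_lit 152) (nat_lit 11716151989) (nat_lit 76) (nat_lit 14480323327) (nat_lit 19) (nat_lit 5) (nat_lit 21) (nat_lit 5) (nat_lit 20) (nat_lit 5) (nat_lit 301) (nat_lit 244) (nat_lit 175)) (XT.lf (nat_lit 0) (nat_lit 2383775150) (nat_lit 152) (nat_lit 10885844662) (nat_lit 228) (nat_lit 21389327569)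 (nat_lit 17) (nat_lit 5) (nat_lit 19) (nat_lit 5) (nat_lit 20) (nat_lit 5) (nat_lit 302) (nat_lit 244) (nat_lit 174)))))) (XT.nd (nat_lit 390) (nat_lit 228) (nat_lit 0) (XT.nd (nat_lit 156) (nat_lit 152) (nat_lit 0) (XT.nd (nat_lit 78) (nat_lit 0) (nat_lit 0) (XT.lf (nat_lit 0) (nat_lit 17388834965) (nat_lit 152) (nat_lit 2481272072) (nat_lit 228) (nat_lit 16245424726) (nat_lit 17) (nat_lit 5) (nat_lit 19) (nat_lit 5) (nat_lit 20) (nat_lit 5) (nat_lit 303) (nat_lit 244) (nat_lit 173)) (XT.lf (nat_lit 0) (nat_lit 26835730176) (nat_lit 228) (nat_lit 4604980347) (nat_lit 76) (nat_lit 6203208967) (nat_lit 17) (nat_lit 5) (nat_lit 20) (nat_lit 5) (nat_lit 18) (nat_lit 4) (nat_lit 304) (nat_lit 244) (nat_lit 172))) (XT.nd (nat_lit 78) (nat_lit 76) (nat_lit 0) (XT.lf (nat_lit 0) (nat_lit 10358767208) (nat_lit 76) (nat_lit 23890851550) (nat_lit 152) (nat_lit 4996134482) (nat_lit 16) (nat_lit 5)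 (nat_lit 17) (nat_lit 5) (nat_lit 18) (nat_lit 4) (nat_lit 305) (nat_lit 244) (nat_lit 171)) (XT.nd (nat_lit 78) (nat_lit 0) (nat_lit 0) (XT.lf (nat_lit 0) (nat_lit 1108698149) (nat_lit 152) (nat_lit 14810901757) (nat_lit 76) (nat_lit 25007070849) (nat_lit 15) (nat_lit 5) (nat_lit 17) (nat_lit 5) (nat_lit 16) (nat_lit 5) (nat_lit 306) (nat_lit 244) (nat_lit 170)) (XT.lf (nat_lit 0) (nat_lit 7393446871) (nat_lit 152) (nat_lit 119985192) (nat_lit 76) (nat_lit 35177401056) (nat_lit 15) (nat_lit 5) (nat_lit 17) (nat_lit 5) (nat_lit 16) (nat_lit 5) (nat_lit 307) (nat_lit 244) (nat_lit 169))))) (XT.nd (nat_lit 234) (nat_lit 0) (nat_lit 0) (XT.nd (nat_lit 78) (nat_lit 76) (nat_lit 0) (XT.lf (nat_lit 0) (nat_lit 14134222962) (nat_lit 228) (nat_lit 28980705540) (nat_lit 76) (nat_lit 1424043346) (nat_lit 13) (nat_lit 5) (nat_lit 16) (nat_lit 5) (nat_lit 14) (nat_lit 4) (nat_lit 308) (nat_lit 244)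 (nat_lit 168)) (XT.nd (nat_lit 78) (nat_lit 76) (nat_lit 0) (XT.lf (nat_lit 0) (nat_lit 21267814188) (nat_lit 228) (nat_lit 14568563466) (nat_lit 76) (nat_lit 10641487468) (nat_lit 13) (nat_lit 5) (nat_lit 16) (nat_lit 5) (nat_lit 14) (nat_lit 4) (nat_lit 309) (nat_lit 244) (nat_lit 167)) (XT.lf (nat_lit 0) (nat_lit 540277410) (nat_lit 76) (nat_lit 28202709677) (nat_lit 152) (nat_lit 19771188813) (nat_lit 12) (nat_lit 5) (nat_lit 13) (nat_lit 5) (nat_lit 14) (nat_lit 4) (nat_lit 310) (nat_lit 244) (nat_lit 166)))) (XT.nd (nat_lit 78) (nat_lit 0) (nat_lit 0) (XT.lf (nat_lit 0) (nat_lit 16675536934) (nat_lit 76) (nat_lit 20046705424) (nat_lit 152) (nat_lit 13926169103) (nat_lit 12) (nat_lit 5) (nat_lit 13) (nat_lit 5) (nat_lit 14) (nat_lit 4) (nat_lit 311) (nat_lit 244) (nat_lit 165)) (XT.nd (nat_lit 78) (nat_lit 0) (nat_lit 0) (XT.lf (nat_lit 0) (nat_lit 33585689411) (nat_lit 76) (nat_lit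 11496059762) (nat_lit 152) (nat_lit 7808189018) (nat_lit 12) (nat_lit 5) (nat_lit 13) (nat_lit 5) (nat_lit 14) (nat_lit 4) (nat_lit 312) (nat_lit 244) (nat_lit 164)) (XT.lf (nat_lit 0) (nat_lit 51310997108) (nat_lit 76) (nat_lit 2530414011) (nat_lit 152) (nat_lit 1402681936) (nat_lit 12) (nat_lit 5) (nat_lit 13) (nat_lit 5) (nat_lit 14) (nat_lit 4) (nat_lit 313) (nat_lit 244) (nat_lit 163))))))) (XT.nd (nat_lit 780) (nat_lit 152) (nat_lit 0) (XT.nd (nat_lit 390) (nat_lit 76) (nat_lit 0) (XT.nd (nat_lit 156) (nat_lit 76) (nat_lit 0) (XT.nd (nat_lit 78) (nat_lit 0) (nat_lit 0) (XT.lf (nat_lit 0) (nat_lit 5388691891) (nat_lit 228) (nat_lit 45411604461) (nat_lit 76) (nat_lit 6909056216) (nat_lit 9) (nat_lit 5) (nat_lit 12) (nat_lit 5) (nat_lit 10) (nat_lit 4) (nat_lit 314) (nat_lit 244) (nat_lit 162)) (XT.lf (nat_lit 0) (nat_lit 12540597585) (nat_lit 228) (nat_lit 30943259945) (nat_lit 76) (nat_lit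 16812116844) (nat_lit 9) (nat_lit 5) (nat_lit 12) (nat_lit 5) (nat_lit 10) (nat_lit 4) (nat_lit 315) (nat_lit 244) (nat_lit 161))) (XT.nd (nat_lit 78) (nat_lit 76) (nat_lit 0) (XT.lf (nat_lit 0) (nat_lit 20034169439) (nat_lit 228) (nat_lit 15778951029) (nat_lit 76) (nat_lit 27199299096) (nat_lit 9) (nat_lit 5) (nat_lit 12) (nat_lit 5) (nat_lit 10) (nat_lit 4) (nat_lit 316) (nat_lit 244) (nat_lit 160)) (XT.nd (nat_lit 78) (nat_lit 0) (nat_lit 0) (XT.lf (nat_lit 0) (nat_lit 119764827) (nat_lit 76) (nat_lit 27768635715) (nat_lit 152) (nat_lit 37976720785) (nat_lit 8) (nat_lit 5) (nat_lit 9) (nat_lit 5) (nat_lit 10) (nat_lit 4) (nat_lit 317) (nat_lit 244) (nat_lit 159)) (XT.lf (nat_lit 0) (nat_lit 17117754054) (nat_lit 76) (nat_lit 19165327216) (nat_lit 152) (nat_lit 32572957846) (nat_lit 8) (nat_lit 5) (nat_lit 9) (nat_lit 5) (nat_lit 10) (nat_lit 4) (nat_lit 318) (nat_lit 244) (nat_lit 158)))))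 (XT.nd (nat_lit 156) (nat_lit 76) (nat_lit 0) (XT.nd (nat_lit 78) (nat_lit 0) (nat_lit 0) (XT.lf (nat_lit 0) (nat_lit 34941455989) (nat_lit 76) (nat_lit 10142047370) (nat_lit 152) (nat_lit 26913431672) (nat_lit 8) (nat_lit 5) (nat_lit 9) (nat_lit 5) (nat_lit 10) (nat_lit 4) (nat_lit 319) (nat_lit 244) (nat_lit 157)) (XT.lf (nat_lit 0) (nat_lit 53633308017) (nat_lit 76) (nat_lit 677312178) (nat_lit 152) (nat_lit 20984667200) (nat_lit 8) (nat_lit 5) (nat_lit 9) (nat_lit 5) (nat_lit 10) (nat_lit 4) (nat_lit 320) (nat_lit 244) (nat_lit 156))) (XT.nd (nat_lit 78) (nat_lit 76) (nat_lit 0) (XT.lf (nat_lit 0) (nat_lit 64075331349) (nat_lit 152) (nat_lit 5610065127) (nat_lit 0) (nat_lit 9070885046) (nat_lit 8) (nat_lit 5) (nat_lit 10) (nat_lit 4) (nat_lit 8) (nat_lit 4) (nat_lit 321) (nat_lit 244) (nat_lit 155)) (XT.nd (nat_lit 78) (nat_lit 0) (nat_lit 0) (XT.lf (nat_lit 0) (nat_lit 11439655279)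 (nat_lit 76) (nat_lit 62993251974) (nat_lit 76) (nat_lit 7954289987) (nat_lit 7) (nat_lit 4) (nat_lit 8) (nat_lit 5) (nat_lit 8) (nat_lit 4) (nat_lit 322) (nat_lit 244) (nat_lit 154)) (XT.lf (nat_lit 0) (nat_lit 29438520588) (nat_lit 76) (nat_lit 55915801828) (nat_lit 76) (nat_lit 843967760) (nat_lit 7) (nat_lit 4) (nat_lit 8) (nat_lit 5) (nat_lit 8) (nat_lit 4) (nat_lit 323) (nat_lit 244) (nat_lit 153)))))) (XT.nd (nat_lit 390) (nat_lit 0) (nat_lit 0) (XT.nd (nat_lit 156) (nat_lit 76) (nat_lit 0) (XT.nd (nat_lit 78) (nat_lit 0) (nat_lit 0) (XT.lf (nat_lit 0) (nat_lit 6481304517) (nat_lit 152) (nat_lit 41946092639) (nat_lit 76) (nat_lit 41770980962) (nat_lit 6) (nat_lit 5) (nat_lit 8) (nat_lit 5) (nat_lit 7) (nat_lit 4) (nat_lit 324) (nat_lit 244) (nat_lit 152)) (XT.lf (nat_lit 0) (nat_lit 14144739056) (nat_lit 152) (nat_lit 26419136471) (nat_lit 76) (nat_lit 53834672675) (nat_lit 6) (nat_lit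 5) (nat_lit 8) (nat_lit 5) (nat_lit 7) (nat_lit 4) (nat_lit 325) (nat_lit 244) (nat_lit 151))) (XT.nd (nat_lit 78) (nat_lit 76) (nat_lit 0) (XT.lf (nat_lit 0) (nat_lit 22181050980) (nat_lit 152) (nat_lit 10133819405) (nat_lit 76) (nat_lit 66494173829) (nat_lit 6) (nat_lit 5) (nat_lit 8) (nat_lit 5) (nat_lit 7) (nat_lit 4) (nat_lit 326) (nat_lit 244) (nat_lit 150)) (XT.nd (nat_lit 78) (nat_lit 0) (nat_lit 0) (XT.lf (nat_lit 0) (nat_lit 7086924544) (nat_lit 76) (nat_lit 23590573673) (nat_lit 152) (nat_lit 72760825404) (nat_lit 5) (nat_lit 5) (nat_lit 6) (nat_lit 5) (nat_lit 7) (nat_lit 4) (nat_lit 327) (nat_lit 244) (nat_lit 149)) (XT.lf (nat_lit 0) (nat_lit 25363833359) (nat_lit 76) (nat_lit 14329755966) (nat_lit 152) (nat_lit 68602640824) (nat_lit 5) (nat_lit 5) (nat_lit 6) (nat_lit 5) (nat_lit 7) (nat_lit 4) (nat_lit 328) (nat_lit 244) (nat_lit 148))))) (XT.nd (nat_lit 31122) (nat_lit 0)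 (nat_lit 16644) (XT.nd (nat_lit 30966) (nat_lit 0) (nat_lit 17252) (XT.lf (nat_lit 0) (nat_lit 44538740612) (nat_lit 76) (nat_lit 4612699405) (nat_lit 152) (nat_lit 64245870759) (nat_lit 5) (nat_lit 5) (nat_lit 6) (nat_lit 5) (nat_lit 7) (nat_lit 4) (nat_lit 329) (nat_lit 244) (nat_lit 147)) (XT.nd (nat_lit 78) (nat_lit 532) (nat_lit 0) (XT.lf (nat_lit 0) (nat_lit 3066842549) (nat_lit 532) (nat_lit 153259802) (nat_lit 532) (nat_lit 153259802) (nat_lit 239) (nat_lit 3) (nat_lit 246) (nat_lit 3) (nat_lit 246) (nat_lit 5) (nat_lit 245) (nat_lit 245) (nat_lit 230)) (XT.lf (nat_lit 0) (nat_lit 2526875790) (nat_lit 532) (nat_lit 2231059620) (nat_lit 608) (nat_lit 2052765122) (nat_lit 232) (nat_lit 5) (nat_lit 239) (nat_lit 3) (nat_lit 240) (nat_lit 5) (nat_lit 246) (nat_lit 245) (nat_lit 229)))) (XT.nd (nat_lit 78) (nat_lit 608) (nat_lit 0) (XT.lf (nat_lit 76) (nat_lit 2778947348) (nat_lit 0)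 (nat_lit 2862848429) (nat_lit 608) (nat_lit 1241654553) (nat_lit 233) (nat_lit 5) (nat_lit 232) (nat_lit 5) (nat_lit 240) (nat_lit 5) (nat_lit 247) (nat_lit 245) (nat_lit 228)) (XT.nd (nat_lit 78) (nat_lit 0) (nat_lit 76) (XT.lf (nat_lit 76) (nat_lit 1018628618) (nat_lit 0) (nat_lit 735512312) (nat_lit 684) (nat_lit 5210571444) (nat_lit 225) (nat_lit 5) (nat_lit 224) (nat_lit 5) (nat_lit 233) (nat_lit 5) (nat_lit 248) (nat_lit 245) (nat_lit 227)) (XT.lf (nat_lit 0) (nat_lit 4746940453) (nat_lit 608) (nat_lit 705396157) (nat_lit 684) (nat_lit 1601741900) (nat_lit 225) (nat_lit 5) (nat_lit 233) (nat_lit 5) (nat_lit 234) (nat_lit 5) (nat_lit 249) (nat_lit 245) (nat_lit 226))))))))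
noncomputable def xc60 : XT := (XT.nd (nat_lit 1638) (nat_lit 4636) (nat_lit 0) (XT.nd (nat_lit 780) (nat_lit 5244) (nat_lit 0) (XT.nd (nat_lit 390) (nat_lit 3572) (nat_lit 0) (XT.nd (nat_lit 156) (nat_lit 684) (nat_lit 0) (XT.nd (nat_lit 78) (nat_lit 0) (nat_lit 0) (XT.lf (nat_lit 0) (nat_lit 602923575) (nat_lit 684) (nat_lit 2382555602) (nat_lit 760) (nat_lit 4166493839) (nat_lit 216) (nat_lit 5) (nat_lit 225) (nat_lit 5) (nat_lit 226) (nat_lit 5) (nat_lit 250) (nat_lit 245) (nat_lit 225)) (XT.lf (nat_lit 76) (nat_lit 3209010990) (nat_lit 0) (nat_lit 269912941) (nat_lit 760) (nat_lit 3779633882) (nat_lit 217) (nat_lit 5) (nat_lit 216) (nat_lit 5) (nat_lit 226) (nat_lit 5) (nat_lit 251) (nat_lit 245) (nat_lit 224))) (XT.nd (nat_lit 78) (nat_lit 760) (nat_lit 0) (XT.lf (nat_lit 76) (nat_lit 1656199919) (nat_lit 0) (nat_lit 4745218720) (nat_lit 760) (nat_lit 972472740) (nat_lit 218) (nat_lit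 5) (nat_lit 217) (nat_lit 5) (nat_lit 227) (nat_lit 5) (nat_lit 252) (nat_lit 245) (nat_lit 223)) (XT.nd (nat_lit 78) (nat_lit 0) (nat_lit 76) (XT.lf (nat_lit 76) (nat_lit 106380642) (nat_lit 0) (nat_lit 1717863338) (nat_lit 836) (nat_lit 5674008601) (nat_lit 208) (nat_lit 5) (nat_lit 207) (nat_lit 5) (nat_lit 218) (nat_lit 5) (nat_lit 253) (nat_lit 245) (nat_lit 222)) (XT.lf (nat_lit 0) (nat_lit 4663147698) (nat_lit 760) (nat_lit 1424259434) (nat_lit 76) (nat_lit 1543902578) (nat_lit 208) (nat_lit 5) (nat_lit 218) (nat_lit 5) (nat_lit 209) (nat_lit 5) (nat_lit 254) (nat_lit 245) (nat_lit 221))))) (XT.nd (nat_lit 156) (nat_lit 1976) (nat_lit 0) (XT.nd (nat_lit 78) (nat_lit 912) (nat_lit 0) (XT.lf (nat_lit 0) (nat_lit 4809782694) (nat_lit 760) (nat_lit 2753780056) (nat_lit 836) (nat_lit 210289602) (nat_lit 198) (nat_lit 5) (nat_lit 208) (nat_lit 5) (nat_lit 209) (nat_lit 5) (nat_lit 255)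 (nat_lit 245) (nat_lit 220)) (XT.lf (nat_lit 0) (nat_lit 2548785143) (nat_lit 912) (nat_lit 4540169424) (nat_lit 76) (nat_lit 836709780) (nat_lit 186) (nat_lit 5) (nat_lit 198) (nat_lit 5) (nat_lit 187) (nat_lit 5) (nat_lit 256) (nat_lit 245) (nat_lit 219))) (XT.nd (nat_lit 78) (nat_lit 1064) (nat_lit 0) (XT.lf (nat_lit 0) (nat_lit 1927626346) (nat_lit 912) (nat_lit 3457021887) (nat_lit 988) (nat_lit 2702430276) (nat_lit 174) (nat_lit 5) (nat_lit 186) (nat_lit 5) (nat_lit 187) (nat_lit 5) (nat_lit 257) (nat_lit 245) (nat_lit 218)) (XT.nd (nat_lit 78) (nat_lit 0) (nat_lit 0) (XT.lf (nat_lit 0) (nat_lit 29143887) (nat_lit 1064) (nat_lit 7807305562) (nat_lit 76) (nat_lit 422661140) (nat_lit 160) (nat_lit 5) (nat_lit 174) (nat_lit 5) (nat_lit 161) (nat_lit 5) (nat_lit 258) (nat_lit 245) (nat_lit 217)) (XT.lf (nat_lit 0) (nat_lit 2815944484) (nat_lit 1064) (nat_lit 1089278306) (nat_lit 76) (nat_lit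 4534808060) (nat_lit 160) (nat_lit 5) (nat_lit 174) (nat_lit 5) (nat_lit 161) (nat_lit 5) (nat_lit 259) (nat_lit 245) (nat_lit 216)))))) (XT.nd (nat_lit 390) (nat_lit 2356) (nat_lit 0) (XT.nd (nat_lit 156) (nat_lit 1140) (nat_lit 0) (XT.nd (nat_lit 78) (nat_lit 684) (nat_lit 0) (XT.lf (nat_lit 0) (nat_lit 5683401632) (nat_lit 1140) (nat_lit 2659427651) (nat_lit 76) (nat_lit 289238269) (nat_lit 146) (nat_lit 5) (nat_lit 161) (nat_lit 5) (nat_lit 147) (nat_lit 5) (nat_lit 260) (nat_lit 245) (nat_lit 215)) (XT.lf (nat_lit 0) (nat_lit 4519205663) (nat_lit 684) (nat_lit 4155037545) (nat_lit 760) (nat_lit 160357701) (nat_lit 137) (nat_lit 5) (nat_lit 146) (nat_lit 5) (nat_lit 147) (nat_lit 5) (nat_lit 261) (nat_lit 245) (nat_lit 214))) (XT.nd (nat_lit 78) (nat_lit 532) (nat_lit 0) (XT.lf (nat_lit 0) (nat_lit 2661877028) (nat_lit 608) (nat_lit 6060099450) (nat_lit 76) (nat_lit 326303958) (nat_lit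 129) (nat_lit 5) (nat_lit 137) (nat_lit 5) (nat_lit 130) (nat_lit 5) (nat_lit 262) (nat_lit 245) (nat_lit 213)) (XT.nd (nat_lit 78) (nat_lit 0) (nat_lit 0) (XT.lf (nat_lit 0) (nat_lit 1351790436) (nat_lit 532) (nat_lit 4263190763) (nat_lit 608) (nat_lit 3658082811) (nat_lit 122) (nat_lit 5) (nat_lit 129) (nat_lit 5) (nat_lit 130) (nat_lit 5) (nat_lit 263) (nat_lit 245) (nat_lit 212)) (XT.lf (nat_lit 0) (nat_lit 8680096503) (nat_lit 608) (nat_lit 357609628) (nat_lit 76) (nat_lit 472697505) (nat_lit 122) (nat_lit 5) (nat_lit 130) (nat_lit 5) (nat_lit 123) (nat_lit 5) (nat_lit 264) (nat_lit 245) (nat_lit 211))))) (XT.nd (nat_lit 234) (nat_lit 912) (nat_lit 0) (XT.nd (nat_lit 78) (nat_lit 912) (nat_lit 0) (XT.lf (nat_lit 0) (nat_lit 2115256957) (nat_lit 532) (nat_lit 2192354263) (nat_lit 76) (nat_lit 5451067022) (nat_lit 115) (nat_lit 5) (nat_lit 122) (nat_lit 5) (nat_lit 116) (nat_lit 5) (nat_lit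 265) (nat_lit 245) (nat_lit 210)) (XT.nd (nat_lit 78) (nat_lit 456) (nat_lit 0) (XT.lf (nat_lit 0) (nat_lit 5163066014) (nat_lit 532) (nat_lit 4147133246) (nat_lit 76) (nat_lit 709974525) (nat_lit 109) (nat_lit 5) (nat_lit 116) (nat_lit 5) (nat_lit 110) (nat_lit 5) (nat_lit 266) (nat_lit 245) (nat_lit 209)) (XT.lf (nat_lit 0) (nat_lit 4027546991) (nat_lit 456) (nat_lit 4349013177) (nat_lit 532) (nat_lit 1917992710) (nat_lit 103) (nat_lit 5) (nat_lit 109) (nat_lit 5) (nat_lit 110) (nat_lit 5) (nat_lit 267) (nat_lit 245) (nat_lit 208)))) (XT.nd (nat_lit 78) (nat_lit 380) (nat_lit 0) (XT.lf (nat_lit 0) (nat_lit 1127620122) (nat_lit 532) (nat_lit 8547578511) (nat_lit 76) (nat_lit 907837351) (nat_lit 96) (nat_lit 5) (nat_lit 103) (nat_lit 5) (nat_lit 97) (nat_lit 5) (nat_lit 268) (nat_lit 245) (nat_lit 207)) (XT.nd (nat_lit 78) (nat_lit 380) (nat_lit 0) (XT.lf (nat_lit 0) (nat_lit 4309145747)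 (nat_lit 532) (nat_lit 163565607) (nat_lit 76) (nat_lit 6412146042) (nat_lit 96) (nat_lit 5) (nat_lit 103) (nat_lit 5) (nat_lit 97) (nat_lit 5) (nat_lit 269) (nat_lit 245) (nat_lit 206)) (XT.lf (nat_lit 0) (nat_lit 7661723904) (nat_lit 456) (nat_lit 2497331896) (nat_lit 76) (nat_lit 1042528912) (nat_lit 91) (nat_lit 5) (nat_lit 97) (nat_lit 5) (nat_lit 92) (nat_lit 5) (nat_lit 270) (nat_lit 245) (nat_lit 205))))))) (XT.nd (nat_lit 780) (nat_lit 1824) (nat_lit 0) (XT.nd (nat_lit 390) (nat_lit 1216) (nat_lit 0) (XT.nd (nat_lit 156) (nat_lit 760) (nat_lit 0) (XT.nd (nat_lit 78) (nat_lit 456) (nat_lit 0) (XT.lf (nat_lit 0) (nat_lit 6471287424) (nat_lit 380) (nat_lit 4740569974) (nat_lit 456) (nat_lit 321559031) (nat_lit 86) (nat_lit 5) (nat_lit 91) (nat_lit 5) (nat_lit 92) (nat_lit 5) (nat_lit 271) (nat_lit 245) (nat_lit 204)) (XT.lf (nat_lit 0) (nat_lit 2995288204) (nat_lit 456) (nat_lit 7876823067)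 (nat_lit 76) (nat_lit 1009081143) (nat_lit 80) (nat_lit 5) (nat_lit 86) (nat_lit 5) (nat_lit 81) (nat_lit 5) (nat_lit 272) (nat_lit 245) (nat_lit 203))) (XT.nd (nat_lit 78) (nat_lit 380) (nat_lit 0) (XT.lf (nat_lit 0) (nat_lit 1265136907) (nat_lit 380) (nat_lit 5244378827) (nat_lit 456) (nat_lit 5735746336) (nat_lit 75) (nat_lit 5) (nat_lit 80) (nat_lit 5) (nat_lit 81) (nat_lit 5) (nat_lit 273) (nat_lit 245) (nat_lit 202)) (XT.nd (nat_lit 78) (nat_lit 380) (nat_lit 0) (XT.lf (nat_lit 0) (nat_lit 10215723160) (nat_lit 456) (nat_lit 1696067207) (nat_lit 76) (nat_lit 715395863) (nat_lit 75) (nat_lit 5) (nat_lit 81) (nat_lit 5) (nat_lit 76) (nat_lit 5) (nat_lit 274) (nat_lit 245) (nat_lit 201)) (XT.lf (nat_lit 0) (nat_lit 1120374092) (nat_lit 380) (nat_lit 4968919580) (nat_lit 76) (nat_lit 6936858486) (nat_lit 70) (nat_lit 5) (nat_lit 75) (nat_lit 5) (nat_lit 71) (nat_lit 5) (nat_lit 275) (nat_lit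 245) (nat_lit 200))))) (XT.nd (nat_lit 156) (nat_lit 608) (nat_lit 0) (XT.nd (nat_lit 78) (nat_lit 304) (nat_lit 0) (XT.lf (nat_lit 0) (nat_lit 4777867721) (nat_lit 380) (nat_lit 8572872720) (nat_lit 76) (nat_lit 93764017) (nat_lit 66) (nat_lit 5) (nat_lit 71) (nat_lit 5) (nat_lit 67) (nat_lit 5) (nat_lit 276) (nat_lit 245) (nat_lit 199)) (XT.lf (nat_lit 0) (nat_lit 1302809884) (nat_lit 304) (nat_lit 7376331874) (nat_lit 380) (nat_lit 5202922084) (nat_lit 62) (nat_lit 5) (nat_lit 66) (nat_lit 5) (nat_lit 67) (nat_lit 5) (nat_lit 277) (nat_lit 245) (nat_lit 198))) (XT.nd (nat_lit 78) (nat_lit 608) (nat_lit 0) (XT.lf (nat_lit 0) (nat_lit 11767450531) (nat_lit 304) (nat_lit 1033819079) (nat_lit 380) (nat_lit 1539568969) (nat_lit 62) (nat_lit 5) (nat_lit 66) (nat_lit 5) (nat_lit 67) (nat_lit 5) (nat_lit 278) (nat_lit 245) (nat_lit 197)) (XT.nd (nat_lit 78) (nat_lit 228) (nat_lit 0) (XT.lf (nat_lit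 0) (nat_lit 2333370001) (nat_lit 380) (nat_lit 6891209071) (nat_lit 76) (nat_lit 5595267367) (nat_lit 57) (nat_lit 5) (nat_lit 62) (nat_lit 5) (nat_lit 58) (nat_lit 5) (nat_lit 279) (nat_lit 245) (nat_lit 196)) (XT.lf (nat_lit 0) (nat_lit 3651972232) (nat_lit 228) (nat_lit 2730459298) (nat_lit 304) (nat_lit 8939584200) (nat_lit 54) (nat_lit 5) (nat_lit 57) (nat_lit 5) (nat_lit 58) (nat_lit 5) (nat_lit 280) (nat_lit 245) (nat_lit 195)))))) (XT.nd (nat_lit 390) (nat_lit 988) (nat_lit 0) (XT.nd (nat_lit 156) (nat_lit 532) (nat_lit 0) (XT.nd (nat_lit 78) (nat_lit 304) (nat_lit 0) (XT.lf (nat_lit 0) (nat_lit 10688425674) (nat_lit 304) (nat_lit 1100693064) (nat_lit 76) (nat_lit 4058633528) (nat_lit 54) (nat_lit 5) (nat_lit 58) (nat_lit 5) (nat_lit 55) (nat_lit 5) (nat_lit 281) (nat_lit 245) (nat_lit 194)) (XT.lf (nat_lit 0) (nat_lit 10090424224) (nat_lit 304) (nat_lit 5190076844) (nat_lit 380)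 (nat_lit 1117239845) (nat_lit 50) (nat_lit 5) (nat_lit 54) (nat_lit 5) (nat_lit 55) (nat_lit 5) (nat_lit 282) (nat_lit 245) (nat_lit 193))) (XT.nd (nat_lit 78) (nat_lit 228) (nat_lit 0) (XT.lf (nat_lit 0) (nat_lit 3089133969) (nat_lit 304) (nat_lit 12112347713) (nat_lit 76) (nat_lit 1772231582) (nat_lit 46) (nat_lit 5) (nat_lit 50) (nat_lit 5) (nat_lit 47) (nat_lit 5) (nat_lit 283) (nat_lit 245) (nat_lit 192)) (XT.nd (nat_lit 78) (nat_lit 228) (nat_lit 0) (XT.lf (nat_lit 0) (nat_lit 7549959636) (nat_lit 304) (nat_lit 994781284) (nat_lit 76) (nat_lit 9031472414) (nat_lit 46) (nat_lit 5) (nat_lit 50) (nat_lit 5) (nat_lit 47) (nat_lit 5) (nat_lit 284) (nat_lit 245) (nat_lit 191)) (XT.lf (nat_lit 0) (nat_lit 10819090469) (nat_lit 228) (nat_lit 1470229916) (nat_lit 304) (nat_lit 5917927625) (nat_lit 43) (nat_lit 5) (nat_lit 46) (nat_lit 5) (nat_lit 47) (nat_lit 5) (nat_lit 285) (nat_lit 245)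 (nat_lit 190))))) (XT.nd (nat_lit 234) (nat_lit 456) (nat_lit 0) (XT.nd (nat_lit 78) (nat_lit 304) (nat_lit 0) (XT.lf (nat_lit 0) (nat_lit 4332146042) (nat_lit 228) (nat_lit 12995694338) (nat_lit 304) (nat_lit 1540199175) (nat_lit 40) (nat_lit 5) (nat_lit 43) (nat_lit 5) (nat_lit 44) (nat_lit 5) (nat_lit 286) (nat_lit 245) (nat_lit 189)) (XT.nd (nat_lit 78) (nat_lit 228) (nat_lit 0) (XT.lf (nat_lit 0) (nat_lit 3042426970) (nat_lit 304) (nat_lit 2880615243) (nat_lit 76) (nat_lit 13636643001) (nat_lit 39) (nat_lit 5) (nat_lit 43) (nat_lit 5) (nat_lit 40) (nat_lit 5) (nat_lit 287) (nat_lit 245) (nat_lit 188)) (XT.lf (nat_lit 0) (nat_lit 7885061337) (nat_lit 304) (nat_lit 10838520526) (nat_lit 76) (nat_lit 1560054302) (nat_lit 36) (nat_lit 5) (nat_lit 40) (nat_lit 5) (nat_lit 37) (nat_lit 5) (nat_lit 288) (nat_lit 245) (nat_lit 187)))) (XT.nd (nat_lit 78) (nat_lit 304) (nat_lit 0) (XT.lf (nat_lit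 0) (nat_lit 1304952286) (nat_lit 152) (nat_lit 11724612267) (nat_lit 228) (nat_lit 8012487435) (nat_lit 34) (nat_lit 5) (nat_lit 36) (nat_lit 5) (nat_lit 37) (nat_lit 5) (nat_lit 289) (nat_lit 245) (nat_lit 186)) (XT.nd (nat_lit 78) (nat_lit 304) (nat_lit 0) (XT.lf (nat_lit 0) (nat_lit 14219081302) (nat_lit 152) (nat_lit 4282667926) (nat_lit 228) (nat_lit 3334582293) (nat_lit 34) (nat_lit 5) (nat_lit 36) (nat_lit 5) (nat_lit 37) (nat_lit 5) (nat_lit 290) (nat_lit 245) (nat_lit 185)) (XT.lf (nat_lit 0) (nat_lit 1590560639) (nat_lit 304) (nat_lit 17571272225) (nat_lit 76) (nat_lit 3506766082) (nat_lit 30) (nat_lit 5) (nat_lit 34) (nat_lit 5) (nat_lit 31) (nat_lit 5) (nat_lit 291) (nat_lit 245) (nat_lit 184))))))))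
noncomputable def xc61 : XT := (XT.nd (nat_lit 1638) (nat_lit 532) (nat_lit 0) (XT.nd (nat_lit 780) (nat_lit 532) (nat_lit 0) (XT.nd (nat_lit 390) (nat_lit 456) (nat_lit 0) (XT.nd (nat_lit 156) (nat_lit 228) (nat_lit 0) (XT.nd (nat_lit 78) (nat_lit 152) (nat_lit 0) (XT.lf (nat_lit 0) (nat_lit 6777570762) (nat_lit 304) (nat_lit 5071080272) (nat_lit 76) (nat_lit 11690350857) (nat_lit 30) (nat_lit 5) (nat_lit 34) (nat_lit 5) (nat_lit 31) (nat_lit 5) (nat_lit 292) (nat_lit 245) (nat_lit 183)) (XT.lf (nat_lit 0) (nat_lit 8156032530) (nat_lit 152) (nat_lit 4109650111) (nat_lit 228) (nat_lit 12186037282) (nat_lit 28) (nat_lit 5) (nat_lit 30) (nat_lit 5) (nat_lit 31) (nat_lit 5) (nat_lit 293) (nat_lit 245) (nat_lit 182))) (XT.nd (nat_lit 78) (nat_lit 228) (nat_lit 0) (XT.lf (nat_lit 0) (nat_lit 18083893808) (nat_lit 228) (nat_lit 3353676189) (nat_lit 76) (nat_lit 3970878264) (nat_lit 28) (nat_lit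 5) (nat_lit 31) (nat_lit 5) (nat_lit 29) (nat_lit 5) (nat_lit 294) (nat_lit 245) (nat_lit 181)) (XT.nd (nat_lit 78) (nat_lit 76) (nat_lit 0) (XT.lf (nat_lit 0) (nat_lit 10341939569) (nat_lit 152) (nat_lit 13958032897) (nat_lit 228) (nat_lit 2109874904) (nat_lit 26) (nat_lit 5) (nat_lit 28) (nat_lit 5) (nat_lit 29) (nat_lit 5) (nat_lit 295) (nat_lit 245) (nat_lit 180)) (XT.lf (nat_lit 0) (nat_lit 3301542223) (nat_lit 228) (nat_lit 2753538324) (nat_lit 76) (nat_lit 21405254835) (nat_lit 25) (nat_lit 5) (nat_lit 28) (nat_lit 5) (nat_lit 26) (nat_lit 5) (nat_lit 296) (nat_lit 245) (nat_lit 179))))) (XT.nd (nat_lit 156) (nat_lit 304) (nat_lit 0) (XT.nd (nat_lit 78) (nat_lit 0) (nat_lit 0) (XT.lf (nat_lit 0) (nat_lit 9040727593) (nat_lit 228) (nat_lit 17206290765) (nat_lit 76) (nat_lit 2312715676) (nat_lit 23) (nat_lit 5) (nat_lit 26) (nat_lit 5) (nat_lit 24) (nat_lit 5) (nat_lit 297) (nat_lit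 245) (nat_lit 178)) (XT.lf (nat_lit 0) (nat_lit 15125863021) (nat_lit 228) (nat_lit 3601122438) (nat_lit 76) (nat_lit 10985383550) (nat_lit 23) (nat_lit 5) (nat_lit 26) (nat_lit 5) (nat_lit 24) (nat_lit 5) (nat_lit 298) (nat_lit 245) (nat_lit 177))) (XT.nd (nat_lit 78) (nat_lit 152) (nat_lit 0) (XT.lf (nat_lit 0) (nat_lit 10848581168) (nat_lit 152) (nat_lit 10741671062) (nat_lit 228) (nat_lit 9330167989) (nat_lit 21) (nat_lit 5) (nat_lit 23) (nat_lit 5) (nat_lit 24) (nat_lit 5) (nat_lit 299) (nat_lit 245) (nat_lit 176)) (XT.nd (nat_lit 78) (nat_lit 152) (nat_lit 0) (XT.lf (nat_lit 0) (nat_lit 26049964023) (nat_lit 152) (nat_lit 2336632900) (nat_lit 228) (nat_lit 3802047743) (nat_lit 21) (nat_lit 5) (nat_lit 23) (nat_lit 5) (nat_lit 24) (nat_lit 5) (nat_lit 300) (nat_lit 245) (nat_lit 175)) (XT.lf (nat_lit 0) (nat_lit 2081958769) (nat_lit 152) (nat_lit 24986119058) (nat_lit 76) (nat_lit 6448098652)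 (nat_lit 19) (nat_lit 5) (nat_lit 21) (nat_lit 5) (nat_lit 20) (nat_lit 5) (nat_lit 301) (nat_lit 245) (nat_lit 174)))))) (XT.nd (nat_lit 390) (nat_lit 304) (nat_lit 0) (XT.nd (nat_lit 156) (nat_lit 76) (nat_lit 0) (XT.nd (nat_lit 78) (nat_lit 152) (nat_lit 0) (XT.lf (nat_lit 0) (nat_lit 8243106770) (nat_lit 152) (nat_lit 10954085813) (nat_lit 76) (nat_lit 15709944625) (nat_lit 19) (nat_lit 5) (nat_lit 21) (nat_lit 5) (nat_lit 20) (nat_lit 5) (nat_lit 302) (nat_lit 245) (nat_lit 173)) (XT.lf (nat_lit 0) (nat_lit 3812201151) (nat_lit 152) (nat_lit 10911461200) (nat_lit 228) (nat_lit 21643670589) (nat_lit 17) (nat_lit 5) (nat_lit 19) (nat_lit 5) (nat_lit 20) (nat_lit 5) (nat_lit 303) (nat_lit 245) (nat_lit 172))) (XT.nd (nat_lit 78) (nat_lit 76) (nat_lit 0) (XT.lf (nat_lit 0) (nat_lit 19505169326) (nat_lit 152) (nat_lit 2111358823) (nat_lit 228) (nat_lit 16281388002) (nat_lit 17) (nat_lit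 5) (nat_lit 19) (nat_lit 5) (nat_lit 20) (nat_lit 5) (nat_lit 304) (nat_lit 245) (nat_lit 171)) (XT.nd (nat_lit 78) (nat_lit 76) (nat_lit 0) (XT.lf (nat_lit 0) (nat_lit 28899101607) (nat_lit 228) (nat_lit 3629956598) (nat_lit 76) (nat_lit 6974643306) (nat_lit 17) (nat_lit 5) (nat_lit 20) (nat_lit 5) (nat_lit 18) (nat_lit 4) (nat_lit 305) (nat_lit 245) (nat_lit 170)) (XT.lf (nat_lit 0) (nat_lit 12047429433) (nat_lit 76) (nat_lit 24613147713) (nat_lit 152) (nat_lit 4525779522) (nat_lit 16) (nat_lit 5) (nat_lit 17) (nat_lit 5) (nat_lit 18) (nat_lit 4) (nat_lit 306) (nat_lit 245) (nat_lit 169))))) (XT.nd (nat_lit 234) (nat_lit 76) (nat_lit 0) (XT.nd (nat_lit 78) (nat_lit 152) (nat_lit 0) (XT.lf (nat_lit 0) (nat_lit 1836617566) (nat_lit 152) (nat_lit 14422413069) (nat_lit 76) (nat_lit 26693124216) (nat_lit 15) (nat_lit 5) (nat_lit 17) (nat_lit 5) (nat_lit 16) (nat_lit 5) (nat_lit 307) (nat_lit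 245) (nat_lit 168)) (XT.nd (nat_lit 78) (nat_lit 0) (nat_lit 0) (XT.lf (nat_lit 0) (nat_lit 968178459) (nat_lit 152) (nat_lit 7444708917) (nat_lit 228) (nat_lit 36392351587) (nat_lit 13) (nat_lit 5) (nat_lit 15) (nat_lit 5) (nat_lit 16) (nat_lit 5) (nat_lit 308) (nat_lit 245) (nat_lit 167)) (XT.lf (nat_lit 0) (nat_lit 15465017279) (nat_lit 228) (nat_lit 29370160729) (nat_lit 76) (nat_lit 1911407778) (nat_lit 13) (nat_lit 5) (nat_lit 16) (nat_lit 5) (nat_lit 14) (nat_lit 4) (nat_lit 309) (nat_lit 245) (nat_lit 166)))) (XT.nd (nat_lit 78) (nat_lit 76) (nat_lit 0) (XT.lf (nat_lit 0) (nat_lit 22925569819) (nat_lit 228) (nat_lit 14287867747) (nat_lit 76) (nat_lit 11569906855) (nat_lit 13) (nat_lit 5) (nat_lit 16) (nat_lit 5) (nat_lit 14) (nat_lit 4) (nat_lit 310) (nat_lit 245) (nat_lit 165)) (XT.nd (nat_lit 78) (nat_lit 0) (nat_lit 0) (XT.lf (nat_lit 0) (nat_lit 1547488840) (nat_lit 76) (nat_lit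 29208131691) (nat_lit 152) (nat_lit 20166444395) (nat_lit 12) (nat_lit 5) (nat_lit 13) (nat_lit 5) (nat_lit 14) (nat_lit 4) (nat_lit 311) (nat_lit 245) (nat_lit 164)) (XT.lf (nat_lit 0) (nat_lit 18442835266) (nat_lit 76) (nat_lit 20663599295) (nat_lit 152) (nat_lit 14057426265) (nat_lit 12) (nat_lit 5) (nat_lit 13) (nat_lit 5) (nat_lit 14) (nat_lit 4) (nat_lit 312) (nat_lit 245) (nat_lit 163))))))) (XT.nd (nat_lit 780) (nat_lit 228) (nat_lit 0) (XT.nd (nat_lit 390) (nat_lit 76) (nat_lit 0) (XT.nd (nat_lit 156) (nat_lit 228) (nat_lit 0) (XT.nd (nat_lit 78) (nat_lit 0) (nat_lit 0) (XT.lf (nat_lit 0) (nat_lit 36154041963) (nat_lit 76) (nat_lit 11703775702) (nat_lit 152) (nat_lit 7660454379) (nat_lit 12) (nat_lit 5) (nat_lit 13) (nat_lit 5) (nat_lit 14) (nat_lit 4) (nat_lit 313) (nat_lit 245) (nat_lit 162)) (XT.lf (nat_lit 0) (nat_lit 54723278469) (nat_lit 76) (nat_lit 2307328000) (nat_lit 152)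 (nat_lit 960297853) (nat_lit 12) (nat_lit 5) (nat_lit 13) (nat_lit 5) (nat_lit 14) (nat_lit 4) (nat_lit 314) (nat_lit 245) (nat_lit 161))) (XT.nd (nat_lit 78) (nat_lit 0) (nat_lit 0) (XT.lf (nat_lit 0) (nat_lit 6148044226) (nat_lit 228) (nat_lit 46837842909) (nat_lit 76) (nat_lit 7593792031) (nat_lit 9) (nat_lit 5) (nat_lit 12) (nat_lit 5) (nat_lit 10) (nat_lit 4) (nat_lit 315) (nat_lit 245) (nat_lit 160)) (XT.nd (nat_lit 78) (nat_lit 0) (nat_lit 0) (XT.lf (nat_lit 0) (nat_lit 13634215790) (nat_lit 228) (nat_lit 31686287918) (nat_lit 76) (nat_lit 17975849356) (nat_lit 9) (nat_lit 5) (nat_lit 12) (nat_lit 5) (nat_lit 10) (nat_lit 4) (nat_lit 316) (nat_lit 245) (nat_lit 159)) (XT.lf (nat_lit 0) (nat_lit 21480247745) (nat_lit 228) (nat_lit 15802055700) (nat_lit 76) (nat_lit 28867003737) (nat_lit 9) (nat_lit 5) (nat_lit 12) (nat_lit 5) (nat_lit 10) (nat_lit 4) (nat_lit 317) (nat_lit 245) (nat_lit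 158))))) (XT.nd (nat_lit 156) (nat_lit 0) (nat_lit 0) (XT.nd (nat_lit 78) (nat_lit 0) (nat_lit 0) (XT.lf (nat_lit 0) (nat_lit 869643216) (nat_lit 76) (nat_lit 28843537446) (nat_lit 152) (nat_lit 39431902819) (nat_lit 8) (nat_lit 5) (nat_lit 9) (nat_lit 5) (nat_lit 10) (nat_lit 4) (nat_lit 318) (nat_lit 245) (nat_lit 157)) (XT.lf (nat_lit 0) (nat_lit 18682108564) (nat_lit 76) (nat_lit 19824993524) (nat_lit 152) (nat_lit 33779078114) (nat_lit 8) (nat_lit 5) (nat_lit 9) (nat_lit 5) (nat_lit 10) (nat_lit 4) (nat_lit 319) (nat_lit 245) (nat_lit 156))) (XT.nd (nat_lit 78) (nat_lit 0) (nat_lit 0) (XT.lf (nat_lit 0) (nat_lit 37363259081) (nat_lit 76) (nat_lit 10364768736) (nat_lit 152) (nat_lit 27856695994) (nat_lit 8) (nat_lit 5) (nat_lit 9) (nat_lit 5) (nat_lit 10) (nat_lit 4) (nat_lit 320) (nat_lit 245) (nat_lit 155)) (XT.nd (nat_lit 78) (nat_lit 0) (nat_lit 0) (XT.lf (nat_lit 0) (nat_lit 56957573697)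 (nat_lit 76) (nat_lit 440338736) (nat_lit 152) (nat_lit 21650655550) (nat_lit 8) (nat_lit 5) (nat_lit 9) (nat_lit 5) (nat_lit 10) (nat_lit 4) (nat_lit 321) (nat_lit 245) (nat_lit 154)) (XT.lf (nat_lit 0) (nat_lit 67635635726) (nat_lit 152) (nat_lit 5270110679) (nat_lit 0) (nat_lit 9777337874) (nat_lit 8) (nat_lit 5) (nat_lit 10) (nat_lit 4) (nat_lit 8) (nat_lit 4) (nat_lit 322) (nat_lit 245) (nat_lit 153)))))) (XT.nd (nat_lit 390) (nat_lit 76) (nat_lit 0) (XT.nd (nat_lit 156) (nat_lit 76) (nat_lit 0) (XT.nd (nat_lit 78) (nat_lit 0) (nat_lit 0) (XT.lf (nat_lit 0) (nat_lit 12614310452) (nat_lit 76) (nat_lit 65885595238) (nat_lit 76) (nat_lit 7995990643) (nat_lit 7) (nat_lit 4) (nat_lit 8) (nat_lit 5) (nat_lit 8) (nat_lit 4) (nat_lit 323) (nat_lit 245) (nat_lit 152)) (XT.lf (nat_lit 0) (nat_lit 31484420341) (nat_lit 76) (nat_lit 58466525886) (nat_lit 76) (nat_lit 547105346) (nat_lit 7) (nat_lit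 4) (nat_lit 8) (nat_lit 5) (nat_lit 8) (nat_lit 4) (nat_lit 324) (nat_lit 245) (nat_lit 151))) (XT.nd (nat_lit 78) (nat_lit 0) (nat_lit 0) (XT.lf (nat_lit 0) (nat_lit 7121983558) (nat_lit 152) (nat_lit 43490190056) (nat_lit 76) (nat_lit 44086360658) (nat_lit 6) (nat_lit 5) (nat_lit 8) (nat_lit 5) (nat_lit 7) (nat_lit 4) (nat_lit 325) (nat_lit 245) (nat_lit 150)) (XT.nd (nat_lit 78) (nat_lit 0) (nat_lit 0) (XT.lf (nat_lit 0) (nat_lit 15153512975) (nat_lit 152) (nat_lit 27213229279) (nat_lit 76) (nat_lit 56742435497) (nat_lit 6) (nat_lit 5) (nat_lit 8) (nat_lit 5) (nat_lit 7) (nat_lit 4) (nat_lit 326) (nat_lit 245) (nat_lit 149)) (XT.lf (nat_lit 0) (nat_lit 23577281592) (nat_lit 152) (nat_lit 10138735123) (nat_lit 76) (nat_lit 70024624605) (nat_lit 6) (nat_lit 5) (nat_lit 8) (nat_lit 5) (nat_lit 7) (nat_lit 4) (nat_lit 327) (nat_lit 245) (nat_lit 148))))) (XT.nd (nat_lit 31278) (nat_lit 0)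 (nat_lit 15960) (XT.nd (nat_lit 31122) (nat_lit 0) (nat_lit 16568) (XT.lf (nat_lit 0) (nat_lit 7928662737) (nat_lit 76) (nat_lit 24560898418) (nat_lit 152) (nat_lit 76112104661) (nat_lit 5) (nat_lit 5) (nat_lit 6) (nat_lit 5) (nat_lit 7) (nat_lit 4) (nat_lit 328) (nat_lit 245) (nat_lit 147)) (XT.nd (nat_lit 78) (nat_lit 684) (nat_lit 0) (XT.lf (nat_lit 0) (nat_lit 1380706695) (nat_lit 0) (nat_lit 1380706695) (nat_lit 532) (nat_lit 677981856) (nat_lit 232) (nat_lit 5) (nat_lit 232) (nat_lit 3) (nat_lit 239) (nat_lit 3) (nat_lit 246) (nat_lit 246) (nat_lit 228)) (XT.lf (nat_lit 76) (nat_lit 808751491) (nat_lit 0) (nat_lit 711847885) (nat_lit 684) (nat_lit 5434741322) (nat_lit 224) (nat_lit 5) (nat_lit 223) (nat_lit 3) (nat_lit 232) (nat_lit 5) (nat_lit 247) (nat_lit 246) (nat_lit 227)))) (XT.nd (nat_lit 78) (nat_lit 684) (nat_lit 0) (XT.lf (nat_lit 0) (nat_lit 4385697930) (nat_lit 608) (nat_lit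 1099149922) (nat_lit 684) (nat_lit 1554881884) (nat_lit 224) (nat_lit 5) (nat_lit 232) (nat_lit 5) (nat_lit 233) (nat_lit 5) (nat_lit 248) (nat_lit 246) (nat_lit 226)) (XT.nd (nat_lit 78) (nat_lit 0) (nat_lit 0) (XT.lf (nat_lit 0) (nat_lit 130640621) (nat_lit 684) (nat_lit 2958094491) (nat_lit 760) (nat_lit 4043974760) (nat_lit 215) (nat_lit 5) (nat_lit 224) (nat_lit 5) (nat_lit 225) (nat_lit 5) (nat_lit 249) (nat_lit 246) (nat_lit 225)) (XT.lf (nat_lit 76) (nat_lit 2425363597) (nat_lit 0) (nat_lit 439389418) (nat_lit 760) (nat_lit 4369370177) (nat_lit 216) (nat_lit 5) (nat_lit 215) (nat_lit 5) (nat_lit 225) (nat_lit 5) (nat_lit 250) (nat_lit 246) (nat_lit 224))))))))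
noncomputable def xc62 : XT := (XT.nd (nat_lit 1638) (nat_lit 4256) (nat_lit 0) (XT.nd (nat_lit 780) (nat_lit 4560) (nat_lit 0) (XT.nd (nat_lit 390) (nat_lit 3876) (nat_lit 0) (XT.nd (nat_lit 156) (nat_lit 684) (nat_lit 0) (XT.nd (nat_lit 78) (nat_lit 760) (nat_lit 0) (XT.lf (nat_lit 76) (nat_lit 687457711) (nat_lit 0) (nat_lit 4945635563) (nat_lit 760) (nat_lit 1711088595) (nat_lit 217) (nat_lit 5) (nat_lit 216) (nat_lit 5) (nat_lit 226) (nat_lit 5) (nat_lit 251) (nat_lit 246) (nat_lit 223)) (XT.lf (nat_lit 0) (nat_lit 955861305) (nat_lit 760) (nat_lit 1018485747) (nat_lit 836) (nat_lit 5488642671) (nat_lit 206) (nat_lit 5) (nat_lit 216) (nat_lit 5) (nat_lit 217) (nat_lit 5) (nat_lit 252) (nat_lit 246) (nat_lit 222))) (XT.nd (nat_lit 78) (nat_lit 760) (nat_lit 0) (XT.lf (nat_lit 0) (nat_lit 3630062981) (nat_lit 760) (nat_lit 2722207399) (nat_lit 836) (nat_lit 1238121201) (nat_lit 207) (nat_lit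 5) (nat_lit 217) (nat_lit 5) (nat_lit 218) (nat_lit 5) (nat_lit 253) (nat_lit 246) (nat_lit 221)) (XT.nd (nat_lit 78) (nat_lit 760) (nat_lit 0) (XT.lf (nat_lit 76) (nat_lit 3289474489) (nat_lit 0) (nat_lit 3067227540) (nat_lit 836) (nat_lit 1370319324) (nat_lit 208) (nat_lit 5) (nat_lit 207) (nat_lit 5) (nat_lit 218) (nat_lit 5) (nat_lit 254) (nat_lit 246) (nat_lit 220)) (XT.lf (nat_lit 0) (nat_lit 1232903537) (nat_lit 836) (nat_lit 6170429154) (nat_lit 76) (nat_lit 469847641) (nat_lit 197) (nat_lit 5) (nat_lit 208) (nat_lit 5) (nat_lit 198) (nat_lit 5) (nat_lit 255) (nat_lit 246) (nat_lit 219))))) (XT.nd (nat_lit 156) (nat_lit 3040) (nat_lit 0) (XT.nd (nat_lit 78) (nat_lit 0) (nat_lit 0) (XT.lf (nat_lit 0) (nat_lit 70285247) (nat_lit 836) (nat_lit 3812432882) (nat_lit 912) (nat_lit 4145548517) (nat_lit 186) (nat_lit 5) (nat_lit 197) (nat_lit 5) (nat_lit 198) (nat_lit 5) (nat_lit 256) (nat_lit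 246) (nat_lit 218)) (XT.lf (nat_lit 0) (nat_lit 6601153207) (nat_lit 912) (nat_lit 1542301052) (nat_lit 76) (nat_lit 49921067) (nat_lit 186) (nat_lit 5) (nat_lit 198) (nat_lit 5) (nat_lit 187) (nat_lit 5) (nat_lit 257) (nat_lit 246) (nat_lit 217))) (XT.nd (nat_lit 78) (nat_lit 2052) (nat_lit 0) (XT.lf (nat_lit 0) (nat_lit 1033373459) (nat_lit 988) (nat_lit 3221766410) (nat_lit 76) (nat_lit 4112635554) (nat_lit 173) (nat_lit 5) (nat_lit 186) (nat_lit 5) (nat_lit 174) (nat_lit 5) (nat_lit 258) (nat_lit 246) (nat_lit 216)) (XT.nd (nat_lit 78) (nat_lit 1064) (nat_lit 0) (XT.lf (nat_lit 0) (nat_lit 3605004532) (nat_lit 988) (nat_lit 85157206) (nat_lit 1064) (nat_lit 4862585498) (nat_lit 160) (nat_lit 5) (nat_lit 173) (nat_lit 5) (nat_lit 174) (nat_lit 5) (nat_lit 259) (nat_lit 246) (nat_lit 215)) (XT.lf (nat_lit 0) (nat_lit 1991059781) (nat_lit 1064) (nat_lit 4469337472) (nat_lit 1140) (nat_lit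 2287447317) (nat_lit 146) (nat_lit 5) (nat_lit 160) (nat_lit 5) (nat_lit 161) (nat_lit 5) (nat_lit 260) (nat_lit 246) (nat_lit 214)))))) (XT.nd (nat_lit 390) (nat_lit 2204) (nat_lit 0) (XT.nd (nat_lit 156) (nat_lit 1596) (nat_lit 0) (XT.nd (nat_lit 78) (nat_lit 0) (nat_lit 0) (XT.lf (nat_lit 0) (nat_lit 329854712) (nat_lit 684) (nat_lit 23740610) (nat_lit 760) (nat_lit 8600896060) (nat_lit 136) (nat_lit 5) (nat_lit 145) (nat_lit 5) (nat_lit 146) (nat_lit 5) (nat_lit 261) (nat_lit 246) (nat_lit 213)) (XT.lf (nat_lit 0) (nat_lit 3088907931) (nat_lit 760) (nat_lit 1426666137) (nat_lit 76) (nat_lit 4655191180) (nat_lit 136) (nat_lit 5) (nat_lit 146) (nat_lit 5) (nat_lit 137) (nat_lit 5) (nat_lit 262) (nat_lit 246) (nat_lit 212))) (XT.nd (nat_lit 78) (nat_lit 1064) (nat_lit 0) (XT.lf (nat_lit 0) (nat_lit 5921891695) (nat_lit 608) (nat_lit 3246616744) (nat_lit 76) (nat_lit 230764751) (nat_lit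 129) (nat_lit 5) (nat_lit 137) (nat_lit 5) (nat_lit 130) (nat_lit 5) (nat_lit 263) (nat_lit 246) (nat_lit 211)) (XT.nd (nat_lit 78) (nat_lit 532) (nat_lit 0) (XT.lf (nat_lit 0) (nat_lit 4446534144) (nat_lit 532) (nat_lit 4456314798) (nat_lit 608) (nat_lit 736403620) (nat_lit 122) (nat_lit 5) (nat_lit 129) (nat_lit 5) (nat_lit 130) (nat_lit 5) (nat_lit 264) (nat_lit 246) (nat_lit 210)) (XT.lf (nat_lit 0) (nat_lit 2070168508) (nat_lit 532) (nat_lit 7260723768) (nat_lit 76) (nat_lit 560828939) (nat_lit 115) (nat_lit 5) (nat_lit 122) (nat_lit 5) (nat_lit 116) (nat_lit 5) (nat_lit 265) (nat_lit 246) (nat_lit 209))))) (XT.nd (nat_lit 234) (nat_lit 1216) (nat_lit 0) (XT.nd (nat_lit 78) (nat_lit 532) (nat_lit 0) (XT.lf (nat_lit 0) (nat_lit 663214147) (nat_lit 456) (nat_lit 4353415474) (nat_lit 532) (nat_lit 5139728850) (nat_lit 109) (nat_lit 5) (nat_lit 115) (nat_lit 5) (nat_lit 116) (nat_lit 5)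 (nat_lit 266) (nat_lit 246) (nat_lit 208)) (XT.nd (nat_lit 78) (nat_lit 532) (nat_lit 0) (XT.lf (nat_lit 0) (nat_lit 8106963781) (nat_lit 532) (nat_lit 1402035532) (nat_lit 76) (nat_lit 925529503) (nat_lit 109) (nat_lit 5) (nat_lit 116) (nat_lit 5) (nat_lit 110) (nat_lit 5) (nat_lit 267) (nat_lit 246) (nat_lit 207)) (XT.lf (nat_lit 0) (nat_lit 642102016) (nat_lit 532) (nat_lit 3635474125) (nat_lit 76) (nat_lit 6448161218) (nat_lit 102) (nat_lit 5) (nat_lit 109) (nat_lit 5) (nat_lit 103) (nat_lit 5) (nat_lit 268) (nat_lit 246) (nat_lit 206)))) (XT.nd (nat_lit 78) (nat_lit 760) (nat_lit 0) (XT.lf (nat_lit 0) (nat_lit 3706506159) (nat_lit 532) (nat_lit 6055453908) (nat_lit 76) (nat_lit 1269197284) (nat_lit 96) (nat_lit 5) (nat_lit 103) (nat_lit 5) (nat_lit 97) (nat_lit 5) (nat_lit 269) (nat_lit 246) (nat_lit 205)) (XT.nd (nat_lit 78) (nat_lit 380) (nat_lit 0) (XT.lf (nat_lit 0) (nat_lit 2660654618)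 (nat_lit 380) (nat_lit 4291909999) (nat_lit 456) (nat_lit 4398596533) (nat_lit 91) (nat_lit 5) (nat_lit 96) (nat_lit 5) (nat_lit 97) (nat_lit 5) (nat_lit 270) (nat_lit 246) (nat_lit 204)) (XT.lf (nat_lit 0) (nat_lit 152104674) (nat_lit 380) (nat_lit 10211833941) (nat_lit 456) (nat_lit 1323294078) (nat_lit 86) (nat_lit 5) (nat_lit 91) (nat_lit 5) (nat_lit 92) (nat_lit 5) (nat_lit 271) (nat_lit 246) (nat_lit 203))))))) (XT.nd (nat_lit 780) (nat_lit 1824) (nat_lit 0) (XT.nd (nat_lit 390) (nat_lit 1216) (nat_lit 0) (XT.nd (nat_lit 156) (nat_lit 760) (nat_lit 0) (XT.nd (nat_lit 78) (nat_lit 380) (nat_lit 0) (XT.lf (nat_lit 0) (nat_lit 1928775490) (nat_lit 456) (nat_lit 2570628310) (nat_lit 76) (nat_lit 7538494746) (nat_lit 85) (nat_lit 5) (nat_lit 91) (nat_lit 5) (nat_lit 86) (nat_lit 5) (nat_lit 272) (nat_lit 246) (nat_lit 202)) (XT.lf (nat_lit 0) (nat_lit 5327524032) (nat_lit 456) (nat_lit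 5542933303) (nat_lit 76) (nat_lit 1535043079) (nat_lit 80) (nat_lit 5) (nat_lit 86) (nat_lit 5) (nat_lit 81) (nat_lit 5) (nat_lit 273) (nat_lit 246) (nat_lit 201))) (XT.nd (nat_lit 78) (nat_lit 380) (nat_lit 0) (XT.lf (nat_lit 0) (nat_lit 3977934811) (nat_lit 380) (nat_lit 4961069927) (nat_lit 456) (nat_lit 3851326250) (nat_lit 75) (nat_lit 5) (nat_lit 80) (nat_lit 5) (nat_lit 81) (nat_lit 5) (nat_lit 274) (nat_lit 246) (nat_lit 200)) (XT.nd (nat_lit 78) (nat_lit 76) (nat_lit 0) (XT.lf (nat_lit 0) (nat_lit 817453558) (nat_lit 304) (nat_lit 11925729969) (nat_lit 380) (nat_lit 450981989) (nat_lit 71) (nat_lit 5) (nat_lit 75) (nat_lit 5) (nat_lit 76) (nat_lit 5) (nat_lit 275) (nat_lit 246) (nat_lit 199)) (XT.lf (nat_lit 0) (nat_lit 3136466848) (nat_lit 380) (nat_lit 2666419349) (nat_lit 76) (nat_lit 7812183923) (nat_lit 70) (nat_lit 5) (nat_lit 75) (nat_lit 5) (nat_lit 71) (nat_lit 5) (nat_lit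 276) (nat_lit 246) (nat_lit 198))))) (XT.nd (nat_lit 156) (nat_lit 608) (nat_lit 0) (XT.nd (nat_lit 78) (nat_lit 304) (nat_lit 0) (XT.lf (nat_lit 0) (nat_lit 6912961840) (nat_lit 380) (nat_lit 6469204427) (nat_lit 76) (nat_lit 674260797) (nat_lit 66) (nat_lit 5) (nat_lit 71) (nat_lit 5) (nat_lit 67) (nat_lit 5) (nat_lit 277) (nat_lit 246) (nat_lit 197)) (XT.lf (nat_lit 0) (nat_lit 3827674094) (nat_lit 304) (nat_lit 7114974581) (nat_lit 380) (nat_lit 3575377965) (nat_lit 62) (nat_lit 5) (nat_lit 66) (nat_lit 5) (nat_lit 67) (nat_lit 5) (nat_lit 278) (nat_lit 246) (nat_lit 196))) (XT.nd (nat_lit 78) (nat_lit 532) (nat_lit 0) (XT.lf (nat_lit 0) (nat_lit 177715899) (nat_lit 380) (nat_lit 305833945) (nat_lit 76) (nat_lit 14518906591) (nat_lit 61) (nat_lit 5) (nat_lit 66) (nat_lit 5) (nat_lit 62) (nat_lit 5) (nat_lit 279) (nat_lit 246) (nat_lit 195)) (XT.nd (nat_lit 78) (nat_lit 228) (nat_lit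 0) (XT.lf (nat_lit 0) (nat_lit 4156924263) (nat_lit 380) (nat_lit 4875308908) (nat_lit 76) (nat_lit 6474533597) (nat_lit 57) (nat_lit 5) (nat_lit 62) (nat_lit 5) (nat_lit 58) (nat_lit 5) (nat_lit 280) (nat_lit 246) (nat_lit 194)) (XT.lf (nat_lit 0) (nat_lit 6127369330) (nat_lit 228) (nat_lit 2221829045) (nat_lit 304) (nat_lit 7686759812) (nat_lit 54) (nat_lit 5) (nat_lit 57) (nat_lit 5) (nat_lit 58) (nat_lit 5) (nat_lit 281) (nat_lit 246) (nat_lit 193)))))) (XT.nd (nat_lit 390) (nat_lit 988) (nat_lit 0) (XT.nd (nat_lit 156) (nat_lit 456) (nat_lit 0) (XT.nd (nat_lit 78) (nat_lit 76) (nat_lit 0) (XT.lf (nat_lit 0) (nat_lit 1092986295) (nat_lit 304) (nat_lit 11715459379) (nat_lit 380) (nat_lit 3781527224) (nat_lit 50) (nat_lit 5) (nat_lit 54) (nat_lit 5) (nat_lit 55) (nat_lit 5) (nat_lit 282) (nat_lit 246) (nat_lit 192)) (XT.lf (nat_lit 0) (nat_lit 388159953) (nat_lit 380) (nat_lit 4414847858)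 (nat_lit 76) (nat_lit 12366404170) (nat_lit 49) (nat_lit 5) (nat_lit 54) (nat_lit 5) (nat_lit 50) (nat_lit 5) (nat_lit 283) (nat_lit 246) (nat_lit 191))) (XT.nd (nat_lit 78) (nat_lit 228) (nat_lit 0) (XT.lf (nat_lit 0) (nat_lit 4735443383) (nat_lit 304) (nat_lit 10543742141) (nat_lit 76) (nat_lit 2496169095) (nat_lit 46) (nat_lit 5) (nat_lit 50) (nat_lit 5) (nat_lit 47) (nat_lit 5) (nat_lit 284) (nat_lit 246) (nat_lit 190)) (XT.nd (nat_lit 78) (nat_lit 0) (nat_lit 0) (XT.lf (nat_lit 0) (nat_lit 1046590941) (nat_lit 228) (nat_lit 8311739260) (nat_lit 304) (nat_lit 9051587884) (nat_lit 43) (nat_lit 5) (nat_lit 46) (nat_lit 5) (nat_lit 47) (nat_lit 5) (nat_lit 285) (nat_lit 246) (nat_lit 189)) (XT.lf (nat_lit 0) (nat_lit 13371377653) (nat_lit 228) (nat_lit 904897303) (nat_lit 304) (nat_lit 4798084856) (nat_lit 43) (nat_lit 5) (nat_lit 46) (nat_lit 5) (nat_lit 47) (nat_lit 5) (nat_lit 286) (nat_lit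 246) (nat_lit 188))))) (XT.nd (nat_lit 234) (nat_lit 456) (nat_lit 0) (XT.nd (nat_lit 78) (nat_lit 304) (nat_lit 0) (XT.lf (nat_lit 0) (nat_lit 6538477455) (nat_lit 228) (nat_lit 12987861876) (nat_lit 304) (nat_lit 243161905) (nat_lit 40) (nat_lit 5) (nat_lit 43) (nat_lit 5) (nat_lit 44) (nat_lit 5) (nat_lit 287) (nat_lit 246) (nat_lit 187)) (XT.nd (nat_lit 78) (nat_lit 228) (nat_lit 0) (XT.lf (nat_lit 0) (nat_lit 4477628907) (nat_lit 304) (nat_lit 1102306744) (nat_lit 76) (nat_lit 14917413309) (nat_lit 39) (nat_lit 5) (nat_lit 43) (nat_lit 5) (nat_lit 40) (nat_lit 5) (nat_lit 288) (nat_lit 246) (nat_lit 186)) (XT.lf (nat_lit 0) (nat_lit 9525274972) (nat_lit 304) (nat_lit 9480301840) (nat_lit 76) (nat_lit 2253121299) (nat_lit 36) (nat_lit 5) (nat_lit 40) (nat_lit 5) (nat_lit 37) (nat_lit 5) (nat_lit 289) (nat_lit 246) (nat_lit 185)))) (XT.nd (nat_lit 78) (nat_lit 304) (nat_lit 0) (XT.lf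 (nat_lit 0) (nat_lit 3215877346) (nat_lit 152) (nat_lit 11669536328) (nat_lit 228) (nat_lit 7170951649) (nat_lit 34) (nat_lit 5) (nat_lit 36) (nat_lit 5) (nat_lit 37) (nat_lit 5) (nat_lit 290) (nat_lit 246) (nat_lit 184)) (XT.nd (nat_lit 78) (nat_lit 304) (nat_lit 0) (XT.lf (nat_lit 0) (nat_lit 16687823411) (nat_lit 152) (nat_lit 3886033177) (nat_lit 228) (nat_lit 2318301733) (nat_lit 34) (nat_lit 5) (nat_lit 36) (nat_lit 5) (nat_lit 37) (nat_lit 5) (nat_lit 291) (nat_lit 246) (nat_lit 183)) (XT.lf (nat_lit 0) (nat_lit 2797285003) (nat_lit 304) (nat_lit 16689285489) (nat_lit 76) (nat_lit 4280182336) (nat_lit 30) (nat_lit 5) (nat_lit 34) (nat_lit 5) (nat_lit 31) (nat_lit 5) (nat_lit 292) (nat_lit 246) (nat_lit 182))))))))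
noncomputable def xc63 : XT := (XT.nd (nat_lit 1638) (nat_lit 456) (nat_lit 0) (XT.nd (nat_lit 780) (nat_lit 532) (nat_lit 0) (XT.nd (nat_lit 390) (nat_lit 456) (nat_lit 0) (XT.nd (nat_lit 156) (nat_lit 228) (nat_lit 0) (XT.nd (nat_lit 78) (nat_lit 152) (nat_lit 0) (XT.lf (nat_lit 0) (nat_lit 8189969616) (nat_lit 304) (nat_lit 3647919669) (nat_lit 76) (nat_lit 12844466449) (nat_lit 30) (nat_lit 5) (nat_lit 34) (nat_lit 5) (nat_lit 31) (nat_lit 5) (nat_lit 293) (nat_lit 246) (nat_lit 181)) (XT.lf (nat_lit 0) (nat_lit 10192486086) (nat_lit 152) (nat_lit 3724536587) (nat_lit 228) (nat_lit 11724817147) (nat_lit 28) (nat_lit 5) (nat_lit 30) (nat_lit 5) (nat_lit 31) (nat_lit 5) (nat_lit 294) (nat_lit 246) (nat_lit 180))) (XT.nd (nat_lit 78) (nat_lit 228) (nat_lit 0) (XT.lf (nat_lit 0) (nat_lit 19982119993) (nat_lit 228) (nat_lit 1944749658) (nat_lit 76) (nat_lit 4720918724) (nat_lit 28) (nat_lit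 5) (nat_lit 31) (nat_lit 5) (nat_lit 29) (nat_lit 5) (nat_lit 295) (nat_lit 246) (nat_lit 179)) (XT.nd (nat_lit 78) (nat_lit 76) (nat_lit 0) (XT.lf (nat_lit 0) (nat_lit 12390453670) (nat_lit 152) (nat_lit 14085935000) (nat_lit 228) (nat_lit 1223907252) (nat_lit 26) (nat_lit 5) (nat_lit 28) (nat_lit 5) (nat_lit 29) (nat_lit 5) (nat_lit 296) (nat_lit 246) (nat_lit 178)) (XT.lf (nat_lit 0) (nat_lit 4392442586) (nat_lit 228) (nat_lit 1413186282) (nat_lit 76) (nat_lit 22998837822) (nat_lit 25) (nat_lit 5) (nat_lit 28) (nat_lit 5) (nat_lit 26) (nat_lit 5) (nat_lit 297) (nat_lit 246) (nat_lit 177))))) (XT.nd (nat_lit 156) (nat_lit 304) (nat_lit 0) (XT.nd (nat_lit 78) (nat_lit 0) (nat_lit 0) (XT.lf (nat_lit 0) (nat_lit 10393492869) (nat_lit 228) (nat_lit 16608211781) (nat_lit 76) (nat_lit 2957936349) (nat_lit 23) (nat_lit 5) (nat_lit 26) (nat_lit 5) (nat_lit 24) (nat_lit 5) (nat_lit 298) (nat_lit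 246) (nat_lit 176)) (XT.lf (nat_lit 0) (nat_lit 16739993216) (nat_lit 228) (nat_lit 2392232349) (nat_lit 76) (nat_lit 12039019289) (nat_lit 23) (nat_lit 5) (nat_lit 26) (nat_lit 5) (nat_lit 24) (nat_lit 5) (nat_lit 299) (nat_lit 246) (nat_lit 175))) (XT.nd (nat_lit 78) (nat_lit 152) (nat_lit 0) (XT.lf (nat_lit 0) (nat_lit 12740142574) (nat_lit 152) (nat_lit 10759578614) (nat_lit 228) (nat_lit 8940861833) (nat_lit 21) (nat_lit 5) (nat_lit 23) (nat_lit 5) (nat_lit 24) (nat_lit 5) (nat_lit 300) (nat_lit 246) (nat_lit 174)) (XT.nd (nat_lit 78) (nat_lit 152) (nat_lit 0) (XT.lf (nat_lit 0) (nat_lit 28637350174) (nat_lit 152) (nat_lit 1959011212) (nat_lit 228) (nat_lit 3177088649) (nat_lit 21) (nat_lit 5) (nat_lit 23) (nat_lit 5) (nat_lit 24) (nat_lit 5) (nat_lit 301) (nat_lit 246) (nat_lit 173)) (XT.lf (nat_lit 0) (nat_lit 2964033067) (nat_lit 152) (nat_lit 24951735702) (nat_lit 76) (nat_lit 7252032281)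 (nat_lit 19) (nat_lit 5) (nat_lit 21) (nat_lit 5) (nat_lit 20) (nat_lit 5) (nat_lit 302) (nat_lit 246) (nat_lit 172)))))) (XT.nd (nat_lit 390) (nat_lit 304) (nat_lit 0) (XT.nd (nat_lit 156) (nat_lit 76) (nat_lit 0) (XT.nd (nat_lit 78) (nat_lit 152) (nat_lit 0) (XT.lf (nat_lit 0) (nat_lit 9396191975) (nat_lit 152) (nat_lit 10279228857) (nat_lit 76) (nat_lit 16954040614) (nat_lit 19) (nat_lit 5) (nat_lit 21) (nat_lit 5) (nat_lit 20) (nat_lit 5) (nat_lit 303) (nat_lit 246) (nat_lit 171)) (XT.lf (nat_lit 0) (nat_lit 5190327983) (nat_lit 152) (nat_lit 10986580115) (nat_lit 228) (nat_lit 21986513204) (nat_lit 17) (nat_lit 5) (nat_lit 19) (nat_lit 5) (nat_lit 20) (nat_lit 5) (nat_lit 304) (nat_lit 246) (nat_lit 170))) (XT.nd (nat_lit 78) (nat_lit 76) (nat_lit 0) (XT.lf (nat_lit 0) (nat_lit 21611396149) (nat_lit 152) (nat_lit 1768875198) (nat_lit 228) (nat_lit 16391323198) (nat_lit 17) (nat_lit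 5) (nat_lit 19) (nat_lit 5) (nat_lit 20) (nat_lit 5) (nat_lit 305) (nat_lit 246) (nat_lit 169)) (XT.nd (nat_lit 78) (nat_lit 76) (nat_lit 0) (XT.lf (nat_lit 0) (nat_lit 30998555483) (nat_lit 228) (nat_lit 2718236500) (nat_lit 76) (nat_lit 7741764487) (nat_lit 17) (nat_lit 5) (nat_lit 20) (nat_lit 5) (nat_lit 18) (nat_lit 4) (nat_lit 306) (nat_lit 246) (nat_lit 168)) (XT.lf (nat_lit 0) (nat_lit 13711681961) (nat_lit 76) (nat_lit 25415463679) (nat_lit 152) (nat_lit 4098860622) (nat_lit 16) (nat_lit 5) (nat_lit 17) (nat_lit 5) (nat_lit 18) (nat_lit 4) (nat_lit 307) (nat_lit 246) (nat_lit 167))))) (XT.nd (nat_lit 234) (nat_lit 76) (nat_lit 0) (XT.nd (nat_lit 78) (nat_lit 152) (nat_lit 0) (XT.lf (nat_lit 0) (nat_lit 2538411719) (nat_lit 152) (nat_lit 14119466806) (nat_lit 76) (nat_lit 28422973011) (nat_lit 15) (nat_lit 5) (nat_lit 17) (nat_lit 5) (nat_lit 16) (nat_lit 5) (nat_lit 308) (nat_lit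 246) (nat_lit 166)) (XT.nd (nat_lit 78) (nat_lit 0) (nat_lit 0) (XT.lf (nat_lit 0) (nat_lit 2011299625) (nat_lit 152) (nat_lit 7412711306) (nat_lit 228) (nat_lit 37603192595) (nat_lit 13) (nat_lit 5) (nat_lit 15) (nat_lit 5) (nat_lit 16) (nat_lit 5) (nat_lit 309) (nat_lit 246) (nat_lit 165)) (XT.lf (nat_lit 0) (nat_lit 16804329973) (nat_lit 228) (nat_lit 29877598391) (nat_lit 76) (nat_lit 2384449609) (nat_lit 13) (nat_lit 5) (nat_lit 16) (nat_lit 5) (nat_lit 14) (nat_lit 4) (nat_lit 310) (nat_lit 246) (nat_lit 164)))) (XT.nd (nat_lit 78) (nat_lit 76) (nat_lit 0) (XT.lf (nat_lit 0) (nat_lit 24610954816) (nat_lit 228) (nat_lit 14086956016) (nat_lit 76) (nat_lit 12507898809) (nat_lit 13) (nat_lit 5) (nat_lit 16) (nat_lit 5) (nat_lit 14) (nat_lit 4) (nat_lit 311) (nat_lit 246) (nat_lit 163)) (XT.nd (nat_lit 78) (nat_lit 0) (nat_lit 0) (XT.lf (nat_lit 0) (nat_lit 2513931363) (nat_lit 76) (nat_lit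 30301451228) (nat_lit 152) (nat_lit 20636622525) (nat_lit 12) (nat_lit 5) (nat_lit 13) (nat_lit 5) (nat_lit 14) (nat_lit 4) (nat_lit 312) (nat_lit 246) (nat_lit 162)) (XT.lf (nat_lit 0) (nat_lit 20211708535) (nat_lit 76) (nat_lit 21347172547) (nat_lit 152) (nat_lit 14247779398) (nat_lit 12) (nat_lit 5) (nat_lit 13) (nat_lit 5) (nat_lit 14) (nat_lit 4) (nat_lit 313) (nat_lit 246) (nat_lit 161))))))) (XT.nd (nat_lit 858) (nat_lit 76) (nat_lit 0) (XT.nd (nat_lit 390) (nat_lit 152) (nat_lit 0) (XT.nd (nat_lit 156) (nat_lit 228) (nat_lit 0) (XT.nd (nat_lit 78) (nat_lit 0) (nat_lit 0) (XT.lf (nat_lit 0) (nat_lit 38768155018) (nat_lit 76) (nat_lit 11956005714) (nat_lit 152) (nat_lit 7555364545) (nat_lit 12) (nat_lit 5) (nat_lit 13) (nat_lit 5) (nat_lit 14) (nat_lit 4) (nat_lit 314) (nat_lit 246) (nat_lit 160)) (XT.lf (nat_lit 0) (nat_lit 58227452829) (nat_lit 76) (nat_lit 2105590806) (nat_lit 152)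 (nat_lit 543443648) (nat_lit 12) (nat_lit 5) (nat_lit 13) (nat_lit 5) (nat_lit 14) (nat_lit 4) (nat_lit 315) (nat_lit 246) (nat_lit 159))) (XT.nd (nat_lit 78) (nat_lit 0) (nat_lit 0) (XT.lf (nat_lit 0) (nat_lit 6899816271) (nat_lit 228) (nat_lit 48413892174) (nat_lit 76) (nat_lit 8281221319) (nat_lit 9) (nat_lit 5) (nat_lit 12) (nat_lit 5) (nat_lit 10) (nat_lit 4) (nat_lit 316) (nat_lit 246) (nat_lit 158)) (XT.nd (nat_lit 78) (nat_lit 0) (nat_lit 0) (XT.lf (nat_lit 0) (nat_lit 14739135944) (nat_lit 228) (nat_lit 32541228143) (nat_lit 76) (nat_lit 19167727239) (nat_lit 9) (nat_lit 5) (nat_lit 12) (nat_lit 5) (nat_lit 10) (nat_lit 4) (nat_lit 317) (nat_lit 246) (nat_lit 157)) (XT.lf (nat_lit 0) (nat_lit 22957316670) (nat_lit 228) (nat_lit 15897516417) (nat_lit 76) (nat_lit 30589482891) (nat_lit 9) (nat_lit 5) (nat_lit 12) (nat_lit 5) (nat_lit 10) (nat_lit 4) (nat_lit 318) (nat_lit 246) (nat_lit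 156))))) (XT.nd (nat_lit 234) (nat_lit 76) (nat_lit 0) (XT.nd (nat_lit 78) (nat_lit 0) (nat_lit 0) (XT.lf (nat_lit 0) (nat_lit 1587855670) (nat_lit 76) (nat_lit 30001333315) (nat_lit 152) (nat_lit 41001090699) (nat_lit 8) (nat_lit 5) (nat_lit 9) (nat_lit 5) (nat_lit 10) (nat_lit 4) (nat_lit 319) (nat_lit 246) (nat_lit 155)) (XT.nd (nat_lit 78) (nat_lit 0) (nat_lit 0) (XT.lf (nat_lit 0) (nat_lit 20258814271) (nat_lit 76) (nat_lit 20545404150) (nat_lit 152) (nat_lit 35084787009) (nat_lit 8) (nat_lit 5) (nat_lit 9) (nat_lit 5) (nat_lit 10) (nat_lit 4) (nat_lit 320) (nat_lit 246) (nat_lit 154)) (XT.lf (nat_lit 0) (nat_lit 39843422301) (nat_lit 76) (nat_lit 10625065220) (nat_lit 152) (nat_lit 28884535546) (nat_lit 8) (nat_lit 5) (nat_lit 9) (nat_lit 5) (nat_lit 10) (nat_lit 4) (nat_lit 321) (nat_lit 246) (nat_lit 153)))) (XT.nd (nat_lit 78) (nat_lit 76) (nat_lit 0) (XT.lf (nat_lit 0) (nat_lit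 60388309778) (nat_lit 76) (nat_lit 216696671) (nat_lit 152) (nat_lit 22385573806) (nat_lit 8) (nat_lit 5) (nat_lit 9) (nat_lit 5) (nat_lit 10) (nat_lit 4) (nat_lit 322) (nat_lit 246) (nat_lit 152)) (XT.nd (nat_lit 78) (nat_lit 76) (nat_lit 0) (XT.lf (nat_lit 0) (nat_lit 71340807815) (nat_lit 152) (nat_lit 4970842784) (nat_lit 0) (nat_lit 10495600302) (nat_lit 8) (nat_lit 5) (nat_lit 10) (nat_lit 4) (nat_lit 8) (nat_lit 4) (nat_lit 323) (nat_lit 246) (nat_lit 151)) (XT.lf (nat_lit 0) (nat_lit 13791667615) (nat_lit 76) (nat_lit 68946478777) (nat_lit 76) (nat_lit 8072875125) (nat_lit 7) (nat_lit 4) (nat_lit 8) (nat_lit 5) (nat_lit 8) (nat_lit 4) (nat_lit 324) (nat_lit 246) (nat_lit 150)))))) (XT.nd (nat_lit 31512) (nat_lit 0) (nat_lit 15124) (XT.nd (nat_lit 156) (nat_lit 0) (nat_lit 0) (XT.nd (nat_lit 78) (nat_lit 76) (nat_lit 0) (XT.lf (nat_lit 0) (nat_lit 33579252445) (nat_lit 76) (nat_lit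 61167570063) (nat_lit 76) (nat_lit 266922470) (nat_lit 7) (nat_lit 4) (nat_lit 8) (nat_lit 5) (nat_lit 8) (nat_lit 4) (nat_lit 325) (nat_lit 246) (nat_lit 149)) (XT.lf (nat_lit 0) (nat_lit 7765260798) (nat_lit 152) (nat_lit 45162924306) (nat_lit 76) (nat_lit 46496420775) (nat_lit 6) (nat_lit 5) (nat_lit 8) (nat_lit 5) (nat_lit 7) (nat_lit 4) (nat_lit 326) (nat_lit 246) (nat_lit 148))) (XT.nd (nat_lit 78) (nat_lit 0) (nat_lit 0) (XT.lf (nat_lit 0) (nat_lit 16184691541) (nat_lit 152) (nat_lit 28096009550) (nat_lit 76) (nat_lit 59775502114) (nat_lit 6) (nat_lit 5) (nat_lit 8) (nat_lit 5) (nat_lit 7) (nat_lit 4) (nat_lit 327) (nat_lit 246) (nat_lit 147)) (XT.nd (nat_lit 31200) (nat_lit 0) (nat_lit 16492) (XT.lf (nat_lit 0) (nat_lit 25016624640) (nat_lit 152) (nat_lit 10190546934) (nat_lit 76) (nat_lit 73712469970) (nat_lit 6) (nat_lit 5) (nat_lit 8) (nat_lit 5) (nat_lit 7) (nat_lit 4) (nat_lit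 328) (nat_lit 246) (nat_lit 146)) (XT.lf (nat_lit 0) (nat_lit 2132681496) (nat_lit 684) (nat_lit 692397025) (nat_lit 684) (nat_lit 692397025) (nat_lit 223) (nat_lit 3) (nat_lit 232) (nat_lit 3) (nat_lit 232) (nat_lit 5) (nat_lit 247) (nat_lit 247) (nat_lit 226))))) (XT.nd (nat_lit 234) (nat_lit 684) (nat_lit 0) (XT.nd (nat_lit 78) (nat_lit 684) (nat_lit 0) (XT.lf (nat_lit 76) (nat_lit 3690117079) (nat_lit 0) (nat_lit 3325575451) (nat_lit 684) (nat_lit 107367839) (nat_lit 224) (nat_lit 5) (nat_lit 223) (nat_lit 3) (nat_lit 232) (nat_lit 5) (nat_lit 248) (nat_lit 247) (nat_lit 225)) (XT.nd (nat_lit 78) (nat_lit 0) (nat_lit 76) (XT.lf (nat_lit 76) (nat_lit 1748831265) (nat_lit 0) (nat_lit 747890990) (nat_lit 760) (nat_lit 4722766762) (nat_lit 215) (nat_lit 5) (nat_lit 214) (nat_lit 5) (nat_lit 224) (nat_lit 5) (nat_lit 249) (nat_lit 247) (nat_lit 224)) (XT.lf (nat_lit 0) (nat_lit 5121281287)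 (nat_lit 684) (nat_lit 173843305) (nat_lit 760) (nat_lit 2029308422) (nat_lit 215) (nat_lit 5) (nat_lit 224) (nat_lit 5) (nat_lit 225) (nat_lit 5) (nat_lit 250) (nat_lit 247) (nat_lit 223)))) (XT.nd (nat_lit 78) (nat_lit 0) (nat_lit 76) (XT.lf (nat_lit 0) (nat_lit 337473512) (nat_lit 760) (nat_lit 2046519173) (nat_lit 836) (nat_lit 5053856695) (nat_lit 205) (nat_lit 5) (nat_lit 215) (nat_lit 5) (nat_lit 216) (nat_lit 5) (nat_lit 251) (nat_lit 247) (nat_lit 222)) (XT.nd (nat_lit 78) (nat_lit 0) (nat_lit 0) (XT.lf (nat_lit 0) (nat_lit 2854639664) (nat_lit 760) (nat_lit 3929061690) (nat_lit 836) (nat_lit 776169204) (nat_lit 206) (nat_lit 5) (nat_lit 216) (nat_lit 5) (nat_lit 217) (nat_lit 5) (nat_lit 252) (nat_lit 247) (nat_lit 221)) (XT.lf (nat_lit 76) (nat_lit 1865301326) (nat_lit 0) (nat_lit 3552686998) (nat_lit 836) (nat_lit 2272814385) (nat_lit 207) (nat_lit 5) (nat_lit 206) (nat_lit 5)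 (nat_lit 217) (nat_lit 5) (nat_lit 253) (nat_lit 247) (nat_lit 220))))))))
noncomputable def xc64 : XT := (XT.nd (nat_lit 1638) (nat_lit 3952) (nat_lit 0) (XT.nd (nat_lit 780) (nat_lit 3724) (nat_lit 0) (XT.nd (nat_lit 390) (nat_lit 3344) (nat_lit 0) (XT.nd (nat_lit 156) (nat_lit 1672) (nat_lit 0) (XT.nd (nat_lit 78) (nat_lit 0) (nat_lit 76) (XT.lf (nat_lit 76) (nat_lit 108754831) (nat_lit 0) (nat_lit 70106934) (nat_lit 912) (nat_lit 7652632825) (nat_lit 196) (nat_lit 5) (nat_lit 195) (nat_lit 5) (nat_lit 207) (nat_lit 5) (nat_lit 254) (nat_lit 247) (nat_lit 219)) (XT.lf (nat_lit 0) (nat_lit 2668945161) (nat_lit 836) (nat_lit 1670698116) (nat_lit 912) (nat_lit 3640387372) (nat_lit 196) (nat_lit 5) (nat_lit 207) (nat_lit 5) (nat_lit 208) (nat_lit 5) (nat_lit 255) (nat_lit 247) (nat_lit 218))) (XT.nd (nat_lit 78) (nat_lit 1748) (nat_lit 0) (XT.lf (nat_lit 76) (nat_lit 4682490859) (nat_lit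 0) (nat_lit 520429979) (nat_lit 912) (nat_lit 2935842973) (nat_lit 197) (nat_lit 5) (nat_lit 196) (nat_lit 5) (nat_lit 208) (nat_lit 5) (nat_lit 256) (nat_lit 247) (nat_lit 217)) (XT.nd (nat_lit 78) (nat_lit 988) (nat_lit 0) (XT.lf (nat_lit 0) (nat_lit 3014692010) (nat_lit 836) (nat_lit 4807926382) (nat_lit 912) (nat_lit 484379729) (nat_lit 186) (nat_lit 5) (nat_lit 197) (nat_lit 5) (nat_lit 198) (nat_lit 5) (nat_lit 257) (nat_lit 247) (nat_lit 216)) (XT.lf (nat_lit 0) (nat_lit 1304911839) (nat_lit 912) (nat_lit 680244856) (nat_lit 988) (nat_lit 6500106462) (nat_lit 173) (nat_lit 5) (nat_lit 185) (nat_lit 5) (nat_lit 186) (nat_lit 5) (nat_lit 258) (nat_lit 247) (nat_lit 215))))) (XT.nd (nat_lit 156) (nat_lit 2356) (nat_lit 0) (XT.nd (nat_lit 78) (nat_lit 988) (nat_lit 0) (XT.lf (nat_lit 0) (nat_lit 4545862444) (nat_lit 988) (nat_lit 463687314) (nat_lit 76) (nat_lit 3663711671) (nat_lit 173)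 (nat_lit 5) (nat_lit 186) (nat_lit 5) (nat_lit 174) (nat_lit 5) (nat_lit 259) (nat_lit 247) (nat_lit 214)) (XT.lf (nat_lit 0) (nat_lit 6620744827) (nat_lit 988) (nat_lit 577200808) (nat_lit 1064) (nat_lit 1674094826) (nat_lit 160) (nat_lit 5) (nat_lit 173) (nat_lit 5) (nat_lit 174) (nat_lit 5) (nat_lit 260) (nat_lit 247) (nat_lit 213))) (XT.nd (nat_lit 78) (nat_lit 1216) (nat_lit 0) (XT.lf (nat_lit 0) (nat_lit 872776717) (nat_lit 1140) (nat_lit 4135299544) (nat_lit 76) (nat_lit 4073026998) (nat_lit 145) (nat_lit 5) (nat_lit 160) (nat_lit 5) (nat_lit 146) (nat_lit 5) (nat_lit 261) (nat_lit 247) (nat_lit 212)) (XT.nd (nat_lit 78) (nat_lit 532) (nat_lit 0) (XT.lf (nat_lit 0) (nat_lit 3198417536) (nat_lit 684) (nat_lit 274300297) (nat_lit 760) (nat_lit 5828841192) (nat_lit 136) (nat_lit 5) (nat_lit 145) (nat_lit 5) (nat_lit 146) (nat_lit 5) (nat_lit 262) (nat_lit 247) (nat_lit 211)) (XT.lf (nat_lit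 0) (nat_lit 1342603526) (nat_lit 532) (nat_lit 4865127749) (nat_lit 608) (nat_lit 3325389808) (nat_lit 129) (nat_lit 5) (nat_lit 136) (nat_lit 5) (nat_lit 137) (nat_lit 5) (nat_lit 263) (nat_lit 247) (nat_lit 210)))))) (XT.nd (nat_lit 390) (nat_lit 1672) (nat_lit 0) (XT.nd (nat_lit 156) (nat_lit 1444) (nat_lit 0) (XT.nd (nat_lit 78) (nat_lit 608) (nat_lit 0) (XT.lf (nat_lit 0) (nat_lit 9054195637) (nat_lit 608) (nat_lit 582201387) (nat_lit 76) (nat_lit 140847746) (nat_lit 129) (nat_lit 5) (nat_lit 137) (nat_lit 5) (nat_lit 130) (nat_lit 5) (nat_lit 264) (nat_lit 247) (nat_lit 209)) (XT.lf (nat_lit 0) (nat_lit 2002863880) (nat_lit 608) (nat_lit 2637868868) (nat_lit 76) (nat_lit 5391490054) (nat_lit 121) (nat_lit 5) (nat_lit 129) (nat_lit 5) (nat_lit 122) (nat_lit 5) (nat_lit 265) (nat_lit 247) (nat_lit 208))) (XT.nd (nat_lit 78) (nat_lit 988) (nat_lit 0) (XT.lf (nat_lit 0) (nat_lit 4830090835)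 (nat_lit 532) (nat_lit 4812098597) (nat_lit 76) (nat_lit 658344103) (nat_lit 115) (nat_lit 5) (nat_lit 122) (nat_lit 5) (nat_lit 116) (nat_lit 5) (nat_lit 266) (nat_lit 247) (nat_lit 207)) (XT.nd (nat_lit 78) (nat_lit 532) (nat_lit 0) (XT.lf (nat_lit 0) (nat_lit 3427440505) (nat_lit 456) (nat_lit 4396191272) (nat_lit 532) (nat_lit 2758067760) (nat_lit 109) (nat_lit 5) (nat_lit 115) (nat_lit 5) (nat_lit 116) (nat_lit 5) (nat_lit 267) (nat_lit 247) (nat_lit 206)) (XT.lf (nat_lit 0) (nat_lit 81262724) (nat_lit 532) (nat_lit 9648275733) (nat_lit 76) (nat_lit 1147740823) (nat_lit 102) (nat_lit 5) (nat_lit 109) (nat_lit 5) (nat_lit 103) (nat_lit 5) (nat_lit 268) (nat_lit 247) (nat_lit 205))))) (XT.nd (nat_lit 234) (nat_lit 836) (nat_lit 0) (XT.nd (nat_lit 78) (nat_lit 836) (nat_lit 0) (XT.lf (nat_lit 0) (nat_lit 3047627587) (nat_lit 532) (nat_lit 1163711965) (nat_lit 76) (nat_lit 6974381792) (nat_lit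 102) (nat_lit 5) (nat_lit 109) (nat_lit 5) (nat_lit 103) (nat_lit 5) (nat_lit 269) (nat_lit 247) (nat_lit 204)) (XT.nd (nat_lit 78) (nat_lit 380) (nat_lit 0) (XT.lf (nat_lit 0) (nat_lit 6179817889) (nat_lit 532) (nat_lit 3710150841) (nat_lit 76) (nat_lit 1619249499) (nat_lit 96) (nat_lit 5) (nat_lit 103) (nat_lit 5) (nat_lit 97) (nat_lit 5) (nat_lit 270) (nat_lit 247) (nat_lit 203)) (XT.lf (nat_lit 0) (nat_lit 5365856551) (nat_lit 380) (nat_lit 4138096248) (nat_lit 456) (nat_lit 2344027516) (nat_lit 91) (nat_lit 5) (nat_lit 96) (nat_lit 5) (nat_lit 97) (nat_lit 5) (nat_lit 271) (nat_lit 247) (nat_lit 202)))) (XT.nd (nat_lit 78) (nat_lit 380) (nat_lit 0) (XT.lf (nat_lit 0) (nat_lit 789867858) (nat_lit 456) (nat_lit 9487707548) (nat_lit 76) (nat_lit 1925575735) (nat_lit 85) (nat_lit 5) (nat_lit 91) (nat_lit 5) (nat_lit 86) (nat_lit 5) (nat_lit 272) (nat_lit 247) (nat_lit 201)) (XT.nd (nat_lit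 78) (nat_lit 380) (nat_lit 0) (XT.lf (nat_lit 0) (nat_lit 4074941213) (nat_lit 456) (nat_lit 212663968) (nat_lit 76) (nat_lit 8286622694) (nat_lit 85) (nat_lit 5) (nat_lit 91) (nat_lit 5) (nat_lit 86) (nat_lit 5) (nat_lit 273) (nat_lit 247) (nat_lit 200)) (XT.lf (nat_lit 0) (nat_lit 7573466145) (nat_lit 456) (nat_lit 3345947616) (nat_lit 76) (nat_lit 2043094896) (nat_lit 80) (nat_lit 5) (nat_lit 86) (nat_lit 5) (nat_lit 81) (nat_lit 5) (nat_lit 274) (nat_lit 247) (nat_lit 199))))))) (XT.nd (nat_lit 780) (nat_lit 1596) (nat_lit 0) (XT.nd (nat_lit 390) (nat_lit 988) (nat_lit 0) (XT.nd (nat_lit 156) (nat_lit 608) (nat_lit 0) (XT.nd (nat_lit 78) (nat_lit 380) (nat_lit 0) (XT.lf (nat_lit 0) (nat_lit 6580043396) (nat_lit 380) (nat_lit 4714313589) (nat_lit 456) (nat_lit 2074543445) (nat_lit 75) (nat_lit 5) (nat_lit 80) (nat_lit 5) (nat_lit 81) (nat_lit 5) (nat_lit 275) (nat_lit 247) (nat_lit 198))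 (XT.lf (nat_lit 0) (nat_lit 1402446400) (nat_lit 380) (nat_lit 10561523104) (nat_lit 76) (nat_lit 1830622134) (nat_lit 70) (nat_lit 5) (nat_lit 75) (nat_lit 5) (nat_lit 71) (nat_lit 5) (nat_lit 276) (nat_lit 247) (nat_lit 197))) (XT.nd (nat_lit 78) (nat_lit 608) (nat_lit 0) (XT.lf (nat_lit 0) (nat_lit 5071135135) (nat_lit 380) (nat_lit 485956905) (nat_lit 76) (nat_lit 8682142338) (nat_lit 70) (nat_lit 5) (nat_lit 75) (nat_lit 5) (nat_lit 71) (nat_lit 5) (nat_lit 277) (nat_lit 247) (nat_lit 196)) (XT.nd (nat_lit 78) (nat_lit 304) (nat_lit 0) (XT.lf (nat_lit 0) (nat_lit 8978519894) (nat_lit 380) (nat_lit 4495783080) (nat_lit 76) (nat_lit 1230249192) (nat_lit 66) (nat_lit 5) (nat_lit 71) (nat_lit 5) (nat_lit 67) (nat_lit 5) (nat_lit 278) (nat_lit 247) (nat_lit 195)) (XT.lf (nat_lit 0) (nat_lit 6250099718) (nat_lit 304) (nat_lit 6899137018) (nat_lit 380) (nat_lit 2041956185) (nat_lit 62) (nat_lit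 5) (nat_lit 66) (nat_lit 5) (nat_lit 67) (nat_lit 5) (nat_lit 279) (nat_lit 247) (nat_lit 194))))) (XT.nd (nat_lit 156) (nat_lit 608) (nat_lit 0) (XT.nd (nat_lit 78) (nat_lit 0) (nat_lit 0) (XT.lf (nat_lit 0) (nat_lit 1804147134) (nat_lit 380) (nat_lit 13827220891) (nat_lit 76) (nat_lit 69955897) (nat_lit 57) (nat_lit 5) (nat_lit 62) (nat_lit 5) (nat_lit 58) (nat_lit 5) (nat_lit 280) (nat_lit 247) (nat_lit 193)) (XT.lf (nat_lit 0) (nat_lit 5912966178) (nat_lit 380) (nat_lit 2978066991) (nat_lit 76) (nat_lit 7342027045) (nat_lit 57) (nat_lit 5) (nat_lit 62) (nat_lit 5) (nat_lit 58) (nat_lit 5) (nat_lit 281) (nat_lit 247) (nat_lit 192))) (XT.nd (nat_lit 78) (nat_lit 380) (nat_lit 0) (XT.lf (nat_lit 0) (nat_lit 8513373613) (nat_lit 228) (nat_lit 1747747511) (nat_lit 304) (nat_lit 6529325831) (nat_lit 54) (nat_lit 5) (nat_lit 57) (nat_lit 5) (nat_lit 58) (nat_lit 5) (nat_lit 282) (nat_lit 247)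 (nat_lit 191)) (XT.nd (nat_lit 78) (nat_lit 76) (nat_lit 0) (XT.lf (nat_lit 0) (nat_lit 3208148318) (nat_lit 304) (nat_lit 11689181663) (nat_lit 380) (nat_lit 2476330313) (nat_lit 50) (nat_lit 5) (nat_lit 54) (nat_lit 5) (nat_lit 55) (nat_lit 5) (nat_lit 283) (nat_lit 247) (nat_lit 190)) (XT.lf (nat_lit 0) (nat_lit 1802915206) (nat_lit 380) (nat_lit 2643247310) (nat_lit 76) (nat_lit 13537679908) (nat_lit 49) (nat_lit 5) (nat_lit 54) (nat_lit 5) (nat_lit 50) (nat_lit 5) (nat_lit 284) (nat_lit 247) (nat_lit 189)))))) (XT.nd (nat_lit 390) (nat_lit 608) (nat_lit 0) (XT.nd (nat_lit 156) (nat_lit 532) (nat_lit 0) (XT.nd (nat_lit 78) (nat_lit 228) (nat_lit 0) (XT.lf (nat_lit 0) (nat_lit 6325369944) (nat_lit 304) (nat_lit 9098844933) (nat_lit 76) (nat_lit 3197236900) (nat_lit 46) (nat_lit 5) (nat_lit 50) (nat_lit 5) (nat_lit 47) (nat_lit 5) (nat_lit 285) (nat_lit 247) (nat_lit 188)) (XT.lf (nat_lit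 0) (nat_lit 3014475402) (nat_lit 228) (nat_lit 8118903262) (nat_lit 304) (nat_lit 8155844278) (nat_lit 43) (nat_lit 5) (nat_lit 46) (nat_lit 5) (nat_lit 47) (nat_lit 5) (nat_lit 286) (nat_lit 247) (nat_lit 187))) (XT.nd (nat_lit 78) (nat_lit 532) (nat_lit 0) (XT.lf (nat_lit 0) (nat_lit 15864284549) (nat_lit 228) (nat_lit 370691729) (nat_lit 304) (nat_lit 3753871956) (nat_lit 43) (nat_lit 5) (nat_lit 46) (nat_lit 5) (nat_lit 47) (nat_lit 5) (nat_lit 287) (nat_lit 247) (nat_lit 186)) (XT.nd (nat_lit 78) (nat_lit 228) (nat_lit 0) (XT.lf (nat_lit 0) (nat_lit 971643724) (nat_lit 304) (nat_lit 12059321382) (nat_lit 76) (nat_lit 7688684330) (nat_lit 39) (nat_lit 5) (nat_lit 43) (nat_lit 5) (nat_lit 40) (nat_lit 5) (nat_lit 288) (nat_lit 247) (nat_lit 185)) (XT.lf (nat_lit 0) (nat_lit 597862752) (nat_lit 228) (nat_lit 5273186539) (nat_lit 304) (nat_lit 15614422809) (nat_lit 36) (nat_lit 5) (nat_lit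 39) (nat_lit 5) (nat_lit 40) (nat_lit 5) (nat_lit 289) (nat_lit 247) (nat_lit 184))))) (XT.nd (nat_lit 234) (nat_lit 456) (nat_lit 0) (XT.nd (nat_lit 78) (nat_lit 152) (nat_lit 0) (XT.lf (nat_lit 0) (nat_lit 11131661684) (nat_lit 304) (nat_lit 8230829664) (nat_lit 76) (nat_lit 2923658799) (nat_lit 36) (nat_lit 5) (nat_lit 40) (nat_lit 5) (nat_lit 37) (nat_lit 5) (nat_lit 290) (nat_lit 247) (nat_lit 183)) (XT.nd (nat_lit 78) (nat_lit 0) (nat_lit 0) (XT.lf (nat_lit 0) (nat_lit 5050755064) (nat_lit 152) (nat_lit 11671329196) (nat_lit 228) (nat_lit 6402823351) (nat_lit 34) (nat_lit 5) (nat_lit 36) (nat_lit 5) (nat_lit 37) (nat_lit 5) (nat_lit 291) (nat_lit 247) (nat_lit 182)) (XT.lf (nat_lit 0) (nat_lit 19116580154) (nat_lit 152) (nat_lit 3526350123) (nat_lit 228) (nat_lit 1361192172) (nat_lit 34) (nat_lit 5) (nat_lit 36) (nat_lit 5) (nat_lit 37) (nat_lit 5) (nat_lit 292) (nat_lit 247) (nat_lit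 181)))) (XT.nd (nat_lit 78) (nat_lit 152) (nat_lit 0) (XT.lf (nat_lit 0) (nat_lit 3959549554) (nat_lit 304) (nat_lit 15926878699) (nat_lit 76) (nat_lit 5036665785) (nat_lit 30) (nat_lit 5) (nat_lit 34) (nat_lit 5) (nat_lit 31) (nat_lit 5) (nat_lit 293) (nat_lit 247) (nat_lit 180)) (XT.nd (nat_lit 78) (nat_lit 152) (nat_lit 0) (XT.lf (nat_lit 0) (nat_lit 9573182670) (nat_lit 304) (nat_lit 2309486068) (nat_lit 76) (nat_lit 14003331992) (nat_lit 30) (nat_lit 5) (nat_lit 34) (nat_lit 5) (nat_lit 31) (nat_lit 5) (nat_lit 294) (nat_lit 247) (nat_lit 179)) (XT.lf (nat_lit 0) (nat_lit 12179345700) (nat_lit 152) (nat_lit 3375075408) (nat_lit 228) (nat_lit 11340062995) (nat_lit 28) (nat_lit 5) (nat_lit 30) (nat_lit 5) (nat_lit 31) (nat_lit 5) (nat_lit 295) (nat_lit 247) (nat_lit 178))))))))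
noncomputable def xc65 : XT := (XT.nd (nat_lit 1638) (nat_lit 456) (nat_lit 0) (XT.nd (nat_lit 780) (nat_lit 380) (nat_lit 0) (XT.nd (nat_lit 390) (nat_lit 456) (nat_lit 0) (XT.nd (nat_lit 156) (nat_lit 228) (nat_lit 0) (XT.nd (nat_lit 78) (nat_lit 152) (nat_lit 0) (XT.lf (nat_lit 0) (nat_lit 21882841862) (nat_lit 228) (nat_lit 611955086) (nat_lit 76) (nat_lit 5457188285) (nat_lit 28) (nat_lit 5) (nat_lit 31) (nat_lit 5) (nat_lit 29) (nat_lit 5) (nat_lit 296) (nat_lit 247) (nat_lit 177)) (XT.lf (nat_lit 0) (nat_lit 14399016827) (nat_lit 152) (nat_lit 14273225363) (nat_lit 228) (nat_lit 385817900) (nat_lit 26) (nat_lit 5) (nat_lit 28) (nat_lit 5) (nat_lit 29) (nat_lit 5) (nat_lit 297) (nat_lit 247) (nat_lit 176))) (XT.nd (nat_lit 78) (nat_lit 152) (nat_lit 0) (XT.lf (nat_lit 0) (nat_lit 5451813697) (nat_lit 228) (nat_lit 143229761) (nat_lit 76) (nat_lit 24623446603) (nat_lit 25) (nat_lit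 5) (nat_lit 28) (nat_lit 5) (nat_lit 26) (nat_lit 5) (nat_lit 298) (nat_lit 247) (nat_lit 175)) (XT.nd (nat_lit 78) (nat_lit 0) (nat_lit 0) (XT.lf (nat_lit 0) (nat_lit 11730155173) (nat_lit 228) (nat_lit 16115816455) (nat_lit 76) (nat_lit 3586182272) (nat_lit 23) (nat_lit 5) (nat_lit 26) (nat_lit 5) (nat_lit 24) (nat_lit 5) (nat_lit 299) (nat_lit 247) (nat_lit 174)) (XT.lf (nat_lit 0) (nat_lit 18355076364) (nat_lit 228) (nat_lit 1252028808) (nat_lit 76) (nat_lit 13098445592) (nat_lit 23) (nat_lit 5) (nat_lit 26) (nat_lit 5) (nat_lit 24) (nat_lit 5) (nat_lit 300) (nat_lit 247) (nat_lit 173))))) (XT.nd (nat_lit 156) (nat_lit 304) (nat_lit 0) (XT.nd (nat_lit 78) (nat_lit 0) (nat_lit 0) (XT.lf (nat_lit 0) (nat_lit 14600852512) (nat_lit 152) (nat_lit 10826649608) (nat_lit 228) (nat_lit 8611655895) (nat_lit 21) (nat_lit 5) (nat_lit 23) (nat_lit 5) (nat_lit 24) (nat_lit 5) (nat_lit 301) (nat_lit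 247) (nat_lit 172)) (XT.lf (nat_lit 0) (nat_lit 31234648929) (nat_lit 152) (nat_lit 1608478023) (nat_lit 228) (nat_lit 2596658291) (nat_lit 21) (nat_lit 5) (nat_lit 23) (nat_lit 5) (nat_lit 24) (nat_lit 5) (nat_lit 302) (nat_lit 247) (nat_lit 171))) (XT.nd (nat_lit 78) (nat_lit 152) (nat_lit 0) (XT.lf (nat_lit 0) (nat_lit 3817882212) (nat_lit 152) (nat_lit 25034978442) (nat_lit 76) (nat_lit 8051394617) (nat_lit 19) (nat_lit 5) (nat_lit 21) (nat_lit 5) (nat_lit 20) (nat_lit 5) (nat_lit 303) (nat_lit 247) (nat_lit 170)) (XT.nd (nat_lit 78) (nat_lit 152) (nat_lit 0) (XT.lf (nat_lit 0) (nat_lit 10538046804) (nat_lit 152) (nat_lit 9684291209) (nat_lit 76) (nat_lit 18217705238) (nat_lit 19) (nat_lit 5) (nat_lit 21) (nat_lit 5) (nat_lit 20) (nat_lit 5) (nat_lit 304) (nat_lit 247) (nat_lit 169)) (XT.lf (nat_lit 0) (nat_lit 6526957103) (nat_lit 152) (nat_lit 11109193343) (nat_lit 228) (nat_lit 22415234861)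 (nat_lit 17) (nat_lit 5) (nat_lit 19) (nat_lit 5) (nat_lit 20) (nat_lit 5) (nat_lit 305) (nat_lit 247) (nat_lit 168)))))) (XT.nd (nat_lit 390) (nat_lit 76) (nat_lit 0) (XT.nd (nat_lit 156) (nat_lit 304) (nat_lit 0) (XT.nd (nat_lit 78) (nat_lit 0) (nat_lit 0) (XT.lf (nat_lit 0) (nat_lit 23717787595) (nat_lit 152) (nat_lit 1450922979) (nat_lit 228) (nat_lit 16572218878) (nat_lit 17) (nat_lit 5) (nat_lit 19) (nat_lit 5) (nat_lit 20) (nat_lit 5) (nat_lit 306) (nat_lit 247) (nat_lit 167)) (XT.lf (nat_lit 0) (nat_lit 33142132959) (nat_lit 228) (nat_lit 1862567437) (nat_lit 76) (nat_lit 8508343882) (nat_lit 17) (nat_lit 5) (nat_lit 20) (nat_lit 5) (nat_lit 18) (nat_lit 4) (nat_lit 307) (nat_lit 247) (nat_lit 166))) (XT.nd (nat_lit 78) (nat_lit 228) (nat_lit 0) (XT.lf (nat_lit 0) (nat_lit 15360423479) (nat_lit 76) (nat_lit 26297718569) (nat_lit 152) (nat_lit 3711324854) (nat_lit 16) (nat_lit 5)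 (nat_lit 17) (nat_lit 5) (nat_lit 18) (nat_lit 4) (nat_lit 308) (nat_lit 247) (nat_lit 165)) (XT.nd (nat_lit 78) (nat_lit 152) (nat_lit 0) (XT.lf (nat_lit 0) (nat_lit 3218586975) (nat_lit 152) (nat_lit 13896581266) (nat_lit 76) (nat_lit 30202572985) (nat_lit 15) (nat_lit 5) (nat_lit 17) (nat_lit 5) (nat_lit 16) (nat_lit 5) (nat_lit 309) (nat_lit 247) (nat_lit 164)) (XT.lf (nat_lit 0) (nat_lit 3014097934) (nat_lit 152) (nat_lit 7416695572) (nat_lit 228) (nat_lit 38931173929) (nat_lit 13) (nat_lit 5) (nat_lit 15) (nat_lit 5) (nat_lit 16) (nat_lit 5) (nat_lit 310) (nat_lit 247) (nat_lit 163))))) (XT.nd (nat_lit 234) (nat_lit 0) (nat_lit 0) (XT.nd (nat_lit 78) (nat_lit 76) (nat_lit 0) (XT.lf (nat_lit 0) (nat_lit 18157981239) (nat_lit 228) (nat_lit 30499759150) (nat_lit 76) (nat_lit 2846049815) (nat_lit 13) (nat_lit 5) (nat_lit 16) (nat_lit 5) (nat_lit 14) (nat_lit 4) (nat_lit 311) (nat_lit 247)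 (nat_lit 162)) (XT.nd (nat_lit 78) (nat_lit 76) (nat_lit 0) (XT.lf (nat_lit 0) (nat_lit 26330488049) (nat_lit 228) (nat_lit 13961095092) (nat_lit 76) (nat_lit 13459367774) (nat_lit 13) (nat_lit 5) (nat_lit 16) (nat_lit 5) (nat_lit 14) (nat_lit 4) (nat_lit 312) (nat_lit 247) (nat_lit 161)) (XT.lf (nat_lit 0) (nat_lit 3446038889) (nat_lit 76) (nat_lit 31483565016) (nat_lit 152) (nat_lit 21180341099) (nat_lit 12) (nat_lit 5) (nat_lit 13) (nat_lit 5) (nat_lit 14) (nat_lit 4) (nat_lit 313) (nat_lit 247) (nat_lit 160)))) (XT.nd (nat_lit 78) (nat_lit 0) (nat_lit 0) (XT.lf (nat_lit 0) (nat_lit 21990304398) (nat_lit 76) (nat_lit 22097427581) (nat_lit 152) (nat_lit 14495299270) (nat_lit 12) (nat_lit 5) (nat_lit 13) (nat_lit 5) (nat_lit 14) (nat_lit 4) (nat_lit 314) (nat_lit 247) (nat_lit 159)) (XT.nd (nat_lit 78) (nat_lit 0) (nat_lit 0) (XT.lf (nat_lit 0) (nat_lit 41438001280) (nat_lit 76) (nat_lit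 12251802577) (nat_lit 152) (nat_lit 7490400299) (nat_lit 12) (nat_lit 5) (nat_lit 13) (nat_lit 5) (nat_lit 14) (nat_lit 4) (nat_lit 315) (nat_lit 247) (nat_lit 158)) (XT.lf (nat_lit 0) (nat_lit 61835433575) (nat_lit 76) (nat_lit 1923248039) (nat_lit 152) (nat_lit 148965855) (nat_lit 12) (nat_lit 5) (nat_lit 13) (nat_lit 5) (nat_lit 14) (nat_lit 4) (nat_lit 316) (nat_lit 247) (nat_lit 157))))))) (XT.nd (nat_lit 780) (nat_lit 76) (nat_lit 0) (XT.nd (nat_lit 390) (nat_lit 76) (nat_lit 0) (XT.nd (nat_lit 156) (nat_lit 76) (nat_lit 0) (XT.nd (nat_lit 78) (nat_lit 0) (nat_lit 0) (XT.lf (nat_lit 0) (nat_lit 7647863623) (nat_lit 228) (nat_lit 50139944715) (nat_lit 76) (nat_lit 8974411352) (nat_lit 9) (nat_lit 5) (nat_lit 12) (nat_lit 5) (nat_lit 10) (nat_lit 4) (nat_lit 317) (nat_lit 247) (nat_lit 156)) (XT.lf (nat_lit 0) (nat_lit 15859956111) (nat_lit 228) (nat_lit 33506725675) (nat_lit 76) (nat_lit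 20391950713) (nat_lit 9) (nat_lit 5) (nat_lit 12) (nat_lit 5) (nat_lit 10) (nat_lit 4) (nat_lit 318) (nat_lit 247) (nat_lit 155))) (XT.nd (nat_lit 78) (nat_lit 76) (nat_lit 0) (XT.lf (nat_lit 0) (nat_lit 24470766665) (nat_lit 228) (nat_lit 16062331405) (nat_lit 76) (nat_lit 32372135237) (nat_lit 9) (nat_lit 5) (nat_lit 12) (nat_lit 5) (nat_lit 10) (nat_lit 4) (nat_lit 319) (nat_lit 247) (nat_lit 154)) (XT.nd (nat_lit 78) (nat_lit 0) (nat_lit 0) (XT.lf (nat_lit 0) (nat_lit 2279248719) (nat_lit 76) (nat_lit 31243458028) (nat_lit 152) (nat_lit 42686149986) (nat_lit 8) (nat_lit 5) (nat_lit 9) (nat_lit 5) (nat_lit 10) (nat_lit 4) (nat_lit 320) (nat_lit 247) (nat_lit 153)) (XT.lf (nat_lit 0) (nat_lit 21854612381) (nat_lit 76) (nat_lit 21327015355) (nat_lit 152) (nat_lit 36491411838) (nat_lit 8) (nat_lit 5) (nat_lit 9) (nat_lit 5) (nat_lit 10) (nat_lit 4) (nat_lit 321) (nat_lit 247) (nat_lit 152)))))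 (XT.nd (nat_lit 156) (nat_lit 76) (nat_lit 0) (XT.nd (nat_lit 78) (nat_lit 0) (nat_lit 0) (XT.lf (nat_lit 0) (nat_lit 42390695697) (nat_lit 76) (nat_lit 10922357527) (nat_lit 152) (nat_lit 29997700874) (nat_lit 8) (nat_lit 5) (nat_lit 9) (nat_lit 5) (nat_lit 10) (nat_lit 4) (nat_lit 322) (nat_lit 247) (nat_lit 151)) (XT.lf (nat_lit 0) (nat_lit 63936394106) (nat_lit 76) (nat_lit 4711547) (nat_lit 152) (nat_lit 23189555878) (nat_lit 8) (nat_lit 5) (nat_lit 9) (nat_lit 5) (nat_lit 10) (nat_lit 4) (nat_lit 323) (nat_lit 247) (nat_lit 150))) (XT.nd (nat_lit 78) (nat_lit 76) (nat_lit 0) (XT.lf (nat_lit 0) (nat_lit 75201172743) (nat_lit 152) (nat_lit 4708932834) (nat_lit 0) (nat_lit 11228448828) (nat_lit 8) (nat_lit 5) (nat_lit 10) (nat_lit 4) (nat_lit 8) (nat_lit 4) (nat_lit 324) (nat_lit 247) (nat_lit 149)) (XT.nd (nat_lit 78) (nat_lit 0) (nat_lit 0) (XT.lf (nat_lit 0) (nat_lit 14977071079) (nat_lit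 76) (nat_lit 72182105462) (nat_lit 76) (nat_lit 8183625412) (nat_lit 7) (nat_lit 4) (nat_lit 8) (nat_lit 5) (nat_lit 8) (nat_lit 4) (nat_lit 325) (nat_lit 247) (nat_lit 148)) (XT.lf (nat_lit 0) (nat_lit 35730424669) (nat_lit 76) (nat_lit 64024332134) (nat_lit 76) (nat_lit 1322432) (nat_lit 7) (nat_lit 4) (nat_lit 8) (nat_lit 5) (nat_lit 8) (nat_lit 4) (nat_lit 326) (nat_lit 247) (nat_lit 147)))))) (XT.nd (nat_lit 31590) (nat_lit 0) (nat_lit 14364) (XT.nd (nat_lit 31356) (nat_lit 0) (nat_lit 15808) (XT.nd (nat_lit 78) (nat_lit 0) (nat_lit 0) (XT.lf (nat_lit 0) (nat_lit 8414002807) (nat_lit 152) (nat_lit 46965945576) (nat_lit 76) (nat_lit 49007855949) (nat_lit 6) (nat_lit 5) (nat_lit 8) (nat_lit 5) (nat_lit 7) (nat_lit 4) (nat_lit 327) (nat_lit 247) (nat_lit 146)) (XT.lf (nat_lit 0) (nat_lit 17242001327) (nat_lit 152) (nat_lit 29067357699) (nat_lit 76) (nat_lit 62942004967) (nat_lit 6) (nat_lit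 5) (nat_lit 8) (nat_lit 5) (nat_lit 7) (nat_lit 4) (nat_lit 328) (nat_lit 247) (nat_lit 145))) (XT.nd (nat_lit 78) (nat_lit 0) (nat_lit 0) (XT.lf (nat_lit 0) (nat_lit 593530995) (nat_lit 0) (nat_lit 593530995) (nat_lit 684) (nat_lit 2420245702) (nat_lit 214) (nat_lit 5) (nat_lit 214) (nat_lit 3) (nat_lit 223) (nat_lit 3) (nat_lit 248) (nat_lit 248) (nat_lit 224)) (XT.nd (nat_lit 78) (nat_lit 0) (nat_lit 0) (XT.lf (nat_lit 0) (nat_lit 4868921015) (nat_lit 684) (nat_lit 912211254) (nat_lit 760) (nat_lit 1533340816) (nat_lit 214) (nat_lit 5) (nat_lit 223) (nat_lit 3) (nat_lit 224) (nat_lit 5) (nat_lit 249) (nat_lit 248) (nat_lit 223)) (XT.lf (nat_lit 76) (nat_lit 4450422894) (nat_lit 0) (nat_lit 2938604622) (nat_lit 760) (nat_lit 33755597) (nat_lit 215) (nat_lit 5) (nat_lit 214) (nat_lit 5) (nat_lit 224) (nat_lit 5) (nat_lit 250) (nat_lit 248) (nat_lit 222))))) (XT.nd (nat_lit 234) (nat_lit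 760) (nat_lit 0) (XT.nd (nat_lit 78) (nat_lit 0) (nat_lit 0) (XT.lf (nat_lit 0) (nat_lit 2335535773) (nat_lit 760) (nat_lit 5036929317) (nat_lit 836) (nat_lit 167193754) (nat_lit 205) (nat_lit 5) (nat_lit 215) (nat_lit 5) (nat_lit 216) (nat_lit 5) (nat_lit 251) (nat_lit 248) (nat_lit 221)) (XT.nd (nat_lit 78) (nat_lit 0) (nat_lit 0) (XT.lf (nat_lit 76) (nat_lit 545312698) (nat_lit 0) (nat_lit 4200477675) (nat_lit 836) (nat_lit 2919301697) (nat_lit 206) (nat_lit 5) (nat_lit 205) (nat_lit 5) (nat_lit 216) (nat_lit 5) (nat_lit 252) (nat_lit 248) (nat_lit 220)) (XT.lf (nat_lit 76) (nat_lit 6427173333) (nat_lit 0) (nat_lit 764599094) (nat_lit 836) (nat_lit 607967747) (nat_lit 206) (nat_lit 5) (nat_lit 205) (nat_lit 5) (nat_lit 216) (nat_lit 5) (nat_lit 253) (nat_lit 248) (nat_lit 219)))) (XT.nd (nat_lit 78) (nat_lit 0) (nat_lit 0) (XT.lf (nat_lit 0) (nat_lit 1724769083) (nat_lit 836) (nat_lit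 3320401825) (nat_lit 912) (nat_lit 2897554870) (nat_lit 195) (nat_lit 5) (nat_lit 206) (nat_lit 5) (nat_lit 207) (nat_lit 5) (nat_lit 254) (nat_lit 248) (nat_lit 218)) (XT.nd (nat_lit 78) (nat_lit 0) (nat_lit 76) (XT.lf (nat_lit 76) (nat_lit 2808127188) (nat_lit 0) (nat_lit 1276674225) (nat_lit 912) (nat_lit 4010533635) (nat_lit 196) (nat_lit 5) (nat_lit 195) (nat_lit 5) (nat_lit 207) (nat_lit 5) (nat_lit 255) (nat_lit 248) (nat_lit 217)) (XT.lf (nat_lit 76) (nat_lit 962873686) (nat_lit 0) (nat_lit 5549185885) (nat_lit 912) (nat_lit 1745373668) (nat_lit 197) (nat_lit 5) (nat_lit 196) (nat_lit 5) (nat_lit 208) (nat_lit 5) (nat_lit 256) (nat_lit 248) (nat_lit 216))))))))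
noncomputable def xc66 : XT := (XT.nd (nat_lit 1638) (nat_lit 3420) (nat_lit 0) (XT.nd (nat_lit 780) (nat_lit 3876) (nat_lit 0) (XT.nd (nat_lit 390) (nat_lit 1824) (nat_lit 0) (XT.nd (nat_lit 156) (nat_lit 2964) (nat_lit 0) (XT.nd (nat_lit 78) (nat_lit 0) (nat_lit 76) (XT.lf (nat_lit 0) (nat_lit 571682894) (nat_lit 912) (nat_lit 897420594) (nat_lit 988) (nat_lit 6960130474) (nat_lit 184) (nat_lit 5) (nat_lit 196) (nat_lit 5) (nat_lit 197) (nat_lit 5) (nat_lit 257) (nat_lit 248) (nat_lit 215)) (XT.lf (nat_lit 0) (nat_lit 2941651405) (nat_lit 912) (nat_lit 2807008883) (nat_lit 76) (nat_lit 2861546485) (nat_lit 185) (nat_lit 5) (nat_lit 197) (nat_lit 5) (nat_lit 186) (nat_lit 5) (nat_lit 258) (nat_lit 248) (nat_lit 214))) (XT.nd (nat_lit 78) (nat_lit 2128) (nat_lit 0) (XT.lf (nat_lit 0) (nat_lit 4036495452) (nat_lit 912) (nat_lit 1350050053) (nat_lit 988) (nat_lit 3415271017) (nat_lit 173)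 (nat_lit 5) (nat_lit 185) (nat_lit 5) (nat_lit 186) (nat_lit 5) (nat_lit 259) (nat_lit 248) (nat_lit 213)) (XT.nd (nat_lit 78) (nat_lit 1140) (nat_lit 0) (XT.lf (nat_lit 0) (nat_lit 2203905350) (nat_lit 988) (nat_lit 5729501544) (nat_lit 1064) (nat_lit 1070475911) (nat_lit 160) (nat_lit 5) (nat_lit 173) (nat_lit 5) (nat_lit 174) (nat_lit 5) (nat_lit 260) (nat_lit 248) (nat_lit 212)) (XT.lf (nat_lit 0) (nat_lit 299097474) (nat_lit 1064) (nat_lit 1032121861) (nat_lit 1140) (nat_lit 7885674879) (nat_lit 145) (nat_lit 5) (nat_lit 159) (nat_lit 5) (nat_lit 160) (nat_lit 5) (nat_lit 261) (nat_lit 248) (nat_lit 211))))) (XT.nd (nat_lit 156) (nat_lit 1140) (nat_lit 0) (XT.nd (nat_lit 78) (nat_lit 684) (nat_lit 0) (XT.lf (nat_lit 0) (nat_lit 3844060222) (nat_lit 1140) (nat_lit 1678811256) (nat_lit 76) (nat_lit 3917206515) (nat_lit 145) (nat_lit 5) (nat_lit 160) (nat_lit 5) (nat_lit 146) (nat_lit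 5) (nat_lit 262) (nat_lit 248) (nat_lit 210)) (XT.lf (nat_lit 0) (nat_lit 5945250057) (nat_lit 684) (nat_lit 514203663) (nat_lit 760) (nat_lit 3215884458) (nat_lit 136) (nat_lit 5) (nat_lit 145) (nat_lit 5) (nat_lit 146) (nat_lit 5) (nat_lit 263) (nat_lit 248) (nat_lit 209))) (XT.nd (nat_lit 78) (nat_lit 608) (nat_lit 0) (XT.lf (nat_lit 0) (nat_lit 4013285717) (nat_lit 532) (nat_lit 5206931184) (nat_lit 608) (nat_lit 701920313) (nat_lit 129) (nat_lit 5) (nat_lit 136) (nat_lit 5) (nat_lit 137) (nat_lit 5) (nat_lit 264) (nat_lit 248) (nat_lit 208)) (XT.nd (nat_lit 78) (nat_lit 0) (nat_lit 0) (XT.lf (nat_lit 0) (nat_lit 1879083721) (nat_lit 608) (nat_lit 8209023719) (nat_lit 76) (nat_lit 93433066) (nat_lit 121) (nat_lit 5) (nat_lit 129) (nat_lit 5) (nat_lit 122) (nat_lit 5) (nat_lit 265) (nat_lit 248) (nat_lit 207)) (XT.lf (nat_lit 0) (nat_lit 4607314830) (nat_lit 608) (nat_lit 223682700) (nat_lit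 76) (nat_lit 5621915444) (nat_lit 121) (nat_lit 5) (nat_lit 129) (nat_lit 5) (nat_lit 122) (nat_lit 5) (nat_lit 266) (nat_lit 248) (nat_lit 206)))))) (XT.nd (nat_lit 390) (nat_lit 1976) (nat_lit 0) (XT.nd (nat_lit 156) (nat_lit 988) (nat_lit 0) (XT.nd (nat_lit 78) (nat_lit 456) (nat_lit 0) (XT.lf (nat_lit 0) (nat_lit 7481041092) (nat_lit 532) (nat_lit 2502443790) (nat_lit 76) (nat_lit 754276019) (nat_lit 115) (nat_lit 5) (nat_lit 122) (nat_lit 5) (nat_lit 116) (nat_lit 5) (nat_lit 267) (nat_lit 248) (nat_lit 205)) (XT.lf (nat_lit 0) (nat_lit 6075969584) (nat_lit 456) (nat_lit 4457365936) (nat_lit 532) (nat_lit 502640054) (nat_lit 109) (nat_lit 5) (nat_lit 115) (nat_lit 5) (nat_lit 116) (nat_lit 5) (nat_lit 268) (nat_lit 248) (nat_lit 204))) (XT.nd (nat_lit 78) (nat_lit 456) (nat_lit 0) (XT.lf (nat_lit 0) (nat_lit 2345726308) (nat_lit 532) (nat_lit 7603512505) (nat_lit 76) (nat_lit 1399235020)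 (nat_lit 102) (nat_lit 5) (nat_lit 109) (nat_lit 5) (nat_lit 103) (nat_lit 5) (nat_lit 269) (nat_lit 248) (nat_lit 203)) (XT.nd (nat_lit 78) (nat_lit 0) (nat_lit 0) (XT.lf (nat_lit 0) (nat_lit 1208520271) (nat_lit 456) (nat_lit 4155868062) (nat_lit 532) (nat_lit 6311061604) (nat_lit 96) (nat_lit 5) (nat_lit 102) (nat_lit 5) (nat_lit 103) (nat_lit 5) (nat_lit 270) (nat_lit 248) (nat_lit 202)) (XT.lf (nat_lit 0) (nat_lit 8564079914) (nat_lit 532) (nat_lit 1493775605) (nat_lit 76) (nat_lit 1960159683) (nat_lit 96) (nat_lit 5) (nat_lit 103) (nat_lit 5) (nat_lit 97) (nat_lit 5) (nat_lit 271) (nat_lit 248) (nat_lit 201))))) (XT.nd (nat_lit 234) (nat_lit 760) (nat_lit 0) (XT.nd (nat_lit 78) (nat_lit 836) (nat_lit 0) (XT.lf (nat_lit 0) (nat_lit 7967182669) (nat_lit 380) (nat_lit 4010843010) (nat_lit 456) (nat_lit 398191393) (nat_lit 91) (nat_lit 5) (nat_lit 96) (nat_lit 5) (nat_lit 97) (nat_lit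 5) (nat_lit 272) (nat_lit 248) (nat_lit 200)) (XT.nd (nat_lit 78) (nat_lit 380) (nat_lit 0) (XT.lf (nat_lit 0) (nat_lit 2781482154) (nat_lit 456) (nat_lit 7594001727) (nat_lit 76) (nat_lit 2375381389) (nat_lit 85) (nat_lit 5) (nat_lit 91) (nat_lit 5) (nat_lit 86) (nat_lit 5) (nat_lit 273) (nat_lit 248) (nat_lit 199)) (XT.lf (nat_lit 0) (nat_lit 2072469120) (nat_lit 380) (nat_lit 4085303759) (nat_lit 456) (nat_lit 6985098805) (nat_lit 80) (nat_lit 5) (nat_lit 85) (nat_lit 5) (nat_lit 86) (nat_lit 5) (nat_lit 274) (nat_lit 248) (nat_lit 198)))) (XT.nd (nat_lit 78) (nat_lit 760) (nat_lit 0) (XT.lf (nat_lit 0) (nat_lit 9747664089) (nat_lit 456) (nat_lit 1269134021) (nat_lit 76) (nat_lit 2536451150) (nat_lit 80) (nat_lit 5) (nat_lit 86) (nat_lit 5) (nat_lit 81) (nat_lit 5) (nat_lit 275) (nat_lit 248) (nat_lit 197)) (XT.nd (nat_lit 78) (nat_lit 380) (nat_lit 0) (XT.lf (nat_lit 0) (nat_lit 9088829552)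 (nat_lit 380) (nat_lit 4501222163) (nat_lit 456) (nat_lit 392012914) (nat_lit 75) (nat_lit 5) (nat_lit 80) (nat_lit 5) (nat_lit 81) (nat_lit 5) (nat_lit 276) (nat_lit 248) (nat_lit 196)) (XT.lf (nat_lit 0) (nat_lit 3165754382) (nat_lit 380) (nat_lit 8885996011) (nat_lit 76) (nat_lit 2378676306) (nat_lit 70) (nat_lit 5) (nat_lit 75) (nat_lit 5) (nat_lit 71) (nat_lit 5) (nat_lit 277) (nat_lit 248) (nat_lit 195))))))) (XT.nd (nat_lit 780) (nat_lit 1368) (nat_lit 0) (XT.nd (nat_lit 390) (nat_lit 1064) (nat_lit 0) (XT.nd (nat_lit 156) (nat_lit 684) (nat_lit 0) (XT.nd (nat_lit 78) (nat_lit 0) (nat_lit 0) (XT.lf (nat_lit 0) (nat_lit 1620027583) (nat_lit 304) (nat_lit 5332794778) (nat_lit 380) (nat_lit 7946578440) (nat_lit 66) (nat_lit 5) (nat_lit 70) (nat_lit 5) (nat_lit 71) (nat_lit 5) (nat_lit 278) (nat_lit 248) (nat_lit 194)) (XT.lf (nat_lit 0) (nat_lit 10987454924) (nat_lit 380) (nat_lit 2637232944)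 (nat_lit 76) (nat_lit 1765480795) (nat_lit 66) (nat_lit 5) (nat_lit 71) (nat_lit 5) (nat_lit 67) (nat_lit 5) (nat_lit 279) (nat_lit 248) (nat_lit 193))) (XT.nd (nat_lit 78) (nat_lit 380) (nat_lit 0) (XT.lf (nat_lit 0) (nat_lit 8586225492) (nat_lit 304) (nat_lit 6725648252) (nat_lit 380) (nat_lit 591046576) (nat_lit 62) (nat_lit 5) (nat_lit 66) (nat_lit 5) (nat_lit 67) (nat_lit 5) (nat_lit 280) (nat_lit 248) (nat_lit 192)) (XT.nd (nat_lit 78) (nat_lit 0) (nat_lit 0) (XT.lf (nat_lit 0) (nat_lit 3368826588) (nat_lit 380) (nat_lit 12479527305) (nat_lit 76) (nat_lit 591326804) (nat_lit 57) (nat_lit 5) (nat_lit 62) (nat_lit 5) (nat_lit 58) (nat_lit 5) (nat_lit 281) (nat_lit 248) (nat_lit 191)) (XT.lf (nat_lit 0) (nat_lit 7612873627) (nat_lit 380) (nat_lit 1185013549) (nat_lit 76) (nat_lit 8202340886) (nat_lit 57) (nat_lit 5) (nat_lit 62) (nat_lit 5) (nat_lit 58) (nat_lit 5) (nat_lit 282) (nat_lit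 248) (nat_lit 190))))) (XT.nd (nat_lit 156) (nat_lit 532) (nat_lit 0) (XT.nd (nat_lit 78) (nat_lit 304) (nat_lit 0) (XT.lf (nat_lit 0) (nat_lit 10825333283) (nat_lit 228) (nat_lit 1304365737) (nat_lit 304) (nat_lit 5457359495) (nat_lit 54) (nat_lit 5) (nat_lit 57) (nat_lit 5) (nat_lit 58) (nat_lit 5) (nat_lit 283) (nat_lit 248) (nat_lit 189)) (XT.lf (nat_lit 0) (nat_lit 5237501501) (nat_lit 304) (nat_lit 11718492732) (nat_lit 380) (nat_lit 1244796922) (nat_lit 50) (nat_lit 5) (nat_lit 54) (nat_lit 5) (nat_lit 55) (nat_lit 5) (nat_lit 284) (nat_lit 248) (nat_lit 188))) (XT.nd (nat_lit 78) (nat_lit 456) (nat_lit 0) (XT.lf (nat_lit 0) (nat_lit 3158682060) (nat_lit 380) (nat_lit 968295897) (nat_lit 76) (nat_lit 14716110868) (nat_lit 49) (nat_lit 5) (nat_lit 54) (nat_lit 5) (nat_lit 50) (nat_lit 5) (nat_lit 285) (nat_lit 248) (nat_lit 187)) (XT.nd (nat_lit 78) (nat_lit 228) (nat_lit 0) (XT.lf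 (nat_lit 0) (nat_lit 7868989363) (nat_lit 304) (nat_lit 7765048572) (nat_lit 76) (nat_lit 3879782963) (nat_lit 46) (nat_lit 5) (nat_lit 50) (nat_lit 5) (nat_lit 47) (nat_lit 5) (nat_lit 286) (nat_lit 248) (nat_lit 186)) (XT.lf (nat_lit 0) (nat_lit 4902663947) (nat_lit 228) (nat_lit 7972990864) (nat_lit 304) (nat_lit 7340667784) (nat_lit 43) (nat_lit 5) (nat_lit 46) (nat_lit 5) (nat_lit 47) (nat_lit 5) (nat_lit 287) (nat_lit 248) (nat_lit 185)))))) (XT.nd (nat_lit 390) (nat_lit 684) (nat_lit 0) (XT.nd (nat_lit 156) (nat_lit 380) (nat_lit 0) (XT.nd (nat_lit 78) (nat_lit 304) (nat_lit 0) (XT.lf (nat_lit 0) (nat_lit 18177185522) (nat_lit 304) (nat_lit 2641791839) (nat_lit 76) (nat_lit 133691588) (nat_lit 43) (nat_lit 5) (nat_lit 47) (nat_lit 5) (nat_lit 44) (nat_lit 5) (nat_lit 288) (nat_lit 248) (nat_lit 184)) (XT.lf (nat_lit 0) (nat_lit 2128599165) (nat_lit 304) (nat_lit 11001698519) (nat_lit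 76) (nat_lit 8590503846) (nat_lit 39) (nat_lit 5) (nat_lit 43) (nat_lit 5) (nat_lit 40) (nat_lit 5) (nat_lit 289) (nat_lit 248) (nat_lit 183))) (XT.nd (nat_lit 78) (nat_lit 152) (nat_lit 0) (XT.lf (nat_lit 0) (nat_lit 2240744373) (nat_lit 228) (nat_lit 4994955991) (nat_lit 304) (nat_lit 15290408403) (nat_lit 36) (nat_lit 5) (nat_lit 39) (nat_lit 5) (nat_lit 40) (nat_lit 5) (nat_lit 290) (nat_lit 248) (nat_lit 182)) (XT.nd (nat_lit 78) (nat_lit 152) (nat_lit 0) (XT.lf (nat_lit 0) (nat_lit 12713299611) (nat_lit 304) (nat_lit 7079117390) (nat_lit 76) (nat_lit 3575856646) (nat_lit 36) (nat_lit 5) (nat_lit 40) (nat_lit 5) (nat_lit 37) (nat_lit 5) (nat_lit 291) (nat_lit 248) (nat_lit 181)) (XT.lf (nat_lit 0) (nat_lit 6821736219) (nat_lit 152) (nat_lit 11727291168) (nat_lit 228) (nat_lit 5701036282) (nat_lit 34) (nat_lit 5) (nat_lit 36) (nat_lit 5) (nat_lit 37) (nat_lit 5) (nat_lit 292) (nat_lit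 248) (nat_lit 180))))) (XT.nd (nat_lit 234) (nat_lit 380) (nat_lit 0) (XT.nd (nat_lit 78) (nat_lit 304) (nat_lit 0) (XT.lf (nat_lit 0) (nat_lit 21518545735) (nat_lit 152) (nat_lit 3200187165) (nat_lit 228) (nat_lit 455986793) (nat_lit 34) (nat_lit 5) (nat_lit 36) (nat_lit 5) (nat_lit 37) (nat_lit 5) (nat_lit 293) (nat_lit 248) (nat_lit 179)) (XT.nd (nat_lit 78) (nat_lit 0) (nat_lit 0) (XT.lf (nat_lit 0) (nat_lit 5084874243) (nat_lit 304) (nat_lit 15274813506) (nat_lit 76) (nat_lit 5780539285) (nat_lit 30) (nat_lit 5) (nat_lit 34) (nat_lit 5) (nat_lit 31) (nat_lit 5) (nat_lit 294) (nat_lit 248) (nat_lit 178)) (XT.lf (nat_lit 0) (nat_lit 10935029624) (nat_lit 304) (nat_lit 1045523106) (nat_lit 76) (nat_lit 15172108315) (nat_lit 30) (nat_lit 5) (nat_lit 34) (nat_lit 5) (nat_lit 31) (nat_lit 5) (nat_lit 295) (nat_lit 248) (nat_lit 177)))) (XT.nd (nat_lit 78) (nat_lit 228) (nat_lit 0) (XT.lf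 (nat_lit 0) (nat_lit 14128208958) (nat_lit 152) (nat_lit 3057944363) (nat_lit 228) (nat_lit 11026345047) (nat_lit 28) (nat_lit 5) (nat_lit 30) (nat_lit 5) (nat_lit 31) (nat_lit 5) (nat_lit 296) (nat_lit 248) (nat_lit 176)) (XT.nd (nat_lit 78) (nat_lit 76) (nat_lit 0) (XT.lf (nat_lit 0) (nat_lit 667554787) (nat_lit 152) (nat_lit 23133638283) (nat_lit 228) (nat_lit 5522627431) (nat_lit 26) (nat_lit 5) (nat_lit 28) (nat_lit 5) (nat_lit 29) (nat_lit 5) (nat_lit 297) (nat_lit 248) (nat_lit 175)) (XT.lf (nat_lit 0) (nat_lit 402557271) (nat_lit 228) (nat_lit 14111324287) (nat_lit 76) (nat_lit 15972246014) (nat_lit 25) (nat_lit 5) (nat_lit 28) (nat_lit 5) (nat_lit 26) (nat_lit 5) (nat_lit 298) (nat_lit 248) (nat_lit 174))))))))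
noncomputable def xc67 : XT := (XT.nd (nat_lit 1638) (nat_lit 228) (nat_lit 0) (XT.nd (nat_lit 780) (nat_lit 608) (nat_lit 0) (XT.nd (nat_lit 390) (nat_lit 304) (nat_lit 0) (XT.nd (nat_lit 156) (nat_lit 152) (nat_lit 0) (XT.nd (nat_lit 78) (nat_lit 0) (nat_lit 0) (XT.lf (nat_lit 0) (nat_lit 1086794099) (nat_lit 152) (nat_lit 5409734293) (nat_lit 228) (nat_lit 25208808624) (nat_lit 23) (nat_lit 5) (nat_lit 25) (nat_lit 5) (nat_lit 26) (nat_lit 5) (nat_lit 299) (nat_lit 248) (nat_lit 173)) (XT.lf (nat_lit 0) (nat_lit 13057694824) (nat_lit 228) (nat_lit 15721783318) (nat_lit 76) (nat_lit 4201182185) (nat_lit 23) (nat_lit 5) (nat_lit 26) (nat_lit 5) (nat_lit 24) (nat_lit 5) (nat_lit 300) (nat_lit 248) (nat_lit 172))) (XT.nd (nat_lit 78) (nat_lit 152) (nat_lit 0) (XT.lf (nat_lit 0) (nat_lit 19978574841) (nat_lit 228) (nat_lit 171940763) (nat_lit 76) (nat_lit 14168311490) (nat_lit 23) (nat_lit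 5) (nat_lit 26) (nat_lit 5) (nat_lit 24) (nat_lit 5) (nat_lit 301) (nat_lit 248) (nat_lit 171)) (XT.nd (nat_lit 78) (nat_lit 0) (nat_lit 0) (XT.lf (nat_lit 0) (nat_lit 16440829658) (nat_lit 152) (nat_lit 10940854708) (nat_lit 228) (nat_lit 8338157937) (nat_lit 21) (nat_lit 5) (nat_lit 23) (nat_lit 5) (nat_lit 24) (nat_lit 5) (nat_lit 302) (nat_lit 248) (nat_lit 170)) (XT.lf (nat_lit 0) (nat_lit 33853461872) (nat_lit 152) (nat_lit 1282113942) (nat_lit 228) (nat_lit 2055938107) (nat_lit 21) (nat_lit 5) (nat_lit 23) (nat_lit 5) (nat_lit 24) (nat_lit 5) (nat_lit 303) (nat_lit 248) (nat_lit 169))))) (XT.nd (nat_lit 156) (nat_lit 152) (nat_lit 0) (XT.nd (nat_lit 78) (nat_lit 0) (nat_lit 0) (XT.lf (nat_lit 0) (nat_lit 4648819399) (nat_lit 152) (nat_lit 25230632993) (nat_lit 76) (nat_lit 8850119198) (nat_lit 19) (nat_lit 5) (nat_lit 21) (nat_lit 5) (nat_lit 20) (nat_lit 5) (nat_lit 304) (nat_lit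 248) (nat_lit 168)) (XT.lf (nat_lit 0) (nat_lit 11674513978) (nat_lit 152) (nat_lit 9162701606) (nat_lit 76) (nat_lit 19505880833) (nat_lit 19) (nat_lit 5) (nat_lit 21) (nat_lit 5) (nat_lit 20) (nat_lit 5) (nat_lit 305) (nat_lit 248) (nat_lit 167))) (XT.nd (nat_lit 78) (nat_lit 0) (nat_lit 0) (XT.lf (nat_lit 0) (nat_lit 7830277947) (nat_lit 152) (nat_lit 11277609221) (nat_lit 228) (nat_lit 22927739004) (nat_lit 17) (nat_lit 5) (nat_lit 19) (nat_lit 5) (nat_lit 20) (nat_lit 5) (nat_lit 306) (nat_lit 248) (nat_lit 166)) (XT.nd (nat_lit 78) (nat_lit 0) (nat_lit 0) (XT.lf (nat_lit 0) (nat_lit 25834127441) (nat_lit 152) (nat_lit 1154855995) (nat_lit 228) (nat_lit 16821536870) (nat_lit 17) (nat_lit 5) (nat_lit 19) (nat_lit 5) (nat_lit 20) (nat_lit 5) (nat_lit 307) (nat_lit 248) (nat_lit 165)) (XT.lf (nat_lit 0) (nat_lit 35337697386) (nat_lit 228) (nat_lit 1056302713) (nat_lit 76) (nat_lit 9277970755)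 (nat_lit 17) (nat_lit 5) (nat_lit 20) (nat_lit 5) (nat_lit 18) (nat_lit 4) (nat_lit 308) (nat_lit 248) (nat_lit 164)))))) (XT.nd (nat_lit 390) (nat_lit 304) (nat_lit 0) (XT.nd (nat_lit 156) (nat_lit 152) (nat_lit 0) (XT.nd (nat_lit 78) (nat_lit 76) (nat_lit 0) (XT.lf (nat_lit 0) (nat_lit 17002056826) (nat_lit 76) (nat_lit 27260206951) (nat_lit 152) (nat_lit 3359495360) (nat_lit 16) (nat_lit 5) (nat_lit 17) (nat_lit 5) (nat_lit 18) (nat_lit 4) (nat_lit 309) (nat_lit 248) (nat_lit 163)) (XT.lf (nat_lit 0) (nat_lit 3881334619) (nat_lit 152) (nat_lit 13748907942) (nat_lit 76) (nat_lit 32037827551) (nat_lit 15) (nat_lit 5) (nat_lit 17) (nat_lit 5) (nat_lit 16) (nat_lit 5) (nat_lit 310) (nat_lit 248) (nat_lit 162))) (XT.nd (nat_lit 78) (nat_lit 0) (nat_lit 0) (XT.lf (nat_lit 0) (nat_lit 3983155056) (nat_lit 152) (nat_lit 7454966814) (nat_lit 228) (nat_lit 40376890634) (nat_lit 13) (nat_lit 5)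 (nat_lit 15) (nat_lit 5) (nat_lit 16) (nat_lit 5) (nat_lit 311) (nat_lit 248) (nat_lit 161)) (XT.nd (nat_lit 78) (nat_lit 0) (nat_lit 0) (XT.lf (nat_lit 0) (nat_lit 19531580770) (nat_lit 228) (nat_lit 31234072133) (nat_lit 76) (nat_lit 3298898995) (nat_lit 13) (nat_lit 5) (nat_lit 16) (nat_lit 5) (nat_lit 14) (nat_lit 4) (nat_lit 312) (nat_lit 248) (nat_lit 160)) (XT.lf (nat_lit 0) (nat_lit 28090536707) (nat_lit 228) (nat_lit 13906126061) (nat_lit 76) (nat_lit 14428094915) (nat_lit 13) (nat_lit 5) (nat_lit 16) (nat_lit 5) (nat_lit 14) (nat_lit 4) (nat_lit 313) (nat_lit 248) (nat_lit 159))))) (XT.nd (nat_lit 234) (nat_lit 228) (nat_lit 0) (XT.nd (nat_lit 78) (nat_lit 0) (nat_lit 0) (XT.lf (nat_lit 0) (nat_lit 4349779344) (nat_lit 76) (nat_lit 32755739844) (nat_lit 152) (nat_lit 21796625680) (nat_lit 12) (nat_lit 5) (nat_lit 13) (nat_lit 5) (nat_lit 14) (nat_lit 4) (nat_lit 314) (nat_lit 248)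 (nat_lit 158)) (XT.nd (nat_lit 78) (nat_lit 0) (nat_lit 0) (XT.lf (nat_lit 0) (nat_lit 23786427723) (nat_lit 76) (nat_lit 22914676653) (nat_lit 152) (nat_lit 14798414258) (nat_lit 12) (nat_lit 5) (nat_lit 13) (nat_lit 5) (nat_lit 14) (nat_lit 4) (nat_lit 315) (nat_lit 248) (nat_lit 157)) (XT.lf (nat_lit 0) (nat_lit 44173337634) (nat_lit 76) (nat_lit 12590466699) (nat_lit 152) (nat_lit 7463348909) (nat_lit 12) (nat_lit 5) (nat_lit 13) (nat_lit 5) (nat_lit 14) (nat_lit 4) (nat_lit 316) (nat_lit 248) (nat_lit 156)))) (XT.nd (nat_lit 78) (nat_lit 152) (nat_lit 0) (XT.lf (nat_lit 0) (nat_lit 221624055) (nat_lit 152) (nat_lit 1534666506) (nat_lit 76) (nat_lit 65335187316) (nat_lit 11) (nat_lit 5) (nat_lit 13) (nat_lit 5) (nat_lit 12) (nat_lit 5) (nat_lit 317) (nat_lit 248) (nat_lit 155)) (XT.nd (nat_lit 78) (nat_lit 0) (nat_lit 0) (XT.lf (nat_lit 0) (nat_lit 8395840965) (nat_lit 228) (nat_lit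 52016881118) (nat_lit 76) (nat_lit 9676310121) (nat_lit 9) (nat_lit 5) (nat_lit 12) (nat_lit 5) (nat_lit 10) (nat_lit 4) (nat_lit 318) (nat_lit 248) (nat_lit 154)) (XT.lf (nat_lit 0) (nat_lit 17001129309) (nat_lit 228) (nat_lit 34582004023) (nat_lit 76) (nat_lit 21652670345) (nat_lit 9) (nat_lit 5) (nat_lit 12) (nat_lit 5) (nat_lit 10) (nat_lit 4) (nat_lit 319) (nat_lit 248) (nat_lit 153))))))) (XT.nd (nat_lit 32058) (nat_lit 0) (nat_lit 12692) (XT.nd (nat_lit 390) (nat_lit 152) (nat_lit 0) (XT.nd (nat_lit 156) (nat_lit 0) (nat_lit 0) (XT.nd (nat_lit 78) (nat_lit 76) (nat_lit 0) (XT.lf (nat_lit 0) (nat_lit 26025900610) (nat_lit 228) (nat_lit 16293964227) (nat_lit 76) (nat_lit 34220382091) (nat_lit 9) (nat_lit 5) (nat_lit 12) (nat_lit 5) (nat_lit 10) (nat_lit 4) (nat_lit 320) (nat_lit 248) (nat_lit 152)) (XT.lf (nat_lit 0) (nat_lit 2948313437) (nat_lit 76) (nat_lit 32571669975) (nat_lit 152)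 (nat_lit 44489396036) (nat_lit 8) (nat_lit 5) (nat_lit 9) (nat_lit 5) (nat_lit 10) (nat_lit 4) (nat_lit 321) (nat_lit 248) (nat_lit 151))) (XT.nd (nat_lit 78) (nat_lit 0) (nat_lit 0) (XT.lf (nat_lit 0) (nat_lit 23476011839) (nat_lit 76) (nat_lit 22170546166) (nat_lit 152) (nat_lit 38000685812) (nat_lit 8) (nat_lit 5) (nat_lit 9) (nat_lit 5) (nat_lit 10) (nat_lit 4) (nat_lit 322) (nat_lit 248) (nat_lit 150)) (XT.nd (nat_lit 78) (nat_lit 0) (nat_lit 0) (XT.lf (nat_lit 0) (nat_lit 45013724615) (nat_lit 76) (nat_lit 11256265920) (nat_lit 152) (nat_lit 31197303424) (nat_lit 8) (nat_lit 5) (nat_lit 9) (nat_lit 5) (nat_lit 10) (nat_lit 4) (nat_lit 323) (nat_lit 248) (nat_lit 149)) (XT.lf (nat_lit 0) (nat_lit 67417470084) (nat_lit 152) (nat_lit 23867788395) (nat_lit 0) (nat_lit 193309897) (nat_lit 8) (nat_lit 5) (nat_lit 10) (nat_lit 4) (nat_lit 8) (nat_lit 4) (nat_lit 324) (nat_lit 248) (nat_lit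 148))))) (XT.nd (nat_lit 156) (nat_lit 76) (nat_lit 0) (XT.nd (nat_lit 78) (nat_lit 76) (nat_lit 0) (XT.lf (nat_lit 0) (nat_lit 79227285383) (nat_lit 152) (nat_lit 4481384384) (nat_lit 0) (nat_lit 11978595543) (nat_lit 8) (nat_lit 5) (nat_lit 10) (nat_lit 4) (nat_lit 8) (nat_lit 4) (nat_lit 325) (nat_lit 248) (nat_lit 147)) (XT.lf (nat_lit 0) (nat_lit 16175648063) (nat_lit 76) (nat_lit 75599195085) (nat_lit 76) (nat_lit 8327143672) (nat_lit 7) (nat_lit 4) (nat_lit 8) (nat_lit 5) (nat_lit 8) (nat_lit 4) (nat_lit 326) (nat_lit 248) (nat_lit 146))) (XT.nd (nat_lit 78) (nat_lit 0) (nat_lit 0) (XT.lf (nat_lit 0) (nat_lit 246713749) (nat_lit 152) (nat_lit 66793471619) (nat_lit 76) (nat_lit 37696048857) (nat_lit 6) (nat_lit 5) (nat_lit 8) (nat_lit 5) (nat_lit 7) (nat_lit 4) (nat_lit 327) (nat_lit 248) (nat_lit 145)) (XT.nd (nat_lit 31356) (nat_lit 0) (nat_lit 15808) (XT.lf (nat_lit 0) (nat_lit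 9070965051) (nat_lit 152) (nat_lit 48901431113) (nat_lit 76) (nat_lit 51627513268) (nat_lit 6) (nat_lit 5) (nat_lit 8) (nat_lit 5) (nat_lit 7) (nat_lit 4) (nat_lit 328) (nat_lit 248) (nat_lit 144)) (XT.lf (nat_lit 0) (nat_lit 1814518434) (nat_lit 0) (nat_lit 1814518434) (nat_lit 684) (nat_lit 79829415) (nat_lit 214) (nat_lit 5) (nat_lit 214) (nat_lit 3) (nat_lit 223) (nat_lit 3) (nat_lit 249) (nat_lit 249) (nat_lit 222)))))) (XT.nd (nat_lit 390) (nat_lit 1596) (nat_lit 0) (XT.nd (nat_lit 156) (nat_lit 684) (nat_lit 0) (XT.nd (nat_lit 78) (nat_lit 0) (nat_lit 76) (XT.lf (nat_lit 76) (nat_lit 1486003348) (nat_lit 0) (nat_lit 591565397) (nat_lit 836) (nat_lit 5451957970) (nat_lit 204) (nat_lit 5) (nat_lit 203) (nat_lit 3) (nat_lit 214) (nat_lit 5) (nat_lit 250) (nat_lit 249) (nat_lit 221)) (XT.lf (nat_lit 0) (nat_lit 4345331784) (nat_lit 760) (nat_lit 649447624) (nat_lit 836) (nat_lit 2654844095)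 (nat_lit 204) (nat_lit 5) (nat_lit 214) (nat_lit 5) (nat_lit 215) (nat_lit 5) (nat_lit 251) (nat_lit 249) (nat_lit 220))) (XT.nd (nat_lit 78) (nat_lit 760) (nat_lit 0) (XT.lf (nat_lit 76) (nat_lit 5029992491) (nat_lit 0) (nat_lit 1615180754) (nat_lit 836) (nat_lit 1133390832) (nat_lit 205) (nat_lit 5) (nat_lit 204) (nat_lit 5) (nat_lit 215) (nat_lit 5) (nat_lit 252) (nat_lit 249) (nat_lit 219)) (XT.nd (nat_lit 78) (nat_lit 0) (nat_lit 0) (XT.lf (nat_lit 0) (nat_lit 1047929152) (nat_lit 836) (nat_lit 4871796484) (nat_lit 912) (nat_lit 1996537957) (nat_lit 194) (nat_lit 5) (nat_lit 205) (nat_lit 5) (nat_lit 206) (nat_lit 5) (nat_lit 253) (nat_lit 249) (nat_lit 218)) (XT.lf (nat_lit 76) (nat_lit 1037089619) (nat_lit 0) (nat_lit 2207333578) (nat_lit 912) (nat_lit 4818553727) (nat_lit 195) (nat_lit 5) (nat_lit 194) (nat_lit 5) (nat_lit 206) (nat_lit 5) (nat_lit 254) (nat_lit 249) (nat_lit 217)))))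 (XT.nd (nat_lit 234) (nat_lit 836) (nat_lit 0) (XT.nd (nat_lit 78) (nat_lit 836) (nat_lit 0) (XT.lf (nat_lit 0) (nat_lit 5497770216) (nat_lit 836) (nat_lit 970835013) (nat_lit 912) (nat_lit 1750345030) (nat_lit 195) (nat_lit 5) (nat_lit 206) (nat_lit 5) (nat_lit 207) (nat_lit 5) (nat_lit 255) (nat_lit 249) (nat_lit 216)) (XT.nd (nat_lit 78) (nat_lit 836) (nat_lit 0) (XT.lf (nat_lit 76) (nat_lit 5392011657) (nat_lit 0) (nat_lit 2431720584) (nat_lit 912) (nat_lit 560510811) (nat_lit 196) (nat_lit 5) (nat_lit 195) (nat_lit 5) (nat_lit 207) (nat_lit 5) (nat_lit 256) (nat_lit 249) (nat_lit 215)) (XT.lf (nat_lit 0) (nat_lit 1626133102) (nat_lit 912) (nat_lit 5068305498) (nat_lit 988) (nat_lit 1864626219) (nat_lit 184) (nat_lit 5) (nat_lit 196) (nat_lit 5) (nat_lit 197) (nat_lit 5) (nat_lit 257) (nat_lit 249) (nat_lit 214)))) (XT.nd (nat_lit 78) (nat_lit 836) (nat_lit 0) (XT.lf (nat_lit 76) (nat_lit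 1538555472) (nat_lit 0) (nat_lit 2336514438) (nat_lit 988) (nat_lit 4868735800) (nat_lit 185) (nat_lit 5) (nat_lit 184) (nat_lit 5) (nat_lit 197) (nat_lit 5) (nat_lit 258) (nat_lit 249) (nat_lit 213)) (XT.nd (nat_lit 78) (nat_lit 912) (nat_lit 0) (XT.lf (nat_lit 0) (nat_lit 6209210645) (nat_lit 912) (nat_lit 457542030) (nat_lit 76) (nat_lit 2272115983) (nat_lit 185) (nat_lit 5) (nat_lit 197) (nat_lit 5) (nat_lit 186) (nat_lit 5) (nat_lit 259) (nat_lit 249) (nat_lit 212)) (XT.lf (nat_lit 0) (nat_lit 6656767410) (nat_lit 912) (nat_lit 1994235507) (nat_lit 988) (nat_lit 493208475) (nat_lit 173) (nat_lit 5) (nat_lit 185) (nat_lit 5) (nat_lit 186) (nat_lit 5) (nat_lit 260) (nat_lit 249) (nat_lit 211))))))))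
noncomputable def xc68 : XT := (XT.nd (nat_lit 1638) (nat_lit 3040) (nat_lit 0) (XT.nd (nat_lit 780) (nat_lit 3116) (nat_lit 0) (XT.nd (nat_lit 390) (nat_lit 1976) (nat_lit 0) (XT.nd (nat_lit 156) (nat_lit 1292) (nat_lit 0) (XT.nd (nat_lit 78) (nat_lit 1064) (nat_lit 0) (XT.lf (nat_lit 0) (nat_lit 1804450523) (nat_lit 1064) (nat_lit 4614672349) (nat_lit 76) (nat_lit 2940831613) (nat_lit 159) (nat_lit 5) (nat_lit 173) (nat_lit 5) (nat_lit 160) (nat_lit 5) (nat_lit 261) (nat_lit 249) (nat_lit 210)) (XT.lf (nat_lit 0) (nat_lit 2756474134) (nat_lit 1064) (nat_lit 1432895599) (nat_lit 1140) (nat_lit 5397715710) (nat_lit 145) (nat_lit 5) (nat_lit 159) (nat_lit 5) (nat_lit 160) (nat_lit 5) (nat_lit 262) (nat_lit 249) (nat_lit 209))) (XT.nd (nat_lit 78) (nat_lit 608) (nat_lit 0) (XT.lf (nat_lit 0) (nat_lit 665891338) (nat_lit 684) (nat_lit 6032232866) (nat_lit 760) (nat_lit 3127524908) (nat_lit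 136) (nat_lit 5) (nat_lit 145) (nat_lit 5) (nat_lit 146) (nat_lit 5) (nat_lit 263) (nat_lit 249) (nat_lit 208)) (XT.nd (nat_lit 78) (nat_lit 608) (nat_lit 0) (XT.lf (nat_lit 0) (nat_lit 8588917680) (nat_lit 684) (nat_lit 745073348) (nat_lit 760) (nat_lit 742303357) (nat_lit 136) (nat_lit 5) (nat_lit 145) (nat_lit 5) (nat_lit 146) (nat_lit 5) (nat_lit 264) (nat_lit 249) (nat_lit 207)) (XT.lf (nat_lit 0) (nat_lit 1758364272) (nat_lit 608) (nat_lit 3780542517) (nat_lit 76) (nat_lit 4799328126) (nat_lit 128) (nat_lit 5) (nat_lit 136) (nat_lit 5) (nat_lit 129) (nat_lit 5) (nat_lit 265) (nat_lit 249) (nat_lit 206))))) (XT.nd (nat_lit 156) (nat_lit 988) (nat_lit 0) (XT.nd (nat_lit 78) (nat_lit 456) (nat_lit 0) (XT.lf (nat_lit 0) (nat_lit 4358092912) (nat_lit 608) (nat_lit 6194637180) (nat_lit 76) (nat_lit 60819849) (nat_lit 121) (nat_lit 5) (nat_lit 129) (nat_lit 5) (nat_lit 122) (nat_lit 5) (nat_lit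 266) (nat_lit 249) (nat_lit 205)) (XT.lf (nat_lit 0) (nat_lit 2115789092) (nat_lit 456) (nat_lit 5013710695) (nat_lit 532) (nat_lit 3772050982) (nat_lit 115) (nat_lit 5) (nat_lit 121) (nat_lit 5) (nat_lit 122) (nat_lit 5) (nat_lit 267) (nat_lit 249) (nat_lit 204))) (XT.nd (nat_lit 78) (nat_lit 988) (nat_lit 0) (XT.lf (nat_lit 0) (nat_lit 10040531438) (nat_lit 532) (nat_lit 314405221) (nat_lit 76) (nat_lit 849146019) (nat_lit 115) (nat_lit 5) (nat_lit 122) (nat_lit 5) (nat_lit 116) (nat_lit 5) (nat_lit 268) (nat_lit 249) (nat_lit 203)) (XT.nd (nat_lit 78) (nat_lit 456) (nat_lit 0) (XT.lf (nat_lit 0) (nat_lit 1610987978) (nat_lit 532) (nat_lit 2909091905) (nat_lit 76) (nat_lit 6999366735) (nat_lit 108) (nat_lit 5) (nat_lit 115) (nat_lit 5) (nat_lit 109) (nat_lit 5) (nat_lit 269) (nat_lit 249) (nat_lit 202)) (XT.lf (nat_lit 0) (nat_lit 4513262463) (nat_lit 532) (nat_lit 5691464080) (nat_lit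 76) (nat_lit 1645257683) (nat_lit 102) (nat_lit 5) (nat_lit 109) (nat_lit 5) (nat_lit 103) (nat_lit 5) (nat_lit 270) (nat_lit 249) (nat_lit 201)))))) (XT.nd (nat_lit 390) (nat_lit 1444) (nat_lit 0) (XT.nd (nat_lit 156) (nat_lit 836) (nat_lit 0) (XT.nd (nat_lit 78) (nat_lit 380) (nat_lit 0) (XT.lf (nat_lit 0) (nat_lit 3495464192) (nat_lit 456) (nat_lit 4111165105) (nat_lit 532) (nat_lit 4589176488) (nat_lit 96) (nat_lit 5) (nat_lit 102) (nat_lit 5) (nat_lit 103) (nat_lit 5) (nat_lit 271) (nat_lit 249) (nat_lit 200)) (XT.lf (nat_lit 0) (nat_lit 622256564) (nat_lit 380) (nat_lit 10258340948) (nat_lit 456) (nat_lit 1677672849) (nat_lit 91) (nat_lit 5) (nat_lit 96) (nat_lit 5) (nat_lit 97) (nat_lit 5) (nat_lit 272) (nat_lit 249) (nat_lit 199))) (XT.nd (nat_lit 78) (nat_lit 760) (nat_lit 0) (XT.lf (nat_lit 0) (nat_lit 1424778969) (nat_lit 456) (nat_lit 2469127515) (nat_lit 76) (nat_lit 9042505327)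 (nat_lit 90) (nat_lit 5) (nat_lit 96) (nat_lit 5) (nat_lit 91) (nat_lit 5) (nat_lit 273) (nat_lit 249) (nat_lit 198)) (XT.nd (nat_lit 78) (nat_lit 380) (nat_lit 0) (XT.lf (nat_lit 0) (nat_lit 4691187466) (nat_lit 456) (nat_lit 5825773290) (nat_lit 76) (nat_lit 2814809750) (nat_lit 85) (nat_lit 5) (nat_lit 91) (nat_lit 5) (nat_lit 86) (nat_lit 5) (nat_lit 274) (nat_lit 249) (nat_lit 197)) (XT.lf (nat_lit 0) (nat_lit 4262451160) (nat_lit 380) (nat_lit 3909581152) (nat_lit 456) (nat_lit 5573440317) (nat_lit 80) (nat_lit 5) (nat_lit 85) (nat_lit 5) (nat_lit 86) (nat_lit 5) (nat_lit 275) (nat_lit 249) (nat_lit 196))))) (XT.nd (nat_lit 234) (nat_lit 684) (nat_lit 0) (XT.nd (nat_lit 78) (nat_lit 380) (nat_lit 0) (XT.lf (nat_lit 0) (nat_lit 716872857) (nat_lit 380) (nat_lit 11153659231) (nat_lit 456) (nat_lit 2308123170) (nat_lit 75) (nat_lit 5) (nat_lit 80) (nat_lit 5) (nat_lit 81) (nat_lit 5)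 (nat_lit 276) (nat_lit 249) (nat_lit 195)) (XT.nd (nat_lit 78) (nat_lit 304) (nat_lit 0) (XT.lf (nat_lit 0) (nat_lit 1184991185) (nat_lit 456) (nat_lit 3122244724) (nat_lit 76) (nat_lit 10323442088) (nat_lit 74) (nat_lit 5) (nat_lit 80) (nat_lit 5) (nat_lit 75) (nat_lit 5) (nat_lit 277) (nat_lit 249) (nat_lit 194)) (XT.lf (nat_lit 0) (nat_lit 4859811408) (nat_lit 380) (nat_lit 7331562706) (nat_lit 76) (nat_lit 2911689999) (nat_lit 70) (nat_lit 5) (nat_lit 75) (nat_lit 5) (nat_lit 71) (nat_lit 5) (nat_lit 278) (nat_lit 249) (nat_lit 193)))) (XT.nd (nat_lit 78) (nat_lit 380) (nat_lit 0) (XT.lf (nat_lit 0) (nat_lit 3642468784) (nat_lit 304) (nat_lit 5139294437) (nat_lit 380) (nat_lit 6815491635) (nat_lit 66) (nat_lit 5) (nat_lit 70) (nat_lit 5) (nat_lit 71) (nat_lit 5) (nat_lit 279) (nat_lit 249) (nat_lit 192)) (XT.nd (nat_lit 78) (nat_lit 380) (nat_lit 0) (XT.lf (nat_lit 0) (nat_lit 12951801852)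 (nat_lit 380) (nat_lit 879444441) (nat_lit 76) (nat_lit 2283432063) (nat_lit 66) (nat_lit 5) (nat_lit 71) (nat_lit 5) (nat_lit 67) (nat_lit 5) (nat_lit 280) (nat_lit 249) (nat_lit 191)) (XT.lf (nat_lit 0) (nat_lit 772647405) (nat_lit 380) (nat_lit 5811235579) (nat_lit 76) (nat_lit 10070570845) (nat_lit 61) (nat_lit 5) (nat_lit 66) (nat_lit 5) (nat_lit 62) (nat_lit 5) (nat_lit 281) (nat_lit 249) (nat_lit 190))))))) (XT.nd (nat_lit 780) (nat_lit 1140) (nat_lit 0) (XT.nd (nat_lit 390) (nat_lit 760) (nat_lit 0) (XT.nd (nat_lit 156) (nat_lit 608) (nat_lit 0) (XT.nd (nat_lit 78) (nat_lit 228) (nat_lit 0) (XT.lf (nat_lit 0) (nat_lit 4874657575) (nat_lit 380) (nat_lit 11254021012) (nat_lit 76) (nat_lit 1090619323) (nat_lit 57) (nat_lit 5) (nat_lit 62) (nat_lit 5) (nat_lit 58) (nat_lit 5) (nat_lit 282) (nat_lit 249) (nat_lit 189)) (XT.lf (nat_lit 0) (nat_lit 527440083) (nat_lit 228) (nat_lit 8744851737)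 (nat_lit 304) (nat_lit 8537446189) (nat_lit 54) (nat_lit 5) (nat_lit 57) (nat_lit 5) (nat_lit 58) (nat_lit 5) (nat_lit 283) (nat_lit 249) (nat_lit 188))) (XT.nd (nat_lit 78) (nat_lit 608) (nat_lit 0) (XT.lf (nat_lit 0) (nat_lit 13077521480) (nat_lit 228) (nat_lit 888160760) (nat_lit 304) (nat_lit 4461807853) (nat_lit 54) (nat_lit 5) (nat_lit 57) (nat_lit 5) (nat_lit 58) (nat_lit 5) (nat_lit 284) (nat_lit 249) (nat_lit 187)) (XT.nd (nat_lit 78) (nat_lit 304) (nat_lit 0) (XT.lf (nat_lit 0) (nat_lit 7194565480) (nat_lit 304) (nat_lit 11800881755) (nat_lit 380) (nat_lit 77694450) (nat_lit 50) (nat_lit 5) (nat_lit 54) (nat_lit 5) (nat_lit 55) (nat_lit 5) (nat_lit 285) (nat_lit 249) (nat_lit 186)) (XT.lf (nat_lit 0) (nat_lit 634781653) (nat_lit 228) (nat_lit 3835892060) (nat_lit 304) (nat_lit 15278154550) (nat_lit 46) (nat_lit 5) (nat_lit 49) (nat_lit 5) (nat_lit 50) (nat_lit 5) (nat_lit 286)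 (nat_lit 249) (nat_lit 185))))) (XT.nd (nat_lit 156) (nat_lit 532) (nat_lit 0) (XT.nd (nat_lit 78) (nat_lit 228) (nat_lit 0) (XT.lf (nat_lit 0) (nat_lit 9375682297) (nat_lit 304) (nat_lit 6530862353) (nat_lit 76) (nat_lit 4547862104) (nat_lit 46) (nat_lit 5) (nat_lit 50) (nat_lit 5) (nat_lit 47) (nat_lit 5) (nat_lit 287) (nat_lit 249) (nat_lit 184)) (XT.lf (nat_lit 0) (nat_lit 6723728913) (nat_lit 228) (nat_lit 7871089332) (nat_lit 304) (nat_lit 6598432505) (nat_lit 43) (nat_lit 5) (nat_lit 46) (nat_lit 5) (nat_lit 47) (nat_lit 5) (nat_lit 288) (nat_lit 249) (nat_lit 183))) (XT.nd (nat_lit 78) (nat_lit 532) (nat_lit 0) (XT.lf (nat_lit 0) (nat_lit 20114799366) (nat_lit 304) (nat_lit 1245302249) (nat_lit 76) (nat_lit 607789045) (nat_lit 43) (nat_lit 5) (nat_lit 47) (nat_lit 5) (nat_lit 44) (nat_lit 5) (nat_lit 289) (nat_lit 249) (nat_lit 182)) (XT.nd (nat_lit 78) (nat_lit 228) (nat_lit 0)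 (XT.lf (nat_lit 0) (nat_lit 3240356338) (nat_lit 304) (nat_lit 10045580333) (nat_lit 76) (nat_lit 9489312757) (nat_lit 39) (nat_lit 5) (nat_lit 43) (nat_lit 5) (nat_lit 40) (nat_lit 5) (nat_lit 290) (nat_lit 249) (nat_lit 181)) (XT.lf (nat_lit 0) (nat_lit 3815809694) (nat_lit 228) (nat_lit 4753193699) (nat_lit 304) (nat_lit 15052901117) (nat_lit 36) (nat_lit 5) (nat_lit 39) (nat_lit 5) (nat_lit 40) (nat_lit 5) (nat_lit 291) (nat_lit 249) (nat_lit 180)))))) (XT.nd (nat_lit 390) (nat_lit 532) (nat_lit 0) (XT.nd (nat_lit 156) (nat_lit 456) (nat_lit 0) (XT.nd (nat_lit 78) (nat_lit 152) (nat_lit 0) (XT.lf (nat_lit 0) (nat_lit 14278719551) (nat_lit 304) (nat_lit 6015156020) (nat_lit 76) (nat_lit 4213619915) (nat_lit 36) (nat_lit 5) (nat_lit 40) (nat_lit 5) (nat_lit 37) (nat_lit 5) (nat_lit 292) (nat_lit 249) (nat_lit 179)) (XT.lf (nat_lit 0) (nat_lit 8540095957) (nat_lit 152) (nat_lit 11835102902)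 (nat_lit 228) (nat_lit 5059169061) (nat_lit 34) (nat_lit 5) (nat_lit 36) (nat_lit 5) (nat_lit 37) (nat_lit 5) (nat_lit 293) (nat_lit 249) (nat_lit 178))) (XT.nd (nat_lit 78) (nat_lit 380) (nat_lit 0) (XT.lf (nat_lit 0) (nat_lit 396110524) (nat_lit 228) (nat_lit 2504321465) (nat_lit 76) (nat_lit 23506051060) (nat_lit 33) (nat_lit 5) (nat_lit 36) (nat_lit 5) (nat_lit 34) (nat_lit 5) (nat_lit 294) (nat_lit 249) (nat_lit 177)) (XT.nd (nat_lit 78) (nat_lit 152) (nat_lit 0) (XT.lf (nat_lit 0) (nat_lit 6180249213) (nat_lit 304) (nat_lit 14724804405) (nat_lit 76) (nat_lit 6515861224) (nat_lit 30) (nat_lit 5) (nat_lit 34) (nat_lit 5) (nat_lit 31) (nat_lit 5) (nat_lit 295) (nat_lit 249) (nat_lit 176)) (XT.lf (nat_lit 0) (nat_lit 156443782) (nat_lit 152) (nat_lit 12127918544) (nat_lit 228) (nat_lit 16200816615) (nat_lit 28) (nat_lit 5) (nat_lit 30) (nat_lit 5) (nat_lit 31) (nat_lit 5) (nat_lit 296)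 (nat_lit 249) (nat_lit 175))))) (XT.nd (nat_lit 234) (nat_lit 304) (nat_lit 0) (XT.nd (nat_lit 78) (nat_lit 228) (nat_lit 0) (XT.lf (nat_lit 0) (nat_lit 16049944551) (nat_lit 152) (nat_lit 2770129731) (nat_lit 228) (nat_lit 10778822301) (nat_lit 28) (nat_lit 5) (nat_lit 30) (nat_lit 5) (nat_lit 31) (nat_lit 5) (nat_lit 297) (nat_lit 249) (nat_lit 174)) (XT.nd (nat_lit 78) (nat_lit 76) (nat_lit 0) (XT.lf (nat_lit 0) (nat_lit 1900837913) (nat_lit 152) (nat_lit 23843710642) (nat_lit 228) (nat_lit 5021922854) (nat_lit 26) (nat_lit 5) (nat_lit 28) (nat_lit 5) (nat_lit 29) (nat_lit 5) (nat_lit 298) (nat_lit 249) (nat_lit 173)) (XT.lf (nat_lit 0) (nat_lit 1148091878) (nat_lit 228) (nat_lit 13658816138) (nat_lit 76) (nat_lit 17180893421) (nat_lit 25) (nat_lit 5) (nat_lit 28) (nat_lit 5) (nat_lit 26) (nat_lit 5) (nat_lit 299) (nat_lit 249) (nat_lit 172)))) (XT.nd (nat_lit 78) (nat_lit 152) (nat_lit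 0) (XT.lf (nat_lit 0) (nat_lit 2266012198) (nat_lit 152) (nat_lit 5257019197) (nat_lit 228) (nat_lit 25745693305) (nat_lit 23) (nat_lit 5) (nat_lit 25) (nat_lit 5) (nat_lit 26) (nat_lit 5) (nat_lit 300) (nat_lit 249) (nat_lit 171)) (XT.nd (nat_lit 78) (nat_lit 152) (nat_lit 0) (XT.lf (nat_lit 0) (nat_lit 14382717336) (nat_lit 228) (nat_lit 15419596783) (nat_lit 76) (nat_lit 4806425692) (nat_lit 23) (nat_lit 5) (nat_lit 26) (nat_lit 5) (nat_lit 24) (nat_lit 5) (nat_lit 301) (nat_lit 249) (nat_lit 170)) (XT.lf (nat_lit 0) (nat_lit 872949637) (nat_lit 152) (nat_lit 20753076482) (nat_lit 228) (nat_lit 14388534846) (nat_lit 21) (nat_lit 5) (nat_lit 23) (nat_lit 5) (nat_lit 24) (nat_lit 5) (nat_lit 302) (nat_lit 249) (nat_lit 169))))))))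
noncomputable def xc69 : XT := (XT.nd (nat_lit 1638) (nat_lit 152) (nat_lit 0) (XT.nd (nat_lit 780) (nat_lit 380) (nat_lit 0) (XT.nd (nat_lit 390) (nat_lit 304) (nat_lit 0) (XT.nd (nat_lit 156) (nat_lit 304) (nat_lit 0) (XT.nd (nat_lit 78) (nat_lit 0) (nat_lit 0) (XT.lf (nat_lit 0) (nat_lit 18269614471) (nat_lit 152) (nat_lit 11100480318) (nat_lit 228) (nat_lit 8116443835) (nat_lit 21) (nat_lit 5) (nat_lit 23) (nat_lit 5) (nat_lit 24) (nat_lit 5) (nat_lit 303) (nat_lit 249) (nat_lit 168)) (XT.lf (nat_lit 0) (nat_lit 36504938137) (nat_lit 152) (nat_lit 977250949) (nat_lit 228) (nat_lit 1550523586) (nat_lit 21) (nat_lit 5) (nat_lit 23) (nat_lit 5) (nat_lit 24) (nat_lit 5) (nat_lit 304) (nat_lit 249) (nat_lit 167))) (XT.nd (nat_lit 78) (nat_lit 152) (nat_lit 0) (XT.lf (nat_lit 0) (nat_lit 5461798307) (nat_lit 152) (nat_lit 25534255915) (nat_lit 76) (nat_lit 9651949285) (nat_lit 19) (nat_lit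 5) (nat_lit 21) (nat_lit 5) (nat_lit 20) (nat_lit 5) (nat_lit 305) (nat_lit 249) (nat_lit 166)) (XT.nd (nat_lit 78) (nat_lit 152) (nat_lit 0) (XT.lf (nat_lit 0) (nat_lit 12811132951) (nat_lit 152) (nat_lit 8708542661) (nat_lit 76) (nat_lit 20823388329) (nat_lit 19) (nat_lit 5) (nat_lit 21) (nat_lit 5) (nat_lit 20) (nat_lit 5) (nat_lit 306) (nat_lit 249) (nat_lit 165)) (XT.lf (nat_lit 0) (nat_lit 9107935145) (nat_lit 152) (nat_lit 11490429556) (nat_lit 228) (nat_lit 23522418380) (nat_lit 17) (nat_lit 5) (nat_lit 19) (nat_lit 5) (nat_lit 20) (nat_lit 5) (nat_lit 307) (nat_lit 249) (nat_lit 164))))) (XT.nd (nat_lit 156) (nat_lit 304) (nat_lit 0) (XT.nd (nat_lit 78) (nat_lit 0) (nat_lit 0) (XT.lf (nat_lit 0) (nat_lit 27969779814) (nat_lit 152) (nat_lit 878255817) (nat_lit 228) (nat_lit 17137177929) (nat_lit 17) (nat_lit 5) (nat_lit 19) (nat_lit 5) (nat_lit 20) (nat_lit 5) (nat_lit 308) (nat_lit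 249) (nat_lit 163)) (XT.lf (nat_lit 0) (nat_lit 37592979333) (nat_lit 228) (nat_lit 293341799) (nat_lit 76) (nat_lit 10054077619) (nat_lit 17) (nat_lit 5) (nat_lit 20) (nat_lit 5) (nat_lit 18) (nat_lit 4) (nat_lit 309) (nat_lit 249) (nat_lit 162))) (XT.nd (nat_lit 78) (nat_lit 228) (nat_lit 0) (XT.lf (nat_lit 0) (nat_lit 18644551661) (nat_lit 76) (nat_lit 28303582337) (nat_lit 152) (nat_lit 3040036354) (nat_lit 16) (nat_lit 5) (nat_lit 17) (nat_lit 5) (nat_lit 18) (nat_lit 4) (nat_lit 310) (nat_lit 249) (nat_lit 161)) (XT.nd (nat_lit 78) (nat_lit 152) (nat_lit 0) (XT.lf (nat_lit 0) (nat_lit 4530565337) (nat_lit 152) (nat_lit 13672178839) (nat_lit 76) (nat_lit 33934617720) (nat_lit 15) (nat_lit 5) (nat_lit 17) (nat_lit 5) (nat_lit 16) (nat_lit 5) (nat_lit 311) (nat_lit 249) (nat_lit 160)) (XT.lf (nat_lit 0) (nat_lit 4924582400) (nat_lit 152) (nat_lit 7526070224) (nat_lit 228) (nat_lit 41941456715)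 (nat_lit 13) (nat_lit 5) (nat_lit 15) (nat_lit 5) (nat_lit 16) (nat_lit 5) (nat_lit 312) (nat_lit 249) (nat_lit 159)))))) (XT.nd (nat_lit 390) (nat_lit 304) (nat_lit 0) (XT.nd (nat_lit 156) (nat_lit 76) (nat_lit 0) (XT.nd (nat_lit 78) (nat_lit 0) (nat_lit 0) (XT.lf (nat_lit 0) (nat_lit 20930563862) (nat_lit 228) (nat_lit 32078610229) (nat_lit 76) (nat_lit 3745518947) (nat_lit 13) (nat_lit 5) (nat_lit 16) (nat_lit 5) (nat_lit 14) (nat_lit 4) (nat_lit 313) (nat_lit 249) (nat_lit 158)) (XT.lf (nat_lit 0) (nat_lit 29897353118) (nat_lit 228) (nat_lit 13918417592) (nat_lit 76) (nat_lit 15417761567) (nat_lit 13) (nat_lit 5) (nat_lit 16) (nat_lit 5) (nat_lit 14) (nat_lit 4) (nat_lit 314) (nat_lit 249) (nat_lit 157))) (XT.nd (nat_lit 78) (nat_lit 0) (nat_lit 0) (XT.lf (nat_lit 0) (nat_lit 5230704601) (nat_lit 76) (nat_lit 34119600829) (nat_lit 152) (nat_lit 22484885559) (nat_lit 12) (nat_lit 5) (nat_lit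 13) (nat_lit 5) (nat_lit 14) (nat_lit 4) (nat_lit 315) (nat_lit 249) (nat_lit 156)) (XT.nd (nat_lit 78) (nat_lit 0) (nat_lit 0) (XT.lf (nat_lit 0) (nat_lit 25607593195) (nat_lit 76) (nat_lit 23799528574) (nat_lit 152) (nat_lit 15155886014) (nat_lit 12) (nat_lit 5) (nat_lit 13) (nat_lit 5) (nat_lit 14) (nat_lit 4) (nat_lit 316) (nat_lit 249) (nat_lit 155)) (XT.lf (nat_lit 0) (nat_lit 46983760789) (nat_lit 76) (nat_lit 12971531071) (nat_lit 152) (nat_lit 7472279252) (nat_lit 12) (nat_lit 5) (nat_lit 13) (nat_lit 5) (nat_lit 14) (nat_lit 4) (nat_lit 317) (nat_lit 249) (nat_lit 154))))) (XT.nd (nat_lit 234) (nat_lit 76) (nat_lit 0) (XT.nd (nat_lit 78) (nat_lit 152) (nat_lit 0) (XT.lf (nat_lit 0) (nat_lit 572828615) (nat_lit 152) (nat_lit 1031214312) (nat_lit 76) (nat_lit 68831489958) (nat_lit 11) (nat_lit 5) (nat_lit 13) (nat_lit 5) (nat_lit 12) (nat_lit 5) (nat_lit 318) (nat_lit 249) (nat_lit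 153)) (XT.nd (nat_lit 78) (nat_lit 0) (nat_lit 0) (XT.lf (nat_lit 0) (nat_lit 9147228625) (nat_lit 228) (nat_lit 54046241425) (nat_lit 76) (nat_lit 10389765719) (nat_lit 9) (nat_lit 5) (nat_lit 12) (nat_lit 5) (nat_lit 10) (nat_lit 4) (nat_lit 319) (nat_lit 249) (nat_lit 152)) (XT.lf (nat_lit 0) (nat_lit 18166991118) (nat_lit 228) (nat_lit 35766833988) (nat_lit 76) (nat_lit 22954008712) (nat_lit 9) (nat_lit 5) (nat_lit 12) (nat_lit 5) (nat_lit 10) (nat_lit 4) (nat_lit 320) (nat_lit 249) (nat_lit 151)))) (XT.nd (nat_lit 78) (nat_lit 76) (nat_lit 0) (XT.lf (nat_lit 0) (nat_lit 27627962635) (nat_lit 228) (nat_lit 16590309832) (nat_lit 76) (nat_lit 36139691528) (nat_lit 9) (nat_lit 5) (nat_lit 12) (nat_lit 5) (nat_lit 10) (nat_lit 4) (nat_lit 321) (nat_lit 249) (nat_lit 150)) (XT.nd (nat_lit 78) (nat_lit 0) (nat_lit 0) (XT.lf (nat_lit 0) (nat_lit 3599223241) (nat_lit 76) (nat_lit 33988043991)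 (nat_lit 152) (nat_lit 46413583344) (nat_lit 8) (nat_lit 5) (nat_lit 9) (nat_lit 5) (nat_lit 10) (nat_lit 4) (nat_lit 322) (nat_lit 249) (nat_lit 149)) (XT.lf (nat_lit 0) (nat_lit 25129330653) (nat_lit 76) (nat_lit 23076969205) (nat_lit 152) (nat_lit 39614736775) (nat_lit 8) (nat_lit 5) (nat_lit 9) (nat_lit 5) (nat_lit 10) (nat_lit 4) (nat_lit 323) (nat_lit 249) (nat_lit 148))))))) (XT.nd (nat_lit 32136) (nat_lit 0) (nat_lit 9272) (XT.nd (nat_lit 31746) (nat_lit 0) (nat_lit 14212) (XT.nd (nat_lit 156) (nat_lit 152) (nat_lit 0) (XT.nd (nat_lit 78) (nat_lit 0) (nat_lit 0) (XT.lf (nat_lit 0) (nat_lit 47721094867) (nat_lit 76) (nat_lit 11626598960) (nat_lit 152) (nat_lit 32484803521) (nat_lit 8) (nat_lit 5) (nat_lit 9) (nat_lit 5) (nat_lit 10) (nat_lit 4) (nat_lit 324) (nat_lit 249) (nat_lit 147)) (XT.lf (nat_lit 0) (nat_lit 71041728353) (nat_lit 152) (nat_lit 24620230108) (nat_lit 0) (nat_lit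 382712795) (nat_lit 8) (nat_lit 5) (nat_lit 10) (nat_lit 4) (nat_lit 8) (nat_lit 4) (nat_lit 325) (nat_lit 249) (nat_lit 146))) (XT.nd (nat_lit 78) (nat_lit 152) (nat_lit 0) (XT.lf (nat_lit 0) (nat_lit 83429968475) (nat_lit 152) (nat_lit 4285503406) (nat_lit 0) (nat_lit 12748703800) (nat_lit 8) (nat_lit 5) (nat_lit 10) (nat_lit 4) (nat_lit 8) (nat_lit 4) (nat_lit 326) (nat_lit 249) (nat_lit 145)) (XT.nd (nat_lit 78) (nat_lit 76) (nat_lit 0) (XT.lf (nat_lit 0) (nat_lit 17392342875) (nat_lit 76) (nat_lit 79204990984) (nat_lit 76) (nat_lit 8502536673) (nat_lit 7) (nat_lit 4) (nat_lit 8) (nat_lit 5) (nat_lit 8) (nat_lit 4) (nat_lit 327) (nat_lit 249) (nat_lit 144)) (XT.lf (nat_lit 0) (nat_lit 484060963) (nat_lit 152) (nat_lit 69739991160) (nat_lit 76) (nat_lit 39742055607) (nat_lit 6) (nat_lit 5) (nat_lit 8) (nat_lit 5) (nat_lit 7) (nat_lit 4) (nat_lit 328) (nat_lit 249) (nat_lit 143))))) (XT.nd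 (nat_lit 156) (nat_lit 760) (nat_lit 0) (XT.nd (nat_lit 78) (nat_lit 0) (nat_lit 0) (XT.lf (nat_lit 0) (nat_lit 2106837195) (nat_lit 836) (nat_lit 857686330) (nat_lit 836) (nat_lit 857686330) (nat_lit 203) (nat_lit 3) (nat_lit 214) (nat_lit 3) (nat_lit 214) (nat_lit 5) (nat_lit 250) (nat_lit 250) (nat_lit 220)) (XT.lf (nat_lit 76) (nat_lit 3756634558) (nat_lit 0) (nat_lit 2615491644) (nat_lit 836) (nat_lit 1395864589) (nat_lit 204) (nat_lit 5) (nat_lit 203) (nat_lit 3) (nat_lit 214) (nat_lit 5) (nat_lit 251) (nat_lit 250) (nat_lit 219))) (XT.nd (nat_lit 78) (nat_lit 0) (nat_lit 0) (XT.lf (nat_lit 0) (nat_lit 637315373) (nat_lit 836) (nat_lit 6316442047) (nat_lit 912) (nat_lit 946808622) (nat_lit 193) (nat_lit 5) (nat_lit 204) (nat_lit 5) (nat_lit 205) (nat_lit 5) (nat_lit 252) (nat_lit 250) (nat_lit 218)) (XT.nd (nat_lit 78) (nat_lit 0) (nat_lit 76) (XT.lf (nat_lit 0) (nat_lit 2686372273)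 (nat_lit 836) (nat_lit 609858163) (nat_lit 912) (nat_lit 4745184352) (nat_lit 193) (nat_lit 5) (nat_lit 204) (nat_lit 5) (nat_lit 205) (nat_lit 5) (nat_lit 253) (nat_lit 250) (nat_lit 217)) (XT.lf (nat_lit 0) (nat_lit 4776862152) (nat_lit 836) (nat_lit 2780232896) (nat_lit 912) (nat_lit 634376700) (nat_lit 194) (nat_lit 5) (nat_lit 205) (nat_lit 5) (nat_lit 206) (nat_lit 5) (nat_lit 254) (nat_lit 250) (nat_lit 216)))))) (XT.nd (nat_lit 390) (nat_lit 4180) (nat_lit 0) (XT.nd (nat_lit 156) (nat_lit 0) (nat_lit 0) (XT.nd (nat_lit 78) (nat_lit 836) (nat_lit 0) (XT.lf (nat_lit 76) (nat_lit 3357160809) (nat_lit 0) (nat_lit 3572750410) (nat_lit 912) (nat_lit 1420698521) (nat_lit 195) (nat_lit 5) (nat_lit 194) (nat_lit 5) (nat_lit 206) (nat_lit 5) (nat_lit 255) (nat_lit 250) (nat_lit 215)) (XT.lf (nat_lit 0) (nat_lit 597293746) (nat_lit 912) (nat_lit 7238254097) (nat_lit 988) (nat_lit 684132406)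 (nat_lit 183) (nat_lit 5) (nat_lit 195) (nat_lit 5) (nat_lit 196) (nat_lit 5) (nat_lit 256) (nat_lit 250) (nat_lit 214))) (XT.nd (nat_lit 78) (nat_lit 0) (nat_lit 76) (XT.lf (nat_lit 0) (nat_lit 2669491546) (nat_lit 912) (nat_lit 846620476) (nat_lit 988) (nat_lit 5181470738) (nat_lit 183) (nat_lit 5) (nat_lit 195) (nat_lit 5) (nat_lit 196) (nat_lit 5) (nat_lit 257) (nat_lit 250) (nat_lit 213)) (XT.nd (nat_lit 78) (nat_lit 0) (nat_lit 0) (XT.lf (nat_lit 0) (nat_lit 4812214363) (nat_lit 912) (nat_lit 2987602356) (nat_lit 988) (nat_lit 1085823949) (nat_lit 184) (nat_lit 5) (nat_lit 196) (nat_lit 5) (nat_lit 197) (nat_lit 5) (nat_lit 258) (nat_lit 250) (nat_lit 212)) (XT.lf (nat_lit 76) (nat_lit 3882694627) (nat_lit 0) (nat_lit 3164850797) (nat_lit 988) (nat_lit 2036246859) (nat_lit 185) (nat_lit 5) (nat_lit 184) (nat_lit 5) (nat_lit 197) (nat_lit 5) (nat_lit 259) (nat_lit 250) (nat_lit 211)))))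 (XT.nd (nat_lit 234) (nat_lit 2356) (nat_lit 0) (XT.nd (nat_lit 78) (nat_lit 988) (nat_lit 0) (XT.lf (nat_lit 0) (nat_lit 73101589) (nat_lit 988) (nat_lit 7480323686) (nat_lit 76) (nat_lit 1739462846) (nat_lit 172) (nat_lit 5) (nat_lit 185) (nat_lit 5) (nat_lit 173) (nat_lit 5) (nat_lit 260) (nat_lit 250) (nat_lit 210)) (XT.nd (nat_lit 78) (nat_lit 988) (nat_lit 0) (XT.lf (nat_lit 0) (nat_lit 2242779822) (nat_lit 988) (nat_lit 351588218) (nat_lit 76) (nat_lit 6917781168) (nat_lit 172) (nat_lit 5) (nat_lit 185) (nat_lit 5) (nat_lit 173) (nat_lit 5) (nat_lit 261) (nat_lit 250) (nat_lit 209)) (XT.lf (nat_lit 0) (nat_lit 4530969601) (nat_lit 1064) (nat_lit 2564680881) (nat_lit 76) (nat_lit 2646635881) (nat_lit 159) (nat_lit 5) (nat_lit 173) (nat_lit 5) (nat_lit 160) (nat_lit 5) (nat_lit 262) (nat_lit 250) (nat_lit 208)))) (XT.nd (nat_lit 78) (nat_lit 1292) (nat_lit 0) (XT.lf (nat_lit 0) (nat_lit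 5109646400) (nat_lit 1064) (nat_lit 1821245726) (nat_lit 1140) (nat_lit 3053322209) (nat_lit 145) (nat_lit 5) (nat_lit 159) (nat_lit 5) (nat_lit 160) (nat_lit 5) (nat_lit 263) (nat_lit 250) (nat_lit 207)) (XT.nd (nat_lit 78) (nat_lit 608) (nat_lit 0) (XT.lf (nat_lit 0) (nat_lit 2933857448) (nat_lit 684) (nat_lit 6529234511) (nat_lit 760) (nat_lit 774972273) (nat_lit 136) (nat_lit 5) (nat_lit 145) (nat_lit 5) (nat_lit 146) (nat_lit 5) (nat_lit 264) (nat_lit 250) (nat_lit 206)) (XT.lf (nat_lit 0) (nat_lit 638609729) (nat_lit 532) (nat_lit 946148896) (nat_lit 608) (nat_lit 8919590270) (nat_lit 128) (nat_lit 5) (nat_lit 135) (nat_lit 5) (nat_lit 136) (nat_lit 5) (nat_lit 265) (nat_lit 250) (nat_lit 205))))))))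
noncomputable def xc70 : XT := (XT.nd (nat_lit 1638) (nat_lit 2280) (nat_lit 0) (XT.nd (nat_lit 780) (nat_lit 2736) (nat_lit 0) (XT.nd (nat_lit 390) (nat_lit 1748) (nat_lit 0) (XT.nd (nat_lit 156) (nat_lit 988) (nat_lit 0) (XT.nd (nat_lit 78) (nat_lit 532) (nat_lit 0) (XT.lf (nat_lit 0) (nat_lit 4096621494) (nat_lit 608) (nat_lit 1777581523) (nat_lit 76) (nat_lit 4908180197) (nat_lit 128) (nat_lit 5) (nat_lit 136) (nat_lit 5) (nat_lit 129) (nat_lit 5) (nat_lit 266) (nat_lit 250) (nat_lit 204)) (XT.lf (nat_lit 0) (nat_lit 6739312755) (nat_lit 608) (nat_lit 4304969742) (nat_lit 76) (nat_lit 30042365) (nat_lit 121) (nat_lit 5) (nat_lit 129) (nat_lit 5) (nat_lit 122) (nat_lit 5) (nat_lit 267) (nat_lit 250) (nat_lit 203))) (XT.nd (nat_lit 78) (nat_lit 532) (nat_lit 0) (XT.lf (nat_lit 0) (nat_lit 4357932505) (nat_lit 456) (nat_lit 5208878401) (nat_lit 532) (nat_lit 1812627442) (nat_lit 115) (nat_lit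 5) (nat_lit 121) (nat_lit 5) (nat_lit 122) (nat_lit 5) (nat_lit 268) (nat_lit 250) (nat_lit 202)) (XT.nd (nat_lit 78) (nat_lit 0) (nat_lit 0) (XT.lf (nat_lit 0) (nat_lit 825948958) (nat_lit 532) (nat_lit 9904692898) (nat_lit 76) (nat_lit 968876349) (nat_lit 108) (nat_lit 5) (nat_lit 115) (nat_lit 5) (nat_lit 109) (nat_lit 5) (nat_lit 269) (nat_lit 250) (nat_lit 201)) (XT.lf (nat_lit 0) (nat_lit 3622114521) (nat_lit 532) (nat_lit 973964989) (nat_lit 76) (nat_lit 7437226122) (nat_lit 108) (nat_lit 5) (nat_lit 115) (nat_lit 5) (nat_lit 109) (nat_lit 5) (nat_lit 270) (nat_lit 250) (nat_lit 200))))) (XT.nd (nat_lit 156) (nat_lit 836) (nat_lit 0) (XT.nd (nat_lit 78) (nat_lit 456) (nat_lit 0) (XT.lf (nat_lit 0) (nat_lit 6598562629) (nat_lit 532) (nat_lit 3896922500) (nat_lit 76) (nat_lit 1887213004) (nat_lit 102) (nat_lit 5) (nat_lit 109) (nat_lit 5) (nat_lit 103) (nat_lit 5) (nat_lit 271) (nat_lit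 250) (nat_lit 199)) (XT.lf (nat_lit 0) (nat_lit 5689754778) (nat_lit 456) (nat_lit 4087701717) (nat_lit 532) (nat_lit 2970618807) (nat_lit 96) (nat_lit 5) (nat_lit 102) (nat_lit 5) (nat_lit 103) (nat_lit 5) (nat_lit 272) (nat_lit 250) (nat_lit 198))) (XT.nd (nat_lit 78) (nat_lit 380) (nat_lit 0) (XT.lf (nat_lit 0) (nat_lit 20171416) (nat_lit 456) (nat_lit 10462224599) (nat_lit 76) (nat_lit 2648356158) (nat_lit 90) (nat_lit 5) (nat_lit 96) (nat_lit 5) (nat_lit 91) (nat_lit 5) (nat_lit 273) (nat_lit 250) (nat_lit 197)) (XT.nd (nat_lit 78) (nat_lit 380) (nat_lit 0) (XT.lf (nat_lit 0) (nat_lit 3160164200) (nat_lit 456) (nat_lit 636720338) (nat_lit 76) (nat_lit 9733071958) (nat_lit 90) (nat_lit 5) (nat_lit 96) (nat_lit 5) (nat_lit 91) (nat_lit 5) (nat_lit 274) (nat_lit 250) (nat_lit 196)) (XT.lf (nat_lit 0) (nat_lit 6531761538) (nat_lit 456) (nat_lit 4168827465) (nat_lit 76) (nat_lit 3246397666)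 (nat_lit 85) (nat_lit 5) (nat_lit 91) (nat_lit 5) (nat_lit 86) (nat_lit 5) (nat_lit 275) (nat_lit 250) (nat_lit 195)))))) (XT.nd (nat_lit 390) (nat_lit 1292) (nat_lit 0) (XT.nd (nat_lit 156) (nat_lit 684) (nat_lit 0) (XT.nd (nat_lit 78) (nat_lit 380) (nat_lit 0) (XT.lf (nat_lit 0) (nat_lit 6367962456) (nat_lit 380) (nat_lit 3760400077) (nat_lit 456) (nat_lit 4254911944) (nat_lit 80) (nat_lit 5) (nat_lit 85) (nat_lit 5) (nat_lit 86) (nat_lit 5) (nat_lit 276) (nat_lit 250) (nat_lit 194)) (XT.lf (nat_lit 0) (nat_lit 2635695864) (nat_lit 380) (nat_lit 11323645740) (nat_lit 456) (nat_lit 880492764) (nat_lit 75) (nat_lit 5) (nat_lit 80) (nat_lit 5) (nat_lit 81) (nat_lit 5) (nat_lit 277) (nat_lit 250) (nat_lit 193))) (XT.nd (nat_lit 78) (nat_lit 608) (nat_lit 0) (XT.lf (nat_lit 0) (nat_lit 2685122995) (nat_lit 456) (nat_lit 1453689908) (nat_lit 76) (nat_lit 11177495536) (nat_lit 74) (nat_lit 5)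 (nat_lit 80) (nat_lit 5) (nat_lit 75) (nat_lit 5) (nat_lit 278) (nat_lit 250) (nat_lit 192)) (XT.nd (nat_lit 78) (nat_lit 304) (nat_lit 0) (XT.lf (nat_lit 0) (nat_lit 6495790013) (nat_lit 380) (nat_lit 5885230995) (nat_lit 76) (nat_lit 3432857155) (nat_lit 70) (nat_lit 5) (nat_lit 75) (nat_lit 5) (nat_lit 71) (nat_lit 5) (nat_lit 279) (nat_lit 250) (nat_lit 191)) (XT.lf (nat_lit 0) (nat_lit 5585535373) (nat_lit 304) (nat_lit 4978898543) (nat_lit 380) (nat_lit 5769948098) (nat_lit 66) (nat_lit 5) (nat_lit 70) (nat_lit 5) (nat_lit 71) (nat_lit 5) (nat_lit 280) (nat_lit 250) (nat_lit 190))))) (XT.nd (nat_lit 234) (nat_lit 608) (nat_lit 0) (XT.nd (nat_lit 78) (nat_lit 380) (nat_lit 0) (XT.lf (nat_lit 0) (nat_lit 806285256) (nat_lit 304) (nat_lit 14084280490) (nat_lit 380) (nat_lit 1988798828) (nat_lit 62) (nat_lit 5) (nat_lit 66) (nat_lit 5) (nat_lit 67) (nat_lit 5) (nat_lit 281) (nat_lit 250)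 (nat_lit 189)) (XT.nd (nat_lit 78) (nat_lit 304) (nat_lit 0) (XT.lf (nat_lit 0) (nat_lit 2064011014) (nat_lit 380) (nat_lit 4409889499) (nat_lit 76) (nat_lit 10973555851) (nat_lit 61) (nat_lit 5) (nat_lit 66) (nat_lit 5) (nat_lit 62) (nat_lit 5) (nat_lit 282) (nat_lit 250) (nat_lit 188)) (XT.lf (nat_lit 0) (nat_lit 6331442297) (nat_lit 380) (nat_lit 10139186772) (nat_lit 76) (nat_lit 1571205781) (nat_lit 57) (nat_lit 5) (nat_lit 62) (nat_lit 5) (nat_lit 58) (nat_lit 5) (nat_lit 283) (nat_lit 250) (nat_lit 187)))) (XT.nd (nat_lit 78) (nat_lit 380) (nat_lit 0) (XT.lf (nat_lit 0) (nat_lit 2183261166) (nat_lit 228) (nat_lit 8723595977) (nat_lit 304) (nat_lit 7756299816) (nat_lit 54) (nat_lit 5) (nat_lit 57) (nat_lit 5) (nat_lit 58) (nat_lit 5) (nat_lit 284) (nat_lit 250) (nat_lit 186)) (XT.nd (nat_lit 78) (nat_lit 380) (nat_lit 0) (XT.lf (nat_lit 0) (nat_lit 15283253819) (nat_lit 228) (nat_lit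 495903705) (nat_lit 304) (nat_lit 3534404262) (nat_lit 54) (nat_lit 5) (nat_lit 57) (nat_lit 5) (nat_lit 58) (nat_lit 5) (nat_lit 285) (nat_lit 250) (nat_lit 185)) (XT.lf (nat_lit 0) (nat_lit 1013303816) (nat_lit 380) (nat_lit 10910668000) (nat_lit 76) (nat_lit 8068343864) (nat_lit 49) (nat_lit 5) (nat_lit 54) (nat_lit 5) (nat_lit 50) (nat_lit 5) (nat_lit 286) (nat_lit 250) (nat_lit 184))))))) (XT.nd (nat_lit 780) (nat_lit 836) (nat_lit 0) (XT.nd (nat_lit 390) (nat_lit 684) (nat_lit 0) (XT.nd (nat_lit 156) (nat_lit 532) (nat_lit 0) (XT.nd (nat_lit 78) (nat_lit 0) (nat_lit 0) (XT.lf (nat_lit 0) (nat_lit 2182826296) (nat_lit 228) (nat_lit 3567186364) (nat_lit 304) (nat_lit 14952956302) (nat_lit 46) (nat_lit 5) (nat_lit 49) (nat_lit 5) (nat_lit 50) (nat_lit 5) (nat_lit 287) (nat_lit 250) (nat_lit 183)) (XT.lf (nat_lit 0) (nat_lit 10854211053) (nat_lit 304) (nat_lit 5385805791) (nat_lit 76)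 (nat_lit 5205268809) (nat_lit 46) (nat_lit 5) (nat_lit 50) (nat_lit 5) (nat_lit 47) (nat_lit 5) (nat_lit 288) (nat_lit 250) (nat_lit 182))) (XT.nd (nat_lit 78) (nat_lit 304) (nat_lit 0) (XT.lf (nat_lit 0) (nat_lit 8489331929) (nat_lit 228) (nat_lit 7810629217) (nat_lit 304) (nat_lit 5922214748) (nat_lit 43) (nat_lit 5) (nat_lit 46) (nat_lit 5) (nat_lit 47) (nat_lit 5) (nat_lit 289) (nat_lit 250) (nat_lit 181)) (XT.nd (nat_lit 78) (nat_lit 76) (nat_lit 0) (XT.lf (nat_lit 0) (nat_lit 80469262) (nat_lit 228) (nat_lit 21973954311) (nat_lit 304) (nat_lit 982440014) (nat_lit 40) (nat_lit 5) (nat_lit 43) (nat_lit 5) (nat_lit 44) (nat_lit 5) (nat_lit 290) (nat_lit 250) (nat_lit 180)) (XT.lf (nat_lit 0) (nat_lit 4314235575) (nat_lit 304) (nat_lit 9181688726) (nat_lit 76) (nat_lit 10389432561) (nat_lit 39) (nat_lit 5) (nat_lit 43) (nat_lit 5) (nat_lit 40) (nat_lit 5) (nat_lit 291) (nat_lit 250) (nat_lit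 179))))) (XT.nd (nat_lit 156) (nat_lit 456) (nat_lit 0) (XT.nd (nat_lit 78) (nat_lit 0) (nat_lit 0) (XT.lf (nat_lit 0) (nat_lit 5333609796) (nat_lit 228) (nat_lit 4545039243) (nat_lit 304) (nat_lit 14896677504) (nat_lit 36) (nat_lit 5) (nat_lit 39) (nat_lit 5) (nat_lit 40) (nat_lit 5) (nat_lit 292) (nat_lit 250) (nat_lit 178)) (XT.lf (nat_lit 0) (nat_lit 15835970684) (nat_lit 304) (nat_lit 5029821086) (nat_lit 76) (nat_lit 4840600627) (nat_lit 36) (nat_lit 5) (nat_lit 40) (nat_lit 5) (nat_lit 37) (nat_lit 5) (nat_lit 293) (nat_lit 250) (nat_lit 177))) (XT.nd (nat_lit 78) (nat_lit 304) (nat_lit 0) (XT.lf (nat_lit 0) (nat_lit 10216327900) (nat_lit 152) (nat_lit 11992796529) (nat_lit 228) (nat_lit 4471384625) (nat_lit 34) (nat_lit 5) (nat_lit 36) (nat_lit 5) (nat_lit 37) (nat_lit 5) (nat_lit 294) (nat_lit 250) (nat_lit 176)) (XT.nd (nat_lit 78) (nat_lit 228) (nat_lit 0) (XT.lf (nat_lit 0) (nat_lit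 1200998876) (nat_lit 228) (nat_lit 1423134994) (nat_lit 76) (nat_lit 25078083128) (nat_lit 33) (nat_lit 5) (nat_lit 36) (nat_lit 5) (nat_lit 34) (nat_lit 5) (nat_lit 295) (nat_lit 250) (nat_lit 175)) (XT.lf (nat_lit 0) (nat_lit 7252192520) (nat_lit 304) (nat_lit 14269434851) (nat_lit 76) (nat_lit 7246456984) (nat_lit 30) (nat_lit 5) (nat_lit 34) (nat_lit 5) (nat_lit 31) (nat_lit 5) (nat_lit 296) (nat_lit 250) (nat_lit 174)))))) (XT.nd (nat_lit 390) (nat_lit 304) (nat_lit 0) (XT.nd (nat_lit 156) (nat_lit 380) (nat_lit 0) (XT.nd (nat_lit 78) (nat_lit 0) (nat_lit 0) (XT.lf (nat_lit 0) (nat_lit 1321718491) (nat_lit 152) (nat_lit 12314588899) (nat_lit 228) (nat_lit 16250057448) (nat_lit 28) (nat_lit 5) (nat_lit 30) (nat_lit 5) (nat_lit 31) (nat_lit 5) (nat_lit 297) (nat_lit 250) (nat_lit 173)) (XT.lf (nat_lit 0) (nat_lit 17954777511) (nat_lit 152) (nat_lit 2508897578) (nat_lit 228) (nat_lit 10593191990)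 (nat_lit 28) (nat_lit 5) (nat_lit 30) (nat_lit 5) (nat_lit 31) (nat_lit 5) (nat_lit 298) (nat_lit 250) (nat_lit 172))) (XT.nd (nat_lit 78) (nat_lit 228) (nat_lit 0) (XT.lf (nat_lit 0) (nat_lit 3084229366) (nat_lit 152) (nat_lit 24630808141) (nat_lit 228) (nat_lit 4568405892) (nat_lit 26) (nat_lit 5) (nat_lit 28) (nat_lit 5) (nat_lit 29) (nat_lit 5) (nat_lit 299) (nat_lit 250) (nat_lit 171)) (XT.nd (nat_lit 78) (nat_lit 152) (nat_lit 0) (XT.lf (nat_lit 0) (nat_lit 1863461772) (nat_lit 228) (nat_lit 13291349359) (nat_lit 76) (nat_lit 18411852020) (nat_lit 25) (nat_lit 5) (nat_lit 28) (nat_lit 5) (nat_lit 26) (nat_lit 5) (nat_lit 300) (nat_lit 250) (nat_lit 170)) (XT.lf (nat_lit 0) (nat_lit 3399610671) (nat_lit 152) (nat_lit 5136013641) (nat_lit 228) (nat_lit 26376691575) (nat_lit 23) (nat_lit 5) (nat_lit 25) (nat_lit 5) (nat_lit 26) (nat_lit 5) (nat_lit 301) (nat_lit 250) (nat_lit 169)))))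 (XT.nd (nat_lit 234) (nat_lit 152) (nat_lit 0) (XT.nd (nat_lit 78) (nat_lit 152) (nat_lit 0) (XT.lf (nat_lit 0) (nat_lit 15711501974) (nat_lit 228) (nat_lit 15203478481) (nat_lit 76) (nat_lit 5405190876) (nat_lit 23) (nat_lit 5) (nat_lit 26) (nat_lit 5) (nat_lit 24) (nat_lit 5) (nat_lit 302) (nat_lit 250) (nat_lit 168)) (XT.nd (nat_lit 78) (nat_lit 0) (nat_lit 0) (XT.lf (nat_lit 0) (nat_lit 1875400290) (nat_lit 152) (nat_lit 21421761616) (nat_lit 228) (nat_lit 14499750162) (nat_lit 21) (nat_lit 5) (nat_lit 23) (nat_lit 5) (nat_lit 24) (nat_lit 5) (nat_lit 303) (nat_lit 250) (nat_lit 167)) (XT.lf (nat_lit 0) (nat_lit 20096241071) (nat_lit 152) (nat_lit 11304105581) (nat_lit 228) (nat_lit 7943017049) (nat_lit 21) (nat_lit 5) (nat_lit 23) (nat_lit 5) (nat_lit 24) (nat_lit 5) (nat_lit 304) (nat_lit 250) (nat_lit 166)))) (XT.nd (nat_lit 78) (nat_lit 152) (nat_lit 0) (XT.lf (nat_lit 0) (nat_lit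 39199847783) (nat_lit 152) (nat_lit 691448017) (nat_lit 228) (nat_lit 1076384072) (nat_lit 21) (nat_lit 5) (nat_lit 23) (nat_lit 5) (nat_lit 24) (nat_lit 5) (nat_lit 305) (nat_lit 250) (nat_lit 165)) (XT.nd (nat_lit 78) (nat_lit 0) (nat_lit 0) (XT.lf (nat_lit 0) (nat_lit 6261453245) (nat_lit 152) (nat_lit 25942117258) (nat_lit 76) (nat_lit 10460464325) (nat_lit 19) (nat_lit 5) (nat_lit 21) (nat_lit 5) (nat_lit 20) (nat_lit 5) (nat_lit 306) (nat_lit 250) (nat_lit 164)) (XT.lf (nat_lit 0) (nat_lit 13953180097) (nat_lit 152) (nat_lit 8316492219) (nat_lit 76) (nat_lit 22174955437) (nat_lit 19) (nat_lit 5) (nat_lit 21) (nat_lit 5) (nat_lit 20) (nat_lit 5) (nat_lit 307) (nat_lit 250) (nat_lit 163))))))))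
noncomputable def xc71 : XT := (XT.nd (nat_lit 33072) (nat_lit 0) (nat_lit 7220) (XT.nd (nat_lit 780) (nat_lit 380) (nat_lit 0) (XT.nd (nat_lit 390) (nat_lit 228) (nat_lit 0) (XT.nd (nat_lit 156) (nat_lit 152) (nat_lit 0) (XT.nd (nat_lit 78) (nat_lit 0) (nat_lit 0) (XT.lf (nat_lit 0) (nat_lit 10367089998) (nat_lit 152) (nat_lit 11746529150) (nat_lit 228) (nat_lit 24198124266) (nat_lit 17) (nat_lit 5) (nat_lit 19) (nat_lit 5) (nat_lit 20) (nat_lit 5) (nat_lit 308) (nat_lit 250) (nat_lit 162)) (XT.lf (nat_lit 0) (nat_lit 30133752705) (nat_lit 152) (nat_lit 618909671) (nat_lit 228) (nat_lit 17517451080) (nat_lit 17) (nat_lit 5) (nat_lit 19) (nat_lit 5) (nat_lit 20) (nat_lit 5) (nat_lit 309) (nat_lit 250) (nat_lit 161))) (XT.nd (nat_lit 78) (nat_lit 76) (nat_lit 0) (XT.lf (nat_lit 0) (nat_lit 440520171) (nat_lit 76) (nat_lit 39479333225) (nat_lit 152) (nat_lit 10403678032) (nat_lit 16) (nat_lit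 5) (nat_lit 17) (nat_lit 5) (nat_lit 18) (nat_lit 4) (nat_lit 310) (nat_lit 250) (nat_lit 160)) (XT.nd (nat_lit 78) (nat_lit 76) (nat_lit 0) (XT.lf (nat_lit 0) (nat_lit 20295502141) (nat_lit 76) (nat_lit 29428843121) (nat_lit 152) (nat_lit 2749921369) (nat_lit 16) (nat_lit 5) (nat_lit 17) (nat_lit 5) (nat_lit 18) (nat_lit 4) (nat_lit 311) (nat_lit 250) (nat_lit 159)) (XT.lf (nat_lit 0) (nat_lit 5169940757) (nat_lit 152) (nat_lit 13662658983) (nat_lit 76) (nat_lit 35898830503) (nat_lit 15) (nat_lit 5) (nat_lit 17) (nat_lit 5) (nat_lit 16) (nat_lit 5) (nat_lit 312) (nat_lit 250) (nat_lit 158))))) (XT.nd (nat_lit 156) (nat_lit 76) (nat_lit 0) (XT.nd (nat_lit 78) (nat_lit 0) (nat_lit 0) (XT.lf (nat_lit 0) (nat_lit 5844071920) (nat_lit 152) (nat_lit 7628772891) (nat_lit 228) (nat_lit 43626485604) (nat_lit 13) (nat_lit 5) (nat_lit 15) (nat_lit 5) (nat_lit 16) (nat_lit 5) (nat_lit 313) (nat_lit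 250) (nat_lit 157)) (XT.lf (nat_lit 0) (nat_lit 22360224983) (nat_lit 228) (nat_lit 33032050481) (nat_lit 76) (nat_lit 4188282424) (nat_lit 13) (nat_lit 5) (nat_lit 16) (nat_lit 5) (nat_lit 14) (nat_lit 4) (nat_lit 314) (nat_lit 250) (nat_lit 156))) (XT.nd (nat_lit 78) (nat_lit 76) (nat_lit 0) (XT.lf (nat_lit 0) (nat_lit 31757109277) (nat_lit 228) (nat_lit 13994823939) (nat_lit 76) (nat_lit 16431971103) (nat_lit 13) (nat_lit 5) (nat_lit 16) (nat_lit 5) (nat_lit 14) (nat_lit 4) (nat_lit 315) (nat_lit 250) (nat_lit 155)) (XT.nd (nat_lit 78) (nat_lit 0) (nat_lit 0) (XT.lf (nat_lit 0) (nat_lit 6093996104) (nat_lit 76) (nat_lit 35577121908) (nat_lit 152) (nat_lit 23244892735) (nat_lit 12) (nat_lit 5) (nat_lit 13) (nat_lit 5) (nat_lit 14) (nat_lit 4) (nat_lit 316) (nat_lit 250) (nat_lit 154)) (XT.lf (nat_lit 0) (nat_lit 27461074067) (nat_lit 76) (nat_lit 24752877419) (nat_lit 152) (nat_lit 15566787836)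 (nat_lit 12) (nat_lit 5) (nat_lit 13) (nat_lit 5) (nat_lit 14) (nat_lit 4) (nat_lit 317) (nat_lit 250) (nat_lit 153)))))) (XT.nd (nat_lit 390) (nat_lit 152) (nat_lit 0) (XT.nd (nat_lit 156) (nat_lit 152) (nat_lit 0) (XT.nd (nat_lit 78) (nat_lit 76) (nat_lit 0) (XT.lf (nat_lit 0) (nat_lit 49878759506) (nat_lit 76) (nat_lit 13394748021) (nat_lit 152) (nat_lit 7515519426) (nat_lit 12) (nat_lit 5) (nat_lit 13) (nat_lit 5) (nat_lit 14) (nat_lit 4) (nat_lit 318) (nat_lit 250) (nat_lit 152)) (XT.lf (nat_lit 0) (nat_lit 909971956) (nat_lit 152) (nat_lit 556529658) (nat_lit 76) (nat_lit 72481266975) (nat_lit 11) (nat_lit 5) (nat_lit 13) (nat_lit 5) (nat_lit 12) (nat_lit 5) (nat_lit 319) (nat_lit 250) (nat_lit 151))) (XT.nd (nat_lit 78) (nat_lit 0) (nat_lit 0) (XT.lf (nat_lit 0) (nat_lit 9905357051) (nat_lit 228) (nat_lit 56230200890) (nat_lit 76) (nat_lit 11117544338) (nat_lit 9) (nat_lit 5) (nat_lit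 12) (nat_lit 5) (nat_lit 10) (nat_lit 4) (nat_lit 320) (nat_lit 250) (nat_lit 150)) (XT.nd (nat_lit 78) (nat_lit 0) (nat_lit 0) (XT.lf (nat_lit 0) (nat_lit 19361785431) (nat_lit 228) (nat_lit 37061506538) (nat_lit 76) (nat_lit 24300080893) (nat_lit 9) (nat_lit 5) (nat_lit 12) (nat_lit 5) (nat_lit 10) (nat_lit 4) (nat_lit 321) (nat_lit 250) (nat_lit 149)) (XT.lf (nat_lit 0) (nat_lit 29282165297) (nat_lit 228) (nat_lit 16949664229) (nat_lit 76) (nat_lit 38135601577) (nat_lit 9) (nat_lit 5) (nat_lit 12) (nat_lit 5) (nat_lit 10) (nat_lit 4) (nat_lit 322) (nat_lit 250) (nat_lit 148))))) (XT.nd (nat_lit 234) (nat_lit 76) (nat_lit 0) (XT.nd (nat_lit 78) (nat_lit 0) (nat_lit 0) (XT.lf (nat_lit 0) (nat_lit 4235868424) (nat_lit 76) (nat_lit 35494965934) (nat_lit 152) (nat_lit 48461897438) (nat_lit 8) (nat_lit 5) (nat_lit 9) (nat_lit 5) (nat_lit 10) (nat_lit 4) (nat_lit 323) (nat_lit 250) (nat_lit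 147)) (XT.nd (nat_lit 78) (nat_lit 0) (nat_lit 0) (XT.lf (nat_lit 0) (nat_lit 26820734349) (nat_lit 76) (nat_lit 24047503136) (nat_lit 152) (nat_lit 41336078305) (nat_lit 8) (nat_lit 5) (nat_lit 9) (nat_lit 5) (nat_lit 10) (nat_lit 4) (nat_lit 324) (nat_lit 250) (nat_lit 146)) (XT.lf (nat_lit 0) (nat_lit 50521375480) (nat_lit 76) (nat_lit 12033343641) (nat_lit 152) (nat_lit 33862000547) (nat_lit 8) (nat_lit 5) (nat_lit 9) (nat_lit 5) (nat_lit 10) (nat_lit 4) (nat_lit 325) (nat_lit 250) (nat_lit 145)))) (XT.nd (nat_lit 78) (nat_lit 76) (nat_lit 0) (XT.lf (nat_lit 0) (nat_lit 74823642221) (nat_lit 152) (nat_lit 25451289045) (nat_lit 0) (nat_lit 564875558) (nat_lit 8) (nat_lit 5) (nat_lit 10) (nat_lit 4) (nat_lit 8) (nat_lit 4) (nat_lit 326) (nat_lit 250) (nat_lit 144)) (XT.nd (nat_lit 78) (nat_lit 76) (nat_lit 0) (XT.lf (nat_lit 0) (nat_lit 87820350185) (nat_lit 152) (nat_lit 4118871368) (nat_lit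 0) (nat_lit 13541402916) (nat_lit 8) (nat_lit 5) (nat_lit 10) (nat_lit 4) (nat_lit 8) (nat_lit 4) (nat_lit 327) (nat_lit 250) (nat_lit 143)) (XT.lf (nat_lit 0) (nat_lit 18631948599) (nat_lit 76) (nat_lit 83007268783) (nat_lit 76) (nat_lit 8709101890) (nat_lit 7) (nat_lit 4) (nat_lit 8) (nat_lit 5) (nat_lit 8) (nat_lit 4) (nat_lit 328) (nat_lit 250) (nat_lit 142))))))) (XT.nd (nat_lit 858) (nat_lit 5244) (nat_lit 0) (XT.nd (nat_lit 390) (nat_lit 1596) (nat_lit 0) (XT.nd (nat_lit 156) (nat_lit 0) (nat_lit 0) (XT.nd (nat_lit 78) (nat_lit 0) (nat_lit 0) (XT.lf (nat_lit 0) (nat_lit 123668112) (nat_lit 0) (nat_lit 123668112) (nat_lit 836) (nat_lit 3700420815) (nat_lit 192) (nat_lit 5) (nat_lit 192) (nat_lit 3) (nat_lit 203) (nat_lit 3) (nat_lit 251) (nat_lit 251) (nat_lit 218)) (XT.lf (nat_lit 0) (nat_lit 2412577746) (nat_lit 836) (nat_lit 2118258581) (nat_lit 912) (nat_lit 3499663236) (nat_lit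 192) (nat_lit 5) (nat_lit 203) (nat_lit 3) (nat_lit 204) (nat_lit 5) (nat_lit 252) (nat_lit 251) (nat_lit 217))) (XT.nd (nat_lit 78) (nat_lit 0) (nat_lit 76) (XT.lf (nat_lit 76) (nat_lit 3693335169) (nat_lit 0) (nat_lit 651835898) (nat_lit 912) (nat_lit 3829834653) (nat_lit 193) (nat_lit 5) (nat_lit 192) (nat_lit 5) (nat_lit 204) (nat_lit 5) (nat_lit 253) (nat_lit 251) (nat_lit 216)) (XT.nd (nat_lit 78) (nat_lit 0) (nat_lit 0) (XT.lf (nat_lit 76) (nat_lit 1441938187) (nat_lit 0) (nat_lit 4887588805) (nat_lit 912) (nat_lit 1998875425) (nat_lit 194) (nat_lit 5) (nat_lit 193) (nat_lit 5) (nat_lit 205) (nat_lit 5) (nat_lit 254) (nat_lit 251) (nat_lit 215)) (XT.lf (nat_lit 76) (nat_lit 7683797056) (nat_lit 0) (nat_lit 673105530) (nat_lit 912) (nat_lit 134556330) (nat_lit 194) (nat_lit 5) (nat_lit 193) (nat_lit 5) (nat_lit 205) (nat_lit 5) (nat_lit 255) (nat_lit 251) (nat_lit 214))))) (XT.nd (nat_lit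 234) (nat_lit 836) (nat_lit 0) (XT.nd (nat_lit 78) (nat_lit 0) (nat_lit 0) (XT.lf (nat_lit 0) (nat_lit 1773454676) (nat_lit 912) (nat_lit 3098392323) (nat_lit 988) (nat_lit 3790995177) (nat_lit 182) (nat_lit 5) (nat_lit 194) (nat_lit 5) (nat_lit 195) (nat_lit 5) (nat_lit 256) (nat_lit 251) (nat_lit 213)) (XT.nd (nat_lit 78) (nat_lit 0) (nat_lit 76) (XT.lf (nat_lit 76) (nat_lit 3422073685) (nat_lit 0) (nat_lit 299913831) (nat_lit 988) (nat_lit 5122597717) (nat_lit 183) (nat_lit 5) (nat_lit 182) (nat_lit 5) (nat_lit 195) (nat_lit 5) (nat_lit 257) (nat_lit 251) (nat_lit 212)) (XT.lf (nat_lit 76) (nat_lit 1211390140) (nat_lit 0) (nat_lit 4547931205) (nat_lit 988) (nat_lit 3276607844) (nat_lit 184) (nat_lit 5) (nat_lit 183) (nat_lit 5) (nat_lit 196) (nat_lit 5) (nat_lit 258) (nat_lit 251) (nat_lit 211)))) (XT.nd (nat_lit 78) (nat_lit 988) (nat_lit 0) (XT.lf (nat_lit 0) (nat_lit 7868947172) (nat_lit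 912) (nat_lit 1019868264) (nat_lit 988) (nat_lit 349154981) (nat_lit 184) (nat_lit 5) (nat_lit 196) (nat_lit 5) (nat_lit 197) (nat_lit 5) (nat_lit 259) (nat_lit 251) (nat_lit 210)) (XT.nd (nat_lit 78) (nat_lit 0) (nat_lit 76) (XT.lf (nat_lit 0) (nat_lit 639175267) (nat_lit 988) (nat_lit 3322824774) (nat_lit 1064) (nat_lit 5487627229) (nat_lit 171) (nat_lit 5) (nat_lit 184) (nat_lit 5) (nat_lit 185) (nat_lit 5) (nat_lit 260) (nat_lit 251) (nat_lit 209)) (XT.lf (nat_lit 0) (nat_lit 2696321654) (nat_lit 988) (nat_lit 5706482831) (nat_lit 76) (nat_lit 1269564141) (nat_lit 172) (nat_lit 5) (nat_lit 185) (nat_lit 5) (nat_lit 173) (nat_lit 5) (nat_lit 261) (nat_lit 251) (nat_lit 208)))))) (XT.nd (nat_lit 390) (nat_lit 1976) (nat_lit 0) (XT.nd (nat_lit 156) (nat_lit 2356) (nat_lit 0) (XT.nd (nat_lit 78) (nat_lit 0) (nat_lit 0) (XT.lf (nat_lit 0) (nat_lit 1709774359) (nat_lit 988) (nat_lit 3156403646)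 (nat_lit 1064) (nat_lit 5039977124) (nat_lit 159) (nat_lit 5) (nat_lit 172) (nat_lit 5) (nat_lit 173) (nat_lit 5) (nat_lit 262) (nat_lit 251) (nat_lit 207)) (XT.lf (nat_lit 0) (nat_lit 7148716767) (nat_lit 1064) (nat_lit 624230040) (nat_lit 76) (nat_lit 2378752424) (nat_lit 159) (nat_lit 5) (nat_lit 173) (nat_lit 5) (nat_lit 160) (nat_lit 5) (nat_lit 263) (nat_lit 251) (nat_lit 206))) (XT.nd (nat_lit 78) (nat_lit 1292) (nat_lit 0) (XT.lf (nat_lit 0) (nat_lit 7374515168) (nat_lit 1064) (nat_lit 2199569098) (nat_lit 1140) (nat_lit 834759942) (nat_lit 145) (nat_lit 5) (nat_lit 159) (nat_lit 5) (nat_lit 160) (nat_lit 5) (nat_lit 264) (nat_lit 251) (nat_lit 205)) (XT.nd (nat_lit 78) (nat_lit 532) (nat_lit 0) (XT.lf (nat_lit 0) (nat_lit 1433423624) (nat_lit 760) (nat_lit 5585022335) (nat_lit 76) (nat_lit 3659564892) (nat_lit 135) (nat_lit 5) (nat_lit 145) (nat_lit 5) (nat_lit 136) (nat_lit 5)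 (nat_lit 265) (nat_lit 251) (nat_lit 204)) (XT.lf (nat_lit 0) (nat_lit 2687588478) (nat_lit 532) (nat_lit 1120812310) (nat_lit 608) (nat_lit 7151830305) (nat_lit 128) (nat_lit 5) (nat_lit 135) (nat_lit 5) (nat_lit 136) (nat_lit 5) (nat_lit 266) (nat_lit 251) (nat_lit 203))))) (XT.nd (nat_lit 234) (nat_lit 912) (nat_lit 0) (XT.nd (nat_lit 78) (nat_lit 532) (nat_lit 0) (XT.lf (nat_lit 0) (nat_lit 124160052) (nat_lit 532) (nat_lit 6219609837) (nat_lit 608) (nat_lit 4911698091) (nat_lit 121) (nat_lit 5) (nat_lit 128) (nat_lit 5) (nat_lit 129) (nat_lit 5) (nat_lit 267) (nat_lit 251) (nat_lit 202)) (XT.nd (nat_lit 78) (nat_lit 532) (nat_lit 0) (XT.lf (nat_lit 0) (nat_lit 9038469049) (nat_lit 608) (nat_lit 2525298231) (nat_lit 76) (nat_lit 870129) (nat_lit 121) (nat_lit 5) (nat_lit 129) (nat_lit 5) (nat_lit 122) (nat_lit 5) (nat_lit 268) (nat_lit 251) (nat_lit 201)) (XT.lf (nat_lit 0) (nat_lit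 44184804) (nat_lit 532) (nat_lit 5374335030) (nat_lit 76) (nat_lit 6468934162) (nat_lit 114) (nat_lit 5) (nat_lit 121) (nat_lit 5) (nat_lit 115) (nat_lit 5) (nat_lit 269) (nat_lit 251) (nat_lit 200)))) (XT.nd (nat_lit 78) (nat_lit 456) (nat_lit 0) (XT.lf (nat_lit 0) (nat_lit 2705891305) (nat_lit 532) (nat_lit 8418421341) (nat_lit 76) (nat_lit 1101025929) (nat_lit 108) (nat_lit 5) (nat_lit 115) (nat_lit 5) (nat_lit 109) (nat_lit 5) (nat_lit 270) (nat_lit 251) (nat_lit 199)) (XT.nd (nat_lit 78) (nat_lit 0) (nat_lit 0) (XT.lf (nat_lit 0) (nat_lit 881690481) (nat_lit 456) (nat_lit 4681095493) (nat_lit 532) (nat_lit 7015592069) (nat_lit 102) (nat_lit 5) (nat_lit 108) (nat_lit 5) (nat_lit 109) (nat_lit 5) (nat_lit 271) (nat_lit 251) (nat_lit 198)) (XT.lf (nat_lit 0) (nat_lit 8615236377) (nat_lit 532) (nat_lit 2205950226) (nat_lit 76) (nat_lit 2126419402) (nat_lit 102) (nat_lit 5) (nat_lit 109)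 (nat_lit 5) (nat_lit 103) (nat_lit 5) (nat_lit 272) (nat_lit 251) (nat_lit 197))))))))
noncomputable def xc72 : XT := (XT.nd (nat_lit 1638) (nat_lit 1748) (nat_lit 0) (XT.nd (nat_lit 780) (nat_lit 1976) (nat_lit 0) (XT.nd (nat_lit 390) (nat_lit 1368) (nat_lit 0) (XT.nd (nat_lit 156) (nat_lit 760) (nat_lit 0) (XT.nd (nat_lit 78) (nat_lit 456) (nat_lit 0) (XT.lf (nat_lit 0) (nat_lit 7806004310) (nat_lit 456) (nat_lit 4084357423) (nat_lit 532) (nat_lit 1442944302) (nat_lit 96) (nat_lit 5) (nat_lit 102) (nat_lit 5) (nat_lit 103) (nat_lit 5) (nat_lit 273) (nat_lit 251) (nat_lit 196)) (XT.lf (nat_lit 0) (nat_lit 1606081208) (nat_lit 456) (nat_lit 9122608637) (nat_lit 76) (nat_lit 3007860980) (nat_lit 90) (nat_lit 5) (nat_lit 96) (nat_lit 5) (nat_lit 91) (nat_lit 5) (nat_lit 274) (nat_lit 251) (nat_lit 195))) (XT.nd (nat_lit 78) (nat_lit 380) (nat_lit 0) (XT.lf (nat_lit 0) (nat_lit 1127470553)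 (nat_lit 380) (nat_lit 3710969528) (nat_lit 456) (nat_lit 9319366286) (nat_lit 85) (nat_lit 5) (nat_lit 90) (nat_lit 5) (nat_lit 91) (nat_lit 5) (nat_lit 275) (nat_lit 251) (nat_lit 194)) (XT.nd (nat_lit 78) (nat_lit 380) (nat_lit 0) (XT.lf (nat_lit 0) (nat_lit 8315052289) (nat_lit 456) (nat_lit 2610162726) (nat_lit 76) (nat_lit 3672524742) (nat_lit 85) (nat_lit 5) (nat_lit 91) (nat_lit 5) (nat_lit 86) (nat_lit 5) (nat_lit 276) (nat_lit 251) (nat_lit 193)) (XT.lf (nat_lit 0) (nat_lit 8402812949) (nat_lit 380) (nat_lit 3635803181) (nat_lit 456) (nat_lit 3018949706) (nat_lit 80) (nat_lit 5) (nat_lit 85) (nat_lit 5) (nat_lit 86) (nat_lit 5) (nat_lit 277) (nat_lit 251) (nat_lit 192))))) (XT.nd (nat_lit 156) (nat_lit 608) (nat_lit 0) (XT.nd (nat_lit 78) (nat_lit 304) (nat_lit 0) (XT.lf (nat_lit 0) (nat_lit 465792072) (nat_lit 456) (nat_lit 11067680257) (nat_lit 76) (nat_lit 4004902788) (nat_lit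 74) (nat_lit 5) (nat_lit 80) (nat_lit 5) (nat_lit 75) (nat_lit 5) (nat_lit 278) (nat_lit 251) (nat_lit 191)) (XT.lf (nat_lit 0) (nat_lit 131212836) (nat_lit 304) (nat_lit 3996350283) (nat_lit 380) (nat_lit 11912887112) (nat_lit 70) (nat_lit 5) (nat_lit 74) (nat_lit 5) (nat_lit 75) (nat_lit 5) (nat_lit 279) (nat_lit 251) (nat_lit 190))) (XT.nd (nat_lit 78) (nat_lit 608) (nat_lit 0) (XT.lf (nat_lit 0) (nat_lit 8084060724) (nat_lit 380) (nat_lit 4535129872) (nat_lit 76) (nat_lit 3945164553) (nat_lit 70) (nat_lit 5) (nat_lit 75) (nat_lit 5) (nat_lit 71) (nat_lit 5) (nat_lit 280) (nat_lit 251) (nat_lit 189)) (XT.nd (nat_lit 78) (nat_lit 304) (nat_lit 0) (XT.lf (nat_lit 0) (nat_lit 7462039488) (nat_lit 304) (nat_lit 4849285089) (nat_lit 380) (nat_lit 4801014102) (nat_lit 66) (nat_lit 5) (nat_lit 70) (nat_lit 5) (nat_lit 71) (nat_lit 5) (nat_lit 281) (nat_lit 251) (nat_lit 188)) (XT.lf (nat_lit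 0) (nat_lit 2432159357) (nat_lit 304) (nat_lit 14382278808) (nat_lit 380) (nat_lit 871416820) (nat_lit 62) (nat_lit 5) (nat_lit 66) (nat_lit 5) (nat_lit 67) (nat_lit 5) (nat_lit 282) (nat_lit 251) (nat_lit 187)))))) (XT.nd (nat_lit 390) (nat_lit 988) (nat_lit 0) (XT.nd (nat_lit 156) (nat_lit 608) (nat_lit 0) (XT.nd (nat_lit 78) (nat_lit 304) (nat_lit 0) (XT.lf (nat_lit 0) (nat_lit 3303475726) (nat_lit 380) (nat_lit 3095773671) (nat_lit 76) (nat_lit 11884552430) (nat_lit 61) (nat_lit 5) (nat_lit 66) (nat_lit 5) (nat_lit 62) (nat_lit 5) (nat_lit 283) (nat_lit 251) (nat_lit 186)) (XT.lf (nat_lit 0) (nat_lit 7748288193) (nat_lit 380) (nat_lit 9124572150) (nat_lit 76) (nat_lit 2036210960) (nat_lit 57) (nat_lit 5) (nat_lit 62) (nat_lit 5) (nat_lit 58) (nat_lit 5) (nat_lit 284) (nat_lit 251) (nat_lit 185))) (XT.nd (nat_lit 78) (nat_lit 380) (nat_lit 0) (XT.lf (nat_lit 0) (nat_lit 3770382572) (nat_lit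 228) (nat_lit 8743904260) (nat_lit 304) (nat_lit 7048406251) (nat_lit 54) (nat_lit 5) (nat_lit 57) (nat_lit 5) (nat_lit 58) (nat_lit 5) (nat_lit 285) (nat_lit 251) (nat_lit 184)) (XT.nd (nat_lit 78) (nat_lit 380) (nat_lit 0) (XT.lf (nat_lit 0) (nat_lit 17454995889) (nat_lit 228) (nat_lit 124630779) (nat_lit 304) (nat_lit 2667592517) (nat_lit 54) (nat_lit 5) (nat_lit 57) (nat_lit 5) (nat_lit 58) (nat_lit 5) (nat_lit 286) (nat_lit 251) (nat_lit 183)) (XT.lf (nat_lit 0) (nat_lit 2055616250) (nat_lit 380) (nat_lit 10040280468) (nat_lit 76) (nat_lit 8864736228) (nat_lit 49) (nat_lit 5) (nat_lit 54) (nat_lit 5) (nat_lit 50) (nat_lit 5) (nat_lit 287) (nat_lit 251) (nat_lit 182))))) (XT.nd (nat_lit 234) (nat_lit 532) (nat_lit 0) (XT.nd (nat_lit 78) (nat_lit 228) (nat_lit 0) (XT.lf (nat_lit 0) (nat_lit 3667301454) (nat_lit 228) (nat_lit 3327858336) (nat_lit 304) (nat_lit 14712752893) (nat_lit 46)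 (nat_lit 5) (nat_lit 49) (nat_lit 5) (nat_lit 50) (nat_lit 5) (nat_lit 288) (nat_lit 251) (nat_lit 181)) (XT.nd (nat_lit 78) (nat_lit 228) (nat_lit 0) (XT.lf (nat_lit 0) (nat_lit 12312789761) (nat_lit 304) (nat_lit 4320311791) (nat_lit 76) (nat_lit 5855567260) (nat_lit 46) (nat_lit 5) (nat_lit 50) (nat_lit 5) (nat_lit 47) (nat_lit 5) (nat_lit 289) (nat_lit 251) (nat_lit 180)) (XT.lf (nat_lit 0) (nat_lit 10210321492) (nat_lit 228) (nat_lit 7789356069) (nat_lit 304) (nat_lit 5305727406) (nat_lit 43) (nat_lit 5) (nat_lit 46) (nat_lit 5) (nat_lit 47) (nat_lit 5) (nat_lit 290) (nat_lit 251) (nat_lit 179)))) (XT.nd (nat_lit 78) (nat_lit 304) (nat_lit 0) (XT.lf (nat_lit 0) (nat_lit 1367086628) (nat_lit 228) (nat_lit 22648746130) (nat_lit 304) (nat_lit 145838919) (nat_lit 40) (nat_lit 5) (nat_lit 43) (nat_lit 5) (nat_lit 44) (nat_lit 5) (nat_lit 291) (nat_lit 251) (nat_lit 178)) (XT.nd (nat_lit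 78) (nat_lit 228) (nat_lit 0) (XT.lf (nat_lit 0) (nat_lit 5357032541) (nat_lit 304) (nat_lit 8401616134) (nat_lit 76) (nat_lit 11294985066) (nat_lit 39) (nat_lit 5) (nat_lit 43) (nat_lit 5) (nat_lit 40) (nat_lit 5) (nat_lit 292) (nat_lit 251) (nat_lit 177)) (XT.lf (nat_lit 0) (nat_lit 6803927126) (nat_lit 228) (nat_lit 4367924637) (nat_lit 304) (nat_lit 14817140705) (nat_lit 36) (nat_lit 5) (nat_lit 39) (nat_lit 5) (nat_lit 40) (nat_lit 5) (nat_lit 293) (nat_lit 251) (nat_lit 176))))))) (XT.nd (nat_lit 780) (nat_lit 760) (nat_lit 0) (XT.nd (nat_lit 390) (nat_lit 380) (nat_lit 0) (XT.nd (nat_lit 156) (nat_lit 456) (nat_lit 0) (XT.nd (nat_lit 78) (nat_lit 152) (nat_lit 0) (XT.lf (nat_lit 0) (nat_lit 17392680924) (nat_lit 304) (nat_lit 4114788118) (nat_lit 76) (nat_lit 5460226773) (nat_lit 36) (nat_lit 5) (nat_lit 40) (nat_lit 5) (nat_lit 37) (nat_lit 5) (nat_lit 294) (nat_lit 251) (nat_lit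 175)) (XT.lf (nat_lit 0) (nat_lit 11860230141) (nat_lit 152) (nat_lit 12198729763) (nat_lit 228) (nat_lit 3932375272) (nat_lit 34) (nat_lit 5) (nat_lit 36) (nat_lit 5) (nat_lit 37) (nat_lit 5) (nat_lit 295) (nat_lit 251) (nat_lit 174))) (XT.nd (nat_lit 78) (nat_lit 380) (nat_lit 0) (XT.lf (nat_lit 0) (nat_lit 1973142085) (nat_lit 228) (nat_lit 400049072) (nat_lit 76) (nat_lit 26691832649) (nat_lit 33) (nat_lit 5) (nat_lit 36) (nat_lit 5) (nat_lit 34) (nat_lit 5) (nat_lit 296) (nat_lit 251) (nat_lit 173)) (XT.nd (nat_lit 78) (nat_lit 152) (nat_lit 0) (XT.lf (nat_lit 0) (nat_lit 8306802914) (nat_lit 304) (nat_lit 13902081402) (nat_lit 76) (nat_lit 7975947814) (nat_lit 30) (nat_lit 5) (nat_lit 34) (nat_lit 5) (nat_lit 31) (nat_lit 5) (nat_lit 297) (nat_lit 251) (nat_lit 172)) (XT.lf (nat_lit 0) (nat_lit 2437647970) (nat_lit 152) (nat_lit 12549614878) (nat_lit 228) (nat_lit 16372492295) (nat_lit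 28) (nat_lit 5) (nat_lit 30) (nat_lit 5) (nat_lit 31) (nat_lit 5) (nat_lit 298) (nat_lit 251) (nat_lit 171))))) (XT.nd (nat_lit 156) (nat_lit 228) (nat_lit 0) (XT.nd (nat_lit 78) (nat_lit 152) (nat_lit 0) (XT.lf (nat_lit 0) (nat_lit 19852367391) (nat_lit 152) (nat_lit 2271767727) (nat_lit 228) (nat_lit 10465643946) (nat_lit 28) (nat_lit 5) (nat_lit 30) (nat_lit 5) (nat_lit 31) (nat_lit 5) (nat_lit 299) (nat_lit 251) (nat_lit 170)) (XT.lf (nat_lit 0) (nat_lit 4225605966) (nat_lit 152) (nat_lit 25494921761) (nat_lit 228) (nat_lit 4157721330) (nat_lit 26) (nat_lit 5) (nat_lit 28) (nat_lit 5) (nat_lit 29) (nat_lit 5) (nat_lit 300) (nat_lit 251) (nat_lit 169))) (XT.nd (nat_lit 78) (nat_lit 152) (nat_lit 0) (XT.lf (nat_lit 0) (nat_lit 2553428784) (nat_lit 228) (nat_lit 13003166182) (nat_lit 76) (nat_lit 19669781517) (nat_lit 25) (nat_lit 5) (nat_lit 28) (nat_lit 5) (nat_lit 26) (nat_lit 5) (nat_lit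 301) (nat_lit 251) (nat_lit 168)) (XT.nd (nat_lit 78) (nat_lit 0) (nat_lit 0) (XT.lf (nat_lit 0) (nat_lit 4495031444) (nat_lit 152) (nat_lit 5044645146) (nat_lit 228) (nat_lit 27100255048) (nat_lit 23) (nat_lit 5) (nat_lit 25) (nat_lit 5) (nat_lit 26) (nat_lit 5) (nat_lit 302) (nat_lit 251) (nat_lit 167)) (XT.lf (nat_lit 0) (nat_lit 17050046481) (nat_lit 228) (nat_lit 15068325293) (nat_lit 76) (nat_lit 6000569602) (nat_lit 23) (nat_lit 5) (nat_lit 26) (nat_lit 5) (nat_lit 24) (nat_lit 5) (nat_lit 303) (nat_lit 251) (nat_lit 166)))))) (XT.nd (nat_lit 390) (nat_lit 456) (nat_lit 0) (XT.nd (nat_lit 156) (nat_lit 152) (nat_lit 0) (XT.nd (nat_lit 78) (nat_lit 0) (nat_lit 0) (XT.lf (nat_lit 0) (nat_lit 2838833045) (nat_lit 152) (nat_lit 22158184217) (nat_lit 228) (nat_lit 14673071977) (nat_lit 21) (nat_lit 5) (nat_lit 23) (nat_lit 5) (nat_lit 24) (nat_lit 5) (nat_lit 304) (nat_lit 251) (nat_lit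 165)) (XT.lf (nat_lit 0) (nat_lit 21929303353) (nat_lit 152) (nat_lit 11550581833) (nat_lit 228) (nat_lit 7814772004) (nat_lit 21) (nat_lit 5) (nat_lit 23) (nat_lit 5) (nat_lit 24) (nat_lit 5) (nat_lit 305) (nat_lit 251) (nat_lit 164))) (XT.nd (nat_lit 78) (nat_lit 152) (nat_lit 0) (XT.lf (nat_lit 0) (nat_lit 41948649914) (nat_lit 152) (nat_lit 422468963) (nat_lit 228) (nat_lit 629826230) (nat_lit 21) (nat_lit 5) (nat_lit 23) (nat_lit 5) (nat_lit 24) (nat_lit 5) (nat_lit 306) (nat_lit 251) (nat_lit 163)) (XT.nd (nat_lit 78) (nat_lit 0) (nat_lit 0) (XT.lf (nat_lit 0) (nat_lit 7052135906) (nat_lit 152) (nat_lit 26451149240) (nat_lit 76) (nat_lit 11279104390) (nat_lit 19) (nat_lit 5) (nat_lit 21) (nat_lit 5) (nat_lit 20) (nat_lit 5) (nat_lit 307) (nat_lit 251) (nat_lit 162)) (XT.lf (nat_lit 0) (nat_lit 15105705767) (nat_lit 152) (nat_lit 7981770277) (nat_lit 76) (nat_lit 23565243064) (nat_lit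 19) (nat_lit 5) (nat_lit 21) (nat_lit 5) (nat_lit 20) (nat_lit 5) (nat_lit 308) (nat_lit 251) (nat_lit 161))))) (XT.nd (nat_lit 234) (nat_lit 228) (nat_lit 0) (XT.nd (nat_lit 78) (nat_lit 76) (nat_lit 0) (XT.lf (nat_lit 0) (nat_lit 11614476785) (nat_lit 152) (nat_lit 12045037573) (nat_lit 228) (nat_lit 24954139294) (nat_lit 17) (nat_lit 5) (nat_lit 19) (nat_lit 5) (nat_lit 20) (nat_lit 5) (nat_lit 309) (nat_lit 251) (nat_lit 160)) (XT.nd (nat_lit 78) (nat_lit 76) (nat_lit 0) (XT.lf (nat_lit 0) (nat_lit 32334756804) (nat_lit 152) (nat_lit 374790360) (nat_lit 228) (nat_lit 17961046313) (nat_lit 17) (nat_lit 5) (nat_lit 19) (nat_lit 5) (nat_lit 20) (nat_lit 5) (nat_lit 310) (nat_lit 251) (nat_lit 159)) (XT.lf (nat_lit 0) (nat_lit 1147044177) (nat_lit 76) (nat_lit 41177187188) (nat_lit 152) (nat_lit 10502798313) (nat_lit 16) (nat_lit 5) (nat_lit 17) (nat_lit 5) (nat_lit 18) (nat_lit 4) (nat_lit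 311) (nat_lit 251) (nat_lit 158)))) (XT.nd (nat_lit 78) (nat_lit 228) (nat_lit 0) (XT.lf (nat_lit 0) (nat_lit 21962180102) (nat_lit 76) (nat_lit 30637320802) (nat_lit 152) (nat_lit 2486404465) (nat_lit 16) (nat_lit 5) (nat_lit 17) (nat_lit 5) (nat_lit 18) (nat_lit 4) (nat_lit 312) (nat_lit 251) (nat_lit 157)) (XT.nd (nat_lit 78) (nat_lit 152) (nat_lit 0) (XT.lf (nat_lit 0) (nat_lit 5802902333) (nat_lit 152) (nat_lit 13717103680) (nat_lit 76) (nat_lit 37936385993) (nat_lit 15) (nat_lit 5) (nat_lit 17) (nat_lit 5) (nat_lit 16) (nat_lit 5) (nat_lit 313) (nat_lit 251) (nat_lit 156)) (XT.lf (nat_lit 0) (nat_lit 6746942546) (nat_lit 152) (nat_lit 7762047504) (nat_lit 228) (nat_lit 45434073879) (nat_lit 13) (nat_lit 5) (nat_lit 15) (nat_lit 5) (nat_lit 16) (nat_lit 5) (nat_lit 314) (nat_lit 251) (nat_lit 155))))))))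
noncomputable def xc73 : XT := (XT.nd (nat_lit 33150) (nat_lit 0) (nat_lit 5016) (XT.nd (nat_lit 780) (nat_lit 0) (nat_lit 0) (XT.nd (nat_lit 390) (nat_lit 304) (nat_lit 0) (XT.nd (nat_lit 156) (nat_lit 76) (nat_lit 0) (XT.nd (nat_lit 78) (nat_lit 0) (nat_lit 0) (XT.lf (nat_lit 0) (nat_lit 23825749092) (nat_lit 228) (nat_lit 34093639165) (nat_lit 76) (nat_lit 4629431266) (nat_lit 13) (nat_lit 5) (nat_lit 16) (nat_lit 5) (nat_lit 14) (nat_lit 4) (nat_lit 315) (nat_lit 251) (nat_lit 154)) (XT.lf (nat_lit 0) (nat_lit 33675929369) (nat_lit 228) (nat_lit 14132647193) (nat_lit 76) (nat_lit 17474269392) (nat_lit 13) (nat_lit 5) (nat_lit 16) (nat_lit 5) (nat_lit 14) (nat_lit 4) (nat_lit 316) (nat_lit 251) (nat_lit 153))) (XT.nd (nat_lit 78) (nat_lit 0) (nat_lit 0) (XT.lf (nat_lit 0) (nat_lit 6944506587) (nat_lit 76) (nat_lit 37130618399) (nat_lit 152) (nat_lit 24076763583) (nat_lit 12) (nat_lit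 5) (nat_lit 13) (nat_lit 5) (nat_lit 14) (nat_lit 4) (nat_lit 317) (nat_lit 251) (nat_lit 152)) (XT.nd (nat_lit 78) (nat_lit 0) (nat_lit 0) (XT.lf (nat_lit 0) (nat_lit 29353947464) (nat_lit 76) (nat_lit 25775893096) (nat_lit 152) (nat_lit 16030485524) (nat_lit 12) (nat_lit 5) (nat_lit 13) (nat_lit 5) (nat_lit 14) (nat_lit 4) (nat_lit 318) (nat_lit 251) (nat_lit 151)) (XT.lf (nat_lit 0) (nat_lit 52867763857) (nat_lit 76) (nat_lit 13860077618) (nat_lit 152) (nat_lit 7591636632) (nat_lit 12) (nat_lit 5) (nat_lit 13) (nat_lit 5) (nat_lit 14) (nat_lit 4) (nat_lit 319) (nat_lit 251) (nat_lit 150))))) (XT.nd (nat_lit 156) (nat_lit 76) (nat_lit 0) (XT.nd (nat_lit 78) (nat_lit 152) (nat_lit 0) (XT.lf (nat_lit 0) (nat_lit 1235290881) (nat_lit 152) (nat_lit 107036078) (nat_lit 76) (nat_lit 76294176145) (nat_lit 11) (nat_lit 5) (nat_lit 13) (nat_lit 5) (nat_lit 12) (nat_lit 5) (nat_lit 320) (nat_lit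 251) (nat_lit 149)) (XT.lf (nat_lit 0) (nat_lit 10673429433) (nat_lit 228) (nat_lit 58571549840) (nat_lit 76) (nat_lit 11862347026) (nat_lit 9) (nat_lit 5) (nat_lit 12) (nat_lit 5) (nat_lit 10) (nat_lit 4) (nat_lit 321) (nat_lit 251) (nat_lit 148))) (XT.nd (nat_lit 78) (nat_lit 76) (nat_lit 0) (XT.lf (nat_lit 0) (nat_lit 20589688541) (nat_lit 228) (nat_lit 38466809394) (nat_lit 76) (nat_lit 25695013959) (nat_lit 9) (nat_lit 5) (nat_lit 12) (nat_lit 5) (nat_lit 10) (nat_lit 4) (nat_lit 322) (nat_lit 251) (nat_lit 147)) (XT.nd (nat_lit 78) (nat_lit 76) (nat_lit 0) (XT.lf (nat_lit 0) (nat_lit 30993715312) (nat_lit 228) (nat_lit 17370697469) (nat_lit 76) (nat_lit 40213742628) (nat_lit 9) (nat_lit 5) (nat_lit 12) (nat_lit 5) (nat_lit 10) (nat_lit 4) (nat_lit 323) (nat_lit 251) (nat_lit 146)) (XT.lf (nat_lit 0) (nat_lit 4861887715) (nat_lit 76) (nat_lit 37095128964) (nat_lit 152) (nat_lit 50637949159)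 (nat_lit 8) (nat_lit 5) (nat_lit 9) (nat_lit 5) (nat_lit 10) (nat_lit 4) (nat_lit 324) (nat_lit 251) (nat_lit 145)))))) (XT.nd (nat_lit 31902) (nat_lit 0) (nat_lit 13148) (XT.nd (nat_lit 156) (nat_lit 0) (nat_lit 0) (XT.nd (nat_lit 78) (nat_lit 0) (nat_lit 0) (XT.lf (nat_lit 0) (nat_lit 28556271894) (nat_lit 76) (nat_lit 25083606610) (nat_lit 152) (nat_lit 43167603029) (nat_lit 8) (nat_lit 5) (nat_lit 9) (nat_lit 5) (nat_lit 10) (nat_lit 4) (nat_lit 325) (nat_lit 251) (nat_lit 144)) (XT.lf (nat_lit 0) (nat_lit 53423159328) (nat_lit 76) (nat_lit 12476656840) (nat_lit 152) (nat_lit 35331025154) (nat_lit 8) (nat_lit 5) (nat_lit 9) (nat_lit 5) (nat_lit 10) (nat_lit 4) (nat_lit 326) (nat_lit 251) (nat_lit 143))) (XT.nd (nat_lit 78) (nat_lit 0) (nat_lit 0) (XT.lf (nat_lit 0) (nat_lit 78773284605) (nat_lit 152) (nat_lit 26361084728) (nat_lit 0) (nat_lit 740989743) (nat_lit 8) (nat_lit 5) (nat_lit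 10) (nat_lit 4) (nat_lit 8) (nat_lit 4) (nat_lit 327) (nat_lit 251) (nat_lit 142)) (XT.nd (nat_lit 31590) (nat_lit 0) (nat_lit 13984) (XT.lf (nat_lit 0) (nat_lit 92409901287) (nat_lit 152) (nat_lit 3979320870) (nat_lit 0) (nat_lit 14359302021) (nat_lit 8) (nat_lit 5) (nat_lit 10) (nat_lit 4) (nat_lit 8) (nat_lit 4) (nat_lit 328) (nat_lit 251) (nat_lit 141)) (XT.lf (nat_lit 0) (nat_lit 1050857991) (nat_lit 0) (nat_lit 1050857991) (nat_lit 836) (nat_lit 1983014058) (nat_lit 192) (nat_lit 5) (nat_lit 192) (nat_lit 3) (nat_lit 203) (nat_lit 3) (nat_lit 252) (nat_lit 252) (nat_lit 216))))) (XT.nd (nat_lit 234) (nat_lit 0) (nat_lit 0) (XT.nd (nat_lit 78) (nat_lit 836) (nat_lit 0) (XT.lf (nat_lit 0) (nat_lit 6024939333) (nat_lit 836) (nat_lit 337934173) (nat_lit 912) (nat_lit 1954581028) (nat_lit 192) (nat_lit 5) (nat_lit 203) (nat_lit 3) (nat_lit 204) (nat_lit 5) (nat_lit 253) (nat_lit 252) (nat_lit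 215)) (XT.nd (nat_lit 78) (nat_lit 836) (nat_lit 0) (XT.lf (nat_lit 76) (nat_lit 5710170650) (nat_lit 0) (nat_lit 2195330611) (nat_lit 912) (nat_lit 568612094) (nat_lit 193) (nat_lit 5) (nat_lit 192) (nat_lit 5) (nat_lit 204) (nat_lit 5) (nat_lit 254) (nat_lit 252) (nat_lit 214)) (XT.lf (nat_lit 0) (nat_lit 1170747307) (nat_lit 912) (nat_lit 5237453613) (nat_lit 988) (nat_lit 2231722680) (nat_lit 181) (nat_lit 5) (nat_lit 193) (nat_lit 5) (nat_lit 194) (nat_lit 5) (nat_lit 255) (nat_lit 252) (nat_lit 213)))) (XT.nd (nat_lit 78) (nat_lit 0) (nat_lit 76) (XT.lf (nat_lit 76) (nat_lit 1053060924) (nat_lit 0) (nat_lit 1893402158) (nat_lit 988) (nat_lit 5868825659) (nat_lit 182) (nat_lit 5) (nat_lit 181) (nat_lit 5) (nat_lit 194) (nat_lit 5) (nat_lit 256) (nat_lit 252) (nat_lit 212)) (XT.nd (nat_lit 78) (nat_lit 0) (nat_lit 0) (XT.lf (nat_lit 0) (nat_lit 4797346486) (nat_lit 912) (nat_lit 1320985772)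 (nat_lit 988) (nat_lit 2881753402) (nat_lit 182) (nat_lit 5) (nat_lit 194) (nat_lit 5) (nat_lit 195) (nat_lit 5) (nat_lit 257) (nat_lit 252) (nat_lit 211)) (XT.lf (nat_lit 76) (nat_lit 5470113795) (nat_lit 0) (nat_lit 1251462098) (nat_lit 988) (nat_lit 2473365311) (nat_lit 183) (nat_lit 5) (nat_lit 182) (nat_lit 5) (nat_lit 195) (nat_lit 5) (nat_lit 258) (nat_lit 252) (nat_lit 210))))))) (XT.nd (nat_lit 780) (nat_lit 3572) (nat_lit 0) (XT.nd (nat_lit 390) (nat_lit 2888) (nat_lit 0) (XT.nd (nat_lit 156) (nat_lit 836) (nat_lit 0) (XT.nd (nat_lit 78) (nat_lit 988) (nat_lit 0) (XT.lf (nat_lit 76) (nat_lit 3193078484) (nat_lit 0) (nat_lit 5543615216) (nat_lit 988) (nat_lit 663236787) (nat_lit 184) (nat_lit 5) (nat_lit 183) (nat_lit 5) (nat_lit 196) (nat_lit 5) (nat_lit 259) (nat_lit 252) (nat_lit 209)) (XT.lf (nat_lit 76) (nat_lit 851018994) (nat_lit 0) (nat_lit 337448773) (nat_lit 1064) (nat_lit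 8427302000) (nat_lit 171) (nat_lit 5) (nat_lit 170) (nat_lit 5) (nat_lit 184) (nat_lit 5) (nat_lit 260) (nat_lit 252) (nat_lit 208))) (XT.nd (nat_lit 78) (nat_lit 912) (nat_lit 0) (XT.lf (nat_lit 0) (nat_lit 3152325173) (nat_lit 988) (nat_lit 1568081267) (nat_lit 1064) (nat_lit 5121002697) (nat_lit 171) (nat_lit 5) (nat_lit 184) (nat_lit 5) (nat_lit 185) (nat_lit 5) (nat_lit 261) (nat_lit 252) (nat_lit 207)) (XT.nd (nat_lit 78) (nat_lit 988) (nat_lit 0) (XT.lf (nat_lit 0) (nat_lit 5207160399) (nat_lit 988) (nat_lit 4043637322) (nat_lit 76) (nat_lit 827943168) (nat_lit 172) (nat_lit 5) (nat_lit 185) (nat_lit 5) (nat_lit 173) (nat_lit 5) (nat_lit 262) (nat_lit 252) (nat_lit 206)) (XT.lf (nat_lit 0) (nat_lit 3687588836) (nat_lit 988) (nat_lit 3702966989) (nat_lit 1064) (nat_lit 2936793576) (nat_lit 159) (nat_lit 5) (nat_lit 172) (nat_lit 5) (nat_lit 173) (nat_lit 5) (nat_lit 263) (nat_lit 252)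 (nat_lit 205))))) (XT.nd (nat_lit 156) (nat_lit 1748) (nat_lit 0) (XT.nd (nat_lit 78) (nat_lit 76) (nat_lit 0) (XT.lf (nat_lit 0) (nat_lit 1245215264) (nat_lit 1064) (nat_lit 8441794808) (nat_lit 1140) (nat_lit 901437522) (nat_lit 145) (nat_lit 5) (nat_lit 159) (nat_lit 5) (nat_lit 160) (nat_lit 5) (nat_lit 264) (nat_lit 252) (nat_lit 204)) (XT.lf (nat_lit 0) (nat_lit 1249410382) (nat_lit 1140) (nat_lit 1308074848) (nat_lit 76) (nat_lit 8303786691) (nat_lit 144) (nat_lit 5) (nat_lit 159) (nat_lit 5) (nat_lit 145) (nat_lit 5) (nat_lit 265) (nat_lit 252) (nat_lit 203))) (XT.nd (nat_lit 78) (nat_lit 1064) (nat_lit 0) (XT.lf (nat_lit 0) (nat_lit 3528918739) (nat_lit 760) (nat_lit 3980760703) (nat_lit 76) (nat_lit 3636752358) (nat_lit 135) (nat_lit 5) (nat_lit 145) (nat_lit 5) (nat_lit 136) (nat_lit 5) (nat_lit 266) (nat_lit 252) (nat_lit 202)) (XT.nd (nat_lit 78) (nat_lit 532) (nat_lit 0) (XT.lf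 (nat_lit 0) (nat_lit 4651490137) (nat_lit 532) (nat_lit 1292368543) (nat_lit 608) (nat_lit 5501494855) (nat_lit 128) (nat_lit 5) (nat_lit 135) (nat_lit 5) (nat_lit 136) (nat_lit 5) (nat_lit 267) (nat_lit 252) (nat_lit 201)) (XT.lf (nat_lit 0) (nat_lit 1969612387) (nat_lit 532) (nat_lit 6560385410) (nat_lit 608) (nat_lit 3227850516) (nat_lit 121) (nat_lit 5) (nat_lit 128) (nat_lit 5) (nat_lit 129) (nat_lit 5) (nat_lit 268) (nat_lit 252) (nat_lit 200)))))) (XT.nd (nat_lit 390) (nat_lit 2128) (nat_lit 0) (XT.nd (nat_lit 156) (nat_lit 912) (nat_lit 0) (XT.nd (nat_lit 78) (nat_lit 532) (nat_lit 0) (XT.lf (nat_lit 0) (nat_lit 11242976632) (nat_lit 532) (nat_lit 27444448) (nat_lit 608) (nat_lit 814931263) (nat_lit 121) (nat_lit 5) (nat_lit 128) (nat_lit 5) (nat_lit 129) (nat_lit 5) (nat_lit 269) (nat_lit 252) (nat_lit 199)) (XT.lf (nat_lit 0) (nat_lit 1779096252) (nat_lit 532) (nat_lit 3847178024)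 (nat_lit 76) (nat_lit 6799765455) (nat_lit 114) (nat_lit 5) (nat_lit 121) (nat_lit 5) (nat_lit 115) (nat_lit 5) (nat_lit 270) (nat_lit 252) (nat_lit 198))) (XT.nd (nat_lit 78) (nat_lit 456) (nat_lit 0) (XT.lf (nat_lit 0) (nat_lit 4508890994) (nat_lit 532) (nat_lit 7042057872) (nat_lit 76) (nat_lit 1232000819) (nat_lit 108) (nat_lit 5) (nat_lit 115) (nat_lit 5) (nat_lit 109) (nat_lit 5) (nat_lit 271) (nat_lit 252) (nat_lit 197)) (XT.nd (nat_lit 78) (nat_lit 0) (nat_lit 0) (XT.lf (nat_lit 0) (nat_lit 2671540741) (nat_lit 456) (nat_lit 4774456494) (nat_lit 532) (nat_lit 5709695489) (nat_lit 102) (nat_lit 5) (nat_lit 108) (nat_lit 5) (nat_lit 109) (nat_lit 5) (nat_lit 272) (nat_lit 252) (nat_lit 196)) (XT.lf (nat_lit 0) (nat_lit 10575926193) (nat_lit 532) (nat_lit 605754859) (nat_lit 76) (nat_lit 2364119736) (nat_lit 102) (nat_lit 5) (nat_lit 109) (nat_lit 5) (nat_lit 103) (nat_lit 5) (nat_lit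 273) (nat_lit 252) (nat_lit 195))))) (XT.nd (nat_lit 234) (nat_lit 836) (nat_lit 0) (XT.nd (nat_lit 78) (nat_lit 760) (nat_lit 0) (XT.lf (nat_lit 0) (nat_lit 5173276) (nat_lit 532) (nat_lit 4094933106) (nat_lit 76) (nat_lit 9852540953) (nat_lit 95) (nat_lit 5) (nat_lit 102) (nat_lit 5) (nat_lit 96) (nat_lit 5) (nat_lit 274) (nat_lit 252) (nat_lit 194)) (XT.nd (nat_lit 78) (nat_lit 380) (nat_lit 0) (XT.lf (nat_lit 0) (nat_lit 3123937397) (nat_lit 456) (nat_lit 7889190595) (nat_lit 76) (nat_lit 3364228645) (nat_lit 90) (nat_lit 5) (nat_lit 96) (nat_lit 5) (nat_lit 91) (nat_lit 5) (nat_lit 275) (nat_lit 252) (nat_lit 193)) (XT.lf (nat_lit 0) (nat_lit 2824961987) (nat_lit 380) (nat_lit 3640272793) (nat_lit 456) (nat_lit 8356158424) (nat_lit 85) (nat_lit 5) (nat_lit 90) (nat_lit 5) (nat_lit 91) (nat_lit 5) (nat_lit 276) (nat_lit 252) (nat_lit 192)))) (XT.nd (nat_lit 78) (nat_lit 836) (nat_lit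 0) (XT.lf (nat_lit 0) (nat_lit 10052077170) (nat_lit 456) (nat_lit 1137853527) (nat_lit 76) (nat_lit 4095431879) (nat_lit 85) (nat_lit 5) (nat_lit 91) (nat_lit 5) (nat_lit 86) (nat_lit 5) (nat_lit 277) (nat_lit 252) (nat_lit 191)) (XT.nd (nat_lit 78) (nat_lit 456) (nat_lit 0) (XT.lf (nat_lit 0) (nat_lit 10379826495) (nat_lit 380) (nat_lit 3534040596) (nat_lit 456) (nat_lit 1855876479) (nat_lit 80) (nat_lit 5) (nat_lit 85) (nat_lit 5) (nat_lit 86) (nat_lit 5) (nat_lit 278) (nat_lit 252) (nat_lit 190)) (XT.lf (nat_lit 0) (nat_lit 1733769939) (nat_lit 456) (nat_lit 10044848265) (nat_lit 76) (nat_lit 4497022535) (nat_lit 74) (nat_lit 5) (nat_lit 80) (nat_lit 5) (nat_lit 75) (nat_lit 5) (nat_lit 279) (nat_lit 252) (nat_lit 189))))))))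
noncomputable def xc74 : XT := (XT.nd (nat_lit 1638) (nat_lit 1444) (nat_lit 0) (XT.nd (nat_lit 780) (nat_lit 1368) (nat_lit 0) (XT.nd (nat_lit 390) (nat_lit 1140) (nat_lit 0) (XT.nd (nat_lit 156) (nat_lit 684) (nat_lit 0) (XT.nd (nat_lit 78) (nat_lit 0) (nat_lit 0) (XT.lf (nat_lit 0) (nat_lit 1668807568) (nat_lit 304) (nat_lit 3865268337) (nat_lit 380) (nat_lit 11270190432) (nat_lit 70) (nat_lit 5) (nat_lit 74) (nat_lit 5) (nat_lit 75) (nat_lit 5) (nat_lit 280) (nat_lit 252) (nat_lit 188)) (XT.lf (nat_lit 0) (nat_lit 9634278463) (nat_lit 380) (nat_lit 3270400949) (nat_lit 76) (nat_lit 4451415561) (nat_lit 70) (nat_lit 5) (nat_lit 75) (nat_lit 5) (nat_lit 71) (nat_lit 5) (nat_lit 281) (nat_lit 252) (nat_lit 187))) (XT.nd (nat_lit 78) (nat_lit 380) (nat_lit 0) (XT.lf (nat_lit 0) (nat_lit 9283873749) (nat_lit 304) (nat_lit 4748385731) (nat_lit 380) (nat_lit 3900537459) (nat_lit 66) (nat_lit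 5) (nat_lit 70) (nat_lit 5) (nat_lit 71) (nat_lit 5) (nat_lit 282) (nat_lit 252) (nat_lit 186)) (XT.nd (nat_lit 78) (nat_lit 0) (nat_lit 0) (XT.lf (nat_lit 0) (nat_lit 185023387) (nat_lit 380) (nat_lit 14546051367) (nat_lit 76) (nat_lit 3805025078) (nat_lit 61) (nat_lit 5) (nat_lit 66) (nat_lit 5) (nat_lit 62) (nat_lit 5) (nat_lit 283) (nat_lit 252) (nat_lit 185)) (XT.lf (nat_lit 0) (nat_lit 4499274603) (nat_lit 380) (nat_lit 1858625572) (nat_lit 76) (nat_lit 12807413872) (nat_lit 61) (nat_lit 5) (nat_lit 66) (nat_lit 5) (nat_lit 62) (nat_lit 5) (nat_lit 284) (nat_lit 252) (nat_lit 184))))) (XT.nd (nat_lit 156) (nat_lit 608) (nat_lit 0) (XT.nd (nat_lit 78) (nat_lit 228) (nat_lit 0) (XT.lf (nat_lit 0) (nat_lit 9133683357) (nat_lit 380) (nat_lit 8200688322) (nat_lit 76) (nat_lit 2488538415) (nat_lit 57) (nat_lit 5) (nat_lit 62) (nat_lit 5) (nat_lit 58) (nat_lit 5) (nat_lit 285) (nat_lit 252)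 (nat_lit 183)) (XT.lf (nat_lit 0) (nat_lit 5299453490) (nat_lit 228) (nat_lit 8803891748) (nat_lit 304) (nat_lit 6406986604) (nat_lit 54) (nat_lit 5) (nat_lit 57) (nat_lit 5) (nat_lit 58) (nat_lit 5) (nat_lit 286) (nat_lit 252) (nat_lit 182))) (XT.nd (nat_lit 78) (nat_lit 608) (nat_lit 0) (XT.lf (nat_lit 0) (nat_lit 19378273898) (nat_lit 304) (nat_lit 1628270121) (nat_lit 76) (nat_lit 223926555) (nat_lit 54) (nat_lit 5) (nat_lit 58) (nat_lit 5) (nat_lit 55) (nat_lit 5) (nat_lit 287) (nat_lit 252) (nat_lit 181)) (XT.nd (nat_lit 78) (nat_lit 228) (nat_lit 0) (XT.lf (nat_lit 0) (nat_lit 3057850345) (nat_lit 380) (nat_lit 9258012468) (nat_lit 76) (nat_lit 9664413103) (nat_lit 49) (nat_lit 5) (nat_lit 54) (nat_lit 5) (nat_lit 50) (nat_lit 5) (nat_lit 288) (nat_lit 252) (nat_lit 180)) (XT.lf (nat_lit 0) (nat_lit 5098134864) (nat_lit 228) (nat_lit 3115396517) (nat_lit 304) (nat_lit 14552380356)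 (nat_lit 46) (nat_lit 5) (nat_lit 49) (nat_lit 5) (nat_lit 50) (nat_lit 5) (nat_lit 289) (nat_lit 252) (nat_lit 179)))))) (XT.nd (nat_lit 390) (nat_lit 608) (nat_lit 0) (XT.nd (nat_lit 156) (nat_lit 532) (nat_lit 0) (XT.nd (nat_lit 78) (nat_lit 228) (nat_lit 0) (XT.lf (nat_lit 0) (nat_lit 13759148664) (nat_lit 304) (nat_lit 3325638682) (nat_lit 76) (nat_lit 6502118876) (nat_lit 46) (nat_lit 5) (nat_lit 50) (nat_lit 5) (nat_lit 47) (nat_lit 5) (nat_lit 290) (nat_lit 252) (nat_lit 178)) (XT.lf (nat_lit 0) (nat_lit 11896822117) (nat_lit 228) (nat_lit 7805304953) (nat_lit 304) (nat_lit 4743260416) (nat_lit 43) (nat_lit 5) (nat_lit 46) (nat_lit 5) (nat_lit 47) (nat_lit 5) (nat_lit 291) (nat_lit 252) (nat_lit 177))) (XT.nd (nat_lit 78) (nat_lit 228) (nat_lit 0) (XT.lf (nat_lit 0) (nat_lit 637557447) (nat_lit 304) (nat_lit 22752692764) (nat_lit 76) (nat_lit 1954795911) (nat_lit 39) (nat_lit 5)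 (nat_lit 43) (nat_lit 5) (nat_lit 40) (nat_lit 5) (nat_lit 292) (nat_lit 252) (nat_lit 176)) (XT.nd (nat_lit 78) (nat_lit 228) (nat_lit 0) (XT.lf (nat_lit 0) (nat_lit 6375074814) (nat_lit 304) (nat_lit 7697744988) (nat_lit 76) (nat_lit 12209921055) (nat_lit 39) (nat_lit 5) (nat_lit 43) (nat_lit 5) (nat_lit 40) (nat_lit 5) (nat_lit 293) (nat_lit 252) (nat_lit 175)) (XT.lf (nat_lit 0) (nat_lit 8235857578) (nat_lit 228) (nat_lit 4219548471) (nat_lit 304) (nat_lit 14810269238) (nat_lit 36) (nat_lit 5) (nat_lit 39) (nat_lit 5) (nat_lit 40) (nat_lit 5) (nat_lit 294) (nat_lit 252) (nat_lit 174))))) (XT.nd (nat_lit 234) (nat_lit 152) (nat_lit 0) (XT.nd (nat_lit 78) (nat_lit 456) (nat_lit 0) (XT.lf (nat_lit 0) (nat_lit 18956112436) (nat_lit 304) (nat_lit 3262455848) (nat_lit 76) (nat_lit 6075728919) (nat_lit 36) (nat_lit 5) (nat_lit 40) (nat_lit 5) (nat_lit 37) (nat_lit 5) (nat_lit 295) (nat_lit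 252) (nat_lit 173)) (XT.nd (nat_lit 78) (nat_lit 304) (nat_lit 0) (XT.lf (nat_lit 0) (nat_lit 13480983911) (nat_lit 152) (nat_lit 12451562767) (nat_lit 228) (nat_lit 3437312780) (nat_lit 34) (nat_lit 5) (nat_lit 36) (nat_lit 5) (nat_lit 37) (nat_lit 5) (nat_lit 296) (nat_lit 252) (nat_lit 172)) (XT.lf (nat_lit 0) (nat_lit 583851886) (nat_lit 228) (nat_lit 2139449229) (nat_lit 304) (nat_lit 27774575091) (nat_lit 30) (nat_lit 5) (nat_lit 33) (nat_lit 5) (nat_lit 34) (nat_lit 5) (nat_lit 297) (nat_lit 252) (nat_lit 171)))) (XT.nd (nat_lit 78) (nat_lit 152) (nat_lit 0) (XT.lf (nat_lit 0) (nat_lit 9349808154) (nat_lit 304) (nat_lit 13616845161) (nat_lit 76) (nat_lit 8707777386) (nat_lit 30) (nat_lit 5) (nat_lit 34) (nat_lit 5) (nat_lit 31) (nat_lit 5) (nat_lit 298) (nat_lit 252) (nat_lit 170)) (XT.nd (nat_lit 78) (nat_lit 0) (nat_lit 0) (XT.lf (nat_lit 0) (nat_lit 3511769421) (nat_lit 152) (nat_lit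 12831786355) (nat_lit 228) (nat_lit 16565204869) (nat_lit 28) (nat_lit 5) (nat_lit 30) (nat_lit 5) (nat_lit 31) (nat_lit 5) (nat_lit 299) (nat_lit 252) (nat_lit 169)) (XT.lf (nat_lit 0) (nat_lit 21751880096) (nat_lit 152) (nat_lit 2056490145) (nat_lit 228) (nat_lit 10392819437) (nat_lit 28) (nat_lit 5) (nat_lit 30) (nat_lit 5) (nat_lit 31) (nat_lit 5) (nat_lit 300) (nat_lit 252) (nat_lit 168))))))) (XT.nd (nat_lit 780) (nat_lit 608) (nat_lit 0) (XT.nd (nat_lit 390) (nat_lit 304) (nat_lit 0) (XT.nd (nat_lit 156) (nat_lit 304) (nat_lit 0) (XT.nd (nat_lit 78) (nat_lit 76) (nat_lit 0) (XT.lf (nat_lit 0) (nat_lit 5332274138) (nat_lit 152) (nat_lit 26436400923) (nat_lit 228) (nat_lit 3785920451) (nat_lit 26) (nat_lit 5) (nat_lit 28) (nat_lit 5) (nat_lit 29) (nat_lit 5) (nat_lit 301) (nat_lit 252) (nat_lit 167)) (XT.lf (nat_lit 0) (nat_lit 3222409904) (nat_lit 228) (nat_lit 12789151570) (nat_lit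 76) (nat_lit 20959245102) (nat_lit 25) (nat_lit 5) (nat_lit 28) (nat_lit 5) (nat_lit 26) (nat_lit 5) (nat_lit 302) (nat_lit 252) (nat_lit 166))) (XT.nd (nat_lit 78) (nat_lit 152) (nat_lit 0) (XT.lf (nat_lit 0) (nat_lit 5559184593) (nat_lit 152) (nat_lit 4981077697) (nat_lit 228) (nat_lit 27915339359) (nat_lit 23) (nat_lit 5) (nat_lit 25) (nat_lit 5) (nat_lit 26) (nat_lit 5) (nat_lit 303) (nat_lit 252) (nat_lit 165)) (XT.nd (nat_lit 78) (nat_lit 152) (nat_lit 0) (XT.lf (nat_lit 0) (nat_lit 18404108358) (nat_lit 228) (nat_lit 15009653474) (nat_lit 76) (nat_lit 6595490765) (nat_lit 23) (nat_lit 5) (nat_lit 26) (nat_lit 5) (nat_lit 24) (nat_lit 5) (nat_lit 304) (nat_lit 252) (nat_lit 164)) (XT.lf (nat_lit 0) (nat_lit 3769584438) (nat_lit 152) (nat_lit 22962541973) (nat_lit 228) (nat_lit 14906348530) (nat_lit 21) (nat_lit 5) (nat_lit 23) (nat_lit 5) (nat_lit 24) (nat_lit 5) (nat_lit 305) (nat_lit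 252) (nat_lit 163))))) (XT.nd (nat_lit 156) (nat_lit 304) (nat_lit 0) (XT.nd (nat_lit 78) (nat_lit 0) (nat_lit 0) (XT.lf (nat_lit 0) (nat_lit 23777015894) (nat_lit 152) (nat_lit 11839014301) (nat_lit 228) (nat_lit 7728961036) (nat_lit 21) (nat_lit 5) (nat_lit 23) (nat_lit 5) (nat_lit 24) (nat_lit 5) (nat_lit 306) (nat_lit 252) (nat_lit 162)) (XT.lf (nat_lit 0) (nat_lit 44761556098) (nat_lit 152) (nat_lit 168262294) (nat_lit 228) (nat_lit 207460810) (nat_lit 21) (nat_lit 5) (nat_lit 23) (nat_lit 5) (nat_lit 24) (nat_lit 5) (nat_lit 307) (nat_lit 252) (nat_lit 161))) (XT.nd (nat_lit 78) (nat_lit 152) (nat_lit 0) (XT.lf (nat_lit 0) (nat_lit 7837949048) (nat_lit 152) (nat_lit 27058900461) (nat_lit 76) (nat_lit 12111192805) (nat_lit 19) (nat_lit 5) (nat_lit 21) (nat_lit 5) (nat_lit 20) (nat_lit 5) (nat_lit 308) (nat_lit 252) (nat_lit 160)) (XT.nd (nat_lit 78) (nat_lit 152) (nat_lit 0) (XT.lf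 (nat_lit 0) (nat_lit 16273568529) (nat_lit 152) (nat_lit 7700090943) (nat_lit 76) (nat_lit 24998870166) (nat_lit 19) (nat_lit 5) (nat_lit 21) (nat_lit 5) (nat_lit 20) (nat_lit 5) (nat_lit 309) (nat_lit 252) (nat_lit 159)) (XT.lf (nat_lit 0) (nat_lit 12856454399) (nat_lit 152) (nat_lit 12385322980) (nat_lit 228) (nat_lit 25790153572) (nat_lit 17) (nat_lit 5) (nat_lit 19) (nat_lit 5) (nat_lit 20) (nat_lit 5) (nat_lit 310) (nat_lit 252) (nat_lit 158)))))) (XT.nd (nat_lit 390) (nat_lit 304) (nat_lit 0) (XT.nd (nat_lit 156) (nat_lit 228) (nat_lit 0) (XT.nd (nat_lit 78) (nat_lit 76) (nat_lit 0) (XT.lf (nat_lit 0) (nat_lit 34581260144) (nat_lit 152) (nat_lit 144038000) (nat_lit 228) (nat_lit 18467010357) (nat_lit 17) (nat_lit 5) (nat_lit 19) (nat_lit 5) (nat_lit 20) (nat_lit 5) (nat_lit 311) (nat_lit 252) (nat_lit 157)) (XT.lf (nat_lit 0) (nat_lit 1825256246) (nat_lit 76) (nat_lit 42985604191)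 (nat_lit 152) (nat_lit 10646021111) (nat_lit 16) (nat_lit 5) (nat_lit 17) (nat_lit 5) (nat_lit 18) (nat_lit 4) (nat_lit 312) (nat_lit 252) (nat_lit 156))) (XT.nd (nat_lit 78) (nat_lit 228) (nat_lit 0) (XT.lf (nat_lit 0) (nat_lit 23651584213) (nat_lit 76) (nat_lit 31930670312) (nat_lit 152) (nat_lit 2246994101) (nat_lit 16) (nat_lit 5) (nat_lit 17) (nat_lit 5) (nat_lit 18) (nat_lit 4) (nat_lit 313) (nat_lit 252) (nat_lit 155)) (XT.nd (nat_lit 78) (nat_lit 152) (nat_lit 0) (XT.lf (nat_lit 0) (nat_lit 6432697825) (nat_lit 152) (nat_lit 13832720086) (nat_lit 76) (nat_lit 40053263311) (nat_lit 15) (nat_lit 5) (nat_lit 17) (nat_lit 5) (nat_lit 16) (nat_lit 5) (nat_lit 314) (nat_lit 252) (nat_lit 154)) (XT.lf (nat_lit 0) (nat_lit 7638182671) (nat_lit 152) (nat_lit 7925057787) (nat_lit 228) (nat_lit 47366787999) (nat_lit 13) (nat_lit 5) (nat_lit 15) (nat_lit 5) (nat_lit 16) (nat_lit 5) (nat_lit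 315) (nat_lit 252) (nat_lit 153))))) (XT.nd (nat_lit 234) (nat_lit 228) (nat_lit 0) (XT.nd (nat_lit 78) (nat_lit 76) (nat_lit 0) (XT.lf (nat_lit 0) (nat_lit 25332240955) (nat_lit 228) (nat_lit 35263161177) (nat_lit 76) (nat_lit 5071093053) (nat_lit 13) (nat_lit 5) (nat_lit 16) (nat_lit 5) (nat_lit 14) (nat_lit 4) (nat_lit 316) (nat_lit 252) (nat_lit 152)) (XT.nd (nat_lit 78) (nat_lit 76) (nat_lit 0) (XT.lf (nat_lit 0) (nat_lit 35659920512) (nat_lit 228) (nat_lit 14329603414) (nat_lit 76) (nat_lit 18548164027) (nat_lit 13) (nat_lit 5) (nat_lit 16) (nat_lit 5) (nat_lit 14) (nat_lit 4) (nat_lit 317) (nat_lit 252) (nat_lit 151)) (XT.lf (nat_lit 0) (nat_lit 7786798292) (nat_lit 76) (nat_lit 38782741516) (nat_lit 152) (nat_lit 24980942996) (nat_lit 12) (nat_lit 5) (nat_lit 13) (nat_lit 5) (nat_lit 14) (nat_lit 4) (nat_lit 318) (nat_lit 252) (nat_lit 150)))) (XT.nd (nat_lit 78) (nat_lit 228) (nat_lit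 0) (XT.lf (nat_lit 0) (nat_lit 31293136623) (nat_lit 76) (nat_lit 26870013652) (nat_lit 152) (nat_lit 16546620500) (nat_lit 12) (nat_lit 5) (nat_lit 13) (nat_lit 5) (nat_lit 14) (nat_lit 4) (nat_lit 319) (nat_lit 252) (nat_lit 149)) (XT.nd (nat_lit 78) (nat_lit 228) (nat_lit 0) (XT.lf (nat_lit 0) (nat_lit 55960191845) (nat_lit 76) (nat_lit 14367677595) (nat_lit 152) (nat_lit 7699419130) (nat_lit 12) (nat_lit 5) (nat_lit 13) (nat_lit 5) (nat_lit 14) (nat_lit 4) (nat_lit 320) (nat_lit 252) (nat_lit 148)) (XT.lf (nat_lit 0) (nat_lit 326935167) (nat_lit 152) (nat_lit 1227068244) (nat_lit 228) (nat_lit 79956381213) (nat_lit 9) (nat_lit 5) (nat_lit 11) (nat_lit 5) (nat_lit 12) (nat_lit 5) (nat_lit 321) (nat_lit 252) (nat_lit 147))))))))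
noncomputable def xc75 : XT := (XT.nd (nat_lit 33306) (nat_lit 0) (nat_lit 3496) (XT.nd (nat_lit 32448) (nat_lit 0) (nat_lit 9652) (XT.nd (nat_lit 390) (nat_lit 0) (nat_lit 0) (XT.nd (nat_lit 156) (nat_lit 76) (nat_lit 0) (XT.nd (nat_lit 78) (nat_lit 0) (nat_lit 0) (XT.lf (nat_lit 0) (nat_lit 11454542656) (nat_lit 228) (nat_lit 61073677360) (nat_lit 76) (nat_lit 12626825350) (nat_lit 9) (nat_lit 5) (nat_lit 12) (nat_lit 5) (nat_lit 10) (nat_lit 4) (nat_lit 322) (nat_lit 252) (nat_lit 146)) (XT.lf (nat_lit 0) (nat_lit 21854831778) (nat_lit 228) (nat_lit 39984007034) (nat_lit 76) (nat_lit 27142965583) (nat_lit 9) (nat_lit 5) (nat_lit 12) (nat_lit 5) (nat_lit 10) (nat_lit 4) (nat_lit 323) (nat_lit 252) (nat_lit 145))) (XT.nd (nat_lit 78) (nat_lit 76) (nat_lit 0) (XT.lf (nat_lit 0) (nat_lit 32767838040) (nat_lit 228) (nat_lit 17852429646) (nat_lit 76) (nat_lit 42379859212) (nat_lit 9) (nat_lit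 5) (nat_lit 12) (nat_lit 5) (nat_lit 10) (nat_lit 4) (nat_lit 324) (nat_lit 252) (nat_lit 144)) (XT.nd (nat_lit 78) (nat_lit 0) (nat_lit 0) (XT.lf (nat_lit 0) (nat_lit 5480697175) (nat_lit 76) (nat_lit 38791531429) (nat_lit 152) (nat_lit 52945771197) (nat_lit 8) (nat_lit 5) (nat_lit 9) (nat_lit 5) (nat_lit 10) (nat_lit 4) (nat_lit 325) (nat_lit 252) (nat_lit 143)) (XT.lf (nat_lit 0) (nat_lit 30341909369) (nat_lit 76) (nat_lit 26186973623) (nat_lit 152) (nat_lit 45112578019) (nat_lit 8) (nat_lit 5) (nat_lit 9) (nat_lit 5) (nat_lit 10) (nat_lit 4) (nat_lit 326) (nat_lit 252) (nat_lit 142))))) (XT.nd (nat_lit 31824) (nat_lit 0) (nat_lit 13072) (XT.nd (nat_lit 31746) (nat_lit 0) (nat_lit 13984) (XT.lf (nat_lit 0) (nat_lit 56435101942) (nat_lit 76) (nat_lit 12956857951) (nat_lit 152) (nat_lit 36894333400) (nat_lit 8) (nat_lit 5) (nat_lit 9) (nat_lit 5) (nat_lit 10) (nat_lit 4) (nat_lit 327) (nat_lit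 252) (nat_lit 141)) (XT.lf (nat_lit 0) (nat_lit 1938780911) (nat_lit 0) (nat_lit 1938780911) (nat_lit 836) (nat_lit 356606669) (nat_lit 192) (nat_lit 5) (nat_lit 192) (nat_lit 3) (nat_lit 203) (nat_lit 3) (nat_lit 253) (nat_lit 253) (nat_lit 214))) (XT.nd (nat_lit 78) (nat_lit 0) (nat_lit 0) (XT.lf (nat_lit 0) (nat_lit 860450612) (nat_lit 912) (nat_lit 7254415962) (nat_lit 988) (nat_lit 513890404) (nat_lit 180) (nat_lit 5) (nat_lit 192) (nat_lit 5) (nat_lit 193) (nat_lit 5) (nat_lit 254) (nat_lit 253) (nat_lit 213)) (XT.nd (nat_lit 78) (nat_lit 0) (nat_lit 76) (XT.lf (nat_lit 0) (nat_lit 2485210384) (nat_lit 912) (nat_lit 1165224492) (nat_lit 988) (nat_lit 5147204088) (nat_lit 180) (nat_lit 5) (nat_lit 192) (nat_lit 5) (nat_lit 193) (nat_lit 5) (nat_lit 255) (nat_lit 253) (nat_lit 212)) (XT.lf (nat_lit 0) (nat_lit 4157730008) (nat_lit 912) (nat_lit 3709613191) (nat_lit 988) (nat_lit 1108881169)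 (nat_lit 181) (nat_lit 5) (nat_lit 193) (nat_lit 5) (nat_lit 194) (nat_lit 5) (nat_lit 256) (nat_lit 253) (nat_lit 211)))))) (XT.nd (nat_lit 390) (nat_lit 2584) (nat_lit 0) (XT.nd (nat_lit 156) (nat_lit 912) (nat_lit 0) (XT.nd (nat_lit 78) (nat_lit 0) (nat_lit 76) (XT.lf (nat_lit 76) (nat_lit 2844125306) (nat_lit 0) (nat_lit 3055367161) (nat_lit 988) (nat_lit 3264920903) (nat_lit 182) (nat_lit 5) (nat_lit 181) (nat_lit 5) (nat_lit 194) (nat_lit 5) (nat_lit 257) (nat_lit 253) (nat_lit 210)) (XT.lf (nat_lit 76) (nat_lit 372918722) (nat_lit 0) (nat_lit 7330210039) (nat_lit 988) (nat_lit 1659870761) (nat_lit 183) (nat_lit 5) (nat_lit 182) (nat_lit 5) (nat_lit 195) (nat_lit 5) (nat_lit 258) (nat_lit 253) (nat_lit 209))) (XT.nd (nat_lit 78) (nat_lit 0) (nat_lit 76) (XT.lf (nat_lit 0) (nat_lit 37469941) (nat_lit 988) (nat_lit 2125667681) (nat_lit 1064) (nat_lit 7408207837) (nat_lit 169) (nat_lit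 5) (nat_lit 182) (nat_lit 5) (nat_lit 183) (nat_lit 5) (nat_lit 259) (nat_lit 253) (nat_lit 208)) (XT.nd (nat_lit 78) (nat_lit 0) (nat_lit 0) (XT.lf (nat_lit 0) (nat_lit 1787039367) (nat_lit 988) (nat_lit 4712570381) (nat_lit 1064) (nat_lit 3290158864) (nat_lit 170) (nat_lit 5) (nat_lit 183) (nat_lit 5) (nat_lit 184) (nat_lit 5) (nat_lit 260) (nat_lit 253) (nat_lit 207)) (XT.lf (nat_lit 76) (nat_lit 2639962654) (nat_lit 0) (nat_lit 976952800) (nat_lit 1064) (nat_lit 6402606584) (nat_lit 171) (nat_lit 5) (nat_lit 170) (nat_lit 5) (nat_lit 184) (nat_lit 5) (nat_lit 261) (nat_lit 253) (nat_lit 206))))) (XT.nd (nat_lit 234) (nat_lit 1824) (nat_lit 0) (XT.nd (nat_lit 78) (nat_lit 912) (nat_lit 0) (XT.lf (nat_lit 76) (nat_lit 97720639) (nat_lit 0) (nat_lit 5463673651) (nat_lit 1064) (nat_lit 4698860301) (nat_lit 172) (nat_lit 5) (nat_lit 171) (nat_lit 5) (nat_lit 185) (nat_lit 5) (nat_lit 262)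 (nat_lit 253) (nat_lit 205)) (XT.nd (nat_lit 78) (nat_lit 988) (nat_lit 0) (XT.lf (nat_lit 0) (nat_lit 7622641016) (nat_lit 988) (nat_lit 2478771887) (nat_lit 76) (nat_lit 411200479) (nat_lit 172) (nat_lit 5) (nat_lit 185) (nat_lit 5) (nat_lit 173) (nat_lit 5) (nat_lit 263) (nat_lit 253) (nat_lit 204)) (XT.lf (nat_lit 0) (nat_lit 5588363523) (nat_lit 988) (nat_lit 4240716844) (nat_lit 1064) (nat_lit 947413387) (nat_lit 159) (nat_lit 5) (nat_lit 172) (nat_lit 5) (nat_lit 173) (nat_lit 5) (nat_lit 264) (nat_lit 253) (nat_lit 203)))) (XT.nd (nat_lit 78) (nat_lit 684) (nat_lit 0) (XT.lf (nat_lit 0) (nat_lit 1080345828) (nat_lit 1140) (nat_lit 8020776272) (nat_lit 76) (nat_lit 1952004388) (nat_lit 144) (nat_lit 5) (nat_lit 159) (nat_lit 5) (nat_lit 145) (nat_lit 5) (nat_lit 265) (nat_lit 253) (nat_lit 202)) (XT.nd (nat_lit 78) (nat_lit 0) (nat_lit 0) (XT.lf (nat_lit 0) (nat_lit 328667512) (nat_lit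 684) (nat_lit 2899120760) (nat_lit 760) (nat_lit 8114532047) (nat_lit 135) (nat_lit 5) (nat_lit 144) (nat_lit 5) (nat_lit 145) (nat_lit 5) (nat_lit 266) (nat_lit 253) (nat_lit 201)) (XT.lf (nat_lit 0) (nat_lit 5541032643) (nat_lit 760) (nat_lit 2471397151) (nat_lit 76) (nat_lit 3631931673) (nat_lit 135) (nat_lit 5) (nat_lit 145) (nat_lit 5) (nat_lit 136) (nat_lit 5) (nat_lit 267) (nat_lit 253) (nat_lit 200))))))) (XT.nd (nat_lit 780) (nat_lit 2356) (nat_lit 0) (XT.nd (nat_lit 390) (nat_lit 1748) (nat_lit 0) (XT.nd (nat_lit 156) (nat_lit 988) (nat_lit 0) (XT.nd (nat_lit 78) (nat_lit 532) (nat_lit 0) (XT.lf (nat_lit 0) (nat_lit 6543495242) (nat_lit 532) (nat_lit 1461763041) (nat_lit 608) (nat_lit 3955320650) (nat_lit 128) (nat_lit 5) (nat_lit 135) (nat_lit 5) (nat_lit 136) (nat_lit 5) (nat_lit 268) (nat_lit 253) (nat_lit 199)) (XT.lf (nat_lit 0) (nat_lit 3736341835) (nat_lit 532) (nat_lit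 6915429697) (nat_lit 608) (nat_lit 1639190907) (nat_lit 121) (nat_lit 5) (nat_lit 128) (nat_lit 5) (nat_lit 129) (nat_lit 5) (nat_lit 269) (nat_lit 253) (nat_lit 198))) (XT.nd (nat_lit 78) (nat_lit 456) (nat_lit 0) (XT.lf (nat_lit 0) (nat_lit 763587862) (nat_lit 456) (nat_lit 38964421) (nat_lit 532) (nat_lit 11834443788) (nat_lit 114) (nat_lit 5) (nat_lit 120) (nat_lit 5) (nat_lit 121) (nat_lit 5) (nat_lit 270) (nat_lit 253) (nat_lit 197)) (XT.nd (nat_lit 78) (nat_lit 456) (nat_lit 0) (XT.lf (nat_lit 0) (nat_lit 3439663045) (nat_lit 532) (nat_lit 2410626487) (nat_lit 76) (nat_lit 7146451764) (nat_lit 114) (nat_lit 5) (nat_lit 121) (nat_lit 5) (nat_lit 115) (nat_lit 5) (nat_lit 271) (nat_lit 253) (nat_lit 196)) (XT.lf (nat_lit 0) (nat_lit 6246993253) (nat_lit 532) (nat_lit 5763970709) (nat_lit 76) (nat_lit 1362465798) (nat_lit 108) (nat_lit 5) (nat_lit 115) (nat_lit 5) (nat_lit 109) (nat_lit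 5) (nat_lit 272) (nat_lit 253) (nat_lit 195))))) (XT.nd (nat_lit 156) (nat_lit 836) (nat_lit 0) (XT.nd (nat_lit 78) (nat_lit 456) (nat_lit 0) (XT.lf (nat_lit 0) (nat_lit 4388578764) (nat_lit 456) (nat_lit 4885565919) (nat_lit 532) (nat_lit 4492526129) (nat_lit 102) (nat_lit 5) (nat_lit 108) (nat_lit 5) (nat_lit 109) (nat_lit 5) (nat_lit 273) (nat_lit 253) (nat_lit 194)) (XT.lf (nat_lit 0) (nat_lit 933643610) (nat_lit 456) (nat_lit 11567743439) (nat_lit 532) (nat_lit 1676821821) (nat_lit 96) (nat_lit 5) (nat_lit 102) (nat_lit 5) (nat_lit 103) (nat_lit 5) (nat_lit 274) (nat_lit 253) (nat_lit 193))) (XT.nd (nat_lit 78) (nat_lit 760) (nat_lit 0) (XT.lf (nat_lit 0) (nat_lit 1357540693) (nat_lit 532) (nat_lit 2763017884) (nat_lit 76) (nat_lit 10486400560) (nat_lit 95) (nat_lit 5) (nat_lit 102) (nat_lit 5) (nat_lit 96) (nat_lit 5) (nat_lit 275) (nat_lit 253) (nat_lit 192)) (XT.nd (nat_lit 78) (nat_lit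 380) (nat_lit 0) (XT.lf (nat_lit 0) (nat_lit 4584036424) (nat_lit 456) (nat_lit 6751179853) (nat_lit 76) (nat_lit 3719265126) (nat_lit 90) (nat_lit 5) (nat_lit 96) (nat_lit 5) (nat_lit 91) (nat_lit 5) (nat_lit 276) (nat_lit 253) (nat_lit 191)) (XT.lf (nat_lit 0) (nat_lit 4454752405) (nat_lit 380) (nat_lit 3589864472) (nat_lit 456) (nat_lit 7477661424) (nat_lit 85) (nat_lit 5) (nat_lit 90) (nat_lit 5) (nat_lit 91) (nat_lit 5) (nat_lit 277) (nat_lit 253) (nat_lit 190)))))) (XT.nd (nat_lit 390) (nat_lit 1216) (nat_lit 0) (XT.nd (nat_lit 156) (nat_lit 760) (nat_lit 0) (XT.nd (nat_lit 78) (nat_lit 0) (nat_lit 0) (XT.lf (nat_lit 0) (nat_lit 264212097) (nat_lit 380) (nat_lit 11491441595) (nat_lit 456) (nat_lit 4255565973) (nat_lit 80) (nat_lit 5) (nat_lit 85) (nat_lit 5) (nat_lit 86) (nat_lit 5) (nat_lit 278) (nat_lit 253) (nat_lit 189)) (XT.lf (nat_lit 0) (nat_lit 12310947433) (nat_lit 380) (nat_lit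 3453551928) (nat_lit 456) (nat_lit 756814782) (nat_lit 80) (nat_lit 5) (nat_lit 85) (nat_lit 5) (nat_lit 86) (nat_lit 5) (nat_lit 279) (nat_lit 253) (nat_lit 188))) (XT.nd (nat_lit 78) (nat_lit 304) (nat_lit 0) (XT.lf (nat_lit 0) (nat_lit 2949427383) (nat_lit 456) (nat_lit 9117416297) (nat_lit 76) (nat_lit 4986612536) (nat_lit 74) (nat_lit 5) (nat_lit 80) (nat_lit 5) (nat_lit 75) (nat_lit 5) (nat_lit 280) (nat_lit 253) (nat_lit 187)) (XT.nd (nat_lit 78) (nat_lit 0) (nat_lit 0) (XT.lf (nat_lit 0) (nat_lit 3140940998) (nat_lit 304) (nat_lit 3758396190) (nat_lit 380) (nat_lit 10710488129) (nat_lit 70) (nat_lit 5) (nat_lit 74) (nat_lit 5) (nat_lit 75) (nat_lit 5) (nat_lit 281) (nat_lit 253) (nat_lit 186)) (XT.lf (nat_lit 0) (nat_lit 11155461504) (nat_lit 380) (nat_lit 2081099756) (nat_lit 76) (nat_lit 4954251899) (nat_lit 70) (nat_lit 5) (nat_lit 75) (nat_lit 5) (nat_lit 71) (nat_lit 5) (nat_lit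 282) (nat_lit 253) (nat_lit 185))))) (XT.nd (nat_lit 234) (nat_lit 532) (nat_lit 0) (XT.nd (nat_lit 78) (nat_lit 380) (nat_lit 0) (XT.lf (nat_lit 0) (nat_lit 11062110328) (nat_lit 304) (nat_lit 4674364100) (nat_lit 380) (nat_lit 3061072407) (nat_lit 66) (nat_lit 5) (nat_lit 70) (nat_lit 5) (nat_lit 71) (nat_lit 5) (nat_lit 283) (nat_lit 253) (nat_lit 184)) (XT.nd (nat_lit 78) (nat_lit 0) (nat_lit 0) (XT.lf (nat_lit 0) (nat_lit 1175822261) (nat_lit 380) (nat_lit 13947699857) (nat_lit 76) (nat_lit 4308260923) (nat_lit 61) (nat_lit 5) (nat_lit 66) (nat_lit 5) (nat_lit 62) (nat_lit 5) (nat_lit 284) (nat_lit 253) (nat_lit 183)) (XT.lf (nat_lit 0) (nat_lit 5659045671) (nat_lit 380) (nat_lit 689029156) (nat_lit 76) (nat_lit 13745865129) (nat_lit 61) (nat_lit 5) (nat_lit 66) (nat_lit 5) (nat_lit 62) (nat_lit 5) (nat_lit 285) (nat_lit 253) (nat_lit 182)))) (XT.nd (nat_lit 78) (nat_lit 228) (nat_lit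 0) (XT.lf (nat_lit 0) (nat_lit 10495565487) (nat_lit 380) (nat_lit 7358920076) (nat_lit 76) (nat_lit 2930894504) (nat_lit 57) (nat_lit 5) (nat_lit 62) (nat_lit 5) (nat_lit 58) (nat_lit 5) (nat_lit 286) (nat_lit 253) (nat_lit 181)) (XT.nd (nat_lit 78) (nat_lit 0) (nat_lit 0) (XT.lf (nat_lit 0) (nat_lit 6780346155) (nat_lit 228) (nat_lit 8901947809) (nat_lit 304) (nat_lit 5825893794) (nat_lit 54) (nat_lit 5) (nat_lit 57) (nat_lit 5) (nat_lit 58) (nat_lit 5) (nat_lit 287) (nat_lit 253) (nat_lit 180)) (XT.lf (nat_lit 0) (nat_lit 21182492650) (nat_lit 304) (nat_lit 528453321) (nat_lit 76) (nat_lit 554610665) (nat_lit 54) (nat_lit 5) (nat_lit 58) (nat_lit 5) (nat_lit 55) (nat_lit 5) (nat_lit 288) (nat_lit 253) (nat_lit 179))))))))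
noncomputable def xc76 : XT := (XT.nd (nat_lit 1638) (nat_lit 836) (nat_lit 0) (XT.nd (nat_lit 780) (nat_lit 836) (nat_lit 0) (XT.nd (nat_lit 390) (nat_lit 684) (nat_lit 0) (XT.nd (nat_lit 156) (nat_lit 532) (nat_lit 0) (XT.nd (nat_lit 78) (nat_lit 228) (nat_lit 0) (XT.lf (nat_lit 0) (nat_lit 4026573503) (nat_lit 380) (nat_lit 8556031436) (nat_lit 76) (nat_lit 10470935404) (nat_lit 49) (nat_lit 5) (nat_lit 54) (nat_lit 5) (nat_lit 50) (nat_lit 5) (nat_lit 289) (nat_lit 253) (nat_lit 178)) (XT.lf (nat_lit 0) (nat_lit 6484532163) (nat_lit 228) (nat_lit 2927533930) (nat_lit 304) (nat_lit 14467291727) (nat_lit 46) (nat_lit 5) (nat_lit 49) (nat_lit 5) (nat_lit 50) (nat_lit 5) (nat_lit 290) (nat_lit 253) (nat_lit 177))) (XT.nd (nat_lit 78) (nat_lit 532) (nat_lit 0) (XT.lf (nat_lit 0) (nat_lit 15200593094) (nat_lit 304) (nat_lit 2393790278) (nat_lit 76) (nat_lit 7148107588) (nat_lit 46) (nat_lit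 5) (nat_lit 50) (nat_lit 5) (nat_lit 47) (nat_lit 5) (nat_lit 291) (nat_lit 253) (nat_lit 176)) (XT.nd (nat_lit 78) (nat_lit 304) (nat_lit 0) (XT.lf (nat_lit 0) (nat_lit 13558315875) (nat_lit 228) (nat_lit 7856777530) (nat_lit 304) (nat_lit 4229626739) (nat_lit 43) (nat_lit 5) (nat_lit 46) (nat_lit 5) (nat_lit 47) (nat_lit 5) (nat_lit 292) (nat_lit 253) (nat_lit 175)) (XT.lf (nat_lit 0) (nat_lit 1383902602) (nat_lit 304) (nat_lit 22819896971) (nat_lit 76) (nat_lit 2386046883) (nat_lit 39) (nat_lit 5) (nat_lit 43) (nat_lit 5) (nat_lit 40) (nat_lit 5) (nat_lit 293) (nat_lit 253) (nat_lit 174))))) (XT.nd (nat_lit 156) (nat_lit 456) (nat_lit 0) (XT.nd (nat_lit 78) (nat_lit 228) (nat_lit 0) (XT.lf (nat_lit 0) (nat_lit 7374273586) (nat_lit 304) (nat_lit 7063174683) (nat_lit 76) (nat_lit 13138046801) (nat_lit 39) (nat_lit 5) (nat_lit 43) (nat_lit 5) (nat_lit 40) (nat_lit 5) (nat_lit 294) (nat_lit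 253) (nat_lit 173)) (XT.lf (nat_lit 0) (nat_lit 9637885465) (nat_lit 228) (nat_lit 4097852518) (nat_lit 304) (nat_lit 14872570906) (nat_lit 36) (nat_lit 5) (nat_lit 39) (nat_lit 5) (nat_lit 40) (nat_lit 5) (nat_lit 295) (nat_lit 253) (nat_lit 172))) (XT.nd (nat_lit 78) (nat_lit 456) (nat_lit 0) (XT.lf (nat_lit 0) (nat_lit 20533212811) (nat_lit 304) (nat_lit 2465876440) (nat_lit 76) (nat_lit 6690164622) (nat_lit 36) (nat_lit 5) (nat_lit 40) (nat_lit 5) (nat_lit 37) (nat_lit 5) (nat_lit 296) (nat_lit 253) (nat_lit 171)) (XT.nd (nat_lit 78) (nat_lit 304) (nat_lit 0) (XT.lf (nat_lit 0) (nat_lit 15087225636) (nat_lit 152) (nat_lit 12750237517) (nat_lit 228) (nat_lit 2981803131) (nat_lit 34) (nat_lit 5) (nat_lit 36) (nat_lit 5) (nat_lit 37) (nat_lit 5) (nat_lit 297) (nat_lit 253) (nat_lit 170)) (XT.lf (nat_lit 0) (nat_lit 1531197098) (nat_lit 228) (nat_lit 1922935809) (nat_lit 304) (nat_lit 28550022744)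 (nat_lit 30) (nat_lit 5) (nat_lit 33) (nat_lit 5) (nat_lit 34) (nat_lit 5) (nat_lit 298) (nat_lit 253) (nat_lit 169)))))) (XT.nd (nat_lit 390) (nat_lit 456) (nat_lit 0) (XT.nd (nat_lit 156) (nat_lit 228) (nat_lit 0) (XT.nd (nat_lit 78) (nat_lit 152) (nat_lit 0) (XT.lf (nat_lit 0) (nat_lit 10386609306) (nat_lit 304) (nat_lit 13408489859) (nat_lit 76) (nat_lit 9445236262) (nat_lit 30) (nat_lit 5) (nat_lit 34) (nat_lit 5) (nat_lit 31) (nat_lit 5) (nat_lit 299) (nat_lit 253) (nat_lit 168)) (XT.lf (nat_lit 0) (nat_lit 4551066783) (nat_lit 152) (nat_lit 13160169988) (nat_lit 228) (nat_lit 16825744440) (nat_lit 28) (nat_lit 5) (nat_lit 30) (nat_lit 5) (nat_lit 31) (nat_lit 5) (nat_lit 300) (nat_lit 253) (nat_lit 167))) (XT.nd (nat_lit 78) (nat_lit 228) (nat_lit 0) (XT.lf (nat_lit 0) (nat_lit 23662053997) (nat_lit 152) (nat_lit 1861023524) (nat_lit 228) (nat_lit 10371774055) (nat_lit 28) (nat_lit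 5) (nat_lit 30) (nat_lit 5) (nat_lit 31) (nat_lit 5) (nat_lit 301) (nat_lit 253) (nat_lit 166)) (XT.nd (nat_lit 78) (nat_lit 76) (nat_lit 0) (XT.lf (nat_lit 0) (nat_lit 6411031042) (nat_lit 152) (nat_lit 27455938042) (nat_lit 228) (nat_lit 3449423326) (nat_lit 26) (nat_lit 5) (nat_lit 28) (nat_lit 5) (nat_lit 29) (nat_lit 5) (nat_lit 302) (nat_lit 253) (nat_lit 165)) (XT.lf (nat_lit 0) (nat_lit 3874514237) (nat_lit 228) (nat_lit 12644778836) (nat_lit 76) (nat_lit 22284735257) (nat_lit 25) (nat_lit 5) (nat_lit 28) (nat_lit 5) (nat_lit 26) (nat_lit 5) (nat_lit 303) (nat_lit 253) (nat_lit 164))))) (XT.nd (nat_lit 234) (nat_lit 152) (nat_lit 0) (XT.nd (nat_lit 78) (nat_lit 152) (nat_lit 0) (XT.lf (nat_lit 0) (nat_lit 6598505798) (nat_lit 152) (nat_lit 4943691939) (nat_lit 228) (nat_lit 28821375314) (nat_lit 23) (nat_lit 5) (nat_lit 25) (nat_lit 5) (nat_lit 26) (nat_lit 5) (nat_lit 304) (nat_lit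 253) (nat_lit 163)) (XT.nd (nat_lit 78) (nat_lit 152) (nat_lit 0) (XT.lf (nat_lit 0) (nat_lit 19779243076) (nat_lit 228) (nat_lit 15023548317) (nat_lit 76) (nat_lit 7192741659) (nat_lit 23) (nat_lit 5) (nat_lit 26) (nat_lit 5) (nat_lit 24) (nat_lit 5) (nat_lit 305) (nat_lit 253) (nat_lit 162)) (XT.lf (nat_lit 0) (nat_lit 4673537349) (nat_lit 152) (nat_lit 23835338954) (nat_lit 228) (nat_lit 15197809225) (nat_lit 21) (nat_lit 5) (nat_lit 23) (nat_lit 5) (nat_lit 24) (nat_lit 5) (nat_lit 306) (nat_lit 253) (nat_lit 161)))) (XT.nd (nat_lit 78) (nat_lit 152) (nat_lit 0) (XT.lf (nat_lit 0) (nat_lit 25647270202) (nat_lit 152) (nat_lit 12168745856) (nat_lit 228) (nat_lit 7683164582) (nat_lit 21) (nat_lit 5) (nat_lit 23) (nat_lit 5) (nat_lit 24) (nat_lit 5) (nat_lit 307) (nat_lit 253) (nat_lit 160)) (XT.nd (nat_lit 78) (nat_lit 0) (nat_lit 0) (XT.lf (nat_lit 0) (nat_lit 193390001) (nat_lit 152)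 (nat_lit 47112021557) (nat_lit 76) (nat_lit 76137128) (nat_lit 19) (nat_lit 5) (nat_lit 21) (nat_lit 5) (nat_lit 20) (nat_lit 5) (nat_lit 308) (nat_lit 253) (nat_lit 159)) (XT.lf (nat_lit 0) (nat_lit 8622777428) (nat_lit 152) (nat_lit 27763495152) (nat_lit 76) (nat_lit 12959957158) (nat_lit 19) (nat_lit 5) (nat_lit 21) (nat_lit 5) (nat_lit 20) (nat_lit 5) (nat_lit 309) (nat_lit 253) (nat_lit 158))))))) (XT.nd (nat_lit 780) (nat_lit 304) (nat_lit 0) (XT.nd (nat_lit 390) (nat_lit 304) (nat_lit 0) (XT.nd (nat_lit 156) (nat_lit 76) (nat_lit 0) (XT.nd (nat_lit 78) (nat_lit 152) (nat_lit 0) (XT.lf (nat_lit 0) (nat_lit 17461466886) (nat_lit 152) (nat_lit 7467618984) (nat_lit 76) (nat_lit 26480437211) (nat_lit 19) (nat_lit 5) (nat_lit 21) (nat_lit 5) (nat_lit 20) (nat_lit 5) (nat_lit 310) (nat_lit 253) (nat_lit 157)) (XT.lf (nat_lit 0) (nat_lit 14099053785) (nat_lit 152) (nat_lit 12766977817) (nat_lit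 228) (nat_lit 26706243849) (nat_lit 17) (nat_lit 5) (nat_lit 19) (nat_lit 5) (nat_lit 20) (nat_lit 5) (nat_lit 311) (nat_lit 253) (nat_lit 156))) (XT.nd (nat_lit 78) (nat_lit 76) (nat_lit 0) (XT.lf (nat_lit 0) (nat_lit 36807203927) (nat_lit 228) (nat_lit 18960390156) (nat_lit 76) (nat_lit 73591962) (nat_lit 17) (nat_lit 5) (nat_lit 20) (nat_lit 5) (nat_lit 18) (nat_lit 4) (nat_lit 312) (nat_lit 253) (nat_lit 155)) (XT.nd (nat_lit 78) (nat_lit 0) (nat_lit 0) (XT.lf (nat_lit 0) (nat_lit 2479657255) (nat_lit 76) (nat_lit 44907725801) (nat_lit 152) (nat_lit 10831912084) (nat_lit 16) (nat_lit 5) (nat_lit 17) (nat_lit 5) (nat_lit 18) (nat_lit 4) (nat_lit 313) (nat_lit 253) (nat_lit 154)) (XT.lf (nat_lit 0) (nat_lit 25370485515) (nat_lit 76) (nat_lit 33310862304) (nat_lit 152) (nat_lit 2029429441) (nat_lit 16) (nat_lit 5) (nat_lit 17) (nat_lit 5) (nat_lit 18) (nat_lit 4) (nat_lit 314) (nat_lit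 253) (nat_lit 153))))) (XT.nd (nat_lit 156) (nat_lit 76) (nat_lit 0) (XT.nd (nat_lit 78) (nat_lit 152) (nat_lit 0) (XT.lf (nat_lit 0) (nat_lit 7062405618) (nat_lit 152) (nat_lit 14007132709) (nat_lit 76) (nat_lit 42255525587) (nat_lit 15) (nat_lit 5) (nat_lit 17) (nat_lit 5) (nat_lit 16) (nat_lit 5) (nat_lit 315) (nat_lit 253) (nat_lit 152)) (XT.lf (nat_lit 0) (nat_lit 8522489082) (nat_lit 152) (nat_lit 8117145514) (nat_lit 228) (nat_lit 49427653862) (nat_lit 13) (nat_lit 5) (nat_lit 15) (nat_lit 5) (nat_lit 16) (nat_lit 5) (nat_lit 316) (nat_lit 253) (nat_lit 151))) (XT.nd (nat_lit 78) (nat_lit 76) (nat_lit 0) (XT.lf (nat_lit 0) (nat_lit 26884752693) (nat_lit 228) (nat_lit 36540913389) (nat_lit 76) (nat_lit 5515296434) (nat_lit 13) (nat_lit 5) (nat_lit 16) (nat_lit 5) (nat_lit 14) (nat_lit 4) (nat_lit 317) (nat_lit 253) (nat_lit 150)) (XT.nd (nat_lit 78) (nat_lit 76) (nat_lit 0) (XT.lf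 (nat_lit 0) (nat_lit 37715201957) (nat_lit 228) (nat_lit 14583792302) (nat_lit 76) (nat_lit 19657142446) (nat_lit 13) (nat_lit 5) (nat_lit 16) (nat_lit 5) (nat_lit 14) (nat_lit 4) (nat_lit 318) (nat_lit 253) (nat_lit 149)) (XT.lf (nat_lit 0) (nat_lit 8625178002) (nat_lit 76) (nat_lit 40536474688) (nat_lit 152) (nat_lit 25958190813) (nat_lit 12) (nat_lit 5) (nat_lit 13) (nat_lit 5) (nat_lit 14) (nat_lit 4) (nat_lit 319) (nat_lit 253) (nat_lit 148)))))) (XT.nd (nat_lit 390) (nat_lit 76) (nat_lit 0) (XT.nd (nat_lit 156) (nat_lit 228) (nat_lit 0) (XT.nd (nat_lit 78) (nat_lit 0) (nat_lit 0) (XT.lf (nat_lit 0) (nat_lit 33285450402) (nat_lit 76) (nat_lit 28036939188) (nat_lit 152) (nat_lit 17115095017) (nat_lit 12) (nat_lit 5) (nat_lit 13) (nat_lit 5) (nat_lit 14) (nat_lit 4) (nat_lit 320) (nat_lit 253) (nat_lit 147)) (XT.lf (nat_lit 0) (nat_lit 59165493769) (nat_lit 76) (nat_lit 14917894669) (nat_lit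 152) (nat_lit 7837860078) (nat_lit 12) (nat_lit 5) (nat_lit 13) (nat_lit 5) (nat_lit 14) (nat_lit 4) (nat_lit 321) (nat_lit 253) (nat_lit 146))) (XT.nd (nat_lit 78) (nat_lit 0) (nat_lit 0) (XT.lf (nat_lit 0) (nat_lit 743789671) (nat_lit 152) (nat_lit 1121972712) (nat_lit 228) (nat_lit 83712906378) (nat_lit 9) (nat_lit 5) (nat_lit 11) (nat_lit 5) (nat_lit 12) (nat_lit 5) (nat_lit 322) (nat_lit 253) (nat_lit 145)) (XT.nd (nat_lit 78) (nat_lit 0) (nat_lit 0) (XT.lf (nat_lit 0) (nat_lit 12251706751) (nat_lit 228) (nat_lit 63740558532) (nat_lit 76) (nat_lit 13413596071) (nat_lit 9) (nat_lit 5) (nat_lit 12) (nat_lit 5) (nat_lit 10) (nat_lit 4) (nat_lit 323) (nat_lit 253) (nat_lit 144)) (XT.lf (nat_lit 0) (nat_lit 23161322854) (nat_lit 228) (nat_lit 41614823866) (nat_lit 76) (nat_lit 28648141913) (nat_lit 9) (nat_lit 5) (nat_lit 12) (nat_lit 5) (nat_lit 10) (nat_lit 4) (nat_lit 324) (nat_lit 253)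 (nat_lit 143))))) (XT.nd (nat_lit 31980) (nat_lit 0) (nat_lit 12996) (XT.nd (nat_lit 78) (nat_lit 76) (nat_lit 0) (XT.lf (nat_lit 0) (nat_lit 34609800883) (nat_lit 228) (nat_lit 18394209681) (nat_lit 76) (nat_lit 44639831269) (nat_lit 9) (nat_lit 5) (nat_lit 12) (nat_lit 5) (nat_lit 10) (nat_lit 4) (nat_lit 325) (nat_lit 253) (nat_lit 142)) (XT.nd (nat_lit 78) (nat_lit 0) (nat_lit 0) (XT.lf (nat_lit 0) (nat_lit 6095516681) (nat_lit 76) (nat_lit 40587476270) (nat_lit 152) (nat_lit 55389816745) (nat_lit 8) (nat_lit 5) (nat_lit 9) (nat_lit 5) (nat_lit 10) (nat_lit 4) (nat_lit 326) (nat_lit 253) (nat_lit 141)) (XT.lf (nat_lit 0) (nat_lit 32183561645) (nat_lit 76) (nat_lit 27359530180) (nat_lit 152) (nat_lit 47174642147) (nat_lit 8) (nat_lit 5) (nat_lit 9) (nat_lit 5) (nat_lit 10) (nat_lit 4) (nat_lit 327) (nat_lit 253) (nat_lit 140)))) (XT.nd (nat_lit 78) (nat_lit 0) (nat_lit 0) (XT.lf (nat_lit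 0) (nat_lit 1167460305) (nat_lit 988) (nat_lit 1614184896) (nat_lit 988) (nat_lit 1614184896) (nat_lit 179) (nat_lit 3) (nat_lit 192) (nat_lit 3) (nat_lit 192) (nat_lit 5) (nat_lit 254) (nat_lit 254) (nat_lit 212)) (XT.nd (nat_lit 78) (nat_lit 0) (nat_lit 76) (XT.lf (nat_lit 76) (nat_lit 2987825897) (nat_lit 0) (nat_lit 848183965) (nat_lit 988) (nat_lit 5128366810) (nat_lit 180) (nat_lit 5) (nat_lit 179) (nat_lit 3) (nat_lit 192) (nat_lit 5) (nat_lit 255) (nat_lit 254) (nat_lit 211)) (XT.lf (nat_lit 76) (nat_lit 353642986) (nat_lit 0) (nat_lit 5044354451) (nat_lit 988) (nat_lit 3748399057) (nat_lit 181) (nat_lit 5) (nat_lit 180) (nat_lit 5) (nat_lit 193) (nat_lit 5) (nat_lit 256) (nat_lit 254) (nat_lit 210))))))))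
noncomputable def xc77 : XT := (XT.nd (nat_lit 1638) (nat_lit 4256) (nat_lit 0) (XT.nd (nat_lit 780) (nat_lit 4104) (nat_lit 0) (XT.nd (nat_lit 390) (nat_lit 1900) (nat_lit 0) (XT.nd (nat_lit 156) (nat_lit 912) (nat_lit 0) (XT.nd (nat_lit 78) (nat_lit 0) (nat_lit 0) (XT.lf (nat_lit 0) (nat_lit 7021802753) (nat_lit 912) (nat_lit 2271771309) (nat_lit 988) (nat_lit 44662964) (nat_lit 181) (nat_lit 5) (nat_lit 193) (nat_lit 5) (nat_lit 194) (nat_lit 5) (nat_lit 257) (nat_lit 254) (nat_lit 209)) (XT.lf (nat_lit 76) (nat_lit 4563121899) (nat_lit 0) (nat_lit 4176203451) (nat_lit 988) (nat_lit 800188681) (nat_lit 182) (nat_lit 5) (nat_lit 181) (nat_lit 5) (nat_lit 194) (nat_lit 5) (nat_lit 258) (nat_lit 254) (nat_lit 208))) (XT.nd (nat_lit 78) (nat_lit 0) (nat_lit 0) (XT.lf (nat_lit 0) (nat_lit 751931965) (nat_lit 988) (nat_lit 7746224865) (nat_lit 1064) (nat_lit 1253407909) (nat_lit 169) (nat_lit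 5) (nat_lit 182) (nat_lit 5) (nat_lit 183) (nat_lit 5) (nat_lit 259) (nat_lit 254) (nat_lit 207)) (XT.nd (nat_lit 78) (nat_lit 0) (nat_lit 76) (XT.lf (nat_lit 0) (nat_lit 2382949824) (nat_lit 988) (nat_lit 635182971) (nat_lit 1064) (nat_lit 6955506257) (nat_lit 169) (nat_lit 5) (nat_lit 182) (nat_lit 5) (nat_lit 183) (nat_lit 5) (nat_lit 260) (nat_lit 254) (nat_lit 206)) (XT.lf (nat_lit 0) (nat_lit 4116616958) (nat_lit 988) (nat_lit 3317423378) (nat_lit 1064) (nat_lit 2772328520) (nat_lit 170) (nat_lit 5) (nat_lit 183) (nat_lit 5) (nat_lit 184) (nat_lit 5) (nat_lit 261) (nat_lit 254) (nat_lit 205))))) (XT.nd (nat_lit 156) (nat_lit 1976) (nat_lit 0) (XT.nd (nat_lit 78) (nat_lit 0) (nat_lit 76) (XT.lf (nat_lit 76) (nat_lit 4355990456) (nat_lit 0) (nat_lit 1590545646) (nat_lit 1064) (nat_lit 4504087918) (nat_lit 171) (nat_lit 5) (nat_lit 170) (nat_lit 5) (nat_lit 184) (nat_lit 5) (nat_lit 262)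 (nat_lit 254) (nat_lit 204)) (XT.lf (nat_lit 76) (nat_lit 1714374705) (nat_lit 0) (nat_lit 6181864693) (nat_lit 1064) (nat_lit 2810171447) (nat_lit 172) (nat_lit 5) (nat_lit 171) (nat_lit 5) (nat_lit 185) (nat_lit 5) (nat_lit 263) (nat_lit 254) (nat_lit 203))) (XT.nd (nat_lit 78) (nat_lit 2128) (nat_lit 0) (XT.lf (nat_lit 0) (nat_lit 9958532791) (nat_lit 988) (nat_lit 999946488) (nat_lit 76) (nat_lit 16214157) (nat_lit 172) (nat_lit 5) (nat_lit 185) (nat_lit 5) (nat_lit 173) (nat_lit 5) (nat_lit 264) (nat_lit 254) (nat_lit 202)) (XT.nd (nat_lit 78) (nat_lit 1064) (nat_lit 0) (XT.lf (nat_lit 0) (nat_lit 924432320) (nat_lit 1064) (nat_lit 3838805373) (nat_lit 76) (nat_lit 6490835510) (nat_lit 158) (nat_lit 5) (nat_lit 172) (nat_lit 5) (nat_lit 159) (nat_lit 5) (nat_lit 265) (nat_lit 254) (nat_lit 201)) (XT.lf (nat_lit 0) (nat_lit 2956027899) (nat_lit 1140) (nat_lit 6806831641) (nat_lit 76)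 (nat_lit 1783951446) (nat_lit 144) (nat_lit 5) (nat_lit 159) (nat_lit 5) (nat_lit 145) (nat_lit 5) (nat_lit 266) (nat_lit 254) (nat_lit 200)))))) (XT.nd (nat_lit 390) (nat_lit 1824) (nat_lit 0) (XT.nd (nat_lit 156) (nat_lit 1596) (nat_lit 0) (XT.nd (nat_lit 78) (nat_lit 0) (nat_lit 0) (XT.lf (nat_lit 0) (nat_lit 1913791156) (nat_lit 684) (nat_lit 3225384578) (nat_lit 760) (nat_lit 6713644580) (nat_lit 135) (nat_lit 5) (nat_lit 144) (nat_lit 5) (nat_lit 145) (nat_lit 5) (nat_lit 267) (nat_lit 254) (nat_lit 199)) (XT.lf (nat_lit 0) (nat_lit 7483089234) (nat_lit 760) (nat_lit 1045396409) (nat_lit 76) (nat_lit 3644223674) (nat_lit 135) (nat_lit 5) (nat_lit 145) (nat_lit 5) (nat_lit 136) (nat_lit 5) (nat_lit 268) (nat_lit 254) (nat_lit 198))) (XT.nd (nat_lit 78) (nat_lit 1064) (nat_lit 0) (XT.lf (nat_lit 0) (nat_lit 8375822474) (nat_lit 532) (nat_lit 1629886178) (nat_lit 608) (nat_lit 2501160199)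 (nat_lit 128) (nat_lit 5) (nat_lit 135) (nat_lit 5) (nat_lit 136) (nat_lit 5) (nat_lit 269) (nat_lit 254) (nat_lit 197)) (XT.nd (nat_lit 78) (nat_lit 532) (nat_lit 0) (XT.lf (nat_lit 0) (nat_lit 5436309791) (nat_lit 532) (nat_lit 7285713668) (nat_lit 608) (nat_lit 133801576) (nat_lit 121) (nat_lit 5) (nat_lit 128) (nat_lit 5) (nat_lit 129) (nat_lit 5) (nat_lit 270) (nat_lit 254) (nat_lit 196)) (XT.lf (nat_lit 0) (nat_lit 2304984068) (nat_lit 456) (nat_lit 34406604) (nat_lit 532) (nat_lit 10881266202) (nat_lit 114) (nat_lit 5) (nat_lit 120) (nat_lit 5) (nat_lit 121) (nat_lit 5) (nat_lit 271) (nat_lit 254) (nat_lit 195))))) (XT.nd (nat_lit 234) (nat_lit 912) (nat_lit 0) (XT.nd (nat_lit 78) (nat_lit 912) (nat_lit 0) (XT.lf (nat_lit 0) (nat_lit 5037144592) (nat_lit 532) (nat_lit 1053688026) (nat_lit 76) (nat_lit 7509849669) (nat_lit 114) (nat_lit 5) (nat_lit 121) (nat_lit 5) (nat_lit 115) (nat_lit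 5) (nat_lit 272) (nat_lit 254) (nat_lit 194)) (XT.nd (nat_lit 78) (nat_lit 456) (nat_lit 0) (XT.lf (nat_lit 0) (nat_lit 7931368048) (nat_lit 532) (nat_lit 4573538809) (nat_lit 76) (nat_lit 1493051617) (nat_lit 108) (nat_lit 5) (nat_lit 115) (nat_lit 5) (nat_lit 109) (nat_lit 5) (nat_lit 273) (nat_lit 254) (nat_lit 193)) (XT.lf (nat_lit 0) (nat_lit 6044253493) (nat_lit 456) (nat_lit 5014095099) (nat_lit 532) (nat_lit 3354200839) (nat_lit 102) (nat_lit 5) (nat_lit 108) (nat_lit 5) (nat_lit 109) (nat_lit 5) (nat_lit 274) (nat_lit 254) (nat_lit 192)))) (XT.nd (nat_lit 78) (nat_lit 456) (nat_lit 0) (XT.lf (nat_lit 0) (nat_lit 2415559086) (nat_lit 456) (nat_lit 11983369206) (nat_lit 532) (nat_lit 447312085) (nat_lit 96) (nat_lit 5) (nat_lit 102) (nat_lit 5) (nat_lit 103) (nat_lit 5) (nat_lit 275) (nat_lit 254) (nat_lit 191)) (XT.nd (nat_lit 78) (nat_lit 380) (nat_lit 0) (XT.lf (nat_lit 0) (nat_lit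 2651820225) (nat_lit 532) (nat_lit 1507371158) (nat_lit 76) (nat_lit 11138822683) (nat_lit 95) (nat_lit 5) (nat_lit 102) (nat_lit 5) (nat_lit 96) (nat_lit 5) (nat_lit 276) (nat_lit 254) (nat_lit 190)) (XT.lf (nat_lit 0) (nat_lit 5995915939) (nat_lit 456) (nat_lit 5698743135) (nat_lit 76) (nat_lit 4074684208) (nat_lit 90) (nat_lit 5) (nat_lit 96) (nat_lit 5) (nat_lit 91) (nat_lit 5) (nat_lit 277) (nat_lit 254) (nat_lit 189))))))) (XT.nd (nat_lit 780) (nat_lit 1748) (nat_lit 0) (XT.nd (nat_lit 390) (nat_lit 988) (nat_lit 0) (XT.nd (nat_lit 156) (nat_lit 760) (nat_lit 0) (XT.nd (nat_lit 78) (nat_lit 380) (nat_lit 0) (XT.lf (nat_lit 0) (nat_lit 6027641788) (nat_lit 380) (nat_lit 3558544125) (nat_lit 456) (nat_lit 6675757718) (nat_lit 85) (nat_lit 5) (nat_lit 90) (nat_lit 5) (nat_lit 91) (nat_lit 5) (nat_lit 278) (nat_lit 254) (nat_lit 188)) (XT.lf (nat_lit 0) (nat_lit 1622308047) (nat_lit 380)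 (nat_lit 11821070153) (nat_lit 456) (nat_lit 3333243775) (nat_lit 80) (nat_lit 5) (nat_lit 85) (nat_lit 5) (nat_lit 86) (nat_lit 5) (nat_lit 279) (nat_lit 254) (nat_lit 187))) (XT.nd (nat_lit 78) (nat_lit 684) (nat_lit 0) (XT.lf (nat_lit 0) (nat_lit 280804019) (nat_lit 456) (nat_lit 3109310391) (nat_lit 76) (nat_lit 13923698401) (nat_lit 79) (nat_lit 5) (nat_lit 85) (nat_lit 5) (nat_lit 80) (nat_lit 5) (nat_lit 280) (nat_lit 254) (nat_lit 186)) (XT.nd (nat_lit 78) (nat_lit 304) (nat_lit 0) (XT.lf (nat_lit 0) (nat_lit 4120906867) (nat_lit 456) (nat_lit 8276530304) (nat_lit 76) (nat_lit 5476069125) (nat_lit 74) (nat_lit 5) (nat_lit 80) (nat_lit 5) (nat_lit 75) (nat_lit 5) (nat_lit 281) (nat_lit 254) (nat_lit 185)) (XT.lf (nat_lit 0) (nat_lit 4557573583) (nat_lit 304) (nat_lit 3674084195) (nat_lit 380) (nat_lit 10227226300) (nat_lit 70) (nat_lit 5) (nat_lit 74) (nat_lit 5) (nat_lit 75) (nat_lit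 5) (nat_lit 282) (nat_lit 254) (nat_lit 184))))) (XT.nd (nat_lit 156) (nat_lit 684) (nat_lit 0) (XT.nd (nat_lit 78) (nat_lit 304) (nat_lit 0) (XT.lf (nat_lit 0) (nat_lit 12656063712) (nat_lit 380) (nat_lit 958106001) (nat_lit 76) (nat_lit 5456173619) (nat_lit 70) (nat_lit 5) (nat_lit 75) (nat_lit 5) (nat_lit 71) (nat_lit 5) (nat_lit 283) (nat_lit 254) (nat_lit 183)) (XT.lf (nat_lit 0) (nat_lit 12807091482) (nat_lit 304) (nat_lit 4625596212) (nat_lit 380) (nat_lit 2275811356) (nat_lit 66) (nat_lit 5) (nat_lit 70) (nat_lit 5) (nat_lit 71) (nat_lit 5) (nat_lit 284) (nat_lit 254) (nat_lit 182))) (XT.nd (nat_lit 78) (nat_lit 304) (nat_lit 0) (XT.lf (nat_lit 0) (nat_lit 2124906077) (nat_lit 380) (nat_lit 13442677522) (nat_lit 76) (nat_lit 4807560219) (nat_lit 61) (nat_lit 5) (nat_lit 66) (nat_lit 5) (nat_lit 62) (nat_lit 5) (nat_lit 285) (nat_lit 254) (nat_lit 181)) (XT.nd (nat_lit 78) (nat_lit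 0) (nat_lit 0) (XT.lf (nat_lit 0) (nat_lit 430061266) (nat_lit 304) (nat_lit 6363968513) (nat_lit 380) (nat_lit 14277598989) (nat_lit 57) (nat_lit 5) (nat_lit 61) (nat_lit 5) (nat_lit 62) (nat_lit 5) (nat_lit 286) (nat_lit 254) (nat_lit 180)) (XT.lf (nat_lit 0) (nat_lit 11841384997) (nat_lit 380) (nat_lit 6591444164) (nat_lit 76) (nat_lit 3365810356) (nat_lit 57) (nat_lit 5) (nat_lit 62) (nat_lit 5) (nat_lit 58) (nat_lit 5) (nat_lit 287) (nat_lit 254) (nat_lit 179)))))) (XT.nd (nat_lit 390) (nat_lit 912) (nat_lit 0) (XT.nd (nat_lit 156) (nat_lit 304) (nat_lit 0) (XT.nd (nat_lit 78) (nat_lit 304) (nat_lit 0) (XT.lf (nat_lit 0) (nat_lit 8222238738) (nat_lit 228) (nat_lit 9036715471) (nat_lit 304) (nat_lit 5299553889) (nat_lit 54) (nat_lit 5) (nat_lit 57) (nat_lit 5) (nat_lit 58) (nat_lit 5) (nat_lit 288) (nat_lit 254) (nat_lit 178)) (XT.lf (nat_lit 0) (nat_lit 526814774) (nat_lit 304) (nat_lit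 22477512883) (nat_lit 380) (nat_lit 350375326) (nat_lit 50) (nat_lit 5) (nat_lit 54) (nat_lit 5) (nat_lit 55) (nat_lit 5) (nat_lit 289) (nat_lit 254) (nat_lit 177))) (XT.nd (nat_lit 78) (nat_lit 228) (nat_lit 0) (XT.lf (nat_lit 0) (nat_lit 4967884619) (nat_lit 380) (nat_lit 7927251009) (nat_lit 76) (nat_lit 11287726297) (nat_lit 49) (nat_lit 5) (nat_lit 54) (nat_lit 5) (nat_lit 50) (nat_lit 5) (nat_lit 290) (nat_lit 254) (nat_lit 176)) (XT.nd (nat_lit 78) (nat_lit 0) (nat_lit 0) (XT.lf (nat_lit 0) (nat_lit 7835054060) (nat_lit 228) (nat_lit 2762225898) (nat_lit 304) (nat_lit 14453506520) (nat_lit 46) (nat_lit 5) (nat_lit 49) (nat_lit 5) (nat_lit 50) (nat_lit 5) (nat_lit 291) (nat_lit 254) (nat_lit 175)) (XT.lf (nat_lit 0) (nat_lit 16644057668) (nat_lit 304) (nat_lit 1517443203) (nat_lit 76) (nat_lit 7796563098) (nat_lit 46) (nat_lit 5) (nat_lit 50) (nat_lit 5) (nat_lit 47) (nat_lit 5) (nat_lit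 292) (nat_lit 254) (nat_lit 174))))) (XT.nd (nat_lit 234) (nat_lit 380) (nat_lit 0) (XT.nd (nat_lit 78) (nat_lit 304) (nat_lit 0) (XT.lf (nat_lit 0) (nat_lit 15203717069) (nat_lit 228) (nat_lit 7942321467) (nat_lit 304) (nat_lit 3760113338) (nat_lit 43) (nat_lit 5) (nat_lit 46) (nat_lit 5) (nat_lit 47) (nat_lit 5) (nat_lit 293) (nat_lit 254) (nat_lit 173)) (XT.nd (nat_lit 78) (nat_lit 0) (nat_lit 0) (XT.lf (nat_lit 0) (nat_lit 2101140618) (nat_lit 304) (nat_lit 22989979864) (nat_lit 76) (nat_lit 2807853697) (nat_lit 39) (nat_lit 5) (nat_lit 43) (nat_lit 5) (nat_lit 40) (nat_lit 5) (nat_lit 294) (nat_lit 254) (nat_lit 172)) (XT.lf (nat_lit 0) (nat_lit 8360170967) (nat_lit 304) (nat_lit 6491655364) (nat_lit 76) (nat_lit 14083048635) (nat_lit 39) (nat_lit 5) (nat_lit 43) (nat_lit 5) (nat_lit 40) (nat_lit 5) (nat_lit 295) (nat_lit 254) (nat_lit 171)))) (XT.nd (nat_lit 78) (nat_lit 152) (nat_lit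 0) (XT.lf (nat_lit 0) (nat_lit 11017952081) (nat_lit 228) (nat_lit 4001000585) (nat_lit 304) (nat_lit 15001041362) (nat_lit 36) (nat_lit 5) (nat_lit 39) (nat_lit 5) (nat_lit 40) (nat_lit 5) (nat_lit 296) (nat_lit 254) (nat_lit 170)) (XT.nd (nat_lit 78) (nat_lit 152) (nat_lit 0) (XT.lf (nat_lit 0) (nat_lit 22130662344) (nat_lit 304) (nat_lit 1718692076) (nat_lit 76) (nat_lit 7306440888) (nat_lit 36) (nat_lit 5) (nat_lit 40) (nat_lit 5) (nat_lit 37) (nat_lit 5) (nat_lit 297) (nat_lit 254) (nat_lit 169)) (XT.lf (nat_lit 0) (nat_lit 16687113022) (nat_lit 152) (nat_lit 13093959472) (nat_lit 228) (nat_lit 2561845406) (nat_lit 34) (nat_lit 5) (nat_lit 36) (nat_lit 5) (nat_lit 37) (nat_lit 5) (nat_lit 298) (nat_lit 254) (nat_lit 168))))))))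
noncomputable def xc78 : XT := (XT.nd (nat_lit 1638) (nat_lit 380) (nat_lit 0) (XT.nd (nat_lit 780) (nat_lit 608) (nat_lit 0) (XT.nd (nat_lit 390) (nat_lit 380) (nat_lit 0) (XT.nd (nat_lit 156) (nat_lit 304) (nat_lit 0) (XT.nd (nat_lit 78) (nat_lit 0) (nat_lit 0) (XT.lf (nat_lit 0) (nat_lit 2440548444) (nat_lit 228) (nat_lit 1725671369) (nat_lit 304) (nat_lit 29421259844) (nat_lit 30) (nat_lit 5) (nat_lit 33) (nat_lit 5) (nat_lit 34) (nat_lit 5) (nat_lit 299) (nat_lit 254) (nat_lit 167)) (XT.lf (nat_lit 0) (nat_lit 11422321398) (nat_lit 304) (nat_lit 13272385953) (nat_lit 76) (nat_lit 10191484475) (nat_lit 30) (nat_lit 5) (nat_lit 34) (nat_lit 5) (nat_lit 31) (nat_lit 5) (nat_lit 300) (nat_lit 254) (nat_lit 166))) (XT.nd (nat_lit 78) (nat_lit 152) (nat_lit 0) (XT.lf (nat_lit 0) (nat_lit 5562029547) (nat_lit 152) (nat_lit 13534091700) (nat_lit 228) (nat_lit 17152092276) (nat_lit 28) (nat_lit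 5) (nat_lit 30) (nat_lit 5) (nat_lit 31) (nat_lit 5) (nat_lit 301) (nat_lit 254) (nat_lit 165)) (XT.nd (nat_lit 78) (nat_lit 152) (nat_lit 0) (XT.lf (nat_lit 0) (nat_lit 25591260911) (nat_lit 152) (nat_lit 1683515854) (nat_lit 228) (nat_lit 10399944295) (nat_lit 28) (nat_lit 5) (nat_lit 30) (nat_lit 5) (nat_lit 31) (nat_lit 5) (nat_lit 302) (nat_lit 254) (nat_lit 164)) (XT.lf (nat_lit 0) (nat_lit 7468220414) (nat_lit 152) (nat_lit 28554555419) (nat_lit 228) (nat_lit 3144984608) (nat_lit 26) (nat_lit 5) (nat_lit 28) (nat_lit 5) (nat_lit 29) (nat_lit 5) (nat_lit 303) (nat_lit 254) (nat_lit 163))))) (XT.nd (nat_lit 156) (nat_lit 152) (nat_lit 0) (XT.nd (nat_lit 78) (nat_lit 152) (nat_lit 0) (XT.lf (nat_lit 0) (nat_lit 4513576762) (nat_lit 228) (nat_lit 12566060577) (nat_lit 76) (nat_lit 23650698006) (nat_lit 25) (nat_lit 5) (nat_lit 28) (nat_lit 5) (nat_lit 26) (nat_lit 5) (nat_lit 304) (nat_lit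 254) (nat_lit 162)) (XT.lf (nat_lit 0) (nat_lit 7619008843) (nat_lit 152) (nat_lit 4931067336) (nat_lit 228) (nat_lit 29818243615) (nat_lit 23) (nat_lit 5) (nat_lit 25) (nat_lit 5) (nat_lit 26) (nat_lit 5) (nat_lit 305) (nat_lit 254) (nat_lit 161))) (XT.nd (nat_lit 78) (nat_lit 152) (nat_lit 0) (XT.lf (nat_lit 0) (nat_lit 21180839515) (nat_lit 228) (nat_lit 15106618857) (nat_lit 76) (nat_lit 7794987681) (nat_lit 23) (nat_lit 5) (nat_lit 26) (nat_lit 5) (nat_lit 24) (nat_lit 5) (nat_lit 306) (nat_lit 254) (nat_lit 160)) (XT.nd (nat_lit 78) (nat_lit 0) (nat_lit 0) (XT.lf (nat_lit 0) (nat_lit 5556169943) (nat_lit 152) (nat_lit 24777373369) (nat_lit 228) (nat_lit 15546038252) (nat_lit 21) (nat_lit 5) (nat_lit 23) (nat_lit 5) (nat_lit 24) (nat_lit 5) (nat_lit 307) (nat_lit 254) (nat_lit 159)) (XT.lf (nat_lit 0) (nat_lit 27547686785) (nat_lit 152) (nat_lit 12539342641) (nat_lit 228) (nat_lit 7675264303)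 (nat_lit 21) (nat_lit 5) (nat_lit 23) (nat_lit 5) (nat_lit 24) (nat_lit 5) (nat_lit 308) (nat_lit 254) (nat_lit 158)))))) (XT.nd (nat_lit 390) (nat_lit 304) (nat_lit 0) (XT.nd (nat_lit 156) (nat_lit 152) (nat_lit 0) (XT.nd (nat_lit 78) (nat_lit 0) (nat_lit 0) (XT.lf (nat_lit 0) (nat_lit 577279432) (nat_lit 152) (nat_lit 48850146128) (nat_lit 76) (nat_lit 311567521) (nat_lit 19) (nat_lit 5) (nat_lit 21) (nat_lit 5) (nat_lit 20) (nat_lit 5) (nat_lit 309) (nat_lit 254) (nat_lit 157)) (XT.lf (nat_lit 0) (nat_lit 9410316234) (nat_lit 152) (nat_lit 28563597047) (nat_lit 76) (nat_lit 13828548860) (nat_lit 19) (nat_lit 5) (nat_lit 21) (nat_lit 5) (nat_lit 20) (nat_lit 5) (nat_lit 310) (nat_lit 254) (nat_lit 156))) (XT.nd (nat_lit 78) (nat_lit 152) (nat_lit 0) (XT.lf (nat_lit 0) (nat_lit 18673968739) (nat_lit 152) (nat_lit 7280930539) (nat_lit 76) (nat_lit 28014548447) (nat_lit 19) (nat_lit 5) (nat_lit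 21) (nat_lit 5) (nat_lit 20) (nat_lit 5) (nat_lit 311) (nat_lit 254) (nat_lit 155)) (XT.nd (nat_lit 78) (nat_lit 0) (nat_lit 0) (XT.lf (nat_lit 0) (nat_lit 15348021592) (nat_lit 152) (nat_lit 13189806243) (nat_lit 228) (nat_lit 27702855450) (nat_lit 17) (nat_lit 5) (nat_lit 19) (nat_lit 5) (nat_lit 20) (nat_lit 5) (nat_lit 312) (nat_lit 254) (nat_lit 154)) (XT.lf (nat_lit 0) (nat_lit 38962389235) (nat_lit 228) (nat_lit 19382553149) (nat_lit 76) (nat_lit 278523831) (nat_lit 17) (nat_lit 5) (nat_lit 20) (nat_lit 5) (nat_lit 18) (nat_lit 4) (nat_lit 313) (nat_lit 254) (nat_lit 153))))) (XT.nd (nat_lit 234) (nat_lit 152) (nat_lit 0) (XT.nd (nat_lit 78) (nat_lit 76) (nat_lit 0) (XT.lf (nat_lit 0) (nat_lit 3114423062) (nat_lit 76) (nat_lit 46947072544) (nat_lit 152) (nat_lit 11059303531) (nat_lit 16) (nat_lit 5) (nat_lit 17) (nat_lit 5) (nat_lit 18) (nat_lit 4) (nat_lit 314) (nat_lit 254) (nat_lit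 152)) (XT.nd (nat_lit 78) (nat_lit 76) (nat_lit 0) (XT.lf (nat_lit 0) (nat_lit 27125469738) (nat_lit 76) (nat_lit 34780177279) (nat_lit 152) (nat_lit 1831658858) (nat_lit 16) (nat_lit 5) (nat_lit 17) (nat_lit 5) (nat_lit 18) (nat_lit 4) (nat_lit 315) (nat_lit 254) (nat_lit 151)) (XT.lf (nat_lit 0) (nat_lit 7694957103) (nat_lit 152) (nat_lit 14238352491) (nat_lit 76) (nat_lit 44549344142) (nat_lit 15) (nat_lit 5) (nat_lit 17) (nat_lit 5) (nat_lit 16) (nat_lit 5) (nat_lit 316) (nat_lit 254) (nat_lit 150)))) (XT.nd (nat_lit 78) (nat_lit 0) (nat_lit 0) (XT.lf (nat_lit 0) (nat_lit 9404302676) (nat_lit 152) (nat_lit 8337818969) (nat_lit 228) (nat_lit 51620148993) (nat_lit 13) (nat_lit 5) (nat_lit 15) (nat_lit 5) (nat_lit 16) (nat_lit 5) (nat_lit 317) (nat_lit 254) (nat_lit 149)) (XT.nd (nat_lit 78) (nat_lit 0) (nat_lit 0) (XT.lf (nat_lit 0) (nat_lit 28488309775) (nat_lit 228) (nat_lit 37927681647)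 (nat_lit 76) (nat_lit 5963985273) (nat_lit 13) (nat_lit 5) (nat_lit 16) (nat_lit 5) (nat_lit 14) (nat_lit 4) (nat_lit 318) (nat_lit 254) (nat_lit 148)) (XT.lf (nat_lit 0) (nat_lit 39847932956) (nat_lit 228) (nat_lit 14893670096) (nat_lit 76) (nat_lit 20804689108) (nat_lit 13) (nat_lit 5) (nat_lit 16) (nat_lit 5) (nat_lit 14) (nat_lit 4) (nat_lit 319) (nat_lit 254) (nat_lit 147))))))) (XT.nd (nat_lit 32604) (nat_lit 0) (nat_lit 10336) (XT.nd (nat_lit 390) (nat_lit 76) (nat_lit 0) (XT.nd (nat_lit 156) (nat_lit 228) (nat_lit 0) (XT.nd (nat_lit 78) (nat_lit 0) (nat_lit 0) (XT.lf (nat_lit 0) (nat_lit 9463729234) (nat_lit 76) (nat_lit 42395131616) (nat_lit 152) (nat_lit 27009570346) (nat_lit 12) (nat_lit 5) (nat_lit 13) (nat_lit 5) (nat_lit 14) (nat_lit 4) (nat_lit 320) (nat_lit 254) (nat_lit 146)) (XT.lf (nat_lit 0) (nat_lit 35337620381) (nat_lit 76) (nat_lit 29278627285) (nat_lit 152) (nat_lit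 17736059284) (nat_lit 12) (nat_lit 5) (nat_lit 13) (nat_lit 5) (nat_lit 14) (nat_lit 4) (nat_lit 321) (nat_lit 254) (nat_lit 145))) (XT.nd (nat_lit 78) (nat_lit 228) (nat_lit 0) (XT.lf (nat_lit 0) (nat_lit 62493194609) (nat_lit 76) (nat_lit 15511257152) (nat_lit 152) (nat_lit 8006143098) (nat_lit 12) (nat_lit 5) (nat_lit 13) (nat_lit 5) (nat_lit 14) (nat_lit 4) (nat_lit 322) (nat_lit 254) (nat_lit 144)) (XT.nd (nat_lit 78) (nat_lit 0) (nat_lit 0) (XT.lf (nat_lit 0) (nat_lit 1144251486) (nat_lit 152) (nat_lit 1027097248) (nat_lit 228) (nat_lit 87679691021) (nat_lit 9) (nat_lit 5) (nat_lit 11) (nat_lit 5) (nat_lit 12) (nat_lit 5) (nat_lit 323) (nat_lit 254) (nat_lit 143)) (XT.lf (nat_lit 0) (nat_lit 13067863029) (nat_lit 228) (nat_lit 66576745012) (nat_lit 76) (nat_lit 14225254971) (nat_lit 9) (nat_lit 5) (nat_lit 12) (nat_lit 5) (nat_lit 10) (nat_lit 4) (nat_lit 324) (nat_lit 254) (nat_lit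 142))))) (XT.nd (nat_lit 156) (nat_lit 76) (nat_lit 0) (XT.nd (nat_lit 78) (nat_lit 0) (nat_lit 0) (XT.lf (nat_lit 0) (nat_lit 24513266084) (nat_lit 228) (nat_lit 43361430347) (nat_lit 76) (nat_lit 30214814814) (nat_lit 9) (nat_lit 5) (nat_lit 12) (nat_lit 5) (nat_lit 10) (nat_lit 4) (nat_lit 325) (nat_lit 254) (nat_lit 141)) (XT.lf (nat_lit 0) (nat_lit 36524935771) (nat_lit 228) (nat_lit 18995696630) (nat_lit 76) (nat_lit 46999695029) (nat_lit 9) (nat_lit 5) (nat_lit 12) (nat_lit 5) (nat_lit 10) (nat_lit 4) (nat_lit 326) (nat_lit 254) (nat_lit 140))) (XT.nd (nat_lit 31902) (nat_lit 0) (nat_lit 12996) (XT.lf (nat_lit 0) (nat_lit 6709394237) (nat_lit 76) (nat_lit 42486571870) (nat_lit 152) (nat_lit 57974960179) (nat_lit 8) (nat_lit 5) (nat_lit 9) (nat_lit 5) (nat_lit 10) (nat_lit 4) (nat_lit 327) (nat_lit 254) (nat_lit 139)) (XT.nd (nat_lit 78) (nat_lit 0) (nat_lit 0) (XT.lf (nat_lit 0) (nat_lit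 2617752316) (nat_lit 988) (nat_lit 976188702) (nat_lit 988) (nat_lit 976188702) (nat_lit 179) (nat_lit 3) (nat_lit 192) (nat_lit 3) (nat_lit 192) (nat_lit 5) (nat_lit 255) (nat_lit 255) (nat_lit 210)) (XT.lf (nat_lit 76) (nat_lit 4533424975) (nat_lit 0) (nat_lit 2159080862) (nat_lit 988) (nat_lit 2633035832) (nat_lit 180) (nat_lit 5) (nat_lit 179) (nat_lit 3) (nat_lit 192) (nat_lit 5) (nat_lit 256) (nat_lit 255) (nat_lit 209)))))) (XT.nd (nat_lit 390) (nat_lit 1748) (nat_lit 0) (XT.nd (nat_lit 156) (nat_lit 0) (nat_lit 76) (XT.nd (nat_lit 78) (nat_lit 988) (nat_lit 0) (XT.lf (nat_lit 76) (nat_lit 1823913315) (nat_lit 0) (nat_lit 6384139543) (nat_lit 988) (nat_lit 1312684534) (nat_lit 181) (nat_lit 5) (nat_lit 180) (nat_lit 5) (nat_lit 193) (nat_lit 5) (nat_lit 257) (nat_lit 255) (nat_lit 208)) (XT.lf (nat_lit 0) (nat_lit 64215744) (nat_lit 988) (nat_lit 923084812) (nat_lit 1064) (nat_lit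 8738815678) (nat_lit 167) (nat_lit 5) (nat_lit 180) (nat_lit 5) (nat_lit 181) (nat_lit 5) (nat_lit 258) (nat_lit 255) (nat_lit 207))) (XT.nd (nat_lit 78) (nat_lit 0) (nat_lit 76) (XT.lf (nat_lit 0) (nat_lit 1513337262) (nat_lit 988) (nat_lit 3734460774) (nat_lit 1064) (nat_lit 4692854301) (nat_lit 168) (nat_lit 5) (nat_lit 181) (nat_lit 5) (nat_lit 182) (nat_lit 5) (nat_lit 259) (nat_lit 255) (nat_lit 206)) (XT.nd (nat_lit 78) (nat_lit 0) (nat_lit 0) (XT.lf (nat_lit 0) (nat_lit 3021534644) (nat_lit 988) (nat_lit 6612804590) (nat_lit 1064) (nat_lit 532162140) (nat_lit 169) (nat_lit 5) (nat_lit 182) (nat_lit 5) (nat_lit 183) (nat_lit 5) (nat_lit 260) (nat_lit 255) (nat_lit 205)) (XT.lf (nat_lit 76) (nat_lit 796924477) (nat_lit 0) (nat_lit 3838553441) (nat_lit 1064) (nat_lit 5767430795) (nat_lit 170) (nat_lit 5) (nat_lit 169) (nat_lit 5) (nat_lit 183) (nat_lit 5) (nat_lit 261) (nat_lit 255)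 (nat_lit 204))))) (XT.nd (nat_lit 234) (nat_lit 1976) (nat_lit 0) (XT.nd (nat_lit 78) (nat_lit 0) (nat_lit 0) (XT.lf (nat_lit 0) (nat_lit 6354398485) (nat_lit 988) (nat_lit 2004133076) (nat_lit 1064) (nat_lit 2292044005) (nat_lit 170) (nat_lit 5) (nat_lit 183) (nat_lit 5) (nat_lit 184) (nat_lit 5) (nat_lit 262) (nat_lit 255) (nat_lit 203)) (XT.nd (nat_lit 78) (nat_lit 0) (nat_lit 76) (XT.lf (nat_lit 76) (nat_lit 6010551583) (nat_lit 0) (nat_lit 2182313477) (nat_lit 1064) (nat_lit 2716912273) (nat_lit 171) (nat_lit 5) (nat_lit 170) (nat_lit 5) (nat_lit 184) (nat_lit 5) (nat_lit 263) (nat_lit 255) (nat_lit 202)) (XT.lf (nat_lit 76) (nat_lit 3262014560) (nat_lit 0) (nat_lit 6894592721) (nat_lit 1064) (nat_lit 1024483313) (nat_lit 172) (nat_lit 5) (nat_lit 171) (nat_lit 5) (nat_lit 185) (nat_lit 5) (nat_lit 264) (nat_lit 255) (nat_lit 201)))) (XT.nd (nat_lit 78) (nat_lit 988) (nat_lit 0) (XT.lf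 (nat_lit 76) (nat_lit 400725592) (nat_lit 0) (nat_lit 355485463) (nat_lit 1140) (nat_lit 10709132081) (nat_lit 158) (nat_lit 5) (nat_lit 157) (nat_lit 5) (nat_lit 172) (nat_lit 5) (nat_lit 265) (nat_lit 255) (nat_lit 200)) (XT.nd (nat_lit 78) (nat_lit 1064) (nat_lit 0) (XT.lf (nat_lit 0) (nat_lit 2693832672) (nat_lit 1064) (nat_lit 2580252311) (nat_lit 76) (nat_lit 6486880439) (nat_lit 158) (nat_lit 5) (nat_lit 172) (nat_lit 5) (nat_lit 159) (nat_lit 5) (nat_lit 266) (nat_lit 255) (nat_lit 199)) (XT.lf (nat_lit 0) (nat_lit 4756132949) (nat_lit 1140) (nat_lit 5682335632) (nat_lit 76) (nat_lit 1632193770) (nat_lit 144) (nat_lit 5) (nat_lit 159) (nat_lit 5) (nat_lit 145) (nat_lit 5) (nat_lit 267) (nat_lit 255) (nat_lit 198))))))))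
noncomputable def xc79 : XT := (XT.nd (nat_lit 1638) (nat_lit 2888) (nat_lit 0) (XT.nd (nat_lit 780) (nat_lit 2888) (nat_lit 0) (XT.nd (nat_lit 390) (nat_lit 1444) (nat_lit 0) (XT.nd (nat_lit 156) (nat_lit 1064) (nat_lit 0) (XT.nd (nat_lit 78) (nat_lit 532) (nat_lit 0) (XT.lf (nat_lit 0) (nat_lit 3432329030) (nat_lit 684) (nat_lit 3551105308) (nat_lit 760) (nat_lit 5410674593) (nat_lit 135) (nat_lit 5) (nat_lit 144) (nat_lit 5) (nat_lit 145) (nat_lit 5) (nat_lit 268) (nat_lit 255) (nat_lit 197)) (XT.lf (nat_lit 0) (nat_lit 313966602) (nat_lit 532) (nat_lit 9056503712) (nat_lit 608) (nat_lit 3361922047) (nat_lit 128) (nat_lit 5) (nat_lit 135) (nat_lit 5) (nat_lit 136) (nat_lit 5) (nat_lit 269) (nat_lit 255) (nat_lit 196))) (XT.nd (nat_lit 78) (nat_lit 1064) (nat_lit 0) (XT.lf (nat_lit 0) (nat_lit 10159831257) (nat_lit 532) (nat_lit 1797580020) (nat_lit 608) (nat_lit 1127872192) (nat_lit 128)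 (nat_lit 5) (nat_lit 135) (nat_lit 5) (nat_lit 136) (nat_lit 5) (nat_lit 270) (nat_lit 255) (nat_lit 195)) (XT.nd (nat_lit 78) (nat_lit 456) (nat_lit 0) (XT.lf (nat_lit 0) (nat_lit 1273926923) (nat_lit 608) (nat_lit 6385441812) (nat_lit 76) (nat_lit 5793806633) (nat_lit 120) (nat_lit 5) (nat_lit 128) (nat_lit 5) (nat_lit 121) (nat_lit 5) (nat_lit 271) (nat_lit 255) (nat_lit 194)) (XT.lf (nat_lit 0) (nat_lit 3783695234) (nat_lit 456) (nat_lit 30225765) (nat_lit 532) (nat_lit 10024059874) (nat_lit 114) (nat_lit 5) (nat_lit 120) (nat_lit 5) (nat_lit 121) (nat_lit 5) (nat_lit 272) (nat_lit 255) (nat_lit 193))))) (XT.nd (nat_lit 156) (nat_lit 988) (nat_lit 0) (XT.nd (nat_lit 78) (nat_lit 0) (nat_lit 0) (XT.lf (nat_lit 0) (nat_lit 238388029) (nat_lit 456) (nat_lit 6345874389) (nat_lit 532) (nat_lit 7654756146) (nat_lit 108) (nat_lit 5) (nat_lit 114) (nat_lit 5) (nat_lit 115) (nat_lit 5) (nat_lit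 273) (nat_lit 255) (nat_lit 192)) (XT.lf (nat_lit 0) (nat_lit 9572403691) (nat_lit 532) (nat_lit 3461054356) (nat_lit 76) (nat_lit 1624359552) (nat_lit 108) (nat_lit 5) (nat_lit 115) (nat_lit 5) (nat_lit 109) (nat_lit 5) (nat_lit 274) (nat_lit 255) (nat_lit 191))) (XT.nd (nat_lit 78) (nat_lit 532) (nat_lit 0) (XT.lf (nat_lit 0) (nat_lit 7649183439) (nat_lit 456) (nat_lit 5159811994) (nat_lit 532) (nat_lit 2285673606) (nat_lit 102) (nat_lit 5) (nat_lit 108) (nat_lit 5) (nat_lit 109) (nat_lit 5) (nat_lit 275) (nat_lit 255) (nat_lit 190)) (XT.nd (nat_lit 78) (nat_lit 0) (nat_lit 0) (XT.lf (nat_lit 0) (nat_lit 707489792) (nat_lit 532) (nat_lit 11720274221) (nat_lit 76) (nat_lit 3123501895) (nat_lit 95) (nat_lit 5) (nat_lit 102) (nat_lit 5) (nat_lit 96) (nat_lit 5) (nat_lit 276) (nat_lit 255) (nat_lit 189)) (XT.lf (nat_lit 0) (nat_lit 3896794454) (nat_lit 532) (nat_lit 318524188) (nat_lit 76)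 (nat_lit 11811956193) (nat_lit 95) (nat_lit 5) (nat_lit 102) (nat_lit 5) (nat_lit 96) (nat_lit 5) (nat_lit 277) (nat_lit 255) (nat_lit 188)))))) (XT.nd (nat_lit 390) (nat_lit 1292) (nat_lit 0) (XT.nd (nat_lit 156) (nat_lit 836) (nat_lit 0) (XT.nd (nat_lit 78) (nat_lit 380) (nat_lit 0) (XT.lf (nat_lit 0) (nat_lit 7368435268) (nat_lit 456) (nat_lit 4722913207) (nat_lit 76) (nat_lit 4432119848) (nat_lit 90) (nat_lit 5) (nat_lit 96) (nat_lit 5) (nat_lit 91) (nat_lit 5) (nat_lit 278) (nat_lit 255) (nat_lit 187)) (XT.lf (nat_lit 0) (nat_lit 7553651326) (nat_lit 380) (nat_lit 3545257209) (nat_lit 456) (nat_lit 5943072337) (nat_lit 85) (nat_lit 5) (nat_lit 90) (nat_lit 5) (nat_lit 91) (nat_lit 5) (nat_lit 279) (nat_lit 255) (nat_lit 186))) (XT.nd (nat_lit 78) (nat_lit 456) (nat_lit 0) (XT.lf (nat_lit 0) (nat_lit 2923274103) (nat_lit 380) (nat_lit 12189952666) (nat_lit 456) (nat_lit 2470336353) (nat_lit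 80) (nat_lit 5) (nat_lit 85) (nat_lit 5) (nat_lit 86) (nat_lit 5) (nat_lit 280) (nat_lit 255) (nat_lit 185)) (XT.nd (nat_lit 78) (nat_lit 380) (nat_lit 0) (XT.lf (nat_lit 0) (nat_lit 1256252792) (nat_lit 456) (nat_lit 2082067575) (nat_lit 76) (nat_lit 14810528936) (nat_lit 79) (nat_lit 5) (nat_lit 85) (nat_lit 5) (nat_lit 80) (nat_lit 5) (nat_lit 281) (nat_lit 255) (nat_lit 184)) (XT.lf (nat_lit 0) (nat_lit 5255757756) (nat_lit 456) (nat_lit 7514160168) (nat_lit 76) (nat_lit 5967673907) (nat_lit 74) (nat_lit 5) (nat_lit 80) (nat_lit 5) (nat_lit 75) (nat_lit 5) (nat_lit 282) (nat_lit 255) (nat_lit 183))))) (XT.nd (nat_lit 234) (nat_lit 684) (nat_lit 0) (XT.nd (nat_lit 78) (nat_lit 304) (nat_lit 0) (XT.lf (nat_lit 0) (nat_lit 5927933473) (nat_lit 304) (nat_lit 3610866133) (nat_lit 380) (nat_lit 9814518467) (nat_lit 70) (nat_lit 5) (nat_lit 74) (nat_lit 5) (nat_lit 75) (nat_lit 5) (nat_lit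 283) (nat_lit 255) (nat_lit 182)) (XT.nd (nat_lit 78) (nat_lit 0) (nat_lit 0) (XT.lf (nat_lit 0) (nat_lit 109086756) (nat_lit 304) (nat_lit 14036002566) (nat_lit 380) (nat_lit 5851519322) (nat_lit 66) (nat_lit 5) (nat_lit 70) (nat_lit 5) (nat_lit 71) (nat_lit 5) (nat_lit 284) (nat_lit 255) (nat_lit 181)) (XT.lf (nat_lit 0) (nat_lit 14528512394) (nat_lit 304) (nat_lit 4600652809) (nat_lit 380) (nat_lit 1538522857) (nat_lit 66) (nat_lit 5) (nat_lit 70) (nat_lit 5) (nat_lit 71) (nat_lit 5) (nat_lit 285) (nat_lit 255) (nat_lit 180)))) (XT.nd (nat_lit 78) (nat_lit 304) (nat_lit 0) (XT.lf (nat_lit 0) (nat_lit 3038673107) (nat_lit 380) (nat_lit 13024192507) (nat_lit 76) (nat_lit 5305431428) (nat_lit 61) (nat_lit 5) (nat_lit 66) (nat_lit 5) (nat_lit 62) (nat_lit 5) (nat_lit 286) (nat_lit 255) (nat_lit 179)) (XT.nd (nat_lit 78) (nat_lit 0) (nat_lit 0) (XT.lf (nat_lit 0) (nat_lit 1510920849) (nat_lit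 304) (nat_lit 6402061912) (nat_lit 380) (nat_lit 14187537218) (nat_lit 57) (nat_lit 5) (nat_lit 61) (nat_lit 5) (nat_lit 62) (nat_lit 5) (nat_lit 287) (nat_lit 255) (nat_lit 178)) (XT.lf (nat_lit 0) (nat_lit 13178162851) (nat_lit 380) (nat_lit 5891155224) (nat_lit 76) (nat_lit 3795661986) (nat_lit 57) (nat_lit 5) (nat_lit 62) (nat_lit 5) (nat_lit 58) (nat_lit 5) (nat_lit 288) (nat_lit 255) (nat_lit 177))))))) (XT.nd (nat_lit 858) (nat_lit 1140) (nat_lit 0) (XT.nd (nat_lit 390) (nat_lit 912) (nat_lit 0) (XT.nd (nat_lit 156) (nat_lit 228) (nat_lit 0) (XT.nd (nat_lit 78) (nat_lit 380) (nat_lit 0) (XT.lf (nat_lit 0) (nat_lit 9633691060) (nat_lit 228) (nat_lit 9207073032) (nat_lit 304) (nat_lit 4822912904) (nat_lit 54) (nat_lit 5) (nat_lit 57) (nat_lit 5) (nat_lit 58) (nat_lit 5) (nat_lit 289) (nat_lit 255) (nat_lit 176)) (XT.lf (nat_lit 0) (nat_lit 344030028) (nat_lit 380) (nat_lit 22959477626)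 (nat_lit 76) (nat_lit 1196793299) (nat_lit 49) (nat_lit 5) (nat_lit 54) (nat_lit 5) (nat_lit 50) (nat_lit 5) (nat_lit 290) (nat_lit 255) (nat_lit 175))) (XT.nd (nat_lit 78) (nat_lit 228) (nat_lit 0) (XT.lf (nat_lit 0) (nat_lit 5887464738) (nat_lit 380) (nat_lit 7365262539) (nat_lit 76) (nat_lit 12118093676) (nat_lit 49) (nat_lit 5) (nat_lit 54) (nat_lit 5) (nat_lit 50) (nat_lit 5) (nat_lit 291) (nat_lit 255) (nat_lit 174)) (XT.nd (nat_lit 78) (nat_lit 0) (nat_lit 0) (XT.lf (nat_lit 0) (nat_lit 9157686843) (nat_lit 228) (nat_lit 2617629956) (nat_lit 304) (nat_lit 14507565253) (nat_lit 46) (nat_lit 5) (nat_lit 49) (nat_lit 5) (nat_lit 50) (nat_lit 5) (nat_lit 292) (nat_lit 255) (nat_lit 173)) (XT.lf (nat_lit 0) (nat_lit 18096156169) (nat_lit 304) (nat_lit 689880816) (nat_lit 76) (nat_lit 8450382301) (nat_lit 46) (nat_lit 5) (nat_lit 50) (nat_lit 5) (nat_lit 47) (nat_lit 5) (nat_lit 293) (nat_lit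 255) (nat_lit 172))))) (XT.nd (nat_lit 234) (nat_lit 380) (nat_lit 0) (XT.nd (nat_lit 78) (nat_lit 304) (nat_lit 0) (XT.lf (nat_lit 0) (nat_lit 16841440700) (nat_lit 228) (nat_lit 8060711972) (nat_lit 304) (nat_lit 3330436703) (nat_lit 43) (nat_lit 5) (nat_lit 46) (nat_lit 5) (nat_lit 47) (nat_lit 5) (nat_lit 294) (nat_lit 255) (nat_lit 171)) (XT.nd (nat_lit 78) (nat_lit 0) (nat_lit 0) (XT.lf (nat_lit 0) (nat_lit 2793991650) (nat_lit 304) (nat_lit 23258833092) (nat_lit 76) (nat_lit 3222626853) (nat_lit 39) (nat_lit 5) (nat_lit 43) (nat_lit 5) (nat_lit 40) (nat_lit 5) (nat_lit 295) (nat_lit 255) (nat_lit 170)) (XT.lf (nat_lit 0) (nat_lit 9337983326) (nat_lit 304) (nat_lit 5977527880) (nat_lit 76) (nat_lit 15048515801) (nat_lit 39) (nat_lit 5) (nat_lit 43) (nat_lit 5) (nat_lit 40) (nat_lit 5) (nat_lit 296) (nat_lit 255) (nat_lit 169)))) (XT.nd (nat_lit 78) (nat_lit 152) (nat_lit 0) (XT.lf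 (nat_lit 0) (nat_lit 12383518476) (nat_lit 228) (nat_lit 3927359404) (nat_lit 304) (nat_lit 15193126909) (nat_lit 36) (nat_lit 5) (nat_lit 39) (nat_lit 5) (nat_lit 40) (nat_lit 5) (nat_lit 297) (nat_lit 255) (nat_lit 168)) (XT.nd (nat_lit 78) (nat_lit 152) (nat_lit 0) (XT.lf (nat_lit 0) (nat_lit 23754917812) (nat_lit 304) (nat_lit 1015077304) (nat_lit 76) (nat_lit 7927334845) (nat_lit 36) (nat_lit 5) (nat_lit 40) (nat_lit 5) (nat_lit 37) (nat_lit 5) (nat_lit 298) (nat_lit 255) (nat_lit 167)) (XT.lf (nat_lit 0) (nat_lit 18288385774) (nat_lit 152) (nat_lit 13482181327) (nat_lit 228) (nat_lit 2173794474) (nat_lit 34) (nat_lit 5) (nat_lit 36) (nat_lit 5) (nat_lit 37) (nat_lit 5) (nat_lit 299) (nat_lit 255) (nat_lit 166)))))) (XT.nd (nat_lit 390) (nat_lit 532) (nat_lit 0) (XT.nd (nat_lit 156) (nat_lit 304) (nat_lit 0) (XT.nd (nat_lit 78) (nat_lit 0) (nat_lit 0) (XT.lf (nat_lit 0) (nat_lit 3317942297)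 (nat_lit 228) (nat_lit 1545822303) (nat_lit 304) (nat_lit 30387774957) (nat_lit 30) (nat_lit 5) (nat_lit 33) (nat_lit 5) (nat_lit 34) (nat_lit 5) (nat_lit 300) (nat_lit 255) (nat_lit 165)) (XT.lf (nat_lit 0) (nat_lit 12461810826) (nat_lit 304) (nat_lit 13204460217) (nat_lit 76) (nat_lit 10949572441) (nat_lit 30) (nat_lit 5) (nat_lit 34) (nat_lit 5) (nat_lit 31) (nat_lit 5) (nat_lit 301) (nat_lit 255) (nat_lit 164))) (XT.nd (nat_lit 78) (nat_lit 152) (nat_lit 0) (XT.lf (nat_lit 0) (nat_lit 6550706466) (nat_lit 152) (nat_lit 13953121193) (nat_lit 228) (nat_lit 17542631688) (nat_lit 28) (nat_lit 5) (nat_lit 30) (nat_lit 5) (nat_lit 31) (nat_lit 5) (nat_lit 302) (nat_lit 255) (nat_lit 163)) (XT.nd (nat_lit 78) (nat_lit 152) (nat_lit 0) (XT.lf (nat_lit 0) (nat_lit 27547562473) (nat_lit 152) (nat_lit 1522286798) (nat_lit 228) (nat_lit 10475117508) (nat_lit 28) (nat_lit 5) (nat_lit 30) (nat_lit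 5) (nat_lit 31) (nat_lit 5) (nat_lit 303) (nat_lit 255) (nat_lit 162)) (XT.lf (nat_lit 0) (nat_lit 8509783652) (nat_lit 152) (nat_lit 29733594277) (nat_lit 228) (nat_lit 2869662515) (nat_lit 26) (nat_lit 5) (nat_lit 28) (nat_lit 5) (nat_lit 29) (nat_lit 5) (nat_lit 304) (nat_lit 255) (nat_lit 161))))) (XT.nd (nat_lit 234) (nat_lit 304) (nat_lit 0) (XT.nd (nat_lit 78) (nat_lit 152) (nat_lit 0) (XT.lf (nat_lit 0) (nat_lit 5143189219) (nat_lit 228) (nat_lit 12549504467) (nat_lit 76) (nat_lit 25061555796) (nat_lit 25) (nat_lit 5) (nat_lit 28) (nat_lit 5) (nat_lit 26) (nat_lit 5) (nat_lit 305) (nat_lit 255) (nat_lit 160)) (XT.nd (nat_lit 78) (nat_lit 0) (nat_lit 0) (XT.lf (nat_lit 0) (nat_lit 8626333666) (nat_lit 152) (nat_lit 4941966100) (nat_lit 228) (nat_lit 30906252880) (nat_lit 23) (nat_lit 5) (nat_lit 25) (nat_lit 5) (nat_lit 26) (nat_lit 5) (nat_lit 306) (nat_lit 255) (nat_lit 159)) (XT.lf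 (nat_lit 0) (nat_lit 22614152952) (nat_lit 228) (nat_lit 15255957169) (nat_lit 76) (nat_lit 8404790526) (nat_lit 23) (nat_lit 5) (nat_lit 26) (nat_lit 5) (nat_lit 24) (nat_lit 5) (nat_lit 307) (nat_lit 255) (nat_lit 158)))) (XT.nd (nat_lit 78) (nat_lit 152) (nat_lit 0) (XT.lf (nat_lit 0) (nat_lit 6422600414) (nat_lit 152) (nat_lit 25789727268) (nat_lit 228) (nat_lit 15949951109) (nat_lit 21) (nat_lit 5) (nat_lit 23) (nat_lit 5) (nat_lit 24) (nat_lit 5) (nat_lit 308) (nat_lit 255) (nat_lit 157)) (XT.nd (nat_lit 78) (nat_lit 152) (nat_lit 0) (XT.lf (nat_lit 0) (nat_lit 29485663480) (nat_lit 152) (nat_lit 12950581421) (nat_lit 228) (nat_lit 7703418893) (nat_lit 21) (nat_lit 5) (nat_lit 23) (nat_lit 5) (nat_lit 24) (nat_lit 5) (nat_lit 309) (nat_lit 255) (nat_lit 156)) (XT.lf (nat_lit 0) (nat_lit 945571912) (nat_lit 152) (nat_lit 50732584041) (nat_lit 76) (nat_lit 537235272) (nat_lit 19) (nat_lit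 5) (nat_lit 21) (nat_lit 5) (nat_lit 20) (nat_lit 5) (nat_lit 310) (nat_lit 255) (nat_lit 155))))))))
noncomputable def xc80 : XT := (XT.nd (nat_lit 33540) (nat_lit 0) (nat_lit 5776) (XT.nd (nat_lit 780) (nat_lit 304) (nat_lit 0) (XT.nd (nat_lit 390) (nat_lit 228) (nat_lit 0) (XT.nd (nat_lit 156) (nat_lit 228) (nat_lit 0) (XT.nd (nat_lit 78) (nat_lit 0) (nat_lit 0) (XT.lf (nat_lit 0) (nat_lit 10204097292) (nat_lit 152) (nat_lit 29458377477) (nat_lit 76) (nat_lit 14720061423) (nat_lit 19) (nat_lit 5) (nat_lit 21) (nat_lit 5) (nat_lit 20) (nat_lit 5) (nat_lit 311) (nat_lit 255) (nat_lit 154)) (XT.lf (nat_lit 0) (nat_lit 19915538839) (nat_lit 152) (nat_lit 7136977616) (nat_lit 76) (nat_lit 29605833125) (nat_lit 19) (nat_lit 5) (nat_lit 21) (nat_lit 5) (nat_lit 20) (nat_lit 5) (nat_lit 312) (nat_lit 255) (nat_lit 153))) (XT.nd (nat_lit 78) (nat_lit 76) (nat_lit 0) (XT.lf (nat_lit 0) (nat_lit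 16608860419) (nat_lit 152) (nat_lit 13653813141) (nat_lit 228) (nat_lit 28780786801) (nat_lit 17) (nat_lit 5) (nat_lit 19) (nat_lit 5) (nat_lit 20) (nat_lit 5) (nat_lit 313) (nat_lit 255) (nat_lit 152)) (XT.nd (nat_lit 78) (nat_lit 76) (nat_lit 0) (XT.lf (nat_lit 0) (nat_lit 41196064353) (nat_lit 228) (nat_lit 19874713445) (nat_lit 76) (nat_lit 474991764) (nat_lit 17) (nat_lit 5) (nat_lit 20) (nat_lit 5) (nat_lit 18) (nat_lit 4) (nat_lit 314) (nat_lit 255) (nat_lit 151)) (XT.lf (nat_lit 0) (nat_lit 3733439402) (nat_lit 76) (nat_lit 49107542229) (nat_lit 152) (nat_lit 11327276275) (nat_lit 16) (nat_lit 5) (nat_lit 17) (nat_lit 5) (nat_lit 18) (nat_lit 4) (nat_lit 315) (nat_lit 255) (nat_lit 150))))) (XT.nd (nat_lit 156) (nat_lit 152) (nat_lit 0) (XT.nd (nat_lit 78) (nat_lit 76) (nat_lit 0) (XT.lf (nat_lit 0) (nat_lit 28922976737) (nat_lit 76) (nat_lit 36341201436) (nat_lit 152) (nat_lit 1651820437)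 (nat_lit 16) (nat_lit 5) (nat_lit 17) (nat_lit 5) (nat_lit 18) (nat_lit 4) (nat_lit 316) (nat_lit 255) (nat_lit 149)) (XT.lf (nat_lit 0) (nat_lit 8333157298) (nat_lit 152) (nat_lit 14524749160) (nat_lit 76) (nat_lit 46941022031) (nat_lit 15) (nat_lit 5) (nat_lit 17) (nat_lit 5) (nat_lit 16) (nat_lit 5) (nat_lit 317) (nat_lit 255) (nat_lit 148))) (XT.nd (nat_lit 78) (nat_lit 0) (nat_lit 0) (XT.lf (nat_lit 0) (nat_lit 10287841293) (nat_lit 152) (nat_lit 8586742733) (nat_lit 228) (nat_lit 53948197204) (nat_lit 13) (nat_lit 5) (nat_lit 15) (nat_lit 5) (nat_lit 16) (nat_lit 5) (nat_lit 318) (nat_lit 255) (nat_lit 147)) (XT.nd (nat_lit 78) (nat_lit 0) (nat_lit 0) (XT.lf (nat_lit 0) (nat_lit 30147935646) (nat_lit 228) (nat_lit 39424721138) (nat_lit 76) (nat_lit 6419031717) (nat_lit 13) (nat_lit 5) (nat_lit 16) (nat_lit 5) (nat_lit 14) (nat_lit 4) (nat_lit 319) (nat_lit 255) (nat_lit 146)) (XT.lf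 (nat_lit 0) (nat_lit 42064339492) (nat_lit 228) (nat_lit 15258025419) (nat_lit 76) (nat_lit 21994301831) (nat_lit 13) (nat_lit 5) (nat_lit 16) (nat_lit 5) (nat_lit 14) (nat_lit 4) (nat_lit 320) (nat_lit 255) (nat_lit 145)))))) (XT.nd (nat_lit 390) (nat_lit 0) (nat_lit 0) (XT.nd (nat_lit 156) (nat_lit 228) (nat_lit 0) (XT.nd (nat_lit 78) (nat_lit 0) (nat_lit 0) (XT.lf (nat_lit 0) (nat_lit 10306341847) (nat_lit 76) (nat_lit 44362355946) (nat_lit 152) (nat_lit 28136438878) (nat_lit 12) (nat_lit 5) (nat_lit 13) (nat_lit 5) (nat_lit 14) (nat_lit 4) (nat_lit 321) (nat_lit 255) (nat_lit 144)) (XT.lf (nat_lit 0) (nat_lit 37456335830) (nat_lit 76) (nat_lit 30597289839) (nat_lit 152) (nat_lit 18409900359) (nat_lit 12) (nat_lit 5) (nat_lit 13) (nat_lit 5) (nat_lit 14) (nat_lit 4) (nat_lit 322) (nat_lit 255) (nat_lit 143))) (XT.nd (nat_lit 78) (nat_lit 228) (nat_lit 0) (XT.lf (nat_lit 0) (nat_lit 65952934749)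 (nat_lit 76) (nat_lit 16148468762) (nat_lit 152) (nat_lit 8203629405) (nat_lit 12) (nat_lit 5) (nat_lit 13) (nat_lit 5) (nat_lit 14) (nat_lit 4) (nat_lit 323) (nat_lit 255) (nat_lit 142)) (XT.nd (nat_lit 78) (nat_lit 0) (nat_lit 0) (XT.lf (nat_lit 0) (nat_lit 1530962774) (nat_lit 152) (nat_lit 941514152) (nat_lit 228) (nat_lit 91865162488) (nat_lit 9) (nat_lit 5) (nat_lit 11) (nat_lit 5) (nat_lit 12) (nat_lit 5) (nat_lit 324) (nat_lit 255) (nat_lit 141)) (XT.lf (nat_lit 0) (nat_lit 13905901025) (nat_lit 228) (nat_lit 69587358727) (nat_lit 76) (nat_lit 15064389915) (nat_lit 9) (nat_lit 5) (nat_lit 12) (nat_lit 5) (nat_lit 10) (nat_lit 4) (nat_lit 325) (nat_lit 255) (nat_lit 140))))) (XT.nd (nat_lit 32136) (nat_lit 0) (nat_lit 12008) (XT.nd (nat_lit 78) (nat_lit 0) (nat_lit 0) (XT.lf (nat_lit 0) (nat_lit 25914781620) (nat_lit 228) (nat_lit 45226431831) (nat_lit 76) (nat_lit 31847338598) (nat_lit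 9) (nat_lit 5) (nat_lit 12) (nat_lit 5) (nat_lit 10) (nat_lit 4) (nat_lit 326) (nat_lit 255) (nat_lit 139)) (XT.nd (nat_lit 31980) (nat_lit 0) (nat_lit 12920) (XT.lf (nat_lit 0) (nat_lit 38518660876) (nat_lit 228) (nat_lit 19656843335) (nat_lit 76) (nat_lit 49465663631) (nat_lit 9) (nat_lit 5) (nat_lit 12) (nat_lit 5) (nat_lit 10) (nat_lit 4) (nat_lit 327) (nat_lit 255) (nat_lit 138)) (XT.lf (nat_lit 0) (nat_lit 4011151493) (nat_lit 988) (nat_lit 373111118) (nat_lit 988) (nat_lit 373111118) (nat_lit 179) (nat_lit 3) (nat_lit 192) (nat_lit 3) (nat_lit 192) (nat_lit 5) (nat_lit 256) (nat_lit 256) (nat_lit 208)))) (XT.nd (nat_lit 78) (nat_lit 912) (nat_lit 0) (XT.lf (nat_lit 76) (nat_lit 6026497840) (nat_lit 0) (nat_lit 3417590642) (nat_lit 988) (nat_lit 268769874) (nat_lit 180) (nat_lit 5) (nat_lit 179) (nat_lit 3) (nat_lit 192) (nat_lit 5) (nat_lit 257) (nat_lit 256) (nat_lit 207)) (XT.nd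 (nat_lit 78) (nat_lit 0) (nat_lit 0) (XT.lf (nat_lit 0) (nat_lit 981409558) (nat_lit 988) (nat_lit 6698482314) (nat_lit 1064) (nat_lit 2241329408) (nat_lit 167) (nat_lit 5) (nat_lit 180) (nat_lit 5) (nat_lit 181) (nat_lit 5) (nat_lit 258) (nat_lit 256) (nat_lit 206)) (XT.lf (nat_lit 76) (nat_lit 342136039) (nat_lit 0) (nat_lit 1950324414) (nat_lit 1064) (nat_lit 7847529157) (nat_lit 168) (nat_lit 5) (nat_lit 167) (nat_lit 5) (nat_lit 181) (nat_lit 5) (nat_lit 259) (nat_lit 256) (nat_lit 205))))))) (XT.nd (nat_lit 780) (nat_lit 3800) (nat_lit 0) (XT.nd (nat_lit 390) (nat_lit 2508) (nat_lit 0) (XT.nd (nat_lit 156) (nat_lit 0) (nat_lit 76) (XT.nd (nat_lit 78) (nat_lit 0) (nat_lit 0) (XT.lf (nat_lit 0) (nat_lit 3708859079) (nat_lit 988) (nat_lit 2576354364) (nat_lit 1064) (nat_lit 4083464988) (nat_lit 168) (nat_lit 5) (nat_lit 181) (nat_lit 5) (nat_lit 182) (nat_lit 5) (nat_lit 260) (nat_lit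 256) (nat_lit 204)) (XT.lf (nat_lit 76) (nat_lit 5043304291) (nat_lit 0) (nat_lit 155295190) (nat_lit 1064) (nat_lit 5410294107) (nat_lit 169) (nat_lit 5) (nat_lit 168) (nat_lit 5) (nat_lit 182) (nat_lit 5) (nat_lit 261) (nat_lit 256) (nat_lit 203))) (XT.nd (nat_lit 78) (nat_lit 0) (nat_lit 76) (XT.lf (nat_lit 76) (nat_lit 2176580274) (nat_lit 0) (nat_lit 4631641382) (nat_lit 1064) (nat_lit 4051695575) (nat_lit 170) (nat_lit 5) (nat_lit 169) (nat_lit 5) (nat_lit 183) (nat_lit 5) (nat_lit 262) (nat_lit 256) (nat_lit 202)) (XT.nd (nat_lit 78) (nat_lit 0) (nat_lit 0) (XT.lf (nat_lit 0) (nat_lit 8515157573) (nat_lit 988) (nat_lit 762696672) (nat_lit 1064) (nat_lit 1845284808) (nat_lit 170) (nat_lit 5) (nat_lit 183) (nat_lit 5) (nat_lit 184) (nat_lit 5) (nat_lit 263) (nat_lit 256) (nat_lit 201)) (XT.lf (nat_lit 76) (nat_lit 7614264291) (nat_lit 0) (nat_lit 2756046429) (nat_lit 1064) (nat_lit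 1027469868) (nat_lit 171) (nat_lit 5) (nat_lit 170) (nat_lit 5) (nat_lit 184) (nat_lit 5) (nat_lit 264) (nat_lit 256) (nat_lit 200))))) (XT.nd (nat_lit 156) (nat_lit 1672) (nat_lit 0) (XT.nd (nat_lit 78) (nat_lit 0) (nat_lit 0) (XT.lf (nat_lit 0) (nat_lit 658308093) (nat_lit 1064) (nat_lit 6940475299) (nat_lit 1140) (nat_lit 4086165123) (nat_lit 157) (nat_lit 5) (nat_lit 171) (nat_lit 5) (nat_lit 172) (nat_lit 5) (nat_lit 265) (nat_lit 256) (nat_lit 199)) (XT.lf (nat_lit 76) (nat_lit 1745871125) (nat_lit 0) (nat_lit 692340287) (nat_lit 1140) (nat_lit 9547153112) (nat_lit 158) (nat_lit 5) (nat_lit 157) (nat_lit 5) (nat_lit 172) (nat_lit 5) (nat_lit 266) (nat_lit 256) (nat_lit 198))) (XT.nd (nat_lit 78) (nat_lit 1748) (nat_lit 0) (XT.lf (nat_lit 0) (nat_lit 4391498216) (nat_lit 1064) (nat_lit 1393624717) (nat_lit 76) (nat_lit 6513268137) (nat_lit 158) (nat_lit 5) (nat_lit 172) (nat_lit 5)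 (nat_lit 159) (nat_lit 5) (nat_lit 267) (nat_lit 256) (nat_lit 197)) (XT.nd (nat_lit 78) (nat_lit 684) (nat_lit 0) (XT.lf (nat_lit 0) (nat_lit 6492627718) (nat_lit 1140) (nat_lit 4637801537) (nat_lit 76) (nat_lit 1495249945) (nat_lit 144) (nat_lit 5) (nat_lit 159) (nat_lit 5) (nat_lit 145) (nat_lit 5) (nat_lit 268) (nat_lit 256) (nat_lit 196)) (XT.lf (nat_lit 0) (nat_lit 4894510847) (nat_lit 684) (nat_lit 3877822932) (nat_lit 760) (nat_lit 4194902457) (nat_lit 135) (nat_lit 5) (nat_lit 144) (nat_lit 5) (nat_lit 145) (nat_lit 5) (nat_lit 269) (nat_lit 256) (nat_lit 195)))))) (XT.nd (nat_lit 390) (nat_lit 1748) (nat_lit 0) (XT.nd (nat_lit 156) (nat_lit 1444) (nat_lit 0) (XT.nd (nat_lit 78) (nat_lit 76) (nat_lit 0) (XT.lf (nat_lit 0) (nat_lit 1629872227) (nat_lit 532) (nat_lit 9591423690) (nat_lit 608) (nat_lit 2103021943) (nat_lit 128) (nat_lit 5) (nat_lit 135) (nat_lit 5) (nat_lit 136) (nat_lit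 5) (nat_lit 270) (nat_lit 256) (nat_lit 194)) (XT.lf (nat_lit 0) (nat_lit 171367651) (nat_lit 608) (nat_lit 1792546409) (nat_lit 76) (nat_lit 11733017353) (nat_lit 127) (nat_lit 5) (nat_lit 135) (nat_lit 5) (nat_lit 128) (nat_lit 5) (nat_lit 271) (nat_lit 256) (nat_lit 193))) (XT.nd (nat_lit 78) (nat_lit 912) (nat_lit 0) (XT.lf (nat_lit 0) (nat_lit 2618055995) (nat_lit 608) (nat_lit 5431517800) (nat_lit 76) (nat_lit 6035007339) (nat_lit 120) (nat_lit 5) (nat_lit 128) (nat_lit 5) (nat_lit 121) (nat_lit 5) (nat_lit 272) (nat_lit 256) (nat_lit 192)) (XT.nd (nat_lit 78) (nat_lit 456) (nat_lit 0) (XT.lf (nat_lit 0) (nat_lit 5209580187) (nat_lit 456) (nat_lit 26384519) (nat_lit 532) (nat_lit 9254269999) (nat_lit 114) (nat_lit 5) (nat_lit 120) (nat_lit 5) (nat_lit 121) (nat_lit 5) (nat_lit 273) (nat_lit 256) (nat_lit 191)) (XT.lf (nat_lit 0) (nat_lit 1490016672) (nat_lit 456) (nat_lit 6608136768)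 (nat_lit 532) (nat_lit 6814699733) (nat_lit 108) (nat_lit 5) (nat_lit 114) (nat_lit 5) (nat_lit 115) (nat_lit 5) (nat_lit 274) (nat_lit 256) (nat_lit 190))))) (XT.nd (nat_lit 234) (nat_lit 760) (nat_lit 0) (XT.nd (nat_lit 78) (nat_lit 988) (nat_lit 0) (XT.lf (nat_lit 0) (nat_lit 11179792348) (nat_lit 532) (nat_lit 2417634155) (nat_lit 76) (nat_lit 1756965607) (nat_lit 108) (nat_lit 5) (nat_lit 115) (nat_lit 5) (nat_lit 109) (nat_lit 5) (nat_lit 275) (nat_lit 256) (nat_lit 189)) (XT.nd (nat_lit 78) (nat_lit 532) (nat_lit 0) (XT.lf (nat_lit 0) (nat_lit 9213245578) (nat_lit 456) (nat_lit 5322575509) (nat_lit 532) (nat_lit 1278653636) (nat_lit 102) (nat_lit 5) (nat_lit 108) (nat_lit 5) (nat_lit 109) (nat_lit 5) (nat_lit 276) (nat_lit 256) (nat_lit 188)) (XT.lf (nat_lit 0) (nat_lit 1802276870) (nat_lit 532) (nat_lit 11102273143) (nat_lit 76) (nat_lit 3390336396) (nat_lit 95) (nat_lit 5) (nat_lit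 102) (nat_lit 5) (nat_lit 96) (nat_lit 5) (nat_lit 277) (nat_lit 256) (nat_lit 187)))) (XT.nd (nat_lit 78) (nat_lit 380) (nat_lit 0) (XT.lf (nat_lit 0) (nat_lit 828395330) (nat_lit 380) (nat_lit 4280166259) (nat_lit 456) (nat_lit 11687511625) (nat_lit 90) (nat_lit 5) (nat_lit 95) (nat_lit 5) (nat_lit 96) (nat_lit 5) (nat_lit 278) (nat_lit 256) (nat_lit 186)) (XT.nd (nat_lit 78) (nat_lit 380) (nat_lit 0) (XT.lf (nat_lit 0) (nat_lit 8709848896) (nat_lit 456) (nat_lit 3815505956) (nat_lit 76) (nat_lit 4793137569) (nat_lit 90) (nat_lit 5) (nat_lit 96) (nat_lit 5) (nat_lit 91) (nat_lit 5) (nat_lit 279) (nat_lit 256) (nat_lit 185)) (XT.lf (nat_lit 0) (nat_lit 9042107089) (nat_lit 380) (nat_lit 3549083224) (nat_lit 456) (nat_lit 5272903262) (nat_lit 85) (nat_lit 5) (nat_lit 90) (nat_lit 5) (nat_lit 91) (nat_lit 5) (nat_lit 280) (nat_lit 256) (nat_lit 184))))))))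
noncomputable def xc81 : XT := (XT.nd (nat_lit 1638) (nat_lit 1368) (nat_lit 0) (XT.nd (nat_lit 780) (nat_lit 1824) (nat_lit 0) (XT.nd (nat_lit 390) (nat_lit 912) (nat_lit 0) (XT.nd (nat_lit 156) (nat_lit 988) (nat_lit 0) (XT.nd (nat_lit 78) (nat_lit 76) (nat_lit 0) (XT.lf (nat_lit 0) (nat_lit 4175878311) (nat_lit 380) (nat_lit 12597934659) (nat_lit 456) (nat_lit 1660003183) (nat_lit 80) (nat_lit 5) (nat_lit 85) (nat_lit 5) (nat_lit 86) (nat_lit 5) (nat_lit 281) (nat_lit 256) (nat_lit 183)) (XT.lf (nat_lit 0) (nat_lit 2191091346) (nat_lit 456) (nat_lit 1113419628) (nat_lit 76) (nat_lit 15723976575) (nat_lit 79) (nat_lit 5) (nat_lit 85) (nat_lit 5) (nat_lit 80) (nat_lit 5) (nat_lit 282) (nat_lit 256) (nat_lit 182))) (XT.nd (nat_lit 78) (nat_lit 608) (nat_lit 0) (XT.lf (nat_lit 0) (nat_lit 6360999654) (nat_lit 456) (nat_lit 6823023141) (nat_lit 76) (nat_lit 6463609826) (nat_lit 74) (nat_lit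 5) (nat_lit 80) (nat_lit 5) (nat_lit 75) (nat_lit 5) (nat_lit 283) (nat_lit 256) (nat_lit 181)) (XT.nd (nat_lit 78) (nat_lit 304) (nat_lit 0) (XT.lf (nat_lit 0) (nat_lit 7260594283) (nat_lit 304) (nat_lit 3567443661) (nat_lit 380) (nat_lit 9467086434) (nat_lit 70) (nat_lit 5) (nat_lit 74) (nat_lit 5) (nat_lit 75) (nat_lit 5) (nat_lit 284) (nat_lit 256) (nat_lit 180)) (XT.lf (nat_lit 0) (nat_lit 1144128083) (nat_lit 304) (nat_lit 14493780586) (nat_lit 380) (nat_lit 5333543796) (nat_lit 66) (nat_lit 5) (nat_lit 70) (nat_lit 5) (nat_lit 71) (nat_lit 5) (nat_lit 285) (nat_lit 256) (nat_lit 179))))) (XT.nd (nat_lit 156) (nat_lit 532) (nat_lit 0) (XT.nd (nat_lit 78) (nat_lit 380) (nat_lit 0) (XT.lf (nat_lit 0) (nat_lit 16235497051) (nat_lit 304) (nat_lit 4598283442) (nat_lit 380) (nat_lit 843495197) (nat_lit 66) (nat_lit 5) (nat_lit 70) (nat_lit 5) (nat_lit 71) (nat_lit 5) (nat_lit 286) (nat_lit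 256) (nat_lit 178)) (XT.lf (nat_lit 0) (nat_lit 3923052772) (nat_lit 380) (nat_lit 12686178648) (nat_lit 76) (nat_lit 5804256920) (nat_lit 61) (nat_lit 5) (nat_lit 66) (nat_lit 5) (nat_lit 62) (nat_lit 5) (nat_lit 287) (nat_lit 256) (nat_lit 177))) (XT.nd (nat_lit 78) (nat_lit 228) (nat_lit 0) (XT.lf (nat_lit 0) (nat_lit 2547334483) (nat_lit 304) (nat_lit 6468101491) (nat_lit 380) (nat_lit 14167715240) (nat_lit 57) (nat_lit 5) (nat_lit 61) (nat_lit 5) (nat_lit 62) (nat_lit 5) (nat_lit 288) (nat_lit 256) (nat_lit 176)) (XT.nd (nat_lit 78) (nat_lit 228) (nat_lit 0) (XT.lf (nat_lit 0) (nat_lit 14512543650) (nat_lit 380) (nat_lit 5251598565) (nat_lit 76) (nat_lit 4222688726) (nat_lit 57) (nat_lit 5) (nat_lit 62) (nat_lit 5) (nat_lit 58) (nat_lit 5) (nat_lit 289) (nat_lit 256) (nat_lit 175)) (XT.lf (nat_lit 0) (nat_lit 11022713831) (nat_lit 228) (nat_lit 9412117648) (nat_lit 304) (nat_lit 4391388545)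 (nat_lit 54) (nat_lit 5) (nat_lit 57) (nat_lit 5) (nat_lit 58) (nat_lit 5) (nat_lit 290) (nat_lit 256) (nat_lit 174)))))) (XT.nd (nat_lit 390) (nat_lit 988) (nat_lit 0) (XT.nd (nat_lit 156) (nat_lit 456) (nat_lit 0) (XT.nd (nat_lit 78) (nat_lit 0) (nat_lit 0) (XT.lf (nat_lit 0) (nat_lit 1000456184) (nat_lit 380) (nat_lit 23194736250) (nat_lit 76) (nat_lit 1509948263) (nat_lit 49) (nat_lit 5) (nat_lit 54) (nat_lit 5) (nat_lit 50) (nat_lit 5) (nat_lit 291) (nat_lit 256) (nat_lit 173)) (XT.lf (nat_lit 0) (nat_lit 6790623361) (nat_lit 380) (nat_lit 6864273040) (nat_lit 76) (nat_lit 12965251025) (nat_lit 49) (nat_lit 5) (nat_lit 54) (nat_lit 5) (nat_lit 50) (nat_lit 5) (nat_lit 292) (nat_lit 256) (nat_lit 172))) (XT.nd (nat_lit 78) (nat_lit 228) (nat_lit 0) (XT.lf (nat_lit 0) (nat_lit 10459906859) (nat_lit 228) (nat_lit 2492087656) (nat_lit 304) (nat_lit 14626488556) (nat_lit 46) (nat_lit 5)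 (nat_lit 49) (nat_lit 5) (nat_lit 50) (nat_lit 5) (nat_lit 293) (nat_lit 256) (nat_lit 171)) (XT.nd (nat_lit 78) (nat_lit 0) (nat_lit 0) (XT.lf (nat_lit 0) (nat_lit 96958926) (nat_lit 228) (nat_lit 19467200678) (nat_lit 304) (nat_lit 9016322180) (nat_lit 43) (nat_lit 5) (nat_lit 46) (nat_lit 5) (nat_lit 47) (nat_lit 5) (nat_lit 294) (nat_lit 256) (nat_lit 170)) (XT.lf (nat_lit 0) (nat_lit 18479465367) (nat_lit 228) (nat_lit 8210935263) (nat_lit 304) (nat_lit 2936702482) (nat_lit 43) (nat_lit 5) (nat_lit 46) (nat_lit 5) (nat_lit 47) (nat_lit 5) (nat_lit 295) (nat_lit 256) (nat_lit 169))))) (XT.nd (nat_lit 234) (nat_lit 456) (nat_lit 0) (XT.nd (nat_lit 78) (nat_lit 228) (nat_lit 0) (XT.lf (nat_lit 0) (nat_lit 3466837719) (nat_lit 304) (nat_lit 23623003078) (nat_lit 76) (nat_lit 3632629371) (nat_lit 39) (nat_lit 5) (nat_lit 43) (nat_lit 5) (nat_lit 40) (nat_lit 5) (nat_lit 296) (nat_lit 256)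 (nat_lit 168)) (XT.nd (nat_lit 78) (nat_lit 228) (nat_lit 0) (XT.lf (nat_lit 0) (nat_lit 10312641051) (nat_lit 304) (nat_lit 5515669351) (nat_lit 76) (nat_lit 16037961759) (nat_lit 39) (nat_lit 5) (nat_lit 43) (nat_lit 5) (nat_lit 40) (nat_lit 5) (nat_lit 297) (nat_lit 256) (nat_lit 167)) (XT.lf (nat_lit 0) (nat_lit 13741623009) (nat_lit 228) (nat_lit 3875481378) (nat_lit 304) (nat_lit 15446691172) (nat_lit 36) (nat_lit 5) (nat_lit 39) (nat_lit 5) (nat_lit 40) (nat_lit 5) (nat_lit 298) (nat_lit 256) (nat_lit 166)))) (XT.nd (nat_lit 78) (nat_lit 456) (nat_lit 0) (XT.lf (nat_lit 0) (nat_lit 25412253137) (nat_lit 304) (nat_lit 349686612) (nat_lit 76) (nat_lit 8555512847) (nat_lit 36) (nat_lit 5) (nat_lit 40) (nat_lit 5) (nat_lit 37) (nat_lit 5) (nat_lit 299) (nat_lit 256) (nat_lit 165)) (XT.nd (nat_lit 78) (nat_lit 304) (nat_lit 0) (XT.lf (nat_lit 0) (nat_lit 19898421481) (nat_lit 152) (nat_lit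 13914588698) (nat_lit 228) (nat_lit 1814327098) (nat_lit 34) (nat_lit 5) (nat_lit 36) (nat_lit 5) (nat_lit 37) (nat_lit 5) (nat_lit 300) (nat_lit 256) (nat_lit 164)) (XT.lf (nat_lit 0) (nat_lit 4168979032) (nat_lit 228) (nat_lit 1381723272) (nat_lit 304) (nat_lit 31449523904) (nat_lit 30) (nat_lit 5) (nat_lit 33) (nat_lit 5) (nat_lit 34) (nat_lit 5) (nat_lit 301) (nat_lit 256) (nat_lit 163))))))) (XT.nd (nat_lit 780) (nat_lit 532) (nat_lit 0) (XT.nd (nat_lit 390) (nat_lit 456) (nat_lit 0) (XT.nd (nat_lit 156) (nat_lit 228) (nat_lit 0) (XT.nd (nat_lit 78) (nat_lit 152) (nat_lit 0) (XT.lf (nat_lit 0) (nat_lit 13509729810) (nat_lit 304) (nat_lit 13201150318) (nat_lit 76) (nat_lit 11722460353) (nat_lit 30) (nat_lit 5) (nat_lit 34) (nat_lit 5) (nat_lit 31) (nat_lit 5) (nat_lit 302) (nat_lit 256) (nat_lit 162)) (XT.lf (nat_lit 0) (nat_lit 7522754662) (nat_lit 152) (nat_lit 14417058349) (nat_lit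 228) (nat_lit 17996121366) (nat_lit 28) (nat_lit 5) (nat_lit 30) (nat_lit 5) (nat_lit 31) (nat_lit 5) (nat_lit 303) (nat_lit 256) (nat_lit 161))) (XT.nd (nat_lit 78) (nat_lit 228) (nat_lit 0) (XT.lf (nat_lit 0) (nat_lit 29538762380) (nat_lit 152) (nat_lit 1375811706) (nat_lit 228) (nat_lit 10595404901) (nat_lit 28) (nat_lit 5) (nat_lit 30) (nat_lit 5) (nat_lit 31) (nat_lit 5) (nat_lit 304) (nat_lit 256) (nat_lit 160)) (XT.nd (nat_lit 78) (nat_lit 76) (nat_lit 0) (XT.lf (nat_lit 0) (nat_lit 9541306592) (nat_lit 152) (nat_lit 30994705817) (nat_lit 228) (nat_lit 2620790698) (nat_lit 26) (nat_lit 5) (nat_lit 28) (nat_lit 5) (nat_lit 29) (nat_lit 5) (nat_lit 305) (nat_lit 256) (nat_lit 159)) (XT.lf (nat_lit 0) (nat_lit 5766728379) (nat_lit 228) (nat_lit 12592073443) (nat_lit 76) (nat_lit 26521729177) (nat_lit 25) (nat_lit 5) (nat_lit 28) (nat_lit 5) (nat_lit 26) (nat_lit 5) (nat_lit 306) (nat_lit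 256) (nat_lit 158))))) (XT.nd (nat_lit 156) (nat_lit 304) (nat_lit 0) (XT.nd (nat_lit 78) (nat_lit 0) (nat_lit 0) (XT.lf (nat_lit 0) (nat_lit 9625790377) (nat_lit 152) (nat_lit 4975318733) (nat_lit 228) (nat_lit 32086120702) (nat_lit 23) (nat_lit 5) (nat_lit 25) (nat_lit 5) (nat_lit 26) (nat_lit 5) (nat_lit 307) (nat_lit 256) (nat_lit 157)) (XT.lf (nat_lit 0) (nat_lit 24084335847) (nat_lit 228) (nat_lit 15469101847) (nat_lit 76) (nat_lit 9024625027) (nat_lit 23) (nat_lit 5) (nat_lit 26) (nat_lit 5) (nat_lit 24) (nat_lit 5) (nat_lit 308) (nat_lit 256) (nat_lit 156))) (XT.nd (nat_lit 78) (nat_lit 152) (nat_lit 0) (XT.lf (nat_lit 0) (nat_lit 7277627917) (nat_lit 152) (nat_lit 26873758058) (nat_lit 228) (nat_lit 16408773784) (nat_lit 21) (nat_lit 5) (nat_lit 23) (nat_lit 5) (nat_lit 24) (nat_lit 5) (nat_lit 309) (nat_lit 256) (nat_lit 155)) (XT.nd (nat_lit 78) (nat_lit 152) (nat_lit 0) (XT.lf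 (nat_lit 0) (nat_lit 31468420447) (nat_lit 152) (nat_lit 13402438518) (nat_lit 228) (nat_lit 7766042333) (nat_lit 21) (nat_lit 5) (nat_lit 23) (nat_lit 5) (nat_lit 24) (nat_lit 5) (nat_lit 310) (nat_lit 256) (nat_lit 154)) (XT.lf (nat_lit 0) (nat_lit 1300722171) (nat_lit 152) (nat_lit 52761213793) (nat_lit 76) (nat_lit 754654292) (nat_lit 19) (nat_lit 5) (nat_lit 21) (nat_lit 5) (nat_lit 20) (nat_lit 5) (nat_lit 311) (nat_lit 256) (nat_lit 153)))))) (XT.nd (nat_lit 390) (nat_lit 304) (nat_lit 0) (XT.nd (nat_lit 156) (nat_lit 228) (nat_lit 0) (XT.nd (nat_lit 78) (nat_lit 0) (nat_lit 0) (XT.lf (nat_lit 0) (nat_lit 11007513264) (nat_lit 152) (nat_lit 30447487350) (nat_lit 76) (nat_lit 15637547595) (nat_lit 19) (nat_lit 5) (nat_lit 21) (nat_lit 5) (nat_lit 20) (nat_lit 5) (nat_lit 312) (nat_lit 256) (nat_lit 152)) (XT.lf (nat_lit 0) (nat_lit 21190564455) (nat_lit 152) (nat_lit 7033056021) (nat_lit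 76) (nat_lit 31258965831) (nat_lit 19) (nat_lit 5) (nat_lit 21) (nat_lit 5) (nat_lit 20) (nat_lit 5) (nat_lit 313) (nat_lit 256) (nat_lit 151))) (XT.nd (nat_lit 78) (nat_lit 76) (nat_lit 0) (XT.lf (nat_lit 0) (nat_lit 17886866023) (nat_lit 152) (nat_lit 14159194579) (nat_lit 228) (nat_lit 29941176326) (nat_lit 17) (nat_lit 5) (nat_lit 19) (nat_lit 5) (nat_lit 20) (nat_lit 5) (nat_lit 314) (nat_lit 256) (nat_lit 150)) (XT.nd (nat_lit 78) (nat_lit 76) (nat_lit 0) (XT.lf (nat_lit 0) (nat_lit 43514874969) (nat_lit 228) (nat_lit 20435825660) (nat_lit 76) (nat_lit 664312093) (nat_lit 17) (nat_lit 5) (nat_lit 20) (nat_lit 5) (nat_lit 18) (nat_lit 4) (nat_lit 315) (nat_lit 256) (nat_lit 149)) (XT.lf (nat_lit 0) (nat_lit 4340333765) (nat_lit 76) (nat_lit 51393410096) (nat_lit 152) (nat_lit 11635143551) (nat_lit 16) (nat_lit 5) (nat_lit 17) (nat_lit 5) (nat_lit 18) (nat_lit 4) (nat_lit 316) (nat_lit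 256) (nat_lit 148))))) (XT.nd (nat_lit 234) (nat_lit 76) (nat_lit 0) (XT.nd (nat_lit 78) (nat_lit 228) (nat_lit 0) (XT.lf (nat_lit 0) (nat_lit 30769337376) (nat_lit 76) (nat_lit 37996824132) (nat_lit 152) (nat_lit 1488224280) (nat_lit 16) (nat_lit 5) (nat_lit 17) (nat_lit 5) (nat_lit 18) (nat_lit 4) (nat_lit 317) (nat_lit 256) (nat_lit 147)) (XT.nd (nat_lit 78) (nat_lit 152) (nat_lit 0) (XT.lf (nat_lit 0) (nat_lit 8979703905) (nat_lit 152) (nat_lit 14865026567) (nat_lit 76) (nat_lit 49437017061) (nat_lit 15) (nat_lit 5) (nat_lit 17) (nat_lit 5) (nat_lit 16) (nat_lit 5) (nat_lit 318) (nat_lit 256) (nat_lit 146)) (XT.lf (nat_lit 0) (nat_lit 11177129940) (nat_lit 152) (nat_lit 8863728681) (nat_lit 228) (nat_lit 56416165577) (nat_lit 13) (nat_lit 5) (nat_lit 15) (nat_lit 5) (nat_lit 16) (nat_lit 5) (nat_lit 319) (nat_lit 256) (nat_lit 145)))) (XT.nd (nat_lit 78) (nat_lit 76) (nat_lit 0) (XT.lf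 (nat_lit 0) (nat_lit 31868675179) (nat_lit 228) (nat_lit 41033739879) (nat_lit 76) (nat_lit 6882248320) (nat_lit 13) (nat_lit 5) (nat_lit 16) (nat_lit 5) (nat_lit 14) (nat_lit 4) (nat_lit 320) (nat_lit 256) (nat_lit 144)) (XT.nd (nat_lit 78) (nat_lit 76) (nat_lit 0) (XT.lf (nat_lit 0) (nat_lit 44370740039) (nat_lit 228) (nat_lit 15675957817) (nat_lit 76) (nat_lit 23229507414) (nat_lit 13) (nat_lit 5) (nat_lit 16) (nat_lit 5) (nat_lit 14) (nat_lit 4) (nat_lit 321) (nat_lit 256) (nat_lit 143)) (XT.lf (nat_lit 0) (nat_lit 11156739348) (nat_lit 76) (nat_lit 46442122496) (nat_lit 152) (nat_lit 29340439975) (nat_lit 12) (nat_lit 5) (nat_lit 13) (nat_lit 5) (nat_lit 14) (nat_lit 4) (nat_lit 322) (nat_lit 256) (nat_lit 142))))))))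
noncomputable def xc82 : XT := (XT.nd (nat_lit 33618) (nat_lit 0) (nat_lit 3040) (XT.nd (nat_lit 32760) (nat_lit 0) (nat_lit 8968) (XT.nd (nat_lit 32370) (nat_lit 0) (nat_lit 11932) (XT.nd (nat_lit 156) (nat_lit 228) (nat_lit 0) (XT.nd (nat_lit 78) (nat_lit 0) (nat_lit 0) (XT.lf (nat_lit 0) (nat_lit 39648276821) (nat_lit 76) (nat_lit 31995391238) (nat_lit 152) (nat_lit 19137232665) (nat_lit 12) (nat_lit 5) (nat_lit 13) (nat_lit 5) (nat_lit 14) (nat_lit 4) (nat_lit 323) (nat_lit 256) (nat_lit 141)) (XT.lf (nat_lit 0) (nat_lit 69554509295) (nat_lit 76) (nat_lit 16830403540) (nat_lit 152) (nat_lit 8429846388) (nat_lit 12) (nat_lit 5) (nat_lit 13) (nat_lit 5) (nat_lit 14) (nat_lit 4) (nat_lit 324) (nat_lit 256) (nat_lit 140))) (XT.nd (nat_lit 78) (nat_lit 0) (nat_lit 0) (XT.lf (nat_lit 0) (nat_lit 1906375959) (nat_lit 152) (nat_lit 864383094) (nat_lit 228) (nat_lit 96278363392) (nat_lit 9) (nat_lit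 5) (nat_lit 11) (nat_lit 5) (nat_lit 12) (nat_lit 5) (nat_lit 325) (nat_lit 256) (nat_lit 139)) (XT.nd (nat_lit 78) (nat_lit 0) (nat_lit 0) (XT.lf (nat_lit 0) (nat_lit 14768674392) (nat_lit 228) (nat_lit 72778088536) (nat_lit 76) (nat_lit 15933593262) (nat_lit 9) (nat_lit 5) (nat_lit 12) (nat_lit 5) (nat_lit 10) (nat_lit 4) (nat_lit 326) (nat_lit 256) (nat_lit 138)) (XT.lf (nat_lit 0) (nat_lit 27370023860) (nat_lit 228) (nat_lit 47212859968) (nat_lit 76) (nat_lit 33550166339) (nat_lit 9) (nat_lit 5) (nat_lit 12) (nat_lit 5) (nat_lit 10) (nat_lit 4) (nat_lit 327) (nat_lit 256) (nat_lit 137))))) (XT.nd (nat_lit 156) (nat_lit 0) (nat_lit 76) (XT.nd (nat_lit 78) (nat_lit 0) (nat_lit 0) (XT.lf (nat_lit 0) (nat_lit 197558047) (nat_lit 0) (nat_lit 197558047) (nat_lit 988) (nat_lit 4562468735) (nat_lit 166) (nat_lit 5) (nat_lit 166) (nat_lit 3) (nat_lit 179) (nat_lit 3) (nat_lit 257) (nat_lit 257)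 (nat_lit 206)) (XT.lf (nat_lit 0) (nat_lit 1942993231) (nat_lit 988) (nat_lit 2669444490) (nat_lit 1064) (nat_lit 5513872677) (nat_lit 166) (nat_lit 5) (nat_lit 179) (nat_lit 3) (nat_lit 180) (nat_lit 5) (nat_lit 258) (nat_lit 257) (nat_lit 205))) (XT.nd (nat_lit 78) (nat_lit 0) (nat_lit 0) (XT.lf (nat_lit 0) (nat_lit 3146427752) (nat_lit 988) (nat_lit 5790836157) (nat_lit 1064) (nat_lit 1411129129) (nat_lit 167) (nat_lit 5) (nat_lit 180) (nat_lit 5) (nat_lit 181) (nat_lit 5) (nat_lit 259) (nat_lit 257) (nat_lit 204)) (XT.nd (nat_lit 78) (nat_lit 0) (nat_lit 76) (XT.lf (nat_lit 76) (nat_lit 1566195086) (nat_lit 0) (nat_lit 2867678654) (nat_lit 1064) (nat_lit 6147158429) (nat_lit 168) (nat_lit 5) (nat_lit 167) (nat_lit 5) (nat_lit 181) (nat_lit 5) (nat_lit 260) (nat_lit 257) (nat_lit 203)) (XT.lf (nat_lit 0) (nat_lit 5817072966) (nat_lit 988) (nat_lit 1485372128) (nat_lit 1064) (nat_lit 3522076308)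 (nat_lit 168) (nat_lit 5) (nat_lit 181) (nat_lit 5) (nat_lit 182) (nat_lit 5) (nat_lit 261) (nat_lit 257) (nat_lit 202)))))) (XT.nd (nat_lit 390) (nat_lit 2204) (nat_lit 0) (XT.nd (nat_lit 156) (nat_lit 912) (nat_lit 0) (XT.nd (nat_lit 78) (nat_lit 0) (nat_lit 76) (XT.lf (nat_lit 76) (nat_lit 6480304138) (nat_lit 0) (nat_lit 820825084) (nat_lit 1064) (nat_lit 3778256935) (nat_lit 169) (nat_lit 5) (nat_lit 168) (nat_lit 5) (nat_lit 182) (nat_lit 5) (nat_lit 262) (nat_lit 257) (nat_lit 201)) (XT.lf (nat_lit 76) (nat_lit 3500656066) (nat_lit 0) (nat_lit 5408493537) (nat_lit 1064) (nat_lit 2436496444) (nat_lit 170) (nat_lit 5) (nat_lit 169) (nat_lit 5) (nat_lit 183) (nat_lit 5) (nat_lit 263) (nat_lit 257) (nat_lit 200))) (XT.nd (nat_lit 78) (nat_lit 1064) (nat_lit 0) (XT.lf (nat_lit 76) (nat_lit 424359071) (nat_lit 0) (nat_lit 10192326431) (nat_lit 1064) (nat_lit 1008097840) (nat_lit 171) (nat_lit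 5) (nat_lit 170) (nat_lit 5) (nat_lit 184) (nat_lit 5) (nat_lit 264) (nat_lit 257) (nat_lit 199)) (XT.nd (nat_lit 78) (nat_lit 0) (nat_lit 76) (XT.lf (nat_lit 0) (nat_lit 565492272) (nat_lit 1064) (nat_lit 2744067682) (nat_lit 1140) (nat_lit 8605802198) (nat_lit 156) (nat_lit 5) (nat_lit 170) (nat_lit 5) (nat_lit 171) (nat_lit 5) (nat_lit 265) (nat_lit 257) (nat_lit 198)) (XT.lf (nat_lit 0) (nat_lit 2244987348) (nat_lit 1064) (nat_lit 6050116589) (nat_lit 1140) (nat_lit 3923745684) (nat_lit 157) (nat_lit 5) (nat_lit 171) (nat_lit 5) (nat_lit 172) (nat_lit 5) (nat_lit 266) (nat_lit 257) (nat_lit 197))))) (XT.nd (nat_lit 234) (nat_lit 1292) (nat_lit 0) (XT.nd (nat_lit 78) (nat_lit 988) (nat_lit 0) (XT.lf (nat_lit 76) (nat_lit 3035077836) (nat_lit 0) (nat_lit 1016372767) (nat_lit 1140) (nat_lit 8484886665) (nat_lit 158) (nat_lit 5) (nat_lit 157) (nat_lit 5) (nat_lit 172) (nat_lit 5) (nat_lit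 267) (nat_lit 257) (nat_lit 196)) (XT.nd (nat_lit 78) (nat_lit 1064) (nat_lit 0) (XT.lf (nat_lit 0) (nat_lit 6028736538) (nat_lit 1064) (nat_lit 269981499) (nat_lit 76) (nat_lit 6568676376) (nat_lit 158) (nat_lit 5) (nat_lit 172) (nat_lit 5) (nat_lit 159) (nat_lit 5) (nat_lit 268) (nat_lit 257) (nat_lit 195)) (XT.lf (nat_lit 0) (nat_lit 8176613410) (nat_lit 1140) (nat_lit 3664566102) (nat_lit 76) (nat_lit 1371777964) (nat_lit 144) (nat_lit 5) (nat_lit 159) (nat_lit 5) (nat_lit 145) (nat_lit 5) (nat_lit 269) (nat_lit 257) (nat_lit 194)))) (XT.nd (nat_lit 78) (nat_lit 608) (nat_lit 0) (XT.lf (nat_lit 0) (nat_lit 6309817220) (nat_lit 684) (nat_lit 4207008736) (nat_lit 760) (nat_lit 3056524347) (nat_lit 135) (nat_lit 5) (nat_lit 144) (nat_lit 5) (nat_lit 145) (nat_lit 5) (nat_lit 270) (nat_lit 257) (nat_lit 193)) (XT.nd (nat_lit 78) (nat_lit 76) (nat_lit 0) (XT.lf (nat_lit 0) (nat_lit 2890692184)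 (nat_lit 532) (nat_lit 10145457272) (nat_lit 608) (nat_lit 913845415) (nat_lit 128) (nat_lit 5) (nat_lit 135) (nat_lit 5) (nat_lit 136) (nat_lit 5) (nat_lit 271) (nat_lit 257) (nat_lit 192)) (XT.lf (nat_lit 0) (nat_lit 1388574730) (nat_lit 608) (nat_lit 732246721) (nat_lit 76) (nat_lit 12221992591) (nat_lit 127) (nat_lit 5) (nat_lit 135) (nat_lit 5) (nat_lit 128) (nat_lit 5) (nat_lit 272) (nat_lit 257) (nat_lit 191))))))) (XT.nd (nat_lit 780) (nat_lit 2356) (nat_lit 0) (XT.nd (nat_lit 390) (nat_lit 1672) (nat_lit 0) (XT.nd (nat_lit 156) (nat_lit 912) (nat_lit 0) (XT.nd (nat_lit 78) (nat_lit 456) (nat_lit 0) (XT.lf (nat_lit 0) (nat_lit 3910349023) (nat_lit 608) (nat_lit 4548267292) (nat_lit 76) (nat_lit 6292776187) (nat_lit 120) (nat_lit 5) (nat_lit 128) (nat_lit 5) (nat_lit 121) (nat_lit 5) (nat_lit 273) (nat_lit 257) (nat_lit 190)) (XT.lf (nat_lit 0) (nat_lit 6591782727) (nat_lit 456) (nat_lit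 22848839) (nat_lit 532) (nat_lit 8564155500) (nat_lit 114) (nat_lit 5) (nat_lit 120) (nat_lit 5) (nat_lit 121) (nat_lit 5) (nat_lit 274) (nat_lit 257) (nat_lit 189))) (XT.nd (nat_lit 78) (nat_lit 456) (nat_lit 0) (XT.lf (nat_lit 0) (nat_lit 2688970332) (nat_lit 456) (nat_lit 6888628559) (nat_lit 532) (nat_lit 6046324317) (nat_lit 108) (nat_lit 5) (nat_lit 114) (nat_lit 5) (nat_lit 115) (nat_lit 5) (nat_lit 275) (nat_lit 257) (nat_lit 188)) (XT.nd (nat_lit 78) (nat_lit 456) (nat_lit 0) (XT.lf (nat_lit 0) (nat_lit 12762608244) (nat_lit 532) (nat_lit 1435139065) (nat_lit 76) (nat_lit 1891424388) (nat_lit 108) (nat_lit 5) (nat_lit 115) (nat_lit 5) (nat_lit 109) (nat_lit 5) (nat_lit 276) (nat_lit 257) (nat_lit 187)) (XT.lf (nat_lit 0) (nat_lit 10745656580) (nat_lit 456) (nat_lit 5502330512) (nat_lit 532) (nat_lit 325530852) (nat_lit 102) (nat_lit 5) (nat_lit 108) (nat_lit 5) (nat_lit 109) (nat_lit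 5) (nat_lit 277) (nat_lit 257) (nat_lit 186))))) (XT.nd (nat_lit 156) (nat_lit 760) (nat_lit 0) (XT.nd (nat_lit 78) (nat_lit 380) (nat_lit 0) (XT.lf (nat_lit 0) (nat_lit 2853309161) (nat_lit 532) (nat_lit 10565309894) (nat_lit 76) (nat_lit 3660224559) (nat_lit 95) (nat_lit 5) (nat_lit 102) (nat_lit 5) (nat_lit 96) (nat_lit 5) (nat_lit 278) (nat_lit 257) (nat_lit 185)) (XT.lf (nat_lit 0) (nat_lit 1930587838) (nat_lit 380) (nat_lit 4358759053) (nat_lit 456) (nat_lit 11316903017) (nat_lit 90) (nat_lit 5) (nat_lit 95) (nat_lit 5) (nat_lit 96) (nat_lit 5) (nat_lit 279) (nat_lit 257) (nat_lit 184))) (XT.nd (nat_lit 78) (nat_lit 760) (nat_lit 0) (XT.lf (nat_lit 0) (nat_lit 10027873645) (nat_lit 456) (nat_lit 2969045053) (nat_lit 76) (nat_lit 5159244994) (nat_lit 90) (nat_lit 5) (nat_lit 96) (nat_lit 5) (nat_lit 91) (nat_lit 5) (nat_lit 280) (nat_lit 257) (nat_lit 183)) (XT.nd (nat_lit 78) (nat_lit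 380) (nat_lit 0) (XT.lf (nat_lit 0) (nat_lit 10501716477) (nat_lit 380) (nat_lit 3569225053) (nat_lit 456) (nat_lit 4659158229) (nat_lit 85) (nat_lit 5) (nat_lit 90) (nat_lit 5) (nat_lit 91) (nat_lit 5) (nat_lit 281) (nat_lit 257) (nat_lit 182)) (XT.lf (nat_lit 0) (nat_lit 5388246378) (nat_lit 380) (nat_lit 13045050765) (nat_lit 456) (nat_lit 895973875) (nat_lit 80) (nat_lit 5) (nat_lit 85) (nat_lit 5) (nat_lit 86) (nat_lit 5) (nat_lit 282) (nat_lit 257) (nat_lit 181)))))) (XT.nd (nat_lit 390) (nat_lit 1292) (nat_lit 0) (XT.nd (nat_lit 156) (nat_lit 608) (nat_lit 0) (XT.nd (nat_lit 78) (nat_lit 380) (nat_lit 0) (XT.lf (nat_lit 0) (nat_lit 3091599125) (nat_lit 456) (nat_lit 196073535) (nat_lit 76) (nat_lit 16667020022) (nat_lit 79) (nat_lit 5) (nat_lit 85) (nat_lit 5) (nat_lit 80) (nat_lit 5) (nat_lit 283) (nat_lit 257) (nat_lit 180)) (XT.lf (nat_lit 0) (nat_lit 7443180259) (nat_lit 456)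 (nat_lit 6196514402) (nat_lit 76) (nat_lit 6965976008) (nat_lit 74) (nat_lit 5) (nat_lit 80) (nat_lit 5) (nat_lit 75) (nat_lit 5) (nat_lit 284) (nat_lit 257) (nat_lit 179))) (XT.nd (nat_lit 78) (nat_lit 304) (nat_lit 0) (XT.lf (nat_lit 0) (nat_lit 8563546116) (nat_lit 304) (nat_lit 3542672280) (nat_lit 380) (nat_lit 9180206781) (nat_lit 70) (nat_lit 5) (nat_lit 74) (nat_lit 5) (nat_lit 75) (nat_lit 5) (nat_lit 285) (nat_lit 257) (nat_lit 178)) (XT.nd (nat_lit 78) (nat_lit 0) (nat_lit 0) (XT.lf (nat_lit 0) (nat_lit 2135200236) (nat_lit 304) (nat_lit 14997134370) (nat_lit 380) (nat_lit 4865026888) (nat_lit 66) (nat_lit 5) (nat_lit 70) (nat_lit 5) (nat_lit 71) (nat_lit 5) (nat_lit 286) (nat_lit 257) (nat_lit 177)) (XT.lf (nat_lit 0) (nat_lit 17936667855) (nat_lit 304) (nat_lit 4617402142) (nat_lit 380) (nat_lit 185485102) (nat_lit 66) (nat_lit 5) (nat_lit 70) (nat_lit 5) (nat_lit 71) (nat_lit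 5) (nat_lit 287) (nat_lit 257) (nat_lit 176))))) (XT.nd (nat_lit 234) (nat_lit 608) (nat_lit 0) (XT.nd (nat_lit 78) (nat_lit 304) (nat_lit 0) (XT.lf (nat_lit 0) (nat_lit 4783555533) (nat_lit 380) (nat_lit 12423232719) (nat_lit 76) (nat_lit 6306310057) (nat_lit 61) (nat_lit 5) (nat_lit 66) (nat_lit 5) (nat_lit 62) (nat_lit 5) (nat_lit 288) (nat_lit 257) (nat_lit 175)) (XT.nd (nat_lit 78) (nat_lit 0) (nat_lit 0) (XT.lf (nat_lit 0) (nat_lit 3546236437) (nat_lit 304) (nat_lit 6561063467) (nat_lit 380) (nat_lit 14214696159) (nat_lit 57) (nat_lit 5) (nat_lit 61) (nat_lit 5) (nat_lit 62) (nat_lit 5) (nat_lit 289) (nat_lit 257) (nat_lit 174)) (XT.lf (nat_lit 0) (nat_lit 15850844444) (nat_lit 380) (nat_lit 4666909178) (nat_lit 76) (nat_lit 4649010137) (nat_lit 57) (nat_lit 5) (nat_lit 62) (nat_lit 5) (nat_lit 58) (nat_lit 5) (nat_lit 290) (nat_lit 257) (nat_lit 173)))) (XT.nd (nat_lit 78) (nat_lit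 380) (nat_lit 0) (XT.lf (nat_lit 0) (nat_lit 12396832033) (nat_lit 228) (nat_lit 9651150709) (nat_lit 304) (nat_lit 4000826449) (nat_lit 54) (nat_lit 5) (nat_lit 57) (nat_lit 5) (nat_lit 58) (nat_lit 5) (nat_lit 291) (nat_lit 257) (nat_lit 172)) (XT.nd (nat_lit 78) (nat_lit 0) (nat_lit 0) (XT.lf (nat_lit 0) (nat_lit 1630274599) (nat_lit 380) (nat_lit 23526613419) (nat_lit 76) (nat_lit 1815210120) (nat_lit 49) (nat_lit 5) (nat_lit 54) (nat_lit 5) (nat_lit 50) (nat_lit 5) (nat_lit 292) (nat_lit 257) (nat_lit 171)) (XT.lf (nat_lit 0) (nat_lit 7682340819) (nat_lit 380) (nat_lit 6419048936) (nat_lit 76) (nat_lit 13832336856) (nat_lit 49) (nat_lit 5) (nat_lit 54) (nat_lit 5) (nat_lit 50) (nat_lit 5) (nat_lit 293) (nat_lit 257) (nat_lit 170))))))))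
noncomputable def xc83 : XT := (XT.nd (nat_lit 1638) (nat_lit 760) (nat_lit 0) (XT.nd (nat_lit 780) (nat_lit 836) (nat_lit 0) (XT.nd (nat_lit 390) (nat_lit 684) (nat_lit 0) (XT.nd (nat_lit 156) (nat_lit 304) (nat_lit 0) (XT.nd (nat_lit 78) (nat_lit 228) (nat_lit 0) (XT.lf (nat_lit 0) (nat_lit 11748739548) (nat_lit 228) (nat_lit 2384108096) (nat_lit 304) (nat_lit 14807740458) (nat_lit 46) (nat_lit 5) (nat_lit 49) (nat_lit 5) (nat_lit 50) (nat_lit 5) (nat_lit 294) (nat_lit 257) (nat_lit 169)) (XT.lf (nat_lit 0) (nat_lit 859856999) (nat_lit 228) (nat_lit 20199787086) (nat_lit 304) (nat_lit 8933561093) (nat_lit 43) (nat_lit 5) (nat_lit 46) (nat_lit 5) (nat_lit 47) (nat_lit 5) (nat_lit 295) (nat_lit 257) (nat_lit 168))) (XT.nd (nat_lit 78) (nat_lit 304) (nat_lit 0) (XT.lf (nat_lit 0) (nat_lit 20125391137) (nat_lit 228) (nat_lit 8392173812) (nat_lit 304) (nat_lit 2575368848) (nat_lit 43) (nat_lit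 5) (nat_lit 46) (nat_lit 5) (nat_lit 47) (nat_lit 5) (nat_lit 296) (nat_lit 257) (nat_lit 167)) (XT.nd (nat_lit 78) (nat_lit 0) (nat_lit 0) (XT.lf (nat_lit 0) (nat_lit 4123759185) (nat_lit 304) (nat_lit 24079643781) (nat_lit 76) (nat_lit 4039994332) (nat_lit 39) (nat_lit 5) (nat_lit 43) (nat_lit 5) (nat_lit 40) (nat_lit 5) (nat_lit 297) (nat_lit 257) (nat_lit 166)) (XT.lf (nat_lit 0) (nat_lit 11288825084) (nat_lit 304) (nat_lit 5101443818) (nat_lit 76) (nat_lit 17054844125) (nat_lit 39) (nat_lit 5) (nat_lit 43) (nat_lit 5) (nat_lit 40) (nat_lit 5) (nat_lit 298) (nat_lit 257) (nat_lit 165))))) (XT.nd (nat_lit 156) (nat_lit 304) (nat_lit 0) (XT.nd (nat_lit 78) (nat_lit 152) (nat_lit 0) (XT.lf (nat_lit 0) (nat_lit 15098934190) (nat_lit 228) (nat_lit 3844089011) (nat_lit 304) (nat_lit 15759985293) (nat_lit 36) (nat_lit 5) (nat_lit 39) (nat_lit 5) (nat_lit 40) (nat_lit 5) (nat_lit 299) (nat_lit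 257) (nat_lit 164)) (XT.lf (nat_lit 0) (nat_lit 288013462) (nat_lit 152) (nat_lit 26823552353) (nat_lit 228) (nat_lit 8908303234) (nat_lit 34) (nat_lit 5) (nat_lit 36) (nat_lit 5) (nat_lit 37) (nat_lit 5) (nat_lit 300) (nat_lit 257) (nat_lit 163))) (XT.nd (nat_lit 78) (nat_lit 304) (nat_lit 0) (XT.lf (nat_lit 0) (nat_lit 21524287151) (nat_lit 152) (nat_lit 14391087571) (nat_lit 228) (nat_lit 1480411163) (nat_lit 34) (nat_lit 5) (nat_lit 36) (nat_lit 5) (nat_lit 37) (nat_lit 5) (nat_lit 301) (nat_lit 257) (nat_lit 162)) (XT.nd (nat_lit 78) (nat_lit 0) (nat_lit 0) (XT.lf (nat_lit 0) (nat_lit 4998869816) (nat_lit 228) (nat_lit 1231861459) (nat_lit 304) (nat_lit 32606907310) (nat_lit 30) (nat_lit 5) (nat_lit 33) (nat_lit 5) (nat_lit 34) (nat_lit 5) (nat_lit 302) (nat_lit 257) (nat_lit 161)) (XT.lf (nat_lit 0) (nat_lit 14570548221) (nat_lit 304) (nat_lit 13259363924) (nat_lit 76) (nat_lit 12513036241)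 (nat_lit 30) (nat_lit 5) (nat_lit 34) (nat_lit 5) (nat_lit 31) (nat_lit 5) (nat_lit 303) (nat_lit 257) (nat_lit 160)))))) (XT.nd (nat_lit 390) (nat_lit 304) (nat_lit 0) (XT.nd (nat_lit 156) (nat_lit 380) (nat_lit 0) (XT.nd (nat_lit 78) (nat_lit 0) (nat_lit 0) (XT.lf (nat_lit 0) (nat_lit 8483484570) (nat_lit 152) (nat_lit 14925921331) (nat_lit 228) (nat_lit 18511671737) (nat_lit 28) (nat_lit 5) (nat_lit 30) (nat_lit 5) (nat_lit 31) (nat_lit 5) (nat_lit 304) (nat_lit 257) (nat_lit 159)) (XT.lf (nat_lit 0) (nat_lit 31572454951) (nat_lit 152) (nat_lit 1242707115) (nat_lit 228) (nat_lit 10759217339) (nat_lit 28) (nat_lit 5) (nat_lit 30) (nat_lit 5) (nat_lit 31) (nat_lit 5) (nat_lit 305) (nat_lit 257) (nat_lit 158))) (XT.nd (nat_lit 78) (nat_lit 228) (nat_lit 0) (XT.lf (nat_lit 0) (nat_lit 10568062405) (nat_lit 152) (nat_lit 32339844125) (nat_lit 228) (nat_lit 2395952735) (nat_lit 26) (nat_lit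 5) (nat_lit 28) (nat_lit 5) (nat_lit 29) (nat_lit 5) (nat_lit 306) (nat_lit 257) (nat_lit 157)) (XT.nd (nat_lit 78) (nat_lit 152) (nat_lit 0) (XT.lf (nat_lit 0) (nat_lit 6387381985) (nat_lit 228) (nat_lit 12691149906) (nat_lit 76) (nat_lit 28035657442) (nat_lit 25) (nat_lit 5) (nat_lit 28) (nat_lit 5) (nat_lit 26) (nat_lit 5) (nat_lit 307) (nat_lit 257) (nat_lit 156)) (XT.lf (nat_lit 0) (nat_lit 10622399649) (nat_lit 152) (nat_lit 5030211045) (nat_lit 228) (nat_lit 33358957511) (nat_lit 23) (nat_lit 5) (nat_lit 25) (nat_lit 5) (nat_lit 26) (nat_lit 5) (nat_lit 308) (nat_lit 257) (nat_lit 155))))) (XT.nd (nat_lit 234) (nat_lit 152) (nat_lit 0) (XT.nd (nat_lit 78) (nat_lit 152) (nat_lit 0) (XT.lf (nat_lit 0) (nat_lit 25596466697) (nat_lit 228) (nat_lit 15744005302) (nat_lit 76) (nat_lit 9656894804) (nat_lit 23) (nat_lit 5) (nat_lit 26) (nat_lit 5) (nat_lit 24) (nat_lit 5) (nat_lit 309) (nat_lit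 257) (nat_lit 154)) (XT.nd (nat_lit 78) (nat_lit 0) (nat_lit 0) (XT.lf (nat_lit 0) (nat_lit 8125770068) (nat_lit 152) (nat_lit 28031091700) (nat_lit 228) (nat_lit 16922024373) (nat_lit 21) (nat_lit 5) (nat_lit 23) (nat_lit 5) (nat_lit 24) (nat_lit 5) (nat_lit 310) (nat_lit 257) (nat_lit 153)) (XT.lf (nat_lit 0) (nat_lit 33503042188) (nat_lit 152) (nat_lit 13895080195) (nat_lit 228) (nat_lit 7861784354) (nat_lit 21) (nat_lit 5) (nat_lit 23) (nat_lit 5) (nat_lit 24) (nat_lit 5) (nat_lit 311) (nat_lit 257) (nat_lit 152)))) (XT.nd (nat_lit 78) (nat_lit 0) (nat_lit 0) (XT.lf (nat_lit 0) (nat_lit 1645006953) (nat_lit 152) (nat_lit 54938504006) (nat_lit 76) (nat_lit 965228056) (nat_lit 19) (nat_lit 5) (nat_lit 21) (nat_lit 5) (nat_lit 20) (nat_lit 5) (nat_lit 312) (nat_lit 257) (nat_lit 151)) (XT.nd (nat_lit 78) (nat_lit 0) (nat_lit 0) (XT.lf (nat_lit 0) (nat_lit 11823840046) (nat_lit 152) (nat_lit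 31531032693) (nat_lit 76) (nat_lit 16584035498) (nat_lit 19) (nat_lit 5) (nat_lit 21) (nat_lit 5) (nat_lit 20) (nat_lit 5) (nat_lit 313) (nat_lit 257) (nat_lit 150)) (XT.lf (nat_lit 0) (nat_lit 22503379457) (nat_lit 152) (nat_lit 6966776417) (nat_lit 76) (nat_lit 32978686048) (nat_lit 19) (nat_lit 5) (nat_lit 21) (nat_lit 5) (nat_lit 20) (nat_lit 5) (nat_lit 314) (nat_lit 257) (nat_lit 149))))))) (XT.nd (nat_lit 780) (nat_lit 228) (nat_lit 0) (XT.nd (nat_lit 390) (nat_lit 228) (nat_lit 0) (XT.nd (nat_lit 156) (nat_lit 152) (nat_lit 0) (XT.nd (nat_lit 78) (nat_lit 0) (nat_lit 0) (XT.lf (nat_lit 0) (nat_lit 19187161780) (nat_lit 152) (nat_lit 14706329619) (nat_lit 228) (nat_lit 31185491546) (nat_lit 17) (nat_lit 5) (nat_lit 19) (nat_lit 5) (nat_lit 20) (nat_lit 5) (nat_lit 315) (nat_lit 257) (nat_lit 148)) (XT.lf (nat_lit 0) (nat_lit 45925546063) (nat_lit 228) (nat_lit 21065214715) (nat_lit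 76) (nat_lit 847705240) (nat_lit 17) (nat_lit 5) (nat_lit 20) (nat_lit 5) (nat_lit 18) (nat_lit 4) (nat_lit 316) (nat_lit 257) (nat_lit 147))) (XT.nd (nat_lit 78) (nat_lit 76) (nat_lit 0) (XT.lf (nat_lit 0) (nat_lit 4938504550) (nat_lit 76) (nat_lit 53809330718) (nat_lit 152) (nat_lit 11982436749) (nat_lit 16) (nat_lit 5) (nat_lit 17) (nat_lit 5) (nat_lit 18) (nat_lit 4) (nat_lit 317) (nat_lit 257) (nat_lit 146)) (XT.nd (nat_lit 78) (nat_lit 76) (nat_lit 0) (XT.lf (nat_lit 0) (nat_lit 32670808147) (nat_lit 76) (nat_lit 39750236880) (nat_lit 152) (nat_lit 1339336465) (nat_lit 16) (nat_lit 5) (nat_lit 17) (nat_lit 5) (nat_lit 18) (nat_lit 4) (nat_lit 318) (nat_lit 257) (nat_lit 145)) (XT.lf (nat_lit 0) (nat_lit 9637204967) (nat_lit 152) (nat_lit 15258200752) (nat_lit 76) (nat_lit 52043964448) (nat_lit 15) (nat_lit 5) (nat_lit 17) (nat_lit 5) (nat_lit 16) (nat_lit 5) (nat_lit 319) (nat_lit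 257) (nat_lit 144))))) (XT.nd (nat_lit 156) (nat_lit 76) (nat_lit 0) (XT.nd (nat_lit 78) (nat_lit 0) (nat_lit 0) (XT.lf (nat_lit 0) (nat_lit 12076028690) (nat_lit 152) (nat_lit 9168728097) (nat_lit 228) (nat_lit 59028863663) (nat_lit 13) (nat_lit 5) (nat_lit 15) (nat_lit 5) (nat_lit 16) (nat_lit 5) (nat_lit 320) (nat_lit 257) (nat_lit 143)) (XT.lf (nat_lit 0) (nat_lit 33655617102) (nat_lit 228) (nat_lit 42756885089) (nat_lit 76) (nat_lit 7355399299) (nat_lit 13) (nat_lit 5) (nat_lit 16) (nat_lit 5) (nat_lit 14) (nat_lit 4) (nat_lit 321) (nat_lit 257) (nat_lit 142))) (XT.nd (nat_lit 78) (nat_lit 76) (nat_lit 0) (XT.lf (nat_lit 0) (nat_lit 46773570530) (nat_lit 228) (nat_lit 16146858771) (nat_lit 76) (nat_lit 24513876655) (nat_lit 13) (nat_lit 5) (nat_lit 16) (nat_lit 5) (nat_lit 14) (nat_lit 4) (nat_lit 322) (nat_lit 257) (nat_lit 141)) (XT.nd (nat_lit 78) (nat_lit 0) (nat_lit 0) (XT.lf (nat_lit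 0) (nat_lit 12018504125) (nat_lit 76) (nat_lit 48638739961) (nat_lit 152) (nat_lit 30623497486) (nat_lit 12) (nat_lit 5) (nat_lit 13) (nat_lit 5) (nat_lit 14) (nat_lit 4) (nat_lit 323) (nat_lit 257) (nat_lit 140)) (XT.lf (nat_lit 0) (nat_lit 41920145718) (nat_lit 76) (nat_lit 33475647790) (nat_lit 152) (nat_lit 19918890024) (nat_lit 12) (nat_lit 5) (nat_lit 13) (nat_lit 5) (nat_lit 14) (nat_lit 4) (nat_lit 324) (nat_lit 257) (nat_lit 139)))))) (XT.nd (nat_lit 32448) (nat_lit 0) (nat_lit 11172) (XT.nd (nat_lit 156) (nat_lit 0) (nat_lit 0) (XT.nd (nat_lit 78) (nat_lit 228) (nat_lit 0) (XT.lf (nat_lit 0) (nat_lit 73307906242) (nat_lit 76) (nat_lit 17558101803) (nat_lit 152) (nat_lit 8684477494) (nat_lit 12) (nat_lit 5) (nat_lit 13) (nat_lit 5) (nat_lit 14) (nat_lit 4) (nat_lit 325) (nat_lit 257) (nat_lit 138)) (XT.lf (nat_lit 0) (nat_lit 2272774164) (nat_lit 152) (nat_lit 794943052) (nat_lit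 228) (nat_lit 100928964356) (nat_lit 9) (nat_lit 5) (nat_lit 11) (nat_lit 5) (nat_lit 12) (nat_lit 5) (nat_lit 326) (nat_lit 257) (nat_lit 137))) (XT.nd (nat_lit 32136) (nat_lit 0) (nat_lit 11932) (XT.lf (nat_lit 0) (nat_lit 15659015882) (nat_lit 228) (nat_lit 76155189674) (nat_lit 76) (nat_lit 16835473697) (nat_lit 9) (nat_lit 5) (nat_lit 12) (nat_lit 5) (nat_lit 10) (nat_lit 4) (nat_lit 327) (nat_lit 257) (nat_lit 136)) (XT.nd (nat_lit 78) (nat_lit 0) (nat_lit 0) (XT.lf (nat_lit 0) (nat_lit 738487081) (nat_lit 0) (nat_lit 738487081) (nat_lit 988) (nat_lit 3693921403) (nat_lit 166) (nat_lit 5) (nat_lit 166) (nat_lit 3) (nat_lit 179) (nat_lit 3) (nat_lit 258) (nat_lit 258) (nat_lit 204)) (XT.lf (nat_lit 0) (nat_lit 4053471416) (nat_lit 988) (nat_lit 1715822571) (nat_lit 1064) (nat_lit 4797778861) (nat_lit 166) (nat_lit 5) (nat_lit 179) (nat_lit 3) (nat_lit 180) (nat_lit 5) (nat_lit 259)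 (nat_lit 258) (nat_lit 203))))) (XT.nd (nat_lit 234) (nat_lit 836) (nat_lit 0) (XT.nd (nat_lit 78) (nat_lit 0) (nat_lit 0) (XT.lf (nat_lit 0) (nat_lit 5222976093) (nat_lit 988) (nat_lit 4953330098) (nat_lit 1064) (nat_lit 627021868) (nat_lit 167) (nat_lit 5) (nat_lit 180) (nat_lit 5) (nat_lit 181) (nat_lit 5) (nat_lit 260) (nat_lit 258) (nat_lit 202)) (XT.nd (nat_lit 78) (nat_lit 0) (nat_lit 76) (XT.lf (nat_lit 76) (nat_lit 2739246106) (nat_lit 0) (nat_lit 3754679838) (nat_lit 1064) (nat_lit 4556332962) (nat_lit 168) (nat_lit 5) (nat_lit 167) (nat_lit 5) (nat_lit 181) (nat_lit 5) (nat_lit 261) (nat_lit 258) (nat_lit 201)) (XT.lf (nat_lit 0) (nat_lit 7851936530) (nat_lit 988) (nat_lit 453246219) (nat_lit 1064) (nat_lit 3003792885) (nat_lit 168) (nat_lit 5) (nat_lit 181) (nat_lit 5) (nat_lit 182) (nat_lit 5) (nat_lit 262) (nat_lit 258) (nat_lit 200)))) (XT.nd (nat_lit 78) (nat_lit 912) (nat_lit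 0) (XT.lf (nat_lit 76) (nat_lit 7878999284) (nat_lit 0) (nat_lit 1458478706) (nat_lit 1064) (nat_lit 2241499144) (nat_lit 169) (nat_lit 5) (nat_lit 168) (nat_lit 5) (nat_lit 182) (nat_lit 5) (nat_lit 263) (nat_lit 258) (nat_lit 199)) (XT.nd (nat_lit 78) (nat_lit 988) (nat_lit 0) (XT.lf (nat_lit 76) (nat_lit 4777953520) (nat_lit 0) (nat_lit 6173494256) (nat_lit 1064) (nat_lit 909537675) (nat_lit 170) (nat_lit 5) (nat_lit 169) (nat_lit 5) (nat_lit 183) (nat_lit 5) (nat_lit 264) (nat_lit 258) (nat_lit 198)) (XT.lf (nat_lit 0) (nat_lit 508136768) (nat_lit 1064) (nat_lit 10590028673) (nat_lit 1140) (nat_lit 1058049384) (nat_lit 156) (nat_lit 5) (nat_lit 170) (nat_lit 5) (nat_lit 171) (nat_lit 5) (nat_lit 265) (nat_lit 258) (nat_lit 197))))))))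
noncomputable def xc84 : XT := (XT.nd (nat_lit 1638) (nat_lit 3344) (nat_lit 0) (XT.nd (nat_lit 780) (nat_lit 3344) (nat_lit 0) (XT.nd (nat_lit 390) (nat_lit 2280) (nat_lit 0) (XT.nd (nat_lit 156) (nat_lit 912) (nat_lit 0) (XT.nd (nat_lit 78) (nat_lit 0) (nat_lit 76) (XT.lf (nat_lit 0) (nat_lit 2066132886) (nat_lit 1064) (nat_lit 1776278841) (nat_lit 1140) (nat_lit 8620991929) (nat_lit 156) (nat_lit 5) (nat_lit 170) (nat_lit 5) (nat_lit 171) (nat_lit 5) (nat_lit 266) (nat_lit 258) (nat_lit 196)) (XT.lf (nat_lit 0) (nat_lit 3766546330) (nat_lit 1064) (nat_lit 5230280037) (nat_lit 1140) (nat_lit 3787300137) (nat_lit 157) (nat_lit 5) (nat_lit 171) (nat_lit 5) (nat_lit 172) (nat_lit 5) (nat_lit 267) (nat_lit 258) (nat_lit 195))) (XT.nd (nat_lit 78) (nat_lit 988) (nat_lit 0) (XT.lf (nat_lit 76) (nat_lit 4277002390) (nat_lit 0) (nat_lit 1329699763) (nat_lit 1140) (nat_lit 7512646552) (nat_lit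 158) (nat_lit 5) (nat_lit 157) (nat_lit 5) (nat_lit 172) (nat_lit 5) (nat_lit 268) (nat_lit 258) (nat_lit 194)) (XT.nd (nat_lit 78) (nat_lit 0) (nat_lit 0) (XT.lf (nat_lit 0) (nat_lit 814799555) (nat_lit 1064) (nat_lit 6809068665) (nat_lit 1140) (nat_lit 5845013586) (nat_lit 144) (nat_lit 5) (nat_lit 158) (nat_lit 5) (nat_lit 159) (nat_lit 5) (nat_lit 269) (nat_lit 258) (nat_lit 193)) (XT.lf (nat_lit 0) (nat_lit 9818418508) (nat_lit 1140) (nat_lit 2754710043) (nat_lit 76) (nat_lit 1260562346) (nat_lit 144) (nat_lit 5) (nat_lit 159) (nat_lit 5) (nat_lit 145) (nat_lit 5) (nat_lit 270) (nat_lit 258) (nat_lit 192))))) (XT.nd (nat_lit 156) (nat_lit 988) (nat_lit 0) (XT.nd (nat_lit 78) (nat_lit 608) (nat_lit 0) (XT.lf (nat_lit 0) (nat_lit 7687059402) (nat_lit 684) (nat_lit 4540075414) (nat_lit 760) (nat_lit 1986563050) (nat_lit 135) (nat_lit 5) (nat_lit 144) (nat_lit 5) (nat_lit 145) (nat_lit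 5) (nat_lit 271) (nat_lit 258) (nat_lit 191)) (XT.lf (nat_lit 0) (nat_lit 210270822) (nat_lit 608) (nat_lit 10507875580) (nat_lit 76) (nat_lit 3892516407) (nat_lit 127) (nat_lit 5) (nat_lit 135) (nat_lit 5) (nat_lit 128) (nat_lit 5) (nat_lit 272) (nat_lit 258) (nat_lit 190))) (XT.nd (nat_lit 78) (nat_lit 456) (nat_lit 0) (XT.lf (nat_lit 0) (nat_lit 279614931) (nat_lit 532) (nat_lit 2277347291) (nat_lit 608) (nat_lit 12467570444) (nat_lit 120) (nat_lit 5) (nat_lit 127) (nat_lit 5) (nat_lit 128) (nat_lit 5) (nat_lit 273) (nat_lit 258) (nat_lit 189)) (XT.nd (nat_lit 78) (nat_lit 456) (nat_lit 0) (XT.lf (nat_lit 0) (nat_lit 5159281647) (nat_lit 608) (nat_lit 3728219072) (nat_lit 76) (nat_lit 6567522462) (nat_lit 120) (nat_lit 5) (nat_lit 128) (nat_lit 5) (nat_lit 121) (nat_lit 5) (nat_lit 274) (nat_lit 258) (nat_lit 188)) (XT.lf (nat_lit 0) (nat_lit 7938808172) (nat_lit 456) (nat_lit 19587738)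 (nat_lit 532) (nat_lit 7946714296) (nat_lit 114) (nat_lit 5) (nat_lit 120) (nat_lit 5) (nat_lit 121) (nat_lit 5) (nat_lit 275) (nat_lit 258) (nat_lit 187)))))) (XT.nd (nat_lit 390) (nat_lit 1520) (nat_lit 0) (XT.nd (nat_lit 156) (nat_lit 1368) (nat_lit 0) (XT.nd (nat_lit 78) (nat_lit 0) (nat_lit 0) (XT.lf (nat_lit 0) (nat_lit 3843330709) (nat_lit 456) (nat_lit 7187785567) (nat_lit 532) (nat_lit 5342644702) (nat_lit 108) (nat_lit 5) (nat_lit 114) (nat_lit 5) (nat_lit 115) (nat_lit 5) (nat_lit 276) (nat_lit 258) (nat_lit 186)) (XT.lf (nat_lit 0) (nat_lit 14329379271) (nat_lit 532) (nat_lit 506100737) (nat_lit 76) (nat_lit 2028272705) (nat_lit 108) (nat_lit 5) (nat_lit 115) (nat_lit 5) (nat_lit 109) (nat_lit 5) (nat_lit 277) (nat_lit 258) (nat_lit 185))) (XT.nd (nat_lit 78) (nat_lit 836) (nat_lit 0) (XT.lf (nat_lit 0) (nat_lit 569360503) (nat_lit 532) (nat_lit 5123993552) (nat_lit 76) (nat_lit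 11679937166) (nat_lit 101) (nat_lit 5) (nat_lit 108) (nat_lit 5) (nat_lit 102) (nat_lit 5) (nat_lit 278) (nat_lit 258) (nat_lit 184)) (XT.nd (nat_lit 78) (nat_lit 380) (nat_lit 0) (XT.lf (nat_lit 0) (nat_lit 3867555977) (nat_lit 532) (nat_lit 10103029442) (nat_lit 76) (nat_lit 3934275554) (nat_lit 95) (nat_lit 5) (nat_lit 102) (nat_lit 5) (nat_lit 96) (nat_lit 5) (nat_lit 279) (nat_lit 258) (nat_lit 183)) (XT.lf (nat_lit 0) (nat_lit 2989269376) (nat_lit 380) (nat_lit 4453871139) (nat_lit 456) (nat_lit 11016549357) (nat_lit 90) (nat_lit 5) (nat_lit 95) (nat_lit 5) (nat_lit 96) (nat_lit 5) (nat_lit 280) (nat_lit 258) (nat_lit 182))))) (XT.nd (nat_lit 234) (nat_lit 760) (nat_lit 0) (XT.nd (nat_lit 78) (nat_lit 760) (nat_lit 0) (XT.lf (nat_lit 0) (nat_lit 11329750143) (nat_lit 456) (nat_lit 2176693496) (nat_lit 76) (nat_lit 5531901616) (nat_lit 90) (nat_lit 5) (nat_lit 96) (nat_lit 5) (nat_lit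 91) (nat_lit 5) (nat_lit 281) (nat_lit 258) (nat_lit 181)) (XT.nd (nat_lit 78) (nat_lit 380) (nat_lit 0) (XT.lf (nat_lit 0) (nat_lit 11940638159) (nat_lit 380) (nat_lit 3604999384) (nat_lit 456) (nat_lit 4096297369) (nat_lit 85) (nat_lit 5) (nat_lit 90) (nat_lit 5) (nat_lit 91) (nat_lit 5) (nat_lit 282) (nat_lit 258) (nat_lit 180)) (XT.lf (nat_lit 0) (nat_lit 6567930036) (nat_lit 380) (nat_lit 13531515886) (nat_lit 456) (nat_lit 172491873) (nat_lit 80) (nat_lit 5) (nat_lit 85) (nat_lit 5) (nat_lit 86) (nat_lit 5) (nat_lit 283) (nat_lit 258) (nat_lit 179)))) (XT.nd (nat_lit 78) (nat_lit 304) (nat_lit 0) (XT.lf (nat_lit 0) (nat_lit 690145176) (nat_lit 380) (nat_lit 3280085880) (nat_lit 456) (nat_lit 16959122637) (nat_lit 74) (nat_lit 5) (nat_lit 79) (nat_lit 5) (nat_lit 80) (nat_lit 5) (nat_lit 284) (nat_lit 258) (nat_lit 178)) (XT.nd (nat_lit 78) (nat_lit 304) (nat_lit 0) (XT.lf (nat_lit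 0) (nat_lit 8508428271) (nat_lit 456) (nat_lit 5628644071) (nat_lit 76) (nat_lit 7476801511) (nat_lit 74) (nat_lit 5) (nat_lit 80) (nat_lit 5) (nat_lit 75) (nat_lit 5) (nat_lit 285) (nat_lit 258) (nat_lit 177)) (XT.lf (nat_lit 0) (nat_lit 9844260492) (nat_lit 304) (nat_lit 3535548693) (nat_lit 380) (nat_lit 8949662495) (nat_lit 70) (nat_lit 5) (nat_lit 74) (nat_lit 5) (nat_lit 75) (nat_lit 5) (nat_lit 286) (nat_lit 258) (nat_lit 176))))))) (XT.nd (nat_lit 780) (nat_lit 1292) (nat_lit 0) (XT.nd (nat_lit 390) (nat_lit 1064) (nat_lit 0) (XT.nd (nat_lit 156) (nat_lit 608) (nat_lit 0) (XT.nd (nat_lit 78) (nat_lit 76) (nat_lit 0) (XT.lf (nat_lit 0) (nat_lit 3089004012) (nat_lit 304) (nat_lit 15546233496) (nat_lit 380) (nat_lit 4441435514) (nat_lit 66) (nat_lit 5) (nat_lit 70) (nat_lit 5) (nat_lit 71) (nat_lit 5) (nat_lit 287) (nat_lit 258) (nat_lit 175)) (XT.lf (nat_lit 0) (nat_lit 431736541)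 (nat_lit 380) (nat_lit 4220978308) (nat_lit 76) (nat_lit 19204113360) (nat_lit 65) (nat_lit 5) (nat_lit 70) (nat_lit 5) (nat_lit 66) (nat_lit 5) (nat_lit 288) (nat_lit 258) (nat_lit 174))) (XT.nd (nat_lit 78) (nat_lit 304) (nat_lit 0) (XT.lf (nat_lit 0) (nat_lit 5625318455) (nat_lit 380) (nat_lit 12230557747) (nat_lit 76) (nat_lit 6813770948) (nat_lit 61) (nat_lit 5) (nat_lit 66) (nat_lit 5) (nat_lit 62) (nat_lit 5) (nat_lit 289) (nat_lit 258) (nat_lit 173)) (XT.nd (nat_lit 78) (nat_lit 0) (nat_lit 0) (XT.lf (nat_lit 0) (nat_lit 4514056405) (nat_lit 304) (nat_lit 6680097957) (nat_lit 380) (nat_lit 14325517277) (nat_lit 57) (nat_lit 5) (nat_lit 61) (nat_lit 5) (nat_lit 62) (nat_lit 5) (nat_lit 290) (nat_lit 258) (nat_lit 172)) (XT.lf (nat_lit 0) (nat_lit 17199099693) (nat_lit 380) (nat_lit 4131756391) (nat_lit 76) (nat_lit 5076641573) (nat_lit 57) (nat_lit 5) (nat_lit 62) (nat_lit 5) (nat_lit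 58) (nat_lit 5) (nat_lit 291) (nat_lit 258) (nat_lit 171))))) (XT.nd (nat_lit 156) (nat_lit 456) (nat_lit 0) (XT.nd (nat_lit 78) (nat_lit 380) (nat_lit 0) (XT.lf (nat_lit 0) (nat_lit 13763143032) (nat_lit 228) (nat_lit 9923664869) (nat_lit 304) (nat_lit 3647460494) (nat_lit 54) (nat_lit 5) (nat_lit 57) (nat_lit 5) (nat_lit 58) (nat_lit 5) (nat_lit 292) (nat_lit 258) (nat_lit 170)) (XT.lf (nat_lit 0) (nat_lit 2237680034) (nat_lit 380) (nat_lit 23952050989) (nat_lit 76) (nat_lit 2114373749) (nat_lit 49) (nat_lit 5) (nat_lit 54) (nat_lit 5) (nat_lit 50) (nat_lit 5) (nat_lit 293) (nat_lit 258) (nat_lit 169))) (XT.nd (nat_lit 78) (nat_lit 456) (nat_lit 0) (XT.lf (nat_lit 0) (nat_lit 8567307104) (nat_lit 380) (nat_lit 6024865097) (nat_lit 76) (nat_lit 14722432864) (nat_lit 49) (nat_lit 5) (nat_lit 54) (nat_lit 5) (nat_lit 50) (nat_lit 5) (nat_lit 294) (nat_lit 258) (nat_lit 168)) (XT.nd (nat_lit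 78) (nat_lit 228) (nat_lit 0) (XT.lf (nat_lit 0) (nat_lit 13030813574) (nat_lit 228) (nat_lit 2292353007) (nat_lit 304) (nat_lit 15049195485) (nat_lit 46) (nat_lit 5) (nat_lit 49) (nat_lit 5) (nat_lit 50) (nat_lit 5) (nat_lit 295) (nat_lit 258) (nat_lit 167)) (XT.lf (nat_lit 0) (nat_lit 1590423659) (nat_lit 228) (nat_lit 20991387664) (nat_lit 304) (nat_lit 8896268902) (nat_lit 43) (nat_lit 5) (nat_lit 46) (nat_lit 5) (nat_lit 47) (nat_lit 5) (nat_lit 296) (nat_lit 258) (nat_lit 166)))))) (XT.nd (nat_lit 390) (nat_lit 608) (nat_lit 0) (XT.nd (nat_lit 156) (nat_lit 380) (nat_lit 0) (XT.nd (nat_lit 78) (nat_lit 304) (nat_lit 0) (XT.lf (nat_lit 0) (nat_lit 21786492894) (nat_lit 228) (nat_lit 8603793191) (nat_lit 304) (nat_lit 2243213247) (nat_lit 43) (nat_lit 5) (nat_lit 46) (nat_lit 5) (nat_lit 47) (nat_lit 5) (nat_lit 297) (nat_lit 258) (nat_lit 165)) (XT.lf (nat_lit 0) (nat_lit 4768568078)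 (nat_lit 304) (nat_lit 24626474541) (nat_lit 76) (nat_lit 4446740980) (nat_lit 39) (nat_lit 5) (nat_lit 43) (nat_lit 5) (nat_lit 40) (nat_lit 5) (nat_lit 298) (nat_lit 258) (nat_lit 164))) (XT.nd (nat_lit 78) (nat_lit 380) (nat_lit 0) (XT.lf (nat_lit 0) (nat_lit 12271000560) (nat_lit 304) (nat_lit 4730657506) (nat_lit 76) (nat_lit 18102583409) (nat_lit 39) (nat_lit 5) (nat_lit 43) (nat_lit 5) (nat_lit 40) (nat_lit 5) (nat_lit 299) (nat_lit 258) (nat_lit 163)) (XT.nd (nat_lit 78) (nat_lit 152) (nat_lit 0) (XT.lf (nat_lit 0) (nat_lit 16461799295) (nat_lit 228) (nat_lit 3832060867) (nat_lit 304) (nat_lit 16131621349) (nat_lit 36) (nat_lit 5) (nat_lit 39) (nat_lit 5) (nat_lit 40) (nat_lit 5) (nat_lit 300) (nat_lit 258) (nat_lit 162)) (XT.lf (nat_lit 0) (nat_lit 903313751) (nat_lit 152) (nat_lit 27955938958) (nat_lit 228) (nat_lit 8949306691) (nat_lit 34) (nat_lit 5) (nat_lit 36) (nat_lit 5)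 (nat_lit 37) (nat_lit 5) (nat_lit 301) (nat_lit 258) (nat_lit 161))))) (XT.nd (nat_lit 234) (nat_lit 304) (nat_lit 0) (XT.nd (nat_lit 78) (nat_lit 304) (nat_lit 0) (XT.lf (nat_lit 0) (nat_lit 23172786858) (nat_lit 152) (nat_lit 14911793366) (nat_lit 228) (nat_lit 1169277717) (nat_lit 34) (nat_lit 5) (nat_lit 36) (nat_lit 5) (nat_lit 37) (nat_lit 5) (nat_lit 302) (nat_lit 258) (nat_lit 160)) (XT.nd (nat_lit 78) (nat_lit 0) (nat_lit 0) (XT.lf (nat_lit 0) (nat_lit 5812479368) (nat_lit 228) (nat_lit 1094862262) (nat_lit 304) (nat_lit 33860751279) (nat_lit 30) (nat_lit 5) (nat_lit 33) (nat_lit 5) (nat_lit 34) (nat_lit 5) (nat_lit 303) (nat_lit 258) (nat_lit 159)) (XT.lf (nat_lit 0) (nat_lit 15648583044) (nat_lit 304) (nat_lit 13376441953) (nat_lit 76) (nat_lit 13324132833) (nat_lit 30) (nat_lit 5) (nat_lit 34) (nat_lit 5) (nat_lit 31) (nat_lit 5) (nat_lit 304) (nat_lit 258) (nat_lit 158)))) (XT.nd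 (nat_lit 78) (nat_lit 152) (nat_lit 0) (XT.lf (nat_lit 0) (nat_lit 9437901134) (nat_lit 152) (nat_lit 15479936277) (nat_lit 228) (nat_lit 19088724079) (nat_lit 28) (nat_lit 5) (nat_lit 30) (nat_lit 5) (nat_lit 31) (nat_lit 5) (nat_lit 305) (nat_lit 258) (nat_lit 157)) (XT.nd (nat_lit 78) (nat_lit 152) (nat_lit 0) (XT.lf (nat_lit 0) (nat_lit 33656070399) (nat_lit 152) (nat_lit 1121717594) (nat_lit 228) (nat_lit 10965243687) (nat_lit 28) (nat_lit 5) (nat_lit 30) (nat_lit 5) (nat_lit 31) (nat_lit 5) (nat_lit 306) (nat_lit 258) (nat_lit 156)) (XT.lf (nat_lit 0) (nat_lit 11595050998) (nat_lit 152) (nat_lit 33771260836) (nat_lit 228) (nat_lit 2192958990) (nat_lit 26) (nat_lit 5) (nat_lit 28) (nat_lit 5) (nat_lit 29) (nat_lit 5) (nat_lit 307) (nat_lit 258) (nat_lit 155))))))))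
noncomputable def xc85 : XT := (XT.nd (nat_lit 33852) (nat_lit 0) (nat_lit 5928) (XT.nd (nat_lit 780) (nat_lit 380) (nat_lit 0) (XT.nd (nat_lit 390) (nat_lit 304) (nat_lit 0) (XT.nd (nat_lit 156) (nat_lit 152) (nat_lit 0) (XT.nd (nat_lit 78) (nat_lit 152) (nat_lit 0) (XT.lf (nat_lit 0) (nat_lit 7008172570) (nat_lit 228) (nat_lit 12844503583) (nat_lit 76) (nat_lit 29607818370) (nat_lit 25) (nat_lit 5) (nat_lit 28) (nat_lit 5) (nat_lit 26) (nat_lit 5) (nat_lit 308) (nat_lit 258) (nat_lit 154)) (XT.lf (nat_lit 0) (nat_lit 11620929838) (nat_lit 152) (nat_lit 5105872504) (nat_lit 228) (nat_lit 34726253028) (nat_lit 23) (nat_lit 5) (nat_lit 25) (nat_lit 5) (nat_lit 26) (nat_lit 5) (nat_lit 309) (nat_lit 258) (nat_lit 153))) (XT.nd (nat_lit 78) (nat_lit 152) (nat_lit 0) (XT.lf (nat_lit 0) (nat_lit 27155577158) (nat_lit 228) (nat_lit 16079004535) (nat_lit 76) (nat_lit 10303946825) (nat_lit 23) (nat_lit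 5) (nat_lit 26) (nat_lit 5) (nat_lit 24) (nat_lit 5) (nat_lit 310) (nat_lit 258) (nat_lit 152)) (XT.nd (nat_lit 78) (nat_lit 0) (nat_lit 0) (XT.lf (nat_lit 0) (nat_lit 8971297351) (nat_lit 152) (nat_lit 29263617477) (nat_lit 228) (nat_lit 17489496929) (nat_lit 21) (nat_lit 5) (nat_lit 23) (nat_lit 5) (nat_lit 24) (nat_lit 5) (nat_lit 311) (nat_lit 258) (nat_lit 151)) (XT.lf (nat_lit 0) (nat_lit 35596516945) (nat_lit 152) (nat_lit 14428854387) (nat_lit 228) (nat_lit 7989512941) (nat_lit 21) (nat_lit 5) (nat_lit 23) (nat_lit 5) (nat_lit 24) (nat_lit 5) (nat_lit 312) (nat_lit 258) (nat_lit 150))))) (XT.nd (nat_lit 156) (nat_lit 152) (nat_lit 0) (XT.nd (nat_lit 78) (nat_lit 0) (nat_lit 0) (XT.lf (nat_lit 0) (nat_lit 1980544080) (nat_lit 152) (nat_lit 57267496802) (nat_lit 76) (nat_lit 1170261385) (nat_lit 19) (nat_lit 5) (nat_lit 21) (nat_lit 5) (nat_lit 20) (nat_lit 5) (nat_lit 313) (nat_lit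 258) (nat_lit 149)) (XT.lf (nat_lit 0) (nat_lit 12656257552) (nat_lit 152) (nat_lit 32709553466) (nat_lit 76) (nat_lit 17562543869) (nat_lit 19) (nat_lit 5) (nat_lit 21) (nat_lit 5) (nat_lit 20) (nat_lit 5) (nat_lit 314) (nat_lit 258) (nat_lit 148))) (XT.nd (nat_lit 78) (nat_lit 152) (nat_lit 0) (XT.lf (nat_lit 0) (nat_lit 23858287006) (nat_lit 152) (nat_lit 6936038227) (nat_lit 76) (nat_lit 34769817110) (nat_lit 19) (nat_lit 5) (nat_lit 21) (nat_lit 5) (nat_lit 20) (nat_lit 5) (nat_lit 315) (nat_lit 258) (nat_lit 147)) (XT.nd (nat_lit 78) (nat_lit 0) (nat_lit 0) (XT.lf (nat_lit 0) (nat_lit 20514730714) (nat_lit 152) (nat_lit 15295773366) (nat_lit 228) (nat_lit 32515520231) (nat_lit 17) (nat_lit 5) (nat_lit 19) (nat_lit 5) (nat_lit 20) (nat_lit 5) (nat_lit 316) (nat_lit 258) (nat_lit 146)) (XT.lf (nat_lit 0) (nat_lit 48434909394) (nat_lit 228) (nat_lit 21762555062) (nat_lit 76) (nat_lit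 1026305961) (nat_lit 17) (nat_lit 5) (nat_lit 20) (nat_lit 5) (nat_lit 18) (nat_lit 4) (nat_lit 317) (nat_lit 258) (nat_lit 145)))))) (XT.nd (nat_lit 390) (nat_lit 76) (nat_lit 0) (XT.nd (nat_lit 156) (nat_lit 228) (nat_lit 0) (XT.nd (nat_lit 78) (nat_lit 0) (nat_lit 0) (XT.lf (nat_lit 0) (nat_lit 5531147780) (nat_lit 76) (nat_lit 56360341579) (nat_lit 152) (nat_lit 12368892845) (nat_lit 16) (nat_lit 5) (nat_lit 17) (nat_lit 5) (nat_lit 18) (nat_lit 4) (nat_lit 318) (nat_lit 258) (nat_lit 144)) (XT.lf (nat_lit 0) (nat_lit 34633603794) (nat_lit 76) (nat_lit 41604933795) (nat_lit 152) (nat_lit 1203764488) (nat_lit 16) (nat_lit 5) (nat_lit 17) (nat_lit 5) (nat_lit 18) (nat_lit 4) (nat_lit 319) (nat_lit 258) (nat_lit 143))) (XT.nd (nat_lit 78) (nat_lit 152) (nat_lit 0) (XT.lf (nat_lit 0) (nat_lit 10308195254) (nat_lit 152) (nat_lit 15703580501) (nat_lit 76) (nat_lit 54768699209) (nat_lit 15)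 (nat_lit 5) (nat_lit 17) (nat_lit 5) (nat_lit 16) (nat_lit 5) (nat_lit 320) (nat_lit 258) (nat_lit 142)) (XT.nd (nat_lit 78) (nat_lit 0) (nat_lit 0) (XT.lf (nat_lit 0) (nat_lit 12988258471) (nat_lit 152) (nat_lit 9501824803) (nat_lit 228) (nat_lit 61791544767) (nat_lit 13) (nat_lit 5) (nat_lit 15) (nat_lit 5) (nat_lit 16) (nat_lit 5) (nat_lit 321) (nat_lit 258) (nat_lit 141)) (XT.lf (nat_lit 0) (nat_lit 35513915566) (nat_lit 228) (nat_lit 44596732261) (nat_lit 76) (nat_lit 7840211046) (nat_lit 13) (nat_lit 5) (nat_lit 16) (nat_lit 5) (nat_lit 14) (nat_lit 4) (nat_lit 322) (nat_lit 258) (nat_lit 140))))) (XT.nd (nat_lit 234) (nat_lit 0) (nat_lit 0) (XT.nd (nat_lit 78) (nat_lit 76) (nat_lit 0) (XT.lf (nat_lit 0) (nat_lit 49279408684) (nat_lit 228) (nat_lit 16670394965) (nat_lit 76) (nat_lit 25851038851) (nat_lit 13) (nat_lit 5) (nat_lit 16) (nat_lit 5) (nat_lit 14) (nat_lit 4) (nat_lit 323)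 (nat_lit 258) (nat_lit 139)) (XT.nd (nat_lit 78) (nat_lit 0) (nat_lit 0) (XT.lf (nat_lit 0) (nat_lit 12895100813) (nat_lit 76) (nat_lit 50956855045) (nat_lit 152) (nat_lit 31987811147) (nat_lit 12) (nat_lit 5) (nat_lit 13) (nat_lit 5) (nat_lit 14) (nat_lit 4) (nat_lit 324) (nat_lit 258) (nat_lit 138)) (XT.lf (nat_lit 0) (nat_lit 44278697272) (nat_lit 76) (nat_lit 35041028357) (nat_lit 152) (nat_lit 20755919084) (nat_lit 12) (nat_lit 5) (nat_lit 13) (nat_lit 5) (nat_lit 14) (nat_lit 4) (nat_lit 325) (nat_lit 258) (nat_lit 137)))) (XT.nd (nat_lit 32292) (nat_lit 0) (nat_lit 11704) (XT.lf (nat_lit 0) (nat_lit 77223343714) (nat_lit 76) (nat_lit 18332767062) (nat_lit 152) (nat_lit 8967353330) (nat_lit 12) (nat_lit 5) (nat_lit 13) (nat_lit 5) (nat_lit 14) (nat_lit 4) (nat_lit 326) (nat_lit 258) (nat_lit 136)) (XT.nd (nat_lit 78) (nat_lit 0) (nat_lit 0) (XT.lf (nat_lit 0) (nat_lit 1257090467) (nat_lit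 0) (nat_lit 1257090467) (nat_lit 988) (nat_lit 2883904758) (nat_lit 166) (nat_lit 5) (nat_lit 166) (nat_lit 3) (nat_lit 179) (nat_lit 3) (nat_lit 259) (nat_lit 259) (nat_lit 202)) (XT.lf (nat_lit 0) (nat_lit 6082293308) (nat_lit 988) (nat_lit 815587266) (nat_lit 1064) (nat_lit 4138087350) (nat_lit 166) (nat_lit 5) (nat_lit 179) (nat_lit 3) (nat_lit 180) (nat_lit 5) (nat_lit 260) (nat_lit 259) (nat_lit 201))))))) (XT.nd (nat_lit 780) (nat_lit 4104) (nat_lit 0) (XT.nd (nat_lit 390) (nat_lit 836) (nat_lit 0) (XT.nd (nat_lit 156) (nat_lit 836) (nat_lit 0) (XT.nd (nat_lit 78) (nat_lit 0) (nat_lit 76) (XT.lf (nat_lit 76) (nat_lit 7106908320) (nat_lit 0) (nat_lit 119157414) (nat_lit 1064) (nat_lit 4060718964) (nat_lit 167) (nat_lit 5) (nat_lit 166) (nat_lit 5) (nat_lit 180) (nat_lit 5) (nat_lit 261) (nat_lit 259) (nat_lit 200)) (XT.lf (nat_lit 76) (nat_lit 3869171011) (nat_lit 0) (nat_lit 4616896597)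 (nat_lit 1064) (nat_lit 3062441321) (nat_lit 168) (nat_lit 5) (nat_lit 167) (nat_lit 5) (nat_lit 181) (nat_lit 5) (nat_lit 262) (nat_lit 259) (nat_lit 199))) (XT.nd (nat_lit 78) (nat_lit 988) (nat_lit 0) (XT.lf (nat_lit 76) (nat_lit 538124660) (nat_lit 0) (nat_lit 9293449885) (nat_lit 1064) (nat_lit 1991200958) (nat_lit 169) (nat_lit 5) (nat_lit 168) (nat_lit 5) (nat_lit 182) (nat_lit 5) (nat_lit 263) (nat_lit 259) (nat_lit 198)) (XT.nd (nat_lit 78) (nat_lit 988) (nat_lit 0) (XT.lf (nat_lit 76) (nat_lit 9247715633) (nat_lit 0) (nat_lit 2072547646) (nat_lit 1064) (nat_lit 788339964) (nat_lit 169) (nat_lit 5) (nat_lit 168) (nat_lit 5) (nat_lit 182) (nat_lit 5) (nat_lit 264) (nat_lit 259) (nat_lit 197)) (XT.lf (nat_lit 0) (nat_lit 529934034) (nat_lit 1064) (nat_lit 6395478688) (nat_lit 1140) (nat_lit 5481352399) (nat_lit 155) (nat_lit 5) (nat_lit 169) (nat_lit 5) (nat_lit 170) (nat_lit 5) (nat_lit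 265) (nat_lit 259) (nat_lit 196))))) (XT.nd (nat_lit 156) (nat_lit 912) (nat_lit 0) (XT.nd (nat_lit 78) (nat_lit 0) (nat_lit 0) (XT.lf (nat_lit 0) (nat_lit 1935796939) (nat_lit 1064) (nat_lit 10067156559) (nat_lit 1140) (nat_lit 715618159) (nat_lit 156) (nat_lit 5) (nat_lit 170) (nat_lit 5) (nat_lit 171) (nat_lit 5) (nat_lit 266) (nat_lit 259) (nat_lit 195)) (XT.lf (nat_lit 0) (nat_lit 3504918895) (nat_lit 1064) (nat_lit 862832261) (nat_lit 1140) (nat_lit 8675533246) (nat_lit 156) (nat_lit 5) (nat_lit 170) (nat_lit 5) (nat_lit 171) (nat_lit 5) (nat_lit 267) (nat_lit 259) (nat_lit 194))) (XT.nd (nat_lit 78) (nat_lit 988) (nat_lit 0) (XT.lf (nat_lit 0) (nat_lit 5233159012) (nat_lit 1064) (nat_lit 4473796415) (nat_lit 1140) (nat_lit 3674957361) (nat_lit 157) (nat_lit 5) (nat_lit 171) (nat_lit 5) (nat_lit 172) (nat_lit 5) (nat_lit 268) (nat_lit 259) (nat_lit 193)) (XT.nd (nat_lit 78) (nat_lit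 988) (nat_lit 0) (XT.lf (nat_lit 76) (nat_lit 5479669436) (nat_lit 0) (nat_lit 1634287571) (nat_lit 1140) (nat_lit 6621626320) (nat_lit 158) (nat_lit 5) (nat_lit 157) (nat_lit 5) (nat_lit 172) (nat_lit 5) (nat_lit 269) (nat_lit 259) (nat_lit 192)) (XT.lf (nat_lit 0) (nat_lit 1856829283) (nat_lit 1064) (nat_lit 7324172555) (nat_lit 1140) (nat_lit 4923259929) (nat_lit 144) (nat_lit 5) (nat_lit 158) (nat_lit 5) (nat_lit 159) (nat_lit 5) (nat_lit 270) (nat_lit 259) (nat_lit 191)))))) (XT.nd (nat_lit 390) (nat_lit 2280) (nat_lit 0) (XT.nd (nat_lit 156) (nat_lit 1140) (nat_lit 0) (XT.nd (nat_lit 78) (nat_lit 684) (nat_lit 0) (XT.lf (nat_lit 0) (nat_lit 11427683585) (nat_lit 1140) (nat_lit 1900985804) (nat_lit 76) (nat_lit 1160502466) (nat_lit 144) (nat_lit 5) (nat_lit 159) (nat_lit 5) (nat_lit 145) (nat_lit 5) (nat_lit 271) (nat_lit 259) (nat_lit 190)) (XT.lf (nat_lit 0) (nat_lit 9034452118) (nat_lit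 684) (nat_lit 4878386434) (nat_lit 760) (nat_lit 976786882) (nat_lit 135) (nat_lit 5) (nat_lit 144) (nat_lit 5) (nat_lit 145) (nat_lit 5) (nat_lit 272) (nat_lit 259) (nat_lit 189))) (XT.nd (nat_lit 78) (nat_lit 532) (nat_lit 0) (XT.lf (nat_lit 0) (nat_lit 1264851912) (nat_lit 608) (nat_lit 10039919173) (nat_lit 76) (nat_lit 4002766346) (nat_lit 127) (nat_lit 5) (nat_lit 135) (nat_lit 5) (nat_lit 128) (nat_lit 5) (nat_lit 273) (nat_lit 259) (nat_lit 188)) (XT.nd (nat_lit 78) (nat_lit 0) (nat_lit 0) (XT.lf (nat_lit 0) (nat_lit 1258471679) (nat_lit 532) (nat_lit 2429963679) (nat_lit 608) (nat_lit 12054989960) (nat_lit 120) (nat_lit 5) (nat_lit 127) (nat_lit 5) (nat_lit 128) (nat_lit 5) (nat_lit 274) (nat_lit 259) (nat_lit 187)) (XT.lf (nat_lit 0) (nat_lit 6372724344) (nat_lit 608) (nat_lit 2964551491) (nat_lit 76) (nat_lit 6859714880) (nat_lit 120) (nat_lit 5) (nat_lit 128) (nat_lit 5) (nat_lit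 121) (nat_lit 5) (nat_lit 275) (nat_lit 259) (nat_lit 186))))) (XT.nd (nat_lit 234) (nat_lit 912) (nat_lit 0) (XT.nd (nat_lit 78) (nat_lit 912) (nat_lit 0) (XT.lf (nat_lit 0) (nat_lit 9258593305) (nat_lit 456) (nat_lit 16572982) (nat_lit 532) (nat_lit 7395615563) (nat_lit 114) (nat_lit 5) (nat_lit 120) (nat_lit 5) (nat_lit 121) (nat_lit 5) (nat_lit 276) (nat_lit 259) (nat_lit 185)) (XT.nd (nat_lit 78) (nat_lit 456) (nat_lit 0) (XT.lf (nat_lit 0) (nat_lit 4960587367) (nat_lit 456) (nat_lit 7506109612) (nat_lit 532) (nat_lit 4697309064) (nat_lit 108) (nat_lit 5) (nat_lit 114) (nat_lit 5) (nat_lit 115) (nat_lit 5) (nat_lit 277) (nat_lit 259) (nat_lit 184)) (XT.lf (nat_lit 0) (nat_lit 383835051) (nat_lit 456) (nat_lit 15508007253) (nat_lit 532) (nat_lit 1787887520) (nat_lit 102) (nat_lit 5) (nat_lit 108) (nat_lit 5) (nat_lit 109) (nat_lit 5) (nat_lit 278) (nat_lit 259) (nat_lit 183)))) (XT.nd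 (nat_lit 78) (nat_lit 836) (nat_lit 0) (XT.lf (nat_lit 0) (nat_lit 1418234882) (nat_lit 532) (nat_lit 4480442464) (nat_lit 76) (nat_lit 12316973502) (nat_lit 101) (nat_lit 5) (nat_lit 108) (nat_lit 5) (nat_lit 102) (nat_lit 5) (nat_lit 279) (nat_lit 259) (nat_lit 182)) (XT.nd (nat_lit 78) (nat_lit 380) (nat_lit 0) (XT.lf (nat_lit 0) (nat_lit 4851483761) (nat_lit 532) (nat_lit 9709726541) (nat_lit 76) (nat_lit 4213565084) (nat_lit 95) (nat_lit 5) (nat_lit 102) (nat_lit 5) (nat_lit 96) (nat_lit 5) (nat_lit 280) (nat_lit 259) (nat_lit 181)) (XT.lf (nat_lit 0) (nat_lit 4011433204) (nat_lit 380) (nat_lit 4565158014) (nat_lit 456) (nat_lit 10781708969) (nat_lit 90) (nat_lit 5) (nat_lit 95) (nat_lit 5) (nat_lit 96) (nat_lit 5) (nat_lit 281) (nat_lit 259) (nat_lit 180))))))))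
noncomputable def xc86 : XT := (XT.nd (nat_lit 1638) (nat_lit 1596) (nat_lit 0) (XT.nd (nat_lit 780) (nat_lit 1748) (nat_lit 0) (XT.nd (nat_lit 390) (nat_lit 1292) (nat_lit 0) (XT.nd (nat_lit 156) (nat_lit 836) (nat_lit 0) (XT.nd (nat_lit 78) (nat_lit 380) (nat_lit 0) (XT.lf (nat_lit 0) (nat_lit 12622299161) (nat_lit 456) (nat_lit 1432191382) (nat_lit 76) (nat_lit 5912527875) (nat_lit 90) (nat_lit 5) (nat_lit 96) (nat_lit 5) (nat_lit 91) (nat_lit 5) (nat_lit 282) (nat_lit 259) (nat_lit 179)) (XT.lf (nat_lit 0) (nat_lit 13366546128) (nat_lit 380) (nat_lit 3655828109) (nat_lit 456) (nat_lit 3579281151) (nat_lit 85) (nat_lit 5) (nat_lit 90) (nat_lit 5) (nat_lit 91) (nat_lit 5) (nat_lit 283) (nat_lit 259) (nat_lit 178))) (XT.nd (nat_lit 78) (nat_lit 380) (nat_lit 0) (XT.lf (nat_lit 0) (nat_lit 505672890) (nat_lit 456) (nat_lit 13546938412) (nat_lit 76) (nat_lit 7211190281) (nat_lit 79) (nat_lit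 5) (nat_lit 85) (nat_lit 5) (nat_lit 80) (nat_lit 5) (nat_lit 284) (nat_lit 259) (nat_lit 177)) (XT.nd (nat_lit 78) (nat_lit 0) (nat_lit 0) (XT.lf (nat_lit 0) (nat_lit 1541087581) (nat_lit 380) (nat_lit 3286222267) (nat_lit 456) (nat_lit 17127528154) (nat_lit 74) (nat_lit 5) (nat_lit 79) (nat_lit 5) (nat_lit 80) (nat_lit 5) (nat_lit 285) (nat_lit 259) (nat_lit 176)) (XT.lf (nat_lit 0) (nat_lit 9562501838) (nat_lit 456) (nat_lit 5113980084) (nat_lit 76) (nat_lit 7998058098) (nat_lit 74) (nat_lit 5) (nat_lit 80) (nat_lit 5) (nat_lit 75) (nat_lit 5) (nat_lit 286) (nat_lit 259) (nat_lit 175))))) (XT.nd (nat_lit 156) (nat_lit 684) (nat_lit 0) (XT.nd (nat_lit 78) (nat_lit 304) (nat_lit 0) (XT.lf (nat_lit 0) (nat_lit 11109749770) (nat_lit 304) (nat_lit 3545199415) (nat_lit 380) (nat_lit 8771699247) (nat_lit 70) (nat_lit 5) (nat_lit 74) (nat_lit 5) (nat_lit 75) (nat_lit 5) (nat_lit 287) (nat_lit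 259) (nat_lit 174)) (XT.lf (nat_lit 0) (nat_lit 4011747875) (nat_lit 304) (nat_lit 16141452116) (nat_lit 380) (nat_lit 4058661286) (nat_lit 66) (nat_lit 5) (nat_lit 70) (nat_lit 5) (nat_lit 71) (nat_lit 5) (nat_lit 288) (nat_lit 259) (nat_lit 173))) (XT.nd (nat_lit 78) (nat_lit 608) (nat_lit 0) (XT.lf (nat_lit 0) (nat_lit 1018126492) (nat_lit 380) (nat_lit 3688098739) (nat_lit 76) (nat_lit 20325520751) (nat_lit 65) (nat_lit 5) (nat_lit 70) (nat_lit 5) (nat_lit 66) (nat_lit 5) (nat_lit 289) (nat_lit 259) (nat_lit 172)) (XT.nd (nat_lit 78) (nat_lit 304) (nat_lit 0) (XT.lf (nat_lit 0) (nat_lit 6453146868) (nat_lit 380) (nat_lit 12103911839) (nat_lit 76) (nat_lit 7328741027) (nat_lit 61) (nat_lit 5) (nat_lit 66) (nat_lit 5) (nat_lit 62) (nat_lit 5) (nat_lit 290) (nat_lit 259) (nat_lit 171)) (XT.lf (nat_lit 0) (nat_lit 5456773416) (nat_lit 304) (nat_lit 6824516748) (nat_lit 380) (nat_lit 14497653740)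 (nat_lit 57) (nat_lit 5) (nat_lit 61) (nat_lit 5) (nat_lit 62) (nat_lit 5) (nat_lit 291) (nat_lit 259) (nat_lit 170)))))) (XT.nd (nat_lit 390) (nat_lit 912) (nat_lit 0) (XT.nd (nat_lit 156) (nat_lit 608) (nat_lit 0) (XT.nd (nat_lit 78) (nat_lit 228) (nat_lit 0) (XT.lf (nat_lit 0) (nat_lit 18563102774) (nat_lit 380) (nat_lit 3641293648) (nat_lit 76) (nat_lit 5507508509) (nat_lit 57) (nat_lit 5) (nat_lit 62) (nat_lit 5) (nat_lit 58) (nat_lit 5) (nat_lit 292) (nat_lit 259) (nat_lit 169)) (XT.lf (nat_lit 0) (nat_lit 15128369932) (nat_lit 228) (nat_lit 10229332579) (nat_lit 304) (nat_lit 3327876805) (nat_lit 54) (nat_lit 5) (nat_lit 57) (nat_lit 5) (nat_lit 58) (nat_lit 5) (nat_lit 293) (nat_lit 259) (nat_lit 168))) (XT.nd (nat_lit 78) (nat_lit 228) (nat_lit 0) (XT.lf (nat_lit 0) (nat_lit 2826563315) (nat_lit 380) (nat_lit 24468571360) (nat_lit 76) (nat_lit 2409120213) (nat_lit 49) (nat_lit 5)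 (nat_lit 54) (nat_lit 5) (nat_lit 50) (nat_lit 5) (nat_lit 294) (nat_lit 259) (nat_lit 167)) (XT.nd (nat_lit 78) (nat_lit 228) (nat_lit 0) (XT.lf (nat_lit 0) (nat_lit 9449957487) (nat_lit 380) (nat_lit 5677458658) (nat_lit 76) (nat_lit 15638580961) (nat_lit 49) (nat_lit 5) (nat_lit 54) (nat_lit 5) (nat_lit 50) (nat_lit 5) (nat_lit 295) (nat_lit 259) (nat_lit 166)) (XT.lf (nat_lit 0) (nat_lit 14312410533) (nat_lit 228) (nat_lit 2215623272) (nat_lit 304) (nat_lit 15349109232) (nat_lit 46) (nat_lit 5) (nat_lit 49) (nat_lit 5) (nat_lit 50) (nat_lit 5) (nat_lit 296) (nat_lit 259) (nat_lit 165))))) (XT.nd (nat_lit 234) (nat_lit 380) (nat_lit 0) (XT.nd (nat_lit 78) (nat_lit 304) (nat_lit 0) (XT.lf (nat_lit 0) (nat_lit 2293594557) (nat_lit 228) (nat_lit 21842871989) (nat_lit 304) (nat_lit 8902107067) (nat_lit 43) (nat_lit 5) (nat_lit 46) (nat_lit 5) (nat_lit 47) (nat_lit 5) (nat_lit 297) (nat_lit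 259) (nat_lit 164)) (XT.nd (nat_lit 78) (nat_lit 304) (nat_lit 0) (XT.lf (nat_lit 0) (nat_lit 23469769648) (nat_lit 228) (nat_lit 8845330415) (nat_lit 304) (nat_lit 1937302214) (nat_lit 43) (nat_lit 5) (nat_lit 46) (nat_lit 5) (nat_lit 47) (nat_lit 5) (nat_lit 298) (nat_lit 259) (nat_lit 163)) (XT.lf (nat_lit 0) (nat_lit 5404838599) (nat_lit 304) (nat_lit 25261742551) (nat_lit 76) (nat_lit 4854789532) (nat_lit 39) (nat_lit 5) (nat_lit 43) (nat_lit 5) (nat_lit 40) (nat_lit 5) (nat_lit 299) (nat_lit 259) (nat_lit 162)))) (XT.nd (nat_lit 78) (nat_lit 380) (nat_lit 0) (XT.lf (nat_lit 0) (nat_lit 13263447843) (nat_lit 304) (nat_lit 4399518269) (nat_lit 76) (nat_lit 19184580678) (nat_lit 39) (nat_lit 5) (nat_lit 43) (nat_lit 5) (nat_lit 40) (nat_lit 5) (nat_lit 300) (nat_lit 259) (nat_lit 161)) (XT.nd (nat_lit 78) (nat_lit 152) (nat_lit 0) (XT.lf (nat_lit 0) (nat_lit 17836289165) (nat_lit 228)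 (nat_lit 3838418926) (nat_lit 304) (nat_lit 16560548712) (nat_lit 36) (nat_lit 5) (nat_lit 39) (nat_lit 5) (nat_lit 40) (nat_lit 5) (nat_lit 301) (nat_lit 259) (nat_lit 160)) (XT.lf (nat_lit 0) (nat_lit 1493513104) (nat_lit 152) (nat_lit 29164356304) (nat_lit 228) (nat_lit 9029958688) (nat_lit 34) (nat_lit 5) (nat_lit 36) (nat_lit 5) (nat_lit 37) (nat_lit 5) (nat_lit 302) (nat_lit 259) (nat_lit 159))))))) (XT.nd (nat_lit 780) (nat_lit 608) (nat_lit 0) (XT.nd (nat_lit 390) (nat_lit 532) (nat_lit 0) (XT.nd (nat_lit 156) (nat_lit 152) (nat_lit 0) (XT.nd (nat_lit 78) (nat_lit 304) (nat_lit 0) (XT.lf (nat_lit 0) (nat_lit 24850505882) (nat_lit 152) (nat_lit 15477021509) (nat_lit 228) (nat_lit 878395567) (nat_lit 34) (nat_lit 5) (nat_lit 36) (nat_lit 5) (nat_lit 37) (nat_lit 5) (nat_lit 303) (nat_lit 259) (nat_lit 158)) (XT.lf (nat_lit 0) (nat_lit 6614365070) (nat_lit 228) (nat_lit 969476332) (nat_lit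 304) (nat_lit 35212290978) (nat_lit 30) (nat_lit 5) (nat_lit 33) (nat_lit 5) (nat_lit 34) (nat_lit 5) (nat_lit 304) (nat_lit 259) (nat_lit 157))) (XT.nd (nat_lit 78) (nat_lit 152) (nat_lit 0) (XT.lf (nat_lit 0) (nat_lit 16748025721) (nat_lit 304) (nat_lit 13550125577) (nat_lit 76) (nat_lit 14158543357) (nat_lit 30) (nat_lit 5) (nat_lit 34) (nat_lit 5) (nat_lit 31) (nat_lit 5) (nat_lit 305) (nat_lit 259) (nat_lit 156)) (XT.nd (nat_lit 78) (nat_lit 0) (nat_lit 0) (XT.lf (nat_lit 0) (nat_lit 10390741619) (nat_lit 152) (nat_lit 16079528446) (nat_lit 228) (nat_lit 19727032169) (nat_lit 28) (nat_lit 5) (nat_lit 30) (nat_lit 5) (nat_lit 31) (nat_lit 5) (nat_lit 306) (nat_lit 259) (nat_lit 155)) (XT.lf (nat_lit 0) (nat_lit 35796917184) (nat_lit 152) (nat_lit 1011703812) (nat_lit 228) (nat_lit 11212431477) (nat_lit 28) (nat_lit 5) (nat_lit 30) (nat_lit 5) (nat_lit 31) (nat_lit 5) (nat_lit 307) (nat_lit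 259) (nat_lit 154))))) (XT.nd (nat_lit 156) (nat_lit 304) (nat_lit 0) (XT.nd (nat_lit 78) (nat_lit 76) (nat_lit 0) (XT.lf (nat_lit 0) (nat_lit 12627035268) (nat_lit 152) (nat_lit 35291501433) (nat_lit 228) (nat_lit 2009825640) (nat_lit 26) (nat_lit 5) (nat_lit 28) (nat_lit 5) (nat_lit 29) (nat_lit 5) (nat_lit 308) (nat_lit 259) (nat_lit 153)) (XT.lf (nat_lit 0) (nat_lit 7631979370) (nat_lit 228) (nat_lit 13050262714) (nat_lit 76) (nat_lit 31242747208) (nat_lit 25) (nat_lit 5) (nat_lit 28) (nat_lit 5) (nat_lit 26) (nat_lit 5) (nat_lit 309) (nat_lit 259) (nat_lit 152))) (XT.nd (nat_lit 78) (nat_lit 152) (nat_lit 0) (XT.lf (nat_lit 0) (nat_lit 12625931167) (nat_lit 152) (nat_lit 5201665818) (nat_lit 228) (nat_lit 36189865127) (nat_lit 23) (nat_lit 5) (nat_lit 25) (nat_lit 5) (nat_lit 26) (nat_lit 5) (nat_lit 310) (nat_lit 259) (nat_lit 151)) (XT.nd (nat_lit 78) (nat_lit 152) (nat_lit 0) (XT.lf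 (nat_lit 0) (nat_lit 28766677673) (nat_lit 228) (nat_lit 16472795096) (nat_lit 76) (nat_lit 10968085009) (nat_lit 23) (nat_lit 5) (nat_lit 26) (nat_lit 5) (nat_lit 24) (nat_lit 5) (nat_lit 311) (nat_lit 259) (nat_lit 150)) (XT.lf (nat_lit 0) (nat_lit 9818264740) (nat_lit 152) (nat_lit 30573484239) (nat_lit 228) (nat_lit 18111247365) (nat_lit 21) (nat_lit 5) (nat_lit 23) (nat_lit 5) (nat_lit 24) (nat_lit 5) (nat_lit 312) (nat_lit 259) (nat_lit 149)))))) (XT.nd (nat_lit 390) (nat_lit 304) (nat_lit 0) (XT.nd (nat_lit 156) (nat_lit 152) (nat_lit 0) (XT.nd (nat_lit 78) (nat_lit 152) (nat_lit 0) (XT.lf (nat_lit 0) (nat_lit 37755773765) (nat_lit 152) (nat_lit 15004283667) (nat_lit 228) (nat_lit 8148298673) (nat_lit 21) (nat_lit 5) (nat_lit 23) (nat_lit 5) (nat_lit 24) (nat_lit 5) (nat_lit 313) (nat_lit 259) (nat_lit 148)) (XT.lf (nat_lit 0) (nat_lit 2309309860) (nat_lit 152) (nat_lit 59751794631)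 (nat_lit 76) (nat_lit 1370971213) (nat_lit 19) (nat_lit 5) (nat_lit 21) (nat_lit 5) (nat_lit 20) (nat_lit 5) (nat_lit 314) (nat_lit 259) (nat_lit 147))) (XT.nd (nat_lit 78) (nat_lit 152) (nat_lit 0) (XT.lf (nat_lit 0) (nat_lit 13507869073) (nat_lit 152) (nat_lit 33984005415) (nat_lit 76) (nat_lit 18576096547) (nat_lit 19) (nat_lit 5) (nat_lit 21) (nat_lit 5) (nat_lit 20) (nat_lit 5) (nat_lit 315) (nat_lit 259) (nat_lit 146)) (XT.nd (nat_lit 78) (nat_lit 152) (nat_lit 0) (XT.lf (nat_lit 0) (nat_lit 25259581016) (nat_lit 152) (nat_lit 6939006115) (nat_lit 76) (nat_lit 36637284617) (nat_lit 19) (nat_lit 5) (nat_lit 21) (nat_lit 5) (nat_lit 20) (nat_lit 5) (nat_lit 316) (nat_lit 259) (nat_lit 145)) (XT.lf (nat_lit 0) (nat_lit 21874445340) (nat_lit 152) (nat_lit 15928251165) (nat_lit 228) (nat_lit 33933363461) (nat_lit 17) (nat_lit 5) (nat_lit 19) (nat_lit 5) (nat_lit 20) (nat_lit 5) (nat_lit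 317) (nat_lit 259) (nat_lit 144))))) (XT.nd (nat_lit 234) (nat_lit 228) (nat_lit 0) (XT.nd (nat_lit 78) (nat_lit 76) (nat_lit 0) (XT.lf (nat_lit 0) (nat_lit 51049930172) (nat_lit 228) (nat_lit 22527852531) (nat_lit 76) (nat_lit 1201172695) (nat_lit 17) (nat_lit 5) (nat_lit 20) (nat_lit 5) (nat_lit 18) (nat_lit 4) (nat_lit 318) (nat_lit 259) (nat_lit 143)) (XT.nd (nat_lit 78) (nat_lit 0) (nat_lit 0) (XT.lf (nat_lit 0) (nat_lit 6121281588) (nat_lit 76) (nat_lit 59051868250) (nat_lit 152) (nat_lit 12794443391) (nat_lit 16) (nat_lit 5) (nat_lit 17) (nat_lit 5) (nat_lit 18) (nat_lit 4) (nat_lit 319) (nat_lit 259) (nat_lit 142)) (XT.lf (nat_lit 0) (nat_lit 36663928193) (nat_lit 76) (nat_lit 43564713429) (nat_lit 152) (nat_lit 1080244049) (nat_lit 16) (nat_lit 5) (nat_lit 17) (nat_lit 5) (nat_lit 18) (nat_lit 4) (nat_lit 320) (nat_lit 259) (nat_lit 141)))) (XT.nd (nat_lit 78) (nat_lit 152) (nat_lit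 0) (XT.lf (nat_lit 0) (nat_lit 10995151536) (nat_lit 152) (nat_lit 16200750194) (nat_lit 76) (nat_lit 57618278423) (nat_lit 15) (nat_lit 5) (nat_lit 17) (nat_lit 5) (nat_lit 16) (nat_lit 5) (nat_lit 321) (nat_lit 259) (nat_lit 140)) (XT.nd (nat_lit 78) (nat_lit 0) (nat_lit 0) (XT.lf (nat_lit 0) (nat_lit 13917424997) (nat_lit 152) (nat_lit 9863229241) (nat_lit 228) (nat_lit 64709909235) (nat_lit 13) (nat_lit 5) (nat_lit 15) (nat_lit 5) (nat_lit 16) (nat_lit 5) (nat_lit 322) (nat_lit 259) (nat_lit 139)) (XT.lf (nat_lit 0) (nat_lit 37448810989) (nat_lit 228) (nat_lit 46556276736) (nat_lit 76) (nat_lit 8338381944) (nat_lit 13) (nat_lit 5) (nat_lit 16) (nat_lit 5) (nat_lit 14) (nat_lit 4) (nat_lit 323) (nat_lit 259) (nat_lit 138))))))))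
noncomputable def xc87 : XT := (XT.nd (nat_lit 33930) (nat_lit 0) (nat_lit 2356) (XT.nd (nat_lit 33072) (nat_lit 0) (nat_lit 7752) (XT.nd (nat_lit 32682) (nat_lit 0) (nat_lit 10792) (XT.nd (nat_lit 156) (nat_lit 0) (nat_lit 0) (XT.nd (nat_lit 78) (nat_lit 76) (nat_lit 0) (XT.lf (nat_lit 0) (nat_lit 51894997828) (nat_lit 228) (nat_lit 17246493629) (nat_lit 76) (nat_lit 27244695885) (nat_lit 13) (nat_lit 5) (nat_lit 16) (nat_lit 5) (nat_lit 14) (nat_lit 4) (nat_lit 324) (nat_lit 259) (nat_lit 137)) (XT.lf (nat_lit 0) (nat_lit 13789898014) (nat_lit 76) (nat_lit 53401457967) (nat_lit 152) (nat_lit 33435853665) (nat_lit 12) (nat_lit 5) (nat_lit 13) (nat_lit 5) (nat_lit 14) (nat_lit 4) (nat_lit 325) (nat_lit 259) (nat_lit 136))) (XT.nd (nat_lit 32370) (nat_lit 0) (nat_lit 11704) (XT.lf (nat_lit 0) (nat_lit 46730767527) (nat_lit 76) (nat_lit 36694756127) (nat_lit 152) (nat_lit 21649574049) (nat_lit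 12) (nat_lit 5) (nat_lit 13) (nat_lit 5) (nat_lit 14) (nat_lit 4) (nat_lit 326) (nat_lit 259) (nat_lit 135)) (XT.nd (nat_lit 78) (nat_lit 0) (nat_lit 0) (XT.lf (nat_lit 0) (nat_lit 1756842070) (nat_lit 0) (nat_lit 1756842070) (nat_lit 988) (nat_lit 2125866241) (nat_lit 166) (nat_lit 5) (nat_lit 166) (nat_lit 3) (nat_lit 179) (nat_lit 3) (nat_lit 260) (nat_lit 260) (nat_lit 200)) (XT.lf (nat_lit 76) (nat_lit 38744455) (nat_lit 0) (nat_lit 8004406313) (nat_lit 1064) (nat_lit 3490673708) (nat_lit 167) (nat_lit 5) (nat_lit 166) (nat_lit 5) (nat_lit 180) (nat_lit 5) (nat_lit 261) (nat_lit 260) (nat_lit 199))))) (XT.nd (nat_lit 156) (nat_lit 912) (nat_lit 0) (XT.nd (nat_lit 78) (nat_lit 0) (nat_lit 76) (XT.lf (nat_lit 76) (nat_lit 8330972270) (nat_lit 0) (nat_lit 842242985) (nat_lit 1064) (nat_lit 2626295613) (nat_lit 167) (nat_lit 5) (nat_lit 166) (nat_lit 5) (nat_lit 180) (nat_lit 5) (nat_lit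 262) (nat_lit 260) (nat_lit 198)) (XT.lf (nat_lit 76) (nat_lit 4963275910) (nat_lit 0) (nat_lit 5459517179) (nat_lit 1064) (nat_lit 1653923216) (nat_lit 168) (nat_lit 5) (nat_lit 167) (nat_lit 5) (nat_lit 181) (nat_lit 5) (nat_lit 263) (nat_lit 260) (nat_lit 197))) (XT.nd (nat_lit 78) (nat_lit 1064) (nat_lit 0) (XT.lf (nat_lit 76) (nat_lit 1493379831) (nat_lit 0) (nat_lit 10273498574) (nat_lit 1064) (nat_lit 600061827) (nat_lit 169) (nat_lit 5) (nat_lit 168) (nat_lit 5) (nat_lit 182) (nat_lit 5) (nat_lit 264) (nat_lit 260) (nat_lit 196)) (XT.nd (nat_lit 78) (nat_lit 0) (nat_lit 76) (XT.lf (nat_lit 0) (nat_lit 580405337) (nat_lit 1064) (nat_lit 2080743206) (nat_lit 1140) (nat_lit 10007976967) (nat_lit 154) (nat_lit 5) (nat_lit 168) (nat_lit 5) (nat_lit 169) (nat_lit 5) (nat_lit 265) (nat_lit 260) (nat_lit 195)) (XT.lf (nat_lit 0) (nat_lit 1886419689) (nat_lit 1064) (nat_lit 5778722322) (nat_lit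 1140) (nat_lit 5318836642) (nat_lit 155) (nat_lit 5) (nat_lit 169) (nat_lit 5) (nat_lit 170) (nat_lit 5) (nat_lit 266) (nat_lit 260) (nat_lit 194)))))) (XT.nd (nat_lit 390) (nat_lit 2280) (nat_lit 0) (XT.nd (nat_lit 156) (nat_lit 912) (nat_lit 0) (XT.nd (nat_lit 78) (nat_lit 0) (nat_lit 0) (XT.lf (nat_lit 0) (nat_lit 3304471896) (nat_lit 1064) (nat_lit 9615980557) (nat_lit 1140) (nat_lit 392819752) (nat_lit 156) (nat_lit 5) (nat_lit 170) (nat_lit 5) (nat_lit 171) (nat_lit 5) (nat_lit 267) (nat_lit 260) (nat_lit 193)) (XT.lf (nat_lit 76) (nat_lit 3167777) (nat_lit 0) (nat_lit 4888346664) (nat_lit 1140) (nat_lit 8764668472) (nat_lit 157) (nat_lit 5) (nat_lit 156) (nat_lit 5) (nat_lit 171) (nat_lit 5) (nat_lit 268) (nat_lit 260) (nat_lit 192))) (XT.nd (nat_lit 78) (nat_lit 988) (nat_lit 0) (XT.lf (nat_lit 0) (nat_lit 6654259470) (nat_lit 1064) (nat_lit 3774132381) (nat_lit 1140) (nat_lit 3585047376)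 (nat_lit 157) (nat_lit 5) (nat_lit 171) (nat_lit 5) (nat_lit 172) (nat_lit 5) (nat_lit 269) (nat_lit 260) (nat_lit 191)) (XT.nd (nat_lit 78) (nat_lit 988) (nat_lit 0) (XT.lf (nat_lit 76) (nat_lit 6650539009) (nat_lit 0) (nat_lit 1931968226) (nat_lit 1140) (nat_lit 5803816426) (nat_lit 158) (nat_lit 5) (nat_lit 157) (nat_lit 5) (nat_lit 172) (nat_lit 5) (nat_lit 270) (nat_lit 260) (nat_lit 190)) (XT.lf (nat_lit 0) (nat_lit 2857870067) (nat_lit 1064) (nat_lit 7848794294) (nat_lit 1140) (nat_lit 4068285205) (nat_lit 144) (nat_lit 5) (nat_lit 158) (nat_lit 5) (nat_lit 159) (nat_lit 5) (nat_lit 271) (nat_lit 260) (nat_lit 189))))) (XT.nd (nat_lit 234) (nat_lit 988) (nat_lit 0) (XT.nd (nat_lit 78) (nat_lit 1292) (nat_lit 0) (XT.lf (nat_lit 0) (nat_lit 13013438877) (nat_lit 1140) (nat_lit 1096751882) (nat_lit 76) (nat_lit 1070601969) (nat_lit 144) (nat_lit 5) (nat_lit 159) (nat_lit 5) (nat_lit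 145) (nat_lit 5) (nat_lit 272) (nat_lit 260) (nat_lit 188)) (XT.nd (nat_lit 78) (nat_lit 608) (nat_lit 0) (XT.lf (nat_lit 0) (nat_lit 10359680163) (nat_lit 684) (nat_lit 5223264712) (nat_lit 760) (nat_lit 19635913) (nat_lit 135) (nat_lit 5) (nat_lit 144) (nat_lit 5) (nat_lit 145) (nat_lit 5) (nat_lit 273) (nat_lit 260) (nat_lit 187)) (XT.lf (nat_lit 0) (nat_lit 2275094552) (nat_lit 608) (nat_lit 9640917232) (nat_lit 76) (nat_lit 4126373251) (nat_lit 127) (nat_lit 5) (nat_lit 135) (nat_lit 5) (nat_lit 128) (nat_lit 5) (nat_lit 274) (nat_lit 260) (nat_lit 186)))) (XT.nd (nat_lit 78) (nat_lit 456) (nat_lit 0) (XT.lf (nat_lit 0) (nat_lit 2196566240) (nat_lit 532) (nat_lit 2586608369) (nat_lit 608) (nat_lit 11718094102) (nat_lit 120) (nat_lit 5) (nat_lit 127) (nat_lit 5) (nat_lit 128) (nat_lit 5) (nat_lit 275) (nat_lit 260) (nat_lit 185)) (XT.nd (nat_lit 78) (nat_lit 456) (nat_lit 0) (XT.lf (nat_lit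 0) (nat_lit 7558007831) (nat_lit 608) (nat_lit 2251029828) (nat_lit 76) (nat_lit 7169880937) (nat_lit 120) (nat_lit 5) (nat_lit 128) (nat_lit 5) (nat_lit 121) (nat_lit 5) (nat_lit 276) (nat_lit 260) (nat_lit 184)) (XT.lf (nat_lit 0) (nat_lit 10558570340) (nat_lit 456) (nat_lit 13778825) (nat_lit 532) (nat_lit 6905138339) (nat_lit 114) (nat_lit 5) (nat_lit 120) (nat_lit 5) (nat_lit 121) (nat_lit 5) (nat_lit 277) (nat_lit 260) (nat_lit 183))))))) (XT.nd (nat_lit 858) (nat_lit 2052) (nat_lit 0) (XT.nd (nat_lit 390) (nat_lit 1520) (nat_lit 0) (XT.nd (nat_lit 156) (nat_lit 912) (nat_lit 0) (XT.nd (nat_lit 78) (nat_lit 456) (nat_lit 0) (XT.lf (nat_lit 0) (nat_lit 6047700748) (nat_lit 456) (nat_lit 7844167715) (nat_lit 532) (nat_lit 4104539257) (nat_lit 108) (nat_lit 5) (nat_lit 114) (nat_lit 5) (nat_lit 115) (nat_lit 5) (nat_lit 278) (nat_lit 260) (nat_lit 182)) (XT.lf (nat_lit 0) (nat_lit 1242769972)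 (nat_lit 456) (nat_lit 16215731505) (nat_lit 532) (nat_lit 1080392326) (nat_lit 102) (nat_lit 5) (nat_lit 108) (nat_lit 5) (nat_lit 109) (nat_lit 5) (nat_lit 279) (nat_lit 260) (nat_lit 181))) (XT.nd (nat_lit 78) (nat_lit 836) (nat_lit 0) (XT.lf (nat_lit 0) (nat_lit 2233279373) (nat_lit 532) (nat_lit 3888364120) (nat_lit 76) (nat_lit 12980930547) (nat_lit 101) (nat_lit 5) (nat_lit 108) (nat_lit 5) (nat_lit 102) (nat_lit 5) (nat_lit 280) (nat_lit 260) (nat_lit 180)) (XT.nd (nat_lit 78) (nat_lit 380) (nat_lit 0) (XT.lf (nat_lit 0) (nat_lit 5811110089) (nat_lit 532) (nat_lit 9380288266) (nat_lit 76) (nat_lit 4499141980) (nat_lit 95) (nat_lit 5) (nat_lit 102) (nat_lit 5) (nat_lit 96) (nat_lit 5) (nat_lit 281) (nat_lit 260) (nat_lit 179)) (XT.lf (nat_lit 0) (nat_lit 5003569816) (nat_lit 380) (nat_lit 4692366770) (nat_lit 456) (nat_lit 10608170512) (nat_lit 90) (nat_lit 5) (nat_lit 95) (nat_lit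 5) (nat_lit 96) (nat_lit 5) (nat_lit 282) (nat_lit 260) (nat_lit 178))))) (XT.nd (nat_lit 234) (nat_lit 684) (nat_lit 0) (XT.nd (nat_lit 78) (nat_lit 836) (nat_lit 0) (XT.lf (nat_lit 0) (nat_lit 13911973313) (nat_lit 456) (nat_lit 729799328) (nat_lit 76) (nat_lit 6302513613) (nat_lit 90) (nat_lit 5) (nat_lit 96) (nat_lit 5) (nat_lit 91) (nat_lit 5) (nat_lit 283) (nat_lit 260) (nat_lit 177)) (XT.nd (nat_lit 78) (nat_lit 456) (nat_lit 0) (XT.lf (nat_lit 0) (nat_lit 14786688456) (nat_lit 380) (nat_lit 3721230630) (nat_lit 456) (nat_lit 3103523136) (nat_lit 85) (nat_lit 5) (nat_lit 90) (nat_lit 5) (nat_lit 91) (nat_lit 5) (nat_lit 284) (nat_lit 260) (nat_lit 176)) (XT.lf (nat_lit 0) (nat_lit 1150689071) (nat_lit 456) (nat_lit 13461900994) (nat_lit 76) (nat_lit 7694641659) (nat_lit 79) (nat_lit 5) (nat_lit 85) (nat_lit 5) (nat_lit 80) (nat_lit 5) (nat_lit 285) (nat_lit 260) (nat_lit 175)))) (XT.nd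 (nat_lit 78) (nat_lit 304) (nat_lit 0) (XT.lf (nat_lit 0) (nat_lit 2358672704) (nat_lit 380) (nat_lit 3307342534) (nat_lit 456) (nat_lit 17367532121) (nat_lit 74) (nat_lit 5) (nat_lit 79) (nat_lit 5) (nat_lit 80) (nat_lit 5) (nat_lit 286) (nat_lit 260) (nat_lit 174)) (XT.nd (nat_lit 78) (nat_lit 304) (nat_lit 0) (XT.lf (nat_lit 0) (nat_lit 10610832964) (nat_lit 456) (nat_lit 4647596375) (nat_lit 76) (nat_lit 8531672124) (nat_lit 74) (nat_lit 5) (nat_lit 80) (nat_lit 5) (nat_lit 75) (nat_lit 5) (nat_lit 287) (nat_lit 260) (nat_lit 173)) (XT.lf (nat_lit 0) (nat_lit 12366621616) (nat_lit 304) (nat_lit 3570870531) (nat_lit 380) (nat_lit 8642985912) (nat_lit 70) (nat_lit 5) (nat_lit 74) (nat_lit 5) (nat_lit 75) (nat_lit 5) (nat_lit 288) (nat_lit 260) (nat_lit 172)))))) (XT.nd (nat_lit 390) (nat_lit 1064) (nat_lit 0) (XT.nd (nat_lit 156) (nat_lit 608) (nat_lit 0) (XT.nd (nat_lit 78) (nat_lit 76)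 (nat_lit 0) (XT.lf (nat_lit 0) (nat_lit 4909200270) (nat_lit 304) (nat_lit 16783360954) (nat_lit 380) (nat_lit 3712981195) (nat_lit 66) (nat_lit 5) (nat_lit 70) (nat_lit 5) (nat_lit 71) (nat_lit 5) (nat_lit 289) (nat_lit 260) (nat_lit 171)) (XT.lf (nat_lit 0) (nat_lit 1581325899) (nat_lit 380) (nat_lit 3197738612) (nat_lit 76) (nat_lit 21488011504) (nat_lit 65) (nat_lit 5) (nat_lit 70) (nat_lit 5) (nat_lit 66) (nat_lit 5) (nat_lit 290) (nat_lit 260) (nat_lit 170))) (XT.nd (nat_lit 78) (nat_lit 304) (nat_lit 0) (XT.lf (nat_lit 0) (nat_lit 7271552501) (nat_lit 380) (nat_lit 12039562039) (nat_lit 76) (nat_lit 7853256565) (nat_lit 61) (nat_lit 5) (nat_lit 66) (nat_lit 5) (nat_lit 62) (nat_lit 5) (nat_lit 291) (nat_lit 260) (nat_lit 169)) (XT.nd (nat_lit 78) (nat_lit 0) (nat_lit 0) (XT.lf (nat_lit 0) (nat_lit 6379965095) (nat_lit 304) (nat_lit 6993782397) (nat_lit 380) (nat_lit 14728985950) (nat_lit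 57) (nat_lit 5) (nat_lit 61) (nat_lit 5) (nat_lit 62) (nat_lit 5) (nat_lit 292) (nat_lit 260) (nat_lit 168)) (XT.lf (nat_lit 0) (nat_lit 19948444395) (nat_lit 380) (nat_lit 3191112922) (nat_lit 76) (nat_lit 5943459768) (nat_lit 57) (nat_lit 5) (nat_lit 62) (nat_lit 5) (nat_lit 58) (nat_lit 5) (nat_lit 293) (nat_lit 260) (nat_lit 167))))) (XT.nd (nat_lit 234) (nat_lit 456) (nat_lit 0) (XT.nd (nat_lit 78) (nat_lit 380) (nat_lit 0) (XT.lf (nat_lit 0) (nat_lit 16498910649) (nat_lit 228) (nat_lit 10567996003) (nat_lit 304) (nat_lit 3038981109) (nat_lit 54) (nat_lit 5) (nat_lit 57) (nat_lit 5) (nat_lit 58) (nat_lit 5) (nat_lit 294) (nat_lit 260) (nat_lit 166)) (XT.nd (nat_lit 78) (nat_lit 0) (nat_lit 0) (XT.lf (nat_lit 0) (nat_lit 3400543889) (nat_lit 380) (nat_lit 25074238316) (nat_lit 76) (nat_lit 2701029989) (nat_lit 49) (nat_lit 5) (nat_lit 54) (nat_lit 5) (nat_lit 50) (nat_lit 5) (nat_lit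 295) (nat_lit 260) (nat_lit 165)) (XT.lf (nat_lit 0) (nat_lit 10334505273) (nat_lit 380) (nat_lit 5372987199) (nat_lit 76) (nat_lit 16583799309) (nat_lit 49) (nat_lit 5) (nat_lit 54) (nat_lit 5) (nat_lit 50) (nat_lit 5) (nat_lit 296) (nat_lit 260) (nat_lit 164)))) (XT.nd (nat_lit 78) (nat_lit 228) (nat_lit 0) (XT.lf (nat_lit 0) (nat_lit 15599510678) (nat_lit 228) (nat_lit 2152846716) (nat_lit 304) (nat_lit 15706092105) (nat_lit 46) (nat_lit 5) (nat_lit 49) (nat_lit 5) (nat_lit 50) (nat_lit 5) (nat_lit 297) (nat_lit 260) (nat_lit 163)) (XT.nd (nat_lit 78) (nat_lit 0) (nat_lit 0) (XT.lf (nat_lit 0) (nat_lit 2973942961) (nat_lit 228) (nat_lit 22755346602) (nat_lit 304) (nat_lit 8949048901) (nat_lit 43) (nat_lit 5) (nat_lit 46) (nat_lit 5) (nat_lit 47) (nat_lit 5) (nat_lit 298) (nat_lit 260) (nat_lit 162)) (XT.lf (nat_lit 0) (nat_lit 25181990202) (nat_lit 228) (nat_lit 9116483615) (nat_lit 304)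 (nat_lit 1654963974) (nat_lit 43) (nat_lit 5) (nat_lit 46) (nat_lit 5) (nat_lit 47) (nat_lit 5) (nat_lit 299) (nat_lit 260) (nat_lit 161))))))))
noncomputable def xc88 : XT := (XT.nd (nat_lit 1638) (nat_lit 304) (nat_lit 0) (XT.nd (nat_lit 780) (nat_lit 760) (nat_lit 0) (XT.nd (nat_lit 390) (nat_lit 608) (nat_lit 0) (XT.nd (nat_lit 156) (nat_lit 380) (nat_lit 0) (XT.nd (nat_lit 78) (nat_lit 0) (nat_lit 0) (XT.lf (nat_lit 0) (nat_lit 6035935057) (nat_lit 304) (nat_lit 25984189571) (nat_lit 76) (nat_lit 5265974816) (nat_lit 39) (nat_lit 5) (nat_lit 43) (nat_lit 5) (nat_lit 40) (nat_lit 5) (nat_lit 300) (nat_lit 260) (nat_lit 160)) (XT.lf (nat_lit 0) (nat_lit 14270291214) (nat_lit 304) (nat_lit 4104598843) (nat_lit 76) (nat_lit 20304234290) (nat_lit 39) (nat_lit 5) (nat_lit 43) (nat_lit 5) (nat_lit 40) (nat_lit 5) (nat_lit 301) (nat_lit 260) (nat_lit 159))) (XT.nd (nat_lit 78) (nat_lit 152)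 (nat_lit 0) (XT.lf (nat_lit 0) (nat_lit 19228239591) (nat_lit 228) (nat_lit 3862317211) (nat_lit 304) (nat_lit 17046033105) (nat_lit 36) (nat_lit 5) (nat_lit 39) (nat_lit 5) (nat_lit 40) (nat_lit 5) (nat_lit 302) (nat_lit 260) (nat_lit 158)) (XT.nd (nat_lit 78) (nat_lit 0) (nat_lit 0) (XT.lf (nat_lit 0) (nat_lit 2062550360) (nat_lit 152) (nat_lit 30450801237) (nat_lit 228) (nat_lit 9148746112) (nat_lit 34) (nat_lit 5) (nat_lit 36) (nat_lit 5) (nat_lit 37) (nat_lit 5) (nat_lit 303) (nat_lit 260) (nat_lit 157)) (XT.lf (nat_lit 0) (nat_lit 26563851749) (nat_lit 152) (nat_lit 16087279363) (nat_lit 228) (nat_lit 605448193) (nat_lit 34) (nat_lit 5) (nat_lit 36) (nat_lit 5) (nat_lit 37) (nat_lit 5) (nat_lit 304) (nat_lit 260) (nat_lit 156))))) (XT.nd (nat_lit 156) (nat_lit 304) (nat_lit 0) (XT.nd (nat_lit 78) (nat_lit 0) (nat_lit 0) (XT.lf (nat_lit 0) (nat_lit 7408812787) (nat_lit 228) (nat_lit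 854567796) (nat_lit 304) (nat_lit 36663156897) (nat_lit 30) (nat_lit 5) (nat_lit 33) (nat_lit 5) (nat_lit 34) (nat_lit 5) (nat_lit 305) (nat_lit 260) (nat_lit 155)) (XT.lf (nat_lit 0) (nat_lit 17872967619) (nat_lit 304) (nat_lit 13778526664) (nat_lit 76) (nat_lit 15019036405) (nat_lit 30) (nat_lit 5) (nat_lit 34) (nat_lit 5) (nat_lit 31) (nat_lit 5) (nat_lit 306) (nat_lit 260) (nat_lit 154))) (XT.nd (nat_lit 78) (nat_lit 152) (nat_lit 0) (XT.lf (nat_lit 0) (nat_lit 11346510382) (nat_lit 152) (nat_lit 16725314715) (nat_lit 228) (nat_lit 20426646260) (nat_lit 28) (nat_lit 5) (nat_lit 30) (nat_lit 5) (nat_lit 31) (nat_lit 5) (nat_lit 307) (nat_lit 260) (nat_lit 153)) (XT.nd (nat_lit 78) (nat_lit 152) (nat_lit 0) (XT.lf (nat_lit 0) (nat_lit 38002221788) (nat_lit 152) (nat_lit 911631713) (nat_lit 228) (nat_lit 11499969701) (nat_lit 28) (nat_lit 5) (nat_lit 30) (nat_lit 5) (nat_lit 31) (nat_lit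 5) (nat_lit 308) (nat_lit 260) (nat_lit 152)) (XT.lf (nat_lit 0) (nat_lit 13668574534) (nat_lit 152) (nat_lit 36903403086) (nat_lit 228) (nat_lit 1844755654) (nat_lit 26) (nat_lit 5) (nat_lit 28) (nat_lit 5) (nat_lit 29) (nat_lit 5) (nat_lit 309) (nat_lit 260) (nat_lit 151)))))) (XT.nd (nat_lit 390) (nat_lit 380) (nat_lit 0) (XT.nd (nat_lit 156) (nat_lit 152) (nat_lit 0) (XT.nd (nat_lit 78) (nat_lit 152) (nat_lit 0) (XT.lf (nat_lit 0) (nat_lit 8261558541) (nat_lit 228) (nat_lit 13306888278) (nat_lit 76) (nat_lit 32945055016) (nat_lit 25) (nat_lit 5) (nat_lit 28) (nat_lit 5) (nat_lit 26) (nat_lit 5) (nat_lit 310) (nat_lit 260) (nat_lit 150)) (XT.lf (nat_lit 0) (nat_lit 13641767259) (nat_lit 152) (nat_lit 5317077625) (nat_lit 228) (nat_lit 37752010943) (nat_lit 23) (nat_lit 5) (nat_lit 25) (nat_lit 5) (nat_lit 26) (nat_lit 5) (nat_lit 311) (nat_lit 260) (nat_lit 149))) (XT.nd (nat_lit 78)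 (nat_lit 152) (nat_lit 0) (XT.lf (nat_lit 0) (nat_lit 30434781767) (nat_lit 228) (nat_lit 16924407943) (nat_lit 76) (nat_lit 11651582995) (nat_lit 23) (nat_lit 5) (nat_lit 26) (nat_lit 5) (nat_lit 24) (nat_lit 5) (nat_lit 312) (nat_lit 260) (nat_lit 148)) (XT.nd (nat_lit 78) (nat_lit 0) (nat_lit 0) (XT.lf (nat_lit 0) (nat_lit 10670540809) (nat_lit 152) (nat_lit 31963098031) (nat_lit 228) (nat_lit 18787581244) (nat_lit 21) (nat_lit 5) (nat_lit 23) (nat_lit 5) (nat_lit 24) (nat_lit 5) (nat_lit 313) (nat_lit 260) (nat_lit 147)) (XT.lf (nat_lit 0) (nat_lit 39987717531) (nat_lit 152) (nat_lit 15622059356) (nat_lit 228) (nat_lit 8337400759) (nat_lit 21) (nat_lit 5) (nat_lit 23) (nat_lit 5) (nat_lit 24) (nat_lit 5) (nat_lit 314) (nat_lit 260) (nat_lit 146))))) (XT.nd (nat_lit 234) (nat_lit 228) (nat_lit 0) (XT.nd (nat_lit 78) (nat_lit 0) (nat_lit 0) (XT.lf (nat_lit 0) (nat_lit 2633155013) (nat_lit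 152) (nat_lit 62395550339) (nat_lit 76) (nat_lit 1568496425) (nat_lit 19) (nat_lit 5) (nat_lit 21) (nat_lit 5) (nat_lit 20) (nat_lit 5) (nat_lit 315) (nat_lit 260) (nat_lit 145)) (XT.nd (nat_lit 78) (nat_lit 0) (nat_lit 0) (XT.lf (nat_lit 0) (nat_lit 14381719346) (nat_lit 152) (nat_lit 35355744710) (nat_lit 76) (nat_lit 19627736281) (nat_lit 19) (nat_lit 5) (nat_lit 21) (nat_lit 5) (nat_lit 20) (nat_lit 5) (nat_lit 316) (nat_lit 260) (nat_lit 144)) (XT.lf (nat_lit 0) (nat_lit 26711566561) (nat_lit 152) (nat_lit 6974088825) (nat_lit 76) (nat_lit 38586134473) (nat_lit 19) (nat_lit 5) (nat_lit 21) (nat_lit 5) (nat_lit 20) (nat_lit 5) (nat_lit 317) (nat_lit 260) (nat_lit 143)))) (XT.nd (nat_lit 78) (nat_lit 76) (nat_lit 0) (XT.lf (nat_lit 0) (nat_lit 23271095580) (nat_lit 152) (nat_lit 16604653864) (nat_lit 228) (nat_lit 35441430471) (nat_lit 17) (nat_lit 5) (nat_lit 19) (nat_lit 5) (nat_lit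 20) (nat_lit 5) (nat_lit 318) (nat_lit 260) (nat_lit 142)) (XT.nd (nat_lit 78) (nat_lit 76) (nat_lit 0) (XT.lf (nat_lit 0) (nat_lit 53777733083) (nat_lit 228) (nat_lit 23361428573) (nat_lit 76) (nat_lit 1373296124) (nat_lit 17) (nat_lit 5) (nat_lit 20) (nat_lit 5) (nat_lit 18) (nat_lit 4) (nat_lit 319) (nat_lit 260) (nat_lit 141)) (XT.lf (nat_lit 0) (nat_lit 6711768724) (nat_lit 76) (nat_lit 61889731133) (nat_lit 152) (nat_lit 13259204928) (nat_lit 16) (nat_lit 5) (nat_lit 17) (nat_lit 5) (nat_lit 18) (nat_lit 4) (nat_lit 320) (nat_lit 260) (nat_lit 140))))))) (XT.nd (nat_lit 33150) (nat_lit 0) (nat_lit 8740) (XT.nd (nat_lit 390) (nat_lit 76) (nat_lit 0) (XT.nd (nat_lit 156) (nat_lit 152) (nat_lit 0) (XT.nd (nat_lit 78) (nat_lit 76) (nat_lit 0) (XT.lf (nat_lit 0) (nat_lit 38768003703) (nat_lit 76) (nat_lit 45633681930) (nat_lit 152) (nat_lit 967627078) (nat_lit 16) (nat_lit 5) (nat_lit 17)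 (nat_lit 5) (nat_lit 18) (nat_lit 4) (nat_lit 321) (nat_lit 260) (nat_lit 139)) (XT.lf (nat_lit 0) (nat_lit 11700506863) (nat_lit 152) (nat_lit 16749554749) (nat_lit 76) (nat_lit 60600003458) (nat_lit 15) (nat_lit 5) (nat_lit 17) (nat_lit 5) (nat_lit 16) (nat_lit 5) (nat_lit 322) (nat_lit 260) (nat_lit 138))) (XT.nd (nat_lit 78) (nat_lit 0) (nat_lit 0) (XT.lf (nat_lit 0) (nat_lit 14867041011) (nat_lit 152) (nat_lit 10253273422) (nat_lit 228) (nat_lit 67790109667) (nat_lit 13) (nat_lit 5) (nat_lit 15) (nat_lit 5) (nat_lit 16) (nat_lit 5) (nat_lit 323) (nat_lit 260) (nat_lit 137)) (XT.nd (nat_lit 78) (nat_lit 0) (nat_lit 0) (XT.lf (nat_lit 0) (nat_lit 39465650310) (nat_lit 228) (nat_lit 48638927635) (nat_lit 76) (nat_lit 8851591604) (nat_lit 13) (nat_lit 5) (nat_lit 16) (nat_lit 5) (nat_lit 14) (nat_lit 4) (nat_lit 324) (nat_lit 260) (nat_lit 136)) (XT.lf (nat_lit 0) (nat_lit 54627270359)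 (nat_lit 228) (nat_lit 17875329799) (nat_lit 76) (nat_lit 28698635978) (nat_lit 13) (nat_lit 5) (nat_lit 16) (nat_lit 5) (nat_lit 14) (nat_lit 4) (nat_lit 325) (nat_lit 260) (nat_lit 135))))) (XT.nd (nat_lit 32526) (nat_lit 0) (nat_lit 11704) (XT.nd (nat_lit 32448) (nat_lit 0) (nat_lit 11704) (XT.lf (nat_lit 0) (nat_lit 14706188525) (nat_lit 76) (nat_lit 55977889295) (nat_lit 152) (nat_lit 34970369215) (nat_lit 12) (nat_lit 5) (nat_lit 13) (nat_lit 5) (nat_lit 14) (nat_lit 4) (nat_lit 326) (nat_lit 260) (nat_lit 134)) (XT.lf (nat_lit 0) (nat_lit 2240962705) (nat_lit 0) (nat_lit 2240962705) (nat_lit 988) (nat_lit 1413806940) (nat_lit 166) (nat_lit 5) (nat_lit 166) (nat_lit 3) (nat_lit 179) (nat_lit 3) (nat_lit 261) (nat_lit 261) (nat_lit 198))) (XT.nd (nat_lit 78) (nat_lit 0) (nat_lit 0) (XT.lf (nat_lit 76) (nat_lit 868032663) (nat_lit 0) (nat_lit 9087605391) (nat_lit 1064) (nat_lit 2105722346)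 (nat_lit 167) (nat_lit 5) (nat_lit 166) (nat_lit 5) (nat_lit 180) (nat_lit 5) (nat_lit 262) (nat_lit 261) (nat_lit 197)) (XT.nd (nat_lit 78) (nat_lit 0) (nat_lit 76) (XT.lf (nat_lit 76) (nat_lit 9535474202) (nat_lit 0) (nat_lit 1534811099) (nat_lit 1064) (nat_lit 1272386540) (nat_lit 167) (nat_lit 5) (nat_lit 166) (nat_lit 5) (nat_lit 180) (nat_lit 5) (nat_lit 263) (nat_lit 261) (nat_lit 196)) (XT.lf (nat_lit 76) (nat_lit 6028352493) (nat_lit 0) (nat_lit 6287391680) (nat_lit 1064) (nat_lit 320165707) (nat_lit 168) (nat_lit 5) (nat_lit 167) (nat_lit 5) (nat_lit 181) (nat_lit 5) (nat_lit 264) (nat_lit 261) (nat_lit 195)))))) (XT.nd (nat_lit 390) (nat_lit 2052) (nat_lit 0) (XT.nd (nat_lit 156) (nat_lit 0) (nat_lit 76) (XT.nd (nat_lit 78) (nat_lit 0) (nat_lit 0) (XT.lf (nat_lit 0) (nat_lit 707953516) (nat_lit 1064) (nat_lit 10539532445) (nat_lit 1140) (nat_lit 1694986216) (nat_lit 154) (nat_lit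 5) (nat_lit 168) (nat_lit 5) (nat_lit 169) (nat_lit 5) (nat_lit 265) (nat_lit 261) (nat_lit 194)) (XT.lf (nat_lit 0) (nat_lit 1872019508) (nat_lit 1064) (nat_lit 1354638073) (nat_lit 1140) (nat_lit 10034974905) (nat_lit 154) (nat_lit 5) (nat_lit 168) (nat_lit 5) (nat_lit 169) (nat_lit 5) (nat_lit 266) (nat_lit 261) (nat_lit 193))) (XT.nd (nat_lit 78) (nat_lit 0) (nat_lit 76) (XT.lf (nat_lit 0) (nat_lit 3187079860) (nat_lit 1064) (nat_lit 5218197848) (nat_lit 1140) (nat_lit 5188784481) (nat_lit 155) (nat_lit 5) (nat_lit 169) (nat_lit 5) (nat_lit 170) (nat_lit 5) (nat_lit 267) (nat_lit 261) (nat_lit 192)) (XT.nd (nat_lit 78) (nat_lit 0) (nat_lit 0) (XT.lf (nat_lit 0) (nat_lit 4623332778) (nat_lit 1064) (nat_lit 9230989263) (nat_lit 1140) (nat_lit 87218732) (nat_lit 156) (nat_lit 5) (nat_lit 170) (nat_lit 5) (nat_lit 171) (nat_lit 5) (nat_lit 268) (nat_lit 261) (nat_lit 191)) (XT.lf (nat_lit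 76) (nat_lit 844298782) (nat_lit 0) (nat_lit 5398577503) (nat_lit 1140) (nat_lit 8060258929) (nat_lit 157) (nat_lit 5) (nat_lit 156) (nat_lit 5) (nat_lit 171) (nat_lit 5) (nat_lit 269) (nat_lit 261) (nat_lit 190))))) (XT.nd (nat_lit 234) (nat_lit 1292) (nat_lit 0) (XT.nd (nat_lit 78) (nat_lit 988) (nat_lit 0) (XT.lf (nat_lit 0) (nat_lit 8038620977) (nat_lit 1064) (nat_lit 3125329835) (nat_lit 1140) (nat_lit 3516084006) (nat_lit 157) (nat_lit 5) (nat_lit 171) (nat_lit 5) (nat_lit 172) (nat_lit 5) (nat_lit 270) (nat_lit 261) (nat_lit 189)) (XT.nd (nat_lit 78) (nat_lit 988) (nat_lit 0) (XT.lf (nat_lit 76) (nat_lit 7796568093) (nat_lit 0) (nat_lit 2224454416) (nat_lit 1140) (nat_lit 5051929052) (nat_lit 158) (nat_lit 5) (nat_lit 157) (nat_lit 5) (nat_lit 172) (nat_lit 5) (nat_lit 271) (nat_lit 261) (nat_lit 188)) (XT.lf (nat_lit 0) (nat_lit 3824527126) (nat_lit 1064) (nat_lit 8384919371) (nat_lit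 1140) (nat_lit 3272935093) (nat_lit 144) (nat_lit 5) (nat_lit 158) (nat_lit 5) (nat_lit 159) (nat_lit 5) (nat_lit 272) (nat_lit 261) (nat_lit 187)))) (XT.nd (nat_lit 78) (nat_lit 1292) (nat_lit 0) (XT.lf (nat_lit 0) (nat_lit 14584175322) (nat_lit 1140) (nat_lit 335913094) (nat_lit 76) (nat_lit 989959169) (nat_lit 144) (nat_lit 5) (nat_lit 159) (nat_lit 5) (nat_lit 145) (nat_lit 5) (nat_lit 273) (nat_lit 261) (nat_lit 186)) (XT.nd (nat_lit 78) (nat_lit 532) (nat_lit 0) (XT.lf (nat_lit 0) (nat_lit 874442049) (nat_lit 760) (nat_lit 4692728497) (nat_lit 76) (nat_lit 10786687154) (nat_lit 134) (nat_lit 5) (nat_lit 144) (nat_lit 5) (nat_lit 135) (nat_lit 5) (nat_lit 274) (nat_lit 261) (nat_lit 185)) (XT.lf (nat_lit 0) (nat_lit 3247806235) (nat_lit 608) (nat_lit 9305731437) (nat_lit 76) (nat_lit 4263275667) (nat_lit 127) (nat_lit 5) (nat_lit 135) (nat_lit 5) (nat_lit 128) (nat_lit 5) (nat_lit 275)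 (nat_lit 261) (nat_lit 184))))))))
noncomputable def xc89 : XT := (XT.nd (nat_lit 1638) (nat_lit 2280) (nat_lit 0) (XT.nd (nat_lit 780) (nat_lit 2736) (nat_lit 0) (XT.nd (nat_lit 390) (nat_lit 1292) (nat_lit 0) (XT.nd (nat_lit 156) (nat_lit 1368) (nat_lit 0) (XT.nd (nat_lit 78) (nat_lit 0) (nat_lit 0) (XT.lf (nat_lit 0) (nat_lit 3100200426) (nat_lit 532) (nat_lit 2747817705) (nat_lit 608) (nat_lit 11451712770) (nat_lit 120) (nat_lit 5) (nat_lit 127) (nat_lit 5) (nat_lit 128) (nat_lit 5) (nat_lit 276) (nat_lit 261) (nat_lit 183)) (XT.lf (nat_lit 0) (nat_lit 8721982844) (nat_lit 608) (nat_lit 1581949357) (nat_lit 76) (nat_lit 7498606560) (nat_lit 120) (nat_lit 5) (nat_lit 128) (nat_lit 5) (nat_lit 121) (nat_lit 5) (nat_lit 277) (nat_lit 261) (nat_lit 182))) (XT.nd (nat_lit 78) (nat_lit 912) (nat_lit 0) (XT.lf (nat_lit 0) (nat_lit 11845725495) (nat_lit 456) (nat_lit 11181775) (nat_lit 532)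 (nat_lit 6470115889) (nat_lit 114) (nat_lit 5) (nat_lit 120) (nat_lit 5) (nat_lit 121) (nat_lit 5) (nat_lit 278) (nat_lit 261) (nat_lit 181)) (XT.nd (nat_lit 78) (nat_lit 456) (nat_lit 0) (XT.lf (nat_lit 0) (nat_lit 7111159719) (nat_lit 456) (nat_lit 8202591632) (nat_lit 532) (nat_lit 3559076642) (nat_lit 108) (nat_lit 5) (nat_lit 114) (nat_lit 5) (nat_lit 115) (nat_lit 5) (nat_lit 279) (nat_lit 261) (nat_lit 180)) (XT.lf (nat_lit 0) (nat_lit 2066580279) (nat_lit 456) (nat_lit 16965133853) (nat_lit 532) (nat_lit 411609611) (nat_lit 102) (nat_lit 5) (nat_lit 108) (nat_lit 5) (nat_lit 109) (nat_lit 5) (nat_lit 280) (nat_lit 261) (nat_lit 179))))) (XT.nd (nat_lit 156) (nat_lit 760) (nat_lit 0) (XT.nd (nat_lit 78) (nat_lit 456) (nat_lit 0) (XT.lf (nat_lit 0) (nat_lit 3019893679) (nat_lit 532) (nat_lit 3342555144) (nat_lit 76) (nat_lit 13673612784) (nat_lit 101) (nat_lit 5) (nat_lit 108) (nat_lit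 5) (nat_lit 102) (nat_lit 5) (nat_lit 281) (nat_lit 261) (nat_lit 178)) (XT.lf (nat_lit 0) (nat_lit 6752053023) (nat_lit 532) (nat_lit 9110142043) (nat_lit 76) (nat_lit 4792034355) (nat_lit 95) (nat_lit 5) (nat_lit 102) (nat_lit 5) (nat_lit 96) (nat_lit 5) (nat_lit 282) (nat_lit 261) (nat_lit 177))) (XT.nd (nat_lit 78) (nat_lit 380) (nat_lit 0) (XT.lf (nat_lit 0) (nat_lit 5971721052) (nat_lit 380) (nat_lit 4835330555) (nat_lit 456) (nat_lit 10492208148) (nat_lit 90) (nat_lit 5) (nat_lit 95) (nat_lit 5) (nat_lit 96) (nat_lit 5) (nat_lit 283) (nat_lit 261) (nat_lit 176)) (XT.nd (nat_lit 78) (nat_lit 380) (nat_lit 0) (XT.lf (nat_lit 0) (nat_lit 15204904580) (nat_lit 456) (nat_lit 64247006) (nat_lit 76) (nat_lit 6703226001) (nat_lit 90) (nat_lit 5) (nat_lit 96) (nat_lit 5) (nat_lit 91) (nat_lit 5) (nat_lit 284) (nat_lit 261) (nat_lit 175)) (XT.lf (nat_lit 0) (nat_lit 16207941266) (nat_lit 380)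 (nat_lit 3800816983) (nat_lit 456) (nat_lit 2664847072) (nat_lit 85) (nat_lit 5) (nat_lit 90) (nat_lit 5) (nat_lit 91) (nat_lit 5) (nat_lit 285) (nat_lit 261) (nat_lit 174)))))) (XT.nd (nat_lit 390) (nat_lit 1292) (nat_lit 0) (XT.nd (nat_lit 156) (nat_lit 608) (nat_lit 0) (XT.nd (nat_lit 78) (nat_lit 380) (nat_lit 0) (XT.lf (nat_lit 0) (nat_lit 1770339205) (nat_lit 456) (nat_lit 13443490974) (nat_lit 76) (nat_lit 8190840284) (nat_lit 79) (nat_lit 5) (nat_lit 85) (nat_lit 5) (nat_lit 80) (nat_lit 5) (nat_lit 286) (nat_lit 261) (nat_lit 173)) (XT.lf (nat_lit 0) (nat_lit 3148289555) (nat_lit 380) (nat_lit 3342831342) (nat_lit 456) (nat_lit 17676840753) (nat_lit 74) (nat_lit 5) (nat_lit 79) (nat_lit 5) (nat_lit 80) (nat_lit 5) (nat_lit 287) (nat_lit 261) (nat_lit 172))) (XT.nd (nat_lit 78) (nat_lit 608) (nat_lit 0) (XT.lf (nat_lit 0) (nat_lit 11658568295) (nat_lit 456) (nat_lit 4225025887) (nat_lit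 76) (nat_lit 9079535658) (nat_lit 74) (nat_lit 5) (nat_lit 80) (nat_lit 5) (nat_lit 75) (nat_lit 5) (nat_lit 288) (nat_lit 261) (nat_lit 171)) (XT.nd (nat_lit 78) (nat_lit 304) (nat_lit 0) (XT.lf (nat_lit 0) (nat_lit 13621128984) (nat_lit 304) (nat_lit 3611918497) (nat_lit 380) (nat_lit 8560578930) (nat_lit 70) (nat_lit 5) (nat_lit 74) (nat_lit 5) (nat_lit 75) (nat_lit 5) (nat_lit 289) (nat_lit 261) (nat_lit 170)) (XT.lf (nat_lit 0) (nat_lit 5786737381) (nat_lit 304) (nat_lit 17472720596) (nat_lit 380) (nat_lit 3401021951) (nat_lit 66) (nat_lit 5) (nat_lit 70) (nat_lit 5) (nat_lit 71) (nat_lit 5) (nat_lit 290) (nat_lit 261) (nat_lit 169))))) (XT.nd (nat_lit 234) (nat_lit 608) (nat_lit 0) (XT.nd (nat_lit 78) (nat_lit 608) (nat_lit 0) (XT.lf (nat_lit 0) (nat_lit 2125057121) (nat_lit 380) (nat_lit 2745593738) (nat_lit 76) (nat_lit 22695033136) (nat_lit 65) (nat_lit 5) (nat_lit 70) (nat_lit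 5) (nat_lit 66) (nat_lit 5) (nat_lit 291) (nat_lit 261) (nat_lit 168)) (XT.nd (nat_lit 78) (nat_lit 304) (nat_lit 0) (XT.lf (nat_lit 0) (nat_lit 8084788439) (nat_lit 380) (nat_lit 12034242734) (nat_lit 76) (nat_lit 8389301241) (nat_lit 61) (nat_lit 5) (nat_lit 66) (nat_lit 5) (nat_lit 62) (nat_lit 5) (nat_lit 292) (nat_lit 261) (nat_lit 167)) (XT.lf (nat_lit 0) (nat_lit 7288852699) (nat_lit 304) (nat_lit 7187498557) (nat_lit 380) (nat_lit 15017770416) (nat_lit 57) (nat_lit 5) (nat_lit 61) (nat_lit 5) (nat_lit 62) (nat_lit 5) (nat_lit 293) (nat_lit 261) (nat_lit 166)))) (XT.nd (nat_lit 78) (nat_lit 608) (nat_lit 0) (XT.lf (nat_lit 0) (nat_lit 21360548231) (nat_lit 380) (nat_lit 2777203346) (nat_lit 76) (nat_lit 6386279771) (nat_lit 57) (nat_lit 5) (nat_lit 62) (nat_lit 5) (nat_lit 58) (nat_lit 5) (nat_lit 294) (nat_lit 261) (nat_lit 165)) (XT.nd (nat_lit 78) (nat_lit 380) (nat_lit 0) (XT.lf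 (nat_lit 0) (nat_lit 17880883139) (nat_lit 228) (nat_lit 10939658202) (nat_lit 304) (nat_lit 2777969133) (nat_lit 54) (nat_lit 5) (nat_lit 57) (nat_lit 5) (nat_lit 58) (nat_lit 5) (nat_lit 295) (nat_lit 261) (nat_lit 164)) (XT.lf (nat_lit 0) (nat_lit 3962999571) (nat_lit 380) (nat_lit 25767622239) (nat_lit 76) (nat_lit 2991595108) (nat_lit 49) (nat_lit 5) (nat_lit 54) (nat_lit 5) (nat_lit 50) (nat_lit 5) (nat_lit 296) (nat_lit 261) (nat_lit 163))))))) (XT.nd (nat_lit 780) (nat_lit 836) (nat_lit 0) (XT.nd (nat_lit 390) (nat_lit 684) (nat_lit 0) (XT.nd (nat_lit 156) (nat_lit 532) (nat_lit 0) (XT.nd (nat_lit 78) (nat_lit 228) (nat_lit 0) (XT.lf (nat_lit 0) (nat_lit 11224971954) (nat_lit 380) (nat_lit 5107990851) (nat_lit 76) (nat_lit 17561097483) (nat_lit 49) (nat_lit 5) (nat_lit 54) (nat_lit 5) (nat_lit 50) (nat_lit 5) (nat_lit 297) (nat_lit 261) (nat_lit 162)) (XT.lf (nat_lit 0) (nat_lit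 16897835073) (nat_lit 228) (nat_lit 2103067084) (nat_lit 304) (nat_lit 16119085973) (nat_lit 46) (nat_lit 5) (nat_lit 49) (nat_lit 5) (nat_lit 50) (nat_lit 5) (nat_lit 298) (nat_lit 261) (nat_lit 161))) (XT.nd (nat_lit 78) (nat_lit 304) (nat_lit 0) (XT.lf (nat_lit 0) (nat_lit 3635718272) (nat_lit 228) (nat_lit 23730148865) (nat_lit 304) (nat_lit 9035355297) (nat_lit 43) (nat_lit 5) (nat_lit 46) (nat_lit 5) (nat_lit 47) (nat_lit 5) (nat_lit 299) (nat_lit 261) (nat_lit 160)) (XT.nd (nat_lit 78) (nat_lit 304) (nat_lit 0) (XT.lf (nat_lit 0) (nat_lit 26929735583) (nat_lit 228) (nat_lit 9417102970) (nat_lit 304) (nat_lit 1393763554) (nat_lit 43) (nat_lit 5) (nat_lit 46) (nat_lit 5) (nat_lit 47) (nat_lit 5) (nat_lit 300) (nat_lit 261) (nat_lit 159)) (XT.lf (nat_lit 0) (nat_lit 6665037504) (nat_lit 304) (nat_lit 26793022536) (nat_lit 76) (nat_lit 5682058870) (nat_lit 39) (nat_lit 5) (nat_lit 43)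 (nat_lit 5) (nat_lit 40) (nat_lit 5) (nat_lit 301) (nat_lit 261) (nat_lit 158))))) (XT.nd (nat_lit 156) (nat_lit 456) (nat_lit 0) (XT.nd (nat_lit 78) (nat_lit 228) (nat_lit 0) (XT.lf (nat_lit 0) (nat_lit 15295525483) (nat_lit 304) (nat_lit 3842803533) (nat_lit 76) (nat_lit 21464955827) (nat_lit 39) (nat_lit 5) (nat_lit 43) (nat_lit 5) (nat_lit 40) (nat_lit 5) (nat_lit 302) (nat_lit 261) (nat_lit 157)) (XT.lf (nat_lit 0) (nat_lit 20643289637) (nat_lit 228) (nat_lit 3903031565) (nat_lit 304) (nat_lit 17587638123) (nat_lit 36) (nat_lit 5) (nat_lit 39) (nat_lit 5) (nat_lit 40) (nat_lit 5) (nat_lit 303) (nat_lit 261) (nat_lit 156))) (XT.nd (nat_lit 78) (nat_lit 304) (nat_lit 0) (XT.lf (nat_lit 0) (nat_lit 2614078424) (nat_lit 152) (nat_lit 31817538231) (nat_lit 228) (nat_lit 9304405177) (nat_lit 34) (nat_lit 5) (nat_lit 36) (nat_lit 5) (nat_lit 37) (nat_lit 5) (nat_lit 304) (nat_lit 261) (nat_lit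 155)) (XT.nd (nat_lit 78) (nat_lit 304) (nat_lit 0) (XT.lf (nat_lit 0) (nat_lit 28319092474) (nat_lit 152) (nat_lit 16743259457) (nat_lit 228) (nat_lit 348312754) (nat_lit 34) (nat_lit 5) (nat_lit 36) (nat_lit 5) (nat_lit 37) (nat_lit 5) (nat_lit 305) (nat_lit 261) (nat_lit 154)) (XT.lf (nat_lit 0) (nat_lit 8199869720) (nat_lit 228) (nat_lit 749103577) (nat_lit 304) (nat_lit 38215363603) (nat_lit 30) (nat_lit 5) (nat_lit 33) (nat_lit 5) (nat_lit 34) (nat_lit 5) (nat_lit 306) (nat_lit 261) (nat_lit 153)))))) (XT.nd (nat_lit 390) (nat_lit 456) (nat_lit 0) (XT.nd (nat_lit 156) (nat_lit 228) (nat_lit 0) (XT.nd (nat_lit 78) (nat_lit 152) (nat_lit 0) (XT.lf (nat_lit 0) (nat_lit 19027423811) (nat_lit 304) (nat_lit 14060101350) (nat_lit 76) (nat_lit 15908369975) (nat_lit 30) (nat_lit 5) (nat_lit 34) (nat_lit 5) (nat_lit 31) (nat_lit 5) (nat_lit 307) (nat_lit 261) (nat_lit 152)) (XT.lf (nat_lit 0)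 (nat_lit 12309510895) (nat_lit 152) (nat_lit 17418097318) (nat_lit 228) (nat_lit 21187899192) (nat_lit 28) (nat_lit 5) (nat_lit 30) (nat_lit 5) (nat_lit 31) (nat_lit 5) (nat_lit 308) (nat_lit 261) (nat_lit 151))) (XT.nd (nat_lit 78) (nat_lit 228) (nat_lit 0) (XT.lf (nat_lit 0) (nat_lit 40279166205) (nat_lit 152) (nat_lit 820562697) (nat_lit 228) (nat_lit 11827273537) (nat_lit 28) (nat_lit 5) (nat_lit 30) (nat_lit 5) (nat_lit 31) (nat_lit 5) (nat_lit 309) (nat_lit 261) (nat_lit 150)) (XT.nd (nat_lit 78) (nat_lit 76) (nat_lit 0) (XT.lf (nat_lit 0) (nat_lit 14724055416) (nat_lit 152) (nat_lit 38610093948) (nat_lit 228) (nat_lit 1696121537) (nat_lit 26) (nat_lit 5) (nat_lit 28) (nat_lit 5) (nat_lit 29) (nat_lit 5) (nat_lit 310) (nat_lit 261) (nat_lit 149)) (XT.lf (nat_lit 0) (nat_lit 8899561821) (nat_lit 228) (nat_lit 13613150994) (nat_lit 76) (nat_lit 34719446496) (nat_lit 25) (nat_lit 5) (nat_lit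 28) (nat_lit 5) (nat_lit 26) (nat_lit 5) (nat_lit 311) (nat_lit 261) (nat_lit 148))))) (XT.nd (nat_lit 234) (nat_lit 152) (nat_lit 0) (XT.nd (nat_lit 78) (nat_lit 152) (nat_lit 0) (XT.lf (nat_lit 0) (nat_lit 14672644315) (nat_lit 152) (nat_lit 5451710205) (nat_lit 228) (nat_lit 39415260071) (nat_lit 23) (nat_lit 5) (nat_lit 25) (nat_lit 5) (nat_lit 26) (nat_lit 5) (nat_lit 312) (nat_lit 261) (nat_lit 147)) (XT.nd (nat_lit 78) (nat_lit 152) (nat_lit 0) (XT.lf (nat_lit 0) (nat_lit 32164929209) (nat_lit 228) (nat_lit 17433188968) (nat_lit 76) (nat_lit 12356696146) (nat_lit 23) (nat_lit 5) (nat_lit 26) (nat_lit 5) (nat_lit 24) (nat_lit 5) (nat_lit 313) (nat_lit 261) (nat_lit 146)) (XT.lf (nat_lit 0) (nat_lit 11531834589) (nat_lit 152) (nat_lit 33435121034) (nat_lit 228) (nat_lit 19519043308) (nat_lit 21) (nat_lit 5) (nat_lit 23) (nat_lit 5) (nat_lit 24) (nat_lit 5) (nat_lit 314) (nat_lit 261)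 (nat_lit 145)))) (XT.nd (nat_lit 78) (nat_lit 152) (nat_lit 0) (XT.lf (nat_lit 0) (nat_lit 42299262208) (nat_lit 152) (nat_lit 16283036705) (nat_lit 228) (nat_lit 8556254609) (nat_lit 21) (nat_lit 5) (nat_lit 23) (nat_lit 5) (nat_lit 24) (nat_lit 5) (nat_lit 315) (nat_lit 261) (nat_lit 144)) (XT.nd (nat_lit 78) (nat_lit 0) (nat_lit 0) (XT.lf (nat_lit 0) (nat_lit 2953819258) (nat_lit 152) (nat_lit 65203460261) (nat_lit 76) (nat_lit 1763906872) (nat_lit 19) (nat_lit 5) (nat_lit 21) (nat_lit 5) (nat_lit 20) (nat_lit 5) (nat_lit 316) (nat_lit 261) (nat_lit 143)) (XT.lf (nat_lit 0) (nat_lit 15280811498) (nat_lit 152) (nat_lit 36826515189) (nat_lit 76) (nat_lit 20720537976) (nat_lit 19) (nat_lit 5) (nat_lit 21) (nat_lit 5) (nat_lit 20) (nat_lit 5) (nat_lit 317) (nat_lit 261) (nat_lit 142))))))))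
noncomputable def xc90 : XT := (XT.nd (nat_lit 34086) (nat_lit 0) (nat_lit 3344) (XT.nd (nat_lit 33228) (nat_lit 0) (nat_lit 9956) (XT.nd (nat_lit 390) (nat_lit 228) (nat_lit 0) (XT.nd (nat_lit 156) (nat_lit 76) (nat_lit 0) (XT.nd (nat_lit 78) (nat_lit 152) (nat_lit 0) (XT.lf (nat_lit 0) (nat_lit 28218579351) (nat_lit 152) (nat_lit 7039920164) (nat_lit 76) (nat_lit 40621550607) (nat_lit 19) (nat_lit 5) (nat_lit 21) (nat_lit 5) (nat_lit 20) (nat_lit 5) (nat_lit 318) (nat_lit 261) (nat_lit 141)) (XT.lf (nat_lit 0) (nat_lit 24709414961) (nat_lit 152) (nat_lit 17326034078) (nat_lit 228) (nat_lit 37042435180) (nat_lit 17) (nat_lit 5) (nat_lit 19) (nat_lit 5) (nat_lit 20) (nat_lit 5) (nat_lit 319) (nat_lit 261) (nat_lit 140))) (XT.nd (nat_lit 78) (nat_lit 76) (nat_lit 0) (XT.lf (nat_lit 0) (nat_lit 56625627812) (nat_lit 228) (nat_lit 24263906728) (nat_lit 76) (nat_lit 1543607003) (nat_lit 17)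 (nat_lit 5) (nat_lit 20) (nat_lit 5) (nat_lit 18) (nat_lit 4) (nat_lit 320) (nat_lit 261) (nat_lit 139)) (XT.nd (nat_lit 78) (nat_lit 0) (nat_lit 0) (XT.lf (nat_lit 0) (nat_lit 7305337256) (nat_lit 76) (nat_lit 64880153718) (nat_lit 152) (nat_lit 13763470724) (nat_lit 16) (nat_lit 5) (nat_lit 17) (nat_lit 5) (nat_lit 18) (nat_lit 4) (nat_lit 321) (nat_lit 261) (nat_lit 138)) (XT.lf (nat_lit 0) (nat_lit 40952099218) (nat_lit 76) (nat_lit 47816257482) (nat_lit 152) (nat_lit 864870860) (nat_lit 16) (nat_lit 5) (nat_lit 17) (nat_lit 5) (nat_lit 18) (nat_lit 4) (nat_lit 322) (nat_lit 261) (nat_lit 137))))) (XT.nd (nat_lit 156) (nat_lit 0) (nat_lit 0) (XT.nd (nat_lit 78) (nat_lit 152) (nat_lit 0) (XT.lf (nat_lit 0) (nat_lit 12426663952) (nat_lit 152) (nat_lit 17350086497) (nat_lit 76) (nat_lit 63721442282) (nat_lit 15) (nat_lit 5) (nat_lit 17) (nat_lit 5) (nat_lit 16) (nat_lit 5) (nat_lit 323)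 (nat_lit 261) (nat_lit 136)) (XT.lf (nat_lit 0) (nat_lit 15840547043) (nat_lit 152) (nat_lit 10672406680) (nat_lit 228) (nat_lit 71038757980) (nat_lit 13) (nat_lit 5) (nat_lit 15) (nat_lit 5) (nat_lit 16) (nat_lit 5) (nat_lit 324) (nat_lit 261) (nat_lit 135))) (XT.nd (nat_lit 78) (nat_lit 0) (nat_lit 0) (XT.lf (nat_lit 0) (nat_lit 41569906768) (nat_lit 228) (nat_lit 50848504006) (nat_lit 76) (nat_lit 9381509564) (nat_lit 13) (nat_lit 5) (nat_lit 16) (nat_lit 5) (nat_lit 14) (nat_lit 4) (nat_lit 325) (nat_lit 261) (nat_lit 134)) (XT.nd (nat_lit 32526) (nat_lit 0) (nat_lit 11628) (XT.lf (nat_lit 0) (nat_lit 57483370965) (nat_lit 228) (nat_lit 18557315325) (nat_lit 76) (nat_lit 30216747185) (nat_lit 13) (nat_lit 5) (nat_lit 16) (nat_lit 5) (nat_lit 14) (nat_lit 4) (nat_lit 326) (nat_lit 261) (nat_lit 133)) (XT.lf (nat_lit 0) (nat_lit 2712447149) (nat_lit 0) (nat_lit 2712447149) (nat_lit 988)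 (nat_lit 742227344) (nat_lit 166) (nat_lit 5) (nat_lit 166) (nat_lit 3) (nat_lit 179) (nat_lit 3) (nat_lit 262) (nat_lit 262) (nat_lit 196)))))) (XT.nd (nat_lit 390) (nat_lit 608) (nat_lit 0) (XT.nd (nat_lit 156) (nat_lit 0) (nat_lit 76) (XT.nd (nat_lit 78) (nat_lit 1064) (nat_lit 0) (XT.lf (nat_lit 76) (nat_lit 1661866028) (nat_lit 0) (nat_lit 10161467531) (nat_lit 1064) (nat_lit 796509555) (nat_lit 167) (nat_lit 5) (nat_lit 166) (nat_lit 5) (nat_lit 180) (nat_lit 5) (nat_lit 263) (nat_lit 262) (nat_lit 195)) (XT.lf (nat_lit 0) (nat_lit 10918647) (nat_lit 1064) (nat_lit 2190505483) (nat_lit 1140) (nat_lit 10715915895) (nat_lit 152) (nat_lit 5) (nat_lit 166) (nat_lit 5) (nat_lit 167) (nat_lit 5) (nat_lit 264) (nat_lit 262) (nat_lit 194))) (XT.nd (nat_lit 78) (nat_lit 0) (nat_lit 76) (XT.lf (nat_lit 0) (nat_lit 930080809) (nat_lit 1064) (nat_lit 6165597888) (nat_lit 1140) (nat_lit 6131261296)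 (nat_lit 153) (nat_lit 5) (nat_lit 167) (nat_lit 5) (nat_lit 168) (nat_lit 5) (nat_lit 265) (nat_lit 262) (nat_lit 193)) (XT.nd (nat_lit 78) (nat_lit 0) (nat_lit 0) (XT.lf (nat_lit 0) (nat_lit 1945821577) (nat_lit 1064) (nat_lit 10275897360) (nat_lit 1140) (nat_lit 1328877517) (nat_lit 154) (nat_lit 5) (nat_lit 168) (nat_lit 5) (nat_lit 169) (nat_lit 5) (nat_lit 266) (nat_lit 262) (nat_lit 192)) (XT.lf (nat_lit 0) (nat_lit 3110830374) (nat_lit 1064) (nat_lit 669406446) (nat_lit 1140) (nat_lit 10107335069) (nat_lit 154) (nat_lit 5) (nat_lit 168) (nat_lit 5) (nat_lit 169) (nat_lit 5) (nat_lit 267) (nat_lit 262) (nat_lit 191))))) (XT.nd (nat_lit 234) (nat_lit 836) (nat_lit 0) (XT.nd (nat_lit 78) (nat_lit 0) (nat_lit 0) (XT.lf (nat_lit 0) (nat_lit 4440619056) (nat_lit 1064) (nat_lit 4708621945) (nat_lit 1140) (nat_lit 5089045480) (nat_lit 155) (nat_lit 5) (nat_lit 169) (nat_lit 5) (nat_lit 170)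 (nat_lit 5) (nat_lit 268) (nat_lit 262) (nat_lit 190)) (XT.nd (nat_lit 78) (nat_lit 0) (nat_lit 76) (XT.lf (nat_lit 76) (nat_lit 5695403836) (nat_lit 0) (nat_lit 207472965) (nat_lit 1140) (nat_lit 8701762773) (nat_lit 156) (nat_lit 5) (nat_lit 155) (nat_lit 5) (nat_lit 170) (nat_lit 5) (nat_lit 269) (nat_lit 262) (nat_lit 189)) (XT.lf (nat_lit 76) (nat_lit 1649300675) (nat_lit 0) (nat_lit 5909607063) (nat_lit 1140) (nat_lit 7426861021) (nat_lit 157) (nat_lit 5) (nat_lit 156) (nat_lit 5) (nat_lit 171) (nat_lit 5) (nat_lit 270) (nat_lit 262) (nat_lit 188)))) (XT.nd (nat_lit 78) (nat_lit 988) (nat_lit 0) (XT.lf (nat_lit 0) (nat_lit 9394428246) (nat_lit 1064) (nat_lit 2521950826) (nat_lit 1140) (nat_lit 3466749213) (nat_lit 157) (nat_lit 5) (nat_lit 171) (nat_lit 5) (nat_lit 172) (nat_lit 5) (nat_lit 271) (nat_lit 262) (nat_lit 187)) (XT.nd (nat_lit 78) (nat_lit 988) (nat_lit 0) (XT.lf (nat_lit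 76) (nat_lit 8924266913) (nat_lit 0) (nat_lit 2513353126) (nat_lit 1140) (nat_lit 4359329862) (nat_lit 158) (nat_lit 5) (nat_lit 157) (nat_lit 5) (nat_lit 172) (nat_lit 5) (nat_lit 272) (nat_lit 262) (nat_lit 186)) (XT.lf (nat_lit 0) (nat_lit 4762931311) (nat_lit 1064) (nat_lit 8934492199) (nat_lit 1140) (nat_lit 2530673120) (nat_lit 144) (nat_lit 5) (nat_lit 158) (nat_lit 5) (nat_lit 159) (nat_lit 5) (nat_lit 273) (nat_lit 262) (nat_lit 185))))))) (XT.nd (nat_lit 780) (nat_lit 2888) (nat_lit 0) (XT.nd (nat_lit 390) (nat_lit 1900) (nat_lit 0) (XT.nd (nat_lit 156) (nat_lit 1064) (nat_lit 0) (XT.nd (nat_lit 78) (nat_lit 76) (nat_lit 0) (XT.lf (nat_lit 0) (nat_lit 394838495) (nat_lit 684) (nat_lit 15756866646) (nat_lit 760) (nat_lit 526715287) (nat_lit 135) (nat_lit 5) (nat_lit 144) (nat_lit 5) (nat_lit 145) (nat_lit 5) (nat_lit 274) (nat_lit 262) (nat_lit 184)) (XT.lf (nat_lit 0) (nat_lit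 1729644816) (nat_lit 760) (nat_lit 4190749077) (nat_lit 76) (nat_lit 11224981571) (nat_lit 134) (nat_lit 5) (nat_lit 144) (nat_lit 5) (nat_lit 135) (nat_lit 5) (nat_lit 275) (nat_lit 262) (nat_lit 183))) (XT.nd (nat_lit 78) (nat_lit 532) (nat_lit 0) (XT.lf (nat_lit 0) (nat_lit 4189295827) (nat_lit 608) (nat_lit 9029764807) (nat_lit 76) (nat_lit 4413476869) (nat_lit 127) (nat_lit 5) (nat_lit 135) (nat_lit 5) (nat_lit 128) (nat_lit 5) (nat_lit 276) (nat_lit 262) (nat_lit 182)) (XT.nd (nat_lit 78) (nat_lit 0) (nat_lit 0) (XT.lf (nat_lit 0) (nat_lit 3975215776) (nat_lit 532) (nat_lit 2914123708) (nat_lit 608) (nat_lit 11251249848) (nat_lit 120) (nat_lit 5) (nat_lit 127) (nat_lit 5) (nat_lit 128) (nat_lit 5) (nat_lit 277) (nat_lit 262) (nat_lit 181)) (XT.lf (nat_lit 0) (nat_lit 9871074839) (nat_lit 608) (nat_lit 952083594) (nat_lit 76) (nat_lit 7846536050) (nat_lit 120) (nat_lit 5) (nat_lit 128)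 (nat_lit 5) (nat_lit 121) (nat_lit 5) (nat_lit 278) (nat_lit 262) (nat_lit 180))))) (XT.nd (nat_lit 156) (nat_lit 988) (nat_lit 0) (XT.nd (nat_lit 78) (nat_lit 456) (nat_lit 0) (XT.lf (nat_lit 0) (nat_lit 13126652712) (nat_lit 456) (nat_lit 8760372) (nat_lit 532) (nat_lit 6085885296) (nat_lit 114) (nat_lit 5) (nat_lit 120) (nat_lit 5) (nat_lit 121) (nat_lit 5) (nat_lit 279) (nat_lit 262) (nat_lit 179)) (XT.lf (nat_lit 0) (nat_lit 8157034198) (nat_lit 456) (nat_lit 8582077704) (nat_lit 532) (nat_lit 3056132898) (nat_lit 108) (nat_lit 5) (nat_lit 114) (nat_lit 5) (nat_lit 115) (nat_lit 5) (nat_lit 280) (nat_lit 262) (nat_lit 178))) (XT.nd (nat_lit 78) (nat_lit 456) (nat_lit 0) (XT.lf (nat_lit 0) (nat_lit 219053338) (nat_lit 532) (nat_lit 17536447894) (nat_lit 76) (nat_lit 2639502728) (nat_lit 101) (nat_lit 5) (nat_lit 108) (nat_lit 5) (nat_lit 102) (nat_lit 5) (nat_lit 281) (nat_lit 262) (nat_lit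 177)) (XT.nd (nat_lit 78) (nat_lit 456) (nat_lit 0) (XT.lf (nat_lit 0) (nat_lit 3783088215) (nat_lit 532) (nat_lit 2838275027) (nat_lit 76) (nat_lit 14396872298) (nat_lit 101) (nat_lit 5) (nat_lit 108) (nat_lit 5) (nat_lit 102) (nat_lit 5) (nat_lit 282) (nat_lit 262) (nat_lit 176)) (XT.lf (nat_lit 0) (nat_lit 7679576244) (nat_lit 532) (nat_lit 8895208658) (nat_lit 76) (nat_lit 5093255370) (nat_lit 95) (nat_lit 5) (nat_lit 102) (nat_lit 5) (nat_lit 96) (nat_lit 5) (nat_lit 283) (nat_lit 262) (nat_lit 175)))))) (XT.nd (nat_lit 390) (nat_lit 1292) (nat_lit 0) (XT.nd (nat_lit 156) (nat_lit 836) (nat_lit 0) (XT.nd (nat_lit 78) (nat_lit 380) (nat_lit 0) (XT.lf (nat_lit 0) (nat_lit 6921529549) (nat_lit 380) (nat_lit 4993963701) (nat_lit 456) (nat_lit 10430541105) (nat_lit 90) (nat_lit 5) (nat_lit 95) (nat_lit 5) (nat_lit 96) (nat_lit 5) (nat_lit 284) (nat_lit 262) (nat_lit 174)) (XT.lf (nat_lit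 0) (nat_lit 580644152) (nat_lit 380) (nat_lit 15931885442) (nat_lit 456) (nat_lit 6540954322) (nat_lit 85) (nat_lit 5) (nat_lit 90) (nat_lit 5) (nat_lit 91) (nat_lit 5) (nat_lit 285) (nat_lit 262) (nat_lit 173))) (XT.nd (nat_lit 78) (nat_lit 836) (nat_lit 0) (XT.lf (nat_lit 0) (nat_lit 17636858409) (nat_lit 380) (nat_lit 3894281707) (nat_lit 456) (nat_lit 2259447956) (nat_lit 85) (nat_lit 5) (nat_lit 90) (nat_lit 5) (nat_lit 91) (nat_lit 5) (nat_lit 286) (nat_lit 262) (nat_lit 172)) (XT.nd (nat_lit 78) (nat_lit 380) (nat_lit 0) (XT.lf (nat_lit 0) (nat_lit 2368711657) (nat_lit 456) (nat_lit 13488450041) (nat_lit 76) (nat_lit 8701485738) (nat_lit 79) (nat_lit 5) (nat_lit 85) (nat_lit 5) (nat_lit 80) (nat_lit 5) (nat_lit 287) (nat_lit 262) (nat_lit 171)) (XT.lf (nat_lit 0) (nat_lit 3914940509) (nat_lit 380) (nat_lit 3392169446) (nat_lit 456) (nat_lit 18053591659) (nat_lit 74) (nat_lit 5) (nat_lit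 79) (nat_lit 5) (nat_lit 80) (nat_lit 5) (nat_lit 288) (nat_lit 262) (nat_lit 170))))) (XT.nd (nat_lit 234) (nat_lit 684) (nat_lit 0) (XT.nd (nat_lit 78) (nat_lit 608) (nat_lit 0) (XT.lf (nat_lit 0) (nat_lit 12710606626) (nat_lit 456) (nat_lit 3842217946) (nat_lit 76) (nat_lit 9643516911) (nat_lit 74) (nat_lit 5) (nat_lit 80) (nat_lit 5) (nat_lit 75) (nat_lit 5) (nat_lit 289) (nat_lit 262) (nat_lit 169)) (XT.nd (nat_lit 78) (nat_lit 304) (nat_lit 0) (XT.lf (nat_lit 0) (nat_lit 14879216080) (nat_lit 304) (nat_lit 3667801896) (nat_lit 380) (nat_lit 8521890163) (nat_lit 70) (nat_lit 5) (nat_lit 74) (nat_lit 5) (nat_lit 75) (nat_lit 5) (nat_lit 290) (nat_lit 262) (nat_lit 168)) (XT.lf (nat_lit 0) (nat_lit 6649386811) (nat_lit 304) (nat_lit 18210475985) (nat_lit 380) (nat_lit 3119727649) (nat_lit 66) (nat_lit 5) (nat_lit 70) (nat_lit 5) (nat_lit 71) (nat_lit 5) (nat_lit 291) (nat_lit 262) (nat_lit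 167)))) (XT.nd (nat_lit 78) (nat_lit 608) (nat_lit 0) (XT.lf (nat_lit 0) (nat_lit 2652774763) (nat_lit 380) (nat_lit 2327742536) (nat_lit 76) (nat_lit 23950076000) (nat_lit 65) (nat_lit 5) (nat_lit 70) (nat_lit 5) (nat_lit 66) (nat_lit 5) (nat_lit 292) (nat_lit 262) (nat_lit 166)) (XT.nd (nat_lit 78) (nat_lit 304) (nat_lit 0) (XT.lf (nat_lit 0) (nat_lit 8896881206) (nat_lit 380) (nat_lit 12085118219) (nat_lit 76) (nat_lit 8938817865) (nat_lit 61) (nat_lit 5) (nat_lit 66) (nat_lit 5) (nat_lit 62) (nat_lit 5) (nat_lit 293) (nat_lit 262) (nat_lit 165)) (XT.lf (nat_lit 0) (nat_lit 8188342363) (nat_lit 304) (nat_lit 7405401413) (nat_lit 380) (nat_lit 15362613738) (nat_lit 57) (nat_lit 5) (nat_lit 61) (nat_lit 5) (nat_lit 62) (nat_lit 5) (nat_lit 294) (nat_lit 262) (nat_lit 164))))))))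
noncomputable def xc91 : XT := (XT.nd (nat_lit 1638) (nat_lit 608) (nat_lit 0) (XT.nd (nat_lit 780) (nat_lit 1140) (nat_lit 0) (XT.nd (nat_lit 390) (nat_lit 760) (nat_lit 0) (XT.nd (nat_lit 156) (nat_lit 608) (nat_lit 0) (XT.nd (nat_lit 78) (nat_lit 228) (nat_lit 0) (XT.lf (nat_lit 0) (nat_lit 22804704093) (nat_lit 380) (nat_lit 2395913651) (nat_lit 76) (nat_lit 6837699896) (nat_lit 57) (nat_lit 5) (nat_lit 62) (nat_lit 5) (nat_lit 58) (nat_lit 5) (nat_lit 295) (nat_lit 262) (nat_lit 163)) (XT.lf (nat_lit 0) (nat_lit 19280167167) (nat_lit 228) (nat_lit 11344475488) (nat_lit 304) (nat_lit 2542299761) (nat_lit 54) (nat_lit 5) (nat_lit 57) (nat_lit 5) (nat_lit 58) (nat_lit 5) (nat_lit 296) (nat_lit 262) (nat_lit 162))) (XT.nd (nat_lit 78) (nat_lit 228) (nat_lit 0) (XT.lf (nat_lit 0) (nat_lit 4517093756) (nat_lit 380) (nat_lit 26547769343) (nat_lit 76) (nat_lit 3282230300) (nat_lit 49) (nat_lit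 5) (nat_lit 54) (nat_lit 5) (nat_lit 50) (nat_lit 5) (nat_lit 297) (nat_lit 262) (nat_lit 161)) (XT.nd (nat_lit 78) (nat_lit 228) (nat_lit 0) (XT.lf (nat_lit 0) (nat_lit 12125215034) (nat_lit 380) (nat_lit 4879358006) (nat_lit 76) (nat_lit 18573490869) (nat_lit 49) (nat_lit 5) (nat_lit 54) (nat_lit 5) (nat_lit 50) (nat_lit 5) (nat_lit 298) (nat_lit 262) (nat_lit 160)) (XT.lf (nat_lit 0) (nat_lit 18212884523) (nat_lit 228) (nat_lit 2065434073) (nat_lit 304) (nat_lit 16587343458) (nat_lit 46) (nat_lit 5) (nat_lit 49) (nat_lit 5) (nat_lit 50) (nat_lit 5) (nat_lit 299) (nat_lit 262) (nat_lit 159))))) (XT.nd (nat_lit 156) (nat_lit 532) (nat_lit 0) (XT.nd (nat_lit 78) (nat_lit 0) (nat_lit 0) (XT.lf (nat_lit 0) (nat_lit 4282881205) (nat_lit 228) (nat_lit 24768842188) (nat_lit 304) (nat_lit 9159552950) (nat_lit 43) (nat_lit 5) (nat_lit 46) (nat_lit 5) (nat_lit 47) (nat_lit 5) (nat_lit 300) (nat_lit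 262) (nat_lit 158)) (XT.lf (nat_lit 0) (nat_lit 28719438571) (nat_lit 228) (nat_lit 9747182766) (nat_lit 304) (nat_lit 1151480196) (nat_lit 43) (nat_lit 5) (nat_lit 46) (nat_lit 5) (nat_lit 47) (nat_lit 5) (nat_lit 301) (nat_lit 262) (nat_lit 157))) (XT.nd (nat_lit 78) (nat_lit 228) (nat_lit 0) (XT.lf (nat_lit 0) (nat_lit 7295165292) (nat_lit 304) (nat_lit 27687887709) (nat_lit 76) (nat_lit 6104742597) (nat_lit 39) (nat_lit 5) (nat_lit 43) (nat_lit 5) (nat_lit 40) (nat_lit 5) (nat_lit 302) (nat_lit 262) (nat_lit 156)) (XT.nd (nat_lit 78) (nat_lit 228) (nat_lit 0) (XT.lf (nat_lit 0) (nat_lit 16343040722) (nat_lit 304) (nat_lit 3611338040) (nat_lit 76) (nat_lit 22670185316) (nat_lit 39) (nat_lit 5) (nat_lit 43) (nat_lit 5) (nat_lit 40) (nat_lit 5) (nat_lit 303) (nat_lit 262) (nat_lit 155)) (XT.lf (nat_lit 0) (nat_lit 22086917218) (nat_lit 228) (nat_lit 3959950484) (nat_lit 304) (nat_lit 18185209021)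 (nat_lit 36) (nat_lit 5) (nat_lit 39) (nat_lit 5) (nat_lit 40) (nat_lit 5) (nat_lit 304) (nat_lit 262) (nat_lit 154)))))) (XT.nd (nat_lit 390) (nat_lit 532) (nat_lit 0) (XT.nd (nat_lit 156) (nat_lit 456) (nat_lit 0) (XT.nd (nat_lit 78) (nat_lit 0) (nat_lit 0) (XT.lf (nat_lit 0) (nat_lit 3151494858) (nat_lit 152) (nat_lit 33267097167) (nat_lit 228) (nat_lit 9495903675) (nat_lit 34) (nat_lit 5) (nat_lit 36) (nat_lit 5) (nat_lit 37) (nat_lit 5) (nat_lit 305) (nat_lit 262) (nat_lit 153)) (XT.lf (nat_lit 0) (nat_lit 30122392348) (nat_lit 152) (nat_lit 17445833882) (nat_lit 228) (nat_lit 105041001) (nat_lit 34) (nat_lit 5) (nat_lit 36) (nat_lit 5) (nat_lit 37) (nat_lit 5) (nat_lit 306) (nat_lit 262) (nat_lit 152))) (XT.nd (nat_lit 78) (nat_lit 152) (nat_lit 0) (XT.lf (nat_lit 0) (nat_lit 8991374583) (nat_lit 228) (nat_lit 652143691) (nat_lit 304) (nat_lit 39871300819) (nat_lit 30) (nat_lit 5)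 (nat_lit 33) (nat_lit 5) (nat_lit 34) (nat_lit 5) (nat_lit 307) (nat_lit 262) (nat_lit 151)) (XT.nd (nat_lit 78) (nat_lit 152) (nat_lit 0) (XT.lf (nat_lit 0) (nat_lit 20215355375) (nat_lit 304) (nat_lit 14393626464) (nat_lit 76) (nat_lit 16829304801) (nat_lit 30) (nat_lit 5) (nat_lit 34) (nat_lit 5) (nat_lit 31) (nat_lit 5) (nat_lit 308) (nat_lit 262) (nat_lit 150)) (XT.lf (nat_lit 0) (nat_lit 13283875324) (nat_lit 152) (nat_lit 18158858753) (nat_lit 228) (nat_lit 22011394486) (nat_lit 28) (nat_lit 5) (nat_lit 30) (nat_lit 5) (nat_lit 31) (nat_lit 5) (nat_lit 309) (nat_lit 262) (nat_lit 149))))) (XT.nd (nat_lit 234) (nat_lit 304) (nat_lit 0) (XT.nd (nat_lit 78) (nat_lit 228) (nat_lit 0) (XT.lf (nat_lit 0) (nat_lit 42634923453) (nat_lit 152) (nat_lit 737644707) (nat_lit 228) (nat_lit 12193970866) (nat_lit 28) (nat_lit 5) (nat_lit 30) (nat_lit 5) (nat_lit 31) (nat_lit 5) (nat_lit 310) (nat_lit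 262) (nat_lit 148)) (XT.nd (nat_lit 78) (nat_lit 76) (nat_lit 0) (XT.lf (nat_lit 0) (nat_lit 15797720460) (nat_lit 152) (nat_lit 40414993846) (nat_lit 228) (nat_lit 1562449701) (nat_lit 26) (nat_lit 5) (nat_lit 28) (nat_lit 5) (nat_lit 29) (nat_lit 5) (nat_lit 311) (nat_lit 262) (nat_lit 147)) (XT.lf (nat_lit 0) (nat_lit 9548553838) (nat_lit 228) (nat_lit 13968110859) (nat_lit 76) (nat_lit 36570737395) (nat_lit 25) (nat_lit 5) (nat_lit 28) (nat_lit 5) (nat_lit 26) (nat_lit 5) (nat_lit 312) (nat_lit 262) (nat_lit 146)))) (XT.nd (nat_lit 78) (nat_lit 152) (nat_lit 0) (XT.lf (nat_lit 0) (nat_lit 15722638157) (nat_lit 152) (nat_lit 5605274128) (nat_lit 228) (nat_lit 41182529723) (nat_lit 23) (nat_lit 5) (nat_lit 25) (nat_lit 5) (nat_lit 26) (nat_lit 5) (nat_lit 313) (nat_lit 262) (nat_lit 145)) (XT.nd (nat_lit 78) (nat_lit 152) (nat_lit 0) (XT.lf (nat_lit 0) (nat_lit 33962208190) (nat_lit 228)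 (nat_lit 17998780959) (nat_lit 76) (nat_lit 13085672904) (nat_lit 23) (nat_lit 5) (nat_lit 26) (nat_lit 5) (nat_lit 24) (nat_lit 5) (nat_lit 314) (nat_lit 262) (nat_lit 144)) (XT.lf (nat_lit 0) (nat_lit 12405720415) (nat_lit 152) (nat_lit 34992471735) (nat_lit 228) (nat_lit 20306408627) (nat_lit 21) (nat_lit 5) (nat_lit 23) (nat_lit 5) (nat_lit 24) (nat_lit 5) (nat_lit 315) (nat_lit 262) (nat_lit 143))))))) (XT.nd (nat_lit 780) (nat_lit 0) (nat_lit 0) (XT.nd (nat_lit 390) (nat_lit 304) (nat_lit 0) (XT.nd (nat_lit 156) (nat_lit 152) (nat_lit 0) (XT.nd (nat_lit 78) (nat_lit 152) (nat_lit 0) (XT.lf (nat_lit 0) (nat_lit 44697362552) (nat_lit 152) (nat_lit 16988231063) (nat_lit 228) (nat_lit 8804460819) (nat_lit 21) (nat_lit 5) (nat_lit 23) (nat_lit 5) (nat_lit 24) (nat_lit 5) (nat_lit 316) (nat_lit 262) (nat_lit 142)) (XT.lf (nat_lit 0) (nat_lit 3272944683) (nat_lit 152) (nat_lit 68180760172)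 (nat_lit 76) (nat_lit 1958211626) (nat_lit 19) (nat_lit 5) (nat_lit 21) (nat_lit 5) (nat_lit 20) (nat_lit 5) (nat_lit 317) (nat_lit 262) (nat_lit 141))) (XT.nd (nat_lit 78) (nat_lit 152) (nat_lit 0) (XT.lf (nat_lit 0) (nat_lit 16208122989) (nat_lit 152) (nat_lit 38398437994) (nat_lit 76) (nat_lit 21857621457) (nat_lit 19) (nat_lit 5) (nat_lit 21) (nat_lit 5) (nat_lit 20) (nat_lit 5) (nat_lit 318) (nat_lit 262) (nat_lit 140)) (XT.nd (nat_lit 78) (nat_lit 152) (nat_lit 0) (XT.lf (nat_lit 0) (nat_lit 29785004430) (nat_lit 152) (nat_lit 7135341930) (nat_lit 76) (nat_lit 42748872501) (nat_lit 19) (nat_lit 5) (nat_lit 21) (nat_lit 5) (nat_lit 20) (nat_lit 5) (nat_lit 319) (nat_lit 262) (nat_lit 139)) (XT.lf (nat_lit 0) (nat_lit 26194105302) (nat_lit 152) (nat_lit 18093603374) (nat_lit 228) (nat_lit 38739394296) (nat_lit 17) (nat_lit 5) (nat_lit 19) (nat_lit 5) (nat_lit 20) (nat_lit 5) (nat_lit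 320) (nat_lit 262) (nat_lit 138))))) (XT.nd (nat_lit 156) (nat_lit 228) (nat_lit 0) (XT.nd (nat_lit 78) (nat_lit 76) (nat_lit 0) (XT.lf (nat_lit 0) (nat_lit 59601134213) (nat_lit 228) (nat_lit 25236201135) (nat_lit 76) (nat_lit 1712983337) (nat_lit 17) (nat_lit 5) (nat_lit 20) (nat_lit 5) (nat_lit 18) (nat_lit 4) (nat_lit 321) (nat_lit 262) (nat_lit 137)) (XT.lf (nat_lit 0) (nat_lit 7904599671) (nat_lit 76) (nat_lit 68029772313) (nat_lit 152) (nat_lit 14307703716) (nat_lit 16) (nat_lit 5) (nat_lit 17) (nat_lit 5) (nat_lit 18) (nat_lit 4) (nat_lit 322) (nat_lit 262) (nat_lit 136))) (XT.nd (nat_lit 78) (nat_lit 228) (nat_lit 0) (XT.lf (nat_lit 0) (nat_lit 43222557085) (nat_lit 76) (nat_lit 50117175984) (nat_lit 152) (nat_lit 771028170) (nat_lit 16) (nat_lit 5) (nat_lit 17) (nat_lit 5) (nat_lit 18) (nat_lit 4) (nat_lit 323) (nat_lit 262) (nat_lit 135)) (XT.nd (nat_lit 78) (nat_lit 152) (nat_lit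 0) (XT.lf (nat_lit 0) (nat_lit 13176007804) (nat_lit 152) (nat_lit 18002673823) (nat_lit 76) (nat_lit 66990451949) (nat_lit 15) (nat_lit 5) (nat_lit 17) (nat_lit 5) (nat_lit 16) (nat_lit 5) (nat_lit 324) (nat_lit 262) (nat_lit 134)) (XT.lf (nat_lit 0) (nat_lit 16841330841) (nat_lit 152) (nat_lit 11121192171) (nat_lit 228) (nat_lit 74462934274) (nat_lit 13) (nat_lit 5) (nat_lit 15) (nat_lit 5) (nat_lit 16) (nat_lit 5) (nat_lit 325) (nat_lit 262) (nat_lit 133)))))) (XT.nd (nat_lit 32916) (nat_lit 0) (nat_lit 10716) (XT.nd (nat_lit 32682) (nat_lit 0) (nat_lit 10564) (XT.nd (nat_lit 32604) (nat_lit 0) (nat_lit 11628) (XT.lf (nat_lit 0) (nat_lit 43767199332) (nat_lit 228) (nat_lit 53189233051) (nat_lit 76) (nat_lit 9929803526) (nat_lit 13) (nat_lit 5) (nat_lit 16) (nat_lit 5) (nat_lit 14) (nat_lit 4) (nat_lit 326) (nat_lit 262) (nat_lit 132)) (XT.lf (nat_lit 0) (nat_lit 3174088835) (nat_lit 0)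 (nat_lit 3174088835) (nat_lit 988) (nat_lit 106077991) (nat_lit 166) (nat_lit 5) (nat_lit 166) (nat_lit 3) (nat_lit 179) (nat_lit 3) (nat_lit 263) (nat_lit 263) (nat_lit 194))) (XT.nd (nat_lit 78) (nat_lit 0) (nat_lit 0) (XT.lf (nat_lit 0) (nat_lit 437941283) (nat_lit 1064) (nat_lit 10789065594) (nat_lit 1140) (nat_lit 1983259400) (nat_lit 152) (nat_lit 5) (nat_lit 166) (nat_lit 5) (nat_lit 167) (nat_lit 5) (nat_lit 264) (nat_lit 263) (nat_lit 193)) (XT.nd (nat_lit 78) (nat_lit 0) (nat_lit 76) (XT.lf (nat_lit 0) (nat_lit 1209518302) (nat_lit 1064) (nat_lit 1625010772) (nat_lit 1140) (nat_lit 10689811120) (nat_lit 152) (nat_lit 5) (nat_lit 166) (nat_lit 5) (nat_lit 167) (nat_lit 5) (nat_lit 265) (nat_lit 263) (nat_lit 192)) (XT.lf (nat_lit 0) (nat_lit 2119165200) (nat_lit 1064) (nat_lit 5776276097) (nat_lit 1140) (nat_lit 5955782361) (nat_lit 153) (nat_lit 5) (nat_lit 167) (nat_lit 5) (nat_lit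 168) (nat_lit 5) (nat_lit 266) (nat_lit 263) (nat_lit 191))))) (XT.nd (nat_lit 234) (nat_lit 0) (nat_lit 76) (XT.nd (nat_lit 78) (nat_lit 0) (nat_lit 0) (XT.lf (nat_lit 0) (nat_lit 3133788742) (nat_lit 1064) (nat_lit 10072584103) (nat_lit 1140) (nat_lit 986379887) (nat_lit 154) (nat_lit 5) (nat_lit 168) (nat_lit 5) (nat_lit 169) (nat_lit 5) (nat_lit 267) (nat_lit 263) (nat_lit 190)) (XT.nd (nat_lit 78) (nat_lit 0) (nat_lit 76) (XT.lf (nat_lit 0) (nat_lit 4305111023) (nat_lit 1064) (nat_lit 19916650) (nat_lit 1140) (nat_lit 10223233722) (nat_lit 154) (nat_lit 5) (nat_lit 168) (nat_lit 5) (nat_lit 169) (nat_lit 5) (nat_lit 268) (nat_lit 263) (nat_lit 189)) (XT.lf (nat_lit 0) (nat_lit 5655108243) (nat_lit 1064) (nat_lit 4245199713) (nat_lit 1140) (nat_lit 5017712516) (nat_lit 155) (nat_lit 5) (nat_lit 169) (nat_lit 5) (nat_lit 170) (nat_lit 5) (nat_lit 269) (nat_lit 263) (nat_lit 188)))) (XT.nd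 (nat_lit 78) (nat_lit 0) (nat_lit 76) (XT.lf (nat_lit 76) (nat_lit 6658994866) (nat_lit 0) (nat_lit 490749334) (nat_lit 1140) (nat_lit 8154283659) (nat_lit 156) (nat_lit 5) (nat_lit 155) (nat_lit 5) (nat_lit 170) (nat_lit 5) (nat_lit 270) (nat_lit 263) (nat_lit 187)) (XT.nd (nat_lit 78) (nat_lit 0) (nat_lit 76) (XT.lf (nat_lit 76) (nat_lit 2423635962) (nat_lit 0) (nat_lit 6423772846) (nat_lit 1140) (nat_lit 6858148875) (nat_lit 157) (nat_lit 5) (nat_lit 156) (nat_lit 5) (nat_lit 171) (nat_lit 5) (nat_lit 271) (nat_lit 263) (nat_lit 186)) (XT.lf (nat_lit 0) (nat_lit 10729343509) (nat_lit 1064) (nat_lit 1959027505) (nat_lit 1140) (nat_lit 3435878970) (nat_lit 157) (nat_lit 5) (nat_lit 171) (nat_lit 5) (nat_lit 172) (nat_lit 5) (nat_lit 272) (nat_lit 263) (nat_lit 185))))))))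
noncomputable def xc92 : XT := (XT.nd (nat_lit 1638) (nat_lit 3192) (nat_lit 0) (XT.nd (nat_lit 780) (nat_lit 2736) (nat_lit 0) (XT.nd (nat_lit 390) (nat_lit 1976) (nat_lit 0) (XT.nd (nat_lit 156) (nat_lit 1292) (nat_lit 0) (XT.nd (nat_lit 78) (nat_lit 988) (nat_lit 0) (XT.lf (nat_lit 76) (nat_lit 10039750476) (nat_lit 0) (nat_lit 2800178143) (nat_lit 1140) (nat_lit 3719976045) (nat_lit 158) (nat_lit 5) (nat_lit 157) (nat_lit 5) (nat_lit 172) (nat_lit 5) (nat_lit 273) (nat_lit 263) (nat_lit 184)) (XT.lf (nat_lit 0) (nat_lit 5678790192) (nat_lit 1064) (nat_lit 9499427112) (nat_lit 1140) (nat_lit 1835520855) (nat_lit 144) (nat_lit 5) (nat_lit 158) (nat_lit 5) (nat_lit 159) (nat_lit 5) (nat_lit 274) (nat_lit 263) (nat_lit 183))) (XT.nd (nat_lit 78) (nat_lit 532) (nat_lit 0) (XT.lf (nat_lit 0) (nat_lit 230579693) (nat_lit 760) (nat_lit 16390905866) (nat_lit 76) (nat_lit 866086691) (nat_lit 134)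 (nat_lit 5) (nat_lit 144) (nat_lit 5) (nat_lit 135) (nat_lit 5) (nat_lit 275) (nat_lit 263) (nat_lit 182)) (XT.nd (nat_lit 78) (nat_lit 532) (nat_lit 0) (XT.lf (nat_lit 0) (nat_lit 2552163940) (nat_lit 760) (nat_lit 3732154245) (nat_lit 76) (nat_lit 11694584444) (nat_lit 134) (nat_lit 5) (nat_lit 144) (nat_lit 5) (nat_lit 135) (nat_lit 5) (nat_lit 276) (nat_lit 263) (nat_lit 181)) (XT.lf (nat_lit 0) (nat_lit 5105426632) (nat_lit 608) (nat_lit 8808914541) (nat_lit 76) (nat_lit 4577041795) (nat_lit 127) (nat_lit 5) (nat_lit 135) (nat_lit 5) (nat_lit 128) (nat_lit 5) (nat_lit 277) (nat_lit 263) (nat_lit 180))))) (XT.nd (nat_lit 156) (nat_lit 1444) (nat_lit 0) (XT.nd (nat_lit 78) (nat_lit 0) (nat_lit 0) (XT.lf (nat_lit 0) (nat_lit 4827042622) (nat_lit 532) (nat_lit 3086056757) (nat_lit 608) (nat_lit 11112634508) (nat_lit 120) (nat_lit 5) (nat_lit 127) (nat_lit 5) (nat_lit 128) (nat_lit 5) (nat_lit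 278) (nat_lit 263) (nat_lit 179)) (XT.lf (nat_lit 0) (nat_lit 11011334117) (nat_lit 608) (nat_lit 356637225) (nat_lit 76) (nat_lit 8214372297) (nat_lit 120) (nat_lit 5) (nat_lit 128) (nat_lit 5) (nat_lit 121) (nat_lit 5) (nat_lit 279) (nat_lit 263) (nat_lit 178))) (XT.nd (nat_lit 78) (nat_lit 988) (nat_lit 0) (XT.lf (nat_lit 0) (nat_lit 14407602982) (nat_lit 456) (nat_lit 6494998) (nat_lit 532) (nat_lit 5748241794) (nat_lit 114) (nat_lit 5) (nat_lit 120) (nat_lit 5) (nat_lit 121) (nat_lit 5) (nat_lit 280) (nat_lit 263) (nat_lit 177)) (XT.nd (nat_lit 78) (nat_lit 532) (nat_lit 0) (XT.lf (nat_lit 0) (nat_lit 9191023316) (nat_lit 456) (nat_lit 8983387023) (nat_lit 532) (nat_lit 2591345370) (nat_lit 108) (nat_lit 5) (nat_lit 114) (nat_lit 5) (nat_lit 115) (nat_lit 5) (nat_lit 281) (nat_lit 263) (nat_lit 176)) (XT.lf (nat_lit 0) (nat_lit 813053483) (nat_lit 532) (nat_lit 17773834218) (nat_lit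 76) (nat_lit 2809172031) (nat_lit 101) (nat_lit 5) (nat_lit 108) (nat_lit 5) (nat_lit 102) (nat_lit 5) (nat_lit 282) (nat_lit 263) (nat_lit 175)))))) (XT.nd (nat_lit 390) (nat_lit 1520) (nat_lit 0) (XT.nd (nat_lit 156) (nat_lit 760) (nat_lit 0) (XT.nd (nat_lit 78) (nat_lit 456) (nat_lit 0) (XT.lf (nat_lit 0) (nat_lit 4527525939) (nat_lit 532) (nat_lit 2371202045) (nat_lit 76) (nat_lit 15152615120) (nat_lit 101) (nat_lit 5) (nat_lit 108) (nat_lit 5) (nat_lit 102) (nat_lit 5) (nat_lit 283) (nat_lit 263) (nat_lit 174)) (XT.lf (nat_lit 0) (nat_lit 8598630404) (nat_lit 532) (nat_lit 8731859806) (nat_lit 76) (nat_lit 5403808658) (nat_lit 95) (nat_lit 5) (nat_lit 102) (nat_lit 5) (nat_lit 96) (nat_lit 5) (nat_lit 284) (nat_lit 263) (nat_lit 173))) (XT.nd (nat_lit 78) (nat_lit 380) (nat_lit 0) (XT.lf (nat_lit 0) (nat_lit 7858283981) (nat_lit 380) (nat_lit 5168257459) (nat_lit 456) (nat_lit 10420297230)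 (nat_lit 90) (nat_lit 5) (nat_lit 95) (nat_lit 5) (nat_lit 96) (nat_lit 5) (nat_lit 285) (nat_lit 263) (nat_lit 172)) (XT.nd (nat_lit 78) (nat_lit 0) (nat_lit 0) (XT.lf (nat_lit 0) (nat_lit 1198743102) (nat_lit 380) (nat_lit 16636502452) (nat_lit 456) (nat_lit 6355010162) (nat_lit 85) (nat_lit 5) (nat_lit 90) (nat_lit 5) (nat_lit 91) (nat_lit 5) (nat_lit 286) (nat_lit 263) (nat_lit 171)) (XT.lf (nat_lit 0) (nat_lit 19079717274) (nat_lit 380) (nat_lit 4001398400) (nat_lit 456) (nat_lit 1883856662) (nat_lit 85) (nat_lit 5) (nat_lit 90) (nat_lit 5) (nat_lit 91) (nat_lit 5) (nat_lit 287) (nat_lit 263) (nat_lit 170))))) (XT.nd (nat_lit 234) (nat_lit 684) (nat_lit 0) (XT.nd (nat_lit 78) (nat_lit 380) (nat_lit 0) (XT.lf (nat_lit 0) (nat_lit 2949601201) (nat_lit 456) (nat_lit 13593969611) (nat_lit 76) (nat_lit 9228263825) (nat_lit 79) (nat_lit 5) (nat_lit 85) (nat_lit 5) (nat_lit 80) (nat_lit 5)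 (nat_lit 288) (nat_lit 263) (nat_lit 169)) (XT.nd (nat_lit 78) (nat_lit 0) (nat_lit 0) (XT.lf (nat_lit 0) (nat_lit 4663282978) (nat_lit 380) (nat_lit 3454926704) (nat_lit 456) (nat_lit 18496324636) (nat_lit 74) (nat_lit 5) (nat_lit 79) (nat_lit 5) (nat_lit 80) (nat_lit 5) (nat_lit 289) (nat_lit 263) (nat_lit 168)) (XT.lf (nat_lit 0) (nat_lit 13771633480) (nat_lit 456) (nat_lit 3495499605) (nat_lit 76) (nat_lit 10225470054) (nat_lit 74) (nat_lit 5) (nat_lit 80) (nat_lit 5) (nat_lit 75) (nat_lit 5) (nat_lit 290) (nat_lit 263) (nat_lit 167)))) (XT.nd (nat_lit 78) (nat_lit 380) (nat_lit 0) (XT.lf (nat_lit 0) (nat_lit 16146560690) (nat_lit 304) (nat_lit 3738074053) (nat_lit 380) (nat_lit 8524657948) (nat_lit 70) (nat_lit 5) (nat_lit 74) (nat_lit 5) (nat_lit 75) (nat_lit 5) (nat_lit 291) (nat_lit 263) (nat_lit 166)) (XT.nd (nat_lit 78) (nat_lit 76) (nat_lit 0) (XT.lf (nat_lit 0) (nat_lit 7501867544)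 (nat_lit 304) (nat_lit 18997752037) (nat_lit 380) (nat_lit 2866330448) (nat_lit 66) (nat_lit 5) (nat_lit 70) (nat_lit 5) (nat_lit 71) (nat_lit 5) (nat_lit 292) (nat_lit 263) (nat_lit 165)) (XT.lf (nat_lit 0) (nat_lit 3167694487) (nat_lit 380) (nat_lit 1940609582) (nat_lit 76) (nat_lit 25256687472) (nat_lit 65) (nat_lit 5) (nat_lit 70) (nat_lit 5) (nat_lit 66) (nat_lit 5) (nat_lit 293) (nat_lit 263) (nat_lit 164))))))) (XT.nd (nat_lit 780) (nat_lit 1216) (nat_lit 0) (XT.nd (nat_lit 390) (nat_lit 760) (nat_lit 0) (XT.nd (nat_lit 156) (nat_lit 608) (nat_lit 0) (XT.nd (nat_lit 78) (nat_lit 304) (nat_lit 0) (XT.lf (nat_lit 0) (nat_lit 9711660274) (nat_lit 380) (nat_lit 12189749050) (nat_lit 76) (nat_lit 9503719359) (nat_lit 61) (nat_lit 5) (nat_lit 66) (nat_lit 5) (nat_lit 62) (nat_lit 5) (nat_lit 294) (nat_lit 263) (nat_lit 163)) (XT.lf (nat_lit 0) (nat_lit 9083062909) (nat_lit 304) (nat_lit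 7647352143) (nat_lit 380) (nat_lit 15762449460) (nat_lit 57) (nat_lit 5) (nat_lit 61) (nat_lit 5) (nat_lit 62) (nat_lit 5) (nat_lit 295) (nat_lit 263) (nat_lit 162))) (XT.nd (nat_lit 78) (nat_lit 608) (nat_lit 0) (XT.lf (nat_lit 0) (nat_lit 24286098890) (nat_lit 380) (nat_lit 2043918075) (nat_lit 76) (nat_lit 7299409050) (nat_lit 57) (nat_lit 5) (nat_lit 62) (nat_lit 5) (nat_lit 58) (nat_lit 5) (nat_lit 296) (nat_lit 263) (nat_lit 161)) (XT.nd (nat_lit 78) (nat_lit 380) (nat_lit 0) (XT.lf (nat_lit 0) (nat_lit 20702442981) (nat_lit 228) (nat_lit 11782750851) (nat_lit 304) (nat_lit 2329670687) (nat_lit 54) (nat_lit 5) (nat_lit 57) (nat_lit 5) (nat_lit 58) (nat_lit 5) (nat_lit 297) (nat_lit 263) (nat_lit 160)) (XT.lf (nat_lit 0) (nat_lit 5065800331) (nat_lit 380) (nat_lit 27414174584) (nat_lit 76) (nat_lit 3574283254) (nat_lit 49) (nat_lit 5) (nat_lit 54) (nat_lit 5) (nat_lit 50) (nat_lit 5)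 (nat_lit 298) (nat_lit 263) (nat_lit 159))))) (XT.nd (nat_lit 156) (nat_lit 532) (nat_lit 0) (XT.nd (nat_lit 78) (nat_lit 228) (nat_lit 0) (XT.lf (nat_lit 0) (nat_lit 13038953774) (nat_lit 380) (nat_lit 4684294262) (nat_lit 76) (nat_lit 19624014402) (nat_lit 49) (nat_lit 5) (nat_lit 54) (nat_lit 5) (nat_lit 50) (nat_lit 5) (nat_lit 299) (nat_lit 263) (nat_lit 158)) (XT.lf (nat_lit 0) (nat_lit 19549975640) (nat_lit 228) (nat_lit 2039194334) (nat_lit 304) (nat_lit 17110409666) (nat_lit 46) (nat_lit 5) (nat_lit 49) (nat_lit 5) (nat_lit 50) (nat_lit 5) (nat_lit 300) (nat_lit 263) (nat_lit 157))) (XT.nd (nat_lit 78) (nat_lit 304) (nat_lit 0) (XT.lf (nat_lit 0) (nat_lit 4919135941) (nat_lit 228) (nat_lit 25873212533) (nat_lit 304) (nat_lit 9320414849) (nat_lit 43) (nat_lit 5) (nat_lit 46) (nat_lit 5) (nat_lit 47) (nat_lit 5) (nat_lit 301) (nat_lit 263) (nat_lit 156)) (XT.nd (nat_lit 78) (nat_lit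 304) (nat_lit 0) (XT.lf (nat_lit 0) (nat_lit 30557420666) (nat_lit 228) (nat_lit 10106854510) (nat_lit 304) (nat_lit 926086827) (nat_lit 43) (nat_lit 5) (nat_lit 46) (nat_lit 5) (nat_lit 47) (nat_lit 5) (nat_lit 302) (nat_lit 263) (nat_lit 155)) (XT.lf (nat_lit 0) (nat_lit 7929198761) (nat_lit 304) (nat_lit 28668848123) (nat_lit 76) (nat_lit 6535676582) (nat_lit 39) (nat_lit 5) (nat_lit 43) (nat_lit 5) (nat_lit 40) (nat_lit 5) (nat_lit 303) (nat_lit 263) (nat_lit 154)))))) (XT.nd (nat_lit 390) (nat_lit 532) (nat_lit 0) (XT.nd (nat_lit 156) (nat_lit 456) (nat_lit 0) (XT.nd (nat_lit 78) (nat_lit 228) (nat_lit 0) (XT.lf (nat_lit 0) (nat_lit 17416645334) (nat_lit 304) (nat_lit 3407682111) (nat_lit 76) (nat_lit 23923405873) (nat_lit 39) (nat_lit 5) (nat_lit 43) (nat_lit 5) (nat_lit 40) (nat_lit 5) (nat_lit 304) (nat_lit 263) (nat_lit 153)) (XT.lf (nat_lit 0) (nat_lit 23564472239) (nat_lit 228)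 (nat_lit 4032566911) (nat_lit 304) (nat_lit 18838858580) (nat_lit 36) (nat_lit 5) (nat_lit 39) (nat_lit 5) (nat_lit 40) (nat_lit 5) (nat_lit 305) (nat_lit 263) (nat_lit 152))) (XT.nd (nat_lit 78) (nat_lit 304) (nat_lit 0) (XT.lf (nat_lit 0) (nat_lit 3677969839) (nat_lit 152) (nat_lit 34802272456) (nat_lit 228) (nat_lit 9722425154) (nat_lit 34) (nat_lit 5) (nat_lit 36) (nat_lit 5) (nat_lit 37) (nat_lit 5) (nat_lit 306) (nat_lit 263) (nat_lit 151)) (XT.nd (nat_lit 78) (nat_lit 228) (nat_lit 0) (XT.lf (nat_lit 0) (nat_lit 123696297) (nat_lit 228) (nat_lit 18071104408) (nat_lit 76) (nat_lit 31854900139) (nat_lit 33) (nat_lit 5) (nat_lit 36) (nat_lit 5) (nat_lit 34) (nat_lit 5) (nat_lit 307) (nat_lit 263) (nat_lit 150)) (XT.lf (nat_lit 0) (nat_lit 9786985377) (nat_lit 228) (nat_lit 562832449) (nat_lit 304) (nat_lit 41633726662) (nat_lit 30) (nat_lit 5) (nat_lit 33) (nat_lit 5) (nat_lit 34) (nat_lit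 5) (nat_lit 308) (nat_lit 263) (nat_lit 149))))) (XT.nd (nat_lit 234) (nat_lit 380) (nat_lit 0) (XT.nd (nat_lit 78) (nat_lit 152) (nat_lit 0) (XT.lf (nat_lit 0) (nat_lit 21440690375) (nat_lit 304) (nat_lit 14778178579) (nat_lit 76) (nat_lit 17784617050) (nat_lit 30) (nat_lit 5) (nat_lit 34) (nat_lit 5) (nat_lit 31) (nat_lit 5) (nat_lit 309) (nat_lit 263) (nat_lit 148)) (XT.nd (nat_lit 78) (nat_lit 0) (nat_lit 0) (XT.lf (nat_lit 0) (nat_lit 14273591887) (nat_lit 152) (nat_lit 18948757762) (nat_lit 228) (nat_lit 22897996259) (nat_lit 28) (nat_lit 5) (nat_lit 30) (nat_lit 5) (nat_lit 31) (nat_lit 5) (nat_lit 310) (nat_lit 263) (nat_lit 147)) (XT.lf (nat_lit 0) (nat_lit 45076691337) (nat_lit 152) (nat_lit 662104153) (nat_lit 228) (nat_lit 12599890409) (nat_lit 28) (nat_lit 5) (nat_lit 30) (nat_lit 5) (nat_lit 31) (nat_lit 5) (nat_lit 311) (nat_lit 263) (nat_lit 146)))) (XT.nd (nat_lit 78) (nat_lit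 228) (nat_lit 0) (XT.lf (nat_lit 0) (nat_lit 16893694712) (nat_lit 152) (nat_lit 42321816282) (nat_lit 228) (nat_lit 1442406279) (nat_lit 26) (nat_lit 5) (nat_lit 28) (nat_lit 5) (nat_lit 29) (nat_lit 5) (nat_lit 312) (nat_lit 263) (nat_lit 145)) (XT.nd (nat_lit 78) (nat_lit 152) (nat_lit 0) (XT.lf (nat_lit 0) (nat_lit 10211028174) (nat_lit 228) (nat_lit 14371099000) (nat_lit 76) (nat_lit 38503871611) (nat_lit 25) (nat_lit 5) (nat_lit 28) (nat_lit 5) (nat_lit 26) (nat_lit 5) (nat_lit 313) (nat_lit 263) (nat_lit 144)) (XT.lf (nat_lit 0) (nat_lit 16795719386) (nat_lit 152) (nat_lit 5777581745) (nat_lit 228) (nat_lit 43057081741) (nat_lit 23) (nat_lit 5) (nat_lit 25) (nat_lit 5) (nat_lit 26) (nat_lit 5) (nat_lit 314) (nat_lit 263) (nat_lit 143))))))))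
noncomputable def xc93 : XT := (XT.nd (nat_lit 34320) (nat_lit 0) (nat_lit 3800) (XT.nd (nat_lit 780) (nat_lit 76) (nat_lit 0) (XT.nd (nat_lit 390) (nat_lit 228) (nat_lit 0) (XT.nd (nat_lit 156) (nat_lit 152) (nat_lit 0) (XT.nd (nat_lit 78) (nat_lit 152) (nat_lit 0) (XT.lf (nat_lit 0) (nat_lit 35831776669) (nat_lit 228) (nat_lit 18621107800) (nat_lit 76) (nat_lit 13840765574) (nat_lit 23) (nat_lit 5) (nat_lit 26) (nat_lit 5) (nat_lit 24) (nat_lit 5) (nat_lit 315) (nat_lit 263) (nat_lit 142)) (XT.lf (nat_lit 0) (nat_lit 13295660944) (nat_lit 152) (nat_lit 36638326296) (nat_lit 228) (nat_lit 21150675230) (nat_lit 21) (nat_lit 5) (nat_lit 23) (nat_lit 5) (nat_lit 24) (nat_lit 5) (nat_lit 316) (nat_lit 263) (nat_lit 141))) (XT.nd (nat_lit 78) (nat_lit 152) (nat_lit 0) (XT.lf (nat_lit 0) (nat_lit 47189044498) (nat_lit 152) (nat_lit 17738814973) (nat_lit 228) (nat_lit 9081775452) (nat_lit 21)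 (nat_lit 5) (nat_lit 23) (nat_lit 5) (nat_lit 24) (nat_lit 5) (nat_lit 317) (nat_lit 263) (nat_lit 140)) (XT.nd (nat_lit 78) (nat_lit 0) (nat_lit 0) (XT.lf (nat_lit 0) (nat_lit 3592088028) (nat_lit 152) (nat_lit 71333223938) (nat_lit 76) (nat_lit 2152366571) (nat_lit 19) (nat_lit 5) (nat_lit 21) (nat_lit 5) (nat_lit 20) (nat_lit 5) (nat_lit 318) (nat_lit 263) (nat_lit 139)) (XT.lf (nat_lit 0) (nat_lit 17166620673) (nat_lit 152) (nat_lit 40074003472) (nat_lit 76) (nat_lit 23042163828) (nat_lit 19) (nat_lit 5) (nat_lit 21) (nat_lit 5) (nat_lit 20) (nat_lit 5) (nat_lit 319) (nat_lit 263) (nat_lit 138))))) (XT.nd (nat_lit 156) (nat_lit 76) (nat_lit 0) (XT.nd (nat_lit 78) (nat_lit 152) (nat_lit 0) (XT.lf (nat_lit 0) (nat_lit 31415294207) (nat_lit 152) (nat_lit 7259388626) (nat_lit 76) (nat_lit 44973612601) (nat_lit 19) (nat_lit 5) (nat_lit 21) (nat_lit 5) (nat_lit 20) (nat_lit 5) (nat_lit 320)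 (nat_lit 263) (nat_lit 137)) (XT.lf (nat_lit 0) (nat_lit 27729860085) (nat_lit 152) (nat_lit 18908730338) (nat_lit 228) (nat_lit 40535626919) (nat_lit 17) (nat_lit 5) (nat_lit 19) (nat_lit 5) (nat_lit 20) (nat_lit 5) (nat_lit 321) (nat_lit 263) (nat_lit 136))) (XT.nd (nat_lit 78) (nat_lit 76) (nat_lit 0) (XT.lf (nat_lit 0) (nat_lit 62712007260) (nat_lit 228) (nat_lit 26279506948) (nat_lit 76) (nat_lit 1882256979) (nat_lit 17) (nat_lit 5) (nat_lit 20) (nat_lit 5) (nat_lit 18) (nat_lit 4) (nat_lit 322) (nat_lit 263) (nat_lit 135)) (XT.nd (nat_lit 78) (nat_lit 0) (nat_lit 0) (XT.lf (nat_lit 0) (nat_lit 8512070518) (nat_lit 76) (nat_lit 71345647242) (nat_lit 152) (nat_lit 14892530585) (nat_lit 16) (nat_lit 5) (nat_lit 17) (nat_lit 5) (nat_lit 18) (nat_lit 4) (nat_lit 323) (nat_lit 263) (nat_lit 134)) (XT.lf (nat_lit 0) (nat_lit 45585819095) (nat_lit 76) (nat_lit 52541497938) (nat_lit 152) (nat_lit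 685238324) (nat_lit 16) (nat_lit 5) (nat_lit 17) (nat_lit 5) (nat_lit 18) (nat_lit 4) (nat_lit 324) (nat_lit 263) (nat_lit 133)))))) (XT.nd (nat_lit 33072) (nat_lit 0) (nat_lit 10564) (XT.nd (nat_lit 32838) (nat_lit 0) (nat_lit 10412) (XT.nd (nat_lit 32760) (nat_lit 0) (nat_lit 10336) (XT.lf (nat_lit 0) (nat_lit 13950917631) (nat_lit 152) (nat_lit 18707871462) (nat_lit 76) (nat_lit 70415201352) (nat_lit 15) (nat_lit 5) (nat_lit 17) (nat_lit 5) (nat_lit 16) (nat_lit 5) (nat_lit 325) (nat_lit 263) (nat_lit 132)) (XT.lf (nat_lit 0) (nat_lit 489542570) (nat_lit 1140) (nat_lit 3134016427) (nat_lit 1140) (nat_lit 3134016427) (nat_lit 151) (nat_lit 3) (nat_lit 166) (nat_lit 3) (nat_lit 166) (nat_lit 5) (nat_lit 264) (nat_lit 264) (nat_lit 192))) (XT.nd (nat_lit 78) (nat_lit 0) (nat_lit 0) (XT.lf (nat_lit 0) (nat_lit 1600841892) (nat_lit 1064) (nat_lit 10685642698) (nat_lit 1140) (nat_lit 1547278970)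 (nat_lit 152) (nat_lit 5) (nat_lit 166) (nat_lit 5) (nat_lit 167) (nat_lit 5) (nat_lit 265) (nat_lit 264) (nat_lit 191)) (XT.nd (nat_lit 78) (nat_lit 0) (nat_lit 76) (XT.lf (nat_lit 0) (nat_lit 2356664260) (nat_lit 1064) (nat_lit 1093998287) (nat_lit 1140) (nat_lit 10714641295) (nat_lit 152) (nat_lit 5) (nat_lit 166) (nat_lit 5) (nat_lit 167) (nat_lit 5) (nat_lit 266) (nat_lit 264) (nat_lit 190)) (XT.lf (nat_lit 0) (nat_lit 3261477519) (nat_lit 1064) (nat_lit 5432344609) (nat_lit 1140) (nat_lit 5816345176) (nat_lit 153) (nat_lit 5) (nat_lit 167) (nat_lit 5) (nat_lit 168) (nat_lit 5) (nat_lit 267) (nat_lit 264) (nat_lit 189))))) (XT.nd (nat_lit 234) (nat_lit 0) (nat_lit 76) (XT.nd (nat_lit 78) (nat_lit 0) (nat_lit 0) (XT.lf (nat_lit 0) (nat_lit 4279753541) (nat_lit 1064) (nat_lit 9925775100) (nat_lit 1140) (nat_lit 664776881) (nat_lit 154) (nat_lit 5) (nat_lit 168) (nat_lit 5) (nat_lit 169)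 (nat_lit 5) (nat_lit 268) (nat_lit 264) (nat_lit 188)) (XT.nd (nat_lit 78) (nat_lit 0) (nat_lit 76) (XT.lf (nat_lit 76) (nat_lit 610464845) (nat_lit 0) (nat_lit 4857936901) (nat_lit 1140) (nat_lit 9776539676) (nat_lit 155) (nat_lit 5) (nat_lit 154) (nat_lit 5) (nat_lit 169) (nat_lit 5) (nat_lit 269) (nat_lit 264) (nat_lit 187)) (XT.lf (nat_lit 0) (nat_lit 6838052530) (nat_lit 1064) (nat_lit 3823579128) (nat_lit 1140) (nat_lit 4973101328) (nat_lit 155) (nat_lit 5) (nat_lit 169) (nat_lit 5) (nat_lit 170) (nat_lit 5) (nat_lit 270) (nat_lit 264) (nat_lit 186)))) (XT.nd (nat_lit 78) (nat_lit 0) (nat_lit 76) (XT.lf (nat_lit 76) (nat_lit 7607655121) (nat_lit 0) (nat_lit 762817612) (nat_lit 1140) (nat_lit 7670780379) (nat_lit 156) (nat_lit 5) (nat_lit 155) (nat_lit 5) (nat_lit 170) (nat_lit 5) (nat_lit 271) (nat_lit 264) (nat_lit 185)) (XT.nd (nat_lit 78) (nat_lit 0) (nat_lit 76) (XT.lf (nat_lit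 76) (nat_lit 3172364474) (nat_lit 0) (nat_lit 6943315618) (nat_lit 1140) (nat_lit 6348398545) (nat_lit 157) (nat_lit 5) (nat_lit 156) (nat_lit 5) (nat_lit 171) (nat_lit 5) (nat_lit 272) (nat_lit 264) (nat_lit 184)) (XT.lf (nat_lit 0) (nat_lit 12050567012) (nat_lit 1064) (nat_lit 1432016646) (nat_lit 1140) (nat_lit 3422450512) (nat_lit 157) (nat_lit 5) (nat_lit 171) (nat_lit 5) (nat_lit 172) (nat_lit 5) (nat_lit 273) (nat_lit 264) (nat_lit 183))))))) (XT.nd (nat_lit 780) (nat_lit 2736) (nat_lit 0) (XT.nd (nat_lit 390) (nat_lit 1976) (nat_lit 0) (XT.nd (nat_lit 156) (nat_lit 1292) (nat_lit 0) (XT.nd (nat_lit 78) (nat_lit 988) (nat_lit 0) (XT.lf (nat_lit 76) (nat_lit 11148785817) (nat_lit 0) (nat_lit 3086361527) (nat_lit 1140) (nat_lit 3128360054) (nat_lit 158) (nat_lit 5) (nat_lit 157) (nat_lit 5) (nat_lit 172) (nat_lit 5) (nat_lit 274) (nat_lit 264) (nat_lit 182)) (XT.lf (nat_lit 0) (nat_lit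 6577434750) (nat_lit 1064) (nat_lit 10081618697) (nat_lit 1140) (nat_lit 1182003545) (nat_lit 144) (nat_lit 5) (nat_lit 158) (nat_lit 5) (nat_lit 159) (nat_lit 5) (nat_lit 275) (nat_lit 264) (nat_lit 181))) (XT.nd (nat_lit 78) (nat_lit 532) (nat_lit 0) (XT.lf (nat_lit 0) (nat_lit 943096186) (nat_lit 760) (nat_lit 16574134696) (nat_lit 76) (nat_lit 822108925) (nat_lit 134) (nat_lit 5) (nat_lit 144) (nat_lit 5) (nat_lit 135) (nat_lit 5) (nat_lit 276) (nat_lit 264) (nat_lit 180)) (XT.nd (nat_lit 78) (nat_lit 532) (nat_lit 0) (XT.lf (nat_lit 0) (nat_lit 3347379288) (nat_lit 760) (nat_lit 3312746279) (nat_lit 76) (nat_lit 12196187856) (nat_lit 134) (nat_lit 5) (nat_lit 144) (nat_lit 5) (nat_lit 135) (nat_lit 5) (nat_lit 277) (nat_lit 264) (nat_lit 179)) (XT.lf (nat_lit 0) (nat_lit 6001664870) (nat_lit 608) (nat_lit 8639529424) (nat_lit 76) (nat_lit 4754094413) (nat_lit 127) (nat_lit 5) (nat_lit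 135) (nat_lit 5) (nat_lit 128) (nat_lit 5) (nat_lit 278) (nat_lit 264) (nat_lit 178))))) (XT.nd (nat_lit 156) (nat_lit 988) (nat_lit 0) (XT.nd (nat_lit 78) (nat_lit 456) (nat_lit 0) (XT.lf (nat_lit 0) (nat_lit 5660744918) (nat_lit 532) (nat_lit 3264148134) (nat_lit 608) (nat_lit 11032277270) (nat_lit 120) (nat_lit 5) (nat_lit 127) (nat_lit 5) (nat_lit 128) (nat_lit 5) (nat_lit 279) (nat_lit 264) (nat_lit 177)) (XT.lf (nat_lit 0) (nat_lit 212952182) (nat_lit 456) (nat_lit 11937576653) (nat_lit 532) (nat_lit 8391972100) (nat_lit 114) (nat_lit 5) (nat_lit 120) (nat_lit 5) (nat_lit 121) (nat_lit 5) (nat_lit 280) (nat_lit 264) (nat_lit 176))) (XT.nd (nat_lit 78) (nat_lit 988) (nat_lit 0) (XT.lf (nat_lit 0) (nat_lit 15694529739) (nat_lit 456) (nat_lit 4367690) (nat_lit 532) (nat_lit 5453397406) (nat_lit 114) (nat_lit 5) (nat_lit 120) (nat_lit 5) (nat_lit 121) (nat_lit 5) (nat_lit 281) (nat_lit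 264) (nat_lit 175)) (XT.nd (nat_lit 78) (nat_lit 532) (nat_lit 0) (XT.lf (nat_lit 0) (nat_lit 10218499570) (nat_lit 456) (nat_lit 9407345883) (nat_lit 532) (nat_lit 2160736517) (nat_lit 108) (nat_lit 5) (nat_lit 114) (nat_lit 5) (nat_lit 115) (nat_lit 5) (nat_lit 282) (nat_lit 264) (nat_lit 174)) (XT.lf (nat_lit 0) (nat_lit 1382547408) (nat_lit 532) (nat_lit 18082538564) (nat_lit 76) (nat_lit 2983820353) (nat_lit 101) (nat_lit 5) (nat_lit 108) (nat_lit 5) (nat_lit 102) (nat_lit 5) (nat_lit 283) (nat_lit 264) (nat_lit 173)))))) (XT.nd (nat_lit 390) (nat_lit 1520) (nat_lit 0) (XT.nd (nat_lit 156) (nat_lit 760) (nat_lit 0) (XT.nd (nat_lit 78) (nat_lit 456) (nat_lit 0) (XT.lf (nat_lit 0) (nat_lit 5257560570) (nat_lit 532) (nat_lit 1937393227) (nat_lit 76) (nat_lit 15942807514) (nat_lit 101) (nat_lit 5) (nat_lit 108) (nat_lit 5) (nat_lit 102) (nat_lit 5) (nat_lit 284) (nat_lit 264) (nat_lit 172))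 (XT.lf (nat_lit 0) (nat_lit 9513891037) (nat_lit 532) (nat_lit 8616879749) (nat_lit 76) (nat_lit 5724693440) (nat_lit 95) (nat_lit 5) (nat_lit 102) (nat_lit 5) (nat_lit 96) (nat_lit 5) (nat_lit 285) (nat_lit 264) (nat_lit 171))) (XT.nd (nat_lit 78) (nat_lit 380) (nat_lit 0) (XT.lf (nat_lit 0) (nat_lit 8786960497) (nat_lit 380) (nat_lit 5358276293) (nat_lit 456) (nat_lit 10458980182) (nat_lit 90) (nat_lit 5) (nat_lit 95) (nat_lit 5) (nat_lit 96) (nat_lit 5) (nat_lit 286) (nat_lit 264) (nat_lit 170)) (XT.nd (nat_lit 78) (nat_lit 0) (nat_lit 0) (XT.lf (nat_lit 0) (nat_lit 1792981157) (nat_lit 380) (nat_lit 17384901486) (nat_lit 456) (nat_lit 6207461916) (nat_lit 85) (nat_lit 5) (nat_lit 90) (nat_lit 5) (nat_lit 91) (nat_lit 5) (nat_lit 287) (nat_lit 264) (nat_lit 169)) (XT.lf (nat_lit 0) (nat_lit 20542561137) (nat_lit 380) (nat_lit 4122014903) (nat_lit 456) (nat_lit 1534907825) (nat_lit 85)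 (nat_lit 5) (nat_lit 90) (nat_lit 5) (nat_lit 91) (nat_lit 5) (nat_lit 288) (nat_lit 264) (nat_lit 168))))) (XT.nd (nat_lit 234) (nat_lit 684) (nat_lit 0) (XT.nd (nat_lit 78) (nat_lit 380) (nat_lit 0) (XT.lf (nat_lit 0) (nat_lit 3516540637) (nat_lit 456) (nat_lit 13757656362) (nat_lit 76) (nat_lit 9772855066) (nat_lit 79) (nat_lit 5) (nat_lit 85) (nat_lit 5) (nat_lit 80) (nat_lit 5) (nat_lit 289) (nat_lit 264) (nat_lit 167)) (XT.nd (nat_lit 78) (nat_lit 0) (nat_lit 0) (XT.lf (nat_lit 0) (nat_lit 5397667483) (nat_lit 380) (nat_lit 3530755838) (nat_lit 456) (nat_lit 19003955739) (nat_lit 74) (nat_lit 5) (nat_lit 79) (nat_lit 5) (nat_lit 80) (nat_lit 5) (nat_lit 290) (nat_lit 264) (nat_lit 166)) (XT.lf (nat_lit 0) (nat_lit 14846153042) (nat_lit 456) (nat_lit 3181540583) (nat_lit 76) (nat_lit 10827244506) (nat_lit 74) (nat_lit 5) (nat_lit 80) (nat_lit 5) (nat_lit 75) (nat_lit 5) (nat_lit 291)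 (nat_lit 264) (nat_lit 165)))) (XT.nd (nat_lit 78) (nat_lit 380) (nat_lit 0) (XT.lf (nat_lit 0) (nat_lit 17428613265) (nat_lit 304) (nat_lit 3822376452) (nat_lit 380) (nat_lit 8566921028) (nat_lit 70) (nat_lit 5) (nat_lit 74) (nat_lit 5) (nat_lit 75) (nat_lit 5) (nat_lit 292) (nat_lit 264) (nat_lit 164)) (XT.nd (nat_lit 78) (nat_lit 76) (nat_lit 0) (XT.lf (nat_lit 0) (nat_lit 8348626584) (nat_lit 304) (nat_lit 19835850300) (nat_lit 380) (nat_lit 2638323993) (nat_lit 66) (nat_lit 5) (nat_lit 70) (nat_lit 5) (nat_lit 71) (nat_lit 5) (nat_lit 293) (nat_lit 264) (nat_lit 163)) (XT.lf (nat_lit 0) (nat_lit 3672819335) (nat_lit 380) (nat_lit 1580932506) (nat_lit 76) (nat_lit 26618485720) (nat_lit 65) (nat_lit 5) (nat_lit 70) (nat_lit 5) (nat_lit 66) (nat_lit 5) (nat_lit 294) (nat_lit 264) (nat_lit 162))))))))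
noncomputable def xc94 : XT := (XT.nd (nat_lit 1638) (nat_lit 532) (nat_lit 0) (XT.nd (nat_lit 780) (nat_lit 1216) (nat_lit 0) (XT.nd (nat_lit 390) (nat_lit 760) (nat_lit 0) (XT.nd (nat_lit 156) (nat_lit 608) (nat_lit 0) (XT.nd (nat_lit 78) (nat_lit 304) (nat_lit 0) (XT.lf (nat_lit 0) (nat_lit 10532785244) (nat_lit 380) (nat_lit 12346061827) (nat_lit 76) (nat_lit 10085899069) (nat_lit 61) (nat_lit 5) (nat_lit 66) (nat_lit 5) (nat_lit 62) (nat_lit 5) (nat_lit 295) (nat_lit 264) (nat_lit 161)) (XT.lf (nat_lit 0) (nat_lit 9977400569) (nat_lit 304) (nat_lit 7913330326) (nat_lit 380) (nat_lit 16216517543) (nat_lit 57) (nat_lit 5) (nat_lit 61) (nat_lit 5) (nat_lit 62) (nat_lit 5) (nat_lit 296) (nat_lit 264) (nat_lit 160))) (XT.nd (nat_lit 78) (nat_lit 608) (nat_lit 0) (XT.lf (nat_lit 0) (nat_lit 25809845641) (nat_lit 380) (nat_lit 1718185400) (nat_lit 76) (nat_lit 7773063547) (nat_lit 57) (nat_lit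 5) (nat_lit 62) (nat_lit 5) (nat_lit 58) (nat_lit 5) (nat_lit 297) (nat_lit 264) (nat_lit 159)) (XT.nd (nat_lit 78) (nat_lit 380) (nat_lit 0) (XT.lf (nat_lit 0) (nat_lit 22153227223) (nat_lit 228) (nat_lit 12254928382) (nat_lit 304) (nat_lit 2137996342) (nat_lit 54) (nat_lit 5) (nat_lit 57) (nat_lit 5) (nat_lit 58) (nat_lit 5) (nat_lit 298) (nat_lit 264) (nat_lit 158)) (XT.lf (nat_lit 0) (nat_lit 5611926528) (nat_lit 380) (nat_lit 28366757938) (nat_lit 76) (nat_lit 3869044074) (nat_lit 49) (nat_lit 5) (nat_lit 54) (nat_lit 5) (nat_lit 50) (nat_lit 5) (nat_lit 299) (nat_lit 264) (nat_lit 157))))) (XT.nd (nat_lit 156) (nat_lit 532) (nat_lit 0) (XT.nd (nat_lit 78) (nat_lit 228) (nat_lit 0) (XT.lf (nat_lit 0) (nat_lit 13969793062) (nat_lit 380) (nat_lit 4520294331) (nat_lit 76) (nat_lit 20715735748) (nat_lit 49) (nat_lit 5) (nat_lit 54) (nat_lit 5) (nat_lit 50) (nat_lit 5) (nat_lit 300) (nat_lit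 264) (nat_lit 156)) (XT.lf (nat_lit 0) (nat_lit 20914274322) (nat_lit 228) (nat_lit 2023683355) (nat_lit 304) (nat_lit 17688106145) (nat_lit 46) (nat_lit 5) (nat_lit 49) (nat_lit 5) (nat_lit 50) (nat_lit 5) (nat_lit 301) (nat_lit 264) (nat_lit 155))) (XT.nd (nat_lit 78) (nat_lit 304) (nat_lit 0) (XT.lf (nat_lit 0) (nat_lit 5547959563) (nat_lit 228) (nat_lit 27045266117) (nat_lit 304) (nat_lit 9516942849) (nat_lit 43) (nat_lit 5) (nat_lit 46) (nat_lit 5) (nat_lit 47) (nat_lit 5) (nat_lit 302) (nat_lit 264) (nat_lit 154)) (XT.nd (nat_lit 78) (nat_lit 304) (nat_lit 0) (XT.lf (nat_lit 0) (nat_lit 32449926771) (nat_lit 228) (nat_lit 10496381004) (nat_lit 304) (nat_lit 715731413) (nat_lit 43) (nat_lit 5) (nat_lit 46) (nat_lit 5) (nat_lit 47) (nat_lit 5) (nat_lit 303) (nat_lit 264) (nat_lit 153)) (XT.lf (nat_lit 0) (nat_lit 8569899247) (nat_lit 304) (nat_lit 29736364024) (nat_lit 76) (nat_lit 6976471164)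 (nat_lit 39) (nat_lit 5) (nat_lit 43) (nat_lit 5) (nat_lit 40) (nat_lit 5) (nat_lit 304) (nat_lit 264) (nat_lit 152)))))) (XT.nd (nat_lit 390) (nat_lit 532) (nat_lit 0) (XT.nd (nat_lit 156) (nat_lit 456) (nat_lit 0) (XT.nd (nat_lit 78) (nat_lit 228) (nat_lit 0) (XT.lf (nat_lit 0) (nat_lit 18520087647) (nat_lit 304) (nat_lit 3229564784) (nat_lit 76) (nat_lit 25228157836) (nat_lit 39) (nat_lit 5) (nat_lit 43) (nat_lit 5) (nat_lit 40) (nat_lit 5) (nat_lit 305) (nat_lit 264) (nat_lit 151)) (XT.lf (nat_lit 0) (nat_lit 25081207561) (nat_lit 228) (nat_lit 4120470906) (nat_lit 304) (nat_lit 19548954894) (nat_lit 36) (nat_lit 5) (nat_lit 39) (nat_lit 5) (nat_lit 40) (nat_lit 5) (nat_lit 306) (nat_lit 264) (nat_lit 150))) (XT.nd (nat_lit 78) (nat_lit 304) (nat_lit 0) (XT.lf (nat_lit 0) (nat_lit 4196471722) (nat_lit 152) (nat_lit 36426123431) (nat_lit 228) (nat_lit 9983354842) (nat_lit 34) (nat_lit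 5) (nat_lit 36) (nat_lit 5) (nat_lit 37) (nat_lit 5) (nat_lit 307) (nat_lit 264) (nat_lit 149)) (XT.nd (nat_lit 78) (nat_lit 228) (nat_lit 0) (XT.lf (nat_lit 0) (nat_lit 340164227) (nat_lit 228) (nat_lit 18651526735) (nat_lit 76) (nat_lit 33553908479) (nat_lit 33) (nat_lit 5) (nat_lit 36) (nat_lit 5) (nat_lit 34) (nat_lit 5) (nat_lit 308) (nat_lit 264) (nat_lit 148)) (XT.lf (nat_lit 0) (nat_lit 10590205000) (nat_lit 228) (nat_lit 480390464) (nat_lit 304) (nat_lit 43505762930) (nat_lit 30) (nat_lit 5) (nat_lit 33) (nat_lit 5) (nat_lit 34) (nat_lit 5) (nat_lit 309) (nat_lit 264) (nat_lit 147))))) (XT.nd (nat_lit 234) (nat_lit 380) (nat_lit 0) (XT.nd (nat_lit 78) (nat_lit 152) (nat_lit 0) (XT.lf (nat_lit 0) (nat_lit 22707343698) (nat_lit 304) (nat_lit 15213115437) (nat_lit 76) (nat_lit 18777110495) (nat_lit 30) (nat_lit 5) (nat_lit 34) (nat_lit 5) (nat_lit 31) (nat_lit 5) (nat_lit 310) (nat_lit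 264) (nat_lit 146)) (XT.nd (nat_lit 78) (nat_lit 0) (nat_lit 0) (XT.lf (nat_lit 0) (nat_lit 15282530255) (nat_lit 152) (nat_lit 19789126328) (nat_lit 228) (nat_lit 23848820834) (nat_lit 28) (nat_lit 5) (nat_lit 30) (nat_lit 5) (nat_lit 31) (nat_lit 5) (nat_lit 311) (nat_lit 264) (nat_lit 145)) (XT.lf (nat_lit 0) (nat_lit 47611724735) (nat_lit 152) (nat_lit 593238577) (nat_lit 228) (nat_lit 13045051368) (nat_lit 28) (nat_lit 5) (nat_lit 30) (nat_lit 5) (nat_lit 31) (nat_lit 5) (nat_lit 312) (nat_lit 264) (nat_lit 144)))) (XT.nd (nat_lit 78) (nat_lit 228) (nat_lit 0) (XT.lf (nat_lit 0) (nat_lit 18016010495) (nat_lit 152) (nat_lit 44334571717) (nat_lit 228) (nat_lit 1334784273) (nat_lit 26) (nat_lit 5) (nat_lit 28) (nat_lit 5) (nat_lit 29) (nat_lit 5) (nat_lit 313) (nat_lit 264) (nat_lit 143)) (XT.nd (nat_lit 78) (nat_lit 152) (nat_lit 0) (XT.lf (nat_lit 0) (nat_lit 10889422345) (nat_lit 228)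 (nat_lit 14821701659) (nat_lit 76) (nat_lit 40523938068) (nat_lit 25) (nat_lit 5) (nat_lit 28) (nat_lit 5) (nat_lit 26) (nat_lit 5) (nat_lit 314) (nat_lit 264) (nat_lit 142)) (XT.lf (nat_lit 0) (nat_lit 17895776848) (nat_lit 152) (nat_lit 5968541477) (nat_lit 228) (nat_lit 45042521345) (nat_lit 23) (nat_lit 5) (nat_lit 25) (nat_lit 5) (nat_lit 26) (nat_lit 5) (nat_lit 315) (nat_lit 264) (nat_lit 141))))))) (XT.nd (nat_lit 33540) (nat_lit 0) (nat_lit 10260) (XT.nd (nat_lit 390) (nat_lit 228) (nat_lit 0) (XT.nd (nat_lit 156) (nat_lit 152) (nat_lit 0) (XT.nd (nat_lit 78) (nat_lit 152) (nat_lit 0) (XT.lf (nat_lit 0) (nat_lit 37778883025) (nat_lit 228) (nat_lit 19300360735) (nat_lit 76) (nat_lit 14624240611) (nat_lit 23) (nat_lit 5) (nat_lit 26) (nat_lit 5) (nat_lit 24) (nat_lit 5) (nat_lit 316) (nat_lit 264) (nat_lit 140)) (XT.lf (nat_lit 0) (nat_lit 14205028579) (nat_lit 152) (nat_lit 38376121045)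 (nat_lit 228) (nat_lit 22053058127) (nat_lit 21) (nat_lit 5) (nat_lit 23) (nat_lit 5) (nat_lit 24) (nat_lit 5) (nat_lit 317) (nat_lit 264) (nat_lit 139))) (XT.nd (nat_lit 78) (nat_lit 152) (nat_lit 0) (XT.lf (nat_lit 0) (nat_lit 49781434425) (nat_lit 152) (nat_lit 18536116136) (nat_lit 228) (nat_lit 9388101496) (nat_lit 21) (nat_lit 5) (nat_lit 23) (nat_lit 5) (nat_lit 24) (nat_lit 5) (nat_lit 318) (nat_lit 264) (nat_lit 138)) (XT.nd (nat_lit 78) (nat_lit 0) (nat_lit 0) (XT.lf (nat_lit 0) (nat_lit 3912731985) (nat_lit 152) (nat_lit 74667164734) (nat_lit 76) (nat_lit 2347281374) (nat_lit 19) (nat_lit 5) (nat_lit 21) (nat_lit 5) (nat_lit 20) (nat_lit 5) (nat_lit 319) (nat_lit 264) (nat_lit 137)) (XT.lf (nat_lit 0) (nat_lit 18159275093) (nat_lit 152) (nat_lit 41856065168) (nat_lit 76) (nat_lit 24277411519) (nat_lit 19) (nat_lit 5) (nat_lit 21) (nat_lit 5) (nat_lit 20) (nat_lit 5) (nat_lit 320)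 (nat_lit 264) (nat_lit 136))))) (XT.nd (nat_lit 156) (nat_lit 76) (nat_lit 0) (XT.nd (nat_lit 78) (nat_lit 152) (nat_lit 0) (XT.lf (nat_lit 0) (nat_lit 33113985953) (nat_lit 152) (nat_lit 7411273793) (nat_lit 76) (nat_lit 47301473707) (nat_lit 19) (nat_lit 5) (nat_lit 21) (nat_lit 5) (nat_lit 20) (nat_lit 5) (nat_lit 321) (nat_lit 264) (nat_lit 135)) (XT.lf (nat_lit 0) (nat_lit 29321386665) (nat_lit 152) (nat_lit 19772939458) (nat_lit 228) (nat_lit 42434755574) (nat_lit 17) (nat_lit 5) (nat_lit 19) (nat_lit 5) (nat_lit 20) (nat_lit 5) (nat_lit 322) (nat_lit 264) (nat_lit 134))) (XT.nd (nat_lit 78) (nat_lit 76) (nat_lit 0) (XT.lf (nat_lit 0) (nat_lit 65966261897) (nat_lit 228) (nat_lit 27395292506) (nat_lit 76) (nat_lit 2052219692) (nat_lit 17) (nat_lit 5) (nat_lit 20) (nat_lit 5) (nat_lit 18) (nat_lit 4) (nat_lit 323) (nat_lit 264) (nat_lit 133)) (XT.nd (nat_lit 78) (nat_lit 0) (nat_lit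 0) (XT.lf (nat_lit 0) (nat_lit 9130182763) (nat_lit 76) (nat_lit 74835275465) (nat_lit 152) (nat_lit 15518736872) (nat_lit 16) (nat_lit 5) (nat_lit 17) (nat_lit 5) (nat_lit 18) (nat_lit 4) (nat_lit 324) (nat_lit 264) (nat_lit 132)) (XT.lf (nat_lit 0) (nat_lit 48048451688) (nat_lit 76) (nat_lit 55094616513) (nat_lit 152) (nat_lit 606719058) (nat_lit 16) (nat_lit 5) (nat_lit 17) (nat_lit 5) (nat_lit 18) (nat_lit 4) (nat_lit 325) (nat_lit 264) (nat_lit 131)))))) (XT.nd (nat_lit 390) (nat_lit 0) (nat_lit 228) (XT.nd (nat_lit 156) (nat_lit 0) (nat_lit 76) (XT.nd (nat_lit 78) (nat_lit 0) (nat_lit 76) (XT.lf (nat_lit 0) (nat_lit 1057104506) (nat_lit 1140) (nat_lit 3010365257) (nat_lit 1140) (nat_lit 3010365257) (nat_lit 151) (nat_lit 3) (nat_lit 166) (nat_lit 3) (nat_lit 166) (nat_lit 5) (nat_lit 265) (nat_lit 265) (nat_lit 190)) (XT.lf (nat_lit 0) (nat_lit 2715807837) (nat_lit 1064) (nat_lit 10636817191)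 (nat_lit 1140) (nat_lit 1139252080) (nat_lit 152) (nat_lit 5) (nat_lit 166) (nat_lit 5) (nat_lit 167) (nat_lit 5) (nat_lit 266) (nat_lit 265) (nat_lit 189))) (XT.nd (nat_lit 78) (nat_lit 0) (nat_lit 76) (XT.lf (nat_lit 0) (nat_lit 3460139235) (nat_lit 1064) (nat_lit 593357590) (nat_lit 1140) (nat_lit 10788096370) (nat_lit 152) (nat_lit 5) (nat_lit 166) (nat_lit 5) (nat_lit 167) (nat_lit 5) (nat_lit 267) (nat_lit 265) (nat_lit 188)) (XT.nd (nat_lit 78) (nat_lit 0) (nat_lit 76) (XT.lf (nat_lit 0) (nat_lit 4364555077) (nat_lit 1064) (nat_lit 5130043206) (nat_lit 1140) (nat_lit 5710585288) (nat_lit 153) (nat_lit 5) (nat_lit 167) (nat_lit 5) (nat_lit 168) (nat_lit 5) (nat_lit 268) (nat_lit 265) (nat_lit 187)) (XT.lf (nat_lit 0) (nat_lit 5391043134) (nat_lit 1064) (nat_lit 9832097226) (nat_lit 1140) (nat_lit 361578537) (nat_lit 154) (nat_lit 5) (nat_lit 168) (nat_lit 5) (nat_lit 169) (nat_lit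 5) (nat_lit 269) (nat_lit 265) (nat_lit 186))))) (XT.nd (nat_lit 234) (nat_lit 0) (nat_lit 152) (XT.nd (nat_lit 78) (nat_lit 0) (nat_lit 76) (XT.lf (nat_lit 76) (nat_lit 1214043441) (nat_lit 0) (nat_lit 5387860204) (nat_lit 1140) (nat_lit 9377403495) (nat_lit 155) (nat_lit 5) (nat_lit 154) (nat_lit 5) (nat_lit 169) (nat_lit 5) (nat_lit 270) (nat_lit 265) (nat_lit 185)) (XT.nd (nat_lit 78) (nat_lit 0) (nat_lit 0) (XT.lf (nat_lit 0) (nat_lit 7996453001) (nat_lit 1064) (nat_lit 3439809720) (nat_lit 1140) (nat_lit 4953732073) (nat_lit 155) (nat_lit 5) (nat_lit 169) (nat_lit 5) (nat_lit 170) (nat_lit 5) (nat_lit 271) (nat_lit 265) (nat_lit 184)) (XT.lf (nat_lit 76) (nat_lit 8546505462) (nat_lit 0) (nat_lit 1025476236) (nat_lit 1140) (nat_lit 7245958887) (nat_lit 156) (nat_lit 5) (nat_lit 155) (nat_lit 5) (nat_lit 170) (nat_lit 5) (nat_lit 272) (nat_lit 265) (nat_lit 183)))) (XT.nd (nat_lit 78)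 (nat_lit 0) (nat_lit 76) (XT.lf (nat_lit 76) (nat_lit 3900186067) (nat_lit 0) (nat_lit 7470394443) (nat_lit 1140) (nat_lit 5892432735) (nat_lit 157) (nat_lit 5) (nat_lit 156) (nat_lit 5) (nat_lit 171) (nat_lit 5) (nat_lit 273) (nat_lit 265) (nat_lit 182)) (XT.nd (nat_lit 78) (nat_lit 0) (nat_lit 0) (XT.lf (nat_lit 0) (nat_lit 13364892485) (nat_lit 1064) (nat_lit 936758310) (nat_lit 1140) (nat_lit 3425570855) (nat_lit 157) (nat_lit 5) (nat_lit 171) (nat_lit 5) (nat_lit 172) (nat_lit 5) (nat_lit 274) (nat_lit 265) (nat_lit 181)) (XT.lf (nat_lit 76) (nat_lit 12256835372) (nat_lit 0) (nat_lit 3373264163) (nat_lit 1140) (nat_lit 2579458516) (nat_lit 158) (nat_lit 5) (nat_lit 157) (nat_lit 5) (nat_lit 172) (nat_lit 5) (nat_lit 275) (nat_lit 265) (nat_lit 180))))))))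
noncomputable def xc95 : XT := (XT.nd (nat_lit 1638) (nat_lit 3040) (nat_lit 0) (XT.nd (nat_lit 780) (nat_lit 3040) (nat_lit 0) (XT.nd (nat_lit 390) (nat_lit 1444) (nat_lit 0) (XT.nd (nat_lit 156) (nat_lit 1064) (nat_lit 0) (XT.nd (nat_lit 78) (nat_lit 760) (nat_lit 0) (XT.lf (nat_lit 0) (nat_lit 7463862087) (nat_lit 1064) (nat_lit 10682951541) (nat_lit 1140) (nat_lit 565100682) (nat_lit 144) (nat_lit 5) (nat_lit 158) (nat_lit 5) (nat_lit 159) (nat_lit 5) (nat_lit 276) (nat_lit 265) (nat_lit 179)) (XT.lf (nat_lit 0) (nat_lit 1626067330) (nat_lit 760) (nat_lit 16825683642) (nat_lit 76) (nat_lit 784046934) (nat_lit 134) (nat_lit 5) (nat_lit 144) (nat_lit 5) (nat_lit 135) (nat_lit 5) (nat_lit 277) (nat_lit 265) (nat_lit 178))) (XT.nd (nat_lit 78) (nat_lit 1064) (nat_lit 0) (XT.lf (nat_lit 0) (nat_lit 4120287618) (nat_lit 760) (nat_lit 2928709508) (nat_lit 76) (nat_lit 12730599689) (nat_lit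 134) (nat_lit 5) (nat_lit 144) (nat_lit 5) (nat_lit 135) (nat_lit 5) (nat_lit 278) (nat_lit 265) (nat_lit 177)) (XT.nd (nat_lit 78) (nat_lit 532) (nat_lit 0) (XT.lf (nat_lit 0) (nat_lit 6883123991) (nat_lit 608) (nat_lit 8518371343) (nat_lit 76) (nat_lit 4944815485) (nat_lit 127) (nat_lit 5) (nat_lit 135) (nat_lit 5) (nat_lit 128) (nat_lit 5) (nat_lit 279) (nat_lit 265) (nat_lit 176)) (XT.lf (nat_lit 0) (nat_lit 6481061226) (nat_lit 532) (nat_lit 3448932447) (nat_lit 608) (nat_lit 11007030395) (nat_lit 120) (nat_lit 5) (nat_lit 127) (nat_lit 5) (nat_lit 128) (nat_lit 5) (nat_lit 280) (nat_lit 265) (nat_lit 175))))) (XT.nd (nat_lit 156) (nat_lit 988) (nat_lit 0) (XT.nd (nat_lit 78) (nat_lit 0) (nat_lit 0) (XT.lf (nat_lit 0) (nat_lit 763167988) (nat_lit 456) (nat_lit 12532120192) (nat_lit 532) (nat_lit 8257040727) (nat_lit 114) (nat_lit 5) (nat_lit 120) (nat_lit 5) (nat_lit 121) (nat_lit 5)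 (nat_lit 281) (nat_lit 265) (nat_lit 174)) (XT.lf (nat_lit 0) (nat_lit 16993130700) (nat_lit 456) (nat_lit 2361986) (nat_lit 532) (nat_lit 5197943487) (nat_lit 114) (nat_lit 5) (nat_lit 120) (nat_lit 5) (nat_lit 121) (nat_lit 5) (nat_lit 282) (nat_lit 265) (nat_lit 173))) (XT.nd (nat_lit 78) (nat_lit 532) (nat_lit 0) (XT.lf (nat_lit 0) (nat_lit 11244549344) (nat_lit 456) (nat_lit 9854846518) (nat_lit 532) (nat_lit 1760677088) (nat_lit 108) (nat_lit 5) (nat_lit 114) (nat_lit 5) (nat_lit 115) (nat_lit 5) (nat_lit 283) (nat_lit 265) (nat_lit 172)) (XT.nd (nat_lit 78) (nat_lit 0) (nat_lit 0) (XT.lf (nat_lit 0) (nat_lit 1931349382) (nat_lit 532) (nat_lit 18460599854) (nat_lit 76) (nat_lit 3164022455) (nat_lit 101) (nat_lit 5) (nat_lit 108) (nat_lit 5) (nat_lit 102) (nat_lit 5) (nat_lit 284) (nat_lit 265) (nat_lit 171)) (XT.lf (nat_lit 0) (nat_lit 5977271554) (nat_lit 532) (nat_lit 1533247995)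 (nat_lit 76) (nat_lit 16769482255) (nat_lit 101) (nat_lit 5) (nat_lit 108) (nat_lit 5) (nat_lit 102) (nat_lit 5) (nat_lit 285) (nat_lit 265) (nat_lit 170)))))) (XT.nd (nat_lit 390) (nat_lit 1368) (nat_lit 0) (XT.nd (nat_lit 156) (nat_lit 836) (nat_lit 0) (XT.nd (nat_lit 78) (nat_lit 380) (nat_lit 0) (XT.lf (nat_lit 0) (nat_lit 10429793402) (nat_lit 532) (nat_lit 8547430723) (nat_lit 76) (nat_lit 6056909381) (nat_lit 95) (nat_lit 5) (nat_lit 102) (nat_lit 5) (nat_lit 96) (nat_lit 5) (nat_lit 286) (nat_lit 265) (nat_lit 169)) (XT.lf (nat_lit 0) (nat_lit 9712260737) (nat_lit 380) (nat_lit 5564154699) (nat_lit 456) (nat_lit 10544439931) (nat_lit 90) (nat_lit 5) (nat_lit 95) (nat_lit 5) (nat_lit 96) (nat_lit 5) (nat_lit 287) (nat_lit 265) (nat_lit 168))) (XT.nd (nat_lit 78) (nat_lit 456) (nat_lit 0) (XT.lf (nat_lit 0) (nat_lit 2367256881) (nat_lit 380) (nat_lit 18178476639) (nat_lit 456) (nat_lit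 6095795326) (nat_lit 85) (nat_lit 5) (nat_lit 90) (nat_lit 5) (nat_lit 91) (nat_lit 5) (nat_lit 288) (nat_lit 265) (nat_lit 167)) (XT.nd (nat_lit 78) (nat_lit 456) (nat_lit 0) (XT.lf (nat_lit 0) (nat_lit 22031238400) (nat_lit 380) (nat_lit 4256049056) (nat_lit 456) (nat_lit 1209710658) (nat_lit 85) (nat_lit 5) (nat_lit 90) (nat_lit 5) (nat_lit 91) (nat_lit 5) (nat_lit 289) (nat_lit 265) (nat_lit 166)) (XT.lf (nat_lit 0) (nat_lit 4072829687) (nat_lit 456) (nat_lit 13977501331) (nat_lit 76) (nat_lit 10336942763) (nat_lit 79) (nat_lit 5) (nat_lit 85) (nat_lit 5) (nat_lit 80) (nat_lit 5) (nat_lit 290) (nat_lit 265) (nat_lit 165))))) (XT.nd (nat_lit 234) (nat_lit 684) (nat_lit 0) (XT.nd (nat_lit 78) (nat_lit 304) (nat_lit 0) (XT.lf (nat_lit 0) (nat_lit 6122172496) (nat_lit 380) (nat_lit 3619386872) (nat_lit 456) (nat_lit 19575754315) (nat_lit 74) (nat_lit 5) (nat_lit 79) (nat_lit 5) (nat_lit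 80) (nat_lit 5) (nat_lit 291) (nat_lit 265) (nat_lit 164)) (XT.nd (nat_lit 78) (nat_lit 304) (nat_lit 0) (XT.lf (nat_lit 0) (nat_lit 15938517737) (nat_lit 456) (nat_lit 2897321464) (nat_lit 76) (nat_lit 11450693761) (nat_lit 74) (nat_lit 5) (nat_lit 80) (nat_lit 5) (nat_lit 75) (nat_lit 5) (nat_lit 292) (nat_lit 265) (nat_lit 163)) (XT.lf (nat_lit 0) (nat_lit 18730633081) (nat_lit 304) (nat_lit 3920432867) (nat_lit 380) (nat_lit 8646995136) (nat_lit 70) (nat_lit 5) (nat_lit 74) (nat_lit 5) (nat_lit 75) (nat_lit 5) (nat_lit 293) (nat_lit 265) (nat_lit 162)))) (XT.nd (nat_lit 78) (nat_lit 380) (nat_lit 0) (XT.lf (nat_lit 0) (nat_lit 9193872573) (nat_lit 304) (nat_lit 20726246588) (nat_lit 380) (nat_lit 2433439305) (nat_lit 66) (nat_lit 5) (nat_lit 70) (nat_lit 5) (nat_lit 71) (nat_lit 5) (nat_lit 294) (nat_lit 265) (nat_lit 161)) (XT.nd (nat_lit 78) (nat_lit 304) (nat_lit 0) (XT.lf (nat_lit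 0) (nat_lit 4170963814) (nat_lit 380) (nat_lit 1245731915) (nat_lit 76) (nat_lit 28039173158) (nat_lit 65) (nat_lit 5) (nat_lit 70) (nat_lit 5) (nat_lit 66) (nat_lit 5) (nat_lit 295) (nat_lit 265) (nat_lit 160)) (XT.lf (nat_lit 0) (nat_lit 11363770951) (nat_lit 380) (nat_lit 12552322128) (nat_lit 76) (nat_lit 10687240501) (nat_lit 61) (nat_lit 5) (nat_lit 66) (nat_lit 5) (nat_lit 62) (nat_lit 5) (nat_lit 296) (nat_lit 265) (nat_lit 159))))))) (XT.nd (nat_lit 858) (nat_lit 1140) (nat_lit 0) (XT.nd (nat_lit 390) (nat_lit 988) (nat_lit 0) (XT.nd (nat_lit 156) (nat_lit 608) (nat_lit 0) (XT.nd (nat_lit 78) (nat_lit 0) (nat_lit 0) (XT.lf (nat_lit 0) (nat_lit 10875530929) (nat_lit 304) (nat_lit 8203428204) (nat_lit 380) (nat_lit 16724346241) (nat_lit 57) (nat_lit 5) (nat_lit 61) (nat_lit 5) (nat_lit 62) (nat_lit 5) (nat_lit 297) (nat_lit 265) (nat_lit 158)) (XT.lf (nat_lit 0) (nat_lit 27381010764)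 (nat_lit 380) (nat_lit 1415950835) (nat_lit 76) (nat_lit 8260296357) (nat_lit 57) (nat_lit 5) (nat_lit 62) (nat_lit 5) (nat_lit 58) (nat_lit 5) (nat_lit 298) (nat_lit 265) (nat_lit 157))) (XT.nd (nat_lit 78) (nat_lit 380) (nat_lit 0) (XT.lf (nat_lit 0) (nat_lit 23637906354) (nat_lit 228) (nat_lit 12761588623) (nat_lit 304) (nat_lit 1965387879) (nat_lit 54) (nat_lit 5) (nat_lit 57) (nat_lit 5) (nat_lit 58) (nat_lit 5) (nat_lit 299) (nat_lit 265) (nat_lit 156)) (XT.nd (nat_lit 78) (nat_lit 0) (nat_lit 0) (XT.lf (nat_lit 0) (nat_lit 6158133901) (nat_lit 380) (nat_lit 29405843793) (nat_lit 76) (nat_lit 4167754017) (nat_lit 49) (nat_lit 5) (nat_lit 54) (nat_lit 5) (nat_lit 50) (nat_lit 5) (nat_lit 300) (nat_lit 265) (nat_lit 155)) (XT.lf (nat_lit 0) (nat_lit 14921245617) (nat_lit 380) (nat_lit 4385116627) (nat_lit 76) (nat_lit 21851768001) (nat_lit 49) (nat_lit 5) (nat_lit 54) (nat_lit 5) (nat_lit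 50) (nat_lit 5) (nat_lit 301) (nat_lit 265) (nat_lit 154))))) (XT.nd (nat_lit 234) (nat_lit 532) (nat_lit 0) (XT.nd (nat_lit 78) (nat_lit 228) (nat_lit 0) (XT.lf (nat_lit 0) (nat_lit 22310826950) (nat_lit 228) (nat_lit 2018318138) (nat_lit 304) (nat_lit 18320516891) (nat_lit 46) (nat_lit 5) (nat_lit 49) (nat_lit 5) (nat_lit 50) (nat_lit 5) (nat_lit 302) (nat_lit 265) (nat_lit 153)) (XT.nd (nat_lit 78) (nat_lit 0) (nat_lit 0) (XT.lf (nat_lit 0) (nat_lit 6172629039) (nat_lit 228) (nat_lit 28287228251) (nat_lit 304) (nat_lit 9748352130) (nat_lit 43) (nat_lit 5) (nat_lit 46) (nat_lit 5) (nat_lit 47) (nat_lit 5) (nat_lit 303) (nat_lit 265) (nat_lit 152)) (XT.lf (nat_lit 0) (nat_lit 34403157869) (nat_lit 228) (nat_lit 10916151319) (nat_lit 304) (nat_lit 518720021) (nat_lit 43) (nat_lit 5) (nat_lit 46) (nat_lit 5) (nat_lit 47) (nat_lit 5) (nat_lit 304) (nat_lit 265) (nat_lit 151)))) (XT.nd (nat_lit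 78) (nat_lit 228) (nat_lit 0) (XT.lf (nat_lit 0) (nat_lit 9219927587) (nat_lit 304) (nat_lit 30891276098) (nat_lit 76) (nat_lit 7428705836) (nat_lit 39) (nat_lit 5) (nat_lit 43) (nat_lit 5) (nat_lit 40) (nat_lit 5) (nat_lit 305) (nat_lit 265) (nat_lit 150)) (XT.nd (nat_lit 78) (nat_lit 228) (nat_lit 0) (XT.lf (nat_lit 0) (nat_lit 19657076198) (nat_lit 304) (nat_lit 3074941949) (nat_lit 76) (nat_lit 26588052503) (nat_lit 39) (nat_lit 5) (nat_lit 43) (nat_lit 5) (nat_lit 40) (nat_lit 5) (nat_lit 306) (nat_lit 265) (nat_lit 149)) (XT.lf (nat_lit 0) (nat_lit 26642308038) (nat_lit 228) (nat_lit 4223343113) (nat_lit 304) (nat_lit 20316110926) (nat_lit 36) (nat_lit 5) (nat_lit 39) (nat_lit 5) (nat_lit 40) (nat_lit 5) (nat_lit 307) (nat_lit 265) (nat_lit 148)))))) (XT.nd (nat_lit 390) (nat_lit 532) (nat_lit 0) (XT.nd (nat_lit 156) (nat_lit 380) (nat_lit 0) (XT.nd (nat_lit 78) (nat_lit 76) (nat_lit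 0) (XT.lf (nat_lit 0) (nat_lit 4709790447) (nat_lit 152) (nat_lit 38141975954) (nat_lit 228) (nat_lit 10278267192) (nat_lit 34) (nat_lit 5) (nat_lit 36) (nat_lit 5) (nat_lit 37) (nat_lit 5) (nat_lit 308) (nat_lit 265) (nat_lit 147)) (XT.lf (nat_lit 0) (nat_lit 547905423) (nat_lit 228) (nat_lit 19291012012) (nat_lit 76) (nat_lit 35327987879) (nat_lit 33) (nat_lit 5) (nat_lit 36) (nat_lit 5) (nat_lit 34) (nat_lit 5) (nat_lit 309) (nat_lit 265) (nat_lit 146))) (XT.nd (nat_lit 78) (nat_lit 152) (nat_lit 0) (XT.lf (nat_lit 0) (nat_lit 11404404914) (nat_lit 228) (nat_lit 404107396) (nat_lit 304) (nat_lit 45490892287) (nat_lit 30) (nat_lit 5) (nat_lit 33) (nat_lit 5) (nat_lit 34) (nat_lit 5) (nat_lit 310) (nat_lit 265) (nat_lit 145)) (XT.nd (nat_lit 78) (nat_lit 152) (nat_lit 0) (XT.lf (nat_lit 0) (nat_lit 24019235876) (nat_lit 304) (nat_lit 15698059579) (nat_lit 76) (nat_lit 19809628235) (nat_lit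 30) (nat_lit 5) (nat_lit 34) (nat_lit 5) (nat_lit 31) (nat_lit 5) (nat_lit 311) (nat_lit 265) (nat_lit 144)) (XT.lf (nat_lit 0) (nat_lit 16314465178) (nat_lit 152) (nat_lit 20681467612) (nat_lit 228) (nat_lit 24865229913) (nat_lit 28) (nat_lit 5) (nat_lit 30) (nat_lit 5) (nat_lit 31) (nat_lit 5) (nat_lit 312) (nat_lit 265) (nat_lit 143))))) (XT.nd (nat_lit 234) (nat_lit 304) (nat_lit 0) (XT.nd (nat_lit 78) (nat_lit 228) (nat_lit 0) (XT.lf (nat_lit 0) (nat_lit 50247366601) (nat_lit 152) (nat_lit 530410000) (nat_lit 228) (nat_lit 13529654449) (nat_lit 28) (nat_lit 5) (nat_lit 30) (nat_lit 5) (nat_lit 31) (nat_lit 5) (nat_lit 313) (nat_lit 265) (nat_lit 142)) (XT.nd (nat_lit 78) (nat_lit 76) (nat_lit 0) (XT.lf (nat_lit 0) (nat_lit 19168630563) (nat_lit 152) (nat_lit 46457572067) (nat_lit 228) (nat_lit 1238491904) (nat_lit 26) (nat_lit 5) (nat_lit 28) (nat_lit 5) (nat_lit 29) (nat_lit 5) (nat_lit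 314) (nat_lit 265) (nat_lit 141)) (XT.lf (nat_lit 0) (nat_lit 11586131794) (nat_lit 228) (nat_lit 15319746115) (nat_lit 76) (nat_lit 42636187468) (nat_lit 25) (nat_lit 5) (nat_lit 28) (nat_lit 5) (nat_lit 26) (nat_lit 5) (nat_lit 315) (nat_lit 265) (nat_lit 140)))) (XT.nd (nat_lit 78) (nat_lit 152) (nat_lit 0) (XT.lf (nat_lit 0) (nat_lit 19026639607) (nat_lit 152) (nat_lit 6178152810) (nat_lit 228) (nat_lit 47142797540) (nat_lit 23) (nat_lit 5) (nat_lit 25) (nat_lit 5) (nat_lit 26) (nat_lit 5) (nat_lit 316) (nat_lit 265) (nat_lit 139)) (XT.nd (nat_lit 78) (nat_lit 152) (nat_lit 0) (XT.lf (nat_lit 0) (nat_lit 39808886153) (nat_lit 228) (nat_lit 20036986522) (nat_lit 76) (nat_lit 15438388476) (nat_lit 23) (nat_lit 5) (nat_lit 26) (nat_lit 5) (nat_lit 24) (nat_lit 5) (nat_lit 317) (nat_lit 265) (nat_lit 138)) (XT.lf (nat_lit 0) (nat_lit 15137125440) (nat_lit 152) (nat_lit 40209556063) (nat_lit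 228) (nat_lit 23014984625) (nat_lit 21) (nat_lit 5) (nat_lit 23) (nat_lit 5) (nat_lit 24) (nat_lit 5) (nat_lit 318) (nat_lit 265) (nat_lit 137))))))))
noncomputable def xc96 : XT := (XT.nd (nat_lit 34476) (nat_lit 0) (nat_lit 2888) (XT.nd (nat_lit 33618) (nat_lit 0) (nat_lit 8968) (XT.nd (nat_lit 390) (nat_lit 76) (nat_lit 0) (XT.nd (nat_lit 156) (nat_lit 152) (nat_lit 0) (XT.nd (nat_lit 78) (nat_lit 152) (nat_lit 0) (XT.lf (nat_lit 0) (nat_lit 52481787510) (nat_lit 152) (nat_lit 19381616196) (nat_lit 228) (nat_lit 9723481420) (nat_lit 21) (nat_lit 5) (nat_lit 23) (nat_lit 5) (nat_lit 24) (nat_lit 5) (nat_lit 319) (nat_lit 265) (nat_lit 136)) (XT.lf (nat_lit 0) (nat_lit 4236295620) (nat_lit 152) (nat_lit 78189438706) (nat_lit 76) (nat_lit 2543825919) (nat_lit 19) (nat_lit 5) (nat_lit 21) (nat_lit 5) (nat_lit 20) (nat_lit 5) (nat_lit 320) (nat_lit 265) (nat_lit 135))) (XT.nd (nat_lit 78)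 (nat_lit 152) (nat_lit 0) (XT.lf (nat_lit 0) (nat_lit 19189074120) (nat_lit 152) (nat_lit 43747835794) (nat_lit 76) (nat_lit 25566692072) (nat_lit 19) (nat_lit 5) (nat_lit 21) (nat_lit 5) (nat_lit 20) (nat_lit 5) (nat_lit 321) (nat_lit 265) (nat_lit 134)) (XT.nd (nat_lit 78) (nat_lit 152) (nat_lit 0) (XT.lf (nat_lit 0) (nat_lit 34885718843) (nat_lit 152) (nat_lit 7590377832) (nat_lit 76) (nat_lit 49738366418) (nat_lit 19) (nat_lit 5) (nat_lit 21) (nat_lit 5) (nat_lit 20) (nat_lit 5) (nat_lit 322) (nat_lit 265) (nat_lit 133)) (XT.lf (nat_lit 0) (nat_lit 30973427496) (nat_lit 152) (nat_lit 20687910788) (nat_lit 228) (nat_lit 44440708599) (nat_lit 17) (nat_lit 5) (nat_lit 19) (nat_lit 5) (nat_lit 20) (nat_lit 5) (nat_lit 323) (nat_lit 265) (nat_lit 132))))) (XT.nd (nat_lit 32994) (nat_lit 0) (nat_lit 10260) (XT.nd (nat_lit 78) (nat_lit 76) (nat_lit 0) (XT.lf (nat_lit 0) (nat_lit 69372197915)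 (nat_lit 228) (nat_lit 28585293149) (nat_lit 76) (nat_lit 2223628739) (nat_lit 17) (nat_lit 5) (nat_lit 20) (nat_lit 5) (nat_lit 18) (nat_lit 4) (nat_lit 324) (nat_lit 265) (nat_lit 131)) (XT.lf (nat_lit 0) (nat_lit 9761302985) (nat_lit 76) (nat_lit 78506604646) (nat_lit 152) (nat_lit 16187263065) (nat_lit 16) (nat_lit 5) (nat_lit 17) (nat_lit 5) (nat_lit 18) (nat_lit 4) (nat_lit 325) (nat_lit 265) (nat_lit 130))) (XT.nd (nat_lit 78) (nat_lit 0) (nat_lit 76) (XT.lf (nat_lit 0) (nat_lit 1602553661) (nat_lit 1140) (nat_lit 2906595999) (nat_lit 1140) (nat_lit 2906595999) (nat_lit 151) (nat_lit 3) (nat_lit 166) (nat_lit 3) (nat_lit 166) (nat_lit 5) (nat_lit 266) (nat_lit 266) (nat_lit 188)) (XT.nd (nat_lit 78) (nat_lit 0) (nat_lit 0) (XT.lf (nat_lit 0) (nat_lit 3790304669) (nat_lit 1064) (nat_lit 10639762230) (nat_lit 1140) (nat_lit 755950884) (nat_lit 152) (nat_lit 5) (nat_lit 166) (nat_lit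 5) (nat_lit 167) (nat_lit 5) (nat_lit 267) (nat_lit 266) (nat_lit 187)) (XT.lf (nat_lit 0) (nat_lit 4527152330) (nat_lit 1064) (nat_lit 119315164) (nat_lit 1140) (nat_lit 10908202332) (nat_lit 152) (nat_lit 5) (nat_lit 166) (nat_lit 5) (nat_lit 167) (nat_lit 5) (nat_lit 268) (nat_lit 266) (nat_lit 186)))))) (XT.nd (nat_lit 390) (nat_lit 1444) (nat_lit 0) (XT.nd (nat_lit 156) (nat_lit 0) (nat_lit 76) (XT.nd (nat_lit 78) (nat_lit 0) (nat_lit 76) (XT.lf (nat_lit 0) (nat_lit 5435393880) (nat_lit 1064) (nat_lit 4865984247) (nat_lit 1140) (nat_lit 5636407391) (nat_lit 153) (nat_lit 5) (nat_lit 167) (nat_lit 5) (nat_lit 168) (nat_lit 5) (nat_lit 269) (nat_lit 266) (nat_lit 185)) (XT.lf (nat_lit 0) (nat_lit 6474474579) (nat_lit 1064) (nat_lit 9788584963) (nat_lit 1140) (nat_lit 74499016) (nat_lit 154) (nat_lit 5) (nat_lit 168) (nat_lit 5) (nat_lit 169) (nat_lit 5) (nat_lit 270) (nat_lit 266) (nat_lit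 184))) (XT.nd (nat_lit 78) (nat_lit 0) (nat_lit 76) (XT.lf (nat_lit 76) (nat_lit 1794523712) (nat_lit 0) (nat_lit 5917594672) (nat_lit 1140) (nat_lit 9040864902) (nat_lit 155) (nat_lit 5) (nat_lit 154) (nat_lit 5) (nat_lit 169) (nat_lit 5) (nat_lit 271) (nat_lit 266) (nat_lit 183)) (XT.nd (nat_lit 78) (nat_lit 0) (nat_lit 0) (XT.lf (nat_lit 0) (nat_lit 9136863266) (nat_lit 1064) (nat_lit 3090305092) (nat_lit 1140) (nat_lit 4958312716) (nat_lit 155) (nat_lit 5) (nat_lit 169) (nat_lit 5) (nat_lit 170) (nat_lit 5) (nat_lit 272) (nat_lit 266) (nat_lit 182)) (XT.lf (nat_lit 76) (nat_lit 9480377297) (nat_lit 0) (nat_lit 1280394260) (nat_lit 1140) (nat_lit 6875050019) (nat_lit 156) (nat_lit 5) (nat_lit 155) (nat_lit 5) (nat_lit 170) (nat_lit 5) (nat_lit 273) (nat_lit 266) (nat_lit 181))))) (XT.nd (nat_lit 234) (nat_lit 1672) (nat_lit 0) (XT.nd (nat_lit 78) (nat_lit 0) (nat_lit 76) (XT.lf (nat_lit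 76) (nat_lit 4611479605) (nat_lit 0) (nat_lit 8007100599) (nat_lit 1140) (nat_lit 5485570711) (nat_lit 157) (nat_lit 5) (nat_lit 156) (nat_lit 5) (nat_lit 171) (nat_lit 5) (nat_lit 274) (nat_lit 266) (nat_lit 180)) (XT.nd (nat_lit 78) (nat_lit 0) (nat_lit 0) (XT.lf (nat_lit 0) (nat_lit 14678758081) (nat_lit 1064) (nat_lit 469438249) (nat_lit 1140) (nat_lit 3444466465) (nat_lit 157) (nat_lit 5) (nat_lit 171) (nat_lit 5) (nat_lit 172) (nat_lit 5) (nat_lit 275) (nat_lit 266) (nat_lit 179)) (XT.lf (nat_lit 76) (nat_lit 13369096882) (nat_lit 0) (nat_lit 3662185474) (nat_lit 1140) (nat_lit 2068685826) (nat_lit 158) (nat_lit 5) (nat_lit 157) (nat_lit 5) (nat_lit 172) (nat_lit 5) (nat_lit 276) (nat_lit 266) (nat_lit 178)))) (XT.nd (nat_lit 78) (nat_lit 684) (nat_lit 0) (XT.lf (nat_lit 0) (nat_lit 19412619) (nat_lit 1140) (nat_lit 11285700818) (nat_lit 76) (nat_lit 8323165907) (nat_lit 143) (nat_lit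 5) (nat_lit 158) (nat_lit 5) (nat_lit 144) (nat_lit 5) (nat_lit 277) (nat_lit 266) (nat_lit 177)) (XT.nd (nat_lit 78) (nat_lit 0) (nat_lit 0) (XT.lf (nat_lit 0) (nat_lit 2284074854) (nat_lit 760) (nat_lit 17143468696) (nat_lit 76) (nat_lit 751442080) (nat_lit 134) (nat_lit 5) (nat_lit 144) (nat_lit 5) (nat_lit 135) (nat_lit 5) (nat_lit 278) (nat_lit 266) (nat_lit 176)) (XT.lf (nat_lit 0) (nat_lit 4875544054) (nat_lit 760) (nat_lit 2576574385) (nat_lit 76) (nat_lit 13298741864) (nat_lit 134) (nat_lit 5) (nat_lit 144) (nat_lit 5) (nat_lit 135) (nat_lit 5) (nat_lit 279) (nat_lit 266) (nat_lit 175))))))) (XT.nd (nat_lit 780) (nat_lit 2356) (nat_lit 0) (XT.nd (nat_lit 390) (nat_lit 1748) (nat_lit 0) (XT.nd (nat_lit 156) (nat_lit 912) (nat_lit 0) (XT.nd (nat_lit 78) (nat_lit 532) (nat_lit 0) (XT.lf (nat_lit 0) (nat_lit 7754605251) (nat_lit 608) (nat_lit 8442580566) (nat_lit 76) (nat_lit 5149440706)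 (nat_lit 127) (nat_lit 5) (nat_lit 135) (nat_lit 5) (nat_lit 128) (nat_lit 5) (nat_lit 280) (nat_lit 266) (nat_lit 174)) (XT.lf (nat_lit 0) (nat_lit 7292442234) (nat_lit 532) (nat_lit 3640949959) (nat_lit 608) (nat_lit 11034152221) (nat_lit 120) (nat_lit 5) (nat_lit 127) (nat_lit 5) (nat_lit 128) (nat_lit 5) (nat_lit 281) (nat_lit 266) (nat_lit 173))) (XT.nd (nat_lit 78) (nat_lit 456) (nat_lit 0) (XT.lf (nat_lit 0) (nat_lit 1290730648) (nat_lit 456) (nat_lit 13156608023) (nat_lit 532) (nat_lit 8166917726) (nat_lit 114) (nat_lit 5) (nat_lit 120) (nat_lit 5) (nat_lit 121) (nat_lit 5) (nat_lit 282) (nat_lit 266) (nat_lit 172)) (XT.nd (nat_lit 78) (nat_lit 456) (nat_lit 0) (XT.lf (nat_lit 0) (nat_lit 18308886530) (nat_lit 456) (nat_lit 462772) (nat_lit 532) (nat_lit 4978816816) (nat_lit 114) (nat_lit 5) (nat_lit 120) (nat_lit 5) (nat_lit 121) (nat_lit 5) (nat_lit 283) (nat_lit 266) (nat_lit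 171)) (XT.lf (nat_lit 0) (nat_lit 12274010186) (nat_lit 456) (nat_lit 10326848111) (nat_lit 532) (nat_lit 1387852662) (nat_lit 108) (nat_lit 5) (nat_lit 114) (nat_lit 5) (nat_lit 115) (nat_lit 5) (nat_lit 284) (nat_lit 266) (nat_lit 170))))) (XT.nd (nat_lit 156) (nat_lit 1216) (nat_lit 0) (XT.nd (nat_lit 78) (nat_lit 0) (nat_lit 0) (XT.lf (nat_lit 0) (nat_lit 2462995857) (nat_lit 532) (nat_lit 18906472805) (nat_lit 76) (nat_lit 3350351545) (nat_lit 101) (nat_lit 5) (nat_lit 108) (nat_lit 5) (nat_lit 102) (nat_lit 5) (nat_lit 285) (nat_lit 266) (nat_lit 169)) (XT.lf (nat_lit 0) (nat_lit 6690496089) (nat_lit 532) (nat_lit 1155475118) (nat_lit 76) (nat_lit 17634744909) (nat_lit 101) (nat_lit 5) (nat_lit 108) (nat_lit 5) (nat_lit 102) (nat_lit 5) (nat_lit 286) (nat_lit 266) (nat_lit 168))) (XT.nd (nat_lit 78) (nat_lit 760) (nat_lit 0) (XT.lf (nat_lit 0) (nat_lit 11350564534) (nat_lit 532) (nat_lit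 8521021748) (nat_lit 76) (nat_lit 6401461216) (nat_lit 95) (nat_lit 5) (nat_lit 102) (nat_lit 5) (nat_lit 96) (nat_lit 5) (nat_lit 287) (nat_lit 266) (nat_lit 167)) (XT.nd (nat_lit 78) (nat_lit 380) (nat_lit 0) (XT.lf (nat_lit 0) (nat_lit 10638646758) (nat_lit 380) (nat_lit 5786094489) (nat_lit 456) (nat_lit 10674846272) (nat_lit 90) (nat_lit 5) (nat_lit 95) (nat_lit 5) (nat_lit 96) (nat_lit 5) (nat_lit 288) (nat_lit 266) (nat_lit 166)) (XT.lf (nat_lit 0) (nat_lit 2925190397) (nat_lit 380) (nat_lit 19018765622) (nat_lit 456) (nat_lit 6017782656) (nat_lit 85) (nat_lit 5) (nat_lit 90) (nat_lit 5) (nat_lit 91) (nat_lit 5) (nat_lit 289) (nat_lit 266) (nat_lit 165)))))) (XT.nd (nat_lit 390) (nat_lit 1216) (nat_lit 0) (XT.nd (nat_lit 156) (nat_lit 684) (nat_lit 0) (XT.nd (nat_lit 78) (nat_lit 456) (nat_lit 0) (XT.lf (nat_lit 0) (nat_lit 23551439056) (nat_lit 380) (nat_lit 4403484986) (nat_lit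 456) (nat_lit 905622442) (nat_lit 85) (nat_lit 5) (nat_lit 90) (nat_lit 5) (nat_lit 91) (nat_lit 5) (nat_lit 290) (nat_lit 266) (nat_lit 164)) (XT.lf (nat_lit 0) (nat_lit 4621561437) (nat_lit 456) (nat_lit 14251852271) (nat_lit 76) (nat_lit 10922220689) (nat_lit 79) (nat_lit 5) (nat_lit 85) (nat_lit 5) (nat_lit 80) (nat_lit 5) (nat_lit 291) (nat_lit 266) (nat_lit 163))) (XT.nd (nat_lit 78) (nat_lit 304) (nat_lit 0) (XT.lf (nat_lit 0) (nat_lit 6840636349) (nat_lit 380) (nat_lit 3720622195) (nat_lit 456) (nat_lit 20211322792) (nat_lit 74) (nat_lit 5) (nat_lit 79) (nat_lit 5) (nat_lit 80) (nat_lit 5) (nat_lit 292) (nat_lit 266) (nat_lit 162)) (XT.nd (nat_lit 78) (nat_lit 304) (nat_lit 0) (XT.lf (nat_lit 0) (nat_lit 17052955680) (nat_lit 456) (nat_lit 2640104864) (nat_lit 76) (nat_lit 12097683804) (nat_lit 74) (nat_lit 5) (nat_lit 80) (nat_lit 5) (nat_lit 75) (nat_lit 5) (nat_lit 293) (nat_lit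 266) (nat_lit 161)) (XT.lf (nat_lit 0) (nat_lit 20057721790) (nat_lit 304) (nat_lit 4032044164) (nat_lit 380) (nat_lit 8763451974) (nat_lit 70) (nat_lit 5) (nat_lit 74) (nat_lit 5) (nat_lit 75) (nat_lit 5) (nat_lit 294) (nat_lit 266) (nat_lit 160))))) (XT.nd (nat_lit 234) (nat_lit 532) (nat_lit 0) (XT.nd (nat_lit 78) (nat_lit 380) (nat_lit 0) (XT.lf (nat_lit 0) (nat_lit 10041606709) (nat_lit 304) (nat_lit 21670589552) (nat_lit 380) (nat_lit 2249622938) (nat_lit 66) (nat_lit 5) (nat_lit 70) (nat_lit 5) (nat_lit 71) (nat_lit 5) (nat_lit 295) (nat_lit 266) (nat_lit 159)) (XT.nd (nat_lit 78) (nat_lit 304) (nat_lit 0) (XT.lf (nat_lit 0) (nat_lit 4664775962) (nat_lit 380) (nat_lit 932284074) (nat_lit 76) (nat_lit 29522549640) (nat_lit 65) (nat_lit 5) (nat_lit 70) (nat_lit 5) (nat_lit 66) (nat_lit 5) (nat_lit 296) (nat_lit 266) (nat_lit 158)) (XT.lf (nat_lit 0) (nat_lit 12208010697) (nat_lit 380)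 (nat_lit 12807110307) (nat_lit 76) (nat_lit 11309626542) (nat_lit 61) (nat_lit 5) (nat_lit 66) (nat_lit 5) (nat_lit 62) (nat_lit 5) (nat_lit 297) (nat_lit 266) (nat_lit 157)))) (XT.nd (nat_lit 78) (nat_lit 228) (nat_lit 0) (XT.lf (nat_lit 0) (nat_lit 11781448365) (nat_lit 304) (nat_lit 8517845747) (nat_lit 380) (nat_lit 17285736180) (nat_lit 57) (nat_lit 5) (nat_lit 61) (nat_lit 5) (nat_lit 62) (nat_lit 5) (nat_lit 298) (nat_lit 266) (nat_lit 156)) (XT.nd (nat_lit 78) (nat_lit 228) (nat_lit 0) (XT.lf (nat_lit 0) (nat_lit 29004639842) (nat_lit 380) (nat_lit 1134690476) (nat_lit 76) (nat_lit 8762725808) (nat_lit 57) (nat_lit 5) (nat_lit 62) (nat_lit 5) (nat_lit 58) (nat_lit 5) (nat_lit 299) (nat_lit 266) (nat_lit 155)) (XT.lf (nat_lit 0) (nat_lit 25161767904) (nat_lit 228) (nat_lit 13303444764) (nat_lit 304) (nat_lit 1810135023) (nat_lit 54) (nat_lit 5) (nat_lit 57) (nat_lit 5) (nat_lit 58)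 (nat_lit 5) (nat_lit 300) (nat_lit 266) (nat_lit 154))))))))
noncomputable def xc97 : XT := (XT.nd (nat_lit 1638) (nat_lit 152) (nat_lit 0) (XT.nd (nat_lit 780) (nat_lit 1064) (nat_lit 0) (XT.nd (nat_lit 390) (nat_lit 760) (nat_lit 0) (XT.nd (nat_lit 156) (nat_lit 456) (nat_lit 0) (XT.nd (nat_lit 78) (nat_lit 0) (nat_lit 0) (XT.lf (nat_lit 0) (nat_lit 6706957646) (nat_lit 380) (nat_lit 30532143202) (nat_lit 76) (nat_lit 4471613590) (nat_lit 49) (nat_lit 5) (nat_lit 54) (nat_lit 5) (nat_lit 50) (nat_lit 5) (nat_lit 301) (nat_lit 266) (nat_lit 153)) (XT.lf (nat_lit 0) (nat_lit 15896752707) (nat_lit 380) (nat_lit 4276760286) (nat_lit 76) (nat_lit 23035281994) (nat_lit 49) (nat_lit 5) (nat_lit 54) (nat_lit 5) (nat_lit 50) (nat_lit 5) (nat_lit 302) (nat_lit 266) (nat_lit 152))) (XT.nd (nat_lit 78) (nat_lit 228) (nat_lit 0) (XT.lf (nat_lit 0) (nat_lit 23744589533) (nat_lit 228) (nat_lit 2022590613)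 (nat_lit 304) (nat_lit 19007976239) (nat_lit 46) (nat_lit 5) (nat_lit 49) (nat_lit 5) (nat_lit 50) (nat_lit 5) (nat_lit 303) (nat_lit 266) (nat_lit 151)) (XT.nd (nat_lit 78) (nat_lit 0) (nat_lit 0) (XT.lf (nat_lit 0) (nat_lit 6796245975) (nat_lit 228) (nat_lit 29601543249) (nat_lit 304) (nat_lit 10014057391) (nat_lit 43) (nat_lit 5) (nat_lit 46) (nat_lit 5) (nat_lit 47) (nat_lit 5) (nat_lit 304) (nat_lit 266) (nat_lit 150)) (XT.lf (nat_lit 0) (nat_lit 36423301939) (nat_lit 228) (nat_lit 11366676586) (nat_lit 304) (nat_lit 333501407) (nat_lit 43) (nat_lit 5) (nat_lit 46) (nat_lit 5) (nat_lit 47) (nat_lit 5) (nat_lit 305) (nat_lit 266) (nat_lit 149))))) (XT.nd (nat_lit 156) (nat_lit 456) (nat_lit 0) (XT.nd (nat_lit 78) (nat_lit 0) (nat_lit 0) (XT.lf (nat_lit 0) (nat_lit 9881861270) (nat_lit 304) (nat_lit 32134791262) (nat_lit 76) (nat_lit 7893938056) (nat_lit 39) (nat_lit 5) (nat_lit 43) (nat_lit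 5) (nat_lit 40) (nat_lit 5) (nat_lit 306) (nat_lit 266) (nat_lit 148)) (XT.lf (nat_lit 0) (nat_lit 20831298868) (nat_lit 304) (nat_lit 2941976055) (nat_lit 76) (nat_lit 28006785536) (nat_lit 39) (nat_lit 5) (nat_lit 43) (nat_lit 5) (nat_lit 40) (nat_lit 5) (nat_lit 307) (nat_lit 266) (nat_lit 147))) (XT.nd (nat_lit 78) (nat_lit 228) (nat_lit 0) (XT.lf (nat_lit 0) (nat_lit 28252917861) (nat_lit 228) (nat_lit 4340948963) (nat_lit 304) (nat_lit 21141175689) (nat_lit 36) (nat_lit 5) (nat_lit 39) (nat_lit 5) (nat_lit 40) (nat_lit 5) (nat_lit 308) (nat_lit 266) (nat_lit 146)) (XT.nd (nat_lit 78) (nat_lit 76) (nat_lit 0) (XT.lf (nat_lit 0) (nat_lit 5220559007) (nat_lit 152) (nat_lit 39953425183) (nat_lit 228) (nat_lit 10606914890) (nat_lit 34) (nat_lit 5) (nat_lit 36) (nat_lit 5) (nat_lit 37) (nat_lit 5) (nat_lit 309) (nat_lit 266) (nat_lit 145)) (XT.lf (nat_lit 0) (nat_lit 748301133) (nat_lit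 228) (nat_lit 19989720381) (nat_lit 76) (nat_lit 37181810381) (nat_lit 33) (nat_lit 5) (nat_lit 36) (nat_lit 5) (nat_lit 34) (nat_lit 5) (nat_lit 310) (nat_lit 266) (nat_lit 144)))))) (XT.nd (nat_lit 390) (nat_lit 532) (nat_lit 0) (XT.nd (nat_lit 156) (nat_lit 304) (nat_lit 0) (XT.nd (nat_lit 78) (nat_lit 0) (nat_lit 0) (XT.lf (nat_lit 0) (nat_lit 12232847077) (nat_lit 228) (nat_lit 333335359) (nat_lit 304) (nat_lit 47592957274) (nat_lit 30) (nat_lit 5) (nat_lit 33) (nat_lit 5) (nat_lit 34) (nat_lit 5) (nat_lit 311) (nat_lit 266) (nat_lit 143)) (XT.lf (nat_lit 0) (nat_lit 25380311042) (nat_lit 304) (nat_lit 16232883983) (nat_lit 76) (nat_lit 20885064037) (nat_lit 30) (nat_lit 5) (nat_lit 34) (nat_lit 5) (nat_lit 31) (nat_lit 5) (nat_lit 312) (nat_lit 266) (nat_lit 142))) (XT.nd (nat_lit 78) (nat_lit 152) (nat_lit 0) (XT.lf (nat_lit 0) (nat_lit 17373098560) (nat_lit 152) (nat_lit 21627454796)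 (nat_lit 228) (nat_lit 25948825230) (nat_lit 28) (nat_lit 5) (nat_lit 30) (nat_lit 5) (nat_lit 31) (nat_lit 5) (nat_lit 313) (nat_lit 266) (nat_lit 141)) (XT.nd (nat_lit 78) (nat_lit 152) (nat_lit 0) (XT.lf (nat_lit 0) (nat_lit 52991077906) (nat_lit 152) (nat_lit 473038884) (nat_lit 228) (nat_lit 14054074144) (nat_lit 28) (nat_lit 5) (nat_lit 30) (nat_lit 5) (nat_lit 31) (nat_lit 5) (nat_lit 314) (nat_lit 266) (nat_lit 140)) (XT.lf (nat_lit 0) (nat_lit 20355469841) (nat_lit 152) (nat_lit 48695436398) (nat_lit 228) (nat_lit 1152542048) (nat_lit 26) (nat_lit 5) (nat_lit 28) (nat_lit 5) (nat_lit 29) (nat_lit 5) (nat_lit 315) (nat_lit 266) (nat_lit 139))))) (XT.nd (nat_lit 234) (nat_lit 304) (nat_lit 0) (XT.nd (nat_lit 78) (nat_lit 152) (nat_lit 0) (XT.lf (nat_lit 0) (nat_lit 12303523039) (nat_lit 228) (nat_lit 15865288407) (nat_lit 76) (nat_lit 44846048992) (nat_lit 25) (nat_lit 5) (nat_lit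 28) (nat_lit 5) (nat_lit 26) (nat_lit 5) (nat_lit 316) (nat_lit 266) (nat_lit 138)) (XT.nd (nat_lit 78) (nat_lit 0) (nat_lit 0) (XT.lf (nat_lit 0) (nat_lit 20192097589) (nat_lit 152) (nat_lit 6406501954) (nat_lit 228) (nat_lit 49362205108) (nat_lit 23) (nat_lit 5) (nat_lit 25) (nat_lit 5) (nat_lit 26) (nat_lit 5) (nat_lit 317) (nat_lit 266) (nat_lit 137)) (XT.lf (nat_lit 0) (nat_lit 41927275111) (nat_lit 228) (nat_lit 20831677345) (nat_lit 76) (nat_lit 16285533147) (nat_lit 23) (nat_lit 5) (nat_lit 26) (nat_lit 5) (nat_lit 24) (nat_lit 5) (nat_lit 318) (nat_lit 266) (nat_lit 136)))) (XT.nd (nat_lit 78) (nat_lit 152) (nat_lit 0) (XT.lf (nat_lit 0) (nat_lit 16095202058) (nat_lit 152) (nat_lit 42142599822) (nat_lit 228) (nat_lit 24038090855) (nat_lit 21) (nat_lit 5) (nat_lit 23) (nat_lit 5) (nat_lit 24) (nat_lit 5) (nat_lit 319) (nat_lit 266) (nat_lit 135)) (XT.nd (nat_lit 78) (nat_lit 152)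 (nat_lit 0) (XT.lf (nat_lit 0) (nat_lit 55297515310) (nat_lit 152) (nat_lit 20276950296) (nat_lit 228) (nat_lit 10088090728) (nat_lit 21) (nat_lit 5) (nat_lit 23) (nat_lit 5) (nat_lit 24) (nat_lit 5) (nat_lit 320) (nat_lit 266) (nat_lit 134)) (XT.lf (nat_lit 0) (nat_lit 4564143993) (nat_lit 152) (nat_lit 81907450992) (nat_lit 76) (nat_lit 2742836241) (nat_lit 19) (nat_lit 5) (nat_lit 21) (nat_lit 5) (nat_lit 20) (nat_lit 5) (nat_lit 321) (nat_lit 266) (nat_lit 133))))))) (XT.nd (nat_lit 33696) (nat_lit 0) (nat_lit 7372) (XT.nd (nat_lit 33306) (nat_lit 0) (nat_lit 10260) (XT.nd (nat_lit 156) (nat_lit 152) (nat_lit 0) (XT.nd (nat_lit 78) (nat_lit 0) (nat_lit 0) (XT.lf (nat_lit 0) (nat_lit 20259036009) (nat_lit 152) (nat_lit 45752885060) (nat_lit 76) (nat_lit 26913425748) (nat_lit 19) (nat_lit 5) (nat_lit 21) (nat_lit 5) (nat_lit 20) (nat_lit 5) (nat_lit 322) (nat_lit 266) (nat_lit 132)) (XT.lf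 (nat_lit 0) (nat_lit 36735250673) (nat_lit 152) (nat_lit 7796237177) (nat_lit 76) (nat_lit 52290426713) (nat_lit 19) (nat_lit 5) (nat_lit 21) (nat_lit 5) (nat_lit 20) (nat_lit 5) (nat_lit 323) (nat_lit 266) (nat_lit 131))) (XT.nd (nat_lit 78) (nat_lit 0) (nat_lit 0) (XT.lf (nat_lit 0) (nat_lit 32690780501) (nat_lit 152) (nat_lit 21655480348) (nat_lit 228) (nat_lit 46557723844) (nat_lit 17) (nat_lit 5) (nat_lit 19) (nat_lit 5) (nat_lit 20) (nat_lit 5) (nat_lit 324) (nat_lit 266) (nat_lit 130)) (XT.nd (nat_lit 32994) (nat_lit 0) (nat_lit 10184) (XT.lf (nat_lit 0) (nat_lit 72938424976) (nat_lit 228) (nat_lit 29851506575) (nat_lit 76) (nat_lit 2397212047) (nat_lit 17) (nat_lit 5) (nat_lit 20) (nat_lit 5) (nat_lit 18) (nat_lit 4) (nat_lit 325) (nat_lit 266) (nat_lit 129)) (XT.lf (nat_lit 0) (nat_lit 2129478560) (nat_lit 1140) (nat_lit 2821279522) (nat_lit 1140) (nat_lit 2821279522) (nat_lit 151)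 (nat_lit 3) (nat_lit 166) (nat_lit 3) (nat_lit 166) (nat_lit 5) (nat_lit 267) (nat_lit 267) (nat_lit 186))))) (XT.nd (nat_lit 156) (nat_lit 0) (nat_lit 76) (XT.nd (nat_lit 78) (nat_lit 0) (nat_lit 0) (XT.lf (nat_lit 0) (nat_lit 4831254315) (nat_lit 1064) (nat_lit 10692026241) (nat_lit 1140) (nat_lit 394416184) (nat_lit 152) (nat_lit 5) (nat_lit 166) (nat_lit 5) (nat_lit 167) (nat_lit 5) (nat_lit 268) (nat_lit 267) (nat_lit 185)) (XT.lf (nat_lit 76) (nat_lit 338198646) (nat_lit 0) (nat_lit 5229452189) (nat_lit 1140) (nat_lit 10738348351) (nat_lit 153) (nat_lit 5) (nat_lit 152) (nat_lit 5) (nat_lit 167) (nat_lit 5) (nat_lit 269) (nat_lit 267) (nat_lit 184))) (XT.nd (nat_lit 78) (nat_lit 0) (nat_lit 0) (XT.lf (nat_lit 0) (nat_lit 6480506930) (nat_lit 1064) (nat_lit 4637119180) (nat_lit 1140) (nat_lit 5591962761) (nat_lit 153) (nat_lit 5) (nat_lit 167) (nat_lit 5) (nat_lit 168) (nat_lit 5) (nat_lit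 270) (nat_lit 267) (nat_lit 183)) (XT.nd (nat_lit 78) (nat_lit 0) (nat_lit 76) (XT.lf (nat_lit 76) (nat_lit 7335841969) (nat_lit 0) (nat_lit 202515548) (nat_lit 1140) (nat_lit 9592078361) (nat_lit 154) (nat_lit 5) (nat_lit 153) (nat_lit 5) (nat_lit 168) (nat_lit 5) (nat_lit 271) (nat_lit 267) (nat_lit 182)) (XT.lf (nat_lit 76) (nat_lit 2355703956) (nat_lit 0) (nat_lit 6449611782) (nat_lit 1140) (nat_lit 8762378654) (nat_lit 155) (nat_lit 5) (nat_lit 154) (nat_lit 5) (nat_lit 169) (nat_lit 5) (nat_lit 272) (nat_lit 267) (nat_lit 181)))))) (XT.nd (nat_lit 390) (nat_lit 3116) (nat_lit 0) (XT.nd (nat_lit 156) (nat_lit 0) (nat_lit 76) (XT.nd (nat_lit 78) (nat_lit 0) (nat_lit 0) (XT.lf (nat_lit 0) (nat_lit 10265441228) (nat_lit 1064) (nat_lit 2771808905) (nat_lit 1140) (nat_lit 4985724079) (nat_lit 155) (nat_lit 5) (nat_lit 169) (nat_lit 5) (nat_lit 170) (nat_lit 5) (nat_lit 273) (nat_lit 267)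 (nat_lit 180)) (XT.lf (nat_lit 76) (nat_lit 10413848825) (nat_lit 0) (nat_lit 1529125276) (nat_lit 1140) (nat_lit 6553762328) (nat_lit 156) (nat_lit 5) (nat_lit 155) (nat_lit 5) (nat_lit 170) (nat_lit 5) (nat_lit 274) (nat_lit 267) (nat_lit 179))) (XT.nd (nat_lit 78) (nat_lit 0) (nat_lit 76) (XT.lf (nat_lit 76) (nat_lit 5310338606) (nat_lit 0) (nat_lit 8555470535) (nat_lit 1140) (nat_lit 5123582887) (nat_lit 157) (nat_lit 5) (nat_lit 156) (nat_lit 5) (nat_lit 171) (nat_lit 5) (nat_lit 275) (nat_lit 267) (nat_lit 178)) (XT.nd (nat_lit 78) (nat_lit 0) (nat_lit 0) (XT.lf (nat_lit 0) (nat_lit 15998293240) (nat_lit 1064) (nat_lit 26553720) (nat_lit 1140) (nat_lit 3478473977) (nat_lit 157) (nat_lit 5) (nat_lit 171) (nat_lit 5) (nat_lit 172) (nat_lit 5) (nat_lit 276) (nat_lit 267) (nat_lit 177)) (XT.lf (nat_lit 76) (nat_lit 14490540154) (nat_lit 0) (nat_lit 3954372393) (nat_lit 1140) (nat_lit 1591851986)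 (nat_lit 158) (nat_lit 5) (nat_lit 157) (nat_lit 5) (nat_lit 172) (nat_lit 5) (nat_lit 277) (nat_lit 267) (nat_lit 176))))) (XT.nd (nat_lit 234) (nat_lit 1520) (nat_lit 0) (XT.nd (nat_lit 78) (nat_lit 684) (nat_lit 0) (XT.lf (nat_lit 0) (nat_lit 565680147) (nat_lit 1140) (nat_lit 11379191919) (nat_lit 76) (nat_lit 8647223248) (nat_lit 143) (nat_lit 5) (nat_lit 158) (nat_lit 5) (nat_lit 144) (nat_lit 5) (nat_lit 278) (nat_lit 267) (nat_lit 175)) (XT.nd (nat_lit 78) (nat_lit 0) (nat_lit 0) (XT.lf (nat_lit 0) (nat_lit 2921366268) (nat_lit 760) (nat_lit 17525812989) (nat_lit 76) (nat_lit 723882937) (nat_lit 134) (nat_lit 5) (nat_lit 144) (nat_lit 5) (nat_lit 135) (nat_lit 5) (nat_lit 279) (nat_lit 267) (nat_lit 174)) (XT.lf (nat_lit 0) (nat_lit 5617499992) (nat_lit 760) (nat_lit 2253184874) (nat_lit 76) (nat_lit 13901649198) (nat_lit 134) (nat_lit 5) (nat_lit 144) (nat_lit 5) (nat_lit 135) (nat_lit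 5) (nat_lit 280) (nat_lit 267) (nat_lit 173)))) (XT.nd (nat_lit 78) (nat_lit 988) (nat_lit 0) (XT.lf (nat_lit 0) (nat_lit 8620634887) (nat_lit 608) (nat_lit 8409644429) (nat_lit 76) (nat_lit 5368259178) (nat_lit 127) (nat_lit 5) (nat_lit 135) (nat_lit 5) (nat_lit 128) (nat_lit 5) (nat_lit 281) (nat_lit 267) (nat_lit 172)) (XT.nd (nat_lit 78) (nat_lit 456) (nat_lit 0) (XT.lf (nat_lit 0) (nat_lit 8099085160) (nat_lit 532) (nat_lit 3840748831) (nat_lit 608) (nat_lit 11111275075) (nat_lit 120) (nat_lit 5) (nat_lit 127) (nat_lit 5) (nat_lit 128) (nat_lit 5) (nat_lit 282) (nat_lit 267) (nat_lit 171)) (XT.lf (nat_lit 0) (nat_lit 1799171272) (nat_lit 456) (nat_lit 13812517173) (nat_lit 532) (nat_lit 8119050426) (nat_lit 114) (nat_lit 5) (nat_lit 120) (nat_lit 5) (nat_lit 121) (nat_lit 5) (nat_lit 283) (nat_lit 267) (nat_lit 170))))))))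
noncomputable def xc98 : XT := (XT.nd (nat_lit 1638) (nat_lit 2204) (nat_lit 0) (XT.nd (nat_lit 780) (nat_lit 2128) (nat_lit 0) (XT.nd (nat_lit 390) (nat_lit 1596) (nat_lit 0) (XT.nd (nat_lit 156) (nat_lit 988) (nat_lit 0) (XT.nd (nat_lit 78) (nat_lit 456) (nat_lit 0) (XT.lf (nat_lit 0) (nat_lit 19645765724) (nat_lit 532) (nat_lit 4791937975) (nat_lit 76) (nat_lit 1317628) (nat_lit 114) (nat_lit 5) (nat_lit 121) (nat_lit 5) (nat_lit 115) (nat_lit 5) (nat_lit 284) (nat_lit 267) (nat_lit 169)) (XT.lf (nat_lit 0) (nat_lit 13311505139) (nat_lit 456) (nat_lit 10824378060) (nat_lit 532) (nat_lit 1039233248) (nat_lit 108) (nat_lit 5) (nat_lit 114) (nat_lit 5) (nat_lit 115) (nat_lit 5) (nat_lit 285) (nat_lit 267) (nat_lit 168))) (XT.nd (nat_lit 78) (nat_lit 456) (nat_lit 0) (XT.lf (nat_lit 0) (nat_lit 2980775133) (nat_lit 532) (nat_lit 19419000944) (nat_lit 76) (nat_lit 3543382018) (nat_lit 101)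 (nat_lit 5) (nat_lit 108) (nat_lit 5) (nat_lit 102) (nat_lit 5) (nat_lit 286) (nat_lit 267) (nat_lit 167)) (XT.nd (nat_lit 78) (nat_lit 456) (nat_lit 0) (XT.lf (nat_lit 0) (nat_lit 7400858497) (nat_lit 532) (nat_lit 801062681) (nat_lit 76) (nat_lit 18540780150) (nat_lit 101) (nat_lit 5) (nat_lit 108) (nat_lit 5) (nat_lit 102) (nat_lit 5) (nat_lit 287) (nat_lit 267) (nat_lit 166)) (XT.lf (nat_lit 0) (nat_lit 12280252818) (nat_lit 532) (nat_lit 8535480535) (nat_lit 76) (nat_lit 6759363181) (nat_lit 95) (nat_lit 5) (nat_lit 102) (nat_lit 5) (nat_lit 96) (nat_lit 5) (nat_lit 288) (nat_lit 267) (nat_lit 165))))) (XT.nd (nat_lit 156) (nat_lit 836) (nat_lit 0) (XT.nd (nat_lit 78) (nat_lit 380) (nat_lit 0) (XT.lf (nat_lit 0) (nat_lit 11570373186) (nat_lit 380) (nat_lit 6024362529) (nat_lit 456) (nat_lit 10848665088) (nat_lit 90) (nat_lit 5) (nat_lit 95) (nat_lit 5) (nat_lit 96) (nat_lit 5) (nat_lit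 289) (nat_lit 267) (nat_lit 164)) (XT.lf (nat_lit 0) (nat_lit 3470153475) (nat_lit 380) (nat_lit 19907450071) (nat_lit 456) (nat_lit 5971458695) (nat_lit 85) (nat_lit 5) (nat_lit 90) (nat_lit 5) (nat_lit 91) (nat_lit 5) (nat_lit 290) (nat_lit 267) (nat_lit 163))) (XT.nd (nat_lit 78) (nat_lit 836) (nat_lit 0) (XT.lf (nat_lit 0) (nat_lit 25108728683) (nat_lit 380) (nat_lit 4564369872) (nat_lit 456) (nat_lit 620224427) (nat_lit 85) (nat_lit 5) (nat_lit 90) (nat_lit 5) (nat_lit 91) (nat_lit 5) (nat_lit 291) (nat_lit 267) (nat_lit 162)) (XT.nd (nat_lit 78) (nat_lit 380) (nat_lit 0) (XT.lf (nat_lit 0) (nat_lit 5165646553) (nat_lit 456) (nat_lit 14579388987) (nat_lit 76) (nat_lit 11530400465) (nat_lit 79) (nat_lit 5) (nat_lit 85) (nat_lit 5) (nat_lit 80) (nat_lit 5) (nat_lit 292) (nat_lit 267) (nat_lit 161)) (XT.lf (nat_lit 0) (nat_lit 7556686514) (nat_lit 380) (nat_lit 3834332197) (nat_lit 456)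 (nat_lit 20910578965) (nat_lit 74) (nat_lit 5) (nat_lit 79) (nat_lit 5) (nat_lit 80) (nat_lit 5) (nat_lit 293) (nat_lit 267) (nat_lit 160)))))) (XT.nd (nat_lit 390) (nat_lit 1140) (nat_lit 0) (XT.nd (nat_lit 156) (nat_lit 684) (nat_lit 0) (XT.nd (nat_lit 78) (nat_lit 304) (nat_lit 0) (XT.lf (nat_lit 0) (nat_lit 18193596258) (nat_lit 456) (nat_lit 2407409269) (nat_lit 76) (nat_lit 12770101197) (nat_lit 74) (nat_lit 5) (nat_lit 80) (nat_lit 5) (nat_lit 75) (nat_lit 5) (nat_lit 294) (nat_lit 267) (nat_lit 159)) (XT.lf (nat_lit 0) (nat_lit 21414854641) (nat_lit 304) (nat_lit 4157083700) (nat_lit 380) (nat_lit 8915100383) (nat_lit 70) (nat_lit 5) (nat_lit 74) (nat_lit 5) (nat_lit 75) (nat_lit 5) (nat_lit 295) (nat_lit 267) (nat_lit 158))) (XT.nd (nat_lit 78) (nat_lit 380) (nat_lit 0) (XT.lf (nat_lit 0) (nat_lit 10895651224) (nat_lit 304) (nat_lit 22670700103) (nat_lit 380) (nat_lit 2085017161)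 (nat_lit 66) (nat_lit 5) (nat_lit 70) (nat_lit 5) (nat_lit 71) (nat_lit 5) (nat_lit 296) (nat_lit 267) (nat_lit 157)) (XT.nd (nat_lit 78) (nat_lit 304) (nat_lit 0) (XT.lf (nat_lit 0) (nat_lit 5156757579) (nat_lit 380) (nat_lit 638096068) (nat_lit 76) (nat_lit 31072525489) (nat_lit 65) (nat_lit 5) (nat_lit 70) (nat_lit 5) (nat_lit 66) (nat_lit 5) (nat_lit 297) (nat_lit 267) (nat_lit 156)) (XT.lf (nat_lit 0) (nat_lit 13068797806) (nat_lit 380) (nat_lit 13109299902) (nat_lit 76) (nat_lit 11954948247) (nat_lit 61) (nat_lit 5) (nat_lit 66) (nat_lit 5) (nat_lit 62) (nat_lit 5) (nat_lit 298) (nat_lit 267) (nat_lit 155))))) (XT.nd (nat_lit 234) (nat_lit 608) (nat_lit 0) (XT.nd (nat_lit 78) (nat_lit 228) (nat_lit 0) (XT.lf (nat_lit 0) (nat_lit 12698993245) (nat_lit 304) (nat_lit 8856886454) (nat_lit 380) (nat_lit 17900746459) (nat_lit 57) (nat_lit 5) (nat_lit 61) (nat_lit 5) (nat_lit 62) (nat_lit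 5) (nat_lit 299) (nat_lit 267) (nat_lit 154)) (XT.nd (nat_lit 78) (nat_lit 228) (nat_lit 0) (XT.lf (nat_lit 0) (nat_lit 30685782075) (nat_lit 380) (nat_lit 872098105) (nat_lit 76) (nat_lit 9281963806) (nat_lit 57) (nat_lit 5) (nat_lit 62) (nat_lit 5) (nat_lit 58) (nat_lit 5) (nat_lit 300) (nat_lit 267) (nat_lit 153)) (XT.lf (nat_lit 0) (nat_lit 26730029752) (nat_lit 228) (nat_lit 13881339641) (nat_lit 304) (nat_lit 1670689620) (nat_lit 54) (nat_lit 5) (nat_lit 57) (nat_lit 5) (nat_lit 58) (nat_lit 5) (nat_lit 301) (nat_lit 267) (nat_lit 152)))) (XT.nd (nat_lit 78) (nat_lit 228) (nat_lit 0) (XT.lf (nat_lit 0) (nat_lit 7260824394) (nat_lit 380) (nat_lit 31746738769) (nat_lit 76) (nat_lit 4781790072) (nat_lit 49) (nat_lit 5) (nat_lit 54) (nat_lit 5) (nat_lit 50) (nat_lit 5) (nat_lit 302) (nat_lit 267) (nat_lit 151)) (XT.nd (nat_lit 78) (nat_lit 228) (nat_lit 0) (XT.lf (nat_lit 0) (nat_lit 16899703548)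 (nat_lit 380) (nat_lit 4193444402) (nat_lit 76) (nat_lit 24269518286) (nat_lit 49) (nat_lit 5) (nat_lit 54) (nat_lit 5) (nat_lit 50) (nat_lit 5) (nat_lit 303) (nat_lit 267) (nat_lit 150)) (XT.lf (nat_lit 0) (nat_lit 25220455051) (nat_lit 228) (nat_lit 2036061701) (nat_lit 304) (nat_lit 19751058501) (nat_lit 46) (nat_lit 5) (nat_lit 49) (nat_lit 5) (nat_lit 50) (nat_lit 5) (nat_lit 304) (nat_lit 267) (nat_lit 149))))))) (XT.nd (nat_lit 780) (nat_lit 836) (nat_lit 0) (XT.nd (nat_lit 390) (nat_lit 608) (nat_lit 0) (XT.nd (nat_lit 156) (nat_lit 532) (nat_lit 0) (XT.nd (nat_lit 78) (nat_lit 0) (nat_lit 0) (XT.lf (nat_lit 0) (nat_lit 7421759394) (nat_lit 228) (nat_lit 30990875364) (nat_lit 304) (nat_lit 10313660627) (nat_lit 43) (nat_lit 5) (nat_lit 46) (nat_lit 5) (nat_lit 47) (nat_lit 5) (nat_lit 305) (nat_lit 267) (nat_lit 148)) (XT.lf (nat_lit 0) (nat_lit 38516563340) (nat_lit 228) (nat_lit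 11848586560) (nat_lit 304) (nat_lit 158653017) (nat_lit 43) (nat_lit 5) (nat_lit 46) (nat_lit 5) (nat_lit 47) (nat_lit 5) (nat_lit 306) (nat_lit 267) (nat_lit 147))) (XT.nd (nat_lit 78) (nat_lit 228) (nat_lit 0) (XT.lf (nat_lit 0) (nat_lit 10558210391) (nat_lit 304) (nat_lit 33468470833) (nat_lit 76) (nat_lit 8373711538) (nat_lit 39) (nat_lit 5) (nat_lit 43) (nat_lit 5) (nat_lit 40) (nat_lit 5) (nat_lit 307) (nat_lit 267) (nat_lit 146)) (XT.nd (nat_lit 78) (nat_lit 228) (nat_lit 0) (XT.lf (nat_lit 0) (nat_lit 22046441009) (nat_lit 304) (nat_lit 2829017723) (nat_lit 76) (nat_lit 29488150126) (nat_lit 39) (nat_lit 5) (nat_lit 43) (nat_lit 5) (nat_lit 40) (nat_lit 5) (nat_lit 308) (nat_lit 267) (nat_lit 145)) (XT.lf (nat_lit 0) (nat_lit 29918166404) (nat_lit 228) (nat_lit 4473133550) (nat_lit 304) (nat_lit 22025226960) (nat_lit 36) (nat_lit 5) (nat_lit 39) (nat_lit 5) (nat_lit 40) (nat_lit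 5) (nat_lit 309) (nat_lit 267) (nat_lit 144))))) (XT.nd (nat_lit 156) (nat_lit 380) (nat_lit 0) (XT.nd (nat_lit 78) (nat_lit 76) (nat_lit 0) (XT.lf (nat_lit 0) (nat_lit 5731273159) (nat_lit 152) (nat_lit 41864339465) (nat_lit 228) (nat_lit 10969219218) (nat_lit 34) (nat_lit 5) (nat_lit 36) (nat_lit 5) (nat_lit 37) (nat_lit 5) (nat_lit 310) (nat_lit 267) (nat_lit 143)) (XT.lf (nat_lit 0) (nat_lit 942632688) (nat_lit 228) (nat_lit 20748079660) (nat_lit 76) (nat_lit 39120196236) (nat_lit 33) (nat_lit 5) (nat_lit 36) (nat_lit 5) (nat_lit 34) (nat_lit 5) (nat_lit 311) (nat_lit 267) (nat_lit 142))) (XT.nd (nat_lit 78) (nat_lit 152) (nat_lit 0) (XT.lf (nat_lit 0) (nat_lit 13078704322) (nat_lit 228) (nat_lit 267482937) (nat_lit 304) (nat_lit 49816161031) (nat_lit 30) (nat_lit 5) (nat_lit 33) (nat_lit 5) (nat_lit 34) (nat_lit 5) (nat_lit 312) (nat_lit 267) (nat_lit 141)) (XT.nd (nat_lit 78) (nat_lit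 152) (nat_lit 0) (XT.lf (nat_lit 0) (nat_lit 26794554142) (nat_lit 304) (nat_lit 16817699542) (nat_lit 76) (nat_lit 22006373376) (nat_lit 30) (nat_lit 5) (nat_lit 34) (nat_lit 5) (nat_lit 31) (nat_lit 5) (nat_lit 313) (nat_lit 267) (nat_lit 140)) (XT.lf (nat_lit 0) (nat_lit 18462080131) (nat_lit 152) (nat_lit 22628930759) (nat_lit 228) (nat_lit 27101444560) (nat_lit 28) (nat_lit 5) (nat_lit 30) (nat_lit 5) (nat_lit 31) (nat_lit 5) (nat_lit 314) (nat_lit 267) (nat_lit 139)))))) (XT.nd (nat_lit 390) (nat_lit 456) (nat_lit 0) (XT.nd (nat_lit 156) (nat_lit 228) (nat_lit 0) (XT.nd (nat_lit 78) (nat_lit 152) (nat_lit 0) (XT.lf (nat_lit 0) (nat_lit 55850466699) (nat_lit 152) (nat_lit 420598659) (nat_lit 228) (nat_lit 14618852202) (nat_lit 28) (nat_lit 5) (nat_lit 30) (nat_lit 5) (nat_lit 31) (nat_lit 5) (nat_lit 315) (nat_lit 267) (nat_lit 138)) (XT.lf (nat_lit 0) (nat_lit 21580415895) (nat_lit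 152) (nat_lit 51053097767) (nat_lit 228) (nat_lit 1076042665) (nat_lit 26) (nat_lit 5) (nat_lit 28) (nat_lit 5) (nat_lit 29) (nat_lit 5) (nat_lit 316) (nat_lit 267) (nat_lit 137))) (XT.nd (nat_lit 78) (nat_lit 152) (nat_lit 0) (XT.lf (nat_lit 0) (nat_lit 13043946044) (nat_lit 228) (nat_lit 16458602702) (nat_lit 76) (nat_lit 47159147042) (nat_lit 25) (nat_lit 5) (nat_lit 28) (nat_lit 5) (nat_lit 26) (nat_lit 5) (nat_lit 317) (nat_lit 267) (nat_lit 136)) (XT.nd (nat_lit 78) (nat_lit 0) (nat_lit 0) (XT.lf (nat_lit 0) (nat_lit 21395921064) (nat_lit 152) (nat_lit 6653758122) (nat_lit 228) (nat_lit 51705388098) (nat_lit 23) (nat_lit 5) (nat_lit 25) (nat_lit 5) (nat_lit 26) (nat_lit 5) (nat_lit 318) (nat_lit 267) (nat_lit 135)) (XT.lf (nat_lit 0) (nat_lit 44139688437) (nat_lit 228) (nat_lit 21685362344) (nat_lit 76) (nat_lit 17168041321) (nat_lit 23) (nat_lit 5) (nat_lit 26) (nat_lit 5) (nat_lit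 24) (nat_lit 5) (nat_lit 319) (nat_lit 267) (nat_lit 134))))) (XT.nd (nat_lit 234) (nat_lit 152) (nat_lit 0) (XT.nd (nat_lit 78) (nat_lit 152) (nat_lit 0) (XT.lf (nat_lit 0) (nat_lit 17082474946) (nat_lit 152) (nat_lit 44179494852) (nat_lit 228) (nat_lit 25124219434) (nat_lit 21) (nat_lit 5) (nat_lit 23) (nat_lit 5) (nat_lit 24) (nat_lit 5) (nat_lit 320) (nat_lit 267) (nat_lit 133)) (XT.nd (nat_lit 78) (nat_lit 152) (nat_lit 0) (XT.lf (nat_lit 0) (nat_lit 58236212776) (nat_lit 152) (nat_lit 21223907372) (nat_lit 228) (nat_lit 10482232442) (nat_lit 21) (nat_lit 5) (nat_lit 23) (nat_lit 5) (nat_lit 24) (nat_lit 5) (nat_lit 321) (nat_lit 267) (nat_lit 132)) (XT.lf (nat_lit 0) (nat_lit 4897597081) (nat_lit 152) (nat_lit 85829163995) (nat_lit 76) (nat_lit 2945120026) (nat_lit 19) (nat_lit 5) (nat_lit 21) (nat_lit 5) (nat_lit 20) (nat_lit 5) (nat_lit 322) (nat_lit 267) (nat_lit 131)))) (XT.nd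 (nat_lit 78) (nat_lit 152) (nat_lit 0) (XT.lf (nat_lit 0) (nat_lit 21372221988) (nat_lit 152) (nat_lit 47875139269) (nat_lit 76) (nat_lit 28321137010) (nat_lit 19) (nat_lit 5) (nat_lit 21) (nat_lit 5) (nat_lit 20) (nat_lit 5) (nat_lit 323) (nat_lit 267) (nat_lit 130)) (XT.nd (nat_lit 78) (nat_lit 152) (nat_lit 0) (XT.lf (nat_lit 0) (nat_lit 38667474330) (nat_lit 152) (nat_lit 8028534708) (nat_lit 76) (nat_lit 54964033739) (nat_lit 19) (nat_lit 5) (nat_lit 21) (nat_lit 5) (nat_lit 20) (nat_lit 5) (nat_lit 324) (nat_lit 267) (nat_lit 129)) (XT.lf (nat_lit 0) (nat_lit 34478318738) (nat_lit 152) (nat_lit 22677641231) (nat_lit 228) (nat_lit 48790353633) (nat_lit 17) (nat_lit 5) (nat_lit 19) (nat_lit 5) (nat_lit 20) (nat_lit 5) (nat_lit 325) (nat_lit 267) (nat_lit 128))))))))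
noncomputable def xc99 : XT := (XT.nd (nat_lit 1638) (nat_lit 4712) (nat_lit 0) (XT.nd (nat_lit 780) (nat_lit 3800) (nat_lit 0) (XT.nd (nat_lit 390) (nat_lit 0) (nat_lit 228) (XT.nd (nat_lit 156) (nat_lit 0) (nat_lit 76) (XT.nd (nat_lit 78) (nat_lit 0) (nat_lit 76) (XT.lf (nat_lit 0) (nat_lit 2641210733) (nat_lit 1140) (nat_lit 2753140526) (nat_lit 1140) (nat_lit 2753140526) (nat_lit 151) (nat_lit 3) (nat_lit 166) (nat_lit 3) (nat_lit 166) (nat_lit 5) (nat_lit 268) (nat_lit 268) (nat_lit 184)) (XT.lf (nat_lit 0) (nat_lit 5845093142) (nat_lit 1064) (nat_lit 10791503653) (nat_lit 1140) (nat_lit 51930876) (nat_lit 152) (nat_lit 5) (nat_lit 166) (nat_lit 5) (nat_lit 167) (nat_lit 5) (nat_lit 269) (nat_lit 268) (nat_lit 183))) (XT.nd (nat_lit 78) (nat_lit 0) (nat_lit 76) (XT.lf (nat_lit 76) (nat_lit 777759740) (nat_lit 0) (nat_lit 5807837477) (nat_lit 1140) (nat_lit 10511719182) (nat_lit 153)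 (nat_lit 5) (nat_lit 152) (nat_lit 5) (nat_lit 167) (nat_lit 5) (nat_lit 270) (nat_lit 268) (nat_lit 182)) (XT.nd (nat_lit 78) (nat_lit 0) (nat_lit 0) (XT.lf (nat_lit 0) (nat_lit 7505977497) (nat_lit 1064) (nat_lit 4440708218) (nat_lit 1140) (nat_lit 5575628927) (nat_lit 153) (nat_lit 5) (nat_lit 167) (nat_lit 5) (nat_lit 168) (nat_lit 5) (nat_lit 271) (nat_lit 268) (nat_lit 181)) (XT.lf (nat_lit 76) (nat_lit 8118624803) (nat_lit 0) (nat_lit 468692415) (nat_lit 1140) (nat_lit 9377850327) (nat_lit 154) (nat_lit 5) (nat_lit 153) (nat_lit 5) (nat_lit 168) (nat_lit 5) (nat_lit 272) (nat_lit 268) (nat_lit 180))))) (XT.nd (nat_lit 156) (nat_lit 0) (nat_lit 76) (XT.nd (nat_lit 78) (nat_lit 0) (nat_lit 76) (XT.lf (nat_lit 76) (nat_lit 2901111882) (nat_lit 0) (nat_lit 6986275933) (nat_lit 1140) (nat_lit 8537885801) (nat_lit 155) (nat_lit 5) (nat_lit 154) (nat_lit 5) (nat_lit 169) (nat_lit 5) (nat_lit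 273) (nat_lit 268) (nat_lit 179)) (XT.lf (nat_lit 0) (nat_lit 11387996552) (nat_lit 1064) (nat_lit 2481364029) (nat_lit 1140) (nat_lit 5035006408) (nat_lit 155) (nat_lit 5) (nat_lit 169) (nat_lit 5) (nat_lit 170) (nat_lit 5) (nat_lit 274) (nat_lit 268) (nat_lit 178))) (XT.nd (nat_lit 78) (nat_lit 0) (nat_lit 76) (XT.lf (nat_lit 76) (nat_lit 11351278376) (nat_lit 0) (nat_lit 1773120137) (nat_lit 1140) (nat_lit 6278239385) (nat_lit 156) (nat_lit 5) (nat_lit 155) (nat_lit 5) (nat_lit 170) (nat_lit 5) (nat_lit 275) (nat_lit 268) (nat_lit 177)) (XT.nd (nat_lit 78) (nat_lit 0) (nat_lit 76) (XT.lf (nat_lit 76) (nat_lit 6000603854) (nat_lit 0) (nat_lit 9117497945) (nat_lit 1140) (nat_lit 4802649687) (nat_lit 157) (nat_lit 5) (nat_lit 156) (nat_lit 5) (nat_lit 171) (nat_lit 5) (nat_lit 276) (nat_lit 268) (nat_lit 176)) (XT.lf (nat_lit 76) (nat_lit 402981248) (nat_lit 0) (nat_lit 16930254327) (nat_lit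 1140) (nat_lit 3127924314) (nat_lit 158) (nat_lit 5) (nat_lit 157) (nat_lit 5) (nat_lit 172) (nat_lit 5) (nat_lit 277) (nat_lit 268) (nat_lit 175)))))) (XT.nd (nat_lit 390) (nat_lit 1976) (nat_lit 0) (XT.nd (nat_lit 156) (nat_lit 1216) (nat_lit 0) (XT.nd (nat_lit 78) (nat_lit 1064) (nat_lit 0) (XT.lf (nat_lit 76) (nat_lit 15625941018) (nat_lit 0) (nat_lit 4251027652) (nat_lit 1140) (nat_lit 1145124284) (nat_lit 158) (nat_lit 5) (nat_lit 157) (nat_lit 5) (nat_lit 172) (nat_lit 5) (nat_lit 278) (nat_lit 268) (nat_lit 174)) (XT.lf (nat_lit 0) (nat_lit 1088564514) (nat_lit 1140) (nat_lit 11521127532) (nat_lit 76) (nat_lit 8996046129) (nat_lit 143) (nat_lit 5) (nat_lit 158) (nat_lit 5) (nat_lit 144) (nat_lit 5) (nat_lit 279) (nat_lit 268) (nat_lit 173))) (XT.nd (nat_lit 78) (nat_lit 532) (nat_lit 0) (XT.lf (nat_lit 0) (nat_lit 3541890520) (nat_lit 760) (nat_lit 17971419610) (nat_lit 76) (nat_lit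 701001123) (nat_lit 134) (nat_lit 5) (nat_lit 144) (nat_lit 5) (nat_lit 135) (nat_lit 5) (nat_lit 280) (nat_lit 268) (nat_lit 172)) (XT.nd (nat_lit 78) (nat_lit 532) (nat_lit 0) (XT.lf (nat_lit 0) (nat_lit 6350237789) (nat_lit 760) (nat_lit 1955668853) (nat_lit 76) (nat_lit 14540468837) (nat_lit 134) (nat_lit 5) (nat_lit 144) (nat_lit 5) (nat_lit 135) (nat_lit 5) (nat_lit 281) (nat_lit 268) (nat_lit 171)) (XT.lf (nat_lit 0) (nat_lit 9485498263) (nat_lit 608) (nat_lit 8417369131) (nat_lit 76) (nat_lit 5601612215) (nat_lit 127) (nat_lit 5) (nat_lit 135) (nat_lit 5) (nat_lit 128) (nat_lit 5) (nat_lit 282) (nat_lit 268) (nat_lit 170))))) (XT.nd (nat_lit 234) (nat_lit 988) (nat_lit 0) (XT.nd (nat_lit 78) (nat_lit 456) (nat_lit 0) (XT.lf (nat_lit 0) (nat_lit 8904965326) (nat_lit 532) (nat_lit 4048887292) (nat_lit 608) (nat_lit 11236376464) (nat_lit 120) (nat_lit 5) (nat_lit 127) (nat_lit 5) (nat_lit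 128) (nat_lit 5) (nat_lit 283) (nat_lit 268) (nat_lit 169)) (XT.nd (nat_lit 78) (nat_lit 0) (nat_lit 0) (XT.lf (nat_lit 0) (nat_lit 2291763932) (nat_lit 456) (nat_lit 14501400400) (nat_lit 532) (nat_lit 8111204140) (nat_lit 114) (nat_lit 5) (nat_lit 120) (nat_lit 5) (nat_lit 121) (nat_lit 5) (nat_lit 284) (nat_lit 268) (nat_lit 168)) (XT.lf (nat_lit 0) (nat_lit 21009871359) (nat_lit 532) (nat_lit 4635797075) (nat_lit 76) (nat_lit 3010773) (nat_lit 114) (nat_lit 5) (nat_lit 121) (nat_lit 5) (nat_lit 115) (nat_lit 5) (nat_lit 285) (nat_lit 268) (nat_lit 167)))) (XT.nd (nat_lit 78) (nat_lit 532) (nat_lit 0) (XT.lf (nat_lit 0) (nat_lit 14361474450) (nat_lit 456) (nat_lit 11348533510) (nat_lit 532) (nat_lit 712045662) (nat_lit 108) (nat_lit 5) (nat_lit 114) (nat_lit 5) (nat_lit 115) (nat_lit 5) (nat_lit 286) (nat_lit 268) (nat_lit 166)) (XT.nd (nat_lit 78) (nat_lit 0) (nat_lit 0) (XT.lf (nat_lit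 0) (nat_lit 3487754464) (nat_lit 532) (nat_lit 19997392712) (nat_lit 76) (nat_lit 3743692067) (nat_lit 101) (nat_lit 5) (nat_lit 108) (nat_lit 5) (nat_lit 102) (nat_lit 5) (nat_lit 287) (nat_lit 268) (nat_lit 165)) (XT.lf (nat_lit 0) (nat_lit 8111797207) (nat_lit 532) (nat_lit 467250788) (nat_lit 76) (nat_lit 19489858156) (nat_lit 101) (nat_lit 5) (nat_lit 108) (nat_lit 5) (nat_lit 102) (nat_lit 5) (nat_lit 288) (nat_lit 268) (nat_lit 164))))))) (XT.nd (nat_lit 780) (nat_lit 1976) (nat_lit 0) (XT.nd (nat_lit 390) (nat_lit 1064) (nat_lit 0) (XT.nd (nat_lit 156) (nat_lit 836) (nat_lit 0) (XT.nd (nat_lit 78) (nat_lit 380) (nat_lit 0) (XT.lf (nat_lit 0) (nat_lit 13222755306) (nat_lit 532) (nat_lit 8588928212) (nat_lit 76) (nat_lit 7131643271) (nat_lit 95) (nat_lit 5) (nat_lit 102) (nat_lit 5) (nat_lit 96) (nat_lit 5) (nat_lit 289) (nat_lit 268) (nat_lit 163)) (XT.lf (nat_lit 0) (nat_lit 12511516870)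 (nat_lit 380) (nat_lit 6279288877) (nat_lit 456) (nat_lit 11064637121) (nat_lit 90) (nat_lit 5) (nat_lit 95) (nat_lit 5) (nat_lit 96) (nat_lit 5) (nat_lit 290) (nat_lit 268) (nat_lit 162))) (XT.nd (nat_lit 78) (nat_lit 456) (nat_lit 0) (XT.lf (nat_lit 0) (nat_lit 4005297029) (nat_lit 380) (nat_lit 20846356515) (nat_lit 456) (nat_lit 5955099118) (nat_lit 85) (nat_lit 5) (nat_lit 90) (nat_lit 5) (nat_lit 91) (nat_lit 5) (nat_lit 291) (nat_lit 268) (nat_lit 161)) (XT.nd (nat_lit 78) (nat_lit 456) (nat_lit 0) (XT.lf (nat_lit 0) (nat_lit 26708580241) (nat_lit 380) (nat_lit 4738811165) (nat_lit 456) (nat_lit 351299923) (nat_lit 85) (nat_lit 5) (nat_lit 90) (nat_lit 5) (nat_lit 91) (nat_lit 5) (nat_lit 292) (nat_lit 268) (nat_lit 160)) (XT.lf (nat_lit 0) (nat_lit 5707835496) (nat_lit 456) (nat_lit 14959101386) (nat_lit 76) (nat_lit 12163218667) (nat_lit 79) (nat_lit 5) (nat_lit 85) (nat_lit 5)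 (nat_lit 80) (nat_lit 5) (nat_lit 293) (nat_lit 268) (nat_lit 159))))) (XT.nd (nat_lit 156) (nat_lit 684) (nat_lit 0) (XT.nd (nat_lit 78) (nat_lit 0) (nat_lit 0) (XT.lf (nat_lit 0) (nat_lit 8273766506) (nat_lit 380) (nat_lit 3960451430) (nat_lit 456) (nat_lit 21673740597) (nat_lit 74) (nat_lit 5) (nat_lit 79) (nat_lit 5) (nat_lit 80) (nat_lit 5) (nat_lit 294) (nat_lit 268) (nat_lit 158)) (XT.lf (nat_lit 0) (nat_lit 19364494026) (nat_lit 456) (nat_lit 2196985322) (nat_lit 76) (nat_lit 13469860862) (nat_lit 74) (nat_lit 5) (nat_lit 80) (nat_lit 5) (nat_lit 75) (nat_lit 5) (nat_lit 295) (nat_lit 268) (nat_lit 157))) (XT.nd (nat_lit 78) (nat_lit 380) (nat_lit 0) (XT.lf (nat_lit 0) (nat_lit 22806909628) (nat_lit 304) (nat_lit 4295493284) (nat_lit 380) (nat_lit 9100969516) (nat_lit 70) (nat_lit 5) (nat_lit 74) (nat_lit 5) (nat_lit 75) (nat_lit 5) (nat_lit 296) (nat_lit 268) (nat_lit 156)) (XT.nd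 (nat_lit 78) (nat_lit 76) (nat_lit 0) (XT.lf (nat_lit 0) (nat_lit 11759675672) (nat_lit 304) (nat_lit 23728571683) (nat_lit 380) (nat_lit 1937942012) (nat_lit 66) (nat_lit 5) (nat_lit 70) (nat_lit 5) (nat_lit 71) (nat_lit 5) (nat_lit 297) (nat_lit 268) (nat_lit 155)) (XT.lf (nat_lit 0) (nat_lit 5649282821) (nat_lit 380) (nat_lit 360883220) (nat_lit 76) (nat_lit 32693134409) (nat_lit 65) (nat_lit 5) (nat_lit 70) (nat_lit 5) (nat_lit 66) (nat_lit 5) (nat_lit 298) (nat_lit 268) (nat_lit 154)))))) (XT.nd (nat_lit 390) (nat_lit 760) (nat_lit 0) (XT.nd (nat_lit 156) (nat_lit 608) (nat_lit 0) (XT.nd (nat_lit 78) (nat_lit 304) (nat_lit 0) (XT.lf (nat_lit 0) (nat_lit 13949345700) (nat_lit 380) (nat_lit 13458038438) (nat_lit 76) (nat_lit 12625113236) (nat_lit 61) (nat_lit 5) (nat_lit 66) (nat_lit 5) (nat_lit 62) (nat_lit 5) (nat_lit 299) (nat_lit 268) (nat_lit 153)) (XT.lf (nat_lit 0) (nat_lit 13631877114)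 (nat_lit 304) (nat_lit 9220953834) (nat_lit 380) (nat_lit 18569682622) (nat_lit 57) (nat_lit 5) (nat_lit 61) (nat_lit 5) (nat_lit 62) (nat_lit 5) (nat_lit 300) (nat_lit 268) (nat_lit 152))) (XT.nd (nat_lit 78) (nat_lit 608) (nat_lit 0) (XT.lf (nat_lit 0) (nat_lit 32429513574) (nat_lit 380) (nat_lit 626064104) (nat_lit 76) (nat_lit 9819623636) (nat_lit 57) (nat_lit 5) (nat_lit 62) (nat_lit 5) (nat_lit 58) (nat_lit 5) (nat_lit 301) (nat_lit 268) (nat_lit 151)) (XT.nd (nat_lit 78) (nat_lit 380) (nat_lit 0) (XT.lf (nat_lit 0) (nat_lit 28347867705) (nat_lit 228) (nat_lit 14496243484) (nat_lit 304) (nat_lit 1545650718) (nat_lit 54) (nat_lit 5) (nat_lit 57) (nat_lit 5) (nat_lit 58) (nat_lit 5) (nat_lit 302) (nat_lit 268) (nat_lit 150)) (XT.lf (nat_lit 0) (nat_lit 7822068667) (nat_lit 380) (nat_lit 33051071995) (nat_lit 76) (nat_lit 5099424521) (nat_lit 49) (nat_lit 5) (nat_lit 54) (nat_lit 5) (nat_lit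 50) (nat_lit 5) (nat_lit 303) (nat_lit 268) (nat_lit 149))))) (XT.nd (nat_lit 234) (nat_lit 304) (nat_lit 0) (XT.nd (nat_lit 78) (nat_lit 456) (nat_lit 0) (XT.lf (nat_lit 0) (nat_lit 17933453538) (nat_lit 380) (nat_lit 4133589277) (nat_lit 76) (nat_lit 25557798910) (nat_lit 49) (nat_lit 5) (nat_lit 54) (nat_lit 5) (nat_lit 50) (nat_lit 5) (nat_lit 304) (nat_lit 268) (nat_lit 148)) (XT.nd (nat_lit 78) (nat_lit 228) (nat_lit 0) (XT.lf (nat_lit 0) (nat_lit 26743279202) (nat_lit 228) (nat_lit 2058355995) (nat_lit 304) (nat_lit 20550569204) (nat_lit 46) (nat_lit 5) (nat_lit 49) (nat_lit 5) (nat_lit 50) (nat_lit 5) (nat_lit 305) (nat_lit 268) (nat_lit 147)) (XT.lf (nat_lit 0) (nat_lit 8051986702) (nat_lit 228) (nat_lit 32458110699) (nat_lit 304) (nat_lit 10646940363) (nat_lit 43) (nat_lit 5) (nat_lit 46) (nat_lit 5) (nat_lit 47) (nat_lit 5) (nat_lit 306) (nat_lit 268) (nat_lit 146)))) (XT.nd (nat_lit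 78) (nat_lit 228) (nat_lit 0) (XT.lf (nat_lit 0) (nat_lit 6992590) (nat_lit 304) (nat_lit 12355563703) (nat_lit 76) (nat_lit 40682127675) (nat_lit 42) (nat_lit 5) (nat_lit 46) (nat_lit 5) (nat_lit 43) (nat_lit 5) (nat_lit 307) (nat_lit 268) (nat_lit 145)) (XT.nd (nat_lit 78) (nat_lit 0) (nat_lit 0) (XT.lf (nat_lit 0) (nat_lit 11251432527) (nat_lit 304) (nat_lit 34894220912) (nat_lit 76) (nat_lit 8869564080) (nat_lit 39) (nat_lit 5) (nat_lit 43) (nat_lit 5) (nat_lit 40) (nat_lit 5) (nat_lit 308) (nat_lit 268) (nat_lit 144)) (XT.lf (nat_lit 0) (nat_lit 23306202695) (nat_lit 304) (nat_lit 2734589121) (nat_lit 76) (nat_lit 31036049981) (nat_lit 39) (nat_lit 5) (nat_lit 43) (nat_lit 5) (nat_lit 40) (nat_lit 5) (nat_lit 309) (nat_lit 268) (nat_lit 143))))))))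
noncomputable def xc100 : XT := (XT.nd (nat_lit 34788) (nat_lit 0) (nat_lit 4180) (XT.nd (nat_lit 780) (nat_lit 304) (nat_lit 0) (XT.nd (nat_lit 390) (nat_lit 532) (nat_lit 0) (XT.nd (nat_lit 156) (nat_lit 304) (nat_lit 0) (XT.nd (nat_lit 78) (nat_lit 152) (nat_lit 0) (XT.lf (nat_lit 0) (nat_lit 31643192774) (nat_lit 228) (nat_lit 4619817110) (nat_lit 304) (nat_lit 22969565393) (nat_lit 36) (nat_lit 5) (nat_lit 39) (nat_lit 5) (nat_lit 40) (nat_lit 5) (nat_lit 310) (nat_lit 268) (nat_lit 142)) (XT.lf (nat_lit 0) (nat_lit 6244309563) (nat_lit 152) (nat_lit 43878865301) (nat_lit 228) (nat_lit 11365261661) (nat_lit 34) (nat_lit 5) (nat_lit 36) (nat_lit 5) (nat_lit 37) (nat_lit 5) (nat_lit 311) (nat_lit 268) (nat_lit 141))) (XT.nd (nat_lit 78) (nat_lit 228) (nat_lit 0) (XT.lf (nat_lit 0) (nat_lit 1132092212) (nat_lit 228) (nat_lit 21566774581) (nat_lit 76) (nat_lit 41148129254) (nat_lit 33)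 (nat_lit 5) (nat_lit 36) (nat_lit 5) (nat_lit 34) (nat_lit 5) (nat_lit 312) (nat_lit 268) (nat_lit 140)) (XT.nd (nat_lit 78) (nat_lit 0) (nat_lit 0) (XT.lf (nat_lit 0) (nat_lit 13945079348) (nat_lit 228) (nat_lit 206009746) (nat_lit 304) (nat_lit 52165069666) (nat_lit 30) (nat_lit 5) (nat_lit 33) (nat_lit 5) (nat_lit 34) (nat_lit 5) (nat_lit 313) (nat_lit 268) (nat_lit 139)) (XT.lf (nat_lit 0) (nat_lit 28266007517) (nat_lit 304) (nat_lit 17452844256) (nat_lit 76) (nat_lit 23176584232) (nat_lit 30) (nat_lit 5) (nat_lit 34) (nat_lit 5) (nat_lit 31) (nat_lit 5) (nat_lit 314) (nat_lit 268) (nat_lit 138))))) (XT.nd (nat_lit 156) (nat_lit 380) (nat_lit 0) (XT.nd (nat_lit 78) (nat_lit 0) (nat_lit 0) (XT.lf (nat_lit 0) (nat_lit 19585026897) (nat_lit 152) (nat_lit 23687908565) (nat_lit 228) (nat_lit 28325159027) (nat_lit 28) (nat_lit 5) (nat_lit 30) (nat_lit 5) (nat_lit 31) (nat_lit 5) (nat_lit 315)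 (nat_lit 268) (nat_lit 137)) (XT.lf (nat_lit 0) (nat_lit 58833316471) (nat_lit 152) (nat_lit 372610752) (nat_lit 228) (nat_lit 15224692183) (nat_lit 28) (nat_lit 5) (nat_lit 30) (nat_lit 5) (nat_lit 31) (nat_lit 5) (nat_lit 316) (nat_lit 268) (nat_lit 136))) (XT.nd (nat_lit 78) (nat_lit 228) (nat_lit 0) (XT.lf (nat_lit 0) (nat_lit 22847348311) (nat_lit 152) (nat_lit 53535811203) (nat_lit 228) (nat_lit 1008188121) (nat_lit 26) (nat_lit 5) (nat_lit 28) (nat_lit 5) (nat_lit 29) (nat_lit 5) (nat_lit 317) (nat_lit 268) (nat_lit 135)) (XT.nd (nat_lit 78) (nat_lit 152) (nat_lit 0) (XT.lf (nat_lit 0) (nat_lit 13809745934) (nat_lit 228) (nat_lit 17100172179) (nat_lit 76) (nat_lit 49581318092) (nat_lit 25) (nat_lit 5) (nat_lit 28) (nat_lit 5) (nat_lit 26) (nat_lit 5) (nat_lit 318) (nat_lit 268) (nat_lit 134)) (XT.lf (nat_lit 0) (nat_lit 22641879108) (nat_lit 152) (nat_lit 6920170354) (nat_lit 228)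 (nat_lit 54177344791) (nat_lit 23) (nat_lit 5) (nat_lit 25) (nat_lit 5) (nat_lit 26) (nat_lit 5) (nat_lit 319) (nat_lit 268) (nat_lit 133)))))) (XT.nd (nat_lit 33540) (nat_lit 0) (nat_lit 10032) (XT.nd (nat_lit 156) (nat_lit 152) (nat_lit 0) (XT.nd (nat_lit 78) (nat_lit 152) (nat_lit 0) (XT.lf (nat_lit 0) (nat_lit 46451933239) (nat_lit 228) (nat_lit 22599200648) (nat_lit 76) (nat_lit 18088331384) (nat_lit 23) (nat_lit 5) (nat_lit 26) (nat_lit 5) (nat_lit 24) (nat_lit 5) (nat_lit 320) (nat_lit 268) (nat_lit 132)) (XT.lf (nat_lit 0) (nat_lit 18102143170) (nat_lit 152) (nat_lit 46324764414) (nat_lit 228) (nat_lit 26275418193) (nat_lit 21) (nat_lit 5) (nat_lit 23) (nat_lit 5) (nat_lit 24) (nat_lit 5) (nat_lit 321) (nat_lit 268) (nat_lit 131))) (XT.nd (nat_lit 78) (nat_lit 152) (nat_lit 0) (XT.lf (nat_lit 0) (nat_lit 61305684821) (nat_lit 152) (nat_lit 22224431140) (nat_lit 228) (nat_lit 10906332433)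 (nat_lit 21) (nat_lit 5) (nat_lit 23) (nat_lit 5) (nat_lit 24) (nat_lit 5) (nat_lit 322) (nat_lit 268) (nat_lit 130)) (XT.nd (nat_lit 78) (nat_lit 0) (nat_lit 0) (XT.lf (nat_lit 0) (nat_lit 5237938058) (nat_lit 152) (nat_lit 89963107867) (nat_lit 76) (nat_lit 3151461718) (nat_lit 19) (nat_lit 5) (nat_lit 21) (nat_lit 5) (nat_lit 20) (nat_lit 5) (nat_lit 323) (nat_lit 268) (nat_lit 129)) (XT.lf (nat_lit 0) (nat_lit 22531748443) (nat_lit 152) (nat_lit 50118882587) (nat_lit 76) (nat_lit 29793465947) (nat_lit 19) (nat_lit 5) (nat_lit 21) (nat_lit 5) (nat_lit 20) (nat_lit 5) (nat_lit 324) (nat_lit 268) (nat_lit 128))))) (XT.nd (nat_lit 234) (nat_lit 0) (nat_lit 152) (XT.nd (nat_lit 78) (nat_lit 0) (nat_lit 0) (XT.lf (nat_lit 0) (nat_lit 3140852444) (nat_lit 1140) (nat_lit 2701044290) (nat_lit 1140) (nat_lit 2701044290) (nat_lit 151) (nat_lit 3) (nat_lit 166) (nat_lit 3) (nat_lit 166) (nat_lit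 5) (nat_lit 269) (nat_lit 269) (nat_lit 182)) (XT.nd (nat_lit 78) (nat_lit 0) (nat_lit 76) (XT.lf (nat_lit 76) (nat_lit 6561053887) (nat_lit 0) (nat_lit 279457426) (nat_lit 1140) (nat_lit 10659637520) (nat_lit 152) (nat_lit 5) (nat_lit 151) (nat_lit 3) (nat_lit 166) (nat_lit 5) (nat_lit 270) (nat_lit 269) (nat_lit 181)) (XT.lf (nat_lit 76) (nat_lit 1200004789) (nat_lit 0) (nat_lit 6385678493) (nat_lit 1140) (nat_lit 10344745878) (nat_lit 153) (nat_lit 5) (nat_lit 152) (nat_lit 5) (nat_lit 167) (nat_lit 5) (nat_lit 271) (nat_lit 269) (nat_lit 180)))) (XT.nd (nat_lit 78) (nat_lit 0) (nat_lit 0) (XT.lf (nat_lit 0) (nat_lit 8517507864) (nat_lit 1064) (nat_lit 4274292908) (nat_lit 1140) (nat_lit 5585991351) (nat_lit 153) (nat_lit 5) (nat_lit 167) (nat_lit 5) (nat_lit 168) (nat_lit 5) (nat_lit 272) (nat_lit 269) (nat_lit 179)) (XT.nd (nat_lit 78) (nat_lit 0) (nat_lit 76) (XT.lf (nat_lit 76) (nat_lit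 8901871903) (nat_lit 0) (nat_lit 724372921) (nat_lit 1140) (nat_lit 9217416811) (nat_lit 154) (nat_lit 5) (nat_lit 153) (nat_lit 5) (nat_lit 168) (nat_lit 5) (nat_lit 273) (nat_lit 269) (nat_lit 178)) (XT.lf (nat_lit 76) (nat_lit 3434033896) (nat_lit 0) (nat_lit 7529860534) (nat_lit 1140) (nat_lit 8363771668) (nat_lit 155) (nat_lit 5) (nat_lit 154) (nat_lit 5) (nat_lit 169) (nat_lit 5) (nat_lit 274) (nat_lit 269) (nat_lit 177))))))) (XT.nd (nat_lit 780) (nat_lit 3496) (nat_lit 0) (XT.nd (nat_lit 390) (nat_lit 2660) (nat_lit 0) (XT.nd (nat_lit 156) (nat_lit 0) (nat_lit 76) (XT.nd (nat_lit 78) (nat_lit 0) (nat_lit 0) (XT.lf (nat_lit 0) (nat_lit 12510034261) (nat_lit 1064) (nat_lit 2216284547) (nat_lit 1140) (nat_lit 5105347318) (nat_lit 155) (nat_lit 5) (nat_lit 169) (nat_lit 5) (nat_lit 170) (nat_lit 5) (nat_lit 275) (nat_lit 269) (nat_lit 176)) (XT.lf (nat_lit 76) (nat_lit 12296835138) (nat_lit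 0) (nat_lit 2013738590) (nat_lit 1140) (nat_lit 6045021142) (nat_lit 156) (nat_lit 5) (nat_lit 155) (nat_lit 5) (nat_lit 170) (nat_lit 5) (nat_lit 276) (nat_lit 269) (nat_lit 175))) (XT.nd (nat_lit 78) (nat_lit 0) (nat_lit 76) (XT.lf (nat_lit 76) (nat_lit 6685893292) (nat_lit 0) (nat_lit 9695145072) (nat_lit 1140) (nat_lit 4519324262) (nat_lit 157) (nat_lit 5) (nat_lit 156) (nat_lit 5) (nat_lit 171) (nat_lit 5) (nat_lit 277) (nat_lit 269) (nat_lit 174)) (XT.nd (nat_lit 78) (nat_lit 0) (nat_lit 0) (XT.lf (nat_lit 76) (nat_lit 814438746) (nat_lit 0) (nat_lit 17870992414) (nat_lit 1140) (nat_lit 2783063100) (nat_lit 158) (nat_lit 5) (nat_lit 157) (nat_lit 5) (nat_lit 172) (nat_lit 5) (nat_lit 278) (nat_lit 269) (nat_lit 173)) (XT.lf (nat_lit 76) (nat_lit 16779912770) (nat_lit 0) (nat_lit 4553317483) (nat_lit 1140) (nat_lit 724992470) (nat_lit 158) (nat_lit 5) (nat_lit 157) (nat_lit 5) (nat_lit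 172) (nat_lit 5) (nat_lit 279) (nat_lit 269) (nat_lit 172))))) (XT.nd (nat_lit 156) (nat_lit 1064) (nat_lit 0) (XT.nd (nat_lit 78) (nat_lit 684) (nat_lit 0) (XT.lf (nat_lit 0) (nat_lit 1591609846) (nat_lit 1140) (nat_lit 11709860569) (nat_lit 76) (nat_lit 9370076752) (nat_lit 143) (nat_lit 5) (nat_lit 158) (nat_lit 5) (nat_lit 144) (nat_lit 5) (nat_lit 280) (nat_lit 269) (nat_lit 171)) (XT.lf (nat_lit 0) (nat_lit 4149330567) (nat_lit 760) (nat_lit 18479347481) (nat_lit 76) (nat_lit 682467541) (nat_lit 134) (nat_lit 5) (nat_lit 144) (nat_lit 5) (nat_lit 135) (nat_lit 5) (nat_lit 281) (nat_lit 269) (nat_lit 170))) (XT.nd (nat_lit 78) (nat_lit 1064) (nat_lit 0) (XT.lf (nat_lit 0) (nat_lit 7077602557) (nat_lit 760) (nat_lit 1681411239) (nat_lit 76) (nat_lit 15216460243) (nat_lit 134) (nat_lit 5) (nat_lit 144) (nat_lit 5) (nat_lit 135) (nat_lit 5) (nat_lit 282) (nat_lit 269) (nat_lit 169)) (XT.nd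 (nat_lit 78) (nat_lit 532) (nat_lit 0) (XT.lf (nat_lit 0) (nat_lit 10353271255) (nat_lit 608) (nat_lit 8463854350) (nat_lit 76) (nat_lit 5849892444) (nat_lit 127) (nat_lit 5) (nat_lit 135) (nat_lit 5) (nat_lit 128) (nat_lit 5) (nat_lit 283) (nat_lit 269) (nat_lit 168)) (XT.lf (nat_lit 0) (nat_lit 9713865209) (nat_lit 532) (nat_lit 4265935756) (nat_lit 608) (nat_lit 11407753234) (nat_lit 120) (nat_lit 5) (nat_lit 127) (nat_lit 5) (nat_lit 128) (nat_lit 5) (nat_lit 284) (nat_lit 269) (nat_lit 167)))))) (XT.nd (nat_lit 390) (nat_lit 2052) (nat_lit 0) (XT.nd (nat_lit 156) (nat_lit 988) (nat_lit 0) (XT.nd (nat_lit 78) (nat_lit 0) (nat_lit 0) (XT.lf (nat_lit 0) (nat_lit 2771553123) (nat_lit 456) (nat_lit 15224889802) (nat_lit 532) (nat_lit 8141436630) (nat_lit 114) (nat_lit 5) (nat_lit 120) (nat_lit 5) (nat_lit 121) (nat_lit 5) (nat_lit 285) (nat_lit 269) (nat_lit 166)) (XT.lf (nat_lit 0) (nat_lit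 22406684518) (nat_lit 532) (nat_lit 4508641080) (nat_lit 76) (nat_lit 4637287) (nat_lit 114) (nat_lit 5) (nat_lit 121) (nat_lit 5) (nat_lit 115) (nat_lit 5) (nat_lit 286) (nat_lit 269) (nat_lit 165))) (XT.nd (nat_lit 78) (nat_lit 532) (nat_lit 0) (XT.lf (nat_lit 0) (nat_lit 15428204911) (nat_lit 456) (nat_lit 11900483131) (nat_lit 532) (nat_lit 403748400) (nat_lit 108) (nat_lit 5) (nat_lit 114) (nat_lit 5) (nat_lit 115) (nat_lit 5) (nat_lit 287) (nat_lit 269) (nat_lit 164)) (XT.nd (nat_lit 78) (nat_lit 0) (nat_lit 0) (XT.lf (nat_lit 0) (nat_lit 3986804840) (nat_lit 532) (nat_lit 20641200417) (nat_lit 76) (nat_lit 3951866193) (nat_lit 101) (nat_lit 5) (nat_lit 108) (nat_lit 5) (nat_lit 102) (nat_lit 5) (nat_lit 288) (nat_lit 269) (nat_lit 163)) (XT.lf (nat_lit 0) (nat_lit 8826589594) (nat_lit 532) (nat_lit 151506727) (nat_lit 76) (nat_lit 20484341085) (nat_lit 101) (nat_lit 5) (nat_lit 108)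 (nat_lit 5) (nat_lit 102) (nat_lit 5) (nat_lit 289) (nat_lit 269) (nat_lit 162))))) (XT.nd (nat_lit 234) (nat_lit 836) (nat_lit 0) (XT.nd (nat_lit 78) (nat_lit 760) (nat_lit 0) (XT.lf (nat_lit 0) (nat_lit 14181843047) (nat_lit 532) (nat_lit 8679756618) (nat_lit 76) (nat_lit 7519347367) (nat_lit 95) (nat_lit 5) (nat_lit 102) (nat_lit 5) (nat_lit 96) (nat_lit 5) (nat_lit 290) (nat_lit 269) (nat_lit 161)) (XT.nd (nat_lit 78) (nat_lit 380) (nat_lit 0) (XT.lf (nat_lit 0) (nat_lit 13466004300) (nat_lit 380) (nat_lit 6551265315) (nat_lit 456) (nat_lit 11321759025) (nat_lit 90) (nat_lit 5) (nat_lit 95) (nat_lit 5) (nat_lit 96) (nat_lit 5) (nat_lit 291) (nat_lit 269) (nat_lit 160)) (XT.lf (nat_lit 0) (nat_lit 4533576284) (nat_lit 380) (nat_lit 21837457959) (nat_lit 456) (nat_lit 5967201002) (nat_lit 85) (nat_lit 5) (nat_lit 90) (nat_lit 5) (nat_lit 91) (nat_lit 5) (nat_lit 292) (nat_lit 269) (nat_lit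 159)))) (XT.nd (nat_lit 78) (nat_lit 836) (nat_lit 0) (XT.lf (nat_lit 0) (nat_lit 28356403923) (nat_lit 380) (nat_lit 4926974217) (nat_lit 456) (nat_lit 96814374) (nat_lit 85) (nat_lit 5) (nat_lit 90) (nat_lit 5) (nat_lit 91) (nat_lit 5) (nat_lit 293) (nat_lit 269) (nat_lit 158)) (XT.nd (nat_lit 78) (nat_lit 380) (nat_lit 0) (XT.lf (nat_lit 0) (nat_lit 6250738941) (nat_lit 456) (nat_lit 15390270016) (nat_lit 76) (nat_lit 12822443707) (nat_lit 79) (nat_lit 5) (nat_lit 85) (nat_lit 5) (nat_lit 80) (nat_lit 5) (nat_lit 294) (nat_lit 269) (nat_lit 157)) (XT.lf (nat_lit 0) (nat_lit 8995160652) (nat_lit 380) (nat_lit 4098975248) (nat_lit 456) (nat_lit 22501312146) (nat_lit 74) (nat_lit 5) (nat_lit 79) (nat_lit 5) (nat_lit 80) (nat_lit 5) (nat_lit 295) (nat_lit 269) (nat_lit 156))))))))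
noncomputable def xc101 : XT := (XT.nd (nat_lit 1638) (nat_lit 684) (nat_lit 0) (XT.nd (nat_lit 780) (nat_lit 1596) (nat_lit 0) (XT.nd (nat_lit 390) (nat_lit 912) (nat_lit 0) (XT.nd (nat_lit 156) (nat_lit 684) (nat_lit 0) (XT.nd (nat_lit 78) (nat_lit 304) (nat_lit 0) (XT.lf (nat_lit 0) (nat_lit 20569651112) (nat_lit 456) (nat_lit 2006794307) (nat_lit 76) (nat_lit 14198913637) (nat_lit 74) (nat_lit 5) (nat_lit 80) (nat_lit 5) (nat_lit 75) (nat_lit 5) (nat_lit 296) (nat_lit 269) (nat_lit 155)) (XT.lf (nat_lit 0) (nat_lit 24238694797) (nat_lit 304) (nat_lit 4447279647) (nat_lit 380) (nat_lit 9320293832) (nat_lit 70) (nat_lit 5) (nat_lit 74) (nat_lit 5) (nat_lit 75) (nat_lit 5) (nat_lit 297) (nat_lit 269) (nat_lit 154))) (XT.nd (nat_lit 78) (nat_lit 380) (nat_lit 0) (XT.lf (nat_lit 0) (nat_lit 12637221257) (nat_lit 304) (nat_lit 24846371310) (nat_lit 380) (nat_lit 1806879015) (nat_lit 66) (nat_lit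 5) (nat_lit 70) (nat_lit 5) (nat_lit 71) (nat_lit 5) (nat_lit 298) (nat_lit 269) (nat_lit 153)) (XT.nd (nat_lit 78) (nat_lit 304) (nat_lit 0) (XT.lf (nat_lit 0) (nat_lit 6144615319) (nat_lit 380) (nat_lit 98548560) (nat_lit 76) (nat_lit 34388546364) (nat_lit 65) (nat_lit 5) (nat_lit 70) (nat_lit 5) (nat_lit 66) (nat_lit 5) (nat_lit 299) (nat_lit 269) (nat_lit 152)) (XT.lf (nat_lit 0) (nat_lit 14852806639) (nat_lit 380) (nat_lit 13852730420) (nat_lit 76) (nat_lit 13322053774) (nat_lit 61) (nat_lit 5) (nat_lit 66) (nat_lit 5) (nat_lit 62) (nat_lit 5) (nat_lit 300) (nat_lit 269) (nat_lit 151))))) (XT.nd (nat_lit 156) (nat_lit 608) (nat_lit 0) (XT.nd (nat_lit 78) (nat_lit 0) (nat_lit 0) (XT.lf (nat_lit 0) (nat_lit 14583706077) (nat_lit 304) (nat_lit 9610548515) (nat_lit 380) (nat_lit 19293086336) (nat_lit 57) (nat_lit 5) (nat_lit 61) (nat_lit 5) (nat_lit 62) (nat_lit 5) (nat_lit 301) (nat_lit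 269) (nat_lit 150)) (XT.lf (nat_lit 0) (nat_lit 34240959679) (nat_lit 380) (nat_lit 394656283) (nat_lit 76) (nat_lit 10377327393) (nat_lit 57) (nat_lit 5) (nat_lit 62) (nat_lit 5) (nat_lit 58) (nat_lit 5) (nat_lit 302) (nat_lit 269) (nat_lit 149))) (XT.nd (nat_lit 78) (nat_lit 380) (nat_lit 0) (XT.lf (nat_lit 0) (nat_lit 30020441557) (nat_lit 228) (nat_lit 15149252358) (nat_lit 304) (nat_lit 1433751048) (nat_lit 54) (nat_lit 5) (nat_lit 57) (nat_lit 5) (nat_lit 58) (nat_lit 5) (nat_lit 303) (nat_lit 269) (nat_lit 148)) (XT.nd (nat_lit 78) (nat_lit 0) (nat_lit 0) (XT.lf (nat_lit 0) (nat_lit 8392948112) (nat_lit 380) (nat_lit 34446932885) (nat_lit 76) (nat_lit 5425638327) (nat_lit 49) (nat_lit 5) (nat_lit 54) (nat_lit 5) (nat_lit 50) (nat_lit 5) (nat_lit 304) (nat_lit 269) (nat_lit 147)) (XT.lf (nat_lit 0) (nat_lit 19001341464) (nat_lit 380) (nat_lit 4095799494) (nat_lit 76) (nat_lit 26903538933)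 (nat_lit 49) (nat_lit 5) (nat_lit 54) (nat_lit 5) (nat_lit 50) (nat_lit 5) (nat_lit 305) (nat_lit 269) (nat_lit 146)))))) (XT.nd (nat_lit 390) (nat_lit 836) (nat_lit 0) (XT.nd (nat_lit 156) (nat_lit 304) (nat_lit 0) (XT.nd (nat_lit 78) (nat_lit 228) (nat_lit 0) (XT.lf (nat_lit 0) (nat_lit 28317904748) (nat_lit 228) (nat_lit 2089156978) (nat_lit 304) (nat_lit 21407537826) (nat_lit 46) (nat_lit 5) (nat_lit 49) (nat_lit 5) (nat_lit 50) (nat_lit 5) (nat_lit 306) (nat_lit 269) (nat_lit 145)) (XT.lf (nat_lit 0) (nat_lit 8689633056) (nat_lit 228) (nat_lit 34006360059) (nat_lit 304) (nat_lit 11013842214) (nat_lit 43) (nat_lit 5) (nat_lit 46) (nat_lit 5) (nat_lit 47) (nat_lit 5) (nat_lit 307) (nat_lit 269) (nat_lit 144))) (XT.nd (nat_lit 78) (nat_lit 228) (nat_lit 0) (XT.lf (nat_lit 0) (nat_lit 161834348) (nat_lit 304) (nat_lit 12746188572) (nat_lit 76) (nat_lit 42784036166) (nat_lit 42) (nat_lit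 5) (nat_lit 46) (nat_lit 5) (nat_lit 43) (nat_lit 5) (nat_lit 308) (nat_lit 269) (nat_lit 143)) (XT.nd (nat_lit 78) (nat_lit 0) (nat_lit 0) (XT.lf (nat_lit 0) (nat_lit 11963946664) (nat_lit 304) (nat_lit 36414284827) (nat_lit 76) (nat_lit 9383034997) (nat_lit 39) (nat_lit 5) (nat_lit 43) (nat_lit 5) (nat_lit 40) (nat_lit 5) (nat_lit 309) (nat_lit 269) (nat_lit 142)) (XT.lf (nat_lit 0) (nat_lit 24614315220) (nat_lit 304) (nat_lit 2657368928) (nat_lit 76) (nat_lit 32654512206) (nat_lit 39) (nat_lit 5) (nat_lit 43) (nat_lit 5) (nat_lit 40) (nat_lit 5) (nat_lit 310) (nat_lit 269) (nat_lit 141))))) (XT.nd (nat_lit 234) (nat_lit 380) (nat_lit 0) (XT.nd (nat_lit 78) (nat_lit 228) (nat_lit 0) (XT.lf (nat_lit 0) (nat_lit 33433169238) (nat_lit 228) (nat_lit 4780991080) (nat_lit 304) (nat_lit 23975709954) (nat_lit 36) (nat_lit 5) (nat_lit 39) (nat_lit 5) (nat_lit 40) (nat_lit 5) (nat_lit 311) (nat_lit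 269) (nat_lit 140)) (XT.nd (nat_lit 78) (nat_lit 76) (nat_lit 0) (XT.lf (nat_lit 0) (nat_lit 6761942497) (nat_lit 152) (nat_lit 46001433386) (nat_lit 228) (nat_lit 11795276655) (nat_lit 34) (nat_lit 5) (nat_lit 36) (nat_lit 5) (nat_lit 37) (nat_lit 5) (nat_lit 312) (nat_lit 269) (nat_lit 139)) (XT.lf (nat_lit 0) (nat_lit 1317792414) (nat_lit 228) (nat_lit 22446737744) (nat_lit 76) (nat_lit 43270772186) (nat_lit 33) (nat_lit 5) (nat_lit 36) (nat_lit 5) (nat_lit 34) (nat_lit 5) (nat_lit 313) (nat_lit 269) (nat_lit 138)))) (XT.nd (nat_lit 78) (nat_lit 152) (nat_lit 0) (XT.lf (nat_lit 0) (nat_lit 14835022486) (nat_lit 228) (nat_lit 148421491) (nat_lit 304) (nat_lit 54644616196) (nat_lit 30) (nat_lit 5) (nat_lit 33) (nat_lit 5) (nat_lit 34) (nat_lit 5) (nat_lit 314) (nat_lit 269) (nat_lit 137)) (XT.nd (nat_lit 78) (nat_lit 152) (nat_lit 0) (XT.lf (nat_lit 0) (nat_lit 29798786956) (nat_lit 304)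 (nat_lit 18138873986) (nat_lit 76) (nat_lit 24398807718) (nat_lit 30) (nat_lit 5) (nat_lit 34) (nat_lit 5) (nat_lit 31) (nat_lit 5) (nat_lit 315) (nat_lit 269) (nat_lit 136)) (XT.lf (nat_lit 0) (nat_lit 20745541516) (nat_lit 152) (nat_lit 24806572717) (nat_lit 228) (nat_lit 29622271617) (nat_lit 28) (nat_lit 5) (nat_lit 30) (nat_lit 5) (nat_lit 31) (nat_lit 5) (nat_lit 316) (nat_lit 269) (nat_lit 135))))))) (XT.nd (nat_lit 34008) (nat_lit 0) (nat_lit 8740) (XT.nd (nat_lit 390) (nat_lit 304) (nat_lit 0) (XT.nd (nat_lit 156) (nat_lit 228) (nat_lit 0) (XT.nd (nat_lit 78) (nat_lit 152) (nat_lit 0) (XT.lf (nat_lit 0) (nat_lit 61947613985) (nat_lit 152) (nat_lit 328640074) (nat_lit 228) (nat_lit 15872455020) (nat_lit 28) (nat_lit 5) (nat_lit 30) (nat_lit 5) (nat_lit 31) (nat_lit 5) (nat_lit 317) (nat_lit 269) (nat_lit 134)) (XT.lf (nat_lit 0) (nat_lit 24160157106) (nat_lit 152) (nat_lit 56149162804)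 (nat_lit 228) (nat_lit 948251335) (nat_lit 26) (nat_lit 5) (nat_lit 28) (nat_lit 5) (nat_lit 29) (nat_lit 5) (nat_lit 318) (nat_lit 269) (nat_lit 133))) (XT.nd (nat_lit 78) (nat_lit 152) (nat_lit 0) (XT.lf (nat_lit 0) (nat_lit 14603274127) (nat_lit 228) (nat_lit 17790681325) (nat_lit 76) (nat_lit 52118627713) (nat_lit 25) (nat_lit 5) (nat_lit 28) (nat_lit 5) (nat_lit 26) (nat_lit 5) (nat_lit 319) (nat_lit 269) (nat_lit 132)) (XT.nd (nat_lit 78) (nat_lit 0) (nat_lit 0) (XT.lf (nat_lit 0) (nat_lit 23933757183) (nat_lit 152) (nat_lit 7206064882) (nat_lit 228) (nat_lit 56783434060) (nat_lit 23) (nat_lit 5) (nat_lit 25) (nat_lit 5) (nat_lit 26) (nat_lit 5) (nat_lit 320) (nat_lit 269) (nat_lit 131)) (XT.lf (nat_lit 0) (nat_lit 48870004170) (nat_lit 228) (nat_lit 23574575816) (nat_lit 76) (nat_lit 19048882191) (nat_lit 23) (nat_lit 5) (nat_lit 26) (nat_lit 5) (nat_lit 24) (nat_lit 5) (nat_lit 321)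 (nat_lit 269) (nat_lit 130))))) (XT.nd (nat_lit 156) (nat_lit 152) (nat_lit 0) (XT.nd (nat_lit 78) (nat_lit 0) (nat_lit 0) (XT.lf (nat_lit 0) (nat_lit 19157404049) (nat_lit 152) (nat_lit 48583220158) (nat_lit 228) (nat_lit 27493939931) (nat_lit 21) (nat_lit 5) (nat_lit 23) (nat_lit 5) (nat_lit 24) (nat_lit 5) (nat_lit 322) (nat_lit 269) (nat_lit 129)) (XT.lf (nat_lit 0) (nat_lit 64513972606) (nat_lit 152) (nat_lit 23280621767) (nat_lit 228) (nat_lit 11360935557) (nat_lit 21) (nat_lit 5) (nat_lit 23) (nat_lit 5) (nat_lit 24) (nat_lit 5) (nat_lit 323) (nat_lit 269) (nat_lit 128))) (XT.nd (nat_lit 33306) (nat_lit 0) (nat_lit 10032) (XT.lf (nat_lit 0) (nat_lit 5586421014) (nat_lit 152) (nat_lit 94318393121) (nat_lit 76) (nat_lit 3362627267) (nat_lit 19) (nat_lit 5) (nat_lit 21) (nat_lit 5) (nat_lit 20) (nat_lit 5) (nat_lit 324) (nat_lit 269) (nat_lit 127)) (XT.nd (nat_lit 78) (nat_lit 0) (nat_lit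 0) (XT.lf (nat_lit 0) (nat_lit 3631302028) (nat_lit 1140) (nat_lit 2663984701) (nat_lit 1140) (nat_lit 2663984701) (nat_lit 151) (nat_lit 3) (nat_lit 166) (nat_lit 3) (nat_lit 166) (nat_lit 5) (nat_lit 270) (nat_lit 270) (nat_lit 180)) (XT.lf (nat_lit 76) (nat_lit 7223463087) (nat_lit 0) (nat_lit 597348710) (nat_lit 1140) (nat_lit 10533644924) (nat_lit 152) (nat_lit 5) (nat_lit 151) (nat_lit 3) (nat_lit 166) (nat_lit 5) (nat_lit 271) (nat_lit 270) (nat_lit 179)))))) (XT.nd (nat_lit 390) (nat_lit 1368) (nat_lit 0) (XT.nd (nat_lit 156) (nat_lit 0) (nat_lit 76) (XT.nd (nat_lit 78) (nat_lit 0) (nat_lit 76) (XT.lf (nat_lit 76) (nat_lit 1607721185) (nat_lit 0) (nat_lit 6965687262) (nat_lit 1140) (nat_lit 10233811506) (nat_lit 153) (nat_lit 5) (nat_lit 152) (nat_lit 5) (nat_lit 167) (nat_lit 5) (nat_lit 272) (nat_lit 270) (nat_lit 178)) (XT.lf (nat_lit 0) (nat_lit 9520463976) (nat_lit 1064) (nat_lit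 4135671298) (nat_lit 1140) (nat_lit 5621826952) (nat_lit 153) (nat_lit 5) (nat_lit 167) (nat_lit 5) (nat_lit 168) (nat_lit 5) (nat_lit 273) (nat_lit 270) (nat_lit 177))) (XT.nd (nat_lit 78) (nat_lit 0) (nat_lit 76) (XT.lf (nat_lit 76) (nat_lit 9689202106) (nat_lit 0) (nat_lit 971245432) (nat_lit 1140) (nat_lit 9107470388) (nat_lit 154) (nat_lit 5) (nat_lit 153) (nat_lit 5) (nat_lit 168) (nat_lit 5) (nat_lit 274) (nat_lit 270) (nat_lit 176)) (XT.nd (nat_lit 78) (nat_lit 0) (nat_lit 76) (XT.lf (nat_lit 76) (nat_lit 3957541868) (nat_lit 0) (nat_lit 8082562908) (nat_lit 1140) (nat_lit 8236827896) (nat_lit 155) (nat_lit 5) (nat_lit 154) (nat_lit 5) (nat_lit 169) (nat_lit 5) (nat_lit 275) (nat_lit 270) (nat_lit 175)) (XT.lf (nat_lit 0) (nat_lit 13636794823) (nat_lit 1064) (nat_lit 1974130354) (nat_lit 1140) (nat_lit 5196071000) (nat_lit 155) (nat_lit 5) (nat_lit 169) (nat_lit 5) (nat_lit 170)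 (nat_lit 5) (nat_lit 276) (nat_lit 270) (nat_lit 174))))) (XT.nd (nat_lit 234) (nat_lit 1596) (nat_lit 0) (XT.nd (nat_lit 78) (nat_lit 0) (nat_lit 76) (XT.lf (nat_lit 76) (nat_lit 13254527547) (nat_lit 0) (nat_lit 2252259937) (nat_lit 1140) (nat_lit 5851008968) (nat_lit 156) (nat_lit 5) (nat_lit 155) (nat_lit 5) (nat_lit 170) (nat_lit 5) (nat_lit 277) (nat_lit 270) (nat_lit 173)) (XT.nd (nat_lit 78) (nat_lit 0) (nat_lit 76) (XT.lf (nat_lit 76) (nat_lit 7369629449) (nat_lit 0) (nat_lit 10290353327) (nat_lit 1140) (nat_lit 4270498722) (nat_lit 157) (nat_lit 5) (nat_lit 156) (nat_lit 5) (nat_lit 171) (nat_lit 5) (nat_lit 278) (nat_lit 270) (nat_lit 172)) (XT.lf (nat_lit 76) (nat_lit 1210088969) (nat_lit 0) (nat_lit 18850007224) (nat_lit 1140) (nat_lit 2467560991) (nat_lit 158) (nat_lit 5) (nat_lit 157) (nat_lit 5) (nat_lit 172) (nat_lit 5) (nat_lit 279) (nat_lit 270) (nat_lit 171)))) (XT.nd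 (nat_lit 78) (nat_lit 1748) (nat_lit 0) (XT.lf (nat_lit 76) (nat_lit 17956935347) (nat_lit 0) (nat_lit 4862378776) (nat_lit 1140) (nat_lit 328237080) (nat_lit 158) (nat_lit 5) (nat_lit 157) (nat_lit 5) (nat_lit 172) (nat_lit 5) (nat_lit 280) (nat_lit 270) (nat_lit 170)) (XT.nd (nat_lit 78) (nat_lit 684) (nat_lit 0) (XT.lf (nat_lit 0) (nat_lit 2078099279) (nat_lit 1140) (nat_lit 11944039911) (nat_lit 76) (nat_lit 9769853439) (nat_lit 143) (nat_lit 5) (nat_lit 158) (nat_lit 5) (nat_lit 144) (nat_lit 5) (nat_lit 281) (nat_lit 270) (nat_lit 169)) (XT.lf (nat_lit 0) (nat_lit 4747133170) (nat_lit 760) (nat_lit 19048990039) (nat_lit 76) (nat_lit 667988979) (nat_lit 134) (nat_lit 5) (nat_lit 144) (nat_lit 5) (nat_lit 135) (nat_lit 5) (nat_lit 282) (nat_lit 270) (nat_lit 168))))))))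
noncomputable def xc102 : XT := (XT.nd (nat_lit 1638) (nat_lit 2736) (nat_lit 0) (XT.nd (nat_lit 780) (nat_lit 2508) (nat_lit 0) (XT.nd (nat_lit 390) (nat_lit 1824) (nat_lit 0) (XT.nd (nat_lit 156) (nat_lit 988) (nat_lit 0) (XT.nd (nat_lit 78) (nat_lit 532) (nat_lit 0) (XT.lf (nat_lit 0) (nat_lit 7803231327) (nat_lit 760) (nat_lit 1428029595) (nat_lit 76) (nat_lit 15930995694) (nat_lit 134) (nat_lit 5) (nat_lit 144) (nat_lit 5) (nat_lit 135) (nat_lit 5) (nat_lit 283) (nat_lit 270) (nat_lit 167)) (XT.lf (nat_lit 0) (nat_lit 11227849174) (nat_lit 608) (nat_lit 8547470434) (nat_lit 76) (nat_lit 6113543182) (nat_lit 127) (nat_lit 5) (nat_lit 135) (nat_lit 5) (nat_lit 128) (nat_lit 5) (nat_lit 284) (nat_lit 270) (nat_lit 166))) (XT.nd (nat_lit 78) (nat_lit 456) (nat_lit 0) (XT.lf (nat_lit 0) (nat_lit 10529401206) (nat_lit 532) (nat_lit 4492478893) (nat_lit 608) (nat_lit 11623998443) (nat_lit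 120) (nat_lit 5) (nat_lit 127) (nat_lit 5) (nat_lit 128) (nat_lit 5) (nat_lit 285) (nat_lit 270) (nat_lit 165)) (XT.nd (nat_lit 78) (nat_lit 0) (nat_lit 0) (XT.lf (nat_lit 0) (nat_lit 3241378847) (nat_lit 456) (nat_lit 15984700625) (nat_lit 532) (nat_lit 8208075158) (nat_lit 114) (nat_lit 5) (nat_lit 120) (nat_lit 5) (nat_lit 121) (nat_lit 5) (nat_lit 286) (nat_lit 270) (nat_lit 164)) (XT.lf (nat_lit 0) (nat_lit 23841140821) (nat_lit 532) (nat_lit 4408498668) (nat_lit 76) (nat_lit 6207905) (nat_lit 114) (nat_lit 5) (nat_lit 121) (nat_lit 5) (nat_lit 115) (nat_lit 5) (nat_lit 287) (nat_lit 270) (nat_lit 163))))) (XT.nd (nat_lit 156) (nat_lit 836) (nat_lit 0) (XT.nd (nat_lit 78) (nat_lit 532) (nat_lit 0) (XT.lf (nat_lit 0) (nat_lit 16515857096) (nat_lit 456) (nat_lit 12481469143) (nat_lit 532) (nat_lit 112008796) (nat_lit 108) (nat_lit 5) (nat_lit 114) (nat_lit 5) (nat_lit 115) (nat_lit 5)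 (nat_lit 288) (nat_lit 270) (nat_lit 162)) (XT.lf (nat_lit 0) (nat_lit 4480623679) (nat_lit 532) (nat_lit 21350301771) (nat_lit 76) (nat_lit 4168497618) (nat_lit 101) (nat_lit 5) (nat_lit 108) (nat_lit 5) (nat_lit 102) (nat_lit 5) (nat_lit 289) (nat_lit 270) (nat_lit 161))) (XT.nd (nat_lit 78) (nat_lit 380) (nat_lit 0) (XT.lf (nat_lit 0) (nat_lit 151453013) (nat_lit 456) (nat_lit 9398377726) (nat_lit 532) (nat_lit 21376692524) (nat_lit 95) (nat_lit 5) (nat_lit 101) (nat_lit 5) (nat_lit 102) (nat_lit 5) (nat_lit 290) (nat_lit 270) (nat_lit 160)) (XT.nd (nat_lit 78) (nat_lit 380) (nat_lit 0) (XT.lf (nat_lit 0) (nat_lit 15161184609) (nat_lit 532) (nat_lit 8806607937) (nat_lit 76) (nat_lit 7923543245) (nat_lit 95) (nat_lit 5) (nat_lit 102) (nat_lit 5) (nat_lit 96) (nat_lit 5) (nat_lit 291) (nat_lit 270) (nat_lit 159)) (XT.lf (nat_lit 0) (nat_lit 14437637021) (nat_lit 380) (nat_lit 6840744220)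 (nat_lit 456) (nat_lit 11619266521) (nat_lit 90) (nat_lit 5) (nat_lit 95) (nat_lit 5) (nat_lit 96) (nat_lit 5) (nat_lit 292) (nat_lit 270) (nat_lit 158)))))) (XT.nd (nat_lit 390) (nat_lit 1292) (nat_lit 0) (XT.nd (nat_lit 156) (nat_lit 760) (nat_lit 0) (XT.nd (nat_lit 78) (nat_lit 76) (nat_lit 0) (XT.lf (nat_lit 0) (nat_lit 5057773832) (nat_lit 380) (nat_lit 22882876089) (nat_lit 456) (nat_lit 6006465295) (nat_lit 85) (nat_lit 5) (nat_lit 90) (nat_lit 5) (nat_lit 91) (nat_lit 5) (nat_lit 293) (nat_lit 270) (nat_lit 157)) (XT.lf (nat_lit 0) (nat_lit 142271292) (nat_lit 456) (nat_lit 4985372339) (nat_lit 76) (nat_lit 29913867340) (nat_lit 84) (nat_lit 5) (nat_lit 90) (nat_lit 5) (nat_lit 85) (nat_lit 5) (nat_lit 294) (nat_lit 270) (nat_lit 156))) (XT.nd (nat_lit 78) (nat_lit 380) (nat_lit 0) (XT.lf (nat_lit 0) (nat_lit 6796846563) (nat_lit 456) (nat_lit 15872448878) (nat_lit 76) (nat_lit 13509882543)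 (nat_lit 79) (nat_lit 5) (nat_lit 85) (nat_lit 5) (nat_lit 80) (nat_lit 5) (nat_lit 295) (nat_lit 270) (nat_lit 155)) (XT.nd (nat_lit 78) (nat_lit 0) (nat_lit 0) (XT.lf (nat_lit 0) (nat_lit 9724016934) (nat_lit 380) (nat_lit 4249956886) (nat_lit 456) (nat_lit 23394073463) (nat_lit 74) (nat_lit 5) (nat_lit 79) (nat_lit 5) (nat_lit 80) (nat_lit 5) (nat_lit 296) (nat_lit 270) (nat_lit 154)) (XT.lf (nat_lit 0) (nat_lit 21813038325) (nat_lit 456) (nat_lit 1834988642) (nat_lit 76) (nat_lit 14959253634) (nat_lit 74) (nat_lit 5) (nat_lit 80) (nat_lit 5) (nat_lit 75) (nat_lit 5) (nat_lit 297) (nat_lit 270) (nat_lit 153))))) (XT.nd (nat_lit 234) (nat_lit 304) (nat_lit 0) (XT.nd (nat_lit 78) (nat_lit 684) (nat_lit 0) (XT.lf (nat_lit 0) (nat_lit 25714973925) (nat_lit 304) (nat_lit 4612511385) (nat_lit 380) (nat_lit 9572499762) (nat_lit 70) (nat_lit 5) (nat_lit 74) (nat_lit 5) (nat_lit 75) (nat_lit 5)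 (nat_lit 298) (nat_lit 270) (nat_lit 152)) (XT.nd (nat_lit 78) (nat_lit 380) (nat_lit 0) (XT.lf (nat_lit 0) (nat_lit 13531723409) (nat_lit 304) (nat_lit 26026441388) (nat_lit 380) (nat_lit 1690456438) (nat_lit 66) (nat_lit 5) (nat_lit 70) (nat_lit 5) (nat_lit 71) (nat_lit 5) (nat_lit 299) (nat_lit 270) (nat_lit 151)) (XT.lf (nat_lit 0) (nat_lit 153837797) (nat_lit 304) (nat_lit 6492564946) (nat_lit 380) (nat_lit 36010721456) (nat_lit 61) (nat_lit 5) (nat_lit 65) (nat_lit 5) (nat_lit 66) (nat_lit 5) (nat_lit 300) (nat_lit 270) (nat_lit 150)))) (XT.nd (nat_lit 78) (nat_lit 304) (nat_lit 0) (XT.lf (nat_lit 0) (nat_lit 15782289288) (nat_lit 380) (nat_lit 14293022325) (nat_lit 76) (nat_lit 14047734582) (nat_lit 61) (nat_lit 5) (nat_lit 66) (nat_lit 5) (nat_lit 62) (nat_lit 5) (nat_lit 301) (nat_lit 270) (nat_lit 149)) (XT.nd (nat_lit 78) (nat_lit 0) (nat_lit 0) (XT.lf (nat_lit 0) (nat_lit 15558002590)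 (nat_lit 304) (nat_lit 10026265955) (nat_lit 380) (nat_lit 20071726669) (nat_lit 57) (nat_lit 5) (nat_lit 61) (nat_lit 5) (nat_lit 62) (nat_lit 5) (nat_lit 302) (nat_lit 270) (nat_lit 148)) (XT.lf (nat_lit 0) (nat_lit 36125316440) (nat_lit 380) (nat_lit 176102453) (nat_lit 76) (nat_lit 10956713106) (nat_lit 57) (nat_lit 5) (nat_lit 62) (nat_lit 5) (nat_lit 58) (nat_lit 5) (nat_lit 303) (nat_lit 270) (nat_lit 147))))))) (XT.nd (nat_lit 780) (nat_lit 988) (nat_lit 0) (XT.nd (nat_lit 390) (nat_lit 684) (nat_lit 0) (XT.nd (nat_lit 156) (nat_lit 456) (nat_lit 0) (XT.nd (nat_lit 78) (nat_lit 380) (nat_lit 0) (XT.lf (nat_lit 0) (nat_lit 31752919841) (nat_lit 228) (nat_lit 15841587265) (nat_lit 304) (nat_lit 1333844762) (nat_lit 54) (nat_lit 5) (nat_lit 57) (nat_lit 5) (nat_lit 58) (nat_lit 5) (nat_lit 304) (nat_lit 270) (nat_lit 146)) (XT.lf (nat_lit 0) (nat_lit 8975657659) (nat_lit 380) (nat_lit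 35936451674) (nat_lit 76) (nat_lit 5761539365) (nat_lit 49) (nat_lit 5) (nat_lit 54) (nat_lit 5) (nat_lit 50) (nat_lit 5) (nat_lit 305) (nat_lit 270) (nat_lit 145))) (XT.nd (nat_lit 78) (nat_lit 456) (nat_lit 0) (XT.lf (nat_lit 0) (nat_lit 20106705816) (nat_lit 380) (nat_lit 4078848655) (nat_lit 76) (nat_lit 28310257900) (nat_lit 49) (nat_lit 5) (nat_lit 54) (nat_lit 5) (nat_lit 50) (nat_lit 5) (nat_lit 306) (nat_lit 270) (nat_lit 144)) (XT.nd (nat_lit 78) (nat_lit 228) (nat_lit 0) (XT.lf (nat_lit 0) (nat_lit 29949184643) (nat_lit 228) (nat_lit 2128202748) (nat_lit 304) (nat_lit 22323211916) (nat_lit 46) (nat_lit 5) (nat_lit 49) (nat_lit 5) (nat_lit 50) (nat_lit 5) (nat_lit 307) (nat_lit 270) (nat_lit 143)) (XT.lf (nat_lit 0) (nat_lit 9337309283) (nat_lit 228) (nat_lit 35638962711) (nat_lit 304) (nat_lit 11414470682) (nat_lit 43) (nat_lit 5) (nat_lit 46) (nat_lit 5) (nat_lit 47) (nat_lit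 5) (nat_lit 308) (nat_lit 270) (nat_lit 142))))) (XT.nd (nat_lit 156) (nat_lit 380) (nat_lit 0) (XT.nd (nat_lit 78) (nat_lit 228) (nat_lit 0) (XT.lf (nat_lit 0) (nat_lit 310054980) (nat_lit 304) (nat_lit 13177463248) (nat_lit 76) (nat_lit 44984736484) (nat_lit 42) (nat_lit 5) (nat_lit 46) (nat_lit 5) (nat_lit 43) (nat_lit 5) (nat_lit 309) (nat_lit 270) (nat_lit 141)) (XT.lf (nat_lit 0) (nat_lit 12698146273) (nat_lit 304) (nat_lit 38031237498) (nat_lit 76) (nat_lit 9915672200) (nat_lit 39) (nat_lit 5) (nat_lit 43) (nat_lit 5) (nat_lit 40) (nat_lit 5) (nat_lit 310) (nat_lit 270) (nat_lit 140))) (XT.nd (nat_lit 78) (nat_lit 380) (nat_lit 0) (XT.lf (nat_lit 0) (nat_lit 25974556958) (nat_lit 304) (nat_lit 2596178737) (nat_lit 76) (nat_lit 34347700152) (nat_lit 39) (nat_lit 5) (nat_lit 43) (nat_lit 5) (nat_lit 40) (nat_lit 5) (nat_lit 311) (nat_lit 270) (nat_lit 139)) (XT.nd (nat_lit 78) (nat_lit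 152) (nat_lit 0) (XT.lf (nat_lit 0) (nat_lit 35293323686) (nat_lit 228) (nat_lit 4956714660) (nat_lit 304) (nat_lit 25045394581) (nat_lit 36) (nat_lit 5) (nat_lit 39) (nat_lit 5) (nat_lit 40) (nat_lit 5) (nat_lit 312) (nat_lit 270) (nat_lit 138)) (XT.lf (nat_lit 0) (nat_lit 7286359310) (nat_lit 152) (nat_lit 48236765663) (nat_lit 228) (nat_lit 12259645396) (nat_lit 34) (nat_lit 5) (nat_lit 36) (nat_lit 5) (nat_lit 37) (nat_lit 5) (nat_lit 313) (nat_lit 270) (nat_lit 137)))))) (XT.nd (nat_lit 390) (nat_lit 532) (nat_lit 0) (XT.nd (nat_lit 156) (nat_lit 152) (nat_lit 0) (XT.nd (nat_lit 78) (nat_lit 228) (nat_lit 0) (XT.lf (nat_lit 0) (nat_lit 1500775542) (nat_lit 228) (nat_lit 23389142145) (nat_lit 76) (nat_lit 45493482196) (nat_lit 33) (nat_lit 5) (nat_lit 36) (nat_lit 5) (nat_lit 34) (nat_lit 5) (nat_lit 314) (nat_lit 270) (nat_lit 136)) (XT.lf (nat_lit 0) (nat_lit 15751548368) (nat_lit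 228) (nat_lit 94265476) (nat_lit 304) (nat_lit 57260106004) (nat_lit 30) (nat_lit 5) (nat_lit 33) (nat_lit 5) (nat_lit 34) (nat_lit 5) (nat_lit 315) (nat_lit 270) (nat_lit 135))) (XT.nd (nat_lit 78) (nat_lit 152) (nat_lit 0) (XT.lf (nat_lit 0) (nat_lit 31397097337) (nat_lit 304) (nat_lit 18876554662) (nat_lit 76) (nat_lit 25676248580) (nat_lit 30) (nat_lit 5) (nat_lit 34) (nat_lit 5) (nat_lit 31) (nat_lit 5) (nat_lit 316) (nat_lit 270) (nat_lit 134)) (XT.nd (nat_lit 78) (nat_lit 0) (nat_lit 0) (XT.lf (nat_lit 0) (nat_lit 21947229724) (nat_lit 152) (nat_lit 25987281147) (nat_lit 228) (nat_lit 30995316843) (nat_lit 28) (nat_lit 5) (nat_lit 30) (nat_lit 5) (nat_lit 31) (nat_lit 5) (nat_lit 317) (nat_lit 270) (nat_lit 133)) (XT.lf (nat_lit 0) (nat_lit 65201576715) (nat_lit 152) (nat_lit 288290930) (nat_lit 228) (nat_lit 16563155528) (nat_lit 28) (nat_lit 5) (nat_lit 30) (nat_lit 5) (nat_lit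 31) (nat_lit 5) (nat_lit 318) (nat_lit 270) (nat_lit 132))))) (XT.nd (nat_lit 234) (nat_lit 152) (nat_lit 0) (XT.nd (nat_lit 78) (nat_lit 228) (nat_lit 0) (XT.lf (nat_lit 0) (nat_lit 25522760316) (nat_lit 152) (nat_lit 58899079938) (nat_lit 228) (nat_lit 895576652) (nat_lit 26) (nat_lit 5) (nat_lit 28) (nat_lit 5) (nat_lit 29) (nat_lit 5) (nat_lit 319) (nat_lit 270) (nat_lit 131)) (XT.nd (nat_lit 78) (nat_lit 152) (nat_lit 0) (XT.lf (nat_lit 0) (nat_lit 15426898963) (nat_lit 228) (nat_lit 18531009529) (nat_lit 76) (nat_lit 54777387866) (nat_lit 25) (nat_lit 5) (nat_lit 28) (nat_lit 5) (nat_lit 26) (nat_lit 5) (nat_lit 320) (nat_lit 270) (nat_lit 130)) (XT.lf (nat_lit 0) (nat_lit 25275373948) (nat_lit 152) (nat_lit 7511842965) (nat_lit 228) (nat_lit 59529383114) (nat_lit 23) (nat_lit 5) (nat_lit 25) (nat_lit 5) (nat_lit 26) (nat_lit 5) (nat_lit 321) (nat_lit 270) (nat_lit 129)))) (XT.nd (nat_lit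 78) (nat_lit 152) (nat_lit 0) (XT.lf (nat_lit 0) (nat_lit 51400102354) (nat_lit 228) (nat_lit 24613091578) (nat_lit 76) (nat_lit 20052241708) (nat_lit 23) (nat_lit 5) (nat_lit 26) (nat_lit 5) (nat_lit 24) (nat_lit 5) (nat_lit 322) (nat_lit 270) (nat_lit 128)) (XT.nd (nat_lit 78) (nat_lit 0) (nat_lit 0) (XT.lf (nat_lit 0) (nat_lit 20251468102) (nat_lit 152) (nat_lit 50959970757) (nat_lit 228) (nat_lit 28782243120) (nat_lit 21) (nat_lit 5) (nat_lit 23) (nat_lit 5) (nat_lit 24) (nat_lit 5) (nat_lit 323) (nat_lit 270) (nat_lit 127)) (XT.lf (nat_lit 0) (nat_lit 67869379665) (nat_lit 152) (nat_lit 24394738180) (nat_lit 228) (nat_lit 11846702519) (nat_lit 21) (nat_lit 5) (nat_lit 23) (nat_lit 5) (nat_lit 24) (nat_lit 5) (nat_lit 324) (nat_lit 270) (nat_lit 126))))))))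
noncomputable def xc103 : XT := (XT.nd (nat_lit 1638) (nat_lit 4484) (nat_lit 0) (XT.nd (nat_lit 780) (nat_lit 4256) (nat_lit 0) (XT.nd (nat_lit 390) (nat_lit 0) (nat_lit 228) (XT.nd (nat_lit 156) (nat_lit 0) (nat_lit 76) (XT.nd (nat_lit 78) (nat_lit 0) (nat_lit 0) (XT.lf (nat_lit 0) (nat_lit 4115277071) (nat_lit 1140) (nat_lit 2641073457) (nat_lit 1140) (nat_lit 2641073457) (nat_lit 151) (nat_lit 3) (nat_lit 166) (nat_lit 3) (nat_lit 166) (nat_lit 5) (nat_lit 271) (nat_lit 271) (nat_lit 178)) (XT.lf (nat_lit 76) (nat_lit 7887907448) (nat_lit 0) (nat_lit 902879104) (nat_lit 1140) (nat_lit 10462617898) (nat_lit 152) (nat_lit 5) (nat_lit 151) (nat_lit 3) (nat_lit 166) (nat_lit 5) (nat_lit 272) (nat_lit 271) (nat_lit 177))) (XT.nd (nat_lit 78) (nat_lit 0) (nat_lit 76) (XT.lf (nat_lit 76) (nat_lit 2003496048) (nat_lit 0) (nat_lit 7550456746) (nat_lit 1140) (nat_lit 10175731862) (nat_lit 153)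 (nat_lit 5) (nat_lit 152) (nat_lit 5) (nat_lit 167) (nat_lit 5) (nat_lit 273) (nat_lit 271) (nat_lit 176)) (XT.nd (nat_lit 78) (nat_lit 0) (nat_lit 0) (XT.lf (nat_lit 0) (nat_lit 10519916398) (nat_lit 1064) (nat_lit 4022875492) (nat_lit 1140) (nat_lit 5682089306) (nat_lit 153) (nat_lit 5) (nat_lit 167) (nat_lit 5) (nat_lit 168) (nat_lit 5) (nat_lit 274) (nat_lit 271) (nat_lit 175)) (XT.lf (nat_lit 76) (nat_lit 10484080902) (nat_lit 0) (nat_lit 1210876969) (nat_lit 1140) (nat_lit 9045095822) (nat_lit 154) (nat_lit 5) (nat_lit 153) (nat_lit 5) (nat_lit 168) (nat_lit 5) (nat_lit 275) (nat_lit 271) (nat_lit 174))))) (XT.nd (nat_lit 156) (nat_lit 0) (nat_lit 76) (XT.nd (nat_lit 78) (nat_lit 0) (nat_lit 76) (XT.lf (nat_lit 76) (nat_lit 4474517625) (nat_lit 0) (nat_lit 8646518125) (nat_lit 1140) (nat_lit 8154218174) (nat_lit 155) (nat_lit 5) (nat_lit 154) (nat_lit 5) (nat_lit 169) (nat_lit 5) (nat_lit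 276) (nat_lit 271) (nat_lit 173)) (XT.lf (nat_lit 0) (nat_lit 14773291116) (nat_lit 1064) (nat_lit 1752684109) (nat_lit 1140) (nat_lit 5306628579) (nat_lit 155) (nat_lit 5) (nat_lit 169) (nat_lit 5) (nat_lit 170) (nat_lit 5) (nat_lit 277) (nat_lit 271) (nat_lit 172))) (XT.nd (nat_lit 78) (nat_lit 0) (nat_lit 76) (XT.lf (nat_lit 76) (nat_lit 14228229572) (nat_lit 0) (nat_lit 2489892815) (nat_lit 1140) (nat_lit 5693434037) (nat_lit 156) (nat_lit 5) (nat_lit 155) (nat_lit 5) (nat_lit 170) (nat_lit 5) (nat_lit 278) (nat_lit 271) (nat_lit 171)) (XT.nd (nat_lit 78) (nat_lit 0) (nat_lit 76) (XT.lf (nat_lit 76) (nat_lit 8055064656) (nat_lit 0) (nat_lit 10905053308) (nat_lit 1140) (nat_lit 4053373541) (nat_lit 157) (nat_lit 5) (nat_lit 156) (nat_lit 5) (nat_lit 171) (nat_lit 5) (nat_lit 279) (nat_lit 271) (nat_lit 170)) (XT.lf (nat_lit 76) (nat_lit 1592523836) (nat_lit 0) (nat_lit 19870027031) (nat_lit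 1140) (nat_lit 2178553312) (nat_lit 158) (nat_lit 5) (nat_lit 157) (nat_lit 5) (nat_lit 172) (nat_lit 5) (nat_lit 280) (nat_lit 271) (nat_lit 169)))))) (XT.nd (nat_lit 390) (nat_lit 2432) (nat_lit 0) (XT.nd (nat_lit 156) (nat_lit 1140) (nat_lit 0) (XT.nd (nat_lit 78) (nat_lit 0) (nat_lit 76) (XT.lf (nat_lit 0) (nat_lit 47160785) (nat_lit 1140) (nat_lit 5131688741) (nat_lit 1216) (nat_lit 19113745495) (nat_lit 142) (nat_lit 5) (nat_lit 157) (nat_lit 5) (nat_lit 158) (nat_lit 5) (nat_lit 281) (nat_lit 271) (nat_lit 168)) (XT.lf (nat_lit 0) (nat_lit 2551082647) (nat_lit 1140) (nat_lit 12222590036) (nat_lit 76) (nat_lit 10196008559) (nat_lit 143) (nat_lit 5) (nat_lit 158) (nat_lit 5) (nat_lit 144) (nat_lit 5) (nat_lit 282) (nat_lit 271) (nat_lit 167))) (XT.nd (nat_lit 78) (nat_lit 532) (nat_lit 0) (XT.lf (nat_lit 0) (nat_lit 5338536154) (nat_lit 760) (nat_lit 19680056488) (nat_lit 76) (nat_lit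 657305036) (nat_lit 134) (nat_lit 5) (nat_lit 144) (nat_lit 5) (nat_lit 135) (nat_lit 5) (nat_lit 283) (nat_lit 271) (nat_lit 166)) (XT.nd (nat_lit 78) (nat_lit 532) (nat_lit 0) (XT.lf (nat_lit 0) (nat_lit 8530579870) (nat_lit 760) (nat_lit 1193351976) (nat_lit 76) (nat_lit 16685561296) (nat_lit 134) (nat_lit 5) (nat_lit 144) (nat_lit 5) (nat_lit 135) (nat_lit 5) (nat_lit 284) (nat_lit 271) (nat_lit 165)) (XT.lf (nat_lit 0) (nat_lit 12112973476) (nat_lit 608) (nat_lit 8666837940) (nat_lit 76) (nat_lit 6393058088) (nat_lit 127) (nat_lit 5) (nat_lit 135) (nat_lit 5) (nat_lit 128) (nat_lit 5) (nat_lit 285) (nat_lit 271) (nat_lit 164))))) (XT.nd (nat_lit 234) (nat_lit 1444) (nat_lit 0) (XT.nd (nat_lit 78) (nat_lit 456) (nat_lit 0) (XT.lf (nat_lit 0) (nat_lit 11355048352) (nat_lit 532) (nat_lit 4729117666) (nat_lit 608) (nat_lit 11883980721) (nat_lit 120) (nat_lit 5) (nat_lit 127) (nat_lit 5)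 (nat_lit 128) (nat_lit 5) (nat_lit 286) (nat_lit 271) (nat_lit 163)) (XT.nd (nat_lit 78) (nat_lit 0) (nat_lit 0) (XT.lf (nat_lit 0) (nat_lit 3703899552) (nat_lit 456) (nat_lit 16782635277) (nat_lit 532) (nat_lit 8309695874) (nat_lit 114) (nat_lit 5) (nat_lit 120) (nat_lit 5) (nat_lit 121) (nat_lit 5) (nat_lit 287) (nat_lit 271) (nat_lit 162)) (XT.lf (nat_lit 0) (nat_lit 25318115847) (nat_lit 532) (nat_lit 4333617963) (nat_lit 76) (nat_lit 7732590) (nat_lit 114) (nat_lit 5) (nat_lit 121) (nat_lit 5) (nat_lit 115) (nat_lit 5) (nat_lit 288) (nat_lit 271) (nat_lit 161)))) (XT.nd (nat_lit 78) (nat_lit 912) (nat_lit 0) (XT.lf (nat_lit 0) (nat_lit 162091825) (nat_lit 532) (nat_lit 12929080953) (nat_lit 76) (nat_lit 17464762076) (nat_lit 107) (nat_lit 5) (nat_lit 114) (nat_lit 5) (nat_lit 108) (nat_lit 5) (nat_lit 289) (nat_lit 271) (nat_lit 160)) (XT.nd (nat_lit 78) (nat_lit 456) (nat_lit 0) (XT.lf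 (nat_lit 0) (nat_lit 4971755630) (nat_lit 532) (nat_lit 22124883828) (nat_lit 76) (nat_lit 4394190631) (nat_lit 101) (nat_lit 5) (nat_lit 108) (nat_lit 5) (nat_lit 102) (nat_lit 5) (nat_lit 290) (nat_lit 271) (nat_lit 159)) (XT.lf (nat_lit 0) (nat_lit 443561829) (nat_lit 456) (nat_lit 9840877266) (nat_lit 532) (nat_lit 22180171960) (nat_lit 95) (nat_lit 5) (nat_lit 101) (nat_lit 5) (nat_lit 102) (nat_lit 5) (nat_lit 291) (nat_lit 271) (nat_lit 158))))))) (XT.nd (nat_lit 858) (nat_lit 1900) (nat_lit 0) (XT.nd (nat_lit 390) (nat_lit 1368) (nat_lit 0) (XT.nd (nat_lit 156) (nat_lit 836) (nat_lit 0) (XT.nd (nat_lit 78) (nat_lit 380) (nat_lit 0) (XT.lf (nat_lit 0) (nat_lit 16164368022) (nat_lit 532) (nat_lit 8968356464) (nat_lit 76) (nat_lit 8345324499) (nat_lit 95) (nat_lit 5) (nat_lit 102) (nat_lit 5) (nat_lit 96) (nat_lit 5) (nat_lit 292) (nat_lit 271) (nat_lit 157)) (XT.lf (nat_lit 0) (nat_lit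 15430115248) (nat_lit 380) (nat_lit 7148237794) (nat_lit 456) (nat_lit 11956619457) (nat_lit 90) (nat_lit 5) (nat_lit 95) (nat_lit 5) (nat_lit 96) (nat_lit 5) (nat_lit 293) (nat_lit 271) (nat_lit 156))) (XT.nd (nat_lit 78) (nat_lit 456) (nat_lit 0) (XT.lf (nat_lit 0) (nat_lit 5580520785) (nat_lit 380) (nat_lit 23984884050) (nat_lit 456) (nat_lit 6071781071) (nat_lit 85) (nat_lit 5) (nat_lit 90) (nat_lit 5) (nat_lit 91) (nat_lit 5) (nat_lit 294) (nat_lit 271) (nat_lit 155)) (XT.nd (nat_lit 78) (nat_lit 380) (nat_lit 0) (XT.lf (nat_lit 0) (nat_lit 368834044) (nat_lit 456) (nat_lit 4972846387) (nat_lit 76) (nat_lit 31444903382) (nat_lit 84) (nat_lit 5) (nat_lit 90) (nat_lit 5) (nat_lit 85) (nat_lit 5) (nat_lit 295) (nat_lit 271) (nat_lit 154)) (XT.lf (nat_lit 0) (nat_lit 7348544380) (nat_lit 456) (nat_lit 16405450334) (nat_lit 76) (nat_lit 14227387238) (nat_lit 79) (nat_lit 5) (nat_lit 85)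 (nat_lit 5) (nat_lit 80) (nat_lit 5) (nat_lit 296) (nat_lit 271) (nat_lit 153))))) (XT.nd (nat_lit 234) (nat_lit 684) (nat_lit 0) (XT.nd (nat_lit 78) (nat_lit 304) (nat_lit 0) (XT.lf (nat_lit 0) (nat_lit 10463368120) (nat_lit 380) (nat_lit 4413504958) (nat_lit 456) (nat_lit 24353070297) (nat_lit 74) (nat_lit 5) (nat_lit 79) (nat_lit 5) (nat_lit 80) (nat_lit 5) (nat_lit 297) (nat_lit 271) (nat_lit 152)) (XT.nd (nat_lit 78) (nat_lit 304) (nat_lit 0) (XT.lf (nat_lit 0) (nat_lit 23098615101) (nat_lit 456) (nat_lit 1679894191) (nat_lit 76) (nat_lit 15752925445) (nat_lit 74) (nat_lit 5) (nat_lit 80) (nat_lit 5) (nat_lit 75) (nat_lit 5) (nat_lit 298) (nat_lit 271) (nat_lit 151)) (XT.lf (nat_lit 0) (nat_lit 27240490773) (nat_lit 304) (nat_lit 4791316323) (nat_lit 380) (nat_lit 9857193901) (nat_lit 70) (nat_lit 5) (nat_lit 74) (nat_lit 5) (nat_lit 75) (nat_lit 5) (nat_lit 299) (nat_lit 271) (nat_lit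 150)))) (XT.nd (nat_lit 78) (nat_lit 380) (nat_lit 0) (XT.lf (nat_lit 0) (nat_lit 14446532790) (nat_lit 304) (nat_lit 27271302245) (nat_lit 380) (nat_lit 1587435923) (nat_lit 66) (nat_lit 5) (nat_lit 70) (nat_lit 5) (nat_lit 71) (nat_lit 5) (nat_lit 300) (nat_lit 271) (nat_lit 149)) (XT.nd (nat_lit 78) (nat_lit 0) (nat_lit 0) (XT.lf (nat_lit 0) (nat_lit 396788790) (nat_lit 304) (nat_lit 6759322869) (nat_lit 380) (nat_lit 37628243362) (nat_lit 61) (nat_lit 5) (nat_lit 65) (nat_lit 5) (nat_lit 66) (nat_lit 5) (nat_lit 301) (nat_lit 271) (nat_lit 148)) (XT.lf (nat_lit 0) (nat_lit 16740875241) (nat_lit 380) (nat_lit 14778789435) (nat_lit 76) (nat_lit 14804160421) (nat_lit 61) (nat_lit 5) (nat_lit 66) (nat_lit 5) (nat_lit 62) (nat_lit 5) (nat_lit 302) (nat_lit 271) (nat_lit 147)))))) (XT.nd (nat_lit 390) (nat_lit 988) (nat_lit 0) (XT.nd (nat_lit 156) (nat_lit 380) (nat_lit 0) (XT.nd (nat_lit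 78) (nat_lit 228) (nat_lit 0) (XT.lf (nat_lit 0) (nat_lit 16558225811) (nat_lit 304) (nat_lit 10468794684) (nat_lit 380) (nat_lit 20906592835) (nat_lit 57) (nat_lit 5) (nat_lit 61) (nat_lit 5) (nat_lit 62) (nat_lit 5) (nat_lit 303) (nat_lit 271) (nat_lit 146)) (XT.lf (nat_lit 0) (nat_lit 31846882) (nat_lit 228) (nat_lit 38056330650) (nat_lit 304) (nat_lit 11527900838) (nat_lit 54) (nat_lit 5) (nat_lit 57) (nat_lit 5) (nat_lit 58) (nat_lit 5) (nat_lit 304) (nat_lit 271) (nat_lit 145))) (XT.nd (nat_lit 78) (nat_lit 380) (nat_lit 0) (XT.lf (nat_lit 0) (nat_lit 33550503435) (nat_lit 228) (nat_lit 16574593875) (nat_lit 304) (nat_lit 1244896331) (nat_lit 54) (nat_lit 5) (nat_lit 57) (nat_lit 5) (nat_lit 58) (nat_lit 5) (nat_lit 305) (nat_lit 271) (nat_lit 144)) (XT.nd (nat_lit 78) (nat_lit 0) (nat_lit 0) (XT.lf (nat_lit 0) (nat_lit 9572342712) (nat_lit 380) (nat_lit 37522092531) (nat_lit 76) (nat_lit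 6108227781) (nat_lit 49) (nat_lit 5) (nat_lit 54) (nat_lit 5) (nat_lit 50) (nat_lit 5) (nat_lit 306) (nat_lit 271) (nat_lit 143)) (XT.lf (nat_lit 0) (nat_lit 21252900316) (nat_lit 380) (nat_lit 4081665633) (nat_lit 76) (nat_lit 29781591221) (nat_lit 49) (nat_lit 5) (nat_lit 54) (nat_lit 5) (nat_lit 50) (nat_lit 5) (nat_lit 307) (nat_lit 271) (nat_lit 142))))) (XT.nd (nat_lit 234) (nat_lit 456) (nat_lit 0) (XT.nd (nat_lit 78) (nat_lit 304) (nat_lit 0) (XT.lf (nat_lit 0) (nat_lit 31642004109) (nat_lit 228) (nat_lit 2175282201) (nat_lit 304) (nat_lit 23299052511) (nat_lit 46) (nat_lit 5) (nat_lit 49) (nat_lit 5) (nat_lit 50) (nat_lit 5) (nat_lit 308) (nat_lit 271) (nat_lit 141)) (XT.nd (nat_lit 78) (nat_lit 76) (nat_lit 0) (XT.lf (nat_lit 0) (nat_lit 9997548511) (nat_lit 228) (nat_lit 37359491026) (nat_lit 304) (nat_lit 11849082069) (nat_lit 43) (nat_lit 5) (nat_lit 46) (nat_lit 5) (nat_lit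 47) (nat_lit 5) (nat_lit 309) (nat_lit 271) (nat_lit 140)) (XT.lf (nat_lit 0) (nat_lit 452658786) (nat_lit 304) (nat_lit 13649456816) (nat_lit 76) (nat_lit 47289754270) (nat_lit 42) (nat_lit 5) (nat_lit 46) (nat_lit 5) (nat_lit 43) (nat_lit 5) (nat_lit 310) (nat_lit 271) (nat_lit 139)))) (XT.nd (nat_lit 78) (nat_lit 228) (nat_lit 0) (XT.lf (nat_lit 0) (nat_lit 13456411661) (nat_lit 304) (nat_lit 39747981622) (nat_lit 76) (nat_lit 10469038988) (nat_lit 39) (nat_lit 5) (nat_lit 43) (nat_lit 5) (nat_lit 40) (nat_lit 5) (nat_lit 311) (nat_lit 271) (nat_lit 138)) (XT.nd (nat_lit 78) (nat_lit 228) (nat_lit 0) (XT.lf (nat_lit 0) (nat_lit 27390768686) (nat_lit 304) (nat_lit 2549970768) (nat_lit 76) (nat_lit 36119926282) (nat_lit 39) (nat_lit 5) (nat_lit 43) (nat_lit 5) (nat_lit 40) (nat_lit 5) (nat_lit 312) (nat_lit 271) (nat_lit 137)) (XT.lf (nat_lit 0) (nat_lit 37228961287) (nat_lit 228) (nat_lit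 5147111868) (nat_lit 304) (nat_lit 26180566016) (nat_lit 36) (nat_lit 5) (nat_lit 39) (nat_lit 5) (nat_lit 40) (nat_lit 5) (nat_lit 313) (nat_lit 271) (nat_lit 136))))))))
noncomputable def xc104 : XT := (XT.nd (nat_lit 35022) (nat_lit 0) (nat_lit 3040) (XT.nd (nat_lit 780) (nat_lit 152) (nat_lit 0) (XT.nd (nat_lit 390) (nat_lit 380) (nat_lit 0) (XT.nd (nat_lit 156) (nat_lit 380) (nat_lit 0) (XT.nd (nat_lit 78) (nat_lit 76) (nat_lit 0) (XT.lf (nat_lit 0) (nat_lit 7819674726) (nat_lit 152) (nat_lit 50589883408) (nat_lit 228) (nat_lit 12758890620) (nat_lit 34) (nat_lit 5) (nat_lit 36) (nat_lit 5) (nat_lit 37) (nat_lit 5) (nat_lit 314) (nat_lit 271) (nat_lit 135)) (XT.lf (nat_lit 0) (nat_lit 1682021581) (nat_lit 228) (nat_lit 24395395183) (nat_lit 76) (nat_lit 47821826510) (nat_lit 33) (nat_lit 5) (nat_lit 36) (nat_lit 5) (nat_lit 34) (nat_lit 5) (nat_lit 315) (nat_lit 271) (nat_lit 134)))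 (XT.nd (nat_lit 78) (nat_lit 152) (nat_lit 0) (XT.lf (nat_lit 0) (nat_lit 16697651644) (nat_lit 228) (nat_lit 43126514) (nat_lit 304) (nat_lit 60017223775) (nat_lit 30) (nat_lit 5) (nat_lit 33) (nat_lit 5) (nat_lit 34) (nat_lit 5) (nat_lit 316) (nat_lit 271) (nat_lit 133)) (XT.nd (nat_lit 78) (nat_lit 152) (nat_lit 0) (XT.lf (nat_lit 0) (nat_lit 33065247925) (nat_lit 304) (nat_lit 19666855843) (nat_lit 76) (nat_lit 27012215635) (nat_lit 30) (nat_lit 5) (nat_lit 34) (nat_lit 5) (nat_lit 31) (nat_lit 5) (nat_lit 317) (nat_lit 271) (nat_lit 132)) (XT.lf (nat_lit 0) (nat_lit 23193716955) (nat_lit 152) (nat_lit 27232567921) (nat_lit 228) (nat_lit 32447061502) (nat_lit 28) (nat_lit 5) (nat_lit 30) (nat_lit 5) (nat_lit 31) (nat_lit 5) (nat_lit 318) (nat_lit 271) (nat_lit 131))))) (XT.nd (nat_lit 156) (nat_lit 228) (nat_lit 0) (XT.nd (nat_lit 78) (nat_lit 152) (nat_lit 0) (XT.lf (nat_lit 0) (nat_lit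 68603680069) (nat_lit 152) (nat_lit 251203302) (nat_lit 228) (nat_lit 17297959796) (nat_lit 28) (nat_lit 5) (nat_lit 30) (nat_lit 5) (nat_lit 31) (nat_lit 5) (nat_lit 319) (nat_lit 271) (nat_lit 130)) (XT.lf (nat_lit 0) (nat_lit 26939120877) (nat_lit 152) (nat_lit 61791842546) (nat_lit 228) (nat_lit 849573399) (nat_lit 26) (nat_lit 5) (nat_lit 28) (nat_lit 5) (nat_lit 29) (nat_lit 5) (nat_lit 320) (nat_lit 271) (nat_lit 129))) (XT.nd (nat_lit 78) (nat_lit 152) (nat_lit 0) (XT.lf (nat_lit 0) (nat_lit 16283015911) (nat_lit 228) (nat_lit 19322225890) (nat_lit 76) (nat_lit 57564174509) (nat_lit 25) (nat_lit 5) (nat_lit 28) (nat_lit 5) (nat_lit 26) (nat_lit 5) (nat_lit 321) (nat_lit 271) (nat_lit 128)) (XT.nd (nat_lit 78) (nat_lit 0) (nat_lit 0) (XT.lf (nat_lit 0) (nat_lit 26670597436) (nat_lit 152) (nat_lit 7837979186) (nat_lit 228) (nat_lit 62421296579) (nat_lit 23) (nat_lit 5) (nat_lit 25)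 (nat_lit 5) (nat_lit 26) (nat_lit 5) (nat_lit 322) (nat_lit 271) (nat_lit 127)) (XT.lf (nat_lit 0) (nat_lit 54048654388) (nat_lit 228) (nat_lit 25716568806) (nat_lit 76) (nat_lit 21101035570) (nat_lit 23) (nat_lit 5) (nat_lit 26) (nat_lit 5) (nat_lit 24) (nat_lit 5) (nat_lit 323) (nat_lit 271) (nat_lit 126)))))) (XT.nd (nat_lit 33774) (nat_lit 0) (nat_lit 10032) (XT.nd (nat_lit 33540) (nat_lit 0) (nat_lit 9880) (XT.nd (nat_lit 33462) (nat_lit 0) (nat_lit 9880) (XT.lf (nat_lit 0) (nat_lit 21387573344) (nat_lit 152) (nat_lit 53460431508) (nat_lit 228) (nat_lit 30142993546) (nat_lit 21) (nat_lit 5) (nat_lit 23) (nat_lit 5) (nat_lit 24) (nat_lit 5) (nat_lit 324) (nat_lit 271) (nat_lit 125)) (XT.lf (nat_lit 0) (nat_lit 4595335657) (nat_lit 1140) (nat_lit 2631530324) (nat_lit 1140) (nat_lit 2631530324) (nat_lit 151) (nat_lit 3) (nat_lit 166) (nat_lit 3) (nat_lit 166) (nat_lit 5) (nat_lit 272)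 (nat_lit 272) (nat_lit 176))) (XT.nd (nat_lit 78) (nat_lit 0) (nat_lit 76) (XT.lf (nat_lit 76) (nat_lit 8557378745) (nat_lit 0) (nat_lit 1198057489) (nat_lit 1140) (nat_lit 10443608864) (nat_lit 152) (nat_lit 5) (nat_lit 151) (nat_lit 3) (nat_lit 166) (nat_lit 5) (nat_lit 273) (nat_lit 272) (nat_lit 175)) (XT.nd (nat_lit 78) (nat_lit 0) (nat_lit 76) (XT.lf (nat_lit 76) (nat_lit 2389737793) (nat_lit 0) (nat_lit 8142478558) (nat_lit 1140) (nat_lit 10167720070) (nat_lit 153) (nat_lit 5) (nat_lit 152) (nat_lit 5) (nat_lit 167) (nat_lit 5) (nat_lit 274) (nat_lit 272) (nat_lit 174)) (XT.lf (nat_lit 0) (nat_lit 11520677953) (nat_lit 1064) (nat_lit 3934151358) (nat_lit 1140) (nat_lit 5765895364) (nat_lit 153) (nat_lit 5) (nat_lit 167) (nat_lit 5) (nat_lit 168) (nat_lit 5) (nat_lit 275) (nat_lit 272) (nat_lit 173))))) (XT.nd (nat_lit 234) (nat_lit 0) (nat_lit 152) (XT.nd (nat_lit 78) (nat_lit 0)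 (nat_lit 76) (XT.lf (nat_lit 76) (nat_lit 11289843852) (nat_lit 0) (nat_lit 1444726273) (nat_lit 1140) (nat_lit 9027737838) (nat_lit 154) (nat_lit 5) (nat_lit 153) (nat_lit 5) (nat_lit 168) (nat_lit 5) (nat_lit 276) (nat_lit 272) (nat_lit 172)) (XT.nd (nat_lit 78) (nat_lit 0) (nat_lit 76) (XT.lf (nat_lit 76) (nat_lit 4987675401) (nat_lit 0) (nat_lit 9223811896) (nat_lit 1140) (nat_lit 8113447345) (nat_lit 155) (nat_lit 5) (nat_lit 154) (nat_lit 5) (nat_lit 169) (nat_lit 5) (nat_lit 277) (nat_lit 272) (nat_lit 171)) (XT.lf (nat_lit 0) (nat_lit 15924342567) (nat_lit 1064) (nat_lit 1549930321) (nat_lit 1140) (nat_lit 5436589513) (nat_lit 155) (nat_lit 5) (nat_lit 169) (nat_lit 5) (nat_lit 170) (nat_lit 5) (nat_lit 278) (nat_lit 272) (nat_lit 170)))) (XT.nd (nat_lit 78) (nat_lit 0) (nat_lit 76) (XT.lf (nat_lit 76) (nat_lit 15221705130) (nat_lit 0) (nat_lit 2727784173) (nat_lit 1140) (nat_lit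 5569828750) (nat_lit 156) (nat_lit 5) (nat_lit 155) (nat_lit 5) (nat_lit 170) (nat_lit 5) (nat_lit 279) (nat_lit 272) (nat_lit 169)) (XT.nd (nat_lit 78) (nat_lit 0) (nat_lit 76) (XT.lf (nat_lit 76) (nat_lit 8745304269) (nat_lit 0) (nat_lit 11541174287) (nat_lit 1140) (nat_lit 3865429867) (nat_lit 157) (nat_lit 5) (nat_lit 156) (nat_lit 5) (nat_lit 171) (nat_lit 5) (nat_lit 280) (nat_lit 272) (nat_lit 168)) (XT.lf (nat_lit 76) (nat_lit 1964150407) (nat_lit 0) (nat_lit 20933840805) (nat_lit 1140) (nat_lit 1913434967) (nat_lit 158) (nat_lit 5) (nat_lit 157) (nat_lit 5) (nat_lit 172) (nat_lit 5) (nat_lit 281) (nat_lit 272) (nat_lit 167))))))) (XT.nd (nat_lit 780) (nat_lit 3040) (nat_lit 0) (XT.nd (nat_lit 390) (nat_lit 1976) (nat_lit 0) (XT.nd (nat_lit 156) (nat_lit 1140) (nat_lit 0) (XT.nd (nat_lit 78) (nat_lit 0) (nat_lit 76) (XT.lf (nat_lit 0) (nat_lit 398801707) (nat_lit 1140) (nat_lit 5102427435)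 (nat_lit 1216) (nat_lit 19994718415) (nat_lit 142) (nat_lit 5) (nat_lit 157) (nat_lit 5) (nat_lit 158) (nat_lit 5) (nat_lit 282) (nat_lit 272) (nat_lit 166)) (XT.lf (nat_lit 0) (nat_lit 3013401771) (nat_lit 1140) (nat_lit 12544692899) (nat_lit 76) (nat_lit 10649266991) (nat_lit 143) (nat_lit 5) (nat_lit 158) (nat_lit 5) (nat_lit 144) (nat_lit 5) (nat_lit 283) (nat_lit 272) (nat_lit 165))) (XT.nd (nat_lit 78) (nat_lit 532) (nat_lit 0) (XT.lf (nat_lit 0) (nat_lit 5926593417) (nat_lit 760) (nat_lit 20372555409) (nat_lit 76) (nat_lit 650185352) (nat_lit 134) (nat_lit 5) (nat_lit 144) (nat_lit 5) (nat_lit 135) (nat_lit 5) (nat_lit 284) (nat_lit 272) (nat_lit 164)) (XT.nd (nat_lit 78) (nat_lit 532) (nat_lit 0) (XT.lf (nat_lit 0) (nat_lit 9262947391) (nat_lit 760) (nat_lit 975396810) (nat_lit 76) (nat_lit 17481758469) (nat_lit 134) (nat_lit 5) (nat_lit 144) (nat_lit 5) (nat_lit 135) (nat_lit 5)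 (nat_lit 285) (nat_lit 272) (nat_lit 163)) (XT.lf (nat_lit 0) (nat_lit 13012256475) (nat_lit 608) (nat_lit 8820809301) (nat_lit 76) (nat_lit 6688981057) (nat_lit 127) (nat_lit 5) (nat_lit 135) (nat_lit 5) (nat_lit 128) (nat_lit 5) (nat_lit 286) (nat_lit 272) (nat_lit 162))))) (XT.nd (nat_lit 156) (nat_lit 988) (nat_lit 0) (XT.nd (nat_lit 78) (nat_lit 456) (nat_lit 0) (XT.lf (nat_lit 0) (nat_lit 12194163206) (nat_lit 532) (nat_lit 4976471353) (nat_lit 608) (nat_lit 12186825885) (nat_lit 120) (nat_lit 5) (nat_lit 127) (nat_lit 5) (nat_lit 128) (nat_lit 5) (nat_lit 287) (nat_lit 272) (nat_lit 161)) (XT.lf (nat_lit 0) (nat_lit 4161613134) (nat_lit 456) (nat_lit 17620587560) (nat_lit 532) (nat_lit 8445105347) (nat_lit 114) (nat_lit 5) (nat_lit 120) (nat_lit 5) (nat_lit 121) (nat_lit 5) (nat_lit 288) (nat_lit 272) (nat_lit 160))) (XT.nd (nat_lit 78) (nat_lit 988) (nat_lit 0) (XT.lf (nat_lit 0)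 (nat_lit 26842450650) (nat_lit 532) (nat_lit 4282447943) (nat_lit 76) (nat_lit 9220615) (nat_lit 114) (nat_lit 5) (nat_lit 121) (nat_lit 5) (nat_lit 115) (nat_lit 5) (nat_lit 289) (nat_lit 272) (nat_lit 159)) (XT.nd (nat_lit 78) (nat_lit 456) (nat_lit 0) (XT.lf (nat_lit 0) (nat_lit 421811910) (nat_lit 532) (nat_lit 13309829468) (nat_lit 76) (nat_lit 18344016890) (nat_lit 107) (nat_lit 5) (nat_lit 114) (nat_lit 5) (nat_lit 108) (nat_lit 5) (nat_lit 290) (nat_lit 272) (nat_lit 158)) (XT.lf (nat_lit 0) (nat_lit 5462611682) (nat_lit 532) (nat_lit 22965429124) (nat_lit 76) (nat_lit 4629562867) (nat_lit 101) (nat_lit 5) (nat_lit 108) (nat_lit 5) (nat_lit 102) (nat_lit 5) (nat_lit 291) (nat_lit 272) (nat_lit 157)))))) (XT.nd (nat_lit 390) (nat_lit 1748) (nat_lit 0) (XT.nd (nat_lit 156) (nat_lit 836) (nat_lit 0) (XT.nd (nat_lit 78) (nat_lit 0) (nat_lit 0) (XT.lf (nat_lit 0) (nat_lit 723822609) (nat_lit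 456) (nat_lit 10308050975) (nat_lit 532) (nat_lit 23048495579) (nat_lit 95) (nat_lit 5) (nat_lit 101) (nat_lit 5) (nat_lit 102) (nat_lit 5) (nat_lit 292) (nat_lit 272) (nat_lit 156)) (XT.lf (nat_lit 0) (nat_lit 17194921281) (nat_lit 532) (nat_lit 9164092319) (nat_lit 76) (nat_lit 8785814389) (nat_lit 95) (nat_lit 5) (nat_lit 102) (nat_lit 5) (nat_lit 96) (nat_lit 5) (nat_lit 293) (nat_lit 272) (nat_lit 155))) (XT.nd (nat_lit 78) (nat_lit 456) (nat_lit 0) (XT.lf (nat_lit 0) (nat_lit 16447059901) (nat_lit 380) (nat_lit 7474317587) (nat_lit 456) (nat_lit 12333488624) (nat_lit 90) (nat_lit 5) (nat_lit 95) (nat_lit 5) (nat_lit 96) (nat_lit 5) (nat_lit 294) (nat_lit 272) (nat_lit 154)) (XT.nd (nat_lit 78) (nat_lit 76) (nat_lit 0) (XT.lf (nat_lit 0) (nat_lit 6104316223) (nat_lit 380) (nat_lit 25145909801) (nat_lit 456) (nat_lit 6162211404) (nat_lit 85) (nat_lit 5) (nat_lit 90) (nat_lit 5) (nat_lit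 91) (nat_lit 5) (nat_lit 295) (nat_lit 272) (nat_lit 153)) (XT.lf (nat_lit 0) (nat_lit 586322628) (nat_lit 456) (nat_lit 4984033316) (nat_lit 76) (nat_lit 33049205399) (nat_lit 84) (nat_lit 5) (nat_lit 90) (nat_lit 5) (nat_lit 85) (nat_lit 5) (nat_lit 296) (nat_lit 272) (nat_lit 152))))) (XT.nd (nat_lit 234) (nat_lit 988) (nat_lit 0) (XT.nd (nat_lit 78) (nat_lit 380) (nat_lit 0) (XT.lf (nat_lit 0) (nat_lit 7908130771) (nat_lit 456) (nat_lit 16989331932) (nat_lit 76) (nat_lit 14976861423) (nat_lit 79) (nat_lit 5) (nat_lit 85) (nat_lit 5) (nat_lit 80) (nat_lit 5) (nat_lit 297) (nat_lit 272) (nat_lit 151)) (XT.nd (nat_lit 78) (nat_lit 0) (nat_lit 0) (XT.lf (nat_lit 0) (nat_lit 11216151346) (nat_lit 380) (nat_lit 4589781320) (nat_lit 456) (nat_lit 25379606497) (nat_lit 74) (nat_lit 5) (nat_lit 79) (nat_lit 5) (nat_lit 80) (nat_lit 5) (nat_lit 298) (nat_lit 272) (nat_lit 150)) (XT.lf (nat_lit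 0) (nat_lit 24430348450) (nat_lit 456) (nat_lit 1539994223) (nat_lit 76) (nat_lit 16582031246) (nat_lit 74) (nat_lit 5) (nat_lit 80) (nat_lit 5) (nat_lit 75) (nat_lit 5) (nat_lit 299) (nat_lit 272) (nat_lit 149)))) (XT.nd (nat_lit 78) (nat_lit 684) (nat_lit 0) (XT.lf (nat_lit 0) (nat_lit 28819992094) (nat_lit 304) (nat_lit 4983879300) (nat_lit 380) (nat_lit 10174152598) (nat_lit 70) (nat_lit 5) (nat_lit 74) (nat_lit 5) (nat_lit 75) (nat_lit 5) (nat_lit 300) (nat_lit 272) (nat_lit 148)) (XT.nd (nat_lit 78) (nat_lit 380) (nat_lit 0) (XT.lf (nat_lit 0) (nat_lit 15384934904) (nat_lit 304) (nat_lit 28583655373) (nat_lit 380) (nat_lit 1496700385) (nat_lit 66) (nat_lit 5) (nat_lit 70) (nat_lit 5) (nat_lit 71) (nat_lit 5) (nat_lit 301) (nat_lit 272) (nat_lit 147)) (XT.lf (nat_lit 0) (nat_lit 630015170) (nat_lit 304) (nat_lit 7044798922) (nat_lit 380) (nat_lit 39343656285) (nat_lit 61) (nat_lit 5)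 (nat_lit 65) (nat_lit 5) (nat_lit 66) (nat_lit 5) (nat_lit 302) (nat_lit 272) (nat_lit 146))))))))
noncomputable def xc105 : XT := (XT.nd (nat_lit 35178) (nat_lit 0) (nat_lit 5472) (XT.nd (nat_lit 780) (nat_lit 1216) (nat_lit 0) (XT.nd (nat_lit 390) (nat_lit 760) (nat_lit 0) (XT.nd (nat_lit 156) (nat_lit 608) (nat_lit 0) (XT.nd (nat_lit 78) (nat_lit 304) (nat_lit 0) (XT.lf (nat_lit 0) (nat_lit 17731634640) (nat_lit 380) (nat_lit 15310124367) (nat_lit 76) (nat_lit 15593383508) (nat_lit 61) (nat_lit 5) (nat_lit 66) (nat_lit 5) (nat_lit 62) (nat_lit 5) (nat_lit 303) (nat_lit 272) (nat_lit 145)) (XT.lf (nat_lit 0) (nat_lit 17587790700) (nat_lit 304) (nat_lit 10938915082) (nat_lit 380) (nat_lit 21798888312) (nat_lit 57) (nat_lit 5) (nat_lit 61) (nat_lit 5) (nat_lit 62) (nat_lit 5) (nat_lit 304) (nat_lit 272) (nat_lit 144))) (XT.nd (nat_lit 78) (nat_lit 380) (nat_lit 0) (XT.lf (nat_lit 0) (nat_lit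 233379800) (nat_lit 228) (nat_lit 39902887418) (nat_lit 304) (nat_lit 11956066671) (nat_lit 54) (nat_lit 5) (nat_lit 57) (nat_lit 5) (nat_lit 58) (nat_lit 5) (nat_lit 305) (nat_lit 272) (nat_lit 143)) (XT.nd (nat_lit 78) (nat_lit 380) (nat_lit 0) (XT.lf (nat_lit 0) (nat_lit 35418448200) (nat_lit 228) (nat_lit 17349742840) (nat_lit 304) (nat_lit 1165970472) (nat_lit 54) (nat_lit 5) (nat_lit 57) (nat_lit 5) (nat_lit 58) (nat_lit 5) (nat_lit 306) (nat_lit 272) (nat_lit 142)) (XT.lf (nat_lit 0) (nat_lit 10185111476) (nat_lit 380) (nat_lit 39206649105) (nat_lit 76) (nat_lit 6466801480) (nat_lit 49) (nat_lit 5) (nat_lit 54) (nat_lit 5) (nat_lit 50) (nat_lit 5) (nat_lit 307) (nat_lit 272) (nat_lit 141))))) (XT.nd (nat_lit 156) (nat_lit 532) (nat_lit 0) (XT.nd (nat_lit 78) (nat_lit 228) (nat_lit 0) (XT.lf (nat_lit 0) (nat_lit 22443308787) (nat_lit 380) (nat_lit 4103322198) (nat_lit 76) (nat_lit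 31321301554) (nat_lit 49) (nat_lit 5) (nat_lit 54) (nat_lit 5) (nat_lit 50) (nat_lit 5) (nat_lit 308) (nat_lit 272) (nat_lit 140)) (XT.lf (nat_lit 0) (nat_lit 33401301806) (nat_lit 228) (nat_lit 2230231632) (nat_lit 304) (nat_lit 24336730759) (nat_lit 46) (nat_lit 5) (nat_lit 49) (nat_lit 5) (nat_lit 50) (nat_lit 5) (nat_lit 309) (nat_lit 272) (nat_lit 139))) (XT.nd (nat_lit 78) (nat_lit 304) (nat_lit 0) (XT.lf (nat_lit 0) (nat_lit 10672821641) (nat_lit 228) (nat_lit 39171755990) (nat_lit 304) (nat_lit 12318078442) (nat_lit 43) (nat_lit 5) (nat_lit 46) (nat_lit 5) (nat_lit 47) (nat_lit 5) (nat_lit 310) (nat_lit 272) (nat_lit 138)) (XT.nd (nat_lit 78) (nat_lit 228) (nat_lit 0) (XT.lf (nat_lit 0) (nat_lit 590576130) (nat_lit 304) (nat_lit 14162424355) (nat_lit 76) (nat_lit 49704836960) (nat_lit 42) (nat_lit 5) (nat_lit 46) (nat_lit 5) (nat_lit 43) (nat_lit 5) (nat_lit 311) (nat_lit 272) (nat_lit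 137)) (XT.lf (nat_lit 0) (nat_lit 14241121653) (nat_lit 304) (nat_lit 41567745555) (nat_lit 76) (nat_lit 11044720577) (nat_lit 39) (nat_lit 5) (nat_lit 43) (nat_lit 5) (nat_lit 40) (nat_lit 5) (nat_lit 312) (nat_lit 272) (nat_lit 136)))))) (XT.nd (nat_lit 390) (nat_lit 532) (nat_lit 0) (XT.nd (nat_lit 156) (nat_lit 456) (nat_lit 0) (XT.nd (nat_lit 78) (nat_lit 228) (nat_lit 0) (XT.lf (nat_lit 0) (nat_lit 28866868463) (nat_lit 304) (nat_lit 2517816784) (nat_lit 76) (nat_lit 37975665110) (nat_lit 39) (nat_lit 5) (nat_lit 43) (nat_lit 5) (nat_lit 40) (nat_lit 5) (nat_lit 313) (nat_lit 272) (nat_lit 135)) (XT.lf (nat_lit 0) (nat_lit 39245485466) (nat_lit 228) (nat_lit 5352369026) (nat_lit 304) (nat_lit 27383382711) (nat_lit 36) (nat_lit 5) (nat_lit 39) (nat_lit 5) (nat_lit 40) (nat_lit 5) (nat_lit 314) (nat_lit 272) (nat_lit 134))) (XT.nd (nat_lit 78) (nat_lit 304) (nat_lit 0) (XT.lf (nat_lit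 0) (nat_lit 8363944130) (nat_lit 152) (nat_lit 53066116320) (nat_lit 228) (nat_lit 13293672299) (nat_lit 34) (nat_lit 5) (nat_lit 36) (nat_lit 5) (nat_lit 37) (nat_lit 5) (nat_lit 315) (nat_lit 272) (nat_lit 133)) (XT.nd (nat_lit 78) (nat_lit 228) (nat_lit 0) (XT.lf (nat_lit 0) (nat_lit 1862455778) (nat_lit 228) (nat_lit 25467134041) (nat_lit 76) (nat_lit 50261598293) (nat_lit 33) (nat_lit 5) (nat_lit 36) (nat_lit 5) (nat_lit 34) (nat_lit 5) (nat_lit 316) (nat_lit 272) (nat_lit 132)) (XT.lf (nat_lit 0) (nat_lit 17670996752) (nat_lit 304) (nat_lit 62916716754) (nat_lit 76) (nat_lit 5271864) (nat_lit 30) (nat_lit 5) (nat_lit 34) (nat_lit 5) (nat_lit 31) (nat_lit 5) (nat_lit 317) (nat_lit 272) (nat_lit 131))))) (XT.nd (nat_lit 234) (nat_lit 380) (nat_lit 0) (XT.nd (nat_lit 78) (nat_lit 152) (nat_lit 0) (XT.lf (nat_lit 0) (nat_lit 34807667438) (nat_lit 304) (nat_lit 20510945527) (nat_lit 76)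 (nat_lit 28410132200) (nat_lit 30) (nat_lit 5) (nat_lit 34) (nat_lit 5) (nat_lit 31) (nat_lit 5) (nat_lit 318) (nat_lit 272) (nat_lit 130)) (XT.nd (nat_lit 78) (nat_lit 0) (nat_lit 0) (XT.lf (nat_lit 0) (nat_lit 24488664248) (nat_lit 152) (nat_lit 28545146627) (nat_lit 228) (nat_lit 33980506474) (nat_lit 28) (nat_lit 5) (nat_lit 30) (nat_lit 5) (nat_lit 31) (nat_lit 5) (nat_lit 319) (nat_lit 272) (nat_lit 129)) (XT.lf (nat_lit 0) (nat_lit 72162684497) (nat_lit 152) (nat_lit 217049476) (nat_lit 228) (nat_lit 18078183402) (nat_lit 28) (nat_lit 5) (nat_lit 30) (nat_lit 5) (nat_lit 31) (nat_lit 5) (nat_lit 320) (nat_lit 272) (nat_lit 128)))) (XT.nd (nat_lit 78) (nat_lit 228) (nat_lit 0) (XT.lf (nat_lit 0) (nat_lit 28413262902) (nat_lit 152) (nat_lit 64834095546) (nat_lit 228) (nat_lit 809710042) (nat_lit 26) (nat_lit 5) (nat_lit 28) (nat_lit 5) (nat_lit 29) (nat_lit 5) (nat_lit 321) (nat_lit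 272) (nat_lit 127)) (XT.nd (nat_lit 78) (nat_lit 152) (nat_lit 0) (XT.lf (nat_lit 0) (nat_lit 17174057410) (nat_lit 228) (nat_lit 20165585152) (nat_lit 76) (nat_lit 60485845593) (nat_lit 25) (nat_lit 5) (nat_lit 28) (nat_lit 5) (nat_lit 26) (nat_lit 5) (nat_lit 322) (nat_lit 272) (nat_lit 126)) (XT.lf (nat_lit 0) (nat_lit 28123360677) (nat_lit 152) (nat_lit 8185020160) (nat_lit 228) (nat_lit 65465666905) (nat_lit 23) (nat_lit 5) (nat_lit 25) (nat_lit 5) (nat_lit 26) (nat_lit 5) (nat_lit 323) (nat_lit 272) (nat_lit 125))))))) (XT.nd (nat_lit 780) (nat_lit 4256) (nat_lit 0) (XT.nd (nat_lit 390) (nat_lit 0) (nat_lit 228) (XT.nd (nat_lit 156) (nat_lit 0) (nat_lit 76) (XT.nd (nat_lit 78) (nat_lit 0) (nat_lit 0) (XT.lf (nat_lit 0) (nat_lit 5073895848) (nat_lit 1140) (nat_lit 2634674363) (nat_lit 1140) (nat_lit 2634674363) (nat_lit 151) (nat_lit 3) (nat_lit 166) (nat_lit 3) (nat_lit 166) (nat_lit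 5) (nat_lit 273) (nat_lit 273) (nat_lit 174)) (XT.lf (nat_lit 76) (nat_lit 9234749655) (nat_lit 0) (nat_lit 1484748962) (nat_lit 1140) (nat_lit 10474052410) (nat_lit 152) (nat_lit 5) (nat_lit 151) (nat_lit 3) (nat_lit 166) (nat_lit 5) (nat_lit 274) (nat_lit 273) (nat_lit 173))) (XT.nd (nat_lit 78) (nat_lit 0) (nat_lit 76) (XT.lf (nat_lit 76) (nat_lit 2768695832) (nat_lit 0) (nat_lit 8744159380) (nat_lit 1140) (nat_lit 10207354704) (nat_lit 153) (nat_lit 5) (nat_lit 152) (nat_lit 5) (nat_lit 167) (nat_lit 5) (nat_lit 275) (nat_lit 273) (nat_lit 172)) (XT.nd (nat_lit 78) (nat_lit 0) (nat_lit 0) (XT.lf (nat_lit 0) (nat_lit 12527338368) (nat_lit 1064) (nat_lit 3867940187) (nat_lit 1140) (nat_lit 5872513572) (nat_lit 153) (nat_lit 5) (nat_lit 167) (nat_lit 5) (nat_lit 168) (nat_lit 5) (nat_lit 276) (nat_lit 273) (nat_lit 171)) (XT.lf (nat_lit 76) (nat_lit 12109718270) (nat_lit 0) (nat_lit 1674155744)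 (nat_lit 1140) (nat_lit 9053172099) (nat_lit 154) (nat_lit 5) (nat_lit 153) (nat_lit 5) (nat_lit 168) (nat_lit 5) (nat_lit 277) (nat_lit 273) (nat_lit 170))))) (XT.nd (nat_lit 156) (nat_lit 0) (nat_lit 76) (XT.nd (nat_lit 78) (nat_lit 0) (nat_lit 76) (XT.lf (nat_lit 76) (nat_lit 5499582431) (nat_lit 0) (nat_lit 9816492618) (nat_lit 1140) (nat_lit 8112333555) (nat_lit 155) (nat_lit 5) (nat_lit 154) (nat_lit 5) (nat_lit 169) (nat_lit 5) (nat_lit 278) (nat_lit 273) (nat_lit 169)) (XT.lf (nat_lit 0) (nat_lit 17094606766) (nat_lit 1064) (nat_lit 1364036368) (nat_lit 1140) (nat_lit 5585633959) (nat_lit 155) (nat_lit 5) (nat_lit 169) (nat_lit 5) (nat_lit 170) (nat_lit 5) (nat_lit 279) (nat_lit 273) (nat_lit 168))) (XT.nd (nat_lit 78) (nat_lit 0) (nat_lit 76) (XT.lf (nat_lit 76) (nat_lit 16238630822) (nat_lit 0) (nat_lit 2967027546) (nat_lit 1140) (nat_lit 5478000924) (nat_lit 156) (nat_lit 5) (nat_lit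 155) (nat_lit 5) (nat_lit 170) (nat_lit 5) (nat_lit 280) (nat_lit 273) (nat_lit 167)) (XT.nd (nat_lit 78) (nat_lit 0) (nat_lit 76) (XT.lf (nat_lit 76) (nat_lit 9443328104) (nat_lit 0) (nat_lit 12200653239) (nat_lit 1140) (nat_lit 3704404444) (nat_lit 157) (nat_lit 5) (nat_lit 156) (nat_lit 5) (nat_lit 171) (nat_lit 5) (nat_lit 281) (nat_lit 273) (nat_lit 166)) (XT.lf (nat_lit 76) (nat_lit 2327210879) (nat_lit 0) (nat_lit 22044308286) (nat_lit 1140) (nat_lit 1669835956) (nat_lit 158) (nat_lit 5) (nat_lit 157) (nat_lit 5) (nat_lit 172) (nat_lit 5) (nat_lit 282) (nat_lit 273) (nat_lit 165)))))) (XT.nd (nat_lit 390) (nat_lit 2432) (nat_lit 0) (XT.nd (nat_lit 156) (nat_lit 1140) (nat_lit 0) (XT.nd (nat_lit 78) (nat_lit 0) (nat_lit 76) (XT.lf (nat_lit 0) (nat_lit 735551663) (nat_lit 1140) (nat_lit 5098278292) (nat_lit 1216) (nat_lit 20926686212) (nat_lit 142) (nat_lit 5) (nat_lit 157) (nat_lit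 5) (nat_lit 158) (nat_lit 5) (nat_lit 283) (nat_lit 273) (nat_lit 164)) (XT.lf (nat_lit 0) (nat_lit 3467713576) (nat_lit 1140) (nat_lit 12909771861) (nat_lit 76) (nat_lit 11130445082) (nat_lit 143) (nat_lit 5) (nat_lit 158) (nat_lit 5) (nat_lit 144) (nat_lit 5) (nat_lit 284) (nat_lit 273) (nat_lit 163))) (XT.nd (nat_lit 78) (nat_lit 532) (nat_lit 0) (XT.lf (nat_lit 0) (nat_lit 6514197876) (nat_lit 760) (nat_lit 21126780546) (nat_lit 76) (nat_lit 646427104) (nat_lit 134) (nat_lit 5) (nat_lit 144) (nat_lit 5) (nat_lit 135) (nat_lit 5) (nat_lit 285) (nat_lit 273) (nat_lit 162)) (XT.nd (nat_lit 78) (nat_lit 532) (nat_lit 0) (XT.lf (nat_lit 0) (nat_lit 10003499322) (nat_lit 760) (nat_lit 772354619) (nat_lit 76) (nat_lit 18321305902) (nat_lit 134) (nat_lit 5) (nat_lit 144) (nat_lit 5) (nat_lit 135) (nat_lit 5) (nat_lit 286) (nat_lit 273) (nat_lit 161)) (XT.lf (nat_lit 0) (nat_lit 13929204287)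 (nat_lit 608) (nat_lit 9008452454) (nat_lit 76) (nat_lit 7001906360) (nat_lit 127) (nat_lit 5) (nat_lit 135) (nat_lit 5) (nat_lit 128) (nat_lit 5) (nat_lit 287) (nat_lit 273) (nat_lit 160))))) (XT.nd (nat_lit 234) (nat_lit 1444) (nat_lit 0) (XT.nd (nat_lit 78) (nat_lit 456) (nat_lit 0) (XT.lf (nat_lit 0) (nat_lit 13050005095) (nat_lit 532) (nat_lit 5235179550) (nat_lit 608) (nat_lit 12531900629) (nat_lit 120) (nat_lit 5) (nat_lit 127) (nat_lit 5) (nat_lit 128) (nat_lit 5) (nat_lit 288) (nat_lit 273) (nat_lit 159)) (XT.nd (nat_lit 78) (nat_lit 0) (nat_lit 0) (XT.lf (nat_lit 0) (nat_lit 4616876199) (nat_lit 456) (nat_lit 18500547113) (nat_lit 532) (nat_lit 8613324041) (nat_lit 114) (nat_lit 5) (nat_lit 120) (nat_lit 5) (nat_lit 121) (nat_lit 5) (nat_lit 289) (nat_lit 273) (nat_lit 158)) (XT.lf (nat_lit 0) (nat_lit 28418975913) (nat_lit 532) (nat_lit 4253621661) (nat_lit 76) (nat_lit 10680644)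 (nat_lit 114) (nat_lit 5) (nat_lit 121) (nat_lit 5) (nat_lit 115) (nat_lit 5) (nat_lit 290) (nat_lit 273) (nat_lit 157)))) (XT.nd (nat_lit 78) (nat_lit 912) (nat_lit 0) (XT.lf (nat_lit 0) (nat_lit 671125176) (nat_lit 532) (nat_lit 13734318190) (nat_lit 76) (nat_lit 19266675067) (nat_lit 107) (nat_lit 5) (nat_lit 114) (nat_lit 5) (nat_lit 108) (nat_lit 5) (nat_lit 291) (nat_lit 273) (nat_lit 156)) (XT.nd (nat_lit 78) (nat_lit 456) (nat_lit 0) (XT.lf (nat_lit 0) (nat_lit 5955486729) (nat_lit 532) (nat_lit 23872703850) (nat_lit 76) (nat_lit 4875247545) (nat_lit 101) (nat_lit 5) (nat_lit 108) (nat_lit 5) (nat_lit 102) (nat_lit 5) (nat_lit 292) (nat_lit 273) (nat_lit 155)) (XT.lf (nat_lit 0) (nat_lit 994102347) (nat_lit 456) (nat_lit 10800895560) (nat_lit 532) (nat_lit 23982611987) (nat_lit 95) (nat_lit 5) (nat_lit 101) (nat_lit 5) (nat_lit 102) (nat_lit 5) (nat_lit 293) (nat_lit 273) (nat_lit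 154))))))))
noncomputable def xc106 : XT := (XT.nd (nat_lit 1638) (nat_lit 1064) (nat_lit 0) (XT.nd (nat_lit 780) (nat_lit 1672) (nat_lit 0) (XT.nd (nat_lit 390) (nat_lit 1368) (nat_lit 0) (XT.nd (nat_lit 156) (nat_lit 836) (nat_lit 0) (XT.nd (nat_lit 78) (nat_lit 380) (nat_lit 0) (XT.lf (nat_lit 0) (nat_lit 18256331616) (nat_lit 532) (nat_lit 9393106941) (nat_lit 76) (nat_lit 9246169658) (nat_lit 95) (nat_lit 5) (nat_lit 102) (nat_lit 5) (nat_lit 96) (nat_lit 5) (nat_lit 294) (nat_lit 273) (nat_lit 153)) (XT.lf (nat_lit 0) (nat_lit 17492033205) (nat_lit 380) (nat_lit 7819614331) (nat_lit 456) (nat_lit 12749744185) (nat_lit 90) (nat_lit 5) (nat_lit 95) (nat_lit 5) (nat_lit 96) (nat_lit 5) (nat_lit 295) (nat_lit 273) (nat_lit 152))) (XT.nd (nat_lit 78) (nat_lit 456) (nat_lit 0) (XT.lf (nat_lit 0) (nat_lit 6631545094) (nat_lit 380) (nat_lit 26368540028) (nat_lit 456) (nat_lit 6276980731) (nat_lit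 85) (nat_lit 5) (nat_lit 90) (nat_lit 5) (nat_lit 91) (nat_lit 5) (nat_lit 296) (nat_lit 273) (nat_lit 151)) (XT.nd (nat_lit 78) (nat_lit 380) (nat_lit 0) (XT.lf (nat_lit 0) (nat_lit 796180149) (nat_lit 456) (nat_lit 5017855942) (nat_lit 76) (nat_lit 34730742174) (nat_lit 84) (nat_lit 5) (nat_lit 90) (nat_lit 5) (nat_lit 85) (nat_lit 5) (nat_lit 297) (nat_lit 273) (nat_lit 150)) (XT.lf (nat_lit 0) (nat_lit 8477831344) (nat_lit 456) (nat_lit 17624384997) (nat_lit 76) (nat_lit 15760266692) (nat_lit 79) (nat_lit 5) (nat_lit 85) (nat_lit 5) (nat_lit 80) (nat_lit 5) (nat_lit 298) (nat_lit 273) (nat_lit 149))))) (XT.nd (nat_lit 156) (nat_lit 988) (nat_lit 0) (XT.nd (nat_lit 78) (nat_lit 0) (nat_lit 0) (XT.lf (nat_lit 0) (nat_lit 11985226325) (nat_lit 380) (nat_lit 4778999287) (nat_lit 456) (nat_lit 26475237784) (nat_lit 74) (nat_lit 5) (nat_lit 79) (nat_lit 5) (nat_lit 80) (nat_lit 5) (nat_lit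 299) (nat_lit 273) (nat_lit 148)) (XT.lf (nat_lit 0) (nat_lit 25812231037) (nat_lit 456) (nat_lit 1413914861) (nat_lit 76) (nat_lit 17448737822) (nat_lit 74) (nat_lit 5) (nat_lit 80) (nat_lit 5) (nat_lit 75) (nat_lit 5) (nat_lit 300) (nat_lit 273) (nat_lit 147))) (XT.nd (nat_lit 78) (nat_lit 684) (nat_lit 0) (XT.lf (nat_lit 0) (nat_lit 30458249550) (nat_lit 304) (nat_lit 5190440304) (nat_lit 380) (nat_lit 10523312838) (nat_lit 70) (nat_lit 5) (nat_lit 74) (nat_lit 5) (nat_lit 75) (nat_lit 5) (nat_lit 301) (nat_lit 273) (nat_lit 146)) (XT.nd (nat_lit 78) (nat_lit 380) (nat_lit 0) (XT.lf (nat_lit 0) (nat_lit 16350168475) (nat_lit 304) (nat_lit 29966387362) (nat_lit 380) (nat_lit 1417243037) (nat_lit 66) (nat_lit 5) (nat_lit 70) (nat_lit 5) (nat_lit 71) (nat_lit 5) (nat_lit 302) (nat_lit 273) (nat_lit 145)) (XT.lf (nat_lit 0) (nat_lit 855064175) (nat_lit 304) (nat_lit 7349428810) (nat_lit 380)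 (nat_lit 41160272892) (nat_lit 61) (nat_lit 5) (nat_lit 65) (nat_lit 5) (nat_lit 66) (nat_lit 5) (nat_lit 303) (nat_lit 273) (nat_lit 144)))))) (XT.nd (nat_lit 390) (nat_lit 760) (nat_lit 0) (XT.nd (nat_lit 156) (nat_lit 608) (nat_lit 0) (XT.nd (nat_lit 78) (nat_lit 304) (nat_lit 0) (XT.lf (nat_lit 0) (nat_lit 18757640985) (nat_lit 380) (nat_lit 15887327147) (nat_lit 76) (nat_lit 16417510793) (nat_lit 61) (nat_lit 5) (nat_lit 66) (nat_lit 5) (nat_lit 62) (nat_lit 5) (nat_lit 304) (nat_lit 273) (nat_lit 143)) (XT.lf (nat_lit 0) (nat_lit 18650085993) (nat_lit 304) (nat_lit 11437498627) (nat_lit 380) (nat_lit 22750026229) (nat_lit 57) (nat_lit 5) (nat_lit 61) (nat_lit 5) (nat_lit 62) (nat_lit 5) (nat_lit 305) (nat_lit 273) (nat_lit 142))) (XT.nd (nat_lit 78) (nat_lit 380) (nat_lit 0) (XT.lf (nat_lit 0) (nat_lit 426400784) (nat_lit 228) (nat_lit 41847002523) (nat_lit 304) (nat_lit 12419421743)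 (nat_lit 54) (nat_lit 5) (nat_lit 57) (nat_lit 5) (nat_lit 58) (nat_lit 5) (nat_lit 306) (nat_lit 273) (nat_lit 141)) (XT.nd (nat_lit 78) (nat_lit 380) (nat_lit 0) (XT.lf (nat_lit 0) (nat_lit 37362086795) (nat_lit 228) (nat_lit 18168630682) (nat_lit 304) (nat_lit 1096223032) (nat_lit 54) (nat_lit 5) (nat_lit 57) (nat_lit 5) (nat_lit 58) (nat_lit 5) (nat_lit 307) (nat_lit 273) (nat_lit 140)) (XT.lf (nat_lit 0) (nat_lit 10816046531) (nat_lit 380) (nat_lit 40993241830) (nat_lit 76) (nat_lit 6838361337) (nat_lit 49) (nat_lit 5) (nat_lit 54) (nat_lit 5) (nat_lit 50) (nat_lit 5) (nat_lit 308) (nat_lit 273) (nat_lit 139))))) (XT.nd (nat_lit 234) (nat_lit 304) (nat_lit 0) (XT.nd (nat_lit 78) (nat_lit 456) (nat_lit 0) (XT.lf (nat_lit 0) (nat_lit 23681359446) (nat_lit 380) (nat_lit 4143021898) (nat_lit 76) (nat_lit 32933290234) (nat_lit 49) (nat_lit 5) (nat_lit 54) (nat_lit 5) (nat_lit 50) (nat_lit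 5) (nat_lit 309) (nat_lit 273) (nat_lit 138)) (XT.nd (nat_lit 78) (nat_lit 228) (nat_lit 0) (XT.lf (nat_lit 0) (nat_lit 35232090244) (nat_lit 228) (nat_lit 2292931713) (nat_lit 304) (nat_lit 25438125685) (nat_lit 46) (nat_lit 5) (nat_lit 49) (nat_lit 5) (nat_lit 50) (nat_lit 5) (nat_lit 310) (nat_lit 273) (nat_lit 137)) (XT.lf (nat_lit 0) (nat_lit 11365551797) (nat_lit 228) (nat_lit 41079813552) (nat_lit 304) (nat_lit 12822002563) (nat_lit 43) (nat_lit 5) (nat_lit 46) (nat_lit 5) (nat_lit 47) (nat_lit 5) (nat_lit 311) (nat_lit 273) (nat_lit 136)))) (XT.nd (nat_lit 78) (nat_lit 228) (nat_lit 0) (XT.lf (nat_lit 0) (nat_lit 724671291) (nat_lit 304) (nat_lit 14716799268) (nat_lit 76) (nat_lit 52235969942) (nat_lit 42) (nat_lit 5) (nat_lit 46) (nat_lit 5) (nat_lit 43) (nat_lit 5) (nat_lit 312) (nat_lit 273) (nat_lit 135)) (XT.nd (nat_lit 78) (nat_lit 0) (nat_lit 0) (XT.lf (nat_lit 0) (nat_lit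 15054664728) (nat_lit 304) (nat_lit 43494082812) (nat_lit 76) (nat_lit 11644330428) (nat_lit 39) (nat_lit 5) (nat_lit 43) (nat_lit 5) (nat_lit 40) (nat_lit 5) (nat_lit 313) (nat_lit 273) (nat_lit 134)) (XT.lf (nat_lit 0) (nat_lit 30406866165) (nat_lit 304) (nat_lit 2498898080) (nat_lit 76) (nat_lit 39919566292) (nat_lit 39) (nat_lit 5) (nat_lit 43) (nat_lit 5) (nat_lit 40) (nat_lit 5) (nat_lit 314) (nat_lit 273) (nat_lit 133))))))) (XT.nd (nat_lit 34398) (nat_lit 0) (nat_lit 8892) (XT.nd (nat_lit 390) (nat_lit 380) (nat_lit 0) (XT.nd (nat_lit 156) (nat_lit 304) (nat_lit 0) (XT.nd (nat_lit 78) (nat_lit 152) (nat_lit 0) (XT.lf (nat_lit 0) (nat_lit 41348418346) (nat_lit 228) (nat_lit 5572732660) (nat_lit 304) (nat_lit 28656214790) (nat_lit 36) (nat_lit 5) (nat_lit 39) (nat_lit 5) (nat_lit 40) (nat_lit 5) (nat_lit 315) (nat_lit 273) (nat_lit 132)) (XT.lf (nat_lit 0) (nat_lit 8921175957) (nat_lit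 152) (nat_lit 55671112604) (nat_lit 228) (nat_lit 13864784165) (nat_lit 34) (nat_lit 5) (nat_lit 36) (nat_lit 5) (nat_lit 37) (nat_lit 5) (nat_lit 316) (nat_lit 273) (nat_lit 131))) (XT.nd (nat_lit 78) (nat_lit 228) (nat_lit 0) (XT.lf (nat_lit 0) (nat_lit 2042955545) (nat_lit 228) (nat_lit 26606222351) (nat_lit 76) (nat_lit 52818832818) (nat_lit 33) (nat_lit 5) (nat_lit 36) (nat_lit 5) (nat_lit 34) (nat_lit 5) (nat_lit 317) (nat_lit 273) (nat_lit 130)) (XT.nd (nat_lit 78) (nat_lit 0) (nat_lit 0) (XT.lf (nat_lit 0) (nat_lit 18639458129) (nat_lit 304) (nat_lit 65929930584) (nat_lit 76) (nat_lit 50588584) (nat_lit 30) (nat_lit 5) (nat_lit 34) (nat_lit 5) (nat_lit 31) (nat_lit 5) (nat_lit 318) (nat_lit 273) (nat_lit 129)) (XT.lf (nat_lit 0) (nat_lit 36628918942) (nat_lit 304) (nat_lit 21410186129) (nat_lit 76) (nat_lit 29873546550) (nat_lit 30) (nat_lit 5) (nat_lit 34) (nat_lit 5) (nat_lit 31)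 (nat_lit 5) (nat_lit 319) (nat_lit 273) (nat_lit 128))))) (XT.nd (nat_lit 156) (nat_lit 228) (nat_lit 0) (XT.nd (nat_lit 78) (nat_lit 0) (nat_lit 0) (XT.lf (nat_lit 0) (nat_lit 25835783580) (nat_lit 152) (nat_lit 29927914443) (nat_lit 228) (nat_lit 35598889528) (nat_lit 28) (nat_lit 5) (nat_lit 30) (nat_lit 5) (nat_lit 31) (nat_lit 5) (nat_lit 320) (nat_lit 273) (nat_lit 127)) (XT.lf (nat_lit 0) (nat_lit 75887662645) (nat_lit 152) (nat_lit 185530983) (nat_lit 228) (nat_lit 18905290410) (nat_lit 28) (nat_lit 5) (nat_lit 30) (nat_lit 5) (nat_lit 31) (nat_lit 5) (nat_lit 321) (nat_lit 273) (nat_lit 126))) (XT.nd (nat_lit 78) (nat_lit 76) (nat_lit 0) (XT.lf (nat_lit 0) (nat_lit 29949287482) (nat_lit 152) (nat_lit 68032862338) (nat_lit 228) (nat_lit 775508897) (nat_lit 26) (nat_lit 5) (nat_lit 28) (nat_lit 5) (nat_lit 29) (nat_lit 5) (nat_lit 322) (nat_lit 273) (nat_lit 125)) (XT.nd (nat_lit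 33696) (nat_lit 0) (nat_lit 9576) (XT.lf (nat_lit 0) (nat_lit 18102502414) (nat_lit 228) (nat_lit 21062524698) (nat_lit 76) (nat_lit 63549559512) (nat_lit 25) (nat_lit 5) (nat_lit 28) (nat_lit 5) (nat_lit 26) (nat_lit 5) (nat_lit 323) (nat_lit 273) (nat_lit 124)) (XT.lf (nat_lit 0) (nat_lit 5553253595) (nat_lit 1140) (nat_lit 2649916038) (nat_lit 1140) (nat_lit 2649916038) (nat_lit 151) (nat_lit 3) (nat_lit 166) (nat_lit 3) (nat_lit 166) (nat_lit 5) (nat_lit 274) (nat_lit 274) (nat_lit 172)))))) (XT.nd (nat_lit 390) (nat_lit 684) (nat_lit 0) (XT.nd (nat_lit 156) (nat_lit 0) (nat_lit 152) (XT.nd (nat_lit 78) (nat_lit 0) (nat_lit 76) (XT.lf (nat_lit 76) (nat_lit 9922792781) (nat_lit 0) (nat_lit 1764690354) (nat_lit 1140) (nat_lit 10551735169) (nat_lit 152) (nat_lit 5) (nat_lit 151) (nat_lit 3) (nat_lit 166) (nat_lit 5) (nat_lit 275) (nat_lit 274) (nat_lit 171)) (XT.lf (nat_lit 76) (nat_lit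 3142478605) (nat_lit 0) (nat_lit 9357836187) (nat_lit 1140) (nat_lit 10292551130) (nat_lit 153) (nat_lit 5) (nat_lit 152) (nat_lit 5) (nat_lit 167) (nat_lit 5) (nat_lit 276) (nat_lit 274) (nat_lit 170))) (XT.nd (nat_lit 78) (nat_lit 0) (nat_lit 0) (XT.lf (nat_lit 0) (nat_lit 13544296232) (nat_lit 1064) (nat_lit 3822862150) (nat_lit 1140) (nat_lit 6001353255) (nat_lit 153) (nat_lit 5) (nat_lit 167) (nat_lit 5) (nat_lit 168) (nat_lit 5) (nat_lit 277) (nat_lit 274) (nat_lit 169)) (XT.nd (nat_lit 78) (nat_lit 0) (nat_lit 76) (XT.lf (nat_lit 76) (nat_lit 12946843390) (nat_lit 0) (nat_lit 1900442359) (nat_lit 1140) (nat_lit 9119479112) (nat_lit 154) (nat_lit 5) (nat_lit 153) (nat_lit 5) (nat_lit 168) (nat_lit 5) (nat_lit 278) (nat_lit 274) (nat_lit 168)) (XT.lf (nat_lit 76) (nat_lit 6012677889) (nat_lit 0) (nat_lit 10426582671) (nat_lit 1140) (nat_lit 8148983197) (nat_lit 155) (nat_lit 5) (nat_lit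 154) (nat_lit 5) (nat_lit 169) (nat_lit 5) (nat_lit 279) (nat_lit 274) (nat_lit 167))))) (XT.nd (nat_lit 234) (nat_lit 988) (nat_lit 0) (XT.nd (nat_lit 78) (nat_lit 0) (nat_lit 0) (XT.lf (nat_lit 0) (nat_lit 18288608824) (nat_lit 1064) (nat_lit 1193335265) (nat_lit 1140) (nat_lit 5753546015) (nat_lit 155) (nat_lit 5) (nat_lit 169) (nat_lit 5) (nat_lit 170) (nat_lit 5) (nat_lit 280) (nat_lit 274) (nat_lit 166)) (XT.nd (nat_lit 78) (nat_lit 0) (nat_lit 76) (XT.lf (nat_lit 76) (nat_lit 17282617179) (nat_lit 0) (nat_lit 3208670684) (nat_lit 1140) (nat_lit 5416010481) (nat_lit 156) (nat_lit 5) (nat_lit 155) (nat_lit 5) (nat_lit 170) (nat_lit 5) (nat_lit 281) (nat_lit 274) (nat_lit 165)) (XT.lf (nat_lit 76) (nat_lit 10152010266) (nat_lit 0) (nat_lit 12885443487) (nat_lit 1140) (nat_lit 3568266918) (nat_lit 157) (nat_lit 5) (nat_lit 156) (nat_lit 5) (nat_lit 171) (nat_lit 5) (nat_lit 282) (nat_lit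 274) (nat_lit 164)))) (XT.nd (nat_lit 78) (nat_lit 1140) (nat_lit 0) (XT.lf (nat_lit 76) (nat_lit 2683800857) (nat_lit 0) (nat_lit 23204369904) (nat_lit 1140) (nat_lit 1445599175) (nat_lit 158) (nat_lit 5) (nat_lit 157) (nat_lit 5) (nat_lit 172) (nat_lit 5) (nat_lit 283) (nat_lit 274) (nat_lit 163)) (XT.nd (nat_lit 78) (nat_lit 0) (nat_lit 76) (XT.lf (nat_lit 0) (nat_lit 1059685138) (nat_lit 1140) (nat_lit 5118026206) (nat_lit 1216) (nat_lit 21911552838) (nat_lit 142) (nat_lit 5) (nat_lit 157) (nat_lit 5) (nat_lit 158) (nat_lit 5) (nat_lit 284) (nat_lit 274) (nat_lit 162)) (XT.lf (nat_lit 0) (nat_lit 3916511242) (nat_lit 1140) (nat_lit 13317477523) (nat_lit 76) (nat_lit 11640450096) (nat_lit 143) (nat_lit 5) (nat_lit 158) (nat_lit 5) (nat_lit 144) (nat_lit 5) (nat_lit 285) (nat_lit 274) (nat_lit 161))))))))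
noncomputable def xc107 : XT := (XT.nd (nat_lit 1638) (nat_lit 2356) (nat_lit 0) (XT.nd (nat_lit 780) (nat_lit 2888) (nat_lit 0) (XT.nd (nat_lit 390) (nat_lit 1444) (nat_lit 0) (XT.nd (nat_lit 156) (nat_lit 1520) (nat_lit 0) (XT.nd (nat_lit 78) (nat_lit 0) (nat_lit 0) (XT.lf (nat_lit 0) (nat_lit 7104102589) (nat_lit 760) (nat_lit 21943298591) (nat_lit 76) (nat_lit 645852753) (nat_lit 134) (nat_lit 5) (nat_lit 144) (nat_lit 5) (nat_lit 135) (nat_lit 5) (nat_lit 286) (nat_lit 274) (nat_lit 160)) (XT.lf (nat_lit 0) (nat_lit 10755288401) (nat_lit 760) (nat_lit 582571414) (nat_lit 76) (nat_lit 19206041953) (nat_lit 134) (nat_lit 5) (nat_lit 144) (nat_lit 5) (nat_lit 135) (nat_lit 5) (nat_lit 287) (nat_lit 274) (nat_lit 159))) (XT.nd (nat_lit 78) (nat_lit 988) (nat_lit 0) (XT.lf (nat_lit 0) (nat_lit 14867238187) (nat_lit 608) (nat_lit 9229036245) (nat_lit 76) (nat_lit 7332479001) (nat_lit 127)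 (nat_lit 5) (nat_lit 135) (nat_lit 5) (nat_lit 128) (nat_lit 5) (nat_lit 288) (nat_lit 274) (nat_lit 158)) (XT.nd (nat_lit 78) (nat_lit 456) (nat_lit 0) (XT.lf (nat_lit 0) (nat_lit 13925755897) (nat_lit 532) (nat_lit 5505904178) (nat_lit 608) (nat_lit 12918798109) (nat_lit 120) (nat_lit 5) (nat_lit 127) (nat_lit 5) (nat_lit 128) (nat_lit 5) (nat_lit 289) (nat_lit 274) (nat_lit 157)) (XT.lf (nat_lit 0) (nat_lit 5071921740) (nat_lit 456) (nat_lit 19424604106) (nat_lit 532) (nat_lit 8813571584) (nat_lit 114) (nat_lit 5) (nat_lit 120) (nat_lit 5) (nat_lit 121) (nat_lit 5) (nat_lit 290) (nat_lit 274) (nat_lit 156))))) (XT.nd (nat_lit 156) (nat_lit 912) (nat_lit 0) (XT.nd (nat_lit 78) (nat_lit 532) (nat_lit 0) (XT.lf (nat_lit 0) (nat_lit 30052534896) (nat_lit 532) (nat_lit 4245941130) (nat_lit 76) (nat_lit 12120798) (nat_lit 114) (nat_lit 5) (nat_lit 121) (nat_lit 5) (nat_lit 115) (nat_lit 5)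 (nat_lit 291) (nat_lit 274) (nat_lit 155)) (XT.lf (nat_lit 0) (nat_lit 911686124) (nat_lit 532) (nat_lit 14202437500) (nat_lit 76) (nat_lit 20234958782) (nat_lit 107) (nat_lit 5) (nat_lit 114) (nat_lit 5) (nat_lit 108) (nat_lit 5) (nat_lit 292) (nat_lit 274) (nat_lit 154))) (XT.nd (nat_lit 78) (nat_lit 456) (nat_lit 0) (XT.lf (nat_lit 0) (nat_lit 6452575771) (nat_lit 532) (nat_lit 24847747904) (nat_lit 76) (nat_lit 5131895669) (nat_lit 101) (nat_lit 5) (nat_lit 108) (nat_lit 5) (nat_lit 102) (nat_lit 5) (nat_lit 293) (nat_lit 274) (nat_lit 153)) (XT.nd (nat_lit 78) (nat_lit 0) (nat_lit 0) (XT.lf (nat_lit 0) (nat_lit 1256132732) (nat_lit 456) (nat_lit 11320479600) (nat_lit 532) (nat_lit 24983730459) (nat_lit 95) (nat_lit 5) (nat_lit 101) (nat_lit 5) (nat_lit 102) (nat_lit 5) (nat_lit 294) (nat_lit 274) (nat_lit 152)) (XT.lf (nat_lit 0) (nat_lit 19352063636) (nat_lit 532) (nat_lit 9654880207)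 (nat_lit 76) (nat_lit 9727584307) (nat_lit 95) (nat_lit 5) (nat_lit 102) (nat_lit 5) (nat_lit 96) (nat_lit 5) (nat_lit 295) (nat_lit 274) (nat_lit 151)))))) (XT.nd (nat_lit 390) (nat_lit 1292) (nat_lit 0) (XT.nd (nat_lit 156) (nat_lit 836) (nat_lit 0) (XT.nd (nat_lit 78) (nat_lit 380) (nat_lit 0) (XT.lf (nat_lit 0) (nat_lit 18568558048) (nat_lit 380) (nat_lit 8184818053) (nat_lit 456) (nat_lit 13205445570) (nat_lit 90) (nat_lit 5) (nat_lit 95) (nat_lit 5) (nat_lit 96) (nat_lit 5) (nat_lit 296) (nat_lit 274) (nat_lit 150)) (XT.lf (nat_lit 0) (nat_lit 7164494738) (nat_lit 380) (nat_lit 27655524614) (nat_lit 456) (nat_lit 6415463561) (nat_lit 85) (nat_lit 5) (nat_lit 90) (nat_lit 5) (nat_lit 91) (nat_lit 5) (nat_lit 297) (nat_lit 274) (nat_lit 149))) (XT.nd (nat_lit 78) (nat_lit 760) (nat_lit 0) (XT.lf (nat_lit 0) (nat_lit 999745519) (nat_lit 456) (nat_lit 5073393601) (nat_lit 76) (nat_lit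 36493652531) (nat_lit 84) (nat_lit 5) (nat_lit 90) (nat_lit 5) (nat_lit 85) (nat_lit 5) (nat_lit 298) (nat_lit 274) (nat_lit 148)) (XT.nd (nat_lit 78) (nat_lit 380) (nat_lit 0) (XT.lf (nat_lit 0) (nat_lit 9059812738) (nat_lit 456) (nat_lit 18311124853) (nat_lit 76) (nat_lit 16579628959) (nat_lit 79) (nat_lit 5) (nat_lit 85) (nat_lit 5) (nat_lit 80) (nat_lit 5) (nat_lit 299) (nat_lit 274) (nat_lit 147)) (XT.lf (nat_lit 0) (nat_lit 12773392322) (nat_lit 380) (nat_lit 4981422178) (nat_lit 456) (nat_lit 27641766985) (nat_lit 74) (nat_lit 5) (nat_lit 79) (nat_lit 5) (nat_lit 80) (nat_lit 5) (nat_lit 300) (nat_lit 274) (nat_lit 146))))) (XT.nd (nat_lit 234) (nat_lit 684) (nat_lit 0) (XT.nd (nat_lit 78) (nat_lit 608) (nat_lit 0) (XT.lf (nat_lit 0) (nat_lit 27248298520) (nat_lit 456) (nat_lit 1300411899) (nat_lit 76) (nat_lit 18355283569) (nat_lit 74) (nat_lit 5) (nat_lit 80) (nat_lit 5) (nat_lit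 75) (nat_lit 5) (nat_lit 301) (nat_lit 274) (nat_lit 145)) (XT.nd (nat_lit 78) (nat_lit 304) (nat_lit 0) (XT.lf (nat_lit 0) (nat_lit 32160080715) (nat_lit 304) (nat_lit 5411292967) (nat_lit 380) (nat_lit 10904764294) (nat_lit 70) (nat_lit 5) (nat_lit 74) (nat_lit 5) (nat_lit 75) (nat_lit 5) (nat_lit 302) (nat_lit 274) (nat_lit 144)) (XT.lf (nat_lit 0) (nat_lit 17345442726) (nat_lit 304) (nat_lit 31422574504) (nat_lit 380) (nat_lit 1348157464) (nat_lit 66) (nat_lit 5) (nat_lit 70) (nat_lit 5) (nat_lit 71) (nat_lit 5) (nat_lit 303) (nat_lit 274) (nat_lit 143)))) (XT.nd (nat_lit 78) (nat_lit 304) (nat_lit 0) (XT.lf (nat_lit 0) (nat_lit 1073371349) (nat_lit 304) (nat_lit 7673716523) (nat_lit 380) (nat_lit 43081718547) (nat_lit 61) (nat_lit 5) (nat_lit 65) (nat_lit 5) (nat_lit 66) (nat_lit 5) (nat_lit 304) (nat_lit 274) (nat_lit 142)) (XT.nd (nat_lit 78) (nat_lit 304) (nat_lit 0) (XT.lf (nat_lit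 0) (nat_lit 19821985269) (nat_lit 380) (nat_lit 16510896735) (nat_lit 76) (nat_lit 17278711149) (nat_lit 61) (nat_lit 5) (nat_lit 66) (nat_lit 5) (nat_lit 62) (nat_lit 5) (nat_lit 305) (nat_lit 274) (nat_lit 141)) (XT.lf (nat_lit 0) (nat_lit 19748491207) (nat_lit 304) (nat_lit 11965507608) (nat_lit 380) (nat_lit 23761625954) (nat_lit 57) (nat_lit 5) (nat_lit 61) (nat_lit 5) (nat_lit 62) (nat_lit 5) (nat_lit 306) (nat_lit 274) (nat_lit 140))))))) (XT.nd (nat_lit 780) (nat_lit 760) (nat_lit 0) (XT.nd (nat_lit 390) (nat_lit 760) (nat_lit 0) (XT.nd (nat_lit 156) (nat_lit 608) (nat_lit 0) (XT.nd (nat_lit 78) (nat_lit 0) (nat_lit 0) (XT.lf (nat_lit 0) (nat_lit 612212427) (nat_lit 228) (nat_lit 43893067601) (nat_lit 304) (nat_lit 12918444293) (nat_lit 54) (nat_lit 5) (nat_lit 57) (nat_lit 5) (nat_lit 58) (nat_lit 5) (nat_lit 307) (nat_lit 274) (nat_lit 139)) (XT.lf (nat_lit 0) (nat_lit 39386849806)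 (nat_lit 228) (nat_lit 19032981218) (nat_lit 304) (nat_lit 1034892720) (nat_lit 54) (nat_lit 5) (nat_lit 57) (nat_lit 5) (nat_lit 58) (nat_lit 5) (nat_lit 308) (nat_lit 274) (nat_lit 138))) (XT.nd (nat_lit 78) (nat_lit 228) (nat_lit 0) (XT.lf (nat_lit 0) (nat_lit 11467215734) (nat_lit 380) (nat_lit 42885316865) (nat_lit 76) (nat_lit 7224016169) (nat_lit 49) (nat_lit 5) (nat_lit 54) (nat_lit 5) (nat_lit 50) (nat_lit 5) (nat_lit 309) (nat_lit 274) (nat_lit 137)) (XT.nd (nat_lit 78) (nat_lit 228) (nat_lit 0) (XT.lf (nat_lit 0) (nat_lit 24970538729) (nat_lit 380) (nat_lit 4200090082) (nat_lit 76) (nat_lit 34621608808) (nat_lit 49) (nat_lit 5) (nat_lit 54) (nat_lit 5) (nat_lit 50) (nat_lit 5) (nat_lit 310) (nat_lit 274) (nat_lit 136)) (XT.lf (nat_lit 0) (nat_lit 37139475571) (nat_lit 228) (nat_lit 2363304828) (nat_lit 304) (nat_lit 26605323023) (nat_lit 46) (nat_lit 5) (nat_lit 49) (nat_lit 5)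 (nat_lit 50) (nat_lit 5) (nat_lit 311) (nat_lit 274) (nat_lit 135))))) (XT.nd (nat_lit 156) (nat_lit 456) (nat_lit 0) (XT.nd (nat_lit 78) (nat_lit 76) (nat_lit 0) (XT.lf (nat_lit 0) (nat_lit 12078127867) (nat_lit 228) (nat_lit 43087971814) (nat_lit 304) (nat_lit 13361533711) (nat_lit 43) (nat_lit 5) (nat_lit 46) (nat_lit 5) (nat_lit 47) (nat_lit 5) (nat_lit 312) (nat_lit 274) (nat_lit 134)) (XT.lf (nat_lit 0) (nat_lit 855749621) (nat_lit 304) (nat_lit 15313186801) (nat_lit 76) (nat_lit 54889393052) (nat_lit 42) (nat_lit 5) (nat_lit 46) (nat_lit 5) (nat_lit 43) (nat_lit 5) (nat_lit 313) (nat_lit 274) (nat_lit 133))) (XT.nd (nat_lit 78) (nat_lit 228) (nat_lit 0) (XT.lf (nat_lit 0) (nat_lit 15899449659) (nat_lit 304) (nat_lit 45530873101) (nat_lit 76) (nat_lit 12269516403) (nat_lit 39) (nat_lit 5) (nat_lit 43) (nat_lit 5) (nat_lit 40) (nat_lit 5) (nat_lit 314) (nat_lit 274) (nat_lit 132)) (XT.nd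 (nat_lit 78) (nat_lit 228) (nat_lit 0) (XT.lf (nat_lit 0) (nat_lit 32014877753) (nat_lit 304) (nat_lit 2492496459) (nat_lit 76) (nat_lit 41956467895) (nat_lit 39) (nat_lit 5) (nat_lit 43) (nat_lit 5) (nat_lit 40) (nat_lit 5) (nat_lit 315) (nat_lit 274) (nat_lit 131)) (XT.lf (nat_lit 0) (nat_lit 43543420767) (nat_lit 228) (nat_lit 5808507781) (nat_lit 304) (nat_lit 30001644979) (nat_lit 36) (nat_lit 5) (nat_lit 39) (nat_lit 5) (nat_lit 40) (nat_lit 5) (nat_lit 316) (nat_lit 274) (nat_lit 130)))))) (XT.nd (nat_lit 390) (nat_lit 152) (nat_lit 0) (XT.nd (nat_lit 156) (nat_lit 380) (nat_lit 0) (XT.nd (nat_lit 78) (nat_lit 76) (nat_lit 0) (XT.lf (nat_lit 0) (nat_lit 9493343254) (nat_lit 152) (nat_lit 58410850065) (nat_lit 228) (nat_lit 14473151039) (nat_lit 34) (nat_lit 5) (nat_lit 36) (nat_lit 5) (nat_lit 37) (nat_lit 5) (nat_lit 317) (nat_lit 274) (nat_lit 129)) (XT.lf (nat_lit 0) (nat_lit 2224356817)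 (nat_lit 228) (nat_lit 27814748079) (nat_lit 76) (nat_lit 55499823991) (nat_lit 33) (nat_lit 5) (nat_lit 36) (nat_lit 5) (nat_lit 34) (nat_lit 5) (nat_lit 318) (nat_lit 274) (nat_lit 128))) (XT.nd (nat_lit 78) (nat_lit 152) (nat_lit 0) (XT.lf (nat_lit 0) (nat_lit 19648448305) (nat_lit 304) (nat_lit 69106135042) (nat_lit 76) (nat_lit 93982528) (nat_lit 30) (nat_lit 5) (nat_lit 34) (nat_lit 5) (nat_lit 31) (nat_lit 5) (nat_lit 319) (nat_lit 274) (nat_lit 127)) (XT.nd (nat_lit 78) (nat_lit 152) (nat_lit 0) (XT.lf (nat_lit 0) (nat_lit 38533714670) (nat_lit 304) (nat_lit 22366131559) (nat_lit 76) (nat_lit 31406142463) (nat_lit 30) (nat_lit 5) (nat_lit 34) (nat_lit 5) (nat_lit 31) (nat_lit 5) (nat_lit 320) (nat_lit 274) (nat_lit 126)) (XT.lf (nat_lit 0) (nat_lit 27238852685) (nat_lit 152) (nat_lit 31383956864) (nat_lit 228) (nat_lit 37305689088) (nat_lit 28) (nat_lit 5) (nat_lit 30) (nat_lit 5)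 (nat_lit 31) (nat_lit 5) (nat_lit 321) (nat_lit 274) (nat_lit 125))))) (XT.nd (nat_lit 33930) (nat_lit 0) (nat_lit 9500) (XT.nd (nat_lit 78) (nat_lit 152) (nat_lit 0) (XT.lf (nat_lit 0) (nat_lit 79788026659) (nat_lit 152) (nat_lit 156375816) (nat_lit 228) (nat_lit 19780893106) (nat_lit 28) (nat_lit 5) (nat_lit 30) (nat_lit 5) (nat_lit 31) (nat_lit 5) (nat_lit 322) (nat_lit 274) (nat_lit 124)) (XT.nd (nat_lit 33774) (nat_lit 0) (nat_lit 9500) (XT.lf (nat_lit 0) (nat_lit 31551388078) (nat_lit 152) (nat_lit 71395559437) (nat_lit 228) (nat_lit 746541352) (nat_lit 26) (nat_lit 5) (nat_lit 28) (nat_lit 5) (nat_lit 29) (nat_lit 5) (nat_lit 323) (nat_lit 274) (nat_lit 123)) (XT.lf (nat_lit 0) (nat_lit 6035599227) (nat_lit 1140) (nat_lit 2676750123) (nat_lit 1140) (nat_lit 2676750123) (nat_lit 151) (nat_lit 3) (nat_lit 166) (nat_lit 3) (nat_lit 166) (nat_lit 5) (nat_lit 275) (nat_lit 275) (nat_lit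 170)))) (XT.nd (nat_lit 78) (nat_lit 0) (nat_lit 76) (XT.lf (nat_lit 76) (nat_lit 10624198310) (nat_lit 0) (nat_lit 2039504413) (nat_lit 1140) (nat_lit 10674768765) (nat_lit 152) (nat_lit 5) (nat_lit 151) (nat_lit 3) (nat_lit 166) (nat_lit 5) (nat_lit 276) (nat_lit 275) (nat_lit 169)) (XT.nd (nat_lit 78) (nat_lit 0) (nat_lit 76) (XT.lf (nat_lit 76) (nat_lit 3513070092) (nat_lit 0) (nat_lit 9985790434) (nat_lit 1140) (nat_lit 10421535774) (nat_lit 153) (nat_lit 5) (nat_lit 152) (nat_lit 5) (nat_lit 167) (nat_lit 5) (nat_lit 277) (nat_lit 275) (nat_lit 168)) (XT.lf (nat_lit 0) (nat_lit 14575788546) (nat_lit 1064) (nat_lit 3797701361) (nat_lit 1140) (nat_lit 6151955163) (nat_lit 153) (nat_lit 5) (nat_lit 167) (nat_lit 5) (nat_lit 168) (nat_lit 5) (nat_lit 278) (nat_lit 275) (nat_lit 167))))))))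
noncomputable def xc108 : XT := (XT.nd (nat_lit 1638) (nat_lit 4104) (nat_lit 0) (XT.nd (nat_lit 780) (nat_lit 3800) (nat_lit 0) (XT.nd (nat_lit 390) (nat_lit 1444) (nat_lit 0) (XT.nd (nat_lit 156) (nat_lit 0) (nat_lit 152) (XT.nd (nat_lit 78) (nat_lit 0) (nat_lit 76) (XT.lf (nat_lit 76) (nat_lit 13804289149) (nat_lit 0) (nat_lit 2124787676) (nat_lit 1140) (nat_lit 9225020784) (nat_lit 154) (nat_lit 5) (nat_lit 153) (nat_lit 5) (nat_lit 168) (nat_lit 5) (nat_lit 279) (nat_lit 275) (nat_lit 166)) (XT.lf (nat_lit 76) (nat_lit 6529290319) (nat_lit 0) (nat_lit 11056089058) (nat_lit 1140) (nat_lit 8221768378) (nat_lit 155) (nat_lit 5) (nat_lit 154) (nat_lit 5) (nat_lit 169) (nat_lit 5) (nat_lit 280) (nat_lit 275) (nat_lit 165))) (XT.nd (nat_lit 78) (nat_lit 0) (nat_lit 0) (XT.lf (nat_lit 0) (nat_lit 19510768716) (nat_lit 1064) (nat_lit 1036310037) (nat_lit 1140) (nat_lit 5940207768) (nat_lit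 155) (nat_lit 5) (nat_lit 169) (nat_lit 5) (nat_lit 170) (nat_lit 5) (nat_lit 281) (nat_lit 275) (nat_lit 164)) (XT.nd (nat_lit 78) (nat_lit 0) (nat_lit 76) (XT.lf (nat_lit 76) (nat_lit 18357228597) (nat_lit 0) (nat_lit 3453722594) (nat_lit 1140) (nat_lit 5382148431) (nat_lit 156) (nat_lit 5) (nat_lit 155) (nat_lit 5) (nat_lit 170) (nat_lit 5) (nat_lit 282) (nat_lit 275) (nat_lit 163)) (XT.lf (nat_lit 76) (nat_lit 10874137543) (nat_lit 0) (nat_lit 13597522995) (nat_lit 1140) (nat_lit 3455199314) (nat_lit 157) (nat_lit 5) (nat_lit 156) (nat_lit 5) (nat_lit 171) (nat_lit 5) (nat_lit 283) (nat_lit 275) (nat_lit 162))))) (XT.nd (nat_lit 156) (nat_lit 608) (nat_lit 0) (XT.nd (nat_lit 78) (nat_lit 1140) (nat_lit 0) (XT.lf (nat_lit 76) (nat_lit 3035886079) (nat_lit 0) (nat_lit 24417056612) (nat_lit 1140) (nat_lit 1238760240) (nat_lit 158) (nat_lit 5) (nat_lit 157) (nat_lit 5) (nat_lit 172) (nat_lit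 5) (nat_lit 284) (nat_lit 275) (nat_lit 161)) (XT.lf (nat_lit 0) (nat_lit 1373309660) (nat_lit 1140) (nat_lit 5160625023) (nat_lit 1216) (nat_lit 22951377477) (nat_lit 142) (nat_lit 5) (nat_lit 157) (nat_lit 5) (nat_lit 158) (nat_lit 5) (nat_lit 285) (nat_lit 275) (nat_lit 160))) (XT.nd (nat_lit 78) (nat_lit 684) (nat_lit 0) (XT.lf (nat_lit 0) (nat_lit 4362143596) (nat_lit 1140) (nat_lit 13767675270) (nat_lit 76) (nat_lit 12180280092) (nat_lit 143) (nat_lit 5) (nat_lit 158) (nat_lit 5) (nat_lit 144) (nat_lit 5) (nat_lit 286) (nat_lit 275) (nat_lit 159)) (XT.nd (nat_lit 78) (nat_lit 0) (nat_lit 0) (XT.lf (nat_lit 0) (nat_lit 7698940208) (nat_lit 760) (nat_lit 22822938820) (nat_lit 76) (nat_lit 648308016) (nat_lit 134) (nat_lit 5) (nat_lit 144) (nat_lit 5) (nat_lit 135) (nat_lit 5) (nat_lit 287) (nat_lit 275) (nat_lit 158)) (XT.lf (nat_lit 0) (nat_lit 11521274240) (nat_lit 760) (nat_lit 404533604)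 (nat_lit 76) (nat_lit 20137927504) (nat_lit 134) (nat_lit 5) (nat_lit 144) (nat_lit 5) (nat_lit 135) (nat_lit 5) (nat_lit 288) (nat_lit 275) (nat_lit 157)))))) (XT.nd (nat_lit 390) (nat_lit 1748) (nat_lit 0) (XT.nd (nat_lit 156) (nat_lit 988) (nat_lit 0) (XT.nd (nat_lit 78) (nat_lit 532) (nat_lit 0) (XT.lf (nat_lit 0) (nat_lit 15829714550) (nat_lit 608) (nat_lit 9482017462) (nat_lit 76) (nat_lit 7681395309) (nat_lit 127) (nat_lit 5) (nat_lit 135) (nat_lit 5) (nat_lit 128) (nat_lit 5) (nat_lit 289) (nat_lit 275) (nat_lit 156)) (XT.lf (nat_lit 0) (nat_lit 14824538520) (nat_lit 532) (nat_lit 5789331495) (nat_lit 608) (nat_lit 13347325269) (nat_lit 120) (nat_lit 5) (nat_lit 127) (nat_lit 5) (nat_lit 128) (nat_lit 5) (nat_lit 290) (nat_lit 275) (nat_lit 155))) (XT.nd (nat_lit 78) (nat_lit 532) (nat_lit 0) (XT.lf (nat_lit 0) (nat_lit 5528875406) (nat_lit 456) (nat_lit 20394954164) (nat_lit 532)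 (nat_lit 9045253646) (nat_lit 114) (nat_lit 5) (nat_lit 120) (nat_lit 5) (nat_lit 121) (nat_lit 5) (nat_lit 291) (nat_lit 275) (nat_lit 154)) (XT.nd (nat_lit 78) (nat_lit 532) (nat_lit 0) (XT.lf (nat_lit 0) (nat_lit 31748005347) (nat_lit 532) (nat_lit 4258363707) (nat_lit 76) (nat_lit 13548716) (nat_lit 114) (nat_lit 5) (nat_lit 121) (nat_lit 5) (nat_lit 115) (nat_lit 5) (nat_lit 292) (nat_lit 275) (nat_lit 153)) (XT.lf (nat_lit 0) (nat_lit 1145029786) (nat_lit 532) (nat_lit 14714285815) (nat_lit 76) (nat_lit 21251196482) (nat_lit 107) (nat_lit 5) (nat_lit 114) (nat_lit 5) (nat_lit 108) (nat_lit 5) (nat_lit 293) (nat_lit 275) (nat_lit 152))))) (XT.nd (nat_lit 234) (nat_lit 836) (nat_lit 0) (XT.nd (nat_lit 78) (nat_lit 456) (nat_lit 0) (XT.lf (nat_lit 0) (nat_lit 6955988873) (nat_lit 532) (nat_lit 25891866693) (nat_lit 76) (nat_lit 5400178204) (nat_lit 101) (nat_lit 5) (nat_lit 108) (nat_lit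 5) (nat_lit 102) (nat_lit 5) (nat_lit 294) (nat_lit 275) (nat_lit 151)) (XT.nd (nat_lit 78) (nat_lit 0) (nat_lit 0) (XT.lf (nat_lit 0) (nat_lit 1511524645) (nat_lit 456) (nat_lit 11867945088) (nat_lit 532) (nat_lit 26053314145) (nat_lit 95) (nat_lit 5) (nat_lit 101) (nat_lit 5) (nat_lit 102) (nat_lit 5) (nat_lit 295) (nat_lit 275) (nat_lit 150)) (XT.lf (nat_lit 0) (nat_lit 20485576512) (nat_lit 532) (nat_lit 9949069043) (nat_lit 76) (nat_lit 10231293379) (nat_lit 95) (nat_lit 5) (nat_lit 102) (nat_lit 5) (nat_lit 96) (nat_lit 5) (nat_lit 296) (nat_lit 275) (nat_lit 149)))) (XT.nd (nat_lit 78) (nat_lit 456) (nat_lit 0) (XT.lf (nat_lit 0) (nat_lit 19680136229) (nat_lit 380) (nat_lit 8570678463) (nat_lit 456) (nat_lit 13700832747) (nat_lit 90) (nat_lit 5) (nat_lit 95) (nat_lit 5) (nat_lit 96) (nat_lit 5) (nat_lit 297) (nat_lit 275) (nat_lit 148)) (XT.nd (nat_lit 78) (nat_lit 76) (nat_lit 0)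 (XT.lf (nat_lit 0) (nat_lit 7705370169) (nat_lit 380) (nat_lit 29009781647) (nat_lit 456) (nat_lit 6577174420) (nat_lit 85) (nat_lit 5) (nat_lit 90) (nat_lit 5) (nat_lit 91) (nat_lit 5) (nat_lit 298) (nat_lit 275) (nat_lit 147)) (XT.lf (nat_lit 0) (nat_lit 1198264642) (nat_lit 456) (nat_lit 5149870413) (nat_lit 76) (nat_lit 38342256471) (nat_lit 84) (nat_lit 5) (nat_lit 90) (nat_lit 5) (nat_lit 85) (nat_lit 5) (nat_lit 299) (nat_lit 275) (nat_lit 146))))))) (XT.nd (nat_lit 780) (nat_lit 1824) (nat_lit 0) (XT.nd (nat_lit 390) (nat_lit 912) (nat_lit 0) (XT.nd (nat_lit 156) (nat_lit 608) (nat_lit 0) (XT.nd (nat_lit 78) (nat_lit 380) (nat_lit 0) (XT.lf (nat_lit 0) (nat_lit 9656195509) (nat_lit 456) (nat_lit 19050282552) (nat_lit 76) (nat_lit 17437044813) (nat_lit 79) (nat_lit 5) (nat_lit 85) (nat_lit 5) (nat_lit 80) (nat_lit 5) (nat_lit 300) (nat_lit 275) (nat_lit 145)) (XT.lf (nat_lit 0) (nat_lit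 13583404052) (nat_lit 380) (nat_lit 5197362154) (nat_lit 456) (nat_lit 28881240652) (nat_lit 74) (nat_lit 5) (nat_lit 79) (nat_lit 5) (nat_lit 80) (nat_lit 5) (nat_lit 301) (nat_lit 275) (nat_lit 144))) (XT.nd (nat_lit 78) (nat_lit 608) (nat_lit 0) (XT.lf (nat_lit 0) (nat_lit 28742646264) (nat_lit 456) (nat_lit 1198358838) (nat_lit 76) (nat_lit 19303985486) (nat_lit 74) (nat_lit 5) (nat_lit 80) (nat_lit 5) (nat_lit 75) (nat_lit 5) (nat_lit 302) (nat_lit 275) (nat_lit 143)) (XT.nd (nat_lit 78) (nat_lit 304) (nat_lit 0) (XT.lf (nat_lit 0) (nat_lit 33930369273) (nat_lit 304) (nat_lit 5646783373) (nat_lit 380) (nat_lit 11318742476) (nat_lit 70) (nat_lit 5) (nat_lit 74) (nat_lit 5) (nat_lit 75) (nat_lit 5) (nat_lit 303) (nat_lit 275) (nat_lit 142)) (XT.lf (nat_lit 0) (nat_lit 18373953708) (nat_lit 304) (nat_lit 32955488058) (nat_lit 380) (nat_lit 1288628625) (nat_lit 66) (nat_lit 5) (nat_lit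 70) (nat_lit 5) (nat_lit 71) (nat_lit 5) (nat_lit 304) (nat_lit 275) (nat_lit 141))))) (XT.nd (nat_lit 156) (nat_lit 532) (nat_lit 0) (XT.nd (nat_lit 78) (nat_lit 0) (nat_lit 0) (XT.lf (nat_lit 0) (nat_lit 1286272537) (nat_lit 304) (nat_lit 8018233436) (nat_lit 380) (nat_lit 45111933282) (nat_lit 61) (nat_lit 5) (nat_lit 65) (nat_lit 5) (nat_lit 66) (nat_lit 5) (nat_lit 305) (nat_lit 275) (nat_lit 140)) (XT.lf (nat_lit 0) (nat_lit 20927789507) (nat_lit 380) (nat_lit 17181523867) (nat_lit 76) (nat_lit 18179222503) (nat_lit 61) (nat_lit 5) (nat_lit 66) (nat_lit 5) (nat_lit 62) (nat_lit 5) (nat_lit 306) (nat_lit 275) (nat_lit 139))) (XT.nd (nat_lit 78) (nat_lit 228) (nat_lit 0) (XT.lf (nat_lit 0) (nat_lit 20886392787) (nat_lit 304) (nat_lit 12523995279) (nat_lit 380) (nat_lit 24835510801) (nat_lit 57) (nat_lit 5) (nat_lit 61) (nat_lit 5) (nat_lit 62) (nat_lit 5) (nat_lit 307) (nat_lit 275)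 (nat_lit 138)) (XT.nd (nat_lit 78) (nat_lit 0) (nat_lit 0) (XT.lf (nat_lit 0) (nat_lit 792021783) (nat_lit 228) (nat_lit 46045739079) (nat_lit 304) (nat_lit 13453755590) (nat_lit 54) (nat_lit 5) (nat_lit 57) (nat_lit 5) (nat_lit 58) (nat_lit 5) (nat_lit 308) (nat_lit 275) (nat_lit 137)) (XT.lf (nat_lit 0) (nat_lit 41498286329) (nat_lit 228) (nat_lit 19944647514) (nat_lit 304) (nat_lit 981293624) (nat_lit 54) (nat_lit 5) (nat_lit 57) (nat_lit 5) (nat_lit 58) (nat_lit 5) (nat_lit 309) (nat_lit 275) (nat_lit 136)))))) (XT.nd (nat_lit 390) (nat_lit 912) (nat_lit 0) (XT.nd (nat_lit 156) (nat_lit 532) (nat_lit 0) (XT.nd (nat_lit 78) (nat_lit 0) (nat_lit 0) (XT.lf (nat_lit 0) (nat_lit 12140682530) (nat_lit 380) (nat_lit 44886646603) (nat_lit 76) (nat_lit 7624887512) (nat_lit 49) (nat_lit 5) (nat_lit 54) (nat_lit 5) (nat_lit 50) (nat_lit 5) (nat_lit 310) (nat_lit 275) (nat_lit 135)) (XT.lf (nat_lit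 0) (nat_lit 26314404723) (nat_lit 380) (nat_lit 4273964962) (nat_lit 76) (nat_lit 36390470710) (nat_lit 49) (nat_lit 5) (nat_lit 54) (nat_lit 5) (nat_lit 50) (nat_lit 5) (nat_lit 311) (nat_lit 275) (nat_lit 134))) (XT.nd (nat_lit 78) (nat_lit 304) (nat_lit 0) (XT.lf (nat_lit 0) (nat_lit 39128676846) (nat_lit 228) (nat_lit 2441312727) (nat_lit 304) (nat_lit 27840615074) (nat_lit 46) (nat_lit 5) (nat_lit 49) (nat_lit 5) (nat_lit 50) (nat_lit 5) (nat_lit 312) (nat_lit 275) (nat_lit 133)) (XT.nd (nat_lit 78) (nat_lit 76) (nat_lit 0) (XT.lf (nat_lit 0) (nat_lit 12812917235) (nat_lit 228) (nat_lit 45200799053) (nat_lit 304) (nat_lit 13937484338) (nat_lit 43) (nat_lit 5) (nat_lit 46) (nat_lit 5) (nat_lit 47) (nat_lit 5) (nat_lit 313) (nat_lit 275) (nat_lit 132)) (XT.lf (nat_lit 0) (nat_lit 984564100) (nat_lit 304) (nat_lit 15952358675) (nat_lit 76) (nat_lit 57671617455) (nat_lit 42) (nat_lit 5)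 (nat_lit 46) (nat_lit 5) (nat_lit 43) (nat_lit 5) (nat_lit 314) (nat_lit 275) (nat_lit 131))))) (XT.nd (nat_lit 234) (nat_lit 456) (nat_lit 0) (XT.nd (nat_lit 78) (nat_lit 228) (nat_lit 0) (XT.lf (nat_lit 0) (nat_lit 16777915742) (nat_lit 304) (nat_lit 47682324828) (nat_lit 76) (nat_lit 12921966785) (nat_lit 39) (nat_lit 5) (nat_lit 43) (nat_lit 5) (nat_lit 40) (nat_lit 5) (nat_lit 315) (nat_lit 275) (nat_lit 130)) (XT.nd (nat_lit 78) (nat_lit 228) (nat_lit 0) (XT.lf (nat_lit 0) (nat_lit 33695139355) (nat_lit 304) (nat_lit 2497986112) (nat_lit 76) (nat_lit 44091409920) (nat_lit 39) (nat_lit 5) (nat_lit 43) (nat_lit 5) (nat_lit 40) (nat_lit 5) (nat_lit 316) (nat_lit 275) (nat_lit 129)) (XT.lf (nat_lit 0) (nat_lit 45836311990) (nat_lit 228) (nat_lit 6060056516) (nat_lit 304) (nat_lit 31422470492) (nat_lit 36) (nat_lit 5) (nat_lit 39) (nat_lit 5) (nat_lit 40) (nat_lit 5) (nat_lit 317) (nat_lit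 275) (nat_lit 128)))) (XT.nd (nat_lit 78) (nat_lit 304) (nat_lit 0) (XT.lf (nat_lit 0) (nat_lit 10082394543) (nat_lit 152) (nat_lit 61291648197) (nat_lit 228) (nat_lit 15119826882) (nat_lit 34) (nat_lit 5) (nat_lit 36) (nat_lit 5) (nat_lit 37) (nat_lit 5) (nat_lit 318) (nat_lit 275) (nat_lit 127)) (XT.nd (nat_lit 78) (nat_lit 228) (nat_lit 0) (XT.lf (nat_lit 0) (nat_lit 2407459913) (nat_lit 228) (nat_lit 29095022545) (nat_lit 76) (nat_lit 58311141298) (nat_lit 33) (nat_lit 5) (nat_lit 36) (nat_lit 5) (nat_lit 34) (nat_lit 5) (nat_lit 319) (nat_lit 275) (nat_lit 126)) (XT.lf (nat_lit 0) (nat_lit 20700727654) (nat_lit 304) (nat_lit 72452333340) (nat_lit 76) (nat_lit 135746973) (nat_lit 30) (nat_lit 5) (nat_lit 34) (nat_lit 5) (nat_lit 31) (nat_lit 5) (nat_lit 320) (nat_lit 275) (nat_lit 125))))))))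
noncomputable def xc109 : XT := (XT.nd (nat_lit 35412) (nat_lit 0) (nat_lit 1140) (XT.nd (nat_lit 34554) (nat_lit 0) (nat_lit 6536) (XT.nd (nat_lit 34164) (nat_lit 0) (nat_lit 9424) (XT.nd (nat_lit 156) (nat_lit 0) (nat_lit 0) (XT.nd (nat_lit 78) (nat_lit 152) (nat_lit 0) (XT.lf (nat_lit 0) (nat_lit 40526930817) (nat_lit 304) (nat_lit 23380525323) (nat_lit 76) (nat_lit 33011749890) (nat_lit 30) (nat_lit 5) (nat_lit 34) (nat_lit 5) (nat_lit 31) (nat_lit 5) (nat_lit 321) (nat_lit 275) (nat_lit 124)) (XT.lf (nat_lit 0) (nat_lit 28701729493) (nat_lit 152) (nat_lit 32916553073) (nat_lit 228) (nat_lit 39104628947) (nat_lit 28) (nat_lit 5) (nat_lit 30) (nat_lit 5) (nat_lit 31) (nat_lit 5) (nat_lit 322) (nat_lit 275) (nat_lit 123))) (XT.nd (nat_lit 33852) (nat_lit 0) (nat_lit 9348) (XT.lf (nat_lit 0) (nat_lit 83873555776) (nat_lit 152) (nat_lit 129335908) (nat_lit 228) (nat_lit 20706752432) (nat_lit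 28) (nat_lit 5) (nat_lit 30) (nat_lit 5) (nat_lit 31) (nat_lit 5) (nat_lit 323) (nat_lit 275) (nat_lit 122)) (XT.nd (nat_lit 78) (nat_lit 0) (nat_lit 0) (XT.lf (nat_lit 0) (nat_lit 6523032660) (nat_lit 1140) (nat_lit 2714749337) (nat_lit 1140) (nat_lit 2714749337) (nat_lit 151) (nat_lit 3) (nat_lit 166) (nat_lit 3) (nat_lit 166) (nat_lit 5) (nat_lit 276) (nat_lit 276) (nat_lit 168)) (XT.lf (nat_lit 76) (nat_lit 11341590439) (nat_lit 0) (nat_lit 2310712778) (nat_lit 1140) (nat_lit 10841565560) (nat_lit 152) (nat_lit 5) (nat_lit 151) (nat_lit 3) (nat_lit 166) (nat_lit 5) (nat_lit 277) (nat_lit 276) (nat_lit 167))))) (XT.nd (nat_lit 156) (nat_lit 0) (nat_lit 76) (XT.nd (nat_lit 78) (nat_lit 0) (nat_lit 76) (XT.lf (nat_lit 76) (nat_lit 3882344963) (nat_lit 0) (nat_lit 10630261306) (nat_lit 1140) (nat_lit 10592823074) (nat_lit 153) (nat_lit 5) (nat_lit 152) (nat_lit 5) (nat_lit 167) (nat_lit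 5) (nat_lit 278) (nat_lit 276) (nat_lit 166)) (XT.lf (nat_lit 0) (nat_lit 15625918110) (nat_lit 1064) (nat_lit 3791392418) (nat_lit 1140) (nat_lit 6323983075) (nat_lit 153) (nat_lit 5) (nat_lit 167) (nat_lit 5) (nat_lit 168) (nat_lit 5) (nat_lit 279) (nat_lit 276) (nat_lit 165))) (XT.nd (nat_lit 78) (nat_lit 0) (nat_lit 76) (XT.lf (nat_lit 76) (nat_lit 14685073755) (nat_lit 0) (nat_lit 2348327014) (nat_lit 1140) (nat_lit 9368419412) (nat_lit 154) (nat_lit 5) (nat_lit 153) (nat_lit 5) (nat_lit 168) (nat_lit 5) (nat_lit 280) (nat_lit 276) (nat_lit 164)) (XT.nd (nat_lit 78) (nat_lit 0) (nat_lit 76) (XT.lf (nat_lit 76) (nat_lit 7051653734) (nat_lit 0) (nat_lit 11707013468) (nat_lit 1140) (nat_lit 8329306704) (nat_lit 155) (nat_lit 5) (nat_lit 154) (nat_lit 5) (nat_lit 169) (nat_lit 5) (nat_lit 281) (nat_lit 276) (nat_lit 163)) (XT.lf (nat_lit 0) (nat_lit 20765426835) (nat_lit 1064) (nat_lit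 891579515) (nat_lit 1140) (nat_lit 6145594077) (nat_lit 155) (nat_lit 5) (nat_lit 169) (nat_lit 5) (nat_lit 170) (nat_lit 5) (nat_lit 282) (nat_lit 276) (nat_lit 162)))))) (XT.nd (nat_lit 390) (nat_lit 2128) (nat_lit 0) (XT.nd (nat_lit 156) (nat_lit 988) (nat_lit 0) (XT.nd (nat_lit 78) (nat_lit 0) (nat_lit 76) (XT.lf (nat_lit 76) (nat_lit 19466002099) (nat_lit 0) (nat_lit 3703160085) (nat_lit 1140) (nat_lit 5374917916) (nat_lit 156) (nat_lit 5) (nat_lit 155) (nat_lit 5) (nat_lit 170) (nat_lit 5) (nat_lit 283) (nat_lit 276) (nat_lit 161)) (XT.lf (nat_lit 76) (nat_lit 11612426518) (nat_lit 0) (nat_lit 14338902395) (nat_lit 1140) (nat_lit 3363577465) (nat_lit 157) (nat_lit 5) (nat_lit 156) (nat_lit 5) (nat_lit 171) (nat_lit 5) (nat_lit 284) (nat_lit 276) (nat_lit 160))) (XT.nd (nat_lit 78) (nat_lit 1140) (nat_lit 0) (XT.lf (nat_lit 76) (nat_lit 3385317733) (nat_lit 0) (nat_lit 25685499657)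 (nat_lit 1140) (nat_lit 1047529189) (nat_lit 158) (nat_lit 5) (nat_lit 157) (nat_lit 5) (nat_lit 172) (nat_lit 5) (nat_lit 285) (nat_lit 276) (nat_lit 159)) (XT.nd (nat_lit 78) (nat_lit 0) (nat_lit 76) (XT.lf (nat_lit 0) (nat_lit 1678383546) (nat_lit 1140) (nat_lit 5225184623) (nat_lit 1216) (nat_lit 24048376735) (nat_lit 142) (nat_lit 5) (nat_lit 157) (nat_lit 5) (nat_lit 158) (nat_lit 5) (nat_lit 286) (nat_lit 276) (nat_lit 158)) (XT.lf (nat_lit 0) (nat_lit 4806832900) (nat_lit 1140) (nat_lit 14260434428) (nat_lit 76) (nat_lit 12751024247) (nat_lit 143) (nat_lit 5) (nat_lit 158) (nat_lit 5) (nat_lit 144) (nat_lit 5) (nat_lit 287) (nat_lit 276) (nat_lit 157))))) (XT.nd (nat_lit 234) (nat_lit 988) (nat_lit 0) (XT.nd (nat_lit 78) (nat_lit 532) (nat_lit 0) (XT.lf (nat_lit 0) (nat_lit 8301240950) (nat_lit 760) (nat_lit 23766784445) (nat_lit 76) (nat_lit 653660039) (nat_lit 134) (nat_lit 5)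 (nat_lit 144) (nat_lit 5) (nat_lit 135) (nat_lit 5) (nat_lit 288) (nat_lit 276) (nat_lit 156)) (XT.nd (nat_lit 78) (nat_lit 532) (nat_lit 0) (XT.lf (nat_lit 0) (nat_lit 12304341506) (nat_lit 760) (nat_lit 236854269) (nat_lit 76) (nat_lit 21119049233) (nat_lit 134) (nat_lit 5) (nat_lit 144) (nat_lit 5) (nat_lit 135) (nat_lit 5) (nat_lit 289) (nat_lit 276) (nat_lit 155)) (XT.lf (nat_lit 0) (nat_lit 16819943547) (nat_lit 608) (nat_lit 9767029360) (nat_lit 76) (nat_lit 8049403720) (nat_lit 127) (nat_lit 5) (nat_lit 135) (nat_lit 5) (nat_lit 128) (nat_lit 5) (nat_lit 290) (nat_lit 276) (nat_lit 154)))) (XT.nd (nat_lit 78) (nat_lit 456) (nat_lit 0) (XT.lf (nat_lit 0) (nat_lit 15749434224) (nat_lit 532) (nat_lit 6086174133) (nat_lit 608) (nat_lit 13817491763) (nat_lit 120) (nat_lit 5) (nat_lit 127) (nat_lit 5) (nat_lit 128) (nat_lit 5) (nat_lit 291) (nat_lit 276) (nat_lit 153)) (XT.nd (nat_lit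 78) (nat_lit 0) (nat_lit 0) (XT.lf (nat_lit 0) (nat_lit 5989770495) (nat_lit 456) (nat_lit 21413903553) (nat_lit 532) (nat_lit 9307950327) (nat_lit 114) (nat_lit 5) (nat_lit 120) (nat_lit 5) (nat_lit 121) (nat_lit 5) (nat_lit 292) (nat_lit 276) (nat_lit 152)) (XT.lf (nat_lit 0) (nat_lit 33510320541) (nat_lit 532) (nat_lit 4289989847) (nat_lit 76) (nat_lit 14971620) (nat_lit 114) (nat_lit 5) (nat_lit 121) (nat_lit 5) (nat_lit 115) (nat_lit 5) (nat_lit 293) (nat_lit 276) (nat_lit 151))))))) (XT.nd (nat_lit 780) (nat_lit 2356) (nat_lit 0) (XT.nd (nat_lit 390) (nat_lit 1216) (nat_lit 0) (XT.nd (nat_lit 156) (nat_lit 836) (nat_lit 0) (XT.nd (nat_lit 78) (nat_lit 456) (nat_lit 0) (XT.lf (nat_lit 0) (nat_lit 1372584545) (nat_lit 532) (nat_lit 15270160142) (nat_lit 76) (nat_lit 22317828652) (nat_lit 107) (nat_lit 5) (nat_lit 114) (nat_lit 5) (nat_lit 108) (nat_lit 5) (nat_lit 294) (nat_lit 276)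 (nat_lit 150)) (XT.lf (nat_lit 0) (nat_lit 7467765018) (nat_lit 532) (nat_lit 27006624558) (nat_lit 76) (nat_lit 5680788249) (nat_lit 101) (nat_lit 5) (nat_lit 108) (nat_lit 5) (nat_lit 102) (nat_lit 5) (nat_lit 295) (nat_lit 276) (nat_lit 149))) (XT.nd (nat_lit 78) (nat_lit 380) (nat_lit 0) (XT.lf (nat_lit 0) (nat_lit 1761781400) (nat_lit 456) (nat_lit 12444509242) (nat_lit 532) (nat_lit 27193074784) (nat_lit 95) (nat_lit 5) (nat_lit 101) (nat_lit 5) (nat_lit 102) (nat_lit 5) (nat_lit 296) (nat_lit 276) (nat_lit 148)) (XT.nd (nat_lit 78) (nat_lit 380) (nat_lit 0) (XT.lf (nat_lit 0) (nat_lit 21660340322) (nat_lit 532) (nat_lit 10275497393) (nat_lit 76) (nat_lit 10758576739) (nat_lit 95) (nat_lit 5) (nat_lit 102) (nat_lit 5) (nat_lit 96) (nat_lit 5) (nat_lit 297) (nat_lit 276) (nat_lit 147)) (XT.lf (nat_lit 0) (nat_lit 20830265743) (nat_lit 380) (nat_lit 8978005589) (nat_lit 456) (nat_lit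 14236318737) (nat_lit 90) (nat_lit 5) (nat_lit 95) (nat_lit 5) (nat_lit 96) (nat_lit 5) (nat_lit 298) (nat_lit 276) (nat_lit 146))))) (XT.nd (nat_lit 156) (nat_lit 760) (nat_lit 0) (XT.nd (nat_lit 78) (nat_lit 76) (nat_lit 0) (XT.lf (nat_lit 0) (nat_lit 8256308240) (nat_lit 380) (nat_lit 30434402977) (nat_lit 456) (nat_lit 6761758929) (nat_lit 85) (nat_lit 5) (nat_lit 90) (nat_lit 5) (nat_lit 91) (nat_lit 5) (nat_lit 299) (nat_lit 276) (nat_lit 145)) (XT.lf (nat_lit 0) (nat_lit 1392900639) (nat_lit 456) (nat_lit 5246644778) (nat_lit 76) (nat_lit 40281066631) (nat_lit 84) (nat_lit 5) (nat_lit 90) (nat_lit 5) (nat_lit 85) (nat_lit 5) (nat_lit 300) (nat_lit 276) (nat_lit 144))) (XT.nd (nat_lit 78) (nat_lit 380) (nat_lit 0) (XT.lf (nat_lit 0) (nat_lit 10269066176) (nat_lit 456) (nat_lit 19842798001) (nat_lit 76) (nat_lit 18334687898) (nat_lit 79) (nat_lit 5) (nat_lit 85) (nat_lit 5) (nat_lit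 80) (nat_lit 5) (nat_lit 301) (nat_lit 276) (nat_lit 143)) (XT.nd (nat_lit 78) (nat_lit 0) (nat_lit 0) (XT.lf (nat_lit 0) (nat_lit 14417986604) (nat_lit 380) (nat_lit 5427179348) (nat_lit 456) (nat_lit 30195946963) (nat_lit 74) (nat_lit 5) (nat_lit 79) (nat_lit 5) (nat_lit 80) (nat_lit 5) (nat_lit 302) (nat_lit 276) (nat_lit 142)) (XT.lf (nat_lit 0) (nat_lit 30299445531) (nat_lit 456) (nat_lit 1106736049) (nat_lit 76) (nat_lit 20297246200) (nat_lit 74) (nat_lit 5) (nat_lit 80) (nat_lit 5) (nat_lit 75) (nat_lit 5) (nat_lit 303) (nat_lit 276) (nat_lit 141)))))) (XT.nd (nat_lit 390) (nat_lit 1064) (nat_lit 0) (XT.nd (nat_lit 156) (nat_lit 684) (nat_lit 0) (XT.nd (nat_lit 78) (nat_lit 304) (nat_lit 0) (XT.lf (nat_lit 0) (nat_lit 35774084583) (nat_lit 304) (nat_lit 5897309170) (nat_lit 380) (nat_lit 11765622881) (nat_lit 70) (nat_lit 5) (nat_lit 74) (nat_lit 5) (nat_lit 75) (nat_lit 5) (nat_lit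 304) (nat_lit 276) (nat_lit 140)) (XT.lf (nat_lit 0) (nat_lit 19438899780) (nat_lit 304) (nat_lit 34568600174) (nat_lit 380) (nat_lit 1237924717) (nat_lit 66) (nat_lit 5) (nat_lit 70) (nat_lit 5) (nat_lit 71) (nat_lit 5) (nat_lit 305) (nat_lit 276) (nat_lit 139))) (XT.nd (nat_lit 78) (nat_lit 304) (nat_lit 0) (XT.lf (nat_lit 0) (nat_lit 1495014845) (nat_lit 304) (nat_lit 8383617749) (nat_lit 380) (nat_lit 47255175124) (nat_lit 61) (nat_lit 5) (nat_lit 65) (nat_lit 5) (nat_lit 66) (nat_lit 5) (nat_lit 306) (nat_lit 276) (nat_lit 138)) (XT.nd (nat_lit 78) (nat_lit 304) (nat_lit 0) (XT.lf (nat_lit 0) (nat_lit 22078219775) (nat_lit 380) (nat_lit 17900085136) (nat_lit 76) (nat_lit 19121358955) (nat_lit 61) (nat_lit 5) (nat_lit 66) (nat_lit 5) (nat_lit 62) (nat_lit 5) (nat_lit 307) (nat_lit 276) (nat_lit 137)) (XT.lf (nat_lit 0) (nat_lit 22067199519) (nat_lit 304) (nat_lit 13114106418) (nat_lit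 380) (nat_lit 25973706795) (nat_lit 57) (nat_lit 5) (nat_lit 61) (nat_lit 5) (nat_lit 62) (nat_lit 5) (nat_lit 308) (nat_lit 276) (nat_lit 136))))) (XT.nd (nat_lit 234) (nat_lit 456) (nat_lit 0) (XT.nd (nat_lit 78) (nat_lit 380) (nat_lit 0) (XT.lf (nat_lit 0) (nat_lit 966950522) (nat_lit 228) (nat_lit 48309947209) (nat_lit 304) (nat_lit 14026116006) (nat_lit 54) (nat_lit 5) (nat_lit 57) (nat_lit 5) (nat_lit 58) (nat_lit 5) (nat_lit 309) (nat_lit 276) (nat_lit 135)) (XT.nd (nat_lit 78) (nat_lit 380) (nat_lit 0) (XT.lf (nat_lit 0) (nat_lit 43702084121) (nat_lit 228) (nat_lit 20905614344) (nat_lit 304) (nat_lit 934808436) (nat_lit 54) (nat_lit 5) (nat_lit 57) (nat_lit 5) (nat_lit 58) (nat_lit 5) (nat_lit 310) (nat_lit 276) (nat_lit 134)) (XT.lf (nat_lit 0) (nat_lit 12838515759) (nat_lit 380) (nat_lit 47001331672) (nat_lit 76) (nat_lit 8042114232) (nat_lit 49) (nat_lit 5) (nat_lit 54) (nat_lit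 5) (nat_lit 50) (nat_lit 5) (nat_lit 311) (nat_lit 276) (nat_lit 133)))) (XT.nd (nat_lit 78) (nat_lit 456) (nat_lit 0) (XT.lf (nat_lit 0) (nat_lit 27716600295) (nat_lit 380) (nat_lit 4364189628) (nat_lit 76) (nat_lit 38244263145) (nat_lit 49) (nat_lit 5) (nat_lit 54) (nat_lit 5) (nat_lit 50) (nat_lit 5) (nat_lit 312) (nat_lit 276) (nat_lit 132)) (XT.nd (nat_lit 78) (nat_lit 228) (nat_lit 0) (XT.lf (nat_lit 0) (nat_lit 41205044925) (nat_lit 228) (nat_lit 2526954471) (nat_lit 304) (nat_lit 29146501520) (nat_lit 46) (nat_lit 5) (nat_lit 49) (nat_lit 5) (nat_lit 50) (nat_lit 5) (nat_lit 313) (nat_lit 276) (nat_lit 131)) (XT.lf (nat_lit 0) (nat_lit 13572277813) (nat_lit 228) (nat_lit 47423132565) (nat_lit 304) (nat_lit 14550797503) (nat_lit 43) (nat_lit 5) (nat_lit 46) (nat_lit 5) (nat_lit 47) (nat_lit 5) (nat_lit 314) (nat_lit 276) (nat_lit 130))))))))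
noncomputable def xc110 : XT := (XT.nd (nat_lit 35568) (nat_lit 0) (nat_lit 1824) (XT.nd (nat_lit 34710) (nat_lit 0) (nat_lit 7904) (XT.nd (nat_lit 390) (nat_lit 304) (nat_lit 0) (XT.nd (nat_lit 156) (nat_lit 380) (nat_lit 0) (XT.nd (nat_lit 78) (nat_lit 228) (nat_lit 0) (XT.lf (nat_lit 0) (nat_lit 1111821328) (nat_lit 304) (nat_lit 16635248749) (nat_lit 76) (nat_lit 60589442999) (nat_lit 42) (nat_lit 5) (nat_lit 46) (nat_lit 5) (nat_lit 43) (nat_lit 5) (nat_lit 315) (nat_lit 276) (nat_lit 129)) (XT.lf (nat_lit 0) (nat_lit 17692542685) (nat_lit 304) (nat_lit 49952979002) (nat_lit 76) (nat_lit 13603416200) (nat_lit 39) (nat_lit 5) (nat_lit 43) (nat_lit 5) (nat_lit 40) (nat_lit 5) (nat_lit 316) (nat_lit 276) (nat_lit 128))) (XT.nd (nat_lit 78) (nat_lit 380) (nat_lit 0) (XT.lf (nat_lit 0) (nat_lit 35452021233) (nat_lit 304) (nat_lit 2514826306) (nat_lit 76) (nat_lit 46329648107) (nat_lit 39)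 (nat_lit 5) (nat_lit 43) (nat_lit 5) (nat_lit 40) (nat_lit 5) (nat_lit 317) (nat_lit 276) (nat_lit 127)) (XT.nd (nat_lit 78) (nat_lit 152) (nat_lit 0) (XT.lf (nat_lit 0) (nat_lit 48233089208) (nat_lit 228) (nat_lit 6327797070) (nat_lit 304) (nat_lit 32921705822) (nat_lit 36) (nat_lit 5) (nat_lit 39) (nat_lit 5) (nat_lit 40) (nat_lit 5) (nat_lit 318) (nat_lit 276) (nat_lit 126)) (XT.lf (nat_lit 0) (nat_lit 10690264044) (nat_lit 152) (nat_lit 64320181291) (nat_lit 228) (nat_lit 15805993547) (nat_lit 34) (nat_lit 5) (nat_lit 36) (nat_lit 5) (nat_lit 37) (nat_lit 5) (nat_lit 319) (nat_lit 276) (nat_lit 125))))) (XT.nd (nat_lit 156) (nat_lit 0) (nat_lit 0) (XT.nd (nat_lit 78) (nat_lit 228) (nat_lit 0) (XT.lf (nat_lit 0) (nat_lit 2593034955) (nat_lit 228) (nat_lit 30449580531) (nat_lit 76) (nat_lit 61259647213) (nat_lit 33) (nat_lit 5) (nat_lit 36) (nat_lit 5) (nat_lit 34) (nat_lit 5) (nat_lit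 320) (nat_lit 276) (nat_lit 124)) (XT.lf (nat_lit 0) (nat_lit 21799126335) (nat_lit 304) (nat_lit 75975985423) (nat_lit 76) (nat_lit 176153659) (nat_lit 30) (nat_lit 5) (nat_lit 34) (nat_lit 5) (nat_lit 31) (nat_lit 5) (nat_lit 321) (nat_lit 276) (nat_lit 123))) (XT.nd (nat_lit 34008) (nat_lit 0) (nat_lit 9196) (XT.lf (nat_lit 0) (nat_lit 42613622404) (nat_lit 304) (nat_lit 24455299605) (nat_lit 76) (nat_lit 34694355801) (nat_lit 30) (nat_lit 5) (nat_lit 34) (nat_lit 5) (nat_lit 31) (nat_lit 5) (nat_lit 322) (nat_lit 276) (nat_lit 122)) (XT.nd (nat_lit 78) (nat_lit 0) (nat_lit 0) (XT.lf (nat_lit 0) (nat_lit 7017577464) (nat_lit 1140) (nat_lit 2763558648) (nat_lit 1140) (nat_lit 2763558648) (nat_lit 151) (nat_lit 3) (nat_lit 166) (nat_lit 3) (nat_lit 166) (nat_lit 5) (nat_lit 277) (nat_lit 277) (nat_lit 166)) (XT.lf (nat_lit 76) (nat_lit 12077542717) (nat_lit 0) (nat_lit 2579747867) (nat_lit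 1140) (nat_lit 11050816950) (nat_lit 152) (nat_lit 5) (nat_lit 151) (nat_lit 3) (nat_lit 166) (nat_lit 5) (nat_lit 278) (nat_lit 277) (nat_lit 165)))))) (XT.nd (nat_lit 390) (nat_lit 1368) (nat_lit 0) (XT.nd (nat_lit 156) (nat_lit 0) (nat_lit 76) (XT.nd (nat_lit 78) (nat_lit 0) (nat_lit 76) (XT.lf (nat_lit 76) (nat_lit 4252082499) (nat_lit 0) (nat_lit 11293458135) (nat_lit 1140) (nat_lit 10805194850) (nat_lit 153) (nat_lit 5) (nat_lit 152) (nat_lit 5) (nat_lit 167) (nat_lit 5) (nat_lit 279) (nat_lit 277) (nat_lit 164)) (XT.lf (nat_lit 0) (nat_lit 16698678993) (nat_lit 1064) (nat_lit 3803008288) (nat_lit 1140) (nat_lit 6517216381) (nat_lit 153) (nat_lit 5) (nat_lit 167) (nat_lit 5) (nat_lit 168) (nat_lit 5) (nat_lit 280) (nat_lit 277) (nat_lit 163))) (XT.nd (nat_lit 78) (nat_lit 0) (nat_lit 76) (XT.lf (nat_lit 76) (nat_lit 15592180186) (nat_lit 0) (nat_lit 2572137881) (nat_lit 1140) (nat_lit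 9548538875) (nat_lit 154) (nat_lit 5) (nat_lit 153) (nat_lit 5) (nat_lit 168) (nat_lit 5) (nat_lit 281) (nat_lit 277) (nat_lit 162)) (XT.nd (nat_lit 78) (nat_lit 0) (nat_lit 76) (XT.lf (nat_lit 76) (nat_lit 7581922497) (nat_lit 0) (nat_lit 12381361835) (nat_lit 1140) (nat_lit 8470443156) (nat_lit 155) (nat_lit 5) (nat_lit 154) (nat_lit 5) (nat_lit 169) (nat_lit 5) (nat_lit 282) (nat_lit 277) (nat_lit 161)) (XT.lf (nat_lit 0) (nat_lit 22056867957) (nat_lit 1064) (nat_lit 757885453) (nat_lit 1140) (nat_lit 6369768039) (nat_lit 155) (nat_lit 5) (nat_lit 169) (nat_lit 5) (nat_lit 170) (nat_lit 5) (nat_lit 283) (nat_lit 277) (nat_lit 160))))) (XT.nd (nat_lit 234) (nat_lit 1596) (nat_lit 0) (XT.nd (nat_lit 78) (nat_lit 0) (nat_lit 76) (XT.lf (nat_lit 76) (nat_lit 20612465081) (nat_lit 0) (nat_lit 3957933837) (nat_lit 1140) (nat_lit 5393017157) (nat_lit 156) (nat_lit 5) (nat_lit 155) (nat_lit 5)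 (nat_lit 170) (nat_lit 5) (nat_lit 284) (nat_lit 277) (nat_lit 159)) (XT.nd (nat_lit 78) (nat_lit 0) (nat_lit 76) (XT.lf (nat_lit 76) (nat_lit 12369539543) (nat_lit 0) (nat_lit 15111632777) (nat_lit 1140) (nat_lit 3291954239) (nat_lit 157) (nat_lit 5) (nat_lit 156) (nat_lit 5) (nat_lit 171) (nat_lit 5) (nat_lit 285) (nat_lit 277) (nat_lit 158)) (XT.lf (nat_lit 76) (nat_lit 3733846523) (nat_lit 0) (nat_lit 27012940368) (nat_lit 1140) (nat_lit 870273844) (nat_lit 158) (nat_lit 5) (nat_lit 157) (nat_lit 5) (nat_lit 172) (nat_lit 5) (nat_lit 286) (nat_lit 277) (nat_lit 157)))) (XT.nd (nat_lit 78) (nat_lit 608) (nat_lit 0) (XT.lf (nat_lit 0) (nat_lit 1976732115) (nat_lit 1140) (nat_lit 5310959365) (nat_lit 1216) (nat_lit 25204927438) (nat_lit 142) (nat_lit 5) (nat_lit 157) (nat_lit 5) (nat_lit 158) (nat_lit 5) (nat_lit 287) (nat_lit 277) (nat_lit 156)) (XT.nd (nat_lit 78) (nat_lit 684) (nat_lit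 0) (XT.lf (nat_lit 0) (nat_lit 5252691210) (nat_lit 1140) (nat_lit 14796018864) (nat_lit 76) (nat_lit 13353863578) (nat_lit 143) (nat_lit 5) (nat_lit 158) (nat_lit 5) (nat_lit 144) (nat_lit 5) (nat_lit 288) (nat_lit 277) (nat_lit 155)) (XT.lf (nat_lit 0) (nat_lit 8913449240) (nat_lit 760) (nat_lit 24776165558) (nat_lit 76) (nat_lit 661795758) (nat_lit 134) (nat_lit 5) (nat_lit 144) (nat_lit 5) (nat_lit 135) (nat_lit 5) (nat_lit 289) (nat_lit 277) (nat_lit 154))))))) (XT.nd (nat_lit 780) (nat_lit 2736) (nat_lit 0) (XT.nd (nat_lit 390) (nat_lit 1824) (nat_lit 0) (XT.nd (nat_lit 156) (nat_lit 988) (nat_lit 0) (XT.nd (nat_lit 78) (nat_lit 532) (nat_lit 0) (XT.lf (nat_lit 0) (nat_lit 13107316907) (nat_lit 760) (nat_lit 78260687) (nat_lit 76) (nat_lit 22151623331) (nat_lit 134) (nat_lit 5) (nat_lit 144) (nat_lit 5) (nat_lit 135) (nat_lit 5) (nat_lit 290) (nat_lit 277) (nat_lit 153)) (XT.lf (nat_lit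 0) (nat_lit 17841206728) (nat_lit 608) (nat_lit 10083871553) (nat_lit 76) (nat_lit 8437305785) (nat_lit 127) (nat_lit 5) (nat_lit 135) (nat_lit 5) (nat_lit 128) (nat_lit 5) (nat_lit 291) (nat_lit 277) (nat_lit 152))) (XT.nd (nat_lit 78) (nat_lit 456) (nat_lit 0) (XT.lf (nat_lit 0) (nat_lit 16703498931) (nat_lit 532) (nat_lit 6397173146) (nat_lit 608) (nat_lit 14329500348) (nat_lit 120) (nat_lit 5) (nat_lit 127) (nat_lit 5) (nat_lit 128) (nat_lit 5) (nat_lit 292) (nat_lit 277) (nat_lit 151)) (XT.nd (nat_lit 78) (nat_lit 0) (nat_lit 0) (XT.lf (nat_lit 0) (nat_lit 6456561803) (nat_lit 456) (nat_lit 22483874631) (nat_lit 532) (nat_lit 9601405891) (nat_lit 114) (nat_lit 5) (nat_lit 120) (nat_lit 5) (nat_lit 121) (nat_lit 5) (nat_lit 293) (nat_lit 277) (nat_lit 150)) (XT.lf (nat_lit 0) (nat_lit 35344489563) (nat_lit 532) (nat_lit 4340052110) (nat_lit 76) (nat_lit 16396363) (nat_lit 114) (nat_lit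 5) (nat_lit 121) (nat_lit 5) (nat_lit 115) (nat_lit 5) (nat_lit 294) (nat_lit 277) (nat_lit 149))))) (XT.nd (nat_lit 156) (nat_lit 836) (nat_lit 0) (XT.nd (nat_lit 78) (nat_lit 456) (nat_lit 0) (XT.lf (nat_lit 0) (nat_lit 1595683859) (nat_lit 532) (nat_lit 15870548001) (nat_lit 76) (nat_lit 23437413822) (nat_lit 107) (nat_lit 5) (nat_lit 114) (nat_lit 5) (nat_lit 108) (nat_lit 5) (nat_lit 295) (nat_lit 277) (nat_lit 148)) (XT.lf (nat_lit 0) (nat_lit 7989884971) (nat_lit 532) (nat_lit 28193839713) (nat_lit 76) (nat_lit 5974443203) (nat_lit 101) (nat_lit 5) (nat_lit 108) (nat_lit 5) (nat_lit 102) (nat_lit 5) (nat_lit 296) (nat_lit 277) (nat_lit 147))) (XT.nd (nat_lit 78) (nat_lit 380) (nat_lit 0) (XT.lf (nat_lit 0) (nat_lit 2008310853) (nat_lit 456) (nat_lit 13051466587) (nat_lit 532) (nat_lit 28404968825) (nat_lit 95) (nat_lit 5) (nat_lit 101) (nat_lit 5) (nat_lit 102) (nat_lit 5) (nat_lit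 297) (nat_lit 277) (nat_lit 146)) (XT.nd (nat_lit 78) (nat_lit 380) (nat_lit 0) (XT.lf (nat_lit 0) (nat_lit 22879851655) (nat_lit 532) (nat_lit 10634147453) (nat_lit 76) (nat_lit 11310762892) (nat_lit 95) (nat_lit 5) (nat_lit 102) (nat_lit 5) (nat_lit 96) (nat_lit 5) (nat_lit 298) (nat_lit 277) (nat_lit 145)) (XT.lf (nat_lit 0) (nat_lit 22022457218) (nat_lit 380) (nat_lit 9407670679) (nat_lit 456) (nat_lit 14812483294) (nat_lit 90) (nat_lit 5) (nat_lit 95) (nat_lit 5) (nat_lit 96) (nat_lit 5) (nat_lit 299) (nat_lit 277) (nat_lit 144)))))) (XT.nd (nat_lit 390) (nat_lit 1520) (nat_lit 0) (XT.nd (nat_lit 156) (nat_lit 760) (nat_lit 0) (XT.nd (nat_lit 78) (nat_lit 76) (nat_lit 0) (XT.lf (nat_lit 0) (nat_lit 8819390830) (nat_lit 380) (nat_lit 31932660311) (nat_lit 456) (nat_lit 6968985912) (nat_lit 85) (nat_lit 5) (nat_lit 90) (nat_lit 5) (nat_lit 91) (nat_lit 5) (nat_lit 300) (nat_lit 277) (nat_lit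 143)) (XT.lf (nat_lit 0) (nat_lit 1584743190) (nat_lit 456) (nat_lit 5363200005) (nat_lit 76) (nat_lit 42314800086) (nat_lit 84) (nat_lit 5) (nat_lit 90) (nat_lit 5) (nat_lit 85) (nat_lit 5) (nat_lit 301) (nat_lit 277) (nat_lit 142))) (XT.nd (nat_lit 78) (nat_lit 380) (nat_lit 0) (XT.lf (nat_lit 0) (nat_lit 10900488548) (nat_lit 456) (nat_lit 20689814383) (nat_lit 76) (nat_lit 19274815349) (nat_lit 79) (nat_lit 5) (nat_lit 85) (nat_lit 5) (nat_lit 80) (nat_lit 5) (nat_lit 302) (nat_lit 277) (nat_lit 141)) (XT.nd (nat_lit 78) (nat_lit 0) (nat_lit 0) (XT.lf (nat_lit 0) (nat_lit 15279849515) (nat_lit 380) (nat_lit 5671281250) (nat_lit 456) (nat_lit 31588414859) (nat_lit 74) (nat_lit 5) (nat_lit 79) (nat_lit 5) (nat_lit 80) (nat_lit 5) (nat_lit 303) (nat_lit 277) (nat_lit 140)) (XT.lf (nat_lit 0) (nat_lit 31922959264) (nat_lit 456) (nat_lit 1024620941) (nat_lit 76) (nat_lit 21337561064) (nat_lit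 74) (nat_lit 5) (nat_lit 80) (nat_lit 5) (nat_lit 75) (nat_lit 5) (nat_lit 304) (nat_lit 277) (nat_lit 139))))) (XT.nd (nat_lit 234) (nat_lit 532) (nat_lit 0) (XT.nd (nat_lit 78) (nat_lit 684) (nat_lit 0) (XT.lf (nat_lit 0) (nat_lit 37696300691) (nat_lit 304) (nat_lit 6163318962) (nat_lit 380) (nat_lit 12245916072) (nat_lit 70) (nat_lit 5) (nat_lit 74) (nat_lit 5) (nat_lit 75) (nat_lit 5) (nat_lit 305) (nat_lit 277) (nat_lit 138)) (XT.nd (nat_lit 78) (nat_lit 380) (nat_lit 0) (XT.lf (nat_lit 0) (nat_lit 20543496366) (nat_lit 304) (nat_lit 36265590467) (nat_lit 380) (nat_lit 1195389805) (nat_lit 66) (nat_lit 5) (nat_lit 70) (nat_lit 5) (nat_lit 71) (nat_lit 5) (nat_lit 306) (nat_lit 277) (nat_lit 137)) (XT.lf (nat_lit 0) (nat_lit 1700766659) (nat_lit 304) (nat_lit 8770574274) (nat_lit 380) (nat_lit 49516024744) (nat_lit 61) (nat_lit 5) (nat_lit 65) (nat_lit 5) (nat_lit 66) (nat_lit 5) (nat_lit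 307) (nat_lit 277) (nat_lit 136)))) (XT.nd (nat_lit 78) (nat_lit 532) (nat_lit 0) (XT.lf (nat_lit 0) (nat_lit 23276498831) (nat_lit 380) (nat_lit 18667638214) (nat_lit 76) (nat_lit 20107517901) (nat_lit 61) (nat_lit 5) (nat_lit 66) (nat_lit 5) (nat_lit 62) (nat_lit 5) (nat_lit 308) (nat_lit 277) (nat_lit 135)) (XT.nd (nat_lit 78) (nat_lit 228) (nat_lit 0) (XT.lf (nat_lit 0) (nat_lit 23294357311) (nat_lit 304) (nat_lit 13737078291) (nat_lit 380) (nat_lit 27178442432) (nat_lit 57) (nat_lit 5) (nat_lit 61) (nat_lit 5) (nat_lit 62) (nat_lit 5) (nat_lit 309) (nat_lit 277) (nat_lit 134)) (XT.lf (nat_lit 0) (nat_lit 1138044216) (nat_lit 228) (nat_lit 50690905954) (nat_lit 304) (nat_lit 14636421930) (nat_lit 54) (nat_lit 5) (nat_lit 57) (nat_lit 5) (nat_lit 58) (nat_lit 5) (nat_lit 310) (nat_lit 277) (nat_lit 133))))))))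
noncomputable def xc111 : XT := (XT.nd (nat_lit 35646) (nat_lit 0) (nat_lit 2356) (XT.nd (nat_lit 780) (nat_lit 304) (nat_lit 0) (XT.nd (nat_lit 390) (nat_lit 684) (nat_lit 0) (XT.nd (nat_lit 156) (nat_lit 456) (nat_lit 0) (XT.nd (nat_lit 78) (nat_lit 380) (nat_lit 0) (XT.lf (nat_lit 0) (nat_lit 46004089440) (nat_lit 228) (nat_lit 21918001141) (nat_lit 304) (nat_lit 894882309) (nat_lit 54) (nat_lit 5) (nat_lit 57) (nat_lit 5) (nat_lit 58) (nat_lit 5) (nat_lit 311) (nat_lit 277) (nat_lit 132)) (XT.lf (nat_lit 0) (nat_lit 13562799010) (nat_lit 380) (nat_lit 49233804367) (nat_lit 76) (nat_lit 8476856991) (nat_lit 49) (nat_lit 5) (nat_lit 54) (nat_lit 5) (nat_lit 50) (nat_lit 5) (nat_lit 312) (nat_lit 277) (nat_lit 131))) (XT.nd (nat_lit 78) (nat_lit 456) (nat_lit 0) (XT.lf (nat_lit 0) (nat_lit 29180865988) (nat_lit 380) (nat_lit 4470404930) (nat_lit 76) (nat_lit 40187559204) (nat_lit 49) (nat_lit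 5) (nat_lit 54) (nat_lit 5) (nat_lit 50) (nat_lit 5) (nat_lit 313) (nat_lit 277) (nat_lit 130)) (XT.nd (nat_lit 78) (nat_lit 228) (nat_lit 0) (XT.lf (nat_lit 0) (nat_lit 43374081059) (nat_lit 228) (nat_lit 2620264649) (nat_lit 304) (nat_lit 30525691169) (nat_lit 46) (nat_lit 5) (nat_lit 49) (nat_lit 5) (nat_lit 50) (nat_lit 5) (nat_lit 314) (nat_lit 277) (nat_lit 129)) (XT.lf (nat_lit 0) (nat_lit 14358569451) (nat_lit 228) (nat_lit 49760088339) (nat_lit 304) (nat_lit 15202545042) (nat_lit 43) (nat_lit 5) (nat_lit 46) (nat_lit 5) (nat_lit 47) (nat_lit 5) (nat_lit 315) (nat_lit 277) (nat_lit 128))))) (XT.nd (nat_lit 156) (nat_lit 380) (nat_lit 0) (XT.nd (nat_lit 78) (nat_lit 228) (nat_lit 0) (XT.lf (nat_lit 0) (nat_lit 1238187019) (nat_lit 304) (nat_lit 17362949635) (nat_lit 76) (nat_lit 63649976075) (nat_lit 42) (nat_lit 5) (nat_lit 46) (nat_lit 5) (nat_lit 43) (nat_lit 5) (nat_lit 316) (nat_lit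 277) (nat_lit 127)) (XT.lf (nat_lit 0) (nat_lit 18645860211) (nat_lit 304) (nat_lit 52347714513) (nat_lit 76) (nat_lit 14315651478) (nat_lit 39) (nat_lit 5) (nat_lit 43) (nat_lit 5) (nat_lit 40) (nat_lit 5) (nat_lit 317) (nat_lit 277) (nat_lit 126))) (XT.nd (nat_lit 78) (nat_lit 380) (nat_lit 0) (XT.lf (nat_lit 0) (nat_lit 37290041715) (nat_lit 304) (nat_lit 2542554822) (nat_lit 76) (nat_lit 48676668101) (nat_lit 39) (nat_lit 5) (nat_lit 43) (nat_lit 5) (nat_lit 40) (nat_lit 5) (nat_lit 318) (nat_lit 277) (nat_lit 125)) (XT.nd (nat_lit 78) (nat_lit 152) (nat_lit 0) (XT.lf (nat_lit 0) (nat_lit 50739946950) (nat_lit 228) (nat_lit 6612203003) (nat_lit 304) (nat_lit 34502586401) (nat_lit 36) (nat_lit 5) (nat_lit 39) (nat_lit 5) (nat_lit 40) (nat_lit 5) (nat_lit 319) (nat_lit 277) (nat_lit 124)) (XT.lf (nat_lit 0) (nat_lit 11318881350) (nat_lit 152) (nat_lit 67503492563) (nat_lit 228) (nat_lit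 16532960182) (nat_lit 34) (nat_lit 5) (nat_lit 36) (nat_lit 5) (nat_lit 37) (nat_lit 5) (nat_lit 320) (nat_lit 277) (nat_lit 123)))))) (XT.nd (nat_lit 34398) (nat_lit 0) (nat_lit 9348) (XT.nd (nat_lit 34164) (nat_lit 0) (nat_lit 9196) (XT.nd (nat_lit 78) (nat_lit 228) (nat_lit 0) (XT.lf (nat_lit 0) (nat_lit 2781826881) (nat_lit 228) (nat_lit 31881181426) (nat_lit 76) (nat_lit 64352515151) (nat_lit 33) (nat_lit 5) (nat_lit 36) (nat_lit 5) (nat_lit 34) (nat_lit 5) (nat_lit 321) (nat_lit 277) (nat_lit 122)) (XT.lf (nat_lit 0) (nat_lit 22946554125) (nat_lit 304) (nat_lit 79685020899) (nat_lit 76) (nat_lit 215455072) (nat_lit 30) (nat_lit 5) (nat_lit 34) (nat_lit 5) (nat_lit 31) (nat_lit 5) (nat_lit 322) (nat_lit 277) (nat_lit 121))) (XT.nd (nat_lit 78) (nat_lit 0) (nat_lit 0) (XT.lf (nat_lit 0) (nat_lit 7521193908) (nat_lit 1140) (nat_lit 2822890180) (nat_lit 1140) (nat_lit 2822890180) (nat_lit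 151) (nat_lit 3) (nat_lit 166) (nat_lit 3) (nat_lit 166) (nat_lit 5) (nat_lit 278) (nat_lit 278) (nat_lit 164)) (XT.nd (nat_lit 78) (nat_lit 0) (nat_lit 76) (XT.lf (nat_lit 76) (nat_lit 12834592421) (nat_lit 0) (nat_lit 2847963787) (nat_lit 1140) (nat_lit 11301473999) (nat_lit 152) (nat_lit 5) (nat_lit 151) (nat_lit 3) (nat_lit 166) (nat_lit 5) (nat_lit 279) (nat_lit 278) (nat_lit 163)) (XT.lf (nat_lit 76) (nat_lit 4623979401) (nat_lit 0) (nat_lit 11977572097) (nat_lit 1140) (nat_lit 11057681914) (nat_lit 153) (nat_lit 5) (nat_lit 152) (nat_lit 5) (nat_lit 167) (nat_lit 5) (nat_lit 280) (nat_lit 278) (nat_lit 162))))) (XT.nd (nat_lit 234) (nat_lit 0) (nat_lit 152) (XT.nd (nat_lit 78) (nat_lit 0) (nat_lit 0) (XT.lf (nat_lit 0) (nat_lit 17797980269) (nat_lit 1064) (nat_lit 3831749404) (nat_lit 1140) (nat_lit 6731543552) (nat_lit 153) (nat_lit 5) (nat_lit 167) (nat_lit 5) (nat_lit 168) (nat_lit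 5) (nat_lit 281) (nat_lit 278) (nat_lit 161)) (XT.nd (nat_lit 78) (nat_lit 0) (nat_lit 76) (XT.lf (nat_lit 76) (nat_lit 16528571728) (nat_lit 0) (nat_lit 2797247738) (nat_lit 1140) (nat_lit 9764467854) (nat_lit 154) (nat_lit 5) (nat_lit 153) (nat_lit 5) (nat_lit 168) (nat_lit 5) (nat_lit 282) (nat_lit 278) (nat_lit 160)) (XT.lf (nat_lit 76) (nat_lit 8122185131) (nat_lit 0) (nat_lit 13081153459) (nat_lit 1140) (nat_lit 8644233900) (nat_lit 155) (nat_lit 5) (nat_lit 154) (nat_lit 5) (nat_lit 169) (nat_lit 5) (nat_lit 283) (nat_lit 278) (nat_lit 159)))) (XT.nd (nat_lit 78) (nat_lit 0) (nat_lit 0) (XT.lf (nat_lit 0) (nat_lit 23389343809) (nat_lit 1064) (nat_lit 634080826) (nat_lit 1140) (nat_lit 6612877084) (nat_lit 155) (nat_lit 5) (nat_lit 169) (nat_lit 5) (nat_lit 170) (nat_lit 5) (nat_lit 284) (nat_lit 278) (nat_lit 158)) (XT.nd (nat_lit 78) (nat_lit 0) (nat_lit 76) (XT.lf (nat_lit 76) (nat_lit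 21800152168) (nat_lit 0) (nat_lit 4218974064) (nat_lit 1140) (nat_lit 5435324111) (nat_lit 156) (nat_lit 5) (nat_lit 155) (nat_lit 5) (nat_lit 170) (nat_lit 5) (nat_lit 285) (nat_lit 278) (nat_lit 157)) (XT.lf (nat_lit 76) (nat_lit 13148099694) (nat_lit 0) (nat_lit 15917813292) (nat_lit 1140) (nat_lit 3239044378) (nat_lit 157) (nat_lit 5) (nat_lit 156) (nat_lit 5) (nat_lit 171) (nat_lit 5) (nat_lit 286) (nat_lit 278) (nat_lit 156))))))) (XT.nd (nat_lit 858) (nat_lit 3040) (nat_lit 0) (XT.nd (nat_lit 390) (nat_lit 1976) (nat_lit 0) (XT.nd (nat_lit 156) (nat_lit 1140) (nat_lit 0) (XT.nd (nat_lit 78) (nat_lit 1140) (nat_lit 0) (XT.lf (nat_lit 76) (nat_lit 4083135586) (nat_lit 0) (nat_lit 28402739975) (nat_lit 1140) (nat_lit 705504721) (nat_lit 158) (nat_lit 5) (nat_lit 157) (nat_lit 5) (nat_lit 172) (nat_lit 5) (nat_lit 287) (nat_lit 278) (nat_lit 155)) (XT.lf (nat_lit 0) (nat_lit 2270062499)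 (nat_lit 1140) (nat_lit 5417337728) (nat_lit 1216) (nat_lit 26423570062) (nat_lit 142) (nat_lit 5) (nat_lit 157) (nat_lit 5) (nat_lit 158) (nat_lit 5) (nat_lit 288) (nat_lit 278) (nat_lit 154))) (XT.nd (nat_lit 78) (nat_lit 1216) (nat_lit 0) (XT.lf (nat_lit 0) (nat_lit 5701735445) (nat_lit 1140) (nat_lit 15374878960) (nat_lit 76) (nat_lit 13990072058) (nat_lit 143) (nat_lit 5) (nat_lit 158) (nat_lit 5) (nat_lit 144) (nat_lit 5) (nat_lit 289) (nat_lit 278) (nat_lit 153)) (XT.nd (nat_lit 78) (nat_lit 532) (nat_lit 0) (XT.lf (nat_lit 0) (nat_lit 9537939155) (nat_lit 760) (nat_lit 25852653555) (nat_lit 76) (nat_lit 672620438) (nat_lit 134) (nat_lit 5) (nat_lit 144) (nat_lit 5) (nat_lit 135) (nat_lit 5) (nat_lit 290) (nat_lit 278) (nat_lit 152)) (XT.lf (nat_lit 0) (nat_lit 73858262) (nat_lit 532) (nat_lit 13859836798) (nat_lit 608) (nat_lit 23164851341) (nat_lit 127) (nat_lit 5) (nat_lit 134)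 (nat_lit 5) (nat_lit 135) (nat_lit 5) (nat_lit 291) (nat_lit 278) (nat_lit 151))))) (XT.nd (nat_lit 234) (nat_lit 988) (nat_lit 0) (XT.nd (nat_lit 78) (nat_lit 988) (nat_lit 0) (XT.lf (nat_lit 0) (nat_lit 18896773644) (nat_lit 608) (nat_lit 10432501163) (nat_lit 76) (nat_lit 8845957358) (nat_lit 127) (nat_lit 5) (nat_lit 135) (nat_lit 5) (nat_lit 128) (nat_lit 5) (nat_lit 292) (nat_lit 278) (nat_lit 150)) (XT.nd (nat_lit 78) (nat_lit 456) (nat_lit 0) (XT.lf (nat_lit 0) (nat_lit 17689778635) (nat_lit 532) (nat_lit 6723100108) (nat_lit 608) (nat_lit 14883738628) (nat_lit 120) (nat_lit 5) (nat_lit 127) (nat_lit 5) (nat_lit 128) (nat_lit 5) (nat_lit 293) (nat_lit 278) (nat_lit 149)) (XT.lf (nat_lit 0) (nat_lit 6931138449) (nat_lit 456) (nat_lit 23607411583) (nat_lit 532) (nat_lit 9925519767) (nat_lit 114) (nat_lit 5) (nat_lit 120) (nat_lit 5) (nat_lit 121) (nat_lit 5) (nat_lit 294) (nat_lit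 278) (nat_lit 148)))) (XT.nd (nat_lit 78) (nat_lit 988) (nat_lit 0) (XT.lf (nat_lit 0) (nat_lit 37255616985) (nat_lit 532) (nat_lit 4407905301) (nat_lit 76) (nat_lit 17829479) (nat_lit 114) (nat_lit 5) (nat_lit 121) (nat_lit 5) (nat_lit 115) (nat_lit 5) (nat_lit 295) (nat_lit 278) (nat_lit 147)) (XT.nd (nat_lit 78) (nat_lit 456) (nat_lit 0) (XT.lf (nat_lit 0) (nat_lit 1815576974) (nat_lit 532) (nat_lit 16516120618) (nat_lit 76) (nat_lit 24612634842) (nat_lit 107) (nat_lit 5) (nat_lit 114) (nat_lit 5) (nat_lit 108) (nat_lit 5) (nat_lit 296) (nat_lit 278) (nat_lit 146)) (XT.lf (nat_lit 0) (nat_lit 8524283257) (nat_lit 532) (nat_lit 29455580612) (nat_lit 76) (nat_lit 6281886944) (nat_lit 101) (nat_lit 5) (nat_lit 108) (nat_lit 5) (nat_lit 102) (nat_lit 5) (nat_lit 297) (nat_lit 278) (nat_lit 145)))))) (XT.nd (nat_lit 390) (nat_lit 1748) (nat_lit 0) (XT.nd (nat_lit 156) (nat_lit 836) (nat_lit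 0) (XT.nd (nat_lit 78) (nat_lit 0) (nat_lit 0) (XT.lf (nat_lit 0) (nat_lit 2252436495) (nat_lit 456) (nat_lit 13690191283) (nat_lit 532) (nat_lit 29691194864) (nat_lit 95) (nat_lit 5) (nat_lit 101) (nat_lit 5) (nat_lit 102) (nat_lit 5) (nat_lit 298) (nat_lit 278) (nat_lit 144)) (XT.lf (nat_lit 0) (nat_lit 24147648606) (nat_lit 532) (nat_lit 11025152051) (nat_lit 76) (nat_lit 11889232842) (nat_lit 95) (nat_lit 5) (nat_lit 102) (nat_lit 5) (nat_lit 96) (nat_lit 5) (nat_lit 299) (nat_lit 278) (nat_lit 143))) (XT.nd (nat_lit 78) (nat_lit 456) (nat_lit 0) (XT.lf (nat_lit 0) (nat_lit 23260249637) (nat_lit 380) (nat_lit 9860607329) (nat_lit 456) (nat_lit 15430067657) (nat_lit 90) (nat_lit 5) (nat_lit 95) (nat_lit 5) (nat_lit 96) (nat_lit 5) (nat_lit 300) (nat_lit 278) (nat_lit 142)) (XT.nd (nat_lit 78) (nat_lit 76) (nat_lit 0) (XT.lf (nat_lit 0) (nat_lit 9396657132) (nat_lit 380) (nat_lit 33508011863)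 (nat_lit 456) (nat_lit 7198740456) (nat_lit 85) (nat_lit 5) (nat_lit 90) (nat_lit 5) (nat_lit 91) (nat_lit 5) (nat_lit 301) (nat_lit 278) (nat_lit 141)) (XT.lf (nat_lit 0) (nat_lit 1774817101) (nat_lit 456) (nat_lit 5499135959) (nat_lit 76) (nat_lit 44448390543) (nat_lit 84) (nat_lit 5) (nat_lit 90) (nat_lit 5) (nat_lit 85) (nat_lit 5) (nat_lit 302) (nat_lit 278) (nat_lit 140))))) (XT.nd (nat_lit 234) (nat_lit 988) (nat_lit 0) (XT.nd (nat_lit 78) (nat_lit 380) (nat_lit 0) (XT.lf (nat_lit 0) (nat_lit 11552514393) (nat_lit 456) (nat_lit 21592673793) (nat_lit 76) (nat_lit 20259774307) (nat_lit 79) (nat_lit 5) (nat_lit 85) (nat_lit 5) (nat_lit 80) (nat_lit 5) (nat_lit 303) (nat_lit 278) (nat_lit 139)) (XT.nd (nat_lit 78) (nat_lit 0) (nat_lit 0) (XT.lf (nat_lit 0) (nat_lit 16171700115) (nat_lit 380) (nat_lit 5930122352) (nat_lit 456) (nat_lit 33061414330) (nat_lit 74) (nat_lit 5) (nat_lit 79)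 (nat_lit 5) (nat_lit 80) (nat_lit 5) (nat_lit 304) (nat_lit 278) (nat_lit 138)) (XT.lf (nat_lit 0) (nat_lit 33617557527) (nat_lit 456) (nat_lit 951179054) (nat_lit 76) (nat_lit 22427525334) (nat_lit 74) (nat_lit 5) (nat_lit 80) (nat_lit 5) (nat_lit 75) (nat_lit 5) (nat_lit 305) (nat_lit 278) (nat_lit 137)))) (XT.nd (nat_lit 78) (nat_lit 684) (nat_lit 0) (XT.lf (nat_lit 0) (nat_lit 39702214936) (nat_lit 304) (nat_lit 6445311970) (nat_lit 380) (nat_lit 12760263618) (nat_lit 70) (nat_lit 5) (nat_lit 74) (nat_lit 5) (nat_lit 75) (nat_lit 5) (nat_lit 306) (nat_lit 278) (nat_lit 136)) (XT.nd (nat_lit 78) (nat_lit 380) (nat_lit 0) (XT.lf (nat_lit 0) (nat_lit 21690990094) (nat_lit 304) (nat_lit 38050353241) (nat_lit 380) (nat_lit 1160437167) (nat_lit 66) (nat_lit 5) (nat_lit 70) (nat_lit 5) (nat_lit 71) (nat_lit 5) (nat_lit 307) (nat_lit 278) (nat_lit 135)) (XT.lf (nat_lit 0) (nat_lit 1904626825)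 (nat_lit 304) (nat_lit 9179874542) (nat_lit 380) (nat_lit 51899391391) (nat_lit 61) (nat_lit 5) (nat_lit 65) (nat_lit 5) (nat_lit 66) (nat_lit 5) (nat_lit 308) (nat_lit 278) (nat_lit 134))))))))
noncomputable def xc112 : XT := (XT.nd (nat_lit 35724) (nat_lit 0) (nat_lit 3116) (XT.nd (nat_lit 780) (nat_lit 456) (nat_lit 0) (XT.nd (nat_lit 390) (nat_lit 760) (nat_lit 0) (XT.nd (nat_lit 156) (nat_lit 608) (nat_lit 0) (XT.nd (nat_lit 78) (nat_lit 304) (nat_lit 0) (XT.lf (nat_lit 0) (nat_lit 24525918390) (nat_lit 380) (nat_lit 19485418148) (nat_lit 76) (nat_lit 21140187219) (nat_lit 61) (nat_lit 5) (nat_lit 66) (nat_lit 5) (nat_lit 62) (nat_lit 5) (nat_lit 309) (nat_lit 278) (nat_lit 133)) (XT.lf (nat_lit 0) (nat_lit 24571363446) (nat_lit 304) (nat_lit 14394242005) (nat_lit 380) (nat_lit 28452149405) (nat_lit 57) (nat_lit 5) (nat_lit 61) (nat_lit 5) (nat_lit 62) (nat_lit 5) (nat_lit 310) (nat_lit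 278) (nat_lit 132))) (XT.nd (nat_lit 78) (nat_lit 380) (nat_lit 0) (XT.lf (nat_lit 0) (nat_lit 1306280820) (nat_lit 228) (nat_lit 53194123710) (nat_lit 304) (nat_lit 15285703457) (nat_lit 54) (nat_lit 5) (nat_lit 57) (nat_lit 5) (nat_lit 58) (nat_lit 5) (nat_lit 311) (nat_lit 278) (nat_lit 131)) (XT.nd (nat_lit 78) (nat_lit 380) (nat_lit 0) (XT.lf (nat_lit 0) (nat_lit 48410326667) (nat_lit 228) (nat_lit 22984065444) (nat_lit 304) (nat_lit 861017310) (nat_lit 54) (nat_lit 5) (nat_lit 57) (nat_lit 5) (nat_lit 58) (nat_lit 5) (nat_lit 312) (nat_lit 278) (nat_lit 130)) (XT.lf (nat_lit 0) (nat_lit 14315639606) (nat_lit 380) (nat_lit 51588833463) (nat_lit 76) (nat_lit 8930302604) (nat_lit 49) (nat_lit 5) (nat_lit 54) (nat_lit 5) (nat_lit 50) (nat_lit 5) (nat_lit 313) (nat_lit 278) (nat_lit 129))))) (XT.nd (nat_lit 156) (nat_lit 532) (nat_lit 0) (XT.nd (nat_lit 78) (nat_lit 228) (nat_lit 0) (XT.lf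 (nat_lit 0) (nat_lit 30711052760) (nat_lit 380) (nat_lit 4592343155) (nat_lit 76) (nat_lit 42225130273) (nat_lit 49) (nat_lit 5) (nat_lit 54) (nat_lit 5) (nat_lit 50) (nat_lit 5) (nat_lit 314) (nat_lit 278) (nat_lit 128)) (XT.lf (nat_lit 0) (nat_lit 45641455306) (nat_lit 228) (nat_lit 2721311855) (nat_lit 304) (nat_lit 31981104591) (nat_lit 46) (nat_lit 5) (nat_lit 49) (nat_lit 5) (nat_lit 50) (nat_lit 5) (nat_lit 315) (nat_lit 278) (nat_lit 127))) (XT.nd (nat_lit 78) (nat_lit 304) (nat_lit 0) (XT.lf (nat_lit 0) (nat_lit 15174164815) (nat_lit 228) (nat_lit 52217071573) (nat_lit 304) (nat_lit 15893926410) (nat_lit 43) (nat_lit 5) (nat_lit 46) (nat_lit 5) (nat_lit 47) (nat_lit 5) (nat_lit 316) (nat_lit 278) (nat_lit 126)) (XT.nd (nat_lit 78) (nat_lit 228) (nat_lit 0) (XT.lf (nat_lit 0) (nat_lit 1364291040) (nat_lit 304) (nat_lit 18136710223) (nat_lit 76) (nat_lit 66860648055) (nat_lit 42)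 (nat_lit 5) (nat_lit 46) (nat_lit 5) (nat_lit 43) (nat_lit 5) (nat_lit 317) (nat_lit 278) (nat_lit 125)) (XT.lf (nat_lit 0) (nat_lit 19640457431) (nat_lit 304) (nat_lit 54871754716) (nat_lit 76) (nat_lit 15060517469) (nat_lit 39) (nat_lit 5) (nat_lit 43) (nat_lit 5) (nat_lit 40) (nat_lit 5) (nat_lit 318) (nat_lit 278) (nat_lit 124)))))) (XT.nd (nat_lit 34476) (nat_lit 0) (nat_lit 8968) (XT.nd (nat_lit 156) (nat_lit 228) (nat_lit 0) (XT.nd (nat_lit 78) (nat_lit 228) (nat_lit 0) (XT.lf (nat_lit 0) (nat_lit 39213881144) (nat_lit 304) (nat_lit 2580782065) (nat_lit 76) (nat_lit 51138199999) (nat_lit 39) (nat_lit 5) (nat_lit 43) (nat_lit 5) (nat_lit 40) (nat_lit 5) (nat_lit 319) (nat_lit 278) (nat_lit 123)) (XT.lf (nat_lit 0) (nat_lit 53363296481) (nat_lit 228) (nat_lit 6913802795) (nat_lit 304) (nat_lit 36168573125) (nat_lit 36) (nat_lit 5) (nat_lit 39) (nat_lit 5) (nat_lit 40) (nat_lit 5) (nat_lit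 320) (nat_lit 278) (nat_lit 122))) (XT.nd (nat_lit 78) (nat_lit 76) (nat_lit 0) (XT.lf (nat_lit 0) (nat_lit 11970180613) (nat_lit 152) (nat_lit 70849009329) (nat_lit 228) (nat_lit 17302163255) (nat_lit 34) (nat_lit 5) (nat_lit 36) (nat_lit 5) (nat_lit 37) (nat_lit 5) (nat_lit 321) (nat_lit 278) (nat_lit 121)) (XT.nd (nat_lit 34164) (nat_lit 0) (nat_lit 8968) (XT.lf (nat_lit 0) (nat_lit 2974560110) (nat_lit 228) (nat_lit 33392811352) (nat_lit 76) (nat_lit 67597248009) (nat_lit 33) (nat_lit 5) (nat_lit 36) (nat_lit 5) (nat_lit 34) (nat_lit 5) (nat_lit 322) (nat_lit 278) (nat_lit 120)) (XT.lf (nat_lit 0) (nat_lit 8035791082) (nat_lit 1140) (nat_lit 2892518680) (nat_lit 1140) (nat_lit 2892518680) (nat_lit 151) (nat_lit 3) (nat_lit 166) (nat_lit 3) (nat_lit 166) (nat_lit 5) (nat_lit 279) (nat_lit 279) (nat_lit 162))))) (XT.nd (nat_lit 234) (nat_lit 0) (nat_lit 152) (XT.nd (nat_lit 78) (nat_lit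 0) (nat_lit 76) (XT.lf (nat_lit 76) (nat_lit 13615254076) (nat_lit 0) (nat_lit 3116646354) (nat_lit 1140) (nat_lit 11592730195) (nat_lit 152) (nat_lit 5) (nat_lit 151) (nat_lit 3) (nat_lit 166) (nat_lit 5) (nat_lit 280) (nat_lit 279) (nat_lit 161)) (XT.nd (nat_lit 78) (nat_lit 0) (nat_lit 76) (XT.lf (nat_lit 76) (nat_lit 4999661616) (nat_lit 0) (nat_lit 12684787260) (nat_lit 1140) (nat_lit 11349547708) (nat_lit 153) (nat_lit 5) (nat_lit 152) (nat_lit 5) (nat_lit 167) (nat_lit 5) (nat_lit 281) (nat_lit 279) (nat_lit 160)) (XT.lf (nat_lit 0) (nat_lit 18927668241) (nat_lit 1064) (nat_lit 3876933882) (nat_lit 1140) (nat_lit 6966956424) (nat_lit 153) (nat_lit 5) (nat_lit 167) (nat_lit 5) (nat_lit 168) (nat_lit 5) (nat_lit 282) (nat_lit 279) (nat_lit 159)))) (XT.nd (nat_lit 78) (nat_lit 0) (nat_lit 76) (XT.lf (nat_lit 76) (nat_lit 17497206694) (nat_lit 0) (nat_lit 3024641156) (nat_lit 1140) (nat_lit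 10015504883) (nat_lit 154) (nat_lit 5) (nat_lit 153) (nat_lit 5) (nat_lit 168) (nat_lit 5) (nat_lit 283) (nat_lit 279) (nat_lit 158)) (XT.nd (nat_lit 78) (nat_lit 0) (nat_lit 76) (XT.lf (nat_lit 76) (nat_lit 8674477162) (nat_lit 0) (nat_lit 13808429755) (nat_lit 1140) (nat_lit 8849931842) (nat_lit 155) (nat_lit 5) (nat_lit 154) (nat_lit 5) (nat_lit 169) (nat_lit 5) (nat_lit 284) (nat_lit 279) (nat_lit 157)) (XT.lf (nat_lit 0) (nat_lit 24767094404) (nat_lit 1064) (nat_lit 519119198) (nat_lit 1140) (nat_lit 6875149639) (nat_lit 155) (nat_lit 5) (nat_lit 169) (nat_lit 5) (nat_lit 170) (nat_lit 5) (nat_lit 285) (nat_lit 279) (nat_lit 156))))))) (XT.nd (nat_lit 780) (nat_lit 3040) (nat_lit 0) (XT.nd (nat_lit 390) (nat_lit 2128) (nat_lit 0) (XT.nd (nat_lit 156) (nat_lit 988) (nat_lit 0) (XT.nd (nat_lit 78) (nat_lit 0) (nat_lit 76) (XT.lf (nat_lit 76) (nat_lit 23032621304) (nat_lit 0) (nat_lit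 4487195815) (nat_lit 1140) (nat_lit 5500882694) (nat_lit 156) (nat_lit 5) (nat_lit 155) (nat_lit 5) (nat_lit 170) (nat_lit 5) (nat_lit 286) (nat_lit 279) (nat_lit 155)) (XT.lf (nat_lit 76) (nat_lit 13950704837) (nat_lit 0) (nat_lit 16759598629) (nat_lit 1140) (nat_lit 3203710817) (nat_lit 157) (nat_lit 5) (nat_lit 156) (nat_lit 5) (nat_lit 171) (nat_lit 5) (nat_lit 287) (nat_lit 279) (nat_lit 154))) (XT.nd (nat_lit 78) (nat_lit 1140) (nat_lit 0) (XT.lf (nat_lit 76) (nat_lit 4434772399) (nat_lit 0) (nat_lit 29858389525) (nat_lit 1140) (nat_lit 551861304) (nat_lit 158) (nat_lit 5) (nat_lit 157) (nat_lit 5) (nat_lit 172) (nat_lit 5) (nat_lit 288) (nat_lit 279) (nat_lit 153)) (XT.nd (nat_lit 78) (nat_lit 0) (nat_lit 76) (XT.lf (nat_lit 0) (nat_lit 2559977214) (nat_lit 1140) (nat_lit 5543833090) (nat_lit 1216) (nat_lit 27707012738) (nat_lit 142) (nat_lit 5) (nat_lit 157) (nat_lit 5) (nat_lit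 158) (nat_lit 5) (nat_lit 289) (nat_lit 279) (nat_lit 152)) (XT.lf (nat_lit 0) (nat_lit 6155901286) (nat_lit 1140) (nat_lit 15997644815) (nat_lit 76) (nat_lit 14661018110) (nat_lit 143) (nat_lit 5) (nat_lit 158) (nat_lit 5) (nat_lit 144) (nat_lit 5) (nat_lit 290) (nat_lit 279) (nat_lit 151))))) (XT.nd (nat_lit 156) (nat_lit 988) (nat_lit 0) (XT.nd (nat_lit 78) (nat_lit 532) (nat_lit 0) (XT.lf (nat_lit 0) (nat_lit 10177028814) (nat_lit 760) (nat_lit 26998056953) (nat_lit 76) (nat_lit 686056350) (nat_lit 134) (nat_lit 5) (nat_lit 144) (nat_lit 5) (nat_lit 135) (nat_lit 5) (nat_lit 291) (nat_lit 279) (nat_lit 150)) (XT.lf (nat_lit 0) (nat_lit 220560157) (nat_lit 532) (nat_lit 14565663585) (nat_lit 608) (nat_lit 24162226178) (nat_lit 127) (nat_lit 5) (nat_lit 134) (nat_lit 5) (nat_lit 135) (nat_lit 5) (nat_lit 292) (nat_lit 279) (nat_lit 149))) (XT.nd (nat_lit 78) (nat_lit 988) (nat_lit 0) (XT.lf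 (nat_lit 0) (nat_lit 19989917613) (nat_lit 608) (nat_lit 10813025116) (nat_lit 76) (nat_lit 9276269996) (nat_lit 127) (nat_lit 5) (nat_lit 135) (nat_lit 5) (nat_lit 128) (nat_lit 5) (nat_lit 293) (nat_lit 279) (nat_lit 148)) (XT.nd (nat_lit 78) (nat_lit 456) (nat_lit 0) (XT.lf (nat_lit 0) (nat_lit 18711324037) (nat_lit 532) (nat_lit 7064759245) (nat_lit 608) (nat_lit 15480772055) (nat_lit 120) (nat_lit 5) (nat_lit 127) (nat_lit 5) (nat_lit 128) (nat_lit 5) (nat_lit 294) (nat_lit 279) (nat_lit 147)) (XT.lf (nat_lit 0) (nat_lit 7415335786) (nat_lit 456) (nat_lit 24787186444) (nat_lit 532) (nat_lit 10280338686) (nat_lit 114) (nat_lit 5) (nat_lit 120) (nat_lit 5) (nat_lit 121) (nat_lit 5) (nat_lit 295) (nat_lit 279) (nat_lit 146)))))) (XT.nd (nat_lit 390) (nat_lit 1596) (nat_lit 0) (XT.nd (nat_lit 156) (nat_lit 912) (nat_lit 0) (XT.nd (nat_lit 78) (nat_lit 532) (nat_lit 0) (XT.lf (nat_lit 0)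 (nat_lit 39248922045) (nat_lit 532) (nat_lit 4493017651) (nat_lit 76) (nat_lit 19277233) (nat_lit 114) (nat_lit 5) (nat_lit 121) (nat_lit 5) (nat_lit 115) (nat_lit 5) (nat_lit 296) (nat_lit 279) (nat_lit 145)) (XT.lf (nat_lit 0) (nat_lit 2033438745) (nat_lit 532) (nat_lit 17207727299) (nat_lit 76) (nat_lit 25846305431) (nat_lit 107) (nat_lit 5) (nat_lit 114) (nat_lit 5) (nat_lit 108) (nat_lit 5) (nat_lit 297) (nat_lit 279) (nat_lit 144))) (XT.nd (nat_lit 78) (nat_lit 456) (nat_lit 0) (XT.lf (nat_lit 0) (nat_lit 9072859359) (nat_lit 532) (nat_lit 30794163645) (nat_lit 76) (nat_lit 6603892021) (nat_lit 101) (nat_lit 5) (nat_lit 108) (nat_lit 5) (nat_lit 102) (nat_lit 5) (nat_lit 298) (nat_lit 279) (nat_lit 143)) (XT.nd (nat_lit 78) (nat_lit 0) (nat_lit 0) (XT.lf (nat_lit 0) (nat_lit 2495407615) (nat_lit 456) (nat_lit 14362139729) (nat_lit 532) (nat_lit 31054192338) (nat_lit 95) (nat_lit 5)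 (nat_lit 101) (nat_lit 5) (nat_lit 102) (nat_lit 5) (nat_lit 299) (nat_lit 279) (nat_lit 142)) (XT.lf (nat_lit 0) (nat_lit 25467325248) (nat_lit 532) (nat_lit 11448788089) (nat_lit 76) (nat_lit 12495424014) (nat_lit 95) (nat_lit 5) (nat_lit 102) (nat_lit 5) (nat_lit 96) (nat_lit 5) (nat_lit 300) (nat_lit 279) (nat_lit 141))))) (XT.nd (nat_lit 234) (nat_lit 760) (nat_lit 0) (XT.nd (nat_lit 78) (nat_lit 456) (nat_lit 0) (XT.lf (nat_lit 0) (nat_lit 24547225436) (nat_lit 380) (nat_lit 10337812857) (nat_lit 456) (nat_lit 16089970313) (nat_lit 90) (nat_lit 5) (nat_lit 95) (nat_lit 5) (nat_lit 96) (nat_lit 5) (nat_lit 301) (nat_lit 279) (nat_lit 140)) (XT.nd (nat_lit 78) (nat_lit 76) (nat_lit 0) (XT.lf (nat_lit 0) (nat_lit 9990115167) (nat_lit 380) (nat_lit 35164109540) (nat_lit 456) (nat_lit 7451017840) (nat_lit 85) (nat_lit 5) (nat_lit 90) (nat_lit 5) (nat_lit 91) (nat_lit 5) (nat_lit 302) (nat_lit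 279) (nat_lit 139)) (XT.lf (nat_lit 0) (nat_lit 1964090157) (nat_lit 456) (nat_lit 5654161648) (nat_lit 76) (nat_lit 46687000956) (nat_lit 84) (nat_lit 5) (nat_lit 90) (nat_lit 5) (nat_lit 85) (nat_lit 5) (nat_lit 303) (nat_lit 279) (nat_lit 138)))) (XT.nd (nat_lit 78) (nat_lit 380) (nat_lit 0) (XT.lf (nat_lit 0) (nat_lit 12227193553) (nat_lit 456) (nat_lit 22552914006) (nat_lit 76) (nat_lit 21292008548) (nat_lit 79) (nat_lit 5) (nat_lit 85) (nat_lit 5) (nat_lit 80) (nat_lit 5) (nat_lit 304) (nat_lit 279) (nat_lit 137)) (XT.nd (nat_lit 78) (nat_lit 0) (nat_lit 0) (XT.lf (nat_lit 0) (nat_lit 17096256208) (nat_lit 380) (nat_lit 6204204014) (nat_lit 456) (nat_lit 34617957816) (nat_lit 74) (nat_lit 5) (nat_lit 79) (nat_lit 5) (nat_lit 80) (nat_lit 5) (nat_lit 305) (nat_lit 279) (nat_lit 136)) (XT.lf (nat_lit 0) (nat_lit 35387732727) (nat_lit 456) (nat_lit 885655980) (nat_lit 76) (nat_lit 23569841479)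 (nat_lit 74) (nat_lit 5) (nat_lit 80) (nat_lit 5) (nat_lit 75) (nat_lit 5) (nat_lit 306) (nat_lit 279) (nat_lit 135))))))))
noncomputable def xc113 : XT := (XT.nd (nat_lit 35880) (nat_lit 0) (nat_lit 2888) (XT.nd (nat_lit 780) (nat_lit 760) (nat_lit 0) (XT.nd (nat_lit 390) (nat_lit 836) (nat_lit 0) (XT.nd (nat_lit 156) (nat_lit 684) (nat_lit 0) (XT.nd (nat_lit 78) (nat_lit 304) (nat_lit 0) (XT.lf (nat_lit 0) (nat_lit 41797166236) (nat_lit 304) (nat_lit 6743837941) (nat_lit 380) (nat_lit 13309434842) (nat_lit 70) (nat_lit 5) (nat_lit 74) (nat_lit 5) (nat_lit 75) (nat_lit 5) (nat_lit 307) (nat_lit 279) (nat_lit 134)) (XT.lf (nat_lit 0) (nat_lit 22884672396) (nat_lit 304) (nat_lit 39927005371) (nat_lit 380) (nat_lit 1132543262) (nat_lit 66) (nat_lit 5) (nat_lit 70) (nat_lit 5) (nat_lit 71) (nat_lit 5) (nat_lit 308) (nat_lit 279) (nat_lit 133))) (XT.nd (nat_lit 78) (nat_lit 304) (nat_lit 0)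 (XT.lf (nat_lit 0) (nat_lit 2107633072) (nat_lit 304) (nat_lit 9612357206) (nat_lit 380) (nat_lit 54410520062) (nat_lit 61) (nat_lit 5) (nat_lit 65) (nat_lit 5) (nat_lit 66) (nat_lit 5) (nat_lit 309) (nat_lit 279) (nat_lit 132)) (XT.nd (nat_lit 78) (nat_lit 304) (nat_lit 0) (XT.lf (nat_lit 0) (nat_lit 25829851152) (nat_lit 380) (nat_lit 20354834655) (nat_lit 76) (nat_lit 22221952519) (nat_lit 61) (nat_lit 5) (nat_lit 66) (nat_lit 5) (nat_lit 62) (nat_lit 5) (nat_lit 310) (nat_lit 279) (nat_lit 131)) (XT.lf (nat_lit 0) (nat_lit 25901780388) (nat_lit 304) (nat_lit 15087024217) (nat_lit 380) (nat_lit 29797464222) (nat_lit 57) (nat_lit 5) (nat_lit 61) (nat_lit 5) (nat_lit 62) (nat_lit 5) (nat_lit 311) (nat_lit 279) (nat_lit 130))))) (XT.nd (nat_lit 156) (nat_lit 608) (nat_lit 0) (XT.nd (nat_lit 78) (nat_lit 0) (nat_lit 0) (XT.lf (nat_lit 0) (nat_lit 1472578437) (nat_lit 228) (nat_lit 55825414891)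 (nat_lit 304) (nat_lit 15975122807) (nat_lit 54) (nat_lit 5) (nat_lit 57) (nat_lit 5) (nat_lit 58) (nat_lit 5) (nat_lit 312) (nat_lit 279) (nat_lit 129)) (XT.lf (nat_lit 0) (nat_lit 50927017834) (nat_lit 228) (nat_lit 24106206807) (nat_lit 304) (nat_lit 832767392) (nat_lit 54) (nat_lit 5) (nat_lit 57) (nat_lit 5) (nat_lit 58) (nat_lit 5) (nat_lit 313) (nat_lit 279) (nat_lit 128))) (XT.nd (nat_lit 78) (nat_lit 228) (nat_lit 0) (XT.lf (nat_lit 0) (nat_lit 15099177275) (nat_lit 380) (nat_lit 54071530353) (nat_lit 76) (nat_lit 9403668314) (nat_lit 49) (nat_lit 5) (nat_lit 54) (nat_lit 5) (nat_lit 50) (nat_lit 5) (nat_lit 314) (nat_lit 279) (nat_lit 127)) (XT.nd (nat_lit 78) (nat_lit 228) (nat_lit 0) (XT.lf (nat_lit 0) (nat_lit 32311134625) (nat_lit 380) (nat_lit 4729822424) (nat_lit 76) (nat_lit 44361958767) (nat_lit 49) (nat_lit 5) (nat_lit 54) (nat_lit 5) (nat_lit 50) (nat_lit 5) (nat_lit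 315) (nat_lit 279) (nat_lit 126)) (XT.lf (nat_lit 0) (nat_lit 48013024845) (nat_lit 228) (nat_lit 2830197377) (nat_lit 304) (nat_lit 33515877611) (nat_lit 46) (nat_lit 5) (nat_lit 49) (nat_lit 5) (nat_lit 50) (nat_lit 5) (nat_lit 316) (nat_lit 279) (nat_lit 125)))))) (XT.nd (nat_lit 34632) (nat_lit 0) (nat_lit 8740) (XT.nd (nat_lit 156) (nat_lit 456) (nat_lit 0) (XT.nd (nat_lit 78) (nat_lit 76) (nat_lit 0) (XT.lf (nat_lit 0) (nat_lit 16021459805) (nat_lit 228) (nat_lit 54799788025) (nat_lit 304) (nat_lit 16626268187) (nat_lit 43) (nat_lit 5) (nat_lit 46) (nat_lit 5) (nat_lit 47) (nat_lit 5) (nat_lit 317) (nat_lit 279) (nat_lit 124)) (XT.lf (nat_lit 0) (nat_lit 1490732050) (nat_lit 304) (nat_lit 18957934038) (nat_lit 76) (nat_lit 70229234359) (nat_lit 42) (nat_lit 5) (nat_lit 46) (nat_lit 5) (nat_lit 43) (nat_lit 5) (nat_lit 318) (nat_lit 279) (nat_lit 123))) (XT.nd (nat_lit 78) (nat_lit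 228) (nat_lit 0) (XT.lf (nat_lit 0) (nat_lit 20678992058) (nat_lit 304) (nat_lit 57530675310) (nat_lit 76) (nat_lit 15839922860) (nat_lit 39) (nat_lit 5) (nat_lit 43) (nat_lit 5) (nat_lit 40) (nat_lit 5) (nat_lit 319) (nat_lit 279) (nat_lit 122)) (XT.nd (nat_lit 78) (nat_lit 228) (nat_lit 0) (XT.lf (nat_lit 0) (nat_lit 41228395920) (nat_lit 304) (nat_lit 2629185796) (nat_lit 76) (nat_lit 53720233349) (nat_lit 39) (nat_lit 5) (nat_lit 43) (nat_lit 5) (nat_lit 40) (nat_lit 5) (nat_lit 320) (nat_lit 279) (nat_lit 121)) (XT.lf (nat_lit 0) (nat_lit 56109785281) (nat_lit 228) (nat_lit 7233179685) (nat_lit 304) (nat_lit 37923357703) (nat_lit 36) (nat_lit 5) (nat_lit 39) (nat_lit 5) (nat_lit 40) (nat_lit 5) (nat_lit 321) (nat_lit 279) (nat_lit 120))))) (XT.nd (nat_lit 234) (nat_lit 0) (nat_lit 152) (XT.nd (nat_lit 78) (nat_lit 0) (nat_lit 0) (XT.lf (nat_lit 0) (nat_lit 8563238214) (nat_lit 1140)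 (nat_lit 2972277485) (nat_lit 1140) (nat_lit 2972277485) (nat_lit 151) (nat_lit 3) (nat_lit 166) (nat_lit 3) (nat_lit 166) (nat_lit 5) (nat_lit 280) (nat_lit 280) (nat_lit 160)) (XT.nd (nat_lit 78) (nat_lit 0) (nat_lit 76) (XT.lf (nat_lit 76) (nat_lit 14422032230) (nat_lit 0) (nat_lit 3387022325) (nat_lit 1140) (nat_lit 11924006157) (nat_lit 152) (nat_lit 5) (nat_lit 151) (nat_lit 3) (nat_lit 166) (nat_lit 5) (nat_lit 281) (nat_lit 280) (nat_lit 159)) (XT.lf (nat_lit 76) (nat_lit 5380695259) (nat_lit 0) (nat_lit 13417291075) (nat_lit 1140) (nat_lit 11680273799) (nat_lit 153) (nat_lit 5) (nat_lit 152) (nat_lit 5) (nat_lit 167) (nat_lit 5) (nat_lit 282) (nat_lit 280) (nat_lit 158)))) (XT.nd (nat_lit 78) (nat_lit 0) (nat_lit 0) (XT.lf (nat_lit 0) (nat_lit 20091547307) (nat_lit 1064) (nat_lit 3937988747) (nat_lit 1140) (nat_lit 7223545237) (nat_lit 153) (nat_lit 5) (nat_lit 167) (nat_lit 5)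 (nat_lit 168) (nat_lit 5) (nat_lit 283) (nat_lit 280) (nat_lit 157)) (XT.nd (nat_lit 78) (nat_lit 0) (nat_lit 76) (XT.lf (nat_lit 76) (nat_lit 18501052407) (nat_lit 0) (nat_lit 3255266440) (nat_lit 1140) (nat_lit 10301145104) (nat_lit 154) (nat_lit 5) (nat_lit 153) (nat_lit 5) (nat_lit 168) (nat_lit 5) (nat_lit 284) (nat_lit 280) (nat_lit 156)) (XT.lf (nat_lit 76) (nat_lit 9240793106) (nat_lit 0) (nat_lit 14565262692) (nat_lit 1140) (nat_lit 9086973782) (nat_lit 155) (nat_lit 5) (nat_lit 154) (nat_lit 5) (nat_lit 169) (nat_lit 5) (nat_lit 285) (nat_lit 280) (nat_lit 155))))))) (XT.nd (nat_lit 780) (nat_lit 3496) (nat_lit 0) (XT.nd (nat_lit 390) (nat_lit 1672) (nat_lit 0) (XT.nd (nat_lit 156) (nat_lit 988) (nat_lit 0) (XT.nd (nat_lit 78) (nat_lit 0) (nat_lit 0) (XT.lf (nat_lit 0) (nat_lit 26194368313) (nat_lit 1064) (nat_lit 412045072) (nat_lit 1140) (nat_lit 7156892338) (nat_lit 155) (nat_lit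 5) (nat_lit 169) (nat_lit 5) (nat_lit 170) (nat_lit 5) (nat_lit 286) (nat_lit 280) (nat_lit 154)) (XT.lf (nat_lit 76) (nat_lit 24313469174) (nat_lit 0) (nat_lit 4763503948) (nat_lit 1140) (nat_lit 5588890436) (nat_lit 156) (nat_lit 5) (nat_lit 155) (nat_lit 5) (nat_lit 170) (nat_lit 5) (nat_lit 287) (nat_lit 280) (nat_lit 153))) (XT.nd (nat_lit 78) (nat_lit 1064) (nat_lit 0) (XT.lf (nat_lit 76) (nat_lit 14779940902) (nat_lit 0) (nat_lit 17639206382) (nat_lit 1140) (nat_lit 3184952339) (nat_lit 157) (nat_lit 5) (nat_lit 156) (nat_lit 5) (nat_lit 171) (nat_lit 5) (nat_lit 288) (nat_lit 280) (nat_lit 152)) (XT.nd (nat_lit 78) (nat_lit 1140) (nat_lit 0) (XT.lf (nat_lit 76) (nat_lit 4790279758) (nat_lit 0) (nat_lit 31383519932) (nat_lit 1140) (nat_lit 408099581) (nat_lit 158) (nat_lit 5) (nat_lit 157) (nat_lit 5) (nat_lit 172) (nat_lit 5) (nat_lit 289) (nat_lit 280) (nat_lit 151)) (XT.lf (nat_lit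 0) (nat_lit 2847986588) (nat_lit 1140) (nat_lit 5690075516) (nat_lit 1216) (nat_lit 29058135868) (nat_lit 142) (nat_lit 5) (nat_lit 157) (nat_lit 5) (nat_lit 158) (nat_lit 5) (nat_lit 290) (nat_lit 280) (nat_lit 150))))) (XT.nd (nat_lit 156) (nat_lit 1064) (nat_lit 0) (XT.nd (nat_lit 78) (nat_lit 684) (nat_lit 0) (XT.lf (nat_lit 0) (nat_lit 6617056051) (nat_lit 1140) (nat_lit 16665120622) (nat_lit 76) (nat_lit 15368166475) (nat_lit 143) (nat_lit 5) (nat_lit 158) (nat_lit 5) (nat_lit 144) (nat_lit 5) (nat_lit 291) (nat_lit 280) (nat_lit 149)) (XT.lf (nat_lit 0) (nat_lit 10832993816) (nat_lit 760) (nat_lit 28214418504) (nat_lit 76) (nat_lit 702041608) (nat_lit 134) (nat_lit 5) (nat_lit 144) (nat_lit 5) (nat_lit 135) (nat_lit 5) (nat_lit 292) (nat_lit 280) (nat_lit 148))) (XT.nd (nat_lit 78) (nat_lit 532) (nat_lit 0) (XT.lf (nat_lit 0) (nat_lit 361301527) (nat_lit 532) (nat_lit 15305588439)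 (nat_lit 608) (nat_lit 25224425714) (nat_lit 127) (nat_lit 5) (nat_lit 134) (nat_lit 5) (nat_lit 135) (nat_lit 5) (nat_lit 293) (nat_lit 280) (nat_lit 147)) (XT.nd (nat_lit 78) (nat_lit 532) (nat_lit 0) (XT.lf (nat_lit 0) (nat_lit 21123930761) (nat_lit 608) (nat_lit 11225693510) (nat_lit 76) (nat_lit 9729212540) (nat_lit 127) (nat_lit 5) (nat_lit 135) (nat_lit 5) (nat_lit 128) (nat_lit 5) (nat_lit 294) (nat_lit 280) (nat_lit 146)) (XT.lf (nat_lit 0) (nat_lit 19771204498) (nat_lit 532) (nat_lit 7422989616) (nat_lit 608) (nat_lit 16121338092) (nat_lit 120) (nat_lit 5) (nat_lit 127) (nat_lit 5) (nat_lit 128) (nat_lit 5) (nat_lit 295) (nat_lit 280) (nat_lit 145)))))) (XT.nd (nat_lit 390) (nat_lit 1596) (nat_lit 0) (XT.nd (nat_lit 156) (nat_lit 1444) (nat_lit 0) (XT.nd (nat_lit 78) (nat_lit 0) (nat_lit 0) (XT.lf (nat_lit 0) (nat_lit 7910946488) (nat_lit 456) (nat_lit 26026005432) (nat_lit 532)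 (nat_lit 10666049889) (nat_lit 114) (nat_lit 5) (nat_lit 120) (nat_lit 5) (nat_lit 121) (nat_lit 5) (nat_lit 296) (nat_lit 280) (nat_lit 144)) (XT.lf (nat_lit 0) (nat_lit 41329757455) (nat_lit 532) (nat_lit 4594962942) (nat_lit 76) (nat_lit 20745657) (nat_lit 114) (nat_lit 5) (nat_lit 121) (nat_lit 5) (nat_lit 115) (nat_lit 5) (nat_lit 297) (nat_lit 280) (nat_lit 143))) (XT.nd (nat_lit 78) (nat_lit 912) (nat_lit 0) (XT.lf (nat_lit 0) (nat_lit 2250378639) (nat_lit 532) (nat_lit 17946390897) (nat_lit 76) (nat_lit 27141377027) (nat_lit 107) (nat_lit 5) (nat_lit 114) (nat_lit 5) (nat_lit 108) (nat_lit 5) (nat_lit 298) (nat_lit 280) (nat_lit 142)) (XT.nd (nat_lit 78) (nat_lit 456) (nat_lit 0) (XT.lf (nat_lit 0) (nat_lit 9637488213) (nat_lit 532) (nat_lit 32212152102) (nat_lit 76) (nat_lit 6941261888) (nat_lit 101) (nat_lit 5) (nat_lit 108) (nat_lit 5) (nat_lit 102) (nat_lit 5) (nat_lit 299) (nat_lit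 280) (nat_lit 141)) (XT.lf (nat_lit 0) (nat_lit 2738408649) (nat_lit 456) (nat_lit 15068853411) (nat_lit 532) (nat_lit 32496641393) (nat_lit 95) (nat_lit 5) (nat_lit 101) (nat_lit 5) (nat_lit 102) (nat_lit 5) (nat_lit 300) (nat_lit 280) (nat_lit 140))))) (XT.nd (nat_lit 234) (nat_lit 836) (nat_lit 0) (XT.nd (nat_lit 78) (nat_lit 760) (nat_lit 0) (XT.lf (nat_lit 0) (nat_lit 26842545671) (nat_lit 532) (nat_lit 11905470972) (nat_lit 76) (nat_lit 13130834243) (nat_lit 95) (nat_lit 5) (nat_lit 102) (nat_lit 5) (nat_lit 96) (nat_lit 5) (nat_lit 301) (nat_lit 280) (nat_lit 139)) (XT.nd (nat_lit 78) (nat_lit 380) (nat_lit 0) (XT.lf (nat_lit 0) (nat_lit 25887025092) (nat_lit 380) (nat_lit 10840349905) (nat_lit 456) (nat_lit 16793243680) (nat_lit 90) (nat_lit 5) (nat_lit 95) (nat_lit 5) (nat_lit 96) (nat_lit 5) (nat_lit 302) (nat_lit 280) (nat_lit 138)) (XT.lf (nat_lit 0) (nat_lit 10601752607) (nat_lit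 380) (nat_lit 36904806704) (nat_lit 456) (nat_lit 7725918267) (nat_lit 85) (nat_lit 5) (nat_lit 90) (nat_lit 5) (nat_lit 91) (nat_lit 5) (nat_lit 303) (nat_lit 280) (nat_lit 137)))) (XT.nd (nat_lit 78) (nat_lit 760) (nat_lit 0) (XT.lf (nat_lit 0) (nat_lit 2153480335) (nat_lit 456) (nat_lit 5828088680) (nat_lit 76) (nat_lit 49036036615) (nat_lit 84) (nat_lit 5) (nat_lit 90) (nat_lit 5) (nat_lit 85) (nat_lit 5) (nat_lit 304) (nat_lit 280) (nat_lit 136)) (XT.nd (nat_lit 78) (nat_lit 380) (nat_lit 0) (XT.lf (nat_lit 0) (nat_lit 12926583561) (nat_lit 456) (nat_lit 23572266302) (nat_lit 76) (nat_lit 22374065234) (nat_lit 79) (nat_lit 5) (nat_lit 85) (nat_lit 5) (nat_lit 80) (nat_lit 5) (nat_lit 305) (nat_lit 280) (nat_lit 135)) (XT.lf (nat_lit 0) (nat_lit 18056258213) (nat_lit 380) (nat_lit 6494074574) (nat_lit 456) (nat_lit 36261302662) (nat_lit 74) (nat_lit 5) (nat_lit 79) (nat_lit 5) (nat_lit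 80) (nat_lit 5) (nat_lit 306) (nat_lit 280) (nat_lit 134))))))))
noncomputable def xc114 : XT := (XT.nd (nat_lit 35958) (nat_lit 0) (nat_lit 2660) (XT.nd (nat_lit 780) (nat_lit 760) (nat_lit 0) (XT.nd (nat_lit 390) (nat_lit 912) (nat_lit 0) (XT.nd (nat_lit 156) (nat_lit 684) (nat_lit 0) (XT.nd (nat_lit 78) (nat_lit 304) (nat_lit 0) (XT.lf (nat_lit 0) (nat_lit 37238114669) (nat_lit 456) (nat_lit 827370047) (nat_lit 76) (nat_lit 24767326640) (nat_lit 74) (nat_lit 5) (nat_lit 80) (nat_lit 5) (nat_lit 75) (nat_lit 5) (nat_lit 307) (nat_lit 280) (nat_lit 133)) (XT.lf (nat_lit 0) (nat_lit 43986653167) (nat_lit 304) (nat_lit 7059497296) (nat_lit 380) (nat_lit 13894324311) (nat_lit 70) (nat_lit 5) (nat_lit 74) (nat_lit 5) (nat_lit 75) (nat_lit 5) (nat_lit 308) (nat_lit 280) (nat_lit 132))) (XT.nd (nat_lit 78) (nat_lit 380) (nat_lit 0) (XT.lf (nat_lit 0) (nat_lit 24127892681) (nat_lit 304) (nat_lit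 41899894839) (nat_lit 380) (nat_lit 1111242295) (nat_lit 66) (nat_lit 5) (nat_lit 70) (nat_lit 5) (nat_lit 71) (nat_lit 5) (nat_lit 309) (nat_lit 280) (nat_lit 131)) (XT.nd (nat_lit 78) (nat_lit 0) (nat_lit 0) (XT.lf (nat_lit 0) (nat_lit 2310769742) (nat_lit 304) (nat_lit 10068928752) (nat_lit 380) (nat_lit 57054999898) (nat_lit 61) (nat_lit 5) (nat_lit 65) (nat_lit 5) (nat_lit 66) (nat_lit 5) (nat_lit 310) (nat_lit 280) (nat_lit 130)) (XT.lf (nat_lit 0) (nat_lit 27191762613) (nat_lit 380) (nat_lit 21277470356) (nat_lit 76) (nat_lit 23355504511) (nat_lit 61) (nat_lit 5) (nat_lit 66) (nat_lit 5) (nat_lit 62) (nat_lit 5) (nat_lit 311) (nat_lit 280) (nat_lit 129))))) (XT.nd (nat_lit 156) (nat_lit 380) (nat_lit 0) (XT.nd (nat_lit 78) (nat_lit 228) (nat_lit 0) (XT.lf (nat_lit 0) (nat_lit 27289249244) (nat_lit 304) (nat_lit 15816949225) (nat_lit 380) (nat_lit 31217230719) (nat_lit 57) (nat_lit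 5) (nat_lit 61) (nat_lit 5) (nat_lit 62) (nat_lit 5) (nat_lit 312) (nat_lit 280) (nat_lit 128)) (XT.lf (nat_lit 0) (nat_lit 1637802439) (nat_lit 228) (nat_lit 58590912389) (nat_lit 304) (nat_lit 16705973438) (nat_lit 54) (nat_lit 5) (nat_lit 57) (nat_lit 5) (nat_lit 58) (nat_lit 5) (nat_lit 313) (nat_lit 280) (nat_lit 127))) (XT.nd (nat_lit 78) (nat_lit 380) (nat_lit 0) (XT.lf (nat_lit 0) (nat_lit 53560602136) (nat_lit 228) (nat_lit 25286971198) (nat_lit 304) (nat_lit 809733849) (nat_lit 54) (nat_lit 5) (nat_lit 57) (nat_lit 5) (nat_lit 58) (nat_lit 5) (nat_lit 314) (nat_lit 280) (nat_lit 126)) (XT.nd (nat_lit 78) (nat_lit 0) (nat_lit 0) (XT.lf (nat_lit 0) (nat_lit 15915592545) (nat_lit 380) (nat_lit 56687356501) (nat_lit 76) (nat_lit 9898205997) (nat_lit 49) (nat_lit 5) (nat_lit 54) (nat_lit 5) (nat_lit 50) (nat_lit 5) (nat_lit 315) (nat_lit 280) (nat_lit 125)) (XT.lf (nat_lit 0) (nat_lit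 33985221267) (nat_lit 380) (nat_lit 4882741765) (nat_lit 76) (nat_lit 46603251245) (nat_lit 49) (nat_lit 5) (nat_lit 54) (nat_lit 5) (nat_lit 50) (nat_lit 5) (nat_lit 316) (nat_lit 280) (nat_lit 124)))))) (XT.nd (nat_lit 34710) (nat_lit 0) (nat_lit 8512) (XT.nd (nat_lit 156) (nat_lit 304) (nat_lit 0) (XT.nd (nat_lit 78) (nat_lit 228) (nat_lit 0) (XT.lf (nat_lit 0) (nat_lit 50494852300) (nat_lit 228) (nat_lit 2947054121) (nat_lit 304) (nat_lit 35133365633) (nat_lit 46) (nat_lit 5) (nat_lit 49) (nat_lit 5) (nat_lit 50) (nat_lit 5) (nat_lit 317) (nat_lit 280) (nat_lit 123)) (XT.lf (nat_lit 0) (nat_lit 16902883588) (nat_lit 228) (nat_lit 57514256222) (nat_lit 304) (nat_lit 17401024188) (nat_lit 43) (nat_lit 5) (nat_lit 46) (nat_lit 5) (nat_lit 47) (nat_lit 5) (nat_lit 318) (nat_lit 280) (nat_lit 122))) (XT.nd (nat_lit 78) (nat_lit 228) (nat_lit 0) (XT.lf (nat_lit 0) (nat_lit 1618081767) (nat_lit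 304) (nat_lit 19828178409) (nat_lit 76) (nat_lit 73763874219) (nat_lit 42) (nat_lit 5) (nat_lit 46) (nat_lit 5) (nat_lit 43) (nat_lit 5) (nat_lit 319) (nat_lit 280) (nat_lit 121)) (XT.nd (nat_lit 78) (nat_lit 0) (nat_lit 0) (XT.lf (nat_lit 0) (nat_lit 21764199488) (nat_lit 304) (nat_lit 60330413483) (nat_lit 76) (nat_lit 16655846003) (nat_lit 39) (nat_lit 5) (nat_lit 43) (nat_lit 5) (nat_lit 40) (nat_lit 5) (nat_lit 320) (nat_lit 280) (nat_lit 120)) (XT.lf (nat_lit 0) (nat_lit 43338632695) (nat_lit 304) (nat_lit 2687506426) (nat_lit 76) (nat_lit 56429032635) (nat_lit 39) (nat_lit 5) (nat_lit 43) (nat_lit 5) (nat_lit 40) (nat_lit 5) (nat_lit 321) (nat_lit 280) (nat_lit 119))))) (XT.nd (nat_lit 234) (nat_lit 0) (nat_lit 152) (XT.nd (nat_lit 78) (nat_lit 0) (nat_lit 0) (XT.lf (nat_lit 0) (nat_lit 9105375251) (nat_lit 1140) (nat_lit 3062054962) (nat_lit 1140) (nat_lit 3062054962) (nat_lit 151)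 (nat_lit 3) (nat_lit 166) (nat_lit 3) (nat_lit 166) (nat_lit 5) (nat_lit 281) (nat_lit 281) (nat_lit 158)) (XT.nd (nat_lit 78) (nat_lit 0) (nat_lit 76) (XT.lf (nat_lit 76) (nat_lit 15257433570) (nat_lit 0) (nat_lit 3660267911) (nat_lit 1140) (nat_lit 12294936126) (nat_lit 152) (nat_lit 5) (nat_lit 151) (nat_lit 3) (nat_lit 166) (nat_lit 5) (nat_lit 282) (nat_lit 281) (nat_lit 157)) (XT.lf (nat_lit 76) (nat_lit 5768596746) (nat_lit 0) (nat_lit 14177284384) (nat_lit 1140) (nat_lit 12049547086) (nat_lit 153) (nat_lit 5) (nat_lit 152) (nat_lit 5) (nat_lit 167) (nat_lit 5) (nat_lit 283) (nat_lit 281) (nat_lit 156)))) (XT.nd (nat_lit 78) (nat_lit 0) (nat_lit 0) (XT.lf (nat_lit 0) (nat_lit 21293399641) (nat_lit 1064) (nat_lit 4014442081) (nat_lit 1140) (nat_lit 7501494373) (nat_lit 153) (nat_lit 5) (nat_lit 167) (nat_lit 5) (nat_lit 168) (nat_lit 5) (nat_lit 284) (nat_lit 281) (nat_lit 155)) (XT.nd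 (nat_lit 78) (nat_lit 0) (nat_lit 76) (XT.lf (nat_lit 76) (nat_lit 19543098567) (nat_lit 0) (nat_lit 3490041759) (nat_lit 1140) (nat_lit 10621068552) (nat_lit 154) (nat_lit 5) (nat_lit 153) (nat_lit 5) (nat_lit 168) (nat_lit 5) (nat_lit 285) (nat_lit 281) (nat_lit 154)) (XT.lf (nat_lit 76) (nat_lit 9823097691) (nat_lit 0) (nat_lit 15353762969) (nat_lit 1140) (nat_lit 9354969046) (nat_lit 155) (nat_lit 5) (nat_lit 154) (nat_lit 5) (nat_lit 169) (nat_lit 5) (nat_lit 286) (nat_lit 281) (nat_lit 153))))))) (XT.nd (nat_lit 780) (nat_lit 3496) (nat_lit 0) (XT.nd (nat_lit 390) (nat_lit 1672) (nat_lit 0) (XT.nd (nat_lit 156) (nat_lit 988) (nat_lit 0) (XT.nd (nat_lit 78) (nat_lit 0) (nat_lit 0) (XT.lf (nat_lit 0) (nat_lit 27675442002) (nat_lit 1064) (nat_lit 311985117) (nat_lit 1140) (nat_lit 7458487718) (nat_lit 155) (nat_lit 5) (nat_lit 169) (nat_lit 5) (nat_lit 170) (nat_lit 5) (nat_lit 287) (nat_lit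 281) (nat_lit 152)) (XT.lf (nat_lit 76) (nat_lit 25646346084) (nat_lit 0) (nat_lit 5048797824) (nat_lit 1140) (nat_lit 5698687436) (nat_lit 156) (nat_lit 5) (nat_lit 155) (nat_lit 5) (nat_lit 170) (nat_lit 5) (nat_lit 288) (nat_lit 281) (nat_lit 151))) (XT.nd (nat_lit 78) (nat_lit 1064) (nat_lit 0) (XT.lf (nat_lit 76) (nat_lit 15638394476) (nat_lit 0) (nat_lit 18558924362) (nat_lit 1140) (nat_lit 3181892456) (nat_lit 157) (nat_lit 5) (nat_lit 156) (nat_lit 5) (nat_lit 171) (nat_lit 5) (nat_lit 289) (nat_lit 281) (nat_lit 150)) (XT.nd (nat_lit 78) (nat_lit 1140) (nat_lit 0) (XT.lf (nat_lit 76) (nat_lit 5151125934) (nat_lit 0) (nat_lit 32981912192) (nat_lit 1140) (nat_lit 273080717) (nat_lit 158) (nat_lit 5) (nat_lit 157) (nat_lit 5) (nat_lit 172) (nat_lit 5) (nat_lit 290) (nat_lit 281) (nat_lit 149)) (XT.lf (nat_lit 0) (nat_lit 3135520169) (nat_lit 1140) (nat_lit 5855804482) (nat_lit 1216)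 (nat_lit 30479997303) (nat_lit 142) (nat_lit 5) (nat_lit 157) (nat_lit 5) (nat_lit 158) (nat_lit 5) (nat_lit 291) (nat_lit 281) (nat_lit 148))))) (XT.nd (nat_lit 156) (nat_lit 1064) (nat_lit 0) (XT.nd (nat_lit 78) (nat_lit 684) (nat_lit 0) (XT.lf (nat_lit 0) (nat_lit 7087010622) (nat_lit 1140) (nat_lit 17378280114) (nat_lit 76) (nat_lit 16113080431) (nat_lit 143) (nat_lit 5) (nat_lit 158) (nat_lit 5) (nat_lit 144) (nat_lit 5) (nat_lit 292) (nat_lit 281) (nat_lit 147)) (XT.lf (nat_lit 0) (nat_lit 11508079843) (nat_lit 760) (nat_lit 29504013537) (nat_lit 76) (nat_lit 720529121) (nat_lit 134) (nat_lit 5) (nat_lit 144) (nat_lit 5) (nat_lit 135) (nat_lit 5) (nat_lit 293) (nat_lit 281) (nat_lit 146))) (XT.nd (nat_lit 78) (nat_lit 532) (nat_lit 0) (XT.lf (nat_lit 0) (nat_lit 497020446) (nat_lit 532) (nat_lit 16081427204) (nat_lit 608) (nat_lit 26353300720) (nat_lit 127) (nat_lit 5) (nat_lit 134)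 (nat_lit 5) (nat_lit 135) (nat_lit 5) (nat_lit 294) (nat_lit 281) (nat_lit 145)) (XT.nd (nat_lit 78) (nat_lit 532) (nat_lit 0) (XT.lf (nat_lit 0) (nat_lit 22302138426) (nat_lit 608) (nat_lit 11670893958) (nat_lit 76) (nat_lit 10205812889) (nat_lit 127) (nat_lit 5) (nat_lit 135) (nat_lit 5) (nat_lit 128) (nat_lit 5) (nat_lit 295) (nat_lit 281) (nat_lit 144)) (XT.lf (nat_lit 0) (nat_lit 20872521419) (nat_lit 532) (nat_lit 7798667360) (nat_lit 608) (nat_lit 16806341445) (nat_lit 120) (nat_lit 5) (nat_lit 127) (nat_lit 5) (nat_lit 128) (nat_lit 5) (nat_lit 296) (nat_lit 281) (nat_lit 143)))))) (XT.nd (nat_lit 390) (nat_lit 1596) (nat_lit 0) (XT.nd (nat_lit 156) (nat_lit 1444) (nat_lit 0) (XT.nd (nat_lit 78) (nat_lit 0) (nat_lit 0) (XT.lf (nat_lit 0) (nat_lit 8419730922) (nat_lit 456) (nat_lit 27326815605) (nat_lit 532) (nat_lit 11082975303) (nat_lit 114) (nat_lit 5) (nat_lit 120) (nat_lit 5)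 (nat_lit 121) (nat_lit 5) (nat_lit 297) (nat_lit 281) (nat_lit 142)) (XT.lf (nat_lit 0) (nat_lit 43503627920) (nat_lit 532) (nat_lit 4713413500) (nat_lit 76) (nat_lit 22240592) (nat_lit 114) (nat_lit 5) (nat_lit 121) (nat_lit 5) (nat_lit 115) (nat_lit 5) (nat_lit 298) (nat_lit 281) (nat_lit 141))) (XT.nd (nat_lit 78) (nat_lit 912) (nat_lit 0) (XT.lf (nat_lit 0) (nat_lit 2467449005) (nat_lit 532) (nat_lit 18733304305) (nat_lit 76) (nat_lit 28500945945) (nat_lit 107) (nat_lit 5) (nat_lit 114) (nat_lit 5) (nat_lit 108) (nat_lit 5) (nat_lit 299) (nat_lit 281) (nat_lit 140)) (XT.nd (nat_lit 78) (nat_lit 456) (nat_lit 0) (XT.lf (nat_lit 0) (nat_lit 10220030094) (nat_lit 532) (nat_lit 33712356329) (nat_lit 76) (nat_lit 7294833159) (nat_lit 101) (nat_lit 5) (nat_lit 108) (nat_lit 5) (nat_lit 102) (nat_lit 5) (nat_lit 300) (nat_lit 281) (nat_lit 139)) (XT.lf (nat_lit 0) (nat_lit 2982567770) (nat_lit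 456) (nat_lit 15811962019) (nat_lit 532) (nat_lit 34021463882) (nat_lit 95) (nat_lit 5) (nat_lit 101) (nat_lit 5) (nat_lit 102) (nat_lit 5) (nat_lit 301) (nat_lit 281) (nat_lit 138))))) (XT.nd (nat_lit 234) (nat_lit 836) (nat_lit 0) (XT.nd (nat_lit 78) (nat_lit 760) (nat_lit 0) (XT.lf (nat_lit 0) (nat_lit 28277057681) (nat_lit 532) (nat_lit 12395749944) (nat_lit 76) (nat_lit 13797025868) (nat_lit 95) (nat_lit 5) (nat_lit 102) (nat_lit 5) (nat_lit 96) (nat_lit 5) (nat_lit 302) (nat_lit 281) (nat_lit 137)) (XT.nd (nat_lit 78) (nat_lit 380) (nat_lit 0) (XT.lf (nat_lit 0) (nat_lit 27283361275) (nat_lit 380) (nat_lit 11369348267) (nat_lit 456) (nat_lit 17541091670) (nat_lit 90) (nat_lit 5) (nat_lit 95) (nat_lit 5) (nat_lit 96) (nat_lit 5) (nat_lit 303) (nat_lit 281) (nat_lit 136)) (XT.lf (nat_lit 0) (nat_lit 11233546978) (nat_lit 380) (nat_lit 38734166483) (nat_lit 456) (nat_lit 8023642329) (nat_lit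 85) (nat_lit 5) (nat_lit 90) (nat_lit 5) (nat_lit 91) (nat_lit 5) (nat_lit 304) (nat_lit 281) (nat_lit 135)))) (XT.nd (nat_lit 78) (nat_lit 760) (nat_lit 0) (XT.lf (nat_lit 0) (nat_lit 2343862443) (nat_lit 456) (nat_lit 6020825495) (nat_lit 76) (nat_lit 51501158729) (nat_lit 84) (nat_lit 5) (nat_lit 90) (nat_lit 5) (nat_lit 85) (nat_lit 5) (nat_lit 305) (nat_lit 281) (nat_lit 134)) (XT.nd (nat_lit 78) (nat_lit 380) (nat_lit 0) (XT.lf (nat_lit 0) (nat_lit 13652758845) (nat_lit 456) (nat_lit 24652654308) (nat_lit 76) (nat_lit 23508601837) (nat_lit 79) (nat_lit 5) (nat_lit 85) (nat_lit 5) (nat_lit 80) (nat_lit 5) (nat_lit 306) (nat_lit 281) (nat_lit 133)) (XT.lf (nat_lit 0) (nat_lit 19054480825) (nat_lit 380) (nat_lit 6800329648) (nat_lit 456) (nat_lit 37994954604) (nat_lit 74) (nat_lit 5) (nat_lit 79) (nat_lit 5) (nat_lit 80) (nat_lit 5) (nat_lit 307) (nat_lit 281) (nat_lit 132))))))))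
noncomputable def xc115 : XT := (XT.nd (nat_lit 36036) (nat_lit 0) (nat_lit 2660) (XT.nd (nat_lit 780) (nat_lit 760) (nat_lit 0) (XT.nd (nat_lit 390) (nat_lit 912) (nat_lit 0) (XT.nd (nat_lit 156) (nat_lit 684) (nat_lit 0) (XT.nd (nat_lit 78) (nat_lit 304) (nat_lit 0) (XT.lf (nat_lit 0) (nat_lit 39173485532) (nat_lit 456) (nat_lit 775705686) (nat_lit 76) (nat_lit 26022920263) (nat_lit 74) (nat_lit 5) (nat_lit 80) (nat_lit 5) (nat_lit 75) (nat_lit 5) (nat_lit 308) (nat_lit 281) (nat_lit 131)) (XT.lf (nat_lit 0) (nat_lit 46276351920) (nat_lit 304) (nat_lit 7392941510) (nat_lit 380) (nat_lit 14515950029) (nat_lit 70) (nat_lit 5) (nat_lit 74) (nat_lit 5) (nat_lit 75) (nat_lit 5) (nat_lit 309) (nat_lit 281) (nat_lit 130))) (XT.nd (nat_lit 78) (nat_lit 380) (nat_lit 0) (XT.lf (nat_lit 0) (nat_lit 25424071137) (nat_lit 304) (nat_lit 43973609944) (nat_lit 380) (nat_lit 1096121299) (nat_lit 66) (nat_lit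 5) (nat_lit 70) (nat_lit 5) (nat_lit 71) (nat_lit 5) (nat_lit 310) (nat_lit 281) (nat_lit 129)) (XT.nd (nat_lit 78) (nat_lit 0) (nat_lit 0) (XT.lf (nat_lit 0) (nat_lit 2514974911) (nat_lit 304) (nat_lit 10550564473) (nat_lit 380) (nat_lit 59838773778) (nat_lit 61) (nat_lit 5) (nat_lit 65) (nat_lit 5) (nat_lit 66) (nat_lit 5) (nat_lit 311) (nat_lit 281) (nat_lit 128)) (XT.lf (nat_lit 0) (nat_lit 28615222766) (nat_lit 380) (nat_lit 22255079899) (nat_lit 76) (nat_lit 24543646509) (nat_lit 61) (nat_lit 5) (nat_lit 66) (nat_lit 5) (nat_lit 62) (nat_lit 5) (nat_lit 312) (nat_lit 281) (nat_lit 127))))) (XT.nd (nat_lit 156) (nat_lit 380) (nat_lit 0) (XT.nd (nat_lit 78) (nat_lit 228) (nat_lit 0) (XT.lf (nat_lit 0) (nat_lit 28737502941) (nat_lit 304) (nat_lit 16585641401) (nat_lit 380) (nat_lit 32714503399) (nat_lit 57) (nat_lit 5) (nat_lit 61) (nat_lit 5) (nat_lit 62) (nat_lit 5) (nat_lit 313) (nat_lit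 281) (nat_lit 126)) (XT.lf (nat_lit 0) (nat_lit 1802771999) (nat_lit 228) (nat_lit 61497080914) (nat_lit 304) (nat_lit 17479679812) (nat_lit 54) (nat_lit 5) (nat_lit 57) (nat_lit 5) (nat_lit 58) (nat_lit 5) (nat_lit 314) (nat_lit 281) (nat_lit 125))) (XT.nd (nat_lit 78) (nat_lit 380) (nat_lit 0) (XT.lf (nat_lit 0) (nat_lit 56317755517) (nat_lit 228) (nat_lit 26529055859) (nat_lit 304) (nat_lit 791561210) (nat_lit 54) (nat_lit 5) (nat_lit 57) (nat_lit 5) (nat_lit 58) (nat_lit 5) (nat_lit 315) (nat_lit 281) (nat_lit 124)) (XT.nd (nat_lit 78) (nat_lit 0) (nat_lit 0) (XT.lf (nat_lit 0) (nat_lit 16767114944) (nat_lit 380) (nat_lit 59442132154) (nat_lit 76) (nat_lit 10415206335) (nat_lit 49) (nat_lit 5) (nat_lit 54) (nat_lit 5) (nat_lit 50) (nat_lit 5) (nat_lit 316) (nat_lit 281) (nat_lit 123)) (XT.lf (nat_lit 0) (nat_lit 35737570685) (nat_lit 380) (nat_lit 5051076785) (nat_lit 76) (nat_lit 48954451939)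 (nat_lit 49) (nat_lit 5) (nat_lit 54) (nat_lit 5) (nat_lit 50) (nat_lit 5) (nat_lit 317) (nat_lit 281) (nat_lit 122)))))) (XT.nd (nat_lit 34788) (nat_lit 0) (nat_lit 8512) (XT.nd (nat_lit 156) (nat_lit 304) (nat_lit 0) (XT.nd (nat_lit 78) (nat_lit 228) (nat_lit 0) (XT.lf (nat_lit 0) (nat_lit 53093224133) (nat_lit 228) (nat_lit 3072045717) (nat_lit 304) (nat_lit 36837148782) (nat_lit 46) (nat_lit 5) (nat_lit 49) (nat_lit 5) (nat_lit 50) (nat_lit 5) (nat_lit 318) (nat_lit 281) (nat_lit 121)) (XT.lf (nat_lit 0) (nat_lit 17820908306) (nat_lit 228) (nat_lit 60366820549) (nat_lit 304) (nat_lit 18219776160) (nat_lit 43) (nat_lit 5) (nat_lit 46) (nat_lit 5) (nat_lit 47) (nat_lit 5) (nat_lit 319) (nat_lit 281) (nat_lit 120))) (XT.nd (nat_lit 78) (nat_lit 228) (nat_lit 0) (XT.lf (nat_lit 0) (nat_lit 1746888907) (nat_lit 304) (nat_lit 20749154376) (nat_lit 76) (nat_lit 77473091187) (nat_lit 42) (nat_lit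 5) (nat_lit 46) (nat_lit 5) (nat_lit 43) (nat_lit 5) (nat_lit 320) (nat_lit 281) (nat_lit 119)) (XT.nd (nat_lit 34476) (nat_lit 0) (nat_lit 8512) (XT.lf (nat_lit 0) (nat_lit 22898901823) (nat_lit 304) (nat_lit 63277278291) (nat_lit 76) (nat_lit 17510340797) (nat_lit 39) (nat_lit 5) (nat_lit 43) (nat_lit 5) (nat_lit 40) (nat_lit 5) (nat_lit 321) (nat_lit 281) (nat_lit 118)) (XT.lf (nat_lit 0) (nat_lit 9664022813) (nat_lit 1140) (nat_lit 3161791363) (nat_lit 1140) (nat_lit 3161791363) (nat_lit 151) (nat_lit 3) (nat_lit 166) (nat_lit 3) (nat_lit 166) (nat_lit 5) (nat_lit 282) (nat_lit 282) (nat_lit 156))))) (XT.nd (nat_lit 234) (nat_lit 0) (nat_lit 152) (XT.nd (nat_lit 78) (nat_lit 0) (nat_lit 76) (XT.lf (nat_lit 76) (nat_lit 16123978472) (nat_lit 0) (nat_lit 3937516654) (nat_lit 1140) (nat_lit 12705356095) (nat_lit 152) (nat_lit 5) (nat_lit 151) (nat_lit 3) (nat_lit 166) (nat_lit 5) (nat_lit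 283) (nat_lit 282) (nat_lit 155)) (XT.nd (nat_lit 78) (nat_lit 0) (nat_lit 76) (XT.lf (nat_lit 76) (nat_lit 6164842205) (nat_lit 0) (nat_lit 14966991011) (nat_lit 1140) (nat_lit 12457248564) (nat_lit 153) (nat_lit 5) (nat_lit 152) (nat_lit 5) (nat_lit 167) (nat_lit 5) (nat_lit 284) (nat_lit 282) (nat_lit 154)) (XT.lf (nat_lit 0) (nat_lit 22537003836) (nat_lit 1064) (nat_lit 4105916019) (nat_lit 1140) (nat_lit 7801078729) (nat_lit 153) (nat_lit 5) (nat_lit 167) (nat_lit 5) (nat_lit 168) (nat_lit 5) (nat_lit 285) (nat_lit 282) (nat_lit 153)))) (XT.nd (nat_lit 78) (nat_lit 0) (nat_lit 76) (XT.lf (nat_lit 76) (nat_lit 20626370085) (nat_lit 0) (nat_lit 3729860851) (nat_lit 1140) (nat_lit 10975129863) (nat_lit 154) (nat_lit 5) (nat_lit 153) (nat_lit 5) (nat_lit 168) (nat_lit 5) (nat_lit 286) (nat_lit 282) (nat_lit 152)) (XT.nd (nat_lit 78) (nat_lit 0) (nat_lit 76) (XT.lf (nat_lit 76) (nat_lit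 10423336413) (nat_lit 0) (nat_lit 16176087981) (nat_lit 1140) (nat_lit 9653689448) (nat_lit 155) (nat_lit 5) (nat_lit 154) (nat_lit 5) (nat_lit 169) (nat_lit 5) (nat_lit 287) (nat_lit 282) (nat_lit 151)) (XT.lf (nat_lit 0) (nat_lit 29214638385) (nat_lit 1064) (nat_lit 218140192) (nat_lit 1140) (nat_lit 7780392388) (nat_lit 155) (nat_lit 5) (nat_lit 169) (nat_lit 5) (nat_lit 170) (nat_lit 5) (nat_lit 288) (nat_lit 282) (nat_lit 150))))))) (XT.nd (nat_lit 780) (nat_lit 3040) (nat_lit 0) (XT.nd (nat_lit 390) (nat_lit 2128) (nat_lit 0) (XT.nd (nat_lit 156) (nat_lit 988) (nat_lit 0) (XT.nd (nat_lit 78) (nat_lit 0) (nat_lit 76) (XT.lf (nat_lit 76) (nat_lit 27034970373) (nat_lit 0) (nat_lit 5343975745) (nat_lit 1140) (nat_lit 5829746505) (nat_lit 156) (nat_lit 5) (nat_lit 155) (nat_lit 5) (nat_lit 170) (nat_lit 5) (nat_lit 289) (nat_lit 282) (nat_lit 149)) (XT.lf (nat_lit 76) (nat_lit 16528664793)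 (nat_lit 0) (nat_lit 19521117891) (nat_lit 1140) (nat_lit 3193769392) (nat_lit 157) (nat_lit 5) (nat_lit 156) (nat_lit 5) (nat_lit 171) (nat_lit 5) (nat_lit 290) (nat_lit 282) (nat_lit 148))) (XT.nd (nat_lit 78) (nat_lit 1140) (nat_lit 0) (XT.lf (nat_lit 76) (nat_lit 5518734103) (nat_lit 0) (nat_lit 34657507815) (nat_lit 1140) (nat_lit 145760745) (nat_lit 158) (nat_lit 5) (nat_lit 157) (nat_lit 5) (nat_lit 172) (nat_lit 5) (nat_lit 291) (nat_lit 282) (nat_lit 147)) (XT.nd (nat_lit 78) (nat_lit 0) (nat_lit 76) (XT.lf (nat_lit 0) (nat_lit 3423937223) (nat_lit 1140) (nat_lit 6040862451) (nat_lit 1216) (nat_lit 31975838114) (nat_lit 142) (nat_lit 5) (nat_lit 157) (nat_lit 5) (nat_lit 158) (nat_lit 5) (nat_lit 292) (nat_lit 282) (nat_lit 146)) (XT.lf (nat_lit 0) (nat_lit 7567530558) (nat_lit 1140) (nat_lit 18138263019) (nat_lit 76) (nat_lit 16897424369) (nat_lit 143) (nat_lit 5) (nat_lit 158)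 (nat_lit 5) (nat_lit 144) (nat_lit 5) (nat_lit 293) (nat_lit 282) (nat_lit 145))))) (XT.nd (nat_lit 156) (nat_lit 988) (nat_lit 0) (XT.nd (nat_lit 78) (nat_lit 532) (nat_lit 0) (XT.lf (nat_lit 0) (nat_lit 12204514526) (nat_lit 760) (nat_lit 30869349458) (nat_lit 76) (nat_lit 741485676) (nat_lit 134) (nat_lit 5) (nat_lit 144) (nat_lit 5) (nat_lit 135) (nat_lit 5) (nat_lit 294) (nat_lit 282) (nat_lit 144)) (XT.lf (nat_lit 0) (nat_lit 628586973) (nat_lit 532) (nat_lit 16895076200) (nat_lit 608) (nat_lit 27550923779) (nat_lit 127) (nat_lit 5) (nat_lit 134) (nat_lit 5) (nat_lit 135) (nat_lit 5) (nat_lit 295) (nat_lit 282) (nat_lit 143))) (XT.nd (nat_lit 78) (nat_lit 988) (nat_lit 0) (XT.lf (nat_lit 0) (nat_lit 23527913037) (nat_lit 608) (nat_lit 12149146839) (nat_lit 76) (nat_lit 10707159970) (nat_lit 127) (nat_lit 5) (nat_lit 135) (nat_lit 5) (nat_lit 128) (nat_lit 5) (nat_lit 296) (nat_lit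 282) (nat_lit 142)) (XT.nd (nat_lit 78) (nat_lit 456) (nat_lit 0) (XT.lf (nat_lit 0) (nat_lit 22018421139) (nat_lit 532) (nat_lit 8192707995) (nat_lit 608) (nat_lit 17536850307) (nat_lit 120) (nat_lit 5) (nat_lit 127) (nat_lit 5) (nat_lit 128) (nat_lit 5) (nat_lit 297) (nat_lit 282) (nat_lit 141)) (XT.lf (nat_lit 0) (nat_lit 8943426864) (nat_lit 456) (nat_lit 28692711851) (nat_lit 532) (nat_lit 11531566625) (nat_lit 114) (nat_lit 5) (nat_lit 120) (nat_lit 5) (nat_lit 121) (nat_lit 5) (nat_lit 298) (nat_lit 282) (nat_lit 140)))))) (XT.nd (nat_lit 390) (nat_lit 1596) (nat_lit 0) (XT.nd (nat_lit 156) (nat_lit 912) (nat_lit 0) (XT.nd (nat_lit 78) (nat_lit 532) (nat_lit 0) (XT.lf (nat_lit 0) (nat_lit 45776208492) (nat_lit 532) (nat_lit 4848133980) (nat_lit 76) (nat_lit 23767726) (nat_lit 114) (nat_lit 5) (nat_lit 121) (nat_lit 5) (nat_lit 115) (nat_lit 5) (nat_lit 299) (nat_lit 282) (nat_lit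 139)) (XT.lf (nat_lit 0) (nat_lit 2685652689) (nat_lit 532) (nat_lit 19569827899) (nat_lit 76) (nat_lit 29928260877) (nat_lit 107) (nat_lit 5) (nat_lit 114) (nat_lit 5) (nat_lit 108) (nat_lit 5) (nat_lit 300) (nat_lit 282) (nat_lit 138))) (XT.nd (nat_lit 78) (nat_lit 456) (nat_lit 0) (XT.lf (nat_lit 0) (nat_lit 10822339962) (nat_lit 532) (nat_lit 35297835026) (nat_lit 76) (nat_lit 7665477926) (nat_lit 101) (nat_lit 5) (nat_lit 108) (nat_lit 5) (nat_lit 102) (nat_lit 5) (nat_lit 301) (nat_lit 282) (nat_lit 137)) (XT.nd (nat_lit 78) (nat_lit 0) (nat_lit 0) (XT.lf (nat_lit 0) (nat_lit 3228964810) (nat_lit 456) (nat_lit 16593186820) (nat_lit 532) (nat_lit 35631825439) (nat_lit 95) (nat_lit 5) (nat_lit 101) (nat_lit 5) (nat_lit 102) (nat_lit 5) (nat_lit 302) (nat_lit 282) (nat_lit 136)) (XT.lf (nat_lit 0) (nat_lit 29774706235) (nat_lit 532) (nat_lit 12920304265) (nat_lit 76) (nat_lit 14495629916)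 (nat_lit 95) (nat_lit 5) (nat_lit 102) (nat_lit 5) (nat_lit 96) (nat_lit 5) (nat_lit 303) (nat_lit 282) (nat_lit 135))))) (XT.nd (nat_lit 234) (nat_lit 760) (nat_lit 0) (XT.nd (nat_lit 78) (nat_lit 456) (nat_lit 0) (XT.lf (nat_lit 0) (nat_lit 28740032675) (nat_lit 380) (nat_lit 11926006943) (nat_lit 456) (nat_lit 18334868073) (nat_lit 90) (nat_lit 5) (nat_lit 95) (nat_lit 5) (nat_lit 96) (nat_lit 5) (nat_lit 304) (nat_lit 282) (nat_lit 134)) (XT.nd (nat_lit 78) (nat_lit 76) (nat_lit 0) (XT.lf (nat_lit 0) (nat_lit 11887475339) (nat_lit 380) (nat_lit 40656470675) (nat_lit 456) (nat_lit 8344487165) (nat_lit 85) (nat_lit 5) (nat_lit 90) (nat_lit 5) (nat_lit 91) (nat_lit 5) (nat_lit 305) (nat_lit 282) (nat_lit 133)) (XT.lf (nat_lit 0) (nat_lit 2536074241) (nat_lit 456) (nat_lit 6232372330) (nat_lit 76) (nat_lit 54088298554) (nat_lit 84) (nat_lit 5) (nat_lit 90) (nat_lit 5) (nat_lit 85) (nat_lit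 5) (nat_lit 306) (nat_lit 282) (nat_lit 132)))) (XT.nd (nat_lit 78) (nat_lit 380) (nat_lit 0) (XT.lf (nat_lit 0) (nat_lit 14407819558) (nat_lit 456) (nat_lit 25796193773) (nat_lit 76) (nat_lit 24698393235) (nat_lit 79) (nat_lit 5) (nat_lit 85) (nat_lit 5) (nat_lit 80) (nat_lit 5) (nat_lit 307) (nat_lit 282) (nat_lit 131)) (XT.nd (nat_lit 78) (nat_lit 0) (nat_lit 0) (XT.lf (nat_lit 0) (nat_lit 20093744277) (nat_lit 380) (nat_lit 7123612657) (nat_lit 456) (nat_lit 39822672228) (nat_lit 74) (nat_lit 5) (nat_lit 79) (nat_lit 5) (nat_lit 80) (nat_lit 5) (nat_lit 308) (nat_lit 282) (nat_lit 130)) (XT.lf (nat_lit 0) (nat_lit 41198794846) (nat_lit 456) (nat_lit 730107421) (nat_lit 76) (nat_lit 27339691936) (nat_lit 74) (nat_lit 5) (nat_lit 80) (nat_lit 5) (nat_lit 75) (nat_lit 5) (nat_lit 309) (nat_lit 282) (nat_lit 129))))))))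
noncomputable def xc116 : XT := (XT.nd (nat_lit 36192) (nat_lit 0) (nat_lit 1368) (XT.nd (nat_lit 780) (nat_lit 228) (nat_lit 0) (XT.nd (nat_lit 390) (nat_lit 836) (nat_lit 0) (XT.nd (nat_lit 156) (nat_lit 684) (nat_lit 0) (XT.nd (nat_lit 78) (nat_lit 304) (nat_lit 0) (XT.lf (nat_lit 0) (nat_lit 48672134228) (nat_lit 304) (nat_lit 7744873709) (nat_lit 380) (nat_lit 15175452294) (nat_lit 70) (nat_lit 5) (nat_lit 74) (nat_lit 5) (nat_lit 75) (nat_lit 5) (nat_lit 310) (nat_lit 282) (nat_lit 128)) (XT.lf (nat_lit 0) (nat_lit 26776711268) (nat_lit 304) (nat_lit 46152989183) (nat_lit 380) (nat_lit 1086815698) (nat_lit 66) (nat_lit 5) (nat_lit 70) (nat_lit 5) (nat_lit 71) (nat_lit 5) (nat_lit 311) (nat_lit 282) (nat_lit 127))) (XT.nd (nat_lit 78) (nat_lit 304) (nat_lit 0) (XT.lf (nat_lit 0) (nat_lit 2721146951) (nat_lit 304) (nat_lit 11058309734) (nat_lit 380) (nat_lit 62768149098) (nat_lit 61)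 (nat_lit 5) (nat_lit 65) (nat_lit 5) (nat_lit 66) (nat_lit 5) (nat_lit 312) (nat_lit 282) (nat_lit 126)) (XT.nd (nat_lit 78) (nat_lit 304) (nat_lit 0) (XT.lf (nat_lit 0) (nat_lit 30103917711) (nat_lit 380) (nat_lit 23289589926) (nat_lit 76) (nat_lit 25789302098) (nat_lit 61) (nat_lit 5) (nat_lit 66) (nat_lit 5) (nat_lit 62) (nat_lit 5) (nat_lit 313) (nat_lit 282) (nat_lit 125)) (XT.lf (nat_lit 0) (nat_lit 30250379209) (nat_lit 304) (nat_lit 17394827974) (nat_lit 380) (nat_lit 34292551601) (nat_lit 57) (nat_lit 5) (nat_lit 61) (nat_lit 5) (nat_lit 62) (nat_lit 5) (nat_lit 314) (nat_lit 282) (nat_lit 124))))) (XT.nd (nat_lit 156) (nat_lit 608) (nat_lit 0) (XT.nd (nat_lit 78) (nat_lit 0) (nat_lit 0) (XT.lf (nat_lit 0) (nat_lit 1968266098) (nat_lit 228) (nat_lit 64550731246) (nat_lit 304) (nat_lit 18297797773) (nat_lit 54) (nat_lit 5) (nat_lit 57) (nat_lit 5) (nat_lit 58) (nat_lit 5) (nat_lit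 315) (nat_lit 282) (nat_lit 123)) (XT.lf (nat_lit 0) (nat_lit 59205410435) (nat_lit 228) (nat_lit 27835314639) (nat_lit 304) (nat_lit 777933528) (nat_lit 54) (nat_lit 5) (nat_lit 57) (nat_lit 5) (nat_lit 58) (nat_lit 5) (nat_lit 316) (nat_lit 282) (nat_lit 122))) (XT.nd (nat_lit 78) (nat_lit 228) (nat_lit 0) (XT.lf (nat_lit 0) (nat_lit 17656031029) (nat_lit 380) (nat_lit 62342046316) (nat_lit 76) (nat_lit 10956002967) (nat_lit 49) (nat_lit 5) (nat_lit 54) (nat_lit 5) (nat_lit 50) (nat_lit 5) (nat_lit 317) (nat_lit 282) (nat_lit 121)) (XT.nd (nat_lit 78) (nat_lit 228) (nat_lit 0) (XT.lf (nat_lit 0) (nat_lit 37572601922) (nat_lit 380) (nat_lit 5234875913) (nat_lit 76) (nat_lit 51421256742) (nat_lit 49) (nat_lit 5) (nat_lit 54) (nat_lit 5) (nat_lit 50) (nat_lit 5) (nat_lit 318) (nat_lit 282) (nat_lit 120)) (XT.lf (nat_lit 0) (nat_lit 55814669210) (nat_lit 228) (nat_lit 3205365816) (nat_lit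 304) (nat_lit 38631037847) (nat_lit 46) (nat_lit 5) (nat_lit 49) (nat_lit 5) (nat_lit 50) (nat_lit 5) (nat_lit 319) (nat_lit 282) (nat_lit 119)))))) (XT.nd (nat_lit 34944) (nat_lit 0) (nat_lit 8360) (XT.nd (nat_lit 34710) (nat_lit 0) (nat_lit 8208) (XT.nd (nat_lit 34632) (nat_lit 0) (nat_lit 8208) (XT.lf (nat_lit 0) (nat_lit 18778058517) (nat_lit 228) (nat_lit 63364165219) (nat_lit 304) (nat_lit 19084235048) (nat_lit 43) (nat_lit 5) (nat_lit 46) (nat_lit 5) (nat_lit 47) (nat_lit 5) (nat_lit 320) (nat_lit 282) (nat_lit 118)) (XT.lf (nat_lit 0) (nat_lit 10240991573) (nat_lit 1140) (nat_lit 3271476081) (nat_lit 1140) (nat_lit 3271476081) (nat_lit 151) (nat_lit 3) (nat_lit 166) (nat_lit 3) (nat_lit 166) (nat_lit 5) (nat_lit 283) (nat_lit 283) (nat_lit 154))) (XT.nd (nat_lit 78) (nat_lit 0) (nat_lit 76) (XT.lf (nat_lit 76) (nat_lit 17024212065) (nat_lit 0) (nat_lit 4219866724) (nat_lit 1140)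 (nat_lit 13155293435) (nat_lit 152) (nat_lit 5) (nat_lit 151) (nat_lit 3) (nat_lit 166) (nat_lit 5) (nat_lit 284) (nat_lit 283) (nat_lit 153)) (XT.nd (nat_lit 78) (nat_lit 0) (nat_lit 76) (XT.lf (nat_lit 76) (nat_lit 6570876263) (nat_lit 0) (nat_lit 15788667009) (nat_lit 1140) (nat_lit 12903443531) (nat_lit 153) (nat_lit 5) (nat_lit 152) (nat_lit 5) (nat_lit 167) (nat_lit 5) (nat_lit 285) (nat_lit 283) (nat_lit 152)) (XT.lf (nat_lit 0) (nat_lit 23826152633) (nat_lit 1064) (nat_lit 4212120513) (nat_lit 1140) (nat_lit 8122660680) (nat_lit 153) (nat_lit 5) (nat_lit 167) (nat_lit 5) (nat_lit 168) (nat_lit 5) (nat_lit 286) (nat_lit 283) (nat_lit 151))))) (XT.nd (nat_lit 234) (nat_lit 0) (nat_lit 152) (XT.nd (nat_lit 78) (nat_lit 0) (nat_lit 76) (XT.lf (nat_lit 76) (nat_lit 21753939465) (nat_lit 0) (nat_lit 3975598341) (nat_lit 1140) (nat_lit 11363349290) (nat_lit 154) (nat_lit 5) (nat_lit 153)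 (nat_lit 5) (nat_lit 168) (nat_lit 5) (nat_lit 287) (nat_lit 283) (nat_lit 150)) (XT.nd (nat_lit 78) (nat_lit 0) (nat_lit 76) (XT.lf (nat_lit 76) (nat_lit 11043445490) (nat_lit 0) (nat_lit 17034449627) (nat_lit 1140) (nat_lit 9983060495) (nat_lit 155) (nat_lit 5) (nat_lit 154) (nat_lit 5) (nat_lit 169) (nat_lit 5) (nat_lit 288) (nat_lit 283) (nat_lit 149)) (XT.lf (nat_lit 0) (nat_lit 30816344712) (nat_lit 1064) (nat_lit 129778104) (nat_lit 1140) (nat_lit 8123135621) (nat_lit 155) (nat_lit 5) (nat_lit 169) (nat_lit 5) (nat_lit 170) (nat_lit 5) (nat_lit 289) (nat_lit 283) (nat_lit 148)))) (XT.nd (nat_lit 78) (nat_lit 0) (nat_lit 76) (XT.lf (nat_lit 76) (nat_lit 28483142461) (nat_lit 0) (nat_lit 5649939186) (nat_lit 1140) (nat_lit 5981664394) (nat_lit 156) (nat_lit 5) (nat_lit 155) (nat_lit 5) (nat_lit 170) (nat_lit 5) (nat_lit 290) (nat_lit 283) (nat_lit 147)) (XT.nd (nat_lit 78) (nat_lit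 0) (nat_lit 76) (XT.lf (nat_lit 76) (nat_lit 17453375215) (nat_lit 0) (nat_lit 20528237107) (nat_lit 1140) (nat_lit 3219927080) (nat_lit 157) (nat_lit 5) (nat_lit 156) (nat_lit 5) (nat_lit 171) (nat_lit 5) (nat_lit 291) (nat_lit 283) (nat_lit 146)) (XT.lf (nat_lit 76) (nat_lit 5894491100) (nat_lit 0) (nat_lit 36414419498) (nat_lit 1140) (nat_lit 25181201) (nat_lit 158) (nat_lit 5) (nat_lit 157) (nat_lit 5) (nat_lit 172) (nat_lit 5) (nat_lit 292) (nat_lit 283) (nat_lit 145))))))) (XT.nd (nat_lit 780) (nat_lit 3040) (nat_lit 0) (XT.nd (nat_lit 390) (nat_lit 1976) (nat_lit 0) (XT.nd (nat_lit 156) (nat_lit 1140) (nat_lit 0) (XT.nd (nat_lit 78) (nat_lit 0) (nat_lit 76) (XT.lf (nat_lit 0) (nat_lit 3714536392) (nat_lit 1140) (nat_lit 6245189244) (nat_lit 1216) (nat_lit 33549088927) (nat_lit 142) (nat_lit 5) (nat_lit 157) (nat_lit 5) (nat_lit 158) (nat_lit 5) (nat_lit 293) (nat_lit 283) (nat_lit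 144)) (XT.lf (nat_lit 0) (nat_lit 8060346455) (nat_lit 1140) (nat_lit 18946372451) (nat_lit 76) (nat_lit 17722966713) (nat_lit 143) (nat_lit 5) (nat_lit 158) (nat_lit 5) (nat_lit 144) (nat_lit 5) (nat_lit 294) (nat_lit 283) (nat_lit 143))) (XT.nd (nat_lit 78) (nat_lit 532) (nat_lit 0) (XT.lf (nat_lit 0) (nat_lit 12924518657) (nat_lit 760) (nat_lit 32313166360) (nat_lit 76) (nat_lit 764891114) (nat_lit 134) (nat_lit 5) (nat_lit 144) (nat_lit 5) (nat_lit 135) (nat_lit 5) (nat_lit 295) (nat_lit 283) (nat_lit 142)) (XT.nd (nat_lit 78) (nat_lit 0) (nat_lit 0) (XT.lf (nat_lit 0) (nat_lit 756810430) (nat_lit 532) (nat_lit 17748517207) (nat_lit 608) (nat_lit 28819588356) (nat_lit 127) (nat_lit 5) (nat_lit 134) (nat_lit 5) (nat_lit 135) (nat_lit 5) (nat_lit 296) (nat_lit 283) (nat_lit 141)) (XT.lf (nat_lit 0) (nat_lit 24804687545) (nat_lit 608) (nat_lit 12661101399) (nat_lit 76) (nat_lit 11234405894)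 (nat_lit 127) (nat_lit 5) (nat_lit 135) (nat_lit 5) (nat_lit 128) (nat_lit 5) (nat_lit 297) (nat_lit 283) (nat_lit 140))))) (XT.nd (nat_lit 156) (nat_lit 988) (nat_lit 0) (XT.nd (nat_lit 78) (nat_lit 456) (nat_lit 0) (XT.lf (nat_lit 0) (nat_lit 23212107409) (nat_lit 532) (nat_lit 8606068808) (nat_lit 608) (nat_lit 18314093539) (nat_lit 120) (nat_lit 5) (nat_lit 127) (nat_lit 5) (nat_lit 128) (nat_lit 5) (nat_lit 298) (nat_lit 283) (nat_lit 139)) (XT.lf (nat_lit 0) (nat_lit 9483758657) (nat_lit 456) (nat_lit 30126944238) (nat_lit 532) (nat_lit 12012401244) (nat_lit 114) (nat_lit 5) (nat_lit 120) (nat_lit 5) (nat_lit 121) (nat_lit 5) (nat_lit 299) (nat_lit 283) (nat_lit 138))) (XT.nd (nat_lit 78) (nat_lit 988) (nat_lit 0) (XT.lf (nat_lit 0) (nat_lit 48153362840) (nat_lit 532) (nat_lit 4998975877) (nat_lit 76) (nat_lit 25332625) (nat_lit 114) (nat_lit 5) (nat_lit 121) (nat_lit 5) (nat_lit 115)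 (nat_lit 5) (nat_lit 300) (nat_lit 283) (nat_lit 137)) (XT.nd (nat_lit 78) (nat_lit 456) (nat_lit 0) (XT.lf (nat_lit 0) (nat_lit 2905950048) (nat_lit 532) (nat_lit 20457487892) (nat_lit 76) (nat_lit 31426730732) (nat_lit 107) (nat_lit 5) (nat_lit 114) (nat_lit 5) (nat_lit 108) (nat_lit 5) (nat_lit 301) (nat_lit 283) (nat_lit 136)) (XT.lf (nat_lit 0) (nat_lit 11446276337) (nat_lit 532) (nat_lit 36971897644) (nat_lit 76) (nat_lit 8054106116) (nat_lit 101) (nat_lit 5) (nat_lit 108) (nat_lit 5) (nat_lit 102) (nat_lit 5) (nat_lit 302) (nat_lit 283) (nat_lit 135)))))) (XT.nd (nat_lit 390) (nat_lit 1748) (nat_lit 0) (XT.nd (nat_lit 156) (nat_lit 836) (nat_lit 0) (XT.nd (nat_lit 78) (nat_lit 0) (nat_lit 0) (XT.lf (nat_lit 0) (nat_lit 3478638584) (nat_lit 456) (nat_lit 17414344302) (nat_lit 532) (nat_lit 37331138582) (nat_lit 95) (nat_lit 5) (nat_lit 101) (nat_lit 5) (nat_lit 102) (nat_lit 5) (nat_lit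 303) (nat_lit 283) (nat_lit 134)) (XT.lf (nat_lit 0) (nat_lit 31339446690) (nat_lit 532) (nat_lit 13479940180) (nat_lit 76) (nat_lit 15228350419) (nat_lit 95) (nat_lit 5) (nat_lit 102) (nat_lit 5) (nat_lit 96) (nat_lit 5) (nat_lit 304) (nat_lit 283) (nat_lit 133))) (XT.nd (nat_lit 78) (nat_lit 456) (nat_lit 0) (XT.lf (nat_lit 0) (nat_lit 30260937562) (nat_lit 380) (nat_lit 12511596416) (nat_lit 456) (nat_lit 19176075712) (nat_lit 90) (nat_lit 5) (nat_lit 95) (nat_lit 5) (nat_lit 96) (nat_lit 5) (nat_lit 305) (nat_lit 283) (nat_lit 132)) (XT.nd (nat_lit 78) (nat_lit 76) (nat_lit 0) (XT.lf (nat_lit 0) (nat_lit 12565523493) (nat_lit 380) (nat_lit 42676229235) (nat_lit 456) (nat_lit 8688843243) (nat_lit 85) (nat_lit 5) (nat_lit 90) (nat_lit 5) (nat_lit 91) (nat_lit 5) (nat_lit 306) (nat_lit 283) (nat_lit 131)) (XT.lf (nat_lit 0) (nat_lit 2730922104) (nat_lit 456) (nat_lit 6462816852) (nat_lit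 76) (nat_lit 56803672111) (nat_lit 84) (nat_lit 5) (nat_lit 90) (nat_lit 5) (nat_lit 85) (nat_lit 5) (nat_lit 307) (nat_lit 283) (nat_lit 130))))) (XT.nd (nat_lit 234) (nat_lit 988) (nat_lit 0) (XT.nd (nat_lit 78) (nat_lit 380) (nat_lit 0) (XT.lf (nat_lit 0) (nat_lit 15193900125) (nat_lit 456) (nat_lit 27005193256) (nat_lit 76) (nat_lit 25946339026) (nat_lit 79) (nat_lit 5) (nat_lit 85) (nat_lit 5) (nat_lit 80) (nat_lit 5) (nat_lit 308) (nat_lit 283) (nat_lit 129)) (XT.nd (nat_lit 78) (nat_lit 0) (nat_lit 0) (XT.lf (nat_lit 0) (nat_lit 21176925288) (nat_lit 380) (nat_lit 7464615537) (nat_lit 456) (nat_lit 41748472410) (nat_lit 74) (nat_lit 5) (nat_lit 79) (nat_lit 5) (nat_lit 80) (nat_lit 5) (nat_lit 309) (nat_lit 283) (nat_lit 128)) (XT.lf (nat_lit 0) (nat_lit 43319174532) (nat_lit 456) (nat_lit 690074426) (nat_lit 76) (nat_lit 28720849467) (nat_lit 74) (nat_lit 5) (nat_lit 80) (nat_lit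 5) (nat_lit 75) (nat_lit 5) (nat_lit 310) (nat_lit 283) (nat_lit 127)))) (XT.nd (nat_lit 78) (nat_lit 684) (nat_lit 0) (XT.lf (nat_lit 0) (nat_lit 51180085349) (nat_lit 304) (nat_lit 8116049480) (nat_lit 380) (nat_lit 15874093176) (nat_lit 70) (nat_lit 5) (nat_lit 74) (nat_lit 5) (nat_lit 75) (nat_lit 5) (nat_lit 311) (nat_lit 283) (nat_lit 126)) (XT.nd (nat_lit 78) (nat_lit 380) (nat_lit 0) (XT.lf (nat_lit 0) (nat_lit 28189412205) (nat_lit 304) (nat_lit 48443131832) (nat_lit 380) (nat_lit 1083005313) (nat_lit 66) (nat_lit 5) (nat_lit 70) (nat_lit 5) (nat_lit 71) (nat_lit 5) (nat_lit 312) (nat_lit 283) (nat_lit 125)) (XT.lf (nat_lit 0) (nat_lit 2930150597) (nat_lit 304) (nat_lit 11593281490) (nat_lit 380) (nat_lit 65849809733) (nat_lit 61) (nat_lit 5) (nat_lit 65) (nat_lit 5) (nat_lit 66) (nat_lit 5) (nat_lit 313) (nat_lit 283) (nat_lit 124))))))))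
noncomputable def xc117 : XT := (XT.nd (nat_lit 36270) (nat_lit 0) (nat_lit 608) (XT.nd (nat_lit 35412) (nat_lit 0) (nat_lit 6156) (XT.nd (nat_lit 390) (nat_lit 228) (nat_lit 0) (XT.nd (nat_lit 156) (nat_lit 608) (nat_lit 0) (XT.nd (nat_lit 78) (nat_lit 304) (nat_lit 0) (XT.lf (nat_lit 0) (nat_lit 31661661267) (nat_lit 380) (nat_lit 24383099837) (nat_lit 76) (nat_lit 27095522997) (nat_lit 61) (nat_lit 5) (nat_lit 66) (nat_lit 5) (nat_lit 62) (nat_lit 5) (nat_lit 314) (nat_lit 283) (nat_lit 123)) (XT.lf (nat_lit 0) (nat_lit 31831833426) (nat_lit 304) (nat_lit 18246342165) (nat_lit 380) (nat_lit 35954864472) (nat_lit 57) (nat_lit 5) (nat_lit 61) (nat_lit 5) (nat_lit 62) (nat_lit 5) (nat_lit 315) (nat_lit 283) (nat_lit 122))) (XT.nd (nat_lit 78) (nat_lit 380) (nat_lit 0) (XT.lf (nat_lit 0) (nat_lit 2135029062) (nat_lit 228) (nat_lit 67759035414) (nat_lit 304) (nat_lit 19162015526) (nat_lit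 54) (nat_lit 5) (nat_lit 57) (nat_lit 5) (nat_lit 58) (nat_lit 5) (nat_lit 316) (nat_lit 283) (nat_lit 121)) (XT.nd (nat_lit 78) (nat_lit 380) (nat_lit 0) (XT.lf (nat_lit 0) (nat_lit 62230775870) (nat_lit 228) (nat_lit 29208763805) (nat_lit 304) (nat_lit 768571027) (nat_lit 54) (nat_lit 5) (nat_lit 57) (nat_lit 5) (nat_lit 58) (nat_lit 5) (nat_lit 317) (nat_lit 283) (nat_lit 120)) (XT.lf (nat_lit 0) (nat_lit 18584692297) (nat_lit 380) (nat_lit 65393667955) (nat_lit 76) (nat_lit 11521976645) (nat_lit 49) (nat_lit 5) (nat_lit 54) (nat_lit 5) (nat_lit 50) (nat_lit 5) (nat_lit 318) (nat_lit 283) (nat_lit 119))))) (XT.nd (nat_lit 34788) (nat_lit 0) (nat_lit 7980) (XT.nd (nat_lit 78) (nat_lit 228) (nat_lit 0) (XT.lf (nat_lit 0) (nat_lit 39494907939) (nat_lit 380) (nat_lit 5434257159) (nat_lit 76) (nat_lit 54009627702) (nat_lit 49) (nat_lit 5) (nat_lit 54) (nat_lit 5) (nat_lit 50) (nat_lit 5) (nat_lit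 319) (nat_lit 283) (nat_lit 118)) (XT.lf (nat_lit 0) (nat_lit 58665977610) (nat_lit 228) (nat_lit 3347237566) (nat_lit 304) (nat_lit 40519081010) (nat_lit 46) (nat_lit 5) (nat_lit 49) (nat_lit 5) (nat_lit 50) (nat_lit 5) (nat_lit 320) (nat_lit 283) (nat_lit 117))) (XT.nd (nat_lit 78) (nat_lit 0) (nat_lit 0) (XT.lf (nat_lit 0) (nat_lit 10838091146) (nat_lit 1140) (nat_lit 3391145259) (nat_lit 1140) (nat_lit 3391145259) (nat_lit 151) (nat_lit 3) (nat_lit 166) (nat_lit 3) (nat_lit 166) (nat_lit 5) (nat_lit 284) (nat_lit 284) (nat_lit 152)) (XT.nd (nat_lit 78) (nat_lit 0) (nat_lit 76) (XT.lf (nat_lit 76) (nat_lit 17960714885) (nat_lit 0) (nat_lit 4508387713) (nat_lit 1140) (nat_lit 13644957912) (nat_lit 152) (nat_lit 5) (nat_lit 151) (nat_lit 3) (nat_lit 166) (nat_lit 5) (nat_lit 285) (nat_lit 284) (nat_lit 151)) (XT.lf (nat_lit 76) (nat_lit 6988120255) (nat_lit 0) (nat_lit 16644609608) (nat_lit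 1140) (nat_lit 13388373112) (nat_lit 153) (nat_lit 5) (nat_lit 152) (nat_lit 5) (nat_lit 167) (nat_lit 5) (nat_lit 286) (nat_lit 284) (nat_lit 150)))))) (XT.nd (nat_lit 390) (nat_lit 1976) (nat_lit 0) (XT.nd (nat_lit 156) (nat_lit 0) (nat_lit 76) (XT.nd (nat_lit 78) (nat_lit 0) (nat_lit 0) (XT.lf (nat_lit 0) (nat_lit 25164669884) (nat_lit 1064) (nat_lit 4332847801) (nat_lit 1140) (nat_lit 8466687606) (nat_lit 153) (nat_lit 5) (nat_lit 167) (nat_lit 5) (nat_lit 168) (nat_lit 5) (nat_lit 287) (nat_lit 284) (nat_lit 149)) (XT.lf (nat_lit 76) (nat_lit 22928938819) (nat_lit 0) (nat_lit 4228114718) (nat_lit 1140) (nat_lit 11785904902) (nat_lit 154) (nat_lit 5) (nat_lit 153) (nat_lit 5) (nat_lit 168) (nat_lit 5) (nat_lit 288) (nat_lit 284) (nat_lit 148))) (XT.nd (nat_lit 78) (nat_lit 0) (nat_lit 76) (XT.lf (nat_lit 76) (nat_lit 11685361307) (nat_lit 0) (nat_lit 17931121991) (nat_lit 1140) (nat_lit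 10343153725) (nat_lit 155) (nat_lit 5) (nat_lit 154) (nat_lit 5) (nat_lit 169) (nat_lit 5) (nat_lit 289) (nat_lit 284) (nat_lit 147)) (XT.nd (nat_lit 78) (nat_lit 0) (nat_lit 0) (XT.lf (nat_lit 0) (nat_lit 32485029890) (nat_lit 1064) (nat_lit 46227011) (nat_lit 1140) (nat_lit 8487318355) (nat_lit 155) (nat_lit 5) (nat_lit 169) (nat_lit 5) (nat_lit 170) (nat_lit 5) (nat_lit 290) (nat_lit 284) (nat_lit 146)) (XT.lf (nat_lit 76) (nat_lit 29994758604) (nat_lit 0) (nat_lit 5967596828) (nat_lit 1140) (nat_lit 6154154022) (nat_lit 156) (nat_lit 5) (nat_lit 155) (nat_lit 5) (nat_lit 170) (nat_lit 5) (nat_lit 291) (nat_lit 284) (nat_lit 145))))) (XT.nd (nat_lit 234) (nat_lit 1140) (nat_lit 0) (XT.nd (nat_lit 78) (nat_lit 1064) (nat_lit 0) (XT.lf (nat_lit 76) (nat_lit 18415184277) (nat_lit 0) (nat_lit 21582824310) (nat_lit 1140) (nat_lit 3259807078) (nat_lit 157) (nat_lit 5) (nat_lit 156) (nat_lit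 5) (nat_lit 171) (nat_lit 5) (nat_lit 292) (nat_lit 284) (nat_lit 144)) (XT.nd (nat_lit 78) (nat_lit 0) (nat_lit 0) (XT.lf (nat_lit 0) (nat_lit 87792167) (nat_lit 1140) (nat_lit 38168263403) (nat_lit 1216) (nat_lit 6191076907) (nat_lit 142) (nat_lit 5) (nat_lit 157) (nat_lit 5) (nat_lit 158) (nat_lit 5) (nat_lit 293) (nat_lit 284) (nat_lit 143)) (XT.lf (nat_lit 0) (nat_lit 4008564625) (nat_lit 1140) (nat_lit 6468817114) (nat_lit 1216) (nat_lit 35203376849) (nat_lit 142) (nat_lit 5) (nat_lit 157) (nat_lit 5) (nat_lit 158) (nat_lit 5) (nat_lit 294) (nat_lit 284) (nat_lit 142)))) (XT.nd (nat_lit 78) (nat_lit 1216) (nat_lit 0) (XT.lf (nat_lit 0) (nat_lit 8567163659) (nat_lit 1140) (nat_lit 19804073187) (nat_lit 76) (nat_lit 18591583190) (nat_lit 143) (nat_lit 5) (nat_lit 158) (nat_lit 5) (nat_lit 144) (nat_lit 5) (nat_lit 295) (nat_lit 284) (nat_lit 141)) (XT.nd (nat_lit 78) (nat_lit 532) (nat_lit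 0) (XT.lf (nat_lit 0) (nat_lit 13670316839) (nat_lit 760) (nat_lit 33838438672) (nat_lit 76) (nat_lit 790737625) (nat_lit 134) (nat_lit 5) (nat_lit 144) (nat_lit 5) (nat_lit 135) (nat_lit 5) (nat_lit 296) (nat_lit 284) (nat_lit 140)) (XT.lf (nat_lit 0) (nat_lit 882446060) (nat_lit 532) (nat_lit 18643822612) (nat_lit 608) (nat_lit 30161808943) (nat_lit 127) (nat_lit 5) (nat_lit 134) (nat_lit 5) (nat_lit 135) (nat_lit 5) (nat_lit 297) (nat_lit 284) (nat_lit 139))))))) (XT.nd (nat_lit 780) (nat_lit 2356) (nat_lit 0) (XT.nd (nat_lit 390) (nat_lit 1672) (nat_lit 0) (XT.nd (nat_lit 156) (nat_lit 988) (nat_lit 0) (XT.nd (nat_lit 78) (nat_lit 532) (nat_lit 0) (XT.lf (nat_lit 0) (nat_lit 26135968503) (nat_lit 608) (nat_lit 13207532631) (nat_lit 76) (nat_lit 11788768297) (nat_lit 127) (nat_lit 5) (nat_lit 135) (nat_lit 5) (nat_lit 128) (nat_lit 5) (nat_lit 298) (nat_lit 284) (nat_lit 138)) (XT.lf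 (nat_lit 0) (nat_lit 24456853563) (nat_lit 532) (nat_lit 9039751308) (nat_lit 608) (nat_lit 19139458730) (nat_lit 120) (nat_lit 5) (nat_lit 127) (nat_lit 5) (nat_lit 128) (nat_lit 5) (nat_lit 299) (nat_lit 284) (nat_lit 137))) (XT.nd (nat_lit 78) (nat_lit 532) (nat_lit 0) (XT.lf (nat_lit 0) (nat_lit 10042445864) (nat_lit 456) (nat_lit 31632925731) (nat_lit 532) (nat_lit 12526178936) (nat_lit 114) (nat_lit 5) (nat_lit 120) (nat_lit 5) (nat_lit 121) (nat_lit 5) (nat_lit 300) (nat_lit 284) (nat_lit 136)) (XT.nd (nat_lit 78) (nat_lit 532) (nat_lit 0) (XT.lf (nat_lit 0) (nat_lit 50641161526) (nat_lit 532) (nat_lit 5165872696) (nat_lit 76) (nat_lit 26940764) (nat_lit 114) (nat_lit 5) (nat_lit 121) (nat_lit 5) (nat_lit 115) (nat_lit 5) (nat_lit 301) (nat_lit 284) (nat_lit 135)) (XT.lf (nat_lit 0) (nat_lit 3129265440) (nat_lit 532) (nat_lit 21397975527) (nat_lit 76) (nat_lit 32999932857) (nat_lit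 107) (nat_lit 5) (nat_lit 114) (nat_lit 5) (nat_lit 108) (nat_lit 5) (nat_lit 302) (nat_lit 284) (nat_lit 134))))) (XT.nd (nat_lit 156) (nat_lit 760) (nat_lit 0) (XT.nd (nat_lit 78) (nat_lit 456) (nat_lit 0) (XT.lf (nat_lit 0) (nat_lit 12093709770) (nat_lit 532) (nat_lit 38738107826) (nat_lit 76) (nat_lit 8461667924) (nat_lit 101) (nat_lit 5) (nat_lit 108) (nat_lit 5) (nat_lit 102) (nat_lit 5) (nat_lit 303) (nat_lit 284) (nat_lit 133)) (XT.lf (nat_lit 0) (nat_lit 3732593674) (nat_lit 456) (nat_lit 18277350080) (nat_lit 532) (nat_lit 39123066822) (nat_lit 95) (nat_lit 5) (nat_lit 101) (nat_lit 5) (nat_lit 102) (nat_lit 5) (nat_lit 304) (nat_lit 284) (nat_lit 132))) (XT.nd (nat_lit 78) (nat_lit 760) (nat_lit 0) (XT.lf (nat_lit 0) (nat_lit 32975357929) (nat_lit 532) (nat_lit 14075588619) (nat_lit 76) (nat_lit 15996968854) (nat_lit 95) (nat_lit 5) (nat_lit 102) (nat_lit 5) (nat_lit 96) (nat_lit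 5) (nat_lit 305) (nat_lit 284) (nat_lit 131)) (XT.nd (nat_lit 78) (nat_lit 380) (nat_lit 0) (XT.lf (nat_lit 0) (nat_lit 31850087164) (nat_lit 380) (nat_lit 13127461159) (nat_lit 456) (nat_lit 20066366333) (nat_lit 90) (nat_lit 5) (nat_lit 95) (nat_lit 5) (nat_lit 96) (nat_lit 5) (nat_lit 306) (nat_lit 284) (nat_lit 130)) (XT.lf (nat_lit 0) (nat_lit 13269694804) (nat_lit 380) (nat_lit 44798190381) (nat_lit 456) (nat_lit 9057191726) (nat_lit 85) (nat_lit 5) (nat_lit 90) (nat_lit 5) (nat_lit 91) (nat_lit 5) (nat_lit 307) (nat_lit 284) (nat_lit 129)))))) (XT.nd (nat_lit 390) (nat_lit 1216) (nat_lit 0) (XT.nd (nat_lit 156) (nat_lit 684) (nat_lit 0) (XT.nd (nat_lit 78) (nat_lit 380) (nat_lit 0) (XT.lf (nat_lit 0) (nat_lit 2929186260) (nat_lit 456) (nat_lit 6712330398) (nat_lit 76) (nat_lit 59653795516) (nat_lit 84) (nat_lit 5) (nat_lit 90) (nat_lit 5) (nat_lit 85) (nat_lit 5) (nat_lit 308) (nat_lit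 284) (nat_lit 128)) (XT.lf (nat_lit 0) (nat_lit 16013177524) (nat_lit 456) (nat_lit 28282155681) (nat_lit 76) (nat_lit 27255471060) (nat_lit 79) (nat_lit 5) (nat_lit 85) (nat_lit 5) (nat_lit 80) (nat_lit 5) (nat_lit 309) (nat_lit 284) (nat_lit 127))) (XT.nd (nat_lit 78) (nat_lit 304) (nat_lit 0) (XT.lf (nat_lit 0) (nat_lit 22306967739) (nat_lit 380) (nat_lit 7824079643) (nat_lit 456) (nat_lit 43776636684) (nat_lit 74) (nat_lit 5) (nat_lit 79) (nat_lit 5) (nat_lit 80) (nat_lit 5) (nat_lit 310) (nat_lit 284) (nat_lit 126)) (XT.nd (nat_lit 78) (nat_lit 304) (nat_lit 0) (XT.lf (nat_lit 0) (nat_lit 45539954070) (nat_lit 456) (nat_lit 655155592) (nat_lit 76) (nat_lit 30169747209) (nat_lit 74) (nat_lit 5) (nat_lit 80) (nat_lit 5) (nat_lit 75) (nat_lit 5) (nat_lit 311) (nat_lit 284) (nat_lit 125)) (XT.lf (nat_lit 0) (nat_lit 53806522188) (nat_lit 304) (nat_lit 8507277882) (nat_lit 380) (nat_lit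 16613256580) (nat_lit 70) (nat_lit 5) (nat_lit 74) (nat_lit 5) (nat_lit 75) (nat_lit 5) (nat_lit 312) (nat_lit 284) (nat_lit 124))))) (XT.nd (nat_lit 234) (nat_lit 532) (nat_lit 0) (XT.nd (nat_lit 78) (nat_lit 380) (nat_lit 0) (XT.lf (nat_lit 0) (nat_lit 29665880886) (nat_lit 304) (nat_lit 50849409230) (nat_lit 380) (nat_lit 1084410753) (nat_lit 66) (nat_lit 5) (nat_lit 70) (nat_lit 5) (nat_lit 71) (nat_lit 5) (nat_lit 313) (nat_lit 284) (nat_lit 123)) (XT.nd (nat_lit 78) (nat_lit 0) (nat_lit 0) (XT.lf (nat_lit 0) (nat_lit 3142822570) (nat_lit 304) (nat_lit 12156670072) (nat_lit 380) (nat_lit 69090829180) (nat_lit 61) (nat_lit 5) (nat_lit 65) (nat_lit 5) (nat_lit 66) (nat_lit 5) (nat_lit 314) (nat_lit 284) (nat_lit 122)) (XT.lf (nat_lit 0) (nat_lit 33292406616) (nat_lit 380) (nat_lit 25537883323) (nat_lit 76) (nat_lit 28465497146) (nat_lit 61) (nat_lit 5) (nat_lit 66) (nat_lit 5) (nat_lit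 62) (nat_lit 5) (nat_lit 315) (nat_lit 284) (nat_lit 121)))) (XT.nd (nat_lit 78) (nat_lit 228) (nat_lit 0) (XT.lf (nat_lit 0) (nat_lit 33485951407) (nat_lit 304) (nat_lit 19142126658) (nat_lit 380) (nat_lit 37705156712) (nat_lit 57) (nat_lit 5) (nat_lit 61) (nat_lit 5) (nat_lit 62) (nat_lit 5) (nat_lit 316) (nat_lit 284) (nat_lit 120)) (XT.nd (nat_lit 78) (nat_lit 0) (nat_lit 0) (XT.lf (nat_lit 0) (nat_lit 2303775671) (nat_lit 228) (nat_lit 71129542837) (nat_lit 304) (nat_lit 20074155181) (nat_lit 54) (nat_lit 5) (nat_lit 57) (nat_lit 5) (nat_lit 58) (nat_lit 5) (nat_lit 317) (nat_lit 284) (nat_lit 119)) (XT.lf (nat_lit 0) (nat_lit 65401357669) (nat_lit 228) (nat_lit 30652588331) (nat_lit 304) (nat_lit 763227082) (nat_lit 54) (nat_lit 5) (nat_lit 57) (nat_lit 5) (nat_lit 58) (nat_lit 5) (nat_lit 318) (nat_lit 284) (nat_lit 118))))))))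
noncomputable def xc118 : XT := (XT.nd (nat_lit 36348) (nat_lit 0) (nat_lit 380) (XT.nd (nat_lit 35490) (nat_lit 0) (nat_lit 4408) (XT.nd (nat_lit 35100) (nat_lit 0) (nat_lit 7904) (XT.nd (nat_lit 34866) (nat_lit 0) (nat_lit 7752) (XT.nd (nat_lit 78) (nat_lit 0) (nat_lit 0) (XT.lf (nat_lit 0) (nat_lit 19555523027) (nat_lit 380) (nat_lit 68603958448) (nat_lit 76) (nat_lit 12114559404) (nat_lit 49) (nat_lit 5) (nat_lit 54) (nat_lit 5) (nat_lit 50) (nat_lit 5) (nat_lit 319) (nat_lit 284) (nat_lit 117)) (XT.lf (nat_lit 0) (nat_lit 41509268683) (nat_lit 380) (nat_lit 5649405346) (nat_lit 76) (nat_lit 56725808065) (nat_lit 49) (nat_lit 5) (nat_lit 54) (nat_lit 5) (nat_lit 50) (nat_lit 5) (nat_lit 320) (nat_lit 284) (nat_lit 116))) (XT.nd (nat_lit 78) (nat_lit 0) (nat_lit 0) (XT.lf (nat_lit 0) (nat_lit 11457138555) (nat_lit 1140) (nat_lit 3520879733) (nat_lit 1140) (nat_lit 3520879733) (nat_lit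 151) (nat_lit 3) (nat_lit 166) (nat_lit 3) (nat_lit 166) (nat_lit 5) (nat_lit 285) (nat_lit 285) (nat_lit 150)) (XT.nd (nat_lit 78) (nat_lit 0) (nat_lit 76) (XT.lf (nat_lit 76) (nat_lit 18936113184) (nat_lit 0) (nat_lit 4804126966) (nat_lit 1140) (nat_lit 14174733976) (nat_lit 152) (nat_lit 5) (nat_lit 151) (nat_lit 3) (nat_lit 166) (nat_lit 5) (nat_lit 286) (nat_lit 285) (nat_lit 149)) (XT.lf (nat_lit 76) (nat_lit 7417979945) (nat_lit 0) (nat_lit 17537165938) (nat_lit 1140) (nat_lit 13912447010) (nat_lit 153) (nat_lit 5) (nat_lit 152) (nat_lit 5) (nat_lit 167) (nat_lit 5) (nat_lit 287) (nat_lit 285) (nat_lit 148))))) (XT.nd (nat_lit 156) (nat_lit 0) (nat_lit 76) (XT.nd (nat_lit 78) (nat_lit 0) (nat_lit 0) (XT.lf (nat_lit 0) (nat_lit 26556426843) (nat_lit 1064) (nat_lit 4467967528) (nat_lit 1140) (nat_lit 8833689915) (nat_lit 153) (nat_lit 5) (nat_lit 167) (nat_lit 5) (nat_lit 168) (nat_lit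 5) (nat_lit 288) (nat_lit 285) (nat_lit 147)) (XT.lf (nat_lit 76) (nat_lit 24154571593) (nat_lit 0) (nat_lit 4488261008) (nat_lit 1140) (nat_lit 12243125905) (nat_lit 154) (nat_lit 5) (nat_lit 153) (nat_lit 5) (nat_lit 168) (nat_lit 5) (nat_lit 289) (nat_lit 285) (nat_lit 146))) (XT.nd (nat_lit 78) (nat_lit 0) (nat_lit 76) (XT.lf (nat_lit 76) (nat_lit 12351029411) (nat_lit 0) (nat_lit 18868448960) (nat_lit 1140) (nat_lit 10734180077) (nat_lit 155) (nat_lit 5) (nat_lit 154) (nat_lit 5) (nat_lit 169) (nat_lit 5) (nat_lit 290) (nat_lit 285) (nat_lit 145)) (XT.nd (nat_lit 78) (nat_lit 0) (nat_lit 0) (XT.lf (nat_lit 76) (nat_lit 33789934) (nat_lit 0) (nat_lit 34191796254) (nat_lit 1140) (nat_lit 8840147451) (nat_lit 156) (nat_lit 5) (nat_lit 155) (nat_lit 5) (nat_lit 170) (nat_lit 5) (nat_lit 291) (nat_lit 285) (nat_lit 144)) (XT.lf (nat_lit 76) (nat_lit 31573824443) (nat_lit 0) (nat_lit 6297868446)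 (nat_lit 1140) (nat_lit 6347037602) (nat_lit 156) (nat_lit 5) (nat_lit 155) (nat_lit 5) (nat_lit 170) (nat_lit 5) (nat_lit 292) (nat_lit 285) (nat_lit 143)))))) (XT.nd (nat_lit 390) (nat_lit 2052) (nat_lit 0) (XT.nd (nat_lit 156) (nat_lit 608) (nat_lit 0) (XT.nd (nat_lit 78) (nat_lit 1064) (nat_lit 0) (XT.lf (nat_lit 76) (nat_lit 19416796372) (nat_lit 0) (nat_lit 22687521397) (nat_lit 1140) (nat_lit 3312941328) (nat_lit 157) (nat_lit 5) (nat_lit 156) (nat_lit 5) (nat_lit 171) (nat_lit 5) (nat_lit 293) (nat_lit 285) (nat_lit 142)) (XT.lf (nat_lit 0) (nat_lit 195325978) (nat_lit 1140) (nat_lit 39992265533) (nat_lit 1216) (nat_lit 6478567396) (nat_lit 142) (nat_lit 5) (nat_lit 157) (nat_lit 5) (nat_lit 158) (nat_lit 5) (nat_lit 294) (nat_lit 285) (nat_lit 141))) (XT.nd (nat_lit 78) (nat_lit 608) (nat_lit 0) (XT.lf (nat_lit 0) (nat_lit 4307225431) (nat_lit 1140) (nat_lit 6711866503) (nat_lit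 1216) (nat_lit 36942532971) (nat_lit 142) (nat_lit 5) (nat_lit 157) (nat_lit 5) (nat_lit 158) (nat_lit 5) (nat_lit 295) (nat_lit 285) (nat_lit 140)) (XT.nd (nat_lit 78) (nat_lit 684) (nat_lit 0) (XT.lf (nat_lit 0) (nat_lit 9089671395) (nat_lit 1140) (nat_lit 20712990782) (nat_lit 76) (nat_lit 19505260437) (nat_lit 143) (nat_lit 5) (nat_lit 158) (nat_lit 5) (nat_lit 144) (nat_lit 5) (nat_lit 296) (nat_lit 285) (nat_lit 139)) (XT.lf (nat_lit 0) (nat_lit 14444147646) (nat_lit 760) (nat_lit 35448377833) (nat_lit 76) (nat_lit 819029113) (nat_lit 134) (nat_lit 5) (nat_lit 144) (nat_lit 5) (nat_lit 135) (nat_lit 5) (nat_lit 297) (nat_lit 285) (nat_lit 138))))) (XT.nd (nat_lit 234) (nat_lit 988) (nat_lit 0) (XT.nd (nat_lit 78) (nat_lit 532) (nat_lit 0) (XT.lf (nat_lit 0) (nat_lit 1006201116) (nat_lit 532) (nat_lit 19583160721) (nat_lit 608) (nat_lit 31580322219) (nat_lit 127) (nat_lit 5) (nat_lit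 134) (nat_lit 5) (nat_lit 135) (nat_lit 5) (nat_lit 298) (nat_lit 285) (nat_lit 137)) (XT.nd (nat_lit 78) (nat_lit 532) (nat_lit 0) (XT.lf (nat_lit 0) (nat_lit 27525348862) (nat_lit 608) (nat_lit 13789338887) (nat_lit 76) (nat_lit 12371532888) (nat_lit 127) (nat_lit 5) (nat_lit 135) (nat_lit 5) (nat_lit 128) (nat_lit 5) (nat_lit 299) (nat_lit 285) (nat_lit 136)) (XT.lf (nat_lit 0) (nat_lit 25756014412) (nat_lit 532) (nat_lit 9494803779) (nat_lit 608) (nat_lit 20014491089) (nat_lit 120) (nat_lit 5) (nat_lit 127) (nat_lit 5) (nat_lit 128) (nat_lit 5) (nat_lit 300) (nat_lit 285) (nat_lit 135)))) (XT.nd (nat_lit 78) (nat_lit 532) (nat_lit 0) (XT.lf (nat_lit 0) (nat_lit 10621211490) (nat_lit 456) (nat_lit 33214240299) (nat_lit 532) (nat_lit 13073719294) (nat_lit 114) (nat_lit 5) (nat_lit 120) (nat_lit 5) (nat_lit 121) (nat_lit 5) (nat_lit 301) (nat_lit 285) (nat_lit 134)) (XT.nd (nat_lit 78)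 (nat_lit 532) (nat_lit 0) (XT.lf (nat_lit 0) (nat_lit 53245900367) (nat_lit 532) (nat_lit 5348835742) (nat_lit 76) (nat_lit 28597559) (nat_lit 114) (nat_lit 5) (nat_lit 121) (nat_lit 5) (nat_lit 115) (nat_lit 5) (nat_lit 302) (nat_lit 285) (nat_lit 133)) (XT.lf (nat_lit 0) (nat_lit 3356493239) (nat_lit 532) (nat_lit 22393147084) (nat_lit 76) (nat_lit 34651621643) (nat_lit 107) (nat_lit 5) (nat_lit 114) (nat_lit 5) (nat_lit 108) (nat_lit 5) (nat_lit 303) (nat_lit 285) (nat_lit 132))))))) (XT.nd (nat_lit 780) (nat_lit 1216) (nat_lit 0) (XT.nd (nat_lit 390) (nat_lit 1140) (nat_lit 0) (XT.nd (nat_lit 156) (nat_lit 760) (nat_lit 0) (XT.nd (nat_lit 78) (nat_lit 456) (nat_lit 0) (XT.lf (nat_lit 0) (nat_lit 12766530965) (nat_lit 532) (nat_lit 40600287864) (nat_lit 76) (nat_lit 8889156311) (nat_lit 101) (nat_lit 5) (nat_lit 108) (nat_lit 5) (nat_lit 102) (nat_lit 5) (nat_lit 304) (nat_lit 285) (nat_lit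 131)) (XT.lf (nat_lit 0) (nat_lit 3991806723) (nat_lit 456) (nat_lit 19184223083) (nat_lit 532) (nat_lit 41011529743) (nat_lit 95) (nat_lit 5) (nat_lit 101) (nat_lit 5) (nat_lit 102) (nat_lit 5) (nat_lit 305) (nat_lit 285) (nat_lit 130))) (XT.nd (nat_lit 78) (nat_lit 760) (nat_lit 0) (XT.lf (nat_lit 0) (nat_lit 34686655445) (nat_lit 532) (nat_lit 14708303587) (nat_lit 76) (nat_lit 16803348737) (nat_lit 95) (nat_lit 5) (nat_lit 102) (nat_lit 5) (nat_lit 96) (nat_lit 5) (nat_lit 306) (nat_lit 285) (nat_lit 129)) (XT.nd (nat_lit 78) (nat_lit 380) (nat_lit 0) (XT.lf (nat_lit 0) (nat_lit 33511618936) (nat_lit 380) (nat_lit 13775022355) (nat_lit 456) (nat_lit 21007541189) (nat_lit 90) (nat_lit 5) (nat_lit 95) (nat_lit 5) (nat_lit 96) (nat_lit 5) (nat_lit 307) (nat_lit 285) (nat_lit 128)) (XT.lf (nat_lit 0) (nat_lit 14002018670) (nat_lit 380) (nat_lit 47027351315) (nat_lit 456) (nat_lit 9450102397)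 (nat_lit 85) (nat_lit 5) (nat_lit 90) (nat_lit 5) (nat_lit 91) (nat_lit 5) (nat_lit 308) (nat_lit 285) (nat_lit 127))))) (XT.nd (nat_lit 156) (nat_lit 684) (nat_lit 0) (XT.nd (nat_lit 78) (nat_lit 380) (nat_lit 0) (XT.lf (nat_lit 0) (nat_lit 3131625664) (nat_lit 456) (nat_lit 6981164789) (nat_lit 76) (nat_lit 62645500983) (nat_lit 84) (nat_lit 5) (nat_lit 90) (nat_lit 5) (nat_lit 85) (nat_lit 5) (nat_lit 309) (nat_lit 285) (nat_lit 126)) (XT.lf (nat_lit 0) (nat_lit 16867879387) (nat_lit 456) (nat_lit 29629780709) (nat_lit 76) (nat_lit 28628961242) (nat_lit 79) (nat_lit 5) (nat_lit 85) (nat_lit 5) (nat_lit 80) (nat_lit 5) (nat_lit 310) (nat_lit 285) (nat_lit 125))) (XT.nd (nat_lit 78) (nat_lit 304) (nat_lit 0) (XT.lf (nat_lit 0) (nat_lit 23486893167) (nat_lit 380) (nat_lit 8202796850) (nat_lit 456) (nat_lit 45911718545) (nat_lit 74) (nat_lit 5) (nat_lit 79) (nat_lit 5) (nat_lit 80) (nat_lit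 5) (nat_lit 311) (nat_lit 285) (nat_lit 124)) (XT.nd (nat_lit 78) (nat_lit 304) (nat_lit 0) (XT.lf (nat_lit 0) (nat_lit 47866675865) (nat_lit 456) (nat_lit 624945068) (nat_lit 76) (nat_lit 31689894678) (nat_lit 74) (nat_lit 5) (nat_lit 80) (nat_lit 5) (nat_lit 75) (nat_lit 5) (nat_lit 312) (nat_lit 285) (nat_lit 123)) (XT.lf (nat_lit 0) (nat_lit 56558011627) (nat_lit 304) (nat_lit 8919422663) (nat_lit 380) (nat_lit 17394448883) (nat_lit 70) (nat_lit 5) (nat_lit 74) (nat_lit 5) (nat_lit 75) (nat_lit 5) (nat_lit 313) (nat_lit 285) (nat_lit 122)))))) (XT.nd (nat_lit 390) (nat_lit 0) (nat_lit 0) (XT.nd (nat_lit 156) (nat_lit 532) (nat_lit 0) (XT.nd (nat_lit 78) (nat_lit 380) (nat_lit 0) (XT.lf (nat_lit 0) (nat_lit 31209944155) (nat_lit 304) (nat_lit 53377476796) (nat_lit 380) (nat_lit 1090790179) (nat_lit 66) (nat_lit 5) (nat_lit 70) (nat_lit 5) (nat_lit 71) (nat_lit 5) (nat_lit 314) (nat_lit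 285) (nat_lit 121)) (XT.lf (nat_lit 0) (nat_lit 3359976798) (nat_lit 304) (nat_lit 12749741224) (nat_lit 380) (nat_lit 72498684890) (nat_lit 61) (nat_lit 5) (nat_lit 65) (nat_lit 5) (nat_lit 66) (nat_lit 5) (nat_lit 315) (nat_lit 285) (nat_lit 120))) (XT.nd (nat_lit 78) (nat_lit 532) (nat_lit 0) (XT.lf (nat_lit 0) (nat_lit 35000258046) (nat_lit 380) (nat_lit 26756390635) (nat_lit 76) (nat_lit 29902557036) (nat_lit 61) (nat_lit 5) (nat_lit 66) (nat_lit 5) (nat_lit 62) (nat_lit 5) (nat_lit 316) (nat_lit 285) (nat_lit 119)) (XT.nd (nat_lit 78) (nat_lit 228) (nat_lit 0) (XT.lf (nat_lit 0) (nat_lit 35216962183) (nat_lit 304) (nat_lit 20084237422) (nat_lit 380) (nat_lit 39547375106) (nat_lit 57) (nat_lit 5) (nat_lit 61) (nat_lit 5) (nat_lit 62) (nat_lit 5) (nat_lit 317) (nat_lit 285) (nat_lit 118)) (XT.lf (nat_lit 0) (nat_lit 2475195888) (nat_lit 228) (nat_lit 74670197442) (nat_lit 304) (nat_lit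 21036174849) (nat_lit 54) (nat_lit 5) (nat_lit 57) (nat_lit 5) (nat_lit 58) (nat_lit 5) (nat_lit 318) (nat_lit 285) (nat_lit 117))))) (XT.nd (nat_lit 35100) (nat_lit 0) (nat_lit 7448) (XT.nd (nat_lit 34944) (nat_lit 0) (nat_lit 7372) (XT.lf (nat_lit 0) (nat_lit 68724979299) (nat_lit 228) (nat_lit 32170148664) (nat_lit 304) (nat_lit 761685492) (nat_lit 54) (nat_lit 5) (nat_lit 57) (nat_lit 5) (nat_lit 58) (nat_lit 5) (nat_lit 319) (nat_lit 285) (nat_lit 116)) (XT.nd (nat_lit 78) (nat_lit 0) (nat_lit 0) (XT.lf (nat_lit 0) (nat_lit 12099966324) (nat_lit 1140) (nat_lit 3660803275) (nat_lit 1140) (nat_lit 3660803275) (nat_lit 151) (nat_lit 3) (nat_lit 166) (nat_lit 3) (nat_lit 166) (nat_lit 5) (nat_lit 286) (nat_lit 286) (nat_lit 148)) (XT.lf (nat_lit 76) (nat_lit 19953088962) (nat_lit 0) (nat_lit 5108115506) (nat_lit 1140) (nat_lit 14745174228) (nat_lit 152) (nat_lit 5) (nat_lit 151) (nat_lit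 3) (nat_lit 166) (nat_lit 5) (nat_lit 287) (nat_lit 286) (nat_lit 147)))) (XT.nd (nat_lit 78) (nat_lit 0) (nat_lit 76) (XT.lf (nat_lit 76) (nat_lit 7861852799) (nat_lit 0) (nat_lit 18468741559) (nat_lit 1140) (nat_lit 14476237381) (nat_lit 153) (nat_lit 5) (nat_lit 152) (nat_lit 5) (nat_lit 167) (nat_lit 5) (nat_lit 288) (nat_lit 286) (nat_lit 146)) (XT.nd (nat_lit 78) (nat_lit 0) (nat_lit 0) (XT.lf (nat_lit 0) (nat_lit 28005357903) (nat_lit 1064) (nat_lit 4617422445) (nat_lit 1140) (nat_lit 9224279561) (nat_lit 153) (nat_lit 5) (nat_lit 167) (nat_lit 5) (nat_lit 168) (nat_lit 5) (nat_lit 289) (nat_lit 286) (nat_lit 145)) (XT.lf (nat_lit 76) (nat_lit 25434124057) (nat_lit 0) (nat_lit 4756883178) (nat_lit 1140) (nat_lit 12735486970) (nat_lit 154) (nat_lit 5) (nat_lit 153) (nat_lit 5) (nat_lit 168) (nat_lit 5) (nat_lit 290) (nat_lit 286) (nat_lit 144))))))))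
noncomputable def xc119 : XT := (XT.nd (nat_lit 1638) (nat_lit 1900) (nat_lit 0) (XT.nd (nat_lit 780) (nat_lit 3648) (nat_lit 0) (XT.nd (nat_lit 390) (nat_lit 1140) (nat_lit 0) (XT.nd (nat_lit 156) (nat_lit 912) (nat_lit 0) (XT.nd (nat_lit 78) (nat_lit 0) (nat_lit 76) (XT.lf (nat_lit 76) (nat_lit 13042413116) (nat_lit 0) (nat_lit 19848851788) (nat_lit 1140) (nat_lit 11156484244) (nat_lit 155) (nat_lit 5) (nat_lit 154) (nat_lit 5) (nat_lit 169) (nat_lit 5) (nat_lit 291) (nat_lit 286) (nat_lit 143)) (XT.lf (nat_lit 76) (nat_lit 111029820) (nat_lit 0) (nat_lit 35931759186) (nat_lit 1140) (nat_lit 9172798518) (nat_lit 156) (nat_lit 5) (nat_lit 155) (nat_lit 5) (nat_lit 170) (nat_lit 5) (nat_lit 292) (nat_lit 286) (nat_lit 142))) (XT.nd (nat_lit 78) (nat_lit 988) (nat_lit 0) (XT.lf (nat_lit 76) (nat_lit 33224468417) (nat_lit 0) (nat_lit 6641688649) (nat_lit 1140) (nat_lit 6560240621) (nat_lit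 156) (nat_lit 5) (nat_lit 155) (nat_lit 5) (nat_lit 170) (nat_lit 5) (nat_lit 293) (nat_lit 286) (nat_lit 141)) (XT.nd (nat_lit 78) (nat_lit 1064) (nat_lit 0) (XT.lf (nat_lit 76) (nat_lit 20460972137) (nat_lit 0) (nat_lit 23845077395) (nat_lit 1140) (nat_lit 3378945669) (nat_lit 157) (nat_lit 5) (nat_lit 156) (nat_lit 5) (nat_lit 171) (nat_lit 5) (nat_lit 294) (nat_lit 286) (nat_lit 140)) (XT.lf (nat_lit 0) (nat_lit 298647110) (nat_lit 1140) (nat_lit 41915315508) (nat_lit 1216) (nat_lit 6782483651) (nat_lit 142) (nat_lit 5) (nat_lit 157) (nat_lit 5) (nat_lit 158) (nat_lit 5) (nat_lit 295) (nat_lit 286) (nat_lit 139))))) (XT.nd (nat_lit 156) (nat_lit 1140) (nat_lit 0) (XT.nd (nat_lit 78) (nat_lit 0) (nat_lit 76) (XT.lf (nat_lit 0) (nat_lit 4611686544) (nat_lit 1140) (nat_lit 6974542398) (nat_lit 1216) (nat_lit 38770600463) (nat_lit 142) (nat_lit 5) (nat_lit 157) (nat_lit 5) (nat_lit 158)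 (nat_lit 5) (nat_lit 296) (nat_lit 286) (nat_lit 138)) (XT.lf (nat_lit 0) (nat_lit 9629551384) (nat_lit 1140) (nat_lit 21674911464) (nat_lit 76) (nat_lit 20466099955) (nat_lit 143) (nat_lit 5) (nat_lit 158) (nat_lit 5) (nat_lit 144) (nat_lit 5) (nat_lit 297) (nat_lit 286) (nat_lit 137))) (XT.nd (nat_lit 78) (nat_lit 532) (nat_lit 0) (XT.lf (nat_lit 0) (nat_lit 15248273364) (nat_lit 760) (nat_lit 37146435934) (nat_lit 76) (nat_lit 849780666) (nat_lit 134) (nat_lit 5) (nat_lit 144) (nat_lit 5) (nat_lit 135) (nat_lit 5) (nat_lit 298) (nat_lit 286) (nat_lit 136)) (XT.nd (nat_lit 78) (nat_lit 0) (nat_lit 0) (XT.lf (nat_lit 0) (nat_lit 1128740425) (nat_lit 532) (nat_lit 20568801278) (nat_lit 608) (nat_lit 33078089194) (nat_lit 127) (nat_lit 5) (nat_lit 134) (nat_lit 5) (nat_lit 135) (nat_lit 5) (nat_lit 299) (nat_lit 286) (nat_lit 135)) (XT.lf (nat_lit 0) (nat_lit 28976520553) (nat_lit 608) (nat_lit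 14407540185) (nat_lit 76) (nat_lit 12984056177) (nat_lit 127) (nat_lit 5) (nat_lit 135) (nat_lit 5) (nat_lit 128) (nat_lit 5) (nat_lit 300) (nat_lit 286) (nat_lit 134)))))) (XT.nd (nat_lit 390) (nat_lit 1672) (nat_lit 0) (XT.nd (nat_lit 156) (nat_lit 988) (nat_lit 0) (XT.nd (nat_lit 78) (nat_lit 456) (nat_lit 0) (XT.lf (nat_lit 0) (nat_lit 27113037964) (nat_lit 532) (nat_lit 9972323929) (nat_lit 608) (nat_lit 20940893125) (nat_lit 120) (nat_lit 5) (nat_lit 127) (nat_lit 5) (nat_lit 128) (nat_lit 5) (nat_lit 301) (nat_lit 286) (nat_lit 133)) (XT.lf (nat_lit 0) (nat_lit 11221789827) (nat_lit 456) (nat_lit 34874651436) (nat_lit 532) (nat_lit 13655959826) (nat_lit 114) (nat_lit 5) (nat_lit 120) (nat_lit 5) (nat_lit 121) (nat_lit 5) (nat_lit 302) (nat_lit 286) (nat_lit 132))) (XT.nd (nat_lit 78) (nat_lit 988) (nat_lit 0) (XT.lf (nat_lit 0) (nat_lit 55974118982) (nat_lit 532) (nat_lit 5547950464)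 (nat_lit 76) (nat_lit 30308396) (nat_lit 114) (nat_lit 5) (nat_lit 121) (nat_lit 5) (nat_lit 115) (nat_lit 5) (nat_lit 303) (nat_lit 286) (nat_lit 131)) (XT.nd (nat_lit 78) (nat_lit 456) (nat_lit 0) (XT.lf (nat_lit 0) (nat_lit 3588503412) (nat_lit 532) (nat_lit 23445024647) (nat_lit 76) (nat_lit 36385737550) (nat_lit 107) (nat_lit 5) (nat_lit 114) (nat_lit 5) (nat_lit 108) (nat_lit 5) (nat_lit 304) (nat_lit 286) (nat_lit 130)) (XT.lf (nat_lit 0) (nat_lit 13466658607) (nat_lit 532) (nat_lit 42562524160) (nat_lit 76) (nat_lit 9337609583) (nat_lit 101) (nat_lit 5) (nat_lit 108) (nat_lit 5) (nat_lit 102) (nat_lit 5) (nat_lit 305) (nat_lit 286) (nat_lit 129))))) (XT.nd (nat_lit 234) (nat_lit 836) (nat_lit 0) (XT.nd (nat_lit 78) (nat_lit 380) (nat_lit 0) (XT.lf (nat_lit 0) (nat_lit 4257232311) (nat_lit 456) (nat_lit 20137090019) (nat_lit 532) (nat_lit 43000709024) (nat_lit 95) (nat_lit 5) (nat_lit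 101) (nat_lit 5) (nat_lit 102) (nat_lit 5) (nat_lit 306) (nat_lit 286) (nat_lit 128)) (XT.nd (nat_lit 78) (nat_lit 380) (nat_lit 0) (XT.lf (nat_lit 0) (nat_lit 36477704425) (nat_lit 532) (nat_lit 15379261204) (nat_lit 76) (nat_lit 17649440383) (nat_lit 95) (nat_lit 5) (nat_lit 102) (nat_lit 5) (nat_lit 96) (nat_lit 5) (nat_lit 307) (nat_lit 286) (nat_lit 127)) (XT.lf (nat_lit 0) (nat_lit 35249809782) (nat_lit 380) (nat_lit 14455780854) (nat_lit 456) (nat_lit 22001552298) (nat_lit 90) (nat_lit 5) (nat_lit 95) (nat_lit 5) (nat_lit 96) (nat_lit 5) (nat_lit 308) (nat_lit 286) (nat_lit 126)))) (XT.nd (nat_lit 78) (nat_lit 456) (nat_lit 0) (XT.lf (nat_lit 0) (nat_lit 14764558719) (nat_lit 380) (nat_lit 49368969597) (nat_lit 456) (nat_lit 9868232084) (nat_lit 85) (nat_lit 5) (nat_lit 90) (nat_lit 5) (nat_lit 91) (nat_lit 5) (nat_lit 309) (nat_lit 286) (nat_lit 125)) (XT.nd (nat_lit 78) (nat_lit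 380) (nat_lit 0) (XT.lf (nat_lit 0) (nat_lit 3338982541) (nat_lit 456) (nat_lit 7269649669) (nat_lit 76) (nat_lit 65785953530) (nat_lit 84) (nat_lit 5) (nat_lit 90) (nat_lit 5) (nat_lit 85) (nat_lit 5) (nat_lit 310) (nat_lit 286) (nat_lit 124)) (XT.lf (nat_lit 0) (nat_lit 17760291939) (nat_lit 456) (nat_lit 31050967925) (nat_lit 76) (nat_lit 30070129602) (nat_lit 79) (nat_lit 5) (nat_lit 85) (nat_lit 5) (nat_lit 80) (nat_lit 5) (nat_lit 311) (nat_lit 286) (nat_lit 123))))))) (XT.nd (nat_lit 35802) (nat_lit 0) (nat_lit 5548) (XT.nd (nat_lit 390) (nat_lit 532) (nat_lit 0) (XT.nd (nat_lit 156) (nat_lit 988) (nat_lit 0) (XT.nd (nat_lit 78) (nat_lit 0) (nat_lit 0) (XT.lf (nat_lit 0) (nat_lit 24719811105) (nat_lit 380) (nat_lit 8601610819) (nat_lit 456) (nat_lit 48158551661) (nat_lit 74) (nat_lit 5) (nat_lit 79) (nat_lit 5) (nat_lit 80) (nat_lit 5) (nat_lit 312) (nat_lit 286) (nat_lit 122)) (XT.lf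 (nat_lit 0) (nat_lit 50305110875) (nat_lit 456) (nat_lit 599078214) (nat_lit 76) (nat_lit 33284965474) (nat_lit 74) (nat_lit 5) (nat_lit 80) (nat_lit 5) (nat_lit 75) (nat_lit 5) (nat_lit 313) (nat_lit 286) (nat_lit 121))) (XT.nd (nat_lit 78) (nat_lit 684) (nat_lit 0) (XT.lf (nat_lit 0) (nat_lit 59441389152) (nat_lit 304) (nat_lit 9353403671) (nat_lit 380) (nat_lit 18219300102) (nat_lit 70) (nat_lit 5) (nat_lit 74) (nat_lit 5) (nat_lit 75) (nat_lit 5) (nat_lit 314) (nat_lit 286) (nat_lit 120)) (XT.nd (nat_lit 78) (nat_lit 380) (nat_lit 0) (XT.lf (nat_lit 0) (nat_lit 32825560842) (nat_lit 304) (nat_lit 56033286784) (nat_lit 380) (nat_lit 1101936389) (nat_lit 66) (nat_lit 5) (nat_lit 70) (nat_lit 5) (nat_lit 71) (nat_lit 5) (nat_lit 315) (nat_lit 286) (nat_lit 119)) (XT.lf (nat_lit 0) (nat_lit 3582409289) (nat_lit 304) (nat_lit 13373838397) (nat_lit 380) (nat_lit 76081273783) (nat_lit 61) (nat_lit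 5) (nat_lit 65) (nat_lit 5) (nat_lit 66) (nat_lit 5) (nat_lit 316) (nat_lit 286) (nat_lit 118))))) (XT.nd (nat_lit 35178) (nat_lit 0) (nat_lit 7372) (XT.nd (nat_lit 78) (nat_lit 532) (nat_lit 0) (XT.lf (nat_lit 0) (nat_lit 36789482829) (nat_lit 380) (nat_lit 28041251570) (nat_lit 76) (nat_lit 31410188319) (nat_lit 61) (nat_lit 5) (nat_lit 66) (nat_lit 5) (nat_lit 62) (nat_lit 5) (nat_lit 317) (nat_lit 286) (nat_lit 117)) (XT.nd (nat_lit 78) (nat_lit 228) (nat_lit 0) (XT.lf (nat_lit 0) (nat_lit 37029250842) (nat_lit 304) (nat_lit 21074847869) (nat_lit 380) (nat_lit 41485705820) (nat_lit 57) (nat_lit 5) (nat_lit 61) (nat_lit 5) (nat_lit 62) (nat_lit 5) (nat_lit 318) (nat_lit 286) (nat_lit 116)) (XT.lf (nat_lit 0) (nat_lit 2649959251) (nat_lit 228) (nat_lit 78389355806) (nat_lit 304) (nat_lit 22050171263) (nat_lit 54) (nat_lit 5) (nat_lit 57) (nat_lit 5) (nat_lit 58) (nat_lit 5) (nat_lit 319)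 (nat_lit 286) (nat_lit 115)))) (XT.nd (nat_lit 78) (nat_lit 0) (nat_lit 0) (XT.lf (nat_lit 0) (nat_lit 12768430255) (nat_lit 1140) (nat_lit 3811081131) (nat_lit 1140) (nat_lit 3811081131) (nat_lit 151) (nat_lit 3) (nat_lit 166) (nat_lit 3) (nat_lit 166) (nat_lit 5) (nat_lit 287) (nat_lit 287) (nat_lit 146)) (XT.nd (nat_lit 78) (nat_lit 0) (nat_lit 76) (XT.lf (nat_lit 76) (nat_lit 21014389776) (nat_lit 0) (nat_lit 5421373610) (nat_lit 1140) (nat_lit 15356993986) (nat_lit 152) (nat_lit 5) (nat_lit 151) (nat_lit 3) (nat_lit 166) (nat_lit 5) (nat_lit 288) (nat_lit 287) (nat_lit 145)) (XT.lf (nat_lit 76) (nat_lit 8321134878) (nat_lit 0) (nat_lit 19441808862) (nat_lit 1140) (nat_lit 15080473759) (nat_lit 153) (nat_lit 5) (nat_lit 152) (nat_lit 5) (nat_lit 167) (nat_lit 5) (nat_lit 289) (nat_lit 287) (nat_lit 144)))))) (XT.nd (nat_lit 390) (nat_lit 1976) (nat_lit 0) (XT.nd (nat_lit 156) (nat_lit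 0) (nat_lit 76) (XT.nd (nat_lit 78) (nat_lit 0) (nat_lit 0) (XT.lf (nat_lit 0) (nat_lit 29515475883) (nat_lit 1064) (nat_lit 4781224670) (nat_lit 1140) (nat_lit 9639149005) (nat_lit 153) (nat_lit 5) (nat_lit 167) (nat_lit 5) (nat_lit 168) (nat_lit 5) (nat_lit 290) (nat_lit 287) (nat_lit 143)) (XT.lf (nat_lit 76) (nat_lit 26770976641) (nat_lit 0) (nat_lit 5034826311) (nat_lit 1140) (nat_lit 13263603512) (nat_lit 154) (nat_lit 5) (nat_lit 153) (nat_lit 5) (nat_lit 168) (nat_lit 5) (nat_lit 291) (nat_lit 287) (nat_lit 142))) (XT.nd (nat_lit 78) (nat_lit 0) (nat_lit 76) (XT.lf (nat_lit 76) (nat_lit 13761501785) (nat_lit 0) (nat_lit 20874836672) (nat_lit 1140) (nat_lit 11610539895) (nat_lit 155) (nat_lit 5) (nat_lit 154) (nat_lit 5) (nat_lit 169) (nat_lit 5) (nat_lit 292) (nat_lit 287) (nat_lit 141)) (XT.nd (nat_lit 78) (nat_lit 0) (nat_lit 0) (XT.lf (nat_lit 76) (nat_lit 185107741) (nat_lit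 0) (nat_lit 37755896461) (nat_lit 1140) (nat_lit 9532249052) (nat_lit 156) (nat_lit 5) (nat_lit 155) (nat_lit 5) (nat_lit 170) (nat_lit 5) (nat_lit 293) (nat_lit 287) (nat_lit 140)) (XT.lf (nat_lit 76) (nat_lit 34950955105) (nat_lit 0) (nat_lit 7000010524) (nat_lit 1140) (nat_lit 6793786564) (nat_lit 156) (nat_lit 5) (nat_lit 155) (nat_lit 5) (nat_lit 170) (nat_lit 5) (nat_lit 294) (nat_lit 287) (nat_lit 139))))) (XT.nd (nat_lit 234) (nat_lit 1140) (nat_lit 0) (XT.nd (nat_lit 78) (nat_lit 1064) (nat_lit 0) (XT.lf (nat_lit 76) (nat_lit 21550538609) (nat_lit 0) (nat_lit 25058356143) (nat_lit 1140) (nat_lit 3457514063) (nat_lit 157) (nat_lit 5) (nat_lit 156) (nat_lit 5) (nat_lit 171) (nat_lit 5) (nat_lit 295) (nat_lit 287) (nat_lit 138)) (XT.nd (nat_lit 78) (nat_lit 0) (nat_lit 0) (XT.lf (nat_lit 0) (nat_lit 398436457) (nat_lit 1140) (nat_lit 43941636112) (nat_lit 1216) (nat_lit 7103456256)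 (nat_lit 142) (nat_lit 5) (nat_lit 157) (nat_lit 5) (nat_lit 158) (nat_lit 5) (nat_lit 296) (nat_lit 287) (nat_lit 137)) (XT.lf (nat_lit 0) (nat_lit 4923087053) (nat_lit 1140) (nat_lit 7257131259) (nat_lit 1216) (nat_lit 40691843269) (nat_lit 142) (nat_lit 5) (nat_lit 157) (nat_lit 5) (nat_lit 158) (nat_lit 5) (nat_lit 297) (nat_lit 287) (nat_lit 136)))) (XT.nd (nat_lit 78) (nat_lit 1216) (nat_lit 0) (XT.lf (nat_lit 0) (nat_lit 10188486023) (nat_lit 1140) (nat_lit 22691782791) (nat_lit 76) (nat_lit 21476322410) (nat_lit 143) (nat_lit 5) (nat_lit 158) (nat_lit 5) (nat_lit 144) (nat_lit 5) (nat_lit 298) (nat_lit 287) (nat_lit 135)) (XT.nd (nat_lit 78) (nat_lit 532) (nat_lit 0) (XT.lf (nat_lit 0) (nat_lit 16084989377) (nat_lit 760) (nat_lit 38936310301) (nat_lit 76) (nat_lit 883018087) (nat_lit 134) (nat_lit 5) (nat_lit 144) (nat_lit 5) (nat_lit 135) (nat_lit 5) (nat_lit 299) (nat_lit 287)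 (nat_lit 134)) (XT.lf (nat_lit 0) (nat_lit 1250691509) (nat_lit 532) (nat_lit 21603121179) (nat_lit 608) (nat_lit 34658298294) (nat_lit 127) (nat_lit 5) (nat_lit 134) (nat_lit 5) (nat_lit 135) (nat_lit 5) (nat_lit 300) (nat_lit 287) (nat_lit 133))))))))
noncomputable def xc120 : XT := (XT.nd (nat_lit 36738) (nat_lit 0) (nat_lit 1824) (XT.nd (nat_lit 780) (nat_lit 1824) (nat_lit 0) (XT.nd (nat_lit 390) (nat_lit 1672) (nat_lit 0) (XT.nd (nat_lit 156) (nat_lit 988) (nat_lit 0) (XT.nd (nat_lit 78) (nat_lit 532) (nat_lit 0) (XT.lf (nat_lit 0) (nat_lit 30493286941) (nat_lit 608) (nat_lit 15063277153) (nat_lit 76) (nat_lit 13627768414) (nat_lit 127) (nat_lit 5) (nat_lit 135) (nat_lit 5) (nat_lit 128) (nat_lit 5) (nat_lit 301) (nat_lit 287) (nat_lit 132)) (XT.lf (nat_lit 0) (nat_lit 28531477010) (nat_lit 532) (nat_lit 10473461631) (nat_lit 608) (nat_lit 21920525065) (nat_lit 120) (nat_lit 5) (nat_lit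 127) (nat_lit 5) (nat_lit 128) (nat_lit 5) (nat_lit 302) (nat_lit 287) (nat_lit 131))) (XT.nd (nat_lit 78) (nat_lit 532) (nat_lit 0) (XT.lf (nat_lit 0) (nat_lit 11845933978) (nat_lit 456) (nat_lit 36618111102) (nat_lit 532) (nat_lit 14273954704) (nat_lit 114) (nat_lit 5) (nat_lit 120) (nat_lit 5) (nat_lit 121) (nat_lit 5) (nat_lit 303) (nat_lit 287) (nat_lit 130)) (XT.nd (nat_lit 78) (nat_lit 532) (nat_lit 0) (XT.lf (nat_lit 0) (nat_lit 58832619576) (nat_lit 532) (nat_lit 5763373325) (nat_lit 76) (nat_lit 32078654) (nat_lit 114) (nat_lit 5) (nat_lit 121) (nat_lit 5) (nat_lit 115) (nat_lit 5) (nat_lit 304) (nat_lit 287) (nat_lit 129)) (XT.lf (nat_lit 0) (nat_lit 3826146734) (nat_lit 532) (nat_lit 24555797611) (nat_lit 76) (nat_lit 38206416558) (nat_lit 107) (nat_lit 5) (nat_lit 114) (nat_lit 5) (nat_lit 108) (nat_lit 5) (nat_lit 305) (nat_lit 287) (nat_lit 128))))) (XT.nd (nat_lit 156) (nat_lit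 760) (nat_lit 0) (XT.nd (nat_lit 78) (nat_lit 456) (nat_lit 0) (XT.lf (nat_lit 0) (nat_lit 14196046952) (nat_lit 532) (nat_lit 44629173636) (nat_lit 76) (nat_lit 9808114059) (nat_lit 101) (nat_lit 5) (nat_lit 108) (nat_lit 5) (nat_lit 102) (nat_lit 5) (nat_lit 306) (nat_lit 287) (nat_lit 127)) (XT.lf (nat_lit 0) (nat_lit 4529808441) (nat_lit 456) (nat_lit 21138190127) (nat_lit 532) (nat_lit 45095055399) (nat_lit 95) (nat_lit 5) (nat_lit 101) (nat_lit 5) (nat_lit 102) (nat_lit 5) (nat_lit 307) (nat_lit 287) (nat_lit 126))) (XT.nd (nat_lit 78) (nat_lit 760) (nat_lit 0) (XT.lf (nat_lit 0) (nat_lit 38353032918) (nat_lit 532) (nat_lit 16089759355) (nat_lit 76) (nat_lit 18537285835) (nat_lit 95) (nat_lit 5) (nat_lit 102) (nat_lit 5) (nat_lit 96) (nat_lit 5) (nat_lit 308) (nat_lit 287) (nat_lit 125)) (XT.nd (nat_lit 78) (nat_lit 380) (nat_lit 0) (XT.lf (nat_lit 0) (nat_lit 37069089296) (nat_lit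 380) (nat_lit 15171320356) (nat_lit 456) (nat_lit 23050504334) (nat_lit 90) (nat_lit 5) (nat_lit 95) (nat_lit 5) (nat_lit 96) (nat_lit 5) (nat_lit 309) (nat_lit 287) (nat_lit 124)) (XT.lf (nat_lit 0) (nat_lit 15559420774) (nat_lit 380) (nat_lit 51828575189) (nat_lit 456) (nat_lit 10312323567) (nat_lit 85) (nat_lit 5) (nat_lit 90) (nat_lit 5) (nat_lit 91) (nat_lit 5) (nat_lit 310) (nat_lit 287) (nat_lit 123)))))) (XT.nd (nat_lit 390) (nat_lit 684) (nat_lit 0) (XT.nd (nat_lit 156) (nat_lit 684) (nat_lit 0) (XT.nd (nat_lit 78) (nat_lit 380) (nat_lit 0) (XT.lf (nat_lit 0) (nat_lit 3551986627) (nat_lit 456) (nat_lit 7578190330) (nat_lit 76) (nat_lit 69082668438) (nat_lit 84) (nat_lit 5) (nat_lit 90) (nat_lit 5) (nat_lit 85) (nat_lit 5) (nat_lit 311) (nat_lit 287) (nat_lit 122)) (XT.lf (nat_lit 0) (nat_lit 18692767835) (nat_lit 456) (nat_lit 32548820794) (nat_lit 76) (nat_lit 31582452679) (nat_lit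 79) (nat_lit 5) (nat_lit 85) (nat_lit 5) (nat_lit 80) (nat_lit 5) (nat_lit 312) (nat_lit 287) (nat_lit 121))) (XT.nd (nat_lit 78) (nat_lit 304) (nat_lit 0) (XT.lf (nat_lit 0) (nat_lit 26008929352) (nat_lit 380) (nat_lit 9021418459) (nat_lit 456) (nat_lit 50522259007) (nat_lit 74) (nat_lit 5) (nat_lit 79) (nat_lit 5) (nat_lit 80) (nat_lit 5) (nat_lit 313) (nat_lit 287) (nat_lit 120)) (XT.nd (nat_lit 78) (nat_lit 304) (nat_lit 0) (XT.lf (nat_lit 0) (nat_lit 52861274551) (nat_lit 456) (nat_lit 577227945) (nat_lit 76) (nat_lit 34958806547) (nat_lit 74) (nat_lit 5) (nat_lit 80) (nat_lit 5) (nat_lit 75) (nat_lit 5) (nat_lit 314) (nat_lit 287) (nat_lit 119)) (XT.lf (nat_lit 0) (nat_lit 62463777833) (nat_lit 304) (nat_lit 9810198457) (nat_lit 380) (nat_lit 19089565583) (nat_lit 70) (nat_lit 5) (nat_lit 74) (nat_lit 5) (nat_lit 75) (nat_lit 5) (nat_lit 315) (nat_lit 287) (nat_lit 118))))) (XT.nd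 (nat_lit 35334) (nat_lit 0) (nat_lit 6840) (XT.nd (nat_lit 78) (nat_lit 380) (nat_lit 0) (XT.lf (nat_lit 0) (nat_lit 34516833876) (nat_lit 304) (nat_lit 58823101825) (nat_lit 380) (nat_lit 1117674207) (nat_lit 66) (nat_lit 5) (nat_lit 70) (nat_lit 5) (nat_lit 71) (nat_lit 5) (nat_lit 316) (nat_lit 287) (nat_lit 117)) (XT.nd (nat_lit 78) (nat_lit 0) (nat_lit 0) (XT.lf (nat_lit 0) (nat_lit 3810902680) (nat_lit 304) (nat_lit 14030385294) (nat_lit 380) (nat_lit 79846928991) (nat_lit 61) (nat_lit 5) (nat_lit 65) (nat_lit 5) (nat_lit 66) (nat_lit 5) (nat_lit 317) (nat_lit 287) (nat_lit 116)) (XT.lf (nat_lit 0) (nat_lit 38664523302) (nat_lit 380) (nat_lit 29395279139) (nat_lit 76) (nat_lit 32992038716) (nat_lit 61) (nat_lit 5) (nat_lit 66) (nat_lit 5) (nat_lit 62) (nat_lit 5) (nat_lit 318) (nat_lit 287) (nat_lit 115)))) (XT.nd (nat_lit 78) (nat_lit 0) (nat_lit 0) (XT.lf (nat_lit 0) (nat_lit 13464416952)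 (nat_lit 1140) (nat_lit 3971918808) (nat_lit 1140) (nat_lit 3971918808) (nat_lit 151) (nat_lit 3) (nat_lit 166) (nat_lit 3) (nat_lit 166) (nat_lit 5) (nat_lit 288) (nat_lit 288) (nat_lit 144)) (XT.nd (nat_lit 78) (nat_lit 0) (nat_lit 76) (XT.lf (nat_lit 76) (nat_lit 22122838394) (nat_lit 0) (nat_lit 5744916058) (nat_lit 1140) (nat_lit 16011066856) (nat_lit 152) (nat_lit 5) (nat_lit 151) (nat_lit 3) (nat_lit 166) (nat_lit 5) (nat_lit 289) (nat_lit 288) (nat_lit 143)) (XT.lf (nat_lit 76) (nat_lit 8797227394) (nat_lit 0) (nat_lit 20458915383) (nat_lit 1140) (nat_lit 15726038951) (nat_lit 153) (nat_lit 5) (nat_lit 152) (nat_lit 5) (nat_lit 167) (nat_lit 5) (nat_lit 290) (nat_lit 288) (nat_lit 142))))))) (XT.nd (nat_lit 780) (nat_lit 3724) (nat_lit 0) (XT.nd (nat_lit 390) (nat_lit 1444) (nat_lit 0) (XT.nd (nat_lit 156) (nat_lit 0) (nat_lit 76) (XT.nd (nat_lit 78) (nat_lit 0) (nat_lit 0) (XT.lf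 (nat_lit 0) (nat_lit 31090886942) (nat_lit 1064) (nat_lit 4959452436) (nat_lit 1140) (nat_lit 10079070596) (nat_lit 153) (nat_lit 5) (nat_lit 167) (nat_lit 5) (nat_lit 168) (nat_lit 5) (nat_lit 291) (nat_lit 288) (nat_lit 141)) (XT.lf (nat_lit 76) (nat_lit 28168615161) (nat_lit 0) (nat_lit 5322938578) (nat_lit 1140) (nat_lit 13828227855) (nat_lit 154) (nat_lit 5) (nat_lit 153) (nat_lit 5) (nat_lit 168) (nat_lit 5) (nat_lit 292) (nat_lit 288) (nat_lit 140))) (XT.nd (nat_lit 78) (nat_lit 0) (nat_lit 76) (XT.lf (nat_lit 76) (nat_lit 14510318837) (nat_lit 0) (nat_lit 21949002356) (nat_lit 1140) (nat_lit 12096945747) (nat_lit 155) (nat_lit 5) (nat_lit 154) (nat_lit 5) (nat_lit 169) (nat_lit 5) (nat_lit 293) (nat_lit 288) (nat_lit 139)) (XT.nd (nat_lit 78) (nat_lit 0) (nat_lit 0) (XT.lf (nat_lit 76) (nat_lit 256518621) (nat_lit 0) (nat_lit 39668679325) (nat_lit 1140) (nat_lit 9918893802) (nat_lit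 156) (nat_lit 5) (nat_lit 155) (nat_lit 5) (nat_lit 170) (nat_lit 5) (nat_lit 294) (nat_lit 288) (nat_lit 138)) (XT.lf (nat_lit 76) (nat_lit 36757698568) (nat_lit 0) (nat_lit 7373809185) (nat_lit 1140) (nat_lit 7047792366) (nat_lit 156) (nat_lit 5) (nat_lit 155) (nat_lit 5) (nat_lit 170) (nat_lit 5) (nat_lit 295) (nat_lit 288) (nat_lit 137))))) (XT.nd (nat_lit 156) (nat_lit 608) (nat_lit 0) (XT.nd (nat_lit 78) (nat_lit 1064) (nat_lit 0) (XT.lf (nat_lit 76) (nat_lit 22688399204) (nat_lit 0) (nat_lit 26330344134) (nat_lit 1140) (nat_lit 3548413450) (nat_lit 157) (nat_lit 5) (nat_lit 156) (nat_lit 5) (nat_lit 171) (nat_lit 5) (nat_lit 296) (nat_lit 288) (nat_lit 136)) (XT.lf (nat_lit 0) (nat_lit 495326072) (nat_lit 1140) (nat_lit 46075729100) (nat_lit 1216) (nat_lit 7442165052) (nat_lit 142) (nat_lit 5) (nat_lit 157) (nat_lit 5) (nat_lit 158) (nat_lit 5) (nat_lit 297) (nat_lit 288) (nat_lit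 135))) (XT.nd (nat_lit 78) (nat_lit 608) (nat_lit 0) (XT.lf (nat_lit 0) (nat_lit 5242544066) (nat_lit 1140) (nat_lit 7559998472) (nat_lit 1216) (nat_lit 42710755417) (nat_lit 142) (nat_lit 5) (nat_lit 157) (nat_lit 5) (nat_lit 158) (nat_lit 5) (nat_lit 298) (nat_lit 288) (nat_lit 134)) (XT.nd (nat_lit 78) (nat_lit 684) (nat_lit 0) (XT.lf (nat_lit 0) (nat_lit 10768166170) (nat_lit 1140) (nat_lit 23765715018) (nat_lit 76) (nat_lit 22538272278) (nat_lit 143) (nat_lit 5) (nat_lit 158) (nat_lit 5) (nat_lit 144) (nat_lit 5) (nat_lit 299) (nat_lit 288) (nat_lit 133)) (XT.lf (nat_lit 0) (nat_lit 16956633263) (nat_lit 760) (nat_lit 40821949010) (nat_lit 76) (nat_lit 918777506) (nat_lit 134) (nat_lit 5) (nat_lit 144) (nat_lit 5) (nat_lit 135) (nat_lit 5) (nat_lit 300) (nat_lit 288) (nat_lit 132)))))) (XT.nd (nat_lit 390) (nat_lit 2204) (nat_lit 0) (XT.nd (nat_lit 156) (nat_lit 988) (nat_lit 0) (XT.nd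 (nat_lit 78) (nat_lit 0) (nat_lit 0) (XT.lf (nat_lit 0) (nat_lit 1372649270) (nat_lit 532) (nat_lit 22688610423) (nat_lit 608) (nat_lit 36324369344) (nat_lit 127) (nat_lit 5) (nat_lit 134) (nat_lit 5) (nat_lit 135) (nat_lit 5) (nat_lit 301) (nat_lit 288) (nat_lit 131)) (XT.lf (nat_lit 0) (nat_lit 32079575199) (nat_lit 608) (nat_lit 15757810587) (nat_lit 76) (nat_lit 14304176724) (nat_lit 127) (nat_lit 5) (nat_lit 135) (nat_lit 5) (nat_lit 128) (nat_lit 5) (nat_lit 302) (nat_lit 288) (nat_lit 130))) (XT.nd (nat_lit 78) (nat_lit 456) (nat_lit 0) (XT.lf (nat_lit 0) (nat_lit 30015000655) (nat_lit 532) (nat_lit 10999421793) (nat_lit 608) (nat_lit 22955405998) (nat_lit 120) (nat_lit 5) (nat_lit 127) (nat_lit 5) (nat_lit 128) (nat_lit 5) (nat_lit 303) (nat_lit 288) (nat_lit 129)) (XT.nd (nat_lit 78) (nat_lit 0) (nat_lit 0) (XT.lf (nat_lit 0) (nat_lit 12495423112) (nat_lit 456) (nat_lit 38448769124)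 (nat_lit 532) (nat_lit 14928874106) (nat_lit 114) (nat_lit 5) (nat_lit 120) (nat_lit 5) (nat_lit 121) (nat_lit 5) (nat_lit 304) (nat_lit 288) (nat_lit 128)) (XT.lf (nat_lit 0) (nat_lit 61828486061) (nat_lit 532) (nat_lit 5995329146) (nat_lit 76) (nat_lit 33913733) (nat_lit 114) (nat_lit 5) (nat_lit 121) (nat_lit 5) (nat_lit 115) (nat_lit 5) (nat_lit 305) (nat_lit 288) (nat_lit 127))))) (XT.nd (nat_lit 234) (nat_lit 760) (nat_lit 0) (XT.nd (nat_lit 78) (nat_lit 912) (nat_lit 0) (XT.lf (nat_lit 0) (nat_lit 4070259650) (nat_lit 532) (nat_lit 25727824890) (nat_lit 76) (nat_lit 40118000090) (nat_lit 107) (nat_lit 5) (nat_lit 114) (nat_lit 5) (nat_lit 108) (nat_lit 5) (nat_lit 306) (nat_lit 288) (nat_lit 126)) (XT.nd (nat_lit 78) (nat_lit 456) (nat_lit 0) (XT.lf (nat_lit 0) (nat_lit 14956693213) (nat_lit 532) (nat_lit 46804871109) (nat_lit 76) (nat_lit 10301806833) (nat_lit 101) (nat_lit 5) (nat_lit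 108) (nat_lit 5) (nat_lit 102) (nat_lit 5) (nat_lit 307) (nat_lit 288) (nat_lit 125)) (XT.lf (nat_lit 0) (nat_lit 4810461687) (nat_lit 456) (nat_lit 22189880230) (nat_lit 532) (nat_lit 47299296535) (nat_lit 95) (nat_lit 5) (nat_lit 101) (nat_lit 5) (nat_lit 102) (nat_lit 5) (nat_lit 308) (nat_lit 288) (nat_lit 124)))) (XT.nd (nat_lit 78) (nat_lit 760) (nat_lit 0) (XT.lf (nat_lit 0) (nat_lit 40317345129) (nat_lit 532) (nat_lit 16841217927) (nat_lit 76) (nat_lit 19469023988) (nat_lit 95) (nat_lit 5) (nat_lit 102) (nat_lit 5) (nat_lit 96) (nat_lit 5) (nat_lit 309) (nat_lit 288) (nat_lit 123)) (XT.nd (nat_lit 78) (nat_lit 380) (nat_lit 0) (XT.lf (nat_lit 0) (nat_lit 38974053080) (nat_lit 380) (nat_lit 15923310827) (nat_lit 456) (nat_lit 24156657144) (nat_lit 90) (nat_lit 5) (nat_lit 95) (nat_lit 5) (nat_lit 96) (nat_lit 5) (nat_lit 310) (nat_lit 288) (nat_lit 122)) (XT.lf (nat_lit 0) (nat_lit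 16388760628) (nat_lit 380) (nat_lit 54411983188) (nat_lit 456) (nat_lit 10783204942) (nat_lit 85) (nat_lit 5) (nat_lit 90) (nat_lit 5) (nat_lit 91) (nat_lit 5) (nat_lit 311) (nat_lit 288) (nat_lit 121))))))))
noncomputable def xc121 : XT := (XT.nd (nat_lit 36816) (nat_lit 0) (nat_lit 684) (XT.nd (nat_lit 35958) (nat_lit 0) (nat_lit 5016) (XT.nd (nat_lit 390) (nat_lit 684) (nat_lit 0) (XT.nd (nat_lit 156) (nat_lit 684) (nat_lit 0) (XT.nd (nat_lit 78) (nat_lit 380) (nat_lit 0) (XT.lf (nat_lit 0) (nat_lit 3771359165) (nat_lit 456) (nat_lit 7907265994) (nat_lit 76) (nat_lit 72543529508) (nat_lit 84) (nat_lit 5) (nat_lit 90) (nat_lit 5) (nat_lit 85) (nat_lit 5) (nat_lit 312) (nat_lit 288) (nat_lit 120)) (XT.lf (nat_lit 0) (nat_lit 19667733936) (nat_lit 456) (nat_lit 34126651378) (nat_lit 76) (nat_lit 33169572226) (nat_lit 79) (nat_lit 5) (nat_lit 85) (nat_lit 5) (nat_lit 80) (nat_lit 5) (nat_lit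 313) (nat_lit 288) (nat_lit 119))) (XT.nd (nat_lit 78) (nat_lit 304) (nat_lit 0) (XT.lf (nat_lit 0) (nat_lit 27357564202) (nat_lit 380) (nat_lit 9463171558) (nat_lit 456) (nat_lit 53008262900) (nat_lit 74) (nat_lit 5) (nat_lit 79) (nat_lit 5) (nat_lit 80) (nat_lit 5) (nat_lit 314) (nat_lit 288) (nat_lit 118)) (XT.nd (nat_lit 78) (nat_lit 304) (nat_lit 0) (XT.lf (nat_lit 0) (nat_lit 55541443162) (nat_lit 456) (nat_lit 559101424) (nat_lit 76) (nat_lit 36715447827) (nat_lit 74) (nat_lit 5) (nat_lit 80) (nat_lit 5) (nat_lit 75) (nat_lit 5) (nat_lit 315) (nat_lit 288) (nat_lit 117)) (XT.lf (nat_lit 0) (nat_lit 65632607743) (nat_lit 304) (nat_lit 10290844074) (nat_lit 380) (nat_lit 20007128194) (nat_lit 70) (nat_lit 5) (nat_lit 74) (nat_lit 5) (nat_lit 75) (nat_lit 5) (nat_lit 316) (nat_lit 288) (nat_lit 116))))) (XT.nd (nat_lit 35334) (nat_lit 0) (nat_lit 6840) (XT.nd (nat_lit 78) (nat_lit 380)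 (nat_lit 0) (XT.lf (nat_lit 0) (nat_lit 36288022501) (nat_lit 304) (nat_lit 61753509253) (nat_lit 380) (nat_lit 1137858143) (nat_lit 66) (nat_lit 5) (nat_lit 70) (nat_lit 5) (nat_lit 71) (nat_lit 5) (nat_lit 317) (nat_lit 288) (nat_lit 115)) (XT.lf (nat_lit 0) (nat_lit 4046230513) (nat_lit 304) (nat_lit 14720888665) (nat_lit 380) (nat_lit 83804437816) (nat_lit 61) (nat_lit 5) (nat_lit 65) (nat_lit 5) (nat_lit 66) (nat_lit 5) (nat_lit 318) (nat_lit 288) (nat_lit 114))) (XT.nd (nat_lit 78) (nat_lit 0) (nat_lit 0) (XT.lf (nat_lit 0) (nat_lit 14189851118) (nat_lit 1140) (nat_lit 4143561117) (nat_lit 1140) (nat_lit 4143561117) (nat_lit 151) (nat_lit 3) (nat_lit 166) (nat_lit 3) (nat_lit 166) (nat_lit 5) (nat_lit 289) (nat_lit 289) (nat_lit 142)) (XT.nd (nat_lit 78) (nat_lit 0) (nat_lit 76) (XT.lf (nat_lit 76) (nat_lit 23281342336) (nat_lit 0) (nat_lit 6079757115) (nat_lit 1140) (nat_lit 16708421262)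 (nat_lit 152) (nat_lit 5) (nat_lit 151) (nat_lit 3) (nat_lit 166) (nat_lit 5) (nat_lit 290) (nat_lit 289) (nat_lit 141)) (XT.lf (nat_lit 76) (nat_lit 9291542979) (nat_lit 0) (nat_lit 21522692062) (nat_lit 1140) (nat_lit 16413965845) (nat_lit 153) (nat_lit 5) (nat_lit 152) (nat_lit 5) (nat_lit 167) (nat_lit 5) (nat_lit 291) (nat_lit 289) (nat_lit 140)))))) (XT.nd (nat_lit 390) (nat_lit 1976) (nat_lit 0) (XT.nd (nat_lit 156) (nat_lit 0) (nat_lit 76) (XT.nd (nat_lit 78) (nat_lit 0) (nat_lit 0) (XT.lf (nat_lit 0) (nat_lit 32735805226) (nat_lit 1064) (nat_lit 5152247310) (nat_lit 1140) (nat_lit 10544896363) (nat_lit 153) (nat_lit 5) (nat_lit 167) (nat_lit 5) (nat_lit 168) (nat_lit 5) (nat_lit 292) (nat_lit 289) (nat_lit 139)) (XT.lf (nat_lit 76) (nat_lit 29630642008) (nat_lit 0) (nat_lit 5622075032) (nat_lit 1140) (nat_lit 14430246202) (nat_lit 154) (nat_lit 5) (nat_lit 153) (nat_lit 5) (nat_lit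 168) (nat_lit 5) (nat_lit 293) (nat_lit 289) (nat_lit 138))) (XT.nd (nat_lit 78) (nat_lit 0) (nat_lit 76) (XT.lf (nat_lit 76) (nat_lit 15290929529) (nat_lit 0) (nat_lit 23074047802) (nat_lit 1140) (nat_lit 12616422383) (nat_lit 155) (nat_lit 5) (nat_lit 154) (nat_lit 5) (nat_lit 169) (nat_lit 5) (nat_lit 294) (nat_lit 289) (nat_lit 137)) (XT.nd (nat_lit 78) (nat_lit 0) (nat_lit 0) (XT.lf (nat_lit 76) (nat_lit 325721416) (nat_lit 0) (nat_lit 41674778181) (nat_lit 1140) (nat_lit 10333235133) (nat_lit 156) (nat_lit 5) (nat_lit 155) (nat_lit 5) (nat_lit 170) (nat_lit 5) (nat_lit 295) (nat_lit 289) (nat_lit 136)) (XT.lf (nat_lit 76) (nat_lit 38649275748) (nat_lit 0) (nat_lit 7764085254) (nat_lit 1140) (nat_lit 7322464500) (nat_lit 156) (nat_lit 5) (nat_lit 155) (nat_lit 5) (nat_lit 170) (nat_lit 5) (nat_lit 296) (nat_lit 289) (nat_lit 135))))) (XT.nd (nat_lit 234) (nat_lit 1140) (nat_lit 0) (XT.nd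 (nat_lit 78) (nat_lit 1064) (nat_lit 0) (XT.lf (nat_lit 76) (nat_lit 23877543577) (nat_lit 0) (nat_lit 27664158561) (nat_lit 1140) (nat_lit 3651479186) (nat_lit 157) (nat_lit 5) (nat_lit 156) (nat_lit 5) (nat_lit 171) (nat_lit 5) (nat_lit 297) (nat_lit 289) (nat_lit 134)) (XT.nd (nat_lit 78) (nat_lit 0) (nat_lit 0) (XT.lf (nat_lit 0) (nat_lit 589904433) (nat_lit 1140) (nat_lit 48322382840) (nat_lit 1216) (nat_lit 7799339957) (nat_lit 142) (nat_lit 5) (nat_lit 157) (nat_lit 5) (nat_lit 158) (nat_lit 5) (nat_lit 298) (nat_lit 289) (nat_lit 133)) (XT.lf (nat_lit 0) (nat_lit 5571158942) (nat_lit 1140) (nat_lit 7883586286) (nat_lit 1216) (nat_lit 44832070952) (nat_lit 142) (nat_lit 5) (nat_lit 157) (nat_lit 5) (nat_lit 158) (nat_lit 5) (nat_lit 299) (nat_lit 289) (nat_lit 132)))) (XT.nd (nat_lit 78) (nat_lit 1216) (nat_lit 0) (XT.lf (nat_lit 0) (nat_lit 11370298601) (nat_lit 1140) (nat_lit 24898983161)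 (nat_lit 76) (nat_lit 23654422852) (nat_lit 143) (nat_lit 5) (nat_lit 158) (nat_lit 5) (nat_lit 144) (nat_lit 5) (nat_lit 300) (nat_lit 289) (nat_lit 131)) (XT.nd (nat_lit 78) (nat_lit 532) (nat_lit 0) (XT.lf (nat_lit 0) (nat_lit 17865593650) (nat_lit 760) (nat_lit 42807557293) (nat_lit 76) (nat_lit 957105057) (nat_lit 134) (nat_lit 5) (nat_lit 144) (nat_lit 5) (nat_lit 135) (nat_lit 5) (nat_lit 301) (nat_lit 289) (nat_lit 130)) (XT.lf (nat_lit 0) (nat_lit 1495180315) (nat_lit 532) (nat_lit 23827878301) (nat_lit 608) (nat_lit 38079958456) (nat_lit 127) (nat_lit 5) (nat_lit 134) (nat_lit 5) (nat_lit 135) (nat_lit 5) (nat_lit 302) (nat_lit 289) (nat_lit 129))))))) (XT.nd (nat_lit 780) (nat_lit 1140) (nat_lit 0) (XT.nd (nat_lit 390) (nat_lit 1672) (nat_lit 0) (XT.nd (nat_lit 156) (nat_lit 988) (nat_lit 0) (XT.nd (nat_lit 78) (nat_lit 532) (nat_lit 0) (XT.lf (nat_lit 0) (nat_lit 33739448661)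 (nat_lit 608) (nat_lit 16492521594) (nat_lit 76) (nat_lit 15014868453) (nat_lit 127) (nat_lit 5) (nat_lit 135) (nat_lit 5) (nat_lit 128) (nat_lit 5) (nat_lit 303) (nat_lit 289) (nat_lit 128)) (XT.lf (nat_lit 0) (nat_lit 31567405829) (nat_lit 532) (nat_lit 11551467332) (nat_lit 608) (nat_lit 24047715690) (nat_lit 120) (nat_lit 5) (nat_lit 127) (nat_lit 5) (nat_lit 128) (nat_lit 5) (nat_lit 304) (nat_lit 289) (nat_lit 127))) (XT.nd (nat_lit 78) (nat_lit 532) (nat_lit 0) (XT.lf (nat_lit 0) (nat_lit 13172069492) (nat_lit 456) (nat_lit 40370983060) (nat_lit 532) (nat_lit 15622004129) (nat_lit 114) (nat_lit 5) (nat_lit 120) (nat_lit 5) (nat_lit 121) (nat_lit 5) (nat_lit 305) (nat_lit 289) (nat_lit 126)) (XT.nd (nat_lit 78) (nat_lit 532) (nat_lit 0) (XT.lf (nat_lit 0) (nat_lit 64969103566) (nat_lit 532) (nat_lit 6244108895) (nat_lit 76) (nat_lit 35819075) (nat_lit 114) (nat_lit 5) (nat_lit 121)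 (nat_lit 5) (nat_lit 115) (nat_lit 5) (nat_lit 306) (nat_lit 289) (nat_lit 125)) (XT.lf (nat_lit 0) (nat_lit 4321668849) (nat_lit 532) (nat_lit 26963637811) (nat_lit 76) (nat_lit 42125045404) (nat_lit 107) (nat_lit 5) (nat_lit 114) (nat_lit 5) (nat_lit 108) (nat_lit 5) (nat_lit 307) (nat_lit 289) (nat_lit 124))))) (XT.nd (nat_lit 156) (nat_lit 760) (nat_lit 0) (XT.nd (nat_lit 78) (nat_lit 456) (nat_lit 0) (XT.lf (nat_lit 0) (nat_lit 15750644802) (nat_lit 532) (nat_lit 49094537605) (nat_lit 76) (nat_lit 10819878646) (nat_lit 101) (nat_lit 5) (nat_lit 108) (nat_lit 5) (nat_lit 102) (nat_lit 5) (nat_lit 308) (nat_lit 289) (nat_lit 123)) (XT.lf (nat_lit 0) (nat_lit 5100112050) (nat_lit 456) (nat_lit 23294640088) (nat_lit 532) (nat_lit 49618445820) (nat_lit 95) (nat_lit 5) (nat_lit 101) (nat_lit 5) (nat_lit 102) (nat_lit 5) (nat_lit 309) (nat_lit 289) (nat_lit 122))) (XT.nd (nat_lit 78) (nat_lit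 760) (nat_lit 0) (XT.lf (nat_lit 0) (nat_lit 42375534893) (nat_lit 532) (nat_lit 17635179598) (nat_lit 76) (nat_lit 20446895924) (nat_lit 95) (nat_lit 5) (nat_lit 102) (nat_lit 5) (nat_lit 96) (nat_lit 5) (nat_lit 310) (nat_lit 289) (nat_lit 121)) (XT.nd (nat_lit 78) (nat_lit 380) (nat_lit 0) (XT.lf (nat_lit 0) (nat_lit 40969476205) (nat_lit 380) (nat_lit 16713512153) (nat_lit 456) (nat_lit 25322428861) (nat_lit 90) (nat_lit 5) (nat_lit 95) (nat_lit 5) (nat_lit 96) (nat_lit 5) (nat_lit 311) (nat_lit 289) (nat_lit 120)) (XT.lf (nat_lit 0) (nat_lit 17254791689) (nat_lit 380) (nat_lit 57125307282) (nat_lit 456) (nat_lit 11281789403) (nat_lit 85) (nat_lit 5) (nat_lit 90) (nat_lit 5) (nat_lit 91) (nat_lit 5) (nat_lit 312) (nat_lit 289) (nat_lit 119)))))) (XT.nd (nat_lit 35724) (nat_lit 0) (nat_lit 6156) (XT.nd (nat_lit 156) (nat_lit 684) (nat_lit 0) (XT.nd (nat_lit 78) (nat_lit 380) (nat_lit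 0) (XT.lf (nat_lit 0) (nat_lit 3997816653) (nat_lit 456) (nat_lit 8257428520) (nat_lit 76) (nat_lit 76176808158) (nat_lit 84) (nat_lit 5) (nat_lit 90) (nat_lit 5) (nat_lit 85) (nat_lit 5) (nat_lit 313) (nat_lit 289) (nat_lit 118)) (XT.lf (nat_lit 0) (nat_lit 20687699053) (nat_lit 456) (nat_lit 35787985801) (nat_lit 76) (nat_lit 34835304273) (nat_lit 79) (nat_lit 5) (nat_lit 85) (nat_lit 5) (nat_lit 80) (nat_lit 5) (nat_lit 314) (nat_lit 289) (nat_lit 117))) (XT.nd (nat_lit 78) (nat_lit 304) (nat_lit 0) (XT.lf (nat_lit 0) (nat_lit 28769150695) (nat_lit 380) (nat_lit 9927878595) (nat_lit 456) (nat_lit 55622295946) (nat_lit 74) (nat_lit 5) (nat_lit 79) (nat_lit 5) (nat_lit 80) (nat_lit 5) (nat_lit 315) (nat_lit 289) (nat_lit 116)) (XT.nd (nat_lit 78) (nat_lit 304) (nat_lit 0) (XT.lf (nat_lit 0) (nat_lit 58352170542) (nat_lit 456) (nat_lit 544437069) (nat_lit 76) (nat_lit 38559112238) (nat_lit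 74) (nat_lit 5) (nat_lit 80) (nat_lit 5) (nat_lit 75) (nat_lit 5) (nat_lit 316) (nat_lit 289) (nat_lit 115)) (XT.lf (nat_lit 0) (nat_lit 68955635879) (nat_lit 304) (nat_lit 10796439062) (nat_lit 380) (nat_lit 20974001005) (nat_lit 70) (nat_lit 5) (nat_lit 74) (nat_lit 5) (nat_lit 75) (nat_lit 5) (nat_lit 317) (nat_lit 289) (nat_lit 114))))) (XT.nd (nat_lit 234) (nat_lit 0) (nat_lit 152) (XT.nd (nat_lit 78) (nat_lit 0) (nat_lit 0) (XT.lf (nat_lit 0) (nat_lit 14946702694) (nat_lit 1140) (nat_lit 4326291435) (nat_lit 1140) (nat_lit 4326291435) (nat_lit 151) (nat_lit 3) (nat_lit 166) (nat_lit 3) (nat_lit 166) (nat_lit 5) (nat_lit 290) (nat_lit 290) (nat_lit 140)) (XT.nd (nat_lit 78) (nat_lit 0) (nat_lit 76) (XT.lf (nat_lit 76) (nat_lit 24492903351) (nat_lit 0) (nat_lit 6426915269) (nat_lit 1140) (nat_lit 17450237846) (nat_lit 152) (nat_lit 5) (nat_lit 151) (nat_lit 3) (nat_lit 166) (nat_lit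 5) (nat_lit 291) (nat_lit 290) (nat_lit 139)) (XT.lf (nat_lit 76) (nat_lit 9805511707) (nat_lit 0) (nat_lit 22635861503) (nat_lit 1140) (nat_lit 17145435065) (nat_lit 153) (nat_lit 5) (nat_lit 152) (nat_lit 5) (nat_lit 167) (nat_lit 5) (nat_lit 292) (nat_lit 290) (nat_lit 138)))) (XT.nd (nat_lit 78) (nat_lit 0) (nat_lit 0) (XT.lf (nat_lit 0) (nat_lit 34454567312) (nat_lit 1064) (nat_lit 5359811832) (nat_lit 1140) (nat_lit 11037558176) (nat_lit 153) (nat_lit 5) (nat_lit 167) (nat_lit 5) (nat_lit 168) (nat_lit 5) (nat_lit 293) (nat_lit 290) (nat_lit 137)) (XT.nd (nat_lit 78) (nat_lit 0) (nat_lit 76) (XT.lf (nat_lit 76) (nat_lit 31160787341) (nat_lit 0) (nat_lit 5933101256) (nat_lit 1140) (nat_lit 15070676384) (nat_lit 154) (nat_lit 5) (nat_lit 153) (nat_lit 5) (nat_lit 168) (nat_lit 5) (nat_lit 294) (nat_lit 290) (nat_lit 136)) (XT.lf (nat_lit 76) (nat_lit 16105448568) (nat_lit 0) (nat_lit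 24252779969) (nat_lit 1140) (nat_lit 13169809805) (nat_lit 155) (nat_lit 5) (nat_lit 154) (nat_lit 5) (nat_lit 169) (nat_lit 5) (nat_lit 295) (nat_lit 290) (nat_lit 135))))))))
noncomputable def xc122 : XT := (XT.nd (nat_lit 1638) (nat_lit 0) (nat_lit 0) (XT.nd (nat_lit 780) (nat_lit 3496) (nat_lit 0) (XT.nd (nat_lit 390) (nat_lit 1672) (nat_lit 0) (XT.nd (nat_lit 156) (nat_lit 988) (nat_lit 0) (XT.nd (nat_lit 78) (nat_lit 0) (nat_lit 0) (XT.lf (nat_lit 76) (nat_lit 393142964) (nat_lit 0) (nat_lit 43779074813) (nat_lit 1140) (nat_lit 10775880238) (nat_lit 156) (nat_lit 5) (nat_lit 155) (nat_lit 5) (nat_lit 170) (nat_lit 5) (nat_lit 296) (nat_lit 290) (nat_lit 134)) (XT.lf (nat_lit 76) (nat_lit 40630439990) (nat_lit 0) (nat_lit 8171868300) (nat_lit 1140) (nat_lit 7618095675) (nat_lit 156) (nat_lit 5) (nat_lit 155) (nat_lit 5) (nat_lit 170) (nat_lit 5) (nat_lit 297) (nat_lit 290) (nat_lit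 133))) (XT.nd (nat_lit 78) (nat_lit 1064) (nat_lit 0) (XT.lf (nat_lit 76) (nat_lit 25121057411) (nat_lit 0) (nat_lit 29063055577) (nat_lit 1140) (nat_lit 3766611027) (nat_lit 157) (nat_lit 5) (nat_lit 156) (nat_lit 5) (nat_lit 171) (nat_lit 5) (nat_lit 298) (nat_lit 290) (nat_lit 132)) (XT.nd (nat_lit 78) (nat_lit 0) (nat_lit 0) (XT.lf (nat_lit 0) (nat_lit 682721248) (nat_lit 1140) (nat_lit 50686680926) (nat_lit 1216) (nat_lit 8175761968) (nat_lit 142) (nat_lit 5) (nat_lit 157) (nat_lit 5) (nat_lit 158) (nat_lit 5) (nat_lit 299) (nat_lit 290) (nat_lit 131)) (XT.lf (nat_lit 0) (nat_lit 5910023169) (nat_lit 1140) (nat_lit 8228412214) (nat_lit 1216) (nat_lit 47060774512) (nat_lit 142) (nat_lit 5) (nat_lit 157) (nat_lit 5) (nat_lit 158) (nat_lit 5) (nat_lit 300) (nat_lit 290) (nat_lit 130))))) (XT.nd (nat_lit 156) (nat_lit 1064) (nat_lit 0) (XT.nd (nat_lit 78) (nat_lit 684) (nat_lit 0) (XT.lf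 (nat_lit 0) (nat_lit 11996613189) (nat_lit 1140) (nat_lit 26094029726) (nat_lit 76) (nat_lit 24827381599) (nat_lit 143) (nat_lit 5) (nat_lit 158) (nat_lit 5) (nat_lit 144) (nat_lit 5) (nat_lit 301) (nat_lit 290) (nat_lit 129)) (XT.lf (nat_lit 0) (nat_lit 18814318886) (nat_lit 760) (nat_lit 44897604848) (nat_lit 76) (nat_lit 998056614) (nat_lit 134) (nat_lit 5) (nat_lit 144) (nat_lit 5) (nat_lit 135) (nat_lit 5) (nat_lit 302) (nat_lit 290) (nat_lit 128))) (XT.nd (nat_lit 78) (nat_lit 532) (nat_lit 0) (XT.lf (nat_lit 0) (nat_lit 1618826933) (nat_lit 532) (nat_lit 25023659841) (nat_lit 608) (nat_lit 39928963766) (nat_lit 127) (nat_lit 5) (nat_lit 134) (nat_lit 5) (nat_lit 135) (nat_lit 5) (nat_lit 303) (nat_lit 290) (nat_lit 127)) (XT.nd (nat_lit 78) (nat_lit 532) (nat_lit 0) (XT.lf (nat_lit 0) (nat_lit 35477119238) (nat_lit 608) (nat_lit 17268912279) (nat_lit 76) (nat_lit 15761514726) (nat_lit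 127) (nat_lit 5) (nat_lit 135) (nat_lit 5) (nat_lit 128) (nat_lit 5) (nat_lit 304) (nat_lit 290) (nat_lit 126)) (XT.lf (nat_lit 0) (nat_lit 33192628857) (nat_lit 532) (nat_lit 12130922285) (nat_lit 608) (nat_lit 25199797069) (nat_lit 120) (nat_lit 5) (nat_lit 127) (nat_lit 5) (nat_lit 128) (nat_lit 5) (nat_lit 305) (nat_lit 290) (nat_lit 125)))))) (XT.nd (nat_lit 390) (nat_lit 1596) (nat_lit 0) (XT.nd (nat_lit 156) (nat_lit 1444) (nat_lit 0) (XT.nd (nat_lit 78) (nat_lit 0) (nat_lit 0) (XT.lf (nat_lit 0) (nat_lit 13877725324) (nat_lit 456) (nat_lit 42389328567) (nat_lit 532) (nat_lit 16354747255) (nat_lit 114) (nat_lit 5) (nat_lit 120) (nat_lit 5) (nat_lit 121) (nat_lit 5) (nat_lit 306) (nat_lit 290) (nat_lit 124)) (XT.lf (nat_lit 0) (nat_lit 68262178430) (nat_lit 532) (nat_lit 6510067892) (nat_lit 76) (nat_lit 37800193) (nat_lit 114) (nat_lit 5) (nat_lit 121) (nat_lit 5) (nat_lit 115) (nat_lit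 5) (nat_lit 307) (nat_lit 290) (nat_lit 123))) (XT.nd (nat_lit 78) (nat_lit 912) (nat_lit 0) (XT.lf (nat_lit 0) (nat_lit 4581195572) (nat_lit 532) (nat_lit 28265943672) (nat_lit 76) (nat_lit 44232336504) (nat_lit 107) (nat_lit 5) (nat_lit 114) (nat_lit 5) (nat_lit 108) (nat_lit 5) (nat_lit 308) (nat_lit 290) (nat_lit 122)) (XT.nd (nat_lit 78) (nat_lit 456) (nat_lit 0) (XT.lf (nat_lit 0) (nat_lit 16580006455) (nat_lit 532) (nat_lit 51503389601) (nat_lit 76) (nat_lit 11363576860) (nat_lit 101) (nat_lit 5) (nat_lit 108) (nat_lit 5) (nat_lit 102) (nat_lit 5) (nat_lit 309) (nat_lit 290) (nat_lit 121)) (XT.lf (nat_lit 0) (nat_lit 5399677543) (nat_lit 456) (nat_lit 24455078076) (nat_lit 532) (nat_lit 52057812065) (nat_lit 95) (nat_lit 5) (nat_lit 101) (nat_lit 5) (nat_lit 102) (nat_lit 5) (nat_lit 310) (nat_lit 290) (nat_lit 120))))) (XT.nd (nat_lit 234) (nat_lit 836) (nat_lit 0) (XT.nd (nat_lit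 78) (nat_lit 760) (nat_lit 0) (XT.lf (nat_lit 0) (nat_lit 44532699399) (nat_lit 532) (nat_lit 18473311163) (nat_lit 76) (nat_lit 21473250458) (nat_lit 95) (nat_lit 5) (nat_lit 102) (nat_lit 5) (nat_lit 96) (nat_lit 5) (nat_lit 311) (nat_lit 290) (nat_lit 119)) (XT.nd (nat_lit 78) (nat_lit 380) (nat_lit 0) (XT.lf (nat_lit 0) (nat_lit 43060326859) (nat_lit 380) (nat_lit 17543778042) (nat_lit 456) (nat_lit 26550399610) (nat_lit 90) (nat_lit 5) (nat_lit 95) (nat_lit 5) (nat_lit 96) (nat_lit 5) (nat_lit 312) (nat_lit 290) (nat_lit 118)) (XT.lf (nat_lit 0) (nat_lit 18159792525) (nat_lit 380) (nat_lit 59974973947) (nat_lit 456) (nat_lit 11809075440) (nat_lit 85) (nat_lit 5) (nat_lit 90) (nat_lit 5) (nat_lit 91) (nat_lit 5) (nat_lit 313) (nat_lit 290) (nat_lit 117)))) (XT.nd (nat_lit 78) (nat_lit 760) (nat_lit 0) (XT.lf (nat_lit 0) (nat_lit 4232074405) (nat_lit 456) (nat_lit 8629301512) (nat_lit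 76) (nat_lit 79991183419) (nat_lit 84) (nat_lit 5) (nat_lit 90) (nat_lit 5) (nat_lit 85) (nat_lit 5) (nat_lit 314) (nat_lit 290) (nat_lit 116)) (XT.nd (nat_lit 78) (nat_lit 380) (nat_lit 0) (XT.lf (nat_lit 0) (nat_lit 21755261712) (nat_lit 456) (nat_lit 37536570446) (nat_lit 76) (nat_lit 36583648567) (nat_lit 79) (nat_lit 5) (nat_lit 85) (nat_lit 5) (nat_lit 80) (nat_lit 5) (nat_lit 315) (nat_lit 290) (nat_lit 115)) (XT.lf (nat_lit 0) (nat_lit 30247252931) (nat_lit 380) (nat_lit 10416606728) (nat_lit 456) (nat_lit 58370412922) (nat_lit 74) (nat_lit 5) (nat_lit 79) (nat_lit 5) (nat_lit 80) (nat_lit 5) (nat_lit 316) (nat_lit 290) (nat_lit 114))))))) (XT.nd (nat_lit 36192) (nat_lit 0) (nat_lit 2052) (XT.nd (nat_lit 35802) (nat_lit 0) (nat_lit 6004) (XT.nd (nat_lit 35568) (nat_lit 0) (nat_lit 5852) (XT.nd (nat_lit 35490) (nat_lit 0) (nat_lit 5852) (XT.lf (nat_lit 0) (nat_lit 61300305348) (nat_lit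 456) (nat_lit 533001846) (nat_lit 76) (nat_lit 40494226145) (nat_lit 74) (nat_lit 5) (nat_lit 80) (nat_lit 5) (nat_lit 75) (nat_lit 5) (nat_lit 317) (nat_lit 290) (nat_lit 113)) (XT.lf (nat_lit 0) (nat_lit 15736993855) (nat_lit 1140) (nat_lit 4520431187) (nat_lit 1140) (nat_lit 4520431187) (nat_lit 151) (nat_lit 3) (nat_lit 166) (nat_lit 3) (nat_lit 166) (nat_lit 5) (nat_lit 291) (nat_lit 291) (nat_lit 138))) (XT.nd (nat_lit 78) (nat_lit 0) (nat_lit 76) (XT.lf (nat_lit 76) (nat_lit 25760626884) (nat_lit 0) (nat_lit 6787417765) (nat_lit 1140) (nat_lit 18237847717) (nat_lit 152) (nat_lit 5) (nat_lit 151) (nat_lit 3) (nat_lit 166) (nat_lit 5) (nat_lit 292) (nat_lit 291) (nat_lit 137)) (XT.nd (nat_lit 78) (nat_lit 0) (nat_lit 76) (XT.lf (nat_lit 76) (nat_lit 10340586910) (nat_lit 0) (nat_lit 23801246269) (nat_lit 1140) (nat_lit 17921773418) (nat_lit 153) (nat_lit 5) (nat_lit 152) (nat_lit 5)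 (nat_lit 167) (nat_lit 5) (nat_lit 293) (nat_lit 291) (nat_lit 136)) (XT.lf (nat_lit 0) (nat_lit 36251646539) (nat_lit 1064) (nat_lit 5582407554) (nat_lit 1140) (nat_lit 11558068280) (nat_lit 153) (nat_lit 5) (nat_lit 167) (nat_lit 5) (nat_lit 168) (nat_lit 5) (nat_lit 294) (nat_lit 291) (nat_lit 135))))) (XT.nd (nat_lit 156) (nat_lit 0) (nat_lit 152) (XT.nd (nat_lit 78) (nat_lit 0) (nat_lit 76) (XT.lf (nat_lit 76) (nat_lit 32762920343) (nat_lit 0) (nat_lit 6256896883) (nat_lit 1140) (nat_lit 15750666324) (nat_lit 154) (nat_lit 5) (nat_lit 153) (nat_lit 5) (nat_lit 168) (nat_lit 5) (nat_lit 295) (nat_lit 291) (nat_lit 134)) (XT.lf (nat_lit 76) (nat_lit 16956047584) (nat_lit 0) (nat_lit 25488121713) (nat_lit 1140) (nat_lit 13758065649) (nat_lit 155) (nat_lit 5) (nat_lit 154) (nat_lit 5) (nat_lit 169) (nat_lit 5) (nat_lit 296) (nat_lit 291) (nat_lit 133))) (XT.nd (nat_lit 78) (nat_lit 0) (nat_lit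 0) (XT.lf (nat_lit 76) (nat_lit 459181498) (nat_lit 0) (nat_lit 45986675015) (nat_lit 1140) (nat_lit 11247538965) (nat_lit 156) (nat_lit 5) (nat_lit 155) (nat_lit 5) (nat_lit 170) (nat_lit 5) (nat_lit 297) (nat_lit 291) (nat_lit 132)) (XT.nd (nat_lit 78) (nat_lit 0) (nat_lit 76) (XT.lf (nat_lit 76) (nat_lit 42706134737) (nat_lit 0) (nat_lit 8598220250) (nat_lit 1140) (nat_lit 7935062092) (nat_lit 156) (nat_lit 5) (nat_lit 155) (nat_lit 5) (nat_lit 170) (nat_lit 5) (nat_lit 298) (nat_lit 291) (nat_lit 131)) (XT.lf (nat_lit 76) (nat_lit 26422132191) (nat_lit 0) (nat_lit 30530438821) (nat_lit 1140) (nat_lit 3893769589) (nat_lit 157) (nat_lit 5) (nat_lit 156) (nat_lit 5) (nat_lit 171) (nat_lit 5) (nat_lit 299) (nat_lit 291) (nat_lit 130)))))) (XT.nd (nat_lit 390) (nat_lit 1976) (nat_lit 0) (XT.nd (nat_lit 156) (nat_lit 1140) (nat_lit 0) (XT.nd (nat_lit 78) (nat_lit 0) (nat_lit 0) (XT.lf (nat_lit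 0) (nat_lit 774291862) (nat_lit 1140) (nat_lit 53174011746) (nat_lit 1216) (nat_lit 8572264364) (nat_lit 142) (nat_lit 5) (nat_lit 157) (nat_lit 5) (nat_lit 158) (nat_lit 5) (nat_lit 300) (nat_lit 291) (nat_lit 129)) (XT.lf (nat_lit 0) (nat_lit 6260223900) (nat_lit 1140) (nat_lit 8595067848) (nat_lit 1216) (nat_lit 49402112569) (nat_lit 142) (nat_lit 5) (nat_lit 157) (nat_lit 5) (nat_lit 158) (nat_lit 5) (nat_lit 301) (nat_lit 291) (nat_lit 128))) (XT.nd (nat_lit 78) (nat_lit 1216) (nat_lit 0) (XT.lf (nat_lit 0) (nat_lit 12648869843) (nat_lit 1140) (nat_lit 27353468090) (nat_lit 76) (nat_lit 26059895899) (nat_lit 143) (nat_lit 5) (nat_lit 158) (nat_lit 5) (nat_lit 144) (nat_lit 5) (nat_lit 302) (nat_lit 291) (nat_lit 127)) (XT.nd (nat_lit 78) (nat_lit 532) (nat_lit 0) (XT.lf (nat_lit 0) (nat_lit 19805325583) (nat_lit 760) (nat_lit 47096834015) (nat_lit 76) (nat_lit 1041697590) (nat_lit 134)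 (nat_lit 5) (nat_lit 144) (nat_lit 5) (nat_lit 135) (nat_lit 5) (nat_lit 303) (nat_lit 291) (nat_lit 126)) (XT.lf (nat_lit 0) (nat_lit 1744110775) (nat_lit 532) (nat_lit 26278822538) (nat_lit 608) (nat_lit 41875532033) (nat_lit 127) (nat_lit 5) (nat_lit 134) (nat_lit 5) (nat_lit 135) (nat_lit 5) (nat_lit 304) (nat_lit 291) (nat_lit 125))))) (XT.nd (nat_lit 234) (nat_lit 988) (nat_lit 0) (XT.nd (nat_lit 78) (nat_lit 988) (nat_lit 0) (XT.lf (nat_lit 0) (nat_lit 37296959910) (nat_lit 608) (nat_lit 18088606968) (nat_lit 76) (nat_lit 16545874228) (nat_lit 127) (nat_lit 5) (nat_lit 135) (nat_lit 5) (nat_lit 128) (nat_lit 5) (nat_lit 305) (nat_lit 291) (nat_lit 124)) (XT.nd (nat_lit 78) (nat_lit 456) (nat_lit 0) (XT.lf (nat_lit 0) (nat_lit 34894757114) (nat_lit 532) (nat_lit 12739175054) (nat_lit 608) (nat_lit 26414159343) (nat_lit 120) (nat_lit 5) (nat_lit 127) (nat_lit 5) (nat_lit 128) (nat_lit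 5) (nat_lit 306) (nat_lit 291) (nat_lit 123)) (XT.lf (nat_lit 0) (nat_lit 14614289466) (nat_lit 456) (nat_lit 44508610282) (nat_lit 532) (nat_lit 17128623320) (nat_lit 114) (nat_lit 5) (nat_lit 120) (nat_lit 5) (nat_lit 121) (nat_lit 5) (nat_lit 307) (nat_lit 291) (nat_lit 122)))) (XT.nd (nat_lit 78) (nat_lit 988) (nat_lit 0) (XT.lf (nat_lit 0) (nat_lit 71715758721) (nat_lit 532) (nat_lit 6793624396) (nat_lit 76) (nat_lit 39862687) (nat_lit 114) (nat_lit 5) (nat_lit 121) (nat_lit 5) (nat_lit 115) (nat_lit 5) (nat_lit 308) (nat_lit 291) (nat_lit 121)) (XT.nd (nat_lit 78) (nat_lit 456) (nat_lit 0) (XT.lf (nat_lit 0) (nat_lit 4849659687) (nat_lit 532) (nat_lit 29637629943) (nat_lit 76) (nat_lit 46444895578) (nat_lit 107) (nat_lit 5) (nat_lit 114) (nat_lit 5) (nat_lit 108) (nat_lit 5) (nat_lit 309) (nat_lit 291) (nat_lit 120)) (XT.lf (nat_lit 0) (nat_lit 17446947288) (nat_lit 532) (nat_lit 54036949208)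 (nat_lit 76) (nat_lit 11934208567) (nat_lit 101) (nat_lit 5) (nat_lit 108) (nat_lit 5) (nat_lit 102) (nat_lit 5) (nat_lit 310) (nat_lit 291) (nat_lit 119))))))))
noncomputable def xc123 : XT := (XT.nd (nat_lit 37128) (nat_lit 0) (nat_lit 760) (XT.nd (nat_lit 36270) (nat_lit 0) (nat_lit 4028) (XT.nd (nat_lit 390) (nat_lit 760) (nat_lit 0) (XT.nd (nat_lit 156) (nat_lit 836) (nat_lit 0) (XT.nd (nat_lit 78) (nat_lit 0) (nat_lit 0) (XT.lf (nat_lit 0) (nat_lit 5710078554) (nat_lit 456) (nat_lit 25673937180) (nat_lit 532) (nat_lit 54623010110) (nat_lit 95) (nat_lit 5) (nat_lit 101) (nat_lit 5) (nat_lit 102) (nat_lit 5) (nat_lit 311) (nat_lit 291) (nat_lit 118)) (XT.lf (nat_lit 0) (nat_lit 46794153201) (nat_lit 532) (nat_lit 19357405369) (nat_lit 76) (nat_lit 22550549932) (nat_lit 95) (nat_lit 5) (nat_lit 102) (nat_lit 5) (nat_lit 96) (nat_lit 5) (nat_lit 312) (nat_lit 291) (nat_lit 117))) (XT.nd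 (nat_lit 78) (nat_lit 456) (nat_lit 0) (XT.lf (nat_lit 0) (nat_lit 45251780249) (nat_lit 380) (nat_lit 18416060170) (nat_lit 456) (nat_lit 27843315786) (nat_lit 90) (nat_lit 5) (nat_lit 95) (nat_lit 5) (nat_lit 96) (nat_lit 5) (nat_lit 313) (nat_lit 291) (nat_lit 116)) (XT.nd (nat_lit 78) (nat_lit 76) (nat_lit 0) (XT.lf (nat_lit 0) (nat_lit 19106114353) (nat_lit 380) (nat_lit 62967737429) (nat_lit 456) (nat_lit 12366147413) (nat_lit 85) (nat_lit 5) (nat_lit 90) (nat_lit 5) (nat_lit 91) (nat_lit 5) (nat_lit 314) (nat_lit 291) (nat_lit 115)) (XT.lf (nat_lit 0) (nat_lit 4474849935) (nat_lit 456) (nat_lit 9023579800) (nat_lit 76) (nat_lit 83995762864) (nat_lit 84) (nat_lit 5) (nat_lit 90) (nat_lit 5) (nat_lit 85) (nat_lit 5) (nat_lit 315) (nat_lit 291) (nat_lit 114))))) (XT.nd (nat_lit 35646) (nat_lit 0) (nat_lit 5852) (XT.nd (nat_lit 78) (nat_lit 380) (nat_lit 0) (XT.lf (nat_lit 0) (nat_lit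 22873117955) (nat_lit 456) (nat_lit 39376378882) (nat_lit 76) (nat_lit 38418798415) (nat_lit 79) (nat_lit 5) (nat_lit 85) (nat_lit 5) (nat_lit 80) (nat_lit 5) (nat_lit 316) (nat_lit 291) (nat_lit 113)) (XT.lf (nat_lit 0) (nat_lit 31795574490) (nat_lit 380) (nat_lit 10930483960) (nat_lit 456) (nat_lit 61259003572) (nat_lit 74) (nat_lit 5) (nat_lit 79) (nat_lit 5) (nat_lit 80) (nat_lit 5) (nat_lit 317) (nat_lit 291) (nat_lit 112))) (XT.nd (nat_lit 78) (nat_lit 0) (nat_lit 0) (XT.lf (nat_lit 0) (nat_lit 16562805930) (nat_lit 1140) (nat_lit 4726339531) (nat_lit 1140) (nat_lit 4726339531) (nat_lit 151) (nat_lit 3) (nat_lit 166) (nat_lit 3) (nat_lit 166) (nat_lit 5) (nat_lit 292) (nat_lit 292) (nat_lit 136)) (XT.nd (nat_lit 78) (nat_lit 0) (nat_lit 76) (XT.lf (nat_lit 76) (nat_lit 27087731576) (nat_lit 0) (nat_lit 7162304965) (nat_lit 1140) (nat_lit 19072731467) (nat_lit 152) (nat_lit 5) (nat_lit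 151) (nat_lit 3) (nat_lit 166) (nat_lit 5) (nat_lit 293) (nat_lit 292) (nat_lit 135)) (XT.lf (nat_lit 76) (nat_lit 10898250830) (nat_lit 0) (nat_lit 25021777236) (nat_lit 1140) (nat_lit 18744453110) (nat_lit 153) (nat_lit 5) (nat_lit 152) (nat_lit 5) (nat_lit 167) (nat_lit 5) (nat_lit 294) (nat_lit 292) (nat_lit 134)))))) (XT.nd (nat_lit 390) (nat_lit 1976) (nat_lit 0) (XT.nd (nat_lit 156) (nat_lit 0) (nat_lit 76) (XT.nd (nat_lit 78) (nat_lit 0) (nat_lit 0) (XT.lf (nat_lit 0) (nat_lit 38131667288) (nat_lit 1064) (nat_lit 5820353447) (nat_lit 1140) (nat_lit 12107520170) (nat_lit 153) (nat_lit 5) (nat_lit 167) (nat_lit 5) (nat_lit 168) (nat_lit 5) (nat_lit 295) (nat_lit 292) (nat_lit 133)) (XT.lf (nat_lit 76) (nat_lit 34441060586) (nat_lit 0) (nat_lit 6594359019) (nat_lit 1140) (nat_lit 16471493173) (nat_lit 154) (nat_lit 5) (nat_lit 153) (nat_lit 5) (nat_lit 168) (nat_lit 5) (nat_lit 296)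 (nat_lit 292) (nat_lit 132))) (XT.nd (nat_lit 78) (nat_lit 0) (nat_lit 76) (XT.lf (nat_lit 76) (nat_lit 17844962514) (nat_lit 0) (nat_lit 26783119858) (nat_lit 1140) (nat_lit 14382264037) (nat_lit 155) (nat_lit 5) (nat_lit 154) (nat_lit 5) (nat_lit 169) (nat_lit 5) (nat_lit 297) (nat_lit 292) (nat_lit 131)) (XT.nd (nat_lit 78) (nat_lit 0) (nat_lit 0) (XT.lf (nat_lit 76) (nat_lit 524209857) (nat_lit 0) (nat_lit 48302921656) (nat_lit 1140) (nat_lit 11749022231) (nat_lit 156) (nat_lit 5) (nat_lit 155) (nat_lit 5) (nat_lit 170) (nat_lit 5) (nat_lit 298) (nat_lit 292) (nat_lit 130)) (XT.lf (nat_lit 76) (nat_lit 44881507459) (nat_lit 0) (nat_lit 9044238776) (nat_lit 1140) (nat_lit 8273821214) (nat_lit 156) (nat_lit 5) (nat_lit 155) (nat_lit 5) (nat_lit 170) (nat_lit 5) (nat_lit 299) (nat_lit 292) (nat_lit 129))))) (XT.nd (nat_lit 234) (nat_lit 1140) (nat_lit 0) (XT.nd (nat_lit 78) (nat_lit 1064)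 (nat_lit 0) (XT.lf (nat_lit 76) (nat_lit 27784074999) (nat_lit 0) (nat_lit 32069868213) (nat_lit 1140) (nat_lit 4032973270) (nat_lit 157) (nat_lit 5) (nat_lit 156) (nat_lit 5) (nat_lit 171) (nat_lit 5) (nat_lit 300) (nat_lit 292) (nat_lit 128)) (XT.nd (nat_lit 78) (nat_lit 0) (nat_lit 0) (XT.lf (nat_lit 0) (nat_lit 865101287) (nat_lit 1140) (nat_lit 55790079023) (nat_lit 1216) (nat_lit 8989734088) (nat_lit 142) (nat_lit 5) (nat_lit 157) (nat_lit 5) (nat_lit 158) (nat_lit 5) (nat_lit 301) (nat_lit 292) (nat_lit 127)) (XT.lf (nat_lit 0) (nat_lit 6622849221) (nat_lit 1140) (nat_lit 8984218086) (nat_lit 1216) (nat_lit 51861605346) (nat_lit 142) (nat_lit 5) (nat_lit 157) (nat_lit 5) (nat_lit 158) (nat_lit 5) (nat_lit 302) (nat_lit 292) (nat_lit 126)))) (XT.nd (nat_lit 78) (nat_lit 1216) (nat_lit 0) (XT.lf (nat_lit 0) (nat_lit 13328865257) (nat_lit 1140) (nat_lit 28680086509) (nat_lit 76) (nat_lit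 27354859148) (nat_lit 143) (nat_lit 5) (nat_lit 158) (nat_lit 5) (nat_lit 144) (nat_lit 5) (nat_lit 303) (nat_lit 292) (nat_lit 125)) (XT.nd (nat_lit 78) (nat_lit 532) (nat_lit 0) (XT.lf (nat_lit 0) (nat_lit 20841207056) (nat_lit 760) (nat_lit 49410268845) (nat_lit 76) (nat_lit 1088102782) (nat_lit 134) (nat_lit 5) (nat_lit 144) (nat_lit 5) (nat_lit 135) (nat_lit 5) (nat_lit 304) (nat_lit 292) (nat_lit 124)) (XT.lf (nat_lit 0) (nat_lit 1871536265) (nat_lit 532) (nat_lit 27596373375) (nat_lit 608) (nat_lit 43924066076) (nat_lit 127) (nat_lit 5) (nat_lit 134) (nat_lit 5) (nat_lit 135) (nat_lit 5) (nat_lit 305) (nat_lit 292) (nat_lit 123))))))) (XT.nd (nat_lit 780) (nat_lit 76) (nat_lit 0) (XT.nd (nat_lit 390) (nat_lit 1672) (nat_lit 0) (XT.nd (nat_lit 156) (nat_lit 988) (nat_lit 0) (XT.nd (nat_lit 78) (nat_lit 532) (nat_lit 0) (XT.lf (nat_lit 0) (nat_lit 39203517394) (nat_lit 608) (nat_lit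 18953353938) (nat_lit 76) (nat_lit 17369797204) (nat_lit 127) (nat_lit 5) (nat_lit 135) (nat_lit 5) (nat_lit 128) (nat_lit 5) (nat_lit 306) (nat_lit 292) (nat_lit 122)) (XT.lf (nat_lit 0) (nat_lit 36678040832) (nat_lit 532) (nat_lit 13377681793) (nat_lit 608) (nat_lit 27693481750) (nat_lit 120) (nat_lit 5) (nat_lit 127) (nat_lit 5) (nat_lit 128) (nat_lit 5) (nat_lit 307) (nat_lit 292) (nat_lit 121))) (XT.nd (nat_lit 78) (nat_lit 532) (nat_lit 0) (XT.lf (nat_lit 0) (nat_lit 15383714031) (nat_lit 456) (nat_lit 46733873256) (nat_lit 532) (nat_lit 17945270996) (nat_lit 114) (nat_lit 5) (nat_lit 120) (nat_lit 5) (nat_lit 121) (nat_lit 5) (nat_lit 308) (nat_lit 292) (nat_lit 120)) (XT.nd (nat_lit 78) (nat_lit 532) (nat_lit 0) (XT.lf (nat_lit 0) (nat_lit 75338255382) (nat_lit 532) (nat_lit 7095258550) (nat_lit 76) (nat_lit 42012270) (nat_lit 114) (nat_lit 5) (nat_lit 121) (nat_lit 5) (nat_lit 115)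 (nat_lit 5) (nat_lit 309) (nat_lit 292) (nat_lit 119)) (XT.lf (nat_lit 0) (nat_lit 5127883566) (nat_lit 532) (nat_lit 31081769117) (nat_lit 76) (nat_lit 48767995004) (nat_lit 107) (nat_lit 5) (nat_lit 114) (nat_lit 5) (nat_lit 108) (nat_lit 5) (nat_lit 310) (nat_lit 292) (nat_lit 118))))) (XT.nd (nat_lit 156) (nat_lit 760) (nat_lit 0) (XT.nd (nat_lit 78) (nat_lit 456) (nat_lit 0) (XT.lf (nat_lit 0) (nat_lit 18353707815) (nat_lit 532) (nat_lit 56701055288) (nat_lit 76) (nat_lit 12533143815) (nat_lit 101) (nat_lit 5) (nat_lit 108) (nat_lit 5) (nat_lit 102) (nat_lit 5) (nat_lit 311) (nat_lit 292) (nat_lit 117)) (XT.lf (nat_lit 0) (nat_lit 6032242013) (nat_lit 456) (nat_lit 26954101341) (nat_lit 532) (nat_lit 57319972353) (nat_lit 95) (nat_lit 5) (nat_lit 101) (nat_lit 5) (nat_lit 102) (nat_lit 5) (nat_lit 312) (nat_lit 292) (nat_lit 116))) (XT.nd (nat_lit 78) (nat_lit 760) (nat_lit 0) (XT.lf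 (nat_lit 0) (nat_lit 49165442568) (nat_lit 532) (nat_lit 20289383255) (nat_lit 76) (nat_lit 23681376249) (nat_lit 95) (nat_lit 5) (nat_lit 102) (nat_lit 5) (nat_lit 96) (nat_lit 5) (nat_lit 313) (nat_lit 292) (nat_lit 115)) (XT.nd (nat_lit 78) (nat_lit 380) (nat_lit 0) (XT.lf (nat_lit 0) (nat_lit 47549232796) (nat_lit 380) (nat_lit 19332412589) (nat_lit 456) (nat_lit 29204094905) (nat_lit 90) (nat_lit 5) (nat_lit 95) (nat_lit 5) (nat_lit 96) (nat_lit 5) (nat_lit 314) (nat_lit 292) (nat_lit 114)) (XT.lf (nat_lit 0) (nat_lit 20096188506) (nat_lit 380) (nat_lit 66110695535) (nat_lit 456) (nat_lit 12954176508) (nat_lit 85) (nat_lit 5) (nat_lit 90) (nat_lit 5) (nat_lit 91) (nat_lit 5) (nat_lit 315) (nat_lit 292) (nat_lit 113)))))) (XT.nd (nat_lit 36036) (nat_lit 0) (nat_lit 4408) (XT.nd (nat_lit 35802) (nat_lit 0) (nat_lit 5092) (XT.nd (nat_lit 35724) (nat_lit 0) (nat_lit 5092) (XT.lf (nat_lit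 0) (nat_lit 4726866182) (nat_lit 456) (nat_lit 9441029277) (nat_lit 76) (nat_lit 88200104544) (nat_lit 84) (nat_lit 5) (nat_lit 90) (nat_lit 5) (nat_lit 85) (nat_lit 5) (nat_lit 316) (nat_lit 292) (nat_lit 112)) (XT.lf (nat_lit 0) (nat_lit 17426286256) (nat_lit 1140) (nat_lit 4944413229) (nat_lit 1140) (nat_lit 4944413229) (nat_lit 151) (nat_lit 3) (nat_lit 166) (nat_lit 3) (nat_lit 166) (nat_lit 5) (nat_lit 293) (nat_lit 293) (nat_lit 134))) (XT.nd (nat_lit 78) (nat_lit 0) (nat_lit 76) (XT.lf (nat_lit 76) (nat_lit 28477558833) (nat_lit 0) (nat_lit 7552634554) (nat_lit 1140) (nat_lit 19956518937) (nat_lit 152) (nat_lit 5) (nat_lit 151) (nat_lit 3) (nat_lit 166) (nat_lit 5) (nat_lit 294) (nat_lit 293) (nat_lit 133)) (XT.nd (nat_lit 78) (nat_lit 0) (nat_lit 76) (XT.lf (nat_lit 76) (nat_lit 11480020128) (nat_lit 0) (nat_lit 26300502064) (nat_lit 1140) (nat_lit 19615091658) (nat_lit 153) (nat_lit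 5) (nat_lit 152) (nat_lit 5) (nat_lit 167) (nat_lit 5) (nat_lit 295) (nat_lit 293) (nat_lit 132)) (XT.lf (nat_lit 0) (nat_lit 40099419290) (nat_lit 1064) (nat_lit 6074024647) (nat_lit 1140) (nat_lit 12687089807) (nat_lit 153) (nat_lit 5) (nat_lit 167) (nat_lit 5) (nat_lit 168) (nat_lit 5) (nat_lit 296) (nat_lit 293) (nat_lit 131))))) (XT.nd (nat_lit 234) (nat_lit 836) (nat_lit 0) (XT.nd (nat_lit 78) (nat_lit 0) (nat_lit 76) (XT.lf (nat_lit 76) (nat_lit 36199389558) (nat_lit 0) (nat_lit 6946405579) (nat_lit 1140) (nat_lit 17234563099) (nat_lit 154) (nat_lit 5) (nat_lit 153) (nat_lit 5) (nat_lit 168) (nat_lit 5) (nat_lit 297) (nat_lit 293) (nat_lit 130)) (XT.nd (nat_lit 78) (nat_lit 0) (nat_lit 76) (XT.lf (nat_lit 76) (nat_lit 18774500935) (nat_lit 0) (nat_lit 28140953456) (nat_lit 1140) (nat_lit 15043595021) (nat_lit 155) (nat_lit 5) (nat_lit 154) (nat_lit 5) (nat_lit 169) (nat_lit 5) (nat_lit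 298) (nat_lit 293) (nat_lit 129)) (XT.lf (nat_lit 76) (nat_lit 588578430) (nat_lit 0) (nat_lit 50733408228) (nat_lit 1140) (nat_lit 12281240977) (nat_lit 156) (nat_lit 5) (nat_lit 155) (nat_lit 5) (nat_lit 170) (nat_lit 5) (nat_lit 299) (nat_lit 293) (nat_lit 128)))) (XT.nd (nat_lit 78) (nat_lit 988) (nat_lit 0) (XT.lf (nat_lit 76) (nat_lit 47161923861) (nat_lit 0) (nat_lit 9511060705) (nat_lit 1140) (nat_lit 8634910022) (nat_lit 156) (nat_lit 5) (nat_lit 155) (nat_lit 5) (nat_lit 170) (nat_lit 5) (nat_lit 300) (nat_lit 293) (nat_lit 127)) (XT.nd (nat_lit 78) (nat_lit 1064) (nat_lit 0) (XT.lf (nat_lit 76) (nat_lit 29210318386) (nat_lit 0) (nat_lit 33685069063) (nat_lit 1140) (nat_lit 4184295587) (nat_lit 157) (nat_lit 5) (nat_lit 156) (nat_lit 5) (nat_lit 171) (nat_lit 5) (nat_lit 301) (nat_lit 293) (nat_lit 126)) (XT.lf (nat_lit 0) (nat_lit 955607899) (nat_lit 1140) (nat_lit 58540913304)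 (nat_lit 1216) (nat_lit 9429113315) (nat_lit 142) (nat_lit 5) (nat_lit 157) (nat_lit 5) (nat_lit 158) (nat_lit 5) (nat_lit 302) (nat_lit 293) (nat_lit 125))))))))
noncomputable def xc124 : XT := (XT.nd (nat_lit 37362) (nat_lit 0) (nat_lit 760) (XT.nd (nat_lit 780) (nat_lit 1216) (nat_lit 0) (XT.nd (nat_lit 390) (nat_lit 1976) (nat_lit 0) (XT.nd (nat_lit 156) (nat_lit 1140) (nat_lit 0) (XT.nd (nat_lit 78) (nat_lit 0) (nat_lit 76) (XT.lf (nat_lit 0) (nat_lit 6998993156) (nat_lit 1140) (nat_lit 9396600733) (nat_lit 1216) (nat_lit 54445059444) (nat_lit 142) (nat_lit 5) (nat_lit 157) (nat_lit 5) (nat_lit 158) (nat_lit 5) (nat_lit 303) (nat_lit 293) (nat_lit 124)) (XT.lf (nat_lit 0) (nat_lit 14038439514) (nat_lit 1140) (nat_lit 30076852751) (nat_lit 76) (nat_lit 28715317256) (nat_lit 143) (nat_lit 5) (nat_lit 158) (nat_lit 5) (nat_lit 144) (nat_lit 5) (nat_lit 304) (nat_lit 293) (nat_lit 123)))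 (XT.nd (nat_lit 78) (nat_lit 532) (nat_lit 0) (XT.lf (nat_lit 0) (nat_lit 21924641735) (nat_lit 760) (nat_lit 51843225035) (nat_lit 76) (nat_lit 1137356277) (nat_lit 134) (nat_lit 5) (nat_lit 144) (nat_lit 5) (nat_lit 135) (nat_lit 5) (nat_lit 305) (nat_lit 293) (nat_lit 122)) (XT.nd (nat_lit 78) (nat_lit 0) (nat_lit 0) (XT.lf (nat_lit 0) (nat_lit 2001593760) (nat_lit 532) (nat_lit 28979466158) (nat_lit 608) (nat_lit 46079233046) (nat_lit 127) (nat_lit 5) (nat_lit 134) (nat_lit 5) (nat_lit 135) (nat_lit 5) (nat_lit 306) (nat_lit 293) (nat_lit 121)) (XT.lf (nat_lit 0) (nat_lit 41201524999) (nat_lit 608) (nat_lit 19865027641) (nat_lit 76) (nat_lit 18235229709) (nat_lit 127) (nat_lit 5) (nat_lit 135) (nat_lit 5) (nat_lit 128) (nat_lit 5) (nat_lit 307) (nat_lit 293) (nat_lit 120))))) (XT.nd (nat_lit 156) (nat_lit 988) (nat_lit 0) (XT.nd (nat_lit 78) (nat_lit 456) (nat_lit 0) (XT.lf (nat_lit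 0) (nat_lit 38546905107) (nat_lit 532) (nat_lit 14047969951) (nat_lit 608) (nat_lit 29040617915) (nat_lit 120) (nat_lit 5) (nat_lit 127) (nat_lit 5) (nat_lit 128) (nat_lit 5) (nat_lit 308) (nat_lit 293) (nat_lit 119)) (XT.lf (nat_lit 0) (nat_lit 16188010926) (nat_lit 456) (nat_lit 49070414955) (nat_lit 532) (nat_lit 18806449747) (nat_lit 114) (nat_lit 5) (nat_lit 120) (nat_lit 5) (nat_lit 121) (nat_lit 5) (nat_lit 309) (nat_lit 293) (nat_lit 118))) (XT.nd (nat_lit 78) (nat_lit 988) (nat_lit 0) (XT.lf (nat_lit 0) (nat_lit 79138464047) (nat_lit 532) (nat_lit 7415511666) (nat_lit 76) (nat_lit 44254787) (nat_lit 114) (nat_lit 5) (nat_lit 121) (nat_lit 5) (nat_lit 115) (nat_lit 5) (nat_lit 310) (nat_lit 293) (nat_lit 117)) (XT.nd (nat_lit 78) (nat_lit 456) (nat_lit 0) (XT.lf (nat_lit 0) (nat_lit 5416695789) (nat_lit 532) (nat_lit 32601624172) (nat_lit 76) (nat_lit 51207169945) (nat_lit 107) (nat_lit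 5) (nat_lit 114) (nat_lit 5) (nat_lit 108) (nat_lit 5) (nat_lit 311) (nat_lit 293) (nat_lit 116)) (XT.lf (nat_lit 0) (nat_lit 19302606957) (nat_lit 532) (nat_lit 59501875508) (nat_lit 76) (nat_lit 13161818983) (nat_lit 101) (nat_lit 5) (nat_lit 108) (nat_lit 5) (nat_lit 102) (nat_lit 5) (nat_lit 312) (nat_lit 293) (nat_lit 115)))))) (XT.nd (nat_lit 36114) (nat_lit 0) (nat_lit 5016) (XT.nd (nat_lit 156) (nat_lit 760) (nat_lit 0) (XT.nd (nat_lit 78) (nat_lit 0) (nat_lit 0) (XT.lf (nat_lit 0) (nat_lit 6367105390) (nat_lit 456) (nat_lit 28298602146) (nat_lit 532) (nat_lit 60154961209) (nat_lit 95) (nat_lit 5) (nat_lit 101) (nat_lit 5) (nat_lit 102) (nat_lit 5) (nat_lit 313) (nat_lit 293) (nat_lit 114)) (XT.lf (nat_lit 0) (nat_lit 51652360235) (nat_lit 532) (nat_lit 21271296969) (nat_lit 76) (nat_lit 24868437190) (nat_lit 95) (nat_lit 5) (nat_lit 102) (nat_lit 5) (nat_lit 96) (nat_lit 5) (nat_lit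 314) (nat_lit 293) (nat_lit 113))) (XT.nd (nat_lit 78) (nat_lit 380) (nat_lit 0) (XT.lf (nat_lit 0) (nat_lit 49958316690) (nat_lit 380) (nat_lit 20294996403) (nat_lit 456) (nat_lit 30635831015) (nat_lit 90) (nat_lit 5) (nat_lit 95) (nat_lit 5) (nat_lit 96) (nat_lit 5) (nat_lit 315) (nat_lit 293) (nat_lit 112)) (XT.nd (nat_lit 35802) (nat_lit 0) (nat_lit 5016) (XT.lf (nat_lit 0) (nat_lit 21132533928) (nat_lit 380) (nat_lit 69411306261) (nat_lit 456) (nat_lit 13574422044) (nat_lit 85) (nat_lit 5) (nat_lit 90) (nat_lit 5) (nat_lit 91) (nat_lit 5) (nat_lit 316) (nat_lit 293) (nat_lit 111)) (XT.lf (nat_lit 0) (nat_lit 18329655017) (nat_lit 1140) (nat_lit 5175086699) (nat_lit 1140) (nat_lit 5175086699) (nat_lit 151) (nat_lit 3) (nat_lit 166) (nat_lit 3) (nat_lit 166) (nat_lit 5) (nat_lit 294) (nat_lit 294) (nat_lit 132))))) (XT.nd (nat_lit 234) (nat_lit 0) (nat_lit 152) (XT.nd (nat_lit 78) (nat_lit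 0) (nat_lit 76) (XT.lf (nat_lit 76) (nat_lit 29933582514) (nat_lit 0) (nat_lit 7959485639) (nat_lit 1140) (nat_lit 20890989689) (nat_lit 152) (nat_lit 5) (nat_lit 151) (nat_lit 3) (nat_lit 166) (nat_lit 5) (nat_lit 295) (nat_lit 294) (nat_lit 131)) (XT.nd (nat_lit 78) (nat_lit 0) (nat_lit 76) (XT.lf (nat_lit 76) (nat_lit 12087451299) (nat_lit 0) (nat_lit 27640593804) (nat_lit 1140) (nat_lit 20535452492) (nat_lit 153) (nat_lit 5) (nat_lit 152) (nat_lit 5) (nat_lit 167) (nat_lit 5) (nat_lit 296) (nat_lit 294) (nat_lit 130)) (XT.lf (nat_lit 0) (nat_lit 42159872012) (nat_lit 1064) (nat_lit 6343851529) (nat_lit 1140) (nat_lit 13298037158) (nat_lit 153) (nat_lit 5) (nat_lit 167) (nat_lit 5) (nat_lit 168) (nat_lit 5) (nat_lit 297) (nat_lit 294) (nat_lit 129)))) (XT.nd (nat_lit 78) (nat_lit 0) (nat_lit 76) (XT.lf (nat_lit 76) (nat_lit 38042262385) (nat_lit 0) (nat_lit 7313978565) (nat_lit 1140)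 (nat_lit 18041411679) (nat_lit 154) (nat_lit 5) (nat_lit 153) (nat_lit 5) (nat_lit 168) (nat_lit 5) (nat_lit 298) (nat_lit 294) (nat_lit 128)) (XT.nd (nat_lit 78) (nat_lit 0) (nat_lit 76) (XT.lf (nat_lit 76) (nat_lit 19747049380) (nat_lit 0) (nat_lit 29564942267) (nat_lit 1140) (nat_lit 15743364598) (nat_lit 155) (nat_lit 5) (nat_lit 154) (nat_lit 5) (nat_lit 169) (nat_lit 5) (nat_lit 299) (nat_lit 294) (nat_lit 127)) (XT.lf (nat_lit 76) (nat_lit 652617856) (nat_lit 0) (nat_lit 53283992916) (nat_lit 1140) (nat_lit 12845205643) (nat_lit 156) (nat_lit 5) (nat_lit 155) (nat_lit 5) (nat_lit 170) (nat_lit 5) (nat_lit 300) (nat_lit 294) (nat_lit 126))))))) (XT.nd (nat_lit 780) (nat_lit 1444) (nat_lit 0) (XT.nd (nat_lit 390) (nat_lit 2128) (nat_lit 0) (XT.nd (nat_lit 156) (nat_lit 988) (nat_lit 0) (XT.nd (nat_lit 78) (nat_lit 0) (nat_lit 76) (XT.lf (nat_lit 76) (nat_lit 49552982439) (nat_lit 0)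 (nat_lit 9999865432) (nat_lit 1140) (nat_lit 9018943729) (nat_lit 156) (nat_lit 5) (nat_lit 155) (nat_lit 5) (nat_lit 170) (nat_lit 5) (nat_lit 301) (nat_lit 294) (nat_lit 125)) (XT.lf (nat_lit 76) (nat_lit 30704430347) (nat_lit 0) (nat_lit 35379941508) (nat_lit 1140) (nat_lit 4347862885) (nat_lit 157) (nat_lit 5) (nat_lit 156) (nat_lit 5) (nat_lit 171) (nat_lit 5) (nat_lit 302) (nat_lit 294) (nat_lit 124))) (XT.nd (nat_lit 78) (nat_lit 0) (nat_lit 0) (XT.lf (nat_lit 0) (nat_lit 1046246841) (nat_lit 1140) (nat_lit 61432884438) (nat_lit 1216) (nat_lit 9891401201) (nat_lit 142) (nat_lit 5) (nat_lit 157) (nat_lit 5) (nat_lit 158) (nat_lit 5) (nat_lit 303) (nat_lit 294) (nat_lit 123)) (XT.nd (nat_lit 78) (nat_lit 0) (nat_lit 76) (XT.lf (nat_lit 0) (nat_lit 7389760477) (nat_lit 1140) (nat_lit 9833026455) (nat_lit 1216) (nat_lit 57158581197) (nat_lit 142) (nat_lit 5) (nat_lit 157) (nat_lit 5)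 (nat_lit 158) (nat_lit 5) (nat_lit 304) (nat_lit 294) (nat_lit 122)) (XT.lf (nat_lit 0) (nat_lit 14779482574) (nat_lit 1140) (nat_lit 31546919350) (nat_lit 76) (nat_lit 30144475545) (nat_lit 143) (nat_lit 5) (nat_lit 158) (nat_lit 5) (nat_lit 144) (nat_lit 5) (nat_lit 305) (nat_lit 294) (nat_lit 121))))) (XT.nd (nat_lit 156) (nat_lit 988) (nat_lit 0) (XT.nd (nat_lit 78) (nat_lit 532) (nat_lit 0) (XT.lf (nat_lit 0) (nat_lit 23058401555) (nat_lit 760) (nat_lit 54401320751) (nat_lit 76) (nat_lit 1189551398) (nat_lit 134) (nat_lit 5) (nat_lit 144) (nat_lit 5) (nat_lit 135) (nat_lit 5) (nat_lit 306) (nat_lit 294) (nat_lit 120)) (XT.lf (nat_lit 0) (nat_lit 2134762501) (nat_lit 532) (nat_lit 30431409183) (nat_lit 608) (nat_lit 48345973533) (nat_lit 127) (nat_lit 5) (nat_lit 134) (nat_lit 5) (nat_lit 135) (nat_lit 5) (nat_lit 307) (nat_lit 294) (nat_lit 119))) (XT.nd (nat_lit 78) (nat_lit 988) (nat_lit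 0) (XT.lf (nat_lit 0) (nat_lit 43295915748) (nat_lit 608) (nat_lit 20825631410) (nat_lit 76) (nat_lit 19144218082) (nat_lit 127) (nat_lit 5) (nat_lit 135) (nat_lit 5) (nat_lit 128) (nat_lit 5) (nat_lit 308) (nat_lit 294) (nat_lit 118)) (XT.nd (nat_lit 78) (nat_lit 456) (nat_lit 0) (XT.lf (nat_lit 0) (nat_lit 40505962138) (nat_lit 532) (nat_lit 14751641981) (nat_lit 608) (nat_lit 30458600809) (nat_lit 120) (nat_lit 5) (nat_lit 127) (nat_lit 5) (nat_lit 128) (nat_lit 5) (nat_lit 309) (nat_lit 294) (nat_lit 117)) (XT.lf (nat_lit 0) (nat_lit 17029258360) (nat_lit 456) (nat_lit 51523797867) (nat_lit 532) (nat_lit 19714042259) (nat_lit 114) (nat_lit 5) (nat_lit 120) (nat_lit 5) (nat_lit 121) (nat_lit 5) (nat_lit 310) (nat_lit 294) (nat_lit 116)))))) (XT.nd (nat_lit 36270) (nat_lit 0) (nat_lit 4256) (XT.nd (nat_lit 156) (nat_lit 912) (nat_lit 0) (XT.nd (nat_lit 78) (nat_lit 532) (nat_lit 0) (XT.lf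 (nat_lit 0) (nat_lit 83125587608) (nat_lit 532) (nat_lit 7754985834) (nat_lit 76) (nat_lit 46596237) (nat_lit 114) (nat_lit 5) (nat_lit 121) (nat_lit 5) (nat_lit 115) (nat_lit 5) (nat_lit 311) (nat_lit 294) (nat_lit 115)) (XT.lf (nat_lit 0) (nat_lit 5716934701) (nat_lit 532) (nat_lit 34200654678) (nat_lit 76) (nat_lit 53768231563) (nat_lit 107) (nat_lit 5) (nat_lit 114) (nat_lit 5) (nat_lit 108) (nat_lit 5) (nat_lit 312) (nat_lit 294) (nat_lit 114))) (XT.nd (nat_lit 78) (nat_lit 456) (nat_lit 0) (XT.lf (nat_lit 0) (nat_lit 20296049099) (nat_lit 532) (nat_lit 62445919356) (nat_lit 76) (nat_lit 13821740297) (nat_lit 101) (nat_lit 5) (nat_lit 108) (nat_lit 5) (nat_lit 102) (nat_lit 5) (nat_lit 313) (nat_lit 294) (nat_lit 113)) (XT.nd (nat_lit 78) (nat_lit 0) (nat_lit 0) (XT.lf (nat_lit 0) (nat_lit 6715620547) (nat_lit 456) (nat_lit 29710625894) (nat_lit 532) (nat_lit 63134582502) (nat_lit 95)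 (nat_lit 5) (nat_lit 101) (nat_lit 5) (nat_lit 102) (nat_lit 5) (nat_lit 314) (nat_lit 294) (nat_lit 112)) (XT.lf (nat_lit 0) (nat_lit 54260960595) (nat_lit 532) (nat_lit 22305333065) (nat_lit 76) (nat_lit 26114572998) (nat_lit 95) (nat_lit 5) (nat_lit 102) (nat_lit 5) (nat_lit 96) (nat_lit 5) (nat_lit 315) (nat_lit 294) (nat_lit 111))))) (XT.nd (nat_lit 234) (nat_lit 0) (nat_lit 152) (XT.nd (nat_lit 78) (nat_lit 0) (nat_lit 0) (XT.lf (nat_lit 0) (nat_lit 19275212098) (nat_lit 1140) (nat_lit 5418832243) (nat_lit 1140) (nat_lit 5418832243) (nat_lit 151) (nat_lit 3) (nat_lit 166) (nat_lit 3) (nat_lit 166) (nat_lit 5) (nat_lit 295) (nat_lit 295) (nat_lit 130)) (XT.nd (nat_lit 78) (nat_lit 0) (nat_lit 76) (XT.lf (nat_lit 76) (nat_lit 31459418773) (nat_lit 0) (nat_lit 8383962739) (nat_lit 1140) (nat_lit 21878074143) (nat_lit 152) (nat_lit 5) (nat_lit 151) (nat_lit 3) (nat_lit 166) (nat_lit 5)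 (nat_lit 296) (nat_lit 295) (nat_lit 129)) (XT.lf (nat_lit 76) (nat_lit 12722146009) (nat_lit 0) (nat_lit 29045359672) (nat_lit 1140) (nat_lit 21507446206) (nat_lit 153) (nat_lit 5) (nat_lit 152) (nat_lit 5) (nat_lit 167) (nat_lit 5) (nat_lit 297) (nat_lit 295) (nat_lit 128)))) (XT.nd (nat_lit 78) (nat_lit 0) (nat_lit 0) (XT.lf (nat_lit 0) (nat_lit 44318189202) (nat_lit 1064) (nat_lit 6630319071) (nat_lit 1140) (nat_lit 13941708051) (nat_lit 153) (nat_lit 5) (nat_lit 167) (nat_lit 5) (nat_lit 168) (nat_lit 5) (nat_lit 298) (nat_lit 295) (nat_lit 127)) (XT.nd (nat_lit 78) (nat_lit 0) (nat_lit 76) (XT.lf (nat_lit 76) (nat_lit 39974219812) (nat_lit 0) (nat_lit 7698047295) (nat_lit 1140) (nat_lit 18893704870) (nat_lit 154) (nat_lit 5) (nat_lit 153) (nat_lit 5) (nat_lit 168) (nat_lit 5) (nat_lit 299) (nat_lit 295) (nat_lit 126)) (XT.lf (nat_lit 76) (nat_lit 20765080667) (nat_lit 0) (nat_lit 31058555492)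 (nat_lit 1140) (nat_lit 16482995255) (nat_lit 155) (nat_lit 5) (nat_lit 154) (nat_lit 5) (nat_lit 169) (nat_lit 5) (nat_lit 300) (nat_lit 295) (nat_lit 125))))))))
noncomputable def xc125 : XT := (XT.nd (nat_lit 37674) (nat_lit 0) (nat_lit 456) (XT.nd (nat_lit 780) (nat_lit 1444) (nat_lit 0) (XT.nd (nat_lit 390) (nat_lit 1672) (nat_lit 0) (XT.nd (nat_lit 156) (nat_lit 988) (nat_lit 0) (XT.nd (nat_lit 78) (nat_lit 0) (nat_lit 0) (XT.lf (nat_lit 76) (nat_lit 716641496) (nat_lit 0) (nat_lit 55960813220) (nat_lit 1140) (nat_lit 13442026122) (nat_lit 156) (nat_lit 5) (nat_lit 155) (nat_lit 5) (nat_lit 170) (nat_lit 5) (nat_lit 301) (nat_lit 295) (nat_lit 124)) (XT.lf (nat_lit 76) (nat_lit 52060529415) (nat_lit 0) (nat_lit 10511878379) (nat_lit 1140) (nat_lit 9426614912) (nat_lit 156) (nat_lit 5) (nat_lit 155) (nat_lit 5) (nat_lit 170) (nat_lit 5) (nat_lit 302) (nat_lit 295) (nat_lit 123))) (XT.nd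 (nat_lit 78) (nat_lit 1064) (nat_lit 0) (XT.lf (nat_lit 76) (nat_lit 32270124465) (nat_lit 0) (nat_lit 37158570323) (nat_lit 1140) (nat_lit 4523852419) (nat_lit 157) (nat_lit 5) (nat_lit 156) (nat_lit 5) (nat_lit 171) (nat_lit 5) (nat_lit 303) (nat_lit 295) (nat_lit 122)) (XT.nd (nat_lit 78) (nat_lit 0) (nat_lit 0) (XT.lf (nat_lit 0) (nat_lit 1137433149) (nat_lit 1140) (nat_lit 64472715027) (nat_lit 1216) (nat_lit 10377655814) (nat_lit 142) (nat_lit 5) (nat_lit 157) (nat_lit 5) (nat_lit 158) (nat_lit 5) (nat_lit 304) (nat_lit 295) (nat_lit 121)) (XT.lf (nat_lit 0) (nat_lit 7796271326) (nat_lit 1140) (nat_lit 10294379080) (nat_lit 1216) (nat_lit 60008590784) (nat_lit 142) (nat_lit 5) (nat_lit 157) (nat_lit 5) (nat_lit 158) (nat_lit 5) (nat_lit 305) (nat_lit 295) (nat_lit 120))))) (XT.nd (nat_lit 156) (nat_lit 1064) (nat_lit 0) (XT.nd (nat_lit 78) (nat_lit 684) (nat_lit 0) (XT.lf (nat_lit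 0) (nat_lit 15553940678) (nat_lit 1140) (nat_lit 33093629455) (nat_lit 76) (nat_lit 31645706059) (nat_lit 143) (nat_lit 5) (nat_lit 158) (nat_lit 5) (nat_lit 144) (nat_lit 5) (nat_lit 306) (nat_lit 295) (nat_lit 119)) (XT.lf (nat_lit 0) (nat_lit 24245360394) (nat_lit 760) (nat_lit 57090488345) (nat_lit 76) (nat_lit 1244790697) (nat_lit 134) (nat_lit 5) (nat_lit 144) (nat_lit 5) (nat_lit 135) (nat_lit 5) (nat_lit 307) (nat_lit 295) (nat_lit 118))) (XT.nd (nat_lit 78) (nat_lit 532) (nat_lit 0) (XT.lf (nat_lit 0) (nat_lit 2271513373) (nat_lit 532) (nat_lit 31955673263) (nat_lit 608) (nat_lit 50729511516) (nat_lit 127) (nat_lit 5) (nat_lit 134) (nat_lit 5) (nat_lit 135) (nat_lit 5) (nat_lit 308) (nat_lit 295) (nat_lit 117)) (XT.nd (nat_lit 78) (nat_lit 532) (nat_lit 0) (XT.lf (nat_lit 0) (nat_lit 45491835797) (nat_lit 608) (nat_lit 21837300632) (nat_lit 76) (nat_lit 20098913692) (nat_lit 127)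 (nat_lit 5) (nat_lit 135) (nat_lit 5) (nat_lit 128) (nat_lit 5) (nat_lit 309) (nat_lit 295) (nat_lit 116)) (XT.lf (nat_lit 0) (nat_lit 42560023761) (nat_lit 532) (nat_lit 15490379211) (nat_lit 608) (nat_lit 31950648308) (nat_lit 120) (nat_lit 5) (nat_lit 127) (nat_lit 5) (nat_lit 128) (nat_lit 5) (nat_lit 310) (nat_lit 295) (nat_lit 115)))))) (XT.nd (nat_lit 36426) (nat_lit 0) (nat_lit 3800) (XT.nd (nat_lit 156) (nat_lit 988) (nat_lit 0) (XT.nd (nat_lit 78) (nat_lit 0) (nat_lit 0) (XT.lf (nat_lit 0) (nat_lit 17909607344) (nat_lit 456) (nat_lit 54099862739) (nat_lit 532) (nat_lit 20670057319) (nat_lit 114) (nat_lit 5) (nat_lit 120) (nat_lit 5) (nat_lit 121) (nat_lit 5) (nat_lit 311) (nat_lit 295) (nat_lit 114)) (XT.lf (nat_lit 0) (nat_lit 87309259604) (nat_lit 532) (nat_lit 8114343819) (nat_lit 76) (nat_lit 49042793) (nat_lit 114) (nat_lit 5) (nat_lit 121) (nat_lit 5) (nat_lit 115) (nat_lit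 5) (nat_lit 312) (nat_lit 295) (nat_lit 113))) (XT.nd (nat_lit 78) (nat_lit 456) (nat_lit 0) (XT.lf (nat_lit 0) (nat_lit 6029451842) (nat_lit 532) (nat_lit 35882523508) (nat_lit 76) (nat_lit 56457280892) (nat_lit 107) (nat_lit 5) (nat_lit 114) (nat_lit 5) (nat_lit 108) (nat_lit 5) (nat_lit 313) (nat_lit 295) (nat_lit 112)) (XT.nd (nat_lit 36114) (nat_lit 0) (nat_lit 3800) (XT.lf (nat_lit 0) (nat_lit 21336531185) (nat_lit 532) (nat_lit 65540052124) (nat_lit 76) (nat_lit 14514487506) (nat_lit 101) (nat_lit 5) (nat_lit 108) (nat_lit 5) (nat_lit 102) (nat_lit 5) (nat_lit 314) (nat_lit 295) (nat_lit 111)) (XT.lf (nat_lit 0) (nat_lit 20265343976) (nat_lit 1140) (nat_lit 5676160439) (nat_lit 1140) (nat_lit 5676160439) (nat_lit 151) (nat_lit 3) (nat_lit 166) (nat_lit 3) (nat_lit 166) (nat_lit 5) (nat_lit 296) (nat_lit 296) (nat_lit 128))))) (XT.nd (nat_lit 234) (nat_lit 0) (nat_lit 152) (XT.nd (nat_lit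 78) (nat_lit 0) (nat_lit 76) (XT.lf (nat_lit 76) (nat_lit 33058836091) (nat_lit 0) (nat_lit 8827199713) (nat_lit 1140) (nat_lit 22919855374) (nat_lit 152) (nat_lit 5) (nat_lit 151) (nat_lit 3) (nat_lit 166) (nat_lit 5) (nat_lit 297) (nat_lit 296) (nat_lit 127)) (XT.nd (nat_lit 78) (nat_lit 0) (nat_lit 76) (XT.lf (nat_lit 76) (nat_lit 13385756388) (nat_lit 0) (nat_lit 30518250040) (nat_lit 1140) (nat_lit 22533132429) (nat_lit 153) (nat_lit 5) (nat_lit 152) (nat_lit 5) (nat_lit 167) (nat_lit 5) (nat_lit 298) (nat_lit 296) (nat_lit 126)) (XT.lf (nat_lit 0) (nat_lit 46579743641) (nat_lit 1064) (nat_lit 6933966513) (nat_lit 1140) (nat_lit 14619536342) (nat_lit 153) (nat_lit 5) (nat_lit 167) (nat_lit 5) (nat_lit 168) (nat_lit 5) (nat_lit 299) (nat_lit 296) (nat_lit 125)))) (XT.nd (nat_lit 78) (nat_lit 0) (nat_lit 76) (XT.lf (nat_lit 76) (nat_lit 42000000470) (nat_lit 0) (nat_lit 8099611612) (nat_lit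 1140) (nat_lit 19793240551) (nat_lit 154) (nat_lit 5) (nat_lit 153) (nat_lit 5) (nat_lit 168) (nat_lit 5) (nat_lit 300) (nat_lit 296) (nat_lit 124)) (XT.nd (nat_lit 78) (nat_lit 0) (nat_lit 76) (XT.lf (nat_lit 76) (nat_lit 21831161293) (nat_lit 0) (nat_lit 32625420783) (nat_lit 1140) (nat_lit 17264027037) (nat_lit 155) (nat_lit 5) (nat_lit 154) (nat_lit 5) (nat_lit 169) (nat_lit 5) (nat_lit 301) (nat_lit 296) (nat_lit 123)) (XT.lf (nat_lit 76) (nat_lit 780947718) (nat_lit 0) (nat_lit 58770301191) (nat_lit 1140) (nat_lit 14072912187) (nat_lit 156) (nat_lit 5) (nat_lit 155) (nat_lit 5) (nat_lit 170) (nat_lit 5) (nat_lit 302) (nat_lit 296) (nat_lit 122))))))) (XT.nd (nat_lit 780) (nat_lit 532) (nat_lit 0) (XT.nd (nat_lit 390) (nat_lit 2128) (nat_lit 0) (XT.nd (nat_lit 156) (nat_lit 988) (nat_lit 0) (XT.nd (nat_lit 78) (nat_lit 0) (nat_lit 76) (XT.lf (nat_lit 76) (nat_lit 54690674122) (nat_lit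 0) (nat_lit 11048374497) (nat_lit 1140) (nat_lit 9858693047) (nat_lit 156) (nat_lit 5) (nat_lit 155) (nat_lit 5) (nat_lit 170) (nat_lit 5) (nat_lit 303) (nat_lit 296) (nat_lit 121)) (XT.lf (nat_lit 76) (nat_lit 33911270235) (nat_lit 0) (nat_lit 39025235110) (nat_lit 1140) (nat_lit 4712490745) (nat_lit 157) (nat_lit 5) (nat_lit 156) (nat_lit 5) (nat_lit 171) (nat_lit 5) (nat_lit 304) (nat_lit 296) (nat_lit 120))) (XT.nd (nat_lit 78) (nat_lit 0) (nat_lit 0) (XT.lf (nat_lit 0) (nat_lit 1229564639) (nat_lit 1140) (nat_lit 67667494875) (nat_lit 1216) (nat_lit 10888996249) (nat_lit 142) (nat_lit 5) (nat_lit 157) (nat_lit 5) (nat_lit 158) (nat_lit 5) (nat_lit 305) (nat_lit 296) (nat_lit 119)) (XT.nd (nat_lit 78) (nat_lit 0) (nat_lit 76) (XT.lf (nat_lit 0) (nat_lit 8219665685) (nat_lit 1140) (nat_lit 10781616221) (nat_lit 1216) (nat_lit 63001837127) (nat_lit 142) (nat_lit 5) (nat_lit 157) (nat_lit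 5) (nat_lit 158) (nat_lit 5) (nat_lit 306) (nat_lit 296) (nat_lit 118)) (XT.lf (nat_lit 0) (nat_lit 16363822725) (nat_lit 1140) (nat_lit 34720523297) (nat_lit 76) (nat_lit 33222555295) (nat_lit 143) (nat_lit 5) (nat_lit 158) (nat_lit 5) (nat_lit 144) (nat_lit 5) (nat_lit 307) (nat_lit 296) (nat_lit 117))))) (XT.nd (nat_lit 156) (nat_lit 988) (nat_lit 0) (XT.nd (nat_lit 78) (nat_lit 532) (nat_lit 0) (XT.lf (nat_lit 0) (nat_lit 25488502572) (nat_lit 760) (nat_lit 59916986962) (nat_lit 76) (nat_lit 1303185996) (nat_lit 134) (nat_lit 5) (nat_lit 144) (nat_lit 5) (nat_lit 135) (nat_lit 5) (nat_lit 308) (nat_lit 296) (nat_lit 116)) (XT.lf (nat_lit 0) (nat_lit 2412311488) (nat_lit 532) (nat_lit 33555900120) (nat_lit 608) (nat_lit 53235365147) (nat_lit 127) (nat_lit 5) (nat_lit 134) (nat_lit 5) (nat_lit 135) (nat_lit 5) (nat_lit 309) (nat_lit 296) (nat_lit 115))) (XT.nd (nat_lit 78) (nat_lit 988)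 (nat_lit 0) (XT.lf (nat_lit 0) (nat_lit 47794658210) (nat_lit 608) (nat_lit 22902306391) (nat_lit 76) (nat_lit 21101577931) (nat_lit 127) (nat_lit 5) (nat_lit 135) (nat_lit 5) (nat_lit 128) (nat_lit 5) (nat_lit 310) (nat_lit 296) (nat_lit 114)) (XT.nd (nat_lit 78) (nat_lit 456) (nat_lit 0) (XT.lf (nat_lit 0) (nat_lit 44714114306) (nat_lit 532) (nat_lit 16265945909) (nat_lit 608) (nat_lit 33520169347) (nat_lit 120) (nat_lit 5) (nat_lit 127) (nat_lit 5) (nat_lit 128) (nat_lit 5) (nat_lit 311) (nat_lit 296) (nat_lit 113)) (XT.lf (nat_lit 0) (nat_lit 18831288225) (nat_lit 456) (nat_lit 56804742478) (nat_lit 532) (nat_lit 21676633153) (nat_lit 114) (nat_lit 5) (nat_lit 120) (nat_lit 5) (nat_lit 121) (nat_lit 5) (nat_lit 312) (nat_lit 296) (nat_lit 112)))))) (XT.nd (nat_lit 36504) (nat_lit 0) (nat_lit 3496) (XT.nd (nat_lit 36270) (nat_lit 0) (nat_lit 3344) (XT.nd (nat_lit 78) (nat_lit 532) (nat_lit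 0) (XT.lf (nat_lit 0) (nat_lit 91699568495) (nat_lit 532) (nat_lit 8494309257) (nat_lit 76) (nat_lit 51600824) (nat_lit 114) (nat_lit 5) (nat_lit 121) (nat_lit 5) (nat_lit 115) (nat_lit 5) (nat_lit 313) (nat_lit 296) (nat_lit 111)) (XT.lf (nat_lit 0) (nat_lit 6355115278) (nat_lit 532) (nat_lit 37651104194) (nat_lit 76) (nat_lit 59280723396) (nat_lit 107) (nat_lit 5) (nat_lit 114) (nat_lit 5) (nat_lit 108) (nat_lit 5) (nat_lit 314) (nat_lit 296) (nat_lit 110))) (XT.nd (nat_lit 78) (nat_lit 0) (nat_lit 0) (XT.lf (nat_lit 0) (nat_lit 21302530698) (nat_lit 1140) (nat_lit 5947620692) (nat_lit 1140) (nat_lit 5947620692) (nat_lit 151) (nat_lit 3) (nat_lit 166) (nat_lit 3) (nat_lit 166) (nat_lit 5) (nat_lit 297) (nat_lit 297) (nat_lit 126)) (XT.nd (nat_lit 78) (nat_lit 0) (nat_lit 76) (XT.lf (nat_lit 76) (nat_lit 34735765542) (nat_lit 0) (nat_lit 9290363633) (nat_lit 1140) (nat_lit 24018571521)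 (nat_lit 152) (nat_lit 5) (nat_lit 151) (nat_lit 3) (nat_lit 166) (nat_lit 5) (nat_lit 298) (nat_lit 297) (nat_lit 125)) (XT.lf (nat_lit 76) (nat_lit 14079990311) (nat_lit 0) (nat_lit 32062867652) (nat_lit 1140) (nat_lit 23614722306) (nat_lit 153) (nat_lit 5) (nat_lit 152) (nat_lit 5) (nat_lit 167) (nat_lit 5) (nat_lit 299) (nat_lit 297) (nat_lit 124))))) (XT.nd (nat_lit 234) (nat_lit 0) (nat_lit 152) (XT.nd (nat_lit 78) (nat_lit 0) (nat_lit 0) (XT.lf (nat_lit 0) (nat_lit 48950132165) (nat_lit 1064) (nat_lit 7255387276) (nat_lit 1140) (nat_lit 15333046392) (nat_lit 153) (nat_lit 5) (nat_lit 167) (nat_lit 5) (nat_lit 168) (nat_lit 5) (nat_lit 300) (nat_lit 297) (nat_lit 123)) (XT.nd (nat_lit 78) (nat_lit 0) (nat_lit 76) (XT.lf (nat_lit 76) (nat_lit 44124553479) (nat_lit 0) (nat_lit 8519705074) (nat_lit 1140) (nat_lit 20741950594) (nat_lit 154) (nat_lit 5) (nat_lit 153) (nat_lit 5) (nat_lit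 168) (nat_lit 5) (nat_lit 301) (nat_lit 297) (nat_lit 122)) (XT.lf (nat_lit 76) (nat_lit 22947958898) (nat_lit 0) (nat_lit 34269333561) (nat_lit 1140) (nat_lit 18088119110) (nat_lit 155) (nat_lit 5) (nat_lit 154) (nat_lit 5) (nat_lit 169) (nat_lit 5) (nat_lit 302) (nat_lit 297) (nat_lit 121)))) (XT.nd (nat_lit 78) (nat_lit 0) (nat_lit 0) (XT.lf (nat_lit 76) (nat_lit 845821995) (nat_lit 0) (nat_lit 61719199297) (nat_lit 1140) (nat_lit 14739174357) (nat_lit 156) (nat_lit 5) (nat_lit 155) (nat_lit 5) (nat_lit 170) (nat_lit 5) (nat_lit 303) (nat_lit 297) (nat_lit 120)) (XT.nd (nat_lit 78) (nat_lit 0) (nat_lit 76) (XT.lf (nat_lit 76) (nat_lit 57449804867) (nat_lit 0) (nat_lit 11610681838) (nat_lit 1140) (nat_lit 10316024425) (nat_lit 156) (nat_lit 5) (nat_lit 155) (nat_lit 5) (nat_lit 170) (nat_lit 5) (nat_lit 304) (nat_lit 297) (nat_lit 119)) (XT.lf (nat_lit 76) (nat_lit 35631903631) (nat_lit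 0) (nat_lit 40984420921) (nat_lit 1140) (nat_lit 4914052430) (nat_lit 157) (nat_lit 5) (nat_lit 156) (nat_lit 5) (nat_lit 171) (nat_lit 5) (nat_lit 305) (nat_lit 297) (nat_lit 118))))))))
noncomputable def xc126 : XT := (XT.nd (nat_lit 37908) (nat_lit 0) (nat_lit 456) (XT.nd (nat_lit 37050) (nat_lit 0) (nat_lit 1520) (XT.nd (nat_lit 390) (nat_lit 988) (nat_lit 0) (XT.nd (nat_lit 156) (nat_lit 1140) (nat_lit 0) (XT.nd (nat_lit 78) (nat_lit 0) (nat_lit 0) (XT.lf (nat_lit 0) (nat_lit 1323024578) (nat_lit 1140) (nat_lit 71024696464) (nat_lit 1216) (nat_lit 11426604923) (nat_lit 142) (nat_lit 5) (nat_lit 157) (nat_lit 5) (nat_lit 158) (nat_lit 5) (nat_lit 306) (nat_lit 297) (nat_lit 117)) (XT.lf (nat_lit 0) (nat_lit 8661107738) (nat_lit 1140) (nat_lit 11295770218) (nat_lit 1216) (nat_lit 66145413613) (nat_lit 142) (nat_lit 5) (nat_lit 157) (nat_lit 5) (nat_lit 158) (nat_lit 5) (nat_lit 307) (nat_lit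 297) (nat_lit 116))) (XT.nd (nat_lit 78) (nat_lit 1216) (nat_lit 0) (XT.lf (nat_lit 0) (nat_lit 17211206616) (nat_lit 1140) (nat_lit 36431345262) (nat_lit 76) (nat_lit 34878752387) (nat_lit 143) (nat_lit 5) (nat_lit 158) (nat_lit 5) (nat_lit 144) (nat_lit 5) (nat_lit 308) (nat_lit 297) (nat_lit 115)) (XT.nd (nat_lit 78) (nat_lit 532) (nat_lit 0) (XT.lf (nat_lit 0) (nat_lit 26790931474) (nat_lit 760) (nat_lit 62887416083) (nat_lit 76) (nat_lit 1364858460) (nat_lit 134) (nat_lit 5) (nat_lit 144) (nat_lit 5) (nat_lit 135) (nat_lit 5) (nat_lit 309) (nat_lit 297) (nat_lit 114)) (XT.lf (nat_lit 0) (nat_lit 2557618624) (nat_lit 532) (nat_lit 35235911175) (nat_lit 608) (nat_lit 55869358398) (nat_lit 127) (nat_lit 5) (nat_lit 134) (nat_lit 5) (nat_lit 135) (nat_lit 5) (nat_lit 310) (nat_lit 297) (nat_lit 113))))) (XT.nd (nat_lit 156) (nat_lit 456) (nat_lit 0) (XT.nd (nat_lit 78) (nat_lit 532) (nat_lit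 0) (XT.lf (nat_lit 0) (nat_lit 50209997129) (nat_lit 608) (nat_lit 24023059559) (nat_lit 76) (nat_lit 22154587489) (nat_lit 127) (nat_lit 5) (nat_lit 135) (nat_lit 5) (nat_lit 128) (nat_lit 5) (nat_lit 311) (nat_lit 297) (nat_lit 112)) (XT.lf (nat_lit 0) (nat_lit 46973483837) (nat_lit 532) (nat_lit 17080193534) (nat_lit 608) (nat_lit 35170770671) (nat_lit 120) (nat_lit 5) (nat_lit 127) (nat_lit 5) (nat_lit 128) (nat_lit 5) (nat_lit 312) (nat_lit 297) (nat_lit 111))) (XT.nd (nat_lit 36348) (nat_lit 0) (nat_lit 2812) (XT.lf (nat_lit 0) (nat_lit 19796617274) (nat_lit 456) (nat_lit 59644876747) (nat_lit 532) (nat_lit 22736041199) (nat_lit 114) (nat_lit 5) (nat_lit 120) (nat_lit 5) (nat_lit 121) (nat_lit 5) (nat_lit 313) (nat_lit 297) (nat_lit 110)) (XT.nd (nat_lit 78) (nat_lit 0) (nat_lit 0) (XT.lf (nat_lit 0) (nat_lit 22389352946) (nat_lit 1140) (nat_lit 6233801936) (nat_lit 1140) (nat_lit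 6233801936) (nat_lit 151) (nat_lit 3) (nat_lit 166) (nat_lit 3) (nat_lit 166) (nat_lit 5) (nat_lit 298) (nat_lit 298) (nat_lit 124)) (XT.lf (nat_lit 76) (nat_lit 36494311321) (nat_lit 0) (nat_lit 9774658626) (nat_lit 1140) (nat_lit 25176618807) (nat_lit 152) (nat_lit 5) (nat_lit 151) (nat_lit 3) (nat_lit 166) (nat_lit 5) (nat_lit 299) (nat_lit 298) (nat_lit 123)))))) (XT.nd (nat_lit 390) (nat_lit 1368) (nat_lit 0) (XT.nd (nat_lit 156) (nat_lit 0) (nat_lit 76) (XT.nd (nat_lit 78) (nat_lit 0) (nat_lit 76) (XT.lf (nat_lit 76) (nat_lit 14806616678) (nat_lit 0) (nat_lit 33682977121) (nat_lit 1140) (nat_lit 24754581555) (nat_lit 153) (nat_lit 5) (nat_lit 152) (nat_lit 5) (nat_lit 167) (nat_lit 5) (nat_lit 300) (nat_lit 298) (nat_lit 122)) (XT.lf (nat_lit 0) (nat_lit 51435191011) (nat_lit 1064) (nat_lit 7595229146) (nat_lit 1140) (nat_lit 16083855838) (nat_lit 153) (nat_lit 5) (nat_lit 167) (nat_lit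 5) (nat_lit 168) (nat_lit 5) (nat_lit 301) (nat_lit 298) (nat_lit 121))) (XT.nd (nat_lit 78) (nat_lit 0) (nat_lit 76) (XT.lf (nat_lit 76) (nat_lit 46353051435) (nat_lit 0) (nat_lit 8959398157) (nat_lit 1140) (nat_lit 21741903467) (nat_lit 154) (nat_lit 5) (nat_lit 153) (nat_lit 5) (nat_lit 168) (nat_lit 5) (nat_lit 302) (nat_lit 298) (nat_lit 120)) (XT.nd (nat_lit 78) (nat_lit 0) (nat_lit 76) (XT.lf (nat_lit 76) (nat_lit 24118249850) (nat_lit 0) (nat_lit 35994266668) (nat_lit 1140) (nat_lit 18957051797) (nat_lit 155) (nat_lit 5) (nat_lit 154) (nat_lit 5) (nat_lit 169) (nat_lit 5) (nat_lit 303) (nat_lit 298) (nat_lit 119)) (XT.lf (nat_lit 76) (nat_lit 911538846) (nat_lit 0) (nat_lit 64814576992) (nat_lit 1140) (nat_lit 15442225194) (nat_lit 156) (nat_lit 5) (nat_lit 155) (nat_lit 5) (nat_lit 170) (nat_lit 5) (nat_lit 304) (nat_lit 298) (nat_lit 118))))) (XT.nd (nat_lit 234) (nat_lit 608)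 (nat_lit 0) (XT.nd (nat_lit 78) (nat_lit 988) (nat_lit 0) (XT.lf (nat_lit 76) (nat_lit 60344605350) (nat_lit 0) (nat_lit 12200185197) (nat_lit 1140) (nat_lit 10799532426) (nat_lit 156) (nat_lit 5) (nat_lit 155) (nat_lit 5) (nat_lit 170) (nat_lit 5) (nat_lit 305) (nat_lit 298) (nat_lit 117)) (XT.nd (nat_lit 78) (nat_lit 1064) (nat_lit 0) (XT.lf (nat_lit 76) (nat_lit 37436237936) (nat_lit 0) (nat_lit 43040829319) (nat_lit 1140) (nat_lit 5128859039) (nat_lit 157) (nat_lit 5) (nat_lit 156) (nat_lit 5) (nat_lit 171) (nat_lit 5) (nat_lit 306) (nat_lit 298) (nat_lit 116)) (XT.lf (nat_lit 0) (nat_lit 1418184159) (nat_lit 1140) (nat_lit 74552191464) (nat_lit 1216) (nat_lit 11991730054) (nat_lit 142) (nat_lit 5) (nat_lit 157) (nat_lit 5) (nat_lit 158) (nat_lit 5) (nat_lit 307) (nat_lit 298) (nat_lit 115)))) (XT.nd (nat_lit 78) (nat_lit 608) (nat_lit 0) (XT.lf (nat_lit 0) (nat_lit 9121790127) (nat_lit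 1140) (nat_lit 11837949374) (nat_lit 1216) (nat_lit 69446774661) (nat_lit 142) (nat_lit 5) (nat_lit 157) (nat_lit 5) (nat_lit 158) (nat_lit 5) (nat_lit 308) (nat_lit 298) (nat_lit 114)) (XT.nd (nat_lit 78) (nat_lit 684) (nat_lit 0) (XT.lf (nat_lit 0) (nat_lit 18098245636) (nat_lit 1140) (nat_lit 38230051572) (nat_lit 76) (nat_lit 36618217741) (nat_lit 143) (nat_lit 5) (nat_lit 158) (nat_lit 5) (nat_lit 144) (nat_lit 5) (nat_lit 309) (nat_lit 298) (nat_lit 113)) (XT.lf (nat_lit 0) (nat_lit 28155878294) (nat_lit 760) (nat_lit 66008729992) (nat_lit 76) (nat_lit 1429938721) (nat_lit 134) (nat_lit 5) (nat_lit 144) (nat_lit 5) (nat_lit 135) (nat_lit 5) (nat_lit 310) (nat_lit 298) (nat_lit 112))))))) (XT.nd (nat_lit 37128) (nat_lit 0) (nat_lit 532) (XT.nd (nat_lit 36738) (nat_lit 0) (nat_lit 2432) (XT.nd (nat_lit 156) (nat_lit 532) (nat_lit 0) (XT.nd (nat_lit 78) (nat_lit 0) (nat_lit 0) (XT.lf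 (nat_lit 0) (nat_lit 2707895529) (nat_lit 532) (nat_lit 36999716755) (nat_lit 608) (nat_lit 58637633569) (nat_lit 127) (nat_lit 5) (nat_lit 134) (nat_lit 5) (nat_lit 135) (nat_lit 5) (nat_lit 311) (nat_lit 298) (nat_lit 111)) (XT.lf (nat_lit 0) (nat_lit 52743722389) (nat_lit 608) (nat_lit 25202115347) (nat_lit 76) (nat_lit 23260439912) (nat_lit 127) (nat_lit 5) (nat_lit 135) (nat_lit 5) (nat_lit 128) (nat_lit 5) (nat_lit 312) (nat_lit 298) (nat_lit 110))) (XT.nd (nat_lit 36426) (nat_lit 0) (nat_lit 2356) (XT.lf (nat_lit 0) (nat_lit 49343621808) (nat_lit 532) (nat_lit 17935065187) (nat_lit 608) (nat_lit 36906264177) (nat_lit 120) (nat_lit 5) (nat_lit 127) (nat_lit 5) (nat_lit 128) (nat_lit 5) (nat_lit 313) (nat_lit 298) (nat_lit 109)) (XT.nd (nat_lit 78) (nat_lit 0) (nat_lit 0) (XT.lf (nat_lit 0) (nat_lit 23528499244) (nat_lit 1140) (nat_lit 6535333493) (nat_lit 1140) (nat_lit 6535333493)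 (nat_lit 151) (nat_lit 3) (nat_lit 166) (nat_lit 3) (nat_lit 166) (nat_lit 5) (nat_lit 299) (nat_lit 299) (nat_lit 122)) (XT.lf (nat_lit 76) (nat_lit 38338761582) (nat_lit 0) (nat_lit 10281329708) (nat_lit 1140) (nat_lit 26396555153) (nat_lit 152) (nat_lit 5) (nat_lit 151) (nat_lit 3) (nat_lit 166) (nat_lit 5) (nat_lit 300) (nat_lit 299) (nat_lit 121))))) (XT.nd (nat_lit 156) (nat_lit 0) (nat_lit 76) (XT.nd (nat_lit 78) (nat_lit 0) (nat_lit 76) (XT.lf (nat_lit 76) (nat_lit 15567470733) (nat_lit 0) (nat_lit 35382514717) (nat_lit 1140) (nat_lit 25955234110) (nat_lit 153) (nat_lit 5) (nat_lit 152) (nat_lit 5) (nat_lit 167) (nat_lit 5) (nat_lit 301) (nat_lit 299) (nat_lit 120)) (XT.lf (nat_lit 0) (nat_lit 54041011547) (nat_lit 1064) (nat_lit 7954194691) (nat_lit 1140) (nat_lit 16873678677) (nat_lit 153) (nat_lit 5) (nat_lit 167) (nat_lit 5) (nat_lit 168) (nat_lit 5) (nat_lit 302) (nat_lit 299)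 (nat_lit 119))) (XT.nd (nat_lit 78) (nat_lit 0) (nat_lit 76) (XT.lf (nat_lit 76) (nat_lit 48690903809) (nat_lit 0) (nat_lit 9419801470) (nat_lit 1140) (nat_lit 22795307342) (nat_lit 154) (nat_lit 5) (nat_lit 153) (nat_lit 5) (nat_lit 168) (nat_lit 5) (nat_lit 303) (nat_lit 299) (nat_lit 118)) (XT.nd (nat_lit 78) (nat_lit 0) (nat_lit 76) (XT.lf (nat_lit 76) (nat_lit 25344926974) (nat_lit 0) (nat_lit 37804380390) (nat_lit 1140) (nat_lit 19872729086) (nat_lit 155) (nat_lit 5) (nat_lit 154) (nat_lit 5) (nat_lit 169) (nat_lit 5) (nat_lit 304) (nat_lit 299) (nat_lit 117)) (XT.lf (nat_lit 76) (nat_lit 978363635) (nat_lit 0) (nat_lit 68063848000) (nat_lit 1140) (nat_lit 16183581006) (nat_lit 156) (nat_lit 5) (nat_lit 155) (nat_lit 5) (nat_lit 170) (nat_lit 5) (nat_lit 305) (nat_lit 299) (nat_lit 116)))))) (XT.nd (nat_lit 390) (nat_lit 1140) (nat_lit 0) (XT.nd (nat_lit 156) (nat_lit 988) (nat_lit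 0) (XT.nd (nat_lit 78) (nat_lit 0) (nat_lit 76) (XT.lf (nat_lit 76) (nat_lit 63382071662) (nat_lit 0) (nat_lit 12818329846) (nat_lit 1140) (nat_lit 11310218145) (nat_lit 156) (nat_lit 5) (nat_lit 155) (nat_lit 5) (nat_lit 170) (nat_lit 5) (nat_lit 306) (nat_lit 299) (nat_lit 115)) (XT.lf (nat_lit 76) (nat_lit 39328674888) (nat_lit 0) (nat_lit 45199389925) (nat_lit 1140) (nat_lit 5357278398) (nat_lit 157) (nat_lit 5) (nat_lit 156) (nat_lit 5) (nat_lit 171) (nat_lit 5) (nat_lit 307) (nat_lit 299) (nat_lit 114))) (XT.nd (nat_lit 78) (nat_lit 0) (nat_lit 0) (XT.lf (nat_lit 0) (nat_lit 1515404797) (nat_lit 1140) (nat_lit 78258268318) (nat_lit 1216) (nat_lit 12585688335) (nat_lit 142) (nat_lit 5) (nat_lit 157) (nat_lit 5) (nat_lit 158) (nat_lit 5) (nat_lit 308) (nat_lit 299) (nat_lit 113)) (XT.nd (nat_lit 78) (nat_lit 0) (nat_lit 76) (XT.lf (nat_lit 0) (nat_lit 9602938138) (nat_lit 1140) (nat_lit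 12409339491) (nat_lit 1216) (nat_lit 72913753183) (nat_lit 142) (nat_lit 5) (nat_lit 157) (nat_lit 5) (nat_lit 158) (nat_lit 5) (nat_lit 309) (nat_lit 299) (nat_lit 112)) (XT.lf (nat_lit 0) (nat_lit 19027174870) (nat_lit 1140) (nat_lit 40120818593) (nat_lit 76) (nat_lit 38445072151) (nat_lit 143) (nat_lit 5) (nat_lit 158) (nat_lit 5) (nat_lit 144) (nat_lit 5) (nat_lit 310) (nat_lit 299) (nat_lit 111))))) (XT.nd (nat_lit 36738) (nat_lit 0) (nat_lit 1824) (XT.nd (nat_lit 78) (nat_lit 532) (nat_lit 0) (XT.lf (nat_lit 0) (nat_lit 29586710982) (nat_lit 760) (nat_lit 69288253208) (nat_lit 76) (nat_lit 1498567029) (nat_lit 134) (nat_lit 5) (nat_lit 144) (nat_lit 5) (nat_lit 135) (nat_lit 5) (nat_lit 311) (nat_lit 299) (nat_lit 110)) (XT.nd (nat_lit 36582) (nat_lit 0) (nat_lit 1824) (XT.lf (nat_lit 0) (nat_lit 2863604114) (nat_lit 532) (nat_lit 38851525742) (nat_lit 608) (nat_lit 61546664681) (nat_lit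 127) (nat_lit 5) (nat_lit 134) (nat_lit 5) (nat_lit 135) (nat_lit 5) (nat_lit 312) (nat_lit 299) (nat_lit 109)) (XT.lf (nat_lit 0) (nat_lit 24722773322) (nat_lit 1140) (nat_lit 6852886072) (nat_lit 1140) (nat_lit 6852886072) (nat_lit 151) (nat_lit 3) (nat_lit 166) (nat_lit 3) (nat_lit 166) (nat_lit 5) (nat_lit 300) (nat_lit 300) (nat_lit 120)))) (XT.nd (nat_lit 78) (nat_lit 0) (nat_lit 76) (XT.lf (nat_lit 76) (nat_lit 40273599612) (nat_lit 0) (nat_lit 10811666625) (nat_lit 1140) (nat_lit 27681104367) (nat_lit 152) (nat_lit 5) (nat_lit 151) (nat_lit 3) (nat_lit 166) (nat_lit 5) (nat_lit 301) (nat_lit 300) (nat_lit 119)) (XT.nd (nat_lit 78) (nat_lit 0) (nat_lit 76) (XT.lf (nat_lit 76) (nat_lit 16364459436) (nat_lit 0) (nat_lit 37165598494) (nat_lit 1140) (nat_lit 27219366316) (nat_lit 153) (nat_lit 5) (nat_lit 152) (nat_lit 5) (nat_lit 167) (nat_lit 5) (nat_lit 302) (nat_lit 300) (nat_lit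 118)) (XT.lf (nat_lit 0) (nat_lit 56773956443) (nat_lit 1064) (nat_lit 8333041919) (nat_lit 1140) (nat_lit 17704328640) (nat_lit 153) (nat_lit 5) (nat_lit 167) (nat_lit 5) (nat_lit 168) (nat_lit 5) (nat_lit 303) (nat_lit 300) (nat_lit 117))))))))
noncomputable def xc127 : XT := (XT.nd (nat_lit 75036) (nat_lit 0) (nat_lit 684) (XT.nd (nat_lit 37440) (nat_lit 0) (nat_lit 0) (XT.nd (nat_lit 390) (nat_lit 836) (nat_lit 0) (XT.nd (nat_lit 156) (nat_lit 0) (nat_lit 152) (XT.nd (nat_lit 78) (nat_lit 0) (nat_lit 76) (XT.lf (nat_lit 76) (nat_lit 51143770815) (nat_lit 0) (nat_lit 9902069009) (nat_lit 1140) (nat_lit 23904513708) (nat_lit 154) (nat_lit 5) (nat_lit 153) (nat_lit 5) (nat_lit 168) (nat_lit 5) (nat_lit 304) (nat_lit 300) (nat_lit 116)) (XT.lf (nat_lit 76) (nat_lit 26631007456) (nat_lit 0) (nat_lit 39704032870) (nat_lit 1140) (nat_lit 20837181594) (nat_lit 155) (nat_lit 5) (nat_lit 154)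 (nat_lit 5) (nat_lit 169) (nat_lit 5) (nat_lit 305) (nat_lit 300) (nat_lit 115))) (XT.nd (nat_lit 78) (nat_lit 0) (nat_lit 0) (XT.lf (nat_lit 76) (nat_lit 1046554241) (nat_lit 0) (nat_lit 71474788390) (nat_lit 1140) (nat_lit 16964863959) (nat_lit 156) (nat_lit 5) (nat_lit 155) (nat_lit 5) (nat_lit 170) (nat_lit 5) (nat_lit 306) (nat_lit 300) (nat_lit 114)) (XT.nd (nat_lit 78) (nat_lit 0) (nat_lit 76) (XT.lf (nat_lit 76) (nat_lit 66569529934) (nat_lit 0) (nat_lit 13466625376) (nat_lit 1140) (nat_lit 11849161340) (nat_lit 156) (nat_lit 5) (nat_lit 155) (nat_lit 5) (nat_lit 170) (nat_lit 5) (nat_lit 307) (nat_lit 300) (nat_lit 113)) (XT.lf (nat_lit 76) (nat_lit 41313816166) (nat_lit 0) (nat_lit 47465272474) (nat_lit 1140) (nat_lit 5599724093) (nat_lit 157) (nat_lit 5) (nat_lit 156) (nat_lit 5) (nat_lit 171) (nat_lit 5) (nat_lit 308) (nat_lit 300) (nat_lit 112))))) (XT.nd (nat_lit 156) (nat_lit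 0) (nat_lit 76) (XT.nd (nat_lit 78) (nat_lit 0) (nat_lit 0) (XT.lf (nat_lit 0) (nat_lit 1615040279) (nat_lit 1140) (nat_lit 82151650923) (nat_lit 1216) (nat_lit 13209867789) (nat_lit 142) (nat_lit 5) (nat_lit 157) (nat_lit 5) (nat_lit 158) (nat_lit 5) (nat_lit 309) (nat_lit 300) (nat_lit 111)) (XT.lf (nat_lit 0) (nat_lit 10105813847) (nat_lit 1140) (nat_lit 13011205693) (nat_lit 1216) (nat_lit 76554578973) (nat_lit 142) (nat_lit 5) (nat_lit 157) (nat_lit 5) (nat_lit 158) (nat_lit 5) (nat_lit 310) (nat_lit 300) (nat_lit 110))) (XT.nd (nat_lit 36738) (nat_lit 0) (nat_lit 608) (XT.lf (nat_lit 0) (nat_lit 20000317696) (nat_lit 1140) (nat_lit 42108051760) (nat_lit 76) (nat_lit 40363646415) (nat_lit 143) (nat_lit 5) (nat_lit 158) (nat_lit 5) (nat_lit 144) (nat_lit 5) (nat_lit 311) (nat_lit 300) (nat_lit 109)) (XT.nd (nat_lit 78) (nat_lit 0) (nat_lit 0) (XT.lf (nat_lit 0) (nat_lit 25975101663)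 (nat_lit 1140) (nat_lit 7187172919) (nat_lit 1140) (nat_lit 7187172919) (nat_lit 151) (nat_lit 3) (nat_lit 166) (nat_lit 3) (nat_lit 166) (nat_lit 5) (nat_lit 301) (nat_lit 301) (nat_lit 118)) (XT.lf (nat_lit 76) (nat_lit 42303515376) (nat_lit 0) (nat_lit 11367007717) (nat_lit 1140) (nat_lit 29033160906) (nat_lit 152) (nat_lit 5) (nat_lit 151) (nat_lit 3) (nat_lit 166) (nat_lit 5) (nat_lit 302) (nat_lit 301) (nat_lit 117)))))) (XT.nd (nat_lit 390) (nat_lit 760) (nat_lit 0) (XT.nd (nat_lit 156) (nat_lit 0) (nat_lit 76) (XT.nd (nat_lit 78) (nat_lit 0) (nat_lit 76) (XT.lf (nat_lit 76) (nat_lit 17199566913) (nat_lit 0) (nat_lit 39036538773) (nat_lit 1140) (nat_lit 28549831685) (nat_lit 153) (nat_lit 5) (nat_lit 152) (nat_lit 5) (nat_lit 167) (nat_lit 5) (nat_lit 303) (nat_lit 301) (nat_lit 116)) (XT.lf (nat_lit 0) (nat_lit 59640676323) (nat_lit 1064) (nat_lit 8732585166) (nat_lit 1140) (nat_lit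 18577722877) (nat_lit 153) (nat_lit 5) (nat_lit 167) (nat_lit 5) (nat_lit 168) (nat_lit 5) (nat_lit 304) (nat_lit 301) (nat_lit 115))) (XT.nd (nat_lit 78) (nat_lit 0) (nat_lit 76) (XT.lf (nat_lit 76) (nat_lit 53717577783) (nat_lit 0) (nat_lit 10407401452) (nat_lit 1140) (nat_lit 25072021478) (nat_lit 154) (nat_lit 5) (nat_lit 153) (nat_lit 5) (nat_lit 168) (nat_lit 5) (nat_lit 305) (nat_lit 301) (nat_lit 114)) (XT.nd (nat_lit 78) (nat_lit 0) (nat_lit 76) (XT.lf (nat_lit 76) (nat_lit 27979640943) (nat_lit 0) (nat_lit 41697790939) (nat_lit 1140) (nat_lit 21852569974) (nat_lit 155) (nat_lit 5) (nat_lit 154) (nat_lit 5) (nat_lit 169) (nat_lit 5) (nat_lit 306) (nat_lit 301) (nat_lit 113)) (XT.lf (nat_lit 76) (nat_lit 1116362609) (nat_lit 0) (nat_lit 75055555465) (nat_lit 1140) (nat_lit 17787804574) (nat_lit 156) (nat_lit 5) (nat_lit 155) (nat_lit 5) (nat_lit 170) (nat_lit 5) (nat_lit 307) (nat_lit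 301) (nat_lit 112))))) (XT.nd (nat_lit 234) (nat_lit 0) (nat_lit 0) (XT.nd (nat_lit 78) (nat_lit 988) (nat_lit 0) (XT.lf (nat_lit 76) (nat_lit 69914654675) (nat_lit 0) (nat_lit 14146649649) (nat_lit 1140) (nat_lit 12417521709) (nat_lit 156) (nat_lit 5) (nat_lit 155) (nat_lit 5) (nat_lit 170) (nat_lit 5) (nat_lit 308) (nat_lit 301) (nat_lit 111)) (XT.nd (nat_lit 78) (nat_lit 1064) (nat_lit 0) (XT.lf (nat_lit 76) (nat_lit 43396475258) (nat_lit 0) (nat_lit 49843899410) (nat_lit 1140) (nat_lit 5856655218) (nat_lit 157) (nat_lit 5) (nat_lit 156) (nat_lit 5) (nat_lit 171) (nat_lit 5) (nat_lit 309) (nat_lit 301) (nat_lit 110)) (XT.lf (nat_lit 0) (nat_lit 1717438772) (nat_lit 1140) (nat_lit 86241518448) (nat_lit 1216) (nat_lit 13865730826) (nat_lit 142) (nat_lit 5) (nat_lit 157) (nat_lit 5) (nat_lit 158) (nat_lit 5) (nat_lit 310) (nat_lit 301) (nat_lit 109)))) (XT.nd (nat_lit 36816) (nat_lit 0)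 (nat_lit 684) (XT.lf (nat_lit 0) (nat_lit 10631720233) (nat_lit 1140) (nat_lit 13644894529) (nat_lit 1216) (nat_lit 80377898062) (nat_lit 142) (nat_lit 5) (nat_lit 157) (nat_lit 5) (nat_lit 158) (nat_lit 5) (nat_lit 311) (nat_lit 301) (nat_lit 108)) (XT.nd (nat_lit 78) (nat_lit 0) (nat_lit 0) (XT.lf (nat_lit 0) (nat_lit 27288541258) (nat_lit 1140) (nat_lit 7538951106) (nat_lit 1140) (nat_lit 7538951106) (nat_lit 151) (nat_lit 3) (nat_lit 166) (nat_lit 3) (nat_lit 166) (nat_lit 5) (nat_lit 302) (nat_lit 302) (nat_lit 116)) (XT.lf (nat_lit 76) (nat_lit 44433417478) (nat_lit 0) (nat_lit 11948743827) (nat_lit 1140) (nat_lit 30455795207) (nat_lit 152) (nat_lit 5) (nat_lit 151) (nat_lit 3) (nat_lit 166) (nat_lit 5) (nat_lit 303) (nat_lit 302) (nat_lit 115))))))) (XT.nd (nat_lit 37752) (nat_lit 0) (nat_lit 0) (XT.nd (nat_lit 390) (nat_lit 76) (nat_lit 0) (XT.nd (nat_lit 156) (nat_lit 0) (nat_lit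 76) (XT.nd (nat_lit 78) (nat_lit 0) (nat_lit 76) (XT.lf (nat_lit 76) (nat_lit 18074860002) (nat_lit 0) (nat_lit 40999849027) (nat_lit 1140) (nat_lit 29949656197) (nat_lit 153) (nat_lit 5) (nat_lit 152) (nat_lit 5) (nat_lit 167) (nat_lit 5) (nat_lit 304) (nat_lit 302) (nat_lit 114)) (XT.lf (nat_lit 0) (nat_lit 62648126971) (nat_lit 1064) (nat_lit 9153696194) (nat_lit 1140) (nat_lit 19495885940) (nat_lit 153) (nat_lit 5) (nat_lit 167) (nat_lit 5) (nat_lit 168) (nat_lit 5) (nat_lit 305) (nat_lit 302) (nat_lit 113))) (XT.nd (nat_lit 78) (nat_lit 0) (nat_lit 76) (XT.lf (nat_lit 76) (nat_lit 56418530076) (nat_lit 0) (nat_lit 10937049523) (nat_lit 1140) (nat_lit 26300481586) (nat_lit 154) (nat_lit 5) (nat_lit 153) (nat_lit 5) (nat_lit 168) (nat_lit 5) (nat_lit 306) (nat_lit 302) (nat_lit 112)) (XT.nd (nat_lit 78) (nat_lit 0) (nat_lit 76) (XT.lf (nat_lit 76) (nat_lit 29394117878) (nat_lit 0) (nat_lit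 43790441417) (nat_lit 1140) (nat_lit 22921188768) (nat_lit 155) (nat_lit 5) (nat_lit 154) (nat_lit 5) (nat_lit 169) (nat_lit 5) (nat_lit 307) (nat_lit 302) (nat_lit 111)) (XT.lf (nat_lit 76) (nat_lit 1188036210) (nat_lit 0) (nat_lit 78814707528) (nat_lit 1140) (nat_lit 18654244614) (nat_lit 156) (nat_lit 5) (nat_lit 155) (nat_lit 5) (nat_lit 170) (nat_lit 5) (nat_lit 308) (nat_lit 302) (nat_lit 110))))) (XT.nd (nat_lit 37128) (nat_lit 0) (nat_lit 0) (XT.nd (nat_lit 78) (nat_lit 304) (nat_lit 0) (XT.lf (nat_lit 76) (nat_lit 73425487857) (nat_lit 0) (nat_lit 14860052885) (nat_lit 1140) (nat_lit 13016540472) (nat_lit 156) (nat_lit 5) (nat_lit 155) (nat_lit 5) (nat_lit 170) (nat_lit 5) (nat_lit 309) (nat_lit 302) (nat_lit 109)) (XT.nd (nat_lit 36972) (nat_lit 380) (nat_lit 0) (XT.lf (nat_lit 76) (nat_lit 45581689755) (nat_lit 0) (nat_lit 52340959064) (nat_lit 1140) (nat_lit 6128576342) (nat_lit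 157) (nat_lit 5) (nat_lit 156) (nat_lit 5) (nat_lit 171) (nat_lit 5) (nat_lit 310) (nat_lit 302) (nat_lit 108)) (XT.lf (nat_lit 0) (nat_lit 28666287607) (nat_lit 1140) (nat_lit 7909022961) (nat_lit 1140) (nat_lit 7909022961) (nat_lit 151) (nat_lit 3) (nat_lit 166) (nat_lit 3) (nat_lit 166) (nat_lit 5) (nat_lit 303) (nat_lit 303) (nat_lit 114)))) (XT.nd (nat_lit 78) (nat_lit 0) (nat_lit 76) (XT.lf (nat_lit 76) (nat_lit 46668445571) (nat_lit 0) (nat_lit 12558322265) (nat_lit 1140) (nat_lit 31952259575) (nat_lit 152) (nat_lit 5) (nat_lit 151) (nat_lit 3) (nat_lit 166) (nat_lit 5) (nat_lit 304) (nat_lit 303) (nat_lit 113)) (XT.nd (nat_lit 78) (nat_lit 0) (nat_lit 76) (XT.lf (nat_lit 76) (nat_lit 18992493926) (nat_lit 0) (nat_lit 43060257184) (nat_lit 1140) (nat_lit 31422044156) (nat_lit 153) (nat_lit 5) (nat_lit 152) (nat_lit 5) (nat_lit 167) (nat_lit 5) (nat_lit 305) (nat_lit 303) (nat_lit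 112)) (XT.lf (nat_lit 0) (nat_lit 65803587136) (nat_lit 1064) (nat_lit 9597305512) (nat_lit 1140) (nat_lit 20460954088) (nat_lit 153) (nat_lit 5) (nat_lit 167) (nat_lit 5) (nat_lit 168) (nat_lit 5) (nat_lit 306) (nat_lit 303) (nat_lit 111)))))) (XT.nd (nat_lit 37440) (nat_lit 0) (nat_lit 0) (XT.nd (nat_lit 156) (nat_lit 152) (nat_lit 0) (XT.nd (nat_lit 78) (nat_lit 0) (nat_lit 76) (XT.lf (nat_lit 76) (nat_lit 59253128601) (nat_lit 0) (nat_lit 11492317417) (nat_lit 1140) (nat_lit 27592702068) (nat_lit 154) (nat_lit 5) (nat_lit 153) (nat_lit 5) (nat_lit 168) (nat_lit 5) (nat_lit 307) (nat_lit 303) (nat_lit 110)) (XT.lf (nat_lit 76) (nat_lit 30877878092) (nat_lit 0) (nat_lit 45987002880) (nat_lit 1140) (nat_lit 24045470697) (nat_lit 155) (nat_lit 5) (nat_lit 154) (nat_lit 5) (nat_lit 169) (nat_lit 5) (nat_lit 308) (nat_lit 303) (nat_lit 109))) (XT.nd (nat_lit 37128) (nat_lit 304) (nat_lit 0)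 (XT.lf (nat_lit 76) (nat_lit 1261819400) (nat_lit 0) (nat_lit 82761224574) (nat_lit 1140) (nat_lit 19566140347) (nat_lit 156) (nat_lit 5) (nat_lit 155) (nat_lit 5) (nat_lit 170) (nat_lit 5) (nat_lit 309) (nat_lit 303) (nat_lit 108)) (XT.nd (nat_lit 78) (nat_lit 0) (nat_lit 0) (XT.lf (nat_lit 0) (nat_lit 30111682971) (nat_lit 1140) (nat_lit 8298237647) (nat_lit 1140) (nat_lit 8298237647) (nat_lit 151) (nat_lit 3) (nat_lit 166) (nat_lit 3) (nat_lit 166) (nat_lit 5) (nat_lit 304) (nat_lit 304) (nat_lit 112)) (XT.lf (nat_lit 76) (nat_lit 49013983241) (nat_lit 0) (nat_lit 13197250846) (nat_lit 1140) (nat_lit 33525994647) (nat_lit 152) (nat_lit 5) (nat_lit 151) (nat_lit 3) (nat_lit 166) (nat_lit 5) (nat_lit 305) (nat_lit 304) (nat_lit 111))))) (XT.nd (nat_lit 37440) (nat_lit 76) (nat_lit 0) (XT.nd (nat_lit 78) (nat_lit 0) (nat_lit 76) (XT.lf (nat_lit 76) (nat_lit 19954718100) (nat_lit 0) (nat_lit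 45222717395) (nat_lit 1140) (nat_lit 32970384595) (nat_lit 153) (nat_lit 5) (nat_lit 152) (nat_lit 5) (nat_lit 167) (nat_lit 5) (nat_lit 306) (nat_lit 304) (nat_lit 110)) (XT.nd (nat_lit 78) (nat_lit 0) (nat_lit 0) (XT.lf (nat_lit 0) (nat_lit 69114676984) (nat_lit 1064) (nat_lit 10064403901) (nat_lit 1140) (nat_lit 21475179887) (nat_lit 153) (nat_lit 5) (nat_lit 167) (nat_lit 5) (nat_lit 168) (nat_lit 5) (nat_lit 307) (nat_lit 304) (nat_lit 109)) (XT.lf (nat_lit 76) (nat_lit 62228185957) (nat_lit 0) (nat_lit 12074566320) (nat_lit 1140) (nat_lit 28951653637) (nat_lit 154) (nat_lit 5) (nat_lit 153) (nat_lit 5) (nat_lit 168) (nat_lit 5) (nat_lit 308) (nat_lit 304) (nat_lit 108)))) (XT.nd (nat_lit 78) (nat_lit 0) (nat_lit 0) (XT.lf (nat_lit 0) (nat_lit 31628224929) (nat_lit 1140) (nat_lit 8707492874) (nat_lit 1140) (nat_lit 8707492874) (nat_lit 151) (nat_lit 3) (nat_lit 166) (nat_lit 3) (nat_lit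 166) (nat_lit 5) (nat_lit 305) (nat_lit 305) (nat_lit 110)) (XT.nd (nat_lit 78) (nat_lit 0) (nat_lit 76) (XT.lf (nat_lit 76) (nat_lit 51475671420) (nat_lit 0) (nat_lit 13867102022) (nat_lit 1140) (nat_lit 35180636414) (nat_lit 152) (nat_lit 5) (nat_lit 151) (nat_lit 3) (nat_lit 166) (nat_lit 5) (nat_lit 306) (nat_lit 305) (nat_lit 109)) (XT.lf (nat_lit 76) (nat_lit 20963882102) (nat_lit 0) (nat_lit 47492422291) (nat_lit 1140) (nat_lit 34598258230) (nat_lit 153) (nat_lit 5) (nat_lit 152) (nat_lit 5) (nat_lit 167) (nat_lit 5) (nat_lit 307) (nat_lit 305) (nat_lit 108))))))))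

set_option maxRecDepth 10000000 in
noncomputable def Tp : PT := (PT.nd (nat_lit 4623450) (PT.nd (nat_lit 4286568) (PT.nd (nat_lit 3986736) (PT.nd (nat_lit 3724500) pc0 pc1) (PT.nd (nat_lit 150306) pc2 pc3)) (PT.nd (nat_lit 187356) (PT.nd (nat_lit 112008) pc4 pc5) (PT.nd (nat_lit 75036) pc6 pc7))) (PT.nd (nat_lit 188370) (PT.nd (nat_lit 112242) (PT.nd (nat_lit 38532) pc8 pc9) (PT.nd (nat_lit 38142) pc10 pc11)) (PT.nd (nat_lit 110916) (PT.nd (nat_lit 37752) pc12 pc13) (PT.nd (nat_lit 77376) pc14 pc15))))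

set_option maxRecDepth 10000000 in
noncomputable def Tx : XT := (XT.nd (nat_lit 7341750) (nat_lit 0) (nat_lit 76) XT.nil (XT.nd (nat_lit 4125264) (nat_lit 0) (nat_lit 0) (XT.nd (nat_lit 1945008) (nat_lit 0) (nat_lit 380) (XT.nd (nat_lit 1312584) (nat_lit 0) (nat_lit 76) (XT.nd (nat_lit 900510) (nat_lit 0) (nat_lit 76) (XT.nd (nat_lit 636168) (nat_lit 0) (nat_lit 0) (XT.nd (nat_lit 448344) (nat_lit 0) (nat_lit 0) (XT.nd (nat_lit 299208) (nat_lit 0) (nat_lit 0) (XT.nd (nat_lit 187356) (nat_lit 0) (nat_lit 0) xc0 xc1) (XT.nd (nat_lit 74880) (nat_lit 0) (nat_lit 0) xc2 xc3)) (XT.nd (nat_lit 76908) (nat_lit 0) (nat_lit 0) (XT.nd (nat_lit 38532) (nat_lit 0) (nat_lit 0) xc4 xc5) (XT.nd (nat_lit 72930) (nat_lit 0) (nat_lit 0) xc6 xc7))) (XT.nd (nat_lit 150072) (nat_lit 0) (nat_lit 76) (XT.nd (nat_lit 75348) (nat_lit 0) (nat_lit 0) (XT.nd (nat_lit 37752) (nat_lit 0) (nat_lit 0) xc8 xc9) (XT.nd (nat_lit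 37440) (nat_lit 0) (nat_lit 76) xc10 xc11)) (XT.nd (nat_lit 74100) (nat_lit 0) (nat_lit 0) (XT.nd (nat_lit 37128) (nat_lit 0) (nat_lit 0) xc12 xc13) (XT.nd (nat_lit 36816) (nat_lit 0) (nat_lit 0) xc14 xc15)))) (XT.nd (nat_lit 224484) (nat_lit 0) (nat_lit 0) (XT.nd (nat_lit 145782) (nat_lit 0) (nat_lit 0) (XT.nd (nat_lit 73164) (nat_lit 0) (nat_lit 0) (XT.nd (nat_lit 36660) (nat_lit 0) (nat_lit 0) xc16 xc17) (XT.nd (nat_lit 36348) (nat_lit 0) (nat_lit 0) xc18 xc19)) (XT.nd (nat_lit 39390) (nat_lit 0) (nat_lit 0) (XT.nd (nat_lit 3276) (nat_lit 152) (nat_lit 0) xc20 xc21) (XT.nd (nat_lit 35958) (nat_lit 0) (nat_lit 152) xc22 xc23))) (XT.nd (nat_lit 110292) (nat_lit 0) (nat_lit 0) (XT.nd (nat_lit 71448) (nat_lit 0) (nat_lit 0) (XT.nd (nat_lit 35802) (nat_lit 0) (nat_lit 0) xc24 xc25) (XT.nd (nat_lit 3276) (nat_lit 152) (nat_lit 0) xc26 xc27)) (XT.nd (nat_lit 38688) (nat_lit 0) (nat_lit 0) (XT.nd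 (nat_lit 35412) (nat_lit 0) (nat_lit 456) xc28 xc29) (XT.nd (nat_lit 35256) (nat_lit 0) (nat_lit 152) xc30 xc31))))) (XT.nd (nat_lit 333528) (nat_lit 0) (nat_lit 152) (XT.nd (nat_lit 183846) (nat_lit 0) (nat_lit 152) (XT.nd (nat_lit 108108) (nat_lit 0) (nat_lit 76) (XT.nd (nat_lit 70044) (nat_lit 0) (nat_lit 76) (XT.nd (nat_lit 35100) (nat_lit 0) (nat_lit 76) xc32 xc33) (XT.nd (nat_lit 3276) (nat_lit 684) (nat_lit 0) xc34 xc35)) (XT.nd (nat_lit 37908) (nat_lit 0) (nat_lit 76) (XT.nd (nat_lit 3276) (nat_lit 456) (nat_lit 0) xc36 xc37) (XT.nd (nat_lit 3276) (nat_lit 304) (nat_lit 0) xc38 xc39))) (XT.nd (nat_lit 75036) (nat_lit 0) (nat_lit 0) (XT.nd (nat_lit 37596) (nat_lit 0) (nat_lit 0) (XT.nd (nat_lit 3276) (nat_lit 152) (nat_lit 0) xc40 xc41) (XT.nd (nat_lit 3276) (nat_lit 152) (nat_lit 0) xc42 xc43)) (XT.nd (nat_lit 37362) (nat_lit 0) (nat_lit 0) (XT.nd (nat_lit 3276) (nat_lit 228) (nat_lit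 0) xc44 xc45) (XT.nd (nat_lit 3276) (nat_lit 304) (nat_lit 0) xc46 xc47)))) (XT.nd (nat_lit 148746) (nat_lit 0) (nat_lit 76) (XT.nd (nat_lit 74178) (nat_lit 0) (nat_lit 76) (XT.nd (nat_lit 37050) (nat_lit 0) (nat_lit 76) (XT.nd (nat_lit 3276) (nat_lit 380) (nat_lit 0) xc48 xc49) (XT.nd (nat_lit 3276) (nat_lit 608) (nat_lit 0) xc50 xc51)) (XT.nd (nat_lit 37206) (nat_lit 0) (nat_lit 0) (XT.nd (nat_lit 3276) (nat_lit 912) (nat_lit 0) xc52 xc53) (XT.nd (nat_lit 3276) (nat_lit 1216) (nat_lit 0) xc54 xc55))) (XT.nd (nat_lit 74802) (nat_lit 0) (nat_lit 0) (XT.nd (nat_lit 37362) (nat_lit 0) (nat_lit 0) (XT.nd (nat_lit 3276) (nat_lit 1520) (nat_lit 0) xc56 xc57) (XT.nd (nat_lit 3276) (nat_lit 1748) (nat_lit 0) xc58 xc59)) (XT.nd (nat_lit 37596) (nat_lit 0) (nat_lit 76) (XT.nd (nat_lit 3276) (nat_lit 1900) (nat_lit 0) xc60 xc61) (XT.nd (nat_lit 3276) (nat_lit 1824) (nat_lit 0) xc62 xc63)))))) (XT.nd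 (nat_lit 680394) (nat_lit 0) (nat_lit 760) (XT.nd (nat_lit 304590) (nat_lit 0) (nat_lit 228) (XT.nd (nat_lit 151554) (nat_lit 0) (nat_lit 152) (XT.nd (nat_lit 75582) (nat_lit 0) (nat_lit 0) (XT.nd (nat_lit 37752) (nat_lit 0) (nat_lit 0) (XT.nd (nat_lit 3276) (nat_lit 1672) (nat_lit 0) xc64 xc65) (XT.nd (nat_lit 3276) (nat_lit 1444) (nat_lit 0) xc66 xc67)) (XT.nd (nat_lit 37908) (nat_lit 0) (nat_lit 76) (XT.nd (nat_lit 3276) (nat_lit 1140) (nat_lit 0) xc68 xc69) (XT.nd (nat_lit 3276) (nat_lit 912) (nat_lit 0) xc70 xc71))) (XT.nd (nat_lit 76284) (nat_lit 0) (nat_lit 0) (XT.nd (nat_lit 38064) (nat_lit 0) (nat_lit 0) (XT.nd (nat_lit 3276) (nat_lit 380) (nat_lit 0) xc72 xc73) (XT.nd (nat_lit 3276) (nat_lit 76) (nat_lit 0) xc74 xc75)) (XT.nd (nat_lit 38298) (nat_lit 0) (nat_lit 0) (XT.nd (nat_lit 35022) (nat_lit 0) (nat_lit 1976) xc76 xc77) (XT.nd (nat_lit 35100) (nat_lit 0) (nat_lit 836) xc78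 xc79)))) (XT.nd (nat_lit 186732) (nat_lit 0) (nat_lit 228) (XT.nd (nat_lit 109044) (nat_lit 0) (nat_lit 228) (XT.nd (nat_lit 38454) (nat_lit 0) (nat_lit 0) (XT.nd (nat_lit 35178) (nat_lit 0) (nat_lit 228) xc80 xc81) (XT.nd (nat_lit 35256) (nat_lit 0) (nat_lit 0) xc82 xc83)) (XT.nd (nat_lit 38766) (nat_lit 0) (nat_lit 0) (XT.nd (nat_lit 3276) (nat_lit 1064) (nat_lit 0) xc84 xc85) (XT.nd (nat_lit 3276) (nat_lit 76) (nat_lit 0) xc86 xc87))) (XT.nd (nat_lit 110448) (nat_lit 0) (nat_lit 228) (XT.nd (nat_lit 38922) (nat_lit 0) (nat_lit 76) (XT.nd (nat_lit 35646) (nat_lit 0) (nat_lit 532) xc88 xc89) (XT.nd (nat_lit 35724) (nat_lit 0) (nat_lit 0) xc90 xc91)) (XT.nd (nat_lit 39234) (nat_lit 0) (nat_lit 76) (XT.nd (nat_lit 3276) (nat_lit 608) (nat_lit 0) xc92 xc93) (XT.nd (nat_lit 36036) (nat_lit 0) (nat_lit 380) xc94 xc95))))) (XT.nd (nat_lit 486954) (nat_lit 0) (nat_lit 1292) (XT.nd (nat_lit 224718)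 (nat_lit 0) (nat_lit 380) (XT.nd (nat_lit 111852) (nat_lit 0) (nat_lit 228) (XT.nd (nat_lit 72306) (nat_lit 0) (nat_lit 76) (XT.nd (nat_lit 36114) (nat_lit 0) (nat_lit 76) xc96 xc97) (XT.nd (nat_lit 36270) (nat_lit 0) (nat_lit 1672) xc98 xc99)) (XT.nd (nat_lit 72930) (nat_lit 0) (nat_lit 152) (XT.nd (nat_lit 36426) (nat_lit 0) (nat_lit 0) xc100 xc101) (XT.nd (nat_lit 36582) (nat_lit 0) (nat_lit 1140) xc102 xc103))) (XT.nd (nat_lit 147342) (nat_lit 0) (nat_lit 532) (XT.nd (nat_lit 73476) (nat_lit 0) (nat_lit 304) (XT.nd (nat_lit 36660) (nat_lit 0) (nat_lit 152) xc104 xc105) (XT.nd (nat_lit 36894) (nat_lit 0) (nat_lit 76) xc106 xc107)) (XT.nd (nat_lit 40326) (nat_lit 0) (nat_lit 152) (XT.nd (nat_lit 3276) (nat_lit 152) (nat_lit 0) xc108 xc109) (XT.nd (nat_lit 37206) (nat_lit 0) (nat_lit 0) xc110 xc111)))) (XT.nd (nat_lit 337038) (nat_lit 0) (nat_lit 2128) (XT.nd (nat_lit 150150) (nat_lit 0)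 (nat_lit 760) (XT.nd (nat_lit 74880) (nat_lit 0) (nat_lit 456) (XT.nd (nat_lit 37362) (nat_lit 0) (nat_lit 228) xc112 xc113) (XT.nd (nat_lit 37596) (nat_lit 0) (nat_lit 0) xc114 xc115)) (XT.nd (nat_lit 75738) (nat_lit 0) (nat_lit 456) (XT.nd (nat_lit 37830) (nat_lit 0) (nat_lit 228) xc116 xc117) (XT.nd (nat_lit 72852) (nat_lit 0) (nat_lit 380) xc118 xc119))) (XT.nd (nat_lit 225264) (nat_lit 0) (nat_lit 1824) (XT.nd (nat_lit 112164) (nat_lit 0) (nat_lit 988) (XT.nd (nat_lit 38376) (nat_lit 0) (nat_lit 0) xc120 xc121) (XT.nd (nat_lit 38688) (nat_lit 0) (nat_lit 0) xc122 xc123)) (XT.nd (nat_lit 150306) (nat_lit 0) (nat_lit 2204) (XT.nd (nat_lit 74880) (nat_lit 0) (nat_lit 1216) xc124 xc125) (XT.nd (nat_lit 112398) (nat_lit 0) (nat_lit 2128) xc126 xc127))))))) XT.nil))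

set_option maxRecDepth 10000000 in
noncomputable def Te : XT := XT.nil

set_option maxRecDepth 10000000 in
noncomputable def Tz : ZL := (ZL.cons (nat_lit 76) (nat_lit 6) (nat_lit 172468403566003189466) (ZL.cons (nat_lit 152) (nat_lit 6) (nat_lit 169002157717219348504) (ZL.cons (nat_lit 228) (nat_lit 3) (nat_lit 84405205218426613186) (ZL.cons (nat_lit 304) (nat_lit 6) (nat_lit 165362599575996315494) (ZL.cons (nat_lit 380) (nat_lit 6) (nat_lit 162116761909954226092) (ZL.cons (nat_lit 456) (nat_lit 3) (nat_lit 80967072726231340602) (ZL.cons (nat_lit 532) (nat_lit 6) (nat_lit 158708632360610032220) (ZL.cons (nat_lit 608) (nat_lit 6) (nat_lit 155678380507362528902) (ZL.cons (nat_lit 684) (nat_lit 3) (nat_lit 77752230035828147838) (ZL.cons (nat_lit 760) (nat_lit 6) (nat_lit 152496616061452650416) (ZL.cons (nat_lit 836) (nat_lit 6) (nat_lit 149677938796641468720) (ZL.cons (nat_lit 912) (nat_lit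 3) (nat_lit 74756150143222528061) (ZL.cons (nat_lit 988) (nat_lit 6) (nat_lit 147041717140877962052) (ZL.cons (nat_lit 1064) (nat_lit 6) (nat_lit 146718327668589727936) (ZL.cons (nat_lit 1140) (nat_lit 6) (nat_lit 144108045892129867456) (ZL.cons (nat_lit 1216) (nat_lit 3) (nat_lit 71975147465019022969) (ZL.cons (nat_lit 1292) (nat_lit 6) (nat_lit 141675240000454855970) (ZL.cons (nat_lit 1368) (nat_lit 6) (nat_lit 141367250026847013954) (ZL.cons (nat_lit 1444) (nat_lit 6) (nat_lit 139414117598584514880) (ZL.cons (nat_lit 1520) (nat_lit 6) (nat_lit 138963042852104272392) (ZL.cons (nat_lit 1596) (nat_lit 3) (nat_lit 69406401920294125947) (ZL.cons (nat_lit 1672) (nat_lit 6) (nat_lit 136731949103012814718) (ZL.cons (nat_lit 1748) (nat_lit 6) (nat_lit 136438625318624393748) (ZL.cons (nat_lit 1824) (nat_lit 6) (nat_lit 134668656651598613652) (ZL.cons (nat_lit 1900) (nat_lit 6) (nat_lit 134239061654950763662)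 (ZL.cons (nat_lit 1976) (nat_lit 3) (nat_lit 67047988441039181595) (ZL.cons (nat_lit 2052) (nat_lit 6) (nat_lit 132768252896786873480) (ZL.cons (nat_lit 2128) (nat_lit 6) (nat_lit 132208875793225281564) (ZL.cons (nat_lit 2204) (nat_lit 6) (nat_lit 131929519808093452072) (ZL.cons (nat_lit 2280) (nat_lit 6) (nat_lit 130343233957586696308) (ZL.cons (nat_lit 2356) (nat_lit 6) (nat_lit 129934095865541124890) (ZL.cons (nat_lit 2432) (nat_lit 3) (nat_lit 64898912326640847935) (ZL.cons (nat_lit 2508) (nat_lit 6) (nat_lit 128637694143664439834) (ZL.cons (nat_lit 2584) (nat_lit 6) (nat_lit 128104954045034352296) (ZL.cons (nat_lit 2660) (nat_lit 6) (nat_lit 127838900725861181350) (ZL.cons (nat_lit 2736) (nat_lit 6) (nat_lit 127088195542377744862) (ZL.cons (nat_lit 2812) (nat_lit 6) (nat_lit 126437739247000499118) (ZL.cons (nat_lit 2888) (nat_lit 6) (nat_lit 126048083921242812052) (ZL.cons (nat_lit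 2964) (nat_lit 3) (nat_lit 62959150907164535063) (ZL.cons (nat_lit 3040) (nat_lit 6) (nat_lit 124928481912396627606) (ZL.cons (nat_lit 3116) (nat_lit 6) (nat_lit 124421110389891782334) (ZL.cons (nat_lit 3192) (nat_lit 6) (nat_lit 124167726276393524288) (ZL.cons (nat_lit 3268) (nat_lit 6) (nat_lit 123573588571378442832) (ZL.cons (nat_lit 3344) (nat_lit 6) (nat_lit 122954106385304875456) (ZL.cons (nat_lit 3420) (nat_lit 6) (nat_lit 122583006075059459204) (ZL.cons (nat_lit 3496) (nat_lit 3) (nat_lit 61229702034237471542) (ZL.cons (nat_lit 3572) (nat_lit 6) (nat_lit 122369833287419711020) (ZL.cons (nat_lit 3648) (nat_lit 6) (nat_lit 121643579040804503544) (ZL.cons (nat_lit 3724) (nat_lit 6) (nat_lit 121160368066990365188) (ZL.cons (nat_lit 3800) (nat_lit 6) (nat_lit 120919049863658690862) (ZL.cons (nat_lit 3876) (nat_lit 6) (nat_lit 121314349976511006620) (ZL.cons (nat_lit 3952) (nat_lit 6)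 (nat_lit 120486408053189475242) (ZL.cons (nat_lit 4028) (nat_lit 6) (nat_lit 119896425018833696786) (ZL.cons (nat_lit 4104) (nat_lit 6) (nat_lit 119542996151933300356) (ZL.cons (nat_lit 4180) (nat_lit 3) (nat_lit 59712639977593071075) (ZL.cons (nat_lit 4256) (nat_lit 6) (nat_lit 119479838253441659524) (ZL.cons (nat_lit 4332) (nat_lit 6) (nat_lit 118788167542379557166) (ZL.cons (nat_lit 4408) (nat_lit 6) (nat_lit 118327966614937520636) (ZL.cons (nat_lit 4484) (nat_lit 6) (nat_lit 118098139754621640326) (ZL.cons (nat_lit 4560) (nat_lit 6) (nat_lit 118621473046799752072) (ZL.cons (nat_lit 4636) (nat_lit 6) (nat_lit 117832956929350674568) (ZL.cons (nat_lit 4712) (nat_lit 6) (nat_lit 117271068325202314136) (ZL.cons (nat_lit 4788) (nat_lit 6) (nat_lit 116934469404344793726) (ZL.cons (nat_lit 4864) (nat_lit 3) (nat_lit 58411179370388035811) (ZL.cons (nat_lit 4940) (nat_lit 6) (nat_lit 116493286487343670884)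 (ZL.cons (nat_lit 5016) (nat_lit 6) (nat_lit 116634380242911250604) (ZL.cons (nat_lit 5092) (nat_lit 6) (nat_lit 116916903691559666186) (ZL.cons (nat_lit 5168) (nat_lit 6) (nat_lit 117341529508166651950) (ZL.cons (nat_lit 5244) (nat_lit 6) (nat_lit 117909268706581272150) (ZL.cons (nat_lit 5320) (nat_lit 6) (nat_lit 117028518868763646886) (ZL.cons (nat_lit 5396) (nat_lit 6) (nat_lit 116369784858228311308) (ZL.cons (nat_lit 5472) (nat_lit 6) (nat_lit 115931498260664466996) (ZL.cons (nat_lit 5548) (nat_lit 6) (nat_lit 115712615536554104792) (ZL.cons (nat_lit 5624) (nat_lit 3) (nat_lit 57606606454472465742) (ZL.cons (nat_lit 5700) (nat_lit 6) (nat_lit 115285480442284423536) (ZL.cons (nat_lit 5776) (nat_lit 6) (nat_lit 115502455107858469910) (ZL.cons (nat_lit 5852) (nat_lit 6) (nat_lit 115864653512013675478) (ZL.cons (nat_lit 5928) (nat_lit 6) (nat_lit 116372938031902790728) (ZL.cons (nat_lit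 6004) (nat_lit 6) (nat_lit 115621970300998907390) (ZL.cons (nat_lit 6080) (nat_lit 6) (nat_lit 115086838297048087932) (ZL.cons (nat_lit 6156) (nat_lit 6) (nat_lit 114766267896231401826) (ZL.cons (nat_lit 6232) (nat_lit 3) (nat_lit 57329747917844880863) (ZL.cons (nat_lit 6308) (nat_lit 6) (nat_lit 114135188970799426062) (ZL.cons (nat_lit 6384) (nat_lit 6) (nat_lit 114283337414145384768) (ZL.cons (nat_lit 6460) (nat_lit 6) (nat_lit 114579987035226221128) (ZL.cons (nat_lit 6536) (nat_lit 6) (nat_lit 115025844142663556182) (ZL.cons (nat_lit 6612) (nat_lit 6) (nat_lit 114398478418344188964) (ZL.cons (nat_lit 6688) (nat_lit 6) (nat_lit 113981062611140527712) (ZL.cons (nat_lit 6764) (nat_lit 6) (nat_lit 113772602873892563710) (ZL.cons (nat_lit 6840) (nat_lit 3) (nat_lit 56590383519619218380) (ZL.cons (nat_lit 6916) (nat_lit 6) (nat_lit 113256647949244903414) (ZL.cons (nat_lit 6992) (nat_lit 6)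 (nat_lit 113484471348097652106) (ZL.cons (nat_lit 7068) (nat_lit 6) (nat_lit 113864779672460617952) (ZL.cons (nat_lit 7144) (nat_lit 6) (nat_lit 113355130144888408940) (ZL.cons (nat_lit 7220) (nat_lit 6) (nat_lit 113049825001253469792) (ZL.cons (nat_lit 7296) (nat_lit 3) (nat_lit 56474068662273572945) (ZL.cons (nat_lit 7372) (nat_lit 6) (nat_lit 112419942214431072318) (ZL.cons (nat_lit 7448) (nat_lit 6) (nat_lit 112575498079944328958) (ZL.cons (nat_lit 7524) (nat_lit 6) (nat_lit 112886980182079207136) (ZL.cons (nat_lit 7600) (nat_lit 6) (nat_lit 112489441318075720228) (ZL.cons (nat_lit 7676) (nat_lit 6) (nat_lit 112290908234982421180) (ZL.cons (nat_lit 7752) (nat_lit 3) (nat_lit 55885614026596214990) (ZL.cons (nat_lit 7828) (nat_lit 6) (nat_lit 111850903008699219966) (ZL.cons (nat_lit 7904) (nat_lit 6) (nat_lit 112090117577494606092) (ZL.cons (nat_lit 7980) (nat_lit 6) (nat_lit 111799350774032759284)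 (ZL.cons (nat_lit 8056) (nat_lit 3) (nat_lit 55851252683822892069) (ZL.cons (nat_lit 8132) (nat_lit 6) (nat_lit 111308960908002217728) (ZL.cons (nat_lit 8208) (nat_lit 6) (nat_lit 111472294566791137200) (ZL.cons (nat_lit 8284) (nat_lit 6) (nat_lit 111283215440035614294) (ZL.cons (nat_lit 8360) (nat_lit 3) (nat_lit 55474190719759164689) (ZL.cons (nat_lit 8436) (nat_lit 6) (nat_lit 111032040142800458864) (ZL.cons (nat_lit 8512) (nat_lit 3) (nat_lit 55469903211215955552) (ZL.cons (nat_lit 8588) (nat_lit 6) (nat_lit 110768306080703545660) (ZL.cons (nat_lit 8664) (nat_lit 1) (nat_lit 18446744073709551617) ZL.nil))))))))))))))))))))))))))))))))))))))))))))))))))))))))))))))))))))))))))))))))))))))))))))))))))))))))))))))))))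

noncomputable def vl : XL := ⟨(nat_lit 0), (nat_lit 76), (nat_lit 557043676), (nat_lit 152), (nat_lit 69072419), (nat_lit 152), (nat_lit 69072419), (nat_lit 1), (nat_lit 4), (nat_lit 2), (nat_lit 5), (nat_lit 2), (nat_lit 4), (nat_lit 0), (nat_lit 0), (nat_lit 0)⟩

noncomputable def cp0 : Nat := (nat_lit 3830023050972569541708191008102229245257826992816051229526691678429575403481945582810894521776084044181233923413288172220075947677750860806258389213137666185233223966450299968178059139830589123725588484040422976707552908998440860307317971368626161585964697908928783181772257778122740462604483112002292829020253750626092639826345777965590057679824881660572904616494138702678750488634085159684329443206271764153545182525655437501813388407783133770632084648462978847375573941621334465572241212505374660502565676317465993328297567288699001030834126382075467435864568083636523435318175059953776817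108427545538685833551322720903782301973514812472184605610141327178688971674339235875514309190153049866352740981817118888783403833101452589143338784905927519551408081156656923314071575002320660432500213176051296836717461255163261265865384549639327546604164751392659758217482433099464518618953764177225252654819509221234661352699430584787830317836418600420031641981005851349337819142287331948939648368547043997364675710459365949299023427348657322006445980320240818151092148303912113935488743383236231190384752179010038312482390152177055537550330425644319500481204809462156772843070888809313181720483760614509324702182464080997340133534265353893747127220482178795517539347099218911422451285990290640435514124197385294697211639421665190395742382884663027806618069377154055472234436676247701398211310253453764171460151837979925367500416818717585912894707119393907184177727004482759831955744425227181355487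2347533143690740007052988337249971588472403275237232585097938040287480693060692896749458789390908673828428393612241131624916896598189369207137629642289906950705165746322648313562301645219494195177267298882680268425751636377079620397122712645820797113472167169790567366727110128040434592185653382279805593914337708583297140163537516240163667745816605795803672942298963861114339353770472069580345192635552946435350601455561554263116350328988817024257262691412480363614386010382277352967222195436706827254136565321873204284927979038059414377004167607101703777061970953887522278689352135563273370744698126593925462443841657971089423882165872951851078733985995943106252313083991973914663406473668996132818405067307163222494642964823463821798153928541207237172109638818308550805737355421437954285965520580881299590913132328693644208146980032098836198561980631598845222420806457920817244141833307136033748799853786738789371179088545116334430731187930406572750176410063597509524143762765685988182576535339051583338812638379627538364852837543666136455998788385122100820789250153040250850176254334008702016817481805142791423422466101038542749696)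

noncomputable def cp1 : Nat := (nat_lit 205659530931146442863097193136524489010549011291457062904457990293020025152587013415048011821671494616290400206080424525854666847902182128459277036235959802887996440295203373831224676551966051276789672275911982603923966572604619399451564063482482924391071242564198175250053225078061239622426738119975177990347699737402888247337400020598811628916030836706667576242204056312748327630995040004610393474066041792088681524256996357120584978903189984573625926951755354686077201640973800942225048787519026478486872770180860365828582263672207891658812520510394080873109532218478131160402183774391601761849590806982448382588619463952212354321098229674099201612262406948190787841374202924207880253542640315240326800914546860154435463506905117968432744631993558119480283376317301275983495591713849356556133047384887630270547948103712001298270969190271369586529148475906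315146564916274395123910032698202678510849974096286516900166518828935144695498366076237492311350904896840147711568733481142144731332128890406458966864453239691687377659669796599811941574805326321127061720052089649846679465537943735241278399976885216997602282113749468211427525398349762830817656541244568507902659170043341480982570271593014573021105356113847606906695539007576258833518521877038295740750030734433883026957058069094066687121562927408943032486722965659592215125086835516351217929932626454664933915755730550140086365504473821885036913820990047475851504289600783656021056143618688867992463128223883263636905850448603106365923673485236159483510923560829343991260483652185101890204772908807191987720266505344902287736052231337792499093489318728368412606798772219698929978410878172739894996906946346784917578403107472124454022289321176697464272455699755988280304116524114267200615238668489257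676382840973551824578406246184760137657824305693389898698018604949679616197565884479900004529130908908422957809405161164163679438497545884871569615431287919587119873723695963373185668633713466872698672429662896389518101242833652479933638046630871235117599118955918266397456305259145788088487404577249480053846873569461689109445452352074475571132629512090819463093390165602538023976269027000874462977712471823498576807122569950469628847503380025639668316431864061657110449389309743824662291951510354664289873797488892949940312214424775744362851394669257722750808169583580604137394654103195109479752030640131781242752938990073407465600373933500051469702327912077423744857480331853151751771541464673068101124610798345868547863657310586847238994720184001892357322528206595949588636615325482402658426313785270920435928948948003198575559139460797450418892417973193647329616116757720609387547642036875669454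531790943949312570899790713509553955799698507217809237709161077021597854933819499462589918291978328566383629456785569917513590312000918553036969826619250845751160566572155090135501918679321370814355757892078699085514429733502218273781377821718456204700637624164394333516687436762376226995353260059113718374937457505427825036455334955586694565843662476171932645163390927801981726723161554204258022909070131034586808719257709029394833596907014560169939964988121731266042220020209282397211427215207997522818153549714889117948304321910435082419778320997226395457882107118434918915455125464823860427147037033355461169211452532164245885622377337562527961422072274854706460156469624578022452201017286237208996863539321718586238017546425554426036110391291956285001871035324903046025667112901253287719342113613906566725528243888596071514417015308771521053704863294609191208179000966011188075571289198328870429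278582536418054776815477674801167243086024915116214790401935845280841780264147234952692242154993018560413136444091364780750652203803540355247490543770697810938053783582996098413253440653604993385376447837575908410445503327043591647348935441453163989569309121403003312598654822686453547106443404639320915464635073388576299449529267238631668960330154126506189116252643176047339697877161449053798128807010927231541226782553261635410426507742840342288274883911098710619161005202976713126461980321271343469045741272949422949707512151788059364615788994541246934576796927427625527635719283265379086649697891402772129884568661272755375637275037436322673385327077723536103199448479707958039598258210994425971062607120493471076749217066467335886408360148938511504537863862674017893545020455329274818580639584742096604820104954672405421954499476117109293977012500836342088545892578137079196257338701443051500553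466949273631751977569018317222292392482403508846443677622801127864911345387709857146258159000495742297056137433489256515677052763128433556874598635486524397067070831048681977673308144690018628386818640412536234061806989168719620227690187112934236858025119168859397725630906098410793648577808496667567460481243521858286051382732683361875270214783377612332824312192170283247731471514635386357487708593978743321935132557982687826879645609363525870903488797418389441052101281014261234520585227678220963226329536293662857365465491641761160056569827655347097167642537213254419608879169395839059552256963662501056287466384068666750156440625731270804564036667967972131538193623888782681583036253150185763489164904792388097632648370488314061290455228674470117687528682254729841179226691855592204795526412561806914469815181533230362281627048365706734352261168034549714312251317705605643216839783484388470197099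852009823530638467847456663876522783612316159537170580109250439560515784913172226125530469720488453787307749213259768096684131005048030941358237018081533603228336391661275203027881375882395446737499503612672089262275060253502783435808641534942863748582554243862542442308436901034409382607998498089355802418752574961598250394357957242483244052814370789685991206755930566545119225544599633898287967628705909881408385567033364710826516463055830553251236636257621567708807865022713588409187703825135813814196518357054860276508970691416440035826941823092370869571744083465182756961353565968959638733998294240360542578686120993233015374636109702654123758996074371063406932661538652160)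

noncomputable def rc0 : Nat := (nat_lit 205659530931146442863097193136524489010549011291457062904457990293020025152587013415048011821671494616290400206080424525854666847902182128459277036235959802887996440295203373831224676551966051276789672275911982603923966572604619399451564063482482924391071242564198175250053225078061239622426738119975177990347699737402888247337400020598811628916030836706667576242204056312748327630995040004610393474066041792088681524256996357120584978903189984573625926951755354686077201640973800942225048787519026478486872770180860365828582263672207891658812520510394080873109532218478131160402183774391601761849590806982448382588619463952212354321098229674099201612262406948190787841374202924207880253542640315240326800914546860154435463506905117968432744631993558119480283376317301275983495591713849356556133047384887630270547948103712001298270969190271369586529148475906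315146564916274395123910032698202678510849974096286516900166518828935144695498366076237492311350904896840147711568733481142144731332128890406458966864453239691687377659669796599811941574805326321127061720052089649846679465537943735241278399976885216997602282113749468211427525398349762830817656541244568507902659170043341480982570271593014573021105356113847606906695539007576258833518521877038295740750030734433883026957058069094066687121562927408943032486722965659592215125086835516351217929932626454664933915755730550140086365504473821885036913820990047475851504289600783656021056143618688867992463128223883263636905850448603106365923673485236159483510923560829343991260483652185101890204772908807191987720266505344902287736052231337792499093489318728368412606798772219698929978410878172739894996906946346784917578403107472124454022289321176697464272455699755988280304116524114267200615238668489257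676382840973551824578406246184760137657824305693389898698018604949679616197565884479900004529130908908422957809405161164163679438497545884871569615431287919587119873723695963373185668633713466872698672429662896389518101242833652479933638046630871235117599118955918266397456305259145788088487404577249480053846873569461689109445452352074475571132629512090819463093390165602538023976269027000874462977712471823498576807122569950469628847503380025639668316431864061657110449389309743824662291951510354664289873797488892949940312214424775744362851394669257722750808169583580604137394654103195109479752030640131781242752938990073407465600373933500051469702327912077423744857480331853151751771541464673068101124610798345868547863657310586847238994720184001892357322528206595949588636615325482402658426313785270920435928948948003198575559139460797450418892417973193647329616116757720609387547642036875669454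531790943949312570899790713509553955799698507217809237709161077021597854933819499462589918291978328566383629456785569917513590312000918553036969826619250845751160566572155090135501918679321370814355757892078699085514429733502218273781377821718456204700637624164394333516687436762376226995353260059113718374937457505427825036455334955586694565843662476171932645163390927801981726723161554204258022909070131034586808719257709029394833596907014560169939964988121731266042220020209282397211427215207997522818153549714889117948304321910435082419778320997226395457882107118434918915455125464823860427147037033355461169211452532164245885622377337562527961422072274854706460156469624578022452201017286237208996863539321718586238017546425554426036110391291956285001871035324903046025667112901253287719342113613906566725528243888596071514417015308771521053704863294609191208179000966011188075571289198328870429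278582536418054776815477674801167243086024915116214790401935845280841780264147234952692242154993018560413136444091364780750652203803540355247490543770697810938053783582996098413253440653604993385376447837575908410445503327043591647348935441453163989569309121403003312598654822686453547106443404639320915464635073388576299449529267238631668960330154126506189116252643176047339697877161449053798128807010927231541226782553261635410426507742840342288274883911098710619161005202976713126461980321271343469045741272949422949707512151788059364615788994541246934576796927427625527635719283265379086649697891402772129884568661272755375637275037436322673385327077723536103199448479707958039598258210994425971062607120493471076749217066467335886408360148938511504537863862674017893545020455329274818580639584742096604820104954672405421954499476117109293977012500836342088545892578137079196257338701443051500553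466949273631751977569018317222292392482403508846443677622801127864911345387709857146258159000495742297056137433489256515677052763128433556874598635486524397067070831048681977673308144690018628386818640412536234061806989168719620227690187112934236858025119168859397725630906098410793648577808496667567460481243521858286051382732683361875270214783377612332824312192170283247731471514635386357487708593978743321935132557982687826879645609363525870903488797418389441052101281014261234520585227678220963226329536293662857365465491641761160056569827655347097167642537213254419608879169395839059552256963662501056287466384068666750156440625731270804564036667967972131538193623888782681583036253150185763489164904792388097632648370488314061290455228674470117687528682254729841179226691855592204795526412561806914469815181533230362281627048365706734352261168034549714312251317705605643216839783484388470197099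852009823530638467847456663876522783612316159537170580109250439560515784913172226125530469720488453787307749213259768096684131005048030941358237018081533603228336391661275203027881375882395446737499503612672089262275060253502783435808641534942863748582554243862542442308436901034409382607998498089355802418752574961598250394357957242483244052814370789685991206755930566545119225544599633898287967628705909881408385567033364710826516463055830553251236636257621567708807865022713588409187703825135813814196518357054860276508970691416440035826941823092370869571744083465182756961353565968959638733998294240360542578686120993233015374636109702654123758996074371063406932661538652160)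

end Vale.Agent.Lib.P154.PChain.BU.S5
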